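import Vale.Agent.Lib.P154.PChain.BA.L

set_option linter.all false

namespace Vale.Agent.Lib.P154.PChain.BA.S0

open Vale.Agent.Lib.P154.Chain

noncomputable def pc0 : PT := (PT.nd (nat_lit 1375920) (PT.nd (nat_lit 1001130) (PT.nd (nat_lit 766974) (PT.nd (nat_lit 673296) (PT.nd (nat_lit 626418) (PT.nd (nat_lit 579618) PT.nil (PT.lf (nat_lit 836) (nat_lit 3) (nat_lit 11) (nat_lit 1) (nat_lit 219) (nat_lit 12) (nat_lit 219))) (PT.nd (nat_lit 78) (PT.lf (nat_lit 912) (nat_lit 6) (nat_lit 12) (nat_lit 3) (nat_lit 218) (nat_lit 13) (nat_lit 219)) (PT.lf (nat_lit 912) (nat_lit 6) (nat_lit 12) (nat_lit 1) (nat_lit 219) (nat_lit 13) (nat_lit 218)))) (PT.nd (nat_lit 46800) (PT.lf (nat_lit 1064) (nat_lit 3) (nat_lit 14) (nat_lit 1) (nat_lit 218) (nat_lit 14) (nat_lit 218)) (PT.nd (nat_lit 78) (PT.lf (nat_lit 1140) (nat_lit 6) (nat_lit 15) (nat_lit 3) (nat_lit 217) (nat_lit 15) (nat_lit 218)) (PT.lf (nat_lit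 1140) (nat_lit 6) (nat_lit 15) (nat_lit 1) (nat_lit 218) (nat_lit 15) (nat_lit 217))))) (PT.nd (nat_lit 93678) (PT.nd (nat_lit 46800) (PT.lf (nat_lit 1292) (nat_lit 3) (nat_lit 17) (nat_lit 1) (nat_lit 217) (nat_lit 16) (nat_lit 217)) (PT.nd (nat_lit 78) (PT.lf (nat_lit 1368) (nat_lit 6) (nat_lit 18) (nat_lit 3) (nat_lit 216) (nat_lit 17) (nat_lit 217)) (PT.lf (nat_lit 1368) (nat_lit 6) (nat_lit 18) (nat_lit 1) (nat_lit 217) (nat_lit 17) (nat_lit 216)))) (PT.nd (nat_lit 46878) (PT.nd (nat_lit 46800) (PT.lf (nat_lit 1520) (nat_lit 3) (nat_lit 20) (nat_lit 1) (nat_lit 216) (nat_lit 18) (nat_lit 216)) (PT.lf (nat_lit 1596) (nat_lit 6) (nat_lit 21) (nat_lit 3) (nat_lit 215) (nat_lit 19) (nat_lit 216))) (PT.nd (nat_lit 46800) (PT.lf (nat_lit 1596) (nat_lit 6) (nat_lit 21) (nat_lit 1) (nat_lit 216) (nat_lit 19) (nat_lit 215)) (PT.lf (nat_lit 1748) (nat_lit 3) (nat_lit 23) (nat_lit 1) (nat_lit 215) (nat_lit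 20) (nat_lit 215)))))) (PT.nd (nat_lit 187356) (PT.nd (nat_lit 93678) (PT.nd (nat_lit 78) (PT.lf (nat_lit 1824) (nat_lit 6) (nat_lit 24) (nat_lit 3) (nat_lit 214) (nat_lit 21) (nat_lit 215)) (PT.nd (nat_lit 46800) (PT.lf (nat_lit 1824) (nat_lit 6) (nat_lit 24) (nat_lit 1) (nat_lit 215) (nat_lit 21) (nat_lit 214)) (PT.lf (nat_lit 1976) (nat_lit 3) (nat_lit 26) (nat_lit 1) (nat_lit 214) (nat_lit 22) (nat_lit 214)))) (PT.nd (nat_lit 78) (PT.lf (nat_lit 2052) (nat_lit 6) (nat_lit 27) (nat_lit 3) (nat_lit 213) (nat_lit 23) (nat_lit 214)) (PT.nd (nat_lit 46800) (PT.lf (nat_lit 2052) (nat_lit 6) (nat_lit 27) (nat_lit 1) (nat_lit 214) (nat_lit 23) (nat_lit 213)) (PT.lf (nat_lit 2204) (nat_lit 3) (nat_lit 29) (nat_lit 1) (nat_lit 213) (nat_lit 24) (nat_lit 213))))) (PT.nd (nat_lit 93678) (PT.nd (nat_lit 78) (PT.lf (nat_lit 2280) (nat_lit 6) (nat_lit 30) (nat_lit 3) (nat_lit 212) (nat_lit 25) (nat_lit 213))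 (PT.nd (nat_lit 46800) (PT.lf (nat_lit 2280) (nat_lit 6) (nat_lit 30) (nat_lit 1) (nat_lit 213) (nat_lit 25) (nat_lit 212)) (PT.lf (nat_lit 2432) (nat_lit 3) (nat_lit 32) (nat_lit 1) (nat_lit 212) (nat_lit 26) (nat_lit 212)))) (PT.nd (nat_lit 46878) (PT.nd (nat_lit 78) (PT.lf (nat_lit 2508) (nat_lit 6) (nat_lit 33) (nat_lit 3) (nat_lit 211) (nat_lit 27) (nat_lit 212)) (PT.lf (nat_lit 2508) (nat_lit 6) (nat_lit 33) (nat_lit 1) (nat_lit 212) (nat_lit 27) (nat_lit 211))) (PT.nd (nat_lit 46800) (PT.lf (nat_lit 2660) (nat_lit 3) (nat_lit 35) (nat_lit 1) (nat_lit 211) (nat_lit 28) (nat_lit 211)) (PT.lf (nat_lit 2736) (nat_lit 6) (nat_lit 36) (nat_lit 3) (nat_lit 210) (nat_lit 29) (nat_lit 211))))))) (PT.nd (nat_lit 421512) (PT.nd (nat_lit 187356) (PT.nd (nat_lit 93678) (PT.nd (nat_lit 46800) (PT.lf (nat_lit 2736) (nat_lit 6) (nat_lit 36) (nat_lit 1) (nat_lit 211) (nat_lit 29) (nat_lit 210)) (PT.nd (nat_lit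 46800) (PT.lf (nat_lit 2888) (nat_lit 3) (nat_lit 38) (nat_lit 1) (nat_lit 210) (nat_lit 30) (nat_lit 210)) (PT.lf (nat_lit 2964) (nat_lit 6) (nat_lit 39) (nat_lit 3) (nat_lit 209) (nat_lit 31) (nat_lit 210)))) (PT.nd (nat_lit 46800) (PT.lf (nat_lit 2964) (nat_lit 6) (nat_lit 39) (nat_lit 1) (nat_lit 210) (nat_lit 31) (nat_lit 209)) (PT.nd (nat_lit 46800) (PT.lf (nat_lit 3116) (nat_lit 3) (nat_lit 41) (nat_lit 1) (nat_lit 209) (nat_lit 32) (nat_lit 209)) (PT.lf (nat_lit 3192) (nat_lit 6) (nat_lit 42) (nat_lit 3) (nat_lit 208) (nat_lit 33) (nat_lit 209))))) (PT.nd (nat_lit 93678) (PT.nd (nat_lit 46800) (PT.lf (nat_lit 3192) (nat_lit 6) (nat_lit 42) (nat_lit 1) (nat_lit 209) (nat_lit 33) (nat_lit 208)) (PT.nd (nat_lit 46800) (PT.lf (nat_lit 3344) (nat_lit 3) (nat_lit 44) (nat_lit 1) (nat_lit 208) (nat_lit 34) (nat_lit 208)) (PT.lf (nat_lit 3420) (nat_lit 6) (nat_lit 45) (nat_lit 3) (nat_lit 207)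 (nat_lit 35) (nat_lit 208)))) (PT.nd (nat_lit 93600) (PT.nd (nat_lit 46800) (PT.lf (nat_lit 3420) (nat_lit 6) (nat_lit 45) (nat_lit 1) (nat_lit 208) (nat_lit 35) (nat_lit 207)) (PT.lf (nat_lit 3572) (nat_lit 3) (nat_lit 47) (nat_lit 1) (nat_lit 207) (nat_lit 36) (nat_lit 207))) (PT.nd (nat_lit 78) (PT.lf (nat_lit 3648) (nat_lit 6) (nat_lit 48) (nat_lit 3) (nat_lit 206) (nat_lit 37) (nat_lit 207)) (PT.lf (nat_lit 3648) (nat_lit 6) (nat_lit 48) (nat_lit 1) (nat_lit 207) (nat_lit 37) (nat_lit 206)))))) (PT.nd (nat_lit 234156) (PT.nd (nat_lit 93678) (PT.nd (nat_lit 46800) (PT.lf (nat_lit 3800) (nat_lit 3) (nat_lit 50) (nat_lit 1) (nat_lit 206) (nat_lit 38) (nat_lit 206)) (PT.nd (nat_lit 78) (PT.lf (nat_lit 3876) (nat_lit 6) (nat_lit 51) (nat_lit 3) (nat_lit 205) (nat_lit 39) (nat_lit 206)) (PT.lf (nat_lit 3876) (nat_lit 6) (nat_lit 51) (nat_lit 1) (nat_lit 206) (nat_lit 39) (nat_lit 205)))) (PT.nd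 (nat_lit 46878) (PT.nd (nat_lit 46800) (PT.lf (nat_lit 4028) (nat_lit 3) (nat_lit 53) (nat_lit 1) (nat_lit 205) (nat_lit 40) (nat_lit 205)) (PT.lf (nat_lit 4104) (nat_lit 6) (nat_lit 54) (nat_lit 3) (nat_lit 204) (nat_lit 41) (nat_lit 205))) (PT.nd (nat_lit 46800) (PT.lf (nat_lit 4104) (nat_lit 6) (nat_lit 54) (nat_lit 1) (nat_lit 205) (nat_lit 41) (nat_lit 204)) (PT.lf (nat_lit 4256) (nat_lit 3) (nat_lit 56) (nat_lit 1) (nat_lit 204) (nat_lit 42) (nat_lit 204))))) (PT.nd (nat_lit 93678) (PT.nd (nat_lit 78) (PT.lf (nat_lit 4332) (nat_lit 6) (nat_lit 57) (nat_lit 3) (nat_lit 203) (nat_lit 43) (nat_lit 204)) (PT.nd (nat_lit 46800) (PT.lf (nat_lit 4332) (nat_lit 6) (nat_lit 57) (nat_lit 1) (nat_lit 204) (nat_lit 43) (nat_lit 203)) (PT.lf (nat_lit 4484) (nat_lit 3) (nat_lit 59) (nat_lit 1) (nat_lit 203) (nat_lit 44) (nat_lit 203)))) (PT.nd (nat_lit 46878) (PT.nd (nat_lit 78) (PT.lf (nat_lit 4560) (nat_lit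 6) (nat_lit 60) (nat_lit 3) (nat_lit 202) (nat_lit 45) (nat_lit 203)) (PT.lf (nat_lit 4560) (nat_lit 6) (nat_lit 60) (nat_lit 1) (nat_lit 203) (nat_lit 45) (nat_lit 202))) (PT.nd (nat_lit 46800) (PT.lf (nat_lit 4712) (nat_lit 3) (nat_lit 62) (nat_lit 1) (nat_lit 202) (nat_lit 46) (nat_lit 202)) (PT.lf (nat_lit 4788) (nat_lit 6) (nat_lit 63) (nat_lit 3) (nat_lit 201) (nat_lit 47) (nat_lit 202))))))))
noncomputable def pc1 : PT := (PT.nd (nat_lit 843102) (PT.nd (nat_lit 421512) (PT.nd (nat_lit 187356) (PT.nd (nat_lit 93678) (PT.nd (nat_lit 46800) (PT.lf (nat_lit 4788) (nat_lit 6) (nat_lit 63) (nat_lit 1) (nat_lit 202) (nat_lit 47) (nat_lit 201)) (PT.nd (nat_lit 46800) (PT.lf (nat_lit 4940) (nat_lit 3) (nat_lit 65) (nat_lit 1) (nat_lit 201) (nat_lit 48) (nat_lit 201)) (PT.lf (nat_lit 5016) (nat_lit 6) (nat_lit 66) (nat_lit 3) (nat_lit 200) (nat_lit 49) (nat_lit 201)))) (PT.nd (nat_lit 46800) (PT.lf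 (nat_lit 5016) (nat_lit 6) (nat_lit 66) (nat_lit 1) (nat_lit 201) (nat_lit 49) (nat_lit 200)) (PT.nd (nat_lit 46800) (PT.lf (nat_lit 5168) (nat_lit 3) (nat_lit 68) (nat_lit 1) (nat_lit 200) (nat_lit 50) (nat_lit 200)) (PT.lf (nat_lit 5244) (nat_lit 6) (nat_lit 69) (nat_lit 3) (nat_lit 199) (nat_lit 51) (nat_lit 200))))) (PT.nd (nat_lit 93678) (PT.nd (nat_lit 46800) (PT.lf (nat_lit 5244) (nat_lit 6) (nat_lit 69) (nat_lit 1) (nat_lit 200) (nat_lit 51) (nat_lit 199)) (PT.nd (nat_lit 46800) (PT.lf (nat_lit 5396) (nat_lit 3) (nat_lit 71) (nat_lit 1) (nat_lit 199) (nat_lit 52) (nat_lit 199)) (PT.lf (nat_lit 5472) (nat_lit 6) (nat_lit 72) (nat_lit 3) (nat_lit 198) (nat_lit 53) (nat_lit 199)))) (PT.nd (nat_lit 93600) (PT.nd (nat_lit 46800) (PT.lf (nat_lit 5472) (nat_lit 6) (nat_lit 72) (nat_lit 1) (nat_lit 199) (nat_lit 53) (nat_lit 198)) (PT.lf (nat_lit 5624) (nat_lit 3) (nat_lit 74) (nat_lit 1) (nat_lit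 198) (nat_lit 54) (nat_lit 198))) (PT.nd (nat_lit 78) (PT.lf (nat_lit 5700) (nat_lit 6) (nat_lit 75) (nat_lit 3) (nat_lit 197) (nat_lit 55) (nat_lit 198)) (PT.lf (nat_lit 5700) (nat_lit 6) (nat_lit 75) (nat_lit 1) (nat_lit 198) (nat_lit 55) (nat_lit 197)))))) (PT.nd (nat_lit 234156) (PT.nd (nat_lit 93678) (PT.nd (nat_lit 46800) (PT.lf (nat_lit 5852) (nat_lit 3) (nat_lit 77) (nat_lit 1) (nat_lit 197) (nat_lit 56) (nat_lit 197)) (PT.nd (nat_lit 78) (PT.lf (nat_lit 5928) (nat_lit 6) (nat_lit 78) (nat_lit 3) (nat_lit 196) (nat_lit 57) (nat_lit 197)) (PT.lf (nat_lit 5928) (nat_lit 6) (nat_lit 78) (nat_lit 1) (nat_lit 197) (nat_lit 57) (nat_lit 196)))) (PT.nd (nat_lit 46878) (PT.nd (nat_lit 46800) (PT.lf (nat_lit 6080) (nat_lit 3) (nat_lit 80) (nat_lit 1) (nat_lit 196) (nat_lit 58) (nat_lit 196)) (PT.lf (nat_lit 6156) (nat_lit 6) (nat_lit 81) (nat_lit 3) (nat_lit 195) (nat_lit 59) (nat_lit 196))) (PT.nd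 (nat_lit 46800) (PT.lf (nat_lit 6156) (nat_lit 6) (nat_lit 81) (nat_lit 1) (nat_lit 196) (nat_lit 59) (nat_lit 195)) (PT.lf (nat_lit 6308) (nat_lit 3) (nat_lit 83) (nat_lit 1) (nat_lit 195) (nat_lit 60) (nat_lit 195))))) (PT.nd (nat_lit 93678) (PT.nd (nat_lit 78) (PT.lf (nat_lit 6384) (nat_lit 6) (nat_lit 84) (nat_lit 3) (nat_lit 194) (nat_lit 61) (nat_lit 195)) (PT.nd (nat_lit 46800) (PT.lf (nat_lit 6384) (nat_lit 6) (nat_lit 84) (nat_lit 1) (nat_lit 195) (nat_lit 61) (nat_lit 194)) (PT.lf (nat_lit 6536) (nat_lit 3) (nat_lit 86) (nat_lit 1) (nat_lit 194) (nat_lit 62) (nat_lit 194)))) (PT.nd (nat_lit 46878) (PT.nd (nat_lit 78) (PT.lf (nat_lit 6612) (nat_lit 6) (nat_lit 87) (nat_lit 3) (nat_lit 193) (nat_lit 63) (nat_lit 194)) (PT.lf (nat_lit 6612) (nat_lit 6) (nat_lit 87) (nat_lit 1) (nat_lit 194) (nat_lit 63) (nat_lit 193))) (PT.nd (nat_lit 46800) (PT.lf (nat_lit 6764) (nat_lit 3) (nat_lit 89)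 (nat_lit 1) (nat_lit 193) (nat_lit 64) (nat_lit 193)) (PT.lf (nat_lit 6840) (nat_lit 6) (nat_lit 90) (nat_lit 3) (nat_lit 192) (nat_lit 65) (nat_lit 193))))))) (PT.nd (nat_lit 421512) (PT.nd (nat_lit 187356) (PT.nd (nat_lit 93678) (PT.nd (nat_lit 46800) (PT.lf (nat_lit 6840) (nat_lit 6) (nat_lit 90) (nat_lit 1) (nat_lit 193) (nat_lit 65) (nat_lit 192)) (PT.nd (nat_lit 46800) (PT.lf (nat_lit 6992) (nat_lit 3) (nat_lit 92) (nat_lit 1) (nat_lit 192) (nat_lit 66) (nat_lit 192)) (PT.lf (nat_lit 7068) (nat_lit 6) (nat_lit 93) (nat_lit 3) (nat_lit 191) (nat_lit 67) (nat_lit 192)))) (PT.nd (nat_lit 46800) (PT.lf (nat_lit 7068) (nat_lit 6) (nat_lit 93) (nat_lit 1) (nat_lit 192) (nat_lit 67) (nat_lit 191)) (PT.nd (nat_lit 46800) (PT.lf (nat_lit 7220) (nat_lit 3) (nat_lit 95) (nat_lit 1) (nat_lit 191) (nat_lit 68) (nat_lit 191)) (PT.lf (nat_lit 7296) (nat_lit 6) (nat_lit 96) (nat_lit 3) (nat_lit 190) (nat_lit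 69) (nat_lit 191))))) (PT.nd (nat_lit 93678) (PT.nd (nat_lit 46800) (PT.lf (nat_lit 7296) (nat_lit 6) (nat_lit 96) (nat_lit 1) (nat_lit 191) (nat_lit 69) (nat_lit 190)) (PT.nd (nat_lit 46800) (PT.lf (nat_lit 7448) (nat_lit 3) (nat_lit 98) (nat_lit 1) (nat_lit 190) (nat_lit 70) (nat_lit 190)) (PT.lf (nat_lit 7524) (nat_lit 6) (nat_lit 99) (nat_lit 3) (nat_lit 189) (nat_lit 71) (nat_lit 190)))) (PT.nd (nat_lit 93600) (PT.nd (nat_lit 46800) (PT.lf (nat_lit 7524) (nat_lit 6) (nat_lit 99) (nat_lit 1) (nat_lit 190) (nat_lit 71) (nat_lit 189)) (PT.lf (nat_lit 7676) (nat_lit 3) (nat_lit 101) (nat_lit 1) (nat_lit 189) (nat_lit 72) (nat_lit 189))) (PT.nd (nat_lit 78) (PT.lf (nat_lit 7752) (nat_lit 6) (nat_lit 102) (nat_lit 3) (nat_lit 188) (nat_lit 73) (nat_lit 189)) (PT.lf (nat_lit 7752) (nat_lit 6) (nat_lit 102) (nat_lit 1) (nat_lit 189) (nat_lit 73) (nat_lit 188)))))) (PT.nd (nat_lit 234156) (PT.nd (nat_lit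 93678) (PT.nd (nat_lit 46800) (PT.lf (nat_lit 7904) (nat_lit 3) (nat_lit 104) (nat_lit 1) (nat_lit 188) (nat_lit 74) (nat_lit 188)) (PT.nd (nat_lit 78) (PT.lf (nat_lit 7980) (nat_lit 6) (nat_lit 105) (nat_lit 3) (nat_lit 187) (nat_lit 75) (nat_lit 188)) (PT.lf (nat_lit 7980) (nat_lit 6) (nat_lit 105) (nat_lit 1) (nat_lit 188) (nat_lit 75) (nat_lit 187)))) (PT.nd (nat_lit 46878) (PT.nd (nat_lit 46800) (PT.lf (nat_lit 8132) (nat_lit 3) (nat_lit 107) (nat_lit 1) (nat_lit 187) (nat_lit 76) (nat_lit 187)) (PT.lf (nat_lit 8208) (nat_lit 6) (nat_lit 108) (nat_lit 3) (nat_lit 186) (nat_lit 77) (nat_lit 187))) (PT.nd (nat_lit 46800) (PT.lf (nat_lit 8208) (nat_lit 6) (nat_lit 108) (nat_lit 1) (nat_lit 187) (nat_lit 77) (nat_lit 186)) (PT.lf (nat_lit 8360) (nat_lit 3) (nat_lit 110) (nat_lit 1) (nat_lit 186) (nat_lit 78) (nat_lit 186))))) (PT.nd (nat_lit 93678) (PT.nd (nat_lit 78) (PT.lf (nat_lit 8436) (nat_lit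 6) (nat_lit 111) (nat_lit 3) (nat_lit 185) (nat_lit 79) (nat_lit 186)) (PT.nd (nat_lit 46800) (PT.lf (nat_lit 8436) (nat_lit 6) (nat_lit 111) (nat_lit 1) (nat_lit 186) (nat_lit 79) (nat_lit 185)) (PT.lf (nat_lit 8588) (nat_lit 3) (nat_lit 113) (nat_lit 1) (nat_lit 185) (nat_lit 80) (nat_lit 185)))) (PT.nd (nat_lit 46878) (PT.nd (nat_lit 78) (PT.lf (nat_lit 8664) (nat_lit 6) (nat_lit 114) (nat_lit 3) (nat_lit 184) (nat_lit 81) (nat_lit 185)) (PT.lf (nat_lit 8664) (nat_lit 6) (nat_lit 114) (nat_lit 1) (nat_lit 185) (nat_lit 81) (nat_lit 184))) (PT.nd (nat_lit 46800) (PT.lf (nat_lit 8816) (nat_lit 3) (nat_lit 116) (nat_lit 1) (nat_lit 184) (nat_lit 82) (nat_lit 184)) (PT.lf (nat_lit 8892) (nat_lit 6) (nat_lit 117) (nat_lit 3) (nat_lit 183) (nat_lit 83) (nat_lit 184))))))))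
noncomputable def pc2 : PT := (PT.nd (nat_lit 608790) (PT.nd (nat_lit 327834) (PT.nd (nat_lit 187356) (PT.nd (nat_lit 93678) (PT.nd (nat_lit 46800) (PT.lf (nat_lit 8892) (nat_lit 6) (nat_lit 117) (nat_lit 1) (nat_lit 184) (nat_lit 83) (nat_lit 183)) (PT.nd (nat_lit 46800) (PT.lf (nat_lit 9044) (nat_lit 3) (nat_lit 119) (nat_lit 1) (nat_lit 183) (nat_lit 84) (nat_lit 183)) (PT.lf (nat_lit 9120) (nat_lit 6) (nat_lit 120) (nat_lit 3) (nat_lit 182) (nat_lit 85) (nat_lit 183)))) (PT.nd (nat_lit 46800) (PT.lf (nat_lit 9120) (nat_lit 6) (nat_lit 120) (nat_lit 1) (nat_lit 183) (nat_lit 85) (nat_lit 182)) (PT.nd (nat_lit 46800) (PT.lf (nat_lit 9272) (nat_lit 3) (nat_lit 122) (nat_lit 1) (nat_lit 182) (nat_lit 86) (nat_lit 182)) (PT.lf (nat_lit 9348) (nat_lit 6) (nat_lit 123) (nat_lit 3) (nat_lit 181) (nat_lit 87) (nat_lit 182))))) (PT.nd (nat_lit 46878) (PT.nd (nat_lit 46722) (PT.lf (nat_lit 9348) (nat_lit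 6) (nat_lit 123) (nat_lit 1) (nat_lit 182) (nat_lit 87) (nat_lit 181)) (PT.nd (nat_lit 78) (PT.lf (nat_lit 9424) (nat_lit 6) (nat_lit 124) (nat_lit 3) (nat_lit 180) (nat_lit 88) (nat_lit 182)) (PT.lf (nat_lit 9500) (nat_lit 3) (nat_lit 125) (nat_lit 1) (nat_lit 181) (nat_lit 88) (nat_lit 181)))) (PT.nd (nat_lit 46800) (PT.nd (nat_lit 46722) (PT.lf (nat_lit 9424) (nat_lit 6) (nat_lit 124) (nat_lit 1) (nat_lit 182) (nat_lit 88) (nat_lit 180)) (PT.lf (nat_lit 9576) (nat_lit 6) (nat_lit 126) (nat_lit 3) (nat_lit 180) (nat_lit 89) (nat_lit 181))) (PT.nd (nat_lit 46722) (PT.lf (nat_lit 9576) (nat_lit 6) (nat_lit 126) (nat_lit 1) (nat_lit 181) (nat_lit 89) (nat_lit 180)) (PT.lf (nat_lit 9652) (nat_lit 6) (nat_lit 127) (nat_lit 3) (nat_lit 179) (nat_lit 90) (nat_lit 181)))))) (PT.nd (nat_lit 140478) (PT.nd (nat_lit 46878) (PT.nd (nat_lit 78) (PT.lf (nat_lit 9728) (nat_lit 3) (nat_lit 128) (nat_lit 1) (nat_lit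 180) (nat_lit 90) (nat_lit 180)) (PT.nd (nat_lit 46722) (PT.lf (nat_lit 9652) (nat_lit 6) (nat_lit 127) (nat_lit 1) (nat_lit 181) (nat_lit 90) (nat_lit 179)) (PT.lf (nat_lit 9804) (nat_lit 6) (nat_lit 129) (nat_lit 3) (nat_lit 179) (nat_lit 91) (nat_lit 180)))) (PT.nd (nat_lit 46800) (PT.nd (nat_lit 46722) (PT.lf (nat_lit 9804) (nat_lit 6) (nat_lit 129) (nat_lit 1) (nat_lit 180) (nat_lit 91) (nat_lit 179)) (PT.lf (nat_lit 9880) (nat_lit 6) (nat_lit 130) (nat_lit 3) (nat_lit 178) (nat_lit 92) (nat_lit 180))) (PT.nd (nat_lit 78) (PT.lf (nat_lit 9956) (nat_lit 3) (nat_lit 131) (nat_lit 1) (nat_lit 179) (nat_lit 92) (nat_lit 179)) (PT.lf (nat_lit 9880) (nat_lit 6) (nat_lit 130) (nat_lit 1) (nat_lit 180) (nat_lit 92) (nat_lit 178))))) (PT.nd (nat_lit 46878) (PT.nd (nat_lit 78) (PT.lf (nat_lit 10032) (nat_lit 6) (nat_lit 132) (nat_lit 3) (nat_lit 178) (nat_lit 93) (nat_lit 179)) (PT.nd (nat_lit 46722)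 (PT.lf (nat_lit 10032) (nat_lit 6) (nat_lit 132) (nat_lit 1) (nat_lit 179) (nat_lit 93) (nat_lit 178)) (PT.lf (nat_lit 10108) (nat_lit 6) (nat_lit 133) (nat_lit 3) (nat_lit 177) (nat_lit 94) (nat_lit 179)))) (PT.nd (nat_lit 46800) (PT.nd (nat_lit 78) (PT.lf (nat_lit 10184) (nat_lit 3) (nat_lit 134) (nat_lit 1) (nat_lit 178) (nat_lit 94) (nat_lit 178)) (PT.lf (nat_lit 10108) (nat_lit 6) (nat_lit 133) (nat_lit 1) (nat_lit 179) (nat_lit 94) (nat_lit 177))) (PT.nd (nat_lit 78) (PT.lf (nat_lit 10260) (nat_lit 6) (nat_lit 135) (nat_lit 3) (nat_lit 177) (nat_lit 95) (nat_lit 178)) (PT.lf (nat_lit 10260) (nat_lit 6) (nat_lit 135) (nat_lit 1) (nat_lit 178) (nat_lit 95) (nat_lit 177))))))) (PT.nd (nat_lit 234234) (PT.nd (nat_lit 93756) (PT.nd (nat_lit 46878) (PT.nd (nat_lit 78) (PT.lf (nat_lit 10336) (nat_lit 6) (nat_lit 136) (nat_lit 3) (nat_lit 176) (nat_lit 96) (nat_lit 178)) (PT.nd (nat_lit 78) (PT.lf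 (nat_lit 10412) (nat_lit 3) (nat_lit 137) (nat_lit 1) (nat_lit 177) (nat_lit 96) (nat_lit 177)) (PT.lf (nat_lit 10336) (nat_lit 6) (nat_lit 136) (nat_lit 1) (nat_lit 178) (nat_lit 96) (nat_lit 176)))) (PT.nd (nat_lit 78) (PT.lf (nat_lit 10488) (nat_lit 6) (nat_lit 138) (nat_lit 3) (nat_lit 176) (nat_lit 97) (nat_lit 177)) (PT.nd (nat_lit 46722) (PT.lf (nat_lit 10488) (nat_lit 6) (nat_lit 138) (nat_lit 1) (nat_lit 177) (nat_lit 97) (nat_lit 176)) (PT.lf (nat_lit 10564) (nat_lit 6) (nat_lit 139) (nat_lit 3) (nat_lit 175) (nat_lit 98) (nat_lit 177))))) (PT.nd (nat_lit 46878) (PT.nd (nat_lit 78) (PT.lf (nat_lit 10640) (nat_lit 3) (nat_lit 140) (nat_lit 1) (nat_lit 176) (nat_lit 98) (nat_lit 176)) (PT.nd (nat_lit 46722) (PT.lf (nat_lit 10564) (nat_lit 6) (nat_lit 139) (nat_lit 1) (nat_lit 177) (nat_lit 98) (nat_lit 175)) (PT.lf (nat_lit 10716) (nat_lit 6) (nat_lit 141) (nat_lit 3) (nat_lit 175) (nat_lit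 99) (nat_lit 176)))) (PT.nd (nat_lit 46800) (PT.nd (nat_lit 46722) (PT.lf (nat_lit 10716) (nat_lit 6) (nat_lit 141) (nat_lit 1) (nat_lit 176) (nat_lit 99) (nat_lit 175)) (PT.lf (nat_lit 10792) (nat_lit 6) (nat_lit 142) (nat_lit 3) (nat_lit 174) (nat_lit 100) (nat_lit 176))) (PT.nd (nat_lit 78) (PT.lf (nat_lit 10868) (nat_lit 3) (nat_lit 143) (nat_lit 1) (nat_lit 175) (nat_lit 100) (nat_lit 175)) (PT.lf (nat_lit 10792) (nat_lit 6) (nat_lit 142) (nat_lit 1) (nat_lit 176) (nat_lit 100) (nat_lit 174)))))) (PT.nd (nat_lit 140478) (PT.nd (nat_lit 46878) (PT.nd (nat_lit 78) (PT.lf (nat_lit 10944) (nat_lit 6) (nat_lit 144) (nat_lit 3) (nat_lit 174) (nat_lit 101) (nat_lit 175)) (PT.nd (nat_lit 46722) (PT.lf (nat_lit 10944) (nat_lit 6) (nat_lit 144) (nat_lit 1) (nat_lit 175) (nat_lit 101) (nat_lit 174)) (PT.lf (nat_lit 11020) (nat_lit 6) (nat_lit 145) (nat_lit 3) (nat_lit 173) (nat_lit 102) (nat_lit 175))))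 (PT.nd (nat_lit 46800) (PT.nd (nat_lit 78) (PT.lf (nat_lit 11096) (nat_lit 3) (nat_lit 146) (nat_lit 1) (nat_lit 174) (nat_lit 102) (nat_lit 174)) (PT.lf (nat_lit 11020) (nat_lit 6) (nat_lit 145) (nat_lit 1) (nat_lit 175) (nat_lit 102) (nat_lit 173))) (PT.nd (nat_lit 78) (PT.lf (nat_lit 11172) (nat_lit 6) (nat_lit 147) (nat_lit 3) (nat_lit 173) (nat_lit 103) (nat_lit 174)) (PT.lf (nat_lit 11172) (nat_lit 6) (nat_lit 147) (nat_lit 1) (nat_lit 174) (nat_lit 103) (nat_lit 173))))) (PT.nd (nat_lit 46878) (PT.nd (nat_lit 78) (PT.lf (nat_lit 11248) (nat_lit 6) (nat_lit 148) (nat_lit 3) (nat_lit 172) (nat_lit 104) (nat_lit 174)) (PT.nd (nat_lit 78) (PT.lf (nat_lit 11324) (nat_lit 3) (nat_lit 149) (nat_lit 1) (nat_lit 173) (nat_lit 104) (nat_lit 173)) (PT.lf (nat_lit 11248) (nat_lit 6) (nat_lit 148) (nat_lit 1) (nat_lit 174) (nat_lit 104) (nat_lit 172)))) (PT.nd (nat_lit 46800) (PT.nd (nat_lit 78) (PT.lf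 (nat_lit 11400) (nat_lit 6) (nat_lit 150) (nat_lit 3) (nat_lit 172) (nat_lit 105) (nat_lit 173)) (PT.lf (nat_lit 11400) (nat_lit 6) (nat_lit 150) (nat_lit 1) (nat_lit 173) (nat_lit 105) (nat_lit 172))) (PT.nd (nat_lit 78) (PT.lf (nat_lit 11476) (nat_lit 6) (nat_lit 151) (nat_lit 3) (nat_lit 171) (nat_lit 106) (nat_lit 173)) (PT.lf (nat_lit 11552) (nat_lit 3) (nat_lit 152) (nat_lit 1) (nat_lit 172) (nat_lit 106) (nat_lit 172))))))))
noncomputable def pc3 : PT := (PT.nd (nat_lit 515190) (PT.nd (nat_lit 280878) (PT.nd (nat_lit 140400) (PT.nd (nat_lit 93522) (PT.nd (nat_lit 46722) (PT.lf (nat_lit 11476) (nat_lit 6) (nat_lit 151) (nat_lit 1) (nat_lit 173) (nat_lit 106) (nat_lit 171)) (PT.nd (nat_lit 78) (PT.lf (nat_lit 11628) (nat_lit 6) (nat_lit 153) (nat_lit 3) (nat_lit 171) (nat_lit 107) (nat_lit 172)) (PT.lf (nat_lit 11628) (nat_lit 6) (nat_lit 153) (nat_lit 1) (nat_lit 172) (nat_lit 107) (nat_lit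 171)))) (PT.nd (nat_lit 78) (PT.lf (nat_lit 11704) (nat_lit 6) (nat_lit 154) (nat_lit 3) (nat_lit 170) (nat_lit 108) (nat_lit 172)) (PT.nd (nat_lit 78) (PT.lf (nat_lit 11780) (nat_lit 3) (nat_lit 155) (nat_lit 1) (nat_lit 171) (nat_lit 108) (nat_lit 171)) (PT.lf (nat_lit 11704) (nat_lit 6) (nat_lit 154) (nat_lit 1) (nat_lit 172) (nat_lit 108) (nat_lit 170))))) (PT.nd (nat_lit 46878) (PT.nd (nat_lit 78) (PT.lf (nat_lit 11856) (nat_lit 6) (nat_lit 156) (nat_lit 3) (nat_lit 170) (nat_lit 109) (nat_lit 171)) (PT.nd (nat_lit 46722) (PT.lf (nat_lit 11856) (nat_lit 6) (nat_lit 156) (nat_lit 1) (nat_lit 171) (nat_lit 109) (nat_lit 170)) (PT.lf (nat_lit 11932) (nat_lit 6) (nat_lit 157) (nat_lit 3) (nat_lit 169) (nat_lit 110) (nat_lit 171)))) (PT.nd (nat_lit 46800) (PT.nd (nat_lit 78) (PT.lf (nat_lit 12008) (nat_lit 3) (nat_lit 158) (nat_lit 1) (nat_lit 170) (nat_lit 110) (nat_lit 170)) (PT.lf (nat_lit 11932)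 (nat_lit 6) (nat_lit 157) (nat_lit 1) (nat_lit 171) (nat_lit 110) (nat_lit 169))) (PT.nd (nat_lit 78) (PT.lf (nat_lit 12084) (nat_lit 6) (nat_lit 159) (nat_lit 3) (nat_lit 169) (nat_lit 111) (nat_lit 170)) (PT.lf (nat_lit 12084) (nat_lit 6) (nat_lit 159) (nat_lit 1) (nat_lit 170) (nat_lit 111) (nat_lit 169)))))) (PT.nd (nat_lit 93834) (PT.nd (nat_lit 46878) (PT.nd (nat_lit 78) (PT.lf (nat_lit 12160) (nat_lit 6) (nat_lit 160) (nat_lit 3) (nat_lit 168) (nat_lit 112) (nat_lit 170)) (PT.nd (nat_lit 78) (PT.lf (nat_lit 12236) (nat_lit 3) (nat_lit 161) (nat_lit 1) (nat_lit 169) (nat_lit 112) (nat_lit 169)) (PT.lf (nat_lit 12160) (nat_lit 6) (nat_lit 160) (nat_lit 1) (nat_lit 170) (nat_lit 112) (nat_lit 168)))) (PT.nd (nat_lit 46800) (PT.nd (nat_lit 78) (PT.lf (nat_lit 12312) (nat_lit 6) (nat_lit 162) (nat_lit 3) (nat_lit 168) (nat_lit 113) (nat_lit 169)) (PT.lf (nat_lit 12312) (nat_lit 6) (nat_lit 162)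 (nat_lit 1) (nat_lit 169) (nat_lit 113) (nat_lit 168))) (PT.nd (nat_lit 78) (PT.lf (nat_lit 12388) (nat_lit 6) (nat_lit 163) (nat_lit 3) (nat_lit 167) (nat_lit 114) (nat_lit 169)) (PT.lf (nat_lit 12464) (nat_lit 3) (nat_lit 164) (nat_lit 1) (nat_lit 168) (nat_lit 114) (nat_lit 168))))) (PT.nd (nat_lit 93522) (PT.nd (nat_lit 46722) (PT.lf (nat_lit 12388) (nat_lit 6) (nat_lit 163) (nat_lit 1) (nat_lit 169) (nat_lit 114) (nat_lit 167)) (PT.nd (nat_lit 78) (PT.lf (nat_lit 12540) (nat_lit 6) (nat_lit 165) (nat_lit 3) (nat_lit 167) (nat_lit 115) (nat_lit 168)) (PT.lf (nat_lit 12540) (nat_lit 6) (nat_lit 165) (nat_lit 1) (nat_lit 168) (nat_lit 115) (nat_lit 167)))) (PT.nd (nat_lit 156) (PT.nd (nat_lit 78) (PT.lf (nat_lit 12616) (nat_lit 6) (nat_lit 166) (nat_lit 3) (nat_lit 166) (nat_lit 116) (nat_lit 168)) (PT.lf (nat_lit 12692) (nat_lit 3) (nat_lit 167) (nat_lit 1) (nat_lit 167) (nat_lit 116) (nat_lit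 167))) (PT.nd (nat_lit 46722) (PT.lf (nat_lit 12616) (nat_lit 6) (nat_lit 166) (nat_lit 1) (nat_lit 168) (nat_lit 116) (nat_lit 166)) (PT.lf (nat_lit 12768) (nat_lit 6) (nat_lit 168) (nat_lit 3) (nat_lit 166) (nat_lit 117) (nat_lit 167))))))) (PT.nd (nat_lit 234234) (PT.nd (nat_lit 140400) (PT.nd (nat_lit 46878) (PT.nd (nat_lit 46722) (PT.lf (nat_lit 12768) (nat_lit 6) (nat_lit 168) (nat_lit 1) (nat_lit 167) (nat_lit 117) (nat_lit 166)) (PT.nd (nat_lit 78) (PT.lf (nat_lit 12844) (nat_lit 6) (nat_lit 169) (nat_lit 3) (nat_lit 165) (nat_lit 118) (nat_lit 167)) (PT.lf (nat_lit 12920) (nat_lit 3) (nat_lit 170) (nat_lit 1) (nat_lit 166) (nat_lit 118) (nat_lit 166)))) (PT.nd (nat_lit 46722) (PT.lf (nat_lit 12844) (nat_lit 6) (nat_lit 169) (nat_lit 1) (nat_lit 167) (nat_lit 118) (nat_lit 165)) (PT.nd (nat_lit 78) (PT.lf (nat_lit 12996) (nat_lit 6) (nat_lit 171) (nat_lit 3) (nat_lit 165) (nat_lit 119)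 (nat_lit 166)) (PT.lf (nat_lit 12996) (nat_lit 6) (nat_lit 171) (nat_lit 1) (nat_lit 166) (nat_lit 119) (nat_lit 165))))) (PT.nd (nat_lit 46878) (PT.nd (nat_lit 78) (PT.lf (nat_lit 13072) (nat_lit 6) (nat_lit 172) (nat_lit 3) (nat_lit 164) (nat_lit 120) (nat_lit 166)) (PT.nd (nat_lit 78) (PT.lf (nat_lit 13148) (nat_lit 3) (nat_lit 173) (nat_lit 1) (nat_lit 165) (nat_lit 120) (nat_lit 165)) (PT.lf (nat_lit 13072) (nat_lit 6) (nat_lit 172) (nat_lit 1) (nat_lit 166) (nat_lit 120) (nat_lit 164)))) (PT.nd (nat_lit 46800) (PT.nd (nat_lit 78) (PT.lf (nat_lit 13224) (nat_lit 6) (nat_lit 174) (nat_lit 3) (nat_lit 164) (nat_lit 121) (nat_lit 165)) (PT.lf (nat_lit 13224) (nat_lit 6) (nat_lit 174) (nat_lit 1) (nat_lit 165) (nat_lit 121) (nat_lit 164))) (PT.nd (nat_lit 78) (PT.lf (nat_lit 13300) (nat_lit 6) (nat_lit 175) (nat_lit 3) (nat_lit 163) (nat_lit 122) (nat_lit 165)) (PT.lf (nat_lit 13376) (nat_lit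 3) (nat_lit 176) (nat_lit 1) (nat_lit 164) (nat_lit 122) (nat_lit 164)))))) (PT.nd (nat_lit 140478) (PT.nd (nat_lit 93522) (PT.nd (nat_lit 46722) (PT.lf (nat_lit 13300) (nat_lit 6) (nat_lit 175) (nat_lit 1) (nat_lit 165) (nat_lit 122) (nat_lit 163)) (PT.nd (nat_lit 78) (PT.lf (nat_lit 13452) (nat_lit 6) (nat_lit 177) (nat_lit 3) (nat_lit 163) (nat_lit 123) (nat_lit 164)) (PT.lf (nat_lit 13452) (nat_lit 6) (nat_lit 177) (nat_lit 1) (nat_lit 164) (nat_lit 123) (nat_lit 163)))) (PT.nd (nat_lit 156) (PT.nd (nat_lit 78) (PT.lf (nat_lit 13528) (nat_lit 6) (nat_lit 178) (nat_lit 3) (nat_lit 162) (nat_lit 124) (nat_lit 164)) (PT.lf (nat_lit 13604) (nat_lit 3) (nat_lit 179) (nat_lit 1) (nat_lit 163) (nat_lit 124) (nat_lit 163))) (PT.nd (nat_lit 46722) (PT.lf (nat_lit 13528) (nat_lit 6) (nat_lit 178) (nat_lit 1) (nat_lit 164) (nat_lit 124) (nat_lit 162)) (PT.lf (nat_lit 13680) (nat_lit 6) (nat_lit 180) (nat_lit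 3) (nat_lit 162) (nat_lit 125) (nat_lit 163))))) (PT.nd (nat_lit 46878) (PT.nd (nat_lit 46722) (PT.lf (nat_lit 13680) (nat_lit 6) (nat_lit 180) (nat_lit 1) (nat_lit 163) (nat_lit 125) (nat_lit 162)) (PT.nd (nat_lit 78) (PT.lf (nat_lit 13756) (nat_lit 6) (nat_lit 181) (nat_lit 3) (nat_lit 161) (nat_lit 126) (nat_lit 163)) (PT.lf (nat_lit 13832) (nat_lit 3) (nat_lit 182) (nat_lit 1) (nat_lit 162) (nat_lit 126) (nat_lit 162)))) (PT.nd (nat_lit 46800) (PT.nd (nat_lit 46722) (PT.lf (nat_lit 13756) (nat_lit 6) (nat_lit 181) (nat_lit 1) (nat_lit 163) (nat_lit 126) (nat_lit 161)) (PT.lf (nat_lit 13908) (nat_lit 6) (nat_lit 183) (nat_lit 3) (nat_lit 161) (nat_lit 127) (nat_lit 162))) (PT.nd (nat_lit 46722) (PT.lf (nat_lit 13908) (nat_lit 6) (nat_lit 183) (nat_lit 1) (nat_lit 162) (nat_lit 127) (nat_lit 161)) (PT.lf (nat_lit 13984) (nat_lit 6) (nat_lit 184) (nat_lit 3) (nat_lit 160) (nat_lit 128) (nat_lit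 162))))))))
noncomputable def pc4 : PT := (PT.nd (nat_lit 515190) (PT.nd (nat_lit 234234) (PT.nd (nat_lit 93756) (PT.nd (nat_lit 46878) (PT.nd (nat_lit 78) (PT.lf (nat_lit 14060) (nat_lit 3) (nat_lit 185) (nat_lit 1) (nat_lit 161) (nat_lit 128) (nat_lit 161)) (PT.nd (nat_lit 46722) (PT.lf (nat_lit 13984) (nat_lit 6) (nat_lit 184) (nat_lit 1) (nat_lit 162) (nat_lit 128) (nat_lit 160)) (PT.lf (nat_lit 14136) (nat_lit 6) (nat_lit 186) (nat_lit 3) (nat_lit 160) (nat_lit 129) (nat_lit 161)))) (PT.nd (nat_lit 46722) (PT.lf (nat_lit 14136) (nat_lit 6) (nat_lit 186) (nat_lit 1) (nat_lit 161) (nat_lit 129) (nat_lit 160)) (PT.nd (nat_lit 78) (PT.lf (nat_lit 14212) (nat_lit 6) (nat_lit 187) (nat_lit 3) (nat_lit 159) (nat_lit 130) (nat_lit 161)) (PT.lf (nat_lit 14288) (nat_lit 3) (nat_lit 188) (nat_lit 1) (nat_lit 160) (nat_lit 130) (nat_lit 160))))) (PT.nd (nat_lit 93522) (PT.nd (nat_lit 46722) (PT.lf (nat_lit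 14212) (nat_lit 6) (nat_lit 187) (nat_lit 1) (nat_lit 161) (nat_lit 130) (nat_lit 159)) (PT.nd (nat_lit 78) (PT.lf (nat_lit 14364) (nat_lit 6) (nat_lit 189) (nat_lit 3) (nat_lit 159) (nat_lit 131) (nat_lit 160)) (PT.lf (nat_lit 14364) (nat_lit 6) (nat_lit 189) (nat_lit 1) (nat_lit 160) (nat_lit 131) (nat_lit 159)))) (PT.nd (nat_lit 156) (PT.nd (nat_lit 78) (PT.lf (nat_lit 14440) (nat_lit 6) (nat_lit 190) (nat_lit 3) (nat_lit 158) (nat_lit 132) (nat_lit 160)) (PT.lf (nat_lit 14516) (nat_lit 3) (nat_lit 191) (nat_lit 1) (nat_lit 159) (nat_lit 132) (nat_lit 159))) (PT.nd (nat_lit 46722) (PT.lf (nat_lit 14440) (nat_lit 6) (nat_lit 190) (nat_lit 1) (nat_lit 160) (nat_lit 132) (nat_lit 158)) (PT.lf (nat_lit 14592) (nat_lit 6) (nat_lit 192) (nat_lit 3) (nat_lit 158) (nat_lit 133) (nat_lit 159)))))) (PT.nd (nat_lit 140478) (PT.nd (nat_lit 46878) (PT.nd (nat_lit 46722) (PT.lf (nat_lit 14592) (nat_lit 6)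 (nat_lit 192) (nat_lit 1) (nat_lit 159) (nat_lit 133) (nat_lit 158)) (PT.nd (nat_lit 78) (PT.lf (nat_lit 14668) (nat_lit 6) (nat_lit 193) (nat_lit 3) (nat_lit 157) (nat_lit 134) (nat_lit 159)) (PT.lf (nat_lit 14744) (nat_lit 3) (nat_lit 194) (nat_lit 1) (nat_lit 158) (nat_lit 134) (nat_lit 158)))) (PT.nd (nat_lit 46800) (PT.nd (nat_lit 46722) (PT.lf (nat_lit 14668) (nat_lit 6) (nat_lit 193) (nat_lit 1) (nat_lit 159) (nat_lit 134) (nat_lit 157)) (PT.lf (nat_lit 14820) (nat_lit 6) (nat_lit 195) (nat_lit 3) (nat_lit 157) (nat_lit 135) (nat_lit 158))) (PT.nd (nat_lit 46722) (PT.lf (nat_lit 14820) (nat_lit 6) (nat_lit 195) (nat_lit 1) (nat_lit 158) (nat_lit 135) (nat_lit 157)) (PT.lf (nat_lit 14896) (nat_lit 6) (nat_lit 196) (nat_lit 3) (nat_lit 156) (nat_lit 136) (nat_lit 158))))) (PT.nd (nat_lit 46878) (PT.nd (nat_lit 78) (PT.lf (nat_lit 14972) (nat_lit 3) (nat_lit 197) (nat_lit 1) (nat_lit 157) (nat_lit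 136) (nat_lit 157)) (PT.nd (nat_lit 46722) (PT.lf (nat_lit 14896) (nat_lit 6) (nat_lit 196) (nat_lit 1) (nat_lit 158) (nat_lit 136) (nat_lit 156)) (PT.lf (nat_lit 15048) (nat_lit 6) (nat_lit 198) (nat_lit 3) (nat_lit 156) (nat_lit 137) (nat_lit 157)))) (PT.nd (nat_lit 46800) (PT.nd (nat_lit 46722) (PT.lf (nat_lit 15048) (nat_lit 6) (nat_lit 198) (nat_lit 1) (nat_lit 157) (nat_lit 137) (nat_lit 156)) (PT.lf (nat_lit 15124) (nat_lit 6) (nat_lit 199) (nat_lit 3) (nat_lit 155) (nat_lit 138) (nat_lit 157))) (PT.nd (nat_lit 78) (PT.lf (nat_lit 15200) (nat_lit 3) (nat_lit 200) (nat_lit 1) (nat_lit 156) (nat_lit 138) (nat_lit 156)) (PT.lf (nat_lit 15124) (nat_lit 6) (nat_lit 199) (nat_lit 1) (nat_lit 157) (nat_lit 138) (nat_lit 155))))))) (PT.nd (nat_lit 187356) (PT.nd (nat_lit 93678) (PT.nd (nat_lit 46878) (PT.nd (nat_lit 78) (PT.lf (nat_lit 15276) (nat_lit 6) (nat_lit 201) (nat_lit 3) (nat_lit 155) (nat_lit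 139) (nat_lit 156)) (PT.nd (nat_lit 46722) (PT.lf (nat_lit 15276) (nat_lit 6) (nat_lit 201) (nat_lit 1) (nat_lit 156) (nat_lit 139) (nat_lit 155)) (PT.lf (nat_lit 15352) (nat_lit 6) (nat_lit 202) (nat_lit 3) (nat_lit 154) (nat_lit 140) (nat_lit 156)))) (PT.nd (nat_lit 78) (PT.lf (nat_lit 15428) (nat_lit 3) (nat_lit 203) (nat_lit 1) (nat_lit 155) (nat_lit 140) (nat_lit 155)) (PT.nd (nat_lit 46644) (PT.lf (nat_lit 15352) (nat_lit 6) (nat_lit 202) (nat_lit 1) (nat_lit 156) (nat_lit 140) (nat_lit 154)) (PT.lf (nat_lit 15504) (nat_lit 6) (nat_lit 204) (nat_lit 3) (nat_lit 153) (nat_lit 141) (nat_lit 156))))) (PT.nd (nat_lit 46800) (PT.nd (nat_lit 78) (PT.lf (nat_lit 15580) (nat_lit 6) (nat_lit 205) (nat_lit 3) (nat_lit 154) (nat_lit 141) (nat_lit 155)) (PT.nd (nat_lit 78) (PT.lf (nat_lit 15580) (nat_lit 6) (nat_lit 205) (nat_lit 1) (nat_lit 155) (nat_lit 141) (nat_lit 154)) (PT.lf (nat_lit 15504) (nat_lit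 6) (nat_lit 204) (nat_lit 1) (nat_lit 156) (nat_lit 141) (nat_lit 153)))) (PT.nd (nat_lit 156) (PT.nd (nat_lit 78) (PT.lf (nat_lit 15656) (nat_lit 6) (nat_lit 206) (nat_lit 3) (nat_lit 153) (nat_lit 142) (nat_lit 155)) (PT.lf (nat_lit 15732) (nat_lit 3) (nat_lit 207) (nat_lit 1) (nat_lit 154) (nat_lit 142) (nat_lit 154))) (PT.nd (nat_lit 46644) (PT.lf (nat_lit 15656) (nat_lit 6) (nat_lit 206) (nat_lit 1) (nat_lit 155) (nat_lit 142) (nat_lit 153)) (PT.lf (nat_lit 15808) (nat_lit 6) (nat_lit 208) (nat_lit 3) (nat_lit 152) (nat_lit 143) (nat_lit 155)))))) (PT.nd (nat_lit 47034) (PT.nd (nat_lit 46722) (PT.nd (nat_lit 78) (PT.lf (nat_lit 15884) (nat_lit 6) (nat_lit 209) (nat_lit 3) (nat_lit 153) (nat_lit 143) (nat_lit 154)) (PT.nd (nat_lit 78) (PT.lf (nat_lit 15884) (nat_lit 6) (nat_lit 209) (nat_lit 1) (nat_lit 154) (nat_lit 143) (nat_lit 153)) (PT.lf (nat_lit 15808) (nat_lit 6) (nat_lit 208) (nat_lit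 1) (nat_lit 155) (nat_lit 143) (nat_lit 152)))) (PT.nd (nat_lit 156) (PT.nd (nat_lit 78) (PT.lf (nat_lit 15960) (nat_lit 6) (nat_lit 210) (nat_lit 3) (nat_lit 151) (nat_lit 144) (nat_lit 155)) (PT.lf (nat_lit 16036) (nat_lit 6) (nat_lit 211) (nat_lit 3) (nat_lit 152) (nat_lit 144) (nat_lit 154))) (PT.nd (nat_lit 78) (PT.lf (nat_lit 16112) (nat_lit 3) (nat_lit 212) (nat_lit 1) (nat_lit 153) (nat_lit 144) (nat_lit 153)) (PT.lf (nat_lit 16036) (nat_lit 6) (nat_lit 211) (nat_lit 1) (nat_lit 154) (nat_lit 144) (nat_lit 152))))) (PT.nd (nat_lit 46722) (PT.nd (nat_lit 46566) (PT.lf (nat_lit 15960) (nat_lit 6) (nat_lit 210) (nat_lit 1) (nat_lit 155) (nat_lit 144) (nat_lit 151)) (PT.nd (nat_lit 78) (PT.lf (nat_lit 16188) (nat_lit 6) (nat_lit 213) (nat_lit 3) (nat_lit 151) (nat_lit 145) (nat_lit 154)) (PT.lf (nat_lit 16264) (nat_lit 6) (nat_lit 214) (nat_lit 3) (nat_lit 152) (nat_lit 145) (nat_lit 153))))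 (PT.nd (nat_lit 46644) (PT.nd (nat_lit 78) (PT.lf (nat_lit 16264) (nat_lit 6) (nat_lit 214) (nat_lit 1) (nat_lit 153) (nat_lit 145) (nat_lit 152)) (PT.lf (nat_lit 16188) (nat_lit 6) (nat_lit 213) (nat_lit 1) (nat_lit 154) (nat_lit 145) (nat_lit 151))) (PT.nd (nat_lit 78) (PT.lf (nat_lit 16492) (nat_lit 6) (nat_lit 217) (nat_lit 3) (nat_lit 150) (nat_lit 146) (nat_lit 154)) (PT.lf (nat_lit 16568) (nat_lit 6) (nat_lit 218) (nat_lit 3) (nat_lit 151) (nat_lit 146) (nat_lit 153))))))))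
noncomputable def pc5 : PT := (PT.nd (nat_lit 187278) (PT.nd (nat_lit 93756) (PT.nd (nat_lit 46878) (PT.nd (nat_lit 46644) (PT.nd (nat_lit 78) (PT.lf (nat_lit 16644) (nat_lit 3) (nat_lit 219) (nat_lit 1) (nat_lit 152) (nat_lit 146) (nat_lit 152)) (PT.nd (nat_lit 78) (PT.lf (nat_lit 16568) (nat_lit 6) (nat_lit 218) (nat_lit 1) (nat_lit 153) (nat_lit 146) (nat_lit 151)) (PT.lf (nat_lit 16492) (nat_lit 6) (nat_lit 217) (nat_lit 1) (nat_lit 154) (nat_lit 146) (nat_lit 150)))) (PT.nd (nat_lit 78) (PT.lf (nat_lit 16416) (nat_lit 6) (nat_lit 216) (nat_lit 3) (nat_lit 149) (nat_lit 147) (nat_lit 154)) (PT.nd (nat_lit 78) (PT.lf (nat_lit 16796) (nat_lit 6) (nat_lit 221) (nat_lit 3) (nat_lit 150) (nat_lit 147) (nat_lit 153)) (PT.lf (nat_lit 16872) (nat_lit 6) (nat_lit 222) (nat_lit 3) (nat_lit 151) (nat_lit 147) (nat_lit 152))))) (PT.nd (nat_lit 46566) (PT.nd (nat_lit 78) (PT.lf (nat_lit 16872) (nat_lit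 6) (nat_lit 222) (nat_lit 1) (nat_lit 152) (nat_lit 147) (nat_lit 151)) (PT.nd (nat_lit 78) (PT.lf (nat_lit 16796) (nat_lit 6) (nat_lit 221) (nat_lit 1) (nat_lit 153) (nat_lit 147) (nat_lit 150)) (PT.lf (nat_lit 16416) (nat_lit 6) (nat_lit 216) (nat_lit 1) (nat_lit 154) (nat_lit 147) (nat_lit 149)))) (PT.nd (nat_lit 156) (PT.nd (nat_lit 78) (PT.lf (nat_lit 16340) (nat_lit 3) (nat_lit 215) (nat_lit 3) (nat_lit 148) (nat_lit 148) (nat_lit 154)) (PT.lf (nat_lit 16720) (nat_lit 6) (nat_lit 220) (nat_lit 3) (nat_lit 149) (nat_lit 148) (nat_lit 153))) (PT.nd (nat_lit 78) (PT.lf (nat_lit 17024) (nat_lit 6) (nat_lit 224) (nat_lit 3) (nat_lit 150) (nat_lit 148) (nat_lit 152)) (PT.lf (nat_lit 17100) (nat_lit 3) (nat_lit 225) (nat_lit 1) (nat_lit 151) (nat_lit 148) (nat_lit 151)))))) (PT.nd (nat_lit 46800) (PT.nd (nat_lit 46488) (PT.nd (nat_lit 78) (PT.lf (nat_lit 17024) (nat_lit 6) (nat_lit 224) (nat_lit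 1) (nat_lit 152) (nat_lit 148) (nat_lit 150)) (PT.nd (nat_lit 78) (PT.lf (nat_lit 16720) (nat_lit 6) (nat_lit 220) (nat_lit 1) (nat_lit 153) (nat_lit 148) (nat_lit 149)) (PT.lf (nat_lit 16340) (nat_lit 3) (nat_lit 215) (nat_lit 0) (nat_lit 154) (nat_lit 148) (nat_lit 148)))) (PT.nd (nat_lit 156) (PT.nd (nat_lit 78) (PT.lf (nat_lit 16416) (nat_lit 6) (nat_lit 216) (nat_lit 5) (nat_lit 147) (nat_lit 149) (nat_lit 154)) (PT.lf (nat_lit 16720) (nat_lit 6) (nat_lit 220) (nat_lit 5) (nat_lit 148) (nat_lit 149) (nat_lit 153))) (PT.nd (nat_lit 78) (PT.lf (nat_lit 16948) (nat_lit 3) (nat_lit 223) (nat_lit 3) (nat_lit 149) (nat_lit 149) (nat_lit 152)) (PT.lf (nat_lit 17176) (nat_lit 6) (nat_lit 226) (nat_lit 3) (nat_lit 150) (nat_lit 149) (nat_lit 151))))) (PT.nd (nat_lit 234) (PT.nd (nat_lit 78) (PT.lf (nat_lit 17176) (nat_lit 6) (nat_lit 226) (nat_lit 1) (nat_lit 151) (nat_lit 149) (nat_lit 150)) (PT.nd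 (nat_lit 78) (PT.lf (nat_lit 16948) (nat_lit 3) (nat_lit 223) (nat_lit 0) (nat_lit 152) (nat_lit 149) (nat_lit 149)) (PT.lf (nat_lit 16720) (nat_lit 6) (nat_lit 220) (nat_lit 0) (nat_lit 153) (nat_lit 149) (nat_lit 148)))) (PT.nd (nat_lit 46332) (PT.nd (nat_lit 46254) (PT.lf (nat_lit 16416) (nat_lit 6) (nat_lit 216) (nat_lit 0) (nat_lit 154) (nat_lit 149) (nat_lit 147)) (PT.lf (nat_lit 16492) (nat_lit 6) (nat_lit 217) (nat_lit 5) (nat_lit 146) (nat_lit 150) (nat_lit 154))) (PT.nd (nat_lit 78) (PT.lf (nat_lit 16796) (nat_lit 6) (nat_lit 221) (nat_lit 5) (nat_lit 147) (nat_lit 150) (nat_lit 153)) (PT.lf (nat_lit 17024) (nat_lit 6) (nat_lit 224) (nat_lit 5) (nat_lit 148) (nat_lit 150) (nat_lit 152))))))) (PT.nd (nat_lit 47034) (PT.nd (nat_lit 46488) (PT.nd (nat_lit 234) (PT.nd (nat_lit 78) (PT.lf (nat_lit 17176) (nat_lit 6) (nat_lit 226) (nat_lit 5) (nat_lit 149) (nat_lit 150) (nat_lit 151)) (PT.nd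 (nat_lit 78) (PT.lf (nat_lit 17252) (nat_lit 1) (nat_lit 227) (nat_lit 0) (nat_lit 150) (nat_lit 150) (nat_lit 150)) (PT.lf (nat_lit 17176) (nat_lit 6) (nat_lit 226) (nat_lit 0) (nat_lit 151) (nat_lit 150) (nat_lit 149)))) (PT.nd (nat_lit 78) (PT.lf (nat_lit 17024) (nat_lit 6) (nat_lit 224) (nat_lit 0) (nat_lit 152) (nat_lit 150) (nat_lit 148)) (PT.nd (nat_lit 78) (PT.lf (nat_lit 16796) (nat_lit 6) (nat_lit 221) (nat_lit 0) (nat_lit 153) (nat_lit 150) (nat_lit 147)) (PT.lf (nat_lit 16492) (nat_lit 6) (nat_lit 217) (nat_lit 0) (nat_lit 154) (nat_lit 150) (nat_lit 146))))) (PT.nd (nat_lit 234) (PT.nd (nat_lit 78) (PT.lf (nat_lit 15960) (nat_lit 6) (nat_lit 210) (nat_lit 5) (nat_lit 144) (nat_lit 151) (nat_lit 155)) (PT.nd (nat_lit 78) (PT.lf (nat_lit 16188) (nat_lit 6) (nat_lit 213) (nat_lit 5) (nat_lit 145) (nat_lit 151) (nat_lit 154)) (PT.lf (nat_lit 16568) (nat_lit 6) (nat_lit 218) (nat_lit 5)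 (nat_lit 146) (nat_lit 151) (nat_lit 153)))) (PT.nd (nat_lit 156) (PT.nd (nat_lit 78) (PT.lf (nat_lit 16872) (nat_lit 6) (nat_lit 222) (nat_lit 5) (nat_lit 147) (nat_lit 151) (nat_lit 152)) (PT.lf (nat_lit 17100) (nat_lit 3) (nat_lit 225) (nat_lit 4) (nat_lit 148) (nat_lit 151) (nat_lit 151))) (PT.nd (nat_lit 78) (PT.lf (nat_lit 17176) (nat_lit 6) (nat_lit 226) (nat_lit 4) (nat_lit 149) (nat_lit 151) (nat_lit 150)) (PT.lf (nat_lit 17176) (nat_lit 6) (nat_lit 226) (nat_lit 2) (nat_lit 150) (nat_lit 151) (nat_lit 149)))))) (PT.nd (nat_lit 46410) (PT.nd (nat_lit 234) (PT.nd (nat_lit 78) (PT.lf (nat_lit 17100) (nat_lit 3) (nat_lit 225) (nat_lit 0) (nat_lit 151) (nat_lit 151) (nat_lit 148)) (PT.nd (nat_lit 78) (PT.lf (nat_lit 16872) (nat_lit 6) (nat_lit 222) (nat_lit 0) (nat_lit 152) (nat_lit 151) (nat_lit 147)) (PT.lf (nat_lit 16568) (nat_lit 6) (nat_lit 218) (nat_lit 0) (nat_lit 153) (nat_lit 151)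 (nat_lit 146)))) (PT.nd (nat_lit 46020) (PT.nd (nat_lit 78) (PT.lf (nat_lit 16188) (nat_lit 6) (nat_lit 213) (nat_lit 0) (nat_lit 154) (nat_lit 151) (nat_lit 145)) (PT.lf (nat_lit 15960) (nat_lit 6) (nat_lit 210) (nat_lit 0) (nat_lit 155) (nat_lit 151) (nat_lit 144))) (PT.nd (nat_lit 78) (PT.lf (nat_lit 15808) (nat_lit 6) (nat_lit 208) (nat_lit 5) (nat_lit 143) (nat_lit 152) (nat_lit 155)) (PT.lf (nat_lit 16036) (nat_lit 6) (nat_lit 211) (nat_lit 5) (nat_lit 144) (nat_lit 152) (nat_lit 154))))) (PT.nd (nat_lit 234) (PT.nd (nat_lit 78) (PT.lf (nat_lit 16264) (nat_lit 6) (nat_lit 214) (nat_lit 5) (nat_lit 145) (nat_lit 152) (nat_lit 153)) (PT.nd (nat_lit 78) (PT.lf (nat_lit 16644) (nat_lit 3) (nat_lit 219) (nat_lit 4) (nat_lit 146) (nat_lit 152) (nat_lit 152)) (PT.lf (nat_lit 16872) (nat_lit 6) (nat_lit 222) (nat_lit 4) (nat_lit 147) (nat_lit 152) (nat_lit 151)))) (PT.nd (nat_lit 156) (PT.nd (nat_lit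 78) (PT.lf (nat_lit 17024) (nat_lit 6) (nat_lit 224) (nat_lit 4) (nat_lit 148) (nat_lit 152) (nat_lit 150)) (PT.lf (nat_lit 16948) (nat_lit 3) (nat_lit 223) (nat_lit 2) (nat_lit 149) (nat_lit 152) (nat_lit 149))) (PT.nd (nat_lit 78) (PT.lf (nat_lit 17024) (nat_lit 6) (nat_lit 224) (nat_lit 2) (nat_lit 150) (nat_lit 152) (nat_lit 148)) (PT.lf (nat_lit 16872) (nat_lit 6) (nat_lit 222) (nat_lit 2) (nat_lit 151) (nat_lit 152) (nat_lit 147))))))))
noncomputable def pc6 : PT := (PT.nd (nat_lit 93366) (PT.nd (nat_lit 46722) (PT.nd (nat_lit 46176) (PT.nd (nat_lit 234) (PT.nd (nat_lit 78) (PT.lf (nat_lit 16644) (nat_lit 3) (nat_lit 219) (nat_lit 0) (nat_lit 152) (nat_lit 152) (nat_lit 146)) (PT.nd (nat_lit 78) (PT.lf (nat_lit 16264) (nat_lit 6) (nat_lit 214) (nat_lit 0) (nat_lit 153) (nat_lit 152) (nat_lit 145)) (PT.lf (nat_lit 16036) (nat_lit 6) (nat_lit 211) (nat_lit 0) (nat_lit 154) (nat_lit 152) (nat_lit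 144)))) (PT.nd (nat_lit 45786) (PT.lf (nat_lit 15808) (nat_lit 6) (nat_lit 208) (nat_lit 0) (nat_lit 155) (nat_lit 152) (nat_lit 143)) (PT.nd (nat_lit 78) (PT.lf (nat_lit 15504) (nat_lit 6) (nat_lit 204) (nat_lit 5) (nat_lit 141) (nat_lit 153) (nat_lit 156)) (PT.lf (nat_lit 15656) (nat_lit 6) (nat_lit 206) (nat_lit 5) (nat_lit 142) (nat_lit 153) (nat_lit 155))))) (PT.nd (nat_lit 234) (PT.nd (nat_lit 78) (PT.lf (nat_lit 15884) (nat_lit 6) (nat_lit 209) (nat_lit 5) (nat_lit 143) (nat_lit 153) (nat_lit 154)) (PT.nd (nat_lit 78) (PT.lf (nat_lit 16112) (nat_lit 3) (nat_lit 212) (nat_lit 4) (nat_lit 144) (nat_lit 153) (nat_lit 153)) (PT.lf (nat_lit 16264) (nat_lit 6) (nat_lit 214) (nat_lit 4) (nat_lit 145) (nat_lit 153) (nat_lit 152)))) (PT.nd (nat_lit 156) (PT.nd (nat_lit 78) (PT.lf (nat_lit 16568) (nat_lit 6) (nat_lit 218) (nat_lit 4) (nat_lit 146) (nat_lit 153) (nat_lit 151)) (PT.lf (nat_lit 16796)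 (nat_lit 6) (nat_lit 221) (nat_lit 4) (nat_lit 147) (nat_lit 153) (nat_lit 150))) (PT.nd (nat_lit 78) (PT.lf (nat_lit 16720) (nat_lit 6) (nat_lit 220) (nat_lit 4) (nat_lit 148) (nat_lit 153) (nat_lit 149)) (PT.lf (nat_lit 16720) (nat_lit 6) (nat_lit 220) (nat_lit 2) (nat_lit 149) (nat_lit 153) (nat_lit 148)))))) (PT.nd (nat_lit 46098) (PT.nd (nat_lit 234) (PT.nd (nat_lit 78) (PT.lf (nat_lit 16796) (nat_lit 6) (nat_lit 221) (nat_lit 2) (nat_lit 150) (nat_lit 153) (nat_lit 147)) (PT.nd (nat_lit 78) (PT.lf (nat_lit 16568) (nat_lit 6) (nat_lit 218) (nat_lit 2) (nat_lit 151) (nat_lit 153) (nat_lit 146)) (PT.lf (nat_lit 16264) (nat_lit 6) (nat_lit 214) (nat_lit 2) (nat_lit 152) (nat_lit 153) (nat_lit 145)))) (PT.nd (nat_lit 156) (PT.nd (nat_lit 78) (PT.lf (nat_lit 16112) (nat_lit 3) (nat_lit 212) (nat_lit 0) (nat_lit 153) (nat_lit 153) (nat_lit 144)) (PT.lf (nat_lit 15884) (nat_lit 6) (nat_lit 209) (nat_lit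 0) (nat_lit 154) (nat_lit 153) (nat_lit 143))) (PT.nd (nat_lit 78) (PT.lf (nat_lit 15656) (nat_lit 6) (nat_lit 206) (nat_lit 0) (nat_lit 155) (nat_lit 153) (nat_lit 142)) (PT.lf (nat_lit 15504) (nat_lit 6) (nat_lit 204) (nat_lit 0) (nat_lit 156) (nat_lit 153) (nat_lit 141))))) (PT.nd (nat_lit 234) (PT.nd (nat_lit 78) (PT.lf (nat_lit 15352) (nat_lit 6) (nat_lit 202) (nat_lit 5) (nat_lit 140) (nat_lit 154) (nat_lit 156)) (PT.nd (nat_lit 78) (PT.lf (nat_lit 15580) (nat_lit 6) (nat_lit 205) (nat_lit 5) (nat_lit 141) (nat_lit 154) (nat_lit 155)) (PT.lf (nat_lit 15732) (nat_lit 3) (nat_lit 207) (nat_lit 4) (nat_lit 142) (nat_lit 154) (nat_lit 154)))) (PT.nd (nat_lit 156) (PT.nd (nat_lit 78) (PT.lf (nat_lit 15884) (nat_lit 6) (nat_lit 209) (nat_lit 4) (nat_lit 143) (nat_lit 154) (nat_lit 153)) (PT.lf (nat_lit 16036) (nat_lit 6) (nat_lit 211) (nat_lit 4) (nat_lit 144) (nat_lit 154) (nat_lit 152))) (PT.nd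 (nat_lit 78) (PT.lf (nat_lit 16188) (nat_lit 6) (nat_lit 213) (nat_lit 4) (nat_lit 145) (nat_lit 154) (nat_lit 151)) (PT.lf (nat_lit 16492) (nat_lit 6) (nat_lit 217) (nat_lit 4) (nat_lit 146) (nat_lit 154) (nat_lit 150))))))) (PT.nd (nat_lit 46410) (PT.nd (nat_lit 468) (PT.nd (nat_lit 234) (PT.nd (nat_lit 78) (PT.lf (nat_lit 16416) (nat_lit 6) (nat_lit 216) (nat_lit 4) (nat_lit 147) (nat_lit 154) (nat_lit 149)) (PT.nd (nat_lit 78) (PT.lf (nat_lit 16340) (nat_lit 3) (nat_lit 215) (nat_lit 2) (nat_lit 148) (nat_lit 154) (nat_lit 148)) (PT.lf (nat_lit 16416) (nat_lit 6) (nat_lit 216) (nat_lit 2) (nat_lit 149) (nat_lit 154) (nat_lit 147)))) (PT.nd (nat_lit 78) (PT.lf (nat_lit 16492) (nat_lit 6) (nat_lit 217) (nat_lit 2) (nat_lit 150) (nat_lit 154) (nat_lit 146)) (PT.nd (nat_lit 78) (PT.lf (nat_lit 16188) (nat_lit 6) (nat_lit 213) (nat_lit 2) (nat_lit 151) (nat_lit 154) (nat_lit 145)) (PT.lf (nat_lit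 16036) (nat_lit 6) (nat_lit 211) (nat_lit 2) (nat_lit 152) (nat_lit 154) (nat_lit 144))))) (PT.nd (nat_lit 234) (PT.nd (nat_lit 78) (PT.lf (nat_lit 15884) (nat_lit 6) (nat_lit 209) (nat_lit 2) (nat_lit 153) (nat_lit 154) (nat_lit 143)) (PT.nd (nat_lit 78) (PT.lf (nat_lit 15732) (nat_lit 3) (nat_lit 207) (nat_lit 0) (nat_lit 154) (nat_lit 154) (nat_lit 142)) (PT.lf (nat_lit 15580) (nat_lit 6) (nat_lit 205) (nat_lit 0) (nat_lit 155) (nat_lit 154) (nat_lit 141)))) (PT.nd (nat_lit 45552) (PT.nd (nat_lit 45474) (PT.lf (nat_lit 15352) (nat_lit 6) (nat_lit 202) (nat_lit 0) (nat_lit 156) (nat_lit 154) (nat_lit 140)) (PT.lf (nat_lit 15124) (nat_lit 6) (nat_lit 199) (nat_lit 5) (nat_lit 138) (nat_lit 155) (nat_lit 157))) (PT.nd (nat_lit 78) (PT.lf (nat_lit 15276) (nat_lit 6) (nat_lit 201) (nat_lit 5) (nat_lit 139) (nat_lit 155) (nat_lit 156)) (PT.lf (nat_lit 15428) (nat_lit 3) (nat_lit 203) (nat_lit 4) (nat_lit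 140) (nat_lit 155) (nat_lit 155)))))) (PT.nd (nat_lit 1014) (PT.nd (nat_lit 234) (PT.nd (nat_lit 78) (PT.lf (nat_lit 15580) (nat_lit 6) (nat_lit 205) (nat_lit 4) (nat_lit 141) (nat_lit 155) (nat_lit 154)) (PT.nd (nat_lit 78) (PT.lf (nat_lit 15656) (nat_lit 6) (nat_lit 206) (nat_lit 4) (nat_lit 142) (nat_lit 155) (nat_lit 153)) (PT.lf (nat_lit 15808) (nat_lit 6) (nat_lit 208) (nat_lit 4) (nat_lit 143) (nat_lit 155) (nat_lit 152)))) (PT.nd (nat_lit 624) (PT.nd (nat_lit 546) (PT.lf (nat_lit 15960) (nat_lit 6) (nat_lit 210) (nat_lit 4) (nat_lit 144) (nat_lit 155) (nat_lit 151)) (PT.lf (nat_lit 15960) (nat_lit 6) (nat_lit 210) (nat_lit 2) (nat_lit 151) (nat_lit 155) (nat_lit 144))) (PT.nd (nat_lit 78) (PT.lf (nat_lit 15808) (nat_lit 6) (nat_lit 208) (nat_lit 2) (nat_lit 152) (nat_lit 155) (nat_lit 143)) (PT.lf (nat_lit 15656) (nat_lit 6) (nat_lit 206) (nat_lit 2) (nat_lit 153) (nat_lit 155) (nat_lit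 142))))) (PT.nd (nat_lit 234) (PT.nd (nat_lit 78) (PT.lf (nat_lit 15580) (nat_lit 6) (nat_lit 205) (nat_lit 2) (nat_lit 154) (nat_lit 155) (nat_lit 141)) (PT.nd (nat_lit 78) (PT.lf (nat_lit 15428) (nat_lit 3) (nat_lit 203) (nat_lit 0) (nat_lit 155) (nat_lit 155) (nat_lit 140)) (PT.lf (nat_lit 15276) (nat_lit 6) (nat_lit 201) (nat_lit 0) (nat_lit 156) (nat_lit 155) (nat_lit 139)))) (PT.nd (nat_lit 45318) (PT.nd (nat_lit 45240) (PT.lf (nat_lit 15124) (nat_lit 6) (nat_lit 199) (nat_lit 0) (nat_lit 157) (nat_lit 155) (nat_lit 138)) (PT.lf (nat_lit 14896) (nat_lit 6) (nat_lit 196) (nat_lit 5) (nat_lit 136) (nat_lit 156) (nat_lit 158))) (PT.nd (nat_lit 78) (PT.lf (nat_lit 15048) (nat_lit 6) (nat_lit 198) (nat_lit 5) (nat_lit 137) (nat_lit 156) (nat_lit 157)) (PT.lf (nat_lit 15200) (nat_lit 3) (nat_lit 200) (nat_lit 4) (nat_lit 138) (nat_lit 156) (nat_lit 156))))))))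
noncomputable def pc7 : PT := (PT.nd (nat_lit 95316) (PT.nd (nat_lit 46800) (PT.nd (nat_lit 1326) (PT.nd (nat_lit 1092) (PT.nd (nat_lit 78) (PT.lf (nat_lit 15276) (nat_lit 6) (nat_lit 201) (nat_lit 4) (nat_lit 139) (nat_lit 156) (nat_lit 155)) (PT.nd (nat_lit 78) (PT.lf (nat_lit 15352) (nat_lit 6) (nat_lit 202) (nat_lit 4) (nat_lit 140) (nat_lit 156) (nat_lit 154)) (PT.lf (nat_lit 15504) (nat_lit 6) (nat_lit 204) (nat_lit 4) (nat_lit 141) (nat_lit 156) (nat_lit 153)))) (PT.nd (nat_lit 78) (PT.lf (nat_lit 15504) (nat_lit 6) (nat_lit 204) (nat_lit 2) (nat_lit 153) (nat_lit 156) (nat_lit 141)) (PT.nd (nat_lit 78) (PT.lf (nat_lit 15352) (nat_lit 6) (nat_lit 202) (nat_lit 2) (nat_lit 154) (nat_lit 156) (nat_lit 140)) (PT.lf (nat_lit 15276) (nat_lit 6) (nat_lit 201) (nat_lit 2) (nat_lit 155) (nat_lit 156) (nat_lit 139))))) (PT.nd (nat_lit 45162) (PT.nd (nat_lit 78) (PT.lf (nat_lit 15200) (nat_lit 3)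 (nat_lit 200) (nat_lit 0) (nat_lit 156) (nat_lit 156) (nat_lit 138)) (PT.nd (nat_lit 78) (PT.lf (nat_lit 15048) (nat_lit 6) (nat_lit 198) (nat_lit 0) (nat_lit 157) (nat_lit 156) (nat_lit 137)) (PT.lf (nat_lit 14896) (nat_lit 6) (nat_lit 196) (nat_lit 0) (nat_lit 158) (nat_lit 156) (nat_lit 136)))) (PT.nd (nat_lit 156) (PT.nd (nat_lit 78) (PT.lf (nat_lit 14668) (nat_lit 6) (nat_lit 193) (nat_lit 5) (nat_lit 134) (nat_lit 157) (nat_lit 159)) (PT.lf (nat_lit 14820) (nat_lit 6) (nat_lit 195) (nat_lit 5) (nat_lit 135) (nat_lit 157) (nat_lit 158))) (PT.nd (nat_lit 78) (PT.lf (nat_lit 14972) (nat_lit 3) (nat_lit 197) (nat_lit 4) (nat_lit 136) (nat_lit 157) (nat_lit 157)) (PT.lf (nat_lit 15048) (nat_lit 6) (nat_lit 198) (nat_lit 4) (nat_lit 137) (nat_lit 157) (nat_lit 156)))))) (PT.nd (nat_lit 46488) (PT.nd (nat_lit 1482) (PT.nd (nat_lit 1326) (PT.lf (nat_lit 15124) (nat_lit 6) (nat_lit 199) (nat_lit 4)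 (nat_lit 138) (nat_lit 157) (nat_lit 155)) (PT.nd (nat_lit 78) (PT.lf (nat_lit 15124) (nat_lit 6) (nat_lit 199) (nat_lit 2) (nat_lit 155) (nat_lit 157) (nat_lit 138)) (PT.lf (nat_lit 15048) (nat_lit 6) (nat_lit 198) (nat_lit 2) (nat_lit 156) (nat_lit 157) (nat_lit 137)))) (PT.nd (nat_lit 156) (PT.nd (nat_lit 78) (PT.lf (nat_lit 14972) (nat_lit 3) (nat_lit 197) (nat_lit 0) (nat_lit 157) (nat_lit 157) (nat_lit 136)) (PT.lf (nat_lit 14820) (nat_lit 6) (nat_lit 195) (nat_lit 0) (nat_lit 158) (nat_lit 157) (nat_lit 135))) (PT.nd (nat_lit 44772) (PT.lf (nat_lit 14668) (nat_lit 6) (nat_lit 193) (nat_lit 0) (nat_lit 159) (nat_lit 157) (nat_lit 134)) (PT.lf (nat_lit 14440) (nat_lit 6) (nat_lit 190) (nat_lit 5) (nat_lit 132) (nat_lit 158) (nat_lit 160))))) (PT.nd (nat_lit 234) (PT.nd (nat_lit 78) (PT.lf (nat_lit 14592) (nat_lit 6) (nat_lit 192) (nat_lit 5) (nat_lit 133) (nat_lit 158) (nat_lit 159)) (PT.nd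 (nat_lit 78) (PT.lf (nat_lit 14744) (nat_lit 3) (nat_lit 194) (nat_lit 4) (nat_lit 134) (nat_lit 158) (nat_lit 158)) (PT.lf (nat_lit 14820) (nat_lit 6) (nat_lit 195) (nat_lit 4) (nat_lit 135) (nat_lit 158) (nat_lit 157)))) (PT.nd (nat_lit 1638) (PT.nd (nat_lit 1560) (PT.lf (nat_lit 14896) (nat_lit 6) (nat_lit 196) (nat_lit 4) (nat_lit 136) (nat_lit 158) (nat_lit 156)) (PT.lf (nat_lit 14896) (nat_lit 6) (nat_lit 196) (nat_lit 2) (nat_lit 156) (nat_lit 158) (nat_lit 136))) (PT.nd (nat_lit 78) (PT.lf (nat_lit 14820) (nat_lit 6) (nat_lit 195) (nat_lit 2) (nat_lit 157) (nat_lit 158) (nat_lit 135)) (PT.lf (nat_lit 14744) (nat_lit 3) (nat_lit 194) (nat_lit 0) (nat_lit 158) (nat_lit 158) (nat_lit 134))))))) (PT.nd (nat_lit 91416) (PT.nd (nat_lit 44928) (PT.nd (nat_lit 44694) (PT.nd (nat_lit 78) (PT.lf (nat_lit 14592) (nat_lit 6) (nat_lit 192) (nat_lit 0) (nat_lit 159) (nat_lit 158) (nat_lit 133)) (PT.nd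 (nat_lit 44538) (PT.lf (nat_lit 14440) (nat_lit 6) (nat_lit 190) (nat_lit 0) (nat_lit 160) (nat_lit 158) (nat_lit 132)) (PT.lf (nat_lit 14212) (nat_lit 6) (nat_lit 187) (nat_lit 5) (nat_lit 130) (nat_lit 159) (nat_lit 161)))) (PT.nd (nat_lit 78) (PT.lf (nat_lit 14364) (nat_lit 6) (nat_lit 189) (nat_lit 5) (nat_lit 131) (nat_lit 159) (nat_lit 160)) (PT.nd (nat_lit 78) (PT.lf (nat_lit 14516) (nat_lit 3) (nat_lit 191) (nat_lit 4) (nat_lit 132) (nat_lit 159) (nat_lit 159)) (PT.lf (nat_lit 14592) (nat_lit 6) (nat_lit 192) (nat_lit 4) (nat_lit 133) (nat_lit 159) (nat_lit 158))))) (PT.nd (nat_lit 1950) (PT.nd (nat_lit 1794) (PT.lf (nat_lit 14668) (nat_lit 6) (nat_lit 193) (nat_lit 4) (nat_lit 134) (nat_lit 159) (nat_lit 157)) (PT.nd (nat_lit 78) (PT.lf (nat_lit 14668) (nat_lit 6) (nat_lit 193) (nat_lit 2) (nat_lit 157) (nat_lit 159) (nat_lit 134)) (PT.lf (nat_lit 14592) (nat_lit 6) (nat_lit 192) (nat_lit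 2) (nat_lit 158) (nat_lit 159) (nat_lit 133)))) (PT.nd (nat_lit 156) (PT.nd (nat_lit 78) (PT.lf (nat_lit 14516) (nat_lit 3) (nat_lit 191) (nat_lit 0) (nat_lit 159) (nat_lit 159) (nat_lit 132)) (PT.lf (nat_lit 14364) (nat_lit 6) (nat_lit 189) (nat_lit 0) (nat_lit 160) (nat_lit 159) (nat_lit 131))) (PT.nd (nat_lit 44304) (PT.lf (nat_lit 14212) (nat_lit 6) (nat_lit 187) (nat_lit 0) (nat_lit 161) (nat_lit 159) (nat_lit 130)) (PT.lf (nat_lit 13984) (nat_lit 6) (nat_lit 184) (nat_lit 5) (nat_lit 128) (nat_lit 160) (nat_lit 162)))))) (PT.nd (nat_lit 2496) (PT.nd (nat_lit 234) (PT.nd (nat_lit 78) (PT.lf (nat_lit 14136) (nat_lit 6) (nat_lit 186) (nat_lit 5) (nat_lit 129) (nat_lit 160) (nat_lit 161)) (PT.nd (nat_lit 78) (PT.lf (nat_lit 14288) (nat_lit 3) (nat_lit 188) (nat_lit 4) (nat_lit 130) (nat_lit 160) (nat_lit 160)) (PT.lf (nat_lit 14364) (nat_lit 6) (nat_lit 189) (nat_lit 4) (nat_lit 131) (nat_lit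 160) (nat_lit 159)))) (PT.nd (nat_lit 2106) (PT.nd (nat_lit 2028) (PT.lf (nat_lit 14440) (nat_lit 6) (nat_lit 190) (nat_lit 4) (nat_lit 132) (nat_lit 160) (nat_lit 158)) (PT.lf (nat_lit 14440) (nat_lit 6) (nat_lit 190) (nat_lit 2) (nat_lit 158) (nat_lit 160) (nat_lit 132))) (PT.nd (nat_lit 78) (PT.lf (nat_lit 14364) (nat_lit 6) (nat_lit 189) (nat_lit 2) (nat_lit 159) (nat_lit 160) (nat_lit 131)) (PT.lf (nat_lit 14288) (nat_lit 3) (nat_lit 188) (nat_lit 0) (nat_lit 160) (nat_lit 160) (nat_lit 130))))) (PT.nd (nat_lit 44226) (PT.nd (nat_lit 78) (PT.lf (nat_lit 14136) (nat_lit 6) (nat_lit 186) (nat_lit 0) (nat_lit 161) (nat_lit 160) (nat_lit 129)) (PT.nd (nat_lit 44070) (PT.lf (nat_lit 13984) (nat_lit 6) (nat_lit 184) (nat_lit 0) (nat_lit 162) (nat_lit 160) (nat_lit 128)) (PT.lf (nat_lit 13756) (nat_lit 6) (nat_lit 181) (nat_lit 5) (nat_lit 126) (nat_lit 161) (nat_lit 163)))) (PT.nd (nat_lit 156)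 (PT.nd (nat_lit 78) (PT.lf (nat_lit 13908) (nat_lit 6) (nat_lit 183) (nat_lit 5) (nat_lit 127) (nat_lit 161) (nat_lit 162)) (PT.lf (nat_lit 14060) (nat_lit 3) (nat_lit 185) (nat_lit 4) (nat_lit 128) (nat_lit 161) (nat_lit 161))) (PT.nd (nat_lit 78) (PT.lf (nat_lit 14136) (nat_lit 6) (nat_lit 186) (nat_lit 4) (nat_lit 129) (nat_lit 161) (nat_lit 160)) (PT.lf (nat_lit 14212) (nat_lit 6) (nat_lit 187) (nat_lit 4) (nat_lit 130) (nat_lit 161) (nat_lit 159))))))))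
noncomputable def pc8 : PT := (PT.nd (nat_lit 137670) (PT.nd (nat_lit 47190) (PT.nd (nat_lit 44226) (PT.nd (nat_lit 234) (PT.nd (nat_lit 78) (PT.lf (nat_lit 14212) (nat_lit 6) (nat_lit 187) (nat_lit 2) (nat_lit 159) (nat_lit 161) (nat_lit 130)) (PT.nd (nat_lit 78) (PT.lf (nat_lit 14136) (nat_lit 6) (nat_lit 186) (nat_lit 2) (nat_lit 160) (nat_lit 161) (nat_lit 129)) (PT.lf (nat_lit 14060) (nat_lit 3) (nat_lit 185) (nat_lit 0) (nat_lit 161) (nat_lit 161) (nat_lit 128)))) (PT.nd (nat_lit 78) (PT.lf (nat_lit 13908) (nat_lit 6) (nat_lit 183) (nat_lit 0) (nat_lit 162) (nat_lit 161) (nat_lit 127)) (PT.nd (nat_lit 43836) (PT.lf (nat_lit 13756) (nat_lit 6) (nat_lit 181) (nat_lit 0) (nat_lit 163) (nat_lit 161) (nat_lit 126)) (PT.lf (nat_lit 13528) (nat_lit 6) (nat_lit 178) (nat_lit 5) (nat_lit 124) (nat_lit 162) (nat_lit 164))))) (PT.nd (nat_lit 234) (PT.nd (nat_lit 78) (PT.lf (nat_lit 13680) (nat_lit 6)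 (nat_lit 180) (nat_lit 5) (nat_lit 125) (nat_lit 162) (nat_lit 163)) (PT.nd (nat_lit 78) (PT.lf (nat_lit 13832) (nat_lit 3) (nat_lit 182) (nat_lit 4) (nat_lit 126) (nat_lit 162) (nat_lit 162)) (PT.lf (nat_lit 13908) (nat_lit 6) (nat_lit 183) (nat_lit 4) (nat_lit 127) (nat_lit 162) (nat_lit 161)))) (PT.nd (nat_lit 2574) (PT.nd (nat_lit 2496) (PT.lf (nat_lit 13984) (nat_lit 6) (nat_lit 184) (nat_lit 4) (nat_lit 128) (nat_lit 162) (nat_lit 160)) (PT.lf (nat_lit 13984) (nat_lit 6) (nat_lit 184) (nat_lit 2) (nat_lit 160) (nat_lit 162) (nat_lit 128))) (PT.nd (nat_lit 78) (PT.lf (nat_lit 13908) (nat_lit 6) (nat_lit 183) (nat_lit 2) (nat_lit 161) (nat_lit 162) (nat_lit 127)) (PT.lf (nat_lit 13832) (nat_lit 3) (nat_lit 182) (nat_lit 0) (nat_lit 162) (nat_lit 162) (nat_lit 126)))))) (PT.nd (nat_lit 43992) (PT.nd (nat_lit 43758) (PT.nd (nat_lit 78) (PT.lf (nat_lit 13680) (nat_lit 6) (nat_lit 180) (nat_lit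 0) (nat_lit 163) (nat_lit 162) (nat_lit 125)) (PT.nd (nat_lit 43602) (PT.lf (nat_lit 13528) (nat_lit 6) (nat_lit 178) (nat_lit 0) (nat_lit 164) (nat_lit 162) (nat_lit 124)) (PT.lf (nat_lit 13300) (nat_lit 6) (nat_lit 175) (nat_lit 5) (nat_lit 122) (nat_lit 163) (nat_lit 165)))) (PT.nd (nat_lit 78) (PT.lf (nat_lit 13452) (nat_lit 6) (nat_lit 177) (nat_lit 5) (nat_lit 123) (nat_lit 163) (nat_lit 164)) (PT.nd (nat_lit 78) (PT.lf (nat_lit 13604) (nat_lit 3) (nat_lit 179) (nat_lit 4) (nat_lit 124) (nat_lit 163) (nat_lit 163)) (PT.lf (nat_lit 13680) (nat_lit 6) (nat_lit 180) (nat_lit 4) (nat_lit 125) (nat_lit 163) (nat_lit 162))))) (PT.nd (nat_lit 2886) (PT.nd (nat_lit 2730) (PT.lf (nat_lit 13756) (nat_lit 6) (nat_lit 181) (nat_lit 4) (nat_lit 126) (nat_lit 163) (nat_lit 161)) (PT.nd (nat_lit 78) (PT.lf (nat_lit 13756) (nat_lit 6) (nat_lit 181) (nat_lit 2) (nat_lit 161) (nat_lit 163) (nat_lit 126)) (PT.lf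 (nat_lit 13680) (nat_lit 6) (nat_lit 180) (nat_lit 2) (nat_lit 162) (nat_lit 163) (nat_lit 125)))) (PT.nd (nat_lit 156) (PT.nd (nat_lit 78) (PT.lf (nat_lit 13604) (nat_lit 3) (nat_lit 179) (nat_lit 0) (nat_lit 163) (nat_lit 163) (nat_lit 124)) (PT.lf (nat_lit 13452) (nat_lit 6) (nat_lit 177) (nat_lit 0) (nat_lit 164) (nat_lit 163) (nat_lit 123))) (PT.nd (nat_lit 43368) (PT.lf (nat_lit 13300) (nat_lit 6) (nat_lit 175) (nat_lit 0) (nat_lit 165) (nat_lit 163) (nat_lit 122)) (PT.lf (nat_lit 13072) (nat_lit 6) (nat_lit 172) (nat_lit 5) (nat_lit 120) (nat_lit 164) (nat_lit 166))))))) (PT.nd (nat_lit 46956) (PT.nd (nat_lit 3354) (PT.nd (nat_lit 234) (PT.nd (nat_lit 78) (PT.lf (nat_lit 13224) (nat_lit 6) (nat_lit 174) (nat_lit 5) (nat_lit 121) (nat_lit 164) (nat_lit 165)) (PT.nd (nat_lit 78) (PT.lf (nat_lit 13376) (nat_lit 3) (nat_lit 176) (nat_lit 4) (nat_lit 122) (nat_lit 164) (nat_lit 164)) (PT.lf (nat_lit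 13452) (nat_lit 6) (nat_lit 177) (nat_lit 4) (nat_lit 123) (nat_lit 164) (nat_lit 163)))) (PT.nd (nat_lit 2964) (PT.lf (nat_lit 13528) (nat_lit 6) (nat_lit 178) (nat_lit 4) (nat_lit 124) (nat_lit 164) (nat_lit 162)) (PT.nd (nat_lit 78) (PT.lf (nat_lit 13528) (nat_lit 6) (nat_lit 178) (nat_lit 2) (nat_lit 162) (nat_lit 164) (nat_lit 124)) (PT.lf (nat_lit 13452) (nat_lit 6) (nat_lit 177) (nat_lit 2) (nat_lit 163) (nat_lit 164) (nat_lit 123))))) (PT.nd (nat_lit 43290) (PT.nd (nat_lit 78) (PT.lf (nat_lit 13376) (nat_lit 3) (nat_lit 176) (nat_lit 0) (nat_lit 164) (nat_lit 164) (nat_lit 122)) (PT.nd (nat_lit 78) (PT.lf (nat_lit 13224) (nat_lit 6) (nat_lit 174) (nat_lit 0) (nat_lit 165) (nat_lit 164) (nat_lit 121)) (PT.lf (nat_lit 13072) (nat_lit 6) (nat_lit 172) (nat_lit 0) (nat_lit 166) (nat_lit 164) (nat_lit 120)))) (PT.nd (nat_lit 156) (PT.nd (nat_lit 78) (PT.lf (nat_lit 12844) (nat_lit 6) (nat_lit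 169) (nat_lit 5) (nat_lit 118) (nat_lit 165) (nat_lit 167)) (PT.lf (nat_lit 12996) (nat_lit 6) (nat_lit 171) (nat_lit 5) (nat_lit 119) (nat_lit 165) (nat_lit 166))) (PT.nd (nat_lit 78) (PT.lf (nat_lit 13148) (nat_lit 3) (nat_lit 173) (nat_lit 4) (nat_lit 120) (nat_lit 165) (nat_lit 165)) (PT.lf (nat_lit 13224) (nat_lit 6) (nat_lit 174) (nat_lit 4) (nat_lit 121) (nat_lit 165) (nat_lit 164)))))) (PT.nd (nat_lit 46488) (PT.nd (nat_lit 3354) (PT.nd (nat_lit 3198) (PT.lf (nat_lit 13300) (nat_lit 6) (nat_lit 175) (nat_lit 4) (nat_lit 122) (nat_lit 165) (nat_lit 163)) (PT.nd (nat_lit 78) (PT.lf (nat_lit 13300) (nat_lit 6) (nat_lit 175) (nat_lit 2) (nat_lit 163) (nat_lit 165) (nat_lit 122)) (PT.lf (nat_lit 13224) (nat_lit 6) (nat_lit 174) (nat_lit 2) (nat_lit 164) (nat_lit 165) (nat_lit 121)))) (PT.nd (nat_lit 156) (PT.nd (nat_lit 78) (PT.lf (nat_lit 13148) (nat_lit 3) (nat_lit 173) (nat_lit 0) (nat_lit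 165) (nat_lit 165) (nat_lit 120)) (PT.lf (nat_lit 12996) (nat_lit 6) (nat_lit 171) (nat_lit 0) (nat_lit 166) (nat_lit 165) (nat_lit 119))) (PT.nd (nat_lit 42900) (PT.lf (nat_lit 12844) (nat_lit 6) (nat_lit 169) (nat_lit 0) (nat_lit 167) (nat_lit 165) (nat_lit 118)) (PT.lf (nat_lit 12616) (nat_lit 6) (nat_lit 166) (nat_lit 5) (nat_lit 116) (nat_lit 166) (nat_lit 168))))) (PT.nd (nat_lit 234) (PT.nd (nat_lit 78) (PT.lf (nat_lit 12768) (nat_lit 6) (nat_lit 168) (nat_lit 5) (nat_lit 117) (nat_lit 166) (nat_lit 167)) (PT.nd (nat_lit 78) (PT.lf (nat_lit 12920) (nat_lit 3) (nat_lit 170) (nat_lit 4) (nat_lit 118) (nat_lit 166) (nat_lit 166)) (PT.lf (nat_lit 12996) (nat_lit 6) (nat_lit 171) (nat_lit 4) (nat_lit 119) (nat_lit 166) (nat_lit 165)))) (PT.nd (nat_lit 3510) (PT.nd (nat_lit 3432) (PT.lf (nat_lit 13072) (nat_lit 6) (nat_lit 172) (nat_lit 4) (nat_lit 120) (nat_lit 166) (nat_lit 164)) (PT.lf (nat_lit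 13072) (nat_lit 6) (nat_lit 172) (nat_lit 2) (nat_lit 164) (nat_lit 166) (nat_lit 120))) (PT.nd (nat_lit 78) (PT.lf (nat_lit 12996) (nat_lit 6) (nat_lit 171) (nat_lit 2) (nat_lit 165) (nat_lit 166) (nat_lit 119)) (PT.lf (nat_lit 12920) (nat_lit 3) (nat_lit 170) (nat_lit 0) (nat_lit 166) (nat_lit 166) (nat_lit 118))))))))
noncomputable def pc9 : PT := (PT.nd (nat_lit 140634) (PT.nd (nat_lit 89544) (PT.nd (nat_lit 43056) (PT.nd (nat_lit 42822) (PT.nd (nat_lit 78) (PT.lf (nat_lit 12768) (nat_lit 6) (nat_lit 168) (nat_lit 0) (nat_lit 167) (nat_lit 166) (nat_lit 117)) (PT.nd (nat_lit 42666) (PT.lf (nat_lit 12616) (nat_lit 6) (nat_lit 166) (nat_lit 0) (nat_lit 168) (nat_lit 166) (nat_lit 116)) (PT.lf (nat_lit 12388) (nat_lit 6) (nat_lit 163) (nat_lit 5) (nat_lit 114) (nat_lit 167) (nat_lit 169)))) (PT.nd (nat_lit 78) (PT.lf (nat_lit 12540) (nat_lit 6) (nat_lit 165) (nat_lit 5) (nat_lit 115) (nat_lit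 167) (nat_lit 168)) (PT.nd (nat_lit 78) (PT.lf (nat_lit 12692) (nat_lit 3) (nat_lit 167) (nat_lit 4) (nat_lit 116) (nat_lit 167) (nat_lit 167)) (PT.lf (nat_lit 12768) (nat_lit 6) (nat_lit 168) (nat_lit 4) (nat_lit 117) (nat_lit 167) (nat_lit 166))))) (PT.nd (nat_lit 3822) (PT.nd (nat_lit 3666) (PT.lf (nat_lit 12844) (nat_lit 6) (nat_lit 169) (nat_lit 4) (nat_lit 118) (nat_lit 167) (nat_lit 165)) (PT.nd (nat_lit 78) (PT.lf (nat_lit 12844) (nat_lit 6) (nat_lit 169) (nat_lit 2) (nat_lit 165) (nat_lit 167) (nat_lit 118)) (PT.lf (nat_lit 12768) (nat_lit 6) (nat_lit 168) (nat_lit 2) (nat_lit 166) (nat_lit 167) (nat_lit 117)))) (PT.nd (nat_lit 156) (PT.nd (nat_lit 78) (PT.lf (nat_lit 12692) (nat_lit 3) (nat_lit 167) (nat_lit 0) (nat_lit 167) (nat_lit 167) (nat_lit 116)) (PT.lf (nat_lit 12540) (nat_lit 6) (nat_lit 165) (nat_lit 0) (nat_lit 168) (nat_lit 167) (nat_lit 115))) (PT.nd (nat_lit 42432) (PT.lf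 (nat_lit 12388) (nat_lit 6) (nat_lit 163) (nat_lit 0) (nat_lit 169) (nat_lit 167) (nat_lit 114)) (PT.lf (nat_lit 12160) (nat_lit 6) (nat_lit 160) (nat_lit 5) (nat_lit 112) (nat_lit 168) (nat_lit 170)))))) (PT.nd (nat_lit 4368) (PT.nd (nat_lit 234) (PT.nd (nat_lit 78) (PT.lf (nat_lit 12312) (nat_lit 6) (nat_lit 162) (nat_lit 5) (nat_lit 113) (nat_lit 168) (nat_lit 169)) (PT.nd (nat_lit 78) (PT.lf (nat_lit 12464) (nat_lit 3) (nat_lit 164) (nat_lit 4) (nat_lit 114) (nat_lit 168) (nat_lit 168)) (PT.lf (nat_lit 12540) (nat_lit 6) (nat_lit 165) (nat_lit 4) (nat_lit 115) (nat_lit 168) (nat_lit 167)))) (PT.nd (nat_lit 3978) (PT.nd (nat_lit 3900) (PT.lf (nat_lit 12616) (nat_lit 6) (nat_lit 166) (nat_lit 4) (nat_lit 116) (nat_lit 168) (nat_lit 166)) (PT.lf (nat_lit 12616) (nat_lit 6) (nat_lit 166) (nat_lit 2) (nat_lit 166) (nat_lit 168) (nat_lit 116))) (PT.nd (nat_lit 78) (PT.lf (nat_lit 12540) (nat_lit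 6) (nat_lit 165) (nat_lit 2) (nat_lit 167) (nat_lit 168) (nat_lit 115)) (PT.lf (nat_lit 12464) (nat_lit 3) (nat_lit 164) (nat_lit 0) (nat_lit 168) (nat_lit 168) (nat_lit 114))))) (PT.nd (nat_lit 42354) (PT.nd (nat_lit 78) (PT.lf (nat_lit 12312) (nat_lit 6) (nat_lit 162) (nat_lit 0) (nat_lit 169) (nat_lit 168) (nat_lit 113)) (PT.nd (nat_lit 42198) (PT.lf (nat_lit 12160) (nat_lit 6) (nat_lit 160) (nat_lit 0) (nat_lit 170) (nat_lit 168) (nat_lit 112)) (PT.lf (nat_lit 11932) (nat_lit 6) (nat_lit 157) (nat_lit 5) (nat_lit 110) (nat_lit 169) (nat_lit 171)))) (PT.nd (nat_lit 156) (PT.nd (nat_lit 78) (PT.lf (nat_lit 12084) (nat_lit 6) (nat_lit 159) (nat_lit 5) (nat_lit 111) (nat_lit 169) (nat_lit 170)) (PT.lf (nat_lit 12236) (nat_lit 3) (nat_lit 161) (nat_lit 4) (nat_lit 112) (nat_lit 169) (nat_lit 169))) (PT.nd (nat_lit 78) (PT.lf (nat_lit 12312) (nat_lit 6) (nat_lit 162) (nat_lit 4) (nat_lit 113) (nat_lit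 169) (nat_lit 168)) (PT.lf (nat_lit 12388) (nat_lit 6) (nat_lit 163) (nat_lit 4) (nat_lit 114) (nat_lit 169) (nat_lit 167))))))) (PT.nd (nat_lit 47190) (PT.nd (nat_lit 42354) (PT.nd (nat_lit 234) (PT.nd (nat_lit 78) (PT.lf (nat_lit 12388) (nat_lit 6) (nat_lit 163) (nat_lit 2) (nat_lit 167) (nat_lit 169) (nat_lit 114)) (PT.nd (nat_lit 78) (PT.lf (nat_lit 12312) (nat_lit 6) (nat_lit 162) (nat_lit 2) (nat_lit 168) (nat_lit 169) (nat_lit 113)) (PT.lf (nat_lit 12236) (nat_lit 3) (nat_lit 161) (nat_lit 0) (nat_lit 169) (nat_lit 169) (nat_lit 112)))) (PT.nd (nat_lit 78) (PT.lf (nat_lit 12084) (nat_lit 6) (nat_lit 159) (nat_lit 0) (nat_lit 170) (nat_lit 169) (nat_lit 111)) (PT.nd (nat_lit 41964) (PT.lf (nat_lit 11932) (nat_lit 6) (nat_lit 157) (nat_lit 0) (nat_lit 171) (nat_lit 169) (nat_lit 110)) (PT.lf (nat_lit 11704) (nat_lit 6) (nat_lit 154) (nat_lit 5) (nat_lit 108) (nat_lit 170) (nat_lit 172)))))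 (PT.nd (nat_lit 234) (PT.nd (nat_lit 78) (PT.lf (nat_lit 11856) (nat_lit 6) (nat_lit 156) (nat_lit 5) (nat_lit 109) (nat_lit 170) (nat_lit 171)) (PT.nd (nat_lit 78) (PT.lf (nat_lit 12008) (nat_lit 3) (nat_lit 158) (nat_lit 4) (nat_lit 110) (nat_lit 170) (nat_lit 170)) (PT.lf (nat_lit 12084) (nat_lit 6) (nat_lit 159) (nat_lit 4) (nat_lit 111) (nat_lit 170) (nat_lit 169)))) (PT.nd (nat_lit 4446) (PT.nd (nat_lit 4368) (PT.lf (nat_lit 12160) (nat_lit 6) (nat_lit 160) (nat_lit 4) (nat_lit 112) (nat_lit 170) (nat_lit 168)) (PT.lf (nat_lit 12160) (nat_lit 6) (nat_lit 160) (nat_lit 2) (nat_lit 168) (nat_lit 170) (nat_lit 112))) (PT.nd (nat_lit 78) (PT.lf (nat_lit 12084) (nat_lit 6) (nat_lit 159) (nat_lit 2) (nat_lit 169) (nat_lit 170) (nat_lit 111)) (PT.lf (nat_lit 12008) (nat_lit 3) (nat_lit 158) (nat_lit 0) (nat_lit 170) (nat_lit 170) (nat_lit 110)))))) (PT.nd (nat_lit 46722) (PT.nd (nat_lit 41886) (PT.nd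 (nat_lit 78) (PT.lf (nat_lit 11856) (nat_lit 6) (nat_lit 156) (nat_lit 0) (nat_lit 171) (nat_lit 170) (nat_lit 109)) (PT.nd (nat_lit 41730) (PT.lf (nat_lit 11704) (nat_lit 6) (nat_lit 154) (nat_lit 0) (nat_lit 172) (nat_lit 170) (nat_lit 108)) (PT.lf (nat_lit 11476) (nat_lit 6) (nat_lit 151) (nat_lit 5) (nat_lit 106) (nat_lit 171) (nat_lit 173)))) (PT.nd (nat_lit 156) (PT.nd (nat_lit 78) (PT.lf (nat_lit 11628) (nat_lit 6) (nat_lit 153) (nat_lit 5) (nat_lit 107) (nat_lit 171) (nat_lit 172)) (PT.lf (nat_lit 11780) (nat_lit 3) (nat_lit 155) (nat_lit 4) (nat_lit 108) (nat_lit 171) (nat_lit 171))) (PT.nd (nat_lit 78) (PT.lf (nat_lit 11856) (nat_lit 6) (nat_lit 156) (nat_lit 4) (nat_lit 109) (nat_lit 171) (nat_lit 170)) (PT.lf (nat_lit 11932) (nat_lit 6) (nat_lit 157) (nat_lit 4) (nat_lit 110) (nat_lit 171) (nat_lit 169))))) (PT.nd (nat_lit 234) (PT.nd (nat_lit 78) (PT.lf (nat_lit 11932) (nat_lit 6)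 (nat_lit 157) (nat_lit 2) (nat_lit 169) (nat_lit 171) (nat_lit 110)) (PT.nd (nat_lit 78) (PT.lf (nat_lit 11856) (nat_lit 6) (nat_lit 156) (nat_lit 2) (nat_lit 170) (nat_lit 171) (nat_lit 109)) (PT.lf (nat_lit 11780) (nat_lit 3) (nat_lit 155) (nat_lit 0) (nat_lit 171) (nat_lit 171) (nat_lit 108)))) (PT.nd (nat_lit 41574) (PT.nd (nat_lit 78) (PT.lf (nat_lit 11628) (nat_lit 6) (nat_lit 153) (nat_lit 0) (nat_lit 172) (nat_lit 171) (nat_lit 107)) (PT.lf (nat_lit 11476) (nat_lit 6) (nat_lit 151) (nat_lit 0) (nat_lit 173) (nat_lit 171) (nat_lit 106))) (PT.nd (nat_lit 78) (PT.lf (nat_lit 11248) (nat_lit 6) (nat_lit 148) (nat_lit 5) (nat_lit 104) (nat_lit 172) (nat_lit 174)) (PT.lf (nat_lit 11400) (nat_lit 6) (nat_lit 150) (nat_lit 5) (nat_lit 105) (nat_lit 172) (nat_lit 173))))))))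
noncomputable def pc10 : PT := (PT.nd (nat_lit 99216) (PT.nd (nat_lit 51948) (PT.nd (nat_lit 5226) (PT.nd (nat_lit 4992) (PT.nd (nat_lit 78) (PT.lf (nat_lit 11552) (nat_lit 3) (nat_lit 152) (nat_lit 4) (nat_lit 106) (nat_lit 172) (nat_lit 172)) (PT.nd (nat_lit 78) (PT.lf (nat_lit 11628) (nat_lit 6) (nat_lit 153) (nat_lit 4) (nat_lit 107) (nat_lit 172) (nat_lit 171)) (PT.lf (nat_lit 11704) (nat_lit 6) (nat_lit 154) (nat_lit 4) (nat_lit 108) (nat_lit 172) (nat_lit 170)))) (PT.nd (nat_lit 78) (PT.lf (nat_lit 11704) (nat_lit 6) (nat_lit 154) (nat_lit 2) (nat_lit 170) (nat_lit 172) (nat_lit 108)) (PT.nd (nat_lit 78) (PT.lf (nat_lit 11628) (nat_lit 6) (nat_lit 153) (nat_lit 2) (nat_lit 171) (nat_lit 172) (nat_lit 107)) (PT.lf (nat_lit 11552) (nat_lit 3) (nat_lit 152) (nat_lit 0) (nat_lit 172) (nat_lit 172) (nat_lit 106))))) (PT.nd (nat_lit 41418) (PT.nd (nat_lit 78) (PT.lf (nat_lit 11400) (nat_lit 6)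 (nat_lit 150) (nat_lit 0) (nat_lit 173) (nat_lit 172) (nat_lit 105)) (PT.nd (nat_lit 41262) (PT.lf (nat_lit 11248) (nat_lit 6) (nat_lit 148) (nat_lit 0) (nat_lit 174) (nat_lit 172) (nat_lit 104)) (PT.lf (nat_lit 11020) (nat_lit 6) (nat_lit 145) (nat_lit 5) (nat_lit 102) (nat_lit 173) (nat_lit 175)))) (PT.nd (nat_lit 156) (PT.nd (nat_lit 78) (PT.lf (nat_lit 11172) (nat_lit 6) (nat_lit 147) (nat_lit 5) (nat_lit 103) (nat_lit 173) (nat_lit 174)) (PT.lf (nat_lit 11324) (nat_lit 3) (nat_lit 149) (nat_lit 4) (nat_lit 104) (nat_lit 173) (nat_lit 173))) (PT.nd (nat_lit 78) (PT.lf (nat_lit 11400) (nat_lit 6) (nat_lit 150) (nat_lit 4) (nat_lit 105) (nat_lit 173) (nat_lit 172)) (PT.lf (nat_lit 11476) (nat_lit 6) (nat_lit 151) (nat_lit 4) (nat_lit 106) (nat_lit 173) (nat_lit 171)))))) (PT.nd (nat_lit 41496) (PT.nd (nat_lit 234) (PT.nd (nat_lit 78) (PT.lf (nat_lit 11476) (nat_lit 6) (nat_lit 151) (nat_lit 2)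 (nat_lit 171) (nat_lit 173) (nat_lit 106)) (PT.nd (nat_lit 78) (PT.lf (nat_lit 11400) (nat_lit 6) (nat_lit 150) (nat_lit 2) (nat_lit 172) (nat_lit 173) (nat_lit 105)) (PT.lf (nat_lit 11324) (nat_lit 3) (nat_lit 149) (nat_lit 0) (nat_lit 173) (nat_lit 173) (nat_lit 104)))) (PT.nd (nat_lit 41106) (PT.nd (nat_lit 78) (PT.lf (nat_lit 11172) (nat_lit 6) (nat_lit 147) (nat_lit 0) (nat_lit 174) (nat_lit 173) (nat_lit 103)) (PT.lf (nat_lit 11020) (nat_lit 6) (nat_lit 145) (nat_lit 0) (nat_lit 175) (nat_lit 173) (nat_lit 102))) (PT.nd (nat_lit 78) (PT.lf (nat_lit 10792) (nat_lit 6) (nat_lit 142) (nat_lit 5) (nat_lit 100) (nat_lit 174) (nat_lit 176)) (PT.lf (nat_lit 10944) (nat_lit 6) (nat_lit 144) (nat_lit 5) (nat_lit 101) (nat_lit 174) (nat_lit 175))))) (PT.nd (nat_lit 5460) (PT.nd (nat_lit 78) (PT.lf (nat_lit 11096) (nat_lit 3) (nat_lit 146) (nat_lit 4) (nat_lit 102) (nat_lit 174) (nat_lit 174)) (PT.nd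 (nat_lit 78) (PT.lf (nat_lit 11172) (nat_lit 6) (nat_lit 147) (nat_lit 4) (nat_lit 103) (nat_lit 174) (nat_lit 173)) (PT.lf (nat_lit 11248) (nat_lit 6) (nat_lit 148) (nat_lit 4) (nat_lit 104) (nat_lit 174) (nat_lit 172)))) (PT.nd (nat_lit 156) (PT.nd (nat_lit 78) (PT.lf (nat_lit 11248) (nat_lit 6) (nat_lit 148) (nat_lit 2) (nat_lit 172) (nat_lit 174) (nat_lit 104)) (PT.lf (nat_lit 11172) (nat_lit 6) (nat_lit 147) (nat_lit 2) (nat_lit 173) (nat_lit 174) (nat_lit 103))) (PT.nd (nat_lit 78) (PT.lf (nat_lit 11096) (nat_lit 3) (nat_lit 146) (nat_lit 0) (nat_lit 174) (nat_lit 174) (nat_lit 102)) (PT.lf (nat_lit 10944) (nat_lit 6) (nat_lit 144) (nat_lit 0) (nat_lit 175) (nat_lit 174) (nat_lit 101))))))) (PT.nd (nat_lit 87672) (PT.nd (nat_lit 46644) (PT.nd (nat_lit 40950) (PT.nd (nat_lit 40794) (PT.lf (nat_lit 10792) (nat_lit 6) (nat_lit 142) (nat_lit 0) (nat_lit 176) (nat_lit 174) (nat_lit 100)) (PT.nd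 (nat_lit 78) (PT.lf (nat_lit 10564) (nat_lit 6) (nat_lit 139) (nat_lit 5) (nat_lit 98) (nat_lit 175) (nat_lit 177)) (PT.lf (nat_lit 10716) (nat_lit 6) (nat_lit 141) (nat_lit 5) (nat_lit 99) (nat_lit 175) (nat_lit 176)))) (PT.nd (nat_lit 78) (PT.lf (nat_lit 10868) (nat_lit 3) (nat_lit 143) (nat_lit 4) (nat_lit 100) (nat_lit 175) (nat_lit 175)) (PT.nd (nat_lit 78) (PT.lf (nat_lit 10944) (nat_lit 6) (nat_lit 144) (nat_lit 4) (nat_lit 101) (nat_lit 175) (nat_lit 174)) (PT.lf (nat_lit 11020) (nat_lit 6) (nat_lit 145) (nat_lit 4) (nat_lit 102) (nat_lit 175) (nat_lit 173))))) (PT.nd (nat_lit 234) (PT.nd (nat_lit 78) (PT.lf (nat_lit 11020) (nat_lit 6) (nat_lit 145) (nat_lit 2) (nat_lit 173) (nat_lit 175) (nat_lit 102)) (PT.nd (nat_lit 78) (PT.lf (nat_lit 10944) (nat_lit 6) (nat_lit 144) (nat_lit 2) (nat_lit 174) (nat_lit 175) (nat_lit 101)) (PT.lf (nat_lit 10868) (nat_lit 3) (nat_lit 143) (nat_lit 0) (nat_lit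 175) (nat_lit 175) (nat_lit 100)))) (PT.nd (nat_lit 40638) (PT.nd (nat_lit 78) (PT.lf (nat_lit 10716) (nat_lit 6) (nat_lit 141) (nat_lit 0) (nat_lit 176) (nat_lit 175) (nat_lit 99)) (PT.lf (nat_lit 10564) (nat_lit 6) (nat_lit 139) (nat_lit 0) (nat_lit 177) (nat_lit 175) (nat_lit 98))) (PT.nd (nat_lit 78) (PT.lf (nat_lit 10336) (nat_lit 6) (nat_lit 136) (nat_lit 5) (nat_lit 96) (nat_lit 176) (nat_lit 178)) (PT.lf (nat_lit 10488) (nat_lit 6) (nat_lit 138) (nat_lit 5) (nat_lit 97) (nat_lit 176) (nat_lit 177)))))) (PT.nd (nat_lit 6240) (PT.nd (nat_lit 5928) (PT.nd (nat_lit 78) (PT.lf (nat_lit 10640) (nat_lit 3) (nat_lit 140) (nat_lit 4) (nat_lit 98) (nat_lit 176) (nat_lit 176)) (PT.nd (nat_lit 78) (PT.lf (nat_lit 10716) (nat_lit 6) (nat_lit 141) (nat_lit 4) (nat_lit 99) (nat_lit 176) (nat_lit 175)) (PT.lf (nat_lit 10792) (nat_lit 6) (nat_lit 142) (nat_lit 4) (nat_lit 100) (nat_lit 176) (nat_lit 174))))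 (PT.nd (nat_lit 156) (PT.nd (nat_lit 78) (PT.lf (nat_lit 10792) (nat_lit 6) (nat_lit 142) (nat_lit 2) (nat_lit 174) (nat_lit 176) (nat_lit 100)) (PT.lf (nat_lit 10716) (nat_lit 6) (nat_lit 141) (nat_lit 2) (nat_lit 175) (nat_lit 176) (nat_lit 99))) (PT.nd (nat_lit 78) (PT.lf (nat_lit 10640) (nat_lit 3) (nat_lit 140) (nat_lit 0) (nat_lit 176) (nat_lit 176) (nat_lit 98)) (PT.lf (nat_lit 10488) (nat_lit 6) (nat_lit 138) (nat_lit 0) (nat_lit 177) (nat_lit 176) (nat_lit 97))))) (PT.nd (nat_lit 40482) (PT.nd (nat_lit 40326) (PT.lf (nat_lit 10336) (nat_lit 6) (nat_lit 136) (nat_lit 0) (nat_lit 178) (nat_lit 176) (nat_lit 96)) (PT.nd (nat_lit 78) (PT.lf (nat_lit 10108) (nat_lit 6) (nat_lit 133) (nat_lit 5) (nat_lit 94) (nat_lit 177) (nat_lit 179)) (PT.lf (nat_lit 10260) (nat_lit 6) (nat_lit 135) (nat_lit 5) (nat_lit 95) (nat_lit 177) (nat_lit 178)))) (PT.nd (nat_lit 156) (PT.nd (nat_lit 78) (PT.lf (nat_lit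 10412) (nat_lit 3) (nat_lit 137) (nat_lit 4) (nat_lit 96) (nat_lit 177) (nat_lit 177)) (PT.lf (nat_lit 10488) (nat_lit 6) (nat_lit 138) (nat_lit 4) (nat_lit 97) (nat_lit 177) (nat_lit 176))) (PT.nd (nat_lit 6006) (PT.lf (nat_lit 10564) (nat_lit 6) (nat_lit 139) (nat_lit 4) (nat_lit 98) (nat_lit 177) (nat_lit 175)) (PT.lf (nat_lit 10564) (nat_lit 6) (nat_lit 139) (nat_lit 2) (nat_lit 175) (nat_lit 177) (nat_lit 98))))))))
noncomputable def pc11 : PT := (PT.nd (nat_lit 134004) (PT.nd (nat_lit 47190) (PT.nd (nat_lit 40482) (PT.nd (nat_lit 234) (PT.nd (nat_lit 78) (PT.lf (nat_lit 10488) (nat_lit 6) (nat_lit 138) (nat_lit 2) (nat_lit 176) (nat_lit 177) (nat_lit 97)) (PT.nd (nat_lit 78) (PT.lf (nat_lit 10412) (nat_lit 3) (nat_lit 137) (nat_lit 0) (nat_lit 177) (nat_lit 177) (nat_lit 96)) (PT.lf (nat_lit 10260) (nat_lit 6) (nat_lit 135) (nat_lit 0) (nat_lit 178) (nat_lit 177) (nat_lit 95)))) (PT.nd (nat_lit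 40092) (PT.lf (nat_lit 10108) (nat_lit 6) (nat_lit 133) (nat_lit 0) (nat_lit 179) (nat_lit 177) (nat_lit 94)) (PT.nd (nat_lit 78) (PT.lf (nat_lit 9880) (nat_lit 6) (nat_lit 130) (nat_lit 5) (nat_lit 92) (nat_lit 178) (nat_lit 180)) (PT.lf (nat_lit 10032) (nat_lit 6) (nat_lit 132) (nat_lit 5) (nat_lit 93) (nat_lit 178) (nat_lit 179))))) (PT.nd (nat_lit 6396) (PT.nd (nat_lit 78) (PT.lf (nat_lit 10184) (nat_lit 3) (nat_lit 134) (nat_lit 4) (nat_lit 94) (nat_lit 178) (nat_lit 178)) (PT.nd (nat_lit 78) (PT.lf (nat_lit 10260) (nat_lit 6) (nat_lit 135) (nat_lit 4) (nat_lit 95) (nat_lit 178) (nat_lit 177)) (PT.lf (nat_lit 10336) (nat_lit 6) (nat_lit 136) (nat_lit 4) (nat_lit 96) (nat_lit 178) (nat_lit 176)))) (PT.nd (nat_lit 156) (PT.nd (nat_lit 78) (PT.lf (nat_lit 10336) (nat_lit 6) (nat_lit 136) (nat_lit 2) (nat_lit 176) (nat_lit 178) (nat_lit 96)) (PT.lf (nat_lit 10260) (nat_lit 6) (nat_lit 135) (nat_lit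 2) (nat_lit 177) (nat_lit 178) (nat_lit 95))) (PT.nd (nat_lit 78) (PT.lf (nat_lit 10184) (nat_lit 3) (nat_lit 134) (nat_lit 0) (nat_lit 178) (nat_lit 178) (nat_lit 94)) (PT.lf (nat_lit 10032) (nat_lit 6) (nat_lit 132) (nat_lit 0) (nat_lit 179) (nat_lit 178) (nat_lit 93)))))) (PT.nd (nat_lit 46722) (PT.nd (nat_lit 40014) (PT.nd (nat_lit 39858) (PT.lf (nat_lit 9880) (nat_lit 6) (nat_lit 130) (nat_lit 0) (nat_lit 180) (nat_lit 178) (nat_lit 92)) (PT.nd (nat_lit 78) (PT.lf (nat_lit 9652) (nat_lit 6) (nat_lit 127) (nat_lit 5) (nat_lit 90) (nat_lit 179) (nat_lit 181)) (PT.lf (nat_lit 9804) (nat_lit 6) (nat_lit 129) (nat_lit 5) (nat_lit 91) (nat_lit 179) (nat_lit 180)))) (PT.nd (nat_lit 156) (PT.nd (nat_lit 78) (PT.lf (nat_lit 9956) (nat_lit 3) (nat_lit 131) (nat_lit 4) (nat_lit 92) (nat_lit 179) (nat_lit 179)) (PT.lf (nat_lit 10032) (nat_lit 6) (nat_lit 132) (nat_lit 4) (nat_lit 93) (nat_lit 179) (nat_lit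 178))) (PT.nd (nat_lit 6474) (PT.lf (nat_lit 10108) (nat_lit 6) (nat_lit 133) (nat_lit 4) (nat_lit 94) (nat_lit 179) (nat_lit 177)) (PT.lf (nat_lit 10108) (nat_lit 6) (nat_lit 133) (nat_lit 2) (nat_lit 177) (nat_lit 179) (nat_lit 94))))) (PT.nd (nat_lit 234) (PT.nd (nat_lit 78) (PT.lf (nat_lit 10032) (nat_lit 6) (nat_lit 132) (nat_lit 2) (nat_lit 178) (nat_lit 179) (nat_lit 93)) (PT.nd (nat_lit 78) (PT.lf (nat_lit 9956) (nat_lit 3) (nat_lit 131) (nat_lit 0) (nat_lit 179) (nat_lit 179) (nat_lit 92)) (PT.lf (nat_lit 9804) (nat_lit 6) (nat_lit 129) (nat_lit 0) (nat_lit 180) (nat_lit 179) (nat_lit 91)))) (PT.nd (nat_lit 39702) (PT.nd (nat_lit 39624) (PT.lf (nat_lit 9652) (nat_lit 6) (nat_lit 127) (nat_lit 0) (nat_lit 181) (nat_lit 179) (nat_lit 90)) (PT.lf (nat_lit 9424) (nat_lit 6) (nat_lit 124) (nat_lit 5) (nat_lit 88) (nat_lit 180) (nat_lit 182))) (PT.nd (nat_lit 78) (PT.lf (nat_lit 9576) (nat_lit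 6) (nat_lit 126) (nat_lit 5) (nat_lit 89) (nat_lit 180) (nat_lit 181)) (PT.lf (nat_lit 9728) (nat_lit 3) (nat_lit 128) (nat_lit 4) (nat_lit 90) (nat_lit 180) (nat_lit 180))))))) (PT.nd (nat_lit 53898) (PT.nd (nat_lit 7098) (PT.nd (nat_lit 6864) (PT.nd (nat_lit 78) (PT.lf (nat_lit 9804) (nat_lit 6) (nat_lit 129) (nat_lit 4) (nat_lit 91) (nat_lit 180) (nat_lit 179)) (PT.nd (nat_lit 6708) (PT.lf (nat_lit 9880) (nat_lit 6) (nat_lit 130) (nat_lit 4) (nat_lit 92) (nat_lit 180) (nat_lit 178)) (PT.lf (nat_lit 9880) (nat_lit 6) (nat_lit 130) (nat_lit 2) (nat_lit 178) (nat_lit 180) (nat_lit 92)))) (PT.nd (nat_lit 78) (PT.lf (nat_lit 9804) (nat_lit 6) (nat_lit 129) (nat_lit 2) (nat_lit 179) (nat_lit 180) (nat_lit 91)) (PT.nd (nat_lit 78) (PT.lf (nat_lit 9728) (nat_lit 3) (nat_lit 128) (nat_lit 0) (nat_lit 180) (nat_lit 180) (nat_lit 90)) (PT.lf (nat_lit 9576) (nat_lit 6) (nat_lit 126) (nat_lit 0) (nat_lit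 181) (nat_lit 180) (nat_lit 89))))) (PT.nd (nat_lit 39624) (PT.nd (nat_lit 39468) (PT.lf (nat_lit 9424) (nat_lit 6) (nat_lit 124) (nat_lit 0) (nat_lit 182) (nat_lit 180) (nat_lit 88)) (PT.nd (nat_lit 78) (PT.lf (nat_lit 9348) (nat_lit 6) (nat_lit 123) (nat_lit 5) (nat_lit 87) (nat_lit 181) (nat_lit 182)) (PT.lf (nat_lit 9500) (nat_lit 3) (nat_lit 125) (nat_lit 4) (nat_lit 88) (nat_lit 181) (nat_lit 181)))) (PT.nd (nat_lit 7020) (PT.nd (nat_lit 78) (PT.lf (nat_lit 9576) (nat_lit 6) (nat_lit 126) (nat_lit 4) (nat_lit 89) (nat_lit 181) (nat_lit 180)) (PT.lf (nat_lit 9652) (nat_lit 6) (nat_lit 127) (nat_lit 4) (nat_lit 90) (nat_lit 181) (nat_lit 179))) (PT.nd (nat_lit 78) (PT.lf (nat_lit 9652) (nat_lit 6) (nat_lit 127) (nat_lit 2) (nat_lit 179) (nat_lit 181) (nat_lit 90)) (PT.lf (nat_lit 9576) (nat_lit 6) (nat_lit 126) (nat_lit 2) (nat_lit 180) (nat_lit 181) (nat_lit 89)))))) (PT.nd (nat_lit 46878)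 (PT.nd (nat_lit 39468) (PT.nd (nat_lit 78) (PT.lf (nat_lit 9500) (nat_lit 3) (nat_lit 125) (nat_lit 0) (nat_lit 181) (nat_lit 181) (nat_lit 88)) (PT.nd (nat_lit 39312) (PT.lf (nat_lit 9348) (nat_lit 6) (nat_lit 123) (nat_lit 0) (nat_lit 182) (nat_lit 181) (nat_lit 87)) (PT.lf (nat_lit 9120) (nat_lit 6) (nat_lit 120) (nat_lit 5) (nat_lit 85) (nat_lit 182) (nat_lit 183)))) (PT.nd (nat_lit 156) (PT.nd (nat_lit 78) (PT.lf (nat_lit 9272) (nat_lit 3) (nat_lit 122) (nat_lit 4) (nat_lit 86) (nat_lit 182) (nat_lit 182)) (PT.lf (nat_lit 9348) (nat_lit 6) (nat_lit 123) (nat_lit 4) (nat_lit 87) (nat_lit 182) (nat_lit 181))) (PT.nd (nat_lit 7176) (PT.lf (nat_lit 9424) (nat_lit 6) (nat_lit 124) (nat_lit 4) (nat_lit 88) (nat_lit 182) (nat_lit 180)) (PT.lf (nat_lit 9424) (nat_lit 6) (nat_lit 124) (nat_lit 2) (nat_lit 180) (nat_lit 182) (nat_lit 88))))) (PT.nd (nat_lit 39234) (PT.nd (nat_lit 78) (PT.lf (nat_lit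 9348) (nat_lit 6) (nat_lit 123) (nat_lit 2) (nat_lit 181) (nat_lit 182) (nat_lit 87)) (PT.nd (nat_lit 78) (PT.lf (nat_lit 9272) (nat_lit 3) (nat_lit 122) (nat_lit 0) (nat_lit 182) (nat_lit 182) (nat_lit 86)) (PT.lf (nat_lit 9120) (nat_lit 6) (nat_lit 120) (nat_lit 0) (nat_lit 183) (nat_lit 182) (nat_lit 85)))) (PT.nd (nat_lit 156) (PT.nd (nat_lit 78) (PT.lf (nat_lit 8892) (nat_lit 6) (nat_lit 117) (nat_lit 5) (nat_lit 83) (nat_lit 183) (nat_lit 184)) (PT.lf (nat_lit 9044) (nat_lit 3) (nat_lit 119) (nat_lit 4) (nat_lit 84) (nat_lit 183) (nat_lit 183))) (PT.nd (nat_lit 7566) (PT.lf (nat_lit 9120) (nat_lit 6) (nat_lit 120) (nat_lit 4) (nat_lit 85) (nat_lit 183) (nat_lit 182)) (PT.lf (nat_lit 9120) (nat_lit 6) (nat_lit 120) (nat_lit 2) (nat_lit 182) (nat_lit 183) (nat_lit 85))))))))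
noncomputable def pc12 : PT := (PT.nd (nat_lit 225888) (PT.nd (nat_lit 93990) (PT.nd (nat_lit 46956) (PT.nd (nat_lit 39000) (PT.nd (nat_lit 78) (PT.lf (nat_lit 9044) (nat_lit 3) (nat_lit 119) (nat_lit 0) (nat_lit 183) (nat_lit 183) (nat_lit 84)) (PT.nd (nat_lit 38844) (PT.lf (nat_lit 8892) (nat_lit 6) (nat_lit 117) (nat_lit 0) (nat_lit 184) (nat_lit 183) (nat_lit 83)) (PT.lf (nat_lit 8664) (nat_lit 6) (nat_lit 114) (nat_lit 5) (nat_lit 81) (nat_lit 184) (nat_lit 185)))) (PT.nd (nat_lit 78) (PT.lf (nat_lit 8816) (nat_lit 3) (nat_lit 116) (nat_lit 4) (nat_lit 82) (nat_lit 184) (nat_lit 184)) (PT.nd (nat_lit 7800) (PT.lf (nat_lit 8892) (nat_lit 6) (nat_lit 117) (nat_lit 4) (nat_lit 83) (nat_lit 184) (nat_lit 183)) (PT.lf (nat_lit 8892) (nat_lit 6) (nat_lit 117) (nat_lit 2) (nat_lit 183) (nat_lit 184) (nat_lit 83))))) (PT.nd (nat_lit 38766) (PT.nd (nat_lit 78) (PT.lf (nat_lit 8816) (nat_lit 3) (nat_lit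 116) (nat_lit 0) (nat_lit 184) (nat_lit 184) (nat_lit 82)) (PT.nd (nat_lit 38610) (PT.lf (nat_lit 8664) (nat_lit 6) (nat_lit 114) (nat_lit 0) (nat_lit 185) (nat_lit 184) (nat_lit 81)) (PT.lf (nat_lit 8436) (nat_lit 6) (nat_lit 111) (nat_lit 5) (nat_lit 79) (nat_lit 185) (nat_lit 186)))) (PT.nd (nat_lit 8112) (PT.nd (nat_lit 78) (PT.lf (nat_lit 8588) (nat_lit 3) (nat_lit 113) (nat_lit 4) (nat_lit 80) (nat_lit 185) (nat_lit 185)) (PT.lf (nat_lit 8664) (nat_lit 6) (nat_lit 114) (nat_lit 4) (nat_lit 81) (nat_lit 185) (nat_lit 184))) (PT.nd (nat_lit 78) (PT.lf (nat_lit 8664) (nat_lit 6) (nat_lit 114) (nat_lit 2) (nat_lit 184) (nat_lit 185) (nat_lit 81)) (PT.lf (nat_lit 8588) (nat_lit 3) (nat_lit 113) (nat_lit 0) (nat_lit 185) (nat_lit 185) (nat_lit 80)))))) (PT.nd (nat_lit 85098) (PT.nd (nat_lit 38532) (PT.nd (nat_lit 38376) (PT.lf (nat_lit 8436) (nat_lit 6) (nat_lit 111) (nat_lit 0) (nat_lit 186) (nat_lit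 185) (nat_lit 79)) (PT.nd (nat_lit 78) (PT.lf (nat_lit 8208) (nat_lit 6) (nat_lit 108) (nat_lit 5) (nat_lit 77) (nat_lit 186) (nat_lit 187)) (PT.lf (nat_lit 8360) (nat_lit 3) (nat_lit 110) (nat_lit 4) (nat_lit 78) (nat_lit 186) (nat_lit 186)))) (PT.nd (nat_lit 8346) (PT.nd (nat_lit 8268) (PT.lf (nat_lit 8436) (nat_lit 6) (nat_lit 111) (nat_lit 4) (nat_lit 79) (nat_lit 186) (nat_lit 185)) (PT.lf (nat_lit 8436) (nat_lit 6) (nat_lit 111) (nat_lit 2) (nat_lit 185) (nat_lit 186) (nat_lit 79))) (PT.nd (nat_lit 78) (PT.lf (nat_lit 8360) (nat_lit 3) (nat_lit 110) (nat_lit 0) (nat_lit 186) (nat_lit 186) (nat_lit 78)) (PT.lf (nat_lit 8208) (nat_lit 6) (nat_lit 108) (nat_lit 0) (nat_lit 187) (nat_lit 186) (nat_lit 77))))) (PT.nd (nat_lit 8658) (PT.nd (nat_lit 78) (PT.lf (nat_lit 7980) (nat_lit 6) (nat_lit 105) (nat_lit 5) (nat_lit 75) (nat_lit 187) (nat_lit 188)) (PT.nd (nat_lit 78) (PT.lf (nat_lit 8132)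 (nat_lit 3) (nat_lit 107) (nat_lit 4) (nat_lit 76) (nat_lit 187) (nat_lit 187)) (PT.lf (nat_lit 8208) (nat_lit 6) (nat_lit 108) (nat_lit 4) (nat_lit 77) (nat_lit 187) (nat_lit 186)))) (PT.nd (nat_lit 156) (PT.nd (nat_lit 78) (PT.lf (nat_lit 8208) (nat_lit 6) (nat_lit 108) (nat_lit 2) (nat_lit 186) (nat_lit 187) (nat_lit 77)) (PT.lf (nat_lit 8132) (nat_lit 3) (nat_lit 107) (nat_lit 0) (nat_lit 187) (nat_lit 187) (nat_lit 76))) (PT.nd (nat_lit 37908) (PT.lf (nat_lit 7980) (nat_lit 6) (nat_lit 105) (nat_lit 0) (nat_lit 188) (nat_lit 187) (nat_lit 75)) (PT.lf (nat_lit 7752) (nat_lit 6) (nat_lit 102) (nat_lit 5) (nat_lit 73) (nat_lit 188) (nat_lit 189))))))) (PT.nd (nat_lit 93522) (PT.nd (nat_lit 46722) (PT.nd (nat_lit 8892) (PT.nd (nat_lit 78) (PT.lf (nat_lit 7904) (nat_lit 3) (nat_lit 104) (nat_lit 4) (nat_lit 74) (nat_lit 188) (nat_lit 188)) (PT.nd (nat_lit 8736) (PT.lf (nat_lit 7980) (nat_lit 6)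 (nat_lit 105) (nat_lit 4) (nat_lit 75) (nat_lit 188) (nat_lit 187)) (PT.lf (nat_lit 7980) (nat_lit 6) (nat_lit 105) (nat_lit 2) (nat_lit 187) (nat_lit 188) (nat_lit 75)))) (PT.nd (nat_lit 78) (PT.lf (nat_lit 7904) (nat_lit 3) (nat_lit 104) (nat_lit 0) (nat_lit 188) (nat_lit 188) (nat_lit 74)) (PT.nd (nat_lit 37674) (PT.lf (nat_lit 7752) (nat_lit 6) (nat_lit 102) (nat_lit 0) (nat_lit 189) (nat_lit 188) (nat_lit 73)) (PT.lf (nat_lit 7524) (nat_lit 6) (nat_lit 99) (nat_lit 5) (nat_lit 71) (nat_lit 189) (nat_lit 190))))) (PT.nd (nat_lit 9126) (PT.nd (nat_lit 78) (PT.lf (nat_lit 7676) (nat_lit 3) (nat_lit 101) (nat_lit 4) (nat_lit 72) (nat_lit 189) (nat_lit 189)) (PT.nd (nat_lit 8970) (PT.lf (nat_lit 7752) (nat_lit 6) (nat_lit 102) (nat_lit 4) (nat_lit 73) (nat_lit 189) (nat_lit 188)) (PT.lf (nat_lit 7752) (nat_lit 6) (nat_lit 102) (nat_lit 2) (nat_lit 188) (nat_lit 189) (nat_lit 73)))) (PT.nd (nat_lit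 37518) (PT.nd (nat_lit 78) (PT.lf (nat_lit 7676) (nat_lit 3) (nat_lit 101) (nat_lit 0) (nat_lit 189) (nat_lit 189) (nat_lit 72)) (PT.lf (nat_lit 7524) (nat_lit 6) (nat_lit 99) (nat_lit 0) (nat_lit 190) (nat_lit 189) (nat_lit 71))) (PT.nd (nat_lit 78) (PT.lf (nat_lit 7296) (nat_lit 6) (nat_lit 96) (nat_lit 5) (nat_lit 69) (nat_lit 190) (nat_lit 191)) (PT.lf (nat_lit 7448) (nat_lit 3) (nat_lit 98) (nat_lit 4) (nat_lit 70) (nat_lit 190) (nat_lit 190)))))) (PT.nd (nat_lit 56160) (PT.nd (nat_lit 9360) (PT.nd (nat_lit 9204) (PT.lf (nat_lit 7524) (nat_lit 6) (nat_lit 99) (nat_lit 4) (nat_lit 71) (nat_lit 190) (nat_lit 189)) (PT.nd (nat_lit 78) (PT.lf (nat_lit 7524) (nat_lit 6) (nat_lit 99) (nat_lit 2) (nat_lit 189) (nat_lit 190) (nat_lit 71)) (PT.lf (nat_lit 7448) (nat_lit 3) (nat_lit 98) (nat_lit 0) (nat_lit 190) (nat_lit 190) (nat_lit 70)))) (PT.nd (nat_lit 37284) (PT.nd (nat_lit 37206) (PT.lf (nat_lit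 7296) (nat_lit 6) (nat_lit 96) (nat_lit 0) (nat_lit 191) (nat_lit 190) (nat_lit 69)) (PT.lf (nat_lit 7068) (nat_lit 6) (nat_lit 93) (nat_lit 5) (nat_lit 67) (nat_lit 191) (nat_lit 192))) (PT.nd (nat_lit 78) (PT.lf (nat_lit 7220) (nat_lit 3) (nat_lit 95) (nat_lit 4) (nat_lit 68) (nat_lit 191) (nat_lit 191)) (PT.lf (nat_lit 7296) (nat_lit 6) (nat_lit 96) (nat_lit 4) (nat_lit 69) (nat_lit 191) (nat_lit 190))))) (PT.nd (nat_lit 37128) (PT.nd (nat_lit 78) (PT.lf (nat_lit 7296) (nat_lit 6) (nat_lit 96) (nat_lit 2) (nat_lit 190) (nat_lit 191) (nat_lit 69)) (PT.nd (nat_lit 78) (PT.lf (nat_lit 7220) (nat_lit 3) (nat_lit 95) (nat_lit 0) (nat_lit 191) (nat_lit 191) (nat_lit 68)) (PT.lf (nat_lit 7068) (nat_lit 6) (nat_lit 93) (nat_lit 0) (nat_lit 192) (nat_lit 191) (nat_lit 67)))) (PT.nd (nat_lit 156) (PT.nd (nat_lit 78) (PT.lf (nat_lit 6840) (nat_lit 6) (nat_lit 90) (nat_lit 5) (nat_lit 65) (nat_lit 192)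 (nat_lit 193)) (PT.lf (nat_lit 6992) (nat_lit 3) (nat_lit 92) (nat_lit 4) (nat_lit 66) (nat_lit 192) (nat_lit 192))) (PT.nd (nat_lit 9672) (PT.lf (nat_lit 7068) (nat_lit 6) (nat_lit 93) (nat_lit 4) (nat_lit 67) (nat_lit 192) (nat_lit 191)) (PT.lf (nat_lit 7068) (nat_lit 6) (nat_lit 93) (nat_lit 2) (nat_lit 191) (nat_lit 192) (nat_lit 67))))))))
noncomputable def pc13 : PT := (PT.nd (nat_lit 223782) (PT.nd (nat_lit 93990) (PT.nd (nat_lit 46956) (PT.nd (nat_lit 36894) (PT.nd (nat_lit 78) (PT.lf (nat_lit 6992) (nat_lit 3) (nat_lit 92) (nat_lit 0) (nat_lit 192) (nat_lit 192) (nat_lit 66)) (PT.nd (nat_lit 36738) (PT.lf (nat_lit 6840) (nat_lit 6) (nat_lit 90) (nat_lit 0) (nat_lit 193) (nat_lit 192) (nat_lit 65)) (PT.lf (nat_lit 6612) (nat_lit 6) (nat_lit 87) (nat_lit 5) (nat_lit 63) (nat_lit 193) (nat_lit 194)))) (PT.nd (nat_lit 78) (PT.lf (nat_lit 6764) (nat_lit 3) (nat_lit 89) (nat_lit 4) (nat_lit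 64) (nat_lit 193) (nat_lit 193)) (PT.nd (nat_lit 9906) (PT.lf (nat_lit 6840) (nat_lit 6) (nat_lit 90) (nat_lit 4) (nat_lit 65) (nat_lit 193) (nat_lit 192)) (PT.lf (nat_lit 6840) (nat_lit 6) (nat_lit 90) (nat_lit 2) (nat_lit 192) (nat_lit 193) (nat_lit 65))))) (PT.nd (nat_lit 36660) (PT.nd (nat_lit 78) (PT.lf (nat_lit 6764) (nat_lit 3) (nat_lit 89) (nat_lit 0) (nat_lit 193) (nat_lit 193) (nat_lit 64)) (PT.nd (nat_lit 36504) (PT.lf (nat_lit 6612) (nat_lit 6) (nat_lit 87) (nat_lit 0) (nat_lit 194) (nat_lit 193) (nat_lit 63)) (PT.lf (nat_lit 6384) (nat_lit 6) (nat_lit 84) (nat_lit 5) (nat_lit 61) (nat_lit 194) (nat_lit 195)))) (PT.nd (nat_lit 10218) (PT.nd (nat_lit 78) (PT.lf (nat_lit 6536) (nat_lit 3) (nat_lit 86) (nat_lit 4) (nat_lit 62) (nat_lit 194) (nat_lit 194)) (PT.lf (nat_lit 6612) (nat_lit 6) (nat_lit 87) (nat_lit 4) (nat_lit 63) (nat_lit 194) (nat_lit 193))) (PT.nd (nat_lit 78) (PT.lf (nat_lit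 6612) (nat_lit 6) (nat_lit 87) (nat_lit 2) (nat_lit 193) (nat_lit 194) (nat_lit 63)) (PT.lf (nat_lit 6536) (nat_lit 3) (nat_lit 86) (nat_lit 0) (nat_lit 194) (nat_lit 194) (nat_lit 62)))))) (PT.nd (nat_lit 82992) (PT.nd (nat_lit 36426) (PT.nd (nat_lit 36270) (PT.lf (nat_lit 6384) (nat_lit 6) (nat_lit 84) (nat_lit 0) (nat_lit 195) (nat_lit 194) (nat_lit 61)) (PT.nd (nat_lit 78) (PT.lf (nat_lit 6156) (nat_lit 6) (nat_lit 81) (nat_lit 5) (nat_lit 59) (nat_lit 195) (nat_lit 196)) (PT.lf (nat_lit 6308) (nat_lit 3) (nat_lit 83) (nat_lit 4) (nat_lit 60) (nat_lit 195) (nat_lit 195)))) (PT.nd (nat_lit 10452) (PT.nd (nat_lit 10374) (PT.lf (nat_lit 6384) (nat_lit 6) (nat_lit 84) (nat_lit 4) (nat_lit 61) (nat_lit 195) (nat_lit 194)) (PT.lf (nat_lit 6384) (nat_lit 6) (nat_lit 84) (nat_lit 2) (nat_lit 194) (nat_lit 195) (nat_lit 61))) (PT.nd (nat_lit 78) (PT.lf (nat_lit 6308) (nat_lit 3) (nat_lit 83) (nat_lit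 0) (nat_lit 195) (nat_lit 195) (nat_lit 60)) (PT.lf (nat_lit 6156) (nat_lit 6) (nat_lit 81) (nat_lit 0) (nat_lit 196) (nat_lit 195) (nat_lit 59))))) (PT.nd (nat_lit 10764) (PT.nd (nat_lit 78) (PT.lf (nat_lit 5928) (nat_lit 6) (nat_lit 78) (nat_lit 5) (nat_lit 57) (nat_lit 196) (nat_lit 197)) (PT.nd (nat_lit 78) (PT.lf (nat_lit 6080) (nat_lit 3) (nat_lit 80) (nat_lit 4) (nat_lit 58) (nat_lit 196) (nat_lit 196)) (PT.lf (nat_lit 6156) (nat_lit 6) (nat_lit 81) (nat_lit 4) (nat_lit 59) (nat_lit 196) (nat_lit 195)))) (PT.nd (nat_lit 156) (PT.nd (nat_lit 78) (PT.lf (nat_lit 6156) (nat_lit 6) (nat_lit 81) (nat_lit 2) (nat_lit 195) (nat_lit 196) (nat_lit 59)) (PT.lf (nat_lit 6080) (nat_lit 3) (nat_lit 80) (nat_lit 0) (nat_lit 196) (nat_lit 196) (nat_lit 58))) (PT.nd (nat_lit 35802) (PT.lf (nat_lit 5928) (nat_lit 6) (nat_lit 78) (nat_lit 0) (nat_lit 197) (nat_lit 196) (nat_lit 57)) (PT.lf (nat_lit 5700)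 (nat_lit 6) (nat_lit 75) (nat_lit 5) (nat_lit 55) (nat_lit 197) (nat_lit 198))))))) (PT.nd (nat_lit 93522) (PT.nd (nat_lit 46722) (PT.nd (nat_lit 10998) (PT.nd (nat_lit 78) (PT.lf (nat_lit 5852) (nat_lit 3) (nat_lit 77) (nat_lit 4) (nat_lit 56) (nat_lit 197) (nat_lit 197)) (PT.nd (nat_lit 10842) (PT.lf (nat_lit 5928) (nat_lit 6) (nat_lit 78) (nat_lit 4) (nat_lit 57) (nat_lit 197) (nat_lit 196)) (PT.lf (nat_lit 5928) (nat_lit 6) (nat_lit 78) (nat_lit 2) (nat_lit 196) (nat_lit 197) (nat_lit 57)))) (PT.nd (nat_lit 78) (PT.lf (nat_lit 5852) (nat_lit 3) (nat_lit 77) (nat_lit 0) (nat_lit 197) (nat_lit 197) (nat_lit 56)) (PT.nd (nat_lit 35568) (PT.lf (nat_lit 5700) (nat_lit 6) (nat_lit 75) (nat_lit 0) (nat_lit 198) (nat_lit 197) (nat_lit 55)) (PT.lf (nat_lit 5472) (nat_lit 6) (nat_lit 72) (nat_lit 5) (nat_lit 53) (nat_lit 198) (nat_lit 199))))) (PT.nd (nat_lit 11232) (PT.nd (nat_lit 78) (PT.lf (nat_lit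 5624) (nat_lit 3) (nat_lit 74) (nat_lit 4) (nat_lit 54) (nat_lit 198) (nat_lit 198)) (PT.nd (nat_lit 11076) (PT.lf (nat_lit 5700) (nat_lit 6) (nat_lit 75) (nat_lit 4) (nat_lit 55) (nat_lit 198) (nat_lit 197)) (PT.lf (nat_lit 5700) (nat_lit 6) (nat_lit 75) (nat_lit 2) (nat_lit 197) (nat_lit 198) (nat_lit 55)))) (PT.nd (nat_lit 35412) (PT.nd (nat_lit 78) (PT.lf (nat_lit 5624) (nat_lit 3) (nat_lit 74) (nat_lit 0) (nat_lit 198) (nat_lit 198) (nat_lit 54)) (PT.lf (nat_lit 5472) (nat_lit 6) (nat_lit 72) (nat_lit 0) (nat_lit 199) (nat_lit 198) (nat_lit 53))) (PT.nd (nat_lit 78) (PT.lf (nat_lit 5244) (nat_lit 6) (nat_lit 69) (nat_lit 5) (nat_lit 51) (nat_lit 199) (nat_lit 200)) (PT.lf (nat_lit 5396) (nat_lit 3) (nat_lit 71) (nat_lit 4) (nat_lit 52) (nat_lit 199) (nat_lit 199)))))) (PT.nd (nat_lit 58266) (PT.nd (nat_lit 11466) (PT.nd (nat_lit 11310) (PT.lf (nat_lit 5472) (nat_lit 6) (nat_lit 72) (nat_lit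 4) (nat_lit 53) (nat_lit 199) (nat_lit 198)) (PT.nd (nat_lit 78) (PT.lf (nat_lit 5472) (nat_lit 6) (nat_lit 72) (nat_lit 2) (nat_lit 198) (nat_lit 199) (nat_lit 53)) (PT.lf (nat_lit 5396) (nat_lit 3) (nat_lit 71) (nat_lit 0) (nat_lit 199) (nat_lit 199) (nat_lit 52)))) (PT.nd (nat_lit 35178) (PT.nd (nat_lit 35100) (PT.lf (nat_lit 5244) (nat_lit 6) (nat_lit 69) (nat_lit 0) (nat_lit 200) (nat_lit 199) (nat_lit 51)) (PT.lf (nat_lit 5016) (nat_lit 6) (nat_lit 66) (nat_lit 5) (nat_lit 49) (nat_lit 200) (nat_lit 201))) (PT.nd (nat_lit 78) (PT.lf (nat_lit 5168) (nat_lit 3) (nat_lit 68) (nat_lit 4) (nat_lit 50) (nat_lit 200) (nat_lit 200)) (PT.lf (nat_lit 5244) (nat_lit 6) (nat_lit 69) (nat_lit 4) (nat_lit 51) (nat_lit 200) (nat_lit 199))))) (PT.nd (nat_lit 35022) (PT.nd (nat_lit 78) (PT.lf (nat_lit 5244) (nat_lit 6) (nat_lit 69) (nat_lit 2) (nat_lit 199) (nat_lit 200) (nat_lit 51)) (PT.nd (nat_lit 78)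 (PT.lf (nat_lit 5168) (nat_lit 3) (nat_lit 68) (nat_lit 0) (nat_lit 200) (nat_lit 200) (nat_lit 50)) (PT.lf (nat_lit 5016) (nat_lit 6) (nat_lit 66) (nat_lit 0) (nat_lit 201) (nat_lit 200) (nat_lit 49)))) (PT.nd (nat_lit 156) (PT.nd (nat_lit 78) (PT.lf (nat_lit 4788) (nat_lit 6) (nat_lit 63) (nat_lit 5) (nat_lit 47) (nat_lit 201) (nat_lit 202)) (PT.lf (nat_lit 4940) (nat_lit 3) (nat_lit 65) (nat_lit 4) (nat_lit 48) (nat_lit 201) (nat_lit 201))) (PT.nd (nat_lit 11778) (PT.lf (nat_lit 5016) (nat_lit 6) (nat_lit 66) (nat_lit 4) (nat_lit 49) (nat_lit 201) (nat_lit 200)) (PT.lf (nat_lit 5016) (nat_lit 6) (nat_lit 66) (nat_lit 2) (nat_lit 200) (nat_lit 201) (nat_lit 49))))))))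
noncomputable def pc14 : PT := (PT.nd (nat_lit 221676) (PT.nd (nat_lit 93990) (PT.nd (nat_lit 46956) (PT.nd (nat_lit 34788) (PT.nd (nat_lit 78) (PT.lf (nat_lit 4940) (nat_lit 3) (nat_lit 65) (nat_lit 0) (nat_lit 201) (nat_lit 201) (nat_lit 48)) (PT.nd (nat_lit 34632) (PT.lf (nat_lit 4788) (nat_lit 6) (nat_lit 63) (nat_lit 0) (nat_lit 202) (nat_lit 201) (nat_lit 47)) (PT.lf (nat_lit 4560) (nat_lit 6) (nat_lit 60) (nat_lit 5) (nat_lit 45) (nat_lit 202) (nat_lit 203)))) (PT.nd (nat_lit 78) (PT.lf (nat_lit 4712) (nat_lit 3) (nat_lit 62) (nat_lit 4) (nat_lit 46) (nat_lit 202) (nat_lit 202)) (PT.nd (nat_lit 12012) (PT.lf (nat_lit 4788) (nat_lit 6) (nat_lit 63) (nat_lit 4) (nat_lit 47) (nat_lit 202) (nat_lit 201)) (PT.lf (nat_lit 4788) (nat_lit 6) (nat_lit 63) (nat_lit 2) (nat_lit 201) (nat_lit 202) (nat_lit 47))))) (PT.nd (nat_lit 34554) (PT.nd (nat_lit 78) (PT.lf (nat_lit 4712) (nat_lit 3) (nat_lit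 62) (nat_lit 0) (nat_lit 202) (nat_lit 202) (nat_lit 46)) (PT.nd (nat_lit 34398) (PT.lf (nat_lit 4560) (nat_lit 6) (nat_lit 60) (nat_lit 0) (nat_lit 203) (nat_lit 202) (nat_lit 45)) (PT.lf (nat_lit 4332) (nat_lit 6) (nat_lit 57) (nat_lit 5) (nat_lit 43) (nat_lit 203) (nat_lit 204)))) (PT.nd (nat_lit 12324) (PT.nd (nat_lit 78) (PT.lf (nat_lit 4484) (nat_lit 3) (nat_lit 59) (nat_lit 4) (nat_lit 44) (nat_lit 203) (nat_lit 203)) (PT.lf (nat_lit 4560) (nat_lit 6) (nat_lit 60) (nat_lit 4) (nat_lit 45) (nat_lit 203) (nat_lit 202))) (PT.nd (nat_lit 78) (PT.lf (nat_lit 4560) (nat_lit 6) (nat_lit 60) (nat_lit 2) (nat_lit 202) (nat_lit 203) (nat_lit 45)) (PT.lf (nat_lit 4484) (nat_lit 3) (nat_lit 59) (nat_lit 0) (nat_lit 203) (nat_lit 203) (nat_lit 44)))))) (PT.nd (nat_lit 80886) (PT.nd (nat_lit 34320) (PT.nd (nat_lit 34164) (PT.lf (nat_lit 4332) (nat_lit 6) (nat_lit 57) (nat_lit 0) (nat_lit 204) (nat_lit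 203) (nat_lit 43)) (PT.nd (nat_lit 78) (PT.lf (nat_lit 4104) (nat_lit 6) (nat_lit 54) (nat_lit 5) (nat_lit 41) (nat_lit 204) (nat_lit 205)) (PT.lf (nat_lit 4256) (nat_lit 3) (nat_lit 56) (nat_lit 4) (nat_lit 42) (nat_lit 204) (nat_lit 204)))) (PT.nd (nat_lit 12558) (PT.nd (nat_lit 12480) (PT.lf (nat_lit 4332) (nat_lit 6) (nat_lit 57) (nat_lit 4) (nat_lit 43) (nat_lit 204) (nat_lit 203)) (PT.lf (nat_lit 4332) (nat_lit 6) (nat_lit 57) (nat_lit 2) (nat_lit 203) (nat_lit 204) (nat_lit 43))) (PT.nd (nat_lit 78) (PT.lf (nat_lit 4256) (nat_lit 3) (nat_lit 56) (nat_lit 0) (nat_lit 204) (nat_lit 204) (nat_lit 42)) (PT.lf (nat_lit 4104) (nat_lit 6) (nat_lit 54) (nat_lit 0) (nat_lit 205) (nat_lit 204) (nat_lit 41))))) (PT.nd (nat_lit 12870) (PT.nd (nat_lit 78) (PT.lf (nat_lit 3876) (nat_lit 6) (nat_lit 51) (nat_lit 5) (nat_lit 39) (nat_lit 205) (nat_lit 206)) (PT.nd (nat_lit 78) (PT.lf (nat_lit 4028) (nat_lit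 3) (nat_lit 53) (nat_lit 4) (nat_lit 40) (nat_lit 205) (nat_lit 205)) (PT.lf (nat_lit 4104) (nat_lit 6) (nat_lit 54) (nat_lit 4) (nat_lit 41) (nat_lit 205) (nat_lit 204)))) (PT.nd (nat_lit 156) (PT.nd (nat_lit 78) (PT.lf (nat_lit 4104) (nat_lit 6) (nat_lit 54) (nat_lit 2) (nat_lit 204) (nat_lit 205) (nat_lit 41)) (PT.lf (nat_lit 4028) (nat_lit 3) (nat_lit 53) (nat_lit 0) (nat_lit 205) (nat_lit 205) (nat_lit 40))) (PT.nd (nat_lit 33696) (PT.lf (nat_lit 3876) (nat_lit 6) (nat_lit 51) (nat_lit 0) (nat_lit 206) (nat_lit 205) (nat_lit 39)) (PT.lf (nat_lit 3648) (nat_lit 6) (nat_lit 48) (nat_lit 5) (nat_lit 37) (nat_lit 206) (nat_lit 207))))))) (PT.nd (nat_lit 93522) (PT.nd (nat_lit 46722) (PT.nd (nat_lit 13104) (PT.nd (nat_lit 78) (PT.lf (nat_lit 3800) (nat_lit 3) (nat_lit 50) (nat_lit 4) (nat_lit 38) (nat_lit 206) (nat_lit 206)) (PT.nd (nat_lit 12948) (PT.lf (nat_lit 3876) (nat_lit 6) (nat_lit 51)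 (nat_lit 4) (nat_lit 39) (nat_lit 206) (nat_lit 205)) (PT.lf (nat_lit 3876) (nat_lit 6) (nat_lit 51) (nat_lit 2) (nat_lit 205) (nat_lit 206) (nat_lit 39)))) (PT.nd (nat_lit 78) (PT.lf (nat_lit 3800) (nat_lit 3) (nat_lit 50) (nat_lit 0) (nat_lit 206) (nat_lit 206) (nat_lit 38)) (PT.nd (nat_lit 33462) (PT.lf (nat_lit 3648) (nat_lit 6) (nat_lit 48) (nat_lit 0) (nat_lit 207) (nat_lit 206) (nat_lit 37)) (PT.lf (nat_lit 3420) (nat_lit 6) (nat_lit 45) (nat_lit 5) (nat_lit 35) (nat_lit 207) (nat_lit 208))))) (PT.nd (nat_lit 13338) (PT.nd (nat_lit 78) (PT.lf (nat_lit 3572) (nat_lit 3) (nat_lit 47) (nat_lit 4) (nat_lit 36) (nat_lit 207) (nat_lit 207)) (PT.nd (nat_lit 13182) (PT.lf (nat_lit 3648) (nat_lit 6) (nat_lit 48) (nat_lit 4) (nat_lit 37) (nat_lit 207) (nat_lit 206)) (PT.lf (nat_lit 3648) (nat_lit 6) (nat_lit 48) (nat_lit 2) (nat_lit 206) (nat_lit 207) (nat_lit 37)))) (PT.nd (nat_lit 33306) (PT.nd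 (nat_lit 78) (PT.lf (nat_lit 3572) (nat_lit 3) (nat_lit 47) (nat_lit 0) (nat_lit 207) (nat_lit 207) (nat_lit 36)) (PT.lf (nat_lit 3420) (nat_lit 6) (nat_lit 45) (nat_lit 0) (nat_lit 208) (nat_lit 207) (nat_lit 35))) (PT.nd (nat_lit 78) (PT.lf (nat_lit 3192) (nat_lit 6) (nat_lit 42) (nat_lit 5) (nat_lit 33) (nat_lit 208) (nat_lit 209)) (PT.lf (nat_lit 3344) (nat_lit 3) (nat_lit 44) (nat_lit 4) (nat_lit 34) (nat_lit 208) (nat_lit 208)))))) (PT.nd (nat_lit 60372) (PT.nd (nat_lit 13572) (PT.nd (nat_lit 13416) (PT.lf (nat_lit 3420) (nat_lit 6) (nat_lit 45) (nat_lit 4) (nat_lit 35) (nat_lit 208) (nat_lit 207)) (PT.nd (nat_lit 78) (PT.lf (nat_lit 3420) (nat_lit 6) (nat_lit 45) (nat_lit 2) (nat_lit 207) (nat_lit 208) (nat_lit 35)) (PT.lf (nat_lit 3344) (nat_lit 3) (nat_lit 44) (nat_lit 0) (nat_lit 208) (nat_lit 208) (nat_lit 34)))) (PT.nd (nat_lit 33072) (PT.nd (nat_lit 32994) (PT.lf (nat_lit 3192) (nat_lit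 6) (nat_lit 42) (nat_lit 0) (nat_lit 209) (nat_lit 208) (nat_lit 33)) (PT.lf (nat_lit 2964) (nat_lit 6) (nat_lit 39) (nat_lit 5) (nat_lit 31) (nat_lit 209) (nat_lit 210))) (PT.nd (nat_lit 78) (PT.lf (nat_lit 3116) (nat_lit 3) (nat_lit 41) (nat_lit 4) (nat_lit 32) (nat_lit 209) (nat_lit 209)) (PT.lf (nat_lit 3192) (nat_lit 6) (nat_lit 42) (nat_lit 4) (nat_lit 33) (nat_lit 209) (nat_lit 208))))) (PT.nd (nat_lit 32916) (PT.nd (nat_lit 78) (PT.lf (nat_lit 3192) (nat_lit 6) (nat_lit 42) (nat_lit 2) (nat_lit 208) (nat_lit 209) (nat_lit 33)) (PT.nd (nat_lit 78) (PT.lf (nat_lit 3116) (nat_lit 3) (nat_lit 41) (nat_lit 0) (nat_lit 209) (nat_lit 209) (nat_lit 32)) (PT.lf (nat_lit 2964) (nat_lit 6) (nat_lit 39) (nat_lit 0) (nat_lit 210) (nat_lit 209) (nat_lit 31)))) (PT.nd (nat_lit 156) (PT.nd (nat_lit 78) (PT.lf (nat_lit 2736) (nat_lit 6) (nat_lit 36) (nat_lit 5) (nat_lit 29) (nat_lit 210) (nat_lit 211))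 (PT.lf (nat_lit 2888) (nat_lit 3) (nat_lit 38) (nat_lit 4) (nat_lit 30) (nat_lit 210) (nat_lit 210))) (PT.nd (nat_lit 13884) (PT.lf (nat_lit 2964) (nat_lit 6) (nat_lit 39) (nat_lit 4) (nat_lit 31) (nat_lit 210) (nat_lit 209)) (PT.lf (nat_lit 2964) (nat_lit 6) (nat_lit 39) (nat_lit 2) (nat_lit 209) (nat_lit 210) (nat_lit 31))))))))
noncomputable def pc15 : PT := (PT.nd (nat_lit 219570) (PT.nd (nat_lit 93990) (PT.nd (nat_lit 46956) (PT.nd (nat_lit 32682) (PT.nd (nat_lit 78) (PT.lf (nat_lit 2888) (nat_lit 3) (nat_lit 38) (nat_lit 0) (nat_lit 210) (nat_lit 210) (nat_lit 30)) (PT.nd (nat_lit 32526) (PT.lf (nat_lit 2736) (nat_lit 6) (nat_lit 36) (nat_lit 0) (nat_lit 211) (nat_lit 210) (nat_lit 29)) (PT.lf (nat_lit 2508) (nat_lit 6) (nat_lit 33) (nat_lit 5) (nat_lit 27) (nat_lit 211) (nat_lit 212)))) (PT.nd (nat_lit 78) (PT.lf (nat_lit 2660) (nat_lit 3) (nat_lit 35) (nat_lit 4) (nat_lit 28) (nat_lit 211)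 (nat_lit 211)) (PT.nd (nat_lit 14118) (PT.lf (nat_lit 2736) (nat_lit 6) (nat_lit 36) (nat_lit 4) (nat_lit 29) (nat_lit 211) (nat_lit 210)) (PT.lf (nat_lit 2736) (nat_lit 6) (nat_lit 36) (nat_lit 2) (nat_lit 210) (nat_lit 211) (nat_lit 29))))) (PT.nd (nat_lit 32448) (PT.nd (nat_lit 78) (PT.lf (nat_lit 2660) (nat_lit 3) (nat_lit 35) (nat_lit 0) (nat_lit 211) (nat_lit 211) (nat_lit 28)) (PT.nd (nat_lit 32292) (PT.lf (nat_lit 2508) (nat_lit 6) (nat_lit 33) (nat_lit 0) (nat_lit 212) (nat_lit 211) (nat_lit 27)) (PT.lf (nat_lit 2280) (nat_lit 6) (nat_lit 30) (nat_lit 5) (nat_lit 25) (nat_lit 212) (nat_lit 213)))) (PT.nd (nat_lit 14430) (PT.nd (nat_lit 78) (PT.lf (nat_lit 2432) (nat_lit 3) (nat_lit 32) (nat_lit 4) (nat_lit 26) (nat_lit 212) (nat_lit 212)) (PT.lf (nat_lit 2508) (nat_lit 6) (nat_lit 33) (nat_lit 4) (nat_lit 27) (nat_lit 212) (nat_lit 211))) (PT.nd (nat_lit 78) (PT.lf (nat_lit 2508) (nat_lit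 6) (nat_lit 33) (nat_lit 2) (nat_lit 211) (nat_lit 212) (nat_lit 27)) (PT.lf (nat_lit 2432) (nat_lit 3) (nat_lit 32) (nat_lit 0) (nat_lit 212) (nat_lit 212) (nat_lit 26)))))) (PT.nd (nat_lit 78780) (PT.nd (nat_lit 32214) (PT.nd (nat_lit 32058) (PT.lf (nat_lit 2280) (nat_lit 6) (nat_lit 30) (nat_lit 0) (nat_lit 213) (nat_lit 212) (nat_lit 25)) (PT.nd (nat_lit 78) (PT.lf (nat_lit 2052) (nat_lit 6) (nat_lit 27) (nat_lit 5) (nat_lit 23) (nat_lit 213) (nat_lit 214)) (PT.lf (nat_lit 2204) (nat_lit 3) (nat_lit 29) (nat_lit 4) (nat_lit 24) (nat_lit 213) (nat_lit 213)))) (PT.nd (nat_lit 14664) (PT.nd (nat_lit 14586) (PT.lf (nat_lit 2280) (nat_lit 6) (nat_lit 30) (nat_lit 4) (nat_lit 25) (nat_lit 213) (nat_lit 212)) (PT.lf (nat_lit 2280) (nat_lit 6) (nat_lit 30) (nat_lit 2) (nat_lit 212) (nat_lit 213) (nat_lit 25))) (PT.nd (nat_lit 78) (PT.lf (nat_lit 2204) (nat_lit 3) (nat_lit 29) (nat_lit 0) (nat_lit 213)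 (nat_lit 213) (nat_lit 24)) (PT.lf (nat_lit 2052) (nat_lit 6) (nat_lit 27) (nat_lit 0) (nat_lit 214) (nat_lit 213) (nat_lit 23))))) (PT.nd (nat_lit 14976) (PT.nd (nat_lit 78) (PT.lf (nat_lit 1824) (nat_lit 6) (nat_lit 24) (nat_lit 5) (nat_lit 21) (nat_lit 214) (nat_lit 215)) (PT.nd (nat_lit 78) (PT.lf (nat_lit 1976) (nat_lit 3) (nat_lit 26) (nat_lit 4) (nat_lit 22) (nat_lit 214) (nat_lit 214)) (PT.lf (nat_lit 2052) (nat_lit 6) (nat_lit 27) (nat_lit 4) (nat_lit 23) (nat_lit 214) (nat_lit 213)))) (PT.nd (nat_lit 156) (PT.nd (nat_lit 78) (PT.lf (nat_lit 2052) (nat_lit 6) (nat_lit 27) (nat_lit 2) (nat_lit 213) (nat_lit 214) (nat_lit 23)) (PT.lf (nat_lit 1976) (nat_lit 3) (nat_lit 26) (nat_lit 0) (nat_lit 214) (nat_lit 214) (nat_lit 22))) (PT.nd (nat_lit 31590) (PT.lf (nat_lit 1824) (nat_lit 6) (nat_lit 24) (nat_lit 0) (nat_lit 215) (nat_lit 214) (nat_lit 21)) (PT.lf (nat_lit 1596) (nat_lit 6) (nat_lit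 21) (nat_lit 5) (nat_lit 19) (nat_lit 215) (nat_lit 216))))))) (PT.nd (nat_lit 93522) (PT.nd (nat_lit 46722) (PT.nd (nat_lit 15210) (PT.nd (nat_lit 78) (PT.lf (nat_lit 1748) (nat_lit 3) (nat_lit 23) (nat_lit 4) (nat_lit 20) (nat_lit 215) (nat_lit 215)) (PT.nd (nat_lit 15054) (PT.lf (nat_lit 1824) (nat_lit 6) (nat_lit 24) (nat_lit 4) (nat_lit 21) (nat_lit 215) (nat_lit 214)) (PT.lf (nat_lit 1824) (nat_lit 6) (nat_lit 24) (nat_lit 2) (nat_lit 214) (nat_lit 215) (nat_lit 21)))) (PT.nd (nat_lit 78) (PT.lf (nat_lit 1748) (nat_lit 3) (nat_lit 23) (nat_lit 0) (nat_lit 215) (nat_lit 215) (nat_lit 20)) (PT.nd (nat_lit 31356) (PT.lf (nat_lit 1596) (nat_lit 6) (nat_lit 21) (nat_lit 0) (nat_lit 216) (nat_lit 215) (nat_lit 19)) (PT.lf (nat_lit 1368) (nat_lit 6) (nat_lit 18) (nat_lit 5) (nat_lit 17) (nat_lit 216) (nat_lit 217))))) (PT.nd (nat_lit 15444) (PT.nd (nat_lit 78) (PT.lf (nat_lit 1520) (nat_lit 3) (nat_lit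 20) (nat_lit 4) (nat_lit 18) (nat_lit 216) (nat_lit 216)) (PT.nd (nat_lit 15288) (PT.lf (nat_lit 1596) (nat_lit 6) (nat_lit 21) (nat_lit 4) (nat_lit 19) (nat_lit 216) (nat_lit 215)) (PT.lf (nat_lit 1596) (nat_lit 6) (nat_lit 21) (nat_lit 2) (nat_lit 215) (nat_lit 216) (nat_lit 19)))) (PT.nd (nat_lit 31200) (PT.nd (nat_lit 78) (PT.lf (nat_lit 1520) (nat_lit 3) (nat_lit 20) (nat_lit 0) (nat_lit 216) (nat_lit 216) (nat_lit 18)) (PT.lf (nat_lit 1368) (nat_lit 6) (nat_lit 18) (nat_lit 0) (nat_lit 217) (nat_lit 216) (nat_lit 17))) (PT.nd (nat_lit 78) (PT.lf (nat_lit 1140) (nat_lit 6) (nat_lit 15) (nat_lit 5) (nat_lit 15) (nat_lit 217) (nat_lit 218)) (PT.lf (nat_lit 1292) (nat_lit 3) (nat_lit 17) (nat_lit 4) (nat_lit 16) (nat_lit 217) (nat_lit 217)))))) (PT.nd (nat_lit 62478) (PT.nd (nat_lit 15678) (PT.nd (nat_lit 15522) (PT.lf (nat_lit 1368) (nat_lit 6) (nat_lit 18) (nat_lit 4) (nat_lit 17) (nat_lit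 217) (nat_lit 216)) (PT.nd (nat_lit 78) (PT.lf (nat_lit 1368) (nat_lit 6) (nat_lit 18) (nat_lit 2) (nat_lit 216) (nat_lit 217) (nat_lit 17)) (PT.lf (nat_lit 1292) (nat_lit 3) (nat_lit 17) (nat_lit 0) (nat_lit 217) (nat_lit 217) (nat_lit 16)))) (PT.nd (nat_lit 30966) (PT.nd (nat_lit 30888) (PT.lf (nat_lit 1140) (nat_lit 6) (nat_lit 15) (nat_lit 0) (nat_lit 218) (nat_lit 217) (nat_lit 15)) (PT.lf (nat_lit 912) (nat_lit 6) (nat_lit 12) (nat_lit 5) (nat_lit 13) (nat_lit 218) (nat_lit 219))) (PT.nd (nat_lit 78) (PT.lf (nat_lit 1064) (nat_lit 3) (nat_lit 14) (nat_lit 4) (nat_lit 14) (nat_lit 218) (nat_lit 218)) (PT.lf (nat_lit 1140) (nat_lit 6) (nat_lit 15) (nat_lit 4) (nat_lit 15) (nat_lit 218) (nat_lit 217))))) (PT.nd (nat_lit 30888) (PT.nd (nat_lit 78) (PT.lf (nat_lit 1140) (nat_lit 6) (nat_lit 15) (nat_lit 2) (nat_lit 217) (nat_lit 218) (nat_lit 15)) (PT.nd (nat_lit 78) (PT.lf (nat_lit 1064) (nat_lit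 3) (nat_lit 14) (nat_lit 0) (nat_lit 218) (nat_lit 218) (nat_lit 14)) (PT.lf (nat_lit 912) (nat_lit 6) (nat_lit 12) (nat_lit 0) (nat_lit 219) (nat_lit 218) (nat_lit 13)))) (PT.nd (nat_lit 16068) (PT.nd (nat_lit 78) (PT.lf (nat_lit 836) (nat_lit 3) (nat_lit 11) (nat_lit 4) (nat_lit 12) (nat_lit 219) (nat_lit 219)) (PT.lf (nat_lit 912) (nat_lit 6) (nat_lit 12) (nat_lit 4) (nat_lit 13) (nat_lit 219) (nat_lit 218))) (PT.nd (nat_lit 78) (PT.lf (nat_lit 912) (nat_lit 6) (nat_lit 12) (nat_lit 2) (nat_lit 218) (nat_lit 219) (nat_lit 13)) (PT.lf (nat_lit 836) (nat_lit 3) (nat_lit 11) (nat_lit 0) (nat_lit 219) (nat_lit 219) (nat_lit 12))))))))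
noncomputable def xc0 : XT := (XT.nd (nat_lit 187122) (nat_lit 0) (nat_lit 152) (XT.nd (nat_lit 140166) (nat_lit 0) (nat_lit 0) (XT.nd (nat_lit 93444) (nat_lit 0) (nat_lit 0) (XT.nd (nat_lit 46800) (nat_lit 0) (nat_lit 0) (XT.nd (nat_lit 46722) (nat_lit 0) (nat_lit 228) (XT.lf (nat_lit 0) (nat_lit 216140425632) (nat_lit 152) (nat_lit 191440751110) (nat_lit 0) (nat_lit 216140425632) (nat_lit 99) (nat_lit 5) (nat_lit 101) (nat_lit 4) (nat_lit 99) (nat_lit 4) (nat_lit 382) (nat_lit 259) (nat_lit 259)) (XT.lf (nat_lit 0) (nat_lit 187948220947) (nat_lit 152) (nat_lit 166470175321) (nat_lit 0) (nat_lit 187948220947) (nat_lit 102) (nat_lit 5) (nat_lit 104) (nat_lit 4) (nat_lit 102) (nat_lit 4) (nat_lit 380) (nat_lit 260) (nat_lit 260))) (XT.nd (nat_lit 78) (nat_lit 152) (nat_lit 0) (XT.lf (nat_lit 0) (nat_lit 799475440626) (nat_lit 76) (nat_lit 182738903175) (nat_lit 76) (nat_lit 182738851546) (nat_lit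 101) (nat_lit 4) (nat_lit 102) (nat_lit 5) (nat_lit 102) (nat_lit 4) (nat_lit 381) (nat_lit 260) (nat_lit 259)) (XT.lf (nat_lit 0) (nat_lit 405264839846) (nat_lit 152) (nat_lit 440966017436) (nat_lit 0) (nat_lit 405264755913) (nat_lit 99) (nat_lit 5) (nat_lit 101) (nat_lit 4) (nat_lit 99) (nat_lit 4) (nat_lit 382) (nat_lit 260) (nat_lit 258)))) (XT.nd (nat_lit 156) (nat_lit 380) (nat_lit 0) (XT.nd (nat_lit 78) (nat_lit 76) (nat_lit 0) (XT.lf (nat_lit 0) (nat_lit 163433268332) (nat_lit 152) (nat_lit 144756617278) (nat_lit 0) (nat_lit 163433268332) (nat_lit 105) (nat_lit 5) (nat_lit 107) (nat_lit 4) (nat_lit 105) (nat_lit 4) (nat_lit 378) (nat_lit 261) (nat_lit 261)) (XT.lf (nat_lit 0) (nat_lit 695196152131) (nat_lit 76) (nat_lit 158903354973) (nat_lit 76) (nat_lit 158903286694) (nat_lit 104) (nat_lit 4) (nat_lit 105) (nat_lit 5) (nat_lit 105) (nat_lit 4) (nat_lit 379) (nat_lit 261) (nat_lit 260)))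 (XT.nd (nat_lit 78) (nat_lit 228) (nat_lit 0) (XT.lf (nat_lit 0) (nat_lit 352404277545) (nat_lit 152) (nat_lit 383448623901) (nat_lit 0) (nat_lit 352404166543) (nat_lit 102) (nat_lit 5) (nat_lit 104) (nat_lit 4) (nat_lit 102) (nat_lit 4) (nat_lit 380) (nat_lit 261) (nat_lit 259)) (XT.nd (nat_lit 78) (nat_lit 152) (nat_lit 0) (XT.lf (nat_lit 0) (nat_lit 695818688917) (nat_lit 76) (nat_lit 238183264867) (nat_lit 76) (nat_lit 238183108971) (nat_lit 101) (nat_lit 4) (nat_lit 102) (nat_lit 5) (nat_lit 102) (nat_lit 4) (nat_lit 381) (nat_lit 261) (nat_lit 258)) (XT.lf (nat_lit 0) (nat_lit 323688147524) (nat_lit 152) (nat_lit 616355999249) (nat_lit 0) (nat_lit 323687978015) (nat_lit 99) (nat_lit 5) (nat_lit 101) (nat_lit 4) (nat_lit 99) (nat_lit 4) (nat_lit 382) (nat_lit 261) (nat_lit 257)))))) (XT.nd (nat_lit 390) (nat_lit 228) (nat_lit 0) (XT.nd (nat_lit 156) (nat_lit 380) (nat_lit 0) (XT.nd (nat_lit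 78) (nat_lit 76) (nat_lit 0) (XT.lf (nat_lit 0) (nat_lit 142115928786) (nat_lit 152) (nat_lit 125875244102) (nat_lit 0) (nat_lit 142115928786) (nat_lit 108) (nat_lit 5) (nat_lit 110) (nat_lit 4) (nat_lit 108) (nat_lit 4) (nat_lit 376) (nat_lit 262) (nat_lit 262)) (XT.lf (nat_lit 0) (nat_lit 604518547631) (nat_lit 76) (nat_lit 138176778711) (nat_lit 76) (nat_lit 138176688412) (nat_lit 107) (nat_lit 4) (nat_lit 108) (nat_lit 5) (nat_lit 108) (nat_lit 4) (nat_lit 377) (nat_lit 262) (nat_lit 261))) (XT.nd (nat_lit 78) (nat_lit 228) (nat_lit 0) (XT.lf (nat_lit 0) (nat_lit 306438593443) (nat_lit 152) (nat_lit 333433471058) (nat_lit 0) (nat_lit 306438446644) (nat_lit 105) (nat_lit 5) (nat_lit 107) (nat_lit 4) (nat_lit 105) (nat_lit 4) (nat_lit 378) (nat_lit 262) (nat_lit 260)) (XT.nd (nat_lit 78) (nat_lit 152) (nat_lit 0) (XT.lf (nat_lit 0) (nat_lit 605059848583) (nat_lit 76) (nat_lit 207115866021) (nat_lit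 76) (nat_lit 207115659848) (nat_lit 104) (nat_lit 4) (nat_lit 105) (nat_lit 5) (nat_lit 105) (nat_lit 4) (nat_lit 379) (nat_lit 262) (nat_lit 259)) (XT.lf (nat_lit 0) (nat_lit 281468044194) (nat_lit 152) (nat_lit 535961649022) (nat_lit 0) (nat_lit 281467820018) (nat_lit 102) (nat_lit 5) (nat_lit 104) (nat_lit 4) (nat_lit 102) (nat_lit 4) (nat_lit 380) (nat_lit 262) (nat_lit 258))))) (XT.nd (nat_lit 46332) (nat_lit 0) (nat_lit 684) (XT.nd (nat_lit 78) (nat_lit 152) (nat_lit 0) (XT.lf (nat_lit 0) (nat_lit 486477118617) (nat_lit 76) (nat_lit 350156717614) (nat_lit 76) (nat_lit 350156454399) (nat_lit 101) (nat_lit 4) (nat_lit 102) (nat_lit 5) (nat_lit 102) (nat_lit 4) (nat_lit 381) (nat_lit 262) (nat_lit 257)) (XT.lf (nat_lit 0) (nat_lit 185954708578) (nat_lit 152) (nat_lit 912482990782) (nat_lit 0) (nat_lit 185954450177) (nat_lit 99) (nat_lit 5) (nat_lit 101) (nat_lit 4) (nat_lit 99) (nat_lit 4) (nat_lit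 382) (nat_lit 262) (nat_lit 256))) (XT.nd (nat_lit 78) (nat_lit 228) (nat_lit 0) (XT.lf (nat_lit 0) (nat_lit 123579125747) (nat_lit 152) (nat_lit 109456634458) (nat_lit 0) (nat_lit 123579125747) (nat_lit 111) (nat_lit 5) (nat_lit 113) (nat_lit 4) (nat_lit 111) (nat_lit 4) (nat_lit 374) (nat_lit 263) (nat_lit 263)) (XT.nd (nat_lit 78) (nat_lit 152) (nat_lit 0) (XT.lf (nat_lit 0) (nat_lit 525668506579) (nat_lit 76) (nat_lit 120153652246) (nat_lit 76) (nat_lit 120153532826) (nat_lit 110) (nat_lit 4) (nat_lit 111) (nat_lit 5) (nat_lit 111) (nat_lit 4) (nat_lit 375) (nat_lit 263) (nat_lit 262)) (XT.lf (nat_lit 0) (nat_lit 266468462777) (nat_lit 152) (nat_lit 289941996734) (nat_lit 0) (nat_lit 266468268634) (nat_lit 108) (nat_lit 5) (nat_lit 110) (nat_lit 4) (nat_lit 108) (nat_lit 4) (nat_lit 376) (nat_lit 263) (nat_lit 261))))))) (XT.nd (nat_lit 46800) (nat_lit 0) (nat_lit 0) (XT.nd (nat_lit 390) (nat_lit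 0) (nat_lit 0) (XT.nd (nat_lit 156) (nat_lit 304) (nat_lit 0) (XT.nd (nat_lit 78) (nat_lit 152) (nat_lit 0) (XT.lf (nat_lit 0) (nat_lit 526139156263) (nat_lit 76) (nat_lit 180100731276) (nat_lit 76) (nat_lit 180100458613) (nat_lit 107) (nat_lit 4) (nat_lit 108) (nat_lit 5) (nat_lit 108) (nat_lit 4) (nat_lit 377) (nat_lit 263) (nat_lit 260)) (XT.lf (nat_lit 0) (nat_lit 244754939832) (nat_lit 152) (nat_lit 466053489540) (nat_lit 0) (nat_lit 244754643360) (nat_lit 105) (nat_lit 5) (nat_lit 107) (nat_lit 4) (nat_lit 105) (nat_lit 4) (nat_lit 378) (nat_lit 263) (nat_lit 259))) (XT.nd (nat_lit 78) (nat_lit 228) (nat_lit 0) (XT.lf (nat_lit 0) (nat_lit 423023705111) (nat_lit 76) (nat_lit 304484108097) (nat_lit 76) (nat_lit 304483759996) (nat_lit 104) (nat_lit 4) (nat_lit 105) (nat_lit 5) (nat_lit 105) (nat_lit 4) (nat_lit 379) (nat_lit 263) (nat_lit 258)) (XT.nd (nat_lit 78) (nat_lit 76) (nat_lit 0) (XT.lf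 (nat_lit 0) (nat_lit 161699859014) (nat_lit 152) (nat_lit 793463376496) (nat_lit 0) (nat_lit 161699517279) (nat_lit 102) (nat_lit 5) (nat_lit 104) (nat_lit 4) (nat_lit 102) (nat_lit 4) (nat_lit 380) (nat_lit 263) (nat_lit 257)) (XT.lf (nat_lit 0) (nat_lit 167354916395) (nat_lit 76) (nat_lit 520850046358) (nat_lit 76) (nat_lit 520849670676) (nat_lit 101) (nat_lit 4) (nat_lit 102) (nat_lit 5) (nat_lit 102) (nat_lit 4) (nat_lit 381) (nat_lit 263) (nat_lit 256))))) (XT.nd (nat_lit 46176) (nat_lit 0) (nat_lit 684) (XT.nd (nat_lit 46098) (nat_lit 0) (nat_lit 988) (XT.lf (nat_lit 0) (nat_lit 1293314419935) (nat_lit 76) (nat_lit 10147438721) (nat_lit 76) (nat_lit 10147033521) (nat_lit 101) (nat_lit 4) (nat_lit 102) (nat_lit 5) (nat_lit 102) (nat_lit 4) (nat_lit 382) (nat_lit 263) (nat_lit 255)) (XT.lf (nat_lit 0) (nat_lit 107460185042) (nat_lit 152) (nat_lit 95179550491) (nat_lit 0) (nat_lit 107460185042)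 (nat_lit 114) (nat_lit 5) (nat_lit 116) (nat_lit 4) (nat_lit 114) (nat_lit 4) (nat_lit 372) (nat_lit 264) (nat_lit 264))) (XT.nd (nat_lit 78) (nat_lit 228) (nat_lit 0) (XT.lf (nat_lit 0) (nat_lit 457103319375) (nat_lit 76) (nat_lit 104481346313) (nat_lit 76) (nat_lit 104481188379) (nat_lit 113) (nat_lit 4) (nat_lit 114) (nat_lit 5) (nat_lit 114) (nat_lit 4) (nat_lit 373) (nat_lit 264) (nat_lit 263)) (XT.nd (nat_lit 78) (nat_lit 76) (nat_lit 0) (XT.lf (nat_lit 0) (nat_lit 231711866325) (nat_lit 152) (nat_lit 252123274386) (nat_lit 0) (nat_lit 231711609571) (nat_lit 111) (nat_lit 5) (nat_lit 113) (nat_lit 4) (nat_lit 111) (nat_lit 4) (nat_lit 374) (nat_lit 264) (nat_lit 262)) (XT.lf (nat_lit 0) (nat_lit 457512518082) (nat_lit 76) (nat_lit 156609302734) (nat_lit 76) (nat_lit 156608942136) (nat_lit 110) (nat_lit 4) (nat_lit 111) (nat_lit 5) (nat_lit 111) (nat_lit 4) (nat_lit 375) (nat_lit 264) (nat_lit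 261)))))) (XT.nd (nat_lit 390) (nat_lit 228) (nat_lit 0) (XT.nd (nat_lit 156) (nat_lit 228) (nat_lit 0) (XT.nd (nat_lit 78) (nat_lit 76) (nat_lit 0) (XT.lf (nat_lit 0) (nat_lit 212830539567) (nat_lit 152) (nat_lit 405263747489) (nat_lit 0) (nat_lit 212830147483) (nat_lit 108) (nat_lit 5) (nat_lit 110) (nat_lit 4) (nat_lit 108) (nat_lit 4) (nat_lit 376) (nat_lit 264) (nat_lit 260)) (XT.lf (nat_lit 0) (nat_lit 367846863696) (nat_lit 76) (nat_lit 264768797353) (nat_lit 76) (nat_lit 264768336990) (nat_lit 107) (nat_lit 4) (nat_lit 108) (nat_lit 5) (nat_lit 108) (nat_lit 4) (nat_lit 377) (nat_lit 264) (nat_lit 259))) (XT.nd (nat_lit 78) (nat_lit 76) (nat_lit 0) (XT.lf (nat_lit 0) (nat_lit 140608721737) (nat_lit 152) (nat_lit 689968029493) (nat_lit 0) (nat_lit 140608269792) (nat_lit 105) (nat_lit 5) (nat_lit 107) (nat_lit 4) (nat_lit 105) (nat_lit 4) (nat_lit 378) (nat_lit 264) (nat_lit 258)) (XT.nd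 (nat_lit 78) (nat_lit 0) (nat_lit 0) (XT.lf (nat_lit 0) (nat_lit 145526144997) (nat_lit 76) (nat_lit 452913112026) (nat_lit 76) (nat_lit 452912615187) (nat_lit 104) (nat_lit 4) (nat_lit 105) (nat_lit 5) (nat_lit 105) (nat_lit 4) (nat_lit 379) (nat_lit 264) (nat_lit 257)) (XT.lf (nat_lit 0) (nat_lit 1124621360807) (nat_lit 76) (nat_lit 8823896704) (nat_lit 76) (nat_lit 8823360826) (nat_lit 104) (nat_lit 4) (nat_lit 105) (nat_lit 5) (nat_lit 105) (nat_lit 4) (nat_lit 380) (nat_lit 264) (nat_lit 256))))) (XT.nd (nat_lit 46020) (nat_lit 0) (nat_lit 988) (XT.nd (nat_lit 78) (nat_lit 76) (nat_lit 0) (XT.lf (nat_lit 0) (nat_lit 496899969804) (nat_lit 152) (nat_lit 243950951810) (nat_lit 0) (nat_lit 496899474304) (nat_lit 102) (nat_lit 5) (nat_lit 104) (nat_lit 4) (nat_lit 102) (nat_lit 4) (nat_lit 381) (nat_lit 264) (nat_lit 255)) (XT.lf (nat_lit 0) (nat_lit 830602269963) (nat_lit 76) (nat_lit 257644695456)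 (nat_lit 76) (nat_lit 257644174288) (nat_lit 101) (nat_lit 4) (nat_lit 102) (nat_lit 5) (nat_lit 102) (nat_lit 4) (nat_lit 382) (nat_lit 264) (nat_lit 254))) (XT.nd (nat_lit 78) (nat_lit 228) (nat_lit 0) (XT.lf (nat_lit 0) (nat_lit 93443739276) (nat_lit 152) (nat_lit 82764652410) (nat_lit 0) (nat_lit 93443739276) (nat_lit 117) (nat_lit 5) (nat_lit 119) (nat_lit 4) (nat_lit 117) (nat_lit 4) (nat_lit 370) (nat_lit 265) (nat_lit 265)) (XT.nd (nat_lit 78) (nat_lit 152) (nat_lit 0) (XT.lf (nat_lit 0) (nat_lit 397481504589) (nat_lit 76) (nat_lit 90853225036) (nat_lit 76) (nat_lit 90853016169) (nat_lit 116) (nat_lit 4) (nat_lit 117) (nat_lit 5) (nat_lit 117) (nat_lit 4) (nat_lit 371) (nat_lit 265) (nat_lit 264)) (XT.lf (nat_lit 0) (nat_lit 201488790434) (nat_lit 152) (nat_lit 219237364031) (nat_lit 0) (nat_lit 201488450877) (nat_lit 114) (nat_lit 5) (nat_lit 116) (nat_lit 4) (nat_lit 114) (nat_lit 4)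 (nat_lit 372) (nat_lit 265) (nat_lit 263))))))))
noncomputable def xc1 : XT := (XT.nd (nat_lit 47268) (nat_lit 0) (nat_lit 76) (XT.nd (nat_lit 46488) (nat_lit 0) (nat_lit 532) (XT.nd (nat_lit 390) (nat_lit 456) (nat_lit 0) (XT.nd (nat_lit 156) (nat_lit 304) (nat_lit 0) (XT.nd (nat_lit 78) (nat_lit 152) (nat_lit 0) (XT.lf (nat_lit 0) (nat_lit 397837247707) (nat_lit 76) (nat_lit 136181964275) (nat_lit 76) (nat_lit 136181487384) (nat_lit 113) (nat_lit 4) (nat_lit 114) (nat_lit 5) (nat_lit 114) (nat_lit 4) (nat_lit 373) (nat_lit 265) (nat_lit 262)) (XT.lf (nat_lit 0) (nat_lit 185070242178) (nat_lit 152) (nat_lit 352403051770) (nat_lit 0) (nat_lit 185069723646) (nat_lit 111) (nat_lit 5) (nat_lit 113) (nat_lit 4) (nat_lit 111) (nat_lit 4) (nat_lit 374) (nat_lit 265) (nat_lit 261))) (XT.nd (nat_lit 78) (nat_lit 228) (nat_lit 0) (XT.lf (nat_lit 0) (nat_lit 319867054357) (nat_lit 76) (nat_lit 230233747016)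 (nat_lit 76) (nat_lit 230233138186) (nat_lit 110) (nat_lit 4) (nat_lit 111) (nat_lit 5) (nat_lit 111) (nat_lit 4) (nat_lit 375) (nat_lit 265) (nat_lit 260)) (XT.nd (nat_lit 78) (nat_lit 76) (nat_lit 0) (XT.lf (nat_lit 0) (nat_lit 122268650316) (nat_lit 152) (nat_lit 599972035593) (nat_lit 0) (nat_lit 122268052619) (nat_lit 108) (nat_lit 5) (nat_lit 110) (nat_lit 4) (nat_lit 108) (nat_lit 4) (nat_lit 376) (nat_lit 265) (nat_lit 259)) (XT.lf (nat_lit 0) (nat_lit 126544646815) (nat_lit 76) (nat_lit 393837526060) (nat_lit 76) (nat_lit 393836868990) (nat_lit 107) (nat_lit 4) (nat_lit 108) (nat_lit 5) (nat_lit 108) (nat_lit 4) (nat_lit 377) (nat_lit 265) (nat_lit 258))))) (XT.nd (nat_lit 156) (nat_lit 304) (nat_lit 0) (XT.nd (nat_lit 78) (nat_lit 152) (nat_lit 0) (XT.lf (nat_lit 0) (nat_lit 977931784835) (nat_lit 76) (nat_lit 7673002518) (nat_lit 76) (nat_lit 7672293820) (nat_lit 107) (nat_lit 4) (nat_lit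 108) (nat_lit 5) (nat_lit 108) (nat_lit 4) (nat_lit 378) (nat_lit 265) (nat_lit 257)) (XT.lf (nat_lit 0) (nat_lit 432087115987) (nat_lit 152) (nat_lit 212131134603) (nat_lit 0) (nat_lit 432086460688) (nat_lit 105) (nat_lit 5) (nat_lit 107) (nat_lit 4) (nat_lit 105) (nat_lit 4) (nat_lit 379) (nat_lit 265) (nat_lit 256))) (XT.nd (nat_lit 78) (nat_lit 228) (nat_lit 0) (XT.lf (nat_lit 0) (nat_lit 722262979728) (nat_lit 76) (nat_lit 224038924388) (nat_lit 76) (nat_lit 224038235143) (nat_lit 104) (nat_lit 4) (nat_lit 105) (nat_lit 5) (nat_lit 105) (nat_lit 4) (nat_lit 380) (nat_lit 265) (nat_lit 255)) (XT.nd (nat_lit 78) (nat_lit 76) (nat_lit 0) (XT.lf (nat_lit 0) (nat_lit 259756967390) (nat_lit 152) (nat_lit 753808552089) (nat_lit 0) (nat_lit 259756342377) (nat_lit 102) (nat_lit 5) (nat_lit 104) (nat_lit 4) (nat_lit 102) (nat_lit 4) (nat_lit 381) (nat_lit 265) (nat_lit 254)) (XT.lf (nat_lit 0) (nat_lit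 246947572089) (nat_lit 76) (nat_lit 569832157920) (nat_lit 76) (nat_lit 569831510587) (nat_lit 101) (nat_lit 4) (nat_lit 102) (nat_lit 5) (nat_lit 102) (nat_lit 4) (nat_lit 382) (nat_lit 265) (nat_lit 253)))))) (XT.nd (nat_lit 390) (nat_lit 456) (nat_lit 0) (XT.nd (nat_lit 156) (nat_lit 380) (nat_lit 0) (XT.nd (nat_lit 78) (nat_lit 76) (nat_lit 0) (XT.lf (nat_lit 0) (nat_lit 81255557852) (nat_lit 152) (nat_lit 71969032714) (nat_lit 0) (nat_lit 81255557852) (nat_lit 120) (nat_lit 5) (nat_lit 122) (nat_lit 4) (nat_lit 120) (nat_lit 4) (nat_lit 368) (nat_lit 266) (nat_lit 266)) (XT.lf (nat_lit 0) (nat_lit 345636563485) (nat_lit 76) (nat_lit 79002646229) (nat_lit 76) (nat_lit 79002370002) (nat_lit 119) (nat_lit 4) (nat_lit 120) (nat_lit 5) (nat_lit 120) (nat_lit 4) (nat_lit 369) (nat_lit 266) (nat_lit 265))) (XT.nd (nat_lit 78) (nat_lit 228) (nat_lit 0) (XT.lf (nat_lit 0) (nat_lit 175207922931) (nat_lit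 152) (nat_lit 190640834502) (nat_lit 0) (nat_lit 175207473867) (nat_lit 117) (nat_lit 5) (nat_lit 119) (nat_lit 4) (nat_lit 117) (nat_lit 4) (nat_lit 370) (nat_lit 266) (nat_lit 264)) (XT.nd (nat_lit 78) (nat_lit 152) (nat_lit 0) (XT.lf (nat_lit 0) (nat_lit 345945797086) (nat_lit 76) (nat_lit 118419048980) (nat_lit 76) (nat_lit 118418418292) (nat_lit 116) (nat_lit 4) (nat_lit 117) (nat_lit 5) (nat_lit 117) (nat_lit 4) (nat_lit 371) (nat_lit 266) (nat_lit 263)) (XT.lf (nat_lit 0) (nat_lit 160930920149) (nat_lit 152) (nat_lit 306437162675) (nat_lit 0) (nat_lit 160930234391) (nat_lit 114) (nat_lit 5) (nat_lit 116) (nat_lit 4) (nat_lit 114) (nat_lit 4) (nat_lit 372) (nat_lit 266) (nat_lit 262))))) (XT.nd (nat_lit 156) (nat_lit 228) (nat_lit 0) (XT.nd (nat_lit 78) (nat_lit 152) (nat_lit 0) (XT.lf (nat_lit 0) (nat_lit 278145550795) (nat_lit 76) (nat_lit 200203271748) (nat_lit 76) (nat_lit 200202466569)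 (nat_lit 113) (nat_lit 4) (nat_lit 114) (nat_lit 5) (nat_lit 114) (nat_lit 4) (nat_lit 373) (nat_lit 266) (nat_lit 261)) (XT.lf (nat_lit 0) (nat_lit 106320825537) (nat_lit 152) (nat_lit 521714596713) (nat_lit 0) (nat_lit 106320035083) (nat_lit 111) (nat_lit 5) (nat_lit 113) (nat_lit 4) (nat_lit 111) (nat_lit 4) (nat_lit 374) (nat_lit 266) (nat_lit 260))) (XT.nd (nat_lit 78) (nat_lit 152) (nat_lit 0) (XT.lf (nat_lit 0) (nat_lit 110039051983) (nat_lit 76) (nat_lit 342467463350) (nat_lit 76) (nat_lit 342466594375) (nat_lit 110) (nat_lit 4) (nat_lit 111) (nat_lit 5) (nat_lit 111) (nat_lit 4) (nat_lit 375) (nat_lit 266) (nat_lit 259)) (XT.nd (nat_lit 78) (nat_lit 152) (nat_lit 0) (XT.lf (nat_lit 0) (nat_lit 850375685591) (nat_lit 76) (nat_lit 6672240723) (nat_lit 76) (nat_lit 6671303469) (nat_lit 110) (nat_lit 4) (nat_lit 111) (nat_lit 5) (nat_lit 111) (nat_lit 4) (nat_lit 376) (nat_lit 266) (nat_lit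 258)) (XT.lf (nat_lit 0) (nat_lit 375728172563) (nat_lit 152) (nat_lit 184461687107) (nat_lit 0) (nat_lit 375727305931) (nat_lit 108) (nat_lit 5) (nat_lit 110) (nat_lit 4) (nat_lit 108) (nat_lit 4) (nat_lit 377) (nat_lit 266) (nat_lit 257))))))) (XT.nd (nat_lit 46332) (nat_lit 0) (nat_lit 228) (XT.nd (nat_lit 45942) (nat_lit 0) (nat_lit 1140) (XT.nd (nat_lit 156) (nat_lit 228) (nat_lit 0) (XT.nd (nat_lit 78) (nat_lit 152) (nat_lit 0) (XT.lf (nat_lit 0) (nat_lit 628054945215) (nat_lit 76) (nat_lit 194816533719) (nat_lit 76) (nat_lit 194815622192) (nat_lit 107) (nat_lit 4) (nat_lit 108) (nat_lit 5) (nat_lit 108) (nat_lit 4) (nat_lit 378) (nat_lit 266) (nat_lit 256)) (XT.lf (nat_lit 0) (nat_lit 225875845334) (nat_lit 152) (nat_lit 655485558388) (nat_lit 0) (nat_lit 225875018755) (nat_lit 105) (nat_lit 5) (nat_lit 107) (nat_lit 4) (nat_lit 105) (nat_lit 4) (nat_lit 379) (nat_lit 266) (nat_lit 255)))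 (XT.nd (nat_lit 78) (nat_lit 152) (nat_lit 0) (XT.lf (nat_lit 0) (nat_lit 214737168358) (nat_lit 76) (nat_lit 495506306030) (nat_lit 76) (nat_lit 495505449932) (nat_lit 104) (nat_lit 4) (nat_lit 105) (nat_lit 5) (nat_lit 105) (nat_lit 4) (nat_lit 380) (nat_lit 266) (nat_lit 254)) (XT.nd (nat_lit 78) (nat_lit 152) (nat_lit 0) (XT.lf (nat_lit 0) (nat_lit 1250192531021) (nat_lit 76) (nat_lit 33212888233) (nat_lit 76) (nat_lit 33212006467) (nat_lit 104) (nat_lit 4) (nat_lit 105) (nat_lit 5) (nat_lit 105) (nat_lit 4) (nat_lit 381) (nat_lit 266) (nat_lit 253)) (XT.lf (nat_lit 0) (nat_lit 503171984143) (nat_lit 152) (nat_lit 427309238265) (nat_lit 0) (nat_lit 503171197980) (nat_lit 102) (nat_lit 5) (nat_lit 104) (nat_lit 4) (nat_lit 102) (nat_lit 4) (nat_lit 382) (nat_lit 266) (nat_lit 252))))) (XT.nd (nat_lit 156) (nat_lit 380) (nat_lit 0) (XT.nd (nat_lit 78) (nat_lit 76) (nat_lit 0) (XT.lf (nat_lit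 0) (nat_lit 70657181919) (nat_lit 152) (nat_lit 62581463070) (nat_lit 0) (nat_lit 70657181919) (nat_lit 123) (nat_lit 5) (nat_lit 125) (nat_lit 4) (nat_lit 123) (nat_lit 4) (nat_lit 366) (nat_lit 267) (nat_lit 267)) (XT.lf (nat_lit 0) (nat_lit 300554158397) (nat_lit 76) (nat_lit 68697744090) (nat_lit 76) (nat_lit 68697378780) (nat_lit 122) (nat_lit 4) (nat_lit 123) (nat_lit 5) (nat_lit 123) (nat_lit 4) (nat_lit 367) (nat_lit 267) (nat_lit 266))) (XT.nd (nat_lit 78) (nat_lit 228) (nat_lit 0) (XT.lf (nat_lit 0) (nat_lit 152355084670) (nat_lit 152) (nat_lit 165774173690) (nat_lit 0) (nat_lit 152354490782) (nat_lit 120) (nat_lit 5) (nat_lit 122) (nat_lit 4) (nat_lit 120) (nat_lit 4) (nat_lit 368) (nat_lit 267) (nat_lit 265)) (XT.nd (nat_lit 78) (nat_lit 152) (nat_lit 0) (XT.lf (nat_lit 0) (nat_lit 300822914032) (nat_lit 76) (nat_lit 102973019428) (nat_lit 76) (nat_lit 102972185343) (nat_lit 119) (nat_lit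 4) (nat_lit 120) (nat_lit 5) (nat_lit 120) (nat_lit 4) (nat_lit 369) (nat_lit 267) (nat_lit 264)) (XT.lf (nat_lit 0) (nat_lit 139940293958) (nat_lit 152) (nat_lit 266466736080) (nat_lit 0) (nat_lit 139939387043) (nat_lit 117) (nat_lit 5) (nat_lit 119) (nat_lit 4) (nat_lit 117) (nat_lit 4) (nat_lit 370) (nat_lit 267) (nat_lit 263)))))) (XT.nd (nat_lit 390) (nat_lit 456) (nat_lit 0) (XT.nd (nat_lit 156) (nat_lit 228) (nat_lit 0) (XT.nd (nat_lit 78) (nat_lit 152) (nat_lit 0) (XT.lf (nat_lit 0) (nat_lit 241866074759) (nat_lit 76) (nat_lit 174089819338) (nat_lit 76) (nat_lit 174088754489) (nat_lit 116) (nat_lit 4) (nat_lit 117) (nat_lit 5) (nat_lit 117) (nat_lit 4) (nat_lit 371) (nat_lit 267) (nat_lit 262)) (XT.lf (nat_lit 0) (nat_lit 92453235681) (nat_lit 152) (nat_lit 453664579929) (nat_lit 0) (nat_lit 92452190305) (nat_lit 114) (nat_lit 5) (nat_lit 116) (nat_lit 4) (nat_lit 114) (nat_lit 4) (nat_lit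 372) (nat_lit 267) (nat_lit 261))) (XT.nd (nat_lit 78) (nat_lit 152) (nat_lit 0) (XT.lf (nat_lit 0) (nat_lit 95686434569) (nat_lit 76) (nat_lit 297797859529) (nat_lit 76) (nat_lit 297796710310) (nat_lit 113) (nat_lit 4) (nat_lit 114) (nat_lit 5) (nat_lit 114) (nat_lit 4) (nat_lit 373) (nat_lit 267) (nat_lit 260)) (XT.nd (nat_lit 78) (nat_lit 152) (nat_lit 0) (XT.lf (nat_lit 0) (nat_lit 739457409538) (nat_lit 76) (nat_lit 5802033915) (nat_lit 76) (nat_lit 5800794397) (nat_lit 113) (nat_lit 4) (nat_lit 114) (nat_lit 5) (nat_lit 114) (nat_lit 4) (nat_lit 374) (nat_lit 267) (nat_lit 259)) (XT.lf (nat_lit 0) (nat_lit 326720474886) (nat_lit 152) (nat_lit 160401243456) (nat_lit 0) (nat_lit 326719328764) (nat_lit 111) (nat_lit 5) (nat_lit 113) (nat_lit 4) (nat_lit 111) (nat_lit 4) (nat_lit 375) (nat_lit 267) (nat_lit 258))))) (XT.nd (nat_lit 156) (nat_lit 228) (nat_lit 0) (XT.nd (nat_lit 78) (nat_lit 152)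 (nat_lit 0) (XT.lf (nat_lit 0) (nat_lit 546134973328) (nat_lit 76) (nat_lit 169405784292) (nat_lit 76) (nat_lit 169404578797) (nat_lit 110) (nat_lit 4) (nat_lit 111) (nat_lit 5) (nat_lit 111) (nat_lit 4) (nat_lit 376) (nat_lit 267) (nat_lit 257)) (XT.lf (nat_lit 0) (nat_lit 196414071507) (nat_lit 152) (nat_lit 569987258141) (nat_lit 0) (nat_lit 196412978356) (nat_lit 108) (nat_lit 5) (nat_lit 110) (nat_lit 4) (nat_lit 108) (nat_lit 4) (nat_lit 377) (nat_lit 267) (nat_lit 256))) (XT.nd (nat_lit 78) (nat_lit 152) (nat_lit 0) (XT.lf (nat_lit 0) (nat_lit 186728169736) (nat_lit 76) (nat_lit 430875156838) (nat_lit 76) (nat_lit 430874024649) (nat_lit 107) (nat_lit 4) (nat_lit 108) (nat_lit 5) (nat_lit 108) (nat_lit 4) (nat_lit 378) (nat_lit 267) (nat_lit 255)) (XT.nd (nat_lit 78) (nat_lit 152) (nat_lit 0) (XT.lf (nat_lit 0) (nat_lit 1087124133218) (nat_lit 76) (nat_lit 28880888068) (nat_lit 76) (nat_lit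 28879721932) (nat_lit 107) (nat_lit 4) (nat_lit 108) (nat_lit 5) (nat_lit 108) (nat_lit 4) (nat_lit 379) (nat_lit 267) (nat_lit 254)) (XT.lf (nat_lit 0) (nat_lit 437541120211) (nat_lit 152) (nat_lit 371573100413) (nat_lit 0) (nat_lit 437540080511) (nat_lit 105) (nat_lit 5) (nat_lit 107) (nat_lit 4) (nat_lit 105) (nat_lit 4) (nat_lit 380) (nat_lit 267) (nat_lit 253))))))))
noncomputable def xc2 : XT := (XT.nd (nat_lit 46956) (nat_lit 0) (nat_lit 152) (XT.nd (nat_lit 46176) (nat_lit 0) (nat_lit 228) (XT.nd (nat_lit 45786) (nat_lit 0) (nat_lit 1064) (XT.nd (nat_lit 45552) (nat_lit 0) (nat_lit 1596) (XT.nd (nat_lit 78) (nat_lit 152) (nat_lit 0) (XT.lf (nat_lit 0) (nat_lit 611808703902) (nat_lit 76) (nat_lit 374674099922) (nat_lit 76) (nat_lit 374673037902) (nat_lit 104) (nat_lit 4) (nat_lit 105) (nat_lit 5) (nat_lit 105) (nat_lit 4) (nat_lit 381) (nat_lit 267) (nat_lit 252)) (XT.lf (nat_lit 0) (nat_lit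 137771237938) (nat_lit 152) (nat_lit 1212921017417) (nat_lit 0) (nat_lit 137770297564) (nat_lit 102) (nat_lit 5) (nat_lit 104) (nat_lit 4) (nat_lit 102) (nat_lit 4) (nat_lit 382) (nat_lit 267) (nat_lit 251))) (XT.nd (nat_lit 78) (nat_lit 228) (nat_lit 0) (XT.lf (nat_lit 0) (nat_lit 61441259315) (nat_lit 152) (nat_lit 54418260829) (nat_lit 0) (nat_lit 61441259315) (nat_lit 126) (nat_lit 5) (nat_lit 128) (nat_lit 4) (nat_lit 126) (nat_lit 4) (nat_lit 364) (nat_lit 268) (nat_lit 268)) (XT.nd (nat_lit 78) (nat_lit 152) (nat_lit 0) (XT.lf (nat_lit 0) (nat_lit 261352268556) (nat_lit 76) (nat_lit 59736892169) (nat_lit 76) (nat_lit 59736409046) (nat_lit 125) (nat_lit 4) (nat_lit 126) (nat_lit 5) (nat_lit 126) (nat_lit 4) (nat_lit 365) (nat_lit 268) (nat_lit 267)) (XT.lf (nat_lit 0) (nat_lit 132483170427) (nat_lit 152) (nat_lit 144150840410) (nat_lit 0) (nat_lit 132482385010) (nat_lit 123) (nat_lit 5) (nat_lit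 125) (nat_lit 4) (nat_lit 123) (nat_lit 4) (nat_lit 366) (nat_lit 268) (nat_lit 266))))) (XT.nd (nat_lit 156) (nat_lit 304) (nat_lit 0) (XT.nd (nat_lit 78) (nat_lit 152) (nat_lit 0) (XT.lf (nat_lit 0) (nat_lit 261585779795) (nat_lit 76) (nat_lit 89541667892) (nat_lit 76) (nat_lit 89540564815) (nat_lit 122) (nat_lit 4) (nat_lit 123) (nat_lit 5) (nat_lit 123) (nat_lit 4) (nat_lit 367) (nat_lit 268) (nat_lit 265)) (XT.lf (nat_lit 0) (nat_lit 121687692724) (nat_lit 152) (nat_lit 231709726677) (nat_lit 0) (nat_lit 121686493330) (nat_lit 120) (nat_lit 5) (nat_lit 122) (nat_lit 4) (nat_lit 120) (nat_lit 4) (nat_lit 368) (nat_lit 268) (nat_lit 264))) (XT.nd (nat_lit 78) (nat_lit 228) (nat_lit 0) (XT.lf (nat_lit 0) (nat_lit 210318826333) (nat_lit 76) (nat_lit 151382475162) (nat_lit 76) (nat_lit 151381066900) (nat_lit 119) (nat_lit 4) (nat_lit 120) (nat_lit 5) (nat_lit 120) (nat_lit 4) (nat_lit 369) (nat_lit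 268) (nat_lit 263)) (XT.nd (nat_lit 78) (nat_lit 76) (nat_lit 0) (XT.lf (nat_lit 0) (nat_lit 80394572804) (nat_lit 152) (nat_lit 394490559804) (nat_lit 0) (nat_lit 80393190295) (nat_lit 117) (nat_lit 5) (nat_lit 119) (nat_lit 4) (nat_lit 117) (nat_lit 4) (nat_lit 370) (nat_lit 268) (nat_lit 262)) (XT.lf (nat_lit 0) (nat_lit 83205995216) (nat_lit 76) (nat_lit 258954746835) (nat_lit 76) (nat_lit 258953226992) (nat_lit 116) (nat_lit 4) (nat_lit 117) (nat_lit 5) (nat_lit 117) (nat_lit 4) (nat_lit 371) (nat_lit 268) (nat_lit 261)))))) (XT.nd (nat_lit 390) (nat_lit 380) (nat_lit 0) (XT.nd (nat_lit 156) (nat_lit 304) (nat_lit 0) (XT.nd (nat_lit 78) (nat_lit 152) (nat_lit 0) (XT.lf (nat_lit 0) (nat_lit 643006828762) (nat_lit 76) (nat_lit 5045359904) (nat_lit 76) (nat_lit 5043720641) (nat_lit 116) (nat_lit 4) (nat_lit 117) (nat_lit 5) (nat_lit 117) (nat_lit 4) (nat_lit 372) (nat_lit 268) (nat_lit 260))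 (XT.lf (nat_lit 0) (nat_lit 284105190358) (nat_lit 152) (nat_lit 139479046432) (nat_lit 0) (nat_lit 284103674613) (nat_lit 114) (nat_lit 5) (nat_lit 116) (nat_lit 4) (nat_lit 114) (nat_lit 4) (nat_lit 373) (nat_lit 268) (nat_lit 259))) (XT.nd (nat_lit 78) (nat_lit 228) (nat_lit 0) (XT.lf (nat_lit 0) (nat_lit 474900292037) (nat_lit 76) (nat_lit 147309513594) (nat_lit 76) (nat_lit 147307919327) (nat_lit 113) (nat_lit 4) (nat_lit 114) (nat_lit 5) (nat_lit 114) (nat_lit 4) (nat_lit 374) (nat_lit 268) (nat_lit 258)) (XT.nd (nat_lit 78) (nat_lit 76) (nat_lit 0) (XT.lf (nat_lit 0) (nat_lit 170795232222) (nat_lit 152) (nat_lit 495640850782) (nat_lit 0) (nat_lit 170793786531) (nat_lit 111) (nat_lit 5) (nat_lit 113) (nat_lit 4) (nat_lit 111) (nat_lit 4) (nat_lit 375) (nat_lit 268) (nat_lit 257)) (XT.lf (nat_lit 0) (nat_lit 162372582374) (nat_lit 76) (nat_lit 374674192409) (nat_lit 76) (nat_lit 374672695089)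 (nat_lit 110) (nat_lit 4) (nat_lit 111) (nat_lit 5) (nat_lit 111) (nat_lit 4) (nat_lit 376) (nat_lit 268) (nat_lit 256))))) (XT.nd (nat_lit 156) (nat_lit 228) (nat_lit 0) (XT.nd (nat_lit 78) (nat_lit 152) (nat_lit 0) (XT.lf (nat_lit 0) (nat_lit 945325588740) (nat_lit 76) (nat_lit 25113968713) (nat_lit 76) (nat_lit 25112426498) (nat_lit 110) (nat_lit 4) (nat_lit 111) (nat_lit 5) (nat_lit 111) (nat_lit 4) (nat_lit 377) (nat_lit 268) (nat_lit 255)) (XT.lf (nat_lit 0) (nat_lit 380470889030) (nat_lit 152) (nat_lit 323106845129) (nat_lit 0) (nat_lit 380469514027) (nat_lit 108) (nat_lit 5) (nat_lit 110) (nat_lit 4) (nat_lit 108) (nat_lit 4) (nat_lit 378) (nat_lit 268) (nat_lit 254))) (XT.nd (nat_lit 78) (nat_lit 152) (nat_lit 0) (XT.lf (nat_lit 0) (nat_lit 532007783215) (nat_lit 76) (nat_lit 325803712356) (nat_lit 76) (nat_lit 325802307834) (nat_lit 107) (nat_lit 4) (nat_lit 108) (nat_lit 5) (nat_lit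 108) (nat_lit 4) (nat_lit 379) (nat_lit 268) (nat_lit 253)) (XT.nd (nat_lit 78) (nat_lit 0) (nat_lit 0) (XT.lf (nat_lit 0) (nat_lit 119801385786) (nat_lit 152) (nat_lit 1054713760616) (nat_lit 0) (nat_lit 119800142142) (nat_lit 105) (nat_lit 5) (nat_lit 107) (nat_lit 4) (nat_lit 105) (nat_lit 4) (nat_lit 380) (nat_lit 268) (nat_lit 252)) (XT.lf (nat_lit 0) (nat_lit 637602456922) (nat_lit 152) (nat_lit 138284270214) (nat_lit 0) (nat_lit 637601193869) (nat_lit 105) (nat_lit 5) (nat_lit 107) (nat_lit 4) (nat_lit 105) (nat_lit 4) (nat_lit 381) (nat_lit 268) (nat_lit 251))))))) (XT.nd (nat_lit 46020) (nat_lit 0) (nat_lit 228) (XT.nd (nat_lit 45630) (nat_lit 0) (nat_lit 1140) (XT.nd (nat_lit 45396) (nat_lit 0) (nat_lit 1596) (XT.nd (nat_lit 45318) (nat_lit 0) (nat_lit 1900) (XT.lf (nat_lit 0) (nat_lit 979467314054) (nat_lit 76) (nat_lit 283307614145) (nat_lit 76) (nat_lit 283306334215) (nat_lit 104)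 (nat_lit 4) (nat_lit 105) (nat_lit 5) (nat_lit 105) (nat_lit 4) (nat_lit 382) (nat_lit 268) (nat_lit 250)) (XT.lf (nat_lit 0) (nat_lit 53427488249) (nat_lit 152) (nat_lit 47319694223) (nat_lit 0) (nat_lit 53427488249) (nat_lit 129) (nat_lit 5) (nat_lit 131) (nat_lit 4) (nat_lit 129) (nat_lit 4) (nat_lit 362) (nat_lit 269) (nat_lit 269))) (XT.nd (nat_lit 78) (nat_lit 228) (nat_lit 0) (XT.lf (nat_lit 0) (nat_lit 227263935232) (nat_lit 76) (nat_lit 51944757815) (nat_lit 76) (nat_lit 51944118885) (nat_lit 128) (nat_lit 4) (nat_lit 129) (nat_lit 5) (nat_lit 129) (nat_lit 4) (nat_lit 363) (nat_lit 269) (nat_lit 268)) (XT.nd (nat_lit 78) (nat_lit 76) (nat_lit 0) (XT.lf (nat_lit 0) (nat_lit 115203402412) (nat_lit 152) (nat_lit 125347743578) (nat_lit 0) (nat_lit 115202363699) (nat_lit 126) (nat_lit 5) (nat_lit 128) (nat_lit 4) (nat_lit 126) (nat_lit 4) (nat_lit 364) (nat_lit 269) (nat_lit 267)) (XT.lf (nat_lit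 0) (nat_lit 227466738116) (nat_lit 76) (nat_lit 77862203351) (nat_lit 76) (nat_lit 77860744531) (nat_lit 125) (nat_lit 4) (nat_lit 126) (nat_lit 5) (nat_lit 126) (nat_lit 4) (nat_lit 365) (nat_lit 269) (nat_lit 266))))) (XT.nd (nat_lit 156) (nat_lit 228) (nat_lit 0) (XT.nd (nat_lit 78) (nat_lit 76) (nat_lit 0) (XT.lf (nat_lit 0) (nat_lit 105816020555) (nat_lit 152) (nat_lit 201486085887) (nat_lit 0) (nat_lit 105814434355) (nat_lit 123) (nat_lit 5) (nat_lit 125) (nat_lit 4) (nat_lit 123) (nat_lit 4) (nat_lit 366) (nat_lit 269) (nat_lit 265)) (XT.lf (nat_lit 0) (nat_lit 182886597793) (nat_lit 76) (nat_lit 131636966087) (nat_lit 76) (nat_lit 131635103661) (nat_lit 122) (nat_lit 4) (nat_lit 123) (nat_lit 5) (nat_lit 123) (nat_lit 4) (nat_lit 367) (nat_lit 269) (nat_lit 264))) (XT.nd (nat_lit 78) (nat_lit 76) (nat_lit 0) (XT.lf (nat_lit 0) (nat_lit 69908925677) (nat_lit 152) (nat_lit 343034767818) (nat_lit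 0) (nat_lit 69907097309) (nat_lit 120) (nat_lit 5) (nat_lit 122) (nat_lit 4) (nat_lit 120) (nat_lit 4) (nat_lit 368) (nat_lit 269) (nat_lit 263)) (XT.nd (nat_lit 78) (nat_lit 0) (nat_lit 0) (XT.lf (nat_lit 0) (nat_lit 72353568236) (nat_lit 76) (nat_lit 225178154956) (nat_lit 76) (nat_lit 225176144964) (nat_lit 119) (nat_lit 4) (nat_lit 120) (nat_lit 5) (nat_lit 120) (nat_lit 4) (nat_lit 369) (nat_lit 269) (nat_lit 262)) (XT.lf (nat_lit 0) (nat_lit 559136882905) (nat_lit 76) (nat_lit 4387418952) (nat_lit 76) (nat_lit 4385251027) (nat_lit 119) (nat_lit 4) (nat_lit 120) (nat_lit 5) (nat_lit 120) (nat_lit 4) (nat_lit 370) (nat_lit 269) (nat_lit 261)))))) (XT.nd (nat_lit 390) (nat_lit 456) (nat_lit 0) (XT.nd (nat_lit 156) (nat_lit 228) (nat_lit 0) (XT.nd (nat_lit 78) (nat_lit 76) (nat_lit 0) (XT.lf (nat_lit 0) (nat_lit 247048559746) (nat_lit 152) (nat_lit 121285736265) (nat_lit 0) (nat_lit 247046555173)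 (nat_lit 117) (nat_lit 5) (nat_lit 119) (nat_lit 4) (nat_lit 117) (nat_lit 4) (nat_lit 371) (nat_lit 269) (nat_lit 260)) (XT.lf (nat_lit 0) (nat_lit 412957192575) (nat_lit 76) (nat_lit 128095409004) (nat_lit 76) (nat_lit 128093300587) (nat_lit 116) (nat_lit 4) (nat_lit 117) (nat_lit 5) (nat_lit 117) (nat_lit 4) (nat_lit 372) (nat_lit 269) (nat_lit 259))) (XT.nd (nat_lit 78) (nat_lit 76) (nat_lit 0) (XT.lf (nat_lit 0) (nat_lit 148518105618) (nat_lit 152) (nat_lit 430991722455) (nat_lit 0) (nat_lit 148516193691) (nat_lit 114) (nat_lit 5) (nat_lit 116) (nat_lit 4) (nat_lit 114) (nat_lit 4) (nat_lit 373) (nat_lit 269) (nat_lit 258)) (XT.nd (nat_lit 78) (nat_lit 0) (nat_lit 0) (XT.lf (nat_lit 0) (nat_lit 141193894884) (nat_lit 76) (nat_lit 325803834670) (nat_lit 76) (nat_lit 325801854464) (nat_lit 113) (nat_lit 4) (nat_lit 114) (nat_lit 5) (nat_lit 114) (nat_lit 4) (nat_lit 374) (nat_lit 269) (nat_lit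 257)) (XT.lf (nat_lit 0) (nat_lit 822022588985) (nat_lit 76) (nat_lit 21838436009) (nat_lit 76) (nat_lit 21836396430) (nat_lit 113) (nat_lit 4) (nat_lit 114) (nat_lit 5) (nat_lit 114) (nat_lit 4) (nat_lit 375) (nat_lit 269) (nat_lit 256))))) (XT.nd (nat_lit 156) (nat_lit 228) (nat_lit 0) (XT.nd (nat_lit 78) (nat_lit 76) (nat_lit 0) (XT.lf (nat_lit 0) (nat_lit 330844713829) (nat_lit 152) (nat_lit 280962211233) (nat_lit 0) (nat_lit 330842895387) (nat_lit 111) (nat_lit 5) (nat_lit 113) (nat_lit 4) (nat_lit 111) (nat_lit 4) (nat_lit 376) (nat_lit 269) (nat_lit 255)) (XT.lf (nat_lit 0) (nat_lit 462615747480) (nat_lit 76) (nat_lit 283307770643) (nat_lit 76) (nat_lit 283305913162) (nat_lit 110) (nat_lit 4) (nat_lit 111) (nat_lit 5) (nat_lit 111) (nat_lit 4) (nat_lit 377) (nat_lit 269) (nat_lit 254))) (XT.nd (nat_lit 78) (nat_lit 76) (nat_lit 0) (XT.lf (nat_lit 0) (nat_lit 104175527148) (nat_lit 152) (nat_lit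 917142178921) (nat_lit 0) (nat_lit 104173882428) (nat_lit 108) (nat_lit 5) (nat_lit 110) (nat_lit 4) (nat_lit 108) (nat_lit 4) (nat_lit 378) (nat_lit 269) (nat_lit 253)) (XT.nd (nat_lit 78) (nat_lit 76) (nat_lit 0) (XT.lf (nat_lit 0) (nat_lit 554437330927) (nat_lit 152) (nat_lit 120246972666) (nat_lit 0) (nat_lit 554435660539) (nat_lit 108) (nat_lit 5) (nat_lit 110) (nat_lit 4) (nat_lit 108) (nat_lit 4) (nat_lit 379) (nat_lit 269) (nat_lit 252)) (XT.lf (nat_lit 0) (nat_lit 851710945418) (nat_lit 76) (nat_lit 246354633665) (nat_lit 76) (nat_lit 246352940957) (nat_lit 107) (nat_lit 4) (nat_lit 108) (nat_lit 5) (nat_lit 108) (nat_lit 4) (nat_lit 380) (nat_lit 269) (nat_lit 251))))))))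
noncomputable def xc3 : XT := (XT.nd (nat_lit 46644) (nat_lit 0) (nat_lit 76) (XT.nd (nat_lit 45864) (nat_lit 0) (nat_lit 532) (XT.nd (nat_lit 45474) (nat_lit 0) (nat_lit 1368) (XT.nd (nat_lit 45240) (nat_lit 0) (nat_lit 1900) (XT.nd (nat_lit 78) (nat_lit 76) (nat_lit 0) (XT.lf (nat_lit 0) (nat_lit 254667392505) (nat_lit 152) (nat_lit 961594915786) (nat_lit 0) (nat_lit 254665903707) (nat_lit 105) (nat_lit 5) (nat_lit 107) (nat_lit 4) (nat_lit 105) (nat_lit 4) (nat_lit 381) (nat_lit 269) (nat_lit 250)) (XT.lf (nat_lit 0) (nat_lit 65333826947) (nat_lit 76) (nat_lit 772262853702) (nat_lit 76) (nat_lit 772261350228) (nat_lit 104) (nat_lit 4) (nat_lit 105) (nat_lit 5) (nat_lit 105) (nat_lit 4) (nat_lit 382) (nat_lit 269) (nat_lit 249))) (XT.nd (nat_lit 78) (nat_lit 228) (nat_lit 0) (XT.lf (nat_lit 0) (nat_lit 46459090431) (nat_lit 152) (nat_lit 41146855850) (nat_lit 0) (nat_lit 46459090431) (nat_lit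 132) (nat_lit 5) (nat_lit 134) (nat_lit 4) (nat_lit 132) (nat_lit 4) (nat_lit 360) (nat_lit 270) (nat_lit 270)) (XT.nd (nat_lit 78) (nat_lit 152) (nat_lit 0) (XT.lf (nat_lit 0) (nat_lit 197622258751) (nat_lit 76) (nat_lit 45168870838) (nat_lit 76) (nat_lit 45168025853) (nat_lit 131) (nat_lit 4) (nat_lit 132) (nat_lit 5) (nat_lit 132) (nat_lit 4) (nat_lit 361) (nat_lit 270) (nat_lit 269)) (XT.lf (nat_lit 0) (nat_lit 100177725361) (nat_lit 152) (nat_lit 108996962304) (nat_lit 0) (nat_lit 100176351663) (nat_lit 129) (nat_lit 5) (nat_lit 131) (nat_lit 4) (nat_lit 129) (nat_lit 4) (nat_lit 362) (nat_lit 270) (nat_lit 268))))) (XT.nd (nat_lit 156) (nat_lit 304) (nat_lit 0) (XT.nd (nat_lit 78) (nat_lit 152) (nat_lit 0) (XT.lf (nat_lit 0) (nat_lit 197798277974) (nat_lit 76) (nat_lit 67706109639) (nat_lit 76) (nat_lit 67704180350) (nat_lit 128) (nat_lit 4) (nat_lit 129) (nat_lit 5) (nat_lit 129) (nat_lit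 4) (nat_lit 363) (nat_lit 270) (nat_lit 267)) (XT.lf (nat_lit 0) (nat_lit 92014771467) (nat_lit 152) (nat_lit 175204454984) (nat_lit 0) (nat_lit 92012673718) (nat_lit 126) (nat_lit 5) (nat_lit 128) (nat_lit 4) (nat_lit 126) (nat_lit 4) (nat_lit 364) (nat_lit 270) (nat_lit 266))) (XT.nd (nat_lit 78) (nat_lit 228) (nat_lit 0) (XT.lf (nat_lit 0) (nat_lit 159032699467) (nat_lit 76) (nat_lit 114466968247) (nat_lit 76) (nat_lit 114464505188) (nat_lit 125) (nat_lit 4) (nat_lit 126) (nat_lit 5) (nat_lit 126) (nat_lit 4) (nat_lit 365) (nat_lit 270) (nat_lit 265)) (XT.nd (nat_lit 78) (nat_lit 76) (nat_lit 0) (XT.lf (nat_lit 0) (nat_lit 60791165638) (nat_lit 152) (nat_lit 298290439114) (nat_lit 0) (nat_lit 60788747621) (nat_lit 123) (nat_lit 5) (nat_lit 125) (nat_lit 4) (nat_lit 123) (nat_lit 4) (nat_lit 366) (nat_lit 270) (nat_lit 264)) (XT.lf (nat_lit 0) (nat_lit 62916845786) (nat_lit 76) (nat_lit 195807242336)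 (nat_lit 76) (nat_lit 195804584122) (nat_lit 122) (nat_lit 4) (nat_lit 123) (nat_lit 5) (nat_lit 123) (nat_lit 4) (nat_lit 367) (nat_lit 270) (nat_lit 263)))))) (XT.nd (nat_lit 390) (nat_lit 380) (nat_lit 0) (XT.nd (nat_lit 156) (nat_lit 304) (nat_lit 0) (XT.nd (nat_lit 78) (nat_lit 152) (nat_lit 0) (XT.lf (nat_lit 0) (nat_lit 486206659700) (nat_lit 76) (nat_lit 3815344590) (nat_lit 76) (nat_lit 3812477508) (nat_lit 122) (nat_lit 4) (nat_lit 123) (nat_lit 5) (nat_lit 123) (nat_lit 4) (nat_lit 368) (nat_lit 270) (nat_lit 262)) (XT.lf (nat_lit 0) (nat_lit 214825585914) (nat_lit 152) (nat_lit 105465340436) (nat_lit 0) (nat_lit 214822934866) (nat_lit 120) (nat_lit 5) (nat_lit 122) (nat_lit 4) (nat_lit 120) (nat_lit 4) (nat_lit 369) (nat_lit 270) (nat_lit 261))) (XT.nd (nat_lit 78) (nat_lit 228) (nat_lit 0) (XT.lf (nat_lit 0) (nat_lit 359093762273) (nat_lit 76) (nat_lit 111387549953) (nat_lit 76) (nat_lit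 111384761571) (nat_lit 119) (nat_lit 4) (nat_lit 120) (nat_lit 5) (nat_lit 120) (nat_lit 4) (nat_lit 370) (nat_lit 270) (nat_lit 260)) (XT.nd (nat_lit 78) (nat_lit 76) (nat_lit 0) (XT.lf (nat_lit 0) (nat_lit 129146856423) (nat_lit 152) (nat_lit 374774985377) (nat_lit 0) (nat_lit 129144327899) (nat_lit 117) (nat_lit 5) (nat_lit 119) (nat_lit 4) (nat_lit 117) (nat_lit 4) (nat_lit 371) (nat_lit 270) (nat_lit 259)) (XT.lf (nat_lit 0) (nat_lit 122777756153) (nat_lit 76) (nat_lit 283307932403) (nat_lit 76) (nat_lit 283305313580) (nat_lit 116) (nat_lit 4) (nat_lit 117) (nat_lit 5) (nat_lit 117) (nat_lit 4) (nat_lit 372) (nat_lit 270) (nat_lit 258))))) (XT.nd (nat_lit 156) (nat_lit 228) (nat_lit 0) (XT.nd (nat_lit 78) (nat_lit 152) (nat_lit 0) (XT.lf (nat_lit 0) (nat_lit 714802698174) (nat_lit 76) (nat_lit 18990211957) (nat_lit 76) (nat_lit 18987514613) (nat_lit 116) (nat_lit 4) (nat_lit 117) (nat_lit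 5) (nat_lit 117) (nat_lit 4) (nat_lit 373) (nat_lit 270) (nat_lit 257)) (XT.lf (nat_lit 0) (nat_lit 287691667158) (nat_lit 152) (nat_lit 244314618746) (nat_lit 0) (nat_lit 287689262269) (nat_lit 114) (nat_lit 5) (nat_lit 116) (nat_lit 4) (nat_lit 114) (nat_lit 4) (nat_lit 374) (nat_lit 270) (nat_lit 256))) (XT.nd (nat_lit 78) (nat_lit 152) (nat_lit 0) (XT.lf (nat_lit 0) (nat_lit 402274938371) (nat_lit 76) (nat_lit 246354840633) (nat_lit 76) (nat_lit 246352384115) (nat_lit 113) (nat_lit 4) (nat_lit 114) (nat_lit 5) (nat_lit 114) (nat_lit 4) (nat_lit 375) (nat_lit 270) (nat_lit 255)) (XT.nd (nat_lit 78) (nat_lit 0) (nat_lit 0) (XT.lf (nat_lit 0) (nat_lit 90587955910) (nat_lit 152) (nat_lit 797514645107) (nat_lit 0) (nat_lit 90585780769) (nat_lit 111) (nat_lit 5) (nat_lit 113) (nat_lit 4) (nat_lit 111) (nat_lit 4) (nat_lit 376) (nat_lit 270) (nat_lit 254)) (XT.lf (nat_lit 0) (nat_lit 482119962887)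 (nat_lit 152) (nat_lit 104562295533) (nat_lit 0) (nat_lit 482117753799) (nat_lit 111) (nat_lit 5) (nat_lit 113) (nat_lit 4) (nat_lit 111) (nat_lit 4) (nat_lit 377) (nat_lit 270) (nat_lit 253))))))) (XT.nd (nat_lit 45708) (nat_lit 0) (nat_lit 912) (XT.nd (nat_lit 45318) (nat_lit 0) (nat_lit 1824) (XT.nd (nat_lit 156) (nat_lit 228) (nat_lit 0) (XT.nd (nat_lit 78) (nat_lit 152) (nat_lit 0) (XT.lf (nat_lit 0) (nat_lit 740618527560) (nat_lit 76) (nat_lit 214221667333) (nat_lit 76) (nat_lit 214219428726) (nat_lit 110) (nat_lit 4) (nat_lit 111) (nat_lit 5) (nat_lit 111) (nat_lit 4) (nat_lit 378) (nat_lit 270) (nat_lit 252)) (XT.lf (nat_lit 0) (nat_lit 221450385387) (nat_lit 152) (nat_lit 836169245558) (nat_lit 0) (nat_lit 221448416452) (nat_lit 108) (nat_lit 5) (nat_lit 110) (nat_lit 4) (nat_lit 108) (nat_lit 4) (nat_lit 379) (nat_lit 270) (nat_lit 251))) (XT.nd (nat_lit 78) (nat_lit 152) (nat_lit 0)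 (XT.lf (nat_lit 0) (nat_lit 56812291628) (nat_lit 76) (nat_lit 671533140143) (nat_lit 76) (nat_lit 671531151799) (nat_lit 107) (nat_lit 4) (nat_lit 108) (nat_lit 5) (nat_lit 108) (nat_lit 4) (nat_lit 380) (nat_lit 270) (nat_lit 250)) (XT.nd (nat_lit 78) (nat_lit 152) (nat_lit 0) (XT.lf (nat_lit 0) (nat_lit 1160867961311) (nat_lit 76) (nat_lit 186279748908) (nat_lit 76) (nat_lit 186277743686) (nat_lit 107) (nat_lit 4) (nat_lit 108) (nat_lit 5) (nat_lit 108) (nat_lit 4) (nat_lit 381) (nat_lit 270) (nat_lit 249)) (XT.lf (nat_lit 0) (nat_lit 381257519415) (nat_lit 152) (nat_lit 915795658694) (nat_lit 0) (nat_lit 381255762982) (nat_lit 105) (nat_lit 5) (nat_lit 107) (nat_lit 4) (nat_lit 105) (nat_lit 4) (nat_lit 382) (nat_lit 270) (nat_lit 248))))) (XT.nd (nat_lit 156) (nat_lit 380) (nat_lit 0) (XT.nd (nat_lit 78) (nat_lit 76) (nat_lit 0) (XT.lf (nat_lit 0) (nat_lit 40399744680) (nat_lit 152) (nat_lit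 35778943158) (nat_lit 0) (nat_lit 40399744680) (nat_lit 135) (nat_lit 5) (nat_lit 137) (nat_lit 4) (nat_lit 135) (nat_lit 4) (nat_lit 358) (nat_lit 271) (nat_lit 271)) (XT.lf (nat_lit 0) (nat_lit 171847354072) (nat_lit 76) (nat_lit 39276639185) (nat_lit 76) (nat_lit 39275521694) (nat_lit 134) (nat_lit 4) (nat_lit 135) (nat_lit 5) (nat_lit 135) (nat_lit 4) (nat_lit 359) (nat_lit 271) (nat_lit 270))) (XT.nd (nat_lit 78) (nat_lit 228) (nat_lit 0) (XT.lf (nat_lit 0) (nat_lit 87112194548) (nat_lit 152) (nat_lit 94778544753) (nat_lit 0) (nat_lit 87110377833) (nat_lit 132) (nat_lit 5) (nat_lit 134) (nat_lit 4) (nat_lit 132) (nat_lit 4) (nat_lit 360) (nat_lit 271) (nat_lit 269)) (XT.nd (nat_lit 78) (nat_lit 152) (nat_lit 0) (XT.lf (nat_lit 0) (nat_lit 171999976373) (nat_lit 76) (nat_lit 58874674091) (nat_lit 76) (nat_lit 58872122606) (nat_lit 131) (nat_lit 4) (nat_lit 132) (nat_lit 5) (nat_lit 132) (nat_lit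 4) (nat_lit 361) (nat_lit 271) (nat_lit 268)) (XT.lf (nat_lit 0) (nat_lit 80013956382) (nat_lit 152) (nat_lit 152350592931) (nat_lit 0) (nat_lit 80011182109) (nat_lit 129) (nat_lit 5) (nat_lit 131) (nat_lit 4) (nat_lit 129) (nat_lit 4) (nat_lit 362) (nat_lit 271) (nat_lit 267)))))) (XT.nd (nat_lit 390) (nat_lit 456) (nat_lit 0) (XT.nd (nat_lit 156) (nat_lit 228) (nat_lit 0) (XT.nd (nat_lit 78) (nat_lit 152) (nat_lit 0) (XT.lf (nat_lit 0) (nat_lit 138290461467) (nat_lit 76) (nat_lit 99536548633) (nat_lit 76) (nat_lit 99533291238) (nat_lit 128) (nat_lit 4) (nat_lit 129) (nat_lit 5) (nat_lit 129) (nat_lit 4) (nat_lit 363) (nat_lit 271) (nat_lit 266)) (XT.lf (nat_lit 0) (nat_lit 52862935191) (nat_lit 152) (nat_lit 259382113272) (nat_lit 0) (nat_lit 52859737363) (nat_lit 126) (nat_lit 5) (nat_lit 128) (nat_lit 4) (nat_lit 126) (nat_lit 4) (nat_lit 364) (nat_lit 271) (nat_lit 265))) (XT.nd (nat_lit 78)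 (nat_lit 152) (nat_lit 0) (XT.lf (nat_lit 0) (nat_lit 54711225765) (nat_lit 76) (nat_lit 170267367038) (nat_lit 76) (nat_lit 170263851550) (nat_lit 125) (nat_lit 4) (nat_lit 126) (nat_lit 5) (nat_lit 126) (nat_lit 4) (nat_lit 365) (nat_lit 271) (nat_lit 264)) (XT.nd (nat_lit 78) (nat_lit 152) (nat_lit 0) (XT.lf (nat_lit 0) (nat_lit 422789291853) (nat_lit 76) (nat_lit 3317952373) (nat_lit 76) (nat_lit 3314160658) (nat_lit 125) (nat_lit 4) (nat_lit 126) (nat_lit 5) (nat_lit 126) (nat_lit 4) (nat_lit 366) (nat_lit 271) (nat_lit 263)) (XT.lf (nat_lit 0) (nat_lit 186805850981) (nat_lit 152) (nat_lit 91708307704) (nat_lit 0) (nat_lit 186802344970) (nat_lit 123) (nat_lit 5) (nat_lit 125) (nat_lit 4) (nat_lit 123) (nat_lit 4) (nat_lit 367) (nat_lit 271) (nat_lit 262))))) (XT.nd (nat_lit 156) (nat_lit 228) (nat_lit 0) (XT.nd (nat_lit 78) (nat_lit 152) (nat_lit 0) (XT.lf (nat_lit 0) (nat_lit 312256174600)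 (nat_lit 76) (nat_lit 96859053547) (nat_lit 76) (nat_lit 96855365912) (nat_lit 122) (nat_lit 4) (nat_lit 123) (nat_lit 5) (nat_lit 123) (nat_lit 4) (nat_lit 368) (nat_lit 271) (nat_lit 261)) (XT.lf (nat_lit 0) (nat_lit 112302510439) (nat_lit 152) (nat_lit 325890728971) (nat_lit 0) (nat_lit 112299166467) (nat_lit 120) (nat_lit 5) (nat_lit 122) (nat_lit 4) (nat_lit 120) (nat_lit 4) (nat_lit 369) (nat_lit 271) (nat_lit 260))) (XT.nd (nat_lit 78) (nat_lit 152) (nat_lit 0) (XT.lf (nat_lit 0) (nat_lit 106763869616) (nat_lit 76) (nat_lit 246355054560) (nat_lit 76) (nat_lit 246351591167) (nat_lit 119) (nat_lit 4) (nat_lit 120) (nat_lit 5) (nat_lit 120) (nat_lit 4) (nat_lit 370) (nat_lit 271) (nat_lit 259)) (XT.nd (nat_lit 78) (nat_lit 152) (nat_lit 0) (XT.lf (nat_lit 0) (nat_lit 621568154631) (nat_lit 76) (nat_lit 16513581691) (nat_lit 76) (nat_lit 16510014455) (nat_lit 119) (nat_lit 4) (nat_lit 120) (nat_lit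 5) (nat_lit 120) (nat_lit 4) (nat_lit 371) (nat_lit 271) (nat_lit 258)) (XT.lf (nat_lit 0) (nat_lit 250167476008) (nat_lit 152) (nat_lit 212447034937) (nat_lit 0) (nat_lit 250164295542) (nat_lit 117) (nat_lit 5) (nat_lit 119) (nat_lit 4) (nat_lit 117) (nat_lit 4) (nat_lit 372) (nat_lit 271) (nat_lit 257))))))))
noncomputable def xc4 : XT := (XT.nd (nat_lit 46332) (nat_lit 0) (nat_lit 0) (XT.nd (nat_lit 45552) (nat_lit 0) (nat_lit 1444) (XT.nd (nat_lit 390) (nat_lit 304) (nat_lit 0) (XT.nd (nat_lit 156) (nat_lit 228) (nat_lit 0) (XT.nd (nat_lit 78) (nat_lit 152) (nat_lit 0) (XT.lf (nat_lit 0) (nat_lit 349804790630) (nat_lit 76) (nat_lit 214221941048) (nat_lit 76) (nat_lit 214218692303) (nat_lit 116) (nat_lit 4) (nat_lit 117) (nat_lit 5) (nat_lit 117) (nat_lit 4) (nat_lit 373) (nat_lit 271) (nat_lit 256)) (XT.lf (nat_lit 0) (nat_lit 78772851046) (nat_lit 152) (nat_lit 693490608139) (nat_lit 0) (nat_lit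 78769974422) (nat_lit 114) (nat_lit 5) (nat_lit 116) (nat_lit 4) (nat_lit 114) (nat_lit 4) (nat_lit 374) (nat_lit 271) (nat_lit 255))) (XT.nd (nat_lit 78) (nat_lit 228) (nat_lit 0) (XT.lf (nat_lit 0) (nat_lit 419235470690) (nat_lit 152) (nat_lit 90923352521) (nat_lit 0) (nat_lit 419232549171) (nat_lit 114) (nat_lit 5) (nat_lit 116) (nat_lit 4) (nat_lit 114) (nat_lit 4) (nat_lit 375) (nat_lit 271) (nat_lit 254)) (XT.nd (nat_lit 78) (nat_lit 152) (nat_lit 0) (XT.lf (nat_lit 0) (nat_lit 644016526390) (nat_lit 76) (nat_lit 186280037058) (nat_lit 76) (nat_lit 186277076500) (nat_lit 113) (nat_lit 4) (nat_lit 114) (nat_lit 5) (nat_lit 114) (nat_lit 4) (nat_lit 376) (nat_lit 271) (nat_lit 253)) (XT.lf (nat_lit 0) (nat_lit 192566185805) (nat_lit 152) (nat_lit 727103365886) (nat_lit 0) (nat_lit 192563581888) (nat_lit 111) (nat_lit 5) (nat_lit 113) (nat_lit 4) (nat_lit 111) (nat_lit 4) (nat_lit 377) (nat_lit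 271) (nat_lit 252))))) (XT.nd (nat_lit 156) (nat_lit 228) (nat_lit 0) (XT.nd (nat_lit 78) (nat_lit 0) (nat_lit 0) (XT.lf (nat_lit 0) (nat_lit 49402347410) (nat_lit 76) (nat_lit 583942157076) (nat_lit 76) (nat_lit 583939527491) (nat_lit 110) (nat_lit 4) (nat_lit 111) (nat_lit 5) (nat_lit 111) (nat_lit 4) (nat_lit 378) (nat_lit 271) (nat_lit 251)) (XT.lf (nat_lit 0) (nat_lit 1009450753166) (nat_lit 76) (nat_lit 161982691417) (nat_lit 76) (nat_lit 161980039511) (nat_lit 110) (nat_lit 4) (nat_lit 111) (nat_lit 5) (nat_lit 111) (nat_lit 4) (nat_lit 379) (nat_lit 271) (nat_lit 250))) (XT.nd (nat_lit 78) (nat_lit 76) (nat_lit 0) (XT.lf (nat_lit 0) (nat_lit 331528834815) (nat_lit 152) (nat_lit 796343774016) (nat_lit 0) (nat_lit 331526511932) (nat_lit 108) (nat_lit 5) (nat_lit 110) (nat_lit 4) (nat_lit 108) (nat_lit 4) (nat_lit 380) (nat_lit 271) (nat_lit 249)) (XT.nd (nat_lit 78) (nat_lit 0) (nat_lit 0)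 (XT.lf (nat_lit 0) (nat_lit 223073591095) (nat_lit 76) (nat_lit 687890867855) (nat_lit 76) (nat_lit 687888530296) (nat_lit 107) (nat_lit 4) (nat_lit 108) (nat_lit 5) (nat_lit 108) (nat_lit 4) (nat_lit 381) (nat_lit 271) (nat_lit 248)) (XT.lf (nat_lit 0) (nat_lit 1472162899614) (nat_lit 76) (nat_lit 140854543148) (nat_lit 76) (nat_lit 140852192827) (nat_lit 107) (nat_lit 4) (nat_lit 108) (nat_lit 5) (nat_lit 108) (nat_lit 4) (nat_lit 382) (nat_lit 271) (nat_lit 247)))))) (XT.nd (nat_lit 390) (nat_lit 456) (nat_lit 0) (XT.nd (nat_lit 156) (nat_lit 380) (nat_lit 0) (XT.nd (nat_lit 78) (nat_lit 76) (nat_lit 0) (XT.lf (nat_lit 0) (nat_lit 35130921108) (nat_lit 152) (nat_lit 31110892584) (nat_lit 0) (nat_lit 35130921108) (nat_lit 138) (nat_lit 5) (nat_lit 140) (nat_lit 4) (nat_lit 138) (nat_lit 4) (nat_lit 356) (nat_lit 272) (nat_lit 272)) (XT.lf (nat_lit 0) (nat_lit 149435010000) (nat_lit 76) (nat_lit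 34152753150) (nat_lit 76) (nat_lit 34151275268) (nat_lit 137) (nat_lit 4) (nat_lit 138) (nat_lit 5) (nat_lit 138) (nat_lit 4) (nat_lit 357) (nat_lit 272) (nat_lit 271))) (XT.nd (nat_lit 78) (nat_lit 228) (nat_lit 0) (XT.lf (nat_lit 0) (nat_lit 75751227515) (nat_lit 152) (nat_lit 82414244658) (nat_lit 0) (nat_lit 75748824908) (nat_lit 135) (nat_lit 5) (nat_lit 137) (nat_lit 4) (nat_lit 135) (nat_lit 4) (nat_lit 358) (nat_lit 272) (nat_lit 270)) (XT.nd (nat_lit 78) (nat_lit 152) (nat_lit 0) (XT.lf (nat_lit 0) (nat_lit 149567145929) (nat_lit 76) (nat_lit 51195099175) (nat_lit 76) (nat_lit 51191724837) (nat_lit 134) (nat_lit 4) (nat_lit 135) (nat_lit 5) (nat_lit 135) (nat_lit 4) (nat_lit 359) (nat_lit 272) (nat_lit 269)) (XT.lf (nat_lit 0) (nat_lit 69578823504) (nat_lit 152) (nat_lit 132477312383) (nat_lit 0) (nat_lit 69575154528) (nat_lit 132) (nat_lit 5) (nat_lit 134) (nat_lit 4) (nat_lit 132) (nat_lit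 4) (nat_lit 360) (nat_lit 272) (nat_lit 268))))) (XT.nd (nat_lit 156) (nat_lit 228) (nat_lit 0) (XT.nd (nat_lit 78) (nat_lit 152) (nat_lit 0) (XT.lf (nat_lit 0) (nat_lit 120254106092) (nat_lit 76) (nat_lit 86553592634) (nat_lit 76) (nat_lit 86549284729) (nat_lit 131) (nat_lit 4) (nat_lit 132) (nat_lit 5) (nat_lit 132) (nat_lit 4) (nat_lit 361) (nat_lit 272) (nat_lit 267)) (XT.lf (nat_lit 0) (nat_lit 45969161037) (nat_lit 152) (nat_lit 225548503537) (nat_lit 0) (nat_lit 45964931910) (nat_lit 129) (nat_lit 5) (nat_lit 131) (nat_lit 4) (nat_lit 129) (nat_lit 4) (nat_lit 362) (nat_lit 272) (nat_lit 266))) (XT.nd (nat_lit 78) (nat_lit 152) (nat_lit 0) (XT.lf (nat_lit 0) (nat_lit 47576202345) (nat_lit 76) (nat_lit 148058844255) (nat_lit 76) (nat_lit 148054195022) (nat_lit 128) (nat_lit 4) (nat_lit 129) (nat_lit 5) (nat_lit 129) (nat_lit 4) (nat_lit 363) (nat_lit 272) (nat_lit 265)) (XT.nd (nat_lit 78)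 (nat_lit 152) (nat_lit 0) (XT.lf (nat_lit 0) (nat_lit 367644042300) (nat_lit 76) (nat_lit 2885521711) (nat_lit 76) (nat_lit 2880507168) (nat_lit 128) (nat_lit 4) (nat_lit 129) (nat_lit 5) (nat_lit 129) (nat_lit 4) (nat_lit 364) (nat_lit 272) (nat_lit 264)) (XT.lf (nat_lit 0) (nat_lit 162441184538) (nat_lit 152) (nat_lit 79745449964) (nat_lit 0) (nat_lit 162436547839) (nat_lit 126) (nat_lit 5) (nat_lit 128) (nat_lit 4) (nat_lit 126) (nat_lit 4) (nat_lit 365) (nat_lit 272) (nat_lit 263))))))) (XT.nd (nat_lit 780) (nat_lit 532) (nat_lit 0) (XT.nd (nat_lit 390) (nat_lit 456) (nat_lit 0) (XT.nd (nat_lit 156) (nat_lit 228) (nat_lit 0) (XT.nd (nat_lit 78) (nat_lit 152) (nat_lit 0) (XT.lf (nat_lit 0) (nat_lit 271528072643) (nat_lit 76) (nat_lit 84225679824) (nat_lit 76) (nat_lit 84220802927) (nat_lit 125) (nat_lit 4) (nat_lit 126) (nat_lit 5) (nat_lit 126) (nat_lit 4) (nat_lit 366) (nat_lit 272) (nat_lit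 262)) (XT.lf (nat_lit 0) (nat_lit 97655542073) (nat_lit 152) (nat_lit 283382498464) (nat_lit 0) (nat_lit 97651119669) (nat_lit 123) (nat_lit 5) (nat_lit 125) (nat_lit 4) (nat_lit 123) (nat_lit 4) (nat_lit 367) (nat_lit 272) (nat_lit 261))) (XT.nd (nat_lit 78) (nat_lit 152) (nat_lit 0) (XT.lf (nat_lit 0) (nat_lit 92838945483) (nat_lit 76) (nat_lit 214222223967) (nat_lit 76) (nat_lit 214217643630) (nat_lit 122) (nat_lit 4) (nat_lit 123) (nat_lit 5) (nat_lit 123) (nat_lit 4) (nat_lit 368) (nat_lit 272) (nat_lit 260)) (XT.nd (nat_lit 78) (nat_lit 152) (nat_lit 0) (XT.lf (nat_lit 0) (nat_lit 540494829105) (nat_lit 76) (nat_lit 14360104290) (nat_lit 76) (nat_lit 14355386620) (nat_lit 122) (nat_lit 4) (nat_lit 123) (nat_lit 5) (nat_lit 123) (nat_lit 4) (nat_lit 369) (nat_lit 272) (nat_lit 259)) (XT.lf (nat_lit 0) (nat_lit 217538005447) (nat_lit 152) (nat_lit 184735944264) (nat_lit 0) (nat_lit 217533799281)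 (nat_lit 120) (nat_lit 5) (nat_lit 122) (nat_lit 4) (nat_lit 120) (nat_lit 4) (nat_lit 370) (nat_lit 272) (nat_lit 258))))) (XT.nd (nat_lit 156) (nat_lit 228) (nat_lit 0) (XT.nd (nat_lit 78) (nat_lit 152) (nat_lit 0) (XT.lf (nat_lit 0) (nat_lit 304178735290) (nat_lit 76) (nat_lit 186280399045) (nat_lit 76) (nat_lit 186276102580) (nat_lit 119) (nat_lit 4) (nat_lit 120) (nat_lit 5) (nat_lit 120) (nat_lit 4) (nat_lit 371) (nat_lit 272) (nat_lit 257)) (XT.lf (nat_lit 0) (nat_lit 68499077556) (nat_lit 152) (nat_lit 603034798817) (nat_lit 0) (nat_lit 68495273220) (nat_lit 117) (nat_lit 5) (nat_lit 119) (nat_lit 4) (nat_lit 117) (nat_lit 4) (nat_lit 372) (nat_lit 272) (nat_lit 256))) (XT.nd (nat_lit 78) (nat_lit 228) (nat_lit 0) (XT.lf (nat_lit 0) (nat_lit 364553535875) (nat_lit 152) (nat_lit 79063278648) (nat_lit 0) (nat_lit 364549672166) (nat_lit 117) (nat_lit 5) (nat_lit 119) (nat_lit 4) (nat_lit 117)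 (nat_lit 4) (nat_lit 373) (nat_lit 272) (nat_lit 255)) (XT.nd (nat_lit 78) (nat_lit 152) (nat_lit 0) (XT.lf (nat_lit 0) (nat_lit 560014920230) (nat_lit 76) (nat_lit 161983072496) (nat_lit 76) (nat_lit 161979157158) (nat_lit 116) (nat_lit 4) (nat_lit 117) (nat_lit 5) (nat_lit 117) (nat_lit 4) (nat_lit 374) (nat_lit 272) (nat_lit 254)) (XT.lf (nat_lit 0) (nat_lit 167449694753) (nat_lit 152) (nat_lit 632263365415) (nat_lit 0) (nat_lit 167446251073) (nat_lit 114) (nat_lit 5) (nat_lit 116) (nat_lit 4) (nat_lit 114) (nat_lit 4) (nat_lit 375) (nat_lit 272) (nat_lit 253)))))) (XT.nd (nat_lit 390) (nat_lit 228) (nat_lit 0) (XT.nd (nat_lit 156) (nat_lit 228) (nat_lit 0) (XT.nd (nat_lit 78) (nat_lit 0) (nat_lit 0) (XT.lf (nat_lit 0) (nat_lit 42959032042) (nat_lit 76) (nat_lit 507776180331) (nat_lit 76) (nat_lit 507772702704) (nat_lit 113) (nat_lit 4) (nat_lit 114) (nat_lit 5) (nat_lit 114) (nat_lit 4) (nat_lit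 376) (nat_lit 272) (nat_lit 252)) (XT.lf (nat_lit 0) (nat_lit 877783729176) (nat_lit 76) (nat_lit 140854912431) (nat_lit 76) (nat_lit 140851405286) (nat_lit 113) (nat_lit 4) (nat_lit 114) (nat_lit 5) (nat_lit 114) (nat_lit 4) (nat_lit 377) (nat_lit 272) (nat_lit 251))) (XT.nd (nat_lit 78) (nat_lit 76) (nat_lit 0) (XT.lf (nat_lit 0) (nat_lit 288286680033) (nat_lit 152) (nat_lit 692472480609) (nat_lit 0) (nat_lit 288283608020) (nat_lit 111) (nat_lit 5) (nat_lit 113) (nat_lit 4) (nat_lit 111) (nat_lit 4) (nat_lit 378) (nat_lit 272) (nat_lit 250)) (XT.nd (nat_lit 78) (nat_lit 0) (nat_lit 0) (XT.lf (nat_lit 0) (nat_lit 193977435583) (nat_lit 76) (nat_lit 598166327581) (nat_lit 76) (nat_lit 598163236159) (nat_lit 110) (nat_lit 4) (nat_lit 111) (nat_lit 5) (nat_lit 111) (nat_lit 4) (nat_lit 379) (nat_lit 272) (nat_lit 249)) (XT.lf (nat_lit 0) (nat_lit 1280142049673) (nat_lit 76) (nat_lit 122482570733)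 (nat_lit 76) (nat_lit 122479462433) (nat_lit 110) (nat_lit 4) (nat_lit 111) (nat_lit 5) (nat_lit 111) (nat_lit 4) (nat_lit 380) (nat_lit 272) (nat_lit 248))))) (XT.nd (nat_lit 44772) (nat_lit 0) (nat_lit 2356) (XT.nd (nat_lit 78) (nat_lit 76) (nat_lit 0) (XT.lf (nat_lit 0) (nat_lit 439376036499) (nat_lit 152) (nat_lit 790841950043) (nat_lit 0) (nat_lit 439373320868) (nat_lit 108) (nat_lit 5) (nat_lit 110) (nat_lit 4) (nat_lit 108) (nat_lit 4) (nat_lit 381) (nat_lit 272) (nat_lit 247)) (XT.lf (nat_lit 0) (nat_lit 375808320286) (nat_lit 76) (nat_lit 727276960558) (nat_lit 76) (nat_lit 727274233830) (nat_lit 107) (nat_lit 4) (nat_lit 108) (nat_lit 5) (nat_lit 108) (nat_lit 4) (nat_lit 382) (nat_lit 272) (nat_lit 246))) (XT.nd (nat_lit 78) (nat_lit 228) (nat_lit 0) (XT.lf (nat_lit 0) (nat_lit 30549563835) (nat_lit 152) (nat_lit 27051320883) (nat_lit 0) (nat_lit 30549563835) (nat_lit 141) (nat_lit 5)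 (nat_lit 143) (nat_lit 4) (nat_lit 141) (nat_lit 4) (nat_lit 354) (nat_lit 273) (nat_lit 273)) (XT.nd (nat_lit 78) (nat_lit 152) (nat_lit 0) (XT.lf (nat_lit 0) (nat_lit 129946830497) (nat_lit 76) (nat_lit 29696927196) (nat_lit 76) (nat_lit 29694972697) (nat_lit 140) (nat_lit 4) (nat_lit 141) (nat_lit 5) (nat_lit 141) (nat_lit 4) (nat_lit 355) (nat_lit 273) (nat_lit 272)) (XT.lf (nat_lit 0) (nat_lit 65872607279) (nat_lit 152) (nat_lit 71662072667) (nat_lit 0) (nat_lit 65869429831) (nat_lit 138) (nat_lit 5) (nat_lit 140) (nat_lit 4) (nat_lit 138) (nat_lit 4) (nat_lit 356) (nat_lit 273) (nat_lit 271))))))))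
noncomputable def xc5 : XT := (XT.nd (nat_lit 1560) (nat_lit 456) (nat_lit 0) (XT.nd (nat_lit 780) (nat_lit 836) (nat_lit 0) (XT.nd (nat_lit 390) (nat_lit 456) (nat_lit 0) (XT.nd (nat_lit 156) (nat_lit 304) (nat_lit 0) (XT.nd (nat_lit 78) (nat_lit 152) (nat_lit 0) (XT.lf (nat_lit 0) (nat_lit 130060965426) (nat_lit 76) (nat_lit 44517120999) (nat_lit 76) (nat_lit 44512658436) (nat_lit 137) (nat_lit 4) (nat_lit 138) (nat_lit 5) (nat_lit 138) (nat_lit 4) (nat_lit 357) (nat_lit 273) (nat_lit 270)) (XT.lf (nat_lit 0) (nat_lit 60505269030) (nat_lit 152) (nat_lit 115195726697) (nat_lit 0) (nat_lit 60500416809) (nat_lit 135) (nat_lit 5) (nat_lit 137) (nat_lit 4) (nat_lit 135) (nat_lit 4) (nat_lit 358) (nat_lit 273) (nat_lit 269))) (XT.nd (nat_lit 78) (nat_lit 228) (nat_lit 0) (XT.lf (nat_lit 0) (nat_lit 104570812526) (nat_lit 76) (nat_lit 75264088926) (nat_lit 76) (nat_lit 75258391720) (nat_lit 134) (nat_lit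 4) (nat_lit 135) (nat_lit 5) (nat_lit 135) (nat_lit 4) (nat_lit 359) (nat_lit 273) (nat_lit 268)) (XT.nd (nat_lit 78) (nat_lit 76) (nat_lit 0) (XT.lf (nat_lit 0) (nat_lit 39975023513) (nat_lit 152) (nat_lit 196127599174) (nat_lit 0) (nat_lit 39969430492) (nat_lit 132) (nat_lit 5) (nat_lit 134) (nat_lit 4) (nat_lit 132) (nat_lit 4) (nat_lit 360) (nat_lit 273) (nat_lit 267)) (XT.lf (nat_lit 0) (nat_lit 41372228707) (nat_lit 76) (nat_lit 128747170525) (nat_lit 76) (nat_lit 128741021914) (nat_lit 131) (nat_lit 4) (nat_lit 132) (nat_lit 5) (nat_lit 132) (nat_lit 4) (nat_lit 361) (nat_lit 273) (nat_lit 266))))) (XT.nd (nat_lit 156) (nat_lit 304) (nat_lit 0) (XT.nd (nat_lit 78) (nat_lit 152) (nat_lit 0) (XT.lf (nat_lit 0) (nat_lit 319692031877) (nat_lit 76) (nat_lit 2509606548) (nat_lit 76) (nat_lit 2502974814) (nat_lit 131) (nat_lit 4) (nat_lit 132) (nat_lit 5) (nat_lit 132) (nat_lit 4) (nat_lit 362)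 (nat_lit 273) (nat_lit 265)) (XT.lf (nat_lit 0) (nat_lit 141254941870) (nat_lit 152) (nat_lit 69342673250) (nat_lit 0) (nat_lit 141248809835) (nat_lit 129) (nat_lit 5) (nat_lit 131) (nat_lit 4) (nat_lit 129) (nat_lit 4) (nat_lit 363) (nat_lit 273) (nat_lit 264))) (XT.nd (nat_lit 78) (nat_lit 228) (nat_lit 0) (XT.lf (nat_lit 0) (nat_lit 236112642795) (nat_lit 76) (nat_lit 73240271575) (nat_lit 76) (nat_lit 73233821879) (nat_lit 128) (nat_lit 4) (nat_lit 129) (nat_lit 5) (nat_lit 129) (nat_lit 4) (nat_lit 364) (nat_lit 273) (nat_lit 263)) (XT.nd (nat_lit 78) (nat_lit 76) (nat_lit 0) (XT.lf (nat_lit 0) (nat_lit 84919430058) (nat_lit 152) (nat_lit 246418579783) (nat_lit 0) (nat_lit 84913581430) (nat_lit 126) (nat_lit 5) (nat_lit 128) (nat_lit 4) (nat_lit 126) (nat_lit 4) (nat_lit 365) (nat_lit 273) (nat_lit 262)) (XT.lf (nat_lit 0) (nat_lit 80730573154) (nat_lit 76) (nat_lit 186280773206) (nat_lit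 76) (nat_lit 186274715710) (nat_lit 125) (nat_lit 4) (nat_lit 126) (nat_lit 5) (nat_lit 126) (nat_lit 4) (nat_lit 366) (nat_lit 273) (nat_lit 261)))))) (XT.nd (nat_lit 390) (nat_lit 456) (nat_lit 0) (XT.nd (nat_lit 156) (nat_lit 228) (nat_lit 0) (XT.nd (nat_lit 78) (nat_lit 152) (nat_lit 0) (XT.lf (nat_lit 0) (nat_lit 469996537236) (nat_lit 76) (nat_lit 12487666187) (nat_lit 76) (nat_lit 12481427068) (nat_lit 125) (nat_lit 4) (nat_lit 126) (nat_lit 5) (nat_lit 126) (nat_lit 4) (nat_lit 367) (nat_lit 273) (nat_lit 260)) (XT.lf (nat_lit 0) (nat_lit 189164897792) (nat_lit 152) (nat_lit 160639147647) (nat_lit 0) (nat_lit 189159335137) (nat_lit 123) (nat_lit 5) (nat_lit 125) (nat_lit 4) (nat_lit 123) (nat_lit 4) (nat_lit 368) (nat_lit 273) (nat_lit 259))) (XT.nd (nat_lit 78) (nat_lit 152) (nat_lit 0) (XT.lf (nat_lit 0) (nat_lit 264504116274) (nat_lit 76) (nat_lit 161983551224) (nat_lit 76) (nat_lit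 161977869149) (nat_lit 122) (nat_lit 4) (nat_lit 123) (nat_lit 5) (nat_lit 123) (nat_lit 4) (nat_lit 369) (nat_lit 273) (nat_lit 258)) (XT.nd (nat_lit 78) (nat_lit 0) (nat_lit 0) (XT.lf (nat_lit 0) (nat_lit 59565666630) (nat_lit 152) (nat_lit 524377408003) (nat_lit 0) (nat_lit 59560635396) (nat_lit 120) (nat_lit 5) (nat_lit 122) (nat_lit 4) (nat_lit 120) (nat_lit 4) (nat_lit 370) (nat_lit 273) (nat_lit 257)) (XT.lf (nat_lit 0) (nat_lit 317004334575) (nat_lit 152) (nat_lit 68750007698) (nat_lit 0) (nat_lit 316999224821) (nat_lit 120) (nat_lit 5) (nat_lit 122) (nat_lit 4) (nat_lit 120) (nat_lit 4) (nat_lit 371) (nat_lit 273) (nat_lit 256))))) (XT.nd (nat_lit 156) (nat_lit 228) (nat_lit 0) (XT.nd (nat_lit 78) (nat_lit 152) (nat_lit 0) (XT.lf (nat_lit 0) (nat_lit 486970222507) (nat_lit 76) (nat_lit 140855416407) (nat_lit 76) (nat_lit 140850238374) (nat_lit 119) (nat_lit 4) (nat_lit 120) (nat_lit 5)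 (nat_lit 120) (nat_lit 4) (nat_lit 372) (nat_lit 273) (nat_lit 255)) (XT.lf (nat_lit 0) (nat_lit 145609537855) (nat_lit 152) (nat_lit 549793660788) (nat_lit 0) (nat_lit 145604983588) (nat_lit 117) (nat_lit 5) (nat_lit 119) (nat_lit 4) (nat_lit 117) (nat_lit 4) (nat_lit 373) (nat_lit 273) (nat_lit 254))) (XT.nd (nat_lit 78) (nat_lit 152) (nat_lit 0) (XT.lf (nat_lit 0) (nat_lit 37356300391) (nat_lit 76) (nat_lit 441545022485) (nat_lit 76) (nat_lit 441540423324) (nat_lit 116) (nat_lit 4) (nat_lit 117) (nat_lit 5) (nat_lit 117) (nat_lit 4) (nat_lit 374) (nat_lit 273) (nat_lit 253)) (XT.nd (nat_lit 78) (nat_lit 152) (nat_lit 0) (XT.lf (nat_lit 0) (nat_lit 763290814979) (nat_lit 76) (nat_lit 122483059110) (nat_lit 76) (nat_lit 122478420910) (nat_lit 116) (nat_lit 4) (nat_lit 117) (nat_lit 5) (nat_lit 117) (nat_lit 4) (nat_lit 375) (nat_lit 273) (nat_lit 252)) (XT.lf (nat_lit 0) (nat_lit 250685043900)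 (nat_lit 152) (nat_lit 602149498624) (nat_lit 0) (nat_lit 250680981163) (nat_lit 114) (nat_lit 5) (nat_lit 116) (nat_lit 4) (nat_lit 114) (nat_lit 4) (nat_lit 376) (nat_lit 273) (nat_lit 251))))))) (XT.nd (nat_lit 45240) (nat_lit 0) (nat_lit 1520) (XT.nd (nat_lit 390) (nat_lit 152) (nat_lit 0) (XT.nd (nat_lit 156) (nat_lit 228) (nat_lit 0) (XT.nd (nat_lit 78) (nat_lit 0) (nat_lit 0) (XT.lf (nat_lit 0) (nat_lit 168676559742) (nat_lit 76) (nat_lit 520145102872) (nat_lit 76) (nat_lit 520141014467) (nat_lit 113) (nat_lit 4) (nat_lit 114) (nat_lit 5) (nat_lit 114) (nat_lit 4) (nat_lit 377) (nat_lit 273) (nat_lit 250)) (XT.lf (nat_lit 0) (nat_lit 1113167525852) (nat_lit 76) (nat_lit 106507058419) (nat_lit 76) (nat_lit 106502947693) (nat_lit 113) (nat_lit 4) (nat_lit 114) (nat_lit 5) (nat_lit 114) (nat_lit 4) (nat_lit 378) (nat_lit 273) (nat_lit 249))) (XT.nd (nat_lit 78) (nat_lit 76) (nat_lit 0) (XT.lf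 (nat_lit 0) (nat_lit 382066972289) (nat_lit 152) (nat_lit 687688237267) (nat_lit 0) (nat_lit 382063380867) (nat_lit 111) (nat_lit 5) (nat_lit 113) (nat_lit 4) (nat_lit 111) (nat_lit 4) (nat_lit 379) (nat_lit 273) (nat_lit 248)) (XT.nd (nat_lit 78) (nat_lit 0) (nat_lit 0) (XT.lf (nat_lit 0) (nat_lit 326790297471) (nat_lit 76) (nat_lit 632415168546) (nat_lit 76) (nat_lit 632411562449) (nat_lit 110) (nat_lit 4) (nat_lit 111) (nat_lit 5) (nat_lit 111) (nat_lit 4) (nat_lit 380) (nat_lit 273) (nat_lit 247)) (XT.lf (nat_lit 0) (nat_lit 1562351397602) (nat_lit 76) (nat_lit 92614862280) (nat_lit 76) (nat_lit 92611243421) (nat_lit 110) (nat_lit 4) (nat_lit 111) (nat_lit 5) (nat_lit 111) (nat_lit 4) (nat_lit 381) (nat_lit 273) (nat_lit 246))))) (XT.nd (nat_lit 44616) (nat_lit 0) (nat_lit 2432) (XT.nd (nat_lit 44538) (nat_lit 0) (nat_lit 2736) (XT.lf (nat_lit 0) (nat_lit 549227906216) (nat_lit 152) (nat_lit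 814985527936) (nat_lit 0) (nat_lit 549224749732) (nat_lit 108) (nat_lit 5) (nat_lit 110) (nat_lit 4) (nat_lit 108) (nat_lit 4) (nat_lit 382) (nat_lit 273) (nat_lit 245)) (XT.lf (nat_lit 0) (nat_lit 26566077014) (nat_lit 152) (nat_lit 23520733121) (nat_lit 0) (nat_lit 26566077014) (nat_lit 144) (nat_lit 5) (nat_lit 146) (nat_lit 4) (nat_lit 144) (nat_lit 4) (nat_lit 352) (nat_lit 274) (nat_lit 274))) (XT.nd (nat_lit 78) (nat_lit 228) (nat_lit 0) (XT.lf (nat_lit 0) (nat_lit 113001665744) (nat_lit 76) (nat_lit 25821935047) (nat_lit 76) (nat_lit 25819350222) (nat_lit 143) (nat_lit 4) (nat_lit 144) (nat_lit 5) (nat_lit 144) (nat_lit 4) (nat_lit 353) (nat_lit 274) (nat_lit 273)) (XT.nd (nat_lit 78) (nat_lit 76) (nat_lit 0) (XT.lf (nat_lit 0) (nat_lit 57283139553) (nat_lit 152) (nat_lit 62311555543) (nat_lit 0) (nat_lit 57278937379) (nat_lit 141) (nat_lit 5) (nat_lit 143) (nat_lit 4) (nat_lit 141) (nat_lit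 4) (nat_lit 354) (nat_lit 274) (nat_lit 272)) (XT.lf (nat_lit 0) (nat_lit 113099900633) (nat_lit 76) (nat_lit 38710068468) (nat_lit 76) (nat_lit 38704166729) (nat_lit 140) (nat_lit 4) (nat_lit 141) (nat_lit 5) (nat_lit 141) (nat_lit 4) (nat_lit 355) (nat_lit 274) (nat_lit 271)))))) (XT.nd (nat_lit 390) (nat_lit 456) (nat_lit 0) (XT.nd (nat_lit 156) (nat_lit 228) (nat_lit 0) (XT.nd (nat_lit 78) (nat_lit 76) (nat_lit 0) (XT.lf (nat_lit 0) (nat_lit 52615848680) (nat_lit 152) (nat_lit 100167636443) (nat_lit 0) (nat_lit 52609431618) (nat_lit 138) (nat_lit 5) (nat_lit 140) (nat_lit 4) (nat_lit 138) (nat_lit 4) (nat_lit 356) (nat_lit 274) (nat_lit 270)) (XT.lf (nat_lit 0) (nat_lit 90933818886) (nat_lit 76) (nat_lit 65447159923) (nat_lit 76) (nat_lit 65439625369) (nat_lit 137) (nat_lit 4) (nat_lit 138) (nat_lit 5) (nat_lit 138) (nat_lit 4) (nat_lit 357) (nat_lit 274) (nat_lit 269))) (XT.nd (nat_lit 78)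 (nat_lit 76) (nat_lit 0) (XT.lf (nat_lit 0) (nat_lit 34763323415) (nat_lit 152) (nat_lit 170543709253) (nat_lit 0) (nat_lit 34755926645) (nat_lit 135) (nat_lit 5) (nat_lit 137) (nat_lit 4) (nat_lit 135) (nat_lit 4) (nat_lit 358) (nat_lit 274) (nat_lit 268)) (XT.nd (nat_lit 78) (nat_lit 0) (nat_lit 0) (XT.lf (nat_lit 0) (nat_lit 35977990818) (nat_lit 76) (nat_lit 111954523452) (nat_lit 76) (nat_lit 111946391913) (nat_lit 134) (nat_lit 4) (nat_lit 135) (nat_lit 5) (nat_lit 135) (nat_lit 4) (nat_lit 359) (nat_lit 274) (nat_lit 267)) (XT.lf (nat_lit 0) (nat_lit 277995134709) (nat_lit 76) (nat_lit 2182871256) (nat_lit 76) (nat_lit 2174100788) (nat_lit 134) (nat_lit 4) (nat_lit 135) (nat_lit 5) (nat_lit 135) (nat_lit 4) (nat_lit 360) (nat_lit 274) (nat_lit 266))))) (XT.nd (nat_lit 156) (nat_lit 228) (nat_lit 0) (XT.nd (nat_lit 78) (nat_lit 76) (nat_lit 0) (XT.lf (nat_lit 0) (nat_lit 122832682640) (nat_lit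 152) (nat_lit 60296394655) (nat_lit 0) (nat_lit 122824573023) (nat_lit 132) (nat_lit 5) (nat_lit 134) (nat_lit 4) (nat_lit 132) (nat_lit 4) (nat_lit 361) (nat_lit 274) (nat_lit 265)) (XT.lf (nat_lit 0) (nat_lit 205317028119) (nat_lit 76) (nat_lit 63687920034) (nat_lit 76) (nat_lit 63679390311) (nat_lit 131) (nat_lit 4) (nat_lit 132) (nat_lit 5) (nat_lit 132) (nat_lit 4) (nat_lit 362) (nat_lit 274) (nat_lit 264))) (XT.nd (nat_lit 78) (nat_lit 76) (nat_lit 0) (XT.lf (nat_lit 0) (nat_lit 73845055528) (nat_lit 152) (nat_lit 214275724429) (nat_lit 0) (nat_lit 73837320717) (nat_lit 129) (nat_lit 5) (nat_lit 131) (nat_lit 4) (nat_lit 129) (nat_lit 4) (nat_lit 363) (nat_lit 274) (nat_lit 263)) (XT.nd (nat_lit 78) (nat_lit 0) (nat_lit 0) (XT.lf (nat_lit 0) (nat_lit 70201894086) (nat_lit 76) (nat_lit 161984046052) (nat_lit 76) (nat_lit 161976035014) (nat_lit 128) (nat_lit 4) (nat_lit 129) (nat_lit 5) (nat_lit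 129) (nat_lit 4) (nat_lit 364) (nat_lit 274) (nat_lit 262)) (XT.lf (nat_lit 0) (nat_lit 408694008098) (nat_lit 76) (nat_lit 10859658762) (nat_lit 76) (nat_lit 10851407527) (nat_lit 128) (nat_lit 4) (nat_lit 129) (nat_lit 5) (nat_lit 129) (nat_lit 4) (nat_lit 365) (nat_lit 274) (nat_lit 261))))))))
noncomputable def xc6 : XT := (XT.nd (nat_lit 45864) (nat_lit 0) (nat_lit 760) (XT.nd (nat_lit 780) (nat_lit 456) (nat_lit 0) (XT.nd (nat_lit 390) (nat_lit 456) (nat_lit 0) (XT.nd (nat_lit 156) (nat_lit 228) (nat_lit 0) (XT.nd (nat_lit 78) (nat_lit 76) (nat_lit 0) (XT.lf (nat_lit 0) (nat_lit 164493086537) (nat_lit 152) (nat_lit 139685152204) (nat_lit 0) (nat_lit 164485729927) (nat_lit 126) (nat_lit 5) (nat_lit 128) (nat_lit 4) (nat_lit 126) (nat_lit 4) (nat_lit 366) (nat_lit 274) (nat_lit 260)) (XT.lf (nat_lit 0) (nat_lit 230004727559) (nat_lit 76) (nat_lit 140856049526) (nat_lit 76) (nat_lit 140848534981)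 (nat_lit 125) (nat_lit 4) (nat_lit 126) (nat_lit 5) (nat_lit 126) (nat_lit 4) (nat_lit 367) (nat_lit 274) (nat_lit 259))) (XT.nd (nat_lit 78) (nat_lit 76) (nat_lit 0) (XT.lf (nat_lit 0) (nat_lit 51797886782) (nat_lit 152) (nat_lit 455979458230) (nat_lit 0) (nat_lit 51791232975) (nat_lit 123) (nat_lit 5) (nat_lit 125) (nat_lit 4) (nat_lit 123) (nat_lit 4) (nat_lit 368) (nat_lit 274) (nat_lit 258)) (XT.nd (nat_lit 78) (nat_lit 76) (nat_lit 0) (XT.lf (nat_lit 0) (nat_lit 275657609329) (nat_lit 152) (nat_lit 59781730125) (nat_lit 0) (nat_lit 275650851678) (nat_lit 123) (nat_lit 5) (nat_lit 125) (nat_lit 4) (nat_lit 123) (nat_lit 4) (nat_lit 369) (nat_lit 274) (nat_lit 257)) (XT.lf (nat_lit 0) (nat_lit 423453328399) (nat_lit 76) (nat_lit 122483725618) (nat_lit 76) (nat_lit 122476877668) (nat_lit 122) (nat_lit 4) (nat_lit 123) (nat_lit 5) (nat_lit 123) (nat_lit 4) (nat_lit 370) (nat_lit 274) (nat_lit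 256))))) (XT.nd (nat_lit 156) (nat_lit 228) (nat_lit 0) (XT.nd (nat_lit 78) (nat_lit 76) (nat_lit 0) (XT.lf (nat_lit 0) (nat_lit 126618454287) (nat_lit 152) (nat_lit 478080690329) (nat_lit 0) (nat_lit 126612431269) (nat_lit 120) (nat_lit 5) (nat_lit 122) (nat_lit 4) (nat_lit 120) (nat_lit 4) (nat_lit 371) (nat_lit 274) (nat_lit 255)) (XT.lf (nat_lit 0) (nat_lit 32484559889) (nat_lit 76) (nat_lit 383952878322) (nat_lit 76) (nat_lit 383946795931) (nat_lit 119) (nat_lit 4) (nat_lit 120) (nat_lit 5) (nat_lit 120) (nat_lit 4) (nat_lit 372) (nat_lit 274) (nat_lit 254))) (XT.nd (nat_lit 78) (nat_lit 228) (nat_lit 0) (XT.lf (nat_lit 0) (nat_lit 663731957716) (nat_lit 76) (nat_lit 106507704298) (nat_lit 76) (nat_lit 106501570278) (nat_lit 119) (nat_lit 4) (nat_lit 120) (nat_lit 5) (nat_lit 120) (nat_lit 4) (nat_lit 373) (nat_lit 274) (nat_lit 253)) (XT.nd (nat_lit 78) (nat_lit 76) (nat_lit 0) (XT.lf (nat_lit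 0) (nat_lit 217988283215) (nat_lit 152) (nat_lit 523607618904) (nat_lit 0) (nat_lit 217982910246) (nat_lit 117) (nat_lit 5) (nat_lit 119) (nat_lit 4) (nat_lit 117) (nat_lit 4) (nat_lit 374) (nat_lit 274) (nat_lit 252)) (XT.lf (nat_lit 0) (nat_lit 146675968679) (nat_lit 76) (nat_lit 452300711284) (nat_lit 76) (nat_lit 452295304368) (nat_lit 116) (nat_lit 4) (nat_lit 117) (nat_lit 5) (nat_lit 117) (nat_lit 4) (nat_lit 375) (nat_lit 274) (nat_lit 251)))))) (XT.nd (nat_lit 390) (nat_lit 76) (nat_lit 0) (XT.nd (nat_lit 156) (nat_lit 228) (nat_lit 0) (XT.nd (nat_lit 78) (nat_lit 152) (nat_lit 0) (XT.lf (nat_lit 0) (nat_lit 967972457426) (nat_lit 76) (nat_lit 92615461825) (nat_lit 76) (nat_lit 92610025390) (nat_lit 116) (nat_lit 4) (nat_lit 117) (nat_lit 5) (nat_lit 117) (nat_lit 4) (nat_lit 376) (nat_lit 274) (nat_lit 250)) (XT.lf (nat_lit 0) (nat_lit 332233278695) (nat_lit 152) (nat_lit 597989222773)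 (nat_lit 0) (nat_lit 332228529040) (nat_lit 114) (nat_lit 5) (nat_lit 116) (nat_lit 4) (nat_lit 114) (nat_lit 4) (nat_lit 377) (nat_lit 274) (nat_lit 249))) (XT.nd (nat_lit 78) (nat_lit 152) (nat_lit 0) (XT.lf (nat_lit 0) (nat_lit 284166076138) (nat_lit 76) (nat_lit 549926789279) (nat_lit 76) (nat_lit 549922020215) (nat_lit 113) (nat_lit 4) (nat_lit 114) (nat_lit 5) (nat_lit 114) (nat_lit 4) (nat_lit 378) (nat_lit 274) (nat_lit 248)) (XT.nd (nat_lit 78) (nat_lit 152) (nat_lit 0) (XT.lf (nat_lit 0) (nat_lit 1358567030759) (nat_lit 76) (nat_lit 80535222379) (nat_lit 76) (nat_lit 80530436437) (nat_lit 113) (nat_lit 4) (nat_lit 114) (nat_lit 5) (nat_lit 114) (nat_lit 4) (nat_lit 379) (nat_lit 274) (nat_lit 247)) (XT.lf (nat_lit 0) (nat_lit 477590470118) (nat_lit 152) (nat_lit 708682595403) (nat_lit 0) (nat_lit 477586295668) (nat_lit 111) (nat_lit 5) (nat_lit 113) (nat_lit 4) (nat_lit 111) (nat_lit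 4) (nat_lit 380) (nat_lit 274) (nat_lit 246))))) (XT.nd (nat_lit 44460) (nat_lit 0) (nat_lit 2584) (XT.nd (nat_lit 78) (nat_lit 0) (nat_lit 0) (XT.lf (nat_lit 0) (nat_lit 454233225116) (nat_lit 76) (nat_lit 685329535948) (nat_lit 76) (nat_lit 685325350400) (nat_lit 110) (nat_lit 4) (nat_lit 111) (nat_lit 5) (nat_lit 111) (nat_lit 4) (nat_lit 381) (nat_lit 274) (nat_lit 245)) (XT.lf (nat_lit 0) (nat_lit 1864899222916) (nat_lit 76) (nat_lit 70030649987) (nat_lit 76) (nat_lit 70026454790) (nat_lit 110) (nat_lit 4) (nat_lit 111) (nat_lit 5) (nat_lit 111) (nat_lit 4) (nat_lit 382) (nat_lit 274) (nat_lit 244))) (XT.nd (nat_lit 78) (nat_lit 228) (nat_lit 0) (XT.lf (nat_lit 0) (nat_lit 23102574975) (nat_lit 152) (nat_lit 20449961947) (nat_lit 0) (nat_lit 23102574975) (nat_lit 147) (nat_lit 5) (nat_lit 149) (nat_lit 4) (nat_lit 147) (nat_lit 4) (nat_lit 350) (nat_lit 275) (nat_lit 275)) (XT.nd (nat_lit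 78) (nat_lit 152) (nat_lit 0) (XT.lf (nat_lit 0) (nat_lit 98268165913) (nat_lit 76) (nat_lit 22451899388) (nat_lit 76) (nat_lit 22448480956) (nat_lit 146) (nat_lit 4) (nat_lit 147) (nat_lit 5) (nat_lit 147) (nat_lit 4) (nat_lit 351) (nat_lit 275) (nat_lit 274)) (XT.lf (nat_lit 0) (nat_lit 49814879387) (nat_lit 152) (nat_lit 54179609980) (nat_lit 0) (nat_lit 49809322011) (nat_lit 144) (nat_lit 5) (nat_lit 146) (nat_lit 4) (nat_lit 144) (nat_lit 4) (nat_lit 352) (nat_lit 275) (nat_lit 273))))))) (XT.nd (nat_lit 780) (nat_lit 836) (nat_lit 0) (XT.nd (nat_lit 390) (nat_lit 456) (nat_lit 0) (XT.nd (nat_lit 156) (nat_lit 304) (nat_lit 0) (XT.nd (nat_lit 78) (nat_lit 152) (nat_lit 0) (XT.lf (nat_lit 0) (nat_lit 98352248028) (nat_lit 76) (nat_lit 33660305503) (nat_lit 76) (nat_lit 33652500453) (nat_lit 143) (nat_lit 4) (nat_lit 144) (nat_lit 5) (nat_lit 144) (nat_lit 4) (nat_lit 353) (nat_lit 275) (nat_lit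 272)) (XT.lf (nat_lit 0) (nat_lit 45756312391) (nat_lit 152) (nat_lit 87098906055) (nat_lit 0) (nat_lit 45747825827) (nat_lit 141) (nat_lit 5) (nat_lit 143) (nat_lit 4) (nat_lit 141) (nat_lit 4) (nat_lit 354) (nat_lit 275) (nat_lit 271))) (XT.nd (nat_lit 78) (nat_lit 228) (nat_lit 0) (XT.lf (nat_lit 0) (nat_lit 79076427060) (nat_lit 76) (nat_lit 56910740580) (nat_lit 76) (nat_lit 56900776133) (nat_lit 140) (nat_lit 4) (nat_lit 141) (nat_lit 5) (nat_lit 141) (nat_lit 4) (nat_lit 355) (nat_lit 275) (nat_lit 270)) (XT.nd (nat_lit 78) (nat_lit 76) (nat_lit 0) (XT.lf (nat_lit 0) (nat_lit 30232195058) (nat_lit 152) (nat_lit 148296194048) (nat_lit 0) (nat_lit 30222412830) (nat_lit 138) (nat_lit 5) (nat_lit 140) (nat_lit 4) (nat_lit 138) (nat_lit 4) (nat_lit 356) (nat_lit 275) (nat_lit 269)) (XT.lf (nat_lit 0) (nat_lit 31288039251) (nat_lit 76) (nat_lit 97352370685) (nat_lit 76) (nat_lit 97341616725) (nat_lit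 137) (nat_lit 4) (nat_lit 138) (nat_lit 5) (nat_lit 138) (nat_lit 4) (nat_lit 357) (nat_lit 275) (nat_lit 268))))) (XT.nd (nat_lit 156) (nat_lit 304) (nat_lit 0) (XT.nd (nat_lit 78) (nat_lit 152) (nat_lit 0) (XT.lf (nat_lit 0) (nat_lit 241737628742) (nat_lit 76) (nat_lit 1898948624) (nat_lit 76) (nat_lit 1887349680) (nat_lit 137) (nat_lit 4) (nat_lit 138) (nat_lit 5) (nat_lit 138) (nat_lit 4) (nat_lit 358) (nat_lit 275) (nat_lit 267)) (XT.lf (nat_lit 0) (nat_lit 106814068022) (nat_lit 152) (nat_lit 52429555219) (nat_lit 0) (nat_lit 106803343055) (nat_lit 135) (nat_lit 5) (nat_lit 137) (nat_lit 4) (nat_lit 135) (nat_lit 4) (nat_lit 359) (nat_lit 275) (nat_lit 266))) (XT.nd (nat_lit 78) (nat_lit 228) (nat_lit 0) (XT.lf (nat_lit 0) (nat_lit 178538776662) (nat_lit 76) (nat_lit 55381761963) (nat_lit 76) (nat_lit 55370481404) (nat_lit 134) (nat_lit 4) (nat_lit 135) (nat_lit 5) (nat_lit 135) (nat_lit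 4) (nat_lit 360) (nat_lit 275) (nat_lit 265)) (XT.nd (nat_lit 78) (nat_lit 76) (nat_lit 0) (XT.lf (nat_lit 0) (nat_lit 64215833132) (nat_lit 152) (nat_lit 186324995701) (nat_lit 0) (nat_lit 64205603845) (nat_lit 132) (nat_lit 5) (nat_lit 134) (nat_lit 4) (nat_lit 132) (nat_lit 4) (nat_lit 361) (nat_lit 275) (nat_lit 264)) (XT.lf (nat_lit 0) (nat_lit 61046971093) (nat_lit 76) (nat_lit 140856703935) (nat_lit 76) (nat_lit 140846109338) (nat_lit 131) (nat_lit 4) (nat_lit 132) (nat_lit 5) (nat_lit 132) (nat_lit 4) (nat_lit 362) (nat_lit 275) (nat_lit 263)))))) (XT.nd (nat_lit 390) (nat_lit 456) (nat_lit 0) (XT.nd (nat_lit 156) (nat_lit 228) (nat_lit 0) (XT.nd (nat_lit 78) (nat_lit 152) (nat_lit 0) (XT.lf (nat_lit 0) (nat_lit 355387901887) (nat_lit 76) (nat_lit 9444264129) (nat_lit 76) (nat_lit 9433351871) (nat_lit 131) (nat_lit 4) (nat_lit 132) (nat_lit 5) (nat_lit 132) (nat_lit 4) (nat_lit 363) (nat_lit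 275) (nat_lit 262)) (XT.lf (nat_lit 0) (nat_lit 143039941039) (nat_lit 152) (nat_lit 121463943738) (nat_lit 0) (nat_lit 143030211921) (nat_lit 129) (nat_lit 5) (nat_lit 131) (nat_lit 4) (nat_lit 129) (nat_lit 4) (nat_lit 364) (nat_lit 275) (nat_lit 261))) (XT.nd (nat_lit 78) (nat_lit 152) (nat_lit 0) (XT.lf (nat_lit 0) (nat_lit 200005629401) (nat_lit 76) (nat_lit 122484562917) (nat_lit 76) (nat_lit 122474624932) (nat_lit 128) (nat_lit 4) (nat_lit 129) (nat_lit 5) (nat_lit 129) (nat_lit 4) (nat_lit 365) (nat_lit 275) (nat_lit 260)) (XT.nd (nat_lit 78) (nat_lit 0) (nat_lit 0) (XT.lf (nat_lit 0) (nat_lit 45043829324) (nat_lit 152) (nat_lit 396502691028) (nat_lit 0) (nat_lit 45035029665) (nat_lit 126) (nat_lit 5) (nat_lit 128) (nat_lit 4) (nat_lit 126) (nat_lit 4) (nat_lit 366) (nat_lit 275) (nat_lit 259)) (XT.lf (nat_lit 0) (nat_lit 239704472558) (nat_lit 152) (nat_lit 51982942390) (nat_lit 0) (nat_lit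 239695535565) (nat_lit 126) (nat_lit 5) (nat_lit 128) (nat_lit 4) (nat_lit 126) (nat_lit 4) (nat_lit 367) (nat_lit 275) (nat_lit 258))))) (XT.nd (nat_lit 156) (nat_lit 228) (nat_lit 0) (XT.nd (nat_lit 78) (nat_lit 152) (nat_lit 0) (XT.lf (nat_lit 0) (nat_lit 368221556490) (nat_lit 76) (nat_lit 106508585755) (nat_lit 76) (nat_lit 106499529341) (nat_lit 125) (nat_lit 4) (nat_lit 126) (nat_lit 5) (nat_lit 126) (nat_lit 4) (nat_lit 368) (nat_lit 275) (nat_lit 257)) (XT.lf (nat_lit 0) (nat_lit 110104940989) (nat_lit 152) (nat_lit 415721342471) (nat_lit 0) (nat_lit 110096975548) (nat_lit 123) (nat_lit 5) (nat_lit 125) (nat_lit 4) (nat_lit 123) (nat_lit 4) (nat_lit 369) (nat_lit 275) (nat_lit 256))) (XT.nd (nat_lit 78) (nat_lit 152) (nat_lit 0) (XT.lf (nat_lit 0) (nat_lit 28248528385) (nat_lit 76) (nat_lit 333872973828) (nat_lit 76) (nat_lit 333864929866) (nat_lit 122) (nat_lit 4) (nat_lit 123) (nat_lit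 5) (nat_lit 123) (nat_lit 4) (nat_lit 370) (nat_lit 275) (nat_lit 255)) (XT.nd (nat_lit 78) (nat_lit 152) (nat_lit 0) (XT.lf (nat_lit 0) (nat_lit 577159300955) (nat_lit 76) (nat_lit 92616316000) (nat_lit 76) (nat_lit 92608203758) (nat_lit 122) (nat_lit 4) (nat_lit 123) (nat_lit 5) (nat_lit 123) (nat_lit 4) (nat_lit 371) (nat_lit 275) (nat_lit 254)) (XT.lf (nat_lit 0) (nat_lit 189556732950) (nat_lit 152) (nat_lit 455310125542) (nat_lit 0) (nat_lit 189549627198) (nat_lit 120) (nat_lit 5) (nat_lit 122) (nat_lit 4) (nat_lit 120) (nat_lit 4) (nat_lit 372) (nat_lit 275) (nat_lit 253))))))))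
noncomputable def xc7 : XT := (XT.nd (nat_lit 45708) (nat_lit 0) (nat_lit 456) (XT.nd (nat_lit 44928) (nat_lit 0) (nat_lit 2128) (XT.nd (nat_lit 390) (nat_lit 456) (nat_lit 0) (XT.nd (nat_lit 156) (nat_lit 228) (nat_lit 0) (XT.nd (nat_lit 78) (nat_lit 0) (nat_lit 0) (XT.lf (nat_lit 0) (nat_lit 127545245466) (nat_lit 76) (nat_lit 393305788704) (nat_lit 76) (nat_lit 393298638058) (nat_lit 119) (nat_lit 4) (nat_lit 120) (nat_lit 5) (nat_lit 120) (nat_lit 4) (nat_lit 373) (nat_lit 275) (nat_lit 252)) (XT.lf (nat_lit 0) (nat_lit 841716100586) (nat_lit 76) (nat_lit 80536015277) (nat_lit 76) (nat_lit 80528825592) (nat_lit 119) (nat_lit 4) (nat_lit 120) (nat_lit 5) (nat_lit 120) (nat_lit 4) (nat_lit 374) (nat_lit 275) (nat_lit 251))) (XT.nd (nat_lit 78) (nat_lit 76) (nat_lit 0) (XT.lf (nat_lit 0) (nat_lit 288899996156) (nat_lit 152) (nat_lit 519989902758) (nat_lit 0) (nat_lit 288893714737) (nat_lit 117)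 (nat_lit 5) (nat_lit 119) (nat_lit 4) (nat_lit 117) (nat_lit 4) (nat_lit 375) (nat_lit 275) (nat_lit 250)) (XT.nd (nat_lit 78) (nat_lit 0) (nat_lit 0) (XT.lf (nat_lit 0) (nat_lit 247101729373) (nat_lit 76) (nat_lit 478197943062) (nat_lit 76) (nat_lit 478191635975) (nat_lit 116) (nat_lit 4) (nat_lit 117) (nat_lit 5) (nat_lit 117) (nat_lit 4) (nat_lit 376) (nat_lit 275) (nat_lit 249)) (XT.lf (nat_lit 0) (nat_lit 1181363426380) (nat_lit 76) (nat_lit 70031368130) (nat_lit 76) (nat_lit 70025038722) (nat_lit 116) (nat_lit 4) (nat_lit 117) (nat_lit 5) (nat_lit 117) (nat_lit 4) (nat_lit 377) (nat_lit 275) (nat_lit 248))))) (XT.nd (nat_lit 156) (nat_lit 228) (nat_lit 0) (XT.nd (nat_lit 78) (nat_lit 76) (nat_lit 0) (XT.lf (nat_lit 0) (nat_lit 415297365555) (nat_lit 152) (nat_lit 616245110427) (nat_lit 0) (nat_lit 415291844845) (nat_lit 114) (nat_lit 5) (nat_lit 116) (nat_lit 4) (nat_lit 114) (nat_lit 4)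 (nat_lit 378) (nat_lit 275) (nat_lit 247)) (XT.lf (nat_lit 0) (nat_lit 394986097149) (nat_lit 76) (nat_lit 595939377408) (nat_lit 76) (nat_lit 595933842021) (nat_lit 113) (nat_lit 4) (nat_lit 114) (nat_lit 5) (nat_lit 114) (nat_lit 4) (nat_lit 379) (nat_lit 275) (nat_lit 246))) (XT.nd (nat_lit 78) (nat_lit 228) (nat_lit 0) (XT.lf (nat_lit 0) (nat_lit 1621652180670) (nat_lit 76) (nat_lit 60896870724) (nat_lit 76) (nat_lit 60891322576) (nat_lit 113) (nat_lit 4) (nat_lit 114) (nat_lit 5) (nat_lit 114) (nat_lit 4) (nat_lit 380) (nat_lit 275) (nat_lit 245)) (XT.nd (nat_lit 78) (nat_lit 76) (nat_lit 0) (XT.lf (nat_lit 0) (nat_lit 578123900361) (nat_lit 152) (nat_lit 752861069814) (nat_lit 0) (nat_lit 578119066234) (nat_lit 111) (nat_lit 5) (nat_lit 113) (nat_lit 4) (nat_lit 111) (nat_lit 4) (nat_lit 381) (nat_lit 275) (nat_lit 244)) (XT.lf (nat_lit 0) (nat_lit 581668309469) (nat_lit 76) (nat_lit 756410321440)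 (nat_lit 76) (nat_lit 756405478922) (nat_lit 110) (nat_lit 4) (nat_lit 111) (nat_lit 5) (nat_lit 111) (nat_lit 4) (nat_lit 382) (nat_lit 275) (nat_lit 243)))))) (XT.nd (nat_lit 390) (nat_lit 456) (nat_lit 0) (XT.nd (nat_lit 156) (nat_lit 380) (nat_lit 0) (XT.nd (nat_lit 78) (nat_lit 76) (nat_lit 0) (XT.lf (nat_lit 0) (nat_lit 20091362468) (nat_lit 152) (nat_lit 17778807192) (nat_lit 0) (nat_lit 20091362468) (nat_lit 150) (nat_lit 5) (nat_lit 152) (nat_lit 4) (nat_lit 150) (nat_lit 4) (nat_lit 348) (nat_lit 276) (nat_lit 276)) (XT.lf (nat_lit 0) (nat_lit 85458312868) (nat_lit 76) (nat_lit 19520802407) (nat_lit 76) (nat_lit 19516281531) (nat_lit 149) (nat_lit 4) (nat_lit 150) (nat_lit 5) (nat_lit 150) (nat_lit 4) (nat_lit 349) (nat_lit 276) (nat_lit 275))) (XT.nd (nat_lit 78) (nat_lit 228) (nat_lit 0) (XT.lf (nat_lit 0) (nat_lit 43321853926) (nat_lit 152) (nat_lit 47106949655) (nat_lit 0) (nat_lit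 43314504297) (nat_lit 147) (nat_lit 5) (nat_lit 149) (nat_lit 4) (nat_lit 147) (nat_lit 4) (nat_lit 350) (nat_lit 276) (nat_lit 274)) (XT.nd (nat_lit 78) (nat_lit 152) (nat_lit 0) (XT.lf (nat_lit 0) (nat_lit 85529656227) (nat_lit 76) (nat_lit 29269006162) (nat_lit 76) (nat_lit 29258683983) (nat_lit 146) (nat_lit 4) (nat_lit 147) (nat_lit 5) (nat_lit 147) (nat_lit 4) (nat_lit 351) (nat_lit 276) (nat_lit 273)) (XT.lf (nat_lit 0) (nat_lit 39792594887) (nat_lit 152) (nat_lit 75733700526) (nat_lit 0) (nat_lit 39781371405) (nat_lit 144) (nat_lit 5) (nat_lit 146) (nat_lit 4) (nat_lit 144) (nat_lit 4) (nat_lit 352) (nat_lit 276) (nat_lit 272))))) (XT.nd (nat_lit 156) (nat_lit 228) (nat_lit 0) (XT.nd (nat_lit 78) (nat_lit 152) (nat_lit 0) (XT.lf (nat_lit 0) (nat_lit 68766793555) (nat_lit 76) (nat_lit 49487821010) (nat_lit 76) (nat_lit 49474643029) (nat_lit 143) (nat_lit 4) (nat_lit 144) (nat_lit 5) (nat_lit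 144) (nat_lit 4) (nat_lit 353) (nat_lit 276) (nat_lit 271)) (XT.lf (nat_lit 0) (nat_lit 26293121306) (nat_lit 152) (nat_lit 128949663204) (nat_lit 0) (nat_lit 26280184309) (nat_lit 141) (nat_lit 5) (nat_lit 143) (nat_lit 4) (nat_lit 141) (nat_lit 4) (nat_lit 354) (nat_lit 276) (nat_lit 270))) (XT.nd (nat_lit 78) (nat_lit 152) (nat_lit 0) (XT.lf (nat_lit 0) (nat_lit 27210733121) (nat_lit 76) (nat_lit 84655043639) (nat_lit 76) (nat_lit 84640821527) (nat_lit 140) (nat_lit 4) (nat_lit 141) (nat_lit 5) (nat_lit 141) (nat_lit 4) (nat_lit 355) (nat_lit 276) (nat_lit 269)) (XT.nd (nat_lit 78) (nat_lit 152) (nat_lit 0) (XT.lf (nat_lit 0) (nat_lit 210210242784) (nat_lit 76) (nat_lit 1652317284) (nat_lit 76) (nat_lit 1636977680) (nat_lit 140) (nat_lit 4) (nat_lit 141) (nat_lit 5) (nat_lit 141) (nat_lit 4) (nat_lit 356) (nat_lit 276) (nat_lit 268)) (XT.lf (nat_lit 0) (nat_lit 92885818204) (nat_lit 152) (nat_lit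 45588150506) (nat_lit 0) (nat_lit 92871634434) (nat_lit 138) (nat_lit 5) (nat_lit 140) (nat_lit 4) (nat_lit 138) (nat_lit 4) (nat_lit 357) (nat_lit 276) (nat_lit 267))))))) (XT.nd (nat_lit 780) (nat_lit 760) (nat_lit 0) (XT.nd (nat_lit 390) (nat_lit 456) (nat_lit 0) (XT.nd (nat_lit 156) (nat_lit 228) (nat_lit 0) (XT.nd (nat_lit 78) (nat_lit 152) (nat_lit 0) (XT.lf (nat_lit 0) (nat_lit 155254059941) (nat_lit 76) (nat_lit 48159326038) (nat_lit 76) (nat_lit 48144407499) (nat_lit 137) (nat_lit 4) (nat_lit 138) (nat_lit 5) (nat_lit 138) (nat_lit 4) (nat_lit 358) (nat_lit 276) (nat_lit 266)) (XT.lf (nat_lit 0) (nat_lit 55843480358) (nat_lit 152) (nat_lit 162019459113) (nat_lit 0) (nat_lit 55829952125) (nat_lit 135) (nat_lit 5) (nat_lit 137) (nat_lit 4) (nat_lit 135) (nat_lit 4) (nat_lit 359) (nat_lit 276) (nat_lit 265))) (XT.nd (nat_lit 78) (nat_lit 152) (nat_lit 0) (XT.lf (nat_lit 0) (nat_lit 53086763762)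 (nat_lit 76) (nat_lit 122485428374) (nat_lit 76) (nat_lit 122471417018) (nat_lit 134) (nat_lit 4) (nat_lit 135) (nat_lit 5) (nat_lit 135) (nat_lit 4) (nat_lit 360) (nat_lit 276) (nat_lit 264)) (XT.nd (nat_lit 78) (nat_lit 152) (nat_lit 0) (XT.lf (nat_lit 0) (nat_lit 309035349095) (nat_lit 76) (nat_lit 8213835325) (nat_lit 76) (nat_lit 8199403864) (nat_lit 134) (nat_lit 4) (nat_lit 135) (nat_lit 5) (nat_lit 135) (nat_lit 4) (nat_lit 361) (nat_lit 276) (nat_lit 263)) (XT.lf (nat_lit 0) (nat_lit 124385829931) (nat_lit 152) (nat_lit 105618961201) (nat_lit 0) (nat_lit 124372963173) (nat_lit 132) (nat_lit 5) (nat_lit 134) (nat_lit 4) (nat_lit 132) (nat_lit 4) (nat_lit 362) (nat_lit 276) (nat_lit 262))))) (XT.nd (nat_lit 156) (nat_lit 228) (nat_lit 0) (XT.nd (nat_lit 78) (nat_lit 152) (nat_lit 0) (XT.lf (nat_lit 0) (nat_lit 173919946801) (nat_lit 76) (nat_lit 106509693083) (nat_lit 76) (nat_lit 106496550098)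 (nat_lit 131) (nat_lit 4) (nat_lit 132) (nat_lit 5) (nat_lit 132) (nat_lit 4) (nat_lit 363) (nat_lit 276) (nat_lit 261)) (XT.lf (nat_lit 0) (nat_lit 39171441720) (nat_lit 152) (nat_lit 344783380640) (nat_lit 0) (nat_lit 39159804171) (nat_lit 129) (nat_lit 5) (nat_lit 131) (nat_lit 4) (nat_lit 129) (nat_lit 4) (nat_lit 364) (nat_lit 276) (nat_lit 260))) (XT.nd (nat_lit 78) (nat_lit 228) (nat_lit 0) (XT.lf (nat_lit 0) (nat_lit 208441586018) (nat_lit 152) (nat_lit 45201010266) (nat_lit 0) (nat_lit 208429766845) (nat_lit 129) (nat_lit 5) (nat_lit 131) (nat_lit 4) (nat_lit 129) (nat_lit 4) (nat_lit 365) (nat_lit 276) (nat_lit 259)) (XT.nd (nat_lit 78) (nat_lit 152) (nat_lit 0) (XT.lf (nat_lit 0) (nat_lit 320194338615) (nat_lit 76) (nat_lit 92617481726) (nat_lit 76) (nat_lit 92605504620) (nat_lit 128) (nat_lit 4) (nat_lit 129) (nat_lit 5) (nat_lit 129) (nat_lit 4) (nat_lit 366) (nat_lit 276) (nat_lit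 258)) (XT.lf (nat_lit 0) (nat_lit 95745988975) (nat_lit 152) (nat_lit 361495501078) (nat_lit 0) (nat_lit 95735454679) (nat_lit 126) (nat_lit 5) (nat_lit 128) (nat_lit 4) (nat_lit 126) (nat_lit 4) (nat_lit 367) (nat_lit 276) (nat_lit 257)))))) (XT.nd (nat_lit 390) (nat_lit 456) (nat_lit 0) (XT.nd (nat_lit 156) (nat_lit 228) (nat_lit 0) (XT.nd (nat_lit 78) (nat_lit 0) (nat_lit 0) (XT.lf (nat_lit 0) (nat_lit 24565372643) (nat_lit 76) (nat_lit 290325522886) (nat_lit 76) (nat_lit 290314884746) (nat_lit 125) (nat_lit 4) (nat_lit 126) (nat_lit 5) (nat_lit 126) (nat_lit 4) (nat_lit 368) (nat_lit 276) (nat_lit 256)) (XT.lf (nat_lit 0) (nat_lit 501879077144) (nat_lit 76) (nat_lit 80537144923) (nat_lit 76) (nat_lit 80526416484) (nat_lit 125) (nat_lit 4) (nat_lit 126) (nat_lit 5) (nat_lit 126) (nat_lit 4) (nat_lit 369) (nat_lit 276) (nat_lit 255))) (XT.nd (nat_lit 78) (nat_lit 76) (nat_lit 0) (XT.lf (nat_lit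 0) (nat_lit 164834195324) (nat_lit 152) (nat_lit 395920727588) (nat_lit 0) (nat_lit 164824797968) (nat_lit 123) (nat_lit 5) (nat_lit 125) (nat_lit 4) (nat_lit 123) (nat_lit 4) (nat_lit 370) (nat_lit 276) (nat_lit 254)) (XT.nd (nat_lit 78) (nat_lit 0) (nat_lit 0) (XT.lf (nat_lit 0) (nat_lit 110910132248) (nat_lit 76) (nat_lit 342006121241) (nat_lit 76) (nat_lit 341996664512) (nat_lit 122) (nat_lit 4) (nat_lit 123) (nat_lit 5) (nat_lit 123) (nat_lit 4) (nat_lit 371) (nat_lit 276) (nat_lit 253)) (XT.lf (nat_lit 0) (nat_lit 731928260973) (nat_lit 76) (nat_lit 70032416737) (nat_lit 76) (nat_lit 70022908379) (nat_lit 122) (nat_lit 4) (nat_lit 123) (nat_lit 5) (nat_lit 123) (nat_lit 4) (nat_lit 372) (nat_lit 276) (nat_lit 252))))) (XT.nd (nat_lit 156) (nat_lit 228) (nat_lit 0) (XT.nd (nat_lit 78) (nat_lit 76) (nat_lit 0) (XT.lf (nat_lit 0) (nat_lit 251219362378) (nat_lit 152) (nat_lit 452164173042) (nat_lit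 0) (nat_lit 251211055201) (nat_lit 120) (nat_lit 5) (nat_lit 122) (nat_lit 4) (nat_lit 120) (nat_lit 4) (nat_lit 373) (nat_lit 276) (nat_lit 251)) (XT.lf (nat_lit 0) (nat_lit 214872118557) (nat_lit 76) (nat_lit 415825270344) (nat_lit 76) (nat_lit 415816929221) (nat_lit 119) (nat_lit 4) (nat_lit 120) (nat_lit 5) (nat_lit 120) (nat_lit 4) (nat_lit 374) (nat_lit 276) (nat_lit 250))) (XT.nd (nat_lit 78) (nat_lit 228) (nat_lit 0) (XT.lf (nat_lit 0) (nat_lit 1027273590692) (nat_lit 76) (nat_lit 60897820468) (nat_lit 76) (nat_lit 60889449826) (nat_lit 119) (nat_lit 4) (nat_lit 120) (nat_lit 5) (nat_lit 120) (nat_lit 4) (nat_lit 375) (nat_lit 276) (nat_lit 249)) (XT.nd (nat_lit 78) (nat_lit 76) (nat_lit 0) (XT.lf (nat_lit 0) (nat_lit 361129869272) (nat_lit 152) (nat_lit 535864487241) (nat_lit 0) (nat_lit 361122568132) (nat_lit 117) (nat_lit 5) (nat_lit 119) (nat_lit 4) (nat_lit 117) (nat_lit 4) (nat_lit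 376) (nat_lit 276) (nat_lit 248)) (XT.lf (nat_lit 0) (nat_lit 343467076031) (nat_lit 76) (nat_lit 518209014549) (nat_lit 76) (nat_lit 518201694000) (nat_lit 116) (nat_lit 4) (nat_lit 117) (nat_lit 5) (nat_lit 117) (nat_lit 4) (nat_lit 377) (nat_lit 276) (nat_lit 247))))))))
noncomputable def xc8 : XT := (XT.nd (nat_lit 45552) (nat_lit 0) (nat_lit 228) (XT.nd (nat_lit 44772) (nat_lit 0) (nat_lit 1824) (XT.nd (nat_lit 44382) (nat_lit 0) (nat_lit 2736) (XT.nd (nat_lit 156) (nat_lit 228) (nat_lit 0) (XT.nd (nat_lit 78) (nat_lit 152) (nat_lit 0) (XT.lf (nat_lit 0) (nat_lit 1410133233600) (nat_lit 76) (nat_lit 52954664677) (nat_lit 76) (nat_lit 52947327251) (nat_lit 116) (nat_lit 4) (nat_lit 117) (nat_lit 5) (nat_lit 117) (nat_lit 4) (nat_lit 378) (nat_lit 276) (nat_lit 246)) (XT.lf (nat_lit 0) (nat_lit 502717940185) (nat_lit 152) (nat_lit 654661086245) (nat_lit 0) (nat_lit 502711547052) (nat_lit 114)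 (nat_lit 5) (nat_lit 116) (nat_lit 4) (nat_lit 114) (nat_lit 4) (nat_lit 379) (nat_lit 276) (nat_lit 245))) (XT.nd (nat_lit 78) (nat_lit 152) (nat_lit 0) (XT.lf (nat_lit 0) (nat_lit 505799311980) (nat_lit 76) (nat_lit 657748862269) (nat_lit 76) (nat_lit 657742458040) (nat_lit 113) (nat_lit 4) (nat_lit 114) (nat_lit 5) (nat_lit 114) (nat_lit 4) (nat_lit 380) (nat_lit 276) (nat_lit 244)) (XT.nd (nat_lit 78) (nat_lit 152) (nat_lit 0) (XT.lf (nat_lit 0) (nat_lit 1909739399299) (nat_lit 76) (nat_lit 46047556333) (nat_lit 76) (nat_lit 46041142454) (nat_lit 113) (nat_lit 4) (nat_lit 114) (nat_lit 5) (nat_lit 114) (nat_lit 4) (nat_lit 381) (nat_lit 276) (nat_lit 243)) (XT.lf (nat_lit 0) (nat_lit 686691150613) (nat_lit 152) (nat_lit 818815625448) (nat_lit 0) (nat_lit 686685566030) (nat_lit 111) (nat_lit 5) (nat_lit 113) (nat_lit 4) (nat_lit 111) (nat_lit 4) (nat_lit 382) (nat_lit 276) (nat_lit 242)))))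 (XT.nd (nat_lit 156) (nat_lit 380) (nat_lit 0) (XT.nd (nat_lit 78) (nat_lit 76) (nat_lit 0) (XT.lf (nat_lit 0) (nat_lit 17473615616) (nat_lit 152) (nat_lit 15454848613) (nat_lit 0) (nat_lit 17473615616) (nat_lit 153) (nat_lit 5) (nat_lit 155) (nat_lit 4) (nat_lit 153) (nat_lit 4) (nat_lit 346) (nat_lit 277) (nat_lit 277)) (XT.lf (nat_lit 0) (nat_lit 74321804376) (nat_lit 76) (nat_lit 16971187677) (nat_lit 76) (nat_lit 16965208818) (nat_lit 152) (nat_lit 4) (nat_lit 153) (nat_lit 5) (nat_lit 153) (nat_lit 4) (nat_lit 347) (nat_lit 277) (nat_lit 276))) (XT.nd (nat_lit 78) (nat_lit 228) (nat_lit 0) (XT.lf (nat_lit 0) (nat_lit 37677217849) (nat_lit 152) (nat_lit 40954954359) (nat_lit 0) (nat_lit 37667497965) (nat_lit 150) (nat_lit 5) (nat_lit 152) (nat_lit 4) (nat_lit 150) (nat_lit 4) (nat_lit 348) (nat_lit 277) (nat_lit 275)) (XT.nd (nat_lit 78) (nat_lit 152) (nat_lit 0) (XT.lf (nat_lit 0) (nat_lit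 74381499238) (nat_lit 76) (nat_lit 25450219026) (nat_lit 76) (nat_lit 25436567945) (nat_lit 149) (nat_lit 4) (nat_lit 150) (nat_lit 5) (nat_lit 150) (nat_lit 4) (nat_lit 349) (nat_lit 277) (nat_lit 274)) (XT.lf (nat_lit 0) (nat_lit 34608203911) (nat_lit 152) (nat_lit 65849468744) (nat_lit 0) (nat_lit 34593360856) (nat_lit 147) (nat_lit 5) (nat_lit 149) (nat_lit 4) (nat_lit 147) (nat_lit 4) (nat_lit 350) (nat_lit 277) (nat_lit 273)))))) (XT.nd (nat_lit 390) (nat_lit 456) (nat_lit 0) (XT.nd (nat_lit 156) (nat_lit 228) (nat_lit 0) (XT.nd (nat_lit 78) (nat_lit 152) (nat_lit 0) (XT.lf (nat_lit 0) (nat_lit 59803405145) (nat_lit 76) (nat_lit 43033179454) (nat_lit 76) (nat_lit 43015751573) (nat_lit 146) (nat_lit 4) (nat_lit 147) (nat_lit 5) (nat_lit 147) (nat_lit 4) (nat_lit 351) (nat_lit 277) (nat_lit 272)) (XT.lf (nat_lit 0) (nat_lit 22869212354) (nat_lit 152) (nat_lit 112125448348) (nat_lit 0) (nat_lit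 22852103176) (nat_lit 144) (nat_lit 5) (nat_lit 146) (nat_lit 4) (nat_lit 144) (nat_lit 4) (nat_lit 352) (nat_lit 277) (nat_lit 271))) (XT.nd (nat_lit 78) (nat_lit 152) (nat_lit 0) (XT.lf (nat_lit 0) (nat_lit 23666456476) (nat_lit 76) (nat_lit 73614150351) (nat_lit 76) (nat_lit 73595341607) (nat_lit 143) (nat_lit 4) (nat_lit 144) (nat_lit 5) (nat_lit 144) (nat_lit 4) (nat_lit 353) (nat_lit 277) (nat_lit 270)) (XT.nd (nat_lit 78) (nat_lit 152) (nat_lit 0) (XT.lf (nat_lit 0) (nat_lit 182796288493) (nat_lit 76) (nat_lit 1438196328) (nat_lit 76) (nat_lit 1417909702) (nat_lit 143) (nat_lit 4) (nat_lit 144) (nat_lit 5) (nat_lit 144) (nat_lit 4) (nat_lit 354) (nat_lit 277) (nat_lit 269)) (XT.lf (nat_lit 0) (nat_lit 80775593049) (nat_lit 152) (nat_lit 39638210547) (nat_lit 0) (nat_lit 80756835013) (nat_lit 141) (nat_lit 5) (nat_lit 143) (nat_lit 4) (nat_lit 141) (nat_lit 4) (nat_lit 355) (nat_lit 277)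 (nat_lit 268))))) (XT.nd (nat_lit 156) (nat_lit 228) (nat_lit 0) (XT.nd (nat_lit 78) (nat_lit 152) (nat_lit 0) (XT.lf (nat_lit 0) (nat_lit 135007431493) (nat_lit 76) (nat_lit 41879357243) (nat_lit 76) (nat_lit 41859627476) (nat_lit 140) (nat_lit 4) (nat_lit 141) (nat_lit 5) (nat_lit 141) (nat_lit 4) (nat_lit 356) (nat_lit 277) (nat_lit 267)) (XT.lf (nat_lit 0) (nat_lit 48564342809) (nat_lit 152) (nat_lit 140883475807) (nat_lit 0) (nat_lit 48546451721) (nat_lit 138) (nat_lit 5) (nat_lit 140) (nat_lit 4) (nat_lit 138) (nat_lit 4) (nat_lit 357) (nat_lit 277) (nat_lit 266))) (XT.nd (nat_lit 78) (nat_lit 152) (nat_lit 0) (XT.lf (nat_lit 0) (nat_lit 46165631589) (nat_lit 76) (nat_lit 106510837649) (nat_lit 76) (nat_lit 106492307632) (nat_lit 137) (nat_lit 4) (nat_lit 138) (nat_lit 5) (nat_lit 138) (nat_lit 4) (nat_lit 358) (nat_lit 277) (nat_lit 265)) (XT.nd (nat_lit 78) (nat_lit 152) (nat_lit 0) (XT.lf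 (nat_lit 0) (nat_lit 268729552525) (nat_lit 76) (nat_lit 7144358970) (nat_lit 76) (nat_lit 7125273361) (nat_lit 137) (nat_lit 4) (nat_lit 138) (nat_lit 5) (nat_lit 138) (nat_lit 4) (nat_lit 359) (nat_lit 277) (nat_lit 264)) (XT.lf (nat_lit 0) (nat_lit 108165919134) (nat_lit 152) (nat_lit 91840115847) (nat_lit 0) (nat_lit 108148902847) (nat_lit 135) (nat_lit 5) (nat_lit 137) (nat_lit 4) (nat_lit 135) (nat_lit 4) (nat_lit 360) (nat_lit 277) (nat_lit 263))))))) (XT.nd (nat_lit 780) (nat_lit 836) (nat_lit 0) (XT.nd (nat_lit 390) (nat_lit 304) (nat_lit 0) (XT.nd (nat_lit 156) (nat_lit 228) (nat_lit 0) (XT.nd (nat_lit 78) (nat_lit 152) (nat_lit 0) (XT.lf (nat_lit 0) (nat_lit 151237392181) (nat_lit 76) (nat_lit 92618946167) (nat_lit 76) (nat_lit 92601564570) (nat_lit 134) (nat_lit 4) (nat_lit 135) (nat_lit 5) (nat_lit 135) (nat_lit 4) (nat_lit 361) (nat_lit 277) (nat_lit 262)) (XT.lf (nat_lit 0) (nat_lit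 34065951188) (nat_lit 152) (nat_lit 299809561552) (nat_lit 0) (nat_lit 34050560528) (nat_lit 132) (nat_lit 5) (nat_lit 134) (nat_lit 4) (nat_lit 132) (nat_lit 4) (nat_lit 362) (nat_lit 277) (nat_lit 261))) (XT.nd (nat_lit 78) (nat_lit 228) (nat_lit 0) (XT.lf (nat_lit 0) (nat_lit 181257407128) (nat_lit 152) (nat_lit 39303178647) (nat_lit 0) (nat_lit 181241776271) (nat_lit 132) (nat_lit 5) (nat_lit 134) (nat_lit 4) (nat_lit 132) (nat_lit 4) (nat_lit 363) (nat_lit 277) (nat_lit 260)) (XT.nd (nat_lit 78) (nat_lit 152) (nat_lit 0) (XT.lf (nat_lit 0) (nat_lit 278432082521) (nat_lit 76) (nat_lit 80538686597) (nat_lit 76) (nat_lit 80522846873) (nat_lit 131) (nat_lit 4) (nat_lit 132) (nat_lit 5) (nat_lit 132) (nat_lit 4) (nat_lit 364) (nat_lit 277) (nat_lit 259)) (XT.lf (nat_lit 0) (nat_lit 83260769999) (nat_lit 152) (nat_lit 314342170316) (nat_lit 0) (nat_lit 83246838393) (nat_lit 129) (nat_lit 5) (nat_lit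 131) (nat_lit 4) (nat_lit 129) (nat_lit 4) (nat_lit 365) (nat_lit 277) (nat_lit 258))))) (XT.nd (nat_lit 156) (nat_lit 228) (nat_lit 0) (XT.nd (nat_lit 78) (nat_lit 0) (nat_lit 0) (XT.lf (nat_lit 0) (nat_lit 21363091280) (nat_lit 76) (nat_lit 252458560537) (nat_lit 76) (nat_lit 252444491597) (nat_lit 128) (nat_lit 4) (nat_lit 129) (nat_lit 5) (nat_lit 129) (nat_lit 4) (nat_lit 366) (nat_lit 277) (nat_lit 257)) (XT.lf (nat_lit 0) (nat_lit 436418472246) (nat_lit 76) (nat_lit 70033910694) (nat_lit 76) (nat_lit 70019722334) (nat_lit 128) (nat_lit 4) (nat_lit 129) (nat_lit 5) (nat_lit 129) (nat_lit 4) (nat_lit 367) (nat_lit 277) (nat_lit 256))) (XT.nd (nat_lit 78) (nat_lit 76) (nat_lit 0) (XT.lf (nat_lit 0) (nat_lit 143337063315) (nat_lit 152) (nat_lit 344277411417) (nat_lit 0) (nat_lit 143324635311) (nat_lit 126) (nat_lit 5) (nat_lit 128) (nat_lit 4) (nat_lit 126) (nat_lit 4) (nat_lit 368) (nat_lit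 277) (nat_lit 255)) (XT.nd (nat_lit 78) (nat_lit 0) (nat_lit 0) (XT.lf (nat_lit 0) (nat_lit 96445210871) (nat_lit 76) (nat_lit 297398065497) (nat_lit 76) (nat_lit 297385558973) (nat_lit 125) (nat_lit 4) (nat_lit 126) (nat_lit 5) (nat_lit 126) (nat_lit 4) (nat_lit 369) (nat_lit 277) (nat_lit 254)) (XT.lf (nat_lit 0) (nat_lit 636460966830) (nat_lit 76) (nat_lit 60899207251) (nat_lit 76) (nat_lit 60886632447) (nat_lit 125) (nat_lit 4) (nat_lit 126) (nat_lit 5) (nat_lit 126) (nat_lit 4) (nat_lit 370) (nat_lit 277) (nat_lit 253)))))) (XT.nd (nat_lit 390) (nat_lit 380) (nat_lit 0) (XT.nd (nat_lit 156) (nat_lit 228) (nat_lit 0) (XT.nd (nat_lit 78) (nat_lit 76) (nat_lit 0) (XT.lf (nat_lit 0) (nat_lit 218454230624) (nat_lit 152) (nat_lit 393184968104) (nat_lit 0) (nat_lit 218443244384) (nat_lit 123) (nat_lit 5) (nat_lit 125) (nat_lit 4) (nat_lit 123) (nat_lit 4) (nat_lit 371) (nat_lit 277) (nat_lit 252))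 (XT.lf (nat_lit 0) (nat_lit 186846708497) (nat_lit 76) (nat_lit 361588477112) (nat_lit 76) (nat_lit 361577445977) (nat_lit 122) (nat_lit 4) (nat_lit 123) (nat_lit 5) (nat_lit 123) (nat_lit 4) (nat_lit 372) (nat_lit 277) (nat_lit 251))) (XT.nd (nat_lit 78) (nat_lit 228) (nat_lit 0) (XT.lf (nat_lit 0) (nat_lit 893282766564) (nat_lit 76) (nat_lit 52955920713) (nat_lit 76) (nat_lit 52944850539) (nat_lit 122) (nat_lit 4) (nat_lit 123) (nat_lit 5) (nat_lit 123) (nat_lit 4) (nat_lit 373) (nat_lit 277) (nat_lit 250)) (XT.nd (nat_lit 78) (nat_lit 76) (nat_lit 0) (XT.lf (nat_lit 0) (nat_lit 314028255003) (nat_lit 152) (nat_lit 465968026725) (nat_lit 0) (nat_lit 314018599246) (nat_lit 120) (nat_lit 5) (nat_lit 122) (nat_lit 4) (nat_lit 120) (nat_lit 4) (nat_lit 374) (nat_lit 277) (nat_lit 249)) (XT.lf (nat_lit 0) (nat_lit 298668218965) (nat_lit 76) (nat_lit 450617672113) (nat_lit 76) (nat_lit 450607990687)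 (nat_lit 119) (nat_lit 4) (nat_lit 120) (nat_lit 5) (nat_lit 120) (nat_lit 4) (nat_lit 375) (nat_lit 277) (nat_lit 248))))) (XT.nd (nat_lit 156) (nat_lit 228) (nat_lit 0) (XT.nd (nat_lit 78) (nat_lit 152) (nat_lit 0) (XT.lf (nat_lit 0) (nat_lit 1226204005491) (nat_lit 76) (nat_lit 46048677204) (nat_lit 76) (nat_lit 46038973458) (nat_lit 119) (nat_lit 4) (nat_lit 120) (nat_lit 5) (nat_lit 120) (nat_lit 4) (nat_lit 376) (nat_lit 277) (nat_lit 247)) (XT.lf (nat_lit 0) (nat_lit 437148025423) (nat_lit 152) (nat_lit 569269566050) (nat_lit 0) (nat_lit 437139570505) (nat_lit 117) (nat_lit 5) (nat_lit 119) (nat_lit 4) (nat_lit 117) (nat_lit 4) (nat_lit 377) (nat_lit 277) (nat_lit 246))) (XT.nd (nat_lit 78) (nat_lit 152) (nat_lit 0) (XT.lf (nat_lit 0) (nat_lit 439826522882) (nat_lit 76) (nat_lit 571956533103) (nat_lit 76) (nat_lit 571948063509) (nat_lit 116) (nat_lit 4) (nat_lit 117) (nat_lit 5) (nat_lit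 117) (nat_lit 4) (nat_lit 378) (nat_lit 277) (nat_lit 245)) (XT.nd (nat_lit 78) (nat_lit 152) (nat_lit 0) (XT.lf (nat_lit 0) (nat_lit 1660643988593) (nat_lit 76) (nat_lit 40042356876) (nat_lit 76) (nat_lit 40033874520) (nat_lit 116) (nat_lit 4) (nat_lit 117) (nat_lit 5) (nat_lit 117) (nat_lit 4) (nat_lit 379) (nat_lit 277) (nat_lit 244)) (XT.lf (nat_lit 0) (nat_lit 597124474159) (nat_lit 152) (nat_lit 712012770356) (nat_lit 0) (nat_lit 597117088547) (nat_lit 114) (nat_lit 5) (nat_lit 116) (nat_lit 4) (nat_lit 114) (nat_lit 4) (nat_lit 380) (nat_lit 277) (nat_lit 243))))))))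
noncomputable def xc9 : XT := (XT.nd (nat_lit 45396) (nat_lit 0) (nat_lit 76) (XT.nd (nat_lit 44616) (nat_lit 0) (nat_lit 1672) (XT.nd (nat_lit 44226) (nat_lit 0) (nat_lit 2508) (XT.nd (nat_lit 43992) (nat_lit 0) (nat_lit 3040) (XT.nd (nat_lit 78) (nat_lit 0) (nat_lit 0) (XT.lf (nat_lit 0) (nat_lit 620659984019) (nat_lit 76) (nat_lit 735555674219) (nat_lit 76) (nat_lit 735548280217) (nat_lit 113) (nat_lit 4) (nat_lit 114) (nat_lit 5) (nat_lit 114) (nat_lit 4) (nat_lit 381) (nat_lit 277) (nat_lit 242)) (XT.lf (nat_lit 0) (nat_lit 2230105331143) (nat_lit 76) (nat_lit 34819457269) (nat_lit 76) (nat_lit 34812055970) (nat_lit 113) (nat_lit 4) (nat_lit 114) (nat_lit 5) (nat_lit 114) (nat_lit 4) (nat_lit 382) (nat_lit 277) (nat_lit 241))) (XT.nd (nat_lit 78) (nat_lit 228) (nat_lit 0) (XT.lf (nat_lit 0) (nat_lit 15198238175) (nat_lit 152) (nat_lit 13432407813) (nat_lit 0) (nat_lit 15198238175) (nat_lit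 156) (nat_lit 5) (nat_lit 158) (nat_lit 4) (nat_lit 156) (nat_lit 4) (nat_lit 344) (nat_lit 278) (nat_lit 278)) (XT.nd (nat_lit 78) (nat_lit 152) (nat_lit 0) (XT.lf (nat_lit 0) (nat_lit 64641182468) (nat_lit 76) (nat_lit 14753027436) (nat_lit 76) (nat_lit 14745120395) (nat_lit 155) (nat_lit 4) (nat_lit 156) (nat_lit 5) (nat_lit 156) (nat_lit 4) (nat_lit 345) (nat_lit 278) (nat_lit 277)) (XT.lf (nat_lit 0) (nat_lit 32770786721) (nat_lit 152) (nat_lit 35602938826) (nat_lit 0) (nat_lit 32757932174) (nat_lit 153) (nat_lit 5) (nat_lit 155) (nat_lit 4) (nat_lit 153) (nat_lit 4) (nat_lit 346) (nat_lit 278) (nat_lit 276))))) (XT.nd (nat_lit 156) (nat_lit 304) (nat_lit 0) (XT.nd (nat_lit 78) (nat_lit 152) (nat_lit 0) (XT.lf (nat_lit 0) (nat_lit 64689992636) (nat_lit 76) (nat_lit 22129182816) (nat_lit 76) (nat_lit 22111129262) (nat_lit 152) (nat_lit 4) (nat_lit 153) (nat_lit 5) (nat_lit 153) (nat_lit 4)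 (nat_lit 347) (nat_lit 278) (nat_lit 275)) (XT.lf (nat_lit 0) (nat_lit 30101955910) (nat_lit 152) (nat_lit 57252574413) (nat_lit 0) (nat_lit 30082325970) (nat_lit 150) (nat_lit 5) (nat_lit 152) (nat_lit 4) (nat_lit 150) (nat_lit 4) (nat_lit 348) (nat_lit 278) (nat_lit 274))) (XT.nd (nat_lit 78) (nat_lit 228) (nat_lit 0) (XT.lf (nat_lit 0) (nat_lit 52011151711) (nat_lit 76) (nat_lit 37420541712) (nat_lit 76) (nat_lit 37397493340) (nat_lit 149) (nat_lit 4) (nat_lit 150) (nat_lit 5) (nat_lit 150) (nat_lit 4) (nat_lit 349) (nat_lit 278) (nat_lit 273)) (XT.nd (nat_lit 78) (nat_lit 76) (nat_lit 0) (XT.lf (nat_lit 0) (nat_lit 19893715449) (nat_lit 152) (nat_lit 97494182623) (nat_lit 0) (nat_lit 19871088560) (nat_lit 147) (nat_lit 5) (nat_lit 149) (nat_lit 4) (nat_lit 147) (nat_lit 4) (nat_lit 350) (nat_lit 278) (nat_lit 272)) (XT.lf (nat_lit 0) (nat_lit 20586072971) (nat_lit 76) (nat_lit 64013718306)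 (nat_lit 76) (nat_lit 63988843743) (nat_lit 146) (nat_lit 4) (nat_lit 147) (nat_lit 5) (nat_lit 147) (nat_lit 4) (nat_lit 351) (nat_lit 278) (nat_lit 271)))))) (XT.nd (nat_lit 390) (nat_lit 380) (nat_lit 0) (XT.nd (nat_lit 156) (nat_lit 304) (nat_lit 0) (XT.nd (nat_lit 78) (nat_lit 152) (nat_lit 0) (XT.lf (nat_lit 0) (nat_lit 158959606672) (nat_lit 76) (nat_lit 1252455270) (nat_lit 76) (nat_lit 1225626208) (nat_lit 146) (nat_lit 4) (nat_lit 147) (nat_lit 5) (nat_lit 147) (nat_lit 4) (nat_lit 352) (nat_lit 278) (nat_lit 270)) (XT.lf (nat_lit 0) (nat_lit 70246677002) (nat_lit 152) (nat_lit 34463169538) (nat_lit 0) (nat_lit 70221869500) (nat_lit 144) (nat_lit 5) (nat_lit 146) (nat_lit 4) (nat_lit 144) (nat_lit 4) (nat_lit 353) (nat_lit 278) (nat_lit 269))) (XT.nd (nat_lit 78) (nat_lit 228) (nat_lit 0) (XT.lf (nat_lit 0) (nat_lit 117402925734) (nat_lit 76) (nat_lit 36419057396) (nat_lit 76) (nat_lit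 36392964779) (nat_lit 143) (nat_lit 4) (nat_lit 144) (nat_lit 5) (nat_lit 144) (nat_lit 4) (nat_lit 354) (nat_lit 278) (nat_lit 268)) (XT.nd (nat_lit 78) (nat_lit 76) (nat_lit 0) (XT.lf (nat_lit 0) (nat_lit 42236204265) (nat_lit 152) (nat_lit 122503389041) (nat_lit 0) (nat_lit 42212543301) (nat_lit 141) (nat_lit 5) (nat_lit 143) (nat_lit 4) (nat_lit 141) (nat_lit 4) (nat_lit 355) (nat_lit 278) (nat_lit 267)) (XT.lf (nat_lit 0) (nat_lit 40148296920) (nat_lit 76) (nat_lit 92620459857) (nat_lit 76) (nat_lit 92595953909) (nat_lit 140) (nat_lit 4) (nat_lit 141) (nat_lit 5) (nat_lit 141) (nat_lit 4) (nat_lit 356) (nat_lit 278) (nat_lit 266))))) (XT.nd (nat_lit 156) (nat_lit 228) (nat_lit 0) (XT.nd (nat_lit 78) (nat_lit 152) (nat_lit 0) (XT.lf (nat_lit 0) (nat_lit 233682053517) (nat_lit 76) (nat_lit 6214990174) (nat_lit 76) (nat_lit 6189749457) (nat_lit 140) (nat_lit 4) (nat_lit 141) (nat_lit 5) (nat_lit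 141) (nat_lit 4) (nat_lit 357) (nat_lit 278) (nat_lit 265)) (XT.lf (nat_lit 0) (nat_lit 94063044620) (nat_lit 152) (nat_lit 79857718128) (nat_lit 0) (nat_lit 94040540580) (nat_lit 138) (nat_lit 5) (nat_lit 140) (nat_lit 4) (nat_lit 138) (nat_lit 4) (nat_lit 358) (nat_lit 278) (nat_lit 264))) (XT.nd (nat_lit 78) (nat_lit 152) (nat_lit 0) (XT.lf (nat_lit 0) (nat_lit 131514288148) (nat_lit 76) (nat_lit 80540623320) (nat_lit 76) (nat_lit 80517636157) (nat_lit 137) (nat_lit 4) (nat_lit 138) (nat_lit 5) (nat_lit 138) (nat_lit 4) (nat_lit 359) (nat_lit 278) (nat_lit 263)) (XT.nd (nat_lit 78) (nat_lit 0) (nat_lit 0) (XT.lf (nat_lit 0) (nat_lit 29627628718) (nat_lit 152) (nat_lit 260701223985) (nat_lit 0) (nat_lit 29607274570) (nat_lit 135) (nat_lit 5) (nat_lit 137) (nat_lit 4) (nat_lit 135) (nat_lit 4) (nat_lit 360) (nat_lit 278) (nat_lit 262)) (XT.lf (nat_lit 0) (nat_lit 157620233638) (nat_lit 152) (nat_lit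 34173969040) (nat_lit 0) (nat_lit 157599561830) (nat_lit 135) (nat_lit 5) (nat_lit 137) (nat_lit 4) (nat_lit 135) (nat_lit 4) (nat_lit 361) (nat_lit 278) (nat_lit 261))))))) (XT.nd (nat_lit 780) (nat_lit 836) (nat_lit 0) (XT.nd (nat_lit 390) (nat_lit 304) (nat_lit 0) (XT.nd (nat_lit 156) (nat_lit 228) (nat_lit 0) (XT.nd (nat_lit 78) (nat_lit 152) (nat_lit 0) (XT.lf (nat_lit 0) (nat_lit 242117794093) (nat_lit 76) (nat_lit 70035949558) (nat_lit 76) (nat_lit 70015001523) (nat_lit 134) (nat_lit 4) (nat_lit 135) (nat_lit 5) (nat_lit 135) (nat_lit 4) (nat_lit 362) (nat_lit 278) (nat_lit 260)) (XT.lf (nat_lit 0) (nat_lit 72405150567) (nat_lit 152) (nat_lit 273338711669) (nat_lit 0) (nat_lit 72386726018) (nat_lit 132) (nat_lit 5) (nat_lit 134) (nat_lit 4) (nat_lit 132) (nat_lit 4) (nat_lit 363) (nat_lit 278) (nat_lit 259))) (XT.nd (nat_lit 78) (nat_lit 152) (nat_lit 0) (XT.lf (nat_lit 0) (nat_lit 18579110792)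 (nat_lit 76) (nat_lit 219531278067) (nat_lit 76) (nat_lit 219512671894) (nat_lit 131) (nat_lit 4) (nat_lit 132) (nat_lit 5) (nat_lit 132) (nat_lit 4) (nat_lit 364) (nat_lit 278) (nat_lit 258)) (XT.nd (nat_lit 78) (nat_lit 152) (nat_lit 0) (XT.lf (nat_lit 0) (nat_lit 379496814522) (nat_lit 76) (nat_lit 60901183009) (nat_lit 76) (nat_lit 60882418902) (nat_lit 131) (nat_lit 4) (nat_lit 132) (nat_lit 5) (nat_lit 132) (nat_lit 4) (nat_lit 365) (nat_lit 278) (nat_lit 257)) (XT.lf (nat_lit 0) (nat_lit 124644866233) (nat_lit 152) (nat_lit 299369701973) (nat_lit 0) (nat_lit 124628430198) (nat_lit 129) (nat_lit 5) (nat_lit 131) (nat_lit 4) (nat_lit 129) (nat_lit 4) (nat_lit 366) (nat_lit 278) (nat_lit 256))))) (XT.nd (nat_lit 156) (nat_lit 228) (nat_lit 0) (XT.nd (nat_lit 78) (nat_lit 0) (nat_lit 0) (XT.lf (nat_lit 0) (nat_lit 83867540049) (nat_lit 76) (nat_lit 258608915669) (nat_lit 76) (nat_lit 258592375790)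 (nat_lit 128) (nat_lit 4) (nat_lit 129) (nat_lit 5) (nat_lit 129) (nat_lit 4) (nat_lit 367) (nat_lit 278) (nat_lit 255)) (XT.lf (nat_lit 0) (nat_lit 553446447498) (nat_lit 76) (nat_lit 52957754734) (nat_lit 76) (nat_lit 52941124556) (nat_lit 128) (nat_lit 4) (nat_lit 129) (nat_lit 5) (nat_lit 129) (nat_lit 4) (nat_lit 368) (nat_lit 278) (nat_lit 254))) (XT.nd (nat_lit 78) (nat_lit 76) (nat_lit 0) (XT.lf (nat_lit 0) (nat_lit 189963653809) (nat_lit 152) (nat_lit 341898293584) (nat_lit 0) (nat_lit 189949124506) (nat_lit 126) (nat_lit 5) (nat_lit 128) (nat_lit 4) (nat_lit 126) (nat_lit 4) (nat_lit 369) (nat_lit 278) (nat_lit 253)) (XT.nd (nat_lit 78) (nat_lit 0) (nat_lit 0) (XT.lf (nat_lit 0) (nat_lit 162477234340) (nat_lit 76) (nat_lit 314426462791) (nat_lit 76) (nat_lit 314411874115) (nat_lit 125) (nat_lit 4) (nat_lit 126) (nat_lit 5) (nat_lit 126) (nat_lit 4) (nat_lit 370) (nat_lit 278) (nat_lit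 252)) (XT.lf (nat_lit 0) (nat_lit 776769452584) (nat_lit 76) (nat_lit 46050338312) (nat_lit 76) (nat_lit 46035698007) (nat_lit 125) (nat_lit 4) (nat_lit 126) (nat_lit 5) (nat_lit 126) (nat_lit 4) (nat_lit 371) (nat_lit 278) (nat_lit 251)))))) (XT.nd (nat_lit 390) (nat_lit 380) (nat_lit 0) (XT.nd (nat_lit 156) (nat_lit 228) (nat_lit 0) (XT.nd (nat_lit 78) (nat_lit 76) (nat_lit 0) (XT.lf (nat_lit 0) (nat_lit 273071065408) (nat_lit 152) (nat_lit 405188143473) (nat_lit 0) (nat_lit 273058295669) (nat_lit 123) (nat_lit 5) (nat_lit 125) (nat_lit 4) (nat_lit 123) (nat_lit 4) (nat_lit 372) (nat_lit 278) (nat_lit 250)) (XT.lf (nat_lit 0) (nat_lit 259713076898) (nat_lit 76) (nat_lit 391842958649) (nat_lit 76) (nat_lit 391830154963) (nat_lit 122) (nat_lit 4) (nat_lit 123) (nat_lit 5) (nat_lit 123) (nat_lit 4) (nat_lit 373) (nat_lit 278) (nat_lit 249))) (XT.nd (nat_lit 78) (nat_lit 228) (nat_lit 0) (XT.lf (nat_lit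 0) (nat_lit 1066265931224) (nat_lit 76) (nat_lit 40043839228) (nat_lit 76) (nat_lit 40031006024) (nat_lit 122) (nat_lit 4) (nat_lit 123) (nat_lit 5) (nat_lit 123) (nat_lit 4) (nat_lit 374) (nat_lit 278) (nat_lit 248)) (XT.nd (nat_lit 78) (nat_lit 76) (nat_lit 0) (XT.lf (nat_lit 0) (nat_lit 380131350168) (nat_lit 152) (nat_lit 495015765877) (nat_lit 0) (nat_lit 380120168539) (nat_lit 120) (nat_lit 5) (nat_lit 122) (nat_lit 4) (nat_lit 120) (nat_lit 4) (nat_lit 375) (nat_lit 278) (nat_lit 247)) (XT.lf (nat_lit 0) (nat_lit 382459213719) (nat_lit 76) (nat_lit 497354830466) (nat_lit 76) (nat_lit 497343629428) (nat_lit 119) (nat_lit 4) (nat_lit 120) (nat_lit 5) (nat_lit 120) (nat_lit 4) (nat_lit 376) (nat_lit 278) (nat_lit 246))))) (XT.nd (nat_lit 156) (nat_lit 228) (nat_lit 0) (XT.nd (nat_lit 78) (nat_lit 152) (nat_lit 0) (XT.lf (nat_lit 0) (nat_lit 1444039616671) (nat_lit 76) (nat_lit 34820767947)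 (nat_lit 76) (nat_lit 34809550032) (nat_lit 119) (nat_lit 4) (nat_lit 120) (nat_lit 5) (nat_lit 120) (nat_lit 4) (nat_lit 377) (nat_lit 278) (nat_lit 245)) (XT.lf (nat_lit 0) (nat_lit 519240967051) (nat_lit 152) (nat_lit 619140458971) (nat_lit 0) (nat_lit 519231199580) (nat_lit 117) (nat_lit 5) (nat_lit 119) (nat_lit 4) (nat_lit 117) (nat_lit 4) (nat_lit 378) (nat_lit 278) (nat_lit 244))) (XT.nd (nat_lit 78) (nat_lit 152) (nat_lit 0) (XT.lf (nat_lit 0) (nat_lit 539705518665) (nat_lit 76) (nat_lit 639614789154) (nat_lit 76) (nat_lit 639605010585) (nat_lit 116) (nat_lit 4) (nat_lit 117) (nat_lit 5) (nat_lit 117) (nat_lit 4) (nat_lit 379) (nat_lit 278) (nat_lit 243)) (XT.nd (nat_lit 78) (nat_lit 152) (nat_lit 0) (XT.lf (nat_lit 0) (nat_lit 1939223210665) (nat_lit 76) (nat_lit 30278950481) (nat_lit 76) (nat_lit 30269162263) (nat_lit 116) (nat_lit 4) (nat_lit 117) (nat_lit 5) (nat_lit 117) (nat_lit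 4) (nat_lit 380) (nat_lit 278) (nat_lit 242)) (XT.lf (nat_lit 0) (nat_lit 701059000062) (nat_lit 152) (nat_lit 787928123471) (nat_lit 0) (nat_lit 701050481271) (nat_lit 114) (nat_lit 5) (nat_lit 116) (nat_lit 4) (nat_lit 114) (nat_lit 4) (nat_lit 381) (nat_lit 278) (nat_lit 241))))))))
noncomputable def xc10 : XT := (XT.nd (nat_lit 45240) (nat_lit 0) (nat_lit 228) (XT.nd (nat_lit 44460) (nat_lit 0) (nat_lit 1824) (XT.nd (nat_lit 44070) (nat_lit 0) (nat_lit 2736) (XT.nd (nat_lit 43836) (nat_lit 0) (nat_lit 3192) (XT.nd (nat_lit 43758) (nat_lit 0) (nat_lit 3496) (XT.lf (nat_lit 0) (nat_lit 743241609404) (nat_lit 76) (nat_lit 830119257949) (nat_lit 76) (nat_lit 830110732813) (nat_lit 113) (nat_lit 4) (nat_lit 114) (nat_lit 5) (nat_lit 114) (nat_lit 4) (nat_lit 382) (nat_lit 278) (nat_lit 240)) (XT.lf (nat_lit 0) (nat_lit 13220871311) (nat_lit 152) (nat_lit 11671638049) (nat_lit 0) (nat_lit 13220871311)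 (nat_lit 159) (nat_lit 5) (nat_lit 161) (nat_lit 4) (nat_lit 159) (nat_lit 4) (nat_lit 342) (nat_lit 279) (nat_lit 279))) (XT.nd (nat_lit 78) (nat_lit 228) (nat_lit 0) (XT.lf (nat_lit 0) (nat_lit 56227612667) (nat_lit 76) (nat_lit 12822732465) (nat_lit 76) (nat_lit 12812275404) (nat_lit 158) (nat_lit 4) (nat_lit 159) (nat_lit 5) (nat_lit 159) (nat_lit 4) (nat_lit 343) (nat_lit 279) (nat_lit 278)) (XT.nd (nat_lit 78) (nat_lit 76) (nat_lit 0) (XT.lf (nat_lit 0) (nat_lit 28506901190) (nat_lit 152) (nat_lit 30945766326) (nat_lit 0) (nat_lit 28489901052) (nat_lit 156) (nat_lit 5) (nat_lit 158) (nat_lit 4) (nat_lit 156) (nat_lit 4) (nat_lit 344) (nat_lit 279) (nat_lit 277)) (XT.lf (nat_lit 0) (nat_lit 56265958647) (nat_lit 76) (nat_lit 19240860061) (nat_lit 76) (nat_lit 19216984235) (nat_lit 155) (nat_lit 4) (nat_lit 156) (nat_lit 5) (nat_lit 156) (nat_lit 4) (nat_lit 345) (nat_lit 279) (nat_lit 276)))))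 (XT.nd (nat_lit 156) (nat_lit 228) (nat_lit 0) (XT.nd (nat_lit 78) (nat_lit 76) (nat_lit 0) (XT.lf (nat_lit 0) (nat_lit 26186016028) (nat_lit 152) (nat_lit 49774487921) (nat_lit 0) (nat_lit 26160055432) (nat_lit 153) (nat_lit 5) (nat_lit 155) (nat_lit 4) (nat_lit 153) (nat_lit 4) (nat_lit 346) (nat_lit 279) (nat_lit 275)) (XT.lf (nat_lit 0) (nat_lit 45237920666) (nat_lit 76) (nat_lit 32540111532) (nat_lit 76) (nat_lit 32509630060) (nat_lit 152) (nat_lit 4) (nat_lit 153) (nat_lit 5) (nat_lit 153) (nat_lit 4) (nat_lit 347) (nat_lit 279) (nat_lit 274))) (XT.nd (nat_lit 78) (nat_lit 76) (nat_lit 0) (XT.lf (nat_lit 0) (nat_lit 17308727472) (nat_lit 152) (nat_lit 84769341026) (nat_lit 0) (nat_lit 17278803413) (nat_lit 150) (nat_lit 5) (nat_lit 152) (nat_lit 4) (nat_lit 150) (nat_lit 4) (nat_lit 348) (nat_lit 279) (nat_lit 273)) (XT.nd (nat_lit 78) (nat_lit 0) (nat_lit 0) (XT.lf (nat_lit 0) (nat_lit 17909589575)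 (nat_lit 76) (nat_lit 55665972432) (nat_lit 76) (nat_lit 55633075823) (nat_lit 149) (nat_lit 4) (nat_lit 150) (nat_lit 5) (nat_lit 150) (nat_lit 4) (nat_lit 349) (nat_lit 279) (nat_lit 272)) (XT.lf (nat_lit 0) (nat_lit 138234092989) (nat_lit 76) (nat_lit 1091537857) (nat_lit 76) (nat_lit 1056056422) (nat_lit 149) (nat_lit 4) (nat_lit 150) (nat_lit 5) (nat_lit 150) (nat_lit 4) (nat_lit 350) (nat_lit 279) (nat_lit 271)))))) (XT.nd (nat_lit 390) (nat_lit 456) (nat_lit 0) (XT.nd (nat_lit 156) (nat_lit 228) (nat_lit 0) (XT.nd (nat_lit 78) (nat_lit 76) (nat_lit 0) (XT.lf (nat_lit 0) (nat_lit 61093365286) (nat_lit 152) (nat_lit 29961573097) (nat_lit 0) (nat_lit 61060557365) (nat_lit 147) (nat_lit 5) (nat_lit 149) (nat_lit 4) (nat_lit 147) (nat_lit 4) (nat_lit 351) (nat_lit 279) (nat_lit 270)) (XT.lf (nat_lit 0) (nat_lit 102096323704) (nat_lit 76) (nat_lit 31671688138) (nat_lit 76) (nat_lit 31637180652)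 (nat_lit 146) (nat_lit 4) (nat_lit 147) (nat_lit 5) (nat_lit 147) (nat_lit 4) (nat_lit 352) (nat_lit 279) (nat_lit 269))) (XT.nd (nat_lit 78) (nat_lit 76) (nat_lit 0) (XT.lf (nat_lit 0) (nat_lit 36735520053) (nat_lit 152) (nat_lit 106519420952) (nat_lit 0) (nat_lit 36704228428) (nat_lit 144) (nat_lit 5) (nat_lit 146) (nat_lit 4) (nat_lit 144) (nat_lit 4) (nat_lit 353) (nat_lit 279) (nat_lit 268)) (XT.nd (nat_lit 78) (nat_lit 0) (nat_lit 0) (XT.lf (nat_lit 0) (nat_lit 34917208887) (nat_lit 76) (nat_lit 80542625174) (nat_lit 76) (nat_lit 80510216058) (nat_lit 143) (nat_lit 4) (nat_lit 144) (nat_lit 5) (nat_lit 144) (nat_lit 4) (nat_lit 354) (nat_lit 279) (nat_lit 267)) (XT.lf (nat_lit 0) (nat_lit 203207316039) (nat_lit 76) (nat_lit 5407650971) (nat_lit 76) (nat_lit 5374270123) (nat_lit 143) (nat_lit 4) (nat_lit 144) (nat_lit 5) (nat_lit 144) (nat_lit 4) (nat_lit 355) (nat_lit 279) (nat_lit 266)))))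 (XT.nd (nat_lit 156) (nat_lit 228) (nat_lit 0) (XT.nd (nat_lit 78) (nat_lit 76) (nat_lit 0) (XT.lf (nat_lit 0) (nat_lit 81801521349) (nat_lit 152) (nat_lit 69437193025) (nat_lit 0) (nat_lit 81771759756) (nat_lit 141) (nat_lit 5) (nat_lit 143) (nat_lit 4) (nat_lit 141) (nat_lit 4) (nat_lit 356) (nat_lit 279) (nat_lit 265)) (XT.lf (nat_lit 0) (nat_lit 114364895631) (nat_lit 76) (nat_lit 70038510874) (nat_lit 76) (nat_lit 70008110351) (nat_lit 140) (nat_lit 4) (nat_lit 141) (nat_lit 5) (nat_lit 141) (nat_lit 4) (nat_lit 357) (nat_lit 279) (nat_lit 264))) (XT.nd (nat_lit 78) (nat_lit 76) (nat_lit 0) (XT.lf (nat_lit 0) (nat_lit 25769850520) (nat_lit 152) (nat_lit 226693089443) (nat_lit 0) (nat_lit 25742932160) (nat_lit 138) (nat_lit 5) (nat_lit 140) (nat_lit 4) (nat_lit 138) (nat_lit 4) (nat_lit 358) (nat_lit 279) (nat_lit 263)) (XT.nd (nat_lit 78) (nat_lit 76) (nat_lit 0) (XT.lf (nat_lit 0) (nat_lit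 137067813518) (nat_lit 152) (nat_lit 29712913428) (nat_lit 0) (nat_lit 137040475052) (nat_lit 138) (nat_lit 5) (nat_lit 140) (nat_lit 4) (nat_lit 138) (nat_lit 4) (nat_lit 359) (nat_lit 279) (nat_lit 262)) (XT.lf (nat_lit 0) (nat_lit 210541100044) (nat_lit 76) (nat_lit 60903879406) (nat_lit 76) (nat_lit 60876175630) (nat_lit 137) (nat_lit 4) (nat_lit 138) (nat_lit 5) (nat_lit 138) (nat_lit 4) (nat_lit 360) (nat_lit 279) (nat_lit 261))))))) (XT.nd (nat_lit 780) (nat_lit 760) (nat_lit 0) (XT.nd (nat_lit 390) (nat_lit 380) (nat_lit 0) (XT.nd (nat_lit 156) (nat_lit 228) (nat_lit 0) (XT.nd (nat_lit 78) (nat_lit 76) (nat_lit 0) (XT.lf (nat_lit 0) (nat_lit 62966926619) (nat_lit 152) (nat_lit 237682786553) (nat_lit 0) (nat_lit 62942560153) (nat_lit 135) (nat_lit 5) (nat_lit 137) (nat_lit 4) (nat_lit 135) (nat_lit 4) (nat_lit 361) (nat_lit 279) (nat_lit 260)) (XT.lf (nat_lit 0) (nat_lit 16159067565) (nat_lit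 76) (nat_lit 190899534163) (nat_lit 76) (nat_lit 190874927499) (nat_lit 134) (nat_lit 4) (nat_lit 135) (nat_lit 5) (nat_lit 135) (nat_lit 4) (nat_lit 362) (nat_lit 279) (nat_lit 259))) (XT.nd (nat_lit 78) (nat_lit 228) (nat_lit 0) (XT.lf (nat_lit 0) (nat_lit 330000524141) (nat_lit 76) (nat_lit 52960367674) (nat_lit 76) (nat_lit 52935552143) (nat_lit 134) (nat_lit 4) (nat_lit 135) (nat_lit 5) (nat_lit 135) (nat_lit 4) (nat_lit 363) (nat_lit 279) (nat_lit 258)) (XT.nd (nat_lit 78) (nat_lit 76) (nat_lit 0) (XT.lf (nat_lit 0) (nat_lit 108392052983) (nat_lit 152) (nat_lit 260318887708) (nat_lit 0) (nat_lit 108370316327) (nat_lit 132) (nat_lit 5) (nat_lit 134) (nat_lit 4) (nat_lit 132) (nat_lit 4) (nat_lit 364) (nat_lit 279) (nat_lit 257)) (XT.lf (nat_lit 0) (nat_lit 72931124909) (nat_lit 76) (nat_lit 224879833623) (nat_lit 76) (nat_lit 224857959633) (nat_lit 131) (nat_lit 4) (nat_lit 132) (nat_lit 5)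 (nat_lit 132) (nat_lit 4) (nat_lit 365) (nat_lit 279) (nat_lit 256))))) (XT.nd (nat_lit 156) (nat_lit 228) (nat_lit 0) (XT.nd (nat_lit 78) (nat_lit 152) (nat_lit 0) (XT.lf (nat_lit 0) (nat_lit 481260595394) (nat_lit 76) (nat_lit 46052763805) (nat_lit 76) (nat_lit 46030770394) (nat_lit 131) (nat_lit 4) (nat_lit 132) (nat_lit 5) (nat_lit 132) (nat_lit 4) (nat_lit 366) (nat_lit 279) (nat_lit 255)) (XT.lf (nat_lit 0) (nat_lit 165190352866) (nat_lit 152) (nat_lit 297300643931) (nat_lit 0) (nat_lit 165171137863) (nat_lit 129) (nat_lit 5) (nat_lit 131) (nat_lit 4) (nat_lit 129) (nat_lit 4) (nat_lit 367) (nat_lit 279) (nat_lit 254))) (XT.nd (nat_lit 78) (nat_lit 152) (nat_lit 0) (XT.lf (nat_lit 0) (nat_lit 141286979243) (nat_lit 76) (nat_lit 273416563833) (nat_lit 76) (nat_lit 273397270308) (nat_lit 128) (nat_lit 4) (nat_lit 129) (nat_lit 5) (nat_lit 129) (nat_lit 4) (nat_lit 368) (nat_lit 279) (nat_lit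 253)) (XT.nd (nat_lit 78) (nat_lit 152) (nat_lit 0) (XT.lf (nat_lit 0) (nat_lit 675454117393) (nat_lit 76) (nat_lit 40046036043) (nat_lit 76) (nat_lit 40026674239) (nat_lit 128) (nat_lit 4) (nat_lit 129) (nat_lit 5) (nat_lit 129) (nat_lit 4) (nat_lit 369) (nat_lit 279) (nat_lit 252)) (XT.lf (nat_lit 0) (nat_lit 237457091104) (nat_lit 152) (nat_lit 352335605073) (nat_lit 0) (nat_lit 237440203124) (nat_lit 126) (nat_lit 5) (nat_lit 128) (nat_lit 4) (nat_lit 126) (nat_lit 4) (nat_lit 370) (nat_lit 279) (nat_lit 251)))))) (XT.nd (nat_lit 390) (nat_lit 456) (nat_lit 0) (XT.nd (nat_lit 156) (nat_lit 228) (nat_lit 0) (XT.nd (nat_lit 78) (nat_lit 0) (nat_lit 0) (XT.lf (nat_lit 0) (nat_lit 225839550560) (nat_lit 76) (nat_lit 340734997404) (nat_lit 76) (nat_lit 340718064530) (nat_lit 125) (nat_lit 4) (nat_lit 126) (nat_lit 5) (nat_lit 126) (nat_lit 4) (nat_lit 371) (nat_lit 279) (nat_lit 250)) (XT.lf (nat_lit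 0) (nat_lit 927189854010) (nat_lit 76) (nat_lit 34822728358) (nat_lit 76) (nat_lit 34805756445) (nat_lit 125) (nat_lit 4) (nat_lit 126) (nat_lit 5) (nat_lit 126) (nat_lit 4) (nat_lit 372) (nat_lit 279) (nat_lit 249))) (XT.nd (nat_lit 78) (nat_lit 76) (nat_lit 0) (XT.lf (nat_lit 0) (nat_lit 330552481507) (nat_lit 152) (nat_lit 430446841481) (nat_lit 0) (nat_lit 330537693803) (nat_lit 123) (nat_lit 5) (nat_lit 125) (nat_lit 4) (nat_lit 123) (nat_lit 4) (nat_lit 373) (nat_lit 279) (nat_lit 248)) (XT.nd (nat_lit 78) (nat_lit 0) (nat_lit 0) (XT.lf (nat_lit 0) (nat_lit 332575038150) (nat_lit 76) (nat_lit 432484211497) (nat_lit 76) (nat_lit 432469398124) (nat_lit 122) (nat_lit 4) (nat_lit 123) (nat_lit 5) (nat_lit 123) (nat_lit 4) (nat_lit 374) (nat_lit 279) (nat_lit 247)) (XT.lf (nat_lit 0) (nat_lit 1255688429358) (nat_lit 76) (nat_lit 30280683852) (nat_lit 76) (nat_lit 30265848159) (nat_lit 122) (nat_lit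 4) (nat_lit 123) (nat_lit 5) (nat_lit 123) (nat_lit 4) (nat_lit 375) (nat_lit 279) (nat_lit 246))))) (XT.nd (nat_lit 156) (nat_lit 228) (nat_lit 0) (XT.nd (nat_lit 78) (nat_lit 76) (nat_lit 0) (XT.lf (nat_lit 0) (nat_lit 451516918035) (nat_lit 152) (nat_lit 538381578881) (nat_lit 0) (nat_lit 451504000554) (nat_lit 120) (nat_lit 5) (nat_lit 122) (nat_lit 4) (nat_lit 120) (nat_lit 4) (nat_lit 376) (nat_lit 279) (nat_lit 245)) (XT.lf (nat_lit 0) (nat_lit 469310713478) (nat_lit 76) (nat_lit 556188306481) (nat_lit 76) (nat_lit 556175374324) (nat_lit 119) (nat_lit 4) (nat_lit 120) (nat_lit 5) (nat_lit 120) (nat_lit 4) (nat_lit 377) (nat_lit 279) (nat_lit 244))) (XT.nd (nat_lit 78) (nat_lit 228) (nat_lit 0) (XT.lf (nat_lit 0) (nat_lit 1686282618042) (nat_lit 76) (nat_lit 26331058309) (nat_lit 76) (nat_lit 26318113391) (nat_lit 119) (nat_lit 4) (nat_lit 120) (nat_lit 5) (nat_lit 120) (nat_lit 4) (nat_lit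 378) (nat_lit 279) (nat_lit 243)) (XT.nd (nat_lit 78) (nat_lit 76) (nat_lit 0) (XT.lf (nat_lit 0) (nat_lit 609619163386) (nat_lit 152) (nat_lit 685153651079) (nat_lit 0) (nat_lit 609607897286) (nat_lit 117) (nat_lit 5) (nat_lit 119) (nat_lit 4) (nat_lit 117) (nat_lit 4) (nat_lit 379) (nat_lit 279) (nat_lit 242)) (XT.lf (nat_lit 0) (nat_lit 646298410624) (nat_lit 76) (nat_lit 721844172808) (nat_lit 76) (nat_lit 721832898317) (nat_lit 116) (nat_lit 4) (nat_lit 117) (nat_lit 5) (nat_lit 117) (nat_lit 4) (nat_lit 380) (nat_lit 279) (nat_lit 241))))))))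
noncomputable def xc11 : XT := (XT.nd (nat_lit 45084) (nat_lit 0) (nat_lit 456) (XT.nd (nat_lit 44304) (nat_lit 0) (nat_lit 2052) (XT.nd (nat_lit 43914) (nat_lit 0) (nat_lit 2888) (XT.nd (nat_lit 43680) (nat_lit 0) (nat_lit 3420) (XT.nd (nat_lit 78) (nat_lit 152) (nat_lit 0) (XT.lf (nat_lit 0) (nat_lit 2252399791534) (nat_lit 76) (nat_lit 22896588950) (nat_lit 76) (nat_lit 22885307162) (nat_lit 116) (nat_lit 4) (nat_lit 117) (nat_lit 5) (nat_lit 117) (nat_lit 4) (nat_lit 381) (nat_lit 279) (nat_lit 240)) (XT.lf (nat_lit 0) (nat_lit 817080500188) (nat_lit 152) (nat_lit 882762663399) (nat_lit 0) (nat_lit 817070684420) (nat_lit 114) (nat_lit 5) (nat_lit 116) (nat_lit 4) (nat_lit 114) (nat_lit 4) (nat_lit 382) (nat_lit 279) (nat_lit 239))) (XT.nd (nat_lit 78) (nat_lit 228) (nat_lit 0) (XT.lf (nat_lit 0) (nat_lit 11503038244) (nat_lit 152) (nat_lit 10137722812) (nat_lit 0) (nat_lit 11503038244) (nat_lit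 162) (nat_lit 5) (nat_lit 164) (nat_lit 4) (nat_lit 162) (nat_lit 4) (nat_lit 340) (nat_lit 280) (nat_lit 280)) (XT.nd (nat_lit 78) (nat_lit 152) (nat_lit 0) (XT.lf (nat_lit 0) (nat_lit 48917234146) (nat_lit 76) (nat_lit 11142284278) (nat_lit 76) (nat_lit 11128454814) (nat_lit 161) (nat_lit 4) (nat_lit 162) (nat_lit 5) (nat_lit 162) (nat_lit 4) (nat_lit 341) (nat_lit 280) (nat_lit 279)) (XT.lf (nat_lit 0) (nat_lit 24802581826) (nat_lit 152) (nat_lit 26891758338) (nat_lit 0) (nat_lit 24780099143) (nat_lit 159) (nat_lit 5) (nat_lit 161) (nat_lit 4) (nat_lit 159) (nat_lit 4) (nat_lit 342) (nat_lit 280) (nat_lit 278))))) (XT.nd (nat_lit 156) (nat_lit 304) (nat_lit 0) (XT.nd (nat_lit 78) (nat_lit 152) (nat_lit 0) (XT.lf (nat_lit 0) (nat_lit 48945159343) (nat_lit 76) (nat_lit 16728659853) (nat_lit 76) (nat_lit 16697084074) (nat_lit 158) (nat_lit 4) (nat_lit 159) (nat_lit 5) (nat_lit 159) (nat_lit 4)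 (nat_lit 343) (nat_lit 280) (nat_lit 277)) (XT.lf (nat_lit 0) (nat_lit 22784205620) (nat_lit 152) (nat_lit 43268463110) (nat_lit 0) (nat_lit 22749872732) (nat_lit 156) (nat_lit 5) (nat_lit 158) (nat_lit 4) (nat_lit 156) (nat_lit 4) (nat_lit 344) (nat_lit 280) (nat_lit 276))) (XT.nd (nat_lit 78) (nat_lit 228) (nat_lit 0) (XT.lf (nat_lit 0) (nat_lit 39351647931) (nat_lit 76) (nat_lit 28296423690) (nat_lit 76) (nat_lit 28256111944) (nat_lit 155) (nat_lit 4) (nat_lit 156) (nat_lit 5) (nat_lit 156) (nat_lit 4) (nat_lit 345) (nat_lit 280) (nat_lit 275)) (XT.nd (nat_lit 78) (nat_lit 76) (nat_lit 0) (XT.lf (nat_lit 0) (nat_lit 15064086684) (nat_lit 152) (nat_lit 73701613948) (nat_lit 0) (nat_lit 15024512115) (nat_lit 153) (nat_lit 5) (nat_lit 155) (nat_lit 4) (nat_lit 153) (nat_lit 4) (nat_lit 346) (nat_lit 280) (nat_lit 274)) (XT.lf (nat_lit 0) (nat_lit 15585004449) (nat_lit 76) (nat_lit 48407665908)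 (nat_lit 76) (nat_lit 48364160142) (nat_lit 152) (nat_lit 4) (nat_lit 153) (nat_lit 5) (nat_lit 153) (nat_lit 4) (nat_lit 347) (nat_lit 280) (nat_lit 273)))))) (XT.nd (nat_lit 390) (nat_lit 380) (nat_lit 0) (XT.nd (nat_lit 156) (nat_lit 304) (nat_lit 0) (XT.nd (nat_lit 78) (nat_lit 152) (nat_lit 0) (XT.lf (nat_lit 0) (nat_lit 120214599426) (nat_lit 76) (nat_lit 952398609) (nat_lit 76) (nat_lit 905474412) (nat_lit 152) (nat_lit 4) (nat_lit 153) (nat_lit 5) (nat_lit 153) (nat_lit 4) (nat_lit 348) (nat_lit 280) (nat_lit 272)) (XT.lf (nat_lit 0) (nat_lit 53136962506) (nat_lit 152) (nat_lit 26045077275) (nat_lit 0) (nat_lit 53093574030) (nat_lit 150) (nat_lit 5) (nat_lit 152) (nat_lit 4) (nat_lit 150) (nat_lit 4) (nat_lit 349) (nat_lit 280) (nat_lit 271))) (XT.nd (nat_lit 78) (nat_lit 228) (nat_lit 0) (XT.lf (nat_lit 0) (nat_lit 88788435421) (nat_lit 76) (nat_lit 27544489938) (nat_lit 76) (nat_lit 27498853788)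 (nat_lit 149) (nat_lit 4) (nat_lit 150) (nat_lit 5) (nat_lit 150) (nat_lit 4) (nat_lit 350) (nat_lit 280) (nat_lit 270)) (XT.nd (nat_lit 78) (nat_lit 76) (nat_lit 0) (XT.lf (nat_lit 0) (nat_lit 31955020847) (nat_lit 152) (nat_lit 92618620248) (nat_lit 0) (nat_lit 31913637673) (nat_lit 147) (nat_lit 5) (nat_lit 149) (nat_lit 4) (nat_lit 147) (nat_lit 4) (nat_lit 351) (nat_lit 280) (nat_lit 269)) (XT.lf (nat_lit 0) (nat_lit 30370257633) (nat_lit 76) (nat_lit 70041158326) (nat_lit 76) (nat_lit 69998297270) (nat_lit 146) (nat_lit 4) (nat_lit 147) (nat_lit 5) (nat_lit 147) (nat_lit 4) (nat_lit 352) (nat_lit 280) (nat_lit 268))))) (XT.nd (nat_lit 156) (nat_lit 228) (nat_lit 0) (XT.nd (nat_lit 78) (nat_lit 152) (nat_lit 0) (XT.lf (nat_lit 0) (nat_lit 176709327864) (nat_lit 76) (nat_lit 4706684902) (nat_lit 76) (nat_lit 4662538730) (nat_lit 146) (nat_lit 4) (nat_lit 147) (nat_lit 5) (nat_lit 147) (nat_lit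 4) (nat_lit 353) (nat_lit 280) (nat_lit 267)) (XT.lf (nat_lit 0) (nat_lit 71141768367) (nat_lit 152) (nat_lit 60374479776) (nat_lit 0) (nat_lit 71102408659) (nat_lit 144) (nat_lit 5) (nat_lit 146) (nat_lit 4) (nat_lit 144) (nat_lit 4) (nat_lit 354) (nat_lit 280) (nat_lit 266))) (XT.nd (nat_lit 78) (nat_lit 152) (nat_lit 0) (XT.lf (nat_lit 0) (nat_lit 99453878433) (nat_lit 76) (nat_lit 60907266747) (nat_lit 76) (nat_lit 60867062056) (nat_lit 143) (nat_lit 4) (nat_lit 144) (nat_lit 5) (nat_lit 144) (nat_lit 4) (nat_lit 355) (nat_lit 280) (nat_lit 265)) (XT.nd (nat_lit 78) (nat_lit 0) (nat_lit 0) (XT.lf (nat_lit 0) (nat_lit 22417419956) (nat_lit 152) (nat_lit 197119628809) (nat_lit 0) (nat_lit 22381820426) (nat_lit 141) (nat_lit 5) (nat_lit 143) (nat_lit 4) (nat_lit 141) (nat_lit 4) (nat_lit 356) (nat_lit 280) (nat_lit 264)) (XT.lf (nat_lit 0) (nat_lit 119198317752) (nat_lit 152) (nat_lit 25832579637)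 (nat_lit 0) (nat_lit 119162162631) (nat_lit 141) (nat_lit 5) (nat_lit 143) (nat_lit 4) (nat_lit 141) (nat_lit 4) (nat_lit 357) (nat_lit 280) (nat_lit 263))))))) (XT.nd (nat_lit 780) (nat_lit 836) (nat_lit 0) (XT.nd (nat_lit 390) (nat_lit 304) (nat_lit 0) (XT.nd (nat_lit 156) (nat_lit 228) (nat_lit 0) (XT.nd (nat_lit 78) (nat_lit 152) (nat_lit 0) (XT.lf (nat_lit 0) (nat_lit 183084359030) (nat_lit 76) (nat_lit 52963933659) (nat_lit 76) (nat_lit 52927295415) (nat_lit 140) (nat_lit 4) (nat_lit 141) (nat_lit 5) (nat_lit 141) (nat_lit 4) (nat_lit 358) (nat_lit 280) (nat_lit 262)) (XT.lf (nat_lit 0) (nat_lit 54761686536) (nat_lit 152) (nat_lit 206676650756) (nat_lit 0) (nat_lit 54729461884) (nat_lit 138) (nat_lit 5) (nat_lit 140) (nat_lit 4) (nat_lit 138) (nat_lit 4) (nat_lit 359) (nat_lit 280) (nat_lit 261))) (XT.nd (nat_lit 78) (nat_lit 152) (nat_lit 0) (XT.lf (nat_lit 0) (nat_lit 14055752544) (nat_lit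 76) (nat_lit 166003259077) (nat_lit 76) (nat_lit 165970716764) (nat_lit 137) (nat_lit 4) (nat_lit 138) (nat_lit 5) (nat_lit 138) (nat_lit 4) (nat_lit 360) (nat_lit 280) (nat_lit 260)) (XT.nd (nat_lit 78) (nat_lit 152) (nat_lit 0) (XT.lf (nat_lit 0) (nat_lit 286961333990) (nat_lit 76) (nat_lit 46056219418) (nat_lit 76) (nat_lit 46023400878) (nat_lit 137) (nat_lit 4) (nat_lit 138) (nat_lit 5) (nat_lit 138) (nat_lit 4) (nat_lit 361) (nat_lit 280) (nat_lit 259)) (XT.lf (nat_lit 0) (nat_lit 94260853018) (nat_lit 152) (nat_lit 226360821905) (nat_lit 0) (nat_lit 94232106290) (nat_lit 135) (nat_lit 5) (nat_lit 137) (nat_lit 4) (nat_lit 135) (nat_lit 4) (nat_lit 362) (nat_lit 280) (nat_lit 258))))) (XT.nd (nat_lit 156) (nat_lit 228) (nat_lit 0) (XT.nd (nat_lit 78) (nat_lit 0) (nat_lit 0) (XT.lf (nat_lit 0) (nat_lit 63422111121) (nat_lit 76) (nat_lit 195551008359) (nat_lit 76) (nat_lit 195522080007) (nat_lit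 134) (nat_lit 4) (nat_lit 135) (nat_lit 5) (nat_lit 135) (nat_lit 4) (nat_lit 363) (nat_lit 280) (nat_lit 257)) (XT.lf (nat_lit 0) (nat_lit 418491197041) (nat_lit 76) (nat_lit 40049243757) (nat_lit 76) (nat_lit 40020157472) (nat_lit 134) (nat_lit 4) (nat_lit 135) (nat_lit 5) (nat_lit 135) (nat_lit 4) (nat_lit 364) (nat_lit 280) (nat_lit 256))) (XT.nd (nat_lit 78) (nat_lit 76) (nat_lit 0) (XT.lf (nat_lit 0) (nat_lit 143649824886) (nat_lit 152) (nat_lit 258519363048) (nat_lit 0) (nat_lit 143624413043) (nat_lit 132) (nat_lit 5) (nat_lit 134) (nat_lit 4) (nat_lit 132) (nat_lit 4) (nat_lit 365) (nat_lit 280) (nat_lit 255)) (XT.nd (nat_lit 78) (nat_lit 0) (nat_lit 0) (XT.lf (nat_lit 0) (nat_lit 122861453379) (nat_lit 76) (nat_lit 237756507227) (nat_lit 76) (nat_lit 237730991541) (nat_lit 131) (nat_lit 4) (nat_lit 132) (nat_lit 5) (nat_lit 132) (nat_lit 4) (nat_lit 366) (nat_lit 280) (nat_lit 254)) (XT.lf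 (nat_lit 0) (nat_lit 587354606210) (nat_lit 76) (nat_lit 34825633645) (nat_lit 76) (nat_lit 34800027660) (nat_lit 131) (nat_lit 4) (nat_lit 132) (nat_lit 5) (nat_lit 132) (nat_lit 4) (nat_lit 367) (nat_lit 280) (nat_lit 253)))))) (XT.nd (nat_lit 390) (nat_lit 380) (nat_lit 0) (XT.nd (nat_lit 156) (nat_lit 228) (nat_lit 0) (XT.nd (nat_lit 78) (nat_lit 76) (nat_lit 0) (XT.lf (nat_lit 0) (nat_lit 206489704812) (nat_lit 152) (nat_lit 306376259736) (nat_lit 0) (nat_lit 206467370459) (nat_lit 129) (nat_lit 5) (nat_lit 131) (nat_lit 4) (nat_lit 129) (nat_lit 4) (nat_lit 368) (nat_lit 280) (nat_lit 252)) (XT.lf (nat_lit 0) (nat_lit 196384985061) (nat_lit 76) (nat_lit 296293933711) (nat_lit 76) (nat_lit 296271539985) (nat_lit 128) (nat_lit 4) (nat_lit 129) (nat_lit 5) (nat_lit 129) (nat_lit 4) (nat_lit 369) (nat_lit 280) (nat_lit 251))) (XT.nd (nat_lit 78) (nat_lit 228) (nat_lit 0) (XT.lf (nat_lit 0) (nat_lit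 806254807986) (nat_lit 76) (nat_lit 30283276496) (nat_lit 76) (nat_lit 30260831141) (nat_lit 128) (nat_lit 4) (nat_lit 129) (nat_lit 5) (nat_lit 129) (nat_lit 4) (nat_lit 370) (nat_lit 280) (nat_lit 250)) (XT.nd (nat_lit 78) (nat_lit 76) (nat_lit 0) (XT.lf (nat_lit 0) (nat_lit 287441544541) (nat_lit 152) (nat_lit 374299418388) (nat_lit 0) (nat_lit 287421987802) (nat_lit 126) (nat_lit 5) (nat_lit 128) (nat_lit 4) (nat_lit 126) (nat_lit 4) (nat_lit 371) (nat_lit 280) (nat_lit 249)) (XT.lf (nat_lit 0) (nat_lit 289198077525) (nat_lit 76) (nat_lit 376075542057) (nat_lit 76) (nat_lit 376055951372) (nat_lit 125) (nat_lit 4) (nat_lit 126) (nat_lit 5) (nat_lit 126) (nat_lit 4) (nat_lit 372) (nat_lit 280) (nat_lit 248))))) (XT.nd (nat_lit 156) (nat_lit 228) (nat_lit 0) (XT.nd (nat_lit 78) (nat_lit 152) (nat_lit 0) (XT.lf (nat_lit 0) (nat_lit 1091905370704) (nat_lit 76) (nat_lit 26333350692) (nat_lit 76)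 (nat_lit 26313730488) (nat_lit 125) (nat_lit 4) (nat_lit 126) (nat_lit 5) (nat_lit 126) (nat_lit 4) (nat_lit 373) (nat_lit 280) (nat_lit 247)) (XT.lf (nat_lit 0) (nat_lit 392627418979) (nat_lit 152) (nat_lit 468156004933) (nat_lit 0) (nat_lit 392610335611) (nat_lit 123) (nat_lit 5) (nat_lit 125) (nat_lit 4) (nat_lit 123) (nat_lit 4) (nat_lit 374) (nat_lit 280) (nat_lit 246))) (XT.nd (nat_lit 78) (nat_lit 152) (nat_lit 0) (XT.lf (nat_lit 0) (nat_lit 408098344699) (nat_lit 76) (nat_lit 483644033430) (nat_lit 76) (nat_lit 483626930653) (nat_lit 122) (nat_lit 4) (nat_lit 123) (nat_lit 5) (nat_lit 123) (nat_lit 4) (nat_lit 375) (nat_lit 280) (nat_lit 245)) (XT.nd (nat_lit 78) (nat_lit 152) (nat_lit 0) (XT.lf (nat_lit 0) (nat_lit 1466334781436) (nat_lit 76) (nat_lit 22898604003) (nat_lit 76) (nat_lit 22881484348) (nat_lit 122) (nat_lit 4) (nat_lit 123) (nat_lit 5) (nat_lit 123) (nat_lit 4) (nat_lit 376)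 (nat_lit 280) (nat_lit 244)) (XT.lf (nat_lit 0) (nat_lit 530107113843) (nat_lit 152) (nat_lit 595784145107) (nat_lit 0) (nat_lit 530092214425) (nat_lit 120) (nat_lit 5) (nat_lit 122) (nat_lit 4) (nat_lit 120) (nat_lit 4) (nat_lit 377) (nat_lit 280) (nat_lit 243))))))))
noncomputable def xc12 : XT := (XT.nd (nat_lit 44928) (nat_lit 0) (nat_lit 760) (XT.nd (nat_lit 44148) (nat_lit 0) (nat_lit 2356) (XT.nd (nat_lit 43758) (nat_lit 0) (nat_lit 3268) (XT.nd (nat_lit 156) (nat_lit 228) (nat_lit 0) (XT.nd (nat_lit 78) (nat_lit 0) (nat_lit 0) (XT.lf (nat_lit 0) (nat_lit 562000415169) (nat_lit 76) (nat_lit 627692356949) (nat_lit 76) (nat_lit 627677446433) (nat_lit 119) (nat_lit 4) (nat_lit 120) (nat_lit 5) (nat_lit 120) (nat_lit 4) (nat_lit 378) (nat_lit 280) (nat_lit 242)) (XT.lf (nat_lit 0) (nat_lit 1958610310461) (nat_lit 76) (nat_lit 19911851399) (nat_lit 76) (nat_lit 19896931234) (nat_lit 119) (nat_lit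 4) (nat_lit 120) (nat_lit 5) (nat_lit 120) (nat_lit 4) (nat_lit 379) (nat_lit 280) (nat_lit 241))) (XT.nd (nat_lit 78) (nat_lit 76) (nat_lit 0) (XT.lf (nat_lit 0) (nat_lit 710507823360) (nat_lit 152) (nat_lit 767618285328) (nat_lit 0) (nat_lit 710494842006) (nat_lit 117) (nat_lit 5) (nat_lit 119) (nat_lit 4) (nat_lit 117) (nat_lit 4) (nat_lit 380) (nat_lit 280) (nat_lit 240)) (XT.nd (nat_lit 78) (nat_lit 0) (nat_lit 0) (XT.lf (nat_lit 0) (nat_lit 762628475930) (nat_lit 76) (nat_lit 819751925596) (nat_lit 76) (nat_lit 819738937898) (nat_lit 116) (nat_lit 4) (nat_lit 117) (nat_lit 5) (nat_lit 117) (nat_lit 4) (nat_lit 381) (nat_lit 280) (nat_lit 239)) (XT.lf (nat_lit 0) (nat_lit 2607116546100) (nat_lit 76) (nat_lit 17314665873) (nat_lit 76) (nat_lit 17301672657) (nat_lit 116) (nat_lit 4) (nat_lit 117) (nat_lit 5) (nat_lit 117) (nat_lit 4) (nat_lit 382) (nat_lit 280) (nat_lit 238))))) (XT.nd (nat_lit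 156) (nat_lit 380) (nat_lit 0) (XT.nd (nat_lit 78) (nat_lit 76) (nat_lit 0) (XT.lf (nat_lit 0) (nat_lit 10011408020) (nat_lit 152) (nat_lit 8800165803) (nat_lit 0) (nat_lit 10011408020) (nat_lit 165) (nat_lit 5) (nat_lit 167) (nat_lit 4) (nat_lit 165) (nat_lit 4) (nat_lit 338) (nat_lit 281) (nat_lit 281)) (XT.lf (nat_lit 0) (nat_lit 42568012935) (nat_lit 76) (nat_lit 9678471472) (nat_lit 76) (nat_lit 9660182006) (nat_lit 164) (nat_lit 4) (nat_lit 165) (nat_lit 5) (nat_lit 165) (nat_lit 4) (nat_lit 339) (nat_lit 281) (nat_lit 280))) (XT.nd (nat_lit 78) (nat_lit 228) (nat_lit 0) (XT.lf (nat_lit 0) (nat_lit 21585940553) (nat_lit 152) (nat_lit 23360856813) (nat_lit 0) (nat_lit 21556207206) (nat_lit 162) (nat_lit 5) (nat_lit 164) (nat_lit 4) (nat_lit 162) (nat_lit 4) (nat_lit 340) (nat_lit 281) (nat_lit 279)) (XT.nd (nat_lit 78) (nat_lit 152) (nat_lit 0) (XT.lf (nat_lit 0) (nat_lit 42585128910) (nat_lit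 76) (nat_lit 14543324328) (nat_lit 76) (nat_lit 14501565359) (nat_lit 161) (nat_lit 4) (nat_lit 162) (nat_lit 5) (nat_lit 162) (nat_lit 4) (nat_lit 341) (nat_lit 281) (nat_lit 278)) (XT.lf (nat_lit 0) (nat_lit 19830546214) (nat_lit 152) (nat_lit 37606631885) (nat_lit 0) (nat_lit 19785140970) (nat_lit 159) (nat_lit 5) (nat_lit 161) (nat_lit 4) (nat_lit 159) (nat_lit 4) (nat_lit 342) (nat_lit 281) (nat_lit 277)))))) (XT.nd (nat_lit 390) (nat_lit 456) (nat_lit 0) (XT.nd (nat_lit 156) (nat_lit 228) (nat_lit 0) (XT.nd (nat_lit 78) (nat_lit 152) (nat_lit 0) (XT.lf (nat_lit 0) (nat_lit 34237769911) (nat_lit 76) (nat_lit 24606477886) (nat_lit 76) (nat_lit 24553165601) (nat_lit 158) (nat_lit 4) (nat_lit 159) (nat_lit 5) (nat_lit 159) (nat_lit 4) (nat_lit 343) (nat_lit 281) (nat_lit 276)) (XT.lf (nat_lit 0) (nat_lit 13116423858) (nat_lit 152) (nat_lit 64074002221) (nat_lit 0) (nat_lit 13064086491) (nat_lit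 156) (nat_lit 5) (nat_lit 158) (nat_lit 4) (nat_lit 156) (nat_lit 4) (nat_lit 344) (nat_lit 281) (nat_lit 275))) (XT.nd (nat_lit 78) (nat_lit 152) (nat_lit 0) (XT.lf (nat_lit 0) (nat_lit 13567318154) (nat_lit 76) (nat_lit 42096892396) (nat_lit 76) (nat_lit 42039356020) (nat_lit 155) (nat_lit 4) (nat_lit 156) (nat_lit 5) (nat_lit 156) (nat_lit 4) (nat_lit 345) (nat_lit 281) (nat_lit 274)) (XT.nd (nat_lit 78) (nat_lit 152) (nat_lit 0) (XT.lf (nat_lit 0) (nat_lit 104549035087) (nat_lit 76) (nat_lit 832451329) (nat_lit 76) (nat_lit 770394077) (nat_lit 155) (nat_lit 4) (nat_lit 156) (nat_lit 5) (nat_lit 156) (nat_lit 4) (nat_lit 346) (nat_lit 281) (nat_lit 273)) (XT.lf (nat_lit 0) (nat_lit 46222317188) (nat_lit 152) (nat_lit 22636698918) (nat_lit 0) (nat_lit 46164935928) (nat_lit 153) (nat_lit 5) (nat_lit 155) (nat_lit 4) (nat_lit 153) (nat_lit 4) (nat_lit 347) (nat_lit 281) (nat_lit 272))))) (XT.nd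 (nat_lit 156) (nat_lit 228) (nat_lit 0) (XT.nd (nat_lit 78) (nat_lit 152) (nat_lit 0) (XT.lf (nat_lit 0) (nat_lit 77219268733) (nat_lit 76) (nat_lit 23956876966) (nat_lit 76) (nat_lit 23896523157) (nat_lit 152) (nat_lit 4) (nat_lit 153) (nat_lit 5) (nat_lit 153) (nat_lit 4) (nat_lit 348) (nat_lit 281) (nat_lit 271)) (XT.lf (nat_lit 0) (nat_lit 27801641659) (nat_lit 152) (nat_lit 80528721833) (nat_lit 0) (nat_lit 27746912411) (nat_lit 150) (nat_lit 5) (nat_lit 152) (nat_lit 4) (nat_lit 150) (nat_lit 4) (nat_lit 349) (nat_lit 281) (nat_lit 270))) (XT.nd (nat_lit 78) (nat_lit 152) (nat_lit 0) (XT.lf (nat_lit 0) (nat_lit 26418795180) (nat_lit 76) (nat_lit 60910768003) (nat_lit 76) (nat_lit 60854084256) (nat_lit 149) (nat_lit 4) (nat_lit 150) (nat_lit 5) (nat_lit 150) (nat_lit 4) (nat_lit 350) (nat_lit 281) (nat_lit 269)) (XT.nd (nat_lit 78) (nat_lit 152) (nat_lit 0) (XT.lf (nat_lit 0) (nat_lit 153669957754)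 (nat_lit 76) (nat_lit 4098561646) (nat_lit 76) (nat_lit 4040178334) (nat_lit 149) (nat_lit 4) (nat_lit 150) (nat_lit 5) (nat_lit 150) (nat_lit 4) (nat_lit 351) (nat_lit 281) (nat_lit 268)) (XT.lf (nat_lit 0) (nat_lit 61875646388) (nat_lit 152) (nat_lit 52492025157) (nat_lit 0) (nat_lit 61823593176) (nat_lit 147) (nat_lit 5) (nat_lit 149) (nat_lit 4) (nat_lit 147) (nat_lit 4) (nat_lit 352) (nat_lit 281) (nat_lit 267))))))) (XT.nd (nat_lit 780) (nat_lit 836) (nat_lit 0) (XT.nd (nat_lit 390) (nat_lit 304) (nat_lit 0) (XT.nd (nat_lit 156) (nat_lit 228) (nat_lit 0) (XT.nd (nat_lit 78) (nat_lit 152) (nat_lit 0) (XT.lf (nat_lit 0) (nat_lit 86489757673) (nat_lit 76) (nat_lit 52968413417) (nat_lit 76) (nat_lit 52915242713) (nat_lit 146) (nat_lit 4) (nat_lit 147) (nat_lit 5) (nat_lit 147) (nat_lit 4) (nat_lit 353) (nat_lit 281) (nat_lit 266)) (XT.lf (nat_lit 0) (nat_lit 19505118452) (nat_lit 152) (nat_lit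 171402029117) (nat_lit 0) (nat_lit 19458038073) (nat_lit 144) (nat_lit 5) (nat_lit 146) (nat_lit 4) (nat_lit 144) (nat_lit 4) (nat_lit 354) (nat_lit 281) (nat_lit 265))) (XT.nd (nat_lit 78) (nat_lit 228) (nat_lit 0) (XT.lf (nat_lit 0) (nat_lit 103662500771) (nat_lit 152) (nat_lit 22456848856) (nat_lit 0) (nat_lit 103614685624) (nat_lit 144) (nat_lit 5) (nat_lit 146) (nat_lit 4) (nat_lit 144) (nat_lit 4) (nat_lit 355) (nat_lit 281) (nat_lit 264)) (XT.nd (nat_lit 78) (nat_lit 152) (nat_lit 0) (XT.lf (nat_lit 0) (nat_lit 159210590227) (nat_lit 76) (nat_lit 46060935433) (nat_lit 76) (nat_lit 46012481356) (nat_lit 143) (nat_lit 4) (nat_lit 144) (nat_lit 5) (nat_lit 144) (nat_lit 4) (nat_lit 356) (nat_lit 281) (nat_lit 263)) (XT.lf (nat_lit 0) (nat_lit 47629222689) (nat_lit 152) (nat_lit 179713492833) (nat_lit 0) (nat_lit 47586605587) (nat_lit 141) (nat_lit 5) (nat_lit 143) (nat_lit 4) (nat_lit 141)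 (nat_lit 4) (nat_lit 357) (nat_lit 281) (nat_lit 262))))) (XT.nd (nat_lit 156) (nat_lit 228) (nat_lit 0) (XT.nd (nat_lit 78) (nat_lit 0) (nat_lit 0) (XT.lf (nat_lit 0) (nat_lit 12228198557) (nat_lit 76) (nat_lit 144355505909) (nat_lit 76) (nat_lit 144312468700) (nat_lit 140) (nat_lit 4) (nat_lit 141) (nat_lit 5) (nat_lit 141) (nat_lit 4) (nat_lit 358) (nat_lit 281) (nat_lit 261)) (XT.lf (nat_lit 0) (nat_lit 249537356214) (nat_lit 76) (nat_lit 40053813805) (nat_lit 76) (nat_lit 40010411286) (nat_lit 140) (nat_lit 4) (nat_lit 141) (nat_lit 5) (nat_lit 141) (nat_lit 4) (nat_lit 359) (nat_lit 281) (nat_lit 260))) (XT.nd (nat_lit 78) (nat_lit 76) (nat_lit 0) (XT.lf (nat_lit 0) (nat_lit 81975076332) (nat_lit 152) (nat_lit 196830963413) (nat_lit 0) (nat_lit 81937058784) (nat_lit 138) (nat_lit 5) (nat_lit 140) (nat_lit 4) (nat_lit 138) (nat_lit 4) (nat_lit 360) (nat_lit 281) (nat_lit 259)) (XT.nd (nat_lit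 78) (nat_lit 0) (nat_lit 0) (XT.lf (nat_lit 0) (nat_lit 55154610157) (nat_lit 76) (nat_lit 170048754983) (nat_lit 76) (nat_lit 170010497238) (nat_lit 137) (nat_lit 4) (nat_lit 138) (nat_lit 5) (nat_lit 138) (nat_lit 4) (nat_lit 361) (nat_lit 281) (nat_lit 258)) (XT.lf (nat_lit 0) (nat_lit 363910312115) (nat_lit 76) (nat_lit 34829875847) (nat_lit 76) (nat_lit 34791409235) (nat_lit 137) (nat_lit 4) (nat_lit 138) (nat_lit 5) (nat_lit 138) (nat_lit 4) (nat_lit 362) (nat_lit 281) (nat_lit 257)))))) (XT.nd (nat_lit 390) (nat_lit 380) (nat_lit 0) (XT.nd (nat_lit 156) (nat_lit 228) (nat_lit 0) (XT.nd (nat_lit 78) (nat_lit 76) (nat_lit 0) (XT.lf (nat_lit 0) (nat_lit 124920878820) (nat_lit 152) (nat_lit 224795563239) (nat_lit 0) (nat_lit 124887271659) (nat_lit 135) (nat_lit 5) (nat_lit 137) (nat_lit 4) (nat_lit 135) (nat_lit 4) (nat_lit 363) (nat_lit 281) (nat_lit 256)) (XT.lf (nat_lit 0) (nat_lit 106840292379)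 (nat_lit 76) (nat_lit 206748721293) (nat_lit 76) (nat_lit 206714976798) (nat_lit 134) (nat_lit 4) (nat_lit 135) (nat_lit 5) (nat_lit 135) (nat_lit 4) (nat_lit 364) (nat_lit 281) (nat_lit 255))) (XT.nd (nat_lit 78) (nat_lit 228) (nat_lit 0) (XT.lf (nat_lit 0) (nat_lit 510747367545) (nat_lit 76) (nat_lit 30287118738) (nat_lit 76) (nat_lit 30253254822) (nat_lit 134) (nat_lit 4) (nat_lit 135) (nat_lit 5) (nat_lit 135) (nat_lit 4) (nat_lit 365) (nat_lit 281) (nat_lit 254)) (XT.nd (nat_lit 78) (nat_lit 76) (nat_lit 0) (XT.lf (nat_lit 0) (nat_lit 179563244899) (nat_lit 152) (nat_lit 266410796567) (nat_lit 0) (nat_lit 179533707716) (nat_lit 132) (nat_lit 5) (nat_lit 134) (nat_lit 4) (nat_lit 132) (nat_lit 4) (nat_lit 366) (nat_lit 281) (nat_lit 253)) (XT.lf (nat_lit 0) (nat_lit 170773211827) (nat_lit 76) (nat_lit 257650379198) (nat_lit 76) (nat_lit 257620763495) (nat_lit 131) (nat_lit 4) (nat_lit 132)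 (nat_lit 5) (nat_lit 132) (nat_lit 4) (nat_lit 367) (nat_lit 281) (nat_lit 252))))) (XT.nd (nat_lit 156) (nat_lit 228) (nat_lit 0) (XT.nd (nat_lit 78) (nat_lit 152) (nat_lit 0) (XT.lf (nat_lit 0) (nat_lit 701094788830) (nat_lit 76) (nat_lit 26336779463) (nat_lit 76) (nat_lit 26307095481) (nat_lit 131) (nat_lit 4) (nat_lit 132) (nat_lit 5) (nat_lit 132) (nat_lit 4) (nat_lit 368) (nat_lit 281) (nat_lit 251)) (XT.lf (nat_lit 0) (nat_lit 249955258089) (nat_lit 152) (nat_lit 325474868235) (nat_lit 0) (nat_lit 249929394301) (nat_lit 129) (nat_lit 5) (nat_lit 131) (nat_lit 4) (nat_lit 129) (nat_lit 4) (nat_lit 369) (nat_lit 281) (nat_lit 250))) (XT.nd (nat_lit 78) (nat_lit 152) (nat_lit 0) (XT.lf (nat_lit 0) (nat_lit 251479752806) (nat_lit 76) (nat_lit 327025271634) (nat_lit 76) (nat_lit 326999362953) (nat_lit 128) (nat_lit 4) (nat_lit 129) (nat_lit 5) (nat_lit 129) (nat_lit 4) (nat_lit 370) (nat_lit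 281) (nat_lit 249)) (XT.nd (nat_lit 78) (nat_lit 152) (nat_lit 0) (XT.lf (nat_lit 0) (nat_lit 949486090042) (nat_lit 76) (nat_lit 22901635680) (nat_lit 76) (nat_lit 22875687959) (nat_lit 128) (nat_lit 4) (nat_lit 129) (nat_lit 5) (nat_lit 129) (nat_lit 4) (nat_lit 371) (nat_lit 281) (nat_lit 248)) (XT.lf (nat_lit 0) (nat_lit 341420452798) (nat_lit 152) (nat_lit 407089679012) (nat_lit 0) (nat_lit 341397860044) (nat_lit 126) (nat_lit 5) (nat_lit 128) (nat_lit 4) (nat_lit 126) (nat_lit 4) (nat_lit 372) (nat_lit 281) (nat_lit 247))))))))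
noncomputable def xc13 : XT := (XT.nd (nat_lit 44772) (nat_lit 0) (nat_lit 1368) (XT.nd (nat_lit 43992) (nat_lit 0) (nat_lit 3040) (XT.nd (nat_lit 390) (nat_lit 456) (nat_lit 0) (XT.nd (nat_lit 156) (nat_lit 228) (nat_lit 0) (XT.nd (nat_lit 78) (nat_lit 0) (nat_lit 0) (XT.lf (nat_lit 0) (nat_lit 354870866191) (nat_lit 76) (nat_lit 420562710828) (nat_lit 76) (nat_lit 420540092405) (nat_lit 125) (nat_lit 4) (nat_lit 126) (nat_lit 5) (nat_lit 126) (nat_lit 4) (nat_lit 373) (nat_lit 281) (nat_lit 246)) (XT.lf (nat_lit 0) (nat_lit 1275076460689) (nat_lit 76) (nat_lit 19914516306) (nat_lit 76) (nat_lit 19891875563) (nat_lit 125) (nat_lit 4) (nat_lit 126) (nat_lit 5) (nat_lit 126) (nat_lit 4) (nat_lit 374) (nat_lit 281) (nat_lit 245))) (XT.nd (nat_lit 78) (nat_lit 76) (nat_lit 0) (XT.lf (nat_lit 0) (nat_lit 460967327853) (nat_lit 152) (nat_lit 518071002822) (nat_lit 0) (nat_lit 460947623373) (nat_lit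 123) (nat_lit 5) (nat_lit 125) (nat_lit 4) (nat_lit 123) (nat_lit 4) (nat_lit 375) (nat_lit 281) (nat_lit 244)) (XT.nd (nat_lit 78) (nat_lit 0) (nat_lit 0) (XT.lf (nat_lit 0) (nat_lit 488698390035) (nat_lit 76) (nat_lit 545821784160) (nat_lit 76) (nat_lit 545802065003) (nat_lit 122) (nat_lit 4) (nat_lit 123) (nat_lit 5) (nat_lit 123) (nat_lit 4) (nat_lit 376) (nat_lit 281) (nat_lit 243)) (XT.lf (nat_lit 0) (nat_lit 1703141775721) (nat_lit 76) (nat_lit 17316999573) (nat_lit 76) (nat_lit 17297267655) (nat_lit 122) (nat_lit 4) (nat_lit 123) (nat_lit 5) (nat_lit 123) (nat_lit 4) (nat_lit 377) (nat_lit 281) (nat_lit 242))))) (XT.nd (nat_lit 156) (nat_lit 228) (nat_lit 0) (XT.nd (nat_lit 78) (nat_lit 76) (nat_lit 0) (XT.lf (nat_lit 0) (nat_lit 617836911054) (nat_lit 152) (nat_lit 667492280593) (nat_lit 0) (nat_lit 617819743215) (nat_lit 120) (nat_lit 5) (nat_lit 122) (nat_lit 4) (nat_lit 120) (nat_lit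 4) (nat_lit 378) (nat_lit 281) (nat_lit 241)) (XT.lf (nat_lit 0) (nat_lit 663157259804) (nat_lit 76) (nat_lit 712829805572) (nat_lit 76) (nat_lit 712812629342) (nat_lit 119) (nat_lit 4) (nat_lit 120) (nat_lit 5) (nat_lit 120) (nat_lit 4) (nat_lit 379) (nat_lit 281) (nat_lit 240))) (XT.nd (nat_lit 78) (nat_lit 228) (nat_lit 0) (XT.lf (nat_lit 0) (nat_lit 2267059928646) (nat_lit 76) (nat_lit 15058277006) (nat_lit 76) (nat_lit 15041093479) (nat_lit 119) (nat_lit 4) (nat_lit 120) (nat_lit 5) (nat_lit 120) (nat_lit 4) (nat_lit 380) (nat_lit 281) (nat_lit 239)) (XT.nd (nat_lit 78) (nat_lit 76) (nat_lit 0) (XT.lf (nat_lit 0) (nat_lit 824226367726) (nat_lit 152) (nat_lit 867404949933) (nat_lit 0) (nat_lit 824211420011) (nat_lit 117) (nat_lit 5) (nat_lit 119) (nat_lit 4) (nat_lit 117) (nat_lit 4) (nat_lit 381) (nat_lit 281) (nat_lit 238)) (XT.lf (nat_lit 0) (nat_lit 891680821960) (nat_lit 76) (nat_lit 934874356679)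 (nat_lit 76) (nat_lit 934859404167) (nat_lit 116) (nat_lit 4) (nat_lit 117) (nat_lit 5) (nat_lit 117) (nat_lit 4) (nat_lit 382) (nat_lit 281) (nat_lit 237)))))) (XT.nd (nat_lit 390) (nat_lit 456) (nat_lit 0) (XT.nd (nat_lit 156) (nat_lit 380) (nat_lit 0) (XT.nd (nat_lit 78) (nat_lit 76) (nat_lit 0) (XT.lf (nat_lit 0) (nat_lit 8717165318) (nat_lit 152) (nat_lit 7632156130) (nat_lit 0) (nat_lit 8717165318) (nat_lit 168) (nat_lit 5) (nat_lit 170) (nat_lit 4) (nat_lit 168) (nat_lit 4) (nat_lit 336) (nat_lit 282) (nat_lit 282)) (XT.lf (nat_lit 0) (nat_lit 37057041261) (nat_lit 76) (nat_lit 8402213753) (nat_lit 76) (nat_lit 8378025934) (nat_lit 167) (nat_lit 4) (nat_lit 168) (nat_lit 5) (nat_lit 168) (nat_lit 4) (nat_lit 337) (nat_lit 282) (nat_lit 281))) (XT.nd (nat_lit 78) (nat_lit 228) (nat_lit 0) (XT.lf (nat_lit 0) (nat_lit 18794820372) (nat_lit 152) (nat_lit 20282999579) (nat_lit 0) (nat_lit 18755498020)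 (nat_lit 165) (nat_lit 5) (nat_lit 167) (nat_lit 4) (nat_lit 165) (nat_lit 4) (nat_lit 338) (nat_lit 282) (nat_lit 280)) (XT.nd (nat_lit 78) (nat_lit 152) (nat_lit 0) (XT.lf (nat_lit 0) (nat_lit 37062446618) (nat_lit 76) (nat_lit 12641956574) (nat_lit 76) (nat_lit 12586730338) (nat_lit 164) (nat_lit 4) (nat_lit 165) (nat_lit 5) (nat_lit 165) (nat_lit 4) (nat_lit 339) (nat_lit 282) (nat_lit 279)) (XT.lf (nat_lit 0) (nat_lit 17268014134) (nat_lit 152) (nat_lit 32677457121) (nat_lit 0) (nat_lit 17207965699) (nat_lit 162) (nat_lit 5) (nat_lit 164) (nat_lit 4) (nat_lit 162) (nat_lit 4) (nat_lit 340) (nat_lit 282) (nat_lit 278))))) (XT.nd (nat_lit 156) (nat_lit 228) (nat_lit 0) (XT.nd (nat_lit 78) (nat_lit 152) (nat_lit 0) (XT.lf (nat_lit 0) (nat_lit 29797029422) (nat_lit 76) (nat_lit 21398117053) (nat_lit 76) (nat_lit 21327611556) (nat_lit 161) (nat_lit 4) (nat_lit 162) (nat_lit 5) (nat_lit 162) (nat_lit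 4) (nat_lit 341) (nat_lit 282) (nat_lit 277)) (XT.lf (nat_lit 0) (nat_lit 11428356830) (nat_lit 152) (nat_lit 55697535568) (nat_lit 0) (nat_lit 11359140661) (nat_lit 159) (nat_lit 5) (nat_lit 161) (nat_lit 4) (nat_lit 159) (nat_lit 4) (nat_lit 342) (nat_lit 282) (nat_lit 276))) (XT.nd (nat_lit 78) (nat_lit 152) (nat_lit 0) (XT.lf (nat_lit 0) (nat_lit 11817691102) (nat_lit 76) (nat_lit 36610317786) (nat_lit 76) (nat_lit 36534225930) (nat_lit 158) (nat_lit 4) (nat_lit 159) (nat_lit 5) (nat_lit 159) (nat_lit 4) (nat_lit 343) (nat_lit 282) (nat_lit 275)) (XT.nd (nat_lit 78) (nat_lit 152) (nat_lit 0) (XT.lf (nat_lit 0) (nat_lit 90931513986) (nat_lit 76) (nat_lit 729529203) (nat_lit 76) (nat_lit 647458487) (nat_lit 158) (nat_lit 4) (nat_lit 159) (nat_lit 5) (nat_lit 159) (nat_lit 4) (nat_lit 344) (nat_lit 282) (nat_lit 274)) (XT.lf (nat_lit 0) (nat_lit 40214826893) (nat_lit 152) (nat_lit 19669281468)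 (nat_lit 0) (nat_lit 40138940177) (nat_lit 156) (nat_lit 5) (nat_lit 158) (nat_lit 4) (nat_lit 156) (nat_lit 4) (nat_lit 345) (nat_lit 282) (nat_lit 273))))))) (XT.nd (nat_lit 780) (nat_lit 760) (nat_lit 0) (XT.nd (nat_lit 390) (nat_lit 456) (nat_lit 0) (XT.nd (nat_lit 156) (nat_lit 228) (nat_lit 0) (XT.nd (nat_lit 78) (nat_lit 152) (nat_lit 0) (XT.lf (nat_lit 0) (nat_lit 67162972368) (nat_lit 76) (nat_lit 20838873285) (nat_lit 76) (nat_lit 20759055373) (nat_lit 155) (nat_lit 4) (nat_lit 156) (nat_lit 5) (nat_lit 156) (nat_lit 4) (nat_lit 346) (nat_lit 282) (nat_lit 272)) (XT.lf (nat_lit 0) (nat_lit 24194737692) (nat_lit 152) (nat_lit 70012796847) (nat_lit 0) (nat_lit 24122358262) (nat_lit 153) (nat_lit 5) (nat_lit 155) (nat_lit 4) (nat_lit 153) (nat_lit 4) (nat_lit 347) (nat_lit 282) (nat_lit 271))) (XT.nd (nat_lit 78) (nat_lit 152) (nat_lit 0) (XT.lf (nat_lit 0) (nat_lit 22985925721) (nat_lit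 76) (nat_lit 52973043828) (nat_lit 76) (nat_lit 52898079572) (nat_lit 152) (nat_lit 4) (nat_lit 153) (nat_lit 5) (nat_lit 153) (nat_lit 4) (nat_lit 348) (nat_lit 282) (nat_lit 270)) (XT.nd (nat_lit 78) (nat_lit 152) (nat_lit 0) (XT.lf (nat_lit 0) (nat_lit 133638842307) (nat_lit 76) (nat_lit 3571626788) (nat_lit 76) (nat_lit 3494414858) (nat_lit 152) (nat_lit 4) (nat_lit 153) (nat_lit 5) (nat_lit 153) (nat_lit 4) (nat_lit 349) (nat_lit 282) (nat_lit 269)) (XT.lf (nat_lit 0) (nat_lit 53822418630) (nat_lit 152) (nat_lit 45635290794) (nat_lit 0) (nat_lit 53753578256) (nat_lit 150) (nat_lit 5) (nat_lit 152) (nat_lit 4) (nat_lit 150) (nat_lit 4) (nat_lit 350) (nat_lit 282) (nat_lit 268))))) (XT.nd (nat_lit 156) (nat_lit 228) (nat_lit 0) (XT.nd (nat_lit 78) (nat_lit 152) (nat_lit 0) (XT.lf (nat_lit 0) (nat_lit 75219229257) (nat_lit 76) (nat_lit 46066859914) (nat_lit 76) (nat_lit 45996541657) (nat_lit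 149) (nat_lit 4) (nat_lit 150) (nat_lit 5) (nat_lit 150) (nat_lit 4) (nat_lit 351) (nat_lit 282) (nat_lit 267)) (XT.lf (nat_lit 0) (nat_lit 16976458771) (nat_lit 152) (nat_lit 149036853088) (nat_lit 0) (nat_lit 16914194969) (nat_lit 147) (nat_lit 5) (nat_lit 149) (nat_lit 4) (nat_lit 147) (nat_lit 4) (nat_lit 352) (nat_lit 282) (nat_lit 266))) (XT.nd (nat_lit 78) (nat_lit 228) (nat_lit 0) (XT.lf (nat_lit 0) (nat_lit 90156896874) (nat_lit 152) (nat_lit 19519410686) (nat_lit 0) (nat_lit 90093661341) (nat_lit 147) (nat_lit 5) (nat_lit 149) (nat_lit 4) (nat_lit 147) (nat_lit 4) (nat_lit 353) (nat_lit 282) (nat_lit 265)) (XT.nd (nat_lit 78) (nat_lit 152) (nat_lit 0) (XT.lf (nat_lit 0) (nat_lit 138452984193) (nat_lit 76) (nat_lit 40060050736) (nat_lit 76) (nat_lit 39995970219) (nat_lit 146) (nat_lit 4) (nat_lit 147) (nat_lit 5) (nat_lit 147) (nat_lit 4) (nat_lit 354) (nat_lit 282) (nat_lit 264)) (XT.lf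 (nat_lit 0) (nat_lit 41430422872) (nat_lit 152) (nat_lit 156265548366) (nat_lit 0) (nat_lit 41374061754) (nat_lit 144) (nat_lit 5) (nat_lit 146) (nat_lit 4) (nat_lit 144) (nat_lit 4) (nat_lit 355) (nat_lit 282) (nat_lit 263)))))) (XT.nd (nat_lit 390) (nat_lit 456) (nat_lit 0) (XT.nd (nat_lit 156) (nat_lit 228) (nat_lit 0) (XT.nd (nat_lit 78) (nat_lit 0) (nat_lit 0) (XT.lf (nat_lit 0) (nat_lit 10640893302) (nat_lit 76) (nat_lit 125532935504) (nat_lit 76) (nat_lit 125476018795) (nat_lit 143) (nat_lit 4) (nat_lit 144) (nat_lit 5) (nat_lit 144) (nat_lit 4) (nat_lit 356) (nat_lit 282) (nat_lit 262)) (XT.lf (nat_lit 0) (nat_lit 216996624908) (nat_lit 76) (nat_lit 34835919736) (nat_lit 76) (nat_lit 34778519905) (nat_lit 143) (nat_lit 4) (nat_lit 144) (nat_lit 5) (nat_lit 144) (nat_lit 4) (nat_lit 357) (nat_lit 282) (nat_lit 261))) (XT.nd (nat_lit 78) (nat_lit 76) (nat_lit 0) (XT.lf (nat_lit 0) (nat_lit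 71294732550) (nat_lit 152) (nat_lit 171151363414) (nat_lit 0) (nat_lit 71244454343) (nat_lit 141) (nat_lit 5) (nat_lit 143) (nat_lit 4) (nat_lit 141) (nat_lit 4) (nat_lit 358) (nat_lit 282) (nat_lit 260)) (XT.nd (nat_lit 78) (nat_lit 0) (nat_lit 0) (XT.lf (nat_lit 0) (nat_lit 47967074714) (nat_lit 76) (nat_lit 147874301446) (nat_lit 76) (nat_lit 147823705578) (nat_lit 140) (nat_lit 4) (nat_lit 141) (nat_lit 5) (nat_lit 141) (nat_lit 4) (nat_lit 359) (nat_lit 282) (nat_lit 259)) (XT.lf (nat_lit 0) (nat_lit 316450260841) (nat_lit 76) (nat_lit 30292729050) (nat_lit 76) (nat_lit 30241856956) (nat_lit 140) (nat_lit 4) (nat_lit 141) (nat_lit 5) (nat_lit 141) (nat_lit 4) (nat_lit 360) (nat_lit 282) (nat_lit 258))))) (XT.nd (nat_lit 156) (nat_lit 228) (nat_lit 0) (XT.nd (nat_lit 78) (nat_lit 76) (nat_lit 0) (XT.lf (nat_lit 0) (nat_lit 108637414769) (nat_lit 152) (nat_lit 195469267694) (nat_lit 0) (nat_lit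 108592969298) (nat_lit 138) (nat_lit 5) (nat_lit 140) (nat_lit 4) (nat_lit 138) (nat_lit 4) (nat_lit 361) (nat_lit 282) (nat_lit 257)) (XT.lf (nat_lit 0) (nat_lit 92910217355) (nat_lit 76) (nat_lit 179786697375) (nat_lit 76) (nat_lit 179742070281) (nat_lit 137) (nat_lit 4) (nat_lit 138) (nat_lit 5) (nat_lit 138) (nat_lit 4) (nat_lit 362) (nat_lit 282) (nat_lit 256))) (XT.nd (nat_lit 78) (nat_lit 228) (nat_lit 0) (XT.lf (nat_lit 0) (nat_lit 444133742128) (nat_lit 76) (nat_lit 26341860829) (nat_lit 76) (nat_lit 26297075800) (nat_lit 137) (nat_lit 4) (nat_lit 138) (nat_lit 5) (nat_lit 138) (nat_lit 4) (nat_lit 363) (nat_lit 282) (nat_lit 255)) (XT.nd (nat_lit 78) (nat_lit 76) (nat_lit 0) (XT.lf (nat_lit 0) (nat_lit 156151182930) (nat_lit 152) (nat_lit 231657141995) (nat_lit 0) (nat_lit 156112120007) (nat_lit 135) (nat_lit 5) (nat_lit 137) (nat_lit 4) (nat_lit 135) (nat_lit 4) (nat_lit 364) (nat_lit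 282) (nat_lit 254)) (XT.lf (nat_lit 0) (nat_lit 148503284887) (nat_lit 76) (nat_lit 224048410719) (nat_lit 76) (nat_lit 224009243952) (nat_lit 134) (nat_lit 4) (nat_lit 135) (nat_lit 5) (nat_lit 135) (nat_lit 4) (nat_lit 365) (nat_lit 282) (nat_lit 253))))))))
noncomputable def xc14 : XT := (XT.nd (nat_lit 44616) (nat_lit 0) (nat_lit 2052) (XT.nd (nat_lit 780) (nat_lit 608) (nat_lit 0) (XT.nd (nat_lit 390) (nat_lit 304) (nat_lit 0) (XT.nd (nat_lit 156) (nat_lit 228) (nat_lit 0) (XT.nd (nat_lit 78) (nat_lit 152) (nat_lit 0) (XT.lf (nat_lit 0) (nat_lit 609652471504) (nat_lit 76) (nat_lit 22906170229) (nat_lit 76) (nat_lit 22866913163) (nat_lit 134) (nat_lit 4) (nat_lit 135) (nat_lit 5) (nat_lit 135) (nat_lit 4) (nat_lit 366) (nat_lit 282) (nat_lit 252)) (XT.lf (nat_lit 0) (nat_lit 217360450938) (nat_lit 152) (nat_lit 283017806647) (nat_lit 0) (nat_lit 217326246079) (nat_lit 132) (nat_lit 5) (nat_lit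 134) (nat_lit 4) (nat_lit 132) (nat_lit 4) (nat_lit 367) (nat_lit 282) (nat_lit 251))) (XT.nd (nat_lit 78) (nat_lit 152) (nat_lit 0) (XT.lf (nat_lit 0) (nat_lit 218682229851) (nat_lit 76) (nat_lit 284373849791) (nat_lit 76) (nat_lit 284339585560) (nat_lit 131) (nat_lit 4) (nat_lit 132) (nat_lit 5) (nat_lit 132) (nat_lit 4) (nat_lit 368) (nat_lit 282) (nat_lit 250)) (XT.nd (nat_lit 78) (nat_lit 152) (nat_lit 0) (XT.lf (nat_lit 0) (nat_lit 825644256068) (nat_lit 76) (nat_lit 19918525699) (nat_lit 76) (nat_lit 19884209839) (nat_lit 131) (nat_lit 4) (nat_lit 132) (nat_lit 5) (nat_lit 132) (nat_lit 4) (nat_lit 369) (nat_lit 282) (nat_lit 249)) (XT.lf (nat_lit 0) (nat_lit 296894367259) (nat_lit 152) (nat_lit 353987720049) (nat_lit 0) (nat_lit 296864488342) (nat_lit 129) (nat_lit 5) (nat_lit 131) (nat_lit 4) (nat_lit 129) (nat_lit 4) (nat_lit 370) (nat_lit 282) (nat_lit 248))))) (XT.nd (nat_lit 156) (nat_lit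 228) (nat_lit 0) (XT.nd (nat_lit 78) (nat_lit 0) (nat_lit 0) (XT.lf (nat_lit 0) (nat_lit 308586986038) (nat_lit 76) (nat_lit 365710251692) (nat_lit 76) (nat_lit 365680338829) (nat_lit 128) (nat_lit 4) (nat_lit 129) (nat_lit 5) (nat_lit 129) (nat_lit 4) (nat_lit 371) (nat_lit 282) (nat_lit 247)) (XT.lf (nat_lit 0) (nat_lit 1108765760340) (nat_lit 76) (nat_lit 17320523913) (nat_lit 76) (nat_lit 17290581530) (nat_lit 128) (nat_lit 4) (nat_lit 129) (nat_lit 5) (nat_lit 129) (nat_lit 4) (nat_lit 372) (nat_lit 282) (nat_lit 246))) (XT.nd (nat_lit 78) (nat_lit 76) (nat_lit 0) (XT.lf (nat_lit 0) (nat_lit 400847264821) (nat_lit 152) (nat_lit 450493658551) (nat_lit 0) (nat_lit 400821205645) (nat_lit 126) (nat_lit 5) (nat_lit 128) (nat_lit 4) (nat_lit 126) (nat_lit 4) (nat_lit 373) (nat_lit 282) (nat_lit 245)) (XT.nd (nat_lit 78) (nat_lit 0) (nat_lit 0) (XT.lf (nat_lit 0) (nat_lit 424958265145) (nat_lit 76)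 (nat_lit 474630737460) (nat_lit 76) (nat_lit 474604658876) (nat_lit 125) (nat_lit 4) (nat_lit 126) (nat_lit 5) (nat_lit 126) (nat_lit 4) (nat_lit 374) (nat_lit 282) (nat_lit 244)) (XT.lf (nat_lit 0) (nat_lit 1480995989815) (nat_lit 76) (nat_lit 15061363325) (nat_lit 76) (nat_lit 15035267863) (nat_lit 125) (nat_lit 4) (nat_lit 126) (nat_lit 5) (nat_lit 126) (nat_lit 4) (nat_lit 375) (nat_lit 282) (nat_lit 243)))))) (XT.nd (nat_lit 390) (nat_lit 152) (nat_lit 0) (XT.nd (nat_lit 156) (nat_lit 228) (nat_lit 0) (XT.nd (nat_lit 78) (nat_lit 76) (nat_lit 0) (XT.lf (nat_lit 0) (nat_lit 537254805879) (nat_lit 152) (nat_lit 580425583037) (nat_lit 0) (nat_lit 537232101412) (nat_lit 123) (nat_lit 5) (nat_lit 125) (nat_lit 4) (nat_lit 123) (nat_lit 4) (nat_lit 376) (nat_lit 282) (nat_lit 242)) (XT.lf (nat_lit 0) (nat_lit 576661215557) (nat_lit 76) (nat_lit 619854708279) (nat_lit 76) (nat_lit 619831992714) (nat_lit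 122) (nat_lit 4) (nat_lit 123) (nat_lit 5) (nat_lit 123) (nat_lit 4) (nat_lit 377) (nat_lit 282) (nat_lit 241))) (XT.nd (nat_lit 78) (nat_lit 228) (nat_lit 0) (XT.lf (nat_lit 0) (nat_lit 1971359187312) (nat_lit 76) (nat_lit 13096859505) (nat_lit 76) (nat_lit 13074134290) (nat_lit 122) (nat_lit 4) (nat_lit 123) (nat_lit 5) (nat_lit 123) (nat_lit 4) (nat_lit 378) (nat_lit 282) (nat_lit 240)) (XT.nd (nat_lit 78) (nat_lit 76) (nat_lit 0) (XT.lf (nat_lit 0) (nat_lit 716723207739) (nat_lit 152) (nat_lit 754263013963) (nat_lit 0) (nat_lit 716703439386) (nat_lit 120) (nat_lit 5) (nat_lit 122) (nat_lit 4) (nat_lit 120) (nat_lit 4) (nat_lit 379) (nat_lit 282) (nat_lit 239)) (XT.lf (nat_lit 0) (nat_lit 775376998006) (nat_lit 76) (nat_lit 812936578928) (nat_lit 76) (nat_lit 812916804230) (nat_lit 119) (nat_lit 4) (nat_lit 120) (nat_lit 5) (nat_lit 120) (nat_lit 4) (nat_lit 380) (nat_lit 282) (nat_lit 238)))))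 (XT.nd (nat_lit 43212) (nat_lit 0) (nat_lit 3876) (XT.nd (nat_lit 78) (nat_lit 152) (nat_lit 0) (XT.lf (nat_lit 0) (nat_lit 2618202525971) (nat_lit 76) (nat_lit 11388585965) (nat_lit 76) (nat_lit 11368805750) (nat_lit 119) (nat_lit 4) (nat_lit 120) (nat_lit 5) (nat_lit 120) (nat_lit 4) (nat_lit 381) (nat_lit 282) (nat_lit 237)) (XT.lf (nat_lit 0) (nat_lit 953260981382) (nat_lit 152) (nat_lit 985904291141) (nat_lit 0) (nat_lit 953243777023) (nat_lit 117) (nat_lit 5) (nat_lit 119) (nat_lit 4) (nat_lit 117) (nat_lit 4) (nat_lit 382) (nat_lit 282) (nat_lit 236))) (XT.nd (nat_lit 78) (nat_lit 228) (nat_lit 0) (XT.lf (nat_lit 0) (nat_lit 7595475665) (nat_lit 152) (nat_lit 6609993313) (nat_lit 0) (nat_lit 7595475665) (nat_lit 171) (nat_lit 5) (nat_lit 173) (nat_lit 4) (nat_lit 171) (nat_lit 4) (nat_lit 334) (nat_lit 283) (nat_lit 283)) (XT.nd (nat_lit 78) (nat_lit 152) (nat_lit 0) (XT.lf (nat_lit 0) (nat_lit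 32278236332) (nat_lit 76) (nat_lit 7287958323) (nat_lit 76) (nat_lit 7255969932) (nat_lit 170) (nat_lit 4) (nat_lit 171) (nat_lit 5) (nat_lit 171) (nat_lit 4) (nat_lit 335) (nat_lit 283) (nat_lit 282)) (XT.lf (nat_lit 0) (nat_lit 16375640368) (nat_lit 152) (nat_lit 17596672546) (nat_lit 0) (nat_lit 16323636557) (nat_lit 168) (nat_lit 5) (nat_lit 170) (nat_lit 4) (nat_lit 168) (nat_lit 4) (nat_lit 336) (nat_lit 283) (nat_lit 281))))))) (XT.nd (nat_lit 780) (nat_lit 836) (nat_lit 0) (XT.nd (nat_lit 390) (nat_lit 456) (nat_lit 0) (XT.nd (nat_lit 156) (nat_lit 304) (nat_lit 0) (XT.nd (nat_lit 78) (nat_lit 152) (nat_lit 0) (XT.lf (nat_lit 0) (nat_lit 32270401855) (nat_lit 76) (nat_lit 10987170308) (nat_lit 76) (nat_lit 10914133610) (nat_lit 167) (nat_lit 4) (nat_lit 168) (nat_lit 5) (nat_lit 168) (nat_lit 4) (nat_lit 337) (nat_lit 283) (nat_lit 280)) (XT.lf (nat_lit 0) (nat_lit 15047485011) (nat_lit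 152) (nat_lit 28383490480) (nat_lit 0) (nat_lit 14968070956) (nat_lit 165) (nat_lit 5) (nat_lit 167) (nat_lit 4) (nat_lit 165) (nat_lit 4) (nat_lit 338) (nat_lit 283) (nat_lit 279))) (XT.nd (nat_lit 78) (nat_lit 228) (nat_lit 0) (XT.lf (nat_lit 0) (nat_lit 25943596381) (nat_lit 76) (nat_lit 18608618541) (nat_lit 76) (nat_lit 18515375021) (nat_lit 164) (nat_lit 4) (nat_lit 165) (nat_lit 5) (nat_lit 165) (nat_lit 4) (nat_lit 339) (nat_lit 283) (nat_lit 278)) (XT.nd (nat_lit 78) (nat_lit 76) (nat_lit 0) (XT.lf (nat_lit 0) (nat_lit 9967816061) (nat_lit 152) (nat_lit 48407527859) (nat_lit 0) (nat_lit 9876277679) (nat_lit 162) (nat_lit 5) (nat_lit 164) (nat_lit 4) (nat_lit 162) (nat_lit 4) (nat_lit 340) (nat_lit 283) (nat_lit 277)) (XT.lf (nat_lit 0) (nat_lit 10302733737) (nat_lit 76) (nat_lit 31840777962) (nat_lit 76) (nat_lit 31740146482) (nat_lit 161) (nat_lit 4) (nat_lit 162) (nat_lit 5) (nat_lit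 162) (nat_lit 4) (nat_lit 341) (nat_lit 283) (nat_lit 276))))) (XT.nd (nat_lit 156) (nat_lit 304) (nat_lit 0) (XT.nd (nat_lit 78) (nat_lit 152) (nat_lit 0) (XT.lf (nat_lit 0) (nat_lit 79096418624) (nat_lit 76) (nat_lit 641856562) (nat_lit 76) (nat_lit 533318041) (nat_lit 161) (nat_lit 4) (nat_lit 162) (nat_lit 5) (nat_lit 162) (nat_lit 4) (nat_lit 342) (nat_lit 283) (nat_lit 275)) (XT.lf (nat_lit 0) (nat_lit 34997858489) (nat_lit 152) (nat_lit 17084144001) (nat_lit 0) (nat_lit 34897498307) (nat_lit 159) (nat_lit 5) (nat_lit 161) (nat_lit 4) (nat_lit 159) (nat_lit 4) (nat_lit 343) (nat_lit 283) (nat_lit 274))) (XT.nd (nat_lit 78) (nat_lit 228) (nat_lit 0) (XT.lf (nat_lit 0) (nat_lit 58423456582) (nat_lit 76) (nat_lit 18129760788) (nat_lit 76) (nat_lit 18024201598) (nat_lit 158) (nat_lit 4) (nat_lit 159) (nat_lit 5) (nat_lit 159) (nat_lit 4) (nat_lit 344) (nat_lit 283) (nat_lit 273)) (XT.nd (nat_lit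 78) (nat_lit 76) (nat_lit 0) (XT.lf (nat_lit 0) (nat_lit 21064555032) (nat_lit 152) (nat_lit 60864586632) (nat_lit 0) (nat_lit 20968833235) (nat_lit 156) (nat_lit 5) (nat_lit 158) (nat_lit 4) (nat_lit 156) (nat_lit 4) (nat_lit 345) (nat_lit 283) (nat_lit 272)) (XT.lf (nat_lit 0) (nat_lit 20005033806) (nat_lit 76) (nat_lit 46072983632) (nat_lit 76) (nat_lit 45973843404) (nat_lit 155) (nat_lit 4) (nat_lit 156) (nat_lit 5) (nat_lit 156) (nat_lit 4) (nat_lit 346) (nat_lit 283) (nat_lit 271)))))) (XT.nd (nat_lit 390) (nat_lit 456) (nat_lit 0) (XT.nd (nat_lit 156) (nat_lit 228) (nat_lit 0) (XT.nd (nat_lit 78) (nat_lit 152) (nat_lit 0) (XT.lf (nat_lit 0) (nat_lit 116224606497) (nat_lit 76) (nat_lit 3115892959) (nat_lit 76) (nat_lit 3013780181) (nat_lit 155) (nat_lit 4) (nat_lit 156) (nat_lit 5) (nat_lit 156) (nat_lit 4) (nat_lit 347) (nat_lit 283) (nat_lit 270)) (XT.lf (nat_lit 0) (nat_lit 46825258448)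 (nat_lit 152) (nat_lit 39669704705) (nat_lit 0) (nat_lit 46734217054) (nat_lit 153) (nat_lit 5) (nat_lit 155) (nat_lit 4) (nat_lit 153) (nat_lit 4) (nat_lit 348) (nat_lit 283) (nat_lit 269))) (XT.nd (nat_lit 78) (nat_lit 152) (nat_lit 0) (XT.lf (nat_lit 0) (nat_lit 65422234809) (nat_lit 76) (nat_lit 40067885861) (nat_lit 76) (nat_lit 39974889967) (nat_lit 152) (nat_lit 4) (nat_lit 153) (nat_lit 5) (nat_lit 153) (nat_lit 4) (nat_lit 349) (nat_lit 283) (nat_lit 268)) (XT.nd (nat_lit 78) (nat_lit 0) (nat_lit 0) (XT.lf (nat_lit 0) (nat_lit 14782618566) (nat_lit 152) (nat_lit 129586168279) (nat_lit 0) (nat_lit 14700274688) (nat_lit 150) (nat_lit 5) (nat_lit 152) (nat_lit 4) (nat_lit 150) (nat_lit 4) (nat_lit 350) (nat_lit 283) (nat_lit 267)) (XT.lf (nat_lit 0) (nat_lit 78417921857) (nat_lit 152) (nat_lit 16962445045) (nat_lit 0) (nat_lit 78334292865) (nat_lit 150) (nat_lit 5) (nat_lit 152) (nat_lit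 4) (nat_lit 150) (nat_lit 4) (nat_lit 351) (nat_lit 283) (nat_lit 266))))) (XT.nd (nat_lit 156) (nat_lit 228) (nat_lit 0) (XT.nd (nat_lit 78) (nat_lit 152) (nat_lit 0) (XT.lf (nat_lit 0) (nat_lit 120405792133) (nat_lit 76) (nat_lit 34844168077) (nat_lit 76) (nat_lit 34759421593) (nat_lit 149) (nat_lit 4) (nat_lit 150) (nat_lit 5) (nat_lit 150) (nat_lit 4) (nat_lit 352) (nat_lit 283) (nat_lit 265)) (XT.lf (nat_lit 0) (nat_lit 36044582827) (nat_lit 152) (nat_lit 135873756491) (nat_lit 0) (nat_lit 35970045248) (nat_lit 147) (nat_lit 5) (nat_lit 149) (nat_lit 4) (nat_lit 147) (nat_lit 4) (nat_lit 353) (nat_lit 283) (nat_lit 264))) (XT.nd (nat_lit 78) (nat_lit 152) (nat_lit 0) (XT.lf (nat_lit 0) (nat_lit 9263103748) (nat_lit 76) (nat_lit 109167549760) (nat_lit 76) (nat_lit 109092277412) (nat_lit 146) (nat_lit 4) (nat_lit 147) (nat_lit 5) (nat_lit 147) (nat_lit 4) (nat_lit 354) (nat_lit 283) (nat_lit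 263)) (XT.nd (nat_lit 78) (nat_lit 152) (nat_lit 0) (XT.lf (nat_lit 0) (nat_lit 188702794106) (nat_lit 76) (nat_lit 30300722093) (nat_lit 76) (nat_lit 30224810816) (nat_lit 146) (nat_lit 4) (nat_lit 147) (nat_lit 5) (nat_lit 147) (nat_lit 4) (nat_lit 355) (nat_lit 283) (nat_lit 262)) (XT.lf (nat_lit 0) (nat_lit 62011365624) (nat_lit 152) (nat_lit 148819342723) (nat_lit 0) (nat_lit 61944872695) (nat_lit 144) (nat_lit 5) (nat_lit 146) (nat_lit 4) (nat_lit 144) (nat_lit 4) (nat_lit 356) (nat_lit 283) (nat_lit 261))))))))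
noncomputable def xc15 : XT := (XT.nd (nat_lit 1560) (nat_lit 456) (nat_lit 0) (XT.nd (nat_lit 780) (nat_lit 684) (nat_lit 0) (XT.nd (nat_lit 390) (nat_lit 456) (nat_lit 0) (XT.nd (nat_lit 156) (nat_lit 228) (nat_lit 0) (XT.nd (nat_lit 78) (nat_lit 0) (nat_lit 0) (XT.lf (nat_lit 0) (nat_lit 41719154381) (nat_lit 76) (nat_lit 128594044515) (nat_lit 76) (nat_lit 128527131480) (nat_lit 143) (nat_lit 4) (nat_lit 144) (nat_lit 5) (nat_lit 144) (nat_lit 4) (nat_lit 357) (nat_lit 283) (nat_lit 260)) (XT.lf (nat_lit 0) (nat_lit 275182750891) (nat_lit 76) (nat_lit 26349280466) (nat_lit 76) (nat_lit 26282002121) (nat_lit 143) (nat_lit 4) (nat_lit 144) (nat_lit 5) (nat_lit 144) (nat_lit 4) (nat_lit 358) (nat_lit 283) (nat_lit 259))) (XT.nd (nat_lit 78) (nat_lit 76) (nat_lit 0) (XT.lf (nat_lit 0) (nat_lit 94481287580) (nat_lit 152) (nat_lit 169966485057) (nat_lit 0) (nat_lit 94422508444) (nat_lit 141) (nat_lit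 5) (nat_lit 143) (nat_lit 4) (nat_lit 141) (nat_lit 4) (nat_lit 359) (nat_lit 283) (nat_lit 258)) (XT.nd (nat_lit 78) (nat_lit 0) (nat_lit 0) (XT.lf (nat_lit 0) (nat_lit 80798919569) (nat_lit 76) (nat_lit 156343136379) (nat_lit 76) (nat_lit 156284117046) (nat_lit 140) (nat_lit 4) (nat_lit 141) (nat_lit 5) (nat_lit 141) (nat_lit 4) (nat_lit 360) (nat_lit 283) (nat_lit 257)) (XT.lf (nat_lit 0) (nat_lit 386210655313) (nat_lit 76) (nat_lit 22912890335) (nat_lit 76) (nat_lit 22853662135) (nat_lit 140) (nat_lit 4) (nat_lit 141) (nat_lit 5) (nat_lit 141) (nat_lit 4) (nat_lit 361) (nat_lit 283) (nat_lit 256))))) (XT.nd (nat_lit 156) (nat_lit 228) (nat_lit 0) (XT.nd (nat_lit 78) (nat_lit 76) (nat_lit 0) (XT.lf (nat_lit 0) (nat_lit 135795845122) (nat_lit 152) (nat_lit 201435147277) (nat_lit 0) (nat_lit 135744184406) (nat_lit 138) (nat_lit 5) (nat_lit 140) (nat_lit 4) (nat_lit 138) (nat_lit 4) (nat_lit 362)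 (nat_lit 283) (nat_lit 255)) (XT.lf (nat_lit 0) (nat_lit 129139691868) (nat_lit 76) (nat_lit 194830792072) (nat_lit 76) (nat_lit 194778994023) (nat_lit 137) (nat_lit 4) (nat_lit 138) (nat_lit 5) (nat_lit 138) (nat_lit 4) (nat_lit 363) (nat_lit 283) (nat_lit 254))) (XT.nd (nat_lit 78) (nat_lit 228) (nat_lit 0) (XT.lf (nat_lit 0) (nat_lit 530138970325) (nat_lit 76) (nat_lit 19924522640) (nat_lit 76) (nat_lit 19872605170) (nat_lit 137) (nat_lit 4) (nat_lit 138) (nat_lit 5) (nat_lit 138) (nat_lit 4) (nat_lit 364) (nat_lit 283) (nat_lit 253)) (XT.nd (nat_lit 78) (nat_lit 76) (nat_lit 0) (XT.lf (nat_lit 0) (nat_lit 189019737335) (nat_lit 152) (nat_lit 246097391383) (nat_lit 0) (nat_lit 188974501410) (nat_lit 135) (nat_lit 5) (nat_lit 137) (nat_lit 4) (nat_lit 135) (nat_lit 4) (nat_lit 365) (nat_lit 283) (nat_lit 252)) (XT.lf (nat_lit 0) (nat_lit 190163993991) (nat_lit 76) (nat_lit 247286962484) (nat_lit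 76) (nat_lit 247241648038) (nat_lit 134) (nat_lit 4) (nat_lit 135) (nat_lit 5) (nat_lit 135) (nat_lit 4) (nat_lit 366) (nat_lit 283) (nat_lit 251)))))) (XT.nd (nat_lit 390) (nat_lit 304) (nat_lit 0) (XT.nd (nat_lit 156) (nat_lit 228) (nat_lit 0) (XT.nd (nat_lit 78) (nat_lit 152) (nat_lit 0) (XT.lf (nat_lit 0) (nat_lit 717957052117) (nat_lit 76) (nat_lit 17325826335) (nat_lit 76) (nat_lit 17280443610) (nat_lit 134) (nat_lit 4) (nat_lit 135) (nat_lit 5) (nat_lit 135) (nat_lit 4) (nat_lit 367) (nat_lit 283) (nat_lit 250)) (XT.lf (nat_lit 0) (nat_lit 258178294990) (nat_lit 152) (nat_lit 307811037640) (nat_lit 0) (nat_lit 258138780122) (nat_lit 132) (nat_lit 5) (nat_lit 134) (nat_lit 4) (nat_lit 132) (nat_lit 4) (nat_lit 368) (nat_lit 283) (nat_lit 249))) (XT.nd (nat_lit 78) (nat_lit 152) (nat_lit 0) (XT.lf (nat_lit 0) (nat_lit 268341302514) (nat_lit 76) (nat_lit 318013604927) (nat_lit 76) (nat_lit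 317974045164) (nat_lit 131) (nat_lit 4) (nat_lit 132) (nat_lit 5) (nat_lit 132) (nat_lit 4) (nat_lit 369) (nat_lit 283) (nat_lit 248)) (XT.nd (nat_lit 78) (nat_lit 152) (nat_lit 0) (XT.lf (nat_lit 0) (nat_lit 964148927683) (nat_lit 76) (nat_lit 15066024264) (nat_lit 76) (nat_lit 15026425463) (nat_lit 131) (nat_lit 4) (nat_lit 132) (nat_lit 5) (nat_lit 132) (nat_lit 4) (nat_lit 370) (nat_lit 283) (nat_lit 247)) (XT.lf (nat_lit 0) (nat_lit 348570919669) (nat_lit 152) (nat_lit 391729826321) (nat_lit 0) (nat_lit 348536456410) (nat_lit 129) (nat_lit 5) (nat_lit 131) (nat_lit 4) (nat_lit 129) (nat_lit 4) (nat_lit 371) (nat_lit 283) (nat_lit 246))))) (XT.nd (nat_lit 156) (nat_lit 228) (nat_lit 0) (XT.nd (nat_lit 78) (nat_lit 0) (nat_lit 0) (XT.lf (nat_lit 0) (nat_lit 369533083328) (nat_lit 76) (nat_lit 412726478908) (nat_lit 76) (nat_lit 412691989980) (nat_lit 128) (nat_lit 4) (nat_lit 129) (nat_lit 5)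 (nat_lit 129) (nat_lit 4) (nat_lit 372) (nat_lit 283) (nat_lit 245)) (XT.lf (nat_lit 0) (nat_lit 1287826754290) (nat_lit 76) (nat_lit 13100941162) (nat_lit 76) (nat_lit 13066429914) (nat_lit 128) (nat_lit 4) (nat_lit 129) (nat_lit 5) (nat_lit 129) (nat_lit 4) (nat_lit 373) (nat_lit 283) (nat_lit 244))) (XT.nd (nat_lit 78) (nat_lit 76) (nat_lit 0) (XT.lf (nat_lit 0) (nat_lit 467185125132) (nat_lit 152) (nat_lit 504714609177) (nat_lit 0) (nat_lit 467155098473) (nat_lit 126) (nat_lit 5) (nat_lit 128) (nat_lit 4) (nat_lit 126) (nat_lit 4) (nat_lit 374) (nat_lit 283) (nat_lit 243)) (XT.nd (nat_lit 78) (nat_lit 0) (nat_lit 0) (XT.lf (nat_lit 0) (nat_lit 501448144067) (nat_lit 76) (nat_lit 539007669447) (nat_lit 76) (nat_lit 538977628112) (nat_lit 125) (nat_lit 4) (nat_lit 126) (nat_lit 5) (nat_lit 126) (nat_lit 4) (nat_lit 375) (nat_lit 283) (nat_lit 242)) (XT.lf (nat_lit 0) (nat_lit 1714228987548) (nat_lit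 76) (nat_lit 11392151622) (nat_lit 76) (nat_lit 11362097525) (nat_lit 125) (nat_lit 4) (nat_lit 126) (nat_lit 5) (nat_lit 126) (nat_lit 4) (nat_lit 376) (nat_lit 283) (nat_lit 241))))))) (XT.nd (nat_lit 43680) (nat_lit 0) (nat_lit 2964) (XT.nd (nat_lit 390) (nat_lit 0) (nat_lit 0) (XT.nd (nat_lit 156) (nat_lit 228) (nat_lit 0) (XT.nd (nat_lit 78) (nat_lit 76) (nat_lit 0) (XT.lf (nat_lit 0) (nat_lit 623243691297) (nat_lit 152) (nat_lit 655878025249) (nat_lit 0) (nat_lit 623217547650) (nat_lit 123) (nat_lit 5) (nat_lit 125) (nat_lit 4) (nat_lit 123) (nat_lit 4) (nat_lit 377) (nat_lit 283) (nat_lit 240)) (XT.lf (nat_lit 0) (nat_lit 674244002441) (nat_lit 76) (nat_lit 706904488431) (nat_lit 76) (nat_lit 706878336393) (nat_lit 122) (nat_lit 4) (nat_lit 123) (nat_lit 5) (nat_lit 123) (nat_lit 4) (nat_lit 378) (nat_lit 283) (nat_lit 239))) (XT.nd (nat_lit 78) (nat_lit 228) (nat_lit 0) (XT.lf (nat_lit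 0) (nat_lit 2276700982409) (nat_lit 76) (nat_lit 9906235309) (nat_lit 76) (nat_lit 9880075975) (nat_lit 122) (nat_lit 4) (nat_lit 123) (nat_lit 5) (nat_lit 123) (nat_lit 4) (nat_lit 379) (nat_lit 283) (nat_lit 238)) (XT.nd (nat_lit 78) (nat_lit 76) (nat_lit 0) (XT.lf (nat_lit 0) (nat_lit 828927915763) (nat_lit 152) (nat_lit 857305597460) (nat_lit 0) (nat_lit 828905162998) (nat_lit 120) (nat_lit 5) (nat_lit 122) (nat_lit 4) (nat_lit 120) (nat_lit 4) (nat_lit 380) (nat_lit 283) (nat_lit 237)) (XT.lf (nat_lit 0) (nat_lit 901321467731) (nat_lit 76) (nat_lit 929721906991) (nat_lit 76) (nat_lit 929699149429) (nat_lit 119) (nat_lit 4) (nat_lit 120) (nat_lit 5) (nat_lit 120) (nat_lit 4) (nat_lit 381) (nat_lit 283) (nat_lit 236))))) (XT.nd (nat_lit 43056) (nat_lit 0) (nat_lit 3876) (XT.nd (nat_lit 42978) (nat_lit 0) (nat_lit 4180) (XT.lf (nat_lit 0) (nat_lit 3019313704888) (nat_lit 76) (nat_lit 8614127098)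 (nat_lit 76) (nat_lit 8591365364) (nat_lit 119) (nat_lit 4) (nat_lit 120) (nat_lit 5) (nat_lit 120) (nat_lit 4) (nat_lit 382) (nat_lit 283) (nat_lit 235)) (XT.lf (nat_lit 0) (nat_lit 6625037898) (nat_lit 152) (nat_lit 5712556880) (nat_lit 0) (nat_lit 6625037898) (nat_lit 174) (nat_lit 5) (nat_lit 176) (nat_lit 4) (nat_lit 174) (nat_lit 4) (nat_lit 332) (nat_lit 284) (nat_lit 284))) (XT.nd (nat_lit 78) (nat_lit 228) (nat_lit 0) (XT.lf (nat_lit 0) (nat_lit 28140401692) (nat_lit 76) (nat_lit 6313134131) (nat_lit 76) (nat_lit 6270829484) (nat_lit 173) (nat_lit 4) (nat_lit 174) (nat_lit 5) (nat_lit 174) (nat_lit 4) (nat_lit 333) (nat_lit 284) (nat_lit 283)) (XT.nd (nat_lit 78) (nat_lit 76) (nat_lit 0) (XT.lf (nat_lit 0) (nat_lit 14282428236) (nat_lit 152) (nat_lit 15247604315) (nat_lit 0) (nat_lit 14213653196) (nat_lit 171) (nat_lit 5) (nat_lit 173) (nat_lit 4) (nat_lit 171) (nat_lit 4) (nat_lit 334)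 (nat_lit 284) (nat_lit 282)) (XT.lf (nat_lit 0) (nat_lit 28117011848) (nat_lit 76) (nat_lit 9546343809) (nat_lit 76) (nat_lit 9449752777) (nat_lit 170) (nat_lit 4) (nat_lit 171) (nat_lit 5) (nat_lit 171) (nat_lit 4) (nat_lit 335) (nat_lit 284) (nat_lit 281)))))) (XT.nd (nat_lit 390) (nat_lit 456) (nat_lit 0) (XT.nd (nat_lit 156) (nat_lit 228) (nat_lit 0) (XT.nd (nat_lit 78) (nat_lit 76) (nat_lit 0) (XT.lf (nat_lit 0) (nat_lit 13126852248) (nat_lit 152) (nat_lit 24639386541) (nat_lit 0) (nat_lit 13021827160) (nat_lit 168) (nat_lit 5) (nat_lit 170) (nat_lit 4) (nat_lit 168) (nat_lit 4) (nat_lit 336) (nat_lit 284) (nat_lit 280)) (XT.lf (nat_lit 0) (nat_lit 22603471404) (nat_lit 76) (nat_lit 16183470835) (nat_lit 76) (nat_lit 16060156281) (nat_lit 167) (nat_lit 4) (nat_lit 168) (nat_lit 5) (nat_lit 168) (nat_lit 4) (nat_lit 337) (nat_lit 284) (nat_lit 279))) (XT.nd (nat_lit 78) (nat_lit 76) (nat_lit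 0) (XT.lf (nat_lit 0) (nat_lit 8707492527) (nat_lit 152) (nat_lit 42060292175) (nat_lit 0) (nat_lit 8586433016) (nat_lit 165) (nat_lit 5) (nat_lit 167) (nat_lit 4) (nat_lit 165) (nat_lit 4) (nat_lit 338) (nat_lit 284) (nat_lit 278)) (XT.nd (nat_lit 78) (nat_lit 0) (nat_lit 0) (XT.lf (nat_lit 0) (nat_lit 8993919502) (nat_lit 76) (nat_lit 27695196411) (nat_lit 76) (nat_lit 27562111279) (nat_lit 164) (nat_lit 4) (nat_lit 165) (nat_lit 5) (nat_lit 165) (nat_lit 4) (nat_lit 339) (nat_lit 284) (nat_lit 277)) (XT.lf (nat_lit 0) (nat_lit 68813267001) (nat_lit 76) (nat_lit 568032861) (nat_lit 76) (nat_lit 424490667) (nat_lit 164) (nat_lit 4) (nat_lit 165) (nat_lit 5) (nat_lit 165) (nat_lit 4) (nat_lit 340) (nat_lit 284) (nat_lit 276))))) (XT.nd (nat_lit 156) (nat_lit 228) (nat_lit 0) (XT.nd (nat_lit 78) (nat_lit 76) (nat_lit 0) (XT.lf (nat_lit 0) (nat_lit 30470537350) (nat_lit 152) (nat_lit 14829884146)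 (nat_lit 0) (nat_lit 30337811010) (nat_lit 162) (nat_lit 5) (nat_lit 164) (nat_lit 4) (nat_lit 162) (nat_lit 4) (nat_lit 341) (nat_lit 284) (nat_lit 275)) (XT.lf (nat_lit 0) (nat_lit 50830608830) (nat_lit 76) (nat_lit 15776913744) (nat_lit 76) (nat_lit 15637311716) (nat_lit 161) (nat_lit 4) (nat_lit 162) (nat_lit 5) (nat_lit 162) (nat_lit 4) (nat_lit 342) (nat_lit 284) (nat_lit 274))) (XT.nd (nat_lit 78) (nat_lit 76) (nat_lit 0) (XT.lf (nat_lit 0) (nat_lit 18350930059) (nat_lit 152) (nat_lit 52904426954) (nat_lit 0) (nat_lit 18224337983) (nat_lit 159) (nat_lit 5) (nat_lit 161) (nat_lit 4) (nat_lit 159) (nat_lit 4) (nat_lit 343) (nat_lit 284) (nat_lit 273)) (XT.nd (nat_lit 78) (nat_lit 0) (nat_lit 0) (XT.lf (nat_lit 0) (nat_lit 17418524200) (nat_lit 76) (nat_lit 40075984479) (nat_lit 76) (nat_lit 39944871527) (nat_lit 158) (nat_lit 4) (nat_lit 159) (nat_lit 5) (nat_lit 159) (nat_lit 4) (nat_lit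 344) (nat_lit 284) (nat_lit 272)) (XT.lf (nat_lit 0) (nat_lit 101087248654) (nat_lit 76) (nat_lit 2722869770) (nat_lit 76) (nat_lit 2587825622) (nat_lit 158) (nat_lit 4) (nat_lit 159) (nat_lit 5) (nat_lit 159) (nat_lit 4) (nat_lit 345) (nat_lit 284) (nat_lit 271))))))))
noncomputable def xc16 : XT := (XT.nd (nat_lit 1560) (nat_lit 1368) (nat_lit 0) (XT.nd (nat_lit 780) (nat_lit 684) (nat_lit 0) (XT.nd (nat_lit 390) (nat_lit 456) (nat_lit 0) (XT.nd (nat_lit 156) (nat_lit 228) (nat_lit 0) (XT.nd (nat_lit 78) (nat_lit 76) (nat_lit 0) (XT.lf (nat_lit 0) (nat_lit 40748238915) (nat_lit 152) (nat_lit 34477995455) (nat_lit 0) (nat_lit 40627836671) (nat_lit 156) (nat_lit 5) (nat_lit 158) (nat_lit 4) (nat_lit 156) (nat_lit 4) (nat_lit 346) (nat_lit 284) (nat_lit 270)) (XT.lf (nat_lit 0) (nat_lit 56907691724) (nat_lit 76) (nat_lit 34854530030) (nat_lit 76) (nat_lit 34731542960) (nat_lit 155) (nat_lit 4) (nat_lit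 156) (nat_lit 5) (nat_lit 156) (nat_lit 4) (nat_lit 347) (nat_lit 284) (nat_lit 269))) (XT.nd (nat_lit 78) (nat_lit 76) (nat_lit 0) (XT.lf (nat_lit 0) (nat_lit 12881536393) (nat_lit 152) (nat_lit 112668951089) (nat_lit 0) (nat_lit 12772636616) (nat_lit 153) (nat_lit 5) (nat_lit 155) (nat_lit 4) (nat_lit 153) (nat_lit 4) (nat_lit 348) (nat_lit 284) (nat_lit 268)) (XT.nd (nat_lit 78) (nat_lit 76) (nat_lit 0) (XT.lf (nat_lit 0) (nat_lit 68216767519) (nat_lit 152) (nat_lit 14735463496) (nat_lit 0) (nat_lit 68106168177) (nat_lit 153) (nat_lit 5) (nat_lit 155) (nat_lit 4) (nat_lit 153) (nat_lit 4) (nat_lit 349) (nat_lit 284) (nat_lit 267)) (XT.lf (nat_lit 0) (nat_lit 104716417085) (nat_lit 76) (nat_lit 30311630524) (nat_lit 76) (nat_lit 30199553298) (nat_lit 152) (nat_lit 4) (nat_lit 153) (nat_lit 5) (nat_lit 153) (nat_lit 4) (nat_lit 350) (nat_lit 284) (nat_lit 266))))) (XT.nd (nat_lit 156) (nat_lit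 228) (nat_lit 0) (XT.nd (nat_lit 78) (nat_lit 76) (nat_lit 0) (XT.lf (nat_lit 0) (nat_lit 31367089988) (nat_lit 152) (nat_lit 118138754940) (nat_lit 0) (nat_lit 31268514040) (nat_lit 150) (nat_lit 5) (nat_lit 152) (nat_lit 4) (nat_lit 150) (nat_lit 4) (nat_lit 351) (nat_lit 284) (nat_lit 265)) (XT.lf (nat_lit 0) (nat_lit 8068300234) (nat_lit 76) (nat_lit 94939512867) (nat_lit 76) (nat_lit 94839965187) (nat_lit 149) (nat_lit 4) (nat_lit 150) (nat_lit 5) (nat_lit 150) (nat_lit 4) (nat_lit 352) (nat_lit 284) (nat_lit 264))) (XT.nd (nat_lit 78) (nat_lit 228) (nat_lit 0) (XT.lf (nat_lit 0) (nat_lit 164102712740) (nat_lit 76) (nat_lit 26359851266) (nat_lit 76) (nat_lit 26259458602) (nat_lit 149) (nat_lit 4) (nat_lit 150) (nat_lit 5) (nat_lit 150) (nat_lit 4) (nat_lit 353) (nat_lit 284) (nat_lit 263)) (XT.nd (nat_lit 78) (nat_lit 76) (nat_lit 0) (XT.lf (nat_lit 0) (nat_lit 53944015235) (nat_lit 152) (nat_lit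 129397636933) (nat_lit 0) (nat_lit 53856078337) (nat_lit 147) (nat_lit 5) (nat_lit 149) (nat_lit 4) (nat_lit 147) (nat_lit 4) (nat_lit 354) (nat_lit 284) (nat_lit 262)) (XT.lf (nat_lit 0) (nat_lit 36288971296) (nat_lit 76) (nat_lit 111831085482) (nat_lit 76) (nat_lit 111742592994) (nat_lit 146) (nat_lit 4) (nat_lit 147) (nat_lit 5) (nat_lit 147) (nat_lit 4) (nat_lit 355) (nat_lit 284) (nat_lit 261)))))) (XT.nd (nat_lit 390) (nat_lit 304) (nat_lit 0) (XT.nd (nat_lit 156) (nat_lit 228) (nat_lit 0) (XT.nd (nat_lit 78) (nat_lit 152) (nat_lit 0) (XT.lf (nat_lit 0) (nat_lit 239300736687) (nat_lit 76) (nat_lit 22922702806) (nat_lit 76) (nat_lit 22833727195) (nat_lit 146) (nat_lit 4) (nat_lit 147) (nat_lit 5) (nat_lit 147) (nat_lit 4) (nat_lit 356) (nat_lit 284) (nat_lit 260)) (XT.lf (nat_lit 0) (nat_lit 82176117213) (nat_lit 152) (nat_lit 147787962168) (nat_lit 0) (nat_lit 82098381806) (nat_lit 144) (nat_lit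 5) (nat_lit 146) (nat_lit 4) (nat_lit 144) (nat_lit 4) (nat_lit 357) (nat_lit 284) (nat_lit 259))) (XT.nd (nat_lit 78) (nat_lit 152) (nat_lit 0) (XT.lf (nat_lit 0) (nat_lit 70269751231) (nat_lit 76) (nat_lit 135959649253) (nat_lit 76) (nat_lit 135881596185) (nat_lit 143) (nat_lit 4) (nat_lit 144) (nat_lit 5) (nat_lit 144) (nat_lit 4) (nat_lit 358) (nat_lit 284) (nat_lit 258)) (XT.nd (nat_lit 78) (nat_lit 152) (nat_lit 0) (XT.lf (nat_lit 0) (nat_lit 335845140649) (nat_lit 76) (nat_lit 19933409981) (nat_lit 76) (nat_lit 19855080686) (nat_lit 143) (nat_lit 4) (nat_lit 144) (nat_lit 5) (nat_lit 144) (nat_lit 4) (nat_lit 359) (nat_lit 284) (nat_lit 257)) (XT.lf (nat_lit 0) (nat_lit 118099488389) (nat_lit 152) (nat_lit 175153266611) (nat_lit 0) (nat_lit 118031167092) (nat_lit 141) (nat_lit 5) (nat_lit 143) (nat_lit 4) (nat_lit 141) (nat_lit 4) (nat_lit 360) (nat_lit 284) (nat_lit 256))))) (XT.nd (nat_lit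 156) (nat_lit 228) (nat_lit 0) (XT.nd (nat_lit 78) (nat_lit 0) (nat_lit 0) (XT.lf (nat_lit 0) (nat_lit 112303849109) (nat_lit 76) (nat_lit 169426130251) (nat_lit 76) (nat_lit 169357627330) (nat_lit 140) (nat_lit 4) (nat_lit 141) (nat_lit 5) (nat_lit 141) (nat_lit 4) (nat_lit 361) (nat_lit 284) (nat_lit 255)) (XT.lf (nat_lit 0) (nat_lit 460998855005) (nat_lit 76) (nat_lit 17333757290) (nat_lit 76) (nat_lit 17265096436) (nat_lit 140) (nat_lit 4) (nat_lit 141) (nat_lit 5) (nat_lit 141) (nat_lit 4) (nat_lit 362) (nat_lit 284) (nat_lit 254))) (XT.nd (nat_lit 78) (nat_lit 76) (nat_lit 0) (XT.lf (nat_lit 0) (nat_lit 164379073035) (nat_lit 152) (nat_lit 213991054097) (nat_lit 0) (nat_lit 164319248524) (nat_lit 138) (nat_lit 5) (nat_lit 140) (nat_lit 4) (nat_lit 138) (nat_lit 4) (nat_lit 363) (nat_lit 284) (nat_lit 253)) (XT.nd (nat_lit 78) (nat_lit 0) (nat_lit 0) (XT.lf (nat_lit 0) (nat_lit 165367312499)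 (nat_lit 76) (nat_lit 215039221916) (nat_lit 76) (nat_lit 214979293561) (nat_lit 137) (nat_lit 4) (nat_lit 138) (nat_lit 5) (nat_lit 138) (nat_lit 4) (nat_lit 364) (nat_lit 284) (nat_lit 252)) (XT.lf (nat_lit 0) (nat_lit 624317787048) (nat_lit 76) (nat_lit 15073036717) (nat_lit 76) (nat_lit 15013018063) (nat_lit 137) (nat_lit 4) (nat_lit 138) (nat_lit 5) (nat_lit 138) (nat_lit 4) (nat_lit 365) (nat_lit 284) (nat_lit 251))))))) (XT.nd (nat_lit 780) (nat_lit 532) (nat_lit 0) (XT.nd (nat_lit 390) (nat_lit 380) (nat_lit 0) (XT.nd (nat_lit 156) (nat_lit 228) (nat_lit 0) (XT.nd (nat_lit 78) (nat_lit 76) (nat_lit 0) (XT.lf (nat_lit 0) (nat_lit 224515137985) (nat_lit 152) (nat_lit 267655991083) (nat_lit 0) (nat_lit 224462879572) (nat_lit 135) (nat_lit 5) (nat_lit 137) (nat_lit 4) (nat_lit 135) (nat_lit 4) (nat_lit 366) (nat_lit 284) (nat_lit 250)) (XT.lf (nat_lit 0) (nat_lit 233346601687) (nat_lit 76)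 (nat_lit 276539772571) (nat_lit 76) (nat_lit 276487454785) (nat_lit 134) (nat_lit 4) (nat_lit 135) (nat_lit 5) (nat_lit 135) (nat_lit 4) (nat_lit 367) (nat_lit 284) (nat_lit 249))) (XT.nd (nat_lit 78) (nat_lit 228) (nat_lit 0) (XT.lf (nat_lit 0) (nat_lit 838396704368) (nat_lit 76) (nat_lit 13107105254) (nat_lit 76) (nat_lit 13054735839) (nat_lit 134) (nat_lit 4) (nat_lit 135) (nat_lit 5) (nat_lit 135) (nat_lit 4) (nat_lit 368) (nat_lit 284) (nat_lit 248)) (XT.nd (nat_lit 78) (nat_lit 76) (nat_lit 0) (XT.lf (nat_lit 0) (nat_lit 303115834257) (nat_lit 152) (nat_lit 340629619559) (nat_lit 0) (nat_lit 303070256596) (nat_lit 132) (nat_lit 5) (nat_lit 134) (nat_lit 4) (nat_lit 132) (nat_lit 4) (nat_lit 369) (nat_lit 284) (nat_lit 247)) (XT.lf (nat_lit 0) (nat_lit 321338613722) (nat_lit 76) (nat_lit 358898010631) (nat_lit 76) (nat_lit 358852399024) (nat_lit 131) (nat_lit 4) (nat_lit 132) (nat_lit 5) (nat_lit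 132) (nat_lit 4) (nat_lit 370) (nat_lit 284) (nat_lit 246))))) (XT.nd (nat_lit 156) (nat_lit 228) (nat_lit 0) (XT.nd (nat_lit 78) (nat_lit 152) (nat_lit 0) (XT.lf (nat_lit 0) (nat_lit 1119854845818) (nat_lit 76) (nat_lit 11397549613) (nat_lit 76) (nat_lit 11351908487) (nat_lit 131) (nat_lit 4) (nat_lit 132) (nat_lit 5) (nat_lit 132) (nat_lit 4) (nat_lit 371) (nat_lit 284) (nat_lit 245)) (XT.lf (nat_lit 0) (nat_lit 406257236123) (nat_lit 152) (nat_lit 438877918994) (nat_lit 0) (nat_lit 406217525867) (nat_lit 129) (nat_lit 5) (nat_lit 131) (nat_lit 4) (nat_lit 129) (nat_lit 4) (nat_lit 372) (nat_lit 284) (nat_lit 244))) (XT.nd (nat_lit 78) (nat_lit 152) (nat_lit 0) (XT.lf (nat_lit 0) (nat_lit 436046637044) (nat_lit 76) (nat_lit 468707049581) (nat_lit 76) (nat_lit 468667319916) (nat_lit 128) (nat_lit 4) (nat_lit 129) (nat_lit 5) (nat_lit 129) (nat_lit 4) (nat_lit 373) (nat_lit 284) (nat_lit 243))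 (XT.nd (nat_lit 78) (nat_lit 152) (nat_lit 0) (XT.lf (nat_lit 0) (nat_lit 1490638672840) (nat_lit 76) (nat_lit 9910950890) (nat_lit 76) (nat_lit 9871204347) (nat_lit 128) (nat_lit 4) (nat_lit 129) (nat_lit 5) (nat_lit 129) (nat_lit 4) (nat_lit 374) (nat_lit 284) (nat_lit 242)) (XT.lf (nat_lit 0) (nat_lit 541959128751) (nat_lit 152) (nat_lit 570324939944) (nat_lit 0) (nat_lit 541924553778) (nat_lit 126) (nat_lit 5) (nat_lit 128) (nat_lit 4) (nat_lit 126) (nat_lit 4) (nat_lit 375) (nat_lit 284) (nat_lit 241)))))) (XT.nd (nat_lit 390) (nat_lit 228) (nat_lit 0) (XT.nd (nat_lit 156) (nat_lit 228) (nat_lit 0) (XT.nd (nat_lit 78) (nat_lit 0) (nat_lit 0) (XT.lf (nat_lit 0) (nat_lit 586303278078) (nat_lit 76) (nat_lit 614703675341) (nat_lit 76) (nat_lit 614669089270) (nat_lit 125) (nat_lit 4) (nat_lit 126) (nat_lit 5) (nat_lit 126) (nat_lit 4) (nat_lit 376) (nat_lit 284) (nat_lit 240)) (XT.lf (nat_lit 0)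 (nat_lit 1979744129073) (nat_lit 76) (nat_lit 8618239997) (nat_lit 76) (nat_lit 8583644277) (nat_lit 125) (nat_lit 4) (nat_lit 126) (nat_lit 5) (nat_lit 126) (nat_lit 4) (nat_lit 377) (nat_lit 284) (nat_lit 239))) (XT.nd (nat_lit 78) (nat_lit 76) (nat_lit 0) (XT.lf (nat_lit 0) (nat_lit 720813923279) (nat_lit 152) (nat_lit 745479846056) (nat_lit 0) (nat_lit 720783832748) (nat_lit 123) (nat_lit 5) (nat_lit 125) (nat_lit 4) (nat_lit 123) (nat_lit 4) (nat_lit 378) (nat_lit 284) (nat_lit 238)) (XT.nd (nat_lit 78) (nat_lit 0) (nat_lit 0) (XT.lf (nat_lit 0) (nat_lit 783761400198) (nat_lit 76) (nat_lit 808457419850) (nat_lit 76) (nat_lit 808427322974) (nat_lit 122) (nat_lit 4) (nat_lit 123) (nat_lit 5) (nat_lit 123) (nat_lit 4) (nat_lit 379) (nat_lit 284) (nat_lit 237)) (XT.lf (nat_lit 0) (nat_lit 2625493779676) (nat_lit 76) (nat_lit 7494134218) (nat_lit 76) (nat_lit 7464031825) (nat_lit 122) (nat_lit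 4) (nat_lit 123) (nat_lit 5) (nat_lit 123) (nat_lit 4) (nat_lit 380) (nat_lit 284) (nat_lit 236))))) (XT.nd (nat_lit 42900) (nat_lit 0) (nat_lit 4180) (XT.nd (nat_lit 78) (nat_lit 76) (nat_lit 0) (XT.lf (nat_lit 0) (nat_lit 956818125330) (nat_lit 152) (nat_lit 978266753831) (nat_lit 0) (nat_lit 956791945164) (nat_lit 120) (nat_lit 5) (nat_lit 122) (nat_lit 4) (nat_lit 120) (nat_lit 4) (nat_lit 381) (nat_lit 284) (nat_lit 235)) (XT.lf (nat_lit 0) (nat_lit 1043807340083) (nat_lit 76) (nat_lit 1065282152378) (nat_lit 76) (nat_lit 1065255968584) (nat_lit 119) (nat_lit 4) (nat_lit 120) (nat_lit 5) (nat_lit 120) (nat_lit 4) (nat_lit 382) (nat_lit 284) (nat_lit 234))) (XT.nd (nat_lit 78) (nat_lit 228) (nat_lit 0) (XT.lf (nat_lit 0) (nat_lit 5787718126) (nat_lit 152) (nat_lit 4920804928) (nat_lit 0) (nat_lit 5787718126) (nat_lit 177) (nat_lit 5) (nat_lit 179) (nat_lit 4) (nat_lit 177) (nat_lit 4) (nat_lit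 330) (nat_lit 285) (nat_lit 285)) (XT.nd (nat_lit 78) (nat_lit 152) (nat_lit 0) (XT.lf (nat_lit 0) (nat_lit 24565623971) (nat_lit 76) (nat_lit 5457649669) (nat_lit 76) (nat_lit 5401701773) (nat_lit 176) (nat_lit 4) (nat_lit 177) (nat_lit 5) (nat_lit 177) (nat_lit 4) (nat_lit 331) (nat_lit 285) (nat_lit 284)) (XT.lf (nat_lit 0) (nat_lit 12476027733) (nat_lit 152) (nat_lit 13187569640) (nat_lit 0) (nat_lit 12385072742) (nat_lit 174) (nat_lit 5) (nat_lit 176) (nat_lit 4) (nat_lit 174) (nat_lit 4) (nat_lit 332) (nat_lit 285) (nat_lit 283))))))))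
noncomputable def xc17 : XT := (XT.nd (nat_lit 1560) (nat_lit 1444) (nat_lit 0) (XT.nd (nat_lit 780) (nat_lit 836) (nat_lit 0) (XT.nd (nat_lit 390) (nat_lit 456) (nat_lit 0) (XT.nd (nat_lit 156) (nat_lit 304) (nat_lit 0) (XT.nd (nat_lit 78) (nat_lit 152) (nat_lit 0) (XT.lf (nat_lit 0) (nat_lit 24523361556) (nat_lit 76) (nat_lit 8290962364) (nat_lit 76) (nat_lit 8163220724) (nat_lit 173) (nat_lit 4) (nat_lit 174) (nat_lit 5) (nat_lit 174) (nat_lit 4) (nat_lit 333) (nat_lit 285) (nat_lit 282)) (XT.lf (nat_lit 0) (nat_lit 11470308464) (nat_lit 152) (nat_lit 21370128162) (nat_lit 0) (nat_lit 11331412785) (nat_lit 171) (nat_lit 5) (nat_lit 173) (nat_lit 4) (nat_lit 171) (nat_lit 4) (nat_lit 334) (nat_lit 285) (nat_lit 281))) (XT.nd (nat_lit 78) (nat_lit 228) (nat_lit 0) (XT.lf (nat_lit 0) (nat_lit 19713147620) (nat_lit 76) (nat_lit 14075312193) (nat_lit 76) (nat_lit 13912228695) (nat_lit 170) (nat_lit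 4) (nat_lit 171) (nat_lit 5) (nat_lit 171) (nat_lit 4) (nat_lit 335) (nat_lit 285) (nat_lit 280)) (XT.nd (nat_lit 78) (nat_lit 76) (nat_lit 0) (XT.lf (nat_lit 0) (nat_lit 7624403029) (nat_lit 152) (nat_lit 36530246474) (nat_lit 0) (nat_lit 7464301826) (nat_lit 168) (nat_lit 5) (nat_lit 170) (nat_lit 4) (nat_lit 168) (nat_lit 4) (nat_lit 336) (nat_lit 285) (nat_lit 279)) (XT.lf (nat_lit 0) (nat_lit 7867114311) (nat_lit 76) (nat_lit 24092782085) (nat_lit 76) (nat_lit 23916776998) (nat_lit 167) (nat_lit 4) (nat_lit 168) (nat_lit 5) (nat_lit 168) (nat_lit 4) (nat_lit 337) (nat_lit 285) (nat_lit 278))))) (XT.nd (nat_lit 156) (nat_lit 304) (nat_lit 0) (XT.nd (nat_lit 78) (nat_lit 152) (nat_lit 0) (XT.lf (nat_lit 0) (nat_lit 59882287671) (nat_lit 76) (nat_lit 507030030) (nat_lit 76) (nat_lit 317195479) (nat_lit 167) (nat_lit 4) (nat_lit 168) (nat_lit 5) (nat_lit 168) (nat_lit 4) (nat_lit 338) (nat_lit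 285) (nat_lit 277)) (XT.lf (nat_lit 0) (nat_lit 26545867819) (nat_lit 152) (nat_lit 12861307613) (nat_lit 0) (nat_lit 26370337234) (nat_lit 165) (nat_lit 5) (nat_lit 167) (nat_lit 4) (nat_lit 165) (nat_lit 4) (nat_lit 339) (nat_lit 285) (nat_lit 276))) (XT.nd (nat_lit 78) (nat_lit 228) (nat_lit 0) (XT.lf (nat_lit 0) (nat_lit 44237034526) (nat_lit 76) (nat_lit 13734798950) (nat_lit 76) (nat_lit 13550175268) (nat_lit 164) (nat_lit 4) (nat_lit 165) (nat_lit 5) (nat_lit 165) (nat_lit 4) (nat_lit 340) (nat_lit 285) (nat_lit 275)) (XT.nd (nat_lit 78) (nat_lit 76) (nat_lit 0) (XT.lf (nat_lit 0) (nat_lit 16002197202) (nat_lit 152) (nat_lit 45975679544) (nat_lit 0) (nat_lit 15834779182) (nat_lit 162) (nat_lit 5) (nat_lit 164) (nat_lit 4) (nat_lit 162) (nat_lit 4) (nat_lit 341) (nat_lit 285) (nat_lit 274)) (XT.lf (nat_lit 0) (nat_lit 15176752160) (nat_lit 76) (nat_lit 34865240452) (nat_lit 76) (nat_lit 34691843573)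 (nat_lit 161) (nat_lit 4) (nat_lit 162) (nat_lit 5) (nat_lit 162) (nat_lit 4) (nat_lit 342) (nat_lit 285) (nat_lit 273)))))) (XT.nd (nat_lit 390) (nat_lit 456) (nat_lit 0) (XT.nd (nat_lit 156) (nat_lit 228) (nat_lit 0) (XT.nd (nat_lit 78) (nat_lit 152) (nat_lit 0) (XT.lf (nat_lit 0) (nat_lit 87931544225) (nat_lit 76) (nat_lit 2385431212) (nat_lit 76) (nat_lit 2206835326) (nat_lit 161) (nat_lit 4) (nat_lit 162) (nat_lit 5) (nat_lit 162) (nat_lit 4) (nat_lit 343) (nat_lit 285) (nat_lit 272)) (XT.lf (nat_lit 0) (nat_lit 35473749980) (nat_lit 152) (nat_lit 29957854191) (nat_lit 0) (nat_lit 35314518012) (nat_lit 159) (nat_lit 5) (nat_lit 161) (nat_lit 4) (nat_lit 159) (nat_lit 4) (nat_lit 344) (nat_lit 285) (nat_lit 271))) (XT.nd (nat_lit 78) (nat_lit 152) (nat_lit 0) (XT.lf (nat_lit 0) (nat_lit 49509801599) (nat_lit 76) (nat_lit 30325334207) (nat_lit 76) (nat_lit 30162683807) (nat_lit 158) (nat_lit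 4) (nat_lit 159) (nat_lit 5) (nat_lit 159) (nat_lit 4) (nat_lit 345) (nat_lit 285) (nat_lit 270)) (XT.nd (nat_lit 78) (nat_lit 0) (nat_lit 0) (XT.lf (nat_lit 0) (nat_lit 11237156524) (nat_lit 152) (nat_lit 97953595240) (nat_lit 0) (nat_lit 11093136568) (nat_lit 156) (nat_lit 5) (nat_lit 158) (nat_lit 4) (nat_lit 156) (nat_lit 4) (nat_lit 346) (nat_lit 285) (nat_lit 269)) (XT.lf (nat_lit 0) (nat_lit 59354993186) (nat_lit 152) (nat_lit 12794285191) (nat_lit 0) (nat_lit 59208725555) (nat_lit 156) (nat_lit 5) (nat_lit 158) (nat_lit 4) (nat_lit 156) (nat_lit 4) (nat_lit 347) (nat_lit 285) (nat_lit 268))))) (XT.nd (nat_lit 156) (nat_lit 228) (nat_lit 0) (XT.nd (nat_lit 78) (nat_lit 152) (nat_lit 0) (XT.lf (nat_lit 0) (nat_lit 91078554629) (nat_lit 76) (nat_lit 26374277665) (nat_lit 76) (nat_lit 26226055535) (nat_lit 155) (nat_lit 4) (nat_lit 156) (nat_lit 5) (nat_lit 156) (nat_lit 4) (nat_lit 348) (nat_lit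 285) (nat_lit 267)) (XT.lf (nat_lit 0) (nat_lit 27307436682) (nat_lit 152) (nat_lit 102713035566) (nat_lit 0) (nat_lit 27177069990) (nat_lit 153) (nat_lit 5) (nat_lit 155) (nat_lit 4) (nat_lit 153) (nat_lit 4) (nat_lit 349) (nat_lit 285) (nat_lit 266))) (XT.nd (nat_lit 78) (nat_lit 152) (nat_lit 0) (XT.lf (nat_lit 0) (nat_lit 7033670997) (nat_lit 76) (nat_lit 82570921687) (nat_lit 76) (nat_lit 82439269881) (nat_lit 152) (nat_lit 4) (nat_lit 153) (nat_lit 5) (nat_lit 153) (nat_lit 4) (nat_lit 350) (nat_lit 285) (nat_lit 265)) (XT.nd (nat_lit 78) (nat_lit 152) (nat_lit 0) (XT.lf (nat_lit 0) (nat_lit 142715635455) (nat_lit 76) (nat_lit 22936682689) (nat_lit 76) (nat_lit 22803913391) (nat_lit 152) (nat_lit 4) (nat_lit 153) (nat_lit 5) (nat_lit 153) (nat_lit 4) (nat_lit 351) (nat_lit 285) (nat_lit 264)) (XT.lf (nat_lit 0) (nat_lit 46935729015) (nat_lit 152) (nat_lit 112505815001) (nat_lit 0) (nat_lit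 46819432468) (nat_lit 150) (nat_lit 5) (nat_lit 152) (nat_lit 4) (nat_lit 150) (nat_lit 4) (nat_lit 352) (nat_lit 285) (nat_lit 263))))))) (XT.nd (nat_lit 780) (nat_lit 684) (nat_lit 0) (XT.nd (nat_lit 390) (nat_lit 456) (nat_lit 0) (XT.nd (nat_lit 156) (nat_lit 228) (nat_lit 0) (XT.nd (nat_lit 78) (nat_lit 0) (nat_lit 0) (XT.lf (nat_lit 0) (nat_lit 31570764215) (nat_lit 76) (nat_lit 97257881517) (nat_lit 76) (nat_lit 97140850200) (nat_lit 149) (nat_lit 4) (nat_lit 150) (nat_lit 5) (nat_lit 150) (nat_lit 4) (nat_lit 353) (nat_lit 285) (nat_lit 262)) (XT.lf (nat_lit 0) (nat_lit 208102657864) (nat_lit 76) (nat_lit 19946386974) (nat_lit 76) (nat_lit 19828716728) (nat_lit 149) (nat_lit 4) (nat_lit 150) (nat_lit 5) (nat_lit 150) (nat_lit 4) (nat_lit 354) (nat_lit 285) (nat_lit 261))) (XT.nd (nat_lit 78) (nat_lit 76) (nat_lit 0) (XT.lf (nat_lit 0) (nat_lit 71481927527) (nat_lit 152) (nat_lit 128499393601)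 (nat_lit 0) (nat_lit 71379122451) (nat_lit 147) (nat_lit 5) (nat_lit 149) (nat_lit 4) (nat_lit 147) (nat_lit 4) (nat_lit 355) (nat_lit 285) (nat_lit 260)) (XT.nd (nat_lit 78) (nat_lit 0) (nat_lit 0) (XT.lf (nat_lit 0) (nat_lit 61117120004) (nat_lit 76) (nat_lit 118237811260) (nat_lit 76) (nat_lit 118134586078) (nat_lit 146) (nat_lit 4) (nat_lit 147) (nat_lit 5) (nat_lit 147) (nat_lit 4) (nat_lit 356) (nat_lit 285) (nat_lit 259)) (XT.lf (nat_lit 0) (nat_lit 292052197637) (nat_lit 76) (nat_lit 17345510797) (nat_lit 76) (nat_lit 17241920305) (nat_lit 146) (nat_lit 4) (nat_lit 147) (nat_lit 5) (nat_lit 147) (nat_lit 4) (nat_lit 357) (nat_lit 285) (nat_lit 258))))) (XT.nd (nat_lit 156) (nat_lit 228) (nat_lit 0) (XT.nd (nat_lit 78) (nat_lit 76) (nat_lit 0) (XT.lf (nat_lit 0) (nat_lit 102716558799) (nat_lit 152) (nat_lit 152296964082) (nat_lit 0) (nat_lit 102626203884) (nat_lit 144) (nat_lit 5) (nat_lit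 146) (nat_lit 4) (nat_lit 144) (nat_lit 4) (nat_lit 358) (nat_lit 285) (nat_lit 257)) (XT.lf (nat_lit 0) (nat_lit 97666715763) (nat_lit 76) (nat_lit 147337716157) (nat_lit 76) (nat_lit 147247121045) (nat_lit 143) (nat_lit 4) (nat_lit 144) (nat_lit 5) (nat_lit 144) (nat_lit 4) (nat_lit 359) (nat_lit 285) (nat_lit 256))) (XT.nd (nat_lit 78) (nat_lit 228) (nat_lit 0) (XT.lf (nat_lit 0) (nat_lit 400879739440) (nat_lit 76) (nat_lit 15083525405) (nat_lit 76) (nat_lit 14992721426) (nat_lit 143) (nat_lit 4) (nat_lit 144) (nat_lit 5) (nat_lit 144) (nat_lit 4) (nat_lit 360) (nat_lit 285) (nat_lit 255)) (XT.nd (nat_lit 78) (nat_lit 76) (nat_lit 0) (XT.lf (nat_lit 0) (nat_lit 142956950531) (nat_lit 152) (nat_lit 186070346428) (nat_lit 0) (nat_lit 142877832615) (nat_lit 141) (nat_lit 5) (nat_lit 143) (nat_lit 4) (nat_lit 141) (nat_lit 4) (nat_lit 361) (nat_lit 285) (nat_lit 254)) (XT.lf (nat_lit 0) (nat_lit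 143807340732) (nat_lit 76) (nat_lit 186999991880) (nat_lit 76) (nat_lit 186920736630) (nat_lit 140) (nat_lit 4) (nat_lit 141) (nat_lit 5) (nat_lit 141) (nat_lit 4) (nat_lit 362) (nat_lit 285) (nat_lit 253)))))) (XT.nd (nat_lit 390) (nat_lit 304) (nat_lit 0) (XT.nd (nat_lit 156) (nat_lit 228) (nat_lit 0) (XT.nd (nat_lit 78) (nat_lit 152) (nat_lit 0) (XT.lf (nat_lit 0) (nat_lit 542894695653) (nat_lit 76) (nat_lit 13116379223) (nat_lit 76) (nat_lit 13037004553) (nat_lit 140) (nat_lit 4) (nat_lit 141) (nat_lit 5) (nat_lit 141) (nat_lit 4) (nat_lit 363) (nat_lit 285) (nat_lit 252)) (XT.lf (nat_lit 0) (nat_lit 195246785516) (nat_lit 152) (nat_lit 232736694993) (nat_lit 0) (nat_lit 195177673765) (nat_lit 138) (nat_lit 5) (nat_lit 140) (nat_lit 4) (nat_lit 138) (nat_lit 4) (nat_lit 364) (nat_lit 285) (nat_lit 251))) (XT.nd (nat_lit 78) (nat_lit 152) (nat_lit 0) (XT.lf (nat_lit 0) (nat_lit 202918471264)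 (nat_lit 76) (nat_lit 240477571012) (nat_lit 76) (nat_lit 240408380740) (nat_lit 137) (nat_lit 4) (nat_lit 138) (nat_lit 5) (nat_lit 138) (nat_lit 4) (nat_lit 365) (nat_lit 285) (nat_lit 250)) (XT.nd (nat_lit 78) (nat_lit 152) (nat_lit 0) (XT.lf (nat_lit 0) (nat_lit 729048987185) (nat_lit 76) (nat_lit 11405701624) (nat_lit 76) (nat_lit 11336443073) (nat_lit 137) (nat_lit 4) (nat_lit 138) (nat_lit 5) (nat_lit 138) (nat_lit 4) (nat_lit 366) (nat_lit 285) (nat_lit 249)) (XT.lf (nat_lit 0) (nat_lit 263593119495) (nat_lit 152) (nat_lit 296193040779) (nat_lit 0) (nat_lit 263532843040) (nat_lit 135) (nat_lit 5) (nat_lit 137) (nat_lit 4) (nat_lit 135) (nat_lit 4) (nat_lit 367) (nat_lit 285) (nat_lit 248))))) (XT.nd (nat_lit 156) (nat_lit 228) (nat_lit 0) (XT.nd (nat_lit 78) (nat_lit 0) (nat_lit 0) (XT.lf (nat_lit 0) (nat_lit 279432152317) (nat_lit 76) (nat_lit 312092394951) (nat_lit 76) (nat_lit 312032073601)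 (nat_lit 134) (nat_lit 4) (nat_lit 135) (nat_lit 5) (nat_lit 135) (nat_lit 4) (nat_lit 368) (nat_lit 285) (nat_lit 247)) (XT.lf (nat_lit 0) (nat_lit 973794088611) (nat_lit 76) (nat_lit 9918089733) (nat_lit 76) (nat_lit 9857729344) (nat_lit 134) (nat_lit 4) (nat_lit 135) (nat_lit 5) (nat_lit 135) (nat_lit 4) (nat_lit 369) (nat_lit 285) (nat_lit 246))) (XT.nd (nat_lit 78) (nat_lit 76) (nat_lit 0) (XT.lf (nat_lit 0) (nat_lit 353279462717) (nat_lit 152) (nat_lit 381627220355) (nat_lit 0) (nat_lit 353226945903) (nat_lit 132) (nat_lit 5) (nat_lit 134) (nat_lit 4) (nat_lit 132) (nat_lit 4) (nat_lit 370) (nat_lit 285) (nat_lit 245)) (XT.nd (nat_lit 78) (nat_lit 0) (nat_lit 0) (XT.lf (nat_lit 0) (nat_lit 379177300548) (nat_lit 76) (nat_lit 407577600668) (nat_lit 76) (nat_lit 407525058186) (nat_lit 131) (nat_lit 4) (nat_lit 132) (nat_lit 5) (nat_lit 132) (nat_lit 4) (nat_lit 371) (nat_lit 285) (nat_lit 244))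 (XT.lf (nat_lit 0) (nat_lit 1296213850750) (nat_lit 76) (nat_lit 8624476352) (nat_lit 76) (nat_lit 8571911549) (nat_lit 131) (nat_lit 4) (nat_lit 132) (nat_lit 5) (nat_lit 132) (nat_lit 4) (nat_lit 372) (nat_lit 285) (nat_lit 243))))))))
noncomputable def xc18 : XT := (XT.nd (nat_lit 44148) (nat_lit 0) (nat_lit 1976) (XT.nd (nat_lit 43368) (nat_lit 0) (nat_lit 3648) (XT.nd (nat_lit 390) (nat_lit 380) (nat_lit 0) (XT.nd (nat_lit 156) (nat_lit 228) (nat_lit 0) (XT.nd (nat_lit 78) (nat_lit 76) (nat_lit 0) (XT.lf (nat_lit 0) (nat_lit 471279510391) (nat_lit 152) (nat_lit 495929734424) (nat_lit 0) (nat_lit 471233784989) (nat_lit 129) (nat_lit 5) (nat_lit 131) (nat_lit 4) (nat_lit 129) (nat_lit 4) (nat_lit 373) (nat_lit 285) (nat_lit 242)) (XT.lf (nat_lit 0) (nat_lit 509834419910) (nat_lit 76) (nat_lit 534530384021) (nat_lit 76) (nat_lit 534484643943) (nat_lit 128) (nat_lit 4) (nat_lit 129) (nat_lit 5)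 (nat_lit 129) (nat_lit 4) (nat_lit 374) (nat_lit 285) (nat_lit 241))) (XT.nd (nat_lit 78) (nat_lit 228) (nat_lit 0) (XT.lf (nat_lit 0) (nat_lit 1721522114904) (nat_lit 76) (nat_lit 7499573526) (nat_lit 76) (nat_lit 7453820687) (nat_lit 128) (nat_lit 4) (nat_lit 129) (nat_lit 5) (nat_lit 129) (nat_lit 4) (nat_lit 375) (nat_lit 285) (nat_lit 240)) (XT.nd (nat_lit 78) (nat_lit 76) (nat_lit 0) (XT.lf (nat_lit 0) (nat_lit 626804026305) (nat_lit 152) (nat_lit 648239003725) (nat_lit 0) (nat_lit 626764231577) (nat_lit 126) (nat_lit 5) (nat_lit 128) (nat_lit 4) (nat_lit 126) (nat_lit 4) (nat_lit 376) (nat_lit 285) (nat_lit 239)) (XT.lf (nat_lit 0) (nat_lit 681536416217) (nat_lit 76) (nat_lit 703011196756) (nat_lit 76) (nat_lit 702971393637) (nat_lit 125) (nat_lit 4) (nat_lit 126) (nat_lit 5) (nat_lit 126) (nat_lit 4) (nat_lit 377) (nat_lit 285) (nat_lit 238))))) (XT.nd (nat_lit 156) (nat_lit 228) (nat_lit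 0) (XT.nd (nat_lit 78) (nat_lit 152) (nat_lit 0) (XT.lf (nat_lit 0) (nat_lit 2283042832284) (nat_lit 76) (nat_lit 6521384791) (nat_lit 76) (nat_lit 6481574376) (nat_lit 125) (nat_lit 4) (nat_lit 126) (nat_lit 5) (nat_lit 126) (nat_lit 4) (nat_lit 378) (nat_lit 285) (nat_lit 237)) (XT.lf (nat_lit 0) (nat_lit 832023859248) (nat_lit 152) (nat_lit 850662970048) (nat_lit 0) (nat_lit 831989235978) (nat_lit 123) (nat_lit 5) (nat_lit 125) (nat_lit 4) (nat_lit 123) (nat_lit 4) (nat_lit 379) (nat_lit 285) (nat_lit 236))) (XT.nd (nat_lit 78) (nat_lit 152) (nat_lit 0) (XT.lf (nat_lit 0) (nat_lit 907662697102) (nat_lit 76) (nat_lit 926336435970) (nat_lit 76) (nat_lit 926301807902) (nat_lit 122) (nat_lit 4) (nat_lit 123) (nat_lit 5) (nat_lit 123) (nat_lit 4) (nat_lit 380) (nat_lit 285) (nat_lit 235)) (XT.nd (nat_lit 78) (nat_lit 152) (nat_lit 0) (XT.lf (nat_lit 0) (nat_lit 3024828356953) (nat_lit 76) (nat_lit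 5670778822) (nat_lit 76) (nat_lit 5636146583) (nat_lit 122) (nat_lit 4) (nat_lit 123) (nat_lit 5) (nat_lit 123) (nat_lit 4) (nat_lit 381) (nat_lit 285) (nat_lit 234)) (XT.lf (nat_lit 0) (nat_lit 1103025927080) (nat_lit 152) (nat_lit 1119233849515) (nat_lit 0) (nat_lit 1102995808935) (nat_lit 120) (nat_lit 5) (nat_lit 122) (nat_lit 4) (nat_lit 120) (nat_lit 4) (nat_lit 382) (nat_lit 285) (nat_lit 233)))))) (XT.nd (nat_lit 390) (nat_lit 456) (nat_lit 0) (XT.nd (nat_lit 156) (nat_lit 380) (nat_lit 0) (XT.nd (nat_lit 78) (nat_lit 76) (nat_lit 0) (XT.lf (nat_lit 0) (nat_lit 5068262010) (nat_lit 152) (nat_lit 4217284913) (nat_lit 0) (nat_lit 5068262010) (nat_lit 180) (nat_lit 5) (nat_lit 182) (nat_lit 4) (nat_lit 180) (nat_lit 4) (nat_lit 328) (nat_lit 286) (nat_lit 286)) (XT.lf (nat_lit 0) (nat_lit 21487987904) (nat_lit 76) (nat_lit 4703419757) (nat_lit 76) (nat_lit 4629428665) (nat_lit 179) (nat_lit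 4) (nat_lit 180) (nat_lit 5) (nat_lit 180) (nat_lit 4) (nat_lit 329) (nat_lit 286) (nat_lit 285))) (XT.nd (nat_lit 78) (nat_lit 228) (nat_lit 0) (XT.lf (nat_lit 0) (nat_lit 10923473972) (nat_lit 152) (nat_lit 11373267747) (nat_lit 0) (nat_lit 10803185997) (nat_lit 177) (nat_lit 5) (nat_lit 179) (nat_lit 4) (nat_lit 177) (nat_lit 4) (nat_lit 330) (nat_lit 286) (nat_lit 284)) (XT.nd (nat_lit 78) (nat_lit 152) (nat_lit 0) (XT.lf (nat_lit 0) (nat_lit 21422244255) (nat_lit 76) (nat_lit 7196034835) (nat_lit 76) (nat_lit 7027096516) (nat_lit 176) (nat_lit 4) (nat_lit 177) (nat_lit 5) (nat_lit 177) (nat_lit 4) (nat_lit 331) (nat_lit 286) (nat_lit 283)) (XT.lf (nat_lit 0) (nat_lit 10047784131) (nat_lit 152) (nat_lit 18509420113) (nat_lit 0) (nat_lit 9864094595) (nat_lit 174) (nat_lit 5) (nat_lit 176) (nat_lit 4) (nat_lit 174) (nat_lit 4) (nat_lit 332) (nat_lit 286) (nat_lit 282))))) (XT.nd (nat_lit 156)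 (nat_lit 228) (nat_lit 0) (XT.nd (nat_lit 78) (nat_lit 152) (nat_lit 0) (XT.lf (nat_lit 0) (nat_lit 17218513108) (nat_lit 76) (nat_lit 12243010822) (nat_lit 76) (nat_lit 12027332896) (nat_lit 173) (nat_lit 4) (nat_lit 174) (nat_lit 5) (nat_lit 174) (nat_lit 4) (nat_lit 333) (nat_lit 286) (nat_lit 281)) (XT.lf (nat_lit 0) (nat_lit 6699572278) (nat_lit 152) (nat_lit 31707346676) (nat_lit 0) (nat_lit 6487838436) (nat_lit 171) (nat_lit 5) (nat_lit 173) (nat_lit 4) (nat_lit 171) (nat_lit 4) (nat_lit 334) (nat_lit 286) (nat_lit 280))) (XT.nd (nat_lit 78) (nat_lit 152) (nat_lit 0) (XT.lf (nat_lit 0) (nat_lit 6902220215) (nat_lit 76) (nat_lit 20963473727) (nat_lit 76) (nat_lit 20730706999) (nat_lit 170) (nat_lit 4) (nat_lit 171) (nat_lit 5) (nat_lit 171) (nat_lit 4) (nat_lit 335) (nat_lit 286) (nat_lit 279)) (XT.nd (nat_lit 78) (nat_lit 152) (nat_lit 0) (XT.lf (nat_lit 0) (nat_lit 52130622891) (nat_lit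 76) (nat_lit 458205104) (nat_lit 76) (nat_lit 207148909) (nat_lit 170) (nat_lit 4) (nat_lit 171) (nat_lit 5) (nat_lit 171) (nat_lit 4) (nat_lit 336) (nat_lit 286) (nat_lit 278)) (XT.lf (nat_lit 0) (nat_lit 23149155558) (nat_lit 152) (nat_lit 11138458300) (nat_lit 0) (nat_lit 22917016359) (nat_lit 168) (nat_lit 5) (nat_lit 170) (nat_lit 4) (nat_lit 168) (nat_lit 4) (nat_lit 337) (nat_lit 286) (nat_lit 277))))))) (XT.nd (nat_lit 780) (nat_lit 760) (nat_lit 0) (XT.nd (nat_lit 390) (nat_lit 456) (nat_lit 0) (XT.nd (nat_lit 156) (nat_lit 228) (nat_lit 0) (XT.nd (nat_lit 78) (nat_lit 152) (nat_lit 0) (XT.lf (nat_lit 0) (nat_lit 38515264550) (nat_lit 76) (nat_lit 11964124241) (nat_lit 76) (nat_lit 11719959422) (nat_lit 167) (nat_lit 4) (nat_lit 168) (nat_lit 5) (nat_lit 168) (nat_lit 4) (nat_lit 338) (nat_lit 286) (nat_lit 276)) (XT.lf (nat_lit 0) (nat_lit 13974290321) (nat_lit 152) (nat_lit 39941596977)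 (nat_lit 0) (nat_lit 13752879989) (nat_lit 165) (nat_lit 5) (nat_lit 167) (nat_lit 4) (nat_lit 165) (nat_lit 4) (nat_lit 339) (nat_lit 286) (nat_lit 275))) (XT.nd (nat_lit 78) (nat_lit 152) (nat_lit 0) (XT.lf (nat_lit 0) (nat_lit 13237127692) (nat_lit 76) (nat_lit 30339498740) (nat_lit 76) (nat_lit 30110181367) (nat_lit 164) (nat_lit 4) (nat_lit 165) (nat_lit 5) (nat_lit 165) (nat_lit 4) (nat_lit 340) (nat_lit 286) (nat_lit 274)) (XT.nd (nat_lit 78) (nat_lit 152) (nat_lit 0) (XT.lf (nat_lit 0) (nat_lit 76501343655) (nat_lit 76) (nat_lit 2097720553) (nat_lit 76) (nat_lit 1861527493) (nat_lit 164) (nat_lit 4) (nat_lit 165) (nat_lit 5) (nat_lit 165) (nat_lit 4) (nat_lit 341) (nat_lit 286) (nat_lit 273)) (XT.lf (nat_lit 0) (nat_lit 30900298709) (nat_lit 152) (nat_lit 26019875386) (nat_lit 0) (nat_lit 30689714432) (nat_lit 162) (nat_lit 5) (nat_lit 164) (nat_lit 4) (nat_lit 162) (nat_lit 4) (nat_lit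 342) (nat_lit 286) (nat_lit 272))))) (XT.nd (nat_lit 156) (nat_lit 228) (nat_lit 0) (XT.nd (nat_lit 78) (nat_lit 152) (nat_lit 0) (XT.lf (nat_lit 0) (nat_lit 43084868523) (nat_lit 76) (nat_lit 26392400786) (nat_lit 76) (nat_lit 26177295632) (nat_lit 161) (nat_lit 4) (nat_lit 162) (nat_lit 5) (nat_lit 162) (nat_lit 4) (nat_lit 343) (nat_lit 286) (nat_lit 271)) (XT.lf (nat_lit 0) (nat_lit 9818813106) (nat_lit 152) (nat_lit 85151375293) (nat_lit 0) (nat_lit 9628346714) (nat_lit 159) (nat_lit 5) (nat_lit 161) (nat_lit 4) (nat_lit 159) (nat_lit 4) (nat_lit 344) (nat_lit 286) (nat_lit 270))) (XT.nd (nat_lit 78) (nat_lit 228) (nat_lit 0) (XT.lf (nat_lit 0) (nat_lit 51660733394) (nat_lit 152) (nat_lit 11100124527) (nat_lit 0) (nat_lit 51467294452) (nat_lit 159) (nat_lit 5) (nat_lit 161) (nat_lit 4) (nat_lit 159) (nat_lit 4) (nat_lit 345) (nat_lit 286) (nat_lit 269)) (XT.nd (nat_lit 78) (nat_lit 152) (nat_lit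 0) (XT.lf (nat_lit 0) (nat_lit 79226252005) (nat_lit 76) (nat_lit 22955761601) (nat_lit 76) (nat_lit 22759737834) (nat_lit 158) (nat_lit 4) (nat_lit 159) (nat_lit 5) (nat_lit 159) (nat_lit 4) (nat_lit 346) (nat_lit 286) (nat_lit 268)) (XT.lf (nat_lit 0) (nat_lit 23787528640) (nat_lit 152) (nat_lit 89294104455) (nat_lit 0) (nat_lit 23615118691) (nat_lit 156) (nat_lit 5) (nat_lit 158) (nat_lit 4) (nat_lit 156) (nat_lit 4) (nat_lit 347) (nat_lit 286) (nat_lit 267)))))) (XT.nd (nat_lit 390) (nat_lit 456) (nat_lit 0) (XT.nd (nat_lit 156) (nat_lit 228) (nat_lit 0) (XT.nd (nat_lit 78) (nat_lit 0) (nat_lit 0) (XT.lf (nat_lit 0) (nat_lit 6139720274) (nat_lit 76) (nat_lit 71820405602) (nat_lit 76) (nat_lit 71646296088) (nat_lit 155) (nat_lit 4) (nat_lit 156) (nat_lit 5) (nat_lit 156) (nat_lit 4) (nat_lit 348) (nat_lit 286) (nat_lit 266)) (XT.lf (nat_lit 0) (nat_lit 124123860808) (nat_lit 76) (nat_lit 19964875368)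 (nat_lit 76) (nat_lit 19789287972) (nat_lit 155) (nat_lit 4) (nat_lit 156) (nat_lit 5) (nat_lit 156) (nat_lit 4) (nat_lit 349) (nat_lit 286) (nat_lit 265))) (XT.nd (nat_lit 78) (nat_lit 76) (nat_lit 0) (XT.lf (nat_lit 0) (nat_lit 40850561507) (nat_lit 152) (nat_lit 97812801346) (nat_lit 0) (nat_lit 40696759323) (nat_lit 153) (nat_lit 5) (nat_lit 155) (nat_lit 4) (nat_lit 153) (nat_lit 4) (nat_lit 350) (nat_lit 286) (nat_lit 264)) (XT.nd (nat_lit 78) (nat_lit 0) (nat_lit 0) (XT.lf (nat_lit 0) (nat_lit 27472857131) (nat_lit 76) (nat_lit 84589870886) (nat_lit 76) (nat_lit 84435096970) (nat_lit 152) (nat_lit 4) (nat_lit 153) (nat_lit 5) (nat_lit 153) (nat_lit 4) (nat_lit 351) (nat_lit 286) (nat_lit 263)) (XT.lf (nat_lit 0) (nat_lit 180978750759) (nat_lit 76) (nat_lit 17362672870) (nat_lit 76) (nat_lit 17207053970) (nat_lit 152) (nat_lit 4) (nat_lit 153) (nat_lit 5) (nat_lit 153) (nat_lit 4) (nat_lit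 352) (nat_lit 286) (nat_lit 262))))) (XT.nd (nat_lit 156) (nat_lit 228) (nat_lit 0) (XT.nd (nat_lit 78) (nat_lit 76) (nat_lit 0) (XT.lf (nat_lit 0) (nat_lit 62190512208) (nat_lit 152) (nat_lit 111722894676) (nat_lit 0) (nat_lit 62054552496) (nat_lit 150) (nat_lit 5) (nat_lit 152) (nat_lit 4) (nat_lit 150) (nat_lit 4) (nat_lit 353) (nat_lit 286) (nat_lit 261)) (XT.lf (nat_lit 0) (nat_lit 53162499032) (nat_lit 76) (nat_lit 102831396803) (nat_lit 76) (nat_lit 102694881500) (nat_lit 149) (nat_lit 4) (nat_lit 150) (nat_lit 5) (nat_lit 150) (nat_lit 4) (nat_lit 354) (nat_lit 286) (nat_lit 260))) (XT.nd (nat_lit 78) (nat_lit 228) (nat_lit 0) (XT.lf (nat_lit 0) (nat_lit 253975552357) (nat_lit 76) (nat_lit 15099069418) (nat_lit 76) (nat_lit 14962070993) (nat_lit 149) (nat_lit 4) (nat_lit 150) (nat_lit 5) (nat_lit 150) (nat_lit 4) (nat_lit 355) (nat_lit 286) (nat_lit 259)) (XT.nd (nat_lit 78) (nat_lit 76)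 (nat_lit 0) (XT.lf (nat_lit 0) (nat_lit 89346984146) (nat_lit 152) (nat_lit 132418621075) (nat_lit 0) (nat_lit 89227489771) (nat_lit 147) (nat_lit 5) (nat_lit 149) (nat_lit 4) (nat_lit 147) (nat_lit 4) (nat_lit 356) (nat_lit 286) (nat_lit 258)) (XT.lf (nat_lit 0) (nat_lit 84942384045) (nat_lit 76) (nat_lit 128133833010) (nat_lit 76) (nat_lit 128014020974) (nat_lit 146) (nat_lit 4) (nat_lit 147) (nat_lit 5) (nat_lit 147) (nat_lit 4) (nat_lit 357) (nat_lit 286) (nat_lit 257))))))))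
noncomputable def xc19 : XT := (XT.nd (nat_lit 1560) (nat_lit 304) (nat_lit 0) (XT.nd (nat_lit 780) (nat_lit 836) (nat_lit 0) (XT.nd (nat_lit 390) (nat_lit 304) (nat_lit 0) (XT.nd (nat_lit 156) (nat_lit 228) (nat_lit 0) (XT.nd (nat_lit 78) (nat_lit 152) (nat_lit 0) (XT.lf (nat_lit 0) (nat_lit 348605849927) (nat_lit 76) (nat_lit 13130250513) (nat_lit 76) (nat_lit 13010162250) (nat_lit 146) (nat_lit 4) (nat_lit 147) (nat_lit 5) (nat_lit 147) (nat_lit 4) (nat_lit 358) (nat_lit 286) (nat_lit 256)) (XT.lf (nat_lit 0) (nat_lit 124335024853) (nat_lit 152) (nat_lit 161788622183) (nat_lit 0) (nat_lit 124230391409) (nat_lit 144) (nat_lit 5) (nat_lit 146) (nat_lit 4) (nat_lit 144) (nat_lit 4) (nat_lit 359) (nat_lit 286) (nat_lit 255))) (XT.nd (nat_lit 78) (nat_lit 152) (nat_lit 0) (XT.lf (nat_lit 0) (nat_lit 125062660252) (nat_lit 76) (nat_lit 162621072649) (nat_lit 76) (nat_lit 162516257581) (nat_lit 143)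 (nat_lit 4) (nat_lit 144) (nat_lit 5) (nat_lit 144) (nat_lit 4) (nat_lit 360) (nat_lit 286) (nat_lit 254)) (XT.nd (nat_lit 78) (nat_lit 152) (nat_lit 0) (XT.lf (nat_lit 0) (nat_lit 472095123942) (nat_lit 76) (nat_lit 11417966448) (nat_lit 76) (nat_lit 11312993448) (nat_lit 143) (nat_lit 4) (nat_lit 144) (nat_lit 5) (nat_lit 144) (nat_lit 4) (nat_lit 361) (nat_lit 286) (nat_lit 253)) (XT.lf (nat_lit 0) (nat_lit 169801278655) (nat_lit 152) (nat_lit 202369624159) (nat_lit 0) (nat_lit 169709878364) (nat_lit 141) (nat_lit 5) (nat_lit 143) (nat_lit 4) (nat_lit 141) (nat_lit 4) (nat_lit 362) (nat_lit 286) (nat_lit 252))))) (XT.nd (nat_lit 156) (nat_lit 228) (nat_lit 0) (XT.nd (nat_lit 78) (nat_lit 0) (nat_lit 0) (XT.lf (nat_lit 0) (nat_lit 176461930884) (nat_lit 76) (nat_lit 209121780522) (nat_lit 76) (nat_lit 209030276388) (nat_lit 140) (nat_lit 4) (nat_lit 141) (nat_lit 5) (nat_lit 141) (nat_lit 4)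 (nat_lit 363) (nat_lit 286) (nat_lit 251)) (XT.lf (nat_lit 0) (nat_lit 633966716559) (nat_lit 76) (nat_lit 9928870768) (nat_lit 76) (nat_lit 9837276334) (nat_lit 140) (nat_lit 4) (nat_lit 141) (nat_lit 5) (nat_lit 141) (nat_lit 4) (nat_lit 364) (nat_lit 286) (nat_lit 250))) (XT.nd (nat_lit 78) (nat_lit 76) (nat_lit 0) (XT.lf (nat_lit 0) (nat_lit 229230099394) (nat_lit 152) (nat_lit 257550399832) (nat_lit 0) (nat_lit 229150383782) (nat_lit 138) (nat_lit 5) (nat_lit 140) (nat_lit 4) (nat_lit 138) (nat_lit 4) (nat_lit 365) (nat_lit 286) (nat_lit 249)) (XT.nd (nat_lit 78) (nat_lit 0) (nat_lit 0) (XT.lf (nat_lit 0) (nat_lit 242994095935) (nat_lit 76) (nat_lit 271394171359) (nat_lit 76) (nat_lit 271314396373) (nat_lit 137) (nat_lit 4) (nat_lit 138) (nat_lit 5) (nat_lit 138) (nat_lit 4) (nat_lit 366) (nat_lit 286) (nat_lit 248)) (XT.lf (nat_lit 0) (nat_lit 846787077855) (nat_lit 76) (nat_lit 8633917472)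 (nat_lit 76) (nat_lit 8554090858) (nat_lit 137) (nat_lit 4) (nat_lit 138) (nat_lit 5) (nat_lit 138) (nat_lit 4) (nat_lit 367) (nat_lit 286) (nat_lit 247)))))) (XT.nd (nat_lit 390) (nat_lit 380) (nat_lit 0) (XT.nd (nat_lit 156) (nat_lit 228) (nat_lit 0) (XT.nd (nat_lit 78) (nat_lit 76) (nat_lit 0) (XT.lf (nat_lit 0) (nat_lit 307215800700) (nat_lit 152) (nat_lit 331842148907) (nat_lit 0) (nat_lit 307146347213) (nat_lit 135) (nat_lit 5) (nat_lit 137) (nat_lit 4) (nat_lit 135) (nat_lit 4) (nat_lit 368) (nat_lit 286) (nat_lit 246)) (XT.lf (nat_lit 0) (nat_lit 329727739155) (nat_lit 76) (nat_lit 354423574795) (nat_lit 76) (nat_lit 354354087362) (nat_lit 134) (nat_lit 4) (nat_lit 135) (nat_lit 5) (nat_lit 135) (nat_lit 4) (nat_lit 369) (nat_lit 286) (nat_lit 245))) (XT.nd (nat_lit 78) (nat_lit 228) (nat_lit 0) (XT.lf (nat_lit 0) (nat_lit 1127150822764) (nat_lit 76) (nat_lit 7507821107) (nat_lit 76) (nat_lit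 7438304155) (nat_lit 134) (nat_lit 4) (nat_lit 135) (nat_lit 5) (nat_lit 135) (nat_lit 4) (nat_lit 370) (nat_lit 286) (nat_lit 244)) (XT.nd (nat_lit 78) (nat_lit 76) (nat_lit 0) (XT.lf (nat_lit 0) (nat_lit 409822424334) (nat_lit 152) (nat_lit 431236640166) (nat_lit 0) (nat_lit 409761952490) (nat_lit 132) (nat_lit 5) (nat_lit 134) (nat_lit 4) (nat_lit 132) (nat_lit 4) (nat_lit 371) (nat_lit 286) (nat_lit 243)) (XT.lf (nat_lit 0) (nat_lit 443341528725) (nat_lit 76) (nat_lit 464816235810) (nat_lit 76) (nat_lit 464755744557) (nat_lit 131) (nat_lit 4) (nat_lit 132) (nat_lit 5) (nat_lit 132) (nat_lit 4) (nat_lit 372) (nat_lit 286) (nat_lit 242))))) (XT.nd (nat_lit 156) (nat_lit 228) (nat_lit 0) (XT.nd (nat_lit 78) (nat_lit 152) (nat_lit 0) (XT.lf (nat_lit 0) (nat_lit 1496983000618) (nat_lit 76) (nat_lit 6528578276) (nat_lit 76) (nat_lit 6468070146) (nat_lit 131) (nat_lit 4) (nat_lit 132) (nat_lit 5)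 (nat_lit 132) (nat_lit 4) (nat_lit 373) (nat_lit 286) (nat_lit 241)) (XT.lf (nat_lit 0) (nat_lit 545059292413) (nat_lit 152) (nat_lit 563680349658) (nat_lit 0) (nat_lit 545006663885) (nat_lit 129) (nat_lit 5) (nat_lit 131) (nat_lit 4) (nat_lit 129) (nat_lit 4) (nat_lit 374) (nat_lit 286) (nat_lit 240))) (XT.nd (nat_lit 78) (nat_lit 152) (nat_lit 0) (XT.lf (nat_lit 0) (nat_lit 592646662148) (nat_lit 76) (nat_lit 611320359018) (nat_lit 76) (nat_lit 611267719394) (nat_lit 128) (nat_lit 4) (nat_lit 129) (nat_lit 5) (nat_lit 129) (nat_lit 4) (nat_lit 375) (nat_lit 286) (nat_lit 239)) (XT.nd (nat_lit 78) (nat_lit 152) (nat_lit 0) (XT.lf (nat_lit 0) (nat_lit 1985260935837) (nat_lit 76) (nat_lit 5677046419) (nat_lit 76) (nat_lit 5624397145) (nat_lit 128) (nat_lit 4) (nat_lit 129) (nat_lit 5) (nat_lit 129) (nat_lit 4) (nat_lit 376) (nat_lit 286) (nat_lit 238)) (XT.lf (nat_lit 0) (nat_lit 723509717768) (nat_lit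 152) (nat_lit 739701941460) (nat_lit 0) (nat_lit 723463928493) (nat_lit 126) (nat_lit 5) (nat_lit 128) (nat_lit 4) (nat_lit 126) (nat_lit 4) (nat_lit 377) (nat_lit 286) (nat_lit 237))))))) (XT.nd (nat_lit 43212) (nat_lit 0) (nat_lit 3268) (XT.nd (nat_lit 42822) (nat_lit 0) (nat_lit 4180) (XT.nd (nat_lit 156) (nat_lit 228) (nat_lit 0) (XT.nd (nat_lit 78) (nat_lit 0) (nat_lit 0) (XT.lf (nat_lit 0) (nat_lit 789277386346) (nat_lit 76) (nat_lit 805515405657) (nat_lit 76) (nat_lit 805469610038) (nat_lit 125) (nat_lit 4) (nat_lit 126) (nat_lit 5) (nat_lit 126) (nat_lit 4) (nat_lit 378) (nat_lit 286) (nat_lit 236)) (XT.lf (nat_lit 0) (nat_lit 2630291002949) (nat_lit 76) (nat_lit 4936574586) (nat_lit 76) (nat_lit 4890773449) (nat_lit 125) (nat_lit 4) (nat_lit 126) (nat_lit 5) (nat_lit 126) (nat_lit 4) (nat_lit 379) (nat_lit 286) (nat_lit 235))) (XT.nd (nat_lit 78) (nat_lit 76) (nat_lit 0) (XT.lf (nat_lit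 0) (nat_lit 959162294450) (nat_lit 152) (nat_lit 973242488965) (nat_lit 0) (nat_lit 959122463203) (nat_lit 123) (nat_lit 5) (nat_lit 125) (nat_lit 4) (nat_lit 123) (nat_lit 4) (nat_lit 380) (nat_lit 286) (nat_lit 234)) (XT.nd (nat_lit 78) (nat_lit 0) (nat_lit 0) (XT.lf (nat_lit 0) (nat_lit 1048603849777) (nat_lit 76) (nat_lit 1062723879166) (nat_lit 76) (nat_lit 1062684044291) (nat_lit 122) (nat_lit 4) (nat_lit 123) (nat_lit 5) (nat_lit 123) (nat_lit 4) (nat_lit 381) (nat_lit 286) (nat_lit 233)) (XT.lf (nat_lit 0) (nat_lit 3482719347982) (nat_lit 76) (nat_lit 4292680690) (nat_lit 76) (nat_lit 4252842660) (nat_lit 122) (nat_lit 4) (nat_lit 123) (nat_lit 5) (nat_lit 123) (nat_lit 4) (nat_lit 382) (nat_lit 286) (nat_lit 232))))) (XT.nd (nat_lit 156) (nat_lit 380) (nat_lit 0) (XT.nd (nat_lit 78) (nat_lit 76) (nat_lit 0) (XT.lf (nat_lit 0) (nat_lit 4454085019) (nat_lit 152) (nat_lit 3585637902) (nat_lit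 0) (nat_lit 4454085019) (nat_lit 183) (nat_lit 5) (nat_lit 185) (nat_lit 4) (nat_lit 183) (nat_lit 4) (nat_lit 326) (nat_lit 287) (nat_lit 287)) (XT.lf (nat_lit 0) (nat_lit 18852603310) (nat_lit 76) (nat_lit 4033905734) (nat_lit 76) (nat_lit 3936052515) (nat_lit 182) (nat_lit 4) (nat_lit 183) (nat_lit 5) (nat_lit 183) (nat_lit 4) (nat_lit 327) (nat_lit 287) (nat_lit 286))) (XT.nd (nat_lit 78) (nat_lit 228) (nat_lit 0) (XT.lf (nat_lit 0) (nat_lit 9597535456) (nat_lit 152) (nat_lit 9765239550) (nat_lit 0) (nat_lit 9438454608) (nat_lit 180) (nat_lit 5) (nat_lit 182) (nat_lit 4) (nat_lit 180) (nat_lit 4) (nat_lit 328) (nat_lit 287) (nat_lit 285)) (XT.nd (nat_lit 78) (nat_lit 152) (nat_lit 0) (XT.lf (nat_lit 0) (nat_lit 18757090720) (nat_lit 76) (nat_lit 6239570948) (nat_lit 76) (nat_lit 6016150021) (nat_lit 179) (nat_lit 4) (nat_lit 180) (nat_lit 5) (nat_lit 180) (nat_lit 4) (nat_lit 329) (nat_lit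 287) (nat_lit 284)) (XT.lf (nat_lit 0) (nat_lit 8834543372) (nat_lit 152) (nat_lit 15998208637) (nat_lit 0) (nat_lit 8591613961) (nat_lit 177) (nat_lit 5) (nat_lit 179) (nat_lit 4) (nat_lit 177) (nat_lit 4) (nat_lit 330) (nat_lit 287) (nat_lit 283)))))) (XT.nd (nat_lit 390) (nat_lit 456) (nat_lit 0) (XT.nd (nat_lit 156) (nat_lit 228) (nat_lit 0) (XT.nd (nat_lit 78) (nat_lit 152) (nat_lit 0) (XT.lf (nat_lit 0) (nat_lit 15073983916) (nat_lit 76) (nat_lit 10650869157) (nat_lit 76) (nat_lit 10365635100) (nat_lit 176) (nat_lit 4) (nat_lit 177) (nat_lit 5) (nat_lit 177) (nat_lit 4) (nat_lit 331) (nat_lit 287) (nat_lit 282)) (XT.lf (nat_lit 0) (nat_lit 5917835878) (nat_lit 152) (nat_lit 27494788340) (nat_lit 0) (nat_lit 5637817872) (nat_lit 174) (nat_lit 5) (nat_lit 176) (nat_lit 4) (nat_lit 174) (nat_lit 4) (nat_lit 332) (nat_lit 287) (nat_lit 281))) (XT.nd (nat_lit 78) (nat_lit 152) (nat_lit 0) (XT.lf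 (nat_lit 0) (nat_lit 6082935399) (nat_lit 76) (nat_lit 18246602194) (nat_lit 76) (nat_lit 17938768196) (nat_lit 173) (nat_lit 4) (nat_lit 174) (nat_lit 5) (nat_lit 174) (nat_lit 4) (nat_lit 333) (nat_lit 287) (nat_lit 280)) (XT.nd (nat_lit 78) (nat_lit 152) (nat_lit 0) (XT.lf (nat_lit 0) (nat_lit 45409094378) (nat_lit 76) (nat_lit 421330935) (nat_lit 76) (nat_lit 89309118) (nat_lit 173) (nat_lit 4) (nat_lit 174) (nat_lit 5) (nat_lit 174) (nat_lit 4) (nat_lit 334) (nat_lit 287) (nat_lit 279)) (XT.lf (nat_lit 0) (nat_lit 20216710719) (nat_lit 152) (nat_lit 9625723261) (nat_lit 0) (nat_lit 19909706629) (nat_lit 171) (nat_lit 5) (nat_lit 173) (nat_lit 4) (nat_lit 171) (nat_lit 4) (nat_lit 335) (nat_lit 287) (nat_lit 278))))) (XT.nd (nat_lit 156) (nat_lit 228) (nat_lit 0) (XT.nd (nat_lit 78) (nat_lit 152) (nat_lit 0) (XT.lf (nat_lit 0) (nat_lit 33555382055) (nat_lit 76) (nat_lit 10431121813) (nat_lit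 76) (nat_lit 10108213839) (nat_lit 170) (nat_lit 4) (nat_lit 171) (nat_lit 5) (nat_lit 171) (nat_lit 4) (nat_lit 336) (nat_lit 287) (nat_lit 277)) (XT.lf (nat_lit 0) (nat_lit 12230028968) (nat_lit 152) (nat_lit 34682553985) (nat_lit 0) (nat_lit 11937213805) (nat_lit 168) (nat_lit 5) (nat_lit 170) (nat_lit 4) (nat_lit 168) (nat_lit 4) (nat_lit 337) (nat_lit 287) (nat_lit 276))) (XT.nd (nat_lit 78) (nat_lit 152) (nat_lit 0) (XT.lf (nat_lit 0) (nat_lit 11563382209) (nat_lit 76) (nat_lit 26411133381) (nat_lit 76) (nat_lit 26107861156) (nat_lit 167) (nat_lit 4) (nat_lit 168) (nat_lit 5) (nat_lit 168) (nat_lit 4) (nat_lit 338) (nat_lit 287) (nat_lit 275)) (XT.nd (nat_lit 78) (nat_lit 152) (nat_lit 0) (XT.lf (nat_lit 0) (nat_lit 66574658651) (nat_lit 76) (nat_lit 1855094365) (nat_lit 76) (nat_lit 1542729044) (nat_lit 167) (nat_lit 4) (nat_lit 168) (nat_lit 5) (nat_lit 168) (nat_lit 4) (nat_lit 339) (nat_lit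 287) (nat_lit 274)) (XT.lf (nat_lit 0) (nat_lit 26940657531) (nat_lit 152) (nat_lit 22585731476) (nat_lit 0) (nat_lit 26662159824) (nat_lit 165) (nat_lit 5) (nat_lit 167) (nat_lit 4) (nat_lit 165) (nat_lit 4) (nat_lit 340) (nat_lit 287) (nat_lit 273))))))))
noncomputable def xc20 : XT := (XT.nd (nat_lit 1560) (nat_lit 1444) (nat_lit 0) (XT.nd (nat_lit 780) (nat_lit 836) (nat_lit 0) (XT.nd (nat_lit 390) (nat_lit 304) (nat_lit 0) (XT.nd (nat_lit 156) (nat_lit 228) (nat_lit 0) (XT.nd (nat_lit 78) (nat_lit 152) (nat_lit 0) (XT.lf (nat_lit 0) (nat_lit 37508569846) (nat_lit 76) (nat_lit 22979729429) (nat_lit 76) (nat_lit 22695252863) (nat_lit 164) (nat_lit 4) (nat_lit 165) (nat_lit 5) (nat_lit 165) (nat_lit 4) (nat_lit 341) (nat_lit 287) (nat_lit 272)) (XT.lf (nat_lit 0) (nat_lit 8600748683) (nat_lit 152) (nat_lit 74010733466) (nat_lit 0) (nat_lit 8348856880) (nat_lit 162) (nat_lit 5) (nat_lit 164) (nat_lit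 4) (nat_lit 162) (nat_lit 4) (nat_lit 342) (nat_lit 287) (nat_lit 271))) (XT.nd (nat_lit 78) (nat_lit 228) (nat_lit 0) (XT.lf (nat_lit 0) (nat_lit 44985454614) (nat_lit 152) (nat_lit 9618768915) (nat_lit 0) (nat_lit 44729631614) (nat_lit 162) (nat_lit 5) (nat_lit 164) (nat_lit 4) (nat_lit 162) (nat_lit 4) (nat_lit 343) (nat_lit 287) (nat_lit 270)) (XT.nd (nat_lit 78) (nat_lit 152) (nat_lit 0) (XT.lf (nat_lit 0) (nat_lit 68928773500) (nat_lit 76) (nat_lit 19990107230) (nat_lit 76) (nat_lit 19730865798) (nat_lit 161) (nat_lit 4) (nat_lit 162) (nat_lit 5) (nat_lit 162) (nat_lit 4) (nat_lit 344) (nat_lit 287) (nat_lit 269)) (XT.lf (nat_lit 0) (nat_lit 20740261956) (nat_lit 152) (nat_lit 77618509593) (nat_lit 0) (nat_lit 20512249798) (nat_lit 159) (nat_lit 5) (nat_lit 161) (nat_lit 4) (nat_lit 159) (nat_lit 4) (nat_lit 345) (nat_lit 287) (nat_lit 268))))) (XT.nd (nat_lit 156) (nat_lit 228) (nat_lit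 0) (XT.nd (nat_lit 78) (nat_lit 0) (nat_lit 0) (XT.lf (nat_lit 0) (nat_lit 5369945610) (nat_lit 76) (nat_lit 62478453079) (nat_lit 76) (nat_lit 62248193247) (nat_lit 158) (nat_lit 4) (nat_lit 159) (nat_lit 5) (nat_lit 159) (nat_lit 4) (nat_lit 346) (nat_lit 287) (nat_lit 267)) (XT.lf (nat_lit 0) (nat_lit 107964617152) (nat_lit 76) (nat_lit 17387123772) (nat_lit 76) (nat_lit 17154909440) (nat_lit 158) (nat_lit 4) (nat_lit 159) (nat_lit 5) (nat_lit 159) (nat_lit 4) (nat_lit 347) (nat_lit 287) (nat_lit 266))) (XT.nd (nat_lit 78) (nat_lit 76) (nat_lit 0) (XT.lf (nat_lit 0) (nat_lit 35571006623) (nat_lit 152) (nat_lit 85030352394) (nat_lit 0) (nat_lit 35367603234) (nat_lit 156) (nat_lit 5) (nat_lit 158) (nat_lit 4) (nat_lit 156) (nat_lit 4) (nat_lit 348) (nat_lit 287) (nat_lit 265)) (XT.nd (nat_lit 78) (nat_lit 0) (nat_lit 0) (XT.lf (nat_lit 0) (nat_lit 23915915693) (nat_lit 76) (nat_lit 73579949968)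 (nat_lit 76) (nat_lit 73375261464) (nat_lit 155) (nat_lit 4) (nat_lit 156) (nat_lit 5) (nat_lit 156) (nat_lit 4) (nat_lit 349) (nat_lit 287) (nat_lit 264)) (XT.lf (nat_lit 0) (nat_lit 157399168083) (nat_lit 76) (nat_lit 15121766260) (nat_lit 76) (nat_lit 14915960265) (nat_lit 155) (nat_lit 4) (nat_lit 156) (nat_lit 5) (nat_lit 156) (nat_lit 4) (nat_lit 350) (nat_lit 287) (nat_lit 263)))))) (XT.nd (nat_lit 390) (nat_lit 380) (nat_lit 0) (XT.nd (nat_lit 156) (nat_lit 228) (nat_lit 0) (XT.nd (nat_lit 78) (nat_lit 76) (nat_lit 0) (XT.lf (nat_lit 0) (nat_lit 54121442007) (nat_lit 152) (nat_lit 97129568765) (nat_lit 0) (nat_lit 53941635288) (nat_lit 153) (nat_lit 5) (nat_lit 155) (nat_lit 4) (nat_lit 153) (nat_lit 4) (nat_lit 351) (nat_lit 287) (nat_lit 262)) (XT.lf (nat_lit 0) (nat_lit 46250976993) (nat_lit 76) (nat_lit 89439645239) (nat_lit 76) (nat_lit 89259103751) (nat_lit 152) (nat_lit 4) (nat_lit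 153) (nat_lit 5) (nat_lit 153) (nat_lit 4) (nat_lit 352) (nat_lit 287) (nat_lit 261))) (XT.nd (nat_lit 78) (nat_lit 228) (nat_lit 0) (XT.lf (nat_lit 0) (nat_lit 220870947106) (nat_lit 76) (nat_lit 13150807471) (nat_lit 76) (nat_lit 12969627053) (nat_lit 152) (nat_lit 4) (nat_lit 153) (nat_lit 5) (nat_lit 153) (nat_lit 4) (nat_lit 353) (nat_lit 287) (nat_lit 260)) (XT.nd (nat_lit 78) (nat_lit 76) (nat_lit 0) (XT.lf (nat_lit 0) (nat_lit 77730373607) (nat_lit 152) (nat_lit 115128744700) (nat_lit 0) (nat_lit 77572342295) (nat_lit 150) (nat_lit 5) (nat_lit 152) (nat_lit 4) (nat_lit 150) (nat_lit 4) (nat_lit 354) (nat_lit 287) (nat_lit 259)) (XT.lf (nat_lit 0) (nat_lit 73882522420) (nat_lit 76) (nat_lit 111439344931) (nat_lit 76) (nat_lit 111280893513) (nat_lit 149) (nat_lit 4) (nat_lit 150) (nat_lit 5) (nat_lit 150) (nat_lit 4) (nat_lit 355) (nat_lit 287) (nat_lit 258))))) (XT.nd (nat_lit 156) (nat_lit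 228) (nat_lit 0) (XT.nd (nat_lit 78) (nat_lit 152) (nat_lit 0) (XT.lf (nat_lit 0) (nat_lit 303155057848) (nat_lit 76) (nat_lit 11436311229) (nat_lit 76) (nat_lit 11277494501) (nat_lit 149) (nat_lit 4) (nat_lit 150) (nat_lit 5) (nat_lit 150) (nat_lit 4) (nat_lit 356) (nat_lit 287) (nat_lit 257)) (XT.lf (nat_lit 0) (nat_lit 108149990173) (nat_lit 152) (nat_lit 140670312863) (nat_lit 0) (nat_lit 108011612444) (nat_lit 147) (nat_lit 5) (nat_lit 149) (nat_lit 4) (nat_lit 147) (nat_lit 4) (nat_lit 357) (nat_lit 287) (nat_lit 256))) (XT.nd (nat_lit 78) (nat_lit 152) (nat_lit 0) (XT.lf (nat_lit 0) (nat_lit 108767065690) (nat_lit 76) (nat_lit 141426006306) (nat_lit 76) (nat_lit 141287388380) (nat_lit 146) (nat_lit 4) (nat_lit 147) (nat_lit 5) (nat_lit 147) (nat_lit 4) (nat_lit 358) (nat_lit 287) (nat_lit 255)) (XT.nd (nat_lit 78) (nat_lit 152) (nat_lit 0) (XT.lf (nat_lit 0) (nat_lit 410534400492) (nat_lit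 76) (nat_lit 9945090998) (nat_lit 76) (nat_lit 9806264205) (nat_lit 146) (nat_lit 4) (nat_lit 147) (nat_lit 5) (nat_lit 147) (nat_lit 4) (nat_lit 359) (nat_lit 287) (nat_lit 254)) (XT.lf (nat_lit 0) (nat_lit 147681673465) (nat_lit 152) (nat_lit 175960214934) (nat_lit 0) (nat_lit 147560796580) (nat_lit 144) (nat_lit 5) (nat_lit 146) (nat_lit 4) (nat_lit 144) (nat_lit 4) (nat_lit 360) (nat_lit 287) (nat_lit 253))))))) (XT.nd (nat_lit 780) (nat_lit 684) (nat_lit 0) (XT.nd (nat_lit 390) (nat_lit 456) (nat_lit 0) (XT.nd (nat_lit 156) (nat_lit 228) (nat_lit 0) (XT.nd (nat_lit 78) (nat_lit 0) (nat_lit 0) (XT.lf (nat_lit 0) (nat_lit 153459818930) (nat_lit 76) (nat_lit 181859374618) (nat_lit 76) (nat_lit 181738360400) (nat_lit 143) (nat_lit 4) (nat_lit 144) (nat_lit 5) (nat_lit 144) (nat_lit 4) (nat_lit 361) (nat_lit 287) (nat_lit 252)) (XT.lf (nat_lit 0) (nat_lit 551290053091) (nat_lit 76) (nat_lit 8648175391)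 (nat_lit 76) (nat_lit 8527041753) (nat_lit 143) (nat_lit 4) (nat_lit 144) (nat_lit 5) (nat_lit 144) (nat_lit 4) (nat_lit 362) (nat_lit 287) (nat_lit 251))) (XT.nd (nat_lit 78) (nat_lit 76) (nat_lit 0) (XT.lf (nat_lit 0) (nat_lit 199355240242) (nat_lit 152) (nat_lit 223945276302) (nat_lit 0) (nat_lit 199249816344) (nat_lit 141) (nat_lit 5) (nat_lit 143) (nat_lit 4) (nat_lit 141) (nat_lit 4) (nat_lit 363) (nat_lit 287) (nat_lit 250)) (XT.nd (nat_lit 78) (nat_lit 0) (nat_lit 0) (XT.lf (nat_lit 0) (nat_lit 211311930566) (nat_lit 76) (nat_lit 236007469045) (nat_lit 76) (nat_lit 235901966627) (nat_lit 140) (nat_lit 4) (nat_lit 141) (nat_lit 5) (nat_lit 141) (nat_lit 4) (nat_lit 364) (nat_lit 287) (nat_lit 249)) (XT.lf (nat_lit 0) (nat_lit 736349297999) (nat_lit 76) (nat_lit 7520306988) (nat_lit 76) (nat_lit 7414736290) (nat_lit 140) (nat_lit 4) (nat_lit 141) (nat_lit 5) (nat_lit 141) (nat_lit 4) (nat_lit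 365) (nat_lit 287) (nat_lit 248))))) (XT.nd (nat_lit 156) (nat_lit 228) (nat_lit 0) (XT.nd (nat_lit 78) (nat_lit 76) (nat_lit 0) (XT.lf (nat_lit 0) (nat_lit 267165688822) (nat_lit 152) (nat_lit 288548328874) (nat_lit 0) (nat_lit 267073836586) (nat_lit 138) (nat_lit 5) (nat_lit 140) (nat_lit 4) (nat_lit 138) (nat_lit 4) (nat_lit 366) (nat_lit 287) (nat_lit 247)) (XT.lf (nat_lit 0) (nat_lit 286730812580) (nat_lit 76) (nat_lit 308205349763) (nat_lit 76) (nat_lit 308113452633) (nat_lit 137) (nat_lit 4) (nat_lit 138) (nat_lit 5) (nat_lit 138) (nat_lit 4) (nat_lit 367) (nat_lit 287) (nat_lit 246))) (XT.nd (nat_lit 78) (nat_lit 228) (nat_lit 0) (XT.lf (nat_lit 0) (nat_lit 980142184972) (nat_lit 76) (nat_lit 6539485701) (nat_lit 76) (nat_lit 6447549532) (nat_lit 137) (nat_lit 4) (nat_lit 138) (nat_lit 5) (nat_lit 138) (nat_lit 4) (nat_lit 368) (nat_lit 287) (nat_lit 245)) (XT.nd (nat_lit 78) (nat_lit 76)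 (nat_lit 0) (XT.lf (nat_lit 0) (nat_lit 356386044740) (nat_lit 152) (nat_lit 374979644786) (nat_lit 0) (nat_lit 356306070727) (nat_lit 135) (nat_lit 5) (nat_lit 137) (nat_lit 4) (nat_lit 135) (nat_lit 4) (nat_lit 369) (nat_lit 287) (nat_lit 244)) (XT.lf (nat_lit 0) (nat_lit 385523961646) (nat_lit 76) (nat_lit 404197561374) (nat_lit 76) (nat_lit 404117561692) (nat_lit 134) (nat_lit 4) (nat_lit 135) (nat_lit 5) (nat_lit 135) (nat_lit 4) (nat_lit 370) (nat_lit 287) (nat_lit 243)))))) (XT.nd (nat_lit 390) (nat_lit 304) (nat_lit 0) (XT.nd (nat_lit 156) (nat_lit 228) (nat_lit 0) (XT.nd (nat_lit 78) (nat_lit 152) (nat_lit 0) (XT.lf (nat_lit 0) (nat_lit 1301733934542) (nat_lit 76) (nat_lit 5686559803) (nat_lit 76) (nat_lit 5606537800) (nat_lit 134) (nat_lit 4) (nat_lit 135) (nat_lit 5) (nat_lit 135) (nat_lit 4) (nat_lit 371) (nat_lit 287) (nat_lit 242)) (XT.lf (nat_lit 0) (nat_lit 473980886063) (nat_lit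 152) (nat_lit 490149233929) (nat_lit 0) (nat_lit 473911284836) (nat_lit 132) (nat_lit 5) (nat_lit 134) (nat_lit 4) (nat_lit 132) (nat_lit 4) (nat_lit 372) (nat_lit 287) (nat_lit 241))) (XT.nd (nat_lit 78) (nat_lit 152) (nat_lit 0) (XT.lf (nat_lit 0) (nat_lit 515353255648) (nat_lit 76) (nat_lit 531591219418) (nat_lit 76) (nat_lit 531521603514) (nat_lit 131) (nat_lit 4) (nat_lit 132) (nat_lit 5) (nat_lit 132) (nat_lit 4) (nat_lit 373) (nat_lit 287) (nat_lit 240)) (XT.nd (nat_lit 78) (nat_lit 152) (nat_lit 0) (XT.lf (nat_lit 0) (nat_lit 1726322187767) (nat_lit 76) (nat_lit 4944863483) (nat_lit 76) (nat_lit 4875234818) (nat_lit 131) (nat_lit 4) (nat_lit 132) (nat_lit 5) (nat_lit 132) (nat_lit 4) (nat_lit 374) (nat_lit 287) (nat_lit 239)) (XT.lf (nat_lit 0) (nat_lit 629153048629) (nat_lit 152) (nat_lit 643212481555) (nat_lit 0) (nat_lit 629092492313) (nat_lit 129) (nat_lit 5) (nat_lit 131) (nat_lit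 4) (nat_lit 129) (nat_lit 4) (nat_lit 375) (nat_lit 287) (nat_lit 238))))) (XT.nd (nat_lit 156) (nat_lit 228) (nat_lit 0) (XT.nd (nat_lit 78) (nat_lit 0) (nat_lit 0) (XT.lf (nat_lit 0) (nat_lit 686335403815) (nat_lit 76) (nat_lit 700455401449) (nat_lit 76) (nat_lit 700394836742) (nat_lit 128) (nat_lit 4) (nat_lit 129) (nat_lit 5) (nat_lit 129) (nat_lit 4) (nat_lit 376) (nat_lit 287) (nat_lit 237)) (XT.lf (nat_lit 0) (nat_lit 2287216808686) (nat_lit 76) (nat_lit 4299897798) (nat_lit 76) (nat_lit 4239325794) (nat_lit 128) (nat_lit 4) (nat_lit 129) (nat_lit 5) (nat_lit 129) (nat_lit 4) (nat_lit 377) (nat_lit 287) (nat_lit 236))) (XT.nd (nat_lit 78) (nat_lit 76) (nat_lit 0) (XT.lf (nat_lit 0) (nat_lit 834066487355) (nat_lit 152) (nat_lit 846292081205) (nat_lit 0) (nat_lit 834013810531) (nat_lit 126) (nat_lit 5) (nat_lit 128) (nat_lit 4) (nat_lit 126) (nat_lit 4) (nat_lit 378) (nat_lit 287) (nat_lit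 235)) (XT.nd (nat_lit 78) (nat_lit 0) (nat_lit 0) (XT.lf (nat_lit 0) (nat_lit 911835729796) (nat_lit 76) (nat_lit 924114005267) (nat_lit 76) (nat_lit 924061323645) (nat_lit 125) (nat_lit 4) (nat_lit 126) (nat_lit 5) (nat_lit 126) (nat_lit 4) (nat_lit 379) (nat_lit 287) (nat_lit 234)) (XT.lf (nat_lit 0) (nat_lit 3028457901650) (nat_lit 76) (nat_lit 3739051002) (nat_lit 76) (nat_lit 3686365207) (nat_lit 125) (nat_lit 4) (nat_lit 126) (nat_lit 5) (nat_lit 126) (nat_lit 4) (nat_lit 380) (nat_lit 287) (nat_lit 233))))))))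
noncomputable def xc21 : XT := (XT.nd (nat_lit 43836) (nat_lit 0) (nat_lit 1672) (XT.nd (nat_lit 43056) (nat_lit 0) (nat_lit 3268) (XT.nd (nat_lit 42666) (nat_lit 0) (nat_lit 4104) (XT.nd (nat_lit 42432) (nat_lit 0) (nat_lit 4636) (XT.nd (nat_lit 78) (nat_lit 76) (nat_lit 0) (XT.lf (nat_lit 0) (nat_lit 1104802125435) (nat_lit 152) (nat_lit 1115433076608) (nat_lit 0) (nat_lit 1104756308546) (nat_lit 123) (nat_lit 5) (nat_lit 125) (nat_lit 4) (nat_lit 123) (nat_lit 4) (nat_lit 381) (nat_lit 287) (nat_lit 232)) (XT.lf (nat_lit 0) (nat_lit 1209517677231) (nat_lit 76) (nat_lit 1220194448036) (nat_lit 76) (nat_lit 1220148628404) (nat_lit 122) (nat_lit 4) (nat_lit 123) (nat_lit 5) (nat_lit 123) (nat_lit 4) (nat_lit 382) (nat_lit 287) (nat_lit 231))) (XT.nd (nat_lit 78) (nat_lit 228) (nat_lit 0) (XT.lf (nat_lit 0) (nat_lit 3935143534) (nat_lit 152) (nat_lit 3010074477) (nat_lit 0) (nat_lit 3935143534)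 (nat_lit 186) (nat_lit 5) (nat_lit 188) (nat_lit 4) (nat_lit 186) (nat_lit 4) (nat_lit 324) (nat_lit 288) (nat_lit 288)) (XT.nd (nat_lit 78) (nat_lit 152) (nat_lit 0) (XT.lf (nat_lit 0) (nat_lit 16614949883) (nat_lit 76) (nat_lit 3433651728) (nat_lit 76) (nat_lit 3304240846) (nat_lit 185) (nat_lit 4) (nat_lit 186) (nat_lit 5) (nat_lit 186) (nat_lit 4) (nat_lit 325) (nat_lit 288) (nat_lit 287)) (XT.lf (nat_lit 0) (nat_lit 8476428577) (nat_lit 152) (nat_lit 8326784048) (nat_lit 0) (nat_lit 8266044156) (nat_lit 183) (nat_lit 5) (nat_lit 185) (nat_lit 4) (nat_lit 183) (nat_lit 4) (nat_lit 326) (nat_lit 288) (nat_lit 286))))) (XT.nd (nat_lit 156) (nat_lit 304) (nat_lit 0) (XT.nd (nat_lit 78) (nat_lit 152) (nat_lit 0) (XT.lf (nat_lit 0) (nat_lit 16481185254) (nat_lit 76) (nat_lit 5402106385) (nat_lit 76) (nat_lit 5106632209) (nat_lit 182) (nat_lit 4) (nat_lit 183) (nat_lit 5) (nat_lit 183) (nat_lit 4)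 (nat_lit 327) (nat_lit 288) (nat_lit 285)) (XT.lf (nat_lit 0) (nat_lit 7810943487) (nat_lit 152) (nat_lit 13783283564) (nat_lit 0) (nat_lit 7489669341) (nat_lit 180) (nat_lit 5) (nat_lit 182) (nat_lit 4) (nat_lit 180) (nat_lit 4) (nat_lit 328) (nat_lit 288) (nat_lit 284))) (XT.nd (nat_lit 78) (nat_lit 228) (nat_lit 0) (XT.lf (nat_lit 0) (nat_lit 13241865756) (nat_lit 76) (nat_lit 9267937369) (nat_lit 76) (nat_lit 8890715328) (nat_lit 179) (nat_lit 4) (nat_lit 180) (nat_lit 5) (nat_lit 180) (nat_lit 4) (nat_lit 329) (nat_lit 288) (nat_lit 283)) (XT.nd (nat_lit 78) (nat_lit 76) (nat_lit 0) (XT.lf (nat_lit 0) (nat_lit 5267774070) (nat_lit 152) (nat_lit 23806920502) (nat_lit 0) (nat_lit 4897450257) (nat_lit 177) (nat_lit 5) (nat_lit 179) (nat_lit 4) (nat_lit 177) (nat_lit 4) (nat_lit 330) (nat_lit 288) (nat_lit 282)) (XT.lf (nat_lit 0) (nat_lit 5396637860) (nat_lit 76) (nat_lit 15889747219) (nat_lit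 76) (nat_lit 15482636757) (nat_lit 176) (nat_lit 4) (nat_lit 177) (nat_lit 5) (nat_lit 177) (nat_lit 4) (nat_lit 331) (nat_lit 288) (nat_lit 281)))))) (XT.nd (nat_lit 390) (nat_lit 380) (nat_lit 0) (XT.nd (nat_lit 156) (nat_lit 304) (nat_lit 0) (XT.nd (nat_lit 78) (nat_lit 76) (nat_lit 0) (XT.lf (nat_lit 0) (nat_lit 38670655) (nat_lit 152) (nat_lit 355956943) (nat_lit 76) (nat_lit 39548787938) (nat_lit 175) (nat_lit 5) (nat_lit 177) (nat_lit 5) (nat_lit 176) (nat_lit 4) (nat_lit 332) (nat_lit 288) (nat_lit 280)) (XT.lf (nat_lit 0) (nat_lit 17694819485) (nat_lit 152) (nat_lit 8290986107) (nat_lit 0) (nat_lit 17288806576) (nat_lit 174) (nat_lit 5) (nat_lit 176) (nat_lit 4) (nat_lit 174) (nat_lit 4) (nat_lit 333) (nat_lit 288) (nat_lit 279))) (XT.nd (nat_lit 78) (nat_lit 228) (nat_lit 0) (XT.lf (nat_lit 0) (nat_lit 29263031625) (nat_lit 76) (nat_lit 9106956427) (nat_lit 76) (nat_lit 8679910632) (nat_lit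 173) (nat_lit 4) (nat_lit 174) (nat_lit 5) (nat_lit 174) (nat_lit 4) (nat_lit 334) (nat_lit 288) (nat_lit 278)) (XT.nd (nat_lit 78) (nat_lit 76) (nat_lit 0) (XT.lf (nat_lit 0) (nat_lit 10738587239) (nat_lit 152) (nat_lit 30093583718) (nat_lit 0) (nat_lit 10351339186) (nat_lit 171) (nat_lit 5) (nat_lit 173) (nat_lit 4) (nat_lit 171) (nat_lit 4) (nat_lit 335) (nat_lit 288) (nat_lit 277)) (XT.lf (nat_lit 0) (nat_lit 10124991090) (nat_lit 76) (nat_lit 23004503285) (nat_lit 76) (nat_lit 22603425768) (nat_lit 170) (nat_lit 4) (nat_lit 171) (nat_lit 5) (nat_lit 171) (nat_lit 4) (nat_lit 336) (nat_lit 288) (nat_lit 276))))) (XT.nd (nat_lit 156) (nat_lit 228) (nat_lit 0) (XT.nd (nat_lit 78) (nat_lit 152) (nat_lit 0) (XT.lf (nat_lit 0) (nat_lit 57959448385) (nat_lit 76) (nat_lit 1654109198) (nat_lit 76) (nat_lit 1241006060) (nat_lit 170) (nat_lit 4) (nat_lit 171) (nat_lit 5) (nat_lit 171) (nat_lit 4) (nat_lit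 337) (nat_lit 288) (nat_lit 275)) (XT.lf (nat_lit 0) (nat_lit 23520334791) (nat_lit 152) (nat_lit 19586539684) (nat_lit 0) (nat_lit 23152021574) (nat_lit 168) (nat_lit 5) (nat_lit 170) (nat_lit 4) (nat_lit 168) (nat_lit 4) (nat_lit 338) (nat_lit 288) (nat_lit 274))) (XT.nd (nat_lit 78) (nat_lit 152) (nat_lit 0) (XT.lf (nat_lit 0) (nat_lit 32673632512) (nat_lit 76) (nat_lit 20021804682) (nat_lit 76) (nat_lit 19645584423) (nat_lit 167) (nat_lit 4) (nat_lit 168) (nat_lit 5) (nat_lit 168) (nat_lit 4) (nat_lit 339) (nat_lit 288) (nat_lit 273)) (XT.nd (nat_lit 78) (nat_lit 0) (nat_lit 0) (XT.lf (nat_lit 0) (nat_lit 7561766960) (nat_lit 152) (nat_lit 64312272957) (nat_lit 0) (nat_lit 7228640051) (nat_lit 165) (nat_lit 5) (nat_lit 167) (nat_lit 4) (nat_lit 165) (nat_lit 4) (nat_lit 340) (nat_lit 288) (nat_lit 272)) (XT.lf (nat_lit 0) (nat_lit 39201206945) (nat_lit 152) (nat_lit 8319825566) (nat_lit 0)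 (nat_lit 38862881027) (nat_lit 165) (nat_lit 5) (nat_lit 167) (nat_lit 4) (nat_lit 165) (nat_lit 4) (nat_lit 341) (nat_lit 288) (nat_lit 271))))))) (XT.nd (nat_lit 780) (nat_lit 836) (nat_lit 0) (XT.nd (nat_lit 390) (nat_lit 304) (nat_lit 0) (XT.nd (nat_lit 156) (nat_lit 228) (nat_lit 0) (XT.nd (nat_lit 78) (nat_lit 152) (nat_lit 0) (XT.lf (nat_lit 0) (nat_lit 59986177062) (nat_lit 76) (nat_lit 17420492910) (nat_lit 76) (nat_lit 17077646116) (nat_lit 164) (nat_lit 4) (nat_lit 165) (nat_lit 5) (nat_lit 165) (nat_lit 4) (nat_lit 342) (nat_lit 288) (nat_lit 270)) (XT.lf (nat_lit 0) (nat_lit 18108348897) (nat_lit 152) (nat_lit 67456614981) (nat_lit 0) (nat_lit 17806802818) (nat_lit 162) (nat_lit 5) (nat_lit 164) (nat_lit 4) (nat_lit 162) (nat_lit 4) (nat_lit 343) (nat_lit 288) (nat_lit 269))) (XT.nd (nat_lit 78) (nat_lit 152) (nat_lit 0) (XT.lf (nat_lit 0) (nat_lit 4710592676) (nat_lit 76) (nat_lit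 54363377389) (nat_lit 76) (nat_lit 54058858760) (nat_lit 161) (nat_lit 4) (nat_lit 162) (nat_lit 5) (nat_lit 162) (nat_lit 4) (nat_lit 344) (nat_lit 288) (nat_lit 268)) (XT.nd (nat_lit 78) (nat_lit 152) (nat_lit 0) (XT.lf (nat_lit 0) (nat_lit 93923042039) (nat_lit 76) (nat_lit 15154102578) (nat_lit 76) (nat_lit 14846999124) (nat_lit 161) (nat_lit 4) (nat_lit 162) (nat_lit 5) (nat_lit 162) (nat_lit 4) (nat_lit 345) (nat_lit 288) (nat_lit 267)) (XT.lf (nat_lit 0) (nat_lit 30995820633) (nat_lit 152) (nat_lit 73907356358) (nat_lit 0) (nat_lit 30726819651) (nat_lit 159) (nat_lit 5) (nat_lit 161) (nat_lit 4) (nat_lit 159) (nat_lit 4) (nat_lit 346) (nat_lit 288) (nat_lit 266))))) (XT.nd (nat_lit 156) (nat_lit 228) (nat_lit 0) (XT.nd (nat_lit 78) (nat_lit 0) (nat_lit 0) (XT.lf (nat_lit 0) (nat_lit 20831461231) (nat_lit 76) (nat_lit 64013697503) (nat_lit 76) (nat_lit 63742996956) (nat_lit 158) (nat_lit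 4) (nat_lit 159) (nat_lit 5) (nat_lit 159) (nat_lit 4) (nat_lit 347) (nat_lit 288) (nat_lit 265)) (XT.lf (nat_lit 0) (nat_lit 136903678229) (nat_lit 76) (nat_lit 13180824044) (nat_lit 76) (nat_lit 12908645615) (nat_lit 158) (nat_lit 4) (nat_lit 159) (nat_lit 5) (nat_lit 159) (nat_lit 4) (nat_lit 348) (nat_lit 288) (nat_lit 264))) (XT.nd (nat_lit 78) (nat_lit 76) (nat_lit 0) (XT.lf (nat_lit 0) (nat_lit 47118641500) (nat_lit 152) (nat_lit 84433020392) (nat_lit 0) (nat_lit 46880847114) (nat_lit 156) (nat_lit 5) (nat_lit 158) (nat_lit 4) (nat_lit 156) (nat_lit 4) (nat_lit 349) (nat_lit 288) (nat_lit 263)) (XT.nd (nat_lit 78) (nat_lit 0) (nat_lit 0) (XT.lf (nat_lit 0) (nat_lit 40248284051) (nat_lit 76) (nat_lit 77801429060) (nat_lit 76) (nat_lit 77562662942) (nat_lit 155) (nat_lit 4) (nat_lit 156) (nat_lit 5) (nat_lit 156) (nat_lit 4) (nat_lit 350) (nat_lit 288) (nat_lit 262)) (XT.lf (nat_lit 0) (nat_lit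 192091635473) (nat_lit 76) (nat_lit 11463497806) (nat_lit 76) (nat_lit 11223886704) (nat_lit 155) (nat_lit 4) (nat_lit 156) (nat_lit 5) (nat_lit 156) (nat_lit 4) (nat_lit 351) (nat_lit 288) (nat_lit 261)))))) (XT.nd (nat_lit 390) (nat_lit 380) (nat_lit 0) (XT.nd (nat_lit 156) (nat_lit 228) (nat_lit 0) (XT.nd (nat_lit 78) (nat_lit 76) (nat_lit 0) (XT.lf (nat_lit 0) (nat_lit 67641016550) (nat_lit 152) (nat_lit 100088302543) (nat_lit 0) (nat_lit 67432020141) (nat_lit 153) (nat_lit 5) (nat_lit 155) (nat_lit 4) (nat_lit 153) (nat_lit 4) (nat_lit 352) (nat_lit 288) (nat_lit 260)) (XT.lf (nat_lit 0) (nat_lit 64271565918) (nat_lit 76) (nat_lit 96928403911) (nat_lit 76) (nat_lit 96718851911) (nat_lit 152) (nat_lit 4) (nat_lit 153) (nat_lit 5) (nat_lit 153) (nat_lit 4) (nat_lit 353) (nat_lit 288) (nat_lit 259))) (XT.nd (nat_lit 78) (nat_lit 228) (nat_lit 0) (XT.lf (nat_lit 0) (nat_lit 263638930369) (nat_lit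 76) (nat_lit 9969351971) (nat_lit 76) (nat_lit 9759316848) (nat_lit 152) (nat_lit 4) (nat_lit 153) (nat_lit 5) (nat_lit 153) (nat_lit 4) (nat_lit 354) (nat_lit 288) (nat_lit 258)) (XT.nd (nat_lit 78) (nat_lit 76) (nat_lit 0) (XT.lf (nat_lit 0) (nat_lit 94086553139) (nat_lit 152) (nat_lit 122301584437) (nat_lit 0) (nat_lit 93903548593) (nat_lit 150) (nat_lit 5) (nat_lit 152) (nat_lit 4) (nat_lit 150) (nat_lit 4) (nat_lit 355) (nat_lit 288) (nat_lit 257)) (XT.lf (nat_lit 0) (nat_lit 94602442207) (nat_lit 76) (nat_lit 123000795713) (nat_lit 76) (nat_lit 122817473505) (nat_lit 149) (nat_lit 4) (nat_lit 150) (nat_lit 5) (nat_lit 150) (nat_lit 4) (nat_lit 356) (nat_lit 288) (nat_lit 256))))) (XT.nd (nat_lit 156) (nat_lit 228) (nat_lit 0) (XT.nd (nat_lit 78) (nat_lit 152) (nat_lit 0) (XT.lf (nat_lit 0) (nat_lit 357008787328) (nat_lit 76) (nat_lit 8669626646) (nat_lit 76) (nat_lit 8486028211) (nat_lit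 149) (nat_lit 4) (nat_lit 150) (nat_lit 5) (nat_lit 150) (nat_lit 4) (nat_lit 357) (nat_lit 288) (nat_lit 255)) (XT.lf (nat_lit 0) (nat_lit 128456389195) (nat_lit 152) (nat_lit 152991199019) (nat_lit 0) (nat_lit 128296529515) (nat_lit 147) (nat_lit 5) (nat_lit 149) (nat_lit 4) (nat_lit 147) (nat_lit 4) (nat_lit 358) (nat_lit 288) (nat_lit 254))) (XT.nd (nat_lit 78) (nat_lit 152) (nat_lit 0) (XT.lf (nat_lit 0) (nat_lit 133462710828) (nat_lit 76) (nat_lit 158157561955) (nat_lit 76) (nat_lit 157997520652) (nat_lit 146) (nat_lit 4) (nat_lit 147) (nat_lit 5) (nat_lit 147) (nat_lit 4) (nat_lit 359) (nat_lit 288) (nat_lit 253)) (XT.nd (nat_lit 78) (nat_lit 152) (nat_lit 0) (XT.lf (nat_lit 0) (nat_lit 479402026031) (nat_lit 76) (nat_lit 7539163086) (nat_lit 76) (nat_lit 7378963849) (nat_lit 146) (nat_lit 4) (nat_lit 147) (nat_lit 5) (nat_lit 147) (nat_lit 4) (nat_lit 360) (nat_lit 288) (nat_lit 252)) (XT.lf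 (nat_lit 0) (nat_lit 173385073735) (nat_lit 152) (nat_lit 194719690974) (nat_lit 0) (nat_lit 173245650630) (nat_lit 144) (nat_lit 5) (nat_lit 146) (nat_lit 4) (nat_lit 144) (nat_lit 4) (nat_lit 361) (nat_lit 288) (nat_lit 251))))))))
noncomputable def xc22 : XT := (XT.nd (nat_lit 1560) (nat_lit 152) (nat_lit 0) (XT.nd (nat_lit 780) (nat_lit 684) (nat_lit 0) (XT.nd (nat_lit 390) (nat_lit 456) (nat_lit 0) (XT.nd (nat_lit 156) (nat_lit 228) (nat_lit 0) (XT.nd (nat_lit 78) (nat_lit 0) (nat_lit 0) (XT.lf (nat_lit 0) (nat_lit 183766322689) (nat_lit 76) (nat_lit 205240466876) (nat_lit 76) (nat_lit 205100939927) (nat_lit 143) (nat_lit 4) (nat_lit 144) (nat_lit 5) (nat_lit 144) (nat_lit 4) (nat_lit 362) (nat_lit 288) (nat_lit 250)) (XT.lf (nat_lit 0) (nat_lit 640320544462) (nat_lit 76) (nat_lit 6555998279) (nat_lit 76) (nat_lit 6416381031) (nat_lit 143) (nat_lit 4) (nat_lit 144) (nat_lit 5) (nat_lit 144)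 (nat_lit 4) (nat_lit 363) (nat_lit 288) (nat_lit 249))) (XT.nd (nat_lit 78) (nat_lit 76) (nat_lit 0) (XT.lf (nat_lit 0) (nat_lit 232346442942) (nat_lit 152) (nat_lit 250898284019) (nat_lit 0) (nat_lit 232224968361) (nat_lit 141) (nat_lit 5) (nat_lit 143) (nat_lit 4) (nat_lit 141) (nat_lit 4) (nat_lit 364) (nat_lit 288) (nat_lit 248)) (XT.nd (nat_lit 78) (nat_lit 0) (nat_lit 0) (XT.lf (nat_lit 0) (nat_lit 249345740983) (nat_lit 76) (nat_lit 268019116015) (nat_lit 76) (nat_lit 267897582060) (nat_lit 140) (nat_lit 4) (nat_lit 141) (nat_lit 5) (nat_lit 141) (nat_lit 4) (nat_lit 365) (nat_lit 288) (nat_lit 247)) (XT.lf (nat_lit 0) (nat_lit 852312145597) (nat_lit 76) (nat_lit 5700984873) (nat_lit 76) (nat_lit 5579399289) (nat_lit 140) (nat_lit 4) (nat_lit 141) (nat_lit 5) (nat_lit 141) (nat_lit 4) (nat_lit 366) (nat_lit 288) (nat_lit 246))))) (XT.nd (nat_lit 156) (nat_lit 228) (nat_lit 0) (XT.nd (nat_lit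 78) (nat_lit 76) (nat_lit 0) (XT.lf (nat_lit 0) (nat_lit 309925664654) (nat_lit 152) (nat_lit 326057700373) (nat_lit 0) (nat_lit 309819899021) (nat_lit 138) (nat_lit 5) (nat_lit 140) (nat_lit 4) (nat_lit 138) (nat_lit 4) (nat_lit 367) (nat_lit 288) (nat_lit 245)) (XT.lf (nat_lit 0) (nat_lit 335250908762) (nat_lit 76) (nat_lit 351488744060) (nat_lit 76) (nat_lit 351382944481) (nat_lit 137) (nat_lit 4) (nat_lit 138) (nat_lit 5) (nat_lit 138) (nat_lit 4) (nat_lit 368) (nat_lit 288) (nat_lit 244))) (XT.nd (nat_lit 78) (nat_lit 228) (nat_lit 0) (XT.lf (nat_lit 0) (nat_lit 1131955229496) (nat_lit 76) (nat_lit 4957444933) (nat_lit 76) (nat_lit 4851615835) (nat_lit 137) (nat_lit 4) (nat_lit 138) (nat_lit 5) (nat_lit 138) (nat_lit 4) (nat_lit 369) (nat_lit 288) (nat_lit 243)) (XT.nd (nat_lit 78) (nat_lit 76) (nat_lit 0) (XT.lf (nat_lit 0) (nat_lit 412178827773) (nat_lit 152) (nat_lit 426206684920) (nat_lit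 0) (nat_lit 412086780149) (nat_lit 135) (nat_lit 5) (nat_lit 137) (nat_lit 4) (nat_lit 135) (nat_lit 4) (nat_lit 370) (nat_lit 288) (nat_lit 242)) (XT.lf (nat_lit 0) (nat_lit 448144284905) (nat_lit 76) (nat_lit 462264209085) (nat_lit 76) (nat_lit 462172142052) (nat_lit 134) (nat_lit 4) (nat_lit 135) (nat_lit 5) (nat_lit 135) (nat_lit 4) (nat_lit 371) (nat_lit 288) (nat_lit 241)))))) (XT.nd (nat_lit 390) (nat_lit 304) (nat_lit 0) (XT.nd (nat_lit 156) (nat_lit 228) (nat_lit 0) (XT.nd (nat_lit 78) (nat_lit 152) (nat_lit 0) (XT.lf (nat_lit 0) (nat_lit 1501160745603) (nat_lit 76) (nat_lit 4310859864) (nat_lit 76) (nat_lit 4218775954) (nat_lit 134) (nat_lit 4) (nat_lit 135) (nat_lit 5) (nat_lit 135) (nat_lit 4) (nat_lit 372) (nat_lit 288) (nat_lit 240)) (XT.lf (nat_lit 0) (nat_lit 547108338881) (nat_lit 152) (nat_lit 559306475531) (nat_lit 0) (nat_lit 547028253154) (nat_lit 132) (nat_lit 5) (nat_lit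 134) (nat_lit 4) (nat_lit 132) (nat_lit 4) (nat_lit 373) (nat_lit 288) (nat_lit 239))) (XT.nd (nat_lit 78) (nat_lit 152) (nat_lit 0) (XT.lf (nat_lit 0) (nat_lit 596822971870) (nat_lit 76) (nat_lit 609101205344) (nat_lit 76) (nat_lit 609021108519) (nat_lit 131) (nat_lit 4) (nat_lit 132) (nat_lit 5) (nat_lit 132) (nat_lit 4) (nat_lit 374) (nat_lit 288) (nat_lit 238)) (XT.nd (nat_lit 78) (nat_lit 152) (nat_lit 0) (XT.lf (nat_lit 0) (nat_lit 1988893757562) (nat_lit 76) (nat_lit 3748595627) (nat_lit 76) (nat_lit 3668489152) (nat_lit 131) (nat_lit 4) (nat_lit 132) (nat_lit 5) (nat_lit 132) (nat_lit 4) (nat_lit 375) (nat_lit 288) (nat_lit 237)) (XT.lf (nat_lit 0) (nat_lit 725291497306) (nat_lit 152) (nat_lit 735898572653) (nat_lit 0) (nat_lit 725221832205) (nat_lit 129) (nat_lit 5) (nat_lit 131) (nat_lit 4) (nat_lit 129) (nat_lit 4) (nat_lit 376) (nat_lit 288) (nat_lit 236))))) (XT.nd (nat_lit 156) (nat_lit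 228) (nat_lit 0) (XT.nd (nat_lit 78) (nat_lit 0) (nat_lit 0) (XT.lf (nat_lit 0) (nat_lit 792908960017) (nat_lit 76) (nat_lit 803585706810) (nat_lit 76) (nat_lit 803516035364) (nat_lit 128) (nat_lit 4) (nat_lit 129) (nat_lit 5) (nat_lit 129) (nat_lit 4) (nat_lit 377) (nat_lit 288) (nat_lit 235)) (XT.lf (nat_lit 0) (nat_lit 2633449978362) (nat_lit 76) (nat_lit 3259660853) (nat_lit 76) (nat_lit 3189983891) (nat_lit 128) (nat_lit 4) (nat_lit 129) (nat_lit 5) (nat_lit 129) (nat_lit 4) (nat_lit 378) (nat_lit 288) (nat_lit 234))) (XT.nd (nat_lit 78) (nat_lit 76) (nat_lit 0) (XT.lf (nat_lit 0) (nat_lit 960711667961) (nat_lit 152) (nat_lit 969935211742) (nat_lit 0) (nat_lit 960651075126) (nat_lit 126) (nat_lit 5) (nat_lit 128) (nat_lit 4) (nat_lit 126) (nat_lit 4) (nat_lit 379) (nat_lit 288) (nat_lit 233)) (XT.nd (nat_lit 78) (nat_lit 0) (nat_lit 0) (XT.lf (nat_lit 0) (nat_lit 1051761739925) (nat_lit 76)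 (nat_lit 1061045880168) (nat_lit 76) (nat_lit 1060985283706) (nat_lit 125) (nat_lit 4) (nat_lit 126) (nat_lit 5) (nat_lit 126) (nat_lit 4) (nat_lit 380) (nat_lit 288) (nat_lit 232)) (XT.lf (nat_lit 0) (nat_lit 3485466283124) (nat_lit 76) (nat_lit 2834494835) (nat_lit 76) (nat_lit 2773895218) (nat_lit 125) (nat_lit 4) (nat_lit 126) (nat_lit 5) (nat_lit 126) (nat_lit 4) (nat_lit 381) (nat_lit 288) (nat_lit 231))))))) (XT.nd (nat_lit 42900) (nat_lit 0) (nat_lit 3344) (XT.nd (nat_lit 42510) (nat_lit 0) (nat_lit 4180) (XT.nd (nat_lit 42276) (nat_lit 0) (nat_lit 4712) (XT.nd (nat_lit 42198) (nat_lit 0) (nat_lit 5016) (XT.lf (nat_lit 0) (nat_lit 1271857405926) (nat_lit 152) (nat_lit 1279877878778) (nat_lit 0) (nat_lit 1271804708221) (nat_lit 123) (nat_lit 5) (nat_lit 125) (nat_lit 4) (nat_lit 123) (nat_lit 4) (nat_lit 382) (nat_lit 288) (nat_lit 230)) (XT.lf (nat_lit 0) (nat_lit 3503893495) (nat_lit 152)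 (nat_lit 2474795976) (nat_lit 0) (nat_lit 3503893495) (nat_lit 189) (nat_lit 5) (nat_lit 191) (nat_lit 4) (nat_lit 189) (nat_lit 4) (nat_lit 322) (nat_lit 289) (nat_lit 289))) (XT.nd (nat_lit 78) (nat_lit 228) (nat_lit 0) (XT.lf (nat_lit 0) (nat_lit 14740559921) (nat_lit 76) (nat_lit 2887796928) (nat_lit 76) (nat_lit 2716651037) (nat_lit 188) (nat_lit 4) (nat_lit 189) (nat_lit 5) (nat_lit 189) (nat_lit 4) (nat_lit 323) (nat_lit 289) (nat_lit 288)) (XT.nd (nat_lit 78) (nat_lit 76) (nat_lit 0) (XT.lf (nat_lit 0) (nat_lit 7543718476) (nat_lit 152) (nat_lit 7022828202) (nat_lit 0) (nat_lit 7265485081) (nat_lit 186) (nat_lit 5) (nat_lit 188) (nat_lit 4) (nat_lit 186) (nat_lit 4) (nat_lit 324) (nat_lit 289) (nat_lit 287)) (XT.lf (nat_lit 0) (nat_lit 14557178609) (nat_lit 76) (nat_lit 4666262918) (nat_lit 76) (nat_lit 4275498320) (nat_lit 185) (nat_lit 4) (nat_lit 186) (nat_lit 5) (nat_lit 186) (nat_lit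 4) (nat_lit 325) (nat_lit 289) (nat_lit 286))))) (XT.nd (nat_lit 156) (nat_lit 304) (nat_lit 0) (XT.nd (nat_lit 78) (nat_lit 76) (nat_lit 0) (XT.lf (nat_lit 0) (nat_lit 6962372654) (nat_lit 152) (nat_lit 11815916550) (nat_lit 0) (nat_lit 6537487597) (nat_lit 183) (nat_lit 5) (nat_lit 185) (nat_lit 4) (nat_lit 183) (nat_lit 4) (nat_lit 326) (nat_lit 289) (nat_lit 285)) (XT.lf (nat_lit 0) (nat_lit 11691951834) (nat_lit 76) (nat_lit 8067423613) (nat_lit 76) (nat_lit 7568547464) (nat_lit 182) (nat_lit 4) (nat_lit 183) (nat_lit 5) (nat_lit 183) (nat_lit 4) (nat_lit 327) (nat_lit 289) (nat_lit 284))) (XT.nd (nat_lit 78) (nat_lit 152) (nat_lit 0) (XT.lf (nat_lit 0) (nat_lit 4741793053) (nat_lit 152) (nat_lit 20567315774) (nat_lit 0) (nat_lit 4252039810) (nat_lit 180) (nat_lit 5) (nat_lit 182) (nat_lit 4) (nat_lit 180) (nat_lit 4) (nat_lit 328) (nat_lit 289) (nat_lit 283)) (XT.nd (nat_lit 78) (nat_lit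 76) (nat_lit 0) (XT.lf (nat_lit 0) (nat_lit 4834406435) (nat_lit 76) (nat_lit 13847769669) (nat_lit 76) (nat_lit 13309366082) (nat_lit 179) (nat_lit 4) (nat_lit 180) (nat_lit 5) (nat_lit 180) (nat_lit 4) (nat_lit 329) (nat_lit 289) (nat_lit 282)) (XT.lf (nat_lit 0) (nat_lit 178330533) (nat_lit 152) (nat_lit 197297587) (nat_lit 76) (nat_lit 34374611223) (nat_lit 178) (nat_lit 5) (nat_lit 180) (nat_lit 5) (nat_lit 179) (nat_lit 4) (nat_lit 330) (nat_lit 289) (nat_lit 281)))))) (XT.nd (nat_lit 390) (nat_lit 456) (nat_lit 0) (XT.nd (nat_lit 156) (nat_lit 228) (nat_lit 0) (XT.nd (nat_lit 78) (nat_lit 76) (nat_lit 0) (XT.lf (nat_lit 0) (nat_lit 15538980995) (nat_lit 152) (nat_lit 7104800513) (nat_lit 0) (nat_lit 15002028923) (nat_lit 177) (nat_lit 5) (nat_lit 179) (nat_lit 4) (nat_lit 177) (nat_lit 4) (nat_lit 331) (nat_lit 289) (nat_lit 280)) (XT.lf (nat_lit 0) (nat_lit 25557784418) (nat_lit 76) (nat_lit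 7967252335) (nat_lit 76) (nat_lit 7402484271) (nat_lit 176) (nat_lit 4) (nat_lit 177) (nat_lit 5) (nat_lit 177) (nat_lit 4) (nat_lit 332) (nat_lit 289) (nat_lit 279))) (XT.nd (nat_lit 78) (nat_lit 76) (nat_lit 0) (XT.lf (nat_lit 0) (nat_lit 9475150258) (nat_lit 152) (nat_lit 26082161051) (nat_lit 0) (nat_lit 8963014707) (nat_lit 174) (nat_lit 5) (nat_lit 176) (nat_lit 4) (nat_lit 174) (nat_lit 4) (nat_lit 333) (nat_lit 289) (nat_lit 278)) (XT.nd (nat_lit 78) (nat_lit 0) (nat_lit 0) (XT.lf (nat_lit 0) (nat_lit 8896751254) (nat_lit 76) (nat_lit 20054568107) (nat_lit 76) (nat_lit 19524143090) (nat_lit 173) (nat_lit 4) (nat_lit 174) (nat_lit 5) (nat_lit 174) (nat_lit 4) (nat_lit 334) (nat_lit 289) (nat_lit 277)) (XT.lf (nat_lit 0) (nat_lit 50490033376) (nat_lit 76) (nat_lit 1492556718) (nat_lit 76) (nat_lit 946227818) (nat_lit 173) (nat_lit 4) (nat_lit 174) (nat_lit 5) (nat_lit 174) (nat_lit 4) (nat_lit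 335) (nat_lit 289) (nat_lit 276))))) (XT.nd (nat_lit 156) (nat_lit 228) (nat_lit 0) (XT.nd (nat_lit 78) (nat_lit 76) (nat_lit 0) (XT.lf (nat_lit 0) (nat_lit 20576351637) (nat_lit 152) (nat_lit 16961381173) (nat_lit 0) (nat_lit 20089257407) (nat_lit 171) (nat_lit 5) (nat_lit 173) (nat_lit 4) (nat_lit 171) (nat_lit 4) (nat_lit 336) (nat_lit 289) (nat_lit 275)) (XT.lf (nat_lit 0) (nat_lit 28487878033) (nat_lit 76) (nat_lit 17462412789) (nat_lit 76) (nat_lit 16964861498) (nat_lit 170) (nat_lit 4) (nat_lit 171) (nat_lit 5) (nat_lit 171) (nat_lit 4) (nat_lit 337) (nat_lit 289) (nat_lit 274))) (XT.nd (nat_lit 78) (nat_lit 76) (nat_lit 0) (XT.lf (nat_lit 0) (nat_lit 6685025350) (nat_lit 152) (nat_lit 55864353115) (nat_lit 0) (nat_lit 6244465012) (nat_lit 168) (nat_lit 5) (nat_lit 170) (nat_lit 4) (nat_lit 168) (nat_lit 4) (nat_lit 338) (nat_lit 289) (nat_lit 273)) (XT.nd (nat_lit 78) (nat_lit 76) (nat_lit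 0) (XT.lf (nat_lit 0) (nat_lit 34198329418) (nat_lit 152) (nat_lit 7176015987) (nat_lit 0) (nat_lit 33750893392) (nat_lit 168) (nat_lit 5) (nat_lit 170) (nat_lit 4) (nat_lit 168) (nat_lit 4) (nat_lit 339) (nat_lit 289) (nat_lit 272)) (XT.lf (nat_lit 0) (nat_lit 52225522737) (nat_lit 76) (nat_lit 15198233262) (nat_lit 76) (nat_lit 14744818378) (nat_lit 167) (nat_lit 4) (nat_lit 168) (nat_lit 5) (nat_lit 168) (nat_lit 4) (nat_lit 340) (nat_lit 289) (nat_lit 271))))))))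
noncomputable def xc23 : XT := (XT.nd (nat_lit 1560) (nat_lit 1520) (nat_lit 0) (XT.nd (nat_lit 780) (nat_lit 760) (nat_lit 0) (XT.nd (nat_lit 390) (nat_lit 380) (nat_lit 0) (XT.nd (nat_lit 156) (nat_lit 228) (nat_lit 0) (XT.nd (nat_lit 78) (nat_lit 76) (nat_lit 0) (XT.lf (nat_lit 0) (nat_lit 15843380513) (nat_lit 152) (nat_lit 58608013352) (nat_lit 0) (nat_lit 15444585823) (nat_lit 165) (nat_lit 5) (nat_lit 167) (nat_lit 4) (nat_lit 165) (nat_lit 4) (nat_lit 341) (nat_lit 289) (nat_lit 270)) (XT.lf (nat_lit 0) (nat_lit 4150488907) (nat_lit 76) (nat_lit 47317847633) (nat_lit 76) (nat_lit 46915121747) (nat_lit 164) (nat_lit 4) (nat_lit 165) (nat_lit 5) (nat_lit 165) (nat_lit 4) (nat_lit 342) (nat_lit 289) (nat_lit 269))) (XT.nd (nat_lit 78) (nat_lit 228) (nat_lit 0) (XT.lf (nat_lit 0) (nat_lit 81726123840) (nat_lit 76) (nat_lit 13223588825) (nat_lit 76) (nat_lit 12817444507) (nat_lit 164) (nat_lit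 4) (nat_lit 165) (nat_lit 5) (nat_lit 165) (nat_lit 4) (nat_lit 343) (nat_lit 289) (nat_lit 268)) (XT.nd (nat_lit 78) (nat_lit 76) (nat_lit 0) (XT.lf (nat_lit 0) (nat_lit 27038202677) (nat_lit 152) (nat_lit 64224839929) (nat_lit 0) (nat_lit 26682448879) (nat_lit 162) (nat_lit 5) (nat_lit 164) (nat_lit 4) (nat_lit 162) (nat_lit 4) (nat_lit 344) (nat_lit 289) (nat_lit 267)) (XT.lf (nat_lit 0) (nat_lit 18160618546) (nat_lit 76) (nat_lit 55705257270) (nat_lit 76) (nat_lit 55347255797) (nat_lit 161) (nat_lit 4) (nat_lit 162) (nat_lit 5) (nat_lit 162) (nat_lit 4) (nat_lit 345) (nat_lit 289) (nat_lit 266))))) (XT.nd (nat_lit 156) (nat_lit 228) (nat_lit 0) (XT.nd (nat_lit 78) (nat_lit 152) (nat_lit 0) (XT.lf (nat_lit 0) (nat_lit 119092747882) (nat_lit 76) (nat_lit 11503194724) (nat_lit 76) (nat_lit 11143238752) (nat_lit 161) (nat_lit 4) (nat_lit 162) (nat_lit 5) (nat_lit 162) (nat_lit 4) (nat_lit 346)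 (nat_lit 289) (nat_lit 265)) (XT.lf (nat_lit 0) (nat_lit 41047476815) (nat_lit 152) (nat_lit 73383683121) (nat_lit 0) (nat_lit 40732993740) (nat_lit 159) (nat_lit 5) (nat_lit 161) (nat_lit 4) (nat_lit 159) (nat_lit 4) (nat_lit 347) (nat_lit 289) (nat_lit 264))) (XT.nd (nat_lit 78) (nat_lit 152) (nat_lit 0) (XT.lf (nat_lit 0) (nat_lit 35038239985) (nat_lit 76) (nat_lit 67690214481) (nat_lit 76) (nat_lit 67374446290) (nat_lit 158) (nat_lit 4) (nat_lit 159) (nat_lit 5) (nat_lit 159) (nat_lit 4) (nat_lit 348) (nat_lit 289) (nat_lit 263)) (XT.nd (nat_lit 78) (nat_lit 152) (nat_lit 0) (XT.lf (nat_lit 0) (nat_lit 167075803501) (nat_lit 76) (nat_lit 10005306218) (nat_lit 76) (nat_lit 9688420536) (nat_lit 158) (nat_lit 4) (nat_lit 159) (nat_lit 5) (nat_lit 159) (nat_lit 4) (nat_lit 349) (nat_lit 289) (nat_lit 262)) (XT.lf (nat_lit 0) (nat_lit 58883590001) (nat_lit 152) (nat_lit 87002030266) (nat_lit 0)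 (nat_lit 58607192249) (nat_lit 156) (nat_lit 5) (nat_lit 158) (nat_lit 4) (nat_lit 156) (nat_lit 4) (nat_lit 350) (nat_lit 289) (nat_lit 261)))))) (XT.nd (nat_lit 390) (nat_lit 456) (nat_lit 0) (XT.nd (nat_lit 156) (nat_lit 228) (nat_lit 0) (XT.nd (nat_lit 78) (nat_lit 0) (nat_lit 0) (XT.lf (nat_lit 0) (nat_lit 55922563334) (nat_lit 76) (nat_lit 84318136120) (nat_lit 76) (nat_lit 84041003600) (nat_lit 155) (nat_lit 4) (nat_lit 156) (nat_lit 5) (nat_lit 156) (nat_lit 4) (nat_lit 351) (nat_lit 289) (nat_lit 260)) (XT.lf (nat_lit 0) (nat_lit 229285412687) (nat_lit 76) (nat_lit 8701711782) (nat_lit 76) (nat_lit 8423940332) (nat_lit 155) (nat_lit 4) (nat_lit 156) (nat_lit 5) (nat_lit 156) (nat_lit 4) (nat_lit 352) (nat_lit 289) (nat_lit 259))) (XT.nd (nat_lit 78) (nat_lit 76) (nat_lit 0) (XT.lf (nat_lit 0) (nat_lit 81871371862) (nat_lit 152) (nat_lit 106322189484) (nat_lit 0) (nat_lit 81629348349) (nat_lit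 153) (nat_lit 5) (nat_lit 155) (nat_lit 4) (nat_lit 153) (nat_lit 4) (nat_lit 353) (nat_lit 289) (nat_lit 258)) (XT.nd (nat_lit 78) (nat_lit 0) (nat_lit 0) (XT.lf (nat_lit 0) (nat_lit 82292597499) (nat_lit 76) (nat_lit 106985858741) (nat_lit 76) (nat_lit 106743415121) (nat_lit 152) (nat_lit 4) (nat_lit 153) (nat_lit 5) (nat_lit 153) (nat_lit 4) (nat_lit 354) (nat_lit 289) (nat_lit 257)) (XT.lf (nat_lit 0) (nat_lit 310471984439) (nat_lit 76) (nat_lit 7567532370) (nat_lit 76) (nat_lit 7324723440) (nat_lit 152) (nat_lit 4) (nat_lit 153) (nat_lit 5) (nat_lit 153) (nat_lit 4) (nat_lit 355) (nat_lit 289) (nat_lit 256))))) (XT.nd (nat_lit 156) (nat_lit 228) (nat_lit 0) (XT.nd (nat_lit 78) (nat_lit 76) (nat_lit 0) (XT.lf (nat_lit 0) (nat_lit 111750858221) (nat_lit 152) (nat_lit 133012438762) (nat_lit 0) (nat_lit 111539443795) (nat_lit 150) (nat_lit 5) (nat_lit 152) (nat_lit 4) (nat_lit 150) (nat_lit 4)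 (nat_lit 356) (nat_lit 289) (nat_lit 255)) (XT.lf (nat_lit 0) (nat_lit 116080174454) (nat_lit 76) (nat_lit 137553409619) (nat_lit 76) (nat_lit 137341754995) (nat_lit 149) (nat_lit 4) (nat_lit 150) (nat_lit 5) (nat_lit 150) (nat_lit 4) (nat_lit 357) (nat_lit 289) (nat_lit 254))) (XT.nd (nat_lit 78) (nat_lit 228) (nat_lit 0) (XT.lf (nat_lit 0) (nat_lit 416896945355) (nat_lit 76) (nat_lit 6580935468) (nat_lit 76) (nat_lit 6369071977) (nat_lit 149) (nat_lit 4) (nat_lit 150) (nat_lit 5) (nat_lit 150) (nat_lit 4) (nat_lit 358) (nat_lit 289) (nat_lit 253)) (XT.nd (nat_lit 78) (nat_lit 76) (nat_lit 0) (XT.lf (nat_lit 0) (nat_lit 150812863072) (nat_lit 152) (nat_lit 169301193977) (nat_lit 0) (nat_lit 150628476016) (nat_lit 147) (nat_lit 5) (nat_lit 149) (nat_lit 4) (nat_lit 147) (nat_lit 4) (nat_lit 359) (nat_lit 289) (nat_lit 252)) (XT.lf (nat_lit 0) (nat_lit 159819043943) (nat_lit 76) (nat_lit 178491899238)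 (nat_lit 76) (nat_lit 178307374848) (nat_lit 146) (nat_lit 4) (nat_lit 147) (nat_lit 5) (nat_lit 147) (nat_lit 4) (nat_lit 360) (nat_lit 289) (nat_lit 251))))))) (XT.nd (nat_lit 780) (nat_lit 836) (nat_lit 0) (XT.nd (nat_lit 390) (nat_lit 304) (nat_lit 0) (XT.nd (nat_lit 156) (nat_lit 228) (nat_lit 0) (XT.nd (nat_lit 78) (nat_lit 152) (nat_lit 0) (XT.lf (nat_lit 0) (nat_lit 556822700797) (nat_lit 76) (nat_lit 5722822756) (nat_lit 76) (nat_lit 5538178946) (nat_lit 146) (nat_lit 4) (nat_lit 147) (nat_lit 5) (nat_lit 147) (nat_lit 4) (nat_lit 361) (nat_lit 289) (nat_lit 250)) (XT.lf (nat_lit 0) (nat_lit 202078013813) (nat_lit 152) (nat_lit 218154823296) (nat_lit 0) (nat_lit 201917363679) (nat_lit 144) (nat_lit 5) (nat_lit 146) (nat_lit 4) (nat_lit 144) (nat_lit 4) (nat_lit 362) (nat_lit 289) (nat_lit 249))) (XT.nd (nat_lit 78) (nat_lit 152) (nat_lit 0) (XT.lf (nat_lit 0) (nat_lit 216841691447) (nat_lit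 76) (nat_lit 233079229585) (nat_lit 76) (nat_lit 232918500930) (nat_lit 143) (nat_lit 4) (nat_lit 144) (nat_lit 5) (nat_lit 144) (nat_lit 4) (nat_lit 363) (nat_lit 289) (nat_lit 248)) (XT.nd (nat_lit 78) (nat_lit 152) (nat_lit 0) (XT.lf (nat_lit 0) (nat_lit 741160296005) (nat_lit 76) (nat_lit 4976522088) (nat_lit 76) (nat_lit 4815725154) (nat_lit 143) (nat_lit 4) (nat_lit 144) (nat_lit 5) (nat_lit 144) (nat_lit 4) (nat_lit 364) (nat_lit 289) (nat_lit 247)) (XT.lf (nat_lit 0) (nat_lit 269533318014) (nat_lit 152) (nat_lit 283513152347) (nat_lit 0) (nat_lit 269393442964) (nat_lit 141) (nat_lit 5) (nat_lit 143) (nat_lit 4) (nat_lit 141) (nat_lit 4) (nat_lit 365) (nat_lit 289) (nat_lit 246))))) (XT.nd (nat_lit 156) (nat_lit 228) (nat_lit 0) (XT.nd (nat_lit 78) (nat_lit 0) (nat_lit 0) (XT.lf (nat_lit 0) (nat_lit 291539300302) (nat_lit 76) (nat_lit 305659054579) (nat_lit 76) (nat_lit 305519134635) (nat_lit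 140) (nat_lit 4) (nat_lit 141) (nat_lit 5) (nat_lit 141) (nat_lit 4) (nat_lit 366) (nat_lit 289) (nat_lit 245)) (XT.lf (nat_lit 0) (nat_lit 984325661498) (nat_lit 76) (nat_lit 4327498832) (nat_lit 76) (nat_lit 4187539849) (nat_lit 140) (nat_lit 4) (nat_lit 141) (nat_lit 5) (nat_lit 141) (nat_lit 4) (nat_lit 367) (nat_lit 289) (nat_lit 244))) (XT.nd (nat_lit 78) (nat_lit 76) (nat_lit 0) (XT.lf (nat_lit 0) (nat_lit 358444852733) (nat_lit 152) (nat_lit 370601230414) (nat_lit 0) (nat_lit 358323119751) (nat_lit 138) (nat_lit 5) (nat_lit 140) (nat_lit 4) (nat_lit 138) (nat_lit 4) (nat_lit 368) (nat_lit 289) (nat_lit 243)) (XT.nd (nat_lit 78) (nat_lit 0) (nat_lit 0) (XT.lf (nat_lit 0) (nat_lit 389705255317) (nat_lit 76) (nat_lit 401983391649) (nat_lit 76) (nat_lit 401861632998) (nat_lit 137) (nat_lit 4) (nat_lit 138) (nat_lit 5) (nat_lit 138) (nat_lit 4) (nat_lit 369) (nat_lit 289) (nat_lit 242)) (XT.lf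 (nat_lit 0) (nat_lit 1305371740217) (nat_lit 76) (nat_lit 3763092960) (nat_lit 76) (nat_lit 3641311989) (nat_lit 137) (nat_lit 4) (nat_lit 138) (nat_lit 5) (nat_lit 138) (nat_lit 4) (nat_lit 370) (nat_lit 289) (nat_lit 241)))))) (XT.nd (nat_lit 390) (nat_lit 380) (nat_lit 0) (XT.nd (nat_lit 156) (nat_lit 228) (nat_lit 0) (XT.nd (nat_lit 78) (nat_lit 76) (nat_lit 0) (XT.lf (nat_lit 0) (nat_lit 475771153884) (nat_lit 152) (nat_lit 486341917084) (nat_lit 0) (nat_lit 475665240509) (nat_lit 135) (nat_lit 5) (nat_lit 137) (nat_lit 4) (nat_lit 135) (nat_lit 4) (nat_lit 371) (nat_lit 289) (nat_lit 240)) (XT.lf (nat_lit 0) (nat_lit 518989163188) (nat_lit 76) (nat_lit 529665854440) (nat_lit 76) (nat_lit 529559926389) (nat_lit 134) (nat_lit 4) (nat_lit 135) (nat_lit 5) (nat_lit 135) (nat_lit 4) (nat_lit 372) (nat_lit 289) (nat_lit 239))) (XT.nd (nat_lit 78) (nat_lit 228) (nat_lit 0) (XT.lf (nat_lit 0) (nat_lit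 1729485497050) (nat_lit 76) (nat_lit 3272283620) (nat_lit 76) (nat_lit 3166342808) (nat_lit 134) (nat_lit 4) (nat_lit 135) (nat_lit 5) (nat_lit 135) (nat_lit 4) (nat_lit 373) (nat_lit 289) (nat_lit 238)) (XT.nd (nat_lit 78) (nat_lit 76) (nat_lit 0) (XT.lf (nat_lit 0) (nat_lit 630709803255) (nat_lit 152) (nat_lit 639901771256) (nat_lit 0) (nat_lit 630617671160) (nat_lit 132) (nat_lit 5) (nat_lit 134) (nat_lit 4) (nat_lit 132) (nat_lit 4) (nat_lit 374) (nat_lit 289) (nat_lit 237)) (XT.lf (nat_lit 0) (nat_lit 689497062546) (nat_lit 76) (nat_lit 698781171033) (nat_lit 76) (nat_lit 698689030547) (nat_lit 131) (nat_lit 4) (nat_lit 132) (nat_lit 5) (nat_lit 132) (nat_lit 4) (nat_lit 375) (nat_lit 289) (nat_lit 236))))) (XT.nd (nat_lit 156) (nat_lit 228) (nat_lit 0) (XT.nd (nat_lit 78) (nat_lit 152) (nat_lit 0) (XT.lf (nat_lit 0) (nat_lit 2289967512410) (nat_lit 76) (nat_lit 2845480525) (nat_lit 76) (nat_lit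 2753332742) (nat_lit 131) (nat_lit 4) (nat_lit 132) (nat_lit 5) (nat_lit 132) (nat_lit 4) (nat_lit 376) (nat_lit 289) (nat_lit 235)) (XT.lf (nat_lit 0) (nat_lit 835420187031) (nat_lit 152) (nat_lit 843413202683) (nat_lit 0) (nat_lit 835340053006) (nat_lit 129) (nat_lit 5) (nat_lit 131) (nat_lit 4) (nat_lit 129) (nat_lit 4) (nat_lit 377) (nat_lit 289) (nat_lit 234))) (XT.nd (nat_lit 78) (nat_lit 152) (nat_lit 0) (XT.lf (nat_lit 0) (nat_lit 914584998257) (nat_lit 76) (nat_lit 922658152732) (nat_lit 76) (nat_lit 922578013910) (nat_lit 128) (nat_lit 4) (nat_lit 129) (nat_lit 5) (nat_lit 129) (nat_lit 4) (nat_lit 378) (nat_lit 289) (nat_lit 233)) (XT.nd (nat_lit 78) (nat_lit 152) (nat_lit 0) (XT.lf (nat_lit 0) (nat_lit 3030849817932) (nat_lit 76) (nat_lit 2474340330) (nat_lit 76) (nat_lit 2394197336) (nat_lit 128) (nat_lit 4) (nat_lit 129) (nat_lit 5) (nat_lit 129) (nat_lit 4) (nat_lit 379) (nat_lit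 289) (nat_lit 232)) (XT.lf (nat_lit 0) (nat_lit 1105979255587) (nat_lit 152) (nat_lit 1112929703981) (nat_lit 0) (nat_lit 1105909562872) (nat_lit 126) (nat_lit 5) (nat_lit 128) (nat_lit 4) (nat_lit 126) (nat_lit 4) (nat_lit 380) (nat_lit 289) (nat_lit 231))))))))
noncomputable def xc24 : XT := (XT.nd (nat_lit 43524) (nat_lit 0) (nat_lit 1900) (XT.nd (nat_lit 42744) (nat_lit 0) (nat_lit 3496) (XT.nd (nat_lit 42354) (nat_lit 0) (nat_lit 4332) (XT.nd (nat_lit 42120) (nat_lit 0) (nat_lit 4864) (XT.nd (nat_lit 78) (nat_lit 0) (nat_lit 0) (XT.lf (nat_lit 0) (nat_lit 1211908345458) (nat_lit 76) (nat_lit 1218928489310) (nat_lit 76) (nat_lit 1218858793852) (nat_lit 125) (nat_lit 4) (nat_lit 126) (nat_lit 5) (nat_lit 126) (nat_lit 4) (nat_lit 381) (nat_lit 289) (nat_lit 230)) (XT.lf (nat_lit 0) (nat_lit 4010357829544) (nat_lit 76) (nat_lit 2151605683) (nat_lit 76) (nat_lit 2081907840) (nat_lit 125) (nat_lit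 4) (nat_lit 126) (nat_lit 5) (nat_lit 126) (nat_lit 4) (nat_lit 382) (nat_lit 289) (nat_lit 229))) (XT.nd (nat_lit 78) (nat_lit 228) (nat_lit 0) (XT.lf (nat_lit 0) (nat_lit 3155347992) (nat_lit 152) (nat_lit 1963328530) (nat_lit 0) (nat_lit 3155347992) (nat_lit 192) (nat_lit 5) (nat_lit 194) (nat_lit 4) (nat_lit 192) (nat_lit 4) (nat_lit 320) (nat_lit 290) (nat_lit 290)) (XT.nd (nat_lit 78) (nat_lit 152) (nat_lit 0) (XT.lf (nat_lit 0) (nat_lit 13205076323) (nat_lit 76) (nat_lit 2381539714) (nat_lit 76) (nat_lit 2155199273) (nat_lit 191) (nat_lit 4) (nat_lit 192) (nat_lit 5) (nat_lit 192) (nat_lit 4) (nat_lit 321) (nat_lit 290) (nat_lit 289)) (XT.lf (nat_lit 0) (nat_lit 6788430019) (nat_lit 152) (nat_lit 5818695774) (nat_lit 0) (nat_lit 6420466353) (nat_lit 189) (nat_lit 5) (nat_lit 191) (nat_lit 4) (nat_lit 189) (nat_lit 4) (nat_lit 322) (nat_lit 290) (nat_lit 288))))) (XT.nd (nat_lit 156) (nat_lit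 304) (nat_lit 0) (XT.nd (nat_lit 78) (nat_lit 152) (nat_lit 0) (XT.lf (nat_lit 0) (nat_lit 12956921850) (nat_lit 76) (nat_lit 4016330294) (nat_lit 76) (nat_lit 3499544114) (nat_lit 188) (nat_lit 4) (nat_lit 189) (nat_lit 5) (nat_lit 189) (nat_lit 4) (nat_lit 323) (nat_lit 290) (nat_lit 287)) (XT.lf (nat_lit 0) (nat_lit 6279389916) (nat_lit 152) (nat_lit 10050483582) (nat_lit 0) (nat_lit 5717479428) (nat_lit 186) (nat_lit 5) (nat_lit 188) (nat_lit 4) (nat_lit 186) (nat_lit 4) (nat_lit 324) (nat_lit 290) (nat_lit 286))) (XT.nd (nat_lit 78) (nat_lit 228) (nat_lit 0) (XT.lf (nat_lit 0) (nat_lit 10401375318) (nat_lit 76) (nat_lit 7026190722) (nat_lit 76) (nat_lit 6366427014) (nat_lit 185) (nat_lit 4) (nat_lit 186) (nat_lit 5) (nat_lit 186) (nat_lit 4) (nat_lit 325) (nat_lit 290) (nat_lit 285)) (XT.nd (nat_lit 78) (nat_lit 76) (nat_lit 0) (XT.lf (nat_lit 0) (nat_lit 4336379439) (nat_lit 152) (nat_lit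 17706938947) (nat_lit 0) (nat_lit 3688680775) (nat_lit 183) (nat_lit 5) (nat_lit 185) (nat_lit 4) (nat_lit 183) (nat_lit 4) (nat_lit 326) (nat_lit 290) (nat_lit 284)) (XT.lf (nat_lit 0) (nat_lit 4391200654) (nat_lit 76) (nat_lit 12082004928) (nat_lit 76) (nat_lit 11369966185) (nat_lit 182) (nat_lit 4) (nat_lit 183) (nat_lit 5) (nat_lit 183) (nat_lit 4) (nat_lit 327) (nat_lit 290) (nat_lit 283)))))) (XT.nd (nat_lit 390) (nat_lit 380) (nat_lit 0) (XT.nd (nat_lit 156) (nat_lit 304) (nat_lit 0) (XT.nd (nat_lit 78) (nat_lit 76) (nat_lit 0) (XT.lf (nat_lit 0) (nat_lit 346440904) (nat_lit 152) (nat_lit 23138693) (nat_lit 76) (nat_lit 29870283495) (nat_lit 181) (nat_lit 5) (nat_lit 183) (nat_lit 5) (nat_lit 182) (nat_lit 4) (nat_lit 328) (nat_lit 290) (nat_lit 282)) (XT.lf (nat_lit 0) (nat_lit 13713417345) (nat_lit 152) (nat_lit 6039552059) (nat_lit 0) (nat_lit 13003298230) (nat_lit 180) (nat_lit 5) (nat_lit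 182) (nat_lit 4) (nat_lit 180) (nat_lit 4) (nat_lit 329) (nat_lit 290) (nat_lit 281))) (XT.nd (nat_lit 78) (nat_lit 228) (nat_lit 0) (XT.lf (nat_lit 0) (nat_lit 22371843888) (nat_lit 76) (nat_lit 6991736831) (nat_lit 76) (nat_lit 6244831066) (nat_lit 179) (nat_lit 4) (nat_lit 180) (nat_lit 5) (nat_lit 180) (nat_lit 4) (nat_lit 330) (nat_lit 290) (nat_lit 280)) (XT.nd (nat_lit 78) (nat_lit 76) (nat_lit 0) (XT.lf (nat_lit 0) (nat_lit 8420771984) (nat_lit 152) (nat_lit 22566176760) (nat_lit 0) (nat_lit 7743472719) (nat_lit 177) (nat_lit 5) (nat_lit 179) (nat_lit 4) (nat_lit 177) (nat_lit 4) (nat_lit 331) (nat_lit 290) (nat_lit 279)) (XT.lf (nat_lit 0) (nat_lit 7858519218) (nat_lit 76) (nat_lit 17505742419) (nat_lit 76) (nat_lit 16804255335) (nat_lit 176) (nat_lit 4) (nat_lit 177) (nat_lit 5) (nat_lit 177) (nat_lit 4) (nat_lit 332) (nat_lit 290) (nat_lit 278))))) (XT.nd (nat_lit 156) (nat_lit 228)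 (nat_lit 0) (XT.nd (nat_lit 78) (nat_lit 152) (nat_lit 0) (XT.lf (nat_lit 0) (nat_lit 44024080345) (nat_lit 76) (nat_lit 1369556090) (nat_lit 76) (nat_lit 647036119) (nat_lit 176) (nat_lit 4) (nat_lit 177) (nat_lit 5) (nat_lit 177) (nat_lit 4) (nat_lit 333) (nat_lit 290) (nat_lit 277)) (XT.lf (nat_lit 0) (nat_lit 18056319715) (nat_lit 152) (nat_lit 14655933071) (nat_lit 0) (nat_lit 17412137596) (nat_lit 174) (nat_lit 5) (nat_lit 176) (nat_lit 4) (nat_lit 174) (nat_lit 4) (nat_lit 334) (nat_lit 290) (nat_lit 276))) (XT.nd (nat_lit 78) (nat_lit 152) (nat_lit 0) (XT.lf (nat_lit 0) (nat_lit 24872609165) (nat_lit 76) (nat_lit 15253672303) (nat_lit 76) (nat_lit 14595660720) (nat_lit 173) (nat_lit 4) (nat_lit 174) (nat_lit 5) (nat_lit 174) (nat_lit 4) (nat_lit 335) (nat_lit 290) (nat_lit 275)) (XT.nd (nat_lit 78) (nat_lit 0) (nat_lit 0) (XT.lf (nat_lit 0) (nat_lit 5957979543) (nat_lit 152) (nat_lit 48499191455)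 (nat_lit 0) (nat_lit 5375338496) (nat_lit 171) (nat_lit 5) (nat_lit 173) (nat_lit 4) (nat_lit 171) (nat_lit 4) (nat_lit 336) (nat_lit 290) (nat_lit 274)) (XT.lf (nat_lit 0) (nat_lit 29883580423) (nat_lit 152) (nat_lit 6162495643) (nat_lit 0) (nat_lit 29291846278) (nat_lit 171) (nat_lit 5) (nat_lit 173) (nat_lit 4) (nat_lit 171) (nat_lit 4) (nat_lit 337) (nat_lit 290) (nat_lit 273))))))) (XT.nd (nat_lit 780) (nat_lit 836) (nat_lit 0) (XT.nd (nat_lit 390) (nat_lit 304) (nat_lit 0) (XT.nd (nat_lit 156) (nat_lit 228) (nat_lit 0) (XT.nd (nat_lit 78) (nat_lit 152) (nat_lit 0) (XT.lf (nat_lit 0) (nat_lit 45497648230) (nat_lit 76) (nat_lit 13281951654) (nat_lit 76) (nat_lit 12682310469) (nat_lit 170) (nat_lit 4) (nat_lit 171) (nat_lit 5) (nat_lit 171) (nat_lit 4) (nat_lit 338) (nat_lit 290) (nat_lit 272)) (XT.lf (nat_lit 0) (nat_lit 13905122116) (nat_lit 152) (nat_lit 50897480300) (nat_lit 0) (nat_lit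 13377716139) (nat_lit 168) (nat_lit 5) (nat_lit 170) (nat_lit 4) (nat_lit 168) (nat_lit 4) (nat_lit 339) (nat_lit 290) (nat_lit 271))) (XT.nd (nat_lit 78) (nat_lit 152) (nat_lit 0) (XT.lf (nat_lit 0) (nat_lit 3680960791) (nat_lit 76) (nat_lit 41205923960) (nat_lit 76) (nat_lit 40673318976) (nat_lit 167) (nat_lit 4) (nat_lit 168) (nat_lit 5) (nat_lit 168) (nat_lit 4) (nat_lit 340) (nat_lit 290) (nat_lit 270)) (XT.nd (nat_lit 78) (nat_lit 152) (nat_lit 0) (XT.lf (nat_lit 0) (nat_lit 71137495077) (nat_lit 76) (nat_lit 11559751146) (nat_lit 76) (nat_lit 11022625286) (nat_lit 167) (nat_lit 4) (nat_lit 168) (nat_lit 5) (nat_lit 168) (nat_lit 4) (nat_lit 341) (nat_lit 290) (nat_lit 269)) (XT.lf (nat_lit 0) (nat_lit 23624309902) (nat_lit 152) (nat_lit 55791577888) (nat_lit 0) (nat_lit 23153825504) (nat_lit 165) (nat_lit 5) (nat_lit 167) (nat_lit 4) (nat_lit 165) (nat_lit 4) (nat_lit 342) (nat_lit 290)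 (nat_lit 268))))) (XT.nd (nat_lit 156) (nat_lit 228) (nat_lit 0) (XT.nd (nat_lit 78) (nat_lit 0) (nat_lit 0) (XT.lf (nat_lit 0) (nat_lit 15853079825) (nat_lit 76) (nat_lit 48493804759) (nat_lit 76) (nat_lit 48020347811) (nat_lit 164) (nat_lit 4) (nat_lit 165) (nat_lit 5) (nat_lit 165) (nat_lit 4) (nat_lit 343) (nat_lit 290) (nat_lit 267)) (XT.lf (nat_lit 0) (nat_lit 103619840313) (nat_lit 76) (nat_lit 10057805393) (nat_lit 76) (nat_lit 9581763620) (nat_lit 164) (nat_lit 4) (nat_lit 165) (nat_lit 5) (nat_lit 165) (nat_lit 4) (nat_lit 344) (nat_lit 290) (nat_lit 266))) (XT.nd (nat_lit 78) (nat_lit 76) (nat_lit 0) (XT.lf (nat_lit 0) (nat_lit 35792308463) (nat_lit 152) (nat_lit 63763845842) (nat_lit 0) (nat_lit 35376404595) (nat_lit 162) (nat_lit 5) (nat_lit 164) (nat_lit 4) (nat_lit 162) (nat_lit 4) (nat_lit 345) (nat_lit 290) (nat_lit 265)) (XT.nd (nat_lit 78) (nat_lit 0) (nat_lit 0) (XT.lf (nat_lit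 0) (nat_lit 30520580491) (nat_lit 76) (nat_lit 58909721303) (nat_lit 76) (nat_lit 58492117871) (nat_lit 161) (nat_lit 4) (nat_lit 162) (nat_lit 5) (nat_lit 162) (nat_lit 4) (nat_lit 346) (nat_lit 290) (nat_lit 264)) (XT.lf (nat_lit 0) (nat_lit 145335676728) (nat_lit 76) (nat_lit 8749261274) (nat_lit 76) (nat_lit 8330179959) (nat_lit 161) (nat_lit 4) (nat_lit 162) (nat_lit 5) (nat_lit 162) (nat_lit 4) (nat_lit 347) (nat_lit 290) (nat_lit 263)))))) (XT.nd (nat_lit 390) (nat_lit 380) (nat_lit 0) (XT.nd (nat_lit 156) (nat_lit 228) (nat_lit 0) (XT.nd (nat_lit 78) (nat_lit 76) (nat_lit 0) (XT.lf (nat_lit 0) (nat_lit 51289500483) (nat_lit 152) (nat_lit 75612576465) (nat_lit 0) (nat_lit 50923964457) (nat_lit 159) (nat_lit 5) (nat_lit 161) (nat_lit 4) (nat_lit 159) (nat_lit 4) (nat_lit 348) (nat_lit 290) (nat_lit 262)) (XT.lf (nat_lit 0) (nat_lit 48673605146) (nat_lit 76) (nat_lit 73363188886) (nat_lit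 76) (nat_lit 72996681128) (nat_lit 158) (nat_lit 4) (nat_lit 159) (nat_lit 5) (nat_lit 159) (nat_lit 4) (nat_lit 349) (nat_lit 290) (nat_lit 261))) (XT.nd (nat_lit 78) (nat_lit 228) (nat_lit 0) (XT.lf (nat_lit 0) (nat_lit 199423808081) (nat_lit 76) (nat_lit 7609964962) (nat_lit 76) (nat_lit 7242612220) (nat_lit 158) (nat_lit 4) (nat_lit 159) (nat_lit 5) (nat_lit 159) (nat_lit 4) (nat_lit 350) (nat_lit 290) (nat_lit 260)) (XT.nd (nat_lit 78) (nat_lit 76) (nat_lit 0) (XT.lf (nat_lit 0) (nat_lit 71267850448) (nat_lit 152) (nat_lit 92418351302) (nat_lit 0) (nat_lit 70947774352) (nat_lit 156) (nat_lit 5) (nat_lit 158) (nat_lit 4) (nat_lit 156) (nat_lit 4) (nat_lit 351) (nat_lit 290) (nat_lit 259)) (XT.lf (nat_lit 0) (nat_lit 71597932088) (nat_lit 76) (nat_lit 93069064630) (nat_lit 76) (nat_lit 92748432943) (nat_lit 155) (nat_lit 4) (nat_lit 156) (nat_lit 5) (nat_lit 156) (nat_lit 4) (nat_lit 352) (nat_lit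 290) (nat_lit 258))))) (XT.nd (nat_lit 156) (nat_lit 228) (nat_lit 0) (XT.nd (nat_lit 78) (nat_lit 152) (nat_lit 0) (XT.lf (nat_lit 0) (nat_lit 270014732637) (nat_lit 76) (nat_lit 6618453846) (nat_lit 76) (nat_lit 6297339037) (nat_lit 155) (nat_lit 4) (nat_lit 156) (nat_lit 5) (nat_lit 156) (nat_lit 4) (nat_lit 353) (nat_lit 290) (nat_lit 257)) (XT.lf (nat_lit 0) (nat_lit 97240321746) (nat_lit 152) (nat_lit 115632061620) (nat_lit 0) (nat_lit 96960726167) (nat_lit 153) (nat_lit 5) (nat_lit 155) (nat_lit 4) (nat_lit 153) (nat_lit 4) (nat_lit 354) (nat_lit 290) (nat_lit 256))) (XT.nd (nat_lit 78) (nat_lit 152) (nat_lit 0) (XT.lf (nat_lit 0) (nat_lit 100973195398) (nat_lit 76) (nat_lit 119644848511) (nat_lit 76) (nat_lit 119364935271) (nat_lit 152) (nat_lit 4) (nat_lit 153) (nat_lit 5) (nat_lit 153) (nat_lit 4) (nat_lit 355) (nat_lit 290) (nat_lit 255)) (XT.nd (nat_lit 78) (nat_lit 152) (nat_lit 0)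 (XT.lf (nat_lit 0) (nat_lit 362552963214) (nat_lit 76) (nat_lit 5755802189) (nat_lit 76) (nat_lit 5475612723) (nat_lit 152) (nat_lit 4) (nat_lit 153) (nat_lit 5) (nat_lit 153) (nat_lit 4) (nat_lit 356) (nat_lit 290) (nat_lit 254)) (XT.lf (nat_lit 0) (nat_lit 131198796679) (nat_lit 152) (nat_lit 147191613960) (nat_lit 0) (nat_lit 130954944797) (nat_lit 150) (nat_lit 5) (nat_lit 152) (nat_lit 4) (nat_lit 150) (nat_lit 4) (nat_lit 357) (nat_lit 290) (nat_lit 253))))))))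
noncomputable def xc25 : XT := (XT.nd (nat_lit 1560) (nat_lit 456) (nat_lit 0) (XT.nd (nat_lit 780) (nat_lit 684) (nat_lit 0) (XT.nd (nat_lit 390) (nat_lit 456) (nat_lit 0) (XT.nd (nat_lit 156) (nat_lit 228) (nat_lit 0) (XT.nd (nat_lit 78) (nat_lit 0) (nat_lit 0) (XT.lf (nat_lit 0) (nat_lit 139002496211) (nat_lit 76) (nat_lit 155239346998) (nat_lit 76) (nat_lit 154995313492) (nat_lit 149) (nat_lit 4) (nat_lit 150) (nat_lit 5) (nat_lit 150) (nat_lit 4) (nat_lit 358) (nat_lit 290) (nat_lit 252)) (XT.lf (nat_lit 0) (nat_lit 484223048539) (nat_lit 76) (nat_lit 5005402689) (nat_lit 76) (nat_lit 4761211250) (nat_lit 149) (nat_lit 4) (nat_lit 150) (nat_lit 5) (nat_lit 150) (nat_lit 4) (nat_lit 359) (nat_lit 290) (nat_lit 251))) (XT.nd (nat_lit 78) (nat_lit 76) (nat_lit 0) (XT.lf (nat_lit 0) (nat_lit 175769775895) (nat_lit 152) (nat_lit 189676573531) (nat_lit 0) (nat_lit 175557316093) (nat_lit 147) (nat_lit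 5) (nat_lit 149) (nat_lit 4) (nat_lit 147) (nat_lit 4) (nat_lit 360) (nat_lit 290) (nat_lit 250)) (XT.nd (nat_lit 78) (nat_lit 0) (nat_lit 0) (XT.lf (nat_lit 0) (nat_lit 188583527370) (nat_lit 76) (nat_lit 202702888652) (nat_lit 76) (nat_lit 202490325006) (nat_lit 146) (nat_lit 4) (nat_lit 147) (nat_lit 5) (nat_lit 147) (nat_lit 4) (nat_lit 361) (nat_lit 290) (nat_lit 249)) (XT.lf (nat_lit 0) (nat_lit 644512737948) (nat_lit 76) (nat_lit 4352728368) (nat_lit 76) (nat_lit 4140074423) (nat_lit 146) (nat_lit 4) (nat_lit 147) (nat_lit 5) (nat_lit 147) (nat_lit 4) (nat_lit 362) (nat_lit 290) (nat_lit 248))))) (XT.nd (nat_lit 156) (nat_lit 228) (nat_lit 0) (XT.nd (nat_lit 78) (nat_lit 76) (nat_lit 0) (XT.lf (nat_lit 0) (nat_lit 234420096994) (nat_lit 152) (nat_lit 246512964504) (nat_lit 0) (nat_lit 234235112241) (nat_lit 144) (nat_lit 5) (nat_lit 146) (nat_lit 4) (nat_lit 144) (nat_lit 4) (nat_lit 363)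 (nat_lit 290) (nat_lit 247)) (XT.lf (nat_lit 0) (nat_lit 253534614619) (nat_lit 76) (nat_lit 265812526255) (nat_lit 76) (nat_lit 265627482128) (nat_lit 143) (nat_lit 4) (nat_lit 144) (nat_lit 5) (nat_lit 144) (nat_lit 4) (nat_lit 364) (nat_lit 290) (nat_lit 246))) (XT.nd (nat_lit 78) (nat_lit 228) (nat_lit 0) (XT.lf (nat_lit 0) (nat_lit 855957531237) (nat_lit 76) (nat_lit 3785097994) (nat_lit 76) (nat_lit 3600002239) (nat_lit 143) (nat_lit 4) (nat_lit 144) (nat_lit 5) (nat_lit 144) (nat_lit 4) (nat_lit 365) (nat_lit 290) (nat_lit 245)) (XT.nd (nat_lit 78) (nat_lit 76) (nat_lit 0) (XT.lf (nat_lit 0) (nat_lit 311728842091) (nat_lit 152) (nat_lit 322244379055) (nat_lit 0) (nat_lit 311567850222) (nat_lit 141) (nat_lit 5) (nat_lit 143) (nat_lit 4) (nat_lit 141) (nat_lit 4) (nat_lit 366) (nat_lit 290) (nat_lit 244)) (XT.lf (nat_lit 0) (nat_lit 338893407576) (nat_lit 76) (nat_lit 349569970356) (nat_lit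 76) (nat_lit 349408944540) (nat_lit 140) (nat_lit 4) (nat_lit 141) (nat_lit 5) (nat_lit 141) (nat_lit 4) (nat_lit 367) (nat_lit 290) (nat_lit 243)))))) (XT.nd (nat_lit 390) (nat_lit 304) (nat_lit 0) (XT.nd (nat_lit 156) (nat_lit 228) (nat_lit 0) (XT.nd (nat_lit 78) (nat_lit 152) (nat_lit 0) (XT.lf (nat_lit 0) (nat_lit 1135125130052) (nat_lit 76) (nat_lit 3291456343) (nat_lit 76) (nat_lit 3130401008) (nat_lit 140) (nat_lit 4) (nat_lit 141) (nat_lit 5) (nat_lit 141) (nat_lit 4) (nat_lit 368) (nat_lit 290) (nat_lit 242)) (XT.lf (nat_lit 0) (nat_lit 413746808153) (nat_lit 152) (nat_lit 422890753339) (nat_lit 0) (nat_lit 413606737715) (nat_lit 138) (nat_lit 5) (nat_lit 140) (nat_lit 4) (nat_lit 138) (nat_lit 4) (nat_lit 369) (nat_lit 290) (nat_lit 241))) (XT.nd (nat_lit 78) (nat_lit 152) (nat_lit 0) (XT.lf (nat_lit 0) (nat_lit 451311675178) (nat_lit 76) (nat_lit 460595710211) (nat_lit 76) (nat_lit 460455620364)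 (nat_lit 137) (nat_lit 4) (nat_lit 138) (nat_lit 5) (nat_lit 138) (nat_lit 4) (nat_lit 370) (nat_lit 290) (nat_lit 240)) (XT.nd (nat_lit 78) (nat_lit 152) (nat_lit 0) (XT.lf (nat_lit 0) (nat_lit 1503917180869) (nat_lit 76) (nat_lit 2862174134) (nat_lit 76) (nat_lit 2722067410) (nat_lit 137) (nat_lit 4) (nat_lit 138) (nat_lit 5) (nat_lit 138) (nat_lit 4) (nat_lit 371) (nat_lit 290) (nat_lit 239)) (XT.lf (nat_lit 0) (nat_lit 548471800081) (nat_lit 152) (nat_lit 556423056765) (nat_lit 0) (nat_lit 548349955385) (nat_lit 135) (nat_lit 5) (nat_lit 137) (nat_lit 4) (nat_lit 135) (nat_lit 4) (nat_lit 372) (nat_lit 290) (nat_lit 238))))) (XT.nd (nat_lit 156) (nat_lit 228) (nat_lit 0) (XT.nd (nat_lit 78) (nat_lit 0) (nat_lit 0) (XT.lf (nat_lit 0) (nat_lit 599577224281) (nat_lit 76) (nat_lit 607650336758) (nat_lit 76) (nat_lit 607528480965) (nat_lit 134) (nat_lit 4) (nat_lit 135) (nat_lit 5) (nat_lit 135)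 (nat_lit 4) (nat_lit 373) (nat_lit 290) (nat_lit 237)) (XT.lf (nat_lit 0) (nat_lit 1991290657794) (nat_lit 76) (nat_lit 2488868905) (nat_lit 76) (nat_lit 2367003461) (nat_lit 134) (nat_lit 4) (nat_lit 135) (nat_lit 5) (nat_lit 135) (nat_lit 4) (nat_lit 374) (nat_lit 290) (nat_lit 236))) (XT.nd (nat_lit 78) (nat_lit 76) (nat_lit 0) (XT.lf (nat_lit 0) (nat_lit 726477115740) (nat_lit 152) (nat_lit 733391251987) (nat_lit 0) (nat_lit 726371138493) (nat_lit 132) (nat_lit 5) (nat_lit 134) (nat_lit 4) (nat_lit 132) (nat_lit 4) (nat_lit 375) (nat_lit 290) (nat_lit 235)) (XT.nd (nat_lit 78) (nat_lit 0) (nat_lit 0) (XT.lf (nat_lit 0) (nat_lit 795303962114) (nat_lit 76) (nat_lit 802324081953) (nat_lit 76) (nat_lit 802218098361) (nat_lit 131) (nat_lit 4) (nat_lit 132) (nat_lit 5) (nat_lit 132) (nat_lit 4) (nat_lit 376) (nat_lit 290) (nat_lit 234)) (XT.lf (nat_lit 0) (nat_lit 2635534239433) (nat_lit 76) (nat_lit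 2164246312) (nat_lit 76) (nat_lit 2058257203) (nat_lit 131) (nat_lit 4) (nat_lit 132) (nat_lit 5) (nat_lit 132) (nat_lit 4) (nat_lit 377) (nat_lit 290) (nat_lit 233))))))) (XT.nd (nat_lit 42588) (nat_lit 0) (nat_lit 3952) (XT.nd (nat_lit 42198) (nat_lit 0) (nat_lit 4864) (XT.nd (nat_lit 156) (nat_lit 228) (nat_lit 0) (XT.nd (nat_lit 78) (nat_lit 76) (nat_lit 0) (XT.lf (nat_lit 0) (nat_lit 961742640513) (nat_lit 152) (nat_lit 967754932902) (nat_lit 0) (nat_lit 961650471899) (nat_lit 129) (nat_lit 5) (nat_lit 131) (nat_lit 4) (nat_lit 129) (nat_lit 4) (nat_lit 378) (nat_lit 290) (nat_lit 232)) (XT.lf (nat_lit 0) (nat_lit 1053844350444) (nat_lit 76) (nat_lit 1059948815075) (nat_lit 76) (nat_lit 1059856642833) (nat_lit 128) (nat_lit 4) (nat_lit 129) (nat_lit 5) (nat_lit 129) (nat_lit 4) (nat_lit 379) (nat_lit 290) (nat_lit 231))) (XT.nd (nat_lit 78) (nat_lit 228) (nat_lit 0) (XT.lf (nat_lit 0) (nat_lit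 3487278684055) (nat_lit 76) (nat_lit 1881960452) (nat_lit 76) (nat_lit 1789785055) (nat_lit 128) (nat_lit 4) (nat_lit 129) (nat_lit 5) (nat_lit 129) (nat_lit 4) (nat_lit 380) (nat_lit 290) (nat_lit 230)) (XT.nd (nat_lit 78) (nat_lit 76) (nat_lit 0) (XT.lf (nat_lit 0) (nat_lit 1272753903797) (nat_lit 152) (nat_lit 1277981984135) (nat_lit 0) (nat_lit 1272673748893) (nat_lit 126) (nat_lit 5) (nat_lit 128) (nat_lit 4) (nat_lit 126) (nat_lit 4) (nat_lit 381) (nat_lit 290) (nat_lit 229)) (XT.lf (nat_lit 0) (nat_lit 1395495992018) (nat_lit 76) (nat_lit 1400804229334) (nat_lit 76) (nat_lit 1400724072356) (nat_lit 125) (nat_lit 4) (nat_lit 126) (nat_lit 5) (nat_lit 126) (nat_lit 4) (nat_lit 382) (nat_lit 290) (nat_lit 228))))) (XT.nd (nat_lit 156) (nat_lit 380) (nat_lit 0) (XT.nd (nat_lit 78) (nat_lit 76) (nat_lit 0) (XT.lf (nat_lit 0) (nat_lit 2887251062) (nat_lit 152) (nat_lit 1457728809) (nat_lit 0)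 (nat_lit 2887251062) (nat_lit 195) (nat_lit 5) (nat_lit 197) (nat_lit 4) (nat_lit 195) (nat_lit 4) (nat_lit 318) (nat_lit 291) (nat_lit 291)) (XT.lf (nat_lit 0) (nat_lit 11994744591) (nat_lit 76) (nat_lit 1899523903) (nat_lit 76) (nat_lit 1600188670) (nat_lit 194) (nat_lit 4) (nat_lit 195) (nat_lit 5) (nat_lit 195) (nat_lit 4) (nat_lit 319) (nat_lit 291) (nat_lit 290))) (XT.nd (nat_lit 78) (nat_lit 228) (nat_lit 0) (XT.lf (nat_lit 0) (nat_lit 6205405077) (nat_lit 152) (nat_lit 4678708185) (nat_lit 0) (nat_lit 5718773129) (nat_lit 192) (nat_lit 5) (nat_lit 194) (nat_lit 4) (nat_lit 192) (nat_lit 4) (nat_lit 320) (nat_lit 291) (nat_lit 289)) (XT.nd (nat_lit 78) (nat_lit 152) (nat_lit 0) (XT.lf (nat_lit 0) (nat_lit 11661662311) (nat_lit 76) (nat_lit 3437855584) (nat_lit 76) (nat_lit 2754405861) (nat_lit 191) (nat_lit 4) (nat_lit 192) (nat_lit 5) (nat_lit 192) (nat_lit 4) (nat_lit 321) (nat_lit 291)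 (nat_lit 288)) (XT.lf (nat_lit 0) (nat_lit 5758103670) (nat_lit 152) (nat_lit 8443011446) (nat_lit 0) (nat_lit 5014977049) (nat_lit 189) (nat_lit 5) (nat_lit 191) (nat_lit 4) (nat_lit 189) (nat_lit 4) (nat_lit 322) (nat_lit 291) (nat_lit 287)))))) (XT.nd (nat_lit 390) (nat_lit 456) (nat_lit 0) (XT.nd (nat_lit 156) (nat_lit 228) (nat_lit 0) (XT.nd (nat_lit 78) (nat_lit 152) (nat_lit 0) (XT.lf (nat_lit 0) (nat_lit 9354748440) (nat_lit 76) (nat_lit 6124331136) (nat_lit 76) (nat_lit 5251793633) (nat_lit 188) (nat_lit 4) (nat_lit 189) (nat_lit 5) (nat_lit 189) (nat_lit 4) (nat_lit 323) (nat_lit 291) (nat_lit 286)) (XT.lf (nat_lit 0) (nat_lit 4052564526) (nat_lit 152) (nat_lit 15162351831) (nat_lit 0) (nat_lit 3195983044) (nat_lit 186) (nat_lit 5) (nat_lit 188) (nat_lit 4) (nat_lit 186) (nat_lit 4) (nat_lit 324) (nat_lit 291) (nat_lit 285))) (XT.nd (nat_lit 78) (nat_lit 152) (nat_lit 0) (XT.lf (nat_lit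 0) (nat_lit 4066230816) (nat_lit 76) (nat_lit 10559607640) (nat_lit 76) (nat_lit 9617936402) (nat_lit 185) (nat_lit 4) (nat_lit 186) (nat_lit 5) (nat_lit 186) (nat_lit 4) (nat_lit 325) (nat_lit 291) (nat_lit 284)) (XT.nd (nat_lit 78) (nat_lit 0) (nat_lit 0) (XT.lf (nat_lit 0) (nat_lit 193387382) (nat_lit 76) (nat_lit 368961320) (nat_lit 152) (nat_lit 25761426952) (nat_lit 183) (nat_lit 5) (nat_lit 184) (nat_lit 5) (nat_lit 185) (nat_lit 4) (nat_lit 326) (nat_lit 291) (nat_lit 283)) (XT.lf (nat_lit 0) (nat_lit 12190877029) (nat_lit 152) (nat_lit 5068571406) (nat_lit 0) (nat_lit 11251744499) (nat_lit 183) (nat_lit 5) (nat_lit 185) (nat_lit 4) (nat_lit 183) (nat_lit 4) (nat_lit 327) (nat_lit 291) (nat_lit 282))))) (XT.nd (nat_lit 156) (nat_lit 228) (nat_lit 0) (XT.nd (nat_lit 78) (nat_lit 152) (nat_lit 0) (XT.lf (nat_lit 0) (nat_lit 19649088754) (nat_lit 76) (nat_lit 6164002931) (nat_lit 76) (nat_lit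 5176220057) (nat_lit 182) (nat_lit 4) (nat_lit 183) (nat_lit 5) (nat_lit 183) (nat_lit 4) (nat_lit 328) (nat_lit 291) (nat_lit 281)) (XT.lf (nat_lit 0) (nat_lit 7562458574) (nat_lit 152) (nat_lit 19472045956) (nat_lit 0) (nat_lit 6666730296) (nat_lit 180) (nat_lit 5) (nat_lit 182) (nat_lit 4) (nat_lit 180) (nat_lit 4) (nat_lit 329) (nat_lit 291) (nat_lit 280))) (XT.nd (nat_lit 78) (nat_lit 152) (nat_lit 0) (XT.lf (nat_lit 0) (nat_lit 6995122696) (nat_lit 76) (nat_lit 15310975739) (nat_lit 76) (nat_lit 14383259070) (nat_lit 179) (nat_lit 4) (nat_lit 180) (nat_lit 5) (nat_lit 180) (nat_lit 4) (nat_lit 330) (nat_lit 291) (nat_lit 279)) (XT.nd (nat_lit 78) (nat_lit 152) (nat_lit 0) (XT.lf (nat_lit 0) (nat_lit 38440116869) (nat_lit 76) (nat_lit 1285716041) (nat_lit 76) (nat_lit 330183380) (nat_lit 179) (nat_lit 4) (nat_lit 180) (nat_lit 5) (nat_lit 180) (nat_lit 4) (nat_lit 331) (nat_lit 291) (nat_lit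 278)) (XT.lf (nat_lit 0) (nat_lit 15917826018) (nat_lit 152) (nat_lit 12621172764) (nat_lit 0) (nat_lit 15065895165) (nat_lit 177) (nat_lit 5) (nat_lit 179) (nat_lit 4) (nat_lit 177) (nat_lit 4) (nat_lit 332) (nat_lit 291) (nat_lit 277))))))))
noncomputable def xc26 : XT := (XT.nd (nat_lit 1560) (nat_lit 1444) (nat_lit 0) (XT.nd (nat_lit 780) (nat_lit 836) (nat_lit 0) (XT.nd (nat_lit 390) (nat_lit 304) (nat_lit 0) (XT.nd (nat_lit 156) (nat_lit 228) (nat_lit 0) (XT.nd (nat_lit 78) (nat_lit 152) (nat_lit 0) (XT.lf (nat_lit 0) (nat_lit 21761321678) (nat_lit 76) (nat_lit 13355269786) (nat_lit 76) (nat_lit 12485049467) (nat_lit 176) (nat_lit 4) (nat_lit 177) (nat_lit 5) (nat_lit 177) (nat_lit 4) (nat_lit 333) (nat_lit 291) (nat_lit 276)) (XT.lf (nat_lit 0) (nat_lit 5372500570) (nat_lit 152) (nat_lit 42069384578) (nat_lit 0) (nat_lit 4601957785) (nat_lit 174) (nat_lit 5) (nat_lit 176) (nat_lit 4) (nat_lit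 174) (nat_lit 4) (nat_lit 334) (nat_lit 291) (nat_lit 275))) (XT.nd (nat_lit 78) (nat_lit 228) (nat_lit 0) (XT.lf (nat_lit 0) (nat_lit 26178678385) (nat_lit 152) (nat_lit 5256173966) (nat_lit 0) (nat_lit 25396109980) (nat_lit 174) (nat_lit 5) (nat_lit 176) (nat_lit 4) (nat_lit 174) (nat_lit 4) (nat_lit 335) (nat_lit 291) (nat_lit 274)) (XT.nd (nat_lit 78) (nat_lit 152) (nat_lit 0) (XT.lf (nat_lit 0) (nat_lit 39674461011) (nat_lit 76) (nat_lit 11636935989) (nat_lit 76) (nat_lit 10843910521) (nat_lit 173) (nat_lit 4) (nat_lit 174) (nat_lit 5) (nat_lit 174) (nat_lit 4) (nat_lit 336) (nat_lit 291) (nat_lit 273)) (XT.lf (nat_lit 0) (nat_lit 12261046944) (nat_lit 152) (nat_lit 44171380865) (nat_lit 0) (nat_lit 11563552540) (nat_lit 171) (nat_lit 5) (nat_lit 173) (nat_lit 4) (nat_lit 171) (nat_lit 4) (nat_lit 337) (nat_lit 291) (nat_lit 272))))) (XT.nd (nat_lit 156) (nat_lit 228) (nat_lit 0) (XT.nd (nat_lit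 78) (nat_lit 0) (nat_lit 0) (XT.lf (nat_lit 0) (nat_lit 3295843874) (nat_lit 76) (nat_lit 35910547886) (nat_lit 76) (nat_lit 35206177794) (nat_lit 170) (nat_lit 4) (nat_lit 171) (nat_lit 5) (nat_lit 171) (nat_lit 4) (nat_lit 338) (nat_lit 291) (nat_lit 271)) (XT.lf (nat_lit 0) (nat_lit 61952986195) (nat_lit 76) (nat_lit 10132601262) (nat_lit 76) (nat_lit 9422252311) (nat_lit 170) (nat_lit 4) (nat_lit 171) (nat_lit 5) (nat_lit 171) (nat_lit 4) (nat_lit 339) (nat_lit 291) (nat_lit 270))) (XT.nd (nat_lit 78) (nat_lit 76) (nat_lit 0) (XT.lf (nat_lit 0) (nat_lit 20692094942) (nat_lit 152) (nat_lit 48440211395) (nat_lit 0) (nat_lit 20069879326) (nat_lit 168) (nat_lit 5) (nat_lit 170) (nat_lit 4) (nat_lit 168) (nat_lit 4) (nat_lit 340) (nat_lit 291) (nat_lit 269)) (XT.nd (nat_lit 78) (nat_lit 0) (nat_lit 0) (XT.lf (nat_lit 0) (nat_lit 13866273545) (nat_lit 76) (nat_lit 42240536811) (nat_lit 76) (nat_lit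 41614389998) (nat_lit 167) (nat_lit 4) (nat_lit 168) (nat_lit 5) (nat_lit 168) (nat_lit 4) (nat_lit 341) (nat_lit 291) (nat_lit 268)) (XT.lf (nat_lit 0) (nat_lit 90184787717) (nat_lit 76) (nat_lit 8818691433) (nat_lit 76) (nat_lit 8189126188) (nat_lit 167) (nat_lit 4) (nat_lit 168) (nat_lit 5) (nat_lit 168) (nat_lit 4) (nat_lit 342) (nat_lit 291) (nat_lit 267)))))) (XT.nd (nat_lit 390) (nat_lit 380) (nat_lit 0) (XT.nd (nat_lit 156) (nat_lit 228) (nat_lit 0) (XT.nd (nat_lit 78) (nat_lit 76) (nat_lit 0) (XT.lf (nat_lit 0) (nat_lit 31254476094) (nat_lit 152) (nat_lit 55383273009) (nat_lit 0) (nat_lit 30704443229) (nat_lit 165) (nat_lit 5) (nat_lit 167) (nat_lit 4) (nat_lit 165) (nat_lit 4) (nat_lit 343) (nat_lit 291) (nat_lit 266)) (XT.lf (nat_lit 0) (nat_lit 26609126926) (nat_lit 76) (nat_lit 51290204381) (nat_lit 76) (nat_lit 50737923842) (nat_lit 164) (nat_lit 4) (nat_lit 165) (nat_lit 5) (nat_lit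 165) (nat_lit 4) (nat_lit 344) (nat_lit 291) (nat_lit 265))) (XT.nd (nat_lit 78) (nat_lit 228) (nat_lit 0) (XT.lf (nat_lit 0) (nat_lit 126448107775) (nat_lit 76) (nat_lit 7672849166) (nat_lit 76) (nat_lit 7118614127) (nat_lit 164) (nat_lit 4) (nat_lit 165) (nat_lit 5) (nat_lit 165) (nat_lit 4) (nat_lit 345) (nat_lit 291) (nat_lit 264)) (XT.nd (nat_lit 78) (nat_lit 76) (nat_lit 0) (XT.lf (nat_lit 0) (nat_lit 44713801525) (nat_lit 152) (nat_lit 65695364061) (nat_lit 0) (nat_lit 44230380131) (nat_lit 162) (nat_lit 5) (nat_lit 164) (nat_lit 4) (nat_lit 162) (nat_lit 4) (nat_lit 346) (nat_lit 291) (nat_lit 263)) (XT.lf (nat_lit 0) (nat_lit 42384769011) (nat_lit 76) (nat_lit 63851038056) (nat_lit 76) (nat_lit 63366331546) (nat_lit 161) (nat_lit 4) (nat_lit 162) (nat_lit 5) (nat_lit 162) (nat_lit 4) (nat_lit 347) (nat_lit 291) (nat_lit 262))))) (XT.nd (nat_lit 156) (nat_lit 228) (nat_lit 0) (XT.nd (nat_lit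 78) (nat_lit 152) (nat_lit 0) (XT.lf (nat_lit 0) (nat_lit 173471768625) (nat_lit 76) (nat_lit 6674570950) (nat_lit 76) (nat_lit 6188746949) (nat_lit 161) (nat_lit 4) (nat_lit 162) (nat_lit 5) (nat_lit 162) (nat_lit 4) (nat_lit 348) (nat_lit 291) (nat_lit 261)) (XT.lf (nat_lit 0) (nat_lit 62071698444) (nat_lit 152) (nat_lit 80316535432) (nat_lit 0) (nat_lit 61648397807) (nat_lit 159) (nat_lit 5) (nat_lit 161) (nat_lit 4) (nat_lit 159) (nat_lit 4) (nat_lit 349) (nat_lit 291) (nat_lit 260))) (XT.nd (nat_lit 78) (nat_lit 152) (nat_lit 0) (XT.lf (nat_lit 0) (nat_lit 62310849444) (nat_lit 76) (nat_lit 80979721837) (nat_lit 76) (nat_lit 80555686431) (nat_lit 158) (nat_lit 4) (nat_lit 159) (nat_lit 5) (nat_lit 159) (nat_lit 4) (nat_lit 350) (nat_lit 291) (nat_lit 259)) (XT.nd (nat_lit 78) (nat_lit 152) (nat_lit 0) (XT.lf (nat_lit 0) (nat_lit 234847121490) (nat_lit 76) (nat_lit 5805420245) (nat_lit 76)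 (nat_lit 5380745909) (nat_lit 158) (nat_lit 4) (nat_lit 159) (nat_lit 5) (nat_lit 159) (nat_lit 4) (nat_lit 351) (nat_lit 291) (nat_lit 258)) (XT.lf (nat_lit 0) (nat_lit 84643640074) (nat_lit 152) (nat_lit 100508715715) (nat_lit 0) (nat_lit 84273874920) (nat_lit 156) (nat_lit 5) (nat_lit 158) (nat_lit 4) (nat_lit 156) (nat_lit 4) (nat_lit 352) (nat_lit 291) (nat_lit 257))))))) (XT.nd (nat_lit 780) (nat_lit 684) (nat_lit 0) (XT.nd (nat_lit 390) (nat_lit 456) (nat_lit 0) (XT.nd (nat_lit 156) (nat_lit 228) (nat_lit 0) (XT.nd (nat_lit 78) (nat_lit 0) (nat_lit 0) (XT.lf (nat_lit 0) (nat_lit 87847628899) (nat_lit 76) (nat_lit 104082889800) (nat_lit 76) (nat_lit 103712704540) (nat_lit 155) (nat_lit 4) (nat_lit 156) (nat_lit 5) (nat_lit 156) (nat_lit 4) (nat_lit 353) (nat_lit 291) (nat_lit 256)) (XT.lf (nat_lit 0) (nat_lit 315308252965) (nat_lit 76) (nat_lit 5049017989) (nat_lit 76) (nat_lit 4678467419)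 (nat_lit 155) (nat_lit 4) (nat_lit 156) (nat_lit 5) (nat_lit 156) (nat_lit 4) (nat_lit 354) (nat_lit 291) (nat_lit 255))) (XT.nd (nat_lit 78) (nat_lit 76) (nat_lit 0) (XT.lf (nat_lit 0) (nat_lit 114161526232) (nat_lit 152) (nat_lit 127957244180) (nat_lit 0) (nat_lit 113839032118) (nat_lit 153) (nat_lit 5) (nat_lit 155) (nat_lit 4) (nat_lit 153) (nat_lit 4) (nat_lit 355) (nat_lit 291) (nat_lit 254)) (XT.nd (nat_lit 78) (nat_lit 0) (nat_lit 0) (XT.lf (nat_lit 0) (nat_lit 120910636541) (nat_lit 76) (nat_lit 135029088801) (nat_lit 76) (nat_lit 134706354490) (nat_lit 152) (nat_lit 4) (nat_lit 153) (nat_lit 5) (nat_lit 153) (nat_lit 4) (nat_lit 356) (nat_lit 291) (nat_lit 253)) (XT.lf (nat_lit 0) (nat_lit 421102396246) (nat_lit 76) (nat_lit 4390922964) (nat_lit 76) (nat_lit 4067979786) (nat_lit 152) (nat_lit 4) (nat_lit 153) (nat_lit 5) (nat_lit 153) (nat_lit 4) (nat_lit 357) (nat_lit 291) (nat_lit 252)))))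 (XT.nd (nat_lit 156) (nat_lit 228) (nat_lit 0) (XT.nd (nat_lit 78) (nat_lit 76) (nat_lit 0) (XT.lf (nat_lit 0) (nat_lit 152909096124) (nat_lit 152) (nat_lit 164905372601) (nat_lit 0) (nat_lit 152628118036) (nat_lit 150) (nat_lit 5) (nat_lit 152) (nat_lit 4) (nat_lit 150) (nat_lit 4) (nat_lit 358) (nat_lit 291) (nat_lit 251)) (XT.lf (nat_lit 0) (nat_lit 164019445757) (nat_lit 76) (nat_lit 176296837656) (nat_lit 76) (nat_lit 176015722234) (nat_lit 149) (nat_lit 4) (nat_lit 150) (nat_lit 5) (nat_lit 150) (nat_lit 4) (nat_lit 359) (nat_lit 291) (nat_lit 250))) (XT.nd (nat_lit 78) (nat_lit 228) (nat_lit 0) (XT.lf (nat_lit 0) (nat_lit 560479614616) (nat_lit 76) (nat_lit 3818464056) (nat_lit 76) (nat_lit 3537229214) (nat_lit 149) (nat_lit 4) (nat_lit 150) (nat_lit 5) (nat_lit 150) (nat_lit 4) (nat_lit 360) (nat_lit 291) (nat_lit 249)) (XT.nd (nat_lit 78) (nat_lit 76) (nat_lit 0) (XT.lf (nat_lit 0) (nat_lit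 203900825163) (nat_lit 152) (nat_lit 214332369926) (nat_lit 0) (nat_lit 203656182827) (nat_lit 147) (nat_lit 5) (nat_lit 149) (nat_lit 4) (nat_lit 147) (nat_lit 4) (nat_lit 361) (nat_lit 291) (nat_lit 248)) (XT.lf (nat_lit 0) (nat_lit 220494214764) (nat_lit 76) (nat_lit 231170480383) (nat_lit 76) (nat_lit 230925759527) (nat_lit 146) (nat_lit 4) (nat_lit 147) (nat_lit 5) (nat_lit 147) (nat_lit 4) (nat_lit 362) (nat_lit 291) (nat_lit 247)))))) (XT.nd (nat_lit 390) (nat_lit 304) (nat_lit 0) (XT.nd (nat_lit 156) (nat_lit 228) (nat_lit 0) (XT.nd (nat_lit 78) (nat_lit 152) (nat_lit 0) (XT.lf (nat_lit 0) (nat_lit 744340221065) (nat_lit 76) (nat_lit 3320558001) (nat_lit 76) (nat_lit 3075768865) (nat_lit 146) (nat_lit 4) (nat_lit 147) (nat_lit 5) (nat_lit 147) (nat_lit 4) (nat_lit 363) (nat_lit 291) (nat_lit 246)) (XT.lf (nat_lit 0) (nat_lit 271118371362) (nat_lit 152) (nat_lit 280189279851) (nat_lit 0)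 (nat_lit 270905459615) (nat_lit 144) (nat_lit 5) (nat_lit 146) (nat_lit 4) (nat_lit 144) (nat_lit 4) (nat_lit 364) (nat_lit 291) (nat_lit 245))) (XT.nd (nat_lit 78) (nat_lit 152) (nat_lit 0) (XT.lf (nat_lit 0) (nat_lit 294715407534) (nat_lit 76) (nat_lit 303999272665) (nat_lit 76) (nat_lit 303786316024) (nat_lit 143) (nat_lit 4) (nat_lit 144) (nat_lit 5) (nat_lit 144) (nat_lit 4) (nat_lit 365) (nat_lit 291) (nat_lit 244)) (XT.nd (nat_lit 78) (nat_lit 152) (nat_lit 0) (XT.lf (nat_lit 0) (nat_lit 987090813724) (nat_lit 76) (nat_lit 2887530061) (nat_lit 76) (nat_lit 2674534380) (nat_lit 143) (nat_lit 4) (nat_lit 144) (nat_lit 5) (nat_lit 144) (nat_lit 4) (nat_lit 366) (nat_lit 291) (nat_lit 243)) (XT.lf (nat_lit 0) (nat_lit 359823159992) (nat_lit 152) (nat_lit 367710906505) (nat_lit 0) (nat_lit 359637916838) (nat_lit 141) (nat_lit 5) (nat_lit 143) (nat_lit 4) (nat_lit 141) (nat_lit 4) (nat_lit 367)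 (nat_lit 291) (nat_lit 242))))) (XT.nd (nat_lit 156) (nat_lit 228) (nat_lit 0) (XT.nd (nat_lit 78) (nat_lit 0) (nat_lit 0) (XT.lf (nat_lit 0) (nat_lit 392467087693) (nat_lit 76) (nat_lit 400540103028) (nat_lit 76) (nat_lit 400354834206) (nat_lit 140) (nat_lit 4) (nat_lit 141) (nat_lit 5) (nat_lit 141) (nat_lit 4) (nat_lit 368) (nat_lit 291) (nat_lit 241)) (XT.lf (nat_lit 0) (nat_lit 1307776220413) (nat_lit 76) (nat_lit 2510946203) (nat_lit 76) (nat_lit 2325655060) (nat_lit 140) (nat_lit 4) (nat_lit 141) (nat_lit 5) (nat_lit 141) (nat_lit 4) (nat_lit 369) (nat_lit 291) (nat_lit 240))) (XT.nd (nat_lit 78) (nat_lit 76) (nat_lit 0) (XT.lf (nat_lit 0) (nat_lit 476969681935) (nat_lit 152) (nat_lit 483828591946) (nat_lit 0) (nat_lit 476808542324) (nat_lit 138) (nat_lit 5) (nat_lit 140) (nat_lit 4) (nat_lit 138) (nat_lit 4) (nat_lit 370) (nat_lit 291) (nat_lit 239)) (XT.nd (nat_lit 78) (nat_lit 0) (nat_lit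 0) (XT.lf (nat_lit 0) (nat_lit 521390756559) (nat_lit 76) (nat_lit 528410820856) (nat_lit 76) (nat_lit 528249666569) (nat_lit 137) (nat_lit 4) (nat_lit 138) (nat_lit 5) (nat_lit 138) (nat_lit 4) (nat_lit 371) (nat_lit 291) (nat_lit 238)) (XT.lf (nat_lit 0) (nat_lit 1731576349395) (nat_lit 76) (nat_lit 2183460353) (nat_lit 76) (nat_lit 2022293304) (nat_lit 137) (nat_lit 4) (nat_lit 138) (nat_lit 5) (nat_lit 138) (nat_lit 4) (nat_lit 372) (nat_lit 291) (nat_lit 237))))))))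
noncomputable def xc27 : XT := (XT.nd (nat_lit 43212) (nat_lit 0) (nat_lit 2888) (XT.nd (nat_lit 42432) (nat_lit 0) (nat_lit 4560) (XT.nd (nat_lit 390) (nat_lit 380) (nat_lit 0) (XT.nd (nat_lit 156) (nat_lit 228) (nat_lit 0) (XT.nd (nat_lit 78) (nat_lit 76) (nat_lit 0) (XT.lf (nat_lit 0) (nat_lit 631752001560) (nat_lit 152) (nat_lit 637716271135) (nat_lit 0) (nat_lit 631611846651) (nat_lit 135) (nat_lit 5) (nat_lit 137) (nat_lit 4) (nat_lit 135) (nat_lit 4) (nat_lit 373) (nat_lit 291) (nat_lit 236)) (XT.lf (nat_lit 0) (nat_lit 691585404607) (nat_lit 76) (nat_lit 697689837482) (nat_lit 76) (nat_lit 697549674182) (nat_lit 134) (nat_lit 4) (nat_lit 135) (nat_lit 5) (nat_lit 135) (nat_lit 4) (nat_lit 374) (nat_lit 291) (nat_lit 235))) (XT.nd (nat_lit 78) (nat_lit 228) (nat_lit 0) (XT.lf (nat_lit 0) (nat_lit 2291785644884) (nat_lit 76) (nat_lit 1898677684) (nat_lit 76) (nat_lit 1758507087) (nat_lit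 134) (nat_lit 4) (nat_lit 135) (nat_lit 5) (nat_lit 135) (nat_lit 4) (nat_lit 375) (nat_lit 291) (nat_lit 234)) (XT.nd (nat_lit 78) (nat_lit 76) (nat_lit 0) (XT.lf (nat_lit 0) (nat_lit 836326446427) (nat_lit 152) (nat_lit 841512767796) (nat_lit 0) (nat_lit 836204553433) (nat_lit 132) (nat_lit 5) (nat_lit 134) (nat_lit 4) (nat_lit 132) (nat_lit 4) (nat_lit 376) (nat_lit 291) (nat_lit 233)) (XT.lf (nat_lit 0) (nat_lit 916400947876) (nat_lit 76) (nat_lit 921709167036) (nat_lit 76) (nat_lit 921587269245) (nat_lit 131) (nat_lit 4) (nat_lit 132) (nat_lit 5) (nat_lit 132) (nat_lit 4) (nat_lit 377) (nat_lit 291) (nat_lit 232))))) (XT.nd (nat_lit 156) (nat_lit 228) (nat_lit 0) (XT.nd (nat_lit 78) (nat_lit 152) (nat_lit 0) (XT.lf (nat_lit 0) (nat_lit 3032430802692) (nat_lit 76) (nat_lit 1651033511) (nat_lit 76) (nat_lit 1529131549) (nat_lit 131) (nat_lit 4) (nat_lit 132) (nat_lit 5) (nat_lit 132) (nat_lit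 4) (nat_lit 378) (nat_lit 291) (nat_lit 231)) (XT.lf (nat_lit 0) (nat_lit 1106767307236) (nat_lit 152) (nat_lit 1111277151904) (nat_lit 0) (nat_lit 1106661302374) (nat_lit 129) (nat_lit 5) (nat_lit 131) (nat_lit 4) (nat_lit 129) (nat_lit 4) (nat_lit 379) (nat_lit 291) (nat_lit 230))) (XT.nd (nat_lit 78) (nat_lit 152) (nat_lit 0) (XT.lf (nat_lit 0) (nat_lit 1213487432083) (nat_lit 76) (nat_lit 1218103284356) (nat_lit 76) (nat_lit 1217997276752) (nat_lit 128) (nat_lit 4) (nat_lit 129) (nat_lit 5) (nat_lit 129) (nat_lit 4) (nat_lit 380) (nat_lit 291) (nat_lit 229)) (XT.nd (nat_lit 78) (nat_lit 152) (nat_lit 0) (XT.lf (nat_lit 0) (nat_lit 4011732598901) (nat_lit 76) (nat_lit 1435686710) (nat_lit 76) (nat_lit 1329676721) (nat_lit 128) (nat_lit 4) (nat_lit 129) (nat_lit 5) (nat_lit 129) (nat_lit 4) (nat_lit 381) (nat_lit 291) (nat_lit 228)) (XT.lf (nat_lit 0) (nat_lit 1464330701936) (nat_lit 152) (nat_lit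 1468252305996) (nat_lit 0) (nat_lit 1464238517533) (nat_lit 126) (nat_lit 5) (nat_lit 128) (nat_lit 4) (nat_lit 126) (nat_lit 4) (nat_lit 382) (nat_lit 291) (nat_lit 227)))))) (XT.nd (nat_lit 390) (nat_lit 456) (nat_lit 0) (XT.nd (nat_lit 156) (nat_lit 380) (nat_lit 0) (XT.nd (nat_lit 78) (nat_lit 76) (nat_lit 0) (XT.lf (nat_lit 0) (nat_lit 2700392437) (nat_lit 152) (nat_lit 937608809) (nat_lit 0) (nat_lit 2700392437) (nat_lit 198) (nat_lit 5) (nat_lit 200) (nat_lit 4) (nat_lit 198) (nat_lit 4) (nat_lit 316) (nat_lit 292) (nat_lit 292)) (XT.lf (nat_lit 0) (nat_lit 11107424638) (nat_lit 76) (nat_lit 1425109607) (nat_lit 76) (nat_lit 1029238761) (nat_lit 197) (nat_lit 4) (nat_lit 198) (nat_lit 5) (nat_lit 198) (nat_lit 4) (nat_lit 317) (nat_lit 292) (nat_lit 291))) (XT.nd (nat_lit 78) (nat_lit 228) (nat_lit 0) (XT.lf (nat_lit 0) (nat_lit 5795958108) (nat_lit 152) (nat_lit 3564533334) (nat_lit 0)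 (nat_lit 5152387357) (nat_lit 195) (nat_lit 5) (nat_lit 197) (nat_lit 4) (nat_lit 195) (nat_lit 4) (nat_lit 318) (nat_lit 292) (nat_lit 290)) (XT.nd (nat_lit 78) (nat_lit 152) (nat_lit 0) (XT.lf (nat_lit 0) (nat_lit 10662664202) (nat_lit 76) (nat_lit 2917223811) (nat_lit 76) (nat_lit 2013361552) (nat_lit 194) (nat_lit 4) (nat_lit 195) (nat_lit 5) (nat_lit 195) (nat_lit 4) (nat_lit 319) (nat_lit 292) (nat_lit 289)) (XT.lf (nat_lit 0) (nat_lit 5400840369) (nat_lit 152) (nat_lit 6949575601) (nat_lit 0) (nat_lit 4418055412) (nat_lit 192) (nat_lit 5) (nat_lit 194) (nat_lit 4) (nat_lit 192) (nat_lit 4) (nat_lit 320) (nat_lit 292) (nat_lit 288))))) (XT.nd (nat_lit 156) (nat_lit 228) (nat_lit 0) (XT.nd (nat_lit 78) (nat_lit 152) (nat_lit 0) (XT.lf (nat_lit 0) (nat_lit 8544637057) (nat_lit 76) (nat_lit 5344813934) (nat_lit 76) (nat_lit 4190883087) (nat_lit 191) (nat_lit 4) (nat_lit 192) (nat_lit 5) (nat_lit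 192) (nat_lit 4) (nat_lit 321) (nat_lit 292) (nat_lit 287)) (XT.lf (nat_lit 0) (nat_lit 3896649385) (nat_lit 152) (nat_lit 12873884275) (nat_lit 0) (nat_lit 2763820374) (nat_lit 189) (nat_lit 5) (nat_lit 191) (nat_lit 4) (nat_lit 189) (nat_lit 4) (nat_lit 322) (nat_lit 292) (nat_lit 286))) (XT.nd (nat_lit 78) (nat_lit 152) (nat_lit 0) (XT.lf (nat_lit 0) (nat_lit 3863562386) (nat_lit 76) (nat_lit 9253042949) (nat_lit 76) (nat_lit 8007682737) (nat_lit 188) (nat_lit 4) (nat_lit 189) (nat_lit 5) (nat_lit 189) (nat_lit 4) (nat_lit 323) (nat_lit 292) (nat_lit 285)) (XT.nd (nat_lit 78) (nat_lit 0) (nat_lit 0) (XT.lf (nat_lit 0) (nat_lit 453127726) (nat_lit 76) (nat_lit 382379788) (nat_lit 152) (nat_lit 22091901505) (nat_lit 186) (nat_lit 5) (nat_lit 187) (nat_lit 5) (nat_lit 188) (nat_lit 4) (nat_lit 324) (nat_lit 292) (nat_lit 284)) (XT.lf (nat_lit 0) (nat_lit 10952767558) (nat_lit 152) (nat_lit 4165154214)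 (nat_lit 0) (nat_lit 9710764787) (nat_lit 186) (nat_lit 5) (nat_lit 188) (nat_lit 4) (nat_lit 186) (nat_lit 4) (nat_lit 325) (nat_lit 292) (nat_lit 283))))))) (XT.nd (nat_lit 780) (nat_lit 760) (nat_lit 0) (XT.nd (nat_lit 390) (nat_lit 456) (nat_lit 0) (XT.nd (nat_lit 156) (nat_lit 228) (nat_lit 0) (XT.nd (nat_lit 78) (nat_lit 152) (nat_lit 0) (XT.lf (nat_lit 0) (nat_lit 17344463541) (nat_lit 76) (nat_lit 5471399069) (nat_lit 76) (nat_lit 4165056219) (nat_lit 185) (nat_lit 4) (nat_lit 186) (nat_lit 5) (nat_lit 186) (nat_lit 4) (nat_lit 326) (nat_lit 292) (nat_lit 282)) (XT.lf (nat_lit 0) (nat_lit 6893514617) (nat_lit 152) (nat_lit 16732891377) (nat_lit 0) (nat_lit 5708913968) (nat_lit 183) (nat_lit 5) (nat_lit 185) (nat_lit 4) (nat_lit 183) (nat_lit 4) (nat_lit 327) (nat_lit 292) (nat_lit 281))) (XT.nd (nat_lit 78) (nat_lit 152) (nat_lit 0) (XT.lf (nat_lit 0) (nat_lit 6296468052) (nat_lit 76) (nat_lit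 13431053580) (nat_lit 76) (nat_lit 12204148285) (nat_lit 182) (nat_lit 4) (nat_lit 183) (nat_lit 5) (nat_lit 183) (nat_lit 4) (nat_lit 328) (nat_lit 292) (nat_lit 280)) (XT.nd (nat_lit 78) (nat_lit 76) (nat_lit 0) (XT.lf (nat_lit 0) (nat_lit 18500072) (nat_lit 152) (nat_lit 1223916789) (nat_lit 76) (nat_lit 33616083624) (nat_lit 181) (nat_lit 5) (nat_lit 183) (nat_lit 5) (nat_lit 182) (nat_lit 4) (nat_lit 329) (nat_lit 292) (nat_lit 279)) (XT.lf (nat_lit 0) (nat_lit 14128145078) (nat_lit 152) (nat_lit 10812110788) (nat_lit 0) (nat_lit 13001466526) (nat_lit 180) (nat_lit 5) (nat_lit 182) (nat_lit 4) (nat_lit 180) (nat_lit 4) (nat_lit 330) (nat_lit 292) (nat_lit 278))))) (XT.nd (nat_lit 156) (nat_lit 228) (nat_lit 0) (XT.nd (nat_lit 78) (nat_lit 152) (nat_lit 0) (XT.lf (nat_lit 0) (nat_lit 19098735795) (nat_lit 76) (nat_lit 11733899218) (nat_lit 76) (nat_lit 10583032846) (nat_lit 179) (nat_lit 4)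 (nat_lit 180) (nat_lit 5) (nat_lit 180) (nat_lit 4) (nat_lit 331) (nat_lit 292) (nat_lit 277)) (XT.lf (nat_lit 0) (nat_lit 4925195155) (nat_lit 152) (nat_lit 36444764478) (nat_lit 0) (nat_lit 3906152322) (nat_lit 177) (nat_lit 5) (nat_lit 179) (nat_lit 4) (nat_lit 177) (nat_lit 4) (nat_lit 332) (nat_lit 292) (nat_lit 276))) (XT.nd (nat_lit 78) (nat_lit 228) (nat_lit 0) (XT.lf (nat_lit 0) (nat_lit 23019252840) (nat_lit 152) (nat_lit 4435006139) (nat_lit 0) (nat_lit 21984306123) (nat_lit 177) (nat_lit 5) (nat_lit 179) (nat_lit 4) (nat_lit 177) (nat_lit 4) (nat_lit 333) (nat_lit 292) (nat_lit 275)) (XT.nd (nat_lit 78) (nat_lit 152) (nat_lit 0) (XT.lf (nat_lit 0) (nat_lit 34646710536) (nat_lit 76) (nat_lit 10234678215) (nat_lit 76) (nat_lit 9185902034) (nat_lit 176) (nat_lit 4) (nat_lit 177) (nat_lit 5) (nat_lit 177) (nat_lit 4) (nat_lit 334) (nat_lit 292) (nat_lit 274)) (XT.lf (nat_lit 0) (nat_lit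 10886124102) (nat_lit 152) (nat_lit 38294445252) (nat_lit 0) (nat_lit 9963687752) (nat_lit 174) (nat_lit 5) (nat_lit 176) (nat_lit 4) (nat_lit 174) (nat_lit 4) (nat_lit 335) (nat_lit 292) (nat_lit 273)))))) (XT.nd (nat_lit 390) (nat_lit 456) (nat_lit 0) (XT.nd (nat_lit 156) (nat_lit 228) (nat_lit 0) (XT.nd (nat_lit 78) (nat_lit 0) (nat_lit 0) (XT.lf (nat_lit 0) (nat_lit 2991599808) (nat_lit 76) (nat_lit 31331450405) (nat_lit 76) (nat_lit 30399920958) (nat_lit 173) (nat_lit 4) (nat_lit 174) (nat_lit 5) (nat_lit 174) (nat_lit 4) (nat_lit 336) (nat_lit 292) (nat_lit 272)) (XT.lf (nat_lit 0) (nat_lit 53996866814) (nat_lit 76) (nat_lit 8917608969) (nat_lit 76) (nat_lit 7978172481) (nat_lit 173) (nat_lit 4) (nat_lit 174) (nat_lit 5) (nat_lit 174) (nat_lit 4) (nat_lit 337) (nat_lit 292) (nat_lit 271))) (XT.nd (nat_lit 78) (nat_lit 76) (nat_lit 0) (XT.lf (nat_lit 0) (nat_lit 18190465210) (nat_lit 152)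 (nat_lit 42023787950) (nat_lit 0) (nat_lit 17367585058) (nat_lit 171) (nat_lit 5) (nat_lit 173) (nat_lit 4) (nat_lit 171) (nat_lit 4) (nat_lit 338) (nat_lit 292) (nat_lit 270)) (XT.nd (nat_lit 78) (nat_lit 0) (nat_lit 0) (XT.lf (nat_lit 0) (nat_lit 12164734134) (nat_lit 76) (nat_lit 36826136034) (nat_lit 76) (nat_lit 35998056874) (nat_lit 170) (nat_lit 4) (nat_lit 171) (nat_lit 5) (nat_lit 171) (nat_lit 4) (nat_lit 339) (nat_lit 292) (nat_lit 269)) (XT.lf (nat_lit 0) (nat_lit 78528119933) (nat_lit 76) (nat_lit 7764670550) (nat_lit 76) (nat_lit 6932070514) (nat_lit 170) (nat_lit 4) (nat_lit 171) (nat_lit 5) (nat_lit 171) (nat_lit 4) (nat_lit 340) (nat_lit 292) (nat_lit 268))))) (XT.nd (nat_lit 156) (nat_lit 228) (nat_lit 0) (XT.nd (nat_lit 78) (nat_lit 76) (nat_lit 0) (XT.lf (nat_lit 0) (nat_lit 27350695201) (nat_lit 152) (nat_lit 48075323671) (nat_lit 0) (nat_lit 26623276737) (nat_lit 168) (nat_lit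 5) (nat_lit 170) (nat_lit 4) (nat_lit 168) (nat_lit 4) (nat_lit 341) (nat_lit 292) (nat_lit 267)) (XT.lf (nat_lit 0) (nat_lit 23230274036) (nat_lit 76) (nat_lit 44685293518) (nat_lit 76) (nat_lit 43954902505) (nat_lit 167) (nat_lit 4) (nat_lit 168) (nat_lit 5) (nat_lit 168) (nat_lit 4) (nat_lit 342) (nat_lit 292) (nat_lit 266))) (XT.nd (nat_lit 78) (nat_lit 228) (nat_lit 0) (XT.lf (nat_lit 0) (nat_lit 110046470622) (nat_lit 76) (nat_lit 6757735310) (nat_lit 76) (nat_lit 6024759471) (nat_lit 167) (nat_lit 4) (nat_lit 168) (nat_lit 5) (nat_lit 168) (nat_lit 4) (nat_lit 343) (nat_lit 292) (nat_lit 265)) (XT.nd (nat_lit 78) (nat_lit 76) (nat_lit 0) (XT.lf (nat_lit 0) (nat_lit 39032643506) (nat_lit 152) (nat_lit 57054059566) (nat_lit 0) (nat_lit 38393318711) (nat_lit 165) (nat_lit 5) (nat_lit 167) (nat_lit 4) (nat_lit 165) (nat_lit 4) (nat_lit 344) (nat_lit 292) (nat_lit 264)) (XT.lf (nat_lit 0) (nat_lit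 36935531979) (nat_lit 76) (nat_lit 55597972398) (nat_lit 76) (nat_lit 54956948039) (nat_lit 164) (nat_lit 4) (nat_lit 165) (nat_lit 5) (nat_lit 165) (nat_lit 4) (nat_lit 345) (nat_lit 292) (nat_lit 263))))))))
noncomputable def xc28 : XT := (XT.nd (nat_lit 1560) (nat_lit 1216) (nat_lit 0) (XT.nd (nat_lit 780) (nat_lit 836) (nat_lit 0) (XT.nd (nat_lit 390) (nat_lit 304) (nat_lit 0) (XT.nd (nat_lit 156) (nat_lit 228) (nat_lit 0) (XT.nd (nat_lit 78) (nat_lit 152) (nat_lit 0) (XT.lf (nat_lit 0) (nat_lit 150924050910) (nat_lit 76) (nat_lit 5879635115) (nat_lit 76) (nat_lit 5237132873) (nat_lit 164) (nat_lit 4) (nat_lit 165) (nat_lit 5) (nat_lit 165) (nat_lit 4) (nat_lit 346) (nat_lit 292) (nat_lit 262)) (XT.lf (nat_lit 0) (nat_lit 54107183129) (nat_lit 152) (nat_lit 69777979703) (nat_lit 0) (nat_lit 53547368036) (nat_lit 162) (nat_lit 5) (nat_lit 164) (nat_lit 4) (nat_lit 162) (nat_lit 4) (nat_lit 347)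 (nat_lit 292) (nat_lit 261))) (XT.nd (nat_lit 78) (nat_lit 152) (nat_lit 0) (XT.lf (nat_lit 0) (nat_lit 54251823831) (nat_lit 76) (nat_lit 70483407230) (nat_lit 76) (nat_lit 69922620405) (nat_lit 161) (nat_lit 4) (nat_lit 162) (nat_lit 5) (nat_lit 162) (nat_lit 4) (nat_lit 348) (nat_lit 292) (nat_lit 260)) (XT.nd (nat_lit 78) (nat_lit 152) (nat_lit 0) (XT.lf (nat_lit 0) (nat_lit 204283263892) (nat_lit 76) (nat_lit 5114637867) (nat_lit 76) (nat_lit 4553006058) (nat_lit 161) (nat_lit 4) (nat_lit 162) (nat_lit 5) (nat_lit 162) (nat_lit 4) (nat_lit 349) (nat_lit 292) (nat_lit 259)) (XT.lf (nat_lit 0) (nat_lit 73718009271) (nat_lit 152) (nat_lit 87344788900) (nat_lit 0) (nat_lit 73228994855) (nat_lit 159) (nat_lit 5) (nat_lit 161) (nat_lit 4) (nat_lit 159) (nat_lit 4) (nat_lit 350) (nat_lit 292) (nat_lit 258))))) (XT.nd (nat_lit 156) (nat_lit 228) (nat_lit 0) (XT.nd (nat_lit 78) (nat_lit 0) (nat_lit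 0) (XT.lf (nat_lit 0) (nat_lit 76448557032) (nat_lit 76) (nat_lit 90564906668) (nat_lit 76) (nat_lit 90075336662) (nat_lit 158) (nat_lit 4) (nat_lit 159) (nat_lit 5) (nat_lit 159) (nat_lit 4) (nat_lit 351) (nat_lit 292) (nat_lit 257)) (XT.lf (nat_lit 0) (nat_lit 274240346385) (nat_lit 76) (nat_lit 4448604198) (nat_lit 76) (nat_lit 3958551070) (nat_lit 158) (nat_lit 4) (nat_lit 159) (nat_lit 5) (nat_lit 159) (nat_lit 4) (nat_lit 352) (nat_lit 292) (nat_lit 256))) (XT.nd (nat_lit 78) (nat_lit 76) (nat_lit 0) (XT.lf (nat_lit 0) (nat_lit 99370894636) (nat_lit 152) (nat_lit 111220268227) (nat_lit 0) (nat_lit 98944396170) (nat_lit 156) (nat_lit 5) (nat_lit 158) (nat_lit 4) (nat_lit 156) (nat_lit 4) (nat_lit 353) (nat_lit 292) (nat_lit 255)) (XT.nd (nat_lit 78) (nat_lit 0) (nat_lit 0) (XT.lf (nat_lit 0) (nat_lit 105191130132) (nat_lit 76) (nat_lit 117467319849) (nat_lit 76) (nat_lit 117040503723) (nat_lit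 155) (nat_lit 4) (nat_lit 156) (nat_lit 5) (nat_lit 156) (nat_lit 4) (nat_lit 354) (nat_lit 292) (nat_lit 254)) (XT.lf (nat_lit 0) (nat_lit 366227409951) (nat_lit 76) (nat_lit 3868976408) (nat_lit 76) (nat_lit 3441884056) (nat_lit 155) (nat_lit 4) (nat_lit 156) (nat_lit 5) (nat_lit 156) (nat_lit 4) (nat_lit 355) (nat_lit 292) (nat_lit 253)))))) (XT.nd (nat_lit 390) (nat_lit 380) (nat_lit 0) (XT.nd (nat_lit 156) (nat_lit 228) (nat_lit 0) (XT.nd (nat_lit 78) (nat_lit 76) (nat_lit 0) (XT.lf (nat_lit 0) (nat_lit 133051468757) (nat_lit 152) (nat_lit 143355271879) (nat_lit 0) (nat_lit 132679875235) (nat_lit 153) (nat_lit 5) (nat_lit 155) (nat_lit 4) (nat_lit 153) (nat_lit 4) (nat_lit 356) (nat_lit 292) (nat_lit 252)) (XT.lf (nat_lit 0) (nat_lit 142670265545) (nat_lit 76) (nat_lit 153345843813) (nat_lit 76) (nat_lit 152974068667) (nat_lit 152) (nat_lit 4) (nat_lit 153) (nat_lit 5) (nat_lit 153) (nat_lit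 4) (nat_lit 357) (nat_lit 292) (nat_lit 251))) (XT.nd (nat_lit 78) (nat_lit 228) (nat_lit 0) (XT.lf (nat_lit 0) (nat_lit 487418219615) (nat_lit 76) (nat_lit 3364684618) (nat_lit 76) (nat_lit 2992751539) (nat_lit 152) (nat_lit 4) (nat_lit 153) (nat_lit 5) (nat_lit 153) (nat_lit 4) (nat_lit 358) (nat_lit 292) (nat_lit 250)) (XT.nd (nat_lit 78) (nat_lit 76) (nat_lit 0) (XT.lf (nat_lit 0) (nat_lit 177380795093) (nat_lit 152) (nat_lit 186340623896) (nat_lit 0) (nat_lit 177057255604) (nat_lit 150) (nat_lit 5) (nat_lit 152) (nat_lit 4) (nat_lit 150) (nat_lit 4) (nat_lit 359) (nat_lit 292) (nat_lit 249)) (XT.lf (nat_lit 0) (nat_lit 191772892008) (nat_lit 76) (nat_lit 201056364143) (nat_lit 76) (nat_lit 200732720810) (nat_lit 149) (nat_lit 4) (nat_lit 150) (nat_lit 5) (nat_lit 150) (nat_lit 4) (nat_lit 360) (nat_lit 292) (nat_lit 248))))) (XT.nd (nat_lit 156) (nat_lit 228) (nat_lit 0) (XT.nd (nat_lit 78)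 (nat_lit 152) (nat_lit 0) (XT.lf (nat_lit 0) (nat_lit 647291147579) (nat_lit 76) (nat_lit 2926017003) (nat_lit 76) (nat_lit 2602283371) (nat_lit 149) (nat_lit 4) (nat_lit 150) (nat_lit 5) (nat_lit 150) (nat_lit 4) (nat_lit 361) (nat_lit 292) (nat_lit 247)) (XT.lf (nat_lit 0) (nat_lit 235820983253) (nat_lit 152) (nat_lit 243612138734) (nat_lit 0) (nat_lit 235539407468) (nat_lit 147) (nat_lit 5) (nat_lit 149) (nat_lit 4) (nat_lit 147) (nat_lit 4) (nat_lit 362) (nat_lit 292) (nat_lit 246))) (XT.nd (nat_lit 78) (nat_lit 152) (nat_lit 0) (XT.lf (nat_lit 0) (nat_lit 256307975174) (nat_lit 76) (nat_lit 264380765812) (nat_lit 76) (nat_lit 264099130654) (nat_lit 146) (nat_lit 4) (nat_lit 147) (nat_lit 5) (nat_lit 147) (nat_lit 4) (nat_lit 363) (nat_lit 292) (nat_lit 245)) (XT.nd (nat_lit 78) (nat_lit 152) (nat_lit 0) (XT.lf (nat_lit 0) (nat_lit 858373539612) (nat_lit 76) (nat_lit 2544479415) (nat_lit 76)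 (nat_lit 2262792628) (nat_lit 146) (nat_lit 4) (nat_lit 147) (nat_lit 5) (nat_lit 147) (nat_lit 4) (nat_lit 364) (nat_lit 292) (nat_lit 244)) (XT.lf (nat_lit 0) (nat_lit 312947004055) (nat_lit 152) (nat_lit 319721921864) (nat_lit 0) (nat_lit 312702019984) (nat_lit 144) (nat_lit 5) (nat_lit 146) (nat_lit 4) (nat_lit 144) (nat_lit 4) (nat_lit 365) (nat_lit 292) (nat_lit 243))))))) (XT.nd (nat_lit 780) (nat_lit 456) (nat_lit 0) (XT.nd (nat_lit 390) (nat_lit 456) (nat_lit 0) (XT.nd (nat_lit 156) (nat_lit 228) (nat_lit 0) (XT.nd (nat_lit 78) (nat_lit 0) (nat_lit 0) (XT.lf (nat_lit 0) (nat_lit 341305025449) (nat_lit 76) (nat_lit 348324961276) (nat_lit 76) (nat_lit 348079943258) (nat_lit 143) (nat_lit 4) (nat_lit 144) (nat_lit 5) (nat_lit 144) (nat_lit 4) (nat_lit 366) (nat_lit 292) (nat_lit 242)) (XT.lf (nat_lit 0) (nat_lit 1137226006900) (nat_lit 76) (nat_lit 2212657579) (nat_lit 76) (nat_lit 1967610042)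 (nat_lit 143) (nat_lit 4) (nat_lit 144) (nat_lit 5) (nat_lit 144) (nat_lit 4) (nat_lit 367) (nat_lit 292) (nat_lit 241))) (XT.nd (nat_lit 78) (nat_lit 76) (nat_lit 0) (XT.lf (nat_lit 0) (nat_lit 414806079426) (nat_lit 152) (nat_lit 420697312303) (nat_lit 0) (nat_lit 414592972291) (nat_lit 141) (nat_lit 5) (nat_lit 143) (nat_lit 4) (nat_lit 141) (nat_lit 4) (nat_lit 368) (nat_lit 292) (nat_lit 240)) (XT.nd (nat_lit 78) (nat_lit 0) (nat_lit 0) (XT.lf (nat_lit 0) (nat_lit 453408734198) (nat_lit 76) (nat_lit 459513093620) (nat_lit 76) (nat_lit 459299967076) (nat_lit 140) (nat_lit 4) (nat_lit 141) (nat_lit 5) (nat_lit 141) (nat_lit 4) (nat_lit 369) (nat_lit 292) (nat_lit 239)) (XT.lf (nat_lit 0) (nat_lit 1505744030302) (nat_lit 76) (nat_lit 1924088252) (nat_lit 76) (nat_lit 1710944831) (nat_lit 140) (nat_lit 4) (nat_lit 141) (nat_lit 5) (nat_lit 141) (nat_lit 4) (nat_lit 370) (nat_lit 292) (nat_lit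 238))))) (XT.nd (nat_lit 156) (nat_lit 228) (nat_lit 0) (XT.nd (nat_lit 78) (nat_lit 76) (nat_lit 0) (XT.lf (nat_lit 0) (nat_lit 549392905536) (nat_lit 152) (nat_lit 554515716734) (nat_lit 0) (nat_lit 549207550669) (nat_lit 138) (nat_lit 5) (nat_lit 140) (nat_lit 4) (nat_lit 138) (nat_lit 4) (nat_lit 371) (nat_lit 292) (nat_lit 237)) (XT.lf (nat_lit 0) (nat_lit 601400753864) (nat_lit 76) (nat_lit 606708931027) (nat_lit 76) (nat_lit 606523565062) (nat_lit 137) (nat_lit 4) (nat_lit 138) (nat_lit 5) (nat_lit 138) (nat_lit 4) (nat_lit 372) (nat_lit 292) (nat_lit 236))) (XT.nd (nat_lit 78) (nat_lit 228) (nat_lit 0) (XT.lf (nat_lit 0) (nat_lit 1992879222518) (nat_lit 76) (nat_lit 1673142051) (nat_lit 76) (nat_lit 1487766436) (nat_lit 137) (nat_lit 4) (nat_lit 138) (nat_lit 5) (nat_lit 138) (nat_lit 4) (nat_lit 373) (nat_lit 292) (nat_lit 235)) (XT.nd (nat_lit 78) (nat_lit 76) (nat_lit 0) (XT.lf (nat_lit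 0) (nat_lit 727278077006) (nat_lit 152) (nat_lit 731732695439) (nat_lit 0) (nat_lit 727116873522) (nat_lit 135) (nat_lit 5) (nat_lit 137) (nat_lit 4) (nat_lit 135) (nat_lit 4) (nat_lit 374) (nat_lit 292) (nat_lit 234)) (XT.lf (nat_lit 0) (nat_lit 796889640012) (nat_lit 76) (nat_lit 801505468273) (nat_lit 76) (nat_lit 801344258445) (nat_lit 134) (nat_lit 4) (nat_lit 135) (nat_lit 5) (nat_lit 135) (nat_lit 4) (nat_lit 375) (nat_lit 292) (nat_lit 233)))))) (XT.nd (nat_lit 390) (nat_lit 76) (nat_lit 0) (XT.nd (nat_lit 156) (nat_lit 228) (nat_lit 0) (XT.nd (nat_lit 78) (nat_lit 152) (nat_lit 0) (XT.lf (nat_lit 0) (nat_lit 2636915600063) (nat_lit 76) (nat_lit 1454918613) (nat_lit 76) (nat_lit 1293703268) (nat_lit 134) (nat_lit 4) (nat_lit 135) (nat_lit 5) (nat_lit 135) (nat_lit 4) (nat_lit 376) (nat_lit 292) (nat_lit 232)) (XT.lf (nat_lit 0) (nat_lit 962439128570) (nat_lit 152) (nat_lit 966312709816)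 (nat_lit 0) (nat_lit 962298937141) (nat_lit 132) (nat_lit 5) (nat_lit 134) (nat_lit 4) (nat_lit 132) (nat_lit 4) (nat_lit 377) (nat_lit 292) (nat_lit 231))) (XT.nd (nat_lit 78) (nat_lit 152) (nat_lit 0) (XT.lf (nat_lit 0) (nat_lit 1055223200790) (nat_lit 76) (nat_lit 1059236977093) (nat_lit 76) (nat_lit 1059096782036) (nat_lit 131) (nat_lit 4) (nat_lit 132) (nat_lit 5) (nat_lit 132) (nat_lit 4) (nat_lit 378) (nat_lit 292) (nat_lit 230)) (XT.nd (nat_lit 78) (nat_lit 152) (nat_lit 0) (XT.lf (nat_lit 0) (nat_lit 3488479867212) (nat_lit 76) (nat_lit 1265153757) (nat_lit 76) (nat_lit 1124955546) (nat_lit 131) (nat_lit 4) (nat_lit 132) (nat_lit 5) (nat_lit 132) (nat_lit 4) (nat_lit 379) (nat_lit 292) (nat_lit 229)) (XT.lf (nat_lit 0) (nat_lit 1273359545586) (nat_lit 152) (nat_lit 1276727877104) (nat_lit 0) (nat_lit 1273237631713) (nat_lit 129) (nat_lit 5) (nat_lit 131) (nat_lit 4) (nat_lit 129) (nat_lit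 4) (nat_lit 380) (nat_lit 292) (nat_lit 228))))) (XT.nd (nat_lit 41652) (nat_lit 0) (nat_lit 5320) (XT.nd (nat_lit 78) (nat_lit 0) (nat_lit 0) (XT.lf (nat_lit 0) (nat_lit 1396694992319) (nat_lit 76) (nat_lit 1400185239784) (nat_lit 76) (nat_lit 1400063323837) (nat_lit 128) (nat_lit 4) (nat_lit 129) (nat_lit 5) (nat_lit 129) (nat_lit 4) (nat_lit 381) (nat_lit 292) (nat_lit 227)) (XT.lf (nat_lit 0) (nat_lit 4614522441278) (nat_lit 76) (nat_lit 1100137782) (nat_lit 76) (nat_lit 978220031) (nat_lit 128) (nat_lit 4) (nat_lit 129) (nat_lit 5) (nat_lit 129) (nat_lit 4) (nat_lit 382) (nat_lit 292) (nat_lit 226))) (XT.nd (nat_lit 78) (nat_lit 228) (nat_lit 0) (XT.lf (nat_lit 0) (nat_lit 2599097613) (nat_lit 152) (nat_lit 378911527) (nat_lit 0) (nat_lit 2599097613) (nat_lit 201) (nat_lit 5) (nat_lit 203) (nat_lit 4) (nat_lit 201) (nat_lit 4) (nat_lit 314) (nat_lit 293) (nat_lit 293)) (XT.nd (nat_lit 78)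 (nat_lit 152) (nat_lit 0) (XT.lf (nat_lit 0) (nat_lit 10554242924) (nat_lit 76) (nat_lit 939480712) (nat_lit 76) (nat_lit 415941518) (nat_lit 200) (nat_lit 4) (nat_lit 201) (nat_lit 5) (nat_lit 201) (nat_lit 4) (nat_lit 315) (nat_lit 293) (nat_lit 292)) (XT.lf (nat_lit 0) (nat_lit 5568902332) (nat_lit 152) (nat_lit 2433175125) (nat_lit 0) (nat_lit 4717780013) (nat_lit 198) (nat_lit 5) (nat_lit 200) (nat_lit 4) (nat_lit 198) (nat_lit 4) (nat_lit 316) (nat_lit 293) (nat_lit 291))))))))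
noncomputable def xc29 : XT := (XT.nd (nat_lit 1560) (nat_lit 1444) (nat_lit 0) (XT.nd (nat_lit 780) (nat_lit 836) (nat_lit 0) (XT.nd (nat_lit 390) (nat_lit 456) (nat_lit 0) (XT.nd (nat_lit 156) (nat_lit 304) (nat_lit 0) (XT.nd (nat_lit 78) (nat_lit 152) (nat_lit 0) (XT.lf (nat_lit 0) (nat_lit 9962343664) (nat_lit 76) (nat_lit 2441210924) (nat_lit 76) (nat_lit 1245853087) (nat_lit 197) (nat_lit 4) (nat_lit 198) (nat_lit 5) (nat_lit 198) (nat_lit 4) (nat_lit 317) (nat_lit 293) (nat_lit 290)) (XT.lf (nat_lit 0) (nat_lit 5217175097) (nat_lit 152) (nat_lit 5524459788) (nat_lit 0) (nat_lit 3917441992) (nat_lit 195) (nat_lit 5) (nat_lit 197) (nat_lit 4) (nat_lit 195) (nat_lit 4) (nat_lit 318) (nat_lit 293) (nat_lit 289))) (XT.nd (nat_lit 78) (nat_lit 228) (nat_lit 0) (XT.lf (nat_lit 0) (nat_lit 7972440981) (nat_lit 76) (nat_lit 4673199912) (nat_lit 76) (nat_lit 3147126366) (nat_lit 194) (nat_lit 4) (nat_lit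 195) (nat_lit 5) (nat_lit 195) (nat_lit 4) (nat_lit 319) (nat_lit 293) (nat_lit 288)) (XT.nd (nat_lit 78) (nat_lit 76) (nat_lit 0) (XT.lf (nat_lit 0) (nat_lit 3881260375) (nat_lit 152) (nat_lit 10783689325) (nat_lit 0) (nat_lit 2383094009) (nat_lit 192) (nat_lit 5) (nat_lit 194) (nat_lit 4) (nat_lit 192) (nat_lit 4) (nat_lit 320) (nat_lit 293) (nat_lit 287)) (XT.lf (nat_lit 0) (nat_lit 3793015283) (nat_lit 76) (nat_lit 8139724818) (nat_lit 76) (nat_lit 6492735938) (nat_lit 191) (nat_lit 4) (nat_lit 192) (nat_lit 5) (nat_lit 192) (nat_lit 4) (nat_lit 321) (nat_lit 293) (nat_lit 286))))) (XT.nd (nat_lit 156) (nat_lit 304) (nat_lit 0) (XT.nd (nat_lit 78) (nat_lit 0) (nat_lit 0) (XT.lf (nat_lit 0) (nat_lit 770890037) (nat_lit 76) (nat_lit 413895915) (nat_lit 152) (nat_lit 18801247881) (nat_lit 189) (nat_lit 5) (nat_lit 190) (nat_lit 5) (nat_lit 191) (nat_lit 4) (nat_lit 322) (nat_lit 293) (nat_lit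 285)) (XT.lf (nat_lit 0) (nat_lit 9989672215) (nat_lit 152) (nat_lit 3301432560) (nat_lit 0) (nat_lit 8347123551) (nat_lit 189) (nat_lit 5) (nat_lit 191) (nat_lit 4) (nat_lit 189) (nat_lit 4) (nat_lit 323) (nat_lit 293) (nat_lit 284))) (XT.nd (nat_lit 78) (nat_lit 228) (nat_lit 0) (XT.lf (nat_lit 0) (nat_lit 15423743175) (nat_lit 76) (nat_lit 4905060220) (nat_lit 76) (nat_lit 3177421800) (nat_lit 188) (nat_lit 4) (nat_lit 189) (nat_lit 5) (nat_lit 189) (nat_lit 4) (nat_lit 324) (nat_lit 293) (nat_lit 283)) (XT.nd (nat_lit 78) (nat_lit 76) (nat_lit 0) (XT.lf (nat_lit 0) (nat_lit 6414206256) (nat_lit 152) (nat_lit 14286736325) (nat_lit 0) (nat_lit 4847571899) (nat_lit 186) (nat_lit 5) (nat_lit 188) (nat_lit 4) (nat_lit 186) (nat_lit 4) (nat_lit 325) (nat_lit 293) (nat_lit 282)) (XT.lf (nat_lit 0) (nat_lit 5757877510) (nat_lit 76) (nat_lit 11834123285) (nat_lit 76) (nat_lit 10211541032) (nat_lit 185)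 (nat_lit 4) (nat_lit 186) (nat_lit 5) (nat_lit 186) (nat_lit 4) (nat_lit 326) (nat_lit 293) (nat_lit 281)))))) (XT.nd (nat_lit 390) (nat_lit 456) (nat_lit 0) (XT.nd (nat_lit 156) (nat_lit 228) (nat_lit 0) (XT.nd (nat_lit 78) (nat_lit 76) (nat_lit 0) (XT.lf (nat_lit 0) (nat_lit 386459763) (nat_lit 152) (nat_lit 840344105) (nat_lit 76) (nat_lit 29118525388) (nat_lit 184) (nat_lit 5) (nat_lit 186) (nat_lit 5) (nat_lit 185) (nat_lit 4) (nat_lit 327) (nat_lit 293) (nat_lit 280)) (XT.lf (nat_lit 0) (nat_lit 12664315492) (nat_lit 152) (nat_lit 9186503306) (nat_lit 0) (nat_lit 11174283106) (nat_lit 183) (nat_lit 5) (nat_lit 185) (nat_lit 4) (nat_lit 183) (nat_lit 4) (nat_lit 328) (nat_lit 293) (nat_lit 279))) (XT.nd (nat_lit 78) (nat_lit 152) (nat_lit 0) (XT.lf (nat_lit 0) (nat_lit 16840154502) (nat_lit 76) (nat_lit 10362912086) (nat_lit 76) (nat_lit 8840891310) (nat_lit 182) (nat_lit 4) (nat_lit 183)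 (nat_lit 5) (nat_lit 183) (nat_lit 4) (nat_lit 329) (nat_lit 293) (nat_lit 278)) (XT.nd (nat_lit 78) (nat_lit 0) (nat_lit 0) (XT.lf (nat_lit 0) (nat_lit 4617973332) (nat_lit 152) (nat_lit 31509508303) (nat_lit 0) (nat_lit 3270289186) (nat_lit 180) (nat_lit 5) (nat_lit 182) (nat_lit 4) (nat_lit 180) (nat_lit 4) (nat_lit 330) (nat_lit 293) (nat_lit 277)) (XT.lf (nat_lit 0) (nat_lit 20354223337) (nat_lit 152) (nat_lit 3677222635) (nat_lit 0) (nat_lit 18985506305) (nat_lit 180) (nat_lit 5) (nat_lit 182) (nat_lit 4) (nat_lit 180) (nat_lit 4) (nat_lit 331) (nat_lit 293) (nat_lit 276))))) (XT.nd (nat_lit 156) (nat_lit 228) (nat_lit 0) (XT.nd (nat_lit 78) (nat_lit 152) (nat_lit 0) (XT.lf (nat_lit 0) (nat_lit 30322218901) (nat_lit 76) (nat_lit 9052605740) (nat_lit 76) (nat_lit 7665599241) (nat_lit 179) (nat_lit 4) (nat_lit 180) (nat_lit 5) (nat_lit 180) (nat_lit 4) (nat_lit 332) (nat_lit 293) (nat_lit 275))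 (XT.lf (nat_lit 0) (nat_lit 9762890010) (nat_lit 152) (nat_lit 33146833462) (nat_lit 0) (nat_lit 8542967938) (nat_lit 177) (nat_lit 5) (nat_lit 179) (nat_lit 4) (nat_lit 177) (nat_lit 4) (nat_lit 333) (nat_lit 293) (nat_lit 274))) (XT.nd (nat_lit 78) (nat_lit 152) (nat_lit 0) (XT.lf (nat_lit 0) (nat_lit 2767561428) (nat_lit 76) (nat_lit 27383452573) (nat_lit 76) (nat_lit 26151504881) (nat_lit 176) (nat_lit 4) (nat_lit 177) (nat_lit 5) (nat_lit 177) (nat_lit 4) (nat_lit 334) (nat_lit 293) (nat_lit 273)) (XT.nd (nat_lit 78) (nat_lit 152) (nat_lit 0) (XT.lf (nat_lit 0) (nat_lit 47118719465) (nat_lit 76) (nat_lit 7895488992) (nat_lit 76) (nat_lit 6653084237) (nat_lit 176) (nat_lit 4) (nat_lit 177) (nat_lit 5) (nat_lit 177) (nat_lit 4) (nat_lit 335) (nat_lit 293) (nat_lit 272)) (XT.lf (nat_lit 0) (nat_lit 16078776892) (nat_lit 152) (nat_lit 36412640764) (nat_lit 0) (nat_lit 14990517890) (nat_lit 174)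 (nat_lit 5) (nat_lit 176) (nat_lit 4) (nat_lit 174) (nat_lit 4) (nat_lit 336) (nat_lit 293) (nat_lit 271))))))) (XT.nd (nat_lit 780) (nat_lit 684) (nat_lit 0) (XT.nd (nat_lit 390) (nat_lit 456) (nat_lit 0) (XT.nd (nat_lit 156) (nat_lit 228) (nat_lit 0) (XT.nd (nat_lit 78) (nat_lit 0) (nat_lit 0) (XT.lf (nat_lit 0) (nat_lit 10719675997) (nat_lit 76) (nat_lit 32148674558) (nat_lit 76) (nat_lit 31053539869) (nat_lit 173) (nat_lit 4) (nat_lit 174) (nat_lit 5) (nat_lit 174) (nat_lit 4) (nat_lit 337) (nat_lit 293) (nat_lit 270)) (XT.lf (nat_lit 0) (nat_lit 68426254417) (nat_lit 76) (nat_lit 6879169091) (nat_lit 76) (nat_lit 5778055542) (nat_lit 173) (nat_lit 4) (nat_lit 174) (nat_lit 5) (nat_lit 174) (nat_lit 4) (nat_lit 338) (nat_lit 293) (nat_lit 269))) (XT.nd (nat_lit 78) (nat_lit 76) (nat_lit 0) (XT.lf (nat_lit 0) (nat_lit 24011860114) (nat_lit 152) (nat_lit 41693480872) (nat_lit 0) (nat_lit 23049849196)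 (nat_lit 171) (nat_lit 5) (nat_lit 173) (nat_lit 4) (nat_lit 171) (nat_lit 4) (nat_lit 339) (nat_lit 293) (nat_lit 268)) (XT.nd (nat_lit 78) (nat_lit 0) (nat_lit 0) (XT.lf (nat_lit 0) (nat_lit 20321779739) (nat_lit 76) (nat_lit 38969342612) (nat_lit 76) (nat_lit 38003400497) (nat_lit 170) (nat_lit 4) (nat_lit 171) (nat_lit 5) (nat_lit 171) (nat_lit 4) (nat_lit 340) (nat_lit 293) (nat_lit 267)) (XT.lf (nat_lit 0) (nat_lit 95813716605) (nat_lit 76) (nat_lit 5989619980) (nat_lit 76) (nat_lit 5020259433) (nat_lit 170) (nat_lit 4) (nat_lit 171) (nat_lit 5) (nat_lit 171) (nat_lit 4) (nat_lit 341) (nat_lit 293) (nat_lit 266))))) (XT.nd (nat_lit 156) (nat_lit 228) (nat_lit 0) (XT.nd (nat_lit 78) (nat_lit 76) (nat_lit 0) (XT.lf (nat_lit 0) (nat_lit 34141228418) (nat_lit 152) (nat_lit 49516550816) (nat_lit 0) (nat_lit 33295721377) (nat_lit 168) (nat_lit 5) (nat_lit 170) (nat_lit 4) (nat_lit 168) (nat_lit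 4) (nat_lit 342) (nat_lit 293) (nat_lit 265)) (XT.lf (nat_lit 0) (nat_lit 32222610574) (nat_lit 76) (nat_lit 48445687687) (nat_lit 76) (nat_lit 47597932972) (nat_lit 167) (nat_lit 4) (nat_lit 168) (nat_lit 5) (nat_lit 168) (nat_lit 4) (nat_lit 343) (nat_lit 293) (nat_lit 264))) (XT.nd (nat_lit 78) (nat_lit 228) (nat_lit 0) (XT.lf (nat_lit 0) (nat_lit 131342828548) (nat_lit 76) (nat_lit 5212787033) (nat_lit 76) (nat_lit 4363077818) (nat_lit 167) (nat_lit 4) (nat_lit 168) (nat_lit 5) (nat_lit 168) (nat_lit 4) (nat_lit 344) (nat_lit 293) (nat_lit 263)) (XT.nd (nat_lit 78) (nat_lit 76) (nat_lit 0) (XT.lf (nat_lit 0) (nat_lit 47224020937) (nat_lit 152) (nat_lit 60593866501) (nat_lit 0) (nat_lit 46483665477) (nat_lit 165) (nat_lit 5) (nat_lit 167) (nat_lit 4) (nat_lit 165) (nat_lit 4) (nat_lit 345) (nat_lit 293) (nat_lit 262)) (XT.lf (nat_lit 0) (nat_lit 47266059139) (nat_lit 76) (nat_lit 61377545279)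 (nat_lit 76) (nat_lit 60635904703) (nat_lit 164) (nat_lit 4) (nat_lit 165) (nat_lit 5) (nat_lit 165) (nat_lit 4) (nat_lit 346) (nat_lit 293) (nat_lit 261)))))) (XT.nd (nat_lit 390) (nat_lit 304) (nat_lit 0) (XT.nd (nat_lit 156) (nat_lit 228) (nat_lit 0) (XT.nd (nat_lit 78) (nat_lit 152) (nat_lit 0) (XT.lf (nat_lit 0) (nat_lit 177728047558) (nat_lit 76) (nat_lit 4535386487) (nat_lit 76) (nat_lit 3792628420) (nat_lit 164) (nat_lit 4) (nat_lit 165) (nat_lit 5) (nat_lit 165) (nat_lit 4) (nat_lit 347) (nat_lit 293) (nat_lit 260)) (XT.lf (nat_lit 0) (nat_lit 64254497933) (nat_lit 152) (nat_lit 75880450597) (nat_lit 0) (nat_lit 63607776369) (nat_lit 162) (nat_lit 5) (nat_lit 164) (nat_lit 4) (nat_lit 162) (nat_lit 4) (nat_lit 348) (nat_lit 293) (nat_lit 259))) (XT.nd (nat_lit 78) (nat_lit 152) (nat_lit 0) (XT.lf (nat_lit 0) (nat_lit 66555449555) (nat_lit 76) (nat_lit 78828858553) (nat_lit 76) (nat_lit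 78181402220) (nat_lit 161) (nat_lit 4) (nat_lit 162) (nat_lit 5) (nat_lit 162) (nat_lit 4) (nat_lit 349) (nat_lit 293) (nat_lit 258)) (XT.nd (nat_lit 78) (nat_lit 152) (nat_lit 0) (XT.lf (nat_lit 0) (nat_lit 238548233606) (nat_lit 76) (nat_lit 3945259841) (nat_lit 76) (nat_lit 3297164579) (nat_lit 161) (nat_lit 4) (nat_lit 162) (nat_lit 5) (nat_lit 162) (nat_lit 4) (nat_lit 350) (nat_lit 293) (nat_lit 257)) (XT.lf (nat_lit 0) (nat_lit 86541726586) (nat_lit 152) (nat_lit 96651250641) (nat_lit 0) (nat_lit 85977682365) (nat_lit 159) (nat_lit 5) (nat_lit 161) (nat_lit 4) (nat_lit 159) (nat_lit 4) (nat_lit 351) (nat_lit 293) (nat_lit 256))))) (XT.nd (nat_lit 156) (nat_lit 228) (nat_lit 0) (XT.nd (nat_lit 78) (nat_lit 0) (nat_lit 0) (XT.lf (nat_lit 0) (nat_lit 91538585518) (nat_lit 76) (nat_lit 102212573900) (nat_lit 76) (nat_lit 101648109573) (nat_lit 158) (nat_lit 4) (nat_lit 159) (nat_lit 5) (nat_lit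 159) (nat_lit 4) (nat_lit 352) (nat_lit 293) (nat_lit 255)) (XT.lf (nat_lit 0) (nat_lit 318526611326) (nat_lit 76) (nat_lit 3431487204) (nat_lit 76) (nat_lit 2866657567) (nat_lit 158) (nat_lit 4) (nat_lit 159) (nat_lit 5) (nat_lit 159) (nat_lit 4) (nat_lit 353) (nat_lit 293) (nat_lit 254))) (XT.nd (nat_lit 78) (nat_lit 76) (nat_lit 0) (XT.lf (nat_lit 0) (nat_lit 115812036242) (nat_lit 152) (nat_lit 124602926725) (nat_lit 0) (nat_lit 115320603809) (nat_lit 156) (nat_lit 5) (nat_lit 158) (nat_lit 4) (nat_lit 156) (nat_lit 4) (nat_lit 354) (nat_lit 293) (nat_lit 253)) (XT.nd (nat_lit 78) (nat_lit 0) (nat_lit 0) (XT.lf (nat_lit 0) (nat_lit 124120164036) (nat_lit 76) (nat_lit 133402727149) (nat_lit 76) (nat_lit 132911054519) (nat_lit 155) (nat_lit 4) (nat_lit 156) (nat_lit 5) (nat_lit 156) (nat_lit 4) (nat_lit 355) (nat_lit 293) (nat_lit 252)) (XT.lf (nat_lit 0) (nat_lit 423900968734) (nat_lit 76) (nat_lit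 2984374455) (nat_lit 76) (nat_lit 2492492958) (nat_lit 155) (nat_lit 4) (nat_lit 156) (nat_lit 5) (nat_lit 156) (nat_lit 4) (nat_lit 356) (nat_lit 293) (nat_lit 251))))))))
noncomputable def xc30 : XT := (XT.nd (nat_lit 1560) (nat_lit 456) (nat_lit 0) (XT.nd (nat_lit 780) (nat_lit 760) (nat_lit 0) (XT.nd (nat_lit 390) (nat_lit 380) (nat_lit 0) (XT.nd (nat_lit 156) (nat_lit 228) (nat_lit 0) (XT.nd (nat_lit 78) (nat_lit 76) (nat_lit 0) (XT.lf (nat_lit 0) (nat_lit 154344322220) (nat_lit 152) (nat_lit 161988574814) (nat_lit 0) (nat_lit 153916441246) (nat_lit 153) (nat_lit 5) (nat_lit 155) (nat_lit 4) (nat_lit 153) (nat_lit 4) (nat_lit 357) (nat_lit 293) (nat_lit 250)) (XT.lf (nat_lit 0) (nat_lit 166810339231) (nat_lit 76) (nat_lit 174882610133) (nat_lit 76) (nat_lit 174454591825) (nat_lit 152) (nat_lit 4) (nat_lit 153) (nat_lit 5) (nat_lit 153) (nat_lit 4) (nat_lit 358) (nat_lit 293) (nat_lit 249)))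 (XT.nd (nat_lit 78) (nat_lit 228) (nat_lit 0) (XT.lf (nat_lit 0) (nat_lit 562913155909) (nat_lit 76) (nat_lit 2595378397) (nat_lit 76) (nat_lit 2167240668) (nat_lit 152) (nat_lit 4) (nat_lit 153) (nat_lit 5) (nat_lit 153) (nat_lit 4) (nat_lit 359) (nat_lit 293) (nat_lit 248)) (XT.nd (nat_lit 78) (nat_lit 76) (nat_lit 0) (XT.lf (nat_lit 0) (nat_lit 205148847855) (nat_lit 152) (nat_lit 211796024024) (nat_lit 0) (nat_lit 204776463879) (nat_lit 150) (nat_lit 5) (nat_lit 152) (nat_lit 4) (nat_lit 150) (nat_lit 4) (nat_lit 360) (nat_lit 293) (nat_lit 247)) (XT.lf (nat_lit 0) (nat_lit 222921078654) (nat_lit 76) (nat_lit 229940717319) (nat_lit 76) (nat_lit 229568254823) (nat_lit 149) (nat_lit 4) (nat_lit 150) (nat_lit 5) (nat_lit 150) (nat_lit 4) (nat_lit 361) (nat_lit 293) (nat_lit 246))))) (XT.nd (nat_lit 156) (nat_lit 228) (nat_lit 0) (XT.nd (nat_lit 78) (nat_lit 152) (nat_lit 0) (XT.lf (nat_lit 0)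 (nat_lit 746456343929) (nat_lit 76) (nat_lit 2257005253) (nat_lit 76) (nat_lit 1884474477) (nat_lit 149) (nat_lit 4) (nat_lit 150) (nat_lit 5) (nat_lit 150) (nat_lit 4) (nat_lit 362) (nat_lit 293) (nat_lit 245)) (XT.lf (nat_lit 0) (nat_lit 272203608485) (nat_lit 152) (nat_lit 277983761676) (nat_lit 0) (nat_lit 271879617051) (nat_lit 147) (nat_lit 5) (nat_lit 149) (nat_lit 4) (nat_lit 147) (nat_lit 4) (nat_lit 363) (nat_lit 293) (nat_lit 244))) (XT.nd (nat_lit 78) (nat_lit 152) (nat_lit 0) (XT.lf (nat_lit 0) (nat_lit 296825723960) (nat_lit 76) (nat_lit 302929913479) (nat_lit 76) (nat_lit 302605877151) (nat_lit 146) (nat_lit 4) (nat_lit 147) (nat_lit 5) (nat_lit 147) (nat_lit 4) (nat_lit 364) (nat_lit 293) (nat_lit 243)) (XT.nd (nat_lit 78) (nat_lit 152) (nat_lit 0) (XT.lf (nat_lit 0) (nat_lit 988930920563) (nat_lit 76) (nat_lit 1962701584) (nat_lit 76) (nat_lit 1638626217) (nat_lit 146) (nat_lit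 4) (nat_lit 147) (nat_lit 5) (nat_lit 147) (nat_lit 4) (nat_lit 365) (nat_lit 293) (nat_lit 242)) (XT.lf (nat_lit 0) (nat_lit 360766844448) (nat_lit 152) (nat_lit 365793064613) (nat_lit 0) (nat_lit 360485010261) (nat_lit 144) (nat_lit 5) (nat_lit 146) (nat_lit 4) (nat_lit 144) (nat_lit 4) (nat_lit 366) (nat_lit 293) (nat_lit 241)))))) (XT.nd (nat_lit 390) (nat_lit 456) (nat_lit 0) (XT.nd (nat_lit 156) (nat_lit 228) (nat_lit 0) (XT.nd (nat_lit 78) (nat_lit 0) (nat_lit 0) (XT.lf (nat_lit 0) (nat_lit 394302145455) (nat_lit 76) (nat_lit 399610225475) (nat_lit 76) (nat_lit 399328365621) (nat_lit 143) (nat_lit 4) (nat_lit 144) (nat_lit 5) (nat_lit 144) (nat_lit 4) (nat_lit 367) (nat_lit 293) (nat_lit 240)) (XT.lf (nat_lit 0) (nat_lit 1309376313316) (nat_lit 76) (nat_lit 1706747527) (nat_lit 76) (nat_lit 1424865352) (nat_lit 143) (nat_lit 4) (nat_lit 144) (nat_lit 5) (nat_lit 144) (nat_lit 4) (nat_lit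 368) (nat_lit 293) (nat_lit 239))) (XT.nd (nat_lit 78) (nat_lit 76) (nat_lit 0) (XT.lf (nat_lit 0) (nat_lit 477790277113) (nat_lit 152) (nat_lit 482160903344) (nat_lit 0) (nat_lit 477545145301) (nat_lit 141) (nat_lit 5) (nat_lit 143) (nat_lit 4) (nat_lit 141) (nat_lit 4) (nat_lit 369) (nat_lit 293) (nat_lit 238)) (XT.nd (nat_lit 78) (nat_lit 0) (nat_lit 0) (XT.lf (nat_lit 0) (nat_lit 522986458960) (nat_lit 76) (nat_lit 527602231680) (nat_lit 76) (nat_lit 527357085191) (nat_lit 140) (nat_lit 4) (nat_lit 141) (nat_lit 5) (nat_lit 141) (nat_lit 4) (nat_lit 370) (nat_lit 293) (nat_lit 237)) (XT.lf (nat_lit 0) (nat_lit 1732967734528) (nat_lit 76) (nat_lit 1484157157) (nat_lit 76) (nat_lit 1238997906) (nat_lit 140) (nat_lit 4) (nat_lit 141) (nat_lit 5) (nat_lit 141) (nat_lit 4) (nat_lit 371) (nat_lit 293) (nat_lit 236))))) (XT.nd (nat_lit 156) (nat_lit 228) (nat_lit 0) (XT.nd (nat_lit 78) (nat_lit 76)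 (nat_lit 0) (XT.lf (nat_lit 0) (nat_lit 632465562585) (nat_lit 152) (nat_lit 636266107134) (nat_lit 0) (nat_lit 632252370978) (nat_lit 138) (nat_lit 5) (nat_lit 140) (nat_lit 4) (nat_lit 138) (nat_lit 4) (nat_lit 372) (nat_lit 293) (nat_lit 235)) (XT.lf (nat_lit 0) (nat_lit 692972971913) (nat_lit 76) (nat_lit 696986716459) (nat_lit 76) (nat_lit 696773516461) (nat_lit 137) (nat_lit 4) (nat_lit 138) (nat_lit 5) (nat_lit 138) (nat_lit 4) (nat_lit 373) (nat_lit 293) (nat_lit 234))) (XT.nd (nat_lit 78) (nat_lit 228) (nat_lit 0) (XT.lf (nat_lit 0) (nat_lit 2292995545000) (nat_lit 76) (nat_lit 1290587948) (nat_lit 76) (nat_lit 1077380654) (nat_lit 137) (nat_lit 4) (nat_lit 138) (nat_lit 5) (nat_lit 138) (nat_lit 4) (nat_lit 374) (nat_lit 293) (nat_lit 233)) (XT.nd (nat_lit 78) (nat_lit 76) (nat_lit 0) (XT.lf (nat_lit 0) (nat_lit 836946934274) (nat_lit 152) (nat_lit 840251755621) (nat_lit 0) (nat_lit 836761531110)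 (nat_lit 135) (nat_lit 5) (nat_lit 137) (nat_lit 4) (nat_lit 135) (nat_lit 4) (nat_lit 375) (nat_lit 293) (nat_lit 232)) (XT.lf (nat_lit 0) (nat_lit 917607528142) (nat_lit 76) (nat_lit 921097757450) (nat_lit 76) (nat_lit 920912349488) (nat_lit 134) (nat_lit 4) (nat_lit 135) (nat_lit 5) (nat_lit 135) (nat_lit 4) (nat_lit 376) (nat_lit 293) (nat_lit 231))))))) (XT.nd (nat_lit 42120) (nat_lit 0) (nat_lit 4484) (XT.nd (nat_lit 390) (nat_lit 76) (nat_lit 0) (XT.nd (nat_lit 156) (nat_lit 228) (nat_lit 0) (XT.nd (nat_lit 78) (nat_lit 152) (nat_lit 0) (XT.lf (nat_lit 0) (nat_lit 3033482889749) (nat_lit 76) (nat_lit 1122259828) (nat_lit 76) (nat_lit 936847694) (nat_lit 134) (nat_lit 4) (nat_lit 135) (nat_lit 5) (nat_lit 135) (nat_lit 4) (nat_lit 377) (nat_lit 293) (nat_lit 230)) (XT.lf (nat_lit 0) (nat_lit 1107306861886) (nat_lit 152) (nat_lit 1110180619578) (nat_lit 0) (nat_lit 1107145630788) (nat_lit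 132) (nat_lit 5) (nat_lit 134) (nat_lit 4) (nat_lit 132) (nat_lit 4) (nat_lit 378) (nat_lit 293) (nat_lit 229))) (XT.nd (nat_lit 78) (nat_lit 152) (nat_lit 0) (XT.lf (nat_lit 0) (nat_lit 1214536632314) (nat_lit 76) (nat_lit 1217571623847) (nat_lit 76) (nat_lit 1217410390007) (nat_lit 131) (nat_lit 4) (nat_lit 132) (nat_lit 5) (nat_lit 132) (nat_lit 4) (nat_lit 379) (nat_lit 293) (nat_lit 228)) (XT.nd (nat_lit 78) (nat_lit 152) (nat_lit 0) (XT.lf (nat_lit 0) (nat_lit 4012647457211) (nat_lit 76) (nat_lit 975883508) (nat_lit 76) (nat_lit 814647282) (nat_lit 131) (nat_lit 4) (nat_lit 132) (nat_lit 5) (nat_lit 132) (nat_lit 4) (nat_lit 380) (nat_lit 293) (nat_lit 227)) (XT.lf (nat_lit 0) (nat_lit 1464799879892) (nat_lit 152) (nat_lit 1467298799625) (nat_lit 0) (nat_lit 1464659672675) (nat_lit 129) (nat_lit 5) (nat_lit 131) (nat_lit 4) (nat_lit 129) (nat_lit 4) (nat_lit 381) (nat_lit 293) (nat_lit 226)))))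 (XT.nd (nat_lit 41496) (nat_lit 0) (nat_lit 5472) (XT.nd (nat_lit 41418) (nat_lit 0) (nat_lit 5700) (XT.lf (nat_lit 0) (nat_lit 1607094852073) (nat_lit 76) (nat_lit 1609733980591) (nat_lit 76) (nat_lit 1609593771806) (nat_lit 128) (nat_lit 4) (nat_lit 129) (nat_lit 5) (nat_lit 129) (nat_lit 4) (nat_lit 382) (nat_lit 293) (nat_lit 225)) (XT.lf (nat_lit 0) (nat_lit 271853641) (nat_lit 152) (nat_lit 2331343409) (nat_lit 152) (nat_lit 2331343409) (nat_lit 203) (nat_lit 4) (nat_lit 205) (nat_lit 5) (nat_lit 205) (nat_lit 4) (nat_lit 312) (nat_lit 294) (nat_lit 294))) (XT.nd (nat_lit 78) (nat_lit 152) (nat_lit 0) (XT.lf (nat_lit 0) (nat_lit 247651350) (nat_lit 228) (nat_lit 159930181) (nat_lit 76) (nat_lit 10101453714) (nat_lit 202) (nat_lit 5) (nat_lit 205) (nat_lit 5) (nat_lit 203) (nat_lit 4) (nat_lit 313) (nat_lit 294) (nat_lit 293)) (XT.nd (nat_lit 78) (nat_lit 76) (nat_lit 0) (XT.lf (nat_lit 0)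 (nat_lit 5542045276) (nat_lit 152) (nat_lit 1234465226) (nat_lit 0) (nat_lit 4416436009) (nat_lit 201) (nat_lit 5) (nat_lit 203) (nat_lit 4) (nat_lit 201) (nat_lit 4) (nat_lit 314) (nat_lit 294) (nat_lit 292)) (XT.lf (nat_lit 0) (nat_lit 9576043197) (nat_lit 76) (nat_lit 1996486173) (nat_lit 76) (nat_lit 415625433) (nat_lit 200) (nat_lit 4) (nat_lit 201) (nat_lit 5) (nat_lit 201) (nat_lit 4) (nat_lit 315) (nat_lit 294) (nat_lit 291)))))) (XT.nd (nat_lit 390) (nat_lit 380) (nat_lit 0) (XT.nd (nat_lit 156) (nat_lit 380) (nat_lit 0) (XT.nd (nat_lit 78) (nat_lit 76) (nat_lit 0) (XT.lf (nat_lit 0) (nat_lit 5225421639) (nat_lit 152) (nat_lit 4117964205) (nat_lit 0) (nat_lit 3506524608) (nat_lit 198) (nat_lit 5) (nat_lit 200) (nat_lit 4) (nat_lit 198) (nat_lit 4) (nat_lit 316) (nat_lit 294) (nat_lit 290)) (XT.lf (nat_lit 0) (nat_lit 7649777957) (nat_lit 76) (nat_lit 4097422956) (nat_lit 76) (nat_lit 2079190692)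 (nat_lit 197) (nat_lit 4) (nat_lit 198) (nat_lit 5) (nat_lit 198) (nat_lit 4) (nat_lit 317) (nat_lit 294) (nat_lit 289))) (XT.nd (nat_lit 78) (nat_lit 228) (nat_lit 0) (XT.lf (nat_lit 0) (nat_lit 4026829076) (nat_lit 152) (nat_lit 8833583369) (nat_lit 0) (nat_lit 2045504057) (nat_lit 195) (nat_lit 5) (nat_lit 197) (nat_lit 4) (nat_lit 195) (nat_lit 4) (nat_lit 318) (nat_lit 294) (nat_lit 288)) (XT.nd (nat_lit 78) (nat_lit 152) (nat_lit 0) (XT.lf (nat_lit 0) (nat_lit 3871440126) (nat_lit 76) (nat_lit 7201808261) (nat_lit 76) (nat_lit 5023665467) (nat_lit 194) (nat_lit 4) (nat_lit 195) (nat_lit 5) (nat_lit 195) (nat_lit 4) (nat_lit 319) (nat_lit 294) (nat_lit 287)) (XT.lf (nat_lit 0) (nat_lit 1168744352) (nat_lit 76) (nat_lit 467550083) (nat_lit 152) (nat_lit 15807874792) (nat_lit 192) (nat_lit 5) (nat_lit 193) (nat_lit 5) (nat_lit 194) (nat_lit 4) (nat_lit 320) (nat_lit 294) (nat_lit 286))))) (XT.nd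 (nat_lit 156) (nat_lit 304) (nat_lit 0) (XT.nd (nat_lit 78) (nat_lit 76) (nat_lit 0) (XT.lf (nat_lit 0) (nat_lit 9302330304) (nat_lit 152) (nat_lit 2447028136) (nat_lit 0) (nat_lit 7130059695) (nat_lit 192) (nat_lit 5) (nat_lit 194) (nat_lit 4) (nat_lit 192) (nat_lit 4) (nat_lit 321) (nat_lit 294) (nat_lit 285)) (XT.lf (nat_lit 0) (nat_lit 13863717863) (nat_lit 76) (nat_lit 4460102967) (nat_lit 76) (nat_lit 2175301157) (nat_lit 191) (nat_lit 4) (nat_lit 192) (nat_lit 5) (nat_lit 192) (nat_lit 4) (nat_lit 322) (nat_lit 294) (nat_lit 284))) (XT.nd (nat_lit 78) (nat_lit 152) (nat_lit 0) (XT.lf (nat_lit 0) (nat_lit 6132816623) (nat_lit 152) (nat_lit 12074632684) (nat_lit 0) (nat_lit 4060942685) (nat_lit 189) (nat_lit 5) (nat_lit 191) (nat_lit 4) (nat_lit 189) (nat_lit 4) (nat_lit 323) (nat_lit 294) (nat_lit 283)) (XT.nd (nat_lit 78) (nat_lit 76) (nat_lit 0) (XT.lf (nat_lit 0) (nat_lit 5380704756) (nat_lit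 76) (nat_lit 10495458415) (nat_lit 76) (nat_lit 8349593385) (nat_lit 188) (nat_lit 4) (nat_lit 189) (nat_lit 5) (nat_lit 189) (nat_lit 4) (nat_lit 324) (nat_lit 294) (nat_lit 282)) (XT.lf (nat_lit 0) (nat_lit 825869921) (nat_lit 152) (nat_lit 434584777) (nat_lit 76) (nat_lit 25171210517) (nat_lit 187) (nat_lit 5) (nat_lit 189) (nat_lit 5) (nat_lit 188) (nat_lit 4) (nat_lit 325) (nat_lit 294) (nat_lit 281))))))))
noncomputable def xc31 : XT := (XT.nd (nat_lit 1560) (nat_lit 1596) (nat_lit 0) (XT.nd (nat_lit 780) (nat_lit 684) (nat_lit 0) (XT.nd (nat_lit 390) (nat_lit 456) (nat_lit 0) (XT.nd (nat_lit 156) (nat_lit 228) (nat_lit 0) (XT.nd (nat_lit 78) (nat_lit 76) (nat_lit 0) (XT.lf (nat_lit 0) (nat_lit 11513638652) (nat_lit 152) (nat_lit 7703486961) (nat_lit 0) (nat_lit 9543070821) (nat_lit 186) (nat_lit 5) (nat_lit 188) (nat_lit 4) (nat_lit 186) (nat_lit 4) (nat_lit 326) (nat_lit 294) (nat_lit 280))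 (XT.lf (nat_lit 0) (nat_lit 14951170776) (nat_lit 76) (nat_lit 9222195034) (nat_lit 76) (nat_lit 7209322557) (nat_lit 185) (nat_lit 4) (nat_lit 186) (nat_lit 5) (nat_lit 186) (nat_lit 4) (nat_lit 327) (nat_lit 294) (nat_lit 279))) (XT.nd (nat_lit 78) (nat_lit 76) (nat_lit 0) (XT.lf (nat_lit 0) (nat_lit 4458924288) (nat_lit 152) (nat_lit 27159418018) (nat_lit 0) (nat_lit 2676612005) (nat_lit 183) (nat_lit 5) (nat_lit 185) (nat_lit 4) (nat_lit 183) (nat_lit 4) (nat_lit 328) (nat_lit 294) (nat_lit 278)) (XT.nd (nat_lit 78) (nat_lit 76) (nat_lit 0) (XT.lf (nat_lit 0) (nat_lit 18145644239) (nat_lit 152) (nat_lit 2960454774) (nat_lit 0) (nat_lit 16335515963) (nat_lit 183) (nat_lit 5) (nat_lit 185) (nat_lit 4) (nat_lit 183) (nat_lit 4) (nat_lit 329) (nat_lit 294) (nat_lit 277)) (XT.lf (nat_lit 0) (nat_lit 26624564250) (nat_lit 76) (nat_lit 8074022222) (nat_lit 76) (nat_lit 6239706127) (nat_lit 182) (nat_lit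 4) (nat_lit 183) (nat_lit 5) (nat_lit 183) (nat_lit 4) (nat_lit 330) (nat_lit 294) (nat_lit 276))))) (XT.nd (nat_lit 156) (nat_lit 228) (nat_lit 0) (XT.nd (nat_lit 78) (nat_lit 76) (nat_lit 0) (XT.lf (nat_lit 0) (nat_lit 8881848895) (nat_lit 152) (nat_lit 28621408659) (nat_lit 0) (nat_lit 7268501955) (nat_lit 180) (nat_lit 5) (nat_lit 182) (nat_lit 4) (nat_lit 180) (nat_lit 4) (nat_lit 331) (nat_lit 294) (nat_lit 275)) (XT.lf (nat_lit 0) (nat_lit 2626335364) (nat_lit 76) (nat_lit 23995145953) (nat_lit 76) (nat_lit 22365895129) (nat_lit 179) (nat_lit 4) (nat_lit 180) (nat_lit 5) (nat_lit 180) (nat_lit 4) (nat_lit 332) (nat_lit 294) (nat_lit 274))) (XT.nd (nat_lit 78) (nat_lit 228) (nat_lit 0) (XT.lf (nat_lit 0) (nat_lit 41190909193) (nat_lit 76) (nat_lit 7052176479) (nat_lit 76) (nat_lit 5409096192) (nat_lit 179) (nat_lit 4) (nat_lit 180) (nat_lit 5) (nat_lit 180) (nat_lit 4) (nat_lit 333) (nat_lit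 294) (nat_lit 273)) (XT.nd (nat_lit 78) (nat_lit 76) (nat_lit 0) (XT.lf (nat_lit 0) (nat_lit 14326692571) (nat_lit 152) (nat_lit 31491527149) (nat_lit 0) (nat_lit 12887470042) (nat_lit 177) (nat_lit 5) (nat_lit 179) (nat_lit 4) (nat_lit 177) (nat_lit 4) (nat_lit 334) (nat_lit 294) (nat_lit 272)) (XT.lf (nat_lit 0) (nat_lit 9508784641) (nat_lit 76) (nat_lit 28121934846) (nat_lit 76) (nat_lit 26673619219) (nat_lit 176) (nat_lit 4) (nat_lit 177) (nat_lit 5) (nat_lit 177) (nat_lit 4) (nat_lit 335) (nat_lit 294) (nat_lit 271)))))) (XT.nd (nat_lit 390) (nat_lit 304) (nat_lit 0) (XT.nd (nat_lit 156) (nat_lit 228) (nat_lit 0) (XT.nd (nat_lit 78) (nat_lit 152) (nat_lit 0) (XT.lf (nat_lit 0) (nat_lit 59687474341) (nat_lit 76) (nat_lit 6150216155) (nat_lit 76) (nat_lit 4693993488) (nat_lit 176) (nat_lit 4) (nat_lit 177) (nat_lit 5) (nat_lit 177) (nat_lit 4) (nat_lit 336) (nat_lit 294) (nat_lit 270)) (XT.lf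 (nat_lit 0) (nat_lit 21182263879) (nat_lit 152) (nat_lit 36108206991) (nat_lit 0) (nat_lit 19910004440) (nat_lit 174) (nat_lit 5) (nat_lit 176) (nat_lit 4) (nat_lit 174) (nat_lit 4) (nat_lit 337) (nat_lit 294) (nat_lit 269))) (XT.nd (nat_lit 78) (nat_lit 152) (nat_lit 0) (XT.lf (nat_lit 0) (nat_lit 17831851381) (nat_lit 76) (nat_lit 34035252939) (nat_lit 76) (nat_lit 32757794492) (nat_lit 173) (nat_lit 4) (nat_lit 174) (nat_lit 5) (nat_lit 174) (nat_lit 4) (nat_lit 338) (nat_lit 294) (nat_lit 268)) (XT.nd (nat_lit 78) (nat_lit 152) (nat_lit 0) (XT.lf (nat_lit 0) (nat_lit 83476474304) (nat_lit 76) (nat_lit 5358242017) (nat_lit 76) (nat_lit 4076262693) (nat_lit 173) (nat_lit 4) (nat_lit 174) (nat_lit 5) (nat_lit 174) (nat_lit 4) (nat_lit 339) (nat_lit 294) (nat_lit 267)) (XT.lf (nat_lit 0) (nat_lit 29952259262) (nat_lit 152) (nat_lit 42931340228) (nat_lit 0) (nat_lit 28834076200) (nat_lit 171) (nat_lit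 5) (nat_lit 173) (nat_lit 4) (nat_lit 171) (nat_lit 4) (nat_lit 340) (nat_lit 294) (nat_lit 266))))) (XT.nd (nat_lit 156) (nat_lit 228) (nat_lit 0) (XT.nd (nat_lit 78) (nat_lit 0) (nat_lit 0) (XT.lf (nat_lit 0) (nat_lit 28158202076) (nat_lit 76) (nat_lit 42258438654) (nat_lit 76) (nat_lit 41137283043) (nat_lit 170) (nat_lit 4) (nat_lit 171) (nat_lit 5) (nat_lit 171) (nat_lit 4) (nat_lit 341) (nat_lit 294) (nat_lit 265)) (XT.lf (nat_lit 0) (nat_lit 114349387467) (nat_lit 76) (nat_lit 4665188759) (nat_lit 76) (nat_lit 3541448322) (nat_lit 170) (nat_lit 4) (nat_lit 171) (nat_lit 5) (nat_lit 171) (nat_lit 4) (nat_lit 342) (nat_lit 294) (nat_lit 264))) (XT.nd (nat_lit 78) (nat_lit 76) (nat_lit 0) (XT.lf (nat_lit 0) (nat_lit 41294873123) (nat_lit 152) (nat_lit 52581030485) (nat_lit 0) (nat_lit 40315753027) (nat_lit 168) (nat_lit 5) (nat_lit 170) (nat_lit 4) (nat_lit 168) (nat_lit 4) (nat_lit 343) (nat_lit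 294) (nat_lit 263)) (XT.nd (nat_lit 78) (nat_lit 0) (nat_lit 0) (XT.lf (nat_lit 0) (nat_lit 41220686797) (nat_lit 76) (nat_lit 53487663820) (nat_lit 76) (nat_lit 52506844159) (nat_lit 167) (nat_lit 4) (nat_lit 168) (nat_lit 5) (nat_lit 168) (nat_lit 4) (nat_lit 344) (nat_lit 294) (nat_lit 262)) (XT.lf (nat_lit 0) (nat_lit 154665717731) (nat_lit 76) (nat_lit 4060029418) (nat_lit 76) (nat_lit 3077731874) (nat_lit 167) (nat_lit 4) (nat_lit 168) (nat_lit 5) (nat_lit 168) (nat_lit 4) (nat_lit 345) (nat_lit 294) (nat_lit 261))))))) (XT.nd (nat_lit 780) (nat_lit 760) (nat_lit 0) (XT.nd (nat_lit 390) (nat_lit 380) (nat_lit 0) (XT.nd (nat_lit 156) (nat_lit 228) (nat_lit 0) (XT.nd (nat_lit 78) (nat_lit 76) (nat_lit 0) (XT.lf (nat_lit 0) (nat_lit 56074339318) (nat_lit 152) (nat_lit 65888389198) (nat_lit 0) (nat_lit 55219050050) (nat_lit 165) (nat_lit 5) (nat_lit 167) (nat_lit 4) (nat_lit 165) (nat_lit 4)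 (nat_lit 346) (nat_lit 294) (nat_lit 260)) (XT.lf (nat_lit 0) (nat_lit 57978045412) (nat_lit 76) (nat_lit 68648356292) (nat_lit 76) (nat_lit 67792095292) (nat_lit 164) (nat_lit 4) (nat_lit 165) (nat_lit 5) (nat_lit 165) (nat_lit 4) (nat_lit 347) (nat_lit 294) (nat_lit 259))) (XT.nd (nat_lit 78) (nat_lit 228) (nat_lit 0) (XT.lf (nat_lit 0) (nat_lit 207536887215) (nat_lit 76) (nat_lit 3532372044) (nat_lit 76) (nat_lit 2675266059) (nat_lit 164) (nat_lit 4) (nat_lit 165) (nat_lit 5) (nat_lit 165) (nat_lit 4) (nat_lit 348) (nat_lit 294) (nat_lit 258)) (XT.nd (nat_lit 78) (nat_lit 76) (nat_lit 0) (XT.lf (nat_lit 0) (nat_lit 75428579870) (nat_lit 152) (nat_lit 83962536288) (nat_lit 0) (nat_lit 74682631389) (nat_lit 162) (nat_lit 5) (nat_lit 164) (nat_lit 4) (nat_lit 162) (nat_lit 4) (nat_lit 349) (nat_lit 294) (nat_lit 257)) (XT.lf (nat_lit 0) (nat_lit 79688749711) (nat_lit 76) (nat_lit 88969210200) (nat_lit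 76) (nat_lit 88222706128) (nat_lit 161) (nat_lit 4) (nat_lit 162) (nat_lit 5) (nat_lit 162) (nat_lit 4) (nat_lit 350) (nat_lit 294) (nat_lit 256))))) (XT.nd (nat_lit 156) (nat_lit 228) (nat_lit 0) (XT.nd (nat_lit 78) (nat_lit 152) (nat_lit 0) (XT.lf (nat_lit 0) (nat_lit 277069584057) (nat_lit 76) (nat_lit 3072720874) (nat_lit 76) (nat_lit 2325733679) (nat_lit 161) (nat_lit 4) (nat_lit 162) (nat_lit 5) (nat_lit 162) (nat_lit 4) (nat_lit 351) (nat_lit 294) (nat_lit 255)) (XT.lf (nat_lit 0) (nat_lit 100858347331) (nat_lit 152) (nat_lit 108279178998) (nat_lit 0) (nat_lit 100208427939) (nat_lit 159) (nat_lit 5) (nat_lit 161) (nat_lit 4) (nat_lit 159) (nat_lit 4) (nat_lit 352) (nat_lit 294) (nat_lit 254))) (XT.nd (nat_lit 78) (nat_lit 152) (nat_lit 0) (XT.lf (nat_lit 0) (nat_lit 108008688983) (nat_lit 76) (nat_lit 116079757703) (nat_lit 76) (nat_lit 115429520650) (nat_lit 158) (nat_lit 4) (nat_lit 159)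 (nat_lit 5) (nat_lit 159) (nat_lit 4) (nat_lit 353) (nat_lit 294) (nat_lit 253)) (XT.nd (nat_lit 78) (nat_lit 152) (nat_lit 0) (XT.lf (nat_lit 0) (nat_lit 368687616623) (nat_lit 76) (nat_lit 2672556126) (nat_lit 76) (nat_lit 2022042847) (nat_lit 158) (nat_lit 4) (nat_lit 159) (nat_lit 5) (nat_lit 159) (nat_lit 4) (nat_lit 354) (nat_lit 294) (nat_lit 252)) (XT.lf (nat_lit 0) (nat_lit 134344905883) (nat_lit 152) (nat_lit 140797802985) (nat_lit 0) (nat_lit 133779033294) (nat_lit 156) (nat_lit 5) (nat_lit 158) (nat_lit 4) (nat_lit 156) (nat_lit 4) (nat_lit 355) (nat_lit 294) (nat_lit 251)))))) (XT.nd (nat_lit 390) (nat_lit 456) (nat_lit 0) (XT.nd (nat_lit 156) (nat_lit 228) (nat_lit 0) (XT.nd (nat_lit 78) (nat_lit 0) (nat_lit 0) (XT.lf (nat_lit 0) (nat_lit 145120316720) (nat_lit 76) (nat_lit 152139268034) (nat_lit 76) (nat_lit 151573213822) (nat_lit 155) (nat_lit 4) (nat_lit 156) (nat_lit 5) (nat_lit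 156) (nat_lit 4) (nat_lit 356) (nat_lit 294) (nat_lit 250)) (XT.lf (nat_lit 0) (nat_lit 489557529765) (nat_lit 76) (nat_lit 2324319156) (nat_lit 76) (nat_lit 1758107010) (nat_lit 155) (nat_lit 4) (nat_lit 156) (nat_lit 5) (nat_lit 156) (nat_lit 4) (nat_lit 357) (nat_lit 294) (nat_lit 249))) (XT.nd (nat_lit 78) (nat_lit 76) (nat_lit 0) (XT.lf (nat_lit 0) (nat_lit 178505523029) (nat_lit 152) (nat_lit 184116737900) (nat_lit 0) (nat_lit 178013045221) (nat_lit 153) (nat_lit 5) (nat_lit 155) (nat_lit 4) (nat_lit 153) (nat_lit 4) (nat_lit 358) (nat_lit 294) (nat_lit 248)) (XT.nd (nat_lit 78) (nat_lit 0) (nat_lit 0) (XT.lf (nat_lit 0) (nat_lit 193903371291) (nat_lit 76) (nat_lit 200007167814) (nat_lit 76) (nat_lit 199514586162) (nat_lit 152) (nat_lit 4) (nat_lit 153) (nat_lit 5) (nat_lit 153) (nat_lit 4) (nat_lit 359) (nat_lit 294) (nat_lit 247)) (XT.lf (nat_lit 0) (nat_lit 649151417274) (nat_lit 76) (nat_lit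 2021351383) (nat_lit 76) (nat_lit 1528679432) (nat_lit 152) (nat_lit 4) (nat_lit 153) (nat_lit 5) (nat_lit 153) (nat_lit 4) (nat_lit 360) (nat_lit 294) (nat_lit 246))))) (XT.nd (nat_lit 156) (nat_lit 228) (nat_lit 0) (XT.nd (nat_lit 78) (nat_lit 76) (nat_lit 0) (XT.lf (nat_lit 0) (nat_lit 236799007545) (nat_lit 152) (nat_lit 241678324825) (nat_lit 0) (nat_lit 236370528874) (nat_lit 150) (nat_lit 5) (nat_lit 152) (nat_lit 4) (nat_lit 150) (nat_lit 4) (nat_lit 361) (nat_lit 294) (nat_lit 245)) (XT.lf (nat_lit 0) (nat_lit 258160565854) (nat_lit 76) (nat_lit 263468421178) (nat_lit 76) (nat_lit 263039883134) (nat_lit 149) (nat_lit 4) (nat_lit 150) (nat_lit 5) (nat_lit 150) (nat_lit 4) (nat_lit 362) (nat_lit 294) (nat_lit 244))) (XT.nd (nat_lit 78) (nat_lit 228) (nat_lit 0) (XT.lf (nat_lit 0) (nat_lit 859991165433) (nat_lit 76) (nat_lit 1757813659) (nat_lit 76) (nat_lit 1329223986) (nat_lit 149) (nat_lit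 4) (nat_lit 150) (nat_lit 5) (nat_lit 150) (nat_lit 4) (nat_lit 363) (nat_lit 294) (nat_lit 243)) (XT.nd (nat_lit 78) (nat_lit 76) (nat_lit 0) (XT.lf (nat_lit 0) (nat_lit 313797459961) (nat_lit 152) (nat_lit 318040344552) (nat_lit 0) (nat_lit 313424734250) (nat_lit 147) (nat_lit 5) (nat_lit 149) (nat_lit 4) (nat_lit 147) (nat_lit 4) (nat_lit 364) (nat_lit 294) (nat_lit 242)) (XT.lf (nat_lit 0) (nat_lit 342915973867) (nat_lit 76) (nat_lit 347531618116) (nat_lit 76) (nat_lit 347158858458) (nat_lit 146) (nat_lit 4) (nat_lit 147) (nat_lit 5) (nat_lit 147) (nat_lit 4) (nat_lit 365) (nat_lit 294) (nat_lit 241))))))))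
noncomputable def xc32 : XT := (XT.nd (nat_lit 42666) (nat_lit 0) (nat_lit 4028) (XT.nd (nat_lit 702) (nat_lit 608) (nat_lit 0) (XT.nd (nat_lit 312) (nat_lit 456) (nat_lit 0) (XT.nd (nat_lit 156) (nat_lit 76) (nat_lit 0) (XT.nd (nat_lit 78) (nat_lit 152) (nat_lit 0) (XT.lf (nat_lit 0) (nat_lit 1138632638049) (nat_lit 76) (nat_lit 1528600400) (nat_lit 76) (nat_lit 1155811223) (nat_lit 146) (nat_lit 4) (nat_lit 147) (nat_lit 5) (nat_lit 147) (nat_lit 4) (nat_lit 366) (nat_lit 294) (nat_lit 240)) (XT.lf (nat_lit 0) (nat_lit 415545606301) (nat_lit 152) (nat_lit 419235071163) (nat_lit 0) (nat_lit 415221419479) (nat_lit 144) (nat_lit 5) (nat_lit 146) (nat_lit 4) (nat_lit 144) (nat_lit 4) (nat_lit 367) (nat_lit 294) (nat_lit 239))) (XT.nd (nat_lit 78) (nat_lit 0) (nat_lit 0) (XT.lf (nat_lit 0) (nat_lit 454809558909) (nat_lit 76) (nat_lit 458823230002) (nat_lit 76) (nat_lit 458499023771) (nat_lit 143)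 (nat_lit 4) (nat_lit 144) (nat_lit 5) (nat_lit 144) (nat_lit 4) (nat_lit 368) (nat_lit 294) (nat_lit 238)) (XT.lf (nat_lit 0) (nat_lit 1506967187823) (nat_lit 76) (nat_lit 1329255922) (nat_lit 76) (nat_lit 1005032814) (nat_lit 143) (nat_lit 4) (nat_lit 144) (nat_lit 5) (nat_lit 144) (nat_lit 4) (nat_lit 369) (nat_lit 294) (nat_lit 237)))) (XT.nd (nat_lit 156) (nat_lit 228) (nat_lit 0) (XT.nd (nat_lit 78) (nat_lit 76) (nat_lit 0) (XT.lf (nat_lit 0) (nat_lit 550035972384) (nat_lit 152) (nat_lit 553244202698) (nat_lit 0) (nat_lit 549754026484) (nat_lit 141) (nat_lit 5) (nat_lit 143) (nat_lit 4) (nat_lit 141) (nat_lit 4) (nat_lit 370) (nat_lit 294) (nat_lit 236)) (XT.lf (nat_lit 0) (nat_lit 602618862309) (nat_lit 76) (nat_lit 606109049620) (nat_lit 76) (nat_lit 605827092623) (nat_lit 140) (nat_lit 4) (nat_lit 141) (nat_lit 5) (nat_lit 141) (nat_lit 4) (nat_lit 371) (nat_lit 294) (nat_lit 235))) (XT.nd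 (nat_lit 78) (nat_lit 228) (nat_lit 0) (XT.lf (nat_lit 0) (nat_lit 1993942837754) (nat_lit 76) (nat_lit 1155896547) (nat_lit 76) (nat_lit 873929900) (nat_lit 140) (nat_lit 4) (nat_lit 141) (nat_lit 5) (nat_lit 141) (nat_lit 4) (nat_lit 372) (nat_lit 294) (nat_lit 234)) (XT.nd (nat_lit 78) (nat_lit 76) (nat_lit 0) (XT.lf (nat_lit 0) (nat_lit 727837265569) (nat_lit 152) (nat_lit 730627031060) (nat_lit 0) (nat_lit 727592069884) (nat_lit 138) (nat_lit 5) (nat_lit 140) (nat_lit 4) (nat_lit 138) (nat_lit 4) (nat_lit 373) (nat_lit 294) (nat_lit 233)) (XT.lf (nat_lit 0) (nat_lit 797948864746) (nat_lit 76) (nat_lit 800983832267) (nat_lit 76) (nat_lit 800738630237) (nat_lit 137) (nat_lit 4) (nat_lit 138) (nat_lit 5) (nat_lit 138) (nat_lit 4) (nat_lit 374) (nat_lit 294) (nat_lit 232)))))) (XT.nd (nat_lit 390) (nat_lit 228) (nat_lit 0) (XT.nd (nat_lit 156) (nat_lit 228) (nat_lit 0) (XT.nd (nat_lit 78) (nat_lit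 152) (nat_lit 0) (XT.lf (nat_lit 0) (nat_lit 2637840482877) (nat_lit 76) (nat_lit 1005139914) (nat_lit 76) (nat_lit 759932367) (nat_lit 137) (nat_lit 4) (nat_lit 138) (nat_lit 5) (nat_lit 138) (nat_lit 4) (nat_lit 375) (nat_lit 294) (nat_lit 231)) (XT.lf (nat_lit 0) (nat_lit 962925379495) (nat_lit 152) (nat_lit 965351262530) (nat_lit 0) (nat_lit 962712151369) (nat_lit 135) (nat_lit 5) (nat_lit 137) (nat_lit 4) (nat_lit 135) (nat_lit 4) (nat_lit 376) (nat_lit 294) (nat_lit 230))) (XT.nd (nat_lit 78) (nat_lit 152) (nat_lit 0) (XT.lf (nat_lit 0) (nat_lit 1056144265777) (nat_lit 76) (nat_lit 1058783380566) (nat_lit 76) (nat_lit 1058570148812) (nat_lit 134) (nat_lit 4) (nat_lit 135) (nat_lit 5) (nat_lit 135) (nat_lit 4) (nat_lit 377) (nat_lit 294) (nat_lit 229)) (XT.nd (nat_lit 78) (nat_lit 152) (nat_lit 0) (XT.lf (nat_lit 0) (nat_lit 3489284113137) (nat_lit 76) (nat_lit 874041844) (nat_lit 76) (nat_lit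 660806936) (nat_lit 134) (nat_lit 4) (nat_lit 135) (nat_lit 5) (nat_lit 135) (nat_lit 4) (nat_lit 378) (nat_lit 294) (nat_lit 228)) (XT.lf (nat_lit 0) (nat_lit 1273782372477) (nat_lit 152) (nat_lit 1275891835986) (nat_lit 0) (nat_lit 1273596948432) (nat_lit 132) (nat_lit 5) (nat_lit 134) (nat_lit 4) (nat_lit 132) (nat_lit 4) (nat_lit 379) (nat_lit 294) (nat_lit 227))))) (XT.nd (nat_lit 156) (nat_lit 152) (nat_lit 0) (XT.nd (nat_lit 78) (nat_lit 0) (nat_lit 0) (XT.lf (nat_lit 0) (nat_lit 1397495918394) (nat_lit 76) (nat_lit 1399790808022) (nat_lit 76) (nat_lit 1399605381903) (nat_lit 131) (nat_lit 4) (nat_lit 132) (nat_lit 5) (nat_lit 132) (nat_lit 4) (nat_lit 380) (nat_lit 294) (nat_lit 226)) (XT.lf (nat_lit 0) (nat_lit 4615221785560) (nat_lit 76) (nat_lit 760040467) (nat_lit 76) (nat_lit 574612544) (nat_lit 131) (nat_lit 4) (nat_lit 132) (nat_lit 5) (nat_lit 132) (nat_lit 4) (nat_lit 381) (nat_lit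 294) (nat_lit 225))) (XT.nd (nat_lit 41262) (nat_lit 0) (nat_lit 5776) (XT.lf (nat_lit 0) (nat_lit 1684849844839) (nat_lit 152) (nat_lit 1686684160934) (nat_lit 0) (nat_lit 1684688601804) (nat_lit 129) (nat_lit 5) (nat_lit 131) (nat_lit 4) (nat_lit 129) (nat_lit 4) (nat_lit 382) (nat_lit 294) (nat_lit 224)) (XT.nd (nat_lit 78) (nat_lit 152) (nat_lit 0) (XT.lf (nat_lit 0) (nat_lit 1074253656) (nat_lit 152) (nat_lit 1662968535) (nat_lit 152) (nat_lit 1662968535) (nat_lit 207) (nat_lit 4) (nat_lit 209) (nat_lit 5) (nat_lit 209) (nat_lit 4) (nat_lit 310) (nat_lit 295) (nat_lit 295)) (XT.lf (nat_lit 0) (nat_lit 1043889021) (nat_lit 152) (nat_lit 8036073391) (nat_lit 0) (nat_lit 247651350) (nat_lit 205) (nat_lit 5) (nat_lit 207) (nat_lit 4) (nat_lit 205) (nat_lit 4) (nat_lit 311) (nat_lit 295) (nat_lit 294))))))) (XT.nd (nat_lit 780) (nat_lit 760) (nat_lit 0) (XT.nd (nat_lit 390) (nat_lit 456) (nat_lit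 0) (XT.nd (nat_lit 156) (nat_lit 304) (nat_lit 0) (XT.nd (nat_lit 78) (nat_lit 76) (nat_lit 0) (XT.lf (nat_lit 0) (nat_lit 101126050) (nat_lit 152) (nat_lit 5647348364) (nat_lit 152) (nat_lit 4158730108) (nat_lit 203) (nat_lit 4) (nat_lit 205) (nat_lit 5) (nat_lit 205) (nat_lit 4) (nat_lit 312) (nat_lit 295) (nat_lit 293)) (XT.lf (nat_lit 0) (nat_lit 475211836) (nat_lit 228) (nat_lit 1068982879) (nat_lit 76) (nat_lit 9034563543) (nat_lit 202) (nat_lit 5) (nat_lit 205) (nat_lit 5) (nat_lit 203) (nat_lit 4) (nat_lit 313) (nat_lit 295) (nat_lit 292))) (XT.nd (nat_lit 78) (nat_lit 228) (nat_lit 0) (XT.lf (nat_lit 0) (nat_lit 5454713660) (nat_lit 152) (nat_lit 2673717344) (nat_lit 0) (nat_lit 3181472336) (nat_lit 201) (nat_lit 5) (nat_lit 203) (nat_lit 4) (nat_lit 201) (nat_lit 4) (nat_lit 314) (nat_lit 295) (nat_lit 291)) (XT.nd (nat_lit 78) (nat_lit 152) (nat_lit 0) (XT.lf (nat_lit 0) (nat_lit 7600505052)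 (nat_lit 76) (nat_lit 3607638445) (nat_lit 76) (nat_lit 938526275) (nat_lit 200) (nat_lit 4) (nat_lit 201) (nat_lit 5) (nat_lit 201) (nat_lit 4) (nat_lit 315) (nat_lit 295) (nat_lit 290)) (XT.lf (nat_lit 0) (nat_lit 4363622522) (nat_lit 152) (nat_lit 6962548124) (nat_lit 0) (nat_lit 1743320185) (nat_lit 198) (nat_lit 5) (nat_lit 200) (nat_lit 4) (nat_lit 198) (nat_lit 4) (nat_lit 316) (nat_lit 295) (nat_lit 289))))) (XT.nd (nat_lit 156) (nat_lit 228) (nat_lit 0) (XT.nd (nat_lit 78) (nat_lit 152) (nat_lit 0) (XT.lf (nat_lit 0) (nat_lit 4124481667) (nat_lit 76) (nat_lit 6426149851) (nat_lit 76) (nat_lit 3545556006) (nat_lit 197) (nat_lit 4) (nat_lit 198) (nat_lit 5) (nat_lit 198) (nat_lit 4) (nat_lit 317) (nat_lit 295) (nat_lit 288)) (XT.lf (nat_lit 0) (nat_lit 1675440299) (nat_lit 76) (nat_lit 548919972) (nat_lit 152) (nat_lit 13030457430) (nat_lit 195) (nat_lit 5) (nat_lit 196) (nat_lit 5) (nat_lit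 197) (nat_lit 4) (nat_lit 318) (nat_lit 295) (nat_lit 287))) (XT.nd (nat_lit 78) (nat_lit 228) (nat_lit 0) (XT.lf (nat_lit 0) (nat_lit 8903191652) (nat_lit 152) (nat_lit 1567397820) (nat_lit 0) (nat_lit 6030363773) (nat_lit 195) (nat_lit 5) (nat_lit 197) (nat_lit 4) (nat_lit 195) (nat_lit 4) (nat_lit 319) (nat_lit 295) (nat_lit 286)) (XT.nd (nat_lit 78) (nat_lit 152) (nat_lit 0) (XT.lf (nat_lit 0) (nat_lit 12652869061) (nat_lit 76) (nat_lit 4136017327) (nat_lit 76) (nat_lit 1114366934) (nat_lit 194) (nat_lit 4) (nat_lit 195) (nat_lit 5) (nat_lit 195) (nat_lit 4) (nat_lit 320) (nat_lit 295) (nat_lit 285)) (XT.lf (nat_lit 0) (nat_lit 6067196809) (nat_lit 152) (nat_lit 10038635546) (nat_lit 0) (nat_lit 3327143526) (nat_lit 192) (nat_lit 5) (nat_lit 194) (nat_lit 4) (nat_lit 192) (nat_lit 4) (nat_lit 321) (nat_lit 295) (nat_lit 284)))))) (XT.nd (nat_lit 390) (nat_lit 304) (nat_lit 0) (XT.nd (nat_lit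 156) (nat_lit 228) (nat_lit 0) (XT.nd (nat_lit 78) (nat_lit 152) (nat_lit 0) (XT.lf (nat_lit 0) (nat_lit 5173296603) (nat_lit 76) (nat_lit 9397487554) (nat_lit 76) (nat_lit 6559581052) (nat_lit 191) (nat_lit 4) (nat_lit 192) (nat_lit 5) (nat_lit 192) (nat_lit 4) (nat_lit 322) (nat_lit 295) (nat_lit 283)) (XT.lf (nat_lit 0) (nat_lit 15102035) (nat_lit 76) (nat_lit 1351455309) (nat_lit 152) (nat_lit 21676154166) (nat_lit 189) (nat_lit 5) (nat_lit 190) (nat_lit 5) (nat_lit 191) (nat_lit 4) (nat_lit 323) (nat_lit 295) (nat_lit 282))) (XT.nd (nat_lit 78) (nat_lit 228) (nat_lit 0) (XT.lf (nat_lit 0) (nat_lit 10674683998) (nat_lit 152) (nat_lit 6322067017) (nat_lit 0) (nat_lit 8068608043) (nat_lit 189) (nat_lit 5) (nat_lit 191) (nat_lit 4) (nat_lit 189) (nat_lit 4) (nat_lit 324) (nat_lit 295) (nat_lit 281)) (XT.nd (nat_lit 78) (nat_lit 152) (nat_lit 0) (XT.lf (nat_lit 0) (nat_lit 13407763740) (nat_lit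 76) (nat_lit 8298304063) (nat_lit 76) (nat_lit 5636280213) (nat_lit 188) (nat_lit 4) (nat_lit 189) (nat_lit 5) (nat_lit 189) (nat_lit 4) (nat_lit 325) (nat_lit 295) (nat_lit 280)) (XT.lf (nat_lit 0) (nat_lit 4463583508) (nat_lit 152) (nat_lit 23299281013) (nat_lit 0) (nat_lit 2106475512) (nat_lit 186) (nat_lit 5) (nat_lit 188) (nat_lit 4) (nat_lit 186) (nat_lit 4) (nat_lit 326) (nat_lit 295) (nat_lit 279))))) (XT.nd (nat_lit 156) (nat_lit 228) (nat_lit 0) (XT.nd (nat_lit 78) (nat_lit 76) (nat_lit 0) (XT.lf (nat_lit 0) (nat_lit 16369078745) (nat_lit 152) (nat_lit 2260703909) (nat_lit 0) (nat_lit 13975184101) (nat_lit 186) (nat_lit 5) (nat_lit 188) (nat_lit 4) (nat_lit 186) (nat_lit 4) (nat_lit 327) (nat_lit 295) (nat_lit 278)) (XT.lf (nat_lit 0) (nat_lit 23492229485) (nat_lit 76) (nat_lit 7288286676) (nat_lit 76) (nat_lit 4862403640) (nat_lit 185) (nat_lit 4) (nat_lit 186) (nat_lit 5) (nat_lit 186)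 (nat_lit 4) (nat_lit 328) (nat_lit 295) (nat_lit 277))) (XT.nd (nat_lit 78) (nat_lit 76) (nat_lit 0) (XT.lf (nat_lit 0) (nat_lit 8242268517) (nat_lit 152) (nat_lit 24621135913) (nat_lit 0) (nat_lit 6108617189) (nat_lit 183) (nat_lit 5) (nat_lit 185) (nat_lit 4) (nat_lit 183) (nat_lit 4) (nat_lit 329) (nat_lit 295) (nat_lit 276)) (XT.nd (nat_lit 78) (nat_lit 0) (nat_lit 0) (XT.lf (nat_lit 0) (nat_lit 2574402759) (nat_lit 76) (nat_lit 21107954370) (nat_lit 76) (nat_lit 18953270156) (nat_lit 182) (nat_lit 4) (nat_lit 183) (nat_lit 5) (nat_lit 183) (nat_lit 4) (nat_lit 330) (nat_lit 295) (nat_lit 275)) (XT.lf (nat_lit 0) (nat_lit 36106631929) (nat_lit 76) (nat_lit 6379018427) (nat_lit 76) (nat_lit 4206044746) (nat_lit 182) (nat_lit 4) (nat_lit 183) (nat_lit 5) (nat_lit 183) (nat_lit 4) (nat_lit 331) (nat_lit 295) (nat_lit 274))))))))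
noncomputable def xc33 : XT := (XT.nd (nat_lit 1560) (nat_lit 1520) (nat_lit 0) (XT.nd (nat_lit 780) (nat_lit 760) (nat_lit 0) (XT.nd (nat_lit 390) (nat_lit 380) (nat_lit 0) (XT.nd (nat_lit 156) (nat_lit 228) (nat_lit 0) (XT.nd (nat_lit 78) (nat_lit 76) (nat_lit 0) (XT.lf (nat_lit 0) (nat_lit 12914451040) (nat_lit 152) (nat_lit 27156944428) (nat_lit 0) (nat_lit 11011079245) (nat_lit 180) (nat_lit 5) (nat_lit 182) (nat_lit 4) (nat_lit 180) (nat_lit 4) (nat_lit 332) (nat_lit 295) (nat_lit 273)) (XT.lf (nat_lit 0) (nat_lit 8516248675) (nat_lit 76) (nat_lit 24674139479) (nat_lit 76) (nat_lit 22758742063) (nat_lit 179) (nat_lit 4) (nat_lit 180) (nat_lit 5) (nat_lit 180) (nat_lit 4) (nat_lit 333) (nat_lit 295) (nat_lit 272))) (XT.nd (nat_lit 78) (nat_lit 228) (nat_lit 0) (XT.lf (nat_lit 0) (nat_lit 52148643838) (nat_lit 76) (nat_lit 5570630459) (nat_lit 76) (nat_lit 3644775981) (nat_lit 179) (nat_lit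 4) (nat_lit 180) (nat_lit 5) (nat_lit 180) (nat_lit 4) (nat_lit 334) (nat_lit 295) (nat_lit 271)) (XT.nd (nat_lit 78) (nat_lit 76) (nat_lit 0) (XT.lf (nat_lit 0) (nat_lit 18819264744) (nat_lit 152) (nat_lit 31204041604) (nat_lit 0) (nat_lit 17136701636) (nat_lit 177) (nat_lit 5) (nat_lit 179) (nat_lit 4) (nat_lit 177) (nat_lit 4) (nat_lit 335) (nat_lit 295) (nat_lit 270)) (XT.lf (nat_lit 0) (nat_lit 15718534473) (nat_lit 76) (nat_lit 29792750129) (nat_lit 76) (nat_lit 28103311332) (nat_lit 176) (nat_lit 4) (nat_lit 177) (nat_lit 5) (nat_lit 177) (nat_lit 4) (nat_lit 336) (nat_lit 295) (nat_lit 269))))) (XT.nd (nat_lit 156) (nat_lit 228) (nat_lit 0) (XT.nd (nat_lit 78) (nat_lit 152) (nat_lit 0) (XT.lf (nat_lit 0) (nat_lit 72800101697) (nat_lit 76) (nat_lit 4857552975) (nat_lit 76) (nat_lit 3162135319) (nat_lit 176) (nat_lit 4) (nat_lit 177) (nat_lit 5) (nat_lit 177) (nat_lit 4) (nat_lit 337) (nat_lit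 295) (nat_lit 268)) (XT.lf (nat_lit 0) (nat_lit 26394893029) (nat_lit 152) (nat_lit 37164264211) (nat_lit 0) (nat_lit 24916095931) (nat_lit 174) (nat_lit 5) (nat_lit 176) (nat_lit 4) (nat_lit 174) (nat_lit 4) (nat_lit 338) (nat_lit 295) (nat_lit 267))) (XT.nd (nat_lit 78) (nat_lit 152) (nat_lit 0) (XT.lf (nat_lit 0) (nat_lit 24668613196) (nat_lit 76) (nat_lit 36920712674) (nat_lit 76) (nat_lit 35437984378) (nat_lit 173) (nat_lit 4) (nat_lit 174) (nat_lit 5) (nat_lit 174) (nat_lit 4) (nat_lit 339) (nat_lit 295) (nat_lit 266)) (XT.nd (nat_lit 78) (nat_lit 152) (nat_lit 0) (XT.lf (nat_lit 0) (nat_lit 99617062066) (nat_lit 76) (nat_lit 4231692922) (nat_lit 76) (nat_lit 2745546195) (nat_lit 173) (nat_lit 4) (nat_lit 174) (nat_lit 5) (nat_lit 174) (nat_lit 4) (nat_lit 340) (nat_lit 295) (nat_lit 265)) (XT.lf (nat_lit 0) (nat_lit 36213430953) (nat_lit 152) (nat_lit 45578101546) (nat_lit 0) (nat_lit 34918544625)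 (nat_lit 171) (nat_lit 5) (nat_lit 173) (nat_lit 4) (nat_lit 171) (nat_lit 4) (nat_lit 341) (nat_lit 295) (nat_lit 264)))))) (XT.nd (nat_lit 390) (nat_lit 456) (nat_lit 0) (XT.nd (nat_lit 156) (nat_lit 228) (nat_lit 0) (XT.nd (nat_lit 78) (nat_lit 0) (nat_lit 0) (XT.lf (nat_lit 0) (nat_lit 36002465754) (nat_lit 76) (nat_lit 46664270349) (nat_lit 76) (nat_lit 45367136347) (nat_lit 170) (nat_lit 4) (nat_lit 171) (nat_lit 5) (nat_lit 171) (nat_lit 4) (nat_lit 342) (nat_lit 295) (nat_lit 263)) (XT.lf (nat_lit 0) (nat_lit 134650085470) (nat_lit 76) (nat_lit 3684154809) (nat_lit 76) (nat_lit 2385066307) (nat_lit 170) (nat_lit 4) (nat_lit 171) (nat_lit 5) (nat_lit 171) (nat_lit 4) (nat_lit 343) (nat_lit 295) (nat_lit 262))) (XT.nd (nat_lit 78) (nat_lit 76) (nat_lit 0) (XT.lf (nat_lit 0) (nat_lit 49025936185) (nat_lit 152) (nat_lit 57169128005) (nat_lit 0) (nat_lit 47894816127) (nat_lit 168) (nat_lit 5)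 (nat_lit 170) (nat_lit 4) (nat_lit 168) (nat_lit 4) (nat_lit 344) (nat_lit 295) (nat_lit 261)) (XT.nd (nat_lit 78) (nat_lit 0) (nat_lit 0) (XT.lf (nat_lit 0) (nat_lit 50552889731) (nat_lit 76) (nat_lit 59828486724) (nat_lit 76) (nat_lit 58696081551) (nat_lit 167) (nat_lit 4) (nat_lit 168) (nat_lit 5) (nat_lit 168) (nat_lit 4) (nat_lit 345) (nat_lit 295) (nat_lit 260)) (XT.lf (nat_lit 0) (nat_lit 180603923143) (nat_lit 76) (nat_lit 3206141075) (nat_lit 76) (nat_lit 2072618410) (nat_lit 167) (nat_lit 4) (nat_lit 168) (nat_lit 5) (nat_lit 168) (nat_lit 4) (nat_lit 346) (nat_lit 295) (nat_lit 259))))) (XT.nd (nat_lit 156) (nat_lit 228) (nat_lit 0) (XT.nd (nat_lit 78) (nat_lit 76) (nat_lit 0) (XT.lf (nat_lit 0) (nat_lit 65821380757) (nat_lit 152) (nat_lit 72902417122) (nat_lit 0) (nat_lit 64834863891) (nat_lit 165) (nat_lit 5) (nat_lit 167) (nat_lit 4) (nat_lit 165) (nat_lit 4) (nat_lit 347) (nat_lit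 295) (nat_lit 258)) (XT.lf (nat_lit 0) (nat_lit 69413563113) (nat_lit 76) (nat_lit 77481851114) (nat_lit 76) (nat_lit 76494599478) (nat_lit 164) (nat_lit 4) (nat_lit 165) (nat_lit 5) (nat_lit 165) (nat_lit 4) (nat_lit 348) (nat_lit 295) (nat_lit 257))) (XT.nd (nat_lit 78) (nat_lit 228) (nat_lit 0) (XT.lf (nat_lit 0) (nat_lit 241048994984) (nat_lit 76) (nat_lit 2789394266) (nat_lit 76) (nat_lit 1801503701) (nat_lit 164) (nat_lit 4) (nat_lit 165) (nat_lit 5) (nat_lit 165) (nat_lit 4) (nat_lit 349) (nat_lit 295) (nat_lit 256)) (XT.nd (nat_lit 78) (nat_lit 76) (nat_lit 0) (XT.lf (nat_lit 0) (nat_lit 87904233389) (nat_lit 152) (nat_lit 94061656315) (nat_lit 0) (nat_lit 87044714993) (nat_lit 162) (nat_lit 5) (nat_lit 164) (nat_lit 4) (nat_lit 162) (nat_lit 4) (nat_lit 350) (nat_lit 295) (nat_lit 255)) (XT.lf (nat_lit 0) (nat_lit 94023901655) (nat_lit 76) (nat_lit 101041263083) (nat_lit 76) (nat_lit 100181324581)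 (nat_lit 161) (nat_lit 4) (nat_lit 162) (nat_lit 5) (nat_lit 162) (nat_lit 4) (nat_lit 351) (nat_lit 295) (nat_lit 254))))))) (XT.nd (nat_lit 780) (nat_lit 836) (nat_lit 0) (XT.nd (nat_lit 390) (nat_lit 304) (nat_lit 0) (XT.nd (nat_lit 156) (nat_lit 228) (nat_lit 0) (XT.nd (nat_lit 78) (nat_lit 152) (nat_lit 0) (XT.lf (nat_lit 0) (nat_lit 320701186437) (nat_lit 76) (nat_lit 2426386703) (nat_lit 76) (nat_lit 1566082891) (nat_lit 161) (nat_lit 4) (nat_lit 162) (nat_lit 5) (nat_lit 162) (nat_lit 4) (nat_lit 352) (nat_lit 295) (nat_lit 253)) (XT.lf (nat_lit 0) (nat_lit 116996824767) (nat_lit 152) (nat_lit 122351105572) (nat_lit 0) (nat_lit 116248458268) (nat_lit 159) (nat_lit 5) (nat_lit 161) (nat_lit 4) (nat_lit 159) (nat_lit 4) (nat_lit 353) (nat_lit 295) (nat_lit 252))) (XT.nd (nat_lit 78) (nat_lit 152) (nat_lit 0) (XT.lf (nat_lit 0) (nat_lit 126281308503) (nat_lit 76) (nat_lit 132384196004) (nat_lit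 76) (nat_lit 131635589308) (nat_lit 158) (nat_lit 4) (nat_lit 159) (nat_lit 5) (nat_lit 159) (nat_lit 4) (nat_lit 354) (nat_lit 295) (nat_lit 251)) (XT.nd (nat_lit 78) (nat_lit 152) (nat_lit 0) (XT.lf (nat_lit 0) (nat_lit 425791903614) (nat_lit 76) (nat_lit 2110374019) (nat_lit 76) (nat_lit 1361558457) (nat_lit 158) (nat_lit 4) (nat_lit 159) (nat_lit 5) (nat_lit 159) (nat_lit 4) (nat_lit 355) (nat_lit 295) (nat_lit 250)) (XT.lf (nat_lit 0) (nat_lit 155374573111) (nat_lit 152) (nat_lit 160030469464) (nat_lit 0) (nat_lit 154723271210) (nat_lit 156) (nat_lit 5) (nat_lit 158) (nat_lit 4) (nat_lit 156) (nat_lit 4) (nat_lit 356) (nat_lit 295) (nat_lit 249))))) (XT.nd (nat_lit 156) (nat_lit 228) (nat_lit 0) (XT.nd (nat_lit 78) (nat_lit 0) (nat_lit 0) (XT.lf (nat_lit 0) (nat_lit 168689595289) (nat_lit 76) (nat_lit 173996930876) (nat_lit 76) (nat_lit 173345491642) (nat_lit 155) (nat_lit 4) (nat_lit 156)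 (nat_lit 5) (nat_lit 156) (nat_lit 4) (nat_lit 357) (nat_lit 295) (nat_lit 248)) (XT.lf (nat_lit 0) (nat_lit 564557447109) (nat_lit 76) (nat_lit 1835378018) (nat_lit 76) (nat_lit 1183819363) (nat_lit 155) (nat_lit 4) (nat_lit 156) (nat_lit 5) (nat_lit 156) (nat_lit 4) (nat_lit 358) (nat_lit 295) (nat_lit 247))) (XT.nd (nat_lit 78) (nat_lit 76) (nat_lit 0) (XT.lf (nat_lit 0) (nat_lit 206044718195) (nat_lit 152) (nat_lit 210093323719) (nat_lit 0) (nat_lit 205478055152) (nat_lit 153) (nat_lit 5) (nat_lit 155) (nat_lit 4) (nat_lit 153) (nat_lit 4) (nat_lit 359) (nat_lit 295) (nat_lit 246)) (XT.nd (nat_lit 78) (nat_lit 0) (nat_lit 0) (XT.lf (nat_lit 0) (nat_lit 224555214357) (nat_lit 76) (nat_lit 229170561444) (nat_lit 76) (nat_lit 228603819881) (nat_lit 152) (nat_lit 4) (nat_lit 153) (nat_lit 5) (nat_lit 153) (nat_lit 4) (nat_lit 360) (nat_lit 295) (nat_lit 245)) (XT.lf (nat_lit 0) (nat_lit 747886162363)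 (nat_lit 76) (nat_lit 1596135359) (nat_lit 76) (nat_lit 1029325516) (nat_lit 152) (nat_lit 4) (nat_lit 153) (nat_lit 5) (nat_lit 153) (nat_lit 4) (nat_lit 361) (nat_lit 295) (nat_lit 244)))))) (XT.nd (nat_lit 390) (nat_lit 380) (nat_lit 0) (XT.nd (nat_lit 156) (nat_lit 228) (nat_lit 0) (XT.nd (nat_lit 78) (nat_lit 76) (nat_lit 0) (XT.lf (nat_lit 0) (nat_lit 272982626172) (nat_lit 152) (nat_lit 276503152715) (nat_lit 0) (nat_lit 272489696420) (nat_lit 150) (nat_lit 5) (nat_lit 152) (nat_lit 4) (nat_lit 150) (nat_lit 4) (nat_lit 362) (nat_lit 295) (nat_lit 243)) (XT.lf (nat_lit 0) (nat_lit 298246711528) (nat_lit 76) (nat_lit 302260212718) (nat_lit 76) (nat_lit 301767238071) (nat_lit 149) (nat_lit 4) (nat_lit 150) (nat_lit 5) (nat_lit 150) (nat_lit 4) (nat_lit 363) (nat_lit 295) (nat_lit 242))) (XT.nd (nat_lit 78) (nat_lit 228) (nat_lit 0) (XT.lf (nat_lit 0) (nat_lit 990174240940) (nat_lit 76) (nat_lit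 1388032111) (nat_lit 76) (nat_lit 895018425) (nat_lit 149) (nat_lit 4) (nat_lit 150) (nat_lit 5) (nat_lit 150) (nat_lit 4) (nat_lit 364) (nat_lit 295) (nat_lit 241)) (XT.nd (nat_lit 78) (nat_lit 76) (nat_lit 0) (XT.lf (nat_lit 0) (nat_lit 361444251132) (nat_lit 152) (nat_lit 364505578560) (nat_lit 0) (nat_lit 361015514060) (nat_lit 147) (nat_lit 5) (nat_lit 149) (nat_lit 4) (nat_lit 147) (nat_lit 4) (nat_lit 365) (nat_lit 295) (nat_lit 240)) (XT.lf (nat_lit 0) (nat_lit 395537786818) (nat_lit 76) (nat_lit 399027876987) (nat_lit 76) (nat_lit 398599114247) (nat_lit 146) (nat_lit 4) (nat_lit 147) (nat_lit 5) (nat_lit 147) (nat_lit 4) (nat_lit 366) (nat_lit 295) (nat_lit 239))))) (XT.nd (nat_lit 156) (nat_lit 228) (nat_lit 0) (XT.nd (nat_lit 78) (nat_lit 152) (nat_lit 0) (XT.lf (nat_lit 0) (nat_lit 1310457461471) (nat_lit 76) (nat_lit 1207034942) (nat_lit 76) (nat_lit 778249881) (nat_lit 146) (nat_lit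 4) (nat_lit 147) (nat_lit 5) (nat_lit 147) (nat_lit 4) (nat_lit 367) (nat_lit 295) (nat_lit 238)) (XT.lf (nat_lit 0) (nat_lit 478379326404) (nat_lit 152) (nat_lit 481041350255) (nat_lit 0) (nat_lit 478006452952) (nat_lit 144) (nat_lit 5) (nat_lit 146) (nat_lit 4) (nat_lit 144) (nat_lit 4) (nat_lit 368) (nat_lit 295) (nat_lit 237))) (XT.nd (nat_lit 78) (nat_lit 152) (nat_lit 0) (XT.lf (nat_lit 0) (nat_lit 524060929711) (nat_lit 76) (nat_lit 527095841690) (nat_lit 76) (nat_lit 526722953562) (nat_lit 143) (nat_lit 4) (nat_lit 144) (nat_lit 5) (nat_lit 144) (nat_lit 4) (nat_lit 369) (nat_lit 295) (nat_lit 236)) (XT.nd (nat_lit 78) (nat_lit 152) (nat_lit 0) (XT.lf (nat_lit 0) (nat_lit 1733907863358) (nat_lit 76) (nat_lit 1049624474) (nat_lit 76) (nat_lit 676723583) (nat_lit 143) (nat_lit 4) (nat_lit 144) (nat_lit 5) (nat_lit 144) (nat_lit 4) (nat_lit 370) (nat_lit 295) (nat_lit 235)) (XT.lf (nat_lit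 0) (nat_lit 632977779360) (nat_lit 152) (nat_lit 635292582708) (nat_lit 0) (nat_lit 632653508066) (nat_lit 141) (nat_lit 5) (nat_lit 143) (nat_lit 4) (nat_lit 141) (nat_lit 4) (nat_lit 371) (nat_lit 295) (nat_lit 234))))))))
noncomputable def xc34 : XT := (XT.nd (nat_lit 42588) (nat_lit 0) (nat_lit 3496) (XT.nd (nat_lit 780) (nat_lit 0) (nat_lit 0) (XT.nd (nat_lit 390) (nat_lit 456) (nat_lit 0) (XT.nd (nat_lit 156) (nat_lit 228) (nat_lit 0) (XT.nd (nat_lit 78) (nat_lit 0) (nat_lit 0) (XT.lf (nat_lit 0) (nat_lit 693907294305) (nat_lit 76) (nat_lit 696546377338) (nat_lit 76) (nat_lit 696222097653) (nat_lit 140) (nat_lit 4) (nat_lit 141) (nat_lit 5) (nat_lit 141) (nat_lit 4) (nat_lit 372) (nat_lit 295) (nat_lit 233)) (XT.lf (nat_lit 0) (nat_lit 2293813048330) (nat_lit 76) (nat_lit 912733441) (nat_lit 76) (nat_lit 588446460) (nat_lit 140) (nat_lit 4) (nat_lit 141) (nat_lit 5) (nat_lit 141) (nat_lit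 4) (nat_lit 373) (nat_lit 295) (nat_lit 232))) (XT.nd (nat_lit 78) (nat_lit 76) (nat_lit 0) (XT.lf (nat_lit 0) (nat_lit 837392340165) (nat_lit 152) (nat_lit 839405212642) (nat_lit 0) (nat_lit 837110345968) (nat_lit 138) (nat_lit 5) (nat_lit 140) (nat_lit 4) (nat_lit 138) (nat_lit 4) (nat_lit 374) (nat_lit 295) (nat_lit 231)) (XT.nd (nat_lit 78) (nat_lit 0) (nat_lit 0) (XT.lf (nat_lit 0) (nat_lit 918419982395) (nat_lit 76) (nat_lit 920714853867) (nat_lit 76) (nat_lit 920432854872) (nat_lit 137) (nat_lit 4) (nat_lit 138) (nat_lit 5) (nat_lit 138) (nat_lit 4) (nat_lit 375) (nat_lit 295) (nat_lit 230)) (XT.lf (nat_lit 0) (nat_lit 3034193762210) (nat_lit 76) (nat_lit 793690692) (nat_lit 76) (nat_lit 511687525) (nat_lit 137) (nat_lit 4) (nat_lit 138) (nat_lit 5) (nat_lit 138) (nat_lit 4) (nat_lit 376) (nat_lit 295) (nat_lit 229))))) (XT.nd (nat_lit 156) (nat_lit 228) (nat_lit 0) (XT.nd (nat_lit 78) (nat_lit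 76) (nat_lit 0) (XT.lf (nat_lit 0) (nat_lit 1107694171356) (nat_lit 152) (nat_lit 1109444495249) (nat_lit 0) (nat_lit 1107448948057) (nat_lit 135) (nat_lit 5) (nat_lit 137) (nat_lit 4) (nat_lit 135) (nat_lit 4) (nat_lit 377) (nat_lit 295) (nat_lit 228)) (XT.lf (nat_lit 0) (nat_lit 1215243114274) (nat_lit 76) (nat_lit 1217238664209) (nat_lit 76) (nat_lit 1216993438167) (nat_lit 134) (nat_lit 4) (nat_lit 135) (nat_lit 5) (nat_lit 135) (nat_lit 4) (nat_lit 378) (nat_lit 295) (nat_lit 227))) (XT.nd (nat_lit 78) (nat_lit 228) (nat_lit 0) (XT.lf (nat_lit 0) (nat_lit 4013265607177) (nat_lit 76) (nat_lit 690171215) (nat_lit 76) (nat_lit 444942788) (nat_lit 134) (nat_lit 4) (nat_lit 135) (nat_lit 5) (nat_lit 135) (nat_lit 4) (nat_lit 379) (nat_lit 295) (nat_lit 226)) (XT.nd (nat_lit 78) (nat_lit 76) (nat_lit 0) (XT.lf (nat_lit 0) (nat_lit 1465136670736) (nat_lit 152) (nat_lit 1466658691513) (nat_lit 0)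 (nat_lit 1464923426822) (nat_lit 132) (nat_lit 5) (nat_lit 134) (nat_lit 4) (nat_lit 132) (nat_lit 4) (nat_lit 380) (nat_lit 295) (nat_lit 225)) (XT.lf (nat_lit 0) (nat_lit 1607709184212) (nat_lit 76) (nat_lit 1609444450471) (nat_lit 76) (nat_lit 1609231204989) (nat_lit 131) (nat_lit 4) (nat_lit 132) (nat_lit 5) (nat_lit 132) (nat_lit 4) (nat_lit 381) (nat_lit 295) (nat_lit 224)))))) (XT.nd (nat_lit 41418) (nat_lit 0) (nat_lit 5092) (XT.nd (nat_lit 41184) (nat_lit 0) (nat_lit 5624) (XT.nd (nat_lit 41106) (nat_lit 0) (nat_lit 6156) (XT.lf (nat_lit 0) (nat_lit 5308017121272) (nat_lit 76) (nat_lit 600151968) (nat_lit 76) (nat_lit 386905122) (nat_lit 131) (nat_lit 4) (nat_lit 132) (nat_lit 5) (nat_lit 132) (nat_lit 4) (nat_lit 382) (nat_lit 295) (nat_lit 223)) (XT.lf (nat_lit 0) (nat_lit 2042202388) (nat_lit 152) (nat_lit 964290564) (nat_lit 152) (nat_lit 964290564) (nat_lit 212) (nat_lit 4) (nat_lit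 214) (nat_lit 5) (nat_lit 214) (nat_lit 4) (nat_lit 308) (nat_lit 296) (nat_lit 296))) (XT.nd (nat_lit 78) (nat_lit 304) (nat_lit 0) (XT.lf (nat_lit 0) (nat_lit 2031640488) (nat_lit 228) (nat_lit 5346865495) (nat_lit 0) (nat_lit 978616167) (nat_lit 209) (nat_lit 5) (nat_lit 212) (nat_lit 4) (nat_lit 209) (nat_lit 4) (nat_lit 309) (nat_lit 296) (nat_lit 295)) (XT.nd (nat_lit 78) (nat_lit 152) (nat_lit 0) (XT.lf (nat_lit 0) (nat_lit 1780046965) (nat_lit 152) (nat_lit 4512160649) (nat_lit 152) (nat_lit 2543463006) (nat_lit 207) (nat_lit 4) (nat_lit 209) (nat_lit 5) (nat_lit 209) (nat_lit 4) (nat_lit 310) (nat_lit 296) (nat_lit 294)) (XT.lf (nat_lit 0) (nat_lit 451008355) (nat_lit 76) (nat_lit 1044779398) (nat_lit 152) (nat_lit 7901392199) (nat_lit 205) (nat_lit 5) (nat_lit 206) (nat_lit 5) (nat_lit 207) (nat_lit 4) (nat_lit 311) (nat_lit 296) (nat_lit 293))))) (XT.nd (nat_lit 156) (nat_lit 304) (nat_lit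 0) (XT.nd (nat_lit 78) (nat_lit 228) (nat_lit 0) (XT.lf (nat_lit 0) (nat_lit 5947853199) (nat_lit 152) (nat_lit 1125303956) (nat_lit 0) (nat_lit 2941491548) (nat_lit 205) (nat_lit 5) (nat_lit 207) (nat_lit 4) (nat_lit 205) (nat_lit 4) (nat_lit 312) (nat_lit 296) (nat_lit 292)) (XT.lf (nat_lit 0) (nat_lit 304045003) (nat_lit 228) (nat_lit 2876204087) (nat_lit 76) (nat_lit 7543619844) (nat_lit 202) (nat_lit 5) (nat_lit 205) (nat_lit 5) (nat_lit 203) (nat_lit 4) (nat_lit 313) (nat_lit 296) (nat_lit 291))) (XT.nd (nat_lit 78) (nat_lit 228) (nat_lit 0) (XT.lf (nat_lit 0) (nat_lit 4934491716) (nat_lit 152) (nat_lit 5103738693) (nat_lit 0) (nat_lit 1469141874) (nat_lit 201) (nat_lit 5) (nat_lit 203) (nat_lit 4) (nat_lit 201) (nat_lit 4) (nat_lit 314) (nat_lit 296) (nat_lit 290)) (XT.nd (nat_lit 78) (nat_lit 152) (nat_lit 0) (XT.lf (nat_lit 0) (nat_lit 4588976657) (nat_lit 76) (nat_lit 5804460071) (nat_lit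 76) (nat_lit 1994874710) (nat_lit 200) (nat_lit 4) (nat_lit 201) (nat_lit 5) (nat_lit 201) (nat_lit 4) (nat_lit 315) (nat_lit 296) (nat_lit 289)) (XT.lf (nat_lit 0) (nat_lit 2328618399) (nat_lit 76) (nat_lit 665585783) (nat_lit 152) (nat_lit 10384556488) (nat_lit 198) (nat_lit 5) (nat_lit 199) (nat_lit 5) (nat_lit 200) (nat_lit 4) (nat_lit 316) (nat_lit 296) (nat_lit 288))))))) (XT.nd (nat_lit 780) (nat_lit 836) (nat_lit 0) (XT.nd (nat_lit 390) (nat_lit 304) (nat_lit 0) (XT.nd (nat_lit 156) (nat_lit 304) (nat_lit 0) (XT.nd (nat_lit 78) (nat_lit 152) (nat_lit 0) (XT.lf (nat_lit 0) (nat_lit 8818696895) (nat_lit 152) (nat_lit 621755886) (nat_lit 0) (nat_lit 5019382025) (nat_lit 198) (nat_lit 5) (nat_lit 200) (nat_lit 4) (nat_lit 198) (nat_lit 4) (nat_lit 317) (nat_lit 296) (nat_lit 287)) (XT.lf (nat_lit 0) (nat_lit 53593762) (nat_lit 152) (nat_lit 3880906055) (nat_lit 76) (nat_lit 11736243372) (nat_lit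 196) (nat_lit 5) (nat_lit 198) (nat_lit 5) (nat_lit 197) (nat_lit 4) (nat_lit 318) (nat_lit 296) (nat_lit 286))) (XT.nd (nat_lit 78) (nat_lit 228) (nat_lit 0) (XT.lf (nat_lit 0) (nat_lit 6246951975) (nat_lit 152) (nat_lit 8119516224) (nat_lit 0) (nat_lit 2623231509) (nat_lit 195) (nat_lit 5) (nat_lit 197) (nat_lit 4) (nat_lit 195) (nat_lit 4) (nat_lit 319) (nat_lit 296) (nat_lit 285)) (XT.nd (nat_lit 78) (nat_lit 152) (nat_lit 0) (XT.lf (nat_lit 0) (nat_lit 5152393074) (nat_lit 76) (nat_lit 8530128421) (nat_lit 76) (nat_lit 4776997073) (nat_lit 194) (nat_lit 4) (nat_lit 195) (nat_lit 5) (nat_lit 195) (nat_lit 4) (nat_lit 320) (nat_lit 296) (nat_lit 284)) (XT.lf (nat_lit 0) (nat_lit 581718542) (nat_lit 76) (nat_lit 1486830802) (nat_lit 152) (nat_lit 18042754535) (nat_lit 192) (nat_lit 5) (nat_lit 193) (nat_lit 5) (nat_lit 194) (nat_lit 4) (nat_lit 321) (nat_lit 296) (nat_lit 283))))) (XT.nd (nat_lit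 156) (nat_lit 228) (nat_lit 0) (XT.nd (nat_lit 78) (nat_lit 76) (nat_lit 0) (XT.lf (nat_lit 0) (nat_lit 10158919050) (nat_lit 152) (nat_lit 4999373206) (nat_lit 0) (nat_lit 6712383599) (nat_lit 192) (nat_lit 5) (nat_lit 194) (nat_lit 4) (nat_lit 192) (nat_lit 4) (nat_lit 322) (nat_lit 296) (nat_lit 282)) (XT.lf (nat_lit 0) (nat_lit 12196846145) (nat_lit 76) (nat_lit 7584899411) (nat_lit 76) (nat_lit 4064372869) (nat_lit 191) (nat_lit 4) (nat_lit 192) (nat_lit 5) (nat_lit 192) (nat_lit 4) (nat_lit 323) (nat_lit 296) (nat_lit 281))) (XT.nd (nat_lit 78) (nat_lit 76) (nat_lit 0) (XT.lf (nat_lit 0) (nat_lit 4656703220) (nat_lit 152) (nat_lit 19840212779) (nat_lit 0) (nat_lit 1539427897) (nat_lit 189) (nat_lit 5) (nat_lit 191) (nat_lit 4) (nat_lit 189) (nat_lit 4) (nat_lit 324) (nat_lit 296) (nat_lit 280)) (XT.nd (nat_lit 78) (nat_lit 76) (nat_lit 0) (XT.lf (nat_lit 0) (nat_lit 15014597284) (nat_lit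 152) (nat_lit 1551087414) (nat_lit 0) (nat_lit 11848671616) (nat_lit 189) (nat_lit 5) (nat_lit 191) (nat_lit 4) (nat_lit 189) (nat_lit 4) (nat_lit 325) (nat_lit 296) (nat_lit 279)) (XT.lf (nat_lit 0) (nat_lit 20878250245) (nat_lit 76) (nat_lit 6691274162) (nat_lit 76) (nat_lit 3483043847) (nat_lit 188) (nat_lit 4) (nat_lit 189) (nat_lit 5) (nat_lit 189) (nat_lit 4) (nat_lit 326) (nat_lit 296) (nat_lit 278)))))) (XT.nd (nat_lit 390) (nat_lit 380) (nat_lit 0) (XT.nd (nat_lit 156) (nat_lit 228) (nat_lit 0) (XT.nd (nat_lit 78) (nat_lit 76) (nat_lit 0) (XT.lf (nat_lit 0) (nat_lit 7853463900) (nat_lit 152) (nat_lit 21056515690) (nat_lit 0) (nat_lit 5031710018) (nat_lit 186) (nat_lit 5) (nat_lit 188) (nat_lit 4) (nat_lit 186) (nat_lit 4) (nat_lit 327) (nat_lit 296) (nat_lit 277)) (XT.lf (nat_lit 0) (nat_lit 2622973075) (nat_lit 76) (nat_lit 18675594739) (nat_lit 76) (nat_lit 15826024865) (nat_lit 185)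 (nat_lit 4) (nat_lit 186) (nat_lit 5) (nat_lit 186) (nat_lit 4) (nat_lit 328) (nat_lit 296) (nat_lit 276))) (XT.nd (nat_lit 78) (nat_lit 228) (nat_lit 0) (XT.lf (nat_lit 0) (nat_lit 31778546397) (nat_lit 76) (nat_lit 5873221463) (nat_lit 76) (nat_lit 2999463770) (nat_lit 185) (nat_lit 4) (nat_lit 186) (nat_lit 5) (nat_lit 186) (nat_lit 4) (nat_lit 329) (nat_lit 296) (nat_lit 275)) (XT.nd (nat_lit 78) (nat_lit 76) (nat_lit 0) (XT.lf (nat_lit 0) (nat_lit 11833622470) (nat_lit 152) (nat_lit 23314537070) (nat_lit 0) (nat_lit 9316413271) (nat_lit 183) (nat_lit 5) (nat_lit 185) (nat_lit 4) (nat_lit 183) (nat_lit 4) (nat_lit 330) (nat_lit 296) (nat_lit 274)) (XT.lf (nat_lit 0) (nat_lit 7733070166) (nat_lit 76) (nat_lit 21747097849) (nat_lit 76) (nat_lit 19213984766) (nat_lit 182) (nat_lit 4) (nat_lit 183) (nat_lit 5) (nat_lit 183) (nat_lit 4) (nat_lit 331) (nat_lit 296) (nat_lit 273))))) (XT.nd (nat_lit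 156) (nat_lit 228) (nat_lit 0) (XT.nd (nat_lit 78) (nat_lit 152) (nat_lit 0) (XT.lf (nat_lit 0) (nat_lit 45672632799) (nat_lit 76) (nat_lit 5138436689) (nat_lit 76) (nat_lit 2591494142) (nat_lit 182) (nat_lit 4) (nat_lit 183) (nat_lit 5) (nat_lit 183) (nat_lit 4) (nat_lit 332) (nat_lit 296) (nat_lit 272)) (XT.lf (nat_lit 0) (nat_lit 16893452202) (nat_lit 152) (nat_lit 26876856202) (nat_lit 0) (nat_lit 14668262491) (nat_lit 180) (nat_lit 5) (nat_lit 182) (nat_lit 4) (nat_lit 180) (nat_lit 4) (nat_lit 333) (nat_lit 296) (nat_lit 271))) (XT.nd (nat_lit 78) (nat_lit 152) (nat_lit 0) (XT.lf (nat_lit 0) (nat_lit 13949423599) (nat_lit 76) (nat_lit 26167110407) (nat_lit 76) (nat_lit 23932827599) (nat_lit 179) (nat_lit 4) (nat_lit 180) (nat_lit 5) (nat_lit 180) (nat_lit 4) (nat_lit 334) (nat_lit 296) (nat_lit 270)) (XT.nd (nat_lit 78) (nat_lit 152) (nat_lit 0) (XT.lf (nat_lit 0) (nat_lit 63584625303) (nat_lit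 76) (nat_lit 4486094598) (nat_lit 76) (nat_lit 2243904749) (nat_lit 179) (nat_lit 4) (nat_lit 180) (nat_lit 5) (nat_lit 180) (nat_lit 4) (nat_lit 335) (nat_lit 296) (nat_lit 269)) (XT.lf (nat_lit 0) (nat_lit 23414228776) (nat_lit 152) (nat_lit 32095449645) (nat_lit 0) (nat_lit 21458519613) (nat_lit 177) (nat_lit 5) (nat_lit 179) (nat_lit 4) (nat_lit 177) (nat_lit 4) (nat_lit 336) (nat_lit 296) (nat_lit 268))))))))
noncomputable def xc35 : XT := (XT.nd (nat_lit 1560) (nat_lit 1596) (nat_lit 0) (XT.nd (nat_lit 780) (nat_lit 684) (nat_lit 0) (XT.nd (nat_lit 390) (nat_lit 456) (nat_lit 0) (XT.nd (nat_lit 156) (nat_lit 228) (nat_lit 0) (XT.nd (nat_lit 78) (nat_lit 0) (nat_lit 0) (XT.lf (nat_lit 0) (nat_lit 21693276561) (nat_lit 76) (nat_lit 32335405601) (nat_lit 76) (nat_lit 30374497431) (nat_lit 176) (nat_lit 4) (nat_lit 177) (nat_lit 5) (nat_lit 177) (nat_lit 4) (nat_lit 337) (nat_lit 296) (nat_lit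 267)) (XT.lf (nat_lit 0) (nat_lit 86865301228) (nat_lit 76) (nat_lit 3911179794) (nat_lit 76) (nat_lit 1945750747) (nat_lit 176) (nat_lit 4) (nat_lit 177) (nat_lit 5) (nat_lit 177) (nat_lit 4) (nat_lit 338) (nat_lit 296) (nat_lit 266))) (XT.nd (nat_lit 78) (nat_lit 76) (nat_lit 0) (XT.lf (nat_lit 0) (nat_lit 31893098302) (nat_lit 152) (nat_lit 39441986015) (nat_lit 0) (nat_lit 30180611133) (nat_lit 174) (nat_lit 5) (nat_lit 176) (nat_lit 4) (nat_lit 174) (nat_lit 4) (nat_lit 339) (nat_lit 296) (nat_lit 265)) (XT.nd (nat_lit 78) (nat_lit 0) (nat_lit 0) (XT.lf (nat_lit 0) (nat_lit 31515963103) (nat_lit 76) (nat_lit 40780310534) (nat_lit 76) (nat_lit 39064850816) (nat_lit 173) (nat_lit 4) (nat_lit 174) (nat_lit 5) (nat_lit 174) (nat_lit 4) (nat_lit 340) (nat_lit 296) (nat_lit 264)) (XT.lf (nat_lit 0) (nat_lit 117296193487) (nat_lit 76) (nat_lit 3406873782) (nat_lit 76) (nat_lit 1688829238) (nat_lit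 173) (nat_lit 4) (nat_lit 174) (nat_lit 5) (nat_lit 174) (nat_lit 4) (nat_lit 341) (nat_lit 296) (nat_lit 263))))) (XT.nd (nat_lit 156) (nat_lit 228) (nat_lit 0) (XT.nd (nat_lit 78) (nat_lit 76) (nat_lit 0) (XT.lf (nat_lit 0) (nat_lit 42982559245) (nat_lit 152) (nat_lit 49546809430) (nat_lit 0) (nat_lit 41486652969) (nat_lit 171) (nat_lit 5) (nat_lit 173) (nat_lit 4) (nat_lit 171) (nat_lit 4) (nat_lit 342) (nat_lit 296) (nat_lit 262)) (XT.lf (nat_lit 0) (nat_lit 44140478994) (nat_lit 76) (nat_lit 52202335020) (nat_lit 76) (nat_lit 50704729179) (nat_lit 170) (nat_lit 4) (nat_lit 171) (nat_lit 5) (nat_lit 171) (nat_lit 4) (nat_lit 343) (nat_lit 296) (nat_lit 261))) (XT.nd (nat_lit 78) (nat_lit 228) (nat_lit 0) (XT.lf (nat_lit 0) (nat_lit 157228157749) (nat_lit 76) (nat_lit 2965842482) (nat_lit 76) (nat_lit 1466758758) (nat_lit 170) (nat_lit 4) (nat_lit 171) (nat_lit 5) (nat_lit 171) (nat_lit 4) (nat_lit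 344) (nat_lit 296) (nat_lit 260)) (XT.nd (nat_lit 78) (nat_lit 76) (nat_lit 0) (XT.lf (nat_lit 0) (nat_lit 57541892468) (nat_lit 152) (nat_lit 63249936107) (nat_lit 0) (nat_lit 56237223912) (nat_lit 168) (nat_lit 5) (nat_lit 170) (nat_lit 4) (nat_lit 168) (nat_lit 4) (nat_lit 345) (nat_lit 296) (nat_lit 259)) (XT.lf (nat_lit 0) (nat_lit 60516995148) (nat_lit 76) (nat_lit 67530679075) (nat_lit 76) (nat_lit 66225038788) (nat_lit 167) (nat_lit 4) (nat_lit 168) (nat_lit 5) (nat_lit 168) (nat_lit 4) (nat_lit 346) (nat_lit 296) (nat_lit 258)))))) (XT.nd (nat_lit 390) (nat_lit 304) (nat_lit 0) (XT.nd (nat_lit 156) (nat_lit 228) (nat_lit 0) (XT.nd (nat_lit 78) (nat_lit 152) (nat_lit 0) (XT.lf (nat_lit 0) (nat_lit 209765095926) (nat_lit 76) (nat_lit 2580905143) (nat_lit 76) (nat_lit 1274419871) (nat_lit 167) (nat_lit 4) (nat_lit 168) (nat_lit 5) (nat_lit 168) (nat_lit 4) (nat_lit 347) (nat_lit 296) (nat_lit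 257)) (XT.lf (nat_lit 0) (nat_lit 76704713044) (nat_lit 152) (nat_lit 81668229252) (nat_lit 0) (nat_lit 75567999965) (nat_lit 165) (nat_lit 5) (nat_lit 167) (nat_lit 4) (nat_lit 165) (nat_lit 4) (nat_lit 348) (nat_lit 296) (nat_lit 256))) (XT.nd (nat_lit 78) (nat_lit 152) (nat_lit 0) (XT.lf (nat_lit 0) (nat_lit 81896532090) (nat_lit 76) (nat_lit 87997316968) (nat_lit 76) (nat_lit 86860048298) (nat_lit 164) (nat_lit 4) (nat_lit 165) (nat_lit 5) (nat_lit 165) (nat_lit 4) (nat_lit 349) (nat_lit 296) (nat_lit 255)) (XT.nd (nat_lit 78) (nat_lit 152) (nat_lit 0) (XT.lf (nat_lit 0) (nat_lit 279007156849) (nat_lit 76) (nat_lit 2245358351) (nat_lit 76) (nat_lit 1107606559) (nat_lit 164) (nat_lit 4) (nat_lit 165) (nat_lit 5) (nat_lit 165) (nat_lit 4) (nat_lit 350) (nat_lit 296) (nat_lit 254)) (XT.lf (nat_lit 0) (nat_lit 101968028351) (nat_lit 152) (nat_lit 106284129402) (nat_lit 0) (nat_lit 100978313657)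 (nat_lit 162) (nat_lit 5) (nat_lit 164) (nat_lit 4) (nat_lit 162) (nat_lit 4) (nat_lit 351) (nat_lit 296) (nat_lit 253))))) (XT.nd (nat_lit 156) (nat_lit 228) (nat_lit 0) (XT.nd (nat_lit 78) (nat_lit 0) (nat_lit 0) (XT.lf (nat_lit 0) (nat_lit 109928499748) (nat_lit 76) (nat_lit 115234633153) (nat_lit 76) (nat_lit 114244600798) (nat_lit 161) (nat_lit 4) (nat_lit 162) (nat_lit 5) (nat_lit 162) (nat_lit 4) (nat_lit 352) (nat_lit 296) (nat_lit 252)) (XT.lf (nat_lit 0) (nat_lit 370372462529) (nat_lit 76) (nat_lit 1953110454) (nat_lit 76) (nat_lit 962801873) (nat_lit 161) (nat_lit 4) (nat_lit 162) (nat_lit 5) (nat_lit 162) (nat_lit 4) (nat_lit 353) (nat_lit 296) (nat_lit 251))) (XT.nd (nat_lit 78) (nat_lit 76) (nat_lit 0) (XT.lf (nat_lit 0) (nat_lit 135309845901) (nat_lit 152) (nat_lit 139062977249) (nat_lit 0) (nat_lit 134448499136) (nat_lit 159) (nat_lit 5) (nat_lit 161) (nat_lit 4) (nat_lit 159) (nat_lit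 4) (nat_lit 354) (nat_lit 296) (nat_lit 250)) (XT.nd (nat_lit 78) (nat_lit 0) (nat_lit 0) (XT.lf (nat_lit 0) (nat_lit 146789717385) (nat_lit 76) (nat_lit 151404377121) (nat_lit 76) (nat_lit 150542848733) (nat_lit 158) (nat_lit 4) (nat_lit 159) (nat_lit 5) (nat_lit 159) (nat_lit 4) (nat_lit 355) (nat_lit 296) (nat_lit 249)) (XT.lf (nat_lit 0) (nat_lit 491022613161) (nat_lit 76) (nat_lit 1698714224) (nat_lit 76) (nat_lit 837027902) (nat_lit 158) (nat_lit 4) (nat_lit 159) (nat_lit 5) (nat_lit 159) (nat_lit 4) (nat_lit 356) (nat_lit 296) (nat_lit 248))))))) (XT.nd (nat_lit 780) (nat_lit 760) (nat_lit 0) (XT.nd (nat_lit 390) (nat_lit 380) (nat_lit 0) (XT.nd (nat_lit 156) (nat_lit 228) (nat_lit 0) (XT.nd (nat_lit 78) (nat_lit 76) (nat_lit 0) (XT.lf (nat_lit 0) (nat_lit 179344601305) (nat_lit 152) (nat_lit 182608193782) (nat_lit 0) (nat_lit 178595189431) (nat_lit 156) (nat_lit 5) (nat_lit 158) (nat_lit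 4) (nat_lit 156) (nat_lit 4) (nat_lit 357) (nat_lit 296) (nat_lit 247)) (XT.lf (nat_lit 0) (nat_lit 195355024043) (nat_lit 76) (nat_lit 199368132237) (nat_lit 76) (nat_lit 198618616520) (nat_lit 155) (nat_lit 4) (nat_lit 156) (nat_lit 5) (nat_lit 156) (nat_lit 4) (nat_lit 358) (nat_lit 296) (nat_lit 246))) (XT.nd (nat_lit 78) (nat_lit 228) (nat_lit 0) (XT.lf (nat_lit 0) (nat_lit 650425402837) (nat_lit 76) (nat_lit 1477347094) (nat_lit 76) (nat_lit 727741077) (nat_lit 155) (nat_lit 4) (nat_lit 156) (nat_lit 5) (nat_lit 156) (nat_lit 4) (nat_lit 359) (nat_lit 296) (nat_lit 245)) (XT.nd (nat_lit 78) (nat_lit 76) (nat_lit 0) (XT.lf (nat_lit 0) (nat_lit 237528640829) (nat_lit 152) (nat_lit 240366547331) (nat_lit 0) (nat_lit 236876741231) (nat_lit 153) (nat_lit 5) (nat_lit 155) (nat_lit 4) (nat_lit 153) (nat_lit 4) (nat_lit 360) (nat_lit 296) (nat_lit 244)) (XT.lf (nat_lit 0) (nat_lit 259422872595) (nat_lit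 76) (nat_lit 262912738068) (nat_lit 76) (nat_lit 262260779097) (nat_lit 152) (nat_lit 4) (nat_lit 153) (nat_lit 5) (nat_lit 153) (nat_lit 4) (nat_lit 361) (nat_lit 296) (nat_lit 243))))) (XT.nd (nat_lit 156) (nat_lit 228) (nat_lit 0) (XT.nd (nat_lit 78) (nat_lit 152) (nat_lit 0) (XT.lf (nat_lit 0) (nat_lit 861098978966) (nat_lit 76) (nat_lit 1284766451) (nat_lit 76) (nat_lit 632755851) (nat_lit 152) (nat_lit 4) (nat_lit 153) (nat_lit 5) (nat_lit 153) (nat_lit 4) (nat_lit 362) (nat_lit 296) (nat_lit 242)) (XT.lf (nat_lit 0) (nat_lit 314431923686) (nat_lit 152) (nat_lit 316899668470) (nat_lit 0) (nat_lit 313864918909) (nat_lit 150) (nat_lit 5) (nat_lit 152) (nat_lit 4) (nat_lit 150) (nat_lit 4) (nat_lit 363) (nat_lit 296) (nat_lit 241))) (XT.nd (nat_lit 78) (nat_lit 152) (nat_lit 0) (XT.lf (nat_lit 0) (nat_lit 344013631903) (nat_lit 76) (nat_lit 347048415411) (nat_lit 76) (nat_lit 346481376687) (nat_lit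 149) (nat_lit 4) (nat_lit 150) (nat_lit 5) (nat_lit 150) (nat_lit 4) (nat_lit 364) (nat_lit 296) (nat_lit 240)) (XT.nd (nat_lit 78) (nat_lit 152) (nat_lit 0) (XT.lf (nat_lit 0) (nat_lit 1139595954164) (nat_lit 76) (nat_lit 1117255002) (nat_lit 76) (nat_lit 550186758) (nat_lit 149) (nat_lit 4) (nat_lit 150) (nat_lit 5) (nat_lit 150) (nat_lit 4) (nat_lit 365) (nat_lit 296) (nat_lit 239)) (XT.lf (nat_lit 0) (nat_lit 416097313888) (nat_lit 152) (nat_lit 418243178917) (nat_lit 0) (nat_lit 415604188747) (nat_lit 147) (nat_lit 5) (nat_lit 149) (nat_lit 4) (nat_lit 147) (nat_lit 4) (nat_lit 366) (nat_lit 296) (nat_lit 238)))))) (XT.nd (nat_lit 390) (nat_lit 456) (nat_lit 0) (XT.nd (nat_lit 156) (nat_lit 228) (nat_lit 0) (XT.nd (nat_lit 78) (nat_lit 0) (nat_lit 0) (XT.lf (nat_lit 0) (nat_lit 455764044158) (nat_lit 76) (nat_lit 458403053738) (nat_lit 76) (nat_lit 457909909187) (nat_lit 146) (nat_lit 4) (nat_lit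 147) (nat_lit 5) (nat_lit 147) (nat_lit 4) (nat_lit 367) (nat_lit 296) (nat_lit 237)) (XT.lf (nat_lit 0) (nat_lit 1507804854010) (nat_lit 76) (nat_lit 971564272) (nat_lit 76) (nat_lit 478402844) (nat_lit 146) (nat_lit 4) (nat_lit 147) (nat_lit 5) (nat_lit 147) (nat_lit 4) (nat_lit 368) (nat_lit 296) (nat_lit 236))) (XT.nd (nat_lit 78) (nat_lit 76) (nat_lit 0) (XT.lf (nat_lit 0) (nat_lit 550515718112) (nat_lit 152) (nat_lit 552381687703) (nat_lit 0) (nat_lit 550086869326) (nat_lit 144) (nat_lit 5) (nat_lit 146) (nat_lit 4) (nat_lit 144) (nat_lit 4) (nat_lit 369) (nat_lit 296) (nat_lit 235)) (XT.nd (nat_lit 78) (nat_lit 0) (nat_lit 0) (XT.lf (nat_lit 0) (nat_lit 603448849481) (nat_lit 76) (nat_lit 605743678955) (nat_lit 76) (nat_lit 605314819072) (nat_lit 143) (nat_lit 4) (nat_lit 144) (nat_lit 5) (nat_lit 144) (nat_lit 4) (nat_lit 370) (nat_lit 296) (nat_lit 234)) (XT.lf (nat_lit 0) (nat_lit 1994671243134)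 (nat_lit 76) (nat_lit 844860329) (nat_lit 76) (nat_lit 415990796) (nat_lit 143) (nat_lit 4) (nat_lit 144) (nat_lit 5) (nat_lit 144) (nat_lit 4) (nat_lit 371) (nat_lit 296) (nat_lit 233))))) (XT.nd (nat_lit 156) (nat_lit 228) (nat_lit 0) (XT.nd (nat_lit 78) (nat_lit 76) (nat_lit 0) (XT.lf (nat_lit 0) (nat_lit 728254435767) (nat_lit 152) (nat_lit 729877018020) (nat_lit 0) (nat_lit 727881498442) (nat_lit 141) (nat_lit 5) (nat_lit 143) (nat_lit 4) (nat_lit 141) (nat_lit 4) (nat_lit 372) (nat_lit 296) (nat_lit 232)) (XT.lf (nat_lit 0) (nat_lit 798670592723) (nat_lit 76) (nat_lit 800666118646) (nat_lit 76) (nat_lit 800293174975) (nat_lit 140) (nat_lit 4) (nat_lit 141) (nat_lit 5) (nat_lit 141) (nat_lit 4) (nat_lit 373) (nat_lit 296) (nat_lit 231))) (XT.nd (nat_lit 78) (nat_lit 228) (nat_lit 0) (XT.lf (nat_lit 0) (nat_lit 2638473878860) (nat_lit 76) (nat_lit 734673638) (nat_lit 76) (nat_lit 361724450)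 (nat_lit 140) (nat_lit 4) (nat_lit 141) (nat_lit 5) (nat_lit 141) (nat_lit 4) (nat_lit 374) (nat_lit 296) (nat_lit 230)) (XT.nd (nat_lit 78) (nat_lit 76) (nat_lit 0) (XT.lf (nat_lit 0) (nat_lit 963288136189) (nat_lit 152) (nat_lit 964699077278) (nat_lit 0) (nat_lit 962963828376) (nat_lit 138) (nat_lit 5) (nat_lit 140) (nat_lit 4) (nat_lit 138) (nat_lit 4) (nat_lit 375) (nat_lit 296) (nat_lit 229)) (XT.lf (nat_lit 0) (nat_lit 1056771855321) (nat_lit 76) (nat_lit 1058507107852) (nat_lit 76) (nat_lit 1058182796411) (nat_lit 137) (nat_lit 4) (nat_lit 138) (nat_lit 5) (nat_lit 138) (nat_lit 4) (nat_lit 376) (nat_lit 296) (nat_lit 228))))))))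
noncomputable def xc36 : XT := (XT.nd (nat_lit 42432) (nat_lit 0) (nat_lit 3420) (XT.nd (nat_lit 41652) (nat_lit 0) (nat_lit 4864) (XT.nd (nat_lit 390) (nat_lit 76) (nat_lit 0) (XT.nd (nat_lit 156) (nat_lit 228) (nat_lit 0) (XT.nd (nat_lit 78) (nat_lit 152) (nat_lit 0) (XT.lf (nat_lit 0) (nat_lit 3489834892252) (nat_lit 76) (nat_lit 638853778) (nat_lit 76) (nat_lit 314539183) (nat_lit 137) (nat_lit 4) (nat_lit 138) (nat_lit 5) (nat_lit 138) (nat_lit 4) (nat_lit 377) (nat_lit 296) (nat_lit 227)) (XT.lf (nat_lit 0) (nat_lit 1274097813080) (nat_lit 152) (nat_lit 1275324718375) (nat_lit 0) (nat_lit 1273815798003) (nat_lit 135) (nat_lit 5) (nat_lit 137) (nat_lit 4) (nat_lit 135) (nat_lit 4) (nat_lit 378) (nat_lit 296) (nat_lit 226))) (XT.nd (nat_lit 78) (nat_lit 152) (nat_lit 0) (XT.lf (nat_lit 0) (nat_lit 1398041648433) (nat_lit 76) (nat_lit 1399550570879) (nat_lit 76) (nat_lit 1399268553728) (nat_lit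 134) (nat_lit 4) (nat_lit 135) (nat_lit 5) (nat_lit 135) (nat_lit 4) (nat_lit 379) (nat_lit 296) (nat_lit 225)) (XT.nd (nat_lit 78) (nat_lit 152) (nat_lit 0) (XT.lf (nat_lit 0) (nat_lit 4615700723921) (nat_lit 76) (nat_lit 555529105) (nat_lit 76) (nat_lit 273510150) (nat_lit 134) (nat_lit 4) (nat_lit 135) (nat_lit 5) (nat_lit 135) (nat_lit 4) (nat_lit 380) (nat_lit 296) (nat_lit 224)) (XT.lf (nat_lit 0) (nat_lit 1685124141016) (nat_lit 152) (nat_lit 1686191015186) (nat_lit 0) (nat_lit 1684878905779) (nat_lit 132) (nat_lit 5) (nat_lit 134) (nat_lit 4) (nat_lit 132) (nat_lit 4) (nat_lit 381) (nat_lit 296) (nat_lit 223))))) (XT.nd (nat_lit 41028) (nat_lit 0) (nat_lit 5928) (XT.nd (nat_lit 40950) (nat_lit 0) (nat_lit 6688) (XT.lf (nat_lit 0) (nat_lit 1849310838259) (nat_lit 76) (nat_lit 1850622948852) (nat_lit 76) (nat_lit 1850377712429) (nat_lit 131) (nat_lit 4) (nat_lit 132) (nat_lit 5) (nat_lit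 132) (nat_lit 4) (nat_lit 382) (nat_lit 296) (nat_lit 222)) (XT.lf (nat_lit 0) (nat_lit 3241249117) (nat_lit 228) (nat_lit 201373989) (nat_lit 228) (nat_lit 201373989) (nat_lit 219) (nat_lit 4) (nat_lit 222) (nat_lit 5) (nat_lit 222) (nat_lit 4) (nat_lit 306) (nat_lit 297) (nat_lit 297))) (XT.nd (nat_lit 78) (nat_lit 380) (nat_lit 0) (XT.lf (nat_lit 0) (nat_lit 3253016074) (nat_lit 380) (nat_lit 2479193474) (nat_lit 0) (nat_lit 1860391409) (nat_lit 214) (nat_lit 5) (nat_lit 219) (nat_lit 4) (nat_lit 214) (nat_lit 4) (nat_lit 307) (nat_lit 297) (nat_lit 296)) (XT.nd (nat_lit 78) (nat_lit 228) (nat_lit 0) (XT.lf (nat_lit 0) (nat_lit 3785684081) (nat_lit 152) (nat_lit 3396499795) (nat_lit 152) (nat_lit 792897162) (nat_lit 212) (nat_lit 4) (nat_lit 214) (nat_lit 5) (nat_lit 214) (nat_lit 4) (nat_lit 308) (nat_lit 297) (nat_lit 295)) (XT.lf (nat_lit 0) (nat_lit 2338109138) (nat_lit 152) (nat_lit 450140206)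 (nat_lit 228) (nat_lit 5637028173) (nat_lit 209) (nat_lit 5) (nat_lit 211) (nat_lit 5) (nat_lit 212) (nat_lit 4) (nat_lit 309) (nat_lit 297) (nat_lit 294)))))) (XT.nd (nat_lit 390) (nat_lit 456) (nat_lit 0) (XT.nd (nat_lit 156) (nat_lit 380) (nat_lit 0) (XT.nd (nat_lit 78) (nat_lit 76) (nat_lit 0) (XT.lf (nat_lit 0) (nat_lit 667456915) (nat_lit 152) (nat_lit 6125342460) (nat_lit 152) (nat_lit 2149429176) (nat_lit 207) (nat_lit 4) (nat_lit 209) (nat_lit 5) (nat_lit 209) (nat_lit 4) (nat_lit 310) (nat_lit 297) (nat_lit 293)) (XT.lf (nat_lit 0) (nat_lit 1649704479) (nat_lit 228) (nat_lit 1121429237) (nat_lit 76) (nat_lit 6760912375) (nat_lit 206) (nat_lit 5) (nat_lit 209) (nat_lit 5) (nat_lit 207) (nat_lit 4) (nat_lit 311) (nat_lit 297) (nat_lit 292))) (XT.nd (nat_lit 78) (nat_lit 304) (nat_lit 0) (XT.lf (nat_lit 0) (nat_lit 5798561755) (nat_lit 152) (nat_lit 3180797724) (nat_lit 0) (nat_lit 1215636589)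 (nat_lit 205) (nat_lit 5) (nat_lit 207) (nat_lit 4) (nat_lit 205) (nat_lit 4) (nat_lit 312) (nat_lit 297) (nat_lit 291)) (XT.nd (nat_lit 78) (nat_lit 152) (nat_lit 0) (XT.lf (nat_lit 0) (nat_lit 5316182197) (nat_lit 152) (nat_lit 5333682697) (nat_lit 152) (nat_lit 295506058) (nat_lit 203) (nat_lit 4) (nat_lit 205) (nat_lit 5) (nat_lit 205) (nat_lit 4) (nat_lit 313) (nat_lit 297) (nat_lit 290)) (XT.lf (nat_lit 0) (nat_lit 3177727053) (nat_lit 76) (nat_lit 827749476) (nat_lit 152) (nat_lit 7778599030) (nat_lit 201) (nat_lit 5) (nat_lit 202) (nat_lit 5) (nat_lit 203) (nat_lit 4) (nat_lit 314) (nat_lit 297) (nat_lit 289))))) (XT.nd (nat_lit 156) (nat_lit 304) (nat_lit 0) (XT.nd (nat_lit 78) (nat_lit 76) (nat_lit 0) (XT.lf (nat_lit 0) (nat_lit 482536804) (nat_lit 76) (nat_lit 8629932343) (nat_lit 76) (nat_lit 3605338427) (nat_lit 200) (nat_lit 4) (nat_lit 201) (nat_lit 5) (nat_lit 201) (nat_lit 4) (nat_lit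 315) (nat_lit 297) (nat_lit 288)) (XT.lf (nat_lit 0) (nat_lit 1284913049) (nat_lit 152) (nat_lit 2522322366) (nat_lit 76) (nat_lit 9947354575) (nat_lit 199) (nat_lit 5) (nat_lit 201) (nat_lit 5) (nat_lit 200) (nat_lit 4) (nat_lit 316) (nat_lit 297) (nat_lit 287))) (XT.nd (nat_lit 78) (nat_lit 228) (nat_lit 0) (XT.lf (nat_lit 0) (nat_lit 6716449809) (nat_lit 152) (nat_lit 6254078219) (nat_lit 0) (nat_lit 1924079492) (nat_lit 198) (nat_lit 5) (nat_lit 200) (nat_lit 4) (nat_lit 198) (nat_lit 4) (nat_lit 317) (nat_lit 297) (nat_lit 286)) (XT.nd (nat_lit 78) (nat_lit 152) (nat_lit 0) (XT.lf (nat_lit 0) (nat_lit 5345090551) (nat_lit 76) (nat_lit 7891487124) (nat_lit 76) (nat_lit 2927970916) (nat_lit 197) (nat_lit 4) (nat_lit 198) (nat_lit 5) (nat_lit 198) (nat_lit 4) (nat_lit 318) (nat_lit 297) (nat_lit 285)) (XT.lf (nat_lit 0) (nat_lit 1257797643) (nat_lit 76) (nat_lit 1705056480) (nat_lit 152) (nat_lit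 14623317350) (nat_lit 195) (nat_lit 5) (nat_lit 196) (nat_lit 5) (nat_lit 197) (nat_lit 4) (nat_lit 319) (nat_lit 297) (nat_lit 284))))))) (XT.nd (nat_lit 780) (nat_lit 684) (nat_lit 0) (XT.nd (nat_lit 390) (nat_lit 456) (nat_lit 0) (XT.nd (nat_lit 156) (nat_lit 228) (nat_lit 0) (XT.nd (nat_lit 78) (nat_lit 76) (nat_lit 0) (XT.lf (nat_lit 0) (nat_lit 9993126498) (nat_lit 152) (nat_lit 3688575043) (nat_lit 0) (nat_lit 5435083364) (nat_lit 195) (nat_lit 5) (nat_lit 197) (nat_lit 4) (nat_lit 195) (nat_lit 4) (nat_lit 320) (nat_lit 297) (nat_lit 283)) (XT.lf (nat_lit 0) (nat_lit 11317353895) (nat_lit 76) (nat_lit 7083544504) (nat_lit 76) (nat_lit 2427648152) (nat_lit 194) (nat_lit 4) (nat_lit 195) (nat_lit 5) (nat_lit 195) (nat_lit 4) (nat_lit 321) (nat_lit 297) (nat_lit 282))) (XT.nd (nat_lit 78) (nat_lit 76) (nat_lit 0) (XT.lf (nat_lit 0) (nat_lit 5074676123) (nat_lit 152) (nat_lit 16696867174) (nat_lit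 0) (nat_lit 952079508) (nat_lit 192) (nat_lit 5) (nat_lit 194) (nat_lit 4) (nat_lit 192) (nat_lit 4) (nat_lit 322) (nat_lit 297) (nat_lit 281)) (XT.nd (nat_lit 78) (nat_lit 76) (nat_lit 0) (XT.lf (nat_lit 0) (nat_lit 14088535902) (nat_lit 152) (nat_lit 800275275) (nat_lit 0) (nat_lit 9901599207) (nat_lit 192) (nat_lit 5) (nat_lit 194) (nat_lit 4) (nat_lit 192) (nat_lit 4) (nat_lit 323) (nat_lit 297) (nat_lit 280)) (XT.lf (nat_lit 0) (nat_lit 18750422254) (nat_lit 76) (nat_lit 6286179672) (nat_lit 76) (nat_lit 2043295082) (nat_lit 191) (nat_lit 4) (nat_lit 192) (nat_lit 5) (nat_lit 192) (nat_lit 4) (nat_lit 324) (nat_lit 297) (nat_lit 279))))) (XT.nd (nat_lit 156) (nat_lit 228) (nat_lit 0) (XT.nd (nat_lit 78) (nat_lit 76) (nat_lit 0) (XT.lf (nat_lit 0) (nat_lit 7736696256) (nat_lit 152) (nat_lit 17842949344) (nat_lit 0) (nat_lit 4004926748) (nat_lit 189) (nat_lit 5) (nat_lit 191) (nat_lit 4) (nat_lit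 189) (nat_lit 4) (nat_lit 325) (nat_lit 297) (nat_lit 278)) (XT.lf (nat_lit 0) (nat_lit 2789164871) (nat_lit 76) (nat_lit 16663974116) (nat_lit 76) (nat_lit 12895417958) (nat_lit 188) (nat_lit 4) (nat_lit 189) (nat_lit 5) (nat_lit 189) (nat_lit 4) (nat_lit 326) (nat_lit 297) (nat_lit 277))) (XT.nd (nat_lit 78) (nat_lit 228) (nat_lit 0) (XT.lf (nat_lit 0) (nat_lit 28138019497) (nat_lit 76) (nat_lit 5538613292) (nat_lit 76) (nat_lit 1738068744) (nat_lit 188) (nat_lit 4) (nat_lit 189) (nat_lit 5) (nat_lit 189) (nat_lit 4) (nat_lit 327) (nat_lit 297) (nat_lit 276)) (XT.nd (nat_lit 78) (nat_lit 76) (nat_lit 0) (XT.lf (nat_lit 0) (nat_lit 11088453516) (nat_lit 152) (nat_lit 19876499679) (nat_lit 0) (nat_lit 7759444350) (nat_lit 186) (nat_lit 5) (nat_lit 188) (nat_lit 4) (nat_lit 186) (nat_lit 4) (nat_lit 328) (nat_lit 297) (nat_lit 275)) (XT.lf (nat_lit 0) (nat_lit 7157708158) (nat_lit 76) (nat_lit 19295796372)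 (nat_lit 76) (nat_lit 15945754320) (nat_lit 185) (nat_lit 4) (nat_lit 186) (nat_lit 5) (nat_lit 186) (nat_lit 4) (nat_lit 329) (nat_lit 297) (nat_lit 274)))))) (XT.nd (nat_lit 390) (nat_lit 304) (nat_lit 0) (XT.nd (nat_lit 156) (nat_lit 228) (nat_lit 0) (XT.nd (nat_lit 78) (nat_lit 152) (nat_lit 0) (XT.lf (nat_lit 0) (nat_lit 40146449331) (nat_lit 76) (nat_lit 4857563311) (nat_lit 76) (nat_lit 1489231792) (nat_lit 185) (nat_lit 4) (nat_lit 186) (nat_lit 5) (nat_lit 186) (nat_lit 4) (nat_lit 330) (nat_lit 297) (nat_lit 273)) (XT.lf (nat_lit 0) (nat_lit 15389394518) (nat_lit 152) (nat_lit 23031173790) (nat_lit 0) (nat_lit 12446581125) (nat_lit 183) (nat_lit 5) (nat_lit 185) (nat_lit 4) (nat_lit 183) (nat_lit 4) (nat_lit 331) (nat_lit 297) (nat_lit 272))) (XT.nd (nat_lit 78) (nat_lit 152) (nat_lit 0) (XT.lf (nat_lit 0) (nat_lit 12501731630) (nat_lit 76) (nat_lit 23098349916) (nat_lit 76) (nat_lit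 20143510902) (nat_lit 182) (nat_lit 4) (nat_lit 183) (nat_lit 5) (nat_lit 183) (nat_lit 4) (nat_lit 332) (nat_lit 297) (nat_lit 271)) (XT.nd (nat_lit 78) (nat_lit 152) (nat_lit 0) (XT.lf (nat_lit 0) (nat_lit 55661528535) (nat_lit 76) (nat_lit 4247626010) (nat_lit 76) (nat_lit 1282329934) (nat_lit 182) (nat_lit 4) (nat_lit 183) (nat_lit 5) (nat_lit 183) (nat_lit 4) (nat_lit 333) (nat_lit 297) (nat_lit 270)) (XT.lf (nat_lit 0) (nat_lit 20971389507) (nat_lit 152) (nat_lit 27616414961) (nat_lit 0) (nat_lit 18384964140) (nat_lit 180) (nat_lit 5) (nat_lit 182) (nat_lit 4) (nat_lit 180) (nat_lit 4) (nat_lit 334) (nat_lit 297) (nat_lit 269))))) (XT.nd (nat_lit 156) (nat_lit 228) (nat_lit 0) (XT.nd (nat_lit 78) (nat_lit 0) (nat_lit 0) (XT.lf (nat_lit 0) (nat_lit 19184171825) (nat_lit 76) (nat_lit 28422498335) (nat_lit 76) (nat_lit 25829197279) (nat_lit 179) (nat_lit 4) (nat_lit 180) (nat_lit 5) (nat_lit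 180) (nat_lit 4) (nat_lit 335) (nat_lit 297) (nat_lit 268)) (XT.lf (nat_lit 0) (nat_lit 75854784043) (nat_lit 76) (nat_lit 3707114324) (nat_lit 76) (nat_lit 1107834409) (nat_lit 179) (nat_lit 4) (nat_lit 180) (nat_lit 5) (nat_lit 180) (nat_lit 4) (nat_lit 336) (nat_lit 297) (nat_lit 267))) (XT.nd (nat_lit 78) (nat_lit 76) (nat_lit 0) (XT.lf (nat_lit 0) (nat_lit 28266305867) (nat_lit 152) (nat_lit 34044588870) (nat_lit 0) (nat_lit 26001541587) (nat_lit 177) (nat_lit 5) (nat_lit 179) (nat_lit 4) (nat_lit 177) (nat_lit 4) (nat_lit 337) (nat_lit 297) (nat_lit 266)) (XT.nd (nat_lit 78) (nat_lit 0) (nat_lit 0) (XT.lf (nat_lit 0) (nat_lit 27682210894) (nat_lit 76) (nat_lit 35729189374) (nat_lit 76) (nat_lit 33460493897) (nat_lit 176) (nat_lit 4) (nat_lit 177) (nat_lit 5) (nat_lit 177) (nat_lit 4) (nat_lit 338) (nat_lit 297) (nat_lit 265)) (XT.lf (nat_lit 0) (nat_lit 102273307584) (nat_lit 76) (nat_lit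 3231311487) (nat_lit 76) (nat_lit 959197578) (nat_lit 176) (nat_lit 4) (nat_lit 177) (nat_lit 5) (nat_lit 177) (nat_lit 4) (nat_lit 339) (nat_lit 297) (nat_lit 264))))))))
noncomputable def xc37 : XT := (XT.nd (nat_lit 1560) (nat_lit 1520) (nat_lit 0) (XT.nd (nat_lit 780) (nat_lit 760) (nat_lit 0) (XT.nd (nat_lit 390) (nat_lit 380) (nat_lit 0) (XT.nd (nat_lit 156) (nat_lit 228) (nat_lit 0) (XT.nd (nat_lit 78) (nat_lit 76) (nat_lit 0) (XT.lf (nat_lit 0) (nat_lit 37840746463) (nat_lit 152) (nat_lit 42865340379) (nat_lit 0) (nat_lit 35862410412) (nat_lit 174) (nat_lit 5) (nat_lit 176) (nat_lit 4) (nat_lit 174) (nat_lit 4) (nat_lit 340) (nat_lit 297) (nat_lit 263)) (XT.lf (nat_lit 0) (nat_lit 38622985491) (nat_lit 76) (nat_lit 45628163132) (nat_lit 76) (nat_lit 43647579407) (nat_lit 173) (nat_lit 4) (nat_lit 174) (nat_lit 5) (nat_lit 174) (nat_lit 4) (nat_lit 341) (nat_lit 297) (nat_lit 262))) (XT.nd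 (nat_lit 78) (nat_lit 228) (nat_lit 0) (XT.lf (nat_lit 0) (nat_lit 136959864182) (nat_lit 76) (nat_lit 2814257909) (nat_lit 76) (nat_lit 831719683) (nat_lit 173) (nat_lit 4) (nat_lit 174) (nat_lit 5) (nat_lit 174) (nat_lit 4) (nat_lit 342) (nat_lit 297) (nat_lit 261)) (XT.nd (nat_lit 78) (nat_lit 76) (nat_lit 0) (XT.lf (nat_lit 0) (nat_lit 50440993151) (nat_lit 152) (nat_lit 54810205252) (nat_lit 0) (nat_lit 48715568986) (nat_lit 171) (nat_lit 5) (nat_lit 173) (nat_lit 4) (nat_lit 171) (nat_lit 4) (nat_lit 343) (nat_lit 297) (nat_lit 260)) (XT.lf (nat_lit 0) (nat_lit 52831602546) (nat_lit 76) (nat_lit 58927523927) (nat_lit 76) (nat_lit 57200814646) (nat_lit 170) (nat_lit 4) (nat_lit 171) (nat_lit 5) (nat_lit 171) (nat_lit 4) (nat_lit 344) (nat_lit 297) (nat_lit 259))))) (XT.nd (nat_lit 156) (nat_lit 228) (nat_lit 0) (XT.nd (nat_lit 78) (nat_lit 152) (nat_lit 0) (XT.lf (nat_lit 0) (nat_lit 182612426370)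 (nat_lit 76) (nat_lit 2449708987) (nat_lit 76) (nat_lit 721882216) (nat_lit 170) (nat_lit 4) (nat_lit 171) (nat_lit 5) (nat_lit 171) (nat_lit 4) (nat_lit 345) (nat_lit 297) (nat_lit 258)) (XT.lf (nat_lit 0) (nat_lit 67051865075) (nat_lit 152) (nat_lit 70851179946) (nat_lit 0) (nat_lit 65548562029) (nat_lit 168) (nat_lit 5) (nat_lit 170) (nat_lit 4) (nat_lit 168) (nat_lit 4) (nat_lit 346) (nat_lit 297) (nat_lit 257))) (XT.nd (nat_lit 78) (nat_lit 152) (nat_lit 0) (XT.lf (nat_lit 0) (nat_lit 71395052517) (nat_lit 76) (nat_lit 76698405203) (nat_lit 76) (nat_lit 75194367388) (nat_lit 167) (nat_lit 4) (nat_lit 168) (nat_lit 5) (nat_lit 168) (nat_lit 4) (nat_lit 347) (nat_lit 297) (nat_lit 256)) (XT.nd (nat_lit 78) (nat_lit 152) (nat_lit 0) (XT.lf (nat_lit 0) (nat_lit 242795519529) (nat_lit 76) (nat_lit 2131627233) (nat_lit 76) (nat_lit 626950489) (nat_lit 167) (nat_lit 4) (nat_lit 168) (nat_lit 5) (nat_lit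 168) (nat_lit 4) (nat_lit 348) (nat_lit 297) (nat_lit 255)) (XT.lf (nat_lit 0) (nat_lit 88974219753) (nat_lit 152) (nat_lit 92277971814) (nat_lit 0) (nat_lit 87665322070) (nat_lit 165) (nat_lit 5) (nat_lit 167) (nat_lit 4) (nat_lit 165) (nat_lit 4) (nat_lit 349) (nat_lit 297) (nat_lit 254)))))) (XT.nd (nat_lit 390) (nat_lit 456) (nat_lit 0) (XT.nd (nat_lit 156) (nat_lit 228) (nat_lit 0) (XT.nd (nat_lit 78) (nat_lit 0) (nat_lit 0) (XT.lf (nat_lit 0) (nat_lit 95746935919) (nat_lit 76) (nat_lit 100360005770) (nat_lit 76) (nat_lit 99050687980) (nat_lit 164) (nat_lit 4) (nat_lit 165) (nat_lit 5) (nat_lit 165) (nat_lit 4) (nat_lit 350) (nat_lit 297) (nat_lit 253)) (XT.lf (nat_lit 0) (nat_lit 322219903433) (nat_lit 76) (nat_lit 1854415371) (nat_lit 76) (nat_lit 544732271) (nat_lit 164) (nat_lit 4) (nat_lit 165) (nat_lit 5) (nat_lit 165) (nat_lit 4) (nat_lit 351) (nat_lit 297) (nat_lit 252))) (XT.nd (nat_lit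 78) (nat_lit 76) (nat_lit 0) (XT.lf (nat_lit 0) (nat_lit 117927247692) (nat_lit 152) (nat_lit 120800075571) (nat_lit 0) (nat_lit 116788116596) (nat_lit 162) (nat_lit 5) (nat_lit 164) (nat_lit 4) (nat_lit 162) (nat_lit 4) (nat_lit 352) (nat_lit 297) (nat_lit 251)) (XT.nd (nat_lit 78) (nat_lit 0) (nat_lit 0) (XT.lf (nat_lit 0) (nat_lit 127779599168) (nat_lit 76) (nat_lit 131791798340) (nat_lit 76) (nat_lit 130652427047) (nat_lit 161) (nat_lit 4) (nat_lit 162) (nat_lit 5) (nat_lit 162) (nat_lit 4) (nat_lit 353) (nat_lit 297) (nat_lit 250)) (XT.lf (nat_lit 0) (nat_lit 427112527088) (nat_lit 76) (nat_lit 1613007643) (nat_lit 76) (nat_lit 473427483) (nat_lit 161) (nat_lit 4) (nat_lit 162) (nat_lit 5) (nat_lit 162) (nat_lit 4) (nat_lit 354) (nat_lit 297) (nat_lit 249))))) (XT.nd (nat_lit 156) (nat_lit 228) (nat_lit 0) (XT.nd (nat_lit 78) (nat_lit 76) (nat_lit 0) (XT.lf (nat_lit 0) (nat_lit 156183636524)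 (nat_lit 152) (nat_lit 158681747723) (nat_lit 0) (nat_lit 155192539321) (nat_lit 159) (nat_lit 5) (nat_lit 161) (nat_lit 4) (nat_lit 159) (nat_lit 4) (nat_lit 355) (nat_lit 297) (nat_lit 248)) (XT.lf (nat_lit 0) (nat_lit 169992456737) (nat_lit 76) (nat_lit 173481802473) (nat_lit 76) (nat_lit 172490567936) (nat_lit 158) (nat_lit 4) (nat_lit 159) (nat_lit 5) (nat_lit 159) (nat_lit 4) (nat_lit 356) (nat_lit 297) (nat_lit 247))) (XT.nd (nat_lit 78) (nat_lit 228) (nat_lit 0) (XT.lf (nat_lit 0) (nat_lit 565705815348) (nat_lit 76) (nat_lit 1402885517) (nat_lit 76) (nat_lit 411531560) (nat_lit 158) (nat_lit 4) (nat_lit 159) (nat_lit 5) (nat_lit 159) (nat_lit 4) (nat_lit 357) (nat_lit 297) (nat_lit 246)) (XT.nd (nat_lit 78) (nat_lit 76) (nat_lit 0) (XT.lf (nat_lit 0) (nat_lit 206748251598) (nat_lit 152) (nat_lit 208920522206) (nat_lit 0) (nat_lit 205886114379) (nat_lit 156) (nat_lit 5) (nat_lit 158) (nat_lit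 4) (nat_lit 156) (nat_lit 4) (nat_lit 358) (nat_lit 297) (nat_lit 245)) (XT.lf (nat_lit 0) (nat_lit 225688137355) (nat_lit 76) (nat_lit 228722623702) (nat_lit 76) (nat_lit 227860407963) (nat_lit 155) (nat_lit 4) (nat_lit 156) (nat_lit 5) (nat_lit 156) (nat_lit 4) (nat_lit 359) (nat_lit 297) (nat_lit 244))))))) (XT.nd (nat_lit 780) (nat_lit 836) (nat_lit 0) (XT.nd (nat_lit 390) (nat_lit 304) (nat_lit 0) (XT.nd (nat_lit 156) (nat_lit 228) (nat_lit 0) (XT.nd (nat_lit 78) (nat_lit 152) (nat_lit 0) (XT.lf (nat_lit 0) (nat_lit 748884743441) (nat_lit 76) (nat_lit 1220054923) (nat_lit 76) (nat_lit 357770905) (nat_lit 155) (nat_lit 4) (nat_lit 156) (nat_lit 5) (nat_lit 156) (nat_lit 4) (nat_lit 360) (nat_lit 297) (nat_lit 243)) (XT.lf (nat_lit 0) (nat_lit 273594394349) (nat_lit 152) (nat_lit 275483325312) (nat_lit 0) (nat_lit 272844530530) (nat_lit 153) (nat_lit 5) (nat_lit 155) (nat_lit 4) (nat_lit 153)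 (nat_lit 4) (nat_lit 361) (nat_lit 297) (nat_lit 242))) (XT.nd (nat_lit 78) (nat_lit 152) (nat_lit 0) (XT.lf (nat_lit 0) (nat_lit 299231861961) (nat_lit 76) (nat_lit 301870701638) (nat_lit 76) (nat_lit 301120792925) (nat_lit 152) (nat_lit 4) (nat_lit 153) (nat_lit 5) (nat_lit 153) (nat_lit 4) (nat_lit 362) (nat_lit 297) (nat_lit 241)) (XT.nd (nat_lit 78) (nat_lit 152) (nat_lit 0) (XT.lf (nat_lit 0) (nat_lit 991042572312) (nat_lit 76) (nat_lit 1061005645) (nat_lit 76) (nat_lit 311057893) (nat_lit 152) (nat_lit 4) (nat_lit 153) (nat_lit 5) (nat_lit 153) (nat_lit 4) (nat_lit 363) (nat_lit 297) (nat_lit 240)) (XT.lf (nat_lit 0) (nat_lit 361976223459) (nat_lit 152) (nat_lit 363618772123) (nat_lit 0) (nat_lit 361324065460) (nat_lit 150) (nat_lit 5) (nat_lit 152) (nat_lit 4) (nat_lit 150) (nat_lit 4) (nat_lit 364) (nat_lit 297) (nat_lit 239))))) (XT.nd (nat_lit 156) (nat_lit 228) (nat_lit 0) (XT.nd (nat_lit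 78) (nat_lit 0) (nat_lit 0) (XT.lf (nat_lit 0) (nat_lit 396394439369) (nat_lit 76) (nat_lit 398689171700) (nat_lit 76) (nat_lit 398036988033) (nat_lit 149) (nat_lit 4) (nat_lit 150) (nat_lit 5) (nat_lit 150) (nat_lit 4) (nat_lit 365) (nat_lit 297) (nat_lit 238)) (XT.lf (nat_lit 0) (nat_lit 1311212532229) (nat_lit 76) (nat_lit 922664102) (nat_lit 76) (nat_lit 270458114) (nat_lit 149) (nat_lit 4) (nat_lit 150) (nat_lit 5) (nat_lit 150) (nat_lit 4) (nat_lit 366) (nat_lit 297) (nat_lit 237))) (XT.nd (nat_lit 78) (nat_lit 76) (nat_lit 0) (XT.lf (nat_lit 0) (nat_lit 478841911036) (nat_lit 152) (nat_lit 480270214222) (nat_lit 0) (nat_lit 478274758517) (nat_lit 147) (nat_lit 5) (nat_lit 149) (nat_lit 4) (nat_lit 147) (nat_lit 4) (nat_lit 367) (nat_lit 297) (nat_lit 236)) (XT.nd (nat_lit 78) (nat_lit 0) (nat_lit 0) (XT.lf (nat_lit 0) (nat_lit 524805844972) (nat_lit 76) (nat_lit 526801315354) (nat_lit 76)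 (nat_lit 526234148158) (nat_lit 146) (nat_lit 4) (nat_lit 147) (nat_lit 5) (nat_lit 147) (nat_lit 4) (nat_lit 368) (nat_lit 297) (nat_lit 235)) (XT.lf (nat_lit 0) (nat_lit 1734564446625) (nat_lit 76) (nat_lit 802345483) (nat_lit 76) (nat_lit 235165525) (nat_lit 146) (nat_lit 4) (nat_lit 147) (nat_lit 5) (nat_lit 147) (nat_lit 4) (nat_lit 369) (nat_lit 297) (nat_lit 234)))))) (XT.nd (nat_lit 390) (nat_lit 380) (nat_lit 0) (XT.nd (nat_lit 156) (nat_lit 228) (nat_lit 0) (XT.nd (nat_lit 78) (nat_lit 76) (nat_lit 0) (XT.lf (nat_lit 0) (nat_lit 633380026866) (nat_lit 152) (nat_lit 634622029637) (nat_lit 0) (nat_lit 632886817253) (nat_lit 144) (nat_lit 5) (nat_lit 146) (nat_lit 4) (nat_lit 144) (nat_lit 4) (nat_lit 370) (nat_lit 297) (nat_lit 233)) (XT.lf (nat_lit 0) (nat_lit 694555046706) (nat_lit 76) (nat_lit 696290267480) (nat_lit 76) (nat_lit 695797049476) (nat_lit 143) (nat_lit 4) (nat_lit 144) (nat_lit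 5) (nat_lit 144) (nat_lit 4) (nat_lit 371) (nat_lit 297) (nat_lit 232))) (XT.nd (nat_lit 78) (nat_lit 228) (nat_lit 0) (XT.lf (nat_lit 0) (nat_lit 2294383990302) (nat_lit 76) (nat_lit 697708232) (nat_lit 76) (nat_lit 204482931) (nat_lit 143) (nat_lit 4) (nat_lit 144) (nat_lit 5) (nat_lit 144) (nat_lit 4) (nat_lit 372) (nat_lit 297) (nat_lit 231)) (XT.nd (nat_lit 78) (nat_lit 76) (nat_lit 0) (XT.lf (nat_lit 0) (nat_lit 837742120605) (nat_lit 152) (nat_lit 838822123015) (nat_lit 0) (nat_lit 837313223523) (nat_lit 141) (nat_lit 5) (nat_lit 143) (nat_lit 4) (nat_lit 141) (nat_lit 4) (nat_lit 373) (nat_lit 297) (nat_lit 230)) (XT.lf (nat_lit 0) (nat_lit 918983245353) (nat_lit 76) (nat_lit 920492149642) (nat_lit 76) (nat_lit 920063247762) (nat_lit 140) (nat_lit 4) (nat_lit 141) (nat_lit 5) (nat_lit 141) (nat_lit 4) (nat_lit 374) (nat_lit 297) (nat_lit 229))))) (XT.nd (nat_lit 156) (nat_lit 228) (nat_lit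 0) (XT.nd (nat_lit 78) (nat_lit 152) (nat_lit 0) (XT.lf (nat_lit 0) (nat_lit 3034690233490) (nat_lit 76) (nat_lit 606712249) (nat_lit 76) (nat_lit 177806196) (nat_lit 140) (nat_lit 4) (nat_lit 141) (nat_lit 5) (nat_lit 141) (nat_lit 4) (nat_lit 375) (nat_lit 297) (nat_lit 228)) (XT.lf (nat_lit 0) (nat_lit 1107998328261) (nat_lit 152) (nat_lit 1108937460790) (nat_lit 0) (nat_lit 1107625363321) (nat_lit 138) (nat_lit 5) (nat_lit 140) (nat_lit 4) (nat_lit 138) (nat_lit 4) (nat_lit 376) (nat_lit 297) (nat_lit 227))) (XT.nd (nat_lit 78) (nat_lit 152) (nat_lit 0) (XT.lf (nat_lit 0) (nat_lit 1215732908150) (nat_lit 76) (nat_lit 1217045008362) (nat_lit 76) (nat_lit 1216672040680) (nat_lit 137) (nat_lit 4) (nat_lit 138) (nat_lit 5) (nat_lit 138) (nat_lit 4) (nat_lit 377) (nat_lit 297) (nat_lit 226)) (XT.nd (nat_lit 78) (nat_lit 152) (nat_lit 0) (XT.lf (nat_lit 0) (nat_lit 4013697321334) (nat_lit 76) (nat_lit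 527581265) (nat_lit 76) (nat_lit 154611197) (nat_lit 137) (nat_lit 4) (nat_lit 138) (nat_lit 5) (nat_lit 138) (nat_lit 4) (nat_lit 378) (nat_lit 297) (nat_lit 225)) (XT.lf (nat_lit 0) (nat_lit 1465401155001) (nat_lit 152) (nat_lit 1466217791983) (nat_lit 0) (nat_lit 1465076831399) (nat_lit 135) (nat_lit 5) (nat_lit 137) (nat_lit 4) (nat_lit 135) (nat_lit 4) (nat_lit 379) (nat_lit 297) (nat_lit 224))))))))
noncomputable def xc38 : XT := (XT.nd (nat_lit 42276) (nat_lit 0) (nat_lit 3344) (XT.nd (nat_lit 41496) (nat_lit 0) (nat_lit 4788) (XT.nd (nat_lit 41106) (nat_lit 0) (nat_lit 5852) (XT.nd (nat_lit 156) (nat_lit 152) (nat_lit 0) (XT.nd (nat_lit 78) (nat_lit 0) (nat_lit 0) (XT.lf (nat_lit 0) (nat_lit 1608135091930) (nat_lit 76) (nat_lit 1609276054083) (nat_lit 76) (nat_lit 1608951728913) (nat_lit 134) (nat_lit 4) (nat_lit 135) (nat_lit 5) (nat_lit 135) (nat_lit 4) (nat_lit 380) (nat_lit 297) (nat_lit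 223)) (XT.lf (nat_lit 0) (nat_lit 5308392524886) (nat_lit 76) (nat_lit 458769402) (nat_lit 76) (nat_lit 134442869) (nat_lit 134) (nat_lit 4) (nat_lit 135) (nat_lit 5) (nat_lit 135) (nat_lit 4) (nat_lit 381) (nat_lit 297) (nat_lit 222))) (XT.nd (nat_lit 40794) (nat_lit 0) (nat_lit 6612) (XT.lf (nat_lit 0) (nat_lit 1938056822410) (nat_lit 152) (nat_lit 1938766941525) (nat_lit 0) (nat_lit 1937774798306) (nat_lit 132) (nat_lit 5) (nat_lit 134) (nat_lit 4) (nat_lit 132) (nat_lit 4) (nat_lit 382) (nat_lit 297) (nat_lit 221)) (XT.nd (nat_lit 78) (nat_lit 228) (nat_lit 0) (XT.lf (nat_lit 0) (nat_lit 699295385) (nat_lit 228) (nat_lit 2005059584) (nat_lit 0) (nat_lit 699295385) (nat_lit 222) (nat_lit 5) (nat_lit 225) (nat_lit 4) (nat_lit 222) (nat_lit 4) (nat_lit 304) (nat_lit 298) (nat_lit 298)) (XT.lf (nat_lit 0) (nat_lit 784152188) (nat_lit 228) (nat_lit 4042754707) (nat_lit 228) (nat_lit 2201008589)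 (nat_lit 219) (nat_lit 4) (nat_lit 222) (nat_lit 5) (nat_lit 222) (nat_lit 4) (nat_lit 305) (nat_lit 298) (nat_lit 297))))) (XT.nd (nat_lit 156) (nat_lit 380) (nat_lit 0) (XT.nd (nat_lit 78) (nat_lit 304) (nat_lit 0) (XT.lf (nat_lit 0) (nat_lit 1081234106) (nat_lit 304) (nat_lit 1118611153) (nat_lit 76) (nat_lit 5113659225) (nat_lit 218) (nat_lit 5) (nat_lit 222) (nat_lit 5) (nat_lit 219) (nat_lit 4) (nat_lit 306) (nat_lit 298) (nat_lit 296)) (XT.lf (nat_lit 0) (nat_lit 4400761228) (nat_lit 380) (nat_lit 3064265479) (nat_lit 0) (nat_lit 195640231) (nat_lit 214) (nat_lit 5) (nat_lit 219) (nat_lit 4) (nat_lit 214) (nat_lit 4) (nat_lit 307) (nat_lit 298) (nat_lit 295))) (XT.nd (nat_lit 78) (nat_lit 152) (nat_lit 0) (XT.lf (nat_lit 0) (nat_lit 29854416) (nat_lit 228) (nat_lit 5193958321) (nat_lit 76) (nat_lit 2852262468) (nat_lit 211) (nat_lit 5) (nat_lit 214) (nat_lit 5) (nat_lit 212) (nat_lit 4)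 (nat_lit 308) (nat_lit 298) (nat_lit 294)) (XT.nd (nat_lit 78) (nat_lit 0) (nat_lit 0) (XT.lf (nat_lit 0) (nat_lit 932397113) (nat_lit 152) (nat_lit 2372819515) (nat_lit 228) (nat_lit 5251409496) (nat_lit 209) (nat_lit 5) (nat_lit 211) (nat_lit 5) (nat_lit 212) (nat_lit 4) (nat_lit 309) (nat_lit 298) (nat_lit 293)) (XT.lf (nat_lit 0) (nat_lit 7036160061) (nat_lit 228) (nat_lit 1103216559) (nat_lit 0) (nat_lit 975241529) (nat_lit 209) (nat_lit 5) (nat_lit 212) (nat_lit 4) (nat_lit 209) (nat_lit 4) (nat_lit 310) (nat_lit 298) (nat_lit 292)))))) (XT.nd (nat_lit 390) (nat_lit 456) (nat_lit 0) (XT.nd (nat_lit 156) (nat_lit 304) (nat_lit 0) (XT.nd (nat_lit 78) (nat_lit 76) (nat_lit 0) (XT.lf (nat_lit 0) (nat_lit 1499769027) (nat_lit 228) (nat_lit 3438485195) (nat_lit 76) (nat_lit 4797928881) (nat_lit 206) (nat_lit 5) (nat_lit 209) (nat_lit 5) (nat_lit 207) (nat_lit 4) (nat_lit 311) (nat_lit 298) (nat_lit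 291)) (XT.lf (nat_lit 0) (nat_lit 4287873784) (nat_lit 76) (nat_lit 1049057184) (nat_lit 152) (nat_lit 5108956413) (nat_lit 205) (nat_lit 5) (nat_lit 206) (nat_lit 5) (nat_lit 207) (nat_lit 4) (nat_lit 312) (nat_lit 298) (nat_lit 290))) (XT.nd (nat_lit 78) (nat_lit 152) (nat_lit 0) (XT.lf (nat_lit 0) (nat_lit 1842648297) (nat_lit 152) (nat_lit 8023477811) (nat_lit 152) (nat_lit 1378452357) (nat_lit 203) (nat_lit 4) (nat_lit 205) (nat_lit 5) (nat_lit 205) (nat_lit 4) (nat_lit 313) (nat_lit 298) (nat_lit 289)) (XT.nd (nat_lit 78) (nat_lit 76) (nat_lit 0) (XT.lf (nat_lit 0) (nat_lit 2754980376) (nat_lit 228) (nat_lit 1066053163) (nat_lit 76) (nat_lit 8308570091) (nat_lit 202) (nat_lit 5) (nat_lit 205) (nat_lit 5) (nat_lit 203) (nat_lit 4) (nat_lit 314) (nat_lit 298) (nat_lit 288)) (XT.lf (nat_lit 0) (nat_lit 7538901240) (nat_lit 152) (nat_lit 4371903672) (nat_lit 0) (nat_lit 1200991496) (nat_lit 201)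 (nat_lit 5) (nat_lit 203) (nat_lit 4) (nat_lit 201) (nat_lit 4) (nat_lit 315) (nat_lit 298) (nat_lit 287))))) (XT.nd (nat_lit 156) (nat_lit 228) (nat_lit 0) (XT.nd (nat_lit 78) (nat_lit 152) (nat_lit 0) (XT.lf (nat_lit 0) (nat_lit 5791535044) (nat_lit 76) (nat_lit 7489006754) (nat_lit 76) (nat_lit 924756569) (nat_lit 200) (nat_lit 4) (nat_lit 201) (nat_lit 5) (nat_lit 201) (nat_lit 4) (nat_lit 316) (nat_lit 298) (nat_lit 286)) (XT.lf (nat_lit 0) (nat_lit 2088198140) (nat_lit 76) (nat_lit 2027739580) (nat_lit 152) (nat_lit 11306097612) (nat_lit 198) (nat_lit 5) (nat_lit 199) (nat_lit 5) (nat_lit 200) (nat_lit 4) (nat_lit 317) (nat_lit 298) (nat_lit 285))) (XT.nd (nat_lit 78) (nat_lit 228) (nat_lit 0) (XT.lf (nat_lit 0) (nat_lit 10222828101) (nat_lit 152) (nat_lit 2336317867) (nat_lit 0) (nat_lit 4194816057) (nat_lit 198) (nat_lit 5) (nat_lit 200) (nat_lit 4) (nat_lit 198) (nat_lit 4) (nat_lit 318)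 (nat_lit 298) (nat_lit 284)) (XT.nd (nat_lit 78) (nat_lit 152) (nat_lit 0) (XT.lf (nat_lit 0) (nat_lit 10782004759) (nat_lit 76) (nat_lit 6804957201) (nat_lit 76) (nat_lit 647534274) (nat_lit 197) (nat_lit 4) (nat_lit 198) (nat_lit 5) (nat_lit 198) (nat_lit 4) (nat_lit 319) (nat_lit 298) (nat_lit 283)) (XT.lf (nat_lit 0) (nat_lit 5768812316) (nat_lit 152) (nat_lit 13784377075) (nat_lit 0) (nat_lit 316678292) (nat_lit 195) (nat_lit 5) (nat_lit 197) (nat_lit 4) (nat_lit 195) (nat_lit 4) (nat_lit 320) (nat_lit 298) (nat_lit 282))))))) (XT.nd (nat_lit 780) (nat_lit 684) (nat_lit 0) (XT.nd (nat_lit 390) (nat_lit 456) (nat_lit 0) (XT.nd (nat_lit 156) (nat_lit 228) (nat_lit 0) (XT.nd (nat_lit 78) (nat_lit 0) (nat_lit 0) (XT.lf (nat_lit 0) (nat_lit 32377389) (nat_lit 76) (nat_lit 13585165927) (nat_lit 76) (nat_lit 8047942148) (nat_lit 194) (nat_lit 4) (nat_lit 195) (nat_lit 5) (nat_lit 195) (nat_lit 4)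 (nat_lit 321) (nat_lit 298) (nat_lit 281)) (XT.lf (nat_lit 0) (nat_lit 17092160654) (nat_lit 76) (nat_lit 6084750524) (nat_lit 76) (nat_lit 473535653) (nat_lit 194) (nat_lit 4) (nat_lit 195) (nat_lit 5) (nat_lit 195) (nat_lit 4) (nat_lit 322) (nat_lit 298) (nat_lit 280))) (XT.nd (nat_lit 78) (nat_lit 76) (nat_lit 0) (XT.lf (nat_lit 0) (nat_lit 7927859276) (nat_lit 152) (nat_lit 14897915588) (nat_lit 0) (nat_lit 2992594101) (nat_lit 192) (nat_lit 5) (nat_lit 194) (nat_lit 4) (nat_lit 192) (nat_lit 4) (nat_lit 323) (nat_lit 298) (nat_lit 279)) (XT.nd (nat_lit 78) (nat_lit 0) (nat_lit 0) (XT.lf (nat_lit 0) (nat_lit 3097612263) (nat_lit 76) (nat_lit 15051584093) (nat_lit 76) (nat_lit 10067668575) (nat_lit 191) (nat_lit 4) (nat_lit 192) (nat_lit 5) (nat_lit 192) (nat_lit 4) (nat_lit 324) (nat_lit 298) (nat_lit 278)) (XT.lf (nat_lit 0) (nat_lit 25135045470) (nat_lit 76) (nat_lit 5386796868) (nat_lit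 76) (nat_lit 360576703) (nat_lit 191) (nat_lit 4) (nat_lit 192) (nat_lit 5) (nat_lit 192) (nat_lit 4) (nat_lit 325) (nat_lit 298) (nat_lit 277))))) (XT.nd (nat_lit 156) (nat_lit 228) (nat_lit 0) (XT.nd (nat_lit 78) (nat_lit 76) (nat_lit 0) (XT.lf (nat_lit 0) (nat_lit 10697947427) (nat_lit 152) (nat_lit 16758865959) (nat_lit 0) (nat_lit 6295332805) (nat_lit 189) (nat_lit 5) (nat_lit 191) (nat_lit 4) (nat_lit 189) (nat_lit 4) (nat_lit 326) (nat_lit 298) (nat_lit 276)) (XT.lf (nat_lit 0) (nat_lit 6797132398) (nat_lit 76) (nat_lit 17288481544) (nat_lit 76) (nat_lit 12858050930) (nat_lit 188) (nat_lit 4) (nat_lit 189) (nat_lit 5) (nat_lit 189) (nat_lit 4) (nat_lit 327) (nat_lit 298) (nat_lit 275))) (XT.nd (nat_lit 78) (nat_lit 228) (nat_lit 0) (XT.lf (nat_lit 0) (nat_lit 35480107462) (nat_lit 76) (nat_lit 4738893382) (nat_lit 76) (nat_lit 284274949) (nat_lit 188) (nat_lit 4) (nat_lit 189) (nat_lit 5)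 (nat_lit 189) (nat_lit 4) (nat_lit 328) (nat_lit 298) (nat_lit 274)) (XT.nd (nat_lit 78) (nat_lit 76) (nat_lit 0) (XT.lf (nat_lit 0) (nat_lit 14307086406) (nat_lit 152) (nat_lit 19577450347) (nat_lit 0) (nat_lit 10415215694) (nat_lit 186) (nat_lit 5) (nat_lit 188) (nat_lit 4) (nat_lit 186) (nat_lit 4) (nat_lit 329) (nat_lit 298) (nat_lit 273)) (XT.lf (nat_lit 0) (nat_lit 11362773925) (nat_lit 76) (nat_lit 20540912461) (nat_lit 76) (nat_lit 16633137865) (nat_lit 185) (nat_lit 4) (nat_lit 186) (nat_lit 5) (nat_lit 186) (nat_lit 4) (nat_lit 330) (nat_lit 298) (nat_lit 272)))))) (XT.nd (nat_lit 390) (nat_lit 304) (nat_lit 0) (XT.nd (nat_lit 156) (nat_lit 228) (nat_lit 0) (XT.nd (nat_lit 78) (nat_lit 152) (nat_lit 0) (XT.lf (nat_lit 0) (nat_lit 48891381551) (nat_lit 76) (nat_lit 4152064445) (nat_lit 76) (nat_lit 230460385) (nat_lit 185) (nat_lit 4) (nat_lit 186) (nat_lit 5) (nat_lit 186) (nat_lit 4)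 (nat_lit 331) (nat_lit 298) (nat_lit 271)) (XT.lf (nat_lit 0) (nat_lit 19044290408) (nat_lit 152) (nat_lit 23627215573) (nat_lit 0) (nat_lit 15623742859) (nat_lit 183) (nat_lit 5) (nat_lit 185) (nat_lit 4) (nat_lit 183) (nat_lit 4) (nat_lit 332) (nat_lit 298) (nat_lit 270))) (XT.nd (nat_lit 78) (nat_lit 152) (nat_lit 0) (XT.lf (nat_lit 0) (nat_lit 17105687737) (nat_lit 76) (nat_lit 25118253549) (nat_lit 76) (nat_lit 21688612903) (nat_lit 182) (nat_lit 4) (nat_lit 183) (nat_lit 5) (nat_lit 183) (nat_lit 4) (nat_lit 333) (nat_lit 298) (nat_lit 269)) (XT.nd (nat_lit 78) (nat_lit 152) (nat_lit 0) (XT.lf (nat_lit 0) (nat_lit 66383537262) (nat_lit 76) (nat_lit 3628379603) (nat_lit 76) (nat_lit 190831917) (nat_lit 182) (nat_lit 4) (nat_lit 183) (nat_lit 5) (nat_lit 183) (nat_lit 4) (nat_lit 334) (nat_lit 298) (nat_lit 268)) (XT.lf (nat_lit 0) (nat_lit 25284522867) (nat_lit 152) (nat_lit 29269675186) (nat_lit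 0) (nat_lit 22289372107) (nat_lit 180) (nat_lit 5) (nat_lit 182) (nat_lit 4) (nat_lit 180) (nat_lit 4) (nat_lit 335) (nat_lit 298) (nat_lit 267))))) (XT.nd (nat_lit 156) (nat_lit 228) (nat_lit 0) (XT.nd (nat_lit 78) (nat_lit 0) (nat_lit 0) (XT.lf (nat_lit 0) (nat_lit 24437854073) (nat_lit 76) (nat_lit 31423356159) (nat_lit 76) (nat_lit 28423006391) (nat_lit 179) (nat_lit 4) (nat_lit 180) (nat_lit 5) (nat_lit 180) (nat_lit 4) (nat_lit 336) (nat_lit 298) (nat_lit 266)) (XT.lf (nat_lit 0) (nat_lit 89299137713) (nat_lit 76) (nat_lit 3165340667) (nat_lit 76) (nat_lit 160470023) (nat_lit 179) (nat_lit 4) (nat_lit 180) (nat_lit 5) (nat_lit 180) (nat_lit 4) (nat_lit 337) (nat_lit 298) (nat_lit 265))) (XT.nd (nat_lit 78) (nat_lit 76) (nat_lit 0) (XT.lf (nat_lit 0) (nat_lit 33519440990) (nat_lit 152) (nat_lit 36984790832) (nat_lit 0) (nat_lit 30903091563) (nat_lit 177) (nat_lit 5) (nat_lit 179) (nat_lit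 4) (nat_lit 177) (nat_lit 4) (nat_lit 338) (nat_lit 298) (nat_lit 264)) (XT.nd (nat_lit 78) (nat_lit 0) (nat_lit 0) (XT.lf (nat_lit 0) (nat_lit 33902552244) (nat_lit 76) (nat_lit 39987224062) (nat_lit 76) (nat_lit 37367902085) (nat_lit 176) (nat_lit 4) (nat_lit 177) (nat_lit 5) (nat_lit 177) (nat_lit 4) (nat_lit 339) (nat_lit 298) (nat_lit 263)) (XT.lf (nat_lit 0) (nat_lit 119412573040) (nat_lit 76) (nat_lit 2758318020) (nat_lit 76) (nat_lit 136411217) (nat_lit 176) (nat_lit 4) (nat_lit 177) (nat_lit 5) (nat_lit 177) (nat_lit 4) (nat_lit 340) (nat_lit 298) (nat_lit 262))))))))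
noncomputable def xc39 : XT := (XT.nd (nat_lit 1560) (nat_lit 1520) (nat_lit 0) (XT.nd (nat_lit 780) (nat_lit 760) (nat_lit 0) (XT.nd (nat_lit 390) (nat_lit 380) (nat_lit 0) (XT.nd (nat_lit 156) (nat_lit 228) (nat_lit 0) (XT.nd (nat_lit 78) (nat_lit 76) (nat_lit 0) (XT.lf (nat_lit 0) (nat_lit 44396770279) (nat_lit 152) (nat_lit 47410117967) (nat_lit 0) (nat_lit 42114896820) (nat_lit 174) (nat_lit 5) (nat_lit 176) (nat_lit 4) (nat_lit 174) (nat_lit 4) (nat_lit 341) (nat_lit 298) (nat_lit 261)) (XT.lf (nat_lit 0) (nat_lit 46215773898) (nat_lit 76) (nat_lit 51512694610) (nat_lit 76) (nat_lit 49229121587) (nat_lit 173) (nat_lit 4) (nat_lit 174) (nat_lit 5) (nat_lit 174) (nat_lit 4) (nat_lit 342) (nat_lit 298) (nat_lit 260))) (XT.nd (nat_lit 78) (nat_lit 228) (nat_lit 0) (XT.lf (nat_lit 0) (nat_lit 159068487795) (nat_lit 76) (nat_lit 2401880950) (nat_lit 76) (nat_lit 116830044) (nat_lit 173) (nat_lit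 4) (nat_lit 174) (nat_lit 5) (nat_lit 174) (nat_lit 4) (nat_lit 343) (nat_lit 298) (nat_lit 259)) (XT.nd (nat_lit 78) (nat_lit 76) (nat_lit 0) (XT.lf (nat_lit 0) (nat_lit 58771641193) (nat_lit 152) (nat_lit 61391943531) (nat_lit 0) (nat_lit 56783522914) (nat_lit 171) (nat_lit 5) (nat_lit 173) (nat_lit 4) (nat_lit 171) (nat_lit 4) (nat_lit 344) (nat_lit 298) (nat_lit 258)) (XT.lf (nat_lit 0) (nat_lit 62321599413) (nat_lit 76) (nat_lit 66930991762) (nat_lit 76) (nat_lit 64941901751) (nat_lit 170) (nat_lit 4) (nat_lit 171) (nat_lit 5) (nat_lit 171) (nat_lit 4) (nat_lit 345) (nat_lit 298) (nat_lit 257))))) (XT.nd (nat_lit 156) (nat_lit 228) (nat_lit 0) (XT.nd (nat_lit 78) (nat_lit 152) (nat_lit 0) (XT.lf (nat_lit 0) (nat_lit 211365382922) (nat_lit 76) (nat_lit 2090503811) (nat_lit 76) (nat_lit 100568816) (nat_lit 170) (nat_lit 4) (nat_lit 171) (nat_lit 5) (nat_lit 171) (nat_lit 4) (nat_lit 346) (nat_lit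 298) (nat_lit 256)) (XT.lf (nat_lit 0) (nat_lit 77774059761) (nat_lit 152) (nat_lit 80052583533) (nat_lit 0) (nat_lit 76043042575) (nat_lit 168) (nat_lit 5) (nat_lit 170) (nat_lit 4) (nat_lit 168) (nat_lit 4) (nat_lit 347) (nat_lit 298) (nat_lit 255))) (XT.nd (nat_lit 78) (nat_lit 152) (nat_lit 0) (XT.lf (nat_lit 0) (nat_lit 83465753190) (nat_lit 76) (nat_lit 87475849739) (nat_lit 76) (nat_lit 85744276963) (nat_lit 167) (nat_lit 4) (nat_lit 168) (nat_lit 5) (nat_lit 168) (nat_lit 4) (nat_lit 348) (nat_lit 298) (nat_lit 254)) (XT.nd (nat_lit 78) (nat_lit 152) (nat_lit 0) (XT.lf (nat_lit 0) (nat_lit 280398710759) (nat_lit 76) (nat_lit 1818922410) (nat_lit 76) (nat_lit 86866511) (nat_lit 167) (nat_lit 4) (nat_lit 168) (nat_lit 5) (nat_lit 168) (nat_lit 4) (nat_lit 349) (nat_lit 298) (nat_lit 253)) (XT.lf (nat_lit 0) (nat_lit 102897895062) (nat_lit 152) (nat_lit 104879220081) (nat_lit 0) (nat_lit 101391394187)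 (nat_lit 165) (nat_lit 5) (nat_lit 167) (nat_lit 4) (nat_lit 165) (nat_lit 4) (nat_lit 350) (nat_lit 298) (nat_lit 252)))))) (XT.nd (nat_lit 390) (nat_lit 456) (nat_lit 0) (XT.nd (nat_lit 156) (nat_lit 228) (nat_lit 0) (XT.nd (nat_lit 78) (nat_lit 0) (nat_lit 0) (XT.lf (nat_lit 0) (nat_lit 111293039835) (nat_lit 76) (nat_lit 114781183389) (nat_lit 76) (nat_lit 113274364854) (nat_lit 164) (nat_lit 4) (nat_lit 165) (nat_lit 5) (nat_lit 165) (nat_lit 4) (nat_lit 351) (nat_lit 298) (nat_lit 251)) (XT.lf (nat_lit 0) (nat_lit 371582509407) (nat_lit 76) (nat_lit 1582296593) (nat_lit 76) (nat_lit 75201831) (nat_lit 164) (nat_lit 4) (nat_lit 165) (nat_lit 5) (nat_lit 165) (nat_lit 4) (nat_lit 352) (nat_lit 298) (nat_lit 250))) (XT.nd (nat_lit 78) (nat_lit 76) (nat_lit 0) (XT.lf (nat_lit 0) (nat_lit 136118425649) (nat_lit 152) (nat_lit 137841316970) (nat_lit 0) (nat_lit 134807699598) (nat_lit 162) (nat_lit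 5) (nat_lit 164) (nat_lit 4) (nat_lit 162) (nat_lit 4) (nat_lit 353) (nat_lit 298) (nat_lit 249)) (XT.nd (nat_lit 78) (nat_lit 0) (nat_lit 0) (XT.lf (nat_lit 0) (nat_lit 147976273982) (nat_lit 76) (nat_lit 151010072978) (nat_lit 76) (nat_lit 149699165303) (nat_lit 161) (nat_lit 4) (nat_lit 162) (nat_lit 5) (nat_lit 162) (nat_lit 4) (nat_lit 354) (nat_lit 298) (nat_lit 248)) (XT.lf (nat_lit 0) (nat_lit 492074827838) (nat_lit 76) (nat_lit 1376267387) (nat_lit 76) (nat_lit 65201779) (nat_lit 161) (nat_lit 4) (nat_lit 162) (nat_lit 5) (nat_lit 162) (nat_lit 4) (nat_lit 355) (nat_lit 298) (nat_lit 247))))) (XT.nd (nat_lit 156) (nat_lit 228) (nat_lit 0) (XT.nd (nat_lit 78) (nat_lit 76) (nat_lit 0) (XT.lf (nat_lit 0) (nat_lit 180047714130) (nat_lit 152) (nat_lit 181545880496) (nat_lit 0) (nat_lit 178907537659) (nat_lit 159) (nat_lit 5) (nat_lit 161) (nat_lit 4) (nat_lit 159) (nat_lit 4) (nat_lit 356)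 (nat_lit 298) (nat_lit 246)) (XT.lf (nat_lit 0) (nat_lit 196386812388) (nat_lit 76) (nat_lit 199025259070) (nat_lit 76) (nat_lit 197884978754) (nat_lit 158) (nat_lit 4) (nat_lit 159) (nat_lit 5) (nat_lit 159) (nat_lit 4) (nat_lit 357) (nat_lit 298) (nat_lit 245))) (XT.nd (nat_lit 78) (nat_lit 228) (nat_lit 0) (XT.lf (nat_lit 0) (nat_lit 651340372121) (nat_lit 76) (nat_lit 1196958541) (nat_lit 76) (nat_lit 56587927) (nat_lit 158) (nat_lit 4) (nat_lit 159) (nat_lit 5) (nat_lit 159) (nat_lit 4) (nat_lit 358) (nat_lit 298) (nat_lit 244)) (XT.nd (nat_lit 78) (nat_lit 76) (nat_lit 0) (XT.lf (nat_lit 0) (nat_lit 238140043285) (nat_lit 152) (nat_lit 239442796647) (nat_lit 0) (nat_lit 237148348385) (nat_lit 156) (nat_lit 5) (nat_lit 158) (nat_lit 4) (nat_lit 156) (nat_lit 4) (nat_lit 359) (nat_lit 298) (nat_lit 243)) (XT.lf (nat_lit 0) (nat_lit 260320079852) (nat_lit 76) (nat_lit 262614587488) (nat_lit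 76) (nat_lit 261622833214) (nat_lit 155) (nat_lit 4) (nat_lit 156) (nat_lit 5) (nat_lit 156) (nat_lit 4) (nat_lit 360) (nat_lit 298) (nat_lit 242))))))) (XT.nd (nat_lit 780) (nat_lit 836) (nat_lit 0) (XT.nd (nat_lit 390) (nat_lit 304) (nat_lit 0) (XT.nd (nat_lit 156) (nat_lit 228) (nat_lit 0) (XT.nd (nat_lit 78) (nat_lit 152) (nat_lit 0) (XT.lf (nat_lit 0) (nat_lit 861894604430) (nat_lit 76) (nat_lit 1040950318) (nat_lit 76) (nat_lit 49144416) (nat_lit 155) (nat_lit 4) (nat_lit 156) (nat_lit 5) (nat_lit 156) (nat_lit 4) (nat_lit 361) (nat_lit 298) (nat_lit 241)) (XT.lf (nat_lit 0) (nat_lit 314963577996) (nat_lit 152) (nat_lit 316096407006) (nat_lit 0) (nat_lit 314101099043) (nat_lit 153) (nat_lit 5) (nat_lit 155) (nat_lit 4) (nat_lit 153) (nat_lit 4) (nat_lit 362) (nat_lit 298) (nat_lit 240))) (XT.nd (nat_lit 78) (nat_lit 152) (nat_lit 0) (XT.lf (nat_lit 0) (nat_lit 344793812126) (nat_lit 76) (nat_lit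 346789154037) (nat_lit 76) (nat_lit 345926641137) (nat_lit 152) (nat_lit 4) (nat_lit 153) (nat_lit 5) (nat_lit 153) (nat_lit 4) (nat_lit 363) (nat_lit 298) (nat_lit 239)) (XT.nd (nat_lit 78) (nat_lit 152) (nat_lit 0) (XT.lf (nat_lit 0) (nat_lit 1140287802394) (nat_lit 76) (nat_lit 905240973) (nat_lit 76) (nat_lit 42698553) (nat_lit 152) (nat_lit 4) (nat_lit 153) (nat_lit 5) (nat_lit 153) (nat_lit 4) (nat_lit 364) (nat_lit 298) (nat_lit 238)) (XT.lf (nat_lit 0) (nat_lit 416559621983) (nat_lit 152) (nat_lit 417544690688) (nat_lit 0) (nat_lit 415809562777) (nat_lit 150) (nat_lit 5) (nat_lit 152) (nat_lit 4) (nat_lit 150) (nat_lit 4) (nat_lit 365) (nat_lit 298) (nat_lit 237))))) (XT.nd (nat_lit 156) (nat_lit 228) (nat_lit 0) (XT.nd (nat_lit 78) (nat_lit 0) (nat_lit 0) (XT.lf (nat_lit 0) (nat_lit 456442461744) (nat_lit 76) (nat_lit 458177609064) (nat_lit 76) (nat_lit 457427530448) (nat_lit 149) (nat_lit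 4) (nat_lit 150) (nat_lit 5) (nat_lit 150) (nat_lit 4) (nat_lit 366) (nat_lit 298) (nat_lit 236)) (XT.lf (nat_lit 0) (nat_lit 1508406461167) (nat_lit 76) (nat_lit 787204247) (nat_lit 76) (nat_lit 37108753) (nat_lit 149) (nat_lit 4) (nat_lit 150) (nat_lit 5) (nat_lit 150) (nat_lit 4) (nat_lit 367) (nat_lit 298) (nat_lit 235))) (XT.nd (nat_lit 78) (nat_lit 76) (nat_lit 0) (XT.lf (nat_lit 0) (nat_lit 550917725151) (nat_lit 152) (nat_lit 551774306634) (nat_lit 0) (nat_lit 550265455439) (nat_lit 147) (nat_lit 5) (nat_lit 149) (nat_lit 4) (nat_lit 147) (nat_lit 4) (nat_lit 368) (nat_lit 298) (nat_lit 234)) (XT.nd (nat_lit 78) (nat_lit 0) (nat_lit 0) (XT.lf (nat_lit 0) (nat_lit 604038777816) (nat_lit 76) (nat_lit 605547640109) (nat_lit 76) (nat_lit 604895359299) (nat_lit 146) (nat_lit 4) (nat_lit 147) (nat_lit 5) (nat_lit 147) (nat_lit 4) (nat_lit 369) (nat_lit 298) (nat_lit 233)) (XT.lf (nat_lit 0) (nat_lit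 1995194379792) (nat_lit 76) (nat_lit 684547263) (nat_lit 76) (nat_lit 32256804) (nat_lit 146) (nat_lit 4) (nat_lit 147) (nat_lit 5) (nat_lit 147) (nat_lit 4) (nat_lit 370) (nat_lit 298) (nat_lit 232)))))) (XT.nd (nat_lit 390) (nat_lit 380) (nat_lit 0) (XT.nd (nat_lit 156) (nat_lit 228) (nat_lit 0) (XT.nd (nat_lit 78) (nat_lit 76) (nat_lit 0) (XT.lf (nat_lit 0) (nat_lit 728604007106) (nat_lit 152) (nat_lit 729348860569) (nat_lit 0) (nat_lit 728036790714) (nat_lit 144) (nat_lit 5) (nat_lit 146) (nat_lit 4) (nat_lit 144) (nat_lit 4) (nat_lit 371) (nat_lit 298) (nat_lit 231)) (XT.lf (nat_lit 0) (nat_lit 799183573884) (nat_lit 76) (nat_lit 800495650084) (nat_lit 76) (nat_lit 799928427347) (nat_lit 143) (nat_lit 4) (nat_lit 144) (nat_lit 5) (nat_lit 144) (nat_lit 4) (nat_lit 372) (nat_lit 298) (nat_lit 230))) (XT.nd (nat_lit 78) (nat_lit 228) (nat_lit 0) (XT.lf (nat_lit 0) (nat_lit 2638928780301) (nat_lit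 76) (nat_lit 595270972) (nat_lit 76) (nat_lit 28042718) (nat_lit 143) (nat_lit 4) (nat_lit 144) (nat_lit 5) (nat_lit 144) (nat_lit 4) (nat_lit 373) (nat_lit 298) (nat_lit 229)) (XT.nd (nat_lit 78) (nat_lit 76) (nat_lit 0) (XT.lf (nat_lit 0) (nat_lit 963592111266) (nat_lit 152) (nat_lit 964239809929) (nat_lit 0) (nat_lit 963098865134) (nat_lit 141) (nat_lit 5) (nat_lit 143) (nat_lit 4) (nat_lit 141) (nat_lit 4) (nat_lit 374) (nat_lit 298) (nat_lit 228)) (XT.lf (nat_lit 0) (nat_lit 1057217925896) (nat_lit 76) (nat_lit 1058358874319) (nat_lit 76) (nat_lit 1057865624560) (nat_lit 140) (nat_lit 4) (nat_lit 141) (nat_lit 5) (nat_lit 141) (nat_lit 4) (nat_lit 375) (nat_lit 298) (nat_lit 227))))) (XT.nd (nat_lit 156) (nat_lit 228) (nat_lit 0) (XT.nd (nat_lit 78) (nat_lit 152) (nat_lit 0) (XT.lf (nat_lit 0) (nat_lit 3490230458723) (nat_lit 76) (nat_lit 517634069) (nat_lit 76) (nat_lit 24381155) (nat_lit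 140) (nat_lit 4) (nat_lit 141) (nat_lit 5) (nat_lit 141) (nat_lit 4) (nat_lit 376) (nat_lit 298) (nat_lit 226)) (XT.lf (nat_lit 0) (nat_lit 1274362139234) (nat_lit 152) (nat_lit 1274925355463) (nat_lit 0) (nat_lit 1273933221271) (nat_lit 138) (nat_lit 5) (nat_lit 140) (nat_lit 4) (nat_lit 138) (nat_lit 4) (nat_lit 377) (nat_lit 298) (nat_lit 225))) (XT.nd (nat_lit 78) (nat_lit 152) (nat_lit 0) (XT.lf (nat_lit 0) (nat_lit 1398429535889) (nat_lit 76) (nat_lit 1399421672155) (nat_lit 76) (nat_lit 1398992752118) (nat_lit 137) (nat_lit 4) (nat_lit 138) (nat_lit 5) (nat_lit 138) (nat_lit 4) (nat_lit 378) (nat_lit 298) (nat_lit 224)) (XT.nd (nat_lit 78) (nat_lit 152) (nat_lit 0) (XT.lf (nat_lit 0) (nat_lit 4616044694766) (nat_lit 76) (nat_lit 450120662) (nat_lit 76) (nat_lit 21198821) (nat_lit 137) (nat_lit 4) (nat_lit 138) (nat_lit 5) (nat_lit 138) (nat_lit 4) (nat_lit 379) (nat_lit 298) (nat_lit 223))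 (XT.lf (nat_lit 0) (nat_lit 1685353989846) (nat_lit 152) (nat_lit 1685843743088) (nat_lit 0) (nat_lit 1684981012968) (nat_lit 135) (nat_lit 5) (nat_lit 137) (nat_lit 4) (nat_lit 135) (nat_lit 4) (nat_lit 380) (nat_lit 298) (nat_lit 222))))))))
noncomputable def xc40 : XT := (XT.nd (nat_lit 42120) (nat_lit 0) (nat_lit 3268) (XT.nd (nat_lit 41340) (nat_lit 0) (nat_lit 4788) (XT.nd (nat_lit 40950) (nat_lit 0) (nat_lit 5852) (XT.nd (nat_lit 40716) (nat_lit 0) (nat_lit 6688) (XT.nd (nat_lit 78) (nat_lit 0) (nat_lit 0) (XT.lf (nat_lit 0) (nat_lit 1849648131699) (nat_lit 76) (nat_lit 1850510863005) (nat_lit 76) (nat_lit 1850137884942) (nat_lit 134) (nat_lit 4) (nat_lit 135) (nat_lit 5) (nat_lit 135) (nat_lit 4) (nat_lit 381) (nat_lit 298) (nat_lit 221)) (XT.lf (nat_lit 0) (nat_lit 6104905991427) (nat_lit 76) (nat_lit 391411604) (nat_lit 76) (nat_lit 18432510) (nat_lit 134) (nat_lit 4) (nat_lit 135) (nat_lit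 5) (nat_lit 135) (nat_lit 4) (nat_lit 382) (nat_lit 298) (nat_lit 220))) (XT.nd (nat_lit 78) (nat_lit 228) (nat_lit 0) (XT.lf (nat_lit 0) (nat_lit 314801580) (nat_lit 76) (nat_lit 1473742483) (nat_lit 76) (nat_lit 1473742483) (nat_lit 225) (nat_lit 4) (nat_lit 226) (nat_lit 5) (nat_lit 226) (nat_lit 4) (nat_lit 302) (nat_lit 299) (nat_lit 299)) (XT.nd (nat_lit 78) (nat_lit 152) (nat_lit 0) (XT.lf (nat_lit 0) (nat_lit 286775766) (nat_lit 152) (nat_lit 1819141343) (nat_lit 76) (nat_lit 4546846453) (nat_lit 224) (nat_lit 5) (nat_lit 226) (nat_lit 5) (nat_lit 225) (nat_lit 4) (nat_lit 303) (nat_lit 299) (nat_lit 298)) (XT.lf (nat_lit 0) (nat_lit 2555488115) (nat_lit 152) (nat_lit 751119044) (nat_lit 228) (nat_lit 3532192297) (nat_lit 222) (nat_lit 5) (nat_lit 224) (nat_lit 5) (nat_lit 225) (nat_lit 4) (nat_lit 304) (nat_lit 299) (nat_lit 297))))) (XT.nd (nat_lit 156) (nat_lit 532) (nat_lit 0) (XT.nd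 (nat_lit 78) (nat_lit 76) (nat_lit 0) (XT.lf (nat_lit 0) (nat_lit 287317615) (nat_lit 228) (nat_lit 6186283713) (nat_lit 228) (nat_lit 625011195) (nat_lit 219) (nat_lit 4) (nat_lit 222) (nat_lit 5) (nat_lit 222) (nat_lit 4) (nat_lit 305) (nat_lit 299) (nat_lit 296)) (XT.lf (nat_lit 0) (nat_lit 2317225776) (nat_lit 304) (nat_lit 1971861764) (nat_lit 76) (nat_lit 3115280112) (nat_lit 218) (nat_lit 5) (nat_lit 222) (nat_lit 5) (nat_lit 219) (nat_lit 4) (nat_lit 306) (nat_lit 299) (nat_lit 295))) (XT.nd (nat_lit 78) (nat_lit 228) (nat_lit 0) (XT.lf (nat_lit 0) (nat_lit 3459552259) (nat_lit 304) (nat_lit 1947158164) (nat_lit 380) (nat_lit 2379326054) (nat_lit 214) (nat_lit 5) (nat_lit 218) (nat_lit 5) (nat_lit 219) (nat_lit 4) (nat_lit 307) (nat_lit 299) (nat_lit 294)) (XT.nd (nat_lit 78) (nat_lit 0) (nat_lit 0) (XT.lf (nat_lit 0) (nat_lit 514317892) (nat_lit 228) (nat_lit 6909781288) (nat_lit 76) (nat_lit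 819534258) (nat_lit 211) (nat_lit 5) (nat_lit 214) (nat_lit 5) (nat_lit 212) (nat_lit 4) (nat_lit 308) (nat_lit 299) (nat_lit 293)) (XT.lf (nat_lit 0) (nat_lit 3597169295) (nat_lit 228) (nat_lit 1077888444) (nat_lit 76) (nat_lit 4078003240) (nat_lit 211) (nat_lit 5) (nat_lit 214) (nat_lit 5) (nat_lit 212) (nat_lit 4) (nat_lit 309) (nat_lit 299) (nat_lit 292)))))) (XT.nd (nat_lit 390) (nat_lit 380) (nat_lit 0) (XT.nd (nat_lit 156) (nat_lit 304) (nat_lit 0) (XT.nd (nat_lit 78) (nat_lit 228) (nat_lit 0) (XT.lf (nat_lit 0) (nat_lit 5744912868) (nat_lit 152) (nat_lit 1347689867) (nat_lit 228) (nat_lit 2253776766) (nat_lit 209) (nat_lit 5) (nat_lit 211) (nat_lit 5) (nat_lit 212) (nat_lit 4) (nat_lit 310) (nat_lit 299) (nat_lit 291)) (XT.lf (nat_lit 0) (nat_lit 1024372585) (nat_lit 228) (nat_lit 6585645103) (nat_lit 76) (nat_lit 2406368581) (nat_lit 206) (nat_lit 5) (nat_lit 209) (nat_lit 5) (nat_lit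 207) (nat_lit 4) (nat_lit 311) (nat_lit 299) (nat_lit 290))) (XT.nd (nat_lit 78) (nat_lit 228) (nat_lit 0) (XT.lf (nat_lit 0) (nat_lit 618912536) (nat_lit 76) (nat_lit 3968161962) (nat_lit 152) (nat_lit 6180185054) (nat_lit 205) (nat_lit 5) (nat_lit 206) (nat_lit 5) (nat_lit 207) (nat_lit 4) (nat_lit 312) (nat_lit 299) (nat_lit 289)) (XT.nd (nat_lit 78) (nat_lit 228) (nat_lit 0) (XT.lf (nat_lit 0) (nat_lit 8801845905) (nat_lit 152) (nat_lit 2391308023) (nat_lit 0) (nat_lit 419960268) (nat_lit 205) (nat_lit 5) (nat_lit 207) (nat_lit 4) (nat_lit 205) (nat_lit 4) (nat_lit 313) (nat_lit 299) (nat_lit 288)) (XT.lf (nat_lit 0) (nat_lit 1220740229) (nat_lit 228) (nat_lit 6056629376) (nat_lit 76) (nat_lit 5264016742) (nat_lit 202) (nat_lit 5) (nat_lit 205) (nat_lit 5) (nat_lit 203) (nat_lit 4) (nat_lit 314) (nat_lit 299) (nat_lit 287))))) (XT.nd (nat_lit 156) (nat_lit 304) (nat_lit 0) (XT.nd (nat_lit 78)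 (nat_lit 0) (nat_lit 0) (XT.lf (nat_lit 0) (nat_lit 3130999220) (nat_lit 76) (nat_lit 2484122452) (nat_lit 152) (nat_lit 7966888366) (nat_lit 201) (nat_lit 5) (nat_lit 202) (nat_lit 5) (nat_lit 203) (nat_lit 4) (nat_lit 315) (nat_lit 299) (nat_lit 286)) (XT.lf (nat_lit 0) (nat_lit 10917010432) (nat_lit 152) (nat_lit 879499833) (nat_lit 0) (nat_lit 2944964503) (nat_lit 201) (nat_lit 5) (nat_lit 203) (nat_lit 4) (nat_lit 201) (nat_lit 4) (nat_lit 316) (nat_lit 299) (nat_lit 285))) (XT.nd (nat_lit 78) (nat_lit 152) (nat_lit 0) (XT.lf (nat_lit 0) (nat_lit 1250181213) (nat_lit 152) (nat_lit 5455302210) (nat_lit 76) (nat_lit 9304369033) (nat_lit 199) (nat_lit 5) (nat_lit 201) (nat_lit 5) (nat_lit 200) (nat_lit 4) (nat_lit 317) (nat_lit 299) (nat_lit 284)) (XT.nd (nat_lit 78) (nat_lit 76) (nat_lit 0) (XT.lf (nat_lit 0) (nat_lit 6388077010) (nat_lit 76) (nat_lit 439872451) (nat_lit 152) (nat_lit 10593198007)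 (nat_lit 198) (nat_lit 5) (nat_lit 199) (nat_lit 5) (nat_lit 200) (nat_lit 4) (nat_lit 318) (nat_lit 299) (nat_lit 283)) (XT.lf (nat_lit 0) (nat_lit 1081229945) (nat_lit 76) (nat_lit 12609329390) (nat_lit 76) (nat_lit 5286350942) (nat_lit 197) (nat_lit 4) (nat_lit 198) (nat_lit 5) (nat_lit 198) (nat_lit 4) (nat_lit 319) (nat_lit 299) (nat_lit 282))))))) (XT.nd (nat_lit 780) (nat_lit 760) (nat_lit 0) (XT.nd (nat_lit 390) (nat_lit 380) (nat_lit 0) (XT.nd (nat_lit 156) (nat_lit 228) (nat_lit 0) (XT.nd (nat_lit 78) (nat_lit 76) (nat_lit 0) (XT.lf (nat_lit 0) (nat_lit 1194985623) (nat_lit 152) (nat_lit 4851612577) (nat_lit 76) (nat_lit 14646694486) (nat_lit 196) (nat_lit 5) (nat_lit 198) (nat_lit 5) (nat_lit 197) (nat_lit 4) (nat_lit 320) (nat_lit 299) (nat_lit 281)) (XT.lf (nat_lit 0) (nat_lit 8481183873) (nat_lit 152) (nat_lit 12137810827) (nat_lit 0) (nat_lit 1954295679) (nat_lit 195) (nat_lit 5)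 (nat_lit 197) (nat_lit 4) (nat_lit 195) (nat_lit 4) (nat_lit 321) (nat_lit 299) (nat_lit 280))) (XT.nd (nat_lit 78) (nat_lit 152) (nat_lit 0) (XT.lf (nat_lit 0) (nat_lit 3582628497) (nat_lit 76) (nat_lit 13830483724) (nat_lit 76) (nat_lit 7239255451) (nat_lit 194) (nat_lit 4) (nat_lit 195) (nat_lit 5) (nat_lit 195) (nat_lit 4) (nat_lit 322) (nat_lit 299) (nat_lit 279)) (XT.nd (nat_lit 78) (nat_lit 76) (nat_lit 0) (XT.lf (nat_lit 0) (nat_lit 1100793827) (nat_lit 152) (nat_lit 4280469439) (nat_lit 76) (nat_lit 21580601167) (nat_lit 193) (nat_lit 5) (nat_lit 195) (nat_lit 5) (nat_lit 194) (nat_lit 4) (nat_lit 323) (nat_lit 299) (nat_lit 278)) (XT.lf (nat_lit 0) (nat_lit 10698876908) (nat_lit 152) (nat_lit 13878552520) (nat_lit 0) (nat_lit 4876419071) (nat_lit 192) (nat_lit 5) (nat_lit 194) (nat_lit 4) (nat_lit 192) (nat_lit 4) (nat_lit 324) (nat_lit 299) (nat_lit 277))))) (XT.nd (nat_lit 156) (nat_lit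 228) (nat_lit 0) (XT.nd (nat_lit 78) (nat_lit 76) (nat_lit 0) (XT.lf (nat_lit 0) (nat_lit 6668393127) (nat_lit 76) (nat_lit 15707313225) (nat_lit 76) (nat_lit 9848068739) (nat_lit 191) (nat_lit 4) (nat_lit 192) (nat_lit 5) (nat_lit 192) (nat_lit 4) (nat_lit 325) (nat_lit 299) (nat_lit 276)) (XT.lf (nat_lit 0) (nat_lit 992475416) (nat_lit 152) (nat_lit 3757410731) (nat_lit 76) (nat_lit 30561937933) (nat_lit 190) (nat_lit 5) (nat_lit 192) (nat_lit 5) (nat_lit 191) (nat_lit 4) (nat_lit 326) (nat_lit 299) (nat_lit 275))) (XT.nd (nat_lit 78) (nat_lit 152) (nat_lit 0) (XT.lf (nat_lit 0) (nat_lit 13664262779) (nat_lit 152) (nat_lit 16429198093) (nat_lit 0) (nat_lit 8517263762) (nat_lit 189) (nat_lit 5) (nat_lit 191) (nat_lit 4) (nat_lit 189) (nat_lit 4) (nat_lit 327) (nat_lit 299) (nat_lit 274)) (XT.nd (nat_lit 78) (nat_lit 76) (nat_lit 0) (XT.lf (nat_lit 0) (nat_lit 10530950119) (nat_lit 76) (nat_lit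 18463917337) (nat_lit 76) (nat_lit 13295885434) (nat_lit 188) (nat_lit 4) (nat_lit 189) (nat_lit 5) (nat_lit 189) (nat_lit 4) (nat_lit 328) (nat_lit 299) (nat_lit 273)) (XT.lf (nat_lit 0) (nat_lit 883184060) (nat_lit 152) (nat_lit 3287475638) (nat_lit 76) (nat_lit 42232988612) (nat_lit 187) (nat_lit 5) (nat_lit 189) (nat_lit 5) (nat_lit 188) (nat_lit 4) (nat_lit 329) (nat_lit 299) (nat_lit 272)))))) (XT.nd (nat_lit 390) (nat_lit 380) (nat_lit 0) (XT.nd (nat_lit 156) (nat_lit 228) (nat_lit 0) (XT.nd (nat_lit 78) (nat_lit 76) (nat_lit 0) (XT.lf (nat_lit 0) (nat_lit 17629228659) (nat_lit 152) (nat_lit 20033520237) (nat_lit 0) (nat_lit 13105554526) (nat_lit 186) (nat_lit 5) (nat_lit 188) (nat_lit 4) (nat_lit 186) (nat_lit 4) (nat_lit 330) (nat_lit 299) (nat_lit 271)) (XT.lf (nat_lit 0) (nat_lit 15434985509) (nat_lit 76) (nat_lit 22374976841) (nat_lit 76) (nat_lit 17839277088) (nat_lit 185) (nat_lit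 4) (nat_lit 186) (nat_lit 5) (nat_lit 186) (nat_lit 4) (nat_lit 331) (nat_lit 299) (nat_lit 270))) (XT.nd (nat_lit 78) (nat_lit 152) (nat_lit 0) (XT.lf (nat_lit 0) (nat_lit 779513805) (nat_lit 152) (nat_lit 2870202134) (nat_lit 76) (nat_lit 57463780271) (nat_lit 184) (nat_lit 5) (nat_lit 186) (nat_lit 5) (nat_lit 185) (nat_lit 4) (nat_lit 332) (nat_lit 299) (nat_lit 269)) (XT.nd (nat_lit 78) (nat_lit 76) (nat_lit 0) (XT.lf (nat_lit 0) (nat_lit 22919071369) (nat_lit 152) (nat_lit 25009759698) (nat_lit 0) (nat_lit 18957984489) (nat_lit 183) (nat_lit 5) (nat_lit 185) (nat_lit 4) (nat_lit 183) (nat_lit 4) (nat_lit 333) (nat_lit 299) (nat_lit 268)) (XT.lf (nat_lit 0) (nat_lit 21734827373) (nat_lit 76) (nat_lit 27793478270) (nat_lit 76) (nat_lit 23825515701) (nat_lit 182) (nat_lit 4) (nat_lit 183) (nat_lit 5) (nat_lit 183) (nat_lit 4) (nat_lit 334) (nat_lit 299) (nat_lit 267))))) (XT.nd (nat_lit 156)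 (nat_lit 228) (nat_lit 0) (XT.nd (nat_lit 78) (nat_lit 76) (nat_lit 0) (XT.lf (nat_lit 0) (nat_lit 684429071) (nat_lit 152) (nat_lit 2502418922) (nat_lit 76) (nat_lit 77415023957) (nat_lit 181) (nat_lit 5) (nat_lit 183) (nat_lit 5) (nat_lit 182) (nat_lit 4) (nat_lit 335) (nat_lit 299) (nat_lit 266)) (XT.lf (nat_lit 0) (nat_lit 29959942268) (nat_lit 152) (nat_lit 31777932119) (nat_lit 0) (nat_lit 26499820151) (nat_lit 180) (nat_lit 5) (nat_lit 182) (nat_lit 4) (nat_lit 180) (nat_lit 4) (nat_lit 336) (nat_lit 299) (nat_lit 265))) (XT.nd (nat_lit 78) (nat_lit 152) (nat_lit 0) (XT.lf (nat_lit 0) (nat_lit 29900172239) (nat_lit 76) (nat_lit 35182215405) (nat_lit 76) (nat_lit 31718162091) (nat_lit 179) (nat_lit 4) (nat_lit 180) (nat_lit 5) (nat_lit 180) (nat_lit 4) (nat_lit 337) (nat_lit 299) (nat_lit 264)) (XT.nd (nat_lit 78) (nat_lit 76) (nat_lit 0) (XT.lf (nat_lit 0) (nat_lit 598924128) (nat_lit 152)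 (nat_lit 2179784869) (nat_lit 76) (nat_lit 103626072544) (nat_lit 178) (nat_lit 5) (nat_lit 180) (nat_lit 5) (nat_lit 179) (nat_lit 4) (nat_lit 338) (nat_lit 299) (nat_lit 263)) (XT.lf (nat_lit 0) (nat_lit 39313473769) (nat_lit 152) (nat_lit 40894334509) (nat_lit 0) (nat_lit 36295696120) (nat_lit 177) (nat_lit 5) (nat_lit 179) (nat_lit 4) (nat_lit 177) (nat_lit 4) (nat_lit 339) (nat_lit 299) (nat_lit 262))))))))
noncomputable def xc41 : XT := (XT.nd (nat_lit 1560) (nat_lit 1520) (nat_lit 0) (XT.nd (nat_lit 780) (nat_lit 760) (nat_lit 0) (XT.nd (nat_lit 390) (nat_lit 380) (nat_lit 0) (XT.nd (nat_lit 156) (nat_lit 228) (nat_lit 0) (XT.nd (nat_lit 78) (nat_lit 76) (nat_lit 0) (XT.lf (nat_lit 0) (nat_lit 40551647530) (nat_lit 76) (nat_lit 45152533594) (nat_lit 76) (nat_lit 42132508270) (nat_lit 176) (nat_lit 4) (nat_lit 177) (nat_lit 5) (nat_lit 177) (nat_lit 4) (nat_lit 340) (nat_lit 299) (nat_lit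 261)) (XT.lf (nat_lit 0) (nat_lit 522958193) (nat_lit 152) (nat_lit 1897619706) (nat_lit 76) (nat_lit 138133914308) (nat_lit 175) (nat_lit 5) (nat_lit 177) (nat_lit 5) (nat_lit 176) (nat_lit 4) (nat_lit 341) (nat_lit 299) (nat_lit 260))) (XT.nd (nat_lit 78) (nat_lit 152) (nat_lit 0) (XT.lf (nat_lit 0) (nat_lit 51721625591) (nat_lit 152) (nat_lit 53096287104) (nat_lit 0) (nat_lit 49092339167) (nat_lit 174) (nat_lit 5) (nat_lit 176) (nat_lit 4) (nat_lit 174) (nat_lit 4) (nat_lit 342) (nat_lit 299) (nat_lit 259)) (XT.nd (nat_lit 78) (nat_lit 76) (nat_lit 0) (XT.lf (nat_lit 0) (nat_lit 54508699971) (nat_lit 76) (nat_lit 58513933024) (nat_lit 76) (nat_lit 55883361484) (nat_lit 173) (nat_lit 4) (nat_lit 174) (nat_lit 5) (nat_lit 174) (nat_lit 4) (nat_lit 343) (nat_lit 299) (nat_lit 258)) (XT.lf (nat_lit 0) (nat_lit 455978156) (nat_lit 152) (nat_lit 1651335994) (nat_lit 76) (nat_lit 183632043227) (nat_lit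 172) (nat_lit 5) (nat_lit 174) (nat_lit 5) (nat_lit 173) (nat_lit 4) (nat_lit 344) (nat_lit 299) (nat_lit 257))))) (XT.nd (nat_lit 156) (nat_lit 228) (nat_lit 0) (XT.nd (nat_lit 78) (nat_lit 76) (nat_lit 0) (XT.lf (nat_lit 0) (nat_lit 68165458501) (nat_lit 152) (nat_lit 69360816339) (nat_lit 0) (nat_lit 65876188273) (nat_lit 171) (nat_lit 5) (nat_lit 173) (nat_lit 4) (nat_lit 171) (nat_lit 4) (nat_lit 345) (nat_lit 299) (nat_lit 256)) (XT.lf (nat_lit 0) (nat_lit 72853398105) (nat_lit 76) (nat_lit 76338760940) (nat_lit 76) (nat_lit 74048755942) (nat_lit 170) (nat_lit 4) (nat_lit 171) (nat_lit 5) (nat_lit 171) (nat_lit 4) (nat_lit 346) (nat_lit 299) (nat_lit 255))) (XT.nd (nat_lit 78) (nat_lit 152) (nat_lit 0) (XT.lf (nat_lit 0) (nat_lit 397207088) (nat_lit 152) (nat_lit 1436648686) (nat_lit 76) (nat_lit 243681401722) (nat_lit 169) (nat_lit 5) (nat_lit 171) (nat_lit 5) (nat_lit 170) (nat_lit 4) (nat_lit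 347) (nat_lit 299) (nat_lit 254)) (XT.nd (nat_lit 78) (nat_lit 76) (nat_lit 0) (XT.lf (nat_lit 0) (nat_lit 89942561862) (nat_lit 152) (nat_lit 90982003460) (nat_lit 0) (nat_lit 87950214456) (nat_lit 168) (nat_lit 5) (nat_lit 170) (nat_lit 4) (nat_lit 168) (nat_lit 4) (nat_lit 348) (nat_lit 299) (nat_lit 253)) (XT.lf (nat_lit 0) (nat_lit 97015062517) (nat_lit 76) (nat_lit 100047271628) (nat_lit 76) (nat_lit 98054504115) (nat_lit 167) (nat_lit 4) (nat_lit 168) (nat_lit 5) (nat_lit 168) (nat_lit 4) (nat_lit 349) (nat_lit 299) (nat_lit 252)))))) (XT.nd (nat_lit 390) (nat_lit 380) (nat_lit 0) (XT.nd (nat_lit 156) (nat_lit 228) (nat_lit 0) (XT.nd (nat_lit 78) (nat_lit 76) (nat_lit 0) (XT.lf (nat_lit 0) (nat_lit 345800178) (nat_lit 152) (nat_lit 1249662437) (nat_lit 76) (nat_lit 322989812013) (nat_lit 166) (nat_lit 5) (nat_lit 168) (nat_lit 5) (nat_lit 167) (nat_lit 4) (nat_lit 350) (nat_lit 299) (nat_lit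 251)) (XT.lf (nat_lit 0) (nat_lit 118769284309) (nat_lit 152) (nat_lit 119673146568) (nat_lit 0) (nat_lit 117035849106) (nat_lit 165) (nat_lit 5) (nat_lit 167) (nat_lit 4) (nat_lit 165) (nat_lit 4) (nat_lit 351) (nat_lit 299) (nat_lit 250))) (XT.nd (nat_lit 78) (nat_lit 152) (nat_lit 0) (XT.lf (nat_lit 0) (nat_lit 128882317948) (nat_lit 76) (nat_lit 131519855608) (nat_lit 76) (nat_lit 129786180207) (nat_lit 164) (nat_lit 4) (nat_lit 165) (nat_lit 5) (nat_lit 165) (nat_lit 4) (nat_lit 352) (nat_lit 299) (nat_lit 249)) (XT.nd (nat_lit 78) (nat_lit 76) (nat_lit 0) (XT.lf (nat_lit 0) (nat_lit 300926058) (nat_lit 152) (nat_lit 1086893240) (nat_lit 76) (nat_lit 427781770523) (nat_lit 163) (nat_lit 5) (nat_lit 165) (nat_lit 5) (nat_lit 164) (nat_lit 4) (nat_lit 353) (nat_lit 299) (nat_lit 248)) (XT.lf (nat_lit 0) (nat_lit 156915842278) (nat_lit 152) (nat_lit 157701809460) (nat_lit 0) (nat_lit 155407958895)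 (nat_lit 162) (nat_lit 5) (nat_lit 164) (nat_lit 4) (nat_lit 162) (nat_lit 4) (nat_lit 354) (nat_lit 299) (nat_lit 247))))) (XT.nd (nat_lit 156) (nat_lit 228) (nat_lit 0) (XT.nd (nat_lit 78) (nat_lit 76) (nat_lit 0) (XT.lf (nat_lit 0) (nat_lit 170951342633) (nat_lit 76) (nat_lit 173245330532) (nat_lit 76) (nat_lit 171737309815) (nat_lit 161) (nat_lit 4) (nat_lit 162) (nat_lit 5) (nat_lit 162) (nat_lit 4) (nat_lit 355) (nat_lit 299) (nat_lit 246)) (XT.lf (nat_lit 0) (nat_lit 261806480) (nat_lit 152) (nat_lit 945256203) (nat_lit 76) (nat_lit 566287627632) (nat_lit 160) (nat_lit 5) (nat_lit 162) (nat_lit 5) (nat_lit 161) (nat_lit 4) (nat_lit 356) (nat_lit 299) (nat_lit 245))) (XT.nd (nat_lit 78) (nat_lit 152) (nat_lit 0) (XT.lf (nat_lit 0) (nat_lit 207384952253) (nat_lit 152) (nat_lit 208068401976) (nat_lit 0) (nat_lit 206073435748) (nat_lit 159) (nat_lit 5) (nat_lit 161) (nat_lit 4) (nat_lit 159)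 (nat_lit 4) (nat_lit 357) (nat_lit 299) (nat_lit 244)) (XT.nd (nat_lit 78) (nat_lit 76) (nat_lit 0) (XT.lf (nat_lit 0) (nat_lit 226521951178) (nat_lit 76) (nat_lit 228516995927) (nat_lit 76) (nat_lit 227205400901) (nat_lit 158) (nat_lit 4) (nat_lit 159) (nat_lit 5) (nat_lit 159) (nat_lit 4) (nat_lit 358) (nat_lit 299) (nat_lit 243)) (XT.lf (nat_lit 0) (nat_lit 227733078) (nat_lit 152) (nat_lit 822037185) (nat_lit 76) (nat_lit 749390587962) (nat_lit 157) (nat_lit 5) (nat_lit 159) (nat_lit 5) (nat_lit 158) (nat_lit 4) (nat_lit 359) (nat_lit 299) (nat_lit 242))))))) (XT.nd (nat_lit 780) (nat_lit 760) (nat_lit 0) (XT.nd (nat_lit 390) (nat_lit 380) (nat_lit 0) (XT.nd (nat_lit 156) (nat_lit 228) (nat_lit 0) (XT.nd (nat_lit 78) (nat_lit 76) (nat_lit 0) (XT.lf (nat_lit 0) (nat_lit 274148047093) (nat_lit 152) (nat_lit 274742351200) (nat_lit 0) (nat_lit 273007418676) (nat_lit 156) (nat_lit 5) (nat_lit 158)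 (nat_lit 4) (nat_lit 156) (nat_lit 4) (nat_lit 360) (nat_lit 299) (nat_lit 241)) (XT.lf (nat_lit 0) (nat_lit 299956917459) (nat_lit 76) (nat_lit 301691894877) (nat_lit 76) (nat_lit 300551221567) (nat_lit 155) (nat_lit 4) (nat_lit 156) (nat_lit 5) (nat_lit 156) (nat_lit 4) (nat_lit 361) (nat_lit 299) (nat_lit 240))) (XT.nd (nat_lit 78) (nat_lit 152) (nat_lit 0) (XT.lf (nat_lit 0) (nat_lit 198071799) (nat_lit 152) (nat_lit 714857979) (nat_lit 76) (nat_lit 991482391828) (nat_lit 154) (nat_lit 5) (nat_lit 156) (nat_lit 5) (nat_lit 155) (nat_lit 4) (nat_lit 362) (nat_lit 299) (nat_lit 239)) (XT.nd (nat_lit 78) (nat_lit 76) (nat_lit 0) (XT.lf (nat_lit 0) (nat_lit 362457660628) (nat_lit 152) (nat_lit 362974446808) (nat_lit 0) (nat_lit 361465707327) (nat_lit 153) (nat_lit 5) (nat_lit 155) (nat_lit 4) (nat_lit 153) (nat_lit 4) (nat_lit 363) (nat_lit 299) (nat_lit 238)) (XT.lf (nat_lit 0) (nat_lit 397024922411)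 (nat_lit 76) (nat_lit 398533687561) (nat_lit 76) (nat_lit 397541708591) (nat_lit 152) (nat_lit 4) (nat_lit 153) (nat_lit 5) (nat_lit 153) (nat_lit 4) (nat_lit 364) (nat_lit 299) (nat_lit 237))))) (XT.nd (nat_lit 156) (nat_lit 228) (nat_lit 0) (XT.nd (nat_lit 78) (nat_lit 76) (nat_lit 0) (XT.lf (nat_lit 0) (nat_lit 172260953) (nat_lit 152) (nat_lit 621640240) (nat_lit 76) (nat_lit 1311594958090) (nat_lit 151) (nat_lit 5) (nat_lit 153) (nat_lit 5) (nat_lit 152) (nat_lit 4) (nat_lit 365) (nat_lit 299) (nat_lit 236)) (XT.lf (nat_lit 0) (nat_lit 479260552053) (nat_lit 152) (nat_lit 479709931340) (nat_lit 0) (nat_lit 478397925357) (nat_lit 150) (nat_lit 5) (nat_lit 152) (nat_lit 4) (nat_lit 150) (nat_lit 4) (nat_lit 366) (nat_lit 299) (nat_lit 235))) (XT.nd (nat_lit 78) (nat_lit 152) (nat_lit 0) (XT.lf (nat_lit 0) (nat_lit 525354091095) (nat_lit 76) (nat_lit 526666111754) (nat_lit 76) (nat_lit 525803470383)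 (nat_lit 149) (nat_lit 4) (nat_lit 150) (nat_lit 5) (nat_lit 150) (nat_lit 4) (nat_lit 367) (nat_lit 299) (nat_lit 234)) (XT.nd (nat_lit 78) (nat_lit 76) (nat_lit 0) (XT.lf (nat_lit 0) (nat_lit 149806201) (nat_lit 152) (nat_lit 540570799) (nat_lit 76) (nat_lit 1734896976049) (nat_lit 148) (nat_lit 5) (nat_lit 150) (nat_lit 5) (nat_lit 149) (nat_lit 4) (nat_lit 368) (nat_lit 299) (nat_lit 233)) (XT.lf (nat_lit 0) (nat_lit 633744062532) (nat_lit 152) (nat_lit 634134827130) (nat_lit 0) (nat_lit 632993918854) (nat_lit 147) (nat_lit 5) (nat_lit 149) (nat_lit 4) (nat_lit 147) (nat_lit 4) (nat_lit 369) (nat_lit 299) (nat_lit 232)))))) (XT.nd (nat_lit 390) (nat_lit 380) (nat_lit 0) (XT.nd (nat_lit 156) (nat_lit 228) (nat_lit 0) (XT.nd (nat_lit 78) (nat_lit 76) (nat_lit 0) (XT.lf (nat_lit 0) (nat_lit 695031782465) (nat_lit 76) (nat_lit 696172699132) (nat_lit 76) (nat_lit 695422547063) (nat_lit 146) (nat_lit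 4) (nat_lit 147) (nat_lit 5) (nat_lit 147) (nat_lit 4) (nat_lit 370) (nat_lit 299) (nat_lit 231)) (XT.lf (nat_lit 0) (nat_lit 130274306) (nat_lit 152) (nat_lit 470069608) (nat_lit 76) (nat_lit 2294673137858) (nat_lit 145) (nat_lit 5) (nat_lit 147) (nat_lit 5) (nat_lit 146) (nat_lit 4) (nat_lit 371) (nat_lit 299) (nat_lit 230))) (XT.nd (nat_lit 78) (nat_lit 152) (nat_lit 0) (XT.lf (nat_lit 0) (nat_lit 838058673359) (nat_lit 152) (nat_lit 838398468661) (nat_lit 0) (nat_lit 837406355349) (nat_lit 144) (nat_lit 5) (nat_lit 146) (nat_lit 4) (nat_lit 144) (nat_lit 4) (nat_lit 372) (nat_lit 299) (nat_lit 229)) (XT.nd (nat_lit 78) (nat_lit 76) (nat_lit 0) (XT.lf (nat_lit 0) (nat_lit 919397798187) (nat_lit 76) (nat_lit 920389916297) (nat_lit 76) (nat_lit 919737593489) (nat_lit 143) (nat_lit 4) (nat_lit 144) (nat_lit 5) (nat_lit 144) (nat_lit 4) (nat_lit 373) (nat_lit 299) (nat_lit 228)) (XT.lf (nat_lit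 0) (nat_lit 113286604) (nat_lit 152) (nat_lit 408760780) (nat_lit 76) (nat_lit 3034941661308) (nat_lit 142) (nat_lit 5) (nat_lit 144) (nat_lit 5) (nat_lit 143) (nat_lit 4) (nat_lit 374) (nat_lit 299) (nat_lit 227))))) (XT.nd (nat_lit 156) (nat_lit 228) (nat_lit 0) (XT.nd (nat_lit 78) (nat_lit 76) (nat_lit 0) (XT.lf (nat_lit 0) (nat_lit 1108273591524) (nat_lit 152) (nat_lit 1108569065700) (nat_lit 0) (nat_lit 1107706347518) (nat_lit 141) (nat_lit 5) (nat_lit 143) (nat_lit 4) (nat_lit 141) (nat_lit 4) (nat_lit 375) (nat_lit 299) (nat_lit 226)) (XT.lf (nat_lit 0) (nat_lit 1216093388876) (nat_lit 76) (nat_lit 1216956109801) (nat_lit 76) (nat_lit 1216388863051) (nat_lit 140) (nat_lit 4) (nat_lit 141) (nat_lit 5) (nat_lit 141) (nat_lit 4) (nat_lit 376) (nat_lit 299) (nat_lit 225))) (XT.nd (nat_lit 78) (nat_lit 152) (nat_lit 0) (XT.lf (nat_lit 0) (nat_lit 98512720) (nat_lit 152) (nat_lit 355446786) (nat_lit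 76) (nat_lit 4013915951452) (nat_lit 139) (nat_lit 5) (nat_lit 141) (nat_lit 5) (nat_lit 140) (nat_lit 4) (nat_lit 377) (nat_lit 299) (nat_lit 224)) (XT.nd (nat_lit 78) (nat_lit 76) (nat_lit 0) (XT.lf (nat_lit 0) (nat_lit 1465640514361) (nat_lit 152) (nat_lit 1465897448427) (nat_lit 0) (nat_lit 1465147252440) (nat_lit 138) (nat_lit 5) (nat_lit 140) (nat_lit 4) (nat_lit 138) (nat_lit 4) (nat_lit 378) (nat_lit 299) (nat_lit 223)) (XT.lf (nat_lit 0) (nat_lit 1608448553431) (nat_lit 76) (nat_lit 1609198750986) (nat_lit 76) (nat_lit 1608705487497) (nat_lit 137) (nat_lit 4) (nat_lit 138) (nat_lit 5) (nat_lit 138) (nat_lit 4) (nat_lit 379) (nat_lit 299) (nat_lit 222))))))))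
noncomputable def xc42 : XT := (XT.nd (nat_lit 41964) (nat_lit 0) (nat_lit 3572) (XT.nd (nat_lit 41184) (nat_lit 0) (nat_lit 5092) (XT.nd (nat_lit 40794) (nat_lit 0) (nat_lit 6384) (XT.nd (nat_lit 156) (nat_lit 76) (nat_lit 0) (XT.nd (nat_lit 78) (nat_lit 76) (nat_lit 0) (XT.lf (nat_lit 0) (nat_lit 85664738) (nat_lit 152) (nat_lit 309085665) (nat_lit 76) (nat_lit 5308582636450) (nat_lit 136) (nat_lit 5) (nat_lit 138) (nat_lit 5) (nat_lit 137) (nat_lit 4) (nat_lit 380) (nat_lit 299) (nat_lit 221)) (XT.lf (nat_lit 0) (nat_lit 1938264960984) (nat_lit 152) (nat_lit 1938488381911) (nat_lit 0) (nat_lit 1937836033994) (nat_lit 135) (nat_lit 5) (nat_lit 137) (nat_lit 4) (nat_lit 135) (nat_lit 4) (nat_lit 381) (nat_lit 299) (nat_lit 220))) (XT.nd (nat_lit 40482) (nat_lit 0) (nat_lit 6992) (XT.lf (nat_lit 0) (nat_lit 2127316732157) (nat_lit 76) (nat_lit 2127969080970) (nat_lit 76) (nat_lit 2127540153084)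 (nat_lit 134) (nat_lit 4) (nat_lit 135) (nat_lit 5) (nat_lit 135) (nat_lit 4) (nat_lit 382) (nat_lit 299) (nat_lit 219)) (XT.nd (nat_lit 78) (nat_lit 76) (nat_lit 0) (XT.lf (nat_lit 0) (nat_lit 1073741823) (nat_lit 0) (nat_lit 0) (nat_lit 0) (nat_lit 0) (nat_lit 227) (nat_lit 0) (nat_lit 1) (nat_lit 0) (nat_lit 1) (nat_lit 0) (nat_lit 300) (nat_lit 300) (nat_lit 300)) (XT.lf (nat_lit 0) (nat_lit 3087841394) (nat_lit 76) (nat_lit 3087841394) (nat_lit 0) (nat_lit 286775766) (nat_lit 226) (nat_lit 5) (nat_lit 227) (nat_lit 0) (nat_lit 226) (nat_lit 4) (nat_lit 301) (nat_lit 300) (nat_lit 299))))) (XT.nd (nat_lit 156) (nat_lit 456) (nat_lit 0) (XT.nd (nat_lit 78) (nat_lit 76) (nat_lit 0) (XT.lf (nat_lit 0) (nat_lit 442122745) (nat_lit 76) (nat_lit 5678897614) (nat_lit 76) (nat_lit 442122745) (nat_lit 225) (nat_lit 4) (nat_lit 226) (nat_lit 5) (nat_lit 226) (nat_lit 4) (nat_lit 302) (nat_lit 300) (nat_lit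 298)) (XT.lf (nat_lit 0) (nat_lit 2334851716) (nat_lit 152) (nat_lit 2334851716) (nat_lit 76) (nat_lit 2041205125) (nat_lit 224) (nat_lit 5) (nat_lit 226) (nat_lit 5) (nat_lit 225) (nat_lit 4) (nat_lit 303) (nat_lit 300) (nat_lit 297))) (XT.nd (nat_lit 78) (nat_lit 304) (nat_lit 0) (XT.lf (nat_lit 0) (nat_lit 1811911362) (nat_lit 152) (nat_lit 3308293468) (nat_lit 228) (nat_lit 1811911362) (nat_lit 222) (nat_lit 5) (nat_lit 224) (nat_lit 5) (nat_lit 225) (nat_lit 4) (nat_lit 304) (nat_lit 300) (nat_lit 296)) (XT.nd (nat_lit 78) (nat_lit 228) (nat_lit 0) (XT.lf (nat_lit 0) (nat_lit 750170881) (nat_lit 228) (nat_lit 750170881) (nat_lit 76) (nat_lit 5721923135) (nat_lit 221) (nat_lit 5) (nat_lit 224) (nat_lit 5) (nat_lit 222) (nat_lit 5) (nat_lit 305) (nat_lit 300) (nat_lit 295)) (XT.lf (nat_lit 0) (nat_lit 3365264886) (nat_lit 304) (nat_lit 3365264886) (nat_lit 76) (nat_lit 834333218) (nat_lit 218)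 (nat_lit 5) (nat_lit 222) (nat_lit 5) (nat_lit 219) (nat_lit 4) (nat_lit 306) (nat_lit 300) (nat_lit 294)))))) (XT.nd (nat_lit 390) (nat_lit 532) (nat_lit 0) (XT.nd (nat_lit 156) (nat_lit 380) (nat_lit 0) (XT.nd (nat_lit 78) (nat_lit 76) (nat_lit 0) (XT.lf (nat_lit 0) (nat_lit 1746984882) (nat_lit 304) (nat_lit 4485849348) (nat_lit 380) (nat_lit 1746984882) (nat_lit 214) (nat_lit 5) (nat_lit 218) (nat_lit 5) (nat_lit 219) (nat_lit 4) (nat_lit 307) (nat_lit 300) (nat_lit 293)) (XT.lf (nat_lit 0) (nat_lit 851645250) (nat_lit 380) (nat_lit 851645250) (nat_lit 76) (nat_lit 6766005753) (nat_lit 213) (nat_lit 5) (nat_lit 218) (nat_lit 5) (nat_lit 214) (nat_lit 5) (nat_lit 308) (nat_lit 300) (nat_lit 292))) (XT.nd (nat_lit 78) (nat_lit 228) (nat_lit 0) (XT.lf (nat_lit 0) (nat_lit 3689584460) (nat_lit 228) (nat_lit 3689584460) (nat_lit 76) (nat_lit 1636291702) (nat_lit 211) (nat_lit 5) (nat_lit 214) (nat_lit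 5) (nat_lit 212) (nat_lit 4) (nat_lit 309) (nat_lit 300) (nat_lit 291)) (XT.nd (nat_lit 78) (nat_lit 76) (nat_lit 0) (XT.lf (nat_lit 0) (nat_lit 2702467619) (nat_lit 152) (nat_lit 4240196911) (nat_lit 228) (nat_lit 2702467619) (nat_lit 209) (nat_lit 5) (nat_lit 211) (nat_lit 5) (nat_lit 212) (nat_lit 4) (nat_lit 310) (nat_lit 300) (nat_lit 290)) (XT.lf (nat_lit 0) (nat_lit 246346005) (nat_lit 228) (nat_lit 246346005) (nat_lit 76) (nat_lit 9880626001) (nat_lit 208) (nat_lit 5) (nat_lit 211) (nat_lit 5) (nat_lit 209) (nat_lit 5) (nat_lit 311) (nat_lit 300) (nat_lit 289))))) (XT.nd (nat_lit 156) (nat_lit 304) (nat_lit 0) (XT.nd (nat_lit 78) (nat_lit 76) (nat_lit 0) (XT.lf (nat_lit 0) (nat_lit 3644734793) (nat_lit 228) (nat_lit 3644734793) (nat_lit 76) (nat_lit 3859368676) (nat_lit 206) (nat_lit 5) (nat_lit 209) (nat_lit 5) (nat_lit 207) (nat_lit 4) (nat_lit 312) (nat_lit 300) (nat_lit 288)) (XT.lf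 (nat_lit 0) (nat_lit 4461926625) (nat_lit 76) (nat_lit 3113457906) (nat_lit 152) (nat_lit 4461926625) (nat_lit 205) (nat_lit 5) (nat_lit 206) (nat_lit 5) (nat_lit 207) (nat_lit 4) (nat_lit 313) (nat_lit 300) (nat_lit 287))) (XT.nd (nat_lit 78) (nat_lit 152) (nat_lit 0) (XT.lf (nat_lit 0) (nat_lit 833004361) (nat_lit 152) (nat_lit 11376035102) (nat_lit 152) (nat_lit 833004361) (nat_lit 203) (nat_lit 4) (nat_lit 205) (nat_lit 5) (nat_lit 205) (nat_lit 4) (nat_lit 314) (nat_lit 300) (nat_lit 286)) (XT.nd (nat_lit 78) (nat_lit 76) (nat_lit 0) (XT.lf (nat_lit 0) (nat_lit 3418847994) (nat_lit 228) (nat_lit 3418847994) (nat_lit 76) (nat_lit 7282648802) (nat_lit 202) (nat_lit 5) (nat_lit 205) (nat_lit 5) (nat_lit 203) (nat_lit 4) (nat_lit 315) (nat_lit 300) (nat_lit 285)) (XT.lf (nat_lit 0) (nat_lit 6985730537) (nat_lit 76) (nat_lit 1363999459) (nat_lit 152) (nat_lit 6985730537) (nat_lit 201) (nat_lit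 5) (nat_lit 202) (nat_lit 5) (nat_lit 203) (nat_lit 4) (nat_lit 316) (nat_lit 300) (nat_lit 284))))))) (XT.nd (nat_lit 780) (nat_lit 760) (nat_lit 0) (XT.nd (nat_lit 390) (nat_lit 380) (nat_lit 0) (XT.nd (nat_lit 156) (nat_lit 228) (nat_lit 0) (XT.nd (nat_lit 78) (nat_lit 76) (nat_lit 0) (XT.lf (nat_lit 0) (nat_lit 2332892556) (nat_lit 76) (nat_lit 12017531554) (nat_lit 76) (nat_lit 2332892556) (nat_lit 200) (nat_lit 4) (nat_lit 201) (nat_lit 5) (nat_lit 201) (nat_lit 4) (nat_lit 317) (nat_lit 300) (nat_lit 283)) (XT.lf (nat_lit 0) (nat_lit 3115571390) (nat_lit 152) (nat_lit 3115571390) (nat_lit 76) (nat_lit 11928508095) (nat_lit 199) (nat_lit 5) (nat_lit 201) (nat_lit 5) (nat_lit 200) (nat_lit 4) (nat_lit 318) (nat_lit 300) (nat_lit 282))) (XT.nd (nat_lit 78) (nat_lit 152) (nat_lit 0) (XT.lf (nat_lit 0) (nat_lit 9474270003) (nat_lit 152) (nat_lit 9474270003) (nat_lit 0) (nat_lit 842460366) (nat_lit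 198) (nat_lit 5) (nat_lit 200) (nat_lit 4) (nat_lit 198) (nat_lit 4) (nat_lit 319) (nat_lit 300) (nat_lit 281)) (XT.nd (nat_lit 78) (nat_lit 76) (nat_lit 0) (XT.lf (nat_lit 0) (nat_lit 4291101213) (nat_lit 76) (nat_lit 13008000605) (nat_lit 76) (nat_lit 4291101213) (nat_lit 197) (nat_lit 4) (nat_lit 198) (nat_lit 5) (nat_lit 198) (nat_lit 4) (nat_lit 320) (nat_lit 300) (nat_lit 280)) (XT.lf (nat_lit 0) (nat_lit 2790758883) (nat_lit 152) (nat_lit 2790758883) (nat_lit 76) (nat_lit 18003290009) (nat_lit 196) (nat_lit 5) (nat_lit 198) (nat_lit 5) (nat_lit 197) (nat_lit 4) (nat_lit 321) (nat_lit 300) (nat_lit 279))))) (XT.nd (nat_lit 156) (nat_lit 228) (nat_lit 0) (XT.nd (nat_lit 78) (nat_lit 76) (nat_lit 0) (XT.lf (nat_lit 0) (nat_lit 11149996395) (nat_lit 152) (nat_lit 11149996395) (nat_lit 0) (nat_lit 3449795905) (nat_lit 195) (nat_lit 5) (nat_lit 197) (nat_lit 4) (nat_lit 195) (nat_lit 4) (nat_lit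 322) (nat_lit 300) (nat_lit 278)) (XT.lf (nat_lit 0) (nat_lit 6800850371) (nat_lit 76) (nat_lit 14549701204) (nat_lit 76) (nat_lit 6800850371) (nat_lit 194) (nat_lit 4) (nat_lit 195) (nat_lit 5) (nat_lit 195) (nat_lit 4) (nat_lit 323) (nat_lit 300) (nat_lit 277))) (XT.nd (nat_lit 78) (nat_lit 152) (nat_lit 0) (XT.lf (nat_lit 0) (nat_lit 2473382692) (nat_lit 152) (nat_lit 2473382692) (nat_lit 76) (nat_lit 25878258247) (nat_lit 193) (nat_lit 5) (nat_lit 195) (nat_lit 5) (nat_lit 194) (nat_lit 4) (nat_lit 324) (nat_lit 300) (nat_lit 276)) (XT.nd (nat_lit 78) (nat_lit 76) (nat_lit 0) (XT.lf (nat_lit 0) (nat_lit 13499805791) (nat_lit 152) (nat_lit 13499805791) (nat_lit 0) (nat_lit 6692899591) (nat_lit 192) (nat_lit 5) (nat_lit 194) (nat_lit 4) (nat_lit 192) (nat_lit 4) (nat_lit 325) (nat_lit 300) (nat_lit 275)) (XT.lf (nat_lit 0) (nat_lit 10017339448) (nat_lit 76) (nat_lit 16852061640) (nat_lit 76)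 (nat_lit 10017339448) (nat_lit 191) (nat_lit 4) (nat_lit 192) (nat_lit 5) (nat_lit 192) (nat_lit 4) (nat_lit 326) (nat_lit 300) (nat_lit 274)))))) (XT.nd (nat_lit 390) (nat_lit 380) (nat_lit 0) (XT.nd (nat_lit 156) (nat_lit 228) (nat_lit 0) (XT.nd (nat_lit 78) (nat_lit 76) (nat_lit 0) (XT.lf (nat_lit 0) (nat_lit 2177431749) (nat_lit 152) (nat_lit 2177431749) (nat_lit 76) (nat_lit 36098321441) (nat_lit 190) (nat_lit 5) (nat_lit 192) (nat_lit 5) (nat_lit 191) (nat_lit 4) (nat_lit 327) (nat_lit 300) (nat_lit 273)) (XT.lf (nat_lit 0) (nat_lit 16743484984) (nat_lit 152) (nat_lit 16743484984) (nat_lit 0) (nat_lit 10760925943) (nat_lit 189) (nat_lit 5) (nat_lit 191) (nat_lit 4) (nat_lit 189) (nat_lit 4) (nat_lit 328) (nat_lit 300) (nat_lit 272))) (XT.nd (nat_lit 78) (nat_lit 152) (nat_lit 0) (XT.lf (nat_lit 0) (nat_lit 14162953968) (nat_lit 76) (nat_lit 20161416893) (nat_lit 76) (nat_lit 14162953968)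 (nat_lit 188) (nat_lit 4) (nat_lit 189) (nat_lit 5) (nat_lit 189) (nat_lit 4) (nat_lit 329) (nat_lit 300) (nat_lit 271)) (XT.nd (nat_lit 78) (nat_lit 76) (nat_lit 0) (XT.lf (nat_lit 0) (nat_lit 1908664250) (nat_lit 152) (nat_lit 1908664250) (nat_lit 76) (nat_lit 49412916671) (nat_lit 187) (nat_lit 5) (nat_lit 189) (nat_lit 5) (nat_lit 188) (nat_lit 4) (nat_lit 330) (nat_lit 300) (nat_lit 270)) (XT.lf (nat_lit 0) (nat_lit 21162897866) (nat_lit 152) (nat_lit 21162897866) (nat_lit 0) (nat_lit 15924360467) (nat_lit 186) (nat_lit 5) (nat_lit 188) (nat_lit 4) (nat_lit 186) (nat_lit 4) (nat_lit 331) (nat_lit 300) (nat_lit 269))))) (XT.nd (nat_lit 156) (nat_lit 228) (nat_lit 0) (XT.nd (nat_lit 78) (nat_lit 76) (nat_lit 0) (XT.lf (nat_lit 0) (nat_lit 19540626906) (nat_lit 76) (nat_lit 24788257402) (nat_lit 76) (nat_lit 19540626906) (nat_lit 185) (nat_lit 4) (nat_lit 186) (nat_lit 5) (nat_lit 186) (nat_lit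 4) (nat_lit 332) (nat_lit 300) (nat_lit 268)) (XT.lf (nat_lit 0) (nat_lit 1668424615) (nat_lit 152) (nat_lit 1668424615) (nat_lit 76) (nat_lit 66827873851) (nat_lit 184) (nat_lit 5) (nat_lit 186) (nat_lit 5) (nat_lit 185) (nat_lit 4) (nat_lit 333) (nat_lit 300) (nat_lit 267))) (XT.nd (nat_lit 78) (nat_lit 152) (nat_lit 0) (XT.lf (nat_lit 0) (nat_lit 27126790223) (nat_lit 152) (nat_lit 27126790223) (nat_lit 0) (nat_lit 22550778722) (nat_lit 183) (nat_lit 5) (nat_lit 185) (nat_lit 4) (nat_lit 183) (nat_lit 4) (nat_lit 334) (nat_lit 300) (nat_lit 266)) (XT.nd (nat_lit 78) (nat_lit 76) (nat_lit 0) (XT.lf (nat_lit 0) (nat_lit 26555192480) (nat_lit 76) (nat_lit 31136402988) (nat_lit 76) (nat_lit 26555192480) (nat_lit 182) (nat_lit 4) (nat_lit 183) (nat_lit 5) (nat_lit 183) (nat_lit 4) (nat_lit 335) (nat_lit 300) (nat_lit 265)) (XT.lf (nat_lit 0) (nat_lit 1455787741) (nat_lit 152) (nat_lit 1455787741)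 (nat_lit 76) (nat_lit 89680273116) (nat_lit 181) (nat_lit 5) (nat_lit 183) (nat_lit 5) (nat_lit 182) (nat_lit 4) (nat_lit 336) (nat_lit 300) (nat_lit 264))))))))
noncomputable def xc43 : XT := (XT.nd (nat_lit 1560) (nat_lit 1520) (nat_lit 0) (XT.nd (nat_lit 780) (nat_lit 760) (nat_lit 0) (XT.nd (nat_lit 390) (nat_lit 380) (nat_lit 0) (XT.nd (nat_lit 156) (nat_lit 228) (nat_lit 0) (XT.nd (nat_lit 78) (nat_lit 76) (nat_lit 0) (XT.lf (nat_lit 0) (nat_lit 35121412604) (nat_lit 152) (nat_lit 35121412604) (nat_lit 0) (nat_lit 31130401663) (nat_lit 180) (nat_lit 5) (nat_lit 182) (nat_lit 4) (nat_lit 180) (nat_lit 4) (nat_lit 337) (nat_lit 300) (nat_lit 263)) (XT.lf (nat_lit 0) (nat_lit 35743716076) (nat_lit 76) (nat_lit 39737699566) (nat_lit 76) (nat_lit 35743716076) (nat_lit 179) (nat_lit 4) (nat_lit 180) (nat_lit 5) (nat_lit 180) (nat_lit 4) (nat_lit 338) (nat_lit 300) (nat_lit 262))) (XT.nd (nat_lit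 78) (nat_lit 152) (nat_lit 0) (XT.lf (nat_lit 0) (nat_lit 1268751846) (nat_lit 152) (nat_lit 1268751846) (nat_lit 76) (nat_lit 119740996717) (nat_lit 178) (nat_lit 5) (nat_lit 180) (nat_lit 5) (nat_lit 179) (nat_lit 4) (nat_lit 339) (nat_lit 300) (nat_lit 261)) (XT.nd (nat_lit 78) (nat_lit 76) (nat_lit 0) (XT.lf (nat_lit 0) (nat_lit 45789789073) (nat_lit 152) (nat_lit 45789789073) (nat_lit 0) (nat_lit 42312557777) (nat_lit 177) (nat_lit 5) (nat_lit 179) (nat_lit 4) (nat_lit 177) (nat_lit 4) (nat_lit 340) (nat_lit 300) (nat_lit 260)) (XT.lf (nat_lit 0) (nat_lit 47816785927) (nat_lit 76) (nat_lit 51295716787) (nat_lit 76) (nat_lit 47816785927) (nat_lit 176) (nat_lit 4) (nat_lit 177) (nat_lit 5) (nat_lit 177) (nat_lit 4) (nat_lit 341) (nat_lit 300) (nat_lit 259))))) (XT.nd (nat_lit 156) (nat_lit 228) (nat_lit 0) (XT.nd (nat_lit 78) (nat_lit 76) (nat_lit 0) (XT.lf (nat_lit 0) (nat_lit 1104891664) (nat_lit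 152) (nat_lit 1104891664) (nat_lit 76) (nat_lit 159352359249) (nat_lit 175) (nat_lit 5) (nat_lit 177) (nat_lit 5) (nat_lit 176) (nat_lit 4) (nat_lit 342) (nat_lit 300) (nat_lit 258)) (XT.lf (nat_lit 0) (nat_lit 59982961883) (nat_lit 152) (nat_lit 59982961883) (nat_lit 0) (nat_lit 56955402006) (nat_lit 174) (nat_lit 5) (nat_lit 176) (nat_lit 4) (nat_lit 174) (nat_lit 4) (nat_lit 343) (nat_lit 300) (nat_lit 257))) (XT.nd (nat_lit 78) (nat_lit 152) (nat_lit 0) (XT.lf (nat_lit 0) (nat_lit 63713783786) (nat_lit 76) (nat_lit 66742315394) (nat_lit 76) (nat_lit 63713783786) (nat_lit 173) (nat_lit 4) (nat_lit 174) (nat_lit 5) (nat_lit 174) (nat_lit 4) (nat_lit 344) (nat_lit 300) (nat_lit 256)) (XT.nd (nat_lit 78) (nat_lit 76) (nat_lit 0) (XT.lf (nat_lit 0) (nat_lit 961706854) (nat_lit 152) (nat_lit 961706854) (nat_lit 76) (nat_lit 211611247479) (nat_lit 172) (nat_lit 5) (nat_lit 174) (nat_lit 5) (nat_lit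 173) (nat_lit 4) (nat_lit 345) (nat_lit 300) (nat_lit 255)) (XT.lf (nat_lit 0) (nat_lit 78827382100) (nat_lit 152) (nat_lit 78827382100) (nat_lit 0) (nat_lit 76192502656) (nat_lit 171) (nat_lit 5) (nat_lit 173) (nat_lit 4) (nat_lit 171) (nat_lit 4) (nat_lit 346) (nat_lit 300) (nat_lit 254)))))) (XT.nd (nat_lit 390) (nat_lit 380) (nat_lit 0) (XT.nd (nat_lit 156) (nat_lit 228) (nat_lit 0) (XT.nd (nat_lit 78) (nat_lit 76) (nat_lit 0) (XT.lf (nat_lit 0) (nat_lit 84676348297) (nat_lit 76) (nat_lit 87311783332) (nat_lit 76) (nat_lit 84676348297) (nat_lit 170) (nat_lit 4) (nat_lit 171) (nat_lit 5) (nat_lit 171) (nat_lit 4) (nat_lit 347) (nat_lit 300) (nat_lit 253)) (XT.lf (nat_lit 0) (nat_lit 836799415) (nat_lit 152) (nat_lit 836799415) (nat_lit 76) (nat_lit 280611945601) (nat_lit 169) (nat_lit 5) (nat_lit 171) (nat_lit 5) (nat_lit 170) (nat_lit 4) (nat_lit 348) (nat_lit 300) (nat_lit 252))) (XT.nd (nat_lit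 78) (nat_lit 152) (nat_lit 0) (XT.lf (nat_lit 0) (nat_lit 103813827531) (nat_lit 152) (nat_lit 103813827531) (nat_lit 0) (nat_lit 101521359475) (nat_lit 168) (nat_lit 5) (nat_lit 170) (nat_lit 4) (nat_lit 168) (nat_lit 4) (nat_lit 349) (nat_lit 300) (nat_lit 251)) (XT.nd (nat_lit 78) (nat_lit 76) (nat_lit 0) (XT.lf (nat_lit 0) (nat_lit 112345731232) (nat_lit 76) (nat_lit 114638516949) (nat_lit 76) (nat_lit 112345731232) (nat_lit 167) (nat_lit 4) (nat_lit 168) (nat_lit 5) (nat_lit 168) (nat_lit 4) (nat_lit 350) (nat_lit 300) (nat_lit 250)) (XT.lf (nat_lit 0) (nat_lit 727956172) (nat_lit 152) (nat_lit 727956172) (nat_lit 76) (nat_lit 371767610584) (nat_lit 166) (nat_lit 5) (nat_lit 168) (nat_lit 5) (nat_lit 167) (nat_lit 4) (nat_lit 351) (nat_lit 300) (nat_lit 249))))) (XT.nd (nat_lit 156) (nat_lit 228) (nat_lit 0) (XT.nd (nat_lit 78) (nat_lit 76) (nat_lit 0) (XT.lf (nat_lit 0) (nat_lit 136914888666)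 (nat_lit 152) (nat_lit 136914888666) (nat_lit 0) (nat_lit 134920712891) (nat_lit 165) (nat_lit 5) (nat_lit 167) (nat_lit 4) (nat_lit 165) (nat_lit 4) (nat_lit 352) (nat_lit 300) (nat_lit 248)) (XT.lf (nat_lit 0) (nat_lit 148891657805) (nat_lit 76) (nat_lit 150886015204) (nat_lit 76) (nat_lit 148891657805) (nat_lit 164) (nat_lit 4) (nat_lit 165) (nat_lit 5) (nat_lit 165) (nat_lit 4) (nat_lit 353) (nat_lit 300) (nat_lit 247))) (XT.nd (nat_lit 78) (nat_lit 152) (nat_lit 0) (XT.lf (nat_lit 0) (nat_lit 633179470) (nat_lit 152) (nat_lit 633179470) (nat_lit 76) (nat_lit 492235602180) (nat_lit 163) (nat_lit 5) (nat_lit 165) (nat_lit 5) (nat_lit 164) (nat_lit 4) (nat_lit 354) (nat_lit 300) (nat_lit 246)) (XT.nd (nat_lit 78) (nat_lit 76) (nat_lit 0) (XT.lf (nat_lit 0) (nat_lit 180740290666) (nat_lit 152) (nat_lit 180740290666) (nat_lit 0) (nat_lit 179005810088) (nat_lit 162) (nat_lit 5) (nat_lit 164) (nat_lit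 4) (nat_lit 162) (nat_lit 4) (nat_lit 355) (nat_lit 300) (nat_lit 245)) (XT.lf (nat_lit 0) (nat_lit 197182798322) (nat_lit 76) (nat_lit 198917382744) (nat_lit 76) (nat_lit 197182798322) (nat_lit 161) (nat_lit 4) (nat_lit 162) (nat_lit 5) (nat_lit 162) (nat_lit 4) (nat_lit 356) (nat_lit 300) (nat_lit 244))))))) (XT.nd (nat_lit 780) (nat_lit 760) (nat_lit 0) (XT.nd (nat_lit 390) (nat_lit 380) (nat_lit 0) (XT.nd (nat_lit 156) (nat_lit 228) (nat_lit 0) (XT.nd (nat_lit 78) (nat_lit 76) (nat_lit 0) (XT.lf (nat_lit 0) (nat_lit 550690387) (nat_lit 152) (nat_lit 550690387) (nat_lit 76) (nat_lit 651480071149) (nat_lit 160) (nat_lit 5) (nat_lit 162) (nat_lit 5) (nat_lit 161) (nat_lit 4) (nat_lit 357) (nat_lit 300) (nat_lit 243)) (XT.lf (nat_lit 0) (nat_lit 238742283752) (nat_lit 152) (nat_lit 238742283752) (nat_lit 0) (nat_lit 237233802671) (nat_lit 159) (nat_lit 5) (nat_lit 161) (nat_lit 4) (nat_lit 159)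 (nat_lit 4) (nat_lit 358) (nat_lit 300) (nat_lit 242))) (XT.nd (nat_lit 78) (nat_lit 152) (nat_lit 0) (XT.lf (nat_lit 0) (nat_lit 261012241534) (nat_lit 76) (nat_lit 262520781987) (nat_lit 76) (nat_lit 261012241534) (nat_lit 158) (nat_lit 4) (nat_lit 159) (nat_lit 5) (nat_lit 159) (nat_lit 4) (nat_lit 359) (nat_lit 300) (nat_lit 241)) (XT.nd (nat_lit 78) (nat_lit 76) (nat_lit 0) (XT.lf (nat_lit 0) (nat_lit 478918121) (nat_lit 152) (nat_lit 478918121) (nat_lit 76) (nat_lit 862016021956) (nat_lit 157) (nat_lit 5) (nat_lit 159) (nat_lit 5) (nat_lit 158) (nat_lit 4) (nat_lit 360) (nat_lit 300) (nat_lit 240)) (XT.lf (nat_lit 0) (nat_lit 315487265358) (nat_lit 152) (nat_lit 315487265358) (nat_lit 0) (nat_lit 314175407117) (nat_lit 156) (nat_lit 5) (nat_lit 158) (nat_lit 4) (nat_lit 156) (nat_lit 4) (nat_lit 361) (nat_lit 300) (nat_lit 239))))) (XT.nd (nat_lit 156) (nat_lit 228) (nat_lit 0) (XT.nd (nat_lit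 78) (nat_lit 76) (nat_lit 0) (XT.lf (nat_lit 0) (nat_lit 345395691849) (nat_lit 76) (nat_lit 346707584036) (nat_lit 76) (nat_lit 345395691849) (nat_lit 155) (nat_lit 4) (nat_lit 156) (nat_lit 5) (nat_lit 156) (nat_lit 4) (nat_lit 362) (nat_lit 300) (nat_lit 238)) (XT.lf (nat_lit 0) (nat_lit 416483081) (nat_lit 152) (nat_lit 416483081) (nat_lit 76) (nat_lit 1140393348610) (nat_lit 154) (nat_lit 5) (nat_lit 156) (nat_lit 5) (nat_lit 155) (nat_lit 4) (nat_lit 363) (nat_lit 300) (nat_lit 237))) (XT.nd (nat_lit 78) (nat_lit 152) (nat_lit 0) (XT.lf (nat_lit 0) (nat_lit 417015002298) (nat_lit 152) (nat_lit 417015002298) (nat_lit 0) (nat_lit 415874178494) (nat_lit 153) (nat_lit 5) (nat_lit 155) (nat_lit 4) (nat_lit 153) (nat_lit 4) (nat_lit 364) (nat_lit 300) (nat_lit 236)) (XT.nd (nat_lit 78) (nat_lit 76) (nat_lit 0) (XT.lf (nat_lit 0) (nat_lit 456965835416) (nat_lit 76) (nat_lit 458106678629) (nat_lit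 76) (nat_lit 456965835416) (nat_lit 152) (nat_lit 4) (nat_lit 153) (nat_lit 5) (nat_lit 153) (nat_lit 4) (nat_lit 365) (nat_lit 300) (nat_lit 235)) (XT.lf (nat_lit 0) (nat_lit 362177806) (nat_lit 152) (nat_lit 362177806) (nat_lit 76) (nat_lit 1508498220907) (nat_lit 151) (nat_lit 5) (nat_lit 153) (nat_lit 5) (nat_lit 152) (nat_lit 4) (nat_lit 366) (nat_lit 300) (nat_lit 234)))))) (XT.nd (nat_lit 390) (nat_lit 380) (nat_lit 0) (XT.nd (nat_lit 156) (nat_lit 228) (nat_lit 0) (XT.nd (nat_lit 78) (nat_lit 76) (nat_lit 0) (XT.lf (nat_lit 0) (nat_lit 551313708034) (nat_lit 152) (nat_lit 551313708034) (nat_lit 0) (nat_lit 550321643019) (nat_lit 150) (nat_lit 5) (nat_lit 152) (nat_lit 4) (nat_lit 150) (nat_lit 4) (nat_lit 367) (nat_lit 300) (nat_lit 233)) (XT.lf (nat_lit 0) (nat_lit 604493885357) (nat_lit 76) (nat_lit 605485961469) (nat_lit 76) (nat_lit 604493885357) (nat_lit 149) (nat_lit 4) (nat_lit 150)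 (nat_lit 5) (nat_lit 150) (nat_lit 4) (nat_lit 368) (nat_lit 300) (nat_lit 232))) (XT.nd (nat_lit 78) (nat_lit 152) (nat_lit 0) (XT.lf (nat_lit 0) (nat_lit 314947860) (nat_lit 152) (nat_lit 314947860) (nat_lit 76) (nat_lit 1995274159676) (nat_lit 148) (nat_lit 5) (nat_lit 150) (nat_lit 5) (nat_lit 149) (nat_lit 4) (nat_lit 369) (nat_lit 300) (nat_lit 231)) (XT.nd (nat_lit 78) (nat_lit 76) (nat_lit 0) (XT.lf (nat_lit 0) (nat_lit 728948340047) (nat_lit 152) (nat_lit 728948340047) (nat_lit 0) (nat_lit 728085649479) (nat_lit 147) (nat_lit 5) (nat_lit 149) (nat_lit 4) (nat_lit 147) (nat_lit 4) (nat_lit 370) (nat_lit 300) (nat_lit 230)) (XT.lf (nat_lit 0) (nat_lit 799579319571) (nat_lit 76) (nat_lit 800442016484) (nat_lit 76) (nat_lit 799579319571) (nat_lit 146) (nat_lit 4) (nat_lit 147) (nat_lit 5) (nat_lit 147) (nat_lit 4) (nat_lit 371) (nat_lit 300) (nat_lit 229))))) (XT.nd (nat_lit 156) (nat_lit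 228) (nat_lit 0) (XT.nd (nat_lit 78) (nat_lit 76) (nat_lit 0) (XT.lf (nat_lit 0) (nat_lit 273873787) (nat_lit 152) (nat_lit 273873787) (nat_lit 76) (nat_lit 2638998147713) (nat_lit 145) (nat_lit 5) (nat_lit 147) (nat_lit 5) (nat_lit 146) (nat_lit 4) (nat_lit 372) (nat_lit 300) (nat_lit 228)) (XT.lf (nat_lit 0) (nat_lit 963891531215) (nat_lit 152) (nat_lit 963891531215) (nat_lit 0) (nat_lit 963141351017) (nat_lit 144) (nat_lit 5) (nat_lit 146) (nat_lit 4) (nat_lit 144) (nat_lit 4) (nat_lit 373) (nat_lit 300) (nat_lit 227))) (XT.nd (nat_lit 78) (nat_lit 152) (nat_lit 0) (XT.lf (nat_lit 0) (nat_lit 1057562052581) (nat_lit 76) (nat_lit 1058312236407) (nat_lit 76) (nat_lit 1057562052581) (nat_lit 143) (nat_lit 4) (nat_lit 144) (nat_lit 5) (nat_lit 144) (nat_lit 4) (nat_lit 374) (nat_lit 300) (nat_lit 226)) (XT.nd (nat_lit 78) (nat_lit 76) (nat_lit 0) (XT.lf (nat_lit 0) (nat_lit 238154596) (nat_lit 152)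 (nat_lit 238154596) (nat_lit 76) (nat_lit 3490290774553) (nat_lit 142) (nat_lit 5) (nat_lit 144) (nat_lit 5) (nat_lit 143) (nat_lit 4) (nat_lit 375) (nat_lit 300) (nat_lit 225)) (XT.lf (nat_lit 0) (nat_lit 1274622504407) (nat_lit 152) (nat_lit 1274622504407) (nat_lit 0) (nat_lit 1273970165517) (nat_lit 141) (nat_lit 5) (nat_lit 143) (nat_lit 4) (nat_lit 141) (nat_lit 4) (nat_lit 376) (nat_lit 300) (nat_lit 224))))))))
noncomputable def xc44 : XT := (XT.nd (nat_lit 42042) (nat_lit 0) (nat_lit 3724) (XT.nd (nat_lit 41262) (nat_lit 0) (nat_lit 5320) (XT.nd (nat_lit 390) (nat_lit 76) (nat_lit 0) (XT.nd (nat_lit 156) (nat_lit 228) (nat_lit 0) (XT.nd (nat_lit 78) (nat_lit 76) (nat_lit 0) (XT.lf (nat_lit 0) (nat_lit 1398728776485) (nat_lit 76) (nat_lit 1399381117449) (nat_lit 76) (nat_lit 1398728776485) (nat_lit 140) (nat_lit 4) (nat_lit 141) (nat_lit 5) (nat_lit 141) (nat_lit 4) (nat_lit 377) (nat_lit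 300) (nat_lit 223)) (XT.lf (nat_lit 0) (nat_lit 207092942) (nat_lit 152) (nat_lit 207092942) (nat_lit 76) (nat_lit 4616097141221) (nat_lit 139) (nat_lit 5) (nat_lit 141) (nat_lit 5) (nat_lit 140) (nat_lit 4) (nat_lit 378) (nat_lit 300) (nat_lit 222))) (XT.nd (nat_lit 78) (nat_lit 152) (nat_lit 0) (XT.lf (nat_lit 0) (nat_lit 1685580394344) (nat_lit 152) (nat_lit 1685580394344) (nat_lit 0) (nat_lit 1685013138400) (nat_lit 138) (nat_lit 5) (nat_lit 140) (nat_lit 4) (nat_lit 138) (nat_lit 4) (nat_lit 379) (nat_lit 300) (nat_lit 221)) (XT.nd (nat_lit 78) (nat_lit 76) (nat_lit 0) (XT.lf (nat_lit 0) (nat_lit 1849908340913) (nat_lit 76) (nat_lit 1850475598043) (nat_lit 76) (nat_lit 1849908340913) (nat_lit 137) (nat_lit 4) (nat_lit 138) (nat_lit 5) (nat_lit 138) (nat_lit 4) (nat_lit 380) (nat_lit 300) (nat_lit 220)) (XT.lf (nat_lit 0) (nat_lit 180081956) (nat_lit 152) (nat_lit 180081956) (nat_lit 76) (nat_lit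 6104951595844) (nat_lit 136) (nat_lit 5) (nat_lit 138) (nat_lit 5) (nat_lit 137) (nat_lit 4) (nat_lit 381) (nat_lit 300) (nat_lit 219))))) (XT.nd (nat_lit 40638) (nat_lit 0) (nat_lit 6612) (XT.nd (nat_lit 40560) (nat_lit 0) (nat_lit 6916) (XT.lf (nat_lit 0) (nat_lit 2229086272361) (nat_lit 152) (nat_lit 2229086272361) (nat_lit 0) (nat_lit 2228593003615) (nat_lit 135) (nat_lit 5) (nat_lit 137) (nat_lit 4) (nat_lit 135) (nat_lit 4) (nat_lit 382) (nat_lit 300) (nat_lit 218)) (XT.lf (nat_lit 0) (nat_lit 1473742483) (nat_lit 0) (nat_lit 1473742483) (nat_lit 76) (nat_lit 314801580) (nat_lit 226) (nat_lit 5) (nat_lit 226) (nat_lit 3) (nat_lit 227) (nat_lit 0) (nat_lit 301) (nat_lit 301) (nat_lit 298))) (XT.nd (nat_lit 78) (nat_lit 76) (nat_lit 0) (XT.lf (nat_lit 0) (nat_lit 1819141343) (nat_lit 228) (nat_lit 286775766) (nat_lit 228) (nat_lit 4546846453) (nat_lit 223) (nat_lit 3) (nat_lit 226) (nat_lit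 3) (nat_lit 226) (nat_lit 5) (nat_lit 302) (nat_lit 301) (nat_lit 297)) (XT.nd (nat_lit 78) (nat_lit 76) (nat_lit 0) (XT.lf (nat_lit 76) (nat_lit 3532192297) (nat_lit 0) (nat_lit 751119044) (nat_lit 228) (nat_lit 2555488115) (nat_lit 224) (nat_lit 5) (nat_lit 223) (nat_lit 3) (nat_lit 226) (nat_lit 5) (nat_lit 303) (nat_lit 301) (nat_lit 296)) (XT.lf (nat_lit 0) (nat_lit 625011195) (nat_lit 152) (nat_lit 6186283713) (nat_lit 228) (nat_lit 287317615) (nat_lit 222) (nat_lit 5) (nat_lit 224) (nat_lit 5) (nat_lit 225) (nat_lit 4) (nat_lit 304) (nat_lit 301) (nat_lit 295)))))) (XT.nd (nat_lit 390) (nat_lit 456) (nat_lit 0) (XT.nd (nat_lit 156) (nat_lit 532) (nat_lit 0) (XT.nd (nat_lit 78) (nat_lit 228) (nat_lit 0) (XT.lf (nat_lit 0) (nat_lit 1971861764) (nat_lit 228) (nat_lit 2317225776) (nat_lit 76) (nat_lit 3115280112) (nat_lit 221) (nat_lit 5) (nat_lit 224) (nat_lit 5) (nat_lit 222) (nat_lit 5) (nat_lit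 305) (nat_lit 301) (nat_lit 294)) (XT.lf (nat_lit 0) (nat_lit 2379326054) (nat_lit 228) (nat_lit 1947158164) (nat_lit 304) (nat_lit 3459552259) (nat_lit 218) (nat_lit 5) (nat_lit 221) (nat_lit 5) (nat_lit 222) (nat_lit 5) (nat_lit 306) (nat_lit 301) (nat_lit 293))) (XT.nd (nat_lit 78) (nat_lit 532) (nat_lit 0) (XT.lf (nat_lit 0) (nat_lit 6909781288) (nat_lit 304) (nat_lit 514317892) (nat_lit 76) (nat_lit 819534258) (nat_lit 218) (nat_lit 5) (nat_lit 222) (nat_lit 5) (nat_lit 219) (nat_lit 4) (nat_lit 307) (nat_lit 301) (nat_lit 292)) (XT.nd (nat_lit 78) (nat_lit 152) (nat_lit 0) (XT.lf (nat_lit 0) (nat_lit 1077888444) (nat_lit 380) (nat_lit 3597169295) (nat_lit 76) (nat_lit 4078003240) (nat_lit 213) (nat_lit 5) (nat_lit 218) (nat_lit 5) (nat_lit 214) (nat_lit 5) (nat_lit 308) (nat_lit 301) (nat_lit 291)) (XT.lf (nat_lit 0) (nat_lit 2253776766) (nat_lit 152) (nat_lit 1347689867) (nat_lit 228) (nat_lit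 5744912868) (nat_lit 211) (nat_lit 5) (nat_lit 213) (nat_lit 5) (nat_lit 214) (nat_lit 5) (nat_lit 309) (nat_lit 301) (nat_lit 290))))) (XT.nd (nat_lit 156) (nat_lit 304) (nat_lit 0) (XT.nd (nat_lit 78) (nat_lit 152) (nat_lit 0) (XT.lf (nat_lit 0) (nat_lit 6585645103) (nat_lit 228) (nat_lit 1024372585) (nat_lit 76) (nat_lit 2406368581) (nat_lit 211) (nat_lit 5) (nat_lit 214) (nat_lit 5) (nat_lit 212) (nat_lit 4) (nat_lit 310) (nat_lit 301) (nat_lit 289)) (XT.lf (nat_lit 0) (nat_lit 6180185054) (nat_lit 152) (nat_lit 3968161962) (nat_lit 228) (nat_lit 618912536) (nat_lit 209) (nat_lit 5) (nat_lit 211) (nat_lit 5) (nat_lit 212) (nat_lit 4) (nat_lit 311) (nat_lit 301) (nat_lit 288))) (XT.nd (nat_lit 78) (nat_lit 76) (nat_lit 0) (XT.lf (nat_lit 0) (nat_lit 2391308023) (nat_lit 228) (nat_lit 8801845905) (nat_lit 76) (nat_lit 419960268) (nat_lit 206) (nat_lit 5) (nat_lit 209) (nat_lit 5) (nat_lit 207)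 (nat_lit 4) (nat_lit 312) (nat_lit 301) (nat_lit 287)) (XT.nd (nat_lit 78) (nat_lit 76) (nat_lit 0) (XT.lf (nat_lit 0) (nat_lit 6056629376) (nat_lit 228) (nat_lit 1220740229) (nat_lit 76) (nat_lit 5264016742) (nat_lit 206) (nat_lit 5) (nat_lit 209) (nat_lit 5) (nat_lit 207) (nat_lit 4) (nat_lit 313) (nat_lit 301) (nat_lit 286)) (XT.lf (nat_lit 0) (nat_lit 7966888366) (nat_lit 76) (nat_lit 2484122452) (nat_lit 152) (nat_lit 3130999220) (nat_lit 205) (nat_lit 5) (nat_lit 206) (nat_lit 5) (nat_lit 207) (nat_lit 4) (nat_lit 314) (nat_lit 301) (nat_lit 285))))))) (XT.nd (nat_lit 780) (nat_lit 760) (nat_lit 0) (XT.nd (nat_lit 390) (nat_lit 380) (nat_lit 0) (XT.nd (nat_lit 156) (nat_lit 228) (nat_lit 0) (XT.nd (nat_lit 78) (nat_lit 0) (nat_lit 0) (XT.lf (nat_lit 0) (nat_lit 879499833) (nat_lit 228) (nat_lit 10917010432) (nat_lit 76) (nat_lit 2944964503) (nat_lit 202) (nat_lit 5) (nat_lit 205) (nat_lit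 5) (nat_lit 203) (nat_lit 4) (nat_lit 315) (nat_lit 301) (nat_lit 284)) (XT.lf (nat_lit 0) (nat_lit 5455302210) (nat_lit 228) (nat_lit 1250181213) (nat_lit 76) (nat_lit 9304369033) (nat_lit 202) (nat_lit 5) (nat_lit 205) (nat_lit 5) (nat_lit 203) (nat_lit 4) (nat_lit 316) (nat_lit 301) (nat_lit 283))) (XT.nd (nat_lit 78) (nat_lit 152) (nat_lit 0) (XT.lf (nat_lit 0) (nat_lit 10593198007) (nat_lit 76) (nat_lit 439872451) (nat_lit 152) (nat_lit 6388077010) (nat_lit 201) (nat_lit 5) (nat_lit 202) (nat_lit 5) (nat_lit 203) (nat_lit 4) (nat_lit 317) (nat_lit 301) (nat_lit 282)) (XT.nd (nat_lit 78) (nat_lit 76) (nat_lit 0) (XT.lf (nat_lit 0) (nat_lit 5286350942) (nat_lit 76) (nat_lit 12609329390) (nat_lit 76) (nat_lit 1081229945) (nat_lit 200) (nat_lit 4) (nat_lit 201) (nat_lit 5) (nat_lit 201) (nat_lit 4) (nat_lit 318) (nat_lit 301) (nat_lit 281)) (XT.lf (nat_lit 0) (nat_lit 4851612577) (nat_lit 152)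 (nat_lit 1194985623) (nat_lit 76) (nat_lit 14646694486) (nat_lit 199) (nat_lit 5) (nat_lit 201) (nat_lit 5) (nat_lit 200) (nat_lit 4) (nat_lit 319) (nat_lit 301) (nat_lit 280))))) (XT.nd (nat_lit 156) (nat_lit 228) (nat_lit 0) (XT.nd (nat_lit 78) (nat_lit 76) (nat_lit 0) (XT.lf (nat_lit 0) (nat_lit 12137810827) (nat_lit 152) (nat_lit 8481183873) (nat_lit 0) (nat_lit 1954295679) (nat_lit 198) (nat_lit 5) (nat_lit 200) (nat_lit 4) (nat_lit 198) (nat_lit 4) (nat_lit 320) (nat_lit 301) (nat_lit 279)) (XT.lf (nat_lit 0) (nat_lit 7239255451) (nat_lit 76) (nat_lit 13830483724) (nat_lit 76) (nat_lit 3582628497) (nat_lit 197) (nat_lit 4) (nat_lit 198) (nat_lit 5) (nat_lit 198) (nat_lit 4) (nat_lit 321) (nat_lit 301) (nat_lit 278))) (XT.nd (nat_lit 78) (nat_lit 152) (nat_lit 0) (XT.lf (nat_lit 0) (nat_lit 4280469439) (nat_lit 152) (nat_lit 1100793827) (nat_lit 76) (nat_lit 21580601167) (nat_lit 196) (nat_lit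 5) (nat_lit 198) (nat_lit 5) (nat_lit 197) (nat_lit 4) (nat_lit 322) (nat_lit 301) (nat_lit 277)) (XT.nd (nat_lit 78) (nat_lit 76) (nat_lit 0) (XT.lf (nat_lit 0) (nat_lit 13878552520) (nat_lit 152) (nat_lit 10698876908) (nat_lit 0) (nat_lit 4876419071) (nat_lit 195) (nat_lit 5) (nat_lit 197) (nat_lit 4) (nat_lit 195) (nat_lit 4) (nat_lit 323) (nat_lit 301) (nat_lit 276)) (XT.lf (nat_lit 0) (nat_lit 9848068739) (nat_lit 76) (nat_lit 15707313225) (nat_lit 76) (nat_lit 6668393127) (nat_lit 194) (nat_lit 4) (nat_lit 195) (nat_lit 5) (nat_lit 195) (nat_lit 4) (nat_lit 324) (nat_lit 301) (nat_lit 275)))))) (XT.nd (nat_lit 390) (nat_lit 380) (nat_lit 0) (XT.nd (nat_lit 156) (nat_lit 228) (nat_lit 0) (XT.nd (nat_lit 78) (nat_lit 76) (nat_lit 0) (XT.lf (nat_lit 0) (nat_lit 3757410731) (nat_lit 152) (nat_lit 992475416) (nat_lit 76) (nat_lit 30561937933) (nat_lit 193) (nat_lit 5) (nat_lit 195) (nat_lit 5)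 (nat_lit 194) (nat_lit 4) (nat_lit 325) (nat_lit 301) (nat_lit 274)) (XT.lf (nat_lit 0) (nat_lit 16429198093) (nat_lit 152) (nat_lit 13664262779) (nat_lit 0) (nat_lit 8517263762) (nat_lit 192) (nat_lit 5) (nat_lit 194) (nat_lit 4) (nat_lit 192) (nat_lit 4) (nat_lit 326) (nat_lit 301) (nat_lit 273))) (XT.nd (nat_lit 78) (nat_lit 152) (nat_lit 0) (XT.lf (nat_lit 0) (nat_lit 13295885434) (nat_lit 76) (nat_lit 18463917337) (nat_lit 76) (nat_lit 10530950119) (nat_lit 191) (nat_lit 4) (nat_lit 192) (nat_lit 5) (nat_lit 192) (nat_lit 4) (nat_lit 327) (nat_lit 301) (nat_lit 272)) (XT.nd (nat_lit 78) (nat_lit 76) (nat_lit 0) (XT.lf (nat_lit 0) (nat_lit 3287475638) (nat_lit 152) (nat_lit 883184060) (nat_lit 76) (nat_lit 42232988612) (nat_lit 190) (nat_lit 5) (nat_lit 192) (nat_lit 5) (nat_lit 191) (nat_lit 4) (nat_lit 328) (nat_lit 301) (nat_lit 271)) (XT.lf (nat_lit 0) (nat_lit 20033520237) (nat_lit 152)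 (nat_lit 17629228659) (nat_lit 0) (nat_lit 13105554526) (nat_lit 189) (nat_lit 5) (nat_lit 191) (nat_lit 4) (nat_lit 189) (nat_lit 4) (nat_lit 329) (nat_lit 301) (nat_lit 270))))) (XT.nd (nat_lit 156) (nat_lit 228) (nat_lit 0) (XT.nd (nat_lit 78) (nat_lit 76) (nat_lit 0) (XT.lf (nat_lit 0) (nat_lit 17839277088) (nat_lit 76) (nat_lit 22374976841) (nat_lit 76) (nat_lit 15434985509) (nat_lit 188) (nat_lit 4) (nat_lit 189) (nat_lit 5) (nat_lit 189) (nat_lit 4) (nat_lit 330) (nat_lit 301) (nat_lit 269)) (XT.lf (nat_lit 0) (nat_lit 2870202134) (nat_lit 152) (nat_lit 779513805) (nat_lit 76) (nat_lit 57463780271) (nat_lit 187) (nat_lit 5) (nat_lit 189) (nat_lit 5) (nat_lit 188) (nat_lit 4) (nat_lit 331) (nat_lit 301) (nat_lit 268))) (XT.nd (nat_lit 78) (nat_lit 152) (nat_lit 0) (XT.lf (nat_lit 0) (nat_lit 25009759698) (nat_lit 152) (nat_lit 22919071369) (nat_lit 0) (nat_lit 18957984489) (nat_lit 186) (nat_lit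 5) (nat_lit 188) (nat_lit 4) (nat_lit 186) (nat_lit 4) (nat_lit 332) (nat_lit 301) (nat_lit 267)) (XT.nd (nat_lit 78) (nat_lit 76) (nat_lit 0) (XT.lf (nat_lit 0) (nat_lit 23825515701) (nat_lit 76) (nat_lit 27793478270) (nat_lit 76) (nat_lit 21734827373) (nat_lit 185) (nat_lit 4) (nat_lit 186) (nat_lit 5) (nat_lit 186) (nat_lit 4) (nat_lit 333) (nat_lit 301) (nat_lit 266)) (XT.lf (nat_lit 0) (nat_lit 2502418922) (nat_lit 152) (nat_lit 684429071) (nat_lit 76) (nat_lit 77415023957) (nat_lit 184) (nat_lit 5) (nat_lit 186) (nat_lit 5) (nat_lit 185) (nat_lit 4) (nat_lit 334) (nat_lit 301) (nat_lit 265))))))))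
noncomputable def xc45 : XT := (XT.nd (nat_lit 1560) (nat_lit 1520) (nat_lit 0) (XT.nd (nat_lit 780) (nat_lit 760) (nat_lit 0) (XT.nd (nat_lit 390) (nat_lit 380) (nat_lit 0) (XT.nd (nat_lit 156) (nat_lit 228) (nat_lit 0) (XT.nd (nat_lit 78) (nat_lit 76) (nat_lit 0) (XT.lf (nat_lit 0) (nat_lit 31777932119) (nat_lit 152) (nat_lit 29959942268) (nat_lit 0) (nat_lit 26499820151) (nat_lit 183) (nat_lit 5) (nat_lit 185) (nat_lit 4) (nat_lit 183) (nat_lit 4) (nat_lit 335) (nat_lit 301) (nat_lit 264)) (XT.lf (nat_lit 0) (nat_lit 31718162091) (nat_lit 76) (nat_lit 35182215405) (nat_lit 76) (nat_lit 29900172239) (nat_lit 182) (nat_lit 4) (nat_lit 183) (nat_lit 5) (nat_lit 183) (nat_lit 4) (nat_lit 336) (nat_lit 301) (nat_lit 263))) (XT.nd (nat_lit 78) (nat_lit 152) (nat_lit 0) (XT.lf (nat_lit 0) (nat_lit 2179784869) (nat_lit 152) (nat_lit 598924128) (nat_lit 76) (nat_lit 103626072544) (nat_lit 181) (nat_lit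 5) (nat_lit 183) (nat_lit 5) (nat_lit 182) (nat_lit 4) (nat_lit 337) (nat_lit 301) (nat_lit 262)) (XT.nd (nat_lit 78) (nat_lit 76) (nat_lit 0) (XT.lf (nat_lit 0) (nat_lit 40894334509) (nat_lit 152) (nat_lit 39313473769) (nat_lit 0) (nat_lit 36295696120) (nat_lit 180) (nat_lit 5) (nat_lit 182) (nat_lit 4) (nat_lit 180) (nat_lit 4) (nat_lit 338) (nat_lit 301) (nat_lit 261)) (XT.lf (nat_lit 0) (nat_lit 42132508270) (nat_lit 76) (nat_lit 45152533594) (nat_lit 76) (nat_lit 40551647530) (nat_lit 179) (nat_lit 4) (nat_lit 180) (nat_lit 5) (nat_lit 180) (nat_lit 4) (nat_lit 339) (nat_lit 301) (nat_lit 260))))) (XT.nd (nat_lit 156) (nat_lit 228) (nat_lit 0) (XT.nd (nat_lit 78) (nat_lit 76) (nat_lit 0) (XT.lf (nat_lit 0) (nat_lit 1897619706) (nat_lit 152) (nat_lit 522958193) (nat_lit 76) (nat_lit 138133914308) (nat_lit 178) (nat_lit 5) (nat_lit 180) (nat_lit 5) (nat_lit 179) (nat_lit 4) (nat_lit 340) (nat_lit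 301) (nat_lit 259)) (XT.lf (nat_lit 0) (nat_lit 53096287104) (nat_lit 152) (nat_lit 51721625591) (nat_lit 0) (nat_lit 49092339167) (nat_lit 177) (nat_lit 5) (nat_lit 179) (nat_lit 4) (nat_lit 177) (nat_lit 4) (nat_lit 341) (nat_lit 301) (nat_lit 258))) (XT.nd (nat_lit 78) (nat_lit 152) (nat_lit 0) (XT.lf (nat_lit 0) (nat_lit 55883361484) (nat_lit 76) (nat_lit 58513933024) (nat_lit 76) (nat_lit 54508699971) (nat_lit 176) (nat_lit 4) (nat_lit 177) (nat_lit 5) (nat_lit 177) (nat_lit 4) (nat_lit 342) (nat_lit 301) (nat_lit 257)) (XT.nd (nat_lit 78) (nat_lit 76) (nat_lit 0) (XT.lf (nat_lit 0) (nat_lit 1651335994) (nat_lit 152) (nat_lit 455978156) (nat_lit 76) (nat_lit 183632043227) (nat_lit 175) (nat_lit 5) (nat_lit 177) (nat_lit 5) (nat_lit 176) (nat_lit 4) (nat_lit 343) (nat_lit 301) (nat_lit 256)) (XT.lf (nat_lit 0) (nat_lit 69360816339) (nat_lit 152) (nat_lit 68165458501) (nat_lit 0) (nat_lit 65876188273)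 (nat_lit 174) (nat_lit 5) (nat_lit 176) (nat_lit 4) (nat_lit 174) (nat_lit 4) (nat_lit 344) (nat_lit 301) (nat_lit 255)))))) (XT.nd (nat_lit 390) (nat_lit 380) (nat_lit 0) (XT.nd (nat_lit 156) (nat_lit 228) (nat_lit 0) (XT.nd (nat_lit 78) (nat_lit 76) (nat_lit 0) (XT.lf (nat_lit 0) (nat_lit 74048755942) (nat_lit 76) (nat_lit 76338760940) (nat_lit 76) (nat_lit 72853398105) (nat_lit 173) (nat_lit 4) (nat_lit 174) (nat_lit 5) (nat_lit 174) (nat_lit 4) (nat_lit 345) (nat_lit 301) (nat_lit 254)) (XT.lf (nat_lit 0) (nat_lit 1436648686) (nat_lit 152) (nat_lit 397207088) (nat_lit 76) (nat_lit 243681401722) (nat_lit 172) (nat_lit 5) (nat_lit 174) (nat_lit 5) (nat_lit 173) (nat_lit 4) (nat_lit 346) (nat_lit 301) (nat_lit 253))) (XT.nd (nat_lit 78) (nat_lit 152) (nat_lit 0) (XT.lf (nat_lit 0) (nat_lit 90982003460) (nat_lit 152) (nat_lit 89942561862) (nat_lit 0) (nat_lit 87950214456) (nat_lit 171) (nat_lit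 5) (nat_lit 173) (nat_lit 4) (nat_lit 171) (nat_lit 4) (nat_lit 347) (nat_lit 301) (nat_lit 252)) (XT.nd (nat_lit 78) (nat_lit 76) (nat_lit 0) (XT.lf (nat_lit 0) (nat_lit 98054504115) (nat_lit 76) (nat_lit 100047271628) (nat_lit 76) (nat_lit 97015062517) (nat_lit 170) (nat_lit 4) (nat_lit 171) (nat_lit 5) (nat_lit 171) (nat_lit 4) (nat_lit 348) (nat_lit 301) (nat_lit 251)) (XT.lf (nat_lit 0) (nat_lit 1249662437) (nat_lit 152) (nat_lit 345800178) (nat_lit 76) (nat_lit 322989812013) (nat_lit 169) (nat_lit 5) (nat_lit 171) (nat_lit 5) (nat_lit 170) (nat_lit 4) (nat_lit 349) (nat_lit 301) (nat_lit 250))))) (XT.nd (nat_lit 156) (nat_lit 228) (nat_lit 0) (XT.nd (nat_lit 78) (nat_lit 76) (nat_lit 0) (XT.lf (nat_lit 0) (nat_lit 119673146568) (nat_lit 152) (nat_lit 118769284309) (nat_lit 0) (nat_lit 117035849106) (nat_lit 168) (nat_lit 5) (nat_lit 170) (nat_lit 4) (nat_lit 168) (nat_lit 4) (nat_lit 350)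 (nat_lit 301) (nat_lit 249)) (XT.lf (nat_lit 0) (nat_lit 129786180207) (nat_lit 76) (nat_lit 131519855608) (nat_lit 76) (nat_lit 128882317948) (nat_lit 167) (nat_lit 4) (nat_lit 168) (nat_lit 5) (nat_lit 168) (nat_lit 4) (nat_lit 351) (nat_lit 301) (nat_lit 248))) (XT.nd (nat_lit 78) (nat_lit 152) (nat_lit 0) (XT.lf (nat_lit 0) (nat_lit 1086893240) (nat_lit 152) (nat_lit 300926058) (nat_lit 76) (nat_lit 427781770523) (nat_lit 166) (nat_lit 5) (nat_lit 168) (nat_lit 5) (nat_lit 167) (nat_lit 4) (nat_lit 352) (nat_lit 301) (nat_lit 247)) (XT.nd (nat_lit 78) (nat_lit 76) (nat_lit 0) (XT.lf (nat_lit 0) (nat_lit 157701809460) (nat_lit 152) (nat_lit 156915842278) (nat_lit 0) (nat_lit 155407958895) (nat_lit 165) (nat_lit 5) (nat_lit 167) (nat_lit 4) (nat_lit 165) (nat_lit 4) (nat_lit 353) (nat_lit 301) (nat_lit 246)) (XT.lf (nat_lit 0) (nat_lit 171737309815) (nat_lit 76) (nat_lit 173245330532) (nat_lit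 76) (nat_lit 170951342633) (nat_lit 164) (nat_lit 4) (nat_lit 165) (nat_lit 5) (nat_lit 165) (nat_lit 4) (nat_lit 354) (nat_lit 301) (nat_lit 245))))))) (XT.nd (nat_lit 780) (nat_lit 760) (nat_lit 0) (XT.nd (nat_lit 390) (nat_lit 380) (nat_lit 0) (XT.nd (nat_lit 156) (nat_lit 228) (nat_lit 0) (XT.nd (nat_lit 78) (nat_lit 76) (nat_lit 0) (XT.lf (nat_lit 0) (nat_lit 945256203) (nat_lit 152) (nat_lit 261806480) (nat_lit 76) (nat_lit 566287627632) (nat_lit 163) (nat_lit 5) (nat_lit 165) (nat_lit 5) (nat_lit 164) (nat_lit 4) (nat_lit 355) (nat_lit 301) (nat_lit 244)) (XT.lf (nat_lit 0) (nat_lit 208068401976) (nat_lit 152) (nat_lit 207384952253) (nat_lit 0) (nat_lit 206073435748) (nat_lit 162) (nat_lit 5) (nat_lit 164) (nat_lit 4) (nat_lit 162) (nat_lit 4) (nat_lit 356) (nat_lit 301) (nat_lit 243))) (XT.nd (nat_lit 78) (nat_lit 152) (nat_lit 0) (XT.lf (nat_lit 0) (nat_lit 227205400901) (nat_lit 76) (nat_lit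 228516995927) (nat_lit 76) (nat_lit 226521951178) (nat_lit 161) (nat_lit 4) (nat_lit 162) (nat_lit 5) (nat_lit 162) (nat_lit 4) (nat_lit 357) (nat_lit 301) (nat_lit 242)) (XT.nd (nat_lit 78) (nat_lit 76) (nat_lit 0) (XT.lf (nat_lit 0) (nat_lit 822037185) (nat_lit 152) (nat_lit 227733078) (nat_lit 76) (nat_lit 749390587962) (nat_lit 160) (nat_lit 5) (nat_lit 162) (nat_lit 5) (nat_lit 161) (nat_lit 4) (nat_lit 358) (nat_lit 301) (nat_lit 241)) (XT.lf (nat_lit 0) (nat_lit 274742351200) (nat_lit 152) (nat_lit 274148047093) (nat_lit 0) (nat_lit 273007418676) (nat_lit 159) (nat_lit 5) (nat_lit 161) (nat_lit 4) (nat_lit 159) (nat_lit 4) (nat_lit 359) (nat_lit 301) (nat_lit 240))))) (XT.nd (nat_lit 156) (nat_lit 228) (nat_lit 0) (XT.nd (nat_lit 78) (nat_lit 76) (nat_lit 0) (XT.lf (nat_lit 0) (nat_lit 300551221567) (nat_lit 76) (nat_lit 301691894877) (nat_lit 76) (nat_lit 299956917459) (nat_lit 158) (nat_lit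 4) (nat_lit 159) (nat_lit 5) (nat_lit 159) (nat_lit 4) (nat_lit 360) (nat_lit 301) (nat_lit 239)) (XT.lf (nat_lit 0) (nat_lit 714857979) (nat_lit 152) (nat_lit 198071799) (nat_lit 76) (nat_lit 991482391828) (nat_lit 157) (nat_lit 5) (nat_lit 159) (nat_lit 5) (nat_lit 158) (nat_lit 4) (nat_lit 361) (nat_lit 301) (nat_lit 238))) (XT.nd (nat_lit 78) (nat_lit 152) (nat_lit 0) (XT.lf (nat_lit 0) (nat_lit 362974446808) (nat_lit 152) (nat_lit 362457660628) (nat_lit 0) (nat_lit 361465707327) (nat_lit 156) (nat_lit 5) (nat_lit 158) (nat_lit 4) (nat_lit 156) (nat_lit 4) (nat_lit 362) (nat_lit 301) (nat_lit 237)) (XT.nd (nat_lit 78) (nat_lit 76) (nat_lit 0) (XT.lf (nat_lit 0) (nat_lit 397541708591) (nat_lit 76) (nat_lit 398533687561) (nat_lit 76) (nat_lit 397024922411) (nat_lit 155) (nat_lit 4) (nat_lit 156) (nat_lit 5) (nat_lit 156) (nat_lit 4) (nat_lit 363) (nat_lit 301) (nat_lit 236)) (XT.lf (nat_lit 0)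 (nat_lit 621640240) (nat_lit 152) (nat_lit 172260953) (nat_lit 76) (nat_lit 1311594958090) (nat_lit 154) (nat_lit 5) (nat_lit 156) (nat_lit 5) (nat_lit 155) (nat_lit 4) (nat_lit 364) (nat_lit 301) (nat_lit 235)))))) (XT.nd (nat_lit 390) (nat_lit 380) (nat_lit 0) (XT.nd (nat_lit 156) (nat_lit 228) (nat_lit 0) (XT.nd (nat_lit 78) (nat_lit 76) (nat_lit 0) (XT.lf (nat_lit 0) (nat_lit 479709931340) (nat_lit 152) (nat_lit 479260552053) (nat_lit 0) (nat_lit 478397925357) (nat_lit 153) (nat_lit 5) (nat_lit 155) (nat_lit 4) (nat_lit 153) (nat_lit 4) (nat_lit 365) (nat_lit 301) (nat_lit 234)) (XT.lf (nat_lit 0) (nat_lit 525803470383) (nat_lit 76) (nat_lit 526666111754) (nat_lit 76) (nat_lit 525354091095) (nat_lit 152) (nat_lit 4) (nat_lit 153) (nat_lit 5) (nat_lit 153) (nat_lit 4) (nat_lit 366) (nat_lit 301) (nat_lit 233))) (XT.nd (nat_lit 78) (nat_lit 152) (nat_lit 0) (XT.lf (nat_lit 0) (nat_lit 540570799)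 (nat_lit 152) (nat_lit 149806201) (nat_lit 76) (nat_lit 1734896976049) (nat_lit 151) (nat_lit 5) (nat_lit 153) (nat_lit 5) (nat_lit 152) (nat_lit 4) (nat_lit 367) (nat_lit 301) (nat_lit 232)) (XT.nd (nat_lit 78) (nat_lit 76) (nat_lit 0) (XT.lf (nat_lit 0) (nat_lit 634134827130) (nat_lit 152) (nat_lit 633744062532) (nat_lit 0) (nat_lit 632993918854) (nat_lit 150) (nat_lit 5) (nat_lit 152) (nat_lit 4) (nat_lit 150) (nat_lit 4) (nat_lit 368) (nat_lit 301) (nat_lit 231)) (XT.lf (nat_lit 0) (nat_lit 695422547063) (nat_lit 76) (nat_lit 696172699132) (nat_lit 76) (nat_lit 695031782465) (nat_lit 149) (nat_lit 4) (nat_lit 150) (nat_lit 5) (nat_lit 150) (nat_lit 4) (nat_lit 369) (nat_lit 301) (nat_lit 230))))) (XT.nd (nat_lit 156) (nat_lit 228) (nat_lit 0) (XT.nd (nat_lit 78) (nat_lit 76) (nat_lit 0) (XT.lf (nat_lit 0) (nat_lit 470069608) (nat_lit 152) (nat_lit 130274306) (nat_lit 76) (nat_lit 2294673137858)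 (nat_lit 148) (nat_lit 5) (nat_lit 150) (nat_lit 5) (nat_lit 149) (nat_lit 4) (nat_lit 370) (nat_lit 301) (nat_lit 229)) (XT.lf (nat_lit 0) (nat_lit 838398468661) (nat_lit 152) (nat_lit 838058673359) (nat_lit 0) (nat_lit 837406355349) (nat_lit 147) (nat_lit 5) (nat_lit 149) (nat_lit 4) (nat_lit 147) (nat_lit 4) (nat_lit 371) (nat_lit 301) (nat_lit 228))) (XT.nd (nat_lit 78) (nat_lit 152) (nat_lit 0) (XT.lf (nat_lit 0) (nat_lit 919737593489) (nat_lit 76) (nat_lit 920389916297) (nat_lit 76) (nat_lit 919397798187) (nat_lit 146) (nat_lit 4) (nat_lit 147) (nat_lit 5) (nat_lit 147) (nat_lit 4) (nat_lit 372) (nat_lit 301) (nat_lit 227)) (XT.nd (nat_lit 78) (nat_lit 76) (nat_lit 0) (XT.lf (nat_lit 0) (nat_lit 408760780) (nat_lit 152) (nat_lit 113286604) (nat_lit 76) (nat_lit 3034941661308) (nat_lit 145) (nat_lit 5) (nat_lit 147) (nat_lit 5) (nat_lit 146) (nat_lit 4) (nat_lit 373) (nat_lit 301) (nat_lit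 226)) (XT.lf (nat_lit 0) (nat_lit 1108569065700) (nat_lit 152) (nat_lit 1108273591524) (nat_lit 0) (nat_lit 1107706347518) (nat_lit 144) (nat_lit 5) (nat_lit 146) (nat_lit 4) (nat_lit 144) (nat_lit 4) (nat_lit 374) (nat_lit 301) (nat_lit 225))))))))
noncomputable def xc46 : XT := (XT.nd (nat_lit 42120) (nat_lit 0) (nat_lit 3800) (XT.nd (nat_lit 41340) (nat_lit 0) (nat_lit 5320) (XT.nd (nat_lit 390) (nat_lit 228) (nat_lit 0) (XT.nd (nat_lit 156) (nat_lit 228) (nat_lit 0) (XT.nd (nat_lit 78) (nat_lit 76) (nat_lit 0) (XT.lf (nat_lit 0) (nat_lit 1216388863051) (nat_lit 76) (nat_lit 1216956109801) (nat_lit 76) (nat_lit 1216093388876) (nat_lit 143) (nat_lit 4) (nat_lit 144) (nat_lit 5) (nat_lit 144) (nat_lit 4) (nat_lit 375) (nat_lit 301) (nat_lit 224)) (XT.lf (nat_lit 0) (nat_lit 355446786) (nat_lit 152) (nat_lit 98512720) (nat_lit 76) (nat_lit 4013915951452) (nat_lit 142) (nat_lit 5) (nat_lit 144)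 (nat_lit 5) (nat_lit 143) (nat_lit 4) (nat_lit 376) (nat_lit 301) (nat_lit 223))) (XT.nd (nat_lit 78) (nat_lit 152) (nat_lit 0) (XT.lf (nat_lit 0) (nat_lit 1465897448427) (nat_lit 152) (nat_lit 1465640514361) (nat_lit 0) (nat_lit 1465147252440) (nat_lit 141) (nat_lit 5) (nat_lit 143) (nat_lit 4) (nat_lit 141) (nat_lit 4) (nat_lit 377) (nat_lit 301) (nat_lit 222)) (XT.nd (nat_lit 78) (nat_lit 76) (nat_lit 0) (XT.lf (nat_lit 0) (nat_lit 1608705487497) (nat_lit 76) (nat_lit 1609198750986) (nat_lit 76) (nat_lit 1608448553431) (nat_lit 140) (nat_lit 4) (nat_lit 141) (nat_lit 5) (nat_lit 141) (nat_lit 4) (nat_lit 378) (nat_lit 301) (nat_lit 221)) (XT.lf (nat_lit 0) (nat_lit 309085665) (nat_lit 152) (nat_lit 85664738) (nat_lit 76) (nat_lit 5308582636450) (nat_lit 139) (nat_lit 5) (nat_lit 141) (nat_lit 5) (nat_lit 140) (nat_lit 4) (nat_lit 379) (nat_lit 301) (nat_lit 220))))) (XT.nd (nat_lit 156) (nat_lit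 76) (nat_lit 0) (XT.nd (nat_lit 78) (nat_lit 76) (nat_lit 0) (XT.lf (nat_lit 0) (nat_lit 1938488381911) (nat_lit 152) (nat_lit 1938264960984) (nat_lit 0) (nat_lit 1937836033994) (nat_lit 138) (nat_lit 5) (nat_lit 140) (nat_lit 4) (nat_lit 138) (nat_lit 4) (nat_lit 380) (nat_lit 301) (nat_lit 219)) (XT.lf (nat_lit 0) (nat_lit 2127540153084) (nat_lit 76) (nat_lit 2127969080970) (nat_lit 76) (nat_lit 2127316732157) (nat_lit 137) (nat_lit 4) (nat_lit 138) (nat_lit 5) (nat_lit 138) (nat_lit 4) (nat_lit 381) (nat_lit 301) (nat_lit 218))) (XT.nd (nat_lit 40638) (nat_lit 0) (nat_lit 6612) (XT.lf (nat_lit 0) (nat_lit 268771003) (nat_lit 152) (nat_lit 74491936) (nat_lit 76) (nat_lit 7020756009267) (nat_lit 136) (nat_lit 5) (nat_lit 138) (nat_lit 5) (nat_lit 137) (nat_lit 4) (nat_lit 382) (nat_lit 301) (nat_lit 217)) (XT.nd (nat_lit 78) (nat_lit 0) (nat_lit 0) (XT.lf (nat_lit 0) (nat_lit 2005059584) (nat_lit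 228) (nat_lit 699295385) (nat_lit 228) (nat_lit 699295385) (nat_lit 223) (nat_lit 3) (nat_lit 226) (nat_lit 3) (nat_lit 226) (nat_lit 5) (nat_lit 302) (nat_lit 302) (nat_lit 296)) (XT.lf (nat_lit 76) (nat_lit 2201008589) (nat_lit 0) (nat_lit 4042754707) (nat_lit 228) (nat_lit 784152188) (nat_lit 224) (nat_lit 5) (nat_lit 223) (nat_lit 3) (nat_lit 226) (nat_lit 5) (nat_lit 303) (nat_lit 302) (nat_lit 295)))))) (XT.nd (nat_lit 390) (nat_lit 532) (nat_lit 0) (XT.nd (nat_lit 156) (nat_lit 532) (nat_lit 0) (XT.nd (nat_lit 78) (nat_lit 0) (nat_lit 76) (XT.lf (nat_lit 0) (nat_lit 1118611153) (nat_lit 228) (nat_lit 1081234106) (nat_lit 304) (nat_lit 5113659225) (nat_lit 220) (nat_lit 5) (nat_lit 223) (nat_lit 3) (nat_lit 224) (nat_lit 5) (nat_lit 304) (nat_lit 302) (nat_lit 294)) (XT.lf (nat_lit 0) (nat_lit 3064265479) (nat_lit 228) (nat_lit 4400761228) (nat_lit 76) (nat_lit 195640231) (nat_lit 221) (nat_lit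 5) (nat_lit 224) (nat_lit 5) (nat_lit 222) (nat_lit 5) (nat_lit 305) (nat_lit 302) (nat_lit 293))) (XT.nd (nat_lit 78) (nat_lit 608) (nat_lit 0) (XT.lf (nat_lit 0) (nat_lit 5193958321) (nat_lit 228) (nat_lit 29854416) (nat_lit 76) (nat_lit 2852262468) (nat_lit 221) (nat_lit 5) (nat_lit 224) (nat_lit 5) (nat_lit 222) (nat_lit 5) (nat_lit 306) (nat_lit 302) (nat_lit 292)) (XT.nd (nat_lit 78) (nat_lit 380) (nat_lit 0) (XT.lf (nat_lit 0) (nat_lit 5251409496) (nat_lit 228) (nat_lit 2372819515) (nat_lit 304) (nat_lit 932397113) (nat_lit 218) (nat_lit 5) (nat_lit 221) (nat_lit 5) (nat_lit 222) (nat_lit 5) (nat_lit 307) (nat_lit 302) (nat_lit 291)) (XT.lf (nat_lit 0) (nat_lit 1103216559) (nat_lit 380) (nat_lit 7036160061) (nat_lit 76) (nat_lit 975241529) (nat_lit 213) (nat_lit 5) (nat_lit 218) (nat_lit 5) (nat_lit 214) (nat_lit 5) (nat_lit 308) (nat_lit 302) (nat_lit 290))))) (XT.nd (nat_lit 156) (nat_lit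 380) (nat_lit 0) (XT.nd (nat_lit 78) (nat_lit 152) (nat_lit 0) (XT.lf (nat_lit 0) (nat_lit 3438485195) (nat_lit 380) (nat_lit 1499769027) (nat_lit 76) (nat_lit 4797928881) (nat_lit 213) (nat_lit 5) (nat_lit 218) (nat_lit 5) (nat_lit 214) (nat_lit 5) (nat_lit 309) (nat_lit 302) (nat_lit 289)) (XT.lf (nat_lit 0) (nat_lit 5108956413) (nat_lit 152) (nat_lit 1049057184) (nat_lit 228) (nat_lit 4287873784) (nat_lit 211) (nat_lit 5) (nat_lit 213) (nat_lit 5) (nat_lit 214) (nat_lit 5) (nat_lit 310) (nat_lit 302) (nat_lit 288))) (XT.nd (nat_lit 78) (nat_lit 228) (nat_lit 0) (XT.lf (nat_lit 0) (nat_lit 1378452357) (nat_lit 152) (nat_lit 8023477811) (nat_lit 228) (nat_lit 1842648297) (nat_lit 209) (nat_lit 5) (nat_lit 211) (nat_lit 5) (nat_lit 212) (nat_lit 4) (nat_lit 311) (nat_lit 302) (nat_lit 287)) (XT.nd (nat_lit 78) (nat_lit 152) (nat_lit 0) (XT.lf (nat_lit 0) (nat_lit 1066053163) (nat_lit 228) (nat_lit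 2754980376) (nat_lit 76) (nat_lit 8308570091) (nat_lit 208) (nat_lit 5) (nat_lit 211) (nat_lit 5) (nat_lit 209) (nat_lit 5) (nat_lit 312) (nat_lit 302) (nat_lit 286)) (XT.lf (nat_lit 0) (nat_lit 4371903672) (nat_lit 228) (nat_lit 7538901240) (nat_lit 76) (nat_lit 1200991496) (nat_lit 206) (nat_lit 5) (nat_lit 209) (nat_lit 5) (nat_lit 207) (nat_lit 4) (nat_lit 313) (nat_lit 302) (nat_lit 285))))))) (XT.nd (nat_lit 780) (nat_lit 684) (nat_lit 0) (XT.nd (nat_lit 390) (nat_lit 456) (nat_lit 0) (XT.nd (nat_lit 156) (nat_lit 304) (nat_lit 0) (XT.nd (nat_lit 78) (nat_lit 0) (nat_lit 0) (XT.lf (nat_lit 0) (nat_lit 924756569) (nat_lit 76) (nat_lit 7489006754) (nat_lit 152) (nat_lit 5791535044) (nat_lit 205) (nat_lit 5) (nat_lit 206) (nat_lit 5) (nat_lit 207) (nat_lit 4) (nat_lit 314) (nat_lit 302) (nat_lit 284)) (XT.lf (nat_lit 0) (nat_lit 11306097612) (nat_lit 76) (nat_lit 2027739580) (nat_lit 152) (nat_lit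 2088198140) (nat_lit 205) (nat_lit 5) (nat_lit 206) (nat_lit 5) (nat_lit 207) (nat_lit 4) (nat_lit 315) (nat_lit 302) (nat_lit 283))) (XT.nd (nat_lit 78) (nat_lit 76) (nat_lit 0) (XT.lf (nat_lit 0) (nat_lit 2336317867) (nat_lit 228) (nat_lit 10222828101) (nat_lit 76) (nat_lit 4194816057) (nat_lit 202) (nat_lit 5) (nat_lit 205) (nat_lit 5) (nat_lit 203) (nat_lit 4) (nat_lit 316) (nat_lit 302) (nat_lit 282)) (XT.nd (nat_lit 78) (nat_lit 0) (nat_lit 0) (XT.lf (nat_lit 0) (nat_lit 647534274) (nat_lit 76) (nat_lit 6804957201) (nat_lit 152) (nat_lit 10782004759) (nat_lit 201) (nat_lit 5) (nat_lit 202) (nat_lit 5) (nat_lit 203) (nat_lit 4) (nat_lit 317) (nat_lit 302) (nat_lit 281)) (XT.lf (nat_lit 0) (nat_lit 13784377075) (nat_lit 152) (nat_lit 5768812316) (nat_lit 0) (nat_lit 316678292) (nat_lit 201) (nat_lit 5) (nat_lit 203) (nat_lit 4) (nat_lit 201) (nat_lit 4) (nat_lit 318) (nat_lit 302) (nat_lit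 280))))) (XT.nd (nat_lit 156) (nat_lit 228) (nat_lit 0) (XT.nd (nat_lit 78) (nat_lit 152) (nat_lit 0) (XT.lf (nat_lit 0) (nat_lit 8047942148) (nat_lit 76) (nat_lit 13585165927) (nat_lit 76) (nat_lit 32377389) (nat_lit 200) (nat_lit 4) (nat_lit 201) (nat_lit 5) (nat_lit 201) (nat_lit 4) (nat_lit 319) (nat_lit 302) (nat_lit 279)) (XT.lf (nat_lit 0) (nat_lit 473535653) (nat_lit 76) (nat_lit 6084750524) (nat_lit 152) (nat_lit 17092160654) (nat_lit 198) (nat_lit 5) (nat_lit 199) (nat_lit 5) (nat_lit 200) (nat_lit 4) (nat_lit 320) (nat_lit 302) (nat_lit 278))) (XT.nd (nat_lit 78) (nat_lit 228) (nat_lit 0) (XT.lf (nat_lit 0) (nat_lit 14897915588) (nat_lit 152) (nat_lit 7927859276) (nat_lit 0) (nat_lit 2992594101) (nat_lit 198) (nat_lit 5) (nat_lit 200) (nat_lit 4) (nat_lit 198) (nat_lit 4) (nat_lit 321) (nat_lit 302) (nat_lit 277)) (XT.nd (nat_lit 78) (nat_lit 152) (nat_lit 0) (XT.lf (nat_lit 0) (nat_lit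 10067668575) (nat_lit 76) (nat_lit 15051584093) (nat_lit 76) (nat_lit 3097612263) (nat_lit 197) (nat_lit 4) (nat_lit 198) (nat_lit 5) (nat_lit 198) (nat_lit 4) (nat_lit 322) (nat_lit 302) (nat_lit 276)) (XT.lf (nat_lit 0) (nat_lit 360576703) (nat_lit 76) (nat_lit 5386796868) (nat_lit 152) (nat_lit 25135045470) (nat_lit 195) (nat_lit 5) (nat_lit 196) (nat_lit 5) (nat_lit 197) (nat_lit 4) (nat_lit 323) (nat_lit 302) (nat_lit 275)))))) (XT.nd (nat_lit 390) (nat_lit 380) (nat_lit 0) (XT.nd (nat_lit 156) (nat_lit 228) (nat_lit 0) (XT.nd (nat_lit 78) (nat_lit 76) (nat_lit 0) (XT.lf (nat_lit 0) (nat_lit 16758865959) (nat_lit 152) (nat_lit 10697947427) (nat_lit 0) (nat_lit 6295332805) (nat_lit 195) (nat_lit 5) (nat_lit 197) (nat_lit 4) (nat_lit 195) (nat_lit 4) (nat_lit 324) (nat_lit 302) (nat_lit 274)) (XT.lf (nat_lit 0) (nat_lit 12858050930) (nat_lit 76) (nat_lit 17288481544) (nat_lit 76) (nat_lit 6797132398)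 (nat_lit 194) (nat_lit 4) (nat_lit 195) (nat_lit 5) (nat_lit 195) (nat_lit 4) (nat_lit 325) (nat_lit 302) (nat_lit 273))) (XT.nd (nat_lit 78) (nat_lit 76) (nat_lit 0) (XT.lf (nat_lit 0) (nat_lit 284274949) (nat_lit 76) (nat_lit 4738893382) (nat_lit 152) (nat_lit 35480107462) (nat_lit 192) (nat_lit 5) (nat_lit 193) (nat_lit 5) (nat_lit 194) (nat_lit 4) (nat_lit 326) (nat_lit 302) (nat_lit 272)) (XT.nd (nat_lit 78) (nat_lit 76) (nat_lit 0) (XT.lf (nat_lit 0) (nat_lit 19577450347) (nat_lit 152) (nat_lit 14307086406) (nat_lit 0) (nat_lit 10415215694) (nat_lit 192) (nat_lit 5) (nat_lit 194) (nat_lit 4) (nat_lit 192) (nat_lit 4) (nat_lit 327) (nat_lit 302) (nat_lit 271)) (XT.lf (nat_lit 0) (nat_lit 16633137865) (nat_lit 76) (nat_lit 20540912461) (nat_lit 76) (nat_lit 11362773925) (nat_lit 191) (nat_lit 4) (nat_lit 192) (nat_lit 5) (nat_lit 192) (nat_lit 4) (nat_lit 328) (nat_lit 302) (nat_lit 270)))))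 (XT.nd (nat_lit 156) (nat_lit 228) (nat_lit 0) (XT.nd (nat_lit 78) (nat_lit 0) (nat_lit 0) (XT.lf (nat_lit 0) (nat_lit 230460385) (nat_lit 76) (nat_lit 4152064445) (nat_lit 152) (nat_lit 48891381551) (nat_lit 189) (nat_lit 5) (nat_lit 190) (nat_lit 5) (nat_lit 191) (nat_lit 4) (nat_lit 329) (nat_lit 302) (nat_lit 269)) (XT.lf (nat_lit 0) (nat_lit 23627215573) (nat_lit 152) (nat_lit 19044290408) (nat_lit 0) (nat_lit 15623742859) (nat_lit 189) (nat_lit 5) (nat_lit 191) (nat_lit 4) (nat_lit 189) (nat_lit 4) (nat_lit 330) (nat_lit 302) (nat_lit 268))) (XT.nd (nat_lit 78) (nat_lit 152) (nat_lit 0) (XT.lf (nat_lit 0) (nat_lit 21688612903) (nat_lit 76) (nat_lit 25118253549) (nat_lit 76) (nat_lit 17105687737) (nat_lit 188) (nat_lit 4) (nat_lit 189) (nat_lit 5) (nat_lit 189) (nat_lit 4) (nat_lit 331) (nat_lit 302) (nat_lit 267)) (XT.nd (nat_lit 78) (nat_lit 0) (nat_lit 0) (XT.lf (nat_lit 0) (nat_lit 190831917)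 (nat_lit 76) (nat_lit 3628379603) (nat_lit 152) (nat_lit 66383537262) (nat_lit 186) (nat_lit 5) (nat_lit 187) (nat_lit 5) (nat_lit 188) (nat_lit 4) (nat_lit 332) (nat_lit 302) (nat_lit 266)) (XT.lf (nat_lit 0) (nat_lit 29269675186) (nat_lit 152) (nat_lit 25284522867) (nat_lit 0) (nat_lit 22289372107) (nat_lit 186) (nat_lit 5) (nat_lit 188) (nat_lit 4) (nat_lit 186) (nat_lit 4) (nat_lit 333) (nat_lit 302) (nat_lit 265))))))))
noncomputable def xc47 : XT := (XT.nd (nat_lit 1560) (nat_lit 1444) (nat_lit 0) (XT.nd (nat_lit 780) (nat_lit 836) (nat_lit 0) (XT.nd (nat_lit 390) (nat_lit 304) (nat_lit 0) (XT.nd (nat_lit 156) (nat_lit 228) (nat_lit 0) (XT.nd (nat_lit 78) (nat_lit 152) (nat_lit 0) (XT.lf (nat_lit 0) (nat_lit 28423006391) (nat_lit 76) (nat_lit 31423356159) (nat_lit 76) (nat_lit 24437854073) (nat_lit 185) (nat_lit 4) (nat_lit 186) (nat_lit 5) (nat_lit 186) (nat_lit 4) (nat_lit 334) (nat_lit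 302) (nat_lit 264)) (XT.lf (nat_lit 0) (nat_lit 160470023) (nat_lit 76) (nat_lit 3165340667) (nat_lit 152) (nat_lit 89299137713) (nat_lit 183) (nat_lit 5) (nat_lit 184) (nat_lit 5) (nat_lit 185) (nat_lit 4) (nat_lit 335) (nat_lit 302) (nat_lit 263))) (XT.nd (nat_lit 78) (nat_lit 228) (nat_lit 0) (XT.lf (nat_lit 0) (nat_lit 36984790832) (nat_lit 152) (nat_lit 33519440990) (nat_lit 0) (nat_lit 30903091563) (nat_lit 183) (nat_lit 5) (nat_lit 185) (nat_lit 4) (nat_lit 183) (nat_lit 4) (nat_lit 336) (nat_lit 302) (nat_lit 262)) (XT.nd (nat_lit 78) (nat_lit 152) (nat_lit 0) (XT.lf (nat_lit 0) (nat_lit 37367902085) (nat_lit 76) (nat_lit 39987224062) (nat_lit 76) (nat_lit 33902552244) (nat_lit 182) (nat_lit 4) (nat_lit 183) (nat_lit 5) (nat_lit 183) (nat_lit 4) (nat_lit 337) (nat_lit 302) (nat_lit 261)) (XT.lf (nat_lit 0) (nat_lit 136411217) (nat_lit 76) (nat_lit 2758318020) (nat_lit 152) (nat_lit 119412573040)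 (nat_lit 180) (nat_lit 5) (nat_lit 181) (nat_lit 5) (nat_lit 182) (nat_lit 4) (nat_lit 338) (nat_lit 302) (nat_lit 260))))) (XT.nd (nat_lit 156) (nat_lit 228) (nat_lit 0) (XT.nd (nat_lit 78) (nat_lit 76) (nat_lit 0) (XT.lf (nat_lit 0) (nat_lit 47410117967) (nat_lit 152) (nat_lit 44396770279) (nat_lit 0) (nat_lit 42114896820) (nat_lit 180) (nat_lit 5) (nat_lit 182) (nat_lit 4) (nat_lit 180) (nat_lit 4) (nat_lit 339) (nat_lit 302) (nat_lit 259)) (XT.lf (nat_lit 0) (nat_lit 49229121587) (nat_lit 76) (nat_lit 51512694610) (nat_lit 76) (nat_lit 46215773898) (nat_lit 179) (nat_lit 4) (nat_lit 180) (nat_lit 5) (nat_lit 180) (nat_lit 4) (nat_lit 340) (nat_lit 302) (nat_lit 258))) (XT.nd (nat_lit 78) (nat_lit 76) (nat_lit 0) (XT.lf (nat_lit 0) (nat_lit 116830044) (nat_lit 76) (nat_lit 2401880950) (nat_lit 152) (nat_lit 159068487795) (nat_lit 177) (nat_lit 5) (nat_lit 178) (nat_lit 5) (nat_lit 179) (nat_lit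 4) (nat_lit 341) (nat_lit 302) (nat_lit 257)) (XT.nd (nat_lit 78) (nat_lit 76) (nat_lit 0) (XT.lf (nat_lit 0) (nat_lit 61391943531) (nat_lit 152) (nat_lit 58771641193) (nat_lit 0) (nat_lit 56783522914) (nat_lit 177) (nat_lit 5) (nat_lit 179) (nat_lit 4) (nat_lit 177) (nat_lit 4) (nat_lit 342) (nat_lit 302) (nat_lit 256)) (XT.lf (nat_lit 0) (nat_lit 64941901751) (nat_lit 76) (nat_lit 66930991762) (nat_lit 76) (nat_lit 62321599413) (nat_lit 176) (nat_lit 4) (nat_lit 177) (nat_lit 5) (nat_lit 177) (nat_lit 4) (nat_lit 343) (nat_lit 302) (nat_lit 255)))))) (XT.nd (nat_lit 390) (nat_lit 456) (nat_lit 0) (XT.nd (nat_lit 156) (nat_lit 228) (nat_lit 0) (XT.nd (nat_lit 78) (nat_lit 0) (nat_lit 0) (XT.lf (nat_lit 0) (nat_lit 100568816) (nat_lit 76) (nat_lit 2090503811) (nat_lit 152) (nat_lit 211365382922) (nat_lit 174) (nat_lit 5) (nat_lit 175) (nat_lit 5) (nat_lit 176) (nat_lit 4) (nat_lit 344) (nat_lit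 302) (nat_lit 254)) (XT.lf (nat_lit 0) (nat_lit 80052583533) (nat_lit 152) (nat_lit 77774059761) (nat_lit 0) (nat_lit 76043042575) (nat_lit 174) (nat_lit 5) (nat_lit 176) (nat_lit 4) (nat_lit 174) (nat_lit 4) (nat_lit 345) (nat_lit 302) (nat_lit 253))) (XT.nd (nat_lit 78) (nat_lit 152) (nat_lit 0) (XT.lf (nat_lit 0) (nat_lit 85744276963) (nat_lit 76) (nat_lit 87475849739) (nat_lit 76) (nat_lit 83465753190) (nat_lit 173) (nat_lit 4) (nat_lit 174) (nat_lit 5) (nat_lit 174) (nat_lit 4) (nat_lit 346) (nat_lit 302) (nat_lit 252)) (XT.nd (nat_lit 78) (nat_lit 0) (nat_lit 0) (XT.lf (nat_lit 0) (nat_lit 86866511) (nat_lit 76) (nat_lit 1818922410) (nat_lit 152) (nat_lit 280398710759) (nat_lit 171) (nat_lit 5) (nat_lit 172) (nat_lit 5) (nat_lit 173) (nat_lit 4) (nat_lit 347) (nat_lit 302) (nat_lit 251)) (XT.lf (nat_lit 0) (nat_lit 104879220081) (nat_lit 152) (nat_lit 102897895062) (nat_lit 0) (nat_lit 101391394187)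 (nat_lit 171) (nat_lit 5) (nat_lit 173) (nat_lit 4) (nat_lit 171) (nat_lit 4) (nat_lit 348) (nat_lit 302) (nat_lit 250))))) (XT.nd (nat_lit 156) (nat_lit 228) (nat_lit 0) (XT.nd (nat_lit 78) (nat_lit 152) (nat_lit 0) (XT.lf (nat_lit 0) (nat_lit 113274364854) (nat_lit 76) (nat_lit 114781183389) (nat_lit 76) (nat_lit 111293039835) (nat_lit 170) (nat_lit 4) (nat_lit 171) (nat_lit 5) (nat_lit 171) (nat_lit 4) (nat_lit 349) (nat_lit 302) (nat_lit 249)) (XT.lf (nat_lit 0) (nat_lit 75201831) (nat_lit 76) (nat_lit 1582296593) (nat_lit 152) (nat_lit 371582509407) (nat_lit 168) (nat_lit 5) (nat_lit 169) (nat_lit 5) (nat_lit 170) (nat_lit 4) (nat_lit 350) (nat_lit 302) (nat_lit 248))) (XT.nd (nat_lit 78) (nat_lit 228) (nat_lit 0) (XT.lf (nat_lit 0) (nat_lit 137841316970) (nat_lit 152) (nat_lit 136118425649) (nat_lit 0) (nat_lit 134807699598) (nat_lit 168) (nat_lit 5) (nat_lit 170) (nat_lit 4) (nat_lit 168)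 (nat_lit 4) (nat_lit 351) (nat_lit 302) (nat_lit 247)) (XT.nd (nat_lit 78) (nat_lit 152) (nat_lit 0) (XT.lf (nat_lit 0) (nat_lit 149699165303) (nat_lit 76) (nat_lit 151010072978) (nat_lit 76) (nat_lit 147976273982) (nat_lit 167) (nat_lit 4) (nat_lit 168) (nat_lit 5) (nat_lit 168) (nat_lit 4) (nat_lit 352) (nat_lit 302) (nat_lit 246)) (XT.lf (nat_lit 0) (nat_lit 65201779) (nat_lit 76) (nat_lit 1376267387) (nat_lit 152) (nat_lit 492074827838) (nat_lit 165) (nat_lit 5) (nat_lit 166) (nat_lit 5) (nat_lit 167) (nat_lit 4) (nat_lit 353) (nat_lit 302) (nat_lit 245))))))) (XT.nd (nat_lit 780) (nat_lit 760) (nat_lit 0) (XT.nd (nat_lit 390) (nat_lit 380) (nat_lit 0) (XT.nd (nat_lit 156) (nat_lit 228) (nat_lit 0) (XT.nd (nat_lit 78) (nat_lit 76) (nat_lit 0) (XT.lf (nat_lit 0) (nat_lit 181545880496) (nat_lit 152) (nat_lit 180047714130) (nat_lit 0) (nat_lit 178907537659) (nat_lit 165) (nat_lit 5) (nat_lit 167)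 (nat_lit 4) (nat_lit 165) (nat_lit 4) (nat_lit 354) (nat_lit 302) (nat_lit 244)) (XT.lf (nat_lit 0) (nat_lit 197884978754) (nat_lit 76) (nat_lit 199025259070) (nat_lit 76) (nat_lit 196386812388) (nat_lit 164) (nat_lit 4) (nat_lit 165) (nat_lit 5) (nat_lit 165) (nat_lit 4) (nat_lit 355) (nat_lit 302) (nat_lit 243))) (XT.nd (nat_lit 78) (nat_lit 76) (nat_lit 0) (XT.lf (nat_lit 0) (nat_lit 56587927) (nat_lit 76) (nat_lit 1196958541) (nat_lit 152) (nat_lit 651340372121) (nat_lit 162) (nat_lit 5) (nat_lit 163) (nat_lit 5) (nat_lit 164) (nat_lit 4) (nat_lit 356) (nat_lit 302) (nat_lit 242)) (XT.nd (nat_lit 78) (nat_lit 76) (nat_lit 0) (XT.lf (nat_lit 0) (nat_lit 239442796647) (nat_lit 152) (nat_lit 238140043285) (nat_lit 0) (nat_lit 237148348385) (nat_lit 162) (nat_lit 5) (nat_lit 164) (nat_lit 4) (nat_lit 162) (nat_lit 4) (nat_lit 357) (nat_lit 302) (nat_lit 241)) (XT.lf (nat_lit 0) (nat_lit 261622833214)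 (nat_lit 76) (nat_lit 262614587488) (nat_lit 76) (nat_lit 260320079852) (nat_lit 161) (nat_lit 4) (nat_lit 162) (nat_lit 5) (nat_lit 162) (nat_lit 4) (nat_lit 358) (nat_lit 302) (nat_lit 240))))) (XT.nd (nat_lit 156) (nat_lit 228) (nat_lit 0) (XT.nd (nat_lit 78) (nat_lit 0) (nat_lit 0) (XT.lf (nat_lit 0) (nat_lit 49144416) (nat_lit 76) (nat_lit 1040950318) (nat_lit 152) (nat_lit 861894604430) (nat_lit 159) (nat_lit 5) (nat_lit 160) (nat_lit 5) (nat_lit 161) (nat_lit 4) (nat_lit 359) (nat_lit 302) (nat_lit 239)) (XT.lf (nat_lit 0) (nat_lit 316096407006) (nat_lit 152) (nat_lit 314963577996) (nat_lit 0) (nat_lit 314101099043) (nat_lit 159) (nat_lit 5) (nat_lit 161) (nat_lit 4) (nat_lit 159) (nat_lit 4) (nat_lit 360) (nat_lit 302) (nat_lit 238))) (XT.nd (nat_lit 78) (nat_lit 152) (nat_lit 0) (XT.lf (nat_lit 0) (nat_lit 345926641137) (nat_lit 76) (nat_lit 346789154037) (nat_lit 76) (nat_lit 344793812126)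 (nat_lit 158) (nat_lit 4) (nat_lit 159) (nat_lit 5) (nat_lit 159) (nat_lit 4) (nat_lit 361) (nat_lit 302) (nat_lit 237)) (XT.nd (nat_lit 78) (nat_lit 0) (nat_lit 0) (XT.lf (nat_lit 0) (nat_lit 42698553) (nat_lit 76) (nat_lit 905240973) (nat_lit 152) (nat_lit 1140287802394) (nat_lit 156) (nat_lit 5) (nat_lit 157) (nat_lit 5) (nat_lit 158) (nat_lit 4) (nat_lit 362) (nat_lit 302) (nat_lit 236)) (XT.lf (nat_lit 0) (nat_lit 417544690688) (nat_lit 152) (nat_lit 416559621983) (nat_lit 0) (nat_lit 415809562777) (nat_lit 156) (nat_lit 5) (nat_lit 158) (nat_lit 4) (nat_lit 156) (nat_lit 4) (nat_lit 363) (nat_lit 302) (nat_lit 235)))))) (XT.nd (nat_lit 390) (nat_lit 304) (nat_lit 0) (XT.nd (nat_lit 156) (nat_lit 228) (nat_lit 0) (XT.nd (nat_lit 78) (nat_lit 152) (nat_lit 0) (XT.lf (nat_lit 0) (nat_lit 457427530448) (nat_lit 76) (nat_lit 458177609064) (nat_lit 76) (nat_lit 456442461744) (nat_lit 155) (nat_lit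 4) (nat_lit 156) (nat_lit 5) (nat_lit 156) (nat_lit 4) (nat_lit 364) (nat_lit 302) (nat_lit 234)) (XT.lf (nat_lit 0) (nat_lit 37108753) (nat_lit 76) (nat_lit 787204247) (nat_lit 152) (nat_lit 1508406461167) (nat_lit 153) (nat_lit 5) (nat_lit 154) (nat_lit 5) (nat_lit 155) (nat_lit 4) (nat_lit 365) (nat_lit 302) (nat_lit 233))) (XT.nd (nat_lit 78) (nat_lit 228) (nat_lit 0) (XT.lf (nat_lit 0) (nat_lit 551774306634) (nat_lit 152) (nat_lit 550917725151) (nat_lit 0) (nat_lit 550265455439) (nat_lit 153) (nat_lit 5) (nat_lit 155) (nat_lit 4) (nat_lit 153) (nat_lit 4) (nat_lit 366) (nat_lit 302) (nat_lit 232)) (XT.nd (nat_lit 78) (nat_lit 152) (nat_lit 0) (XT.lf (nat_lit 0) (nat_lit 604895359299) (nat_lit 76) (nat_lit 605547640109) (nat_lit 76) (nat_lit 604038777816) (nat_lit 152) (nat_lit 4) (nat_lit 153) (nat_lit 5) (nat_lit 153) (nat_lit 4) (nat_lit 367) (nat_lit 302) (nat_lit 231)) (XT.lf (nat_lit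 0) (nat_lit 32256804) (nat_lit 76) (nat_lit 684547263) (nat_lit 152) (nat_lit 1995194379792) (nat_lit 150) (nat_lit 5) (nat_lit 151) (nat_lit 5) (nat_lit 152) (nat_lit 4) (nat_lit 368) (nat_lit 302) (nat_lit 230))))) (XT.nd (nat_lit 156) (nat_lit 228) (nat_lit 0) (XT.nd (nat_lit 78) (nat_lit 76) (nat_lit 0) (XT.lf (nat_lit 0) (nat_lit 729348860569) (nat_lit 152) (nat_lit 728604007106) (nat_lit 0) (nat_lit 728036790714) (nat_lit 150) (nat_lit 5) (nat_lit 152) (nat_lit 4) (nat_lit 150) (nat_lit 4) (nat_lit 369) (nat_lit 302) (nat_lit 229)) (XT.lf (nat_lit 0) (nat_lit 799928427347) (nat_lit 76) (nat_lit 800495650084) (nat_lit 76) (nat_lit 799183573884) (nat_lit 149) (nat_lit 4) (nat_lit 150) (nat_lit 5) (nat_lit 150) (nat_lit 4) (nat_lit 370) (nat_lit 302) (nat_lit 228))) (XT.nd (nat_lit 78) (nat_lit 76) (nat_lit 0) (XT.lf (nat_lit 0) (nat_lit 28042718) (nat_lit 76) (nat_lit 595270972) (nat_lit 152)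 (nat_lit 2638928780301) (nat_lit 147) (nat_lit 5) (nat_lit 148) (nat_lit 5) (nat_lit 149) (nat_lit 4) (nat_lit 371) (nat_lit 302) (nat_lit 227)) (XT.nd (nat_lit 78) (nat_lit 76) (nat_lit 0) (XT.lf (nat_lit 0) (nat_lit 964239809929) (nat_lit 152) (nat_lit 963592111266) (nat_lit 0) (nat_lit 963098865134) (nat_lit 147) (nat_lit 5) (nat_lit 149) (nat_lit 4) (nat_lit 147) (nat_lit 4) (nat_lit 372) (nat_lit 302) (nat_lit 226)) (XT.lf (nat_lit 0) (nat_lit 1057865624560) (nat_lit 76) (nat_lit 1058358874319) (nat_lit 76) (nat_lit 1057217925896) (nat_lit 146) (nat_lit 4) (nat_lit 147) (nat_lit 5) (nat_lit 147) (nat_lit 4) (nat_lit 373) (nat_lit 302) (nat_lit 225))))))))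
noncomputable def xc48 : XT := (XT.nd (nat_lit 42198) (nat_lit 0) (nat_lit 3724) (XT.nd (nat_lit 41418) (nat_lit 0) (nat_lit 5396) (XT.nd (nat_lit 390) (nat_lit 304) (nat_lit 0) (XT.nd (nat_lit 156) (nat_lit 228) (nat_lit 0) (XT.nd (nat_lit 78) (nat_lit 0) (nat_lit 0) (XT.lf (nat_lit 0) (nat_lit 24381155) (nat_lit 76) (nat_lit 517634069) (nat_lit 152) (nat_lit 3490230458723) (nat_lit 144) (nat_lit 5) (nat_lit 145) (nat_lit 5) (nat_lit 146) (nat_lit 4) (nat_lit 374) (nat_lit 302) (nat_lit 224)) (XT.lf (nat_lit 0) (nat_lit 1274925355463) (nat_lit 152) (nat_lit 1274362139234) (nat_lit 0) (nat_lit 1273933221271) (nat_lit 144) (nat_lit 5) (nat_lit 146) (nat_lit 4) (nat_lit 144) (nat_lit 4) (nat_lit 375) (nat_lit 302) (nat_lit 223))) (XT.nd (nat_lit 78) (nat_lit 152) (nat_lit 0) (XT.lf (nat_lit 0) (nat_lit 1398992752118) (nat_lit 76) (nat_lit 1399421672155) (nat_lit 76) (nat_lit 1398429535889) (nat_lit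 143) (nat_lit 4) (nat_lit 144) (nat_lit 5) (nat_lit 144) (nat_lit 4) (nat_lit 376) (nat_lit 302) (nat_lit 222)) (XT.nd (nat_lit 78) (nat_lit 0) (nat_lit 0) (XT.lf (nat_lit 0) (nat_lit 21198821) (nat_lit 76) (nat_lit 450120662) (nat_lit 152) (nat_lit 4616044694766) (nat_lit 141) (nat_lit 5) (nat_lit 142) (nat_lit 5) (nat_lit 143) (nat_lit 4) (nat_lit 377) (nat_lit 302) (nat_lit 221)) (XT.lf (nat_lit 0) (nat_lit 1685843743088) (nat_lit 152) (nat_lit 1685353989846) (nat_lit 0) (nat_lit 1684981012968) (nat_lit 141) (nat_lit 5) (nat_lit 143) (nat_lit 4) (nat_lit 141) (nat_lit 4) (nat_lit 378) (nat_lit 302) (nat_lit 220))))) (XT.nd (nat_lit 156) (nat_lit 76) (nat_lit 0) (XT.nd (nat_lit 78) (nat_lit 152) (nat_lit 0) (XT.lf (nat_lit 0) (nat_lit 1850137884942) (nat_lit 76) (nat_lit 1850510863005) (nat_lit 76) (nat_lit 1849648131699) (nat_lit 140) (nat_lit 4) (nat_lit 141) (nat_lit 5) (nat_lit 141) (nat_lit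 4) (nat_lit 379) (nat_lit 302) (nat_lit 219)) (XT.lf (nat_lit 0) (nat_lit 18432510) (nat_lit 76) (nat_lit 391411604) (nat_lit 152) (nat_lit 6104905991427) (nat_lit 138) (nat_lit 5) (nat_lit 139) (nat_lit 5) (nat_lit 140) (nat_lit 4) (nat_lit 380) (nat_lit 302) (nat_lit 218))) (XT.nd (nat_lit 78) (nat_lit 76) (nat_lit 0) (XT.lf (nat_lit 0) (nat_lit 2229315271269) (nat_lit 152) (nat_lit 2228889398885) (nat_lit 0) (nat_lit 2228565068457) (nat_lit 138) (nat_lit 5) (nat_lit 140) (nat_lit 4) (nat_lit 138) (nat_lit 4) (nat_lit 381) (nat_lit 302) (nat_lit 217)) (XT.nd (nat_lit 40716) (nat_lit 0) (nat_lit 6308) (XT.lf (nat_lit 0) (nat_lit 2446781241100) (nat_lit 76) (nat_lit 2447105572206) (nat_lit 76) (nat_lit 2446355368715) (nat_lit 137) (nat_lit 4) (nat_lit 138) (nat_lit 5) (nat_lit 138) (nat_lit 4) (nat_lit 382) (nat_lit 302) (nat_lit 216)) (XT.lf (nat_lit 0) (nat_lit 201373989) (nat_lit 0) (nat_lit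 201373989) (nat_lit 228) (nat_lit 3241249117) (nat_lit 220) (nat_lit 5) (nat_lit 220) (nat_lit 3) (nat_lit 223) (nat_lit 3) (nat_lit 303) (nat_lit 303) (nat_lit 294)))))) (XT.nd (nat_lit 390) (nat_lit 684) (nat_lit 0) (XT.nd (nat_lit 156) (nat_lit 228) (nat_lit 0) (XT.nd (nat_lit 78) (nat_lit 0) (nat_lit 0) (XT.lf (nat_lit 0) (nat_lit 2479193474) (nat_lit 228) (nat_lit 3253016074) (nat_lit 304) (nat_lit 1860391409) (nat_lit 220) (nat_lit 5) (nat_lit 223) (nat_lit 3) (nat_lit 224) (nat_lit 5) (nat_lit 304) (nat_lit 303) (nat_lit 293)) (XT.lf (nat_lit 76) (nat_lit 792897162) (nat_lit 0) (nat_lit 3396499795) (nat_lit 304) (nat_lit 3785684081) (nat_lit 221) (nat_lit 5) (nat_lit 220) (nat_lit 5) (nat_lit 224) (nat_lit 5) (nat_lit 305) (nat_lit 303) (nat_lit 292))) (XT.nd (nat_lit 78) (nat_lit 228) (nat_lit 0) (XT.lf (nat_lit 76) (nat_lit 5637028173) (nat_lit 0) (nat_lit 450140206) (nat_lit 304) (nat_lit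 2338109138) (nat_lit 221) (nat_lit 5) (nat_lit 220) (nat_lit 5) (nat_lit 224) (nat_lit 5) (nat_lit 306) (nat_lit 303) (nat_lit 291)) (XT.nd (nat_lit 78) (nat_lit 76) (nat_lit 0) (XT.lf (nat_lit 0) (nat_lit 2149429176) (nat_lit 228) (nat_lit 6125342460) (nat_lit 304) (nat_lit 667456915) (nat_lit 218) (nat_lit 5) (nat_lit 221) (nat_lit 5) (nat_lit 222) (nat_lit 5) (nat_lit 307) (nat_lit 303) (nat_lit 290)) (XT.lf (nat_lit 0) (nat_lit 1121429237) (nat_lit 304) (nat_lit 1649704479) (nat_lit 76) (nat_lit 6760912375) (nat_lit 217) (nat_lit 5) (nat_lit 221) (nat_lit 5) (nat_lit 218) (nat_lit 5) (nat_lit 308) (nat_lit 303) (nat_lit 289))))) (XT.nd (nat_lit 156) (nat_lit 228) (nat_lit 0) (XT.nd (nat_lit 78) (nat_lit 152) (nat_lit 0) (XT.lf (nat_lit 0) (nat_lit 3180797724) (nat_lit 380) (nat_lit 5798561755) (nat_lit 76) (nat_lit 1215636589) (nat_lit 213) (nat_lit 5) (nat_lit 218) (nat_lit 5) (nat_lit 214)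 (nat_lit 5) (nat_lit 309) (nat_lit 303) (nat_lit 288)) (XT.lf (nat_lit 0) (nat_lit 295506058) (nat_lit 152) (nat_lit 5333682697) (nat_lit 228) (nat_lit 5316182197) (nat_lit 211) (nat_lit 5) (nat_lit 213) (nat_lit 5) (nat_lit 214) (nat_lit 5) (nat_lit 310) (nat_lit 303) (nat_lit 287))) (XT.nd (nat_lit 78) (nat_lit 228) (nat_lit 0) (XT.lf (nat_lit 0) (nat_lit 7778599030) (nat_lit 152) (nat_lit 827749476) (nat_lit 228) (nat_lit 3177727053) (nat_lit 211) (nat_lit 5) (nat_lit 213) (nat_lit 5) (nat_lit 214) (nat_lit 5) (nat_lit 311) (nat_lit 303) (nat_lit 286)) (XT.nd (nat_lit 78) (nat_lit 76) (nat_lit 0) (XT.lf (nat_lit 0) (nat_lit 3605338427) (nat_lit 152) (nat_lit 8629932343) (nat_lit 228) (nat_lit 482536804) (nat_lit 209) (nat_lit 5) (nat_lit 211) (nat_lit 5) (nat_lit 212) (nat_lit 4) (nat_lit 312) (nat_lit 303) (nat_lit 285)) (XT.lf (nat_lit 0) (nat_lit 2522322366) (nat_lit 228) (nat_lit 1284913049)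 (nat_lit 76) (nat_lit 9947354575) (nat_lit 208) (nat_lit 5) (nat_lit 211) (nat_lit 5) (nat_lit 209) (nat_lit 5) (nat_lit 313) (nat_lit 303) (nat_lit 284))))))) (XT.nd (nat_lit 780) (nat_lit 836) (nat_lit 0) (XT.nd (nat_lit 390) (nat_lit 304) (nat_lit 0) (XT.nd (nat_lit 156) (nat_lit 304) (nat_lit 0) (XT.nd (nat_lit 78) (nat_lit 76) (nat_lit 0) (XT.lf (nat_lit 0) (nat_lit 6254078219) (nat_lit 228) (nat_lit 6716449809) (nat_lit 76) (nat_lit 1924079492) (nat_lit 206) (nat_lit 5) (nat_lit 209) (nat_lit 5) (nat_lit 207) (nat_lit 4) (nat_lit 314) (nat_lit 303) (nat_lit 283)) (XT.lf (nat_lit 0) (nat_lit 2927970916) (nat_lit 76) (nat_lit 7891487124) (nat_lit 152) (nat_lit 5345090551) (nat_lit 205) (nat_lit 5) (nat_lit 206) (nat_lit 5) (nat_lit 207) (nat_lit 4) (nat_lit 315) (nat_lit 303) (nat_lit 282))) (XT.nd (nat_lit 78) (nat_lit 304) (nat_lit 0) (XT.lf (nat_lit 0) (nat_lit 14623317350) (nat_lit 76)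 (nat_lit 1705056480) (nat_lit 152) (nat_lit 1257797643) (nat_lit 205) (nat_lit 5) (nat_lit 206) (nat_lit 5) (nat_lit 207) (nat_lit 4) (nat_lit 316) (nat_lit 303) (nat_lit 281)) (XT.nd (nat_lit 78) (nat_lit 76) (nat_lit 0) (XT.lf (nat_lit 0) (nat_lit 3688575043) (nat_lit 228) (nat_lit 9993126498) (nat_lit 76) (nat_lit 5435083364) (nat_lit 202) (nat_lit 5) (nat_lit 205) (nat_lit 5) (nat_lit 203) (nat_lit 4) (nat_lit 317) (nat_lit 303) (nat_lit 280)) (XT.lf (nat_lit 0) (nat_lit 2427648152) (nat_lit 76) (nat_lit 7083544504) (nat_lit 152) (nat_lit 11317353895) (nat_lit 201) (nat_lit 5) (nat_lit 202) (nat_lit 5) (nat_lit 203) (nat_lit 4) (nat_lit 318) (nat_lit 303) (nat_lit 279))))) (XT.nd (nat_lit 156) (nat_lit 152) (nat_lit 0) (XT.nd (nat_lit 78) (nat_lit 152) (nat_lit 0) (XT.lf (nat_lit 0) (nat_lit 16696867174) (nat_lit 152) (nat_lit 5074676123) (nat_lit 0) (nat_lit 952079508) (nat_lit 201) (nat_lit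 5) (nat_lit 203) (nat_lit 4) (nat_lit 201) (nat_lit 4) (nat_lit 319) (nat_lit 303) (nat_lit 278)) (XT.lf (nat_lit 0) (nat_lit 800275275) (nat_lit 152) (nat_lit 14088535902) (nat_lit 76) (nat_lit 9901599207) (nat_lit 199) (nat_lit 5) (nat_lit 201) (nat_lit 5) (nat_lit 200) (nat_lit 4) (nat_lit 320) (nat_lit 303) (nat_lit 277))) (XT.nd (nat_lit 78) (nat_lit 76) (nat_lit 0) (XT.lf (nat_lit 0) (nat_lit 2043295082) (nat_lit 76) (nat_lit 6286179672) (nat_lit 152) (nat_lit 18750422254) (nat_lit 198) (nat_lit 5) (nat_lit 199) (nat_lit 5) (nat_lit 200) (nat_lit 4) (nat_lit 321) (nat_lit 303) (nat_lit 276)) (XT.nd (nat_lit 78) (nat_lit 76) (nat_lit 0) (XT.lf (nat_lit 0) (nat_lit 17842949344) (nat_lit 152) (nat_lit 7736696256) (nat_lit 0) (nat_lit 4004926748) (nat_lit 198) (nat_lit 5) (nat_lit 200) (nat_lit 4) (nat_lit 198) (nat_lit 4) (nat_lit 322) (nat_lit 303) (nat_lit 275)) (XT.lf (nat_lit 0) (nat_lit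 12895417958) (nat_lit 76) (nat_lit 16663974116) (nat_lit 76) (nat_lit 2789164871) (nat_lit 197) (nat_lit 4) (nat_lit 198) (nat_lit 5) (nat_lit 198) (nat_lit 4) (nat_lit 323) (nat_lit 303) (nat_lit 274)))))) (XT.nd (nat_lit 390) (nat_lit 456) (nat_lit 0) (XT.nd (nat_lit 156) (nat_lit 228) (nat_lit 0) (XT.nd (nat_lit 78) (nat_lit 0) (nat_lit 0) (XT.lf (nat_lit 0) (nat_lit 1738068744) (nat_lit 76) (nat_lit 5538613292) (nat_lit 152) (nat_lit 28138019497) (nat_lit 195) (nat_lit 5) (nat_lit 196) (nat_lit 5) (nat_lit 197) (nat_lit 4) (nat_lit 324) (nat_lit 303) (nat_lit 273)) (XT.lf (nat_lit 0) (nat_lit 19876499679) (nat_lit 152) (nat_lit 11088453516) (nat_lit 0) (nat_lit 7759444350) (nat_lit 195) (nat_lit 5) (nat_lit 197) (nat_lit 4) (nat_lit 195) (nat_lit 4) (nat_lit 325) (nat_lit 303) (nat_lit 272))) (XT.nd (nat_lit 78) (nat_lit 152) (nat_lit 0) (XT.lf (nat_lit 0) (nat_lit 15945754320) (nat_lit 76)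 (nat_lit 19295796372) (nat_lit 76) (nat_lit 7157708158) (nat_lit 194) (nat_lit 4) (nat_lit 195) (nat_lit 5) (nat_lit 195) (nat_lit 4) (nat_lit 326) (nat_lit 303) (nat_lit 271)) (XT.nd (nat_lit 78) (nat_lit 0) (nat_lit 0) (XT.lf (nat_lit 0) (nat_lit 1489231792) (nat_lit 76) (nat_lit 4857563311) (nat_lit 152) (nat_lit 40146449331) (nat_lit 192) (nat_lit 5) (nat_lit 193) (nat_lit 5) (nat_lit 194) (nat_lit 4) (nat_lit 327) (nat_lit 303) (nat_lit 270)) (XT.lf (nat_lit 0) (nat_lit 23031173790) (nat_lit 152) (nat_lit 15389394518) (nat_lit 0) (nat_lit 12446581125) (nat_lit 192) (nat_lit 5) (nat_lit 194) (nat_lit 4) (nat_lit 192) (nat_lit 4) (nat_lit 328) (nat_lit 303) (nat_lit 269))))) (XT.nd (nat_lit 156) (nat_lit 228) (nat_lit 0) (XT.nd (nat_lit 78) (nat_lit 152) (nat_lit 0) (XT.lf (nat_lit 0) (nat_lit 20143510902) (nat_lit 76) (nat_lit 23098349916) (nat_lit 76) (nat_lit 12501731630) (nat_lit 191) (nat_lit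 4) (nat_lit 192) (nat_lit 5) (nat_lit 192) (nat_lit 4) (nat_lit 329) (nat_lit 303) (nat_lit 268)) (XT.lf (nat_lit 0) (nat_lit 1282329934) (nat_lit 76) (nat_lit 4247626010) (nat_lit 152) (nat_lit 55661528535) (nat_lit 189) (nat_lit 5) (nat_lit 190) (nat_lit 5) (nat_lit 191) (nat_lit 4) (nat_lit 330) (nat_lit 303) (nat_lit 267))) (XT.nd (nat_lit 78) (nat_lit 228) (nat_lit 0) (XT.lf (nat_lit 0) (nat_lit 27616414961) (nat_lit 152) (nat_lit 20971389507) (nat_lit 0) (nat_lit 18384964140) (nat_lit 189) (nat_lit 5) (nat_lit 191) (nat_lit 4) (nat_lit 189) (nat_lit 4) (nat_lit 331) (nat_lit 303) (nat_lit 266)) (XT.nd (nat_lit 78) (nat_lit 152) (nat_lit 0) (XT.lf (nat_lit 0) (nat_lit 25829197279) (nat_lit 76) (nat_lit 28422498335) (nat_lit 76) (nat_lit 19184171825) (nat_lit 188) (nat_lit 4) (nat_lit 189) (nat_lit 5) (nat_lit 189) (nat_lit 4) (nat_lit 332) (nat_lit 303) (nat_lit 265)) (XT.lf (nat_lit 0) (nat_lit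 1107834409) (nat_lit 76) (nat_lit 3707114324) (nat_lit 152) (nat_lit 75854784043) (nat_lit 186) (nat_lit 5) (nat_lit 187) (nat_lit 5) (nat_lit 188) (nat_lit 4) (nat_lit 333) (nat_lit 303) (nat_lit 264))))))))
noncomputable def xc49 : XT := (XT.nd (nat_lit 1560) (nat_lit 1520) (nat_lit 0) (XT.nd (nat_lit 780) (nat_lit 760) (nat_lit 0) (XT.nd (nat_lit 390) (nat_lit 380) (nat_lit 0) (XT.nd (nat_lit 156) (nat_lit 228) (nat_lit 0) (XT.nd (nat_lit 78) (nat_lit 76) (nat_lit 0) (XT.lf (nat_lit 0) (nat_lit 34044588870) (nat_lit 152) (nat_lit 28266305867) (nat_lit 0) (nat_lit 26001541587) (nat_lit 186) (nat_lit 5) (nat_lit 188) (nat_lit 4) (nat_lit 186) (nat_lit 4) (nat_lit 334) (nat_lit 303) (nat_lit 263)) (XT.lf (nat_lit 0) (nat_lit 33460493897) (nat_lit 76) (nat_lit 35729189374) (nat_lit 76) (nat_lit 27682210894) (nat_lit 185) (nat_lit 4) (nat_lit 186) (nat_lit 5) (nat_lit 186) (nat_lit 4) (nat_lit 335)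 (nat_lit 303) (nat_lit 262))) (XT.nd (nat_lit 78) (nat_lit 76) (nat_lit 0) (XT.lf (nat_lit 0) (nat_lit 959197578) (nat_lit 76) (nat_lit 3231311487) (nat_lit 152) (nat_lit 102273307584) (nat_lit 183) (nat_lit 5) (nat_lit 184) (nat_lit 5) (nat_lit 185) (nat_lit 4) (nat_lit 336) (nat_lit 303) (nat_lit 261)) (XT.nd (nat_lit 78) (nat_lit 76) (nat_lit 0) (XT.lf (nat_lit 0) (nat_lit 42865340379) (nat_lit 152) (nat_lit 37840746463) (nat_lit 0) (nat_lit 35862410412) (nat_lit 183) (nat_lit 5) (nat_lit 185) (nat_lit 4) (nat_lit 183) (nat_lit 4) (nat_lit 337) (nat_lit 303) (nat_lit 260)) (XT.lf (nat_lit 0) (nat_lit 43647579407) (nat_lit 76) (nat_lit 45628163132) (nat_lit 76) (nat_lit 38622985491) (nat_lit 182) (nat_lit 4) (nat_lit 183) (nat_lit 5) (nat_lit 183) (nat_lit 4) (nat_lit 338) (nat_lit 303) (nat_lit 259))))) (XT.nd (nat_lit 156) (nat_lit 228) (nat_lit 0) (XT.nd (nat_lit 78) (nat_lit 0) (nat_lit 0)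 (XT.lf (nat_lit 0) (nat_lit 831719683) (nat_lit 76) (nat_lit 2814257909) (nat_lit 152) (nat_lit 136959864182) (nat_lit 180) (nat_lit 5) (nat_lit 181) (nat_lit 5) (nat_lit 182) (nat_lit 4) (nat_lit 339) (nat_lit 303) (nat_lit 258)) (XT.lf (nat_lit 0) (nat_lit 54810205252) (nat_lit 152) (nat_lit 50440993151) (nat_lit 0) (nat_lit 48715568986) (nat_lit 180) (nat_lit 5) (nat_lit 182) (nat_lit 4) (nat_lit 180) (nat_lit 4) (nat_lit 340) (nat_lit 303) (nat_lit 257))) (XT.nd (nat_lit 78) (nat_lit 152) (nat_lit 0) (XT.lf (nat_lit 0) (nat_lit 57200814646) (nat_lit 76) (nat_lit 58927523927) (nat_lit 76) (nat_lit 52831602546) (nat_lit 179) (nat_lit 4) (nat_lit 180) (nat_lit 5) (nat_lit 180) (nat_lit 4) (nat_lit 341) (nat_lit 303) (nat_lit 256)) (XT.nd (nat_lit 78) (nat_lit 0) (nat_lit 0) (XT.lf (nat_lit 0) (nat_lit 721882216) (nat_lit 76) (nat_lit 2449708987) (nat_lit 152) (nat_lit 182612426370) (nat_lit 177)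 (nat_lit 5) (nat_lit 178) (nat_lit 5) (nat_lit 179) (nat_lit 4) (nat_lit 342) (nat_lit 303) (nat_lit 255)) (XT.lf (nat_lit 0) (nat_lit 70851179946) (nat_lit 152) (nat_lit 67051865075) (nat_lit 0) (nat_lit 65548562029) (nat_lit 177) (nat_lit 5) (nat_lit 179) (nat_lit 4) (nat_lit 177) (nat_lit 4) (nat_lit 343) (nat_lit 303) (nat_lit 254)))))) (XT.nd (nat_lit 390) (nat_lit 304) (nat_lit 0) (XT.nd (nat_lit 156) (nat_lit 228) (nat_lit 0) (XT.nd (nat_lit 78) (nat_lit 152) (nat_lit 0) (XT.lf (nat_lit 0) (nat_lit 75194367388) (nat_lit 76) (nat_lit 76698405203) (nat_lit 76) (nat_lit 71395052517) (nat_lit 176) (nat_lit 4) (nat_lit 177) (nat_lit 5) (nat_lit 177) (nat_lit 4) (nat_lit 344) (nat_lit 303) (nat_lit 253)) (XT.lf (nat_lit 0) (nat_lit 626950489) (nat_lit 76) (nat_lit 2131627233) (nat_lit 152) (nat_lit 242795519529) (nat_lit 174) (nat_lit 5) (nat_lit 175) (nat_lit 5) (nat_lit 176) (nat_lit 4) (nat_lit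 345) (nat_lit 303) (nat_lit 252))) (XT.nd (nat_lit 78) (nat_lit 228) (nat_lit 0) (XT.lf (nat_lit 0) (nat_lit 92277971814) (nat_lit 152) (nat_lit 88974219753) (nat_lit 0) (nat_lit 87665322070) (nat_lit 174) (nat_lit 5) (nat_lit 176) (nat_lit 4) (nat_lit 174) (nat_lit 4) (nat_lit 346) (nat_lit 303) (nat_lit 251)) (XT.nd (nat_lit 78) (nat_lit 152) (nat_lit 0) (XT.lf (nat_lit 0) (nat_lit 99050687980) (nat_lit 76) (nat_lit 100360005770) (nat_lit 76) (nat_lit 95746935919) (nat_lit 173) (nat_lit 4) (nat_lit 174) (nat_lit 5) (nat_lit 174) (nat_lit 4) (nat_lit 347) (nat_lit 303) (nat_lit 250)) (XT.lf (nat_lit 0) (nat_lit 544732271) (nat_lit 76) (nat_lit 1854415371) (nat_lit 152) (nat_lit 322219903433) (nat_lit 171) (nat_lit 5) (nat_lit 172) (nat_lit 5) (nat_lit 173) (nat_lit 4) (nat_lit 348) (nat_lit 303) (nat_lit 249))))) (XT.nd (nat_lit 156) (nat_lit 228) (nat_lit 0) (XT.nd (nat_lit 78) (nat_lit 76) (nat_lit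 0) (XT.lf (nat_lit 0) (nat_lit 120800075571) (nat_lit 152) (nat_lit 117927247692) (nat_lit 0) (nat_lit 116788116596) (nat_lit 171) (nat_lit 5) (nat_lit 173) (nat_lit 4) (nat_lit 171) (nat_lit 4) (nat_lit 349) (nat_lit 303) (nat_lit 248)) (XT.lf (nat_lit 0) (nat_lit 130652427047) (nat_lit 76) (nat_lit 131791798340) (nat_lit 76) (nat_lit 127779599168) (nat_lit 170) (nat_lit 4) (nat_lit 171) (nat_lit 5) (nat_lit 171) (nat_lit 4) (nat_lit 350) (nat_lit 303) (nat_lit 247))) (XT.nd (nat_lit 78) (nat_lit 76) (nat_lit 0) (XT.lf (nat_lit 0) (nat_lit 473427483) (nat_lit 76) (nat_lit 1613007643) (nat_lit 152) (nat_lit 427112527088) (nat_lit 168) (nat_lit 5) (nat_lit 169) (nat_lit 5) (nat_lit 170) (nat_lit 4) (nat_lit 351) (nat_lit 303) (nat_lit 246)) (XT.nd (nat_lit 78) (nat_lit 76) (nat_lit 0) (XT.lf (nat_lit 0) (nat_lit 158681747723) (nat_lit 152) (nat_lit 156183636524) (nat_lit 0) (nat_lit 155192539321)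 (nat_lit 168) (nat_lit 5) (nat_lit 170) (nat_lit 4) (nat_lit 168) (nat_lit 4) (nat_lit 352) (nat_lit 303) (nat_lit 245)) (XT.lf (nat_lit 0) (nat_lit 172490567936) (nat_lit 76) (nat_lit 173481802473) (nat_lit 76) (nat_lit 169992456737) (nat_lit 167) (nat_lit 4) (nat_lit 168) (nat_lit 5) (nat_lit 168) (nat_lit 4) (nat_lit 353) (nat_lit 303) (nat_lit 244))))))) (XT.nd (nat_lit 780) (nat_lit 684) (nat_lit 0) (XT.nd (nat_lit 390) (nat_lit 456) (nat_lit 0) (XT.nd (nat_lit 156) (nat_lit 228) (nat_lit 0) (XT.nd (nat_lit 78) (nat_lit 0) (nat_lit 0) (XT.lf (nat_lit 0) (nat_lit 411531560) (nat_lit 76) (nat_lit 1402885517) (nat_lit 152) (nat_lit 565705815348) (nat_lit 165) (nat_lit 5) (nat_lit 166) (nat_lit 5) (nat_lit 167) (nat_lit 4) (nat_lit 354) (nat_lit 303) (nat_lit 243)) (XT.lf (nat_lit 0) (nat_lit 208920522206) (nat_lit 152) (nat_lit 206748251598) (nat_lit 0) (nat_lit 205886114379) (nat_lit 165) (nat_lit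 5) (nat_lit 167) (nat_lit 4) (nat_lit 165) (nat_lit 4) (nat_lit 355) (nat_lit 303) (nat_lit 242))) (XT.nd (nat_lit 78) (nat_lit 152) (nat_lit 0) (XT.lf (nat_lit 0) (nat_lit 227860407963) (nat_lit 76) (nat_lit 228722623702) (nat_lit 76) (nat_lit 225688137355) (nat_lit 164) (nat_lit 4) (nat_lit 165) (nat_lit 5) (nat_lit 165) (nat_lit 4) (nat_lit 356) (nat_lit 303) (nat_lit 241)) (XT.nd (nat_lit 78) (nat_lit 0) (nat_lit 0) (XT.lf (nat_lit 0) (nat_lit 357770905) (nat_lit 76) (nat_lit 1220054923) (nat_lit 152) (nat_lit 748884743441) (nat_lit 162) (nat_lit 5) (nat_lit 163) (nat_lit 5) (nat_lit 164) (nat_lit 4) (nat_lit 357) (nat_lit 303) (nat_lit 240)) (XT.lf (nat_lit 0) (nat_lit 275483325312) (nat_lit 152) (nat_lit 273594394349) (nat_lit 0) (nat_lit 272844530530) (nat_lit 162) (nat_lit 5) (nat_lit 164) (nat_lit 4) (nat_lit 162) (nat_lit 4) (nat_lit 358) (nat_lit 303) (nat_lit 239))))) (XT.nd (nat_lit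 156) (nat_lit 228) (nat_lit 0) (XT.nd (nat_lit 78) (nat_lit 152) (nat_lit 0) (XT.lf (nat_lit 0) (nat_lit 301120792925) (nat_lit 76) (nat_lit 301870701638) (nat_lit 76) (nat_lit 299231861961) (nat_lit 161) (nat_lit 4) (nat_lit 162) (nat_lit 5) (nat_lit 162) (nat_lit 4) (nat_lit 359) (nat_lit 303) (nat_lit 238)) (XT.lf (nat_lit 0) (nat_lit 311057893) (nat_lit 76) (nat_lit 1061005645) (nat_lit 152) (nat_lit 991042572312) (nat_lit 159) (nat_lit 5) (nat_lit 160) (nat_lit 5) (nat_lit 161) (nat_lit 4) (nat_lit 360) (nat_lit 303) (nat_lit 237))) (XT.nd (nat_lit 78) (nat_lit 228) (nat_lit 0) (XT.lf (nat_lit 0) (nat_lit 363618772123) (nat_lit 152) (nat_lit 361976223459) (nat_lit 0) (nat_lit 361324065460) (nat_lit 159) (nat_lit 5) (nat_lit 161) (nat_lit 4) (nat_lit 159) (nat_lit 4) (nat_lit 361) (nat_lit 303) (nat_lit 236)) (XT.nd (nat_lit 78) (nat_lit 152) (nat_lit 0) (XT.lf (nat_lit 0) (nat_lit 398036988033)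 (nat_lit 76) (nat_lit 398689171700) (nat_lit 76) (nat_lit 396394439369) (nat_lit 158) (nat_lit 4) (nat_lit 159) (nat_lit 5) (nat_lit 159) (nat_lit 4) (nat_lit 362) (nat_lit 303) (nat_lit 235)) (XT.lf (nat_lit 0) (nat_lit 270458114) (nat_lit 76) (nat_lit 922664102) (nat_lit 152) (nat_lit 1311212532229) (nat_lit 156) (nat_lit 5) (nat_lit 157) (nat_lit 5) (nat_lit 158) (nat_lit 4) (nat_lit 363) (nat_lit 303) (nat_lit 234)))))) (XT.nd (nat_lit 390) (nat_lit 380) (nat_lit 0) (XT.nd (nat_lit 156) (nat_lit 228) (nat_lit 0) (XT.nd (nat_lit 78) (nat_lit 76) (nat_lit 0) (XT.lf (nat_lit 0) (nat_lit 480270214222) (nat_lit 152) (nat_lit 478841911036) (nat_lit 0) (nat_lit 478274758517) (nat_lit 156) (nat_lit 5) (nat_lit 158) (nat_lit 4) (nat_lit 156) (nat_lit 4) (nat_lit 364) (nat_lit 303) (nat_lit 233)) (XT.lf (nat_lit 0) (nat_lit 526234148158) (nat_lit 76) (nat_lit 526801315354) (nat_lit 76) (nat_lit 524805844972)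 (nat_lit 155) (nat_lit 4) (nat_lit 156) (nat_lit 5) (nat_lit 156) (nat_lit 4) (nat_lit 365) (nat_lit 303) (nat_lit 232))) (XT.nd (nat_lit 78) (nat_lit 76) (nat_lit 0) (XT.lf (nat_lit 0) (nat_lit 235165525) (nat_lit 76) (nat_lit 802345483) (nat_lit 152) (nat_lit 1734564446625) (nat_lit 153) (nat_lit 5) (nat_lit 154) (nat_lit 5) (nat_lit 155) (nat_lit 4) (nat_lit 366) (nat_lit 303) (nat_lit 231)) (XT.nd (nat_lit 78) (nat_lit 76) (nat_lit 0) (XT.lf (nat_lit 0) (nat_lit 634622029637) (nat_lit 152) (nat_lit 633380026866) (nat_lit 0) (nat_lit 632886817253) (nat_lit 153) (nat_lit 5) (nat_lit 155) (nat_lit 4) (nat_lit 153) (nat_lit 4) (nat_lit 367) (nat_lit 303) (nat_lit 230)) (XT.lf (nat_lit 0) (nat_lit 695797049476) (nat_lit 76) (nat_lit 696290267480) (nat_lit 76) (nat_lit 694555046706) (nat_lit 152) (nat_lit 4) (nat_lit 153) (nat_lit 5) (nat_lit 153) (nat_lit 4) (nat_lit 368) (nat_lit 303) (nat_lit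 229))))) (XT.nd (nat_lit 156) (nat_lit 228) (nat_lit 0) (XT.nd (nat_lit 78) (nat_lit 0) (nat_lit 0) (XT.lf (nat_lit 0) (nat_lit 204482931) (nat_lit 76) (nat_lit 697708232) (nat_lit 152) (nat_lit 2294383990302) (nat_lit 150) (nat_lit 5) (nat_lit 151) (nat_lit 5) (nat_lit 152) (nat_lit 4) (nat_lit 369) (nat_lit 303) (nat_lit 228)) (XT.lf (nat_lit 0) (nat_lit 838822123015) (nat_lit 152) (nat_lit 837742120605) (nat_lit 0) (nat_lit 837313223523) (nat_lit 150) (nat_lit 5) (nat_lit 152) (nat_lit 4) (nat_lit 150) (nat_lit 4) (nat_lit 370) (nat_lit 303) (nat_lit 227))) (XT.nd (nat_lit 78) (nat_lit 152) (nat_lit 0) (XT.lf (nat_lit 0) (nat_lit 920063247762) (nat_lit 76) (nat_lit 920492149642) (nat_lit 76) (nat_lit 918983245353) (nat_lit 149) (nat_lit 4) (nat_lit 150) (nat_lit 5) (nat_lit 150) (nat_lit 4) (nat_lit 371) (nat_lit 303) (nat_lit 226)) (XT.nd (nat_lit 78) (nat_lit 0) (nat_lit 0) (XT.lf (nat_lit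 0) (nat_lit 177806196) (nat_lit 76) (nat_lit 606712249) (nat_lit 152) (nat_lit 3034690233490) (nat_lit 147) (nat_lit 5) (nat_lit 148) (nat_lit 5) (nat_lit 149) (nat_lit 4) (nat_lit 372) (nat_lit 303) (nat_lit 225)) (XT.lf (nat_lit 0) (nat_lit 1108937460790) (nat_lit 152) (nat_lit 1107998328261) (nat_lit 0) (nat_lit 1107625363321) (nat_lit 147) (nat_lit 5) (nat_lit 149) (nat_lit 4) (nat_lit 147) (nat_lit 4) (nat_lit 373) (nat_lit 303) (nat_lit 224))))))))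
noncomputable def xc50 : XT := (XT.nd (nat_lit 42276) (nat_lit 0) (nat_lit 3648) (XT.nd (nat_lit 41496) (nat_lit 0) (nat_lit 5320) (XT.nd (nat_lit 390) (nat_lit 228) (nat_lit 0) (XT.nd (nat_lit 156) (nat_lit 228) (nat_lit 0) (XT.nd (nat_lit 78) (nat_lit 152) (nat_lit 0) (XT.lf (nat_lit 0) (nat_lit 1216672040680) (nat_lit 76) (nat_lit 1217045008362) (nat_lit 76) (nat_lit 1215732908150) (nat_lit 146) (nat_lit 4) (nat_lit 147) (nat_lit 5) (nat_lit 147) (nat_lit 4) (nat_lit 374) (nat_lit 303) (nat_lit 223)) (XT.lf (nat_lit 0) (nat_lit 154611197) (nat_lit 76) (nat_lit 527581265) (nat_lit 152) (nat_lit 4013697321334) (nat_lit 144) (nat_lit 5) (nat_lit 145) (nat_lit 5) (nat_lit 146) (nat_lit 4) (nat_lit 375) (nat_lit 303) (nat_lit 222))) (XT.nd (nat_lit 78) (nat_lit 228) (nat_lit 0) (XT.lf (nat_lit 0) (nat_lit 1466217791983) (nat_lit 152) (nat_lit 1465401155001) (nat_lit 0) (nat_lit 1465076831399) (nat_lit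 144) (nat_lit 5) (nat_lit 146) (nat_lit 4) (nat_lit 144) (nat_lit 4) (nat_lit 376) (nat_lit 303) (nat_lit 221)) (XT.nd (nat_lit 78) (nat_lit 152) (nat_lit 0) (XT.lf (nat_lit 0) (nat_lit 1608951728913) (nat_lit 76) (nat_lit 1609276054083) (nat_lit 76) (nat_lit 1608135091930) (nat_lit 143) (nat_lit 4) (nat_lit 144) (nat_lit 5) (nat_lit 144) (nat_lit 4) (nat_lit 377) (nat_lit 303) (nat_lit 220)) (XT.lf (nat_lit 0) (nat_lit 134442869) (nat_lit 76) (nat_lit 458769402) (nat_lit 152) (nat_lit 5308392524886) (nat_lit 141) (nat_lit 5) (nat_lit 142) (nat_lit 5) (nat_lit 143) (nat_lit 4) (nat_lit 378) (nat_lit 303) (nat_lit 219))))) (XT.nd (nat_lit 156) (nat_lit 152) (nat_lit 0) (XT.nd (nat_lit 78) (nat_lit 76) (nat_lit 0) (XT.lf (nat_lit 0) (nat_lit 1938766941525) (nat_lit 152) (nat_lit 1938056822410) (nat_lit 0) (nat_lit 1937774798306) (nat_lit 141) (nat_lit 5) (nat_lit 143) (nat_lit 4) (nat_lit 141) (nat_lit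 4) (nat_lit 379) (nat_lit 303) (nat_lit 218)) (XT.lf (nat_lit 0) (nat_lit 2127754276054) (nat_lit 76) (nat_lit 2128036301055) (nat_lit 76) (nat_lit 2127044156939) (nat_lit 140) (nat_lit 4) (nat_lit 141) (nat_lit 5) (nat_lit 141) (nat_lit 4) (nat_lit 380) (nat_lit 303) (nat_lit 217))) (XT.nd (nat_lit 78) (nat_lit 0) (nat_lit 0) (XT.lf (nat_lit 0) (nat_lit 116905899) (nat_lit 76) (nat_lit 398931679) (nat_lit 152) (nat_lit 7020590695767) (nat_lit 138) (nat_lit 5) (nat_lit 139) (nat_lit 5) (nat_lit 140) (nat_lit 4) (nat_lit 381) (nat_lit 303) (nat_lit 216)) (XT.nd (nat_lit 40794) (nat_lit 0) (nat_lit 6232) (XT.lf (nat_lit 0) (nat_lit 2563753115512) (nat_lit 152) (nat_lit 2563135620629) (nat_lit 0) (nat_lit 2562890380230) (nat_lit 138) (nat_lit 5) (nat_lit 140) (nat_lit 4) (nat_lit 138) (nat_lit 4) (nat_lit 382) (nat_lit 303) (nat_lit 215)) (XT.lf (nat_lit 0) (nat_lit 964290564) (nat_lit 0) (nat_lit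 964290564) (nat_lit 228) (nat_lit 2042202388) (nat_lit 220) (nat_lit 5) (nat_lit 220) (nat_lit 3) (nat_lit 223) (nat_lit 3) (nat_lit 304) (nat_lit 304) (nat_lit 292)))))) (XT.nd (nat_lit 390) (nat_lit 684) (nat_lit 0) (XT.nd (nat_lit 156) (nat_lit 228) (nat_lit 0) (XT.nd (nat_lit 78) (nat_lit 0) (nat_lit 0) (XT.lf (nat_lit 0) (nat_lit 5346865495) (nat_lit 228) (nat_lit 2031640488) (nat_lit 304) (nat_lit 978616167) (nat_lit 220) (nat_lit 5) (nat_lit 223) (nat_lit 3) (nat_lit 224) (nat_lit 5) (nat_lit 305) (nat_lit 304) (nat_lit 291)) (XT.lf (nat_lit 76) (nat_lit 2543463006) (nat_lit 0) (nat_lit 4512160649) (nat_lit 304) (nat_lit 1780046965) (nat_lit 221) (nat_lit 5) (nat_lit 220) (nat_lit 5) (nat_lit 224) (nat_lit 5) (nat_lit 306) (nat_lit 304) (nat_lit 290))) (XT.nd (nat_lit 78) (nat_lit 228) (nat_lit 0) (XT.lf (nat_lit 76) (nat_lit 7901392199) (nat_lit 0) (nat_lit 1044779398) (nat_lit 304) (nat_lit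 451008355) (nat_lit 221) (nat_lit 5) (nat_lit 220) (nat_lit 5) (nat_lit 224) (nat_lit 5) (nat_lit 307) (nat_lit 304) (nat_lit 289)) (XT.nd (nat_lit 78) (nat_lit 0) (nat_lit 0) (XT.lf (nat_lit 0) (nat_lit 1125303956) (nat_lit 304) (nat_lit 5947853199) (nat_lit 76) (nat_lit 2941491548) (nat_lit 217) (nat_lit 5) (nat_lit 221) (nat_lit 5) (nat_lit 218) (nat_lit 5) (nat_lit 308) (nat_lit 304) (nat_lit 288)) (XT.lf (nat_lit 0) (nat_lit 2876204087) (nat_lit 304) (nat_lit 304045003) (nat_lit 76) (nat_lit 7543619844) (nat_lit 217) (nat_lit 5) (nat_lit 221) (nat_lit 5) (nat_lit 218) (nat_lit 5) (nat_lit 309) (nat_lit 304) (nat_lit 287))))) (XT.nd (nat_lit 156) (nat_lit 228) (nat_lit 0) (XT.nd (nat_lit 78) (nat_lit 152) (nat_lit 0) (XT.lf (nat_lit 0) (nat_lit 5103738693) (nat_lit 380) (nat_lit 4934491716) (nat_lit 76) (nat_lit 1469141874) (nat_lit 213) (nat_lit 5) (nat_lit 218) (nat_lit 5) (nat_lit 214) (nat_lit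 5) (nat_lit 310) (nat_lit 304) (nat_lit 286)) (XT.lf (nat_lit 0) (nat_lit 1994874710) (nat_lit 152) (nat_lit 5804460071) (nat_lit 228) (nat_lit 4588976657) (nat_lit 211) (nat_lit 5) (nat_lit 213) (nat_lit 5) (nat_lit 214) (nat_lit 5) (nat_lit 311) (nat_lit 304) (nat_lit 285))) (XT.nd (nat_lit 78) (nat_lit 228) (nat_lit 0) (XT.lf (nat_lit 0) (nat_lit 10384556488) (nat_lit 152) (nat_lit 665585783) (nat_lit 228) (nat_lit 2328618399) (nat_lit 211) (nat_lit 5) (nat_lit 213) (nat_lit 5) (nat_lit 214) (nat_lit 5) (nat_lit 312) (nat_lit 304) (nat_lit 284)) (XT.nd (nat_lit 78) (nat_lit 0) (nat_lit 0) (XT.lf (nat_lit 0) (nat_lit 621755886) (nat_lit 228) (nat_lit 8818696895) (nat_lit 76) (nat_lit 5019382025) (nat_lit 208) (nat_lit 5) (nat_lit 211) (nat_lit 5) (nat_lit 209) (nat_lit 5) (nat_lit 313) (nat_lit 304) (nat_lit 283)) (XT.lf (nat_lit 0) (nat_lit 3880906055) (nat_lit 228) (nat_lit 53593762) (nat_lit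 76) (nat_lit 11736243372) (nat_lit 208) (nat_lit 5) (nat_lit 211) (nat_lit 5) (nat_lit 209) (nat_lit 5) (nat_lit 314) (nat_lit 304) (nat_lit 282))))))) (XT.nd (nat_lit 780) (nat_lit 836) (nat_lit 0) (XT.nd (nat_lit 390) (nat_lit 304) (nat_lit 0) (XT.nd (nat_lit 156) (nat_lit 304) (nat_lit 0) (XT.nd (nat_lit 78) (nat_lit 76) (nat_lit 0) (XT.lf (nat_lit 0) (nat_lit 8119516224) (nat_lit 228) (nat_lit 6246951975) (nat_lit 76) (nat_lit 2623231509) (nat_lit 206) (nat_lit 5) (nat_lit 209) (nat_lit 5) (nat_lit 207) (nat_lit 4) (nat_lit 315) (nat_lit 304) (nat_lit 281)) (XT.lf (nat_lit 0) (nat_lit 4776997073) (nat_lit 76) (nat_lit 8530128421) (nat_lit 152) (nat_lit 5152393074) (nat_lit 205) (nat_lit 5) (nat_lit 206) (nat_lit 5) (nat_lit 207) (nat_lit 4) (nat_lit 316) (nat_lit 304) (nat_lit 280))) (XT.nd (nat_lit 78) (nat_lit 304) (nat_lit 0) (XT.lf (nat_lit 0) (nat_lit 18042754535) (nat_lit 76) (nat_lit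 1486830802) (nat_lit 152) (nat_lit 581718542) (nat_lit 205) (nat_lit 5) (nat_lit 206) (nat_lit 5) (nat_lit 207) (nat_lit 4) (nat_lit 317) (nat_lit 304) (nat_lit 279)) (XT.nd (nat_lit 78) (nat_lit 76) (nat_lit 0) (XT.lf (nat_lit 0) (nat_lit 4999373206) (nat_lit 228) (nat_lit 10158919050) (nat_lit 76) (nat_lit 6712383599) (nat_lit 202) (nat_lit 5) (nat_lit 205) (nat_lit 5) (nat_lit 203) (nat_lit 4) (nat_lit 318) (nat_lit 304) (nat_lit 278)) (XT.lf (nat_lit 0) (nat_lit 4064372869) (nat_lit 76) (nat_lit 7584899411) (nat_lit 152) (nat_lit 12196846145) (nat_lit 201) (nat_lit 5) (nat_lit 202) (nat_lit 5) (nat_lit 203) (nat_lit 4) (nat_lit 319) (nat_lit 304) (nat_lit 277))))) (XT.nd (nat_lit 156) (nat_lit 152) (nat_lit 0) (XT.nd (nat_lit 78) (nat_lit 152) (nat_lit 0) (XT.lf (nat_lit 0) (nat_lit 19840212779) (nat_lit 152) (nat_lit 4656703220) (nat_lit 0) (nat_lit 1539427897) (nat_lit 201) (nat_lit 5) (nat_lit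 203) (nat_lit 4) (nat_lit 201) (nat_lit 4) (nat_lit 320) (nat_lit 304) (nat_lit 276)) (XT.lf (nat_lit 0) (nat_lit 1551087414) (nat_lit 152) (nat_lit 15014597284) (nat_lit 76) (nat_lit 11848671616) (nat_lit 199) (nat_lit 5) (nat_lit 201) (nat_lit 5) (nat_lit 200) (nat_lit 4) (nat_lit 321) (nat_lit 304) (nat_lit 275))) (XT.nd (nat_lit 78) (nat_lit 76) (nat_lit 0) (XT.lf (nat_lit 0) (nat_lit 3483043847) (nat_lit 76) (nat_lit 6691274162) (nat_lit 152) (nat_lit 20878250245) (nat_lit 198) (nat_lit 5) (nat_lit 199) (nat_lit 5) (nat_lit 200) (nat_lit 4) (nat_lit 322) (nat_lit 304) (nat_lit 274)) (XT.nd (nat_lit 78) (nat_lit 76) (nat_lit 0) (XT.lf (nat_lit 0) (nat_lit 21056515690) (nat_lit 152) (nat_lit 7853463900) (nat_lit 0) (nat_lit 5031710018) (nat_lit 198) (nat_lit 5) (nat_lit 200) (nat_lit 4) (nat_lit 198) (nat_lit 4) (nat_lit 323) (nat_lit 304) (nat_lit 273)) (XT.lf (nat_lit 0) (nat_lit 15826024865)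 (nat_lit 76) (nat_lit 18675594739) (nat_lit 76) (nat_lit 2622973075) (nat_lit 197) (nat_lit 4) (nat_lit 198) (nat_lit 5) (nat_lit 198) (nat_lit 4) (nat_lit 324) (nat_lit 304) (nat_lit 272)))))) (XT.nd (nat_lit 390) (nat_lit 456) (nat_lit 0) (XT.nd (nat_lit 156) (nat_lit 228) (nat_lit 0) (XT.nd (nat_lit 78) (nat_lit 0) (nat_lit 0) (XT.lf (nat_lit 0) (nat_lit 2999463770) (nat_lit 76) (nat_lit 5873221463) (nat_lit 152) (nat_lit 31778546397) (nat_lit 195) (nat_lit 5) (nat_lit 196) (nat_lit 5) (nat_lit 197) (nat_lit 4) (nat_lit 325) (nat_lit 304) (nat_lit 271)) (XT.lf (nat_lit 0) (nat_lit 23314537070) (nat_lit 152) (nat_lit 11833622470) (nat_lit 0) (nat_lit 9316413271) (nat_lit 195) (nat_lit 5) (nat_lit 197) (nat_lit 4) (nat_lit 195) (nat_lit 4) (nat_lit 326) (nat_lit 304) (nat_lit 270))) (XT.nd (nat_lit 78) (nat_lit 152) (nat_lit 0) (XT.lf (nat_lit 0) (nat_lit 19213984766) (nat_lit 76) (nat_lit 21747097849)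 (nat_lit 76) (nat_lit 7733070166) (nat_lit 194) (nat_lit 4) (nat_lit 195) (nat_lit 5) (nat_lit 195) (nat_lit 4) (nat_lit 327) (nat_lit 304) (nat_lit 269)) (XT.nd (nat_lit 78) (nat_lit 0) (nat_lit 0) (XT.lf (nat_lit 0) (nat_lit 2591494142) (nat_lit 76) (nat_lit 5138436689) (nat_lit 152) (nat_lit 45672632799) (nat_lit 192) (nat_lit 5) (nat_lit 193) (nat_lit 5) (nat_lit 194) (nat_lit 4) (nat_lit 328) (nat_lit 304) (nat_lit 268)) (XT.lf (nat_lit 0) (nat_lit 26876856202) (nat_lit 152) (nat_lit 16893452202) (nat_lit 0) (nat_lit 14668262491) (nat_lit 192) (nat_lit 5) (nat_lit 194) (nat_lit 4) (nat_lit 192) (nat_lit 4) (nat_lit 329) (nat_lit 304) (nat_lit 267))))) (XT.nd (nat_lit 156) (nat_lit 228) (nat_lit 0) (XT.nd (nat_lit 78) (nat_lit 152) (nat_lit 0) (XT.lf (nat_lit 0) (nat_lit 23932827599) (nat_lit 76) (nat_lit 26167110407) (nat_lit 76) (nat_lit 13949423599) (nat_lit 191) (nat_lit 4) (nat_lit 192)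 (nat_lit 5) (nat_lit 192) (nat_lit 4) (nat_lit 330) (nat_lit 304) (nat_lit 266)) (XT.lf (nat_lit 0) (nat_lit 2243904749) (nat_lit 76) (nat_lit 4486094598) (nat_lit 152) (nat_lit 63584625303) (nat_lit 189) (nat_lit 5) (nat_lit 190) (nat_lit 5) (nat_lit 191) (nat_lit 4) (nat_lit 331) (nat_lit 304) (nat_lit 265))) (XT.nd (nat_lit 78) (nat_lit 228) (nat_lit 0) (XT.lf (nat_lit 0) (nat_lit 32095449645) (nat_lit 152) (nat_lit 23414228776) (nat_lit 0) (nat_lit 21458519613) (nat_lit 189) (nat_lit 5) (nat_lit 191) (nat_lit 4) (nat_lit 189) (nat_lit 4) (nat_lit 332) (nat_lit 304) (nat_lit 264)) (XT.nd (nat_lit 78) (nat_lit 152) (nat_lit 0) (XT.lf (nat_lit 0) (nat_lit 30374497431) (nat_lit 76) (nat_lit 32335405601) (nat_lit 76) (nat_lit 21693276561) (nat_lit 188) (nat_lit 4) (nat_lit 189) (nat_lit 5) (nat_lit 189) (nat_lit 4) (nat_lit 333) (nat_lit 304) (nat_lit 263)) (XT.lf (nat_lit 0) (nat_lit 1945750747)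 (nat_lit 76) (nat_lit 3911179794) (nat_lit 152) (nat_lit 86865301228) (nat_lit 186) (nat_lit 5) (nat_lit 187) (nat_lit 5) (nat_lit 188) (nat_lit 4) (nat_lit 334) (nat_lit 304) (nat_lit 262))))))))
noncomputable def xc51 : XT := (XT.nd (nat_lit 1560) (nat_lit 1520) (nat_lit 0) (XT.nd (nat_lit 780) (nat_lit 760) (nat_lit 0) (XT.nd (nat_lit 390) (nat_lit 380) (nat_lit 0) (XT.nd (nat_lit 156) (nat_lit 228) (nat_lit 0) (XT.nd (nat_lit 78) (nat_lit 76) (nat_lit 0) (XT.lf (nat_lit 0) (nat_lit 39441986015) (nat_lit 152) (nat_lit 31893098302) (nat_lit 0) (nat_lit 30180611133) (nat_lit 186) (nat_lit 5) (nat_lit 188) (nat_lit 4) (nat_lit 186) (nat_lit 4) (nat_lit 335) (nat_lit 304) (nat_lit 261)) (XT.lf (nat_lit 0) (nat_lit 39064850816) (nat_lit 76) (nat_lit 40780310534) (nat_lit 76) (nat_lit 31515963103) (nat_lit 185) (nat_lit 4) (nat_lit 186) (nat_lit 5) (nat_lit 186) (nat_lit 4) (nat_lit 336) (nat_lit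 304) (nat_lit 260))) (XT.nd (nat_lit 78) (nat_lit 76) (nat_lit 0) (XT.lf (nat_lit 0) (nat_lit 1688829238) (nat_lit 76) (nat_lit 3406873782) (nat_lit 152) (nat_lit 117296193487) (nat_lit 183) (nat_lit 5) (nat_lit 184) (nat_lit 5) (nat_lit 185) (nat_lit 4) (nat_lit 337) (nat_lit 304) (nat_lit 259)) (XT.nd (nat_lit 78) (nat_lit 76) (nat_lit 0) (XT.lf (nat_lit 0) (nat_lit 49546809430) (nat_lit 152) (nat_lit 42982559245) (nat_lit 0) (nat_lit 41486652969) (nat_lit 183) (nat_lit 5) (nat_lit 185) (nat_lit 4) (nat_lit 183) (nat_lit 4) (nat_lit 338) (nat_lit 304) (nat_lit 258)) (XT.lf (nat_lit 0) (nat_lit 50704729179) (nat_lit 76) (nat_lit 52202335020) (nat_lit 76) (nat_lit 44140478994) (nat_lit 182) (nat_lit 4) (nat_lit 183) (nat_lit 5) (nat_lit 183) (nat_lit 4) (nat_lit 339) (nat_lit 304) (nat_lit 257))))) (XT.nd (nat_lit 156) (nat_lit 228) (nat_lit 0) (XT.nd (nat_lit 78) (nat_lit 0) (nat_lit 0) (XT.lf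 (nat_lit 0) (nat_lit 1466758758) (nat_lit 76) (nat_lit 2965842482) (nat_lit 152) (nat_lit 157228157749) (nat_lit 180) (nat_lit 5) (nat_lit 181) (nat_lit 5) (nat_lit 182) (nat_lit 4) (nat_lit 340) (nat_lit 304) (nat_lit 256)) (XT.lf (nat_lit 0) (nat_lit 63249936107) (nat_lit 152) (nat_lit 57541892468) (nat_lit 0) (nat_lit 56237223912) (nat_lit 180) (nat_lit 5) (nat_lit 182) (nat_lit 4) (nat_lit 180) (nat_lit 4) (nat_lit 341) (nat_lit 304) (nat_lit 255))) (XT.nd (nat_lit 78) (nat_lit 152) (nat_lit 0) (XT.lf (nat_lit 0) (nat_lit 66225038788) (nat_lit 76) (nat_lit 67530679075) (nat_lit 76) (nat_lit 60516995148) (nat_lit 179) (nat_lit 4) (nat_lit 180) (nat_lit 5) (nat_lit 180) (nat_lit 4) (nat_lit 342) (nat_lit 304) (nat_lit 254)) (XT.nd (nat_lit 78) (nat_lit 0) (nat_lit 0) (XT.lf (nat_lit 0) (nat_lit 1274419871) (nat_lit 76) (nat_lit 2580905143) (nat_lit 152) (nat_lit 209765095926) (nat_lit 177) (nat_lit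 5) (nat_lit 178) (nat_lit 5) (nat_lit 179) (nat_lit 4) (nat_lit 343) (nat_lit 304) (nat_lit 253)) (XT.lf (nat_lit 0) (nat_lit 81668229252) (nat_lit 152) (nat_lit 76704713044) (nat_lit 0) (nat_lit 75567999965) (nat_lit 177) (nat_lit 5) (nat_lit 179) (nat_lit 4) (nat_lit 177) (nat_lit 4) (nat_lit 344) (nat_lit 304) (nat_lit 252)))))) (XT.nd (nat_lit 390) (nat_lit 304) (nat_lit 0) (XT.nd (nat_lit 156) (nat_lit 228) (nat_lit 0) (XT.nd (nat_lit 78) (nat_lit 152) (nat_lit 0) (XT.lf (nat_lit 0) (nat_lit 86860048298) (nat_lit 76) (nat_lit 87997316968) (nat_lit 76) (nat_lit 81896532090) (nat_lit 176) (nat_lit 4) (nat_lit 177) (nat_lit 5) (nat_lit 177) (nat_lit 4) (nat_lit 345) (nat_lit 304) (nat_lit 251)) (XT.lf (nat_lit 0) (nat_lit 1107606559) (nat_lit 76) (nat_lit 2245358351) (nat_lit 152) (nat_lit 279007156849) (nat_lit 174) (nat_lit 5) (nat_lit 175) (nat_lit 5) (nat_lit 176) (nat_lit 4) (nat_lit 346)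 (nat_lit 304) (nat_lit 250))) (XT.nd (nat_lit 78) (nat_lit 228) (nat_lit 0) (XT.lf (nat_lit 0) (nat_lit 106284129402) (nat_lit 152) (nat_lit 101968028351) (nat_lit 0) (nat_lit 100978313657) (nat_lit 174) (nat_lit 5) (nat_lit 176) (nat_lit 4) (nat_lit 174) (nat_lit 4) (nat_lit 347) (nat_lit 304) (nat_lit 249)) (XT.nd (nat_lit 78) (nat_lit 152) (nat_lit 0) (XT.lf (nat_lit 0) (nat_lit 114244600798) (nat_lit 76) (nat_lit 115234633153) (nat_lit 76) (nat_lit 109928499748) (nat_lit 173) (nat_lit 4) (nat_lit 174) (nat_lit 5) (nat_lit 174) (nat_lit 4) (nat_lit 348) (nat_lit 304) (nat_lit 248)) (XT.lf (nat_lit 0) (nat_lit 962801873) (nat_lit 76) (nat_lit 1953110454) (nat_lit 152) (nat_lit 370372462529) (nat_lit 171) (nat_lit 5) (nat_lit 172) (nat_lit 5) (nat_lit 173) (nat_lit 4) (nat_lit 349) (nat_lit 304) (nat_lit 247))))) (XT.nd (nat_lit 156) (nat_lit 228) (nat_lit 0) (XT.nd (nat_lit 78) (nat_lit 76) (nat_lit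 0) (XT.lf (nat_lit 0) (nat_lit 139062977249) (nat_lit 152) (nat_lit 135309845901) (nat_lit 0) (nat_lit 134448499136) (nat_lit 171) (nat_lit 5) (nat_lit 173) (nat_lit 4) (nat_lit 171) (nat_lit 4) (nat_lit 350) (nat_lit 304) (nat_lit 246)) (XT.lf (nat_lit 0) (nat_lit 150542848733) (nat_lit 76) (nat_lit 151404377121) (nat_lit 76) (nat_lit 146789717385) (nat_lit 170) (nat_lit 4) (nat_lit 171) (nat_lit 5) (nat_lit 171) (nat_lit 4) (nat_lit 351) (nat_lit 304) (nat_lit 245))) (XT.nd (nat_lit 78) (nat_lit 76) (nat_lit 0) (XT.lf (nat_lit 0) (nat_lit 837027902) (nat_lit 76) (nat_lit 1698714224) (nat_lit 152) (nat_lit 491022613161) (nat_lit 168) (nat_lit 5) (nat_lit 169) (nat_lit 5) (nat_lit 170) (nat_lit 4) (nat_lit 352) (nat_lit 304) (nat_lit 244)) (XT.nd (nat_lit 78) (nat_lit 76) (nat_lit 0) (XT.lf (nat_lit 0) (nat_lit 182608193782) (nat_lit 152) (nat_lit 179344601305) (nat_lit 0) (nat_lit 178595189431)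 (nat_lit 168) (nat_lit 5) (nat_lit 170) (nat_lit 4) (nat_lit 168) (nat_lit 4) (nat_lit 353) (nat_lit 304) (nat_lit 243)) (XT.lf (nat_lit 0) (nat_lit 198618616520) (nat_lit 76) (nat_lit 199368132237) (nat_lit 76) (nat_lit 195355024043) (nat_lit 167) (nat_lit 4) (nat_lit 168) (nat_lit 5) (nat_lit 168) (nat_lit 4) (nat_lit 354) (nat_lit 304) (nat_lit 242))))))) (XT.nd (nat_lit 780) (nat_lit 684) (nat_lit 0) (XT.nd (nat_lit 390) (nat_lit 456) (nat_lit 0) (XT.nd (nat_lit 156) (nat_lit 228) (nat_lit 0) (XT.nd (nat_lit 78) (nat_lit 0) (nat_lit 0) (XT.lf (nat_lit 0) (nat_lit 727741077) (nat_lit 76) (nat_lit 1477347094) (nat_lit 152) (nat_lit 650425402837) (nat_lit 165) (nat_lit 5) (nat_lit 166) (nat_lit 5) (nat_lit 167) (nat_lit 4) (nat_lit 355) (nat_lit 304) (nat_lit 241)) (XT.lf (nat_lit 0) (nat_lit 240366547331) (nat_lit 152) (nat_lit 237528640829) (nat_lit 0) (nat_lit 236876741231) (nat_lit 165) (nat_lit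 5) (nat_lit 167) (nat_lit 4) (nat_lit 165) (nat_lit 4) (nat_lit 356) (nat_lit 304) (nat_lit 240))) (XT.nd (nat_lit 78) (nat_lit 152) (nat_lit 0) (XT.lf (nat_lit 0) (nat_lit 262260779097) (nat_lit 76) (nat_lit 262912738068) (nat_lit 76) (nat_lit 259422872595) (nat_lit 164) (nat_lit 4) (nat_lit 165) (nat_lit 5) (nat_lit 165) (nat_lit 4) (nat_lit 357) (nat_lit 304) (nat_lit 239)) (XT.nd (nat_lit 78) (nat_lit 0) (nat_lit 0) (XT.lf (nat_lit 0) (nat_lit 632755851) (nat_lit 76) (nat_lit 1284766451) (nat_lit 152) (nat_lit 861098978966) (nat_lit 162) (nat_lit 5) (nat_lit 163) (nat_lit 5) (nat_lit 164) (nat_lit 4) (nat_lit 358) (nat_lit 304) (nat_lit 238)) (XT.lf (nat_lit 0) (nat_lit 316899668470) (nat_lit 152) (nat_lit 314431923686) (nat_lit 0) (nat_lit 313864918909) (nat_lit 162) (nat_lit 5) (nat_lit 164) (nat_lit 4) (nat_lit 162) (nat_lit 4) (nat_lit 359) (nat_lit 304) (nat_lit 237))))) (XT.nd (nat_lit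 156) (nat_lit 228) (nat_lit 0) (XT.nd (nat_lit 78) (nat_lit 152) (nat_lit 0) (XT.lf (nat_lit 0) (nat_lit 346481376687) (nat_lit 76) (nat_lit 347048415411) (nat_lit 76) (nat_lit 344013631903) (nat_lit 161) (nat_lit 4) (nat_lit 162) (nat_lit 5) (nat_lit 162) (nat_lit 4) (nat_lit 360) (nat_lit 304) (nat_lit 236)) (XT.lf (nat_lit 0) (nat_lit 550186758) (nat_lit 76) (nat_lit 1117255002) (nat_lit 152) (nat_lit 1139595954164) (nat_lit 159) (nat_lit 5) (nat_lit 160) (nat_lit 5) (nat_lit 161) (nat_lit 4) (nat_lit 361) (nat_lit 304) (nat_lit 235))) (XT.nd (nat_lit 78) (nat_lit 228) (nat_lit 0) (XT.lf (nat_lit 0) (nat_lit 418243178917) (nat_lit 152) (nat_lit 416097313888) (nat_lit 0) (nat_lit 415604188747) (nat_lit 159) (nat_lit 5) (nat_lit 161) (nat_lit 4) (nat_lit 159) (nat_lit 4) (nat_lit 362) (nat_lit 304) (nat_lit 234)) (XT.nd (nat_lit 78) (nat_lit 152) (nat_lit 0) (XT.lf (nat_lit 0) (nat_lit 457909909187)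 (nat_lit 76) (nat_lit 458403053738) (nat_lit 76) (nat_lit 455764044158) (nat_lit 158) (nat_lit 4) (nat_lit 159) (nat_lit 5) (nat_lit 159) (nat_lit 4) (nat_lit 363) (nat_lit 304) (nat_lit 233)) (XT.lf (nat_lit 0) (nat_lit 478402844) (nat_lit 76) (nat_lit 971564272) (nat_lit 152) (nat_lit 1507804854010) (nat_lit 156) (nat_lit 5) (nat_lit 157) (nat_lit 5) (nat_lit 158) (nat_lit 4) (nat_lit 364) (nat_lit 304) (nat_lit 232)))))) (XT.nd (nat_lit 390) (nat_lit 380) (nat_lit 0) (XT.nd (nat_lit 156) (nat_lit 228) (nat_lit 0) (XT.nd (nat_lit 78) (nat_lit 76) (nat_lit 0) (XT.lf (nat_lit 0) (nat_lit 552381687703) (nat_lit 152) (nat_lit 550515718112) (nat_lit 0) (nat_lit 550086869326) (nat_lit 156) (nat_lit 5) (nat_lit 158) (nat_lit 4) (nat_lit 156) (nat_lit 4) (nat_lit 365) (nat_lit 304) (nat_lit 231)) (XT.lf (nat_lit 0) (nat_lit 605314819072) (nat_lit 76) (nat_lit 605743678955) (nat_lit 76) (nat_lit 603448849481)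 (nat_lit 155) (nat_lit 4) (nat_lit 156) (nat_lit 5) (nat_lit 156) (nat_lit 4) (nat_lit 366) (nat_lit 304) (nat_lit 230))) (XT.nd (nat_lit 78) (nat_lit 76) (nat_lit 0) (XT.lf (nat_lit 0) (nat_lit 415990796) (nat_lit 76) (nat_lit 844860329) (nat_lit 152) (nat_lit 1994671243134) (nat_lit 153) (nat_lit 5) (nat_lit 154) (nat_lit 5) (nat_lit 155) (nat_lit 4) (nat_lit 367) (nat_lit 304) (nat_lit 229)) (XT.nd (nat_lit 78) (nat_lit 76) (nat_lit 0) (XT.lf (nat_lit 0) (nat_lit 729877018020) (nat_lit 152) (nat_lit 728254435767) (nat_lit 0) (nat_lit 727881498442) (nat_lit 153) (nat_lit 5) (nat_lit 155) (nat_lit 4) (nat_lit 153) (nat_lit 4) (nat_lit 368) (nat_lit 304) (nat_lit 228)) (XT.lf (nat_lit 0) (nat_lit 800293174975) (nat_lit 76) (nat_lit 800666118646) (nat_lit 76) (nat_lit 798670592723) (nat_lit 152) (nat_lit 4) (nat_lit 153) (nat_lit 5) (nat_lit 153) (nat_lit 4) (nat_lit 369) (nat_lit 304) (nat_lit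 227))))) (XT.nd (nat_lit 156) (nat_lit 228) (nat_lit 0) (XT.nd (nat_lit 78) (nat_lit 0) (nat_lit 0) (XT.lf (nat_lit 0) (nat_lit 361724450) (nat_lit 76) (nat_lit 734673638) (nat_lit 152) (nat_lit 2638473878860) (nat_lit 150) (nat_lit 5) (nat_lit 151) (nat_lit 5) (nat_lit 152) (nat_lit 4) (nat_lit 370) (nat_lit 304) (nat_lit 226)) (XT.lf (nat_lit 0) (nat_lit 964699077278) (nat_lit 152) (nat_lit 963288136189) (nat_lit 0) (nat_lit 962963828376) (nat_lit 150) (nat_lit 5) (nat_lit 152) (nat_lit 4) (nat_lit 150) (nat_lit 4) (nat_lit 371) (nat_lit 304) (nat_lit 225))) (XT.nd (nat_lit 78) (nat_lit 152) (nat_lit 0) (XT.lf (nat_lit 0) (nat_lit 1058182796411) (nat_lit 76) (nat_lit 1058507107852) (nat_lit 76) (nat_lit 1056771855321) (nat_lit 149) (nat_lit 4) (nat_lit 150) (nat_lit 5) (nat_lit 150) (nat_lit 4) (nat_lit 372) (nat_lit 304) (nat_lit 224)) (XT.nd (nat_lit 78) (nat_lit 0) (nat_lit 0) (XT.lf (nat_lit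 0) (nat_lit 314539183) (nat_lit 76) (nat_lit 638853778) (nat_lit 152) (nat_lit 3489834892252) (nat_lit 147) (nat_lit 5) (nat_lit 148) (nat_lit 5) (nat_lit 149) (nat_lit 4) (nat_lit 373) (nat_lit 304) (nat_lit 223)) (XT.lf (nat_lit 0) (nat_lit 1275324718375) (nat_lit 152) (nat_lit 1274097813080) (nat_lit 0) (nat_lit 1273815798003) (nat_lit 147) (nat_lit 5) (nat_lit 149) (nat_lit 4) (nat_lit 147) (nat_lit 4) (nat_lit 374) (nat_lit 304) (nat_lit 222))))))))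
noncomputable def xc52 : XT := (XT.nd (nat_lit 42354) (nat_lit 0) (nat_lit 3648) (XT.nd (nat_lit 41574) (nat_lit 0) (nat_lit 5168) (XT.nd (nat_lit 390) (nat_lit 228) (nat_lit 0) (XT.nd (nat_lit 156) (nat_lit 228) (nat_lit 0) (XT.nd (nat_lit 78) (nat_lit 152) (nat_lit 0) (XT.lf (nat_lit 0) (nat_lit 1399268553728) (nat_lit 76) (nat_lit 1399550570879) (nat_lit 76) (nat_lit 1398041648433) (nat_lit 146) (nat_lit 4) (nat_lit 147) (nat_lit 5) (nat_lit 147) (nat_lit 4) (nat_lit 375) (nat_lit 304) (nat_lit 221)) (XT.lf (nat_lit 0) (nat_lit 273510150) (nat_lit 76) (nat_lit 555529105) (nat_lit 152) (nat_lit 4615700723921) (nat_lit 144) (nat_lit 5) (nat_lit 145) (nat_lit 5) (nat_lit 146) (nat_lit 4) (nat_lit 376) (nat_lit 304) (nat_lit 220))) (XT.nd (nat_lit 78) (nat_lit 228) (nat_lit 0) (XT.lf (nat_lit 0) (nat_lit 1686191015186) (nat_lit 152) (nat_lit 1685124141016) (nat_lit 0) (nat_lit 1684878905779) (nat_lit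 144) (nat_lit 5) (nat_lit 146) (nat_lit 4) (nat_lit 144) (nat_lit 4) (nat_lit 377) (nat_lit 304) (nat_lit 219)) (XT.nd (nat_lit 78) (nat_lit 152) (nat_lit 0) (XT.lf (nat_lit 0) (nat_lit 1850377712429) (nat_lit 76) (nat_lit 1850622948852) (nat_lit 76) (nat_lit 1849310838259) (nat_lit 143) (nat_lit 4) (nat_lit 144) (nat_lit 5) (nat_lit 144) (nat_lit 4) (nat_lit 378) (nat_lit 304) (nat_lit 218)) (XT.lf (nat_lit 0) (nat_lit 237833665) (nat_lit 76) (nat_lit 483071120) (nat_lit 152) (nat_lit 6104606886345) (nat_lit 141) (nat_lit 5) (nat_lit 142) (nat_lit 5) (nat_lit 143) (nat_lit 4) (nat_lit 379) (nat_lit 304) (nat_lit 217))))) (XT.nd (nat_lit 156) (nat_lit 152) (nat_lit 0) (XT.nd (nat_lit 78) (nat_lit 76) (nat_lit 0) (XT.lf (nat_lit 0) (nat_lit 2229617247006) (nat_lit 152) (nat_lit 2228689530337) (nat_lit 0) (nat_lit 2228476279597) (nat_lit 141) (nat_lit 5) (nat_lit 143) (nat_lit 4) (nat_lit 141) (nat_lit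 4) (nat_lit 380) (nat_lit 304) (nat_lit 216)) (XT.lf (nat_lit 0) (nat_lit 2446989786741) (nat_lit 76) (nat_lit 2447203038159) (nat_lit 76) (nat_lit 2446062070072) (nat_lit 140) (nat_lit 4) (nat_lit 141) (nat_lit 5) (nat_lit 141) (nat_lit 4) (nat_lit 381) (nat_lit 304) (nat_lit 215))) (XT.nd (nat_lit 40872) (nat_lit 0) (nat_lit 6232) (XT.lf (nat_lit 0) (nat_lit 206811169) (nat_lit 76) (nat_lit 420063177) (nat_lit 152) (nat_lit 8073640589831) (nat_lit 138) (nat_lit 5) (nat_lit 139) (nat_lit 5) (nat_lit 140) (nat_lit 4) (nat_lit 382) (nat_lit 304) (nat_lit 214)) (XT.nd (nat_lit 78) (nat_lit 0) (nat_lit 0) (XT.lf (nat_lit 0) (nat_lit 1662968535) (nat_lit 0) (nat_lit 1662968535) (nat_lit 228) (nat_lit 1074253656) (nat_lit 220) (nat_lit 5) (nat_lit 220) (nat_lit 3) (nat_lit 223) (nat_lit 3) (nat_lit 305) (nat_lit 305) (nat_lit 290)) (XT.lf (nat_lit 0) (nat_lit 8036073391) (nat_lit 228) (nat_lit 1043889021)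 (nat_lit 304) (nat_lit 247651350) (nat_lit 220) (nat_lit 5) (nat_lit 223) (nat_lit 3) (nat_lit 224) (nat_lit 5) (nat_lit 306) (nat_lit 305) (nat_lit 289)))))) (XT.nd (nat_lit 390) (nat_lit 532) (nat_lit 0) (XT.nd (nat_lit 156) (nat_lit 228) (nat_lit 0) (XT.nd (nat_lit 78) (nat_lit 304) (nat_lit 0) (XT.lf (nat_lit 76) (nat_lit 4158730108) (nat_lit 0) (nat_lit 5647348364) (nat_lit 304) (nat_lit 101126050) (nat_lit 221) (nat_lit 5) (nat_lit 220) (nat_lit 5) (nat_lit 224) (nat_lit 5) (nat_lit 307) (nat_lit 305) (nat_lit 288)) (XT.lf (nat_lit 0) (nat_lit 1068982879) (nat_lit 304) (nat_lit 475211836) (nat_lit 380) (nat_lit 9034563543) (nat_lit 216) (nat_lit 5) (nat_lit 220) (nat_lit 5) (nat_lit 221) (nat_lit 5) (nat_lit 308) (nat_lit 305) (nat_lit 287))) (XT.nd (nat_lit 78) (nat_lit 304) (nat_lit 0) (XT.lf (nat_lit 0) (nat_lit 2673717344) (nat_lit 304) (nat_lit 5454713660) (nat_lit 76) (nat_lit 3181472336)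 (nat_lit 217) (nat_lit 5) (nat_lit 221) (nat_lit 5) (nat_lit 218) (nat_lit 5) (nat_lit 309) (nat_lit 305) (nat_lit 286)) (XT.nd (nat_lit 78) (nat_lit 0) (nat_lit 0) (XT.lf (nat_lit 0) (nat_lit 938526275) (nat_lit 304) (nat_lit 3607638445) (nat_lit 380) (nat_lit 7600505052) (nat_lit 213) (nat_lit 5) (nat_lit 217) (nat_lit 5) (nat_lit 218) (nat_lit 5) (nat_lit 310) (nat_lit 305) (nat_lit 285)) (XT.lf (nat_lit 0) (nat_lit 6962548124) (nat_lit 380) (nat_lit 4363622522) (nat_lit 76) (nat_lit 1743320185) (nat_lit 213) (nat_lit 5) (nat_lit 218) (nat_lit 5) (nat_lit 214) (nat_lit 5) (nat_lit 311) (nat_lit 305) (nat_lit 284))))) (XT.nd (nat_lit 156) (nat_lit 380) (nat_lit 0) (XT.nd (nat_lit 78) (nat_lit 0) (nat_lit 0) (XT.lf (nat_lit 0) (nat_lit 3545556006) (nat_lit 152) (nat_lit 6426149851) (nat_lit 228) (nat_lit 4124481667) (nat_lit 211) (nat_lit 5) (nat_lit 213) (nat_lit 5) (nat_lit 214) (nat_lit 5)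 (nat_lit 312) (nat_lit 305) (nat_lit 283)) (XT.lf (nat_lit 0) (nat_lit 13030457430) (nat_lit 152) (nat_lit 548919972) (nat_lit 228) (nat_lit 1675440299) (nat_lit 211) (nat_lit 5) (nat_lit 213) (nat_lit 5) (nat_lit 214) (nat_lit 5) (nat_lit 313) (nat_lit 305) (nat_lit 282))) (XT.nd (nat_lit 78) (nat_lit 152) (nat_lit 0) (XT.lf (nat_lit 0) (nat_lit 1567397820) (nat_lit 228) (nat_lit 8903191652) (nat_lit 76) (nat_lit 6030363773) (nat_lit 208) (nat_lit 5) (nat_lit 211) (nat_lit 5) (nat_lit 209) (nat_lit 5) (nat_lit 314) (nat_lit 305) (nat_lit 281)) (XT.nd (nat_lit 78) (nat_lit 0) (nat_lit 0) (XT.lf (nat_lit 0) (nat_lit 1114366934) (nat_lit 152) (nat_lit 4136017327) (nat_lit 228) (nat_lit 12652869061) (nat_lit 206) (nat_lit 5) (nat_lit 208) (nat_lit 5) (nat_lit 209) (nat_lit 5) (nat_lit 315) (nat_lit 305) (nat_lit 280)) (XT.lf (nat_lit 0) (nat_lit 10038635546) (nat_lit 228) (nat_lit 6067196809) (nat_lit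 76) (nat_lit 3327143526) (nat_lit 206) (nat_lit 5) (nat_lit 209) (nat_lit 5) (nat_lit 207) (nat_lit 4) (nat_lit 316) (nat_lit 305) (nat_lit 279))))))) (XT.nd (nat_lit 780) (nat_lit 684) (nat_lit 0) (XT.nd (nat_lit 390) (nat_lit 456) (nat_lit 0) (XT.nd (nat_lit 156) (nat_lit 304) (nat_lit 0) (XT.nd (nat_lit 78) (nat_lit 0) (nat_lit 0) (XT.lf (nat_lit 0) (nat_lit 6559581052) (nat_lit 76) (nat_lit 9397487554) (nat_lit 152) (nat_lit 5173296603) (nat_lit 205) (nat_lit 5) (nat_lit 206) (nat_lit 5) (nat_lit 207) (nat_lit 4) (nat_lit 317) (nat_lit 305) (nat_lit 278)) (XT.lf (nat_lit 0) (nat_lit 21676154166) (nat_lit 76) (nat_lit 1351455309) (nat_lit 152) (nat_lit 15102035) (nat_lit 205) (nat_lit 5) (nat_lit 206) (nat_lit 5) (nat_lit 207) (nat_lit 4) (nat_lit 318) (nat_lit 305) (nat_lit 277))) (XT.nd (nat_lit 78) (nat_lit 76) (nat_lit 0) (XT.lf (nat_lit 0) (nat_lit 6322067017) (nat_lit 228) (nat_lit 10674683998)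 (nat_lit 76) (nat_lit 8068608043) (nat_lit 202) (nat_lit 5) (nat_lit 205) (nat_lit 5) (nat_lit 203) (nat_lit 4) (nat_lit 319) (nat_lit 305) (nat_lit 276)) (XT.nd (nat_lit 78) (nat_lit 0) (nat_lit 0) (XT.lf (nat_lit 0) (nat_lit 5636280213) (nat_lit 76) (nat_lit 8298304063) (nat_lit 152) (nat_lit 13407763740) (nat_lit 201) (nat_lit 5) (nat_lit 202) (nat_lit 5) (nat_lit 203) (nat_lit 4) (nat_lit 320) (nat_lit 305) (nat_lit 275)) (XT.lf (nat_lit 0) (nat_lit 23299281013) (nat_lit 152) (nat_lit 4463583508) (nat_lit 0) (nat_lit 2106475512) (nat_lit 201) (nat_lit 5) (nat_lit 203) (nat_lit 4) (nat_lit 201) (nat_lit 4) (nat_lit 321) (nat_lit 305) (nat_lit 274))))) (XT.nd (nat_lit 156) (nat_lit 228) (nat_lit 0) (XT.nd (nat_lit 78) (nat_lit 76) (nat_lit 0) (XT.lf (nat_lit 0) (nat_lit 2260703909) (nat_lit 152) (nat_lit 16369078745) (nat_lit 76) (nat_lit 13975184101) (nat_lit 199) (nat_lit 5) (nat_lit 201) (nat_lit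 5) (nat_lit 200) (nat_lit 4) (nat_lit 322) (nat_lit 305) (nat_lit 273)) (XT.lf (nat_lit 0) (nat_lit 4862403640) (nat_lit 76) (nat_lit 7288286676) (nat_lit 152) (nat_lit 23492229485) (nat_lit 198) (nat_lit 5) (nat_lit 199) (nat_lit 5) (nat_lit 200) (nat_lit 4) (nat_lit 323) (nat_lit 305) (nat_lit 272))) (XT.nd (nat_lit 78) (nat_lit 228) (nat_lit 0) (XT.lf (nat_lit 0) (nat_lit 24621135913) (nat_lit 152) (nat_lit 8242268517) (nat_lit 0) (nat_lit 6108617189) (nat_lit 198) (nat_lit 5) (nat_lit 200) (nat_lit 4) (nat_lit 198) (nat_lit 4) (nat_lit 324) (nat_lit 305) (nat_lit 271)) (XT.nd (nat_lit 78) (nat_lit 152) (nat_lit 0) (XT.lf (nat_lit 0) (nat_lit 18953270156) (nat_lit 76) (nat_lit 21107954370) (nat_lit 76) (nat_lit 2574402759) (nat_lit 197) (nat_lit 4) (nat_lit 198) (nat_lit 5) (nat_lit 198) (nat_lit 4) (nat_lit 325) (nat_lit 305) (nat_lit 270)) (XT.lf (nat_lit 0) (nat_lit 4206044746) (nat_lit 76)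 (nat_lit 6379018427) (nat_lit 152) (nat_lit 36106631929) (nat_lit 195) (nat_lit 5) (nat_lit 196) (nat_lit 5) (nat_lit 197) (nat_lit 4) (nat_lit 326) (nat_lit 305) (nat_lit 269)))))) (XT.nd (nat_lit 390) (nat_lit 380) (nat_lit 0) (XT.nd (nat_lit 156) (nat_lit 228) (nat_lit 0) (XT.nd (nat_lit 78) (nat_lit 76) (nat_lit 0) (XT.lf (nat_lit 0) (nat_lit 27156944428) (nat_lit 152) (nat_lit 12914451040) (nat_lit 0) (nat_lit 11011079245) (nat_lit 195) (nat_lit 5) (nat_lit 197) (nat_lit 4) (nat_lit 195) (nat_lit 4) (nat_lit 327) (nat_lit 305) (nat_lit 268)) (XT.lf (nat_lit 0) (nat_lit 22758742063) (nat_lit 76) (nat_lit 24674139479) (nat_lit 76) (nat_lit 8516248675) (nat_lit 194) (nat_lit 4) (nat_lit 195) (nat_lit 5) (nat_lit 195) (nat_lit 4) (nat_lit 328) (nat_lit 305) (nat_lit 267))) (XT.nd (nat_lit 78) (nat_lit 76) (nat_lit 0) (XT.lf (nat_lit 0) (nat_lit 3644775981) (nat_lit 76) (nat_lit 5570630459) (nat_lit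 152) (nat_lit 52148643838) (nat_lit 192) (nat_lit 5) (nat_lit 193) (nat_lit 5) (nat_lit 194) (nat_lit 4) (nat_lit 329) (nat_lit 305) (nat_lit 266)) (XT.nd (nat_lit 78) (nat_lit 76) (nat_lit 0) (XT.lf (nat_lit 0) (nat_lit 31204041604) (nat_lit 152) (nat_lit 18819264744) (nat_lit 0) (nat_lit 17136701636) (nat_lit 192) (nat_lit 5) (nat_lit 194) (nat_lit 4) (nat_lit 192) (nat_lit 4) (nat_lit 330) (nat_lit 305) (nat_lit 265)) (XT.lf (nat_lit 0) (nat_lit 28103311332) (nat_lit 76) (nat_lit 29792750129) (nat_lit 76) (nat_lit 15718534473) (nat_lit 191) (nat_lit 4) (nat_lit 192) (nat_lit 5) (nat_lit 192) (nat_lit 4) (nat_lit 331) (nat_lit 305) (nat_lit 264))))) (XT.nd (nat_lit 156) (nat_lit 228) (nat_lit 0) (XT.nd (nat_lit 78) (nat_lit 0) (nat_lit 0) (XT.lf (nat_lit 0) (nat_lit 3162135319) (nat_lit 76) (nat_lit 4857552975) (nat_lit 152) (nat_lit 72800101697) (nat_lit 189) (nat_lit 5) (nat_lit 190) (nat_lit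 5) (nat_lit 191) (nat_lit 4) (nat_lit 332) (nat_lit 305) (nat_lit 263)) (XT.lf (nat_lit 0) (nat_lit 37164264211) (nat_lit 152) (nat_lit 26394893029) (nat_lit 0) (nat_lit 24916095931) (nat_lit 189) (nat_lit 5) (nat_lit 191) (nat_lit 4) (nat_lit 189) (nat_lit 4) (nat_lit 333) (nat_lit 305) (nat_lit 262))) (XT.nd (nat_lit 78) (nat_lit 152) (nat_lit 0) (XT.lf (nat_lit 0) (nat_lit 35437984378) (nat_lit 76) (nat_lit 36920712674) (nat_lit 76) (nat_lit 24668613196) (nat_lit 188) (nat_lit 4) (nat_lit 189) (nat_lit 5) (nat_lit 189) (nat_lit 4) (nat_lit 334) (nat_lit 305) (nat_lit 261)) (XT.nd (nat_lit 78) (nat_lit 0) (nat_lit 0) (XT.lf (nat_lit 0) (nat_lit 2745546195) (nat_lit 76) (nat_lit 4231692922) (nat_lit 152) (nat_lit 99617062066) (nat_lit 186) (nat_lit 5) (nat_lit 187) (nat_lit 5) (nat_lit 188) (nat_lit 4) (nat_lit 335) (nat_lit 305) (nat_lit 260)) (XT.lf (nat_lit 0) (nat_lit 45578101546) (nat_lit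 152) (nat_lit 36213430953) (nat_lit 0) (nat_lit 34918544625) (nat_lit 186) (nat_lit 5) (nat_lit 188) (nat_lit 4) (nat_lit 186) (nat_lit 4) (nat_lit 336) (nat_lit 305) (nat_lit 259))))))))
noncomputable def xc53 : XT := (XT.nd (nat_lit 1560) (nat_lit 1444) (nat_lit 0) (XT.nd (nat_lit 780) (nat_lit 836) (nat_lit 0) (XT.nd (nat_lit 390) (nat_lit 304) (nat_lit 0) (XT.nd (nat_lit 156) (nat_lit 228) (nat_lit 0) (XT.nd (nat_lit 78) (nat_lit 152) (nat_lit 0) (XT.lf (nat_lit 0) (nat_lit 45367136347) (nat_lit 76) (nat_lit 46664270349) (nat_lit 76) (nat_lit 36002465754) (nat_lit 185) (nat_lit 4) (nat_lit 186) (nat_lit 5) (nat_lit 186) (nat_lit 4) (nat_lit 337) (nat_lit 305) (nat_lit 258)) (XT.lf (nat_lit 0) (nat_lit 2385066307) (nat_lit 76) (nat_lit 3684154809) (nat_lit 152) (nat_lit 134650085470) (nat_lit 183) (nat_lit 5) (nat_lit 184) (nat_lit 5) (nat_lit 185) (nat_lit 4) (nat_lit 338) (nat_lit 305) (nat_lit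 257))) (XT.nd (nat_lit 78) (nat_lit 228) (nat_lit 0) (XT.lf (nat_lit 0) (nat_lit 57169128005) (nat_lit 152) (nat_lit 49025936185) (nat_lit 0) (nat_lit 47894816127) (nat_lit 183) (nat_lit 5) (nat_lit 185) (nat_lit 4) (nat_lit 183) (nat_lit 4) (nat_lit 339) (nat_lit 305) (nat_lit 256)) (XT.nd (nat_lit 78) (nat_lit 152) (nat_lit 0) (XT.lf (nat_lit 0) (nat_lit 58696081551) (nat_lit 76) (nat_lit 59828486724) (nat_lit 76) (nat_lit 50552889731) (nat_lit 182) (nat_lit 4) (nat_lit 183) (nat_lit 5) (nat_lit 183) (nat_lit 4) (nat_lit 340) (nat_lit 305) (nat_lit 255)) (XT.lf (nat_lit 0) (nat_lit 2072618410) (nat_lit 76) (nat_lit 3206141075) (nat_lit 152) (nat_lit 180603923143) (nat_lit 180) (nat_lit 5) (nat_lit 181) (nat_lit 5) (nat_lit 182) (nat_lit 4) (nat_lit 341) (nat_lit 305) (nat_lit 254))))) (XT.nd (nat_lit 156) (nat_lit 228) (nat_lit 0) (XT.nd (nat_lit 78) (nat_lit 76) (nat_lit 0) (XT.lf (nat_lit 0)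 (nat_lit 72902417122) (nat_lit 152) (nat_lit 65821380757) (nat_lit 0) (nat_lit 64834863891) (nat_lit 180) (nat_lit 5) (nat_lit 182) (nat_lit 4) (nat_lit 180) (nat_lit 4) (nat_lit 342) (nat_lit 305) (nat_lit 253)) (XT.lf (nat_lit 0) (nat_lit 76494599478) (nat_lit 76) (nat_lit 77481851114) (nat_lit 76) (nat_lit 69413563113) (nat_lit 179) (nat_lit 4) (nat_lit 180) (nat_lit 5) (nat_lit 180) (nat_lit 4) (nat_lit 343) (nat_lit 305) (nat_lit 252))) (XT.nd (nat_lit 78) (nat_lit 76) (nat_lit 0) (XT.lf (nat_lit 0) (nat_lit 1801503701) (nat_lit 76) (nat_lit 2789394266) (nat_lit 152) (nat_lit 241048994984) (nat_lit 177) (nat_lit 5) (nat_lit 178) (nat_lit 5) (nat_lit 179) (nat_lit 4) (nat_lit 344) (nat_lit 305) (nat_lit 251)) (XT.nd (nat_lit 78) (nat_lit 76) (nat_lit 0) (XT.lf (nat_lit 0) (nat_lit 94061656315) (nat_lit 152) (nat_lit 87904233389) (nat_lit 0) (nat_lit 87044714993) (nat_lit 177) (nat_lit 5) (nat_lit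 179) (nat_lit 4) (nat_lit 177) (nat_lit 4) (nat_lit 345) (nat_lit 305) (nat_lit 250)) (XT.lf (nat_lit 0) (nat_lit 100181324581) (nat_lit 76) (nat_lit 101041263083) (nat_lit 76) (nat_lit 94023901655) (nat_lit 176) (nat_lit 4) (nat_lit 177) (nat_lit 5) (nat_lit 177) (nat_lit 4) (nat_lit 346) (nat_lit 305) (nat_lit 249)))))) (XT.nd (nat_lit 390) (nat_lit 456) (nat_lit 0) (XT.nd (nat_lit 156) (nat_lit 228) (nat_lit 0) (XT.nd (nat_lit 78) (nat_lit 0) (nat_lit 0) (XT.lf (nat_lit 0) (nat_lit 1566082891) (nat_lit 76) (nat_lit 2426386703) (nat_lit 152) (nat_lit 320701186437) (nat_lit 174) (nat_lit 5) (nat_lit 175) (nat_lit 5) (nat_lit 176) (nat_lit 4) (nat_lit 347) (nat_lit 305) (nat_lit 248)) (XT.lf (nat_lit 0) (nat_lit 122351105572) (nat_lit 152) (nat_lit 116996824767) (nat_lit 0) (nat_lit 116248458268) (nat_lit 174) (nat_lit 5) (nat_lit 176) (nat_lit 4) (nat_lit 174) (nat_lit 4) (nat_lit 348) (nat_lit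 305) (nat_lit 247))) (XT.nd (nat_lit 78) (nat_lit 152) (nat_lit 0) (XT.lf (nat_lit 0) (nat_lit 131635589308) (nat_lit 76) (nat_lit 132384196004) (nat_lit 76) (nat_lit 126281308503) (nat_lit 173) (nat_lit 4) (nat_lit 174) (nat_lit 5) (nat_lit 174) (nat_lit 4) (nat_lit 349) (nat_lit 305) (nat_lit 246)) (XT.nd (nat_lit 78) (nat_lit 0) (nat_lit 0) (XT.lf (nat_lit 0) (nat_lit 1361558457) (nat_lit 76) (nat_lit 2110374019) (nat_lit 152) (nat_lit 425791903614) (nat_lit 171) (nat_lit 5) (nat_lit 172) (nat_lit 5) (nat_lit 173) (nat_lit 4) (nat_lit 350) (nat_lit 305) (nat_lit 245)) (XT.lf (nat_lit 0) (nat_lit 160030469464) (nat_lit 152) (nat_lit 155374573111) (nat_lit 0) (nat_lit 154723271210) (nat_lit 171) (nat_lit 5) (nat_lit 173) (nat_lit 4) (nat_lit 171) (nat_lit 4) (nat_lit 351) (nat_lit 305) (nat_lit 244))))) (XT.nd (nat_lit 156) (nat_lit 228) (nat_lit 0) (XT.nd (nat_lit 78) (nat_lit 152) (nat_lit 0)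 (XT.lf (nat_lit 0) (nat_lit 173345491642) (nat_lit 76) (nat_lit 173996930876) (nat_lit 76) (nat_lit 168689595289) (nat_lit 170) (nat_lit 4) (nat_lit 171) (nat_lit 5) (nat_lit 171) (nat_lit 4) (nat_lit 352) (nat_lit 305) (nat_lit 243)) (XT.lf (nat_lit 0) (nat_lit 1183819363) (nat_lit 76) (nat_lit 1835378018) (nat_lit 152) (nat_lit 564557447109) (nat_lit 168) (nat_lit 5) (nat_lit 169) (nat_lit 5) (nat_lit 170) (nat_lit 4) (nat_lit 353) (nat_lit 305) (nat_lit 242))) (XT.nd (nat_lit 78) (nat_lit 228) (nat_lit 0) (XT.lf (nat_lit 0) (nat_lit 210093323719) (nat_lit 152) (nat_lit 206044718195) (nat_lit 0) (nat_lit 205478055152) (nat_lit 168) (nat_lit 5) (nat_lit 170) (nat_lit 4) (nat_lit 168) (nat_lit 4) (nat_lit 354) (nat_lit 305) (nat_lit 241)) (XT.nd (nat_lit 78) (nat_lit 152) (nat_lit 0) (XT.lf (nat_lit 0) (nat_lit 228603819881) (nat_lit 76) (nat_lit 229170561444) (nat_lit 76) (nat_lit 224555214357)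 (nat_lit 167) (nat_lit 4) (nat_lit 168) (nat_lit 5) (nat_lit 168) (nat_lit 4) (nat_lit 355) (nat_lit 305) (nat_lit 240)) (XT.lf (nat_lit 0) (nat_lit 1029325516) (nat_lit 76) (nat_lit 1596135359) (nat_lit 152) (nat_lit 747886162363) (nat_lit 165) (nat_lit 5) (nat_lit 166) (nat_lit 5) (nat_lit 167) (nat_lit 4) (nat_lit 356) (nat_lit 305) (nat_lit 239))))))) (XT.nd (nat_lit 780) (nat_lit 760) (nat_lit 0) (XT.nd (nat_lit 390) (nat_lit 380) (nat_lit 0) (XT.nd (nat_lit 156) (nat_lit 228) (nat_lit 0) (XT.nd (nat_lit 78) (nat_lit 76) (nat_lit 0) (XT.lf (nat_lit 0) (nat_lit 276503152715) (nat_lit 152) (nat_lit 272982626172) (nat_lit 0) (nat_lit 272489696420) (nat_lit 165) (nat_lit 5) (nat_lit 167) (nat_lit 4) (nat_lit 165) (nat_lit 4) (nat_lit 357) (nat_lit 305) (nat_lit 238)) (XT.lf (nat_lit 0) (nat_lit 301767238071) (nat_lit 76) (nat_lit 302260212718) (nat_lit 76) (nat_lit 298246711528) (nat_lit 164)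 (nat_lit 4) (nat_lit 165) (nat_lit 5) (nat_lit 165) (nat_lit 4) (nat_lit 358) (nat_lit 305) (nat_lit 237))) (XT.nd (nat_lit 78) (nat_lit 76) (nat_lit 0) (XT.lf (nat_lit 0) (nat_lit 895018425) (nat_lit 76) (nat_lit 1388032111) (nat_lit 152) (nat_lit 990174240940) (nat_lit 162) (nat_lit 5) (nat_lit 163) (nat_lit 5) (nat_lit 164) (nat_lit 4) (nat_lit 359) (nat_lit 305) (nat_lit 236)) (XT.nd (nat_lit 78) (nat_lit 76) (nat_lit 0) (XT.lf (nat_lit 0) (nat_lit 364505578560) (nat_lit 152) (nat_lit 361444251132) (nat_lit 0) (nat_lit 361015514060) (nat_lit 162) (nat_lit 5) (nat_lit 164) (nat_lit 4) (nat_lit 162) (nat_lit 4) (nat_lit 360) (nat_lit 305) (nat_lit 235)) (XT.lf (nat_lit 0) (nat_lit 398599114247) (nat_lit 76) (nat_lit 399027876987) (nat_lit 76) (nat_lit 395537786818) (nat_lit 161) (nat_lit 4) (nat_lit 162) (nat_lit 5) (nat_lit 162) (nat_lit 4) (nat_lit 361) (nat_lit 305) (nat_lit 234))))) (XT.nd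 (nat_lit 156) (nat_lit 228) (nat_lit 0) (XT.nd (nat_lit 78) (nat_lit 0) (nat_lit 0) (XT.lf (nat_lit 0) (nat_lit 778249881) (nat_lit 76) (nat_lit 1207034942) (nat_lit 152) (nat_lit 1310457461471) (nat_lit 159) (nat_lit 5) (nat_lit 160) (nat_lit 5) (nat_lit 161) (nat_lit 4) (nat_lit 362) (nat_lit 305) (nat_lit 233)) (XT.lf (nat_lit 0) (nat_lit 481041350255) (nat_lit 152) (nat_lit 478379326404) (nat_lit 0) (nat_lit 478006452952) (nat_lit 159) (nat_lit 5) (nat_lit 161) (nat_lit 4) (nat_lit 159) (nat_lit 4) (nat_lit 363) (nat_lit 305) (nat_lit 232))) (XT.nd (nat_lit 78) (nat_lit 152) (nat_lit 0) (XT.lf (nat_lit 0) (nat_lit 526722953562) (nat_lit 76) (nat_lit 527095841690) (nat_lit 76) (nat_lit 524060929711) (nat_lit 158) (nat_lit 4) (nat_lit 159) (nat_lit 5) (nat_lit 159) (nat_lit 4) (nat_lit 364) (nat_lit 305) (nat_lit 231)) (XT.nd (nat_lit 78) (nat_lit 0) (nat_lit 0) (XT.lf (nat_lit 0) (nat_lit 676723583)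 (nat_lit 76) (nat_lit 1049624474) (nat_lit 152) (nat_lit 1733907863358) (nat_lit 156) (nat_lit 5) (nat_lit 157) (nat_lit 5) (nat_lit 158) (nat_lit 4) (nat_lit 365) (nat_lit 305) (nat_lit 230)) (XT.lf (nat_lit 0) (nat_lit 635292582708) (nat_lit 152) (nat_lit 632977779360) (nat_lit 0) (nat_lit 632653508066) (nat_lit 156) (nat_lit 5) (nat_lit 158) (nat_lit 4) (nat_lit 156) (nat_lit 4) (nat_lit 366) (nat_lit 305) (nat_lit 229)))))) (XT.nd (nat_lit 390) (nat_lit 304) (nat_lit 0) (XT.nd (nat_lit 156) (nat_lit 228) (nat_lit 0) (XT.nd (nat_lit 78) (nat_lit 152) (nat_lit 0) (XT.lf (nat_lit 0) (nat_lit 696222097653) (nat_lit 76) (nat_lit 696546377338) (nat_lit 76) (nat_lit 693907294305) (nat_lit 155) (nat_lit 4) (nat_lit 156) (nat_lit 5) (nat_lit 156) (nat_lit 4) (nat_lit 367) (nat_lit 305) (nat_lit 228)) (XT.lf (nat_lit 0) (nat_lit 588446460) (nat_lit 76) (nat_lit 912733441) (nat_lit 152) (nat_lit 2293813048330)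 (nat_lit 153) (nat_lit 5) (nat_lit 154) (nat_lit 5) (nat_lit 155) (nat_lit 4) (nat_lit 368) (nat_lit 305) (nat_lit 227))) (XT.nd (nat_lit 78) (nat_lit 228) (nat_lit 0) (XT.lf (nat_lit 0) (nat_lit 839405212642) (nat_lit 152) (nat_lit 837392340165) (nat_lit 0) (nat_lit 837110345968) (nat_lit 153) (nat_lit 5) (nat_lit 155) (nat_lit 4) (nat_lit 153) (nat_lit 4) (nat_lit 369) (nat_lit 305) (nat_lit 226)) (XT.nd (nat_lit 78) (nat_lit 152) (nat_lit 0) (XT.lf (nat_lit 0) (nat_lit 920432854872) (nat_lit 76) (nat_lit 920714853867) (nat_lit 76) (nat_lit 918419982395) (nat_lit 152) (nat_lit 4) (nat_lit 153) (nat_lit 5) (nat_lit 153) (nat_lit 4) (nat_lit 370) (nat_lit 305) (nat_lit 225)) (XT.lf (nat_lit 0) (nat_lit 511687525) (nat_lit 76) (nat_lit 793690692) (nat_lit 152) (nat_lit 3034193762210) (nat_lit 150) (nat_lit 5) (nat_lit 151) (nat_lit 5) (nat_lit 152) (nat_lit 4) (nat_lit 371) (nat_lit 305) (nat_lit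 224))))) (XT.nd (nat_lit 156) (nat_lit 228) (nat_lit 0) (XT.nd (nat_lit 78) (nat_lit 76) (nat_lit 0) (XT.lf (nat_lit 0) (nat_lit 1109444495249) (nat_lit 152) (nat_lit 1107694171356) (nat_lit 0) (nat_lit 1107448948057) (nat_lit 150) (nat_lit 5) (nat_lit 152) (nat_lit 4) (nat_lit 150) (nat_lit 4) (nat_lit 372) (nat_lit 305) (nat_lit 223)) (XT.lf (nat_lit 0) (nat_lit 1216993438167) (nat_lit 76) (nat_lit 1217238664209) (nat_lit 76) (nat_lit 1215243114274) (nat_lit 149) (nat_lit 4) (nat_lit 150) (nat_lit 5) (nat_lit 150) (nat_lit 4) (nat_lit 373) (nat_lit 305) (nat_lit 222))) (XT.nd (nat_lit 78) (nat_lit 76) (nat_lit 0) (XT.lf (nat_lit 0) (nat_lit 444942788) (nat_lit 76) (nat_lit 690171215) (nat_lit 152) (nat_lit 4013265607177) (nat_lit 147) (nat_lit 5) (nat_lit 148) (nat_lit 5) (nat_lit 149) (nat_lit 4) (nat_lit 374) (nat_lit 305) (nat_lit 221)) (XT.nd (nat_lit 78) (nat_lit 76) (nat_lit 0) (XT.lf (nat_lit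 0) (nat_lit 1466658691513) (nat_lit 152) (nat_lit 1465136670736) (nat_lit 0) (nat_lit 1464923426822) (nat_lit 147) (nat_lit 5) (nat_lit 149) (nat_lit 4) (nat_lit 147) (nat_lit 4) (nat_lit 375) (nat_lit 305) (nat_lit 220)) (XT.lf (nat_lit 0) (nat_lit 1609231204989) (nat_lit 76) (nat_lit 1609444450471) (nat_lit 76) (nat_lit 1607709184212) (nat_lit 146) (nat_lit 4) (nat_lit 147) (nat_lit 5) (nat_lit 147) (nat_lit 4) (nat_lit 376) (nat_lit 305) (nat_lit 219))))))))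
noncomputable def xc54 : XT := (XT.nd (nat_lit 42432) (nat_lit 0) (nat_lit 3268) (XT.nd (nat_lit 41652) (nat_lit 0) (nat_lit 4864) (XT.nd (nat_lit 390) (nat_lit 76) (nat_lit 0) (XT.nd (nat_lit 156) (nat_lit 228) (nat_lit 0) (XT.nd (nat_lit 78) (nat_lit 0) (nat_lit 0) (XT.lf (nat_lit 0) (nat_lit 386905122) (nat_lit 76) (nat_lit 600151968) (nat_lit 152) (nat_lit 5308017121272) (nat_lit 144) (nat_lit 5) (nat_lit 145) (nat_lit 5) (nat_lit 146) (nat_lit 4) (nat_lit 377) (nat_lit 305) (nat_lit 218)) (XT.lf (nat_lit 0) (nat_lit 1939150332420) (nat_lit 152) (nat_lit 1937826836093) (nat_lit 0) (nat_lit 1937641403021) (nat_lit 144) (nat_lit 5) (nat_lit 146) (nat_lit 4) (nat_lit 144) (nat_lit 4) (nat_lit 378) (nat_lit 305) (nat_lit 217))) (XT.nd (nat_lit 78) (nat_lit 152) (nat_lit 0) (XT.lf (nat_lit 0) (nat_lit 2127997298729) (nat_lit 76) (nat_lit 2128182732697) (nat_lit 76) (nat_lit 2126673802401) (nat_lit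 143) (nat_lit 4) (nat_lit 144) (nat_lit 5) (nat_lit 144) (nat_lit 4) (nat_lit 379) (nat_lit 305) (nat_lit 216)) (XT.nd (nat_lit 78) (nat_lit 0) (nat_lit 0) (XT.lf (nat_lit 0) (nat_lit 336438292) (nat_lit 76) (nat_lit 521873041) (nat_lit 152) (nat_lit 7020264257842) (nat_lit 141) (nat_lit 5) (nat_lit 142) (nat_lit 5) (nat_lit 143) (nat_lit 4) (nat_lit 380) (nat_lit 305) (nat_lit 215)) (XT.lf (nat_lit 0) (nat_lit 2564086498899) (nat_lit 152) (nat_lit 2562935632527) (nat_lit 0) (nat_lit 2562774384330) (nat_lit 141) (nat_lit 5) (nat_lit 143) (nat_lit 4) (nat_lit 141) (nat_lit 4) (nat_lit 381) (nat_lit 305) (nat_lit 214))))) (XT.nd (nat_lit 41028) (nat_lit 0) (nat_lit 5700) (XT.nd (nat_lit 40950) (nat_lit 0) (nat_lit 6080) (XT.lf (nat_lit 0) (nat_lit 2814092976324) (nat_lit 76) (nat_lit 2814254225033) (nat_lit 76) (nat_lit 2812942109952) (nat_lit 140) (nat_lit 4) (nat_lit 141) (nat_lit 5) (nat_lit 141)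 (nat_lit 4) (nat_lit 382) (nat_lit 305) (nat_lit 213)) (XT.lf (nat_lit 0) (nat_lit 2331343409) (nat_lit 0) (nat_lit 2331343409) (nat_lit 228) (nat_lit 271853641) (nat_lit 220) (nat_lit 5) (nat_lit 220) (nat_lit 3) (nat_lit 223) (nat_lit 3) (nat_lit 306) (nat_lit 306) (nat_lit 288))) (XT.nd (nat_lit 78) (nat_lit 0) (nat_lit 76) (XT.lf (nat_lit 0) (nat_lit 159930181) (nat_lit 380) (nat_lit 247651350) (nat_lit 380) (nat_lit 10101453714) (nat_lit 215) (nat_lit 3) (nat_lit 220) (nat_lit 3) (nat_lit 220) (nat_lit 5) (nat_lit 307) (nat_lit 306) (nat_lit 287)) (XT.nd (nat_lit 78) (nat_lit 0) (nat_lit 0) (XT.lf (nat_lit 0) (nat_lit 1234465226) (nat_lit 304) (nat_lit 5542045276) (nat_lit 380) (nat_lit 4416436009) (nat_lit 216) (nat_lit 5) (nat_lit 220) (nat_lit 5) (nat_lit 221) (nat_lit 5) (nat_lit 308) (nat_lit 306) (nat_lit 286)) (XT.lf (nat_lit 76) (nat_lit 415625433) (nat_lit 0) (nat_lit 1996486173)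 (nat_lit 380) (nat_lit 9576043197) (nat_lit 217) (nat_lit 5) (nat_lit 216) (nat_lit 5) (nat_lit 221) (nat_lit 5) (nat_lit 309) (nat_lit 306) (nat_lit 285)))))) (XT.nd (nat_lit 390) (nat_lit 532) (nat_lit 0) (XT.nd (nat_lit 156) (nat_lit 152) (nat_lit 0) (XT.nd (nat_lit 78) (nat_lit 304) (nat_lit 0) (XT.lf (nat_lit 0) (nat_lit 4117964205) (nat_lit 304) (nat_lit 5225421639) (nat_lit 76) (nat_lit 3506524608) (nat_lit 217) (nat_lit 5) (nat_lit 221) (nat_lit 5) (nat_lit 218) (nat_lit 5) (nat_lit 310) (nat_lit 306) (nat_lit 284)) (XT.lf (nat_lit 0) (nat_lit 2079190692) (nat_lit 304) (nat_lit 4097422956) (nat_lit 380) (nat_lit 7649777957) (nat_lit 213) (nat_lit 5) (nat_lit 217) (nat_lit 5) (nat_lit 218) (nat_lit 5) (nat_lit 311) (nat_lit 306) (nat_lit 283))) (XT.nd (nat_lit 78) (nat_lit 152) (nat_lit 0) (XT.lf (nat_lit 0) (nat_lit 8833583369) (nat_lit 380) (nat_lit 4026829076) (nat_lit 76) (nat_lit 2045504057)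 (nat_lit 213) (nat_lit 5) (nat_lit 218) (nat_lit 5) (nat_lit 214) (nat_lit 5) (nat_lit 312) (nat_lit 306) (nat_lit 282)) (XT.nd (nat_lit 78) (nat_lit 0) (nat_lit 0) (XT.lf (nat_lit 0) (nat_lit 5023665467) (nat_lit 152) (nat_lit 7201808261) (nat_lit 228) (nat_lit 3871440126) (nat_lit 211) (nat_lit 5) (nat_lit 213) (nat_lit 5) (nat_lit 214) (nat_lit 5) (nat_lit 313) (nat_lit 306) (nat_lit 281)) (XT.lf (nat_lit 0) (nat_lit 15807874792) (nat_lit 152) (nat_lit 467550083) (nat_lit 228) (nat_lit 1168744352) (nat_lit 211) (nat_lit 5) (nat_lit 213) (nat_lit 5) (nat_lit 214) (nat_lit 5) (nat_lit 314) (nat_lit 306) (nat_lit 280))))) (XT.nd (nat_lit 156) (nat_lit 152) (nat_lit 0) (XT.nd (nat_lit 78) (nat_lit 152) (nat_lit 0) (XT.lf (nat_lit 0) (nat_lit 2447028136) (nat_lit 228) (nat_lit 9302330304) (nat_lit 76) (nat_lit 7130059695) (nat_lit 208) (nat_lit 5) (nat_lit 211) (nat_lit 5) (nat_lit 209) (nat_lit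 5) (nat_lit 315) (nat_lit 306) (nat_lit 279)) (XT.lf (nat_lit 0) (nat_lit 2175301157) (nat_lit 152) (nat_lit 4460102967) (nat_lit 228) (nat_lit 13863717863) (nat_lit 206) (nat_lit 5) (nat_lit 208) (nat_lit 5) (nat_lit 209) (nat_lit 5) (nat_lit 316) (nat_lit 306) (nat_lit 278))) (XT.nd (nat_lit 78) (nat_lit 152) (nat_lit 0) (XT.lf (nat_lit 0) (nat_lit 12074632684) (nat_lit 228) (nat_lit 6132816623) (nat_lit 76) (nat_lit 4060942685) (nat_lit 206) (nat_lit 5) (nat_lit 209) (nat_lit 5) (nat_lit 207) (nat_lit 4) (nat_lit 317) (nat_lit 306) (nat_lit 277)) (XT.nd (nat_lit 78) (nat_lit 76) (nat_lit 0) (XT.lf (nat_lit 0) (nat_lit 8349593385) (nat_lit 76) (nat_lit 10495458415) (nat_lit 152) (nat_lit 5380704756) (nat_lit 205) (nat_lit 5) (nat_lit 206) (nat_lit 5) (nat_lit 207) (nat_lit 4) (nat_lit 318) (nat_lit 306) (nat_lit 276)) (XT.lf (nat_lit 0) (nat_lit 434584777) (nat_lit 152) (nat_lit 825869921) (nat_lit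 76) (nat_lit 25171210517) (nat_lit 204) (nat_lit 5) (nat_lit 206) (nat_lit 5) (nat_lit 205) (nat_lit 5) (nat_lit 319) (nat_lit 306) (nat_lit 275))))))) (XT.nd (nat_lit 780) (nat_lit 836) (nat_lit 0) (XT.nd (nat_lit 390) (nat_lit 304) (nat_lit 0) (XT.nd (nat_lit 156) (nat_lit 228) (nat_lit 0) (XT.nd (nat_lit 78) (nat_lit 76) (nat_lit 0) (XT.lf (nat_lit 0) (nat_lit 7703486961) (nat_lit 228) (nat_lit 11513638652) (nat_lit 76) (nat_lit 9543070821) (nat_lit 202) (nat_lit 5) (nat_lit 205) (nat_lit 5) (nat_lit 203) (nat_lit 4) (nat_lit 320) (nat_lit 306) (nat_lit 274)) (XT.lf (nat_lit 0) (nat_lit 7209322557) (nat_lit 76) (nat_lit 9222195034) (nat_lit 152) (nat_lit 14951170776) (nat_lit 201) (nat_lit 5) (nat_lit 202) (nat_lit 5) (nat_lit 203) (nat_lit 4) (nat_lit 321) (nat_lit 306) (nat_lit 273))) (XT.nd (nat_lit 78) (nat_lit 228) (nat_lit 0) (XT.lf (nat_lit 0) (nat_lit 27159418018) (nat_lit 152) (nat_lit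 4458924288) (nat_lit 0) (nat_lit 2676612005) (nat_lit 201) (nat_lit 5) (nat_lit 203) (nat_lit 4) (nat_lit 201) (nat_lit 4) (nat_lit 322) (nat_lit 306) (nat_lit 272)) (XT.nd (nat_lit 78) (nat_lit 76) (nat_lit 0) (XT.lf (nat_lit 0) (nat_lit 2960454774) (nat_lit 152) (nat_lit 18145644239) (nat_lit 76) (nat_lit 16335515963) (nat_lit 199) (nat_lit 5) (nat_lit 201) (nat_lit 5) (nat_lit 200) (nat_lit 4) (nat_lit 323) (nat_lit 306) (nat_lit 271)) (XT.lf (nat_lit 0) (nat_lit 6239706127) (nat_lit 76) (nat_lit 8074022222) (nat_lit 152) (nat_lit 26624564250) (nat_lit 198) (nat_lit 5) (nat_lit 199) (nat_lit 5) (nat_lit 200) (nat_lit 4) (nat_lit 324) (nat_lit 306) (nat_lit 270))))) (XT.nd (nat_lit 156) (nat_lit 228) (nat_lit 0) (XT.nd (nat_lit 78) (nat_lit 76) (nat_lit 0) (XT.lf (nat_lit 0) (nat_lit 28621408659) (nat_lit 152) (nat_lit 8881848895) (nat_lit 0) (nat_lit 7268501955) (nat_lit 198) (nat_lit 5) (nat_lit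 200) (nat_lit 4) (nat_lit 198) (nat_lit 4) (nat_lit 325) (nat_lit 306) (nat_lit 269)) (XT.lf (nat_lit 0) (nat_lit 22365895129) (nat_lit 76) (nat_lit 23995145953) (nat_lit 76) (nat_lit 2626335364) (nat_lit 197) (nat_lit 4) (nat_lit 198) (nat_lit 5) (nat_lit 198) (nat_lit 4) (nat_lit 326) (nat_lit 306) (nat_lit 268))) (XT.nd (nat_lit 78) (nat_lit 76) (nat_lit 0) (XT.lf (nat_lit 0) (nat_lit 5409096192) (nat_lit 76) (nat_lit 7052176479) (nat_lit 152) (nat_lit 41190909193) (nat_lit 195) (nat_lit 5) (nat_lit 196) (nat_lit 5) (nat_lit 197) (nat_lit 4) (nat_lit 327) (nat_lit 306) (nat_lit 267)) (XT.nd (nat_lit 78) (nat_lit 76) (nat_lit 0) (XT.lf (nat_lit 0) (nat_lit 31491527149) (nat_lit 152) (nat_lit 14326692571) (nat_lit 0) (nat_lit 12887470042) (nat_lit 195) (nat_lit 5) (nat_lit 197) (nat_lit 4) (nat_lit 195) (nat_lit 4) (nat_lit 328) (nat_lit 306) (nat_lit 266)) (XT.lf (nat_lit 0) (nat_lit 26673619219)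 (nat_lit 76) (nat_lit 28121934846) (nat_lit 76) (nat_lit 9508784641) (nat_lit 194) (nat_lit 4) (nat_lit 195) (nat_lit 5) (nat_lit 195) (nat_lit 4) (nat_lit 329) (nat_lit 306) (nat_lit 265)))))) (XT.nd (nat_lit 390) (nat_lit 456) (nat_lit 0) (XT.nd (nat_lit 156) (nat_lit 228) (nat_lit 0) (XT.nd (nat_lit 78) (nat_lit 0) (nat_lit 0) (XT.lf (nat_lit 0) (nat_lit 4693993488) (nat_lit 76) (nat_lit 6150216155) (nat_lit 152) (nat_lit 59687474341) (nat_lit 192) (nat_lit 5) (nat_lit 193) (nat_lit 5) (nat_lit 194) (nat_lit 4) (nat_lit 330) (nat_lit 306) (nat_lit 264)) (XT.lf (nat_lit 0) (nat_lit 36108206991) (nat_lit 152) (nat_lit 21182263879) (nat_lit 0) (nat_lit 19910004440) (nat_lit 192) (nat_lit 5) (nat_lit 194) (nat_lit 4) (nat_lit 192) (nat_lit 4) (nat_lit 331) (nat_lit 306) (nat_lit 263))) (XT.nd (nat_lit 78) (nat_lit 152) (nat_lit 0) (XT.lf (nat_lit 0) (nat_lit 32757794492) (nat_lit 76) (nat_lit 34035252939)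 (nat_lit 76) (nat_lit 17831851381) (nat_lit 191) (nat_lit 4) (nat_lit 192) (nat_lit 5) (nat_lit 192) (nat_lit 4) (nat_lit 332) (nat_lit 306) (nat_lit 262)) (XT.nd (nat_lit 78) (nat_lit 0) (nat_lit 0) (XT.lf (nat_lit 0) (nat_lit 4076262693) (nat_lit 76) (nat_lit 5358242017) (nat_lit 152) (nat_lit 83476474304) (nat_lit 189) (nat_lit 5) (nat_lit 190) (nat_lit 5) (nat_lit 191) (nat_lit 4) (nat_lit 333) (nat_lit 306) (nat_lit 261)) (XT.lf (nat_lit 0) (nat_lit 42931340228) (nat_lit 152) (nat_lit 29952259262) (nat_lit 0) (nat_lit 28834076200) (nat_lit 189) (nat_lit 5) (nat_lit 191) (nat_lit 4) (nat_lit 189) (nat_lit 4) (nat_lit 334) (nat_lit 306) (nat_lit 260))))) (XT.nd (nat_lit 156) (nat_lit 228) (nat_lit 0) (XT.nd (nat_lit 78) (nat_lit 152) (nat_lit 0) (XT.lf (nat_lit 0) (nat_lit 41137283043) (nat_lit 76) (nat_lit 42258438654) (nat_lit 76) (nat_lit 28158202076) (nat_lit 188) (nat_lit 4) (nat_lit 189)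 (nat_lit 5) (nat_lit 189) (nat_lit 4) (nat_lit 335) (nat_lit 306) (nat_lit 259)) (XT.lf (nat_lit 0) (nat_lit 3541448322) (nat_lit 76) (nat_lit 4665188759) (nat_lit 152) (nat_lit 114349387467) (nat_lit 186) (nat_lit 5) (nat_lit 187) (nat_lit 5) (nat_lit 188) (nat_lit 4) (nat_lit 336) (nat_lit 306) (nat_lit 258))) (XT.nd (nat_lit 78) (nat_lit 228) (nat_lit 0) (XT.lf (nat_lit 0) (nat_lit 52581030485) (nat_lit 152) (nat_lit 41294873123) (nat_lit 0) (nat_lit 40315753027) (nat_lit 186) (nat_lit 5) (nat_lit 188) (nat_lit 4) (nat_lit 186) (nat_lit 4) (nat_lit 337) (nat_lit 306) (nat_lit 257)) (XT.nd (nat_lit 78) (nat_lit 152) (nat_lit 0) (XT.lf (nat_lit 0) (nat_lit 52506844159) (nat_lit 76) (nat_lit 53487663820) (nat_lit 76) (nat_lit 41220686797) (nat_lit 185) (nat_lit 4) (nat_lit 186) (nat_lit 5) (nat_lit 186) (nat_lit 4) (nat_lit 338) (nat_lit 306) (nat_lit 256)) (XT.lf (nat_lit 0) (nat_lit 3077731874)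 (nat_lit 76) (nat_lit 4060029418) (nat_lit 152) (nat_lit 154665717731) (nat_lit 183) (nat_lit 5) (nat_lit 184) (nat_lit 5) (nat_lit 185) (nat_lit 4) (nat_lit 339) (nat_lit 306) (nat_lit 255))))))))
noncomputable def xc55 : XT := (XT.nd (nat_lit 1560) (nat_lit 1520) (nat_lit 0) (XT.nd (nat_lit 780) (nat_lit 760) (nat_lit 0) (XT.nd (nat_lit 390) (nat_lit 380) (nat_lit 0) (XT.nd (nat_lit 156) (nat_lit 228) (nat_lit 0) (XT.nd (nat_lit 78) (nat_lit 76) (nat_lit 0) (XT.lf (nat_lit 0) (nat_lit 65888389198) (nat_lit 152) (nat_lit 56074339318) (nat_lit 0) (nat_lit 55219050050) (nat_lit 183) (nat_lit 5) (nat_lit 185) (nat_lit 4) (nat_lit 183) (nat_lit 4) (nat_lit 340) (nat_lit 306) (nat_lit 254)) (XT.lf (nat_lit 0) (nat_lit 67792095292) (nat_lit 76) (nat_lit 68648356292) (nat_lit 76) (nat_lit 57978045412) (nat_lit 182) (nat_lit 4) (nat_lit 183) (nat_lit 5) (nat_lit 183) (nat_lit 4) (nat_lit 341) (nat_lit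 306) (nat_lit 253))) (XT.nd (nat_lit 78) (nat_lit 76) (nat_lit 0) (XT.lf (nat_lit 0) (nat_lit 2675266059) (nat_lit 76) (nat_lit 3532372044) (nat_lit 152) (nat_lit 207536887215) (nat_lit 180) (nat_lit 5) (nat_lit 181) (nat_lit 5) (nat_lit 182) (nat_lit 4) (nat_lit 342) (nat_lit 306) (nat_lit 252)) (XT.nd (nat_lit 78) (nat_lit 76) (nat_lit 0) (XT.lf (nat_lit 0) (nat_lit 83962536288) (nat_lit 152) (nat_lit 75428579870) (nat_lit 0) (nat_lit 74682631389) (nat_lit 180) (nat_lit 5) (nat_lit 182) (nat_lit 4) (nat_lit 180) (nat_lit 4) (nat_lit 343) (nat_lit 306) (nat_lit 251)) (XT.lf (nat_lit 0) (nat_lit 88222706128) (nat_lit 76) (nat_lit 88969210200) (nat_lit 76) (nat_lit 79688749711) (nat_lit 179) (nat_lit 4) (nat_lit 180) (nat_lit 5) (nat_lit 180) (nat_lit 4) (nat_lit 344) (nat_lit 306) (nat_lit 250))))) (XT.nd (nat_lit 156) (nat_lit 228) (nat_lit 0) (XT.nd (nat_lit 78) (nat_lit 0) (nat_lit 0) (XT.lf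 (nat_lit 0) (nat_lit 2325733679) (nat_lit 76) (nat_lit 3072720874) (nat_lit 152) (nat_lit 277069584057) (nat_lit 177) (nat_lit 5) (nat_lit 178) (nat_lit 5) (nat_lit 179) (nat_lit 4) (nat_lit 345) (nat_lit 306) (nat_lit 249)) (XT.lf (nat_lit 0) (nat_lit 108279178998) (nat_lit 152) (nat_lit 100858347331) (nat_lit 0) (nat_lit 100208427939) (nat_lit 177) (nat_lit 5) (nat_lit 179) (nat_lit 4) (nat_lit 177) (nat_lit 4) (nat_lit 346) (nat_lit 306) (nat_lit 248))) (XT.nd (nat_lit 78) (nat_lit 152) (nat_lit 0) (XT.lf (nat_lit 0) (nat_lit 115429520650) (nat_lit 76) (nat_lit 116079757703) (nat_lit 76) (nat_lit 108008688983) (nat_lit 176) (nat_lit 4) (nat_lit 177) (nat_lit 5) (nat_lit 177) (nat_lit 4) (nat_lit 347) (nat_lit 306) (nat_lit 247)) (XT.nd (nat_lit 78) (nat_lit 0) (nat_lit 0) (XT.lf (nat_lit 0) (nat_lit 2022042847) (nat_lit 76) (nat_lit 2672556126) (nat_lit 152) (nat_lit 368687616623) (nat_lit 174)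 (nat_lit 5) (nat_lit 175) (nat_lit 5) (nat_lit 176) (nat_lit 4) (nat_lit 348) (nat_lit 306) (nat_lit 246)) (XT.lf (nat_lit 0) (nat_lit 140797802985) (nat_lit 152) (nat_lit 134344905883) (nat_lit 0) (nat_lit 133779033294) (nat_lit 174) (nat_lit 5) (nat_lit 176) (nat_lit 4) (nat_lit 174) (nat_lit 4) (nat_lit 349) (nat_lit 306) (nat_lit 245)))))) (XT.nd (nat_lit 390) (nat_lit 304) (nat_lit 0) (XT.nd (nat_lit 156) (nat_lit 228) (nat_lit 0) (XT.nd (nat_lit 78) (nat_lit 152) (nat_lit 0) (XT.lf (nat_lit 0) (nat_lit 151573213822) (nat_lit 76) (nat_lit 152139268034) (nat_lit 76) (nat_lit 145120316720) (nat_lit 173) (nat_lit 4) (nat_lit 174) (nat_lit 5) (nat_lit 174) (nat_lit 4) (nat_lit 350) (nat_lit 306) (nat_lit 244)) (XT.lf (nat_lit 0) (nat_lit 1758107010) (nat_lit 76) (nat_lit 2324319156) (nat_lit 152) (nat_lit 489557529765) (nat_lit 171) (nat_lit 5) (nat_lit 172) (nat_lit 5) (nat_lit 173) (nat_lit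 4) (nat_lit 351) (nat_lit 306) (nat_lit 243))) (XT.nd (nat_lit 78) (nat_lit 228) (nat_lit 0) (XT.lf (nat_lit 0) (nat_lit 184116737900) (nat_lit 152) (nat_lit 178505523029) (nat_lit 0) (nat_lit 178013045221) (nat_lit 171) (nat_lit 5) (nat_lit 173) (nat_lit 4) (nat_lit 171) (nat_lit 4) (nat_lit 352) (nat_lit 306) (nat_lit 242)) (XT.nd (nat_lit 78) (nat_lit 152) (nat_lit 0) (XT.lf (nat_lit 0) (nat_lit 199514586162) (nat_lit 76) (nat_lit 200007167814) (nat_lit 76) (nat_lit 193903371291) (nat_lit 170) (nat_lit 4) (nat_lit 171) (nat_lit 5) (nat_lit 171) (nat_lit 4) (nat_lit 353) (nat_lit 306) (nat_lit 241)) (XT.lf (nat_lit 0) (nat_lit 1528679432) (nat_lit 76) (nat_lit 2021351383) (nat_lit 152) (nat_lit 649151417274) (nat_lit 168) (nat_lit 5) (nat_lit 169) (nat_lit 5) (nat_lit 170) (nat_lit 4) (nat_lit 354) (nat_lit 306) (nat_lit 240))))) (XT.nd (nat_lit 156) (nat_lit 228) (nat_lit 0) (XT.nd (nat_lit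 78) (nat_lit 76) (nat_lit 0) (XT.lf (nat_lit 0) (nat_lit 241678324825) (nat_lit 152) (nat_lit 236799007545) (nat_lit 0) (nat_lit 236370528874) (nat_lit 168) (nat_lit 5) (nat_lit 170) (nat_lit 4) (nat_lit 168) (nat_lit 4) (nat_lit 355) (nat_lit 306) (nat_lit 239)) (XT.lf (nat_lit 0) (nat_lit 263039883134) (nat_lit 76) (nat_lit 263468421178) (nat_lit 76) (nat_lit 258160565854) (nat_lit 167) (nat_lit 4) (nat_lit 168) (nat_lit 5) (nat_lit 168) (nat_lit 4) (nat_lit 356) (nat_lit 306) (nat_lit 238))) (XT.nd (nat_lit 78) (nat_lit 76) (nat_lit 0) (XT.lf (nat_lit 0) (nat_lit 1329223986) (nat_lit 76) (nat_lit 1757813659) (nat_lit 152) (nat_lit 859991165433) (nat_lit 165) (nat_lit 5) (nat_lit 166) (nat_lit 5) (nat_lit 167) (nat_lit 4) (nat_lit 357) (nat_lit 306) (nat_lit 237)) (XT.nd (nat_lit 78) (nat_lit 76) (nat_lit 0) (XT.lf (nat_lit 0) (nat_lit 318040344552) (nat_lit 152) (nat_lit 313797459961) (nat_lit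 0) (nat_lit 313424734250) (nat_lit 165) (nat_lit 5) (nat_lit 167) (nat_lit 4) (nat_lit 165) (nat_lit 4) (nat_lit 358) (nat_lit 306) (nat_lit 236)) (XT.lf (nat_lit 0) (nat_lit 347158858458) (nat_lit 76) (nat_lit 347531618116) (nat_lit 76) (nat_lit 342915973867) (nat_lit 164) (nat_lit 4) (nat_lit 165) (nat_lit 5) (nat_lit 165) (nat_lit 4) (nat_lit 359) (nat_lit 306) (nat_lit 235))))))) (XT.nd (nat_lit 780) (nat_lit 684) (nat_lit 0) (XT.nd (nat_lit 390) (nat_lit 456) (nat_lit 0) (XT.nd (nat_lit 156) (nat_lit 228) (nat_lit 0) (XT.nd (nat_lit 78) (nat_lit 0) (nat_lit 0) (XT.lf (nat_lit 0) (nat_lit 1155811223) (nat_lit 76) (nat_lit 1528600400) (nat_lit 152) (nat_lit 1138632638049) (nat_lit 162) (nat_lit 5) (nat_lit 163) (nat_lit 5) (nat_lit 164) (nat_lit 4) (nat_lit 360) (nat_lit 306) (nat_lit 234)) (XT.lf (nat_lit 0) (nat_lit 419235071163) (nat_lit 152) (nat_lit 415545606301) (nat_lit 0) (nat_lit 415221419479)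 (nat_lit 162) (nat_lit 5) (nat_lit 164) (nat_lit 4) (nat_lit 162) (nat_lit 4) (nat_lit 361) (nat_lit 306) (nat_lit 233))) (XT.nd (nat_lit 78) (nat_lit 152) (nat_lit 0) (XT.lf (nat_lit 0) (nat_lit 458499023771) (nat_lit 76) (nat_lit 458823230002) (nat_lit 76) (nat_lit 454809558909) (nat_lit 161) (nat_lit 4) (nat_lit 162) (nat_lit 5) (nat_lit 162) (nat_lit 4) (nat_lit 362) (nat_lit 306) (nat_lit 232)) (XT.nd (nat_lit 78) (nat_lit 0) (nat_lit 0) (XT.lf (nat_lit 0) (nat_lit 1005032814) (nat_lit 76) (nat_lit 1329255922) (nat_lit 152) (nat_lit 1506967187823) (nat_lit 159) (nat_lit 5) (nat_lit 160) (nat_lit 5) (nat_lit 161) (nat_lit 4) (nat_lit 363) (nat_lit 306) (nat_lit 231)) (XT.lf (nat_lit 0) (nat_lit 553244202698) (nat_lit 152) (nat_lit 550035972384) (nat_lit 0) (nat_lit 549754026484) (nat_lit 159) (nat_lit 5) (nat_lit 161) (nat_lit 4) (nat_lit 159) (nat_lit 4) (nat_lit 364) (nat_lit 306) (nat_lit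 230))))) (XT.nd (nat_lit 156) (nat_lit 228) (nat_lit 0) (XT.nd (nat_lit 78) (nat_lit 152) (nat_lit 0) (XT.lf (nat_lit 0) (nat_lit 605827092623) (nat_lit 76) (nat_lit 606109049620) (nat_lit 76) (nat_lit 602618862309) (nat_lit 158) (nat_lit 4) (nat_lit 159) (nat_lit 5) (nat_lit 159) (nat_lit 4) (nat_lit 365) (nat_lit 306) (nat_lit 229)) (XT.lf (nat_lit 0) (nat_lit 873929900) (nat_lit 76) (nat_lit 1155896547) (nat_lit 152) (nat_lit 1993942837754) (nat_lit 156) (nat_lit 5) (nat_lit 157) (nat_lit 5) (nat_lit 158) (nat_lit 4) (nat_lit 366) (nat_lit 306) (nat_lit 228))) (XT.nd (nat_lit 78) (nat_lit 228) (nat_lit 0) (XT.lf (nat_lit 0) (nat_lit 730627031060) (nat_lit 152) (nat_lit 727837265569) (nat_lit 0) (nat_lit 727592069884) (nat_lit 156) (nat_lit 5) (nat_lit 158) (nat_lit 4) (nat_lit 156) (nat_lit 4) (nat_lit 367) (nat_lit 306) (nat_lit 227)) (XT.nd (nat_lit 78) (nat_lit 152) (nat_lit 0) (XT.lf (nat_lit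 0) (nat_lit 800738630237) (nat_lit 76) (nat_lit 800983832267) (nat_lit 76) (nat_lit 797948864746) (nat_lit 155) (nat_lit 4) (nat_lit 156) (nat_lit 5) (nat_lit 156) (nat_lit 4) (nat_lit 368) (nat_lit 306) (nat_lit 226)) (XT.lf (nat_lit 0) (nat_lit 759932367) (nat_lit 76) (nat_lit 1005139914) (nat_lit 152) (nat_lit 2637840482877) (nat_lit 153) (nat_lit 5) (nat_lit 154) (nat_lit 5) (nat_lit 155) (nat_lit 4) (nat_lit 369) (nat_lit 306) (nat_lit 225)))))) (XT.nd (nat_lit 390) (nat_lit 380) (nat_lit 0) (XT.nd (nat_lit 156) (nat_lit 228) (nat_lit 0) (XT.nd (nat_lit 78) (nat_lit 76) (nat_lit 0) (XT.lf (nat_lit 0) (nat_lit 965351262530) (nat_lit 152) (nat_lit 962925379495) (nat_lit 0) (nat_lit 962712151369) (nat_lit 153) (nat_lit 5) (nat_lit 155) (nat_lit 4) (nat_lit 153) (nat_lit 4) (nat_lit 370) (nat_lit 306) (nat_lit 224)) (XT.lf (nat_lit 0) (nat_lit 1058570148812) (nat_lit 76) (nat_lit 1058783380566)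 (nat_lit 76) (nat_lit 1056144265777) (nat_lit 152) (nat_lit 4) (nat_lit 153) (nat_lit 5) (nat_lit 153) (nat_lit 4) (nat_lit 371) (nat_lit 306) (nat_lit 223))) (XT.nd (nat_lit 78) (nat_lit 76) (nat_lit 0) (XT.lf (nat_lit 0) (nat_lit 660806936) (nat_lit 76) (nat_lit 874041844) (nat_lit 152) (nat_lit 3489284113137) (nat_lit 150) (nat_lit 5) (nat_lit 151) (nat_lit 5) (nat_lit 152) (nat_lit 4) (nat_lit 372) (nat_lit 306) (nat_lit 222)) (XT.nd (nat_lit 78) (nat_lit 76) (nat_lit 0) (XT.lf (nat_lit 0) (nat_lit 1275891835986) (nat_lit 152) (nat_lit 1273782372477) (nat_lit 0) (nat_lit 1273596948432) (nat_lit 150) (nat_lit 5) (nat_lit 152) (nat_lit 4) (nat_lit 150) (nat_lit 4) (nat_lit 373) (nat_lit 306) (nat_lit 221)) (XT.lf (nat_lit 0) (nat_lit 1399605381903) (nat_lit 76) (nat_lit 1399790808022) (nat_lit 76) (nat_lit 1397495918394) (nat_lit 149) (nat_lit 4) (nat_lit 150) (nat_lit 5) (nat_lit 150) (nat_lit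 4) (nat_lit 374) (nat_lit 306) (nat_lit 220))))) (XT.nd (nat_lit 156) (nat_lit 228) (nat_lit 0) (XT.nd (nat_lit 78) (nat_lit 0) (nat_lit 0) (XT.lf (nat_lit 0) (nat_lit 574612544) (nat_lit 76) (nat_lit 760040467) (nat_lit 152) (nat_lit 4615221785560) (nat_lit 147) (nat_lit 5) (nat_lit 148) (nat_lit 5) (nat_lit 149) (nat_lit 4) (nat_lit 375) (nat_lit 306) (nat_lit 219)) (XT.lf (nat_lit 0) (nat_lit 1686684160934) (nat_lit 152) (nat_lit 1684849844839) (nat_lit 0) (nat_lit 1684688601804) (nat_lit 147) (nat_lit 5) (nat_lit 149) (nat_lit 4) (nat_lit 147) (nat_lit 4) (nat_lit 376) (nat_lit 306) (nat_lit 218))) (XT.nd (nat_lit 78) (nat_lit 152) (nat_lit 0) (XT.lf (nat_lit 0) (nat_lit 1850670606494) (nat_lit 76) (nat_lit 1850831850715) (nat_lit 76) (nat_lit 1848836290399) (nat_lit 146) (nat_lit 4) (nat_lit 147) (nat_lit 5) (nat_lit 147) (nat_lit 4) (nat_lit 377) (nat_lit 306) (nat_lit 217)) (XT.nd (nat_lit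 78) (nat_lit 0) (nat_lit 0) (XT.lf (nat_lit 0) (nat_lit 499661834) (nat_lit 76) (nat_lit 660907087) (nat_lit 152) (nat_lit 6104190418205) (nat_lit 144) (nat_lit 5) (nat_lit 145) (nat_lit 5) (nat_lit 146) (nat_lit 4) (nat_lit 378) (nat_lit 306) (nat_lit 216)) (XT.lf (nat_lit 0) (nat_lit 2230046069396) (nat_lit 152) (nat_lit 2228451011922) (nat_lit 0) (nat_lit 2228310797879) (nat_lit 144) (nat_lit 5) (nat_lit 146) (nat_lit 4) (nat_lit 144) (nat_lit 4) (nat_lit 379) (nat_lit 306) (nat_lit 215))))))))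
noncomputable def xc56 : XT := (XT.nd (nat_lit 42510) (nat_lit 0) (nat_lit 2964) (XT.nd (nat_lit 41730) (nat_lit 0) (nat_lit 4560) (XT.nd (nat_lit 41340) (nat_lit 0) (nat_lit 5472) (XT.nd (nat_lit 156) (nat_lit 0) (nat_lit 0) (XT.nd (nat_lit 78) (nat_lit 152) (nat_lit 0) (XT.lf (nat_lit 0) (nat_lit 2447244477233) (nat_lit 76) (nat_lit 2447384691954) (nat_lit 76) (nat_lit 2445649419759) (nat_lit 143) (nat_lit 4) (nat_lit 144) (nat_lit 5) (nat_lit 144) (nat_lit 4) (nat_lit 380) (nat_lit 306) (nat_lit 214)) (XT.lf (nat_lit 0) (nat_lit 434487838) (nat_lit 76) (nat_lit 574703148) (nat_lit 152) (nat_lit 8073278443622) (nat_lit 141) (nat_lit 5) (nat_lit 142) (nat_lit 5) (nat_lit 143) (nat_lit 4) (nat_lit 381) (nat_lit 306) (nat_lit 213))) (XT.nd (nat_lit 41028) (nat_lit 0) (nat_lit 5624) (XT.lf (nat_lit 0) (nat_lit 2948719636184) (nat_lit 152) (nat_lit 2947332629685) (nat_lit 0) (nat_lit 2947210702882)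 (nat_lit 141) (nat_lit 5) (nat_lit 143) (nat_lit 4) (nat_lit 141) (nat_lit 4) (nat_lit 382) (nat_lit 306) (nat_lit 212)) (XT.nd (nat_lit 78) (nat_lit 0) (nat_lit 0) (XT.lf (nat_lit 0) (nat_lit 378911527) (nat_lit 380) (nat_lit 2599097613) (nat_lit 380) (nat_lit 2599097613) (nat_lit 215) (nat_lit 3) (nat_lit 220) (nat_lit 3) (nat_lit 220) (nat_lit 5) (nat_lit 307) (nat_lit 307) (nat_lit 286)) (XT.lf (nat_lit 76) (nat_lit 415941518) (nat_lit 0) (nat_lit 939480712) (nat_lit 380) (nat_lit 10554242924) (nat_lit 216) (nat_lit 5) (nat_lit 215) (nat_lit 3) (nat_lit 220) (nat_lit 5) (nat_lit 308) (nat_lit 307) (nat_lit 285))))) (XT.nd (nat_lit 156) (nat_lit 228) (nat_lit 0) (XT.nd (nat_lit 78) (nat_lit 0) (nat_lit 0) (XT.lf (nat_lit 0) (nat_lit 2433175125) (nat_lit 304) (nat_lit 5568902332) (nat_lit 380) (nat_lit 4717780013) (nat_lit 216) (nat_lit 5) (nat_lit 220) (nat_lit 5) (nat_lit 221) (nat_lit 5) (nat_lit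 309) (nat_lit 307) (nat_lit 284)) (XT.lf (nat_lit 76) (nat_lit 1245853087) (nat_lit 0) (nat_lit 2441210924) (nat_lit 380) (nat_lit 9962343664) (nat_lit 217) (nat_lit 5) (nat_lit 216) (nat_lit 5) (nat_lit 221) (nat_lit 5) (nat_lit 310) (nat_lit 307) (nat_lit 283))) (XT.nd (nat_lit 78) (nat_lit 304) (nat_lit 0) (XT.lf (nat_lit 0) (nat_lit 5524459788) (nat_lit 304) (nat_lit 5217175097) (nat_lit 76) (nat_lit 3917441992) (nat_lit 217) (nat_lit 5) (nat_lit 221) (nat_lit 5) (nat_lit 218) (nat_lit 5) (nat_lit 311) (nat_lit 307) (nat_lit 282)) (XT.nd (nat_lit 78) (nat_lit 0) (nat_lit 0) (XT.lf (nat_lit 0) (nat_lit 3147126366) (nat_lit 304) (nat_lit 4673199912) (nat_lit 380) (nat_lit 7972440981) (nat_lit 213) (nat_lit 5) (nat_lit 217) (nat_lit 5) (nat_lit 218) (nat_lit 5) (nat_lit 312) (nat_lit 307) (nat_lit 281)) (XT.lf (nat_lit 0) (nat_lit 10783689325) (nat_lit 380) (nat_lit 3881260375) (nat_lit 76) (nat_lit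 2383094009) (nat_lit 213) (nat_lit 5) (nat_lit 218) (nat_lit 5) (nat_lit 214) (nat_lit 5) (nat_lit 313) (nat_lit 307) (nat_lit 280)))))) (XT.nd (nat_lit 390) (nat_lit 380) (nat_lit 0) (XT.nd (nat_lit 156) (nat_lit 380) (nat_lit 0) (XT.nd (nat_lit 78) (nat_lit 0) (nat_lit 0) (XT.lf (nat_lit 0) (nat_lit 6492735938) (nat_lit 152) (nat_lit 8139724818) (nat_lit 228) (nat_lit 3793015283) (nat_lit 211) (nat_lit 5) (nat_lit 213) (nat_lit 5) (nat_lit 214) (nat_lit 5) (nat_lit 314) (nat_lit 307) (nat_lit 279)) (XT.lf (nat_lit 0) (nat_lit 18801247881) (nat_lit 152) (nat_lit 413895915) (nat_lit 228) (nat_lit 770890037) (nat_lit 211) (nat_lit 5) (nat_lit 213) (nat_lit 5) (nat_lit 214) (nat_lit 5) (nat_lit 315) (nat_lit 307) (nat_lit 278))) (XT.nd (nat_lit 78) (nat_lit 152) (nat_lit 0) (XT.lf (nat_lit 0) (nat_lit 3301432560) (nat_lit 228) (nat_lit 9989672215) (nat_lit 76) (nat_lit 8347123551) (nat_lit 208) (nat_lit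 5) (nat_lit 211) (nat_lit 5) (nat_lit 209) (nat_lit 5) (nat_lit 316) (nat_lit 307) (nat_lit 277)) (XT.nd (nat_lit 78) (nat_lit 0) (nat_lit 0) (XT.lf (nat_lit 0) (nat_lit 3177421800) (nat_lit 152) (nat_lit 4905060220) (nat_lit 228) (nat_lit 15423743175) (nat_lit 206) (nat_lit 5) (nat_lit 208) (nat_lit 5) (nat_lit 209) (nat_lit 5) (nat_lit 317) (nat_lit 307) (nat_lit 276)) (XT.lf (nat_lit 0) (nat_lit 14286736325) (nat_lit 228) (nat_lit 6414206256) (nat_lit 76) (nat_lit 4847571899) (nat_lit 206) (nat_lit 5) (nat_lit 209) (nat_lit 5) (nat_lit 207) (nat_lit 4) (nat_lit 318) (nat_lit 307) (nat_lit 275))))) (XT.nd (nat_lit 156) (nat_lit 228) (nat_lit 0) (XT.nd (nat_lit 78) (nat_lit 76) (nat_lit 0) (XT.lf (nat_lit 0) (nat_lit 10211541032) (nat_lit 76) (nat_lit 11834123285) (nat_lit 152) (nat_lit 5757877510) (nat_lit 205) (nat_lit 5) (nat_lit 206) (nat_lit 5) (nat_lit 207) (nat_lit 4) (nat_lit 319) (nat_lit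 307) (nat_lit 274)) (XT.lf (nat_lit 0) (nat_lit 840344105) (nat_lit 152) (nat_lit 386459763) (nat_lit 76) (nat_lit 29118525388) (nat_lit 204) (nat_lit 5) (nat_lit 206) (nat_lit 5) (nat_lit 205) (nat_lit 5) (nat_lit 320) (nat_lit 307) (nat_lit 273))) (XT.nd (nat_lit 78) (nat_lit 76) (nat_lit 0) (XT.lf (nat_lit 0) (nat_lit 9186503306) (nat_lit 228) (nat_lit 12664315492) (nat_lit 76) (nat_lit 11174283106) (nat_lit 202) (nat_lit 5) (nat_lit 205) (nat_lit 5) (nat_lit 203) (nat_lit 4) (nat_lit 321) (nat_lit 307) (nat_lit 272)) (XT.nd (nat_lit 78) (nat_lit 0) (nat_lit 0) (XT.lf (nat_lit 0) (nat_lit 8840891310) (nat_lit 76) (nat_lit 10362912086) (nat_lit 152) (nat_lit 16840154502) (nat_lit 201) (nat_lit 5) (nat_lit 202) (nat_lit 5) (nat_lit 203) (nat_lit 4) (nat_lit 322) (nat_lit 307) (nat_lit 271)) (XT.lf (nat_lit 0) (nat_lit 31509508303) (nat_lit 152) (nat_lit 4617973332) (nat_lit 0) (nat_lit 3270289186)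 (nat_lit 201) (nat_lit 5) (nat_lit 203) (nat_lit 4) (nat_lit 201) (nat_lit 4) (nat_lit 323) (nat_lit 307) (nat_lit 270))))))) (XT.nd (nat_lit 780) (nat_lit 836) (nat_lit 0) (XT.nd (nat_lit 390) (nat_lit 304) (nat_lit 0) (XT.nd (nat_lit 156) (nat_lit 228) (nat_lit 0) (XT.nd (nat_lit 78) (nat_lit 76) (nat_lit 0) (XT.lf (nat_lit 0) (nat_lit 3677222635) (nat_lit 152) (nat_lit 20354223337) (nat_lit 76) (nat_lit 18985506305) (nat_lit 199) (nat_lit 5) (nat_lit 201) (nat_lit 5) (nat_lit 200) (nat_lit 4) (nat_lit 324) (nat_lit 307) (nat_lit 269)) (XT.lf (nat_lit 0) (nat_lit 7665599241) (nat_lit 76) (nat_lit 9052605740) (nat_lit 152) (nat_lit 30322218901) (nat_lit 198) (nat_lit 5) (nat_lit 199) (nat_lit 5) (nat_lit 200) (nat_lit 4) (nat_lit 325) (nat_lit 307) (nat_lit 268))) (XT.nd (nat_lit 78) (nat_lit 228) (nat_lit 0) (XT.lf (nat_lit 0) (nat_lit 33146833462) (nat_lit 152) (nat_lit 9762890010) (nat_lit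 0) (nat_lit 8542967938) (nat_lit 198) (nat_lit 5) (nat_lit 200) (nat_lit 4) (nat_lit 198) (nat_lit 4) (nat_lit 326) (nat_lit 307) (nat_lit 267)) (XT.nd (nat_lit 78) (nat_lit 152) (nat_lit 0) (XT.lf (nat_lit 0) (nat_lit 26151504881) (nat_lit 76) (nat_lit 27383452573) (nat_lit 76) (nat_lit 2767561428) (nat_lit 197) (nat_lit 4) (nat_lit 198) (nat_lit 5) (nat_lit 198) (nat_lit 4) (nat_lit 327) (nat_lit 307) (nat_lit 266)) (XT.lf (nat_lit 0) (nat_lit 6653084237) (nat_lit 76) (nat_lit 7895488992) (nat_lit 152) (nat_lit 47118719465) (nat_lit 195) (nat_lit 5) (nat_lit 196) (nat_lit 5) (nat_lit 197) (nat_lit 4) (nat_lit 328) (nat_lit 307) (nat_lit 265))))) (XT.nd (nat_lit 156) (nat_lit 228) (nat_lit 0) (XT.nd (nat_lit 78) (nat_lit 76) (nat_lit 0) (XT.lf (nat_lit 0) (nat_lit 36412640764) (nat_lit 152) (nat_lit 16078776892) (nat_lit 0) (nat_lit 14990517890) (nat_lit 195) (nat_lit 5) (nat_lit 197) (nat_lit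 4) (nat_lit 195) (nat_lit 4) (nat_lit 329) (nat_lit 307) (nat_lit 264)) (XT.lf (nat_lit 0) (nat_lit 31053539869) (nat_lit 76) (nat_lit 32148674558) (nat_lit 76) (nat_lit 10719675997) (nat_lit 194) (nat_lit 4) (nat_lit 195) (nat_lit 5) (nat_lit 195) (nat_lit 4) (nat_lit 330) (nat_lit 307) (nat_lit 263))) (XT.nd (nat_lit 78) (nat_lit 76) (nat_lit 0) (XT.lf (nat_lit 0) (nat_lit 5778055542) (nat_lit 76) (nat_lit 6879169091) (nat_lit 152) (nat_lit 68426254417) (nat_lit 192) (nat_lit 5) (nat_lit 193) (nat_lit 5) (nat_lit 194) (nat_lit 4) (nat_lit 331) (nat_lit 307) (nat_lit 262)) (XT.nd (nat_lit 78) (nat_lit 76) (nat_lit 0) (XT.lf (nat_lit 0) (nat_lit 41693480872) (nat_lit 152) (nat_lit 24011860114) (nat_lit 0) (nat_lit 23049849196) (nat_lit 192) (nat_lit 5) (nat_lit 194) (nat_lit 4) (nat_lit 192) (nat_lit 4) (nat_lit 332) (nat_lit 307) (nat_lit 261)) (XT.lf (nat_lit 0) (nat_lit 38003400497) (nat_lit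 76) (nat_lit 38969342612) (nat_lit 76) (nat_lit 20321779739) (nat_lit 191) (nat_lit 4) (nat_lit 192) (nat_lit 5) (nat_lit 192) (nat_lit 4) (nat_lit 333) (nat_lit 307) (nat_lit 260)))))) (XT.nd (nat_lit 390) (nat_lit 456) (nat_lit 0) (XT.nd (nat_lit 156) (nat_lit 228) (nat_lit 0) (XT.nd (nat_lit 78) (nat_lit 0) (nat_lit 0) (XT.lf (nat_lit 0) (nat_lit 5020259433) (nat_lit 76) (nat_lit 5989619980) (nat_lit 152) (nat_lit 95813716605) (nat_lit 189) (nat_lit 5) (nat_lit 190) (nat_lit 5) (nat_lit 191) (nat_lit 4) (nat_lit 334) (nat_lit 307) (nat_lit 259)) (XT.lf (nat_lit 0) (nat_lit 49516550816) (nat_lit 152) (nat_lit 34141228418) (nat_lit 0) (nat_lit 33295721377) (nat_lit 189) (nat_lit 5) (nat_lit 191) (nat_lit 4) (nat_lit 189) (nat_lit 4) (nat_lit 335) (nat_lit 307) (nat_lit 258))) (XT.nd (nat_lit 78) (nat_lit 152) (nat_lit 0) (XT.lf (nat_lit 0) (nat_lit 47597932972) (nat_lit 76) (nat_lit 48445687687)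 (nat_lit 76) (nat_lit 32222610574) (nat_lit 188) (nat_lit 4) (nat_lit 189) (nat_lit 5) (nat_lit 189) (nat_lit 4) (nat_lit 336) (nat_lit 307) (nat_lit 257)) (XT.nd (nat_lit 78) (nat_lit 0) (nat_lit 0) (XT.lf (nat_lit 0) (nat_lit 4363077818) (nat_lit 76) (nat_lit 5212787033) (nat_lit 152) (nat_lit 131342828548) (nat_lit 186) (nat_lit 5) (nat_lit 187) (nat_lit 5) (nat_lit 188) (nat_lit 4) (nat_lit 337) (nat_lit 307) (nat_lit 256)) (XT.lf (nat_lit 0) (nat_lit 60593866501) (nat_lit 152) (nat_lit 47224020937) (nat_lit 0) (nat_lit 46483665477) (nat_lit 186) (nat_lit 5) (nat_lit 188) (nat_lit 4) (nat_lit 186) (nat_lit 4) (nat_lit 338) (nat_lit 307) (nat_lit 255))))) (XT.nd (nat_lit 156) (nat_lit 228) (nat_lit 0) (XT.nd (nat_lit 78) (nat_lit 152) (nat_lit 0) (XT.lf (nat_lit 0) (nat_lit 60635904703) (nat_lit 76) (nat_lit 61377545279) (nat_lit 76) (nat_lit 47266059139) (nat_lit 185) (nat_lit 4) (nat_lit 186)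 (nat_lit 5) (nat_lit 186) (nat_lit 4) (nat_lit 339) (nat_lit 307) (nat_lit 254)) (XT.lf (nat_lit 0) (nat_lit 3792628420) (nat_lit 76) (nat_lit 4535386487) (nat_lit 152) (nat_lit 177728047558) (nat_lit 183) (nat_lit 5) (nat_lit 184) (nat_lit 5) (nat_lit 185) (nat_lit 4) (nat_lit 340) (nat_lit 307) (nat_lit 253))) (XT.nd (nat_lit 78) (nat_lit 228) (nat_lit 0) (XT.lf (nat_lit 0) (nat_lit 75880450597) (nat_lit 152) (nat_lit 64254497933) (nat_lit 0) (nat_lit 63607776369) (nat_lit 183) (nat_lit 5) (nat_lit 185) (nat_lit 4) (nat_lit 183) (nat_lit 4) (nat_lit 341) (nat_lit 307) (nat_lit 252)) (XT.nd (nat_lit 78) (nat_lit 152) (nat_lit 0) (XT.lf (nat_lit 0) (nat_lit 78181402220) (nat_lit 76) (nat_lit 78828858553) (nat_lit 76) (nat_lit 66555449555) (nat_lit 182) (nat_lit 4) (nat_lit 183) (nat_lit 5) (nat_lit 183) (nat_lit 4) (nat_lit 342) (nat_lit 307) (nat_lit 251)) (XT.lf (nat_lit 0) (nat_lit 3297164579)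 (nat_lit 76) (nat_lit 3945259841) (nat_lit 152) (nat_lit 238548233606) (nat_lit 180) (nat_lit 5) (nat_lit 181) (nat_lit 5) (nat_lit 182) (nat_lit 4) (nat_lit 343) (nat_lit 307) (nat_lit 250))))))))
noncomputable def xc57 : XT := (XT.nd (nat_lit 1560) (nat_lit 1520) (nat_lit 0) (XT.nd (nat_lit 780) (nat_lit 760) (nat_lit 0) (XT.nd (nat_lit 390) (nat_lit 380) (nat_lit 0) (XT.nd (nat_lit 156) (nat_lit 228) (nat_lit 0) (XT.nd (nat_lit 78) (nat_lit 76) (nat_lit 0) (XT.lf (nat_lit 0) (nat_lit 96651250641) (nat_lit 152) (nat_lit 86541726586) (nat_lit 0) (nat_lit 85977682365) (nat_lit 180) (nat_lit 5) (nat_lit 182) (nat_lit 4) (nat_lit 180) (nat_lit 4) (nat_lit 344) (nat_lit 307) (nat_lit 249)) (XT.lf (nat_lit 0) (nat_lit 101648109573) (nat_lit 76) (nat_lit 102212573900) (nat_lit 76) (nat_lit 91538585518) (nat_lit 179) (nat_lit 4) (nat_lit 180) (nat_lit 5) (nat_lit 180) (nat_lit 4) (nat_lit 345) (nat_lit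 307) (nat_lit 248))) (XT.nd (nat_lit 78) (nat_lit 76) (nat_lit 0) (XT.lf (nat_lit 0) (nat_lit 2866657567) (nat_lit 76) (nat_lit 3431487204) (nat_lit 152) (nat_lit 318526611326) (nat_lit 177) (nat_lit 5) (nat_lit 178) (nat_lit 5) (nat_lit 179) (nat_lit 4) (nat_lit 346) (nat_lit 307) (nat_lit 247)) (XT.nd (nat_lit 78) (nat_lit 76) (nat_lit 0) (XT.lf (nat_lit 0) (nat_lit 124602926725) (nat_lit 152) (nat_lit 115812036242) (nat_lit 0) (nat_lit 115320603809) (nat_lit 177) (nat_lit 5) (nat_lit 179) (nat_lit 4) (nat_lit 177) (nat_lit 4) (nat_lit 347) (nat_lit 307) (nat_lit 246)) (XT.lf (nat_lit 0) (nat_lit 132911054519) (nat_lit 76) (nat_lit 133402727149) (nat_lit 76) (nat_lit 124120164036) (nat_lit 176) (nat_lit 4) (nat_lit 177) (nat_lit 5) (nat_lit 177) (nat_lit 4) (nat_lit 348) (nat_lit 307) (nat_lit 245))))) (XT.nd (nat_lit 156) (nat_lit 228) (nat_lit 0) (XT.nd (nat_lit 78) (nat_lit 0) (nat_lit 0)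 (XT.lf (nat_lit 0) (nat_lit 2492492958) (nat_lit 76) (nat_lit 2984374455) (nat_lit 152) (nat_lit 423900968734) (nat_lit 174) (nat_lit 5) (nat_lit 175) (nat_lit 5) (nat_lit 176) (nat_lit 4) (nat_lit 349) (nat_lit 307) (nat_lit 244)) (XT.lf (nat_lit 0) (nat_lit 161988574814) (nat_lit 152) (nat_lit 154344322220) (nat_lit 0) (nat_lit 153916441246) (nat_lit 174) (nat_lit 5) (nat_lit 176) (nat_lit 4) (nat_lit 174) (nat_lit 4) (nat_lit 350) (nat_lit 307) (nat_lit 243))) (XT.nd (nat_lit 78) (nat_lit 152) (nat_lit 0) (XT.lf (nat_lit 0) (nat_lit 174454591825) (nat_lit 76) (nat_lit 174882610133) (nat_lit 76) (nat_lit 166810339231) (nat_lit 173) (nat_lit 4) (nat_lit 174) (nat_lit 5) (nat_lit 174) (nat_lit 4) (nat_lit 351) (nat_lit 307) (nat_lit 242)) (XT.nd (nat_lit 78) (nat_lit 0) (nat_lit 0) (XT.lf (nat_lit 0) (nat_lit 2167240668) (nat_lit 76) (nat_lit 2595378397) (nat_lit 152) (nat_lit 562913155909) (nat_lit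 171) (nat_lit 5) (nat_lit 172) (nat_lit 5) (nat_lit 173) (nat_lit 4) (nat_lit 352) (nat_lit 307) (nat_lit 241)) (XT.lf (nat_lit 0) (nat_lit 211796024024) (nat_lit 152) (nat_lit 205148847855) (nat_lit 0) (nat_lit 204776463879) (nat_lit 171) (nat_lit 5) (nat_lit 173) (nat_lit 4) (nat_lit 171) (nat_lit 4) (nat_lit 353) (nat_lit 307) (nat_lit 240)))))) (XT.nd (nat_lit 390) (nat_lit 304) (nat_lit 0) (XT.nd (nat_lit 156) (nat_lit 228) (nat_lit 0) (XT.nd (nat_lit 78) (nat_lit 152) (nat_lit 0) (XT.lf (nat_lit 0) (nat_lit 229568254823) (nat_lit 76) (nat_lit 229940717319) (nat_lit 76) (nat_lit 222921078654) (nat_lit 170) (nat_lit 4) (nat_lit 171) (nat_lit 5) (nat_lit 171) (nat_lit 4) (nat_lit 354) (nat_lit 307) (nat_lit 239)) (XT.lf (nat_lit 0) (nat_lit 1884474477) (nat_lit 76) (nat_lit 2257005253) (nat_lit 152) (nat_lit 746456343929) (nat_lit 168) (nat_lit 5) (nat_lit 169) (nat_lit 5) (nat_lit 170) (nat_lit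 4) (nat_lit 355) (nat_lit 307) (nat_lit 238))) (XT.nd (nat_lit 78) (nat_lit 228) (nat_lit 0) (XT.lf (nat_lit 0) (nat_lit 277983761676) (nat_lit 152) (nat_lit 272203608485) (nat_lit 0) (nat_lit 271879617051) (nat_lit 168) (nat_lit 5) (nat_lit 170) (nat_lit 4) (nat_lit 168) (nat_lit 4) (nat_lit 356) (nat_lit 307) (nat_lit 237)) (XT.nd (nat_lit 78) (nat_lit 152) (nat_lit 0) (XT.lf (nat_lit 0) (nat_lit 302605877151) (nat_lit 76) (nat_lit 302929913479) (nat_lit 76) (nat_lit 296825723960) (nat_lit 167) (nat_lit 4) (nat_lit 168) (nat_lit 5) (nat_lit 168) (nat_lit 4) (nat_lit 357) (nat_lit 307) (nat_lit 236)) (XT.lf (nat_lit 0) (nat_lit 1638626217) (nat_lit 76) (nat_lit 1962701584) (nat_lit 152) (nat_lit 988930920563) (nat_lit 165) (nat_lit 5) (nat_lit 166) (nat_lit 5) (nat_lit 167) (nat_lit 4) (nat_lit 358) (nat_lit 307) (nat_lit 235))))) (XT.nd (nat_lit 156) (nat_lit 228) (nat_lit 0) (XT.nd (nat_lit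 78) (nat_lit 76) (nat_lit 0) (XT.lf (nat_lit 0) (nat_lit 365793064613) (nat_lit 152) (nat_lit 360766844448) (nat_lit 0) (nat_lit 360485010261) (nat_lit 165) (nat_lit 5) (nat_lit 167) (nat_lit 4) (nat_lit 165) (nat_lit 4) (nat_lit 359) (nat_lit 307) (nat_lit 234)) (XT.lf (nat_lit 0) (nat_lit 399328365621) (nat_lit 76) (nat_lit 399610225475) (nat_lit 76) (nat_lit 394302145455) (nat_lit 164) (nat_lit 4) (nat_lit 165) (nat_lit 5) (nat_lit 165) (nat_lit 4) (nat_lit 360) (nat_lit 307) (nat_lit 233))) (XT.nd (nat_lit 78) (nat_lit 76) (nat_lit 0) (XT.lf (nat_lit 0) (nat_lit 1424865352) (nat_lit 76) (nat_lit 1706747527) (nat_lit 152) (nat_lit 1309376313316) (nat_lit 162) (nat_lit 5) (nat_lit 163) (nat_lit 5) (nat_lit 164) (nat_lit 4) (nat_lit 361) (nat_lit 307) (nat_lit 232)) (XT.nd (nat_lit 78) (nat_lit 76) (nat_lit 0) (XT.lf (nat_lit 0) (nat_lit 482160903344) (nat_lit 152) (nat_lit 477790277113) (nat_lit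 0) (nat_lit 477545145301) (nat_lit 162) (nat_lit 5) (nat_lit 164) (nat_lit 4) (nat_lit 162) (nat_lit 4) (nat_lit 362) (nat_lit 307) (nat_lit 231)) (XT.lf (nat_lit 0) (nat_lit 527357085191) (nat_lit 76) (nat_lit 527602231680) (nat_lit 76) (nat_lit 522986458960) (nat_lit 161) (nat_lit 4) (nat_lit 162) (nat_lit 5) (nat_lit 162) (nat_lit 4) (nat_lit 363) (nat_lit 307) (nat_lit 230))))))) (XT.nd (nat_lit 780) (nat_lit 684) (nat_lit 0) (XT.nd (nat_lit 390) (nat_lit 456) (nat_lit 0) (XT.nd (nat_lit 156) (nat_lit 228) (nat_lit 0) (XT.nd (nat_lit 78) (nat_lit 0) (nat_lit 0) (XT.lf (nat_lit 0) (nat_lit 1238997906) (nat_lit 76) (nat_lit 1484157157) (nat_lit 152) (nat_lit 1732967734528) (nat_lit 159) (nat_lit 5) (nat_lit 160) (nat_lit 5) (nat_lit 161) (nat_lit 4) (nat_lit 364) (nat_lit 307) (nat_lit 229)) (XT.lf (nat_lit 0) (nat_lit 636266107134) (nat_lit 152) (nat_lit 632465562585) (nat_lit 0) (nat_lit 632252370978)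 (nat_lit 159) (nat_lit 5) (nat_lit 161) (nat_lit 4) (nat_lit 159) (nat_lit 4) (nat_lit 365) (nat_lit 307) (nat_lit 228))) (XT.nd (nat_lit 78) (nat_lit 152) (nat_lit 0) (XT.lf (nat_lit 0) (nat_lit 696773516461) (nat_lit 76) (nat_lit 696986716459) (nat_lit 76) (nat_lit 692972971913) (nat_lit 158) (nat_lit 4) (nat_lit 159) (nat_lit 5) (nat_lit 159) (nat_lit 4) (nat_lit 366) (nat_lit 307) (nat_lit 227)) (XT.nd (nat_lit 78) (nat_lit 0) (nat_lit 0) (XT.lf (nat_lit 0) (nat_lit 1077380654) (nat_lit 76) (nat_lit 1290587948) (nat_lit 152) (nat_lit 2292995545000) (nat_lit 156) (nat_lit 5) (nat_lit 157) (nat_lit 5) (nat_lit 158) (nat_lit 4) (nat_lit 367) (nat_lit 307) (nat_lit 226)) (XT.lf (nat_lit 0) (nat_lit 840251755621) (nat_lit 152) (nat_lit 836946934274) (nat_lit 0) (nat_lit 836761531110) (nat_lit 156) (nat_lit 5) (nat_lit 158) (nat_lit 4) (nat_lit 156) (nat_lit 4) (nat_lit 368) (nat_lit 307) (nat_lit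 225))))) (XT.nd (nat_lit 156) (nat_lit 228) (nat_lit 0) (XT.nd (nat_lit 78) (nat_lit 152) (nat_lit 0) (XT.lf (nat_lit 0) (nat_lit 920912349488) (nat_lit 76) (nat_lit 921097757450) (nat_lit 76) (nat_lit 917607528142) (nat_lit 155) (nat_lit 4) (nat_lit 156) (nat_lit 5) (nat_lit 156) (nat_lit 4) (nat_lit 369) (nat_lit 307) (nat_lit 224)) (XT.lf (nat_lit 0) (nat_lit 936847694) (nat_lit 76) (nat_lit 1122259828) (nat_lit 152) (nat_lit 3033482889749) (nat_lit 153) (nat_lit 5) (nat_lit 154) (nat_lit 5) (nat_lit 155) (nat_lit 4) (nat_lit 370) (nat_lit 307) (nat_lit 223))) (XT.nd (nat_lit 78) (nat_lit 228) (nat_lit 0) (XT.lf (nat_lit 0) (nat_lit 1110180619578) (nat_lit 152) (nat_lit 1107306861886) (nat_lit 0) (nat_lit 1107145630788) (nat_lit 153) (nat_lit 5) (nat_lit 155) (nat_lit 4) (nat_lit 153) (nat_lit 4) (nat_lit 371) (nat_lit 307) (nat_lit 222)) (XT.nd (nat_lit 78) (nat_lit 152) (nat_lit 0) (XT.lf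 (nat_lit 0) (nat_lit 1217410390007) (nat_lit 76) (nat_lit 1217571623847) (nat_lit 76) (nat_lit 1214536632314) (nat_lit 152) (nat_lit 4) (nat_lit 153) (nat_lit 5) (nat_lit 153) (nat_lit 4) (nat_lit 372) (nat_lit 307) (nat_lit 221)) (XT.lf (nat_lit 0) (nat_lit 814647282) (nat_lit 76) (nat_lit 975883508) (nat_lit 152) (nat_lit 4012647457211) (nat_lit 150) (nat_lit 5) (nat_lit 151) (nat_lit 5) (nat_lit 152) (nat_lit 4) (nat_lit 373) (nat_lit 307) (nat_lit 220)))))) (XT.nd (nat_lit 390) (nat_lit 380) (nat_lit 0) (XT.nd (nat_lit 156) (nat_lit 228) (nat_lit 0) (XT.nd (nat_lit 78) (nat_lit 76) (nat_lit 0) (XT.lf (nat_lit 0) (nat_lit 1467298799625) (nat_lit 152) (nat_lit 1464799879892) (nat_lit 0) (nat_lit 1464659672675) (nat_lit 150) (nat_lit 5) (nat_lit 152) (nat_lit 4) (nat_lit 150) (nat_lit 4) (nat_lit 374) (nat_lit 307) (nat_lit 219)) (XT.lf (nat_lit 0) (nat_lit 1609593771806) (nat_lit 76) (nat_lit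 1609733980591) (nat_lit 76) (nat_lit 1607094852073) (nat_lit 149) (nat_lit 4) (nat_lit 150) (nat_lit 5) (nat_lit 150) (nat_lit 4) (nat_lit 375) (nat_lit 307) (nat_lit 218))) (XT.nd (nat_lit 78) (nat_lit 76) (nat_lit 0) (XT.lf (nat_lit 0) (nat_lit 708387291) (nat_lit 76) (nat_lit 848597440) (nat_lit 152) (nat_lit 5307479599562) (nat_lit 147) (nat_lit 5) (nat_lit 148) (nat_lit 5) (nat_lit 149) (nat_lit 4) (nat_lit 376) (nat_lit 307) (nat_lit 217)) (XT.nd (nat_lit 78) (nat_lit 76) (nat_lit 0) (XT.lf (nat_lit 0) (nat_lit 1939706948170) (nat_lit 152) (nat_lit 1937533974490) (nat_lit 0) (nat_lit 1937412051589) (nat_lit 147) (nat_lit 5) (nat_lit 149) (nat_lit 4) (nat_lit 147) (nat_lit 4) (nat_lit 377) (nat_lit 307) (nat_lit 216)) (XT.lf (nat_lit 0) (nat_lit 2128312574222) (nat_lit 76) (nat_lit 2128434498019) (nat_lit 76) (nat_lit 2126139600541) (nat_lit 146) (nat_lit 4) (nat_lit 147) (nat_lit 5) (nat_lit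 147) (nat_lit 4) (nat_lit 378) (nat_lit 307) (nat_lit 215))))) (XT.nd (nat_lit 156) (nat_lit 228) (nat_lit 0) (XT.nd (nat_lit 78) (nat_lit 0) (nat_lit 0) (XT.lf (nat_lit 0) (nat_lit 615988005) (nat_lit 76) (nat_lit 737912581) (nat_lit 152) (nat_lit 7019796847659) (nat_lit 144) (nat_lit 5) (nat_lit 145) (nat_lit 5) (nat_lit 146) (nat_lit 4) (nat_lit 379) (nat_lit 307) (nat_lit 214)) (XT.lf (nat_lit 0) (nat_lit 2564570512594) (nat_lit 152) (nat_lit 2562680970263) (nat_lit 0) (nat_lit 2562574948303) (nat_lit 144) (nat_lit 5) (nat_lit 146) (nat_lit 4) (nat_lit 144) (nat_lit 4) (nat_lit 380) (nat_lit 307) (nat_lit 213))) (XT.nd (nat_lit 78) (nat_lit 152) (nat_lit 0) (XT.lf (nat_lit 0) (nat_lit 2814367128927) (nat_lit 76) (nat_lit 2814473151400) (nat_lit 76) (nat_lit 2812477586596) (nat_lit 143) (nat_lit 4) (nat_lit 144) (nat_lit 5) (nat_lit 144) (nat_lit 4) (nat_lit 381) (nat_lit 307) (nat_lit 212))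 (XT.nd (nat_lit 41106) (nat_lit 0) (nat_lit 5624) (XT.lf (nat_lit 0) (nat_lit 535641204) (nat_lit 76) (nat_lit 641664123) (nat_lit 152) (nat_lit 9284250964120) (nat_lit 141) (nat_lit 5) (nat_lit 142) (nat_lit 5) (nat_lit 143) (nat_lit 4) (nat_lit 382) (nat_lit 307) (nat_lit 211)) (XT.lf (nat_lit 0) (nat_lit 937608809) (nat_lit 380) (nat_lit 2700392437) (nat_lit 380) (nat_lit 2700392437) (nat_lit 215) (nat_lit 3) (nat_lit 220) (nat_lit 3) (nat_lit 220) (nat_lit 5) (nat_lit 308) (nat_lit 308) (nat_lit 284))))))))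
noncomputable def xc58 : XT := (XT.nd (nat_lit 1560) (nat_lit 1520) (nat_lit 0) (XT.nd (nat_lit 780) (nat_lit 684) (nat_lit 0) (XT.nd (nat_lit 390) (nat_lit 532) (nat_lit 0) (XT.nd (nat_lit 156) (nat_lit 152) (nat_lit 0) (XT.nd (nat_lit 78) (nat_lit 0) (nat_lit 76) (XT.lf (nat_lit 76) (nat_lit 1029238761) (nat_lit 0) (nat_lit 1425109607) (nat_lit 380) (nat_lit 11107424638) (nat_lit 216) (nat_lit 5) (nat_lit 215) (nat_lit 3) (nat_lit 220) (nat_lit 5) (nat_lit 309) (nat_lit 308) (nat_lit 283)) (XT.lf (nat_lit 0) (nat_lit 3564533334) (nat_lit 304) (nat_lit 5795958108) (nat_lit 380) (nat_lit 5152387357) (nat_lit 216) (nat_lit 5) (nat_lit 220) (nat_lit 5) (nat_lit 221) (nat_lit 5) (nat_lit 310) (nat_lit 308) (nat_lit 282))) (XT.nd (nat_lit 78) (nat_lit 228) (nat_lit 0) (XT.lf (nat_lit 76) (nat_lit 2013361552) (nat_lit 0) (nat_lit 2917223811) (nat_lit 380) (nat_lit 10662664202) (nat_lit 217) (nat_lit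 5) (nat_lit 216) (nat_lit 5) (nat_lit 221) (nat_lit 5) (nat_lit 311) (nat_lit 308) (nat_lit 281)) (XT.nd (nat_lit 78) (nat_lit 304) (nat_lit 0) (XT.lf (nat_lit 0) (nat_lit 6949575601) (nat_lit 304) (nat_lit 5400840369) (nat_lit 76) (nat_lit 4418055412) (nat_lit 217) (nat_lit 5) (nat_lit 221) (nat_lit 5) (nat_lit 218) (nat_lit 5) (nat_lit 312) (nat_lit 308) (nat_lit 280)) (XT.lf (nat_lit 0) (nat_lit 4190883087) (nat_lit 304) (nat_lit 5344813934) (nat_lit 380) (nat_lit 8544637057) (nat_lit 213) (nat_lit 5) (nat_lit 217) (nat_lit 5) (nat_lit 218) (nat_lit 5) (nat_lit 313) (nat_lit 308) (nat_lit 279))))) (XT.nd (nat_lit 156) (nat_lit 380) (nat_lit 0) (XT.nd (nat_lit 78) (nat_lit 152) (nat_lit 0) (XT.lf (nat_lit 0) (nat_lit 12873884275) (nat_lit 380) (nat_lit 3896649385) (nat_lit 76) (nat_lit 2763820374) (nat_lit 213) (nat_lit 5) (nat_lit 218) (nat_lit 5) (nat_lit 214) (nat_lit 5) (nat_lit 314) (nat_lit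 308) (nat_lit 278)) (XT.lf (nat_lit 0) (nat_lit 8007682737) (nat_lit 152) (nat_lit 9253042949) (nat_lit 228) (nat_lit 3863562386) (nat_lit 211) (nat_lit 5) (nat_lit 213) (nat_lit 5) (nat_lit 214) (nat_lit 5) (nat_lit 315) (nat_lit 308) (nat_lit 277))) (XT.nd (nat_lit 78) (nat_lit 380) (nat_lit 0) (XT.lf (nat_lit 0) (nat_lit 22091901505) (nat_lit 152) (nat_lit 382379788) (nat_lit 228) (nat_lit 453127726) (nat_lit 211) (nat_lit 5) (nat_lit 213) (nat_lit 5) (nat_lit 214) (nat_lit 5) (nat_lit 316) (nat_lit 308) (nat_lit 276)) (XT.nd (nat_lit 78) (nat_lit 152) (nat_lit 0) (XT.lf (nat_lit 0) (nat_lit 4165154214) (nat_lit 228) (nat_lit 10952767558) (nat_lit 76) (nat_lit 9710764787) (nat_lit 208) (nat_lit 5) (nat_lit 211) (nat_lit 5) (nat_lit 209) (nat_lit 5) (nat_lit 317) (nat_lit 308) (nat_lit 275)) (XT.lf (nat_lit 0) (nat_lit 4165056219) (nat_lit 152) (nat_lit 5471399069) (nat_lit 228) (nat_lit 17344463541)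 (nat_lit 206) (nat_lit 5) (nat_lit 208) (nat_lit 5) (nat_lit 209) (nat_lit 5) (nat_lit 318) (nat_lit 308) (nat_lit 274)))))) (XT.nd (nat_lit 390) (nat_lit 304) (nat_lit 0) (XT.nd (nat_lit 156) (nat_lit 304) (nat_lit 0) (XT.nd (nat_lit 78) (nat_lit 76) (nat_lit 0) (XT.lf (nat_lit 0) (nat_lit 16732891377) (nat_lit 228) (nat_lit 6893514617) (nat_lit 76) (nat_lit 5708913968) (nat_lit 206) (nat_lit 5) (nat_lit 209) (nat_lit 5) (nat_lit 207) (nat_lit 4) (nat_lit 319) (nat_lit 308) (nat_lit 273)) (XT.lf (nat_lit 0) (nat_lit 12204148285) (nat_lit 76) (nat_lit 13431053580) (nat_lit 152) (nat_lit 6296468052) (nat_lit 205) (nat_lit 5) (nat_lit 206) (nat_lit 5) (nat_lit 207) (nat_lit 4) (nat_lit 320) (nat_lit 308) (nat_lit 272))) (XT.nd (nat_lit 78) (nat_lit 228) (nat_lit 0) (XT.lf (nat_lit 0) (nat_lit 1223916789) (nat_lit 152) (nat_lit 18500072) (nat_lit 76) (nat_lit 33616083624) (nat_lit 204) (nat_lit 5)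 (nat_lit 206) (nat_lit 5) (nat_lit 205) (nat_lit 5) (nat_lit 321) (nat_lit 308) (nat_lit 271)) (XT.nd (nat_lit 78) (nat_lit 76) (nat_lit 0) (XT.lf (nat_lit 0) (nat_lit 10812110788) (nat_lit 228) (nat_lit 14128145078) (nat_lit 76) (nat_lit 13001466526) (nat_lit 202) (nat_lit 5) (nat_lit 205) (nat_lit 5) (nat_lit 203) (nat_lit 4) (nat_lit 322) (nat_lit 308) (nat_lit 270)) (XT.lf (nat_lit 0) (nat_lit 10583032846) (nat_lit 76) (nat_lit 11733899218) (nat_lit 152) (nat_lit 19098735795) (nat_lit 201) (nat_lit 5) (nat_lit 202) (nat_lit 5) (nat_lit 203) (nat_lit 4) (nat_lit 323) (nat_lit 308) (nat_lit 269))))) (XT.nd (nat_lit 156) (nat_lit 152) (nat_lit 0) (XT.nd (nat_lit 78) (nat_lit 152) (nat_lit 0) (XT.lf (nat_lit 0) (nat_lit 36444764478) (nat_lit 152) (nat_lit 4925195155) (nat_lit 0) (nat_lit 3906152322) (nat_lit 201) (nat_lit 5) (nat_lit 203) (nat_lit 4) (nat_lit 201) (nat_lit 4) (nat_lit 324) (nat_lit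 308) (nat_lit 268)) (XT.lf (nat_lit 0) (nat_lit 4435006139) (nat_lit 152) (nat_lit 23019252840) (nat_lit 76) (nat_lit 21984306123) (nat_lit 199) (nat_lit 5) (nat_lit 201) (nat_lit 5) (nat_lit 200) (nat_lit 4) (nat_lit 325) (nat_lit 308) (nat_lit 267))) (XT.nd (nat_lit 78) (nat_lit 76) (nat_lit 0) (XT.lf (nat_lit 0) (nat_lit 9185902034) (nat_lit 76) (nat_lit 10234678215) (nat_lit 152) (nat_lit 34646710536) (nat_lit 198) (nat_lit 5) (nat_lit 199) (nat_lit 5) (nat_lit 200) (nat_lit 4) (nat_lit 326) (nat_lit 308) (nat_lit 266)) (XT.nd (nat_lit 78) (nat_lit 76) (nat_lit 0) (XT.lf (nat_lit 0) (nat_lit 38294445252) (nat_lit 152) (nat_lit 10886124102) (nat_lit 0) (nat_lit 9963687752) (nat_lit 198) (nat_lit 5) (nat_lit 200) (nat_lit 4) (nat_lit 198) (nat_lit 4) (nat_lit 327) (nat_lit 308) (nat_lit 265)) (XT.lf (nat_lit 0) (nat_lit 30399920958) (nat_lit 76) (nat_lit 31331450405) (nat_lit 76) (nat_lit 2991599808)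 (nat_lit 197) (nat_lit 4) (nat_lit 198) (nat_lit 5) (nat_lit 198) (nat_lit 4) (nat_lit 328) (nat_lit 308) (nat_lit 264))))))) (XT.nd (nat_lit 780) (nat_lit 684) (nat_lit 0) (XT.nd (nat_lit 390) (nat_lit 456) (nat_lit 0) (XT.nd (nat_lit 156) (nat_lit 228) (nat_lit 0) (XT.nd (nat_lit 78) (nat_lit 0) (nat_lit 0) (XT.lf (nat_lit 0) (nat_lit 7978172481) (nat_lit 76) (nat_lit 8917608969) (nat_lit 152) (nat_lit 53996866814) (nat_lit 195) (nat_lit 5) (nat_lit 196) (nat_lit 5) (nat_lit 197) (nat_lit 4) (nat_lit 329) (nat_lit 308) (nat_lit 263)) (XT.lf (nat_lit 0) (nat_lit 42023787950) (nat_lit 152) (nat_lit 18190465210) (nat_lit 0) (nat_lit 17367585058) (nat_lit 195) (nat_lit 5) (nat_lit 197) (nat_lit 4) (nat_lit 195) (nat_lit 4) (nat_lit 330) (nat_lit 308) (nat_lit 262))) (XT.nd (nat_lit 78) (nat_lit 152) (nat_lit 0) (XT.lf (nat_lit 0) (nat_lit 35998056874) (nat_lit 76) (nat_lit 36826136034) (nat_lit 76)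 (nat_lit 12164734134) (nat_lit 194) (nat_lit 4) (nat_lit 195) (nat_lit 5) (nat_lit 195) (nat_lit 4) (nat_lit 331) (nat_lit 308) (nat_lit 261)) (XT.nd (nat_lit 78) (nat_lit 0) (nat_lit 0) (XT.lf (nat_lit 0) (nat_lit 6932070514) (nat_lit 76) (nat_lit 7764670550) (nat_lit 152) (nat_lit 78528119933) (nat_lit 192) (nat_lit 5) (nat_lit 193) (nat_lit 5) (nat_lit 194) (nat_lit 4) (nat_lit 332) (nat_lit 308) (nat_lit 260)) (XT.lf (nat_lit 0) (nat_lit 48075323671) (nat_lit 152) (nat_lit 27350695201) (nat_lit 0) (nat_lit 26623276737) (nat_lit 192) (nat_lit 5) (nat_lit 194) (nat_lit 4) (nat_lit 192) (nat_lit 4) (nat_lit 333) (nat_lit 308) (nat_lit 259))))) (XT.nd (nat_lit 156) (nat_lit 228) (nat_lit 0) (XT.nd (nat_lit 78) (nat_lit 152) (nat_lit 0) (XT.lf (nat_lit 0) (nat_lit 43954902505) (nat_lit 76) (nat_lit 44685293518) (nat_lit 76) (nat_lit 23230274036) (nat_lit 191) (nat_lit 4) (nat_lit 192) (nat_lit 5)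 (nat_lit 192) (nat_lit 4) (nat_lit 334) (nat_lit 308) (nat_lit 258)) (XT.lf (nat_lit 0) (nat_lit 6024759471) (nat_lit 76) (nat_lit 6757735310) (nat_lit 152) (nat_lit 110046470622) (nat_lit 189) (nat_lit 5) (nat_lit 190) (nat_lit 5) (nat_lit 191) (nat_lit 4) (nat_lit 335) (nat_lit 308) (nat_lit 257))) (XT.nd (nat_lit 78) (nat_lit 228) (nat_lit 0) (XT.lf (nat_lit 0) (nat_lit 57054059566) (nat_lit 152) (nat_lit 39032643506) (nat_lit 0) (nat_lit 38393318711) (nat_lit 189) (nat_lit 5) (nat_lit 191) (nat_lit 4) (nat_lit 189) (nat_lit 4) (nat_lit 336) (nat_lit 308) (nat_lit 256)) (XT.nd (nat_lit 78) (nat_lit 152) (nat_lit 0) (XT.lf (nat_lit 0) (nat_lit 54956948039) (nat_lit 76) (nat_lit 55597972398) (nat_lit 76) (nat_lit 36935531979) (nat_lit 188) (nat_lit 4) (nat_lit 189) (nat_lit 5) (nat_lit 189) (nat_lit 4) (nat_lit 337) (nat_lit 308) (nat_lit 255)) (XT.lf (nat_lit 0) (nat_lit 5237132873) (nat_lit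 76) (nat_lit 5879635115) (nat_lit 152) (nat_lit 150924050910) (nat_lit 186) (nat_lit 5) (nat_lit 187) (nat_lit 5) (nat_lit 188) (nat_lit 4) (nat_lit 338) (nat_lit 308) (nat_lit 254)))))) (XT.nd (nat_lit 390) (nat_lit 380) (nat_lit 0) (XT.nd (nat_lit 156) (nat_lit 228) (nat_lit 0) (XT.nd (nat_lit 78) (nat_lit 76) (nat_lit 0) (XT.lf (nat_lit 0) (nat_lit 69777979703) (nat_lit 152) (nat_lit 54107183129) (nat_lit 0) (nat_lit 53547368036) (nat_lit 186) (nat_lit 5) (nat_lit 188) (nat_lit 4) (nat_lit 186) (nat_lit 4) (nat_lit 339) (nat_lit 308) (nat_lit 253)) (XT.lf (nat_lit 0) (nat_lit 69922620405) (nat_lit 76) (nat_lit 70483407230) (nat_lit 76) (nat_lit 54251823831) (nat_lit 185) (nat_lit 4) (nat_lit 186) (nat_lit 5) (nat_lit 186) (nat_lit 4) (nat_lit 340) (nat_lit 308) (nat_lit 252))) (XT.nd (nat_lit 78) (nat_lit 76) (nat_lit 0) (XT.lf (nat_lit 0) (nat_lit 4553006058) (nat_lit 76) (nat_lit 5114637867)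 (nat_lit 152) (nat_lit 204283263892) (nat_lit 183) (nat_lit 5) (nat_lit 184) (nat_lit 5) (nat_lit 185) (nat_lit 4) (nat_lit 341) (nat_lit 308) (nat_lit 251)) (XT.nd (nat_lit 78) (nat_lit 76) (nat_lit 0) (XT.lf (nat_lit 0) (nat_lit 87344788900) (nat_lit 152) (nat_lit 73718009271) (nat_lit 0) (nat_lit 73228994855) (nat_lit 183) (nat_lit 5) (nat_lit 185) (nat_lit 4) (nat_lit 183) (nat_lit 4) (nat_lit 342) (nat_lit 308) (nat_lit 250)) (XT.lf (nat_lit 0) (nat_lit 90075336662) (nat_lit 76) (nat_lit 90564906668) (nat_lit 76) (nat_lit 76448557032) (nat_lit 182) (nat_lit 4) (nat_lit 183) (nat_lit 5) (nat_lit 183) (nat_lit 4) (nat_lit 343) (nat_lit 308) (nat_lit 249))))) (XT.nd (nat_lit 156) (nat_lit 228) (nat_lit 0) (XT.nd (nat_lit 78) (nat_lit 0) (nat_lit 0) (XT.lf (nat_lit 0) (nat_lit 3958551070) (nat_lit 76) (nat_lit 4448604198) (nat_lit 152) (nat_lit 274240346385) (nat_lit 180) (nat_lit 5) (nat_lit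 181) (nat_lit 5) (nat_lit 182) (nat_lit 4) (nat_lit 344) (nat_lit 308) (nat_lit 248)) (XT.lf (nat_lit 0) (nat_lit 111220268227) (nat_lit 152) (nat_lit 99370894636) (nat_lit 0) (nat_lit 98944396170) (nat_lit 180) (nat_lit 5) (nat_lit 182) (nat_lit 4) (nat_lit 180) (nat_lit 4) (nat_lit 345) (nat_lit 308) (nat_lit 247))) (XT.nd (nat_lit 78) (nat_lit 152) (nat_lit 0) (XT.lf (nat_lit 0) (nat_lit 117040503723) (nat_lit 76) (nat_lit 117467319849) (nat_lit 76) (nat_lit 105191130132) (nat_lit 179) (nat_lit 4) (nat_lit 180) (nat_lit 5) (nat_lit 180) (nat_lit 4) (nat_lit 346) (nat_lit 308) (nat_lit 246)) (XT.nd (nat_lit 78) (nat_lit 0) (nat_lit 0) (XT.lf (nat_lit 0) (nat_lit 3441884056) (nat_lit 76) (nat_lit 3868976408) (nat_lit 152) (nat_lit 366227409951) (nat_lit 177) (nat_lit 5) (nat_lit 178) (nat_lit 5) (nat_lit 179) (nat_lit 4) (nat_lit 347) (nat_lit 308) (nat_lit 245)) (XT.lf (nat_lit 0) (nat_lit 143355271879)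 (nat_lit 152) (nat_lit 133051468757) (nat_lit 0) (nat_lit 132679875235) (nat_lit 177) (nat_lit 5) (nat_lit 179) (nat_lit 4) (nat_lit 177) (nat_lit 4) (nat_lit 348) (nat_lit 308) (nat_lit 244))))))))
noncomputable def xc59 : XT := (XT.nd (nat_lit 1560) (nat_lit 988) (nat_lit 0) (XT.nd (nat_lit 780) (nat_lit 836) (nat_lit 0) (XT.nd (nat_lit 390) (nat_lit 304) (nat_lit 0) (XT.nd (nat_lit 156) (nat_lit 228) (nat_lit 0) (XT.nd (nat_lit 78) (nat_lit 152) (nat_lit 0) (XT.lf (nat_lit 0) (nat_lit 152974068667) (nat_lit 76) (nat_lit 153345843813) (nat_lit 76) (nat_lit 142670265545) (nat_lit 176) (nat_lit 4) (nat_lit 177) (nat_lit 5) (nat_lit 177) (nat_lit 4) (nat_lit 349) (nat_lit 308) (nat_lit 243)) (XT.lf (nat_lit 0) (nat_lit 2992751539) (nat_lit 76) (nat_lit 3364684618) (nat_lit 152) (nat_lit 487418219615) (nat_lit 174) (nat_lit 5) (nat_lit 175) (nat_lit 5) (nat_lit 176) (nat_lit 4) (nat_lit 350) (nat_lit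 308) (nat_lit 242))) (XT.nd (nat_lit 78) (nat_lit 228) (nat_lit 0) (XT.lf (nat_lit 0) (nat_lit 186340623896) (nat_lit 152) (nat_lit 177380795093) (nat_lit 0) (nat_lit 177057255604) (nat_lit 174) (nat_lit 5) (nat_lit 176) (nat_lit 4) (nat_lit 174) (nat_lit 4) (nat_lit 351) (nat_lit 308) (nat_lit 241)) (XT.nd (nat_lit 78) (nat_lit 152) (nat_lit 0) (XT.lf (nat_lit 0) (nat_lit 200732720810) (nat_lit 76) (nat_lit 201056364143) (nat_lit 76) (nat_lit 191772892008) (nat_lit 173) (nat_lit 4) (nat_lit 174) (nat_lit 5) (nat_lit 174) (nat_lit 4) (nat_lit 352) (nat_lit 308) (nat_lit 240)) (XT.lf (nat_lit 0) (nat_lit 2602283371) (nat_lit 76) (nat_lit 2926017003) (nat_lit 152) (nat_lit 647291147579) (nat_lit 171) (nat_lit 5) (nat_lit 172) (nat_lit 5) (nat_lit 173) (nat_lit 4) (nat_lit 353) (nat_lit 308) (nat_lit 239))))) (XT.nd (nat_lit 156) (nat_lit 228) (nat_lit 0) (XT.nd (nat_lit 78) (nat_lit 76) (nat_lit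 0) (XT.lf (nat_lit 0) (nat_lit 243612138734) (nat_lit 152) (nat_lit 235820983253) (nat_lit 0) (nat_lit 235539407468) (nat_lit 171) (nat_lit 5) (nat_lit 173) (nat_lit 4) (nat_lit 171) (nat_lit 4) (nat_lit 354) (nat_lit 308) (nat_lit 238)) (XT.lf (nat_lit 0) (nat_lit 264099130654) (nat_lit 76) (nat_lit 264380765812) (nat_lit 76) (nat_lit 256307975174) (nat_lit 170) (nat_lit 4) (nat_lit 171) (nat_lit 5) (nat_lit 171) (nat_lit 4) (nat_lit 355) (nat_lit 308) (nat_lit 237))) (XT.nd (nat_lit 78) (nat_lit 76) (nat_lit 0) (XT.lf (nat_lit 0) (nat_lit 2262792628) (nat_lit 76) (nat_lit 2544479415) (nat_lit 152) (nat_lit 858373539612) (nat_lit 168) (nat_lit 5) (nat_lit 169) (nat_lit 5) (nat_lit 170) (nat_lit 4) (nat_lit 356) (nat_lit 308) (nat_lit 236)) (XT.nd (nat_lit 78) (nat_lit 76) (nat_lit 0) (XT.lf (nat_lit 0) (nat_lit 319721921864) (nat_lit 152) (nat_lit 312947004055) (nat_lit 0) (nat_lit 312702019984)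 (nat_lit 168) (nat_lit 5) (nat_lit 170) (nat_lit 4) (nat_lit 168) (nat_lit 4) (nat_lit 357) (nat_lit 308) (nat_lit 235)) (XT.lf (nat_lit 0) (nat_lit 348079943258) (nat_lit 76) (nat_lit 348324961276) (nat_lit 76) (nat_lit 341305025449) (nat_lit 167) (nat_lit 4) (nat_lit 168) (nat_lit 5) (nat_lit 168) (nat_lit 4) (nat_lit 358) (nat_lit 308) (nat_lit 234)))))) (XT.nd (nat_lit 390) (nat_lit 456) (nat_lit 0) (XT.nd (nat_lit 156) (nat_lit 228) (nat_lit 0) (XT.nd (nat_lit 78) (nat_lit 0) (nat_lit 0) (XT.lf (nat_lit 0) (nat_lit 1967610042) (nat_lit 76) (nat_lit 2212657579) (nat_lit 152) (nat_lit 1137226006900) (nat_lit 165) (nat_lit 5) (nat_lit 166) (nat_lit 5) (nat_lit 167) (nat_lit 4) (nat_lit 359) (nat_lit 308) (nat_lit 233)) (XT.lf (nat_lit 0) (nat_lit 420697312303) (nat_lit 152) (nat_lit 414806079426) (nat_lit 0) (nat_lit 414592972291) (nat_lit 165) (nat_lit 5) (nat_lit 167) (nat_lit 4) (nat_lit 165)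 (nat_lit 4) (nat_lit 360) (nat_lit 308) (nat_lit 232))) (XT.nd (nat_lit 78) (nat_lit 152) (nat_lit 0) (XT.lf (nat_lit 0) (nat_lit 459299967076) (nat_lit 76) (nat_lit 459513093620) (nat_lit 76) (nat_lit 453408734198) (nat_lit 164) (nat_lit 4) (nat_lit 165) (nat_lit 5) (nat_lit 165) (nat_lit 4) (nat_lit 361) (nat_lit 308) (nat_lit 231)) (XT.nd (nat_lit 78) (nat_lit 0) (nat_lit 0) (XT.lf (nat_lit 0) (nat_lit 1710944831) (nat_lit 76) (nat_lit 1924088252) (nat_lit 152) (nat_lit 1505744030302) (nat_lit 162) (nat_lit 5) (nat_lit 163) (nat_lit 5) (nat_lit 164) (nat_lit 4) (nat_lit 362) (nat_lit 308) (nat_lit 230)) (XT.lf (nat_lit 0) (nat_lit 554515716734) (nat_lit 152) (nat_lit 549392905536) (nat_lit 0) (nat_lit 549207550669) (nat_lit 162) (nat_lit 5) (nat_lit 164) (nat_lit 4) (nat_lit 162) (nat_lit 4) (nat_lit 363) (nat_lit 308) (nat_lit 229))))) (XT.nd (nat_lit 156) (nat_lit 228) (nat_lit 0) (XT.nd (nat_lit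 78) (nat_lit 152) (nat_lit 0) (XT.lf (nat_lit 0) (nat_lit 606523565062) (nat_lit 76) (nat_lit 606708931027) (nat_lit 76) (nat_lit 601400753864) (nat_lit 161) (nat_lit 4) (nat_lit 162) (nat_lit 5) (nat_lit 162) (nat_lit 4) (nat_lit 364) (nat_lit 308) (nat_lit 228)) (XT.lf (nat_lit 0) (nat_lit 1487766436) (nat_lit 76) (nat_lit 1673142051) (nat_lit 152) (nat_lit 1992879222518) (nat_lit 159) (nat_lit 5) (nat_lit 160) (nat_lit 5) (nat_lit 161) (nat_lit 4) (nat_lit 365) (nat_lit 308) (nat_lit 227))) (XT.nd (nat_lit 78) (nat_lit 228) (nat_lit 0) (XT.lf (nat_lit 0) (nat_lit 731732695439) (nat_lit 152) (nat_lit 727278077006) (nat_lit 0) (nat_lit 727116873522) (nat_lit 159) (nat_lit 5) (nat_lit 161) (nat_lit 4) (nat_lit 159) (nat_lit 4) (nat_lit 366) (nat_lit 308) (nat_lit 226)) (XT.nd (nat_lit 78) (nat_lit 152) (nat_lit 0) (XT.lf (nat_lit 0) (nat_lit 801344258445) (nat_lit 76) (nat_lit 801505468273) (nat_lit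 76) (nat_lit 796889640012) (nat_lit 158) (nat_lit 4) (nat_lit 159) (nat_lit 5) (nat_lit 159) (nat_lit 4) (nat_lit 367) (nat_lit 308) (nat_lit 225)) (XT.lf (nat_lit 0) (nat_lit 1293703268) (nat_lit 76) (nat_lit 1454918613) (nat_lit 152) (nat_lit 2636915600063) (nat_lit 156) (nat_lit 5) (nat_lit 157) (nat_lit 5) (nat_lit 158) (nat_lit 4) (nat_lit 368) (nat_lit 308) (nat_lit 224))))))) (XT.nd (nat_lit 780) (nat_lit 304) (nat_lit 0) (XT.nd (nat_lit 390) (nat_lit 380) (nat_lit 0) (XT.nd (nat_lit 156) (nat_lit 228) (nat_lit 0) (XT.nd (nat_lit 78) (nat_lit 76) (nat_lit 0) (XT.lf (nat_lit 0) (nat_lit 966312709816) (nat_lit 152) (nat_lit 962439128570) (nat_lit 0) (nat_lit 962298937141) (nat_lit 156) (nat_lit 5) (nat_lit 158) (nat_lit 4) (nat_lit 156) (nat_lit 4) (nat_lit 369) (nat_lit 308) (nat_lit 223)) (XT.lf (nat_lit 0) (nat_lit 1059096782036) (nat_lit 76) (nat_lit 1059236977093) (nat_lit 76) (nat_lit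 1055223200790) (nat_lit 155) (nat_lit 4) (nat_lit 156) (nat_lit 5) (nat_lit 156) (nat_lit 4) (nat_lit 370) (nat_lit 308) (nat_lit 222))) (XT.nd (nat_lit 78) (nat_lit 76) (nat_lit 0) (XT.lf (nat_lit 0) (nat_lit 1124955546) (nat_lit 76) (nat_lit 1265153757) (nat_lit 152) (nat_lit 3488479867212) (nat_lit 153) (nat_lit 5) (nat_lit 154) (nat_lit 5) (nat_lit 155) (nat_lit 4) (nat_lit 371) (nat_lit 308) (nat_lit 221)) (XT.nd (nat_lit 78) (nat_lit 76) (nat_lit 0) (XT.lf (nat_lit 0) (nat_lit 1276727877104) (nat_lit 152) (nat_lit 1273359545586) (nat_lit 0) (nat_lit 1273237631713) (nat_lit 153) (nat_lit 5) (nat_lit 155) (nat_lit 4) (nat_lit 153) (nat_lit 4) (nat_lit 372) (nat_lit 308) (nat_lit 220)) (XT.lf (nat_lit 0) (nat_lit 1400063323837) (nat_lit 76) (nat_lit 1400185239784) (nat_lit 76) (nat_lit 1396694992319) (nat_lit 152) (nat_lit 4) (nat_lit 153) (nat_lit 5) (nat_lit 153) (nat_lit 4) (nat_lit 373)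 (nat_lit 308) (nat_lit 219))))) (XT.nd (nat_lit 156) (nat_lit 228) (nat_lit 0) (XT.nd (nat_lit 78) (nat_lit 0) (nat_lit 0) (XT.lf (nat_lit 0) (nat_lit 978220031) (nat_lit 76) (nat_lit 1100137782) (nat_lit 152) (nat_lit 4614522441278) (nat_lit 150) (nat_lit 5) (nat_lit 151) (nat_lit 5) (nat_lit 152) (nat_lit 4) (nat_lit 374) (nat_lit 308) (nat_lit 218)) (XT.lf (nat_lit 0) (nat_lit 1687411153211) (nat_lit 152) (nat_lit 1684482169282) (nat_lit 0) (nat_lit 1684376152483) (nat_lit 150) (nat_lit 5) (nat_lit 152) (nat_lit 4) (nat_lit 150) (nat_lit 4) (nat_lit 375) (nat_lit 308) (nat_lit 217))) (XT.nd (nat_lit 78) (nat_lit 152) (nat_lit 0) (XT.lf (nat_lit 0) (nat_lit 1851068816871) (nat_lit 76) (nat_lit 1851174834857) (nat_lit 76) (nat_lit 1848139832942) (nat_lit 149) (nat_lit 4) (nat_lit 150) (nat_lit 5) (nat_lit 150) (nat_lit 4) (nat_lit 376) (nat_lit 308) (nat_lit 216)) (XT.nd (nat_lit 78) (nat_lit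 0) (nat_lit 0) (XT.lf (nat_lit 0) (nat_lit 850624866) (nat_lit 76) (nat_lit 956643883) (nat_lit 152) (nat_lit 6103582292742) (nat_lit 147) (nat_lit 5) (nat_lit 148) (nat_lit 5) (nat_lit 149) (nat_lit 4) (nat_lit 377) (nat_lit 308) (nat_lit 215)) (XT.lf (nat_lit 0) (nat_lit 2230678236593) (nat_lit 152) (nat_lit 2228131294047) (nat_lit 0) (nat_lit 2228039102818) (nat_lit 147) (nat_lit 5) (nat_lit 149) (nat_lit 4) (nat_lit 147) (nat_lit 4) (nat_lit 378) (nat_lit 308) (nat_lit 214)))))) (XT.nd (nat_lit 41496) (nat_lit 0) (nat_lit 5320) (XT.nd (nat_lit 156) (nat_lit 76) (nat_lit 0) (XT.nd (nat_lit 78) (nat_lit 152) (nat_lit 0) (XT.lf (nat_lit 0) (nat_lit 2447590747126) (nat_lit 76) (nat_lit 2447682939033) (nat_lit 76) (nat_lit 2445043804579) (nat_lit 146) (nat_lit 4) (nat_lit 147) (nat_lit 5) (nat_lit 147) (nat_lit 4) (nat_lit 379) (nat_lit 308) (nat_lit 213)) (XT.lf (nat_lit 0) (nat_lit 739673083)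 (nat_lit 76) (nat_lit 831865580) (nat_lit 152) (nat_lit 8072749638872) (nat_lit 144) (nat_lit 5) (nat_lit 145) (nat_lit 5) (nat_lit 146) (nat_lit 4) (nat_lit 380) (nat_lit 308) (nat_lit 212))) (XT.nd (nat_lit 78) (nat_lit 76) (nat_lit 0) (XT.lf (nat_lit 0) (nat_lit 2949269346790) (nat_lit 152) (nat_lit 2947054614141) (nat_lit 0) (nat_lit 2946974446307) (nat_lit 144) (nat_lit 5) (nat_lit 146) (nat_lit 4) (nat_lit 144) (nat_lit 4) (nat_lit 381) (nat_lit 308) (nat_lit 211)) (XT.nd (nat_lit 41184) (nat_lit 0) (nat_lit 5472) (XT.lf (nat_lit 0) (nat_lit 3236549404398) (nat_lit 76) (nat_lit 3236629572619) (nat_lit 76) (nat_lit 3234334671748) (nat_lit 143) (nat_lit 4) (nat_lit 144) (nat_lit 5) (nat_lit 144) (nat_lit 4) (nat_lit 382) (nat_lit 308) (nat_lit 210)) (XT.lf (nat_lit 0) (nat_lit 1457728809) (nat_lit 380) (nat_lit 2887251062) (nat_lit 380) (nat_lit 2887251062) (nat_lit 215) (nat_lit 3) (nat_lit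 220) (nat_lit 3) (nat_lit 220) (nat_lit 5) (nat_lit 309) (nat_lit 309) (nat_lit 282))))) (XT.nd (nat_lit 156) (nat_lit 152) (nat_lit 0) (XT.nd (nat_lit 78) (nat_lit 0) (nat_lit 76) (XT.lf (nat_lit 76) (nat_lit 1600188670) (nat_lit 0) (nat_lit 1899523903) (nat_lit 380) (nat_lit 11994744591) (nat_lit 216) (nat_lit 5) (nat_lit 215) (nat_lit 3) (nat_lit 220) (nat_lit 5) (nat_lit 310) (nat_lit 309) (nat_lit 281)) (XT.lf (nat_lit 0) (nat_lit 4678708185) (nat_lit 304) (nat_lit 6205405077) (nat_lit 380) (nat_lit 5718773129) (nat_lit 216) (nat_lit 5) (nat_lit 220) (nat_lit 5) (nat_lit 221) (nat_lit 5) (nat_lit 311) (nat_lit 309) (nat_lit 280))) (XT.nd (nat_lit 78) (nat_lit 228) (nat_lit 0) (XT.lf (nat_lit 76) (nat_lit 2754405861) (nat_lit 0) (nat_lit 3437855584) (nat_lit 380) (nat_lit 11661662311) (nat_lit 217) (nat_lit 5) (nat_lit 216) (nat_lit 5) (nat_lit 221) (nat_lit 5) (nat_lit 312) (nat_lit 309) (nat_lit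 279)) (XT.nd (nat_lit 78) (nat_lit 304) (nat_lit 0) (XT.lf (nat_lit 0) (nat_lit 8443011446) (nat_lit 304) (nat_lit 5758103670) (nat_lit 76) (nat_lit 5014977049) (nat_lit 217) (nat_lit 5) (nat_lit 221) (nat_lit 5) (nat_lit 218) (nat_lit 5) (nat_lit 313) (nat_lit 309) (nat_lit 278)) (XT.lf (nat_lit 0) (nat_lit 5251793633) (nat_lit 304) (nat_lit 6124331136) (nat_lit 380) (nat_lit 9354748440) (nat_lit 213) (nat_lit 5) (nat_lit 217) (nat_lit 5) (nat_lit 218) (nat_lit 5) (nat_lit 314) (nat_lit 309) (nat_lit 277))))))))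
noncomputable def xc60 : XT := (XT.nd (nat_lit 1560) (nat_lit 1596) (nat_lit 0) (XT.nd (nat_lit 780) (nat_lit 684) (nat_lit 0) (XT.nd (nat_lit 390) (nat_lit 380) (nat_lit 0) (XT.nd (nat_lit 156) (nat_lit 380) (nat_lit 0) (XT.nd (nat_lit 78) (nat_lit 152) (nat_lit 0) (XT.lf (nat_lit 0) (nat_lit 15162351831) (nat_lit 380) (nat_lit 4052564526) (nat_lit 76) (nat_lit 3195983044) (nat_lit 213) (nat_lit 5) (nat_lit 218) (nat_lit 5) (nat_lit 214) (nat_lit 5) (nat_lit 315) (nat_lit 309) (nat_lit 276)) (XT.lf (nat_lit 0) (nat_lit 9617936402) (nat_lit 152) (nat_lit 10559607640) (nat_lit 228) (nat_lit 4066230816) (nat_lit 211) (nat_lit 5) (nat_lit 213) (nat_lit 5) (nat_lit 214) (nat_lit 5) (nat_lit 316) (nat_lit 309) (nat_lit 275))) (XT.nd (nat_lit 78) (nat_lit 380) (nat_lit 0) (XT.lf (nat_lit 0) (nat_lit 25761426952) (nat_lit 152) (nat_lit 368961320) (nat_lit 228) (nat_lit 193387382) (nat_lit 211) (nat_lit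 5) (nat_lit 213) (nat_lit 5) (nat_lit 214) (nat_lit 5) (nat_lit 317) (nat_lit 309) (nat_lit 274)) (XT.nd (nat_lit 78) (nat_lit 152) (nat_lit 0) (XT.lf (nat_lit 0) (nat_lit 5068571406) (nat_lit 228) (nat_lit 12190877029) (nat_lit 76) (nat_lit 11251744499) (nat_lit 208) (nat_lit 5) (nat_lit 211) (nat_lit 5) (nat_lit 209) (nat_lit 5) (nat_lit 318) (nat_lit 309) (nat_lit 273)) (XT.lf (nat_lit 0) (nat_lit 5176220057) (nat_lit 152) (nat_lit 6164002931) (nat_lit 228) (nat_lit 19649088754) (nat_lit 206) (nat_lit 5) (nat_lit 208) (nat_lit 5) (nat_lit 209) (nat_lit 5) (nat_lit 319) (nat_lit 309) (nat_lit 272))))) (XT.nd (nat_lit 156) (nat_lit 304) (nat_lit 0) (XT.nd (nat_lit 78) (nat_lit 76) (nat_lit 0) (XT.lf (nat_lit 0) (nat_lit 19472045956) (nat_lit 228) (nat_lit 7562458574) (nat_lit 76) (nat_lit 6666730296) (nat_lit 206) (nat_lit 5) (nat_lit 209) (nat_lit 5) (nat_lit 207) (nat_lit 4) (nat_lit 320) (nat_lit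 309) (nat_lit 271)) (XT.lf (nat_lit 0) (nat_lit 14383259070) (nat_lit 76) (nat_lit 15310975739) (nat_lit 152) (nat_lit 6995122696) (nat_lit 205) (nat_lit 5) (nat_lit 206) (nat_lit 5) (nat_lit 207) (nat_lit 4) (nat_lit 321) (nat_lit 309) (nat_lit 270))) (XT.nd (nat_lit 78) (nat_lit 76) (nat_lit 0) (XT.lf (nat_lit 0) (nat_lit 330183380) (nat_lit 152) (nat_lit 1285716041) (nat_lit 228) (nat_lit 38440116869) (nat_lit 202) (nat_lit 5) (nat_lit 204) (nat_lit 5) (nat_lit 205) (nat_lit 5) (nat_lit 322) (nat_lit 309) (nat_lit 269)) (XT.nd (nat_lit 78) (nat_lit 76) (nat_lit 0) (XT.lf (nat_lit 0) (nat_lit 12621172764) (nat_lit 228) (nat_lit 15917826018) (nat_lit 76) (nat_lit 15065895165) (nat_lit 202) (nat_lit 5) (nat_lit 205) (nat_lit 5) (nat_lit 203) (nat_lit 4) (nat_lit 323) (nat_lit 309) (nat_lit 268)) (XT.lf (nat_lit 0) (nat_lit 12485049467) (nat_lit 76) (nat_lit 13355269786) (nat_lit 152) (nat_lit 21761321678)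 (nat_lit 201) (nat_lit 5) (nat_lit 202) (nat_lit 5) (nat_lit 203) (nat_lit 4) (nat_lit 324) (nat_lit 309) (nat_lit 267)))))) (XT.nd (nat_lit 390) (nat_lit 380) (nat_lit 0) (XT.nd (nat_lit 156) (nat_lit 152) (nat_lit 0) (XT.nd (nat_lit 78) (nat_lit 152) (nat_lit 0) (XT.lf (nat_lit 0) (nat_lit 42069384578) (nat_lit 152) (nat_lit 5372500570) (nat_lit 0) (nat_lit 4601957785) (nat_lit 201) (nat_lit 5) (nat_lit 203) (nat_lit 4) (nat_lit 201) (nat_lit 4) (nat_lit 325) (nat_lit 309) (nat_lit 266)) (XT.lf (nat_lit 0) (nat_lit 5256173966) (nat_lit 152) (nat_lit 26178678385) (nat_lit 76) (nat_lit 25396109980) (nat_lit 199) (nat_lit 5) (nat_lit 201) (nat_lit 5) (nat_lit 200) (nat_lit 4) (nat_lit 326) (nat_lit 309) (nat_lit 265))) (XT.nd (nat_lit 78) (nat_lit 76) (nat_lit 0) (XT.lf (nat_lit 0) (nat_lit 10843910521) (nat_lit 76) (nat_lit 11636935989) (nat_lit 152) (nat_lit 39674461011) (nat_lit 198) (nat_lit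 5) (nat_lit 199) (nat_lit 5) (nat_lit 200) (nat_lit 4) (nat_lit 327) (nat_lit 309) (nat_lit 264)) (XT.nd (nat_lit 78) (nat_lit 76) (nat_lit 0) (XT.lf (nat_lit 0) (nat_lit 44171380865) (nat_lit 152) (nat_lit 12261046944) (nat_lit 0) (nat_lit 11563552540) (nat_lit 198) (nat_lit 5) (nat_lit 200) (nat_lit 4) (nat_lit 198) (nat_lit 4) (nat_lit 328) (nat_lit 309) (nat_lit 263)) (XT.lf (nat_lit 0) (nat_lit 35206177794) (nat_lit 76) (nat_lit 35910547886) (nat_lit 76) (nat_lit 3295843874) (nat_lit 197) (nat_lit 4) (nat_lit 198) (nat_lit 5) (nat_lit 198) (nat_lit 4) (nat_lit 329) (nat_lit 309) (nat_lit 262))))) (XT.nd (nat_lit 156) (nat_lit 228) (nat_lit 0) (XT.nd (nat_lit 78) (nat_lit 0) (nat_lit 0) (XT.lf (nat_lit 0) (nat_lit 9422252311) (nat_lit 76) (nat_lit 10132601262) (nat_lit 152) (nat_lit 61952986195) (nat_lit 195) (nat_lit 5) (nat_lit 196) (nat_lit 5) (nat_lit 197) (nat_lit 4) (nat_lit 330) (nat_lit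 309) (nat_lit 261)) (XT.lf (nat_lit 0) (nat_lit 48440211395) (nat_lit 152) (nat_lit 20692094942) (nat_lit 0) (nat_lit 20069879326) (nat_lit 195) (nat_lit 5) (nat_lit 197) (nat_lit 4) (nat_lit 195) (nat_lit 4) (nat_lit 331) (nat_lit 309) (nat_lit 260))) (XT.nd (nat_lit 78) (nat_lit 152) (nat_lit 0) (XT.lf (nat_lit 0) (nat_lit 41614389998) (nat_lit 76) (nat_lit 42240536811) (nat_lit 76) (nat_lit 13866273545) (nat_lit 194) (nat_lit 4) (nat_lit 195) (nat_lit 5) (nat_lit 195) (nat_lit 4) (nat_lit 332) (nat_lit 309) (nat_lit 259)) (XT.nd (nat_lit 78) (nat_lit 0) (nat_lit 0) (XT.lf (nat_lit 0) (nat_lit 8189126188) (nat_lit 76) (nat_lit 8818691433) (nat_lit 152) (nat_lit 90184787717) (nat_lit 192) (nat_lit 5) (nat_lit 193) (nat_lit 5) (nat_lit 194) (nat_lit 4) (nat_lit 333) (nat_lit 309) (nat_lit 258)) (XT.lf (nat_lit 0) (nat_lit 55383273009) (nat_lit 152) (nat_lit 31254476094) (nat_lit 0) (nat_lit 30704443229)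 (nat_lit 192) (nat_lit 5) (nat_lit 194) (nat_lit 4) (nat_lit 192) (nat_lit 4) (nat_lit 334) (nat_lit 309) (nat_lit 257))))))) (XT.nd (nat_lit 780) (nat_lit 836) (nat_lit 0) (XT.nd (nat_lit 390) (nat_lit 304) (nat_lit 0) (XT.nd (nat_lit 156) (nat_lit 228) (nat_lit 0) (XT.nd (nat_lit 78) (nat_lit 152) (nat_lit 0) (XT.lf (nat_lit 0) (nat_lit 50737923842) (nat_lit 76) (nat_lit 51290204381) (nat_lit 76) (nat_lit 26609126926) (nat_lit 191) (nat_lit 4) (nat_lit 192) (nat_lit 5) (nat_lit 192) (nat_lit 4) (nat_lit 335) (nat_lit 309) (nat_lit 256)) (XT.lf (nat_lit 0) (nat_lit 7118614127) (nat_lit 76) (nat_lit 7672849166) (nat_lit 152) (nat_lit 126448107775) (nat_lit 189) (nat_lit 5) (nat_lit 190) (nat_lit 5) (nat_lit 191) (nat_lit 4) (nat_lit 336) (nat_lit 309) (nat_lit 255))) (XT.nd (nat_lit 78) (nat_lit 228) (nat_lit 0) (XT.lf (nat_lit 0) (nat_lit 65695364061) (nat_lit 152) (nat_lit 44713801525) (nat_lit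 0) (nat_lit 44230380131) (nat_lit 189) (nat_lit 5) (nat_lit 191) (nat_lit 4) (nat_lit 189) (nat_lit 4) (nat_lit 337) (nat_lit 309) (nat_lit 254)) (XT.nd (nat_lit 78) (nat_lit 152) (nat_lit 0) (XT.lf (nat_lit 0) (nat_lit 63366331546) (nat_lit 76) (nat_lit 63851038056) (nat_lit 76) (nat_lit 42384769011) (nat_lit 188) (nat_lit 4) (nat_lit 189) (nat_lit 5) (nat_lit 189) (nat_lit 4) (nat_lit 338) (nat_lit 309) (nat_lit 253)) (XT.lf (nat_lit 0) (nat_lit 6188746949) (nat_lit 76) (nat_lit 6674570950) (nat_lit 152) (nat_lit 173471768625) (nat_lit 186) (nat_lit 5) (nat_lit 187) (nat_lit 5) (nat_lit 188) (nat_lit 4) (nat_lit 339) (nat_lit 309) (nat_lit 252))))) (XT.nd (nat_lit 156) (nat_lit 228) (nat_lit 0) (XT.nd (nat_lit 78) (nat_lit 76) (nat_lit 0) (XT.lf (nat_lit 0) (nat_lit 80316535432) (nat_lit 152) (nat_lit 62071698444) (nat_lit 0) (nat_lit 61648397807) (nat_lit 186) (nat_lit 5) (nat_lit 188) (nat_lit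 4) (nat_lit 186) (nat_lit 4) (nat_lit 340) (nat_lit 309) (nat_lit 251)) (XT.lf (nat_lit 0) (nat_lit 80555686431) (nat_lit 76) (nat_lit 80979721837) (nat_lit 76) (nat_lit 62310849444) (nat_lit 185) (nat_lit 4) (nat_lit 186) (nat_lit 5) (nat_lit 186) (nat_lit 4) (nat_lit 341) (nat_lit 309) (nat_lit 250))) (XT.nd (nat_lit 78) (nat_lit 76) (nat_lit 0) (XT.lf (nat_lit 0) (nat_lit 5380745909) (nat_lit 76) (nat_lit 5805420245) (nat_lit 152) (nat_lit 234847121490) (nat_lit 183) (nat_lit 5) (nat_lit 184) (nat_lit 5) (nat_lit 185) (nat_lit 4) (nat_lit 342) (nat_lit 309) (nat_lit 249)) (XT.nd (nat_lit 78) (nat_lit 76) (nat_lit 0) (XT.lf (nat_lit 0) (nat_lit 100508715715) (nat_lit 152) (nat_lit 84643640074) (nat_lit 0) (nat_lit 84273874920) (nat_lit 183) (nat_lit 5) (nat_lit 185) (nat_lit 4) (nat_lit 183) (nat_lit 4) (nat_lit 343) (nat_lit 309) (nat_lit 248)) (XT.lf (nat_lit 0) (nat_lit 103712704540) (nat_lit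 76) (nat_lit 104082889800) (nat_lit 76) (nat_lit 87847628899) (nat_lit 182) (nat_lit 4) (nat_lit 183) (nat_lit 5) (nat_lit 183) (nat_lit 4) (nat_lit 344) (nat_lit 309) (nat_lit 247)))))) (XT.nd (nat_lit 390) (nat_lit 456) (nat_lit 0) (XT.nd (nat_lit 156) (nat_lit 228) (nat_lit 0) (XT.nd (nat_lit 78) (nat_lit 0) (nat_lit 0) (XT.lf (nat_lit 0) (nat_lit 4678467419) (nat_lit 76) (nat_lit 5049017989) (nat_lit 152) (nat_lit 315308252965) (nat_lit 180) (nat_lit 5) (nat_lit 181) (nat_lit 5) (nat_lit 182) (nat_lit 4) (nat_lit 345) (nat_lit 309) (nat_lit 246)) (XT.lf (nat_lit 0) (nat_lit 127957244180) (nat_lit 152) (nat_lit 114161526232) (nat_lit 0) (nat_lit 113839032118) (nat_lit 180) (nat_lit 5) (nat_lit 182) (nat_lit 4) (nat_lit 180) (nat_lit 4) (nat_lit 346) (nat_lit 309) (nat_lit 245))) (XT.nd (nat_lit 78) (nat_lit 152) (nat_lit 0) (XT.lf (nat_lit 0) (nat_lit 134706354490) (nat_lit 76) (nat_lit 135029088801)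 (nat_lit 76) (nat_lit 120910636541) (nat_lit 179) (nat_lit 4) (nat_lit 180) (nat_lit 5) (nat_lit 180) (nat_lit 4) (nat_lit 347) (nat_lit 309) (nat_lit 244)) (XT.nd (nat_lit 78) (nat_lit 0) (nat_lit 0) (XT.lf (nat_lit 0) (nat_lit 4067979786) (nat_lit 76) (nat_lit 4390922964) (nat_lit 152) (nat_lit 421102396246) (nat_lit 177) (nat_lit 5) (nat_lit 178) (nat_lit 5) (nat_lit 179) (nat_lit 4) (nat_lit 348) (nat_lit 309) (nat_lit 243)) (XT.lf (nat_lit 0) (nat_lit 164905372601) (nat_lit 152) (nat_lit 152909096124) (nat_lit 0) (nat_lit 152628118036) (nat_lit 177) (nat_lit 5) (nat_lit 179) (nat_lit 4) (nat_lit 177) (nat_lit 4) (nat_lit 349) (nat_lit 309) (nat_lit 242))))) (XT.nd (nat_lit 156) (nat_lit 228) (nat_lit 0) (XT.nd (nat_lit 78) (nat_lit 152) (nat_lit 0) (XT.lf (nat_lit 0) (nat_lit 176015722234) (nat_lit 76) (nat_lit 176296837656) (nat_lit 76) (nat_lit 164019445757) (nat_lit 176) (nat_lit 4) (nat_lit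 177) (nat_lit 5) (nat_lit 177) (nat_lit 4) (nat_lit 350) (nat_lit 309) (nat_lit 241)) (XT.lf (nat_lit 0) (nat_lit 3537229214) (nat_lit 76) (nat_lit 3818464056) (nat_lit 152) (nat_lit 560479614616) (nat_lit 174) (nat_lit 5) (nat_lit 175) (nat_lit 5) (nat_lit 176) (nat_lit 4) (nat_lit 351) (nat_lit 309) (nat_lit 240))) (XT.nd (nat_lit 78) (nat_lit 228) (nat_lit 0) (XT.lf (nat_lit 0) (nat_lit 214332369926) (nat_lit 152) (nat_lit 203900825163) (nat_lit 0) (nat_lit 203656182827) (nat_lit 174) (nat_lit 5) (nat_lit 176) (nat_lit 4) (nat_lit 174) (nat_lit 4) (nat_lit 352) (nat_lit 309) (nat_lit 239)) (XT.nd (nat_lit 78) (nat_lit 152) (nat_lit 0) (XT.lf (nat_lit 0) (nat_lit 230925759527) (nat_lit 76) (nat_lit 231170480383) (nat_lit 76) (nat_lit 220494214764) (nat_lit 173) (nat_lit 4) (nat_lit 174) (nat_lit 5) (nat_lit 174) (nat_lit 4) (nat_lit 353) (nat_lit 309) (nat_lit 238)) (XT.lf (nat_lit 0) (nat_lit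 3075768865) (nat_lit 76) (nat_lit 3320558001) (nat_lit 152) (nat_lit 744340221065) (nat_lit 171) (nat_lit 5) (nat_lit 172) (nat_lit 5) (nat_lit 173) (nat_lit 4) (nat_lit 354) (nat_lit 309) (nat_lit 237))))))))
noncomputable def xc61 : XT := (XT.nd (nat_lit 1560) (nat_lit 608) (nat_lit 0) (XT.nd (nat_lit 780) (nat_lit 760) (nat_lit 0) (XT.nd (nat_lit 390) (nat_lit 380) (nat_lit 0) (XT.nd (nat_lit 156) (nat_lit 228) (nat_lit 0) (XT.nd (nat_lit 78) (nat_lit 76) (nat_lit 0) (XT.lf (nat_lit 0) (nat_lit 280189279851) (nat_lit 152) (nat_lit 271118371362) (nat_lit 0) (nat_lit 270905459615) (nat_lit 171) (nat_lit 5) (nat_lit 173) (nat_lit 4) (nat_lit 171) (nat_lit 4) (nat_lit 355) (nat_lit 309) (nat_lit 236)) (XT.lf (nat_lit 0) (nat_lit 303786316024) (nat_lit 76) (nat_lit 303999272665) (nat_lit 76) (nat_lit 294715407534) (nat_lit 170) (nat_lit 4) (nat_lit 171) (nat_lit 5) (nat_lit 171) (nat_lit 4) (nat_lit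 356) (nat_lit 309) (nat_lit 235))) (XT.nd (nat_lit 78) (nat_lit 76) (nat_lit 0) (XT.lf (nat_lit 0) (nat_lit 2674534380) (nat_lit 76) (nat_lit 2887530061) (nat_lit 152) (nat_lit 987090813724) (nat_lit 168) (nat_lit 5) (nat_lit 169) (nat_lit 5) (nat_lit 170) (nat_lit 4) (nat_lit 357) (nat_lit 309) (nat_lit 234)) (XT.nd (nat_lit 78) (nat_lit 76) (nat_lit 0) (XT.lf (nat_lit 0) (nat_lit 367710906505) (nat_lit 152) (nat_lit 359823159992) (nat_lit 0) (nat_lit 359637916838) (nat_lit 168) (nat_lit 5) (nat_lit 170) (nat_lit 4) (nat_lit 168) (nat_lit 4) (nat_lit 358) (nat_lit 309) (nat_lit 233)) (XT.lf (nat_lit 0) (nat_lit 400354834206) (nat_lit 76) (nat_lit 400540103028) (nat_lit 76) (nat_lit 392467087693) (nat_lit 167) (nat_lit 4) (nat_lit 168) (nat_lit 5) (nat_lit 168) (nat_lit 4) (nat_lit 359) (nat_lit 309) (nat_lit 232))))) (XT.nd (nat_lit 156) (nat_lit 228) (nat_lit 0) (XT.nd (nat_lit 78) (nat_lit 0)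 (nat_lit 0) (XT.lf (nat_lit 0) (nat_lit 2325655059) (nat_lit 76) (nat_lit 2510946203) (nat_lit 152) (nat_lit 1307776220413) (nat_lit 165) (nat_lit 5) (nat_lit 166) (nat_lit 5) (nat_lit 167) (nat_lit 4) (nat_lit 360) (nat_lit 309) (nat_lit 231)) (XT.lf (nat_lit 0) (nat_lit 483828591946) (nat_lit 152) (nat_lit 476969681935) (nat_lit 0) (nat_lit 476808542324) (nat_lit 165) (nat_lit 5) (nat_lit 167) (nat_lit 4) (nat_lit 165) (nat_lit 4) (nat_lit 361) (nat_lit 309) (nat_lit 230))) (XT.nd (nat_lit 78) (nat_lit 152) (nat_lit 0) (XT.lf (nat_lit 0) (nat_lit 528249666569) (nat_lit 76) (nat_lit 528410820856) (nat_lit 76) (nat_lit 521390756559) (nat_lit 164) (nat_lit 4) (nat_lit 165) (nat_lit 5) (nat_lit 165) (nat_lit 4) (nat_lit 362) (nat_lit 309) (nat_lit 229)) (XT.nd (nat_lit 78) (nat_lit 0) (nat_lit 0) (XT.lf (nat_lit 0) (nat_lit 2022293304) (nat_lit 76) (nat_lit 2183460353) (nat_lit 152) (nat_lit 1731576349395)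 (nat_lit 162) (nat_lit 5) (nat_lit 163) (nat_lit 5) (nat_lit 164) (nat_lit 4) (nat_lit 363) (nat_lit 309) (nat_lit 228)) (XT.lf (nat_lit 0) (nat_lit 637716271135) (nat_lit 152) (nat_lit 631752001560) (nat_lit 0) (nat_lit 631611846651) (nat_lit 162) (nat_lit 5) (nat_lit 164) (nat_lit 4) (nat_lit 162) (nat_lit 4) (nat_lit 364) (nat_lit 309) (nat_lit 227)))))) (XT.nd (nat_lit 390) (nat_lit 304) (nat_lit 0) (XT.nd (nat_lit 156) (nat_lit 228) (nat_lit 0) (XT.nd (nat_lit 78) (nat_lit 152) (nat_lit 0) (XT.lf (nat_lit 0) (nat_lit 697549674182) (nat_lit 76) (nat_lit 697689837482) (nat_lit 76) (nat_lit 691585404607) (nat_lit 161) (nat_lit 4) (nat_lit 162) (nat_lit 5) (nat_lit 162) (nat_lit 4) (nat_lit 365) (nat_lit 309) (nat_lit 226)) (XT.lf (nat_lit 0) (nat_lit 1758507087) (nat_lit 76) (nat_lit 1898677684) (nat_lit 152) (nat_lit 2291785644884) (nat_lit 159) (nat_lit 5) (nat_lit 160) (nat_lit 5) (nat_lit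 161) (nat_lit 4) (nat_lit 366) (nat_lit 309) (nat_lit 225))) (XT.nd (nat_lit 78) (nat_lit 228) (nat_lit 0) (XT.lf (nat_lit 0) (nat_lit 841512767796) (nat_lit 152) (nat_lit 836326446427) (nat_lit 0) (nat_lit 836204553433) (nat_lit 159) (nat_lit 5) (nat_lit 161) (nat_lit 4) (nat_lit 159) (nat_lit 4) (nat_lit 367) (nat_lit 309) (nat_lit 224)) (XT.nd (nat_lit 78) (nat_lit 152) (nat_lit 0) (XT.lf (nat_lit 0) (nat_lit 921587269245) (nat_lit 76) (nat_lit 921709167036) (nat_lit 76) (nat_lit 916400947876) (nat_lit 158) (nat_lit 4) (nat_lit 159) (nat_lit 5) (nat_lit 159) (nat_lit 4) (nat_lit 368) (nat_lit 309) (nat_lit 223)) (XT.lf (nat_lit 0) (nat_lit 1529131549) (nat_lit 76) (nat_lit 1651033511) (nat_lit 152) (nat_lit 3032430802692) (nat_lit 156) (nat_lit 5) (nat_lit 157) (nat_lit 5) (nat_lit 158) (nat_lit 4) (nat_lit 369) (nat_lit 309) (nat_lit 222))))) (XT.nd (nat_lit 156) (nat_lit 228) (nat_lit 0) (XT.nd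 (nat_lit 78) (nat_lit 76) (nat_lit 0) (XT.lf (nat_lit 0) (nat_lit 1111277151904) (nat_lit 152) (nat_lit 1106767307236) (nat_lit 0) (nat_lit 1106661302374) (nat_lit 156) (nat_lit 5) (nat_lit 158) (nat_lit 4) (nat_lit 156) (nat_lit 4) (nat_lit 370) (nat_lit 309) (nat_lit 221)) (XT.lf (nat_lit 0) (nat_lit 1217997276752) (nat_lit 76) (nat_lit 1218103284356) (nat_lit 76) (nat_lit 1213487432083) (nat_lit 155) (nat_lit 4) (nat_lit 156) (nat_lit 5) (nat_lit 156) (nat_lit 4) (nat_lit 371) (nat_lit 309) (nat_lit 220))) (XT.nd (nat_lit 78) (nat_lit 76) (nat_lit 0) (XT.lf (nat_lit 0) (nat_lit 1329676721) (nat_lit 76) (nat_lit 1435686710) (nat_lit 152) (nat_lit 4011732598901) (nat_lit 153) (nat_lit 5) (nat_lit 154) (nat_lit 5) (nat_lit 155) (nat_lit 4) (nat_lit 372) (nat_lit 309) (nat_lit 219)) (XT.nd (nat_lit 78) (nat_lit 76) (nat_lit 0) (XT.lf (nat_lit 0) (nat_lit 1468252305996) (nat_lit 152) (nat_lit 1464330701936)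 (nat_lit 0) (nat_lit 1464238517533) (nat_lit 153) (nat_lit 5) (nat_lit 155) (nat_lit 4) (nat_lit 153) (nat_lit 4) (nat_lit 373) (nat_lit 309) (nat_lit 218)) (XT.lf (nat_lit 0) (nat_lit 1610104108106) (nat_lit 76) (nat_lit 1610196294077) (nat_lit 76) (nat_lit 1606182504046) (nat_lit 152) (nat_lit 4) (nat_lit 153) (nat_lit 5) (nat_lit 153) (nat_lit 4) (nat_lit 374) (nat_lit 309) (nat_lit 217))))))) (XT.nd (nat_lit 41964) (nat_lit 0) (nat_lit 4712) (XT.nd (nat_lit 390) (nat_lit 228) (nat_lit 0) (XT.nd (nat_lit 156) (nat_lit 228) (nat_lit 0) (XT.nd (nat_lit 78) (nat_lit 0) (nat_lit 0) (XT.lf (nat_lit 0) (nat_lit 1156238977) (nat_lit 76) (nat_lit 1248426312) (nat_lit 152) (nat_lit 5306684070596) (nat_lit 150) (nat_lit 5) (nat_lit 151) (nat_lit 5) (nat_lit 152) (nat_lit 4) (nat_lit 375) (nat_lit 309) (nat_lit 216)) (XT.lf (nat_lit 0) (nat_lit 1940536084145) (nat_lit 152) (nat_lit 1937125993658) (nat_lit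 0) (nat_lit 1937045829726) (nat_lit 150) (nat_lit 5) (nat_lit 152) (nat_lit 4) (nat_lit 150) (nat_lit 4) (nat_lit 376) (nat_lit 309) (nat_lit 215))) (XT.nd (nat_lit 78) (nat_lit 152) (nat_lit 0) (XT.lf (nat_lit 0) (nat_lit 2128756344918) (nat_lit 76) (nat_lit 2128836509746) (nat_lit 76) (nat_lit 2125346254431) (nat_lit 149) (nat_lit 4) (nat_lit 150) (nat_lit 5) (nat_lit 150) (nat_lit 4) (nat_lit 377) (nat_lit 309) (nat_lit 214)) (XT.nd (nat_lit 78) (nat_lit 0) (nat_lit 0) (XT.lf (nat_lit 0) (nat_lit 1005424253) (nat_lit 76) (nat_lit 1085589861) (nat_lit 152) (nat_lit 7019105083341) (nat_lit 147) (nat_lit 5) (nat_lit 148) (nat_lit 5) (nat_lit 149) (nat_lit 4) (nat_lit 378) (nat_lit 309) (nat_lit 213)) (XT.lf (nat_lit 0) (nat_lit 2565291500398) (nat_lit 152) (nat_lit 2562326204322) (nat_lit 0) (nat_lit 2562256494509) (nat_lit 147) (nat_lit 5) (nat_lit 149) (nat_lit 4) (nat_lit 147) (nat_lit 4) (nat_lit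 379) (nat_lit 309) (nat_lit 212))))) (XT.nd (nat_lit 156) (nat_lit 0) (nat_lit 0) (XT.nd (nat_lit 78) (nat_lit 152) (nat_lit 0) (XT.lf (nat_lit 0) (nat_lit 2814753016488) (nat_lit 76) (nat_lit 2814822726815) (nat_lit 76) (nat_lit 2811787720413) (nat_lit 146) (nat_lit 4) (nat_lit 147) (nat_lit 5) (nat_lit 147) (nat_lit 4) (nat_lit 380) (nat_lit 309) (nat_lit 211)) (XT.lf (nat_lit 0) (nat_lit 874281420) (nat_lit 76) (nat_lit 943992192) (nat_lit 152) (nat_lit 9283649429930) (nat_lit 144) (nat_lit 5) (nat_lit 145) (nat_lit 5) (nat_lit 146) (nat_lit 4) (nat_lit 381) (nat_lit 309) (nat_lit 210))) (XT.nd (nat_lit 41262) (nat_lit 0) (nat_lit 5396) (XT.lf (nat_lit 0) (nat_lit 3391669773238) (nat_lit 152) (nat_lit 3389091254911) (nat_lit 0) (nat_lit 3389030636511) (nat_lit 144) (nat_lit 5) (nat_lit 146) (nat_lit 4) (nat_lit 144) (nat_lit 4) (nat_lit 382) (nat_lit 309) (nat_lit 209)) (XT.nd (nat_lit 78) (nat_lit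 0) (nat_lit 0) (XT.lf (nat_lit 0) (nat_lit 1963328530) (nat_lit 380) (nat_lit 3155347992) (nat_lit 380) (nat_lit 3155347992) (nat_lit 215) (nat_lit 3) (nat_lit 220) (nat_lit 3) (nat_lit 220) (nat_lit 5) (nat_lit 310) (nat_lit 310) (nat_lit 280)) (XT.lf (nat_lit 76) (nat_lit 2155199273) (nat_lit 0) (nat_lit 2381539714) (nat_lit 380) (nat_lit 13205076323) (nat_lit 216) (nat_lit 5) (nat_lit 215) (nat_lit 3) (nat_lit 220) (nat_lit 5) (nat_lit 311) (nat_lit 310) (nat_lit 279)))))) (XT.nd (nat_lit 390) (nat_lit 532) (nat_lit 0) (XT.nd (nat_lit 156) (nat_lit 228) (nat_lit 0) (XT.nd (nat_lit 78) (nat_lit 0) (nat_lit 0) (XT.lf (nat_lit 0) (nat_lit 5818695774) (nat_lit 304) (nat_lit 6788430019) (nat_lit 380) (nat_lit 6420466353) (nat_lit 216) (nat_lit 5) (nat_lit 220) (nat_lit 5) (nat_lit 221) (nat_lit 5) (nat_lit 312) (nat_lit 310) (nat_lit 278)) (XT.lf (nat_lit 76) (nat_lit 3499544114) (nat_lit 0) (nat_lit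 4016330294) (nat_lit 380) (nat_lit 12956921850) (nat_lit 217) (nat_lit 5) (nat_lit 216) (nat_lit 5) (nat_lit 221) (nat_lit 5) (nat_lit 313) (nat_lit 310) (nat_lit 277))) (XT.nd (nat_lit 78) (nat_lit 304) (nat_lit 0) (XT.lf (nat_lit 0) (nat_lit 10050483582) (nat_lit 304) (nat_lit 6279389916) (nat_lit 76) (nat_lit 5717479428) (nat_lit 217) (nat_lit 5) (nat_lit 221) (nat_lit 5) (nat_lit 218) (nat_lit 5) (nat_lit 314) (nat_lit 310) (nat_lit 276)) (XT.nd (nat_lit 78) (nat_lit 0) (nat_lit 0) (XT.lf (nat_lit 0) (nat_lit 6366427014) (nat_lit 304) (nat_lit 7026190722) (nat_lit 380) (nat_lit 10401375318) (nat_lit 213) (nat_lit 5) (nat_lit 217) (nat_lit 5) (nat_lit 218) (nat_lit 5) (nat_lit 315) (nat_lit 310) (nat_lit 275)) (XT.lf (nat_lit 0) (nat_lit 17706938947) (nat_lit 380) (nat_lit 4336379439) (nat_lit 76) (nat_lit 3688680775) (nat_lit 213) (nat_lit 5) (nat_lit 218) (nat_lit 5) (nat_lit 214) (nat_lit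 5) (nat_lit 316) (nat_lit 310) (nat_lit 274))))) (XT.nd (nat_lit 156) (nat_lit 304) (nat_lit 0) (XT.nd (nat_lit 78) (nat_lit 76) (nat_lit 0) (XT.lf (nat_lit 0) (nat_lit 11369966185) (nat_lit 152) (nat_lit 12082004928) (nat_lit 228) (nat_lit 4391200654) (nat_lit 211) (nat_lit 5) (nat_lit 213) (nat_lit 5) (nat_lit 214) (nat_lit 5) (nat_lit 317) (nat_lit 310) (nat_lit 273)) (XT.lf (nat_lit 0) (nat_lit 23138693) (nat_lit 228) (nat_lit 346440904) (nat_lit 76) (nat_lit 29870283495) (nat_lit 210) (nat_lit 5) (nat_lit 213) (nat_lit 5) (nat_lit 211) (nat_lit 5) (nat_lit 318) (nat_lit 310) (nat_lit 272))) (XT.nd (nat_lit 78) (nat_lit 152) (nat_lit 0) (XT.lf (nat_lit 0) (nat_lit 6039552059) (nat_lit 228) (nat_lit 13713417345) (nat_lit 76) (nat_lit 13003298230) (nat_lit 208) (nat_lit 5) (nat_lit 211) (nat_lit 5) (nat_lit 209) (nat_lit 5) (nat_lit 319) (nat_lit 310) (nat_lit 271)) (XT.nd (nat_lit 78) (nat_lit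 0) (nat_lit 0) (XT.lf (nat_lit 0) (nat_lit 6244831066) (nat_lit 152) (nat_lit 6991736831) (nat_lit 228) (nat_lit 22371843888) (nat_lit 206) (nat_lit 5) (nat_lit 208) (nat_lit 5) (nat_lit 209) (nat_lit 5) (nat_lit 320) (nat_lit 310) (nat_lit 270)) (XT.lf (nat_lit 0) (nat_lit 22566176760) (nat_lit 228) (nat_lit 8420771984) (nat_lit 76) (nat_lit 7743472719) (nat_lit 206) (nat_lit 5) (nat_lit 209) (nat_lit 5) (nat_lit 207) (nat_lit 4) (nat_lit 321) (nat_lit 310) (nat_lit 269))))))))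
noncomputable def xc62 : XT := (XT.nd (nat_lit 1560) (nat_lit 1596) (nat_lit 0) (XT.nd (nat_lit 780) (nat_lit 684) (nat_lit 0) (XT.nd (nat_lit 390) (nat_lit 456) (nat_lit 0) (XT.nd (nat_lit 156) (nat_lit 76) (nat_lit 0) (XT.nd (nat_lit 78) (nat_lit 228) (nat_lit 0) (XT.lf (nat_lit 0) (nat_lit 16804255335) (nat_lit 76) (nat_lit 17505742419) (nat_lit 152) (nat_lit 7858519218) (nat_lit 205) (nat_lit 5) (nat_lit 206) (nat_lit 5) (nat_lit 207) (nat_lit 4) (nat_lit 322) (nat_lit 310) (nat_lit 268)) (XT.lf (nat_lit 0) (nat_lit 647036119) (nat_lit 152) (nat_lit 1369556090) (nat_lit 228) (nat_lit 44024080345) (nat_lit 202) (nat_lit 5) (nat_lit 204) (nat_lit 5) (nat_lit 205) (nat_lit 5) (nat_lit 323) (nat_lit 310) (nat_lit 267))) (XT.nd (nat_lit 78) (nat_lit 76) (nat_lit 0) (XT.lf (nat_lit 0) (nat_lit 14655933071) (nat_lit 228) (nat_lit 18056319715) (nat_lit 76) (nat_lit 17412137596) (nat_lit 202) (nat_lit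 5) (nat_lit 205) (nat_lit 5) (nat_lit 203) (nat_lit 4) (nat_lit 324) (nat_lit 310) (nat_lit 266)) (XT.nd (nat_lit 78) (nat_lit 0) (nat_lit 0) (XT.lf (nat_lit 0) (nat_lit 14595660720) (nat_lit 76) (nat_lit 15253672303) (nat_lit 152) (nat_lit 24872609165) (nat_lit 201) (nat_lit 5) (nat_lit 202) (nat_lit 5) (nat_lit 203) (nat_lit 4) (nat_lit 325) (nat_lit 310) (nat_lit 265)) (XT.lf (nat_lit 0) (nat_lit 48499191455) (nat_lit 152) (nat_lit 5957979543) (nat_lit 0) (nat_lit 5375338496) (nat_lit 201) (nat_lit 5) (nat_lit 203) (nat_lit 4) (nat_lit 201) (nat_lit 4) (nat_lit 326) (nat_lit 310) (nat_lit 264))))) (XT.nd (nat_lit 156) (nat_lit 228) (nat_lit 0) (XT.nd (nat_lit 78) (nat_lit 76) (nat_lit 0) (XT.lf (nat_lit 0) (nat_lit 6162495643) (nat_lit 152) (nat_lit 29883580423) (nat_lit 76) (nat_lit 29291846278) (nat_lit 199) (nat_lit 5) (nat_lit 201) (nat_lit 5) (nat_lit 200) (nat_lit 4) (nat_lit 327) (nat_lit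 310) (nat_lit 263)) (XT.lf (nat_lit 0) (nat_lit 12682310469) (nat_lit 76) (nat_lit 13281951654) (nat_lit 152) (nat_lit 45497648230) (nat_lit 198) (nat_lit 5) (nat_lit 199) (nat_lit 5) (nat_lit 200) (nat_lit 4) (nat_lit 328) (nat_lit 310) (nat_lit 262))) (XT.nd (nat_lit 78) (nat_lit 228) (nat_lit 0) (XT.lf (nat_lit 0) (nat_lit 50897480300) (nat_lit 152) (nat_lit 13905122116) (nat_lit 0) (nat_lit 13377716139) (nat_lit 198) (nat_lit 5) (nat_lit 200) (nat_lit 4) (nat_lit 198) (nat_lit 4) (nat_lit 329) (nat_lit 310) (nat_lit 261)) (XT.nd (nat_lit 78) (nat_lit 152) (nat_lit 0) (XT.lf (nat_lit 0) (nat_lit 40673318976) (nat_lit 76) (nat_lit 41205923960) (nat_lit 76) (nat_lit 3680960791) (nat_lit 197) (nat_lit 4) (nat_lit 198) (nat_lit 5) (nat_lit 198) (nat_lit 4) (nat_lit 330) (nat_lit 310) (nat_lit 260)) (XT.lf (nat_lit 0) (nat_lit 11022625286) (nat_lit 76) (nat_lit 11559751146) (nat_lit 152) (nat_lit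 71137495077) (nat_lit 195) (nat_lit 5) (nat_lit 196) (nat_lit 5) (nat_lit 197) (nat_lit 4) (nat_lit 331) (nat_lit 310) (nat_lit 259)))))) (XT.nd (nat_lit 390) (nat_lit 380) (nat_lit 0) (XT.nd (nat_lit 156) (nat_lit 228) (nat_lit 0) (XT.nd (nat_lit 78) (nat_lit 76) (nat_lit 0) (XT.lf (nat_lit 0) (nat_lit 55791577888) (nat_lit 152) (nat_lit 23624309902) (nat_lit 0) (nat_lit 23153825504) (nat_lit 195) (nat_lit 5) (nat_lit 197) (nat_lit 4) (nat_lit 195) (nat_lit 4) (nat_lit 332) (nat_lit 310) (nat_lit 258)) (XT.lf (nat_lit 0) (nat_lit 48020347811) (nat_lit 76) (nat_lit 48493804759) (nat_lit 76) (nat_lit 15853079825) (nat_lit 194) (nat_lit 4) (nat_lit 195) (nat_lit 5) (nat_lit 195) (nat_lit 4) (nat_lit 333) (nat_lit 310) (nat_lit 257))) (XT.nd (nat_lit 78) (nat_lit 76) (nat_lit 0) (XT.lf (nat_lit 0) (nat_lit 9581763620) (nat_lit 76) (nat_lit 10057805393) (nat_lit 152) (nat_lit 103619840313) (nat_lit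 192) (nat_lit 5) (nat_lit 193) (nat_lit 5) (nat_lit 194) (nat_lit 4) (nat_lit 334) (nat_lit 310) (nat_lit 256)) (XT.nd (nat_lit 78) (nat_lit 76) (nat_lit 0) (XT.lf (nat_lit 0) (nat_lit 63763845842) (nat_lit 152) (nat_lit 35792308463) (nat_lit 0) (nat_lit 35376404595) (nat_lit 192) (nat_lit 5) (nat_lit 194) (nat_lit 4) (nat_lit 192) (nat_lit 4) (nat_lit 335) (nat_lit 310) (nat_lit 255)) (XT.lf (nat_lit 0) (nat_lit 58492117871) (nat_lit 76) (nat_lit 58909721303) (nat_lit 76) (nat_lit 30520580491) (nat_lit 191) (nat_lit 4) (nat_lit 192) (nat_lit 5) (nat_lit 192) (nat_lit 4) (nat_lit 336) (nat_lit 310) (nat_lit 254))))) (XT.nd (nat_lit 156) (nat_lit 228) (nat_lit 0) (XT.nd (nat_lit 78) (nat_lit 0) (nat_lit 0) (XT.lf (nat_lit 0) (nat_lit 8330179959) (nat_lit 76) (nat_lit 8749261274) (nat_lit 152) (nat_lit 145335676728) (nat_lit 189) (nat_lit 5) (nat_lit 190) (nat_lit 5) (nat_lit 191) (nat_lit 4) (nat_lit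 337) (nat_lit 310) (nat_lit 253)) (XT.lf (nat_lit 0) (nat_lit 75612576465) (nat_lit 152) (nat_lit 51289500483) (nat_lit 0) (nat_lit 50923964457) (nat_lit 189) (nat_lit 5) (nat_lit 191) (nat_lit 4) (nat_lit 189) (nat_lit 4) (nat_lit 338) (nat_lit 310) (nat_lit 252))) (XT.nd (nat_lit 78) (nat_lit 152) (nat_lit 0) (XT.lf (nat_lit 0) (nat_lit 72996681128) (nat_lit 76) (nat_lit 73363188886) (nat_lit 76) (nat_lit 48673605146) (nat_lit 188) (nat_lit 4) (nat_lit 189) (nat_lit 5) (nat_lit 189) (nat_lit 4) (nat_lit 339) (nat_lit 310) (nat_lit 251)) (XT.nd (nat_lit 78) (nat_lit 0) (nat_lit 0) (XT.lf (nat_lit 0) (nat_lit 7242612220) (nat_lit 76) (nat_lit 7609964962) (nat_lit 152) (nat_lit 199423808081) (nat_lit 186) (nat_lit 5) (nat_lit 187) (nat_lit 5) (nat_lit 188) (nat_lit 4) (nat_lit 340) (nat_lit 310) (nat_lit 250)) (XT.lf (nat_lit 0) (nat_lit 92418351302) (nat_lit 152) (nat_lit 71267850448) (nat_lit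 0) (nat_lit 70947774352) (nat_lit 186) (nat_lit 5) (nat_lit 188) (nat_lit 4) (nat_lit 186) (nat_lit 4) (nat_lit 341) (nat_lit 310) (nat_lit 249))))))) (XT.nd (nat_lit 780) (nat_lit 836) (nat_lit 0) (XT.nd (nat_lit 390) (nat_lit 304) (nat_lit 0) (XT.nd (nat_lit 156) (nat_lit 228) (nat_lit 0) (XT.nd (nat_lit 78) (nat_lit 152) (nat_lit 0) (XT.lf (nat_lit 0) (nat_lit 92748432943) (nat_lit 76) (nat_lit 93069064630) (nat_lit 76) (nat_lit 71597932088) (nat_lit 185) (nat_lit 4) (nat_lit 186) (nat_lit 5) (nat_lit 186) (nat_lit 4) (nat_lit 342) (nat_lit 310) (nat_lit 248)) (XT.lf (nat_lit 0) (nat_lit 6297339037) (nat_lit 76) (nat_lit 6618453846) (nat_lit 152) (nat_lit 270014732637) (nat_lit 183) (nat_lit 5) (nat_lit 184) (nat_lit 5) (nat_lit 185) (nat_lit 4) (nat_lit 343) (nat_lit 310) (nat_lit 247))) (XT.nd (nat_lit 78) (nat_lit 228) (nat_lit 0) (XT.lf (nat_lit 0) (nat_lit 115632061620) (nat_lit 152) (nat_lit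 97240321746) (nat_lit 0) (nat_lit 96960726167) (nat_lit 183) (nat_lit 5) (nat_lit 185) (nat_lit 4) (nat_lit 183) (nat_lit 4) (nat_lit 344) (nat_lit 310) (nat_lit 246)) (XT.nd (nat_lit 78) (nat_lit 152) (nat_lit 0) (XT.lf (nat_lit 0) (nat_lit 119364935271) (nat_lit 76) (nat_lit 119644848511) (nat_lit 76) (nat_lit 100973195398) (nat_lit 182) (nat_lit 4) (nat_lit 183) (nat_lit 5) (nat_lit 183) (nat_lit 4) (nat_lit 345) (nat_lit 310) (nat_lit 245)) (XT.lf (nat_lit 0) (nat_lit 5475612723) (nat_lit 76) (nat_lit 5755802189) (nat_lit 152) (nat_lit 362552963214) (nat_lit 180) (nat_lit 5) (nat_lit 181) (nat_lit 5) (nat_lit 182) (nat_lit 4) (nat_lit 346) (nat_lit 310) (nat_lit 244))))) (XT.nd (nat_lit 156) (nat_lit 228) (nat_lit 0) (XT.nd (nat_lit 78) (nat_lit 76) (nat_lit 0) (XT.lf (nat_lit 0) (nat_lit 147191613960) (nat_lit 152) (nat_lit 131198796679) (nat_lit 0) (nat_lit 130954944797) (nat_lit 180) (nat_lit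 5) (nat_lit 182) (nat_lit 4) (nat_lit 180) (nat_lit 4) (nat_lit 347) (nat_lit 310) (nat_lit 243)) (XT.lf (nat_lit 0) (nat_lit 154995313492) (nat_lit 76) (nat_lit 155239346998) (nat_lit 76) (nat_lit 139002496211) (nat_lit 179) (nat_lit 4) (nat_lit 180) (nat_lit 5) (nat_lit 180) (nat_lit 4) (nat_lit 348) (nat_lit 310) (nat_lit 242))) (XT.nd (nat_lit 78) (nat_lit 76) (nat_lit 0) (XT.lf (nat_lit 0) (nat_lit 4761211250) (nat_lit 76) (nat_lit 5005402689) (nat_lit 152) (nat_lit 484223048539) (nat_lit 177) (nat_lit 5) (nat_lit 178) (nat_lit 5) (nat_lit 179) (nat_lit 4) (nat_lit 349) (nat_lit 310) (nat_lit 241)) (XT.nd (nat_lit 78) (nat_lit 76) (nat_lit 0) (XT.lf (nat_lit 0) (nat_lit 189676573531) (nat_lit 152) (nat_lit 175769775895) (nat_lit 0) (nat_lit 175557316093) (nat_lit 177) (nat_lit 5) (nat_lit 179) (nat_lit 4) (nat_lit 177) (nat_lit 4) (nat_lit 350) (nat_lit 310) (nat_lit 240)) (XT.lf (nat_lit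 0) (nat_lit 202490325006) (nat_lit 76) (nat_lit 202702888652) (nat_lit 76) (nat_lit 188583527370) (nat_lit 176) (nat_lit 4) (nat_lit 177) (nat_lit 5) (nat_lit 177) (nat_lit 4) (nat_lit 351) (nat_lit 310) (nat_lit 239)))))) (XT.nd (nat_lit 390) (nat_lit 456) (nat_lit 0) (XT.nd (nat_lit 156) (nat_lit 228) (nat_lit 0) (XT.nd (nat_lit 78) (nat_lit 0) (nat_lit 0) (XT.lf (nat_lit 0) (nat_lit 4140074423) (nat_lit 76) (nat_lit 4352728368) (nat_lit 152) (nat_lit 644512737948) (nat_lit 174) (nat_lit 5) (nat_lit 175) (nat_lit 5) (nat_lit 176) (nat_lit 4) (nat_lit 352) (nat_lit 310) (nat_lit 238)) (XT.lf (nat_lit 0) (nat_lit 246512964504) (nat_lit 152) (nat_lit 234420096994) (nat_lit 0) (nat_lit 234235112241) (nat_lit 174) (nat_lit 5) (nat_lit 176) (nat_lit 4) (nat_lit 174) (nat_lit 4) (nat_lit 353) (nat_lit 310) (nat_lit 237))) (XT.nd (nat_lit 78) (nat_lit 152) (nat_lit 0) (XT.lf (nat_lit 0) (nat_lit 265627482128)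 (nat_lit 76) (nat_lit 265812526255) (nat_lit 76) (nat_lit 253534614619) (nat_lit 173) (nat_lit 4) (nat_lit 174) (nat_lit 5) (nat_lit 174) (nat_lit 4) (nat_lit 354) (nat_lit 310) (nat_lit 236)) (XT.nd (nat_lit 78) (nat_lit 0) (nat_lit 0) (XT.lf (nat_lit 0) (nat_lit 3600002239) (nat_lit 76) (nat_lit 3785097994) (nat_lit 152) (nat_lit 855957531237) (nat_lit 171) (nat_lit 5) (nat_lit 172) (nat_lit 5) (nat_lit 173) (nat_lit 4) (nat_lit 355) (nat_lit 310) (nat_lit 235)) (XT.lf (nat_lit 0) (nat_lit 322244379055) (nat_lit 152) (nat_lit 311728842091) (nat_lit 0) (nat_lit 311567850222) (nat_lit 171) (nat_lit 5) (nat_lit 173) (nat_lit 4) (nat_lit 171) (nat_lit 4) (nat_lit 356) (nat_lit 310) (nat_lit 234))))) (XT.nd (nat_lit 156) (nat_lit 228) (nat_lit 0) (XT.nd (nat_lit 78) (nat_lit 152) (nat_lit 0) (XT.lf (nat_lit 0) (nat_lit 349408944540) (nat_lit 76) (nat_lit 349569970356) (nat_lit 76) (nat_lit 338893407576)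 (nat_lit 170) (nat_lit 4) (nat_lit 171) (nat_lit 5) (nat_lit 171) (nat_lit 4) (nat_lit 357) (nat_lit 310) (nat_lit 233)) (XT.lf (nat_lit 0) (nat_lit 3130401008) (nat_lit 76) (nat_lit 3291456343) (nat_lit 152) (nat_lit 1135125130052) (nat_lit 168) (nat_lit 5) (nat_lit 169) (nat_lit 5) (nat_lit 170) (nat_lit 4) (nat_lit 358) (nat_lit 310) (nat_lit 232))) (XT.nd (nat_lit 78) (nat_lit 228) (nat_lit 0) (XT.lf (nat_lit 0) (nat_lit 422890753339) (nat_lit 152) (nat_lit 413746808153) (nat_lit 0) (nat_lit 413606737715) (nat_lit 168) (nat_lit 5) (nat_lit 170) (nat_lit 4) (nat_lit 168) (nat_lit 4) (nat_lit 359) (nat_lit 310) (nat_lit 231)) (XT.nd (nat_lit 78) (nat_lit 152) (nat_lit 0) (XT.lf (nat_lit 0) (nat_lit 460455620364) (nat_lit 76) (nat_lit 460595710211) (nat_lit 76) (nat_lit 451311675178) (nat_lit 167) (nat_lit 4) (nat_lit 168) (nat_lit 5) (nat_lit 168) (nat_lit 4) (nat_lit 360) (nat_lit 310) (nat_lit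 230)) (XT.lf (nat_lit 0) (nat_lit 2722067410) (nat_lit 76) (nat_lit 2862174134) (nat_lit 152) (nat_lit 1503917180869) (nat_lit 165) (nat_lit 5) (nat_lit 166) (nat_lit 5) (nat_lit 167) (nat_lit 4) (nat_lit 361) (nat_lit 310) (nat_lit 229))))))))
noncomputable def xc63 : XT := (XT.nd (nat_lit 1560) (nat_lit 152) (nat_lit 0) (XT.nd (nat_lit 780) (nat_lit 760) (nat_lit 0) (XT.nd (nat_lit 390) (nat_lit 380) (nat_lit 0) (XT.nd (nat_lit 156) (nat_lit 228) (nat_lit 0) (XT.nd (nat_lit 78) (nat_lit 76) (nat_lit 0) (XT.lf (nat_lit 0) (nat_lit 556423056765) (nat_lit 152) (nat_lit 548471800081) (nat_lit 0) (nat_lit 548349955385) (nat_lit 165) (nat_lit 5) (nat_lit 167) (nat_lit 4) (nat_lit 165) (nat_lit 4) (nat_lit 362) (nat_lit 310) (nat_lit 228)) (XT.lf (nat_lit 0) (nat_lit 607528480965) (nat_lit 76) (nat_lit 607650336758) (nat_lit 76) (nat_lit 599577224281) (nat_lit 164) (nat_lit 4) (nat_lit 165) (nat_lit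 5) (nat_lit 165) (nat_lit 4) (nat_lit 363) (nat_lit 310) (nat_lit 227))) (XT.nd (nat_lit 78) (nat_lit 76) (nat_lit 0) (XT.lf (nat_lit 0) (nat_lit 2367003461) (nat_lit 76) (nat_lit 2488868905) (nat_lit 152) (nat_lit 1991290657794) (nat_lit 162) (nat_lit 5) (nat_lit 163) (nat_lit 5) (nat_lit 164) (nat_lit 4) (nat_lit 364) (nat_lit 310) (nat_lit 226)) (XT.nd (nat_lit 78) (nat_lit 76) (nat_lit 0) (XT.lf (nat_lit 0) (nat_lit 733391251987) (nat_lit 152) (nat_lit 726477115740) (nat_lit 0) (nat_lit 726371138493) (nat_lit 162) (nat_lit 5) (nat_lit 164) (nat_lit 4) (nat_lit 162) (nat_lit 4) (nat_lit 365) (nat_lit 310) (nat_lit 225)) (XT.lf (nat_lit 0) (nat_lit 802218098361) (nat_lit 76) (nat_lit 802324081953) (nat_lit 76) (nat_lit 795303962114) (nat_lit 161) (nat_lit 4) (nat_lit 162) (nat_lit 5) (nat_lit 162) (nat_lit 4) (nat_lit 366) (nat_lit 310) (nat_lit 224))))) (XT.nd (nat_lit 156) (nat_lit 228) (nat_lit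 0) (XT.nd (nat_lit 78) (nat_lit 0) (nat_lit 0) (XT.lf (nat_lit 0) (nat_lit 2058257203) (nat_lit 76) (nat_lit 2164246312) (nat_lit 152) (nat_lit 2635534239433) (nat_lit 159) (nat_lit 5) (nat_lit 160) (nat_lit 5) (nat_lit 161) (nat_lit 4) (nat_lit 367) (nat_lit 310) (nat_lit 223)) (XT.lf (nat_lit 0) (nat_lit 967754932902) (nat_lit 152) (nat_lit 961742640513) (nat_lit 0) (nat_lit 961650471899) (nat_lit 159) (nat_lit 5) (nat_lit 161) (nat_lit 4) (nat_lit 159) (nat_lit 4) (nat_lit 368) (nat_lit 310) (nat_lit 222))) (XT.nd (nat_lit 78) (nat_lit 152) (nat_lit 0) (XT.lf (nat_lit 0) (nat_lit 1059856642833) (nat_lit 76) (nat_lit 1059948815075) (nat_lit 76) (nat_lit 1053844350444) (nat_lit 158) (nat_lit 4) (nat_lit 159) (nat_lit 5) (nat_lit 159) (nat_lit 4) (nat_lit 369) (nat_lit 310) (nat_lit 221)) (XT.nd (nat_lit 78) (nat_lit 0) (nat_lit 0) (XT.lf (nat_lit 0) (nat_lit 1789785055) (nat_lit 76) (nat_lit 1881960452)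 (nat_lit 152) (nat_lit 3487278684055) (nat_lit 156) (nat_lit 5) (nat_lit 157) (nat_lit 5) (nat_lit 158) (nat_lit 4) (nat_lit 370) (nat_lit 310) (nat_lit 220)) (XT.lf (nat_lit 0) (nat_lit 1277981984135) (nat_lit 152) (nat_lit 1272753903797) (nat_lit 0) (nat_lit 1272673748893) (nat_lit 156) (nat_lit 5) (nat_lit 158) (nat_lit 4) (nat_lit 156) (nat_lit 4) (nat_lit 371) (nat_lit 310) (nat_lit 219)))))) (XT.nd (nat_lit 390) (nat_lit 304) (nat_lit 0) (XT.nd (nat_lit 156) (nat_lit 228) (nat_lit 0) (XT.nd (nat_lit 78) (nat_lit 152) (nat_lit 0) (XT.lf (nat_lit 0) (nat_lit 1400724072356) (nat_lit 76) (nat_lit 1400804229334) (nat_lit 76) (nat_lit 1395495992018) (nat_lit 155) (nat_lit 4) (nat_lit 156) (nat_lit 5) (nat_lit 156) (nat_lit 4) (nat_lit 372) (nat_lit 310) (nat_lit 218)) (XT.lf (nat_lit 0) (nat_lit 1556332648) (nat_lit 76) (nat_lit 1636491430) (nat_lit 152) (nat_lit 4613477934185) (nat_lit 153) (nat_lit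 5) (nat_lit 154) (nat_lit 5) (nat_lit 155) (nat_lit 4) (nat_lit 373) (nat_lit 310) (nat_lit 217))) (XT.nd (nat_lit 78) (nat_lit 228) (nat_lit 0) (XT.lf (nat_lit 0) (nat_lit 1688501681064) (nat_lit 152) (nat_lit 1683955524248) (nat_lit 0) (nat_lit 1683885819596) (nat_lit 153) (nat_lit 5) (nat_lit 155) (nat_lit 4) (nat_lit 153) (nat_lit 4) (nat_lit 374) (nat_lit 310) (nat_lit 216)) (XT.nd (nat_lit 78) (nat_lit 152) (nat_lit 0) (XT.lf (nat_lit 0) (nat_lit 1851643380801) (nat_lit 76) (nat_lit 1851713086639) (nat_lit 76) (nat_lit 1847097223985) (nat_lit 152) (nat_lit 4) (nat_lit 153) (nat_lit 5) (nat_lit 153) (nat_lit 4) (nat_lit 375) (nat_lit 310) (nat_lit 215)) (XT.lf (nat_lit 0) (nat_lit 1353331489) (nat_lit 76) (nat_lit 1423038359) (nat_lit 152) (nat_lit 6102674025705) (nat_lit 150) (nat_lit 5) (nat_lit 151) (nat_lit 5) (nat_lit 152) (nat_lit 4) (nat_lit 376) (nat_lit 310) (nat_lit 214))))) (XT.nd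 (nat_lit 156) (nat_lit 228) (nat_lit 0) (XT.nd (nat_lit 78) (nat_lit 76) (nat_lit 0) (XT.lf (nat_lit 0) (nat_lit 2231626521683) (nat_lit 152) (nat_lit 2227673341843) (nat_lit 0) (nat_lit 2227612726394) (nat_lit 150) (nat_lit 5) (nat_lit 152) (nat_lit 4) (nat_lit 150) (nat_lit 4) (nat_lit 377) (nat_lit 310) (nat_lit 213)) (XT.lf (nat_lit 0) (nat_lit 2448090367934) (nat_lit 76) (nat_lit 2448150984061) (nat_lit 76) (nat_lit 2444137188094) (nat_lit 149) (nat_lit 4) (nat_lit 150) (nat_lit 5) (nat_lit 150) (nat_lit 4) (nat_lit 378) (nat_lit 310) (nat_lit 212))) (XT.nd (nat_lit 78) (nat_lit 76) (nat_lit 0) (XT.lf (nat_lit 0) (nat_lit 1176809277) (nat_lit 76) (nat_lit 1237425994) (nat_lit 152) (nat_lit 8071959841448) (nat_lit 147) (nat_lit 5) (nat_lit 148) (nat_lit 5) (nat_lit 149) (nat_lit 4) (nat_lit 379) (nat_lit 310) (nat_lit 211)) (XT.nd (nat_lit 78) (nat_lit 76) (nat_lit 0) (XT.lf (nat_lit 0) (nat_lit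 2950093942521) (nat_lit 152) (nat_lit 2946656394834) (nat_lit 0) (nat_lit 2946603684200) (nat_lit 147) (nat_lit 5) (nat_lit 149) (nat_lit 4) (nat_lit 147) (nat_lit 4) (nat_lit 380) (nat_lit 310) (nat_lit 210)) (XT.lf (nat_lit 0) (nat_lit 3236983857274) (nat_lit 76) (nat_lit 3237036568296) (nat_lit 76) (nat_lit 3233546309587) (nat_lit 146) (nat_lit 4) (nat_lit 147) (nat_lit 5) (nat_lit 147) (nat_lit 4) (nat_lit 381) (nat_lit 310) (nat_lit 209))))))) (XT.nd (nat_lit 42042) (nat_lit 0) (nat_lit 4104) (XT.nd (nat_lit 41652) (nat_lit 0) (nat_lit 5016) (XT.nd (nat_lit 41418) (nat_lit 0) (nat_lit 5396) (XT.nd (nat_lit 41340) (nat_lit 0) (nat_lit 5396) (XT.lf (nat_lit 0) (nat_lit 1023312007) (nat_lit 76) (nat_lit 1076023366) (nat_lit 152) (nat_lit 10676187275594) (nat_lit 144) (nat_lit 5) (nat_lit 145) (nat_lit 5) (nat_lit 146) (nat_lit 4) (nat_lit 382) (nat_lit 310) (nat_lit 208)) (XT.lf (nat_lit 0) (nat_lit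 2474795976) (nat_lit 380) (nat_lit 3503893495) (nat_lit 380) (nat_lit 3503893495) (nat_lit 215) (nat_lit 3) (nat_lit 220) (nat_lit 3) (nat_lit 220) (nat_lit 5) (nat_lit 311) (nat_lit 311) (nat_lit 278))) (XT.nd (nat_lit 78) (nat_lit 0) (nat_lit 76) (XT.lf (nat_lit 76) (nat_lit 2716651037) (nat_lit 0) (nat_lit 2887796928) (nat_lit 380) (nat_lit 14740559921) (nat_lit 216) (nat_lit 5) (nat_lit 215) (nat_lit 3) (nat_lit 220) (nat_lit 5) (nat_lit 312) (nat_lit 311) (nat_lit 277)) (XT.nd (nat_lit 78) (nat_lit 0) (nat_lit 0) (XT.lf (nat_lit 0) (nat_lit 7022828202) (nat_lit 304) (nat_lit 7543718476) (nat_lit 380) (nat_lit 7265485081) (nat_lit 216) (nat_lit 5) (nat_lit 220) (nat_lit 5) (nat_lit 221) (nat_lit 5) (nat_lit 313) (nat_lit 311) (nat_lit 276)) (XT.lf (nat_lit 76) (nat_lit 4275498320) (nat_lit 0) (nat_lit 4666262918) (nat_lit 380) (nat_lit 14557178609) (nat_lit 217) (nat_lit 5) (nat_lit 216) (nat_lit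 5) (nat_lit 221) (nat_lit 5) (nat_lit 314) (nat_lit 311) (nat_lit 275))))) (XT.nd (nat_lit 156) (nat_lit 228) (nat_lit 0) (XT.nd (nat_lit 78) (nat_lit 304) (nat_lit 0) (XT.lf (nat_lit 0) (nat_lit 11815916550) (nat_lit 304) (nat_lit 6962372654) (nat_lit 76) (nat_lit 6537487597) (nat_lit 217) (nat_lit 5) (nat_lit 221) (nat_lit 5) (nat_lit 218) (nat_lit 5) (nat_lit 315) (nat_lit 311) (nat_lit 274)) (XT.lf (nat_lit 0) (nat_lit 7568547464) (nat_lit 304) (nat_lit 8067423613) (nat_lit 380) (nat_lit 11691951834) (nat_lit 213) (nat_lit 5) (nat_lit 217) (nat_lit 5) (nat_lit 218) (nat_lit 5) (nat_lit 316) (nat_lit 311) (nat_lit 273))) (XT.nd (nat_lit 78) (nat_lit 228) (nat_lit 0) (XT.lf (nat_lit 0) (nat_lit 20567315774) (nat_lit 380) (nat_lit 4741793053) (nat_lit 76) (nat_lit 4252039810) (nat_lit 213) (nat_lit 5) (nat_lit 218) (nat_lit 5) (nat_lit 214) (nat_lit 5) (nat_lit 317) (nat_lit 311) (nat_lit 272))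 (XT.nd (nat_lit 78) (nat_lit 76) (nat_lit 0) (XT.lf (nat_lit 0) (nat_lit 13309366082) (nat_lit 152) (nat_lit 13847769669) (nat_lit 228) (nat_lit 4834406435) (nat_lit 211) (nat_lit 5) (nat_lit 213) (nat_lit 5) (nat_lit 214) (nat_lit 5) (nat_lit 318) (nat_lit 311) (nat_lit 271)) (XT.lf (nat_lit 0) (nat_lit 197297587) (nat_lit 228) (nat_lit 178330533) (nat_lit 76) (nat_lit 34374611223) (nat_lit 210) (nat_lit 5) (nat_lit 213) (nat_lit 5) (nat_lit 211) (nat_lit 5) (nat_lit 319) (nat_lit 311) (nat_lit 270)))))) (XT.nd (nat_lit 390) (nat_lit 304) (nat_lit 0) (XT.nd (nat_lit 156) (nat_lit 304) (nat_lit 0) (XT.nd (nat_lit 78) (nat_lit 152) (nat_lit 0) (XT.lf (nat_lit 0) (nat_lit 7104800513) (nat_lit 228) (nat_lit 15538980995) (nat_lit 76) (nat_lit 15002028923) (nat_lit 208) (nat_lit 5) (nat_lit 211) (nat_lit 5) (nat_lit 209) (nat_lit 5) (nat_lit 320) (nat_lit 311) (nat_lit 269)) (XT.lf (nat_lit 0) (nat_lit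 7402484271) (nat_lit 152) (nat_lit 7967252335) (nat_lit 228) (nat_lit 25557784418) (nat_lit 206) (nat_lit 5) (nat_lit 208) (nat_lit 5) (nat_lit 209) (nat_lit 5) (nat_lit 321) (nat_lit 311) (nat_lit 268))) (XT.nd (nat_lit 78) (nat_lit 304) (nat_lit 0) (XT.lf (nat_lit 0) (nat_lit 26082161051) (nat_lit 228) (nat_lit 9475150258) (nat_lit 76) (nat_lit 8963014707) (nat_lit 206) (nat_lit 5) (nat_lit 209) (nat_lit 5) (nat_lit 207) (nat_lit 4) (nat_lit 322) (nat_lit 311) (nat_lit 267)) (XT.nd (nat_lit 78) (nat_lit 228) (nat_lit 0) (XT.lf (nat_lit 0) (nat_lit 19524143090) (nat_lit 76) (nat_lit 20054568107) (nat_lit 152) (nat_lit 8896751254) (nat_lit 205) (nat_lit 5) (nat_lit 206) (nat_lit 5) (nat_lit 207) (nat_lit 4) (nat_lit 323) (nat_lit 311) (nat_lit 266)) (XT.lf (nat_lit 0) (nat_lit 946227818) (nat_lit 152) (nat_lit 1492556718) (nat_lit 228) (nat_lit 50490033376) (nat_lit 202) (nat_lit 5) (nat_lit 204)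 (nat_lit 5) (nat_lit 205) (nat_lit 5) (nat_lit 324) (nat_lit 311) (nat_lit 265))))) (XT.nd (nat_lit 156) (nat_lit 228) (nat_lit 0) (XT.nd (nat_lit 78) (nat_lit 76) (nat_lit 0) (XT.lf (nat_lit 0) (nat_lit 16961381173) (nat_lit 228) (nat_lit 20576351637) (nat_lit 76) (nat_lit 20089257407) (nat_lit 202) (nat_lit 5) (nat_lit 205) (nat_lit 5) (nat_lit 203) (nat_lit 4) (nat_lit 325) (nat_lit 311) (nat_lit 264)) (XT.lf (nat_lit 0) (nat_lit 16964861498) (nat_lit 76) (nat_lit 17462412789) (nat_lit 152) (nat_lit 28487878033) (nat_lit 201) (nat_lit 5) (nat_lit 202) (nat_lit 5) (nat_lit 203) (nat_lit 4) (nat_lit 326) (nat_lit 311) (nat_lit 263))) (XT.nd (nat_lit 78) (nat_lit 228) (nat_lit 0) (XT.lf (nat_lit 0) (nat_lit 55864353115) (nat_lit 152) (nat_lit 6685025350) (nat_lit 0) (nat_lit 6244465012) (nat_lit 201) (nat_lit 5) (nat_lit 203) (nat_lit 4) (nat_lit 201) (nat_lit 4) (nat_lit 327) (nat_lit 311) (nat_lit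 262)) (XT.nd (nat_lit 78) (nat_lit 76) (nat_lit 0) (XT.lf (nat_lit 0) (nat_lit 7176015987) (nat_lit 152) (nat_lit 34198329418) (nat_lit 76) (nat_lit 33750893392) (nat_lit 199) (nat_lit 5) (nat_lit 201) (nat_lit 5) (nat_lit 200) (nat_lit 4) (nat_lit 328) (nat_lit 311) (nat_lit 261)) (XT.lf (nat_lit 0) (nat_lit 14744818378) (nat_lit 76) (nat_lit 15198233262) (nat_lit 152) (nat_lit 52225522737) (nat_lit 198) (nat_lit 5) (nat_lit 199) (nat_lit 5) (nat_lit 200) (nat_lit 4) (nat_lit 329) (nat_lit 311) (nat_lit 260))))))))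
noncomputable def xc64 : XT := (XT.nd (nat_lit 1482) (nat_lit 1596) (nat_lit 0) (XT.nd (nat_lit 702) (nat_lit 684) (nat_lit 0) (XT.nd (nat_lit 312) (nat_lit 456) (nat_lit 0) (XT.nd (nat_lit 156) (nat_lit 152) (nat_lit 0) (XT.nd (nat_lit 78) (nat_lit 76) (nat_lit 0) (XT.lf (nat_lit 0) (nat_lit 58608013352) (nat_lit 152) (nat_lit 15843380513) (nat_lit 0) (nat_lit 15444585823) (nat_lit 198) (nat_lit 5) (nat_lit 200) (nat_lit 4) (nat_lit 198) (nat_lit 4) (nat_lit 330) (nat_lit 311) (nat_lit 259)) (XT.lf (nat_lit 0) (nat_lit 46915121747) (nat_lit 76) (nat_lit 47317847633) (nat_lit 76) (nat_lit 4150488907) (nat_lit 197) (nat_lit 4) (nat_lit 198) (nat_lit 5) (nat_lit 198) (nat_lit 4) (nat_lit 331) (nat_lit 311) (nat_lit 258))) (XT.nd (nat_lit 78) (nat_lit 0) (nat_lit 0) (XT.lf (nat_lit 0) (nat_lit 12817444507) (nat_lit 76) (nat_lit 13223588825) (nat_lit 152) (nat_lit 81726123840) (nat_lit 195) (nat_lit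 5) (nat_lit 196) (nat_lit 5) (nat_lit 197) (nat_lit 4) (nat_lit 332) (nat_lit 311) (nat_lit 257)) (XT.lf (nat_lit 0) (nat_lit 64224839929) (nat_lit 152) (nat_lit 27038202677) (nat_lit 0) (nat_lit 26682448879) (nat_lit 195) (nat_lit 5) (nat_lit 197) (nat_lit 4) (nat_lit 195) (nat_lit 4) (nat_lit 333) (nat_lit 311) (nat_lit 256)))) (XT.nd (nat_lit 156) (nat_lit 228) (nat_lit 0) (XT.nd (nat_lit 78) (nat_lit 152) (nat_lit 0) (XT.lf (nat_lit 0) (nat_lit 55347255797) (nat_lit 76) (nat_lit 55705257270) (nat_lit 76) (nat_lit 18160618546) (nat_lit 194) (nat_lit 4) (nat_lit 195) (nat_lit 5) (nat_lit 195) (nat_lit 4) (nat_lit 334) (nat_lit 311) (nat_lit 255)) (XT.lf (nat_lit 0) (nat_lit 11143238752) (nat_lit 76) (nat_lit 11503194724) (nat_lit 152) (nat_lit 119092747882) (nat_lit 192) (nat_lit 5) (nat_lit 193) (nat_lit 5) (nat_lit 194) (nat_lit 4) (nat_lit 335) (nat_lit 311) (nat_lit 254))) (XT.nd (nat_lit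 78) (nat_lit 228) (nat_lit 0) (XT.lf (nat_lit 0) (nat_lit 73383683121) (nat_lit 152) (nat_lit 41047476815) (nat_lit 0) (nat_lit 40732993740) (nat_lit 192) (nat_lit 5) (nat_lit 194) (nat_lit 4) (nat_lit 192) (nat_lit 4) (nat_lit 336) (nat_lit 311) (nat_lit 253)) (XT.nd (nat_lit 78) (nat_lit 152) (nat_lit 0) (XT.lf (nat_lit 0) (nat_lit 67374446290) (nat_lit 76) (nat_lit 67690214481) (nat_lit 76) (nat_lit 35038239985) (nat_lit 191) (nat_lit 4) (nat_lit 192) (nat_lit 5) (nat_lit 192) (nat_lit 4) (nat_lit 337) (nat_lit 311) (nat_lit 252)) (XT.lf (nat_lit 0) (nat_lit 9688420536) (nat_lit 76) (nat_lit 10005306218) (nat_lit 152) (nat_lit 167075803501) (nat_lit 189) (nat_lit 5) (nat_lit 190) (nat_lit 5) (nat_lit 191) (nat_lit 4) (nat_lit 338) (nat_lit 311) (nat_lit 251)))))) (XT.nd (nat_lit 390) (nat_lit 380) (nat_lit 0) (XT.nd (nat_lit 156) (nat_lit 228) (nat_lit 0) (XT.nd (nat_lit 78) (nat_lit 76) (nat_lit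 0) (XT.lf (nat_lit 0) (nat_lit 87002030266) (nat_lit 152) (nat_lit 58883590001) (nat_lit 0) (nat_lit 58607192249) (nat_lit 189) (nat_lit 5) (nat_lit 191) (nat_lit 4) (nat_lit 189) (nat_lit 4) (nat_lit 339) (nat_lit 311) (nat_lit 250)) (XT.lf (nat_lit 0) (nat_lit 84041003600) (nat_lit 76) (nat_lit 84318136120) (nat_lit 76) (nat_lit 55922563334) (nat_lit 188) (nat_lit 4) (nat_lit 189) (nat_lit 5) (nat_lit 189) (nat_lit 4) (nat_lit 340) (nat_lit 311) (nat_lit 249))) (XT.nd (nat_lit 78) (nat_lit 76) (nat_lit 0) (XT.lf (nat_lit 0) (nat_lit 8423940332) (nat_lit 76) (nat_lit 8701711782) (nat_lit 152) (nat_lit 229285412687) (nat_lit 186) (nat_lit 5) (nat_lit 187) (nat_lit 5) (nat_lit 188) (nat_lit 4) (nat_lit 341) (nat_lit 311) (nat_lit 248)) (XT.nd (nat_lit 78) (nat_lit 76) (nat_lit 0) (XT.lf (nat_lit 0) (nat_lit 106322189484) (nat_lit 152) (nat_lit 81871371862) (nat_lit 0) (nat_lit 81629348349) (nat_lit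 186) (nat_lit 5) (nat_lit 188) (nat_lit 4) (nat_lit 186) (nat_lit 4) (nat_lit 342) (nat_lit 311) (nat_lit 247)) (XT.lf (nat_lit 0) (nat_lit 106743415121) (nat_lit 76) (nat_lit 106985858741) (nat_lit 76) (nat_lit 82292597499) (nat_lit 185) (nat_lit 4) (nat_lit 186) (nat_lit 5) (nat_lit 186) (nat_lit 4) (nat_lit 343) (nat_lit 311) (nat_lit 246))))) (XT.nd (nat_lit 156) (nat_lit 228) (nat_lit 0) (XT.nd (nat_lit 78) (nat_lit 0) (nat_lit 0) (XT.lf (nat_lit 0) (nat_lit 7324723440) (nat_lit 76) (nat_lit 7567532370) (nat_lit 152) (nat_lit 310471984439) (nat_lit 183) (nat_lit 5) (nat_lit 184) (nat_lit 5) (nat_lit 185) (nat_lit 4) (nat_lit 344) (nat_lit 311) (nat_lit 245)) (XT.lf (nat_lit 0) (nat_lit 133012438762) (nat_lit 152) (nat_lit 111750858221) (nat_lit 0) (nat_lit 111539443795) (nat_lit 183) (nat_lit 5) (nat_lit 185) (nat_lit 4) (nat_lit 183) (nat_lit 4) (nat_lit 345) (nat_lit 311) (nat_lit 244)))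 (XT.nd (nat_lit 78) (nat_lit 152) (nat_lit 0) (XT.lf (nat_lit 0) (nat_lit 137341754995) (nat_lit 76) (nat_lit 137553409619) (nat_lit 76) (nat_lit 116080174454) (nat_lit 182) (nat_lit 4) (nat_lit 183) (nat_lit 5) (nat_lit 183) (nat_lit 4) (nat_lit 346) (nat_lit 311) (nat_lit 243)) (XT.nd (nat_lit 78) (nat_lit 0) (nat_lit 0) (XT.lf (nat_lit 0) (nat_lit 6369071977) (nat_lit 76) (nat_lit 6580935468) (nat_lit 152) (nat_lit 416896945355) (nat_lit 180) (nat_lit 5) (nat_lit 181) (nat_lit 5) (nat_lit 182) (nat_lit 4) (nat_lit 347) (nat_lit 311) (nat_lit 242)) (XT.lf (nat_lit 0) (nat_lit 169301193977) (nat_lit 152) (nat_lit 150812863072) (nat_lit 0) (nat_lit 150628476016) (nat_lit 180) (nat_lit 5) (nat_lit 182) (nat_lit 4) (nat_lit 180) (nat_lit 4) (nat_lit 348) (nat_lit 311) (nat_lit 241))))))) (XT.nd (nat_lit 780) (nat_lit 836) (nat_lit 0) (XT.nd (nat_lit 390) (nat_lit 304) (nat_lit 0) (XT.nd (nat_lit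 156) (nat_lit 228) (nat_lit 0) (XT.nd (nat_lit 78) (nat_lit 152) (nat_lit 0) (XT.lf (nat_lit 0) (nat_lit 178307374848) (nat_lit 76) (nat_lit 178491899238) (nat_lit 76) (nat_lit 159819043943) (nat_lit 179) (nat_lit 4) (nat_lit 180) (nat_lit 5) (nat_lit 180) (nat_lit 4) (nat_lit 349) (nat_lit 311) (nat_lit 240)) (XT.lf (nat_lit 0) (nat_lit 5538178946) (nat_lit 76) (nat_lit 5722822756) (nat_lit 152) (nat_lit 556822700797) (nat_lit 177) (nat_lit 5) (nat_lit 178) (nat_lit 5) (nat_lit 179) (nat_lit 4) (nat_lit 350) (nat_lit 311) (nat_lit 239))) (XT.nd (nat_lit 78) (nat_lit 228) (nat_lit 0) (XT.lf (nat_lit 0) (nat_lit 218154823296) (nat_lit 152) (nat_lit 202078013813) (nat_lit 0) (nat_lit 201917363679) (nat_lit 177) (nat_lit 5) (nat_lit 179) (nat_lit 4) (nat_lit 177) (nat_lit 4) (nat_lit 351) (nat_lit 311) (nat_lit 238)) (XT.nd (nat_lit 78) (nat_lit 152) (nat_lit 0) (XT.lf (nat_lit 0) (nat_lit 232918500930)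 (nat_lit 76) (nat_lit 233079229585) (nat_lit 76) (nat_lit 216841691447) (nat_lit 176) (nat_lit 4) (nat_lit 177) (nat_lit 5) (nat_lit 177) (nat_lit 4) (nat_lit 352) (nat_lit 311) (nat_lit 237)) (XT.lf (nat_lit 0) (nat_lit 4815725154) (nat_lit 76) (nat_lit 4976522088) (nat_lit 152) (nat_lit 741160296005) (nat_lit 174) (nat_lit 5) (nat_lit 175) (nat_lit 5) (nat_lit 176) (nat_lit 4) (nat_lit 353) (nat_lit 311) (nat_lit 236))))) (XT.nd (nat_lit 156) (nat_lit 228) (nat_lit 0) (XT.nd (nat_lit 78) (nat_lit 76) (nat_lit 0) (XT.lf (nat_lit 0) (nat_lit 283513152347) (nat_lit 152) (nat_lit 269533318014) (nat_lit 0) (nat_lit 269393442964) (nat_lit 174) (nat_lit 5) (nat_lit 176) (nat_lit 4) (nat_lit 174) (nat_lit 4) (nat_lit 354) (nat_lit 311) (nat_lit 235)) (XT.lf (nat_lit 0) (nat_lit 305519134635) (nat_lit 76) (nat_lit 305659054579) (nat_lit 76) (nat_lit 291539300302) (nat_lit 173) (nat_lit 4) (nat_lit 174)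 (nat_lit 5) (nat_lit 174) (nat_lit 4) (nat_lit 355) (nat_lit 311) (nat_lit 234))) (XT.nd (nat_lit 78) (nat_lit 76) (nat_lit 0) (XT.lf (nat_lit 0) (nat_lit 4187539849) (nat_lit 76) (nat_lit 4327498832) (nat_lit 152) (nat_lit 984325661498) (nat_lit 171) (nat_lit 5) (nat_lit 172) (nat_lit 5) (nat_lit 173) (nat_lit 4) (nat_lit 356) (nat_lit 311) (nat_lit 233)) (XT.nd (nat_lit 78) (nat_lit 76) (nat_lit 0) (XT.lf (nat_lit 0) (nat_lit 370601230414) (nat_lit 152) (nat_lit 358444852733) (nat_lit 0) (nat_lit 358323119751) (nat_lit 171) (nat_lit 5) (nat_lit 173) (nat_lit 4) (nat_lit 171) (nat_lit 4) (nat_lit 357) (nat_lit 311) (nat_lit 232)) (XT.lf (nat_lit 0) (nat_lit 401861632998) (nat_lit 76) (nat_lit 401983391649) (nat_lit 76) (nat_lit 389705255317) (nat_lit 170) (nat_lit 4) (nat_lit 171) (nat_lit 5) (nat_lit 171) (nat_lit 4) (nat_lit 358) (nat_lit 311) (nat_lit 231)))))) (XT.nd (nat_lit 390) (nat_lit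 456) (nat_lit 0) (XT.nd (nat_lit 156) (nat_lit 228) (nat_lit 0) (XT.nd (nat_lit 78) (nat_lit 0) (nat_lit 0) (XT.lf (nat_lit 0) (nat_lit 3641311989) (nat_lit 76) (nat_lit 3763092960) (nat_lit 152) (nat_lit 1305371740217) (nat_lit 168) (nat_lit 5) (nat_lit 169) (nat_lit 5) (nat_lit 170) (nat_lit 4) (nat_lit 359) (nat_lit 311) (nat_lit 230)) (XT.lf (nat_lit 0) (nat_lit 486341917084) (nat_lit 152) (nat_lit 475771153884) (nat_lit 0) (nat_lit 475665240509) (nat_lit 168) (nat_lit 5) (nat_lit 170) (nat_lit 4) (nat_lit 168) (nat_lit 4) (nat_lit 360) (nat_lit 311) (nat_lit 229))) (XT.nd (nat_lit 78) (nat_lit 152) (nat_lit 0) (XT.lf (nat_lit 0) (nat_lit 529559926389) (nat_lit 76) (nat_lit 529665854440) (nat_lit 76) (nat_lit 518989163188) (nat_lit 167) (nat_lit 4) (nat_lit 168) (nat_lit 5) (nat_lit 168) (nat_lit 4) (nat_lit 361) (nat_lit 311) (nat_lit 228)) (XT.nd (nat_lit 78) (nat_lit 0) (nat_lit 0) (XT.lf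 (nat_lit 0) (nat_lit 3166342808) (nat_lit 76) (nat_lit 3272283620) (nat_lit 152) (nat_lit 1729485497050) (nat_lit 165) (nat_lit 5) (nat_lit 166) (nat_lit 5) (nat_lit 167) (nat_lit 4) (nat_lit 362) (nat_lit 311) (nat_lit 227)) (XT.lf (nat_lit 0) (nat_lit 639901771256) (nat_lit 152) (nat_lit 630709803255) (nat_lit 0) (nat_lit 630617671160) (nat_lit 165) (nat_lit 5) (nat_lit 167) (nat_lit 4) (nat_lit 165) (nat_lit 4) (nat_lit 363) (nat_lit 311) (nat_lit 226))))) (XT.nd (nat_lit 156) (nat_lit 228) (nat_lit 0) (XT.nd (nat_lit 78) (nat_lit 152) (nat_lit 0) (XT.lf (nat_lit 0) (nat_lit 698689030547) (nat_lit 76) (nat_lit 698781171033) (nat_lit 76) (nat_lit 689497062546) (nat_lit 164) (nat_lit 4) (nat_lit 165) (nat_lit 5) (nat_lit 165) (nat_lit 4) (nat_lit 364) (nat_lit 311) (nat_lit 225)) (XT.lf (nat_lit 0) (nat_lit 2753332742) (nat_lit 76) (nat_lit 2845480525) (nat_lit 152) (nat_lit 2289967512410) (nat_lit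 162) (nat_lit 5) (nat_lit 163) (nat_lit 5) (nat_lit 164) (nat_lit 4) (nat_lit 365) (nat_lit 311) (nat_lit 224))) (XT.nd (nat_lit 78) (nat_lit 228) (nat_lit 0) (XT.lf (nat_lit 0) (nat_lit 843413202683) (nat_lit 152) (nat_lit 835420187031) (nat_lit 0) (nat_lit 835340053006) (nat_lit 162) (nat_lit 5) (nat_lit 164) (nat_lit 4) (nat_lit 162) (nat_lit 4) (nat_lit 366) (nat_lit 311) (nat_lit 223)) (XT.nd (nat_lit 78) (nat_lit 152) (nat_lit 0) (XT.lf (nat_lit 0) (nat_lit 922578013910) (nat_lit 76) (nat_lit 922658152732) (nat_lit 76) (nat_lit 914584998257) (nat_lit 161) (nat_lit 4) (nat_lit 162) (nat_lit 5) (nat_lit 162) (nat_lit 4) (nat_lit 367) (nat_lit 311) (nat_lit 222)) (XT.lf (nat_lit 0) (nat_lit 2394197336) (nat_lit 76) (nat_lit 2474340330) (nat_lit 152) (nat_lit 3030849817932) (nat_lit 159) (nat_lit 5) (nat_lit 160) (nat_lit 5) (nat_lit 161) (nat_lit 4) (nat_lit 368) (nat_lit 311) (nat_lit 221))))))))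
noncomputable def xc65 : XT := (XT.nd (nat_lit 42900) (nat_lit 0) (nat_lit 3496) (XT.nd (nat_lit 780) (nat_lit 304) (nat_lit 0) (XT.nd (nat_lit 390) (nat_lit 380) (nat_lit 0) (XT.nd (nat_lit 156) (nat_lit 228) (nat_lit 0) (XT.nd (nat_lit 78) (nat_lit 76) (nat_lit 0) (XT.lf (nat_lit 0) (nat_lit 1112929703981) (nat_lit 152) (nat_lit 1105979255587) (nat_lit 0) (nat_lit 1105909562872) (nat_lit 159) (nat_lit 5) (nat_lit 161) (nat_lit 4) (nat_lit 159) (nat_lit 4) (nat_lit 369) (nat_lit 311) (nat_lit 220)) (XT.lf (nat_lit 0) (nat_lit 1218858793852) (nat_lit 76) (nat_lit 1218928489310) (nat_lit 76) (nat_lit 1211908345458) (nat_lit 158) (nat_lit 4) (nat_lit 159) (nat_lit 5) (nat_lit 159) (nat_lit 4) (nat_lit 370) (nat_lit 311) (nat_lit 219))) (XT.nd (nat_lit 78) (nat_lit 76) (nat_lit 0) (XT.lf (nat_lit 0) (nat_lit 2081907840) (nat_lit 76) (nat_lit 2151605683) (nat_lit 152) (nat_lit 4010357829544) (nat_lit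 156) (nat_lit 5) (nat_lit 157) (nat_lit 5) (nat_lit 158) (nat_lit 4) (nat_lit 371) (nat_lit 311) (nat_lit 218)) (XT.nd (nat_lit 78) (nat_lit 76) (nat_lit 0) (XT.lf (nat_lit 0) (nat_lit 1469689307801) (nat_lit 152) (nat_lit 1463645439632) (nat_lit 0) (nat_lit 1463584831009) (nat_lit 156) (nat_lit 5) (nat_lit 158) (nat_lit 4) (nat_lit 156) (nat_lit 4) (nat_lit 372) (nat_lit 311) (nat_lit 217)) (XT.lf (nat_lit 0) (nat_lit 1610853253410) (nat_lit 76) (nat_lit 1610913863602) (nat_lit 76) (nat_lit 1604809385242) (nat_lit 155) (nat_lit 4) (nat_lit 156) (nat_lit 5) (nat_lit 156) (nat_lit 4) (nat_lit 373) (nat_lit 311) (nat_lit 216))))) (XT.nd (nat_lit 156) (nat_lit 228) (nat_lit 0) (XT.nd (nat_lit 78) (nat_lit 0) (nat_lit 0) (XT.lf (nat_lit 0) (nat_lit 1810352993) (nat_lit 76) (nat_lit 1870964549) (nat_lit 152) (nat_lit 5305488618982) (nat_lit 153) (nat_lit 5) (nat_lit 154) (nat_lit 5) (nat_lit 155) (nat_lit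 4) (nat_lit 374) (nat_lit 311) (nat_lit 215)) (XT.lf (nat_lit 0) (nat_lit 1941785650932) (nat_lit 152) (nat_lit 1936530113394) (nat_lit 0) (nat_lit 1936477406662) (nat_lit 153) (nat_lit 5) (nat_lit 155) (nat_lit 4) (nat_lit 153) (nat_lit 4) (nat_lit 375) (nat_lit 311) (nat_lit 214))) (XT.nd (nat_lit 78) (nat_lit 152) (nat_lit 0) (XT.lf (nat_lit 0) (nat_lit 2129407775617) (nat_lit 76) (nat_lit 2129460483246) (nat_lit 76) (nat_lit 2124152238079) (nat_lit 152) (nat_lit 4) (nat_lit 153) (nat_lit 5) (nat_lit 153) (nat_lit 4) (nat_lit 376) (nat_lit 311) (nat_lit 213)) (XT.nd (nat_lit 78) (nat_lit 0) (nat_lit 0) (XT.lf (nat_lit 0) (nat_lit 1574219051) (nat_lit 76) (nat_lit 1626927459) (nat_lit 152) (nat_lit 7018065560199) (nat_lit 150) (nat_lit 5) (nat_lit 151) (nat_lit 5) (nat_lit 152) (nat_lit 4) (nat_lit 377) (nat_lit 311) (nat_lit 212)) (XT.lf (nat_lit 0) (nat_lit 2566378080213) (nat_lit 152) (nat_lit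 2561808047571) (nat_lit 0) (nat_lit 2561762213583) (nat_lit 150) (nat_lit 5) (nat_lit 152) (nat_lit 4) (nat_lit 150) (nat_lit 4) (nat_lit 378) (nat_lit 311) (nat_lit 211)))))) (XT.nd (nat_lit 41730) (nat_lit 0) (nat_lit 5092) (XT.nd (nat_lit 156) (nat_lit 76) (nat_lit 0) (XT.nd (nat_lit 78) (nat_lit 152) (nat_lit 0) (XT.lf (nat_lit 0) (nat_lit 2815319477966) (nat_lit 76) (nat_lit 2815365312467) (nat_lit 76) (nat_lit 2810749445324) (nat_lit 149) (nat_lit 4) (nat_lit 150) (nat_lit 5) (nat_lit 150) (nat_lit 4) (nat_lit 379) (nat_lit 311) (nat_lit 210)) (XT.lf (nat_lit 0) (nat_lit 1368885591) (nat_lit 76) (nat_lit 1414720538) (nat_lit 152) (nat_lit 9282745496763) (nat_lit 147) (nat_lit 5) (nat_lit 148) (nat_lit 5) (nat_lit 149) (nat_lit 4) (nat_lit 380) (nat_lit 311) (nat_lit 209))) (XT.nd (nat_lit 78) (nat_lit 76) (nat_lit 0) (XT.lf (nat_lit 0) (nat_lit 3392614625251) (nat_lit 152) (nat_lit 3388640683823)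 (nat_lit 0) (nat_lit 3388600827011) (nat_lit 147) (nat_lit 5) (nat_lit 149) (nat_lit 4) (nat_lit 147) (nat_lit 4) (nat_lit 381) (nat_lit 311) (nat_lit 208)) (XT.nd (nat_lit 41418) (nat_lit 0) (nat_lit 5244) (XT.lf (nat_lit 0) (nat_lit 3722544962000) (nat_lit 76) (nat_lit 3722584819105) (nat_lit 76) (nat_lit 3718571020572) (nat_lit 146) (nat_lit 4) (nat_lit 147) (nat_lit 5) (nat_lit 147) (nat_lit 4) (nat_lit 382) (nat_lit 311) (nat_lit 207)) (XT.lf (nat_lit 0) (nat_lit 3010074477) (nat_lit 380) (nat_lit 3935143534) (nat_lit 380) (nat_lit 3935143534) (nat_lit 215) (nat_lit 3) (nat_lit 220) (nat_lit 3) (nat_lit 220) (nat_lit 5) (nat_lit 312) (nat_lit 312) (nat_lit 276))))) (XT.nd (nat_lit 156) (nat_lit 152) (nat_lit 0) (XT.nd (nat_lit 78) (nat_lit 0) (nat_lit 76) (XT.lf (nat_lit 76) (nat_lit 3304240846) (nat_lit 0) (nat_lit 3433651728) (nat_lit 380) (nat_lit 16614949883) (nat_lit 216) (nat_lit 5)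 (nat_lit 215) (nat_lit 3) (nat_lit 220) (nat_lit 5) (nat_lit 313) (nat_lit 312) (nat_lit 275)) (XT.lf (nat_lit 0) (nat_lit 8326784048) (nat_lit 304) (nat_lit 8476428577) (nat_lit 380) (nat_lit 8266044156) (nat_lit 216) (nat_lit 5) (nat_lit 220) (nat_lit 5) (nat_lit 221) (nat_lit 5) (nat_lit 314) (nat_lit 312) (nat_lit 274))) (XT.nd (nat_lit 78) (nat_lit 228) (nat_lit 0) (XT.lf (nat_lit 76) (nat_lit 5106632209) (nat_lit 0) (nat_lit 5402106385) (nat_lit 380) (nat_lit 16481185254) (nat_lit 217) (nat_lit 5) (nat_lit 216) (nat_lit 5) (nat_lit 221) (nat_lit 5) (nat_lit 315) (nat_lit 312) (nat_lit 273)) (XT.nd (nat_lit 78) (nat_lit 304) (nat_lit 0) (XT.lf (nat_lit 0) (nat_lit 13783283564) (nat_lit 304) (nat_lit 7810943487) (nat_lit 76) (nat_lit 7489669341) (nat_lit 217) (nat_lit 5) (nat_lit 221) (nat_lit 5) (nat_lit 218) (nat_lit 5) (nat_lit 316) (nat_lit 312) (nat_lit 272)) (XT.lf (nat_lit 0) (nat_lit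 8890715328) (nat_lit 304) (nat_lit 9267937369) (nat_lit 380) (nat_lit 13241865756) (nat_lit 213) (nat_lit 5) (nat_lit 217) (nat_lit 5) (nat_lit 218) (nat_lit 5) (nat_lit 317) (nat_lit 312) (nat_lit 271))))))) (XT.nd (nat_lit 780) (nat_lit 684) (nat_lit 0) (XT.nd (nat_lit 390) (nat_lit 380) (nat_lit 0) (XT.nd (nat_lit 156) (nat_lit 380) (nat_lit 0) (XT.nd (nat_lit 78) (nat_lit 152) (nat_lit 0) (XT.lf (nat_lit 0) (nat_lit 23806920502) (nat_lit 380) (nat_lit 5267774070) (nat_lit 76) (nat_lit 4897450257) (nat_lit 213) (nat_lit 5) (nat_lit 218) (nat_lit 5) (nat_lit 214) (nat_lit 5) (nat_lit 318) (nat_lit 312) (nat_lit 270)) (XT.lf (nat_lit 0) (nat_lit 15482636757) (nat_lit 152) (nat_lit 15889747219) (nat_lit 228) (nat_lit 5396637860) (nat_lit 211) (nat_lit 5) (nat_lit 213) (nat_lit 5) (nat_lit 214) (nat_lit 5) (nat_lit 319) (nat_lit 312) (nat_lit 269))) (XT.nd (nat_lit 78) (nat_lit 304) (nat_lit 0)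 (XT.lf (nat_lit 0) (nat_lit 355956943) (nat_lit 228) (nat_lit 38670655) (nat_lit 76) (nat_lit 39548787938) (nat_lit 210) (nat_lit 5) (nat_lit 213) (nat_lit 5) (nat_lit 211) (nat_lit 5) (nat_lit 320) (nat_lit 312) (nat_lit 268)) (XT.nd (nat_lit 78) (nat_lit 152) (nat_lit 0) (XT.lf (nat_lit 0) (nat_lit 8290986107) (nat_lit 228) (nat_lit 17694819485) (nat_lit 76) (nat_lit 17288806576) (nat_lit 208) (nat_lit 5) (nat_lit 211) (nat_lit 5) (nat_lit 209) (nat_lit 5) (nat_lit 321) (nat_lit 312) (nat_lit 267)) (XT.lf (nat_lit 0) (nat_lit 8679910632) (nat_lit 152) (nat_lit 9106956427) (nat_lit 228) (nat_lit 29263031625) (nat_lit 206) (nat_lit 5) (nat_lit 208) (nat_lit 5) (nat_lit 209) (nat_lit 5) (nat_lit 322) (nat_lit 312) (nat_lit 266))))) (XT.nd (nat_lit 156) (nat_lit 304) (nat_lit 0) (XT.nd (nat_lit 78) (nat_lit 76) (nat_lit 0) (XT.lf (nat_lit 0) (nat_lit 30093583718) (nat_lit 228) (nat_lit 10738587239)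 (nat_lit 76) (nat_lit 10351339186) (nat_lit 206) (nat_lit 5) (nat_lit 209) (nat_lit 5) (nat_lit 207) (nat_lit 4) (nat_lit 323) (nat_lit 312) (nat_lit 265)) (XT.lf (nat_lit 0) (nat_lit 22603425768) (nat_lit 76) (nat_lit 23004503285) (nat_lit 152) (nat_lit 10124991090) (nat_lit 205) (nat_lit 5) (nat_lit 206) (nat_lit 5) (nat_lit 207) (nat_lit 4) (nat_lit 324) (nat_lit 312) (nat_lit 264))) (XT.nd (nat_lit 78) (nat_lit 76) (nat_lit 0) (XT.lf (nat_lit 0) (nat_lit 1241006060) (nat_lit 152) (nat_lit 1654109198) (nat_lit 228) (nat_lit 57959448385) (nat_lit 202) (nat_lit 5) (nat_lit 204) (nat_lit 5) (nat_lit 205) (nat_lit 5) (nat_lit 325) (nat_lit 312) (nat_lit 263)) (XT.nd (nat_lit 78) (nat_lit 76) (nat_lit 0) (XT.lf (nat_lit 0) (nat_lit 19586539684) (nat_lit 228) (nat_lit 23520334791) (nat_lit 76) (nat_lit 23152021574) (nat_lit 202) (nat_lit 5) (nat_lit 205) (nat_lit 5) (nat_lit 203) (nat_lit 4) (nat_lit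 326) (nat_lit 312) (nat_lit 262)) (XT.lf (nat_lit 0) (nat_lit 19645584423) (nat_lit 76) (nat_lit 20021804682) (nat_lit 152) (nat_lit 32673632512) (nat_lit 201) (nat_lit 5) (nat_lit 202) (nat_lit 5) (nat_lit 203) (nat_lit 4) (nat_lit 327) (nat_lit 312) (nat_lit 261)))))) (XT.nd (nat_lit 390) (nat_lit 380) (nat_lit 0) (XT.nd (nat_lit 156) (nat_lit 152) (nat_lit 0) (XT.nd (nat_lit 78) (nat_lit 152) (nat_lit 0) (XT.lf (nat_lit 0) (nat_lit 64312272957) (nat_lit 152) (nat_lit 7561766960) (nat_lit 0) (nat_lit 7228640051) (nat_lit 201) (nat_lit 5) (nat_lit 203) (nat_lit 4) (nat_lit 201) (nat_lit 4) (nat_lit 328) (nat_lit 312) (nat_lit 260)) (XT.lf (nat_lit 0) (nat_lit 8319825566) (nat_lit 152) (nat_lit 39201206945) (nat_lit 76) (nat_lit 38862881027) (nat_lit 199) (nat_lit 5) (nat_lit 201) (nat_lit 5) (nat_lit 200) (nat_lit 4) (nat_lit 329) (nat_lit 312) (nat_lit 259))) (XT.nd (nat_lit 78) (nat_lit 76)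 (nat_lit 0) (XT.lf (nat_lit 0) (nat_lit 17077646116) (nat_lit 76) (nat_lit 17420492910) (nat_lit 152) (nat_lit 59986177062) (nat_lit 198) (nat_lit 5) (nat_lit 199) (nat_lit 5) (nat_lit 200) (nat_lit 4) (nat_lit 330) (nat_lit 312) (nat_lit 258)) (XT.nd (nat_lit 78) (nat_lit 76) (nat_lit 0) (XT.lf (nat_lit 0) (nat_lit 67456614981) (nat_lit 152) (nat_lit 18108348897) (nat_lit 0) (nat_lit 17806802818) (nat_lit 198) (nat_lit 5) (nat_lit 200) (nat_lit 4) (nat_lit 198) (nat_lit 4) (nat_lit 331) (nat_lit 312) (nat_lit 257)) (XT.lf (nat_lit 0) (nat_lit 54058858760) (nat_lit 76) (nat_lit 54363377389) (nat_lit 76) (nat_lit 4710592676) (nat_lit 197) (nat_lit 4) (nat_lit 198) (nat_lit 5) (nat_lit 198) (nat_lit 4) (nat_lit 332) (nat_lit 312) (nat_lit 256))))) (XT.nd (nat_lit 156) (nat_lit 228) (nat_lit 0) (XT.nd (nat_lit 78) (nat_lit 0) (nat_lit 0) (XT.lf (nat_lit 0) (nat_lit 14846999124) (nat_lit 76) (nat_lit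 15154102578) (nat_lit 152) (nat_lit 93923042039) (nat_lit 195) (nat_lit 5) (nat_lit 196) (nat_lit 5) (nat_lit 197) (nat_lit 4) (nat_lit 333) (nat_lit 312) (nat_lit 255)) (XT.lf (nat_lit 0) (nat_lit 73907356358) (nat_lit 152) (nat_lit 30995820633) (nat_lit 0) (nat_lit 30726819651) (nat_lit 195) (nat_lit 5) (nat_lit 197) (nat_lit 4) (nat_lit 195) (nat_lit 4) (nat_lit 334) (nat_lit 312) (nat_lit 254))) (XT.nd (nat_lit 78) (nat_lit 152) (nat_lit 0) (XT.lf (nat_lit 0) (nat_lit 63742996956) (nat_lit 76) (nat_lit 64013697503) (nat_lit 76) (nat_lit 20831461231) (nat_lit 194) (nat_lit 4) (nat_lit 195) (nat_lit 5) (nat_lit 195) (nat_lit 4) (nat_lit 335) (nat_lit 312) (nat_lit 253)) (XT.nd (nat_lit 78) (nat_lit 0) (nat_lit 0) (XT.lf (nat_lit 0) (nat_lit 12908645615) (nat_lit 76) (nat_lit 13180824044) (nat_lit 152) (nat_lit 136903678229) (nat_lit 192) (nat_lit 5) (nat_lit 193) (nat_lit 5) (nat_lit 194) (nat_lit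 4) (nat_lit 336) (nat_lit 312) (nat_lit 252)) (XT.lf (nat_lit 0) (nat_lit 84433020392) (nat_lit 152) (nat_lit 47118641500) (nat_lit 0) (nat_lit 46880847114) (nat_lit 192) (nat_lit 5) (nat_lit 194) (nat_lit 4) (nat_lit 192) (nat_lit 4) (nat_lit 337) (nat_lit 312) (nat_lit 251))))))))
noncomputable def xc66 : XT := (XT.nd (nat_lit 1560) (nat_lit 1444) (nat_lit 0) (XT.nd (nat_lit 780) (nat_lit 836) (nat_lit 0) (XT.nd (nat_lit 390) (nat_lit 304) (nat_lit 0) (XT.nd (nat_lit 156) (nat_lit 228) (nat_lit 0) (XT.nd (nat_lit 78) (nat_lit 152) (nat_lit 0) (XT.lf (nat_lit 0) (nat_lit 77562662942) (nat_lit 76) (nat_lit 77801429060) (nat_lit 76) (nat_lit 40248284051) (nat_lit 191) (nat_lit 4) (nat_lit 192) (nat_lit 5) (nat_lit 192) (nat_lit 4) (nat_lit 338) (nat_lit 312) (nat_lit 250)) (XT.lf (nat_lit 0) (nat_lit 11223886704) (nat_lit 76) (nat_lit 11463497806) (nat_lit 152) (nat_lit 192091635473) (nat_lit 189)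 (nat_lit 5) (nat_lit 190) (nat_lit 5) (nat_lit 191) (nat_lit 4) (nat_lit 339) (nat_lit 312) (nat_lit 249))) (XT.nd (nat_lit 78) (nat_lit 228) (nat_lit 0) (XT.lf (nat_lit 0) (nat_lit 100088302543) (nat_lit 152) (nat_lit 67641016550) (nat_lit 0) (nat_lit 67432020141) (nat_lit 189) (nat_lit 5) (nat_lit 191) (nat_lit 4) (nat_lit 189) (nat_lit 4) (nat_lit 340) (nat_lit 312) (nat_lit 248)) (XT.nd (nat_lit 78) (nat_lit 152) (nat_lit 0) (XT.lf (nat_lit 0) (nat_lit 96718851911) (nat_lit 76) (nat_lit 96928403911) (nat_lit 76) (nat_lit 64271565918) (nat_lit 188) (nat_lit 4) (nat_lit 189) (nat_lit 5) (nat_lit 189) (nat_lit 4) (nat_lit 341) (nat_lit 312) (nat_lit 247)) (XT.lf (nat_lit 0) (nat_lit 9759316848) (nat_lit 76) (nat_lit 9969351971) (nat_lit 152) (nat_lit 263638930369) (nat_lit 186) (nat_lit 5) (nat_lit 187) (nat_lit 5) (nat_lit 188) (nat_lit 4) (nat_lit 342) (nat_lit 312) (nat_lit 246))))) (XT.nd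 (nat_lit 156) (nat_lit 228) (nat_lit 0) (XT.nd (nat_lit 78) (nat_lit 76) (nat_lit 0) (XT.lf (nat_lit 0) (nat_lit 122301584437) (nat_lit 152) (nat_lit 94086553139) (nat_lit 0) (nat_lit 93903548593) (nat_lit 186) (nat_lit 5) (nat_lit 188) (nat_lit 4) (nat_lit 186) (nat_lit 4) (nat_lit 343) (nat_lit 312) (nat_lit 245)) (XT.lf (nat_lit 0) (nat_lit 122817473505) (nat_lit 76) (nat_lit 123000795713) (nat_lit 76) (nat_lit 94602442207) (nat_lit 185) (nat_lit 4) (nat_lit 186) (nat_lit 5) (nat_lit 186) (nat_lit 4) (nat_lit 344) (nat_lit 312) (nat_lit 244))) (XT.nd (nat_lit 78) (nat_lit 76) (nat_lit 0) (XT.lf (nat_lit 0) (nat_lit 8486028211) (nat_lit 76) (nat_lit 8669626646) (nat_lit 152) (nat_lit 357008787328) (nat_lit 183) (nat_lit 5) (nat_lit 184) (nat_lit 5) (nat_lit 185) (nat_lit 4) (nat_lit 345) (nat_lit 312) (nat_lit 243)) (XT.nd (nat_lit 78) (nat_lit 76) (nat_lit 0) (XT.lf (nat_lit 0) (nat_lit 152991199019)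 (nat_lit 152) (nat_lit 128456389195) (nat_lit 0) (nat_lit 128296529515) (nat_lit 183) (nat_lit 5) (nat_lit 185) (nat_lit 4) (nat_lit 183) (nat_lit 4) (nat_lit 346) (nat_lit 312) (nat_lit 242)) (XT.lf (nat_lit 0) (nat_lit 157997520652) (nat_lit 76) (nat_lit 158157561955) (nat_lit 76) (nat_lit 133462710828) (nat_lit 182) (nat_lit 4) (nat_lit 183) (nat_lit 5) (nat_lit 183) (nat_lit 4) (nat_lit 347) (nat_lit 312) (nat_lit 241)))))) (XT.nd (nat_lit 390) (nat_lit 456) (nat_lit 0) (XT.nd (nat_lit 156) (nat_lit 228) (nat_lit 0) (XT.nd (nat_lit 78) (nat_lit 0) (nat_lit 0) (XT.lf (nat_lit 0) (nat_lit 7378963849) (nat_lit 76) (nat_lit 7539163086) (nat_lit 152) (nat_lit 479402026031) (nat_lit 180) (nat_lit 5) (nat_lit 181) (nat_lit 5) (nat_lit 182) (nat_lit 4) (nat_lit 348) (nat_lit 312) (nat_lit 240)) (XT.lf (nat_lit 0) (nat_lit 194719690974) (nat_lit 152) (nat_lit 173385073735) (nat_lit 0) (nat_lit 173245650630)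 (nat_lit 180) (nat_lit 5) (nat_lit 182) (nat_lit 4) (nat_lit 180) (nat_lit 4) (nat_lit 349) (nat_lit 312) (nat_lit 239))) (XT.nd (nat_lit 78) (nat_lit 152) (nat_lit 0) (XT.lf (nat_lit 0) (nat_lit 205100939927) (nat_lit 76) (nat_lit 205240466876) (nat_lit 76) (nat_lit 183766322689) (nat_lit 179) (nat_lit 4) (nat_lit 180) (nat_lit 5) (nat_lit 180) (nat_lit 4) (nat_lit 350) (nat_lit 312) (nat_lit 238)) (XT.nd (nat_lit 78) (nat_lit 0) (nat_lit 0) (XT.lf (nat_lit 0) (nat_lit 6416381031) (nat_lit 76) (nat_lit 6555998279) (nat_lit 152) (nat_lit 640320544462) (nat_lit 177) (nat_lit 5) (nat_lit 178) (nat_lit 5) (nat_lit 179) (nat_lit 4) (nat_lit 351) (nat_lit 312) (nat_lit 237)) (XT.lf (nat_lit 0) (nat_lit 250898284019) (nat_lit 152) (nat_lit 232346442942) (nat_lit 0) (nat_lit 232224968361) (nat_lit 177) (nat_lit 5) (nat_lit 179) (nat_lit 4) (nat_lit 177) (nat_lit 4) (nat_lit 352) (nat_lit 312) (nat_lit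 236))))) (XT.nd (nat_lit 156) (nat_lit 228) (nat_lit 0) (XT.nd (nat_lit 78) (nat_lit 152) (nat_lit 0) (XT.lf (nat_lit 0) (nat_lit 267897582060) (nat_lit 76) (nat_lit 268019116015) (nat_lit 76) (nat_lit 249345740983) (nat_lit 176) (nat_lit 4) (nat_lit 177) (nat_lit 5) (nat_lit 177) (nat_lit 4) (nat_lit 353) (nat_lit 312) (nat_lit 235)) (XT.lf (nat_lit 0) (nat_lit 5579399289) (nat_lit 76) (nat_lit 5700984873) (nat_lit 152) (nat_lit 852312145597) (nat_lit 174) (nat_lit 5) (nat_lit 175) (nat_lit 5) (nat_lit 176) (nat_lit 4) (nat_lit 354) (nat_lit 312) (nat_lit 234))) (XT.nd (nat_lit 78) (nat_lit 228) (nat_lit 0) (XT.lf (nat_lit 0) (nat_lit 326057700373) (nat_lit 152) (nat_lit 309925664654) (nat_lit 0) (nat_lit 309819899021) (nat_lit 174) (nat_lit 5) (nat_lit 176) (nat_lit 4) (nat_lit 174) (nat_lit 4) (nat_lit 355) (nat_lit 312) (nat_lit 233)) (XT.nd (nat_lit 78) (nat_lit 152) (nat_lit 0) (XT.lf (nat_lit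 0) (nat_lit 351382944481) (nat_lit 76) (nat_lit 351488744060) (nat_lit 76) (nat_lit 335250908762) (nat_lit 173) (nat_lit 4) (nat_lit 174) (nat_lit 5) (nat_lit 174) (nat_lit 4) (nat_lit 356) (nat_lit 312) (nat_lit 232)) (XT.lf (nat_lit 0) (nat_lit 4851615835) (nat_lit 76) (nat_lit 4957444933) (nat_lit 152) (nat_lit 1131955229496) (nat_lit 171) (nat_lit 5) (nat_lit 172) (nat_lit 5) (nat_lit 173) (nat_lit 4) (nat_lit 357) (nat_lit 312) (nat_lit 231))))))) (XT.nd (nat_lit 780) (nat_lit 760) (nat_lit 0) (XT.nd (nat_lit 390) (nat_lit 380) (nat_lit 0) (XT.nd (nat_lit 156) (nat_lit 228) (nat_lit 0) (XT.nd (nat_lit 78) (nat_lit 76) (nat_lit 0) (XT.lf (nat_lit 0) (nat_lit 426206684920) (nat_lit 152) (nat_lit 412178827773) (nat_lit 0) (nat_lit 412086780149) (nat_lit 171) (nat_lit 5) (nat_lit 173) (nat_lit 4) (nat_lit 171) (nat_lit 4) (nat_lit 358) (nat_lit 312) (nat_lit 230)) (XT.lf (nat_lit 0) (nat_lit 462172142052)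 (nat_lit 76) (nat_lit 462264209085) (nat_lit 76) (nat_lit 448144284905) (nat_lit 170) (nat_lit 4) (nat_lit 171) (nat_lit 5) (nat_lit 171) (nat_lit 4) (nat_lit 359) (nat_lit 312) (nat_lit 229))) (XT.nd (nat_lit 78) (nat_lit 76) (nat_lit 0) (XT.lf (nat_lit 0) (nat_lit 4218775954) (nat_lit 76) (nat_lit 4310859864) (nat_lit 152) (nat_lit 1501160745603) (nat_lit 168) (nat_lit 5) (nat_lit 169) (nat_lit 5) (nat_lit 170) (nat_lit 4) (nat_lit 360) (nat_lit 312) (nat_lit 228)) (XT.nd (nat_lit 78) (nat_lit 76) (nat_lit 0) (XT.lf (nat_lit 0) (nat_lit 559306475531) (nat_lit 152) (nat_lit 547108338881) (nat_lit 0) (nat_lit 547028253154) (nat_lit 168) (nat_lit 5) (nat_lit 170) (nat_lit 4) (nat_lit 168) (nat_lit 4) (nat_lit 361) (nat_lit 312) (nat_lit 227)) (XT.lf (nat_lit 0) (nat_lit 609021108519) (nat_lit 76) (nat_lit 609101205344) (nat_lit 76) (nat_lit 596822971870) (nat_lit 167) (nat_lit 4) (nat_lit 168) (nat_lit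 5) (nat_lit 168) (nat_lit 4) (nat_lit 362) (nat_lit 312) (nat_lit 226))))) (XT.nd (nat_lit 156) (nat_lit 228) (nat_lit 0) (XT.nd (nat_lit 78) (nat_lit 0) (nat_lit 0) (XT.lf (nat_lit 0) (nat_lit 3668489152) (nat_lit 76) (nat_lit 3748595627) (nat_lit 152) (nat_lit 1988893757562) (nat_lit 165) (nat_lit 5) (nat_lit 166) (nat_lit 5) (nat_lit 167) (nat_lit 4) (nat_lit 363) (nat_lit 312) (nat_lit 225)) (XT.lf (nat_lit 0) (nat_lit 735898572653) (nat_lit 152) (nat_lit 725291497306) (nat_lit 0) (nat_lit 725221832205) (nat_lit 165) (nat_lit 5) (nat_lit 167) (nat_lit 4) (nat_lit 165) (nat_lit 4) (nat_lit 364) (nat_lit 312) (nat_lit 224))) (XT.nd (nat_lit 78) (nat_lit 152) (nat_lit 0) (XT.lf (nat_lit 0) (nat_lit 803516035364) (nat_lit 76) (nat_lit 803585706810) (nat_lit 76) (nat_lit 792908960017) (nat_lit 164) (nat_lit 4) (nat_lit 165) (nat_lit 5) (nat_lit 165) (nat_lit 4) (nat_lit 365) (nat_lit 312) (nat_lit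 223)) (XT.nd (nat_lit 78) (nat_lit 0) (nat_lit 0) (XT.lf (nat_lit 0) (nat_lit 3189983891) (nat_lit 76) (nat_lit 3259660853) (nat_lit 152) (nat_lit 2633449978362) (nat_lit 162) (nat_lit 5) (nat_lit 163) (nat_lit 5) (nat_lit 164) (nat_lit 4) (nat_lit 366) (nat_lit 312) (nat_lit 222)) (XT.lf (nat_lit 0) (nat_lit 969935211742) (nat_lit 152) (nat_lit 960711667961) (nat_lit 0) (nat_lit 960651075126) (nat_lit 162) (nat_lit 5) (nat_lit 164) (nat_lit 4) (nat_lit 162) (nat_lit 4) (nat_lit 367) (nat_lit 312) (nat_lit 221)))))) (XT.nd (nat_lit 390) (nat_lit 304) (nat_lit 0) (XT.nd (nat_lit 156) (nat_lit 228) (nat_lit 0) (XT.nd (nat_lit 78) (nat_lit 152) (nat_lit 0) (XT.lf (nat_lit 0) (nat_lit 1060985283706) (nat_lit 76) (nat_lit 1061045880168) (nat_lit 76) (nat_lit 1051761739925) (nat_lit 161) (nat_lit 4) (nat_lit 162) (nat_lit 5) (nat_lit 162) (nat_lit 4) (nat_lit 368) (nat_lit 312) (nat_lit 220)) (XT.lf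 (nat_lit 0) (nat_lit 2773895218) (nat_lit 76) (nat_lit 2834494835) (nat_lit 152) (nat_lit 3485466283124) (nat_lit 159) (nat_lit 5) (nat_lit 160) (nat_lit 5) (nat_lit 161) (nat_lit 4) (nat_lit 369) (nat_lit 312) (nat_lit 219))) (XT.nd (nat_lit 78) (nat_lit 228) (nat_lit 0) (XT.lf (nat_lit 0) (nat_lit 1279877878779) (nat_lit 152) (nat_lit 1271857405926) (nat_lit 0) (nat_lit 1271804708221) (nat_lit 159) (nat_lit 5) (nat_lit 161) (nat_lit 4) (nat_lit 159) (nat_lit 4) (nat_lit 370) (nat_lit 312) (nat_lit 218)) (XT.nd (nat_lit 78) (nat_lit 152) (nat_lit 0) (XT.lf (nat_lit 0) (nat_lit 1401705499202) (nat_lit 76) (nat_lit 1401758198981) (nat_lit 76) (nat_lit 1393685026349) (nat_lit 158) (nat_lit 4) (nat_lit 159) (nat_lit 5) (nat_lit 159) (nat_lit 4) (nat_lit 371) (nat_lit 312) (nat_lit 217)) (XT.lf (nat_lit 0) (nat_lit 2412080615) (nat_lit 76) (nat_lit 2464782198) (nat_lit 152) (nat_lit 4611901933375)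 (nat_lit 156) (nat_lit 5) (nat_lit 157) (nat_lit 5) (nat_lit 158) (nat_lit 4) (nat_lit 372) (nat_lit 312) (nat_lit 216))))) (XT.nd (nat_lit 156) (nat_lit 228) (nat_lit 0) (XT.nd (nat_lit 78) (nat_lit 76) (nat_lit 0) (XT.lf (nat_lit 0) (nat_lit 1690150285102) (nat_lit 152) (nat_lit 1683175960882) (nat_lit 0) (nat_lit 1683130132055) (nat_lit 156) (nat_lit 5) (nat_lit 158) (nat_lit 4) (nat_lit 156) (nat_lit 4) (nat_lit 373) (nat_lit 312) (nat_lit 215)) (XT.lf (nat_lit 0) (nat_lit 1852496795449) (nat_lit 76) (nat_lit 1852542625462) (nat_lit 76) (nat_lit 1845522471230) (nat_lit 155) (nat_lit 4) (nat_lit 156) (nat_lit 5) (nat_lit 156) (nat_lit 4) (nat_lit 374) (nat_lit 312) (nat_lit 214))) (XT.nd (nat_lit 78) (nat_lit 76) (nat_lit 0) (XT.lf (nat_lit 0) (nat_lit 2097460157) (nat_lit 76) (nat_lit 2143291201) (nat_lit 152) (nat_lit 6101303590218) (nat_lit 153) (nat_lit 5) (nat_lit 154) (nat_lit 5) (nat_lit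 155) (nat_lit 4) (nat_lit 375) (nat_lit 312) (nat_lit 213)) (XT.nd (nat_lit 78) (nat_lit 76) (nat_lit 0) (XT.lf (nat_lit 0) (nat_lit 2233060090412) (nat_lit 152) (nat_lit 2226995460655) (nat_lit 0) (nat_lit 2226955606794) (nat_lit 153) (nat_lit 5) (nat_lit 155) (nat_lit 4) (nat_lit 153) (nat_lit 4) (nat_lit 376) (nat_lit 312) (nat_lit 212)) (XT.lf (nat_lit 0) (nat_lit 2448832467628) (nat_lit 76) (nat_lit 2448872322168) (nat_lit 76) (nat_lit 2442767837872) (nat_lit 152) (nat_lit 4) (nat_lit 153) (nat_lit 5) (nat_lit 153) (nat_lit 4) (nat_lit 377) (nat_lit 312) (nat_lit 211))))))))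
noncomputable def xc67 : XT := (XT.nd (nat_lit 42978) (nat_lit 0) (nat_lit 2736) (XT.nd (nat_lit 42198) (nat_lit 0) (nat_lit 4180) (XT.nd (nat_lit 41808) (nat_lit 0) (nat_lit 5168) (XT.nd (nat_lit 156) (nat_lit 228) (nat_lit 0) (XT.nd (nat_lit 78) (nat_lit 0) (nat_lit 0) (XT.lf (nat_lit 0) (nat_lit 1823877684) (nat_lit 76) (nat_lit 1863732813) (nat_lit 152) (nat_lit 8070768158416) (nat_lit 150) (nat_lit 5) (nat_lit 151) (nat_lit 5) (nat_lit 152) (nat_lit 4) (nat_lit 378) (nat_lit 312) (nat_lit 210)) (XT.lf (nat_lit 0) (nat_lit 2951340524024) (nat_lit 152) (nat_lit 2946066932931) (nat_lit 0) (nat_lit 2946032275851) (nat_lit 150) (nat_lit 5) (nat_lit 152) (nat_lit 4) (nat_lit 150) (nat_lit 4) (nat_lit 379) (nat_lit 312) (nat_lit 209))) (XT.nd (nat_lit 78) (nat_lit 152) (nat_lit 0) (XT.lf (nat_lit 0) (nat_lit 3237629161356) (nat_lit 76) (nat_lit 3237663818824) (nat_lit 76) (nat_lit 3232355570264)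 (nat_lit 149) (nat_lit 4) (nat_lit 150) (nat_lit 5) (nat_lit 150) (nat_lit 4) (nat_lit 380) (nat_lit 312) (nat_lit 208)) (XT.nd (nat_lit 78) (nat_lit 0) (nat_lit 0) (XT.lf (nat_lit 0) (nat_lit 1585980186) (nat_lit 76) (nat_lit 1620637991) (nat_lit 152) (nat_lit 10675151029479) (nat_lit 147) (nat_lit 5) (nat_lit 148) (nat_lit 5) (nat_lit 149) (nat_lit 4) (nat_lit 381) (nat_lit 312) (nat_lit 207)) (XT.lf (nat_lit 0) (nat_lit 3901511803047) (nat_lit 152) (nat_lit 3896926071663) (nat_lit 0) (nat_lit 3896895934186) (nat_lit 147) (nat_lit 5) (nat_lit 149) (nat_lit 4) (nat_lit 147) (nat_lit 4) (nat_lit 382) (nat_lit 312) (nat_lit 206))))) (XT.nd (nat_lit 156) (nat_lit 0) (nat_lit 76) (XT.nd (nat_lit 78) (nat_lit 0) (nat_lit 0) (XT.lf (nat_lit 0) (nat_lit 3585637902) (nat_lit 380) (nat_lit 4454085019) (nat_lit 380) (nat_lit 4454085019) (nat_lit 215) (nat_lit 3) (nat_lit 220) (nat_lit 3) (nat_lit 220) (nat_lit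 5) (nat_lit 313) (nat_lit 313) (nat_lit 274)) (XT.lf (nat_lit 76) (nat_lit 3936052515) (nat_lit 0) (nat_lit 4033905734) (nat_lit 380) (nat_lit 18852603310) (nat_lit 216) (nat_lit 5) (nat_lit 215) (nat_lit 3) (nat_lit 220) (nat_lit 5) (nat_lit 314) (nat_lit 313) (nat_lit 273))) (XT.nd (nat_lit 78) (nat_lit 0) (nat_lit 0) (XT.lf (nat_lit 0) (nat_lit 9765239550) (nat_lit 304) (nat_lit 9597535456) (nat_lit 380) (nat_lit 9438454608) (nat_lit 216) (nat_lit 5) (nat_lit 220) (nat_lit 5) (nat_lit 221) (nat_lit 5) (nat_lit 315) (nat_lit 313) (nat_lit 272)) (XT.nd (nat_lit 78) (nat_lit 0) (nat_lit 76) (XT.lf (nat_lit 76) (nat_lit 6016150021) (nat_lit 0) (nat_lit 6239570948) (nat_lit 380) (nat_lit 18757090720) (nat_lit 217) (nat_lit 5) (nat_lit 216) (nat_lit 5) (nat_lit 221) (nat_lit 5) (nat_lit 316) (nat_lit 313) (nat_lit 271)) (XT.lf (nat_lit 0) (nat_lit 15998208637) (nat_lit 304) (nat_lit 8834543372) (nat_lit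 76) (nat_lit 8591613961) (nat_lit 217) (nat_lit 5) (nat_lit 221) (nat_lit 5) (nat_lit 218) (nat_lit 5) (nat_lit 317) (nat_lit 313) (nat_lit 270)))))) (XT.nd (nat_lit 390) (nat_lit 456) (nat_lit 0) (XT.nd (nat_lit 156) (nat_lit 380) (nat_lit 0) (XT.nd (nat_lit 78) (nat_lit 0) (nat_lit 0) (XT.lf (nat_lit 0) (nat_lit 10365635100) (nat_lit 304) (nat_lit 10650869157) (nat_lit 380) (nat_lit 15073983916) (nat_lit 213) (nat_lit 5) (nat_lit 217) (nat_lit 5) (nat_lit 218) (nat_lit 5) (nat_lit 318) (nat_lit 313) (nat_lit 269)) (XT.lf (nat_lit 0) (nat_lit 27494788340) (nat_lit 380) (nat_lit 5917835878) (nat_lit 76) (nat_lit 5637817872) (nat_lit 213) (nat_lit 5) (nat_lit 218) (nat_lit 5) (nat_lit 214) (nat_lit 5) (nat_lit 319) (nat_lit 313) (nat_lit 268))) (XT.nd (nat_lit 78) (nat_lit 228) (nat_lit 0) (XT.lf (nat_lit 0) (nat_lit 17938768196) (nat_lit 152) (nat_lit 18246602194) (nat_lit 228) (nat_lit 6082935399)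 (nat_lit 211) (nat_lit 5) (nat_lit 213) (nat_lit 5) (nat_lit 214) (nat_lit 5) (nat_lit 320) (nat_lit 313) (nat_lit 267)) (XT.nd (nat_lit 78) (nat_lit 0) (nat_lit 0) (XT.lf (nat_lit 0) (nat_lit 89309118) (nat_lit 152) (nat_lit 421330935) (nat_lit 228) (nat_lit 45409094378) (nat_lit 208) (nat_lit 5) (nat_lit 210) (nat_lit 5) (nat_lit 211) (nat_lit 5) (nat_lit 321) (nat_lit 313) (nat_lit 266)) (XT.lf (nat_lit 0) (nat_lit 9625723261) (nat_lit 228) (nat_lit 20216710719) (nat_lit 76) (nat_lit 19909706629) (nat_lit 208) (nat_lit 5) (nat_lit 211) (nat_lit 5) (nat_lit 209) (nat_lit 5) (nat_lit 322) (nat_lit 313) (nat_lit 265))))) (XT.nd (nat_lit 156) (nat_lit 304) (nat_lit 0) (XT.nd (nat_lit 78) (nat_lit 0) (nat_lit 0) (XT.lf (nat_lit 0) (nat_lit 10108213839) (nat_lit 152) (nat_lit 10431121813) (nat_lit 228) (nat_lit 33555382055) (nat_lit 206) (nat_lit 5) (nat_lit 208) (nat_lit 5) (nat_lit 209) (nat_lit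 5) (nat_lit 323) (nat_lit 313) (nat_lit 264)) (XT.lf (nat_lit 0) (nat_lit 34682553985) (nat_lit 228) (nat_lit 12230028968) (nat_lit 76) (nat_lit 11937213805) (nat_lit 206) (nat_lit 5) (nat_lit 209) (nat_lit 5) (nat_lit 207) (nat_lit 4) (nat_lit 324) (nat_lit 313) (nat_lit 263))) (XT.nd (nat_lit 78) (nat_lit 228) (nat_lit 0) (XT.lf (nat_lit 0) (nat_lit 26107861156) (nat_lit 76) (nat_lit 26411133381) (nat_lit 152) (nat_lit 11563382209) (nat_lit 205) (nat_lit 5) (nat_lit 206) (nat_lit 5) (nat_lit 207) (nat_lit 4) (nat_lit 325) (nat_lit 313) (nat_lit 262)) (XT.nd (nat_lit 78) (nat_lit 0) (nat_lit 0) (XT.lf (nat_lit 0) (nat_lit 1542729044) (nat_lit 152) (nat_lit 1855094365) (nat_lit 228) (nat_lit 66574658651) (nat_lit 202) (nat_lit 5) (nat_lit 204) (nat_lit 5) (nat_lit 205) (nat_lit 5) (nat_lit 326) (nat_lit 313) (nat_lit 261)) (XT.lf (nat_lit 0) (nat_lit 22585731476) (nat_lit 228) (nat_lit 26940657531)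 (nat_lit 76) (nat_lit 26662159824) (nat_lit 202) (nat_lit 5) (nat_lit 205) (nat_lit 5) (nat_lit 203) (nat_lit 4) (nat_lit 327) (nat_lit 313) (nat_lit 260))))))) (XT.nd (nat_lit 780) (nat_lit 684) (nat_lit 0) (XT.nd (nat_lit 390) (nat_lit 456) (nat_lit 0) (XT.nd (nat_lit 156) (nat_lit 228) (nat_lit 0) (XT.nd (nat_lit 78) (nat_lit 0) (nat_lit 0) (XT.lf (nat_lit 0) (nat_lit 22695252863) (nat_lit 76) (nat_lit 22979729429) (nat_lit 152) (nat_lit 37508569846) (nat_lit 201) (nat_lit 5) (nat_lit 202) (nat_lit 5) (nat_lit 203) (nat_lit 4) (nat_lit 328) (nat_lit 313) (nat_lit 259)) (XT.lf (nat_lit 0) (nat_lit 74010733466) (nat_lit 152) (nat_lit 8600748683) (nat_lit 0) (nat_lit 8348856880) (nat_lit 201) (nat_lit 5) (nat_lit 203) (nat_lit 4) (nat_lit 201) (nat_lit 4) (nat_lit 329) (nat_lit 313) (nat_lit 258))) (XT.nd (nat_lit 78) (nat_lit 76) (nat_lit 0) (XT.lf (nat_lit 0) (nat_lit 9618768915) (nat_lit 152)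 (nat_lit 44985454614) (nat_lit 76) (nat_lit 44729631614) (nat_lit 199) (nat_lit 5) (nat_lit 201) (nat_lit 5) (nat_lit 200) (nat_lit 4) (nat_lit 330) (nat_lit 313) (nat_lit 257)) (XT.nd (nat_lit 78) (nat_lit 0) (nat_lit 0) (XT.lf (nat_lit 0) (nat_lit 19730865798) (nat_lit 76) (nat_lit 19990107230) (nat_lit 152) (nat_lit 68928773500) (nat_lit 198) (nat_lit 5) (nat_lit 199) (nat_lit 5) (nat_lit 200) (nat_lit 4) (nat_lit 331) (nat_lit 313) (nat_lit 256)) (XT.lf (nat_lit 0) (nat_lit 77618509593) (nat_lit 152) (nat_lit 20740261956) (nat_lit 0) (nat_lit 20512249798) (nat_lit 198) (nat_lit 5) (nat_lit 200) (nat_lit 4) (nat_lit 198) (nat_lit 4) (nat_lit 332) (nat_lit 313) (nat_lit 255))))) (XT.nd (nat_lit 156) (nat_lit 228) (nat_lit 0) (XT.nd (nat_lit 78) (nat_lit 152) (nat_lit 0) (XT.lf (nat_lit 0) (nat_lit 62248193247) (nat_lit 76) (nat_lit 62478453079) (nat_lit 76) (nat_lit 5369945610) (nat_lit 197)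 (nat_lit 4) (nat_lit 198) (nat_lit 5) (nat_lit 198) (nat_lit 4) (nat_lit 333) (nat_lit 313) (nat_lit 254)) (XT.lf (nat_lit 0) (nat_lit 17154909440) (nat_lit 76) (nat_lit 17387123772) (nat_lit 152) (nat_lit 107964617152) (nat_lit 195) (nat_lit 5) (nat_lit 196) (nat_lit 5) (nat_lit 197) (nat_lit 4) (nat_lit 334) (nat_lit 313) (nat_lit 253))) (XT.nd (nat_lit 78) (nat_lit 228) (nat_lit 0) (XT.lf (nat_lit 0) (nat_lit 85030352394) (nat_lit 152) (nat_lit 35571006623) (nat_lit 0) (nat_lit 35367603234) (nat_lit 195) (nat_lit 5) (nat_lit 197) (nat_lit 4) (nat_lit 195) (nat_lit 4) (nat_lit 335) (nat_lit 313) (nat_lit 252)) (XT.nd (nat_lit 78) (nat_lit 152) (nat_lit 0) (XT.lf (nat_lit 0) (nat_lit 73375261464) (nat_lit 76) (nat_lit 73579949968) (nat_lit 76) (nat_lit 23915915693) (nat_lit 194) (nat_lit 4) (nat_lit 195) (nat_lit 5) (nat_lit 195) (nat_lit 4) (nat_lit 336) (nat_lit 313) (nat_lit 251)) (XT.lf (nat_lit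 0) (nat_lit 14915960265) (nat_lit 76) (nat_lit 15121766260) (nat_lit 152) (nat_lit 157399168083) (nat_lit 192) (nat_lit 5) (nat_lit 193) (nat_lit 5) (nat_lit 194) (nat_lit 4) (nat_lit 337) (nat_lit 313) (nat_lit 250)))))) (XT.nd (nat_lit 390) (nat_lit 380) (nat_lit 0) (XT.nd (nat_lit 156) (nat_lit 228) (nat_lit 0) (XT.nd (nat_lit 78) (nat_lit 76) (nat_lit 0) (XT.lf (nat_lit 0) (nat_lit 97129568765) (nat_lit 152) (nat_lit 54121442007) (nat_lit 0) (nat_lit 53941635288) (nat_lit 192) (nat_lit 5) (nat_lit 194) (nat_lit 4) (nat_lit 192) (nat_lit 4) (nat_lit 338) (nat_lit 313) (nat_lit 249)) (XT.lf (nat_lit 0) (nat_lit 89259103751) (nat_lit 76) (nat_lit 89439645239) (nat_lit 76) (nat_lit 46250976993) (nat_lit 191) (nat_lit 4) (nat_lit 192) (nat_lit 5) (nat_lit 192) (nat_lit 4) (nat_lit 339) (nat_lit 313) (nat_lit 248))) (XT.nd (nat_lit 78) (nat_lit 76) (nat_lit 0) (XT.lf (nat_lit 0) (nat_lit 12969627053)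 (nat_lit 76) (nat_lit 13150807471) (nat_lit 152) (nat_lit 220870947106) (nat_lit 189) (nat_lit 5) (nat_lit 190) (nat_lit 5) (nat_lit 191) (nat_lit 4) (nat_lit 340) (nat_lit 313) (nat_lit 247)) (XT.nd (nat_lit 78) (nat_lit 76) (nat_lit 0) (XT.lf (nat_lit 0) (nat_lit 115128744700) (nat_lit 152) (nat_lit 77730373607) (nat_lit 0) (nat_lit 77572342295) (nat_lit 189) (nat_lit 5) (nat_lit 191) (nat_lit 4) (nat_lit 189) (nat_lit 4) (nat_lit 341) (nat_lit 313) (nat_lit 246)) (XT.lf (nat_lit 0) (nat_lit 111280893513) (nat_lit 76) (nat_lit 111439344931) (nat_lit 76) (nat_lit 73882522420) (nat_lit 188) (nat_lit 4) (nat_lit 189) (nat_lit 5) (nat_lit 189) (nat_lit 4) (nat_lit 342) (nat_lit 313) (nat_lit 245))))) (XT.nd (nat_lit 156) (nat_lit 228) (nat_lit 0) (XT.nd (nat_lit 78) (nat_lit 0) (nat_lit 0) (XT.lf (nat_lit 0) (nat_lit 11277494501) (nat_lit 76) (nat_lit 11436311229) (nat_lit 152) (nat_lit 303155057848)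 (nat_lit 186) (nat_lit 5) (nat_lit 187) (nat_lit 5) (nat_lit 188) (nat_lit 4) (nat_lit 343) (nat_lit 313) (nat_lit 244)) (XT.lf (nat_lit 0) (nat_lit 140670312863) (nat_lit 152) (nat_lit 108149990173) (nat_lit 0) (nat_lit 108011612444) (nat_lit 186) (nat_lit 5) (nat_lit 188) (nat_lit 4) (nat_lit 186) (nat_lit 4) (nat_lit 344) (nat_lit 313) (nat_lit 243))) (XT.nd (nat_lit 78) (nat_lit 152) (nat_lit 0) (XT.lf (nat_lit 0) (nat_lit 141287388380) (nat_lit 76) (nat_lit 141426006306) (nat_lit 76) (nat_lit 108767065690) (nat_lit 185) (nat_lit 4) (nat_lit 186) (nat_lit 5) (nat_lit 186) (nat_lit 4) (nat_lit 345) (nat_lit 313) (nat_lit 242)) (XT.nd (nat_lit 78) (nat_lit 0) (nat_lit 0) (XT.lf (nat_lit 0) (nat_lit 9806264205) (nat_lit 76) (nat_lit 9945090998) (nat_lit 152) (nat_lit 410534400492) (nat_lit 183) (nat_lit 5) (nat_lit 184) (nat_lit 5) (nat_lit 185) (nat_lit 4) (nat_lit 346) (nat_lit 313) (nat_lit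 241)) (XT.lf (nat_lit 0) (nat_lit 175960214934) (nat_lit 152) (nat_lit 147681673465) (nat_lit 0) (nat_lit 147560796580) (nat_lit 183) (nat_lit 5) (nat_lit 185) (nat_lit 4) (nat_lit 183) (nat_lit 4) (nat_lit 347) (nat_lit 313) (nat_lit 240))))))))
noncomputable def xc68 : XT := (XT.nd (nat_lit 1560) (nat_lit 1140) (nat_lit 0) (XT.nd (nat_lit 780) (nat_lit 836) (nat_lit 0) (XT.nd (nat_lit 390) (nat_lit 304) (nat_lit 0) (XT.nd (nat_lit 156) (nat_lit 228) (nat_lit 0) (XT.nd (nat_lit 78) (nat_lit 152) (nat_lit 0) (XT.lf (nat_lit 0) (nat_lit 181738360400) (nat_lit 76) (nat_lit 181859374618) (nat_lit 76) (nat_lit 153459818930) (nat_lit 182) (nat_lit 4) (nat_lit 183) (nat_lit 5) (nat_lit 183) (nat_lit 4) (nat_lit 348) (nat_lit 313) (nat_lit 239)) (XT.lf (nat_lit 0) (nat_lit 8527041753) (nat_lit 76) (nat_lit 8648175391) (nat_lit 152) (nat_lit 551290053091) (nat_lit 180) (nat_lit 5) (nat_lit 181) (nat_lit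 5) (nat_lit 182) (nat_lit 4) (nat_lit 349) (nat_lit 313) (nat_lit 238))) (XT.nd (nat_lit 78) (nat_lit 228) (nat_lit 0) (XT.lf (nat_lit 0) (nat_lit 223945276302) (nat_lit 152) (nat_lit 199355240242) (nat_lit 0) (nat_lit 199249816344) (nat_lit 180) (nat_lit 5) (nat_lit 182) (nat_lit 4) (nat_lit 180) (nat_lit 4) (nat_lit 350) (nat_lit 313) (nat_lit 237)) (XT.nd (nat_lit 78) (nat_lit 152) (nat_lit 0) (XT.lf (nat_lit 0) (nat_lit 235901966627) (nat_lit 76) (nat_lit 236007469045) (nat_lit 76) (nat_lit 211311930566) (nat_lit 179) (nat_lit 4) (nat_lit 180) (nat_lit 5) (nat_lit 180) (nat_lit 4) (nat_lit 351) (nat_lit 313) (nat_lit 236)) (XT.lf (nat_lit 0) (nat_lit 7414736290) (nat_lit 76) (nat_lit 7520306988) (nat_lit 152) (nat_lit 736349297999) (nat_lit 177) (nat_lit 5) (nat_lit 178) (nat_lit 5) (nat_lit 179) (nat_lit 4) (nat_lit 352) (nat_lit 313) (nat_lit 235))))) (XT.nd (nat_lit 156) (nat_lit 228) (nat_lit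 0) (XT.nd (nat_lit 78) (nat_lit 76) (nat_lit 0) (XT.lf (nat_lit 0) (nat_lit 288548328874) (nat_lit 152) (nat_lit 267165688822) (nat_lit 0) (nat_lit 267073836586) (nat_lit 177) (nat_lit 5) (nat_lit 179) (nat_lit 4) (nat_lit 177) (nat_lit 4) (nat_lit 353) (nat_lit 313) (nat_lit 234)) (XT.lf (nat_lit 0) (nat_lit 308113452633) (nat_lit 76) (nat_lit 308205349763) (nat_lit 76) (nat_lit 286730812580) (nat_lit 176) (nat_lit 4) (nat_lit 177) (nat_lit 5) (nat_lit 177) (nat_lit 4) (nat_lit 354) (nat_lit 313) (nat_lit 233))) (XT.nd (nat_lit 78) (nat_lit 76) (nat_lit 0) (XT.lf (nat_lit 0) (nat_lit 6447549532) (nat_lit 76) (nat_lit 6539485701) (nat_lit 152) (nat_lit 980142184972) (nat_lit 174) (nat_lit 5) (nat_lit 175) (nat_lit 5) (nat_lit 176) (nat_lit 4) (nat_lit 355) (nat_lit 313) (nat_lit 232)) (XT.nd (nat_lit 78) (nat_lit 76) (nat_lit 0) (XT.lf (nat_lit 0) (nat_lit 374979644786) (nat_lit 152) (nat_lit 356386044740)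 (nat_lit 0) (nat_lit 356306070727) (nat_lit 174) (nat_lit 5) (nat_lit 176) (nat_lit 4) (nat_lit 174) (nat_lit 4) (nat_lit 356) (nat_lit 313) (nat_lit 231)) (XT.lf (nat_lit 0) (nat_lit 404117561692) (nat_lit 76) (nat_lit 404197561374) (nat_lit 76) (nat_lit 385523961646) (nat_lit 173) (nat_lit 4) (nat_lit 174) (nat_lit 5) (nat_lit 174) (nat_lit 4) (nat_lit 357) (nat_lit 313) (nat_lit 230)))))) (XT.nd (nat_lit 390) (nat_lit 456) (nat_lit 0) (XT.nd (nat_lit 156) (nat_lit 228) (nat_lit 0) (XT.nd (nat_lit 78) (nat_lit 0) (nat_lit 0) (XT.lf (nat_lit 0) (nat_lit 5606537800) (nat_lit 76) (nat_lit 5686559803) (nat_lit 152) (nat_lit 1301733934542) (nat_lit 171) (nat_lit 5) (nat_lit 172) (nat_lit 5) (nat_lit 173) (nat_lit 4) (nat_lit 358) (nat_lit 313) (nat_lit 229)) (XT.lf (nat_lit 0) (nat_lit 490149233929) (nat_lit 152) (nat_lit 473980886063) (nat_lit 0) (nat_lit 473911284836) (nat_lit 171) (nat_lit 5) (nat_lit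 173) (nat_lit 4) (nat_lit 171) (nat_lit 4) (nat_lit 359) (nat_lit 313) (nat_lit 228))) (XT.nd (nat_lit 78) (nat_lit 152) (nat_lit 0) (XT.lf (nat_lit 0) (nat_lit 531521603514) (nat_lit 76) (nat_lit 531591219418) (nat_lit 76) (nat_lit 515353255648) (nat_lit 170) (nat_lit 4) (nat_lit 171) (nat_lit 5) (nat_lit 171) (nat_lit 4) (nat_lit 360) (nat_lit 313) (nat_lit 227)) (XT.nd (nat_lit 78) (nat_lit 0) (nat_lit 0) (XT.lf (nat_lit 0) (nat_lit 4875234818) (nat_lit 76) (nat_lit 4944863483) (nat_lit 152) (nat_lit 1726322187767) (nat_lit 168) (nat_lit 5) (nat_lit 169) (nat_lit 5) (nat_lit 170) (nat_lit 4) (nat_lit 361) (nat_lit 313) (nat_lit 226)) (XT.lf (nat_lit 0) (nat_lit 643212481555) (nat_lit 152) (nat_lit 629153048629) (nat_lit 0) (nat_lit 629092492313) (nat_lit 168) (nat_lit 5) (nat_lit 170) (nat_lit 4) (nat_lit 168) (nat_lit 4) (nat_lit 362) (nat_lit 313) (nat_lit 225))))) (XT.nd (nat_lit 156) (nat_lit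 228) (nat_lit 0) (XT.nd (nat_lit 78) (nat_lit 152) (nat_lit 0) (XT.lf (nat_lit 0) (nat_lit 700394836742) (nat_lit 76) (nat_lit 700455401449) (nat_lit 76) (nat_lit 686335403815) (nat_lit 167) (nat_lit 4) (nat_lit 168) (nat_lit 5) (nat_lit 168) (nat_lit 4) (nat_lit 363) (nat_lit 313) (nat_lit 224)) (XT.lf (nat_lit 0) (nat_lit 4239325794) (nat_lit 76) (nat_lit 4299897798) (nat_lit 152) (nat_lit 2287216808686) (nat_lit 165) (nat_lit 5) (nat_lit 166) (nat_lit 5) (nat_lit 167) (nat_lit 4) (nat_lit 364) (nat_lit 313) (nat_lit 223))) (XT.nd (nat_lit 78) (nat_lit 228) (nat_lit 0) (XT.lf (nat_lit 0) (nat_lit 846292081205) (nat_lit 152) (nat_lit 834066487355) (nat_lit 0) (nat_lit 834013810531) (nat_lit 165) (nat_lit 5) (nat_lit 167) (nat_lit 4) (nat_lit 165) (nat_lit 4) (nat_lit 365) (nat_lit 313) (nat_lit 222)) (XT.nd (nat_lit 78) (nat_lit 152) (nat_lit 0) (XT.lf (nat_lit 0) (nat_lit 924061323645) (nat_lit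 76) (nat_lit 924114005267) (nat_lit 76) (nat_lit 911835729796) (nat_lit 164) (nat_lit 4) (nat_lit 165) (nat_lit 5) (nat_lit 165) (nat_lit 4) (nat_lit 366) (nat_lit 313) (nat_lit 221)) (XT.lf (nat_lit 0) (nat_lit 3686365207) (nat_lit 76) (nat_lit 3739051001) (nat_lit 152) (nat_lit 3028457901650) (nat_lit 162) (nat_lit 5) (nat_lit 163) (nat_lit 5) (nat_lit 164) (nat_lit 4) (nat_lit 367) (nat_lit 313) (nat_lit 220))))))) (XT.nd (nat_lit 780) (nat_lit 456) (nat_lit 0) (XT.nd (nat_lit 390) (nat_lit 380) (nat_lit 0) (XT.nd (nat_lit 156) (nat_lit 228) (nat_lit 0) (XT.nd (nat_lit 78) (nat_lit 76) (nat_lit 0) (XT.lf (nat_lit 0) (nat_lit 1115433076608) (nat_lit 152) (nat_lit 1104802125435) (nat_lit 0) (nat_lit 1104756308546) (nat_lit 162) (nat_lit 5) (nat_lit 164) (nat_lit 4) (nat_lit 162) (nat_lit 4) (nat_lit 368) (nat_lit 313) (nat_lit 219)) (XT.lf (nat_lit 0) (nat_lit 1220148628404) (nat_lit 76) (nat_lit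 1220194448036) (nat_lit 76) (nat_lit 1209517677231) (nat_lit 161) (nat_lit 4) (nat_lit 162) (nat_lit 5) (nat_lit 162) (nat_lit 4) (nat_lit 369) (nat_lit 313) (nat_lit 218))) (XT.nd (nat_lit 78) (nat_lit 76) (nat_lit 0) (XT.lf (nat_lit 0) (nat_lit 3205532076) (nat_lit 76) (nat_lit 3251354093) (nat_lit 152) (nat_lit 4008277902343) (nat_lit 159) (nat_lit 5) (nat_lit 160) (nat_lit 5) (nat_lit 161) (nat_lit 4) (nat_lit 370) (nat_lit 313) (nat_lit 217)) (XT.nd (nat_lit 78) (nat_lit 76) (nat_lit 0) (XT.lf (nat_lit 0) (nat_lit 1471866153564) (nat_lit 152) (nat_lit 1462621848196) (nat_lit 0) (nat_lit 1462582001160) (nat_lit 159) (nat_lit 5) (nat_lit 161) (nat_lit 4) (nat_lit 159) (nat_lit 4) (nat_lit 371) (nat_lit 313) (nat_lit 216)) (XT.lf (nat_lit 0) (nat_lit 1611974848673) (nat_lit 76) (nat_lit 1612014697277) (nat_lit 76) (nat_lit 1602730543305) (nat_lit 158) (nat_lit 4) (nat_lit 159) (nat_lit 5) (nat_lit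 159) (nat_lit 4) (nat_lit 372) (nat_lit 313) (nat_lit 215))))) (XT.nd (nat_lit 156) (nat_lit 228) (nat_lit 0) (XT.nd (nat_lit 78) (nat_lit 0) (nat_lit 0) (XT.lf (nat_lit 0) (nat_lit 2787417547) (nat_lit 76) (nat_lit 2827267514) (nat_lit 152) (nat_lit 5303679986633) (nat_lit 156) (nat_lit 5) (nat_lit 157) (nat_lit 5) (nat_lit 158) (nat_lit 4) (nat_lit 373) (nat_lit 313) (nat_lit 214)) (XT.lf (nat_lit 0) (nat_lit 1943678560291) (nat_lit 152) (nat_lit 1935640033884) (nat_lit 0) (nat_lit 1935605380707) (nat_lit 156) (nat_lit 5) (nat_lit 158) (nat_lit 4) (nat_lit 156) (nat_lit 4) (nat_lit 374) (nat_lit 313) (nat_lit 213))) (XT.nd (nat_lit 78) (nat_lit 152) (nat_lit 0) (XT.lf (nat_lit 0) (nat_lit 2130383075846) (nat_lit 76) (nat_lit 2130417729920) (nat_lit 76) (nat_lit 2122344549439) (nat_lit 155) (nat_lit 4) (nat_lit 156) (nat_lit 5) (nat_lit 156) (nat_lit 4) (nat_lit 375) (nat_lit 313) (nat_lit 212))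 (XT.nd (nat_lit 78) (nat_lit 0) (nat_lit 0) (XT.lf (nat_lit 0) (nat_lit 2423840401) (nat_lit 76) (nat_lit 2458495255) (nat_lit 152) (nat_lit 7016492836417) (nat_lit 153) (nat_lit 5) (nat_lit 154) (nat_lit 5) (nat_lit 155) (nat_lit 4) (nat_lit 376) (nat_lit 313) (nat_lit 211)) (XT.lf (nat_lit 0) (nat_lit 2568024088351) (nat_lit 152) (nat_lit 2561034065389) (nat_lit 0) (nat_lit 2561003930144) (nat_lit 153) (nat_lit 5) (nat_lit 155) (nat_lit 4) (nat_lit 153) (nat_lit 4) (nat_lit 377) (nat_lit 313) (nat_lit 210)))))) (XT.nd (nat_lit 41886) (nat_lit 0) (nat_lit 5168) (XT.nd (nat_lit 156) (nat_lit 228) (nat_lit 0) (XT.nd (nat_lit 78) (nat_lit 152) (nat_lit 0) (XT.lf (nat_lit 0) (nat_lit 2816167565121) (nat_lit 76) (nat_lit 2816197700879) (nat_lit 76) (nat_lit 2809177542159) (nat_lit 152) (nat_lit 4) (nat_lit 153) (nat_lit 5) (nat_lit 153) (nat_lit 4) (nat_lit 378) (nat_lit 313) (nat_lit 209)) (XT.lf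 (nat_lit 0) (nat_lit 2107686766) (nat_lit 76) (nat_lit 2137822969) (nat_lit 152) (nat_lit 9281377910865) (nat_lit 150) (nat_lit 5) (nat_lit 151) (nat_lit 5) (nat_lit 152) (nat_lit 4) (nat_lit 379) (nat_lit 313) (nat_lit 208))) (XT.nd (nat_lit 78) (nat_lit 228) (nat_lit 0) (XT.lf (nat_lit 0) (nat_lit 3394045936675) (nat_lit 152) (nat_lit 3387967655838) (nat_lit 0) (nat_lit 3387941450107) (nat_lit 150) (nat_lit 5) (nat_lit 152) (nat_lit 4) (nat_lit 150) (nat_lit 4) (nat_lit 380) (nat_lit 313) (nat_lit 207)) (XT.nd (nat_lit 78) (nat_lit 152) (nat_lit 0) (XT.lf (nat_lit 0) (nat_lit 3723282429091) (nat_lit 76) (nat_lit 3723308635116) (nat_lit 76) (nat_lit 3717204148254) (nat_lit 149) (nat_lit 4) (nat_lit 150) (nat_lit 5) (nat_lit 150) (nat_lit 4) (nat_lit 381) (nat_lit 313) (nat_lit 206)) (XT.lf (nat_lit 0) (nat_lit 1832770792) (nat_lit 76) (nat_lit 1858977072) (nat_lit 152) (nat_lit 12276418926397)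 (nat_lit 147) (nat_lit 5) (nat_lit 148) (nat_lit 5) (nat_lit 149) (nat_lit 4) (nat_lit 382) (nat_lit 313) (nat_lit 205))))) (XT.nd (nat_lit 156) (nat_lit 0) (nat_lit 76) (XT.nd (nat_lit 78) (nat_lit 0) (nat_lit 0) (XT.lf (nat_lit 0) (nat_lit 4217284913) (nat_lit 380) (nat_lit 5068262010) (nat_lit 380) (nat_lit 5068262010) (nat_lit 215) (nat_lit 3) (nat_lit 220) (nat_lit 3) (nat_lit 220) (nat_lit 5) (nat_lit 314) (nat_lit 314) (nat_lit 272)) (XT.lf (nat_lit 76) (nat_lit 4629428665) (nat_lit 0) (nat_lit 4703419757) (nat_lit 380) (nat_lit 21487987904) (nat_lit 216) (nat_lit 5) (nat_lit 215) (nat_lit 3) (nat_lit 220) (nat_lit 5) (nat_lit 315) (nat_lit 314) (nat_lit 271))) (XT.nd (nat_lit 78) (nat_lit 0) (nat_lit 0) (XT.lf (nat_lit 0) (nat_lit 11373267747) (nat_lit 304) (nat_lit 10923473972) (nat_lit 380) (nat_lit 10803185997) (nat_lit 216) (nat_lit 5) (nat_lit 220) (nat_lit 5) (nat_lit 221) (nat_lit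 5) (nat_lit 316) (nat_lit 314) (nat_lit 270)) (XT.nd (nat_lit 78) (nat_lit 0) (nat_lit 76) (XT.lf (nat_lit 76) (nat_lit 7027096516) (nat_lit 0) (nat_lit 7196034835) (nat_lit 380) (nat_lit 21422244255) (nat_lit 217) (nat_lit 5) (nat_lit 216) (nat_lit 5) (nat_lit 221) (nat_lit 5) (nat_lit 317) (nat_lit 314) (nat_lit 269)) (XT.lf (nat_lit 0) (nat_lit 18509420113) (nat_lit 304) (nat_lit 10047784131) (nat_lit 76) (nat_lit 9864094595) (nat_lit 217) (nat_lit 5) (nat_lit 221) (nat_lit 5) (nat_lit 218) (nat_lit 5) (nat_lit 318) (nat_lit 314) (nat_lit 268))))))))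
noncomputable def xc69 : XT := (XT.nd (nat_lit 1560) (nat_lit 1444) (nat_lit 0) (XT.nd (nat_lit 780) (nat_lit 760) (nat_lit 0) (XT.nd (nat_lit 390) (nat_lit 456) (nat_lit 0) (XT.nd (nat_lit 156) (nat_lit 380) (nat_lit 0) (XT.nd (nat_lit 78) (nat_lit 0) (nat_lit 0) (XT.lf (nat_lit 0) (nat_lit 12027332896) (nat_lit 304) (nat_lit 12243010822) (nat_lit 380) (nat_lit 17218513108) (nat_lit 213) (nat_lit 5) (nat_lit 217) (nat_lit 5) (nat_lit 218) (nat_lit 5) (nat_lit 319) (nat_lit 314) (nat_lit 267)) (XT.lf (nat_lit 0) (nat_lit 31707346676) (nat_lit 380) (nat_lit 6699572278) (nat_lit 76) (nat_lit 6487838436) (nat_lit 213) (nat_lit 5) (nat_lit 218) (nat_lit 5) (nat_lit 214) (nat_lit 5) (nat_lit 320) (nat_lit 314) (nat_lit 266))) (XT.nd (nat_lit 78) (nat_lit 228) (nat_lit 0) (XT.lf (nat_lit 0) (nat_lit 20730706999) (nat_lit 152) (nat_lit 20963473727) (nat_lit 228) (nat_lit 6902220215) (nat_lit 211) (nat_lit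 5) (nat_lit 213) (nat_lit 5) (nat_lit 214) (nat_lit 5) (nat_lit 321) (nat_lit 314) (nat_lit 265)) (XT.nd (nat_lit 78) (nat_lit 0) (nat_lit 0) (XT.lf (nat_lit 0) (nat_lit 207148909) (nat_lit 152) (nat_lit 458205104) (nat_lit 228) (nat_lit 52130622891) (nat_lit 208) (nat_lit 5) (nat_lit 210) (nat_lit 5) (nat_lit 211) (nat_lit 5) (nat_lit 322) (nat_lit 314) (nat_lit 264)) (XT.lf (nat_lit 0) (nat_lit 11138458300) (nat_lit 228) (nat_lit 23149155558) (nat_lit 76) (nat_lit 22917016359) (nat_lit 208) (nat_lit 5) (nat_lit 211) (nat_lit 5) (nat_lit 209) (nat_lit 5) (nat_lit 323) (nat_lit 314) (nat_lit 263))))) (XT.nd (nat_lit 156) (nat_lit 304) (nat_lit 0) (XT.nd (nat_lit 78) (nat_lit 0) (nat_lit 0) (XT.lf (nat_lit 0) (nat_lit 11719959422) (nat_lit 152) (nat_lit 11964124241) (nat_lit 228) (nat_lit 38515264550) (nat_lit 206) (nat_lit 5) (nat_lit 208) (nat_lit 5) (nat_lit 209) (nat_lit 5) (nat_lit 324) (nat_lit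 314) (nat_lit 262)) (XT.lf (nat_lit 0) (nat_lit 39941596977) (nat_lit 228) (nat_lit 13974290321) (nat_lit 76) (nat_lit 13752879989) (nat_lit 206) (nat_lit 5) (nat_lit 209) (nat_lit 5) (nat_lit 207) (nat_lit 4) (nat_lit 325) (nat_lit 314) (nat_lit 261))) (XT.nd (nat_lit 78) (nat_lit 228) (nat_lit 0) (XT.lf (nat_lit 0) (nat_lit 30110181367) (nat_lit 76) (nat_lit 30339498740) (nat_lit 152) (nat_lit 13237127692) (nat_lit 205) (nat_lit 5) (nat_lit 206) (nat_lit 5) (nat_lit 207) (nat_lit 4) (nat_lit 326) (nat_lit 314) (nat_lit 260)) (XT.nd (nat_lit 78) (nat_lit 0) (nat_lit 0) (XT.lf (nat_lit 0) (nat_lit 1861527493) (nat_lit 152) (nat_lit 2097720553) (nat_lit 228) (nat_lit 76501343655) (nat_lit 202) (nat_lit 5) (nat_lit 204) (nat_lit 5) (nat_lit 205) (nat_lit 5) (nat_lit 327) (nat_lit 314) (nat_lit 259)) (XT.lf (nat_lit 0) (nat_lit 26019875386) (nat_lit 228) (nat_lit 30900298709) (nat_lit 76) (nat_lit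 30689714432) (nat_lit 202) (nat_lit 5) (nat_lit 205) (nat_lit 5) (nat_lit 203) (nat_lit 4) (nat_lit 328) (nat_lit 314) (nat_lit 258)))))) (XT.nd (nat_lit 390) (nat_lit 456) (nat_lit 0) (XT.nd (nat_lit 156) (nat_lit 228) (nat_lit 0) (XT.nd (nat_lit 78) (nat_lit 0) (nat_lit 0) (XT.lf (nat_lit 0) (nat_lit 26177295632) (nat_lit 76) (nat_lit 26392400786) (nat_lit 152) (nat_lit 43084868523) (nat_lit 201) (nat_lit 5) (nat_lit 202) (nat_lit 5) (nat_lit 203) (nat_lit 4) (nat_lit 329) (nat_lit 314) (nat_lit 257)) (XT.lf (nat_lit 0) (nat_lit 85151375293) (nat_lit 152) (nat_lit 9818813106) (nat_lit 0) (nat_lit 9628346714) (nat_lit 201) (nat_lit 5) (nat_lit 203) (nat_lit 4) (nat_lit 201) (nat_lit 4) (nat_lit 330) (nat_lit 314) (nat_lit 256))) (XT.nd (nat_lit 78) (nat_lit 76) (nat_lit 0) (XT.lf (nat_lit 0) (nat_lit 11100124527) (nat_lit 152) (nat_lit 51660733394) (nat_lit 76) (nat_lit 51467294452) (nat_lit 199)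 (nat_lit 5) (nat_lit 201) (nat_lit 5) (nat_lit 200) (nat_lit 4) (nat_lit 331) (nat_lit 314) (nat_lit 255)) (XT.nd (nat_lit 78) (nat_lit 0) (nat_lit 0) (XT.lf (nat_lit 0) (nat_lit 22759737834) (nat_lit 76) (nat_lit 22955761601) (nat_lit 152) (nat_lit 79226252005) (nat_lit 198) (nat_lit 5) (nat_lit 199) (nat_lit 5) (nat_lit 200) (nat_lit 4) (nat_lit 332) (nat_lit 314) (nat_lit 254)) (XT.lf (nat_lit 0) (nat_lit 89294104455) (nat_lit 152) (nat_lit 23787528640) (nat_lit 0) (nat_lit 23615118691) (nat_lit 198) (nat_lit 5) (nat_lit 200) (nat_lit 4) (nat_lit 198) (nat_lit 4) (nat_lit 333) (nat_lit 314) (nat_lit 253))))) (XT.nd (nat_lit 156) (nat_lit 228) (nat_lit 0) (XT.nd (nat_lit 78) (nat_lit 152) (nat_lit 0) (XT.lf (nat_lit 0) (nat_lit 71646296088) (nat_lit 76) (nat_lit 71820405602) (nat_lit 76) (nat_lit 6139720274) (nat_lit 197) (nat_lit 4) (nat_lit 198) (nat_lit 5) (nat_lit 198) (nat_lit 4) (nat_lit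 334) (nat_lit 314) (nat_lit 252)) (XT.lf (nat_lit 0) (nat_lit 19789287972) (nat_lit 76) (nat_lit 19964875368) (nat_lit 152) (nat_lit 124123860808) (nat_lit 195) (nat_lit 5) (nat_lit 196) (nat_lit 5) (nat_lit 197) (nat_lit 4) (nat_lit 335) (nat_lit 314) (nat_lit 251))) (XT.nd (nat_lit 78) (nat_lit 228) (nat_lit 0) (XT.lf (nat_lit 0) (nat_lit 97812801346) (nat_lit 152) (nat_lit 40850561507) (nat_lit 0) (nat_lit 40696759323) (nat_lit 195) (nat_lit 5) (nat_lit 197) (nat_lit 4) (nat_lit 195) (nat_lit 4) (nat_lit 336) (nat_lit 314) (nat_lit 250)) (XT.nd (nat_lit 78) (nat_lit 152) (nat_lit 0) (XT.lf (nat_lit 0) (nat_lit 84435096970) (nat_lit 76) (nat_lit 84589870886) (nat_lit 76) (nat_lit 27472857131) (nat_lit 194) (nat_lit 4) (nat_lit 195) (nat_lit 5) (nat_lit 195) (nat_lit 4) (nat_lit 337) (nat_lit 314) (nat_lit 249)) (XT.lf (nat_lit 0) (nat_lit 17207053970) (nat_lit 76) (nat_lit 17362672870) (nat_lit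 152) (nat_lit 180978750759) (nat_lit 192) (nat_lit 5) (nat_lit 193) (nat_lit 5) (nat_lit 194) (nat_lit 4) (nat_lit 338) (nat_lit 314) (nat_lit 248))))))) (XT.nd (nat_lit 780) (nat_lit 760) (nat_lit 0) (XT.nd (nat_lit 390) (nat_lit 380) (nat_lit 0) (XT.nd (nat_lit 156) (nat_lit 228) (nat_lit 0) (XT.nd (nat_lit 78) (nat_lit 76) (nat_lit 0) (XT.lf (nat_lit 0) (nat_lit 111722894676) (nat_lit 152) (nat_lit 62190512208) (nat_lit 0) (nat_lit 62054552496) (nat_lit 192) (nat_lit 5) (nat_lit 194) (nat_lit 4) (nat_lit 192) (nat_lit 4) (nat_lit 339) (nat_lit 314) (nat_lit 247)) (XT.lf (nat_lit 0) (nat_lit 102694881500) (nat_lit 76) (nat_lit 102831396803) (nat_lit 76) (nat_lit 53162499032) (nat_lit 191) (nat_lit 4) (nat_lit 192) (nat_lit 5) (nat_lit 192) (nat_lit 4) (nat_lit 340) (nat_lit 314) (nat_lit 246))) (XT.nd (nat_lit 78) (nat_lit 76) (nat_lit 0) (XT.lf (nat_lit 0) (nat_lit 14962070993) (nat_lit 76)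 (nat_lit 15099069418) (nat_lit 152) (nat_lit 253975552357) (nat_lit 189) (nat_lit 5) (nat_lit 190) (nat_lit 5) (nat_lit 191) (nat_lit 4) (nat_lit 341) (nat_lit 314) (nat_lit 245)) (XT.nd (nat_lit 78) (nat_lit 76) (nat_lit 0) (XT.lf (nat_lit 0) (nat_lit 132418621075) (nat_lit 152) (nat_lit 89346984146) (nat_lit 0) (nat_lit 89227489771) (nat_lit 189) (nat_lit 5) (nat_lit 191) (nat_lit 4) (nat_lit 189) (nat_lit 4) (nat_lit 342) (nat_lit 314) (nat_lit 244)) (XT.lf (nat_lit 0) (nat_lit 128014020974) (nat_lit 76) (nat_lit 128133833010) (nat_lit 76) (nat_lit 84942384045) (nat_lit 188) (nat_lit 4) (nat_lit 189) (nat_lit 5) (nat_lit 189) (nat_lit 4) (nat_lit 343) (nat_lit 314) (nat_lit 243))))) (XT.nd (nat_lit 156) (nat_lit 228) (nat_lit 0) (XT.nd (nat_lit 78) (nat_lit 0) (nat_lit 0) (XT.lf (nat_lit 0) (nat_lit 13010162250) (nat_lit 76) (nat_lit 13130250513) (nat_lit 152) (nat_lit 348605849927) (nat_lit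 186) (nat_lit 5) (nat_lit 187) (nat_lit 5) (nat_lit 188) (nat_lit 4) (nat_lit 344) (nat_lit 314) (nat_lit 242)) (XT.lf (nat_lit 0) (nat_lit 161788622183) (nat_lit 152) (nat_lit 124335024853) (nat_lit 0) (nat_lit 124230391409) (nat_lit 186) (nat_lit 5) (nat_lit 188) (nat_lit 4) (nat_lit 186) (nat_lit 4) (nat_lit 345) (nat_lit 314) (nat_lit 241))) (XT.nd (nat_lit 78) (nat_lit 152) (nat_lit 0) (XT.lf (nat_lit 0) (nat_lit 162516257581) (nat_lit 76) (nat_lit 162621072649) (nat_lit 76) (nat_lit 125062660252) (nat_lit 185) (nat_lit 4) (nat_lit 186) (nat_lit 5) (nat_lit 186) (nat_lit 4) (nat_lit 346) (nat_lit 314) (nat_lit 240)) (XT.nd (nat_lit 78) (nat_lit 0) (nat_lit 0) (XT.lf (nat_lit 0) (nat_lit 11312993448) (nat_lit 76) (nat_lit 11417966448) (nat_lit 152) (nat_lit 472095123942) (nat_lit 183) (nat_lit 5) (nat_lit 184) (nat_lit 5) (nat_lit 185) (nat_lit 4) (nat_lit 347) (nat_lit 314) (nat_lit 239))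 (XT.lf (nat_lit 0) (nat_lit 202369624159) (nat_lit 152) (nat_lit 169801278655) (nat_lit 0) (nat_lit 169709878364) (nat_lit 183) (nat_lit 5) (nat_lit 185) (nat_lit 4) (nat_lit 183) (nat_lit 4) (nat_lit 348) (nat_lit 314) (nat_lit 238)))))) (XT.nd (nat_lit 390) (nat_lit 304) (nat_lit 0) (XT.nd (nat_lit 156) (nat_lit 228) (nat_lit 0) (XT.nd (nat_lit 78) (nat_lit 152) (nat_lit 0) (XT.lf (nat_lit 0) (nat_lit 209030276388) (nat_lit 76) (nat_lit 209121780522) (nat_lit 76) (nat_lit 176461930884) (nat_lit 182) (nat_lit 4) (nat_lit 183) (nat_lit 5) (nat_lit 183) (nat_lit 4) (nat_lit 349) (nat_lit 314) (nat_lit 237)) (XT.lf (nat_lit 0) (nat_lit 9837276334) (nat_lit 76) (nat_lit 9928870768) (nat_lit 152) (nat_lit 633966716559) (nat_lit 180) (nat_lit 5) (nat_lit 181) (nat_lit 5) (nat_lit 182) (nat_lit 4) (nat_lit 350) (nat_lit 314) (nat_lit 236))) (XT.nd (nat_lit 78) (nat_lit 228) (nat_lit 0) (XT.lf (nat_lit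 0) (nat_lit 257550399832) (nat_lit 152) (nat_lit 229230099394) (nat_lit 0) (nat_lit 229150383782) (nat_lit 180) (nat_lit 5) (nat_lit 182) (nat_lit 4) (nat_lit 180) (nat_lit 4) (nat_lit 351) (nat_lit 314) (nat_lit 235)) (XT.nd (nat_lit 78) (nat_lit 152) (nat_lit 0) (XT.lf (nat_lit 0) (nat_lit 271314396373) (nat_lit 76) (nat_lit 271394171359) (nat_lit 76) (nat_lit 242994095935) (nat_lit 179) (nat_lit 4) (nat_lit 180) (nat_lit 5) (nat_lit 180) (nat_lit 4) (nat_lit 352) (nat_lit 314) (nat_lit 234)) (XT.lf (nat_lit 0) (nat_lit 8554090858) (nat_lit 76) (nat_lit 8633917472) (nat_lit 152) (nat_lit 846787077855) (nat_lit 177) (nat_lit 5) (nat_lit 178) (nat_lit 5) (nat_lit 179) (nat_lit 4) (nat_lit 353) (nat_lit 314) (nat_lit 233))))) (XT.nd (nat_lit 156) (nat_lit 228) (nat_lit 0) (XT.nd (nat_lit 78) (nat_lit 76) (nat_lit 0) (XT.lf (nat_lit 0) (nat_lit 331842148907) (nat_lit 152) (nat_lit 307215800700) (nat_lit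 0) (nat_lit 307146347213) (nat_lit 177) (nat_lit 5) (nat_lit 179) (nat_lit 4) (nat_lit 177) (nat_lit 4) (nat_lit 354) (nat_lit 314) (nat_lit 232)) (XT.lf (nat_lit 0) (nat_lit 354354087362) (nat_lit 76) (nat_lit 354423574795) (nat_lit 76) (nat_lit 329727739155) (nat_lit 176) (nat_lit 4) (nat_lit 177) (nat_lit 5) (nat_lit 177) (nat_lit 4) (nat_lit 355) (nat_lit 314) (nat_lit 231))) (XT.nd (nat_lit 78) (nat_lit 76) (nat_lit 0) (XT.lf (nat_lit 0) (nat_lit 7438304155) (nat_lit 76) (nat_lit 7507821107) (nat_lit 152) (nat_lit 1127150822764) (nat_lit 174) (nat_lit 5) (nat_lit 175) (nat_lit 5) (nat_lit 176) (nat_lit 4) (nat_lit 356) (nat_lit 314) (nat_lit 230)) (XT.nd (nat_lit 78) (nat_lit 76) (nat_lit 0) (XT.lf (nat_lit 0) (nat_lit 431236640166) (nat_lit 152) (nat_lit 409822424334) (nat_lit 0) (nat_lit 409761952490) (nat_lit 174) (nat_lit 5) (nat_lit 176) (nat_lit 4) (nat_lit 174) (nat_lit 4) (nat_lit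 357) (nat_lit 314) (nat_lit 229)) (XT.lf (nat_lit 0) (nat_lit 464755744557) (nat_lit 76) (nat_lit 464816235810) (nat_lit 76) (nat_lit 443341528725) (nat_lit 173) (nat_lit 4) (nat_lit 174) (nat_lit 5) (nat_lit 174) (nat_lit 4) (nat_lit 358) (nat_lit 314) (nat_lit 228))))))))
noncomputable def xc70 : XT := (XT.nd (nat_lit 1560) (nat_lit 304) (nat_lit 0) (XT.nd (nat_lit 780) (nat_lit 684) (nat_lit 0) (XT.nd (nat_lit 390) (nat_lit 456) (nat_lit 0) (XT.nd (nat_lit 156) (nat_lit 228) (nat_lit 0) (XT.nd (nat_lit 78) (nat_lit 0) (nat_lit 0) (XT.lf (nat_lit 0) (nat_lit 6468070146) (nat_lit 76) (nat_lit 6528578276) (nat_lit 152) (nat_lit 1496983000618) (nat_lit 171) (nat_lit 5) (nat_lit 172) (nat_lit 5) (nat_lit 173) (nat_lit 4) (nat_lit 359) (nat_lit 314) (nat_lit 227)) (XT.lf (nat_lit 0) (nat_lit 563680349658) (nat_lit 152) (nat_lit 545059292413) (nat_lit 0) (nat_lit 545006663885) (nat_lit 171) (nat_lit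 5) (nat_lit 173) (nat_lit 4) (nat_lit 171) (nat_lit 4) (nat_lit 360) (nat_lit 314) (nat_lit 226))) (XT.nd (nat_lit 78) (nat_lit 152) (nat_lit 0) (XT.lf (nat_lit 0) (nat_lit 611267719394) (nat_lit 76) (nat_lit 611320359018) (nat_lit 76) (nat_lit 592646662148) (nat_lit 170) (nat_lit 4) (nat_lit 171) (nat_lit 5) (nat_lit 171) (nat_lit 4) (nat_lit 361) (nat_lit 314) (nat_lit 225)) (XT.nd (nat_lit 78) (nat_lit 0) (nat_lit 0) (XT.lf (nat_lit 0) (nat_lit 5624397145) (nat_lit 76) (nat_lit 5677046419) (nat_lit 152) (nat_lit 1985260935837) (nat_lit 168) (nat_lit 5) (nat_lit 169) (nat_lit 5) (nat_lit 170) (nat_lit 4) (nat_lit 362) (nat_lit 314) (nat_lit 224)) (XT.lf (nat_lit 0) (nat_lit 739701941460) (nat_lit 152) (nat_lit 723509717768) (nat_lit 0) (nat_lit 723463928493) (nat_lit 168) (nat_lit 5) (nat_lit 170) (nat_lit 4) (nat_lit 168) (nat_lit 4) (nat_lit 363) (nat_lit 314) (nat_lit 223))))) (XT.nd (nat_lit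 156) (nat_lit 228) (nat_lit 0) (XT.nd (nat_lit 78) (nat_lit 152) (nat_lit 0) (XT.lf (nat_lit 0) (nat_lit 805469610038) (nat_lit 76) (nat_lit 805515405657) (nat_lit 76) (nat_lit 789277386346) (nat_lit 167) (nat_lit 4) (nat_lit 168) (nat_lit 5) (nat_lit 168) (nat_lit 4) (nat_lit 364) (nat_lit 314) (nat_lit 222)) (XT.lf (nat_lit 0) (nat_lit 4890773449) (nat_lit 76) (nat_lit 4936574586) (nat_lit 152) (nat_lit 2630291002949) (nat_lit 165) (nat_lit 5) (nat_lit 166) (nat_lit 5) (nat_lit 167) (nat_lit 4) (nat_lit 365) (nat_lit 314) (nat_lit 221))) (XT.nd (nat_lit 78) (nat_lit 228) (nat_lit 0) (XT.lf (nat_lit 0) (nat_lit 973242488965) (nat_lit 152) (nat_lit 959162294450) (nat_lit 0) (nat_lit 959122463203) (nat_lit 165) (nat_lit 5) (nat_lit 167) (nat_lit 4) (nat_lit 165) (nat_lit 4) (nat_lit 366) (nat_lit 314) (nat_lit 220)) (XT.nd (nat_lit 78) (nat_lit 152) (nat_lit 0) (XT.lf (nat_lit 0) (nat_lit 1062684044291)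 (nat_lit 76) (nat_lit 1062723879166) (nat_lit 76) (nat_lit 1048603849777) (nat_lit 164) (nat_lit 4) (nat_lit 165) (nat_lit 5) (nat_lit 165) (nat_lit 4) (nat_lit 367) (nat_lit 314) (nat_lit 219)) (XT.lf (nat_lit 0) (nat_lit 4252842660) (nat_lit 76) (nat_lit 4292680690) (nat_lit 152) (nat_lit 3482719347982) (nat_lit 162) (nat_lit 5) (nat_lit 163) (nat_lit 5) (nat_lit 164) (nat_lit 4) (nat_lit 368) (nat_lit 314) (nat_lit 218)))))) (XT.nd (nat_lit 390) (nat_lit 380) (nat_lit 0) (XT.nd (nat_lit 156) (nat_lit 228) (nat_lit 0) (XT.nd (nat_lit 78) (nat_lit 76) (nat_lit 0) (XT.lf (nat_lit 0) (nat_lit 1282753772016) (nat_lit 152) (nat_lit 1270510124612) (nat_lit 0) (nat_lit 1270475480462) (nat_lit 162) (nat_lit 5) (nat_lit 164) (nat_lit 4) (nat_lit 162) (nat_lit 4) (nat_lit 369) (nat_lit 314) (nat_lit 217)) (XT.lf (nat_lit 0) (nat_lit 1403182682320) (nat_lit 76) (nat_lit 1403217328544) (nat_lit 76) (nat_lit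 1390939034916) (nat_lit 161) (nat_lit 4) (nat_lit 162) (nat_lit 5) (nat_lit 162) (nat_lit 4) (nat_lit 370) (nat_lit 314) (nat_lit 216))) (XT.nd (nat_lit 78) (nat_lit 76) (nat_lit 0) (XT.lf (nat_lit 0) (nat_lit 3698121870) (nat_lit 76) (nat_lit 3732769898) (nat_lit 152) (nat_lit 4609513294121) (nat_lit 159) (nat_lit 5) (nat_lit 160) (nat_lit 5) (nat_lit 161) (nat_lit 4) (nat_lit 371) (nat_lit 314) (nat_lit 215)) (XT.nd (nat_lit 78) (nat_lit 76) (nat_lit 0) (XT.lf (nat_lit 0) (nat_lit 1692651061830) (nat_lit 152) (nat_lit 1682004411913) (nat_lit 0) (nat_lit 1681974281830) (nat_lit 159) (nat_lit 5) (nat_lit 161) (nat_lit 4) (nat_lit 159) (nat_lit 4) (nat_lit 372) (nat_lit 314) (nat_lit 214)) (XT.lf (nat_lit 0) (nat_lit 1853781302508) (nat_lit 76) (nat_lit 1853811433778) (nat_lit 76) (nat_lit 1843134652592) (nat_lit 158) (nat_lit 4) (nat_lit 159) (nat_lit 5) (nat_lit 159) (nat_lit 4) (nat_lit 373)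 (nat_lit 314) (nat_lit 213))))) (XT.nd (nat_lit 156) (nat_lit 228) (nat_lit 0) (XT.nd (nat_lit 78) (nat_lit 0) (nat_lit 0) (XT.lf (nat_lit 0) (nat_lit 3215756900) (nat_lit 76) (nat_lit 3245889200) (nat_lit 152) (nat_lit 6099226512606) (nat_lit 156) (nat_lit 5) (nat_lit 157) (nat_lit 5) (nat_lit 158) (nat_lit 4) (nat_lit 374) (nat_lit 314) (nat_lit 212)) (XT.lf (nat_lit 0) (nat_lit 2235234678871) (nat_lit 152) (nat_lit 2225976722422) (nat_lit 0) (nat_lit 2225950519641) (nat_lit 156) (nat_lit 5) (nat_lit 158) (nat_lit 4) (nat_lit 156) (nat_lit 4) (nat_lit 375) (nat_lit 314) (nat_lit 211))) (XT.nd (nat_lit 78) (nat_lit 152) (nat_lit 0) (XT.lf (nat_lit 0) (nat_lit 2449949430288) (nat_lit 76) (nat_lit 2449975633747) (nat_lit 76) (nat_lit 2440691473839) (nat_lit 155) (nat_lit 4) (nat_lit 156) (nat_lit 5) (nat_lit 156) (nat_lit 4) (nat_lit 376) (nat_lit 314) (nat_lit 210)) (XT.nd (nat_lit 78) (nat_lit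 0) (nat_lit 0) (XT.lf (nat_lit 0) (nat_lit 2796309634) (nat_lit 76) (nat_lit 2822513682) (nat_lit 152) (nat_lit 8068962003971) (nat_lit 153) (nat_lit 5) (nat_lit 154) (nat_lit 5) (nat_lit 155) (nat_lit 4) (nat_lit 377) (nat_lit 314) (nat_lit 209)) (XT.lf (nat_lit 0) (nat_lit 2953231470510) (nat_lit 152) (nat_lit 2945181073598) (nat_lit 0) (nat_lit 2945158287023) (nat_lit 153) (nat_lit 5) (nat_lit 155) (nat_lit 4) (nat_lit 153) (nat_lit 4) (nat_lit 378) (nat_lit 314) (nat_lit 208))))))) (XT.nd (nat_lit 42354) (nat_lit 0) (nat_lit 3952) (XT.nd (nat_lit 41964) (nat_lit 0) (nat_lit 4864) (XT.nd (nat_lit 156) (nat_lit 76) (nat_lit 0) (XT.nd (nat_lit 78) (nat_lit 152) (nat_lit 0) (XT.lf (nat_lit 0) (nat_lit 3238600433234) (nat_lit 76) (nat_lit 3238623220197) (nat_lit 76) (nat_lit 3230550036322) (nat_lit 152) (nat_lit 4) (nat_lit 153) (nat_lit 5) (nat_lit 153) (nat_lit 4) (nat_lit 379) (nat_lit 314) (nat_lit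 207)) (XT.lf (nat_lit 0) (nat_lit 2431573187) (nat_lit 76) (nat_lit 2454360486) (nat_lit 152) (nat_lit 10673580460396) (nat_lit 150) (nat_lit 5) (nat_lit 151) (nat_lit 5) (nat_lit 152) (nat_lit 4) (nat_lit 380) (nat_lit 314) (nat_lit 206))) (XT.nd (nat_lit 78) (nat_lit 76) (nat_lit 0) (XT.lf (nat_lit 0) (nat_lit 3903156104340) (nat_lit 152) (nat_lit 3896155759199) (nat_lit 0) (nat_lit 3896135943901) (nat_lit 150) (nat_lit 5) (nat_lit 152) (nat_lit 4) (nat_lit 150) (nat_lit 4) (nat_lit 381) (nat_lit 314) (nat_lit 205)) (XT.nd (nat_lit 41652) (nat_lit 0) (nat_lit 5016) (XT.lf (nat_lit 0) (nat_lit 4281781518242) (nat_lit 76) (nat_lit 4281801333762) (nat_lit 76) (nat_lit 4274781173101) (nat_lit 149) (nat_lit 4) (nat_lit 150) (nat_lit 5) (nat_lit 150) (nat_lit 4) (nat_lit 382) (nat_lit 314) (nat_lit 204)) (XT.lf (nat_lit 0) (nat_lit 4920804928) (nat_lit 380) (nat_lit 5787718126) (nat_lit 380) (nat_lit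 5787718126) (nat_lit 215) (nat_lit 3) (nat_lit 220) (nat_lit 3) (nat_lit 220) (nat_lit 5) (nat_lit 315) (nat_lit 315) (nat_lit 270))))) (XT.nd (nat_lit 156) (nat_lit 152) (nat_lit 0) (XT.nd (nat_lit 78) (nat_lit 0) (nat_lit 76) (XT.lf (nat_lit 76) (nat_lit 5401701773) (nat_lit 0) (nat_lit 5457649669) (nat_lit 380) (nat_lit 24565623971) (nat_lit 216) (nat_lit 5) (nat_lit 215) (nat_lit 3) (nat_lit 220) (nat_lit 5) (nat_lit 316) (nat_lit 315) (nat_lit 269)) (XT.lf (nat_lit 0) (nat_lit 13187569640) (nat_lit 304) (nat_lit 12476027733) (nat_lit 380) (nat_lit 12385072742) (nat_lit 216) (nat_lit 5) (nat_lit 220) (nat_lit 5) (nat_lit 221) (nat_lit 5) (nat_lit 317) (nat_lit 315) (nat_lit 268))) (XT.nd (nat_lit 78) (nat_lit 228) (nat_lit 0) (XT.lf (nat_lit 76) (nat_lit 8163220724) (nat_lit 0) (nat_lit 8290962364) (nat_lit 380) (nat_lit 24523361556) (nat_lit 217) (nat_lit 5) (nat_lit 216) (nat_lit 5) (nat_lit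 221) (nat_lit 5) (nat_lit 318) (nat_lit 315) (nat_lit 267)) (XT.nd (nat_lit 78) (nat_lit 304) (nat_lit 0) (XT.lf (nat_lit 0) (nat_lit 21370128162) (nat_lit 304) (nat_lit 11470308464) (nat_lit 76) (nat_lit 11331412785) (nat_lit 217) (nat_lit 5) (nat_lit 221) (nat_lit 5) (nat_lit 218) (nat_lit 5) (nat_lit 319) (nat_lit 315) (nat_lit 266)) (XT.lf (nat_lit 0) (nat_lit 13912228695) (nat_lit 304) (nat_lit 14075312193) (nat_lit 380) (nat_lit 19713147620) (nat_lit 213) (nat_lit 5) (nat_lit 217) (nat_lit 5) (nat_lit 218) (nat_lit 5) (nat_lit 320) (nat_lit 315) (nat_lit 265)))))) (XT.nd (nat_lit 390) (nat_lit 380) (nat_lit 0) (XT.nd (nat_lit 156) (nat_lit 380) (nat_lit 0) (XT.nd (nat_lit 78) (nat_lit 152) (nat_lit 0) (XT.lf (nat_lit 0) (nat_lit 36530246474) (nat_lit 380) (nat_lit 7624403029) (nat_lit 76) (nat_lit 7464301826) (nat_lit 213) (nat_lit 5) (nat_lit 218) (nat_lit 5) (nat_lit 214) (nat_lit 5) (nat_lit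 321) (nat_lit 315) (nat_lit 264)) (XT.lf (nat_lit 0) (nat_lit 23916776998) (nat_lit 152) (nat_lit 24092782085) (nat_lit 228) (nat_lit 7867114311) (nat_lit 211) (nat_lit 5) (nat_lit 213) (nat_lit 5) (nat_lit 214) (nat_lit 5) (nat_lit 322) (nat_lit 315) (nat_lit 263))) (XT.nd (nat_lit 78) (nat_lit 152) (nat_lit 0) (XT.lf (nat_lit 0) (nat_lit 317195479) (nat_lit 152) (nat_lit 507030030) (nat_lit 228) (nat_lit 59882287671) (nat_lit 208) (nat_lit 5) (nat_lit 210) (nat_lit 5) (nat_lit 211) (nat_lit 5) (nat_lit 323) (nat_lit 315) (nat_lit 262)) (XT.nd (nat_lit 78) (nat_lit 152) (nat_lit 0) (XT.lf (nat_lit 0) (nat_lit 12861307613) (nat_lit 228) (nat_lit 26545867819) (nat_lit 76) (nat_lit 26370337234) (nat_lit 208) (nat_lit 5) (nat_lit 211) (nat_lit 5) (nat_lit 209) (nat_lit 5) (nat_lit 324) (nat_lit 315) (nat_lit 261)) (XT.lf (nat_lit 0) (nat_lit 13550175268) (nat_lit 152) (nat_lit 13734798950) (nat_lit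 228) (nat_lit 44237034526) (nat_lit 206) (nat_lit 5) (nat_lit 208) (nat_lit 5) (nat_lit 209) (nat_lit 5) (nat_lit 325) (nat_lit 315) (nat_lit 260))))) (XT.nd (nat_lit 156) (nat_lit 304) (nat_lit 0) (XT.nd (nat_lit 78) (nat_lit 76) (nat_lit 0) (XT.lf (nat_lit 0) (nat_lit 45975679544) (nat_lit 228) (nat_lit 16002197202) (nat_lit 76) (nat_lit 15834779182) (nat_lit 206) (nat_lit 5) (nat_lit 209) (nat_lit 5) (nat_lit 207) (nat_lit 4) (nat_lit 326) (nat_lit 315) (nat_lit 259)) (XT.lf (nat_lit 0) (nat_lit 34691843573) (nat_lit 76) (nat_lit 34865240452) (nat_lit 152) (nat_lit 15176752160) (nat_lit 205) (nat_lit 5) (nat_lit 206) (nat_lit 5) (nat_lit 207) (nat_lit 4) (nat_lit 327) (nat_lit 315) (nat_lit 258))) (XT.nd (nat_lit 78) (nat_lit 76) (nat_lit 0) (XT.lf (nat_lit 0) (nat_lit 2206835326) (nat_lit 152) (nat_lit 2385431212) (nat_lit 228) (nat_lit 87931544225) (nat_lit 202) (nat_lit 5) (nat_lit 204) (nat_lit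 5) (nat_lit 205) (nat_lit 5) (nat_lit 328) (nat_lit 315) (nat_lit 257)) (XT.nd (nat_lit 78) (nat_lit 76) (nat_lit 0) (XT.lf (nat_lit 0) (nat_lit 29957854191) (nat_lit 228) (nat_lit 35473749980) (nat_lit 76) (nat_lit 35314518012) (nat_lit 202) (nat_lit 5) (nat_lit 205) (nat_lit 5) (nat_lit 203) (nat_lit 4) (nat_lit 329) (nat_lit 315) (nat_lit 256)) (XT.lf (nat_lit 0) (nat_lit 30162683807) (nat_lit 76) (nat_lit 30325334207) (nat_lit 152) (nat_lit 49509801599) (nat_lit 201) (nat_lit 5) (nat_lit 202) (nat_lit 5) (nat_lit 203) (nat_lit 4) (nat_lit 330) (nat_lit 315) (nat_lit 255))))))))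
noncomputable def xc71 : XT := (XT.nd (nat_lit 1560) (nat_lit 1520) (nat_lit 0) (XT.nd (nat_lit 780) (nat_lit 760) (nat_lit 0) (XT.nd (nat_lit 390) (nat_lit 380) (nat_lit 0) (XT.nd (nat_lit 156) (nat_lit 152) (nat_lit 0) (XT.nd (nat_lit 78) (nat_lit 152) (nat_lit 0) (XT.lf (nat_lit 0) (nat_lit 97953595240) (nat_lit 152) (nat_lit 11237156524) (nat_lit 0) (nat_lit 11093136568) (nat_lit 201) (nat_lit 5) (nat_lit 203) (nat_lit 4) (nat_lit 201) (nat_lit 4) (nat_lit 331) (nat_lit 315) (nat_lit 254)) (XT.lf (nat_lit 0) (nat_lit 12794285191) (nat_lit 152) (nat_lit 59354993186) (nat_lit 76) (nat_lit 59208725555) (nat_lit 199) (nat_lit 5) (nat_lit 201) (nat_lit 5) (nat_lit 200) (nat_lit 4) (nat_lit 332) (nat_lit 315) (nat_lit 253))) (XT.nd (nat_lit 78) (nat_lit 76) (nat_lit 0) (XT.lf (nat_lit 0) (nat_lit 26226055535) (nat_lit 76) (nat_lit 26374277665) (nat_lit 152) (nat_lit 91078554629) (nat_lit 198) (nat_lit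 5) (nat_lit 199) (nat_lit 5) (nat_lit 200) (nat_lit 4) (nat_lit 333) (nat_lit 315) (nat_lit 252)) (XT.nd (nat_lit 78) (nat_lit 76) (nat_lit 0) (XT.lf (nat_lit 0) (nat_lit 102713035566) (nat_lit 152) (nat_lit 27307436682) (nat_lit 0) (nat_lit 27177069990) (nat_lit 198) (nat_lit 5) (nat_lit 200) (nat_lit 4) (nat_lit 198) (nat_lit 4) (nat_lit 334) (nat_lit 315) (nat_lit 251)) (XT.lf (nat_lit 0) (nat_lit 82439269881) (nat_lit 76) (nat_lit 82570921687) (nat_lit 76) (nat_lit 7033670997) (nat_lit 197) (nat_lit 4) (nat_lit 198) (nat_lit 5) (nat_lit 198) (nat_lit 4) (nat_lit 335) (nat_lit 315) (nat_lit 250))))) (XT.nd (nat_lit 156) (nat_lit 228) (nat_lit 0) (XT.nd (nat_lit 78) (nat_lit 0) (nat_lit 0) (XT.lf (nat_lit 0) (nat_lit 22803913391) (nat_lit 76) (nat_lit 22936682689) (nat_lit 152) (nat_lit 142715635455) (nat_lit 195) (nat_lit 5) (nat_lit 196) (nat_lit 5) (nat_lit 197) (nat_lit 4) (nat_lit 336) (nat_lit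 315) (nat_lit 249)) (XT.lf (nat_lit 0) (nat_lit 112505815001) (nat_lit 152) (nat_lit 46935729015) (nat_lit 0) (nat_lit 46819432468) (nat_lit 195) (nat_lit 5) (nat_lit 197) (nat_lit 4) (nat_lit 195) (nat_lit 4) (nat_lit 337) (nat_lit 315) (nat_lit 248))) (XT.nd (nat_lit 78) (nat_lit 152) (nat_lit 0) (XT.lf (nat_lit 0) (nat_lit 97140850200) (nat_lit 76) (nat_lit 97257881517) (nat_lit 76) (nat_lit 31570764215) (nat_lit 194) (nat_lit 4) (nat_lit 195) (nat_lit 5) (nat_lit 195) (nat_lit 4) (nat_lit 338) (nat_lit 315) (nat_lit 247)) (XT.nd (nat_lit 78) (nat_lit 0) (nat_lit 0) (XT.lf (nat_lit 0) (nat_lit 19828716728) (nat_lit 76) (nat_lit 19946386974) (nat_lit 152) (nat_lit 208102657864) (nat_lit 192) (nat_lit 5) (nat_lit 193) (nat_lit 5) (nat_lit 194) (nat_lit 4) (nat_lit 339) (nat_lit 315) (nat_lit 246)) (XT.lf (nat_lit 0) (nat_lit 128499393601) (nat_lit 152) (nat_lit 71481927527) (nat_lit 0) (nat_lit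 71379122451) (nat_lit 192) (nat_lit 5) (nat_lit 194) (nat_lit 4) (nat_lit 192) (nat_lit 4) (nat_lit 340) (nat_lit 315) (nat_lit 245)))))) (XT.nd (nat_lit 390) (nat_lit 304) (nat_lit 0) (XT.nd (nat_lit 156) (nat_lit 228) (nat_lit 0) (XT.nd (nat_lit 78) (nat_lit 152) (nat_lit 0) (XT.lf (nat_lit 0) (nat_lit 118134586078) (nat_lit 76) (nat_lit 118237811260) (nat_lit 76) (nat_lit 61117120004) (nat_lit 191) (nat_lit 4) (nat_lit 192) (nat_lit 5) (nat_lit 192) (nat_lit 4) (nat_lit 341) (nat_lit 315) (nat_lit 244)) (XT.lf (nat_lit 0) (nat_lit 17241920305) (nat_lit 76) (nat_lit 17345510797) (nat_lit 152) (nat_lit 292052197637) (nat_lit 189) (nat_lit 5) (nat_lit 190) (nat_lit 5) (nat_lit 191) (nat_lit 4) (nat_lit 342) (nat_lit 315) (nat_lit 243))) (XT.nd (nat_lit 78) (nat_lit 228) (nat_lit 0) (XT.lf (nat_lit 0) (nat_lit 152296964082) (nat_lit 152) (nat_lit 102716558799) (nat_lit 0) (nat_lit 102626203884)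 (nat_lit 189) (nat_lit 5) (nat_lit 191) (nat_lit 4) (nat_lit 189) (nat_lit 4) (nat_lit 343) (nat_lit 315) (nat_lit 242)) (XT.nd (nat_lit 78) (nat_lit 152) (nat_lit 0) (XT.lf (nat_lit 0) (nat_lit 147247121045) (nat_lit 76) (nat_lit 147337716157) (nat_lit 76) (nat_lit 97666715763) (nat_lit 188) (nat_lit 4) (nat_lit 189) (nat_lit 5) (nat_lit 189) (nat_lit 4) (nat_lit 344) (nat_lit 315) (nat_lit 241)) (XT.lf (nat_lit 0) (nat_lit 14992721426) (nat_lit 76) (nat_lit 15083525405) (nat_lit 152) (nat_lit 400879739440) (nat_lit 186) (nat_lit 5) (nat_lit 187) (nat_lit 5) (nat_lit 188) (nat_lit 4) (nat_lit 345) (nat_lit 315) (nat_lit 240))))) (XT.nd (nat_lit 156) (nat_lit 228) (nat_lit 0) (XT.nd (nat_lit 78) (nat_lit 76) (nat_lit 0) (XT.lf (nat_lit 0) (nat_lit 186070346428) (nat_lit 152) (nat_lit 142956950531) (nat_lit 0) (nat_lit 142877832615) (nat_lit 186) (nat_lit 5) (nat_lit 188) (nat_lit 4) (nat_lit 186)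 (nat_lit 4) (nat_lit 346) (nat_lit 315) (nat_lit 239)) (XT.lf (nat_lit 0) (nat_lit 186920736630) (nat_lit 76) (nat_lit 186999991880) (nat_lit 76) (nat_lit 143807340732) (nat_lit 185) (nat_lit 4) (nat_lit 186) (nat_lit 5) (nat_lit 186) (nat_lit 4) (nat_lit 347) (nat_lit 315) (nat_lit 238))) (XT.nd (nat_lit 78) (nat_lit 76) (nat_lit 0) (XT.lf (nat_lit 0) (nat_lit 13037004553) (nat_lit 76) (nat_lit 13116379223) (nat_lit 152) (nat_lit 542894695653) (nat_lit 183) (nat_lit 5) (nat_lit 184) (nat_lit 5) (nat_lit 185) (nat_lit 4) (nat_lit 348) (nat_lit 315) (nat_lit 237)) (XT.nd (nat_lit 78) (nat_lit 76) (nat_lit 0) (XT.lf (nat_lit 0) (nat_lit 232736694993) (nat_lit 152) (nat_lit 195246785516) (nat_lit 0) (nat_lit 195177673765) (nat_lit 183) (nat_lit 5) (nat_lit 185) (nat_lit 4) (nat_lit 183) (nat_lit 4) (nat_lit 349) (nat_lit 315) (nat_lit 236)) (XT.lf (nat_lit 0) (nat_lit 240408380740) (nat_lit 76) (nat_lit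 240477571012) (nat_lit 76) (nat_lit 202918471264) (nat_lit 182) (nat_lit 4) (nat_lit 183) (nat_lit 5) (nat_lit 183) (nat_lit 4) (nat_lit 350) (nat_lit 315) (nat_lit 235))))))) (XT.nd (nat_lit 780) (nat_lit 684) (nat_lit 0) (XT.nd (nat_lit 390) (nat_lit 456) (nat_lit 0) (XT.nd (nat_lit 156) (nat_lit 228) (nat_lit 0) (XT.nd (nat_lit 78) (nat_lit 0) (nat_lit 0) (XT.lf (nat_lit 0) (nat_lit 11336443073) (nat_lit 76) (nat_lit 11405701624) (nat_lit 152) (nat_lit 729048987185) (nat_lit 180) (nat_lit 5) (nat_lit 181) (nat_lit 5) (nat_lit 182) (nat_lit 4) (nat_lit 351) (nat_lit 315) (nat_lit 234)) (XT.lf (nat_lit 0) (nat_lit 296193040779) (nat_lit 152) (nat_lit 263593119495) (nat_lit 0) (nat_lit 263532843040) (nat_lit 180) (nat_lit 5) (nat_lit 182) (nat_lit 4) (nat_lit 180) (nat_lit 4) (nat_lit 352) (nat_lit 315) (nat_lit 233))) (XT.nd (nat_lit 78) (nat_lit 152) (nat_lit 0) (XT.lf (nat_lit 0) (nat_lit 312032073601)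 (nat_lit 76) (nat_lit 312092394951) (nat_lit 76) (nat_lit 279432152317) (nat_lit 179) (nat_lit 4) (nat_lit 180) (nat_lit 5) (nat_lit 180) (nat_lit 4) (nat_lit 353) (nat_lit 315) (nat_lit 232)) (XT.nd (nat_lit 78) (nat_lit 0) (nat_lit 0) (XT.lf (nat_lit 0) (nat_lit 9857729344) (nat_lit 76) (nat_lit 9918089733) (nat_lit 152) (nat_lit 973794088611) (nat_lit 177) (nat_lit 5) (nat_lit 178) (nat_lit 5) (nat_lit 179) (nat_lit 4) (nat_lit 354) (nat_lit 315) (nat_lit 231)) (XT.lf (nat_lit 0) (nat_lit 381627220355) (nat_lit 152) (nat_lit 353279462717) (nat_lit 0) (nat_lit 353226945903) (nat_lit 177) (nat_lit 5) (nat_lit 179) (nat_lit 4) (nat_lit 177) (nat_lit 4) (nat_lit 355) (nat_lit 315) (nat_lit 230))))) (XT.nd (nat_lit 156) (nat_lit 228) (nat_lit 0) (XT.nd (nat_lit 78) (nat_lit 152) (nat_lit 0) (XT.lf (nat_lit 0) (nat_lit 407525058186) (nat_lit 76) (nat_lit 407577600668) (nat_lit 76) (nat_lit 379177300548)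 (nat_lit 176) (nat_lit 4) (nat_lit 177) (nat_lit 5) (nat_lit 177) (nat_lit 4) (nat_lit 356) (nat_lit 315) (nat_lit 229)) (XT.lf (nat_lit 0) (nat_lit 8571911549) (nat_lit 76) (nat_lit 8624476352) (nat_lit 152) (nat_lit 1296213850750) (nat_lit 174) (nat_lit 5) (nat_lit 175) (nat_lit 5) (nat_lit 176) (nat_lit 4) (nat_lit 357) (nat_lit 315) (nat_lit 228))) (XT.nd (nat_lit 78) (nat_lit 228) (nat_lit 0) (XT.lf (nat_lit 0) (nat_lit 495929734424) (nat_lit 152) (nat_lit 471279510391) (nat_lit 0) (nat_lit 471233784989) (nat_lit 174) (nat_lit 5) (nat_lit 176) (nat_lit 4) (nat_lit 174) (nat_lit 4) (nat_lit 358) (nat_lit 315) (nat_lit 227)) (XT.nd (nat_lit 78) (nat_lit 152) (nat_lit 0) (XT.lf (nat_lit 0) (nat_lit 534484643943) (nat_lit 76) (nat_lit 534530384021) (nat_lit 76) (nat_lit 509834419910) (nat_lit 173) (nat_lit 4) (nat_lit 174) (nat_lit 5) (nat_lit 174) (nat_lit 4) (nat_lit 359) (nat_lit 315) (nat_lit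 226)) (XT.lf (nat_lit 0) (nat_lit 7453820687) (nat_lit 76) (nat_lit 7499573526) (nat_lit 152) (nat_lit 1721522114904) (nat_lit 171) (nat_lit 5) (nat_lit 172) (nat_lit 5) (nat_lit 173) (nat_lit 4) (nat_lit 360) (nat_lit 315) (nat_lit 225)))))) (XT.nd (nat_lit 390) (nat_lit 380) (nat_lit 0) (XT.nd (nat_lit 156) (nat_lit 228) (nat_lit 0) (XT.nd (nat_lit 78) (nat_lit 76) (nat_lit 0) (XT.lf (nat_lit 0) (nat_lit 648239003725) (nat_lit 152) (nat_lit 626804026305) (nat_lit 0) (nat_lit 626764231577) (nat_lit 171) (nat_lit 5) (nat_lit 173) (nat_lit 4) (nat_lit 171) (nat_lit 4) (nat_lit 361) (nat_lit 315) (nat_lit 224)) (XT.lf (nat_lit 0) (nat_lit 702971393637) (nat_lit 76) (nat_lit 703011196756) (nat_lit 76) (nat_lit 681536416217) (nat_lit 170) (nat_lit 4) (nat_lit 171) (nat_lit 5) (nat_lit 171) (nat_lit 4) (nat_lit 362) (nat_lit 315) (nat_lit 223))) (XT.nd (nat_lit 78) (nat_lit 76) (nat_lit 0) (XT.lf (nat_lit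 0) (nat_lit 6481574376) (nat_lit 76) (nat_lit 6521384791) (nat_lit 152) (nat_lit 2283042832284) (nat_lit 168) (nat_lit 5) (nat_lit 169) (nat_lit 5) (nat_lit 170) (nat_lit 4) (nat_lit 363) (nat_lit 315) (nat_lit 222)) (XT.nd (nat_lit 78) (nat_lit 76) (nat_lit 0) (XT.lf (nat_lit 0) (nat_lit 850662970048) (nat_lit 152) (nat_lit 832023859248) (nat_lit 0) (nat_lit 831989235978) (nat_lit 168) (nat_lit 5) (nat_lit 170) (nat_lit 4) (nat_lit 168) (nat_lit 4) (nat_lit 364) (nat_lit 315) (nat_lit 221)) (XT.lf (nat_lit 0) (nat_lit 926301807902) (nat_lit 76) (nat_lit 926336435970) (nat_lit 76) (nat_lit 907662697102) (nat_lit 167) (nat_lit 4) (nat_lit 168) (nat_lit 5) (nat_lit 168) (nat_lit 4) (nat_lit 365) (nat_lit 315) (nat_lit 220))))) (XT.nd (nat_lit 156) (nat_lit 228) (nat_lit 0) (XT.nd (nat_lit 78) (nat_lit 0) (nat_lit 0) (XT.lf (nat_lit 0) (nat_lit 5636146583) (nat_lit 76) (nat_lit 5670778822) (nat_lit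 152) (nat_lit 3024828356953) (nat_lit 165) (nat_lit 5) (nat_lit 166) (nat_lit 5) (nat_lit 167) (nat_lit 4) (nat_lit 366) (nat_lit 315) (nat_lit 219)) (XT.lf (nat_lit 0) (nat_lit 1119233849515) (nat_lit 152) (nat_lit 1103025927080) (nat_lit 0) (nat_lit 1102995808935) (nat_lit 165) (nat_lit 5) (nat_lit 167) (nat_lit 4) (nat_lit 165) (nat_lit 4) (nat_lit 367) (nat_lit 315) (nat_lit 218))) (XT.nd (nat_lit 78) (nat_lit 152) (nat_lit 0) (XT.lf (nat_lit 0) (nat_lit 1222096875584) (nat_lit 76) (nat_lit 1222126996473) (nat_lit 76) (nat_lit 1205888953150) (nat_lit 164) (nat_lit 4) (nat_lit 165) (nat_lit 5) (nat_lit 165) (nat_lit 4) (nat_lit 368) (nat_lit 315) (nat_lit 217)) (XT.nd (nat_lit 78) (nat_lit 0) (nat_lit 0) (XT.lf (nat_lit 0) (nat_lit 4900994142) (nat_lit 76) (nat_lit 4931117416) (nat_lit 152) (nat_lit 4005121776519) (nat_lit 162) (nat_lit 5) (nat_lit 163) (nat_lit 5) (nat_lit 164) (nat_lit 4)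 (nat_lit 369) (nat_lit 315) (nat_lit 216)) (XT.lf (nat_lit 0) (nat_lit 1475171173483) (nat_lit 152) (nat_lit 1461077327888) (nat_lit 0) (nat_lit 1461051131933) (nat_lit 162) (nat_lit 5) (nat_lit 164) (nat_lit 4) (nat_lit 162) (nat_lit 4) (nat_lit 370) (nat_lit 315) (nat_lit 215))))))))
noncomputable def xc72 : XT := (XT.nd (nat_lit 43212) (nat_lit 0) (nat_lit 2964) (XT.nd (nat_lit 780) (nat_lit 152) (nat_lit 0) (XT.nd (nat_lit 390) (nat_lit 304) (nat_lit 0) (XT.nd (nat_lit 156) (nat_lit 228) (nat_lit 0) (XT.nd (nat_lit 78) (nat_lit 152) (nat_lit 0) (XT.lf (nat_lit 0) (nat_lit 1613668976656) (nat_lit 76) (nat_lit 1613695174179) (nat_lit 76) (nat_lit 1599575131060) (nat_lit 161) (nat_lit 4) (nat_lit 162) (nat_lit 5) (nat_lit 162) (nat_lit 4) (nat_lit 371) (nat_lit 315) (nat_lit 214)) (XT.lf (nat_lit 0) (nat_lit 4261732386) (nat_lit 76) (nat_lit 4287931273) (nat_lit 152) (nat_lit 5300935529394) (nat_lit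 159) (nat_lit 5) (nat_lit 160) (nat_lit 5) (nat_lit 161) (nat_lit 4) (nat_lit 372) (nat_lit 315) (nat_lit 213))) (XT.nd (nat_lit 78) (nat_lit 228) (nat_lit 0) (XT.lf (nat_lit 0) (nat_lit 1946552490656) (nat_lit 152) (nat_lit 1934296972746) (nat_lit 0) (nat_lit 1934274190075) (nat_lit 159) (nat_lit 5) (nat_lit 161) (nat_lit 4) (nat_lit 159) (nat_lit 4) (nat_lit 373) (nat_lit 315) (nat_lit 212)) (XT.nd (nat_lit 78) (nat_lit 152) (nat_lit 0) (XT.lf (nat_lit 0) (nat_lit 2131856230613) (nat_lit 76) (nat_lit 2131879014182) (nat_lit 76) (nat_lit 2119600712704) (nat_lit 158) (nat_lit 4) (nat_lit 159) (nat_lit 5) (nat_lit 159) (nat_lit 4) (nat_lit 374) (nat_lit 315) (nat_lit 211)) (XT.lf (nat_lit 0) (nat_lit 3705853305) (nat_lit 76) (nat_lit 3728637653) (nat_lit 152) (nat_lit 7014106351862) (nat_lit 156) (nat_lit 5) (nat_lit 157) (nat_lit 5) (nat_lit 158) (nat_lit 4) (nat_lit 375) (nat_lit 315) (nat_lit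 210))))) (XT.nd (nat_lit 156) (nat_lit 228) (nat_lit 0) (XT.nd (nat_lit 78) (nat_lit 76) (nat_lit 0) (XT.lf (nat_lit 0) (nat_lit 2570523158234) (nat_lit 152) (nat_lit 2559866186139) (nat_lit 0) (nat_lit 2559846373072) (nat_lit 156) (nat_lit 5) (nat_lit 158) (nat_lit 4) (nat_lit 156) (nat_lit 4) (nat_lit 376) (nat_lit 315) (nat_lit 209)) (XT.lf (nat_lit 0) (nat_lit 2817448569267) (nat_lit 76) (nat_lit 2817468382846) (nat_lit 76) (nat_lit 2806791597172) (nat_lit 155) (nat_lit 4) (nat_lit 156) (nat_lit 5) (nat_lit 156) (nat_lit 4) (nat_lit 377) (nat_lit 315) (nat_lit 208))) (XT.nd (nat_lit 78) (nat_lit 76) (nat_lit 0) (XT.lf (nat_lit 0) (nat_lit 3222480595) (nat_lit 76) (nat_lit 3242294620) (nat_lit 152) (nat_lit 9279302706904) (nat_lit 153) (nat_lit 5) (nat_lit 154) (nat_lit 5) (nat_lit 155) (nat_lit 4) (nat_lit 378) (nat_lit 315) (nat_lit 207)) (XT.nd (nat_lit 78) (nat_lit 76) (nat_lit 0) (XT.lf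 (nat_lit 0) (nat_lit 3396219040921) (nat_lit 152) (nat_lit 3386952108664) (nat_lit 0) (nat_lit 3386934878740) (nat_lit 153) (nat_lit 5) (nat_lit 155) (nat_lit 4) (nat_lit 153) (nat_lit 4) (nat_lit 379) (nat_lit 315) (nat_lit 206)) (XT.lf (nat_lit 0) (nat_lit 3724396345739) (nat_lit 76) (nat_lit 3724413575957) (nat_lit 76) (nat_lit 3715129413483) (nat_lit 152) (nat_lit 4) (nat_lit 153) (nat_lit 5) (nat_lit 153) (nat_lit 4) (nat_lit 380) (nat_lit 315) (nat_lit 205)))))) (XT.nd (nat_lit 42042) (nat_lit 0) (nat_lit 4636) (XT.nd (nat_lit 41808) (nat_lit 0) (nat_lit 4940) (XT.nd (nat_lit 78) (nat_lit 0) (nat_lit 0) (XT.lf (nat_lit 0) (nat_lit 2802156731) (nat_lit 76) (nat_lit 2819387203) (nat_lit 152) (nat_lit 12274614401214) (nat_lit 150) (nat_lit 5) (nat_lit 151) (nat_lit 5) (nat_lit 152) (nat_lit 4) (nat_lit 381) (nat_lit 315) (nat_lit 204)) (XT.lf (nat_lit 0) (nat_lit 4488631997997) (nat_lit 152)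 (nat_lit 4480573796035) (nat_lit 0) (nat_lit 4480558812823) (nat_lit 150) (nat_lit 5) (nat_lit 152) (nat_lit 4) (nat_lit 150) (nat_lit 4) (nat_lit 382) (nat_lit 315) (nat_lit 203))) (XT.nd (nat_lit 78) (nat_lit 0) (nat_lit 0) (XT.lf (nat_lit 0) (nat_lit 5712556880) (nat_lit 380) (nat_lit 6625037898) (nat_lit 380) (nat_lit 6625037898) (nat_lit 215) (nat_lit 3) (nat_lit 220) (nat_lit 3) (nat_lit 220) (nat_lit 5) (nat_lit 316) (nat_lit 316) (nat_lit 268)) (XT.nd (nat_lit 78) (nat_lit 0) (nat_lit 76) (XT.lf (nat_lit 76) (nat_lit 6270829484) (nat_lit 0) (nat_lit 6313134131) (nat_lit 380) (nat_lit 28140401692) (nat_lit 216) (nat_lit 5) (nat_lit 215) (nat_lit 3) (nat_lit 220) (nat_lit 5) (nat_lit 317) (nat_lit 316) (nat_lit 267)) (XT.lf (nat_lit 0) (nat_lit 15247604315) (nat_lit 304) (nat_lit 14282428236) (nat_lit 380) (nat_lit 14213653196) (nat_lit 216) (nat_lit 5) (nat_lit 220) (nat_lit 5) (nat_lit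 221) (nat_lit 5) (nat_lit 318) (nat_lit 316) (nat_lit 266))))) (XT.nd (nat_lit 156) (nat_lit 380) (nat_lit 0) (XT.nd (nat_lit 78) (nat_lit 0) (nat_lit 76) (XT.lf (nat_lit 76) (nat_lit 9449752777) (nat_lit 0) (nat_lit 9546343809) (nat_lit 380) (nat_lit 28117011848) (nat_lit 217) (nat_lit 5) (nat_lit 216) (nat_lit 5) (nat_lit 221) (nat_lit 5) (nat_lit 319) (nat_lit 316) (nat_lit 265)) (XT.lf (nat_lit 0) (nat_lit 24639386541) (nat_lit 304) (nat_lit 13126852248) (nat_lit 76) (nat_lit 13021827160) (nat_lit 217) (nat_lit 5) (nat_lit 221) (nat_lit 5) (nat_lit 218) (nat_lit 5) (nat_lit 320) (nat_lit 316) (nat_lit 264))) (XT.nd (nat_lit 78) (nat_lit 152) (nat_lit 0) (XT.lf (nat_lit 0) (nat_lit 16060156281) (nat_lit 304) (nat_lit 16183470835) (nat_lit 380) (nat_lit 22603471404) (nat_lit 213) (nat_lit 5) (nat_lit 217) (nat_lit 5) (nat_lit 218) (nat_lit 5) (nat_lit 321) (nat_lit 316) (nat_lit 263)) (XT.nd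 (nat_lit 78) (nat_lit 152) (nat_lit 0) (XT.lf (nat_lit 0) (nat_lit 42060292175) (nat_lit 380) (nat_lit 8707492527) (nat_lit 76) (nat_lit 8586433016) (nat_lit 213) (nat_lit 5) (nat_lit 218) (nat_lit 5) (nat_lit 214) (nat_lit 5) (nat_lit 322) (nat_lit 316) (nat_lit 262)) (XT.lf (nat_lit 0) (nat_lit 27562111279) (nat_lit 152) (nat_lit 27695196411) (nat_lit 228) (nat_lit 8993919502) (nat_lit 211) (nat_lit 5) (nat_lit 213) (nat_lit 5) (nat_lit 214) (nat_lit 5) (nat_lit 323) (nat_lit 316) (nat_lit 261))))))) (XT.nd (nat_lit 780) (nat_lit 760) (nat_lit 0) (XT.nd (nat_lit 390) (nat_lit 456) (nat_lit 0) (XT.nd (nat_lit 156) (nat_lit 228) (nat_lit 0) (XT.nd (nat_lit 78) (nat_lit 0) (nat_lit 0) (XT.lf (nat_lit 0) (nat_lit 424490667) (nat_lit 152) (nat_lit 568032861) (nat_lit 228) (nat_lit 68813267001) (nat_lit 208) (nat_lit 5) (nat_lit 210) (nat_lit 5) (nat_lit 211) (nat_lit 5) (nat_lit 324) (nat_lit 316)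 (nat_lit 260)) (XT.lf (nat_lit 0) (nat_lit 14829884146) (nat_lit 228) (nat_lit 30470537350) (nat_lit 76) (nat_lit 30337811010) (nat_lit 208) (nat_lit 5) (nat_lit 211) (nat_lit 5) (nat_lit 209) (nat_lit 5) (nat_lit 325) (nat_lit 316) (nat_lit 259))) (XT.nd (nat_lit 78) (nat_lit 76) (nat_lit 0) (XT.lf (nat_lit 0) (nat_lit 15637311716) (nat_lit 152) (nat_lit 15776913744) (nat_lit 228) (nat_lit 50830608830) (nat_lit 206) (nat_lit 5) (nat_lit 208) (nat_lit 5) (nat_lit 209) (nat_lit 5) (nat_lit 326) (nat_lit 316) (nat_lit 258)) (XT.nd (nat_lit 78) (nat_lit 76) (nat_lit 0) (XT.lf (nat_lit 0) (nat_lit 52904426954) (nat_lit 228) (nat_lit 18350930059) (nat_lit 76) (nat_lit 18224337983) (nat_lit 206) (nat_lit 5) (nat_lit 209) (nat_lit 5) (nat_lit 207) (nat_lit 4) (nat_lit 327) (nat_lit 316) (nat_lit 257)) (XT.lf (nat_lit 0) (nat_lit 39944871527) (nat_lit 76) (nat_lit 40075984479) (nat_lit 152) (nat_lit 17418524200)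 (nat_lit 205) (nat_lit 5) (nat_lit 206) (nat_lit 5) (nat_lit 207) (nat_lit 4) (nat_lit 328) (nat_lit 316) (nat_lit 256))))) (XT.nd (nat_lit 156) (nat_lit 228) (nat_lit 0) (XT.nd (nat_lit 78) (nat_lit 0) (nat_lit 0) (XT.lf (nat_lit 0) (nat_lit 2587825622) (nat_lit 152) (nat_lit 2722869770) (nat_lit 228) (nat_lit 101087248654) (nat_lit 202) (nat_lit 5) (nat_lit 204) (nat_lit 5) (nat_lit 205) (nat_lit 5) (nat_lit 329) (nat_lit 316) (nat_lit 255)) (XT.lf (nat_lit 0) (nat_lit 34477995455) (nat_lit 228) (nat_lit 40748238915) (nat_lit 76) (nat_lit 40627836671) (nat_lit 202) (nat_lit 5) (nat_lit 205) (nat_lit 5) (nat_lit 203) (nat_lit 4) (nat_lit 330) (nat_lit 316) (nat_lit 254))) (XT.nd (nat_lit 78) (nat_lit 152) (nat_lit 0) (XT.lf (nat_lit 0) (nat_lit 34731542960) (nat_lit 76) (nat_lit 34854530030) (nat_lit 152) (nat_lit 56907691724) (nat_lit 201) (nat_lit 5) (nat_lit 202) (nat_lit 5) (nat_lit 203) (nat_lit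 4) (nat_lit 331) (nat_lit 316) (nat_lit 253)) (XT.nd (nat_lit 78) (nat_lit 152) (nat_lit 0) (XT.lf (nat_lit 0) (nat_lit 112668951089) (nat_lit 152) (nat_lit 12881536393) (nat_lit 0) (nat_lit 12772636616) (nat_lit 201) (nat_lit 5) (nat_lit 203) (nat_lit 4) (nat_lit 201) (nat_lit 4) (nat_lit 332) (nat_lit 316) (nat_lit 252)) (XT.lf (nat_lit 0) (nat_lit 14735463496) (nat_lit 152) (nat_lit 68216767519) (nat_lit 76) (nat_lit 68106168177) (nat_lit 199) (nat_lit 5) (nat_lit 201) (nat_lit 5) (nat_lit 200) (nat_lit 4) (nat_lit 333) (nat_lit 316) (nat_lit 251)))))) (XT.nd (nat_lit 390) (nat_lit 456) (nat_lit 0) (XT.nd (nat_lit 156) (nat_lit 228) (nat_lit 0) (XT.nd (nat_lit 78) (nat_lit 0) (nat_lit 0) (XT.lf (nat_lit 0) (nat_lit 30199553298) (nat_lit 76) (nat_lit 30311630524) (nat_lit 152) (nat_lit 104716417085) (nat_lit 198) (nat_lit 5) (nat_lit 199) (nat_lit 5) (nat_lit 200) (nat_lit 4) (nat_lit 334) (nat_lit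 316) (nat_lit 250)) (XT.lf (nat_lit 0) (nat_lit 118138754940) (nat_lit 152) (nat_lit 31367089988) (nat_lit 0) (nat_lit 31268514040) (nat_lit 198) (nat_lit 5) (nat_lit 200) (nat_lit 4) (nat_lit 198) (nat_lit 4) (nat_lit 335) (nat_lit 316) (nat_lit 249))) (XT.nd (nat_lit 78) (nat_lit 152) (nat_lit 0) (XT.lf (nat_lit 0) (nat_lit 94839965187) (nat_lit 76) (nat_lit 94939512867) (nat_lit 76) (nat_lit 8068300234) (nat_lit 197) (nat_lit 4) (nat_lit 198) (nat_lit 5) (nat_lit 198) (nat_lit 4) (nat_lit 336) (nat_lit 316) (nat_lit 248)) (XT.nd (nat_lit 78) (nat_lit 0) (nat_lit 0) (XT.lf (nat_lit 0) (nat_lit 26259458602) (nat_lit 76) (nat_lit 26359851266) (nat_lit 152) (nat_lit 164102712740) (nat_lit 195) (nat_lit 5) (nat_lit 196) (nat_lit 5) (nat_lit 197) (nat_lit 4) (nat_lit 337) (nat_lit 316) (nat_lit 247)) (XT.lf (nat_lit 0) (nat_lit 129397636933) (nat_lit 152) (nat_lit 53944015235) (nat_lit 0) (nat_lit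 53856078337) (nat_lit 195) (nat_lit 5) (nat_lit 197) (nat_lit 4) (nat_lit 195) (nat_lit 4) (nat_lit 338) (nat_lit 316) (nat_lit 246))))) (XT.nd (nat_lit 156) (nat_lit 228) (nat_lit 0) (XT.nd (nat_lit 78) (nat_lit 152) (nat_lit 0) (XT.lf (nat_lit 0) (nat_lit 111742592994) (nat_lit 76) (nat_lit 111831085482) (nat_lit 76) (nat_lit 36288971296) (nat_lit 194) (nat_lit 4) (nat_lit 195) (nat_lit 5) (nat_lit 195) (nat_lit 4) (nat_lit 339) (nat_lit 316) (nat_lit 245)) (XT.lf (nat_lit 0) (nat_lit 22833727195) (nat_lit 76) (nat_lit 22922702806) (nat_lit 152) (nat_lit 239300736687) (nat_lit 192) (nat_lit 5) (nat_lit 193) (nat_lit 5) (nat_lit 194) (nat_lit 4) (nat_lit 340) (nat_lit 316) (nat_lit 244))) (XT.nd (nat_lit 78) (nat_lit 228) (nat_lit 0) (XT.lf (nat_lit 0) (nat_lit 147787962168) (nat_lit 152) (nat_lit 82176117213) (nat_lit 0) (nat_lit 82098381806) (nat_lit 192) (nat_lit 5) (nat_lit 194) (nat_lit 4)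 (nat_lit 192) (nat_lit 4) (nat_lit 341) (nat_lit 316) (nat_lit 243)) (XT.nd (nat_lit 78) (nat_lit 152) (nat_lit 0) (XT.lf (nat_lit 0) (nat_lit 135881596185) (nat_lit 76) (nat_lit 135959649253) (nat_lit 76) (nat_lit 70269751231) (nat_lit 191) (nat_lit 4) (nat_lit 192) (nat_lit 5) (nat_lit 192) (nat_lit 4) (nat_lit 342) (nat_lit 316) (nat_lit 242)) (XT.lf (nat_lit 0) (nat_lit 19855080686) (nat_lit 76) (nat_lit 19933409981) (nat_lit 152) (nat_lit 335845140649) (nat_lit 189) (nat_lit 5) (nat_lit 190) (nat_lit 5) (nat_lit 191) (nat_lit 4) (nat_lit 343) (nat_lit 316) (nat_lit 241))))))))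
noncomputable def xc73 : XT := (XT.nd (nat_lit 1560) (nat_lit 1520) (nat_lit 0) (XT.nd (nat_lit 780) (nat_lit 760) (nat_lit 0) (XT.nd (nat_lit 390) (nat_lit 380) (nat_lit 0) (XT.nd (nat_lit 156) (nat_lit 228) (nat_lit 0) (XT.nd (nat_lit 78) (nat_lit 76) (nat_lit 0) (XT.lf (nat_lit 0) (nat_lit 175153266611) (nat_lit 152) (nat_lit 118099488389) (nat_lit 0) (nat_lit 118031167092) (nat_lit 189) (nat_lit 5) (nat_lit 191) (nat_lit 4) (nat_lit 189) (nat_lit 4) (nat_lit 344) (nat_lit 316) (nat_lit 240)) (XT.lf (nat_lit 0) (nat_lit 169357627330) (nat_lit 76) (nat_lit 169426130251) (nat_lit 76) (nat_lit 112303849109) (nat_lit 188) (nat_lit 4) (nat_lit 189) (nat_lit 5) (nat_lit 189) (nat_lit 4) (nat_lit 345) (nat_lit 316) (nat_lit 239))) (XT.nd (nat_lit 78) (nat_lit 76) (nat_lit 0) (XT.lf (nat_lit 0) (nat_lit 17265096436) (nat_lit 76) (nat_lit 17333757290) (nat_lit 152) (nat_lit 460998855005) (nat_lit 186)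 (nat_lit 5) (nat_lit 187) (nat_lit 5) (nat_lit 188) (nat_lit 4) (nat_lit 346) (nat_lit 316) (nat_lit 238)) (XT.nd (nat_lit 78) (nat_lit 76) (nat_lit 0) (XT.lf (nat_lit 0) (nat_lit 213991054097) (nat_lit 152) (nat_lit 164379073035) (nat_lit 0) (nat_lit 164319248524) (nat_lit 186) (nat_lit 5) (nat_lit 188) (nat_lit 4) (nat_lit 186) (nat_lit 4) (nat_lit 347) (nat_lit 316) (nat_lit 237)) (XT.lf (nat_lit 0) (nat_lit 214979293561) (nat_lit 76) (nat_lit 215039221916) (nat_lit 76) (nat_lit 165367312499) (nat_lit 185) (nat_lit 4) (nat_lit 186) (nat_lit 5) (nat_lit 186) (nat_lit 4) (nat_lit 348) (nat_lit 316) (nat_lit 236))))) (XT.nd (nat_lit 156) (nat_lit 228) (nat_lit 0) (XT.nd (nat_lit 78) (nat_lit 0) (nat_lit 0) (XT.lf (nat_lit 0) (nat_lit 15013018063) (nat_lit 76) (nat_lit 15073036717) (nat_lit 152) (nat_lit 624317787048) (nat_lit 183) (nat_lit 5) (nat_lit 184) (nat_lit 5) (nat_lit 185) (nat_lit 4)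 (nat_lit 349) (nat_lit 316) (nat_lit 235)) (XT.lf (nat_lit 0) (nat_lit 267655991083) (nat_lit 152) (nat_lit 224515137985) (nat_lit 0) (nat_lit 224462879572) (nat_lit 183) (nat_lit 5) (nat_lit 185) (nat_lit 4) (nat_lit 183) (nat_lit 4) (nat_lit 350) (nat_lit 316) (nat_lit 234))) (XT.nd (nat_lit 78) (nat_lit 152) (nat_lit 0) (XT.lf (nat_lit 0) (nat_lit 276487454785) (nat_lit 76) (nat_lit 276539772571) (nat_lit 76) (nat_lit 233346601687) (nat_lit 182) (nat_lit 4) (nat_lit 183) (nat_lit 5) (nat_lit 183) (nat_lit 4) (nat_lit 351) (nat_lit 316) (nat_lit 233)) (XT.nd (nat_lit 78) (nat_lit 0) (nat_lit 0) (XT.lf (nat_lit 0) (nat_lit 13054735839) (nat_lit 76) (nat_lit 13107105254) (nat_lit 152) (nat_lit 838396704368) (nat_lit 180) (nat_lit 5) (nat_lit 181) (nat_lit 5) (nat_lit 182) (nat_lit 4) (nat_lit 352) (nat_lit 316) (nat_lit 232)) (XT.lf (nat_lit 0) (nat_lit 340629619559) (nat_lit 152) (nat_lit 303115834257)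 (nat_lit 0) (nat_lit 303070256596) (nat_lit 180) (nat_lit 5) (nat_lit 182) (nat_lit 4) (nat_lit 180) (nat_lit 4) (nat_lit 353) (nat_lit 316) (nat_lit 231)))))) (XT.nd (nat_lit 390) (nat_lit 304) (nat_lit 0) (XT.nd (nat_lit 156) (nat_lit 228) (nat_lit 0) (XT.nd (nat_lit 78) (nat_lit 152) (nat_lit 0) (XT.lf (nat_lit 0) (nat_lit 358852399024) (nat_lit 76) (nat_lit 358898010631) (nat_lit 76) (nat_lit 321338613722) (nat_lit 179) (nat_lit 4) (nat_lit 180) (nat_lit 5) (nat_lit 180) (nat_lit 4) (nat_lit 354) (nat_lit 316) (nat_lit 230)) (XT.lf (nat_lit 0) (nat_lit 11351908487) (nat_lit 76) (nat_lit 11397549613) (nat_lit 152) (nat_lit 1119854845818) (nat_lit 177) (nat_lit 5) (nat_lit 178) (nat_lit 5) (nat_lit 179) (nat_lit 4) (nat_lit 355) (nat_lit 316) (nat_lit 229))) (XT.nd (nat_lit 78) (nat_lit 228) (nat_lit 0) (XT.lf (nat_lit 0) (nat_lit 438877918994) (nat_lit 152) (nat_lit 406257236123) (nat_lit 0)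 (nat_lit 406217525867) (nat_lit 177) (nat_lit 5) (nat_lit 179) (nat_lit 4) (nat_lit 177) (nat_lit 4) (nat_lit 356) (nat_lit 316) (nat_lit 228)) (XT.nd (nat_lit 78) (nat_lit 152) (nat_lit 0) (XT.lf (nat_lit 0) (nat_lit 468667319916) (nat_lit 76) (nat_lit 468707049581) (nat_lit 76) (nat_lit 436046637044) (nat_lit 176) (nat_lit 4) (nat_lit 177) (nat_lit 5) (nat_lit 177) (nat_lit 4) (nat_lit 357) (nat_lit 316) (nat_lit 227)) (XT.lf (nat_lit 0) (nat_lit 9871204347) (nat_lit 76) (nat_lit 9910950890) (nat_lit 152) (nat_lit 1490638672840) (nat_lit 174) (nat_lit 5) (nat_lit 175) (nat_lit 5) (nat_lit 176) (nat_lit 4) (nat_lit 358) (nat_lit 316) (nat_lit 226))))) (XT.nd (nat_lit 156) (nat_lit 228) (nat_lit 0) (XT.nd (nat_lit 78) (nat_lit 76) (nat_lit 0) (XT.lf (nat_lit 0) (nat_lit 570324939944) (nat_lit 152) (nat_lit 541959128751) (nat_lit 0) (nat_lit 541924553778) (nat_lit 174) (nat_lit 5) (nat_lit 176)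 (nat_lit 4) (nat_lit 174) (nat_lit 4) (nat_lit 359) (nat_lit 316) (nat_lit 225)) (XT.lf (nat_lit 0) (nat_lit 614669089270) (nat_lit 76) (nat_lit 614703675341) (nat_lit 76) (nat_lit 586303278078) (nat_lit 173) (nat_lit 4) (nat_lit 174) (nat_lit 5) (nat_lit 174) (nat_lit 4) (nat_lit 360) (nat_lit 316) (nat_lit 224))) (XT.nd (nat_lit 78) (nat_lit 76) (nat_lit 0) (XT.lf (nat_lit 0) (nat_lit 8583644277) (nat_lit 76) (nat_lit 8618239997) (nat_lit 152) (nat_lit 1979744129073) (nat_lit 171) (nat_lit 5) (nat_lit 172) (nat_lit 5) (nat_lit 173) (nat_lit 4) (nat_lit 361) (nat_lit 316) (nat_lit 223)) (XT.nd (nat_lit 78) (nat_lit 76) (nat_lit 0) (XT.lf (nat_lit 0) (nat_lit 745479846056) (nat_lit 152) (nat_lit 720813923279) (nat_lit 0) (nat_lit 720783832748) (nat_lit 171) (nat_lit 5) (nat_lit 173) (nat_lit 4) (nat_lit 171) (nat_lit 4) (nat_lit 362) (nat_lit 316) (nat_lit 222)) (XT.lf (nat_lit 0) (nat_lit 808427322974)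 (nat_lit 76) (nat_lit 808457419850) (nat_lit 76) (nat_lit 783761400198) (nat_lit 170) (nat_lit 4) (nat_lit 171) (nat_lit 5) (nat_lit 171) (nat_lit 4) (nat_lit 363) (nat_lit 316) (nat_lit 221))))))) (XT.nd (nat_lit 780) (nat_lit 684) (nat_lit 0) (XT.nd (nat_lit 390) (nat_lit 456) (nat_lit 0) (XT.nd (nat_lit 156) (nat_lit 228) (nat_lit 0) (XT.nd (nat_lit 78) (nat_lit 0) (nat_lit 0) (XT.lf (nat_lit 0) (nat_lit 7464031825) (nat_lit 76) (nat_lit 7494134218) (nat_lit 152) (nat_lit 2625493779676) (nat_lit 168) (nat_lit 5) (nat_lit 169) (nat_lit 5) (nat_lit 170) (nat_lit 4) (nat_lit 364) (nat_lit 316) (nat_lit 220)) (XT.lf (nat_lit 0) (nat_lit 978266753831) (nat_lit 152) (nat_lit 956818125330) (nat_lit 0) (nat_lit 956791945164) (nat_lit 168) (nat_lit 5) (nat_lit 170) (nat_lit 4) (nat_lit 168) (nat_lit 4) (nat_lit 365) (nat_lit 316) (nat_lit 219))) (XT.nd (nat_lit 78) (nat_lit 152) (nat_lit 0) (XT.lf (nat_lit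 0) (nat_lit 1065255968584) (nat_lit 76) (nat_lit 1065282152378) (nat_lit 76) (nat_lit 1043807340083) (nat_lit 167) (nat_lit 4) (nat_lit 168) (nat_lit 5) (nat_lit 168) (nat_lit 4) (nat_lit 366) (nat_lit 316) (nat_lit 218)) (XT.nd (nat_lit 78) (nat_lit 0) (nat_lit 0) (XT.lf (nat_lit 0) (nat_lit 6490458639) (nat_lit 76) (nat_lit 6516645588) (nat_lit 152) (nat_lit 3478547849483) (nat_lit 165) (nat_lit 5) (nat_lit 166) (nat_lit 5) (nat_lit 167) (nat_lit 4) (nat_lit 367) (nat_lit 316) (nat_lit 217)) (XT.lf (nat_lit 0) (nat_lit 1287122697986) (nat_lit 152) (nat_lit 1268471716681) (nat_lit 0) (nat_lit 1268448943036) (nat_lit 165) (nat_lit 5) (nat_lit 167) (nat_lit 4) (nat_lit 165) (nat_lit 4) (nat_lit 368) (nat_lit 316) (nat_lit 216))))) (XT.nd (nat_lit 156) (nat_lit 228) (nat_lit 0) (XT.nd (nat_lit 78) (nat_lit 152) (nat_lit 0) (XT.lf (nat_lit 0) (nat_lit 1405419138226) (nat_lit 76) (nat_lit 1405441913945)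 (nat_lit 76) (nat_lit 1386768156921) (nat_lit 164) (nat_lit 4) (nat_lit 165) (nat_lit 5) (nat_lit 165) (nat_lit 4) (nat_lit 369) (nat_lit 316) (nat_lit 215)) (XT.lf (nat_lit 0) (nat_lit 5643874895) (nat_lit 76) (nat_lit 5666652417) (nat_lit 152) (nat_lit 4605885904123) (nat_lit 162) (nat_lit 5) (nat_lit 163) (nat_lit 5) (nat_lit 164) (nat_lit 4) (nat_lit 370) (nat_lit 316) (nat_lit 214))) (XT.nd (nat_lit 78) (nat_lit 228) (nat_lit 0) (XT.lf (nat_lit 0) (nat_lit 1696450127891) (nat_lit 152) (nat_lit 1680231883278) (nat_lit 0) (nat_lit 1680212075373) (nat_lit 162) (nat_lit 5) (nat_lit 164) (nat_lit 4) (nat_lit 162) (nat_lit 4) (nat_lit 371) (nat_lit 316) (nat_lit 213)) (XT.nd (nat_lit 78) (nat_lit 152) (nat_lit 0) (XT.lf (nat_lit 0) (nat_lit 1855726046775) (nat_lit 76) (nat_lit 1855745855866) (nat_lit 76) (nat_lit 1839507802161) (nat_lit 161) (nat_lit 4) (nat_lit 162) (nat_lit 5) (nat_lit 162) (nat_lit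 4) (nat_lit 372) (nat_lit 316) (nat_lit 212)) (XT.lf (nat_lit 0) (nat_lit 4907716052) (nat_lit 76) (nat_lit 4927526174) (nat_lit 152) (nat_lit 6096072260433) (nat_lit 159) (nat_lit 5) (nat_lit 160) (nat_lit 5) (nat_lit 161) (nat_lit 4) (nat_lit 373) (nat_lit 316) (nat_lit 211)))))) (XT.nd (nat_lit 390) (nat_lit 380) (nat_lit 0) (XT.nd (nat_lit 156) (nat_lit 228) (nat_lit 0) (XT.nd (nat_lit 78) (nat_lit 76) (nat_lit 0) (XT.lf (nat_lit 0) (nat_lit 2238538214576) (nat_lit 152) (nat_lit 2224435393173) (nat_lit 0) (nat_lit 2224418166200) (nat_lit 159) (nat_lit 5) (nat_lit 161) (nat_lit 4) (nat_lit 159) (nat_lit 4) (nat_lit 374) (nat_lit 316) (nat_lit 210)) (XT.lf (nat_lit 0) (nat_lit 2451640512259) (nat_lit 76) (nat_lit 2451657739910) (nat_lit 76) (nat_lit 2437537690856) (nat_lit 158) (nat_lit 4) (nat_lit 159) (nat_lit 5) (nat_lit 159) (nat_lit 4) (nat_lit 375) (nat_lit 316) (nat_lit 209))) (XT.nd (nat_lit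 78) (nat_lit 76) (nat_lit 0) (XT.lf (nat_lit 0) (nat_lit 4267578462) (nat_lit 76) (nat_lit 4284806703) (nat_lit 152) (nat_lit 8066219175995) (nat_lit 156) (nat_lit 5) (nat_lit 157) (nat_lit 5) (nat_lit 158) (nat_lit 4) (nat_lit 376) (nat_lit 316) (nat_lit 208)) (XT.nd (nat_lit 78) (nat_lit 76) (nat_lit 0) (XT.lf (nat_lit 0) (nat_lit 2956104110254) (nat_lit 152) (nat_lit 2943840787295) (nat_lit 0) (nat_lit 2943825805770) (nat_lit 156) (nat_lit 5) (nat_lit 158) (nat_lit 4) (nat_lit 156) (nat_lit 4) (nat_lit 377) (nat_lit 316) (nat_lit 207)) (XT.lf (nat_lit 0) (nat_lit 3240070939296) (nat_lit 76) (nat_lit 3240085921209) (nat_lit 76) (nat_lit 3227807616337) (nat_lit 155) (nat_lit 4) (nat_lit 156) (nat_lit 5) (nat_lit 156) (nat_lit 4) (nat_lit 378) (nat_lit 316) (nat_lit 206))))) (XT.nd (nat_lit 156) (nat_lit 228) (nat_lit 0) (XT.nd (nat_lit 78) (nat_lit 0) (nat_lit 0) (XT.lf (nat_lit 0) (nat_lit 3710937385)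 (nat_lit 76) (nat_lit 3725919634) (nat_lit 152) (nat_lit 10671195392591) (nat_lit 153) (nat_lit 5) (nat_lit 154) (nat_lit 5) (nat_lit 155) (nat_lit 4) (nat_lit 379) (nat_lit 316) (nat_lit 205)) (XT.lf (nat_lit 0) (nat_lit 3905654051943) (nat_lit 152) (nat_lit 3894990292848) (nat_lit 0) (nat_lit 3894977264550) (nat_lit 153) (nat_lit 5) (nat_lit 155) (nat_lit 4) (nat_lit 153) (nat_lit 4) (nat_lit 380) (nat_lit 316) (nat_lit 204))) (XT.nd (nat_lit 78) (nat_lit 152) (nat_lit 0) (XT.lf (nat_lit 0) (nat_lit 4283060219165) (nat_lit 76) (nat_lit 4283073247685) (nat_lit 76) (nat_lit 4272396460071) (nat_lit 152) (nat_lit 4) (nat_lit 153) (nat_lit 5) (nat_lit 153) (nat_lit 4) (nat_lit 381) (nat_lit 316) (nat_lit 203)) (XT.nd (nat_lit 41808) (nat_lit 0) (nat_lit 4940) (XT.lf (nat_lit 0) (nat_lit 3226901841) (nat_lit 76) (nat_lit 3239930553) (nat_lit 152) (nat_lit 14115804195996) (nat_lit 150) (nat_lit 5) (nat_lit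 151) (nat_lit 5) (nat_lit 152) (nat_lit 4) (nat_lit 382) (nat_lit 316) (nat_lit 202)) (XT.lf (nat_lit 0) (nat_lit 6609993313) (nat_lit 380) (nat_lit 7595475665) (nat_lit 380) (nat_lit 7595475665) (nat_lit 215) (nat_lit 3) (nat_lit 220) (nat_lit 3) (nat_lit 220) (nat_lit 5) (nat_lit 317) (nat_lit 317) (nat_lit 266))))))))
noncomputable def xc74 : XT := (XT.nd (nat_lit 1560) (nat_lit 1520) (nat_lit 0) (XT.nd (nat_lit 780) (nat_lit 684) (nat_lit 0) (XT.nd (nat_lit 390) (nat_lit 532) (nat_lit 0) (XT.nd (nat_lit 156) (nat_lit 152) (nat_lit 0) (XT.nd (nat_lit 78) (nat_lit 0) (nat_lit 76) (XT.lf (nat_lit 76) (nat_lit 7255969932) (nat_lit 0) (nat_lit 7287958323) (nat_lit 380) (nat_lit 32278236332) (nat_lit 216) (nat_lit 5) (nat_lit 215) (nat_lit 3) (nat_lit 220) (nat_lit 5) (nat_lit 318) (nat_lit 317) (nat_lit 265)) (XT.lf (nat_lit 0) (nat_lit 17596672546) (nat_lit 304) (nat_lit 16375640368) (nat_lit 380)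 (nat_lit 16323636557) (nat_lit 216) (nat_lit 5) (nat_lit 220) (nat_lit 5) (nat_lit 221) (nat_lit 5) (nat_lit 319) (nat_lit 317) (nat_lit 264))) (XT.nd (nat_lit 78) (nat_lit 228) (nat_lit 0) (XT.lf (nat_lit 76) (nat_lit 10914133610) (nat_lit 0) (nat_lit 10987170308) (nat_lit 380) (nat_lit 32270401855) (nat_lit 217) (nat_lit 5) (nat_lit 216) (nat_lit 5) (nat_lit 221) (nat_lit 5) (nat_lit 320) (nat_lit 317) (nat_lit 263)) (XT.nd (nat_lit 78) (nat_lit 304) (nat_lit 0) (XT.lf (nat_lit 0) (nat_lit 28383490480) (nat_lit 304) (nat_lit 15047485011) (nat_lit 76) (nat_lit 14968070956) (nat_lit 217) (nat_lit 5) (nat_lit 221) (nat_lit 5) (nat_lit 218) (nat_lit 5) (nat_lit 321) (nat_lit 317) (nat_lit 262)) (XT.lf (nat_lit 0) (nat_lit 18515375021) (nat_lit 304) (nat_lit 18608618541) (nat_lit 380) (nat_lit 25943596381) (nat_lit 213) (nat_lit 5) (nat_lit 217) (nat_lit 5) (nat_lit 218) (nat_lit 5) (nat_lit 322)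 (nat_lit 317) (nat_lit 261))))) (XT.nd (nat_lit 156) (nat_lit 380) (nat_lit 0) (XT.nd (nat_lit 78) (nat_lit 152) (nat_lit 0) (XT.lf (nat_lit 0) (nat_lit 48407527859) (nat_lit 380) (nat_lit 9967816061) (nat_lit 76) (nat_lit 9876277679) (nat_lit 213) (nat_lit 5) (nat_lit 218) (nat_lit 5) (nat_lit 214) (nat_lit 5) (nat_lit 323) (nat_lit 317) (nat_lit 260)) (XT.lf (nat_lit 0) (nat_lit 31740146482) (nat_lit 152) (nat_lit 31840777962) (nat_lit 228) (nat_lit 10302733737) (nat_lit 211) (nat_lit 5) (nat_lit 213) (nat_lit 5) (nat_lit 214) (nat_lit 5) (nat_lit 324) (nat_lit 317) (nat_lit 259))) (XT.nd (nat_lit 78) (nat_lit 152) (nat_lit 0) (XT.lf (nat_lit 0) (nat_lit 533318041) (nat_lit 152) (nat_lit 641856562) (nat_lit 228) (nat_lit 79096418624) (nat_lit 208) (nat_lit 5) (nat_lit 210) (nat_lit 5) (nat_lit 211) (nat_lit 5) (nat_lit 325) (nat_lit 317) (nat_lit 258)) (XT.nd (nat_lit 78) (nat_lit 152) (nat_lit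 0) (XT.lf (nat_lit 0) (nat_lit 17084144001) (nat_lit 228) (nat_lit 34997858489) (nat_lit 76) (nat_lit 34897498307) (nat_lit 208) (nat_lit 5) (nat_lit 211) (nat_lit 5) (nat_lit 209) (nat_lit 5) (nat_lit 326) (nat_lit 317) (nat_lit 257)) (XT.lf (nat_lit 0) (nat_lit 18024201598) (nat_lit 152) (nat_lit 18129760788) (nat_lit 228) (nat_lit 58423456582) (nat_lit 206) (nat_lit 5) (nat_lit 208) (nat_lit 5) (nat_lit 209) (nat_lit 5) (nat_lit 327) (nat_lit 317) (nat_lit 256)))))) (XT.nd (nat_lit 390) (nat_lit 304) (nat_lit 0) (XT.nd (nat_lit 156) (nat_lit 304) (nat_lit 0) (XT.nd (nat_lit 78) (nat_lit 76) (nat_lit 0) (XT.lf (nat_lit 0) (nat_lit 60864586632) (nat_lit 228) (nat_lit 21064555032) (nat_lit 76) (nat_lit 20968833235) (nat_lit 206) (nat_lit 5) (nat_lit 209) (nat_lit 5) (nat_lit 207) (nat_lit 4) (nat_lit 328) (nat_lit 317) (nat_lit 255)) (XT.lf (nat_lit 0) (nat_lit 45973843404) (nat_lit 76) (nat_lit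 46072983632) (nat_lit 152) (nat_lit 20005033806) (nat_lit 205) (nat_lit 5) (nat_lit 206) (nat_lit 5) (nat_lit 207) (nat_lit 4) (nat_lit 329) (nat_lit 317) (nat_lit 254))) (XT.nd (nat_lit 78) (nat_lit 76) (nat_lit 0) (XT.lf (nat_lit 0) (nat_lit 3013780181) (nat_lit 152) (nat_lit 3115892959) (nat_lit 228) (nat_lit 116224606497) (nat_lit 202) (nat_lit 5) (nat_lit 204) (nat_lit 5) (nat_lit 205) (nat_lit 5) (nat_lit 330) (nat_lit 317) (nat_lit 253)) (XT.nd (nat_lit 78) (nat_lit 76) (nat_lit 0) (XT.lf (nat_lit 0) (nat_lit 39669704705) (nat_lit 228) (nat_lit 46825258448) (nat_lit 76) (nat_lit 46734217054) (nat_lit 202) (nat_lit 5) (nat_lit 205) (nat_lit 5) (nat_lit 203) (nat_lit 4) (nat_lit 331) (nat_lit 317) (nat_lit 252)) (XT.lf (nat_lit 0) (nat_lit 39974889967) (nat_lit 76) (nat_lit 40067885861) (nat_lit 152) (nat_lit 65422234809) (nat_lit 201) (nat_lit 5) (nat_lit 202) (nat_lit 5) (nat_lit 203) (nat_lit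 4) (nat_lit 332) (nat_lit 317) (nat_lit 251))))) (XT.nd (nat_lit 156) (nat_lit 152) (nat_lit 0) (XT.nd (nat_lit 78) (nat_lit 152) (nat_lit 0) (XT.lf (nat_lit 0) (nat_lit 129586168279) (nat_lit 152) (nat_lit 14782618566) (nat_lit 0) (nat_lit 14700274688) (nat_lit 201) (nat_lit 5) (nat_lit 203) (nat_lit 4) (nat_lit 201) (nat_lit 4) (nat_lit 333) (nat_lit 317) (nat_lit 250)) (XT.lf (nat_lit 0) (nat_lit 16962445045) (nat_lit 152) (nat_lit 78417921857) (nat_lit 76) (nat_lit 78334292865) (nat_lit 199) (nat_lit 5) (nat_lit 201) (nat_lit 5) (nat_lit 200) (nat_lit 4) (nat_lit 334) (nat_lit 317) (nat_lit 249))) (XT.nd (nat_lit 78) (nat_lit 76) (nat_lit 0) (XT.lf (nat_lit 0) (nat_lit 34759421593) (nat_lit 76) (nat_lit 34844168077) (nat_lit 152) (nat_lit 120405792133) (nat_lit 198) (nat_lit 5) (nat_lit 199) (nat_lit 5) (nat_lit 200) (nat_lit 4) (nat_lit 335) (nat_lit 317) (nat_lit 248)) (XT.nd (nat_lit 78)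 (nat_lit 76) (nat_lit 0) (XT.lf (nat_lit 0) (nat_lit 135873756491) (nat_lit 152) (nat_lit 36044582827) (nat_lit 0) (nat_lit 35970045248) (nat_lit 198) (nat_lit 5) (nat_lit 200) (nat_lit 4) (nat_lit 198) (nat_lit 4) (nat_lit 336) (nat_lit 317) (nat_lit 247)) (XT.lf (nat_lit 0) (nat_lit 109092277412) (nat_lit 76) (nat_lit 109167549760) (nat_lit 76) (nat_lit 9263103748) (nat_lit 197) (nat_lit 4) (nat_lit 198) (nat_lit 5) (nat_lit 198) (nat_lit 4) (nat_lit 337) (nat_lit 317) (nat_lit 246))))))) (XT.nd (nat_lit 780) (nat_lit 684) (nat_lit 0) (XT.nd (nat_lit 390) (nat_lit 456) (nat_lit 0) (XT.nd (nat_lit 156) (nat_lit 228) (nat_lit 0) (XT.nd (nat_lit 78) (nat_lit 0) (nat_lit 0) (XT.lf (nat_lit 0) (nat_lit 30224810816) (nat_lit 76) (nat_lit 30300722093) (nat_lit 152) (nat_lit 188702794106) (nat_lit 195) (nat_lit 5) (nat_lit 196) (nat_lit 5) (nat_lit 197) (nat_lit 4) (nat_lit 338) (nat_lit 317) (nat_lit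 245)) (XT.lf (nat_lit 0) (nat_lit 148819342723) (nat_lit 152) (nat_lit 62011365624) (nat_lit 0) (nat_lit 61944872695) (nat_lit 195) (nat_lit 5) (nat_lit 197) (nat_lit 4) (nat_lit 195) (nat_lit 4) (nat_lit 339) (nat_lit 317) (nat_lit 244))) (XT.nd (nat_lit 78) (nat_lit 152) (nat_lit 0) (XT.lf (nat_lit 0) (nat_lit 128527131480) (nat_lit 76) (nat_lit 128594044515) (nat_lit 76) (nat_lit 41719154381) (nat_lit 194) (nat_lit 4) (nat_lit 195) (nat_lit 5) (nat_lit 195) (nat_lit 4) (nat_lit 340) (nat_lit 317) (nat_lit 243)) (XT.nd (nat_lit 78) (nat_lit 0) (nat_lit 0) (XT.lf (nat_lit 0) (nat_lit 26282002121) (nat_lit 76) (nat_lit 26349280466) (nat_lit 152) (nat_lit 275182750891) (nat_lit 192) (nat_lit 5) (nat_lit 193) (nat_lit 5) (nat_lit 194) (nat_lit 4) (nat_lit 341) (nat_lit 317) (nat_lit 242)) (XT.lf (nat_lit 0) (nat_lit 169966485057) (nat_lit 152) (nat_lit 94481287580) (nat_lit 0) (nat_lit 94422508444)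 (nat_lit 192) (nat_lit 5) (nat_lit 194) (nat_lit 4) (nat_lit 192) (nat_lit 4) (nat_lit 342) (nat_lit 317) (nat_lit 241))))) (XT.nd (nat_lit 156) (nat_lit 228) (nat_lit 0) (XT.nd (nat_lit 78) (nat_lit 152) (nat_lit 0) (XT.lf (nat_lit 0) (nat_lit 156284117046) (nat_lit 76) (nat_lit 156343136379) (nat_lit 76) (nat_lit 80798919569) (nat_lit 191) (nat_lit 4) (nat_lit 192) (nat_lit 5) (nat_lit 192) (nat_lit 4) (nat_lit 343) (nat_lit 317) (nat_lit 240)) (XT.lf (nat_lit 0) (nat_lit 22853662135) (nat_lit 76) (nat_lit 22912890335) (nat_lit 152) (nat_lit 386210655313) (nat_lit 189) (nat_lit 5) (nat_lit 190) (nat_lit 5) (nat_lit 191) (nat_lit 4) (nat_lit 344) (nat_lit 317) (nat_lit 239))) (XT.nd (nat_lit 78) (nat_lit 228) (nat_lit 0) (XT.lf (nat_lit 0) (nat_lit 201435147277) (nat_lit 152) (nat_lit 135795845122) (nat_lit 0) (nat_lit 135744184406) (nat_lit 189) (nat_lit 5) (nat_lit 191) (nat_lit 4) (nat_lit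 189) (nat_lit 4) (nat_lit 345) (nat_lit 317) (nat_lit 238)) (XT.nd (nat_lit 78) (nat_lit 152) (nat_lit 0) (XT.lf (nat_lit 0) (nat_lit 194778994023) (nat_lit 76) (nat_lit 194830792072) (nat_lit 76) (nat_lit 129139691868) (nat_lit 188) (nat_lit 4) (nat_lit 189) (nat_lit 5) (nat_lit 189) (nat_lit 4) (nat_lit 346) (nat_lit 317) (nat_lit 237)) (XT.lf (nat_lit 0) (nat_lit 19872605170) (nat_lit 76) (nat_lit 19924522640) (nat_lit 152) (nat_lit 530138970325) (nat_lit 186) (nat_lit 5) (nat_lit 187) (nat_lit 5) (nat_lit 188) (nat_lit 4) (nat_lit 347) (nat_lit 317) (nat_lit 236)))))) (XT.nd (nat_lit 390) (nat_lit 380) (nat_lit 0) (XT.nd (nat_lit 156) (nat_lit 228) (nat_lit 0) (XT.nd (nat_lit 78) (nat_lit 76) (nat_lit 0) (XT.lf (nat_lit 0) (nat_lit 246097391383) (nat_lit 152) (nat_lit 189019737335) (nat_lit 0) (nat_lit 188974501410) (nat_lit 186) (nat_lit 5) (nat_lit 188) (nat_lit 4) (nat_lit 186) (nat_lit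 4) (nat_lit 348) (nat_lit 317) (nat_lit 235)) (XT.lf (nat_lit 0) (nat_lit 247241648038) (nat_lit 76) (nat_lit 247286962484) (nat_lit 76) (nat_lit 190163993991) (nat_lit 185) (nat_lit 4) (nat_lit 186) (nat_lit 5) (nat_lit 186) (nat_lit 4) (nat_lit 349) (nat_lit 317) (nat_lit 234))) (XT.nd (nat_lit 78) (nat_lit 76) (nat_lit 0) (XT.lf (nat_lit 0) (nat_lit 17280443610) (nat_lit 76) (nat_lit 17325826335) (nat_lit 152) (nat_lit 717957052117) (nat_lit 183) (nat_lit 5) (nat_lit 184) (nat_lit 5) (nat_lit 185) (nat_lit 4) (nat_lit 350) (nat_lit 317) (nat_lit 233)) (XT.nd (nat_lit 78) (nat_lit 76) (nat_lit 0) (XT.lf (nat_lit 0) (nat_lit 307811037640) (nat_lit 152) (nat_lit 258178294990) (nat_lit 0) (nat_lit 258138780122) (nat_lit 183) (nat_lit 5) (nat_lit 185) (nat_lit 4) (nat_lit 183) (nat_lit 4) (nat_lit 351) (nat_lit 317) (nat_lit 232)) (XT.lf (nat_lit 0) (nat_lit 317974045164) (nat_lit 76) (nat_lit 318013604927)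 (nat_lit 76) (nat_lit 268341302514) (nat_lit 182) (nat_lit 4) (nat_lit 183) (nat_lit 5) (nat_lit 183) (nat_lit 4) (nat_lit 352) (nat_lit 317) (nat_lit 231))))) (XT.nd (nat_lit 156) (nat_lit 228) (nat_lit 0) (XT.nd (nat_lit 78) (nat_lit 0) (nat_lit 0) (XT.lf (nat_lit 0) (nat_lit 15026425463) (nat_lit 76) (nat_lit 15066024264) (nat_lit 152) (nat_lit 964148927683) (nat_lit 180) (nat_lit 5) (nat_lit 181) (nat_lit 5) (nat_lit 182) (nat_lit 4) (nat_lit 353) (nat_lit 317) (nat_lit 230)) (XT.lf (nat_lit 0) (nat_lit 391729826321) (nat_lit 152) (nat_lit 348570919669) (nat_lit 0) (nat_lit 348536456410) (nat_lit 180) (nat_lit 5) (nat_lit 182) (nat_lit 4) (nat_lit 180) (nat_lit 4) (nat_lit 354) (nat_lit 317) (nat_lit 229))) (XT.nd (nat_lit 78) (nat_lit 152) (nat_lit 0) (XT.lf (nat_lit 0) (nat_lit 412691989980) (nat_lit 76) (nat_lit 412726478908) (nat_lit 76) (nat_lit 369533083328) (nat_lit 179) (nat_lit 4)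 (nat_lit 180) (nat_lit 5) (nat_lit 180) (nat_lit 4) (nat_lit 355) (nat_lit 317) (nat_lit 228)) (XT.nd (nat_lit 78) (nat_lit 0) (nat_lit 0) (XT.lf (nat_lit 0) (nat_lit 13066429914) (nat_lit 76) (nat_lit 13100941162) (nat_lit 152) (nat_lit 1287826754290) (nat_lit 177) (nat_lit 5) (nat_lit 178) (nat_lit 5) (nat_lit 179) (nat_lit 4) (nat_lit 356) (nat_lit 317) (nat_lit 227)) (XT.lf (nat_lit 0) (nat_lit 504714609177) (nat_lit 152) (nat_lit 467185125132) (nat_lit 0) (nat_lit 467155098473) (nat_lit 177) (nat_lit 5) (nat_lit 179) (nat_lit 4) (nat_lit 177) (nat_lit 4) (nat_lit 357) (nat_lit 317) (nat_lit 226))))))))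
noncomputable def xc75 : XT := (XT.nd (nat_lit 1560) (nat_lit 304) (nat_lit 0) (XT.nd (nat_lit 780) (nat_lit 836) (nat_lit 0) (XT.nd (nat_lit 390) (nat_lit 304) (nat_lit 0) (XT.nd (nat_lit 156) (nat_lit 228) (nat_lit 0) (XT.nd (nat_lit 78) (nat_lit 152) (nat_lit 0) (XT.lf (nat_lit 0) (nat_lit 538977628112) (nat_lit 76) (nat_lit 539007669447) (nat_lit 76) (nat_lit 501448144067) (nat_lit 176) (nat_lit 4) (nat_lit 177) (nat_lit 5) (nat_lit 177) (nat_lit 4) (nat_lit 358) (nat_lit 317) (nat_lit 225)) (XT.lf (nat_lit 0) (nat_lit 11362097525) (nat_lit 76) (nat_lit 11392151622) (nat_lit 152) (nat_lit 1714228987548) (nat_lit 174) (nat_lit 5) (nat_lit 175) (nat_lit 5) (nat_lit 176) (nat_lit 4) (nat_lit 359) (nat_lit 317) (nat_lit 224))) (XT.nd (nat_lit 78) (nat_lit 228) (nat_lit 0) (XT.lf (nat_lit 0) (nat_lit 655878025249) (nat_lit 152) (nat_lit 623243691297) (nat_lit 0) (nat_lit 623217547650) (nat_lit 174)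 (nat_lit 5) (nat_lit 176) (nat_lit 4) (nat_lit 174) (nat_lit 4) (nat_lit 360) (nat_lit 317) (nat_lit 223)) (XT.nd (nat_lit 78) (nat_lit 152) (nat_lit 0) (XT.lf (nat_lit 0) (nat_lit 706878336393) (nat_lit 76) (nat_lit 706904488431) (nat_lit 76) (nat_lit 674244002441) (nat_lit 173) (nat_lit 4) (nat_lit 174) (nat_lit 5) (nat_lit 174) (nat_lit 4) (nat_lit 361) (nat_lit 317) (nat_lit 222)) (XT.lf (nat_lit 0) (nat_lit 9880075975) (nat_lit 76) (nat_lit 9906235309) (nat_lit 152) (nat_lit 2276700982409) (nat_lit 171) (nat_lit 5) (nat_lit 172) (nat_lit 5) (nat_lit 173) (nat_lit 4) (nat_lit 362) (nat_lit 317) (nat_lit 221))))) (XT.nd (nat_lit 156) (nat_lit 228) (nat_lit 0) (XT.nd (nat_lit 78) (nat_lit 76) (nat_lit 0) (XT.lf (nat_lit 0) (nat_lit 857305597460) (nat_lit 152) (nat_lit 828927915763) (nat_lit 0) (nat_lit 828905162998) (nat_lit 171) (nat_lit 5) (nat_lit 173) (nat_lit 4) (nat_lit 171) (nat_lit 4)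 (nat_lit 363) (nat_lit 317) (nat_lit 220)) (XT.lf (nat_lit 0) (nat_lit 929699149429) (nat_lit 76) (nat_lit 929721906991) (nat_lit 76) (nat_lit 901321467731) (nat_lit 170) (nat_lit 4) (nat_lit 171) (nat_lit 5) (nat_lit 171) (nat_lit 4) (nat_lit 364) (nat_lit 317) (nat_lit 219))) (XT.nd (nat_lit 78) (nat_lit 76) (nat_lit 0) (XT.lf (nat_lit 0) (nat_lit 8591365364) (nat_lit 76) (nat_lit 8614127098) (nat_lit 152) (nat_lit 3019313704888) (nat_lit 168) (nat_lit 5) (nat_lit 169) (nat_lit 5) (nat_lit 170) (nat_lit 4) (nat_lit 365) (nat_lit 317) (nat_lit 218)) (XT.nd (nat_lit 78) (nat_lit 76) (nat_lit 0) (XT.lf (nat_lit 0) (nat_lit 1125010047265) (nat_lit 152) (nat_lit 1100333802311) (nat_lit 0) (nat_lit 1100314006344) (nat_lit 168) (nat_lit 5) (nat_lit 170) (nat_lit 4) (nat_lit 168) (nat_lit 4) (nat_lit 366) (nat_lit 317) (nat_lit 217)) (XT.lf (nat_lit 0) (nat_lit 1225051085607) (nat_lit 76) (nat_lit 1225070884317)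 (nat_lit 76) (nat_lit 1200374840653) (nat_lit 167) (nat_lit 4) (nat_lit 168) (nat_lit 5) (nat_lit 168) (nat_lit 4) (nat_lit 367) (nat_lit 317) (nat_lit 216)))))) (XT.nd (nat_lit 390) (nat_lit 456) (nat_lit 0) (XT.nd (nat_lit 156) (nat_lit 228) (nat_lit 0) (XT.nd (nat_lit 78) (nat_lit 0) (nat_lit 0) (XT.lf (nat_lit 0) (nat_lit 7470749604) (nat_lit 76) (nat_lit 7490550699) (nat_lit 152) (nat_lit 4000326426897) (nat_lit 165) (nat_lit 5) (nat_lit 166) (nat_lit 5) (nat_lit 167) (nat_lit 4) (nat_lit 368) (nat_lit 317) (nat_lit 215)) (XT.lf (nat_lit 0) (nat_lit 1480193954135) (nat_lit 152) (nat_lit 1458736349827) (nat_lit 0) (nat_lit 1458719129680) (nat_lit 165) (nat_lit 5) (nat_lit 167) (nat_lit 4) (nat_lit 165) (nat_lit 4) (nat_lit 369) (nat_lit 317) (nat_lit 214))) (XT.nd (nat_lit 78) (nat_lit 152) (nat_lit 0) (XT.lf (nat_lit 0) (nat_lit 1616237854937) (nat_lit 76) (nat_lit 1616255076652) (nat_lit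 76) (nat_lit 1594780250628) (nat_lit 164) (nat_lit 4) (nat_lit 165) (nat_lit 5) (nat_lit 165) (nat_lit 4) (nat_lit 370) (nat_lit 317) (nat_lit 213)) (XT.nd (nat_lit 78) (nat_lit 0) (nat_lit 0) (XT.lf (nat_lit 0) (nat_lit 6496302353) (nat_lit 76) (nat_lit 6513525433) (nat_lit 152) (nat_lit 5296765660158) (nat_lit 162) (nat_lit 5) (nat_lit 163) (nat_lit 5) (nat_lit 164) (nat_lit 4) (nat_lit 371) (nat_lit 317) (nat_lit 212)) (XT.lf (nat_lit 0) (nat_lit 1950920126005) (nat_lit 152) (nat_lit 1932261339650) (nat_lit 0) (nat_lit 1932246362028) (nat_lit 162) (nat_lit 5) (nat_lit 164) (nat_lit 4) (nat_lit 162) (nat_lit 4) (nat_lit 372) (nat_lit 317) (nat_lit 211))))) (XT.nd (nat_lit 156) (nat_lit 228) (nat_lit 0) (XT.nd (nat_lit 78) (nat_lit 152) (nat_lit 0) (XT.lf (nat_lit 0) (nat_lit 2134090037814) (nat_lit 76) (nat_lit 2134105016333) (nat_lit 76) (nat_lit 2115431251459) (nat_lit 161) (nat_lit 4) (nat_lit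 162) (nat_lit 5) (nat_lit 162) (nat_lit 4) (nat_lit 373) (nat_lit 317) (nat_lit 210)) (XT.lf (nat_lit 0) (nat_lit 5648957624) (nat_lit 76) (nat_lit 5663936923) (nat_lit 152) (nat_lit 7010480378613) (nat_lit 159) (nat_lit 5) (nat_lit 160) (nat_lit 5) (nat_lit 161) (nat_lit 4) (nat_lit 374) (nat_lit 317) (nat_lit 209))) (XT.nd (nat_lit 78) (nat_lit 228) (nat_lit 0) (XT.lf (nat_lit 0) (nat_lit 2574321102016) (nat_lit 152) (nat_lit 2558096070403) (nat_lit 0) (nat_lit 2558083044336) (nat_lit 159) (nat_lit 5) (nat_lit 161) (nat_lit 4) (nat_lit 159) (nat_lit 4) (nat_lit 375) (nat_lit 317) (nat_lit 208)) (XT.nd (nat_lit 78) (nat_lit 152) (nat_lit 0) (XT.lf (nat_lit 0) (nat_lit 2819391010311) (nat_lit 76) (nat_lit 2819404036890) (nat_lit 76) (nat_lit 2803165978698) (nat_lit 158) (nat_lit 4) (nat_lit 159) (nat_lit 5) (nat_lit 159) (nat_lit 4) (nat_lit 376) (nat_lit 317) (nat_lit 207)) (XT.lf (nat_lit 0)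 (nat_lit 4912136525) (nat_lit 76) (nat_lit 4925163550) (nat_lit 152) (nat_lit 9276149686688) (nat_lit 156) (nat_lit 5) (nat_lit 157) (nat_lit 5) (nat_lit 158) (nat_lit 4) (nat_lit 377) (nat_lit 317) (nat_lit 206))))))) (XT.nd (nat_lit 42588) (nat_lit 0) (nat_lit 3800) (XT.nd (nat_lit 42198) (nat_lit 0) (nat_lit 4788) (XT.nd (nat_lit 156) (nat_lit 228) (nat_lit 0) (XT.nd (nat_lit 78) (nat_lit 76) (nat_lit 0) (XT.lf (nat_lit 0) (nat_lit 3399521600731) (nat_lit 152) (nat_lit 3385412877590) (nat_lit 0) (nat_lit 3385401549405) (nat_lit 156) (nat_lit 5) (nat_lit 158) (nat_lit 4) (nat_lit 156) (nat_lit 4) (nat_lit 378) (nat_lit 317) (nat_lit 205)) (XT.lf (nat_lit 0) (nat_lit 3726085424908) (nat_lit 76) (nat_lit 3726096753386) (nat_lit 76) (nat_lit 3711976701766) (nat_lit 155) (nat_lit 4) (nat_lit 156) (nat_lit 5) (nat_lit 156) (nat_lit 4) (nat_lit 379) (nat_lit 317) (nat_lit 204))) (XT.nd (nat_lit 78)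 (nat_lit 76) (nat_lit 0) (XT.lf (nat_lit 0) (nat_lit 4271422757) (nat_lit 76) (nat_lit 4282751490) (nat_lit 152) (nat_lit 12271872644504) (nat_lit 153) (nat_lit 5) (nat_lit 154) (nat_lit 5) (nat_lit 155) (nat_lit 4) (nat_lit 380) (nat_lit 317) (nat_lit 203)) (XT.nd (nat_lit 78) (nat_lit 76) (nat_lit 0) (XT.lf (nat_lit 0) (nat_lit 4491503789137) (nat_lit 152) (nat_lit 4479235334231) (nat_lit 0) (nat_lit 4479225482966) (nat_lit 153) (nat_lit 5) (nat_lit 155) (nat_lit 4) (nat_lit 153) (nat_lit 4) (nat_lit 381) (nat_lit 317) (nat_lit 202)) (XT.lf (nat_lit 0) (nat_lit 4925522595379) (nat_lit 76) (nat_lit 4925532446811) (nat_lit 76) (nat_lit 4913254140473) (nat_lit 152) (nat_lit 4) (nat_lit 153) (nat_lit 5) (nat_lit 153) (nat_lit 4) (nat_lit 382) (nat_lit 317) (nat_lit 201))))) (XT.nd (nat_lit 156) (nat_lit 0) (nat_lit 76) (XT.nd (nat_lit 78) (nat_lit 0) (nat_lit 0) (XT.lf (nat_lit 0) (nat_lit 7632156130)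 (nat_lit 380) (nat_lit 8717165318) (nat_lit 380) (nat_lit 8717165318) (nat_lit 215) (nat_lit 3) (nat_lit 220) (nat_lit 3) (nat_lit 220) (nat_lit 5) (nat_lit 318) (nat_lit 318) (nat_lit 264)) (XT.lf (nat_lit 76) (nat_lit 8378025934) (nat_lit 0) (nat_lit 8402213753) (nat_lit 380) (nat_lit 37057041261) (nat_lit 216) (nat_lit 5) (nat_lit 215) (nat_lit 3) (nat_lit 220) (nat_lit 5) (nat_lit 319) (nat_lit 318) (nat_lit 263))) (XT.nd (nat_lit 78) (nat_lit 0) (nat_lit 0) (XT.lf (nat_lit 0) (nat_lit 20282999579) (nat_lit 304) (nat_lit 18794820372) (nat_lit 380) (nat_lit 18755498020) (nat_lit 216) (nat_lit 5) (nat_lit 220) (nat_lit 5) (nat_lit 221) (nat_lit 5) (nat_lit 320) (nat_lit 318) (nat_lit 262)) (XT.nd (nat_lit 78) (nat_lit 0) (nat_lit 76) (XT.lf (nat_lit 76) (nat_lit 12586730338) (nat_lit 0) (nat_lit 12641956574) (nat_lit 380) (nat_lit 37062446618) (nat_lit 217) (nat_lit 5) (nat_lit 216) (nat_lit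 5) (nat_lit 221) (nat_lit 5) (nat_lit 321) (nat_lit 318) (nat_lit 261)) (XT.lf (nat_lit 0) (nat_lit 32677457121) (nat_lit 304) (nat_lit 17268014134) (nat_lit 76) (nat_lit 17207965699) (nat_lit 217) (nat_lit 5) (nat_lit 221) (nat_lit 5) (nat_lit 218) (nat_lit 5) (nat_lit 322) (nat_lit 318) (nat_lit 260)))))) (XT.nd (nat_lit 390) (nat_lit 456) (nat_lit 0) (XT.nd (nat_lit 156) (nat_lit 380) (nat_lit 0) (XT.nd (nat_lit 78) (nat_lit 0) (nat_lit 0) (XT.lf (nat_lit 0) (nat_lit 21327611556) (nat_lit 304) (nat_lit 21398117053) (nat_lit 380) (nat_lit 29797029422) (nat_lit 213) (nat_lit 5) (nat_lit 217) (nat_lit 5) (nat_lit 218) (nat_lit 5) (nat_lit 323) (nat_lit 318) (nat_lit 259)) (XT.lf (nat_lit 0) (nat_lit 55697535568) (nat_lit 380) (nat_lit 11428356830) (nat_lit 76) (nat_lit 11359140661) (nat_lit 213) (nat_lit 5) (nat_lit 218) (nat_lit 5) (nat_lit 214) (nat_lit 5) (nat_lit 324) (nat_lit 318) (nat_lit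 258))) (XT.nd (nat_lit 78) (nat_lit 228) (nat_lit 0) (XT.lf (nat_lit 0) (nat_lit 36534225930) (nat_lit 152) (nat_lit 36610317786) (nat_lit 228) (nat_lit 11817691102) (nat_lit 211) (nat_lit 5) (nat_lit 213) (nat_lit 5) (nat_lit 214) (nat_lit 5) (nat_lit 325) (nat_lit 318) (nat_lit 257)) (XT.nd (nat_lit 78) (nat_lit 0) (nat_lit 0) (XT.lf (nat_lit 0) (nat_lit 647458487) (nat_lit 152) (nat_lit 729529203) (nat_lit 228) (nat_lit 90931513986) (nat_lit 208) (nat_lit 5) (nat_lit 210) (nat_lit 5) (nat_lit 211) (nat_lit 5) (nat_lit 326) (nat_lit 318) (nat_lit 256)) (XT.lf (nat_lit 0) (nat_lit 19669281468) (nat_lit 228) (nat_lit 40214826893) (nat_lit 76) (nat_lit 40138940177) (nat_lit 208) (nat_lit 5) (nat_lit 211) (nat_lit 5) (nat_lit 209) (nat_lit 5) (nat_lit 327) (nat_lit 318) (nat_lit 255))))) (XT.nd (nat_lit 156) (nat_lit 304) (nat_lit 0) (XT.nd (nat_lit 78) (nat_lit 0) (nat_lit 0) (XT.lf (nat_lit 0)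 (nat_lit 20759055373) (nat_lit 152) (nat_lit 20838873285) (nat_lit 228) (nat_lit 67162972368) (nat_lit 206) (nat_lit 5) (nat_lit 208) (nat_lit 5) (nat_lit 209) (nat_lit 5) (nat_lit 328) (nat_lit 318) (nat_lit 254)) (XT.lf (nat_lit 0) (nat_lit 70012796847) (nat_lit 228) (nat_lit 24194737692) (nat_lit 76) (nat_lit 24122358262) (nat_lit 206) (nat_lit 5) (nat_lit 209) (nat_lit 5) (nat_lit 207) (nat_lit 4) (nat_lit 329) (nat_lit 318) (nat_lit 253))) (XT.nd (nat_lit 78) (nat_lit 228) (nat_lit 0) (XT.lf (nat_lit 0) (nat_lit 52898079572) (nat_lit 76) (nat_lit 52973043828) (nat_lit 152) (nat_lit 22985925721) (nat_lit 205) (nat_lit 5) (nat_lit 206) (nat_lit 5) (nat_lit 207) (nat_lit 4) (nat_lit 330) (nat_lit 318) (nat_lit 252)) (XT.nd (nat_lit 78) (nat_lit 0) (nat_lit 0) (XT.lf (nat_lit 0) (nat_lit 3494414858) (nat_lit 152) (nat_lit 3571626788) (nat_lit 228) (nat_lit 133638842307) (nat_lit 202) (nat_lit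 5) (nat_lit 204) (nat_lit 5) (nat_lit 205) (nat_lit 5) (nat_lit 331) (nat_lit 318) (nat_lit 251)) (XT.lf (nat_lit 0) (nat_lit 45635290794) (nat_lit 228) (nat_lit 53822418630) (nat_lit 76) (nat_lit 53753578256) (nat_lit 202) (nat_lit 5) (nat_lit 205) (nat_lit 5) (nat_lit 203) (nat_lit 4) (nat_lit 332) (nat_lit 318) (nat_lit 250))))))))
noncomputable def xc76 : XT := (XT.nd (nat_lit 1560) (nat_lit 1596) (nat_lit 0) (XT.nd (nat_lit 780) (nat_lit 684) (nat_lit 0) (XT.nd (nat_lit 390) (nat_lit 456) (nat_lit 0) (XT.nd (nat_lit 156) (nat_lit 228) (nat_lit 0) (XT.nd (nat_lit 78) (nat_lit 0) (nat_lit 0) (XT.lf (nat_lit 0) (nat_lit 45996541657) (nat_lit 76) (nat_lit 46066859914) (nat_lit 152) (nat_lit 75219229257) (nat_lit 201) (nat_lit 5) (nat_lit 202) (nat_lit 5) (nat_lit 203) (nat_lit 4) (nat_lit 333) (nat_lit 318) (nat_lit 249)) (XT.lf (nat_lit 0) (nat_lit 149036853088) (nat_lit 152) (nat_lit 16976458771)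 (nat_lit 0) (nat_lit 16914194969) (nat_lit 201) (nat_lit 5) (nat_lit 203) (nat_lit 4) (nat_lit 201) (nat_lit 4) (nat_lit 334) (nat_lit 318) (nat_lit 248))) (XT.nd (nat_lit 78) (nat_lit 76) (nat_lit 0) (XT.lf (nat_lit 0) (nat_lit 19519410686) (nat_lit 152) (nat_lit 90156896874) (nat_lit 76) (nat_lit 90093661341) (nat_lit 199) (nat_lit 5) (nat_lit 201) (nat_lit 5) (nat_lit 200) (nat_lit 4) (nat_lit 335) (nat_lit 318) (nat_lit 247)) (XT.nd (nat_lit 78) (nat_lit 0) (nat_lit 0) (XT.lf (nat_lit 0) (nat_lit 39995970219) (nat_lit 76) (nat_lit 40060050736) (nat_lit 152) (nat_lit 138452984193) (nat_lit 198) (nat_lit 5) (nat_lit 199) (nat_lit 5) (nat_lit 200) (nat_lit 4) (nat_lit 336) (nat_lit 318) (nat_lit 246)) (XT.lf (nat_lit 0) (nat_lit 156265548366) (nat_lit 152) (nat_lit 41430422872) (nat_lit 0) (nat_lit 41374061754) (nat_lit 198) (nat_lit 5) (nat_lit 200) (nat_lit 4) (nat_lit 198) (nat_lit 4) (nat_lit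 337) (nat_lit 318) (nat_lit 245))))) (XT.nd (nat_lit 156) (nat_lit 228) (nat_lit 0) (XT.nd (nat_lit 78) (nat_lit 152) (nat_lit 0) (XT.lf (nat_lit 0) (nat_lit 125476018795) (nat_lit 76) (nat_lit 125532935504) (nat_lit 76) (nat_lit 10640893302) (nat_lit 197) (nat_lit 4) (nat_lit 198) (nat_lit 5) (nat_lit 198) (nat_lit 4) (nat_lit 338) (nat_lit 318) (nat_lit 244)) (XT.lf (nat_lit 0) (nat_lit 34778519905) (nat_lit 76) (nat_lit 34835919736) (nat_lit 152) (nat_lit 216996624908) (nat_lit 195) (nat_lit 5) (nat_lit 196) (nat_lit 5) (nat_lit 197) (nat_lit 4) (nat_lit 339) (nat_lit 318) (nat_lit 243))) (XT.nd (nat_lit 78) (nat_lit 228) (nat_lit 0) (XT.lf (nat_lit 0) (nat_lit 171151363414) (nat_lit 152) (nat_lit 71294732550) (nat_lit 0) (nat_lit 71244454343) (nat_lit 195) (nat_lit 5) (nat_lit 197) (nat_lit 4) (nat_lit 195) (nat_lit 4) (nat_lit 340) (nat_lit 318) (nat_lit 242)) (XT.nd (nat_lit 78) (nat_lit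 152) (nat_lit 0) (XT.lf (nat_lit 0) (nat_lit 147823705578) (nat_lit 76) (nat_lit 147874301446) (nat_lit 76) (nat_lit 47967074714) (nat_lit 194) (nat_lit 4) (nat_lit 195) (nat_lit 5) (nat_lit 195) (nat_lit 4) (nat_lit 341) (nat_lit 318) (nat_lit 241)) (XT.lf (nat_lit 0) (nat_lit 30241856956) (nat_lit 76) (nat_lit 30292729050) (nat_lit 152) (nat_lit 316450260841) (nat_lit 192) (nat_lit 5) (nat_lit 193) (nat_lit 5) (nat_lit 194) (nat_lit 4) (nat_lit 342) (nat_lit 318) (nat_lit 240)))))) (XT.nd (nat_lit 390) (nat_lit 380) (nat_lit 0) (XT.nd (nat_lit 156) (nat_lit 228) (nat_lit 0) (XT.nd (nat_lit 78) (nat_lit 76) (nat_lit 0) (XT.lf (nat_lit 0) (nat_lit 195469267694) (nat_lit 152) (nat_lit 108637414769) (nat_lit 0) (nat_lit 108592969298) (nat_lit 192) (nat_lit 5) (nat_lit 194) (nat_lit 4) (nat_lit 192) (nat_lit 4) (nat_lit 343) (nat_lit 318) (nat_lit 239)) (XT.lf (nat_lit 0) (nat_lit 179742070281) (nat_lit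 76) (nat_lit 179786697375) (nat_lit 76) (nat_lit 92910217355) (nat_lit 191) (nat_lit 4) (nat_lit 192) (nat_lit 5) (nat_lit 192) (nat_lit 4) (nat_lit 344) (nat_lit 318) (nat_lit 238))) (XT.nd (nat_lit 78) (nat_lit 76) (nat_lit 0) (XT.lf (nat_lit 0) (nat_lit 26297075800) (nat_lit 76) (nat_lit 26341860829) (nat_lit 152) (nat_lit 444133742128) (nat_lit 189) (nat_lit 5) (nat_lit 190) (nat_lit 5) (nat_lit 191) (nat_lit 4) (nat_lit 345) (nat_lit 318) (nat_lit 237)) (XT.nd (nat_lit 78) (nat_lit 76) (nat_lit 0) (XT.lf (nat_lit 0) (nat_lit 231657141995) (nat_lit 152) (nat_lit 156151182930) (nat_lit 0) (nat_lit 156112120007) (nat_lit 189) (nat_lit 5) (nat_lit 191) (nat_lit 4) (nat_lit 189) (nat_lit 4) (nat_lit 346) (nat_lit 318) (nat_lit 236)) (XT.lf (nat_lit 0) (nat_lit 224009243952) (nat_lit 76) (nat_lit 224048410719) (nat_lit 76) (nat_lit 148503284887) (nat_lit 188) (nat_lit 4) (nat_lit 189) (nat_lit 5)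 (nat_lit 189) (nat_lit 4) (nat_lit 347) (nat_lit 318) (nat_lit 235))))) (XT.nd (nat_lit 156) (nat_lit 228) (nat_lit 0) (XT.nd (nat_lit 78) (nat_lit 0) (nat_lit 0) (XT.lf (nat_lit 0) (nat_lit 22866913163) (nat_lit 76) (nat_lit 22906170229) (nat_lit 152) (nat_lit 609652471504) (nat_lit 186) (nat_lit 5) (nat_lit 187) (nat_lit 5) (nat_lit 188) (nat_lit 4) (nat_lit 348) (nat_lit 318) (nat_lit 234)) (XT.lf (nat_lit 0) (nat_lit 283017806647) (nat_lit 152) (nat_lit 217360450938) (nat_lit 0) (nat_lit 217326246079) (nat_lit 186) (nat_lit 5) (nat_lit 188) (nat_lit 4) (nat_lit 186) (nat_lit 4) (nat_lit 349) (nat_lit 318) (nat_lit 233))) (XT.nd (nat_lit 78) (nat_lit 152) (nat_lit 0) (XT.lf (nat_lit 0) (nat_lit 284339585560) (nat_lit 76) (nat_lit 284373849791) (nat_lit 76) (nat_lit 218682229851) (nat_lit 185) (nat_lit 4) (nat_lit 186) (nat_lit 5) (nat_lit 186) (nat_lit 4) (nat_lit 350) (nat_lit 318) (nat_lit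 232)) (XT.nd (nat_lit 78) (nat_lit 0) (nat_lit 0) (XT.lf (nat_lit 0) (nat_lit 19884209839) (nat_lit 76) (nat_lit 19918525699) (nat_lit 152) (nat_lit 825644256068) (nat_lit 183) (nat_lit 5) (nat_lit 184) (nat_lit 5) (nat_lit 185) (nat_lit 4) (nat_lit 351) (nat_lit 318) (nat_lit 231)) (XT.lf (nat_lit 0) (nat_lit 353987720049) (nat_lit 152) (nat_lit 296894367259) (nat_lit 0) (nat_lit 296864488342) (nat_lit 183) (nat_lit 5) (nat_lit 185) (nat_lit 4) (nat_lit 183) (nat_lit 4) (nat_lit 352) (nat_lit 318) (nat_lit 230))))))) (XT.nd (nat_lit 780) (nat_lit 836) (nat_lit 0) (XT.nd (nat_lit 390) (nat_lit 304) (nat_lit 0) (XT.nd (nat_lit 156) (nat_lit 228) (nat_lit 0) (XT.nd (nat_lit 78) (nat_lit 152) (nat_lit 0) (XT.lf (nat_lit 0) (nat_lit 365680338829) (nat_lit 76) (nat_lit 365710251692) (nat_lit 76) (nat_lit 308586986038) (nat_lit 182) (nat_lit 4) (nat_lit 183) (nat_lit 5) (nat_lit 183) (nat_lit 4) (nat_lit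 353) (nat_lit 318) (nat_lit 229)) (XT.lf (nat_lit 0) (nat_lit 17290581530) (nat_lit 76) (nat_lit 17320523913) (nat_lit 152) (nat_lit 1108765760340) (nat_lit 180) (nat_lit 5) (nat_lit 181) (nat_lit 5) (nat_lit 182) (nat_lit 4) (nat_lit 354) (nat_lit 318) (nat_lit 228))) (XT.nd (nat_lit 78) (nat_lit 228) (nat_lit 0) (XT.lf (nat_lit 0) (nat_lit 450493658551) (nat_lit 152) (nat_lit 400847264821) (nat_lit 0) (nat_lit 400821205645) (nat_lit 180) (nat_lit 5) (nat_lit 182) (nat_lit 4) (nat_lit 180) (nat_lit 4) (nat_lit 355) (nat_lit 318) (nat_lit 227)) (XT.nd (nat_lit 78) (nat_lit 152) (nat_lit 0) (XT.lf (nat_lit 0) (nat_lit 474604658876) (nat_lit 76) (nat_lit 474630737460) (nat_lit 76) (nat_lit 424958265145) (nat_lit 179) (nat_lit 4) (nat_lit 180) (nat_lit 5) (nat_lit 180) (nat_lit 4) (nat_lit 356) (nat_lit 318) (nat_lit 226)) (XT.lf (nat_lit 0) (nat_lit 15035267863) (nat_lit 76) (nat_lit 15061363325)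 (nat_lit 152) (nat_lit 1480995989815) (nat_lit 177) (nat_lit 5) (nat_lit 178) (nat_lit 5) (nat_lit 179) (nat_lit 4) (nat_lit 357) (nat_lit 318) (nat_lit 225))))) (XT.nd (nat_lit 156) (nat_lit 228) (nat_lit 0) (XT.nd (nat_lit 78) (nat_lit 76) (nat_lit 0) (XT.lf (nat_lit 0) (nat_lit 580425583037) (nat_lit 152) (nat_lit 537254805879) (nat_lit 0) (nat_lit 537232101412) (nat_lit 177) (nat_lit 5) (nat_lit 179) (nat_lit 4) (nat_lit 177) (nat_lit 4) (nat_lit 358) (nat_lit 318) (nat_lit 224)) (XT.lf (nat_lit 0) (nat_lit 619831992714) (nat_lit 76) (nat_lit 619854708279) (nat_lit 76) (nat_lit 576661215557) (nat_lit 176) (nat_lit 4) (nat_lit 177) (nat_lit 5) (nat_lit 177) (nat_lit 4) (nat_lit 359) (nat_lit 318) (nat_lit 223))) (XT.nd (nat_lit 78) (nat_lit 76) (nat_lit 0) (XT.lf (nat_lit 0) (nat_lit 13074134290) (nat_lit 76) (nat_lit 13096859505) (nat_lit 152) (nat_lit 1971359187312) (nat_lit 174) (nat_lit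 5) (nat_lit 175) (nat_lit 5) (nat_lit 176) (nat_lit 4) (nat_lit 360) (nat_lit 318) (nat_lit 222)) (XT.nd (nat_lit 78) (nat_lit 76) (nat_lit 0) (XT.lf (nat_lit 0) (nat_lit 754263013963) (nat_lit 152) (nat_lit 716723207739) (nat_lit 0) (nat_lit 716703439386) (nat_lit 174) (nat_lit 5) (nat_lit 176) (nat_lit 4) (nat_lit 174) (nat_lit 4) (nat_lit 361) (nat_lit 318) (nat_lit 221)) (XT.lf (nat_lit 0) (nat_lit 812916804230) (nat_lit 76) (nat_lit 812936578928) (nat_lit 76) (nat_lit 775376998006) (nat_lit 173) (nat_lit 4) (nat_lit 174) (nat_lit 5) (nat_lit 174) (nat_lit 4) (nat_lit 362) (nat_lit 318) (nat_lit 220)))))) (XT.nd (nat_lit 390) (nat_lit 456) (nat_lit 0) (XT.nd (nat_lit 156) (nat_lit 228) (nat_lit 0) (XT.nd (nat_lit 78) (nat_lit 0) (nat_lit 0) (XT.lf (nat_lit 0) (nat_lit 11368805750) (nat_lit 76) (nat_lit 11388585965) (nat_lit 152) (nat_lit 2618202525971) (nat_lit 171) (nat_lit 5) (nat_lit 172)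 (nat_lit 5) (nat_lit 173) (nat_lit 4) (nat_lit 363) (nat_lit 318) (nat_lit 219)) (XT.lf (nat_lit 0) (nat_lit 985904291141) (nat_lit 152) (nat_lit 953260981382) (nat_lit 0) (nat_lit 953243777023) (nat_lit 171) (nat_lit 5) (nat_lit 173) (nat_lit 4) (nat_lit 171) (nat_lit 4) (nat_lit 364) (nat_lit 318) (nat_lit 218))) (XT.nd (nat_lit 78) (nat_lit 152) (nat_lit 0) (XT.lf (nat_lit 0) (nat_lit 1069159865327) (nat_lit 76) (nat_lit 1069177073314) (nat_lit 76) (nat_lit 1036516555568) (nat_lit 170) (nat_lit 4) (nat_lit 171) (nat_lit 5) (nat_lit 171) (nat_lit 4) (nat_lit 365) (nat_lit 318) (nat_lit 217)) (XT.nd (nat_lit 78) (nat_lit 0) (nat_lit 0) (XT.lf (nat_lit 0) (nat_lit 9885914226) (nat_lit 76) (nat_lit 9903125367) (nat_lit 152) (nat_lit 3472207628871) (nat_lit 168) (nat_lit 5) (nat_lit 169) (nat_lit 5) (nat_lit 170) (nat_lit 4) (nat_lit 366) (nat_lit 318) (nat_lit 216)) (XT.lf (nat_lit 0) (nat_lit 1293764034778)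 (nat_lit 152) (nat_lit 1265378548030) (nat_lit 0) (nat_lit 1265363579435) (nat_lit 168) (nat_lit 5) (nat_lit 170) (nat_lit 4) (nat_lit 168) (nat_lit 4) (nat_lit 367) (nat_lit 318) (nat_lit 215))))) (XT.nd (nat_lit 156) (nat_lit 228) (nat_lit 0) (XT.nd (nat_lit 78) (nat_lit 152) (nat_lit 0) (XT.lf (nat_lit 0) (nat_lit 1408813831047) (nat_lit 76) (nat_lit 1408828801716) (nat_lit 76) (nat_lit 1380428344299) (nat_lit 167) (nat_lit 4) (nat_lit 168) (nat_lit 5) (nat_lit 168) (nat_lit 4) (nat_lit 368) (nat_lit 318) (nat_lit 214)) (XT.lf (nat_lit 0) (nat_lit 8596444970) (nat_lit 76) (nat_lit 8611417443) (nat_lit 152) (nat_lit 4600372668807) (nat_lit 165) (nat_lit 5) (nat_lit 166) (nat_lit 5) (nat_lit 167) (nat_lit 4) (nat_lit 369) (nat_lit 318) (nat_lit 213))) (XT.nd (nat_lit 78) (nat_lit 228) (nat_lit 0) (XT.lf (nat_lit 0) (nat_lit 1702225203362) (nat_lit 152) (nat_lit 1677542171408) (nat_lit 0) (nat_lit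 1677529150502) (nat_lit 165) (nat_lit 5) (nat_lit 167) (nat_lit 4) (nat_lit 165) (nat_lit 4) (nat_lit 370) (nat_lit 318) (nat_lit 212)) (XT.nd (nat_lit 78) (nat_lit 152) (nat_lit 0) (XT.lf (nat_lit 0) (nat_lit 1858677953575) (nat_lit 76) (nat_lit 1858690975667) (nat_lit 76) (nat_lit 1833994921621) (nat_lit 164) (nat_lit 4) (nat_lit 165) (nat_lit 5) (nat_lit 165) (nat_lit 4) (nat_lit 371) (nat_lit 318) (nat_lit 211)) (XT.lf (nat_lit 0) (nat_lit 7475168291) (nat_lit 76) (nat_lit 7488191414) (nat_lit 152) (nat_lit 6091278142767) (nat_lit 162) (nat_lit 5) (nat_lit 163) (nat_lit 5) (nat_lit 164) (nat_lit 4) (nat_lit 372) (nat_lit 318) (nat_lit 210))))))))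
noncomputable def xc77 : XT := (XT.nd (nat_lit 43446) (nat_lit 0) (nat_lit 2660) (XT.nd (nat_lit 42666) (nat_lit 0) (nat_lit 4180) (XT.nd (nat_lit 390) (nat_lit 380) (nat_lit 0) (XT.nd (nat_lit 156) (nat_lit 228) (nat_lit 0) (XT.nd (nat_lit 78) (nat_lit 76) (nat_lit 0) (XT.lf (nat_lit 0) (nat_lit 2243560019334) (nat_lit 152) (nat_lit 2222096513286) (nat_lit 0) (nat_lit 2222085188052) (nat_lit 162) (nat_lit 5) (nat_lit 164) (nat_lit 4) (nat_lit 162) (nat_lit 4) (nat_lit 373) (nat_lit 318) (nat_lit 209)) (XT.lf (nat_lit 0) (nat_lit 2454207387738) (nat_lit 76) (nat_lit 2454218713650) (nat_lit 76) (nat_lit 2432743881691) (nat_lit 161) (nat_lit 4) (nat_lit 162) (nat_lit 5) (nat_lit 162) (nat_lit 4) (nat_lit 374) (nat_lit 318) (nat_lit 208))) (XT.nd (nat_lit 78) (nat_lit 76) (nat_lit 0) (XT.lf (nat_lit 0) (nat_lit 6500145627) (nat_lit 76) (nat_lit 6511472129) (nat_lit 152) (nat_lit 8062050378025) (nat_lit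 159) (nat_lit 5) (nat_lit 160) (nat_lit 5) (nat_lit 161) (nat_lit 4) (nat_lit 375) (nat_lit 318) (nat_lit 207)) (XT.nd (nat_lit 78) (nat_lit 76) (nat_lit 0) (XT.lf (nat_lit 0) (nat_lit 2960470896999) (nat_lit 152) (nat_lit 2941806978697) (nat_lit 0) (nat_lit 2941797129119) (nat_lit 159) (nat_lit 5) (nat_lit 161) (nat_lit 4) (nat_lit 159) (nat_lit 4) (nat_lit 376) (nat_lit 318) (nat_lit 206)) (XT.lf (nat_lit 0) (nat_lit 3242303004930) (nat_lit 76) (nat_lit 3242312854895) (nat_lit 76) (nat_lit 3223639086628) (nat_lit 158) (nat_lit 4) (nat_lit 159) (nat_lit 5) (nat_lit 159) (nat_lit 4) (nat_lit 377) (nat_lit 318) (nat_lit 205))))) (XT.nd (nat_lit 156) (nat_lit 228) (nat_lit 0) (XT.nd (nat_lit 78) (nat_lit 0) (nat_lit 0) (XT.lf (nat_lit 0) (nat_lit 5652300137) (nat_lit 76) (nat_lit 5662150440) (nat_lit 152) (nat_lit 10667570350877) (nat_lit 156) (nat_lit 5) (nat_lit 157) (nat_lit 5) (nat_lit 158) (nat_lit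 4) (nat_lit 378) (nat_lit 318) (nat_lit 204)) (XT.lf (nat_lit 0) (nat_lit 3909451257809) (nat_lit 152) (nat_lit 3893221763633) (nat_lit 0) (nat_lit 3893213197898) (nat_lit 156) (nat_lit 5) (nat_lit 158) (nat_lit 4) (nat_lit 156) (nat_lit 4) (nat_lit 379) (nat_lit 318) (nat_lit 203))) (XT.nd (nat_lit 78) (nat_lit 152) (nat_lit 0) (XT.lf (nat_lit 0) (nat_lit 4285001145803) (nat_lit 76) (nat_lit 4285009711761) (nat_lit 76) (nat_lit 4268771651628) (nat_lit 155) (nat_lit 4) (nat_lit 156) (nat_lit 5) (nat_lit 156) (nat_lit 4) (nat_lit 380) (nat_lit 318) (nat_lit 202)) (XT.nd (nat_lit 78) (nat_lit 0) (nat_lit 0) (XT.lf (nat_lit 0) (nat_lit 4915043364) (nat_lit 76) (nat_lit 4923609514) (nat_lit 152) (nat_lit 14112651985811) (nat_lit 153) (nat_lit 5) (nat_lit 154) (nat_lit 5) (nat_lit 155) (nat_lit 4) (nat_lit 381) (nat_lit 318) (nat_lit 201)) (XT.lf (nat_lit 0) (nat_lit 5165230589569) (nat_lit 152) (nat_lit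 5151117985938) (nat_lit 0) (nat_lit 5151110536966) (nat_lit 153) (nat_lit 5) (nat_lit 155) (nat_lit 4) (nat_lit 153) (nat_lit 4) (nat_lit 382) (nat_lit 318) (nat_lit 200)))))) (XT.nd (nat_lit 390) (nat_lit 532) (nat_lit 0) (XT.nd (nat_lit 156) (nat_lit 0) (nat_lit 76) (XT.nd (nat_lit 78) (nat_lit 0) (nat_lit 0) (XT.lf (nat_lit 0) (nat_lit 8800165803) (nat_lit 380) (nat_lit 10011408020) (nat_lit 380) (nat_lit 10011408020) (nat_lit 215) (nat_lit 3) (nat_lit 220) (nat_lit 3) (nat_lit 220) (nat_lit 5) (nat_lit 319) (nat_lit 319) (nat_lit 262)) (XT.lf (nat_lit 76) (nat_lit 9660182006) (nat_lit 0) (nat_lit 9678471472) (nat_lit 380) (nat_lit 42568012935) (nat_lit 216) (nat_lit 5) (nat_lit 215) (nat_lit 3) (nat_lit 220) (nat_lit 5) (nat_lit 320) (nat_lit 319) (nat_lit 261))) (XT.nd (nat_lit 78) (nat_lit 0) (nat_lit 0) (XT.lf (nat_lit 0) (nat_lit 23360856813) (nat_lit 304) (nat_lit 21585940553) (nat_lit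 380) (nat_lit 21556207206) (nat_lit 216) (nat_lit 5) (nat_lit 220) (nat_lit 5) (nat_lit 221) (nat_lit 5) (nat_lit 321) (nat_lit 319) (nat_lit 260)) (XT.nd (nat_lit 78) (nat_lit 0) (nat_lit 76) (XT.lf (nat_lit 76) (nat_lit 14501565359) (nat_lit 0) (nat_lit 14543324328) (nat_lit 380) (nat_lit 42585128910) (nat_lit 217) (nat_lit 5) (nat_lit 216) (nat_lit 5) (nat_lit 221) (nat_lit 5) (nat_lit 322) (nat_lit 319) (nat_lit 259)) (XT.lf (nat_lit 0) (nat_lit 37606631885) (nat_lit 304) (nat_lit 19830546214) (nat_lit 76) (nat_lit 19785140970) (nat_lit 217) (nat_lit 5) (nat_lit 221) (nat_lit 5) (nat_lit 218) (nat_lit 5) (nat_lit 323) (nat_lit 319) (nat_lit 258))))) (XT.nd (nat_lit 156) (nat_lit 380) (nat_lit 0) (XT.nd (nat_lit 78) (nat_lit 0) (nat_lit 0) (XT.lf (nat_lit 0) (nat_lit 24553165601) (nat_lit 304) (nat_lit 24606477886) (nat_lit 380) (nat_lit 34237769911) (nat_lit 213) (nat_lit 5) (nat_lit 217) (nat_lit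 5) (nat_lit 218) (nat_lit 5) (nat_lit 324) (nat_lit 319) (nat_lit 257)) (XT.lf (nat_lit 0) (nat_lit 64074002221) (nat_lit 380) (nat_lit 13116423858) (nat_lit 76) (nat_lit 13064086491) (nat_lit 213) (nat_lit 5) (nat_lit 218) (nat_lit 5) (nat_lit 214) (nat_lit 5) (nat_lit 325) (nat_lit 319) (nat_lit 256))) (XT.nd (nat_lit 78) (nat_lit 228) (nat_lit 0) (XT.lf (nat_lit 0) (nat_lit 42039356020) (nat_lit 152) (nat_lit 42096892396) (nat_lit 228) (nat_lit 13567318154) (nat_lit 211) (nat_lit 5) (nat_lit 213) (nat_lit 5) (nat_lit 214) (nat_lit 5) (nat_lit 326) (nat_lit 319) (nat_lit 255)) (XT.nd (nat_lit 78) (nat_lit 0) (nat_lit 0) (XT.lf (nat_lit 0) (nat_lit 770394077) (nat_lit 152) (nat_lit 832451329) (nat_lit 228) (nat_lit 104549035087) (nat_lit 208) (nat_lit 5) (nat_lit 210) (nat_lit 5) (nat_lit 211) (nat_lit 5) (nat_lit 327) (nat_lit 319) (nat_lit 254)) (XT.lf (nat_lit 0) (nat_lit 22636698918) (nat_lit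 228) (nat_lit 46222317188) (nat_lit 76) (nat_lit 46164935928) (nat_lit 208) (nat_lit 5) (nat_lit 211) (nat_lit 5) (nat_lit 209) (nat_lit 5) (nat_lit 328) (nat_lit 319) (nat_lit 253))))))) (XT.nd (nat_lit 780) (nat_lit 760) (nat_lit 0) (XT.nd (nat_lit 390) (nat_lit 304) (nat_lit 0) (XT.nd (nat_lit 156) (nat_lit 304) (nat_lit 0) (XT.nd (nat_lit 78) (nat_lit 0) (nat_lit 0) (XT.lf (nat_lit 0) (nat_lit 23896523157) (nat_lit 152) (nat_lit 23956876966) (nat_lit 228) (nat_lit 77219268733) (nat_lit 206) (nat_lit 5) (nat_lit 208) (nat_lit 5) (nat_lit 209) (nat_lit 5) (nat_lit 329) (nat_lit 319) (nat_lit 252)) (XT.lf (nat_lit 0) (nat_lit 80528721833) (nat_lit 228) (nat_lit 27801641659) (nat_lit 76) (nat_lit 27746912411) (nat_lit 206) (nat_lit 5) (nat_lit 209) (nat_lit 5) (nat_lit 207) (nat_lit 4) (nat_lit 330) (nat_lit 319) (nat_lit 251))) (XT.nd (nat_lit 78) (nat_lit 228) (nat_lit 0) (XT.lf (nat_lit 0) (nat_lit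 60854084256) (nat_lit 76) (nat_lit 60910768003) (nat_lit 152) (nat_lit 26418795180) (nat_lit 205) (nat_lit 5) (nat_lit 206) (nat_lit 5) (nat_lit 207) (nat_lit 4) (nat_lit 331) (nat_lit 319) (nat_lit 250)) (XT.nd (nat_lit 78) (nat_lit 0) (nat_lit 0) (XT.lf (nat_lit 0) (nat_lit 4040178334) (nat_lit 152) (nat_lit 4098561646) (nat_lit 228) (nat_lit 153669957754) (nat_lit 202) (nat_lit 5) (nat_lit 204) (nat_lit 5) (nat_lit 205) (nat_lit 5) (nat_lit 332) (nat_lit 319) (nat_lit 249)) (XT.lf (nat_lit 0) (nat_lit 52492025157) (nat_lit 228) (nat_lit 61875646388) (nat_lit 76) (nat_lit 61823593176) (nat_lit 202) (nat_lit 5) (nat_lit 205) (nat_lit 5) (nat_lit 203) (nat_lit 4) (nat_lit 333) (nat_lit 319) (nat_lit 248))))) (XT.nd (nat_lit 156) (nat_lit 228) (nat_lit 0) (XT.nd (nat_lit 78) (nat_lit 0) (nat_lit 0) (XT.lf (nat_lit 0) (nat_lit 52915242713) (nat_lit 76) (nat_lit 52968413417) (nat_lit 152) (nat_lit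 86489757673) (nat_lit 201) (nat_lit 5) (nat_lit 202) (nat_lit 5) (nat_lit 203) (nat_lit 4) (nat_lit 334) (nat_lit 319) (nat_lit 247)) (XT.lf (nat_lit 0) (nat_lit 171402029117) (nat_lit 152) (nat_lit 19505118452) (nat_lit 0) (nat_lit 19458038073) (nat_lit 201) (nat_lit 5) (nat_lit 203) (nat_lit 4) (nat_lit 201) (nat_lit 4) (nat_lit 335) (nat_lit 319) (nat_lit 246))) (XT.nd (nat_lit 78) (nat_lit 76) (nat_lit 0) (XT.lf (nat_lit 0) (nat_lit 22456848856) (nat_lit 152) (nat_lit 103662500771) (nat_lit 76) (nat_lit 103614685624) (nat_lit 199) (nat_lit 5) (nat_lit 201) (nat_lit 5) (nat_lit 200) (nat_lit 4) (nat_lit 336) (nat_lit 319) (nat_lit 245)) (XT.nd (nat_lit 78) (nat_lit 0) (nat_lit 0) (XT.lf (nat_lit 0) (nat_lit 46012481356) (nat_lit 76) (nat_lit 46060935433) (nat_lit 152) (nat_lit 159210590227) (nat_lit 198) (nat_lit 5) (nat_lit 199) (nat_lit 5) (nat_lit 200) (nat_lit 4) (nat_lit 337) (nat_lit 319)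 (nat_lit 244)) (XT.lf (nat_lit 0) (nat_lit 179713492833) (nat_lit 152) (nat_lit 47629222689) (nat_lit 0) (nat_lit 47586605587) (nat_lit 198) (nat_lit 5) (nat_lit 200) (nat_lit 4) (nat_lit 198) (nat_lit 4) (nat_lit 338) (nat_lit 319) (nat_lit 243)))))) (XT.nd (nat_lit 390) (nat_lit 304) (nat_lit 0) (XT.nd (nat_lit 156) (nat_lit 228) (nat_lit 0) (XT.nd (nat_lit 78) (nat_lit 152) (nat_lit 0) (XT.lf (nat_lit 0) (nat_lit 144312468700) (nat_lit 76) (nat_lit 144355505909) (nat_lit 76) (nat_lit 12228198557) (nat_lit 197) (nat_lit 4) (nat_lit 198) (nat_lit 5) (nat_lit 198) (nat_lit 4) (nat_lit 339) (nat_lit 319) (nat_lit 242)) (XT.lf (nat_lit 0) (nat_lit 40010411286) (nat_lit 76) (nat_lit 40053813805) (nat_lit 152) (nat_lit 249537356214) (nat_lit 195) (nat_lit 5) (nat_lit 196) (nat_lit 5) (nat_lit 197) (nat_lit 4) (nat_lit 340) (nat_lit 319) (nat_lit 241))) (XT.nd (nat_lit 78) (nat_lit 228) (nat_lit 0)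 (XT.lf (nat_lit 0) (nat_lit 196830963413) (nat_lit 152) (nat_lit 81975076332) (nat_lit 0) (nat_lit 81937058784) (nat_lit 195) (nat_lit 5) (nat_lit 197) (nat_lit 4) (nat_lit 195) (nat_lit 4) (nat_lit 341) (nat_lit 319) (nat_lit 240)) (XT.nd (nat_lit 78) (nat_lit 152) (nat_lit 0) (XT.lf (nat_lit 0) (nat_lit 170010497238) (nat_lit 76) (nat_lit 170048754983) (nat_lit 76) (nat_lit 55154610157) (nat_lit 194) (nat_lit 4) (nat_lit 195) (nat_lit 5) (nat_lit 195) (nat_lit 4) (nat_lit 342) (nat_lit 319) (nat_lit 239)) (XT.lf (nat_lit 0) (nat_lit 34791409235) (nat_lit 76) (nat_lit 34829875847) (nat_lit 152) (nat_lit 363910312115) (nat_lit 192) (nat_lit 5) (nat_lit 193) (nat_lit 5) (nat_lit 194) (nat_lit 4) (nat_lit 343) (nat_lit 319) (nat_lit 238))))) (XT.nd (nat_lit 156) (nat_lit 228) (nat_lit 0) (XT.nd (nat_lit 78) (nat_lit 76) (nat_lit 0) (XT.lf (nat_lit 0) (nat_lit 224795563239) (nat_lit 152) (nat_lit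 124920878820) (nat_lit 0) (nat_lit 124887271659) (nat_lit 192) (nat_lit 5) (nat_lit 194) (nat_lit 4) (nat_lit 192) (nat_lit 4) (nat_lit 344) (nat_lit 319) (nat_lit 237)) (XT.lf (nat_lit 0) (nat_lit 206714976798) (nat_lit 76) (nat_lit 206748721293) (nat_lit 76) (nat_lit 106840292379) (nat_lit 191) (nat_lit 4) (nat_lit 192) (nat_lit 5) (nat_lit 192) (nat_lit 4) (nat_lit 345) (nat_lit 319) (nat_lit 236))) (XT.nd (nat_lit 78) (nat_lit 76) (nat_lit 0) (XT.lf (nat_lit 0) (nat_lit 30253254822) (nat_lit 76) (nat_lit 30287118738) (nat_lit 152) (nat_lit 510747367545) (nat_lit 189) (nat_lit 5) (nat_lit 190) (nat_lit 5) (nat_lit 191) (nat_lit 4) (nat_lit 346) (nat_lit 319) (nat_lit 235)) (XT.nd (nat_lit 78) (nat_lit 76) (nat_lit 0) (XT.lf (nat_lit 0) (nat_lit 266410796567) (nat_lit 152) (nat_lit 179563244899) (nat_lit 0) (nat_lit 179533707716) (nat_lit 189) (nat_lit 5) (nat_lit 191) (nat_lit 4) (nat_lit 189)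 (nat_lit 4) (nat_lit 347) (nat_lit 319) (nat_lit 234)) (XT.lf (nat_lit 0) (nat_lit 257620763495) (nat_lit 76) (nat_lit 257650379198) (nat_lit 76) (nat_lit 170773211827) (nat_lit 188) (nat_lit 4) (nat_lit 189) (nat_lit 5) (nat_lit 189) (nat_lit 4) (nat_lit 348) (nat_lit 319) (nat_lit 233))))))))
noncomputable def xc78 : XT := (XT.nd (nat_lit 1560) (nat_lit 1140) (nat_lit 0) (XT.nd (nat_lit 780) (nat_lit 684) (nat_lit 0) (XT.nd (nat_lit 390) (nat_lit 456) (nat_lit 0) (XT.nd (nat_lit 156) (nat_lit 228) (nat_lit 0) (XT.nd (nat_lit 78) (nat_lit 0) (nat_lit 0) (XT.lf (nat_lit 0) (nat_lit 26307095481) (nat_lit 76) (nat_lit 26336779463) (nat_lit 152) (nat_lit 701094788830) (nat_lit 186) (nat_lit 5) (nat_lit 187) (nat_lit 5) (nat_lit 188) (nat_lit 4) (nat_lit 349) (nat_lit 319) (nat_lit 232)) (XT.lf (nat_lit 0) (nat_lit 325474868235) (nat_lit 152) (nat_lit 249955258089) (nat_lit 0) (nat_lit 249929394301)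 (nat_lit 186) (nat_lit 5) (nat_lit 188) (nat_lit 4) (nat_lit 186) (nat_lit 4) (nat_lit 350) (nat_lit 319) (nat_lit 231))) (XT.nd (nat_lit 78) (nat_lit 152) (nat_lit 0) (XT.lf (nat_lit 0) (nat_lit 326999362953) (nat_lit 76) (nat_lit 327025271634) (nat_lit 76) (nat_lit 251479752806) (nat_lit 185) (nat_lit 4) (nat_lit 186) (nat_lit 5) (nat_lit 186) (nat_lit 4) (nat_lit 351) (nat_lit 319) (nat_lit 230)) (XT.nd (nat_lit 78) (nat_lit 0) (nat_lit 0) (XT.lf (nat_lit 0) (nat_lit 22875687959) (nat_lit 76) (nat_lit 22901635680) (nat_lit 152) (nat_lit 949486090042) (nat_lit 183) (nat_lit 5) (nat_lit 184) (nat_lit 5) (nat_lit 185) (nat_lit 4) (nat_lit 352) (nat_lit 319) (nat_lit 229)) (XT.lf (nat_lit 0) (nat_lit 407089679012) (nat_lit 152) (nat_lit 341420452798) (nat_lit 0) (nat_lit 341397860044) (nat_lit 183) (nat_lit 5) (nat_lit 185) (nat_lit 4) (nat_lit 183) (nat_lit 4) (nat_lit 353) (nat_lit 319) (nat_lit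 228))))) (XT.nd (nat_lit 156) (nat_lit 228) (nat_lit 0) (XT.nd (nat_lit 78) (nat_lit 152) (nat_lit 0) (XT.lf (nat_lit 0) (nat_lit 420540092405) (nat_lit 76) (nat_lit 420562710828) (nat_lit 76) (nat_lit 354870866191) (nat_lit 182) (nat_lit 4) (nat_lit 183) (nat_lit 5) (nat_lit 183) (nat_lit 4) (nat_lit 354) (nat_lit 319) (nat_lit 227)) (XT.lf (nat_lit 0) (nat_lit 19891875563) (nat_lit 76) (nat_lit 19914516306) (nat_lit 152) (nat_lit 1275076460689) (nat_lit 180) (nat_lit 5) (nat_lit 181) (nat_lit 5) (nat_lit 182) (nat_lit 4) (nat_lit 355) (nat_lit 319) (nat_lit 226))) (XT.nd (nat_lit 78) (nat_lit 228) (nat_lit 0) (XT.lf (nat_lit 0) (nat_lit 518071002822) (nat_lit 152) (nat_lit 460967327853) (nat_lit 0) (nat_lit 460947623373) (nat_lit 180) (nat_lit 5) (nat_lit 182) (nat_lit 4) (nat_lit 180) (nat_lit 4) (nat_lit 356) (nat_lit 319) (nat_lit 225)) (XT.nd (nat_lit 78) (nat_lit 152) (nat_lit 0) (XT.lf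 (nat_lit 0) (nat_lit 545802065003) (nat_lit 76) (nat_lit 545821784160) (nat_lit 76) (nat_lit 488698390035) (nat_lit 179) (nat_lit 4) (nat_lit 180) (nat_lit 5) (nat_lit 180) (nat_lit 4) (nat_lit 357) (nat_lit 319) (nat_lit 224)) (XT.lf (nat_lit 0) (nat_lit 17297267655) (nat_lit 76) (nat_lit 17316999573) (nat_lit 152) (nat_lit 1703141775721) (nat_lit 177) (nat_lit 5) (nat_lit 178) (nat_lit 5) (nat_lit 179) (nat_lit 4) (nat_lit 358) (nat_lit 319) (nat_lit 223)))))) (XT.nd (nat_lit 390) (nat_lit 380) (nat_lit 0) (XT.nd (nat_lit 156) (nat_lit 228) (nat_lit 0) (XT.nd (nat_lit 78) (nat_lit 76) (nat_lit 0) (XT.lf (nat_lit 0) (nat_lit 667492280593) (nat_lit 152) (nat_lit 617836911054) (nat_lit 0) (nat_lit 617819743215) (nat_lit 177) (nat_lit 5) (nat_lit 179) (nat_lit 4) (nat_lit 177) (nat_lit 4) (nat_lit 359) (nat_lit 319) (nat_lit 222)) (XT.lf (nat_lit 0) (nat_lit 712812629342) (nat_lit 76) (nat_lit 712829805572)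 (nat_lit 76) (nat_lit 663157259804) (nat_lit 176) (nat_lit 4) (nat_lit 177) (nat_lit 5) (nat_lit 177) (nat_lit 4) (nat_lit 360) (nat_lit 319) (nat_lit 221))) (XT.nd (nat_lit 78) (nat_lit 76) (nat_lit 0) (XT.lf (nat_lit 0) (nat_lit 15041093479) (nat_lit 76) (nat_lit 15058277006) (nat_lit 152) (nat_lit 2267059928646) (nat_lit 174) (nat_lit 5) (nat_lit 175) (nat_lit 5) (nat_lit 176) (nat_lit 4) (nat_lit 361) (nat_lit 319) (nat_lit 220)) (XT.nd (nat_lit 78) (nat_lit 76) (nat_lit 0) (XT.lf (nat_lit 0) (nat_lit 867404949933) (nat_lit 152) (nat_lit 824226367726) (nat_lit 0) (nat_lit 824211420011) (nat_lit 174) (nat_lit 5) (nat_lit 176) (nat_lit 4) (nat_lit 174) (nat_lit 4) (nat_lit 362) (nat_lit 319) (nat_lit 219)) (XT.lf (nat_lit 0) (nat_lit 934859404167) (nat_lit 76) (nat_lit 934874356679) (nat_lit 76) (nat_lit 891680821960) (nat_lit 173) (nat_lit 4) (nat_lit 174) (nat_lit 5) (nat_lit 174) (nat_lit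 4) (nat_lit 363) (nat_lit 319) (nat_lit 218))))) (XT.nd (nat_lit 156) (nat_lit 228) (nat_lit 0) (XT.nd (nat_lit 78) (nat_lit 0) (nat_lit 0) (XT.lf (nat_lit 0) (nat_lit 13079206672) (nat_lit 76) (nat_lit 13094163357) (nat_lit 152) (nat_lit 3010930179877) (nat_lit 171) (nat_lit 5) (nat_lit 172) (nat_lit 5) (nat_lit 173) (nat_lit 4) (nat_lit 364) (nat_lit 319) (nat_lit 217)) (XT.lf (nat_lit 0) (nat_lit 1133792092893) (nat_lit 152) (nat_lit 1096245499670) (nat_lit 0) (nat_lit 1096232490702) (nat_lit 171) (nat_lit 5) (nat_lit 173) (nat_lit 4) (nat_lit 171) (nat_lit 4) (nat_lit 365) (nat_lit 319) (nat_lit 216))) (XT.nd (nat_lit 78) (nat_lit 152) (nat_lit 0) (XT.lf (nat_lit 0) (nat_lit 1229538263640) (nat_lit 76) (nat_lit 1229551275351) (nat_lit 76) (nat_lit 1191991670417) (nat_lit 170) (nat_lit 4) (nat_lit 171) (nat_lit 5) (nat_lit 171) (nat_lit 4) (nat_lit 366) (nat_lit 319) (nat_lit 215)) (XT.nd (nat_lit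 78) (nat_lit 0) (nat_lit 0) (XT.lf (nat_lit 0) (nat_lit 11373220307) (nat_lit 76) (nat_lit 11386234402) (nat_lit 152) (nat_lit 3993036405148) (nat_lit 168) (nat_lit 5) (nat_lit 169) (nat_lit 5) (nat_lit 170) (nat_lit 4) (nat_lit 367) (nat_lit 319) (nat_lit 214)) (XT.lf (nat_lit 0) (nat_lit 1487830515551) (nat_lit 152) (nat_lit 1455181304052) (nat_lit 0) (nat_lit 1455169985644) (nat_lit 168) (nat_lit 5) (nat_lit 170) (nat_lit 4) (nat_lit 168) (nat_lit 4) (nat_lit 368) (nat_lit 319) (nat_lit 213))))))) (XT.nd (nat_lit 780) (nat_lit 380) (nat_lit 0) (XT.nd (nat_lit 390) (nat_lit 304) (nat_lit 0) (XT.nd (nat_lit 156) (nat_lit 228) (nat_lit 0) (XT.nd (nat_lit 78) (nat_lit 152) (nat_lit 0) (XT.lf (nat_lit 0) (nat_lit 1620139748878) (nat_lit 76) (nat_lit 1620151068855) (nat_lit 76) (nat_lit 1587490537380) (nat_lit 167) (nat_lit 4) (nat_lit 168) (nat_lit 5) (nat_lit 168) (nat_lit 4) (nat_lit 369) (nat_lit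 319) (nat_lit 212)) (XT.lf (nat_lit 0) (nat_lit 9889755138) (nat_lit 76) (nat_lit 9901076479) (nat_lit 152) (nat_lit 5290426510811) (nat_lit 165) (nat_lit 5) (nat_lit 166) (nat_lit 5) (nat_lit 167) (nat_lit 4) (nat_lit 370) (nat_lit 319) (nat_lit 211))) (XT.nd (nat_lit 78) (nat_lit 228) (nat_lit 0) (XT.lf (nat_lit 0) (nat_lit 1957560614193) (nat_lit 152) (nat_lit 1929169995498) (nat_lit 0) (nat_lit 1929160149823) (nat_lit 165) (nat_lit 5) (nat_lit 167) (nat_lit 4) (nat_lit 165) (nat_lit 4) (nat_lit 371) (nat_lit 319) (nat_lit 210)) (XT.nd (nat_lit 78) (nat_lit 152) (nat_lit 0) (XT.lf (nat_lit 0) (nat_lit 2137482989068) (nat_lit 76) (nat_lit 2137492835640) (nat_lit 76) (nat_lit 2109092370373) (nat_lit 164) (nat_lit 4) (nat_lit 165) (nat_lit 5) (nat_lit 165) (nat_lit 4) (nat_lit 372) (nat_lit 319) (nat_lit 209)) (XT.lf (nat_lit 0) (nat_lit 8599786133) (nat_lit 76) (nat_lit 8609633485) (nat_lit 152)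 (nat_lit 7004968074833) (nat_lit 162) (nat_lit 5) (nat_lit 163) (nat_lit 5) (nat_lit 164) (nat_lit 4) (nat_lit 373) (nat_lit 319) (nat_lit 208))))) (XT.nd (nat_lit 156) (nat_lit 228) (nat_lit 0) (XT.nd (nat_lit 78) (nat_lit 76) (nat_lit 0) (XT.lf (nat_lit 0) (nat_lit 2580095439570) (nat_lit 152) (nat_lit 2555407945053) (nat_lit 0) (nat_lit 2555399381549) (nat_lit 162) (nat_lit 5) (nat_lit 164) (nat_lit 4) (nat_lit 162) (nat_lit 4) (nat_lit 374) (nat_lit 319) (nat_lit 207)) (XT.lf (nat_lit 0) (nat_lit 2822341402706) (nat_lit 76) (nat_lit 2822349966722) (nat_lit 76) (nat_lit 2797653908189) (nat_lit 161) (nat_lit 4) (nat_lit 162) (nat_lit 5) (nat_lit 162) (nat_lit 4) (nat_lit 375) (nat_lit 319) (nat_lit 206))) (XT.nd (nat_lit 78) (nat_lit 76) (nat_lit 0) (XT.lf (nat_lit 0) (nat_lit 7478074359) (nat_lit 76) (nat_lit 7486638821) (nat_lit 152) (nat_lit 9271356379053) (nat_lit 159) (nat_lit 5) (nat_lit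 160) (nat_lit 5) (nat_lit 161) (nat_lit 4) (nat_lit 376) (nat_lit 319) (nat_lit 205)) (XT.nd (nat_lit 78) (nat_lit 76) (nat_lit 0) (XT.lf (nat_lit 0) (nat_lit 3404542763822) (nat_lit 152) (nat_lit 3383075377286) (nat_lit 0) (nat_lit 3383067929590) (nat_lit 159) (nat_lit 5) (nat_lit 161) (nat_lit 4) (nat_lit 159) (nat_lit 4) (nat_lit 377) (nat_lit 319) (nat_lit 204)) (XT.lf (nat_lit 0) (nat_lit 3728650983512) (nat_lit 76) (nat_lit 3728658431501) (nat_lit 76) (nat_lit 3707183596976) (nat_lit 158) (nat_lit 4) (nat_lit 159) (nat_lit 5) (nat_lit 159) (nat_lit 4) (nat_lit 378) (nat_lit 319) (nat_lit 203)))))) (XT.nd (nat_lit 42354) (nat_lit 0) (nat_lit 4560) (XT.nd (nat_lit 156) (nat_lit 228) (nat_lit 0) (XT.nd (nat_lit 78) (nat_lit 0) (nat_lit 0) (XT.lf (nat_lit 0) (nat_lit 6502673047) (nat_lit 76) (nat_lit 6510121291) (nat_lit 152) (nat_lit 12267704550909) (nat_lit 156) (nat_lit 5) (nat_lit 157) (nat_lit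 5) (nat_lit 158) (nat_lit 4) (nat_lit 379) (nat_lit 319) (nat_lit 202)) (XT.lf (nat_lit 0) (nat_lit 4495870017911) (nat_lit 152) (nat_lit 4477202725271) (nat_lit 0) (nat_lit 4477196248344) (nat_lit 156) (nat_lit 5) (nat_lit 158) (nat_lit 4) (nat_lit 156) (nat_lit 4) (nat_lit 380) (nat_lit 319) (nat_lit 201))) (XT.nd (nat_lit 78) (nat_lit 152) (nat_lit 0) (XT.lf (nat_lit 0) (nat_lit 4927753515904) (nat_lit 76) (nat_lit 4927759992998) (nat_lit 76) (nat_lit 4909086223263) (nat_lit 155) (nat_lit 4) (nat_lit 156) (nat_lit 5) (nat_lit 156) (nat_lit 4) (nat_lit 381) (nat_lit 319) (nat_lit 200)) (XT.nd (nat_lit 42042) (nat_lit 0) (nat_lit 4712) (XT.lf (nat_lit 0) (nat_lit 5654498125) (nat_lit 76) (nat_lit 5660975365) (nat_lit 152) (nat_lit 16229548607601) (nat_lit 153) (nat_lit 5) (nat_lit 154) (nat_lit 5) (nat_lit 155) (nat_lit 4) (nat_lit 382) (nat_lit 319) (nat_lit 199)) (XT.lf (nat_lit 0) (nat_lit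 10137722812) (nat_lit 380) (nat_lit 11503038244) (nat_lit 380) (nat_lit 11503038244) (nat_lit 215) (nat_lit 3) (nat_lit 220) (nat_lit 3) (nat_lit 220) (nat_lit 5) (nat_lit 320) (nat_lit 320) (nat_lit 260))))) (XT.nd (nat_lit 156) (nat_lit 152) (nat_lit 0) (XT.nd (nat_lit 78) (nat_lit 0) (nat_lit 76) (XT.lf (nat_lit 76) (nat_lit 11128454814) (nat_lit 0) (nat_lit 11142284278) (nat_lit 380) (nat_lit 48917234146) (nat_lit 216) (nat_lit 5) (nat_lit 215) (nat_lit 3) (nat_lit 220) (nat_lit 5) (nat_lit 321) (nat_lit 320) (nat_lit 259)) (XT.lf (nat_lit 0) (nat_lit 26891758338) (nat_lit 304) (nat_lit 24802581826) (nat_lit 380) (nat_lit 24780099143) (nat_lit 216) (nat_lit 5) (nat_lit 220) (nat_lit 5) (nat_lit 221) (nat_lit 5) (nat_lit 322) (nat_lit 320) (nat_lit 258))) (XT.nd (nat_lit 78) (nat_lit 228) (nat_lit 0) (XT.lf (nat_lit 76) (nat_lit 16697084074) (nat_lit 0) (nat_lit 16728659853) (nat_lit 380) (nat_lit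 48945159343) (nat_lit 217) (nat_lit 5) (nat_lit 216) (nat_lit 5) (nat_lit 221) (nat_lit 5) (nat_lit 323) (nat_lit 320) (nat_lit 257)) (XT.nd (nat_lit 78) (nat_lit 304) (nat_lit 0) (XT.lf (nat_lit 0) (nat_lit 43268463110) (nat_lit 304) (nat_lit 22784205620) (nat_lit 76) (nat_lit 22749872732) (nat_lit 217) (nat_lit 5) (nat_lit 221) (nat_lit 5) (nat_lit 218) (nat_lit 5) (nat_lit 324) (nat_lit 320) (nat_lit 256)) (XT.lf (nat_lit 0) (nat_lit 28256111944) (nat_lit 304) (nat_lit 28296423690) (nat_lit 380) (nat_lit 39351647931) (nat_lit 213) (nat_lit 5) (nat_lit 217) (nat_lit 5) (nat_lit 218) (nat_lit 5) (nat_lit 325) (nat_lit 320) (nat_lit 255))))))))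
noncomputable def xc79 : XT := (XT.nd (nat_lit 1560) (nat_lit 1596) (nat_lit 0) (XT.nd (nat_lit 780) (nat_lit 684) (nat_lit 0) (XT.nd (nat_lit 390) (nat_lit 380) (nat_lit 0) (XT.nd (nat_lit 156) (nat_lit 380) (nat_lit 0) (XT.nd (nat_lit 78) (nat_lit 152) (nat_lit 0) (XT.lf (nat_lit 0) (nat_lit 73701613948) (nat_lit 380) (nat_lit 15064086684) (nat_lit 76) (nat_lit 15024512115) (nat_lit 213) (nat_lit 5) (nat_lit 218) (nat_lit 5) (nat_lit 214) (nat_lit 5) (nat_lit 326) (nat_lit 320) (nat_lit 254)) (XT.lf (nat_lit 0) (nat_lit 48364160142) (nat_lit 152) (nat_lit 48407665908) (nat_lit 228) (nat_lit 15585004449) (nat_lit 211) (nat_lit 5) (nat_lit 213) (nat_lit 5) (nat_lit 214) (nat_lit 5) (nat_lit 327) (nat_lit 320) (nat_lit 253))) (XT.nd (nat_lit 78) (nat_lit 152) (nat_lit 0) (XT.lf (nat_lit 0) (nat_lit 905474412) (nat_lit 152) (nat_lit 952398609) (nat_lit 228) (nat_lit 120214599426) (nat_lit 208) (nat_lit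 5) (nat_lit 210) (nat_lit 5) (nat_lit 211) (nat_lit 5) (nat_lit 328) (nat_lit 320) (nat_lit 252)) (XT.nd (nat_lit 78) (nat_lit 152) (nat_lit 0) (XT.lf (nat_lit 0) (nat_lit 26045077275) (nat_lit 228) (nat_lit 53136962506) (nat_lit 76) (nat_lit 53093574030) (nat_lit 208) (nat_lit 5) (nat_lit 211) (nat_lit 5) (nat_lit 209) (nat_lit 5) (nat_lit 329) (nat_lit 320) (nat_lit 251)) (XT.lf (nat_lit 0) (nat_lit 27498853788) (nat_lit 152) (nat_lit 27544489938) (nat_lit 228) (nat_lit 88788435421) (nat_lit 206) (nat_lit 5) (nat_lit 208) (nat_lit 5) (nat_lit 209) (nat_lit 5) (nat_lit 330) (nat_lit 320) (nat_lit 250))))) (XT.nd (nat_lit 156) (nat_lit 304) (nat_lit 0) (XT.nd (nat_lit 78) (nat_lit 76) (nat_lit 0) (XT.lf (nat_lit 0) (nat_lit 92618620248) (nat_lit 228) (nat_lit 31955020847) (nat_lit 76) (nat_lit 31913637673) (nat_lit 206) (nat_lit 5) (nat_lit 209) (nat_lit 5) (nat_lit 207) (nat_lit 4) (nat_lit 331)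 (nat_lit 320) (nat_lit 249)) (XT.lf (nat_lit 0) (nat_lit 69998297270) (nat_lit 76) (nat_lit 70041158326) (nat_lit 152) (nat_lit 30370257633) (nat_lit 205) (nat_lit 5) (nat_lit 206) (nat_lit 5) (nat_lit 207) (nat_lit 4) (nat_lit 332) (nat_lit 320) (nat_lit 248))) (XT.nd (nat_lit 78) (nat_lit 76) (nat_lit 0) (XT.lf (nat_lit 0) (nat_lit 4662538730) (nat_lit 152) (nat_lit 4706684902) (nat_lit 228) (nat_lit 176709327864) (nat_lit 202) (nat_lit 5) (nat_lit 204) (nat_lit 5) (nat_lit 205) (nat_lit 5) (nat_lit 333) (nat_lit 320) (nat_lit 247)) (XT.nd (nat_lit 78) (nat_lit 76) (nat_lit 0) (XT.lf (nat_lit 0) (nat_lit 60374479776) (nat_lit 228) (nat_lit 71141768367) (nat_lit 76) (nat_lit 71102408659) (nat_lit 202) (nat_lit 5) (nat_lit 205) (nat_lit 5) (nat_lit 203) (nat_lit 4) (nat_lit 334) (nat_lit 320) (nat_lit 246)) (XT.lf (nat_lit 0) (nat_lit 60867062056) (nat_lit 76) (nat_lit 60907266747) (nat_lit 152)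 (nat_lit 99453878433) (nat_lit 201) (nat_lit 5) (nat_lit 202) (nat_lit 5) (nat_lit 203) (nat_lit 4) (nat_lit 335) (nat_lit 320) (nat_lit 245)))))) (XT.nd (nat_lit 390) (nat_lit 380) (nat_lit 0) (XT.nd (nat_lit 156) (nat_lit 152) (nat_lit 0) (XT.nd (nat_lit 78) (nat_lit 152) (nat_lit 0) (XT.lf (nat_lit 0) (nat_lit 197119628809) (nat_lit 152) (nat_lit 22417419956) (nat_lit 0) (nat_lit 22381820426) (nat_lit 201) (nat_lit 5) (nat_lit 203) (nat_lit 4) (nat_lit 201) (nat_lit 4) (nat_lit 336) (nat_lit 320) (nat_lit 244)) (XT.lf (nat_lit 0) (nat_lit 25832579637) (nat_lit 152) (nat_lit 119198317752) (nat_lit 76) (nat_lit 119162162631) (nat_lit 199) (nat_lit 5) (nat_lit 201) (nat_lit 5) (nat_lit 200) (nat_lit 4) (nat_lit 337) (nat_lit 320) (nat_lit 243))) (XT.nd (nat_lit 78) (nat_lit 76) (nat_lit 0) (XT.lf (nat_lit 0) (nat_lit 52927295415) (nat_lit 76) (nat_lit 52963933659) (nat_lit 152) (nat_lit 183084359030)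 (nat_lit 198) (nat_lit 5) (nat_lit 199) (nat_lit 5) (nat_lit 200) (nat_lit 4) (nat_lit 338) (nat_lit 320) (nat_lit 242)) (XT.nd (nat_lit 78) (nat_lit 76) (nat_lit 0) (XT.lf (nat_lit 0) (nat_lit 206676650756) (nat_lit 152) (nat_lit 54761686536) (nat_lit 0) (nat_lit 54729461884) (nat_lit 198) (nat_lit 5) (nat_lit 200) (nat_lit 4) (nat_lit 198) (nat_lit 4) (nat_lit 339) (nat_lit 320) (nat_lit 241)) (XT.lf (nat_lit 0) (nat_lit 165970716764) (nat_lit 76) (nat_lit 166003259077) (nat_lit 76) (nat_lit 14055752544) (nat_lit 197) (nat_lit 4) (nat_lit 198) (nat_lit 5) (nat_lit 198) (nat_lit 4) (nat_lit 340) (nat_lit 320) (nat_lit 240))))) (XT.nd (nat_lit 156) (nat_lit 228) (nat_lit 0) (XT.nd (nat_lit 78) (nat_lit 0) (nat_lit 0) (XT.lf (nat_lit 0) (nat_lit 46023400878) (nat_lit 76) (nat_lit 46056219418) (nat_lit 152) (nat_lit 286961333990) (nat_lit 195) (nat_lit 5) (nat_lit 196) (nat_lit 5) (nat_lit 197) (nat_lit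 4) (nat_lit 341) (nat_lit 320) (nat_lit 239)) (XT.lf (nat_lit 0) (nat_lit 226360821905) (nat_lit 152) (nat_lit 94260853018) (nat_lit 0) (nat_lit 94232106290) (nat_lit 195) (nat_lit 5) (nat_lit 197) (nat_lit 4) (nat_lit 195) (nat_lit 4) (nat_lit 342) (nat_lit 320) (nat_lit 238))) (XT.nd (nat_lit 78) (nat_lit 152) (nat_lit 0) (XT.lf (nat_lit 0) (nat_lit 195522080007) (nat_lit 76) (nat_lit 195551008359) (nat_lit 76) (nat_lit 63422111121) (nat_lit 194) (nat_lit 4) (nat_lit 195) (nat_lit 5) (nat_lit 195) (nat_lit 4) (nat_lit 343) (nat_lit 320) (nat_lit 237)) (XT.nd (nat_lit 78) (nat_lit 0) (nat_lit 0) (XT.lf (nat_lit 0) (nat_lit 40020157472) (nat_lit 76) (nat_lit 40049243757) (nat_lit 152) (nat_lit 418491197041) (nat_lit 192) (nat_lit 5) (nat_lit 193) (nat_lit 5) (nat_lit 194) (nat_lit 4) (nat_lit 344) (nat_lit 320) (nat_lit 236)) (XT.lf (nat_lit 0) (nat_lit 258519363048) (nat_lit 152) (nat_lit 143649824886)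 (nat_lit 0) (nat_lit 143624413043) (nat_lit 192) (nat_lit 5) (nat_lit 194) (nat_lit 4) (nat_lit 192) (nat_lit 4) (nat_lit 345) (nat_lit 320) (nat_lit 235))))))) (XT.nd (nat_lit 780) (nat_lit 836) (nat_lit 0) (XT.nd (nat_lit 390) (nat_lit 304) (nat_lit 0) (XT.nd (nat_lit 156) (nat_lit 228) (nat_lit 0) (XT.nd (nat_lit 78) (nat_lit 152) (nat_lit 0) (XT.lf (nat_lit 0) (nat_lit 237730991541) (nat_lit 76) (nat_lit 237756507227) (nat_lit 76) (nat_lit 122861453379) (nat_lit 191) (nat_lit 4) (nat_lit 192) (nat_lit 5) (nat_lit 192) (nat_lit 4) (nat_lit 346) (nat_lit 320) (nat_lit 234)) (XT.lf (nat_lit 0) (nat_lit 34800027660) (nat_lit 76) (nat_lit 34825633645) (nat_lit 152) (nat_lit 587354606210) (nat_lit 189) (nat_lit 5) (nat_lit 190) (nat_lit 5) (nat_lit 191) (nat_lit 4) (nat_lit 347) (nat_lit 320) (nat_lit 233))) (XT.nd (nat_lit 78) (nat_lit 228) (nat_lit 0) (XT.lf (nat_lit 0) (nat_lit 306376259736) (nat_lit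 152) (nat_lit 206489704812) (nat_lit 0) (nat_lit 206467370459) (nat_lit 189) (nat_lit 5) (nat_lit 191) (nat_lit 4) (nat_lit 189) (nat_lit 4) (nat_lit 348) (nat_lit 320) (nat_lit 232)) (XT.nd (nat_lit 78) (nat_lit 152) (nat_lit 0) (XT.lf (nat_lit 0) (nat_lit 296271539985) (nat_lit 76) (nat_lit 296293933711) (nat_lit 76) (nat_lit 196384985061) (nat_lit 188) (nat_lit 4) (nat_lit 189) (nat_lit 5) (nat_lit 189) (nat_lit 4) (nat_lit 349) (nat_lit 320) (nat_lit 231)) (XT.lf (nat_lit 0) (nat_lit 30260831141) (nat_lit 76) (nat_lit 30283276496) (nat_lit 152) (nat_lit 806254807986) (nat_lit 186) (nat_lit 5) (nat_lit 187) (nat_lit 5) (nat_lit 188) (nat_lit 4) (nat_lit 350) (nat_lit 320) (nat_lit 230))))) (XT.nd (nat_lit 156) (nat_lit 228) (nat_lit 0) (XT.nd (nat_lit 78) (nat_lit 76) (nat_lit 0) (XT.lf (nat_lit 0) (nat_lit 374299418388) (nat_lit 152) (nat_lit 287441544541) (nat_lit 0) (nat_lit 287421987802)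 (nat_lit 186) (nat_lit 5) (nat_lit 188) (nat_lit 4) (nat_lit 186) (nat_lit 4) (nat_lit 351) (nat_lit 320) (nat_lit 229)) (XT.lf (nat_lit 0) (nat_lit 376055951372) (nat_lit 76) (nat_lit 376075542057) (nat_lit 76) (nat_lit 289198077525) (nat_lit 185) (nat_lit 4) (nat_lit 186) (nat_lit 5) (nat_lit 186) (nat_lit 4) (nat_lit 352) (nat_lit 320) (nat_lit 228))) (XT.nd (nat_lit 78) (nat_lit 76) (nat_lit 0) (XT.lf (nat_lit 0) (nat_lit 26313730488) (nat_lit 76) (nat_lit 26333350692) (nat_lit 152) (nat_lit 1091905370704) (nat_lit 183) (nat_lit 5) (nat_lit 184) (nat_lit 5) (nat_lit 185) (nat_lit 4) (nat_lit 353) (nat_lit 320) (nat_lit 227)) (XT.nd (nat_lit 78) (nat_lit 76) (nat_lit 0) (XT.lf (nat_lit 0) (nat_lit 468156004933) (nat_lit 152) (nat_lit 392627418979) (nat_lit 0) (nat_lit 392610335611) (nat_lit 183) (nat_lit 5) (nat_lit 185) (nat_lit 4) (nat_lit 183) (nat_lit 4) (nat_lit 354) (nat_lit 320) (nat_lit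 226)) (XT.lf (nat_lit 0) (nat_lit 483626930653) (nat_lit 76) (nat_lit 483644033430) (nat_lit 76) (nat_lit 408098344699) (nat_lit 182) (nat_lit 4) (nat_lit 183) (nat_lit 5) (nat_lit 183) (nat_lit 4) (nat_lit 355) (nat_lit 320) (nat_lit 225)))))) (XT.nd (nat_lit 390) (nat_lit 456) (nat_lit 0) (XT.nd (nat_lit 156) (nat_lit 228) (nat_lit 0) (XT.nd (nat_lit 78) (nat_lit 0) (nat_lit 0) (XT.lf (nat_lit 0) (nat_lit 22881484348) (nat_lit 76) (nat_lit 22898604003) (nat_lit 152) (nat_lit 1466334781436) (nat_lit 180) (nat_lit 5) (nat_lit 181) (nat_lit 5) (nat_lit 182) (nat_lit 4) (nat_lit 356) (nat_lit 320) (nat_lit 224)) (XT.lf (nat_lit 0) (nat_lit 595784145107) (nat_lit 152) (nat_lit 530107113843) (nat_lit 0) (nat_lit 530092214425) (nat_lit 180) (nat_lit 5) (nat_lit 182) (nat_lit 4) (nat_lit 180) (nat_lit 4) (nat_lit 357) (nat_lit 320) (nat_lit 223))) (XT.nd (nat_lit 78) (nat_lit 152) (nat_lit 0) (XT.lf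 (nat_lit 0) (nat_lit 627677446433) (nat_lit 76) (nat_lit 627692356949) (nat_lit 76) (nat_lit 562000415169) (nat_lit 179) (nat_lit 4) (nat_lit 180) (nat_lit 5) (nat_lit 180) (nat_lit 4) (nat_lit 358) (nat_lit 320) (nat_lit 222)) (XT.nd (nat_lit 78) (nat_lit 0) (nat_lit 0) (XT.lf (nat_lit 0) (nat_lit 19896931234) (nat_lit 76) (nat_lit 19911851399) (nat_lit 152) (nat_lit 1958610310461) (nat_lit 177) (nat_lit 5) (nat_lit 178) (nat_lit 5) (nat_lit 179) (nat_lit 4) (nat_lit 359) (nat_lit 320) (nat_lit 221)) (XT.lf (nat_lit 0) (nat_lit 767618285328) (nat_lit 152) (nat_lit 710507823360) (nat_lit 0) (nat_lit 710494842006) (nat_lit 177) (nat_lit 5) (nat_lit 179) (nat_lit 4) (nat_lit 177) (nat_lit 4) (nat_lit 360) (nat_lit 320) (nat_lit 220))))) (XT.nd (nat_lit 156) (nat_lit 228) (nat_lit 0) (XT.nd (nat_lit 78) (nat_lit 152) (nat_lit 0) (XT.lf (nat_lit 0) (nat_lit 819738937898) (nat_lit 76) (nat_lit 819751925596)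 (nat_lit 76) (nat_lit 762628475930) (nat_lit 176) (nat_lit 4) (nat_lit 177) (nat_lit 5) (nat_lit 177) (nat_lit 4) (nat_lit 361) (nat_lit 320) (nat_lit 219)) (XT.lf (nat_lit 0) (nat_lit 17301672657) (nat_lit 76) (nat_lit 17314665873) (nat_lit 152) (nat_lit 2607116546100) (nat_lit 174) (nat_lit 5) (nat_lit 175) (nat_lit 5) (nat_lit 176) (nat_lit 4) (nat_lit 362) (nat_lit 320) (nat_lit 218))) (XT.nd (nat_lit 78) (nat_lit 228) (nat_lit 0) (XT.lf (nat_lit 0) (nat_lit 997517570590) (nat_lit 152) (nat_lit 947856299313) (nat_lit 0) (nat_lit 947844996693) (nat_lit 174) (nat_lit 5) (nat_lit 176) (nat_lit 4) (nat_lit 174) (nat_lit 4) (nat_lit 363) (nat_lit 320) (nat_lit 217)) (XT.nd (nat_lit 78) (nat_lit 152) (nat_lit 0) (XT.lf (nat_lit 0) (nat_lit 1075092155474) (nat_lit 76) (nat_lit 1075103461722) (nat_lit 76) (nat_lit 1025430884197) (nat_lit 173) (nat_lit 4) (nat_lit 174) (nat_lit 5) (nat_lit 174) (nat_lit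 4) (nat_lit 364) (nat_lit 320) (nat_lit 216)) (XT.lf (nat_lit 0) (nat_lit 15044928928) (nat_lit 76) (nat_lit 15056238330) (nat_lit 152) (nat_lit 3462567646374) (nat_lit 171) (nat_lit 5) (nat_lit 172) (nat_lit 5) (nat_lit 173) (nat_lit 4) (nat_lit 365) (nat_lit 320) (nat_lit 215))))))))
noncomputable def xc80 : XT := (XT.nd (nat_lit 43602) (nat_lit 0) (nat_lit 3040) (XT.nd (nat_lit 780) (nat_lit 532) (nat_lit 0) (XT.nd (nat_lit 390) (nat_lit 380) (nat_lit 0) (XT.nd (nat_lit 156) (nat_lit 228) (nat_lit 0) (XT.nd (nat_lit 78) (nat_lit 76) (nat_lit 0) (XT.lf (nat_lit 0) (nat_lit 1303862538646) (nat_lit 152) (nat_lit 1260678824492) (nat_lit 0) (nat_lit 1260668987844) (nat_lit 171) (nat_lit 5) (nat_lit 173) (nat_lit 4) (nat_lit 171) (nat_lit 4) (nat_lit 366) (nat_lit 320) (nat_lit 214)) (XT.lf (nat_lit 0) (nat_lit 1413972344218) (nat_lit 76) (nat_lit 1413982182940) (nat_lit 76) (nat_lit 1370788630064)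 (nat_lit 170) (nat_lit 4) (nat_lit 171) (nat_lit 5) (nat_lit 171) (nat_lit 4) (nat_lit 367) (nat_lit 320) (nat_lit 213))) (XT.nd (nat_lit 78) (nat_lit 76) (nat_lit 0) (XT.lf (nat_lit 0) (nat_lit 13082544711) (nat_lit 76) (nat_lit 13092385237) (nat_lit 152) (nat_lit 4591990075332) (nat_lit 168) (nat_lit 5) (nat_lit 169) (nat_lit 5) (nat_lit 170) (nat_lit 4) (nat_lit 368) (nat_lit 320) (nat_lit 212)) (XT.nd (nat_lit 78) (nat_lit 76) (nat_lit 0) (XT.lf (nat_lit 0) (nat_lit 1711006511074) (nat_lit 152) (nat_lit 1673455455288) (nat_lit 0) (nat_lit 1673446896945) (nat_lit 168) (nat_lit 5) (nat_lit 170) (nat_lit 4) (nat_lit 168) (nat_lit 4) (nat_lit 369) (nat_lit 320) (nat_lit 211)) (XT.lf (nat_lit 0) (nat_lit 1863163617202) (nat_lit 76) (nat_lit 1863172176731) (nat_lit 76) (nat_lit 1825612561416) (nat_lit 167) (nat_lit 4) (nat_lit 168) (nat_lit 5) (nat_lit 168) (nat_lit 4) (nat_lit 370) (nat_lit 320)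 (nat_lit 210))))) (XT.nd (nat_lit 156) (nat_lit 228) (nat_lit 0) (XT.nd (nat_lit 78) (nat_lit 0) (nat_lit 0) (XT.lf (nat_lit 0) (nat_lit 11376124588) (nat_lit 76) (nat_lit 11384685148) (nat_lit 152) (nat_lit 6083988931050) (nat_lit 165) (nat_lit 5) (nat_lit 166) (nat_lit 5) (nat_lit 167) (nat_lit 4) (nat_lit 371) (nat_lit 320) (nat_lit 209)) (XT.lf (nat_lit 0) (nat_lit 2251195939083) (nat_lit 152) (nat_lit 2218542847095) (nat_lit 0) (nat_lit 2218535402350) (nat_lit 165) (nat_lit 5) (nat_lit 167) (nat_lit 4) (nat_lit 165) (nat_lit 4) (nat_lit 372) (nat_lit 320) (nat_lit 208))) (XT.nd (nat_lit 78) (nat_lit 152) (nat_lit 0) (XT.lf (nat_lit 0) (nat_lit 2458107964805) (nat_lit 76) (nat_lit 2458115410228) (nat_lit 76) (nat_lit 2425454872817) (nat_lit 164) (nat_lit 4) (nat_lit 165) (nat_lit 5) (nat_lit 165) (nat_lit 4) (nat_lit 373) (nat_lit 320) (nat_lit 207)) (XT.nd (nat_lit 78) (nat_lit 0) (nat_lit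 0) (XT.lf (nat_lit 0) (nat_lit 9892281537) (nat_lit 76) (nat_lit 9899727549) (nat_lit 152) (nat_lit 8055711933053) (nat_lit 162) (nat_lit 5) (nat_lit 163) (nat_lit 5) (nat_lit 164) (nat_lit 4) (nat_lit 374) (nat_lit 320) (nat_lit 206)) (XT.lf (nat_lit 0) (nat_lit 2967110827216) (nat_lit 152) (nat_lit 2938716834183) (nat_lit 0) (nat_lit 2938710358944) (nat_lit 162) (nat_lit 5) (nat_lit 164) (nat_lit 4) (nat_lit 162) (nat_lit 4) (nat_lit 375) (nat_lit 320) (nat_lit 205)))))) (XT.nd (nat_lit 390) (nat_lit 76) (nat_lit 0) (XT.nd (nat_lit 156) (nat_lit 228) (nat_lit 0) (XT.nd (nat_lit 78) (nat_lit 152) (nat_lit 0) (XT.lf (nat_lit 0) (nat_lit 3245694811075) (nat_lit 76) (nat_lit 3245701286702) (nat_lit 76) (nat_lit 3217300818042) (nat_lit 161) (nat_lit 4) (nat_lit 162) (nat_lit 5) (nat_lit 162) (nat_lit 4) (nat_lit 376) (nat_lit 320) (nat_lit 204)) (XT.lf (nat_lit 0) (nat_lit 8601983537) (nat_lit 76)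 (nat_lit 8608459501) (nat_lit 152) (nat_lit 10662058659598) (nat_lit 159) (nat_lit 5) (nat_lit 160) (nat_lit 5) (nat_lit 161) (nat_lit 4) (nat_lit 377) (nat_lit 320) (nat_lit 203))) (XT.nd (nat_lit 78) (nat_lit 228) (nat_lit 0) (XT.lf (nat_lit 0) (nat_lit 3915225110171) (nat_lit 152) (nat_lit 3890534681447) (nat_lit 0) (nat_lit 3890529049919) (nat_lit 159) (nat_lit 5) (nat_lit 161) (nat_lit 4) (nat_lit 159) (nat_lit 4) (nat_lit 378) (nat_lit 320) (nat_lit 202)) (XT.nd (nat_lit 78) (nat_lit 152) (nat_lit 0) (XT.lf (nat_lit 0) (nat_lit 4287950542451) (nat_lit 76) (nat_lit 4287956174201) (nat_lit 76) (nat_lit 4263260113727) (nat_lit 158) (nat_lit 4) (nat_lit 159) (nat_lit 5) (nat_lit 159) (nat_lit 4) (nat_lit 379) (nat_lit 320) (nat_lit 201)) (XT.lf (nat_lit 0) (nat_lit 7479985451) (nat_lit 76) (nat_lit 7485617394) (nat_lit 152) (nat_lit 14107859210785) (nat_lit 156) (nat_lit 5) (nat_lit 157) (nat_lit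 5) (nat_lit 158) (nat_lit 4) (nat_lit 380) (nat_lit 320) (nat_lit 200))))) (XT.nd (nat_lit 42198) (nat_lit 0) (nat_lit 4560) (XT.nd (nat_lit 78) (nat_lit 76) (nat_lit 0) (XT.lf (nat_lit 0) (nat_lit 5170251330754) (nat_lit 152) (nat_lit 5148781392733) (nat_lit 0) (nat_lit 5148776495246) (nat_lit 156) (nat_lit 5) (nat_lit 158) (nat_lit 4) (nat_lit 156) (nat_lit 4) (nat_lit 381) (nat_lit 320) (nat_lit 199)) (XT.lf (nat_lit 0) (nat_lit 5666918205467) (nat_lit 76) (nat_lit 5666923103081) (nat_lit 76) (nat_lit 5645448267446) (nat_lit 155) (nat_lit 4) (nat_lit 156) (nat_lit 5) (nat_lit 156) (nat_lit 4) (nat_lit 382) (nat_lit 320) (nat_lit 198))) (XT.nd (nat_lit 78) (nat_lit 0) (nat_lit 0) (XT.lf (nat_lit 0) (nat_lit 11671638049) (nat_lit 380) (nat_lit 13220871311) (nat_lit 380) (nat_lit 13220871311) (nat_lit 215) (nat_lit 3) (nat_lit 220) (nat_lit 3) (nat_lit 220) (nat_lit 5) (nat_lit 321) (nat_lit 321)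 (nat_lit 258)) (XT.nd (nat_lit 78) (nat_lit 0) (nat_lit 76) (XT.lf (nat_lit 76) (nat_lit 12812275404) (nat_lit 0) (nat_lit 12822732465) (nat_lit 380) (nat_lit 56227612667) (nat_lit 216) (nat_lit 5) (nat_lit 215) (nat_lit 3) (nat_lit 220) (nat_lit 5) (nat_lit 322) (nat_lit 321) (nat_lit 257)) (XT.lf (nat_lit 0) (nat_lit 30945766326) (nat_lit 304) (nat_lit 28506901190) (nat_lit 380) (nat_lit 28489901052) (nat_lit 216) (nat_lit 5) (nat_lit 220) (nat_lit 5) (nat_lit 221) (nat_lit 5) (nat_lit 323) (nat_lit 321) (nat_lit 256))))))) (XT.nd (nat_lit 780) (nat_lit 760) (nat_lit 0) (XT.nd (nat_lit 390) (nat_lit 456) (nat_lit 0) (XT.nd (nat_lit 156) (nat_lit 380) (nat_lit 0) (XT.nd (nat_lit 78) (nat_lit 0) (nat_lit 76) (XT.lf (nat_lit 76) (nat_lit 19216984235) (nat_lit 0) (nat_lit 19240860061) (nat_lit 380) (nat_lit 56265958647) (nat_lit 217) (nat_lit 5) (nat_lit 216) (nat_lit 5) (nat_lit 221) (nat_lit 5)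 (nat_lit 324) (nat_lit 321) (nat_lit 255)) (XT.lf (nat_lit 0) (nat_lit 49774487921) (nat_lit 304) (nat_lit 26186016028) (nat_lit 76) (nat_lit 26160055432) (nat_lit 217) (nat_lit 5) (nat_lit 221) (nat_lit 5) (nat_lit 218) (nat_lit 5) (nat_lit 325) (nat_lit 321) (nat_lit 254))) (XT.nd (nat_lit 78) (nat_lit 152) (nat_lit 0) (XT.lf (nat_lit 0) (nat_lit 32509630060) (nat_lit 304) (nat_lit 32540111532) (nat_lit 380) (nat_lit 45237920666) (nat_lit 213) (nat_lit 5) (nat_lit 217) (nat_lit 5) (nat_lit 218) (nat_lit 5) (nat_lit 326) (nat_lit 321) (nat_lit 253)) (XT.nd (nat_lit 78) (nat_lit 152) (nat_lit 0) (XT.lf (nat_lit 0) (nat_lit 84769341026) (nat_lit 380) (nat_lit 17308727472) (nat_lit 76) (nat_lit 17278803413) (nat_lit 213) (nat_lit 5) (nat_lit 218) (nat_lit 5) (nat_lit 214) (nat_lit 5) (nat_lit 327) (nat_lit 321) (nat_lit 252)) (XT.lf (nat_lit 0) (nat_lit 55633075823) (nat_lit 152) (nat_lit 55665972432)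 (nat_lit 228) (nat_lit 17909589575) (nat_lit 211) (nat_lit 5) (nat_lit 213) (nat_lit 5) (nat_lit 214) (nat_lit 5) (nat_lit 328) (nat_lit 321) (nat_lit 251))))) (XT.nd (nat_lit 156) (nat_lit 228) (nat_lit 0) (XT.nd (nat_lit 78) (nat_lit 0) (nat_lit 0) (XT.lf (nat_lit 0) (nat_lit 1056056422) (nat_lit 152) (nat_lit 1091537857) (nat_lit 228) (nat_lit 138234092989) (nat_lit 208) (nat_lit 5) (nat_lit 210) (nat_lit 5) (nat_lit 211) (nat_lit 5) (nat_lit 329) (nat_lit 321) (nat_lit 250)) (XT.lf (nat_lit 0) (nat_lit 29961573097) (nat_lit 228) (nat_lit 61093365286) (nat_lit 76) (nat_lit 61060557365) (nat_lit 208) (nat_lit 5) (nat_lit 211) (nat_lit 5) (nat_lit 209) (nat_lit 5) (nat_lit 330) (nat_lit 321) (nat_lit 249))) (XT.nd (nat_lit 78) (nat_lit 76) (nat_lit 0) (XT.lf (nat_lit 0) (nat_lit 31637180652) (nat_lit 152) (nat_lit 31671688138) (nat_lit 228) (nat_lit 102096323704) (nat_lit 206) (nat_lit 5) (nat_lit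 208) (nat_lit 5) (nat_lit 209) (nat_lit 5) (nat_lit 331) (nat_lit 321) (nat_lit 248)) (XT.nd (nat_lit 78) (nat_lit 76) (nat_lit 0) (XT.lf (nat_lit 0) (nat_lit 106519420952) (nat_lit 228) (nat_lit 36735520053) (nat_lit 76) (nat_lit 36704228428) (nat_lit 206) (nat_lit 5) (nat_lit 209) (nat_lit 5) (nat_lit 207) (nat_lit 4) (nat_lit 332) (nat_lit 321) (nat_lit 247)) (XT.lf (nat_lit 0) (nat_lit 80510216058) (nat_lit 76) (nat_lit 80542625174) (nat_lit 152) (nat_lit 34917208887) (nat_lit 205) (nat_lit 5) (nat_lit 206) (nat_lit 5) (nat_lit 207) (nat_lit 4) (nat_lit 333) (nat_lit 321) (nat_lit 246)))))) (XT.nd (nat_lit 390) (nat_lit 304) (nat_lit 0) (XT.nd (nat_lit 156) (nat_lit 228) (nat_lit 0) (XT.nd (nat_lit 78) (nat_lit 0) (nat_lit 0) (XT.lf (nat_lit 0) (nat_lit 5374270123) (nat_lit 152) (nat_lit 5407650971) (nat_lit 228) (nat_lit 203207316039) (nat_lit 202) (nat_lit 5) (nat_lit 204) (nat_lit 5) (nat_lit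 205) (nat_lit 5) (nat_lit 334) (nat_lit 321) (nat_lit 245)) (XT.lf (nat_lit 0) (nat_lit 69437193025) (nat_lit 228) (nat_lit 81801521349) (nat_lit 76) (nat_lit 81771759756) (nat_lit 202) (nat_lit 5) (nat_lit 205) (nat_lit 5) (nat_lit 203) (nat_lit 4) (nat_lit 335) (nat_lit 321) (nat_lit 244))) (XT.nd (nat_lit 78) (nat_lit 152) (nat_lit 0) (XT.lf (nat_lit 0) (nat_lit 70008110351) (nat_lit 76) (nat_lit 70038510874) (nat_lit 152) (nat_lit 114364895631) (nat_lit 201) (nat_lit 5) (nat_lit 202) (nat_lit 5) (nat_lit 203) (nat_lit 4) (nat_lit 336) (nat_lit 321) (nat_lit 243)) (XT.nd (nat_lit 78) (nat_lit 152) (nat_lit 0) (XT.lf (nat_lit 0) (nat_lit 226693089443) (nat_lit 152) (nat_lit 25769850520) (nat_lit 0) (nat_lit 25742932160) (nat_lit 201) (nat_lit 5) (nat_lit 203) (nat_lit 4) (nat_lit 201) (nat_lit 4) (nat_lit 337) (nat_lit 321) (nat_lit 242)) (XT.lf (nat_lit 0) (nat_lit 29712913428) (nat_lit 152)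 (nat_lit 137067813518) (nat_lit 76) (nat_lit 137040475052) (nat_lit 199) (nat_lit 5) (nat_lit 201) (nat_lit 5) (nat_lit 200) (nat_lit 4) (nat_lit 338) (nat_lit 321) (nat_lit 241))))) (XT.nd (nat_lit 156) (nat_lit 228) (nat_lit 0) (XT.nd (nat_lit 78) (nat_lit 0) (nat_lit 0) (XT.lf (nat_lit 0) (nat_lit 60876175630) (nat_lit 76) (nat_lit 60903879406) (nat_lit 152) (nat_lit 210541100044) (nat_lit 198) (nat_lit 5) (nat_lit 199) (nat_lit 5) (nat_lit 200) (nat_lit 4) (nat_lit 339) (nat_lit 321) (nat_lit 240)) (XT.lf (nat_lit 0) (nat_lit 237682786553) (nat_lit 152) (nat_lit 62966926619) (nat_lit 0) (nat_lit 62942560153) (nat_lit 198) (nat_lit 5) (nat_lit 200) (nat_lit 4) (nat_lit 198) (nat_lit 4) (nat_lit 340) (nat_lit 321) (nat_lit 239))) (XT.nd (nat_lit 78) (nat_lit 152) (nat_lit 0) (XT.lf (nat_lit 0) (nat_lit 190874927499) (nat_lit 76) (nat_lit 190899534163) (nat_lit 76) (nat_lit 16159067565) (nat_lit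 197) (nat_lit 4) (nat_lit 198) (nat_lit 5) (nat_lit 198) (nat_lit 4) (nat_lit 341) (nat_lit 321) (nat_lit 238)) (XT.nd (nat_lit 78) (nat_lit 0) (nat_lit 0) (XT.lf (nat_lit 0) (nat_lit 52935552143) (nat_lit 76) (nat_lit 52960367674) (nat_lit 152) (nat_lit 330000524141) (nat_lit 195) (nat_lit 5) (nat_lit 196) (nat_lit 5) (nat_lit 197) (nat_lit 4) (nat_lit 342) (nat_lit 321) (nat_lit 237)) (XT.lf (nat_lit 0) (nat_lit 260318887708) (nat_lit 152) (nat_lit 108392052983) (nat_lit 0) (nat_lit 108370316327) (nat_lit 195) (nat_lit 5) (nat_lit 197) (nat_lit 4) (nat_lit 195) (nat_lit 4) (nat_lit 343) (nat_lit 321) (nat_lit 236))))))))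
noncomputable def xc81 : XT := (XT.nd (nat_lit 1560) (nat_lit 1368) (nat_lit 0) (XT.nd (nat_lit 780) (nat_lit 836) (nat_lit 0) (XT.nd (nat_lit 390) (nat_lit 304) (nat_lit 0) (XT.nd (nat_lit 156) (nat_lit 228) (nat_lit 0) (XT.nd (nat_lit 78) (nat_lit 152) (nat_lit 0) (XT.lf (nat_lit 0) (nat_lit 224857959633) (nat_lit 76) (nat_lit 224879833623) (nat_lit 76) (nat_lit 72931124909) (nat_lit 194) (nat_lit 4) (nat_lit 195) (nat_lit 5) (nat_lit 195) (nat_lit 4) (nat_lit 344) (nat_lit 321) (nat_lit 235)) (XT.lf (nat_lit 0) (nat_lit 46030770394) (nat_lit 76) (nat_lit 46052763805) (nat_lit 152) (nat_lit 481260595394) (nat_lit 192) (nat_lit 5) (nat_lit 193) (nat_lit 5) (nat_lit 194) (nat_lit 4) (nat_lit 345) (nat_lit 321) (nat_lit 234))) (XT.nd (nat_lit 78) (nat_lit 228) (nat_lit 0) (XT.lf (nat_lit 0) (nat_lit 297300643931) (nat_lit 152) (nat_lit 165190352866) (nat_lit 0) (nat_lit 165171137863) (nat_lit 192)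 (nat_lit 5) (nat_lit 194) (nat_lit 4) (nat_lit 192) (nat_lit 4) (nat_lit 346) (nat_lit 321) (nat_lit 233)) (XT.nd (nat_lit 78) (nat_lit 152) (nat_lit 0) (XT.lf (nat_lit 0) (nat_lit 273397270308) (nat_lit 76) (nat_lit 273416563833) (nat_lit 76) (nat_lit 141286979243) (nat_lit 191) (nat_lit 4) (nat_lit 192) (nat_lit 5) (nat_lit 192) (nat_lit 4) (nat_lit 347) (nat_lit 321) (nat_lit 232)) (XT.lf (nat_lit 0) (nat_lit 40026674239) (nat_lit 76) (nat_lit 40046036043) (nat_lit 152) (nat_lit 675454117393) (nat_lit 189) (nat_lit 5) (nat_lit 190) (nat_lit 5) (nat_lit 191) (nat_lit 4) (nat_lit 348) (nat_lit 321) (nat_lit 231))))) (XT.nd (nat_lit 156) (nat_lit 228) (nat_lit 0) (XT.nd (nat_lit 78) (nat_lit 76) (nat_lit 0) (XT.lf (nat_lit 0) (nat_lit 352335605073) (nat_lit 152) (nat_lit 237457091104) (nat_lit 0) (nat_lit 237440203124) (nat_lit 189) (nat_lit 5) (nat_lit 191) (nat_lit 4) (nat_lit 189) (nat_lit 4)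 (nat_lit 349) (nat_lit 321) (nat_lit 230)) (XT.lf (nat_lit 0) (nat_lit 340718064530) (nat_lit 76) (nat_lit 340734997404) (nat_lit 76) (nat_lit 225839550560) (nat_lit 188) (nat_lit 4) (nat_lit 189) (nat_lit 5) (nat_lit 189) (nat_lit 4) (nat_lit 350) (nat_lit 321) (nat_lit 229))) (XT.nd (nat_lit 78) (nat_lit 76) (nat_lit 0) (XT.lf (nat_lit 0) (nat_lit 34805756445) (nat_lit 76) (nat_lit 34822728358) (nat_lit 152) (nat_lit 927189854010) (nat_lit 186) (nat_lit 5) (nat_lit 187) (nat_lit 5) (nat_lit 188) (nat_lit 4) (nat_lit 351) (nat_lit 321) (nat_lit 228)) (XT.nd (nat_lit 78) (nat_lit 76) (nat_lit 0) (XT.lf (nat_lit 0) (nat_lit 430446841481) (nat_lit 152) (nat_lit 330552481507) (nat_lit 0) (nat_lit 330537693803) (nat_lit 186) (nat_lit 5) (nat_lit 188) (nat_lit 4) (nat_lit 186) (nat_lit 4) (nat_lit 352) (nat_lit 321) (nat_lit 227)) (XT.lf (nat_lit 0) (nat_lit 432469398124) (nat_lit 76) (nat_lit 432484211497)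 (nat_lit 76) (nat_lit 332575038150) (nat_lit 185) (nat_lit 4) (nat_lit 186) (nat_lit 5) (nat_lit 186) (nat_lit 4) (nat_lit 353) (nat_lit 321) (nat_lit 226)))))) (XT.nd (nat_lit 390) (nat_lit 456) (nat_lit 0) (XT.nd (nat_lit 156) (nat_lit 228) (nat_lit 0) (XT.nd (nat_lit 78) (nat_lit 0) (nat_lit 0) (XT.lf (nat_lit 0) (nat_lit 30265848159) (nat_lit 76) (nat_lit 30280683852) (nat_lit 152) (nat_lit 1255688429358) (nat_lit 183) (nat_lit 5) (nat_lit 184) (nat_lit 5) (nat_lit 185) (nat_lit 4) (nat_lit 354) (nat_lit 321) (nat_lit 225)) (XT.lf (nat_lit 0) (nat_lit 538381578881) (nat_lit 152) (nat_lit 451516918035) (nat_lit 0) (nat_lit 451504000554) (nat_lit 183) (nat_lit 5) (nat_lit 185) (nat_lit 4) (nat_lit 183) (nat_lit 4) (nat_lit 355) (nat_lit 321) (nat_lit 224))) (XT.nd (nat_lit 78) (nat_lit 152) (nat_lit 0) (XT.lf (nat_lit 0) (nat_lit 556175374324) (nat_lit 76) (nat_lit 556188306481) (nat_lit 76)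 (nat_lit 469310713478) (nat_lit 182) (nat_lit 4) (nat_lit 183) (nat_lit 5) (nat_lit 183) (nat_lit 4) (nat_lit 356) (nat_lit 321) (nat_lit 223)) (XT.nd (nat_lit 78) (nat_lit 0) (nat_lit 0) (XT.lf (nat_lit 0) (nat_lit 26318113391) (nat_lit 76) (nat_lit 26331058309) (nat_lit 152) (nat_lit 1686282618042) (nat_lit 180) (nat_lit 5) (nat_lit 181) (nat_lit 5) (nat_lit 182) (nat_lit 4) (nat_lit 357) (nat_lit 321) (nat_lit 222)) (XT.lf (nat_lit 0) (nat_lit 685153651079) (nat_lit 152) (nat_lit 609619163386) (nat_lit 0) (nat_lit 609607897286) (nat_lit 180) (nat_lit 5) (nat_lit 182) (nat_lit 4) (nat_lit 180) (nat_lit 4) (nat_lit 358) (nat_lit 321) (nat_lit 221))))) (XT.nd (nat_lit 156) (nat_lit 228) (nat_lit 0) (XT.nd (nat_lit 78) (nat_lit 152) (nat_lit 0) (XT.lf (nat_lit 0) (nat_lit 721832898316) (nat_lit 76) (nat_lit 721844172808) (nat_lit 76) (nat_lit 646298410624) (nat_lit 179) (nat_lit 4) (nat_lit 180)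 (nat_lit 5) (nat_lit 180) (nat_lit 4) (nat_lit 359) (nat_lit 321) (nat_lit 220)) (XT.lf (nat_lit 0) (nat_lit 22885307162) (nat_lit 76) (nat_lit 22896588950) (nat_lit 152) (nat_lit 2252399791534) (nat_lit 177) (nat_lit 5) (nat_lit 178) (nat_lit 5) (nat_lit 179) (nat_lit 4) (nat_lit 360) (nat_lit 321) (nat_lit 219))) (XT.nd (nat_lit 78) (nat_lit 228) (nat_lit 0) (XT.lf (nat_lit 0) (nat_lit 882762663399) (nat_lit 152) (nat_lit 817080500188) (nat_lit 0) (nat_lit 817070684420) (nat_lit 177) (nat_lit 5) (nat_lit 179) (nat_lit 4) (nat_lit 177) (nat_lit 4) (nat_lit 361) (nat_lit 321) (nat_lit 218)) (XT.nd (nat_lit 78) (nat_lit 152) (nat_lit 0) (XT.lf (nat_lit 0) (nat_lit 942703116319) (nat_lit 76) (nat_lit 942712936884) (nat_lit 76) (nat_lit 877020953108) (nat_lit 176) (nat_lit 4) (nat_lit 177) (nat_lit 5) (nat_lit 177) (nat_lit 4) (nat_lit 362) (nat_lit 321) (nat_lit 217)) (XT.lf (nat_lit 0) (nat_lit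 19900262049) (nat_lit 76) (nat_lit 19910086786) (nat_lit 152) (nat_lit 2998182234561) (nat_lit 174) (nat_lit 5) (nat_lit 175) (nat_lit 5) (nat_lit 176) (nat_lit 4) (nat_lit 363) (nat_lit 321) (nat_lit 216))))))) (XT.nd (nat_lit 780) (nat_lit 684) (nat_lit 0) (XT.nd (nat_lit 390) (nat_lit 380) (nat_lit 0) (XT.nd (nat_lit 156) (nat_lit 228) (nat_lit 0) (XT.nd (nat_lit 78) (nat_lit 76) (nat_lit 0) (XT.lf (nat_lit 0) (nat_lit 1147146626342) (nat_lit 152) (nat_lit 1090031701811) (nat_lit 0) (nat_lit 1090023155406) (nat_lit 174) (nat_lit 5) (nat_lit 176) (nat_lit 4) (nat_lit 174) (nat_lit 4) (nat_lit 364) (nat_lit 321) (nat_lit 215)) (XT.lf (nat_lit 0) (nat_lit 1236358882903) (nat_lit 76) (nat_lit 1236367432051) (nat_lit 76) (nat_lit 1179243958372) (nat_lit 173) (nat_lit 4) (nat_lit 174) (nat_lit 5) (nat_lit 174) (nat_lit 4) (nat_lit 365) (nat_lit 321) (nat_lit 214))) (XT.nd (nat_lit 78) (nat_lit 76)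 (nat_lit 0) (XT.lf (nat_lit 0) (nat_lit 17304572808) (nat_lit 76) (nat_lit 17313124341) (nat_lit 152) (nat_lit 3981951235309) (nat_lit 171) (nat_lit 5) (nat_lit 172) (nat_lit 5) (nat_lit 173) (nat_lit 4) (nat_lit 366) (nat_lit 321) (nat_lit 213)) (XT.nd (nat_lit 78) (nat_lit 76) (nat_lit 0) (XT.lf (nat_lit 0) (nat_lit 1499443153333) (nat_lit 152) (nat_lit 1449778001566) (nat_lit 0) (nat_lit 1449770563647) (nat_lit 171) (nat_lit 5) (nat_lit 173) (nat_lit 4) (nat_lit 171) (nat_lit 4) (nat_lit 367) (nat_lit 321) (nat_lit 212)) (XT.lf (nat_lit 0) (nat_lit 1626070722150) (nat_lit 76) (nat_lit 1626078161638) (nat_lit 76) (nat_lit 1576405570384) (nat_lit 170) (nat_lit 4) (nat_lit 171) (nat_lit 5) (nat_lit 171) (nat_lit 4) (nat_lit 368) (nat_lit 321) (nat_lit 211))))) (XT.nd (nat_lit 156) (nat_lit 228) (nat_lit 0) (XT.nd (nat_lit 78) (nat_lit 0) (nat_lit 0) (XT.lf (nat_lit 0) (nat_lit 15047452965) (nat_lit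 76) (nat_lit 15054893817) (nat_lit 152) (nat_lit 5280787232690) (nat_lit 168) (nat_lit 5) (nat_lit 169) (nat_lit 5) (nat_lit 170) (nat_lit 4) (nat_lit 369) (nat_lit 321) (nat_lit 210)) (XT.lf (nat_lit 0) (nat_lit 1967658560090) (nat_lit 152) (nat_lit 1924471471598) (nat_lit 0) (nat_lit 1924465000261) (nat_lit 168) (nat_lit 5) (nat_lit 170) (nat_lit 4) (nat_lit 168) (nat_lit 4) (nat_lit 370) (nat_lit 321) (nat_lit 209))) (XT.nd (nat_lit 78) (nat_lit 152) (nat_lit 0) (XT.lf (nat_lit 0) (nat_lit 2142640357130) (nat_lit 76) (nat_lit 2142646829364) (nat_lit 76) (nat_lit 2099453268638) (nat_lit 167) (nat_lit 4) (nat_lit 168) (nat_lit 5) (nat_lit 168) (nat_lit 4) (nat_lit 371) (nat_lit 321) (nat_lit 208)) (XT.nd (nat_lit 78) (nat_lit 0) (nat_lit 0) (XT.lf (nat_lit 0) (nat_lit 13084740765) (nat_lit 76) (nat_lit 13091213779) (nat_lit 152) (nat_lit 6996586093858) (nat_lit 165) (nat_lit 5) (nat_lit 166) (nat_lit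 5) (nat_lit 167) (nat_lit 4) (nat_lit 372) (nat_lit 321) (nat_lit 207)) (XT.lf (nat_lit 0) (nat_lit 2588876262090) (nat_lit 152) (nat_lit 2551322272096) (nat_lit 0) (nat_lit 2551316642799) (nat_lit 165) (nat_lit 5) (nat_lit 167) (nat_lit 4) (nat_lit 165) (nat_lit 4) (nat_lit 373) (nat_lit 321) (nat_lit 206)))))) (XT.nd (nat_lit 390) (nat_lit 228) (nat_lit 0) (XT.nd (nat_lit 156) (nat_lit 228) (nat_lit 0) (XT.nd (nat_lit 78) (nat_lit 152) (nat_lit 0) (XT.lf (nat_lit 0) (nat_lit 2826826070586) (nat_lit 76) (nat_lit 2826831700395) (nat_lit 76) (nat_lit 2789272080593) (nat_lit 164) (nat_lit 4) (nat_lit 165) (nat_lit 5) (nat_lit 165) (nat_lit 4) (nat_lit 374) (nat_lit 321) (nat_lit 205)) (XT.lf (nat_lit 0) (nat_lit 11378034909) (nat_lit 76) (nat_lit 11383665164) (nat_lit 152) (nat_lit 9264067699945) (nat_lit 162) (nat_lit 5) (nat_lit 163) (nat_lit 5) (nat_lit 164) (nat_lit 4) (nat_lit 375) (nat_lit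 321) (nat_lit 204))) (XT.nd (nat_lit 78) (nat_lit 228) (nat_lit 0) (XT.lf (nat_lit 0) (nat_lit 3412178261665) (nat_lit 152) (nat_lit 3379522618193) (nat_lit 0) (nat_lit 3379517721981) (nat_lit 162) (nat_lit 5) (nat_lit 164) (nat_lit 4) (nat_lit 162) (nat_lit 4) (nat_lit 376) (nat_lit 321) (nat_lit 203)) (XT.nd (nat_lit 78) (nat_lit 152) (nat_lit 0) (XT.lf (nat_lit 0) (nat_lit 3732550694713) (nat_lit 76) (nat_lit 3732555591217) (nat_lit 76) (nat_lit 3699895051240) (nat_lit 161) (nat_lit 4) (nat_lit 162) (nat_lit 5) (nat_lit 162) (nat_lit 4) (nat_lit 377) (nat_lit 321) (nat_lit 202)) (XT.lf (nat_lit 0) (nat_lit 9893943090) (nat_lit 76) (nat_lit 9898839850) (nat_lit 152) (nat_lit 12261366569075) (nat_lit 159) (nat_lit 5) (nat_lit 160) (nat_lit 5) (nat_lit 161) (nat_lit 4) (nat_lit 378) (nat_lit 321) (nat_lit 201))))) (XT.nd (nat_lit 156) (nat_lit 152) (nat_lit 0) (XT.nd (nat_lit 78) (nat_lit 76) (nat_lit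 0) (XT.lf (nat_lit 0) (nat_lit 4502509581253) (nat_lit 152) (nat_lit 4474113369538) (nat_lit 0) (nat_lit 4474109111293) (nat_lit 159) (nat_lit 5) (nat_lit 161) (nat_lit 4) (nat_lit 159) (nat_lit 4) (nat_lit 379) (nat_lit 321) (nat_lit 200)) (XT.lf (nat_lit 0) (nat_lit 4931144569121) (nat_lit 76) (nat_lit 4931148827533) (nat_lit 76) (nat_lit 4902748357406) (nat_lit 158) (nat_lit 4) (nat_lit 159) (nat_lit 5) (nat_lit 159) (nat_lit 4) (nat_lit 380) (nat_lit 321) (nat_lit 199))) (XT.nd (nat_lit 78) (nat_lit 0) (nat_lit 0) (XT.lf (nat_lit 0) (nat_lit 8603428598) (nat_lit 76) (nat_lit 8607687155) (nat_lit 152) (nat_lit 16224037319050) (nat_lit 156) (nat_lit 5) (nat_lit 157) (nat_lit 5) (nat_lit 158) (nat_lit 4) (nat_lit 381) (nat_lit 321) (nat_lit 198)) (XT.nd (nat_lit 42198) (nat_lit 0) (nat_lit 4484) (XT.lf (nat_lit 0) (nat_lit 5945789642961) (nat_lit 152) (nat_lit 5921097284948) (nat_lit 0) (nat_lit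 5921093581744) (nat_lit 156) (nat_lit 5) (nat_lit 158) (nat_lit 4) (nat_lit 156) (nat_lit 4) (nat_lit 382) (nat_lit 321) (nat_lit 197)) (XT.lf (nat_lit 0) (nat_lit 13432407813) (nat_lit 380) (nat_lit 15198238175) (nat_lit 380) (nat_lit 15198238175) (nat_lit 215) (nat_lit 3) (nat_lit 220) (nat_lit 3) (nat_lit 220) (nat_lit 5) (nat_lit 322) (nat_lit 322) (nat_lit 256))))))))
noncomputable def xc82 : XT := (XT.nd (nat_lit 1560) (nat_lit 1520) (nat_lit 0) (XT.nd (nat_lit 780) (nat_lit 684) (nat_lit 0) (XT.nd (nat_lit 390) (nat_lit 532) (nat_lit 0) (XT.nd (nat_lit 156) (nat_lit 152) (nat_lit 0) (XT.nd (nat_lit 78) (nat_lit 0) (nat_lit 76) (XT.lf (nat_lit 76) (nat_lit 14745120395) (nat_lit 0) (nat_lit 14753027436) (nat_lit 380) (nat_lit 64641182468) (nat_lit 216) (nat_lit 5) (nat_lit 215) (nat_lit 3) (nat_lit 220) (nat_lit 5) (nat_lit 323) (nat_lit 322) (nat_lit 255)) (XT.lf (nat_lit 0) (nat_lit 35602938826)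 (nat_lit 304) (nat_lit 32770786721) (nat_lit 380) (nat_lit 32757932174) (nat_lit 216) (nat_lit 5) (nat_lit 220) (nat_lit 5) (nat_lit 221) (nat_lit 5) (nat_lit 324) (nat_lit 322) (nat_lit 254))) (XT.nd (nat_lit 78) (nat_lit 228) (nat_lit 0) (XT.lf (nat_lit 76) (nat_lit 22111129262) (nat_lit 0) (nat_lit 22129182816) (nat_lit 380) (nat_lit 64689992636) (nat_lit 217) (nat_lit 5) (nat_lit 216) (nat_lit 5) (nat_lit 221) (nat_lit 5) (nat_lit 325) (nat_lit 322) (nat_lit 253)) (XT.nd (nat_lit 78) (nat_lit 304) (nat_lit 0) (XT.lf (nat_lit 0) (nat_lit 57252574413) (nat_lit 304) (nat_lit 30101955910) (nat_lit 76) (nat_lit 30082325970) (nat_lit 217) (nat_lit 5) (nat_lit 221) (nat_lit 5) (nat_lit 218) (nat_lit 5) (nat_lit 326) (nat_lit 322) (nat_lit 252)) (XT.lf (nat_lit 0) (nat_lit 37397493340) (nat_lit 304) (nat_lit 37420541712) (nat_lit 380) (nat_lit 52011151711) (nat_lit 213) (nat_lit 5) (nat_lit 217) (nat_lit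 5) (nat_lit 218) (nat_lit 5) (nat_lit 327) (nat_lit 322) (nat_lit 251))))) (XT.nd (nat_lit 156) (nat_lit 380) (nat_lit 0) (XT.nd (nat_lit 78) (nat_lit 152) (nat_lit 0) (XT.lf (nat_lit 0) (nat_lit 97494182623) (nat_lit 380) (nat_lit 19893715449) (nat_lit 76) (nat_lit 19871088560) (nat_lit 213) (nat_lit 5) (nat_lit 218) (nat_lit 5) (nat_lit 214) (nat_lit 5) (nat_lit 328) (nat_lit 322) (nat_lit 250)) (XT.lf (nat_lit 0) (nat_lit 63988843743) (nat_lit 152) (nat_lit 64013718306) (nat_lit 228) (nat_lit 20586072971) (nat_lit 211) (nat_lit 5) (nat_lit 213) (nat_lit 5) (nat_lit 214) (nat_lit 5) (nat_lit 329) (nat_lit 322) (nat_lit 249))) (XT.nd (nat_lit 78) (nat_lit 152) (nat_lit 0) (XT.lf (nat_lit 0) (nat_lit 1225626208) (nat_lit 152) (nat_lit 1252455270) (nat_lit 228) (nat_lit 158959606672) (nat_lit 208) (nat_lit 5) (nat_lit 210) (nat_lit 5) (nat_lit 211) (nat_lit 5) (nat_lit 330) (nat_lit 322) (nat_lit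 248)) (XT.nd (nat_lit 78) (nat_lit 152) (nat_lit 0) (XT.lf (nat_lit 0) (nat_lit 34463169538) (nat_lit 228) (nat_lit 70246677002) (nat_lit 76) (nat_lit 70221869500) (nat_lit 208) (nat_lit 5) (nat_lit 211) (nat_lit 5) (nat_lit 209) (nat_lit 5) (nat_lit 331) (nat_lit 322) (nat_lit 247)) (XT.lf (nat_lit 0) (nat_lit 36392964779) (nat_lit 152) (nat_lit 36419057396) (nat_lit 228) (nat_lit 117402925734) (nat_lit 206) (nat_lit 5) (nat_lit 208) (nat_lit 5) (nat_lit 209) (nat_lit 5) (nat_lit 332) (nat_lit 322) (nat_lit 246)))))) (XT.nd (nat_lit 390) (nat_lit 304) (nat_lit 0) (XT.nd (nat_lit 156) (nat_lit 304) (nat_lit 0) (XT.nd (nat_lit 78) (nat_lit 76) (nat_lit 0) (XT.lf (nat_lit 0) (nat_lit 122503389041) (nat_lit 228) (nat_lit 42236204265) (nat_lit 76) (nat_lit 42212543301) (nat_lit 206) (nat_lit 5) (nat_lit 209) (nat_lit 5) (nat_lit 207) (nat_lit 4) (nat_lit 333) (nat_lit 322) (nat_lit 245)) (XT.lf (nat_lit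 0) (nat_lit 92595953909) (nat_lit 76) (nat_lit 92620459857) (nat_lit 152) (nat_lit 40148296920) (nat_lit 205) (nat_lit 5) (nat_lit 206) (nat_lit 5) (nat_lit 207) (nat_lit 4) (nat_lit 334) (nat_lit 322) (nat_lit 244))) (XT.nd (nat_lit 78) (nat_lit 76) (nat_lit 0) (XT.lf (nat_lit 0) (nat_lit 6189749457) (nat_lit 152) (nat_lit 6214990174) (nat_lit 228) (nat_lit 233682053517) (nat_lit 202) (nat_lit 5) (nat_lit 204) (nat_lit 5) (nat_lit 205) (nat_lit 5) (nat_lit 335) (nat_lit 322) (nat_lit 243)) (XT.nd (nat_lit 78) (nat_lit 76) (nat_lit 0) (XT.lf (nat_lit 0) (nat_lit 79857718128) (nat_lit 228) (nat_lit 94063044620) (nat_lit 76) (nat_lit 94040540580) (nat_lit 202) (nat_lit 5) (nat_lit 205) (nat_lit 5) (nat_lit 203) (nat_lit 4) (nat_lit 336) (nat_lit 322) (nat_lit 242)) (XT.lf (nat_lit 0) (nat_lit 80517636157) (nat_lit 76) (nat_lit 80540623320) (nat_lit 152) (nat_lit 131514288148) (nat_lit 201) (nat_lit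 5) (nat_lit 202) (nat_lit 5) (nat_lit 203) (nat_lit 4) (nat_lit 337) (nat_lit 322) (nat_lit 241))))) (XT.nd (nat_lit 156) (nat_lit 152) (nat_lit 0) (XT.nd (nat_lit 78) (nat_lit 152) (nat_lit 0) (XT.lf (nat_lit 0) (nat_lit 260701223985) (nat_lit 152) (nat_lit 29627628718) (nat_lit 0) (nat_lit 29607274570) (nat_lit 201) (nat_lit 5) (nat_lit 203) (nat_lit 4) (nat_lit 201) (nat_lit 4) (nat_lit 338) (nat_lit 322) (nat_lit 240)) (XT.lf (nat_lit 0) (nat_lit 34173969040) (nat_lit 152) (nat_lit 157620233638) (nat_lit 76) (nat_lit 157599561830) (nat_lit 199) (nat_lit 5) (nat_lit 201) (nat_lit 5) (nat_lit 200) (nat_lit 4) (nat_lit 339) (nat_lit 322) (nat_lit 239))) (XT.nd (nat_lit 78) (nat_lit 76) (nat_lit 0) (XT.lf (nat_lit 0) (nat_lit 70015001523) (nat_lit 76) (nat_lit 70035949558) (nat_lit 152) (nat_lit 242117794093) (nat_lit 198) (nat_lit 5) (nat_lit 199) (nat_lit 5) (nat_lit 200) (nat_lit 4) (nat_lit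 340) (nat_lit 322) (nat_lit 238)) (XT.nd (nat_lit 78) (nat_lit 76) (nat_lit 0) (XT.lf (nat_lit 0) (nat_lit 273338711669) (nat_lit 152) (nat_lit 72405150567) (nat_lit 0) (nat_lit 72386726018) (nat_lit 198) (nat_lit 5) (nat_lit 200) (nat_lit 4) (nat_lit 198) (nat_lit 4) (nat_lit 341) (nat_lit 322) (nat_lit 237)) (XT.lf (nat_lit 0) (nat_lit 219512671894) (nat_lit 76) (nat_lit 219531278067) (nat_lit 76) (nat_lit 18579110792) (nat_lit 197) (nat_lit 4) (nat_lit 198) (nat_lit 5) (nat_lit 198) (nat_lit 4) (nat_lit 342) (nat_lit 322) (nat_lit 236))))))) (XT.nd (nat_lit 780) (nat_lit 684) (nat_lit 0) (XT.nd (nat_lit 390) (nat_lit 456) (nat_lit 0) (XT.nd (nat_lit 156) (nat_lit 228) (nat_lit 0) (XT.nd (nat_lit 78) (nat_lit 0) (nat_lit 0) (XT.lf (nat_lit 0) (nat_lit 60882418902) (nat_lit 76) (nat_lit 60901183009) (nat_lit 152) (nat_lit 379496814522) (nat_lit 195) (nat_lit 5) (nat_lit 196) (nat_lit 5) (nat_lit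 197) (nat_lit 4) (nat_lit 343) (nat_lit 322) (nat_lit 235)) (XT.lf (nat_lit 0) (nat_lit 299369701973) (nat_lit 152) (nat_lit 124644866233) (nat_lit 0) (nat_lit 124628430198) (nat_lit 195) (nat_lit 5) (nat_lit 197) (nat_lit 4) (nat_lit 195) (nat_lit 4) (nat_lit 344) (nat_lit 322) (nat_lit 234))) (XT.nd (nat_lit 78) (nat_lit 152) (nat_lit 0) (XT.lf (nat_lit 0) (nat_lit 258592375790) (nat_lit 76) (nat_lit 258608915669) (nat_lit 76) (nat_lit 83867540049) (nat_lit 194) (nat_lit 4) (nat_lit 195) (nat_lit 5) (nat_lit 195) (nat_lit 4) (nat_lit 345) (nat_lit 322) (nat_lit 233)) (XT.nd (nat_lit 78) (nat_lit 0) (nat_lit 0) (XT.lf (nat_lit 0) (nat_lit 52941124556) (nat_lit 76) (nat_lit 52957754734) (nat_lit 152) (nat_lit 553446447498) (nat_lit 192) (nat_lit 5) (nat_lit 193) (nat_lit 5) (nat_lit 194) (nat_lit 4) (nat_lit 346) (nat_lit 322) (nat_lit 232)) (XT.lf (nat_lit 0) (nat_lit 341898293584) (nat_lit 152)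 (nat_lit 189963653809) (nat_lit 0) (nat_lit 189949124506) (nat_lit 192) (nat_lit 5) (nat_lit 194) (nat_lit 4) (nat_lit 192) (nat_lit 4) (nat_lit 347) (nat_lit 322) (nat_lit 231))))) (XT.nd (nat_lit 156) (nat_lit 228) (nat_lit 0) (XT.nd (nat_lit 78) (nat_lit 152) (nat_lit 0) (XT.lf (nat_lit 0) (nat_lit 314411874115) (nat_lit 76) (nat_lit 314426462791) (nat_lit 76) (nat_lit 162477234340) (nat_lit 191) (nat_lit 4) (nat_lit 192) (nat_lit 5) (nat_lit 192) (nat_lit 4) (nat_lit 348) (nat_lit 322) (nat_lit 230)) (XT.lf (nat_lit 0) (nat_lit 46035698007) (nat_lit 76) (nat_lit 46050338312) (nat_lit 152) (nat_lit 776769452584) (nat_lit 189) (nat_lit 5) (nat_lit 190) (nat_lit 5) (nat_lit 191) (nat_lit 4) (nat_lit 349) (nat_lit 322) (nat_lit 229))) (XT.nd (nat_lit 78) (nat_lit 228) (nat_lit 0) (XT.lf (nat_lit 0) (nat_lit 405188143473) (nat_lit 152) (nat_lit 273071065408) (nat_lit 0) (nat_lit 273058295669) (nat_lit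 189) (nat_lit 5) (nat_lit 191) (nat_lit 4) (nat_lit 189) (nat_lit 4) (nat_lit 350) (nat_lit 322) (nat_lit 228)) (XT.nd (nat_lit 78) (nat_lit 152) (nat_lit 0) (XT.lf (nat_lit 0) (nat_lit 391830154963) (nat_lit 76) (nat_lit 391842958649) (nat_lit 76) (nat_lit 259713076898) (nat_lit 188) (nat_lit 4) (nat_lit 189) (nat_lit 5) (nat_lit 189) (nat_lit 4) (nat_lit 351) (nat_lit 322) (nat_lit 227)) (XT.lf (nat_lit 0) (nat_lit 40031006024) (nat_lit 76) (nat_lit 40043839228) (nat_lit 152) (nat_lit 1066265931224) (nat_lit 186) (nat_lit 5) (nat_lit 187) (nat_lit 5) (nat_lit 188) (nat_lit 4) (nat_lit 352) (nat_lit 322) (nat_lit 226)))))) (XT.nd (nat_lit 390) (nat_lit 380) (nat_lit 0) (XT.nd (nat_lit 156) (nat_lit 228) (nat_lit 0) (XT.nd (nat_lit 78) (nat_lit 76) (nat_lit 0) (XT.lf (nat_lit 0) (nat_lit 495015765877) (nat_lit 152) (nat_lit 380131350168) (nat_lit 0) (nat_lit 380120168539) (nat_lit 186) (nat_lit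 5) (nat_lit 188) (nat_lit 4) (nat_lit 186) (nat_lit 4) (nat_lit 353) (nat_lit 322) (nat_lit 225)) (XT.lf (nat_lit 0) (nat_lit 497343629428) (nat_lit 76) (nat_lit 497354830466) (nat_lit 76) (nat_lit 382459213719) (nat_lit 185) (nat_lit 4) (nat_lit 186) (nat_lit 5) (nat_lit 186) (nat_lit 4) (nat_lit 354) (nat_lit 322) (nat_lit 224))) (XT.nd (nat_lit 78) (nat_lit 76) (nat_lit 0) (XT.lf (nat_lit 0) (nat_lit 34809550032) (nat_lit 76) (nat_lit 34820767947) (nat_lit 152) (nat_lit 1444039616671) (nat_lit 183) (nat_lit 5) (nat_lit 184) (nat_lit 5) (nat_lit 185) (nat_lit 4) (nat_lit 355) (nat_lit 322) (nat_lit 223)) (XT.nd (nat_lit 78) (nat_lit 76) (nat_lit 0) (XT.lf (nat_lit 0) (nat_lit 619140458971) (nat_lit 152) (nat_lit 519240967051) (nat_lit 0) (nat_lit 519231199580) (nat_lit 183) (nat_lit 5) (nat_lit 185) (nat_lit 4) (nat_lit 183) (nat_lit 4) (nat_lit 356) (nat_lit 322) (nat_lit 222)) (XT.lf (nat_lit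 0) (nat_lit 639605010585) (nat_lit 76) (nat_lit 639614789154) (nat_lit 76) (nat_lit 539705518665) (nat_lit 182) (nat_lit 4) (nat_lit 183) (nat_lit 5) (nat_lit 183) (nat_lit 4) (nat_lit 357) (nat_lit 322) (nat_lit 221))))) (XT.nd (nat_lit 156) (nat_lit 228) (nat_lit 0) (XT.nd (nat_lit 78) (nat_lit 0) (nat_lit 0) (XT.lf (nat_lit 0) (nat_lit 30269162263) (nat_lit 76) (nat_lit 30278950481) (nat_lit 152) (nat_lit 1939223210665) (nat_lit 180) (nat_lit 5) (nat_lit 181) (nat_lit 5) (nat_lit 182) (nat_lit 4) (nat_lit 358) (nat_lit 322) (nat_lit 220)) (XT.lf (nat_lit 0) (nat_lit 787928123471) (nat_lit 152) (nat_lit 701059000062) (nat_lit 0) (nat_lit 701050481271) (nat_lit 180) (nat_lit 5) (nat_lit 182) (nat_lit 4) (nat_lit 180) (nat_lit 4) (nat_lit 359) (nat_lit 322) (nat_lit 219))) (XT.nd (nat_lit 78) (nat_lit 152) (nat_lit 0) (XT.lf (nat_lit 0) (nat_lit 830110732813) (nat_lit 76) (nat_lit 830119257949)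 (nat_lit 76) (nat_lit 743241609404) (nat_lit 179) (nat_lit 4) (nat_lit 180) (nat_lit 5) (nat_lit 180) (nat_lit 4) (nat_lit 360) (nat_lit 322) (nat_lit 218)) (XT.nd (nat_lit 78) (nat_lit 0) (nat_lit 0) (XT.lf (nat_lit 0) (nat_lit 26321003987) (nat_lit 76) (nat_lit 26329534640) (nat_lit 152) (nat_lit 2590258198452) (nat_lit 177) (nat_lit 5) (nat_lit 178) (nat_lit 5) (nat_lit 179) (nat_lit 4) (nat_lit 361) (nat_lit 322) (nat_lit 217)) (XT.lf (nat_lit 0) (nat_lit 1015178299410) (nat_lit 152) (nat_lit 939639931228) (nat_lit 0) (nat_lit 939632509097) (nat_lit 177) (nat_lit 5) (nat_lit 179) (nat_lit 4) (nat_lit 177) (nat_lit 4) (nat_lit 362) (nat_lit 322) (nat_lit 216))))))))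
noncomputable def xc83 : XT := (XT.nd (nat_lit 43758) (nat_lit 0) (nat_lit 3192) (XT.nd (nat_lit 780) (nat_lit 836) (nat_lit 0) (XT.nd (nat_lit 390) (nat_lit 304) (nat_lit 0) (XT.nd (nat_lit 156) (nat_lit 228) (nat_lit 0) (XT.nd (nat_lit 78) (nat_lit 152) (nat_lit 0) (XT.lf (nat_lit 0) (nat_lit 1084111107574) (nat_lit 76) (nat_lit 1084118533333) (nat_lit 76) (nat_lit 1008572739392) (nat_lit 176) (nat_lit 4) (nat_lit 177) (nat_lit 5) (nat_lit 177) (nat_lit 4) (nat_lit 363) (nat_lit 322) (nat_lit 215)) (XT.lf (nat_lit 0) (nat_lit 22887825736) (nat_lit 76) (nat_lit 22895254649) (nat_lit 152) (nat_lit 3447908213636) (nat_lit 174) (nat_lit 5) (nat_lit 175) (nat_lit 5) (nat_lit 176) (nat_lit 4) (nat_lit 364) (nat_lit 322) (nat_lit 214))) (XT.nd (nat_lit 78) (nat_lit 228) (nat_lit 0) (XT.lf (nat_lit 0) (nat_lit 1319219694142) (nat_lit 152) (nat_lit 1253534156592) (nat_lit 0) (nat_lit 1253527694283) (nat_lit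 174) (nat_lit 5) (nat_lit 176) (nat_lit 4) (nat_lit 174) (nat_lit 4) (nat_lit 365) (nat_lit 322) (nat_lit 213)) (XT.nd (nat_lit 78) (nat_lit 152) (nat_lit 0) (XT.lf (nat_lit 0) (nat_lit 1421814911261) (nat_lit 76) (nat_lit 1421821375645) (nat_lit 76) (nat_lit 1356129373712) (nat_lit 173) (nat_lit 4) (nat_lit 174) (nat_lit 5) (nat_lit 174) (nat_lit 4) (nat_lit 366) (nat_lit 322) (nat_lit 212)) (XT.lf (nat_lit 0) (nat_lit 19902454979) (nat_lit 76) (nat_lit 19908921167) (nat_lit 152) (nat_lit 4579242742517) (nat_lit 171) (nat_lit 5) (nat_lit 172) (nat_lit 5) (nat_lit 173) (nat_lit 4) (nat_lit 367) (nat_lit 322) (nat_lit 211))))) (XT.nd (nat_lit 156) (nat_lit 228) (nat_lit 0) (XT.nd (nat_lit 78) (nat_lit 76) (nat_lit 0) (XT.lf (nat_lit 0) (nat_lit 1724360559331) (nat_lit 152) (nat_lit 1667242700592) (nat_lit 0) (nat_lit 1667237076457) (nat_lit 171) (nat_lit 5) (nat_lit 173) (nat_lit 4) (nat_lit 171)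 (nat_lit 4) (nat_lit 368) (nat_lit 322) (nat_lit 210)) (XT.lf (nat_lit 0) (nat_lit 1869983240718) (nat_lit 76) (nat_lit 1869988866040) (nat_lit 76) (nat_lit 1812865381980) (nat_lit 170) (nat_lit 4) (nat_lit 171) (nat_lit 5) (nat_lit 171) (nat_lit 4) (nat_lit 369) (nat_lit 322) (nat_lit 209))) (XT.nd (nat_lit 78) (nat_lit 76) (nat_lit 0) (XT.lf (nat_lit 0) (nat_lit 17306481343) (nat_lit 76) (nat_lit 17312107695) (nat_lit 152) (nat_lit 6072904293819) (nat_lit 168) (nat_lit 5) (nat_lit 169) (nat_lit 5) (nat_lit 170) (nat_lit 4) (nat_lit 370) (nat_lit 322) (nat_lit 208)) (XT.nd (nat_lit 78) (nat_lit 76) (nat_lit 0) (XT.lf (nat_lit 0) (nat_lit 2262808154958) (nat_lit 152) (nat_lit 2213140451707) (nat_lit 0) (nat_lit 2213135558447) (nat_lit 168) (nat_lit 5) (nat_lit 170) (nat_lit 4) (nat_lit 168) (nat_lit 4) (nat_lit 371) (nat_lit 322) (nat_lit 207)) (XT.lf (nat_lit 0) (nat_lit 2464038072210) (nat_lit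 76) (nat_lit 2464042966149) (nat_lit 76) (nat_lit 2414370368959) (nat_lit 167) (nat_lit 4) (nat_lit 168) (nat_lit 5) (nat_lit 168) (nat_lit 4) (nat_lit 372) (nat_lit 322) (nat_lit 206)))))) (XT.nd (nat_lit 390) (nat_lit 456) (nat_lit 0) (XT.nd (nat_lit 156) (nat_lit 228) (nat_lit 0) (XT.nd (nat_lit 78) (nat_lit 0) (nat_lit 0) (XT.lf (nat_lit 0) (nat_lit 15049113498) (nat_lit 76) (nat_lit 15054008026) (nat_lit 152) (nat_lit 8046073118069) (nat_lit 165) (nat_lit 5) (nat_lit 166) (nat_lit 5) (nat_lit 167) (nat_lit 4) (nat_lit 373) (nat_lit 322) (nat_lit 205)) (XT.lf (nat_lit 0) (nat_lit 2977208406238) (nat_lit 152) (nat_lit 2934019099063) (nat_lit 0) (nat_lit 2934014842506) (nat_lit 165) (nat_lit 5) (nat_lit 167) (nat_lit 4) (nat_lit 165) (nat_lit 4) (nat_lit 374) (nat_lit 322) (nat_lit 204))) (XT.nd (nat_lit 78) (nat_lit 152) (nat_lit 0) (XT.lf (nat_lit 0) (nat_lit 3250851426210) (nat_lit 76) (nat_lit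 3250855683155) (nat_lit 76) (nat_lit 3207662119035) (nat_lit 164) (nat_lit 4) (nat_lit 165) (nat_lit 5) (nat_lit 165) (nat_lit 4) (nat_lit 375) (nat_lit 322) (nat_lit 203)) (XT.nd (nat_lit 78) (nat_lit 0) (nat_lit 0) (XT.lf (nat_lit 0) (nat_lit 13086185242) (nat_lit 76) (nat_lit 13090442524) (nat_lit 152) (nat_lit 10653677081351) (nat_lit 162) (nat_lit 5) (nat_lit 163) (nat_lit 5) (nat_lit 164) (nat_lit 4) (nat_lit 376) (nat_lit 322) (nat_lit 202)) (XT.lf (nat_lit 0) (nat_lit 3924005613669) (nat_lit 152) (nat_lit 3886449694386) (nat_lit 0) (nat_lit 3886445992147) (nat_lit 162) (nat_lit 5) (nat_lit 164) (nat_lit 4) (nat_lit 162) (nat_lit 4) (nat_lit 377) (nat_lit 322) (nat_lit 201))))) (XT.nd (nat_lit 156) (nat_lit 228) (nat_lit 0) (XT.nd (nat_lit 78) (nat_lit 152) (nat_lit 0) (XT.lf (nat_lit 0) (nat_lit 4292434555612) (nat_lit 76) (nat_lit 4292438258073) (nat_lit 76) (nat_lit 4254878636330) (nat_lit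 161) (nat_lit 4) (nat_lit 162) (nat_lit 5) (nat_lit 162) (nat_lit 4) (nat_lit 378) (nat_lit 322) (nat_lit 200)) (XT.lf (nat_lit 0) (nat_lit 11379291282) (nat_lit 76) (nat_lit 11382993935) (nat_lit 152) (nat_lit 14100570881875) (nat_lit 159) (nat_lit 5) (nat_lit 160) (nat_lit 5) (nat_lit 161) (nat_lit 4) (nat_lit 379) (nat_lit 322) (nat_lit 199))) (XT.nd (nat_lit 78) (nat_lit 228) (nat_lit 0) (XT.lf (nat_lit 0) (nat_lit 5177886551186) (nat_lit 152) (nat_lit 5145229230071) (nat_lit 0) (nat_lit 5145226010227) (nat_lit 159) (nat_lit 5) (nat_lit 161) (nat_lit 4) (nat_lit 159) (nat_lit 4) (nat_lit 380) (nat_lit 322) (nat_lit 198)) (XT.nd (nat_lit 78) (nat_lit 152) (nat_lit 0) (XT.lf (nat_lit 0) (nat_lit 5670817347346) (nat_lit 76) (nat_lit 5670820567317) (nat_lit 76) (nat_lit 5638160026231) (nat_lit 158) (nat_lit 4) (nat_lit 159) (nat_lit 5) (nat_lit 159) (nat_lit 4) (nat_lit 381) (nat_lit 322) (nat_lit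 197)) (XT.lf (nat_lit 0) (nat_lit 9895035764) (nat_lit 76) (nat_lit 9898255845) (nat_lit 152) (nat_lit 18657642332141) (nat_lit 156) (nat_lit 5) (nat_lit 157) (nat_lit 5) (nat_lit 158) (nat_lit 4) (nat_lit 382) (nat_lit 322) (nat_lit 196))))))) (XT.nd (nat_lit 780) (nat_lit 760) (nat_lit 0) (XT.nd (nat_lit 390) (nat_lit 532) (nat_lit 0) (XT.nd (nat_lit 156) (nat_lit 0) (nat_lit 76) (XT.nd (nat_lit 78) (nat_lit 0) (nat_lit 0) (XT.lf (nat_lit 0) (nat_lit 15454848613) (nat_lit 380) (nat_lit 17473615616) (nat_lit 380) (nat_lit 17473615616) (nat_lit 215) (nat_lit 3) (nat_lit 220) (nat_lit 3) (nat_lit 220) (nat_lit 5) (nat_lit 323) (nat_lit 323) (nat_lit 254)) (XT.lf (nat_lit 76) (nat_lit 16965208818) (nat_lit 0) (nat_lit 16971187677) (nat_lit 380) (nat_lit 74321804376) (nat_lit 216) (nat_lit 5) (nat_lit 215) (nat_lit 3) (nat_lit 220) (nat_lit 5) (nat_lit 324) (nat_lit 323) (nat_lit 253))) (XT.nd (nat_lit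 78) (nat_lit 0) (nat_lit 0) (XT.lf (nat_lit 0) (nat_lit 40954954359) (nat_lit 304) (nat_lit 37677217849) (nat_lit 380) (nat_lit 37667497965) (nat_lit 216) (nat_lit 5) (nat_lit 220) (nat_lit 5) (nat_lit 221) (nat_lit 5) (nat_lit 325) (nat_lit 323) (nat_lit 252)) (XT.nd (nat_lit 78) (nat_lit 0) (nat_lit 76) (XT.lf (nat_lit 76) (nat_lit 25436567945) (nat_lit 0) (nat_lit 25450219026) (nat_lit 380) (nat_lit 74381499238) (nat_lit 217) (nat_lit 5) (nat_lit 216) (nat_lit 5) (nat_lit 221) (nat_lit 5) (nat_lit 326) (nat_lit 323) (nat_lit 251)) (XT.lf (nat_lit 0) (nat_lit 65849468744) (nat_lit 304) (nat_lit 34608203911) (nat_lit 76) (nat_lit 34593360856) (nat_lit 217) (nat_lit 5) (nat_lit 221) (nat_lit 5) (nat_lit 218) (nat_lit 5) (nat_lit 327) (nat_lit 323) (nat_lit 250))))) (XT.nd (nat_lit 156) (nat_lit 380) (nat_lit 0) (XT.nd (nat_lit 78) (nat_lit 0) (nat_lit 0) (XT.lf (nat_lit 0) (nat_lit 43015751573)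 (nat_lit 304) (nat_lit 43033179454) (nat_lit 380) (nat_lit 59803405145) (nat_lit 213) (nat_lit 5) (nat_lit 217) (nat_lit 5) (nat_lit 218) (nat_lit 5) (nat_lit 328) (nat_lit 323) (nat_lit 249)) (XT.lf (nat_lit 0) (nat_lit 112125448348) (nat_lit 380) (nat_lit 22869212354) (nat_lit 76) (nat_lit 22852103176) (nat_lit 213) (nat_lit 5) (nat_lit 218) (nat_lit 5) (nat_lit 214) (nat_lit 5) (nat_lit 329) (nat_lit 323) (nat_lit 248))) (XT.nd (nat_lit 78) (nat_lit 228) (nat_lit 0) (XT.lf (nat_lit 0) (nat_lit 73595341607) (nat_lit 152) (nat_lit 73614150351) (nat_lit 228) (nat_lit 23666456476) (nat_lit 211) (nat_lit 5) (nat_lit 213) (nat_lit 5) (nat_lit 214) (nat_lit 5) (nat_lit 330) (nat_lit 323) (nat_lit 247)) (XT.nd (nat_lit 78) (nat_lit 0) (nat_lit 0) (XT.lf (nat_lit 0) (nat_lit 1417909702) (nat_lit 152) (nat_lit 1438196328) (nat_lit 228) (nat_lit 182796288493) (nat_lit 208) (nat_lit 5) (nat_lit 210) (nat_lit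 5) (nat_lit 211) (nat_lit 5) (nat_lit 331) (nat_lit 323) (nat_lit 246)) (XT.lf (nat_lit 0) (nat_lit 39638210547) (nat_lit 228) (nat_lit 80775593049) (nat_lit 76) (nat_lit 80756835013) (nat_lit 208) (nat_lit 5) (nat_lit 211) (nat_lit 5) (nat_lit 209) (nat_lit 5) (nat_lit 332) (nat_lit 323) (nat_lit 245)))))) (XT.nd (nat_lit 390) (nat_lit 304) (nat_lit 0) (XT.nd (nat_lit 156) (nat_lit 304) (nat_lit 0) (XT.nd (nat_lit 78) (nat_lit 0) (nat_lit 0) (XT.lf (nat_lit 0) (nat_lit 41859627476) (nat_lit 152) (nat_lit 41879357243) (nat_lit 228) (nat_lit 135007431493) (nat_lit 206) (nat_lit 5) (nat_lit 208) (nat_lit 5) (nat_lit 209) (nat_lit 5) (nat_lit 333) (nat_lit 323) (nat_lit 244)) (XT.lf (nat_lit 0) (nat_lit 140883475807) (nat_lit 228) (nat_lit 48564342809) (nat_lit 76) (nat_lit 48546451721) (nat_lit 206) (nat_lit 5) (nat_lit 209) (nat_lit 5) (nat_lit 207) (nat_lit 4) (nat_lit 334) (nat_lit 323) (nat_lit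 243))) (XT.nd (nat_lit 78) (nat_lit 228) (nat_lit 0) (XT.lf (nat_lit 0) (nat_lit 106492307632) (nat_lit 76) (nat_lit 106510837649) (nat_lit 152) (nat_lit 46165631589) (nat_lit 205) (nat_lit 5) (nat_lit 206) (nat_lit 5) (nat_lit 207) (nat_lit 4) (nat_lit 335) (nat_lit 323) (nat_lit 242)) (XT.nd (nat_lit 78) (nat_lit 0) (nat_lit 0) (XT.lf (nat_lit 0) (nat_lit 7125273361) (nat_lit 152) (nat_lit 7144358970) (nat_lit 228) (nat_lit 268729552525) (nat_lit 202) (nat_lit 5) (nat_lit 204) (nat_lit 5) (nat_lit 205) (nat_lit 5) (nat_lit 336) (nat_lit 323) (nat_lit 241)) (XT.lf (nat_lit 0) (nat_lit 91840115847) (nat_lit 228) (nat_lit 108165919134) (nat_lit 76) (nat_lit 108148902847) (nat_lit 202) (nat_lit 5) (nat_lit 205) (nat_lit 5) (nat_lit 203) (nat_lit 4) (nat_lit 337) (nat_lit 323) (nat_lit 240))))) (XT.nd (nat_lit 156) (nat_lit 228) (nat_lit 0) (XT.nd (nat_lit 78) (nat_lit 0) (nat_lit 0) (XT.lf (nat_lit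 0) (nat_lit 92601564570) (nat_lit 76) (nat_lit 92618946167) (nat_lit 152) (nat_lit 151237392181) (nat_lit 201) (nat_lit 5) (nat_lit 202) (nat_lit 5) (nat_lit 203) (nat_lit 4) (nat_lit 338) (nat_lit 323) (nat_lit 239)) (XT.lf (nat_lit 0) (nat_lit 299809561552) (nat_lit 152) (nat_lit 34065951188) (nat_lit 0) (nat_lit 34050560528) (nat_lit 201) (nat_lit 5) (nat_lit 203) (nat_lit 4) (nat_lit 201) (nat_lit 4) (nat_lit 339) (nat_lit 323) (nat_lit 238))) (XT.nd (nat_lit 78) (nat_lit 76) (nat_lit 0) (XT.lf (nat_lit 0) (nat_lit 39303178647) (nat_lit 152) (nat_lit 181257407128) (nat_lit 76) (nat_lit 181241776271) (nat_lit 199) (nat_lit 5) (nat_lit 201) (nat_lit 5) (nat_lit 200) (nat_lit 4) (nat_lit 340) (nat_lit 323) (nat_lit 237)) (XT.nd (nat_lit 78) (nat_lit 0) (nat_lit 0) (XT.lf (nat_lit 0) (nat_lit 80522846873) (nat_lit 76) (nat_lit 80538686597) (nat_lit 152) (nat_lit 278432082521) (nat_lit 198) (nat_lit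 5) (nat_lit 199) (nat_lit 5) (nat_lit 200) (nat_lit 4) (nat_lit 341) (nat_lit 323) (nat_lit 236)) (XT.lf (nat_lit 0) (nat_lit 314342170316) (nat_lit 152) (nat_lit 83260769999) (nat_lit 0) (nat_lit 83246838393) (nat_lit 198) (nat_lit 5) (nat_lit 200) (nat_lit 4) (nat_lit 198) (nat_lit 4) (nat_lit 342) (nat_lit 323) (nat_lit 235))))))))
noncomputable def xc84 : XT := (XT.nd (nat_lit 1560) (nat_lit 1444) (nat_lit 0) (XT.nd (nat_lit 780) (nat_lit 836) (nat_lit 0) (XT.nd (nat_lit 390) (nat_lit 304) (nat_lit 0) (XT.nd (nat_lit 156) (nat_lit 228) (nat_lit 0) (XT.nd (nat_lit 78) (nat_lit 152) (nat_lit 0) (XT.lf (nat_lit 0) (nat_lit 252444491597) (nat_lit 76) (nat_lit 252458560537) (nat_lit 76) (nat_lit 21363091280) (nat_lit 197) (nat_lit 4) (nat_lit 198) (nat_lit 5) (nat_lit 198) (nat_lit 4) (nat_lit 343) (nat_lit 323) (nat_lit 234)) (XT.lf (nat_lit 0) (nat_lit 70019722334) (nat_lit 76) (nat_lit 70033910694)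 (nat_lit 152) (nat_lit 436418472246) (nat_lit 195) (nat_lit 5) (nat_lit 196) (nat_lit 5) (nat_lit 197) (nat_lit 4) (nat_lit 344) (nat_lit 323) (nat_lit 233))) (XT.nd (nat_lit 78) (nat_lit 228) (nat_lit 0) (XT.lf (nat_lit 0) (nat_lit 344277411417) (nat_lit 152) (nat_lit 143337063315) (nat_lit 0) (nat_lit 143324635311) (nat_lit 195) (nat_lit 5) (nat_lit 197) (nat_lit 4) (nat_lit 195) (nat_lit 4) (nat_lit 345) (nat_lit 323) (nat_lit 232)) (XT.nd (nat_lit 78) (nat_lit 152) (nat_lit 0) (XT.lf (nat_lit 0) (nat_lit 297385558973) (nat_lit 76) (nat_lit 297398065497) (nat_lit 76) (nat_lit 96445210871) (nat_lit 194) (nat_lit 4) (nat_lit 195) (nat_lit 5) (nat_lit 195) (nat_lit 4) (nat_lit 346) (nat_lit 323) (nat_lit 231)) (XT.lf (nat_lit 0) (nat_lit 60886632447) (nat_lit 76) (nat_lit 60899207251) (nat_lit 152) (nat_lit 636460966830) (nat_lit 192) (nat_lit 5) (nat_lit 193) (nat_lit 5) (nat_lit 194) (nat_lit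 4) (nat_lit 347) (nat_lit 323) (nat_lit 230))))) (XT.nd (nat_lit 156) (nat_lit 228) (nat_lit 0) (XT.nd (nat_lit 78) (nat_lit 76) (nat_lit 0) (XT.lf (nat_lit 0) (nat_lit 393184968104) (nat_lit 152) (nat_lit 218454230624) (nat_lit 0) (nat_lit 218443244384) (nat_lit 192) (nat_lit 5) (nat_lit 194) (nat_lit 4) (nat_lit 192) (nat_lit 4) (nat_lit 348) (nat_lit 323) (nat_lit 229)) (XT.lf (nat_lit 0) (nat_lit 361577445977) (nat_lit 76) (nat_lit 361588477112) (nat_lit 76) (nat_lit 186846708497) (nat_lit 191) (nat_lit 4) (nat_lit 192) (nat_lit 5) (nat_lit 192) (nat_lit 4) (nat_lit 349) (nat_lit 323) (nat_lit 228))) (XT.nd (nat_lit 78) (nat_lit 76) (nat_lit 0) (XT.lf (nat_lit 0) (nat_lit 52944850539) (nat_lit 76) (nat_lit 52955920713) (nat_lit 152) (nat_lit 893282766564) (nat_lit 189) (nat_lit 5) (nat_lit 190) (nat_lit 5) (nat_lit 191) (nat_lit 4) (nat_lit 350) (nat_lit 323) (nat_lit 227)) (XT.nd (nat_lit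 78) (nat_lit 76) (nat_lit 0) (XT.lf (nat_lit 0) (nat_lit 465968026725) (nat_lit 152) (nat_lit 314028255003) (nat_lit 0) (nat_lit 314018599246) (nat_lit 189) (nat_lit 5) (nat_lit 191) (nat_lit 4) (nat_lit 189) (nat_lit 4) (nat_lit 351) (nat_lit 323) (nat_lit 226)) (XT.lf (nat_lit 0) (nat_lit 450607990687) (nat_lit 76) (nat_lit 450617672113) (nat_lit 76) (nat_lit 298668218965) (nat_lit 188) (nat_lit 4) (nat_lit 189) (nat_lit 5) (nat_lit 189) (nat_lit 4) (nat_lit 352) (nat_lit 323) (nat_lit 225)))))) (XT.nd (nat_lit 390) (nat_lit 456) (nat_lit 0) (XT.nd (nat_lit 156) (nat_lit 228) (nat_lit 0) (XT.nd (nat_lit 78) (nat_lit 0) (nat_lit 0) (XT.lf (nat_lit 0) (nat_lit 46038973458) (nat_lit 76) (nat_lit 46048677204) (nat_lit 152) (nat_lit 1226204005491) (nat_lit 186) (nat_lit 5) (nat_lit 187) (nat_lit 5) (nat_lit 188) (nat_lit 4) (nat_lit 353) (nat_lit 323) (nat_lit 224)) (XT.lf (nat_lit 0) (nat_lit 569269566050)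 (nat_lit 152) (nat_lit 437148025423) (nat_lit 0) (nat_lit 437139570505) (nat_lit 186) (nat_lit 5) (nat_lit 188) (nat_lit 4) (nat_lit 186) (nat_lit 4) (nat_lit 354) (nat_lit 323) (nat_lit 223))) (XT.nd (nat_lit 78) (nat_lit 152) (nat_lit 0) (XT.lf (nat_lit 0) (nat_lit 571948063509) (nat_lit 76) (nat_lit 571956533103) (nat_lit 76) (nat_lit 439826522882) (nat_lit 185) (nat_lit 4) (nat_lit 186) (nat_lit 5) (nat_lit 186) (nat_lit 4) (nat_lit 355) (nat_lit 323) (nat_lit 222)) (XT.nd (nat_lit 78) (nat_lit 0) (nat_lit 0) (XT.lf (nat_lit 0) (nat_lit 40033874520) (nat_lit 76) (nat_lit 40042356876) (nat_lit 152) (nat_lit 1660643988593) (nat_lit 183) (nat_lit 5) (nat_lit 184) (nat_lit 5) (nat_lit 185) (nat_lit 4) (nat_lit 356) (nat_lit 323) (nat_lit 221)) (XT.lf (nat_lit 0) (nat_lit 712012770356) (nat_lit 152) (nat_lit 597124474159) (nat_lit 0) (nat_lit 597117088547) (nat_lit 183) (nat_lit 5) (nat_lit 185)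 (nat_lit 4) (nat_lit 183) (nat_lit 4) (nat_lit 357) (nat_lit 323) (nat_lit 220))))) (XT.nd (nat_lit 156) (nat_lit 228) (nat_lit 0) (XT.nd (nat_lit 78) (nat_lit 152) (nat_lit 0) (XT.lf (nat_lit 0) (nat_lit 735548280217) (nat_lit 76) (nat_lit 735555674219) (nat_lit 76) (nat_lit 620659984019) (nat_lit 182) (nat_lit 4) (nat_lit 183) (nat_lit 5) (nat_lit 183) (nat_lit 4) (nat_lit 358) (nat_lit 323) (nat_lit 219)) (XT.lf (nat_lit 0) (nat_lit 34812055970) (nat_lit 76) (nat_lit 34819457269) (nat_lit 152) (nat_lit 2230105331143) (nat_lit 180) (nat_lit 5) (nat_lit 181) (nat_lit 5) (nat_lit 182) (nat_lit 4) (nat_lit 359) (nat_lit 323) (nat_lit 218))) (XT.nd (nat_lit 78) (nat_lit 228) (nat_lit 0) (XT.lf (nat_lit 0) (nat_lit 906118419293) (nat_lit 152) (nat_lit 806215553034) (nat_lit 0) (nat_lit 806209111604) (nat_lit 180) (nat_lit 5) (nat_lit 182) (nat_lit 4) (nat_lit 180) (nat_lit 4) (nat_lit 360) (nat_lit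 323) (nat_lit 217)) (XT.nd (nat_lit 78) (nat_lit 152) (nat_lit 0) (XT.lf (nat_lit 0) (nat_lit 954629535362) (nat_lit 76) (nat_lit 954635981589) (nat_lit 76) (nat_lit 854726669103) (nat_lit 179) (nat_lit 4) (nat_lit 180) (nat_lit 5) (nat_lit 180) (nat_lit 4) (nat_lit 361) (nat_lit 323) (nat_lit 216)) (XT.lf (nat_lit 0) (nat_lit 30271347969) (nat_lit 76) (nat_lit 30277798368) (nat_lit 152) (nat_lit 2978795747265) (nat_lit 177) (nat_lit 5) (nat_lit 178) (nat_lit 5) (nat_lit 179) (nat_lit 4) (nat_lit 362) (nat_lit 323) (nat_lit 215))))))) (XT.nd (nat_lit 780) (nat_lit 760) (nat_lit 0) (XT.nd (nat_lit 390) (nat_lit 380) (nat_lit 0) (XT.nd (nat_lit 156) (nat_lit 228) (nat_lit 0) (XT.nd (nat_lit 78) (nat_lit 76) (nat_lit 0) (XT.lf (nat_lit 0) (nat_lit 1167455979293) (nat_lit 152) (nat_lit 1080583921677) (nat_lit 0) (nat_lit 1080578309479) (nat_lit 177) (nat_lit 5) (nat_lit 179) (nat_lit 4) (nat_lit 177)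 (nat_lit 4) (nat_lit 363) (nat_lit 323) (nat_lit 214)) (XT.lf (nat_lit 0) (nat_lit 1246729682071) (nat_lit 76) (nat_lit 1246735297012) (nat_lit 76) (nat_lit 1159857624455) (nat_lit 176) (nat_lit 4) (nat_lit 177) (nat_lit 5) (nat_lit 177) (nat_lit 4) (nat_lit 364) (nat_lit 323) (nat_lit 213))) (XT.nd (nat_lit 78) (nat_lit 76) (nat_lit 0) (XT.lf (nat_lit 0) (nat_lit 26322908391) (nat_lit 76) (nat_lit 26328525717) (nat_lit 152) (nat_lit 3965093420269) (nat_lit 174) (nat_lit 5) (nat_lit 175) (nat_lit 5) (nat_lit 176) (nat_lit 4) (nat_lit 365) (nat_lit 323) (nat_lit 212)) (XT.nd (nat_lit 78) (nat_lit 76) (nat_lit 0) (XT.lf (nat_lit 0) (nat_lit 1517103460246) (nat_lit 152) (nat_lit 1441562540580) (nat_lit 0) (nat_lit 1441557654145) (nat_lit 174) (nat_lit 5) (nat_lit 176) (nat_lit 4) (nat_lit 174) (nat_lit 4) (nat_lit 366) (nat_lit 323) (nat_lit 211)) (XT.lf (nat_lit 0) (nat_lit 1635088808384) (nat_lit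 76) (nat_lit 1635093696386) (nat_lit 76) (nat_lit 1559547888717) (nat_lit 173) (nat_lit 4) (nat_lit 174) (nat_lit 5) (nat_lit 174) (nat_lit 4) (nat_lit 367) (nat_lit 323) (nat_lit 210))))) (XT.nd (nat_lit 156) (nat_lit 228) (nat_lit 0) (XT.nd (nat_lit 78) (nat_lit 0) (nat_lit 0) (XT.lf (nat_lit 0) (nat_lit 22889483907) (nat_lit 76) (nat_lit 22894373274) (nat_lit 152) (nat_lit 5266128263090) (nat_lit 171) (nat_lit 5) (nat_lit 172) (nat_lit 5) (nat_lit 173) (nat_lit 4) (nat_lit 368) (nat_lit 323) (nat_lit 209)) (XT.lf (nat_lit 0) (nat_lit 1983015348711) (nat_lit 152) (nat_lit 1917327592479) (nat_lit 0) (nat_lit 1917323339825) (nat_lit 171) (nat_lit 5) (nat_lit 173) (nat_lit 4) (nat_lit 171) (nat_lit 4) (nat_lit 369) (nat_lit 323) (nat_lit 208))) (XT.nd (nat_lit 78) (nat_lit 152) (nat_lit 0) (XT.lf (nat_lit 0) (nat_lit 2150482171246) (nat_lit 76) (nat_lit 2150486424797) (nat_lit 76) (nat_lit 2084794415014)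 (nat_lit 170) (nat_lit 4) (nat_lit 171) (nat_lit 5) (nat_lit 171) (nat_lit 4) (nat_lit 370) (nat_lit 323) (nat_lit 207)) (XT.nd (nat_lit 78) (nat_lit 0) (nat_lit 0) (XT.lf (nat_lit 0) (nat_lit 19903898106) (nat_lit 76) (nat_lit 19908152437) (nat_lit 152) (nat_lit 6983839163771) (nat_lit 168) (nat_lit 5) (nat_lit 169) (nat_lit 5) (nat_lit 170) (nat_lit 4) (nat_lit 371) (nat_lit 323) (nat_lit 206)) (XT.lf (nat_lit 0) (nat_lit 2602229991325) (nat_lit 152) (nat_lit 2545110203297) (nat_lit 0) (nat_lit 2545106503290) (nat_lit 168) (nat_lit 5) (nat_lit 170) (nat_lit 4) (nat_lit 168) (nat_lit 4) (nat_lit 372) (nat_lit 323) (nat_lit 205)))))) (XT.nd (nat_lit 390) (nat_lit 304) (nat_lit 0) (XT.nd (nat_lit 156) (nat_lit 228) (nat_lit 0) (XT.nd (nat_lit 78) (nat_lit 152) (nat_lit 0) (XT.lf (nat_lit 0) (nat_lit 2833645039382) (nat_lit 76) (nat_lit 2833648739903) (nat_lit 76) (nat_lit 2776525251355) (nat_lit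 167) (nat_lit 4) (nat_lit 168) (nat_lit 5) (nat_lit 168) (nat_lit 4) (nat_lit 373) (nat_lit 323) (nat_lit 204)) (XT.lf (nat_lit 0) (nat_lit 17307736944) (nat_lit 76) (nat_lit 17311437910) (nat_lit 152) (nat_lit 9252983412913) (nat_lit 165) (nat_lit 5) (nat_lit 166) (nat_lit 5) (nat_lit 167) (nat_lit 4) (nat_lit 374) (nat_lit 323) (nat_lit 203))) (XT.nd (nat_lit 78) (nat_lit 228) (nat_lit 0) (XT.lf (nat_lit 0) (nat_lit 3423790200131) (nat_lit 152) (nat_lit 3374120819237) (nat_lit 0) (nat_lit 3374117600668) (nat_lit 165) (nat_lit 5) (nat_lit 167) (nat_lit 4) (nat_lit 165) (nat_lit 4) (nat_lit 375) (nat_lit 323) (nat_lit 202)) (XT.nd (nat_lit 78) (nat_lit 152) (nat_lit 0) (XT.lf (nat_lit 0) (nat_lit 3738480232796) (nat_lit 76) (nat_lit 3738483451658) (nat_lit 76) (nat_lit 3688810851903) (nat_lit 164) (nat_lit 4) (nat_lit 165) (nat_lit 5) (nat_lit 165) (nat_lit 4) (nat_lit 376) (nat_lit 323) (nat_lit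 201)) (XT.lf (nat_lit 0) (nat_lit 15050205730) (nat_lit 76) (nat_lit 15053424846) (nat_lit 152) (nat_lit 12251728058613) (nat_lit 162) (nat_lit 5) (nat_lit 163) (nat_lit 5) (nat_lit 164) (nat_lit 4) (nat_lit 377) (nat_lit 323) (nat_lit 200))))) (XT.nd (nat_lit 156) (nat_lit 228) (nat_lit 0) (XT.nd (nat_lit 78) (nat_lit 76) (nat_lit 0) (XT.lf (nat_lit 0) (nat_lit 4512606919049) (nat_lit 152) (nat_lit 4469416153054) (nat_lit 0) (nat_lit 4469413353630) (nat_lit 162) (nat_lit 5) (nat_lit 164) (nat_lit 4) (nat_lit 162) (nat_lit 4) (nat_lit 378) (nat_lit 323) (nat_lit 199)) (XT.lf (nat_lit 0) (nat_lit 4936300689194) (nat_lit 76) (nat_lit 4936303488787) (nat_lit 76) (nat_lit 4893109923200) (nat_lit 161) (nat_lit 4) (nat_lit 162) (nat_lit 5) (nat_lit 162) (nat_lit 4) (nat_lit 379) (nat_lit 323) (nat_lit 198))) (XT.nd (nat_lit 78) (nat_lit 76) (nat_lit 0) (XT.lf (nat_lit 0) (nat_lit 13087135241) (nat_lit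 76) (nat_lit 13089934979) (nat_lit 152) (nat_lit 16215656005604) (nat_lit 159) (nat_lit 5) (nat_lit 160) (nat_lit 5) (nat_lit 161) (nat_lit 4) (nat_lit 380) (nat_lit 323) (nat_lit 197)) (XT.nd (nat_lit 78) (nat_lit 76) (nat_lit 0) (XT.lf (nat_lit 0) (nat_lit 5954569936697) (nat_lit 152) (nat_lit 5917012748876) (nat_lit 0) (nat_lit 5917010314210) (nat_lit 159) (nat_lit 5) (nat_lit 161) (nat_lit 4) (nat_lit 159) (nat_lit 4) (nat_lit 381) (nat_lit 323) (nat_lit 196)) (XT.lf (nat_lit 0) (nat_lit 6521440775804) (nat_lit 76) (nat_lit 6521443210565) (nat_lit 76) (nat_lit 6483883587983) (nat_lit 158) (nat_lit 4) (nat_lit 159) (nat_lit 5) (nat_lit 159) (nat_lit 4) (nat_lit 382) (nat_lit 323) (nat_lit 195))))))))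
noncomputable def xc85 : XT := (XT.nd (nat_lit 1560) (nat_lit 1596) (nat_lit 0) (XT.nd (nat_lit 780) (nat_lit 760) (nat_lit 0) (XT.nd (nat_lit 390) (nat_lit 532) (nat_lit 0) (XT.nd (nat_lit 156) (nat_lit 0) (nat_lit 76) (XT.nd (nat_lit 78) (nat_lit 0) (nat_lit 0) (XT.lf (nat_lit 0) (nat_lit 17778807192) (nat_lit 380) (nat_lit 20091362468) (nat_lit 380) (nat_lit 20091362468) (nat_lit 215) (nat_lit 3) (nat_lit 220) (nat_lit 3) (nat_lit 220) (nat_lit 5) (nat_lit 324) (nat_lit 324) (nat_lit 252)) (XT.lf (nat_lit 76) (nat_lit 19516281531) (nat_lit 0) (nat_lit 19520802407) (nat_lit 380) (nat_lit 85458312868) (nat_lit 216) (nat_lit 5) (nat_lit 215) (nat_lit 3) (nat_lit 220) (nat_lit 5) (nat_lit 325) (nat_lit 324) (nat_lit 251))) (XT.nd (nat_lit 78) (nat_lit 0) (nat_lit 0) (XT.lf (nat_lit 0) (nat_lit 47106949655) (nat_lit 304) (nat_lit 43321853926) (nat_lit 380) (nat_lit 43314504297) (nat_lit 216) (nat_lit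 5) (nat_lit 220) (nat_lit 5) (nat_lit 221) (nat_lit 5) (nat_lit 326) (nat_lit 324) (nat_lit 250)) (XT.nd (nat_lit 78) (nat_lit 0) (nat_lit 76) (XT.lf (nat_lit 76) (nat_lit 29258683983) (nat_lit 0) (nat_lit 29269006162) (nat_lit 380) (nat_lit 85529656227) (nat_lit 217) (nat_lit 5) (nat_lit 216) (nat_lit 5) (nat_lit 221) (nat_lit 5) (nat_lit 327) (nat_lit 324) (nat_lit 249)) (XT.lf (nat_lit 0) (nat_lit 75733700526) (nat_lit 304) (nat_lit 39792594887) (nat_lit 76) (nat_lit 39781371405) (nat_lit 217) (nat_lit 5) (nat_lit 221) (nat_lit 5) (nat_lit 218) (nat_lit 5) (nat_lit 328) (nat_lit 324) (nat_lit 248))))) (XT.nd (nat_lit 156) (nat_lit 380) (nat_lit 0) (XT.nd (nat_lit 78) (nat_lit 0) (nat_lit 0) (XT.lf (nat_lit 0) (nat_lit 49474643029) (nat_lit 304) (nat_lit 49487821010) (nat_lit 380) (nat_lit 68766793555) (nat_lit 213) (nat_lit 5) (nat_lit 217) (nat_lit 5) (nat_lit 218) (nat_lit 5) (nat_lit 329)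 (nat_lit 324) (nat_lit 247)) (XT.lf (nat_lit 0) (nat_lit 128949663204) (nat_lit 380) (nat_lit 26293121306) (nat_lit 76) (nat_lit 26280184309) (nat_lit 213) (nat_lit 5) (nat_lit 218) (nat_lit 5) (nat_lit 214) (nat_lit 5) (nat_lit 330) (nat_lit 324) (nat_lit 246))) (XT.nd (nat_lit 78) (nat_lit 228) (nat_lit 0) (XT.lf (nat_lit 0) (nat_lit 84640821527) (nat_lit 152) (nat_lit 84655043639) (nat_lit 228) (nat_lit 27210733121) (nat_lit 211) (nat_lit 5) (nat_lit 213) (nat_lit 5) (nat_lit 214) (nat_lit 5) (nat_lit 331) (nat_lit 324) (nat_lit 245)) (XT.nd (nat_lit 78) (nat_lit 0) (nat_lit 0) (XT.lf (nat_lit 0) (nat_lit 1636977680) (nat_lit 152) (nat_lit 1652317284) (nat_lit 228) (nat_lit 210210242784) (nat_lit 208) (nat_lit 5) (nat_lit 210) (nat_lit 5) (nat_lit 211) (nat_lit 5) (nat_lit 332) (nat_lit 324) (nat_lit 244)) (XT.lf (nat_lit 0) (nat_lit 45588150506) (nat_lit 228) (nat_lit 92885818204) (nat_lit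 76) (nat_lit 92871634434) (nat_lit 208) (nat_lit 5) (nat_lit 211) (nat_lit 5) (nat_lit 209) (nat_lit 5) (nat_lit 333) (nat_lit 324) (nat_lit 243)))))) (XT.nd (nat_lit 390) (nat_lit 304) (nat_lit 0) (XT.nd (nat_lit 156) (nat_lit 304) (nat_lit 0) (XT.nd (nat_lit 78) (nat_lit 0) (nat_lit 0) (XT.lf (nat_lit 0) (nat_lit 48144407499) (nat_lit 152) (nat_lit 48159326038) (nat_lit 228) (nat_lit 155254059941) (nat_lit 206) (nat_lit 5) (nat_lit 208) (nat_lit 5) (nat_lit 209) (nat_lit 5) (nat_lit 334) (nat_lit 324) (nat_lit 242)) (XT.lf (nat_lit 0) (nat_lit 162019459113) (nat_lit 228) (nat_lit 55843480358) (nat_lit 76) (nat_lit 55829952125) (nat_lit 206) (nat_lit 5) (nat_lit 209) (nat_lit 5) (nat_lit 207) (nat_lit 4) (nat_lit 335) (nat_lit 324) (nat_lit 241))) (XT.nd (nat_lit 78) (nat_lit 228) (nat_lit 0) (XT.lf (nat_lit 0) (nat_lit 122471417018) (nat_lit 76) (nat_lit 122485428374) (nat_lit 152) (nat_lit 53086763762)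 (nat_lit 205) (nat_lit 5) (nat_lit 206) (nat_lit 5) (nat_lit 207) (nat_lit 4) (nat_lit 336) (nat_lit 324) (nat_lit 240)) (XT.nd (nat_lit 78) (nat_lit 0) (nat_lit 0) (XT.lf (nat_lit 0) (nat_lit 8199403864) (nat_lit 152) (nat_lit 8213835325) (nat_lit 228) (nat_lit 309035349095) (nat_lit 202) (nat_lit 5) (nat_lit 204) (nat_lit 5) (nat_lit 205) (nat_lit 5) (nat_lit 337) (nat_lit 324) (nat_lit 239)) (XT.lf (nat_lit 0) (nat_lit 105618961201) (nat_lit 228) (nat_lit 124385829931) (nat_lit 76) (nat_lit 124372963173) (nat_lit 202) (nat_lit 5) (nat_lit 205) (nat_lit 5) (nat_lit 203) (nat_lit 4) (nat_lit 338) (nat_lit 324) (nat_lit 238))))) (XT.nd (nat_lit 156) (nat_lit 228) (nat_lit 0) (XT.nd (nat_lit 78) (nat_lit 0) (nat_lit 0) (XT.lf (nat_lit 0) (nat_lit 106496550098) (nat_lit 76) (nat_lit 106509693083) (nat_lit 152) (nat_lit 173919946801) (nat_lit 201) (nat_lit 5) (nat_lit 202) (nat_lit 5) (nat_lit 203)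 (nat_lit 4) (nat_lit 339) (nat_lit 324) (nat_lit 237)) (XT.lf (nat_lit 0) (nat_lit 344783380640) (nat_lit 152) (nat_lit 39171441720) (nat_lit 0) (nat_lit 39159804171) (nat_lit 201) (nat_lit 5) (nat_lit 203) (nat_lit 4) (nat_lit 201) (nat_lit 4) (nat_lit 340) (nat_lit 324) (nat_lit 236))) (XT.nd (nat_lit 78) (nat_lit 76) (nat_lit 0) (XT.lf (nat_lit 0) (nat_lit 45201010266) (nat_lit 152) (nat_lit 208441586018) (nat_lit 76) (nat_lit 208429766845) (nat_lit 199) (nat_lit 5) (nat_lit 201) (nat_lit 5) (nat_lit 200) (nat_lit 4) (nat_lit 341) (nat_lit 324) (nat_lit 235)) (XT.nd (nat_lit 78) (nat_lit 0) (nat_lit 0) (XT.lf (nat_lit 0) (nat_lit 92605504620) (nat_lit 76) (nat_lit 92617481726) (nat_lit 152) (nat_lit 320194338615) (nat_lit 198) (nat_lit 5) (nat_lit 199) (nat_lit 5) (nat_lit 200) (nat_lit 4) (nat_lit 342) (nat_lit 324) (nat_lit 234)) (XT.lf (nat_lit 0) (nat_lit 361495501078) (nat_lit 152) (nat_lit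 95745988975) (nat_lit 0) (nat_lit 95735454679) (nat_lit 198) (nat_lit 5) (nat_lit 200) (nat_lit 4) (nat_lit 198) (nat_lit 4) (nat_lit 343) (nat_lit 324) (nat_lit 233))))))) (XT.nd (nat_lit 780) (nat_lit 836) (nat_lit 0) (XT.nd (nat_lit 390) (nat_lit 304) (nat_lit 0) (XT.nd (nat_lit 156) (nat_lit 228) (nat_lit 0) (XT.nd (nat_lit 78) (nat_lit 152) (nat_lit 0) (XT.lf (nat_lit 0) (nat_lit 290314884746) (nat_lit 76) (nat_lit 290325522886) (nat_lit 76) (nat_lit 24565372643) (nat_lit 197) (nat_lit 4) (nat_lit 198) (nat_lit 5) (nat_lit 198) (nat_lit 4) (nat_lit 344) (nat_lit 324) (nat_lit 232)) (XT.lf (nat_lit 0) (nat_lit 80526416484) (nat_lit 76) (nat_lit 80537144923) (nat_lit 152) (nat_lit 501879077144) (nat_lit 195) (nat_lit 5) (nat_lit 196) (nat_lit 5) (nat_lit 197) (nat_lit 4) (nat_lit 345) (nat_lit 324) (nat_lit 231))) (XT.nd (nat_lit 78) (nat_lit 228) (nat_lit 0) (XT.lf (nat_lit 0) (nat_lit 395920727588)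 (nat_lit 152) (nat_lit 164834195324) (nat_lit 0) (nat_lit 164824797968) (nat_lit 195) (nat_lit 5) (nat_lit 197) (nat_lit 4) (nat_lit 195) (nat_lit 4) (nat_lit 346) (nat_lit 324) (nat_lit 230)) (XT.nd (nat_lit 78) (nat_lit 152) (nat_lit 0) (XT.lf (nat_lit 0) (nat_lit 341996664512) (nat_lit 76) (nat_lit 342006121241) (nat_lit 76) (nat_lit 110910132248) (nat_lit 194) (nat_lit 4) (nat_lit 195) (nat_lit 5) (nat_lit 195) (nat_lit 4) (nat_lit 347) (nat_lit 324) (nat_lit 229)) (XT.lf (nat_lit 0) (nat_lit 70022908379) (nat_lit 76) (nat_lit 70032416737) (nat_lit 152) (nat_lit 731928260973) (nat_lit 192) (nat_lit 5) (nat_lit 193) (nat_lit 5) (nat_lit 194) (nat_lit 4) (nat_lit 348) (nat_lit 324) (nat_lit 228))))) (XT.nd (nat_lit 156) (nat_lit 228) (nat_lit 0) (XT.nd (nat_lit 78) (nat_lit 76) (nat_lit 0) (XT.lf (nat_lit 0) (nat_lit 452164173042) (nat_lit 152) (nat_lit 251219362378) (nat_lit 0) (nat_lit 251211055201)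 (nat_lit 192) (nat_lit 5) (nat_lit 194) (nat_lit 4) (nat_lit 192) (nat_lit 4) (nat_lit 349) (nat_lit 324) (nat_lit 227)) (XT.lf (nat_lit 0) (nat_lit 415816929221) (nat_lit 76) (nat_lit 415825270344) (nat_lit 76) (nat_lit 214872118557) (nat_lit 191) (nat_lit 4) (nat_lit 192) (nat_lit 5) (nat_lit 192) (nat_lit 4) (nat_lit 350) (nat_lit 324) (nat_lit 226))) (XT.nd (nat_lit 78) (nat_lit 76) (nat_lit 0) (XT.lf (nat_lit 0) (nat_lit 60889449826) (nat_lit 76) (nat_lit 60897820468) (nat_lit 152) (nat_lit 1027273590692) (nat_lit 189) (nat_lit 5) (nat_lit 190) (nat_lit 5) (nat_lit 191) (nat_lit 4) (nat_lit 351) (nat_lit 324) (nat_lit 225)) (XT.nd (nat_lit 78) (nat_lit 76) (nat_lit 0) (XT.lf (nat_lit 0) (nat_lit 535864487241) (nat_lit 152) (nat_lit 361129869272) (nat_lit 0) (nat_lit 361122568132) (nat_lit 189) (nat_lit 5) (nat_lit 191) (nat_lit 4) (nat_lit 189) (nat_lit 4) (nat_lit 352) (nat_lit 324) (nat_lit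 224)) (XT.lf (nat_lit 0) (nat_lit 518201694000) (nat_lit 76) (nat_lit 518209014549) (nat_lit 76) (nat_lit 343467076031) (nat_lit 188) (nat_lit 4) (nat_lit 189) (nat_lit 5) (nat_lit 189) (nat_lit 4) (nat_lit 353) (nat_lit 324) (nat_lit 223)))))) (XT.nd (nat_lit 390) (nat_lit 456) (nat_lit 0) (XT.nd (nat_lit 156) (nat_lit 228) (nat_lit 0) (XT.nd (nat_lit 78) (nat_lit 0) (nat_lit 0) (XT.lf (nat_lit 0) (nat_lit 52947327251) (nat_lit 76) (nat_lit 52954664677) (nat_lit 152) (nat_lit 1410133233600) (nat_lit 186) (nat_lit 5) (nat_lit 187) (nat_lit 5) (nat_lit 188) (nat_lit 4) (nat_lit 354) (nat_lit 324) (nat_lit 222)) (XT.lf (nat_lit 0) (nat_lit 654661086245) (nat_lit 152) (nat_lit 502717940185) (nat_lit 0) (nat_lit 502711547052) (nat_lit 186) (nat_lit 5) (nat_lit 188) (nat_lit 4) (nat_lit 186) (nat_lit 4) (nat_lit 355) (nat_lit 324) (nat_lit 221))) (XT.nd (nat_lit 78) (nat_lit 152) (nat_lit 0) (XT.lf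 (nat_lit 0) (nat_lit 657742458040) (nat_lit 76) (nat_lit 657748862269) (nat_lit 76) (nat_lit 505799311980) (nat_lit 185) (nat_lit 4) (nat_lit 186) (nat_lit 5) (nat_lit 186) (nat_lit 4) (nat_lit 356) (nat_lit 324) (nat_lit 220)) (XT.nd (nat_lit 78) (nat_lit 0) (nat_lit 0) (XT.lf (nat_lit 0) (nat_lit 46041142454) (nat_lit 76) (nat_lit 46047556333) (nat_lit 152) (nat_lit 1909739399299) (nat_lit 183) (nat_lit 5) (nat_lit 184) (nat_lit 5) (nat_lit 185) (nat_lit 4) (nat_lit 357) (nat_lit 324) (nat_lit 219)) (XT.lf (nat_lit 0) (nat_lit 818815625448) (nat_lit 152) (nat_lit 686691150613) (nat_lit 0) (nat_lit 686685566030) (nat_lit 183) (nat_lit 5) (nat_lit 185) (nat_lit 4) (nat_lit 183) (nat_lit 4) (nat_lit 358) (nat_lit 324) (nat_lit 218))))) (XT.nd (nat_lit 156) (nat_lit 228) (nat_lit 0) (XT.nd (nat_lit 78) (nat_lit 152) (nat_lit 0) (XT.lf (nat_lit 0) (nat_lit 845882426252) (nat_lit 76) (nat_lit 845888017180)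 (nat_lit 76) (nat_lit 713757951417) (nat_lit 182) (nat_lit 4) (nat_lit 183) (nat_lit 5) (nat_lit 183) (nat_lit 4) (nat_lit 359) (nat_lit 324) (nat_lit 217)) (XT.lf (nat_lit 0) (nat_lit 40035769370) (nat_lit 76) (nat_lit 40041365815) (nat_lit 152) (nat_lit 2564620101612) (nat_lit 180) (nat_lit 5) (nat_lit 181) (nat_lit 5) (nat_lit 182) (nat_lit 4) (nat_lit 360) (nat_lit 324) (nat_lit 216))) (XT.nd (nat_lit 78) (nat_lit 228) (nat_lit 0) (XT.lf (nat_lit 0) (nat_lit 1042036996781) (nat_lit 152) (nat_lit 927146149098) (nat_lit 0) (nat_lit 927141278452) (nat_lit 180) (nat_lit 5) (nat_lit 182) (nat_lit 4) (nat_lit 180) (nat_lit 4) (nat_lit 361) (nat_lit 324) (nat_lit 215)) (XT.nd (nat_lit 78) (nat_lit 152) (nat_lit 0) (XT.lf (nat_lit 0) (nat_lit 1097825623607) (nat_lit 76) (nat_lit 1097830497881) (nat_lit 76) (nat_lit 982934775925) (nat_lit 179) (nat_lit 4) (nat_lit 180) (nat_lit 5) (nat_lit 180) (nat_lit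 4) (nat_lit 362) (nat_lit 324) (nat_lit 214)) (XT.lf (nat_lit 0) (nat_lit 34813708678) (nat_lit 76) (nat_lit 34818586107) (nat_lit 152) (nat_lit 3425614216384) (nat_lit 177) (nat_lit 5) (nat_lit 178) (nat_lit 5) (nat_lit 179) (nat_lit 4) (nat_lit 363) (nat_lit 324) (nat_lit 213))))))))
noncomputable def xc86 : XT := (XT.nd (nat_lit 43914) (nat_lit 0) (nat_lit 2888) (XT.nd (nat_lit 780) (nat_lit 684) (nat_lit 0) (XT.nd (nat_lit 390) (nat_lit 380) (nat_lit 0) (XT.nd (nat_lit 156) (nat_lit 228) (nat_lit 0) (XT.nd (nat_lit 78) (nat_lit 76) (nat_lit 0) (XT.lf (nat_lit 0) (nat_lit 1342575083160) (nat_lit 152) (nat_lit 1242669998219) (nat_lit 0) (nat_lit 1242665754591) (nat_lit 177) (nat_lit 5) (nat_lit 179) (nat_lit 4) (nat_lit 177) (nat_lit 4) (nat_lit 364) (nat_lit 324) (nat_lit 212)) (XT.lf (nat_lit 0) (nat_lit 1433740577377) (nat_lit 76) (nat_lit 1433744823079) (nat_lit 76) (nat_lit 1333835492436)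 (nat_lit 176) (nat_lit 4) (nat_lit 177) (nat_lit 5) (nat_lit 177) (nat_lit 4) (nat_lit 365) (nat_lit 324) (nat_lit 211))) (XT.nd (nat_lit 78) (nat_lit 76) (nat_lit 0) (XT.lf (nat_lit 0) (nat_lit 30272787972) (nat_lit 76) (nat_lit 30277035477) (nat_lit 152) (nat_lit 4559856657949) (nat_lit 174) (nat_lit 5) (nat_lit 175) (nat_lit 5) (nat_lit 176) (nat_lit 4) (nat_lit 366) (nat_lit 324) (nat_lit 210)) (XT.nd (nat_lit 78) (nat_lit 76) (nat_lit 0) (XT.lf (nat_lit 0) (nat_lit 1744669593260) (nat_lit 152) (nat_lit 1657795606354) (nat_lit 0) (nat_lit 1657791911508) (nat_lit 174) (nat_lit 5) (nat_lit 176) (nat_lit 4) (nat_lit 174) (nat_lit 4) (nat_lit 367) (nat_lit 324) (nat_lit 209)) (XT.lf (nat_lit 0) (nat_lit 1880353385167) (nat_lit 76) (nat_lit 1880357081199) (nat_lit 76) (nat_lit 1793479398262) (nat_lit 173) (nat_lit 4) (nat_lit 174) (nat_lit 5) (nat_lit 174) (nat_lit 4) (nat_lit 368) (nat_lit 324)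 (nat_lit 208))))) (XT.nd (nat_lit 156) (nat_lit 228) (nat_lit 0) (XT.nd (nat_lit 78) (nat_lit 0) (nat_lit 0) (XT.lf (nat_lit 0) (nat_lit 26324162206) (nat_lit 76) (nat_lit 26327859270) (nat_lit 152) (nat_lit 6056046828978) (nat_lit 171) (nat_lit 5) (nat_lit 172) (nat_lit 5) (nat_lit 173) (nat_lit 4) (nat_lit 369) (nat_lit 324) (nat_lit 207)) (XT.lf (nat_lit 0) (nat_lit 2280468184462) (nat_lit 152) (nat_lit 2204925587153) (nat_lit 0) (nat_lit 2204922371535) (nat_lit 171) (nat_lit 5) (nat_lit 173) (nat_lit 4) (nat_lit 171) (nat_lit 4) (nat_lit 370) (nat_lit 324) (nat_lit 206))) (XT.nd (nat_lit 78) (nat_lit 152) (nat_lit 0) (XT.lf (nat_lit 0) (nat_lit 2473055589122) (nat_lit 76) (nat_lit 2473058805418) (nat_lit 76) (nat_lit 2397512991813) (nat_lit 170) (nat_lit 4) (nat_lit 171) (nat_lit 5) (nat_lit 171) (nat_lit 4) (nat_lit 371) (nat_lit 324) (nat_lit 205)) (XT.nd (nat_lit 78) (nat_lit 0) (nat_lit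 0) (XT.lf (nat_lit 0) (nat_lit 22890575118) (nat_lit 76) (nat_lit 22893792003) (nat_lit 152) (nat_lit 8031414452990) (nat_lit 168) (nat_lit 5) (nat_lit 169) (nat_lit 5) (nat_lit 170) (nat_lit 4) (nat_lit 372) (nat_lit 324) (nat_lit 204)) (XT.lf (nat_lit 0) (nat_lit 2992564953633) (nat_lit 152) (nat_lit 2926875738581) (nat_lit 0) (nat_lit 2926872940844) (nat_lit 168) (nat_lit 5) (nat_lit 170) (nat_lit 4) (nat_lit 168) (nat_lit 4) (nat_lit 373) (nat_lit 324) (nat_lit 203)))))) (XT.nd (nat_lit 390) (nat_lit 228) (nat_lit 0) (XT.nd (nat_lit 156) (nat_lit 228) (nat_lit 0) (XT.nd (nat_lit 78) (nat_lit 152) (nat_lit 0) (XT.lf (nat_lit 0) (nat_lit 3258692745264) (nat_lit 76) (nat_lit 3258695543389) (nat_lit 76) (nat_lit 3193003530213) (nat_lit 167) (nat_lit 4) (nat_lit 168) (nat_lit 5) (nat_lit 168) (nat_lit 4) (nat_lit 374) (nat_lit 324) (nat_lit 202)) (XT.lf (nat_lit 0) (nat_lit 19904847521) (nat_lit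 76) (nat_lit 19907645983) (nat_lit 152) (nat_lit 10640930416065) (nat_lit 165) (nat_lit 5) (nat_lit 166) (nat_lit 5) (nat_lit 167) (nat_lit 4) (nat_lit 375) (nat_lit 324) (nat_lit 201))) (XT.nd (nat_lit 78) (nat_lit 228) (nat_lit 0) (XT.lf (nat_lit 0) (nat_lit 3937359133142) (nat_lit 152) (nat_lit 3880238076576) (nat_lit 0) (nat_lit 3880235642875) (nat_lit 165) (nat_lit 5) (nat_lit 167) (nat_lit 4) (nat_lit 165) (nat_lit 4) (nat_lit 376) (nat_lit 324) (nat_lit 200)) (XT.nd (nat_lit 78) (nat_lit 152) (nat_lit 0) (XT.lf (nat_lit 0) (nat_lit 4299253093920) (nat_lit 76) (nat_lit 4299255527842) (nat_lit 76) (nat_lit 4242132037354) (nat_lit 164) (nat_lit 4) (nat_lit 165) (nat_lit 5) (nat_lit 165) (nat_lit 4) (nat_lit 377) (nat_lit 324) (nat_lit 199)) (XT.lf (nat_lit 0) (nat_lit 17308562828) (nat_lit 76) (nat_lit 17310996943) (nat_lit 152) (nat_lit 14089486825105) (nat_lit 162) (nat_lit 5) (nat_lit 163)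 (nat_lit 5) (nat_lit 164) (nat_lit 4) (nat_lit 378) (nat_lit 324) (nat_lit 198))))) (XT.nd (nat_lit 156) (nat_lit 152) (nat_lit 0) (XT.nd (nat_lit 78) (nat_lit 76) (nat_lit 0) (XT.lf (nat_lit 0) (nat_lit 5189498307250) (nat_lit 152) (nat_lit 5139827823279) (nat_lit 0) (nat_lit 5139825706512) (nat_lit 162) (nat_lit 5) (nat_lit 164) (nat_lit 4) (nat_lit 162) (nat_lit 4) (nat_lit 379) (nat_lit 324) (nat_lit 197)) (XT.lf (nat_lit 0) (nat_lit 5676746511092) (nat_lit 76) (nat_lit 5676748627986) (nat_lit 76) (nat_lit 5627076027121) (nat_lit 161) (nat_lit 4) (nat_lit 162) (nat_lit 5) (nat_lit 162) (nat_lit 4) (nat_lit 380) (nat_lit 324) (nat_lit 196))) (XT.nd (nat_lit 78) (nat_lit 0) (nat_lit 0) (XT.lf (nat_lit 0) (nat_lit 15050924065) (nat_lit 76) (nat_lit 15053041069) (nat_lit 152) (nat_lit 18648004021905) (nat_lit 159) (nat_lit 5) (nat_lit 160) (nat_lit 5) (nat_lit 161) (nat_lit 4) (nat_lit 381) (nat_lit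 324) (nat_lit 195)) (XT.nd (nat_lit 42432) (nat_lit 0) (nat_lit 4256) (XT.lf (nat_lit 0) (nat_lit 6847755731800) (nat_lit 152) (nat_lit 6804564006608) (nat_lit 0) (nat_lit 6804562165652) (nat_lit 159) (nat_lit 5) (nat_lit 161) (nat_lit 4) (nat_lit 159) (nat_lit 4) (nat_lit 382) (nat_lit 324) (nat_lit 194)) (XT.lf (nat_lit 0) (nat_lit 20449961947) (nat_lit 380) (nat_lit 23102574975) (nat_lit 380) (nat_lit 23102574975) (nat_lit 215) (nat_lit 3) (nat_lit 220) (nat_lit 3) (nat_lit 220) (nat_lit 5) (nat_lit 325) (nat_lit 325) (nat_lit 250))))))) (XT.nd (nat_lit 780) (nat_lit 684) (nat_lit 0) (XT.nd (nat_lit 390) (nat_lit 532) (nat_lit 0) (XT.nd (nat_lit 156) (nat_lit 152) (nat_lit 0) (XT.nd (nat_lit 78) (nat_lit 0) (nat_lit 76) (XT.lf (nat_lit 76) (nat_lit 22448480956) (nat_lit 0) (nat_lit 22451899388) (nat_lit 380) (nat_lit 98268165913) (nat_lit 216) (nat_lit 5) (nat_lit 215) (nat_lit 3) (nat_lit 220)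 (nat_lit 5) (nat_lit 326) (nat_lit 325) (nat_lit 249)) (XT.lf (nat_lit 0) (nat_lit 54179609980) (nat_lit 304) (nat_lit 49814879387) (nat_lit 380) (nat_lit 49809322011) (nat_lit 216) (nat_lit 5) (nat_lit 220) (nat_lit 5) (nat_lit 221) (nat_lit 5) (nat_lit 327) (nat_lit 325) (nat_lit 248))) (XT.nd (nat_lit 78) (nat_lit 228) (nat_lit 0) (XT.lf (nat_lit 76) (nat_lit 33652500453) (nat_lit 0) (nat_lit 33660305503) (nat_lit 380) (nat_lit 98352248028) (nat_lit 217) (nat_lit 5) (nat_lit 216) (nat_lit 5) (nat_lit 221) (nat_lit 5) (nat_lit 328) (nat_lit 325) (nat_lit 247)) (XT.nd (nat_lit 78) (nat_lit 304) (nat_lit 0) (XT.lf (nat_lit 0) (nat_lit 87098906055) (nat_lit 304) (nat_lit 45756312391) (nat_lit 76) (nat_lit 45747825827) (nat_lit 217) (nat_lit 5) (nat_lit 221) (nat_lit 5) (nat_lit 218) (nat_lit 5) (nat_lit 329) (nat_lit 325) (nat_lit 246)) (XT.lf (nat_lit 0) (nat_lit 56900776133) (nat_lit 304) (nat_lit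 56910740580) (nat_lit 380) (nat_lit 79076427060) (nat_lit 213) (nat_lit 5) (nat_lit 217) (nat_lit 5) (nat_lit 218) (nat_lit 5) (nat_lit 330) (nat_lit 325) (nat_lit 245))))) (XT.nd (nat_lit 156) (nat_lit 380) (nat_lit 0) (XT.nd (nat_lit 78) (nat_lit 152) (nat_lit 0) (XT.lf (nat_lit 0) (nat_lit 148296194048) (nat_lit 380) (nat_lit 30232195058) (nat_lit 76) (nat_lit 30222412830) (nat_lit 213) (nat_lit 5) (nat_lit 218) (nat_lit 5) (nat_lit 214) (nat_lit 5) (nat_lit 331) (nat_lit 325) (nat_lit 244)) (XT.lf (nat_lit 0) (nat_lit 97341616725) (nat_lit 152) (nat_lit 97352370685) (nat_lit 228) (nat_lit 31288039251) (nat_lit 211) (nat_lit 5) (nat_lit 213) (nat_lit 5) (nat_lit 214) (nat_lit 5) (nat_lit 332) (nat_lit 325) (nat_lit 243))) (XT.nd (nat_lit 78) (nat_lit 152) (nat_lit 0) (XT.lf (nat_lit 0) (nat_lit 1887349680) (nat_lit 152) (nat_lit 1898948624) (nat_lit 228) (nat_lit 241737628742) (nat_lit 208)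 (nat_lit 5) (nat_lit 210) (nat_lit 5) (nat_lit 211) (nat_lit 5) (nat_lit 333) (nat_lit 325) (nat_lit 242)) (XT.nd (nat_lit 78) (nat_lit 152) (nat_lit 0) (XT.lf (nat_lit 0) (nat_lit 52429555219) (nat_lit 228) (nat_lit 106814068022) (nat_lit 76) (nat_lit 106803343055) (nat_lit 208) (nat_lit 5) (nat_lit 211) (nat_lit 5) (nat_lit 209) (nat_lit 5) (nat_lit 334) (nat_lit 325) (nat_lit 241)) (XT.lf (nat_lit 0) (nat_lit 55370481404) (nat_lit 152) (nat_lit 55381761963) (nat_lit 228) (nat_lit 178538776662) (nat_lit 206) (nat_lit 5) (nat_lit 208) (nat_lit 5) (nat_lit 209) (nat_lit 5) (nat_lit 335) (nat_lit 325) (nat_lit 240)))))) (XT.nd (nat_lit 390) (nat_lit 304) (nat_lit 0) (XT.nd (nat_lit 156) (nat_lit 304) (nat_lit 0) (XT.nd (nat_lit 78) (nat_lit 76) (nat_lit 0) (XT.lf (nat_lit 0) (nat_lit 186324995701) (nat_lit 228) (nat_lit 64215833132) (nat_lit 76) (nat_lit 64205603845) (nat_lit 206) (nat_lit 5) (nat_lit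 209) (nat_lit 5) (nat_lit 207) (nat_lit 4) (nat_lit 336) (nat_lit 325) (nat_lit 239)) (XT.lf (nat_lit 0) (nat_lit 140846109338) (nat_lit 76) (nat_lit 140856703935) (nat_lit 152) (nat_lit 61046971093) (nat_lit 205) (nat_lit 5) (nat_lit 206) (nat_lit 5) (nat_lit 207) (nat_lit 4) (nat_lit 337) (nat_lit 325) (nat_lit 238))) (XT.nd (nat_lit 78) (nat_lit 76) (nat_lit 0) (XT.lf (nat_lit 0) (nat_lit 9433351871) (nat_lit 152) (nat_lit 9444264129) (nat_lit 228) (nat_lit 355387901887) (nat_lit 202) (nat_lit 5) (nat_lit 204) (nat_lit 5) (nat_lit 205) (nat_lit 5) (nat_lit 338) (nat_lit 325) (nat_lit 237)) (XT.nd (nat_lit 78) (nat_lit 76) (nat_lit 0) (XT.lf (nat_lit 0) (nat_lit 121463943738) (nat_lit 228) (nat_lit 143039941039) (nat_lit 76) (nat_lit 143030211921) (nat_lit 202) (nat_lit 5) (nat_lit 205) (nat_lit 5) (nat_lit 203) (nat_lit 4) (nat_lit 339) (nat_lit 325) (nat_lit 236)) (XT.lf (nat_lit 0) (nat_lit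 122474624932) (nat_lit 76) (nat_lit 122484562917) (nat_lit 152) (nat_lit 200005629401) (nat_lit 201) (nat_lit 5) (nat_lit 202) (nat_lit 5) (nat_lit 203) (nat_lit 4) (nat_lit 340) (nat_lit 325) (nat_lit 235))))) (XT.nd (nat_lit 156) (nat_lit 152) (nat_lit 0) (XT.nd (nat_lit 78) (nat_lit 152) (nat_lit 0) (XT.lf (nat_lit 0) (nat_lit 396502691028) (nat_lit 152) (nat_lit 45043829324) (nat_lit 0) (nat_lit 45035029665) (nat_lit 201) (nat_lit 5) (nat_lit 203) (nat_lit 4) (nat_lit 201) (nat_lit 4) (nat_lit 341) (nat_lit 325) (nat_lit 234)) (XT.lf (nat_lit 0) (nat_lit 51982942390) (nat_lit 152) (nat_lit 239704472558) (nat_lit 76) (nat_lit 239695535565) (nat_lit 199) (nat_lit 5) (nat_lit 201) (nat_lit 5) (nat_lit 200) (nat_lit 4) (nat_lit 342) (nat_lit 325) (nat_lit 233))) (XT.nd (nat_lit 78) (nat_lit 76) (nat_lit 0) (XT.lf (nat_lit 0) (nat_lit 106499529341) (nat_lit 76) (nat_lit 106508585755) (nat_lit 152)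 (nat_lit 368221556490) (nat_lit 198) (nat_lit 5) (nat_lit 199) (nat_lit 5) (nat_lit 200) (nat_lit 4) (nat_lit 343) (nat_lit 325) (nat_lit 232)) (XT.nd (nat_lit 78) (nat_lit 76) (nat_lit 0) (XT.lf (nat_lit 0) (nat_lit 415721342471) (nat_lit 152) (nat_lit 110104940989) (nat_lit 0) (nat_lit 110096975548) (nat_lit 198) (nat_lit 5) (nat_lit 200) (nat_lit 4) (nat_lit 198) (nat_lit 4) (nat_lit 344) (nat_lit 325) (nat_lit 231)) (XT.lf (nat_lit 0) (nat_lit 333864929866) (nat_lit 76) (nat_lit 333872973828) (nat_lit 76) (nat_lit 28248528385) (nat_lit 197) (nat_lit 4) (nat_lit 198) (nat_lit 5) (nat_lit 198) (nat_lit 4) (nat_lit 345) (nat_lit 325) (nat_lit 230))))))))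
noncomputable def xc87 : XT := (XT.nd (nat_lit 1560) (nat_lit 1368) (nat_lit 0) (XT.nd (nat_lit 780) (nat_lit 684) (nat_lit 0) (XT.nd (nat_lit 390) (nat_lit 456) (nat_lit 0) (XT.nd (nat_lit 156) (nat_lit 228) (nat_lit 0) (XT.nd (nat_lit 78) (nat_lit 0) (nat_lit 0) (XT.lf (nat_lit 0) (nat_lit 92608203758) (nat_lit 76) (nat_lit 92616316000) (nat_lit 152) (nat_lit 577159300955) (nat_lit 195) (nat_lit 5) (nat_lit 196) (nat_lit 5) (nat_lit 197) (nat_lit 4) (nat_lit 346) (nat_lit 325) (nat_lit 229)) (XT.lf (nat_lit 0) (nat_lit 455310125542) (nat_lit 152) (nat_lit 189556732950) (nat_lit 0) (nat_lit 189549627198) (nat_lit 195) (nat_lit 5) (nat_lit 197) (nat_lit 4) (nat_lit 195) (nat_lit 4) (nat_lit 347) (nat_lit 325) (nat_lit 228))) (XT.nd (nat_lit 78) (nat_lit 152) (nat_lit 0) (XT.lf (nat_lit 0) (nat_lit 393298638058) (nat_lit 76) (nat_lit 393305788704) (nat_lit 76) (nat_lit 127545245466) (nat_lit 194)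 (nat_lit 4) (nat_lit 195) (nat_lit 5) (nat_lit 195) (nat_lit 4) (nat_lit 348) (nat_lit 325) (nat_lit 227)) (XT.nd (nat_lit 78) (nat_lit 0) (nat_lit 0) (XT.lf (nat_lit 0) (nat_lit 80528825592) (nat_lit 76) (nat_lit 80536015277) (nat_lit 152) (nat_lit 841716100586) (nat_lit 192) (nat_lit 5) (nat_lit 193) (nat_lit 5) (nat_lit 194) (nat_lit 4) (nat_lit 349) (nat_lit 325) (nat_lit 226)) (XT.lf (nat_lit 0) (nat_lit 519989902758) (nat_lit 152) (nat_lit 288899996156) (nat_lit 0) (nat_lit 288893714737) (nat_lit 192) (nat_lit 5) (nat_lit 194) (nat_lit 4) (nat_lit 192) (nat_lit 4) (nat_lit 350) (nat_lit 325) (nat_lit 225))))) (XT.nd (nat_lit 156) (nat_lit 228) (nat_lit 0) (XT.nd (nat_lit 78) (nat_lit 152) (nat_lit 0) (XT.lf (nat_lit 0) (nat_lit 478191635975) (nat_lit 76) (nat_lit 478197943062) (nat_lit 76) (nat_lit 247101729373) (nat_lit 191) (nat_lit 4) (nat_lit 192) (nat_lit 5) (nat_lit 192) (nat_lit 4)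 (nat_lit 351) (nat_lit 325) (nat_lit 224)) (XT.lf (nat_lit 0) (nat_lit 70025038722) (nat_lit 76) (nat_lit 70031368130) (nat_lit 152) (nat_lit 1181363426380) (nat_lit 189) (nat_lit 5) (nat_lit 190) (nat_lit 5) (nat_lit 191) (nat_lit 4) (nat_lit 352) (nat_lit 325) (nat_lit 223))) (XT.nd (nat_lit 78) (nat_lit 228) (nat_lit 0) (XT.lf (nat_lit 0) (nat_lit 616245110427) (nat_lit 152) (nat_lit 415297365555) (nat_lit 0) (nat_lit 415291844845) (nat_lit 189) (nat_lit 5) (nat_lit 191) (nat_lit 4) (nat_lit 189) (nat_lit 4) (nat_lit 353) (nat_lit 325) (nat_lit 222)) (XT.nd (nat_lit 78) (nat_lit 152) (nat_lit 0) (XT.lf (nat_lit 0) (nat_lit 595933842021) (nat_lit 76) (nat_lit 595939377408) (nat_lit 76) (nat_lit 394986097149) (nat_lit 188) (nat_lit 4) (nat_lit 189) (nat_lit 5) (nat_lit 189) (nat_lit 4) (nat_lit 354) (nat_lit 325) (nat_lit 221)) (XT.lf (nat_lit 0) (nat_lit 60891322576) (nat_lit 76) (nat_lit 60896870724)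 (nat_lit 152) (nat_lit 1621652180670) (nat_lit 186) (nat_lit 5) (nat_lit 187) (nat_lit 5) (nat_lit 188) (nat_lit 4) (nat_lit 355) (nat_lit 325) (nat_lit 220)))))) (XT.nd (nat_lit 390) (nat_lit 380) (nat_lit 0) (XT.nd (nat_lit 156) (nat_lit 228) (nat_lit 0) (XT.nd (nat_lit 78) (nat_lit 76) (nat_lit 0) (XT.lf (nat_lit 0) (nat_lit 752861069814) (nat_lit 152) (nat_lit 578123900361) (nat_lit 0) (nat_lit 578119066234) (nat_lit 186) (nat_lit 5) (nat_lit 188) (nat_lit 4) (nat_lit 186) (nat_lit 4) (nat_lit 356) (nat_lit 325) (nat_lit 219)) (XT.lf (nat_lit 0) (nat_lit 756405478922) (nat_lit 76) (nat_lit 756410321440) (nat_lit 76) (nat_lit 581668309469) (nat_lit 185) (nat_lit 4) (nat_lit 186) (nat_lit 5) (nat_lit 186) (nat_lit 4) (nat_lit 357) (nat_lit 325) (nat_lit 218))) (XT.nd (nat_lit 78) (nat_lit 76) (nat_lit 0) (XT.lf (nat_lit 0) (nat_lit 52948967323) (nat_lit 76) (nat_lit 52953817137) (nat_lit 152)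 (nat_lit 2196199411210) (nat_lit 183) (nat_lit 5) (nat_lit 184) (nat_lit 5) (nat_lit 185) (nat_lit 4) (nat_lit 358) (nat_lit 325) (nat_lit 217)) (XT.nd (nat_lit 78) (nat_lit 76) (nat_lit 0) (XT.lf (nat_lit 0) (nat_lit 941638679691) (nat_lit 152) (nat_lit 789693314949) (nat_lit 0) (nat_lit 789689092201) (nat_lit 183) (nat_lit 5) (nat_lit 185) (nat_lit 4) (nat_lit 183) (nat_lit 4) (nat_lit 359) (nat_lit 325) (nat_lit 216)) (XT.lf (nat_lit 0) (nat_lit 972766229889) (nat_lit 76) (nat_lit 972770457434) (nat_lit 76) (nat_lit 820820865147) (nat_lit 182) (nat_lit 4) (nat_lit 183) (nat_lit 5) (nat_lit 183) (nat_lit 4) (nat_lit 360) (nat_lit 325) (nat_lit 215))))) (XT.nd (nat_lit 156) (nat_lit 228) (nat_lit 0) (XT.nd (nat_lit 78) (nat_lit 0) (nat_lit 0) (XT.lf (nat_lit 0) (nat_lit 46042575232) (nat_lit 76) (nat_lit 46046806949) (nat_lit 152) (nat_lit 2949312338628) (nat_lit 180) (nat_lit 5) (nat_lit 181)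 (nat_lit 5) (nat_lit 182) (nat_lit 4) (nat_lit 361) (nat_lit 325) (nat_lit 214)) (XT.lf (nat_lit 0) (nat_lit 1198343162248) (nat_lit 152) (nat_lit 1066216758124) (nat_lit 0) (nat_lit 1066213075216) (nat_lit 180) (nat_lit 5) (nat_lit 182) (nat_lit 4) (nat_lit 180) (nat_lit 4) (nat_lit 362) (nat_lit 325) (nat_lit 213))) (XT.nd (nat_lit 78) (nat_lit 152) (nat_lit 0) (XT.lf (nat_lit 0) (nat_lit 1262500720790) (nat_lit 76) (nat_lit 1262504406442) (nat_lit 76) (nat_lit 1130374316667) (nat_lit 179) (nat_lit 4) (nat_lit 180) (nat_lit 5) (nat_lit 180) (nat_lit 4) (nat_lit 363) (nat_lit 325) (nat_lit 212)) (XT.nd (nat_lit 78) (nat_lit 0) (nat_lit 0) (XT.lf (nat_lit 0) (nat_lit 40037019055) (nat_lit 76) (nat_lit 40040707091) (nat_lit 152) (nat_lit 3939455673627) (nat_lit 177) (nat_lit 5) (nat_lit 178) (nat_lit 5) (nat_lit 179) (nat_lit 4) (nat_lit 364) (nat_lit 325) (nat_lit 211)) (XT.lf (nat_lit 0) (nat_lit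 1543961880207) (nat_lit 152) (nat_lit 1429069354882) (nat_lit 0) (nat_lit 1429066146090) (nat_lit 177) (nat_lit 5) (nat_lit 179) (nat_lit 4) (nat_lit 177) (nat_lit 4) (nat_lit 365) (nat_lit 325) (nat_lit 210))))))) (XT.nd (nat_lit 780) (nat_lit 608) (nat_lit 0) (XT.nd (nat_lit 390) (nat_lit 304) (nat_lit 0) (XT.nd (nat_lit 156) (nat_lit 228) (nat_lit 0) (XT.nd (nat_lit 78) (nat_lit 152) (nat_lit 0) (XT.lf (nat_lit 0) (nat_lit 1648802755096) (nat_lit 76) (nat_lit 1648805965456) (nat_lit 76) (nat_lit 1533910229771) (nat_lit 176) (nat_lit 4) (nat_lit 177) (nat_lit 5) (nat_lit 177) (nat_lit 4) (nat_lit 366) (nat_lit 325) (nat_lit 209)) (XT.lf (nat_lit 0) (nat_lit 34814797527) (nat_lit 76) (nat_lit 34818009252) (nat_lit 152) (nat_lit 5243834570358) (nat_lit 174) (nat_lit 5) (nat_lit 175) (nat_lit 5) (nat_lit 176) (nat_lit 4) (nat_lit 367) (nat_lit 325) (nat_lit 208))) (XT.nd (nat_lit 78) (nat_lit 228)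 (nat_lit 0) (XT.lf (nat_lit 0) (nat_lit 2006370496503) (nat_lit 152) (nat_lit 1906463952742) (nat_lit 0) (nat_lit 1906461158907) (nat_lit 174) (nat_lit 5) (nat_lit 176) (nat_lit 4) (nat_lit 174) (nat_lit 4) (nat_lit 368) (nat_lit 325) (nat_lit 207)) (XT.nd (nat_lit 78) (nat_lit 152) (nat_lit 0) (XT.lf (nat_lit 0) (nat_lit 2162407342300) (nat_lit 76) (nat_lit 2162410137032) (nat_lit 76) (nat_lit 2062500798539) (nat_lit 173) (nat_lit 4) (nat_lit 174) (nat_lit 5) (nat_lit 174) (nat_lit 4) (nat_lit 369) (nat_lit 325) (nat_lit 206)) (XT.lf (nat_lit 0) (nat_lit 30273736037) (nat_lit 76) (nat_lit 30276531548) (nat_lit 152) (nat_lit 6964453344004) (nat_lit 171) (nat_lit 5) (nat_lit 172) (nat_lit 5) (nat_lit 173) (nat_lit 4) (nat_lit 370) (nat_lit 325) (nat_lit 205))))) (XT.nd (nat_lit 156) (nat_lit 228) (nat_lit 0) (XT.nd (nat_lit 78) (nat_lit 76) (nat_lit 0) (XT.lf (nat_lit 0) (nat_lit 2622538815492)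 (nat_lit 152) (nat_lit 2535663560048) (nat_lit 0) (nat_lit 2535661128579) (nat_lit 171) (nat_lit 5) (nat_lit 173) (nat_lit 4) (nat_lit 171) (nat_lit 4) (nat_lit 371) (nat_lit 325) (nat_lit 204)) (XT.lf (nat_lit 0) (nat_lit 2844014753342) (nat_lit 76) (nat_lit 2844017185324) (nat_lit 76) (nat_lit 2757139497898) (nat_lit 170) (nat_lit 4) (nat_lit 171) (nat_lit 5) (nat_lit 171) (nat_lit 4) (nat_lit 372) (nat_lit 325) (nat_lit 203))) (XT.nd (nat_lit 78) (nat_lit 76) (nat_lit 0) (XT.lf (nat_lit 0) (nat_lit 26324987318) (nat_lit 76) (nat_lit 26327419746) (nat_lit 152) (nat_lit 9236126178333) (nat_lit 168) (nat_lit 5) (nat_lit 169) (nat_lit 5) (nat_lit 170) (nat_lit 4) (nat_lit 373) (nat_lit 325) (nat_lit 202)) (XT.nd (nat_lit 78) (nat_lit 76) (nat_lit 0) (XT.lf (nat_lit 0) (nat_lit 3441450047232) (nat_lit 152) (nat_lit 3365906346846) (nat_lit 0) (nat_lit 3365904231355) (nat_lit 168) (nat_lit 5) (nat_lit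 170) (nat_lit 4) (nat_lit 168) (nat_lit 4) (nat_lit 374) (nat_lit 325) (nat_lit 201)) (XT.lf (nat_lit 0) (nat_lit 3747497375370) (nat_lit 76) (nat_lit 3747499491155) (nat_lit 76) (nat_lit 3671953674984) (nat_lit 167) (nat_lit 4) (nat_lit 168) (nat_lit 5) (nat_lit 168) (nat_lit 4) (nat_lit 375) (nat_lit 325) (nat_lit 200)))))) (XT.nd (nat_lit 390) (nat_lit 228) (nat_lit 0) (XT.nd (nat_lit 156) (nat_lit 228) (nat_lit 0) (XT.nd (nat_lit 78) (nat_lit 0) (nat_lit 0) (XT.lf (nat_lit 0) (nat_lit 22891293012) (nat_lit 76) (nat_lit 22893409051) (nat_lit 152) (nat_lit 12237069593761) (nat_lit 165) (nat_lit 5) (nat_lit 166) (nat_lit 5) (nat_lit 167) (nat_lit 4) (nat_lit 376) (nat_lit 325) (nat_lit 199)) (XT.lf (nat_lit 0) (nat_lit 4527963307833) (nat_lit 152) (nat_lit 4462273133584) (nat_lit 0) (nat_lit 4462271293357) (nat_lit 165) (nat_lit 5) (nat_lit 167) (nat_lit 4) (nat_lit 165) (nat_lit 4) (nat_lit 377)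 (nat_lit 325) (nat_lit 198))) (XT.nd (nat_lit 78) (nat_lit 152) (nat_lit 0) (XT.lf (nat_lit 0) (nat_lit 4944141682737) (nat_lit 76) (nat_lit 4944143523132) (nat_lit 76) (nat_lit 4878451508488) (nat_lit 164) (nat_lit 4) (nat_lit 165) (nat_lit 5) (nat_lit 165) (nat_lit 4) (nat_lit 378) (nat_lit 325) (nat_lit 197)) (XT.nd (nat_lit 78) (nat_lit 0) (nat_lit 0) (XT.lf (nat_lit 0) (nat_lit 19905472008) (nat_lit 76) (nat_lit 19907312548) (nat_lit 152) (nat_lit 16202909514428) (nat_lit 162) (nat_lit 5) (nat_lit 163) (nat_lit 5) (nat_lit 164) (nat_lit 4) (nat_lit 379) (nat_lit 325) (nat_lit 196)) (XT.lf (nat_lit 0) (nat_lit 5967923318248) (nat_lit 152) (nat_lit 5910801427597) (nat_lit 0) (nat_lit 5910799827017) (nat_lit 162) (nat_lit 5) (nat_lit 164) (nat_lit 4) (nat_lit 162) (nat_lit 4) (nat_lit 380) (nat_lit 325) (nat_lit 195))))) (XT.nd (nat_lit 42588) (nat_lit 0) (nat_lit 4256) (XT.nd (nat_lit 78) (nat_lit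 152) (nat_lit 0) (XT.lf (nat_lit 0) (nat_lit 6528259031059) (nat_lit 76) (nat_lit 6528260631735) (nat_lit 76) (nat_lit 6471137140407) (nat_lit 161) (nat_lit 4) (nat_lit 162) (nat_lit 5) (nat_lit 162) (nat_lit 4) (nat_lit 381) (nat_lit 325) (nat_lit 194)) (XT.lf (nat_lit 0) (nat_lit 17309105993) (nat_lit 76) (nat_lit 17310706752) (nat_lit 152) (nat_lit 21445204334424) (nat_lit 159) (nat_lit 5) (nat_lit 160) (nat_lit 5) (nat_lit 161) (nat_lit 4) (nat_lit 382) (nat_lit 325) (nat_lit 193))) (XT.nd (nat_lit 78) (nat_lit 0) (nat_lit 0) (XT.lf (nat_lit 0) (nat_lit 23520733121) (nat_lit 380) (nat_lit 26566077014) (nat_lit 380) (nat_lit 26566077014) (nat_lit 215) (nat_lit 3) (nat_lit 220) (nat_lit 3) (nat_lit 220) (nat_lit 5) (nat_lit 326) (nat_lit 326) (nat_lit 248)) (XT.nd (nat_lit 78) (nat_lit 0) (nat_lit 76) (XT.lf (nat_lit 76) (nat_lit 25819350222) (nat_lit 0) (nat_lit 25821935047) (nat_lit 380) (nat_lit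 113001665744) (nat_lit 216) (nat_lit 5) (nat_lit 215) (nat_lit 3) (nat_lit 220) (nat_lit 5) (nat_lit 327) (nat_lit 326) (nat_lit 247)) (XT.lf (nat_lit 0) (nat_lit 62311555543) (nat_lit 304) (nat_lit 57283139553) (nat_lit 380) (nat_lit 57278937379) (nat_lit 216) (nat_lit 5) (nat_lit 220) (nat_lit 5) (nat_lit 221) (nat_lit 5) (nat_lit 328) (nat_lit 326) (nat_lit 246))))))))
noncomputable def xc88 : XT := (XT.nd (nat_lit 1560) (nat_lit 1596) (nat_lit 0) (XT.nd (nat_lit 780) (nat_lit 760) (nat_lit 0) (XT.nd (nat_lit 390) (nat_lit 456) (nat_lit 0) (XT.nd (nat_lit 156) (nat_lit 380) (nat_lit 0) (XT.nd (nat_lit 78) (nat_lit 0) (nat_lit 76) (XT.lf (nat_lit 76) (nat_lit 38704166729) (nat_lit 0) (nat_lit 38710068468) (nat_lit 380) (nat_lit 113099900633) (nat_lit 217) (nat_lit 5) (nat_lit 216) (nat_lit 5) (nat_lit 221) (nat_lit 5) (nat_lit 329) (nat_lit 326) (nat_lit 245)) (XT.lf (nat_lit 0) (nat_lit 100167636443)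 (nat_lit 304) (nat_lit 52615848680) (nat_lit 76) (nat_lit 52609431618) (nat_lit 217) (nat_lit 5) (nat_lit 221) (nat_lit 5) (nat_lit 218) (nat_lit 5) (nat_lit 330) (nat_lit 326) (nat_lit 244))) (XT.nd (nat_lit 78) (nat_lit 152) (nat_lit 0) (XT.lf (nat_lit 0) (nat_lit 65439625369) (nat_lit 304) (nat_lit 65447159923) (nat_lit 380) (nat_lit 90933818886) (nat_lit 213) (nat_lit 5) (nat_lit 217) (nat_lit 5) (nat_lit 218) (nat_lit 5) (nat_lit 331) (nat_lit 326) (nat_lit 243)) (XT.nd (nat_lit 78) (nat_lit 152) (nat_lit 0) (XT.lf (nat_lit 0) (nat_lit 170543709253) (nat_lit 380) (nat_lit 34763323415) (nat_lit 76) (nat_lit 34755926645) (nat_lit 213) (nat_lit 5) (nat_lit 218) (nat_lit 5) (nat_lit 214) (nat_lit 5) (nat_lit 332) (nat_lit 326) (nat_lit 242)) (XT.lf (nat_lit 0) (nat_lit 111946391913) (nat_lit 152) (nat_lit 111954523452) (nat_lit 228) (nat_lit 35977990818) (nat_lit 211) (nat_lit 5) (nat_lit 213)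 (nat_lit 5) (nat_lit 214) (nat_lit 5) (nat_lit 333) (nat_lit 326) (nat_lit 241))))) (XT.nd (nat_lit 156) (nat_lit 228) (nat_lit 0) (XT.nd (nat_lit 78) (nat_lit 0) (nat_lit 0) (XT.lf (nat_lit 0) (nat_lit 2174100788) (nat_lit 152) (nat_lit 2182871256) (nat_lit 228) (nat_lit 277995134709) (nat_lit 208) (nat_lit 5) (nat_lit 210) (nat_lit 5) (nat_lit 211) (nat_lit 5) (nat_lit 334) (nat_lit 326) (nat_lit 240)) (XT.lf (nat_lit 0) (nat_lit 60296394655) (nat_lit 228) (nat_lit 122832682640) (nat_lit 76) (nat_lit 122824573023) (nat_lit 208) (nat_lit 5) (nat_lit 211) (nat_lit 5) (nat_lit 209) (nat_lit 5) (nat_lit 335) (nat_lit 326) (nat_lit 239))) (XT.nd (nat_lit 78) (nat_lit 76) (nat_lit 0) (XT.lf (nat_lit 0) (nat_lit 63679390311) (nat_lit 152) (nat_lit 63687920034) (nat_lit 228) (nat_lit 205317028119) (nat_lit 206) (nat_lit 5) (nat_lit 208) (nat_lit 5) (nat_lit 209) (nat_lit 5) (nat_lit 336) (nat_lit 326)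 (nat_lit 238)) (XT.nd (nat_lit 78) (nat_lit 76) (nat_lit 0) (XT.lf (nat_lit 0) (nat_lit 214275724429) (nat_lit 228) (nat_lit 73845055528) (nat_lit 76) (nat_lit 73837320717) (nat_lit 206) (nat_lit 5) (nat_lit 209) (nat_lit 5) (nat_lit 207) (nat_lit 4) (nat_lit 337) (nat_lit 326) (nat_lit 237)) (XT.lf (nat_lit 0) (nat_lit 161976035014) (nat_lit 76) (nat_lit 161984046052) (nat_lit 152) (nat_lit 70201894086) (nat_lit 205) (nat_lit 5) (nat_lit 206) (nat_lit 5) (nat_lit 207) (nat_lit 4) (nat_lit 338) (nat_lit 326) (nat_lit 236)))))) (XT.nd (nat_lit 390) (nat_lit 304) (nat_lit 0) (XT.nd (nat_lit 156) (nat_lit 228) (nat_lit 0) (XT.nd (nat_lit 78) (nat_lit 0) (nat_lit 0) (XT.lf (nat_lit 0) (nat_lit 10851407527) (nat_lit 152) (nat_lit 10859658762) (nat_lit 228) (nat_lit 408694008098) (nat_lit 202) (nat_lit 5) (nat_lit 204) (nat_lit 5) (nat_lit 205) (nat_lit 5) (nat_lit 339) (nat_lit 326) (nat_lit 235)) (XT.lf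 (nat_lit 0) (nat_lit 139685152204) (nat_lit 228) (nat_lit 164493086537) (nat_lit 76) (nat_lit 164485729927) (nat_lit 202) (nat_lit 5) (nat_lit 205) (nat_lit 5) (nat_lit 203) (nat_lit 4) (nat_lit 340) (nat_lit 326) (nat_lit 234))) (XT.nd (nat_lit 78) (nat_lit 152) (nat_lit 0) (XT.lf (nat_lit 0) (nat_lit 140848534981) (nat_lit 76) (nat_lit 140856049526) (nat_lit 152) (nat_lit 230004727559) (nat_lit 201) (nat_lit 5) (nat_lit 202) (nat_lit 5) (nat_lit 203) (nat_lit 4) (nat_lit 341) (nat_lit 326) (nat_lit 233)) (XT.nd (nat_lit 78) (nat_lit 152) (nat_lit 0) (XT.lf (nat_lit 0) (nat_lit 455979458230) (nat_lit 152) (nat_lit 51797886782) (nat_lit 0) (nat_lit 51791232975) (nat_lit 201) (nat_lit 5) (nat_lit 203) (nat_lit 4) (nat_lit 201) (nat_lit 4) (nat_lit 342) (nat_lit 326) (nat_lit 232)) (XT.lf (nat_lit 0) (nat_lit 59781730125) (nat_lit 152) (nat_lit 275657609329) (nat_lit 76) (nat_lit 275650851678) (nat_lit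 199) (nat_lit 5) (nat_lit 201) (nat_lit 5) (nat_lit 200) (nat_lit 4) (nat_lit 343) (nat_lit 326) (nat_lit 231))))) (XT.nd (nat_lit 156) (nat_lit 228) (nat_lit 0) (XT.nd (nat_lit 78) (nat_lit 0) (nat_lit 0) (XT.lf (nat_lit 0) (nat_lit 122476877668) (nat_lit 76) (nat_lit 122483725618) (nat_lit 152) (nat_lit 423453328399) (nat_lit 198) (nat_lit 5) (nat_lit 199) (nat_lit 5) (nat_lit 200) (nat_lit 4) (nat_lit 344) (nat_lit 326) (nat_lit 230)) (XT.lf (nat_lit 0) (nat_lit 478080690329) (nat_lit 152) (nat_lit 126618454287) (nat_lit 0) (nat_lit 126612431269) (nat_lit 198) (nat_lit 5) (nat_lit 200) (nat_lit 4) (nat_lit 198) (nat_lit 4) (nat_lit 345) (nat_lit 326) (nat_lit 229))) (XT.nd (nat_lit 78) (nat_lit 152) (nat_lit 0) (XT.lf (nat_lit 0) (nat_lit 383946795931) (nat_lit 76) (nat_lit 383952878322) (nat_lit 76) (nat_lit 32484559889) (nat_lit 197) (nat_lit 4) (nat_lit 198) (nat_lit 5) (nat_lit 198) (nat_lit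 4) (nat_lit 346) (nat_lit 326) (nat_lit 228)) (XT.nd (nat_lit 78) (nat_lit 0) (nat_lit 0) (XT.lf (nat_lit 0) (nat_lit 106501570278) (nat_lit 76) (nat_lit 106507704298) (nat_lit 152) (nat_lit 663731957716) (nat_lit 195) (nat_lit 5) (nat_lit 196) (nat_lit 5) (nat_lit 197) (nat_lit 4) (nat_lit 347) (nat_lit 326) (nat_lit 227)) (XT.lf (nat_lit 0) (nat_lit 523607618904) (nat_lit 152) (nat_lit 217988283215) (nat_lit 0) (nat_lit 217982910246) (nat_lit 195) (nat_lit 5) (nat_lit 197) (nat_lit 4) (nat_lit 195) (nat_lit 4) (nat_lit 348) (nat_lit 326) (nat_lit 226))))))) (XT.nd (nat_lit 780) (nat_lit 836) (nat_lit 0) (XT.nd (nat_lit 390) (nat_lit 304) (nat_lit 0) (XT.nd (nat_lit 156) (nat_lit 228) (nat_lit 0) (XT.nd (nat_lit 78) (nat_lit 152) (nat_lit 0) (XT.lf (nat_lit 0) (nat_lit 452295304368) (nat_lit 76) (nat_lit 452300711284) (nat_lit 76) (nat_lit 146675968679) (nat_lit 194) (nat_lit 4) (nat_lit 195)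 (nat_lit 5) (nat_lit 195) (nat_lit 4) (nat_lit 349) (nat_lit 326) (nat_lit 225)) (XT.lf (nat_lit 0) (nat_lit 92610025390) (nat_lit 76) (nat_lit 92615461825) (nat_lit 152) (nat_lit 967972457426) (nat_lit 192) (nat_lit 5) (nat_lit 193) (nat_lit 5) (nat_lit 194) (nat_lit 4) (nat_lit 350) (nat_lit 326) (nat_lit 224))) (XT.nd (nat_lit 78) (nat_lit 228) (nat_lit 0) (XT.lf (nat_lit 0) (nat_lit 597989222773) (nat_lit 152) (nat_lit 332233278695) (nat_lit 0) (nat_lit 332228529040) (nat_lit 192) (nat_lit 5) (nat_lit 194) (nat_lit 4) (nat_lit 192) (nat_lit 4) (nat_lit 351) (nat_lit 326) (nat_lit 223)) (XT.nd (nat_lit 78) (nat_lit 152) (nat_lit 0) (XT.lf (nat_lit 0) (nat_lit 549922020215) (nat_lit 76) (nat_lit 549926789279) (nat_lit 76) (nat_lit 284166076138) (nat_lit 191) (nat_lit 4) (nat_lit 192) (nat_lit 5) (nat_lit 192) (nat_lit 4) (nat_lit 352) (nat_lit 326) (nat_lit 222)) (XT.lf (nat_lit 0) (nat_lit 80530436437)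 (nat_lit 76) (nat_lit 80535222379) (nat_lit 152) (nat_lit 1358567030759) (nat_lit 189) (nat_lit 5) (nat_lit 190) (nat_lit 5) (nat_lit 191) (nat_lit 4) (nat_lit 353) (nat_lit 326) (nat_lit 221))))) (XT.nd (nat_lit 156) (nat_lit 228) (nat_lit 0) (XT.nd (nat_lit 78) (nat_lit 76) (nat_lit 0) (XT.lf (nat_lit 0) (nat_lit 708682595403) (nat_lit 152) (nat_lit 477590470118) (nat_lit 0) (nat_lit 477586295668) (nat_lit 189) (nat_lit 5) (nat_lit 191) (nat_lit 4) (nat_lit 189) (nat_lit 4) (nat_lit 354) (nat_lit 326) (nat_lit 220)) (XT.lf (nat_lit 0) (nat_lit 685325350400) (nat_lit 76) (nat_lit 685329535948) (nat_lit 76) (nat_lit 454233225116) (nat_lit 188) (nat_lit 4) (nat_lit 189) (nat_lit 5) (nat_lit 189) (nat_lit 4) (nat_lit 355) (nat_lit 326) (nat_lit 219))) (XT.nd (nat_lit 78) (nat_lit 76) (nat_lit 0) (XT.lf (nat_lit 0) (nat_lit 70026454790) (nat_lit 76) (nat_lit 70030649987) (nat_lit 152) (nat_lit 1864899222916)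 (nat_lit 186) (nat_lit 5) (nat_lit 187) (nat_lit 5) (nat_lit 188) (nat_lit 4) (nat_lit 356) (nat_lit 326) (nat_lit 218)) (XT.nd (nat_lit 78) (nat_lit 76) (nat_lit 0) (XT.lf (nat_lit 0) (nat_lit 865790850803) (nat_lit 152) (nat_lit 664841176642) (nat_lit 0) (nat_lit 664837521348) (nat_lit 186) (nat_lit 5) (nat_lit 188) (nat_lit 4) (nat_lit 186) (nat_lit 4) (nat_lit 357) (nat_lit 326) (nat_lit 217)) (XT.lf (nat_lit 0) (nat_lit 869867550044) (nat_lit 76) (nat_lit 869871211683) (nat_lit 76) (nat_lit 668917875883) (nat_lit 185) (nat_lit 4) (nat_lit 186) (nat_lit 5) (nat_lit 186) (nat_lit 4) (nat_lit 358) (nat_lit 326) (nat_lit 216)))))) (XT.nd (nat_lit 390) (nat_lit 456) (nat_lit 0) (XT.nd (nat_lit 156) (nat_lit 228) (nat_lit 0) (XT.nd (nat_lit 78) (nat_lit 0) (nat_lit 0) (XT.lf (nat_lit 0) (nat_lit 60892562706) (nat_lit 76) (nat_lit 60896229862) (nat_lit 152) (nat_lit 2525628643887) (nat_lit 183) (nat_lit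 5) (nat_lit 184) (nat_lit 5) (nat_lit 185) (nat_lit 4) (nat_lit 359) (nat_lit 326) (nat_lit 215)) (XT.lf (nat_lit 0) (nat_lit 1082885018828) (nat_lit 152) (nat_lit 908146171732) (nat_lit 0) (nat_lit 908142978729) (nat_lit 183) (nat_lit 5) (nat_lit 185) (nat_lit 4) (nat_lit 183) (nat_lit 4) (nat_lit 360) (nat_lit 326) (nat_lit 214))) (XT.nd (nat_lit 78) (nat_lit 152) (nat_lit 0) (XT.lf (nat_lit 0) (nat_lit 1118682252992) (nat_lit 76) (nat_lit 1118685449623) (nat_lit 76) (nat_lit 943943405896) (nat_lit 182) (nat_lit 4) (nat_lit 183) (nat_lit 5) (nat_lit 183) (nat_lit 4) (nat_lit 361) (nat_lit 326) (nat_lit 213)) (XT.nd (nat_lit 78) (nat_lit 0) (nat_lit 0) (XT.lf (nat_lit 0) (nat_lit 52950050709) (nat_lit 76) (nat_lit 52953250495) (nat_lit 152) (nat_lit 3391708600972) (nat_lit 180) (nat_lit 5) (nat_lit 181) (nat_lit 5) (nat_lit 182) (nat_lit 4) (nat_lit 362) (nat_lit 326) (nat_lit 212)) (XT.lf (nat_lit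 0) (nat_lit 1378095102332) (nat_lit 152) (nat_lit 1226148278770) (nat_lit 0) (nat_lit 1226145493962) (nat_lit 180) (nat_lit 5) (nat_lit 182) (nat_lit 4) (nat_lit 180) (nat_lit 4) (nat_lit 363) (nat_lit 326) (nat_lit 211))))) (XT.nd (nat_lit 156) (nat_lit 228) (nat_lit 0) (XT.nd (nat_lit 78) (nat_lit 152) (nat_lit 0) (XT.lf (nat_lit 0) (nat_lit 1451876776842) (nat_lit 76) (nat_lit 1451879563724) (nat_lit 76) (nat_lit 1299929953280) (nat_lit 179) (nat_lit 4) (nat_lit 180) (nat_lit 5) (nat_lit 180) (nat_lit 4) (nat_lit 364) (nat_lit 326) (nat_lit 210)) (XT.lf (nat_lit 0) (nat_lit 46043520173) (nat_lit 76) (nat_lit 46046308859) (nat_lit 152) (nat_lit 4530373514112) (nat_lit 177) (nat_lit 5) (nat_lit 178) (nat_lit 5) (nat_lit 179) (nat_lit 4) (nat_lit 365) (nat_lit 326) (nat_lit 209))) (XT.nd (nat_lit 78) (nat_lit 228) (nat_lit 0) (XT.lf (nat_lit 0) (nat_lit 1775556566453) (nat_lit 152) (nat_lit 1643428893790)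 (nat_lit 0) (nat_lit 1643426467482) (nat_lit 177) (nat_lit 5) (nat_lit 179) (nat_lit 4) (nat_lit 177) (nat_lit 4) (nat_lit 366) (nat_lit 326) (nat_lit 208)) (XT.nd (nat_lit 78) (nat_lit 152) (nat_lit 0) (XT.lf (nat_lit 0) (nat_lit 1896123993397) (nat_lit 76) (nat_lit 1896126420891) (nat_lit 76) (nat_lit 1763996320735) (nat_lit 176) (nat_lit 4) (nat_lit 177) (nat_lit 5) (nat_lit 177) (nat_lit 4) (nat_lit 367) (nat_lit 326) (nat_lit 207)) (XT.lf (nat_lit 0) (nat_lit 40037842381) (nat_lit 76) (nat_lit 40040270906) (nat_lit 152) (nat_lit 6030409312598) (nat_lit 174) (nat_lit 5) (nat_lit 175) (nat_lit 5) (nat_lit 176) (nat_lit 4) (nat_lit 368) (nat_lit 326) (nat_lit 206))))))))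
noncomputable def xc89 : XT := (XT.nd (nat_lit 44070) (nat_lit 0) (nat_lit 2356) (XT.nd (nat_lit 780) (nat_lit 304) (nat_lit 0) (XT.nd (nat_lit 390) (nat_lit 380) (nat_lit 0) (XT.nd (nat_lit 156) (nat_lit 228) (nat_lit 0) (XT.nd (nat_lit 78) (nat_lit 76) (nat_lit 0) (XT.lf (nat_lit 0) (nat_lit 2307326422021) (nat_lit 152) (nat_lit 2192432793619) (nat_lit 0) (nat_lit 2192430681078) (nat_lit 174) (nat_lit 5) (nat_lit 176) (nat_lit 4) (nat_lit 174) (nat_lit 4) (nat_lit 369) (nat_lit 326) (nat_lit 205)) (XT.lf (nat_lit 0) (nat_lit 2486769161496) (nat_lit 76) (nat_lit 2486771274715) (nat_lit 76) (nat_lit 2371875533094) (nat_lit 173) (nat_lit 4) (nat_lit 174) (nat_lit 5) (nat_lit 174) (nat_lit 4) (nat_lit 370) (nat_lit 326) (nat_lit 204))) (XT.nd (nat_lit 78) (nat_lit 76) (nat_lit 0) (XT.lf (nat_lit 0) (nat_lit 34815514400) (nat_lit 76) (nat_lit 34817628209) (nat_lit 152) (nat_lit 8009120960486) (nat_lit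 171) (nat_lit 5) (nat_lit 172) (nat_lit 5) (nat_lit 173) (nat_lit 4) (nat_lit 371) (nat_lit 326) (nat_lit 203)) (XT.nd (nat_lit 78) (nat_lit 76) (nat_lit 0) (XT.lf (nat_lit 0) (nat_lit 3015919942814) (nat_lit 152) (nat_lit 2916012439856) (nat_lit 0) (nat_lit 2916010601316) (nat_lit 171) (nat_lit 5) (nat_lit 173) (nat_lit 4) (nat_lit 171) (nat_lit 4) (nat_lit 372) (nat_lit 326) (nat_lit 202)) (XT.lf (nat_lit 0) (nat_lit 3270617590806) (nat_lit 76) (nat_lit 3270619429734) (nat_lit 76) (nat_lit 3170710087848) (nat_lit 170) (nat_lit 4) (nat_lit 171) (nat_lit 5) (nat_lit 171) (nat_lit 4) (nat_lit 373) (nat_lit 326) (nat_lit 201))))) (XT.nd (nat_lit 156) (nat_lit 228) (nat_lit 0) (XT.nd (nat_lit 78) (nat_lit 0) (nat_lit 0) (XT.lf (nat_lit 0) (nat_lit 30274359940) (nat_lit 76) (nat_lit 30276199205) (nat_lit 152) (nat_lit 10621544770409) (nat_lit 168) (nat_lit 5) (nat_lit 169) (nat_lit 5) (nat_lit 170)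 (nat_lit 4) (nat_lit 374) (nat_lit 326) (nat_lit 200)) (XT.lf (nat_lit 0) (nat_lit 3957667819387) (nat_lit 152) (nat_lit 3870791729858) (nat_lit 0) (nat_lit 3870790130243) (nat_lit 168) (nat_lit 5) (nat_lit 170) (nat_lit 4) (nat_lit 168) (nat_lit 4) (nat_lit 375) (nat_lit 326) (nat_lit 199))) (XT.nd (nat_lit 78) (nat_lit 152) (nat_lit 0) (XT.lf (nat_lit 0) (nat_lit 4309622524827) (nat_lit 76) (nat_lit 4309624124664) (nat_lit 76) (nat_lit 4222746435298) (nat_lit 167) (nat_lit 4) (nat_lit 168) (nat_lit 5) (nat_lit 168) (nat_lit 4) (nat_lit 376) (nat_lit 326) (nat_lit 198)) (XT.nd (nat_lit 78) (nat_lit 0) (nat_lit 0) (XT.lf (nat_lit 0) (nat_lit 26325530149) (nat_lit 76) (nat_lit 26327130179) (nat_lit 152) (nat_lit 14072629741926) (nat_lit 165) (nat_lit 5) (nat_lit 166) (nat_lit 5) (nat_lit 167) (nat_lit 4) (nat_lit 377) (nat_lit 326) (nat_lit 197)) (XT.lf (nat_lit 0) (nat_lit 5207158034420) (nat_lit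 152) (nat_lit 5131613608742) (nat_lit 0) (nat_lit 5131612217266) (nat_lit 165) (nat_lit 5) (nat_lit 167) (nat_lit 4) (nat_lit 165) (nat_lit 4) (nat_lit 378) (nat_lit 326) (nat_lit 196)))))) (XT.nd (nat_lit 42900) (nat_lit 0) (nat_lit 3952) (XT.nd (nat_lit 156) (nat_lit 76) (nat_lit 0) (XT.nd (nat_lit 78) (nat_lit 152) (nat_lit 0) (XT.lf (nat_lit 0) (nat_lit 5685763407532) (nat_lit 76) (nat_lit 5685764799135) (nat_lit 76) (nat_lit 5610218981855) (nat_lit 164) (nat_lit 4) (nat_lit 165) (nat_lit 5) (nat_lit 165) (nat_lit 4) (nat_lit 379) (nat_lit 326) (nat_lit 195)) (XT.lf (nat_lit 0) (nat_lit 22891765214) (nat_lit 76) (nat_lit 22893156927) (nat_lit 152) (nat_lit 18633345688706) (nat_lit 162) (nat_lit 5) (nat_lit 163) (nat_lit 5) (nat_lit 164) (nat_lit 4) (nat_lit 380) (nat_lit 326) (nat_lit 194))) (XT.nd (nat_lit 78) (nat_lit 76) (nat_lit 0) (XT.lf (nat_lit 0) (nat_lit 6863112016296) (nat_lit 152)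 (nat_lit 6797421211359) (nat_lit 0) (nat_lit 6797420001090) (nat_lit 162) (nat_lit 5) (nat_lit 164) (nat_lit 4) (nat_lit 162) (nat_lit 4) (nat_lit 381) (nat_lit 326) (nat_lit 193)) (XT.nd (nat_lit 42588) (nat_lit 0) (nat_lit 4104) (XT.lf (nat_lit 0) (nat_lit 7507498296533) (nat_lit 76) (nat_lit 7507499506874) (nat_lit 76) (nat_lit 7441807491596) (nat_lit 161) (nat_lit 4) (nat_lit 162) (nat_lit 5) (nat_lit 162) (nat_lit 4) (nat_lit 382) (nat_lit 326) (nat_lit 192)) (XT.lf (nat_lit 0) (nat_lit 27051320883) (nat_lit 380) (nat_lit 30549563835) (nat_lit 380) (nat_lit 30549563835) (nat_lit 215) (nat_lit 3) (nat_lit 220) (nat_lit 3) (nat_lit 220) (nat_lit 5) (nat_lit 327) (nat_lit 327) (nat_lit 246))))) (XT.nd (nat_lit 156) (nat_lit 152) (nat_lit 0) (XT.nd (nat_lit 78) (nat_lit 0) (nat_lit 76) (XT.lf (nat_lit 76) (nat_lit 29694972697) (nat_lit 0) (nat_lit 29696927196) (nat_lit 380) (nat_lit 129946830497)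 (nat_lit 216) (nat_lit 5) (nat_lit 215) (nat_lit 3) (nat_lit 220) (nat_lit 5) (nat_lit 328) (nat_lit 327) (nat_lit 245)) (XT.lf (nat_lit 0) (nat_lit 71662072667) (nat_lit 304) (nat_lit 65872607279) (nat_lit 380) (nat_lit 65869429831) (nat_lit 216) (nat_lit 5) (nat_lit 220) (nat_lit 5) (nat_lit 221) (nat_lit 5) (nat_lit 329) (nat_lit 327) (nat_lit 244))) (XT.nd (nat_lit 78) (nat_lit 228) (nat_lit 0) (XT.lf (nat_lit 76) (nat_lit 44512658436) (nat_lit 0) (nat_lit 44517120999) (nat_lit 380) (nat_lit 130060965426) (nat_lit 217) (nat_lit 5) (nat_lit 216) (nat_lit 5) (nat_lit 221) (nat_lit 5) (nat_lit 330) (nat_lit 327) (nat_lit 243)) (XT.nd (nat_lit 78) (nat_lit 304) (nat_lit 0) (XT.lf (nat_lit 0) (nat_lit 115195726697) (nat_lit 304) (nat_lit 60505269030) (nat_lit 76) (nat_lit 60500416809) (nat_lit 217) (nat_lit 5) (nat_lit 221) (nat_lit 5) (nat_lit 218) (nat_lit 5) (nat_lit 331) (nat_lit 327) (nat_lit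 242)) (XT.lf (nat_lit 0) (nat_lit 75258391720) (nat_lit 304) (nat_lit 75264088926) (nat_lit 380) (nat_lit 104570812526) (nat_lit 213) (nat_lit 5) (nat_lit 217) (nat_lit 5) (nat_lit 218) (nat_lit 5) (nat_lit 332) (nat_lit 327) (nat_lit 241))))))) (XT.nd (nat_lit 780) (nat_lit 684) (nat_lit 0) (XT.nd (nat_lit 390) (nat_lit 380) (nat_lit 0) (XT.nd (nat_lit 156) (nat_lit 380) (nat_lit 0) (XT.nd (nat_lit 78) (nat_lit 152) (nat_lit 0) (XT.lf (nat_lit 0) (nat_lit 196127599174) (nat_lit 380) (nat_lit 39975023513) (nat_lit 76) (nat_lit 39969430492) (nat_lit 213) (nat_lit 5) (nat_lit 218) (nat_lit 5) (nat_lit 214) (nat_lit 5) (nat_lit 333) (nat_lit 327) (nat_lit 240)) (XT.lf (nat_lit 0) (nat_lit 128741021914) (nat_lit 152) (nat_lit 128747170525) (nat_lit 228) (nat_lit 41372228707) (nat_lit 211) (nat_lit 5) (nat_lit 213) (nat_lit 5) (nat_lit 214) (nat_lit 5) (nat_lit 334) (nat_lit 327) (nat_lit 239))) (XT.nd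 (nat_lit 78) (nat_lit 152) (nat_lit 0) (XT.lf (nat_lit 0) (nat_lit 2502974814) (nat_lit 152) (nat_lit 2509606548) (nat_lit 228) (nat_lit 319692031877) (nat_lit 208) (nat_lit 5) (nat_lit 210) (nat_lit 5) (nat_lit 211) (nat_lit 5) (nat_lit 335) (nat_lit 327) (nat_lit 238)) (XT.nd (nat_lit 78) (nat_lit 152) (nat_lit 0) (XT.lf (nat_lit 0) (nat_lit 69342673250) (nat_lit 228) (nat_lit 141254941870) (nat_lit 76) (nat_lit 141248809835) (nat_lit 208) (nat_lit 5) (nat_lit 211) (nat_lit 5) (nat_lit 209) (nat_lit 5) (nat_lit 336) (nat_lit 327) (nat_lit 237)) (XT.lf (nat_lit 0) (nat_lit 73233821879) (nat_lit 152) (nat_lit 73240271575) (nat_lit 228) (nat_lit 236112642795) (nat_lit 206) (nat_lit 5) (nat_lit 208) (nat_lit 5) (nat_lit 209) (nat_lit 5) (nat_lit 337) (nat_lit 327) (nat_lit 236))))) (XT.nd (nat_lit 156) (nat_lit 304) (nat_lit 0) (XT.nd (nat_lit 78) (nat_lit 76) (nat_lit 0) (XT.lf (nat_lit 0) (nat_lit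 246418579783) (nat_lit 228) (nat_lit 84919430058) (nat_lit 76) (nat_lit 84913581430) (nat_lit 206) (nat_lit 5) (nat_lit 209) (nat_lit 5) (nat_lit 207) (nat_lit 4) (nat_lit 338) (nat_lit 327) (nat_lit 235)) (XT.lf (nat_lit 0) (nat_lit 186274715710) (nat_lit 76) (nat_lit 186280773206) (nat_lit 152) (nat_lit 80730573154) (nat_lit 205) (nat_lit 5) (nat_lit 206) (nat_lit 5) (nat_lit 207) (nat_lit 4) (nat_lit 339) (nat_lit 327) (nat_lit 234))) (XT.nd (nat_lit 78) (nat_lit 76) (nat_lit 0) (XT.lf (nat_lit 0) (nat_lit 12481427068) (nat_lit 152) (nat_lit 12487666187) (nat_lit 228) (nat_lit 469996537236) (nat_lit 202) (nat_lit 5) (nat_lit 204) (nat_lit 5) (nat_lit 205) (nat_lit 5) (nat_lit 340) (nat_lit 327) (nat_lit 233)) (XT.nd (nat_lit 78) (nat_lit 76) (nat_lit 0) (XT.lf (nat_lit 0) (nat_lit 160639147647) (nat_lit 228) (nat_lit 189164897792) (nat_lit 76) (nat_lit 189159335137) (nat_lit 202) (nat_lit 5)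 (nat_lit 205) (nat_lit 5) (nat_lit 203) (nat_lit 4) (nat_lit 341) (nat_lit 327) (nat_lit 232)) (XT.lf (nat_lit 0) (nat_lit 161977869149) (nat_lit 76) (nat_lit 161983551224) (nat_lit 152) (nat_lit 264504116274) (nat_lit 201) (nat_lit 5) (nat_lit 202) (nat_lit 5) (nat_lit 203) (nat_lit 4) (nat_lit 342) (nat_lit 327) (nat_lit 231)))))) (XT.nd (nat_lit 390) (nat_lit 380) (nat_lit 0) (XT.nd (nat_lit 156) (nat_lit 152) (nat_lit 0) (XT.nd (nat_lit 78) (nat_lit 152) (nat_lit 0) (XT.lf (nat_lit 0) (nat_lit 524377408003) (nat_lit 152) (nat_lit 59565666630) (nat_lit 0) (nat_lit 59560635396) (nat_lit 201) (nat_lit 5) (nat_lit 203) (nat_lit 4) (nat_lit 201) (nat_lit 4) (nat_lit 343) (nat_lit 327) (nat_lit 230)) (XT.lf (nat_lit 0) (nat_lit 68750007698) (nat_lit 152) (nat_lit 317004334576) (nat_lit 76) (nat_lit 316999224821) (nat_lit 199) (nat_lit 5) (nat_lit 201) (nat_lit 5) (nat_lit 200) (nat_lit 4) (nat_lit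 344) (nat_lit 327) (nat_lit 229))) (XT.nd (nat_lit 78) (nat_lit 76) (nat_lit 0) (XT.lf (nat_lit 0) (nat_lit 140850238374) (nat_lit 76) (nat_lit 140855416407) (nat_lit 152) (nat_lit 486970222507) (nat_lit 198) (nat_lit 5) (nat_lit 199) (nat_lit 5) (nat_lit 200) (nat_lit 4) (nat_lit 345) (nat_lit 327) (nat_lit 228)) (XT.nd (nat_lit 78) (nat_lit 76) (nat_lit 0) (XT.lf (nat_lit 0) (nat_lit 549793660788) (nat_lit 152) (nat_lit 145609537855) (nat_lit 0) (nat_lit 145604983588) (nat_lit 198) (nat_lit 5) (nat_lit 200) (nat_lit 4) (nat_lit 198) (nat_lit 4) (nat_lit 346) (nat_lit 327) (nat_lit 227)) (XT.lf (nat_lit 0) (nat_lit 441540423324) (nat_lit 76) (nat_lit 441545022485) (nat_lit 76) (nat_lit 37356300391) (nat_lit 197) (nat_lit 4) (nat_lit 198) (nat_lit 5) (nat_lit 198) (nat_lit 4) (nat_lit 347) (nat_lit 327) (nat_lit 226))))) (XT.nd (nat_lit 156) (nat_lit 228) (nat_lit 0) (XT.nd (nat_lit 78) (nat_lit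 0) (nat_lit 0) (XT.lf (nat_lit 0) (nat_lit 122478420910) (nat_lit 76) (nat_lit 122483059110) (nat_lit 152) (nat_lit 763290814979) (nat_lit 195) (nat_lit 5) (nat_lit 196) (nat_lit 5) (nat_lit 197) (nat_lit 4) (nat_lit 348) (nat_lit 327) (nat_lit 225)) (XT.lf (nat_lit 0) (nat_lit 602149498624) (nat_lit 152) (nat_lit 250685043900) (nat_lit 0) (nat_lit 250680981163) (nat_lit 195) (nat_lit 5) (nat_lit 197) (nat_lit 4) (nat_lit 195) (nat_lit 4) (nat_lit 349) (nat_lit 327) (nat_lit 224))) (XT.nd (nat_lit 78) (nat_lit 152) (nat_lit 0) (XT.lf (nat_lit 0) (nat_lit 520141014467) (nat_lit 76) (nat_lit 520145102872) (nat_lit 76) (nat_lit 168676559742) (nat_lit 194) (nat_lit 4) (nat_lit 195) (nat_lit 5) (nat_lit 195) (nat_lit 4) (nat_lit 350) (nat_lit 327) (nat_lit 223)) (XT.nd (nat_lit 78) (nat_lit 0) (nat_lit 0) (XT.lf (nat_lit 0) (nat_lit 106502947693) (nat_lit 76) (nat_lit 106507058419) (nat_lit 152) (nat_lit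 1113167525852) (nat_lit 192) (nat_lit 5) (nat_lit 193) (nat_lit 5) (nat_lit 194) (nat_lit 4) (nat_lit 351) (nat_lit 327) (nat_lit 222)) (XT.lf (nat_lit 0) (nat_lit 687688237267) (nat_lit 152) (nat_lit 382066972289) (nat_lit 0) (nat_lit 382063380867) (nat_lit 192) (nat_lit 5) (nat_lit 194) (nat_lit 4) (nat_lit 192) (nat_lit 4) (nat_lit 352) (nat_lit 327) (nat_lit 221))))))))
noncomputable def xc90 : XT := (XT.nd (nat_lit 1560) (nat_lit 684) (nat_lit 0) (XT.nd (nat_lit 780) (nat_lit 836) (nat_lit 0) (XT.nd (nat_lit 390) (nat_lit 304) (nat_lit 0) (XT.nd (nat_lit 156) (nat_lit 228) (nat_lit 0) (XT.nd (nat_lit 78) (nat_lit 152) (nat_lit 0) (XT.lf (nat_lit 0) (nat_lit 632411562449) (nat_lit 76) (nat_lit 632415168546) (nat_lit 76) (nat_lit 326790297471) (nat_lit 191) (nat_lit 4) (nat_lit 192) (nat_lit 5) (nat_lit 192) (nat_lit 4) (nat_lit 353) (nat_lit 327) (nat_lit 220)) (XT.lf (nat_lit 0) (nat_lit 92611243421)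 (nat_lit 76) (nat_lit 92614862280) (nat_lit 152) (nat_lit 1562351397602) (nat_lit 189) (nat_lit 5) (nat_lit 190) (nat_lit 5) (nat_lit 191) (nat_lit 4) (nat_lit 354) (nat_lit 327) (nat_lit 219))) (XT.nd (nat_lit 78) (nat_lit 228) (nat_lit 0) (XT.lf (nat_lit 0) (nat_lit 814985527936) (nat_lit 152) (nat_lit 549227906216) (nat_lit 0) (nat_lit 549224749732) (nat_lit 189) (nat_lit 5) (nat_lit 191) (nat_lit 4) (nat_lit 189) (nat_lit 4) (nat_lit 355) (nat_lit 327) (nat_lit 218)) (XT.nd (nat_lit 78) (nat_lit 152) (nat_lit 0) (XT.lf (nat_lit 0) (nat_lit 788125235816) (nat_lit 76) (nat_lit 788128400691) (nat_lit 76) (nat_lit 522367614096) (nat_lit 188) (nat_lit 4) (nat_lit 189) (nat_lit 5) (nat_lit 189) (nat_lit 4) (nat_lit 356) (nat_lit 327) (nat_lit 217)) (XT.lf (nat_lit 0) (nat_lit 80531507188) (nat_lit 76) (nat_lit 80534679360) (nat_lit 152) (nat_lit 2144633512890) (nat_lit 186) (nat_lit 5) (nat_lit 187)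 (nat_lit 5) (nat_lit 188) (nat_lit 4) (nat_lit 357) (nat_lit 327) (nat_lit 216))))) (XT.nd (nat_lit 156) (nat_lit 228) (nat_lit 0) (XT.nd (nat_lit 78) (nat_lit 76) (nat_lit 0) (XT.lf (nat_lit 0) (nat_lit 995659947623) (nat_lit 152) (nat_lit 764566363519) (nat_lit 0) (nat_lit 764563599591) (nat_lit 186) (nat_lit 5) (nat_lit 188) (nat_lit 4) (nat_lit 186) (nat_lit 4) (nat_lit 358) (nat_lit 327) (nat_lit 215)) (XT.lf (nat_lit 0) (nat_lit 1000348627188) (nat_lit 76) (nat_lit 1000351395913) (nat_lit 76) (nat_lit 769255043083) (nat_lit 185) (nat_lit 4) (nat_lit 186) (nat_lit 5) (nat_lit 186) (nat_lit 4) (nat_lit 359) (nat_lit 327) (nat_lit 214))) (XT.nd (nat_lit 78) (nat_lit 76) (nat_lit 0) (XT.lf (nat_lit 0) (nat_lit 70027392506) (nat_lit 76) (nat_lit 70030165403) (nat_lit 152) (nat_lit 2904472427045) (nat_lit 183) (nat_lit 5) (nat_lit 184) (nat_lit 5) (nat_lit 185) (nat_lit 4) (nat_lit 360) (nat_lit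 327) (nat_lit 213)) (XT.nd (nat_lit 78) (nat_lit 76) (nat_lit 0) (XT.lf (nat_lit 0) (nat_lit 1245318177841) (nat_lit 152) (nat_lit 1044367235142) (nat_lit 0) (nat_lit 1044364820772) (nat_lit 183) (nat_lit 5) (nat_lit 185) (nat_lit 4) (nat_lit 183) (nat_lit 4) (nat_lit 361) (nat_lit 327) (nat_lit 212)) (XT.lf (nat_lit 0) (nat_lit 1286485414093) (nat_lit 76) (nat_lit 1286487831206) (nat_lit 76) (nat_lit 1085534471394) (nat_lit 182) (nat_lit 4) (nat_lit 183) (nat_lit 5) (nat_lit 183) (nat_lit 4) (nat_lit 362) (nat_lit 327) (nat_lit 211)))))) (XT.nd (nat_lit 390) (nat_lit 456) (nat_lit 0) (XT.nd (nat_lit 156) (nat_lit 228) (nat_lit 0) (XT.nd (nat_lit 78) (nat_lit 0) (nat_lit 0) (XT.lf (nat_lit 0) (nat_lit 60893381902) (nat_lit 76) (nat_lit 60895801399) (nat_lit 152) (nat_lit 3900464446164) (nat_lit 180) (nat_lit 5) (nat_lit 181) (nat_lit 5) (nat_lit 182) (nat_lit 4) (nat_lit 363) (nat_lit 327) (nat_lit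 210)) (XT.lf (nat_lit 0) (nat_lit 1584809719853) (nat_lit 152) (nat_lit 1410069769680) (nat_lit 0) (nat_lit 1410067663965) (nat_lit 180) (nat_lit 5) (nat_lit 182) (nat_lit 4) (nat_lit 180) (nat_lit 4) (nat_lit 364) (nat_lit 327) (nat_lit 209))) (XT.nd (nat_lit 78) (nat_lit 152) (nat_lit 0) (XT.lf (nat_lit 0) (nat_lit 1669659010142) (nat_lit 76) (nat_lit 1669661117425) (nat_lit 76) (nat_lit 1494919059969) (nat_lit 179) (nat_lit 4) (nat_lit 180) (nat_lit 5) (nat_lit 180) (nat_lit 4) (nat_lit 365) (nat_lit 327) (nat_lit 208)) (XT.nd (nat_lit 78) (nat_lit 0) (nat_lit 0) (XT.lf (nat_lit 0) (nat_lit 52950765221) (nat_lit 76) (nat_lit 52952873867) (nat_lit 152) (nat_lit 5209929155173) (nat_lit 177) (nat_lit 5) (nat_lit 178) (nat_lit 5) (nat_lit 179) (nat_lit 4) (nat_lit 366) (nat_lit 327) (nat_lit 207)) (XT.lf (nat_lit 0) (nat_lit 2041890357065) (nat_lit 152) (nat_lit 1889942574305) (nat_lit 0) (nat_lit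 1889940739668) (nat_lit 177) (nat_lit 5) (nat_lit 179) (nat_lit 4) (nat_lit 177) (nat_lit 4) (nat_lit 367) (nat_lit 327) (nat_lit 206))))) (XT.nd (nat_lit 156) (nat_lit 228) (nat_lit 0) (XT.nd (nat_lit 78) (nat_lit 152) (nat_lit 0) (XT.lf (nat_lit 0) (nat_lit 2180543216253) (nat_lit 76) (nat_lit 2180545051787) (nat_lit 76) (nat_lit 2028595433494) (nat_lit 176) (nat_lit 4) (nat_lit 177) (nat_lit 5) (nat_lit 177) (nat_lit 4) (nat_lit 368) (nat_lit 327) (nat_lit 205)) (XT.lf (nat_lit 0) (nat_lit 46044142726) (nat_lit 76) (nat_lit 46045979040) (nat_lit 152) (nat_lit 6934970374278) (nat_lit 174) (nat_lit 5) (nat_lit 175) (nat_lit 5) (nat_lit 176) (nat_lit 4) (nat_lit 369) (nat_lit 327) (nat_lit 204))) (XT.nd (nat_lit 78) (nat_lit 228) (nat_lit 0) (XT.lf (nat_lit 0) (nat_lit 2653425650763) (nat_lit 152) (nat_lit 2521297144016) (nat_lit 0) (nat_lit 2521295546632) (nat_lit 174) (nat_lit 5) (nat_lit 176)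 (nat_lit 4) (nat_lit 174) (nat_lit 4) (nat_lit 370) (nat_lit 327) (nat_lit 203)) (XT.nd (nat_lit 78) (nat_lit 152) (nat_lit 0) (XT.lf (nat_lit 0) (nat_lit 2859785078519) (nat_lit 76) (nat_lit 2859786676416) (nat_lit 76) (nat_lit 2727656571772) (nat_lit 173) (nat_lit 4) (nat_lit 174) (nat_lit 5) (nat_lit 174) (nat_lit 4) (nat_lit 371) (nat_lit 327) (nat_lit 202)) (XT.lf (nat_lit 0) (nat_lit 40038384440) (nat_lit 76) (nat_lit 40039982783) (nat_lit 152) (nat_lit 9210488813353) (nat_lit 171) (nat_lit 5) (nat_lit 172) (nat_lit 5) (nat_lit 173) (nat_lit 4) (nat_lit 372) (nat_lit 327) (nat_lit 201))))))) (XT.nd (nat_lit 43368) (nat_lit 0) (nat_lit 3496) (XT.nd (nat_lit 390) (nat_lit 380) (nat_lit 0) (XT.nd (nat_lit 156) (nat_lit 228) (nat_lit 0) (XT.nd (nat_lit 78) (nat_lit 76) (nat_lit 0) (XT.lf (nat_lit 0) (nat_lit 3468308164859) (nat_lit 152) (nat_lit 3353413811166) (nat_lit 0) (nat_lit 3353412420966)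 (nat_lit 171) (nat_lit 5) (nat_lit 173) (nat_lit 4) (nat_lit 171) (nat_lit 4) (nat_lit 373) (nat_lit 327) (nat_lit 200)) (XT.lf (nat_lit 0) (nat_lit 3761210701611) (nat_lit 76) (nat_lit 3761212092104) (nat_lit 76) (nat_lit 3646316347918) (nat_lit 170) (nat_lit 4) (nat_lit 171) (nat_lit 5) (nat_lit 171) (nat_lit 4) (nat_lit 374) (nat_lit 327) (nat_lit 199))) (XT.nd (nat_lit 78) (nat_lit 76) (nat_lit 0) (XT.lf (nat_lit 0) (nat_lit 34815986161) (nat_lit 76) (nat_lit 34817376909) (nat_lit 152) (nat_lit 12214776232909) (nat_lit 168) (nat_lit 5) (nat_lit 169) (nat_lit 5) (nat_lit 170) (nat_lit 4) (nat_lit 375) (nat_lit 327) (nat_lit 198)) (XT.nd (nat_lit 78) (nat_lit 76) (nat_lit 0) (XT.lf (nat_lit 0) (nat_lit 4551318192726) (nat_lit 152) (nat_lit 4451410059080) (nat_lit 0) (nat_lit 4451408849541) (nat_lit 168) (nat_lit 5) (nat_lit 170) (nat_lit 4) (nat_lit 168) (nat_lit 4) (nat_lit 376) (nat_lit 327)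 (nat_lit 197)) (XT.lf (nat_lit 0) (nat_lit 4956066314251) (nat_lit 76) (nat_lit 4956067523957) (nat_lit 76) (nat_lit 4856158180604) (nat_lit 167) (nat_lit 4) (nat_lit 168) (nat_lit 5) (nat_lit 168) (nat_lit 4) (nat_lit 377) (nat_lit 327) (nat_lit 196))))) (XT.nd (nat_lit 156) (nat_lit 228) (nat_lit 0) (XT.nd (nat_lit 78) (nat_lit 0) (nat_lit 0) (XT.lf (nat_lit 0) (nat_lit 30274770398) (nat_lit 76) (nat_lit 30275980251) (nat_lit 152) (nat_lit 16183523983253) (nat_lit 165) (nat_lit 5) (nat_lit 166) (nat_lit 5) (nat_lit 167) (nat_lit 4) (nat_lit 378) (nat_lit 327) (nat_lit 195)) (XT.lf (nat_lit 0) (nat_lit 5988231913807) (nat_lit 152) (nat_lit 5901355275854) (nat_lit 0) (nat_lit 5901354223698) (nat_lit 165) (nat_lit 5) (nat_lit 167) (nat_lit 4) (nat_lit 165) (nat_lit 4) (nat_lit 379) (nat_lit 327) (nat_lit 194))) (XT.nd (nat_lit 78) (nat_lit 152) (nat_lit 0) (XT.lf (nat_lit 0) (nat_lit 6538628275853)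 (nat_lit 76) (nat_lit 6538629328105) (nat_lit 76) (nat_lit 6451751637900) (nat_lit 164) (nat_lit 4) (nat_lit 165) (nat_lit 5) (nat_lit 165) (nat_lit 4) (nat_lit 380) (nat_lit 327) (nat_lit 193)) (XT.nd (nat_lit 78) (nat_lit 0) (nat_lit 0) (XT.lf (nat_lit 0) (nat_lit 26325887202) (nat_lit 76) (nat_lit 26326939537) (nat_lit 152) (nat_lit 21428347350794) (nat_lit 162) (nat_lit 5) (nat_lit 163) (nat_lit 5) (nat_lit 164) (nat_lit 4) (nat_lit 381) (nat_lit 327) (nat_lit 192)) (XT.lf (nat_lit 0) (nat_lit 7892578970203) (nat_lit 152) (nat_lit 7817034067635) (nat_lit 0) (nat_lit 7817033152498) (nat_lit 162) (nat_lit 5) (nat_lit 164) (nat_lit 4) (nat_lit 162) (nat_lit 4) (nat_lit 382) (nat_lit 327) (nat_lit 191)))))) (XT.nd (nat_lit 390) (nat_lit 532) (nat_lit 0) (XT.nd (nat_lit 156) (nat_lit 0) (nat_lit 76) (XT.nd (nat_lit 78) (nat_lit 0) (nat_lit 0) (XT.lf (nat_lit 0) (nat_lit 31110892584) (nat_lit 380)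 (nat_lit 35130921108) (nat_lit 380) (nat_lit 35130921108) (nat_lit 215) (nat_lit 3) (nat_lit 220) (nat_lit 3) (nat_lit 220) (nat_lit 5) (nat_lit 328) (nat_lit 328) (nat_lit 244)) (XT.lf (nat_lit 76) (nat_lit 34151275268) (nat_lit 0) (nat_lit 34152753150) (nat_lit 380) (nat_lit 149435010000) (nat_lit 216) (nat_lit 5) (nat_lit 215) (nat_lit 3) (nat_lit 220) (nat_lit 5) (nat_lit 329) (nat_lit 328) (nat_lit 243))) (XT.nd (nat_lit 78) (nat_lit 0) (nat_lit 0) (XT.lf (nat_lit 0) (nat_lit 82414244658) (nat_lit 304) (nat_lit 75751227515) (nat_lit 380) (nat_lit 75748824908) (nat_lit 216) (nat_lit 5) (nat_lit 220) (nat_lit 5) (nat_lit 221) (nat_lit 5) (nat_lit 330) (nat_lit 328) (nat_lit 242)) (XT.nd (nat_lit 78) (nat_lit 0) (nat_lit 76) (XT.lf (nat_lit 76) (nat_lit 51191724837) (nat_lit 0) (nat_lit 51195099175) (nat_lit 380) (nat_lit 149567145929) (nat_lit 217) (nat_lit 5) (nat_lit 216) (nat_lit 5) (nat_lit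 221) (nat_lit 5) (nat_lit 331) (nat_lit 328) (nat_lit 241)) (XT.lf (nat_lit 0) (nat_lit 132477312383) (nat_lit 304) (nat_lit 69578823504) (nat_lit 76) (nat_lit 69575154528) (nat_lit 217) (nat_lit 5) (nat_lit 221) (nat_lit 5) (nat_lit 218) (nat_lit 5) (nat_lit 332) (nat_lit 328) (nat_lit 240))))) (XT.nd (nat_lit 156) (nat_lit 380) (nat_lit 0) (XT.nd (nat_lit 78) (nat_lit 0) (nat_lit 0) (XT.lf (nat_lit 0) (nat_lit 86549284729) (nat_lit 304) (nat_lit 86553592634) (nat_lit 380) (nat_lit 120254106092) (nat_lit 213) (nat_lit 5) (nat_lit 217) (nat_lit 5) (nat_lit 218) (nat_lit 5) (nat_lit 333) (nat_lit 328) (nat_lit 239)) (XT.lf (nat_lit 0) (nat_lit 225548503537) (nat_lit 380) (nat_lit 45969161037) (nat_lit 76) (nat_lit 45964931910) (nat_lit 213) (nat_lit 5) (nat_lit 218) (nat_lit 5) (nat_lit 214) (nat_lit 5) (nat_lit 334) (nat_lit 328) (nat_lit 238))) (XT.nd (nat_lit 78) (nat_lit 228) (nat_lit 0) (XT.lf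 (nat_lit 0) (nat_lit 148054195022) (nat_lit 152) (nat_lit 148058844255) (nat_lit 228) (nat_lit 47576202345) (nat_lit 211) (nat_lit 5) (nat_lit 213) (nat_lit 5) (nat_lit 214) (nat_lit 5) (nat_lit 335) (nat_lit 328) (nat_lit 237)) (XT.nd (nat_lit 78) (nat_lit 0) (nat_lit 0) (XT.lf (nat_lit 0) (nat_lit 2880507168) (nat_lit 152) (nat_lit 2885521711) (nat_lit 228) (nat_lit 367644042300) (nat_lit 208) (nat_lit 5) (nat_lit 210) (nat_lit 5) (nat_lit 211) (nat_lit 5) (nat_lit 336) (nat_lit 328) (nat_lit 236)) (XT.lf (nat_lit 0) (nat_lit 79745449964) (nat_lit 228) (nat_lit 162441184538) (nat_lit 76) (nat_lit 162436547839) (nat_lit 208) (nat_lit 5) (nat_lit 211) (nat_lit 5) (nat_lit 209) (nat_lit 5) (nat_lit 337) (nat_lit 328) (nat_lit 235))))))))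
noncomputable def xc91 : XT := (XT.nd (nat_lit 1560) (nat_lit 1520) (nat_lit 0) (XT.nd (nat_lit 780) (nat_lit 760) (nat_lit 0) (XT.nd (nat_lit 390) (nat_lit 304) (nat_lit 0) (XT.nd (nat_lit 156) (nat_lit 304) (nat_lit 0) (XT.nd (nat_lit 78) (nat_lit 0) (nat_lit 0) (XT.lf (nat_lit 0) (nat_lit 84220802927) (nat_lit 152) (nat_lit 84225679824) (nat_lit 228) (nat_lit 271528072643) (nat_lit 206) (nat_lit 5) (nat_lit 208) (nat_lit 5) (nat_lit 209) (nat_lit 5) (nat_lit 338) (nat_lit 328) (nat_lit 234)) (XT.lf (nat_lit 0) (nat_lit 283382498464) (nat_lit 228) (nat_lit 97655542073) (nat_lit 76) (nat_lit 97651119669) (nat_lit 206) (nat_lit 5) (nat_lit 209) (nat_lit 5) (nat_lit 207) (nat_lit 4) (nat_lit 339) (nat_lit 328) (nat_lit 233))) (XT.nd (nat_lit 78) (nat_lit 228) (nat_lit 0) (XT.lf (nat_lit 0) (nat_lit 214217643630) (nat_lit 76) (nat_lit 214222223967) (nat_lit 152) (nat_lit 92838945483) (nat_lit 205)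 (nat_lit 5) (nat_lit 206) (nat_lit 5) (nat_lit 207) (nat_lit 4) (nat_lit 340) (nat_lit 328) (nat_lit 232)) (XT.nd (nat_lit 78) (nat_lit 0) (nat_lit 0) (XT.lf (nat_lit 0) (nat_lit 14355386620) (nat_lit 152) (nat_lit 14360104290) (nat_lit 228) (nat_lit 540494829105) (nat_lit 202) (nat_lit 5) (nat_lit 204) (nat_lit 5) (nat_lit 205) (nat_lit 5) (nat_lit 341) (nat_lit 328) (nat_lit 231)) (XT.lf (nat_lit 0) (nat_lit 184735944264) (nat_lit 228) (nat_lit 217538005447) (nat_lit 76) (nat_lit 217533799281) (nat_lit 202) (nat_lit 5) (nat_lit 205) (nat_lit 5) (nat_lit 203) (nat_lit 4) (nat_lit 342) (nat_lit 328) (nat_lit 230))))) (XT.nd (nat_lit 156) (nat_lit 228) (nat_lit 0) (XT.nd (nat_lit 78) (nat_lit 0) (nat_lit 0) (XT.lf (nat_lit 0) (nat_lit 186276102580) (nat_lit 76) (nat_lit 186280399045) (nat_lit 152) (nat_lit 304178735290) (nat_lit 201) (nat_lit 5) (nat_lit 202) (nat_lit 5) (nat_lit 203) (nat_lit 4)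 (nat_lit 343) (nat_lit 328) (nat_lit 229)) (XT.lf (nat_lit 0) (nat_lit 603034798817) (nat_lit 152) (nat_lit 68499077556) (nat_lit 0) (nat_lit 68495273220) (nat_lit 201) (nat_lit 5) (nat_lit 203) (nat_lit 4) (nat_lit 201) (nat_lit 4) (nat_lit 344) (nat_lit 328) (nat_lit 228))) (XT.nd (nat_lit 78) (nat_lit 76) (nat_lit 0) (XT.lf (nat_lit 0) (nat_lit 79063278648) (nat_lit 152) (nat_lit 364553535875) (nat_lit 76) (nat_lit 364549672166) (nat_lit 199) (nat_lit 5) (nat_lit 201) (nat_lit 5) (nat_lit 200) (nat_lit 4) (nat_lit 345) (nat_lit 328) (nat_lit 227)) (XT.nd (nat_lit 78) (nat_lit 0) (nat_lit 0) (XT.lf (nat_lit 0) (nat_lit 161979157158) (nat_lit 76) (nat_lit 161983072496) (nat_lit 152) (nat_lit 560014920230) (nat_lit 198) (nat_lit 5) (nat_lit 199) (nat_lit 5) (nat_lit 200) (nat_lit 4) (nat_lit 346) (nat_lit 328) (nat_lit 226)) (XT.lf (nat_lit 0) (nat_lit 632263365415) (nat_lit 152) (nat_lit 167449694753)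 (nat_lit 0) (nat_lit 167446251073) (nat_lit 198) (nat_lit 5) (nat_lit 200) (nat_lit 4) (nat_lit 198) (nat_lit 4) (nat_lit 347) (nat_lit 328) (nat_lit 225)))))) (XT.nd (nat_lit 390) (nat_lit 304) (nat_lit 0) (XT.nd (nat_lit 156) (nat_lit 228) (nat_lit 0) (XT.nd (nat_lit 78) (nat_lit 152) (nat_lit 0) (XT.lf (nat_lit 0) (nat_lit 507772702704) (nat_lit 76) (nat_lit 507776180331) (nat_lit 76) (nat_lit 42959032042) (nat_lit 197) (nat_lit 4) (nat_lit 198) (nat_lit 5) (nat_lit 198) (nat_lit 4) (nat_lit 348) (nat_lit 328) (nat_lit 224)) (XT.lf (nat_lit 0) (nat_lit 140851405286) (nat_lit 76) (nat_lit 140854912431) (nat_lit 152) (nat_lit 877783729176) (nat_lit 195) (nat_lit 5) (nat_lit 196) (nat_lit 5) (nat_lit 197) (nat_lit 4) (nat_lit 349) (nat_lit 328) (nat_lit 223))) (XT.nd (nat_lit 78) (nat_lit 228) (nat_lit 0) (XT.lf (nat_lit 0) (nat_lit 692472480609) (nat_lit 152) (nat_lit 288286680033) (nat_lit 0)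 (nat_lit 288283608020) (nat_lit 195) (nat_lit 5) (nat_lit 197) (nat_lit 4) (nat_lit 195) (nat_lit 4) (nat_lit 350) (nat_lit 328) (nat_lit 222)) (XT.nd (nat_lit 78) (nat_lit 152) (nat_lit 0) (XT.lf (nat_lit 0) (nat_lit 598163236159) (nat_lit 76) (nat_lit 598166327581) (nat_lit 76) (nat_lit 193977435583) (nat_lit 194) (nat_lit 4) (nat_lit 195) (nat_lit 5) (nat_lit 195) (nat_lit 4) (nat_lit 351) (nat_lit 328) (nat_lit 221)) (XT.lf (nat_lit 0) (nat_lit 122479462433) (nat_lit 76) (nat_lit 122482570733) (nat_lit 152) (nat_lit 1280142049673) (nat_lit 192) (nat_lit 5) (nat_lit 193) (nat_lit 5) (nat_lit 194) (nat_lit 4) (nat_lit 352) (nat_lit 328) (nat_lit 220))))) (XT.nd (nat_lit 156) (nat_lit 228) (nat_lit 0) (XT.nd (nat_lit 78) (nat_lit 76) (nat_lit 0) (XT.lf (nat_lit 0) (nat_lit 790841950043) (nat_lit 152) (nat_lit 439376036499) (nat_lit 0) (nat_lit 439373320868) (nat_lit 192) (nat_lit 5) (nat_lit 194)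 (nat_lit 4) (nat_lit 192) (nat_lit 4) (nat_lit 353) (nat_lit 328) (nat_lit 219)) (XT.lf (nat_lit 0) (nat_lit 727274233830) (nat_lit 76) (nat_lit 727276960558) (nat_lit 76) (nat_lit 375808320286) (nat_lit 191) (nat_lit 4) (nat_lit 192) (nat_lit 5) (nat_lit 192) (nat_lit 4) (nat_lit 354) (nat_lit 328) (nat_lit 218))) (XT.nd (nat_lit 78) (nat_lit 76) (nat_lit 0) (XT.lf (nat_lit 0) (nat_lit 106503868699) (nat_lit 76) (nat_lit 106506605077) (nat_lit 152) (nat_lit 1796703587188) (nat_lit 189) (nat_lit 5) (nat_lit 190) (nat_lit 5) (nat_lit 191) (nat_lit 4) (nat_lit 355) (nat_lit 328) (nat_lit 217)) (XT.nd (nat_lit 78) (nat_lit 76) (nat_lit 0) (XT.lf (nat_lit 0) (nat_lit 937233767881) (nat_lit 152) (nat_lit 631611234364) (nat_lit 0) (nat_lit 631608847609) (nat_lit 189) (nat_lit 5) (nat_lit 191) (nat_lit 4) (nat_lit 189) (nat_lit 4) (nat_lit 356) (nat_lit 328) (nat_lit 216)) (XT.lf (nat_lit 0) (nat_lit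 906344839982) (nat_lit 76) (nat_lit 906347233083) (nat_lit 76) (nat_lit 600722306466) (nat_lit 188) (nat_lit 4) (nat_lit 189) (nat_lit 5) (nat_lit 189) (nat_lit 4) (nat_lit 357) (nat_lit 328) (nat_lit 215))))))) (XT.nd (nat_lit 780) (nat_lit 684) (nat_lit 0) (XT.nd (nat_lit 390) (nat_lit 456) (nat_lit 0) (XT.nd (nat_lit 156) (nat_lit 228) (nat_lit 0) (XT.nd (nat_lit 78) (nat_lit 0) (nat_lit 0) (XT.lf (nat_lit 0) (nat_lit 92612053062) (nat_lit 76) (nat_lit 92614451680) (nat_lit 152) (nat_lit 2466328091081) (nat_lit 186) (nat_lit 5) (nat_lit 187) (nat_lit 5) (nat_lit 188) (nat_lit 4) (nat_lit 358) (nat_lit 328) (nat_lit 214)) (XT.lf (nat_lit 0) (nat_lit 1145009294549) (nat_lit 152) (nat_lit 879250569751) (nat_lit 0) (nat_lit 879248479825) (nat_lit 186) (nat_lit 5) (nat_lit 188) (nat_lit 4) (nat_lit 186) (nat_lit 4) (nat_lit 359) (nat_lit 328) (nat_lit 213))) (XT.nd (nat_lit 78) (nat_lit 152) (nat_lit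 0) (XT.lf (nat_lit 0) (nat_lit 1150401635547) (nat_lit 76) (nat_lit 1150403729101) (nat_lit 76) (nat_lit 884642910750) (nat_lit 185) (nat_lit 4) (nat_lit 186) (nat_lit 5) (nat_lit 186) (nat_lit 4) (nat_lit 360) (nat_lit 328) (nat_lit 212)) (XT.nd (nat_lit 78) (nat_lit 0) (nat_lit 0) (XT.lf (nat_lit 0) (nat_lit 80532216237) (nat_lit 76) (nat_lit 80534312945) (nat_lit 152) (nat_lit 3340142902879) (nat_lit 183) (nat_lit 5) (nat_lit 184) (nat_lit 5) (nat_lit 185) (nat_lit 4) (nat_lit 361) (nat_lit 328) (nat_lit 211)) (XT.lf (nat_lit 0) (nat_lit 1432116211654) (nat_lit 152) (nat_lit 1201021668352) (nat_lit 0) (nat_lit 1201019842742) (nat_lit 183) (nat_lit 5) (nat_lit 185) (nat_lit 4) (nat_lit 183) (nat_lit 4) (nat_lit 362) (nat_lit 328) (nat_lit 210))))) (XT.nd (nat_lit 156) (nat_lit 228) (nat_lit 0) (XT.nd (nat_lit 78) (nat_lit 152) (nat_lit 0) (XT.lf (nat_lit 0) (nat_lit 1479458848629) (nat_lit 76)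 (nat_lit 1479460676314) (nat_lit 76) (nat_lit 1248364305328) (nat_lit 182) (nat_lit 4) (nat_lit 183) (nat_lit 5) (nat_lit 183) (nat_lit 4) (nat_lit 363) (nat_lit 328) (nat_lit 209)) (XT.lf (nat_lit 0) (nat_lit 70028011936) (nat_lit 76) (nat_lit 70029841424) (nat_lit 152) (nat_lit 4485533776641) (nat_lit 180) (nat_lit 5) (nat_lit 181) (nat_lit 5) (nat_lit 182) (nat_lit 4) (nat_lit 364) (nat_lit 328) (nat_lit 208))) (XT.nd (nat_lit 78) (nat_lit 228) (nat_lit 0) (XT.lf (nat_lit 0) (nat_lit 1822531444124) (nat_lit 152) (nat_lit 1621579667340) (nat_lit 0) (nat_lit 1621578075117) (nat_lit 180) (nat_lit 5) (nat_lit 182) (nat_lit 4) (nat_lit 180) (nat_lit 4) (nat_lit 365) (nat_lit 328) (nat_lit 207)) (XT.nd (nat_lit 78) (nat_lit 152) (nat_lit 0) (XT.lf (nat_lit 0) (nat_lit 1920108403647) (nat_lit 76) (nat_lit 1920109997056) (nat_lit 76) (nat_lit 1719156626863) (nat_lit 179) (nat_lit 4) (nat_lit 180) (nat_lit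 5) (nat_lit 180) (nat_lit 4) (nat_lit 366) (nat_lit 328) (nat_lit 206)) (XT.lf (nat_lit 0) (nat_lit 60893922175) (nat_lit 76) (nat_lit 60895516615) (nat_lit 152) (nat_lit 5991418236536) (nat_lit 177) (nat_lit 5) (nat_lit 178) (nat_lit 5) (nat_lit 179) (nat_lit 4) (nat_lit 367) (nat_lit 328) (nat_lit 205)))))) (XT.nd (nat_lit 390) (nat_lit 380) (nat_lit 0) (XT.nd (nat_lit 156) (nat_lit 228) (nat_lit 0) (XT.nd (nat_lit 78) (nat_lit 76) (nat_lit 0) (XT.lf (nat_lit 0) (nat_lit 2348174141735) (nat_lit 152) (nat_lit 2173433466271) (nat_lit 0) (nat_lit 2173432079021) (nat_lit 177) (nat_lit 5) (nat_lit 179) (nat_lit 4) (nat_lit 177) (nat_lit 4) (nat_lit 368) (nat_lit 328) (nat_lit 204)) (XT.lf (nat_lit 0) (nat_lit 2507625170409) (nat_lit 76) (nat_lit 2507626558337) (nat_lit 76) (nat_lit 2332884494945) (nat_lit 176) (nat_lit 4) (nat_lit 177) (nat_lit 5) (nat_lit 177) (nat_lit 4) (nat_lit 369) (nat_lit 328)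 (nat_lit 203))) (XT.nd (nat_lit 78) (nat_lit 76) (nat_lit 0) (XT.lf (nat_lit 0) (nat_lit 52951235960) (nat_lit 76) (nat_lit 52952624477) (nat_lit 152) (nat_lit 7975215676953) (nat_lit 174) (nat_lit 5) (nat_lit 175) (nat_lit 5) (nat_lit 176) (nat_lit 4) (nat_lit 370) (nat_lit 328) (nat_lit 202)) (XT.nd (nat_lit 78) (nat_lit 76) (nat_lit 0) (XT.lf (nat_lit 0) (nat_lit 3051439699087) (nat_lit 152) (nat_lit 2899491285640) (nat_lit 0) (nat_lit 2899490077788) (nat_lit 174) (nat_lit 5) (nat_lit 176) (nat_lit 4) (nat_lit 174) (nat_lit 4) (nat_lit 371) (nat_lit 328) (nat_lit 201)) (XT.lf (nat_lit 0) (nat_lit 3288753250731) (nat_lit 76) (nat_lit 3288754458970) (nat_lit 76) (nat_lit 3136804837283) (nat_lit 173) (nat_lit 4) (nat_lit 174) (nat_lit 5) (nat_lit 174) (nat_lit 4) (nat_lit 372) (nat_lit 328) (nat_lit 200))))) (XT.nd (nat_lit 156) (nat_lit 228) (nat_lit 0) (XT.nd (nat_lit 78) (nat_lit 0) (nat_lit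 0) (XT.lf (nat_lit 0) (nat_lit 46044552601) (nat_lit 76) (nat_lit 46045761177) (nat_lit 152) (nat_lit 10592061915163) (nat_lit 171) (nat_lit 5) (nat_lit 172) (nat_lit 5) (nat_lit 173) (nat_lit 4) (nat_lit 373) (nat_lit 328) (nat_lit 199)) (XT.lf (nat_lit 0) (nat_lit 3988554563972) (nat_lit 152) (nat_lit 3856425508801) (nat_lit 0) (nat_lit 3856424457610) (nat_lit 171) (nat_lit 5) (nat_lit 173) (nat_lit 4) (nat_lit 171) (nat_lit 4) (nat_lit 374) (nat_lit 328) (nat_lit 198))) (XT.nd (nat_lit 78) (nat_lit 152) (nat_lit 0) (XT.lf (nat_lit 0) (nat_lit 4325392663891) (nat_lit 76) (nat_lit 4325393715304) (nat_lit 76) (nat_lit 4193263608720) (nat_lit 170) (nat_lit 4) (nat_lit 171) (nat_lit 5) (nat_lit 171) (nat_lit 4) (nat_lit 375) (nat_lit 328) (nat_lit 197)) (XT.nd (nat_lit 78) (nat_lit 0) (nat_lit 0) (XT.lf (nat_lit 0) (nat_lit 40038741159) (nat_lit 76) (nat_lit 40039792764) (nat_lit 152) (nat_lit 14046992476495)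 (nat_lit 168) (nat_lit 5) (nat_lit 169) (nat_lit 5) (nat_lit 170) (nat_lit 4) (nat_lit 376) (nat_lit 328) (nat_lit 196)) (XT.lf (nat_lit 0) (nat_lit 5234016073190) (nat_lit 152) (nat_lit 5119121242606) (nat_lit 0) (nat_lit 5119120328020) (nat_lit 168) (nat_lit 5) (nat_lit 170) (nat_lit 4) (nat_lit 168) (nat_lit 4) (nat_lit 377) (nat_lit 328) (nat_lit 195))))))))
noncomputable def xc92 : XT := (XT.nd (nat_lit 44226) (nat_lit 0) (nat_lit 1596) (XT.nd (nat_lit 43446) (nat_lit 0) (nat_lit 3040) (XT.nd (nat_lit 43056) (nat_lit 0) (nat_lit 4028) (XT.nd (nat_lit 156) (nat_lit 228) (nat_lit 0) (XT.nd (nat_lit 78) (nat_lit 152) (nat_lit 0) (XT.lf (nat_lit 0) (nat_lit 5699476571936) (nat_lit 76) (nat_lit 5699477486649) (nat_lit 76) (nat_lit 5584581741352) (nat_lit 167) (nat_lit 4) (nat_lit 168) (nat_lit 5) (nat_lit 168) (nat_lit 4) (nat_lit 378) (nat_lit 328) (nat_lit 194)) (XT.lf (nat_lit 0) (nat_lit 34816296526)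 (nat_lit 76) (nat_lit 34817211349) (nat_lit 152) (nat_lit 18611052414418) (nat_lit 165) (nat_lit 5) (nat_lit 166) (nat_lit 5) (nat_lit 167) (nat_lit 4) (nat_lit 379) (nat_lit 328) (nat_lit 193))) (XT.nd (nat_lit 78) (nat_lit 228) (nat_lit 0) (XT.lf (nat_lit 0) (nat_lit 6886466832617) (nat_lit 152) (nat_lit 6786558284283) (nat_lit 0) (nat_lit 6786557488702) (nat_lit 165) (nat_lit 5) (nat_lit 167) (nat_lit 4) (nat_lit 165) (nat_lit 4) (nat_lit 380) (nat_lit 328) (nat_lit 192)) (XT.nd (nat_lit 78) (nat_lit 152) (nat_lit 0) (XT.lf (nat_lit 0) (nat_lit 7519422787319) (nat_lit 76) (nat_lit 7519423582972) (nat_lit 76) (nat_lit 7419514238985) (nat_lit 164) (nat_lit 4) (nat_lit 165) (nat_lit 5) (nat_lit 165) (nat_lit 4) (nat_lit 381) (nat_lit 328) (nat_lit 191)) (XT.lf (nat_lit 0) (nat_lit 30275040381) (nat_lit 76) (nat_lit 30275836098) (nat_lit 152) (nat_lit 24642599308824) (nat_lit 162) (nat_lit 5) (nat_lit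 163) (nat_lit 5) (nat_lit 164) (nat_lit 4) (nat_lit 382) (nat_lit 328) (nat_lit 190))))) (XT.nd (nat_lit 156) (nat_lit 0) (nat_lit 76) (XT.nd (nat_lit 78) (nat_lit 0) (nat_lit 0) (XT.lf (nat_lit 0) (nat_lit 35778943158) (nat_lit 380) (nat_lit 40399744680) (nat_lit 380) (nat_lit 40399744680) (nat_lit 215) (nat_lit 3) (nat_lit 220) (nat_lit 3) (nat_lit 220) (nat_lit 5) (nat_lit 329) (nat_lit 329) (nat_lit 242)) (XT.lf (nat_lit 76) (nat_lit 39275521694) (nat_lit 0) (nat_lit 39276639185) (nat_lit 380) (nat_lit 171847354072) (nat_lit 216) (nat_lit 5) (nat_lit 215) (nat_lit 3) (nat_lit 220) (nat_lit 5) (nat_lit 330) (nat_lit 329) (nat_lit 241))) (XT.nd (nat_lit 78) (nat_lit 0) (nat_lit 0) (XT.lf (nat_lit 0) (nat_lit 94778544753) (nat_lit 304) (nat_lit 87112194548) (nat_lit 380) (nat_lit 87110377833) (nat_lit 216) (nat_lit 5) (nat_lit 220) (nat_lit 5) (nat_lit 221) (nat_lit 5) (nat_lit 331) (nat_lit 329)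 (nat_lit 240)) (XT.nd (nat_lit 78) (nat_lit 0) (nat_lit 76) (XT.lf (nat_lit 76) (nat_lit 58872122606) (nat_lit 0) (nat_lit 58874674091) (nat_lit 380) (nat_lit 171999976373) (nat_lit 217) (nat_lit 5) (nat_lit 216) (nat_lit 5) (nat_lit 221) (nat_lit 5) (nat_lit 332) (nat_lit 329) (nat_lit 239)) (XT.lf (nat_lit 0) (nat_lit 152350592931) (nat_lit 304) (nat_lit 80013956382) (nat_lit 76) (nat_lit 80011182109) (nat_lit 217) (nat_lit 5) (nat_lit 221) (nat_lit 5) (nat_lit 218) (nat_lit 5) (nat_lit 333) (nat_lit 329) (nat_lit 238)))))) (XT.nd (nat_lit 390) (nat_lit 456) (nat_lit 0) (XT.nd (nat_lit 156) (nat_lit 380) (nat_lit 0) (XT.nd (nat_lit 78) (nat_lit 0) (nat_lit 0) (XT.lf (nat_lit 0) (nat_lit 99533291238) (nat_lit 304) (nat_lit 99536548633) (nat_lit 380) (nat_lit 138290461467) (nat_lit 213) (nat_lit 5) (nat_lit 217) (nat_lit 5) (nat_lit 218) (nat_lit 5) (nat_lit 334) (nat_lit 329) (nat_lit 237)) (XT.lf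 (nat_lit 0) (nat_lit 259382113272) (nat_lit 380) (nat_lit 52862935191) (nat_lit 76) (nat_lit 52859737363) (nat_lit 213) (nat_lit 5) (nat_lit 218) (nat_lit 5) (nat_lit 214) (nat_lit 5) (nat_lit 335) (nat_lit 329) (nat_lit 236))) (XT.nd (nat_lit 78) (nat_lit 228) (nat_lit 0) (XT.lf (nat_lit 0) (nat_lit 170263851550) (nat_lit 152) (nat_lit 170267367038) (nat_lit 228) (nat_lit 54711225765) (nat_lit 211) (nat_lit 5) (nat_lit 213) (nat_lit 5) (nat_lit 214) (nat_lit 5) (nat_lit 336) (nat_lit 329) (nat_lit 235)) (XT.nd (nat_lit 78) (nat_lit 0) (nat_lit 0) (XT.lf (nat_lit 0) (nat_lit 3314160658) (nat_lit 152) (nat_lit 3317952373) (nat_lit 228) (nat_lit 422789291853) (nat_lit 208) (nat_lit 5) (nat_lit 210) (nat_lit 5) (nat_lit 211) (nat_lit 5) (nat_lit 337) (nat_lit 329) (nat_lit 234)) (XT.lf (nat_lit 0) (nat_lit 91708307704) (nat_lit 228) (nat_lit 186805850981) (nat_lit 76) (nat_lit 186802344970) (nat_lit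 208) (nat_lit 5) (nat_lit 211) (nat_lit 5) (nat_lit 209) (nat_lit 5) (nat_lit 338) (nat_lit 329) (nat_lit 233))))) (XT.nd (nat_lit 156) (nat_lit 304) (nat_lit 0) (XT.nd (nat_lit 78) (nat_lit 0) (nat_lit 0) (XT.lf (nat_lit 0) (nat_lit 96855365912) (nat_lit 152) (nat_lit 96859053547) (nat_lit 228) (nat_lit 312256174600) (nat_lit 206) (nat_lit 5) (nat_lit 208) (nat_lit 5) (nat_lit 209) (nat_lit 5) (nat_lit 339) (nat_lit 329) (nat_lit 232)) (XT.lf (nat_lit 0) (nat_lit 325890728971) (nat_lit 228) (nat_lit 112302510439) (nat_lit 76) (nat_lit 112299166467) (nat_lit 206) (nat_lit 5) (nat_lit 209) (nat_lit 5) (nat_lit 207) (nat_lit 4) (nat_lit 340) (nat_lit 329) (nat_lit 231))) (XT.nd (nat_lit 78) (nat_lit 228) (nat_lit 0) (XT.lf (nat_lit 0) (nat_lit 246351591167) (nat_lit 76) (nat_lit 246355054560) (nat_lit 152) (nat_lit 106763869616) (nat_lit 205) (nat_lit 5) (nat_lit 206) (nat_lit 5) (nat_lit 207) (nat_lit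 4) (nat_lit 341) (nat_lit 329) (nat_lit 230)) (XT.nd (nat_lit 78) (nat_lit 0) (nat_lit 0) (XT.lf (nat_lit 0) (nat_lit 16510014455) (nat_lit 152) (nat_lit 16513581691) (nat_lit 228) (nat_lit 621568154631) (nat_lit 202) (nat_lit 5) (nat_lit 204) (nat_lit 5) (nat_lit 205) (nat_lit 5) (nat_lit 342) (nat_lit 329) (nat_lit 229)) (XT.lf (nat_lit 0) (nat_lit 212447034937) (nat_lit 228) (nat_lit 250167476008) (nat_lit 76) (nat_lit 250164295542) (nat_lit 202) (nat_lit 5) (nat_lit 205) (nat_lit 5) (nat_lit 203) (nat_lit 4) (nat_lit 343) (nat_lit 329) (nat_lit 228))))))) (XT.nd (nat_lit 780) (nat_lit 684) (nat_lit 0) (XT.nd (nat_lit 390) (nat_lit 456) (nat_lit 0) (XT.nd (nat_lit 156) (nat_lit 228) (nat_lit 0) (XT.nd (nat_lit 78) (nat_lit 0) (nat_lit 0) (XT.lf (nat_lit 0) (nat_lit 214218692303) (nat_lit 76) (nat_lit 214221941048) (nat_lit 152) (nat_lit 349804790630) (nat_lit 201) (nat_lit 5) (nat_lit 202) (nat_lit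 5) (nat_lit 203) (nat_lit 4) (nat_lit 344) (nat_lit 329) (nat_lit 227)) (XT.lf (nat_lit 0) (nat_lit 693490608139) (nat_lit 152) (nat_lit 78772851046) (nat_lit 0) (nat_lit 78769974422) (nat_lit 201) (nat_lit 5) (nat_lit 203) (nat_lit 4) (nat_lit 201) (nat_lit 4) (nat_lit 345) (nat_lit 329) (nat_lit 226))) (XT.nd (nat_lit 78) (nat_lit 76) (nat_lit 0) (XT.lf (nat_lit 0) (nat_lit 90923352521) (nat_lit 152) (nat_lit 419235470690) (nat_lit 76) (nat_lit 419232549171) (nat_lit 199) (nat_lit 5) (nat_lit 201) (nat_lit 5) (nat_lit 200) (nat_lit 4) (nat_lit 346) (nat_lit 329) (nat_lit 225)) (XT.nd (nat_lit 78) (nat_lit 0) (nat_lit 0) (XT.lf (nat_lit 0) (nat_lit 186277076500) (nat_lit 76) (nat_lit 186280037058) (nat_lit 152) (nat_lit 644016526390) (nat_lit 198) (nat_lit 5) (nat_lit 199) (nat_lit 5) (nat_lit 200) (nat_lit 4) (nat_lit 347) (nat_lit 329) (nat_lit 224)) (XT.lf (nat_lit 0) (nat_lit 727103365886)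 (nat_lit 152) (nat_lit 192566185805) (nat_lit 0) (nat_lit 192563581888) (nat_lit 198) (nat_lit 5) (nat_lit 200) (nat_lit 4) (nat_lit 198) (nat_lit 4) (nat_lit 348) (nat_lit 329) (nat_lit 223))))) (XT.nd (nat_lit 156) (nat_lit 228) (nat_lit 0) (XT.nd (nat_lit 78) (nat_lit 152) (nat_lit 0) (XT.lf (nat_lit 0) (nat_lit 583939527491) (nat_lit 76) (nat_lit 583942157076) (nat_lit 76) (nat_lit 49402347410) (nat_lit 197) (nat_lit 4) (nat_lit 198) (nat_lit 5) (nat_lit 198) (nat_lit 4) (nat_lit 349) (nat_lit 329) (nat_lit 222)) (XT.lf (nat_lit 0) (nat_lit 161980039511) (nat_lit 76) (nat_lit 161982691417) (nat_lit 152) (nat_lit 1009450753166) (nat_lit 195) (nat_lit 5) (nat_lit 196) (nat_lit 5) (nat_lit 197) (nat_lit 4) (nat_lit 350) (nat_lit 329) (nat_lit 221))) (XT.nd (nat_lit 78) (nat_lit 228) (nat_lit 0) (XT.lf (nat_lit 0) (nat_lit 796343774016) (nat_lit 152) (nat_lit 331528834815) (nat_lit 0) (nat_lit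 331526511932) (nat_lit 195) (nat_lit 5) (nat_lit 197) (nat_lit 4) (nat_lit 195) (nat_lit 4) (nat_lit 351) (nat_lit 329) (nat_lit 220)) (XT.nd (nat_lit 78) (nat_lit 152) (nat_lit 0) (XT.lf (nat_lit 0) (nat_lit 687888530296) (nat_lit 76) (nat_lit 687890867855) (nat_lit 76) (nat_lit 223073591095) (nat_lit 194) (nat_lit 4) (nat_lit 195) (nat_lit 5) (nat_lit 195) (nat_lit 4) (nat_lit 352) (nat_lit 329) (nat_lit 219)) (XT.lf (nat_lit 0) (nat_lit 140852192827) (nat_lit 76) (nat_lit 140854543148) (nat_lit 152) (nat_lit 1472162899614) (nat_lit 192) (nat_lit 5) (nat_lit 193) (nat_lit 5) (nat_lit 194) (nat_lit 4) (nat_lit 353) (nat_lit 329) (nat_lit 218)))))) (XT.nd (nat_lit 390) (nat_lit 380) (nat_lit 0) (XT.nd (nat_lit 156) (nat_lit 228) (nat_lit 0) (XT.nd (nat_lit 78) (nat_lit 76) (nat_lit 0) (XT.lf (nat_lit 0) (nat_lit 909468603370) (nat_lit 152) (nat_lit 505281699717) (nat_lit 0) (nat_lit 505279646310)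 (nat_lit 192) (nat_lit 5) (nat_lit 194) (nat_lit 4) (nat_lit 192) (nat_lit 4) (nat_lit 354) (nat_lit 329) (nat_lit 217)) (XT.lf (nat_lit 0) (nat_lit 836366077422) (nat_lit 76) (nat_lit 836368139220) (nat_lit 76) (nat_lit 432179173769) (nat_lit 191) (nat_lit 4) (nat_lit 192) (nat_lit 5) (nat_lit 192) (nat_lit 4) (nat_lit 355) (nat_lit 329) (nat_lit 216))) (XT.nd (nat_lit 78) (nat_lit 76) (nat_lit 0) (XT.lf (nat_lit 0) (nat_lit 122480158846) (nat_lit 76) (nat_lit 122482227941) (nat_lit 152) (nat_lit 2066208732031) (nat_lit 189) (nat_lit 5) (nat_lit 190) (nat_lit 5) (nat_lit 191) (nat_lit 4) (nat_lit 356) (nat_lit 329) (nat_lit 215)) (XT.nd (nat_lit 78) (nat_lit 76) (nat_lit 0) (XT.lf (nat_lit 0) (nat_lit 1077819143652) (nat_lit 152) (nat_lit 726352270911) (nat_lit 0) (nat_lit 726350466181) (nat_lit 189) (nat_lit 5) (nat_lit 191) (nat_lit 4) (nat_lit 189) (nat_lit 4) (nat_lit 357) (nat_lit 329) (nat_lit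 214)) (XT.lf (nat_lit 0) (nat_lit 1042297185106) (nat_lit 76) (nat_lit 1042298994634) (nat_lit 76) (nat_lit 690830312364) (nat_lit 188) (nat_lit 4) (nat_lit 189) (nat_lit 5) (nat_lit 189) (nat_lit 4) (nat_lit 358) (nat_lit 329) (nat_lit 213))))) (XT.nd (nat_lit 156) (nat_lit 228) (nat_lit 0) (XT.nd (nat_lit 78) (nat_lit 0) (nat_lit 0) (XT.lf (nat_lit 0) (nat_lit 106504480905) (nat_lit 76) (nat_lit 106506294604) (nat_lit 152) (nat_lit 2836276965429) (nat_lit 186) (nat_lit 5) (nat_lit 187) (nat_lit 5) (nat_lit 188) (nat_lit 4) (nat_lit 359) (nat_lit 329) (nat_lit 212)) (XT.lf (nat_lit 0) (nat_lit 1316760956997) (nat_lit 152) (nat_lit 1011137589396) (nat_lit 0) (nat_lit 1011136009111) (nat_lit 186) (nat_lit 5) (nat_lit 188) (nat_lit 4) (nat_lit 186) (nat_lit 4) (nat_lit 360) (nat_lit 329) (nat_lit 211))) (XT.nd (nat_lit 78) (nat_lit 152) (nat_lit 0) (XT.lf (nat_lit 0) (nat_lit 1322962420979) (nat_lit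 76) (nat_lit 1322964004007) (nat_lit 76) (nat_lit 1017339053378) (nat_lit 185) (nat_lit 4) (nat_lit 186) (nat_lit 5) (nat_lit 186) (nat_lit 4) (nat_lit 361) (nat_lit 329) (nat_lit 210)) (XT.nd (nat_lit 78) (nat_lit 0) (nat_lit 0) (XT.lf (nat_lit 0) (nat_lit 92612589205) (nat_lit 76) (nat_lit 92614174617) (nat_lit 152) (nat_lit 3841164044759) (nat_lit 183) (nat_lit 5) (nat_lit 184) (nat_lit 5) (nat_lit 185) (nat_lit 4) (nat_lit 362) (nat_lit 329) (nat_lit 209)) (XT.lf (nat_lit 0) (nat_lit 1646933875641) (nat_lit 152) (nat_lit 1381174425553) (nat_lit 0) (nat_lit 1381173045130) (nat_lit 183) (nat_lit 5) (nat_lit 185) (nat_lit 4) (nat_lit 183) (nat_lit 4) (nat_lit 363) (nat_lit 329) (nat_lit 208))))))))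
noncomputable def xc93 : XT := (XT.nd (nat_lit 44304) (nat_lit 0) (nat_lit 2508) (XT.nd (nat_lit 780) (nat_lit 684) (nat_lit 0) (XT.nd (nat_lit 390) (nat_lit 304) (nat_lit 0) (XT.nd (nat_lit 156) (nat_lit 228) (nat_lit 0) (XT.nd (nat_lit 78) (nat_lit 152) (nat_lit 0) (XT.lf (nat_lit 0) (nat_lit 1701378146564) (nat_lit 76) (nat_lit 1701379528556) (nat_lit 76) (nat_lit 1435618696476) (nat_lit 182) (nat_lit 4) (nat_lit 183) (nat_lit 5) (nat_lit 183) (nat_lit 4) (nat_lit 364) (nat_lit 329) (nat_lit 207)) (XT.lf (nat_lit 0) (nat_lit 80532684614) (nat_lit 76) (nat_lit 80534067970) (nat_lit 152) (nat_lit 5158363588734) (nat_lit 180) (nat_lit 5) (nat_lit 181) (nat_lit 5) (nat_lit 182) (nat_lit 4) (nat_lit 365) (nat_lit 329) (nat_lit 206))) (XT.nd (nat_lit 78) (nat_lit 228) (nat_lit 0) (XT.lf (nat_lit 0) (nat_lit 2095911362098) (nat_lit 152) (nat_lit 1864816188108) (nat_lit 0) (nat_lit 1864814984159) (nat_lit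 180) (nat_lit 5) (nat_lit 182) (nat_lit 4) (nat_lit 180) (nat_lit 4) (nat_lit 366) (nat_lit 329) (nat_lit 205)) (XT.nd (nat_lit 78) (nat_lit 152) (nat_lit 0) (XT.lf (nat_lit 0) (nat_lit 2208125074012) (nat_lit 76) (nat_lit 2208126278858) (nat_lit 76) (nat_lit 1977029900022) (nat_lit 179) (nat_lit 4) (nat_lit 180) (nat_lit 5) (nat_lit 180) (nat_lit 4) (nat_lit 367) (nat_lit 329) (nat_lit 204)) (XT.lf (nat_lit 0) (nat_lit 70028420460) (nat_lit 76) (nat_lit 70029626086) (nat_lit 152) (nat_lit 6890130751287) (nat_lit 177) (nat_lit 5) (nat_lit 178) (nat_lit 5) (nat_lit 179) (nat_lit 4) (nat_lit 368) (nat_lit 329) (nat_lit 203))))) (XT.nd (nat_lit 156) (nat_lit 228) (nat_lit 0) (XT.nd (nat_lit 78) (nat_lit 76) (nat_lit 0) (XT.lf (nat_lit 0) (nat_lit 2700400437748) (nat_lit 152) (nat_lit 2499448112540) (nat_lit 0) (nat_lit 2499447063580) (nat_lit 177) (nat_lit 5) (nat_lit 179) (nat_lit 4) (nat_lit 177)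 (nat_lit 4) (nat_lit 369) (nat_lit 329) (nat_lit 202)) (XT.lf (nat_lit 0) (nat_lit 2883769302657) (nat_lit 76) (nat_lit 2883770352129) (nat_lit 76) (nat_lit 2682816977448) (nat_lit 176) (nat_lit 4) (nat_lit 177) (nat_lit 5) (nat_lit 177) (nat_lit 4) (nat_lit 370) (nat_lit 329) (nat_lit 201))) (XT.nd (nat_lit 78) (nat_lit 76) (nat_lit 0) (XT.lf (nat_lit 0) (nat_lit 60894278121) (nat_lit 76) (nat_lit 60895328040) (nat_lit 152) (nat_lit 9171497836840) (nat_lit 174) (nat_lit 5) (nat_lit 175) (nat_lit 5) (nat_lit 176) (nat_lit 4) (nat_lit 371) (nat_lit 329) (nat_lit 200)) (XT.nd (nat_lit 78) (nat_lit 76) (nat_lit 0) (XT.lf (nat_lit 0) (nat_lit 3509155805716) (nat_lit 152) (nat_lit 3334414653361) (nat_lit 0) (nat_lit 3334413740051) (nat_lit 174) (nat_lit 5) (nat_lit 176) (nat_lit 4) (nat_lit 174) (nat_lit 4) (nat_lit 372) (nat_lit 329) (nat_lit 199)) (XT.lf (nat_lit 0) (nat_lit 3782066548687) (nat_lit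 76) (nat_lit 3782067462290) (nat_lit 76) (nat_lit 3607325396332) (nat_lit 173) (nat_lit 4) (nat_lit 174) (nat_lit 5) (nat_lit 174) (nat_lit 4) (nat_lit 373) (nat_lit 329) (nat_lit 198)))))) (XT.nd (nat_lit 390) (nat_lit 304) (nat_lit 0) (XT.nd (nat_lit 156) (nat_lit 228) (nat_lit 0) (XT.nd (nat_lit 78) (nat_lit 0) (nat_lit 0) (XT.lf (nat_lit 0) (nat_lit 52951545884) (nat_lit 76) (nat_lit 52952459742) (nat_lit 152) (nat_lit 12180871035940) (nat_lit 171) (nat_lit 5) (nat_lit 172) (nat_lit 5) (nat_lit 173) (nat_lit 4) (nat_lit 374) (nat_lit 329) (nat_lit 197)) (XT.lf (nat_lit 0) (nat_lit 4586837880428) (nat_lit 152) (nat_lit 4434889052293) (nat_lit 0) (nat_lit 4434888257441) (nat_lit 171) (nat_lit 5) (nat_lit 173) (nat_lit 4) (nat_lit 171) (nat_lit 4) (nat_lit 375) (nat_lit 329) (nat_lit 196))) (XT.nd (nat_lit 78) (nat_lit 152) (nat_lit 0) (XT.lf (nat_lit 0) (nat_lit 4974201833447) (nat_lit 76) (nat_lit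 4974202628467) (nat_lit 76) (nat_lit 4822253005312) (nat_lit 170) (nat_lit 4) (nat_lit 171) (nat_lit 5) (nat_lit 171) (nat_lit 4) (nat_lit 376) (nat_lit 329) (nat_lit 195)) (XT.nd (nat_lit 78) (nat_lit 0) (nat_lit 0) (XT.lf (nat_lit 0) (nat_lit 46044822331) (nat_lit 76) (nat_lit 46045617496) (nat_lit 152) (nat_lit 16154041203280) (nat_lit 168) (nat_lit 5) (nat_lit 169) (nat_lit 5) (nat_lit 170) (nat_lit 4) (nat_lit 377) (nat_lit 329) (nat_lit 194)) (XT.lf (nat_lit 0) (nat_lit 6019118598765) (nat_lit 152) (nat_lit 5886989182996) (nat_lit 0) (nat_lit 5886988491438) (nat_lit 168) (nat_lit 5) (nat_lit 170) (nat_lit 4) (nat_lit 168) (nat_lit 4) (nat_lit 378) (nat_lit 329) (nat_lit 193))))) (XT.nd (nat_lit 156) (nat_lit 76) (nat_lit 0) (XT.nd (nat_lit 78) (nat_lit 152) (nat_lit 0) (XT.lf (nat_lit 0) (nat_lit 6554398292546) (nat_lit 76) (nat_lit 6554398984200) (nat_lit 76) (nat_lit 6422268876776) (nat_lit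 167) (nat_lit 4) (nat_lit 168) (nat_lit 5) (nat_lit 168) (nat_lit 4) (nat_lit 379) (nat_lit 329) (nat_lit 192)) (XT.lf (nat_lit 0) (nat_lit 40038975839) (nat_lit 76) (nat_lit 40039667577) (nat_lit 152) (nat_lit 21402710150818) (nat_lit 165) (nat_lit 5) (nat_lit 166) (nat_lit 5) (nat_lit 167) (nat_lit 4) (nat_lit 380) (nat_lit 329) (nat_lit 191))) (XT.nd (nat_lit 78) (nat_lit 76) (nat_lit 0) (XT.lf (nat_lit 0) (nat_lit 7919436957123) (nat_lit 152) (nat_lit 7804541812976) (nat_lit 0) (nat_lit 7804541211402) (nat_lit 165) (nat_lit 5) (nat_lit 167) (nat_lit 4) (nat_lit 165) (nat_lit 4) (nat_lit 381) (nat_lit 329) (nat_lit 190)) (XT.nd (nat_lit 42822) (nat_lit 0) (nat_lit 3876) (XT.lf (nat_lit 0) (nat_lit 8647336409642) (nat_lit 76) (nat_lit 8647337011270) (nat_lit 76) (nat_lit 8532441265494) (nat_lit 164) (nat_lit 4) (nat_lit 165) (nat_lit 5) (nat_lit 165) (nat_lit 4) (nat_lit 382) (nat_lit 329) (nat_lit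 189)) (XT.lf (nat_lit 0) (nat_lit 41146855850) (nat_lit 380) (nat_lit 46459090431) (nat_lit 380) (nat_lit 46459090431) (nat_lit 215) (nat_lit 3) (nat_lit 220) (nat_lit 3) (nat_lit 220) (nat_lit 5) (nat_lit 330) (nat_lit 330) (nat_lit 240))))))) (XT.nd (nat_lit 780) (nat_lit 684) (nat_lit 0) (XT.nd (nat_lit 390) (nat_lit 532) (nat_lit 0) (XT.nd (nat_lit 156) (nat_lit 152) (nat_lit 0) (XT.nd (nat_lit 78) (nat_lit 0) (nat_lit 76) (XT.lf (nat_lit 76) (nat_lit 45168025853) (nat_lit 0) (nat_lit 45168870838) (nat_lit 380) (nat_lit 197622258751) (nat_lit 216) (nat_lit 5) (nat_lit 215) (nat_lit 3) (nat_lit 220) (nat_lit 5) (nat_lit 331) (nat_lit 330) (nat_lit 239)) (XT.lf (nat_lit 0) (nat_lit 108996962304) (nat_lit 304) (nat_lit 100177725361) (nat_lit 380) (nat_lit 100176351663) (nat_lit 216) (nat_lit 5) (nat_lit 220) (nat_lit 5) (nat_lit 221) (nat_lit 5) (nat_lit 332) (nat_lit 330) (nat_lit 238))) (XT.nd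 (nat_lit 78) (nat_lit 228) (nat_lit 0) (XT.lf (nat_lit 76) (nat_lit 67704180350) (nat_lit 0) (nat_lit 67706109639) (nat_lit 380) (nat_lit 197798277974) (nat_lit 217) (nat_lit 5) (nat_lit 216) (nat_lit 5) (nat_lit 221) (nat_lit 5) (nat_lit 333) (nat_lit 330) (nat_lit 237)) (XT.nd (nat_lit 78) (nat_lit 304) (nat_lit 0) (XT.lf (nat_lit 0) (nat_lit 175204454984) (nat_lit 304) (nat_lit 92014771467) (nat_lit 76) (nat_lit 92012673718) (nat_lit 217) (nat_lit 5) (nat_lit 221) (nat_lit 5) (nat_lit 218) (nat_lit 5) (nat_lit 334) (nat_lit 330) (nat_lit 236)) (XT.lf (nat_lit 0) (nat_lit 114464505188) (nat_lit 304) (nat_lit 114466968247) (nat_lit 380) (nat_lit 159032699467) (nat_lit 213) (nat_lit 5) (nat_lit 217) (nat_lit 5) (nat_lit 218) (nat_lit 5) (nat_lit 335) (nat_lit 330) (nat_lit 235))))) (XT.nd (nat_lit 156) (nat_lit 380) (nat_lit 0) (XT.nd (nat_lit 78) (nat_lit 152) (nat_lit 0) (XT.lf (nat_lit 0) (nat_lit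 298290439114) (nat_lit 380) (nat_lit 60791165638) (nat_lit 76) (nat_lit 60788747621) (nat_lit 213) (nat_lit 5) (nat_lit 218) (nat_lit 5) (nat_lit 214) (nat_lit 5) (nat_lit 336) (nat_lit 330) (nat_lit 234)) (XT.lf (nat_lit 0) (nat_lit 195804584122) (nat_lit 152) (nat_lit 195807242336) (nat_lit 228) (nat_lit 62916845786) (nat_lit 211) (nat_lit 5) (nat_lit 213) (nat_lit 5) (nat_lit 214) (nat_lit 5) (nat_lit 337) (nat_lit 330) (nat_lit 233))) (XT.nd (nat_lit 78) (nat_lit 152) (nat_lit 0) (XT.lf (nat_lit 0) (nat_lit 3812477508) (nat_lit 152) (nat_lit 3815344590) (nat_lit 228) (nat_lit 486206659700) (nat_lit 208) (nat_lit 5) (nat_lit 210) (nat_lit 5) (nat_lit 211) (nat_lit 5) (nat_lit 338) (nat_lit 330) (nat_lit 232)) (XT.nd (nat_lit 78) (nat_lit 152) (nat_lit 0) (XT.lf (nat_lit 0) (nat_lit 105465340436) (nat_lit 228) (nat_lit 214825585914) (nat_lit 76) (nat_lit 214822934866) (nat_lit 208) (nat_lit 5)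 (nat_lit 211) (nat_lit 5) (nat_lit 209) (nat_lit 5) (nat_lit 339) (nat_lit 330) (nat_lit 231)) (XT.lf (nat_lit 0) (nat_lit 111384761571) (nat_lit 152) (nat_lit 111387549953) (nat_lit 228) (nat_lit 359093762273) (nat_lit 206) (nat_lit 5) (nat_lit 208) (nat_lit 5) (nat_lit 209) (nat_lit 5) (nat_lit 340) (nat_lit 330) (nat_lit 230)))))) (XT.nd (nat_lit 390) (nat_lit 304) (nat_lit 0) (XT.nd (nat_lit 156) (nat_lit 304) (nat_lit 0) (XT.nd (nat_lit 78) (nat_lit 76) (nat_lit 0) (XT.lf (nat_lit 0) (nat_lit 374774985377) (nat_lit 228) (nat_lit 129146856423) (nat_lit 76) (nat_lit 129144327899) (nat_lit 206) (nat_lit 5) (nat_lit 209) (nat_lit 5) (nat_lit 207) (nat_lit 4) (nat_lit 341) (nat_lit 330) (nat_lit 229)) (XT.lf (nat_lit 0) (nat_lit 283305313580) (nat_lit 76) (nat_lit 283307932403) (nat_lit 152) (nat_lit 122777756153) (nat_lit 205) (nat_lit 5) (nat_lit 206) (nat_lit 5) (nat_lit 207) (nat_lit 4) (nat_lit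 342) (nat_lit 330) (nat_lit 228))) (XT.nd (nat_lit 78) (nat_lit 76) (nat_lit 0) (XT.lf (nat_lit 0) (nat_lit 18987514613) (nat_lit 152) (nat_lit 18990211957) (nat_lit 228) (nat_lit 714802698174) (nat_lit 202) (nat_lit 5) (nat_lit 204) (nat_lit 5) (nat_lit 205) (nat_lit 5) (nat_lit 343) (nat_lit 330) (nat_lit 227)) (XT.nd (nat_lit 78) (nat_lit 76) (nat_lit 0) (XT.lf (nat_lit 0) (nat_lit 244314618746) (nat_lit 228) (nat_lit 287691667158) (nat_lit 76) (nat_lit 287689262269) (nat_lit 202) (nat_lit 5) (nat_lit 205) (nat_lit 5) (nat_lit 203) (nat_lit 4) (nat_lit 344) (nat_lit 330) (nat_lit 226)) (XT.lf (nat_lit 0) (nat_lit 246352384115) (nat_lit 76) (nat_lit 246354840633) (nat_lit 152) (nat_lit 402274938371) (nat_lit 201) (nat_lit 5) (nat_lit 202) (nat_lit 5) (nat_lit 203) (nat_lit 4) (nat_lit 345) (nat_lit 330) (nat_lit 225))))) (XT.nd (nat_lit 156) (nat_lit 152) (nat_lit 0) (XT.nd (nat_lit 78) (nat_lit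 152) (nat_lit 0) (XT.lf (nat_lit 0) (nat_lit 797514645107) (nat_lit 152) (nat_lit 90587955910) (nat_lit 0) (nat_lit 90585780769) (nat_lit 201) (nat_lit 5) (nat_lit 203) (nat_lit 4) (nat_lit 201) (nat_lit 4) (nat_lit 346) (nat_lit 330) (nat_lit 224)) (XT.lf (nat_lit 0) (nat_lit 104562295533) (nat_lit 152) (nat_lit 482119962887) (nat_lit 76) (nat_lit 482117753799) (nat_lit 199) (nat_lit 5) (nat_lit 201) (nat_lit 5) (nat_lit 200) (nat_lit 4) (nat_lit 347) (nat_lit 330) (nat_lit 223))) (XT.nd (nat_lit 78) (nat_lit 76) (nat_lit 0) (XT.lf (nat_lit 0) (nat_lit 214219428726) (nat_lit 76) (nat_lit 214221667333) (nat_lit 152) (nat_lit 740618527560) (nat_lit 198) (nat_lit 5) (nat_lit 199) (nat_lit 5) (nat_lit 200) (nat_lit 4) (nat_lit 348) (nat_lit 330) (nat_lit 222)) (XT.nd (nat_lit 78) (nat_lit 76) (nat_lit 0) (XT.lf (nat_lit 0) (nat_lit 836169245558) (nat_lit 152) (nat_lit 221450385387) (nat_lit 0) (nat_lit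 221448416452) (nat_lit 198) (nat_lit 5) (nat_lit 200) (nat_lit 4) (nat_lit 198) (nat_lit 4) (nat_lit 349) (nat_lit 330) (nat_lit 221)) (XT.lf (nat_lit 0) (nat_lit 671531151799) (nat_lit 76) (nat_lit 671533140143) (nat_lit 76) (nat_lit 56812291628) (nat_lit 197) (nat_lit 4) (nat_lit 198) (nat_lit 5) (nat_lit 198) (nat_lit 4) (nat_lit 350) (nat_lit 330) (nat_lit 220))))))))
noncomputable def xc94 : XT := (XT.nd (nat_lit 1560) (nat_lit 912) (nat_lit 0) (XT.nd (nat_lit 780) (nat_lit 684) (nat_lit 0) (XT.nd (nat_lit 390) (nat_lit 456) (nat_lit 0) (XT.nd (nat_lit 156) (nat_lit 228) (nat_lit 0) (XT.nd (nat_lit 78) (nat_lit 0) (nat_lit 0) (XT.lf (nat_lit 0) (nat_lit 186277743686) (nat_lit 76) (nat_lit 186279748908) (nat_lit 152) (nat_lit 1160867961311) (nat_lit 195) (nat_lit 5) (nat_lit 196) (nat_lit 5) (nat_lit 197) (nat_lit 4) (nat_lit 351) (nat_lit 330) (nat_lit 219)) (XT.lf (nat_lit 0) (nat_lit 915795658694)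 (nat_lit 152) (nat_lit 381257519415) (nat_lit 0) (nat_lit 381255762982) (nat_lit 195) (nat_lit 5) (nat_lit 197) (nat_lit 4) (nat_lit 195) (nat_lit 4) (nat_lit 352) (nat_lit 330) (nat_lit 218))) (XT.nd (nat_lit 78) (nat_lit 152) (nat_lit 0) (XT.lf (nat_lit 0) (nat_lit 791072421343) (nat_lit 76) (nat_lit 791074188873) (nat_lit 76) (nat_lit 256534282064) (nat_lit 194) (nat_lit 4) (nat_lit 195) (nat_lit 5) (nat_lit 195) (nat_lit 4) (nat_lit 353) (nat_lit 330) (nat_lit 217)) (XT.nd (nat_lit 78) (nat_lit 0) (nat_lit 0) (XT.lf (nat_lit 0) (nat_lit 161980635006) (nat_lit 76) (nat_lit 161982412186) (nat_lit 152) (nat_lit 1692986988613) (nat_lit 192) (nat_lit 5) (nat_lit 193) (nat_lit 5) (nat_lit 194) (nat_lit 4) (nat_lit 354) (nat_lit 330) (nat_lit 216)) (XT.lf (nat_lit 0) (nat_lit 1045889166708) (nat_lit 152) (nat_lit 581073393422) (nat_lit 0) (nat_lit 581071840752) (nat_lit 192) (nat_lit 5) (nat_lit 194)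 (nat_lit 4) (nat_lit 192) (nat_lit 4) (nat_lit 355) (nat_lit 330) (nat_lit 215))))) (XT.nd (nat_lit 156) (nat_lit 228) (nat_lit 0) (XT.nd (nat_lit 78) (nat_lit 152) (nat_lit 0) (XT.lf (nat_lit 0) (nat_lit 961821524776) (nat_lit 76) (nat_lit 961823083792) (nat_lit 76) (nat_lit 497005751490) (nat_lit 191) (nat_lit 4) (nat_lit 192) (nat_lit 5) (nat_lit 192) (nat_lit 4) (nat_lit 356) (nat_lit 330) (nat_lit 214)) (XT.lf (nat_lit 0) (nat_lit 140852719416) (nat_lit 76) (nat_lit 140854283948) (nat_lit 152) (nat_lit 2376139744494) (nat_lit 189) (nat_lit 5) (nat_lit 190) (nat_lit 5) (nat_lit 191) (nat_lit 4) (nat_lit 357) (nat_lit 330) (nat_lit 213))) (XT.nd (nat_lit 78) (nat_lit 228) (nat_lit 0) (XT.lf (nat_lit 0) (nat_lit 1239492250051) (nat_lit 152) (nat_lit 835304621106) (nat_lit 0) (nat_lit 835303256471) (nat_lit 189) (nat_lit 5) (nat_lit 191) (nat_lit 4) (nat_lit 189) (nat_lit 4) (nat_lit 358) (nat_lit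 330) (nat_lit 212)) (XT.nd (nat_lit 78) (nat_lit 152) (nat_lit 0) (XT.lf (nat_lit 0) (nat_lit 1198642231020) (nat_lit 76) (nat_lit 1198643599283) (nat_lit 76) (nat_lit 794454602076) (nat_lit 188) (nat_lit 4) (nat_lit 189) (nat_lit 5) (nat_lit 189) (nat_lit 4) (nat_lit 359) (nat_lit 330) (nat_lit 211)) (XT.lf (nat_lit 0) (nat_lit 122480621761) (nat_lit 76) (nat_lit 122481993179) (nat_lit 152) (nat_lit 3261718253673) (nat_lit 186) (nat_lit 5) (nat_lit 187) (nat_lit 5) (nat_lit 188) (nat_lit 4) (nat_lit 360) (nat_lit 330) (nat_lit 210)))))) (XT.nd (nat_lit 390) (nat_lit 380) (nat_lit 0) (XT.nd (nat_lit 156) (nat_lit 228) (nat_lit 0) (XT.nd (nat_lit 78) (nat_lit 76) (nat_lit 0) (XT.lf (nat_lit 0) (nat_lit 1514275303395) (nat_lit 152) (nat_lit 1162807799965) (nat_lit 0) (nat_lit 1162806605043) (nat_lit 186) (nat_lit 5) (nat_lit 188) (nat_lit 4) (nat_lit 186) (nat_lit 4) (nat_lit 361) (nat_lit 330) (nat_lit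 209)) (XT.lf (nat_lit 0) (nat_lit 1521407192519) (nat_lit 76) (nat_lit 1521408389515) (nat_lit 76) (nat_lit 1169939689089) (nat_lit 185) (nat_lit 4) (nat_lit 186) (nat_lit 5) (nat_lit 186) (nat_lit 4) (nat_lit 362) (nat_lit 330) (nat_lit 208))) (XT.nd (nat_lit 78) (nat_lit 76) (nat_lit 0) (XT.lf (nat_lit 0) (nat_lit 106504886306) (nat_lit 76) (nat_lit 106506085105) (nat_lit 152) (nat_lit 4417338429505) (nat_lit 183) (nat_lit 5) (nat_lit 184) (nat_lit 5) (nat_lit 185) (nat_lit 4) (nat_lit 363) (nat_lit 330) (nat_lit 207)) (XT.nd (nat_lit 78) (nat_lit 76) (nat_lit 0) (XT.lf (nat_lit 0) (nat_lit 1893974132594) (nat_lit 152) (nat_lit 1588350216568) (nat_lit 0) (nat_lit 1588349172770) (nat_lit 183) (nat_lit 5) (nat_lit 185) (nat_lit 4) (nat_lit 183) (nat_lit 4) (nat_lit 364) (nat_lit 330) (nat_lit 206)) (XT.lf (nat_lit 0) (nat_lit 1956585224421) (nat_lit 76) (nat_lit 1956586269405) (nat_lit 76) (nat_lit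 1650961308395) (nat_lit 182) (nat_lit 4) (nat_lit 183) (nat_lit 5) (nat_lit 183) (nat_lit 4) (nat_lit 365) (nat_lit 330) (nat_lit 205))))) (XT.nd (nat_lit 156) (nat_lit 228) (nat_lit 0) (XT.nd (nat_lit 78) (nat_lit 0) (nat_lit 0) (XT.lf (nat_lit 0) (nat_lit 92612943365) (nat_lit 76) (nat_lit 92613989381) (nat_lit 152) (nat_lit 5932117934678) (nat_lit 180) (nat_lit 5) (nat_lit 181) (nat_lit 5) (nat_lit 182) (nat_lit 4) (nat_lit 366) (nat_lit 330) (nat_lit 204)) (XT.lf (nat_lit 0) (nat_lit 2410298218666) (nat_lit 152) (nat_lit 2144538291687) (nat_lit 0) (nat_lit 2144537381328) (nat_lit 180) (nat_lit 5) (nat_lit 182) (nat_lit 4) (nat_lit 180) (nat_lit 4) (nat_lit 367) (nat_lit 330) (nat_lit 203))) (XT.nd (nat_lit 78) (nat_lit 152) (nat_lit 0) (XT.lf (nat_lit 0) (nat_lit 2539344144995) (nat_lit 76) (nat_lit 2539345056031) (nat_lit 76) (nat_lit 2273584218016) (nat_lit 179) (nat_lit 4) (nat_lit 180)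 (nat_lit 5) (nat_lit 180) (nat_lit 4) (nat_lit 368) (nat_lit 330) (nat_lit 202)) (XT.nd (nat_lit 78) (nat_lit 0) (nat_lit 0) (XT.lf (nat_lit 0) (nat_lit 80532993517) (nat_lit 76) (nat_lit 80533905144) (nat_lit 152) (nat_lit 7923650197078) (nat_lit 177) (nat_lit 5) (nat_lit 178) (nat_lit 5) (nat_lit 179) (nat_lit 4) (nat_lit 369) (nat_lit 330) (nat_lit 201)) (XT.lf (nat_lit 0) (nat_lit 3105460635549) (nat_lit 152) (nat_lit 2874365046872) (nat_lit 0) (nat_lit 2874364253707) (nat_lit 177) (nat_lit 5) (nat_lit 179) (nat_lit 4) (nat_lit 177) (nat_lit 4) (nat_lit 370) (nat_lit 330) (nat_lit 200))))))) (XT.nd (nat_lit 780) (nat_lit 152) (nat_lit 0) (XT.nd (nat_lit 390) (nat_lit 304) (nat_lit 0) (XT.nd (nat_lit 156) (nat_lit 228) (nat_lit 0) (XT.nd (nat_lit 78) (nat_lit 152) (nat_lit 0) (XT.lf (nat_lit 0) (nat_lit 3316334967762) (nat_lit 76) (nat_lit 3316335761314) (nat_lit 76) (nat_lit 3085239379084)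 (nat_lit 176) (nat_lit 4) (nat_lit 177) (nat_lit 5) (nat_lit 177) (nat_lit 4) (nat_lit 371) (nat_lit 330) (nat_lit 199)) (XT.lf (nat_lit 0) (nat_lit 70028689607) (nat_lit 76) (nat_lit 70029483496) (nat_lit 152) (nat_lit 10547222367445) (nat_lit 174) (nat_lit 5) (nat_lit 175) (nat_lit 5) (nat_lit 176) (nat_lit 4) (nat_lit 372) (nat_lit 330) (nat_lit 198))) (XT.nd (nat_lit 78) (nat_lit 228) (nat_lit 0) (XT.lf (nat_lit 0) (nat_lit 4035529291330) (nat_lit 152) (nat_lit 3834576605524) (nat_lit 0) (nat_lit 3834575914931) (nat_lit 174) (nat_lit 5) (nat_lit 176) (nat_lit 4) (nat_lit 174) (nat_lit 4) (nat_lit 373) (nat_lit 330) (nat_lit 197)) (XT.nd (nat_lit 78) (nat_lit 152) (nat_lit 0) (XT.lf (nat_lit 0) (nat_lit 4349376765657) (nat_lit 76) (nat_lit 4349377456472) (nat_lit 76) (nat_lit 4148424079851) (nat_lit 173) (nat_lit 4) (nat_lit 174) (nat_lit 5) (nat_lit 174) (nat_lit 4) (nat_lit 374) (nat_lit 330)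 (nat_lit 196)) (XT.lf (nat_lit 0) (nat_lit 60894512469) (nat_lit 76) (nat_lit 60895203476) (nat_lit 152) (nat_lit 14008001565435) (nat_lit 171) (nat_lit 5) (nat_lit 172) (nat_lit 5) (nat_lit 173) (nat_lit 4) (nat_lit 375) (nat_lit 330) (nat_lit 195))))) (XT.nd (nat_lit 156) (nat_lit 228) (nat_lit 0) (XT.nd (nat_lit 78) (nat_lit 76) (nat_lit 0) (XT.lf (nat_lit 0) (nat_lit 5274863662197) (nat_lit 152) (nat_lit 5100122196278) (nat_lit 0) (nat_lit 5100121595256) (nat_lit 171) (nat_lit 5) (nat_lit 173) (nat_lit 4) (nat_lit 171) (nat_lit 4) (nat_lit 376) (nat_lit 330) (nat_lit 194)) (XT.lf (nat_lit 0) (nat_lit 5720332312603) (nat_lit 76) (nat_lit 5720332913751) (nat_lit 76) (nat_lit 5545590846684) (nat_lit 170) (nat_lit 4) (nat_lit 171) (nat_lit 5) (nat_lit 171) (nat_lit 4) (nat_lit 377) (nat_lit 330) (nat_lit 193))) (XT.nd (nat_lit 78) (nat_lit 76) (nat_lit 0) (XT.lf (nat_lit 0) (nat_lit 52951749839)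 (nat_lit 76) (nat_lit 52952351098) (nat_lit 152) (nat_lit 18577147274367) (nat_lit 168) (nat_lit 5) (nat_lit 169) (nat_lit 5) (nat_lit 170) (nat_lit 4) (nat_lit 378) (nat_lit 330) (nat_lit 192)) (XT.nd (nat_lit 78) (nat_lit 76) (nat_lit 0) (XT.lf (nat_lit 0) (nat_lit 6921986475232) (nat_lit 152) (nat_lit 6770037374433) (nat_lit 0) (nat_lit 6770036851516) (nat_lit 168) (nat_lit 5) (nat_lit 170) (nat_lit 4) (nat_lit 168) (nat_lit 4) (nat_lit 379) (nat_lit 330) (nat_lit 191)) (XT.lf (nat_lit 0) (nat_lit 7537558213985) (nat_lit 76) (nat_lit 7537558736975) (nat_lit 76) (nat_lit 7385609113186) (nat_lit 167) (nat_lit 4) (nat_lit 168) (nat_lit 5) (nat_lit 168) (nat_lit 4) (nat_lit 380) (nat_lit 330) (nat_lit 190)))))) (XT.nd (nat_lit 43212) (nat_lit 0) (nat_lit 3496) (XT.nd (nat_lit 42978) (nat_lit 0) (nat_lit 3800) (XT.nd (nat_lit 78) (nat_lit 0) (nat_lit 0) (XT.lf (nat_lit 0) (nat_lit 46044999784) (nat_lit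 76) (nat_lit 46045522836) (nat_lit 152) (nat_lit 24613116578345) (nat_lit 165) (nat_lit 5) (nat_lit 166) (nat_lit 5) (nat_lit 167) (nat_lit 4) (nat_lit 381) (nat_lit 330) (nat_lit 189)) (XT.lf (nat_lit 0) (nat_lit 9107352576014) (nat_lit 152) (nat_lit 8975222923145) (nat_lit 0) (nat_lit 8975222468269) (nat_lit 165) (nat_lit 5) (nat_lit 167) (nat_lit 4) (nat_lit 165) (nat_lit 4) (nat_lit 382) (nat_lit 330) (nat_lit 188))) (XT.nd (nat_lit 78) (nat_lit 0) (nat_lit 0) (XT.lf (nat_lit 0) (nat_lit 47319694223) (nat_lit 380) (nat_lit 53427488249) (nat_lit 380) (nat_lit 53427488249) (nat_lit 215) (nat_lit 3) (nat_lit 220) (nat_lit 3) (nat_lit 220) (nat_lit 5) (nat_lit 331) (nat_lit 331) (nat_lit 238)) (XT.nd (nat_lit 78) (nat_lit 0) (nat_lit 76) (XT.lf (nat_lit 76) (nat_lit 51944118885) (nat_lit 0) (nat_lit 51944757815) (nat_lit 380) (nat_lit 227263935232) (nat_lit 216) (nat_lit 5) (nat_lit 215) (nat_lit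 3) (nat_lit 220) (nat_lit 5) (nat_lit 332) (nat_lit 331) (nat_lit 237)) (XT.lf (nat_lit 0) (nat_lit 125347743578) (nat_lit 304) (nat_lit 115203402412) (nat_lit 380) (nat_lit 115202363699) (nat_lit 216) (nat_lit 5) (nat_lit 220) (nat_lit 5) (nat_lit 221) (nat_lit 5) (nat_lit 333) (nat_lit 331) (nat_lit 236))))) (XT.nd (nat_lit 156) (nat_lit 380) (nat_lit 0) (XT.nd (nat_lit 78) (nat_lit 0) (nat_lit 76) (XT.lf (nat_lit 76) (nat_lit 77860744531) (nat_lit 0) (nat_lit 77862203351) (nat_lit 380) (nat_lit 227466738116) (nat_lit 217) (nat_lit 5) (nat_lit 216) (nat_lit 5) (nat_lit 221) (nat_lit 5) (nat_lit 334) (nat_lit 331) (nat_lit 235)) (XT.lf (nat_lit 0) (nat_lit 201486085887) (nat_lit 304) (nat_lit 105816020555) (nat_lit 76) (nat_lit 105814434355) (nat_lit 217) (nat_lit 5) (nat_lit 221) (nat_lit 5) (nat_lit 218) (nat_lit 5) (nat_lit 335) (nat_lit 331) (nat_lit 234))) (XT.nd (nat_lit 78) (nat_lit 152)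 (nat_lit 0) (XT.lf (nat_lit 0) (nat_lit 131635103661) (nat_lit 304) (nat_lit 131636966087) (nat_lit 380) (nat_lit 182886597793) (nat_lit 213) (nat_lit 5) (nat_lit 217) (nat_lit 5) (nat_lit 218) (nat_lit 5) (nat_lit 336) (nat_lit 331) (nat_lit 233)) (XT.nd (nat_lit 78) (nat_lit 152) (nat_lit 0) (XT.lf (nat_lit 0) (nat_lit 343034767818) (nat_lit 380) (nat_lit 69908925677) (nat_lit 76) (nat_lit 69907097309) (nat_lit 213) (nat_lit 5) (nat_lit 218) (nat_lit 5) (nat_lit 214) (nat_lit 5) (nat_lit 337) (nat_lit 331) (nat_lit 232)) (XT.lf (nat_lit 0) (nat_lit 225176144964) (nat_lit 152) (nat_lit 225178154956) (nat_lit 228) (nat_lit 72353568236) (nat_lit 211) (nat_lit 5) (nat_lit 213) (nat_lit 5) (nat_lit 214) (nat_lit 5) (nat_lit 338) (nat_lit 331) (nat_lit 231))))))))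
noncomputable def xc95 : XT := (XT.nd (nat_lit 1560) (nat_lit 1444) (nat_lit 0) (XT.nd (nat_lit 780) (nat_lit 760) (nat_lit 0) (XT.nd (nat_lit 390) (nat_lit 456) (nat_lit 0) (XT.nd (nat_lit 156) (nat_lit 228) (nat_lit 0) (XT.nd (nat_lit 78) (nat_lit 0) (nat_lit 0) (XT.lf (nat_lit 0) (nat_lit 4385251027) (nat_lit 152) (nat_lit 4387418952) (nat_lit 228) (nat_lit 559136882905) (nat_lit 208) (nat_lit 5) (nat_lit 210) (nat_lit 5) (nat_lit 211) (nat_lit 5) (nat_lit 339) (nat_lit 331) (nat_lit 230)) (XT.lf (nat_lit 0) (nat_lit 121285736265) (nat_lit 228) (nat_lit 247048559746) (nat_lit 76) (nat_lit 247046555173) (nat_lit 208) (nat_lit 5) (nat_lit 211) (nat_lit 5) (nat_lit 209) (nat_lit 5) (nat_lit 340) (nat_lit 331) (nat_lit 229))) (XT.nd (nat_lit 78) (nat_lit 76) (nat_lit 0) (XT.lf (nat_lit 0) (nat_lit 128093300587) (nat_lit 152) (nat_lit 128095409004) (nat_lit 228) (nat_lit 412957192575) (nat_lit 206)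 (nat_lit 5) (nat_lit 208) (nat_lit 5) (nat_lit 209) (nat_lit 5) (nat_lit 341) (nat_lit 331) (nat_lit 228)) (XT.nd (nat_lit 78) (nat_lit 76) (nat_lit 0) (XT.lf (nat_lit 0) (nat_lit 430991722455) (nat_lit 228) (nat_lit 148518105618) (nat_lit 76) (nat_lit 148516193691) (nat_lit 206) (nat_lit 5) (nat_lit 209) (nat_lit 5) (nat_lit 207) (nat_lit 4) (nat_lit 342) (nat_lit 331) (nat_lit 227)) (XT.lf (nat_lit 0) (nat_lit 325801854464) (nat_lit 76) (nat_lit 325803834670) (nat_lit 152) (nat_lit 141193894884) (nat_lit 205) (nat_lit 5) (nat_lit 206) (nat_lit 5) (nat_lit 207) (nat_lit 4) (nat_lit 343) (nat_lit 331) (nat_lit 226))))) (XT.nd (nat_lit 156) (nat_lit 228) (nat_lit 0) (XT.nd (nat_lit 78) (nat_lit 0) (nat_lit 0) (XT.lf (nat_lit 0) (nat_lit 21836396430) (nat_lit 152) (nat_lit 21838436009) (nat_lit 228) (nat_lit 822022588985) (nat_lit 202) (nat_lit 5) (nat_lit 204) (nat_lit 5) (nat_lit 205) (nat_lit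 5) (nat_lit 344) (nat_lit 331) (nat_lit 225)) (XT.lf (nat_lit 0) (nat_lit 280962211233) (nat_lit 228) (nat_lit 330844713829) (nat_lit 76) (nat_lit 330842895387) (nat_lit 202) (nat_lit 5) (nat_lit 205) (nat_lit 5) (nat_lit 203) (nat_lit 4) (nat_lit 345) (nat_lit 331) (nat_lit 224))) (XT.nd (nat_lit 78) (nat_lit 152) (nat_lit 0) (XT.lf (nat_lit 0) (nat_lit 283305913162) (nat_lit 76) (nat_lit 283307770643) (nat_lit 152) (nat_lit 462615747480) (nat_lit 201) (nat_lit 5) (nat_lit 202) (nat_lit 5) (nat_lit 203) (nat_lit 4) (nat_lit 346) (nat_lit 331) (nat_lit 223)) (XT.nd (nat_lit 78) (nat_lit 152) (nat_lit 0) (XT.lf (nat_lit 0) (nat_lit 917142178921) (nat_lit 152) (nat_lit 104175527148) (nat_lit 0) (nat_lit 104173882428) (nat_lit 201) (nat_lit 5) (nat_lit 203) (nat_lit 4) (nat_lit 201) (nat_lit 4) (nat_lit 347) (nat_lit 331) (nat_lit 222)) (XT.lf (nat_lit 0) (nat_lit 120246972666) (nat_lit 152) (nat_lit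 554437330927) (nat_lit 76) (nat_lit 554435660539) (nat_lit 199) (nat_lit 5) (nat_lit 201) (nat_lit 5) (nat_lit 200) (nat_lit 4) (nat_lit 348) (nat_lit 331) (nat_lit 221)))))) (XT.nd (nat_lit 390) (nat_lit 456) (nat_lit 0) (XT.nd (nat_lit 156) (nat_lit 228) (nat_lit 0) (XT.nd (nat_lit 78) (nat_lit 0) (nat_lit 0) (XT.lf (nat_lit 0) (nat_lit 246352940957) (nat_lit 76) (nat_lit 246354633665) (nat_lit 152) (nat_lit 851710945418) (nat_lit 198) (nat_lit 5) (nat_lit 199) (nat_lit 5) (nat_lit 200) (nat_lit 4) (nat_lit 349) (nat_lit 331) (nat_lit 220)) (XT.lf (nat_lit 0) (nat_lit 961594915786) (nat_lit 152) (nat_lit 254667392505) (nat_lit 0) (nat_lit 254665903707) (nat_lit 198) (nat_lit 5) (nat_lit 200) (nat_lit 4) (nat_lit 198) (nat_lit 4) (nat_lit 350) (nat_lit 331) (nat_lit 219))) (XT.nd (nat_lit 78) (nat_lit 152) (nat_lit 0) (XT.lf (nat_lit 0) (nat_lit 772261350228) (nat_lit 76) (nat_lit 772262853702)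 (nat_lit 76) (nat_lit 65333826947) (nat_lit 197) (nat_lit 4) (nat_lit 198) (nat_lit 5) (nat_lit 198) (nat_lit 4) (nat_lit 351) (nat_lit 331) (nat_lit 218)) (XT.nd (nat_lit 78) (nat_lit 0) (nat_lit 0) (XT.lf (nat_lit 0) (nat_lit 214219933215) (nat_lit 76) (nat_lit 214221449450) (nat_lit 152) (nat_lit 1334997849399) (nat_lit 195) (nat_lit 5) (nat_lit 196) (nat_lit 5) (nat_lit 197) (nat_lit 4) (nat_lit 352) (nat_lit 331) (nat_lit 217)) (XT.lf (nat_lit 0) (nat_lit 1053165248387) (nat_lit 152) (nat_lit 438445662926) (nat_lit 0) (nat_lit 438444334810) (nat_lit 195) (nat_lit 5) (nat_lit 197) (nat_lit 4) (nat_lit 195) (nat_lit 4) (nat_lit 353) (nat_lit 331) (nat_lit 216))))) (XT.nd (nat_lit 156) (nat_lit 228) (nat_lit 0) (XT.nd (nat_lit 78) (nat_lit 152) (nat_lit 0) (XT.lf (nat_lit 0) (nat_lit 909733746928) (nat_lit 76) (nat_lit 909735083435) (nat_lit 76) (nat_lit 295014161467) (nat_lit 194) (nat_lit 4)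 (nat_lit 195) (nat_lit 5) (nat_lit 195) (nat_lit 4) (nat_lit 354) (nat_lit 331) (nat_lit 215)) (XT.lf (nat_lit 0) (nat_lit 186278193965) (nat_lit 76) (nat_lit 186279537769) (nat_lit 152) (nat_lit 1946934775322) (nat_lit 192) (nat_lit 5) (nat_lit 193) (nat_lit 5) (nat_lit 194) (nat_lit 4) (nat_lit 355) (nat_lit 331) (nat_lit 214))) (XT.nd (nat_lit 78) (nat_lit 228) (nat_lit 0) (XT.lf (nat_lit 0) (nat_lit 1202772748015) (nat_lit 152) (nat_lit 668233978048) (nat_lit 0) (nat_lit 668232804006) (nat_lit 192) (nat_lit 5) (nat_lit 194) (nat_lit 4) (nat_lit 192) (nat_lit 4) (nat_lit 356) (nat_lit 331) (nat_lit 213)) (XT.nd (nat_lit 78) (nat_lit 152) (nat_lit 0) (XT.lf (nat_lit 0) (nat_lit 1106095158590) (nat_lit 76) (nat_lit 1106096337430) (nat_lit 76) (nat_lit 571556388623) (nat_lit 191) (nat_lit 4) (nat_lit 192) (nat_lit 5) (nat_lit 192) (nat_lit 4) (nat_lit 357) (nat_lit 331) (nat_lit 212)) (XT.lf (nat_lit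 0) (nat_lit 161981033182) (nat_lit 76) (nat_lit 161982216194) (nat_lit 152) (nat_lit 2732560481334) (nat_lit 189) (nat_lit 5) (nat_lit 190) (nat_lit 5) (nat_lit 191) (nat_lit 4) (nat_lit 358) (nat_lit 331) (nat_lit 211))))))) (XT.nd (nat_lit 780) (nat_lit 760) (nat_lit 0) (XT.nd (nat_lit 390) (nat_lit 380) (nat_lit 0) (XT.nd (nat_lit 156) (nat_lit 228) (nat_lit 0) (XT.nd (nat_lit 78) (nat_lit 76) (nat_lit 0) (XT.lf (nat_lit 0) (nat_lit 1425416265139) (nat_lit 152) (nat_lit 960599943429) (nat_lit 0) (nat_lit 960598911568) (nat_lit 189) (nat_lit 5) (nat_lit 191) (nat_lit 4) (nat_lit 189) (nat_lit 4) (nat_lit 359) (nat_lit 331) (nat_lit 210)) (XT.lf (nat_lit 0) (nat_lit 1378438919661) (nat_lit 76) (nat_lit 1378439954264) (nat_lit 76) (nat_lit 913622597950) (nat_lit 188) (nat_lit 4) (nat_lit 189) (nat_lit 5) (nat_lit 189) (nat_lit 4) (nat_lit 360) (nat_lit 331) (nat_lit 209))) (XT.nd (nat_lit 78) (nat_lit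 76) (nat_lit 0) (XT.lf (nat_lit 0) (nat_lit 140853069446) (nat_lit 76) (nat_lit 140854106435) (nat_lit 152) (nat_lit 3750975797720) (nat_lit 186) (nat_lit 5) (nat_lit 187) (nat_lit 5) (nat_lit 188) (nat_lit 4) (nat_lit 361) (nat_lit 331) (nat_lit 208)) (XT.nd (nat_lit 78) (nat_lit 76) (nat_lit 0) (XT.lf (nat_lit 0) (nat_lit 1741416752286) (nat_lit 152) (nat_lit 1337228646451) (nat_lit 0) (nat_lit 1337227742918) (nat_lit 186) (nat_lit 5) (nat_lit 188) (nat_lit 4) (nat_lit 186) (nat_lit 4) (nat_lit 362) (nat_lit 331) (nat_lit 207)) (XT.lf (nat_lit 0) (nat_lit 1749618580200) (nat_lit 76) (nat_lit 1749619485302) (nat_lit 76) (nat_lit 1345430474365) (nat_lit 185) (nat_lit 4) (nat_lit 186) (nat_lit 5) (nat_lit 186) (nat_lit 4) (nat_lit 363) (nat_lit 331) (nat_lit 206))))) (XT.nd (nat_lit 156) (nat_lit 228) (nat_lit 0) (XT.nd (nat_lit 78) (nat_lit 0) (nat_lit 0) (XT.lf (nat_lit 0) (nat_lit 122480928303)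 (nat_lit 76) (nat_lit 122481834768) (nat_lit 152) (nat_lit 5079939026091) (nat_lit 183) (nat_lit 5) (nat_lit 184) (nat_lit 5) (nat_lit 185) (nat_lit 4) (nat_lit 364) (nat_lit 331) (nat_lit 205)) (XT.lf (nat_lit 0) (nat_lit 2178070385267) (nat_lit 152) (nat_lit 1826602467150) (nat_lit 0) (nat_lit 1826601677888) (nat_lit 183) (nat_lit 5) (nat_lit 185) (nat_lit 4) (nat_lit 183) (nat_lit 4) (nat_lit 365) (nat_lit 331) (nat_lit 204))) (XT.nd (nat_lit 78) (nat_lit 152) (nat_lit 0) (XT.lf (nat_lit 0) (nat_lit 2250073277174) (nat_lit 76) (nat_lit 2250074067332) (nat_lit 76) (nat_lit 1898605359056) (nat_lit 182) (nat_lit 4) (nat_lit 183) (nat_lit 5) (nat_lit 183) (nat_lit 4) (nat_lit 366) (nat_lit 331) (nat_lit 203)) (XT.nd (nat_lit 78) (nat_lit 0) (nat_lit 0) (XT.lf (nat_lit 0) (nat_lit 106505154102) (nat_lit 76) (nat_lit 106505945040) (nat_lit 152) (nat_lit 6821935479424) (nat_lit 180) (nat_lit 5) (nat_lit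 181) (nat_lit 5) (nat_lit 182) (nat_lit 4) (nat_lit 367) (nat_lit 331) (nat_lit 202)) (XT.lf (nat_lit 0) (nat_lit 2771843066591) (nat_lit 152) (nat_lit 2466218789967) (nat_lit 0) (nat_lit 2466218101606) (nat_lit 180) (nat_lit 5) (nat_lit 182) (nat_lit 4) (nat_lit 180) (nat_lit 4) (nat_lit 368) (nat_lit 331) (nat_lit 201)))))) (XT.nd (nat_lit 390) (nat_lit 304) (nat_lit 0) (XT.nd (nat_lit 156) (nat_lit 228) (nat_lit 0) (XT.nd (nat_lit 78) (nat_lit 152) (nat_lit 0) (XT.lf (nat_lit 0) (nat_lit 2920246001059) (nat_lit 76) (nat_lit 2920246689933) (nat_lit 76) (nat_lit 2614621724435) (nat_lit 179) (nat_lit 4) (nat_lit 180) (nat_lit 5) (nat_lit 180) (nat_lit 4) (nat_lit 369) (nat_lit 331) (nat_lit 200)) (XT.lf (nat_lit 0) (nat_lit 92613176940) (nat_lit 76) (nat_lit 92613866261) (nat_lit 152) (nat_lit 9112197600437) (nat_lit 177) (nat_lit 5) (nat_lit 178) (nat_lit 5) (nat_lit 179) (nat_lit 4) (nat_lit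 370) (nat_lit 331) (nat_lit 199))) (XT.nd (nat_lit 78) (nat_lit 228) (nat_lit 0) (XT.lf (nat_lit 0) (nat_lit 3571279830797) (nat_lit 152) (nat_lit 3305519590255) (nat_lit 0) (nat_lit 3305518990508) (nat_lit 177) (nat_lit 5) (nat_lit 179) (nat_lit 4) (nat_lit 177) (nat_lit 4) (nat_lit 371) (nat_lit 331) (nat_lit 198)) (XT.nd (nat_lit 78) (nat_lit 152) (nat_lit 0) (XT.lf (nat_lit 0) (nat_lit 3813785416863) (nat_lit 76) (nat_lit 3813786016902) (nat_lit 76) (nat_lit 3548025176320) (nat_lit 176) (nat_lit 4) (nat_lit 177) (nat_lit 5) (nat_lit 177) (nat_lit 4) (nat_lit 372) (nat_lit 331) (nat_lit 197)) (XT.lf (nat_lit 0) (nat_lit 80533197031) (nat_lit 76) (nat_lit 80533797325) (nat_lit 152) (nat_lit 12129305612982) (nat_lit 174) (nat_lit 5) (nat_lit 175) (nat_lit 5) (nat_lit 176) (nat_lit 4) (nat_lit 373) (nat_lit 331) (nat_lit 196))))) (XT.nd (nat_lit 156) (nat_lit 228) (nat_lit 0) (XT.nd (nat_lit 78)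 (nat_lit 76) (nat_lit 0) (XT.lf (nat_lit 0) (nat_lit 4640858771802) (nat_lit 152) (nat_lit 4409762910461) (nat_lit 0) (nat_lit 4409762388273) (nat_lit 174) (nat_lit 5) (nat_lit 176) (nat_lit 4) (nat_lit 174) (nat_lit 4) (nat_lit 374) (nat_lit 331) (nat_lit 195)) (XT.lf (nat_lit 0) (nat_lit 5001783457948) (nat_lit 76) (nat_lit 5001783980303) (nat_lit 76) (nat_lit 4770687596607) (nat_lit 173) (nat_lit 4) (nat_lit 174) (nat_lit 5) (nat_lit 174) (nat_lit 4) (nat_lit 375) (nat_lit 331) (nat_lit 194))) (XT.nd (nat_lit 78) (nat_lit 76) (nat_lit 0) (XT.lf (nat_lit 0) (nat_lit 70028866807) (nat_lit 76) (nat_lit 70029389308) (nat_lit 152) (nat_lit 16109201705055) (nat_lit 171) (nat_lit 5) (nat_lit 172) (nat_lit 5) (nat_lit 173) (nat_lit 4) (nat_lit 376) (nat_lit 331) (nat_lit 193)) (XT.nd (nat_lit 78) (nat_lit 76) (nat_lit 0) (XT.lf (nat_lit 0) (nat_lit 6066093286917) (nat_lit 152) (nat_lit 5865140364012)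 (nat_lit 0) (nat_lit 5865139909553) (nat_lit 171) (nat_lit 5) (nat_lit 173) (nat_lit 4) (nat_lit 171) (nat_lit 4) (nat_lit 377) (nat_lit 331) (nat_lit 192)) (XT.lf (nat_lit 0) (nat_lit 6578382313851) (nat_lit 76) (nat_lit 6578382768405) (nat_lit 76) (nat_lit 6377429390945) (nat_lit 170) (nat_lit 4) (nat_lit 171) (nat_lit 5) (nat_lit 171) (nat_lit 4) (nat_lit 378) (nat_lit 331) (nat_lit 191))))))))
noncomputable def xc96 : XT := (XT.nd (nat_lit 44382) (nat_lit 0) (nat_lit 1368) (XT.nd (nat_lit 43602) (nat_lit 0) (nat_lit 2812) (XT.nd (nat_lit 43212) (nat_lit 0) (nat_lit 3800) (XT.nd (nat_lit 156) (nat_lit 228) (nat_lit 0) (XT.nd (nat_lit 78) (nat_lit 0) (nat_lit 0) (XT.lf (nat_lit 0) (nat_lit 60894666688) (nat_lit 76) (nat_lit 60895121326) (nat_lit 152) (nat_lit 21363719282796) (nat_lit 168) (nat_lit 5) (nat_lit 169) (nat_lit 5) (nat_lit 170) (nat_lit 4) (nat_lit 379) (nat_lit 331) (nat_lit 190))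 (XT.lf (nat_lit 0) (nat_lit 7960284512038) (nat_lit 152) (nat_lit 7785542839946) (nat_lit 0) (nat_lit 7785542444546) (nat_lit 168) (nat_lit 5) (nat_lit 170) (nat_lit 4) (nat_lit 168) (nat_lit 4) (nat_lit 380) (nat_lit 331) (nat_lit 189))) (XT.nd (nat_lit 78) (nat_lit 152) (nat_lit 0) (XT.lf (nat_lit 0) (nat_lit 8668192080341) (nat_lit 76) (nat_lit 8668192475797) (nat_lit 76) (nat_lit 8493450408250) (nat_lit 167) (nat_lit 4) (nat_lit 168) (nat_lit 5) (nat_lit 168) (nat_lit 4) (nat_lit 381) (nat_lit 331) (nat_lit 188)) (XT.lf (nat_lit 0) (nat_lit 52951884019) (nat_lit 76) (nat_lit 52952279522) (nat_lit 152) (nat_lit 28305083993191) (nat_lit 165) (nat_lit 5) (nat_lit 166) (nat_lit 5) (nat_lit 167) (nat_lit 4) (nat_lit 382) (nat_lit 331) (nat_lit 187)))) (XT.nd (nat_lit 156) (nat_lit 0) (nat_lit 76) (XT.nd (nat_lit 78) (nat_lit 0) (nat_lit 0) (XT.lf (nat_lit 0) (nat_lit 54418260829) (nat_lit 380) (nat_lit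 61441259315) (nat_lit 380) (nat_lit 61441259315) (nat_lit 215) (nat_lit 3) (nat_lit 220) (nat_lit 3) (nat_lit 220) (nat_lit 5) (nat_lit 332) (nat_lit 332) (nat_lit 236)) (XT.lf (nat_lit 76) (nat_lit 59736409046) (nat_lit 0) (nat_lit 59736892169) (nat_lit 380) (nat_lit 261352268556) (nat_lit 216) (nat_lit 5) (nat_lit 215) (nat_lit 3) (nat_lit 220) (nat_lit 5) (nat_lit 333) (nat_lit 332) (nat_lit 235))) (XT.nd (nat_lit 78) (nat_lit 0) (nat_lit 0) (XT.lf (nat_lit 0) (nat_lit 144150840410) (nat_lit 304) (nat_lit 132483170427) (nat_lit 380) (nat_lit 132482385010) (nat_lit 216) (nat_lit 5) (nat_lit 220) (nat_lit 5) (nat_lit 221) (nat_lit 5) (nat_lit 334) (nat_lit 332) (nat_lit 234)) (XT.nd (nat_lit 78) (nat_lit 0) (nat_lit 76) (XT.lf (nat_lit 76) (nat_lit 89540564815) (nat_lit 0) (nat_lit 89541667892) (nat_lit 380) (nat_lit 261585779795) (nat_lit 217) (nat_lit 5) (nat_lit 216) (nat_lit 5) (nat_lit 221)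 (nat_lit 5) (nat_lit 335) (nat_lit 332) (nat_lit 233)) (XT.lf (nat_lit 0) (nat_lit 231709726677) (nat_lit 304) (nat_lit 121687692724) (nat_lit 76) (nat_lit 121686493330) (nat_lit 217) (nat_lit 5) (nat_lit 221) (nat_lit 5) (nat_lit 218) (nat_lit 5) (nat_lit 336) (nat_lit 332) (nat_lit 232)))))) (XT.nd (nat_lit 390) (nat_lit 456) (nat_lit 0) (XT.nd (nat_lit 156) (nat_lit 380) (nat_lit 0) (XT.nd (nat_lit 78) (nat_lit 0) (nat_lit 0) (XT.lf (nat_lit 0) (nat_lit 151381066900) (nat_lit 304) (nat_lit 151382475162) (nat_lit 380) (nat_lit 210318826333) (nat_lit 213) (nat_lit 5) (nat_lit 217) (nat_lit 5) (nat_lit 218) (nat_lit 5) (nat_lit 337) (nat_lit 332) (nat_lit 231)) (XT.lf (nat_lit 0) (nat_lit 394490559804) (nat_lit 380) (nat_lit 80394572804) (nat_lit 76) (nat_lit 80393190295) (nat_lit 213) (nat_lit 5) (nat_lit 218) (nat_lit 5) (nat_lit 214) (nat_lit 5) (nat_lit 338) (nat_lit 332) (nat_lit 230))) (XT.nd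 (nat_lit 78) (nat_lit 228) (nat_lit 0) (XT.lf (nat_lit 0) (nat_lit 258953226992) (nat_lit 152) (nat_lit 258954746835) (nat_lit 228) (nat_lit 83205995216) (nat_lit 211) (nat_lit 5) (nat_lit 213) (nat_lit 5) (nat_lit 214) (nat_lit 5) (nat_lit 339) (nat_lit 332) (nat_lit 229)) (XT.nd (nat_lit 78) (nat_lit 0) (nat_lit 0) (XT.lf (nat_lit 0) (nat_lit 5043720641) (nat_lit 152) (nat_lit 5045359904) (nat_lit 228) (nat_lit 643006828762) (nat_lit 208) (nat_lit 5) (nat_lit 210) (nat_lit 5) (nat_lit 211) (nat_lit 5) (nat_lit 340) (nat_lit 332) (nat_lit 228)) (XT.lf (nat_lit 0) (nat_lit 139479046432) (nat_lit 228) (nat_lit 284105190358) (nat_lit 76) (nat_lit 284103674613) (nat_lit 208) (nat_lit 5) (nat_lit 211) (nat_lit 5) (nat_lit 209) (nat_lit 5) (nat_lit 341) (nat_lit 332) (nat_lit 227))))) (XT.nd (nat_lit 156) (nat_lit 304) (nat_lit 0) (XT.nd (nat_lit 78) (nat_lit 0) (nat_lit 0) (XT.lf (nat_lit 0) (nat_lit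 147307919327) (nat_lit 152) (nat_lit 147309513594) (nat_lit 228) (nat_lit 474900292037) (nat_lit 206) (nat_lit 5) (nat_lit 208) (nat_lit 5) (nat_lit 209) (nat_lit 5) (nat_lit 342) (nat_lit 332) (nat_lit 226)) (XT.lf (nat_lit 0) (nat_lit 495640850782) (nat_lit 228) (nat_lit 170795232222) (nat_lit 76) (nat_lit 170793786531) (nat_lit 206) (nat_lit 5) (nat_lit 209) (nat_lit 5) (nat_lit 207) (nat_lit 4) (nat_lit 343) (nat_lit 332) (nat_lit 225))) (XT.nd (nat_lit 78) (nat_lit 228) (nat_lit 0) (XT.lf (nat_lit 0) (nat_lit 374672695089) (nat_lit 76) (nat_lit 374674192409) (nat_lit 152) (nat_lit 162372582374) (nat_lit 205) (nat_lit 5) (nat_lit 206) (nat_lit 5) (nat_lit 207) (nat_lit 4) (nat_lit 344) (nat_lit 332) (nat_lit 224)) (XT.nd (nat_lit 78) (nat_lit 0) (nat_lit 0) (XT.lf (nat_lit 0) (nat_lit 25112426498) (nat_lit 152) (nat_lit 25113968713) (nat_lit 228) (nat_lit 945325588740) (nat_lit 202) (nat_lit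 5) (nat_lit 204) (nat_lit 5) (nat_lit 205) (nat_lit 5) (nat_lit 345) (nat_lit 332) (nat_lit 223)) (XT.lf (nat_lit 0) (nat_lit 323106845129) (nat_lit 228) (nat_lit 380470889030) (nat_lit 76) (nat_lit 380469514027) (nat_lit 202) (nat_lit 5) (nat_lit 205) (nat_lit 5) (nat_lit 203) (nat_lit 4) (nat_lit 346) (nat_lit 332) (nat_lit 222))))))) (XT.nd (nat_lit 780) (nat_lit 684) (nat_lit 0) (XT.nd (nat_lit 390) (nat_lit 456) (nat_lit 0) (XT.nd (nat_lit 156) (nat_lit 228) (nat_lit 0) (XT.nd (nat_lit 78) (nat_lit 0) (nat_lit 0) (XT.lf (nat_lit 0) (nat_lit 325802307834) (nat_lit 76) (nat_lit 325803712356) (nat_lit 152) (nat_lit 532007783215) (nat_lit 201) (nat_lit 5) (nat_lit 202) (nat_lit 5) (nat_lit 203) (nat_lit 4) (nat_lit 347) (nat_lit 332) (nat_lit 221)) (XT.lf (nat_lit 0) (nat_lit 1054713760616) (nat_lit 152) (nat_lit 119801385786) (nat_lit 0) (nat_lit 119800142142) (nat_lit 201) (nat_lit 5) (nat_lit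 203) (nat_lit 4) (nat_lit 201) (nat_lit 4) (nat_lit 348) (nat_lit 332) (nat_lit 220))) (XT.nd (nat_lit 78) (nat_lit 76) (nat_lit 0) (XT.lf (nat_lit 0) (nat_lit 138284270214) (nat_lit 152) (nat_lit 637602456922) (nat_lit 76) (nat_lit 637601193869) (nat_lit 199) (nat_lit 5) (nat_lit 201) (nat_lit 5) (nat_lit 200) (nat_lit 4) (nat_lit 349) (nat_lit 332) (nat_lit 219)) (XT.nd (nat_lit 78) (nat_lit 0) (nat_lit 0) (XT.lf (nat_lit 0) (nat_lit 283306334215) (nat_lit 76) (nat_lit 283307614145) (nat_lit 152) (nat_lit 979467314054) (nat_lit 198) (nat_lit 5) (nat_lit 199) (nat_lit 5) (nat_lit 200) (nat_lit 4) (nat_lit 350) (nat_lit 332) (nat_lit 218)) (XT.lf (nat_lit 0) (nat_lit 1105834367440) (nat_lit 152) (nat_lit 292867084979) (nat_lit 0) (nat_lit 292865959234) (nat_lit 198) (nat_lit 5) (nat_lit 200) (nat_lit 4) (nat_lit 198) (nat_lit 4) (nat_lit 351) (nat_lit 332) (nat_lit 217))))) (XT.nd (nat_lit 156)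 (nat_lit 228) (nat_lit 0) (XT.nd (nat_lit 78) (nat_lit 152) (nat_lit 0) (XT.lf (nat_lit 0) (nat_lit 888100950236) (nat_lit 76) (nat_lit 888102087079) (nat_lit 76) (nat_lit 75133667775) (nat_lit 197) (nat_lit 4) (nat_lit 198) (nat_lit 5) (nat_lit 198) (nat_lit 4) (nat_lit 352) (nat_lit 332) (nat_lit 216)) (XT.lf (nat_lit 0) (nat_lit 246353322422) (nat_lit 76) (nat_lit 246354468914) (nat_lit 152) (nat_lit 1535247295346) (nat_lit 195) (nat_lit 5) (nat_lit 196) (nat_lit 5) (nat_lit 197) (nat_lit 4) (nat_lit 353) (nat_lit 332) (nat_lit 215))) (XT.nd (nat_lit 78) (nat_lit 228) (nat_lit 0) (XT.lf (nat_lit 0) (nat_lit 1211140217792) (nat_lit 152) (nat_lit 504212146087) (nat_lit 0) (nat_lit 504211141840) (nat_lit 195) (nat_lit 5) (nat_lit 197) (nat_lit 4) (nat_lit 195) (nat_lit 4) (nat_lit 354) (nat_lit 332) (nat_lit 214)) (XT.nd (nat_lit 78) (nat_lit 152) (nat_lit 0) (XT.lf (nat_lit 0) (nat_lit 1046194158596)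 (nat_lit 76) (nat_lit 1046195169188) (nat_lit 76) (nat_lit 339266086891) (nat_lit 194) (nat_lit 4) (nat_lit 195) (nat_lit 5) (nat_lit 195) (nat_lit 4) (nat_lit 355) (nat_lit 332) (nat_lit 213)) (XT.lf (nat_lit 0) (nat_lit 214220273691) (nat_lit 76) (nat_lit 214221289799) (nat_lit 152) (nat_lit 2238974793827) (nat_lit 192) (nat_lit 5) (nat_lit 193) (nat_lit 5) (nat_lit 194) (nat_lit 4) (nat_lit 356) (nat_lit 332) (nat_lit 212)))))) (XT.nd (nat_lit 390) (nat_lit 380) (nat_lit 0) (XT.nd (nat_lit 156) (nat_lit 228) (nat_lit 0) (XT.nd (nat_lit 78) (nat_lit 76) (nat_lit 0) (XT.lf (nat_lit 0) (nat_lit 1383188816210) (nat_lit 152) (nat_lit 768468753858) (nat_lit 0) (nat_lit 768467866113) (nat_lit 192) (nat_lit 5) (nat_lit 194) (nat_lit 4) (nat_lit 192) (nat_lit 4) (nat_lit 357) (nat_lit 332) (nat_lit 211)) (XT.lf (nat_lit 0) (nat_lit 1272009738690) (nat_lit 76) (nat_lit 1272010630062) (nat_lit 76) (nat_lit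 657289676338) (nat_lit 191) (nat_lit 4) (nat_lit 192) (nat_lit 5) (nat_lit 192) (nat_lit 4) (nat_lit 358) (nat_lit 332) (nat_lit 210))) (XT.nd (nat_lit 78) (nat_lit 76) (nat_lit 0) (XT.lf (nat_lit 0) (nat_lit 186278495044) (nat_lit 76) (nat_lit 186279389571) (nat_lit 152) (nat_lit 3142444383528) (nat_lit 189) (nat_lit 5) (nat_lit 190) (nat_lit 5) (nat_lit 191) (nat_lit 4) (nat_lit 359) (nat_lit 332) (nat_lit 209)) (XT.nd (nat_lit 78) (nat_lit 76) (nat_lit 0) (XT.lf (nat_lit 0) (nat_lit 1639228839186) (nat_lit 152) (nat_lit 1104689654532) (nat_lit 0) (nat_lit 1104688874297) (nat_lit 189) (nat_lit 5) (nat_lit 191) (nat_lit 4) (nat_lit 189) (nat_lit 4) (nat_lit 360) (nat_lit 332) (nat_lit 208)) (XT.lf (nat_lit 0) (nat_lit 1585205025275) (nat_lit 76) (nat_lit 1585205807584) (nat_lit 76) (nat_lit 1050665840621) (nat_lit 188) (nat_lit 4) (nat_lit 189) (nat_lit 5) (nat_lit 189) (nat_lit 4) (nat_lit 361)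 (nat_lit 332) (nat_lit 207))))) (XT.nd (nat_lit 156) (nat_lit 228) (nat_lit 0) (XT.nd (nat_lit 78) (nat_lit 0) (nat_lit 0) (XT.lf (nat_lit 0) (nat_lit 161981297856) (nat_lit 76) (nat_lit 161982081968) (nat_lit 152) (nat_lit 4313622020683) (nat_lit 186) (nat_lit 5) (nat_lit 187) (nat_lit 5) (nat_lit 188) (nat_lit 4) (nat_lit 362) (nat_lit 332) (nat_lit 206)) (XT.lf (nat_lit 0) (nat_lit 2002629381108) (nat_lit 152) (nat_lit 1537812698800) (nat_lit 0) (nat_lit 1537812015599) (nat_lit 186) (nat_lit 5) (nat_lit 188) (nat_lit 4) (nat_lit 186) (nat_lit 4) (nat_lit 363) (nat_lit 332) (nat_lit 205))) (XT.nd (nat_lit 78) (nat_lit 152) (nat_lit 0) (XT.lf (nat_lit 0) (nat_lit 2012061600730) (nat_lit 76) (nat_lit 2012062285117) (nat_lit 76) (nat_lit 1547244918422) (nat_lit 185) (nat_lit 4) (nat_lit 186) (nat_lit 5) (nat_lit 186) (nat_lit 4) (nat_lit 364) (nat_lit 332) (nat_lit 204)) (XT.nd (nat_lit 78) (nat_lit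 0) (nat_lit 0) (XT.lf (nat_lit 0) (nat_lit 140853301235) (nat_lit 76) (nat_lit 140853986653) (nat_lit 152) (nat_lit 5841929753094) (nat_lit 183) (nat_lit 5) (nat_lit 184) (nat_lit 5) (nat_lit 185) (nat_lit 4) (nat_lit 365) (nat_lit 332) (nat_lit 203)) (XT.lf (nat_lit 0) (nat_lit 2504781043461) (nat_lit 152) (nat_lit 2100592624062) (nat_lit 0) (nat_lit 2100592027267) (nat_lit 183) (nat_lit 5) (nat_lit 185) (nat_lit 4) (nat_lit 183) (nat_lit 4) (nat_lit 366) (nat_lit 332) (nat_lit 202))))))))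
noncomputable def xc97 : XT := (XT.nd (nat_lit 44616) (nat_lit 0) (nat_lit 1824) (XT.nd (nat_lit 780) (nat_lit 380) (nat_lit 0) (XT.nd (nat_lit 390) (nat_lit 304) (nat_lit 0) (XT.nd (nat_lit 156) (nat_lit 228) (nat_lit 0) (XT.nd (nat_lit 78) (nat_lit 152) (nat_lit 0) (XT.lf (nat_lit 0) (nat_lit 2587584472221) (nat_lit 76) (nat_lit 2587585069694) (nat_lit 76) (nat_lit 2183396052822) (nat_lit 182) (nat_lit 4) (nat_lit 183) (nat_lit 5) (nat_lit 183) (nat_lit 4) (nat_lit 367) (nat_lit 332) (nat_lit 201)) (XT.lf (nat_lit 0) (nat_lit 122481130795) (nat_lit 76) (nat_lit 122481728858) (nat_lit 152) (nat_lit 7845225691352) (nat_lit 180) (nat_lit 5) (nat_lit 181) (nat_lit 5) (nat_lit 182) (nat_lit 4) (nat_lit 368) (nat_lit 332) (nat_lit 200))) (XT.nd (nat_lit 78) (nat_lit 228) (nat_lit 0) (XT.lf (nat_lit 0) (nat_lit 3187619613631) (nat_lit 152) (nat_lit 2836151422850) (nat_lit 0) (nat_lit 2836150902350)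 (nat_lit 180) (nat_lit 5) (nat_lit 182) (nat_lit 4) (nat_lit 180) (nat_lit 4) (nat_lit 369) (nat_lit 332) (nat_lit 199)) (XT.nd (nat_lit 78) (nat_lit 152) (nat_lit 0) (XT.lf (nat_lit 0) (nat_lit 3358283078393) (nat_lit 76) (nat_lit 3358283599281) (nat_lit 76) (nat_lit 3006814887612) (nat_lit 179) (nat_lit 4) (nat_lit 180) (nat_lit 5) (nat_lit 180) (nat_lit 4) (nat_lit 370) (nat_lit 332) (nat_lit 198)) (XT.lf (nat_lit 0) (nat_lit 106505330718) (nat_lit 76) (nat_lit 106505851944) (nat_lit 152) (nat_lit 10479027145075) (nat_lit 177) (nat_lit 5) (nat_lit 178) (nat_lit 5) (nat_lit 179) (nat_lit 4) (nat_lit 371) (nat_lit 332) (nat_lit 197))))) (XT.nd (nat_lit 156) (nat_lit 228) (nat_lit 0) (XT.nd (nat_lit 78) (nat_lit 76) (nat_lit 0) (XT.lf (nat_lit 0) (nat_lit 4106971880967) (nat_lit 152) (nat_lit 3801347367244) (nat_lit 0) (nat_lit 3801346913750) (nat_lit 177) (nat_lit 5) (nat_lit 179) (nat_lit 4)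 (nat_lit 177) (nat_lit 4) (nat_lit 372) (nat_lit 332) (nat_lit 196)) (XT.lf (nat_lit 0) (nat_lit 4385853383598) (nat_lit 76) (nat_lit 4385853837313) (nat_lit 76) (nat_lit 4080228869875) (nat_lit 176) (nat_lit 4) (nat_lit 177) (nat_lit 5) (nat_lit 177) (nat_lit 4) (nat_lit 373) (nat_lit 332) (nat_lit 195))) (XT.nd (nat_lit 78) (nat_lit 76) (nat_lit 0) (XT.lf (nat_lit 0) (nat_lit 92613330826) (nat_lit 76) (nat_lit 92613784735) (nat_lit 152) (nat_lit 13948701372070) (nat_lit 174) (nat_lit 5) (nat_lit 175) (nat_lit 5) (nat_lit 176) (nat_lit 4) (nat_lit 374) (nat_lit 332) (nat_lit 194)) (XT.nd (nat_lit 78) (nat_lit 76) (nat_lit 0) (XT.lf (nat_lit 0) (nat_lit 5336987653185) (nat_lit 152) (nat_lit 5071227206470) (nat_lit 0) (nat_lit 5071226811621) (nat_lit 174) (nat_lit 5) (nat_lit 176) (nat_lit 4) (nat_lit 174) (nat_lit 4) (nat_lit 375) (nat_lit 332) (nat_lit 193)) (XT.lf (nat_lit 0) (nat_lit 5752051110812)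 (nat_lit 76) (nat_lit 5752051505787) (nat_lit 76) (nat_lit 5486290664096) (nat_lit 173) (nat_lit 4) (nat_lit 174) (nat_lit 5) (nat_lit 174) (nat_lit 4) (nat_lit 376) (nat_lit 332) (nat_lit 192)))))) (XT.nd (nat_lit 43446) (nat_lit 0) (nat_lit 3572) (XT.nd (nat_lit 156) (nat_lit 228) (nat_lit 0) (XT.nd (nat_lit 78) (nat_lit 0) (nat_lit 0) (XT.lf (nat_lit 0) (nat_lit 80533331020) (nat_lit 76) (nat_lit 80533726106) (nat_lit 152) (nat_lit 18525581888832) (nat_lit 171) (nat_lit 5) (nat_lit 172) (nat_lit 5) (nat_lit 173) (nat_lit 4) (nat_lit 377) (nat_lit 332) (nat_lit 191)) (XT.lf (nat_lit 0) (nat_lit 6976007336961) (nat_lit 152) (nat_lit 6744911296339) (nat_lit 0) (nat_lit 6744910952703) (nat_lit 171) (nat_lit 5) (nat_lit 173) (nat_lit 4) (nat_lit 171) (nat_lit 4) (nat_lit 378) (nat_lit 332) (nat_lit 190))) (XT.nd (nat_lit 78) (nat_lit 152) (nat_lit 0) (XT.lf (nat_lit 0) (nat_lit 7565139777645) (nat_lit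 76) (nat_lit 7565140121354) (nat_lit 76) (nat_lit 7334043737023) (nat_lit 170) (nat_lit 4) (nat_lit 171) (nat_lit 5) (nat_lit 171) (nat_lit 4) (nat_lit 379) (nat_lit 332) (nat_lit 189)) (XT.nd (nat_lit 78) (nat_lit 0) (nat_lit 0) (XT.lf (nat_lit 0) (nat_lit 70028983419) (nat_lit 76) (nat_lit 70029327191) (nat_lit 152) (nat_lit 24568277112662) (nat_lit 168) (nat_lit 5) (nat_lit 169) (nat_lit 5) (nat_lit 170) (nat_lit 4) (nat_lit 380) (nat_lit 332) (nat_lit 188)) (XT.lf (nat_lit 0) (nat_lit 9154327238387) (nat_lit 152) (nat_lit 8953374159585) (nat_lit 0) (nat_lit 8953373860606) (nat_lit 168) (nat_lit 5) (nat_lit 170) (nat_lit 4) (nat_lit 168) (nat_lit 4) (nat_lit 381) (nat_lit 332) (nat_lit 187))))) (XT.nd (nat_lit 156) (nat_lit 0) (nat_lit 76) (XT.nd (nat_lit 78) (nat_lit 0) (nat_lit 0) (XT.lf (nat_lit 0) (nat_lit 62581463070) (nat_lit 380) (nat_lit 70657181919) (nat_lit 380) (nat_lit 70657181919)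 (nat_lit 215) (nat_lit 3) (nat_lit 220) (nat_lit 3) (nat_lit 220) (nat_lit 5) (nat_lit 333) (nat_lit 333) (nat_lit 234)) (XT.lf (nat_lit 76) (nat_lit 68697378780) (nat_lit 0) (nat_lit 68697744090) (nat_lit 380) (nat_lit 300554158397) (nat_lit 216) (nat_lit 5) (nat_lit 215) (nat_lit 3) (nat_lit 220) (nat_lit 5) (nat_lit 334) (nat_lit 333) (nat_lit 233))) (XT.nd (nat_lit 78) (nat_lit 0) (nat_lit 0) (XT.lf (nat_lit 0) (nat_lit 165774173690) (nat_lit 304) (nat_lit 152355084670) (nat_lit 380) (nat_lit 152354490782) (nat_lit 216) (nat_lit 5) (nat_lit 220) (nat_lit 5) (nat_lit 221) (nat_lit 5) (nat_lit 335) (nat_lit 333) (nat_lit 232)) (XT.nd (nat_lit 78) (nat_lit 0) (nat_lit 76) (XT.lf (nat_lit 76) (nat_lit 102972185343) (nat_lit 0) (nat_lit 102973019428) (nat_lit 380) (nat_lit 300822914032) (nat_lit 217) (nat_lit 5) (nat_lit 216) (nat_lit 5) (nat_lit 221) (nat_lit 5) (nat_lit 336) (nat_lit 333) (nat_lit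 231)) (XT.lf (nat_lit 0) (nat_lit 266466736080) (nat_lit 304) (nat_lit 139940293958) (nat_lit 76) (nat_lit 139939387043) (nat_lit 217) (nat_lit 5) (nat_lit 221) (nat_lit 5) (nat_lit 218) (nat_lit 5) (nat_lit 337) (nat_lit 333) (nat_lit 230))))))) (XT.nd (nat_lit 780) (nat_lit 760) (nat_lit 0) (XT.nd (nat_lit 390) (nat_lit 456) (nat_lit 0) (XT.nd (nat_lit 156) (nat_lit 380) (nat_lit 0) (XT.nd (nat_lit 78) (nat_lit 0) (nat_lit 0) (XT.lf (nat_lit 0) (nat_lit 174088754489) (nat_lit 304) (nat_lit 174089819338) (nat_lit 380) (nat_lit 241866074759) (nat_lit 213) (nat_lit 5) (nat_lit 217) (nat_lit 5) (nat_lit 218) (nat_lit 5) (nat_lit 338) (nat_lit 333) (nat_lit 229)) (XT.lf (nat_lit 0) (nat_lit 453664579929) (nat_lit 380) (nat_lit 92453235681) (nat_lit 76) (nat_lit 92452190305) (nat_lit 213) (nat_lit 5) (nat_lit 218) (nat_lit 5) (nat_lit 214) (nat_lit 5) (nat_lit 339) (nat_lit 333) (nat_lit 228))) (XT.nd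 (nat_lit 78) (nat_lit 228) (nat_lit 0) (XT.lf (nat_lit 0) (nat_lit 297796710310) (nat_lit 152) (nat_lit 297797859529) (nat_lit 228) (nat_lit 95686434569) (nat_lit 211) (nat_lit 5) (nat_lit 213) (nat_lit 5) (nat_lit 214) (nat_lit 5) (nat_lit 340) (nat_lit 333) (nat_lit 227)) (XT.nd (nat_lit 78) (nat_lit 0) (nat_lit 0) (XT.lf (nat_lit 0) (nat_lit 5800794397) (nat_lit 152) (nat_lit 5802033915) (nat_lit 228) (nat_lit 739457409538) (nat_lit 208) (nat_lit 5) (nat_lit 210) (nat_lit 5) (nat_lit 211) (nat_lit 5) (nat_lit 341) (nat_lit 333) (nat_lit 226)) (XT.lf (nat_lit 0) (nat_lit 160401243456) (nat_lit 228) (nat_lit 326720474886) (nat_lit 76) (nat_lit 326719328764) (nat_lit 208) (nat_lit 5) (nat_lit 211) (nat_lit 5) (nat_lit 209) (nat_lit 5) (nat_lit 342) (nat_lit 333) (nat_lit 225))))) (XT.nd (nat_lit 156) (nat_lit 304) (nat_lit 0) (XT.nd (nat_lit 78) (nat_lit 0) (nat_lit 0) (XT.lf (nat_lit 0) (nat_lit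 169404578797) (nat_lit 152) (nat_lit 169405784292) (nat_lit 228) (nat_lit 546134973328) (nat_lit 206) (nat_lit 5) (nat_lit 208) (nat_lit 5) (nat_lit 209) (nat_lit 5) (nat_lit 343) (nat_lit 333) (nat_lit 224)) (XT.lf (nat_lit 0) (nat_lit 569987258141) (nat_lit 228) (nat_lit 196414071507) (nat_lit 76) (nat_lit 196412978356) (nat_lit 206) (nat_lit 5) (nat_lit 209) (nat_lit 5) (nat_lit 207) (nat_lit 4) (nat_lit 344) (nat_lit 333) (nat_lit 223))) (XT.nd (nat_lit 78) (nat_lit 228) (nat_lit 0) (XT.lf (nat_lit 0) (nat_lit 430874024649) (nat_lit 76) (nat_lit 430875156838) (nat_lit 152) (nat_lit 186728169736) (nat_lit 205) (nat_lit 5) (nat_lit 206) (nat_lit 5) (nat_lit 207) (nat_lit 4) (nat_lit 345) (nat_lit 333) (nat_lit 222)) (XT.nd (nat_lit 78) (nat_lit 0) (nat_lit 0) (XT.lf (nat_lit 0) (nat_lit 28879721932) (nat_lit 152) (nat_lit 28880888068) (nat_lit 228) (nat_lit 1087124133218) (nat_lit 202) (nat_lit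 5) (nat_lit 204) (nat_lit 5) (nat_lit 205) (nat_lit 5) (nat_lit 346) (nat_lit 333) (nat_lit 221)) (XT.lf (nat_lit 0) (nat_lit 371573100413) (nat_lit 228) (nat_lit 437541120211) (nat_lit 76) (nat_lit 437540080511) (nat_lit 202) (nat_lit 5) (nat_lit 205) (nat_lit 5) (nat_lit 203) (nat_lit 4) (nat_lit 347) (nat_lit 333) (nat_lit 220)))))) (XT.nd (nat_lit 390) (nat_lit 456) (nat_lit 0) (XT.nd (nat_lit 156) (nat_lit 228) (nat_lit 0) (XT.nd (nat_lit 78) (nat_lit 0) (nat_lit 0) (XT.lf (nat_lit 0) (nat_lit 374673037902) (nat_lit 76) (nat_lit 374674099922) (nat_lit 152) (nat_lit 611808703902) (nat_lit 201) (nat_lit 5) (nat_lit 202) (nat_lit 5) (nat_lit 203) (nat_lit 4) (nat_lit 348) (nat_lit 333) (nat_lit 219)) (XT.lf (nat_lit 0) (nat_lit 1212921017417) (nat_lit 152) (nat_lit 137771237938) (nat_lit 0) (nat_lit 137770297564) (nat_lit 201) (nat_lit 5) (nat_lit 203) (nat_lit 4) (nat_lit 201) (nat_lit 4) (nat_lit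 349) (nat_lit 333) (nat_lit 218))) (XT.nd (nat_lit 78) (nat_lit 76) (nat_lit 0) (XT.lf (nat_lit 0) (nat_lit 159027101028) (nat_lit 152) (nat_lit 733242467318) (nat_lit 76) (nat_lit 733241512268) (nat_lit 199) (nat_lit 5) (nat_lit 201) (nat_lit 5) (nat_lit 200) (nat_lit 4) (nat_lit 350) (nat_lit 333) (nat_lit 217)) (XT.nd (nat_lit 78) (nat_lit 0) (nat_lit 0) (XT.lf (nat_lit 0) (nat_lit 325802626210) (nat_lit 76) (nat_lit 325803594022) (nat_lit 152) (nat_lit 1126387204602) (nat_lit 198) (nat_lit 5) (nat_lit 199) (nat_lit 5) (nat_lit 200) (nat_lit 4) (nat_lit 351) (nat_lit 333) (nat_lit 216)) (XT.lf (nat_lit 0) (nat_lit 1271709684588) (nat_lit 152) (nat_lit 336796832867) (nat_lit 0) (nat_lit 336795981642) (nat_lit 198) (nat_lit 5) (nat_lit 200) (nat_lit 4) (nat_lit 198) (nat_lit 4) (nat_lit 352) (nat_lit 333) (nat_lit 215))))) (XT.nd (nat_lit 156) (nat_lit 228) (nat_lit 0) (XT.nd (nat_lit 78) (nat_lit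 152) (nat_lit 0) (XT.lf (nat_lit 0) (nat_lit 1021316393319) (nat_lit 76) (nat_lit 1021317252935) (nat_lit 76) (nat_lit 86403541598) (nat_lit 197) (nat_lit 4) (nat_lit 198) (nat_lit 5) (nat_lit 198) (nat_lit 4) (nat_lit 353) (nat_lit 333) (nat_lit 214)) (XT.lf (nat_lit 0) (nat_lit 283306622657) (nat_lit 76) (nat_lit 283307489570) (nat_lit 152) (nat_lit 1765534214629) (nat_lit 195) (nat_lit 5) (nat_lit 196) (nat_lit 5) (nat_lit 197) (nat_lit 4) (nat_lit 354) (nat_lit 333) (nat_lit 213))) (XT.nd (nat_lit 78) (nat_lit 228) (nat_lit 0) (XT.lf (nat_lit 0) (nat_lit 1392811388190) (nat_lit 152) (nat_lit 579843691041) (nat_lit 0) (nat_lit 579842931687) (nat_lit 195) (nat_lit 5) (nat_lit 197) (nat_lit 4) (nat_lit 195) (nat_lit 4) (nat_lit 355) (nat_lit 333) (nat_lit 212)) (XT.nd (nat_lit 78) (nat_lit 152) (nat_lit 0) (XT.lf (nat_lit 0) (nat_lit 1203123546756) (nat_lit 76) (nat_lit 1203124310908) (nat_lit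 76) (nat_lit 390155849607) (nat_lit 194) (nat_lit 4) (nat_lit 195) (nat_lit 5) (nat_lit 195) (nat_lit 4) (nat_lit 356) (nat_lit 333) (nat_lit 211)) (XT.lf (nat_lit 0) (nat_lit 246353579871) (nat_lit 76) (nat_lit 246354348195) (nat_lit 152) (nat_lit 2574820863340) (nat_lit 192) (nat_lit 5) (nat_lit 193) (nat_lit 5) (nat_lit 194) (nat_lit 4) (nat_lit 357) (nat_lit 333) (nat_lit 210))))))))
noncomputable def xc98 : XT := (XT.nd (nat_lit 1560) (nat_lit 380) (nat_lit 0) (XT.nd (nat_lit 780) (nat_lit 760) (nat_lit 0) (XT.nd (nat_lit 390) (nat_lit 380) (nat_lit 0) (XT.nd (nat_lit 156) (nat_lit 228) (nat_lit 0) (XT.nd (nat_lit 78) (nat_lit 76) (nat_lit 0) (XT.lf (nat_lit 0) (nat_lit 1590667256595) (nat_lit 152) (nat_lit 883738824292) (nat_lit 0) (nat_lit 883738153029) (nat_lit 192) (nat_lit 5) (nat_lit 194) (nat_lit 4) (nat_lit 192) (nat_lit 4) (nat_lit 358) (nat_lit 333) (nat_lit 209)) (XT.lf (nat_lit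 0) (nat_lit 1462811431109) (nat_lit 76) (nat_lit 1462812105115) (nat_lit 76) (nat_lit 755882998806) (nat_lit 191) (nat_lit 4) (nat_lit 192) (nat_lit 5) (nat_lit 192) (nat_lit 4) (nat_lit 359) (nat_lit 333) (nat_lit 208))) (XT.nd (nat_lit 78) (nat_lit 76) (nat_lit 0) (XT.lf (nat_lit 0) (nat_lit 214220501349) (nat_lit 76) (nat_lit 214221177740) (nat_lit 152) (nat_lit 3613810912508) (nat_lit 189) (nat_lit 5) (nat_lit 190) (nat_lit 5) (nat_lit 191) (nat_lit 4) (nat_lit 360) (nat_lit 333) (nat_lit 207)) (XT.nd (nat_lit 78) (nat_lit 76) (nat_lit 0) (XT.lf (nat_lit 0) (nat_lit 1885113266596) (nat_lit 152) (nat_lit 1270392890680) (nat_lit 0) (nat_lit 1270392300711) (nat_lit 189) (nat_lit 5) (nat_lit 191) (nat_lit 4) (nat_lit 189) (nat_lit 4) (nat_lit 361) (nat_lit 333) (nat_lit 206)) (XT.lf (nat_lit 0) (nat_lit 1822985981460) (nat_lit 76) (nat_lit 1822986572998) (nat_lit 76) (nat_lit 1208265605544) (nat_lit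 188) (nat_lit 4) (nat_lit 189) (nat_lit 5) (nat_lit 189) (nat_lit 4) (nat_lit 362) (nat_lit 333) (nat_lit 205))))) (XT.nd (nat_lit 156) (nat_lit 228) (nat_lit 0) (XT.nd (nat_lit 78) (nat_lit 0) (nat_lit 0) (XT.lf (nat_lit 0) (nat_lit 186278695175) (nat_lit 76) (nat_lit 186279288077) (nat_lit 152) (nat_lit 4960665212863) (nat_lit 186) (nat_lit 5) (nat_lit 187) (nat_lit 5) (nat_lit 188) (nat_lit 4) (nat_lit 363) (nat_lit 333) (nat_lit 204)) (XT.lf (nat_lit 0) (nat_lit 2303023875971) (nat_lit 152) (nat_lit 1768484418653) (nat_lit 0) (nat_lit 1768483902055) (nat_lit 186) (nat_lit 5) (nat_lit 188) (nat_lit 4) (nat_lit 186) (nat_lit 4) (nat_lit 364) (nat_lit 333) (nat_lit 203))) (XT.nd (nat_lit 78) (nat_lit 152) (nat_lit 0) (XT.lf (nat_lit 0) (nat_lit 2313871017399) (nat_lit 76) (nat_lit 2313871534894) (nat_lit 76) (nat_lit 1779331560081) (nat_lit 185) (nat_lit 4) (nat_lit 186) (nat_lit 5) (nat_lit 186)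 (nat_lit 4) (nat_lit 365) (nat_lit 333) (nat_lit 202)) (XT.nd (nat_lit 78) (nat_lit 0) (nat_lit 0) (XT.lf (nat_lit 0) (nat_lit 161981473122) (nat_lit 76) (nat_lit 161981991396) (nat_lit 152) (nat_lit 6718219120095) (nat_lit 183) (nat_lit 5) (nat_lit 184) (nat_lit 5) (nat_lit 185) (nat_lit 4) (nat_lit 366) (nat_lit 333) (nat_lit 201)) (XT.lf (nat_lit 0) (nat_lit 2880498275899) (nat_lit 152) (nat_lit 2415681356492) (nat_lit 0) (nat_lit 2415680905229) (nat_lit 183) (nat_lit 5) (nat_lit 185) (nat_lit 4) (nat_lit 183) (nat_lit 4) (nat_lit 367) (nat_lit 333) (nat_lit 200)))))) (XT.nd (nat_lit 390) (nat_lit 304) (nat_lit 0) (XT.nd (nat_lit 156) (nat_lit 228) (nat_lit 0) (XT.nd (nat_lit 78) (nat_lit 152) (nat_lit 0) (XT.lf (nat_lit 0) (nat_lit 2975722296907) (nat_lit 76) (nat_lit 2975722748683) (nat_lit 76) (nat_lit 2510905377500) (nat_lit 182) (nat_lit 4) (nat_lit 183) (nat_lit 5) (nat_lit 183) (nat_lit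 4) (nat_lit 368) (nat_lit 333) (nat_lit 199)) (XT.lf (nat_lit 0) (nat_lit 140853454349) (nat_lit 76) (nat_lit 140853906570) (nat_lit 152) (nat_lit 9022009461890) (nat_lit 180) (nat_lit 5) (nat_lit 181) (nat_lit 5) (nat_lit 182) (nat_lit 4) (nat_lit 369) (nat_lit 333) (nat_lit 198))) (XT.nd (nat_lit 78) (nat_lit 228) (nat_lit 0) (XT.lf (nat_lit 0) (nat_lit 3665762621500) (nat_lit 152) (nat_lit 3261573995928) (nat_lit 0) (nat_lit 3261573602355) (nat_lit 180) (nat_lit 5) (nat_lit 182) (nat_lit 4) (nat_lit 180) (nat_lit 4) (nat_lit 370) (nat_lit 333) (nat_lit 197)) (XT.nd (nat_lit 78) (nat_lit 152) (nat_lit 0) (XT.lf (nat_lit 0) (nat_lit 3862025674122) (nat_lit 76) (nat_lit 3862026067988) (nat_lit 76) (nat_lit 3457837048551) (nat_lit 179) (nat_lit 4) (nat_lit 180) (nat_lit 5) (nat_lit 180) (nat_lit 4) (nat_lit 371) (nat_lit 333) (nat_lit 196)) (XT.lf (nat_lit 0) (nat_lit 122481264343) (nat_lit 76)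 (nat_lit 122481658464) (nat_lit 152) (nat_lit 12050881144680) (nat_lit 177) (nat_lit 5) (nat_lit 178) (nat_lit 5) (nat_lit 179) (nat_lit 4) (nat_lit 372) (nat_lit 333) (nat_lit 195))))) (XT.nd (nat_lit 156) (nat_lit 228) (nat_lit 0) (XT.nd (nat_lit 78) (nat_lit 76) (nat_lit 0) (XT.lf (nat_lit 0) (nat_lit 4723017720239) (nat_lit 152) (nat_lit 4371549350177) (nat_lit 0) (nat_lit 4371549007270) (nat_lit 177) (nat_lit 5) (nat_lit 179) (nat_lit 4) (nat_lit 177) (nat_lit 4) (nat_lit 373) (nat_lit 333) (nat_lit 194)) (XT.lf (nat_lit 0) (nat_lit 5043731507739) (nat_lit 76) (nat_lit 5043731850813) (nat_lit 76) (nat_lit 4692263137677) (nat_lit 176) (nat_lit 4) (nat_lit 177) (nat_lit 5) (nat_lit 177) (nat_lit 4) (nat_lit 374) (nat_lit 333) (nat_lit 193))) (XT.nd (nat_lit 78) (nat_lit 76) (nat_lit 0) (XT.lf (nat_lit 0) (nat_lit 106505447078) (nat_lit 76) (nat_lit 106505790298) (nat_lit 152) (nat_lit 16041006515228)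 (nat_lit 174) (nat_lit 5) (nat_lit 175) (nat_lit 5) (nat_lit 176) (nat_lit 4) (nat_lit 375) (nat_lit 333) (nat_lit 192)) (XT.nd (nat_lit 78) (nat_lit 76) (nat_lit 0) (XT.lf (nat_lit 0) (nat_lit 6137535850775) (nat_lit 152) (nat_lit 5831911181156) (nat_lit 0) (nat_lit 5831910882594) (nat_lit 174) (nat_lit 5) (nat_lit 176) (nat_lit 4) (nat_lit 174) (nat_lit 4) (nat_lit 376) (nat_lit 333) (nat_lit 191)) (XT.lf (nat_lit 0) (nat_lit 6614858878886) (nat_lit 76) (nat_lit 6614859177544) (nat_lit 76) (nat_lit 6309234209267) (nat_lit 173) (nat_lit 4) (nat_lit 174) (nat_lit 5) (nat_lit 174) (nat_lit 4) (nat_lit 377) (nat_lit 333) (nat_lit 190))))))) (XT.nd (nat_lit 43914) (nat_lit 0) (nat_lit 2508) (XT.nd (nat_lit 43524) (nat_lit 0) (nat_lit 3420) (XT.nd (nat_lit 156) (nat_lit 228) (nat_lit 0) (XT.nd (nat_lit 78) (nat_lit 0) (nat_lit 0) (XT.lf (nat_lit 0) (nat_lit 92613432141) (nat_lit 76) (nat_lit 92613730882)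 (nat_lit 152) (nat_lit 21304419117728) (nat_lit 171) (nat_lit 5) (nat_lit 172) (nat_lit 5) (nat_lit 173) (nat_lit 4) (nat_lit 378) (nat_lit 333) (nat_lit 189)) (XT.lf (nat_lit 0) (nat_lit 8022408480610) (nat_lit 152) (nat_lit 7756647898333) (nat_lit 0) (nat_lit 7756647638495) (nat_lit 171) (nat_lit 5) (nat_lit 173) (nat_lit 4) (nat_lit 171) (nat_lit 4) (nat_lit 379) (nat_lit 333) (nat_lit 188))) (XT.nd (nat_lit 78) (nat_lit 152) (nat_lit 0) (XT.lf (nat_lit 0) (nat_lit 8699910832546) (nat_lit 76) (nat_lit 8699911092439) (nat_lit 76) (nat_lit 8434150250269) (nat_lit 170) (nat_lit 4) (nat_lit 171) (nat_lit 5) (nat_lit 171) (nat_lit 4) (nat_lit 380) (nat_lit 333) (nat_lit 187)) (XT.nd (nat_lit 43212) (nat_lit 0) (nat_lit 3572) (XT.lf (nat_lit 0) (nat_lit 80533419195) (nat_lit 76) (nat_lit 80533679136) (nat_lit 152) (nat_lit 28253518632263) (nat_lit 168) (nat_lit 5) (nat_lit 169) (nat_lit 5) (nat_lit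 170) (nat_lit 4) (nat_lit 381) (nat_lit 333) (nat_lit 186)) (XT.lf (nat_lit 0) (nat_lit 71969032714) (nat_lit 380) (nat_lit 81255557852) (nat_lit 380) (nat_lit 81255557852) (nat_lit 215) (nat_lit 3) (nat_lit 220) (nat_lit 3) (nat_lit 220) (nat_lit 5) (nat_lit 334) (nat_lit 334) (nat_lit 232))))) (XT.nd (nat_lit 156) (nat_lit 152) (nat_lit 0) (XT.nd (nat_lit 78) (nat_lit 0) (nat_lit 76) (XT.lf (nat_lit 76) (nat_lit 79002370002) (nat_lit 0) (nat_lit 79002646229) (nat_lit 380) (nat_lit 345636563485) (nat_lit 216) (nat_lit 5) (nat_lit 215) (nat_lit 3) (nat_lit 220) (nat_lit 5) (nat_lit 335) (nat_lit 334) (nat_lit 231)) (XT.lf (nat_lit 0) (nat_lit 190640834502) (nat_lit 304) (nat_lit 175207922931) (nat_lit 380) (nat_lit 175207473867) (nat_lit 216) (nat_lit 5) (nat_lit 220) (nat_lit 5) (nat_lit 221) (nat_lit 5) (nat_lit 336) (nat_lit 334) (nat_lit 230))) (XT.nd (nat_lit 78) (nat_lit 228) (nat_lit 0)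 (XT.lf (nat_lit 76) (nat_lit 118418418292) (nat_lit 0) (nat_lit 118419048980) (nat_lit 380) (nat_lit 345945797086) (nat_lit 217) (nat_lit 5) (nat_lit 216) (nat_lit 5) (nat_lit 221) (nat_lit 5) (nat_lit 337) (nat_lit 334) (nat_lit 229)) (XT.nd (nat_lit 78) (nat_lit 304) (nat_lit 0) (XT.lf (nat_lit 0) (nat_lit 306437162675) (nat_lit 304) (nat_lit 160930920149) (nat_lit 76) (nat_lit 160930234391) (nat_lit 217) (nat_lit 5) (nat_lit 221) (nat_lit 5) (nat_lit 218) (nat_lit 5) (nat_lit 338) (nat_lit 334) (nat_lit 228)) (XT.lf (nat_lit 0) (nat_lit 200202466569) (nat_lit 304) (nat_lit 200203271748) (nat_lit 380) (nat_lit 278145550795) (nat_lit 213) (nat_lit 5) (nat_lit 217) (nat_lit 5) (nat_lit 218) (nat_lit 5) (nat_lit 339) (nat_lit 334) (nat_lit 227)))))) (XT.nd (nat_lit 390) (nat_lit 380) (nat_lit 0) (XT.nd (nat_lit 156) (nat_lit 380) (nat_lit 0) (XT.nd (nat_lit 78) (nat_lit 152) (nat_lit 0) (XT.lf (nat_lit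 0) (nat_lit 521714596713) (nat_lit 380) (nat_lit 106320825537) (nat_lit 76) (nat_lit 106320035083) (nat_lit 213) (nat_lit 5) (nat_lit 218) (nat_lit 5) (nat_lit 214) (nat_lit 5) (nat_lit 340) (nat_lit 334) (nat_lit 226)) (XT.lf (nat_lit 0) (nat_lit 342466594375) (nat_lit 152) (nat_lit 342467463350) (nat_lit 228) (nat_lit 110039051983) (nat_lit 211) (nat_lit 5) (nat_lit 213) (nat_lit 5) (nat_lit 214) (nat_lit 5) (nat_lit 341) (nat_lit 334) (nat_lit 225))) (XT.nd (nat_lit 78) (nat_lit 152) (nat_lit 0) (XT.lf (nat_lit 0) (nat_lit 6671303469) (nat_lit 152) (nat_lit 6672240723) (nat_lit 228) (nat_lit 850375685591) (nat_lit 208) (nat_lit 5) (nat_lit 210) (nat_lit 5) (nat_lit 211) (nat_lit 5) (nat_lit 342) (nat_lit 334) (nat_lit 224)) (XT.nd (nat_lit 78) (nat_lit 152) (nat_lit 0) (XT.lf (nat_lit 0) (nat_lit 184461687107) (nat_lit 228) (nat_lit 375728172563) (nat_lit 76) (nat_lit 375727305931) (nat_lit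 208) (nat_lit 5) (nat_lit 211) (nat_lit 5) (nat_lit 209) (nat_lit 5) (nat_lit 343) (nat_lit 334) (nat_lit 223)) (XT.lf (nat_lit 0) (nat_lit 194815622192) (nat_lit 152) (nat_lit 194816533719) (nat_lit 228) (nat_lit 628054945215) (nat_lit 206) (nat_lit 5) (nat_lit 208) (nat_lit 5) (nat_lit 209) (nat_lit 5) (nat_lit 344) (nat_lit 334) (nat_lit 222))))) (XT.nd (nat_lit 156) (nat_lit 304) (nat_lit 0) (XT.nd (nat_lit 78) (nat_lit 76) (nat_lit 0) (XT.lf (nat_lit 0) (nat_lit 655485558388) (nat_lit 228) (nat_lit 225875845334) (nat_lit 76) (nat_lit 225875018755) (nat_lit 206) (nat_lit 5) (nat_lit 209) (nat_lit 5) (nat_lit 207) (nat_lit 4) (nat_lit 345) (nat_lit 334) (nat_lit 221)) (XT.lf (nat_lit 0) (nat_lit 495505449932) (nat_lit 76) (nat_lit 495506306030) (nat_lit 152) (nat_lit 214737168358) (nat_lit 205) (nat_lit 5) (nat_lit 206) (nat_lit 5) (nat_lit 207) (nat_lit 4) (nat_lit 346) (nat_lit 334) (nat_lit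 220))) (XT.nd (nat_lit 78) (nat_lit 76) (nat_lit 0) (XT.lf (nat_lit 0) (nat_lit 33212006467) (nat_lit 152) (nat_lit 33212888233) (nat_lit 228) (nat_lit 1250192531021) (nat_lit 202) (nat_lit 5) (nat_lit 204) (nat_lit 5) (nat_lit 205) (nat_lit 5) (nat_lit 347) (nat_lit 334) (nat_lit 219)) (XT.nd (nat_lit 78) (nat_lit 76) (nat_lit 0) (XT.lf (nat_lit 0) (nat_lit 427309238265) (nat_lit 228) (nat_lit 503171984143) (nat_lit 76) (nat_lit 503171197980) (nat_lit 202) (nat_lit 5) (nat_lit 205) (nat_lit 5) (nat_lit 203) (nat_lit 4) (nat_lit 348) (nat_lit 334) (nat_lit 218)) (XT.lf (nat_lit 0) (nat_lit 430874283865) (nat_lit 76) (nat_lit 430875086905) (nat_lit 152) (nat_lit 703579822874) (nat_lit 201) (nat_lit 5) (nat_lit 202) (nat_lit 5) (nat_lit 203) (nat_lit 4) (nat_lit 349) (nat_lit 334) (nat_lit 217))))))))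
noncomputable def xc99 : XT := (XT.nd (nat_lit 1560) (nat_lit 912) (nat_lit 0) (XT.nd (nat_lit 780) (nat_lit 760) (nat_lit 0) (XT.nd (nat_lit 390) (nat_lit 380) (nat_lit 0) (XT.nd (nat_lit 156) (nat_lit 152) (nat_lit 0) (XT.nd (nat_lit 78) (nat_lit 152) (nat_lit 0) (XT.lf (nat_lit 0) (nat_lit 1394859315745) (nat_lit 152) (nat_lit 158436654656) (nat_lit 0) (nat_lit 158435943599) (nat_lit 201) (nat_lit 5) (nat_lit 203) (nat_lit 4) (nat_lit 201) (nat_lit 4) (nat_lit 350) (nat_lit 334) (nat_lit 216)) (XT.lf (nat_lit 0) (nat_lit 182881310062) (nat_lit 152) (nat_lit 843228566608) (nat_lit 76) (nat_lit 843227844453) (nat_lit 199) (nat_lit 5) (nat_lit 201) (nat_lit 5) (nat_lit 200) (nat_lit 4) (nat_lit 351) (nat_lit 334) (nat_lit 215))) (XT.nd (nat_lit 78) (nat_lit 76) (nat_lit 0) (XT.lf (nat_lit 0) (nat_lit 374673278640) (nat_lit 76) (nat_lit 374674010444) (nat_lit 152) (nat_lit 1295345129103) (nat_lit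 198) (nat_lit 5) (nat_lit 199) (nat_lit 5) (nat_lit 200) (nat_lit 4) (nat_lit 352) (nat_lit 334) (nat_lit 214)) (XT.nd (nat_lit 78) (nat_lit 76) (nat_lit 0) (XT.lf (nat_lit 0) (nat_lit 1462466259796) (nat_lit 152) (nat_lit 387316119719) (nat_lit 0) (nat_lit 387315476070) (nat_lit 198) (nat_lit 5) (nat_lit 200) (nat_lit 4) (nat_lit 198) (nat_lit 4) (nat_lit 353) (nat_lit 334) (nat_lit 213)) (XT.lf (nat_lit 0) (nat_lit 1174514079574) (nat_lit 76) (nat_lit 1174514729567) (nat_lit 76) (nat_lit 99363939497) (nat_lit 197) (nat_lit 4) (nat_lit 198) (nat_lit 5) (nat_lit 198) (nat_lit 4) (nat_lit 354) (nat_lit 334) (nat_lit 212))))) (XT.nd (nat_lit 156) (nat_lit 228) (nat_lit 0) (XT.nd (nat_lit 78) (nat_lit 0) (nat_lit 0) (XT.lf (nat_lit 0) (nat_lit 325802844315) (nat_lit 76) (nat_lit 325803499825) (nat_lit 152) (nat_lit 2030364214484) (nat_lit 195) (nat_lit 5) (nat_lit 196) (nat_lit 5) (nat_lit 197) (nat_lit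 4) (nat_lit 355) (nat_lit 334) (nat_lit 211)) (XT.lf (nat_lit 0) (nat_lit 1601733200561) (nat_lit 152) (nat_lit 666820035277) (nat_lit 0) (nat_lit 666819461096) (nat_lit 195) (nat_lit 5) (nat_lit 197) (nat_lit 4) (nat_lit 195) (nat_lit 4) (nat_lit 356) (nat_lit 334) (nat_lit 210))) (XT.nd (nat_lit 78) (nat_lit 152) (nat_lit 0) (XT.lf (nat_lit 0) (nat_lit 1383592278670) (nat_lit 76) (nat_lit 1383592856479) (nat_lit 76) (nat_lit 448679113386) (nat_lit 194) (nat_lit 4) (nat_lit 195) (nat_lit 5) (nat_lit 195) (nat_lit 4) (nat_lit 357) (nat_lit 334) (nat_lit 209)) (XT.nd (nat_lit 78) (nat_lit 0) (nat_lit 0) (XT.lf (nat_lit 0) (nat_lit 283306817326) (nat_lit 76) (nat_lit 283307398289) (nat_lit 152) (nat_lit 2961043879752) (nat_lit 192) (nat_lit 5) (nat_lit 193) (nat_lit 5) (nat_lit 194) (nat_lit 4) (nat_lit 358) (nat_lit 334) (nat_lit 208)) (XT.lf (nat_lit 0) (nat_lit 1829267434274) (nat_lit 152) (nat_lit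 1016299464461) (nat_lit 0) (nat_lit 1016298956890) (nat_lit 192) (nat_lit 5) (nat_lit 194) (nat_lit 4) (nat_lit 192) (nat_lit 4) (nat_lit 359) (nat_lit 334) (nat_lit 207)))))) (XT.nd (nat_lit 390) (nat_lit 304) (nat_lit 0) (XT.nd (nat_lit 156) (nat_lit 228) (nat_lit 0) (XT.nd (nat_lit 78) (nat_lit 152) (nat_lit 0) (XT.lf (nat_lit 0) (nat_lit 1682233320910) (nat_lit 76) (nat_lit 1682233830555) (nat_lit 76) (nat_lit 869265351098) (nat_lit 191) (nat_lit 4) (nat_lit 192) (nat_lit 5) (nat_lit 192) (nat_lit 4) (nat_lit 360) (nat_lit 334) (nat_lit 206)) (XT.lf (nat_lit 0) (nat_lit 246353752014) (nat_lit 76) (nat_lit 246354263462) (nat_lit 152) (nat_lit 4155882452182) (nat_lit 189) (nat_lit 5) (nat_lit 190) (nat_lit 5) (nat_lit 191) (nat_lit 4) (nat_lit 361) (nat_lit 334) (nat_lit 205))) (XT.nd (nat_lit 78) (nat_lit 228) (nat_lit 0) (XT.lf (nat_lit 0) (nat_lit 2167880333358) (nat_lit 152) (nat_lit 1460951663956)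 (nat_lit 0) (nat_lit 1460951217855) (nat_lit 189) (nat_lit 5) (nat_lit 191) (nat_lit 4) (nat_lit 189) (nat_lit 4) (nat_lit 362) (nat_lit 334) (nat_lit 204)) (XT.nd (nat_lit 78) (nat_lit 152) (nat_lit 0) (XT.lf (nat_lit 0) (nat_lit 2096434031717) (nat_lit 76) (nat_lit 2096434479005) (nat_lit 76) (nat_lit 1389505362315) (nat_lit 188) (nat_lit 4) (nat_lit 189) (nat_lit 5) (nat_lit 189) (nat_lit 4) (nat_lit 363) (nat_lit 334) (nat_lit 203)) (XT.lf (nat_lit 0) (nat_lit 214220652677) (nat_lit 76) (nat_lit 214221100996) (nat_lit 152) (nat_lit 5704764910919) (nat_lit 186) (nat_lit 5) (nat_lit 187) (nat_lit 5) (nat_lit 188) (nat_lit 4) (nat_lit 364) (nat_lit 334) (nat_lit 202))))) (XT.nd (nat_lit 156) (nat_lit 228) (nat_lit 0) (XT.nd (nat_lit 78) (nat_lit 76) (nat_lit 0) (XT.lf (nat_lit 0) (nat_lit 2648477523678) (nat_lit 152) (nat_lit 2033756941589) (nat_lit 0) (nat_lit 2033756550967) (nat_lit 186) (nat_lit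 5) (nat_lit 188) (nat_lit 4) (nat_lit 186) (nat_lit 4) (nat_lit 365) (nat_lit 334) (nat_lit 201)) (XT.lf (nat_lit 0) (nat_lit 2660951803514) (nat_lit 76) (nat_lit 2660952194814) (nat_lit 76) (nat_lit 2046231221425) (nat_lit 185) (nat_lit 4) (nat_lit 186) (nat_lit 5) (nat_lit 186) (nat_lit 4) (nat_lit 366) (nat_lit 334) (nat_lit 200))) (XT.nd (nat_lit 78) (nat_lit 76) (nat_lit 0) (XT.lf (nat_lit 0) (nat_lit 186278827701) (nat_lit 76) (nat_lit 186279219591) (nat_lit 152) (nat_lit 7725951915548) (nat_lit 183) (nat_lit 5) (nat_lit 184) (nat_lit 5) (nat_lit 185) (nat_lit 4) (nat_lit 367) (nat_lit 334) (nat_lit 199)) (XT.nd (nat_lit 78) (nat_lit 76) (nat_lit 0) (XT.lf (nat_lit 0) (nat_lit 3312573074690) (nat_lit 152) (nat_lit 2778033438091) (nat_lit 0) (nat_lit 2778033096872) (nat_lit 183) (nat_lit 5) (nat_lit 185) (nat_lit 4) (nat_lit 183) (nat_lit 4) (nat_lit 368) (nat_lit 334) (nat_lit 198)) (XT.lf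 (nat_lit 0) (nat_lit 3422080757778) (nat_lit 76) (nat_lit 3422081099386) (nat_lit 76) (nat_lit 2887541121179) (nat_lit 182) (nat_lit 4) (nat_lit 183) (nat_lit 5) (nat_lit 183) (nat_lit 4) (nat_lit 369) (nat_lit 334) (nat_lit 197))))))) (XT.nd (nat_lit 780) (nat_lit 76) (nat_lit 0) (XT.nd (nat_lit 390) (nat_lit 456) (nat_lit 0) (XT.nd (nat_lit 156) (nat_lit 228) (nat_lit 0) (XT.nd (nat_lit 78) (nat_lit 0) (nat_lit 0) (XT.lf (nat_lit 0) (nat_lit 161981588897) (nat_lit 76) (nat_lit 161981930842) (nat_lit 152) (nat_lit 10375310818289) (nat_lit 180) (nat_lit 5) (nat_lit 181) (nat_lit 5) (nat_lit 182) (nat_lit 4) (nat_lit 370) (nat_lit 334) (nat_lit 196)) (XT.lf (nat_lit 0) (nat_lit 4215627064497) (nat_lit 152) (nat_lit 3750809989193) (nat_lit 0) (nat_lit 3750809691595) (nat_lit 180) (nat_lit 5) (nat_lit 182) (nat_lit 4) (nat_lit 180) (nat_lit 4) (nat_lit 371) (nat_lit 334) (nat_lit 195))) (XT.nd (nat_lit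 78) (nat_lit 152) (nat_lit 0) (XT.lf (nat_lit 0) (nat_lit 4441329626541) (nat_lit 76) (nat_lit 4441329924361) (nat_lit 76) (nat_lit 3976512551238) (nat_lit 179) (nat_lit 4) (nat_lit 180) (nat_lit 5) (nat_lit 180) (nat_lit 4) (nat_lit 372) (nat_lit 334) (nat_lit 194)) (XT.nd (nat_lit 78) (nat_lit 0) (nat_lit 0) (XT.lf (nat_lit 0) (nat_lit 140853555330) (nat_lit 76) (nat_lit 140853853342) (nat_lit 152) (nat_lit 13858513261821) (nat_lit 177) (nat_lit 5) (nat_lit 178) (nat_lit 5) (nat_lit 179) (nat_lit 4) (nat_lit 373) (nat_lit 334) (nat_lit 193)) (XT.lf (nat_lit 0) (nat_lit 5431470421471) (nat_lit 152) (nat_lit 5027281660338) (nat_lit 0) (nat_lit 5027281401051) (nat_lit 177) (nat_lit 5) (nat_lit 179) (nat_lit 4) (nat_lit 177) (nat_lit 4) (nat_lit 374) (nat_lit 334) (nat_lit 192))))) (XT.nd (nat_lit 156) (nat_lit 228) (nat_lit 0) (XT.nd (nat_lit 78) (nat_lit 152) (nat_lit 0) (XT.lf (nat_lit 0) (nat_lit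 5800291322067) (nat_lit 76) (nat_lit 5800291581480) (nat_lit 76) (nat_lit 5396102560933) (nat_lit 176) (nat_lit 4) (nat_lit 177) (nat_lit 5) (nat_lit 177) (nat_lit 4) (nat_lit 375) (nat_lit 334) (nat_lit 191)) (XT.lf (nat_lit 0) (nat_lit 122481352327) (nat_lit 76) (nat_lit 122481611851) (nat_lit 152) (nat_lit 18447157445137) (nat_lit 174) (nat_lit 5) (nat_lit 175) (nat_lit 5) (nat_lit 176) (nat_lit 4) (nat_lit 376) (nat_lit 334) (nat_lit 190))) (XT.nd (nat_lit 78) (nat_lit 228) (nat_lit 0) (XT.lf (nat_lit 0) (nat_lit 7058166265906) (nat_lit 152) (nat_lit 6706697777964) (nat_lit 0) (nat_lit 6706697552207) (nat_lit 174) (nat_lit 5) (nat_lit 176) (nat_lit 4) (nat_lit 174) (nat_lit 4) (nat_lit 377) (nat_lit 334) (nat_lit 189)) (XT.nd (nat_lit 78) (nat_lit 152) (nat_lit 0) (XT.lf (nat_lit 0) (nat_lit 7607087787432) (nat_lit 76) (nat_lit 7607088013261) (nat_lit 76) (nat_lit 7255619299490) (nat_lit 173)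 (nat_lit 4) (nat_lit 174) (nat_lit 5) (nat_lit 174) (nat_lit 4) (nat_lit 378) (nat_lit 334) (nat_lit 188)) (XT.lf (nat_lit 0) (nat_lit 106505523687) (nat_lit 76) (nat_lit 106505749578) (nat_lit 152) (nat_lit 24500081944232) (nat_lit 171) (nat_lit 5) (nat_lit 172) (nat_lit 5) (nat_lit 173) (nat_lit 4) (nat_lit 379) (nat_lit 334) (nat_lit 187)))))) (XT.nd (nat_lit 43602) (nat_lit 0) (nat_lit 3116) (XT.nd (nat_lit 43368) (nat_lit 0) (nat_lit 3420) (XT.nd (nat_lit 78) (nat_lit 76) (nat_lit 0) (XT.lf (nat_lit 0) (nat_lit 9225769785296) (nat_lit 152) (nat_lit 8920145013172) (nat_lit 0) (nat_lit 8920144816697) (nat_lit 171) (nat_lit 5) (nat_lit 173) (nat_lit 4) (nat_lit 171) (nat_lit 4) (nat_lit 380) (nat_lit 334) (nat_lit 186)) (XT.lf (nat_lit 0) (nat_lit 10004897524161) (nat_lit 76) (nat_lit 10004897720678) (nat_lit 76) (nat_lit 9699272752038) (nat_lit 170) (nat_lit 4) (nat_lit 171) (nat_lit 5) (nat_lit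 171) (nat_lit 4) (nat_lit 381) (nat_lit 334) (nat_lit 185))) (XT.nd (nat_lit 78) (nat_lit 0) (nat_lit 0) (XT.lf (nat_lit 0) (nat_lit 82764652410) (nat_lit 380) (nat_lit 93443739276) (nat_lit 380) (nat_lit 93443739276) (nat_lit 215) (nat_lit 3) (nat_lit 220) (nat_lit 3) (nat_lit 220) (nat_lit 5) (nat_lit 335) (nat_lit 335) (nat_lit 230)) (XT.nd (nat_lit 78) (nat_lit 0) (nat_lit 76) (XT.lf (nat_lit 76) (nat_lit 90853016169) (nat_lit 0) (nat_lit 90853225036) (nat_lit 380) (nat_lit 397481504589) (nat_lit 216) (nat_lit 5) (nat_lit 215) (nat_lit 3) (nat_lit 220) (nat_lit 5) (nat_lit 336) (nat_lit 335) (nat_lit 229)) (XT.lf (nat_lit 0) (nat_lit 219237364031) (nat_lit 304) (nat_lit 201488790434) (nat_lit 380) (nat_lit 201488450877) (nat_lit 216) (nat_lit 5) (nat_lit 220) (nat_lit 5) (nat_lit 221) (nat_lit 5) (nat_lit 337) (nat_lit 335) (nat_lit 228))))) (XT.nd (nat_lit 156) (nat_lit 380) (nat_lit 0) (XT.nd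 (nat_lit 78) (nat_lit 0) (nat_lit 76) (XT.lf (nat_lit 76) (nat_lit 136181487384) (nat_lit 0) (nat_lit 136181964275) (nat_lit 380) (nat_lit 397837247707) (nat_lit 217) (nat_lit 5) (nat_lit 216) (nat_lit 5) (nat_lit 221) (nat_lit 5) (nat_lit 338) (nat_lit 335) (nat_lit 227)) (XT.lf (nat_lit 0) (nat_lit 352403051770) (nat_lit 304) (nat_lit 185070242178) (nat_lit 76) (nat_lit 185069723646) (nat_lit 217) (nat_lit 5) (nat_lit 221) (nat_lit 5) (nat_lit 218) (nat_lit 5) (nat_lit 339) (nat_lit 335) (nat_lit 226))) (XT.nd (nat_lit 78) (nat_lit 152) (nat_lit 0) (XT.lf (nat_lit 0) (nat_lit 230233138186) (nat_lit 304) (nat_lit 230233747016) (nat_lit 380) (nat_lit 319867054357) (nat_lit 213) (nat_lit 5) (nat_lit 217) (nat_lit 5) (nat_lit 218) (nat_lit 5) (nat_lit 340) (nat_lit 335) (nat_lit 225)) (XT.nd (nat_lit 78) (nat_lit 152) (nat_lit 0) (XT.lf (nat_lit 0) (nat_lit 599972035593) (nat_lit 380) (nat_lit 122268650316)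 (nat_lit 76) (nat_lit 122268052619) (nat_lit 213) (nat_lit 5) (nat_lit 218) (nat_lit 5) (nat_lit 214) (nat_lit 5) (nat_lit 341) (nat_lit 335) (nat_lit 224)) (XT.lf (nat_lit 0) (nat_lit 393836868990) (nat_lit 152) (nat_lit 393837526060) (nat_lit 228) (nat_lit 126544646815) (nat_lit 211) (nat_lit 5) (nat_lit 213) (nat_lit 5) (nat_lit 214) (nat_lit 5) (nat_lit 342) (nat_lit 335) (nat_lit 223))))))))
noncomputable def xc100 : XT := (XT.nd (nat_lit 1560) (nat_lit 1368) (nat_lit 0) (XT.nd (nat_lit 780) (nat_lit 760) (nat_lit 0) (XT.nd (nat_lit 390) (nat_lit 456) (nat_lit 0) (XT.nd (nat_lit 156) (nat_lit 228) (nat_lit 0) (XT.nd (nat_lit 78) (nat_lit 0) (nat_lit 0) (XT.lf (nat_lit 0) (nat_lit 7672293820) (nat_lit 152) (nat_lit 7673002518) (nat_lit 228) (nat_lit 977931784835) (nat_lit 208) (nat_lit 5) (nat_lit 210) (nat_lit 5) (nat_lit 211) (nat_lit 5) (nat_lit 343) (nat_lit 335) (nat_lit 222)) (XT.lf (nat_lit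 0) (nat_lit 212131134603) (nat_lit 228) (nat_lit 432087115987) (nat_lit 76) (nat_lit 432086460688) (nat_lit 208) (nat_lit 5) (nat_lit 211) (nat_lit 5) (nat_lit 209) (nat_lit 5) (nat_lit 344) (nat_lit 335) (nat_lit 221))) (XT.nd (nat_lit 78) (nat_lit 76) (nat_lit 0) (XT.lf (nat_lit 0) (nat_lit 224038235143) (nat_lit 152) (nat_lit 224038924388) (nat_lit 228) (nat_lit 722262979728) (nat_lit 206) (nat_lit 5) (nat_lit 208) (nat_lit 5) (nat_lit 209) (nat_lit 5) (nat_lit 345) (nat_lit 335) (nat_lit 220)) (XT.nd (nat_lit 78) (nat_lit 76) (nat_lit 0) (XT.lf (nat_lit 0) (nat_lit 753808552089) (nat_lit 228) (nat_lit 259756967390) (nat_lit 76) (nat_lit 259756342377) (nat_lit 206) (nat_lit 5) (nat_lit 209) (nat_lit 5) (nat_lit 207) (nat_lit 4) (nat_lit 346) (nat_lit 335) (nat_lit 219)) (XT.lf (nat_lit 0) (nat_lit 569831510587) (nat_lit 76) (nat_lit 569832157920) (nat_lit 152) (nat_lit 246947572089) (nat_lit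 205) (nat_lit 5) (nat_lit 206) (nat_lit 5) (nat_lit 207) (nat_lit 4) (nat_lit 347) (nat_lit 335) (nat_lit 218))))) (XT.nd (nat_lit 156) (nat_lit 228) (nat_lit 0) (XT.nd (nat_lit 78) (nat_lit 0) (nat_lit 0) (XT.lf (nat_lit 0) (nat_lit 38194054125) (nat_lit 152) (nat_lit 38194720867) (nat_lit 228) (nat_lit 1437721242675) (nat_lit 202) (nat_lit 5) (nat_lit 204) (nat_lit 5) (nat_lit 205) (nat_lit 5) (nat_lit 348) (nat_lit 335) (nat_lit 217)) (XT.lf (nat_lit 0) (nat_lit 491405754659) (nat_lit 228) (nat_lit 578647551820) (nat_lit 76) (nat_lit 578646957369) (nat_lit 202) (nat_lit 5) (nat_lit 205) (nat_lit 5) (nat_lit 203) (nat_lit 4) (nat_lit 349) (nat_lit 335) (nat_lit 216))) (XT.nd (nat_lit 78) (nat_lit 152) (nat_lit 0) (XT.lf (nat_lit 0) (nat_lit 495505645936) (nat_lit 76) (nat_lit 495506253150) (nat_lit 152) (nat_lit 809116655199) (nat_lit 201) (nat_lit 5) (nat_lit 202) (nat_lit 5) (nat_lit 203) (nat_lit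 4) (nat_lit 350) (nat_lit 335) (nat_lit 215)) (XT.nd (nat_lit 78) (nat_lit 152) (nat_lit 0) (XT.lf (nat_lit 0) (nat_lit 1604088323288) (nat_lit 152) (nat_lit 182201949473) (nat_lit 0) (nat_lit 182201411811) (nat_lit 201) (nat_lit 5) (nat_lit 203) (nat_lit 4) (nat_lit 201) (nat_lit 4) (nat_lit 351) (nat_lit 335) (nat_lit 214)) (XT.lf (nat_lit 0) (nat_lit 210313615366) (nat_lit 152) (nat_lit 969712646830) (nat_lit 76) (nat_lit 969712100777) (nat_lit 199) (nat_lit 5) (nat_lit 201) (nat_lit 5) (nat_lit 200) (nat_lit 4) (nat_lit 352) (nat_lit 335) (nat_lit 213)))))) (XT.nd (nat_lit 390) (nat_lit 456) (nat_lit 0) (XT.nd (nat_lit 156) (nat_lit 228) (nat_lit 0) (XT.nd (nat_lit 78) (nat_lit 0) (nat_lit 0) (XT.lf (nat_lit 0) (nat_lit 430874465898) (nat_lit 76) (nat_lit 430875019247) (nat_lit 152) (nat_lit 1489646780366) (nat_lit 198) (nat_lit 5) (nat_lit 199) (nat_lit 5) (nat_lit 200) (nat_lit 4) (nat_lit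 353) (nat_lit 335) (nat_lit 212)) (XT.lf (nat_lit 0) (nat_lit 1681836291407) (nat_lit 152) (nat_lit 445413357655) (nat_lit 0) (nat_lit 445412870964) (nat_lit 198) (nat_lit 5) (nat_lit 200) (nat_lit 4) (nat_lit 198) (nat_lit 4) (nat_lit 354) (nat_lit 335) (nat_lit 211))) (XT.nd (nat_lit 78) (nat_lit 152) (nat_lit 0) (XT.lf (nat_lit 0) (nat_lit 1350691363349) (nat_lit 76) (nat_lit 1350691854837) (nat_lit 76) (nat_lit 114268429597) (nat_lit 197) (nat_lit 4) (nat_lit 198) (nat_lit 5) (nat_lit 198) (nat_lit 4) (nat_lit 355) (nat_lit 335) (nat_lit 210)) (XT.nd (nat_lit 78) (nat_lit 0) (nat_lit 0) (XT.lf (nat_lit 0) (nat_lit 374673443558) (nat_lit 76) (nat_lit 374673939218) (nat_lit 152) (nat_lit 2334918746589) (nat_lit 195) (nat_lit 5) (nat_lit 196) (nat_lit 5) (nat_lit 197) (nat_lit 4) (nat_lit 356) (nat_lit 335) (nat_lit 209)) (XT.lf (nat_lit 0) (nat_lit 1841993259393) (nat_lit 152) (nat_lit 766842882217)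 (nat_lit 0) (nat_lit 766842448053) (nat_lit 195) (nat_lit 5) (nat_lit 197) (nat_lit 4) (nat_lit 195) (nat_lit 4) (nat_lit 357) (nat_lit 335) (nat_lit 208))))) (XT.nd (nat_lit 156) (nat_lit 228) (nat_lit 0) (XT.nd (nat_lit 78) (nat_lit 152) (nat_lit 0) (XT.lf (nat_lit 0) (nat_lit 1591131271625) (nat_lit 76) (nat_lit 1591131708532) (nat_lit 76) (nat_lit 515980894449) (nat_lit 194) (nat_lit 4) (nat_lit 195) (nat_lit 5) (nat_lit 195) (nat_lit 4) (nat_lit 358) (nat_lit 335) (nat_lit 207)) (XT.lf (nat_lit 0) (nat_lit 325802991512) (nat_lit 76) (nat_lit 325803430804) (nat_lit 152) (nat_lit 3405200376203) (nat_lit 192) (nat_lit 5) (nat_lit 193) (nat_lit 5) (nat_lit 194) (nat_lit 4) (nat_lit 359) (nat_lit 335) (nat_lit 206))) (XT.nd (nat_lit 78) (nat_lit 228) (nat_lit 0) (XT.lf (nat_lit 0) (nat_lit 2103657616855) (nat_lit 152) (nat_lit 1168744245398) (nat_lit 0) (nat_lit 1168743861601) (nat_lit 192) (nat_lit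 5) (nat_lit 194) (nat_lit 4) (nat_lit 192) (nat_lit 4) (nat_lit 360) (nat_lit 335) (nat_lit 205)) (XT.nd (nat_lit 78) (nat_lit 152) (nat_lit 0) (XT.lf (nat_lit 0) (nat_lit 1934568451474) (nat_lit 76) (nat_lit 1934568836839) (nat_lit 76) (nat_lit 999655080016) (nat_lit 191) (nat_lit 4) (nat_lit 192) (nat_lit 5) (nat_lit 192) (nat_lit 4) (nat_lit 361) (nat_lit 335) (nat_lit 204)) (XT.lf (nat_lit 0) (nat_lit 283306947490) (nat_lit 76) (nat_lit 283307334219) (nat_lit 152) (nat_lit 4779264746511) (nat_lit 189) (nat_lit 5) (nat_lit 190) (nat_lit 5) (nat_lit 191) (nat_lit 4) (nat_lit 362) (nat_lit 335) (nat_lit 203))))))) (XT.nd (nat_lit 780) (nat_lit 684) (nat_lit 0) (XT.nd (nat_lit 390) (nat_lit 380) (nat_lit 0) (XT.nd (nat_lit 156) (nat_lit 228) (nat_lit 0) (XT.nd (nat_lit 78) (nat_lit 76) (nat_lit 0) (XT.lf (nat_lit 0) (nat_lit 2493062441414) (nat_lit 152) (nat_lit 1680094292320) (nat_lit 0) (nat_lit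 1680093955003) (nat_lit 189) (nat_lit 5) (nat_lit 191) (nat_lit 4) (nat_lit 189) (nat_lit 4) (nat_lit 363) (nat_lit 335) (nat_lit 202)) (XT.lf (nat_lit 0) (nat_lit 2410899252194) (nat_lit 76) (nat_lit 2410899590408) (nat_lit 76) (nat_lit 1597931103101) (nat_lit 188) (nat_lit 4) (nat_lit 189) (nat_lit 5) (nat_lit 189) (nat_lit 4) (nat_lit 364) (nat_lit 335) (nat_lit 201))) (XT.nd (nat_lit 78) (nat_lit 76) (nat_lit 0) (XT.lf (nat_lit 0) (nat_lit 246353866439) (nat_lit 76) (nat_lit 246354205433) (nat_lit 152) (nat_lit 6560479584137) (nat_lit 186) (nat_lit 5) (nat_lit 187) (nat_lit 5) (nat_lit 188) (nat_lit 4) (nat_lit 365) (nat_lit 335) (nat_lit 200)) (XT.nd (nat_lit 78) (nat_lit 76) (nat_lit 0) (XT.lf (nat_lit 0) (nat_lit 3045749202371) (nat_lit 152) (nat_lit 2338820377072) (nat_lit 0) (nat_lit 2338820081706) (nat_lit 186) (nat_lit 5) (nat_lit 188) (nat_lit 4) (nat_lit 186) (nat_lit 4) (nat_lit 366)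 (nat_lit 335) (nat_lit 199)) (XT.lf (nat_lit 0) (nat_lit 3060094674989) (nat_lit 76) (nat_lit 3060094970869) (nat_lit 76) (nat_lit 2353165849691) (nat_lit 185) (nat_lit 4) (nat_lit 186) (nat_lit 5) (nat_lit 186) (nat_lit 4) (nat_lit 367) (nat_lit 335) (nat_lit 198))))) (XT.nd (nat_lit 156) (nat_lit 228) (nat_lit 0) (XT.nd (nat_lit 78) (nat_lit 0) (nat_lit 0) (XT.lf (nat_lit 0) (nat_lit 214220752886) (nat_lit 76) (nat_lit 214221049211) (nat_lit 152) (nat_lit 8884844648013) (nat_lit 183) (nat_lit 5) (nat_lit 184) (nat_lit 5) (nat_lit 185) (nat_lit 4) (nat_lit 368) (nat_lit 335) (nat_lit 197)) (XT.lf (nat_lit 0) (nat_lit 3809459079301) (nat_lit 152) (nat_lit 3194738361650) (nat_lit 0) (nat_lit 3194738103639) (nat_lit 183) (nat_lit 5) (nat_lit 185) (nat_lit 4) (nat_lit 183) (nat_lit 4) (nat_lit 369) (nat_lit 335) (nat_lit 196))) (XT.nd (nat_lit 78) (nat_lit 152) (nat_lit 0) (XT.lf (nat_lit 0) (nat_lit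 3935392959411) (nat_lit 76) (nat_lit 3935393217715) (nat_lit 76) (nat_lit 3320672241760) (nat_lit 182) (nat_lit 4) (nat_lit 183) (nat_lit 5) (nat_lit 183) (nat_lit 4) (nat_lit 370) (nat_lit 335) (nat_lit 195)) (XT.nd (nat_lit 78) (nat_lit 0) (nat_lit 0) (XT.lf (nat_lit 0) (nat_lit 186278915244) (nat_lit 76) (nat_lit 186279173803) (nat_lit 152) (nat_lit 11931607393483) (nat_lit 180) (nat_lit 5) (nat_lit 181) (nat_lit 5) (nat_lit 182) (nat_lit 4) (nat_lit 371) (nat_lit 335) (nat_lit 194)) (XT.lf (nat_lit 0) (nat_lit 4847971161806) (nat_lit 152) (nat_lit 4313431407327) (nat_lit 0) (nat_lit 4313431182300) (nat_lit 180) (nat_lit 5) (nat_lit 182) (nat_lit 4) (nat_lit 180) (nat_lit 4) (nat_lit 372) (nat_lit 335) (nat_lit 193)))))) (XT.nd (nat_lit 390) (nat_lit 228) (nat_lit 0) (XT.nd (nat_lit 156) (nat_lit 228) (nat_lit 0) (XT.nd (nat_lit 78) (nat_lit 152) (nat_lit 0) (XT.lf (nat_lit 0) (nat_lit 5107529147120)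 (nat_lit 76) (nat_lit 5107529372315) (nat_lit 76) (nat_lit 4572989392641) (nat_lit 179) (nat_lit 4) (nat_lit 180) (nat_lit 5) (nat_lit 180) (nat_lit 4) (nat_lit 373) (nat_lit 335) (nat_lit 192)) (XT.lf (nat_lit 0) (nat_lit 161981665253) (nat_lit 76) (nat_lit 161981890594) (nat_lit 152) (nat_lit 15937290209839) (nat_lit 177) (nat_lit 5) (nat_lit 178) (nat_lit 5) (nat_lit 179) (nat_lit 4) (nat_lit 374) (nat_lit 335) (nat_lit 191))) (XT.nd (nat_lit 78) (nat_lit 228) (nat_lit 0) (XT.lf (nat_lit 0) (nat_lit 6246191017355) (nat_lit 152) (nat_lit 5781373839547) (nat_lit 0) (nat_lit 5781373643489) (nat_lit 177) (nat_lit 5) (nat_lit 179) (nat_lit 4) (nat_lit 177) (nat_lit 4) (nat_lit 375) (nat_lit 335) (nat_lit 190)) (XT.nd (nat_lit 78) (nat_lit 152) (nat_lit 0) (XT.lf (nat_lit 0) (nat_lit 6670335087044) (nat_lit 76) (nat_lit 6670335283198) (nat_lit 76) (nat_lit 6205517909236) (nat_lit 176) (nat_lit 4)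 (nat_lit 177) (nat_lit 5) (nat_lit 177) (nat_lit 4) (nat_lit 376) (nat_lit 335) (nat_lit 189)) (XT.lf (nat_lit 0) (nat_lit 140853621859) (nat_lit 76) (nat_lit 140853818096) (nat_lit 152) (nat_lit 21214231026086) (nat_lit 174) (nat_lit 5) (nat_lit 175) (nat_lit 5) (nat_lit 176) (nat_lit 4) (nat_lit 377) (nat_lit 335) (nat_lit 188))))) (XT.nd (nat_lit 156) (nat_lit 152) (nat_lit 0) (XT.nd (nat_lit 78) (nat_lit 76) (nat_lit 0) (XT.lf (nat_lit 0) (nat_lit 8116891234158) (nat_lit 152) (nat_lit 7712702383890) (nat_lit 0) (nat_lit 7712702213186) (nat_lit 174) (nat_lit 5) (nat_lit 176) (nat_lit 4) (nat_lit 174) (nat_lit 4) (nat_lit 378) (nat_lit 335) (nat_lit 187)) (XT.lf (nat_lit 0) (nat_lit 8748151013553) (nat_lit 76) (nat_lit 8748151184312) (nat_lit 76) (nat_lit 8343962163285) (nat_lit 173) (nat_lit 4) (nat_lit 174) (nat_lit 5) (nat_lit 174) (nat_lit 4) (nat_lit 379) (nat_lit 335) (nat_lit 186))) (XT.nd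 (nat_lit 78) (nat_lit 0) (nat_lit 0) (XT.lf (nat_lit 0) (nat_lit 122481410254) (nat_lit 76) (nat_lit 122481581061) (nat_lit 152) (nat_lit 28175094204747) (nat_lit 171) (nat_lit 5) (nat_lit 172) (nat_lit 5) (nat_lit 173) (nat_lit 4) (nat_lit 380) (nat_lit 335) (nat_lit 185)) (XT.nd (nat_lit 43368) (nat_lit 0) (nat_lit 3344) (XT.lf (nat_lit 0) (nat_lit 10609635277735) (nat_lit 152) (nat_lit 10258166712285) (nat_lit 0) (nat_lit 10258166563722) (nat_lit 171) (nat_lit 5) (nat_lit 173) (nat_lit 4) (nat_lit 171) (nat_lit 4) (nat_lit 381) (nat_lit 335) (nat_lit 184)) (XT.lf (nat_lit 0) (nat_lit 95179550491) (nat_lit 380) (nat_lit 107460185042) (nat_lit 380) (nat_lit 107460185042) (nat_lit 215) (nat_lit 3) (nat_lit 220) (nat_lit 3) (nat_lit 220) (nat_lit 5) (nat_lit 336) (nat_lit 336) (nat_lit 228))))))))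
noncomputable def xc101 : XT := (XT.nd (nat_lit 1560) (nat_lit 1520) (nat_lit 0) (XT.nd (nat_lit 780) (nat_lit 684) (nat_lit 0) (XT.nd (nat_lit 390) (nat_lit 532) (nat_lit 0) (XT.nd (nat_lit 156) (nat_lit 152) (nat_lit 0) (XT.nd (nat_lit 78) (nat_lit 0) (nat_lit 76) (XT.lf (nat_lit 76) (nat_lit 104481188379) (nat_lit 0) (nat_lit 104481346313) (nat_lit 380) (nat_lit 457103319375) (nat_lit 216) (nat_lit 5) (nat_lit 215) (nat_lit 3) (nat_lit 220) (nat_lit 5) (nat_lit 337) (nat_lit 336) (nat_lit 227)) (XT.lf (nat_lit 0) (nat_lit 252123274386) (nat_lit 304) (nat_lit 231711866325) (nat_lit 380) (nat_lit 231711609571) (nat_lit 216) (nat_lit 5) (nat_lit 220) (nat_lit 5) (nat_lit 221) (nat_lit 5) (nat_lit 338) (nat_lit 336) (nat_lit 226))) (XT.nd (nat_lit 78) (nat_lit 228) (nat_lit 0) (XT.lf (nat_lit 76) (nat_lit 156608942136) (nat_lit 0) (nat_lit 156609302734) (nat_lit 380) (nat_lit 457512518082) (nat_lit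 217) (nat_lit 5) (nat_lit 216) (nat_lit 5) (nat_lit 221) (nat_lit 5) (nat_lit 339) (nat_lit 336) (nat_lit 225)) (XT.nd (nat_lit 78) (nat_lit 304) (nat_lit 0) (XT.lf (nat_lit 0) (nat_lit 405263747489) (nat_lit 304) (nat_lit 212830539567) (nat_lit 76) (nat_lit 212830147483) (nat_lit 217) (nat_lit 5) (nat_lit 221) (nat_lit 5) (nat_lit 218) (nat_lit 5) (nat_lit 340) (nat_lit 336) (nat_lit 224)) (XT.lf (nat_lit 0) (nat_lit 264768336990) (nat_lit 304) (nat_lit 264768797353) (nat_lit 380) (nat_lit 367846863696) (nat_lit 213) (nat_lit 5) (nat_lit 217) (nat_lit 5) (nat_lit 218) (nat_lit 5) (nat_lit 341) (nat_lit 336) (nat_lit 223))))) (XT.nd (nat_lit 156) (nat_lit 380) (nat_lit 0) (XT.nd (nat_lit 78) (nat_lit 152) (nat_lit 0) (XT.lf (nat_lit 0) (nat_lit 689968029493) (nat_lit 380) (nat_lit 140608721737) (nat_lit 76) (nat_lit 140608269792) (nat_lit 213) (nat_lit 5) (nat_lit 218) (nat_lit 5) (nat_lit 214)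 (nat_lit 5) (nat_lit 342) (nat_lit 336) (nat_lit 222)) (XT.lf (nat_lit 0) (nat_lit 452912615187) (nat_lit 152) (nat_lit 452913112026) (nat_lit 228) (nat_lit 145526144997) (nat_lit 211) (nat_lit 5) (nat_lit 213) (nat_lit 5) (nat_lit 214) (nat_lit 5) (nat_lit 343) (nat_lit 336) (nat_lit 221))) (XT.nd (nat_lit 78) (nat_lit 152) (nat_lit 0) (XT.lf (nat_lit 0) (nat_lit 8823360826) (nat_lit 152) (nat_lit 8823896704) (nat_lit 228) (nat_lit 1124621360807) (nat_lit 208) (nat_lit 5) (nat_lit 210) (nat_lit 5) (nat_lit 211) (nat_lit 5) (nat_lit 344) (nat_lit 336) (nat_lit 220)) (XT.nd (nat_lit 78) (nat_lit 152) (nat_lit 0) (XT.lf (nat_lit 0) (nat_lit 243950951810) (nat_lit 228) (nat_lit 496899969804) (nat_lit 76) (nat_lit 496899474304) (nat_lit 208) (nat_lit 5) (nat_lit 211) (nat_lit 5) (nat_lit 209) (nat_lit 5) (nat_lit 345) (nat_lit 336) (nat_lit 219)) (XT.lf (nat_lit 0) (nat_lit 257644174288) (nat_lit 152)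 (nat_lit 257644695456) (nat_lit 228) (nat_lit 830602269963) (nat_lit 206) (nat_lit 5) (nat_lit 208) (nat_lit 5) (nat_lit 209) (nat_lit 5) (nat_lit 346) (nat_lit 336) (nat_lit 218)))))) (XT.nd (nat_lit 390) (nat_lit 304) (nat_lit 0) (XT.nd (nat_lit 156) (nat_lit 304) (nat_lit 0) (XT.nd (nat_lit 78) (nat_lit 76) (nat_lit 0) (XT.lf (nat_lit 0) (nat_lit 866879955843) (nat_lit 228) (nat_lit 298720319875) (nat_lit 76) (nat_lit 298719847276) (nat_lit 206) (nat_lit 5) (nat_lit 209) (nat_lit 5) (nat_lit 207) (nat_lit 4) (nat_lit 347) (nat_lit 336) (nat_lit 217)) (XT.lf (nat_lit 0) (nat_lit 655306421042) (nat_lit 76) (nat_lit 655306910519) (nat_lit 152) (nat_lit 283989578206) (nat_lit 205) (nat_lit 5) (nat_lit 206) (nat_lit 5) (nat_lit 207) (nat_lit 4) (nat_lit 348) (nat_lit 336) (nat_lit 216))) (XT.nd (nat_lit 78) (nat_lit 76) (nat_lit 0) (XT.lf (nat_lit 0) (nat_lit 43923348775) (nat_lit 152) (nat_lit 43923852928)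 (nat_lit 228) (nat_lit 1653379302045) (nat_lit 202) (nat_lit 5) (nat_lit 204) (nat_lit 5) (nat_lit 205) (nat_lit 5) (nat_lit 349) (nat_lit 336) (nat_lit 215)) (XT.nd (nat_lit 78) (nat_lit 76) (nat_lit 0) (XT.lf (nat_lit 0) (nat_lit 565116716652) (nat_lit 228) (nat_lit 665444510723) (nat_lit 76) (nat_lit 665444061232) (nat_lit 202) (nat_lit 5) (nat_lit 205) (nat_lit 5) (nat_lit 203) (nat_lit 4) (nat_lit 350) (nat_lit 336) (nat_lit 214)) (XT.lf (nat_lit 0) (nat_lit 569831658794) (nat_lit 76) (nat_lit 569832117935) (nat_lit 152) (nat_lit 930484046783) (nat_lit 201) (nat_lit 5) (nat_lit 202) (nat_lit 5) (nat_lit 203) (nat_lit 4) (nat_lit 351) (nat_lit 336) (nat_lit 213))))) (XT.nd (nat_lit 156) (nat_lit 152) (nat_lit 0) (XT.nd (nat_lit 78) (nat_lit 152) (nat_lit 0) (XT.lf (nat_lit 0) (nat_lit 1844701655095) (nat_lit 152) (nat_lit 209532088108) (nat_lit 0) (nat_lit 209531681559) (nat_lit 201) (nat_lit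 5) (nat_lit 203) (nat_lit 4) (nat_lit 201) (nat_lit 4) (nat_lit 352) (nat_lit 336) (nat_lit 212)) (XT.lf (nat_lit 0) (nat_lit 241860739935) (nat_lit 152) (nat_lit 1115169389020) (nat_lit 76) (nat_lit 1115168976125) (nat_lit 199) (nat_lit 5) (nat_lit 201) (nat_lit 5) (nat_lit 200) (nat_lit 4) (nat_lit 353) (nat_lit 336) (nat_lit 211))) (XT.nd (nat_lit 78) (nat_lit 76) (nat_lit 0) (XT.lf (nat_lit 0) (nat_lit 495505783579) (nat_lit 76) (nat_lit 495506201991) (nat_lit 152) (nat_lit 1713093708119) (nat_lit 198) (nat_lit 5) (nat_lit 199) (nat_lit 5) (nat_lit 200) (nat_lit 4) (nat_lit 354) (nat_lit 336) (nat_lit 210)) (XT.nd (nat_lit 78) (nat_lit 76) (nat_lit 0) (XT.lf (nat_lit 0) (nat_lit 1934111805169) (nat_lit 152) (nat_lit 512225225181) (nat_lit 0) (nat_lit 512224857173) (nat_lit 198) (nat_lit 5) (nat_lit 200) (nat_lit 4) (nat_lit 198) (nat_lit 4) (nat_lit 355) (nat_lit 336) (nat_lit 209)) (XT.lf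 (nat_lit 0) (nat_lit 1553295197786) (nat_lit 76) (nat_lit 1553295569422) (nat_lit 76) (nat_lit 131408617798) (nat_lit 197) (nat_lit 4) (nat_lit 198) (nat_lit 5) (nat_lit 198) (nat_lit 4) (nat_lit 356) (nat_lit 336) (nat_lit 208))))))) (XT.nd (nat_lit 780) (nat_lit 684) (nat_lit 0) (XT.nd (nat_lit 390) (nat_lit 456) (nat_lit 0) (XT.nd (nat_lit 156) (nat_lit 228) (nat_lit 0) (XT.nd (nat_lit 78) (nat_lit 0) (nat_lit 0) (XT.lf (nat_lit 0) (nat_lit 430874590599) (nat_lit 76) (nat_lit 430874965390) (nat_lit 152) (nat_lit 2685156482912) (nat_lit 195) (nat_lit 5) (nat_lit 196) (nat_lit 5) (nat_lit 197) (nat_lit 4) (nat_lit 357) (nat_lit 336) (nat_lit 207)) (XT.lf (nat_lit 0) (nat_lit 2118292307846) (nat_lit 152) (nat_lit 881869194812) (nat_lit 0) (nat_lit 881868866523) (nat_lit 195) (nat_lit 5) (nat_lit 197) (nat_lit 4) (nat_lit 195) (nat_lit 4) (nat_lit 358) (nat_lit 336) (nat_lit 206))) (XT.nd (nat_lit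 78) (nat_lit 152) (nat_lit 0) (XT.lf (nat_lit 0) (nat_lit 1829801076663) (nat_lit 76) (nat_lit 1829801407027) (nat_lit 76) (nat_lit 593377963630) (nat_lit 194) (nat_lit 4) (nat_lit 195) (nat_lit 5) (nat_lit 195) (nat_lit 4) (nat_lit 359) (nat_lit 336) (nat_lit 205)) (XT.nd (nat_lit 78) (nat_lit 0) (nat_lit 0) (XT.lf (nat_lit 0) (nat_lit 374673554860) (nat_lit 76) (nat_lit 374673887028) (nat_lit 152) (nat_lit 3915980367974) (nat_lit 192) (nat_lit 5) (nat_lit 193) (nat_lit 5) (nat_lit 194) (nat_lit 4) (nat_lit 360) (nat_lit 336) (nat_lit 204)) (XT.lf (nat_lit 0) (nat_lit 2419206310378) (nat_lit 152) (nat_lit 1344055777305) (nat_lit 0) (nat_lit 1344055487100) (nat_lit 192) (nat_lit 5) (nat_lit 194) (nat_lit 4) (nat_lit 192) (nat_lit 4) (nat_lit 361) (nat_lit 336) (nat_lit 203))))) (XT.nd (nat_lit 156) (nat_lit 228) (nat_lit 0) (XT.nd (nat_lit 78) (nat_lit 152) (nat_lit 0) (XT.lf (nat_lit 0) (nat_lit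 2224753819329) (nat_lit 76) (nat_lit 2224754110720) (nat_lit 76) (nat_lit 1149603286256) (nat_lit 191) (nat_lit 4) (nat_lit 192) (nat_lit 5) (nat_lit 192) (nat_lit 4) (nat_lit 362) (nat_lit 336) (nat_lit 202)) (XT.lf (nat_lit 0) (nat_lit 325803089935) (nat_lit 76) (nat_lit 325803382357) (nat_lit 152) (nat_lit 5496154402912) (nat_lit 189) (nat_lit 5) (nat_lit 190) (nat_lit 5) (nat_lit 191) (nat_lit 4) (nat_lit 363) (nat_lit 336) (nat_lit 201))) (XT.nd (nat_lit 78) (nat_lit 228) (nat_lit 0) (XT.lf (nat_lit 0) (nat_lit 2867021851521) (nat_lit 152) (nat_lit 1932108344501) (nat_lit 0) (nat_lit 1932108089441) (nat_lit 189) (nat_lit 5) (nat_lit 191) (nat_lit 4) (nat_lit 189) (nat_lit 4) (nat_lit 364) (nat_lit 336) (nat_lit 200)) (XT.nd (nat_lit 78) (nat_lit 152) (nat_lit 0) (XT.lf (nat_lit 0) (nat_lit 2772534227524) (nat_lit 76) (nat_lit 2772534483262) (nat_lit 76) (nat_lit 1837620720504) (nat_lit 188)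 (nat_lit 4) (nat_lit 189) (nat_lit 5) (nat_lit 189) (nat_lit 4) (nat_lit 365) (nat_lit 336) (nat_lit 199)) (XT.lf (nat_lit 0) (nat_lit 283307034012) (nat_lit 76) (nat_lit 283307290340) (nat_lit 152) (nat_lit 7544551473803) (nat_lit 186) (nat_lit 5) (nat_lit 187) (nat_lit 5) (nat_lit 188) (nat_lit 4) (nat_lit 366) (nat_lit 336) (nat_lit 198)))))) (XT.nd (nat_lit 390) (nat_lit 380) (nat_lit 0) (XT.nd (nat_lit 156) (nat_lit 228) (nat_lit 0) (XT.nd (nat_lit 78) (nat_lit 76) (nat_lit 0) (XT.lf (nat_lit 0) (nat_lit 3502611620640) (nat_lit 152) (nat_lit 2689643353667) (nat_lit 0) (nat_lit 2689643130327) (nat_lit 186) (nat_lit 5) (nat_lit 188) (nat_lit 4) (nat_lit 186) (nat_lit 4) (nat_lit 367) (nat_lit 336) (nat_lit 197)) (XT.lf (nat_lit 0) (nat_lit 3519108952569) (nat_lit 76) (nat_lit 3519109176297) (nat_lit 76) (nat_lit 2706140685596) (nat_lit 185) (nat_lit 4) (nat_lit 186) (nat_lit 5) (nat_lit 186)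 (nat_lit 4) (nat_lit 368) (nat_lit 336) (nat_lit 196))) (XT.nd (nat_lit 78) (nat_lit 76) (nat_lit 0) (XT.lf (nat_lit 0) (nat_lit 246353942211) (nat_lit 76) (nat_lit 246354166276) (nat_lit 152) (nat_lit 10217571303728) (nat_lit 183) (nat_lit 5) (nat_lit 184) (nat_lit 5) (nat_lit 185) (nat_lit 4) (nat_lit 369) (nat_lit 336) (nat_lit 195)) (XT.nd (nat_lit 78) (nat_lit 76) (nat_lit 0) (XT.lf (nat_lit 0) (nat_lit 4380877974018) (nat_lit 152) (nat_lit 3673949046215) (nat_lit 0) (nat_lit 3673948851122) (nat_lit 183) (nat_lit 5) (nat_lit 185) (nat_lit 4) (nat_lit 183) (nat_lit 4) (nat_lit 370) (nat_lit 336) (nat_lit 194)) (XT.lf (nat_lit 0) (nat_lit 4525701969838) (nat_lit 76) (nat_lit 4525702165153) (nat_lit 76) (nat_lit 3818773042035) (nat_lit 182) (nat_lit 4) (nat_lit 183) (nat_lit 5) (nat_lit 183) (nat_lit 4) (nat_lit 371) (nat_lit 336) (nat_lit 193))))) (XT.nd (nat_lit 156) (nat_lit 228) (nat_lit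 0) (XT.nd (nat_lit 78) (nat_lit 0) (nat_lit 0) (XT.lf (nat_lit 0) (nat_lit 214220819081) (nat_lit 76) (nat_lit 214221014589) (nat_lit 152) (nat_lit 13721348466551) (nat_lit 180) (nat_lit 5) (nat_lit 181) (nat_lit 5) (nat_lit 182) (nat_lit 4) (nat_lit 372) (nat_lit 336) (nat_lit 192)) (XT.lf (nat_lit 0) (nat_lit 5575166864534) (nat_lit 152) (nat_lit 4960446057749) (nat_lit 0) (nat_lit 4960445887596) (nat_lit 180) (nat_lit 5) (nat_lit 182) (nat_lit 4) (nat_lit 180) (nat_lit 4) (nat_lit 373) (nat_lit 336) (nat_lit 191))) (XT.nd (nat_lit 78) (nat_lit 152) (nat_lit 0) (XT.lf (nat_lit 0) (nat_lit 5873658577107) (nat_lit 76) (nat_lit 5873658747387) (nat_lit 76) (nat_lit 5258937770322) (nat_lit 179) (nat_lit 4) (nat_lit 180) (nat_lit 5) (nat_lit 180) (nat_lit 4) (nat_lit 374) (nat_lit 336) (nat_lit 190)) (XT.nd (nat_lit 78) (nat_lit 0) (nat_lit 0) (XT.lf (nat_lit 0) (nat_lit 186278972981) (nat_lit 76)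 (nat_lit 186279143370) (nat_lit 152) (nat_lit 18327883710119) (nat_lit 177) (nat_lit 5) (nat_lit 178) (nat_lit 5) (nat_lit 179) (nat_lit 4) (nat_lit 375) (nat_lit 336) (nat_lit 189)) (XT.lf (nat_lit 0) (nat_lit 7183119694656) (nat_lit 152) (nat_lit 6648579862669) (nat_lit 0) (nat_lit 6648579714421) (nat_lit 177) (nat_lit 5) (nat_lit 179) (nat_lit 4) (nat_lit 177) (nat_lit 4) (nat_lit 376) (nat_lit 336) (nat_lit 188))))))))
noncomputable def xc102 : XT := (XT.nd (nat_lit 44928) (nat_lit 0) (nat_lit 912) (XT.nd (nat_lit 44148) (nat_lit 0) (nat_lit 2356) (XT.nd (nat_lit 43758) (nat_lit 0) (nat_lit 3344) (XT.nd (nat_lit 156) (nat_lit 228) (nat_lit 0) (XT.nd (nat_lit 78) (nat_lit 152) (nat_lit 0) (XT.lf (nat_lit 0) (nat_lit 7670885400511) (nat_lit 76) (nat_lit 7670885548831) (nat_lit 76) (nat_lit 7136345568524) (nat_lit 176) (nat_lit 4) (nat_lit 177) (nat_lit 5) (nat_lit 177) (nat_lit 4) (nat_lit 377)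 (nat_lit 336) (nat_lit 187)) (XT.lf (nat_lit 0) (nat_lit 161981715559) (nat_lit 76) (nat_lit 161981863942) (nat_lit 152) (nat_lit 24396365652912) (nat_lit 174) (nat_lit 5) (nat_lit 175) (nat_lit 5) (nat_lit 176) (nat_lit 4) (nat_lit 378) (nat_lit 336) (nat_lit 186))) (XT.nd (nat_lit 78) (nat_lit 228) (nat_lit 0) (XT.lf (nat_lit 0) (nat_lit 9334424940730) (nat_lit 152) (nat_lit 8869607695524) (nat_lit 0) (nat_lit 8869607566447) (nat_lit 174) (nat_lit 5) (nat_lit 176) (nat_lit 4) (nat_lit 174) (nat_lit 4) (nat_lit 379) (nat_lit 336) (nat_lit 185)) (XT.nd (nat_lit 78) (nat_lit 152) (nat_lit 0) (XT.lf (nat_lit 0) (nat_lit 10060373709447) (nat_lit 76) (nat_lit 10060373838565) (nat_lit 76) (nat_lit 9595556464241) (nat_lit 173) (nat_lit 4) (nat_lit 174) (nat_lit 5) (nat_lit 174) (nat_lit 4) (nat_lit 380) (nat_lit 336) (nat_lit 184)) (XT.lf (nat_lit 0) (nat_lit 140853665660) (nat_lit 76) (nat_lit 140853794814)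 (nat_lit 152) (nat_lit 32401358311929) (nat_lit 171) (nat_lit 5) (nat_lit 172) (nat_lit 5) (nat_lit 173) (nat_lit 4) (nat_lit 381) (nat_lit 336) (nat_lit 183))))) (XT.nd (nat_lit 156) (nat_lit 0) (nat_lit 76) (XT.nd (nat_lit 78) (nat_lit 0) (nat_lit 0) (XT.lf (nat_lit 0) (nat_lit 109456634458) (nat_lit 380) (nat_lit 123579125747) (nat_lit 380) (nat_lit 123579125747) (nat_lit 215) (nat_lit 3) (nat_lit 220) (nat_lit 3) (nat_lit 220) (nat_lit 5) (nat_lit 337) (nat_lit 337) (nat_lit 226)) (XT.lf (nat_lit 76) (nat_lit 120153532826) (nat_lit 0) (nat_lit 120153652246) (nat_lit 380) (nat_lit 525668506579) (nat_lit 216) (nat_lit 5) (nat_lit 215) (nat_lit 3) (nat_lit 220) (nat_lit 5) (nat_lit 338) (nat_lit 337) (nat_lit 225))) (XT.nd (nat_lit 78) (nat_lit 0) (nat_lit 0) (XT.lf (nat_lit 0) (nat_lit 289941996734) (nat_lit 304) (nat_lit 266468462777) (nat_lit 380) (nat_lit 266468268634) (nat_lit 216) (nat_lit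 5) (nat_lit 220) (nat_lit 5) (nat_lit 221) (nat_lit 5) (nat_lit 339) (nat_lit 337) (nat_lit 224)) (XT.nd (nat_lit 78) (nat_lit 0) (nat_lit 76) (XT.lf (nat_lit 76) (nat_lit 180100458613) (nat_lit 0) (nat_lit 180100731276) (nat_lit 380) (nat_lit 526139156263) (nat_lit 217) (nat_lit 5) (nat_lit 216) (nat_lit 5) (nat_lit 221) (nat_lit 5) (nat_lit 340) (nat_lit 337) (nat_lit 223)) (XT.lf (nat_lit 0) (nat_lit 466053489540) (nat_lit 304) (nat_lit 244754939832) (nat_lit 76) (nat_lit 244754643360) (nat_lit 217) (nat_lit 5) (nat_lit 221) (nat_lit 5) (nat_lit 218) (nat_lit 5) (nat_lit 341) (nat_lit 337) (nat_lit 222)))))) (XT.nd (nat_lit 390) (nat_lit 456) (nat_lit 0) (XT.nd (nat_lit 156) (nat_lit 380) (nat_lit 0) (XT.nd (nat_lit 78) (nat_lit 0) (nat_lit 0) (XT.lf (nat_lit 0) (nat_lit 304483759996) (nat_lit 304) (nat_lit 304484108097) (nat_lit 380) (nat_lit 423023705111) (nat_lit 213) (nat_lit 5) (nat_lit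 217) (nat_lit 5) (nat_lit 218) (nat_lit 5) (nat_lit 342) (nat_lit 337) (nat_lit 221)) (XT.lf (nat_lit 0) (nat_lit 793463376496) (nat_lit 380) (nat_lit 161699859014) (nat_lit 76) (nat_lit 161699517279) (nat_lit 213) (nat_lit 5) (nat_lit 218) (nat_lit 5) (nat_lit 214) (nat_lit 5) (nat_lit 343) (nat_lit 337) (nat_lit 220))) (XT.nd (nat_lit 78) (nat_lit 228) (nat_lit 0) (XT.lf (nat_lit 0) (nat_lit 520849670676) (nat_lit 152) (nat_lit 520850046358) (nat_lit 228) (nat_lit 167354916395) (nat_lit 211) (nat_lit 5) (nat_lit 213) (nat_lit 5) (nat_lit 214) (nat_lit 5) (nat_lit 344) (nat_lit 337) (nat_lit 219)) (XT.nd (nat_lit 78) (nat_lit 0) (nat_lit 0) (XT.lf (nat_lit 0) (nat_lit 10147033521) (nat_lit 152) (nat_lit 10147438721) (nat_lit 228) (nat_lit 1293314419935) (nat_lit 208) (nat_lit 5) (nat_lit 210) (nat_lit 5) (nat_lit 211) (nat_lit 5) (nat_lit 345) (nat_lit 337) (nat_lit 218)) (XT.lf (nat_lit 0) (nat_lit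 280543705747) (nat_lit 228) (nat_lit 571434803776) (nat_lit 76) (nat_lit 571434429107) (nat_lit 208) (nat_lit 5) (nat_lit 211) (nat_lit 5) (nat_lit 209) (nat_lit 5) (nat_lit 346) (nat_lit 337) (nat_lit 217))))) (XT.nd (nat_lit 156) (nat_lit 304) (nat_lit 0) (XT.nd (nat_lit 78) (nat_lit 0) (nat_lit 0) (XT.lf (nat_lit 0) (nat_lit 296290954588) (nat_lit 152) (nat_lit 296291348667) (nat_lit 228) (nat_lit 955192491951) (nat_lit 206) (nat_lit 5) (nat_lit 208) (nat_lit 5) (nat_lit 209) (nat_lit 5) (nat_lit 347) (nat_lit 337) (nat_lit 216)) (XT.lf (nat_lit 0) (nat_lit 996912040668) (nat_lit 228) (nat_lit 343528222205) (nat_lit 76) (nat_lit 343527864853) (nat_lit 206) (nat_lit 5) (nat_lit 209) (nat_lit 5) (nat_lit 207) (nat_lit 4) (nat_lit 348) (nat_lit 337) (nat_lit 215))) (XT.nd (nat_lit 78) (nat_lit 228) (nat_lit 0) (XT.lf (nat_lit 0) (nat_lit 753602523229) (nat_lit 76) (nat_lit 753602893344) (nat_lit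 152) (nat_lit 326587916868) (nat_lit 205) (nat_lit 5) (nat_lit 206) (nat_lit 5) (nat_lit 207) (nat_lit 4) (nat_lit 349) (nat_lit 337) (nat_lit 214)) (XT.nd (nat_lit 78) (nat_lit 0) (nat_lit 0) (XT.lf (nat_lit 0) (nat_lit 50511992136) (nat_lit 152) (nat_lit 50512373348) (nat_lit 228) (nat_lit 1901386101297) (nat_lit 202) (nat_lit 5) (nat_lit 204) (nat_lit 5) (nat_lit 205) (nat_lit 5) (nat_lit 350) (nat_lit 337) (nat_lit 213)) (XT.lf (nat_lit 0) (nat_lit 649884298851) (nat_lit 228) (nat_lit 765261055860) (nat_lit 76) (nat_lit 765260715981) (nat_lit 202) (nat_lit 5) (nat_lit 205) (nat_lit 5) (nat_lit 203) (nat_lit 4) (nat_lit 351) (nat_lit 337) (nat_lit 212))))))) (XT.nd (nat_lit 780) (nat_lit 684) (nat_lit 0) (XT.nd (nat_lit 390) (nat_lit 456) (nat_lit 0) (XT.nd (nat_lit 156) (nat_lit 228) (nat_lit 0) (XT.nd (nat_lit 78) (nat_lit 0) (nat_lit 0) (XT.lf (nat_lit 0) (nat_lit 655306533109) (nat_lit 76)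 (nat_lit 655306880285) (nat_lit 152) (nat_lit 1070056573122) (nat_lit 201) (nat_lit 5) (nat_lit 202) (nat_lit 5) (nat_lit 203) (nat_lit 4) (nat_lit 352) (nat_lit 337) (nat_lit 211)) (XT.lf (nat_lit 0) (nat_lit 2121406966356) (nat_lit 152) (nat_lit 240961785040) (nat_lit 0) (nat_lit 240961477630) (nat_lit 201) (nat_lit 5) (nat_lit 203) (nat_lit 4) (nat_lit 201) (nat_lit 4) (nat_lit 353) (nat_lit 337) (nat_lit 210))) (XT.nd (nat_lit 78) (nat_lit 76) (nat_lit 0) (XT.lf (nat_lit 0) (nat_lit 278139913128) (nat_lit 152) (nat_lit 1282444680295) (nat_lit 76) (nat_lit 1282444368088) (nat_lit 199) (nat_lit 5) (nat_lit 201) (nat_lit 5) (nat_lit 200) (nat_lit 4) (nat_lit 354) (nat_lit 337) (nat_lit 209)) (XT.nd (nat_lit 78) (nat_lit 0) (nat_lit 0) (XT.lf (nat_lit 0) (nat_lit 569831762872) (nat_lit 76) (nat_lit 569832079251) (nat_lit 152) (nat_lit 1970057696812) (nat_lit 198) (nat_lit 5) (nat_lit 199) (nat_lit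 5) (nat_lit 200) (nat_lit 4) (nat_lit 355) (nat_lit 337) (nat_lit 208)) (XT.lf (nat_lit 0) (nat_lit 2224228628913) (nat_lit 152) (nat_lit 589058906030) (nat_lit 0) (nat_lit 589058627763) (nat_lit 198) (nat_lit 5) (nat_lit 200) (nat_lit 4) (nat_lit 198) (nat_lit 4) (nat_lit 356) (nat_lit 337) (nat_lit 207))))) (XT.nd (nat_lit 156) (nat_lit 228) (nat_lit 0) (XT.nd (nat_lit 78) (nat_lit 152) (nat_lit 0) (XT.lf (nat_lit 0) (nat_lit 1786289575704) (nat_lit 76) (nat_lit 1786289856714) (nat_lit 76) (nat_lit 151119852821) (nat_lit 197) (nat_lit 4) (nat_lit 198) (nat_lit 5) (nat_lit 198) (nat_lit 4) (nat_lit 357) (nat_lit 337) (nat_lit 206)) (XT.lf (nat_lit 0) (nat_lit 495505877872) (nat_lit 76) (nat_lit 495506161267) (nat_lit 152) (nat_lit 3087929898135) (nat_lit 195) (nat_lit 5) (nat_lit 196) (nat_lit 5) (nat_lit 197) (nat_lit 4) (nat_lit 358) (nat_lit 337) (nat_lit 205))) (XT.nd (nat_lit 78) (nat_lit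 228) (nat_lit 0) (XT.lf (nat_lit 0) (nat_lit 2436036199047) (nat_lit 152) (nat_lit 1014149483496) (nat_lit 0) (nat_lit 1014149235262) (nat_lit 195) (nat_lit 5) (nat_lit 197) (nat_lit 4) (nat_lit 195) (nat_lit 4) (nat_lit 359) (nat_lit 337) (nat_lit 204)) (XT.nd (nat_lit 78) (nat_lit 152) (nat_lit 0) (XT.lf (nat_lit 0) (nat_lit 2104271324586) (nat_lit 76) (nat_lit 2104271574388) (nat_lit 76) (nat_lit 682384609035) (nat_lit 194) (nat_lit 4) (nat_lit 195) (nat_lit 5) (nat_lit 195) (nat_lit 4) (nat_lit 360) (nat_lit 337) (nat_lit 203)) (XT.lf (nat_lit 0) (nat_lit 430874674760) (nat_lit 76) (nat_lit 430874925926) (nat_lit 152) (nat_lit 4503377374279) (nat_lit 192) (nat_lit 5) (nat_lit 193) (nat_lit 5) (nat_lit 194) (nat_lit 4) (nat_lit 361) (nat_lit 337) (nat_lit 202)))))) (XT.nd (nat_lit 390) (nat_lit 380) (nat_lit 0) (XT.nd (nat_lit 156) (nat_lit 228) (nat_lit 0) (XT.nd (nat_lit 78) (nat_lit 76) (nat_lit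 0) (XT.lf (nat_lit 0) (nat_lit 2782087295493) (nat_lit 152) (nat_lit 1545664064580) (nat_lit 0) (nat_lit 1545663845143) (nat_lit 192) (nat_lit 5) (nat_lit 194) (nat_lit 4) (nat_lit 192) (nat_lit 4) (nat_lit 362) (nat_lit 337) (nat_lit 201)) (XT.lf (nat_lit 0) (nat_lit 2558466967944) (nat_lit 76) (nat_lit 2558467188277) (nat_lit 76) (nat_lit 1322043737030) (nat_lit 191) (nat_lit 4) (nat_lit 192) (nat_lit 5) (nat_lit 192) (nat_lit 4) (nat_lit 363) (nat_lit 337) (nat_lit 200))) (XT.nd (nat_lit 78) (nat_lit 76) (nat_lit 0) (XT.lf (nat_lit 0) (nat_lit 374673629282) (nat_lit 76) (nat_lit 374673850396) (nat_lit 152) (nat_lit 6320577521326) (nat_lit 189) (nat_lit 5) (nat_lit 190) (nat_lit 5) (nat_lit 191) (nat_lit 4) (nat_lit 364) (nat_lit 337) (nat_lit 199)) (XT.nd (nat_lit 78) (nat_lit 76) (nat_lit 0) (XT.lf (nat_lit 0) (nat_lit 3297075162440) (nat_lit 152) (nat_lit 2221924526863) (nat_lit 0) (nat_lit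 2221924334001) (nat_lit 189) (nat_lit 5) (nat_lit 191) (nat_lit 4) (nat_lit 189) (nat_lit 4) (nat_lit 365) (nat_lit 337) (nat_lit 198)) (XT.lf (nat_lit 0) (nat_lit 3188414427815) (nat_lit 76) (nat_lit 3188414621190) (nat_lit 76) (nat_lit 2113263792238) (nat_lit 188) (nat_lit 4) (nat_lit 189) (nat_lit 5) (nat_lit 189) (nat_lit 4) (nat_lit 366) (nat_lit 337) (nat_lit 197))))) (XT.nd (nat_lit 156) (nat_lit 228) (nat_lit 0) (XT.nd (nat_lit 78) (nat_lit 0) (nat_lit 0) (XT.lf (nat_lit 0) (nat_lit 325803155358) (nat_lit 76) (nat_lit 325803349179) (nat_lit 152) (nat_lit 8676234158613) (nat_lit 186) (nat_lit 5) (nat_lit 187) (nat_lit 5) (nat_lit 188) (nat_lit 4) (nat_lit 367) (nat_lit 337) (nat_lit 196)) (XT.lf (nat_lit 0) (nat_lit 4028003392405) (nat_lit 152) (nat_lit 3093089796251) (nat_lit 0) (nat_lit 3093089627374) (nat_lit 186) (nat_lit 5) (nat_lit 188) (nat_lit 4) (nat_lit 186) (nat_lit 4) (nat_lit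 368) (nat_lit 337) (nat_lit 195))) (XT.nd (nat_lit 78) (nat_lit 152) (nat_lit 0) (XT.lf (nat_lit 0) (nat_lit 4046975353173) (nat_lit 76) (nat_lit 4046975522342) (nat_lit 76) (nat_lit 3112061757019) (nat_lit 185) (nat_lit 4) (nat_lit 186) (nat_lit 5) (nat_lit 186) (nat_lit 4) (nat_lit 369) (nat_lit 337) (nat_lit 194)) (XT.nd (nat_lit 78) (nat_lit 0) (nat_lit 0) (XT.lf (nat_lit 0) (nat_lit 283307091307) (nat_lit 76) (nat_lit 283307260732) (nat_lit 152) (nat_lit 11750206967917) (nat_lit 183) (nat_lit 5) (nat_lit 184) (nat_lit 5) (nat_lit 185) (nat_lit 4) (nat_lit 370) (nat_lit 337) (nat_lit 193)) (XT.lf (nat_lit 0) (nat_lit 5038009694939) (nat_lit 152) (nat_lit 4225041350458) (nat_lit 0) (nat_lit 4225041202939) (nat_lit 183) (nat_lit 5) (nat_lit 185) (nat_lit 4) (nat_lit 183) (nat_lit 4) (nat_lit 371) (nat_lit 337) (nat_lit 192))))))))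
noncomputable def xc103 : XT := (XT.nd (nat_lit 45006) (nat_lit 0) (nat_lit 1140) (XT.nd (nat_lit 44226) (nat_lit 0) (nat_lit 2660) (XT.nd (nat_lit 390) (nat_lit 304) (nat_lit 0) (XT.nd (nat_lit 156) (nat_lit 228) (nat_lit 0) (XT.nd (nat_lit 78) (nat_lit 152) (nat_lit 0) (XT.lf (nat_lit 0) (nat_lit 5204557315608) (nat_lit 76) (nat_lit 5204557463295) (nat_lit 76) (nat_lit 4391588971127) (nat_lit 182) (nat_lit 4) (nat_lit 183) (nat_lit 5) (nat_lit 183) (nat_lit 4) (nat_lit 372) (nat_lit 337) (nat_lit 191)) (XT.lf (nat_lit 0) (nat_lit 246353992265) (nat_lit 76) (nat_lit 246354140097) (nat_lit 152) (nat_lit 15779550709347) (nat_lit 180) (nat_lit 5) (nat_lit 181) (nat_lit 5) (nat_lit 182) (nat_lit 4) (nat_lit 373) (nat_lit 337) (nat_lit 190))) (XT.nd (nat_lit 78) (nat_lit 228) (nat_lit 0) (XT.lf (nat_lit 0) (nat_lit 6411441915732) (nat_lit 152) (nat_lit 5704512920531) (nat_lit 0) (nat_lit 5704512791871)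 (nat_lit 180) (nat_lit 5) (nat_lit 182) (nat_lit 4) (nat_lit 180) (nat_lit 4) (nat_lit 374) (nat_lit 337) (nat_lit 189)) (XT.nd (nat_lit 78) (nat_lit 152) (nat_lit 0) (XT.lf (nat_lit 0) (nat_lit 6754707407469) (nat_lit 76) (nat_lit 6754707536224) (nat_lit 76) (nat_lit 6047778412267) (nat_lit 179) (nat_lit 4) (nat_lit 180) (nat_lit 5) (nat_lit 180) (nat_lit 4) (nat_lit 375) (nat_lit 337) (nat_lit 188)) (XT.lf (nat_lit 0) (nat_lit 214220862738) (nat_lit 76) (nat_lit 214220991577) (nat_lit 152) (nat_lit 21077066243049) (nat_lit 177) (nat_lit 5) (nat_lit 178) (nat_lit 5) (nat_lit 179) (nat_lit 4) (nat_lit 376) (nat_lit 337) (nat_lit 187))))) (XT.nd (nat_lit 156) (nat_lit 228) (nat_lit 0) (XT.nd (nat_lit 78) (nat_lit 76) (nat_lit 0) (XT.lf (nat_lit 0) (nat_lit 8260587667529) (nat_lit 152) (nat_lit 7645866802137) (nat_lit 0) (nat_lit 7645866690040) (nat_lit 177) (nat_lit 5) (nat_lit 179) (nat_lit 4)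 (nat_lit 177) (nat_lit 4) (nat_lit 377) (nat_lit 337) (nat_lit 186)) (XT.lf (nat_lit 0) (nat_lit 8821518248705) (nat_lit 76) (nat_lit 8821518360856) (nat_lit 76) (nat_lit 8206797383312) (nat_lit 176) (nat_lit 4) (nat_lit 177) (nat_lit 5) (nat_lit 177) (nat_lit 4) (nat_lit 378) (nat_lit 337) (nat_lit 185))) (XT.nd (nat_lit 78) (nat_lit 76) (nat_lit 0) (XT.lf (nat_lit 0) (nat_lit 186279011019) (nat_lit 76) (nat_lit 186279123218) (nat_lit 152) (nat_lit 28055820480368) (nat_lit 174) (nat_lit 5) (nat_lit 175) (nat_lit 5) (nat_lit 176) (nat_lit 4) (nat_lit 379) (nat_lit 337) (nat_lit 184)) (XT.nd (nat_lit 78) (nat_lit 76) (nat_lit 0) (XT.lf (nat_lit 0) (nat_lit 10734588698058) (nat_lit 152) (nat_lit 10200048815108) (nat_lit 0) (nat_lit 10200048717508) (nat_lit 174) (nat_lit 5) (nat_lit 176) (nat_lit 4) (nat_lit 174) (nat_lit 4) (nat_lit 380) (nat_lit 337) (nat_lit 183)) (XT.lf (nat_lit 0) (nat_lit 11569429799029)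 (nat_lit 76) (nat_lit 11569429896661) (nat_lit 76) (nat_lit 11034889916079) (nat_lit 173) (nat_lit 4) (nat_lit 174) (nat_lit 5) (nat_lit 174) (nat_lit 4) (nat_lit 381) (nat_lit 337) (nat_lit 182)))))) (XT.nd (nat_lit 390) (nat_lit 532) (nat_lit 0) (XT.nd (nat_lit 156) (nat_lit 0) (nat_lit 76) (XT.nd (nat_lit 78) (nat_lit 0) (nat_lit 0) (XT.lf (nat_lit 0) (nat_lit 125875244102) (nat_lit 380) (nat_lit 142115928786) (nat_lit 380) (nat_lit 142115928786) (nat_lit 215) (nat_lit 3) (nat_lit 220) (nat_lit 3) (nat_lit 220) (nat_lit 5) (nat_lit 338) (nat_lit 338) (nat_lit 224)) (XT.lf (nat_lit 76) (nat_lit 138176688412) (nat_lit 0) (nat_lit 138176778711) (nat_lit 380) (nat_lit 604518547631) (nat_lit 216) (nat_lit 5) (nat_lit 215) (nat_lit 3) (nat_lit 220) (nat_lit 5) (nat_lit 339) (nat_lit 338) (nat_lit 223))) (XT.nd (nat_lit 78) (nat_lit 0) (nat_lit 0) (XT.lf (nat_lit 0) (nat_lit 333433471058) (nat_lit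 304) (nat_lit 306438593443) (nat_lit 380) (nat_lit 306438446644) (nat_lit 216) (nat_lit 5) (nat_lit 220) (nat_lit 5) (nat_lit 221) (nat_lit 5) (nat_lit 340) (nat_lit 338) (nat_lit 222)) (XT.nd (nat_lit 78) (nat_lit 0) (nat_lit 76) (XT.lf (nat_lit 76) (nat_lit 207115659848) (nat_lit 0) (nat_lit 207115866021) (nat_lit 380) (nat_lit 605059848583) (nat_lit 217) (nat_lit 5) (nat_lit 216) (nat_lit 5) (nat_lit 221) (nat_lit 5) (nat_lit 341) (nat_lit 338) (nat_lit 221)) (XT.lf (nat_lit 0) (nat_lit 535961649022) (nat_lit 304) (nat_lit 281468044194) (nat_lit 76) (nat_lit 281467820018) (nat_lit 217) (nat_lit 5) (nat_lit 221) (nat_lit 5) (nat_lit 218) (nat_lit 5) (nat_lit 342) (nat_lit 338) (nat_lit 220))))) (XT.nd (nat_lit 156) (nat_lit 380) (nat_lit 0) (XT.nd (nat_lit 78) (nat_lit 0) (nat_lit 0) (XT.lf (nat_lit 0) (nat_lit 350156454399) (nat_lit 304) (nat_lit 350156717614) (nat_lit 380) (nat_lit 486477118617)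 (nat_lit 213) (nat_lit 5) (nat_lit 217) (nat_lit 5) (nat_lit 218) (nat_lit 5) (nat_lit 343) (nat_lit 338) (nat_lit 219)) (XT.lf (nat_lit 0) (nat_lit 912482990782) (nat_lit 380) (nat_lit 185954708578) (nat_lit 76) (nat_lit 185954450177) (nat_lit 213) (nat_lit 5) (nat_lit 218) (nat_lit 5) (nat_lit 214) (nat_lit 5) (nat_lit 344) (nat_lit 338) (nat_lit 218))) (XT.nd (nat_lit 78) (nat_lit 228) (nat_lit 0) (XT.lf (nat_lit 0) (nat_lit 598977244690) (nat_lit 152) (nat_lit 598977528759) (nat_lit 228) (nat_lit 192458040167) (nat_lit 211) (nat_lit 5) (nat_lit 213) (nat_lit 5) (nat_lit 214) (nat_lit 5) (nat_lit 345) (nat_lit 338) (nat_lit 217)) (XT.nd (nat_lit 78) (nat_lit 0) (nat_lit 0) (XT.lf (nat_lit 0) (nat_lit 11669216012) (nat_lit 152) (nat_lit 11669522402) (nat_lit 228) (nat_lit 1487311473289) (nat_lit 208) (nat_lit 5) (nat_lit 210) (nat_lit 5) (nat_lit 211) (nat_lit 5) (nat_lit 346) (nat_lit 338) (nat_lit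 216)) (XT.lf (nat_lit 0) (nat_lit 322625345667) (nat_lit 228) (nat_lit 657149902227) (nat_lit 76) (nat_lit 657149618923) (nat_lit 208) (nat_lit 5) (nat_lit 211) (nat_lit 5) (nat_lit 209) (nat_lit 5) (nat_lit 347) (nat_lit 338) (nat_lit 215))))))) (XT.nd (nat_lit 780) (nat_lit 760) (nat_lit 0) (XT.nd (nat_lit 390) (nat_lit 304) (nat_lit 0) (XT.nd (nat_lit 156) (nat_lit 304) (nat_lit 0) (XT.nd (nat_lit 78) (nat_lit 0) (nat_lit 0) (XT.lf (nat_lit 0) (nat_lit 340734714342) (nat_lit 152) (nat_lit 340735012322) (nat_lit 228) (nat_lit 1098471276135) (nat_lit 206) (nat_lit 5) (nat_lit 208) (nat_lit 5) (nat_lit 209) (nat_lit 5) (nat_lit 348) (nat_lit 338) (nat_lit 214)) (XT.lf (nat_lit 0) (nat_lit 1146448915916) (nat_lit 228) (nat_lit 395057345403) (nat_lit 76) (nat_lit 395057075193) (nat_lit 206) (nat_lit 5) (nat_lit 209) (nat_lit 5) (nat_lit 207) (nat_lit 4) (nat_lit 349) (nat_lit 338) (nat_lit 213)))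 (XT.nd (nat_lit 78) (nat_lit 228) (nat_lit 0) (XT.lf (nat_lit 0) (nat_lit 866643006840) (nat_lit 76) (nat_lit 866643286700) (nat_lit 152) (nat_lit 375576030245) (nat_lit 205) (nat_lit 5) (nat_lit 206) (nat_lit 5) (nat_lit 207) (nat_lit 4) (nat_lit 350) (nat_lit 338) (nat_lit 212)) (XT.nd (nat_lit 78) (nat_lit 0) (nat_lit 0) (XT.lf (nat_lit 0) (nat_lit 58088897606) (nat_lit 152) (nat_lit 58089185857) (nat_lit 228) (nat_lit 2186593943861) (nat_lit 202) (nat_lit 5) (nat_lit 204) (nat_lit 5) (nat_lit 205) (nat_lit 5) (nat_lit 351) (nat_lit 338) (nat_lit 211)) (XT.lf (nat_lit 0) (nat_lit 747367000165) (nat_lit 228) (nat_lit 880050114829) (nat_lit 76) (nat_lit 880049857831) (nat_lit 202) (nat_lit 5) (nat_lit 205) (nat_lit 5) (nat_lit 203) (nat_lit 4) (nat_lit 352) (nat_lit 338) (nat_lit 210))))) (XT.nd (nat_lit 156) (nat_lit 228) (nat_lit 0) (XT.nd (nat_lit 78) (nat_lit 0) (nat_lit 0) (XT.lf (nat_lit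 0) (nat_lit 753602607967) (nat_lit 76) (nat_lit 753602870482) (nat_lit 152) (nat_lit 1230564998086) (nat_lit 201) (nat_lit 5) (nat_lit 202) (nat_lit 5) (nat_lit 203) (nat_lit 4) (nat_lit 353) (nat_lit 338) (nat_lit 209)) (XT.lf (nat_lit 0) (nat_lit 2439618058944) (nat_lit 152) (nat_lit 277105964869) (nat_lit 0) (nat_lit 277105732423) (nat_lit 201) (nat_lit 5) (nat_lit 203) (nat_lit 4) (nat_lit 201) (nat_lit 4) (nat_lit 354) (nat_lit 338) (nat_lit 208))) (XT.nd (nat_lit 78) (nat_lit 76) (nat_lit 0) (XT.lf (nat_lit 0) (nat_lit 319860947132) (nat_lit 152) (nat_lit 1474811293812) (nat_lit 76) (nat_lit 1474811057738) (nat_lit 199) (nat_lit 5) (nat_lit 201) (nat_lit 5) (nat_lit 200) (nat_lit 4) (nat_lit 355) (nat_lit 338) (nat_lit 207)) (XT.nd (nat_lit 78) (nat_lit 0) (nat_lit 0) (XT.lf (nat_lit 0) (nat_lit 655306611806) (nat_lit 76) (nat_lit 655306851034) (nat_lit 152) (nat_lit 2265566300275) (nat_lit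 198) (nat_lit 5) (nat_lit 199) (nat_lit 5) (nat_lit 200) (nat_lit 4) (nat_lit 356) (nat_lit 338) (nat_lit 206)) (XT.lf (nat_lit 0) (nat_lit 2557862963302) (nat_lit 152) (nat_lit 677417664106) (nat_lit 0) (nat_lit 677417453696) (nat_lit 198) (nat_lit 5) (nat_lit 200) (nat_lit 4) (nat_lit 198) (nat_lit 4) (nat_lit 357) (nat_lit 338) (nat_lit 205)))))) (XT.nd (nat_lit 390) (nat_lit 304) (nat_lit 0) (XT.nd (nat_lit 156) (nat_lit 228) (nat_lit 0) (XT.nd (nat_lit 78) (nat_lit 152) (nat_lit 0) (XT.lf (nat_lit 0) (nat_lit 2054233086350) (nat_lit 76) (nat_lit 2054233298834) (nat_lit 76) (nat_lit 173787787155) (nat_lit 197) (nat_lit 4) (nat_lit 198) (nat_lit 5) (nat_lit 198) (nat_lit 4) (nat_lit 358) (nat_lit 338) (nat_lit 204)) (XT.lf (nat_lit 0) (nat_lit 569831834171) (nat_lit 76) (nat_lit 569832048458) (nat_lit 152) (nat_lit 3551119339594) (nat_lit 195) (nat_lit 5) (nat_lit 196) (nat_lit 5) (nat_lit 197)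 (nat_lit 4) (nat_lit 359) (nat_lit 338) (nat_lit 203))) (XT.nd (nat_lit 78) (nat_lit 228) (nat_lit 0) (XT.lf (nat_lit 0) (nat_lit 2801441662948) (nat_lit 152) (nat_lit 1166271837561) (nat_lit 0) (nat_lit 1166271649860) (nat_lit 195) (nat_lit 5) (nat_lit 197) (nat_lit 4) (nat_lit 195) (nat_lit 4) (nat_lit 360) (nat_lit 338) (nat_lit 202)) (XT.nd (nat_lit 78) (nat_lit 152) (nat_lit 0) (XT.lf (nat_lit 0) (nat_lit 2419912088622) (nat_lit 76) (nat_lit 2419912277508) (nat_lit 76) (nat_lit 784742263234) (nat_lit 194) (nat_lit 4) (nat_lit 195) (nat_lit 5) (nat_lit 195) (nat_lit 4) (nat_lit 361) (nat_lit 338) (nat_lit 201)) (XT.lf (nat_lit 0) (nat_lit 495505941509) (nat_lit 76) (nat_lit 495506131427) (nat_lit 152) (nat_lit 5178883943451) (nat_lit 192) (nat_lit 5) (nat_lit 193) (nat_lit 5) (nat_lit 194) (nat_lit 4) (nat_lit 362) (nat_lit 338) (nat_lit 200))))) (XT.nd (nat_lit 156) (nat_lit 228) (nat_lit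 0) (XT.nd (nat_lit 78) (nat_lit 76) (nat_lit 0) (XT.lf (nat_lit 0) (nat_lit 3199400418974) (nat_lit 152) (nat_lit 1777513614289) (nat_lit 0) (nat_lit 1777513448363) (nat_lit 192) (nat_lit 5) (nat_lit 194) (nat_lit 4) (nat_lit 192) (nat_lit 4) (nat_lit 363) (nat_lit 338) (nat_lit 199)) (XT.lf (nat_lit 0) (nat_lit 2942237070387) (nat_lit 76) (nat_lit 2942237236991) (nat_lit 76) (nat_lit 1520350265702) (nat_lit 191) (nat_lit 4) (nat_lit 192) (nat_lit 5) (nat_lit 192) (nat_lit 4) (nat_lit 364) (nat_lit 338) (nat_lit 198))) (XT.nd (nat_lit 78) (nat_lit 76) (nat_lit 0) (XT.lf (nat_lit 0) (nat_lit 430874731034) (nat_lit 76) (nat_lit 430874898227) (nat_lit 152) (nat_lit 7268664117750) (nat_lit 189) (nat_lit 5) (nat_lit 190) (nat_lit 5) (nat_lit 191) (nat_lit 4) (nat_lit 365) (nat_lit 338) (nat_lit 197)) (XT.nd (nat_lit 78) (nat_lit 76) (nat_lit 0) (XT.lf (nat_lit 0) (nat_lit 3791636461904) (nat_lit 152)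 (nat_lit 2555213153482) (nat_lit 0) (nat_lit 2555213007651) (nat_lit 189) (nat_lit 5) (nat_lit 191) (nat_lit 4) (nat_lit 189) (nat_lit 4) (nat_lit 366) (nat_lit 338) (nat_lit 196)) (XT.lf (nat_lit 0) (nat_lit 3666676642016) (nat_lit 76) (nat_lit 3666676788235) (nat_lit 76) (nat_lit 2430253333594) (nat_lit 188) (nat_lit 4) (nat_lit 189) (nat_lit 5) (nat_lit 189) (nat_lit 4) (nat_lit 367) (nat_lit 338) (nat_lit 195))))))))
noncomputable def xc104 : XT := (XT.nd (nat_lit 45084) (nat_lit 0) (nat_lit 1368) (XT.nd (nat_lit 780) (nat_lit 228) (nat_lit 0) (XT.nd (nat_lit 390) (nat_lit 456) (nat_lit 0) (XT.nd (nat_lit 156) (nat_lit 228) (nat_lit 0) (XT.nd (nat_lit 78) (nat_lit 0) (nat_lit 0) (XT.lf (nat_lit 0) (nat_lit 374673678752) (nat_lit 76) (nat_lit 374673825308) (nat_lit 152) (nat_lit 9977669254986) (nat_lit 186) (nat_lit 5) (nat_lit 187) (nat_lit 5) (nat_lit 188) (nat_lit 4) (nat_lit 368) (nat_lit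 338) (nat_lit 194)) (XT.lf (nat_lit 0) (nat_lit 4632203922943) (nat_lit 152) (nat_lit 3557053219968) (nat_lit 0) (nat_lit 3557053092273) (nat_lit 186) (nat_lit 5) (nat_lit 188) (nat_lit 4) (nat_lit 186) (nat_lit 4) (nat_lit 369) (nat_lit 338) (nat_lit 193))) (XT.nd (nat_lit 78) (nat_lit 152) (nat_lit 0) (XT.lf (nat_lit 0) (nat_lit 4654021699791) (nat_lit 76) (nat_lit 4654021827708) (nat_lit 76) (nat_lit 3578870996816) (nat_lit 185) (nat_lit 4) (nat_lit 186) (nat_lit 5) (nat_lit 186) (nat_lit 4) (nat_lit 370) (nat_lit 338) (nat_lit 192)) (XT.nd (nat_lit 78) (nat_lit 0) (nat_lit 0) (XT.lf (nat_lit 0) (nat_lit 325803198681) (nat_lit 76) (nat_lit 325803326791) (nat_lit 152) (nat_lit 13512737989384) (nat_lit 183) (nat_lit 5) (nat_lit 184) (nat_lit 5) (nat_lit 185) (nat_lit 4) (nat_lit 371) (nat_lit 338) (nat_lit 191)) (XT.lf (nat_lit 0) (nat_lit 5793711167947) (nat_lit 152) (nat_lit 4858797513186) (nat_lit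 0) (nat_lit 4858797401640) (nat_lit 183) (nat_lit 5) (nat_lit 185) (nat_lit 4) (nat_lit 183) (nat_lit 4) (nat_lit 372) (nat_lit 338) (nat_lit 190))))) (XT.nd (nat_lit 156) (nat_lit 228) (nat_lit 0) (XT.nd (nat_lit 78) (nat_lit 152) (nat_lit 0) (XT.lf (nat_lit 0) (nat_lit 5985240950980) (nat_lit 76) (nat_lit 5985241062652) (nat_lit 76) (nat_lit 5050327296219) (nat_lit 182) (nat_lit 4) (nat_lit 183) (nat_lit 5) (nat_lit 183) (nat_lit 4) (nat_lit 373) (nat_lit 338) (nat_lit 189)) (XT.lf (nat_lit 0) (nat_lit 283307129154) (nat_lit 76) (nat_lit 283307240937) (nat_lit 152) (nat_lit 18146483295192) (nat_lit 180) (nat_lit 5) (nat_lit 181) (nat_lit 5) (nat_lit 182) (nat_lit 4) (nat_lit 374) (nat_lit 338) (nat_lit 188))) (XT.nd (nat_lit 78) (nat_lit 228) (nat_lit 0) (XT.lf (nat_lit 0) (nat_lit 7373158219362) (nat_lit 152) (nat_lit 6560189823918) (nat_lit 0) (nat_lit 6560189726633) (nat_lit 180) (nat_lit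 5) (nat_lit 182) (nat_lit 4) (nat_lit 180) (nat_lit 4) (nat_lit 375) (nat_lit 338) (nat_lit 187)) (XT.nd (nat_lit 78) (nat_lit 152) (nat_lit 0) (XT.lf (nat_lit 0) (nat_lit 7767913551704) (nat_lit 76) (nat_lit 7767913649062) (nat_lit 76) (nat_lit 6954945156260) (nat_lit 179) (nat_lit 4) (nat_lit 180) (nat_lit 5) (nat_lit 180) (nat_lit 4) (nat_lit 376) (nat_lit 338) (nat_lit 186)) (XT.lf (nat_lit 0) (nat_lit 246354025275) (nat_lit 76) (nat_lit 246354122696) (nat_lit 152) (nat_lit 24238626161671) (nat_lit 177) (nat_lit 5) (nat_lit 178) (nat_lit 5) (nat_lit 179) (nat_lit 4) (nat_lit 377) (nat_lit 338) (nat_lit 185)))))) (XT.nd (nat_lit 43914) (nat_lit 0) (nat_lit 2964) (XT.nd (nat_lit 156) (nat_lit 152) (nat_lit 0) (XT.nd (nat_lit 78) (nat_lit 76) (nat_lit 0) (XT.lf (nat_lit 0) (nat_lit 9499675831780) (nat_lit 152) (nat_lit 8792746792263) (nat_lit 0) (nat_lit 8792746707501) (nat_lit 177) (nat_lit 5)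 (nat_lit 179) (nat_lit 4) (nat_lit 177) (nat_lit 4) (nat_lit 378) (nat_lit 338) (nat_lit 184)) (XT.lf (nat_lit 0) (nat_lit 10144746014833) (nat_lit 76) (nat_lit 10144746099635) (nat_lit 76) (nat_lit 9437816975316) (nat_lit 176) (nat_lit 4) (nat_lit 177) (nat_lit 5) (nat_lit 177) (nat_lit 4) (nat_lit 379) (nat_lit 338) (nat_lit 183))) (XT.nd (nat_lit 78) (nat_lit 0) (nat_lit 0) (XT.lf (nat_lit 0) (nat_lit 214220891500) (nat_lit 76) (nat_lit 214220976339) (nat_lit 152) (nat_lit 32264193536936) (nat_lit 174) (nat_lit 5) (nat_lit 175) (nat_lit 5) (nat_lit 176) (nat_lit 4) (nat_lit 380) (nat_lit 338) (nat_lit 182)) (XT.nd (nat_lit 43602) (nat_lit 0) (nat_lit 3116) (XT.lf (nat_lit 0) (nat_lit 12344777015031) (nat_lit 152) (nat_lit 11730056111103) (nat_lit 0) (nat_lit 11730056037303) (nat_lit 174) (nat_lit 5) (nat_lit 176) (nat_lit 4) (nat_lit 174) (nat_lit 4) (nat_lit 381) (nat_lit 338) (nat_lit 181))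 (XT.lf (nat_lit 0) (nat_lit 144756617278) (nat_lit 380) (nat_lit 163433268332) (nat_lit 380) (nat_lit 163433268332) (nat_lit 215) (nat_lit 3) (nat_lit 220) (nat_lit 3) (nat_lit 220) (nat_lit 5) (nat_lit 339) (nat_lit 339) (nat_lit 222))))) (XT.nd (nat_lit 156) (nat_lit 152) (nat_lit 0) (XT.nd (nat_lit 78) (nat_lit 0) (nat_lit 76) (XT.lf (nat_lit 76) (nat_lit 158903286694) (nat_lit 0) (nat_lit 158903354973) (nat_lit 380) (nat_lit 695196152131) (nat_lit 216) (nat_lit 5) (nat_lit 215) (nat_lit 3) (nat_lit 220) (nat_lit 5) (nat_lit 340) (nat_lit 339) (nat_lit 221)) (XT.lf (nat_lit 0) (nat_lit 383448623901) (nat_lit 304) (nat_lit 352404277545) (nat_lit 380) (nat_lit 352404166543) (nat_lit 216) (nat_lit 5) (nat_lit 220) (nat_lit 5) (nat_lit 221) (nat_lit 5) (nat_lit 341) (nat_lit 339) (nat_lit 220))) (XT.nd (nat_lit 78) (nat_lit 228) (nat_lit 0) (XT.lf (nat_lit 76) (nat_lit 238183108971) (nat_lit 0)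 (nat_lit 238183264867) (nat_lit 380) (nat_lit 695818688917) (nat_lit 217) (nat_lit 5) (nat_lit 216) (nat_lit 5) (nat_lit 221) (nat_lit 5) (nat_lit 342) (nat_lit 339) (nat_lit 219)) (XT.nd (nat_lit 78) (nat_lit 304) (nat_lit 0) (XT.lf (nat_lit 0) (nat_lit 616355999249) (nat_lit 304) (nat_lit 323688147524) (nat_lit 76) (nat_lit 323687978015) (nat_lit 217) (nat_lit 5) (nat_lit 221) (nat_lit 5) (nat_lit 218) (nat_lit 5) (nat_lit 343) (nat_lit 339) (nat_lit 218)) (XT.lf (nat_lit 0) (nat_lit 402680021163) (nat_lit 304) (nat_lit 402680220191) (nat_lit 380) (nat_lit 559448578841) (nat_lit 213) (nat_lit 5) (nat_lit 217) (nat_lit 5) (nat_lit 218) (nat_lit 5) (nat_lit 344) (nat_lit 339) (nat_lit 217))))))) (XT.nd (nat_lit 780) (nat_lit 684) (nat_lit 0) (XT.nd (nat_lit 390) (nat_lit 380) (nat_lit 0) (XT.nd (nat_lit 156) (nat_lit 380) (nat_lit 0) (XT.nd (nat_lit 78) (nat_lit 152) (nat_lit 0) (XT.lf (nat_lit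 0) (nat_lit 1049355520919) (nat_lit 380) (nat_lit 213847817104) (nat_lit 76) (nat_lit 213847621716) (nat_lit 213) (nat_lit 5) (nat_lit 218) (nat_lit 5) (nat_lit 214) (nat_lit 5) (nat_lit 345) (nat_lit 339) (nat_lit 216)) (XT.lf (nat_lit 0) (nat_lit 688823924710) (nat_lit 152) (nat_lit 688824139507) (nat_lit 228) (nat_lit 221326660228) (nat_lit 211) (nat_lit 5) (nat_lit 213) (nat_lit 5) (nat_lit 214) (nat_lit 5) (nat_lit 346) (nat_lit 339) (nat_lit 215))) (XT.nd (nat_lit 78) (nat_lit 152) (nat_lit 0) (XT.lf (nat_lit 0) (nat_lit 13419694794) (nat_lit 152) (nat_lit 13419926469) (nat_lit 228) (nat_lit 1710408111382) (nat_lit 208) (nat_lit 5) (nat_lit 210) (nat_lit 5) (nat_lit 211) (nat_lit 5) (nat_lit 347) (nat_lit 339) (nat_lit 214)) (XT.nd (nat_lit 78) (nat_lit 152) (nat_lit 0) (XT.lf (nat_lit 0) (nat_lit 371019211076) (nat_lit 228) (nat_lit 755722295224) (nat_lit 76) (nat_lit 755722081005) (nat_lit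 208) (nat_lit 5) (nat_lit 211) (nat_lit 5) (nat_lit 209) (nat_lit 5) (nat_lit 348) (nat_lit 339) (nat_lit 213)) (XT.lf (nat_lit 0) (nat_lit 391845009633) (nat_lit 152) (nat_lit 391845234949) (nat_lit 228) (nat_lit 1263241899799) (nat_lit 206) (nat_lit 5) (nat_lit 208) (nat_lit 5) (nat_lit 209) (nat_lit 5) (nat_lit 349) (nat_lit 339) (nat_lit 212))))) (XT.nd (nat_lit 156) (nat_lit 304) (nat_lit 0) (XT.nd (nat_lit 78) (nat_lit 76) (nat_lit 0) (XT.lf (nat_lit 0) (nat_lit 1318416305589) (nat_lit 228) (nat_lit 454315863938) (nat_lit 76) (nat_lit 454315659620) (nat_lit 206) (nat_lit 5) (nat_lit 209) (nat_lit 5) (nat_lit 207) (nat_lit 4) (nat_lit 350) (nat_lit 339) (nat_lit 211)) (XT.lf (nat_lit 0) (nat_lit 996639537358) (nat_lit 76) (nat_lit 996639748972) (nat_lit 152) (nat_lit 431912378710) (nat_lit 205) (nat_lit 5) (nat_lit 206) (nat_lit 5) (nat_lit 207) (nat_lit 4) (nat_lit 351) (nat_lit 339) (nat_lit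 210))) (XT.nd (nat_lit 78) (nat_lit 76) (nat_lit 0) (XT.lf (nat_lit 0) (nat_lit 66802312890) (nat_lit 152) (nat_lit 66802530849) (nat_lit 228) (nat_lit 2514582980521) (nat_lit 202) (nat_lit 5) (nat_lit 204) (nat_lit 5) (nat_lit 205) (nat_lit 5) (nat_lit 352) (nat_lit 339) (nat_lit 209)) (XT.nd (nat_lit 78) (nat_lit 76) (nat_lit 0) (XT.lf (nat_lit 0) (nat_lit 859472092900) (nat_lit 228) (nat_lit 1012057556884) (nat_lit 76) (nat_lit 1012057362557) (nat_lit 202) (nat_lit 5) (nat_lit 205) (nat_lit 5) (nat_lit 203) (nat_lit 4) (nat_lit 353) (nat_lit 339) (nat_lit 208)) (XT.lf (nat_lit 0) (nat_lit 866643070915) (nat_lit 76) (nat_lit 866643269414) (nat_lit 152) (nat_lit 1415149701672) (nat_lit 201) (nat_lit 5) (nat_lit 202) (nat_lit 5) (nat_lit 203) (nat_lit 4) (nat_lit 354) (nat_lit 339) (nat_lit 207)))))) (XT.nd (nat_lit 390) (nat_lit 380) (nat_lit 0) (XT.nd (nat_lit 156) (nat_lit 152) (nat_lit 0) (XT.nd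 (nat_lit 78) (nat_lit 152) (nat_lit 0) (XT.lf (nat_lit 0) (nat_lit 2805560803804) (nat_lit 152) (nat_lit 318671793113) (nat_lit 0) (nat_lit 318671617351) (nat_lit 201) (nat_lit 5) (nat_lit 203) (nat_lit 4) (nat_lit 201) (nat_lit 4) (nat_lit 355) (nat_lit 339) (nat_lit 206)) (XT.lf (nat_lit 0) (nat_lit 367840124767) (nat_lit 152) (nat_lit 1696032920945) (nat_lit 76) (nat_lit 1696032742439) (nat_lit 199) (nat_lit 5) (nat_lit 201) (nat_lit 5) (nat_lit 200) (nat_lit 4) (nat_lit 356) (nat_lit 339) (nat_lit 205))) (XT.nd (nat_lit 78) (nat_lit 76) (nat_lit 0) (XT.lf (nat_lit 0) (nat_lit 753602667474) (nat_lit 76) (nat_lit 753602848365) (nat_lit 152) (nat_lit 2605401206709) (nat_lit 198) (nat_lit 5) (nat_lit 199) (nat_lit 5) (nat_lit 200) (nat_lit 4) (nat_lit 357) (nat_lit 339) (nat_lit 204)) (XT.nd (nat_lit 78) (nat_lit 76) (nat_lit 0) (XT.lf (nat_lit 0) (nat_lit 2941542438082) (nat_lit 152) (nat_lit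 779030254873) (nat_lit 0) (nat_lit 779030095773) (nat_lit 198) (nat_lit 5) (nat_lit 200) (nat_lit 4) (nat_lit 198) (nat_lit 4) (nat_lit 358) (nat_lit 339) (nat_lit 203)) (XT.lf (nat_lit 0) (nat_lit 2362368105477) (nat_lit 76) (nat_lit 2362368266145) (nat_lit 76) (nat_lit 199855922268) (nat_lit 197) (nat_lit 4) (nat_lit 198) (nat_lit 5) (nat_lit 198) (nat_lit 4) (nat_lit 359) (nat_lit 339) (nat_lit 202))))) (XT.nd (nat_lit 156) (nat_lit 228) (nat_lit 0) (XT.nd (nat_lit 78) (nat_lit 0) (nat_lit 0) (XT.lf (nat_lit 0) (nat_lit 655306665718) (nat_lit 76) (nat_lit 655306827751) (nat_lit 152) (nat_lit 4083787207821) (nat_lit 195) (nat_lit 5) (nat_lit 196) (nat_lit 5) (nat_lit 197) (nat_lit 4) (nat_lit 360) (nat_lit 339) (nat_lit 201)) (XT.lf (nat_lit 0) (nat_lit 3221657938133) (nat_lit 152) (nat_lit 1341212561429) (nat_lit 0) (nat_lit 1341212419501) (nat_lit 195) (nat_lit 5) (nat_lit 197) (nat_lit 4)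 (nat_lit 195) (nat_lit 4) (nat_lit 361) (nat_lit 339) (nat_lit 200))) (XT.nd (nat_lit 78) (nat_lit 152) (nat_lit 0) (XT.lf (nat_lit 0) (nat_lit 2782898951327) (nat_lit 76) (nat_lit 2782899094153) (nat_lit 76) (nat_lit 902453574624) (nat_lit 194) (nat_lit 4) (nat_lit 195) (nat_lit 5) (nat_lit 195) (nat_lit 4) (nat_lit 362) (nat_lit 339) (nat_lit 199)) (XT.nd (nat_lit 78) (nat_lit 0) (nat_lit 0) (XT.lf (nat_lit 0) (nat_lit 569831882290) (nat_lit 76) (nat_lit 569832025895) (nat_lit 152) (nat_lit 5955716507015) (nat_lit 192) (nat_lit 5) (nat_lit 193) (nat_lit 5) (nat_lit 194) (nat_lit 4) (nat_lit 363) (nat_lit 339) (nat_lit 198)) (XT.lf (nat_lit 0) (nat_lit 3679310503866) (nat_lit 152) (nat_lit 2044140611080) (nat_lit 0) (nat_lit 2044140485617) (nat_lit 192) (nat_lit 5) (nat_lit 194) (nat_lit 4) (nat_lit 192) (nat_lit 4) (nat_lit 364) (nat_lit 339) (nat_lit 197))))))))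
noncomputable def xc105 : XT := (XT.nd (nat_lit 45162) (nat_lit 0) (nat_lit 1596) (XT.nd (nat_lit 780) (nat_lit 608) (nat_lit 0) (XT.nd (nat_lit 390) (nat_lit 304) (nat_lit 0) (XT.nd (nat_lit 156) (nat_lit 228) (nat_lit 0) (XT.nd (nat_lit 78) (nat_lit 152) (nat_lit 0) (XT.lf (nat_lit 0) (nat_lit 3383572674236) (nat_lit 76) (nat_lit 3383572800212) (nat_lit 76) (nat_lit 1748402781450) (nat_lit 191) (nat_lit 4) (nat_lit 192) (nat_lit 5) (nat_lit 192) (nat_lit 4) (nat_lit 365) (nat_lit 339) (nat_lit 196)) (XT.lf (nat_lit 0) (nat_lit 495505984060) (nat_lit 76) (nat_lit 495506110482) (nat_lit 152) (nat_lit 8358963711386) (nat_lit 189) (nat_lit 5) (nat_lit 190) (nat_lit 5) (nat_lit 191) (nat_lit 4) (nat_lit 366) (nat_lit 339) (nat_lit 195))) (XT.nd (nat_lit 78) (nat_lit 228) (nat_lit 0) (XT.lf (nat_lit 0) (nat_lit 4360381950166) (nat_lit 152) (nat_lit 2938495086874) (nat_lit 0) (nat_lit 2938494976605)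 (nat_lit 189) (nat_lit 5) (nat_lit 191) (nat_lit 4) (nat_lit 189) (nat_lit 4) (nat_lit 367) (nat_lit 339) (nat_lit 194)) (XT.nd (nat_lit 78) (nat_lit 152) (nat_lit 0) (XT.lf (nat_lit 0) (nat_lit 4216678176147) (nat_lit 76) (nat_lit 4216678286710) (nat_lit 76) (nat_lit 2794791312855) (nat_lit 188) (nat_lit 4) (nat_lit 189) (nat_lit 5) (nat_lit 189) (nat_lit 4) (nat_lit 368) (nat_lit 339) (nat_lit 193)) (XT.lf (nat_lit 0) (nat_lit 430874768439) (nat_lit 76) (nat_lit 430874879257) (nat_lit 152) (nat_lit 11474319622502) (nat_lit 186) (nat_lit 5) (nat_lit 187) (nat_lit 5) (nat_lit 188) (nat_lit 4) (nat_lit 369) (nat_lit 339) (nat_lit 192))))) (XT.nd (nat_lit 156) (nat_lit 228) (nat_lit 0) (XT.nd (nat_lit 78) (nat_lit 76) (nat_lit 0) (XT.lf (nat_lit 0) (nat_lit 5327034527776) (nat_lit 152) (nat_lit 4090611168391) (nat_lit 0) (nat_lit 4090611071835) (nat_lit 186) (nat_lit 5) (nat_lit 188) (nat_lit 4)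 (nat_lit 186) (nat_lit 4) (nat_lit 370) (nat_lit 339) (nat_lit 191)) (XT.lf (nat_lit 0) (nat_lit 5352124987760) (nat_lit 76) (nat_lit 5352125084484) (nat_lit 76) (nat_lit 4115701628376) (nat_lit 185) (nat_lit 4) (nat_lit 186) (nat_lit 5) (nat_lit 186) (nat_lit 4) (nat_lit 371) (nat_lit 339) (nat_lit 190))) (XT.nd (nat_lit 78) (nat_lit 76) (nat_lit 0) (XT.lf (nat_lit 0) (nat_lit 374673711510) (nat_lit 76) (nat_lit 374673808379) (nat_lit 152) (nat_lit 15539648669856) (nat_lit 183) (nat_lit 5) (nat_lit 184) (nat_lit 5) (nat_lit 185) (nat_lit 4) (nat_lit 372) (nat_lit 339) (nat_lit 189)) (XT.nd (nat_lit 78) (nat_lit 76) (nat_lit 0) (XT.lf (nat_lit 0) (nat_lit 6662767857329) (nat_lit 152) (nat_lit 5587617110038) (nat_lit 0) (nat_lit 5587617025694) (nat_lit 183) (nat_lit 5) (nat_lit 185) (nat_lit 4) (nat_lit 183) (nat_lit 4) (nat_lit 373) (nat_lit 339) (nat_lit 188)) (XT.lf (nat_lit 0) (nat_lit 6883027122383)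 (nat_lit 76) (nat_lit 6883027206823) (nat_lit 76) (nat_lit 5807876375093) (nat_lit 182) (nat_lit 4) (nat_lit 183) (nat_lit 5) (nat_lit 183) (nat_lit 4) (nat_lit 374) (nat_lit 339) (nat_lit 187)))))) (XT.nd (nat_lit 390) (nat_lit 228) (nat_lit 0) (XT.nd (nat_lit 156) (nat_lit 228) (nat_lit 0) (XT.nd (nat_lit 78) (nat_lit 0) (nat_lit 0) (XT.lf (nat_lit 0) (nat_lit 325803227299) (nat_lit 76) (nat_lit 325803311823) (nat_lit 152) (nat_lit 20868455773927) (nat_lit 180) (nat_lit 5) (nat_lit 181) (nat_lit 5) (nat_lit 182) (nat_lit 4) (nat_lit 375) (nat_lit 339) (nat_lit 186)) (XT.lf (nat_lit 0) (nat_lit 8479131964570) (nat_lit 152) (nat_lit 7544218271273) (nat_lit 0) (nat_lit 7544218197712) (nat_lit 180) (nat_lit 5) (nat_lit 182) (nat_lit 4) (nat_lit 180) (nat_lit 4) (nat_lit 376) (nat_lit 339) (nat_lit 185))) (XT.nd (nat_lit 78) (nat_lit 152) (nat_lit 0) (XT.lf (nat_lit 0) (nat_lit 8933100609500) (nat_lit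 76) (nat_lit 8933100683117) (nat_lit 76) (nat_lit 7998186916204) (nat_lit 179) (nat_lit 4) (nat_lit 180) (nat_lit 5) (nat_lit 180) (nat_lit 4) (nat_lit 377) (nat_lit 339) (nat_lit 184)) (XT.nd (nat_lit 78) (nat_lit 0) (nat_lit 0) (XT.lf (nat_lit 0) (nat_lit 283307154115) (nat_lit 76) (nat_lit 283307227779) (nat_lit 152) (nat_lit 27874420072435) (nat_lit 177) (nat_lit 5) (nat_lit 178) (nat_lit 5) (nat_lit 179) (nat_lit 4) (nat_lit 378) (nat_lit 339) (nat_lit 183)) (XT.lf (nat_lit 0) (nat_lit 10924627217224) (nat_lit 152) (nat_lit 10111658788271) (nat_lit 0) (nat_lit 10111658724179) (nat_lit 177) (nat_lit 5) (nat_lit 179) (nat_lit 4) (nat_lit 177) (nat_lit 4) (nat_lit 379) (nat_lit 339) (nat_lit 182))))) (XT.nd (nat_lit 43758) (nat_lit 0) (nat_lit 3116) (XT.nd (nat_lit 78) (nat_lit 152) (nat_lit 0) (XT.lf (nat_lit 0) (nat_lit 11666457938851) (nat_lit 76) (nat_lit 11666458002974) (nat_lit 76) (nat_lit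 10853489509898) (nat_lit 176) (nat_lit 4) (nat_lit 177) (nat_lit 5) (nat_lit 177) (nat_lit 4) (nat_lit 380) (nat_lit 339) (nat_lit 181)) (XT.lf (nat_lit 0) (nat_lit 246354047024) (nat_lit 76) (nat_lit 246354111174) (nat_lit 152) (nat_lit 37103822555766) (nat_lit 174) (nat_lit 5) (nat_lit 175) (nat_lit 5) (nat_lit 176) (nat_lit 4) (nat_lit 381) (nat_lit 339) (nat_lit 180))) (XT.nd (nat_lit 78) (nat_lit 0) (nat_lit 0) (XT.lf (nat_lit 0) (nat_lit 166470175321) (nat_lit 380) (nat_lit 187948220947) (nat_lit 380) (nat_lit 187948220947) (nat_lit 215) (nat_lit 3) (nat_lit 220) (nat_lit 3) (nat_lit 220) (nat_lit 5) (nat_lit 340) (nat_lit 340) (nat_lit 220)) (XT.nd (nat_lit 78) (nat_lit 0) (nat_lit 76) (XT.lf (nat_lit 76) (nat_lit 182738851546) (nat_lit 0) (nat_lit 182738903175) (nat_lit 380) (nat_lit 799475440626) (nat_lit 216) (nat_lit 5) (nat_lit 215) (nat_lit 3) (nat_lit 220) (nat_lit 5) (nat_lit 341)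 (nat_lit 340) (nat_lit 219)) (XT.lf (nat_lit 0) (nat_lit 440966017436) (nat_lit 304) (nat_lit 405264839846) (nat_lit 380) (nat_lit 405264755913) (nat_lit 216) (nat_lit 5) (nat_lit 220) (nat_lit 5) (nat_lit 221) (nat_lit 5) (nat_lit 342) (nat_lit 340) (nat_lit 218))))))) (XT.nd (nat_lit 780) (nat_lit 760) (nat_lit 0) (XT.nd (nat_lit 390) (nat_lit 456) (nat_lit 0) (XT.nd (nat_lit 156) (nat_lit 380) (nat_lit 0) (XT.nd (nat_lit 78) (nat_lit 0) (nat_lit 76) (XT.lf (nat_lit 76) (nat_lit 273910651041) (nat_lit 0) (nat_lit 273910768921) (nat_lit 380) (nat_lit 800191388699) (nat_lit 217) (nat_lit 5) (nat_lit 216) (nat_lit 5) (nat_lit 221) (nat_lit 5) (nat_lit 343) (nat_lit 340) (nat_lit 217)) (XT.lf (nat_lit 0) (nat_lit 708809476924) (nat_lit 304) (nat_lit 372241291544) (nat_lit 76) (nat_lit 372241163371) (nat_lit 217) (nat_lit 5) (nat_lit 221) (nat_lit 5) (nat_lit 218) (nat_lit 5) (nat_lit 344) (nat_lit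 340) (nat_lit 216))) (XT.nd (nat_lit 78) (nat_lit 152) (nat_lit 0) (XT.lf (nat_lit 0) (nat_lit 463082098896) (nat_lit 304) (nat_lit 463082249389) (nat_lit 380) (nat_lit 643365784329) (nat_lit 213) (nat_lit 5) (nat_lit 217) (nat_lit 5) (nat_lit 218) (nat_lit 5) (nat_lit 345) (nat_lit 340) (nat_lit 215)) (XT.nd (nat_lit 78) (nat_lit 152) (nat_lit 0) (XT.lf (nat_lit 0) (nat_lit 1206758910698) (nat_lit 380) (nat_lit 245924915749) (nat_lit 76) (nat_lit 245924768007) (nat_lit 213) (nat_lit 5) (nat_lit 218) (nat_lit 5) (nat_lit 214) (nat_lit 5) (nat_lit 346) (nat_lit 340) (nat_lit 214)) (XT.lf (nat_lit 0) (nat_lit 792147583978) (nat_lit 152) (nat_lit 792147746395) (nat_lit 228) (nat_lit 254525594261) (nat_lit 211) (nat_lit 5) (nat_lit 213) (nat_lit 5) (nat_lit 214) (nat_lit 5) (nat_lit 347) (nat_lit 340) (nat_lit 213))))) (XT.nd (nat_lit 156) (nat_lit 228) (nat_lit 0) (XT.nd (nat_lit 78) (nat_lit 0) (nat_lit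 0) (XT.lf (nat_lit 0) (nat_lit 15432721891) (nat_lit 152) (nat_lit 15432897070) (nat_lit 228) (nat_lit 1966969265405) (nat_lit 208) (nat_lit 5) (nat_lit 210) (nat_lit 5) (nat_lit 211) (nat_lit 5) (nat_lit 348) (nat_lit 340) (nat_lit 212)) (XT.lf (nat_lit 0) (nat_lit 426672140797) (nat_lit 228) (nat_lit 869080569687) (nat_lit 76) (nat_lit 869080407708) (nat_lit 208) (nat_lit 5) (nat_lit 211) (nat_lit 5) (nat_lit 209) (nat_lit 5) (nat_lit 349) (nat_lit 340) (nat_lit 211))) (XT.nd (nat_lit 78) (nat_lit 76) (nat_lit 0) (XT.lf (nat_lit 0) (nat_lit 450621827725) (nat_lit 152) (nat_lit 450621998095) (nat_lit 228) (nat_lit 1452728133536) (nat_lit 206) (nat_lit 5) (nat_lit 208) (nat_lit 5) (nat_lit 209) (nat_lit 5) (nat_lit 350) (nat_lit 340) (nat_lit 210)) (XT.nd (nat_lit 78) (nat_lit 76) (nat_lit 0) (XT.lf (nat_lit 0) (nat_lit 1516178790963) (nat_lit 228) (nat_lit 522463180559) (nat_lit 76) (nat_lit 522463026066)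 (nat_lit 206) (nat_lit 5) (nat_lit 209) (nat_lit 5) (nat_lit 207) (nat_lit 4) (nat_lit 351) (nat_lit 340) (nat_lit 209)) (XT.lf (nat_lit 0) (nat_lit 1146135528068) (nat_lit 76) (nat_lit 1146135688079) (nat_lit 152) (nat_lit 496699193119) (nat_lit 205) (nat_lit 5) (nat_lit 206) (nat_lit 5) (nat_lit 207) (nat_lit 4) (nat_lit 352) (nat_lit 340) (nat_lit 208)))))) (XT.nd (nat_lit 390) (nat_lit 304) (nat_lit 0) (XT.nd (nat_lit 156) (nat_lit 228) (nat_lit 0) (XT.nd (nat_lit 78) (nat_lit 0) (nat_lit 0) (XT.lf (nat_lit 0) (nat_lit 76822720801) (nat_lit 152) (nat_lit 76822885610) (nat_lit 228) (nat_lit 2891770386072) (nat_lit 202) (nat_lit 5) (nat_lit 204) (nat_lit 5) (nat_lit 205) (nat_lit 5) (nat_lit 353) (nat_lit 340) (nat_lit 207)) (XT.lf (nat_lit 0) (nat_lit 988392939131) (nat_lit 228) (nat_lit 1163866133578) (nat_lit 76) (nat_lit 1163865986639) (nat_lit 202) (nat_lit 5) (nat_lit 205) (nat_lit 5) (nat_lit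 203) (nat_lit 4) (nat_lit 354) (nat_lit 340) (nat_lit 206))) (XT.nd (nat_lit 78) (nat_lit 152) (nat_lit 0) (XT.lf (nat_lit 0) (nat_lit 996639585807) (nat_lit 76) (nat_lit 996639735901) (nat_lit 152) (nat_lit 1627422122043) (nat_lit 201) (nat_lit 5) (nat_lit 202) (nat_lit 5) (nat_lit 203) (nat_lit 4) (nat_lit 355) (nat_lit 340) (nat_lit 205)) (XT.nd (nat_lit 78) (nat_lit 152) (nat_lit 0) (XT.lf (nat_lit 0) (nat_lit 3226394951610) (nat_lit 152) (nat_lit 366472511808) (nat_lit 0) (nat_lit 366472378906) (nat_lit 201) (nat_lit 5) (nat_lit 203) (nat_lit 4) (nat_lit 201) (nat_lit 4) (nat_lit 356) (nat_lit 340) (nat_lit 204)) (XT.lf (nat_lit 0) (nat_lit 423016170375) (nat_lit 152) (nat_lit 1950437808471) (nat_lit 76) (nat_lit 1950437673495) (nat_lit 199) (nat_lit 5) (nat_lit 201) (nat_lit 5) (nat_lit 200) (nat_lit 4) (nat_lit 357) (nat_lit 340) (nat_lit 203))))) (XT.nd (nat_lit 156) (nat_lit 228) (nat_lit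 0) (XT.nd (nat_lit 78) (nat_lit 0) (nat_lit 0) (XT.lf (nat_lit 0) (nat_lit 866643115910) (nat_lit 76) (nat_lit 866643252690) (nat_lit 152) (nat_lit 2996211358522) (nat_lit 198) (nat_lit 5) (nat_lit 199) (nat_lit 5) (nat_lit 200) (nat_lit 4) (nat_lit 358) (nat_lit 340) (nat_lit 202)) (XT.lf (nat_lit 0) (nat_lit 3382773826694) (nat_lit 152) (nat_lit 895884748605) (nat_lit 0) (nat_lit 895884628303) (nat_lit 198) (nat_lit 5) (nat_lit 200) (nat_lit 4) (nat_lit 198) (nat_lit 4) (nat_lit 359) (nat_lit 340) (nat_lit 201))) (XT.nd (nat_lit 78) (nat_lit 152) (nat_lit 0) (XT.lf (nat_lit 0) (nat_lit 2716723363775) (nat_lit 76) (nat_lit 2716723485263) (nat_lit 76) (nat_lit 229834285686) (nat_lit 197) (nat_lit 4) (nat_lit 198) (nat_lit 5) (nat_lit 198) (nat_lit 4) (nat_lit 360) (nat_lit 340) (nat_lit 200)) (XT.nd (nat_lit 78) (nat_lit 0) (nat_lit 0) (XT.lf (nat_lit 0) (nat_lit 753602708239) (nat_lit 76) (nat_lit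 753602830759) (nat_lit 152) (nat_lit 4696355264259) (nat_lit 195) (nat_lit 5) (nat_lit 196) (nat_lit 5) (nat_lit 197) (nat_lit 4) (nat_lit 361) (nat_lit 340) (nat_lit 199)) (XT.lf (nat_lit 0) (nat_lit 3704906648318) (nat_lit 152) (nat_lit 1542394406502) (nat_lit 0) (nat_lit 1542394299183) (nat_lit 195) (nat_lit 5) (nat_lit 197) (nat_lit 4) (nat_lit 195) (nat_lit 4) (nat_lit 362) (nat_lit 340) (nat_lit 198))))))))
noncomputable def xc106 : XT := (XT.nd (nat_lit 45240) (nat_lit 0) (nat_lit 1596) (XT.nd (nat_lit 780) (nat_lit 684) (nat_lit 0) (XT.nd (nat_lit 390) (nat_lit 304) (nat_lit 0) (XT.nd (nat_lit 156) (nat_lit 228) (nat_lit 0) (XT.nd (nat_lit 78) (nat_lit 152) (nat_lit 0) (XT.lf (nat_lit 0) (nat_lit 3200333831390) (nat_lit 76) (nat_lit 3200333939386) (nat_lit 76) (nat_lit 1037821589573) (nat_lit 194) (nat_lit 4) (nat_lit 195) (nat_lit 5) (nat_lit 195) (nat_lit 4) (nat_lit 363) (nat_lit 340)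 (nat_lit 197)) (XT.lf (nat_lit 0) (nat_lit 655306702103) (nat_lit 76) (nat_lit 655306810689) (nat_lit 152) (nat_lit 6849073961930) (nat_lit 192) (nat_lit 5) (nat_lit 193) (nat_lit 5) (nat_lit 194) (nat_lit 4) (nat_lit 364) (nat_lit 340) (nat_lit 196))) (XT.nd (nat_lit 78) (nat_lit 228) (nat_lit 0) (XT.lf (nat_lit 0) (nat_lit 4231207096116) (nat_lit 152) (nat_lit 2350761668450) (nat_lit 0) (nat_lit 2350761573581) (nat_lit 192) (nat_lit 5) (nat_lit 194) (nat_lit 4) (nat_lit 192) (nat_lit 4) (nat_lit 365) (nat_lit 340) (nat_lit 195)) (XT.nd (nat_lit 78) (nat_lit 152) (nat_lit 0) (XT.lf (nat_lit 0) (nat_lit 3891108608105) (nat_lit 76) (nat_lit 3891108703361) (nat_lit 76) (nat_lit 2010663180439) (nat_lit 191) (nat_lit 4) (nat_lit 192) (nat_lit 5) (nat_lit 192) (nat_lit 4) (nat_lit 366) (nat_lit 340) (nat_lit 194)) (XT.lf (nat_lit 0) (nat_lit 569831914464) (nat_lit 76) (nat_lit 569832010058) (nat_lit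 152) (nat_lit 9612808249926) (nat_lit 189) (nat_lit 5) (nat_lit 190) (nat_lit 5) (nat_lit 191) (nat_lit 4) (nat_lit 367) (nat_lit 340) (nat_lit 193))))) (XT.nd (nat_lit 156) (nat_lit 228) (nat_lit 0) (XT.nd (nat_lit 78) (nat_lit 76) (nat_lit 0) (XT.lf (nat_lit 0) (nat_lit 5014439257041) (nat_lit 152) (nat_lit 3379269319939) (nat_lit 0) (nat_lit 3379269236560) (nat_lit 189) (nat_lit 5) (nat_lit 191) (nat_lit 4) (nat_lit 189) (nat_lit 4) (nat_lit 368) (nat_lit 340) (nat_lit 192)) (XT.lf (nat_lit 0) (nat_lit 4849179931173) (nat_lit 76) (nat_lit 4849180014774) (nat_lit 76) (nat_lit 3214009994072) (nat_lit 188) (nat_lit 4) (nat_lit 189) (nat_lit 5) (nat_lit 189) (nat_lit 4) (nat_lit 369) (nat_lit 340) (nat_lit 191))) (XT.nd (nat_lit 78) (nat_lit 76) (nat_lit 0) (XT.lf (nat_lit 0) (nat_lit 495506012344) (nat_lit 76) (nat_lit 495506096138) (nat_lit 152) (nat_lit 13195467550201) (nat_lit 186) (nat_lit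 5) (nat_lit 187) (nat_lit 5) (nat_lit 188) (nat_lit 4) (nat_lit 370) (nat_lit 340) (nat_lit 190)) (XT.nd (nat_lit 78) (nat_lit 76) (nat_lit 0) (XT.lf (nat_lit 0) (nat_lit 6126089719336) (nat_lit 152) (nat_lit 4704202817509) (nat_lit 0) (nat_lit 4704202744499) (nat_lit 186) (nat_lit 5) (nat_lit 188) (nat_lit 4) (nat_lit 186) (nat_lit 4) (nat_lit 371) (nat_lit 340) (nat_lit 189)) (XT.lf (nat_lit 0) (nat_lit 6154943760877) (nat_lit 76) (nat_lit 6154943834014) (nat_lit 76) (nat_lit 4733056859050) (nat_lit 185) (nat_lit 4) (nat_lit 186) (nat_lit 5) (nat_lit 186) (nat_lit 4) (nat_lit 372) (nat_lit 340) (nat_lit 188)))))) (XT.nd (nat_lit 390) (nat_lit 304) (nat_lit 0) (XT.nd (nat_lit 156) (nat_lit 228) (nat_lit 0) (XT.nd (nat_lit 78) (nat_lit 0) (nat_lit 0) (XT.lf (nat_lit 0) (nat_lit 430874793210) (nat_lit 76) (nat_lit 430874866456) (nat_lit 152) (nat_lit 17870595956772) (nat_lit 183) (nat_lit 5) (nat_lit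 184) (nat_lit 5) (nat_lit 185) (nat_lit 4) (nat_lit 373) (nat_lit 340) (nat_lit 187)) (XT.lf (nat_lit 0) (nat_lit 7662183046658) (nat_lit 152) (nat_lit 6425759653764) (nat_lit 0) (nat_lit 6425759589988) (nat_lit 183) (nat_lit 5) (nat_lit 185) (nat_lit 4) (nat_lit 183) (nat_lit 4) (nat_lit 374) (nat_lit 340) (nat_lit 186))) (XT.nd (nat_lit 78) (nat_lit 152) (nat_lit 0) (XT.lf (nat_lit 0) (nat_lit 7915481212485) (nat_lit 76) (nat_lit 7915481276334) (nat_lit 76) (nat_lit 6679057819592) (nat_lit 182) (nat_lit 4) (nat_lit 183) (nat_lit 5) (nat_lit 183) (nat_lit 4) (nat_lit 375) (nat_lit 340) (nat_lit 185)) (XT.nd (nat_lit 78) (nat_lit 0) (nat_lit 0) (XT.lf (nat_lit 0) (nat_lit 374673733149) (nat_lit 76) (nat_lit 374673797061) (nat_lit 152) (nat_lit 23998724128262) (nat_lit 180) (nat_lit 5) (nat_lit 181) (nat_lit 5) (nat_lit 182) (nat_lit 4) (nat_lit 376) (nat_lit 340) (nat_lit 184)) (XT.lf (nat_lit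 0) (nat_lit 9751001768558) (nat_lit 152) (nat_lit 8675850992129) (nat_lit 0) (nat_lit 8675850936506) (nat_lit 180) (nat_lit 5) (nat_lit 182) (nat_lit 4) (nat_lit 180) (nat_lit 4) (nat_lit 377) (nat_lit 340) (nat_lit 183))))) (XT.nd (nat_lit 156) (nat_lit 76) (nat_lit 0) (XT.nd (nat_lit 78) (nat_lit 152) (nat_lit 0) (XT.lf (nat_lit 0) (nat_lit 10273065719859) (nat_lit 76) (nat_lit 10273065775524) (nat_lit 76) (nat_lit 9197914943430) (nat_lit 179) (nat_lit 4) (nat_lit 180) (nat_lit 5) (nat_lit 180) (nat_lit 4) (nat_lit 378) (nat_lit 340) (nat_lit 182)) (XT.lf (nat_lit 0) (nat_lit 325803246173) (nat_lit 76) (nat_lit 325803301874) (nat_lit 152) (nat_lit 32055583073102) (nat_lit 177) (nat_lit 5) (nat_lit 178) (nat_lit 5) (nat_lit 179) (nat_lit 4) (nat_lit 379) (nat_lit 340) (nat_lit 181))) (XT.nd (nat_lit 78) (nat_lit 76) (nat_lit 0) (XT.lf (nat_lit 0) (nat_lit 12563321307881) (nat_lit 152) (nat_lit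 11628407589248) (nat_lit 0) (nat_lit 11628407540785) (nat_lit 177) (nat_lit 5) (nat_lit 179) (nat_lit 4) (nat_lit 177) (nat_lit 4) (nat_lit 380) (nat_lit 340) (nat_lit 180)) (XT.nd (nat_lit 43758) (nat_lit 0) (nat_lit 2964) (XT.lf (nat_lit 0) (nat_lit 13416426646158) (nat_lit 76) (nat_lit 13416426694644) (nat_lit 76) (nat_lit 12481512927524) (nat_lit 176) (nat_lit 4) (nat_lit 177) (nat_lit 5) (nat_lit 177) (nat_lit 4) (nat_lit 381) (nat_lit 340) (nat_lit 179)) (XT.lf (nat_lit 0) (nat_lit 191440751110) (nat_lit 380) (nat_lit 216140425632) (nat_lit 380) (nat_lit 216140425632) (nat_lit 215) (nat_lit 3) (nat_lit 220) (nat_lit 3) (nat_lit 220) (nat_lit 5) (nat_lit 341) (nat_lit 341) (nat_lit 218))))))) (XT.nd (nat_lit 780) (nat_lit 684) (nat_lit 0) (XT.nd (nat_lit 390) (nat_lit 532) (nat_lit 0) (XT.nd (nat_lit 156) (nat_lit 152) (nat_lit 0) (XT.nd (nat_lit 78) (nat_lit 0) (nat_lit 76) (XT.lf (nat_lit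 76) (nat_lit 210149733605) (nat_lit 0) (nat_lit 210149772644) (nat_lit 380) (nat_lit 919396655152) (nat_lit 216) (nat_lit 5) (nat_lit 215) (nat_lit 3) (nat_lit 220) (nat_lit 5) (nat_lit 342) (nat_lit 341) (nat_lit 217)) (XT.lf (nat_lit 0) (nat_lit 507110995629) (nat_lit 304) (nat_lit 466054505838) (nat_lit 380) (nat_lit 466054442372) (nat_lit 216) (nat_lit 5) (nat_lit 220) (nat_lit 5) (nat_lit 221) (nat_lit 5) (nat_lit 343) (nat_lit 341) (nat_lit 216))) (XT.nd (nat_lit 78) (nat_lit 228) (nat_lit 0) (XT.lf (nat_lit 76) (nat_lit 314997305956) (nat_lit 0) (nat_lit 314997395091) (nat_lit 380) (nat_lit 920220018700) (nat_lit 217) (nat_lit 5) (nat_lit 216) (nat_lit 5) (nat_lit 221) (nat_lit 5) (nat_lit 344) (nat_lit 341) (nat_lit 215)) (XT.nd (nat_lit 78) (nat_lit 304) (nat_lit 0) (XT.lf (nat_lit 0) (nat_lit 815130957281) (nat_lit 304) (nat_lit 428077426214) (nat_lit 76) (nat_lit 428077329297) (nat_lit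 217) (nat_lit 5) (nat_lit 221) (nat_lit 5) (nat_lit 218) (nat_lit 5) (nat_lit 345) (nat_lit 341) (nat_lit 214)) (XT.lf (nat_lit 0) (nat_lit 532544470107) (nat_lit 304) (nat_lit 532544583902) (nat_lit 380) (nat_lit 739870590475) (nat_lit 213) (nat_lit 5) (nat_lit 217) (nat_lit 5) (nat_lit 218) (nat_lit 5) (nat_lit 346) (nat_lit 341) (nat_lit 213))))) (XT.nd (nat_lit 156) (nat_lit 380) (nat_lit 0) (XT.nd (nat_lit 78) (nat_lit 152) (nat_lit 0) (XT.lf (nat_lit 0) (nat_lit 1387772793913) (nat_lit 380) (nat_lit 282813597216) (nat_lit 76) (nat_lit 282813485502) (nat_lit 213) (nat_lit 5) (nat_lit 218) (nat_lit 5) (nat_lit 214) (nat_lit 5) (nat_lit 347) (nat_lit 341) (nat_lit 212)) (XT.lf (nat_lit 0) (nat_lit 910969774929) (nat_lit 152) (nat_lit 910969897740) (nat_lit 228) (nat_lit 292704384250) (nat_lit 211) (nat_lit 5) (nat_lit 213) (nat_lit 5) (nat_lit 214) (nat_lit 5) (nat_lit 348) (nat_lit 341) (nat_lit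 211))) (XT.nd (nat_lit 78) (nat_lit 152) (nat_lit 0) (XT.lf (nat_lit 0) (nat_lit 17747685280) (nat_lit 152) (nat_lit 17747817741) (nat_lit 228) (nat_lit 2262014607817) (nat_lit 208) (nat_lit 5) (nat_lit 210) (nat_lit 5) (nat_lit 211) (nat_lit 5) (nat_lit 349) (nat_lit 341) (nat_lit 210)) (XT.nd (nat_lit 78) (nat_lit 152) (nat_lit 0) (XT.lf (nat_lit 0) (nat_lit 490672998257) (nat_lit 228) (nat_lit 999442602346) (nat_lit 76) (nat_lit 999442479866) (nat_lit 208) (nat_lit 5) (nat_lit 211) (nat_lit 5) (nat_lit 209) (nat_lit 5) (nat_lit 350) (nat_lit 341) (nat_lit 209)) (XT.lf (nat_lit 0) (nat_lit 518215152278) (nat_lit 152) (nat_lit 518215281102) (nat_lit 228) (nat_lit 1670637314826) (nat_lit 206) (nat_lit 5) (nat_lit 208) (nat_lit 5) (nat_lit 209) (nat_lit 5) (nat_lit 351) (nat_lit 341) (nat_lit 208)))))) (XT.nd (nat_lit 390) (nat_lit 304) (nat_lit 0) (XT.nd (nat_lit 156) (nat_lit 304) (nat_lit 0)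 (XT.nd (nat_lit 78) (nat_lit 76) (nat_lit 0) (XT.lf (nat_lit 0) (nat_lit 1743605639502) (nat_lit 228) (nat_lit 600832610030) (nat_lit 76) (nat_lit 600832493211) (nat_lit 206) (nat_lit 5) (nat_lit 209) (nat_lit 5) (nat_lit 207) (nat_lit 4) (nat_lit 352) (nat_lit 341) (nat_lit 207)) (XT.lf (nat_lit 0) (nat_lit 1318055902727) (nat_lit 76) (nat_lit 1318056023719) (nat_lit 152) (nat_lit 571204040028) (nat_lit 205) (nat_lit 5) (nat_lit 206) (nat_lit 5) (nat_lit 207) (nat_lit 4) (nat_lit 353) (nat_lit 341) (nat_lit 206))) (XT.nd (nat_lit 78) (nat_lit 76) (nat_lit 0) (XT.lf (nat_lit 0) (nat_lit 88346175029) (nat_lit 152) (nat_lit 88346299648) (nat_lit 228) (nat_lit 3325535912582) (nat_lit 202) (nat_lit 5) (nat_lit 204) (nat_lit 5) (nat_lit 205) (nat_lit 5) (nat_lit 354) (nat_lit 341) (nat_lit 205)) (XT.nd (nat_lit 78) (nat_lit 76) (nat_lit 0) (XT.lf (nat_lit 0) (nat_lit 1136651904421) (nat_lit 228) (nat_lit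 1338446010637) (nat_lit 76) (nat_lit 1338445899529) (nat_lit 202) (nat_lit 5) (nat_lit 205) (nat_lit 5) (nat_lit 203) (nat_lit 4) (nat_lit 355) (nat_lit 341) (nat_lit 204)) (XT.lf (nat_lit 0) (nat_lit 1146135564703) (nat_lit 76) (nat_lit 1146135678195) (nat_lit 152) (nat_lit 1871535413976) (nat_lit 201) (nat_lit 5) (nat_lit 202) (nat_lit 5) (nat_lit 203) (nat_lit 4) (nat_lit 356) (nat_lit 341) (nat_lit 203))))) (XT.nd (nat_lit 156) (nat_lit 152) (nat_lit 0) (XT.nd (nat_lit 78) (nat_lit 152) (nat_lit 0) (XT.lf (nat_lit 0) (nat_lit 3710354214945) (nat_lit 152) (nat_lit 421443350565) (nat_lit 0) (nat_lit 421443250073) (nat_lit 201) (nat_lit 5) (nat_lit 203) (nat_lit 4) (nat_lit 201) (nat_lit 4) (nat_lit 357) (nat_lit 341) (nat_lit 202)) (XT.lf (nat_lit 0) (nat_lit 486468616266) (nat_lit 152) (nat_lit 2243003441468) (nat_lit 76) (nat_lit 2243003339407) (nat_lit 199) (nat_lit 5) (nat_lit 201) (nat_lit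 5) (nat_lit 200) (nat_lit 4) (nat_lit 358) (nat_lit 341) (nat_lit 201))) (XT.nd (nat_lit 78) (nat_lit 76) (nat_lit 0) (XT.lf (nat_lit 0) (nat_lit 996639619830) (nat_lit 76) (nat_lit 996639723255) (nat_lit 152) (nat_lit 3445643040227) (nat_lit 198) (nat_lit 5) (nat_lit 199) (nat_lit 5) (nat_lit 200) (nat_lit 4) (nat_lit 359) (nat_lit 341) (nat_lit 200)) (XT.nd (nat_lit 78) (nat_lit 76) (nat_lit 0) (XT.lf (nat_lit 0) (nat_lit 3890189918014) (nat_lit 152) (nat_lit 1030267427249) (nat_lit 0) (nat_lit 1030267336283) (nat_lit 198) (nat_lit 5) (nat_lit 200) (nat_lit 4) (nat_lit 198) (nat_lit 4) (nat_lit 360) (nat_lit 341) (nat_lit 199)) (XT.lf (nat_lit 0) (nat_lit 3124231900459) (nat_lit 76) (nat_lit 3124231992321) (nat_lit 76) (nat_lit 264309409694) (nat_lit 197) (nat_lit 4) (nat_lit 198) (nat_lit 5) (nat_lit 198) (nat_lit 4) (nat_lit 361) (nat_lit 341) (nat_lit 198))))))))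
noncomputable def xc107 : XT := (XT.nd (nat_lit 45318) (nat_lit 0) (nat_lit 1596) (XT.nd (nat_lit 780) (nat_lit 684) (nat_lit 0) (XT.nd (nat_lit 390) (nat_lit 456) (nat_lit 0) (XT.nd (nat_lit 156) (nat_lit 228) (nat_lit 0) (XT.nd (nat_lit 78) (nat_lit 0) (nat_lit 0) (XT.lf (nat_lit 0) (nat_lit 866643146735) (nat_lit 76) (nat_lit 866643239377) (nat_lit 152) (nat_lit 5400808535194) (nat_lit 195) (nat_lit 5) (nat_lit 196) (nat_lit 5) (nat_lit 197) (nat_lit 4) (nat_lit 362) (nat_lit 341) (nat_lit 197)) (XT.lf (nat_lit 0) (nat_lit 4260642660284) (nat_lit 152) (nat_lit 1773753537880) (nat_lit 0) (nat_lit 1773753456732) (nat_lit 195) (nat_lit 5) (nat_lit 197) (nat_lit 4) (nat_lit 195) (nat_lit 4) (nat_lit 363) (nat_lit 341) (nat_lit 196))) (XT.nd (nat_lit 78) (nat_lit 152) (nat_lit 0) (XT.lf (nat_lit 0) (nat_lit 3680383934350) (nat_lit 76) (nat_lit 3680384016011) (nat_lit 76) (nat_lit 1193494811946) (nat_lit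 194) (nat_lit 4) (nat_lit 195) (nat_lit 5) (nat_lit 195) (nat_lit 4) (nat_lit 364) (nat_lit 341) (nat_lit 195)) (XT.nd (nat_lit 78) (nat_lit 0) (nat_lit 0) (XT.lf (nat_lit 0) (nat_lit 753602735751) (nat_lit 76) (nat_lit 753602817858) (nat_lit 152) (nat_lit 7876435040237) (nat_lit 192) (nat_lit 5) (nat_lit 193) (nat_lit 5) (nat_lit 194) (nat_lit 4) (nat_lit 365) (nat_lit 341) (nat_lit 194)) (XT.lf (nat_lit 0) (nat_lit 4865888173139) (nat_lit 152) (nat_lit 2703375892787) (nat_lit 0) (nat_lit 2703375821053) (nat_lit 192) (nat_lit 5) (nat_lit 194) (nat_lit 4) (nat_lit 192) (nat_lit 4) (nat_lit 366) (nat_lit 341) (nat_lit 193))))) (XT.nd (nat_lit 156) (nat_lit 228) (nat_lit 0) (XT.nd (nat_lit 78) (nat_lit 152) (nat_lit 0) (XT.lf (nat_lit 0) (nat_lit 4474774924072) (nat_lit 76) (nat_lit 4474774996100) (nat_lit 76) (nat_lit 2312262643721) (nat_lit 191) (nat_lit 4) (nat_lit 192) (nat_lit 5) (nat_lit 192)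 (nat_lit 4) (nat_lit 367) (nat_lit 341) (nat_lit 192)) (XT.lf (nat_lit 0) (nat_lit 655306726432) (nat_lit 76) (nat_lit 655306798714) (nat_lit 152) (nat_lit 11054729473677) (nat_lit 189) (nat_lit 5) (nat_lit 190) (nat_lit 5) (nat_lit 191) (nat_lit 4) (nat_lit 368) (nat_lit 341) (nat_lit 191))) (XT.nd (nat_lit 78) (nat_lit 228) (nat_lit 0) (XT.lf (nat_lit 0) (nat_lit 5766605156447) (nat_lit 152) (nat_lit 3886159695272) (nat_lit 0) (nat_lit 3886159632225) (nat_lit 189) (nat_lit 5) (nat_lit 191) (nat_lit 4) (nat_lit 189) (nat_lit 4) (nat_lit 369) (nat_lit 341) (nat_lit 190)) (XT.nd (nat_lit 78) (nat_lit 152) (nat_lit 0) (XT.lf (nat_lit 0) (nat_lit 5576556942478) (nat_lit 76) (nat_lit 5576557005693) (nat_lit 76) (nat_lit 3696111481303) (nat_lit 188) (nat_lit 4) (nat_lit 189) (nat_lit 5) (nat_lit 189) (nat_lit 4) (nat_lit 370) (nat_lit 341) (nat_lit 189)) (XT.lf (nat_lit 0) (nat_lit 569831935851) (nat_lit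 76) (nat_lit 569831999212) (nat_lit 152) (nat_lit 15174787670878) (nat_lit 186) (nat_lit 5) (nat_lit 187) (nat_lit 5) (nat_lit 188) (nat_lit 4) (nat_lit 371) (nat_lit 341) (nat_lit 188)))))) (XT.nd (nat_lit 390) (nat_lit 380) (nat_lit 0) (XT.nd (nat_lit 156) (nat_lit 228) (nat_lit 0) (XT.nd (nat_lit 78) (nat_lit 76) (nat_lit 0) (XT.lf (nat_lit 0) (nat_lit 7045003186608) (nat_lit 152) (nat_lit 5409833220369) (nat_lit 0) (nat_lit 5409833165163) (nat_lit 186) (nat_lit 5) (nat_lit 188) (nat_lit 4) (nat_lit 186) (nat_lit 4) (nat_lit 372) (nat_lit 341) (nat_lit 187)) (XT.lf (nat_lit 0) (nat_lit 7078185343877) (nat_lit 76) (nat_lit 7078185399179) (nat_lit 76) (nat_lit 5443015377638) (nat_lit 185) (nat_lit 4) (nat_lit 186) (nat_lit 5) (nat_lit 186) (nat_lit 4) (nat_lit 373) (nat_lit 341) (nat_lit 186))) (XT.nd (nat_lit 78) (nat_lit 76) (nat_lit 0) (XT.lf (nat_lit 0) (nat_lit 495506031074) (nat_lit 76)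 (nat_lit 495506086459) (nat_lit 152) (nat_lit 20551185340033) (nat_lit 183) (nat_lit 5) (nat_lit 184) (nat_lit 5) (nat_lit 185) (nat_lit 4) (nat_lit 374) (nat_lit 341) (nat_lit 185)) (XT.nd (nat_lit 78) (nat_lit 76) (nat_lit 0) (XT.lf (nat_lit 0) (nat_lit 8811510511769) (nat_lit 152) (nat_lit 7389623584605) (nat_lit 0) (nat_lit 7389623536381) (nat_lit 183) (nat_lit 5) (nat_lit 185) (nat_lit 4) (nat_lit 183) (nat_lit 4) (nat_lit 375) (nat_lit 341) (nat_lit 184)) (XT.lf (nat_lit 0) (nat_lit 9102803410799) (nat_lit 76) (nat_lit 9102803459078) (nat_lit 76) (nat_lit 7680916483634) (nat_lit 182) (nat_lit 4) (nat_lit 183) (nat_lit 5) (nat_lit 183) (nat_lit 4) (nat_lit 376) (nat_lit 341) (nat_lit 183))))) (XT.nd (nat_lit 156) (nat_lit 228) (nat_lit 0) (XT.nd (nat_lit 78) (nat_lit 0) (nat_lit 0) (XT.lf (nat_lit 0) (nat_lit 430874809572) (nat_lit 76) (nat_lit 430874857899) (nat_lit 152) (nat_lit 27598532738614)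 (nat_lit 180) (nat_lit 5) (nat_lit 181) (nat_lit 5) (nat_lit 182) (nat_lit 4) (nat_lit 377) (nat_lit 341) (nat_lit 182)) (XT.lf (nat_lit 0) (nat_lit 11213652040876) (nat_lit 152) (nat_lit 9977228625950) (nat_lit 0) (nat_lit 9977228583891) (nat_lit 180) (nat_lit 5) (nat_lit 182) (nat_lit 4) (nat_lit 180) (nat_lit 4) (nat_lit 378) (nat_lit 341) (nat_lit 181))) (XT.nd (nat_lit 78) (nat_lit 152) (nat_lit 0) (XT.lf (nat_lit 0) (nat_lit 11814025592155) (nat_lit 76) (nat_lit 11814025634245) (nat_lit 76) (nat_lit 10577602177229) (nat_lit 179) (nat_lit 4) (nat_lit 180) (nat_lit 5) (nat_lit 180) (nat_lit 4) (nat_lit 379) (nat_lit 341) (nat_lit 180)) (XT.nd (nat_lit 78) (nat_lit 0) (nat_lit 0) (XT.lf (nat_lit 0) (nat_lit 374673747421) (nat_lit 76) (nat_lit 374673789539) (nat_lit 152) (nat_lit 36863920526357) (nat_lit 177) (nat_lit 5) (nat_lit 178) (nat_lit 5) (nat_lit 179) (nat_lit 4) (nat_lit 380) (nat_lit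 341) (nat_lit 179)) (XT.lf (nat_lit 0) (nat_lit 14447819510169) (nat_lit 152) (nat_lit 13372668714581) (nat_lit 0) (nat_lit 13372668677936) (nat_lit 177) (nat_lit 5) (nat_lit 179) (nat_lit 4) (nat_lit 177) (nat_lit 4) (nat_lit 381) (nat_lit 341) (nat_lit 178))))))) (XT.nd (nat_lit 780) (nat_lit 760) (nat_lit 0) (XT.nd (nat_lit 390) (nat_lit 532) (nat_lit 0) (XT.nd (nat_lit 156) (nat_lit 0) (nat_lit 76) (XT.nd (nat_lit 78) (nat_lit 0) (nat_lit 0) (XT.lf (nat_lit 0) (nat_lit 220156901199) (nat_lit 380) (nat_lit 248561467959) (nat_lit 380) (nat_lit 248561467959) (nat_lit 215) (nat_lit 3) (nat_lit 220) (nat_lit 3) (nat_lit 220) (nat_lit 5) (nat_lit 342) (nat_lit 342) (nat_lit 216)) (XT.lf (nat_lit 76) (nat_lit 241672234726) (nat_lit 0) (nat_lit 241672264245) (nat_lit 380) (nat_lit 1057306076624) (nat_lit 216) (nat_lit 5) (nat_lit 215) (nat_lit 3) (nat_lit 220) (nat_lit 5) (nat_lit 343) (nat_lit 342)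 (nat_lit 215))) (XT.nd (nat_lit 78) (nat_lit 0) (nat_lit 0) (XT.lf (nat_lit 0) (nat_lit 583177702120) (nat_lit 304) (nat_lit 535962636356) (nat_lit 380) (nat_lit 535962588367) (nat_lit 216) (nat_lit 5) (nat_lit 220) (nat_lit 5) (nat_lit 221) (nat_lit 5) (nat_lit 344) (nat_lit 342) (nat_lit 214)) (XT.nd (nat_lit 78) (nat_lit 0) (nat_lit 76) (XT.lf (nat_lit 76) (nat_lit 362246945146) (nat_lit 0) (nat_lit 362247012544) (nat_lit 380) (nat_lit 1058252962297) (nat_lit 217) (nat_lit 5) (nat_lit 216) (nat_lit 5) (nat_lit 221) (nat_lit 5) (nat_lit 345) (nat_lit 342) (nat_lit 213)) (XT.lf (nat_lit 0) (nat_lit 937400645349) (nat_lit 304) (nat_lit 492288995487) (nat_lit 76) (nat_lit 492288922204) (nat_lit 217) (nat_lit 5) (nat_lit 221) (nat_lit 5) (nat_lit 218) (nat_lit 5) (nat_lit 346) (nat_lit 342) (nat_lit 212))))) (XT.nd (nat_lit 156) (nat_lit 380) (nat_lit 0) (XT.nd (nat_lit 78) (nat_lit 0) (nat_lit 0)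 (XT.lf (nat_lit 0) (nat_lit 612426183252) (nat_lit 304) (nat_lit 612426269298) (nat_lit 380) (nat_lit 850851132541) (nat_lit 213) (nat_lit 5) (nat_lit 217) (nat_lit 5) (nat_lit 218) (nat_lit 5) (nat_lit 347) (nat_lit 342) (nat_lit 211)) (XT.lf (nat_lit 0) (nat_lit 1595938748243) (nat_lit 380) (nat_lit 325235594534) (nat_lit 76) (nat_lit 325235510062) (nat_lit 213) (nat_lit 5) (nat_lit 218) (nat_lit 5) (nat_lit 214) (nat_lit 5) (nat_lit 348) (nat_lit 342) (nat_lit 210))) (XT.nd (nat_lit 78) (nat_lit 228) (nat_lit 0) (XT.lf (nat_lit 0) (nat_lit 1047615281512) (nat_lit 152) (nat_lit 1047615374374) (nat_lit 228) (nat_lit 336610004723) (nat_lit 211) (nat_lit 5) (nat_lit 213) (nat_lit 5) (nat_lit 214) (nat_lit 5) (nat_lit 349) (nat_lit 342) (nat_lit 209)) (XT.nd (nat_lit 78) (nat_lit 0) (nat_lit 0) (XT.lf (nat_lit 0) (nat_lit 20409879740) (nat_lit 152) (nat_lit 20409979900) (nat_lit 228) (nat_lit 2601316763149)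 (nat_lit 208) (nat_lit 5) (nat_lit 210) (nat_lit 5) (nat_lit 211) (nat_lit 5) (nat_lit 350) (nat_lit 342) (nat_lit 208)) (XT.lf (nat_lit 0) (nat_lit 564273975475) (nat_lit 228) (nat_lit 1149358952779) (nat_lit 76) (nat_lit 1149358860166) (nat_lit 208) (nat_lit 5) (nat_lit 211) (nat_lit 5) (nat_lit 209) (nat_lit 5) (nat_lit 351) (nat_lit 342) (nat_lit 207)))))) (XT.nd (nat_lit 390) (nat_lit 304) (nat_lit 0) (XT.nd (nat_lit 156) (nat_lit 304) (nat_lit 0) (XT.nd (nat_lit 78) (nat_lit 0) (nat_lit 0) (XT.lf (nat_lit 0) (nat_lit 595947463225) (nat_lit 152) (nat_lit 595947560635) (nat_lit 228) (nat_lit 1921232882757) (nat_lit 206) (nat_lit 5) (nat_lit 208) (nat_lit 5) (nat_lit 209) (nat_lit 5) (nat_lit 352) (nat_lit 342) (nat_lit 206)) (XT.lf (nat_lit 0) (nat_lit 2005146508032) (nat_lit 228) (nat_lit 690957465532) (nat_lit 76) (nat_lit 690957377200) (nat_lit 206) (nat_lit 5) (nat_lit 209) (nat_lit 5)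 (nat_lit 207) (nat_lit 4) (nat_lit 353) (nat_lit 342) (nat_lit 205))) (XT.nd (nat_lit 78) (nat_lit 228) (nat_lit 0) (XT.lf (nat_lit 0) (nat_lit 1515764322503) (nat_lit 76) (nat_lit 1515764413989) (nat_lit 152) (nat_lit 656884621792) (nat_lit 205) (nat_lit 5) (nat_lit 206) (nat_lit 5) (nat_lit 207) (nat_lit 4) (nat_lit 354) (nat_lit 342) (nat_lit 204)) (XT.nd (nat_lit 78) (nat_lit 0) (nat_lit 0) (XT.lf (nat_lit 0) (nat_lit 101598136148) (nat_lit 152) (nat_lit 101598230378) (nat_lit 228) (nat_lit 3824366275727) (nat_lit 202) (nat_lit 5) (nat_lit 204) (nat_lit 5) (nat_lit 205) (nat_lit 5) (nat_lit 355) (nat_lit 342) (nat_lit 203)) (XT.lf (nat_lit 0) (nat_lit 1307149708550) (nat_lit 228) (nat_lit 1539212879735) (nat_lit 76) (nat_lit 1539212795722) (nat_lit 202) (nat_lit 5) (nat_lit 205) (nat_lit 5) (nat_lit 203) (nat_lit 4) (nat_lit 356) (nat_lit 342) (nat_lit 202))))) (XT.nd (nat_lit 156) (nat_lit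 228) (nat_lit 0) (XT.nd (nat_lit 78) (nat_lit 0) (nat_lit 0) (XT.lf (nat_lit 0) (nat_lit 1318055930428) (nat_lit 76) (nat_lit 1318056016245) (nat_lit 152) (nat_lit 2152265706130) (nat_lit 201) (nat_lit 5) (nat_lit 202) (nat_lit 5) (nat_lit 203) (nat_lit 4) (nat_lit 357) (nat_lit 342) (nat_lit 201)) (XT.lf (nat_lit 0) (nat_lit 4266907362759) (nat_lit 152) (nat_lit 484659824407) (nat_lit 0) (nat_lit 484659748420) (nat_lit 201) (nat_lit 5) (nat_lit 203) (nat_lit 4) (nat_lit 201) (nat_lit 4) (nat_lit 358) (nat_lit 342) (nat_lit 200))) (XT.nd (nat_lit 78) (nat_lit 76) (nat_lit 0) (XT.lf (nat_lit 0) (nat_lit 559438924081) (nat_lit 152) (nat_lit 2579453928749) (nat_lit 76) (nat_lit 2579453851576) (nat_lit 199) (nat_lit 5) (nat_lit 201) (nat_lit 5) (nat_lit 200) (nat_lit 4) (nat_lit 359) (nat_lit 342) (nat_lit 199)) (XT.nd (nat_lit 78) (nat_lit 0) (nat_lit 0) (XT.lf (nat_lit 0) (nat_lit 1146135590429)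 (nat_lit 76) (nat_lit 1146135668633) (nat_lit 152) (nat_lit 3962489479570) (nat_lit 198) (nat_lit 5) (nat_lit 199) (nat_lit 5) (nat_lit 200) (nat_lit 4) (nat_lit 360) (nat_lit 342) (nat_lit 198)) (XT.lf (nat_lit 0) (nat_lit 4473718418809) (nat_lit 152) (nat_lit 1184807515894) (nat_lit 0) (nat_lit 1184807447111) (nat_lit 198) (nat_lit 5) (nat_lit 200) (nat_lit 4) (nat_lit 198) (nat_lit 4) (nat_lit 361) (nat_lit 342) (nat_lit 197))))))))
noncomputable def xc108 : XT := (XT.nd (nat_lit 45396) (nat_lit 0) (nat_lit 1596) (XT.nd (nat_lit 780) (nat_lit 836) (nat_lit 0) (XT.nd (nat_lit 390) (nat_lit 304) (nat_lit 0) (XT.nd (nat_lit 156) (nat_lit 228) (nat_lit 0) (XT.nd (nat_lit 78) (nat_lit 152) (nat_lit 0) (XT.lf (nat_lit 0) (nat_lit 3592866709813) (nat_lit 76) (nat_lit 3592866779275) (nat_lit 76) (nat_lit 303955806899) (nat_lit 197) (nat_lit 4) (nat_lit 198) (nat_lit 5) (nat_lit 198) (nat_lit 4) (nat_lit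 362) (nat_lit 342) (nat_lit 196)) (XT.lf (nat_lit 0) (nat_lit 996639643138) (nat_lit 76) (nat_lit 996639713189) (nat_lit 152) (nat_lit 6210929801331) (nat_lit 195) (nat_lit 5) (nat_lit 196) (nat_lit 5) (nat_lit 197) (nat_lit 4) (nat_lit 363) (nat_lit 342) (nat_lit 195))) (XT.nd (nat_lit 78) (nat_lit 228) (nat_lit 0) (XT.lf (nat_lit 0) (nat_lit 4899739070456) (nat_lit 152) (nat_lit 2039816546182) (nat_lit 0) (nat_lit 2039816484822) (nat_lit 195) (nat_lit 5) (nat_lit 197) (nat_lit 4) (nat_lit 195) (nat_lit 4) (nat_lit 364) (nat_lit 342) (nat_lit 194)) (XT.nd (nat_lit 78) (nat_lit 152) (nat_lit 0) (XT.lf (nat_lit 0) (nat_lit 4232441545865) (nat_lit 76) (nat_lit 4232441607612) (nat_lit 76) (nat_lit 1372519021591) (nat_lit 194) (nat_lit 4) (nat_lit 195) (nat_lit 5) (nat_lit 195) (nat_lit 4) (nat_lit 365) (nat_lit 342) (nat_lit 193)) (XT.lf (nat_lit 0) (nat_lit 866643167538) (nat_lit 76) (nat_lit 866643229622)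 (nat_lit 152) (nat_lit 9057900284187) (nat_lit 192) (nat_lit 5) (nat_lit 193) (nat_lit 5) (nat_lit 194) (nat_lit 4) (nat_lit 366) (nat_lit 342) (nat_lit 192))))) (XT.nd (nat_lit 156) (nat_lit 228) (nat_lit 0) (XT.nd (nat_lit 78) (nat_lit 76) (nat_lit 0) (XT.lf (nat_lit 0) (nat_lit 5595771408641) (nat_lit 152) (nat_lit 3108882257098) (nat_lit 0) (nat_lit 3108882202857) (nat_lit 192) (nat_lit 5) (nat_lit 194) (nat_lit 4) (nat_lit 192) (nat_lit 4) (nat_lit 367) (nat_lit 342) (nat_lit 191)) (XT.lf (nat_lit 0) (nat_lit 5145991181399) (nat_lit 76) (nat_lit 5145991235862) (nat_lit 76) (nat_lit 2659102029857) (nat_lit 191) (nat_lit 4) (nat_lit 192) (nat_lit 5) (nat_lit 192) (nat_lit 4) (nat_lit 368) (nat_lit 342) (nat_lit 190))) (XT.nd (nat_lit 78) (nat_lit 76) (nat_lit 0) (XT.lf (nat_lit 0) (nat_lit 753602754147) (nat_lit 76) (nat_lit 753602808803) (nat_lit 152) (nat_lit 12712938884341) (nat_lit 189)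 (nat_lit 5) (nat_lit 190) (nat_lit 5) (nat_lit 191) (nat_lit 4) (nat_lit 369) (nat_lit 342) (nat_lit 189)) (XT.nd (nat_lit 78) (nat_lit 76) (nat_lit 0) (XT.lf (nat_lit 0) (nat_lit 6631595938119) (nat_lit 152) (nat_lit 4469083632430) (nat_lit 0) (nat_lit 4469083584757) (nat_lit 189) (nat_lit 5) (nat_lit 191) (nat_lit 4) (nat_lit 189) (nat_lit 4) (nat_lit 370) (nat_lit 342) (nat_lit 188)) (XT.lf (nat_lit 0) (nat_lit 6413040500204) (nat_lit 76) (nat_lit 6413040548004) (nat_lit 76) (nat_lit 4250528194515) (nat_lit 188) (nat_lit 4) (nat_lit 189) (nat_lit 5) (nat_lit 189) (nat_lit 4) (nat_lit 371) (nat_lit 342) (nat_lit 187)))))) (XT.nd (nat_lit 390) (nat_lit 456) (nat_lit 0) (XT.nd (nat_lit 156) (nat_lit 228) (nat_lit 0) (XT.nd (nat_lit 78) (nat_lit 0) (nat_lit 0) (XT.lf (nat_lit 0) (nat_lit 655306742603) (nat_lit 76) (nat_lit 655306790513) (nat_lit 152) (nat_lit 17451005812546) (nat_lit 186) (nat_lit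 5) (nat_lit 187) (nat_lit 5) (nat_lit 188) (nat_lit 4) (nat_lit 372) (nat_lit 342) (nat_lit 186)) (XT.lf (nat_lit 0) (nat_lit 8101753671686) (nat_lit 152) (nat_lit 6221308188478) (nat_lit 0) (nat_lit 6221308146734) (nat_lit 186) (nat_lit 5) (nat_lit 188) (nat_lit 4) (nat_lit 186) (nat_lit 4) (nat_lit 373) (nat_lit 342) (nat_lit 185))) (XT.nd (nat_lit 78) (nat_lit 152) (nat_lit 0) (XT.lf (nat_lit 0) (nat_lit 8139913159725) (nat_lit 76) (nat_lit 8139913201542) (nat_lit 76) (nat_lit 6259467676518) (nat_lit 185) (nat_lit 4) (nat_lit 186) (nat_lit 5) (nat_lit 186) (nat_lit 4) (nat_lit 374) (nat_lit 342) (nat_lit 184)) (XT.nd (nat_lit 78) (nat_lit 0) (nat_lit 0) (XT.lf (nat_lit 0) (nat_lit 569831950014) (nat_lit 76) (nat_lit 569831991893) (nat_lit 152) (nat_lit 23633863133283) (nat_lit 183) (nat_lit 5) (nat_lit 184) (nat_lit 5) (nat_lit 185) (nat_lit 4) (nat_lit 375) (nat_lit 342) (nat_lit 183)) (XT.lf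 (nat_lit 0) (nat_lit 10133237094670) (nat_lit 152) (nat_lit 8498067109271) (nat_lit 0) (nat_lit 8498067072807) (nat_lit 183) (nat_lit 5) (nat_lit 185) (nat_lit 4) (nat_lit 183) (nat_lit 4) (nat_lit 376) (nat_lit 342) (nat_lit 182))))) (XT.nd (nat_lit 156) (nat_lit 228) (nat_lit 0) (XT.nd (nat_lit 78) (nat_lit 152) (nat_lit 0) (XT.lf (nat_lit 0) (nat_lit 10468223934851) (nat_lit 76) (nat_lit 10468223971357) (nat_lit 76) (nat_lit 8833053949453) (nat_lit 182) (nat_lit 4) (nat_lit 183) (nat_lit 5) (nat_lit 183) (nat_lit 4) (nat_lit 377) (nat_lit 342) (nat_lit 181)) (XT.lf (nat_lit 0) (nat_lit 495506043446) (nat_lit 76) (nat_lit 495506079988) (nat_lit 152) (nat_lit 31738312642686) (nat_lit 180) (nat_lit 5) (nat_lit 181) (nat_lit 5) (nat_lit 182) (nat_lit 4) (nat_lit 378) (nat_lit 342) (nat_lit 180))) (XT.nd (nat_lit 78) (nat_lit 228) (nat_lit 0) (XT.lf (nat_lit 0) (nat_lit 12895699852326) (nat_lit 152)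 (nat_lit 11473812908502) (nat_lit 0) (nat_lit 11473812876699) (nat_lit 180) (nat_lit 5) (nat_lit 182) (nat_lit 4) (nat_lit 180) (nat_lit 4) (nat_lit 379) (nat_lit 342) (nat_lit 179)) (XT.nd (nat_lit 78) (nat_lit 152) (nat_lit 0) (XT.lf (nat_lit 0) (nat_lit 13586129441803) (nat_lit 76) (nat_lit 13586129473630) (nat_lit 76) (nat_lit 12164242497979) (nat_lit 179) (nat_lit 4) (nat_lit 180) (nat_lit 5) (nat_lit 180) (nat_lit 4) (nat_lit 380) (nat_lit 342) (nat_lit 178)) (XT.lf (nat_lit 0) (nat_lit 430874820363) (nat_lit 76) (nat_lit 430874852210) (nat_lit 152) (nat_lit 42393508599480) (nat_lit 177) (nat_lit 5) (nat_lit 178) (nat_lit 5) (nat_lit 179) (nat_lit 4) (nat_lit 381) (nat_lit 342) (nat_lit 177))))))) (XT.nd (nat_lit 780) (nat_lit 760) (nat_lit 0) (XT.nd (nat_lit 390) (nat_lit 532) (nat_lit 0) (XT.nd (nat_lit 156) (nat_lit 0) (nat_lit 76) (XT.nd (nat_lit 78) (nat_lit 0) (nat_lit 0) (XT.lf (nat_lit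 0) (nat_lit 253180464676) (nat_lit 380) (nat_lit 285845671882) (nat_lit 380) (nat_lit 285845671882) (nat_lit 215) (nat_lit 3) (nat_lit 220) (nat_lit 3) (nat_lit 220) (nat_lit 5) (nat_lit 343) (nat_lit 343) (nat_lit 214)) (XT.lf (nat_lit 76) (nat_lit 277923100996) (nat_lit 0) (nat_lit 277923123317) (nat_lit 380) (nat_lit 1215901930045) (nat_lit 216) (nat_lit 5) (nat_lit 215) (nat_lit 3) (nat_lit 220) (nat_lit 5) (nat_lit 344) (nat_lit 343) (nat_lit 213))) (XT.nd (nat_lit 78) (nat_lit 0) (nat_lit 0) (XT.lf (nat_lit 0) (nat_lit 670654400649) (nat_lit 304) (nat_lit 616356997513) (nat_lit 380) (nat_lit 616356961226) (nat_lit 216) (nat_lit 5) (nat_lit 220) (nat_lit 5) (nat_lit 221) (nat_lit 5) (nat_lit 345) (nat_lit 343) (nat_lit 212)) (XT.nd (nat_lit 78) (nat_lit 0) (nat_lit 76) (XT.lf (nat_lit 76) (nat_lit 416584019656) (nat_lit 0) (nat_lit 416584070619) (nat_lit 380) (nat_lit 1216990861871) (nat_lit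 217) (nat_lit 5) (nat_lit 216) (nat_lit 5) (nat_lit 221) (nat_lit 5) (nat_lit 346) (nat_lit 343) (nat_lit 211)) (XT.lf (nat_lit 0) (nat_lit 1078010775781) (nat_lit 304) (nat_lit 566132311042) (nat_lit 76) (nat_lit 566132255629) (nat_lit 217) (nat_lit 5) (nat_lit 221) (nat_lit 5) (nat_lit 218) (nat_lit 5) (nat_lit 347) (nat_lit 343) (nat_lit 210))))) (XT.nd (nat_lit 156) (nat_lit 380) (nat_lit 0) (XT.nd (nat_lit 78) (nat_lit 0) (nat_lit 0) (XT.lf (nat_lit 0) (nat_lit 704290142974) (nat_lit 304) (nat_lit 704290208037) (nat_lit 380) (nat_lit 978478767258) (nat_lit 213) (nat_lit 5) (nat_lit 217) (nat_lit 5) (nat_lit 218) (nat_lit 5) (nat_lit 348) (nat_lit 343) (nat_lit 209)) (XT.lf (nat_lit 0) (nat_lit 1835329587129) (nat_lit 380) (nat_lit 374020901756) (nat_lit 76) (nat_lit 374020837883) (nat_lit 213) (nat_lit 5) (nat_lit 218) (nat_lit 5) (nat_lit 214) (nat_lit 5) (nat_lit 349) (nat_lit 343) (nat_lit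 208))) (XT.nd (nat_lit 78) (nat_lit 228) (nat_lit 0) (XT.lf (nat_lit 0) (nat_lit 1204757604244) (nat_lit 152) (nat_lit 1204757674461) (nat_lit 228) (nat_lit 387101477330) (nat_lit 211) (nat_lit 5) (nat_lit 213) (nat_lit 5) (nat_lit 214) (nat_lit 5) (nat_lit 350) (nat_lit 343) (nat_lit 207)) (XT.nd (nat_lit 78) (nat_lit 0) (nat_lit 0) (XT.lf (nat_lit 0) (nat_lit 23471393209) (nat_lit 152) (nat_lit 23471468944) (nat_lit 228) (nat_lit 2991514250522) (nat_lit 208) (nat_lit 5) (nat_lit 210) (nat_lit 5) (nat_lit 211) (nat_lit 5) (nat_lit 351) (nat_lit 343) (nat_lit 206)) (XT.lf (nat_lit 0) (nat_lit 648915092573) (nat_lit 228) (nat_lit 1321762765510) (nat_lit 76) (nat_lit 1321762695482) (nat_lit 208) (nat_lit 5) (nat_lit 211) (nat_lit 5) (nat_lit 209) (nat_lit 5) (nat_lit 352) (nat_lit 343) (nat_lit 205)))))) (XT.nd (nat_lit 390) (nat_lit 304) (nat_lit 0) (XT.nd (nat_lit 156) (nat_lit 304) (nat_lit 0)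 (XT.nd (nat_lit 78) (nat_lit 0) (nat_lit 0) (XT.lf (nat_lit 0) (nat_lit 685339611522) (nat_lit 152) (nat_lit 685339685178) (nat_lit 228) (nat_lit 2209417793021) (nat_lit 206) (nat_lit 5) (nat_lit 208) (nat_lit 5) (nat_lit 209) (nat_lit 5) (nat_lit 353) (nat_lit 343) (nat_lit 204)) (XT.lf (nat_lit 0) (nat_lit 2305918501329) (nat_lit 228) (nat_lit 794601058139) (nat_lit 76) (nat_lit 794600991347) (nat_lit 206) (nat_lit 5) (nat_lit 209) (nat_lit 5) (nat_lit 207) (nat_lit 4) (nat_lit 354) (nat_lit 343) (nat_lit 203))) (XT.nd (nat_lit 78) (nat_lit 228) (nat_lit 0) (XT.lf (nat_lit 0) (nat_lit 1743128996864) (nat_lit 76) (nat_lit 1743129066041) (nat_lit 152) (nat_lit 755417296731) (nat_lit 205) (nat_lit 5) (nat_lit 206) (nat_lit 5) (nat_lit 207) (nat_lit 4) (nat_lit 355) (nat_lit 343) (nat_lit 202)) (XT.nd (nat_lit 78) (nat_lit 0) (nat_lit 0) (XT.lf (nat_lit 0) (nat_lit 116837882932) (nat_lit 152) (nat_lit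 116837954183) (nat_lit 228) (nat_lit 4398021199132) (nat_lit 202) (nat_lit 5) (nat_lit 204) (nat_lit 5) (nat_lit 205) (nat_lit 5) (nat_lit 356) (nat_lit 343) (nat_lit 201)) (XT.lf (nat_lit 0) (nat_lit 1503222178794) (nat_lit 228) (nat_lit 1770094787122) (nat_lit 76) (nat_lit 1770094723596) (nat_lit 202) (nat_lit 5) (nat_lit 205) (nat_lit 5) (nat_lit 203) (nat_lit 4) (nat_lit 357) (nat_lit 343) (nat_lit 200))))) (XT.nd (nat_lit 156) (nat_lit 228) (nat_lit 0) (XT.nd (nat_lit 78) (nat_lit 0) (nat_lit 0) (XT.lf (nat_lit 0) (nat_lit 1515764343449) (nat_lit 76) (nat_lit 1515764408339) (nat_lit 152) (nat_lit 2475105546970) (nat_lit 201) (nat_lit 5) (nat_lit 202) (nat_lit 5) (nat_lit 203) (nat_lit 4) (nat_lit 358) (nat_lit 343) (nat_lit 199)) (XT.lf (nat_lit 0) (nat_lit 4906943478947) (nat_lit 152) (nat_lit 557358776333) (nat_lit 0) (nat_lit 557358718876) (nat_lit 201) (nat_lit 5) (nat_lit 203) (nat_lit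 4) (nat_lit 201) (nat_lit 4) (nat_lit 359) (nat_lit 343) (nat_lit 198))) (XT.nd (nat_lit 78) (nat_lit 76) (nat_lit 0) (XT.lf (nat_lit 0) (nat_lit 643354774320) (nat_lit 152) (nat_lit 2966371996179) (nat_lit 76) (nat_lit 2966371937825) (nat_lit 199) (nat_lit 5) (nat_lit 201) (nat_lit 5) (nat_lit 200) (nat_lit 4) (nat_lit 360) (nat_lit 343) (nat_lit 197)) (XT.nd (nat_lit 78) (nat_lit 0) (nat_lit 0) (XT.lf (nat_lit 0) (nat_lit 1318055949881) (nat_lit 76) (nat_lit 1318056009015) (nat_lit 152) (nat_lit 4556862888884) (nat_lit 198) (nat_lit 5) (nat_lit 199) (nat_lit 5) (nat_lit 200) (nat_lit 4) (nat_lit 361) (nat_lit 343) (nat_lit 196)) (XT.lf (nat_lit 0) (nat_lit 5144776191530) (nat_lit 152) (nat_lit 1362528624040) (nat_lit 0) (nat_lit 1362528572030) (nat_lit 198) (nat_lit 5) (nat_lit 200) (nat_lit 4) (nat_lit 198) (nat_lit 4) (nat_lit 362) (nat_lit 343) (nat_lit 195))))))))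
noncomputable def xc109 : XT := (XT.nd (nat_lit 45474) (nat_lit 0) (nat_lit 1368) (XT.nd (nat_lit 780) (nat_lit 684) (nat_lit 0) (XT.nd (nat_lit 390) (nat_lit 304) (nat_lit 0) (XT.nd (nat_lit 156) (nat_lit 228) (nat_lit 0) (XT.nd (nat_lit 78) (nat_lit 152) (nat_lit 0) (XT.lf (nat_lit 0) (nat_lit 4131796734649) (nat_lit 76) (nat_lit 4131796787172) (nat_lit 76) (nat_lit 349549167159) (nat_lit 197) (nat_lit 4) (nat_lit 198) (nat_lit 5) (nat_lit 198) (nat_lit 4) (nat_lit 363) (nat_lit 343) (nat_lit 194)) (XT.lf (nat_lit 0) (nat_lit 1146135608053) (nat_lit 76) (nat_lit 1146135661022) (nat_lit 152) (nat_lit 7142569260837) (nat_lit 195) (nat_lit 5) (nat_lit 196) (nat_lit 5) (nat_lit 197) (nat_lit 4) (nat_lit 364) (nat_lit 343) (nat_lit 193))) (XT.nd (nat_lit 78) (nat_lit 228) (nat_lit 0) (XT.lf (nat_lit 0) (nat_lit 5634699939440) (nat_lit 152) (nat_lit 2345789011187) (nat_lit 0) (nat_lit 2345788964791)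 (nat_lit 195) (nat_lit 5) (nat_lit 197) (nat_lit 4) (nat_lit 195) (nat_lit 4) (nat_lit 365) (nat_lit 343) (nat_lit 192)) (XT.nd (nat_lit 78) (nat_lit 152) (nat_lit 0) (XT.lf (nat_lit 0) (nat_lit 4867307793898) (nat_lit 76) (nat_lit 4867307840588) (nat_lit 76) (nat_lit 1578396865645) (nat_lit 194) (nat_lit 4) (nat_lit 195) (nat_lit 5) (nat_lit 195) (nat_lit 4) (nat_lit 366) (nat_lit 343) (nat_lit 191)) (XT.lf (nat_lit 0) (nat_lit 996639658868) (nat_lit 76) (nat_lit 996639705813) (nat_lit 152) (nat_lit 10416585317677) (nat_lit 192) (nat_lit 5) (nat_lit 193) (nat_lit 5) (nat_lit 194) (nat_lit 4) (nat_lit 367) (nat_lit 343) (nat_lit 190))))) (XT.nd (nat_lit 156) (nat_lit 228) (nat_lit 0) (XT.nd (nat_lit 78) (nat_lit 76) (nat_lit 0) (XT.lf (nat_lit 0) (nat_lit 6435137127144) (nat_lit 152) (nat_lit 3575214580837) (nat_lit 0) (nat_lit 3575214539823) (nat_lit 192) (nat_lit 5) (nat_lit 194) (nat_lit 4)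 (nat_lit 192) (nat_lit 4) (nat_lit 368) (nat_lit 343) (nat_lit 189)) (XT.lf (nat_lit 0) (nat_lit 5917889872761) (nat_lit 76) (nat_lit 5917889913943) (nat_lit 76) (nat_lit 3057967326454) (nat_lit 191) (nat_lit 4) (nat_lit 192) (nat_lit 5) (nat_lit 192) (nat_lit 4) (nat_lit 369) (nat_lit 343) (nat_lit 188))) (XT.nd (nat_lit 78) (nat_lit 76) (nat_lit 0) (XT.lf (nat_lit 0) (nat_lit 866643181448) (nat_lit 76) (nat_lit 866643222776) (nat_lit 152) (nat_lit 14619879709138) (nat_lit 189) (nat_lit 5) (nat_lit 190) (nat_lit 5) (nat_lit 191) (nat_lit 4) (nat_lit 370) (nat_lit 343) (nat_lit 187)) (XT.nd (nat_lit 78) (nat_lit 76) (nat_lit 0) (XT.lf (nat_lit 0) (nat_lit 7626335335040) (nat_lit 152) (nat_lit 5139446164339) (nat_lit 0) (nat_lit 5139446128292) (nat_lit 189) (nat_lit 5) (nat_lit 191) (nat_lit 4) (nat_lit 189) (nat_lit 4) (nat_lit 371) (nat_lit 343) (nat_lit 186)) (XT.lf (nat_lit 0) (nat_lit 7374996587601)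 (nat_lit 76) (nat_lit 7374996623744) (nat_lit 76) (nat_lit 4888107416900) (nat_lit 188) (nat_lit 4) (nat_lit 189) (nat_lit 5) (nat_lit 189) (nat_lit 4) (nat_lit 372) (nat_lit 343) (nat_lit 185)))))) (XT.nd (nat_lit 390) (nat_lit 304) (nat_lit 0) (XT.nd (nat_lit 156) (nat_lit 228) (nat_lit 0) (XT.nd (nat_lit 78) (nat_lit 0) (nat_lit 0) (XT.lf (nat_lit 0) (nat_lit 753602766376) (nat_lit 76) (nat_lit 753602802602) (nat_lit 152) (nat_lit 20068656677651) (nat_lit 186) (nat_lit 5) (nat_lit 187) (nat_lit 5) (nat_lit 188) (nat_lit 4) (nat_lit 373) (nat_lit 343) (nat_lit 184)) (XT.lf (nat_lit 0) (nat_lit 9317016727797) (nat_lit 152) (nat_lit 7154504405448) (nat_lit 0) (nat_lit 7154504373884) (nat_lit 186) (nat_lit 5) (nat_lit 188) (nat_lit 4) (nat_lit 186) (nat_lit 4) (nat_lit 374) (nat_lit 343) (nat_lit 183))) (XT.nd (nat_lit 78) (nat_lit 152) (nat_lit 0) (XT.lf (nat_lit 0) (nat_lit 9360900144472) (nat_lit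 76) (nat_lit 9360900176091) (nat_lit 76) (nat_lit 7198387822123) (nat_lit 185) (nat_lit 4) (nat_lit 186) (nat_lit 5) (nat_lit 186) (nat_lit 4) (nat_lit 375) (nat_lit 343) (nat_lit 182)) (XT.nd (nat_lit 78) (nat_lit 0) (nat_lit 0) (XT.lf (nat_lit 0) (nat_lit 655306753312) (nat_lit 76) (nat_lit 655306784979) (nat_lit 152) (nat_lit 27178942597412) (nat_lit 183) (nat_lit 5) (nat_lit 184) (nat_lit 5) (nat_lit 185) (nat_lit 4) (nat_lit 376) (nat_lit 343) (nat_lit 181)) (XT.lf (nat_lit 0) (nat_lit 11653222663509) (nat_lit 152) (nat_lit 9772777165814) (nat_lit 0) (nat_lit 9772777138242) (nat_lit 183) (nat_lit 5) (nat_lit 185) (nat_lit 4) (nat_lit 183) (nat_lit 4) (nat_lit 377) (nat_lit 343) (nat_lit 180))))) (XT.nd (nat_lit 156) (nat_lit 76) (nat_lit 0) (XT.nd (nat_lit 78) (nat_lit 152) (nat_lit 0) (XT.lf (nat_lit 0) (nat_lit 12038457534479) (nat_lit 76) (nat_lit 12038457562083) (nat_lit 76) (nat_lit 10158012036784)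 (nat_lit 182) (nat_lit 4) (nat_lit 183) (nat_lit 5) (nat_lit 183) (nat_lit 4) (nat_lit 378) (nat_lit 343) (nat_lit 179)) (XT.lf (nat_lit 0) (nat_lit 569831959369) (nat_lit 76) (nat_lit 569831987000) (nat_lit 152) (nat_lit 36499059534008) (nat_lit 180) (nat_lit 5) (nat_lit 181) (nat_lit 5) (nat_lit 182) (nat_lit 4) (nat_lit 379) (nat_lit 343) (nat_lit 178))) (XT.nd (nat_lit 78) (nat_lit 76) (nat_lit 0) (XT.lf (nat_lit 0) (nat_lit 14830054834197) (nat_lit 152) (nat_lit 13194884836202) (nat_lit 0) (nat_lit 13194884812154) (nat_lit 180) (nat_lit 5) (nat_lit 182) (nat_lit 4) (nat_lit 180) (nat_lit 4) (nat_lit 380) (nat_lit 343) (nat_lit 177)) (XT.nd (nat_lit 43992) (nat_lit 0) (nat_lit 2736) (XT.lf (nat_lit 0) (nat_lit 15624048866260) (nat_lit 76) (nat_lit 15624048890325) (nat_lit 76) (nat_lit 13988878868264) (nat_lit 179) (nat_lit 4) (nat_lit 180) (nat_lit 5) (nat_lit 180) (nat_lit 4) (nat_lit 381)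 (nat_lit 343) (nat_lit 176)) (XT.lf (nat_lit 0) (nat_lit 291157555774) (nat_lit 380) (nat_lit 328722510362) (nat_lit 380) (nat_lit 328722510362) (nat_lit 215) (nat_lit 3) (nat_lit 220) (nat_lit 3) (nat_lit 220) (nat_lit 5) (nat_lit 344) (nat_lit 344) (nat_lit 212))))))) (XT.nd (nat_lit 780) (nat_lit 684) (nat_lit 0) (XT.nd (nat_lit 390) (nat_lit 532) (nat_lit 0) (XT.nd (nat_lit 156) (nat_lit 152) (nat_lit 0) (XT.nd (nat_lit 78) (nat_lit 0) (nat_lit 76) (XT.lf (nat_lit 76) (nat_lit 319611589633) (nat_lit 0) (nat_lit 319611606511) (nat_lit 380) (nat_lit 1398287175641) (nat_lit 216) (nat_lit 5) (nat_lit 215) (nat_lit 3) (nat_lit 220) (nat_lit 5) (nat_lit 345) (nat_lit 344) (nat_lit 211)) (XT.lf (nat_lit 0) (nat_lit 771252593420) (nat_lit 304) (nat_lit 708810521206) (nat_lit 380) (nat_lit 708810493768) (nat_lit 216) (nat_lit 5) (nat_lit 220) (nat_lit 5) (nat_lit 221) (nat_lit 5) (nat_lit 346) (nat_lit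 344) (nat_lit 210))) (XT.nd (nat_lit 78) (nat_lit 228) (nat_lit 0) (XT.lf (nat_lit 76) (nat_lit 479071647359) (nat_lit 0) (nat_lit 479071685894) (nat_lit 380) (nat_lit 1399539457299) (nat_lit 217) (nat_lit 5) (nat_lit 216) (nat_lit 5) (nat_lit 221) (nat_lit 5) (nat_lit 347) (nat_lit 344) (nat_lit 209)) (XT.nd (nat_lit 78) (nat_lit 304) (nat_lit 0) (XT.lf (nat_lit 0) (nat_lit 1239712417577) (nat_lit 304) (nat_lit 651052132164) (nat_lit 76) (nat_lit 651052090264) (nat_lit 217) (nat_lit 5) (nat_lit 221) (nat_lit 5) (nat_lit 218) (nat_lit 5) (nat_lit 348) (nat_lit 344) (nat_lit 208)) (XT.lf (nat_lit 0) (nat_lit 809933688794) (nat_lit 304) (nat_lit 809933737990) (nat_lit 380) (nat_lit 1125250555757) (nat_lit 213) (nat_lit 5) (nat_lit 217) (nat_lit 5) (nat_lit 218) (nat_lit 5) (nat_lit 349) (nat_lit 344) (nat_lit 207))))) (XT.nd (nat_lit 156) (nat_lit 380) (nat_lit 0) (XT.nd (nat_lit 78) (nat_lit 152)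 (nat_lit 0) (XT.lf (nat_lit 0) (nat_lit 2110629045349) (nat_lit 380) (nat_lit 430124012854) (nat_lit 76) (nat_lit 430123964557) (nat_lit 213) (nat_lit 5) (nat_lit 218) (nat_lit 5) (nat_lit 214) (nat_lit 5) (nat_lit 350) (nat_lit 344) (nat_lit 206)) (XT.lf (nat_lit 0) (nat_lit 1385471267947) (nat_lit 152) (nat_lit 1385471321042) (nat_lit 228) (nat_lit 445166677681) (nat_lit 211) (nat_lit 5) (nat_lit 213) (nat_lit 5) (nat_lit 214) (nat_lit 5) (nat_lit 351) (nat_lit 344) (nat_lit 205))) (XT.nd (nat_lit 78) (nat_lit 152) (nat_lit 0) (XT.lf (nat_lit 0) (nat_lit 26992126014) (nat_lit 152) (nat_lit 26992183280) (nat_lit 228) (nat_lit 3440241367608) (nat_lit 208) (nat_lit 5) (nat_lit 210) (nat_lit 5) (nat_lit 211) (nat_lit 5) (nat_lit 352) (nat_lit 344) (nat_lit 204)) (XT.nd (nat_lit 78) (nat_lit 152) (nat_lit 0) (XT.lf (nat_lit 0) (nat_lit 746252372170) (nat_lit 228) (nat_lit 1520027157513) (nat_lit 76)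 (nat_lit 1520027104561) (nat_lit 208) (nat_lit 5) (nat_lit 211) (nat_lit 5) (nat_lit 209) (nat_lit 5) (nat_lit 353) (nat_lit 344) (nat_lit 203)) (XT.lf (nat_lit 0) (nat_lit 788140575037) (nat_lit 152) (nat_lit 788140630731) (nat_lit 228) (nat_lit 2540830445226) (nat_lit 206) (nat_lit 5) (nat_lit 208) (nat_lit 5) (nat_lit 209) (nat_lit 5) (nat_lit 354) (nat_lit 344) (nat_lit 202)))))) (XT.nd (nat_lit 390) (nat_lit 304) (nat_lit 0) (XT.nd (nat_lit 156) (nat_lit 304) (nat_lit 0) (XT.nd (nat_lit 78) (nat_lit 76) (nat_lit 0) (XT.lf (nat_lit 0) (nat_lit 2651806289453) (nat_lit 228) (nat_lit 913791196275) (nat_lit 76) (nat_lit 913791145771) (nat_lit 206) (nat_lit 5) (nat_lit 209) (nat_lit 5) (nat_lit 207) (nat_lit 4) (nat_lit 355) (nat_lit 344) (nat_lit 201)) (XT.lf (nat_lit 0) (nat_lit 2004598366043) (nat_lit 76) (nat_lit 2004598418351) (nat_lit 152) (nat_lit 868729877381) (nat_lit 205) (nat_lit 5) (nat_lit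 206) (nat_lit 5) (nat_lit 207) (nat_lit 4) (nat_lit 356) (nat_lit 344) (nat_lit 200))) (XT.nd (nat_lit 78) (nat_lit 76) (nat_lit 0) (XT.lf (nat_lit 0) (nat_lit 134363585306) (nat_lit 152) (nat_lit 134363639182) (nat_lit 228) (nat_lit 5057724365427) (nat_lit 202) (nat_lit 5) (nat_lit 204) (nat_lit 5) (nat_lit 205) (nat_lit 5) (nat_lit 357) (nat_lit 344) (nat_lit 199)) (XT.nd (nat_lit 78) (nat_lit 76) (nat_lit 0) (XT.lf (nat_lit 0) (nat_lit 1728705516171) (nat_lit 228) (nat_lit 2035608986610) (nat_lit 76) (nat_lit 2035608938575) (nat_lit 202) (nat_lit 5) (nat_lit 205) (nat_lit 5) (nat_lit 203) (nat_lit 4) (nat_lit 358) (nat_lit 344) (nat_lit 198)) (XT.lf (nat_lit 0) (nat_lit 1743129012702) (nat_lit 76) (nat_lit 1743129061768) (nat_lit 152) (nat_lit 2846371367614) (nat_lit 201) (nat_lit 5) (nat_lit 202) (nat_lit 5) (nat_lit 203) (nat_lit 4) (nat_lit 359) (nat_lit 344) (nat_lit 197))))) (XT.nd (nat_lit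 156) (nat_lit 152) (nat_lit 0) (XT.nd (nat_lit 78) (nat_lit 152) (nat_lit 0) (XT.lf (nat_lit 0) (nat_lit 5642985009692) (nat_lit 152) (nat_lit 640962576349) (nat_lit 0) (nat_lit 640962532903) (nat_lit 201) (nat_lit 5) (nat_lit 203) (nat_lit 4) (nat_lit 201) (nat_lit 4) (nat_lit 360) (nat_lit 344) (nat_lit 196)) (XT.lf (nat_lit 0) (nat_lit 739857999259) (nat_lit 152) (nat_lit 3411327779059) (nat_lit 76) (nat_lit 3411327734935) (nat_lit 199) (nat_lit 5) (nat_lit 201) (nat_lit 5) (nat_lit 200) (nat_lit 4) (nat_lit 361) (nat_lit 344) (nat_lit 195))) (XT.nd (nat_lit 78) (nat_lit 76) (nat_lit 0) (XT.lf (nat_lit 0) (nat_lit 1515764358158) (nat_lit 76) (nat_lit 1515764402871) (nat_lit 152) (nat_lit 5240392312674) (nat_lit 198) (nat_lit 5) (nat_lit 199) (nat_lit 5) (nat_lit 200) (nat_lit 4) (nat_lit 362) (nat_lit 344) (nat_lit 194)) (XT.nd (nat_lit 78) (nat_lit 76) (nat_lit 0) (XT.lf (nat_lit 0) (nat_lit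 5916492627746) (nat_lit 152) (nat_lit 1566907903100) (nat_lit 0) (nat_lit 1566907863773) (nat_lit 198) (nat_lit 5) (nat_lit 200) (nat_lit 4) (nat_lit 198) (nat_lit 4) (nat_lit 363) (nat_lit 344) (nat_lit 193)) (XT.lf (nat_lit 0) (nat_lit 4751566258732) (nat_lit 76) (nat_lit 4751566298447) (nat_lit 76) (nat_lit 401981534086) (nat_lit 197) (nat_lit 4) (nat_lit 198) (nat_lit 5) (nat_lit 198) (nat_lit 4) (nat_lit 364) (nat_lit 344) (nat_lit 192))))))))
noncomputable def xc110 : XT := (XT.nd (nat_lit 45552) (nat_lit 0) (nat_lit 1140) (XT.nd (nat_lit 780) (nat_lit 456) (nat_lit 0) (XT.nd (nat_lit 390) (nat_lit 456) (nat_lit 0) (XT.nd (nat_lit 156) (nat_lit 228) (nat_lit 0) (XT.nd (nat_lit 78) (nat_lit 0) (nat_lit 0) (XT.lf (nat_lit 0) (nat_lit 1318055963208) (nat_lit 76) (nat_lit 1318056003259) (nat_lit 152) (nat_lit 8213954641877) (nat_lit 195) (nat_lit 5) (nat_lit 196) (nat_lit 5) (nat_lit 197) (nat_lit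 4) (nat_lit 365) (nat_lit 344) (nat_lit 191)) (XT.lf (nat_lit 0) (nat_lit 6479904936719) (nat_lit 152) (nat_lit 2697657350070) (nat_lit 0) (nat_lit 2697657314987) (nat_lit 195) (nat_lit 5) (nat_lit 197) (nat_lit 4) (nat_lit 195) (nat_lit 4) (nat_lit 366) (nat_lit 344) (nat_lit 190))) (XT.nd (nat_lit 78) (nat_lit 152) (nat_lit 0) (XT.lf (nat_lit 0) (nat_lit 5597403975197) (nat_lit 76) (nat_lit 5597404010501) (nat_lit 76) (nat_lit 1815156388547) (nat_lit 194) (nat_lit 4) (nat_lit 195) (nat_lit 5) (nat_lit 195) (nat_lit 4) (nat_lit 367) (nat_lit 344) (nat_lit 189)) (XT.nd (nat_lit 78) (nat_lit 0) (nat_lit 0) (XT.lf (nat_lit 0) (nat_lit 1146135619947) (nat_lit 76) (nat_lit 1146135655444) (nat_lit 152) (nat_lit 11979073108419) (nat_lit 192) (nat_lit 5) (nat_lit 193) (nat_lit 5) (nat_lit 194) (nat_lit 4) (nat_lit 368) (nat_lit 344) (nat_lit 188)) (XT.lf (nat_lit 0) (nat_lit 7400407701665) (nat_lit 152)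 (nat_lit 4111496756753) (nat_lit 0) (nat_lit 4111496725740) (nat_lit 192) (nat_lit 5) (nat_lit 194) (nat_lit 4) (nat_lit 192) (nat_lit 4) (nat_lit 369) (nat_lit 344) (nat_lit 187))))) (XT.nd (nat_lit 156) (nat_lit 228) (nat_lit 0) (XT.nd (nat_lit 78) (nat_lit 152) (nat_lit 0) (XT.lf (nat_lit 0) (nat_lit 6805573364376) (nat_lit 76) (nat_lit 6805573395515) (nat_lit 76) (nat_lit 3516662419464) (nat_lit 191) (nat_lit 4) (nat_lit 192) (nat_lit 5) (nat_lit 192) (nat_lit 4) (nat_lit 370) (nat_lit 344) (nat_lit 186)) (XT.lf (nat_lit 0) (nat_lit 996639669386) (nat_lit 76) (nat_lit 996639700636) (nat_lit 152) (nat_lit 16812861659570) (nat_lit 189) (nat_lit 5) (nat_lit 190) (nat_lit 5) (nat_lit 191) (nat_lit 4) (nat_lit 371) (nat_lit 344) (nat_lit 185))) (XT.nd (nat_lit 78) (nat_lit 228) (nat_lit 0) (XT.lf (nat_lit 0) (nat_lit 8770285639987) (nat_lit 152) (nat_lit 5910363079194) (nat_lit 0) (nat_lit 5910363051937)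 (nat_lit 189) (nat_lit 5) (nat_lit 191) (nat_lit 4) (nat_lit 189) (nat_lit 4) (nat_lit 372) (nat_lit 344) (nat_lit 184)) (XT.nd (nat_lit 78) (nat_lit 152) (nat_lit 0) (XT.lf (nat_lit 0) (nat_lit 8481246085092) (nat_lit 76) (nat_lit 8481246112421) (nat_lit 76) (nat_lit 5621323524299) (nat_lit 188) (nat_lit 4) (nat_lit 189) (nat_lit 5) (nat_lit 189) (nat_lit 4) (nat_lit 373) (nat_lit 344) (nat_lit 183)) (XT.lf (nat_lit 0) (nat_lit 866643190694) (nat_lit 76) (nat_lit 866643218086) (nat_lit 152) (nat_lit 23078955174174) (nat_lit 186) (nat_lit 5) (nat_lit 187) (nat_lit 5) (nat_lit 188) (nat_lit 4) (nat_lit 374) (nat_lit 344) (nat_lit 182)))))) (XT.nd (nat_lit 390) (nat_lit 152) (nat_lit 0) (XT.nd (nat_lit 156) (nat_lit 228) (nat_lit 0) (XT.nd (nat_lit 78) (nat_lit 76) (nat_lit 0) (XT.lf (nat_lit 0) (nat_lit 10714569241018) (nat_lit 152) (nat_lit 8227680057720) (nat_lit 0) (nat_lit 8227680033853) (nat_lit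 186) (nat_lit 5) (nat_lit 188) (nat_lit 4) (nat_lit 186) (nat_lit 4) (nat_lit 375) (nat_lit 344) (nat_lit 181)) (XT.lf (nat_lit 0) (nat_lit 10765035174300) (nat_lit 76) (nat_lit 10765035198209) (nat_lit 76) (nat_lit 8278145991002) (nat_lit 185) (nat_lit 4) (nat_lit 186) (nat_lit 5) (nat_lit 186) (nat_lit 4) (nat_lit 376) (nat_lit 344) (nat_lit 180))) (XT.nd (nat_lit 78) (nat_lit 76) (nat_lit 0) (XT.lf (nat_lit 0) (nat_lit 753602774473) (nat_lit 76) (nat_lit 753602798417) (nat_lit 152) (nat_lit 31255783982591) (nat_lit 183) (nat_lit 5) (nat_lit 184) (nat_lit 5) (nat_lit 185) (nat_lit 4) (nat_lit 377) (nat_lit 344) (nat_lit 179)) (XT.nd (nat_lit 78) (nat_lit 76) (nat_lit 0) (XT.lf (nat_lit 0) (nat_lit 13401206066543) (nat_lit 152) (nat_lit 11238693733240) (nat_lit 0) (nat_lit 11238693712391) (nat_lit 183) (nat_lit 5) (nat_lit 185) (nat_lit 4) (nat_lit 183) (nat_lit 4) (nat_lit 378) (nat_lit 344)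 (nat_lit 178)) (XT.lf (nat_lit 0) (nat_lit 13844226171759) (nat_lit 76) (nat_lit 13844226192631) (nat_lit 76) (nat_lit 11681713838456) (nat_lit 182) (nat_lit 4) (nat_lit 183) (nat_lit 5) (nat_lit 183) (nat_lit 4) (nat_lit 379) (nat_lit 344) (nat_lit 177))))) (XT.nd (nat_lit 44148) (nat_lit 0) (nat_lit 2660) (XT.nd (nat_lit 78) (nat_lit 0) (nat_lit 0) (XT.lf (nat_lit 0) (nat_lit 655306760386) (nat_lit 76) (nat_lit 655306781279) (nat_lit 152) (nat_lit 41973918460267) (nat_lit 180) (nat_lit 5) (nat_lit 181) (nat_lit 5) (nat_lit 182) (nat_lit 4) (nat_lit 380) (nat_lit 344) (nat_lit 176)) (XT.lf (nat_lit 0) (nat_lit 17054563062368) (nat_lit 152) (nat_lit 15174117555148) (nat_lit 0) (nat_lit 15174117536965) (nat_lit 180) (nat_lit 5) (nat_lit 182) (nat_lit 4) (nat_lit 180) (nat_lit 4) (nat_lit 381) (nat_lit 344) (nat_lit 175))) (XT.nd (nat_lit 78) (nat_lit 0) (nat_lit 0) (XT.lf (nat_lit 0) (nat_lit 334831205318)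 (nat_lit 380) (nat_lit 378030877613) (nat_lit 380) (nat_lit 378030877613) (nat_lit 215) (nat_lit 3) (nat_lit 220) (nat_lit 3) (nat_lit 220) (nat_lit 5) (nat_lit 345) (nat_lit 345) (nat_lit 210)) (XT.nd (nat_lit 78) (nat_lit 0) (nat_lit 76) (XT.lf (nat_lit 76) (nat_lit 367553345838) (nat_lit 0) (nat_lit 367553358600) (nat_lit 380) (nat_lit 1608030218784) (nat_lit 216) (nat_lit 5) (nat_lit 215) (nat_lit 3) (nat_lit 220) (nat_lit 5) (nat_lit 346) (nat_lit 345) (nat_lit 209)) (XT.lf (nat_lit 0) (nat_lit 886940507140) (nat_lit 304) (nat_lit 815132079778) (nat_lit 380) (nat_lit 815132059031) (nat_lit 216) (nat_lit 5) (nat_lit 220) (nat_lit 5) (nat_lit 221) (nat_lit 5) (nat_lit 347) (nat_lit 345) (nat_lit 208))))))) (XT.nd (nat_lit 780) (nat_lit 760) (nat_lit 0) (XT.nd (nat_lit 390) (nat_lit 456) (nat_lit 0) (XT.nd (nat_lit 156) (nat_lit 380) (nat_lit 0) (XT.nd (nat_lit 78) (nat_lit 0) (nat_lit 76) (XT.lf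 (nat_lit 76) (nat_lit 550932413181) (nat_lit 0) (nat_lit 550932442319) (nat_lit 380) (nat_lit 1609470350297) (nat_lit 217) (nat_lit 5) (nat_lit 216) (nat_lit 5) (nat_lit 221) (nat_lit 5) (nat_lit 348) (nat_lit 345) (nat_lit 207)) (XT.lf (nat_lit 0) (nat_lit 1425669299441) (nat_lit 304) (nat_lit 748709932681) (nat_lit 76) (nat_lit 748709900999) (nat_lit 217) (nat_lit 5) (nat_lit 221) (nat_lit 5) (nat_lit 218) (nat_lit 5) (nat_lit 349) (nat_lit 345) (nat_lit 206))) (XT.nd (nat_lit 78) (nat_lit 152) (nat_lit 0) (XT.lf (nat_lit 0) (nat_lit 931423760542) (nat_lit 304) (nat_lit 931423797742) (nat_lit 380) (nat_lit 1294038119015) (nat_lit 213) (nat_lit 5) (nat_lit 217) (nat_lit 5) (nat_lit 218) (nat_lit 5) (nat_lit 350) (nat_lit 345) (nat_lit 205)) (XT.nd (nat_lit 78) (nat_lit 152) (nat_lit 0) (XT.lf (nat_lit 0) (nat_lit 2427223417388) (nat_lit 380) (nat_lit 494642596510) (nat_lit 76) (nat_lit 494642559991)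 (nat_lit 213) (nat_lit 5) (nat_lit 218) (nat_lit 5) (nat_lit 214) (nat_lit 5) (nat_lit 351) (nat_lit 345) (nat_lit 204)) (XT.lf (nat_lit 0) (nat_lit 1593291975581) (nat_lit 152) (nat_lit 1593292015728) (nat_lit 228) (nat_lit 511941663266) (nat_lit 211) (nat_lit 5) (nat_lit 213) (nat_lit 5) (nat_lit 214) (nat_lit 5) (nat_lit 352) (nat_lit 345) (nat_lit 203))))) (XT.nd (nat_lit 156) (nat_lit 228) (nat_lit 0) (XT.nd (nat_lit 78) (nat_lit 0) (nat_lit 0) (XT.lf (nat_lit 0) (nat_lit 31040962930) (nat_lit 152) (nat_lit 31041006232) (nat_lit 228) (nat_lit 3956277557255) (nat_lit 208) (nat_lit 5) (nat_lit 210) (nat_lit 5) (nat_lit 211) (nat_lit 5) (nat_lit 353) (nat_lit 345) (nat_lit 202)) (XT.lf (nat_lit 0) (nat_lit 858190239876) (nat_lit 228) (nat_lit 1748031213881) (nat_lit 76) (nat_lit 1748031173842) (nat_lit 208) (nat_lit 5) (nat_lit 211) (nat_lit 5) (nat_lit 209) (nat_lit 5) (nat_lit 354) (nat_lit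 345) (nat_lit 201))) (XT.nd (nat_lit 78) (nat_lit 76) (nat_lit 0) (XT.lf (nat_lit 0) (nat_lit 906361677766) (nat_lit 152) (nat_lit 906361719879) (nat_lit 228) (nat_lit 2921954999346) (nat_lit 206) (nat_lit 5) (nat_lit 208) (nat_lit 5) (nat_lit 209) (nat_lit 5) (nat_lit 355) (nat_lit 345) (nat_lit 200)) (XT.nd (nat_lit 78) (nat_lit 76) (nat_lit 0) (XT.lf (nat_lit 0) (nat_lit 3049577242644) (nat_lit 228) (nat_lit 1050859860151) (nat_lit 76) (nat_lit 1050859821963) (nat_lit 206) (nat_lit 5) (nat_lit 209) (nat_lit 5) (nat_lit 207) (nat_lit 4) (nat_lit 356) (nat_lit 345) (nat_lit 199)) (XT.lf (nat_lit 0) (nat_lit 2305288135807) (nat_lit 76) (nat_lit 2305288175359) (nat_lit 152) (nat_lit 999039348508) (nat_lit 205) (nat_lit 5) (nat_lit 206) (nat_lit 5) (nat_lit 207) (nat_lit 4) (nat_lit 357) (nat_lit 345) (nat_lit 198)))))) (XT.nd (nat_lit 390) (nat_lit 304) (nat_lit 0) (XT.nd (nat_lit 156) (nat_lit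 228) (nat_lit 0) (XT.nd (nat_lit 78) (nat_lit 0) (nat_lit 0) (XT.lf (nat_lit 0) (nat_lit 154518138174) (nat_lit 152) (nat_lit 154518178913) (nat_lit 228) (nat_lit 5816383009977) (nat_lit 202) (nat_lit 5) (nat_lit 204) (nat_lit 5) (nat_lit 205) (nat_lit 5) (nat_lit 358) (nat_lit 345) (nat_lit 197)) (XT.lf (nat_lit 0) (nat_lit 1988011351580) (nat_lit 228) (nat_lit 2340950320552) (nat_lit 76) (nat_lit 2340950284231) (nat_lit 202) (nat_lit 5) (nat_lit 205) (nat_lit 5) (nat_lit 203) (nat_lit 4) (nat_lit 359) (nat_lit 345) (nat_lit 196))) (XT.nd (nat_lit 78) (nat_lit 152) (nat_lit 0) (XT.lf (nat_lit 0) (nat_lit 2004598378019) (nat_lit 76) (nat_lit 2004598415120) (nat_lit 152) (nat_lit 3273327064134) (nat_lit 201) (nat_lit 5) (nat_lit 202) (nat_lit 5) (nat_lit 203) (nat_lit 4) (nat_lit 360) (nat_lit 345) (nat_lit 195)) (XT.nd (nat_lit 78) (nat_lit 152) (nat_lit 0) (XT.lf (nat_lit 0) (nat_lit 6489432767878)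 (nat_lit 152) (nat_lit 737106950375) (nat_lit 0) (nat_lit 737106917523) (nat_lit 201) (nat_lit 5) (nat_lit 203) (nat_lit 4) (nat_lit 201) (nat_lit 4) (nat_lit 361) (nat_lit 345) (nat_lit 194)) (XT.lf (nat_lit 0) (nat_lit 850836705795) (nat_lit 152) (nat_lit 3923026933407) (nat_lit 76) (nat_lit 3923026900043) (nat_lit 199) (nat_lit 5) (nat_lit 201) (nat_lit 5) (nat_lit 200) (nat_lit 4) (nat_lit 362) (nat_lit 345) (nat_lit 193))))) (XT.nd (nat_lit 156) (nat_lit 228) (nat_lit 0) (XT.nd (nat_lit 78) (nat_lit 0) (nat_lit 0) (XT.lf (nat_lit 0) (nat_lit 1743129023824) (nat_lit 76) (nat_lit 1743129057634) (nat_lit 152) (nat_lit 6026451152359) (nat_lit 198) (nat_lit 5) (nat_lit 199) (nat_lit 5) (nat_lit 200) (nat_lit 4) (nat_lit 363) (nat_lit 345) (nat_lit 192)) (XT.lf (nat_lit 0) (nat_lit 6803966527568) (nat_lit 152) (nat_lit 1801944077565) (nat_lit 0) (nat_lit 1801944047828) (nat_lit 198) (nat_lit 5)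 (nat_lit 200) (nat_lit 4) (nat_lit 198) (nat_lit 4) (nat_lit 364) (nat_lit 345) (nat_lit 191))) (XT.nd (nat_lit 78) (nat_lit 152) (nat_lit 0) (XT.lf (nat_lit 0) (nat_lit 5464301208041) (nat_lit 76) (nat_lit 5464301238071) (nat_lit 76) (nat_lit 462278758038) (nat_lit 197) (nat_lit 4) (nat_lit 198) (nat_lit 5) (nat_lit 198) (nat_lit 4) (nat_lit 365) (nat_lit 345) (nat_lit 190)) (XT.nd (nat_lit 78) (nat_lit 0) (nat_lit 0) (XT.lf (nat_lit 0) (nat_lit 1515764368234) (nat_lit 76) (nat_lit 1515764398519) (nat_lit 152) (nat_lit 9446047832044) (nat_lit 195) (nat_lit 5) (nat_lit 196) (nat_lit 5) (nat_lit 197) (nat_lit 4) (nat_lit 366) (nat_lit 345) (nat_lit 189)) (XT.lf (nat_lit 0) (nat_lit 7451890682038) (nat_lit 152) (nat_lit 3102305942905) (nat_lit 0) (nat_lit 3102305916378) (nat_lit 195) (nat_lit 5) (nat_lit 197) (nat_lit 4) (nat_lit 195) (nat_lit 4) (nat_lit 367) (nat_lit 345) (nat_lit 188))))))))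
noncomputable def xc111 : XT := (XT.nd (nat_lit 45630) (nat_lit 0) (nat_lit 912) (XT.nd (nat_lit 780) (nat_lit 380) (nat_lit 0) (XT.nd (nat_lit 390) (nat_lit 304) (nat_lit 0) (XT.nd (nat_lit 156) (nat_lit 228) (nat_lit 0) (XT.nd (nat_lit 78) (nat_lit 152) (nat_lit 0) (XT.lf (nat_lit 0) (nat_lit 6437014580712) (nat_lit 76) (nat_lit 6437014607407) (nat_lit 76) (nat_lit 2087429841578) (nat_lit 194) (nat_lit 4) (nat_lit 195) (nat_lit 5) (nat_lit 195) (nat_lit 4) (nat_lit 368) (nat_lit 345) (nat_lit 187)) (XT.lf (nat_lit 0) (nat_lit 1318055972201) (nat_lit 76) (nat_lit 1318055999042) (nat_lit 152) (nat_lit 13775934069457) (nat_lit 192) (nat_lit 5) (nat_lit 193) (nat_lit 5) (nat_lit 194) (nat_lit 4) (nat_lit 369) (nat_lit 345) (nat_lit 186))) (XT.nd (nat_lit 78) (nat_lit 228) (nat_lit 0) (XT.lf (nat_lit 0) (nat_lit 8510468861035) (nat_lit 152) (nat_lit 4728221261789) (nat_lit 0) (nat_lit 4728221238339)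 (nat_lit 192) (nat_lit 5) (nat_lit 194) (nat_lit 4) (nat_lit 192) (nat_lit 4) (nat_lit 370) (nat_lit 345) (nat_lit 185)) (XT.nd (nat_lit 78) (nat_lit 152) (nat_lit 0) (XT.lf (nat_lit 0) (nat_lit 7826409377123) (nat_lit 76) (nat_lit 7826409400670) (nat_lit 76) (nat_lit 4044161777877) (nat_lit 191) (nat_lit 4) (nat_lit 192) (nat_lit 5) (nat_lit 192) (nat_lit 4) (nat_lit 371) (nat_lit 345) (nat_lit 184)) (XT.lf (nat_lit 0) (nat_lit 1146135627900) (nat_lit 76) (nat_lit 1146135651530) (nat_lit 152) (nat_lit 19334790904015) (nat_lit 189) (nat_lit 5) (nat_lit 190) (nat_lit 5) (nat_lit 191) (nat_lit 4) (nat_lit 372) (nat_lit 345) (nat_lit 183))))) (XT.nd (nat_lit 156) (nat_lit 228) (nat_lit 0) (XT.nd (nat_lit 78) (nat_lit 76) (nat_lit 0) (XT.lf (nat_lit 0) (nat_lit 10085828489532) (nat_lit 152) (nat_lit 6796917533666) (nat_lit 0) (nat_lit 6796917513056) (nat_lit 189) (nat_lit 5) (nat_lit 191) (nat_lit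 4) (nat_lit 189) (nat_lit 4) (nat_lit 373) (nat_lit 345) (nat_lit 182)) (XT.lf (nat_lit 0) (nat_lit 9753433004926) (nat_lit 76) (nat_lit 9753433025591) (nat_lit 76) (nat_lit 6464522049060) (nat_lit 188) (nat_lit 4) (nat_lit 189) (nat_lit 5) (nat_lit 189) (nat_lit 4) (nat_lit 374) (nat_lit 345) (nat_lit 181))) (XT.nd (nat_lit 78) (nat_lit 76) (nat_lit 0) (XT.lf (nat_lit 0) (nat_lit 996639676377) (nat_lit 76) (nat_lit 996639697090) (nat_lit 152) (nat_lit 26540798446425) (nat_lit 186) (nat_lit 5) (nat_lit 187) (nat_lit 5) (nat_lit 188) (nat_lit 4) (nat_lit 375) (nat_lit 345) (nat_lit 180)) (XT.nd (nat_lit 78) (nat_lit 76) (nat_lit 0) (XT.lf (nat_lit 0) (nat_lit 12321754630235) (nat_lit 152) (nat_lit 9461832059916) (nat_lit 0) (nat_lit 9461832041869) (nat_lit 186) (nat_lit 5) (nat_lit 188) (nat_lit 4) (nat_lit 186) (nat_lit 4) (nat_lit 376) (nat_lit 345) (nat_lit 179)) (XT.lf (nat_lit 0) (nat_lit 12379790456613)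 (nat_lit 76) (nat_lit 12379790474692) (nat_lit 76) (nat_lit 9519867886295) (nat_lit 185) (nat_lit 4) (nat_lit 186) (nat_lit 5) (nat_lit 186) (nat_lit 4) (nat_lit 377) (nat_lit 345) (nat_lit 178)))))) (XT.nd (nat_lit 44460) (nat_lit 0) (nat_lit 2508) (XT.nd (nat_lit 156) (nat_lit 228) (nat_lit 0) (XT.nd (nat_lit 78) (nat_lit 0) (nat_lit 0) (XT.lf (nat_lit 0) (nat_lit 866643196817) (nat_lit 76) (nat_lit 866643214922) (nat_lit 152) (nat_lit 35944151576627) (nat_lit 183) (nat_lit 5) (nat_lit 184) (nat_lit 5) (nat_lit 185) (nat_lit 4) (nat_lit 378) (nat_lit 345) (nat_lit 177)) (XT.lf (nat_lit 0) (nat_lit 15411386979176) (nat_lit 152) (nat_lit 12924497787595) (nat_lit 0) (nat_lit 12924497771830) (nat_lit 183) (nat_lit 5) (nat_lit 185) (nat_lit 4) (nat_lit 183) (nat_lit 4) (nat_lit 379) (nat_lit 345) (nat_lit 176))) (XT.nd (nat_lit 78) (nat_lit 152) (nat_lit 0) (XT.lf (nat_lit 0) (nat_lit 15920860102898)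 (nat_lit 76) (nat_lit 15920860118680) (nat_lit 76) (nat_lit 13433970911317) (nat_lit 182) (nat_lit 4) (nat_lit 183) (nat_lit 5) (nat_lit 183) (nat_lit 4) (nat_lit 380) (nat_lit 345) (nat_lit 175)) (XT.nd (nat_lit 44148) (nat_lit 0) (nat_lit 2660) (XT.lf (nat_lit 0) (nat_lit 753602779822) (nat_lit 76) (nat_lit 753602795620) (nat_lit 152) (nat_lit 48270006226401) (nat_lit 180) (nat_lit 5) (nat_lit 181) (nat_lit 5) (nat_lit 182) (nat_lit 4) (nat_lit 381) (nat_lit 345) (nat_lit 174)) (XT.lf (nat_lit 0) (nat_lit 385055898350) (nat_lit 380) (nat_lit 434735502221) (nat_lit 380) (nat_lit 434735502221) (nat_lit 215) (nat_lit 3) (nat_lit 220) (nat_lit 3) (nat_lit 220) (nat_lit 5) (nat_lit 346) (nat_lit 346) (nat_lit 208))))) (XT.nd (nat_lit 156) (nat_lit 152) (nat_lit 0) (XT.nd (nat_lit 78) (nat_lit 0) (nat_lit 76) (XT.lf (nat_lit 76) (nat_lit 422686361143) (nat_lit 0) (nat_lit 422686370793) (nat_lit 380)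 (nat_lit 1849234726495) (nat_lit 216) (nat_lit 5) (nat_lit 215) (nat_lit 3) (nat_lit 220) (nat_lit 5) (nat_lit 347) (nat_lit 346) (nat_lit 207)) (XT.lf (nat_lit 0) (nat_lit 1019981601892) (nat_lit 304) (nat_lit 937401876917) (nat_lit 380) (nat_lit 937401861230) (nat_lit 216) (nat_lit 5) (nat_lit 220) (nat_lit 5) (nat_lit 221) (nat_lit 5) (nat_lit 348) (nat_lit 346) (nat_lit 206))) (XT.nd (nat_lit 78) (nat_lit 228) (nat_lit 0) (XT.lf (nat_lit 76) (nat_lit 633572289311) (nat_lit 0) (nat_lit 633572311344) (nat_lit 380) (nat_lit 1850890883486) (nat_lit 217) (nat_lit 5) (nat_lit 216) (nat_lit 5) (nat_lit 221) (nat_lit 5) (nat_lit 349) (nat_lit 346) (nat_lit 205)) (XT.nd (nat_lit 78) (nat_lit 304) (nat_lit 0) (XT.lf (nat_lit 0) (nat_lit 1639519708897) (nat_lit 304) (nat_lit 861016407985) (nat_lit 76) (nat_lit 861016384028) (nat_lit 217) (nat_lit 5) (nat_lit 221) (nat_lit 5) (nat_lit 218) (nat_lit 5)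 (nat_lit 350) (nat_lit 346) (nat_lit 204)) (XT.lf (nat_lit 0) (nat_lit 1071137338559) (nat_lit 304) (nat_lit 1071137366688) (nat_lit 380) (nat_lit 1488143821665) (nat_lit 213) (nat_lit 5) (nat_lit 217) (nat_lit 5) (nat_lit 218) (nat_lit 5) (nat_lit 351) (nat_lit 346) (nat_lit 203))))))) (XT.nd (nat_lit 780) (nat_lit 684) (nat_lit 0) (XT.nd (nat_lit 390) (nat_lit 380) (nat_lit 0) (XT.nd (nat_lit 156) (nat_lit 380) (nat_lit 0) (XT.nd (nat_lit 78) (nat_lit 152) (nat_lit 0) (XT.lf (nat_lit 0) (nat_lit 2791306941517) (nat_lit 380) (nat_lit 568838972171) (nat_lit 76) (nat_lit 568838944557) (nat_lit 213) (nat_lit 5) (nat_lit 218) (nat_lit 5) (nat_lit 214) (nat_lit 5) (nat_lit 352) (nat_lit 346) (nat_lit 202)) (XT.lf (nat_lit 0) (nat_lit 1832285785106) (nat_lit 152) (nat_lit 1832285815463) (nat_lit 228) (nat_lit 588732900607) (nat_lit 211) (nat_lit 5) (nat_lit 213) (nat_lit 5) (nat_lit 214) (nat_lit 5)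 (nat_lit 353) (nat_lit 346) (nat_lit 201))) (XT.nd (nat_lit 78) (nat_lit 152) (nat_lit 0) (XT.lf (nat_lit 0) (nat_lit 35697120991) (nat_lit 152) (nat_lit 35697153733) (nat_lit 228) (nat_lit 4549719179127) (nat_lit 208) (nat_lit 5) (nat_lit 210) (nat_lit 5) (nat_lit 211) (nat_lit 5) (nat_lit 354) (nat_lit 346) (nat_lit 200)) (XT.nd (nat_lit 78) (nat_lit 152) (nat_lit 0) (XT.lf (nat_lit 0) (nat_lit 986918784840) (nat_lit 228) (nat_lit 2010235882913) (nat_lit 76) (nat_lit 2010235852638) (nat_lit 208) (nat_lit 5) (nat_lit 211) (nat_lit 5) (nat_lit 209) (nat_lit 5) (nat_lit 355) (nat_lit 346) (nat_lit 199)) (XT.lf (nat_lit 0) (nat_lit 1042315941888) (nat_lit 152) (nat_lit 1042315973732) (nat_lit 228) (nat_lit 3360248239671) (nat_lit 206) (nat_lit 5) (nat_lit 208) (nat_lit 5) (nat_lit 209) (nat_lit 5) (nat_lit 356) (nat_lit 346) (nat_lit 198))))) (XT.nd (nat_lit 156) (nat_lit 304) (nat_lit 0) (XT.nd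 (nat_lit 78) (nat_lit 76) (nat_lit 0) (XT.lf (nat_lit 0) (nat_lit 3507013836430) (nat_lit 228) (nat_lit 1208488827405) (nat_lit 76) (nat_lit 1208488798529) (nat_lit 206) (nat_lit 5) (nat_lit 209) (nat_lit 5) (nat_lit 207) (nat_lit 4) (nat_lit 357) (nat_lit 346) (nat_lit 197)) (XT.lf (nat_lit 0) (nat_lit 2651081367412) (nat_lit 76) (nat_lit 2651081397319) (nat_lit 152) (nat_lit 1148895242859) (nat_lit 205) (nat_lit 5) (nat_lit 206) (nat_lit 5) (nat_lit 207) (nat_lit 4) (nat_lit 358) (nat_lit 346) (nat_lit 196))) (XT.nd (nat_lit 78) (nat_lit 76) (nat_lit 0) (XT.lf (nat_lit 0) (nat_lit 177695870298) (nat_lit 152) (nat_lit 177695901102) (nat_lit 228) (nat_lit 6688840453711) (nat_lit 202) (nat_lit 5) (nat_lit 204) (nat_lit 5) (nat_lit 205) (nat_lit 5) (nat_lit 359) (nat_lit 346) (nat_lit 195)) (XT.nd (nat_lit 78) (nat_lit 76) (nat_lit 0) (XT.lf (nat_lit 0) (nat_lit 2286213060353) (nat_lit 228) (nat_lit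 2692092858011) (nat_lit 76) (nat_lit 2692092830547) (nat_lit 202) (nat_lit 5) (nat_lit 205) (nat_lit 5) (nat_lit 203) (nat_lit 4) (nat_lit 360) (nat_lit 346) (nat_lit 194)) (XT.lf (nat_lit 0) (nat_lit 2305288144862) (nat_lit 76) (nat_lit 2305288172916) (nat_lit 152) (nat_lit 3764326117235) (nat_lit 201) (nat_lit 5) (nat_lit 202) (nat_lit 5) (nat_lit 203) (nat_lit 4) (nat_lit 361) (nat_lit 346) (nat_lit 193)))))) (XT.nd (nat_lit 390) (nat_lit 380) (nat_lit 0) (XT.nd (nat_lit 156) (nat_lit 152) (nat_lit 0) (XT.nd (nat_lit 78) (nat_lit 152) (nat_lit 0) (XT.lf (nat_lit 0) (nat_lit 7462847688151) (nat_lit 152) (nat_lit 847672983535) (nat_lit 0) (nat_lit 847672958694) (nat_lit 201) (nat_lit 5) (nat_lit 203) (nat_lit 4) (nat_lit 201) (nat_lit 4) (nat_lit 362) (nat_lit 346) (nat_lit 192)) (XT.lf (nat_lit 0) (nat_lit 978462216691) (nat_lit 152) (nat_lit 4511480963957) (nat_lit 76) (nat_lit 4511480938729)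 (nat_lit 199) (nat_lit 5) (nat_lit 201) (nat_lit 5) (nat_lit 200) (nat_lit 4) (nat_lit 363) (nat_lit 346) (nat_lit 191))) (XT.nd (nat_lit 78) (nat_lit 76) (nat_lit 0) (XT.lf (nat_lit 0) (nat_lit 2004598386429) (nat_lit 76) (nat_lit 2004598411994) (nat_lit 152) (nat_lit 6930418819756) (nat_lit 198) (nat_lit 5) (nat_lit 199) (nat_lit 5) (nat_lit 200) (nat_lit 4) (nat_lit 364) (nat_lit 346) (nat_lit 190)) (XT.nd (nat_lit 78) (nat_lit 76) (nat_lit 0) (XT.lf (nat_lit 0) (nat_lit 7824561510984) (nat_lit 152) (nat_lit 2072235680883) (nat_lit 0) (nat_lit 2072235658398) (nat_lit 198) (nat_lit 5) (nat_lit 200) (nat_lit 4) (nat_lit 198) (nat_lit 4) (nat_lit 365) (nat_lit 346) (nat_lit 189)) (XT.lf (nat_lit 0) (nat_lit 6283946397186) (nat_lit 76) (nat_lit 6283946419894) (nat_lit 76) (nat_lit 531620567086) (nat_lit 197) (nat_lit 4) (nat_lit 198) (nat_lit 5) (nat_lit 198) (nat_lit 4) (nat_lit 366) (nat_lit 346)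 (nat_lit 188))))) (XT.nd (nat_lit 156) (nat_lit 228) (nat_lit 0) (XT.nd (nat_lit 78) (nat_lit 0) (nat_lit 0) (XT.lf (nat_lit 0) (nat_lit 1743129031444) (nat_lit 76) (nat_lit 1743129054344) (nat_lit 152) (nat_lit 10862955002227) (nat_lit 195) (nat_lit 5) (nat_lit 196) (nat_lit 5) (nat_lit 197) (nat_lit 4) (nat_lit 367) (nat_lit 346) (nat_lit 187)) (XT.lf (nat_lit 0) (nat_lit 8569674287982) (nat_lit 152) (nat_lit 3567651827025) (nat_lit 0) (nat_lit 3567651806966) (nat_lit 195) (nat_lit 5) (nat_lit 197) (nat_lit 4) (nat_lit 195) (nat_lit 4) (nat_lit 368) (nat_lit 346) (nat_lit 186))) (XT.nd (nat_lit 78) (nat_lit 152) (nat_lit 0) (XT.lf (nat_lit 0) (nat_lit 7402566774802) (nat_lit 76) (nat_lit 7402566794987) (nat_lit 76) (nat_lit 2400544313845) (nat_lit 194) (nat_lit 4) (nat_lit 195) (nat_lit 5) (nat_lit 195) (nat_lit 4) (nat_lit 369) (nat_lit 346) (nat_lit 185)) (XT.nd (nat_lit 78) (nat_lit 0) (nat_lit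 0) (XT.lf (nat_lit 0) (nat_lit 1515764375035) (nat_lit 76) (nat_lit 1515764395331) (nat_lit 152) (nat_lit 15842324175925) (nat_lit 192) (nat_lit 5) (nat_lit 193) (nat_lit 5) (nat_lit 194) (nat_lit 4) (nat_lit 370) (nat_lit 346) (nat_lit 184)) (XT.lf (nat_lit 0) (nat_lit 9787039193306) (nat_lit 152) (nat_lit 5437454444648) (nat_lit 0) (nat_lit 5437454426916) (nat_lit 192) (nat_lit 5) (nat_lit 194) (nat_lit 4) (nat_lit 192) (nat_lit 4) (nat_lit 371) (nat_lit 346) (nat_lit 183))))))))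
noncomputable def xc112 : XT := (XT.nd (nat_lit 45708) (nat_lit 0) (nat_lit 456) (XT.nd (nat_lit 44928) (nat_lit 0) (nat_lit 1976) (XT.nd (nat_lit 390) (nat_lit 304) (nat_lit 0) (XT.nd (nat_lit 156) (nat_lit 228) (nat_lit 0) (XT.nd (nat_lit 78) (nat_lit 152) (nat_lit 0) (XT.lf (nat_lit 0) (nat_lit 9000370789810) (nat_lit 76) (nat_lit 9000370807615) (nat_lit 76) (nat_lit 4650786041152) (nat_lit 191) (nat_lit 4) (nat_lit 192) (nat_lit 5) (nat_lit 192) (nat_lit 4) (nat_lit 372) (nat_lit 346) (nat_lit 182)) (XT.lf (nat_lit 0) (nat_lit 1318055978215) (nat_lit 76) (nat_lit 1318055996082) (nat_lit 152) (nat_lit 22235009536222) (nat_lit 189) (nat_lit 5) (nat_lit 190) (nat_lit 5) (nat_lit 191) (nat_lit 4) (nat_lit 373) (nat_lit 346) (nat_lit 181))) (XT.nd (nat_lit 78) (nat_lit 228) (nat_lit 0) (XT.lf (nat_lit 0) (nat_lit 11598702765644) (nat_lit 152) (nat_lit 7816455158115) (nat_lit 0) (nat_lit 7816455142531)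 (nat_lit 189) (nat_lit 5) (nat_lit 191) (nat_lit 4) (nat_lit 189) (nat_lit 4) (nat_lit 374) (nat_lit 346) (nat_lit 180)) (XT.nd (nat_lit 78) (nat_lit 152) (nat_lit 0) (XT.lf (nat_lit 0) (nat_lit 11216447961012) (nat_lit 76) (nat_lit 11216447976637) (nat_lit 76) (nat_lit 7434200353483) (nat_lit 188) (nat_lit 4) (nat_lit 189) (nat_lit 5) (nat_lit 189) (nat_lit 4) (nat_lit 375) (nat_lit 346) (nat_lit 179)) (XT.lf (nat_lit 0) (nat_lit 1146135633187) (nat_lit 76) (nat_lit 1146135648848) (nat_lit 152) (nat_lit 30521918210459) (nat_lit 186) (nat_lit 5) (nat_lit 187) (nat_lit 5) (nat_lit 188) (nat_lit 4) (nat_lit 376) (nat_lit 346) (nat_lit 178))))) (XT.nd (nat_lit 156) (nat_lit 228) (nat_lit 0) (XT.nd (nat_lit 78) (nat_lit 76) (nat_lit 0) (XT.lf (nat_lit 0) (nat_lit 14170017827087) (nat_lit 152) (nat_lit 10881106864018) (nat_lit 0) (nat_lit 10881106850372) (nat_lit 186) (nat_lit 5) (nat_lit 188) (nat_lit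 4) (nat_lit 186) (nat_lit 4) (nat_lit 377) (nat_lit 346) (nat_lit 177)) (XT.lf (nat_lit 0) (nat_lit 14236759029769) (nat_lit 76) (nat_lit 14236759043439) (nat_lit 76) (nat_lit 10947848066700) (nat_lit 185) (nat_lit 4) (nat_lit 186) (nat_lit 5) (nat_lit 186) (nat_lit 4) (nat_lit 378) (nat_lit 346) (nat_lit 176))) (XT.nd (nat_lit 78) (nat_lit 76) (nat_lit 0) (XT.lf (nat_lit 0) (nat_lit 996639681007) (nat_lit 76) (nat_lit 996639694697) (nat_lit 152) (nat_lit 41335774310586) (nat_lit 183) (nat_lit 5) (nat_lit 184) (nat_lit 5) (nat_lit 185) (nat_lit 4) (nat_lit 379) (nat_lit 346) (nat_lit 175)) (XT.nd (nat_lit 78) (nat_lit 76) (nat_lit 0) (XT.lf (nat_lit 0) (nat_lit 17723095028058) (nat_lit 152) (nat_lit 14863172451477) (nat_lit 0) (nat_lit 14863172439556) (nat_lit 183) (nat_lit 5) (nat_lit 185) (nat_lit 4) (nat_lit 183) (nat_lit 4) (nat_lit 380) (nat_lit 346) (nat_lit 174)) (XT.lf (nat_lit 0) (nat_lit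 18308989122397) (nat_lit 76) (nat_lit 18308989134331) (nat_lit 76) (nat_lit 15449066545815) (nat_lit 182) (nat_lit 4) (nat_lit 183) (nat_lit 5) (nat_lit 183) (nat_lit 4) (nat_lit 381) (nat_lit 346) (nat_lit 173)))))) (XT.nd (nat_lit 390) (nat_lit 532) (nat_lit 0) (XT.nd (nat_lit 156) (nat_lit 0) (nat_lit 76) (XT.nd (nat_lit 78) (nat_lit 0) (nat_lit 0) (XT.lf (nat_lit 0) (nat_lit 442814292352) (nat_lit 380) (nat_lit 499945822235) (nat_lit 380) (nat_lit 499945822235) (nat_lit 215) (nat_lit 3) (nat_lit 220) (nat_lit 3) (nat_lit 220) (nat_lit 5) (nat_lit 347) (nat_lit 347) (nat_lit 206)) (XT.lf (nat_lit 76) (nat_lit 486089325469) (nat_lit 0) (nat_lit 486089332765) (nat_lit 380) (nat_lit 2126619916486) (nat_lit 216) (nat_lit 5) (nat_lit 215) (nat_lit 3) (nat_lit 220) (nat_lit 5) (nat_lit 348) (nat_lit 347) (nat_lit 205))) (XT.nd (nat_lit 78) (nat_lit 0) (nat_lit 0) (XT.lf (nat_lit 0) (nat_lit 1172978856302)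 (nat_lit 304) (nat_lit 1078012147243) (nat_lit 380) (nat_lit 1078012135381) (nat_lit 216) (nat_lit 5) (nat_lit 220) (nat_lit 5) (nat_lit 221) (nat_lit 5) (nat_lit 349) (nat_lit 347) (nat_lit 204)) (XT.nd (nat_lit 78) (nat_lit 0) (nat_lit 76) (XT.lf (nat_lit 76) (nat_lit 728608143410) (nat_lit 0) (nat_lit 728608160070) (nat_lit 380) (nat_lit 2128524501374) (nat_lit 217) (nat_lit 5) (nat_lit 216) (nat_lit 5) (nat_lit 221) (nat_lit 5) (nat_lit 350) (nat_lit 347) (nat_lit 203)) (XT.lf (nat_lit 0) (nat_lit 1885447676225) (nat_lit 304) (nat_lit 990168858143) (nat_lit 76) (nat_lit 990168840029) (nat_lit 217) (nat_lit 5) (nat_lit 221) (nat_lit 5) (nat_lit 218) (nat_lit 5) (nat_lit 351) (nat_lit 347) (nat_lit 202))))) (XT.nd (nat_lit 156) (nat_lit 380) (nat_lit 0) (XT.nd (nat_lit 78) (nat_lit 0) (nat_lit 0) (XT.lf (nat_lit 0) (nat_lit 1231807949881) (nat_lit 304) (nat_lit 1231807971150) (nat_lit 380) (nat_lit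 1711365383419) (nat_lit 213) (nat_lit 5) (nat_lit 217) (nat_lit 5) (nat_lit 218) (nat_lit 5) (nat_lit 352) (nat_lit 347) (nat_lit 201)) (XT.lf (nat_lit 0) (nat_lit 3210002991456) (nat_lit 380) (nat_lit 654164807549) (nat_lit 76) (nat_lit 654164786669) (nat_lit 213) (nat_lit 5) (nat_lit 218) (nat_lit 5) (nat_lit 214) (nat_lit 5) (nat_lit 353) (nat_lit 347) (nat_lit 200))) (XT.nd (nat_lit 78) (nat_lit 228) (nat_lit 0) (XT.lf (nat_lit 0) (nat_lit 2107128662844) (nat_lit 152) (nat_lit 2107128685799) (nat_lit 228) (nat_lit 677042826511) (nat_lit 211) (nat_lit 5) (nat_lit 213) (nat_lit 5) (nat_lit 214) (nat_lit 5) (nat_lit 354) (nat_lit 347) (nat_lit 199)) (XT.nd (nat_lit 78) (nat_lit 0) (nat_lit 0) (XT.lf (nat_lit 0) (nat_lit 41051699439) (nat_lit 152) (nat_lit 41051724197) (nat_lit 228) (nat_lit 5232177047137) (nat_lit 208) (nat_lit 5) (nat_lit 210) (nat_lit 5) (nat_lit 211) (nat_lit 5) (nat_lit 355)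 (nat_lit 347) (nat_lit 198)) (XT.lf (nat_lit 0) (nat_lit 1134956609358) (nat_lit 228) (nat_lit 2311771255483) (nat_lit 76) (nat_lit 2311771232591) (nat_lit 208) (nat_lit 5) (nat_lit 211) (nat_lit 5) (nat_lit 209) (nat_lit 5) (nat_lit 356) (nat_lit 347) (nat_lit 197))))))) (XT.nd (nat_lit 780) (nat_lit 760) (nat_lit 0) (XT.nd (nat_lit 390) (nat_lit 304) (nat_lit 0) (XT.nd (nat_lit 156) (nat_lit 304) (nat_lit 0) (XT.nd (nat_lit 78) (nat_lit 0) (nat_lit 0) (XT.lf (nat_lit 0) (nat_lit 1198663342590) (nat_lit 152) (nat_lit 1198663366669) (nat_lit 228) (nat_lit 3864285468381) (nat_lit 206) (nat_lit 5) (nat_lit 208) (nat_lit 5) (nat_lit 209) (nat_lit 5) (nat_lit 357) (nat_lit 347) (nat_lit 196)) (XT.lf (nat_lit 0) (nat_lit 4033065917482) (nat_lit 228) (nat_lit 1389762142616) (nat_lit 76) (nat_lit 1389762120782) (nat_lit 206) (nat_lit 5) (nat_lit 209) (nat_lit 5) (nat_lit 207) (nat_lit 4) (nat_lit 358)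 (nat_lit 347) (nat_lit 195))) (XT.nd (nat_lit 78) (nat_lit 228) (nat_lit 0) (XT.lf (nat_lit 0) (nat_lit 3048743581019) (nat_lit 76) (nat_lit 3048743603633) (nat_lit 152) (nat_lit 1321229523296) (nat_lit 205) (nat_lit 5) (nat_lit 206) (nat_lit 5) (nat_lit 207) (nat_lit 4) (nat_lit 359) (nat_lit 347) (nat_lit 194)) (XT.nd (nat_lit 78) (nat_lit 0) (nat_lit 0) (XT.lf (nat_lit 0) (nat_lit 204350259460) (nat_lit 152) (nat_lit 204350282753) (nat_lit 228) (nat_lit 7692166515899) (nat_lit 202) (nat_lit 5) (nat_lit 204) (nat_lit 5) (nat_lit 205) (nat_lit 5) (nat_lit 360) (nat_lit 347) (nat_lit 193)) (XT.lf (nat_lit 0) (nat_lit 2629145023971) (nat_lit 228) (nat_lit 3095906778680) (nat_lit 76) (nat_lit 3095906757913) (nat_lit 202) (nat_lit 5) (nat_lit 205) (nat_lit 5) (nat_lit 203) (nat_lit 4) (nat_lit 361) (nat_lit 347) (nat_lit 192))))) (XT.nd (nat_lit 156) (nat_lit 228) (nat_lit 0) (XT.nd (nat_lit 78) (nat_lit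 0) (nat_lit 0) (XT.lf (nat_lit 0) (nat_lit 2651081374259) (nat_lit 76) (nat_lit 2651081395472) (nat_lit 152) (nat_lit 4328975029891) (nat_lit 201) (nat_lit 5) (nat_lit 202) (nat_lit 5) (nat_lit 203) (nat_lit 4) (nat_lit 362) (nat_lit 347) (nat_lit 191)) (XT.lf (nat_lit 0) (nat_lit 8582274845223) (nat_lit 152) (nat_lit 974823923960) (nat_lit 0) (nat_lit 974823905177) (nat_lit 201) (nat_lit 5) (nat_lit 203) (nat_lit 4) (nat_lit 201) (nat_lit 4) (nat_lit 363) (nat_lit 347) (nat_lit 190))) (XT.nd (nat_lit 78) (nat_lit 76) (nat_lit 0) (XT.lf (nat_lit 0) (nat_lit 1125231552995) (nat_lit 152) (nat_lit 5188203101398) (nat_lit 76) (nat_lit 5188203082322) (nat_lit 199) (nat_lit 5) (nat_lit 201) (nat_lit 5) (nat_lit 200) (nat_lit 4) (nat_lit 364) (nat_lit 347) (nat_lit 189)) (XT.nd (nat_lit 78) (nat_lit 0) (nat_lit 0) (XT.lf (nat_lit 0) (nat_lit 2305288151221) (nat_lit 76) (nat_lit 2305288170552) (nat_lit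 152) (nat_lit 7969981638594) (nat_lit 198) (nat_lit 5) (nat_lit 199) (nat_lit 5) (nat_lit 200) (nat_lit 4) (nat_lit 365) (nat_lit 347) (nat_lit 188)) (XT.lf (nat_lit 0) (nat_lit 8998245740868) (nat_lit 152) (nat_lit 2383071026727) (nat_lit 0) (nat_lit 2383071009724) (nat_lit 198) (nat_lit 5) (nat_lit 200) (nat_lit 4) (nat_lit 198) (nat_lit 4) (nat_lit 366) (nat_lit 347) (nat_lit 187)))))) (XT.nd (nat_lit 390) (nat_lit 304) (nat_lit 0) (XT.nd (nat_lit 156) (nat_lit 228) (nat_lit 0) (XT.nd (nat_lit 78) (nat_lit 152) (nat_lit 0) (XT.lf (nat_lit 0) (nat_lit 7226538362768) (nat_lit 76) (nat_lit 7226538379937) (nat_lit 76) (nat_lit 611363648626) (nat_lit 197) (nat_lit 4) (nat_lit 198) (nat_lit 5) (nat_lit 198) (nat_lit 4) (nat_lit 367) (nat_lit 347) (nat_lit 186)) (XT.lf (nat_lit 0) (nat_lit 2004598392190) (nat_lit 76) (nat_lit 2004598409505) (nat_lit 152) (nat_lit 12492398249066) (nat_lit 195) (nat_lit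 5) (nat_lit 196) (nat_lit 5) (nat_lit 197) (nat_lit 4) (nat_lit 368) (nat_lit 347) (nat_lit 185))) (XT.nd (nat_lit 78) (nat_lit 228) (nat_lit 0) (XT.lf (nat_lit 0) (nat_lit 9855125433931) (nat_lit 152) (nat_lit 4102799595547) (nat_lit 0) (nat_lit 4102799580380) (nat_lit 195) (nat_lit 5) (nat_lit 197) (nat_lit 4) (nat_lit 195) (nat_lit 4) (nat_lit 369) (nat_lit 347) (nat_lit 184)) (XT.nd (nat_lit 78) (nat_lit 152) (nat_lit 0) (XT.lf (nat_lit 0) (nat_lit 8512951796303) (nat_lit 76) (nat_lit 8512951811566) (nat_lit 76) (nat_lit 2760625957919) (nat_lit 194) (nat_lit 4) (nat_lit 195) (nat_lit 5) (nat_lit 195) (nat_lit 4) (nat_lit 370) (nat_lit 347) (nat_lit 183)) (XT.lf (nat_lit 0) (nat_lit 1743129036586) (nat_lit 76) (nat_lit 1743129051932) (nat_lit 152) (nat_lit 18218672799327) (nat_lit 192) (nat_lit 5) (nat_lit 193) (nat_lit 5) (nat_lit 194) (nat_lit 4) (nat_lit 371) (nat_lit 347) (nat_lit 182)))))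 (XT.nd (nat_lit 156) (nat_lit 228) (nat_lit 0) (XT.nd (nat_lit 78) (nat_lit 76) (nat_lit 0) (XT.lf (nat_lit 0) (nat_lit 11255095074658) (nat_lit 152) (nat_lit 6253072606499) (nat_lit 0) (nat_lit 6253072593091) (nat_lit 192) (nat_lit 5) (nat_lit 194) (nat_lit 4) (nat_lit 192) (nat_lit 4) (nat_lit 372) (nat_lit 347) (nat_lit 181)) (XT.lf (nat_lit 0) (nat_lit 10350426412908) (nat_lit 76) (nat_lit 10350426426371) (nat_lit 76) (nat_lit 5348403944748) (nat_lit 191) (nat_lit 4) (nat_lit 192) (nat_lit 5) (nat_lit 192) (nat_lit 4) (nat_lit 373) (nat_lit 347) (nat_lit 180))) (XT.nd (nat_lit 78) (nat_lit 76) (nat_lit 0) (XT.lf (nat_lit 0) (nat_lit 1515764379582) (nat_lit 76) (nat_lit 1515764393092) (nat_lit 152) (nat_lit 25570260964087) (nat_lit 189) (nat_lit 5) (nat_lit 190) (nat_lit 5) (nat_lit 191) (nat_lit 4) (nat_lit 374) (nat_lit 347) (nat_lit 179)) (XT.nd (nat_lit 78) (nat_lit 76) (nat_lit 0) (XT.lf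 (nat_lit 0) (nat_lit 13338508182519) (nat_lit 152) (nat_lit 8988923427597) (nat_lit 0) (nat_lit 8988923415813) (nat_lit 189) (nat_lit 5) (nat_lit 191) (nat_lit 4) (nat_lit 189) (nat_lit 4) (nat_lit 375) (nat_lit 347) (nat_lit 178)) (XT.lf (nat_lit 0) (nat_lit 12898915159206) (nat_lit 76) (nat_lit 12898915171021) (nat_lit 76) (nat_lit 8549330404285) (nat_lit 188) (nat_lit 4) (nat_lit 189) (nat_lit 5) (nat_lit 189) (nat_lit 4) (nat_lit 376) (nat_lit 347) (nat_lit 177))))))))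
noncomputable def xc113 : XT := (XT.nd (nat_lit 45786) (nat_lit 0) (nat_lit 0) (XT.nd (nat_lit 45006) (nat_lit 0) (nat_lit 1444) (XT.nd (nat_lit 44616) (nat_lit 0) (nat_lit 2432) (XT.nd (nat_lit 156) (nat_lit 228) (nat_lit 0) (XT.nd (nat_lit 78) (nat_lit 0) (nat_lit 0) (XT.lf (nat_lit 0) (nat_lit 1318055982212) (nat_lit 76) (nat_lit 1318055994055) (nat_lit 152) (nat_lit 35100205939812) (nat_lit 186) (nat_lit 5) (nat_lit 187) (nat_lit 5) (nat_lit 188) (nat_lit 4) (nat_lit 377) (nat_lit 347) (nat_lit 176)) (XT.lf (nat_lit 0) (nat_lit 16295520502901) (nat_lit 152) (nat_lit 12513272889926) (nat_lit 0) (nat_lit 12513272879608) (nat_lit 186) (nat_lit 5) (nat_lit 188) (nat_lit 4) (nat_lit 186) (nat_lit 4) (nat_lit 378) (nat_lit 347) (nat_lit 175))) (XT.nd (nat_lit 78) (nat_lit 152) (nat_lit 0) (XT.lf (nat_lit 0) (nat_lit 16372272887762) (nat_lit 76) (nat_lit 16372272898098) (nat_lit 76) (nat_lit 12590025274786)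 (nat_lit 185) (nat_lit 4) (nat_lit 186) (nat_lit 5) (nat_lit 186) (nat_lit 4) (nat_lit 379) (nat_lit 347) (nat_lit 174)) (XT.nd (nat_lit 78) (nat_lit 0) (nat_lit 0) (XT.lf (nat_lit 0) (nat_lit 1146135636688) (nat_lit 76) (nat_lit 1146135647039) (nat_lit 152) (nat_lit 47536140455258) (nat_lit 183) (nat_lit 5) (nat_lit 184) (nat_lit 5) (nat_lit 185) (nat_lit 4) (nat_lit 380) (nat_lit 347) (nat_lit 173)) (XT.lf (nat_lit 0) (nat_lit 20381559283784) (nat_lit 152) (nat_lit 17092648315979) (nat_lit 0) (nat_lit 17092648306966) (nat_lit 183) (nat_lit 5) (nat_lit 185) (nat_lit 4) (nat_lit 183) (nat_lit 4) (nat_lit 381) (nat_lit 347) (nat_lit 172))))) (XT.nd (nat_lit 156) (nat_lit 0) (nat_lit 76) (XT.nd (nat_lit 78) (nat_lit 0) (nat_lit 0) (XT.lf (nat_lit 0) (nat_lit 509236443200) (nat_lit 380) (nat_lit 574937691549) (nat_lit 380) (nat_lit 574937691549) (nat_lit 215) (nat_lit 3) (nat_lit 220) (nat_lit 3)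 (nat_lit 220) (nat_lit 5) (nat_lit 348) (nat_lit 348) (nat_lit 204)) (XT.lf (nat_lit 76) (nat_lit 559002731967) (nat_lit 0) (nat_lit 559002737484) (nat_lit 380) (nat_lit 2445612889604) (nat_lit 216) (nat_lit 5) (nat_lit 215) (nat_lit 3) (nat_lit 220) (nat_lit 5) (nat_lit 349) (nat_lit 348) (nat_lit 203))) (XT.nd (nat_lit 78) (nat_lit 0) (nat_lit 0) (XT.lf (nat_lit 0) (nat_lit 1348925695428) (nat_lit 304) (nat_lit 1239713960852) (nat_lit 380) (nat_lit 1239713951883) (nat_lit 216) (nat_lit 5) (nat_lit 220) (nat_lit 5) (nat_lit 221) (nat_lit 5) (nat_lit 350) (nat_lit 348) (nat_lit 202)) (XT.nd (nat_lit 78) (nat_lit 0) (nat_lit 76) (XT.lf (nat_lit 76) (nat_lit 837899373014) (nat_lit 0) (nat_lit 837899385611) (nat_lit 380) (nat_lit 2447803165513) (nat_lit 217) (nat_lit 5) (nat_lit 216) (nat_lit 5) (nat_lit 221) (nat_lit 5) (nat_lit 351) (nat_lit 348) (nat_lit 201)) (XT.lf (nat_lit 0) (nat_lit 2168264835972)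 (nat_lit 304) (nat_lit 1138694178518) (nat_lit 76) (nat_lit 1138694164821) (nat_lit 217) (nat_lit 5) (nat_lit 221) (nat_lit 5) (nat_lit 218) (nat_lit 5) (nat_lit 352) (nat_lit 348) (nat_lit 200)))))) (XT.nd (nat_lit 390) (nat_lit 456) (nat_lit 0) (XT.nd (nat_lit 156) (nat_lit 380) (nat_lit 0) (XT.nd (nat_lit 78) (nat_lit 0) (nat_lit 0) (XT.lf (nat_lit 0) (nat_lit 1416579150330) (nat_lit 304) (nat_lit 1416579166413) (nat_lit 380) (nat_lit 1968070182240) (nat_lit 213) (nat_lit 5) (nat_lit 217) (nat_lit 5) (nat_lit 218) (nat_lit 5) (nat_lit 353) (nat_lit 348) (nat_lit 199)) (XT.lf (nat_lit 0) (nat_lit 3691503446762) (nat_lit 380) (nat_lit 752289520782) (nat_lit 76) (nat_lit 752289504994) (nat_lit 213) (nat_lit 5) (nat_lit 218) (nat_lit 5) (nat_lit 214) (nat_lit 5) (nat_lit 354) (nat_lit 348) (nat_lit 198))) (XT.nd (nat_lit 78) (nat_lit 228) (nat_lit 0) (XT.lf (nat_lit 0) (nat_lit 2423197969812) (nat_lit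 152) (nat_lit 2423197987168) (nat_lit 228) (nat_lit 778599243542) (nat_lit 211) (nat_lit 5) (nat_lit 213) (nat_lit 5) (nat_lit 214) (nat_lit 5) (nat_lit 355) (nat_lit 348) (nat_lit 197)) (XT.nd (nat_lit 78) (nat_lit 0) (nat_lit 0) (XT.lf (nat_lit 0) (nat_lit 47209462143) (nat_lit 152) (nat_lit 47209480864) (nat_lit 228) (nat_lit 6017003597509) (nat_lit 208) (nat_lit 5) (nat_lit 210) (nat_lit 5) (nat_lit 211) (nat_lit 5) (nat_lit 356) (nat_lit 348) (nat_lit 196)) (XT.lf (nat_lit 0) (nat_lit 1305200105898) (nat_lit 228) (nat_lit 2658536936344) (nat_lit 76) (nat_lit 2658536919034) (nat_lit 208) (nat_lit 5) (nat_lit 211) (nat_lit 5) (nat_lit 209) (nat_lit 5) (nat_lit 357) (nat_lit 348) (nat_lit 195))))) (XT.nd (nat_lit 156) (nat_lit 304) (nat_lit 0) (XT.nd (nat_lit 78) (nat_lit 0) (nat_lit 0) (XT.lf (nat_lit 0) (nat_lit 1378462851101) (nat_lit 152) (nat_lit 1378462869308) (nat_lit 228) (nat_lit 4443928283164)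 (nat_lit 206) (nat_lit 5) (nat_lit 208) (nat_lit 5) (nat_lit 209) (nat_lit 5) (nat_lit 358) (nat_lit 348) (nat_lit 194)) (XT.lf (nat_lit 0) (nat_lit 4638025809329) (nat_lit 228) (nat_lit 1598226457279) (nat_lit 76) (nat_lit 1598226440769) (nat_lit 206) (nat_lit 5) (nat_lit 209) (nat_lit 5) (nat_lit 207) (nat_lit 4) (nat_lit 359) (nat_lit 348) (nat_lit 193))) (XT.nd (nat_lit 78) (nat_lit 228) (nat_lit 0) (XT.lf (nat_lit 0) (nat_lit 3506055124595) (nat_lit 76) (nat_lit 3506055141694) (nat_lit 152) (nat_lit 1519413947260) (nat_lit 205) (nat_lit 5) (nat_lit 206) (nat_lit 5) (nat_lit 207) (nat_lit 4) (nat_lit 360) (nat_lit 348) (nat_lit 192)) (XT.nd (nat_lit 78) (nat_lit 0) (nat_lit 0) (XT.lf (nat_lit 0) (nat_lit 235002804896) (nat_lit 152) (nat_lit 235002822508) (nat_lit 228) (nat_lit 8845991488846) (nat_lit 202) (nat_lit 5) (nat_lit 204) (nat_lit 5) (nat_lit 205) (nat_lit 5) (nat_lit 361) (nat_lit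 348) (nat_lit 191)) (XT.lf (nat_lit 0) (nat_lit 3023516781018) (nat_lit 228) (nat_lit 3560292789408) (nat_lit 76) (nat_lit 3560292773705) (nat_lit 202) (nat_lit 5) (nat_lit 205) (nat_lit 5) (nat_lit 203) (nat_lit 4) (nat_lit 362) (nat_lit 348) (nat_lit 190))))))) (XT.nd (nat_lit 780) (nat_lit 684) (nat_lit 0) (XT.nd (nat_lit 390) (nat_lit 456) (nat_lit 0) (XT.nd (nat_lit 156) (nat_lit 228) (nat_lit 0) (XT.nd (nat_lit 78) (nat_lit 0) (nat_lit 0) (XT.lf (nat_lit 0) (nat_lit 3048743586196) (nat_lit 76) (nat_lit 3048743602236) (nat_lit 152) (nat_lit 4978321280647) (nat_lit 201) (nat_lit 5) (nat_lit 202) (nat_lit 5) (nat_lit 203) (nat_lit 4) (nat_lit 363) (nat_lit 348) (nat_lit 189)) (XT.lf (nat_lit 0) (nat_lit 9869616074916) (nat_lit 152) (nat_lit 1121047507182) (nat_lit 0) (nat_lit 1121047492979) (nat_lit 201) (nat_lit 5) (nat_lit 203) (nat_lit 4) (nat_lit 201) (nat_lit 4) (nat_lit 364) (nat_lit 348)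 (nat_lit 188))) (XT.nd (nat_lit 78) (nat_lit 76) (nat_lit 0) (XT.lf (nat_lit 0) (nat_lit 1294016288818) (nat_lit 152) (nat_lit 5966433561198) (nat_lit 76) (nat_lit 5966433546774) (nat_lit 199) (nat_lit 5) (nat_lit 201) (nat_lit 5) (nat_lit 200) (nat_lit 4) (nat_lit 365) (nat_lit 348) (nat_lit 187)) (XT.nd (nat_lit 78) (nat_lit 0) (nat_lit 0) (XT.lf (nat_lit 0) (nat_lit 2651081379068) (nat_lit 76) (nat_lit 2651081393685) (nat_lit 152) (nat_lit 9165478881263) (nat_lit 198) (nat_lit 5) (nat_lit 199) (nat_lit 5) (nat_lit 200) (nat_lit 4) (nat_lit 366) (nat_lit 348) (nat_lit 186)) (XT.lf (nat_lit 0) (nat_lit 10347982604445) (nat_lit 152) (nat_lit 2740531675980) (nat_lit 0) (nat_lit 2740531663124) (nat_lit 198) (nat_lit 5) (nat_lit 200) (nat_lit 4) (nat_lit 198) (nat_lit 4) (nat_lit 367) (nat_lit 348) (nat_lit 185))))) (XT.nd (nat_lit 156) (nat_lit 228) (nat_lit 0) (XT.nd (nat_lit 78) (nat_lit 152) (nat_lit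 0) (XT.lf (nat_lit 0) (nat_lit 8310519121722) (nat_lit 76) (nat_lit 8310519134705) (nat_lit 76) (nat_lit 703068193257) (nat_lit 197) (nat_lit 4) (nat_lit 198) (nat_lit 5) (nat_lit 198) (nat_lit 4) (nat_lit 368) (nat_lit 348) (nat_lit 184)) (XT.lf (nat_lit 0) (nat_lit 2305288155578) (nat_lit 76) (nat_lit 2305288168671) (nat_lit 152) (nat_lit 14366257983783) (nat_lit 195) (nat_lit 5) (nat_lit 196) (nat_lit 5) (nat_lit 197) (nat_lit 4) (nat_lit 369) (nat_lit 348) (nat_lit 183))) (XT.nd (nat_lit 78) (nat_lit 228) (nat_lit 0) (XT.lf (nat_lit 0) (nat_lit 11333394251100) (nat_lit 152) (nat_lit 4718219530696) (nat_lit 0) (nat_lit 4718219519227) (nat_lit 195) (nat_lit 5) (nat_lit 197) (nat_lit 4) (nat_lit 195) (nat_lit 4) (nat_lit 370) (nat_lit 348) (nat_lit 182)) (XT.nd (nat_lit 78) (nat_lit 152) (nat_lit 0) (XT.lf (nat_lit 0) (nat_lit 9789894569741) (nat_lit 76) (nat_lit 9789894581282) (nat_lit 76) (nat_lit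 3174719849337) (nat_lit 194) (nat_lit 4) (nat_lit 195) (nat_lit 5) (nat_lit 195) (nat_lit 4) (nat_lit 371) (nat_lit 348) (nat_lit 181)) (XT.lf (nat_lit 0) (nat_lit 2004598396078) (nat_lit 76) (nat_lit 2004598407682) (nat_lit 152) (nat_lit 20951473716967) (nat_lit 192) (nat_lit 5) (nat_lit 193) (nat_lit 5) (nat_lit 194) (nat_lit 4) (nat_lit 372) (nat_lit 348) (nat_lit 180)))))) (XT.nd (nat_lit 390) (nat_lit 380) (nat_lit 0) (XT.nd (nat_lit 156) (nat_lit 228) (nat_lit 0) (XT.nd (nat_lit 78) (nat_lit 76) (nat_lit 0) (XT.lf (nat_lit 0) (nat_lit 12943359337639) (nat_lit 152) (nat_lit 7191033493809) (nat_lit 0) (nat_lit 7191033483671) (nat_lit 192) (nat_lit 5) (nat_lit 194) (nat_lit 4) (nat_lit 192) (nat_lit 4) (nat_lit 373) (nat_lit 348) (nat_lit 179)) (XT.lf (nat_lit 0) (nat_lit 11902990378343) (nat_lit 76) (nat_lit 11902990388522) (nat_lit 76) (nat_lit 6150664534513) (nat_lit 191) (nat_lit 4) (nat_lit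 192) (nat_lit 5) (nat_lit 192) (nat_lit 4) (nat_lit 374) (nat_lit 348) (nat_lit 178))) (XT.nd (nat_lit 78) (nat_lit 76) (nat_lit 0) (XT.lf (nat_lit 0) (nat_lit 1743129040024) (nat_lit 76) (nat_lit 1743129050240) (nat_lit 152) (nat_lit 29405800106759) (nat_lit 189) (nat_lit 5) (nat_lit 190) (nat_lit 5) (nat_lit 191) (nat_lit 4) (nat_lit 375) (nat_lit 348) (nat_lit 177)) (XT.nd (nat_lit 78) (nat_lit 76) (nat_lit 0) (XT.lf (nat_lit 0) (nat_lit 15339284411430) (nat_lit 152) (nat_lit 10337261938534) (nat_lit 0) (nat_lit 10337261929624) (nat_lit 189) (nat_lit 5) (nat_lit 191) (nat_lit 4) (nat_lit 189) (nat_lit 4) (nat_lit 376) (nat_lit 348) (nat_lit 176)) (XT.lf (nat_lit 0) (nat_lit 14833752436144) (nat_lit 76) (nat_lit 14833752445078) (nat_lit 76) (nat_lit 9831729963249) (nat_lit 188) (nat_lit 4) (nat_lit 189) (nat_lit 5) (nat_lit 189) (nat_lit 4) (nat_lit 377) (nat_lit 348) (nat_lit 175))))) (XT.nd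 (nat_lit 156) (nat_lit 228) (nat_lit 0) (XT.nd (nat_lit 78) (nat_lit 0) (nat_lit 0) (XT.lf (nat_lit 0) (nat_lit 1515764382605) (nat_lit 76) (nat_lit 1515764391560) (nat_lit 152) (nat_lit 40365236829108) (nat_lit 186) (nat_lit 5) (nat_lit 187) (nat_lit 5) (nat_lit 188) (nat_lit 4) (nat_lit 378) (nat_lit 348) (nat_lit 174)) (XT.lf (nat_lit 0) (nat_lit 18739848579661) (nat_lit 152) (nat_lit 14390263820621) (nat_lit 0) (nat_lit 14390263812819) (nat_lit 186) (nat_lit 5) (nat_lit 188) (nat_lit 4) (nat_lit 186) (nat_lit 4) (nat_lit 379) (nat_lit 348) (nat_lit 173))) (XT.nd (nat_lit 78) (nat_lit 152) (nat_lit 0) (XT.lf (nat_lit 0) (nat_lit 18828113823592) (nat_lit 76) (nat_lit 18828113831408) (nat_lit 76) (nat_lit 14478529064553) (nat_lit 185) (nat_lit 4) (nat_lit 186) (nat_lit 5) (nat_lit 186) (nat_lit 4) (nat_lit 380) (nat_lit 348) (nat_lit 172)) (XT.nd (nat_lit 44382) (nat_lit 0) (nat_lit 2432) (XT.lf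 (nat_lit 0) (nat_lit 1318055984859) (nat_lit 76) (nat_lit 1318055992687) (nat_lit 152) (nat_lit 54666561522097) (nat_lit 183) (nat_lit 5) (nat_lit 184) (nat_lit 5) (nat_lit 185) (nat_lit 4) (nat_lit 381) (nat_lit 348) (nat_lit 171)) (XT.lf (nat_lit 0) (nat_lit 585621914969) (nat_lit 380) (nat_lit 661178342240) (nat_lit 380) (nat_lit 661178342240) (nat_lit 215) (nat_lit 3) (nat_lit 220) (nat_lit 3) (nat_lit 220) (nat_lit 5) (nat_lit 349) (nat_lit 349) (nat_lit 202))))))))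
noncomputable def xc114 : XT := (XT.nd (nat_lit 1560) (nat_lit 912) (nat_lit 0) (XT.nd (nat_lit 780) (nat_lit 684) (nat_lit 0) (XT.nd (nat_lit 390) (nat_lit 532) (nat_lit 0) (XT.nd (nat_lit 156) (nat_lit 152) (nat_lit 0) (XT.nd (nat_lit 78) (nat_lit 0) (nat_lit 76) (XT.lf (nat_lit 76) (nat_lit 642853147568) (nat_lit 0) (nat_lit 642853151740) (nat_lit 380) (nat_lit 2812454812190) (nat_lit 216) (nat_lit 5) (nat_lit 215) (nat_lit 3) (nat_lit 220) (nat_lit 5) (nat_lit 350) (nat_lit 349) (nat_lit 201)) (XT.lf (nat_lit 0) (nat_lit 1551264557819) (nat_lit 304) (nat_lit 1425671048570) (nat_lit 380) (nat_lit 1425671041788) (nat_lit 216) (nat_lit 5) (nat_lit 220) (nat_lit 5) (nat_lit 221) (nat_lit 5) (nat_lit 351) (nat_lit 349) (nat_lit 200))) (XT.nd (nat_lit 78) (nat_lit 228) (nat_lit 0) (XT.lf (nat_lit 76) (nat_lit 963584285085) (nat_lit 0) (nat_lit 963584294611) (nat_lit 380) (nat_lit 2814973631972) (nat_lit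 217) (nat_lit 5) (nat_lit 216) (nat_lit 5) (nat_lit 221) (nat_lit 5) (nat_lit 352) (nat_lit 349) (nat_lit 199)) (XT.nd (nat_lit 78) (nat_lit 304) (nat_lit 0) (XT.lf (nat_lit 0) (nat_lit 2493504567653) (nat_lit 304) (nat_lit 1309498298984) (nat_lit 76) (nat_lit 1309498288627) (nat_lit 217) (nat_lit 5) (nat_lit 221) (nat_lit 5) (nat_lit 218) (nat_lit 5) (nat_lit 353) (nat_lit 349) (nat_lit 198)) (XT.lf (nat_lit 0) (nat_lit 1629066028905) (nat_lit 304) (nat_lit 1629066041066) (nat_lit 380) (nat_lit 2263280703004) (nat_lit 213) (nat_lit 5) (nat_lit 217) (nat_lit 5) (nat_lit 218) (nat_lit 5) (nat_lit 354) (nat_lit 349) (nat_lit 197))))) (XT.nd (nat_lit 156) (nat_lit 380) (nat_lit 0) (XT.nd (nat_lit 78) (nat_lit 152) (nat_lit 0) (XT.lf (nat_lit 0) (nat_lit 4245228968758) (nat_lit 380) (nat_lit 865132942926) (nat_lit 76) (nat_lit 865132930988) (nat_lit 213) (nat_lit 5) (nat_lit 218) (nat_lit 5) (nat_lit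 214) (nat_lit 5) (nat_lit 355) (nat_lit 349) (nat_lit 196)) (XT.lf (nat_lit 0) (nat_lit 2786677670985) (nat_lit 152) (nat_lit 2786677684109) (nat_lit 228) (nat_lit 895389124821) (nat_lit 211) (nat_lit 5) (nat_lit 213) (nat_lit 5) (nat_lit 214) (nat_lit 5) (nat_lit 356) (nat_lit 349) (nat_lit 195))) (XT.nd (nat_lit 78) (nat_lit 152) (nat_lit 0) (XT.lf (nat_lit 0) (nat_lit 54290887354) (nat_lit 152) (nat_lit 54290901509) (nat_lit 228) (nat_lit 6919554132070) (nat_lit 208) (nat_lit 5) (nat_lit 210) (nat_lit 5) (nat_lit 211) (nat_lit 5) (nat_lit 357) (nat_lit 349) (nat_lit 194)) (XT.nd (nat_lit 78) (nat_lit 152) (nat_lit 0) (XT.lf (nat_lit 0) (nat_lit 1500980125666) (nat_lit 228) (nat_lit 3057317471154) (nat_lit 76) (nat_lit 3057317458065) (nat_lit 208) (nat_lit 5) (nat_lit 211) (nat_lit 5) (nat_lit 209) (nat_lit 5) (nat_lit 358) (nat_lit 349) (nat_lit 193)) (XT.lf (nat_lit 0) (nat_lit 1585232284152)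 (nat_lit 152) (nat_lit 1585232297919) (nat_lit 228) (nat_lit 5110517521498) (nat_lit 206) (nat_lit 5) (nat_lit 208) (nat_lit 5) (nat_lit 209) (nat_lit 5) (nat_lit 359) (nat_lit 349) (nat_lit 192)))))) (XT.nd (nat_lit 390) (nat_lit 304) (nat_lit 0) (XT.nd (nat_lit 156) (nat_lit 304) (nat_lit 0) (XT.nd (nat_lit 78) (nat_lit 76) (nat_lit 0) (XT.lf (nat_lit 0) (nat_lit 5333729683924) (nat_lit 228) (nat_lit 1837960420783) (nat_lit 76) (nat_lit 1837960408299) (nat_lit 206) (nat_lit 5) (nat_lit 209) (nat_lit 5) (nat_lit 207) (nat_lit 4) (nat_lit 360) (nat_lit 349) (nat_lit 191)) (XT.lf (nat_lit 0) (nat_lit 4031963398141) (nat_lit 76) (nat_lit 4031963411071) (nat_lit 152) (nat_lit 1747326035923) (nat_lit 205) (nat_lit 5) (nat_lit 206) (nat_lit 5) (nat_lit 207) (nat_lit 4) (nat_lit 361) (nat_lit 349) (nat_lit 190))) (XT.nd (nat_lit 78) (nat_lit 76) (nat_lit 0) (XT.lf (nat_lit 0) (nat_lit 270253230558) (nat_lit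 152) (nat_lit 270253243875) (nat_lit 228) (nat_lit 10172890208818) (nat_lit 202) (nat_lit 5) (nat_lit 204) (nat_lit 5) (nat_lit 205) (nat_lit 5) (nat_lit 362) (nat_lit 349) (nat_lit 189)) (XT.nd (nat_lit 78) (nat_lit 76) (nat_lit 0) (XT.lf (nat_lit 0) (nat_lit 3477044300780) (nat_lit 228) (nat_lit 4094336703226) (nat_lit 76) (nat_lit 4094336691353) (nat_lit 202) (nat_lit 5) (nat_lit 205) (nat_lit 5) (nat_lit 203) (nat_lit 4) (nat_lit 363) (nat_lit 349) (nat_lit 188)) (XT.lf (nat_lit 0) (nat_lit 3506055128510) (nat_lit 76) (nat_lit 3506055140638) (nat_lit 152) (nat_lit 5725069469926) (nat_lit 201) (nat_lit 5) (nat_lit 202) (nat_lit 5) (nat_lit 203) (nat_lit 4) (nat_lit 364) (nat_lit 349) (nat_lit 187))))) (XT.nd (nat_lit 156) (nat_lit 152) (nat_lit 0) (XT.nd (nat_lit 78) (nat_lit 152) (nat_lit 0) (XT.lf (nat_lit 0) (nat_lit 11350058488355) (nat_lit 152) (nat_lit 1289204629197) (nat_lit 0) (nat_lit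 1289204618458) (nat_lit 201) (nat_lit 5) (nat_lit 203) (nat_lit 4) (nat_lit 201) (nat_lit 4) (nat_lit 365) (nat_lit 349) (nat_lit 186)) (XT.lf (nat_lit 0) (nat_lit 1488118734314) (nat_lit 152) (nat_lit 6861398591288) (nat_lit 76) (nat_lit 6861398580381) (nat_lit 199) (nat_lit 5) (nat_lit 201) (nat_lit 5) (nat_lit 200) (nat_lit 4) (nat_lit 366) (nat_lit 349) (nat_lit 185))) (XT.nd (nat_lit 78) (nat_lit 76) (nat_lit 0) (XT.lf (nat_lit 0) (nat_lit 3048743589832) (nat_lit 76) (nat_lit 3048743600885) (nat_lit 152) (nat_lit 10540300711094) (nat_lit 198) (nat_lit 5) (nat_lit 199) (nat_lit 5) (nat_lit 200) (nat_lit 4) (nat_lit 367) (nat_lit 349) (nat_lit 184)) (XT.nd (nat_lit 78) (nat_lit 76) (nat_lit 0) (XT.lf (nat_lit 0) (nat_lit 11900179996963) (nat_lit 152) (nat_lit 3151611423782) (nat_lit 0) (nat_lit 3151611414061) (nat_lit 198) (nat_lit 5) (nat_lit 200) (nat_lit 4) (nat_lit 198) (nat_lit 4) (nat_lit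 368) (nat_lit 349) (nat_lit 183)) (XT.lf (nat_lit 0) (nat_lit 9557096993413) (nat_lit 76) (nat_lit 9557097003230) (nat_lit 76) (nat_lit 808528420232) (nat_lit 197) (nat_lit 4) (nat_lit 198) (nat_lit 5) (nat_lit 198) (nat_lit 4) (nat_lit 369) (nat_lit 349) (nat_lit 182))))))) (XT.nd (nat_lit 780) (nat_lit 76) (nat_lit 0) (XT.nd (nat_lit 390) (nat_lit 456) (nat_lit 0) (XT.nd (nat_lit 156) (nat_lit 228) (nat_lit 0) (XT.nd (nat_lit 78) (nat_lit 0) (nat_lit 0) (XT.lf (nat_lit 0) (nat_lit 2651081382362) (nat_lit 76) (nat_lit 2651081392262) (nat_lit 152) (nat_lit 16521196679351) (nat_lit 195) (nat_lit 5) (nat_lit 196) (nat_lit 5) (nat_lit 197) (nat_lit 4) (nat_lit 370) (nat_lit 349) (nat_lit 181)) (XT.lf (nat_lit 0) (nat_lit 13033403390338) (nat_lit 152) (nat_lit 5425952457138) (nat_lit 0) (nat_lit 5425952448466) (nat_lit 195) (nat_lit 5) (nat_lit 197) (nat_lit 4) (nat_lit 195) (nat_lit 4) (nat_lit 371)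 (nat_lit 349) (nat_lit 180))) (XT.nd (nat_lit 78) (nat_lit 152) (nat_lit 0) (XT.lf (nat_lit 0) (nat_lit 11258378758221) (nat_lit 76) (nat_lit 11258378766948) (nat_lit 76) (nat_lit 3650927825021) (nat_lit 194) (nat_lit 4) (nat_lit 195) (nat_lit 5) (nat_lit 195) (nat_lit 4) (nat_lit 372) (nat_lit 349) (nat_lit 179)) (XT.nd (nat_lit 78) (nat_lit 0) (nat_lit 0) (XT.lf (nat_lit 0) (nat_lit 2305288158518) (nat_lit 76) (nat_lit 2305288167292) (nat_lit 152) (nat_lit 24094194772804) (nat_lit 192) (nat_lit 5) (nat_lit 193) (nat_lit 5) (nat_lit 194) (nat_lit 4) (nat_lit 373) (nat_lit 349) (nat_lit 178)) (XT.lf (nat_lit 0) (nat_lit 14884863239632) (nat_lit 152) (nat_lit 8269688515109) (nat_lit 0) (nat_lit 8269688507443) (nat_lit 192) (nat_lit 5) (nat_lit 194) (nat_lit 4) (nat_lit 192) (nat_lit 4) (nat_lit 374) (nat_lit 349) (nat_lit 177))))) (XT.nd (nat_lit 156) (nat_lit 228) (nat_lit 0) (XT.nd (nat_lit 78)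 (nat_lit 152) (nat_lit 0) (XT.lf (nat_lit 0) (nat_lit 13688438937739) (nat_lit 76) (nat_lit 13688438945437) (nat_lit 76) (nat_lit 7073264213217) (nat_lit 191) (nat_lit 4) (nat_lit 192) (nat_lit 5) (nat_lit 192) (nat_lit 4) (nat_lit 375) (nat_lit 349) (nat_lit 176)) (XT.lf (nat_lit 0) (nat_lit 2004598398678) (nat_lit 76) (nat_lit 2004598406403) (nat_lit 152) (nat_lit 33816670121305) (nat_lit 189) (nat_lit 5) (nat_lit 190) (nat_lit 5) (nat_lit 191) (nat_lit 4) (nat_lit 376) (nat_lit 349) (nat_lit 175))) (XT.nd (nat_lit 78) (nat_lit 228) (nat_lit 0) (XT.lf (nat_lit 0) (nat_lit 17640177074304) (nat_lit 152) (nat_lit 11887851226893) (nat_lit 0) (nat_lit 11887851220156) (nat_lit 189) (nat_lit 5) (nat_lit 191) (nat_lit 4) (nat_lit 189) (nat_lit 4) (nat_lit 377) (nat_lit 349) (nat_lit 174)) (XT.nd (nat_lit 78) (nat_lit 152) (nat_lit 0) (XT.lf (nat_lit 0) (nat_lit 17058815303877) (nat_lit 76) (nat_lit 17058815310632)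 (nat_lit 76) (nat_lit 11306489456466) (nat_lit 188) (nat_lit 4) (nat_lit 189) (nat_lit 5) (nat_lit 189) (nat_lit 4) (nat_lit 378) (nat_lit 349) (nat_lit 173)) (XT.lf (nat_lit 0) (nat_lit 1743129042310) (nat_lit 76) (nat_lit 1743129049081) (nat_lit 152) (nat_lit 46420022352208) (nat_lit 186) (nat_lit 5) (nat_lit 187) (nat_lit 5) (nat_lit 188) (nat_lit 4) (nat_lit 379) (nat_lit 349) (nat_lit 172)))))) (XT.nd (nat_lit 44772) (nat_lit 0) (nat_lit 1976) (XT.nd (nat_lit 44538) (nat_lit 0) (nat_lit 2280) (XT.nd (nat_lit 78) (nat_lit 76) (nat_lit 0) (XT.lf (nat_lit 0) (nat_lit 21550825867612) (nat_lit 152) (nat_lit 16548803391603) (nat_lit 0) (nat_lit 16548803385703) (nat_lit 186) (nat_lit 5) (nat_lit 188) (nat_lit 4) (nat_lit 186) (nat_lit 4) (nat_lit 380) (nat_lit 349) (nat_lit 171)) (XT.lf (nat_lit 0) (nat_lit 21652330899147) (nat_lit 76) (nat_lit 21652330905057) (nat_lit 76) (nat_lit 16650308423138)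 (nat_lit 185) (nat_lit 4) (nat_lit 186) (nat_lit 5) (nat_lit 186) (nat_lit 4) (nat_lit 381) (nat_lit 349) (nat_lit 170))) (XT.nd (nat_lit 78) (nat_lit 0) (nat_lit 0) (XT.lf (nat_lit 0) (nat_lit 673465206213) (nat_lit 380) (nat_lit 760355091277) (nat_lit 380) (nat_lit 760355091277) (nat_lit 215) (nat_lit 3) (nat_lit 220) (nat_lit 3) (nat_lit 220) (nat_lit 5) (nat_lit 350) (nat_lit 350) (nat_lit 200)) (XT.nd (nat_lit 78) (nat_lit 0) (nat_lit 76) (XT.lf (nat_lit 76) (nat_lit 739281124093) (nat_lit 0) (nat_lit 739281127248) (nat_lit 380) (nat_lit 3234323025812) (nat_lit 216) (nat_lit 5) (nat_lit 215) (nat_lit 3) (nat_lit 220) (nat_lit 5) (nat_lit 351) (nat_lit 350) (nat_lit 199)) (XT.lf (nat_lit 0) (nat_lit 1783954247599) (nat_lit 304) (nat_lit 1639521701008) (nat_lit 380) (nat_lit 1639521695880) (nat_lit 216) (nat_lit 5) (nat_lit 220) (nat_lit 5) (nat_lit 221) (nat_lit 5) (nat_lit 352) (nat_lit 350)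 (nat_lit 198))))) (XT.nd (nat_lit 156) (nat_lit 380) (nat_lit 0) (XT.nd (nat_lit 78) (nat_lit 0) (nat_lit 76) (XT.lf (nat_lit 76) (nat_lit 1108121932475) (nat_lit 0) (nat_lit 1108121939677) (nat_lit 380) (nat_lit 3237219670441) (nat_lit 217) (nat_lit 5) (nat_lit 216) (nat_lit 5) (nat_lit 221) (nat_lit 5) (nat_lit 353) (nat_lit 350) (nat_lit 197)) (XT.lf (nat_lit 0) (nat_lit 2867530257554) (nat_lit 304) (nat_lit 1505923039059) (nat_lit 76) (nat_lit 1505923031228) (nat_lit 217) (nat_lit 5) (nat_lit 221) (nat_lit 5) (nat_lit 218) (nat_lit 5) (nat_lit 354) (nat_lit 350) (nat_lit 196))) (XT.nd (nat_lit 78) (nat_lit 152) (nat_lit 0) (XT.lf (nat_lit 0) (nat_lit 1873425937796) (nat_lit 304) (nat_lit 1873425946991) (nat_lit 380) (nat_lit 2602772803484) (nat_lit 213) (nat_lit 5) (nat_lit 217) (nat_lit 5) (nat_lit 218) (nat_lit 5) (nat_lit 355) (nat_lit 350) (nat_lit 195)) (XT.nd (nat_lit 78) (nat_lit 152)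 (nat_lit 0) (XT.lf (nat_lit 0) (nat_lit 4882013317838) (nat_lit 380) (nat_lit 994902879849) (nat_lit 76) (nat_lit 994902870822) (nat_lit 213) (nat_lit 5) (nat_lit 218) (nat_lit 5) (nat_lit 214) (nat_lit 5) (nat_lit 356) (nat_lit 350) (nat_lit 194)) (XT.lf (nat_lit 0) (nat_lit 3204679325944) (nat_lit 152) (nat_lit 3204679335868) (nat_lit 228) (nat_lit 1029697489572) (nat_lit 211) (nat_lit 5) (nat_lit 213) (nat_lit 5) (nat_lit 214) (nat_lit 5) (nat_lit 357) (nat_lit 350) (nat_lit 193))))))))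
noncomputable def xc115 : XT := (XT.nd (nat_lit 1560) (nat_lit 228) (nat_lit 0) (XT.nd (nat_lit 780) (nat_lit 760) (nat_lit 0) (XT.nd (nat_lit 390) (nat_lit 456) (nat_lit 0) (XT.nd (nat_lit 156) (nat_lit 228) (nat_lit 0) (XT.nd (nat_lit 78) (nat_lit 0) (nat_lit 0) (XT.lf (nat_lit 0) (nat_lit 62434524910) (nat_lit 152) (nat_lit 62434535613) (nat_lit 228) (nat_lit 7957487248051) (nat_lit 208) (nat_lit 5) (nat_lit 210) (nat_lit 5) (nat_lit 211) (nat_lit 5) (nat_lit 358) (nat_lit 350) (nat_lit 192)) (XT.lf (nat_lit 0) (nat_lit 1726127147453) (nat_lit 228) (nat_lit 3515915087561) (nat_lit 76) (nat_lit 3515915077664) (nat_lit 208) (nat_lit 5) (nat_lit 211) (nat_lit 5) (nat_lit 209) (nat_lit 5) (nat_lit 359) (nat_lit 350) (nat_lit 191))) (XT.nd (nat_lit 78) (nat_lit 76) (nat_lit 0) (XT.lf (nat_lit 0) (nat_lit 1823017130847) (nat_lit 152) (nat_lit 1823017141256) (nat_lit 228) (nat_lit 5877095146593) (nat_lit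 206) (nat_lit 5) (nat_lit 208) (nat_lit 5) (nat_lit 209) (nat_lit 5) (nat_lit 360) (nat_lit 350) (nat_lit 190)) (XT.nd (nat_lit 78) (nat_lit 76) (nat_lit 0) (XT.lf (nat_lit 0) (nat_lit 6133789138928) (nat_lit 228) (nat_lit 2113654480053) (nat_lit 76) (nat_lit 2113654470614) (nat_lit 206) (nat_lit 5) (nat_lit 209) (nat_lit 5) (nat_lit 207) (nat_lit 4) (nat_lit 361) (nat_lit 350) (nat_lit 189)) (XT.lf (nat_lit 0) (nat_lit 4636757911535) (nat_lit 76) (nat_lit 4636757921312) (nat_lit 152) (nat_lit 2009424938721) (nat_lit 205) (nat_lit 5) (nat_lit 206) (nat_lit 5) (nat_lit 207) (nat_lit 4) (nat_lit 362) (nat_lit 350) (nat_lit 188))))) (XT.nd (nat_lit 156) (nat_lit 228) (nat_lit 0) (XT.nd (nat_lit 78) (nat_lit 0) (nat_lit 0) (XT.lf (nat_lit 0) (nat_lit 310791218867) (nat_lit 152) (nat_lit 310791228937) (nat_lit 228) (nat_lit 11698823737603) (nat_lit 202) (nat_lit 5) (nat_lit 204) (nat_lit 5) (nat_lit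 205) (nat_lit 5) (nat_lit 363) (nat_lit 350) (nat_lit 187)) (XT.lf (nat_lit 0) (nat_lit 3998600947871) (nat_lit 228) (nat_lit 4708487205238) (nat_lit 76) (nat_lit 4708487196260) (nat_lit 202) (nat_lit 5) (nat_lit 205) (nat_lit 5) (nat_lit 203) (nat_lit 4) (nat_lit 364) (nat_lit 350) (nat_lit 186))) (XT.nd (nat_lit 78) (nat_lit 152) (nat_lit 0) (XT.lf (nat_lit 0) (nat_lit 4031963401101) (nat_lit 76) (nat_lit 4031963410272) (nat_lit 152) (nat_lit 6583829888284) (nat_lit 201) (nat_lit 5) (nat_lit 202) (nat_lit 5) (nat_lit 203) (nat_lit 4) (nat_lit 365) (nat_lit 350) (nat_lit 185)) (XT.nd (nat_lit 78) (nat_lit 152) (nat_lit 0) (XT.lf (nat_lit 0) (nat_lit 13052567263272) (nat_lit 152) (nat_lit 1482585320505) (nat_lit 0) (nat_lit 1482585312384) (nat_lit 201) (nat_lit 5) (nat_lit 203) (nat_lit 4) (nat_lit 201) (nat_lit 4) (nat_lit 366) (nat_lit 350) (nat_lit 184)) (XT.lf (nat_lit 0) (nat_lit 1711336546104)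 (nat_lit 152) (nat_lit 7890608376889) (nat_lit 76) (nat_lit 7890608368642) (nat_lit 199) (nat_lit 5) (nat_lit 201) (nat_lit 5) (nat_lit 200) (nat_lit 4) (nat_lit 367) (nat_lit 350) (nat_lit 183)))))) (XT.nd (nat_lit 390) (nat_lit 456) (nat_lit 0) (XT.nd (nat_lit 156) (nat_lit 228) (nat_lit 0) (XT.nd (nat_lit 78) (nat_lit 0) (nat_lit 0) (XT.lf (nat_lit 0) (nat_lit 3506055131259) (nat_lit 76) (nat_lit 3506055139616) (nat_lit 152) (nat_lit 12121345815974) (nat_lit 198) (nat_lit 5) (nat_lit 199) (nat_lit 5) (nat_lit 200) (nat_lit 4) (nat_lit 368) (nat_lit 350) (nat_lit 182)) (XT.lf (nat_lit 0) (nat_lit 13685206997906) (nat_lit 152) (nat_lit 3624353134630) (nat_lit 0) (nat_lit 3624353127280) (nat_lit 198) (nat_lit 5) (nat_lit 200) (nat_lit 4) (nat_lit 198) (nat_lit 4) (nat_lit 369) (nat_lit 350) (nat_lit 181))) (XT.nd (nat_lit 78) (nat_lit 152) (nat_lit 0) (XT.lf (nat_lit 0) (nat_lit 10990661545020)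 (nat_lit 76) (nat_lit 10990661552443) (nat_lit 76) (nat_lit 929807681744) (nat_lit 197) (nat_lit 4) (nat_lit 198) (nat_lit 5) (nat_lit 198) (nat_lit 4) (nat_lit 370) (nat_lit 350) (nat_lit 180)) (XT.nd (nat_lit 78) (nat_lit 0) (nat_lit 0) (XT.lf (nat_lit 0) (nat_lit 3048743592323) (nat_lit 76) (nat_lit 3048743599809) (nat_lit 152) (nat_lit 18999376179743) (nat_lit 195) (nat_lit 5) (nat_lit 196) (nat_lit 5) (nat_lit 197) (nat_lit 4) (nat_lit 371) (nat_lit 350) (nat_lit 179)) (XT.lf (nat_lit 0) (nat_lit 14988413900079) (nat_lit 152) (nat_lit 6239845323317) (nat_lit 0) (nat_lit 6239845316760) (nat_lit 195) (nat_lit 5) (nat_lit 197) (nat_lit 4) (nat_lit 195) (nat_lit 4) (nat_lit 372) (nat_lit 350) (nat_lit 178))))) (XT.nd (nat_lit 156) (nat_lit 228) (nat_lit 0) (XT.nd (nat_lit 78) (nat_lit 152) (nat_lit 0) (XT.lf (nat_lit 0) (nat_lit 12947135574238) (nat_lit 76) (nat_lit 12947135580836) (nat_lit 76)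 (nat_lit 4198566997476) (nat_lit 194) (nat_lit 4) (nat_lit 195) (nat_lit 5) (nat_lit 195) (nat_lit 4) (nat_lit 373) (nat_lit 350) (nat_lit 177)) (XT.lf (nat_lit 0) (nat_lit 2651081384585) (nat_lit 76) (nat_lit 2651081391220) (nat_lit 152) (nat_lit 27708323987433) (nat_lit 192) (nat_lit 5) (nat_lit 193) (nat_lit 5) (nat_lit 194) (nat_lit 4) (nat_lit 374) (nat_lit 350) (nat_lit 176))) (XT.nd (nat_lit 78) (nat_lit 228) (nat_lit 0) (XT.lf (nat_lit 0) (nat_lit 17117592726595) (nat_lit 152) (nat_lit 9510141790280) (nat_lit 0) (nat_lit 9510141784484) (nat_lit 192) (nat_lit 5) (nat_lit 194) (nat_lit 4) (nat_lit 192) (nat_lit 4) (nat_lit 375) (nat_lit 350) (nat_lit 175)) (XT.nd (nat_lit 78) (nat_lit 152) (nat_lit 0) (XT.lf (nat_lit 0) (nat_lit 15741704780400) (nat_lit 76) (nat_lit 15741704786220) (nat_lit 76) (nat_lit 8134253844086) (nat_lit 191) (nat_lit 4) (nat_lit 192) (nat_lit 5) (nat_lit 192) (nat_lit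 4) (nat_lit 376) (nat_lit 350) (nat_lit 174)) (XT.lf (nat_lit 0) (nat_lit 2305288160484) (nat_lit 76) (nat_lit 2305288166325) (nat_lit 152) (nat_lit 38889170638391) (nat_lit 189) (nat_lit 5) (nat_lit 190) (nat_lit 5) (nat_lit 191) (nat_lit 4) (nat_lit 377) (nat_lit 350) (nat_lit 173))))))) (XT.nd (nat_lit 45240) (nat_lit 0) (nat_lit 1140) (XT.nd (nat_lit 44850) (nat_lit 0) (nat_lit 2052) (XT.nd (nat_lit 156) (nat_lit 152) (nat_lit 0) (XT.nd (nat_lit 78) (nat_lit 76) (nat_lit 0) (XT.lf (nat_lit 0) (nat_lit 20286203636327) (nat_lit 152) (nat_lit 13671028909096) (nat_lit 0) (nat_lit 13671028904002) (nat_lit 189) (nat_lit 5) (nat_lit 191) (nat_lit 4) (nat_lit 189) (nat_lit 4) (nat_lit 378) (nat_lit 350) (nat_lit 172)) (XT.lf (nat_lit 0) (nat_lit 19617637601207) (nat_lit 76) (nat_lit 19617637606314) (nat_lit 76) (nat_lit 13002462873976) (nat_lit 188) (nat_lit 4) (nat_lit 189) (nat_lit 5) (nat_lit 189)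 (nat_lit 4) (nat_lit 379) (nat_lit 350) (nat_lit 171))) (XT.nd (nat_lit 78) (nat_lit 0) (nat_lit 0) (XT.lf (nat_lit 0) (nat_lit 2004598400406) (nat_lit 76) (nat_lit 2004598405526) (nat_lit 152) (nat_lit 53383025704081) (nat_lit 186) (nat_lit 5) (nat_lit 187) (nat_lit 5) (nat_lit 188) (nat_lit 4) (nat_lit 380) (nat_lit 350) (nat_lit 170)) (XT.nd (nat_lit 44538) (nat_lit 0) (nat_lit 2204) (XT.lf (nat_lit 0) (nat_lit 24783449748511) (nat_lit 152) (nat_lit 19031123898746) (nat_lit 0) (nat_lit 19031123894285) (nat_lit 186) (nat_lit 5) (nat_lit 188) (nat_lit 4) (nat_lit 186) (nat_lit 4) (nat_lit 381) (nat_lit 350) (nat_lit 169)) (XT.lf (nat_lit 0) (nat_lit 774484990169) (nat_lit 380) (nat_lit 874408353230) (nat_lit 380) (nat_lit 874408353230) (nat_lit 215) (nat_lit 3) (nat_lit 220) (nat_lit 3) (nat_lit 220) (nat_lit 5) (nat_lit 351) (nat_lit 351) (nat_lit 198))))) (XT.nd (nat_lit 156) (nat_lit 152) (nat_lit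 0) (XT.nd (nat_lit 78) (nat_lit 0) (nat_lit 76) (XT.lf (nat_lit 76) (nat_lit 850173296027) (nat_lit 0) (nat_lit 850173298412) (nat_lit 380) (nat_lit 3719471473478) (nat_lit 216) (nat_lit 5) (nat_lit 215) (nat_lit 3) (nat_lit 220) (nat_lit 5) (nat_lit 352) (nat_lit 351) (nat_lit 197)) (XT.lf (nat_lit 0) (nat_lit 2051547389357) (nat_lit 304) (nat_lit 1885449952494) (nat_lit 380) (nat_lit 1885449948617) (nat_lit 216) (nat_lit 5) (nat_lit 220) (nat_lit 5) (nat_lit 221) (nat_lit 5) (nat_lit 353) (nat_lit 351) (nat_lit 196))) (XT.nd (nat_lit 78) (nat_lit 228) (nat_lit 0) (XT.lf (nat_lit 76) (nat_lit 1274340225845) (nat_lit 0) (nat_lit 1274340231291) (nat_lit 380) (nat_lit 3722802616223) (nat_lit 217) (nat_lit 5) (nat_lit 216) (nat_lit 5) (nat_lit 221) (nat_lit 5) (nat_lit 354) (nat_lit 351) (nat_lit 195)) (XT.nd (nat_lit 78) (nat_lit 304) (nat_lit 0) (XT.lf (nat_lit 0) (nat_lit 3297659799781) (nat_lit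 304) (nat_lit 1731811491309) (nat_lit 76) (nat_lit 1731811485388) (nat_lit 217) (nat_lit 5) (nat_lit 221) (nat_lit 5) (nat_lit 218) (nat_lit 5) (nat_lit 355) (nat_lit 351) (nat_lit 194)) (XT.lf (nat_lit 0) (nat_lit 2154439831910) (nat_lit 304) (nat_lit 2154439838863) (nat_lit 380) (nat_lit 2993188720249) (nat_lit 213) (nat_lit 5) (nat_lit 217) (nat_lit 5) (nat_lit 218) (nat_lit 5) (nat_lit 356) (nat_lit 351) (nat_lit 193)))))) (XT.nd (nat_lit 390) (nat_lit 380) (nat_lit 0) (XT.nd (nat_lit 156) (nat_lit 380) (nat_lit 0) (XT.nd (nat_lit 78) (nat_lit 152) (nat_lit 0) (XT.lf (nat_lit 0) (nat_lit 5614315318361) (nat_lit 380) (nat_lit 1144138308411) (nat_lit 76) (nat_lit 1144138301585) (nat_lit 213) (nat_lit 5) (nat_lit 218) (nat_lit 5) (nat_lit 214) (nat_lit 5) (nat_lit 357) (nat_lit 351) (nat_lit 192)) (XT.lf (nat_lit 0) (nat_lit 3685381228096) (nat_lit 152) (nat_lit 3685381235600) (nat_lit 228) (nat_lit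 1184152110005) (nat_lit 211) (nat_lit 5) (nat_lit 213) (nat_lit 5) (nat_lit 214) (nat_lit 5) (nat_lit 358) (nat_lit 351) (nat_lit 191))) (XT.nd (nat_lit 78) (nat_lit 152) (nat_lit 0) (XT.lf (nat_lit 0) (nat_lit 71799707013) (nat_lit 152) (nat_lit 71799715107) (nat_lit 228) (nat_lit 9151110332362) (nat_lit 208) (nat_lit 5) (nat_lit 210) (nat_lit 5) (nat_lit 211) (nat_lit 5) (nat_lit 359) (nat_lit 351) (nat_lit 190)) (XT.nd (nat_lit 78) (nat_lit 152) (nat_lit 0) (XT.lf (nat_lit 0) (nat_lit 1985046221791) (nat_lit 228) (nat_lit 4043302347470) (nat_lit 76) (nat_lit 4043302339986) (nat_lit 208) (nat_lit 5) (nat_lit 211) (nat_lit 5) (nat_lit 209) (nat_lit 5) (nat_lit 360) (nat_lit 351) (nat_lit 189)) (XT.lf (nat_lit 0) (nat_lit 2096469703553) (nat_lit 152) (nat_lit 2096469711424) (nat_lit 228) (nat_lit 6758659416215) (nat_lit 206) (nat_lit 5) (nat_lit 208) (nat_lit 5) (nat_lit 209) (nat_lit 5) (nat_lit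 361) (nat_lit 351) (nat_lit 188))))) (XT.nd (nat_lit 156) (nat_lit 304) (nat_lit 0) (XT.nd (nat_lit 78) (nat_lit 76) (nat_lit 0) (XT.lf (nat_lit 0) (nat_lit 7053857511594) (nat_lit 228) (nat_lit 2430702649152) (nat_lit 76) (nat_lit 2430702642014) (nat_lit 206) (nat_lit 5) (nat_lit 209) (nat_lit 5) (nat_lit 207) (nat_lit 4) (nat_lit 362) (nat_lit 351) (nat_lit 187)) (XT.lf (nat_lit 0) (nat_lit 5332271601042) (nat_lit 76) (nat_lit 5332271608435) (nat_lit 152) (nat_lit 2310838677571) (nat_lit 205) (nat_lit 5) (nat_lit 206) (nat_lit 5) (nat_lit 207) (nat_lit 4) (nat_lit 363) (nat_lit 351) (nat_lit 186))) (XT.nd (nat_lit 78) (nat_lit 76) (nat_lit 0) (XT.lf (nat_lit 0) (nat_lit 357409904514) (nat_lit 152) (nat_lit 357409912129) (nat_lit 228) (nat_lit 13453647296325) (nat_lit 202) (nat_lit 5) (nat_lit 204) (nat_lit 5) (nat_lit 205) (nat_lit 5) (nat_lit 364) (nat_lit 351) (nat_lit 185)) (XT.nd (nat_lit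 78) (nat_lit 76) (nat_lit 0) (XT.lf (nat_lit 0) (nat_lit 4598391091543) (nat_lit 228) (nat_lit 5414760283397) (nat_lit 76) (nat_lit 5414760276609) (nat_lit 202) (nat_lit 5) (nat_lit 205) (nat_lit 5) (nat_lit 203) (nat_lit 4) (nat_lit 365) (nat_lit 351) (nat_lit 184)) (XT.lf (nat_lit 0) (nat_lit 4636757913773) (nat_lit 76) (nat_lit 4636757920708) (nat_lit 152) (nat_lit 7571404369915) (nat_lit 201) (nat_lit 5) (nat_lit 202) (nat_lit 5) (nat_lit 203) (nat_lit 4) (nat_lit 366) (nat_lit 351) (nat_lit 183))))))))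
noncomputable def xc116 : XT := (XT.nd (nat_lit 46098) (nat_lit 0) (nat_lit 456) (XT.nd (nat_lit 780) (nat_lit 456) (nat_lit 0) (XT.nd (nat_lit 390) (nat_lit 380) (nat_lit 0) (XT.nd (nat_lit 156) (nat_lit 152) (nat_lit 0) (XT.nd (nat_lit 78) (nat_lit 152) (nat_lit 0) (XT.lf (nat_lit 0) (nat_lit 15010452354021) (nat_lit 152) (nat_lit 1704973116258) (nat_lit 0) (nat_lit 1704973110118) (nat_lit 201) (nat_lit 5) (nat_lit 203) (nat_lit 4) (nat_lit 201) (nat_lit 4) (nat_lit 367) (nat_lit 351) (nat_lit 182)) (XT.lf (nat_lit 0) (nat_lit 1968037029263) (nat_lit 152) (nat_lit 9074199631083) (nat_lit 76) (nat_lit 9074199624848) (nat_lit 199) (nat_lit 5) (nat_lit 201) (nat_lit 5) (nat_lit 200) (nat_lit 4) (nat_lit 368) (nat_lit 351) (nat_lit 181))) (XT.nd (nat_lit 78) (nat_lit 76) (nat_lit 0) (XT.lf (nat_lit 0) (nat_lit 4031963403180) (nat_lit 76) (nat_lit 4031963409500) (nat_lit 152) (nat_lit 13939547687022)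 (nat_lit 198) (nat_lit 5) (nat_lit 199) (nat_lit 5) (nat_lit 200) (nat_lit 4) (nat_lit 369) (nat_lit 351) (nat_lit 180)) (XT.nd (nat_lit 78) (nat_lit 76) (nat_lit 0) (XT.lf (nat_lit 0) (nat_lit 15737988048650) (nat_lit 152) (nat_lit 4168006102769) (nat_lit 0) (nat_lit 4168006097211) (nat_lit 198) (nat_lit 5) (nat_lit 200) (nat_lit 4) (nat_lit 198) (nat_lit 4) (nat_lit 370) (nat_lit 351) (nat_lit 179)) (XT.lf (nat_lit 0) (nat_lit 12639260778735) (nat_lit 76) (nat_lit 12639260784348) (nat_lit 76) (nat_lit 1069278832854) (nat_lit 197) (nat_lit 4) (nat_lit 198) (nat_lit 5) (nat_lit 198) (nat_lit 4) (nat_lit 371) (nat_lit 351) (nat_lit 178))))) (XT.nd (nat_lit 156) (nat_lit 228) (nat_lit 0) (XT.nd (nat_lit 78) (nat_lit 0) (nat_lit 0) (XT.lf (nat_lit 0) (nat_lit 3506055133142) (nat_lit 76) (nat_lit 3506055138803) (nat_lit 152) (nat_lit 21849282605561) (nat_lit 195) (nat_lit 5) (nat_lit 196) (nat_lit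 5) (nat_lit 197) (nat_lit 4) (nat_lit 372) (nat_lit 351) (nat_lit 177)) (XT.lf (nat_lit 0) (nat_lit 17236675985990) (nat_lit 152) (nat_lit 7175822120006) (nat_lit 0) (nat_lit 7175822115048) (nat_lit 195) (nat_lit 5) (nat_lit 197) (nat_lit 4) (nat_lit 195) (nat_lit 4) (nat_lit 373) (nat_lit 351) (nat_lit 176))) (XT.nd (nat_lit 78) (nat_lit 152) (nat_lit 0) (XT.lf (nat_lit 0) (nat_lit 14889205912099) (nat_lit 76) (nat_lit 14889205917089) (nat_lit 76) (nat_lit 4828352046116) (nat_lit 194) (nat_lit 4) (nat_lit 195) (nat_lit 5) (nat_lit 195) (nat_lit 4) (nat_lit 374) (nat_lit 351) (nat_lit 175)) (XT.nd (nat_lit 78) (nat_lit 0) (nat_lit 0) (XT.lf (nat_lit 0) (nat_lit 3048743594004) (nat_lit 76) (nat_lit 3048743599021) (nat_lit 152) (nat_lit 31864572584572) (nat_lit 192) (nat_lit 5) (nat_lit 193) (nat_lit 5) (nat_lit 194) (nat_lit 4) (nat_lit 375) (nat_lit 351) (nat_lit 174)) (XT.lf (nat_lit 0) (nat_lit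 19685231636355) (nat_lit 152) (nat_lit 10936663057238) (nat_lit 0) (nat_lit 10936663052855) (nat_lit 192) (nat_lit 5) (nat_lit 194) (nat_lit 4) (nat_lit 192) (nat_lit 4) (nat_lit 376) (nat_lit 351) (nat_lit 173)))))) (XT.nd (nat_lit 44928) (nat_lit 0) (nat_lit 2204) (XT.nd (nat_lit 156) (nat_lit 228) (nat_lit 0) (XT.nd (nat_lit 78) (nat_lit 152) (nat_lit 0) (XT.lf (nat_lit 0) (nat_lit 18102960498973) (nat_lit 76) (nat_lit 18102960503374) (nat_lit 76) (nat_lit 9354391919856) (nat_lit 191) (nat_lit 4) (nat_lit 192) (nat_lit 5) (nat_lit 192) (nat_lit 4) (nat_lit 377) (nat_lit 351) (nat_lit 172)) (XT.lf (nat_lit 0) (nat_lit 2651081386072) (nat_lit 76) (nat_lit 2651081390488) (nat_lit 152) (nat_lit 44722546233310) (nat_lit 189) (nat_lit 5) (nat_lit 190) (nat_lit 5) (nat_lit 191) (nat_lit 4) (nat_lit 378) (nat_lit 351) (nat_lit 171))) (XT.nd (nat_lit 78) (nat_lit 228) (nat_lit 0) (XT.lf (nat_lit 0) (nat_lit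 23329134182439) (nat_lit 152) (nat_lit 15721683244076) (nat_lit 0) (nat_lit 15721683240224) (nat_lit 189) (nat_lit 5) (nat_lit 191) (nat_lit 4) (nat_lit 189) (nat_lit 4) (nat_lit 379) (nat_lit 351) (nat_lit 170)) (XT.nd (nat_lit 78) (nat_lit 152) (nat_lit 0) (XT.lf (nat_lit 0) (nat_lit 22560283242709) (nat_lit 76) (nat_lit 22560283246571) (nat_lit 76) (nat_lit 14952832304347) (nat_lit 188) (nat_lit 4) (nat_lit 189) (nat_lit 5) (nat_lit 189) (nat_lit 4) (nat_lit 380) (nat_lit 351) (nat_lit 169)) (XT.lf (nat_lit 0) (nat_lit 2305288161791) (nat_lit 76) (nat_lit 2305288165662) (nat_lit 152) (nat_lit 61390479558969) (nat_lit 186) (nat_lit 5) (nat_lit 187) (nat_lit 5) (nat_lit 188) (nat_lit 4) (nat_lit 381) (nat_lit 351) (nat_lit 168))))) (XT.nd (nat_lit 156) (nat_lit 0) (nat_lit 76) (XT.nd (nat_lit 78) (nat_lit 0) (nat_lit 0) (XT.lf (nat_lit 0) (nat_lit 890657740981) (nat_lit 380) (nat_lit 1005569604899)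 (nat_lit 380) (nat_lit 1005569604899) (nat_lit 215) (nat_lit 3) (nat_lit 220) (nat_lit 3) (nat_lit 220) (nat_lit 5) (nat_lit 352) (nat_lit 352) (nat_lit 196)) (XT.lf (nat_lit 76) (nat_lit 977699292941) (nat_lit 0) (nat_lit 977699294744) (nat_lit 380) (nat_lit 4277392189807) (nat_lit 216) (nat_lit 5) (nat_lit 215) (nat_lit 3) (nat_lit 220) (nat_lit 5) (nat_lit 353) (nat_lit 352) (nat_lit 195))) (XT.nd (nat_lit 78) (nat_lit 0) (nat_lit 0) (XT.lf (nat_lit 0) (nat_lit 2359279501252) (nat_lit 304) (nat_lit 2168267442597) (nat_lit 380) (nat_lit 2168267439665) (nat_lit 216) (nat_lit 5) (nat_lit 220) (nat_lit 5) (nat_lit 221) (nat_lit 5) (nat_lit 354) (nat_lit 352) (nat_lit 194)) (XT.nd (nat_lit 78) (nat_lit 0) (nat_lit 76) (XT.lf (nat_lit 76) (nat_lit 1465491262367) (nat_lit 0) (nat_lit 1465491266485) (nat_lit 380) (nat_lit 4281223005039) (nat_lit 217) (nat_lit 5) (nat_lit 216) (nat_lit 5) (nat_lit 221)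 (nat_lit 5) (nat_lit 355) (nat_lit 352) (nat_lit 193)) (XT.lf (nat_lit 0) (nat_lit 3792308772466) (nat_lit 304) (nat_lit 1991583212277) (nat_lit 76) (nat_lit 1991583207800) (nat_lit 217) (nat_lit 5) (nat_lit 221) (nat_lit 5) (nat_lit 218) (nat_lit 5) (nat_lit 356) (nat_lit 352) (nat_lit 192))))))) (XT.nd (nat_lit 780) (nat_lit 760) (nat_lit 0) (XT.nd (nat_lit 390) (nat_lit 456) (nat_lit 0) (XT.nd (nat_lit 156) (nat_lit 380) (nat_lit 0) (XT.nd (nat_lit 78) (nat_lit 0) (nat_lit 0) (XT.lf (nat_lit 0) (nat_lit 2477605809302) (nat_lit 304) (nat_lit 2477605814559) (nat_lit 380) (nat_lit 3442167025445) (nat_lit 213) (nat_lit 5) (nat_lit 217) (nat_lit 5) (nat_lit 218) (nat_lit 5) (nat_lit 357) (nat_lit 352) (nat_lit 191)) (XT.lf (nat_lit 0) (nat_lit 6456462618269) (nat_lit 380) (nat_lit 1315759052090) (nat_lit 76) (nat_lit 1315759046929) (nat_lit 213) (nat_lit 5) (nat_lit 218) (nat_lit 5) (nat_lit 214)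 (nat_lit 5) (nat_lit 358) (nat_lit 352) (nat_lit 190))) (XT.nd (nat_lit 78) (nat_lit 228) (nat_lit 0) (XT.lf (nat_lit 0) (nat_lit 4238188414776) (nat_lit 152) (nat_lit 4238188420450) (nat_lit 228) (nat_lit 1361774924235) (nat_lit 211) (nat_lit 5) (nat_lit 213) (nat_lit 5) (nat_lit 214) (nat_lit 5) (nat_lit 359) (nat_lit 352) (nat_lit 189)) (XT.nd (nat_lit 78) (nat_lit 0) (nat_lit 0) (XT.lf (nat_lit 0) (nat_lit 82569665611) (nat_lit 152) (nat_lit 82569671731) (nat_lit 228) (nat_lit 10523776880027) (nat_lit 208) (nat_lit 5) (nat_lit 210) (nat_lit 5) (nat_lit 211) (nat_lit 5) (nat_lit 360) (nat_lit 352) (nat_lit 188)) (XT.lf (nat_lit 0) (nat_lit 2282803156739) (nat_lit 228) (nat_lit 4649797697151) (nat_lit 76) (nat_lit 4649797691492) (nat_lit 208) (nat_lit 5) (nat_lit 211) (nat_lit 5) (nat_lit 209) (nat_lit 5) (nat_lit 361) (nat_lit 352) (nat_lit 187))))) (XT.nd (nat_lit 156) (nat_lit 304) (nat_lit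 0) (XT.nd (nat_lit 78) (nat_lit 0) (nat_lit 0) (XT.lf (nat_lit 0) (nat_lit 2410940161414) (nat_lit 152) (nat_lit 2410940167366) (nat_lit 228) (nat_lit 7772458326857) (nat_lit 206) (nat_lit 5) (nat_lit 208) (nat_lit 5) (nat_lit 209) (nat_lit 5) (nat_lit 362) (nat_lit 352) (nat_lit 186)) (XT.lf (nat_lit 0) (nat_lit 8111936139714) (nat_lit 228) (nat_lit 2795308044325) (nat_lit 76) (nat_lit 2795308038928) (nat_lit 206) (nat_lit 5) (nat_lit 209) (nat_lit 5) (nat_lit 207) (nat_lit 4) (nat_lit 363) (nat_lit 352) (nat_lit 185))) (XT.nd (nat_lit 78) (nat_lit 228) (nat_lit 0) (XT.lf (nat_lit 0) (nat_lit 6132112343298) (nat_lit 76) (nat_lit 6132112348888) (nat_lit 152) (nat_lit 2657464477725) (nat_lit 205) (nat_lit 5) (nat_lit 206) (nat_lit 5) (nat_lit 207) (nat_lit 4) (nat_lit 364) (nat_lit 352) (nat_lit 184)) (XT.nd (nat_lit 78) (nat_lit 0) (nat_lit 0) (XT.lf (nat_lit 0) (nat_lit 411021392322) (nat_lit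 152) (nat_lit 411021398079) (nat_lit 228) (nat_lit 15471694389323) (nat_lit 202) (nat_lit 5) (nat_lit 204) (nat_lit 5) (nat_lit 205) (nat_lit 5) (nat_lit 365) (nat_lit 352) (nat_lit 183)) (XT.lf (nat_lit 0) (nat_lit 5288149756403) (nat_lit 228) (nat_lit 6226974323921) (nat_lit 76) (nat_lit 6226974318788) (nat_lit 202) (nat_lit 5) (nat_lit 205) (nat_lit 5) (nat_lit 203) (nat_lit 4) (nat_lit 366) (nat_lit 352) (nat_lit 182)))))) (XT.nd (nat_lit 390) (nat_lit 456) (nat_lit 0) (XT.nd (nat_lit 156) (nat_lit 228) (nat_lit 0) (XT.nd (nat_lit 78) (nat_lit 0) (nat_lit 0) (XT.lf (nat_lit 0) (nat_lit 5332271602735) (nat_lit 76) (nat_lit 5332271607978) (nat_lit 152) (nat_lit 8707115024184) (nat_lit 201) (nat_lit 5) (nat_lit 202) (nat_lit 5) (nat_lit 203) (nat_lit 4) (nat_lit 367) (nat_lit 352) (nat_lit 181)) (XT.lf (nat_lit 0) (nat_lit 17262020208076) (nat_lit 152) (nat_lit 1960719081940) (nat_lit 0) (nat_lit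 1960719077297) (nat_lit 201) (nat_lit 5) (nat_lit 203) (nat_lit 4) (nat_lit 201) (nat_lit 4) (nat_lit 368) (nat_lit 352) (nat_lit 180))) (XT.nd (nat_lit 78) (nat_lit 76) (nat_lit 0) (XT.lf (nat_lit 0) (nat_lit 2263242584591) (nat_lit 152) (nat_lit 10435329573978) (nat_lit 76) (nat_lit 10435329569263) (nat_lit 199) (nat_lit 5) (nat_lit 201) (nat_lit 5) (nat_lit 200) (nat_lit 4) (nat_lit 369) (nat_lit 352) (nat_lit 179)) (XT.nd (nat_lit 78) (nat_lit 0) (nat_lit 0) (XT.lf (nat_lit 0) (nat_lit 4636757915345) (nat_lit 76) (nat_lit 4636757920124) (nat_lit 152) (nat_lit 16030479839056) (nat_lit 198) (nat_lit 5) (nat_lit 199) (nat_lit 5) (nat_lit 200) (nat_lit 4) (nat_lit 370) (nat_lit 352) (nat_lit 178)) (XT.lf (nat_lit 0) (nat_lit 18098686256748) (nat_lit 152) (nat_lit 4793207016630) (nat_lit 0) (nat_lit 4793207012427) (nat_lit 198) (nat_lit 5) (nat_lit 200) (nat_lit 4) (nat_lit 198) (nat_lit 4) (nat_lit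 371) (nat_lit 352) (nat_lit 177))))) (XT.nd (nat_lit 156) (nat_lit 228) (nat_lit 0) (XT.nd (nat_lit 78) (nat_lit 152) (nat_lit 0) (XT.lf (nat_lit 0) (nat_lit 14535149897030) (nat_lit 76) (nat_lit 14535149901274) (nat_lit 76) (nat_lit 1229670656912) (nat_lit 197) (nat_lit 4) (nat_lit 198) (nat_lit 5) (nat_lit 198) (nat_lit 4) (nat_lit 372) (nat_lit 352) (nat_lit 176)) (XT.lf (nat_lit 0) (nat_lit 4031963404604) (nat_lit 76) (nat_lit 4031963408884) (nat_lit 152) (nat_lit 25126674995532) (nat_lit 195) (nat_lit 5) (nat_lit 196) (nat_lit 5) (nat_lit 197) (nat_lit 4) (nat_lit 373) (nat_lit 352) (nat_lit 175))) (XT.nd (nat_lit 78) (nat_lit 228) (nat_lit 0) (XT.lf (nat_lit 0) (nat_lit 19822177384568) (nat_lit 152) (nat_lit 8252195436640) (nat_lit 0) (nat_lit 8252195432890) (nat_lit 195) (nat_lit 5) (nat_lit 197) (nat_lit 4) (nat_lit 195) (nat_lit 4) (nat_lit 374) (nat_lit 352) (nat_lit 174)) (XT.nd (nat_lit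 78) (nat_lit 152) (nat_lit 0) (XT.lf (nat_lit 0) (nat_lit 17122586800220) (nat_lit 76) (nat_lit 17122586803992) (nat_lit 76) (nat_lit 5552604852291) (nat_lit 194) (nat_lit 4) (nat_lit 195) (nat_lit 5) (nat_lit 195) (nat_lit 4) (nat_lit 375) (nat_lit 352) (nat_lit 173)) (XT.lf (nat_lit 0) (nat_lit 3506055134414) (nat_lit 76) (nat_lit 3506055138207) (nat_lit 152) (nat_lit 36644258471519) (nat_lit 192) (nat_lit 5) (nat_lit 193) (nat_lit 5) (nat_lit 194) (nat_lit 4) (nat_lit 376) (nat_lit 352) (nat_lit 172))))))))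
noncomputable def xc117 : XT := (XT.nd (nat_lit 46176) (nat_lit 0) (nat_lit 76) (XT.nd (nat_lit 45396) (nat_lit 0) (nat_lit 1064) (XT.nd (nat_lit 45006) (nat_lit 0) (nat_lit 2052) (XT.nd (nat_lit 156) (nat_lit 228) (nat_lit 0) (XT.nd (nat_lit 78) (nat_lit 76) (nat_lit 0) (XT.lf (nat_lit 0) (nat_lit 22638016382390) (nat_lit 152) (nat_lit 12577162514626) (nat_lit 0) (nat_lit 12577162511312) (nat_lit 192) (nat_lit 5) (nat_lit 194) (nat_lit 4) (nat_lit 192) (nat_lit 4) (nat_lit 377) (nat_lit 352) (nat_lit 171)) (XT.lf (nat_lit 0) (nat_lit 20818404574962) (nat_lit 76) (nat_lit 20818404578290) (nat_lit 76) (nat_lit 10757550707198) (nat_lit 191) (nat_lit 4) (nat_lit 192) (nat_lit 5) (nat_lit 192) (nat_lit 4) (nat_lit 378) (nat_lit 352) (nat_lit 170))) (XT.nd (nat_lit 78) (nat_lit 76) (nat_lit 0) (XT.lf (nat_lit 0) (nat_lit 3048743595128) (nat_lit 76) (nat_lit 3048743598467) (nat_lit 152) (nat_lit 51430928167672)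 (nat_lit 189) (nat_lit 5) (nat_lit 190) (nat_lit 5) (nat_lit 191) (nat_lit 4) (nat_lit 379) (nat_lit 352) (nat_lit 169)) (XT.nd (nat_lit 78) (nat_lit 76) (nat_lit 0) (XT.lf (nat_lit 0) (nat_lit 26828504310306) (nat_lit 152) (nat_lit 18079935729641) (nat_lit 0) (nat_lit 18079935726728) (nat_lit 189) (nat_lit 5) (nat_lit 191) (nat_lit 4) (nat_lit 189) (nat_lit 4) (nat_lit 380) (nat_lit 352) (nat_lit 168)) (XT.lf (nat_lit 0) (nat_lit 25944325730115) (nat_lit 76) (nat_lit 25944325733035) (nat_lit 76) (nat_lit 17195757149450) (nat_lit 188) (nat_lit 4) (nat_lit 189) (nat_lit 5) (nat_lit 189) (nat_lit 4) (nat_lit 381) (nat_lit 352) (nat_lit 167))))) (XT.nd (nat_lit 156) (nat_lit 0) (nat_lit 76) (XT.nd (nat_lit 78) (nat_lit 0) (nat_lit 0) (XT.lf (nat_lit 0) (nat_lit 1024256403857) (nat_lit 380) (nat_lit 1156405044640) (nat_lit 380) (nat_lit 1156405044640) (nat_lit 215) (nat_lit 3) (nat_lit 220) (nat_lit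 3) (nat_lit 220) (nat_lit 5) (nat_lit 353) (nat_lit 353) (nat_lit 194)) (XT.lf (nat_lit 76) (nat_lit 1124354188780) (nat_lit 0) (nat_lit 1124354190143) (nat_lit 380) (nat_lit 4919001014730) (nat_lit 216) (nat_lit 5) (nat_lit 215) (nat_lit 3) (nat_lit 220) (nat_lit 5) (nat_lit 354) (nat_lit 353) (nat_lit 193))) (XT.nd (nat_lit 78) (nat_lit 0) (nat_lit 0) (XT.lf (nat_lit 0) (nat_lit 2713171429080) (nat_lit 304) (nat_lit 2493507556891) (nat_lit 380) (nat_lit 2493507554674) (nat_lit 216) (nat_lit 5) (nat_lit 220) (nat_lit 5) (nat_lit 221) (nat_lit 5) (nat_lit 355) (nat_lit 353) (nat_lit 192)) (XT.nd (nat_lit 78) (nat_lit 0) (nat_lit 76) (XT.lf (nat_lit 76) (nat_lit 1685314953722) (nat_lit 0) (nat_lit 1685314956836) (nat_lit 380) (nat_lit 4923406453059) (nat_lit 217) (nat_lit 5) (nat_lit 216) (nat_lit 5) (nat_lit 221) (nat_lit 5) (nat_lit 356) (nat_lit 353) (nat_lit 191)) (XT.lf (nat_lit 0) (nat_lit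 4361155090390) (nat_lit 304) (nat_lit 2290320692056) (nat_lit 76) (nat_lit 2290320688670) (nat_lit 217) (nat_lit 5) (nat_lit 221) (nat_lit 5) (nat_lit 218) (nat_lit 5) (nat_lit 357) (nat_lit 353) (nat_lit 190)))))) (XT.nd (nat_lit 390) (nat_lit 456) (nat_lit 0) (XT.nd (nat_lit 156) (nat_lit 380) (nat_lit 0) (XT.nd (nat_lit 78) (nat_lit 0) (nat_lit 0) (XT.lf (nat_lit 0) (nat_lit 2849246682666) (nat_lit 304) (nat_lit 2849246686642) (nat_lit 380) (nat_lit 3958492077113) (nat_lit 213) (nat_lit 5) (nat_lit 217) (nat_lit 5) (nat_lit 218) (nat_lit 5) (nat_lit 358) (nat_lit 353) (nat_lit 189)) (XT.lf (nat_lit 0) (nat_lit 7424932012638) (nat_lit 380) (nat_lit 1513122907951) (nat_lit 76) (nat_lit 1513122904049) (nat_lit 213) (nat_lit 5) (nat_lit 218) (nat_lit 5) (nat_lit 214) (nat_lit 5) (nat_lit 359) (nat_lit 353) (nat_lit 188))) (XT.nd (nat_lit 78) (nat_lit 228) (nat_lit 0) (XT.lf (nat_lit 0) (nat_lit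 4873916678856) (nat_lit 152) (nat_lit 4873916683146) (nat_lit 228) (nat_lit 1566041161153) (nat_lit 211) (nat_lit 5) (nat_lit 213) (nat_lit 5) (nat_lit 214) (nat_lit 5) (nat_lit 360) (nat_lit 353) (nat_lit 187)) (XT.nd (nat_lit 78) (nat_lit 0) (nat_lit 0) (XT.lf (nat_lit 0) (nat_lit 94955117378) (nat_lit 152) (nat_lit 94955122006) (nat_lit 228) (nat_lit 12102343410375) (nat_lit 208) (nat_lit 5) (nat_lit 210) (nat_lit 5) (nat_lit 211) (nat_lit 5) (nat_lit 361) (nat_lit 353) (nat_lit 186)) (XT.lf (nat_lit 0) (nat_lit 2625223631519) (nat_lit 228) (nat_lit 5347267349880) (nat_lit 76) (nat_lit 5347267345601) (nat_lit 208) (nat_lit 5) (nat_lit 211) (nat_lit 5) (nat_lit 209) (nat_lit 5) (nat_lit 362) (nat_lit 353) (nat_lit 185))))) (XT.nd (nat_lit 156) (nat_lit 304) (nat_lit 0) (XT.nd (nat_lit 78) (nat_lit 0) (nat_lit 0) (XT.lf (nat_lit 0) (nat_lit 2772581187387) (nat_lit 152) (nat_lit 2772581191887)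 (nat_lit 228) (nat_lit 8938327074533) (nat_lit 206) (nat_lit 5) (nat_lit 208) (nat_lit 5) (nat_lit 209) (nat_lit 5) (nat_lit 363) (nat_lit 353) (nat_lit 184)) (XT.lf (nat_lit 0) (nat_lit 9328726561715) (nat_lit 228) (nat_lit 3214604249311) (nat_lit 76) (nat_lit 3214604245230) (nat_lit 206) (nat_lit 5) (nat_lit 209) (nat_lit 5) (nat_lit 207) (nat_lit 4) (nat_lit 364) (nat_lit 353) (nat_lit 183))) (XT.nd (nat_lit 78) (nat_lit 228) (nat_lit 0) (XT.lf (nat_lit 0) (nat_lit 7051929196381) (nat_lit 76) (nat_lit 7051929200608) (nat_lit 152) (nat_lit 3056084148264) (nat_lit 205) (nat_lit 5) (nat_lit 206) (nat_lit 5) (nat_lit 207) (nat_lit 4) (nat_lit 365) (nat_lit 353) (nat_lit 182)) (XT.nd (nat_lit 78) (nat_lit 0) (nat_lit 0) (XT.lf (nat_lit 0) (nat_lit 472674602781) (nat_lit 152) (nat_lit 472674607135) (nat_lit 228) (nat_lit 17792448546625) (nat_lit 202) (nat_lit 5) (nat_lit 204) (nat_lit 5) (nat_lit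 205) (nat_lit 5) (nat_lit 366) (nat_lit 353) (nat_lit 181)) (XT.lf (nat_lit 0) (nat_lit 6081372220717) (nat_lit 228) (nat_lit 7161020471008) (nat_lit 76) (nat_lit 7161020467127) (nat_lit 202) (nat_lit 5) (nat_lit 205) (nat_lit 5) (nat_lit 203) (nat_lit 4) (nat_lit 367) (nat_lit 353) (nat_lit 180))))))) (XT.nd (nat_lit 780) (nat_lit 228) (nat_lit 0) (XT.nd (nat_lit 390) (nat_lit 456) (nat_lit 0) (XT.nd (nat_lit 156) (nat_lit 228) (nat_lit 0) (XT.nd (nat_lit 78) (nat_lit 0) (nat_lit 0) (XT.lf (nat_lit 0) (nat_lit 6132112344578) (nat_lit 76) (nat_lit 6132112348543) (nat_lit 152) (nat_lit 10013182276891) (nat_lit 201) (nat_lit 5) (nat_lit 202) (nat_lit 5) (nat_lit 203) (nat_lit 4) (nat_lit 368) (nat_lit 353) (nat_lit 179)) (XT.lf (nat_lit 0) (nat_lit 19851323240007) (nat_lit 152) (nat_lit 2254826942903) (nat_lit 0) (nat_lit 2254826939393) (nat_lit 201) (nat_lit 5) (nat_lit 203) (nat_lit 4) (nat_lit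 201) (nat_lit 4) (nat_lit 369) (nat_lit 353) (nat_lit 178))) (XT.nd (nat_lit 78) (nat_lit 76) (nat_lit 0) (XT.lf (nat_lit 0) (nat_lit 2602728972991) (nat_lit 152) (nat_lit 12000629008738) (nat_lit 76) (nat_lit 12000629005172) (nat_lit 199) (nat_lit 5) (nat_lit 201) (nat_lit 5) (nat_lit 200) (nat_lit 4) (nat_lit 370) (nat_lit 353) (nat_lit 177)) (XT.nd (nat_lit 78) (nat_lit 0) (nat_lit 0) (XT.lf (nat_lit 0) (nat_lit 5332271603923) (nat_lit 76) (nat_lit 5332271607536) (nat_lit 152) (nat_lit 18435051814143) (nat_lit 198) (nat_lit 5) (nat_lit 199) (nat_lit 5) (nat_lit 200) (nat_lit 4) (nat_lit 371) (nat_lit 353) (nat_lit 176)) (XT.lf (nat_lit 0) (nat_lit 20813489195865) (nat_lit 152) (nat_lit 5512188067949) (nat_lit 0) (nat_lit 5512188064771) (nat_lit 198) (nat_lit 5) (nat_lit 200) (nat_lit 4) (nat_lit 198) (nat_lit 4) (nat_lit 372) (nat_lit 353) (nat_lit 175))))) (XT.nd (nat_lit 156) (nat_lit 228)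 (nat_lit 0) (XT.nd (nat_lit 78) (nat_lit 152) (nat_lit 0) (XT.lf (nat_lit 0) (nat_lit 16715422382706) (nat_lit 76) (nat_lit 16715422385915) (nat_lit 76) (nat_lit 1414121254790) (nat_lit 197) (nat_lit 4) (nat_lit 198) (nat_lit 5) (nat_lit 198) (nat_lit 4) (nat_lit 373) (nat_lit 353) (nat_lit 174)) (XT.lf (nat_lit 0) (nat_lit 4636757916422) (nat_lit 76) (nat_lit 4636757919659) (nat_lit 152) (nat_lit 28895676244208) (nat_lit 195) (nat_lit 5) (nat_lit 196) (nat_lit 5) (nat_lit 197) (nat_lit 4) (nat_lit 374) (nat_lit 353) (nat_lit 173))) (XT.nd (nat_lit 78) (nat_lit 228) (nat_lit 0) (XT.lf (nat_lit 0) (nat_lit 22795503992768) (nat_lit 152) (nat_lit 9490024751102) (nat_lit 0) (nat_lit 9490024748267) (nat_lit 195) (nat_lit 5) (nat_lit 197) (nat_lit 4) (nat_lit 195) (nat_lit 4) (nat_lit 375) (nat_lit 353) (nat_lit 172)) (XT.nd (nat_lit 78) (nat_lit 152) (nat_lit 0) (XT.lf (nat_lit 0) (nat_lit 19690974821240)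 (nat_lit 76) (nat_lit 19690974824092) (nat_lit 76) (nat_lit 6385495579573) (nat_lit 194) (nat_lit 4) (nat_lit 195) (nat_lit 5) (nat_lit 195) (nat_lit 4) (nat_lit 376) (nat_lit 353) (nat_lit 171)) (XT.lf (nat_lit 0) (nat_lit 4031963405565) (nat_lit 76) (nat_lit 4031963408434) (nat_lit 152) (nat_lit 42140897241689) (nat_lit 192) (nat_lit 5) (nat_lit 193) (nat_lit 5) (nat_lit 194) (nat_lit 4) (nat_lit 377) (nat_lit 353) (nat_lit 170)))))) (XT.nd (nat_lit 45084) (nat_lit 0) (nat_lit 1824) (XT.nd (nat_lit 156) (nat_lit 152) (nat_lit 0) (XT.nd (nat_lit 78) (nat_lit 76) (nat_lit 0) (XT.lf (nat_lit 0) (nat_lit 26033718840189) (nat_lit 152) (nat_lit 14463736890914) (nat_lit 0) (nat_lit 14463736888408) (nat_lit 192) (nat_lit 5) (nat_lit 194) (nat_lit 4) (nat_lit 192) (nat_lit 4) (nat_lit 378) (nat_lit 353) (nat_lit 169)) (XT.lf (nat_lit 0) (nat_lit 23941165262072) (nat_lit 76) (nat_lit 23941165264588) (nat_lit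 76) (nat_lit 12371183312796) (nat_lit 191) (nat_lit 4) (nat_lit 192) (nat_lit 5) (nat_lit 192) (nat_lit 4) (nat_lit 379) (nat_lit 353) (nat_lit 168))) (XT.nd (nat_lit 78) (nat_lit 0) (nat_lit 0) (XT.lf (nat_lit 0) (nat_lit 3506055135263) (nat_lit 76) (nat_lit 3506055137789) (nat_lit 152) (nat_lit 59145567392343) (nat_lit 189) (nat_lit 5) (nat_lit 190) (nat_lit 5) (nat_lit 191) (nat_lit 4) (nat_lit 380) (nat_lit 353) (nat_lit 167)) (XT.nd (nat_lit 44772) (nat_lit 0) (nat_lit 1976) (XT.lf (nat_lit 0) (nat_lit 30852779957231) (nat_lit 152) (nat_lit 20791926088296) (nat_lit 0) (nat_lit 20791926086093) (nat_lit 189) (nat_lit 5) (nat_lit 191) (nat_lit 4) (nat_lit 189) (nat_lit 4) (nat_lit 381) (nat_lit 353) (nat_lit 166)) (XT.lf (nat_lit 0) (nat_lit 1177894865743) (nat_lit 380) (nat_lit 1329865800585) (nat_lit 380) (nat_lit 1329865800585) (nat_lit 215) (nat_lit 3) (nat_lit 220) (nat_lit 3) (nat_lit 220)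 (nat_lit 5) (nat_lit 354) (nat_lit 354) (nat_lit 192))))) (XT.nd (nat_lit 156) (nat_lit 152) (nat_lit 0) (XT.nd (nat_lit 78) (nat_lit 0) (nat_lit 76) (XT.lf (nat_lit 76) (nat_lit 1293007318532) (nat_lit 0) (nat_lit 1293007319563) (nat_lit 380) (nat_lit 5656851164256) (nat_lit 216) (nat_lit 5) (nat_lit 215) (nat_lit 3) (nat_lit 220) (nat_lit 5) (nat_lit 355) (nat_lit 354) (nat_lit 191)) (XT.lf (nat_lit 0) (nat_lit 3120147145439) (nat_lit 304) (nat_lit 2867533688841) (nat_lit 380) (nat_lit 2867533687164) (nat_lit 216) (nat_lit 5) (nat_lit 220) (nat_lit 5) (nat_lit 221) (nat_lit 5) (nat_lit 356) (nat_lit 354) (nat_lit 190))) (XT.nd (nat_lit 78) (nat_lit 228) (nat_lit 0) (XT.lf (nat_lit 76) (nat_lit 1938112198293) (nat_lit 0) (nat_lit 1938112200648) (nat_lit 380) (nat_lit 5661917418950) (nat_lit 217) (nat_lit 5) (nat_lit 216) (nat_lit 5) (nat_lit 221) (nat_lit 5) (nat_lit 357) (nat_lit 354) (nat_lit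 189)) (XT.nd (nat_lit 78) (nat_lit 304) (nat_lit 0) (XT.lf (nat_lit 0) (nat_lit 5015328355503) (nat_lit 304) (nat_lit 2633868794304) (nat_lit 76) (nat_lit 2633868791744) (nat_lit 217) (nat_lit 5) (nat_lit 221) (nat_lit 5) (nat_lit 218) (nat_lit 5) (nat_lit 358) (nat_lit 354) (nat_lit 188)) (XT.lf (nat_lit 0) (nat_lit 3276633686556) (nat_lit 304) (nat_lit 3276633689562) (nat_lit 380) (nat_lit 4552265887056) (nat_lit 213) (nat_lit 5) (nat_lit 217) (nat_lit 5) (nat_lit 218) (nat_lit 5) (nat_lit 359) (nat_lit 354) (nat_lit 187))))))))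
noncomputable def xc118 : XT := (XT.nd (nat_lit 1560) (nat_lit 228) (nat_lit 0) (XT.nd (nat_lit 780) (nat_lit 684) (nat_lit 0) (XT.nd (nat_lit 390) (nat_lit 380) (nat_lit 0) (XT.nd (nat_lit 156) (nat_lit 380) (nat_lit 0) (XT.nd (nat_lit 78) (nat_lit 152) (nat_lit 0) (XT.lf (nat_lit 0) (nat_lit 8538671815764) (nat_lit 380) (nat_lit 1740091342668) (nat_lit 76) (nat_lit 1740091339717) (nat_lit 213) (nat_lit 5) (nat_lit 218) (nat_lit 5) (nat_lit 214) (nat_lit 5) (nat_lit 360) (nat_lit 354) (nat_lit 186)) (XT.lf (nat_lit 0) (nat_lit 5605004182094) (nat_lit 152) (nat_lit 5605004185338) (nat_lit 228) (nat_lit 1800947334028) (nat_lit 211) (nat_lit 5) (nat_lit 213) (nat_lit 5) (nat_lit 214) (nat_lit 5) (nat_lit 361) (nat_lit 354) (nat_lit 185))) (XT.nd (nat_lit 78) (nat_lit 152) (nat_lit 0) (XT.lf (nat_lit 0) (nat_lit 109198386441) (nat_lit 152) (nat_lit 109198389940) (nat_lit 228) (nat_lit 13917694920679)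 (nat_lit 208) (nat_lit 5) (nat_lit 210) (nat_lit 5) (nat_lit 211) (nat_lit 5) (nat_lit 362) (nat_lit 354) (nat_lit 184)) (XT.nd (nat_lit 78) (nat_lit 152) (nat_lit 0) (XT.lf (nat_lit 0) (nat_lit 3019007177207) (nat_lit 228) (nat_lit 6149357450967) (nat_lit 76) (nat_lit 6149357447732) (nat_lit 208) (nat_lit 5) (nat_lit 211) (nat_lit 5) (nat_lit 209) (nat_lit 5) (nat_lit 363) (nat_lit 354) (nat_lit 183)) (XT.lf (nat_lit 0) (nat_lit 3188468366826) (nat_lit 152) (nat_lit 3188468370229) (nat_lit 228) (nat_lit 10279076134689) (nat_lit 206) (nat_lit 5) (nat_lit 208) (nat_lit 5) (nat_lit 209) (nat_lit 5) (nat_lit 364) (nat_lit 354) (nat_lit 182))))) (XT.nd (nat_lit 156) (nat_lit 304) (nat_lit 0) (XT.nd (nat_lit 78) (nat_lit 76) (nat_lit 0) (XT.lf (nat_lit 0) (nat_lit 10728035546763) (nat_lit 228) (nat_lit 3696794885450) (nat_lit 76) (nat_lit 3696794882364) (nat_lit 206) (nat_lit 5) (nat_lit 209) (nat_lit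 5) (nat_lit 207) (nat_lit 4) (nat_lit 365) (nat_lit 354) (nat_lit 181)) (XT.lf (nat_lit 0) (nat_lit 8109718577039) (nat_lit 76) (nat_lit 8109718580235) (nat_lit 152) (nat_lit 3514496769657) (nat_lit 205) (nat_lit 5) (nat_lit 206) (nat_lit 5) (nat_lit 207) (nat_lit 4) (nat_lit 366) (nat_lit 354) (nat_lit 180))) (XT.nd (nat_lit 78) (nat_lit 76) (nat_lit 0) (XT.lf (nat_lit 0) (nat_lit 543575794416) (nat_lit 152) (nat_lit 543575797708) (nat_lit 228) (nat_lit 20461315827789) (nat_lit 202) (nat_lit 5) (nat_lit 204) (nat_lit 5) (nat_lit 205) (nat_lit 5) (nat_lit 367) (nat_lit 354) (nat_lit 179)) (XT.nd (nat_lit 78) (nat_lit 76) (nat_lit 0) (XT.lf (nat_lit 0) (nat_lit 6993578054469) (nat_lit 228) (nat_lit 8235173540524) (nat_lit 76) (nat_lit 8235173537589) (nat_lit 202) (nat_lit 5) (nat_lit 205) (nat_lit 5) (nat_lit 203) (nat_lit 4) (nat_lit 368) (nat_lit 354) (nat_lit 178)) (XT.lf (nat_lit 0) (nat_lit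 7051929197349) (nat_lit 76) (nat_lit 7051929200347) (nat_lit 152) (nat_lit 11515159617728) (nat_lit 201) (nat_lit 5) (nat_lit 202) (nat_lit 5) (nat_lit 203) (nat_lit 4) (nat_lit 369) (nat_lit 354) (nat_lit 177)))))) (XT.nd (nat_lit 390) (nat_lit 380) (nat_lit 0) (XT.nd (nat_lit 156) (nat_lit 152) (nat_lit 0) (XT.nd (nat_lit 78) (nat_lit 152) (nat_lit 0) (XT.lf (nat_lit 0) (nat_lit 22829021726552) (nat_lit 152) (nat_lit 2593050983335) (nat_lit 0) (nat_lit 2593050980680) (nat_lit 201) (nat_lit 5) (nat_lit 203) (nat_lit 4) (nat_lit 201) (nat_lit 4) (nat_lit 370) (nat_lit 354) (nat_lit 176)) (XT.lf (nat_lit 0) (nat_lit 2993138319476) (nat_lit 152) (nat_lit 13800723359037) (nat_lit 76) (nat_lit 13800723356341) (nat_lit 199) (nat_lit 5) (nat_lit 201) (nat_lit 5) (nat_lit 200) (nat_lit 4) (nat_lit 371) (nat_lit 354) (nat_lit 175))) (XT.nd (nat_lit 78) (nat_lit 76) (nat_lit 0) (XT.lf (nat_lit 0) (nat_lit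 6132112345477) (nat_lit 76) (nat_lit 6132112348209) (nat_lit 152) (nat_lit 21200309585681) (nat_lit 198) (nat_lit 5) (nat_lit 199) (nat_lit 5) (nat_lit 200) (nat_lit 4) (nat_lit 372) (nat_lit 354) (nat_lit 174)) (XT.nd (nat_lit 78) (nat_lit 76) (nat_lit 0) (XT.lf (nat_lit 0) (nat_lit 23935512575702) (nat_lit 152) (nat_lit 6339016277252) (nat_lit 0) (nat_lit 6339016274850) (nat_lit 198) (nat_lit 5) (nat_lit 200) (nat_lit 4) (nat_lit 198) (nat_lit 4) (nat_lit 373) (nat_lit 354) (nat_lit 173)) (XT.lf (nat_lit 0) (nat_lit 19222735740960) (nat_lit 76) (nat_lit 19222735743387) (nat_lit 76) (nat_lit 1626239442511) (nat_lit 197) (nat_lit 4) (nat_lit 198) (nat_lit 5) (nat_lit 198) (nat_lit 4) (nat_lit 374) (nat_lit 354) (nat_lit 172))))) (XT.nd (nat_lit 156) (nat_lit 228) (nat_lit 0) (XT.nd (nat_lit 78) (nat_lit 0) (nat_lit 0) (XT.lf (nat_lit 0) (nat_lit 5332271604738) (nat_lit 76) (nat_lit 5332271607185)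 (nat_lit 152) (nat_lit 33230027680345) (nat_lit 195) (nat_lit 5) (nat_lit 196) (nat_lit 5) (nat_lit 197) (nat_lit 4) (nat_lit 375) (nat_lit 354) (nat_lit 171)) (XT.lf (nat_lit 0) (nat_lit 26214829592072) (nat_lit 152) (nat_lit 10913528462985) (nat_lit 0) (nat_lit 10913528460842) (nat_lit 195) (nat_lit 5) (nat_lit 197) (nat_lit 4) (nat_lit 195) (nat_lit 4) (nat_lit 376) (nat_lit 354) (nat_lit 170))) (XT.nd (nat_lit 78) (nat_lit 152) (nat_lit 0) (XT.lf (nat_lit 0) (nat_lit 22644621045172) (nat_lit 76) (nat_lit 22644621047329) (nat_lit 76) (nat_lit 7343319916085) (nat_lit 194) (nat_lit 4) (nat_lit 195) (nat_lit 5) (nat_lit 195) (nat_lit 4) (nat_lit 377) (nat_lit 354) (nat_lit 169)) (XT.nd (nat_lit 78) (nat_lit 0) (nat_lit 0) (XT.lf (nat_lit 0) (nat_lit 4636757917149) (nat_lit 76) (nat_lit 4636757919318) (nat_lit 152) (nat_lit 48462031827520) (nat_lit 192) (nat_lit 5) (nat_lit 193) (nat_lit 5) (nat_lit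 194) (nat_lit 4) (nat_lit 378) (nat_lit 354) (nat_lit 168)) (XT.lf (nat_lit 0) (nat_lit 29938776666551) (nat_lit 152) (nat_lit 16633297423866) (nat_lit 0) (nat_lit 16633297421972) (nat_lit 192) (nat_lit 5) (nat_lit 194) (nat_lit 4) (nat_lit 192) (nat_lit 4) (nat_lit 379) (nat_lit 354) (nat_lit 167))))))) (XT.nd (nat_lit 45552) (nat_lit 0) (nat_lit 760) (XT.nd (nat_lit 45162) (nat_lit 0) (nat_lit 1672) (XT.nd (nat_lit 44928) (nat_lit 0) (nat_lit 1976) (XT.nd (nat_lit 78) (nat_lit 152) (nat_lit 0) (XT.lf (nat_lit 0) (nat_lit 27532340052036) (nat_lit 76) (nat_lit 27532340053939) (nat_lit 76) (nat_lit 14226860809352) (nat_lit 191) (nat_lit 4) (nat_lit 192) (nat_lit 5) (nat_lit 192) (nat_lit 4) (nat_lit 380) (nat_lit 354) (nat_lit 166)) (XT.lf (nat_lit 0) (nat_lit 4031963406208) (nat_lit 76) (nat_lit 4031963408117) (nat_lit 152) (nat_lit 68017402500831) (nat_lit 189) (nat_lit 5) (nat_lit 190) (nat_lit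 5) (nat_lit 191) (nat_lit 4) (nat_lit 381) (nat_lit 354) (nat_lit 165))) (XT.nd (nat_lit 78) (nat_lit 0) (nat_lit 0) (XT.lf (nat_lit 0) (nat_lit 1354579096593) (nat_lit 380) (nat_lit 1529345670104) (nat_lit 380) (nat_lit 1529345670104) (nat_lit 215) (nat_lit 3) (nat_lit 220) (nat_lit 3) (nat_lit 220) (nat_lit 5) (nat_lit 355) (nat_lit 355) (nat_lit 190)) (XT.nd (nat_lit 78) (nat_lit 0) (nat_lit 76) (XT.lf (nat_lit 76) (nat_lit 1486958417397) (nat_lit 0) (nat_lit 1486958418176) (nat_lit 380) (nat_lit 6505378836866) (nat_lit 216) (nat_lit 5) (nat_lit 215) (nat_lit 3) (nat_lit 220) (nat_lit 5) (nat_lit 356) (nat_lit 355) (nat_lit 189)) (XT.lf (nat_lit 0) (nat_lit 3588169218764) (nat_lit 304) (nat_lit 3297663740969) (nat_lit 380) (nat_lit 3297663739701) (nat_lit 216) (nat_lit 5) (nat_lit 220) (nat_lit 5) (nat_lit 221) (nat_lit 5) (nat_lit 357) (nat_lit 355) (nat_lit 188))))) (XT.nd (nat_lit 156) (nat_lit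 380) (nat_lit 0) (XT.nd (nat_lit 78) (nat_lit 0) (nat_lit 76) (XT.lf (nat_lit 76) (nat_lit 2228829029181) (nat_lit 0) (nat_lit 2228829030961) (nat_lit 380) (nat_lit 6511205030228) (nat_lit 217) (nat_lit 5) (nat_lit 216) (nat_lit 5) (nat_lit 221) (nat_lit 5) (nat_lit 358) (nat_lit 355) (nat_lit 187)) (XT.lf (nat_lit 0) (nat_lit 5767627610003) (nat_lit 304) (nat_lit 3028949112270) (nat_lit 76) (nat_lit 3028949110334) (nat_lit 217) (nat_lit 5) (nat_lit 221) (nat_lit 5) (nat_lit 218) (nat_lit 5) (nat_lit 359) (nat_lit 355) (nat_lit 186))) (XT.nd (nat_lit 78) (nat_lit 152) (nat_lit 0) (XT.lf (nat_lit 0) (nat_lit 3768128740665) (nat_lit 304) (nat_lit 3768128742938) (nat_lit 380) (nat_lit 5235105768886) (nat_lit 213) (nat_lit 5) (nat_lit 217) (nat_lit 5) (nat_lit 218) (nat_lit 5) (nat_lit 360) (nat_lit 355) (nat_lit 185)) (XT.nd (nat_lit 78) (nat_lit 152) (nat_lit 0) (XT.lf (nat_lit 0) (nat_lit 9819472589060)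 (nat_lit 380) (nat_lit 2001105042951) (nat_lit 76) (nat_lit 2001105040720) (nat_lit 213) (nat_lit 5) (nat_lit 218) (nat_lit 5) (nat_lit 214) (nat_lit 5) (nat_lit 361) (nat_lit 355) (nat_lit 184)) (XT.lf (nat_lit 0) (nat_lit 6445754810474) (nat_lit 152) (nat_lit 6445754812927) (nat_lit 228) (nat_lit 2071089433151) (nat_lit 211) (nat_lit 5) (nat_lit 213) (nat_lit 5) (nat_lit 214) (nat_lit 5) (nat_lit 362) (nat_lit 355) (nat_lit 183)))))) (XT.nd (nat_lit 390) (nat_lit 456) (nat_lit 0) (XT.nd (nat_lit 156) (nat_lit 228) (nat_lit 0) (XT.nd (nat_lit 78) (nat_lit 0) (nat_lit 0) (XT.lf (nat_lit 0) (nat_lit 125578145508) (nat_lit 152) (nat_lit 125578148153) (nat_lit 228) (nat_lit 16005349157834) (nat_lit 208) (nat_lit 5) (nat_lit 210) (nat_lit 5) (nat_lit 211) (nat_lit 5) (nat_lit 363) (nat_lit 355) (nat_lit 182)) (XT.lf (nat_lit 0) (nat_lit 3471858254514) (nat_lit 228) (nat_lit 7071761067558) (nat_lit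 76) (nat_lit 7071761065111) (nat_lit 208) (nat_lit 5) (nat_lit 211) (nat_lit 5) (nat_lit 209) (nat_lit 5) (nat_lit 364) (nat_lit 355) (nat_lit 181))) (XT.nd (nat_lit 78) (nat_lit 76) (nat_lit 0) (XT.lf (nat_lit 0) (nat_lit 3666738622857) (nat_lit 152) (nat_lit 3666738625430) (nat_lit 228) (nat_lit 11820937554119) (nat_lit 206) (nat_lit 5) (nat_lit 208) (nat_lit 5) (nat_lit 209) (nat_lit 5) (nat_lit 365) (nat_lit 355) (nat_lit 180)) (XT.nd (nat_lit 78) (nat_lit 76) (nat_lit 0) (XT.lf (nat_lit 0) (nat_lit 12337240879374) (nat_lit 228) (nat_lit 4251314117316) (nat_lit 76) (nat_lit 4251314114983) (nat_lit 206) (nat_lit 5) (nat_lit 209) (nat_lit 5) (nat_lit 207) (nat_lit 4) (nat_lit 366) (nat_lit 355) (nat_lit 179)) (XT.lf (nat_lit 0) (nat_lit 9326176364502) (nat_lit 76) (nat_lit 9326176366919) (nat_lit 152) (nat_lit 4041671284465) (nat_lit 205) (nat_lit 5) (nat_lit 206) (nat_lit 5) (nat_lit 207) (nat_lit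 4) (nat_lit 367) (nat_lit 355) (nat_lit 178))))) (XT.nd (nat_lit 156) (nat_lit 228) (nat_lit 0) (XT.nd (nat_lit 78) (nat_lit 0) (nat_lit 0) (XT.lf (nat_lit 0) (nat_lit 625112164500) (nat_lit 152) (nat_lit 625112166989) (nat_lit 228) (nat_lit 23530513201331) (nat_lit 202) (nat_lit 5) (nat_lit 204) (nat_lit 5) (nat_lit 205) (nat_lit 5) (nat_lit 368) (nat_lit 355) (nat_lit 177)) (XT.lf (nat_lit 0) (nat_lit 8042614763128) (nat_lit 228) (nat_lit 9470449570745) (nat_lit 76) (nat_lit 9470449568525) (nat_lit 202) (nat_lit 5) (nat_lit 205) (nat_lit 5) (nat_lit 203) (nat_lit 4) (nat_lit 369) (nat_lit 355) (nat_lit 176))) (XT.nd (nat_lit 78) (nat_lit 152) (nat_lit 0) (XT.lf (nat_lit 0) (nat_lit 8109718577771) (nat_lit 76) (nat_lit 8109718580037) (nat_lit 152) (nat_lit 13242433559860) (nat_lit 201) (nat_lit 5) (nat_lit 202) (nat_lit 5) (nat_lit 203) (nat_lit 4) (nat_lit 370) (nat_lit 355) (nat_lit 175)) (XT.nd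 (nat_lit 78) (nat_lit 152) (nat_lit 0) (XT.lf (nat_lit 0) (nat_lit 26253374985946) (nat_lit 152) (nat_lit 2982008630076) (nat_lit 0) (nat_lit 2982008628069) (nat_lit 201) (nat_lit 5) (nat_lit 203) (nat_lit 4) (nat_lit 201) (nat_lit 4) (nat_lit 371) (nat_lit 355) (nat_lit 174)) (XT.lf (nat_lit 0) (nat_lit 3442109067804) (nat_lit 152) (nat_lit 15870831862128) (nat_lit 76) (nat_lit 15870831860090) (nat_lit 199) (nat_lit 5) (nat_lit 201) (nat_lit 5) (nat_lit 200) (nat_lit 4) (nat_lit 372) (nat_lit 355) (nat_lit 173))))))))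
noncomputable def xc119 : XT := (XT.nd (nat_lit 46410) (nat_lit 0) (nat_lit 76) (XT.nd (nat_lit 45630) (nat_lit 0) (nat_lit 1140) (XT.nd (nat_lit 390) (nat_lit 304) (nat_lit 0) (XT.nd (nat_lit 156) (nat_lit 228) (nat_lit 0) (XT.nd (nat_lit 78) (nat_lit 0) (nat_lit 0) (XT.lf (nat_lit 0) (nat_lit 7051929198028) (nat_lit 76) (nat_lit 7051929200094) (nat_lit 152) (nat_lit 24380356023092) (nat_lit 198) (nat_lit 5) (nat_lit 199) (nat_lit 5) (nat_lit 200) (nat_lit 4) (nat_lit 373) (nat_lit 355) (nat_lit 172)) (XT.lf (nat_lit 0) (nat_lit 27525839462404) (nat_lit 152) (nat_lit 7289868718168) (nat_lit 0) (nat_lit 7289868716351) (nat_lit 198) (nat_lit 5) (nat_lit 200) (nat_lit 4) (nat_lit 198) (nat_lit 4) (nat_lit 374) (nat_lit 355) (nat_lit 171))) (XT.nd (nat_lit 78) (nat_lit 152) (nat_lit 0) (XT.lf (nat_lit 0) (nat_lit 22106146102746) (nat_lit 76) (nat_lit 22106146104581) (nat_lit 76) (nat_lit 1870175358511)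 (nat_lit 197) (nat_lit 4) (nat_lit 198) (nat_lit 5) (nat_lit 198) (nat_lit 4) (nat_lit 375) (nat_lit 355) (nat_lit 170)) (XT.nd (nat_lit 78) (nat_lit 0) (nat_lit 0) (XT.lf (nat_lit 0) (nat_lit 6132112346093) (nat_lit 76) (nat_lit 6132112347943) (nat_lit 152) (nat_lit 38214531832023) (nat_lit 195) (nat_lit 5) (nat_lit 196) (nat_lit 5) (nat_lit 197) (nat_lit 4) (nat_lit 376) (nat_lit 355) (nat_lit 169)) (XT.lf (nat_lit 0) (nat_lit 30147054031177) (nat_lit 152) (nat_lit 12550557731842) (nat_lit 0) (nat_lit 12550557730221) (nat_lit 195) (nat_lit 5) (nat_lit 197) (nat_lit 4) (nat_lit 195) (nat_lit 4) (nat_lit 377) (nat_lit 355) (nat_lit 168))))) (XT.nd (nat_lit 156) (nat_lit 76) (nat_lit 0) (XT.nd (nat_lit 78) (nat_lit 152) (nat_lit 0) (XT.lf (nat_lit 0) (nat_lit 26041314202512) (nat_lit 76) (nat_lit 26041314204143) (nat_lit 76) (nat_lit 8444817903177) (nat_lit 194) (nat_lit 4) (nat_lit 195) (nat_lit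 5) (nat_lit 195) (nat_lit 4) (nat_lit 378) (nat_lit 355) (nat_lit 167)) (XT.lf (nat_lit 0) (nat_lit 5332271605287) (nat_lit 76) (nat_lit 5332271606927) (nat_lit 152) (nat_lit 55731336601329) (nat_lit 192) (nat_lit 5) (nat_lit 193) (nat_lit 5) (nat_lit 194) (nat_lit 4) (nat_lit 379) (nat_lit 355) (nat_lit 166))) (XT.nd (nat_lit 78) (nat_lit 76) (nat_lit 0) (XT.lf (nat_lit 0) (nat_lit 34429593166785) (nat_lit 152) (nat_lit 19128292036929) (nat_lit 0) (nat_lit 19128292035496) (nat_lit 192) (nat_lit 5) (nat_lit 194) (nat_lit 4) (nat_lit 192) (nat_lit 4) (nat_lit 380) (nat_lit 355) (nat_lit 165)) (XT.nd (nat_lit 44928) (nat_lit 0) (nat_lit 1824) (XT.lf (nat_lit 0) (nat_lit 31662191060336) (nat_lit 76) (nat_lit 31662191061774) (nat_lit 76) (nat_lit 16360889930479) (nat_lit 191) (nat_lit 4) (nat_lit 192) (nat_lit 5) (nat_lit 192) (nat_lit 4) (nat_lit 381) (nat_lit 355) (nat_lit 164)) (XT.lf (nat_lit 0)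 (nat_lit 1557765961830) (nat_lit 380) (nat_lit 1758747520190) (nat_lit 380) (nat_lit 1758747520190) (nat_lit 215) (nat_lit 3) (nat_lit 220) (nat_lit 3) (nat_lit 220) (nat_lit 5) (nat_lit 356) (nat_lit 356) (nat_lit 188)))))) (XT.nd (nat_lit 390) (nat_lit 532) (nat_lit 0) (XT.nd (nat_lit 156) (nat_lit 152) (nat_lit 0) (XT.nd (nat_lit 78) (nat_lit 0) (nat_lit 76) (XT.lf (nat_lit 76) (nat_lit 1710002180827) (nat_lit 0) (nat_lit 1710002181416) (nat_lit 380) (nat_lit 7481185660862) (nat_lit 216) (nat_lit 5) (nat_lit 215) (nat_lit 3) (nat_lit 220) (nat_lit 5) (nat_lit 357) (nat_lit 356) (nat_lit 187)) (XT.lf (nat_lit 0) (nat_lit 4126394602720) (nat_lit 304) (nat_lit 3792313301208) (nat_lit 380) (nat_lit 3792313300249) (nat_lit 216) (nat_lit 5) (nat_lit 220) (nat_lit 5) (nat_lit 221) (nat_lit 5) (nat_lit 358) (nat_lit 356) (nat_lit 186))) (XT.nd (nat_lit 78) (nat_lit 228) (nat_lit 0) (XT.lf (nat_lit 76)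 (nat_lit 2563153384423) (nat_lit 0) (nat_lit 2563153385769) (nat_lit 380) (nat_lit 7487885783580) (nat_lit 217) (nat_lit 5) (nat_lit 216) (nat_lit 5) (nat_lit 221) (nat_lit 5) (nat_lit 359) (nat_lit 356) (nat_lit 185)) (XT.nd (nat_lit 78) (nat_lit 304) (nat_lit 0) (XT.lf (nat_lit 0) (nat_lit 6632771752392) (nat_lit 304) (nat_lit 3483291478219) (nat_lit 76) (nat_lit 3483291476755) (nat_lit 217) (nat_lit 5) (nat_lit 221) (nat_lit 5) (nat_lit 218) (nat_lit 5) (nat_lit 360) (nat_lit 356) (nat_lit 184)) (XT.lf (nat_lit 0) (nat_lit 4333348052616) (nat_lit 304) (nat_lit 4333348054335) (nat_lit 380) (nat_lit 6020371633290) (nat_lit 213) (nat_lit 5) (nat_lit 217) (nat_lit 5) (nat_lit 218) (nat_lit 5) (nat_lit 361) (nat_lit 356) (nat_lit 183))))) (XT.nd (nat_lit 156) (nat_lit 380) (nat_lit 0) (XT.nd (nat_lit 78) (nat_lit 152) (nat_lit 0) (XT.lf (nat_lit 0) (nat_lit 11292393478123) (nat_lit 380) (nat_lit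 2301270798550) (nat_lit 76) (nat_lit 2301270796863) (nat_lit 213) (nat_lit 5) (nat_lit 218) (nat_lit 5) (nat_lit 214) (nat_lit 5) (nat_lit 362) (nat_lit 356) (nat_lit 182)) (XT.lf (nat_lit 0) (nat_lit 7412618032850) (nat_lit 152) (nat_lit 7412618034705) (nat_lit 228) (nat_lit 2381752847381) (nat_lit 211) (nat_lit 5) (nat_lit 213) (nat_lit 5) (nat_lit 214) (nat_lit 5) (nat_lit 363) (nat_lit 356) (nat_lit 181))) (XT.nd (nat_lit 78) (nat_lit 152) (nat_lit 0) (XT.lf (nat_lit 0) (nat_lit 144414868166) (nat_lit 152) (nat_lit 144414870167) (nat_lit 228) (nat_lit 18406151530794) (nat_lit 208) (nat_lit 5) (nat_lit 210) (nat_lit 5) (nat_lit 211) (nat_lit 5) (nat_lit 364) (nat_lit 356) (nat_lit 180)) (XT.nd (nat_lit 78) (nat_lit 152) (nat_lit 0) (XT.lf (nat_lit 0) (nat_lit 3992636993240) (nat_lit 228) (nat_lit 8132525226894) (nat_lit 76) (nat_lit 8132525225044) (nat_lit 208) (nat_lit 5) (nat_lit 211) (nat_lit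 5) (nat_lit 209) (nat_lit 5) (nat_lit 365) (nat_lit 356) (nat_lit 179)) (XT.lf (nat_lit 0) (nat_lit 4216749417046) (nat_lit 152) (nat_lit 4216749418992) (nat_lit 228) (nat_lit 13594078186652) (nat_lit 206) (nat_lit 5) (nat_lit 208) (nat_lit 5) (nat_lit 209) (nat_lit 5) (nat_lit 366) (nat_lit 356) (nat_lit 178))))))) (XT.nd (nat_lit 780) (nat_lit 380) (nat_lit 0) (XT.nd (nat_lit 390) (nat_lit 304) (nat_lit 0) (XT.nd (nat_lit 156) (nat_lit 304) (nat_lit 0) (XT.nd (nat_lit 78) (nat_lit 76) (nat_lit 0) (XT.lf (nat_lit 0) (nat_lit 14187827011732) (nat_lit 228) (nat_lit 4889011234195) (nat_lit 76) (nat_lit 4889011232430) (nat_lit 206) (nat_lit 5) (nat_lit 209) (nat_lit 5) (nat_lit 207) (nat_lit 4) (nat_lit 367) (nat_lit 356) (nat_lit 177)) (XT.lf (nat_lit 0) (nat_lit 10725102819864) (nat_lit 76) (nat_lit 10725102821692) (nat_lit 152) (nat_lit 4647921976651) (nat_lit 205) (nat_lit 5) (nat_lit 206) (nat_lit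 5) (nat_lit 207) (nat_lit 4) (nat_lit 368) (nat_lit 356) (nat_lit 176))) (XT.nd (nat_lit 78) (nat_lit 76) (nat_lit 0) (XT.lf (nat_lit 0) (nat_lit 718878989871) (nat_lit 152) (nat_lit 718878991753) (nat_lit 228) (nat_lit 27060090181056) (nat_lit 202) (nat_lit 5) (nat_lit 204) (nat_lit 5) (nat_lit 205) (nat_lit 5) (nat_lit 369) (nat_lit 356) (nat_lit 175)) (XT.nd (nat_lit 78) (nat_lit 76) (nat_lit 0) (XT.lf (nat_lit 0) (nat_lit 9249006977966) (nat_lit 228) (nat_lit 10891017005707) (nat_lit 76) (nat_lit 10891017004029) (nat_lit 202) (nat_lit 5) (nat_lit 205) (nat_lit 5) (nat_lit 203) (nat_lit 4) (nat_lit 370) (nat_lit 356) (nat_lit 174)) (XT.lf (nat_lit 0) (nat_lit 9326176365056) (nat_lit 76) (nat_lit 9326176366770) (nat_lit 152) (nat_lit 15228798593441) (nat_lit 201) (nat_lit 5) (nat_lit 202) (nat_lit 5) (nat_lit 203) (nat_lit 4) (nat_lit 371) (nat_lit 356) (nat_lit 173))))) (XT.nd (nat_lit 156)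 (nat_lit 152) (nat_lit 0) (XT.nd (nat_lit 78) (nat_lit 152) (nat_lit 0) (XT.lf (nat_lit 0) (nat_lit 30191381234149) (nat_lit 152) (nat_lit 3429309924013) (nat_lit 0) (nat_lit 3429309922495) (nat_lit 201) (nat_lit 5) (nat_lit 203) (nat_lit 4) (nat_lit 201) (nat_lit 4) (nat_lit 372) (nat_lit 356) (nat_lit 172)) (XT.lf (nat_lit 0) (nat_lit 3958425428282) (nat_lit 152) (nat_lit 18251456640870) (nat_lit 76) (nat_lit 18251456639328) (nat_lit 199) (nat_lit 5) (nat_lit 201) (nat_lit 5) (nat_lit 200) (nat_lit 4) (nat_lit 373) (nat_lit 356) (nat_lit 171))) (XT.nd (nat_lit 78) (nat_lit 76) (nat_lit 0) (XT.lf (nat_lit 0) (nat_lit 8109718578284) (nat_lit 76) (nat_lit 8109718579846) (nat_lit 152) (nat_lit 28037409426223) (nat_lit 198) (nat_lit 5) (nat_lit 199) (nat_lit 5) (nat_lit 200) (nat_lit 4) (nat_lit 374) (nat_lit 356) (nat_lit 170)) (XT.nd (nat_lit 78) (nat_lit 76) (nat_lit 0) (XT.lf (nat_lit 0) (nat_lit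 31654715382026) (nat_lit 152) (nat_lit 8383349025386) (nat_lit 0) (nat_lit 8383349024012) (nat_lit 198) (nat_lit 5) (nat_lit 200) (nat_lit 4) (nat_lit 198) (nat_lit 4) (nat_lit 375) (nat_lit 356) (nat_lit 169)) (XT.lf (nat_lit 0) (nat_lit 25422068018643) (nat_lit 76) (nat_lit 25422068020031) (nat_lit 76) (nat_lit 2150701662003) (nat_lit 197) (nat_lit 4) (nat_lit 198) (nat_lit 5) (nat_lit 198) (nat_lit 4) (nat_lit 376) (nat_lit 356) (nat_lit 168)))))) (XT.nd (nat_lit 45318) (nat_lit 0) (nat_lit 1748) (XT.nd (nat_lit 156) (nat_lit 228) (nat_lit 0) (XT.nd (nat_lit 78) (nat_lit 0) (nat_lit 0) (XT.lf (nat_lit 0) (nat_lit 7051929198494) (nat_lit 76) (nat_lit 7051929199893) (nat_lit 152) (nat_lit 43946711606545) (nat_lit 195) (nat_lit 5) (nat_lit 196) (nat_lit 5) (nat_lit 197) (nat_lit 4) (nat_lit 377) (nat_lit 356) (nat_lit 167)) (XT.lf (nat_lit 0) (nat_lit 34669112136076) (nat_lit 152) (nat_lit 14433141391171)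 (nat_lit 0) (nat_lit 14433141389946) (nat_lit 195) (nat_lit 5) (nat_lit 197) (nat_lit 4) (nat_lit 195) (nat_lit 4) (nat_lit 378) (nat_lit 356) (nat_lit 166))) (XT.nd (nat_lit 78) (nat_lit 152) (nat_lit 0) (XT.lf (nat_lit 0) (nat_lit 29947511333316) (nat_lit 76) (nat_lit 29947511334549) (nat_lit 76) (nat_lit 9711540588411) (nat_lit 194) (nat_lit 4) (nat_lit 195) (nat_lit 5) (nat_lit 195) (nat_lit 4) (nat_lit 379) (nat_lit 356) (nat_lit 165)) (XT.nd (nat_lit 78) (nat_lit 0) (nat_lit 0) (XT.lf (nat_lit 0) (nat_lit 6132112346508) (nat_lit 76) (nat_lit 6132112347748) (nat_lit 152) (nat_lit 64091037091287) (nat_lit 192) (nat_lit 5) (nat_lit 193) (nat_lit 5) (nat_lit 194) (nat_lit 4) (nat_lit 380) (nat_lit 356) (nat_lit 164)) (XT.lf (nat_lit 0) (nat_lit 39594032141993) (nat_lit 152) (nat_lit 21997535842076) (nat_lit 0) (nat_lit 21997535840993) (nat_lit 192) (nat_lit 5) (nat_lit 194) (nat_lit 4) (nat_lit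 192) (nat_lit 4) (nat_lit 381) (nat_lit 356) (nat_lit 163))))) (XT.nd (nat_lit 156) (nat_lit 0) (nat_lit 76) (XT.nd (nat_lit 78) (nat_lit 0) (nat_lit 0) (XT.lf (nat_lit 0) (nat_lit 1791430856669) (nat_lit 380) (nat_lit 2022559647893) (nat_lit 380) (nat_lit 2022559647893) (nat_lit 215) (nat_lit 3) (nat_lit 220) (nat_lit 3) (nat_lit 220) (nat_lit 5) (nat_lit 357) (nat_lit 357) (nat_lit 186)) (XT.lf (nat_lit 76) (nat_lit 1966502508571) (nat_lit 0) (nat_lit 1966502509017) (nat_lit 380) (nat_lit 8603363508832) (nat_lit 216) (nat_lit 5) (nat_lit 215) (nat_lit 3) (nat_lit 220) (nat_lit 5) (nat_lit 358) (nat_lit 357) (nat_lit 185))) (XT.nd (nat_lit 78) (nat_lit 0) (nat_lit 0) (XT.lf (nat_lit 0) (nat_lit 4745353793991) (nat_lit 304) (nat_lit 4361160295704) (nat_lit 380) (nat_lit 4361160294979) (nat_lit 216) (nat_lit 5) (nat_lit 220) (nat_lit 5) (nat_lit 221) (nat_lit 5) (nat_lit 359) (nat_lit 357) (nat_lit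 184)) (XT.nd (nat_lit 78) (nat_lit 0) (nat_lit 76) (XT.lf (nat_lit 76) (nat_lit 2947626392740) (nat_lit 0) (nat_lit 2947626393758) (nat_lit 380) (nat_lit 8611068650223) (nat_lit 217) (nat_lit 5) (nat_lit 216) (nat_lit 5) (nat_lit 221) (nat_lit 5) (nat_lit 360) (nat_lit 357) (nat_lit 183)) (XT.lf (nat_lit 0) (nat_lit 7627687515922) (nat_lit 304) (nat_lit 4005785199277) (nat_lit 76) (nat_lit 4005785198170) (nat_lit 217) (nat_lit 5) (nat_lit 221) (nat_lit 5) (nat_lit 218) (nat_lit 5) (nat_lit 361) (nat_lit 357) (nat_lit 182))))))))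
noncomputable def xc120 : XT := (XT.nd (nat_lit 46566) (nat_lit 0) (nat_lit 456) (XT.nd (nat_lit 780) (nat_lit 760) (nat_lit 0) (XT.nd (nat_lit 390) (nat_lit 456) (nat_lit 0) (XT.nd (nat_lit 156) (nat_lit 380) (nat_lit 0) (XT.nd (nat_lit 78) (nat_lit 0) (nat_lit 0) (XT.lf (nat_lit 0) (nat_lit 4983350261153) (nat_lit 304) (nat_lit 4983350262452) (nat_lit 380) (nat_lit 6923427377581) (nat_lit 213) (nat_lit 5) (nat_lit 217) (nat_lit 5) (nat_lit 218) (nat_lit 5) (nat_lit 362) (nat_lit 357) (nat_lit 181)) (XT.lf (nat_lit 0) (nat_lit 12986252500374) (nat_lit 380) (nat_lit 2646461417694) (nat_lit 76) (nat_lit 2646461416419) (nat_lit 213) (nat_lit 5) (nat_lit 218) (nat_lit 5) (nat_lit 214) (nat_lit 5) (nat_lit 363) (nat_lit 357) (nat_lit 180))) (XT.nd (nat_lit 78) (nat_lit 228) (nat_lit 0) (XT.lf (nat_lit 0) (nat_lit 8524510738387) (nat_lit 152) (nat_lit 8524510739790) (nat_lit 228) (nat_lit 2739015773927)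 (nat_lit 211) (nat_lit 5) (nat_lit 213) (nat_lit 5) (nat_lit 214) (nat_lit 5) (nat_lit 364) (nat_lit 357) (nat_lit 179)) (XT.nd (nat_lit 78) (nat_lit 0) (nat_lit 0) (XT.lf (nat_lit 0) (nat_lit 166077099020) (nat_lit 152) (nat_lit 166077100533) (nat_lit 228) (nat_lit 21167074259872) (nat_lit 208) (nat_lit 5) (nat_lit 210) (nat_lit 5) (nat_lit 211) (nat_lit 5) (nat_lit 365) (nat_lit 357) (nat_lit 178)) (XT.lf (nat_lit 0) (nat_lit 4591532542641) (nat_lit 228) (nat_lit 9352404010325) (nat_lit 76) (nat_lit 9352404008926) (nat_lit 208) (nat_lit 5) (nat_lit 211) (nat_lit 5) (nat_lit 209) (nat_lit 5) (nat_lit 366) (nat_lit 357) (nat_lit 177))))) (XT.nd (nat_lit 156) (nat_lit 304) (nat_lit 0) (XT.nd (nat_lit 78) (nat_lit 0) (nat_lit 0) (XT.lf (nat_lit 0) (nat_lit 4849261830179) (nat_lit 152) (nat_lit 4849261831650) (nat_lit 228) (nat_lit 15633189914207) (nat_lit 206) (nat_lit 5) (nat_lit 208) (nat_lit 5)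 (nat_lit 209) (nat_lit 5) (nat_lit 367) (nat_lit 357) (nat_lit 176)) (XT.lf (nat_lit 0) (nat_lit 16316001063833) (nat_lit 228) (nat_lit 5622362918780) (nat_lit 76) (nat_lit 5622362917446) (nat_lit 206) (nat_lit 5) (nat_lit 209) (nat_lit 5) (nat_lit 207) (nat_lit 4) (nat_lit 368) (nat_lit 357) (nat_lit 175))) (XT.nd (nat_lit 78) (nat_lit 228) (nat_lit 0) (XT.lf (nat_lit 0) (nat_lit 12333868243363) (nat_lit 76) (nat_lit 12333868244745) (nat_lit 152) (nat_lit 5345110272783) (nat_lit 205) (nat_lit 5) (nat_lit 206) (nat_lit 5) (nat_lit 207) (nat_lit 4) (nat_lit 369) (nat_lit 357) (nat_lit 174)) (XT.nd (nat_lit 78) (nat_lit 0) (nat_lit 0) (XT.lf (nat_lit 0) (nat_lit 826710838878) (nat_lit 152) (nat_lit 826710840301) (nat_lit 228) (nat_lit 31119103707856) (nat_lit 202) (nat_lit 5) (nat_lit 204) (nat_lit 5) (nat_lit 205) (nat_lit 5) (nat_lit 370) (nat_lit 357) (nat_lit 173)) (XT.lf (nat_lit 0) (nat_lit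 10636358024939) (nat_lit 228) (nat_lit 12524669556073) (nat_lit 76) (nat_lit 12524669554804) (nat_lit 202) (nat_lit 5) (nat_lit 205) (nat_lit 5) (nat_lit 203) (nat_lit 4) (nat_lit 371) (nat_lit 357) (nat_lit 172)))))) (XT.nd (nat_lit 390) (nat_lit 456) (nat_lit 0) (XT.nd (nat_lit 156) (nat_lit 228) (nat_lit 0) (XT.nd (nat_lit 78) (nat_lit 0) (nat_lit 0) (XT.lf (nat_lit 0) (nat_lit 10725102820283) (nat_lit 76) (nat_lit 10725102821579) (nat_lit 152) (nat_lit 17513118382156) (nat_lit 201) (nat_lit 5) (nat_lit 202) (nat_lit 5) (nat_lit 203) (nat_lit 4) (nat_lit 372) (nat_lit 357) (nat_lit 171)) (XT.lf (nat_lit 0) (nat_lit 34720088419507) (nat_lit 152) (nat_lit 3943706412181) (nat_lit 0) (nat_lit 3943706411033) (nat_lit 201) (nat_lit 5) (nat_lit 203) (nat_lit 4) (nat_lit 201) (nat_lit 4) (nat_lit 373) (nat_lit 357) (nat_lit 170))) (XT.nd (nat_lit 78) (nat_lit 76) (nat_lit 0) (XT.lf (nat_lit 0) (nat_lit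 4552189242757) (nat_lit 152) (nat_lit 20989175136563) (nat_lit 76) (nat_lit 20989175135398) (nat_lit 199) (nat_lit 5) (nat_lit 201) (nat_lit 5) (nat_lit 200) (nat_lit 4) (nat_lit 374) (nat_lit 357) (nat_lit 169)) (XT.nd (nat_lit 78) (nat_lit 0) (nat_lit 0) (XT.lf (nat_lit 0) (nat_lit 9326176365444) (nat_lit 76) (nat_lit 9326176366625) (nat_lit 152) (nat_lit 32243020839905) (nat_lit 198) (nat_lit 5) (nat_lit 199) (nat_lit 5) (nat_lit 200) (nat_lit 4) (nat_lit 375) (nat_lit 357) (nat_lit 168)) (XT.lf (nat_lit 0) (nat_lit 36402922689527) (nat_lit 152) (nat_lit 9640851378809) (nat_lit 0) (nat_lit 9640851377770) (nat_lit 198) (nat_lit 5) (nat_lit 200) (nat_lit 4) (nat_lit 198) (nat_lit 4) (nat_lit 376) (nat_lit 357) (nat_lit 167))))) (XT.nd (nat_lit 156) (nat_lit 228) (nat_lit 0) (XT.nd (nat_lit 78) (nat_lit 152) (nat_lit 0) (XT.lf (nat_lit 0) (nat_lit 29235378221807) (nat_lit 76) (nat_lit 29235378222856)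 (nat_lit 76) (nat_lit 2473306911089) (nat_lit 197) (nat_lit 4) (nat_lit 198) (nat_lit 5) (nat_lit 198) (nat_lit 4) (nat_lit 377) (nat_lit 357) (nat_lit 166)) (XT.lf (nat_lit 0) (nat_lit 8109718578636) (nat_lit 76) (nat_lit 8109718579694) (nat_lit 152) (nat_lit 50538718347313) (nat_lit 195) (nat_lit 5) (nat_lit 196) (nat_lit 5) (nat_lit 197) (nat_lit 4) (nat_lit 378) (nat_lit 357) (nat_lit 165))) (XT.nd (nat_lit 78) (nat_lit 228) (nat_lit 0) (XT.lf (nat_lit 0) (nat_lit 39869478956655) (nat_lit 152) (nat_lit 16598112599509) (nat_lit 0) (nat_lit 16598112598582) (nat_lit 195) (nat_lit 5) (nat_lit 197) (nat_lit 4) (nat_lit 195) (nat_lit 4) (nat_lit 379) (nat_lit 357) (nat_lit 164)) (XT.nd (nat_lit 78) (nat_lit 152) (nat_lit 0) (XT.lf (nat_lit 0) (nat_lit 34439638033636) (nat_lit 76) (nat_lit 34439638034568) (nat_lit 76) (nat_lit 11168271676489) (nat_lit 194) (nat_lit 4) (nat_lit 195) (nat_lit 5) (nat_lit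 195) (nat_lit 4) (nat_lit 380) (nat_lit 357) (nat_lit 163)) (XT.lf (nat_lit 0) (nat_lit 7051929198808) (nat_lit 76) (nat_lit 7051929199746) (nat_lit 152) (nat_lit 73704692654798) (nat_lit 192) (nat_lit 5) (nat_lit 193) (nat_lit 5) (nat_lit 194) (nat_lit 4) (nat_lit 381) (nat_lit 357) (nat_lit 162))))))) (XT.nd (nat_lit 780) (nat_lit 760) (nat_lit 0) (XT.nd (nat_lit 390) (nat_lit 532) (nat_lit 0) (XT.nd (nat_lit 156) (nat_lit 0) (nat_lit 76) (XT.nd (nat_lit 78) (nat_lit 0) (nat_lit 0) (XT.lf (nat_lit 0) (nat_lit 2060145485597) (nat_lit 380) (nat_lit 2325943594832) (nat_lit 380) (nat_lit 2325943594832) (nat_lit 215) (nat_lit 3) (nat_lit 220) (nat_lit 3) (nat_lit 220) (nat_lit 5) (nat_lit 358) (nat_lit 358) (nat_lit 184)) (XT.lf (nat_lit 76) (nat_lit 2261477885326) (nat_lit 0) (nat_lit 2261477885663) (nat_lit 380) (nat_lit 9893868034280) (nat_lit 216) (nat_lit 5) (nat_lit 215) (nat_lit 3) (nat_lit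 220) (nat_lit 5) (nat_lit 359) (nat_lit 358) (nat_lit 183))) (XT.nd (nat_lit 78) (nat_lit 0) (nat_lit 0) (XT.lf (nat_lit 0) (nat_lit 5457156863743) (nat_lit 304) (nat_lit 5015334339542) (nat_lit 380) (nat_lit 5015334338994) (nat_lit 216) (nat_lit 5) (nat_lit 220) (nat_lit 5) (nat_lit 221) (nat_lit 5) (nat_lit 360) (nat_lit 358) (nat_lit 182)) (XT.nd (nat_lit 78) (nat_lit 0) (nat_lit 76) (XT.lf (nat_lit 76) (nat_lit 3389770352146) (nat_lit 0) (nat_lit 3389770352916) (nat_lit 380) (nat_lit 9902728947080) (nat_lit 217) (nat_lit 5) (nat_lit 216) (nat_lit 5) (nat_lit 221) (nat_lit 5) (nat_lit 361) (nat_lit 358) (nat_lit 181)) (XT.lf (nat_lit 0) (nat_lit 8771840643818) (nat_lit 304) (nat_lit 4606652978658) (nat_lit 76) (nat_lit 4606652977822) (nat_lit 217) (nat_lit 5) (nat_lit 221) (nat_lit 5) (nat_lit 218) (nat_lit 5) (nat_lit 362) (nat_lit 358) (nat_lit 180))))) (XT.nd (nat_lit 156) (nat_lit 380) (nat_lit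 0) (XT.nd (nat_lit 78) (nat_lit 0) (nat_lit 0) (XT.lf (nat_lit 0) (nat_lit 5730852800813) (nat_lit 304) (nat_lit 5730852801795) (nat_lit 380) (nat_lit 7961941483687) (nat_lit 213) (nat_lit 5) (nat_lit 217) (nat_lit 5) (nat_lit 218) (nat_lit 5) (nat_lit 363) (nat_lit 358) (nat_lit 179)) (XT.lf (nat_lit 0) (nat_lit 14934190375833) (nat_lit 380) (nat_lit 3043430629866) (nat_lit 76) (nat_lit 3043430628901) (nat_lit 213) (nat_lit 5) (nat_lit 218) (nat_lit 5) (nat_lit 214) (nat_lit 5) (nat_lit 364) (nat_lit 358) (nat_lit 178))) (XT.nd (nat_lit 78) (nat_lit 228) (nat_lit 0) (XT.lf (nat_lit 0) (nat_lit 9803187349606) (nat_lit 152) (nat_lit 9803187350667) (nat_lit 228) (nat_lit 3149868139592) (nat_lit 211) (nat_lit 5) (nat_lit 213) (nat_lit 5) (nat_lit 214) (nat_lit 5) (nat_lit 365) (nat_lit 358) (nat_lit 177)) (XT.nd (nat_lit 78) (nat_lit 0) (nat_lit 0) (XT.lf (nat_lit 0) (nat_lit 190988664349) (nat_lit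 152) (nat_lit 190988665493) (nat_lit 228) (nat_lit 24342135398443) (nat_lit 208) (nat_lit 5) (nat_lit 210) (nat_lit 5) (nat_lit 211) (nat_lit 5) (nat_lit 366) (nat_lit 358) (nat_lit 176)) (XT.lf (nat_lit 0) (nat_lit 5280262424352) (nat_lit 228) (nat_lit 10755264611418) (nat_lit 76) (nat_lit 10755264610361) (nat_lit 208) (nat_lit 5) (nat_lit 211) (nat_lit 5) (nat_lit 209) (nat_lit 5) (nat_lit 367) (nat_lit 358) (nat_lit 175)))))) (XT.nd (nat_lit 390) (nat_lit 304) (nat_lit 0) (XT.nd (nat_lit 156) (nat_lit 304) (nat_lit 0) (XT.nd (nat_lit 78) (nat_lit 0) (nat_lit 0) (XT.lf (nat_lit 0) (nat_lit 5576651105141) (nat_lit 152) (nat_lit 5576651106253) (nat_lit 228) (nat_lit 17978168401004) (nat_lit 206) (nat_lit 5) (nat_lit 208) (nat_lit 5) (nat_lit 209) (nat_lit 5) (nat_lit 368) (nat_lit 358) (nat_lit 174)) (XT.lf (nat_lit 0) (nat_lit 18763401223666) (nat_lit 228) (nat_lit 6465717356186) (nat_lit 76)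 (nat_lit 6465717355177) (nat_lit 206) (nat_lit 5) (nat_lit 209) (nat_lit 5) (nat_lit 207) (nat_lit 4) (nat_lit 369) (nat_lit 358) (nat_lit 173))) (XT.nd (nat_lit 78) (nat_lit 228) (nat_lit 0) (XT.lf (nat_lit 0) (nat_lit 14183948480260) (nat_lit 76) (nat_lit 14183948481305) (nat_lit 152) (nat_lit 6146876813423) (nat_lit 205) (nat_lit 5) (nat_lit 206) (nat_lit 5) (nat_lit 207) (nat_lit 4) (nat_lit 370) (nat_lit 358) (nat_lit 172)) (XT.nd (nat_lit 78) (nat_lit 0) (nat_lit 0) (XT.lf (nat_lit 0) (nat_lit 950717465108) (nat_lit 152) (nat_lit 950717466184) (nat_lit 228) (nat_lit 35786969263764) (nat_lit 202) (nat_lit 5) (nat_lit 204) (nat_lit 5) (nat_lit 205) (nat_lit 5) (nat_lit 371) (nat_lit 358) (nat_lit 171)) (XT.lf (nat_lit 0) (nat_lit 12231811728891) (nat_lit 228) (nat_lit 14403369989112) (nat_lit 76) (nat_lit 14403369988153) (nat_lit 202) (nat_lit 5) (nat_lit 205) (nat_lit 5) (nat_lit 203) (nat_lit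 4) (nat_lit 372) (nat_lit 358) (nat_lit 170))))) (XT.nd (nat_lit 156) (nat_lit 228) (nat_lit 0) (XT.nd (nat_lit 78) (nat_lit 0) (nat_lit 0) (XT.lf (nat_lit 0) (nat_lit 12333868243679) (nat_lit 76) (nat_lit 12333868244659) (nat_lit 152) (nat_lit 20140086139251) (nat_lit 201) (nat_lit 5) (nat_lit 202) (nat_lit 5) (nat_lit 203) (nat_lit 4) (nat_lit 373) (nat_lit 358) (nat_lit 169)) (XT.lf (nat_lit 0) (nat_lit 39928101682611) (nat_lit 152) (nat_lit 4535262373680) (nat_lit 0) (nat_lit 4535262372812) (nat_lit 201) (nat_lit 5) (nat_lit 203) (nat_lit 4) (nat_lit 201) (nat_lit 4) (nat_lit 374) (nat_lit 358) (nat_lit 168))) (XT.nd (nat_lit 78) (nat_lit 76) (nat_lit 0) (XT.lf (nat_lit 0) (nat_lit 5235017629346) (nat_lit 152) (nat_lit 24137551406717) (nat_lit 76) (nat_lit 24137551405836) (nat_lit 199) (nat_lit 5) (nat_lit 201) (nat_lit 5) (nat_lit 200) (nat_lit 4) (nat_lit 375) (nat_lit 358) (nat_lit 167))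 (XT.nd (nat_lit 78) (nat_lit 0) (nat_lit 0) (XT.lf (nat_lit 0) (nat_lit 10725102820577) (nat_lit 76) (nat_lit 10725102821469) (nat_lit 152) (nat_lit 37079473965700) (nat_lit 198) (nat_lit 5) (nat_lit 199) (nat_lit 5) (nat_lit 200) (nat_lit 4) (nat_lit 376) (nat_lit 358) (nat_lit 166)) (XT.lf (nat_lit 0) (nat_lit 41863361093106) (nat_lit 152) (nat_lit 11086979085340) (nat_lit 0) (nat_lit 11086979084555) (nat_lit 198) (nat_lit 5) (nat_lit 200) (nat_lit 4) (nat_lit 198) (nat_lit 4) (nat_lit 377) (nat_lit 358) (nat_lit 165))))))))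
noncomputable def xc121 : XT := (XT.nd (nat_lit 46644) (nat_lit 0) (nat_lit 76) (XT.nd (nat_lit 45864) (nat_lit 0) (nat_lit 532) (XT.nd (nat_lit 45474) (nat_lit 0) (nat_lit 1444) (XT.nd (nat_lit 156) (nat_lit 76) (nat_lit 0) (XT.nd (nat_lit 78) (nat_lit 152) (nat_lit 0) (XT.lf (nat_lit 0) (nat_lit 33620684955355) (nat_lit 76) (nat_lit 33620684956148) (nat_lit 76) (nat_lit 2844302947589) (nat_lit 197) (nat_lit 4) (nat_lit 198) (nat_lit 5) (nat_lit 198) (nat_lit 4) (nat_lit 378) (nat_lit 358) (nat_lit 164)) (XT.lf (nat_lit 0) (nat_lit 9326176365711) (nat_lit 76) (nat_lit 9326176366510) (nat_lit 152) (nat_lit 58119526099248) (nat_lit 195) (nat_lit 5) (nat_lit 196) (nat_lit 5) (nat_lit 197) (nat_lit 4) (nat_lit 379) (nat_lit 358) (nat_lit 163))) (XT.nd (nat_lit 78) (nat_lit 76) (nat_lit 0) (XT.lf (nat_lit 0) (nat_lit 45849900800281) (nat_lit 152) (nat_lit 19087829489180) (nat_lit 0) (nat_lit 19087829488479)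 (nat_lit 195) (nat_lit 5) (nat_lit 197) (nat_lit 4) (nat_lit 195) (nat_lit 4) (nat_lit 380) (nat_lit 358) (nat_lit 162)) (XT.nd (nat_lit 45162) (nat_lit 0) (nat_lit 1596) (XT.lf (nat_lit 0) (nat_lit 39605583738925) (nat_lit 76) (nat_lit 39605583739630) (nat_lit 76) (nat_lit 12843512427824) (nat_lit 194) (nat_lit 4) (nat_lit 195) (nat_lit 5) (nat_lit 195) (nat_lit 4) (nat_lit 381) (nat_lit 358) (nat_lit 161)) (XT.lf (nat_lit 0) (nat_lit 2369167308760) (nat_lit 380) (nat_lit 2674835133871) (nat_lit 380) (nat_lit 2674835133871) (nat_lit 215) (nat_lit 3) (nat_lit 220) (nat_lit 3) (nat_lit 220) (nat_lit 5) (nat_lit 359) (nat_lit 359) (nat_lit 182))))) (XT.nd (nat_lit 156) (nat_lit 152) (nat_lit 0) (XT.nd (nat_lit 78) (nat_lit 0) (nat_lit 76) (XT.lf (nat_lit 76) (nat_lit 2600699568480) (nat_lit 0) (nat_lit 2600699568735) (nat_lit 380) (nat_lit 11377948238758) (nat_lit 216) (nat_lit 5) (nat_lit 215) (nat_lit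 3) (nat_lit 220) (nat_lit 5) (nat_lit 360) (nat_lit 359) (nat_lit 181)) (XT.lf (nat_lit 0) (nat_lit 6275730393798) (nat_lit 304) (nat_lit 5767634490082) (nat_lit 380) (nat_lit 5767634489667) (nat_lit 216) (nat_lit 5) (nat_lit 220) (nat_lit 5) (nat_lit 221) (nat_lit 5) (nat_lit 361) (nat_lit 359) (nat_lit 180))) (XT.nd (nat_lit 78) (nat_lit 228) (nat_lit 0) (XT.lf (nat_lit 76) (nat_lit 3898235905342) (nat_lit 0) (nat_lit 3898235905924) (nat_lit 380) (nat_lit 11388138288631) (nat_lit 217) (nat_lit 5) (nat_lit 216) (nat_lit 5) (nat_lit 221) (nat_lit 5) (nat_lit 362) (nat_lit 359) (nat_lit 179)) (XT.nd (nat_lit 78) (nat_lit 304) (nat_lit 0) (XT.lf (nat_lit 0) (nat_lit 10087616740775) (nat_lit 304) (nat_lit 5297650925072) (nat_lit 76) (nat_lit 5297650924439) (nat_lit 217) (nat_lit 5) (nat_lit 221) (nat_lit 5) (nat_lit 218) (nat_lit 5) (nat_lit 363) (nat_lit 359) (nat_lit 178)) (XT.lf (nat_lit 0) (nat_lit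 6590480721303) (nat_lit 304) (nat_lit 6590480722046) (nat_lit 380) (nat_lit 9156232705839) (nat_lit 213) (nat_lit 5) (nat_lit 217) (nat_lit 5) (nat_lit 218) (nat_lit 5) (nat_lit 364) (nat_lit 359) (nat_lit 177)))))) (XT.nd (nat_lit 390) (nat_lit 380) (nat_lit 0) (XT.nd (nat_lit 156) (nat_lit 380) (nat_lit 0) (XT.nd (nat_lit 78) (nat_lit 152) (nat_lit 0) (XT.lf (nat_lit 0) (nat_lit 17174318932512) (nat_lit 380) (nat_lit 3499945223981) (nat_lit 76) (nat_lit 3499945223252) (nat_lit 213) (nat_lit 5) (nat_lit 218) (nat_lit 5) (nat_lit 214) (nat_lit 5) (nat_lit 365) (nat_lit 359) (nat_lit 176)) (XT.lf (nat_lit 0) (nat_lit 11273665452396) (nat_lit 152) (nat_lit 11273665453198) (nat_lit 228) (nat_lit 3622348360210) (nat_lit 211) (nat_lit 5) (nat_lit 213) (nat_lit 5) (nat_lit 214) (nat_lit 5) (nat_lit 366) (nat_lit 359) (nat_lit 175))) (XT.nd (nat_lit 78) (nat_lit 152) (nat_lit 0) (XT.lf (nat_lit 0) (nat_lit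 219636964362) (nat_lit 152) (nat_lit 219636965227) (nat_lit 228) (nat_lit 27993455707900) (nat_lit 208) (nat_lit 5) (nat_lit 210) (nat_lit 5) (nat_lit 211) (nat_lit 5) (nat_lit 367) (nat_lit 359) (nat_lit 174)) (XT.nd (nat_lit 78) (nat_lit 152) (nat_lit 0) (XT.lf (nat_lit 0) (nat_lit 6072301788242) (nat_lit 228) (nat_lit 12368554302786) (nat_lit 76) (nat_lit 12368554301987) (nat_lit 208) (nat_lit 5) (nat_lit 211) (nat_lit 5) (nat_lit 209) (nat_lit 5) (nat_lit 368) (nat_lit 359) (nat_lit 173)) (XT.lf (nat_lit 0) (nat_lit 6413148771241) (nat_lit 152) (nat_lit 6413148772082) (nat_lit 228) (nat_lit 20674893660902) (nat_lit 206) (nat_lit 5) (nat_lit 208) (nat_lit 5) (nat_lit 209) (nat_lit 5) (nat_lit 369) (nat_lit 359) (nat_lit 172))))) (XT.nd (nat_lit 156) (nat_lit 304) (nat_lit 0) (XT.nd (nat_lit 78) (nat_lit 76) (nat_lit 0) (XT.lf (nat_lit 0) (nat_lit 21577911407411) (nat_lit 228) (nat_lit 7435574959303)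 (nat_lit 76) (nat_lit 7435574958540) (nat_lit 206) (nat_lit 5) (nat_lit 209) (nat_lit 5) (nat_lit 207) (nat_lit 4) (nat_lit 370) (nat_lit 359) (nat_lit 171)) (XT.lf (nat_lit 0) (nat_lit 16311540752596) (nat_lit 76) (nat_lit 16311540753386) (nat_lit 152) (nat_lit 7068908335228) (nat_lit 205) (nat_lit 5) (nat_lit 206) (nat_lit 5) (nat_lit 207) (nat_lit 4) (nat_lit 371) (nat_lit 359) (nat_lit 170))) (XT.nd (nat_lit 78) (nat_lit 76) (nat_lit 0) (XT.lf (nat_lit 0) (nat_lit 1093325085176) (nat_lit 152) (nat_lit 1093325085989) (nat_lit 228) (nat_lit 41155014653123) (nat_lit 202) (nat_lit 5) (nat_lit 204) (nat_lit 5) (nat_lit 205) (nat_lit 5) (nat_lit 372) (nat_lit 359) (nat_lit 169)) (XT.nd (nat_lit 78) (nat_lit 76) (nat_lit 0) (XT.lf (nat_lit 0) (nat_lit 14066583488384) (nat_lit 228) (nat_lit 16563875487199) (nat_lit 76) (nat_lit 16563875486473) (nat_lit 202) (nat_lit 5) (nat_lit 205) (nat_lit 5) (nat_lit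 203) (nat_lit 4) (nat_lit 373) (nat_lit 359) (nat_lit 168)) (XT.lf (nat_lit 0) (nat_lit 14183948480499) (nat_lit 76) (nat_lit 14183948481240) (nat_lit 152) (nat_lit 23161099059967) (nat_lit 201) (nat_lit 5) (nat_lit 202) (nat_lit 5) (nat_lit 203) (nat_lit 4) (nat_lit 374) (nat_lit 359) (nat_lit 167))))))) (XT.nd (nat_lit 45942) (nat_lit 0) (nat_lit 760) (XT.nd (nat_lit 390) (nat_lit 152) (nat_lit 0) (XT.nd (nat_lit 156) (nat_lit 152) (nat_lit 0) (XT.nd (nat_lit 78) (nat_lit 152) (nat_lit 0) (XT.lf (nat_lit 0) (nat_lit 45917316935137) (nat_lit 152) (nat_lit 5215551729484) (nat_lit 0) (nat_lit 5215551728828) (nat_lit 201) (nat_lit 5) (nat_lit 203) (nat_lit 4) (nat_lit 201) (nat_lit 4) (nat_lit 375) (nat_lit 359) (nat_lit 166)) (XT.lf (nat_lit 0) (nat_lit 6020270273880) (nat_lit 152) (nat_lit 27758184117475) (nat_lit 76) (nat_lit 27758184116809) (nat_lit 199) (nat_lit 5) (nat_lit 201) (nat_lit 5)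 (nat_lit 200) (nat_lit 4) (nat_lit 376) (nat_lit 359) (nat_lit 165))) (XT.nd (nat_lit 78) (nat_lit 76) (nat_lit 0) (XT.lf (nat_lit 0) (nat_lit 12333868243901) (nat_lit 76) (nat_lit 12333868244577) (nat_lit 152) (nat_lit 42641395060411) (nat_lit 198) (nat_lit 5) (nat_lit 199) (nat_lit 5) (nat_lit 200) (nat_lit 4) (nat_lit 377) (nat_lit 359) (nat_lit 164)) (XT.nd (nat_lit 78) (nat_lit 76) (nat_lit 0) (XT.lf (nat_lit 0) (nat_lit 48142865257185) (nat_lit 152) (nat_lit 12750025947922) (nat_lit 0) (nat_lit 12750025947328) (nat_lit 198) (nat_lit 5) (nat_lit 200) (nat_lit 4) (nat_lit 198) (nat_lit 4) (nat_lit 378) (nat_lit 359) (nat_lit 163)) (XT.lf (nat_lit 0) (nat_lit 38663787698868) (nat_lit 76) (nat_lit 38663787699468) (nat_lit 76) (nat_lit 3270948389605) (nat_lit 197) (nat_lit 4) (nat_lit 198) (nat_lit 5) (nat_lit 198) (nat_lit 4) (nat_lit 379) (nat_lit 359) (nat_lit 162))))) (XT.nd (nat_lit 45318)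 (nat_lit 0) (nat_lit 1520) (XT.nd (nat_lit 78) (nat_lit 0) (nat_lit 0) (XT.lf (nat_lit 0) (nat_lit 10725102820777) (nat_lit 76) (nat_lit 10725102821383) (nat_lit 152) (nat_lit 66837455014013) (nat_lit 195) (nat_lit 5) (nat_lit 196) (nat_lit 5) (nat_lit 197) (nat_lit 4) (nat_lit 380) (nat_lit 359) (nat_lit 161)) (XT.lf (nat_lit 0) (nat_lit 52727385920419) (nat_lit 152) (nat_lit 21951003912364) (nat_lit 0) (nat_lit 21951003911834) (nat_lit 195) (nat_lit 5) (nat_lit 197) (nat_lit 4) (nat_lit 195) (nat_lit 4) (nat_lit 381) (nat_lit 359) (nat_lit 160))) (XT.nd (nat_lit 78) (nat_lit 0) (nat_lit 0) (XT.lf (nat_lit 0) (nat_lit 2724542405319) (nat_lit 380) (nat_lit 3076060403811) (nat_lit 380) (nat_lit 3076060403811) (nat_lit 215) (nat_lit 3) (nat_lit 220) (nat_lit 3) (nat_lit 220) (nat_lit 5) (nat_lit 360) (nat_lit 360) (nat_lit 180)) (XT.nd (nat_lit 78) (nat_lit 0) (nat_lit 76) (XT.lf (nat_lit 76) (nat_lit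 2990804504020) (nat_lit 0) (nat_lit 2990804504213) (nat_lit 380) (nat_lit 13084640474071) (nat_lit 216) (nat_lit 5) (nat_lit 215) (nat_lit 3) (nat_lit 220) (nat_lit 5) (nat_lit 361) (nat_lit 360) (nat_lit 179)) (XT.lf (nat_lit 0) (nat_lit 7217089953241) (nat_lit 304) (nat_lit 6632779663298) (nat_lit 380) (nat_lit 6632779662985) (nat_lit 216) (nat_lit 5) (nat_lit 220) (nat_lit 5) (nat_lit 221) (nat_lit 5) (nat_lit 362) (nat_lit 360) (nat_lit 178)))))) (XT.nd (nat_lit 390) (nat_lit 456) (nat_lit 0) (XT.nd (nat_lit 156) (nat_lit 380) (nat_lit 0) (XT.nd (nat_lit 78) (nat_lit 0) (nat_lit 76) (XT.lf (nat_lit 76) (nat_lit 4482971291426) (nat_lit 0) (nat_lit 4482971291866) (nat_lit 380) (nat_lit 13096359031539) (nat_lit 217) (nat_lit 5) (nat_lit 216) (nat_lit 5) (nat_lit 221) (nat_lit 5) (nat_lit 363) (nat_lit 360) (nat_lit 177)) (XT.lf (nat_lit 0) (nat_lit 11600759252182) (nat_lit 304) (nat_lit 6092298563541)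 (nat_lit 76) (nat_lit 6092298563062) (nat_lit 217) (nat_lit 5) (nat_lit 221) (nat_lit 5) (nat_lit 218) (nat_lit 5) (nat_lit 364) (nat_lit 360) (nat_lit 176))) (XT.nd (nat_lit 78) (nat_lit 152) (nat_lit 0) (XT.lf (nat_lit 0) (nat_lit 7579052829777) (nat_lit 304) (nat_lit 7579052830338) (nat_lit 380) (nat_lit 10529667611411) (nat_lit 213) (nat_lit 5) (nat_lit 217) (nat_lit 5) (nat_lit 218) (nat_lit 5) (nat_lit 365) (nat_lit 360) (nat_lit 175)) (XT.nd (nat_lit 78) (nat_lit 152) (nat_lit 0) (XT.lf (nat_lit 0) (nat_lit 19750466772619) (nat_lit 380) (nat_lit 4024937007302) (nat_lit 76) (nat_lit 4024937006751) (nat_lit 213) (nat_lit 5) (nat_lit 218) (nat_lit 5) (nat_lit 214) (nat_lit 5) (nat_lit 366) (nat_lit 360) (nat_lit 174)) (XT.lf (nat_lit 0) (nat_lit 12964715270519) (nat_lit 152) (nat_lit 12964715271125) (nat_lit 228) (nat_lit 4165700613998) (nat_lit 211) (nat_lit 5) (nat_lit 213) (nat_lit 5) (nat_lit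 214) (nat_lit 5) (nat_lit 367) (nat_lit 360) (nat_lit 173))))) (XT.nd (nat_lit 156) (nat_lit 228) (nat_lit 0) (XT.nd (nat_lit 78) (nat_lit 0) (nat_lit 0) (XT.lf (nat_lit 0) (nat_lit 252582509288) (nat_lit 152) (nat_lit 252582509942) (nat_lit 228) (nat_lit 32192474063851) (nat_lit 208) (nat_lit 5) (nat_lit 210) (nat_lit 5) (nat_lit 211) (nat_lit 5) (nat_lit 368) (nat_lit 360) (nat_lit 172)) (XT.lf (nat_lit 0) (nat_lit 6983147056657) (nat_lit 228) (nat_lit 14223837447944) (nat_lit 76) (nat_lit 14223837447339) (nat_lit 208) (nat_lit 5) (nat_lit 211) (nat_lit 5) (nat_lit 209) (nat_lit 5) (nat_lit 369) (nat_lit 360) (nat_lit 171))) (XT.nd (nat_lit 78) (nat_lit 76) (nat_lit 0) (XT.lf (nat_lit 0) (nat_lit 7375121087176) (nat_lit 152) (nat_lit 7375121087812) (nat_lit 228) (nat_lit 23776127709846) (nat_lit 206) (nat_lit 5) (nat_lit 208) (nat_lit 5) (nat_lit 209) (nat_lit 5) (nat_lit 370) (nat_lit 360) (nat_lit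 170)) (XT.nd (nat_lit 78) (nat_lit 76) (nat_lit 0) (XT.lf (nat_lit 0) (nat_lit 24814598118671) (nat_lit 228) (nat_lit 8550911202964) (nat_lit 76) (nat_lit 8550911202387) (nat_lit 206) (nat_lit 5) (nat_lit 209) (nat_lit 5) (nat_lit 207) (nat_lit 4) (nat_lit 371) (nat_lit 360) (nat_lit 169)) (XT.lf (nat_lit 0) (nat_lit 18758271865710) (nat_lit 76) (nat_lit 18758271866307) (nat_lit 152) (nat_lit 8129244585354) (nat_lit 205) (nat_lit 5) (nat_lit 206) (nat_lit 5) (nat_lit 207) (nat_lit 4) (nat_lit 372) (nat_lit 360) (nat_lit 168))))))))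
noncomputable def xc122 : XT := (XT.nd (nat_lit 46800) (nat_lit 0) (nat_lit 152) (XT.nd (nat_lit 46020) (nat_lit 0) (nat_lit 836) (XT.nd (nat_lit 390) (nat_lit 304) (nat_lit 0) (XT.nd (nat_lit 156) (nat_lit 228) (nat_lit 0) (XT.nd (nat_lit 78) (nat_lit 0) (nat_lit 0) (XT.lf (nat_lit 0) (nat_lit 1257323848180) (nat_lit 152) (nat_lit 1257323848795) (nat_lit 228) (nat_lit 47328266850936) (nat_lit 202) (nat_lit 5) (nat_lit 204) (nat_lit 5) (nat_lit 205) (nat_lit 5) (nat_lit 373) (nat_lit 360) (nat_lit 167)) (XT.lf (nat_lit 0) (nat_lit 16176571011763) (nat_lit 228) (nat_lit 19048456810066) (nat_lit 76) (nat_lit 19048456809518) (nat_lit 202) (nat_lit 5) (nat_lit 205) (nat_lit 5) (nat_lit 203) (nat_lit 4) (nat_lit 374) (nat_lit 360) (nat_lit 166))) (XT.nd (nat_lit 78) (nat_lit 152) (nat_lit 0) (XT.lf (nat_lit 0) (nat_lit 16311540752777) (nat_lit 76) (nat_lit 16311540753337) (nat_lit 152) (nat_lit 26635263918832)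 (nat_lit 201) (nat_lit 5) (nat_lit 202) (nat_lit 5) (nat_lit 203) (nat_lit 4) (nat_lit 375) (nat_lit 360) (nat_lit 165)) (XT.nd (nat_lit 78) (nat_lit 152) (nat_lit 0) (XT.lf (nat_lit 0) (nat_lit 52804914475510) (nat_lit 152) (nat_lit 5997884488718) (nat_lit 0) (nat_lit 5997884488223) (nat_lit 201) (nat_lit 5) (nat_lit 203) (nat_lit 4) (nat_lit 201) (nat_lit 4) (nat_lit 376) (nat_lit 360) (nat_lit 164)) (XT.lf (nat_lit 0) (nat_lit 6923310815063) (nat_lit 152) (nat_lit 31921911734907) (nat_lit 76) (nat_lit 31921911734404) (nat_lit 199) (nat_lit 5) (nat_lit 201) (nat_lit 5) (nat_lit 200) (nat_lit 4) (nat_lit 377) (nat_lit 360) (nat_lit 163))))) (XT.nd (nat_lit 156) (nat_lit 228) (nat_lit 0) (XT.nd (nat_lit 78) (nat_lit 0) (nat_lit 0) (XT.lf (nat_lit 0) (nat_lit 14183948480667) (nat_lit 76) (nat_lit 14183948481178) (nat_lit 152) (nat_lit 49037604319363) (nat_lit 198) (nat_lit 5) (nat_lit 199) (nat_lit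 5) (nat_lit 200) (nat_lit 4) (nat_lit 378) (nat_lit 360) (nat_lit 162)) (XT.lf (nat_lit 0) (nat_lit 55364295045849) (nat_lit 152) (nat_lit 14662529839943) (nat_lit 0) (nat_lit 14662529839495) (nat_lit 198) (nat_lit 5) (nat_lit 200) (nat_lit 4) (nat_lit 198) (nat_lit 4) (nat_lit 379) (nat_lit 360) (nat_lit 161))) (XT.nd (nat_lit 78) (nat_lit 152) (nat_lit 0) (XT.lf (nat_lit 0) (nat_lit 44463355853857) (nat_lit 76) (nat_lit 44463355854311) (nat_lit 76) (nat_lit 3761590647952) (nat_lit 197) (nat_lit 4) (nat_lit 198) (nat_lit 5) (nat_lit 198) (nat_lit 4) (nat_lit 380) (nat_lit 360) (nat_lit 160)) (XT.nd (nat_lit 45318) (nat_lit 0) (nat_lit 1520) (XT.lf (nat_lit 0) (nat_lit 12333868244054) (nat_lit 76) (nat_lit 12333868244511) (nat_lit 152) (nat_lit 76863073266023) (nat_lit 195) (nat_lit 5) (nat_lit 196) (nat_lit 5) (nat_lit 197) (nat_lit 4) (nat_lit 381) (nat_lit 360) (nat_lit 159)) (XT.lf (nat_lit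 0) (nat_lit 3133223766301) (nat_lit 380) (nat_lit 3537469464276) (nat_lit 380) (nat_lit 3537469464276) (nat_lit 215) (nat_lit 3) (nat_lit 220) (nat_lit 3) (nat_lit 220) (nat_lit 5) (nat_lit 361) (nat_lit 361) (nat_lit 178)))))) (XT.nd (nat_lit 390) (nat_lit 532) (nat_lit 0) (XT.nd (nat_lit 156) (nat_lit 152) (nat_lit 0) (XT.nd (nat_lit 78) (nat_lit 0) (nat_lit 76) (XT.lf (nat_lit 76) (nat_lit 3439425179826) (nat_lit 0) (nat_lit 3439425179972) (nat_lit 380) (nat_lit 15047336544802) (nat_lit 216) (nat_lit 5) (nat_lit 215) (nat_lit 3) (nat_lit 220) (nat_lit 5) (nat_lit 362) (nat_lit 361) (nat_lit 177)) (XT.lf (nat_lit 0) (nat_lit 8299653446509) (nat_lit 304) (nat_lit 7627696612569) (nat_lit 380) (nat_lit 7627696612332) (nat_lit 216) (nat_lit 5) (nat_lit 220) (nat_lit 5) (nat_lit 221) (nat_lit 5) (nat_lit 363) (nat_lit 361) (nat_lit 176))) (XT.nd (nat_lit 78) (nat_lit 228) (nat_lit 0) (XT.lf (nat_lit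 76) (nat_lit 5155416985354) (nat_lit 0) (nat_lit 5155416985686) (nat_lit 380) (nat_lit 15060812885977) (nat_lit 217) (nat_lit 5) (nat_lit 216) (nat_lit 5) (nat_lit 221) (nat_lit 5) (nat_lit 364) (nat_lit 361) (nat_lit 175)) (XT.nd (nat_lit 78) (nat_lit 304) (nat_lit 0) (XT.lf (nat_lit 0) (nat_lit 13340873140229) (nat_lit 304) (nat_lit 7006143347851) (nat_lit 76) (nat_lit 7006143347490) (nat_lit 217) (nat_lit 5) (nat_lit 221) (nat_lit 5) (nat_lit 218) (nat_lit 5) (nat_lit 365) (nat_lit 361) (nat_lit 174)) (XT.lf (nat_lit 0) (nat_lit 8715910754454) (nat_lit 304) (nat_lit 8715910754879) (nat_lit 380) (nat_lit 12109117752893) (nat_lit 213) (nat_lit 5) (nat_lit 217) (nat_lit 5) (nat_lit 218) (nat_lit 5) (nat_lit 366) (nat_lit 361) (nat_lit 173))))) (XT.nd (nat_lit 156) (nat_lit 380) (nat_lit 0) (XT.nd (nat_lit 78) (nat_lit 152) (nat_lit 0) (XT.lf (nat_lit 0) (nat_lit 22713036788686) (nat_lit 380) (nat_lit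 4628677558189) (nat_lit 76) (nat_lit 4628677557772) (nat_lit 213) (nat_lit 5) (nat_lit 218) (nat_lit 5) (nat_lit 214) (nat_lit 5) (nat_lit 367) (nat_lit 361) (nat_lit 172)) (XT.lf (nat_lit 0) (nat_lit 14909422561296) (nat_lit 152) (nat_lit 14909422561754) (nat_lit 228) (nat_lit 4790555705915) (nat_lit 211) (nat_lit 5) (nat_lit 213) (nat_lit 5) (nat_lit 214) (nat_lit 5) (nat_lit 368) (nat_lit 361) (nat_lit 171))) (XT.nd (nat_lit 78) (nat_lit 152) (nat_lit 0) (XT.lf (nat_lit 0) (nat_lit 290469885887) (nat_lit 152) (nat_lit 290469886382) (nat_lit 228) (nat_lit 37021345173252) (nat_lit 208) (nat_lit 5) (nat_lit 210) (nat_lit 5) (nat_lit 211) (nat_lit 5) (nat_lit 369) (nat_lit 361) (nat_lit 170)) (XT.nd (nat_lit 78) (nat_lit 152) (nat_lit 0) (XT.lf (nat_lit 0) (nat_lit 8030619115292) (nat_lit 228) (nat_lit 16357413064938) (nat_lit 76) (nat_lit 16357413064481) (nat_lit 208) (nat_lit 5) (nat_lit 211)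 (nat_lit 5) (nat_lit 209) (nat_lit 5) (nat_lit 370) (nat_lit 361) (nat_lit 169)) (XT.lf (nat_lit 0) (nat_lit 8481389250440) (nat_lit 152) (nat_lit 8481389250922) (nat_lit 228) (nat_lit 27342546866178) (nat_lit 206) (nat_lit 5) (nat_lit 208) (nat_lit 5) (nat_lit 209) (nat_lit 5) (nat_lit 371) (nat_lit 361) (nat_lit 168))))))) (XT.nd (nat_lit 46098) (nat_lit 0) (nat_lit 836) (XT.nd (nat_lit 390) (nat_lit 304) (nat_lit 0) (XT.nd (nat_lit 156) (nat_lit 304) (nat_lit 0) (XT.nd (nat_lit 78) (nat_lit 76) (nat_lit 0) (XT.lf (nat_lit 0) (nat_lit 28536787836583) (nat_lit 228) (nat_lit 9833547883231) (nat_lit 76) (nat_lit 9833547882794) (nat_lit 206) (nat_lit 5) (nat_lit 209) (nat_lit 5) (nat_lit 207) (nat_lit 4) (nat_lit 372) (nat_lit 361) (nat_lit 167)) (XT.lf (nat_lit 0) (nat_lit 21572012645736) (nat_lit 76) (nat_lit 21572012646187) (nat_lit 152) (nat_lit 9348631273037) (nat_lit 205) (nat_lit 5) (nat_lit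 206) (nat_lit 5) (nat_lit 207) (nat_lit 4) (nat_lit 373) (nat_lit 361) (nat_lit 166))) (XT.nd (nat_lit 78) (nat_lit 76) (nat_lit 0) (XT.lf (nat_lit 0) (nat_lit 1445922425579) (nat_lit 152) (nat_lit 1445922426044) (nat_lit 228) (nat_lit 54427506878460) (nat_lit 202) (nat_lit 5) (nat_lit 204) (nat_lit 5) (nat_lit 205) (nat_lit 5) (nat_lit 374) (nat_lit 361) (nat_lit 165)) (XT.nd (nat_lit 78) (nat_lit 76) (nat_lit 0) (XT.lf (nat_lit 0) (nat_lit 18603056663618) (nat_lit 228) (nat_lit 21905725331416) (nat_lit 76) (nat_lit 21905725331001) (nat_lit 202) (nat_lit 5) (nat_lit 205) (nat_lit 5) (nat_lit 203) (nat_lit 4) (nat_lit 375) (nat_lit 361) (nat_lit 164)) (XT.lf (nat_lit 0) (nat_lit 18758271865847) (nat_lit 76) (nat_lit 18758271866270) (nat_lit 152) (nat_lit 30630553506558) (nat_lit 201) (nat_lit 5) (nat_lit 202) (nat_lit 5) (nat_lit 203) (nat_lit 4) (nat_lit 376) (nat_lit 361) (nat_lit 163))))) (XT.nd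 (nat_lit 156) (nat_lit 152) (nat_lit 0) (XT.nd (nat_lit 78) (nat_lit 152) (nat_lit 0) (XT.lf (nat_lit 0) (nat_lit 60725651646913) (nat_lit 152) (nat_lit 6897567161885) (nat_lit 0) (nat_lit 6897567161510) (nat_lit 201) (nat_lit 5) (nat_lit 203) (nat_lit 4) (nat_lit 201) (nat_lit 4) (nat_lit 377) (nat_lit 361) (nat_lit 162)) (XT.lf (nat_lit 0) (nat_lit 7961807437398) (nat_lit 152) (nat_lit 36710198495001) (nat_lit 76) (nat_lit 36710198494620) (nat_lit 199) (nat_lit 5) (nat_lit 201) (nat_lit 5) (nat_lit 200) (nat_lit 4) (nat_lit 378) (nat_lit 361) (nat_lit 161))) (XT.nd (nat_lit 78) (nat_lit 76) (nat_lit 0) (XT.lf (nat_lit 0) (nat_lit 16311540752904) (nat_lit 76) (nat_lit 16311540753290) (nat_lit 152) (nat_lit 56393244967185) (nat_lit 198) (nat_lit 5) (nat_lit 199) (nat_lit 5) (nat_lit 200) (nat_lit 4) (nat_lit 379) (nat_lit 361) (nat_lit 160)) (XT.nd (nat_lit 78) (nat_lit 76) (nat_lit 0) (XT.lf (nat_lit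 0) (nat_lit 63668939302790) (nat_lit 152) (nat_lit 16861909315810) (nat_lit 0) (nat_lit 16861909315470) (nat_lit 198) (nat_lit 5) (nat_lit 200) (nat_lit 4) (nat_lit 198) (nat_lit 4) (nat_lit 380) (nat_lit 361) (nat_lit 159)) (XT.lf (nat_lit 0) (nat_lit 51132859232056) (nat_lit 76) (nat_lit 51132859232399) (nat_lit 76) (nat_lit 4325829245075) (nat_lit 197) (nat_lit 4) (nat_lit 198) (nat_lit 5) (nat_lit 198) (nat_lit 4) (nat_lit 381) (nat_lit 361) (nat_lit 158)))))) (XT.nd (nat_lit 390) (nat_lit 532) (nat_lit 0) (XT.nd (nat_lit 156) (nat_lit 0) (nat_lit 76) (XT.nd (nat_lit 78) (nat_lit 0) (nat_lit 0) (XT.lf (nat_lit 0) (nat_lit 3603207331386) (nat_lit 380) (nat_lit 4068089883838) (nat_lit 380) (nat_lit 4068089883838) (nat_lit 215) (nat_lit 3) (nat_lit 220) (nat_lit 3) (nat_lit 220) (nat_lit 5) (nat_lit 362) (nat_lit 362) (nat_lit 176)) (XT.lf (nat_lit 76) (nat_lit 3955338956953) (nat_lit 0) (nat_lit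 3955338957064) (nat_lit 380) (nat_lit 17304437026236) (nat_lit 216) (nat_lit 5) (nat_lit 215) (nat_lit 3) (nat_lit 220) (nat_lit 5) (nat_lit 363) (nat_lit 362) (nat_lit 175))) (XT.nd (nat_lit 78) (nat_lit 0) (nat_lit 0) (XT.lf (nat_lit 0) (nat_lit 9544601463699) (nat_lit 304) (nat_lit 8771851104285) (nat_lit 380) (nat_lit 8771851104105) (nat_lit 216) (nat_lit 5) (nat_lit 220) (nat_lit 5) (nat_lit 221) (nat_lit 5) (nat_lit 364) (nat_lit 362) (nat_lit 174)) (XT.nd (nat_lit 78) (nat_lit 0) (nat_lit 76) (XT.lf (nat_lit 76) (nat_lit 5928729533318) (nat_lit 0) (nat_lit 5928729533570) (nat_lit 380) (nat_lit 17319934818653) (nat_lit 217) (nat_lit 5) (nat_lit 216) (nat_lit 5) (nat_lit 221) (nat_lit 5) (nat_lit 365) (nat_lit 362) (nat_lit 173)) (XT.lf (nat_lit 0) (nat_lit 15342004111430) (nat_lit 304) (nat_lit 8057064849863) (nat_lit 76) (nat_lit 8057064849589) (nat_lit 217) (nat_lit 5) (nat_lit 221) (nat_lit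 5) (nat_lit 218) (nat_lit 5) (nat_lit 366) (nat_lit 362) (nat_lit 172))))) (XT.nd (nat_lit 156) (nat_lit 380) (nat_lit 0) (XT.nd (nat_lit 78) (nat_lit 0) (nat_lit 0) (XT.lf (nat_lit 0) (nat_lit 10023297367781) (nat_lit 304) (nat_lit 10023297368102) (nat_lit 380) (nat_lit 13925485415654) (nat_lit 213) (nat_lit 5) (nat_lit 217) (nat_lit 5) (nat_lit 218) (nat_lit 5) (nat_lit 367) (nat_lit 362) (nat_lit 171)) (XT.lf (nat_lit 0) (nat_lit 26119992307120) (nat_lit 380) (nat_lit 5322979191760) (nat_lit 76) (nat_lit 5322979191444) (nat_lit 213) (nat_lit 5) (nat_lit 218) (nat_lit 5) (nat_lit 214) (nat_lit 5) (nat_lit 368) (nat_lit 362) (nat_lit 170))) (XT.nd (nat_lit 78) (nat_lit 228) (nat_lit 0) (XT.lf (nat_lit 0) (nat_lit 17145835945641) (nat_lit 152) (nat_lit 17145835945987) (nat_lit 228) (nat_lit 5509139061663) (nat_lit 211) (nat_lit 5) (nat_lit 213) (nat_lit 5) (nat_lit 214) (nat_lit 5) (nat_lit 369)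 (nat_lit 362) (nat_lit 169)) (XT.nd (nat_lit 78) (nat_lit 0) (nat_lit 0) (XT.lf (nat_lit 0) (nat_lit 334040368926) (nat_lit 152) (nat_lit 334040369300) (nat_lit 228) (nat_lit 42574546949106) (nat_lit 208) (nat_lit 5) (nat_lit 210) (nat_lit 5) (nat_lit 211) (nat_lit 5) (nat_lit 370) (nat_lit 362) (nat_lit 168)) (XT.lf (nat_lit 0) (nat_lit 9235211982688) (nat_lit 228) (nat_lit 18811025024530) (nat_lit 76) (nat_lit 18811025024184) (nat_lit 208) (nat_lit 5) (nat_lit 211) (nat_lit 5) (nat_lit 209) (nat_lit 5) (nat_lit 371) (nat_lit 362) (nat_lit 167))))))))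
noncomputable def xc123 : XT := (XT.nd (nat_lit 46956) (nat_lit 0) (nat_lit 0) (XT.nd (nat_lit 46176) (nat_lit 0) (nat_lit 760) (XT.nd (nat_lit 390) (nat_lit 304) (nat_lit 0) (XT.nd (nat_lit 156) (nat_lit 304) (nat_lit 0) (XT.nd (nat_lit 78) (nat_lit 0) (nat_lit 0) (XT.lf (nat_lit 0) (nat_lit 9753597638149) (nat_lit 152) (nat_lit 9753597638513) (nat_lit 228) (nat_lit 31443928895995) (nat_lit 206) (nat_lit 5) (nat_lit 208) (nat_lit 5) (nat_lit 209) (nat_lit 5) (nat_lit 372) (nat_lit 362) (nat_lit 166)) (XT.lf (nat_lit 0) (nat_lit 32817306012155) (nat_lit 228) (nat_lit 11308580065581) (nat_lit 76) (nat_lit 11308580065251) (nat_lit 206) (nat_lit 5) (nat_lit 209) (nat_lit 5) (nat_lit 207) (nat_lit 4) (nat_lit 373) (nat_lit 362) (nat_lit 165))) (XT.nd (nat_lit 78) (nat_lit 228) (nat_lit 0) (XT.lf (nat_lit 0) (nat_lit 24807814542724) (nat_lit 76) (nat_lit 24807814543066) (nat_lit 152) (nat_lit 10750925963902)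 (nat_lit 205) (nat_lit 5) (nat_lit 206) (nat_lit 5) (nat_lit 207) (nat_lit 4) (nat_lit 374) (nat_lit 362) (nat_lit 164)) (XT.nd (nat_lit 78) (nat_lit 0) (nat_lit 0) (XT.lf (nat_lit 0) (nat_lit 1662810789546) (nat_lit 152) (nat_lit 1662810789898) (nat_lit 228) (nat_lit 62591632910140) (nat_lit 202) (nat_lit 5) (nat_lit 204) (nat_lit 5) (nat_lit 205) (nat_lit 5) (nat_lit 375) (nat_lit 362) (nat_lit 163)) (XT.lf (nat_lit 0) (nat_lit 21393515163230) (nat_lit 228) (nat_lit 25191584131007) (nat_lit 76) (nat_lit 25191584130693) (nat_lit 202) (nat_lit 5) (nat_lit 205) (nat_lit 5) (nat_lit 203) (nat_lit 4) (nat_lit 376) (nat_lit 362) (nat_lit 162))))) (XT.nd (nat_lit 156) (nat_lit 228) (nat_lit 0) (XT.nd (nat_lit 78) (nat_lit 0) (nat_lit 0) (XT.lf (nat_lit 0) (nat_lit 21572012645839) (nat_lit 76) (nat_lit 21572012646160) (nat_lit 152) (nat_lit 35225136532468) (nat_lit 201) (nat_lit 5) (nat_lit 202) (nat_lit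 5) (nat_lit 203) (nat_lit 4) (nat_lit 377) (nat_lit 362) (nat_lit 161)) (XT.lf (nat_lit 0) (nat_lit 69834499394008) (nat_lit 152) (nat_lit 7932202236060) (nat_lit 0) (nat_lit 7932202235777) (nat_lit 201) (nat_lit 5) (nat_lit 203) (nat_lit 4) (nat_lit 201) (nat_lit 4) (nat_lit 378) (nat_lit 362) (nat_lit 160))) (XT.nd (nat_lit 78) (nat_lit 76) (nat_lit 0) (XT.lf (nat_lit 0) (nat_lit 9156078553066) (nat_lit 152) (nat_lit 42216728269143) (nat_lit 76) (nat_lit 42216728268855) (nat_lit 199) (nat_lit 5) (nat_lit 201) (nat_lit 5) (nat_lit 200) (nat_lit 4) (nat_lit 379) (nat_lit 362) (nat_lit 159)) (XT.nd (nat_lit 78) (nat_lit 0) (nat_lit 0) (XT.lf (nat_lit 0) (nat_lit 18758271865942) (nat_lit 76) (nat_lit 18758271866235) (nat_lit 152) (nat_lit 64852231712201) (nat_lit 198) (nat_lit 5) (nat_lit 199) (nat_lit 5) (nat_lit 200) (nat_lit 4) (nat_lit 380) (nat_lit 362) (nat_lit 158)) (XT.lf (nat_lit 0) (nat_lit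 73219280198258) (nat_lit 152) (nat_lit 19391195713086) (nat_lit 0) (nat_lit 19391195712830) (nat_lit 198) (nat_lit 5) (nat_lit 200) (nat_lit 4) (nat_lit 198) (nat_lit 4) (nat_lit 381) (nat_lit 362) (nat_lit 157)))))) (XT.nd (nat_lit 390) (nat_lit 532) (nat_lit 0) (XT.nd (nat_lit 156) (nat_lit 0) (nat_lit 76) (XT.nd (nat_lit 78) (nat_lit 0) (nat_lit 0) (XT.lf (nat_lit 0) (nat_lit 4143688431200) (nat_lit 380) (nat_lit 4678303366353) (nat_lit 380) (nat_lit 4678303366353) (nat_lit 215) (nat_lit 3) (nat_lit 220) (nat_lit 3) (nat_lit 220) (nat_lit 5) (nat_lit 363) (nat_lit 363) (nat_lit 174)) (XT.lf (nat_lit 76) (nat_lit 4548639800613) (nat_lit 0) (nat_lit 4548639800696) (nat_lit 380) (nat_lit 19900102579955) (nat_lit 216) (nat_lit 5) (nat_lit 215) (nat_lit 3) (nat_lit 220) (nat_lit 5) (nat_lit 364) (nat_lit 363) (nat_lit 173))) (XT.nd (nat_lit 78) (nat_lit 0) (nat_lit 0) (XT.lf (nat_lit 0) (nat_lit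 10976291683415) (nat_lit 304) (nat_lit 10087628769799) (nat_lit 380) (nat_lit 10087628769664) (nat_lit 216) (nat_lit 5) (nat_lit 220) (nat_lit 5) (nat_lit 221) (nat_lit 5) (nat_lit 365) (nat_lit 363) (nat_lit 172)) (XT.nd (nat_lit 78) (nat_lit 0) (nat_lit 76) (XT.lf (nat_lit 76) (nat_lit 6818038963439) (nat_lit 0) (nat_lit 6818038963629) (nat_lit 380) (nat_lit 19917925041284) (nat_lit 217) (nat_lit 5) (nat_lit 216) (nat_lit 5) (nat_lit 221) (nat_lit 5) (nat_lit 366) (nat_lit 363) (nat_lit 171)) (XT.lf (nat_lit 0) (nat_lit 17643304728270) (nat_lit 304) (nat_lit 9265624577216) (nat_lit 76) (nat_lit 9265624577009) (nat_lit 217) (nat_lit 5) (nat_lit 221) (nat_lit 5) (nat_lit 218) (nat_lit 5) (nat_lit 367) (nat_lit 363) (nat_lit 170))))) (XT.nd (nat_lit 156) (nat_lit 380) (nat_lit 0) (XT.nd (nat_lit 78) (nat_lit 0) (nat_lit 0) (XT.lf (nat_lit 0) (nat_lit 11526791973069) (nat_lit 304) (nat_lit 11526791973311)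 (nat_lit 380) (nat_lit 16014308227871) (nat_lit 213) (nat_lit 5) (nat_lit 217) (nat_lit 5) (nat_lit 218) (nat_lit 5) (nat_lit 368) (nat_lit 363) (nat_lit 169)) (XT.lf (nat_lit 0) (nat_lit 30037991153288) (nat_lit 380) (nat_lit 6121426070404) (nat_lit 76) (nat_lit 6121426070166) (nat_lit 213) (nat_lit 5) (nat_lit 218) (nat_lit 5) (nat_lit 214) (nat_lit 5) (nat_lit 369) (nat_lit 363) (nat_lit 168))) (XT.nd (nat_lit 78) (nat_lit 228) (nat_lit 0) (XT.lf (nat_lit 0) (nat_lit 19717711337601) (nat_lit 152) (nat_lit 19717711337863) (nat_lit 228) (nat_lit 6335509920808) (nat_lit 211) (nat_lit 5) (nat_lit 213) (nat_lit 5) (nat_lit 214) (nat_lit 5) (nat_lit 370) (nat_lit 363) (nat_lit 167)) (XT.nd (nat_lit 78) (nat_lit 0) (nat_lit 0) (XT.lf (nat_lit 0) (nat_lit 384146424382) (nat_lit 152) (nat_lit 384146424665) (nat_lit 228) (nat_lit 48960728991371) (nat_lit 208) (nat_lit 5) (nat_lit 210) (nat_lit 5) (nat_lit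 211) (nat_lit 5) (nat_lit 371) (nat_lit 363) (nat_lit 166)) (XT.lf (nat_lit 0) (nat_lit 10620493780169) (nat_lit 228) (nat_lit 21632678778097) (nat_lit 76) (nat_lit 21632678777835) (nat_lit 208) (nat_lit 5) (nat_lit 211) (nat_lit 5) (nat_lit 209) (nat_lit 5) (nat_lit 372) (nat_lit 363) (nat_lit 165))))))) (XT.nd (nat_lit 46254) (nat_lit 0) (nat_lit 608) (XT.nd (nat_lit 390) (nat_lit 304) (nat_lit 0) (XT.nd (nat_lit 156) (nat_lit 304) (nat_lit 0) (XT.nd (nat_lit 78) (nat_lit 0) (nat_lit 0) (XT.lf (nat_lit 0) (nat_lit 11216637283979) (nat_lit 152) (nat_lit 11216637284254) (nat_lit 228) (nat_lit 36160518230312) (nat_lit 206) (nat_lit 5) (nat_lit 208) (nat_lit 5) (nat_lit 209) (nat_lit 5) (nat_lit 373) (nat_lit 363) (nat_lit 164)) (XT.lf (nat_lit 0) (nat_lit 37739901914042) (nat_lit 228) (nat_lit 13004867075316) (nat_lit 76) (nat_lit 13004867075067) (nat_lit 206) (nat_lit 5) (nat_lit 209) (nat_lit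 5) (nat_lit 207) (nat_lit 4) (nat_lit 374) (nat_lit 363) (nat_lit 163))) (XT.nd (nat_lit 78) (nat_lit 228) (nat_lit 0) (XT.lf (nat_lit 0) (nat_lit 28528986724231) (nat_lit 76) (nat_lit 28528986724488) (nat_lit 152) (nat_lit 12363564858419) (nat_lit 205) (nat_lit 5) (nat_lit 206) (nat_lit 5) (nat_lit 207) (nat_lit 4) (nat_lit 375) (nat_lit 363) (nat_lit 162)) (XT.nd (nat_lit 78) (nat_lit 0) (nat_lit 0) (XT.lf (nat_lit 0) (nat_lit 1912232408077) (nat_lit 152) (nat_lit 1912232408342) (nat_lit 228) (nat_lit 71980377846594) (nat_lit 202) (nat_lit 5) (nat_lit 204) (nat_lit 5) (nat_lit 205) (nat_lit 5) (nat_lit 376) (nat_lit 363) (nat_lit 161)) (XT.lf (nat_lit 0) (nat_lit 24602542437767) (nat_lit 228) (nat_lit 28970321750566) (nat_lit 76) (nat_lit 28970321750329) (nat_lit 202) (nat_lit 5) (nat_lit 205) (nat_lit 5) (nat_lit 203) (nat_lit 4) (nat_lit 377) (nat_lit 363) (nat_lit 160))))) (XT.nd (nat_lit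 156) (nat_lit 228) (nat_lit 0) (XT.nd (nat_lit 78) (nat_lit 0) (nat_lit 0) (XT.lf (nat_lit 0) (nat_lit 24807814542803) (nat_lit 76) (nat_lit 24807814543045) (nat_lit 152) (nat_lit 40508907012282) (nat_lit 201) (nat_lit 5) (nat_lit 202) (nat_lit 5) (nat_lit 203) (nat_lit 4) (nat_lit 378) (nat_lit 363) (nat_lit 159)) (XT.lf (nat_lit 0) (nat_lit 80309674303153) (nat_lit 152) (nat_lit 9122032571388) (nat_lit 0) (nat_lit 9122032571174) (nat_lit 201) (nat_lit 5) (nat_lit 203) (nat_lit 4) (nat_lit 201) (nat_lit 4) (nat_lit 379) (nat_lit 363) (nat_lit 158))) (XT.nd (nat_lit 78) (nat_lit 76) (nat_lit 0) (XT.lf (nat_lit 0) (nat_lit 10529490336069) (nat_lit 152) (nat_lit 48549237509433) (nat_lit 76) (nat_lit 48549237509215) (nat_lit 199) (nat_lit 5) (nat_lit 201) (nat_lit 5) (nat_lit 200) (nat_lit 4) (nat_lit 380) (nat_lit 363) (nat_lit 157)) (XT.nd (nat_lit 45552) (nat_lit 0) (nat_lit 1292) (XT.lf (nat_lit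 0) (nat_lit 21572012645912) (nat_lit 76) (nat_lit 21572012646132) (nat_lit 152) (nat_lit 74580066468984) (nat_lit 198) (nat_lit 5) (nat_lit 199) (nat_lit 5) (nat_lit 200) (nat_lit 4) (nat_lit 381) (nat_lit 363) (nat_lit 156)) (XT.lf (nat_lit 0) (nat_lit 4765241695960) (nat_lit 380) (nat_lit 5380048871260) (nat_lit 380) (nat_lit 5380048871260) (nat_lit 215) (nat_lit 3) (nat_lit 220) (nat_lit 3) (nat_lit 220) (nat_lit 5) (nat_lit 364) (nat_lit 364) (nat_lit 172)))))) (XT.nd (nat_lit 390) (nat_lit 532) (nat_lit 0) (XT.nd (nat_lit 156) (nat_lit 152) (nat_lit 0) (XT.nd (nat_lit 78) (nat_lit 0) (nat_lit 76) (XT.lf (nat_lit 76) (nat_lit 5230935770792) (nat_lit 0) (nat_lit 5230935770855) (nat_lit 380) (nat_lit 22885117966784) (nat_lit 216) (nat_lit 5) (nat_lit 215) (nat_lit 3) (nat_lit 220) (nat_lit 5) (nat_lit 365) (nat_lit 364) (nat_lit 171)) (XT.lf (nat_lit 0) (nat_lit 12622735436049) (nat_lit 304)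 (nat_lit 11600773085173) (nat_lit 380) (nat_lit 11600773085070) (nat_lit 216) (nat_lit 5) (nat_lit 220) (nat_lit 5) (nat_lit 221) (nat_lit 5) (nat_lit 366) (nat_lit 364) (nat_lit 170))) (XT.nd (nat_lit 78) (nat_lit 228) (nat_lit 0) (XT.lf (nat_lit 76) (nat_lit 7840744808047) (nat_lit 0) (nat_lit 7840744808191) (nat_lit 380) (nat_lit 22905613797350) (nat_lit 217) (nat_lit 5) (nat_lit 216) (nat_lit 5) (nat_lit 221) (nat_lit 5) (nat_lit 367) (nat_lit 364) (nat_lit 169)) (XT.nd (nat_lit 78) (nat_lit 304) (nat_lit 0) (XT.lf (nat_lit 0) (nat_lit 20289800437605) (nat_lit 304) (nat_lit 10655468263703) (nat_lit 76) (nat_lit 10655468263547) (nat_lit 217) (nat_lit 5) (nat_lit 221) (nat_lit 5) (nat_lit 218) (nat_lit 5) (nat_lit 368) (nat_lit 364) (nat_lit 168)) (XT.lf (nat_lit 0) (nat_lit 13255810769120) (nat_lit 304) (nat_lit 13255810769304) (nat_lit 380) (nat_lit 18416454461952) (nat_lit 213) (nat_lit 5)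 (nat_lit 217) (nat_lit 5) (nat_lit 218) (nat_lit 5) (nat_lit 369) (nat_lit 364) (nat_lit 167))))) (XT.nd (nat_lit 156) (nat_lit 380) (nat_lit 0) (XT.nd (nat_lit 78) (nat_lit 152) (nat_lit 0) (XT.lf (nat_lit 0) (nat_lit 34543689826356) (nat_lit 380) (nat_lit 7039639980875) (nat_lit 76) (nat_lit 7039639980695) (nat_lit 213) (nat_lit 5) (nat_lit 218) (nat_lit 5) (nat_lit 214) (nat_lit 5) (nat_lit 370) (nat_lit 364) (nat_lit 166)) (XT.lf (nat_lit 0) (nat_lit 22675368038327) (nat_lit 152) (nat_lit 22675368038525) (nat_lit 228) (nat_lit 7285836408850) (nat_lit 211) (nat_lit 5) (nat_lit 213) (nat_lit 5) (nat_lit 214) (nat_lit 5) (nat_lit 371) (nat_lit 364) (nat_lit 165))) (XT.nd (nat_lit 78) (nat_lit 152) (nat_lit 0) (XT.lf (nat_lit 0) (nat_lit 441768388129) (nat_lit 152) (nat_lit 441768388342) (nat_lit 228) (nat_lit 56304838340000) (nat_lit 208) (nat_lit 5) (nat_lit 210) (nat_lit 5) (nat_lit 211) (nat_lit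 5) (nat_lit 372) (nat_lit 364) (nat_lit 164)) (XT.nd (nat_lit 78) (nat_lit 152) (nat_lit 0) (XT.lf (nat_lit 0) (nat_lit 12213567847253) (nat_lit 228) (nat_lit 24877580594726) (nat_lit 76) (nat_lit 24877580594529) (nat_lit 208) (nat_lit 5) (nat_lit 211) (nat_lit 5) (nat_lit 209) (nat_lit 5) (nat_lit 373) (nat_lit 364) (nat_lit 163)) (XT.lf (nat_lit 0) (nat_lit 12899132876657) (nat_lit 152) (nat_lit 12899132876865) (nat_lit 228) (nat_lit 41584595964796) (nat_lit 206) (nat_lit 5) (nat_lit 208) (nat_lit 5) (nat_lit 209) (nat_lit 5) (nat_lit 374) (nat_lit 364) (nat_lit 162))))))))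
noncomputable def xc124 : XT := (XT.nd (nat_lit 47112) (nat_lit 0) (nat_lit 152) (XT.nd (nat_lit 46332) (nat_lit 0) (nat_lit 456) (XT.nd (nat_lit 390) (nat_lit 152) (nat_lit 0) (XT.nd (nat_lit 156) (nat_lit 304) (nat_lit 0) (XT.nd (nat_lit 78) (nat_lit 76) (nat_lit 0) (XT.lf (nat_lit 0) (nat_lit 43400887201197) (nat_lit 228) (nat_lit 14955597136537) (nat_lit 76) (nat_lit 14955597136349) (nat_lit 206) (nat_lit 5) (nat_lit 209) (nat_lit 5) (nat_lit 207) (nat_lit 4) (nat_lit 375) (nat_lit 364) (nat_lit 161)) (XT.lf (nat_lit 0) (nat_lit 32808334732939) (nat_lit 76) (nat_lit 32808334733134) (nat_lit 152) (nat_lit 14218099587130) (nat_lit 205) (nat_lit 5) (nat_lit 206) (nat_lit 5) (nat_lit 207) (nat_lit 4) (nat_lit 376) (nat_lit 364) (nat_lit 160))) (XT.nd (nat_lit 78) (nat_lit 76) (nat_lit 0) (XT.lf (nat_lit 0) (nat_lit 2199067269362) (nat_lit 152) (nat_lit 2199067269564) (nat_lit 228) (nat_lit 82777434523533)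 (nat_lit 202) (nat_lit 5) (nat_lit 204) (nat_lit 5) (nat_lit 205) (nat_lit 5) (nat_lit 377) (nat_lit 364) (nat_lit 159)) (XT.nd (nat_lit 78) (nat_lit 76) (nat_lit 0) (XT.lf (nat_lit 0) (nat_lit 28292923803471) (nat_lit 228) (nat_lit 33315870013082) (nat_lit 76) (nat_lit 33315870012903) (nat_lit 202) (nat_lit 5) (nat_lit 205) (nat_lit 5) (nat_lit 203) (nat_lit 4) (nat_lit 378) (nat_lit 364) (nat_lit 158)) (XT.lf (nat_lit 0) (nat_lit 28528986724290) (nat_lit 76) (nat_lit 28528986724472) (nat_lit 152) (nat_lit 46585243064081) (nat_lit 201) (nat_lit 5) (nat_lit 202) (nat_lit 5) (nat_lit 203) (nat_lit 4) (nat_lit 379) (nat_lit 364) (nat_lit 157))))) (XT.nd (nat_lit 45708) (nat_lit 0) (nat_lit 1216) (XT.nd (nat_lit 78) (nat_lit 152) (nat_lit 0) (XT.lf (nat_lit 0) (nat_lit 92356125448659) (nat_lit 152) (nat_lit 10490337457035) (nat_lit 0) (nat_lit 10490337456873) (nat_lit 201) (nat_lit 5) (nat_lit 203)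 (nat_lit 4) (nat_lit 201) (nat_lit 4) (nat_lit 380) (nat_lit 364) (nat_lit 156)) (XT.lf (nat_lit 0) (nat_lit 12108913886512) (nat_lit 152) (nat_lit 55831623135786) (nat_lit 76) (nat_lit 55831623135621) (nat_lit 199) (nat_lit 5) (nat_lit 201) (nat_lit 5) (nat_lit 200) (nat_lit 4) (nat_lit 381) (nat_lit 364) (nat_lit 155))) (XT.nd (nat_lit 78) (nat_lit 0) (nat_lit 0) (XT.lf (nat_lit 0) (nat_lit 5480027950414) (nat_lit 380) (nat_lit 6187056201914) (nat_lit 380) (nat_lit 6187056201914) (nat_lit 215) (nat_lit 3) (nat_lit 220) (nat_lit 3) (nat_lit 220) (nat_lit 5) (nat_lit 365) (nat_lit 365) (nat_lit 170)) (XT.nd (nat_lit 78) (nat_lit 0) (nat_lit 76) (XT.lf (nat_lit 76) (nat_lit 6015576136477) (nat_lit 0) (nat_lit 6015576136525) (nat_lit 380) (nat_lit 26317885661678) (nat_lit 216) (nat_lit 5) (nat_lit 215) (nat_lit 3) (nat_lit 220) (nat_lit 5) (nat_lit 366) (nat_lit 365) (nat_lit 169)) (XT.lf (nat_lit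 0) (nat_lit 14516145751549) (nat_lit 304) (nat_lit 13340889047875) (nat_lit 380) (nat_lit 13340889047798) (nat_lit 216) (nat_lit 5) (nat_lit 220) (nat_lit 5) (nat_lit 221) (nat_lit 5) (nat_lit 367) (nat_lit 365) (nat_lit 168)))))) (XT.nd (nat_lit 390) (nat_lit 456) (nat_lit 0) (XT.nd (nat_lit 156) (nat_lit 380) (nat_lit 0) (XT.nd (nat_lit 78) (nat_lit 0) (nat_lit 76) (XT.lf (nat_lit 76) (nat_lit 9016856529324) (nat_lit 0) (nat_lit 9016856529433) (nat_lit 380) (nat_lit 26341455866857) (nat_lit 217) (nat_lit 5) (nat_lit 216) (nat_lit 5) (nat_lit 221) (nat_lit 5) (nat_lit 368) (nat_lit 365) (nat_lit 167)) (XT.lf (nat_lit 0) (nat_lit 23333270503318) (nat_lit 304) (nat_lit 12253788503187) (nat_lit 76) (nat_lit 12253788503068) (nat_lit 217) (nat_lit 5) (nat_lit 221) (nat_lit 5) (nat_lit 218) (nat_lit 5) (nat_lit 369) (nat_lit 365) (nat_lit 166))) (XT.nd (nat_lit 78) (nat_lit 152) (nat_lit 0) (XT.lf (nat_lit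 0) (nat_lit 15244182384557) (nat_lit 304) (nat_lit 15244182384696) (nat_lit 380) (nat_lit 21178922631170) (nat_lit 213) (nat_lit 5) (nat_lit 217) (nat_lit 5) (nat_lit 218) (nat_lit 5) (nat_lit 370) (nat_lit 365) (nat_lit 165)) (XT.nd (nat_lit 78) (nat_lit 152) (nat_lit 0) (XT.lf (nat_lit 0) (nat_lit 39725243300367) (nat_lit 380) (nat_lit 8095585977938) (nat_lit 76) (nat_lit 8095585977801) (nat_lit 213) (nat_lit 5) (nat_lit 218) (nat_lit 5) (nat_lit 214) (nat_lit 5) (nat_lit 371) (nat_lit 365) (nat_lit 164)) (XT.lf (nat_lit 0) (nat_lit 26076673244141) (nat_lit 152) (nat_lit 26076673244291) (nat_lit 228) (nat_lit 8378711870118) (nat_lit 211) (nat_lit 5) (nat_lit 213) (nat_lit 5) (nat_lit 214) (nat_lit 5) (nat_lit 372) (nat_lit 365) (nat_lit 163))))) (XT.nd (nat_lit 156) (nat_lit 228) (nat_lit 0) (XT.nd (nat_lit 78) (nat_lit 0) (nat_lit 0) (XT.lf (nat_lit 0) (nat_lit 508033646415) (nat_lit 152) (nat_lit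 508033646577) (nat_lit 228) (nat_lit 64750564090943) (nat_lit 208) (nat_lit 5) (nat_lit 210) (nat_lit 5) (nat_lit 211) (nat_lit 5) (nat_lit 373) (nat_lit 365) (nat_lit 162)) (XT.lf (nat_lit 0) (nat_lit 14045603024385) (nat_lit 228) (nat_lit 28609217683871) (nat_lit 76) (nat_lit 28609217683721) (nat_lit 208) (nat_lit 5) (nat_lit 211) (nat_lit 5) (nat_lit 209) (nat_lit 5) (nat_lit 374) (nat_lit 365) (nat_lit 161))) (XT.nd (nat_lit 78) (nat_lit 76) (nat_lit 0) (XT.lf (nat_lit 0) (nat_lit 14834002808217) (nat_lit 152) (nat_lit 14834002808375) (nat_lit 228) (nat_lit 47822285359469) (nat_lit 206) (nat_lit 5) (nat_lit 208) (nat_lit 5) (nat_lit 209) (nat_lit 5) (nat_lit 375) (nat_lit 365) (nat_lit 160)) (XT.nd (nat_lit 78) (nat_lit 76) (nat_lit 0) (XT.lf (nat_lit 0) (nat_lit 49911020281413) (nat_lit 228) (nat_lit 17198936706960) (nat_lit 76) (nat_lit 17198936706817) (nat_lit 206) (nat_lit 5) (nat_lit 209)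 (nat_lit 5) (nat_lit 207) (nat_lit 4) (nat_lit 376) (nat_lit 365) (nat_lit 159)) (XT.lf (nat_lit 0) (nat_lit 37729584942934) (nat_lit 76) (nat_lit 37729584943083) (nat_lit 152) (nat_lit 16350814525161) (nat_lit 205) (nat_lit 5) (nat_lit 206) (nat_lit 5) (nat_lit 207) (nat_lit 4) (nat_lit 377) (nat_lit 365) (nat_lit 158))))))) (XT.nd (nat_lit 46410) (nat_lit 0) (nat_lit 0) (XT.nd (nat_lit 46020) (nat_lit 0) (nat_lit 912) (XT.nd (nat_lit 156) (nat_lit 76) (nat_lit 0) (XT.nd (nat_lit 78) (nat_lit 0) (nat_lit 0) (XT.lf (nat_lit 0) (nat_lit 2528927359823) (nat_lit 152) (nat_lit 2528927359975) (nat_lit 228) (nat_lit 95194049702025) (nat_lit 202) (nat_lit 5) (nat_lit 204) (nat_lit 5) (nat_lit 205) (nat_lit 5) (nat_lit 378) (nat_lit 365) (nat_lit 157)) (XT.lf (nat_lit 0) (nat_lit 32536862374022) (nat_lit 228) (nat_lit 38313250514992) (nat_lit 76) (nat_lit 38313250514857) (nat_lit 202) (nat_lit 5) (nat_lit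 205) (nat_lit 5) (nat_lit 203) (nat_lit 4) (nat_lit 379) (nat_lit 365) (nat_lit 156))) (XT.nd (nat_lit 78) (nat_lit 0) (nat_lit 0) (XT.lf (nat_lit 0) (nat_lit 32808334732983) (nat_lit 76) (nat_lit 32808334733122) (nat_lit 152) (nat_lit 53573029523662) (nat_lit 201) (nat_lit 5) (nat_lit 202) (nat_lit 5) (nat_lit 203) (nat_lit 4) (nat_lit 380) (nat_lit 365) (nat_lit 155)) (XT.nd (nat_lit 45708) (nat_lit 0) (nat_lit 1064) (XT.lf (nat_lit 0) (nat_lit 106209544265983) (nat_lit 152) (nat_lit 12063888075545) (nat_lit 0) (nat_lit 12063888075421) (nat_lit 201) (nat_lit 5) (nat_lit 203) (nat_lit 4) (nat_lit 201) (nat_lit 4) (nat_lit 381) (nat_lit 365) (nat_lit 154)) (XT.lf (nat_lit 0) (nat_lit 6302032143022) (nat_lit 380) (nat_lit 7115114632175) (nat_lit 380) (nat_lit 7115114632175) (nat_lit 215) (nat_lit 3) (nat_lit 220) (nat_lit 3) (nat_lit 220) (nat_lit 5) (nat_lit 366) (nat_lit 366) (nat_lit 168)))))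 (XT.nd (nat_lit 156) (nat_lit 152) (nat_lit 0) (XT.nd (nat_lit 78) (nat_lit 0) (nat_lit 76) (XT.lf (nat_lit 76) (nat_lit 6917912556999) (nat_lit 0) (nat_lit 6917912557035) (nat_lit 380) (nat_lit 30265568510836) (nat_lit 216) (nat_lit 5) (nat_lit 215) (nat_lit 3) (nat_lit 220) (nat_lit 5) (nat_lit 367) (nat_lit 366) (nat_lit 167)) (XT.lf (nat_lit 0) (nat_lit 16693567614351) (nat_lit 304) (nat_lit 15342022405001) (nat_lit 380) (nat_lit 15342022404943) (nat_lit 216) (nat_lit 5) (nat_lit 220) (nat_lit 5) (nat_lit 221) (nat_lit 5) (nat_lit 368) (nat_lit 366) (nat_lit 166))) (XT.nd (nat_lit 78) (nat_lit 228) (nat_lit 0) (XT.lf (nat_lit 76) (nat_lit 10369385008775) (nat_lit 0) (nat_lit 10369385008858) (nat_lit 380) (nat_lit 30292674246813) (nat_lit 217) (nat_lit 5) (nat_lit 216) (nat_lit 5) (nat_lit 221) (nat_lit 5) (nat_lit 369) (nat_lit 366) (nat_lit 165)) (XT.nd (nat_lit 78) (nat_lit 304) (nat_lit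 0) (XT.lf (nat_lit 0) (nat_lit 26833261078870) (nat_lit 304) (nat_lit 14091856778610) (nat_lit 76) (nat_lit 14091856778521) (nat_lit 217) (nat_lit 5) (nat_lit 221) (nat_lit 5) (nat_lit 218) (nat_lit 5) (nat_lit 370) (nat_lit 366) (nat_lit 164)) (XT.lf (nat_lit 0) (nat_lit 17530809742292) (nat_lit 304) (nat_lit 17530809742397) (nat_lit 380) (nat_lit 24355761025789) (nat_lit 213) (nat_lit 5) (nat_lit 217) (nat_lit 5) (nat_lit 218) (nat_lit 5) (nat_lit 371) (nat_lit 366) (nat_lit 163)))))) (XT.nd (nat_lit 390) (nat_lit 380) (nat_lit 0) (XT.nd (nat_lit 156) (nat_lit 380) (nat_lit 0) (XT.nd (nat_lit 78) (nat_lit 152) (nat_lit 0) (XT.lf (nat_lit 0) (nat_lit 45684029795465) (nat_lit 380) (nat_lit 9309923874577) (nat_lit 76) (nat_lit 9309923874474) (nat_lit 213) (nat_lit 5) (nat_lit 218) (nat_lit 5) (nat_lit 214) (nat_lit 5) (nat_lit 372) (nat_lit 366) (nat_lit 162)) (XT.lf (nat_lit 0) (nat_lit 29988174230812)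 (nat_lit 152) (nat_lit 29988174230925) (nat_lit 228) (nat_lit 9635518650590) (nat_lit 211) (nat_lit 5) (nat_lit 213) (nat_lit 5) (nat_lit 214) (nat_lit 5) (nat_lit 373) (nat_lit 366) (nat_lit 161))) (XT.nd (nat_lit 78) (nat_lit 152) (nat_lit 0) (XT.lf (nat_lit 0) (nat_lit 584238693428) (nat_lit 152) (nat_lit 584238693551) (nat_lit 228) (nat_lit 74463148704540) (nat_lit 208) (nat_lit 5) (nat_lit 210) (nat_lit 5) (nat_lit 211) (nat_lit 5) (nat_lit 374) (nat_lit 366) (nat_lit 160)) (XT.nd (nat_lit 78) (nat_lit 152) (nat_lit 0) (XT.lf (nat_lit 0) (nat_lit 16152443478077) (nat_lit 228) (nat_lit 32900600336403) (nat_lit 76) (nat_lit 32900600336290) (nat_lit 208) (nat_lit 5) (nat_lit 211) (nat_lit 5) (nat_lit 209) (nat_lit 5) (nat_lit 375) (nat_lit 366) (nat_lit 159)) (XT.lf (nat_lit 0) (nat_lit 17059103229497) (nat_lit 152) (nat_lit 17059103229615) (nat_lit 228) (nat_lit 54995628163353) (nat_lit 206)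 (nat_lit 5) (nat_lit 208) (nat_lit 5) (nat_lit 209) (nat_lit 5) (nat_lit 376) (nat_lit 366) (nat_lit 158))))) (XT.nd (nat_lit 156) (nat_lit 304) (nat_lit 0) (XT.nd (nat_lit 78) (nat_lit 76) (nat_lit 0) (XT.lf (nat_lit 0) (nat_lit 57397673323652) (nat_lit 228) (nat_lit 19778777212960) (nat_lit 76) (nat_lit 19778777212852) (nat_lit 206) (nat_lit 5) (nat_lit 209) (nat_lit 5) (nat_lit 207) (nat_lit 4) (nat_lit 377) (nat_lit 366) (nat_lit 157)) (XT.lf (nat_lit 0) (nat_lit 43389022684417) (nat_lit 76) (nat_lit 43389022684528) (nat_lit 152) (nat_lit 18803436703905) (nat_lit 205) (nat_lit 5) (nat_lit 206) (nat_lit 5) (nat_lit 207) (nat_lit 4) (nat_lit 378) (nat_lit 366) (nat_lit 156))) (XT.nd (nat_lit 78) (nat_lit 76) (nat_lit 0) (XT.lf (nat_lit 0) (nat_lit 2908266463840) (nat_lit 152) (nat_lit 2908266463954) (nat_lit 228) (nat_lit 109473157157299) (nat_lit 202) (nat_lit 5) (nat_lit 204) (nat_lit 5) (nat_lit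 205) (nat_lit 5) (nat_lit 379) (nat_lit 366) (nat_lit 155)) (XT.nd (nat_lit 78) (nat_lit 76) (nat_lit 0) (XT.lf (nat_lit 0) (nat_lit 37417391730148) (nat_lit 228) (nat_lit 44060238092201) (nat_lit 76) (nat_lit 44060238092099) (nat_lit 202) (nat_lit 5) (nat_lit 205) (nat_lit 5) (nat_lit 203) (nat_lit 4) (nat_lit 380) (nat_lit 366) (nat_lit 154)) (XT.lf (nat_lit 0) (nat_lit 37729584942969) (nat_lit 76) (nat_lit 37729584943073) (nat_lit 152) (nat_lit 61608983952186) (nat_lit 201) (nat_lit 5) (nat_lit 202) (nat_lit 5) (nat_lit 203) (nat_lit 4) (nat_lit 381) (nat_lit 366) (nat_lit 153))))))))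
noncomputable def xc125 : XT := (XT.nd (nat_lit 47346) (nat_lit 0) (nat_lit 0) (XT.nd (nat_lit 780) (nat_lit 456) (nat_lit 0) (XT.nd (nat_lit 390) (nat_lit 532) (nat_lit 0) (XT.nd (nat_lit 156) (nat_lit 0) (nat_lit 76) (XT.nd (nat_lit 78) (nat_lit 0) (nat_lit 0) (XT.lf (nat_lit 0) (nat_lit 7247336964510) (nat_lit 380) (nat_lit 8182381826981) (nat_lit 380) (nat_lit 8182381826981) (nat_lit 215) (nat_lit 3) (nat_lit 220) (nat_lit 3) (nat_lit 220) (nat_lit 5) (nat_lit 367) (nat_lit 367) (nat_lit 166)) (XT.lf (nat_lit 76) (nat_lit 7955599440587) (nat_lit 0) (nat_lit 7955599440614) (nat_lit 380) (nat_lit 34805403787390) (nat_lit 216) (nat_lit 5) (nat_lit 215) (nat_lit 3) (nat_lit 220) (nat_lit 5) (nat_lit 368) (nat_lit 367) (nat_lit 165))) (XT.nd (nat_lit 78) (nat_lit 0) (nat_lit 0) (XT.lf (nat_lit 0) (nat_lit 19197602756557) (nat_lit 304) (nat_lit 17643325765710) (nat_lit 380) (nat_lit 17643325765665)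 (nat_lit 216) (nat_lit 5) (nat_lit 220) (nat_lit 5) (nat_lit 221) (nat_lit 5) (nat_lit 369) (nat_lit 367) (nat_lit 164)) (XT.nd (nat_lit 78) (nat_lit 0) (nat_lit 76) (XT.lf (nat_lit 76) (nat_lit 11924792760132) (nat_lit 0) (nat_lit 11924792760194) (nat_lit 380) (nat_lit 34836575383781) (nat_lit 217) (nat_lit 5) (nat_lit 216) (nat_lit 5) (nat_lit 221) (nat_lit 5) (nat_lit 370) (nat_lit 367) (nat_lit 163)) (XT.lf (nat_lit 0) (nat_lit 30858250240741) (nat_lit 304) (nat_lit 16205635295361) (nat_lit 76) (nat_lit 16205635295293) (nat_lit 217) (nat_lit 5) (nat_lit 221) (nat_lit 5) (nat_lit 218) (nat_lit 5) (nat_lit 371) (nat_lit 367) (nat_lit 162))))) (XT.nd (nat_lit 156) (nat_lit 380) (nat_lit 0) (XT.nd (nat_lit 78) (nat_lit 0) (nat_lit 0) (XT.lf (nat_lit 0) (nat_lit 20160431203675) (nat_lit 304) (nat_lit 20160431203755) (nat_lit 380) (nat_lit 28009125179614) (nat_lit 213) (nat_lit 5) (nat_lit 217) (nat_lit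 5) (nat_lit 218) (nat_lit 5) (nat_lit 372) (nat_lit 367) (nat_lit 161)) (XT.lf (nat_lit 0) (nat_lit 52536634264817) (nat_lit 380) (nat_lit 10706412455725) (nat_lit 76) (nat_lit 10706412455647) (nat_lit 213) (nat_lit 5) (nat_lit 218) (nat_lit 5) (nat_lit 214) (nat_lit 5) (nat_lit 373) (nat_lit 367) (nat_lit 160))) (XT.nd (nat_lit 78) (nat_lit 228) (nat_lit 0) (XT.lf (nat_lit 0) (nat_lit 34486400365471) (nat_lit 152) (nat_lit 34486400365557) (nat_lit 228) (nat_lit 11080846448144) (nat_lit 211) (nat_lit 5) (nat_lit 213) (nat_lit 5) (nat_lit 214) (nat_lit 5) (nat_lit 374) (nat_lit 367) (nat_lit 159)) (XT.nd (nat_lit 78) (nat_lit 0) (nat_lit 0) (XT.lf (nat_lit 0) (nat_lit 671874497481) (nat_lit 152) (nat_lit 671874497574) (nat_lit 228) (nat_lit 85632621010189) (nat_lit 208) (nat_lit 5) (nat_lit 210) (nat_lit 5) (nat_lit 211) (nat_lit 5) (nat_lit 375) (nat_lit 367) (nat_lit 158)) (XT.lf (nat_lit 0) (nat_lit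 18575309999814) (nat_lit 228) (nat_lit 37835690386826) (nat_lit 76) (nat_lit 37835690386741) (nat_lit 208) (nat_lit 5) (nat_lit 211) (nat_lit 5) (nat_lit 209) (nat_lit 5) (nat_lit 376) (nat_lit 367) (nat_lit 157)))))) (XT.nd (nat_lit 46176) (nat_lit 0) (nat_lit 988) (XT.nd (nat_lit 156) (nat_lit 304) (nat_lit 0) (XT.nd (nat_lit 78) (nat_lit 0) (nat_lit 0) (XT.lf (nat_lit 0) (nat_lit 19617968713956) (nat_lit 152) (nat_lit 19617968714047) (nat_lit 228) (nat_lit 63244972387829) (nat_lit 206) (nat_lit 5) (nat_lit 208) (nat_lit 5) (nat_lit 209) (nat_lit 5) (nat_lit 377) (nat_lit 367) (nat_lit 156)) (XT.lf (nat_lit 0) (nat_lit 66007324322221) (nat_lit 228) (nat_lit 22745593794871) (nat_lit 76) (nat_lit 22745593794789) (nat_lit 206) (nat_lit 5) (nat_lit 209) (nat_lit 5) (nat_lit 207) (nat_lit 4) (nat_lit 378) (nat_lit 367) (nat_lit 155))) (XT.nd (nat_lit 78) (nat_lit 228) (nat_lit 0) (XT.lf (nat_lit 0)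 (nat_lit 49897376087111) (nat_lit 76) (nat_lit 49897376087195) (nat_lit 152) (nat_lit 21623952209469) (nat_lit 205) (nat_lit 5) (nat_lit 206) (nat_lit 5) (nat_lit 207) (nat_lit 4) (nat_lit 379) (nat_lit 367) (nat_lit 154)) (XT.nd (nat_lit 78) (nat_lit 0) (nat_lit 0) (XT.lf (nat_lit 0) (nat_lit 3344506433447) (nat_lit 152) (nat_lit 3344506433534) (nat_lit 228) (nat_lit 125894130730873) (nat_lit 202) (nat_lit 5) (nat_lit 204) (nat_lit 5) (nat_lit 205) (nat_lit 5) (nat_lit 380) (nat_lit 367) (nat_lit 153)) (XT.lf (nat_lit 0) (nat_lit 43030000489687) (nat_lit 228) (nat_lit 50669273806002) (nat_lit 76) (nat_lit 50669273805924) (nat_lit 202) (nat_lit 5) (nat_lit 205) (nat_lit 5) (nat_lit 203) (nat_lit 4) (nat_lit 381) (nat_lit 367) (nat_lit 152))))) (XT.nd (nat_lit 156) (nat_lit 0) (nat_lit 76) (XT.nd (nat_lit 78) (nat_lit 0) (nat_lit 0) (XT.lf (nat_lit 0) (nat_lit 8334437509212) (nat_lit 380) (nat_lit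 9409739101014) (nat_lit 380) (nat_lit 9409739101014) (nat_lit 215) (nat_lit 3) (nat_lit 220) (nat_lit 3) (nat_lit 220) (nat_lit 5) (nat_lit 368) (nat_lit 368) (nat_lit 164)) (XT.lf (nat_lit 76) (nat_lit 9148939356703) (nat_lit 0) (nat_lit 9148939356725) (nat_lit 380) (nat_lit 40026214355445) (nat_lit 216) (nat_lit 5) (nat_lit 215) (nat_lit 3) (nat_lit 220) (nat_lit 5) (nat_lit 369) (nat_lit 368) (nat_lit 163))) (XT.nd (nat_lit 78) (nat_lit 0) (nat_lit 0) (XT.lf (nat_lit 0) (nat_lit 22077243170080) (nat_lit 304) (nat_lit 20289824630535) (nat_lit 380) (nat_lit 20289824630501) (nat_lit 216) (nat_lit 5) (nat_lit 220) (nat_lit 5) (nat_lit 221) (nat_lit 5) (nat_lit 370) (nat_lit 368) (nat_lit 162)) (XT.nd (nat_lit 78) (nat_lit 0) (nat_lit 76) (XT.lf (nat_lit 76) (nat_lit 13713511674181) (nat_lit 0) (nat_lit 13713511674229) (nat_lit 380) (nat_lit 40062061691307) (nat_lit 217) (nat_lit 5) (nat_lit 216)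 (nat_lit 5) (nat_lit 221) (nat_lit 5) (nat_lit 371) (nat_lit 368) (nat_lit 161)) (XT.lf (nat_lit 0) (nat_lit 35486987776884) (nat_lit 304) (nat_lit 18636480589634) (nat_lit 76) (nat_lit 18636480589582) (nat_lit 217) (nat_lit 5) (nat_lit 221) (nat_lit 5) (nat_lit 218) (nat_lit 5) (nat_lit 372) (nat_lit 368) (nat_lit 160))))))) (XT.nd (nat_lit 46644) (nat_lit 0) (nat_lit 304) (XT.nd (nat_lit 390) (nat_lit 456) (nat_lit 0) (XT.nd (nat_lit 156) (nat_lit 380) (nat_lit 0) (XT.nd (nat_lit 78) (nat_lit 0) (nat_lit 0) (XT.lf (nat_lit 0) (nat_lit 23184495884257) (nat_lit 304) (nat_lit 23184495884317) (nat_lit 380) (nat_lit 32210493956524) (nat_lit 213) (nat_lit 5) (nat_lit 217) (nat_lit 5) (nat_lit 218) (nat_lit 5) (nat_lit 373) (nat_lit 368) (nat_lit 159)) (XT.lf (nat_lit 0) (nat_lit 60417129404565) (nat_lit 380) (nat_lit 12312374324054) (nat_lit 76) (nat_lit 12312374323995) (nat_lit 213) (nat_lit 5) (nat_lit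 218) (nat_lit 5) (nat_lit 214) (nat_lit 5) (nat_lit 374) (nat_lit 368) (nat_lit 158))) (XT.nd (nat_lit 78) (nat_lit 228) (nat_lit 0) (XT.lf (nat_lit 0) (nat_lit 39659360420319) (nat_lit 152) (nat_lit 39659360420385) (nat_lit 228) (nat_lit 12742973415340) (nat_lit 211) (nat_lit 5) (nat_lit 213) (nat_lit 5) (nat_lit 214) (nat_lit 5) (nat_lit 375) (nat_lit 368) (nat_lit 157)) (XT.nd (nat_lit 78) (nat_lit 0) (nat_lit 0) (XT.lf (nat_lit 0) (nat_lit 772655672132) (nat_lit 152) (nat_lit 772655672203) (nat_lit 228) (nat_lit 98477514161692) (nat_lit 208) (nat_lit 5) (nat_lit 210) (nat_lit 5) (nat_lit 211) (nat_lit 5) (nat_lit 376) (nat_lit 368) (nat_lit 156)) (XT.lf (nat_lit 0) (nat_lit 21361606499805) (nat_lit 228) (nat_lit 43511043944823) (nat_lit 76) (nat_lit 43511043944757) (nat_lit 208) (nat_lit 5) (nat_lit 211) (nat_lit 5) (nat_lit 209) (nat_lit 5) (nat_lit 377) (nat_lit 368) (nat_lit 155))))) (XT.nd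 (nat_lit 156) (nat_lit 304) (nat_lit 0) (XT.nd (nat_lit 78) (nat_lit 0) (nat_lit 0) (XT.lf (nat_lit 0) (nat_lit 22560664021076) (nat_lit 152) (nat_lit 22560664021145) (nat_lit 228) (nat_lit 72731718245984) (nat_lit 206) (nat_lit 5) (nat_lit 208) (nat_lit 5) (nat_lit 209) (nat_lit 5) (nat_lit 378) (nat_lit 368) (nat_lit 154)) (XT.lf (nat_lit 0) (nat_lit 75908422970570) (nat_lit 228) (nat_lit 26157432864076) (nat_lit 76) (nat_lit 26157432864014) (nat_lit 206) (nat_lit 5) (nat_lit 209) (nat_lit 5) (nat_lit 207) (nat_lit 4) (nat_lit 379) (nat_lit 368) (nat_lit 153))) (XT.nd (nat_lit 78) (nat_lit 228) (nat_lit 0) (XT.lf (nat_lit 0) (nat_lit 57381982500201) (nat_lit 76) (nat_lit 57381982500266) (nat_lit 152) (nat_lit 24867545040873) (nat_lit 205) (nat_lit 5) (nat_lit 206) (nat_lit 5) (nat_lit 207) (nat_lit 4) (nat_lit 380) (nat_lit 368) (nat_lit 152)) (XT.nd (nat_lit 45942) (nat_lit 0) (nat_lit 988)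 (XT.lf (nat_lit 0) (nat_lit 3846182398488) (nat_lit 152) (nat_lit 3846182398555) (nat_lit 228) (nat_lit 144778250340487) (nat_lit 202) (nat_lit 5) (nat_lit 204) (nat_lit 5) (nat_lit 205) (nat_lit 5) (nat_lit 381) (nat_lit 368) (nat_lit 151)) (XT.lf (nat_lit 0) (nat_lit 9584603135614) (nat_lit 380) (nat_lit 10821199966154) (nat_lit 380) (nat_lit 10821199966154) (nat_lit 215) (nat_lit 3) (nat_lit 220) (nat_lit 3) (nat_lit 220) (nat_lit 5) (nat_lit 369) (nat_lit 369) (nat_lit 162)))))) (XT.nd (nat_lit 390) (nat_lit 532) (nat_lit 0) (XT.nd (nat_lit 156) (nat_lit 152) (nat_lit 0) (XT.nd (nat_lit 78) (nat_lit 0) (nat_lit 76) (XT.lf (nat_lit 76) (nat_lit 10521280260231) (nat_lit 0) (nat_lit 10521280260247) (nat_lit 380) (nat_lit 46030146508722) (nat_lit 216) (nat_lit 5) (nat_lit 215) (nat_lit 3) (nat_lit 220) (nat_lit 5) (nat_lit 370) (nat_lit 369) (nat_lit 161)) (XT.lf (nat_lit 0) (nat_lit 25388829645622)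 (nat_lit 304) (nat_lit 23333298325091) (nat_lit 380) (nat_lit 23333298325065) (nat_lit 216) (nat_lit 5) (nat_lit 220) (nat_lit 5) (nat_lit 221) (nat_lit 5) (nat_lit 371) (nat_lit 369) (nat_lit 160))) (XT.nd (nat_lit 78) (nat_lit 228) (nat_lit 0) (XT.lf (nat_lit 76) (nat_lit 15770538425332) (nat_lit 0) (nat_lit 15770538425367) (nat_lit 380) (nat_lit 46071370944972) (nat_lit 217) (nat_lit 5) (nat_lit 216) (nat_lit 5) (nat_lit 221) (nat_lit 5) (nat_lit 372) (nat_lit 369) (nat_lit 159)) (XT.nd (nat_lit 78) (nat_lit 304) (nat_lit 0) (XT.lf (nat_lit 0) (nat_lit 40810035943440) (nat_lit 304) (nat_lit 21431952678055) (nat_lit 76) (nat_lit 21431952678017) (nat_lit 217) (nat_lit 5) (nat_lit 221) (nat_lit 5) (nat_lit 218) (nat_lit 5) (nat_lit 373) (nat_lit 369) (nat_lit 158)) (XT.lf (nat_lit 0) (nat_lit 26662170266918) (nat_lit 304) (nat_lit 26662170266963) (nat_lit 380) (nat_lit 37042068049978) (nat_lit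 213) (nat_lit 5) (nat_lit 217) (nat_lit 5) (nat_lit 218) (nat_lit 5) (nat_lit 374) (nat_lit 369) (nat_lit 157))))) (XT.nd (nat_lit 156) (nat_lit 380) (nat_lit 0) (XT.nd (nat_lit 78) (nat_lit 152) (nat_lit 0) (XT.lf (nat_lit 0) (nat_lit 69479698815268) (nat_lit 380) (nat_lit 14159230472640) (nat_lit 76) (nat_lit 14159230472595) (nat_lit 213) (nat_lit 5) (nat_lit 218) (nat_lit 5) (nat_lit 214) (nat_lit 5) (nat_lit 375) (nat_lit 369) (nat_lit 156)) (XT.lf (nat_lit 0) (nat_lit 45608264483389) (nat_lit 152) (nat_lit 45608264483438) (nat_lit 228) (nat_lit 14654419427621) (nat_lit 211) (nat_lit 5) (nat_lit 213) (nat_lit 5) (nat_lit 214) (nat_lit 5) (nat_lit 376) (nat_lit 369) (nat_lit 155))) (XT.nd (nat_lit 78) (nat_lit 152) (nat_lit 0) (XT.lf (nat_lit 0) (nat_lit 888554022974) (nat_lit 152) (nat_lit 888554023027) (nat_lit 228) (nat_lit 113249141285927) (nat_lit 208) (nat_lit 5) (nat_lit 210) (nat_lit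 5) (nat_lit 211) (nat_lit 5) (nat_lit 377) (nat_lit 369) (nat_lit 154)) (XT.nd (nat_lit 78) (nat_lit 152) (nat_lit 0) (XT.lf (nat_lit 0) (nat_lit 24565847474791) (nat_lit 228) (nat_lit 50037700536525) (nat_lit 76) (nat_lit 50037700536476) (nat_lit 208) (nat_lit 5) (nat_lit 211) (nat_lit 5) (nat_lit 209) (nat_lit 5) (nat_lit 378) (nat_lit 369) (nat_lit 153)) (XT.lf (nat_lit 0) (nat_lit 25944763624259) (nat_lit 152) (nat_lit 25944763624309) (nat_lit 228) (nat_lit 83641475982865) (nat_lit 206) (nat_lit 5) (nat_lit 208) (nat_lit 5) (nat_lit 209) (nat_lit 5) (nat_lit 379) (nat_lit 369) (nat_lit 152))))))))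
noncomputable def xc126 : XT := (XT.nd (nat_lit 93522) (nat_lit 0) (nat_lit 76) (XT.nd (nat_lit 46722) (nat_lit 0) (nat_lit 76) (XT.nd (nat_lit 46332) (nat_lit 0) (nat_lit 456) (XT.nd (nat_lit 46098) (nat_lit 0) (nat_lit 760) (XT.nd (nat_lit 78) (nat_lit 76) (nat_lit 0) (XT.lf (nat_lit 0) (nat_lit 87294686416167) (nat_lit 228) (nat_lit 30081047793669) (nat_lit 76) (nat_lit 30081047793622) (nat_lit 206) (nat_lit 5) (nat_lit 209) (nat_lit 5) (nat_lit 207) (nat_lit 4) (nat_lit 380) (nat_lit 369) (nat_lit 151)) (XT.lf (nat_lit 0) (nat_lit 65989279875251) (nat_lit 76) (nat_lit 65989279875298) (nat_lit 152) (nat_lit 28597676796991) (nat_lit 205) (nat_lit 5) (nat_lit 206) (nat_lit 5) (nat_lit 207) (nat_lit 4) (nat_lit 381) (nat_lit 369) (nat_lit 150))) (XT.nd (nat_lit 78) (nat_lit 0) (nat_lit 0) (XT.lf (nat_lit 0) (nat_lit 11022293605971) (nat_lit 380) (nat_lit 12444379961069) (nat_lit 380) (nat_lit 12444379961069)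 (nat_lit 215) (nat_lit 3) (nat_lit 220) (nat_lit 3) (nat_lit 220) (nat_lit 5) (nat_lit 370) (nat_lit 370) (nat_lit 160)) (XT.nd (nat_lit 78) (nat_lit 0) (nat_lit 76) (XT.lf (nat_lit 76) (nat_lit 12099472299282) (nat_lit 0) (nat_lit 12099472299294) (nat_lit 380) (nat_lit 52934668484999) (nat_lit 216) (nat_lit 5) (nat_lit 215) (nat_lit 3) (nat_lit 220) (nat_lit 5) (nat_lit 371) (nat_lit 370) (nat_lit 159)) (XT.lf (nat_lit 0) (nat_lit 29197154092488) (nat_lit 304) (nat_lit 26833293073837) (nat_lit 380) (nat_lit 26833293073817) (nat_lit 216) (nat_lit 5) (nat_lit 220) (nat_lit 5) (nat_lit 221) (nat_lit 5) (nat_lit 372) (nat_lit 370) (nat_lit 158))))) (XT.nd (nat_lit 156) (nat_lit 380) (nat_lit 0) (XT.nd (nat_lit 78) (nat_lit 0) (nat_lit 76) (XT.lf (nat_lit 76) (nat_lit 18136119189149) (nat_lit 0) (nat_lit 18136119189176) (nat_lit 380) (nat_lit 52982076586694) (nat_lit 217) (nat_lit 5) (nat_lit 216)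 (nat_lit 5) (nat_lit 221) (nat_lit 5) (nat_lit 373) (nat_lit 370) (nat_lit 157)) (XT.lf (nat_lit 0) (nat_lit 46931541334973) (nat_lit 304) (nat_lit 24646745579746) (nat_lit 76) (nat_lit 24646745579716) (nat_lit 217) (nat_lit 5) (nat_lit 221) (nat_lit 5) (nat_lit 218) (nat_lit 5) (nat_lit 374) (nat_lit 370) (nat_lit 156))) (XT.nd (nat_lit 78) (nat_lit 152) (nat_lit 0) (XT.lf (nat_lit 0) (nat_lit 30661495806973) (nat_lit 304) (nat_lit 30661495807007) (nat_lit 380) (nat_lit 42598378257457) (nat_lit 213) (nat_lit 5) (nat_lit 217) (nat_lit 5) (nat_lit 218) (nat_lit 5) (nat_lit 375) (nat_lit 370) (nat_lit 155)) (XT.nd (nat_lit 78) (nat_lit 152) (nat_lit 0) (XT.lf (nat_lit 0) (nat_lit 79901653637572) (nat_lit 380) (nat_lit 16283115043519) (nat_lit 76) (nat_lit 16283115043485) (nat_lit 213) (nat_lit 5) (nat_lit 218) (nat_lit 5) (nat_lit 214) (nat_lit 5) (nat_lit 376) (nat_lit 370) (nat_lit 154)) (XT.lf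 (nat_lit 0) (nat_lit 52449504155913) (nat_lit 152) (nat_lit 52449504155951) (nat_lit 228) (nat_lit 16852582341750) (nat_lit 211) (nat_lit 5) (nat_lit 213) (nat_lit 5) (nat_lit 214) (nat_lit 5) (nat_lit 377) (nat_lit 370) (nat_lit 153)))))) (XT.nd (nat_lit 46410) (nat_lit 0) (nat_lit 532) (XT.nd (nat_lit 156) (nat_lit 152) (nat_lit 0) (XT.nd (nat_lit 78) (nat_lit 0) (nat_lit 0) (XT.lf (nat_lit 0) (nat_lit 1021837126437) (nat_lit 152) (nat_lit 1021837126477) (nat_lit 228) (nat_lit 130236512478802) (nat_lit 208) (nat_lit 5) (nat_lit 210) (nat_lit 5) (nat_lit 211) (nat_lit 5) (nat_lit 378) (nat_lit 370) (nat_lit 152)) (XT.lf (nat_lit 0) (nat_lit 28250724596020) (nat_lit 228) (nat_lit 57543355616988) (nat_lit 76) (nat_lit 57543355616951) (nat_lit 208) (nat_lit 5) (nat_lit 211) (nat_lit 5) (nat_lit 209) (nat_lit 5) (nat_lit 379) (nat_lit 370) (nat_lit 151))) (XT.nd (nat_lit 78) (nat_lit 0) (nat_lit 0)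 (XT.lf (nat_lit 0) (nat_lit 29836478167912) (nat_lit 152) (nat_lit 29836478167951) (nat_lit 228) (nat_lit 96187697380284) (nat_lit 206) (nat_lit 5) (nat_lit 208) (nat_lit 5) (nat_lit 209) (nat_lit 5) (nat_lit 380) (nat_lit 370) (nat_lit 150)) (XT.nd (nat_lit 46098) (nat_lit 0) (nat_lit 684) (XT.lf (nat_lit 0) (nat_lit 100388889378602) (nat_lit 228) (nat_lit 34593204962705) (nat_lit 76) (nat_lit 34593204962669) (nat_lit 206) (nat_lit 5) (nat_lit 209) (nat_lit 5) (nat_lit 207) (nat_lit 4) (nat_lit 381) (nat_lit 370) (nat_lit 149)) (XT.lf (nat_lit 0) (nat_lit 12675637646878) (nat_lit 380) (nat_lit 14311036955223) (nat_lit 380) (nat_lit 14311036955223) (nat_lit 215) (nat_lit 3) (nat_lit 220) (nat_lit 3) (nat_lit 220) (nat_lit 5) (nat_lit 371) (nat_lit 371) (nat_lit 158))))) (XT.nd (nat_lit 156) (nat_lit 152) (nat_lit 0) (XT.nd (nat_lit 78) (nat_lit 0) (nat_lit 76) (XT.lf (nat_lit 76) (nat_lit 13914393144187)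 (nat_lit 0) (nat_lit 13914393144196) (nat_lit 380) (nat_lit 60874868757726) (nat_lit 216) (nat_lit 5) (nat_lit 215) (nat_lit 3) (nat_lit 220) (nat_lit 5) (nat_lit 372) (nat_lit 371) (nat_lit 157)) (XT.lf (nat_lit 0) (nat_lit 33576727206379) (nat_lit 304) (nat_lit 30858287034898) (nat_lit 380) (nat_lit 30858287034884) (nat_lit 216) (nat_lit 5) (nat_lit 220) (nat_lit 5) (nat_lit 221) (nat_lit 5) (nat_lit 373) (nat_lit 371) (nat_lit 156))) (XT.nd (nat_lit 78) (nat_lit 228) (nat_lit 0) (XT.lf (nat_lit 76) (nat_lit 20856537067534) (nat_lit 0) (nat_lit 20856537067555) (nat_lit 380) (nat_lit 60929388074680) (nat_lit 217) (nat_lit 5) (nat_lit 216) (nat_lit 5) (nat_lit 221) (nat_lit 5) (nat_lit 374) (nat_lit 371) (nat_lit 155)) (XT.nd (nat_lit 78) (nat_lit 304) (nat_lit 0) (XT.lf (nat_lit 0) (nat_lit 53971272535233) (nat_lit 304) (nat_lit 28343757416694) (nat_lit 76) (nat_lit 28343757416672) (nat_lit 217)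 (nat_lit 5) (nat_lit 221) (nat_lit 5) (nat_lit 218) (nat_lit 5) (nat_lit 375) (nat_lit 371) (nat_lit 154)) (XT.lf (nat_lit 0) (nat_lit 35260720178032) (nat_lit 304) (nat_lit 35260720178057) (nat_lit 380) (nat_lit 48988134996061) (nat_lit 213) (nat_lit 5) (nat_lit 217) (nat_lit 5) (nat_lit 218) (nat_lit 5) (nat_lit 376) (nat_lit 371) (nat_lit 153))))))) (XT.nd (nat_lit 46878) (nat_lit 0) (nat_lit 152) (XT.nd (nat_lit 46488) (nat_lit 0) (nat_lit 684) (XT.nd (nat_lit 156) (nat_lit 380) (nat_lit 0) (XT.nd (nat_lit 78) (nat_lit 152) (nat_lit 0) (XT.lf (nat_lit 0) (nat_lit 91886901683219) (nat_lit 380) (nat_lit 18725582300034) (nat_lit 76) (nat_lit 18725582300009) (nat_lit 213) (nat_lit 5) (nat_lit 218) (nat_lit 5) (nat_lit 214) (nat_lit 5) (nat_lit 377) (nat_lit 371) (nat_lit 152)) (XT.lf (nat_lit 0) (nat_lit 60316929779313) (nat_lit 152) (nat_lit 60316929779340) (nat_lit 228) (nat_lit 19380469693001)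 (nat_lit 211) (nat_lit 5) (nat_lit 213) (nat_lit 5) (nat_lit 214) (nat_lit 5) (nat_lit 378) (nat_lit 371) (nat_lit 151))) (XT.nd (nat_lit 78) (nat_lit 152) (nat_lit 0) (XT.lf (nat_lit 0) (nat_lit 1175112695417) (nat_lit 152) (nat_lit 1175112695445) (nat_lit 228) (nat_lit 149771989350611) (nat_lit 208) (nat_lit 5) (nat_lit 210) (nat_lit 5) (nat_lit 211) (nat_lit 5) (nat_lit 379) (nat_lit 371) (nat_lit 150)) (XT.nd (nat_lit 78) (nat_lit 152) (nat_lit 0) (XT.lf (nat_lit 0) (nat_lit 32488333285432) (nat_lit 228) (nat_lit 66174858959524) (nat_lit 76) (nat_lit 66174858959496) (nat_lit 208) (nat_lit 5) (nat_lit 211) (nat_lit 5) (nat_lit 209) (nat_lit 5) (nat_lit 380) (nat_lit 371) (nat_lit 149)) (XT.lf (nat_lit 0) (nat_lit 34311949893112) (nat_lit 152) (nat_lit 34311949893139) (nat_lit 228) (nat_lit 110615851987317) (nat_lit 206) (nat_lit 5) (nat_lit 208) (nat_lit 5) (nat_lit 209) (nat_lit 5) (nat_lit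 381) (nat_lit 371) (nat_lit 148))))) (XT.nd (nat_lit 156) (nat_lit 0) (nat_lit 76) (XT.nd (nat_lit 78) (nat_lit 0) (nat_lit 0) (XT.lf (nat_lit 0) (nat_lit 14576983293919) (nat_lit 380) (nat_lit 16457692498501) (nat_lit 380) (nat_lit 16457692498501) (nat_lit 215) (nat_lit 3) (nat_lit 220) (nat_lit 3) (nat_lit 220) (nat_lit 5) (nat_lit 372) (nat_lit 372) (nat_lit 156)) (XT.lf (nat_lit 76) (nat_lit 16001552115825) (nat_lit 0) (nat_lit 16001552115831) (nat_lit 380) (nat_lit 70006099071368) (nat_lit 216) (nat_lit 5) (nat_lit 215) (nat_lit 3) (nat_lit 220) (nat_lit 5) (nat_lit 373) (nat_lit 372) (nat_lit 155))) (XT.nd (nat_lit 78) (nat_lit 0) (nat_lit 0) (XT.lf (nat_lit 0) (nat_lit 38613236287349) (nat_lit 304) (nat_lit 35487030090123) (nat_lit 380) (nat_lit 35487030090112) (nat_lit 216) (nat_lit 5) (nat_lit 220) (nat_lit 5) (nat_lit 221) (nat_lit 5) (nat_lit 374) (nat_lit 372) (nat_lit 154)) (XT.nd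 (nat_lit 78) (nat_lit 0) (nat_lit 76) (XT.lf (nat_lit 76) (nat_lit 23985017627675) (nat_lit 0) (nat_lit 23985017627690) (nat_lit 380) (nat_lit 70068796285869) (nat_lit 217) (nat_lit 5) (nat_lit 216) (nat_lit 5) (nat_lit 221) (nat_lit 5) (nat_lit 375) (nat_lit 372) (nat_lit 153)) (XT.lf (nat_lit 0) (nat_lit 62066963415528) (nat_lit 304) (nat_lit 32595321029188) (nat_lit 76) (nat_lit 32595321029172) (nat_lit 217) (nat_lit 5) (nat_lit 221) (nat_lit 5) (nat_lit 218) (nat_lit 5) (nat_lit 376) (nat_lit 372) (nat_lit 152)))))) (XT.nd (nat_lit 46566) (nat_lit 0) (nat_lit 532) (XT.nd (nat_lit 156) (nat_lit 380) (nat_lit 0) (XT.nd (nat_lit 78) (nat_lit 0) (nat_lit 0) (XT.lf (nat_lit 0) (nat_lit 40549828204746) (nat_lit 304) (nat_lit 40549828204766) (nat_lit 380) (nat_lit 56336355245460) (nat_lit 213) (nat_lit 5) (nat_lit 217) (nat_lit 5) (nat_lit 218) (nat_lit 5) (nat_lit 377) (nat_lit 372) (nat_lit 151))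 (XT.lf (nat_lit 0) (nat_lit 105669936935710) (nat_lit 380) (nat_lit 21534419645030) (nat_lit 76) (nat_lit 21534419645011) (nat_lit 213) (nat_lit 5) (nat_lit 218) (nat_lit 5) (nat_lit 214) (nat_lit 5) (nat_lit 378) (nat_lit 372) (nat_lit 150))) (XT.nd (nat_lit 78) (nat_lit 228) (nat_lit 0) (XT.lf (nat_lit 0) (nat_lit 69364469246220) (nat_lit 152) (nat_lit 69364469246240) (nat_lit 228) (nat_lit 22287540146943) (nat_lit 211) (nat_lit 5) (nat_lit 213) (nat_lit 5) (nat_lit 214) (nat_lit 5) (nat_lit 379) (nat_lit 372) (nat_lit 149)) (XT.nd (nat_lit 78) (nat_lit 0) (nat_lit 0) (XT.lf (nat_lit 0) (nat_lit 1351379599738) (nat_lit 152) (nat_lit 1351379599760) (nat_lit 228) (nat_lit 172237787753195) (nat_lit 208) (nat_lit 5) (nat_lit 210) (nat_lit 5) (nat_lit 211) (nat_lit 5) (nat_lit 380) (nat_lit 372) (nat_lit 148)) (XT.lf (nat_lit 0) (nat_lit 37361583278253) (nat_lit 228) (nat_lit 76101087803443) (nat_lit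 76) (nat_lit 76101087803423) (nat_lit 208) (nat_lit 5) (nat_lit 211) (nat_lit 5) (nat_lit 209) (nat_lit 5) (nat_lit 381) (nat_lit 372) (nat_lit 147))))) (XT.nd (nat_lit 156) (nat_lit 0) (nat_lit 76) (XT.nd (nat_lit 78) (nat_lit 0) (nat_lit 0) (XT.lf (nat_lit 0) (nat_lit 16763530788013) (nat_lit 380) (nat_lit 18926346373273) (nat_lit 380) (nat_lit 18926346373273) (nat_lit 215) (nat_lit 3) (nat_lit 220) (nat_lit 3) (nat_lit 220) (nat_lit 5) (nat_lit 373) (nat_lit 373) (nat_lit 154)) (XT.lf (nat_lit 76) (nat_lit 18401784933205) (nat_lit 0) (nat_lit 18401784933211) (nat_lit 380) (nat_lit 80507013932060) (nat_lit 216) (nat_lit 5) (nat_lit 215) (nat_lit 3) (nat_lit 220) (nat_lit 5) (nat_lit 374) (nat_lit 373) (nat_lit 153))) (XT.nd (nat_lit 78) (nat_lit 0) (nat_lit 0) (XT.lf (nat_lit 0) (nat_lit 44405221730461) (nat_lit 304) (nat_lit 40810084603634) (nat_lit 380) (nat_lit 40810084603625) (nat_lit 216)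 (nat_lit 5) (nat_lit 220) (nat_lit 5) (nat_lit 221) (nat_lit 5) (nat_lit 375) (nat_lit 373) (nat_lit 152)) (XT.nd (nat_lit 78) (nat_lit 0) (nat_lit 76) (XT.lf (nat_lit 76) (nat_lit 27582770271833) (nat_lit 0) (nat_lit 27582770271845) (nat_lit 380) (nat_lit 80579115728739) (nat_lit 217) (nat_lit 5) (nat_lit 216) (nat_lit 5) (nat_lit 221) (nat_lit 5) (nat_lit 376) (nat_lit 373) (nat_lit 151)) (XT.lf (nat_lit 0) (nat_lit 71377007927865) (nat_lit 304) (nat_lit 37484619183559) (nat_lit 76) (nat_lit 37484619183545) (nat_lit 217) (nat_lit 5) (nat_lit 221) (nat_lit 5) (nat_lit 218) (nat_lit 5) (nat_lit 377) (nat_lit 373) (nat_lit 150))))))))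
noncomputable def xc127 : XT := (XT.nd (nat_lit 140556) (nat_lit 0) (nat_lit 380) (XT.nd (nat_lit 47034) (nat_lit 0) (nat_lit 228) (XT.nd (nat_lit 46644) (nat_lit 0) (nat_lit 380) (XT.nd (nat_lit 156) (nat_lit 380) (nat_lit 0) (XT.nd (nat_lit 78) (nat_lit 0) (nat_lit 0) (XT.lf (nat_lit 0) (nat_lit 46632302435465) (nat_lit 304) (nat_lit 46632302435480) (nat_lit 380) (nat_lit 64786808532271) (nat_lit 213) (nat_lit 5) (nat_lit 217) (nat_lit 5) (nat_lit 218) (nat_lit 5) (nat_lit 378) (nat_lit 373) (nat_lit 149)) (XT.lf (nat_lit 0) (nat_lit 121520427476072) (nat_lit 380) (nat_lit 24764582591777) (nat_lit 76) (nat_lit 24764582591763) (nat_lit 213) (nat_lit 5) (nat_lit 218) (nat_lit 5) (nat_lit 214) (nat_lit 5) (nat_lit 379) (nat_lit 373) (nat_lit 148))) (XT.nd (nat_lit 78) (nat_lit 228) (nat_lit 0) (XT.lf (nat_lit 0) (nat_lit 79769139633158) (nat_lit 152) (nat_lit 79769139633175) (nat_lit 228) (nat_lit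 25630671168978) (nat_lit 211) (nat_lit 5) (nat_lit 213) (nat_lit 5) (nat_lit 214) (nat_lit 5) (nat_lit 380) (nat_lit 373) (nat_lit 147)) (XT.nd (nat_lit 46332) (nat_lit 0) (nat_lit 532) (XT.lf (nat_lit 0) (nat_lit 1554086539705) (nat_lit 152) (nat_lit 1554086539723) (nat_lit 228) (nat_lit 198073455916168) (nat_lit 208) (nat_lit 5) (nat_lit 210) (nat_lit 5) (nat_lit 211) (nat_lit 5) (nat_lit 381) (nat_lit 373) (nat_lit 146)) (XT.lf (nat_lit 0) (nat_lit 19278060406220) (nat_lit 380) (nat_lit 21765298329261) (nat_lit 380) (nat_lit 21765298329261) (nat_lit 215) (nat_lit 3) (nat_lit 220) (nat_lit 3) (nat_lit 220) (nat_lit 5) (nat_lit 374) (nat_lit 374) (nat_lit 152))))) (XT.nd (nat_lit 156) (nat_lit 152) (nat_lit 0) (XT.nd (nat_lit 78) (nat_lit 0) (nat_lit 76) (XT.lf (nat_lit 76) (nat_lit 21162052673192) (nat_lit 0) (nat_lit 21162052673195) (nat_lit 380) (nat_lit 92583066021859) (nat_lit 216) (nat_lit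 5) (nat_lit 215) (nat_lit 3) (nat_lit 220) (nat_lit 5) (nat_lit 375) (nat_lit 374) (nat_lit 151)) (XT.lf (nat_lit 0) (nat_lit 51066004990038) (nat_lit 304) (nat_lit 46931597294172) (nat_lit 380) (nat_lit 46931597294167) (nat_lit 216) (nat_lit 5) (nat_lit 220) (nat_lit 5) (nat_lit 221) (nat_lit 5) (nat_lit 376) (nat_lit 374) (nat_lit 150))) (XT.nd (nat_lit 78) (nat_lit 228) (nat_lit 0) (XT.lf (nat_lit 76) (nat_lit 31720185812614) (nat_lit 0) (nat_lit 31720185812623) (nat_lit 380) (nat_lit 92665983088042) (nat_lit 217) (nat_lit 5) (nat_lit 216) (nat_lit 5) (nat_lit 221) (nat_lit 5) (nat_lit 377) (nat_lit 374) (nat_lit 149)) (XT.nd (nat_lit 78) (nat_lit 304) (nat_lit 0) (XT.lf (nat_lit 0) (nat_lit 82083559117051) (nat_lit 304) (nat_lit 43107312061086) (nat_lit 76) (nat_lit 43107312061078) (nat_lit 217) (nat_lit 5) (nat_lit 221) (nat_lit 5) (nat_lit 218) (nat_lit 5) (nat_lit 378) (nat_lit 374) (nat_lit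 148)) (XT.lf (nat_lit 0) (nat_lit 53627147800792) (nat_lit 304) (nat_lit 53627147800801) (nat_lit 380) (nat_lit 74504829812105) (nat_lit 213) (nat_lit 5) (nat_lit 217) (nat_lit 5) (nat_lit 218) (nat_lit 5) (nat_lit 379) (nat_lit 374) (nat_lit 147)))))) (XT.nd (nat_lit 46722) (nat_lit 0) (nat_lit 152) (XT.nd (nat_lit 46488) (nat_lit 0) (nat_lit 304) (XT.nd (nat_lit 78) (nat_lit 152) (nat_lit 0) (XT.lf (nat_lit 0) (nat_lit 139748491597488) (nat_lit 380) (nat_lit 28479269980538) (nat_lit 76) (nat_lit 28479269980527) (nat_lit 213) (nat_lit 5) (nat_lit 218) (nat_lit 5) (nat_lit 214) (nat_lit 5) (nat_lit 380) (nat_lit 374) (nat_lit 146)) (XT.lf (nat_lit 0) (nat_lit 91734510578139) (nat_lit 152) (nat_lit 91734510578149) (nat_lit 228) (nat_lit 29475271844320) (nat_lit 211) (nat_lit 5) (nat_lit 213) (nat_lit 5) (nat_lit 214) (nat_lit 5) (nat_lit 381) (nat_lit 374) (nat_lit 145))) (XT.nd (nat_lit 78) (nat_lit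 0) (nat_lit 0) (XT.lf (nat_lit 0) (nat_lit 22169769467157) (nat_lit 380) (nat_lit 25030093078648) (nat_lit 380) (nat_lit 25030093078648) (nat_lit 215) (nat_lit 3) (nat_lit 220) (nat_lit 3) (nat_lit 220) (nat_lit 5) (nat_lit 375) (nat_lit 375) (nat_lit 150)) (XT.nd (nat_lit 78) (nat_lit 0) (nat_lit 76) (XT.lf (nat_lit 76) (nat_lit 24336360574175) (nat_lit 0) (nat_lit 24336360574177) (nat_lit 380) (nat_lit 106470525925130) (nat_lit 216) (nat_lit 5) (nat_lit 215) (nat_lit 3) (nat_lit 220) (nat_lit 5) (nat_lit 376) (nat_lit 375) (nat_lit 149)) (XT.lf (nat_lit 0) (nat_lit 58725905738549) (nat_lit 304) (nat_lit 53971336888295) (nat_lit 380) (nat_lit 53971336888289) (nat_lit 216) (nat_lit 5) (nat_lit 220) (nat_lit 5) (nat_lit 221) (nat_lit 5) (nat_lit 377) (nat_lit 375) (nat_lit 148))))) (XT.nd (nat_lit 156) (nat_lit 228) (nat_lit 0) (XT.nd (nat_lit 78) (nat_lit 0) (nat_lit 76) (XT.lf (nat_lit 76) (nat_lit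 36478213684510) (nat_lit 0) (nat_lit 36478213684517) (nat_lit 380) (nat_lit 106565880551242) (nat_lit 217) (nat_lit 5) (nat_lit 216) (nat_lit 5) (nat_lit 221) (nat_lit 5) (nat_lit 378) (nat_lit 375) (nat_lit 147)) (XT.lf (nat_lit 0) (nat_lit 94396092984613) (nat_lit 304) (nat_lit 49573408870245) (nat_lit 76) (nat_lit 49573408870239) (nat_lit 217) (nat_lit 5) (nat_lit 221) (nat_lit 5) (nat_lit 218) (nat_lit 5) (nat_lit 379) (nat_lit 375) (nat_lit 146))) (XT.nd (nat_lit 78) (nat_lit 0) (nat_lit 0) (XT.lf (nat_lit 0) (nat_lit 61671219970913) (nat_lit 304) (nat_lit 61671219970922) (nat_lit 380) (nat_lit 85680554283917) (nat_lit 213) (nat_lit 5) (nat_lit 217) (nat_lit 5) (nat_lit 218) (nat_lit 5) (nat_lit 380) (nat_lit 375) (nat_lit 145)) (XT.nd (nat_lit 46488) (nat_lit 0) (nat_lit 152) (XT.lf (nat_lit 0) (nat_lit 160710765337115) (nat_lit 380) (nat_lit 32751160477615) (nat_lit 76) (nat_lit 32751160477606)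 (nat_lit 213) (nat_lit 5) (nat_lit 218) (nat_lit 5) (nat_lit 214) (nat_lit 5) (nat_lit 381) (nat_lit 375) (nat_lit 144)) (XT.lf (nat_lit 0) (nat_lit 25495234887233) (nat_lit 380) (nat_lit 28784607040444) (nat_lit 380) (nat_lit 28784607040444) (nat_lit 215) (nat_lit 3) (nat_lit 220) (nat_lit 3) (nat_lit 220) (nat_lit 5) (nat_lit 376) (nat_lit 376) (nat_lit 148))))))) (XT.nd (nat_lit 93834) (nat_lit 0) (nat_lit 152) (XT.nd (nat_lit 46878) (nat_lit 0) (nat_lit 152) (XT.nd (nat_lit 156) (nat_lit 152) (nat_lit 0) (XT.nd (nat_lit 78) (nat_lit 0) (nat_lit 76) (XT.lf (nat_lit 76) (nat_lit 27986814660303) (nat_lit 0) (nat_lit 27986814660307) (nat_lit 380) (nat_lit 122441104813894) (nat_lit 216) (nat_lit 5) (nat_lit 215) (nat_lit 3) (nat_lit 220) (nat_lit 5) (nat_lit 377) (nat_lit 376) (nat_lit 147)) (XT.lf (nat_lit 0) (nat_lit 67534791599336) (nat_lit 304) (nat_lit 62067037421536) (nat_lit 380) (nat_lit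 62067037421531) (nat_lit 216) (nat_lit 5) (nat_lit 220) (nat_lit 5) (nat_lit 221) (nat_lit 5) (nat_lit 378) (nat_lit 376) (nat_lit 146))) (XT.nd (nat_lit 78) (nat_lit 228) (nat_lit 0) (XT.lf (nat_lit 76) (nat_lit 41949945737190) (nat_lit 0) (nat_lit 41949945737195) (nat_lit 380) (nat_lit 122550762633925) (nat_lit 217) (nat_lit 5) (nat_lit 216) (nat_lit 5) (nat_lit 221) (nat_lit 5) (nat_lit 379) (nat_lit 376) (nat_lit 145)) (XT.nd (nat_lit 78) (nat_lit 304) (nat_lit 0) (XT.lf (nat_lit 0) (nat_lit 108555506932308) (nat_lit 304) (nat_lit 57009420200780) (nat_lit 76) (nat_lit 57009420200773) (nat_lit 217) (nat_lit 5) (nat_lit 221) (nat_lit 5) (nat_lit 218) (nat_lit 5) (nat_lit 380) (nat_lit 376) (nat_lit 144)) (XT.lf (nat_lit 0) (nat_lit 70921902966553) (nat_lit 304) (nat_lit 70921902966561) (nat_lit 380) (nat_lit 98532637426501) (nat_lit 213) (nat_lit 5) (nat_lit 217) (nat_lit 5) (nat_lit 218) (nat_lit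 5) (nat_lit 381) (nat_lit 376) (nat_lit 143))))) (XT.nd (nat_lit 156) (nat_lit 0) (nat_lit 76) (XT.nd (nat_lit 78) (nat_lit 0) (nat_lit 0) (XT.lf (nat_lit 0) (nat_lit 29319520120320) (nat_lit 380) (nat_lit 33102298096509) (nat_lit 380) (nat_lit 33102298096509) (nat_lit 215) (nat_lit 3) (nat_lit 220) (nat_lit 3) (nat_lit 220) (nat_lit 5) (nat_lit 377) (nat_lit 377) (nat_lit 146)) (XT.lf (nat_lit 76) (nat_lit 32184836859352) (nat_lit 0) (nat_lit 32184836859353) (nat_lit 380) (nat_lit 140807270535974) (nat_lit 216) (nat_lit 5) (nat_lit 215) (nat_lit 3) (nat_lit 220) (nat_lit 5) (nat_lit 378) (nat_lit 377) (nat_lit 145))) (XT.nd (nat_lit 78) (nat_lit 0) (nat_lit 0) (XT.lf (nat_lit 0) (nat_lit 77665010339240) (nat_lit 304) (nat_lit 71377093034762) (nat_lit 380) (nat_lit 71377093034761) (nat_lit 216) (nat_lit 5) (nat_lit 220) (nat_lit 5) (nat_lit 221) (nat_lit 5) (nat_lit 379) (nat_lit 377) (nat_lit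 144)) (XT.nd (nat_lit 78) (nat_lit 0) (nat_lit 76) (XT.lf (nat_lit 76) (nat_lit 48242437597771) (nat_lit 0) (nat_lit 48242437597775) (nat_lit 380) (nat_lit 140933377029010) (nat_lit 217) (nat_lit 5) (nat_lit 216) (nat_lit 5) (nat_lit 221) (nat_lit 5) (nat_lit 380) (nat_lit 377) (nat_lit 143)) (XT.lf (nat_lit 0) (nat_lit 124838832972157) (nat_lit 304) (nat_lit 65560833230893) (nat_lit 76) (nat_lit 65560833230890) (nat_lit 217) (nat_lit 5) (nat_lit 221) (nat_lit 5) (nat_lit 218) (nat_lit 5) (nat_lit 381) (nat_lit 377) (nat_lit 142)))))) (XT.nd (nat_lit 47034) (nat_lit 0) (nat_lit 0) (XT.nd (nat_lit 156) (nat_lit 0) (nat_lit 0) (XT.nd (nat_lit 78) (nat_lit 0) (nat_lit 0) (XT.lf (nat_lit 0) (nat_lit 33717448138370) (nat_lit 380) (nat_lit 38067642810985) (nat_lit 380) (nat_lit 38067642810985) (nat_lit 215) (nat_lit 3) (nat_lit 220) (nat_lit 3) (nat_lit 220) (nat_lit 5) (nat_lit 378) (nat_lit 378) (nat_lit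 144)) (XT.lf (nat_lit 76) (nat_lit 37012562388257) (nat_lit 0) (nat_lit 37012562388257) (nat_lit 380) (nat_lit 161928361116367) (nat_lit 216) (nat_lit 5) (nat_lit 215) (nat_lit 3) (nat_lit 220) (nat_lit 5) (nat_lit 379) (nat_lit 378) (nat_lit 143))) (XT.nd (nat_lit 78) (nat_lit 76) (nat_lit 0) (XT.lf (nat_lit 0) (nat_lit 89314761890128) (nat_lit 304) (nat_lit 82083656989976) (nat_lit 380) (nat_lit 82083656989973) (nat_lit 216) (nat_lit 5) (nat_lit 220) (nat_lit 5) (nat_lit 221) (nat_lit 5) (nat_lit 380) (nat_lit 378) (nat_lit 142)) (XT.nd (nat_lit 46722) (nat_lit 76) (nat_lit 0) (XT.lf (nat_lit 76) (nat_lit 55478803237439) (nat_lit 0) (nat_lit 55478803237442) (nat_lit 380) (nat_lit 162073383583359) (nat_lit 217) (nat_lit 5) (nat_lit 216) (nat_lit 5) (nat_lit 221) (nat_lit 5) (nat_lit 381) (nat_lit 378) (nat_lit 141)) (XT.lf (nat_lit 0) (nat_lit 38775065359127) (nat_lit 380) (nat_lit 43777789232632)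 (nat_lit 380) (nat_lit 43777789232632) (nat_lit 215) (nat_lit 3) (nat_lit 220) (nat_lit 3) (nat_lit 220) (nat_lit 5) (nat_lit 379) (nat_lit 379) (nat_lit 142))))) (XT.nd (nat_lit 46878) (nat_lit 0) (nat_lit 0) (XT.nd (nat_lit 78) (nat_lit 0) (nat_lit 76) (XT.lf (nat_lit 76) (nat_lit 42564446746495) (nat_lit 0) (nat_lit 42564446746498) (nat_lit 380) (nat_lit 186217615283819) (nat_lit 216) (nat_lit 5) (nat_lit 215) (nat_lit 3) (nat_lit 220) (nat_lit 5) (nat_lit 380) (nat_lit 379) (nat_lit 141)) (XT.lf (nat_lit 0) (nat_lit 102711976173649) (nat_lit 304) (nat_lit 94396205538471) (nat_lit 380) (nat_lit 94396205538468) (nat_lit 216) (nat_lit 5) (nat_lit 220) (nat_lit 5) (nat_lit 221) (nat_lit 5) (nat_lit 381) (nat_lit 379) (nat_lit 140))) (XT.nd (nat_lit 78) (nat_lit 0) (nat_lit 0) (XT.lf (nat_lit 0) (nat_lit 44591325162997) (nat_lit 380) (nat_lit 50344457617526) (nat_lit 380) (nat_lit 50344457617526)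 (nat_lit 215) (nat_lit 3) (nat_lit 220) (nat_lit 3) (nat_lit 220) (nat_lit 5) (nat_lit 380) (nat_lit 380) (nat_lit 140)) (XT.nd (nat_lit 46878) (nat_lit 0) (nat_lit 0) (XT.lf (nat_lit 76) (nat_lit 48949113758472) (nat_lit 0) (nat_lit 48949113758472) (nat_lit 380) (nat_lit 214150257576390) (nat_lit 216) (nat_lit 5) (nat_lit 215) (nat_lit 3) (nat_lit 220) (nat_lit 5) (nat_lit 381) (nat_lit 380) (nat_lit 139)) (XT.lf (nat_lit 0) (nat_lit 51280023937447) (nat_lit 380) (nat_lit 57896126260155) (nat_lit 380) (nat_lit 57896126260155) (nat_lit 215) (nat_lit 3) (nat_lit 220) (nat_lit 3) (nat_lit 220) (nat_lit 5) (nat_lit 381) (nat_lit 381) (nat_lit 138))))))))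
noncomputable def ec0 : XT := (XT.nd (nat_lit 140712) (nat_lit 532) (nat_lit 0) (XT.nd (nat_lit 93678) (nat_lit 152) (nat_lit 0) (XT.nd (nat_lit 46878) (nat_lit 0) (nat_lit 0) (XT.nd (nat_lit 156) (nat_lit 0) (nat_lit 0) (XT.nd (nat_lit 78) (nat_lit 0) (nat_lit 0) (XT.lf (nat_lit 380) (nat_lit 14014735) (nat_lit 0) (nat_lit 12413196) (nat_lit 380) (nat_lit 14014735) (nat_lit 220) (nat_lit 1) (nat_lit 215) (nat_lit 0) (nat_lit 220) (nat_lit 0) (nat_lit 356) (nat_lit 272) (nat_lit 272)) (XT.lf (nat_lit 380) (nat_lit 51838688) (nat_lit 76) (nat_lit 11848960) (nat_lit 0) (nat_lit 11848960) (nat_lit 220) (nat_lit 1) (nat_lit 216) (nat_lit 1) (nat_lit 215) (nat_lit 0) (nat_lit 357) (nat_lit 272) (nat_lit 271))) (XT.nd (nat_lit 46566) (nat_lit 76) (nat_lit 0) (XT.lf (nat_lit 380) (nat_lit 22850196) (nat_lit 0) (nat_lit 24863169) (nat_lit 304) (nat_lit 22850196) (nat_lit 221) (nat_lit 1) (nat_lit 216)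 (nat_lit 1) (nat_lit 220) (nat_lit 1) (nat_lit 358) (nat_lit 272) (nat_lit 270)) (XT.nd (nat_lit 78) (nat_lit 0) (nat_lit 0) (XT.lf (nat_lit 380) (nat_lit 16116945) (nat_lit 0) (nat_lit 14275175) (nat_lit 380) (nat_lit 16116945) (nat_lit 220) (nat_lit 1) (nat_lit 215) (nat_lit 0) (nat_lit 220) (nat_lit 0) (nat_lit 354) (nat_lit 273) (nat_lit 273)) (XT.lf (nat_lit 380) (nat_lit 59614491) (nat_lit 76) (nat_lit 13626304) (nat_lit 0) (nat_lit 13626304) (nat_lit 220) (nat_lit 1) (nat_lit 216) (nat_lit 1) (nat_lit 215) (nat_lit 0) (nat_lit 355) (nat_lit 273) (nat_lit 272))))) (XT.nd (nat_lit 46566) (nat_lit 76) (nat_lit 0) (XT.nd (nat_lit 78) (nat_lit 0) (nat_lit 0) (XT.lf (nat_lit 380) (nat_lit 26277725) (nat_lit 0) (nat_lit 28592644) (nat_lit 304) (nat_lit 26277725) (nat_lit 221) (nat_lit 1) (nat_lit 216) (nat_lit 1) (nat_lit 220) (nat_lit 1) (nat_lit 356) (nat_lit 273) (nat_lit 271)) (XT.nd (nat_lit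 78) (nat_lit 0) (nat_lit 76) (XT.lf (nat_lit 380) (nat_lit 45117491) (nat_lit 76) (nat_lit 15444018) (nat_lit 0) (nat_lit 15444018) (nat_lit 221) (nat_lit 1) (nat_lit 217) (nat_lit 1) (nat_lit 216) (nat_lit 1) (nat_lit 357) (nat_lit 273) (nat_lit 270)) (XT.lf (nat_lit 76) (nat_lit 18250623) (nat_lit 0) (nat_lit 34752251) (nat_lit 304) (nat_lit 18250623) (nat_lit 218) (nat_lit 1) (nat_lit 217) (nat_lit 1) (nat_lit 221) (nat_lit 1) (nat_lit 358) (nat_lit 273) (nat_lit 269)))) (XT.nd (nat_lit 78) (nat_lit 0) (nat_lit 0) (XT.lf (nat_lit 380) (nat_lit 18534487) (nat_lit 0) (nat_lit 16416452) (nat_lit 380) (nat_lit 18534487) (nat_lit 220) (nat_lit 1) (nat_lit 215) (nat_lit 0) (nat_lit 220) (nat_lit 0) (nat_lit 352) (nat_lit 274) (nat_lit 274)) (XT.nd (nat_lit 78) (nat_lit 0) (nat_lit 76) (XT.lf (nat_lit 380) (nat_lit 68556665) (nat_lit 76) (nat_lit 15670249) (nat_lit 0) (nat_lit 15670249) (nat_lit 220)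 (nat_lit 1) (nat_lit 216) (nat_lit 1) (nat_lit 215) (nat_lit 0) (nat_lit 353) (nat_lit 274) (nat_lit 273)) (XT.lf (nat_lit 380) (nat_lit 30219384) (nat_lit 0) (nat_lit 32881541) (nat_lit 304) (nat_lit 30219384) (nat_lit 221) (nat_lit 1) (nat_lit 216) (nat_lit 1) (nat_lit 220) (nat_lit 1) (nat_lit 354) (nat_lit 274) (nat_lit 272)))))) (XT.nd (nat_lit 46566) (nat_lit 0) (nat_lit 0) (XT.nd (nat_lit 156) (nat_lit 228) (nat_lit 0) (XT.nd (nat_lit 78) (nat_lit 0) (nat_lit 76) (XT.lf (nat_lit 380) (nat_lit 51885114) (nat_lit 76) (nat_lit 17760621) (nat_lit 0) (nat_lit 17760621) (nat_lit 221) (nat_lit 1) (nat_lit 217) (nat_lit 1) (nat_lit 216) (nat_lit 1) (nat_lit 355) (nat_lit 274) (nat_lit 271)) (XT.lf (nat_lit 76) (nat_lit 20988217) (nat_lit 0) (nat_lit 39965088) (nat_lit 304) (nat_lit 20988217) (nat_lit 218) (nat_lit 1) (nat_lit 217) (nat_lit 1) (nat_lit 221) (nat_lit 1) (nat_lit 356) (nat_lit 274)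 (nat_lit 270))) (XT.nd (nat_lit 78) (nat_lit 0) (nat_lit 0) (XT.lf (nat_lit 380) (nat_lit 31543595) (nat_lit 0) (nat_lit 22704474) (nat_lit 304) (nat_lit 22704474) (nat_lit 218) (nat_lit 1) (nat_lit 213) (nat_lit 1) (nat_lit 217) (nat_lit 1) (nat_lit 357) (nat_lit 274) (nat_lit 269)) (XT.nd (nat_lit 46254) (nat_lit 0) (nat_lit 152) (XT.lf (nat_lit 76) (nat_lit 10484742) (nat_lit 0) (nat_lit 51448894) (nat_lit 380) (nat_lit 10484742) (nat_lit 214) (nat_lit 1) (nat_lit 213) (nat_lit 1) (nat_lit 218) (nat_lit 1) (nat_lit 358) (nat_lit 274) (nat_lit 268)) (XT.lf (nat_lit 380) (nat_lit 21314660) (nat_lit 0) (nat_lit 18878919) (nat_lit 380) (nat_lit 21314660) (nat_lit 220) (nat_lit 1) (nat_lit 215) (nat_lit 0) (nat_lit 220) (nat_lit 0) (nat_lit 350) (nat_lit 275) (nat_lit 275))))) (XT.nd (nat_lit 234) (nat_lit 152) (nat_lit 0) (XT.nd (nat_lit 78) (nat_lit 0) (nat_lit 76) (XT.lf (nat_lit 380) (nat_lit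 78840164) (nat_lit 76) (nat_lit 18020787) (nat_lit 0) (nat_lit 18020787) (nat_lit 220) (nat_lit 1) (nat_lit 216) (nat_lit 1) (nat_lit 215) (nat_lit 0) (nat_lit 351) (nat_lit 275) (nat_lit 274)) (XT.nd (nat_lit 78) (nat_lit 0) (nat_lit 0) (XT.lf (nat_lit 380) (nat_lit 34752292) (nat_lit 0) (nat_lit 37813772) (nat_lit 304) (nat_lit 34752292) (nat_lit 221) (nat_lit 1) (nat_lit 216) (nat_lit 1) (nat_lit 220) (nat_lit 1) (nat_lit 352) (nat_lit 275) (nat_lit 273)) (XT.lf (nat_lit 380) (nat_lit 59667881) (nat_lit 76) (nat_lit 20424715) (nat_lit 0) (nat_lit 20424715) (nat_lit 221) (nat_lit 1) (nat_lit 217) (nat_lit 1) (nat_lit 216) (nat_lit 1) (nat_lit 353) (nat_lit 275) (nat_lit 272)))) (XT.nd (nat_lit 78) (nat_lit 304) (nat_lit 0) (XT.lf (nat_lit 76) (nat_lit 24136449) (nat_lit 0) (nat_lit 45959852) (nat_lit 304) (nat_lit 24136449) (nat_lit 218) (nat_lit 1) (nat_lit 217) (nat_lit 1) (nat_lit 221) (nat_lit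 1) (nat_lit 354) (nat_lit 275) (nat_lit 271)) (XT.nd (nat_lit 78) (nat_lit 0) (nat_lit 0) (XT.lf (nat_lit 380) (nat_lit 36275134) (nat_lit 0) (nat_lit 26110146) (nat_lit 304) (nat_lit 26110146) (nat_lit 218) (nat_lit 1) (nat_lit 213) (nat_lit 1) (nat_lit 217) (nat_lit 1) (nat_lit 355) (nat_lit 275) (nat_lit 270)) (XT.lf (nat_lit 76) (nat_lit 12057454) (nat_lit 0) (nat_lit 59166229) (nat_lit 380) (nat_lit 12057454) (nat_lit 214) (nat_lit 1) (nat_lit 213) (nat_lit 1) (nat_lit 218) (nat_lit 1) (nat_lit 356) (nat_lit 275) (nat_lit 269))))))) (XT.nd (nat_lit 46878) (nat_lit 152) (nat_lit 0) (XT.nd (nat_lit 46410) (nat_lit 0) (nat_lit 0) (XT.nd (nat_lit 46176) (nat_lit 0) (nat_lit 532) (XT.nd (nat_lit 78) (nat_lit 228) (nat_lit 0) (XT.lf (nat_lit 228) (nat_lit 10851424) (nat_lit 0) (nat_lit 33772380) (nat_lit 152) (nat_lit 33772380) (nat_lit 214) (nat_lit 1) (nat_lit 211) (nat_lit 1) (nat_lit 213) (nat_lit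 1) (nat_lit 357) (nat_lit 275) (nat_lit 268)) (XT.lf (nat_lit 228) (nat_lit 72921434) (nat_lit 0) (nat_lit 572142) (nat_lit 152) (nat_lit 572142) (nat_lit 211) (nat_lit 1) (nat_lit 208) (nat_lit 1) (nat_lit 210) (nat_lit 1) (nat_lit 358) (nat_lit 275) (nat_lit 267))) (XT.nd (nat_lit 78) (nat_lit 0) (nat_lit 0) (XT.lf (nat_lit 380) (nat_lit 24511860) (nat_lit 0) (nat_lit 21710757) (nat_lit 380) (nat_lit 24511860) (nat_lit 220) (nat_lit 1) (nat_lit 215) (nat_lit 0) (nat_lit 220) (nat_lit 0) (nat_lit 348) (nat_lit 276) (nat_lit 276)) (XT.nd (nat_lit 78) (nat_lit 0) (nat_lit 76) (XT.lf (nat_lit 380) (nat_lit 90666189) (nat_lit 76) (nat_lit 20723905) (nat_lit 0) (nat_lit 20723905) (nat_lit 220) (nat_lit 1) (nat_lit 216) (nat_lit 1) (nat_lit 215) (nat_lit 0) (nat_lit 349) (nat_lit 276) (nat_lit 275)) (XT.lf (nat_lit 380) (nat_lit 39965136) (nat_lit 0) (nat_lit 43485838) (nat_lit 304) (nat_lit 39965136)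 (nat_lit 221) (nat_lit 1) (nat_lit 216) (nat_lit 1) (nat_lit 220) (nat_lit 1) (nat_lit 350) (nat_lit 276) (nat_lit 274))))) (XT.nd (nat_lit 234) (nat_lit 380) (nat_lit 0) (XT.nd (nat_lit 78) (nat_lit 228) (nat_lit 0) (XT.lf (nat_lit 380) (nat_lit 68618064) (nat_lit 76) (nat_lit 23488422) (nat_lit 0) (nat_lit 23488422) (nat_lit 221) (nat_lit 1) (nat_lit 217) (nat_lit 1) (nat_lit 216) (nat_lit 1) (nat_lit 351) (nat_lit 276) (nat_lit 273)) (XT.nd (nat_lit 78) (nat_lit 304) (nat_lit 0) (XT.lf (nat_lit 76) (nat_lit 27756917) (nat_lit 0) (nat_lit 52853829) (nat_lit 304) (nat_lit 27756917) (nat_lit 218) (nat_lit 1) (nat_lit 217) (nat_lit 1) (nat_lit 221) (nat_lit 1) (nat_lit 352) (nat_lit 276) (nat_lit 272)) (XT.lf (nat_lit 380) (nat_lit 41716404) (nat_lit 0) (nat_lit 30026668) (nat_lit 304) (nat_lit 30026668) (nat_lit 218) (nat_lit 1) (nat_lit 213) (nat_lit 1) (nat_lit 217) (nat_lit 1) (nat_lit 353)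 (nat_lit 276) (nat_lit 271)))) (XT.nd (nat_lit 78) (nat_lit 380) (nat_lit 0) (XT.lf (nat_lit 76) (nat_lit 13866072) (nat_lit 0) (nat_lit 68041163) (nat_lit 380) (nat_lit 13866072) (nat_lit 214) (nat_lit 1) (nat_lit 213) (nat_lit 1) (nat_lit 218) (nat_lit 1) (nat_lit 354) (nat_lit 276) (nat_lit 270)) (XT.nd (nat_lit 78) (nat_lit 228) (nat_lit 0) (XT.lf (nat_lit 228) (nat_lit 12479137) (nat_lit 0) (nat_lit 38838237) (nat_lit 152) (nat_lit 38838237) (nat_lit 214) (nat_lit 1) (nat_lit 211) (nat_lit 1) (nat_lit 213) (nat_lit 1) (nat_lit 355) (nat_lit 276) (nat_lit 269)) (XT.lf (nat_lit 228) (nat_lit 83859649) (nat_lit 0) (nat_lit 657963) (nat_lit 152) (nat_lit 657963) (nat_lit 211) (nat_lit 1) (nat_lit 208) (nat_lit 1) (nat_lit 210) (nat_lit 1) (nat_lit 356) (nat_lit 276) (nat_lit 268)))))) (XT.nd (nat_lit 46176) (nat_lit 0) (nat_lit 380) (XT.nd (nat_lit 156) (nat_lit 0) (nat_lit 0) (XT.nd (nat_lit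 78) (nat_lit 152) (nat_lit 0) (XT.lf (nat_lit 76) (nat_lit 32219413) (nat_lit 0) (nat_lit 15818016) (nat_lit 228) (nat_lit 32219413) (nat_lit 209) (nat_lit 1) (nat_lit 208) (nat_lit 1) (nat_lit 211) (nat_lit 1) (nat_lit 357) (nat_lit 276) (nat_lit 267)) (XT.lf (nat_lit 228) (nat_lit 46832153) (nat_lit 0) (nat_lit 14526873) (nat_lit 152) (nat_lit 14526873) (nat_lit 209) (nat_lit 1) (nat_lit 206) (nat_lit 1) (nat_lit 208) (nat_lit 1) (nat_lit 358) (nat_lit 276) (nat_lit 266))) (XT.nd (nat_lit 45864) (nat_lit 0) (nat_lit 684) (XT.lf (nat_lit 76) (nat_lit 14645950) (nat_lit 0) (nat_lit 42502298) (nat_lit 228) (nat_lit 14645950) (nat_lit 207) (nat_lit 1) (nat_lit 206) (nat_lit 1) (nat_lit 209) (nat_lit 1) (nat_lit 359) (nat_lit 276) (nat_lit 265)) (XT.nd (nat_lit 78) (nat_lit 0) (nat_lit 0) (XT.lf (nat_lit 380) (nat_lit 28188639) (nat_lit 0) (nat_lit 24967371) (nat_lit 380) (nat_lit 28188639) (nat_lit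 220) (nat_lit 1) (nat_lit 215) (nat_lit 0) (nat_lit 220) (nat_lit 0) (nat_lit 346) (nat_lit 277) (nat_lit 277)) (XT.lf (nat_lit 380) (nat_lit 104266117) (nat_lit 76) (nat_lit 23832490) (nat_lit 0) (nat_lit 23832490) (nat_lit 220) (nat_lit 1) (nat_lit 216) (nat_lit 1) (nat_lit 215) (nat_lit 0) (nat_lit 347) (nat_lit 277) (nat_lit 276))))) (XT.nd (nat_lit 234) (nat_lit 380) (nat_lit 0) (XT.nd (nat_lit 78) (nat_lit 0) (nat_lit 0) (XT.lf (nat_lit 380) (nat_lit 45959906) (nat_lit 0) (nat_lit 50008714) (nat_lit 304) (nat_lit 45959906) (nat_lit 221) (nat_lit 1) (nat_lit 216) (nat_lit 1) (nat_lit 220) (nat_lit 1) (nat_lit 348) (nat_lit 277) (nat_lit 275)) (XT.nd (nat_lit 78) (nat_lit 0) (nat_lit 76) (XT.lf (nat_lit 380) (nat_lit 78910773) (nat_lit 76) (nat_lit 27011685) (nat_lit 0) (nat_lit 27011685) (nat_lit 221) (nat_lit 1) (nat_lit 217) (nat_lit 1) (nat_lit 216) (nat_lit 1) (nat_lit 349) (nat_lit 277)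 (nat_lit 274)) (XT.lf (nat_lit 76) (nat_lit 31920454) (nat_lit 0) (nat_lit 60781904) (nat_lit 304) (nat_lit 31920454) (nat_lit 218) (nat_lit 1) (nat_lit 217) (nat_lit 1) (nat_lit 221) (nat_lit 1) (nat_lit 350) (nat_lit 277) (nat_lit 273)))) (XT.nd (nat_lit 78) (nat_lit 152) (nat_lit 0) (XT.lf (nat_lit 380) (nat_lit 47973865) (nat_lit 0) (nat_lit 34530668) (nat_lit 304) (nat_lit 34530668) (nat_lit 218) (nat_lit 1) (nat_lit 213) (nat_lit 1) (nat_lit 217) (nat_lit 1) (nat_lit 351) (nat_lit 277) (nat_lit 272)) (XT.nd (nat_lit 78) (nat_lit 152) (nat_lit 0) (XT.lf (nat_lit 76) (nat_lit 15945982) (nat_lit 0) (nat_lit 78247338) (nat_lit 380) (nat_lit 15945982) (nat_lit 214) (nat_lit 1) (nat_lit 213) (nat_lit 1) (nat_lit 218) (nat_lit 1) (nat_lit 352) (nat_lit 277) (nat_lit 271)) (XT.lf (nat_lit 228) (nat_lit 14351008) (nat_lit 0) (nat_lit 44663972) (nat_lit 152) (nat_lit 44663972) (nat_lit 214) (nat_lit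 1) (nat_lit 211) (nat_lit 1) (nat_lit 213) (nat_lit 1) (nat_lit 353) (nat_lit 277) (nat_lit 270))))))))
noncomputable def ec1 : XT := (XT.nd (nat_lit 47346) (nat_lit 228) (nat_lit 0) (XT.nd (nat_lit 46488) (nat_lit 76) (nat_lit 0) (XT.nd (nat_lit 390) (nat_lit 228) (nat_lit 0) (XT.nd (nat_lit 156) (nat_lit 228) (nat_lit 0) (XT.nd (nat_lit 78) (nat_lit 0) (nat_lit 0) (XT.lf (nat_lit 228) (nat_lit 96438596) (nat_lit 0) (nat_lit 756658) (nat_lit 152) (nat_lit 756658) (nat_lit 211) (nat_lit 1) (nat_lit 208) (nat_lit 1) (nat_lit 210) (nat_lit 1) (nat_lit 354) (nat_lit 277) (nat_lit 269)) (XT.lf (nat_lit 76) (nat_lit 37052325) (nat_lit 0) (nat_lit 18190719) (nat_lit 228) (nat_lit 37052325) (nat_lit 209) (nat_lit 1) (nat_lit 208) (nat_lit 1) (nat_lit 211) (nat_lit 1) (nat_lit 355) (nat_lit 277) (nat_lit 268))) (XT.nd (nat_lit 78) (nat_lit 76) (nat_lit 0) (XT.lf (nat_lit 228) (nat_lit 53856976) (nat_lit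 0) (nat_lit 16705904) (nat_lit 152) (nat_lit 16705904) (nat_lit 209) (nat_lit 1) (nat_lit 206) (nat_lit 1) (nat_lit 208) (nat_lit 1) (nat_lit 356) (nat_lit 277) (nat_lit 267)) (XT.nd (nat_lit 78) (nat_lit 76) (nat_lit 0) (XT.lf (nat_lit 76) (nat_lit 16842843) (nat_lit 0) (nat_lit 48877642) (nat_lit 228) (nat_lit 16842843) (nat_lit 207) (nat_lit 1) (nat_lit 206) (nat_lit 1) (nat_lit 209) (nat_lit 1) (nat_lit 357) (nat_lit 277) (nat_lit 266)) (XT.lf (nat_lit 152) (nat_lit 13923722) (nat_lit 0) (nat_lit 32129057) (nat_lit 76) (nat_lit 32129057) (nat_lit 207) (nat_lit 1) (nat_lit 205) (nat_lit 1) (nat_lit 206) (nat_lit 1) (nat_lit 358) (nat_lit 277) (nat_lit 265))))) (XT.nd (nat_lit 45864) (nat_lit 0) (nat_lit 1064) (XT.nd (nat_lit 45708) (nat_lit 0) (nat_lit 988) (XT.lf (nat_lit 228) (nat_lit 70490067) (nat_lit 0) (nat_lit 1872640) (nat_lit 152) (nat_lit 1872640) (nat_lit 205) (nat_lit 1) (nat_lit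 202) (nat_lit 1) (nat_lit 204) (nat_lit 1) (nat_lit 359) (nat_lit 277) (nat_lit 264)) (XT.nd (nat_lit 78) (nat_lit 0) (nat_lit 0) (XT.lf (nat_lit 380) (nat_lit 32416935) (nat_lit 0) (nat_lit 28712477) (nat_lit 380) (nat_lit 32416935) (nat_lit 220) (nat_lit 1) (nat_lit 215) (nat_lit 0) (nat_lit 220) (nat_lit 0) (nat_lit 344) (nat_lit 278) (nat_lit 278)) (XT.lf (nat_lit 380) (nat_lit 119906035) (nat_lit 76) (nat_lit 27407364) (nat_lit 0) (nat_lit 27407364) (nat_lit 220) (nat_lit 1) (nat_lit 216) (nat_lit 1) (nat_lit 215) (nat_lit 0) (nat_lit 345) (nat_lit 278) (nat_lit 277)))) (XT.nd (nat_lit 78) (nat_lit 0) (nat_lit 0) (XT.lf (nat_lit 380) (nat_lit 52853892) (nat_lit 0) (nat_lit 57510021) (nat_lit 304) (nat_lit 52853892) (nat_lit 221) (nat_lit 1) (nat_lit 216) (nat_lit 1) (nat_lit 220) (nat_lit 1) (nat_lit 346) (nat_lit 278) (nat_lit 276)) (XT.nd (nat_lit 78) (nat_lit 0) (nat_lit 76) (XT.lf (nat_lit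 380) (nat_lit 90747389) (nat_lit 76) (nat_lit 31063438) (nat_lit 0) (nat_lit 31063438) (nat_lit 221) (nat_lit 1) (nat_lit 217) (nat_lit 1) (nat_lit 216) (nat_lit 1) (nat_lit 347) (nat_lit 278) (nat_lit 275)) (XT.lf (nat_lit 76) (nat_lit 36708522) (nat_lit 0) (nat_lit 69899190) (nat_lit 304) (nat_lit 36708522) (nat_lit 218) (nat_lit 1) (nat_lit 217) (nat_lit 1) (nat_lit 221) (nat_lit 1) (nat_lit 348) (nat_lit 278) (nat_lit 274)))))) (XT.nd (nat_lit 390) (nat_lit 532) (nat_lit 0) (XT.nd (nat_lit 156) (nat_lit 380) (nat_lit 0) (XT.nd (nat_lit 78) (nat_lit 0) (nat_lit 0) (XT.lf (nat_lit 380) (nat_lit 55169945) (nat_lit 0) (nat_lit 39710268) (nat_lit 304) (nat_lit 39710268) (nat_lit 218) (nat_lit 1) (nat_lit 213) (nat_lit 1) (nat_lit 217) (nat_lit 1) (nat_lit 349) (nat_lit 278) (nat_lit 273)) (XT.lf (nat_lit 76) (nat_lit 18337880) (nat_lit 0) (nat_lit 89984438) (nat_lit 380) (nat_lit 18337880) (nat_lit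 214) (nat_lit 1) (nat_lit 213) (nat_lit 1) (nat_lit 218) (nat_lit 1) (nat_lit 350) (nat_lit 278) (nat_lit 272))) (XT.nd (nat_lit 78) (nat_lit 228) (nat_lit 0) (XT.lf (nat_lit 228) (nat_lit 16503659) (nat_lit 0) (nat_lit 51363568) (nat_lit 152) (nat_lit 51363568) (nat_lit 214) (nat_lit 1) (nat_lit 211) (nat_lit 1) (nat_lit 213) (nat_lit 1) (nat_lit 351) (nat_lit 278) (nat_lit 271)) (XT.nd (nat_lit 78) (nat_lit 0) (nat_lit 0) (XT.lf (nat_lit 228) (nat_lit 110904386) (nat_lit 0) (nat_lit 870157) (nat_lit 152) (nat_lit 870157) (nat_lit 211) (nat_lit 1) (nat_lit 208) (nat_lit 1) (nat_lit 210) (nat_lit 1) (nat_lit 352) (nat_lit 278) (nat_lit 270)) (XT.lf (nat_lit 76) (nat_lit 42610174) (nat_lit 0) (nat_lit 20919327) (nat_lit 228) (nat_lit 42610174) (nat_lit 209) (nat_lit 1) (nat_lit 208) (nat_lit 1) (nat_lit 211) (nat_lit 1) (nat_lit 353) (nat_lit 278) (nat_lit 269))))) (XT.nd (nat_lit 234) (nat_lit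 304) (nat_lit 0) (XT.nd (nat_lit 78) (nat_lit 76) (nat_lit 0) (XT.lf (nat_lit 228) (nat_lit 61935523) (nat_lit 0) (nat_lit 19211790) (nat_lit 152) (nat_lit 19211790) (nat_lit 209) (nat_lit 1) (nat_lit 206) (nat_lit 1) (nat_lit 208) (nat_lit 1) (nat_lit 354) (nat_lit 278) (nat_lit 268)) (XT.nd (nat_lit 78) (nat_lit 76) (nat_lit 0) (XT.lf (nat_lit 76) (nat_lit 19369269) (nat_lit 0) (nat_lit 56209289) (nat_lit 228) (nat_lit 19369269) (nat_lit 207) (nat_lit 1) (nat_lit 206) (nat_lit 1) (nat_lit 209) (nat_lit 1) (nat_lit 355) (nat_lit 278) (nat_lit 267)) (XT.lf (nat_lit 152) (nat_lit 16012280) (nat_lit 0) (nat_lit 36948416) (nat_lit 76) (nat_lit 36948416) (nat_lit 207) (nat_lit 1) (nat_lit 205) (nat_lit 1) (nat_lit 206) (nat_lit 1) (nat_lit 356) (nat_lit 278) (nat_lit 266)))) (XT.nd (nat_lit 78) (nat_lit 76) (nat_lit 0) (XT.lf (nat_lit 228) (nat_lit 81063577) (nat_lit 0) (nat_lit 2153536) (nat_lit 152)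 (nat_lit 2153536) (nat_lit 205) (nat_lit 1) (nat_lit 202) (nat_lit 1) (nat_lit 204) (nat_lit 1) (nat_lit 357) (nat_lit 278) (nat_lit 265)) (XT.nd (nat_lit 78) (nat_lit 76) (nat_lit 0) (XT.lf (nat_lit 76) (nat_lit 28370508) (nat_lit 0) (nat_lit 24093161) (nat_lit 228) (nat_lit 28370508) (nat_lit 203) (nat_lit 1) (nat_lit 202) (nat_lit 1) (nat_lit 205) (nat_lit 1) (nat_lit 358) (nat_lit 278) (nat_lit 264)) (XT.lf (nat_lit 152) (nat_lit 34495821) (nat_lit 0) (nat_lit 21125377) (nat_lit 76) (nat_lit 21125377) (nat_lit 203) (nat_lit 1) (nat_lit 201) (nat_lit 1) (nat_lit 202) (nat_lit 1) (nat_lit 359) (nat_lit 278) (nat_lit 263))))))) (XT.nd (nat_lit 46254) (nat_lit 228) (nat_lit 0) (XT.nd (nat_lit 45786) (nat_lit 0) (nat_lit 532) (XT.nd (nat_lit 45552) (nat_lit 0) (nat_lit 1064) (XT.nd (nat_lit 45474) (nat_lit 0) (nat_lit 1064) (XT.lf (nat_lit 0) (nat_lit 6754757) (nat_lit 0) (nat_lit 59468363) (nat_lit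 152) (nat_lit 6754757) (nat_lit 201) (nat_lit 3) (nat_lit 201) (nat_lit 1) (nat_lit 203) (nat_lit 1) (nat_lit 360) (nat_lit 278) (nat_lit 262)) (XT.lf (nat_lit 380) (nat_lit 37279475) (nat_lit 0) (nat_lit 33019348) (nat_lit 380) (nat_lit 37279475) (nat_lit 220) (nat_lit 1) (nat_lit 215) (nat_lit 0) (nat_lit 220) (nat_lit 0) (nat_lit 342) (nat_lit 279) (nat_lit 279))) (XT.nd (nat_lit 78) (nat_lit 0) (nat_lit 76) (XT.lf (nat_lit 380) (nat_lit 137891941) (nat_lit 76) (nat_lit 31518469) (nat_lit 0) (nat_lit 31518469) (nat_lit 220) (nat_lit 1) (nat_lit 216) (nat_lit 1) (nat_lit 215) (nat_lit 0) (nat_lit 343) (nat_lit 279) (nat_lit 278)) (XT.nd (nat_lit 78) (nat_lit 0) (nat_lit 0) (XT.lf (nat_lit 380) (nat_lit 60781976) (nat_lit 0) (nat_lit 66136524) (nat_lit 304) (nat_lit 60781976) (nat_lit 221) (nat_lit 1) (nat_lit 216) (nat_lit 1) (nat_lit 220) (nat_lit 1) (nat_lit 344) (nat_lit 279) (nat_lit 277))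 (XT.lf (nat_lit 380) (nat_lit 104359498) (nat_lit 76) (nat_lit 35722954) (nat_lit 0) (nat_lit 35722954) (nat_lit 221) (nat_lit 1) (nat_lit 217) (nat_lit 1) (nat_lit 216) (nat_lit 1) (nat_lit 345) (nat_lit 279) (nat_lit 276))))) (XT.nd (nat_lit 234) (nat_lit 380) (nat_lit 0) (XT.nd (nat_lit 78) (nat_lit 304) (nat_lit 0) (XT.lf (nat_lit 76) (nat_lit 42214801) (nat_lit 0) (nat_lit 80384068) (nat_lit 304) (nat_lit 42214801) (nat_lit 218) (nat_lit 1) (nat_lit 217) (nat_lit 1) (nat_lit 221) (nat_lit 1) (nat_lit 346) (nat_lit 279) (nat_lit 275)) (XT.nd (nat_lit 78) (nat_lit 0) (nat_lit 0) (XT.lf (nat_lit 380) (nat_lit 63445436) (nat_lit 0) (nat_lit 45666808) (nat_lit 304) (nat_lit 45666808) (nat_lit 218) (nat_lit 1) (nat_lit 213) (nat_lit 1) (nat_lit 217) (nat_lit 1) (nat_lit 347) (nat_lit 279) (nat_lit 274)) (XT.lf (nat_lit 76) (nat_lit 21088562) (nat_lit 0) (nat_lit 103482104) (nat_lit 380) (nat_lit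 21088562) (nat_lit 214) (nat_lit 1) (nat_lit 213) (nat_lit 1) (nat_lit 218) (nat_lit 1) (nat_lit 348) (nat_lit 279) (nat_lit 273)))) (XT.nd (nat_lit 78) (nat_lit 228) (nat_lit 0) (XT.lf (nat_lit 228) (nat_lit 18979208) (nat_lit 0) (nat_lit 59068104) (nat_lit 152) (nat_lit 59068104) (nat_lit 214) (nat_lit 1) (nat_lit 211) (nat_lit 1) (nat_lit 213) (nat_lit 1) (nat_lit 349) (nat_lit 279) (nat_lit 272)) (XT.nd (nat_lit 78) (nat_lit 0) (nat_lit 0) (XT.lf (nat_lit 228) (nat_lit 127540044) (nat_lit 0) (nat_lit 1000680) (nat_lit 152) (nat_lit 1000680) (nat_lit 211) (nat_lit 1) (nat_lit 208) (nat_lit 1) (nat_lit 210) (nat_lit 1) (nat_lit 350) (nat_lit 279) (nat_lit 271)) (XT.lf (nat_lit 76) (nat_lit 49001700) (nat_lit 0) (nat_lit 24057226) (nat_lit 228) (nat_lit 49001700) (nat_lit 209) (nat_lit 1) (nat_lit 208) (nat_lit 1) (nat_lit 211) (nat_lit 1) (nat_lit 351) (nat_lit 279) (nat_lit 270)))))) (XT.nd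 (nat_lit 468) (nat_lit 228) (nat_lit 0) (XT.nd (nat_lit 234) (nat_lit 304) (nat_lit 0) (XT.nd (nat_lit 78) (nat_lit 76) (nat_lit 0) (XT.lf (nat_lit 228) (nat_lit 71225851) (nat_lit 0) (nat_lit 22093559) (nat_lit 152) (nat_lit 22093559) (nat_lit 209) (nat_lit 1) (nat_lit 206) (nat_lit 1) (nat_lit 208) (nat_lit 1) (nat_lit 352) (nat_lit 279) (nat_lit 269)) (XT.nd (nat_lit 78) (nat_lit 76) (nat_lit 0) (XT.lf (nat_lit 76) (nat_lit 22274660) (nat_lit 0) (nat_lit 64640682) (nat_lit 228) (nat_lit 22274660) (nat_lit 207) (nat_lit 1) (nat_lit 206) (nat_lit 1) (nat_lit 209) (nat_lit 1) (nat_lit 353) (nat_lit 279) (nat_lit 268)) (XT.lf (nat_lit 152) (nat_lit 18414122) (nat_lit 0) (nat_lit 42490679) (nat_lit 76) (nat_lit 42490679) (nat_lit 207) (nat_lit 1) (nat_lit 205) (nat_lit 1) (nat_lit 206) (nat_lit 1) (nat_lit 354) (nat_lit 279) (nat_lit 267)))) (XT.nd (nat_lit 78) (nat_lit 76) (nat_lit 0) (XT.lf (nat_lit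 228) (nat_lit 93223114) (nat_lit 0) (nat_lit 2476567) (nat_lit 152) (nat_lit 2476567) (nat_lit 205) (nat_lit 1) (nat_lit 202) (nat_lit 1) (nat_lit 204) (nat_lit 1) (nat_lit 355) (nat_lit 279) (nat_lit 266)) (XT.nd (nat_lit 78) (nat_lit 76) (nat_lit 0) (XT.lf (nat_lit 76) (nat_lit 32626085) (nat_lit 0) (nat_lit 27707135) (nat_lit 228) (nat_lit 32626085) (nat_lit 203) (nat_lit 1) (nat_lit 202) (nat_lit 1) (nat_lit 205) (nat_lit 1) (nat_lit 356) (nat_lit 279) (nat_lit 265)) (XT.lf (nat_lit 152) (nat_lit 39670194) (nat_lit 0) (nat_lit 24294183) (nat_lit 76) (nat_lit 24294183) (nat_lit 203) (nat_lit 1) (nat_lit 201) (nat_lit 1) (nat_lit 202) (nat_lit 1) (nat_lit 357) (nat_lit 279) (nat_lit 264))))) (XT.nd (nat_lit 45474) (nat_lit 0) (nat_lit 1292) (XT.nd (nat_lit 78) (nat_lit 228) (nat_lit 0) (XT.lf (nat_lit 0) (nat_lit 7767970) (nat_lit 0) (nat_lit 68388618) (nat_lit 152) (nat_lit 7767970) (nat_lit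 201) (nat_lit 3) (nat_lit 201) (nat_lit 1) (nat_lit 203) (nat_lit 1) (nat_lit 358) (nat_lit 279) (nat_lit 263)) (XT.nd (nat_lit 78) (nat_lit 76) (nat_lit 0) (XT.lf (nat_lit 76) (nat_lit 35950136) (nat_lit 0) (nat_lit 7796963) (nat_lit 152) (nat_lit 35950136) (nat_lit 200) (nat_lit 1) (nat_lit 199) (nat_lit 1) (nat_lit 201) (nat_lit 1) (nat_lit 359) (nat_lit 279) (nat_lit 262)) (XT.lf (nat_lit 152) (nat_lit 48022310) (nat_lit 0) (nat_lit 13890278) (nat_lit 76) (nat_lit 13890278) (nat_lit 200) (nat_lit 1) (nat_lit 198) (nat_lit 1) (nat_lit 199) (nat_lit 1) (nat_lit 360) (nat_lit 279) (nat_lit 261)))) (XT.nd (nat_lit 78) (nat_lit 0) (nat_lit 0) (XT.lf (nat_lit 380) (nat_lit 42871396) (nat_lit 0) (nat_lit 37972251) (nat_lit 380) (nat_lit 42871396) (nat_lit 220) (nat_lit 1) (nat_lit 215) (nat_lit 0) (nat_lit 220) (nat_lit 0) (nat_lit 340) (nat_lit 280) (nat_lit 280)) (XT.nd (nat_lit 78) (nat_lit 0)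 (nat_lit 76) (XT.lf (nat_lit 380) (nat_lit 158575732) (nat_lit 76) (nat_lit 36246239) (nat_lit 0) (nat_lit 36246239) (nat_lit 220) (nat_lit 1) (nat_lit 216) (nat_lit 1) (nat_lit 215) (nat_lit 0) (nat_lit 341) (nat_lit 280) (nat_lit 279)) (XT.lf (nat_lit 380) (nat_lit 69899273) (nat_lit 0) (nat_lit 76057003) (nat_lit 304) (nat_lit 69899273) (nat_lit 221) (nat_lit 1) (nat_lit 216) (nat_lit 1) (nat_lit 220) (nat_lit 1) (nat_lit 342) (nat_lit 280) (nat_lit 278))))))))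
noncomputable def ec2 : XT := (XT.nd (nat_lit 46800) (nat_lit 228) (nat_lit 0) (XT.nd (nat_lit 858) (nat_lit 380) (nat_lit 0) (XT.nd (nat_lit 390) (nat_lit 684) (nat_lit 0) (XT.nd (nat_lit 156) (nat_lit 380) (nat_lit 0) (XT.nd (nat_lit 78) (nat_lit 0) (nat_lit 76) (XT.lf (nat_lit 380) (nat_lit 120013423) (nat_lit 76) (nat_lit 41081397) (nat_lit 0) (nat_lit 41081397) (nat_lit 221) (nat_lit 1) (nat_lit 217) (nat_lit 1) (nat_lit 216) (nat_lit 1) (nat_lit 343) (nat_lit 280) (nat_lit 277)) (XT.lf (nat_lit 76) (nat_lit 48547021) (nat_lit 0) (nat_lit 92441678) (nat_lit 304) (nat_lit 48547021) (nat_lit 218) (nat_lit 1) (nat_lit 217) (nat_lit 1) (nat_lit 221) (nat_lit 1) (nat_lit 344) (nat_lit 280) (nat_lit 276))) (XT.nd (nat_lit 78) (nat_lit 152) (nat_lit 0) (XT.lf (nat_lit 380) (nat_lit 72962252) (nat_lit 0) (nat_lit 52516830) (nat_lit 304) (nat_lit 52516830) (nat_lit 218) (nat_lit 1) (nat_lit 213) (nat_lit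 1) (nat_lit 217) (nat_lit 1) (nat_lit 345) (nat_lit 280) (nat_lit 275)) (XT.nd (nat_lit 78) (nat_lit 152) (nat_lit 0) (XT.lf (nat_lit 76) (nat_lit 24251846) (nat_lit 0) (nat_lit 119004420) (nat_lit 380) (nat_lit 24251846) (nat_lit 214) (nat_lit 1) (nat_lit 213) (nat_lit 1) (nat_lit 218) (nat_lit 1) (nat_lit 346) (nat_lit 280) (nat_lit 274)) (XT.lf (nat_lit 228) (nat_lit 21826090) (nat_lit 0) (nat_lit 67928319) (nat_lit 152) (nat_lit 67928319) (nat_lit 214) (nat_lit 1) (nat_lit 211) (nat_lit 1) (nat_lit 213) (nat_lit 1) (nat_lit 347) (nat_lit 280) (nat_lit 273))))) (XT.nd (nat_lit 234) (nat_lit 304) (nat_lit 0) (XT.nd (nat_lit 78) (nat_lit 152) (nat_lit 0) (XT.lf (nat_lit 228) (nat_lit 146671050) (nat_lit 0) (nat_lit 1150782) (nat_lit 152) (nat_lit 1150782) (nat_lit 211) (nat_lit 1) (nat_lit 208) (nat_lit 1) (nat_lit 210) (nat_lit 1) (nat_lit 348) (nat_lit 280) (nat_lit 272)) (XT.nd (nat_lit 78)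 (nat_lit 152) (nat_lit 0) (XT.lf (nat_lit 76) (nat_lit 56351955) (nat_lit 0) (nat_lit 27665810) (nat_lit 228) (nat_lit 56351955) (nat_lit 209) (nat_lit 1) (nat_lit 208) (nat_lit 1) (nat_lit 211) (nat_lit 1) (nat_lit 349) (nat_lit 280) (nat_lit 271)) (XT.lf (nat_lit 228) (nat_lit 81909729) (nat_lit 0) (nat_lit 25407592) (nat_lit 152) (nat_lit 25407592) (nat_lit 209) (nat_lit 1) (nat_lit 206) (nat_lit 1) (nat_lit 208) (nat_lit 1) (nat_lit 350) (nat_lit 280) (nat_lit 270)))) (XT.nd (nat_lit 78) (nat_lit 304) (nat_lit 0) (XT.lf (nat_lit 76) (nat_lit 25615859) (nat_lit 0) (nat_lit 74336784) (nat_lit 228) (nat_lit 25615859) (nat_lit 207) (nat_lit 1) (nat_lit 206) (nat_lit 1) (nat_lit 209) (nat_lit 1) (nat_lit 351) (nat_lit 280) (nat_lit 269)) (XT.nd (nat_lit 78) (nat_lit 228) (nat_lit 0) (XT.lf (nat_lit 152) (nat_lit 21176241) (nat_lit 0) (nat_lit 48864281) (nat_lit 76) (nat_lit 48864281) (nat_lit 207)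 (nat_lit 1) (nat_lit 205) (nat_lit 1) (nat_lit 206) (nat_lit 1) (nat_lit 352) (nat_lit 280) (nat_lit 268)) (XT.lf (nat_lit 228) (nat_lit 107206581) (nat_lit 0) (nat_lit 2848052) (nat_lit 152) (nat_lit 2848052) (nat_lit 205) (nat_lit 1) (nat_lit 202) (nat_lit 1) (nat_lit 204) (nat_lit 1) (nat_lit 353) (nat_lit 280) (nat_lit 267)))))) (XT.nd (nat_lit 390) (nat_lit 76) (nat_lit 0) (XT.nd (nat_lit 156) (nat_lit 228) (nat_lit 0) (XT.nd (nat_lit 78) (nat_lit 76) (nat_lit 0) (XT.lf (nat_lit 76) (nat_lit 37519997) (nat_lit 0) (nat_lit 31863206) (nat_lit 228) (nat_lit 37519997) (nat_lit 203) (nat_lit 1) (nat_lit 202) (nat_lit 1) (nat_lit 205) (nat_lit 1) (nat_lit 354) (nat_lit 280) (nat_lit 266)) (XT.lf (nat_lit 152) (nat_lit 45620723) (nat_lit 0) (nat_lit 27938311) (nat_lit 76) (nat_lit 27938311) (nat_lit 203) (nat_lit 1) (nat_lit 201) (nat_lit 1) (nat_lit 202) (nat_lit 1) (nat_lit 355) (nat_lit 280) (nat_lit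 265))) (XT.nd (nat_lit 78) (nat_lit 228) (nat_lit 0) (XT.lf (nat_lit 0) (nat_lit 8933166) (nat_lit 0) (nat_lit 78646911) (nat_lit 152) (nat_lit 8933166) (nat_lit 201) (nat_lit 3) (nat_lit 201) (nat_lit 1) (nat_lit 203) (nat_lit 1) (nat_lit 356) (nat_lit 280) (nat_lit 264)) (XT.nd (nat_lit 78) (nat_lit 76) (nat_lit 0) (XT.lf (nat_lit 76) (nat_lit 41342656) (nat_lit 0) (nat_lit 8966507) (nat_lit 152) (nat_lit 41342656) (nat_lit 200) (nat_lit 1) (nat_lit 199) (nat_lit 1) (nat_lit 201) (nat_lit 1) (nat_lit 357) (nat_lit 280) (nat_lit 263)) (XT.lf (nat_lit 152) (nat_lit 55225656) (nat_lit 0) (nat_lit 15973820) (nat_lit 76) (nat_lit 15973820) (nat_lit 200) (nat_lit 1) (nat_lit 198) (nat_lit 1) (nat_lit 199) (nat_lit 1) (nat_lit 358) (nat_lit 280) (nat_lit 262))))) (XT.nd (nat_lit 45318) (nat_lit 0) (nat_lit 1368) (XT.nd (nat_lit 78) (nat_lit 76) (nat_lit 0) (XT.lf (nat_lit 0) (nat_lit 14358951) (nat_lit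 0) (nat_lit 54218010) (nat_lit 152) (nat_lit 14358951) (nat_lit 198) (nat_lit 3) (nat_lit 198) (nat_lit 1) (nat_lit 200) (nat_lit 1) (nat_lit 359) (nat_lit 280) (nat_lit 261)) (XT.nd (nat_lit 45162) (nat_lit 0) (nat_lit 1368) (XT.lf (nat_lit 76) (nat_lit 3203225) (nat_lit 0) (nat_lit 37863277) (nat_lit 76) (nat_lit 37863277) (nat_lit 198) (nat_lit 3) (nat_lit 197) (nat_lit 1) (nat_lit 198) (nat_lit 1) (nat_lit 360) (nat_lit 280) (nat_lit 260)) (XT.lf (nat_lit 380) (nat_lit 49302106) (nat_lit 0) (nat_lit 43668088) (nat_lit 380) (nat_lit 49302106) (nat_lit 220) (nat_lit 1) (nat_lit 215) (nat_lit 0) (nat_lit 220) (nat_lit 0) (nat_lit 338) (nat_lit 281) (nat_lit 281)))) (XT.nd (nat_lit 78) (nat_lit 0) (nat_lit 76) (XT.lf (nat_lit 380) (nat_lit 182362092) (nat_lit 76) (nat_lit 41683175) (nat_lit 0) (nat_lit 41683175) (nat_lit 220) (nat_lit 1) (nat_lit 216) (nat_lit 1) (nat_lit 215) (nat_lit 0) (nat_lit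 339) (nat_lit 281) (nat_lit 280)) (XT.nd (nat_lit 78) (nat_lit 0) (nat_lit 0) (XT.lf (nat_lit 380) (nat_lit 80384164) (nat_lit 0) (nat_lit 87465553) (nat_lit 304) (nat_lit 80384164) (nat_lit 221) (nat_lit 1) (nat_lit 216) (nat_lit 1) (nat_lit 220) (nat_lit 1) (nat_lit 340) (nat_lit 281) (nat_lit 279)) (XT.lf (nat_lit 380) (nat_lit 138015436) (nat_lit 76) (nat_lit 47243607) (nat_lit 0) (nat_lit 47243607) (nat_lit 221) (nat_lit 1) (nat_lit 217) (nat_lit 1) (nat_lit 216) (nat_lit 1) (nat_lit 341) (nat_lit 281) (nat_lit 278))))))) (XT.nd (nat_lit 858) (nat_lit 608) (nat_lit 0) (XT.nd (nat_lit 390) (nat_lit 456) (nat_lit 0) (XT.nd (nat_lit 156) (nat_lit 380) (nat_lit 0) (XT.nd (nat_lit 78) (nat_lit 304) (nat_lit 0) (XT.lf (nat_lit 76) (nat_lit 55829074) (nat_lit 0) (nat_lit 106307930) (nat_lit 304) (nat_lit 55829074) (nat_lit 218) (nat_lit 1) (nat_lit 217) (nat_lit 1) (nat_lit 221) (nat_lit 1) (nat_lit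 342) (nat_lit 281) (nat_lit 277)) (XT.lf (nat_lit 380) (nat_lit 83906590) (nat_lit 0) (nat_lit 60394354) (nat_lit 304) (nat_lit 60394354) (nat_lit 218) (nat_lit 1) (nat_lit 213) (nat_lit 1) (nat_lit 217) (nat_lit 1) (nat_lit 343) (nat_lit 281) (nat_lit 276))) (XT.nd (nat_lit 78) (nat_lit 380) (nat_lit 0) (XT.lf (nat_lit 76) (nat_lit 27889623) (nat_lit 0) (nat_lit 136855083) (nat_lit 380) (nat_lit 27889623) (nat_lit 214) (nat_lit 1) (nat_lit 213) (nat_lit 1) (nat_lit 218) (nat_lit 1) (nat_lit 344) (nat_lit 281) (nat_lit 275)) (XT.nd (nat_lit 78) (nat_lit 228) (nat_lit 0) (XT.lf (nat_lit 228) (nat_lit 25100003) (nat_lit 0) (nat_lit 78117567) (nat_lit 152) (nat_lit 78117567) (nat_lit 214) (nat_lit 1) (nat_lit 211) (nat_lit 1) (nat_lit 213) (nat_lit 1) (nat_lit 345) (nat_lit 281) (nat_lit 274)) (XT.lf (nat_lit 228) (nat_lit 168671708) (nat_lit 0) (nat_lit 1323400) (nat_lit 152) (nat_lit 1323400) (nat_lit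 211) (nat_lit 1) (nat_lit 208) (nat_lit 1) (nat_lit 210) (nat_lit 1) (nat_lit 346) (nat_lit 281) (nat_lit 273))))) (XT.nd (nat_lit 234) (nat_lit 304) (nat_lit 0) (XT.nd (nat_lit 78) (nat_lit 152) (nat_lit 0) (XT.lf (nat_lit 76) (nat_lit 64804748) (nat_lit 0) (nat_lit 31815681) (nat_lit 228) (nat_lit 64804748) (nat_lit 209) (nat_lit 1) (nat_lit 208) (nat_lit 1) (nat_lit 211) (nat_lit 1) (nat_lit 347) (nat_lit 281) (nat_lit 272)) (XT.nd (nat_lit 78) (nat_lit 0) (nat_lit 0) (XT.lf (nat_lit 228) (nat_lit 94196189) (nat_lit 0) (nat_lit 29218731) (nat_lit 152) (nat_lit 29218731) (nat_lit 209) (nat_lit 1) (nat_lit 206) (nat_lit 1) (nat_lit 208) (nat_lit 1) (nat_lit 348) (nat_lit 281) (nat_lit 271)) (XT.lf (nat_lit 76) (nat_lit 29458237) (nat_lit 0) (nat_lit 85487302) (nat_lit 228) (nat_lit 29458237) (nat_lit 207) (nat_lit 1) (nat_lit 206) (nat_lit 1) (nat_lit 209) (nat_lit 1) (nat_lit 349) (nat_lit 281)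 (nat_lit 270)))) (XT.nd (nat_lit 78) (nat_lit 228) (nat_lit 0) (XT.lf (nat_lit 152) (nat_lit 24352677) (nat_lit 0) (nat_lit 56193923) (nat_lit 76) (nat_lit 56193923) (nat_lit 207) (nat_lit 1) (nat_lit 205) (nat_lit 1) (nat_lit 206) (nat_lit 1) (nat_lit 350) (nat_lit 281) (nat_lit 269)) (XT.nd (nat_lit 78) (nat_lit 0) (nat_lit 0) (XT.lf (nat_lit 228) (nat_lit 123287568) (nat_lit 0) (nat_lit 3275260) (nat_lit 152) (nat_lit 3275260) (nat_lit 205) (nat_lit 1) (nat_lit 202) (nat_lit 1) (nat_lit 204) (nat_lit 1) (nat_lit 351) (nat_lit 281) (nat_lit 268)) (XT.lf (nat_lit 76) (nat_lit 43147997) (nat_lit 0) (nat_lit 36642687) (nat_lit 228) (nat_lit 43147997) (nat_lit 203) (nat_lit 1) (nat_lit 202) (nat_lit 1) (nat_lit 205) (nat_lit 1) (nat_lit 352) (nat_lit 281) (nat_lit 267)))))) (XT.nd (nat_lit 390) (nat_lit 304) (nat_lit 0) (XT.nd (nat_lit 156) (nat_lit 228) (nat_lit 0) (XT.nd (nat_lit 78) (nat_lit 0)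 (nat_lit 0) (XT.lf (nat_lit 152) (nat_lit 52463832) (nat_lit 0) (nat_lit 32129057) (nat_lit 76) (nat_lit 32129057) (nat_lit 203) (nat_lit 1) (nat_lit 201) (nat_lit 1) (nat_lit 202) (nat_lit 1) (nat_lit 353) (nat_lit 281) (nat_lit 266)) (XT.lf (nat_lit 0) (nat_lit 10273141) (nat_lit 0) (nat_lit 90443947) (nat_lit 152) (nat_lit 10273141) (nat_lit 201) (nat_lit 3) (nat_lit 201) (nat_lit 1) (nat_lit 203) (nat_lit 1) (nat_lit 354) (nat_lit 281) (nat_lit 265))) (XT.nd (nat_lit 78) (nat_lit 76) (nat_lit 0) (XT.lf (nat_lit 76) (nat_lit 47544054) (nat_lit 0) (nat_lit 10311483) (nat_lit 152) (nat_lit 47544054) (nat_lit 200) (nat_lit 1) (nat_lit 199) (nat_lit 1) (nat_lit 201) (nat_lit 1) (nat_lit 355) (nat_lit 281) (nat_lit 264)) (XT.nd (nat_lit 78) (nat_lit 0) (nat_lit 0) (XT.lf (nat_lit 152) (nat_lit 63509505) (nat_lit 0) (nat_lit 18369893) (nat_lit 76) (nat_lit 18369893) (nat_lit 200) (nat_lit 1) (nat_lit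 198) (nat_lit 1) (nat_lit 199) (nat_lit 1) (nat_lit 356) (nat_lit 281) (nat_lit 263)) (XT.lf (nat_lit 0) (nat_lit 16512793) (nat_lit 0) (nat_lit 62350712) (nat_lit 152) (nat_lit 16512793) (nat_lit 198) (nat_lit 3) (nat_lit 198) (nat_lit 1) (nat_lit 200) (nat_lit 1) (nat_lit 357) (nat_lit 281) (nat_lit 262))))) (XT.nd (nat_lit 234) (nat_lit 76) (nat_lit 0) (XT.nd (nat_lit 78) (nat_lit 152) (nat_lit 0) (XT.lf (nat_lit 76) (nat_lit 3683709) (nat_lit 0) (nat_lit 43542768) (nat_lit 76) (nat_lit 43542768) (nat_lit 198) (nat_lit 3) (nat_lit 197) (nat_lit 1) (nat_lit 198) (nat_lit 1) (nat_lit 358) (nat_lit 281) (nat_lit 261)) (XT.nd (nat_lit 78) (nat_lit 0) (nat_lit 0) (XT.lf (nat_lit 152) (nat_lit 65453625) (nat_lit 0) (nat_lit 10503046) (nat_lit 76) (nat_lit 10503046) (nat_lit 197) (nat_lit 1) (nat_lit 195) (nat_lit 1) (nat_lit 196) (nat_lit 1) (nat_lit 359) (nat_lit 281) (nat_lit 260)) (XT.lf (nat_lit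 0) (nat_lit 18692627) (nat_lit 0) (nat_lit 44900606) (nat_lit 152) (nat_lit 18692627) (nat_lit 195) (nat_lit 3) (nat_lit 195) (nat_lit 1) (nat_lit 197) (nat_lit 1) (nat_lit 360) (nat_lit 281) (nat_lit 259)))) (XT.nd (nat_lit 44928) (nat_lit 0) (nat_lit 1596) (XT.lf (nat_lit 76) (nat_lit 10937039) (nat_lit 0) (nat_lit 33726586) (nat_lit 76) (nat_lit 33726586) (nat_lit 195) (nat_lit 3) (nat_lit 194) (nat_lit 1) (nat_lit 195) (nat_lit 1) (nat_lit 361) (nat_lit 281) (nat_lit 258)) (XT.nd (nat_lit 78) (nat_lit 0) (nat_lit 0) (XT.lf (nat_lit 380) (nat_lit 56697421) (nat_lit 0) (nat_lit 50218302) (nat_lit 380) (nat_lit 56697421) (nat_lit 220) (nat_lit 1) (nat_lit 215) (nat_lit 0) (nat_lit 220) (nat_lit 0) (nat_lit 336) (nat_lit 282) (nat_lit 282)) (XT.lf (nat_lit 380) (nat_lit 209716405) (nat_lit 76) (nat_lit 47935651) (nat_lit 0) (nat_lit 47935651) (nat_lit 220) (nat_lit 1) (nat_lit 216) (nat_lit 1)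 (nat_lit 215) (nat_lit 0) (nat_lit 337) (nat_lit 282) (nat_lit 281))))))))
noncomputable def ec3 : XT := (XT.nd (nat_lit 1716) (nat_lit 152) (nat_lit 0) (XT.nd (nat_lit 858) (nat_lit 836) (nat_lit 0) (XT.nd (nat_lit 390) (nat_lit 608) (nat_lit 0) (XT.nd (nat_lit 156) (nat_lit 228) (nat_lit 0) (XT.nd (nat_lit 78) (nat_lit 0) (nat_lit 0) (XT.lf (nat_lit 380) (nat_lit 92441789) (nat_lit 0) (nat_lit 100585386) (nat_lit 304) (nat_lit 92441789) (nat_lit 221) (nat_lit 1) (nat_lit 216) (nat_lit 1) (nat_lit 220) (nat_lit 1) (nat_lit 338) (nat_lit 282) (nat_lit 280)) (XT.lf (nat_lit 380) (nat_lit 158717752) (nat_lit 76) (nat_lit 54330148) (nat_lit 0) (nat_lit 54330148) (nat_lit 221) (nat_lit 1) (nat_lit 217) (nat_lit 1) (nat_lit 216) (nat_lit 1) (nat_lit 339) (nat_lit 282) (nat_lit 279))) (XT.nd (nat_lit 78) (nat_lit 304) (nat_lit 0) (XT.lf (nat_lit 76) (nat_lit 64203435) (nat_lit 0) (nat_lit 122254120)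 (nat_lit 304) (nat_lit 64203435) (nat_lit 218) (nat_lit 1) (nat_lit 217) (nat_lit 1) (nat_lit 221) (nat_lit 1) (nat_lit 340) (nat_lit 282) (nat_lit 278)) (XT.nd (nat_lit 78) (nat_lit 0) (nat_lit 0) (XT.lf (nat_lit 380) (nat_lit 96492578) (nat_lit 0) (nat_lit 69453507) (nat_lit 304) (nat_lit 69453507) (nat_lit 218) (nat_lit 1) (nat_lit 213) (nat_lit 1) (nat_lit 217) (nat_lit 1) (nat_lit 341) (nat_lit 282) (nat_lit 277)) (XT.lf (nat_lit 76) (nat_lit 32073067) (nat_lit 0) (nat_lit 157383346) (nat_lit 380) (nat_lit 32073067) (nat_lit 214) (nat_lit 1) (nat_lit 213) (nat_lit 1) (nat_lit 218) (nat_lit 1) (nat_lit 342) (nat_lit 282) (nat_lit 276))))) (XT.nd (nat_lit 234) (nat_lit 228) (nat_lit 0) (XT.nd (nat_lit 78) (nat_lit 228) (nat_lit 0) (XT.lf (nat_lit 228) (nat_lit 28865004) (nat_lit 0) (nat_lit 89835202) (nat_lit 152) (nat_lit 89835202) (nat_lit 214) (nat_lit 1) (nat_lit 211) (nat_lit 1) (nat_lit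 213) (nat_lit 1) (nat_lit 343) (nat_lit 282) (nat_lit 275)) (XT.nd (nat_lit 78) (nat_lit 0) (nat_lit 0) (XT.lf (nat_lit 228) (nat_lit 193972464) (nat_lit 0) (nat_lit 1521910) (nat_lit 152) (nat_lit 1521910) (nat_lit 211) (nat_lit 1) (nat_lit 208) (nat_lit 1) (nat_lit 210) (nat_lit 1) (nat_lit 344) (nat_lit 282) (nat_lit 274)) (XT.lf (nat_lit 76) (nat_lit 74525460) (nat_lit 0) (nat_lit 36588034) (nat_lit 228) (nat_lit 74525460) (nat_lit 209) (nat_lit 1) (nat_lit 208) (nat_lit 1) (nat_lit 211) (nat_lit 1) (nat_lit 345) (nat_lit 282) (nat_lit 273)))) (XT.nd (nat_lit 78) (nat_lit 76) (nat_lit 0) (XT.lf (nat_lit 228) (nat_lit 108325617) (nat_lit 0) (nat_lit 33601541) (nat_lit 152) (nat_lit 33601541) (nat_lit 209) (nat_lit 1) (nat_lit 206) (nat_lit 1) (nat_lit 208) (nat_lit 1) (nat_lit 346) (nat_lit 282) (nat_lit 272)) (XT.nd (nat_lit 78) (nat_lit 76) (nat_lit 0) (XT.lf (nat_lit 76) (nat_lit 33876973)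 (nat_lit 0) (nat_lit 98310398) (nat_lit 228) (nat_lit 33876973) (nat_lit 207) (nat_lit 1) (nat_lit 206) (nat_lit 1) (nat_lit 209) (nat_lit 1) (nat_lit 347) (nat_lit 282) (nat_lit 271)) (XT.lf (nat_lit 152) (nat_lit 28005579) (nat_lit 0) (nat_lit 64623011) (nat_lit 76) (nat_lit 64623011) (nat_lit 207) (nat_lit 1) (nat_lit 205) (nat_lit 1) (nat_lit 206) (nat_lit 1) (nat_lit 348) (nat_lit 282) (nat_lit 270)))))) (XT.nd (nat_lit 390) (nat_lit 380) (nat_lit 0) (XT.nd (nat_lit 156) (nat_lit 228) (nat_lit 0) (XT.nd (nat_lit 78) (nat_lit 0) (nat_lit 0) (XT.lf (nat_lit 228) (nat_lit 141780704) (nat_lit 0) (nat_lit 3766549) (nat_lit 152) (nat_lit 3766549) (nat_lit 205) (nat_lit 1) (nat_lit 202) (nat_lit 1) (nat_lit 204) (nat_lit 1) (nat_lit 349) (nat_lit 282) (nat_lit 269)) (XT.lf (nat_lit 76) (nat_lit 49620197) (nat_lit 0) (nat_lit 42139090) (nat_lit 228) (nat_lit 49620197) (nat_lit 203) (nat_lit 1) (nat_lit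 202) (nat_lit 1) (nat_lit 205) (nat_lit 1) (nat_lit 350) (nat_lit 282) (nat_lit 268))) (XT.nd (nat_lit 78) (nat_lit 152) (nat_lit 0) (XT.lf (nat_lit 152) (nat_lit 60333407) (nat_lit 0) (nat_lit 36948416) (nat_lit 76) (nat_lit 36948416) (nat_lit 203) (nat_lit 1) (nat_lit 201) (nat_lit 1) (nat_lit 202) (nat_lit 1) (nat_lit 351) (nat_lit 282) (nat_lit 267)) (XT.nd (nat_lit 78) (nat_lit 152) (nat_lit 0) (XT.lf (nat_lit 0) (nat_lit 11814112) (nat_lit 0) (nat_lit 104010539) (nat_lit 152) (nat_lit 11814112) (nat_lit 201) (nat_lit 3) (nat_lit 201) (nat_lit 1) (nat_lit 203) (nat_lit 1) (nat_lit 352) (nat_lit 282) (nat_lit 266)) (XT.lf (nat_lit 76) (nat_lit 54675663) (nat_lit 0) (nat_lit 11858206) (nat_lit 152) (nat_lit 54675663) (nat_lit 200) (nat_lit 1) (nat_lit 199) (nat_lit 1) (nat_lit 201) (nat_lit 1) (nat_lit 353) (nat_lit 282) (nat_lit 265))))) (XT.nd (nat_lit 234) (nat_lit 228) (nat_lit 0) (XT.nd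 (nat_lit 78) (nat_lit 76) (nat_lit 0) (XT.lf (nat_lit 152) (nat_lit 73035931) (nat_lit 0) (nat_lit 21125377) (nat_lit 76) (nat_lit 21125377) (nat_lit 200) (nat_lit 1) (nat_lit 198) (nat_lit 1) (nat_lit 199) (nat_lit 1) (nat_lit 354) (nat_lit 282) (nat_lit 264)) (XT.nd (nat_lit 78) (nat_lit 76) (nat_lit 0) (XT.lf (nat_lit 0) (nat_lit 18989712) (nat_lit 0) (nat_lit 71703319) (nat_lit 152) (nat_lit 18989712) (nat_lit 198) (nat_lit 3) (nat_lit 198) (nat_lit 1) (nat_lit 200) (nat_lit 1) (nat_lit 355) (nat_lit 282) (nat_lit 263)) (XT.lf (nat_lit 76) (nat_lit 4236265) (nat_lit 0) (nat_lit 50074184) (nat_lit 76) (nat_lit 50074184) (nat_lit 198) (nat_lit 3) (nat_lit 197) (nat_lit 1) (nat_lit 198) (nat_lit 1) (nat_lit 356) (nat_lit 282) (nat_lit 262)))) (XT.nd (nat_lit 78) (nat_lit 76) (nat_lit 0) (XT.lf (nat_lit 152) (nat_lit 75271669) (nat_lit 0) (nat_lit 12078502) (nat_lit 76) (nat_lit 12078502) (nat_lit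 197) (nat_lit 1) (nat_lit 195) (nat_lit 1) (nat_lit 196) (nat_lit 1) (nat_lit 357) (nat_lit 282) (nat_lit 261)) (XT.nd (nat_lit 78) (nat_lit 76) (nat_lit 0) (XT.lf (nat_lit 0) (nat_lit 21496521) (nat_lit 0) (nat_lit 51635697) (nat_lit 152) (nat_lit 21496521) (nat_lit 195) (nat_lit 3) (nat_lit 195) (nat_lit 1) (nat_lit 197) (nat_lit 1) (nat_lit 358) (nat_lit 282) (nat_lit 260)) (XT.lf (nat_lit 76) (nat_lit 12577595) (nat_lit 0) (nat_lit 38785574) (nat_lit 76) (nat_lit 38785574) (nat_lit 195) (nat_lit 3) (nat_lit 194) (nat_lit 1) (nat_lit 195) (nat_lit 1) (nat_lit 359) (nat_lit 282) (nat_lit 259))))))) (XT.nd (nat_lit 45552) (nat_lit 0) (nat_lit 380) (XT.nd (nat_lit 45084) (nat_lit 0) (nat_lit 1216) (XT.nd (nat_lit 44850) (nat_lit 0) (nat_lit 1748) (XT.nd (nat_lit 78) (nat_lit 0) (nat_lit 0) (XT.lf (nat_lit 152) (nat_lit 72178681) (nat_lit 0) (nat_lit 6905923) (nat_lit 76) (nat_lit 6905923) (nat_lit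 194) (nat_lit 1) (nat_lit 192) (nat_lit 1) (nat_lit 193) (nat_lit 1) (nat_lit 360) (nat_lit 282) (nat_lit 258)) (XT.lf (nat_lit 0) (nat_lit 21542090) (nat_lit 0) (nat_lit 38774261) (nat_lit 152) (nat_lit 21542090) (nat_lit 192) (nat_lit 3) (nat_lit 192) (nat_lit 1) (nat_lit 194) (nat_lit 1) (nat_lit 361) (nat_lit 282) (nat_lit 257))) (XT.nd (nat_lit 78) (nat_lit 0) (nat_lit 0) (XT.lf (nat_lit 380) (nat_lit 65202035) (nat_lit 0) (nat_lit 57751047) (nat_lit 380) (nat_lit 65202035) (nat_lit 220) (nat_lit 1) (nat_lit 215) (nat_lit 0) (nat_lit 220) (nat_lit 0) (nat_lit 334) (nat_lit 283) (nat_lit 283)) (XT.nd (nat_lit 78) (nat_lit 0) (nat_lit 76) (XT.lf (nat_lit 380) (nat_lit 241173866) (nat_lit 76) (nat_lit 55125999) (nat_lit 0) (nat_lit 55125999) (nat_lit 220) (nat_lit 1) (nat_lit 216) (nat_lit 1) (nat_lit 215) (nat_lit 0) (nat_lit 335) (nat_lit 283) (nat_lit 282)) (XT.lf (nat_lit 380) (nat_lit 106308057)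 (nat_lit 0) (nat_lit 115673194) (nat_lit 304) (nat_lit 106308057) (nat_lit 221) (nat_lit 1) (nat_lit 216) (nat_lit 1) (nat_lit 220) (nat_lit 1) (nat_lit 336) (nat_lit 283) (nat_lit 281))))) (XT.nd (nat_lit 234) (nat_lit 380) (nat_lit 0) (XT.nd (nat_lit 78) (nat_lit 228) (nat_lit 0) (XT.lf (nat_lit 380) (nat_lit 182525414) (nat_lit 76) (nat_lit 62479670) (nat_lit 0) (nat_lit 62479670) (nat_lit 221) (nat_lit 1) (nat_lit 217) (nat_lit 1) (nat_lit 216) (nat_lit 1) (nat_lit 337) (nat_lit 283) (nat_lit 280)) (XT.nd (nat_lit 78) (nat_lit 304) (nat_lit 0) (XT.lf (nat_lit 76) (nat_lit 73833951) (nat_lit 0) (nat_lit 140592238) (nat_lit 304) (nat_lit 73833951) (nat_lit 218) (nat_lit 1) (nat_lit 217) (nat_lit 1) (nat_lit 221) (nat_lit 1) (nat_lit 338) (nat_lit 283) (nat_lit 279)) (XT.lf (nat_lit 380) (nat_lit 110966465) (nat_lit 0) (nat_lit 79871533) (nat_lit 304) (nat_lit 79871533) (nat_lit 218) (nat_lit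 1) (nat_lit 213) (nat_lit 1) (nat_lit 217) (nat_lit 1) (nat_lit 339) (nat_lit 283) (nat_lit 278)))) (XT.nd (nat_lit 78) (nat_lit 380) (nat_lit 0) (XT.lf (nat_lit 76) (nat_lit 36884027) (nat_lit 0) (nat_lit 180990847) (nat_lit 380) (nat_lit 36884027) (nat_lit 214) (nat_lit 1) (nat_lit 213) (nat_lit 1) (nat_lit 218) (nat_lit 1) (nat_lit 340) (nat_lit 283) (nat_lit 277)) (XT.nd (nat_lit 78) (nat_lit 228) (nat_lit 0) (XT.lf (nat_lit 228) (nat_lit 33194754) (nat_lit 0) (nat_lit 103310483) (nat_lit 152) (nat_lit 103310483) (nat_lit 214) (nat_lit 1) (nat_lit 211) (nat_lit 1) (nat_lit 213) (nat_lit 1) (nat_lit 341) (nat_lit 283) (nat_lit 276)) (XT.lf (nat_lit 228) (nat_lit 223068334) (nat_lit 0) (nat_lit 1750196) (nat_lit 152) (nat_lit 1750196) (nat_lit 211) (nat_lit 1) (nat_lit 208) (nat_lit 1) (nat_lit 210) (nat_lit 1) (nat_lit 342) (nat_lit 283) (nat_lit 275)))))) (XT.nd (nat_lit 468) (nat_lit 380)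 (nat_lit 0) (XT.nd (nat_lit 234) (nat_lit 304) (nat_lit 0) (XT.nd (nat_lit 78) (nat_lit 152) (nat_lit 0) (XT.lf (nat_lit 76) (nat_lit 85704279) (nat_lit 0) (nat_lit 42076239) (nat_lit 228) (nat_lit 85704279) (nat_lit 209) (nat_lit 1) (nat_lit 208) (nat_lit 1) (nat_lit 211) (nat_lit 1) (nat_lit 343) (nat_lit 283) (nat_lit 274)) (XT.nd (nat_lit 78) (nat_lit 0) (nat_lit 0) (XT.lf (nat_lit 228) (nat_lit 124574460) (nat_lit 0) (nat_lit 38641772) (nat_lit 152) (nat_lit 38641772) (nat_lit 209) (nat_lit 1) (nat_lit 206) (nat_lit 1) (nat_lit 208) (nat_lit 1) (nat_lit 344) (nat_lit 283) (nat_lit 273)) (XT.lf (nat_lit 76) (nat_lit 38958519) (nat_lit 0) (nat_lit 113056957) (nat_lit 228) (nat_lit 38958519) (nat_lit 207) (nat_lit 1) (nat_lit 206) (nat_lit 1) (nat_lit 209) (nat_lit 1) (nat_lit 345) (nat_lit 283) (nat_lit 272)))) (XT.nd (nat_lit 78) (nat_lit 228) (nat_lit 0) (XT.lf (nat_lit 152) (nat_lit 32206416)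 (nat_lit 0) (nat_lit 74316463) (nat_lit 76) (nat_lit 74316463) (nat_lit 207) (nat_lit 1) (nat_lit 205) (nat_lit 1) (nat_lit 206) (nat_lit 1) (nat_lit 346) (nat_lit 283) (nat_lit 271)) (XT.nd (nat_lit 78) (nat_lit 0) (nat_lit 0) (XT.lf (nat_lit 228) (nat_lit 163047809) (nat_lit 0) (nat_lit 4331531) (nat_lit 152) (nat_lit 4331531) (nat_lit 205) (nat_lit 1) (nat_lit 202) (nat_lit 1) (nat_lit 204) (nat_lit 1) (nat_lit 347) (nat_lit 283) (nat_lit 270)) (XT.lf (nat_lit 76) (nat_lit 57063226) (nat_lit 0) (nat_lit 48459953) (nat_lit 228) (nat_lit 57063226) (nat_lit 203) (nat_lit 1) (nat_lit 202) (nat_lit 1) (nat_lit 205) (nat_lit 1) (nat_lit 348) (nat_lit 283) (nat_lit 269))))) (XT.nd (nat_lit 234) (nat_lit 152) (nat_lit 0) (XT.nd (nat_lit 78) (nat_lit 152) (nat_lit 0) (XT.lf (nat_lit 152) (nat_lit 69383418) (nat_lit 0) (nat_lit 42490679) (nat_lit 76) (nat_lit 42490679) (nat_lit 203) (nat_lit 1) (nat_lit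 201) (nat_lit 1) (nat_lit 202) (nat_lit 1) (nat_lit 349) (nat_lit 283) (nat_lit 268)) (XT.nd (nat_lit 78) (nat_lit 152) (nat_lit 0) (XT.lf (nat_lit 0) (nat_lit 13586229) (nat_lit 0) (nat_lit 119612120) (nat_lit 152) (nat_lit 13586229) (nat_lit 201) (nat_lit 3) (nat_lit 201) (nat_lit 1) (nat_lit 203) (nat_lit 1) (nat_lit 350) (nat_lit 283) (nat_lit 267)) (XT.lf (nat_lit 76) (nat_lit 62877012) (nat_lit 0) (nat_lit 13636937) (nat_lit 152) (nat_lit 62877012) (nat_lit 200) (nat_lit 1) (nat_lit 199) (nat_lit 1) (nat_lit 201) (nat_lit 1) (nat_lit 351) (nat_lit 283) (nat_lit 266)))) (XT.nd (nat_lit 78) (nat_lit 76) (nat_lit 0) (XT.lf (nat_lit 152) (nat_lit 83991320) (nat_lit 0) (nat_lit 24294183) (nat_lit 76) (nat_lit 24294183) (nat_lit 200) (nat_lit 1) (nat_lit 198) (nat_lit 1) (nat_lit 199) (nat_lit 1) (nat_lit 352) (nat_lit 283) (nat_lit 265)) (XT.nd (nat_lit 78) (nat_lit 76) (nat_lit 0) (XT.lf (nat_lit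 0) (nat_lit 21838169) (nat_lit 0) (nat_lit 82458817) (nat_lit 152) (nat_lit 21838169) (nat_lit 198) (nat_lit 3) (nat_lit 198) (nat_lit 1) (nat_lit 200) (nat_lit 1) (nat_lit 353) (nat_lit 283) (nat_lit 264)) (XT.lf (nat_lit 76) (nat_lit 4871705) (nat_lit 0) (nat_lit 57585311) (nat_lit 76) (nat_lit 57585311) (nat_lit 198) (nat_lit 3) (nat_lit 197) (nat_lit 1) (nat_lit 198) (nat_lit 1) (nat_lit 354) (nat_lit 283) (nat_lit 263))))))))
noncomputable def ec4 : XT := (XT.nd (nat_lit 46176) (nat_lit 228) (nat_lit 0) (XT.nd (nat_lit 45318) (nat_lit 0) (nat_lit 988) (XT.nd (nat_lit 390) (nat_lit 228) (nat_lit 0) (XT.nd (nat_lit 156) (nat_lit 228) (nat_lit 0) (XT.nd (nat_lit 78) (nat_lit 0) (nat_lit 0) (XT.lf (nat_lit 152) (nat_lit 86562420) (nat_lit 0) (nat_lit 13890278) (nat_lit 76) (nat_lit 13890278) (nat_lit 197) (nat_lit 1) (nat_lit 195) (nat_lit 1) (nat_lit 196) (nat_lit 1) (nat_lit 355) (nat_lit 283)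 (nat_lit 262)) (XT.lf (nat_lit 0) (nat_lit 24720999) (nat_lit 0) (nat_lit 59381051) (nat_lit 152) (nat_lit 24720999) (nat_lit 195) (nat_lit 3) (nat_lit 195) (nat_lit 1) (nat_lit 197) (nat_lit 1) (nat_lit 356) (nat_lit 283) (nat_lit 261))) (XT.nd (nat_lit 78) (nat_lit 152) (nat_lit 0) (XT.lf (nat_lit 76) (nat_lit 14464234) (nat_lit 0) (nat_lit 44603410) (nat_lit 76) (nat_lit 44603410) (nat_lit 195) (nat_lit 3) (nat_lit 194) (nat_lit 1) (nat_lit 195) (nat_lit 1) (nat_lit 357) (nat_lit 283) (nat_lit 260)) (XT.nd (nat_lit 78) (nat_lit 0) (nat_lit 0) (XT.lf (nat_lit 152) (nat_lit 83005483) (nat_lit 0) (nat_lit 7941811) (nat_lit 76) (nat_lit 7941811) (nat_lit 194) (nat_lit 1) (nat_lit 192) (nat_lit 1) (nat_lit 193) (nat_lit 1) (nat_lit 358) (nat_lit 283) (nat_lit 259)) (XT.lf (nat_lit 0) (nat_lit 24773403) (nat_lit 0) (nat_lit 44590400) (nat_lit 152) (nat_lit 24773403) (nat_lit 192) (nat_lit 3) (nat_lit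 192) (nat_lit 1) (nat_lit 194) (nat_lit 1) (nat_lit 359) (nat_lit 283) (nat_lit 258))))) (XT.nd (nat_lit 44694) (nat_lit 0) (nat_lit 1976) (XT.nd (nat_lit 78) (nat_lit 152) (nat_lit 0) (XT.lf (nat_lit 76) (nat_lit 18425469) (nat_lit 0) (nat_lit 35657641) (nat_lit 76) (nat_lit 35657641) (nat_lit 192) (nat_lit 3) (nat_lit 191) (nat_lit 1) (nat_lit 192) (nat_lit 1) (nat_lit 360) (nat_lit 283) (nat_lit 257)) (XT.nd (nat_lit 78) (nat_lit 0) (nat_lit 0) (XT.lf (nat_lit 152) (nat_lit 76600514) (nat_lit 0) (nat_lit 4540756) (nat_lit 76) (nat_lit 4540756) (nat_lit 191) (nat_lit 1) (nat_lit 189) (nat_lit 1) (nat_lit 190) (nat_lit 1) (nat_lit 361) (nat_lit 283) (nat_lit 256)) (XT.lf (nat_lit 0) (nat_lit 23415658) (nat_lit 0) (nat_lit 34746090) (nat_lit 152) (nat_lit 23415658) (nat_lit 189) (nat_lit 3) (nat_lit 189) (nat_lit 1) (nat_lit 191) (nat_lit 1) (nat_lit 362) (nat_lit 283) (nat_lit 255)))) (XT.nd (nat_lit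 78) (nat_lit 0) (nat_lit 0) (XT.lf (nat_lit 380) (nat_lit 74982340) (nat_lit 0) (nat_lit 66413704) (nat_lit 380) (nat_lit 74982340) (nat_lit 220) (nat_lit 1) (nat_lit 215) (nat_lit 0) (nat_lit 220) (nat_lit 0) (nat_lit 332) (nat_lit 284) (nat_lit 284)) (XT.nd (nat_lit 78) (nat_lit 0) (nat_lit 76) (XT.lf (nat_lit 380) (nat_lit 277349946) (nat_lit 76) (nat_lit 63394899) (nat_lit 0) (nat_lit 63394899) (nat_lit 220) (nat_lit 1) (nat_lit 216) (nat_lit 1) (nat_lit 215) (nat_lit 0) (nat_lit 333) (nat_lit 284) (nat_lit 283)) (XT.lf (nat_lit 380) (nat_lit 122254266) (nat_lit 0) (nat_lit 133024173) (nat_lit 304) (nat_lit 122254266) (nat_lit 221) (nat_lit 1) (nat_lit 216) (nat_lit 1) (nat_lit 220) (nat_lit 1) (nat_lit 334) (nat_lit 284) (nat_lit 282)))))) (XT.nd (nat_lit 390) (nat_lit 684) (nat_lit 0) (XT.nd (nat_lit 156) (nat_lit 380) (nat_lit 0) (XT.nd (nat_lit 78) (nat_lit 0) (nat_lit 76) (XT.lf (nat_lit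 380) (nat_lit 209904227) (nat_lit 76) (nat_lit 71851620) (nat_lit 0) (nat_lit 71851620) (nat_lit 221) (nat_lit 1) (nat_lit 217) (nat_lit 1) (nat_lit 216) (nat_lit 1) (nat_lit 335) (nat_lit 284) (nat_lit 281)) (XT.lf (nat_lit 76) (nat_lit 84909043) (nat_lit 0) (nat_lit 161681074) (nat_lit 304) (nat_lit 84909043) (nat_lit 218) (nat_lit 1) (nat_lit 217) (nat_lit 1) (nat_lit 221) (nat_lit 1) (nat_lit 336) (nat_lit 284) (nat_lit 280))) (XT.nd (nat_lit 78) (nat_lit 152) (nat_lit 0) (XT.lf (nat_lit 380) (nat_lit 127611435) (nat_lit 0) (nat_lit 91852264) (nat_lit 304) (nat_lit 91852264) (nat_lit 218) (nat_lit 1) (nat_lit 213) (nat_lit 1) (nat_lit 217) (nat_lit 1) (nat_lit 337) (nat_lit 284) (nat_lit 279)) (XT.nd (nat_lit 78) (nat_lit 152) (nat_lit 0) (XT.lf (nat_lit 76) (nat_lit 42416631) (nat_lit 0) (nat_lit 208139475) (nat_lit 380) (nat_lit 42416631) (nat_lit 214) (nat_lit 1) (nat_lit 213) (nat_lit 1)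 (nat_lit 218) (nat_lit 1) (nat_lit 338) (nat_lit 284) (nat_lit 278)) (XT.lf (nat_lit 228) (nat_lit 38173967) (nat_lit 0) (nat_lit 118807055) (nat_lit 152) (nat_lit 118807055) (nat_lit 214) (nat_lit 1) (nat_lit 211) (nat_lit 1) (nat_lit 213) (nat_lit 1) (nat_lit 339) (nat_lit 284) (nat_lit 277))))) (XT.nd (nat_lit 234) (nat_lit 304) (nat_lit 0) (XT.nd (nat_lit 78) (nat_lit 152) (nat_lit 0) (XT.lf (nat_lit 228) (nat_lit 256528584) (nat_lit 0) (nat_lit 2012726) (nat_lit 152) (nat_lit 2012726) (nat_lit 211) (nat_lit 1) (nat_lit 208) (nat_lit 1) (nat_lit 210) (nat_lit 1) (nat_lit 340) (nat_lit 284) (nat_lit 276)) (XT.nd (nat_lit 78) (nat_lit 152) (nat_lit 0) (XT.lf (nat_lit 76) (nat_lit 98559921) (nat_lit 0) (nat_lit 48387675) (nat_lit 228) (nat_lit 98559921) (nat_lit 209) (nat_lit 1) (nat_lit 208) (nat_lit 1) (nat_lit 211) (nat_lit 1) (nat_lit 341) (nat_lit 284) (nat_lit 275)) (XT.lf (nat_lit 228)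 (nat_lit 143260629) (nat_lit 0) (nat_lit 44438038) (nat_lit 152) (nat_lit 44438038) (nat_lit 209) (nat_lit 1) (nat_lit 206) (nat_lit 1) (nat_lit 208) (nat_lit 1) (nat_lit 342) (nat_lit 284) (nat_lit 274)))) (XT.nd (nat_lit 78) (nat_lit 304) (nat_lit 0) (XT.lf (nat_lit 76) (nat_lit 44802297) (nat_lit 0) (nat_lit 130015501) (nat_lit 228) (nat_lit 44802297) (nat_lit 207) (nat_lit 1) (nat_lit 206) (nat_lit 1) (nat_lit 209) (nat_lit 1) (nat_lit 343) (nat_lit 284) (nat_lit 273)) (XT.nd (nat_lit 78) (nat_lit 228) (nat_lit 0) (XT.lf (nat_lit 152) (nat_lit 37037378) (nat_lit 0) (nat_lit 85463932) (nat_lit 76) (nat_lit 85463932) (nat_lit 207) (nat_lit 1) (nat_lit 205) (nat_lit 1) (nat_lit 206) (nat_lit 1) (nat_lit 344) (nat_lit 284) (nat_lit 272)) (XT.lf (nat_lit 228) (nat_lit 187504981) (nat_lit 0) (nat_lit 4981261) (nat_lit 152) (nat_lit 4981261) (nat_lit 205) (nat_lit 1) (nat_lit 202) (nat_lit 1) (nat_lit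 204) (nat_lit 1) (nat_lit 345) (nat_lit 284) (nat_lit 271))))))) (XT.nd (nat_lit 858) (nat_lit 456) (nat_lit 0) (XT.nd (nat_lit 390) (nat_lit 456) (nat_lit 0) (XT.nd (nat_lit 156) (nat_lit 228) (nat_lit 0) (XT.nd (nat_lit 78) (nat_lit 76) (nat_lit 0) (XT.lf (nat_lit 76) (nat_lit 65622710) (nat_lit 0) (nat_lit 55728946) (nat_lit 228) (nat_lit 65622710) (nat_lit 203) (nat_lit 1) (nat_lit 202) (nat_lit 1) (nat_lit 205) (nat_lit 1) (nat_lit 346) (nat_lit 284) (nat_lit 270)) (XT.lf (nat_lit 152) (nat_lit 79790930) (nat_lit 0) (nat_lit 48864281) (nat_lit 76) (nat_lit 48864281) (nat_lit 203) (nat_lit 1) (nat_lit 201) (nat_lit 1) (nat_lit 202) (nat_lit 1) (nat_lit 347) (nat_lit 284) (nat_lit 269))) (XT.nd (nat_lit 78) (nat_lit 228) (nat_lit 0) (XT.lf (nat_lit 0) (nat_lit 15624163) (nat_lit 0) (nat_lit 137553938) (nat_lit 152) (nat_lit 15624163) (nat_lit 201) (nat_lit 3) (nat_lit 201) (nat_lit 1) (nat_lit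 203) (nat_lit 1) (nat_lit 348) (nat_lit 284) (nat_lit 268)) (XT.nd (nat_lit 78) (nat_lit 76) (nat_lit 0) (XT.lf (nat_lit 76) (nat_lit 72308564) (nat_lit 0) (nat_lit 15682477) (nat_lit 152) (nat_lit 72308564) (nat_lit 200) (nat_lit 1) (nat_lit 199) (nat_lit 1) (nat_lit 201) (nat_lit 1) (nat_lit 349) (nat_lit 284) (nat_lit 267)) (XT.lf (nat_lit 152) (nat_lit 96590019) (nat_lit 0) (nat_lit 27938311) (nat_lit 76) (nat_lit 27938311) (nat_lit 200) (nat_lit 1) (nat_lit 198) (nat_lit 1) (nat_lit 199) (nat_lit 1) (nat_lit 350) (nat_lit 284) (nat_lit 266))))) (XT.nd (nat_lit 234) (nat_lit 228) (nat_lit 0) (XT.nd (nat_lit 78) (nat_lit 228) (nat_lit 0) (XT.lf (nat_lit 0) (nat_lit 25113895) (nat_lit 0) (nat_lit 94827639) (nat_lit 152) (nat_lit 25113895) (nat_lit 198) (nat_lit 3) (nat_lit 198) (nat_lit 1) (nat_lit 200) (nat_lit 1) (nat_lit 351) (nat_lit 284) (nat_lit 265)) (XT.nd (nat_lit 78) (nat_lit 152) (nat_lit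 0) (XT.lf (nat_lit 76) (nat_lit 5602461) (nat_lit 0) (nat_lit 66223108) (nat_lit 76) (nat_lit 66223108) (nat_lit 198) (nat_lit 3) (nat_lit 197) (nat_lit 1) (nat_lit 198) (nat_lit 1) (nat_lit 352) (nat_lit 284) (nat_lit 264)) (XT.lf (nat_lit 152) (nat_lit 99546783) (nat_lit 0) (nat_lit 15973820) (nat_lit 76) (nat_lit 15973820) (nat_lit 197) (nat_lit 1) (nat_lit 195) (nat_lit 1) (nat_lit 196) (nat_lit 1) (nat_lit 353) (nat_lit 284) (nat_lit 263)))) (XT.nd (nat_lit 78) (nat_lit 228) (nat_lit 0) (XT.lf (nat_lit 0) (nat_lit 28429149) (nat_lit 0) (nat_lit 68288209) (nat_lit 152) (nat_lit 28429149) (nat_lit 195) (nat_lit 3) (nat_lit 195) (nat_lit 1) (nat_lit 197) (nat_lit 1) (nat_lit 354) (nat_lit 284) (nat_lit 262)) (XT.nd (nat_lit 78) (nat_lit 152) (nat_lit 0) (XT.lf (nat_lit 76) (nat_lit 16633869) (nat_lit 0) (nat_lit 51293921) (nat_lit 76) (nat_lit 51293921) (nat_lit 195) (nat_lit 3) (nat_lit 194)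 (nat_lit 1) (nat_lit 195) (nat_lit 1) (nat_lit 355) (nat_lit 284) (nat_lit 261)) (XT.lf (nat_lit 152) (nat_lit 95456306) (nat_lit 0) (nat_lit 9133083) (nat_lit 76) (nat_lit 9133083) (nat_lit 194) (nat_lit 1) (nat_lit 192) (nat_lit 1) (nat_lit 193) (nat_lit 1) (nat_lit 356) (nat_lit 284) (nat_lit 260)))))) (XT.nd (nat_lit 390) (nat_lit 152) (nat_lit 0) (XT.nd (nat_lit 156) (nat_lit 228) (nat_lit 0) (XT.nd (nat_lit 78) (nat_lit 76) (nat_lit 0) (XT.lf (nat_lit 0) (nat_lit 28489414) (nat_lit 0) (nat_lit 51278960) (nat_lit 152) (nat_lit 28489414) (nat_lit 192) (nat_lit 3) (nat_lit 192) (nat_lit 1) (nat_lit 194) (nat_lit 1) (nat_lit 357) (nat_lit 284) (nat_lit 259)) (XT.lf (nat_lit 76) (nat_lit 21189290) (nat_lit 0) (nat_lit 41006287) (nat_lit 76) (nat_lit 41006287) (nat_lit 192) (nat_lit 3) (nat_lit 191) (nat_lit 1) (nat_lit 192) (nat_lit 1) (nat_lit 358) (nat_lit 284) (nat_lit 258))) (XT.nd (nat_lit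 78) (nat_lit 76) (nat_lit 0) (XT.lf (nat_lit 152) (nat_lit 88090591) (nat_lit 0) (nat_lit 5221870) (nat_lit 76) (nat_lit 5221870) (nat_lit 191) (nat_lit 1) (nat_lit 189) (nat_lit 1) (nat_lit 190) (nat_lit 1) (nat_lit 359) (nat_lit 284) (nat_lit 257)) (XT.nd (nat_lit 78) (nat_lit 76) (nat_lit 0) (XT.lf (nat_lit 0) (nat_lit 26928006) (nat_lit 0) (nat_lit 39958004) (nat_lit 152) (nat_lit 26928006) (nat_lit 189) (nat_lit 3) (nat_lit 189) (nat_lit 1) (nat_lit 191) (nat_lit 1) (nat_lit 360) (nat_lit 284) (nat_lit 256)) (XT.lf (nat_lit 76) (nat_lit 22270542) (nat_lit 0) (nat_lit 33600974) (nat_lit 76) (nat_lit 33600974) (nat_lit 189) (nat_lit 3) (nat_lit 188) (nat_lit 1) (nat_lit 189) (nat_lit 1) (nat_lit 361) (nat_lit 284) (nat_lit 255))))) (XT.nd (nat_lit 44538) (nat_lit 0) (nat_lit 2280) (XT.nd (nat_lit 44382) (nat_lit 0) (nat_lit 2204) (XT.lf (nat_lit 152) (nat_lit 79507941) (nat_lit 0) (nat_lit 2985621)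 (nat_lit 76) (nat_lit 2985621) (nat_lit 188) (nat_lit 1) (nat_lit 186) (nat_lit 1) (nat_lit 187) (nat_lit 1) (nat_lit 362) (nat_lit 284) (nat_lit 254)) (XT.nd (nat_lit 78) (nat_lit 0) (nat_lit 0) (XT.lf (nat_lit 380) (nat_lit 86229691) (nat_lit 0) (nat_lit 76375760) (nat_lit 380) (nat_lit 86229691) (nat_lit 220) (nat_lit 1) (nat_lit 215) (nat_lit 0) (nat_lit 220) (nat_lit 0) (nat_lit 330) (nat_lit 285) (nat_lit 285)) (XT.lf (nat_lit 380) (nat_lit 318952438) (nat_lit 76) (nat_lit 72904134) (nat_lit 0) (nat_lit 72904134) (nat_lit 220) (nat_lit 1) (nat_lit 216) (nat_lit 1) (nat_lit 215) (nat_lit 0) (nat_lit 331) (nat_lit 285) (nat_lit 284)))) (XT.nd (nat_lit 78) (nat_lit 0) (nat_lit 0) (XT.lf (nat_lit 380) (nat_lit 140592406) (nat_lit 0) (nat_lit 152977800) (nat_lit 304) (nat_lit 140592406) (nat_lit 221) (nat_lit 1) (nat_lit 216) (nat_lit 1) (nat_lit 220) (nat_lit 1) (nat_lit 332) (nat_lit 285) (nat_lit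 283)) (XT.nd (nat_lit 78) (nat_lit 0) (nat_lit 76) (XT.lf (nat_lit 380) (nat_lit 241389861) (nat_lit 76) (nat_lit 82629364) (nat_lit 0) (nat_lit 82629364) (nat_lit 221) (nat_lit 1) (nat_lit 217) (nat_lit 1) (nat_lit 216) (nat_lit 1) (nat_lit 333) (nat_lit 285) (nat_lit 282)) (XT.lf (nat_lit 76) (nat_lit 97645400) (nat_lit 0) (nat_lit 185933235) (nat_lit 304) (nat_lit 97645400) (nat_lit 218) (nat_lit 1) (nat_lit 217) (nat_lit 1) (nat_lit 221) (nat_lit 1) (nat_lit 334) (nat_lit 285) (nat_lit 281))))))))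
noncomputable def ec5 : XT := (XT.nd (nat_lit 1716) (nat_lit 608) (nat_lit 0) (XT.nd (nat_lit 858) (nat_lit 760) (nat_lit 0) (XT.nd (nat_lit 390) (nat_lit 532) (nat_lit 0) (XT.nd (nat_lit 156) (nat_lit 380) (nat_lit 0) (XT.nd (nat_lit 78) (nat_lit 0) (nat_lit 0) (XT.lf (nat_lit 380) (nat_lit 146753150) (nat_lit 0) (nat_lit 105630103) (nat_lit 304) (nat_lit 105630103) (nat_lit 218) (nat_lit 1) (nat_lit 213) (nat_lit 1) (nat_lit 217) (nat_lit 1) (nat_lit 335) (nat_lit 285) (nat_lit 280)) (XT.lf (nat_lit 76) (nat_lit 48779126) (nat_lit 0) (nat_lit 239360396) (nat_lit 380) (nat_lit 48779126) (nat_lit 214) (nat_lit 1) (nat_lit 213) (nat_lit 1) (nat_lit 218) (nat_lit 1) (nat_lit 336) (nat_lit 285) (nat_lit 279))) (XT.nd (nat_lit 78) (nat_lit 228) (nat_lit 0) (XT.lf (nat_lit 228) (nat_lit 43900063) (nat_lit 0) (nat_lit 136628114) (nat_lit 152) (nat_lit 136628114) (nat_lit 214) (nat_lit 1) (nat_lit 211)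 (nat_lit 1) (nat_lit 213) (nat_lit 1) (nat_lit 337) (nat_lit 285) (nat_lit 278)) (XT.nd (nat_lit 78) (nat_lit 0) (nat_lit 0) (XT.lf (nat_lit 228) (nat_lit 295007872) (nat_lit 0) (nat_lit 2314635) (nat_lit 152) (nat_lit 2314635) (nat_lit 211) (nat_lit 1) (nat_lit 208) (nat_lit 1) (nat_lit 210) (nat_lit 1) (nat_lit 338) (nat_lit 285) (nat_lit 277)) (XT.lf (nat_lit 76) (nat_lit 113343910) (nat_lit 0) (nat_lit 55645826) (nat_lit 228) (nat_lit 113343910) (nat_lit 209) (nat_lit 1) (nat_lit 208) (nat_lit 1) (nat_lit 211) (nat_lit 1) (nat_lit 339) (nat_lit 285) (nat_lit 276))))) (XT.nd (nat_lit 234) (nat_lit 304) (nat_lit 0) (XT.nd (nat_lit 78) (nat_lit 76) (nat_lit 0) (XT.lf (nat_lit 228) (nat_lit 164749723) (nat_lit 0) (nat_lit 51103744) (nat_lit 152) (nat_lit 51103744) (nat_lit 209) (nat_lit 1) (nat_lit 206) (nat_lit 1) (nat_lit 208) (nat_lit 1) (nat_lit 340) (nat_lit 285) (nat_lit 275)) (XT.nd (nat_lit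 78) (nat_lit 76) (nat_lit 0) (XT.lf (nat_lit 76) (nat_lit 51522642) (nat_lit 0) (nat_lit 149517826) (nat_lit 228) (nat_lit 51522642) (nat_lit 207) (nat_lit 1) (nat_lit 206) (nat_lit 1) (nat_lit 209) (nat_lit 1) (nat_lit 341) (nat_lit 285) (nat_lit 274)) (XT.lf (nat_lit 152) (nat_lit 42592985) (nat_lit 0) (nat_lit 98283522) (nat_lit 76) (nat_lit 98283522) (nat_lit 207) (nat_lit 1) (nat_lit 205) (nat_lit 1) (nat_lit 206) (nat_lit 1) (nat_lit 342) (nat_lit 285) (nat_lit 273)))) (XT.nd (nat_lit 78) (nat_lit 76) (nat_lit 0) (XT.lf (nat_lit 228) (nat_lit 215630728) (nat_lit 0) (nat_lit 5728450) (nat_lit 152) (nat_lit 5728450) (nat_lit 205) (nat_lit 1) (nat_lit 202) (nat_lit 1) (nat_lit 204) (nat_lit 1) (nat_lit 343) (nat_lit 285) (nat_lit 272)) (XT.nd (nat_lit 78) (nat_lit 76) (nat_lit 0) (XT.lf (nat_lit 76) (nat_lit 75466117) (nat_lit 0) (nat_lit 64088288) (nat_lit 228) (nat_lit 75466117) (nat_lit 203)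 (nat_lit 1) (nat_lit 202) (nat_lit 1) (nat_lit 205) (nat_lit 1) (nat_lit 344) (nat_lit 285) (nat_lit 271)) (XT.lf (nat_lit 152) (nat_lit 91759570) (nat_lit 0) (nat_lit 56193923) (nat_lit 76) (nat_lit 56193923) (nat_lit 203) (nat_lit 1) (nat_lit 201) (nat_lit 1) (nat_lit 202) (nat_lit 1) (nat_lit 345) (nat_lit 285) (nat_lit 270)))))) (XT.nd (nat_lit 390) (nat_lit 456) (nat_lit 0) (XT.nd (nat_lit 156) (nat_lit 152) (nat_lit 0) (XT.nd (nat_lit 78) (nat_lit 152) (nat_lit 0) (XT.lf (nat_lit 0) (nat_lit 17967788) (nat_lit 0) (nat_lit 158187029) (nat_lit 152) (nat_lit 17967788) (nat_lit 201) (nat_lit 3) (nat_lit 201) (nat_lit 1) (nat_lit 203) (nat_lit 1) (nat_lit 346) (nat_lit 285) (nat_lit 269)) (XT.lf (nat_lit 76) (nat_lit 83154849) (nat_lit 0) (nat_lit 18034849) (nat_lit 152) (nat_lit 83154849) (nat_lit 200) (nat_lit 1) (nat_lit 199) (nat_lit 1) (nat_lit 201) (nat_lit 1) (nat_lit 347) (nat_lit 285)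 (nat_lit 268))) (XT.nd (nat_lit 78) (nat_lit 76) (nat_lit 0) (XT.lf (nat_lit 152) (nat_lit 111078521) (nat_lit 0) (nat_lit 32129057) (nat_lit 76) (nat_lit 32129057) (nat_lit 200) (nat_lit 1) (nat_lit 198) (nat_lit 1) (nat_lit 199) (nat_lit 1) (nat_lit 348) (nat_lit 285) (nat_lit 267)) (XT.nd (nat_lit 78) (nat_lit 76) (nat_lit 0) (XT.lf (nat_lit 0) (nat_lit 28880979) (nat_lit 0) (nat_lit 109051785) (nat_lit 152) (nat_lit 28880979) (nat_lit 198) (nat_lit 3) (nat_lit 198) (nat_lit 1) (nat_lit 200) (nat_lit 1) (nat_lit 349) (nat_lit 285) (nat_lit 266)) (XT.lf (nat_lit 76) (nat_lit 6442830) (nat_lit 0) (nat_lit 76156574) (nat_lit 76) (nat_lit 76156574) (nat_lit 198) (nat_lit 3) (nat_lit 197) (nat_lit 1) (nat_lit 198) (nat_lit 1) (nat_lit 350) (nat_lit 285) (nat_lit 265))))) (XT.nd (nat_lit 234) (nat_lit 228) (nat_lit 0) (XT.nd (nat_lit 78) (nat_lit 76) (nat_lit 0) (XT.lf (nat_lit 152) (nat_lit 114478800)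 (nat_lit 0) (nat_lit 18369893) (nat_lit 76) (nat_lit 18369893) (nat_lit 197) (nat_lit 1) (nat_lit 195) (nat_lit 1) (nat_lit 196) (nat_lit 1) (nat_lit 351) (nat_lit 285) (nat_lit 264)) (XT.nd (nat_lit 78) (nat_lit 76) (nat_lit 0) (XT.lf (nat_lit 0) (nat_lit 32693522) (nat_lit 0) (nat_lit 78531441) (nat_lit 152) (nat_lit 32693522) (nat_lit 195) (nat_lit 3) (nat_lit 195) (nat_lit 1) (nat_lit 197) (nat_lit 1) (nat_lit 352) (nat_lit 285) (nat_lit 263)) (XT.lf (nat_lit 76) (nat_lit 19128950) (nat_lit 0) (nat_lit 58988009) (nat_lit 76) (nat_lit 58988009) (nat_lit 195) (nat_lit 3) (nat_lit 194) (nat_lit 1) (nat_lit 195) (nat_lit 1) (nat_lit 353) (nat_lit 285) (nat_lit 262)))) (XT.nd (nat_lit 78) (nat_lit 76) (nat_lit 0) (XT.lf (nat_lit 152) (nat_lit 109774752) (nat_lit 0) (nat_lit 10503046) (nat_lit 76) (nat_lit 10503046) (nat_lit 194) (nat_lit 1) (nat_lit 192) (nat_lit 1) (nat_lit 193) (nat_lit 1) (nat_lit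 354) (nat_lit 285) (nat_lit 261)) (XT.nd (nat_lit 78) (nat_lit 76) (nat_lit 0) (XT.lf (nat_lit 0) (nat_lit 32762826) (nat_lit 0) (nat_lit 58970805) (nat_lit 152) (nat_lit 32762826) (nat_lit 192) (nat_lit 3) (nat_lit 192) (nat_lit 1) (nat_lit 194) (nat_lit 1) (nat_lit 355) (nat_lit 285) (nat_lit 260)) (XT.lf (nat_lit 76) (nat_lit 24367683) (nat_lit 0) (nat_lit 47157230) (nat_lit 76) (nat_lit 47157230) (nat_lit 192) (nat_lit 3) (nat_lit 191) (nat_lit 1) (nat_lit 192) (nat_lit 1) (nat_lit 356) (nat_lit 285) (nat_lit 259))))))) (XT.nd (nat_lit 44928) (nat_lit 0) (nat_lit 1368) (XT.nd (nat_lit 390) (nat_lit 228) (nat_lit 0) (XT.nd (nat_lit 156) (nat_lit 228) (nat_lit 0) (XT.nd (nat_lit 78) (nat_lit 0) (nat_lit 0) (XT.lf (nat_lit 152) (nat_lit 101304180) (nat_lit 0) (nat_lit 6005150) (nat_lit 76) (nat_lit 6005150) (nat_lit 191) (nat_lit 1) (nat_lit 189) (nat_lit 1) (nat_lit 190) (nat_lit 1) (nat_lit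 357) (nat_lit 285) (nat_lit 258)) (XT.lf (nat_lit 0) (nat_lit 30967207) (nat_lit 0) (nat_lit 45951704) (nat_lit 152) (nat_lit 30967207) (nat_lit 189) (nat_lit 3) (nat_lit 189) (nat_lit 1) (nat_lit 191) (nat_lit 1) (nat_lit 358) (nat_lit 285) (nat_lit 257))) (XT.nd (nat_lit 78) (nat_lit 152) (nat_lit 0) (XT.lf (nat_lit 76) (nat_lit 25611123) (nat_lit 0) (nat_lit 38641120) (nat_lit 76) (nat_lit 38641120) (nat_lit 189) (nat_lit 3) (nat_lit 188) (nat_lit 1) (nat_lit 189) (nat_lit 1) (nat_lit 359) (nat_lit 285) (nat_lit 256)) (XT.nd (nat_lit 78) (nat_lit 0) (nat_lit 0) (XT.lf (nat_lit 152) (nat_lit 91434133) (nat_lit 0) (nat_lit 3433464) (nat_lit 76) (nat_lit 3433464) (nat_lit 188) (nat_lit 1) (nat_lit 186) (nat_lit 1) (nat_lit 187) (nat_lit 1) (nat_lit 360) (nat_lit 285) (nat_lit 255)) (XT.lf (nat_lit 0) (nat_lit 28344693) (nat_lit 0) (nat_lit 36912128) (nat_lit 152) (nat_lit 28344693) (nat_lit 186)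 (nat_lit 3) (nat_lit 186) (nat_lit 1) (nat_lit 188) (nat_lit 1) (nat_lit 361) (nat_lit 285) (nat_lit 254))))) (XT.nd (nat_lit 44304) (nat_lit 0) (nat_lit 2432) (XT.nd (nat_lit 78) (nat_lit 152) (nat_lit 0) (XT.lf (nat_lit 76) (nat_lit 24798739) (nat_lit 0) (nat_lit 32248682) (nat_lit 76) (nat_lit 32248682) (nat_lit 186) (nat_lit 3) (nat_lit 185) (nat_lit 1) (nat_lit 186) (nat_lit 1) (nat_lit 362) (nat_lit 285) (nat_lit 253)) (XT.nd (nat_lit 44148) (nat_lit 0) (nat_lit 2432) (XT.lf (nat_lit 152) (nat_lit 81419622) (nat_lit 0) (nat_lit 1963094) (nat_lit 76) (nat_lit 1963094) (nat_lit 185) (nat_lit 1) (nat_lit 183) (nat_lit 1) (nat_lit 184) (nat_lit 1) (nat_lit 363) (nat_lit 285) (nat_lit 252)) (XT.lf (nat_lit 380) (nat_lit 99164145) (nat_lit 0) (nat_lit 87832124) (nat_lit 380) (nat_lit 99164145) (nat_lit 220) (nat_lit 1) (nat_lit 215) (nat_lit 0) (nat_lit 220) (nat_lit 0) (nat_lit 328) (nat_lit 286)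 (nat_lit 286)))) (XT.nd (nat_lit 78) (nat_lit 0) (nat_lit 76) (XT.lf (nat_lit 380) (nat_lit 366795304) (nat_lit 76) (nat_lit 83839754) (nat_lit 0) (nat_lit 83839754) (nat_lit 220) (nat_lit 1) (nat_lit 216) (nat_lit 1) (nat_lit 215) (nat_lit 0) (nat_lit 329) (nat_lit 286) (nat_lit 285)) (XT.nd (nat_lit 78) (nat_lit 0) (nat_lit 0) (XT.lf (nat_lit 380) (nat_lit 161681266) (nat_lit 0) (nat_lit 175924470) (nat_lit 304) (nat_lit 161681266) (nat_lit 221) (nat_lit 1) (nat_lit 216) (nat_lit 1) (nat_lit 220) (nat_lit 1) (nat_lit 330) (nat_lit 286) (nat_lit 284)) (XT.lf (nat_lit 380) (nat_lit 277598340) (nat_lit 76) (nat_lit 95023768) (nat_lit 0) (nat_lit 95023768) (nat_lit 221) (nat_lit 1) (nat_lit 217) (nat_lit 1) (nat_lit 216) (nat_lit 1) (nat_lit 331) (nat_lit 286) (nat_lit 283)))))) (XT.nd (nat_lit 468) (nat_lit 532) (nat_lit 0) (XT.nd (nat_lit 234) (nat_lit 380) (nat_lit 0) (XT.nd (nat_lit 78) (nat_lit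 304) (nat_lit 0) (XT.lf (nat_lit 76) (nat_lit 112292210) (nat_lit 0) (nat_lit 213823220) (nat_lit 304) (nat_lit 112292210) (nat_lit 218) (nat_lit 1) (nat_lit 217) (nat_lit 1) (nat_lit 221) (nat_lit 1) (nat_lit 332) (nat_lit 286) (nat_lit 282)) (XT.nd (nat_lit 78) (nat_lit 0) (nat_lit 0) (XT.lf (nat_lit 380) (nat_lit 168766123) (nat_lit 0) (nat_lit 121474619) (nat_lit 304) (nat_lit 121474619) (nat_lit 218) (nat_lit 1) (nat_lit 213) (nat_lit 1) (nat_lit 217) (nat_lit 1) (nat_lit 333) (nat_lit 286) (nat_lit 281)) (XT.lf (nat_lit 76) (nat_lit 56095995) (nat_lit 0) (nat_lit 275264455) (nat_lit 380) (nat_lit 56095995) (nat_lit 214) (nat_lit 1) (nat_lit 213) (nat_lit 1) (nat_lit 218) (nat_lit 1) (nat_lit 334) (nat_lit 286) (nat_lit 280)))) (XT.nd (nat_lit 78) (nat_lit 228) (nat_lit 0) (XT.lf (nat_lit 228) (nat_lit 50485072) (nat_lit 0) (nat_lit 157122331) (nat_lit 152) (nat_lit 157122331) (nat_lit 214)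 (nat_lit 1) (nat_lit 211) (nat_lit 1) (nat_lit 213) (nat_lit 1) (nat_lit 335) (nat_lit 286) (nat_lit 279)) (XT.nd (nat_lit 78) (nat_lit 0) (nat_lit 0) (XT.lf (nat_lit 228) (nat_lit 339259053) (nat_lit 0) (nat_lit 2661830) (nat_lit 152) (nat_lit 2661830) (nat_lit 211) (nat_lit 1) (nat_lit 208) (nat_lit 1) (nat_lit 210) (nat_lit 1) (nat_lit 336) (nat_lit 286) (nat_lit 278)) (XT.lf (nat_lit 76) (nat_lit 130345496) (nat_lit 0) (nat_lit 63992700) (nat_lit 228) (nat_lit 130345496) (nat_lit 209) (nat_lit 1) (nat_lit 208) (nat_lit 1) (nat_lit 211) (nat_lit 1) (nat_lit 337) (nat_lit 286) (nat_lit 277))))) (XT.nd (nat_lit 234) (nat_lit 304) (nat_lit 0) (XT.nd (nat_lit 78) (nat_lit 76) (nat_lit 0) (XT.lf (nat_lit 228) (nat_lit 189462182) (nat_lit 0) (nat_lit 58769306) (nat_lit 152) (nat_lit 58769306) (nat_lit 209) (nat_lit 1) (nat_lit 206) (nat_lit 1) (nat_lit 208) (nat_lit 1) (nat_lit 338) (nat_lit 286)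 (nat_lit 276)) (XT.nd (nat_lit 78) (nat_lit 76) (nat_lit 0) (XT.lf (nat_lit 76) (nat_lit 59251038) (nat_lit 0) (nat_lit 171945500) (nat_lit 228) (nat_lit 59251038) (nat_lit 207) (nat_lit 1) (nat_lit 206) (nat_lit 1) (nat_lit 209) (nat_lit 1) (nat_lit 339) (nat_lit 286) (nat_lit 275)) (XT.lf (nat_lit 152) (nat_lit 48981933) (nat_lit 0) (nat_lit 113026051) (nat_lit 76) (nat_lit 113026051) (nat_lit 207) (nat_lit 1) (nat_lit 205) (nat_lit 1) (nat_lit 206) (nat_lit 1) (nat_lit 340) (nat_lit 286) (nat_lit 274)))) (XT.nd (nat_lit 78) (nat_lit 76) (nat_lit 0) (XT.lf (nat_lit 228) (nat_lit 247975337) (nat_lit 0) (nat_lit 6587718) (nat_lit 152) (nat_lit 6587718) (nat_lit 205) (nat_lit 1) (nat_lit 202) (nat_lit 1) (nat_lit 204) (nat_lit 1) (nat_lit 341) (nat_lit 286) (nat_lit 273)) (XT.nd (nat_lit 78) (nat_lit 76) (nat_lit 0) (XT.lf (nat_lit 76) (nat_lit 86786034) (nat_lit 0) (nat_lit 73701532) (nat_lit 228)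 (nat_lit 86786034) (nat_lit 203) (nat_lit 1) (nat_lit 202) (nat_lit 1) (nat_lit 205) (nat_lit 1) (nat_lit 342) (nat_lit 286) (nat_lit 272)) (XT.lf (nat_lit 152) (nat_lit 105523506) (nat_lit 0) (nat_lit 64623011) (nat_lit 76) (nat_lit 64623011) (nat_lit 203) (nat_lit 1) (nat_lit 201) (nat_lit 1) (nat_lit 202) (nat_lit 1) (nat_lit 343) (nat_lit 286) (nat_lit 271))))))))
noncomputable def ec6 : XT := (XT.nd (nat_lit 45630) (nat_lit 0) (nat_lit 912) (XT.nd (nat_lit 858) (nat_lit 684) (nat_lit 0) (XT.nd (nat_lit 390) (nat_lit 456) (nat_lit 0) (XT.nd (nat_lit 156) (nat_lit 152) (nat_lit 0) (XT.nd (nat_lit 78) (nat_lit 152) (nat_lit 0) (XT.lf (nat_lit 0) (nat_lit 20662956) (nat_lit 0) (nat_lit 181915084) (nat_lit 152) (nat_lit 20662956) (nat_lit 201) (nat_lit 3) (nat_lit 201) (nat_lit 1) (nat_lit 203) (nat_lit 1) (nat_lit 344) (nat_lit 286) (nat_lit 270)) (XT.lf (nat_lit 76) (nat_lit 95628076) (nat_lit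 0) (nat_lit 20740076) (nat_lit 152) (nat_lit 95628076) (nat_lit 200) (nat_lit 1) (nat_lit 199) (nat_lit 1) (nat_lit 201) (nat_lit 1) (nat_lit 345) (nat_lit 286) (nat_lit 269))) (XT.nd (nat_lit 78) (nat_lit 76) (nat_lit 0) (XT.lf (nat_lit 152) (nat_lit 127740300) (nat_lit 0) (nat_lit 36948416) (nat_lit 76) (nat_lit 36948416) (nat_lit 200) (nat_lit 1) (nat_lit 198) (nat_lit 1) (nat_lit 199) (nat_lit 1) (nat_lit 346) (nat_lit 286) (nat_lit 268)) (XT.nd (nat_lit 78) (nat_lit 76) (nat_lit 0) (XT.lf (nat_lit 0) (nat_lit 33213126) (nat_lit 0) (nat_lit 125409553) (nat_lit 152) (nat_lit 33213126) (nat_lit 198) (nat_lit 3) (nat_lit 198) (nat_lit 1) (nat_lit 200) (nat_lit 1) (nat_lit 347) (nat_lit 286) (nat_lit 267)) (XT.lf (nat_lit 76) (nat_lit 7409254) (nat_lit 0) (nat_lit 87580061) (nat_lit 76) (nat_lit 87580061) (nat_lit 198) (nat_lit 3) (nat_lit 197) (nat_lit 1) (nat_lit 198) (nat_lit 1) (nat_lit 348)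 (nat_lit 286) (nat_lit 266))))) (XT.nd (nat_lit 234) (nat_lit 228) (nat_lit 0) (XT.nd (nat_lit 78) (nat_lit 76) (nat_lit 0) (XT.lf (nat_lit 152) (nat_lit 131650620) (nat_lit 0) (nat_lit 21125377) (nat_lit 76) (nat_lit 21125377) (nat_lit 197) (nat_lit 1) (nat_lit 195) (nat_lit 1) (nat_lit 196) (nat_lit 1) (nat_lit 349) (nat_lit 286) (nat_lit 265)) (XT.nd (nat_lit 78) (nat_lit 76) (nat_lit 0) (XT.lf (nat_lit 0) (nat_lit 37597550) (nat_lit 0) (nat_lit 90311157) (nat_lit 152) (nat_lit 37597550) (nat_lit 195) (nat_lit 3) (nat_lit 195) (nat_lit 1) (nat_lit 197) (nat_lit 1) (nat_lit 350) (nat_lit 286) (nat_lit 264)) (XT.lf (nat_lit 76) (nat_lit 21998292) (nat_lit 0) (nat_lit 67836211) (nat_lit 76) (nat_lit 67836211) (nat_lit 195) (nat_lit 3) (nat_lit 194) (nat_lit 1) (nat_lit 195) (nat_lit 1) (nat_lit 351) (nat_lit 286) (nat_lit 263)))) (XT.nd (nat_lit 78) (nat_lit 76) (nat_lit 0) (XT.lf (nat_lit 152)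 (nat_lit 126240965) (nat_lit 0) (nat_lit 12078502) (nat_lit 76) (nat_lit 12078502) (nat_lit 194) (nat_lit 1) (nat_lit 192) (nat_lit 1) (nat_lit 193) (nat_lit 1) (nat_lit 352) (nat_lit 286) (nat_lit 262)) (XT.nd (nat_lit 78) (nat_lit 76) (nat_lit 0) (XT.lf (nat_lit 0) (nat_lit 37677250) (nat_lit 0) (nat_lit 67816425) (nat_lit 152) (nat_lit 37677250) (nat_lit 192) (nat_lit 3) (nat_lit 192) (nat_lit 1) (nat_lit 194) (nat_lit 1) (nat_lit 353) (nat_lit 286) (nat_lit 261)) (XT.lf (nat_lit 76) (nat_lit 28022836) (nat_lit 0) (nat_lit 54230815) (nat_lit 76) (nat_lit 54230815) (nat_lit 192) (nat_lit 3) (nat_lit 191) (nat_lit 1) (nat_lit 192) (nat_lit 1) (nat_lit 354) (nat_lit 286) (nat_lit 260)))))) (XT.nd (nat_lit 390) (nat_lit 304) (nat_lit 0) (XT.nd (nat_lit 156) (nat_lit 228) (nat_lit 0) (XT.nd (nat_lit 78) (nat_lit 0) (nat_lit 0) (XT.lf (nat_lit 152) (nat_lit 116499807) (nat_lit 0) (nat_lit 6905923)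 (nat_lit 76) (nat_lit 6905923) (nat_lit 191) (nat_lit 1) (nat_lit 189) (nat_lit 1) (nat_lit 190) (nat_lit 1) (nat_lit 355) (nat_lit 286) (nat_lit 259)) (XT.lf (nat_lit 0) (nat_lit 35612288) (nat_lit 0) (nat_lit 52844460) (nat_lit 152) (nat_lit 35612288) (nat_lit 189) (nat_lit 3) (nat_lit 189) (nat_lit 1) (nat_lit 191) (nat_lit 1) (nat_lit 356) (nat_lit 286) (nat_lit 258))) (XT.nd (nat_lit 78) (nat_lit 152) (nat_lit 0) (XT.lf (nat_lit 76) (nat_lit 29452791) (nat_lit 0) (nat_lit 44437288) (nat_lit 76) (nat_lit 44437288) (nat_lit 189) (nat_lit 3) (nat_lit 188) (nat_lit 1) (nat_lit 189) (nat_lit 1) (nat_lit 357) (nat_lit 286) (nat_lit 257)) (XT.nd (nat_lit 78) (nat_lit 0) (nat_lit 0) (XT.lf (nat_lit 152) (nat_lit 105149253) (nat_lit 0) (nat_lit 3948484) (nat_lit 76) (nat_lit 3948484) (nat_lit 188) (nat_lit 1) (nat_lit 186) (nat_lit 1) (nat_lit 187) (nat_lit 1) (nat_lit 358) (nat_lit 286) (nat_lit 256))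 (XT.lf (nat_lit 0) (nat_lit 32596397) (nat_lit 0) (nat_lit 42448947) (nat_lit 152) (nat_lit 32596397) (nat_lit 186) (nat_lit 3) (nat_lit 186) (nat_lit 1) (nat_lit 188) (nat_lit 1) (nat_lit 359) (nat_lit 286) (nat_lit 255))))) (XT.nd (nat_lit 234) (nat_lit 76) (nat_lit 0) (XT.nd (nat_lit 78) (nat_lit 152) (nat_lit 0) (XT.lf (nat_lit 76) (nat_lit 28518550) (nat_lit 0) (nat_lit 37085985) (nat_lit 76) (nat_lit 37085985) (nat_lit 186) (nat_lit 3) (nat_lit 185) (nat_lit 1) (nat_lit 186) (nat_lit 1) (nat_lit 360) (nat_lit 286) (nat_lit 254)) (XT.nd (nat_lit 78) (nat_lit 0) (nat_lit 0) (XT.lf (nat_lit 152) (nat_lit 93632565) (nat_lit 0) (nat_lit 2257558) (nat_lit 76) (nat_lit 2257558) (nat_lit 185) (nat_lit 1) (nat_lit 183) (nat_lit 1) (nat_lit 184) (nat_lit 1) (nat_lit 361) (nat_lit 286) (nat_lit 253)) (XT.lf (nat_lit 0) (nat_lit 29276187) (nat_lit 0) (nat_lit 34909415) (nat_lit 152) (nat_lit 29276187)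 (nat_lit 183) (nat_lit 3) (nat_lit 183) (nat_lit 1) (nat_lit 185) (nat_lit 1) (nat_lit 362) (nat_lit 286) (nat_lit 252)))) (XT.nd (nat_lit 43992) (nat_lit 0) (nat_lit 2508) (XT.lf (nat_lit 76) (nat_lit 26461070) (nat_lit 0) (nat_lit 31359529) (nat_lit 76) (nat_lit 31359529) (nat_lit 183) (nat_lit 3) (nat_lit 182) (nat_lit 1) (nat_lit 183) (nat_lit 1) (nat_lit 363) (nat_lit 286) (nat_lit 251)) (XT.nd (nat_lit 78) (nat_lit 0) (nat_lit 0) (XT.lf (nat_lit 380) (nat_lit 114038767) (nat_lit 0) (nat_lit 101006942) (nat_lit 380) (nat_lit 114038767) (nat_lit 220) (nat_lit 1) (nat_lit 215) (nat_lit 0) (nat_lit 220) (nat_lit 0) (nat_lit 326) (nat_lit 287) (nat_lit 287)) (XT.lf (nat_lit 380) (nat_lit 421814600) (nat_lit 76) (nat_lit 96415718) (nat_lit 0) (nat_lit 96415718) (nat_lit 220) (nat_lit 1) (nat_lit 216) (nat_lit 1) (nat_lit 215) (nat_lit 0) (nat_lit 327) (nat_lit 287) (nat_lit 286))))))) (XT.nd (nat_lit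 858) (nat_lit 836) (nat_lit 0) (XT.nd (nat_lit 390) (nat_lit 608) (nat_lit 0) (XT.nd (nat_lit 156) (nat_lit 228) (nat_lit 0) (XT.nd (nat_lit 78) (nat_lit 0) (nat_lit 0) (XT.lf (nat_lit 380) (nat_lit 185933456) (nat_lit 0) (nat_lit 202313140) (nat_lit 304) (nat_lit 185933456) (nat_lit 221) (nat_lit 1) (nat_lit 216) (nat_lit 1) (nat_lit 220) (nat_lit 1) (nat_lit 328) (nat_lit 287) (nat_lit 285)) (XT.lf (nat_lit 380) (nat_lit 319238091) (nat_lit 76) (nat_lit 109277333) (nat_lit 0) (nat_lit 109277333) (nat_lit 221) (nat_lit 1) (nat_lit 217) (nat_lit 1) (nat_lit 216) (nat_lit 1) (nat_lit 329) (nat_lit 287) (nat_lit 284))) (XT.nd (nat_lit 78) (nat_lit 304) (nat_lit 0) (XT.lf (nat_lit 76) (nat_lit 129136042) (nat_lit 0) (nat_lit 245896703) (nat_lit 304) (nat_lit 129136042) (nat_lit 218) (nat_lit 1) (nat_lit 217) (nat_lit 1) (nat_lit 221) (nat_lit 1) (nat_lit 330) (nat_lit 287) (nat_lit 283)) (XT.nd (nat_lit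 78) (nat_lit 0) (nat_lit 0) (XT.lf (nat_lit 380) (nat_lit 194081041) (nat_lit 0) (nat_lit 139695812) (nat_lit 304) (nat_lit 139695812) (nat_lit 218) (nat_lit 1) (nat_lit 213) (nat_lit 1) (nat_lit 217) (nat_lit 1) (nat_lit 331) (nat_lit 287) (nat_lit 282)) (XT.lf (nat_lit 76) (nat_lit 64510394) (nat_lit 0) (nat_lit 316554124) (nat_lit 380) (nat_lit 64510394) (nat_lit 214) (nat_lit 1) (nat_lit 213) (nat_lit 1) (nat_lit 218) (nat_lit 1) (nat_lit 332) (nat_lit 287) (nat_lit 281))))) (XT.nd (nat_lit 234) (nat_lit 228) (nat_lit 0) (XT.nd (nat_lit 78) (nat_lit 228) (nat_lit 0) (XT.lf (nat_lit 228) (nat_lit 58057833) (nat_lit 0) (nat_lit 180690681) (nat_lit 152) (nat_lit 180690681) (nat_lit 214) (nat_lit 1) (nat_lit 211) (nat_lit 1) (nat_lit 213) (nat_lit 1) (nat_lit 333) (nat_lit 287) (nat_lit 280)) (XT.nd (nat_lit 78) (nat_lit 0) (nat_lit 0) (XT.lf (nat_lit 228) (nat_lit 390147910) (nat_lit 0) (nat_lit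 3061104) (nat_lit 152) (nat_lit 3061104) (nat_lit 211) (nat_lit 1) (nat_lit 208) (nat_lit 1) (nat_lit 210) (nat_lit 1) (nat_lit 334) (nat_lit 287) (nat_lit 279)) (XT.lf (nat_lit 76) (nat_lit 149897321) (nat_lit 0) (nat_lit 73591605) (nat_lit 228) (nat_lit 149897321) (nat_lit 209) (nat_lit 1) (nat_lit 208) (nat_lit 1) (nat_lit 211) (nat_lit 1) (nat_lit 335) (nat_lit 287) (nat_lit 278)))) (XT.nd (nat_lit 78) (nat_lit 76) (nat_lit 0) (XT.lf (nat_lit 228) (nat_lit 217881509) (nat_lit 0) (nat_lit 67584702) (nat_lit 152) (nat_lit 67584702) (nat_lit 209) (nat_lit 1) (nat_lit 206) (nat_lit 1) (nat_lit 208) (nat_lit 1) (nat_lit 336) (nat_lit 287) (nat_lit 277)) (XT.nd (nat_lit 78) (nat_lit 76) (nat_lit 0) (XT.lf (nat_lit 76) (nat_lit 68138694) (nat_lit 0) (nat_lit 197737325) (nat_lit 228) (nat_lit 68138694) (nat_lit 207) (nat_lit 1) (nat_lit 206) (nat_lit 1) (nat_lit 209) (nat_lit 1) (nat_lit 337) (nat_lit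 287) (nat_lit 276)) (XT.lf (nat_lit 152) (nat_lit 56329222) (nat_lit 0) (nat_lit 129979959) (nat_lit 76) (nat_lit 129979959) (nat_lit 207) (nat_lit 1) (nat_lit 205) (nat_lit 1) (nat_lit 206) (nat_lit 1) (nat_lit 338) (nat_lit 287) (nat_lit 275)))))) (XT.nd (nat_lit 390) (nat_lit 380) (nat_lit 0) (XT.nd (nat_lit 156) (nat_lit 228) (nat_lit 0) (XT.nd (nat_lit 78) (nat_lit 0) (nat_lit 0) (XT.lf (nat_lit 228) (nat_lit 285171638) (nat_lit 0) (nat_lit 7575876) (nat_lit 152) (nat_lit 7575876) (nat_lit 205) (nat_lit 1) (nat_lit 202) (nat_lit 1) (nat_lit 204) (nat_lit 1) (nat_lit 339) (nat_lit 287) (nat_lit 274)) (XT.lf (nat_lit 76) (nat_lit 99803940) (nat_lit 0) (nat_lit 84756762) (nat_lit 228) (nat_lit 99803940) (nat_lit 203) (nat_lit 1) (nat_lit 202) (nat_lit 1) (nat_lit 205) (nat_lit 1) (nat_lit 340) (nat_lit 287) (nat_lit 273))) (XT.nd (nat_lit 78) (nat_lit 152) (nat_lit 0) (XT.lf (nat_lit 152) (nat_lit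 121352032) (nat_lit 0) (nat_lit 74316463) (nat_lit 76) (nat_lit 74316463) (nat_lit 203) (nat_lit 1) (nat_lit 201) (nat_lit 1) (nat_lit 202) (nat_lit 1) (nat_lit 341) (nat_lit 287) (nat_lit 272)) (XT.nd (nat_lit 78) (nat_lit 152) (nat_lit 0) (XT.lf (nat_lit 0) (nat_lit 23762400) (nat_lit 0) (nat_lit 209202346) (nat_lit 152) (nat_lit 23762400) (nat_lit 201) (nat_lit 3) (nat_lit 201) (nat_lit 1) (nat_lit 203) (nat_lit 1) (nat_lit 342) (nat_lit 287) (nat_lit 271)) (XT.lf (nat_lit 76) (nat_lit 109972287) (nat_lit 0) (nat_lit 23851088) (nat_lit 152) (nat_lit 109972287) (nat_lit 200) (nat_lit 1) (nat_lit 199) (nat_lit 1) (nat_lit 201) (nat_lit 1) (nat_lit 343) (nat_lit 287) (nat_lit 270))))) (XT.nd (nat_lit 234) (nat_lit 228) (nat_lit 0) (XT.nd (nat_lit 78) (nat_lit 76) (nat_lit 0) (XT.lf (nat_lit 152) (nat_lit 146901345) (nat_lit 0) (nat_lit 42490679) (nat_lit 76) (nat_lit 42490679) (nat_lit 200) (nat_lit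 1) (nat_lit 198) (nat_lit 1) (nat_lit 199) (nat_lit 1) (nat_lit 344) (nat_lit 287) (nat_lit 269)) (XT.nd (nat_lit 78) (nat_lit 76) (nat_lit 0) (XT.lf (nat_lit 0) (nat_lit 38195095) (nat_lit 0) (nat_lit 144220986) (nat_lit 152) (nat_lit 38195095) (nat_lit 198) (nat_lit 3) (nat_lit 198) (nat_lit 1) (nat_lit 200) (nat_lit 1) (nat_lit 345) (nat_lit 287) (nat_lit 268)) (XT.lf (nat_lit 76) (nat_lit 8520643) (nat_lit 0) (nat_lit 100717070) (nat_lit 76) (nat_lit 100717070) (nat_lit 198) (nat_lit 3) (nat_lit 197) (nat_lit 1) (nat_lit 198) (nat_lit 1) (nat_lit 346) (nat_lit 287) (nat_lit 267)))) (XT.nd (nat_lit 78) (nat_lit 76) (nat_lit 0) (XT.lf (nat_lit 152) (nat_lit 151398213) (nat_lit 0) (nat_lit 24294183) (nat_lit 76) (nat_lit 24294183) (nat_lit 197) (nat_lit 1) (nat_lit 195) (nat_lit 1) (nat_lit 196) (nat_lit 1) (nat_lit 347) (nat_lit 287) (nat_lit 266)) (XT.nd (nat_lit 78) (nat_lit 76) (nat_lit 0)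 (XT.lf (nat_lit 0) (nat_lit 43237183) (nat_lit 0) (nat_lit 103857830) (nat_lit 152) (nat_lit 43237183) (nat_lit 195) (nat_lit 3) (nat_lit 195) (nat_lit 1) (nat_lit 197) (nat_lit 1) (nat_lit 348) (nat_lit 287) (nat_lit 265)) (XT.lf (nat_lit 76) (nat_lit 25298036) (nat_lit 0) (nat_lit 78011643) (nat_lit 76) (nat_lit 78011643) (nat_lit 195) (nat_lit 3) (nat_lit 194) (nat_lit 1) (nat_lit 195) (nat_lit 1) (nat_lit 349) (nat_lit 287) (nat_lit 264))))))))
noncomputable def ec7 : XT := (XT.nd (nat_lit 45396) (nat_lit 0) (nat_lit 684) (XT.nd (nat_lit 858) (nat_lit 304) (nat_lit 0) (XT.nd (nat_lit 390) (nat_lit 456) (nat_lit 0) (XT.nd (nat_lit 156) (nat_lit 228) (nat_lit 0) (XT.nd (nat_lit 78) (nat_lit 0) (nat_lit 0) (XT.lf (nat_lit 152) (nat_lit 145177109) (nat_lit 0) (nat_lit 13890278) (nat_lit 76) (nat_lit 13890278) (nat_lit 194) (nat_lit 1) (nat_lit 192) (nat_lit 1) (nat_lit 193) (nat_lit 1) (nat_lit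 350) (nat_lit 287) (nat_lit 263)) (XT.lf (nat_lit 0) (nat_lit 43328837) (nat_lit 0) (nat_lit 77988889) (nat_lit 152) (nat_lit 43328837) (nat_lit 192) (nat_lit 3) (nat_lit 192) (nat_lit 1) (nat_lit 194) (nat_lit 1) (nat_lit 351) (nat_lit 287) (nat_lit 262))) (XT.nd (nat_lit 78) (nat_lit 152) (nat_lit 0) (XT.lf (nat_lit 76) (nat_lit 32226261) (nat_lit 0) (nat_lit 62365437) (nat_lit 76) (nat_lit 62365437) (nat_lit 192) (nat_lit 3) (nat_lit 191) (nat_lit 1) (nat_lit 192) (nat_lit 1) (nat_lit 352) (nat_lit 287) (nat_lit 261)) (XT.nd (nat_lit 78) (nat_lit 0) (nat_lit 0) (XT.lf (nat_lit 152) (nat_lit 133974779) (nat_lit 0) (nat_lit 7941811) (nat_lit 76) (nat_lit 7941811) (nat_lit 191) (nat_lit 1) (nat_lit 189) (nat_lit 1) (nat_lit 190) (nat_lit 1) (nat_lit 353) (nat_lit 287) (nat_lit 260)) (XT.lf (nat_lit 0) (nat_lit 40954132) (nat_lit 0) (nat_lit 60771129) (nat_lit 152) (nat_lit 40954132) (nat_lit 189)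 (nat_lit 3) (nat_lit 189) (nat_lit 1) (nat_lit 191) (nat_lit 1) (nat_lit 354) (nat_lit 287) (nat_lit 259))))) (XT.nd (nat_lit 234) (nat_lit 228) (nat_lit 0) (XT.nd (nat_lit 78) (nat_lit 152) (nat_lit 0) (XT.lf (nat_lit 76) (nat_lit 33870710) (nat_lit 0) (nat_lit 51102882) (nat_lit 76) (nat_lit 51102882) (nat_lit 189) (nat_lit 3) (nat_lit 188) (nat_lit 1) (nat_lit 189) (nat_lit 1) (nat_lit 355) (nat_lit 287) (nat_lit 258)) (XT.nd (nat_lit 78) (nat_lit 0) (nat_lit 0) (XT.lf (nat_lit 152) (nat_lit 120921641) (nat_lit 0) (nat_lit 4540756) (nat_lit 76) (nat_lit 4540756) (nat_lit 188) (nat_lit 1) (nat_lit 186) (nat_lit 1) (nat_lit 187) (nat_lit 1) (nat_lit 356) (nat_lit 287) (nat_lit 257)) (XT.lf (nat_lit 0) (nat_lit 37485856) (nat_lit 0) (nat_lit 48816289) (nat_lit 152) (nat_lit 37485856) (nat_lit 186) (nat_lit 3) (nat_lit 186) (nat_lit 1) (nat_lit 188) (nat_lit 1) (nat_lit 357) (nat_lit 287) (nat_lit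 256)))) (XT.nd (nat_lit 78) (nat_lit 152) (nat_lit 0) (XT.lf (nat_lit 76) (nat_lit 32796333) (nat_lit 0) (nat_lit 42648883) (nat_lit 76) (nat_lit 42648883) (nat_lit 186) (nat_lit 3) (nat_lit 185) (nat_lit 1) (nat_lit 186) (nat_lit 1) (nat_lit 358) (nat_lit 287) (nat_lit 255)) (XT.nd (nat_lit 78) (nat_lit 0) (nat_lit 0) (XT.lf (nat_lit 152) (nat_lit 107677450) (nat_lit 0) (nat_lit 2596192) (nat_lit 76) (nat_lit 2596192) (nat_lit 185) (nat_lit 1) (nat_lit 183) (nat_lit 1) (nat_lit 184) (nat_lit 1) (nat_lit 359) (nat_lit 287) (nat_lit 254)) (XT.lf (nat_lit 0) (nat_lit 33667615) (nat_lit 0) (nat_lit 40145827) (nat_lit 152) (nat_lit 33667615) (nat_lit 183) (nat_lit 3) (nat_lit 183) (nat_lit 1) (nat_lit 185) (nat_lit 1) (nat_lit 360) (nat_lit 287) (nat_lit 253)))))) (XT.nd (nat_lit 44070) (nat_lit 0) (nat_lit 2584) (XT.nd (nat_lit 156) (nat_lit 76) (nat_lit 0) (XT.nd (nat_lit 78) (nat_lit 152) (nat_lit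 0) (XT.lf (nat_lit 76) (nat_lit 30430231) (nat_lit 0) (nat_lit 36063458) (nat_lit 76) (nat_lit 36063458) (nat_lit 183) (nat_lit 3) (nat_lit 182) (nat_lit 1) (nat_lit 183) (nat_lit 1) (nat_lit 361) (nat_lit 287) (nat_lit 252)) (XT.lf (nat_lit 152) (nat_lit 95078070) (nat_lit 0) (nat_lit 1484381) (nat_lit 76) (nat_lit 1484381) (nat_lit 182) (nat_lit 1) (nat_lit 180) (nat_lit 1) (nat_lit 181) (nat_lit 1) (nat_lit 362) (nat_lit 287) (nat_lit 251))) (XT.nd (nat_lit 78) (nat_lit 76) (nat_lit 0) (XT.lf (nat_lit 0) (nat_lit 29888660) (nat_lit 0) (nat_lit 33592598) (nat_lit 152) (nat_lit 29888660) (nat_lit 180) (nat_lit 3) (nat_lit 180) (nat_lit 1) (nat_lit 182) (nat_lit 1) (nat_lit 363) (nat_lit 287) (nat_lit 250)) (XT.nd (nat_lit 43758) (nat_lit 0) (nat_lit 2736) (XT.lf (nat_lit 76) (nat_lit 27554080) (nat_lit 0) (nat_lit 30774896) (nat_lit 76) (nat_lit 30774896) (nat_lit 180) (nat_lit 3) (nat_lit 179)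 (nat_lit 1) (nat_lit 180) (nat_lit 1) (nat_lit 364) (nat_lit 287) (nat_lit 249)) (XT.lf (nat_lit 380) (nat_lit 131144582) (nat_lit 0) (nat_lit 116157984) (nat_lit 380) (nat_lit 131144582) (nat_lit 220) (nat_lit 1) (nat_lit 215) (nat_lit 0) (nat_lit 220) (nat_lit 0) (nat_lit 324) (nat_lit 288) (nat_lit 288))))) (XT.nd (nat_lit 234) (nat_lit 152) (nat_lit 0) (XT.nd (nat_lit 78) (nat_lit 0) (nat_lit 76) (XT.lf (nat_lit 380) (nat_lit 485086790) (nat_lit 76) (nat_lit 110878075) (nat_lit 0) (nat_lit 110878075) (nat_lit 220) (nat_lit 1) (nat_lit 216) (nat_lit 1) (nat_lit 215) (nat_lit 0) (nat_lit 325) (nat_lit 288) (nat_lit 287)) (XT.nd (nat_lit 78) (nat_lit 0) (nat_lit 0) (XT.lf (nat_lit 380) (nat_lit 213823475) (nat_lit 0) (nat_lit 232660111) (nat_lit 304) (nat_lit 213823475) (nat_lit 221) (nat_lit 1) (nat_lit 216) (nat_lit 1) (nat_lit 220) (nat_lit 1) (nat_lit 326) (nat_lit 288) (nat_lit 286)) (XT.lf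 (nat_lit 380) (nat_lit 367123805) (nat_lit 76) (nat_lit 125668934) (nat_lit 0) (nat_lit 125668934) (nat_lit 221) (nat_lit 1) (nat_lit 217) (nat_lit 1) (nat_lit 216) (nat_lit 1) (nat_lit 327) (nat_lit 288) (nat_lit 285)))) (XT.nd (nat_lit 78) (nat_lit 304) (nat_lit 0) (XT.lf (nat_lit 76) (nat_lit 148506448) (nat_lit 0) (nat_lit 282781209) (nat_lit 304) (nat_lit 148506448) (nat_lit 218) (nat_lit 1) (nat_lit 217) (nat_lit 1) (nat_lit 221) (nat_lit 1) (nat_lit 328) (nat_lit 288) (nat_lit 284)) (XT.nd (nat_lit 78) (nat_lit 0) (nat_lit 0) (XT.lf (nat_lit 380) (nat_lit 223193197) (nat_lit 0) (nat_lit 160650183) (nat_lit 304) (nat_lit 160650183) (nat_lit 218) (nat_lit 1) (nat_lit 213) (nat_lit 1) (nat_lit 217) (nat_lit 1) (nat_lit 329) (nat_lit 288) (nat_lit 283)) (XT.lf (nat_lit 76) (nat_lit 74186954) (nat_lit 0) (nat_lit 364037242) (nat_lit 380) (nat_lit 74186954) (nat_lit 214) (nat_lit 1) (nat_lit 213)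 (nat_lit 1) (nat_lit 218) (nat_lit 1) (nat_lit 330) (nat_lit 288) (nat_lit 282))))))) (XT.nd (nat_lit 858) (nat_lit 836) (nat_lit 0) (XT.nd (nat_lit 390) (nat_lit 532) (nat_lit 0) (XT.nd (nat_lit 156) (nat_lit 152) (nat_lit 0) (XT.nd (nat_lit 78) (nat_lit 228) (nat_lit 0) (XT.lf (nat_lit 228) (nat_lit 66766508) (nat_lit 0) (nat_lit 207794283) (nat_lit 152) (nat_lit 207794283) (nat_lit 214) (nat_lit 1) (nat_lit 211) (nat_lit 1) (nat_lit 213) (nat_lit 1) (nat_lit 331) (nat_lit 288) (nat_lit 281)) (XT.lf (nat_lit 228) (nat_lit 448670097) (nat_lit 0) (nat_lit 3520270) (nat_lit 152) (nat_lit 3520270) (nat_lit 211) (nat_lit 1) (nat_lit 208) (nat_lit 1) (nat_lit 210) (nat_lit 1) (nat_lit 332) (nat_lit 288) (nat_lit 280))) (XT.nd (nat_lit 78) (nat_lit 152) (nat_lit 0) (XT.lf (nat_lit 76) (nat_lit 172381919) (nat_lit 0) (nat_lit 84630346) (nat_lit 228) (nat_lit 172381919) (nat_lit 209) (nat_lit 1) (nat_lit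 208) (nat_lit 1) (nat_lit 211) (nat_lit 1) (nat_lit 333) (nat_lit 288) (nat_lit 279)) (XT.nd (nat_lit 78) (nat_lit 0) (nat_lit 0) (XT.lf (nat_lit 228) (nat_lit 250563735) (nat_lit 0) (nat_lit 77722407) (nat_lit 152) (nat_lit 77722407) (nat_lit 209) (nat_lit 1) (nat_lit 206) (nat_lit 1) (nat_lit 208) (nat_lit 1) (nat_lit 334) (nat_lit 288) (nat_lit 278)) (XT.lf (nat_lit 76) (nat_lit 78359498) (nat_lit 0) (nat_lit 227397924) (nat_lit 228) (nat_lit 78359498) (nat_lit 207) (nat_lit 1) (nat_lit 206) (nat_lit 1) (nat_lit 209) (nat_lit 1) (nat_lit 335) (nat_lit 288) (nat_lit 277))))) (XT.nd (nat_lit 234) (nat_lit 228) (nat_lit 0) (XT.nd (nat_lit 78) (nat_lit 228) (nat_lit 0) (XT.lf (nat_lit 152) (nat_lit 64778606) (nat_lit 0) (nat_lit 149476952) (nat_lit 76) (nat_lit 149476952) (nat_lit 207) (nat_lit 1) (nat_lit 205) (nat_lit 1) (nat_lit 206) (nat_lit 1) (nat_lit 336) (nat_lit 288) (nat_lit 276)) (XT.nd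 (nat_lit 78) (nat_lit 0) (nat_lit 0) (XT.lf (nat_lit 228) (nat_lit 327947384) (nat_lit 0) (nat_lit 8712257) (nat_lit 152) (nat_lit 8712257) (nat_lit 205) (nat_lit 1) (nat_lit 202) (nat_lit 1) (nat_lit 204) (nat_lit 1) (nat_lit 337) (nat_lit 288) (nat_lit 275)) (XT.lf (nat_lit 76) (nat_lit 114774531) (nat_lit 0) (nat_lit 97470276) (nat_lit 228) (nat_lit 114774531) (nat_lit 203) (nat_lit 1) (nat_lit 202) (nat_lit 1) (nat_lit 205) (nat_lit 1) (nat_lit 338) (nat_lit 288) (nat_lit 274)))) (XT.nd (nat_lit 78) (nat_lit 152) (nat_lit 0) (XT.lf (nat_lit 152) (nat_lit 139554836) (nat_lit 0) (nat_lit 85463932) (nat_lit 76) (nat_lit 85463932) (nat_lit 203) (nat_lit 1) (nat_lit 201) (nat_lit 1) (nat_lit 202) (nat_lit 1) (nat_lit 339) (nat_lit 288) (nat_lit 273)) (XT.nd (nat_lit 78) (nat_lit 152) (nat_lit 0) (XT.lf (nat_lit 0) (nat_lit 27326760) (nat_lit 0) (nat_lit 240582698) (nat_lit 152) (nat_lit 27326760)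 (nat_lit 201) (nat_lit 3) (nat_lit 201) (nat_lit 1) (nat_lit 203) (nat_lit 1) (nat_lit 340) (nat_lit 288) (nat_lit 272)) (XT.lf (nat_lit 76) (nat_lit 126468131) (nat_lit 0) (nat_lit 27428751) (nat_lit 152) (nat_lit 126468131) (nat_lit 200) (nat_lit 1) (nat_lit 199) (nat_lit 1) (nat_lit 201) (nat_lit 1) (nat_lit 341) (nat_lit 288) (nat_lit 271)))))) (XT.nd (nat_lit 468) (nat_lit 456) (nat_lit 0) (XT.nd (nat_lit 234) (nat_lit 228) (nat_lit 0) (XT.nd (nat_lit 78) (nat_lit 76) (nat_lit 0) (XT.lf (nat_lit 152) (nat_lit 168936547) (nat_lit 0) (nat_lit 48864281) (nat_lit 76) (nat_lit 48864281) (nat_lit 200) (nat_lit 1) (nat_lit 198) (nat_lit 1) (nat_lit 199) (nat_lit 1) (nat_lit 342) (nat_lit 288) (nat_lit 270)) (XT.nd (nat_lit 78) (nat_lit 76) (nat_lit 0) (XT.lf (nat_lit 0) (nat_lit 43924359) (nat_lit 0) (nat_lit 165854134) (nat_lit 152) (nat_lit 43924359) (nat_lit 198) (nat_lit 3) (nat_lit 198) (nat_lit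 1) (nat_lit 200) (nat_lit 1) (nat_lit 343) (nat_lit 288) (nat_lit 269)) (XT.lf (nat_lit 76) (nat_lit 9798739) (nat_lit 0) (nat_lit 115824630) (nat_lit 76) (nat_lit 115824630) (nat_lit 198) (nat_lit 3) (nat_lit 197) (nat_lit 1) (nat_lit 198) (nat_lit 1) (nat_lit 344) (nat_lit 288) (nat_lit 268)))) (XT.nd (nat_lit 78) (nat_lit 76) (nat_lit 0) (XT.lf (nat_lit 152) (nat_lit 174107946) (nat_lit 0) (nat_lit 27938311) (nat_lit 76) (nat_lit 27938311) (nat_lit 197) (nat_lit 1) (nat_lit 195) (nat_lit 1) (nat_lit 196) (nat_lit 1) (nat_lit 345) (nat_lit 288) (nat_lit 267)) (XT.nd (nat_lit 78) (nat_lit 76) (nat_lit 0) (XT.lf (nat_lit 0) (nat_lit 49722760) (nat_lit 0) (nat_lit 119436505) (nat_lit 152) (nat_lit 49722760) (nat_lit 195) (nat_lit 3) (nat_lit 195) (nat_lit 1) (nat_lit 197) (nat_lit 1) (nat_lit 346) (nat_lit 288) (nat_lit 266)) (XT.lf (nat_lit 76) (nat_lit 29092742) (nat_lit 0) (nat_lit 89713389)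 (nat_lit 76) (nat_lit 89713389) (nat_lit 195) (nat_lit 3) (nat_lit 194) (nat_lit 1) (nat_lit 195) (nat_lit 1) (nat_lit 347) (nat_lit 288) (nat_lit 265))))) (XT.nd (nat_lit 234) (nat_lit 228) (nat_lit 0) (XT.nd (nat_lit 78) (nat_lit 76) (nat_lit 0) (XT.lf (nat_lit 152) (nat_lit 166953676) (nat_lit 0) (nat_lit 15973820) (nat_lit 76) (nat_lit 15973820) (nat_lit 194) (nat_lit 1) (nat_lit 192) (nat_lit 1) (nat_lit 193) (nat_lit 1) (nat_lit 348) (nat_lit 288) (nat_lit 264)) (XT.nd (nat_lit 78) (nat_lit 76) (nat_lit 0) (XT.lf (nat_lit 0) (nat_lit 49828163) (nat_lit 0) (nat_lit 89687223) (nat_lit 152) (nat_lit 49828163) (nat_lit 192) (nat_lit 3) (nat_lit 192) (nat_lit 1) (nat_lit 194) (nat_lit 1) (nat_lit 349) (nat_lit 288) (nat_lit 263)) (XT.lf (nat_lit 76) (nat_lit 37060200) (nat_lit 0) (nat_lit 71720252) (nat_lit 76) (nat_lit 71720252) (nat_lit 192) (nat_lit 3) (nat_lit 191) (nat_lit 1) (nat_lit 192)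 (nat_lit 1) (nat_lit 350) (nat_lit 288) (nat_lit 262)))) (XT.nd (nat_lit 78) (nat_lit 76) (nat_lit 0) (XT.lf (nat_lit 152) (nat_lit 154070995) (nat_lit 0) (nat_lit 9133083) (nat_lit 76) (nat_lit 9133083) (nat_lit 191) (nat_lit 1) (nat_lit 189) (nat_lit 1) (nat_lit 190) (nat_lit 1) (nat_lit 351) (nat_lit 288) (nat_lit 261)) (XT.nd (nat_lit 78) (nat_lit 76) (nat_lit 0) (XT.lf (nat_lit 0) (nat_lit 47097252) (nat_lit 0) (nat_lit 69886798) (nat_lit 152) (nat_lit 47097252) (nat_lit 189) (nat_lit 3) (nat_lit 189) (nat_lit 1) (nat_lit 191) (nat_lit 1) (nat_lit 352) (nat_lit 288) (nat_lit 260)) (XT.lf (nat_lit 76) (nat_lit 38951317) (nat_lit 0) (nat_lit 58768314) (nat_lit 76) (nat_lit 58768314) (nat_lit 189) (nat_lit 3) (nat_lit 188) (nat_lit 1) (nat_lit 189) (nat_lit 1) (nat_lit 353) (nat_lit 288) (nat_lit 259))))))))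
noncomputable def ec8 : XT := (XT.nd (nat_lit 45162) (nat_lit 0) (nat_lit 760) (XT.nd (nat_lit 858) (nat_lit 76) (nat_lit 0) (XT.nd (nat_lit 390) (nat_lit 456) (nat_lit 0) (XT.nd (nat_lit 156) (nat_lit 228) (nat_lit 0) (XT.nd (nat_lit 78) (nat_lit 0) (nat_lit 0) (XT.lf (nat_lit 152) (nat_lit 139059887) (nat_lit 0) (nat_lit 5221870) (nat_lit 76) (nat_lit 5221870) (nat_lit 188) (nat_lit 1) (nat_lit 186) (nat_lit 1) (nat_lit 187) (nat_lit 1) (nat_lit 354) (nat_lit 288) (nat_lit 258)) (XT.lf (nat_lit 0) (nat_lit 43108735) (nat_lit 0) (nat_lit 56138732) (nat_lit 152) (nat_lit 43108735) (nat_lit 186) (nat_lit 3) (nat_lit 186) (nat_lit 1) (nat_lit 188) (nat_lit 1) (nat_lit 355) (nat_lit 288) (nat_lit 257))) (XT.nd (nat_lit 78) (nat_lit 152) (nat_lit 0) (XT.lf (nat_lit 76) (nat_lit 37715783) (nat_lit 0) (nat_lit 49046215) (nat_lit 76) (nat_lit 49046215) (nat_lit 186) (nat_lit 3) (nat_lit 185) (nat_lit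 1) (nat_lit 186) (nat_lit 1) (nat_lit 356) (nat_lit 288) (nat_lit 256)) (XT.nd (nat_lit 78) (nat_lit 0) (nat_lit 0) (XT.lf (nat_lit 152) (nat_lit 123829068) (nat_lit 0) (nat_lit 2985621) (nat_lit 76) (nat_lit 2985621) (nat_lit 185) (nat_lit 1) (nat_lit 183) (nat_lit 1) (nat_lit 184) (nat_lit 1) (nat_lit 357) (nat_lit 288) (nat_lit 255)) (XT.lf (nat_lit 0) (nat_lit 38717758) (nat_lit 0) (nat_lit 46167701) (nat_lit 152) (nat_lit 38717758) (nat_lit 183) (nat_lit 3) (nat_lit 183) (nat_lit 1) (nat_lit 185) (nat_lit 1) (nat_lit 358) (nat_lit 288) (nat_lit 254))))) (XT.nd (nat_lit 234) (nat_lit 228) (nat_lit 0) (XT.nd (nat_lit 78) (nat_lit 152) (nat_lit 0) (XT.lf (nat_lit 76) (nat_lit 34994765) (nat_lit 0) (nat_lit 41472977) (nat_lit 76) (nat_lit 41472977) (nat_lit 183) (nat_lit 3) (nat_lit 182) (nat_lit 1) (nat_lit 183) (nat_lit 1) (nat_lit 359) (nat_lit 288) (nat_lit 253)) (XT.nd (nat_lit 78) (nat_lit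 0) (nat_lit 0) (XT.lf (nat_lit 152) (nat_lit 109339781) (nat_lit 0) (nat_lit 1707038) (nat_lit 76) (nat_lit 1707038) (nat_lit 182) (nat_lit 1) (nat_lit 180) (nat_lit 1) (nat_lit 181) (nat_lit 1) (nat_lit 360) (nat_lit 288) (nat_lit 252)) (XT.lf (nat_lit 0) (nat_lit 34371959) (nat_lit 0) (nat_lit 38631488) (nat_lit 152) (nat_lit 34371959) (nat_lit 180) (nat_lit 3) (nat_lit 180) (nat_lit 1) (nat_lit 182) (nat_lit 1) (nat_lit 361) (nat_lit 288) (nat_lit 251)))) (XT.nd (nat_lit 78) (nat_lit 152) (nat_lit 0) (XT.lf (nat_lit 76) (nat_lit 31687192) (nat_lit 0) (nat_lit 35391130) (nat_lit 76) (nat_lit 35391130) (nat_lit 180) (nat_lit 3) (nat_lit 179) (nat_lit 1) (nat_lit 180) (nat_lit 1) (nat_lit 362) (nat_lit 288) (nat_lit 250)) (XT.nd (nat_lit 78) (nat_lit 0) (nat_lit 0) (XT.lf (nat_lit 152) (nat_lit 96028514) (nat_lit 0) (nat_lit 976004) (nat_lit 76) (nat_lit 976004) (nat_lit 179) (nat_lit 1) (nat_lit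 177) (nat_lit 1) (nat_lit 178) (nat_lit 1) (nat_lit 363) (nat_lit 288) (nat_lit 249)) (XT.lf (nat_lit 0) (nat_lit 30291371) (nat_lit 0) (nat_lit 32726770) (nat_lit 152) (nat_lit 30291371) (nat_lit 177) (nat_lit 3) (nat_lit 177) (nat_lit 1) (nat_lit 179) (nat_lit 1) (nat_lit 364) (nat_lit 288) (nat_lit 248)))))) (XT.nd (nat_lit 43836) (nat_lit 0) (nat_lit 2432) (XT.nd (nat_lit 43602) (nat_lit 0) (nat_lit 2964) (XT.nd (nat_lit 43524) (nat_lit 0) (nat_lit 2964) (XT.lf (nat_lit 76) (nat_lit 28272751) (nat_lit 0) (nat_lit 30390490) (nat_lit 76) (nat_lit 30390490) (nat_lit 177) (nat_lit 3) (nat_lit 176) (nat_lit 1) (nat_lit 177) (nat_lit 1) (nat_lit 365) (nat_lit 288) (nat_lit 247)) (XT.lf (nat_lit 380) (nat_lit 150816269) (nat_lit 0) (nat_lit 133581681) (nat_lit 380) (nat_lit 150816269) (nat_lit 220) (nat_lit 1) (nat_lit 215) (nat_lit 0) (nat_lit 220) (nat_lit 0) (nat_lit 322) (nat_lit 289) (nat_lit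 289))) (XT.nd (nat_lit 78) (nat_lit 0) (nat_lit 76) (XT.lf (nat_lit 380) (nat_lit 557849808) (nat_lit 76) (nat_lit 127509787) (nat_lit 0) (nat_lit 127509787) (nat_lit 220) (nat_lit 1) (nat_lit 216) (nat_lit 1) (nat_lit 215) (nat_lit 0) (nat_lit 323) (nat_lit 289) (nat_lit 288)) (XT.nd (nat_lit 78) (nat_lit 0) (nat_lit 0) (XT.lf (nat_lit 380) (nat_lit 245896996) (nat_lit 0) (nat_lit 267559128) (nat_lit 304) (nat_lit 245896996) (nat_lit 221) (nat_lit 1) (nat_lit 216) (nat_lit 1) (nat_lit 220) (nat_lit 1) (nat_lit 324) (nat_lit 289) (nat_lit 287)) (XT.lf (nat_lit 380) (nat_lit 422192375) (nat_lit 76) (nat_lit 144519274) (nat_lit 0) (nat_lit 144519274) (nat_lit 221) (nat_lit 1) (nat_lit 217) (nat_lit 1) (nat_lit 216) (nat_lit 1) (nat_lit 325) (nat_lit 289) (nat_lit 286))))) (XT.nd (nat_lit 234) (nat_lit 380) (nat_lit 0) (XT.nd (nat_lit 78) (nat_lit 304) (nat_lit 0) (XT.lf (nat_lit 76) (nat_lit 170782415)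 (nat_lit 0) (nat_lit 325198390) (nat_lit 304) (nat_lit 170782415) (nat_lit 218) (nat_lit 1) (nat_lit 217) (nat_lit 1) (nat_lit 221) (nat_lit 1) (nat_lit 326) (nat_lit 289) (nat_lit 285)) (XT.nd (nat_lit 78) (nat_lit 0) (nat_lit 0) (XT.lf (nat_lit 380) (nat_lit 256672177) (nat_lit 0) (nat_lit 184747711) (nat_lit 304) (nat_lit 184747711) (nat_lit 218) (nat_lit 1) (nat_lit 213) (nat_lit 1) (nat_lit 217) (nat_lit 1) (nat_lit 327) (nat_lit 289) (nat_lit 284)) (XT.lf (nat_lit 76) (nat_lit 85314997) (nat_lit 0) (nat_lit 418642829) (nat_lit 380) (nat_lit 85314997) (nat_lit 214) (nat_lit 1) (nat_lit 213) (nat_lit 1) (nat_lit 218) (nat_lit 1) (nat_lit 328) (nat_lit 289) (nat_lit 283)))) (XT.nd (nat_lit 78) (nat_lit 228) (nat_lit 0) (XT.lf (nat_lit 228) (nat_lit 76781484) (nat_lit 0) (nat_lit 238963425) (nat_lit 152) (nat_lit 238963425) (nat_lit 214) (nat_lit 1) (nat_lit 211) (nat_lit 1) (nat_lit 213) (nat_lit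 1) (nat_lit 329) (nat_lit 289) (nat_lit 282)) (XT.nd (nat_lit 78) (nat_lit 0) (nat_lit 0) (XT.lf (nat_lit 228) (nat_lit 515970612) (nat_lit 0) (nat_lit 4048311) (nat_lit 152) (nat_lit 4048311) (nat_lit 211) (nat_lit 1) (nat_lit 208) (nat_lit 1) (nat_lit 210) (nat_lit 1) (nat_lit 330) (nat_lit 289) (nat_lit 281)) (XT.lf (nat_lit 76) (nat_lit 198239207) (nat_lit 0) (nat_lit 97324898) (nat_lit 228) (nat_lit 198239207) (nat_lit 209) (nat_lit 1) (nat_lit 208) (nat_lit 1) (nat_lit 211) (nat_lit 1) (nat_lit 331) (nat_lit 289) (nat_lit 280))))))) (XT.nd (nat_lit 858) (nat_lit 836) (nat_lit 0) (XT.nd (nat_lit 390) (nat_lit 380) (nat_lit 0) (XT.nd (nat_lit 156) (nat_lit 304) (nat_lit 0) (XT.nd (nat_lit 78) (nat_lit 0) (nat_lit 0) (XT.lf (nat_lit 228) (nat_lit 288148296) (nat_lit 0) (nat_lit 89380768) (nat_lit 152) (nat_lit 89380768) (nat_lit 209) (nat_lit 1) (nat_lit 206) (nat_lit 1) (nat_lit 208) (nat_lit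 1) (nat_lit 332) (nat_lit 289) (nat_lit 279)) (XT.lf (nat_lit 76) (nat_lit 90113423) (nat_lit 0) (nat_lit 261507613) (nat_lit 228) (nat_lit 90113423) (nat_lit 207) (nat_lit 1) (nat_lit 206) (nat_lit 1) (nat_lit 209) (nat_lit 1) (nat_lit 333) (nat_lit 289) (nat_lit 278))) (XT.nd (nat_lit 78) (nat_lit 228) (nat_lit 0) (XT.lf (nat_lit 152) (nat_lit 74495397) (nat_lit 0) (nat_lit 171898495) (nat_lit 76) (nat_lit 171898495) (nat_lit 207) (nat_lit 1) (nat_lit 205) (nat_lit 1) (nat_lit 206) (nat_lit 1) (nat_lit 334) (nat_lit 289) (nat_lit 277)) (XT.nd (nat_lit 78) (nat_lit 0) (nat_lit 0) (XT.lf (nat_lit 228) (nat_lit 377139491) (nat_lit 0) (nat_lit 10019096) (nat_lit 152) (nat_lit 10019096) (nat_lit 205) (nat_lit 1) (nat_lit 202) (nat_lit 1) (nat_lit 204) (nat_lit 1) (nat_lit 335) (nat_lit 289) (nat_lit 276)) (XT.lf (nat_lit 76) (nat_lit 131990710) (nat_lit 0) (nat_lit 112090817) (nat_lit 228) (nat_lit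 131990710) (nat_lit 203) (nat_lit 1) (nat_lit 202) (nat_lit 1) (nat_lit 205) (nat_lit 1) (nat_lit 336) (nat_lit 289) (nat_lit 275))))) (XT.nd (nat_lit 234) (nat_lit 152) (nat_lit 0) (XT.nd (nat_lit 78) (nat_lit 152) (nat_lit 0) (XT.lf (nat_lit 152) (nat_lit 160488062) (nat_lit 0) (nat_lit 98283522) (nat_lit 76) (nat_lit 98283522) (nat_lit 203) (nat_lit 1) (nat_lit 201) (nat_lit 1) (nat_lit 202) (nat_lit 1) (nat_lit 337) (nat_lit 289) (nat_lit 274)) (XT.nd (nat_lit 78) (nat_lit 152) (nat_lit 0) (XT.lf (nat_lit 0) (nat_lit 31425774) (nat_lit 0) (nat_lit 276670103) (nat_lit 152) (nat_lit 31425774) (nat_lit 201) (nat_lit 3) (nat_lit 201) (nat_lit 1) (nat_lit 203) (nat_lit 1) (nat_lit 338) (nat_lit 289) (nat_lit 273)) (XT.lf (nat_lit 76) (nat_lit 145438350) (nat_lit 0) (nat_lit 31543064) (nat_lit 152) (nat_lit 145438350) (nat_lit 200) (nat_lit 1) (nat_lit 199) (nat_lit 1) (nat_lit 201) (nat_lit 1) (nat_lit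 339) (nat_lit 289) (nat_lit 272)))) (XT.nd (nat_lit 78) (nat_lit 76) (nat_lit 0) (XT.lf (nat_lit 152) (nat_lit 194277029) (nat_lit 0) (nat_lit 56193923) (nat_lit 76) (nat_lit 56193923) (nat_lit 200) (nat_lit 1) (nat_lit 198) (nat_lit 1) (nat_lit 199) (nat_lit 1) (nat_lit 340) (nat_lit 289) (nat_lit 271)) (XT.nd (nat_lit 78) (nat_lit 76) (nat_lit 0) (XT.lf (nat_lit 0) (nat_lit 50513013) (nat_lit 0) (nat_lit 190732254) (nat_lit 152) (nat_lit 50513013) (nat_lit 198) (nat_lit 3) (nat_lit 198) (nat_lit 1) (nat_lit 200) (nat_lit 1) (nat_lit 341) (nat_lit 289) (nat_lit 270)) (XT.lf (nat_lit 76) (nat_lit 11268550) (nat_lit 0) (nat_lit 133198325) (nat_lit 76) (nat_lit 133198325) (nat_lit 198) (nat_lit 3) (nat_lit 197) (nat_lit 1) (nat_lit 198) (nat_lit 1) (nat_lit 342) (nat_lit 289) (nat_lit 269)))))) (XT.nd (nat_lit 390) (nat_lit 456) (nat_lit 0) (XT.nd (nat_lit 156) (nat_lit 228) (nat_lit 0) (XT.nd (nat_lit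 78) (nat_lit 0) (nat_lit 0) (XT.lf (nat_lit 152) (nat_lit 200224137) (nat_lit 0) (nat_lit 32129057) (nat_lit 76) (nat_lit 32129057) (nat_lit 197) (nat_lit 1) (nat_lit 195) (nat_lit 1) (nat_lit 196) (nat_lit 1) (nat_lit 343) (nat_lit 289) (nat_lit 268)) (XT.lf (nat_lit 0) (nat_lit 57181174) (nat_lit 0) (nat_lit 137351981) (nat_lit 152) (nat_lit 57181174) (nat_lit 195) (nat_lit 3) (nat_lit 195) (nat_lit 1) (nat_lit 197) (nat_lit 1) (nat_lit 344) (nat_lit 289) (nat_lit 267))) (XT.nd (nat_lit 78) (nat_lit 152) (nat_lit 0) (XT.lf (nat_lit 76) (nat_lit 33456653) (nat_lit 0) (nat_lit 103170398) (nat_lit 76) (nat_lit 103170398) (nat_lit 195) (nat_lit 3) (nat_lit 194) (nat_lit 1) (nat_lit 195) (nat_lit 1) (nat_lit 345) (nat_lit 289) (nat_lit 266)) (XT.nd (nat_lit 78) (nat_lit 0) (nat_lit 0) (XT.lf (nat_lit 152) (nat_lit 191996727) (nat_lit 0) (nat_lit 18369893) (nat_lit 76) (nat_lit 18369893) (nat_lit 194)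 (nat_lit 1) (nat_lit 192) (nat_lit 1) (nat_lit 193) (nat_lit 1) (nat_lit 346) (nat_lit 289) (nat_lit 265)) (XT.lf (nat_lit 0) (nat_lit 57302388) (nat_lit 0) (nat_lit 103140306) (nat_lit 152) (nat_lit 57302388) (nat_lit 192) (nat_lit 3) (nat_lit 192) (nat_lit 1) (nat_lit 194) (nat_lit 1) (nat_lit 347) (nat_lit 289) (nat_lit 264))))) (XT.nd (nat_lit 234) (nat_lit 228) (nat_lit 0) (XT.nd (nat_lit 78) (nat_lit 152) (nat_lit 0) (XT.lf (nat_lit 76) (nat_lit 42619231) (nat_lit 0) (nat_lit 82478290) (nat_lit 76) (nat_lit 82478290) (nat_lit 192) (nat_lit 3) (nat_lit 191) (nat_lit 1) (nat_lit 192) (nat_lit 1) (nat_lit 348) (nat_lit 289) (nat_lit 263)) (XT.nd (nat_lit 78) (nat_lit 0) (nat_lit 0) (XT.lf (nat_lit 152) (nat_lit 177181645) (nat_lit 0) (nat_lit 10503046) (nat_lit 76) (nat_lit 10503046) (nat_lit 191) (nat_lit 1) (nat_lit 189) (nat_lit 1) (nat_lit 190) (nat_lit 1) (nat_lit 349) (nat_lit 289) (nat_lit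 262)) (XT.lf (nat_lit 0) (nat_lit 54161840) (nat_lit 0) (nat_lit 80369818) (nat_lit 152) (nat_lit 54161840) (nat_lit 189) (nat_lit 3) (nat_lit 189) (nat_lit 1) (nat_lit 191) (nat_lit 1) (nat_lit 350) (nat_lit 289) (nat_lit 261)))) (XT.nd (nat_lit 78) (nat_lit 152) (nat_lit 0) (XT.lf (nat_lit 76) (nat_lit 44794014) (nat_lit 0) (nat_lit 67583561) (nat_lit 76) (nat_lit 67583561) (nat_lit 189) (nat_lit 3) (nat_lit 188) (nat_lit 1) (nat_lit 189) (nat_lit 1) (nat_lit 351) (nat_lit 289) (nat_lit 260)) (XT.nd (nat_lit 78) (nat_lit 0) (nat_lit 0) (XT.lf (nat_lit 152) (nat_lit 159918870) (nat_lit 0) (nat_lit 6005150) (nat_lit 76) (nat_lit 6005150) (nat_lit 188) (nat_lit 1) (nat_lit 186) (nat_lit 1) (nat_lit 187) (nat_lit 1) (nat_lit 352) (nat_lit 289) (nat_lit 259)) (XT.lf (nat_lit 0) (nat_lit 49575045) (nat_lit 0) (nat_lit 64559542) (nat_lit 152) (nat_lit 49575045) (nat_lit 186) (nat_lit 3) (nat_lit 186)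 (nat_lit 1) (nat_lit 188) (nat_lit 1) (nat_lit 353) (nat_lit 289) (nat_lit 258))))))))
noncomputable def ec9 : XT := (XT.nd (nat_lit 45006) (nat_lit 0) (nat_lit 836) (XT.nd (nat_lit 858) (nat_lit 0) (nat_lit 0) (XT.nd (nat_lit 390) (nat_lit 456) (nat_lit 0) (XT.nd (nat_lit 156) (nat_lit 228) (nat_lit 0) (XT.nd (nat_lit 78) (nat_lit 152) (nat_lit 0) (XT.lf (nat_lit 76) (nat_lit 43373150) (nat_lit 0) (nat_lit 56403147) (nat_lit 76) (nat_lit 56403147) (nat_lit 186) (nat_lit 3) (nat_lit 185) (nat_lit 1) (nat_lit 186) (nat_lit 1) (nat_lit 354) (nat_lit 289) (nat_lit 257)) (XT.lf (nat_lit 152) (nat_lit 142403428) (nat_lit 0) (nat_lit 3433464) (nat_lit 76) (nat_lit 3433464) (nat_lit 185) (nat_lit 1) (nat_lit 183) (nat_lit 1) (nat_lit 184) (nat_lit 1) (nat_lit 355) (nat_lit 289) (nat_lit 256))) (XT.nd (nat_lit 78) (nat_lit 228) (nat_lit 0) (XT.lf (nat_lit 0) (nat_lit 44525422) (nat_lit 0) (nat_lit 53092856)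 (nat_lit 152) (nat_lit 44525422) (nat_lit 183) (nat_lit 3) (nat_lit 183) (nat_lit 1) (nat_lit 185) (nat_lit 1) (nat_lit 356) (nat_lit 289) (nat_lit 255)) (XT.nd (nat_lit 78) (nat_lit 152) (nat_lit 0) (XT.lf (nat_lit 76) (nat_lit 40243980) (nat_lit 0) (nat_lit 47693923) (nat_lit 76) (nat_lit 47693923) (nat_lit 183) (nat_lit 3) (nat_lit 182) (nat_lit 1) (nat_lit 183) (nat_lit 1) (nat_lit 357) (nat_lit 289) (nat_lit 254)) (XT.lf (nat_lit 152) (nat_lit 125740748) (nat_lit 0) (nat_lit 1963094) (nat_lit 76) (nat_lit 1963094) (nat_lit 182) (nat_lit 1) (nat_lit 180) (nat_lit 1) (nat_lit 181) (nat_lit 1) (nat_lit 358) (nat_lit 289) (nat_lit 253))))) (XT.nd (nat_lit 234) (nat_lit 228) (nat_lit 0) (XT.nd (nat_lit 78) (nat_lit 228) (nat_lit 0) (XT.lf (nat_lit 0) (nat_lit 39527753) (nat_lit 0) (nat_lit 44426212) (nat_lit 152) (nat_lit 39527753) (nat_lit 180) (nat_lit 3) (nat_lit 180) (nat_lit 1) (nat_lit 182)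 (nat_lit 1) (nat_lit 359) (nat_lit 289) (nat_lit 252)) (XT.nd (nat_lit 78) (nat_lit 152) (nat_lit 0) (XT.lf (nat_lit 76) (nat_lit 36440270) (nat_lit 0) (nat_lit 40699800) (nat_lit 76) (nat_lit 40699800) (nat_lit 180) (nat_lit 3) (nat_lit 179) (nat_lit 1) (nat_lit 180) (nat_lit 1) (nat_lit 360) (nat_lit 289) (nat_lit 251)) (XT.lf (nat_lit 152) (nat_lit 110432791) (nat_lit 0) (nat_lit 1122405) (nat_lit 76) (nat_lit 1122405) (nat_lit 179) (nat_lit 1) (nat_lit 177) (nat_lit 1) (nat_lit 178) (nat_lit 1) (nat_lit 361) (nat_lit 289) (nat_lit 250)))) (XT.nd (nat_lit 78) (nat_lit 228) (nat_lit 0) (XT.lf (nat_lit 0) (nat_lit 34835076) (nat_lit 0) (nat_lit 37635786) (nat_lit 152) (nat_lit 34835076) (nat_lit 177) (nat_lit 3) (nat_lit 177) (nat_lit 1) (nat_lit 179) (nat_lit 1) (nat_lit 362) (nat_lit 289) (nat_lit 249)) (XT.nd (nat_lit 78) (nat_lit 152) (nat_lit 0) (XT.lf (nat_lit 76) (nat_lit 32513664) (nat_lit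 0) (nat_lit 34949063) (nat_lit 76) (nat_lit 34949063) (nat_lit 177) (nat_lit 3) (nat_lit 176) (nat_lit 1) (nat_lit 177) (nat_lit 1) (nat_lit 363) (nat_lit 289) (nat_lit 248)) (XT.lf (nat_lit 152) (nat_lit 96653445) (nat_lit 0) (nat_lit 641739) (nat_lit 76) (nat_lit 641739) (nat_lit 176) (nat_lit 1) (nat_lit 174) (nat_lit 1) (nat_lit 175) (nat_lit 1) (nat_lit 364) (nat_lit 289) (nat_lit 247)))))) (XT.nd (nat_lit 43680) (nat_lit 0) (nat_lit 2584) (XT.nd (nat_lit 43446) (nat_lit 0) (nat_lit 3116) (XT.nd (nat_lit 43368) (nat_lit 0) (nat_lit 3116) (XT.lf (nat_lit 0) (nat_lit 30556159) (nat_lit 0) (nat_lit 32157474) (nat_lit 152) (nat_lit 30556159) (nat_lit 174) (nat_lit 3) (nat_lit 174) (nat_lit 1) (nat_lit 176) (nat_lit 1) (nat_lit 365) (nat_lit 289) (nat_lit 246)) (XT.lf (nat_lit 380) (nat_lit 173438709) (nat_lit 0) (nat_lit 153618933) (nat_lit 380) (nat_lit 173438709) (nat_lit 220) (nat_lit 1) (nat_lit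 215) (nat_lit 0) (nat_lit 220) (nat_lit 0) (nat_lit 320) (nat_lit 290) (nat_lit 290))) (XT.nd (nat_lit 78) (nat_lit 0) (nat_lit 76) (XT.lf (nat_lit 380) (nat_lit 641527280) (nat_lit 76) (nat_lit 146636255) (nat_lit 0) (nat_lit 146636255) (nat_lit 220) (nat_lit 1) (nat_lit 216) (nat_lit 1) (nat_lit 215) (nat_lit 0) (nat_lit 321) (nat_lit 290) (nat_lit 289)) (XT.nd (nat_lit 78) (nat_lit 0) (nat_lit 0) (XT.lf (nat_lit 380) (nat_lit 282781546) (nat_lit 0) (nat_lit 307692997) (nat_lit 304) (nat_lit 282781546) (nat_lit 221) (nat_lit 1) (nat_lit 216) (nat_lit 1) (nat_lit 220) (nat_lit 1) (nat_lit 322) (nat_lit 290) (nat_lit 288)) (XT.lf (nat_lit 380) (nat_lit 485521232) (nat_lit 76) (nat_lit 166197165) (nat_lit 0) (nat_lit 166197165) (nat_lit 221) (nat_lit 1) (nat_lit 217) (nat_lit 1) (nat_lit 216) (nat_lit 1) (nat_lit 323) (nat_lit 290) (nat_lit 287))))) (XT.nd (nat_lit 234) (nat_lit 380) (nat_lit 0)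 (XT.nd (nat_lit 78) (nat_lit 304) (nat_lit 0) (XT.lf (nat_lit 76) (nat_lit 196399777) (nat_lit 0) (nat_lit 373978149) (nat_lit 304) (nat_lit 196399777) (nat_lit 218) (nat_lit 1) (nat_lit 217) (nat_lit 1) (nat_lit 221) (nat_lit 1) (nat_lit 324) (nat_lit 290) (nat_lit 286)) (XT.nd (nat_lit 78) (nat_lit 0) (nat_lit 0) (XT.lf (nat_lit 380) (nat_lit 295173004) (nat_lit 0) (nat_lit 212459868) (nat_lit 304) (nat_lit 212459868) (nat_lit 218) (nat_lit 1) (nat_lit 213) (nat_lit 1) (nat_lit 217) (nat_lit 1) (nat_lit 325) (nat_lit 290) (nat_lit 285)) (XT.lf (nat_lit 76) (nat_lit 98112246) (nat_lit 0) (nat_lit 481439253) (nat_lit 380) (nat_lit 98112246) (nat_lit 214) (nat_lit 1) (nat_lit 213) (nat_lit 1) (nat_lit 218) (nat_lit 1) (nat_lit 326) (nat_lit 290) (nat_lit 284)))) (XT.nd (nat_lit 78) (nat_lit 228) (nat_lit 0) (XT.lf (nat_lit 228) (nat_lit 88298707) (nat_lit 0) (nat_lit 274807939) (nat_lit 152) (nat_lit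 274807939) (nat_lit 214) (nat_lit 1) (nat_lit 211) (nat_lit 1) (nat_lit 213) (nat_lit 1) (nat_lit 327) (nat_lit 290) (nat_lit 283)) (XT.nd (nat_lit 78) (nat_lit 0) (nat_lit 0) (XT.lf (nat_lit 228) (nat_lit 593366204) (nat_lit 0) (nat_lit 4655557) (nat_lit 152) (nat_lit 4655557) (nat_lit 211) (nat_lit 1) (nat_lit 208) (nat_lit 1) (nat_lit 210) (nat_lit 1) (nat_lit 328) (nat_lit 290) (nat_lit 282)) (XT.lf (nat_lit 76) (nat_lit 227975088) (nat_lit 0) (nat_lit 111923633) (nat_lit 228) (nat_lit 227975088) (nat_lit 209) (nat_lit 1) (nat_lit 208) (nat_lit 1) (nat_lit 211) (nat_lit 1) (nat_lit 329) (nat_lit 290) (nat_lit 281))))))) (XT.nd (nat_lit 858) (nat_lit 912) (nat_lit 0) (XT.nd (nat_lit 390) (nat_lit 380) (nat_lit 0) (XT.nd (nat_lit 156) (nat_lit 304) (nat_lit 0) (XT.nd (nat_lit 78) (nat_lit 0) (nat_lit 0) (XT.lf (nat_lit 228) (nat_lit 331370540) (nat_lit 0) (nat_lit 102787884) (nat_lit 152) (nat_lit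 102787884) (nat_lit 209) (nat_lit 1) (nat_lit 206) (nat_lit 1) (nat_lit 208) (nat_lit 1) (nat_lit 330) (nat_lit 290) (nat_lit 280)) (XT.lf (nat_lit 76) (nat_lit 103630436) (nat_lit 0) (nat_lit 300733755) (nat_lit 228) (nat_lit 103630436) (nat_lit 207) (nat_lit 1) (nat_lit 206) (nat_lit 1) (nat_lit 209) (nat_lit 1) (nat_lit 331) (nat_lit 290) (nat_lit 279))) (XT.nd (nat_lit 78) (nat_lit 228) (nat_lit 0) (XT.lf (nat_lit 152) (nat_lit 85669706) (nat_lit 0) (nat_lit 197683270) (nat_lit 76) (nat_lit 197683270) (nat_lit 207) (nat_lit 1) (nat_lit 205) (nat_lit 1) (nat_lit 206) (nat_lit 1) (nat_lit 332) (nat_lit 290) (nat_lit 278)) (XT.nd (nat_lit 78) (nat_lit 0) (nat_lit 0) (XT.lf (nat_lit 228) (nat_lit 433710415) (nat_lit 0) (nat_lit 11521961) (nat_lit 152) (nat_lit 11521961) (nat_lit 205) (nat_lit 1) (nat_lit 202) (nat_lit 1) (nat_lit 204) (nat_lit 1) (nat_lit 333) (nat_lit 290) (nat_lit 277)) (XT.lf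 (nat_lit 76) (nat_lit 151789317) (nat_lit 0) (nat_lit 128904440) (nat_lit 228) (nat_lit 151789317) (nat_lit 203) (nat_lit 1) (nat_lit 202) (nat_lit 1) (nat_lit 205) (nat_lit 1) (nat_lit 334) (nat_lit 290) (nat_lit 276))))) (XT.nd (nat_lit 234) (nat_lit 152) (nat_lit 0) (XT.nd (nat_lit 78) (nat_lit 152) (nat_lit 0) (XT.lf (nat_lit 152) (nat_lit 184561271) (nat_lit 0) (nat_lit 113026051) (nat_lit 76) (nat_lit 113026051) (nat_lit 203) (nat_lit 1) (nat_lit 201) (nat_lit 1) (nat_lit 202) (nat_lit 1) (nat_lit 335) (nat_lit 290) (nat_lit 275)) (XT.nd (nat_lit 78) (nat_lit 152) (nat_lit 0) (XT.lf (nat_lit 0) (nat_lit 36139640) (nat_lit 0) (nat_lit 318170619) (nat_lit 152) (nat_lit 36139640) (nat_lit 201) (nat_lit 3) (nat_lit 201) (nat_lit 1) (nat_lit 203) (nat_lit 1) (nat_lit 336) (nat_lit 290) (nat_lit 274)) (XT.lf (nat_lit 76) (nat_lit 167254103) (nat_lit 0) (nat_lit 36274523) (nat_lit 152) (nat_lit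 167254103) (nat_lit 200) (nat_lit 1) (nat_lit 199) (nat_lit 1) (nat_lit 201) (nat_lit 1) (nat_lit 337) (nat_lit 290) (nat_lit 273)))) (XT.nd (nat_lit 78) (nat_lit 76) (nat_lit 0) (XT.lf (nat_lit 152) (nat_lit 223418583) (nat_lit 0) (nat_lit 64623011) (nat_lit 76) (nat_lit 64623011) (nat_lit 200) (nat_lit 1) (nat_lit 198) (nat_lit 1) (nat_lit 199) (nat_lit 1) (nat_lit 338) (nat_lit 290) (nat_lit 272)) (XT.nd (nat_lit 78) (nat_lit 76) (nat_lit 0) (XT.lf (nat_lit 0) (nat_lit 58089965) (nat_lit 0) (nat_lit 219342092) (nat_lit 152) (nat_lit 58089965) (nat_lit 198) (nat_lit 3) (nat_lit 198) (nat_lit 1) (nat_lit 200) (nat_lit 1) (nat_lit 339) (nat_lit 290) (nat_lit 271)) (XT.lf (nat_lit 76) (nat_lit 12958833) (nat_lit 0) (nat_lit 153178074) (nat_lit 76) (nat_lit 153178074) (nat_lit 198) (nat_lit 3) (nat_lit 197) (nat_lit 1) (nat_lit 198) (nat_lit 1) (nat_lit 340) (nat_lit 290) (nat_lit 270)))))) (XT.nd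 (nat_lit 468) (nat_lit 456) (nat_lit 0) (XT.nd (nat_lit 234) (nat_lit 228) (nat_lit 0) (XT.nd (nat_lit 78) (nat_lit 76) (nat_lit 0) (XT.lf (nat_lit 152) (nat_lit 230257758) (nat_lit 0) (nat_lit 36948416) (nat_lit 76) (nat_lit 36948416) (nat_lit 197) (nat_lit 1) (nat_lit 195) (nat_lit 1) (nat_lit 196) (nat_lit 1) (nat_lit 341) (nat_lit 290) (nat_lit 269)) (XT.nd (nat_lit 78) (nat_lit 76) (nat_lit 0) (XT.lf (nat_lit 0) (nat_lit 65758351) (nat_lit 0) (nat_lit 157954778) (nat_lit 152) (nat_lit 65758351) (nat_lit 195) (nat_lit 3) (nat_lit 195) (nat_lit 1) (nat_lit 197) (nat_lit 1) (nat_lit 342) (nat_lit 290) (nat_lit 268)) (XT.lf (nat_lit 76) (nat_lit 38475151) (nat_lit 0) (nat_lit 118645957) (nat_lit 76) (nat_lit 118645957) (nat_lit 195) (nat_lit 3) (nat_lit 194) (nat_lit 1) (nat_lit 195) (nat_lit 1) (nat_lit 343) (nat_lit 290) (nat_lit 267)))) (XT.nd (nat_lit 78) (nat_lit 76) (nat_lit 0) (XT.lf (nat_lit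 152) (nat_lit 220796236) (nat_lit 0) (nat_lit 21125377) (nat_lit 76) (nat_lit 21125377) (nat_lit 194) (nat_lit 1) (nat_lit 192) (nat_lit 1) (nat_lit 193) (nat_lit 1) (nat_lit 344) (nat_lit 290) (nat_lit 266)) (XT.nd (nat_lit 78) (nat_lit 76) (nat_lit 0) (XT.lf (nat_lit 0) (nat_lit 65897746) (nat_lit 0) (nat_lit 118611352) (nat_lit 152) (nat_lit 65897746) (nat_lit 192) (nat_lit 3) (nat_lit 192) (nat_lit 1) (nat_lit 194) (nat_lit 1) (nat_lit 345) (nat_lit 290) (nat_lit 265)) (XT.lf (nat_lit 76) (nat_lit 49012115) (nat_lit 0) (nat_lit 94850034) (nat_lit 76) (nat_lit 94850034) (nat_lit 192) (nat_lit 3) (nat_lit 191) (nat_lit 1) (nat_lit 192) (nat_lit 1) (nat_lit 346) (nat_lit 290) (nat_lit 264))))) (XT.nd (nat_lit 234) (nat_lit 228) (nat_lit 0) (XT.nd (nat_lit 78) (nat_lit 76) (nat_lit 0) (XT.lf (nat_lit 152) (nat_lit 203758892) (nat_lit 0) (nat_lit 12078502) (nat_lit 76) (nat_lit 12078502) (nat_lit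 191) (nat_lit 1) (nat_lit 189) (nat_lit 1) (nat_lit 190) (nat_lit 1) (nat_lit 347) (nat_lit 290) (nat_lit 263)) (XT.nd (nat_lit 78) (nat_lit 76) (nat_lit 0) (XT.lf (nat_lit 0) (nat_lit 62286116) (nat_lit 0) (nat_lit 92425291) (nat_lit 152) (nat_lit 62286116) (nat_lit 189) (nat_lit 3) (nat_lit 189) (nat_lit 1) (nat_lit 191) (nat_lit 1) (nat_lit 348) (nat_lit 290) (nat_lit 262)) (XT.lf (nat_lit 76) (nat_lit 51513117) (nat_lit 0) (nat_lit 77721095) (nat_lit 76) (nat_lit 77721095) (nat_lit 189) (nat_lit 3) (nat_lit 188) (nat_lit 1) (nat_lit 189) (nat_lit 1) (nat_lit 349) (nat_lit 290) (nat_lit 261)))) (XT.nd (nat_lit 78) (nat_lit 76) (nat_lit 0) (XT.lf (nat_lit 152) (nat_lit 183906700) (nat_lit 0) (nat_lit 6905923) (nat_lit 76) (nat_lit 6905923) (nat_lit 188) (nat_lit 1) (nat_lit 186) (nat_lit 1) (nat_lit 187) (nat_lit 1) (nat_lit 350) (nat_lit 290) (nat_lit 260)) (XT.nd (nat_lit 78) (nat_lit 76) (nat_lit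 0) (XT.lf (nat_lit 0) (nat_lit 57011302) (nat_lit 0) (nat_lit 74243474) (nat_lit 152) (nat_lit 57011302) (nat_lit 186) (nat_lit 3) (nat_lit 186) (nat_lit 1) (nat_lit 188) (nat_lit 1) (nat_lit 351) (nat_lit 290) (nat_lit 259)) (XT.lf (nat_lit 76) (nat_lit 49879123) (nat_lit 0) (nat_lit 64863620) (nat_lit 76) (nat_lit 64863620) (nat_lit 186) (nat_lit 3) (nat_lit 185) (nat_lit 1) (nat_lit 186) (nat_lit 1) (nat_lit 352) (nat_lit 290) (nat_lit 258))))))))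
noncomputable def ec10 : XT := (XT.nd (nat_lit 44772) (nat_lit 0) (nat_lit 1292) (XT.nd (nat_lit 858) (nat_lit 228) (nat_lit 0) (XT.nd (nat_lit 390) (nat_lit 456) (nat_lit 0) (XT.nd (nat_lit 156) (nat_lit 228) (nat_lit 0) (XT.nd (nat_lit 78) (nat_lit 0) (nat_lit 0) (XT.lf (nat_lit 152) (nat_lit 163763942) (nat_lit 0) (nat_lit 3948484) (nat_lit 76) (nat_lit 3948484) (nat_lit 185) (nat_lit 1) (nat_lit 183) (nat_lit 1) (nat_lit 184) (nat_lit 1) (nat_lit 353) (nat_lit 290) (nat_lit 257)) (XT.lf (nat_lit 0) (nat_lit 51204235) (nat_lit 0) (nat_lit 61056785) (nat_lit 152) (nat_lit 51204235) (nat_lit 183) (nat_lit 3) (nat_lit 183) (nat_lit 1) (nat_lit 185) (nat_lit 1) (nat_lit 354) (nat_lit 290) (nat_lit 256))) (XT.nd (nat_lit 78) (nat_lit 152) (nat_lit 0) (XT.lf (nat_lit 76) (nat_lit 46280577) (nat_lit 0) (nat_lit 54848012) (nat_lit 76) (nat_lit 54848012) (nat_lit 183) (nat_lit 3) (nat_lit 182) (nat_lit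 1) (nat_lit 183) (nat_lit 1) (nat_lit 355) (nat_lit 290) (nat_lit 255)) (XT.nd (nat_lit 78) (nat_lit 0) (nat_lit 0) (XT.lf (nat_lit 152) (nat_lit 144601861) (nat_lit 0) (nat_lit 2257558) (nat_lit 76) (nat_lit 2257558) (nat_lit 182) (nat_lit 1) (nat_lit 180) (nat_lit 1) (nat_lit 181) (nat_lit 1) (nat_lit 356) (nat_lit 290) (nat_lit 254)) (XT.lf (nat_lit 0) (nat_lit 45456916) (nat_lit 0) (nat_lit 51090143) (nat_lit 152) (nat_lit 45456916) (nat_lit 180) (nat_lit 3) (nat_lit 180) (nat_lit 1) (nat_lit 182) (nat_lit 1) (nat_lit 357) (nat_lit 290) (nat_lit 253))))) (XT.nd (nat_lit 234) (nat_lit 228) (nat_lit 0) (XT.nd (nat_lit 78) (nat_lit 152) (nat_lit 0) (XT.lf (nat_lit 76) (nat_lit 41906311) (nat_lit 0) (nat_lit 46804770) (nat_lit 76) (nat_lit 46804770) (nat_lit 180) (nat_lit 3) (nat_lit 179) (nat_lit 1) (nat_lit 180) (nat_lit 1) (nat_lit 358) (nat_lit 290) (nat_lit 252)) (XT.nd (nat_lit 78) (nat_lit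 0) (nat_lit 0) (XT.lf (nat_lit 152) (nat_lit 126997709) (nat_lit 0) (nat_lit 1290766) (nat_lit 76) (nat_lit 1290766) (nat_lit 179) (nat_lit 1) (nat_lit 177) (nat_lit 1) (nat_lit 178) (nat_lit 1) (nat_lit 359) (nat_lit 290) (nat_lit 251)) (XT.lf (nat_lit 0) (nat_lit 40060338) (nat_lit 0) (nat_lit 43281154) (nat_lit 152) (nat_lit 40060338) (nat_lit 177) (nat_lit 3) (nat_lit 177) (nat_lit 1) (nat_lit 179) (nat_lit 1) (nat_lit 360) (nat_lit 290) (nat_lit 250)))) (XT.nd (nat_lit 78) (nat_lit 152) (nat_lit 0) (XT.lf (nat_lit 76) (nat_lit 37390713) (nat_lit 0) (nat_lit 40191423) (nat_lit 76) (nat_lit 40191423) (nat_lit 177) (nat_lit 3) (nat_lit 176) (nat_lit 1) (nat_lit 177) (nat_lit 1) (nat_lit 361) (nat_lit 290) (nat_lit 249)) (XT.nd (nat_lit 78) (nat_lit 0) (nat_lit 0) (XT.lf (nat_lit 152) (nat_lit 111151462) (nat_lit 0) (nat_lit 737999) (nat_lit 76) (nat_lit 737999) (nat_lit 176) (nat_lit 1) (nat_lit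 174) (nat_lit 1) (nat_lit 175) (nat_lit 1) (nat_lit 362) (nat_lit 290) (nat_lit 248)) (XT.lf (nat_lit 0) (nat_lit 35139583) (nat_lit 0) (nat_lit 36981096) (nat_lit 152) (nat_lit 35139583) (nat_lit 174) (nat_lit 3) (nat_lit 174) (nat_lit 1) (nat_lit 176) (nat_lit 1) (nat_lit 363) (nat_lit 290) (nat_lit 247)))))) (XT.nd (nat_lit 43446) (nat_lit 0) (nat_lit 3040) (XT.nd (nat_lit 156) (nat_lit 0) (nat_lit 0) (XT.nd (nat_lit 78) (nat_lit 152) (nat_lit 0) (XT.lf (nat_lit 76) (nat_lit 33057083) (nat_lit 0) (nat_lit 34658398) (nat_lit 76) (nat_lit 34658398) (nat_lit 174) (nat_lit 3) (nat_lit 173) (nat_lit 1) (nat_lit 174) (nat_lit 1) (nat_lit 364) (nat_lit 290) (nat_lit 246)) (XT.lf (nat_lit 152) (nat_lit 97064348) (nat_lit 0) (nat_lit 421953) (nat_lit 76) (nat_lit 421953) (nat_lit 173) (nat_lit 1) (nat_lit 171) (nat_lit 1) (nat_lit 172) (nat_lit 1) (nat_lit 365) (nat_lit 290) (nat_lit 245))) (XT.nd (nat_lit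 43134) (nat_lit 0) (nat_lit 3344) (XT.lf (nat_lit 0) (nat_lit 30730262) (nat_lit 0) (nat_lit 31783153) (nat_lit 152) (nat_lit 30730262) (nat_lit 171) (nat_lit 3) (nat_lit 171) (nat_lit 1) (nat_lit 173) (nat_lit 1) (nat_lit 366) (nat_lit 290) (nat_lit 244)) (XT.nd (nat_lit 78) (nat_lit 0) (nat_lit 0) (XT.lf (nat_lit 380) (nat_lit 199454516) (nat_lit 0) (nat_lit 176661774) (nat_lit 380) (nat_lit 199454516) (nat_lit 220) (nat_lit 1) (nat_lit 215) (nat_lit 0) (nat_lit 220) (nat_lit 0) (nat_lit 318) (nat_lit 291) (nat_lit 291)) (XT.lf (nat_lit 380) (nat_lit 737756372) (nat_lit 76) (nat_lit 168631693) (nat_lit 0) (nat_lit 168631693) (nat_lit 220) (nat_lit 1) (nat_lit 216) (nat_lit 1) (nat_lit 215) (nat_lit 0) (nat_lit 319) (nat_lit 291) (nat_lit 290))))) (XT.nd (nat_lit 234) (nat_lit 380) (nat_lit 0) (XT.nd (nat_lit 78) (nat_lit 0) (nat_lit 0) (XT.lf (nat_lit 380) (nat_lit 325198778) (nat_lit 0) (nat_lit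 353846947) (nat_lit 304) (nat_lit 325198778) (nat_lit 221) (nat_lit 1) (nat_lit 216) (nat_lit 1) (nat_lit 220) (nat_lit 1) (nat_lit 320) (nat_lit 291) (nat_lit 289)) (XT.nd (nat_lit 78) (nat_lit 0) (nat_lit 76) (XT.lf (nat_lit 380) (nat_lit 558349417) (nat_lit 76) (nat_lit 191126740) (nat_lit 0) (nat_lit 191126740) (nat_lit 221) (nat_lit 1) (nat_lit 217) (nat_lit 1) (nat_lit 216) (nat_lit 1) (nat_lit 321) (nat_lit 291) (nat_lit 288)) (XT.lf (nat_lit 76) (nat_lit 225859744) (nat_lit 0) (nat_lit 430074871) (nat_lit 304) (nat_lit 225859744) (nat_lit 218) (nat_lit 1) (nat_lit 217) (nat_lit 1) (nat_lit 221) (nat_lit 1) (nat_lit 322) (nat_lit 291) (nat_lit 287)))) (XT.nd (nat_lit 78) (nat_lit 152) (nat_lit 0) (XT.lf (nat_lit 380) (nat_lit 339448954) (nat_lit 0) (nat_lit 244328848) (nat_lit 304) (nat_lit 244328848) (nat_lit 218) (nat_lit 1) (nat_lit 213) (nat_lit 1) (nat_lit 217) (nat_lit 1) (nat_lit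 323) (nat_lit 291) (nat_lit 286)) (XT.nd (nat_lit 78) (nat_lit 152) (nat_lit 0) (XT.lf (nat_lit 76) (nat_lit 112829083) (nat_lit 0) (nat_lit 553655141) (nat_lit 380) (nat_lit 112829083) (nat_lit 214) (nat_lit 1) (nat_lit 213) (nat_lit 1) (nat_lit 218) (nat_lit 1) (nat_lit 324) (nat_lit 291) (nat_lit 285)) (XT.lf (nat_lit 228) (nat_lit 101543513) (nat_lit 0) (nat_lit 316029130) (nat_lit 152) (nat_lit 316029130) (nat_lit 214) (nat_lit 1) (nat_lit 211) (nat_lit 1) (nat_lit 213) (nat_lit 1) (nat_lit 325) (nat_lit 291) (nat_lit 284))))))) (XT.nd (nat_lit 858) (nat_lit 760) (nat_lit 0) (XT.nd (nat_lit 390) (nat_lit 532) (nat_lit 0) (XT.nd (nat_lit 156) (nat_lit 228) (nat_lit 0) (XT.nd (nat_lit 78) (nat_lit 0) (nat_lit 0) (XT.lf (nat_lit 228) (nat_lit 682371134) (nat_lit 0) (nat_lit 5353891) (nat_lit 152) (nat_lit 5353891) (nat_lit 211) (nat_lit 1) (nat_lit 208) (nat_lit 1) (nat_lit 210) (nat_lit 1) (nat_lit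 326) (nat_lit 291) (nat_lit 283)) (XT.lf (nat_lit 76) (nat_lit 262171351) (nat_lit 0) (nat_lit 128712178) (nat_lit 228) (nat_lit 262171351) (nat_lit 209) (nat_lit 1) (nat_lit 208) (nat_lit 1) (nat_lit 211) (nat_lit 1) (nat_lit 327) (nat_lit 291) (nat_lit 282))) (XT.nd (nat_lit 78) (nat_lit 76) (nat_lit 0) (XT.lf (nat_lit 228) (nat_lit 381076121) (nat_lit 0) (nat_lit 118206066) (nat_lit 152) (nat_lit 118206066) (nat_lit 209) (nat_lit 1) (nat_lit 206) (nat_lit 1) (nat_lit 208) (nat_lit 1) (nat_lit 328) (nat_lit 291) (nat_lit 281)) (XT.nd (nat_lit 78) (nat_lit 76) (nat_lit 0) (XT.lf (nat_lit 76) (nat_lit 119175002) (nat_lit 0) (nat_lit 345843818) (nat_lit 228) (nat_lit 119175002) (nat_lit 207) (nat_lit 1) (nat_lit 206) (nat_lit 1) (nat_lit 209) (nat_lit 1) (nat_lit 329) (nat_lit 291) (nat_lit 280)) (XT.lf (nat_lit 152) (nat_lit 98520163) (nat_lit 0) (nat_lit 227335760) (nat_lit 76) (nat_lit 227335760)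 (nat_lit 207) (nat_lit 1) (nat_lit 205) (nat_lit 1) (nat_lit 206) (nat_lit 1) (nat_lit 330) (nat_lit 291) (nat_lit 279))))) (XT.nd (nat_lit 234) (nat_lit 228) (nat_lit 0) (XT.nd (nat_lit 78) (nat_lit 76) (nat_lit 0) (XT.lf (nat_lit 228) (nat_lit 498766977) (nat_lit 0) (nat_lit 13250255) (nat_lit 152) (nat_lit 13250255) (nat_lit 205) (nat_lit 1) (nat_lit 202) (nat_lit 1) (nat_lit 204) (nat_lit 1) (nat_lit 331) (nat_lit 291) (nat_lit 278)) (XT.nd (nat_lit 78) (nat_lit 76) (nat_lit 0) (XT.lf (nat_lit 76) (nat_lit 174557714) (nat_lit 0) (nat_lit 148240106) (nat_lit 228) (nat_lit 174557714) (nat_lit 203) (nat_lit 1) (nat_lit 202) (nat_lit 1) (nat_lit 205) (nat_lit 1) (nat_lit 332) (nat_lit 291) (nat_lit 277)) (XT.lf (nat_lit 152) (nat_lit 212245462) (nat_lit 0) (nat_lit 129979959) (nat_lit 76) (nat_lit 129979959) (nat_lit 203) (nat_lit 1) (nat_lit 201) (nat_lit 1) (nat_lit 202) (nat_lit 1) (nat_lit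 333) (nat_lit 291) (nat_lit 276)))) (XT.nd (nat_lit 78) (nat_lit 228) (nat_lit 0) (XT.lf (nat_lit 0) (nat_lit 41560586) (nat_lit 0) (nat_lit 365896212) (nat_lit 152) (nat_lit 41560586) (nat_lit 201) (nat_lit 3) (nat_lit 201) (nat_lit 1) (nat_lit 203) (nat_lit 1) (nat_lit 334) (nat_lit 291) (nat_lit 275)) (XT.nd (nat_lit 78) (nat_lit 76) (nat_lit 0) (XT.lf (nat_lit 76) (nat_lit 192342218) (nat_lit 0) (nat_lit 41715702) (nat_lit 152) (nat_lit 192342218) (nat_lit 200) (nat_lit 1) (nat_lit 199) (nat_lit 1) (nat_lit 201) (nat_lit 1) (nat_lit 335) (nat_lit 291) (nat_lit 274)) (XT.lf (nat_lit 152) (nat_lit 256931370) (nat_lit 0) (nat_lit 74316463) (nat_lit 76) (nat_lit 74316463) (nat_lit 200) (nat_lit 1) (nat_lit 198) (nat_lit 1) (nat_lit 199) (nat_lit 1) (nat_lit 336) (nat_lit 291) (nat_lit 273)))))) (XT.nd (nat_lit 390) (nat_lit 456) (nat_lit 0) (XT.nd (nat_lit 156) (nat_lit 228) (nat_lit 0) (XT.nd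 (nat_lit 78) (nat_lit 76) (nat_lit 0) (XT.lf (nat_lit 0) (nat_lit 66803460) (nat_lit 0) (nat_lit 252243406) (nat_lit 152) (nat_lit 66803460) (nat_lit 198) (nat_lit 3) (nat_lit 198) (nat_lit 1) (nat_lit 200) (nat_lit 1) (nat_lit 337) (nat_lit 291) (nat_lit 272)) (XT.lf (nat_lit 76) (nat_lit 14902658) (nat_lit 0) (nat_lit 176154785) (nat_lit 76) (nat_lit 176154785) (nat_lit 198) (nat_lit 3) (nat_lit 197) (nat_lit 1) (nat_lit 198) (nat_lit 1) (nat_lit 338) (nat_lit 291) (nat_lit 271))) (XT.nd (nat_lit 78) (nat_lit 76) (nat_lit 0) (XT.lf (nat_lit 152) (nat_lit 264796422) (nat_lit 0) (nat_lit 42490679) (nat_lit 76) (nat_lit 42490679) (nat_lit 197) (nat_lit 1) (nat_lit 195) (nat_lit 1) (nat_lit 196) (nat_lit 1) (nat_lit 339) (nat_lit 291) (nat_lit 270)) (XT.nd (nat_lit 78) (nat_lit 76) (nat_lit 0) (XT.lf (nat_lit 0) (nat_lit 75622103) (nat_lit 0) (nat_lit 181647995) (nat_lit 152) (nat_lit 75622103) (nat_lit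 195) (nat_lit 3) (nat_lit 195) (nat_lit 1) (nat_lit 197) (nat_lit 1) (nat_lit 340) (nat_lit 291) (nat_lit 269)) (XT.lf (nat_lit 76) (nat_lit 44246424) (nat_lit 0) (nat_lit 136442851) (nat_lit 76) (nat_lit 136442851) (nat_lit 195) (nat_lit 3) (nat_lit 194) (nat_lit 1) (nat_lit 195) (nat_lit 1) (nat_lit 341) (nat_lit 291) (nat_lit 268))))) (XT.nd (nat_lit 234) (nat_lit 228) (nat_lit 0) (XT.nd (nat_lit 78) (nat_lit 76) (nat_lit 0) (XT.lf (nat_lit 152) (nat_lit 253915672) (nat_lit 0) (nat_lit 24294183) (nat_lit 76) (nat_lit 24294183) (nat_lit 194) (nat_lit 1) (nat_lit 192) (nat_lit 1) (nat_lit 193) (nat_lit 1) (nat_lit 342) (nat_lit 291) (nat_lit 267)) (XT.nd (nat_lit 78) (nat_lit 76) (nat_lit 0) (XT.lf (nat_lit 0) (nat_lit 75782408) (nat_lit 0) (nat_lit 136403055) (nat_lit 152) (nat_lit 75782408) (nat_lit 192) (nat_lit 3) (nat_lit 192) (nat_lit 1) (nat_lit 194) (nat_lit 1) (nat_lit 343) (nat_lit 291)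 (nat_lit 266)) (XT.lf (nat_lit 76) (nat_lit 56363933) (nat_lit 0) (nat_lit 109077539) (nat_lit 76) (nat_lit 109077539) (nat_lit 192) (nat_lit 3) (nat_lit 191) (nat_lit 1) (nat_lit 192) (nat_lit 1) (nat_lit 344) (nat_lit 291) (nat_lit 265)))) (XT.nd (nat_lit 78) (nat_lit 76) (nat_lit 0) (XT.lf (nat_lit 152) (nat_lit 234322725) (nat_lit 0) (nat_lit 13890278) (nat_lit 76) (nat_lit 13890278) (nat_lit 191) (nat_lit 1) (nat_lit 189) (nat_lit 1) (nat_lit 190) (nat_lit 1) (nat_lit 345) (nat_lit 291) (nat_lit 264)) (XT.nd (nat_lit 78) (nat_lit 76) (nat_lit 0) (XT.lf (nat_lit 0) (nat_lit 71629033) (nat_lit 0) (nat_lit 106289085) (nat_lit 152) (nat_lit 71629033) (nat_lit 189) (nat_lit 3) (nat_lit 189) (nat_lit 1) (nat_lit 191) (nat_lit 1) (nat_lit 346) (nat_lit 291) (nat_lit 263)) (XT.lf (nat_lit 76) (nat_lit 59240084) (nat_lit 0) (nat_lit 89379260) (nat_lit 76) (nat_lit 89379260) (nat_lit 189) (nat_lit 3)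 (nat_lit 188) (nat_lit 1) (nat_lit 189) (nat_lit 1) (nat_lit 347) (nat_lit 291) (nat_lit 262))))))))
noncomputable def ec11 : XT := (XT.nd (nat_lit 44616) (nat_lit 0) (nat_lit 1824) (XT.nd (nat_lit 858) (nat_lit 684) (nat_lit 0) (XT.nd (nat_lit 390) (nat_lit 456) (nat_lit 0) (XT.nd (nat_lit 156) (nat_lit 228) (nat_lit 0) (XT.nd (nat_lit 78) (nat_lit 0) (nat_lit 0) (XT.lf (nat_lit 152) (nat_lit 211492706) (nat_lit 0) (nat_lit 7941811) (nat_lit 76) (nat_lit 7941811) (nat_lit 188) (nat_lit 1) (nat_lit 186) (nat_lit 1) (nat_lit 187) (nat_lit 1) (nat_lit 348) (nat_lit 291) (nat_lit 261)) (XT.lf (nat_lit 0) (nat_lit 65562998) (nat_lit 0) (nat_lit 85379995) (nat_lit 152) (nat_lit 65562998) (nat_lit 186) (nat_lit 3) (nat_lit 186) (nat_lit 1) (nat_lit 188) (nat_lit 1) (nat_lit 349) (nat_lit 291) (nat_lit 260))) (XT.nd (nat_lit 78) (nat_lit 152) (nat_lit 0) (XT.lf (nat_lit 76) (nat_lit 57360991) (nat_lit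 0) (nat_lit 74593163) (nat_lit 76) (nat_lit 74593163) (nat_lit 186) (nat_lit 3) (nat_lit 185) (nat_lit 1) (nat_lit 186) (nat_lit 1) (nat_lit 350) (nat_lit 291) (nat_lit 259)) (XT.nd (nat_lit 78) (nat_lit 0) (nat_lit 0) (XT.lf (nat_lit 152) (nat_lit 188328534) (nat_lit 0) (nat_lit 4540756) (nat_lit 76) (nat_lit 4540756) (nat_lit 185) (nat_lit 1) (nat_lit 183) (nat_lit 1) (nat_lit 184) (nat_lit 1) (nat_lit 351) (nat_lit 291) (nat_lit 258)) (XT.lf (nat_lit 0) (nat_lit 58884870) (nat_lit 0) (nat_lit 70215303) (nat_lit 152) (nat_lit 58884870) (nat_lit 183) (nat_lit 3) (nat_lit 183) (nat_lit 1) (nat_lit 185) (nat_lit 1) (nat_lit 352) (nat_lit 291) (nat_lit 257))))) (XT.nd (nat_lit 234) (nat_lit 228) (nat_lit 0) (XT.nd (nat_lit 78) (nat_lit 152) (nat_lit 0) (XT.lf (nat_lit 76) (nat_lit 53222664) (nat_lit 0) (nat_lit 63075214) (nat_lit 76) (nat_lit 63075214) (nat_lit 183) (nat_lit 3) (nat_lit 182) (nat_lit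 1) (nat_lit 183) (nat_lit 1) (nat_lit 353) (nat_lit 291) (nat_lit 256)) (XT.nd (nat_lit 78) (nat_lit 0) (nat_lit 0) (XT.lf (nat_lit 152) (nat_lit 166292140) (nat_lit 0) (nat_lit 2596192) (nat_lit 76) (nat_lit 2596192) (nat_lit 182) (nat_lit 1) (nat_lit 180) (nat_lit 1) (nat_lit 181) (nat_lit 1) (nat_lit 354) (nat_lit 291) (nat_lit 255)) (XT.lf (nat_lit 0) (nat_lit 52275453) (nat_lit 0) (nat_lit 58753665) (nat_lit 152) (nat_lit 52275453) (nat_lit 180) (nat_lit 3) (nat_lit 180) (nat_lit 1) (nat_lit 182) (nat_lit 1) (nat_lit 355) (nat_lit 291) (nat_lit 254)))) (XT.nd (nat_lit 78) (nat_lit 152) (nat_lit 0) (XT.lf (nat_lit 76) (nat_lit 48192258) (nat_lit 0) (nat_lit 53825485) (nat_lit 76) (nat_lit 53825485) (nat_lit 180) (nat_lit 3) (nat_lit 179) (nat_lit 1) (nat_lit 180) (nat_lit 1) (nat_lit 356) (nat_lit 291) (nat_lit 253)) (XT.nd (nat_lit 78) (nat_lit 0) (nat_lit 0) (XT.lf (nat_lit 152) (nat_lit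 146047366) (nat_lit 0) (nat_lit 1484381) (nat_lit 76) (nat_lit 1484381) (nat_lit 179) (nat_lit 1) (nat_lit 177) (nat_lit 1) (nat_lit 178) (nat_lit 1) (nat_lit 357) (nat_lit 291) (nat_lit 252)) (XT.lf (nat_lit 0) (nat_lit 46069389) (nat_lit 0) (nat_lit 49773327) (nat_lit 152) (nat_lit 46069389) (nat_lit 177) (nat_lit 3) (nat_lit 177) (nat_lit 1) (nat_lit 179) (nat_lit 1) (nat_lit 358) (nat_lit 291) (nat_lit 251)))))) (XT.nd (nat_lit 390) (nat_lit 228) (nat_lit 0) (XT.nd (nat_lit 156) (nat_lit 228) (nat_lit 0) (XT.nd (nat_lit 78) (nat_lit 152) (nat_lit 0) (XT.lf (nat_lit 76) (nat_lit 42999321) (nat_lit 0) (nat_lit 46220137) (nat_lit 76) (nat_lit 46220137) (nat_lit 177) (nat_lit 3) (nat_lit 176) (nat_lit 1) (nat_lit 177) (nat_lit 1) (nat_lit 359) (nat_lit 291) (nat_lit 250)) (XT.lf (nat_lit 152) (nat_lit 127824182) (nat_lit 0) (nat_lit 848699) (nat_lit 76) (nat_lit 848699) (nat_lit 176) (nat_lit 1)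 (nat_lit 174) (nat_lit 1) (nat_lit 175) (nat_lit 1) (nat_lit 360) (nat_lit 291) (nat_lit 249))) (XT.nd (nat_lit 78) (nat_lit 228) (nat_lit 0) (XT.lf (nat_lit 0) (nat_lit 40410521) (nat_lit 0) (nat_lit 42528260) (nat_lit 152) (nat_lit 40410521) (nat_lit 174) (nat_lit 3) (nat_lit 174) (nat_lit 1) (nat_lit 176) (nat_lit 1) (nat_lit 361) (nat_lit 291) (nat_lit 248)) (XT.nd (nat_lit 78) (nat_lit 152) (nat_lit 0) (XT.lf (nat_lit 76) (nat_lit 38015645) (nat_lit 0) (nat_lit 39857157) (nat_lit 76) (nat_lit 39857157) (nat_lit 174) (nat_lit 3) (nat_lit 173) (nat_lit 1) (nat_lit 174) (nat_lit 1) (nat_lit 362) (nat_lit 291) (nat_lit 247)) (XT.lf (nat_lit 152) (nat_lit 111624000) (nat_lit 0) (nat_lit 485246) (nat_lit 76) (nat_lit 485246) (nat_lit 173) (nat_lit 1) (nat_lit 171) (nat_lit 1) (nat_lit 172) (nat_lit 1) (nat_lit 363) (nat_lit 291) (nat_lit 246))))) (XT.nd (nat_lit 43134) (nat_lit 0) (nat_lit 3572)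 (XT.nd (nat_lit 78) (nat_lit 228) (nat_lit 0) (XT.lf (nat_lit 0) (nat_lit 35339802) (nat_lit 0) (nat_lit 36550626) (nat_lit 152) (nat_lit 35339802) (nat_lit 171) (nat_lit 3) (nat_lit 171) (nat_lit 1) (nat_lit 173) (nat_lit 1) (nat_lit 364) (nat_lit 291) (nat_lit 245)) (XT.nd (nat_lit 78) (nat_lit 152) (nat_lit 0) (XT.lf (nat_lit 76) (nat_lit 33414390) (nat_lit 0) (nat_lit 34467280) (nat_lit 76) (nat_lit 34467280) (nat_lit 171) (nat_lit 3) (nat_lit 170) (nat_lit 1) (nat_lit 171) (nat_lit 1) (nat_lit 365) (nat_lit 291) (nat_lit 244)) (XT.lf (nat_lit 152) (nat_lit 97334523) (nat_lit 0) (nat_lit 277441) (nat_lit 76) (nat_lit 277441) (nat_lit 170) (nat_lit 1) (nat_lit 168) (nat_lit 1) (nat_lit 169) (nat_lit 1) (nat_lit 366) (nat_lit 291) (nat_lit 243)))) (XT.nd (nat_lit 78) (nat_lit 0) (nat_lit 0) (XT.lf (nat_lit 380) (nat_lit 229372693) (nat_lit 0) (nat_lit 203161040) (nat_lit 380) (nat_lit 229372693)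 (nat_lit 220) (nat_lit 1) (nat_lit 215) (nat_lit 0) (nat_lit 220) (nat_lit 0) (nat_lit 316) (nat_lit 292) (nat_lit 292)) (XT.nd (nat_lit 78) (nat_lit 0) (nat_lit 76) (XT.lf (nat_lit 380) (nat_lit 848419827) (nat_lit 76) (nat_lit 193926447) (nat_lit 0) (nat_lit 193926447) (nat_lit 220) (nat_lit 1) (nat_lit 216) (nat_lit 1) (nat_lit 215) (nat_lit 0) (nat_lit 317) (nat_lit 292) (nat_lit 291)) (XT.lf (nat_lit 380) (nat_lit 373978595) (nat_lit 0) (nat_lit 406923989) (nat_lit 304) (nat_lit 373978595) (nat_lit 221) (nat_lit 1) (nat_lit 216) (nat_lit 1) (nat_lit 220) (nat_lit 1) (nat_lit 318) (nat_lit 292) (nat_lit 290))))))) (XT.nd (nat_lit 858) (nat_lit 760) (nat_lit 0) (XT.nd (nat_lit 390) (nat_lit 684) (nat_lit 0) (XT.nd (nat_lit 156) (nat_lit 380) (nat_lit 0) (XT.nd (nat_lit 78) (nat_lit 0) (nat_lit 76) (XT.lf (nat_lit 380) (nat_lit 642101829) (nat_lit 76) (nat_lit 219795751) (nat_lit 0) (nat_lit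 219795751) (nat_lit 221) (nat_lit 1) (nat_lit 217) (nat_lit 1) (nat_lit 216) (nat_lit 1) (nat_lit 319) (nat_lit 292) (nat_lit 289)) (XT.lf (nat_lit 76) (nat_lit 259738706) (nat_lit 0) (nat_lit 494586102) (nat_lit 304) (nat_lit 259738706) (nat_lit 218) (nat_lit 1) (nat_lit 217) (nat_lit 1) (nat_lit 221) (nat_lit 1) (nat_lit 320) (nat_lit 292) (nat_lit 288))) (XT.nd (nat_lit 78) (nat_lit 152) (nat_lit 0) (XT.lf (nat_lit 380) (nat_lit 390366298) (nat_lit 0) (nat_lit 280978175) (nat_lit 304) (nat_lit 280978175) (nat_lit 218) (nat_lit 1) (nat_lit 213) (nat_lit 1) (nat_lit 217) (nat_lit 1) (nat_lit 321) (nat_lit 292) (nat_lit 287)) (XT.nd (nat_lit 78) (nat_lit 152) (nat_lit 0) (XT.lf (nat_lit 76) (nat_lit 129753446) (nat_lit 0) (nat_lit 636703412) (nat_lit 380) (nat_lit 129753446) (nat_lit 214) (nat_lit 1) (nat_lit 213) (nat_lit 1) (nat_lit 218) (nat_lit 1) (nat_lit 322) (nat_lit 292) (nat_lit 286))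 (XT.lf (nat_lit 228) (nat_lit 116775040) (nat_lit 0) (nat_lit 363433500) (nat_lit 152) (nat_lit 363433500) (nat_lit 214) (nat_lit 1) (nat_lit 211) (nat_lit 1) (nat_lit 213) (nat_lit 1) (nat_lit 323) (nat_lit 292) (nat_lit 285))))) (XT.nd (nat_lit 234) (nat_lit 304) (nat_lit 0) (XT.nd (nat_lit 78) (nat_lit 152) (nat_lit 0) (XT.lf (nat_lit 228) (nat_lit 784726804) (nat_lit 0) (nat_lit 6156975) (nat_lit 152) (nat_lit 6156975) (nat_lit 211) (nat_lit 1) (nat_lit 208) (nat_lit 1) (nat_lit 210) (nat_lit 1) (nat_lit 324) (nat_lit 292) (nat_lit 284)) (XT.nd (nat_lit 78) (nat_lit 152) (nat_lit 0) (XT.lf (nat_lit 76) (nat_lit 301497054) (nat_lit 0) (nat_lit 148019005) (nat_lit 228) (nat_lit 301497054) (nat_lit 209) (nat_lit 1) (nat_lit 208) (nat_lit 1) (nat_lit 211) (nat_lit 1) (nat_lit 325) (nat_lit 292) (nat_lit 283)) (XT.lf (nat_lit 228) (nat_lit 438237540) (nat_lit 0) (nat_lit 135936976) (nat_lit 152)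 (nat_lit 135936976) (nat_lit 209) (nat_lit 1) (nat_lit 206) (nat_lit 1) (nat_lit 208) (nat_lit 1) (nat_lit 326) (nat_lit 292) (nat_lit 282)))) (XT.nd (nat_lit 78) (nat_lit 304) (nat_lit 0) (XT.lf (nat_lit 76) (nat_lit 137051252) (nat_lit 0) (nat_lit 397720391) (nat_lit 228) (nat_lit 137051252) (nat_lit 207) (nat_lit 1) (nat_lit 206) (nat_lit 1) (nat_lit 209) (nat_lit 1) (nat_lit 327) (nat_lit 292) (nat_lit 281)) (XT.nd (nat_lit 78) (nat_lit 228) (nat_lit 0) (XT.lf (nat_lit 152) (nat_lit 113298187) (nat_lit 0) (nat_lit 261436124) (nat_lit 76) (nat_lit 261436124) (nat_lit 207) (nat_lit 1) (nat_lit 205) (nat_lit 1) (nat_lit 206) (nat_lit 1) (nat_lit 328) (nat_lit 292) (nat_lit 280)) (XT.lf (nat_lit 228) (nat_lit 573582024) (nat_lit 0) (nat_lit 15237793) (nat_lit 152) (nat_lit 15237793) (nat_lit 205) (nat_lit 1) (nat_lit 202) (nat_lit 1) (nat_lit 204) (nat_lit 1) (nat_lit 329) (nat_lit 292) (nat_lit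 279)))))) (XT.nd (nat_lit 468) (nat_lit 456) (nat_lit 0) (XT.nd (nat_lit 234) (nat_lit 228) (nat_lit 0) (XT.nd (nat_lit 78) (nat_lit 76) (nat_lit 0) (XT.lf (nat_lit 76) (nat_lit 200741372) (nat_lit 0) (nat_lit 170476122) (nat_lit 228) (nat_lit 200741372) (nat_lit 203) (nat_lit 1) (nat_lit 202) (nat_lit 1) (nat_lit 205) (nat_lit 1) (nat_lit 330) (nat_lit 292) (nat_lit 278)) (XT.nd (nat_lit 78) (nat_lit 0) (nat_lit 0) (XT.lf (nat_lit 152) (nat_lit 244082282) (nat_lit 0) (nat_lit 149476952) (nat_lit 76) (nat_lit 149476952) (nat_lit 203) (nat_lit 1) (nat_lit 201) (nat_lit 1) (nat_lit 202) (nat_lit 1) (nat_lit 331) (nat_lit 292) (nat_lit 277)) (XT.lf (nat_lit 0) (nat_lit 47794674) (nat_lit 0) (nat_lit 420780643) (nat_lit 152) (nat_lit 47794674) (nat_lit 201) (nat_lit 3) (nat_lit 201) (nat_lit 1) (nat_lit 203) (nat_lit 1) (nat_lit 332) (nat_lit 292) (nat_lit 276)))) (XT.nd (nat_lit 78) (nat_lit 76) (nat_lit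 0) (XT.lf (nat_lit 76) (nat_lit 221193551) (nat_lit 0) (nat_lit 47973057) (nat_lit 152) (nat_lit 221193551) (nat_lit 200) (nat_lit 1) (nat_lit 199) (nat_lit 1) (nat_lit 201) (nat_lit 1) (nat_lit 333) (nat_lit 292) (nat_lit 275)) (XT.nd (nat_lit 78) (nat_lit 0) (nat_lit 0) (XT.lf (nat_lit 152) (nat_lit 295471076) (nat_lit 0) (nat_lit 85463932) (nat_lit 76) (nat_lit 85463932) (nat_lit 200) (nat_lit 1) (nat_lit 198) (nat_lit 1) (nat_lit 199) (nat_lit 1) (nat_lit 334) (nat_lit 292) (nat_lit 274)) (XT.lf (nat_lit 0) (nat_lit 76823979) (nat_lit 0) (nat_lit 290079917) (nat_lit 152) (nat_lit 76823979) (nat_lit 198) (nat_lit 3) (nat_lit 198) (nat_lit 1) (nat_lit 200) (nat_lit 1) (nat_lit 335) (nat_lit 292) (nat_lit 273))))) (XT.nd (nat_lit 234) (nat_lit 228) (nat_lit 0) (XT.nd (nat_lit 78) (nat_lit 152) (nat_lit 0) (XT.lf (nat_lit 76) (nat_lit 17138056) (nat_lit 0) (nat_lit 202578003) (nat_lit 76) (nat_lit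 202578003) (nat_lit 198) (nat_lit 3) (nat_lit 197) (nat_lit 1) (nat_lit 198) (nat_lit 1) (nat_lit 336) (nat_lit 292) (nat_lit 272)) (XT.nd (nat_lit 78) (nat_lit 0) (nat_lit 0) (XT.lf (nat_lit 152) (nat_lit 304515885) (nat_lit 0) (nat_lit 48864281) (nat_lit 76) (nat_lit 48864281) (nat_lit 197) (nat_lit 1) (nat_lit 195) (nat_lit 1) (nat_lit 196) (nat_lit 1) (nat_lit 337) (nat_lit 292) (nat_lit 271)) (XT.lf (nat_lit 0) (nat_lit 86965419) (nat_lit 0) (nat_lit 208895194) (nat_lit 152) (nat_lit 86965419) (nat_lit 195) (nat_lit 3) (nat_lit 195) (nat_lit 1) (nat_lit 197) (nat_lit 1) (nat_lit 338) (nat_lit 292) (nat_lit 270)))) (XT.nd (nat_lit 78) (nat_lit 152) (nat_lit 0) (XT.lf (nat_lit 76) (nat_lit 50883387) (nat_lit 0) (nat_lit 156909279) (nat_lit 76) (nat_lit 156909279) (nat_lit 195) (nat_lit 3) (nat_lit 194) (nat_lit 1) (nat_lit 195) (nat_lit 1) (nat_lit 339) (nat_lit 292) (nat_lit 269)) (XT.nd (nat_lit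 78) (nat_lit 0) (nat_lit 0) (XT.lf (nat_lit 152) (nat_lit 292003023) (nat_lit 0) (nat_lit 27938311) (nat_lit 76) (nat_lit 27938311) (nat_lit 194) (nat_lit 1) (nat_lit 192) (nat_lit 1) (nat_lit 193) (nat_lit 1) (nat_lit 340) (nat_lit 292) (nat_lit 268)) (XT.lf (nat_lit 0) (nat_lit 87149769) (nat_lit 0) (nat_lit 156863514) (nat_lit 152) (nat_lit 87149769) (nat_lit 192) (nat_lit 3) (nat_lit 192) (nat_lit 1) (nat_lit 194) (nat_lit 1) (nat_lit 341) (nat_lit 292) (nat_lit 267))))))))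
noncomputable def ec12 : XT := (XT.nd (nat_lit 1716) (nat_lit 228) (nat_lit 0) (XT.nd (nat_lit 858) (nat_lit 760) (nat_lit 0) (XT.nd (nat_lit 390) (nat_lit 456) (nat_lit 0) (XT.nd (nat_lit 156) (nat_lit 228) (nat_lit 0) (XT.nd (nat_lit 78) (nat_lit 152) (nat_lit 0) (XT.lf (nat_lit 76) (nat_lit 64818523) (nat_lit 0) (nat_lit 125439170) (nat_lit 76) (nat_lit 125439170) (nat_lit 192) (nat_lit 3) (nat_lit 191) (nat_lit 1) (nat_lit 192) (nat_lit 1) (nat_lit 342) (nat_lit 292) (nat_lit 266)) (XT.lf (nat_lit 152) (nat_lit 269471134) (nat_lit 0) (nat_lit 15973820) (nat_lit 76) (nat_lit 15973820) (nat_lit 191) (nat_lit 1) (nat_lit 189) (nat_lit 1) (nat_lit 190) (nat_lit 1) (nat_lit 343) (nat_lit 292) (nat_lit 265))) (XT.nd (nat_lit 78) (nat_lit 228) (nat_lit 0) (XT.lf (nat_lit 0) (nat_lit 82373388) (nat_lit 0) (nat_lit 122232448) (nat_lit 152) (nat_lit 82373388) (nat_lit 189) (nat_lit 3) (nat_lit 189) (nat_lit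 1) (nat_lit 191) (nat_lit 1) (nat_lit 344) (nat_lit 292) (nat_lit 264)) (XT.nd (nat_lit 78) (nat_lit 152) (nat_lit 0) (XT.lf (nat_lit 76) (nat_lit 68126097) (nat_lit 0) (nat_lit 102786149) (nat_lit 76) (nat_lit 102786149) (nat_lit 189) (nat_lit 3) (nat_lit 188) (nat_lit 1) (nat_lit 189) (nat_lit 1) (nat_lit 345) (nat_lit 292) (nat_lit 263)) (XT.lf (nat_lit 152) (nat_lit 243216611) (nat_lit 0) (nat_lit 9133083) (nat_lit 76) (nat_lit 9133083) (nat_lit 188) (nat_lit 1) (nat_lit 186) (nat_lit 1) (nat_lit 187) (nat_lit 1) (nat_lit 346) (nat_lit 292) (nat_lit 262))))) (XT.nd (nat_lit 234) (nat_lit 228) (nat_lit 0) (XT.nd (nat_lit 78) (nat_lit 228) (nat_lit 0) (XT.lf (nat_lit 0) (nat_lit 75397447) (nat_lit 0) (nat_lit 98186994) (nat_lit 152) (nat_lit 75397447) (nat_lit 186) (nat_lit 3) (nat_lit 186) (nat_lit 1) (nat_lit 188) (nat_lit 1) (nat_lit 347) (nat_lit 292) (nat_lit 261)) (XT.nd (nat_lit 78) (nat_lit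 152) (nat_lit 0) (XT.lf (nat_lit 76) (nat_lit 65965140) (nat_lit 0) (nat_lit 85782137) (nat_lit 76) (nat_lit 85782137) (nat_lit 186) (nat_lit 3) (nat_lit 185) (nat_lit 1) (nat_lit 186) (nat_lit 1) (nat_lit 348) (nat_lit 292) (nat_lit 260)) (XT.lf (nat_lit 152) (nat_lit 216577814) (nat_lit 0) (nat_lit 5221870) (nat_lit 76) (nat_lit 5221870) (nat_lit 185) (nat_lit 1) (nat_lit 183) (nat_lit 1) (nat_lit 184) (nat_lit 1) (nat_lit 349) (nat_lit 292) (nat_lit 259)))) (XT.nd (nat_lit 78) (nat_lit 228) (nat_lit 0) (XT.lf (nat_lit 0) (nat_lit 67717601) (nat_lit 0) (nat_lit 80747598) (nat_lit 152) (nat_lit 67717601) (nat_lit 183) (nat_lit 3) (nat_lit 183) (nat_lit 1) (nat_lit 185) (nat_lit 1) (nat_lit 350) (nat_lit 292) (nat_lit 258)) (XT.nd (nat_lit 78) (nat_lit 152) (nat_lit 0) (XT.lf (nat_lit 76) (nat_lit 61206064) (nat_lit 0) (nat_lit 72536496) (nat_lit 76) (nat_lit 72536496) (nat_lit 183) (nat_lit 3)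 (nat_lit 182) (nat_lit 1) (nat_lit 183) (nat_lit 1) (nat_lit 351) (nat_lit 292) (nat_lit 257)) (XT.lf (nat_lit 152) (nat_lit 191235961) (nat_lit 0) (nat_lit 2985621) (nat_lit 76) (nat_lit 2985621) (nat_lit 182) (nat_lit 1) (nat_lit 180) (nat_lit 1) (nat_lit 181) (nat_lit 1) (nat_lit 352) (nat_lit 292) (nat_lit 256)))))) (XT.nd (nat_lit 390) (nat_lit 456) (nat_lit 0) (XT.nd (nat_lit 156) (nat_lit 228) (nat_lit 0) (XT.nd (nat_lit 78) (nat_lit 76) (nat_lit 0) (XT.lf (nat_lit 0) (nat_lit 60116771) (nat_lit 0) (nat_lit 67566715) (nat_lit 152) (nat_lit 60116771) (nat_lit 180) (nat_lit 3) (nat_lit 180) (nat_lit 1) (nat_lit 182) (nat_lit 1) (nat_lit 353) (nat_lit 292) (nat_lit 255)) (XT.lf (nat_lit 76) (nat_lit 55421096) (nat_lit 0) (nat_lit 61899308) (nat_lit 76) (nat_lit 61899308) (nat_lit 180) (nat_lit 3) (nat_lit 179) (nat_lit 1) (nat_lit 180) (nat_lit 1) (nat_lit 354) (nat_lit 292) (nat_lit 254)))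 (XT.nd (nat_lit 78) (nat_lit 76) (nat_lit 0) (XT.lf (nat_lit 152) (nat_lit 167954471) (nat_lit 0) (nat_lit 1707038) (nat_lit 76) (nat_lit 1707038) (nat_lit 179) (nat_lit 1) (nat_lit 177) (nat_lit 1) (nat_lit 178) (nat_lit 1) (nat_lit 355) (nat_lit 292) (nat_lit 253)) (XT.nd (nat_lit 78) (nat_lit 76) (nat_lit 0) (XT.lf (nat_lit 0) (nat_lit 52979797) (nat_lit 0) (nat_lit 57239326) (nat_lit 152) (nat_lit 52979797) (nat_lit 177) (nat_lit 3) (nat_lit 177) (nat_lit 1) (nat_lit 179) (nat_lit 1) (nat_lit 356) (nat_lit 292) (nat_lit 252)) (XT.lf (nat_lit 76) (nat_lit 49449219) (nat_lit 0) (nat_lit 53153157) (nat_lit 76) (nat_lit 53153157) (nat_lit 177) (nat_lit 3) (nat_lit 176) (nat_lit 1) (nat_lit 177) (nat_lit 1) (nat_lit 357) (nat_lit 292) (nat_lit 251))))) (XT.nd (nat_lit 234) (nat_lit 228) (nat_lit 0) (XT.nd (nat_lit 78) (nat_lit 76) (nat_lit 0) (XT.lf (nat_lit 152) (nat_lit 146997809) (nat_lit 0)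 (nat_lit 976004) (nat_lit 76) (nat_lit 976004) (nat_lit 176) (nat_lit 1) (nat_lit 174) (nat_lit 1) (nat_lit 175) (nat_lit 1) (nat_lit 358) (nat_lit 292) (nat_lit 250)) (XT.nd (nat_lit 78) (nat_lit 76) (nat_lit 0) (XT.lf (nat_lit 0) (nat_lit 46472099) (nat_lit 0) (nat_lit 48907499) (nat_lit 152) (nat_lit 46472099) (nat_lit 174) (nat_lit 3) (nat_lit 174) (nat_lit 1) (nat_lit 176) (nat_lit 1) (nat_lit 359) (nat_lit 292) (nat_lit 249)) (XT.lf (nat_lit 76) (nat_lit 43717992) (nat_lit 0) (nat_lit 45835731) (nat_lit 76) (nat_lit 45835731) (nat_lit 174) (nat_lit 3) (nat_lit 173) (nat_lit 1) (nat_lit 174) (nat_lit 1) (nat_lit 360) (nat_lit 292) (nat_lit 248)))) (XT.nd (nat_lit 78) (nat_lit 76) (nat_lit 0) (XT.lf (nat_lit 152) (nat_lit 128367600) (nat_lit 0) (nat_lit 558033) (nat_lit 76) (nat_lit 558033) (nat_lit 173) (nat_lit 1) (nat_lit 171) (nat_lit 1) (nat_lit 172) (nat_lit 1) (nat_lit 361) (nat_lit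 292) (nat_lit 247)) (XT.nd (nat_lit 78) (nat_lit 76) (nat_lit 0) (XT.lf (nat_lit 0) (nat_lit 40640772) (nat_lit 0) (nat_lit 42033220) (nat_lit 152) (nat_lit 40640772) (nat_lit 171) (nat_lit 3) (nat_lit 171) (nat_lit 1) (nat_lit 173) (nat_lit 1) (nat_lit 362) (nat_lit 292) (nat_lit 246)) (XT.lf (nat_lit 76) (nat_lit 38426548) (nat_lit 0) (nat_lit 39637372) (nat_lit 76) (nat_lit 39637372) (nat_lit 171) (nat_lit 3) (nat_lit 170) (nat_lit 1) (nat_lit 171) (nat_lit 1) (nat_lit 363) (nat_lit 292) (nat_lit 245))))))) (XT.nd (nat_lit 43602) (nat_lit 0) (nat_lit 2356) (XT.nd (nat_lit 43134) (nat_lit 0) (nat_lit 3344) (XT.nd (nat_lit 156) (nat_lit 76) (nat_lit 0) (XT.nd (nat_lit 78) (nat_lit 0) (nat_lit 0) (XT.lf (nat_lit 152) (nat_lit 111934702) (nat_lit 0) (nat_lit 319057) (nat_lit 76) (nat_lit 319057) (nat_lit 170) (nat_lit 1) (nat_lit 168) (nat_lit 1) (nat_lit 169) (nat_lit 1) (nat_lit 364) (nat_lit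 292) (nat_lit 244)) (XT.lf (nat_lit 0) (nat_lit 35471449) (nat_lit 0) (nat_lit 36267585) (nat_lit 152) (nat_lit 35471449) (nat_lit 168) (nat_lit 3) (nat_lit 168) (nat_lit 1) (nat_lit 170) (nat_lit 1) (nat_lit 365) (nat_lit 292) (nat_lit 243))) (XT.nd (nat_lit 42822) (nat_lit 0) (nat_lit 3648) (XT.lf (nat_lit 76) (nat_lit 33649325) (nat_lit 0) (nat_lit 34341617) (nat_lit 76) (nat_lit 34341617) (nat_lit 168) (nat_lit 3) (nat_lit 167) (nat_lit 1) (nat_lit 168) (nat_lit 1) (nat_lit 366) (nat_lit 292) (nat_lit 242)) (XT.nd (nat_lit 78) (nat_lit 0) (nat_lit 0) (XT.lf (nat_lit 380) (nat_lit 263778597) (nat_lit 0) (nat_lit 233635196) (nat_lit 380) (nat_lit 263778597) (nat_lit 220) (nat_lit 1) (nat_lit 215) (nat_lit 0) (nat_lit 220) (nat_lit 0) (nat_lit 314) (nat_lit 293) (nat_lit 293)) (XT.lf (nat_lit 380) (nat_lit 975682802) (nat_lit 76) (nat_lit 223015414) (nat_lit 0) (nat_lit 223015414) (nat_lit 220)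 (nat_lit 1) (nat_lit 216) (nat_lit 1) (nat_lit 215) (nat_lit 0) (nat_lit 315) (nat_lit 293) (nat_lit 292))))) (XT.nd (nat_lit 234) (nat_lit 380) (nat_lit 0) (XT.nd (nat_lit 78) (nat_lit 0) (nat_lit 0) (XT.lf (nat_lit 380) (nat_lit 430075384) (nat_lit 0) (nat_lit 467962587) (nat_lit 304) (nat_lit 430075384) (nat_lit 221) (nat_lit 1) (nat_lit 216) (nat_lit 1) (nat_lit 220) (nat_lit 1) (nat_lit 316) (nat_lit 293) (nat_lit 291)) (XT.nd (nat_lit 78) (nat_lit 0) (nat_lit 76) (XT.lf (nat_lit 380) (nat_lit 738417104) (nat_lit 76) (nat_lit 252765113) (nat_lit 0) (nat_lit 252765113) (nat_lit 221) (nat_lit 1) (nat_lit 217) (nat_lit 1) (nat_lit 216) (nat_lit 1) (nat_lit 317) (nat_lit 293) (nat_lit 290)) (XT.lf (nat_lit 76) (nat_lit 298699512) (nat_lit 0) (nat_lit 568774017) (nat_lit 304) (nat_lit 298699512) (nat_lit 218) (nat_lit 1) (nat_lit 217) (nat_lit 1) (nat_lit 221) (nat_lit 1) (nat_lit 318) (nat_lit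 293) (nat_lit 289)))) (XT.nd (nat_lit 78) (nat_lit 152) (nat_lit 0) (XT.lf (nat_lit 380) (nat_lit 448921242) (nat_lit 0) (nat_lit 323124902) (nat_lit 304) (nat_lit 323124902) (nat_lit 218) (nat_lit 1) (nat_lit 213) (nat_lit 1) (nat_lit 217) (nat_lit 1) (nat_lit 319) (nat_lit 293) (nat_lit 288)) (XT.nd (nat_lit 78) (nat_lit 152) (nat_lit 0) (XT.lf (nat_lit 76) (nat_lit 149216463) (nat_lit 0) (nat_lit 732208924) (nat_lit 380) (nat_lit 149216463) (nat_lit 214) (nat_lit 1) (nat_lit 213) (nat_lit 1) (nat_lit 218) (nat_lit 1) (nat_lit 320) (nat_lit 293) (nat_lit 287)) (XT.lf (nat_lit 228) (nat_lit 134291296) (nat_lit 0) (nat_lit 417948525) (nat_lit 152) (nat_lit 417948525) (nat_lit 214) (nat_lit 1) (nat_lit 211) (nat_lit 1) (nat_lit 213) (nat_lit 1) (nat_lit 321) (nat_lit 293) (nat_lit 286)))))) (XT.nd (nat_lit 390) (nat_lit 532) (nat_lit 0) (XT.nd (nat_lit 156) (nat_lit 228) (nat_lit 0) (XT.nd (nat_lit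 78) (nat_lit 0) (nat_lit 0) (XT.lf (nat_lit 228) (nat_lit 902435825) (nat_lit 0) (nat_lit 7080521) (nat_lit 152) (nat_lit 7080521) (nat_lit 211) (nat_lit 1) (nat_lit 208) (nat_lit 1) (nat_lit 210) (nat_lit 1) (nat_lit 322) (nat_lit 293) (nat_lit 285)) (XT.lf (nat_lit 76) (nat_lit 346721612) (nat_lit 0) (nat_lit 170221855) (nat_lit 228) (nat_lit 346721612) (nat_lit 209) (nat_lit 1) (nat_lit 208) (nat_lit 1) (nat_lit 211) (nat_lit 1) (nat_lit 323) (nat_lit 293) (nat_lit 284))) (XT.nd (nat_lit 78) (nat_lit 76) (nat_lit 0) (XT.lf (nat_lit 228) (nat_lit 503973171) (nat_lit 0) (nat_lit 156327523) (nat_lit 152) (nat_lit 156327523) (nat_lit 209) (nat_lit 1) (nat_lit 206) (nat_lit 1) (nat_lit 208) (nat_lit 1) (nat_lit 324) (nat_lit 293) (nat_lit 283)) (XT.nd (nat_lit 78) (nat_lit 76) (nat_lit 0) (XT.lf (nat_lit 76) (nat_lit 157608940) (nat_lit 0) (nat_lit 457378450) (nat_lit 228) (nat_lit 157608940) (nat_lit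 207) (nat_lit 1) (nat_lit 206) (nat_lit 1) (nat_lit 209) (nat_lit 1) (nat_lit 325) (nat_lit 293) (nat_lit 282)) (XT.lf (nat_lit 152) (nat_lit 130292915) (nat_lit 0) (nat_lit 300651543) (nat_lit 76) (nat_lit 300651543) (nat_lit 207) (nat_lit 1) (nat_lit 205) (nat_lit 1) (nat_lit 206) (nat_lit 1) (nat_lit 326) (nat_lit 293) (nat_lit 281))))) (XT.nd (nat_lit 234) (nat_lit 228) (nat_lit 0) (XT.nd (nat_lit 78) (nat_lit 76) (nat_lit 0) (XT.lf (nat_lit 228) (nat_lit 659619327) (nat_lit 0) (nat_lit 17523462) (nat_lit 152) (nat_lit 17523462) (nat_lit 205) (nat_lit 1) (nat_lit 202) (nat_lit 1) (nat_lit 204) (nat_lit 1) (nat_lit 327) (nat_lit 293) (nat_lit 280)) (XT.nd (nat_lit 78) (nat_lit 76) (nat_lit 0) (XT.lf (nat_lit 76) (nat_lit 230852578) (nat_lit 0) (nat_lit 196047541) (nat_lit 228) (nat_lit 230852578) (nat_lit 203) (nat_lit 1) (nat_lit 202) (nat_lit 1) (nat_lit 205) (nat_lit 1) (nat_lit 328) (nat_lit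 293) (nat_lit 279)) (XT.lf (nat_lit 152) (nat_lit 280694624) (nat_lit 0) (nat_lit 171898495) (nat_lit 76) (nat_lit 171898495) (nat_lit 203) (nat_lit 1) (nat_lit 201) (nat_lit 1) (nat_lit 202) (nat_lit 1) (nat_lit 329) (nat_lit 293) (nat_lit 278)))) (XT.nd (nat_lit 78) (nat_lit 228) (nat_lit 0) (XT.lf (nat_lit 0) (nat_lit 54963875) (nat_lit 0) (nat_lit 483897740) (nat_lit 152) (nat_lit 54963875) (nat_lit 201) (nat_lit 3) (nat_lit 201) (nat_lit 1) (nat_lit 203) (nat_lit 1) (nat_lit 330) (nat_lit 293) (nat_lit 277)) (XT.nd (nat_lit 78) (nat_lit 76) (nat_lit 0) (XT.lf (nat_lit 76) (nat_lit 254372584) (nat_lit 0) (nat_lit 55169016) (nat_lit 152) (nat_lit 254372584) (nat_lit 200) (nat_lit 1) (nat_lit 199) (nat_lit 1) (nat_lit 201) (nat_lit 1) (nat_lit 331) (nat_lit 293) (nat_lit 276)) (XT.lf (nat_lit 152) (nat_lit 339791738) (nat_lit 0) (nat_lit 98283522) (nat_lit 76) (nat_lit 98283522) (nat_lit 200)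 (nat_lit 1) (nat_lit 198) (nat_lit 1) (nat_lit 199) (nat_lit 1) (nat_lit 332) (nat_lit 293) (nat_lit 275))))))))
noncomputable def ec13 : XT := (XT.nd (nat_lit 1716) (nat_lit 988) (nat_lit 0) (XT.nd (nat_lit 858) (nat_lit 836) (nat_lit 0) (XT.nd (nat_lit 390) (nat_lit 456) (nat_lit 0) (XT.nd (nat_lit 156) (nat_lit 228) (nat_lit 0) (XT.nd (nat_lit 78) (nat_lit 76) (nat_lit 0) (XT.lf (nat_lit 0) (nat_lit 88347576) (nat_lit 0) (nat_lit 333591905) (nat_lit 152) (nat_lit 88347576) (nat_lit 198) (nat_lit 3) (nat_lit 198) (nat_lit 1) (nat_lit 200) (nat_lit 1) (nat_lit 333) (nat_lit 293) (nat_lit 274)) (XT.lf (nat_lit 76) (nat_lit 19708765) (nat_lit 0) (nat_lit 232964704) (nat_lit 76) (nat_lit 232964704) (nat_lit 198) (nat_lit 3) (nat_lit 197) (nat_lit 1) (nat_lit 198) (nat_lit 1) (nat_lit 334) (nat_lit 293) (nat_lit 273))) (XT.nd (nat_lit 78) (nat_lit 76) (nat_lit 0) (XT.lf (nat_lit 152) (nat_lit 350193268)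 (nat_lit 0) (nat_lit 56193923) (nat_lit 76) (nat_lit 56193923) (nat_lit 197) (nat_lit 1) (nat_lit 195) (nat_lit 1) (nat_lit 196) (nat_lit 1) (nat_lit 335) (nat_lit 293) (nat_lit 272)) (XT.nd (nat_lit 78) (nat_lit 76) (nat_lit 0) (XT.lf (nat_lit 0) (nat_lit 100010232) (nat_lit 0) (nat_lit 240229473) (nat_lit 152) (nat_lit 100010232) (nat_lit 195) (nat_lit 3) (nat_lit 195) (nat_lit 1) (nat_lit 197) (nat_lit 1) (nat_lit 336) (nat_lit 293) (nat_lit 271)) (XT.lf (nat_lit 76) (nat_lit 58515895) (nat_lit 0) (nat_lit 180445671) (nat_lit 76) (nat_lit 180445671) (nat_lit 195) (nat_lit 3) (nat_lit 194) (nat_lit 1) (nat_lit 195) (nat_lit 1) (nat_lit 337) (nat_lit 293) (nat_lit 270))))) (XT.nd (nat_lit 234) (nat_lit 228) (nat_lit 0) (XT.nd (nat_lit 78) (nat_lit 76) (nat_lit 0) (XT.lf (nat_lit 152) (nat_lit 335803476) (nat_lit 0) (nat_lit 32129057) (nat_lit 76) (nat_lit 32129057) (nat_lit 194) (nat_lit 1) (nat_lit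 192) (nat_lit 1) (nat_lit 193) (nat_lit 1) (nat_lit 338) (nat_lit 293) (nat_lit 269)) (XT.nd (nat_lit 78) (nat_lit 76) (nat_lit 0) (XT.lf (nat_lit 0) (nat_lit 100222234) (nat_lit 0) (nat_lit 180393041) (nat_lit 152) (nat_lit 100222234) (nat_lit 192) (nat_lit 3) (nat_lit 192) (nat_lit 1) (nat_lit 194) (nat_lit 1) (nat_lit 339) (nat_lit 293) (nat_lit 268)) (XT.lf (nat_lit 76) (nat_lit 74541301) (nat_lit 0) (nat_lit 144255046) (nat_lit 76) (nat_lit 144255046) (nat_lit 192) (nat_lit 3) (nat_lit 191) (nat_lit 1) (nat_lit 192) (nat_lit 1) (nat_lit 340) (nat_lit 293) (nat_lit 267)))) (XT.nd (nat_lit 78) (nat_lit 76) (nat_lit 0) (XT.lf (nat_lit 152) (nat_lit 309891805) (nat_lit 0) (nat_lit 18369893) (nat_lit 76) (nat_lit 18369893) (nat_lit 191) (nat_lit 1) (nat_lit 189) (nat_lit 1) (nat_lit 190) (nat_lit 1) (nat_lit 341) (nat_lit 293) (nat_lit 266)) (XT.nd (nat_lit 78) (nat_lit 76) (nat_lit 0) (XT.lf (nat_lit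 0) (nat_lit 94729396) (nat_lit 0) (nat_lit 140567315) (nat_lit 152) (nat_lit 94729396) (nat_lit 189) (nat_lit 3) (nat_lit 189) (nat_lit 1) (nat_lit 191) (nat_lit 1) (nat_lit 342) (nat_lit 293) (nat_lit 265)) (XT.lf (nat_lit 76) (nat_lit 78345012) (nat_lit 0) (nat_lit 118204071) (nat_lit 76) (nat_lit 118204071) (nat_lit 189) (nat_lit 3) (nat_lit 188) (nat_lit 1) (nat_lit 189) (nat_lit 1) (nat_lit 343) (nat_lit 293) (nat_lit 264)))))) (XT.nd (nat_lit 390) (nat_lit 456) (nat_lit 0) (XT.nd (nat_lit 156) (nat_lit 228) (nat_lit 0) (XT.nd (nat_lit 78) (nat_lit 0) (nat_lit 0) (XT.lf (nat_lit 152) (nat_lit 279699103) (nat_lit 0) (nat_lit 10503046) (nat_lit 76) (nat_lit 10503046) (nat_lit 188) (nat_lit 1) (nat_lit 186) (nat_lit 1) (nat_lit 187) (nat_lit 1) (nat_lit 344) (nat_lit 293) (nat_lit 263)) (XT.lf (nat_lit 0) (nat_lit 86707064) (nat_lit 0) (nat_lit 112915043) (nat_lit 152) (nat_lit 86707064) (nat_lit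 186) (nat_lit 3) (nat_lit 186) (nat_lit 1) (nat_lit 188) (nat_lit 1) (nat_lit 345) (nat_lit 293) (nat_lit 262))) (XT.nd (nat_lit 78) (nat_lit 152) (nat_lit 0) (XT.lf (nat_lit 76) (nat_lit 75859911) (nat_lit 0) (nat_lit 98649458) (nat_lit 76) (nat_lit 98649458) (nat_lit 186) (nat_lit 3) (nat_lit 185) (nat_lit 1) (nat_lit 186) (nat_lit 1) (nat_lit 346) (nat_lit 293) (nat_lit 261)) (XT.nd (nat_lit 78) (nat_lit 0) (nat_lit 0) (XT.lf (nat_lit 152) (nat_lit 249064486) (nat_lit 0) (nat_lit 6005150) (nat_lit 76) (nat_lit 6005150) (nat_lit 185) (nat_lit 1) (nat_lit 183) (nat_lit 1) (nat_lit 184) (nat_lit 1) (nat_lit 347) (nat_lit 293) (nat_lit 260)) (XT.lf (nat_lit 0) (nat_lit 77875241) (nat_lit 0) (nat_lit 92859738) (nat_lit 152) (nat_lit 77875241) (nat_lit 183) (nat_lit 3) (nat_lit 183) (nat_lit 1) (nat_lit 185) (nat_lit 1) (nat_lit 348) (nat_lit 293) (nat_lit 259))))) (XT.nd (nat_lit 234) (nat_lit 228)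 (nat_lit 0) (XT.nd (nat_lit 78) (nat_lit 152) (nat_lit 0) (XT.lf (nat_lit 76) (nat_lit 70386973) (nat_lit 0) (nat_lit 83416970) (nat_lit 76) (nat_lit 83416970) (nat_lit 183) (nat_lit 3) (nat_lit 182) (nat_lit 1) (nat_lit 183) (nat_lit 1) (nat_lit 349) (nat_lit 293) (nat_lit 258)) (XT.nd (nat_lit 78) (nat_lit 0) (nat_lit 0) (XT.lf (nat_lit 152) (nat_lit 219921355) (nat_lit 0) (nat_lit 3433464) (nat_lit 76) (nat_lit 3433464) (nat_lit 182) (nat_lit 1) (nat_lit 180) (nat_lit 1) (nat_lit 181) (nat_lit 1) (nat_lit 350) (nat_lit 293) (nat_lit 257)) (XT.lf (nat_lit 0) (nat_lit 69134287) (nat_lit 0) (nat_lit 77701722) (nat_lit 152) (nat_lit 69134287) (nat_lit 180) (nat_lit 3) (nat_lit 180) (nat_lit 1) (nat_lit 182) (nat_lit 1) (nat_lit 351) (nat_lit 293) (nat_lit 256)))) (XT.nd (nat_lit 78) (nat_lit 152) (nat_lit 0) (XT.lf (nat_lit 76) (nat_lit 63734261) (nat_lit 0) (nat_lit 71184204) (nat_lit 76) (nat_lit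 71184204) (nat_lit 180) (nat_lit 3) (nat_lit 179) (nat_lit 1) (nat_lit 180) (nat_lit 1) (nat_lit 352) (nat_lit 293) (nat_lit 255)) (XT.nd (nat_lit 78) (nat_lit 0) (nat_lit 0) (XT.lf (nat_lit 152) (nat_lit 193147641) (nat_lit 0) (nat_lit 1963094) (nat_lit 76) (nat_lit 1963094) (nat_lit 179) (nat_lit 1) (nat_lit 177) (nat_lit 1) (nat_lit 178) (nat_lit 1) (nat_lit 353) (nat_lit 293) (nat_lit 254)) (XT.lf (nat_lit 0) (nat_lit 60926767) (nat_lit 0) (nat_lit 65825225) (nat_lit 152) (nat_lit 60926767) (nat_lit 177) (nat_lit 3) (nat_lit 177) (nat_lit 1) (nat_lit 179) (nat_lit 1) (nat_lit 354) (nat_lit 293) (nat_lit 253))))))) (XT.nd (nat_lit 858) (nat_lit 76) (nat_lit 0) (XT.nd (nat_lit 390) (nat_lit 456) (nat_lit 0) (XT.nd (nat_lit 156) (nat_lit 228) (nat_lit 0) (XT.nd (nat_lit 78) (nat_lit 152) (nat_lit 0) (XT.lf (nat_lit 76) (nat_lit 56866602) (nat_lit 0) (nat_lit 61126131) (nat_lit 76) (nat_lit 61126131)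 (nat_lit 177) (nat_lit 3) (nat_lit 176) (nat_lit 1) (nat_lit 177) (nat_lit 1) (nat_lit 355) (nat_lit 293) (nat_lit 252)) (XT.lf (nat_lit 152) (nat_lit 169047480) (nat_lit 0) (nat_lit 1122405) (nat_lit 76) (nat_lit 1122405) (nat_lit 176) (nat_lit 1) (nat_lit 174) (nat_lit 1) (nat_lit 175) (nat_lit 1) (nat_lit 356) (nat_lit 293) (nat_lit 251))) (XT.nd (nat_lit 78) (nat_lit 228) (nat_lit 0) (XT.lf (nat_lit 0) (nat_lit 53442914) (nat_lit 0) (nat_lit 56243624) (nat_lit 152) (nat_lit 53442914) (nat_lit 174) (nat_lit 3) (nat_lit 174) (nat_lit 1) (nat_lit 176) (nat_lit 1) (nat_lit 357) (nat_lit 293) (nat_lit 250)) (XT.nd (nat_lit 78) (nat_lit 152) (nat_lit 0) (XT.lf (nat_lit 76) (nat_lit 50275691) (nat_lit 0) (nat_lit 52711091) (nat_lit 76) (nat_lit 52711091) (nat_lit 174) (nat_lit 3) (nat_lit 173) (nat_lit 1) (nat_lit 174) (nat_lit 1) (nat_lit 358) (nat_lit 293) (nat_lit 249)) (XT.lf (nat_lit 152) (nat_lit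 147622741) (nat_lit 0) (nat_lit 641739) (nat_lit 76) (nat_lit 641739) (nat_lit 173) (nat_lit 1) (nat_lit 171) (nat_lit 1) (nat_lit 172) (nat_lit 1) (nat_lit 359) (nat_lit 293) (nat_lit 248))))) (XT.nd (nat_lit 234) (nat_lit 228) (nat_lit 0) (XT.nd (nat_lit 78) (nat_lit 228) (nat_lit 0) (XT.lf (nat_lit 0) (nat_lit 46736888) (nat_lit 0) (nat_lit 48338203) (nat_lit 152) (nat_lit 46736888) (nat_lit 171) (nat_lit 3) (nat_lit 171) (nat_lit 1) (nat_lit 173) (nat_lit 1) (nat_lit 360) (nat_lit 293) (nat_lit 247)) (XT.nd (nat_lit 78) (nat_lit 152) (nat_lit 0) (XT.lf (nat_lit 76) (nat_lit 44190530) (nat_lit 0) (nat_lit 45582978) (nat_lit 76) (nat_lit 45582978) (nat_lit 171) (nat_lit 3) (nat_lit 170) (nat_lit 1) (nat_lit 171) (nat_lit 1) (nat_lit 361) (nat_lit 293) (nat_lit 246)) (XT.lf (nat_lit 152) (nat_lit 128724907) (nat_lit 0) (nat_lit 366916) (nat_lit 76) (nat_lit 366916) (nat_lit 170) (nat_lit 1) (nat_lit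 168) (nat_lit 1) (nat_lit 169) (nat_lit 1) (nat_lit 362) (nat_lit 293) (nat_lit 245)))) (XT.nd (nat_lit 78) (nat_lit 228) (nat_lit 0) (XT.lf (nat_lit 0) (nat_lit 40792166) (nat_lit 0) (nat_lit 41707723) (nat_lit 152) (nat_lit 40792166) (nat_lit 168) (nat_lit 3) (nat_lit 168) (nat_lit 1) (nat_lit 170) (nat_lit 1) (nat_lit 363) (nat_lit 293) (nat_lit 244)) (XT.nd (nat_lit 78) (nat_lit 152) (nat_lit 0) (XT.lf (nat_lit 76) (nat_lit 38696723) (nat_lit 0) (nat_lit 39492860) (nat_lit 76) (nat_lit 39492860) (nat_lit 168) (nat_lit 3) (nat_lit 167) (nat_lit 1) (nat_lit 168) (nat_lit 1) (nat_lit 364) (nat_lit 293) (nat_lit 243)) (XT.lf (nat_lit 152) (nat_lit 112138993) (nat_lit 0) (nat_lit 209785) (nat_lit 76) (nat_lit 209785) (nat_lit 167) (nat_lit 1) (nat_lit 165) (nat_lit 1) (nat_lit 166) (nat_lit 1) (nat_lit 365) (nat_lit 293) (nat_lit 242)))))) (XT.nd (nat_lit 42978) (nat_lit 0) (nat_lit 3344) (XT.nd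 (nat_lit 42744) (nat_lit 0) (nat_lit 3876) (XT.nd (nat_lit 78) (nat_lit 76) (nat_lit 0) (XT.lf (nat_lit 0) (nat_lit 35558009) (nat_lit 0) (nat_lit 36081481) (nat_lit 152) (nat_lit 35558009) (nat_lit 165) (nat_lit 3) (nat_lit 165) (nat_lit 1) (nat_lit 167) (nat_lit 1) (nat_lit 366) (nat_lit 293) (nat_lit 241)) (XT.nd (nat_lit 42588) (nat_lit 0) (nat_lit 3876) (XT.lf (nat_lit 76) (nat_lit 33803798) (nat_lit 0) (nat_lit 34258992) (nat_lit 76) (nat_lit 34258992) (nat_lit 165) (nat_lit 3) (nat_lit 164) (nat_lit 1) (nat_lit 165) (nat_lit 1) (nat_lit 367) (nat_lit 293) (nat_lit 240)) (XT.lf (nat_lit 380) (nat_lit 303345387) (nat_lit 0) (nat_lit 268680475) (nat_lit 380) (nat_lit 303345387) (nat_lit 220) (nat_lit 1) (nat_lit 215) (nat_lit 0) (nat_lit 220) (nat_lit 0) (nat_lit 312) (nat_lit 294) (nat_lit 294)))) (XT.nd (nat_lit 78) (nat_lit 0) (nat_lit 76) (XT.lf (nat_lit 380) (nat_lit 1122035222) (nat_lit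 76) (nat_lit 256467726) (nat_lit 0) (nat_lit 256467726) (nat_lit 220) (nat_lit 1) (nat_lit 216) (nat_lit 1) (nat_lit 215) (nat_lit 0) (nat_lit 313) (nat_lit 294) (nat_lit 293)) (XT.nd (nat_lit 78) (nat_lit 0) (nat_lit 0) (XT.lf (nat_lit 380) (nat_lit 494586691) (nat_lit 0) (nat_lit 538156976) (nat_lit 304) (nat_lit 494586691) (nat_lit 221) (nat_lit 1) (nat_lit 216) (nat_lit 1) (nat_lit 220) (nat_lit 1) (nat_lit 314) (nat_lit 294) (nat_lit 292)) (XT.lf (nat_lit 380) (nat_lit 849179669) (nat_lit 76) (nat_lit 290679880) (nat_lit 0) (nat_lit 290679880) (nat_lit 221) (nat_lit 1) (nat_lit 217) (nat_lit 1) (nat_lit 216) (nat_lit 1) (nat_lit 315) (nat_lit 294) (nat_lit 291))))) (XT.nd (nat_lit 234) (nat_lit 380) (nat_lit 0) (XT.nd (nat_lit 78) (nat_lit 304) (nat_lit 0) (XT.lf (nat_lit 76) (nat_lit 343504439) (nat_lit 0) (nat_lit 654090120) (nat_lit 304) (nat_lit 343504439) (nat_lit 218) (nat_lit 1) (nat_lit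 217) (nat_lit 1) (nat_lit 221) (nat_lit 1) (nat_lit 316) (nat_lit 294) (nat_lit 290)) (XT.nd (nat_lit 78) (nat_lit 0) (nat_lit 0) (XT.lf (nat_lit 380) (nat_lit 516259429) (nat_lit 0) (nat_lit 371593637) (nat_lit 304) (nat_lit 371593637) (nat_lit 218) (nat_lit 1) (nat_lit 213) (nat_lit 1) (nat_lit 217) (nat_lit 1) (nat_lit 317) (nat_lit 294) (nat_lit 289)) (XT.lf (nat_lit 76) (nat_lit 171598932) (nat_lit 0) (nat_lit 842040263) (nat_lit 380) (nat_lit 171598932) (nat_lit 214) (nat_lit 1) (nat_lit 213) (nat_lit 1) (nat_lit 218) (nat_lit 1) (nat_lit 318) (nat_lit 294) (nat_lit 288)))) (XT.nd (nat_lit 78) (nat_lit 228) (nat_lit 0) (XT.lf (nat_lit 228) (nat_lit 154434991) (nat_lit 0) (nat_lit 480640804) (nat_lit 152) (nat_lit 480640804) (nat_lit 214) (nat_lit 1) (nat_lit 211) (nat_lit 1) (nat_lit 213) (nat_lit 1) (nat_lit 319) (nat_lit 294) (nat_lit 287)) (XT.nd (nat_lit 78) (nat_lit 0) (nat_lit 0) (XT.lf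 (nat_lit 228) (nat_lit 1037801199) (nat_lit 0) (nat_lit 8142599) (nat_lit 152) (nat_lit 8142599) (nat_lit 211) (nat_lit 1) (nat_lit 208) (nat_lit 1) (nat_lit 210) (nat_lit 1) (nat_lit 320) (nat_lit 294) (nat_lit 286)) (XT.lf (nat_lit 76) (nat_lit 398729854) (nat_lit 0) (nat_lit 195755134) (nat_lit 228) (nat_lit 398729854) (nat_lit 209) (nat_lit 1) (nat_lit 208) (nat_lit 1) (nat_lit 211) (nat_lit 1) (nat_lit 321) (nat_lit 294) (nat_lit 285))))))))
noncomputable def ec14 : XT := (XT.nd (nat_lit 1716) (nat_lit 1672) (nat_lit 0) (XT.nd (nat_lit 858) (nat_lit 836) (nat_lit 0) (XT.nd (nat_lit 390) (nat_lit 380) (nat_lit 0) (XT.nd (nat_lit 156) (nat_lit 304) (nat_lit 0) (XT.nd (nat_lit 78) (nat_lit 0) (nat_lit 0) (XT.lf (nat_lit 228) (nat_lit 579569146) (nat_lit 0) (nat_lit 179776651) (nat_lit 152) (nat_lit 179776651) (nat_lit 209) (nat_lit 1) (nat_lit 206) (nat_lit 1) (nat_lit 208) (nat_lit 1) (nat_lit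 322) (nat_lit 294) (nat_lit 284)) (XT.lf (nat_lit 76) (nat_lit 181250281) (nat_lit 0) (nat_lit 525985217) (nat_lit 228) (nat_lit 181250281) (nat_lit 207) (nat_lit 1) (nat_lit 206) (nat_lit 1) (nat_lit 209) (nat_lit 1) (nat_lit 323) (nat_lit 294) (nat_lit 283))) (XT.nd (nat_lit 78) (nat_lit 228) (nat_lit 0) (XT.lf (nat_lit 152) (nat_lit 149836852) (nat_lit 0) (nat_lit 345749275) (nat_lit 76) (nat_lit 345749275) (nat_lit 207) (nat_lit 1) (nat_lit 205) (nat_lit 1) (nat_lit 206) (nat_lit 1) (nat_lit 324) (nat_lit 294) (nat_lit 282)) (XT.nd (nat_lit 78) (nat_lit 0) (nat_lit 0) (XT.lf (nat_lit 228) (nat_lit 758562227) (nat_lit 0) (nat_lit 20151981) (nat_lit 152) (nat_lit 20151981) (nat_lit 205) (nat_lit 1) (nat_lit 202) (nat_lit 1) (nat_lit 204) (nat_lit 1) (nat_lit 325) (nat_lit 294) (nat_lit 281)) (XT.lf (nat_lit 76) (nat_lit 265480464) (nat_lit 0) (nat_lit 225454672) (nat_lit 228) (nat_lit 265480464)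 (nat_lit 203) (nat_lit 1) (nat_lit 202) (nat_lit 1) (nat_lit 205) (nat_lit 1) (nat_lit 326) (nat_lit 294) (nat_lit 280))))) (XT.nd (nat_lit 234) (nat_lit 152) (nat_lit 0) (XT.nd (nat_lit 78) (nat_lit 152) (nat_lit 0) (XT.lf (nat_lit 152) (nat_lit 322798817) (nat_lit 0) (nat_lit 197683270) (nat_lit 76) (nat_lit 197683270) (nat_lit 203) (nat_lit 1) (nat_lit 201) (nat_lit 1) (nat_lit 202) (nat_lit 1) (nat_lit 327) (nat_lit 294) (nat_lit 279)) (XT.nd (nat_lit 78) (nat_lit 152) (nat_lit 0) (XT.lf (nat_lit 0) (nat_lit 63208456) (nat_lit 0) (nat_lit 556482401) (nat_lit 152) (nat_lit 63208456) (nat_lit 201) (nat_lit 3) (nat_lit 201) (nat_lit 1) (nat_lit 203) (nat_lit 1) (nat_lit 328) (nat_lit 294) (nat_lit 278)) (XT.lf (nat_lit 76) (nat_lit 292528472) (nat_lit 0) (nat_lit 63444368) (nat_lit 152) (nat_lit 292528472) (nat_lit 200) (nat_lit 1) (nat_lit 199) (nat_lit 1) (nat_lit 201) (nat_lit 1) (nat_lit 329)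 (nat_lit 294) (nat_lit 277)))) (XT.nd (nat_lit 78) (nat_lit 76) (nat_lit 0) (XT.lf (nat_lit 152) (nat_lit 390760498) (nat_lit 0) (nat_lit 113026051) (nat_lit 76) (nat_lit 113026051) (nat_lit 200) (nat_lit 1) (nat_lit 198) (nat_lit 1) (nat_lit 199) (nat_lit 1) (nat_lit 330) (nat_lit 294) (nat_lit 276)) (XT.nd (nat_lit 78) (nat_lit 76) (nat_lit 0) (XT.lf (nat_lit 0) (nat_lit 101599712) (nat_lit 0) (nat_lit 383630691) (nat_lit 152) (nat_lit 101599712) (nat_lit 198) (nat_lit 3) (nat_lit 198) (nat_lit 1) (nat_lit 200) (nat_lit 1) (nat_lit 331) (nat_lit 294) (nat_lit 275)) (XT.lf (nat_lit 76) (nat_lit 22665080) (nat_lit 0) (nat_lit 267909409) (nat_lit 76) (nat_lit 267909409) (nat_lit 198) (nat_lit 3) (nat_lit 197) (nat_lit 1) (nat_lit 198) (nat_lit 1) (nat_lit 332) (nat_lit 294) (nat_lit 274)))))) (XT.nd (nat_lit 390) (nat_lit 456) (nat_lit 0) (XT.nd (nat_lit 156) (nat_lit 228) (nat_lit 0) (XT.nd (nat_lit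 78) (nat_lit 0) (nat_lit 0) (XT.lf (nat_lit 152) (nat_lit 402722259) (nat_lit 0) (nat_lit 64623011) (nat_lit 76) (nat_lit 64623011) (nat_lit 197) (nat_lit 1) (nat_lit 195) (nat_lit 1) (nat_lit 196) (nat_lit 1) (nat_lit 333) (nat_lit 294) (nat_lit 273)) (XT.lf (nat_lit 0) (nat_lit 115011767) (nat_lit 0) (nat_lit 276263894) (nat_lit 152) (nat_lit 115011767) (nat_lit 195) (nat_lit 3) (nat_lit 195) (nat_lit 1) (nat_lit 197) (nat_lit 1) (nat_lit 334) (nat_lit 294) (nat_lit 272))) (XT.nd (nat_lit 78) (nat_lit 152) (nat_lit 0) (XT.lf (nat_lit 76) (nat_lit 67293280) (nat_lit 0) (nat_lit 207512521) (nat_lit 76) (nat_lit 207512521) (nat_lit 195) (nat_lit 3) (nat_lit 194) (nat_lit 1) (nat_lit 195) (nat_lit 1) (nat_lit 335) (nat_lit 294) (nat_lit 271)) (XT.nd (nat_lit 78) (nat_lit 0) (nat_lit 0) (XT.lf (nat_lit 152) (nat_lit 386173998) (nat_lit 0) (nat_lit 36948416) (nat_lit 76) (nat_lit 36948416) (nat_lit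 194) (nat_lit 1) (nat_lit 192) (nat_lit 1) (nat_lit 193) (nat_lit 1) (nat_lit 336) (nat_lit 294) (nat_lit 270)) (XT.lf (nat_lit 0) (nat_lit 115255570) (nat_lit 0) (nat_lit 207451997) (nat_lit 152) (nat_lit 115255570) (nat_lit 192) (nat_lit 3) (nat_lit 192) (nat_lit 1) (nat_lit 194) (nat_lit 1) (nat_lit 337) (nat_lit 294) (nat_lit 269))))) (XT.nd (nat_lit 234) (nat_lit 228) (nat_lit 0) (XT.nd (nat_lit 78) (nat_lit 152) (nat_lit 0) (XT.lf (nat_lit 76) (nat_lit 85722496) (nat_lit 0) (nat_lit 165893303) (nat_lit 76) (nat_lit 165893303) (nat_lit 192) (nat_lit 3) (nat_lit 191) (nat_lit 1) (nat_lit 192) (nat_lit 1) (nat_lit 338) (nat_lit 294) (nat_lit 268)) (XT.nd (nat_lit 78) (nat_lit 0) (nat_lit 0) (XT.lf (nat_lit 152) (nat_lit 356375575) (nat_lit 0) (nat_lit 21125377) (nat_lit 76) (nat_lit 21125377) (nat_lit 191) (nat_lit 1) (nat_lit 189) (nat_lit 1) (nat_lit 190) (nat_lit 1) (nat_lit 339) (nat_lit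 294) (nat_lit 267)) (XT.lf (nat_lit 0) (nat_lit 108938806) (nat_lit 0) (nat_lit 161652412) (nat_lit 152) (nat_lit 108938806) (nat_lit 189) (nat_lit 3) (nat_lit 189) (nat_lit 1) (nat_lit 191) (nat_lit 1) (nat_lit 340) (nat_lit 294) (nat_lit 266)))) (XT.nd (nat_lit 78) (nat_lit 152) (nat_lit 0) (XT.lf (nat_lit 76) (nat_lit 90096763) (nat_lit 0) (nat_lit 135934682) (nat_lit 76) (nat_lit 135934682) (nat_lit 189) (nat_lit 3) (nat_lit 188) (nat_lit 1) (nat_lit 189) (nat_lit 1) (nat_lit 341) (nat_lit 294) (nat_lit 265)) (XT.nd (nat_lit 78) (nat_lit 0) (nat_lit 0) (XT.lf (nat_lit 152) (nat_lit 321653969) (nat_lit 0) (nat_lit 12078502) (nat_lit 76) (nat_lit 12078502) (nat_lit 188) (nat_lit 1) (nat_lit 186) (nat_lit 1) (nat_lit 187) (nat_lit 1) (nat_lit 342) (nat_lit 294) (nat_lit 264)) (XT.lf (nat_lit 0) (nat_lit 99713124) (nat_lit 0) (nat_lit 129852300) (nat_lit 152) (nat_lit 99713124) (nat_lit 186) (nat_lit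 3) (nat_lit 186) (nat_lit 1) (nat_lit 188) (nat_lit 1) (nat_lit 343) (nat_lit 294) (nat_lit 263))))))) (XT.nd (nat_lit 858) (nat_lit 760) (nat_lit 0) (XT.nd (nat_lit 390) (nat_lit 456) (nat_lit 0) (XT.nd (nat_lit 156) (nat_lit 228) (nat_lit 0) (XT.nd (nat_lit 78) (nat_lit 152) (nat_lit 0) (XT.lf (nat_lit 76) (nat_lit 87238898) (nat_lit 0) (nat_lit 113446876) (nat_lit 76) (nat_lit 113446876) (nat_lit 186) (nat_lit 3) (nat_lit 185) (nat_lit 1) (nat_lit 186) (nat_lit 1) (nat_lit 344) (nat_lit 294) (nat_lit 262)) (XT.lf (nat_lit 152) (nat_lit 286424159) (nat_lit 0) (nat_lit 6905923) (nat_lit 76) (nat_lit 6905923) (nat_lit 185) (nat_lit 1) (nat_lit 183) (nat_lit 1) (nat_lit 184) (nat_lit 1) (nat_lit 345) (nat_lit 294) (nat_lit 261))) (XT.nd (nat_lit 78) (nat_lit 228) (nat_lit 0) (XT.lf (nat_lit 0) (nat_lit 89556527) (nat_lit 0) (nat_lit 106788699) (nat_lit 152) (nat_lit 89556527) (nat_lit 183) (nat_lit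 3) (nat_lit 183) (nat_lit 1) (nat_lit 185) (nat_lit 1) (nat_lit 346) (nat_lit 294) (nat_lit 260)) (XT.nd (nat_lit 78) (nat_lit 152) (nat_lit 0) (XT.lf (nat_lit 76) (nat_lit 80945019) (nat_lit 0) (nat_lit 95929516) (nat_lit 76) (nat_lit 95929516) (nat_lit 183) (nat_lit 3) (nat_lit 182) (nat_lit 1) (nat_lit 183) (nat_lit 1) (nat_lit 347) (nat_lit 294) (nat_lit 259)) (XT.lf (nat_lit 152) (nat_lit 252909558) (nat_lit 0) (nat_lit 3948484) (nat_lit 76) (nat_lit 3948484) (nat_lit 182) (nat_lit 1) (nat_lit 180) (nat_lit 1) (nat_lit 181) (nat_lit 1) (nat_lit 348) (nat_lit 294) (nat_lit 258))))) (XT.nd (nat_lit 234) (nat_lit 228) (nat_lit 0) (XT.nd (nat_lit 78) (nat_lit 228) (nat_lit 0) (XT.lf (nat_lit 0) (nat_lit 79504430) (nat_lit 0) (nat_lit 89356980) (nat_lit 152) (nat_lit 79504430) (nat_lit 180) (nat_lit 3) (nat_lit 180) (nat_lit 1) (nat_lit 182) (nat_lit 1) (nat_lit 349) (nat_lit 294) (nat_lit 257))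 (XT.nd (nat_lit 78) (nat_lit 152) (nat_lit 0) (XT.lf (nat_lit 76) (nat_lit 73294400) (nat_lit 0) (nat_lit 81861835) (nat_lit 76) (nat_lit 81861835) (nat_lit 180) (nat_lit 3) (nat_lit 179) (nat_lit 1) (nat_lit 180) (nat_lit 1) (nat_lit 350) (nat_lit 294) (nat_lit 256)) (XT.lf (nat_lit 152) (nat_lit 222119788) (nat_lit 0) (nat_lit 2257558) (nat_lit 76) (nat_lit 2257558) (nat_lit 179) (nat_lit 1) (nat_lit 177) (nat_lit 1) (nat_lit 178) (nat_lit 1) (nat_lit 351) (nat_lit 294) (nat_lit 255)))) (XT.nd (nat_lit 78) (nat_lit 228) (nat_lit 0) (XT.lf (nat_lit 0) (nat_lit 70065782) (nat_lit 0) (nat_lit 75699009) (nat_lit 152) (nat_lit 70065782) (nat_lit 177) (nat_lit 3) (nat_lit 177) (nat_lit 1) (nat_lit 179) (nat_lit 1) (nat_lit 352) (nat_lit 294) (nat_lit 254)) (XT.nd (nat_lit 78) (nat_lit 152) (nat_lit 0) (XT.lf (nat_lit 76) (nat_lit 65396592) (nat_lit 0) (nat_lit 70295051) (nat_lit 76) (nat_lit 70295051)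 (nat_lit 177) (nat_lit 3) (nat_lit 176) (nat_lit 1) (nat_lit 177) (nat_lit 1) (nat_lit 353) (nat_lit 294) (nat_lit 253)) (XT.lf (nat_lit 152) (nat_lit 194404602) (nat_lit 0) (nat_lit 1290766) (nat_lit 76) (nat_lit 1290766) (nat_lit 176) (nat_lit 1) (nat_lit 174) (nat_lit 1) (nat_lit 175) (nat_lit 1) (nat_lit 354) (nat_lit 294) (nat_lit 252)))))) (XT.nd (nat_lit 390) (nat_lit 456) (nat_lit 0) (XT.nd (nat_lit 156) (nat_lit 228) (nat_lit 0) (XT.nd (nat_lit 78) (nat_lit 76) (nat_lit 0) (XT.lf (nat_lit 0) (nat_lit 61459352) (nat_lit 0) (nat_lit 64680168) (nat_lit 152) (nat_lit 61459352) (nat_lit 174) (nat_lit 3) (nat_lit 174) (nat_lit 1) (nat_lit 176) (nat_lit 1) (nat_lit 355) (nat_lit 294) (nat_lit 251)) (XT.lf (nat_lit 76) (nat_lit 57817045) (nat_lit 0) (nat_lit 60617754) (nat_lit 76) (nat_lit 60617754) (nat_lit 174) (nat_lit 3) (nat_lit 173) (nat_lit 1) (nat_lit 174) (nat_lit 1) (nat_lit 356) (nat_lit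 294) (nat_lit 250))) (XT.nd (nat_lit 78) (nat_lit 76) (nat_lit 0) (XT.lf (nat_lit 152) (nat_lit 169766152) (nat_lit 0) (nat_lit 737999) (nat_lit 76) (nat_lit 737999) (nat_lit 173) (nat_lit 1) (nat_lit 171) (nat_lit 1) (nat_lit 172) (nat_lit 1) (nat_lit 357) (nat_lit 294) (nat_lit 249)) (XT.nd (nat_lit 78) (nat_lit 76) (nat_lit 0) (XT.lf (nat_lit 0) (nat_lit 53747421) (nat_lit 0) (nat_lit 55588933) (nat_lit 152) (nat_lit 53747421) (nat_lit 171) (nat_lit 3) (nat_lit 171) (nat_lit 1) (nat_lit 173) (nat_lit 1) (nat_lit 358) (nat_lit 294) (nat_lit 248)) (XT.lf (nat_lit 76) (nat_lit 50819110) (nat_lit 0) (nat_lit 52420425) (nat_lit 76) (nat_lit 52420425) (nat_lit 171) (nat_lit 3) (nat_lit 170) (nat_lit 1) (nat_lit 171) (nat_lit 1) (nat_lit 359) (nat_lit 294) (nat_lit 247))))) (XT.nd (nat_lit 234) (nat_lit 228) (nat_lit 0) (XT.nd (nat_lit 78) (nat_lit 76) (nat_lit 0) (XT.lf (nat_lit 152) (nat_lit 148033643)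 (nat_lit 0) (nat_lit 421953) (nat_lit 76) (nat_lit 421953) (nat_lit 170) (nat_lit 1) (nat_lit 168) (nat_lit 1) (nat_lit 169) (nat_lit 1) (nat_lit 360) (nat_lit 294) (nat_lit 246)) (XT.nd (nat_lit 78) (nat_lit 76) (nat_lit 0) (XT.lf (nat_lit 0) (nat_lit 46910991) (nat_lit 0) (nat_lit 47963882) (nat_lit 152) (nat_lit 46910991) (nat_lit 168) (nat_lit 3) (nat_lit 168) (nat_lit 1) (nat_lit 170) (nat_lit 1) (nat_lit 361) (nat_lit 294) (nat_lit 245)) (XT.lf (nat_lit 76) (nat_lit 44501232) (nat_lit 0) (nat_lit 45416789) (nat_lit 76) (nat_lit 45416789) (nat_lit 168) (nat_lit 3) (nat_lit 167) (nat_lit 1) (nat_lit 168) (nat_lit 1) (nat_lit 362) (nat_lit 294) (nat_lit 244)))) (XT.nd (nat_lit 78) (nat_lit 76) (nat_lit 0) (XT.lf (nat_lit 152) (nat_lit 128959842) (nat_lit 0) (nat_lit 241253) (nat_lit 76) (nat_lit 241253) (nat_lit 167) (nat_lit 1) (nat_lit 165) (nat_lit 1) (nat_lit 166) (nat_lit 1) (nat_lit 363)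 (nat_lit 294) (nat_lit 243)) (XT.nd (nat_lit 78) (nat_lit 76) (nat_lit 0) (XT.lf (nat_lit 0) (nat_lit 40891710) (nat_lit 0) (nat_lit 41493704) (nat_lit 152) (nat_lit 40891710) (nat_lit 165) (nat_lit 3) (nat_lit 165) (nat_lit 1) (nat_lit 167) (nat_lit 1) (nat_lit 364) (nat_lit 294) (nat_lit 242)) (XT.lf (nat_lit 76) (nat_lit 38874368) (nat_lit 0) (nat_lit 39397841) (nat_lit 76) (nat_lit 39397841) (nat_lit 165) (nat_lit 3) (nat_lit 164) (nat_lit 1) (nat_lit 165) (nat_lit 1) (nat_lit 365) (nat_lit 294) (nat_lit 241))))))))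
noncomputable def ec15 : XT := (XT.nd (nat_lit 44070) (nat_lit 0) (nat_lit 912) (XT.nd (nat_lit 43212) (nat_lit 0) (nat_lit 2736) (XT.nd (nat_lit 42744) (nat_lit 0) (nat_lit 3496) (XT.nd (nat_lit 42510) (nat_lit 0) (nat_lit 4028) (XT.nd (nat_lit 78) (nat_lit 0) (nat_lit 0) (XT.lf (nat_lit 152) (nat_lit 112273318) (nat_lit 0) (nat_lit 137937) (nat_lit 76) (nat_lit 137937) (nat_lit 164) (nat_lit 1) (nat_lit 162) (nat_lit 1) (nat_lit 163) (nat_lit 1) (nat_lit 366) (nat_lit 294) (nat_lit 240)) (XT.lf (nat_lit 0) (nat_lit 35614923) (nat_lit 0) (nat_lit 35959115) (nat_lit 152) (nat_lit 35614923) (nat_lit 162) (nat_lit 3) (nat_lit 162) (nat_lit 1) (nat_lit 164) (nat_lit 1) (nat_lit 367) (nat_lit 294) (nat_lit 239))) (XT.nd (nat_lit 78) (nat_lit 0) (nat_lit 0) (XT.lf (nat_lit 380) (nat_lit 348847195) (nat_lit 0) (nat_lit 308982547) (nat_lit 380) (nat_lit 348847195) (nat_lit 220) (nat_lit 1) (nat_lit 215)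 (nat_lit 0) (nat_lit 220) (nat_lit 0) (nat_lit 310) (nat_lit 295) (nat_lit 295)) (XT.nd (nat_lit 78) (nat_lit 0) (nat_lit 76) (XT.lf (nat_lit 380) (nat_lit 1290340505) (nat_lit 76) (nat_lit 294937885) (nat_lit 0) (nat_lit 294937885) (nat_lit 220) (nat_lit 1) (nat_lit 216) (nat_lit 1) (nat_lit 215) (nat_lit 0) (nat_lit 311) (nat_lit 295) (nat_lit 294)) (XT.lf (nat_lit 380) (nat_lit 568774695) (nat_lit 0) (nat_lit 618880522) (nat_lit 304) (nat_lit 568774695) (nat_lit 221) (nat_lit 1) (nat_lit 216) (nat_lit 1) (nat_lit 220) (nat_lit 1) (nat_lit 312) (nat_lit 295) (nat_lit 293))))) (XT.nd (nat_lit 234) (nat_lit 380) (nat_lit 0) (XT.nd (nat_lit 78) (nat_lit 228) (nat_lit 0) (XT.lf (nat_lit 380) (nat_lit 976556620) (nat_lit 76) (nat_lit 334281862) (nat_lit 0) (nat_lit 334281862) (nat_lit 221) (nat_lit 1) (nat_lit 217) (nat_lit 1) (nat_lit 216) (nat_lit 1) (nat_lit 313) (nat_lit 295) (nat_lit 292)) (XT.nd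 (nat_lit 78) (nat_lit 304) (nat_lit 0) (XT.lf (nat_lit 76) (nat_lit 395030104) (nat_lit 0) (nat_lit 752203638) (nat_lit 304) (nat_lit 395030104) (nat_lit 218) (nat_lit 1) (nat_lit 217) (nat_lit 1) (nat_lit 221) (nat_lit 1) (nat_lit 314) (nat_lit 295) (nat_lit 291)) (XT.lf (nat_lit 380) (nat_lit 593698343) (nat_lit 0) (nat_lit 427332683) (nat_lit 304) (nat_lit 427332683) (nat_lit 218) (nat_lit 1) (nat_lit 213) (nat_lit 1) (nat_lit 217) (nat_lit 1) (nat_lit 315) (nat_lit 295) (nat_lit 290)))) (XT.nd (nat_lit 78) (nat_lit 380) (nat_lit 0) (XT.lf (nat_lit 76) (nat_lit 197338772) (nat_lit 0) (nat_lit 968346303) (nat_lit 380) (nat_lit 197338772) (nat_lit 214) (nat_lit 1) (nat_lit 213) (nat_lit 1) (nat_lit 218) (nat_lit 1) (nat_lit 316) (nat_lit 295) (nat_lit 289)) (XT.nd (nat_lit 78) (nat_lit 228) (nat_lit 0) (XT.lf (nat_lit 228) (nat_lit 177600240) (nat_lit 0) (nat_lit 552736924) (nat_lit 152) (nat_lit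 552736924) (nat_lit 214) (nat_lit 1) (nat_lit 211) (nat_lit 1) (nat_lit 213) (nat_lit 1) (nat_lit 317) (nat_lit 295) (nat_lit 288)) (XT.lf (nat_lit 228) (nat_lit 1193471379) (nat_lit 0) (nat_lit 9363989) (nat_lit 152) (nat_lit 9363989) (nat_lit 211) (nat_lit 1) (nat_lit 208) (nat_lit 1) (nat_lit 210) (nat_lit 1) (nat_lit 318) (nat_lit 295) (nat_lit 287)))))) (XT.nd (nat_lit 390) (nat_lit 304) (nat_lit 0) (XT.nd (nat_lit 156) (nat_lit 304) (nat_lit 0) (XT.nd (nat_lit 78) (nat_lit 152) (nat_lit 0) (XT.lf (nat_lit 76) (nat_lit 458539332) (nat_lit 0) (nat_lit 225118404) (nat_lit 228) (nat_lit 458539332) (nat_lit 209) (nat_lit 1) (nat_lit 208) (nat_lit 1) (nat_lit 211) (nat_lit 1) (nat_lit 319) (nat_lit 295) (nat_lit 286)) (XT.lf (nat_lit 228) (nat_lit 666504518) (nat_lit 0) (nat_lit 206743149) (nat_lit 152) (nat_lit 206743149) (nat_lit 209) (nat_lit 1) (nat_lit 206) (nat_lit 1) (nat_lit 208) (nat_lit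 1) (nat_lit 320) (nat_lit 295) (nat_lit 285))) (XT.nd (nat_lit 78) (nat_lit 304) (nat_lit 0) (XT.lf (nat_lit 76) (nat_lit 208437823) (nat_lit 0) (nat_lit 604883000) (nat_lit 228) (nat_lit 208437823) (nat_lit 207) (nat_lit 1) (nat_lit 206) (nat_lit 1) (nat_lit 209) (nat_lit 1) (nat_lit 321) (nat_lit 295) (nat_lit 284)) (XT.nd (nat_lit 78) (nat_lit 228) (nat_lit 0) (XT.lf (nat_lit 152) (nat_lit 172312380) (nat_lit 0) (nat_lit 397611666) (nat_lit 76) (nat_lit 397611666) (nat_lit 207) (nat_lit 1) (nat_lit 205) (nat_lit 1) (nat_lit 206) (nat_lit 1) (nat_lit 322) (nat_lit 295) (nat_lit 283)) (XT.lf (nat_lit 228) (nat_lit 872346561) (nat_lit 0) (nat_lit 23174779) (nat_lit 152) (nat_lit 23174779) (nat_lit 205) (nat_lit 1) (nat_lit 202) (nat_lit 1) (nat_lit 204) (nat_lit 1) (nat_lit 323) (nat_lit 295) (nat_lit 282))))) (XT.nd (nat_lit 234) (nat_lit 228) (nat_lit 0) (XT.nd (nat_lit 78) (nat_lit 76) (nat_lit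 0) (XT.lf (nat_lit 76) (nat_lit 305302534) (nat_lit 0) (nat_lit 259272873) (nat_lit 228) (nat_lit 305302534) (nat_lit 203) (nat_lit 1) (nat_lit 202) (nat_lit 1) (nat_lit 205) (nat_lit 1) (nat_lit 324) (nat_lit 295) (nat_lit 281)) (XT.nd (nat_lit 78) (nat_lit 0) (nat_lit 0) (XT.lf (nat_lit 152) (nat_lit 371218640) (nat_lit 0) (nat_lit 227335760) (nat_lit 76) (nat_lit 227335760) (nat_lit 203) (nat_lit 1) (nat_lit 201) (nat_lit 1) (nat_lit 202) (nat_lit 1) (nat_lit 325) (nat_lit 295) (nat_lit 280)) (XT.lf (nat_lit 0) (nat_lit 72689725) (nat_lit 0) (nat_lit 639954761) (nat_lit 152) (nat_lit 72689725) (nat_lit 201) (nat_lit 3) (nat_lit 201) (nat_lit 1) (nat_lit 203) (nat_lit 1) (nat_lit 326) (nat_lit 295) (nat_lit 279)))) (XT.nd (nat_lit 78) (nat_lit 76) (nat_lit 0) (XT.lf (nat_lit 76) (nat_lit 336407743) (nat_lit 0) (nat_lit 72961023) (nat_lit 152) (nat_lit 336407743) (nat_lit 200) (nat_lit 1) (nat_lit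 199) (nat_lit 1) (nat_lit 201) (nat_lit 1) (nat_lit 327) (nat_lit 295) (nat_lit 278)) (XT.nd (nat_lit 78) (nat_lit 0) (nat_lit 0) (XT.lf (nat_lit 152) (nat_lit 449374573) (nat_lit 0) (nat_lit 129979959) (nat_lit 76) (nat_lit 129979959) (nat_lit 200) (nat_lit 1) (nat_lit 198) (nat_lit 1) (nat_lit 199) (nat_lit 1) (nat_lit 328) (nat_lit 295) (nat_lit 277)) (XT.lf (nat_lit 0) (nat_lit 116839669) (nat_lit 0) (nat_lit 441175294) (nat_lit 152) (nat_lit 116839669) (nat_lit 198) (nat_lit 3) (nat_lit 198) (nat_lit 1) (nat_lit 200) (nat_lit 1) (nat_lit 329) (nat_lit 295) (nat_lit 276))))))) (XT.nd (nat_lit 858) (nat_lit 912) (nat_lit 0) (XT.nd (nat_lit 390) (nat_lit 456) (nat_lit 0) (XT.nd (nat_lit 156) (nat_lit 228) (nat_lit 0) (XT.nd (nat_lit 78) (nat_lit 152) (nat_lit 0) (XT.lf (nat_lit 76) (nat_lit 26064842) (nat_lit 0) (nat_lit 308095821) (nat_lit 76) (nat_lit 308095821) (nat_lit 198) (nat_lit 3) (nat_lit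 197) (nat_lit 1) (nat_lit 198) (nat_lit 1) (nat_lit 330) (nat_lit 295) (nat_lit 275)) (XT.lf (nat_lit 152) (nat_lit 463130597) (nat_lit 0) (nat_lit 74316463) (nat_lit 76) (nat_lit 74316463) (nat_lit 197) (nat_lit 1) (nat_lit 195) (nat_lit 1) (nat_lit 196) (nat_lit 1) (nat_lit 331) (nat_lit 295) (nat_lit 274))) (XT.nd (nat_lit 78) (nat_lit 228) (nat_lit 0) (XT.lf (nat_lit 0) (nat_lit 132263532) (nat_lit 0) (nat_lit 317703478) (nat_lit 152) (nat_lit 132263532) (nat_lit 195) (nat_lit 3) (nat_lit 195) (nat_lit 1) (nat_lit 197) (nat_lit 1) (nat_lit 332) (nat_lit 295) (nat_lit 273)) (XT.nd (nat_lit 78) (nat_lit 152) (nat_lit 0) (XT.lf (nat_lit 76) (nat_lit 77387272) (nat_lit 0) (nat_lit 238639399) (nat_lit 76) (nat_lit 238639399) (nat_lit 195) (nat_lit 3) (nat_lit 194) (nat_lit 1) (nat_lit 195) (nat_lit 1) (nat_lit 333) (nat_lit 295) (nat_lit 272)) (XT.lf (nat_lit 152) (nat_lit 444100098) (nat_lit 0)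 (nat_lit 42490679) (nat_lit 76) (nat_lit 42490679) (nat_lit 194) (nat_lit 1) (nat_lit 192) (nat_lit 1) (nat_lit 193) (nat_lit 1) (nat_lit 334) (nat_lit 295) (nat_lit 271))))) (XT.nd (nat_lit 234) (nat_lit 228) (nat_lit 0) (XT.nd (nat_lit 78) (nat_lit 228) (nat_lit 0) (XT.lf (nat_lit 0) (nat_lit 132543905) (nat_lit 0) (nat_lit 238569796) (nat_lit 152) (nat_lit 132543905) (nat_lit 192) (nat_lit 3) (nat_lit 192) (nat_lit 1) (nat_lit 194) (nat_lit 1) (nat_lit 335) (nat_lit 295) (nat_lit 270)) (XT.nd (nat_lit 78) (nat_lit 152) (nat_lit 0) (XT.lf (nat_lit 76) (nat_lit 98580871) (nat_lit 0) (nat_lit 190777298) (nat_lit 76) (nat_lit 190777298) (nat_lit 192) (nat_lit 3) (nat_lit 191) (nat_lit 1) (nat_lit 192) (nat_lit 1) (nat_lit 336) (nat_lit 295) (nat_lit 269)) (XT.lf (nat_lit 152) (nat_lit 409831912) (nat_lit 0) (nat_lit 24294183) (nat_lit 76) (nat_lit 24294183) (nat_lit 191) (nat_lit 1) (nat_lit 189)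 (nat_lit 1) (nat_lit 190) (nat_lit 1) (nat_lit 337) (nat_lit 295) (nat_lit 268)))) (XT.nd (nat_lit 78) (nat_lit 228) (nat_lit 0) (XT.lf (nat_lit 0) (nat_lit 125279627) (nat_lit 0) (nat_lit 185900274) (nat_lit 152) (nat_lit 125279627) (nat_lit 189) (nat_lit 3) (nat_lit 189) (nat_lit 1) (nat_lit 191) (nat_lit 1) (nat_lit 338) (nat_lit 295) (nat_lit 267)) (XT.nd (nat_lit 78) (nat_lit 152) (nat_lit 0) (XT.lf (nat_lit 76) (nat_lit 103611278) (nat_lit 0) (nat_lit 156324885) (nat_lit 76) (nat_lit 156324885) (nat_lit 189) (nat_lit 3) (nat_lit 188) (nat_lit 1) (nat_lit 189) (nat_lit 1) (nat_lit 339) (nat_lit 295) (nat_lit 266)) (XT.lf (nat_lit 152) (nat_lit 369902064) (nat_lit 0) (nat_lit 13890278) (nat_lit 76) (nat_lit 13890278) (nat_lit 188) (nat_lit 1) (nat_lit 186) (nat_lit 1) (nat_lit 187) (nat_lit 1) (nat_lit 340) (nat_lit 295) (nat_lit 265)))))) (XT.nd (nat_lit 468) (nat_lit 456) (nat_lit 0) (XT.nd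 (nat_lit 234) (nat_lit 228) (nat_lit 0) (XT.nd (nat_lit 78) (nat_lit 228) (nat_lit 0) (XT.lf (nat_lit 0) (nat_lit 114670093) (nat_lit 0) (nat_lit 149330145) (nat_lit 152) (nat_lit 114670093) (nat_lit 186) (nat_lit 3) (nat_lit 186) (nat_lit 1) (nat_lit 188) (nat_lit 1) (nat_lit 341) (nat_lit 295) (nat_lit 264)) (XT.nd (nat_lit 78) (nat_lit 152) (nat_lit 0) (XT.lf (nat_lit 76) (nat_lit 100324732) (nat_lit 0) (nat_lit 130463908) (nat_lit 76) (nat_lit 130463908) (nat_lit 186) (nat_lit 3) (nat_lit 185) (nat_lit 1) (nat_lit 186) (nat_lit 1) (nat_lit 342) (nat_lit 295) (nat_lit 263)) (XT.lf (nat_lit 152) (nat_lit 329387783) (nat_lit 0) (nat_lit 7941811) (nat_lit 76) (nat_lit 7941811) (nat_lit 185) (nat_lit 1) (nat_lit 183) (nat_lit 1) (nat_lit 184) (nat_lit 1) (nat_lit 343) (nat_lit 295) (nat_lit 262)))) (XT.nd (nat_lit 78) (nat_lit 228) (nat_lit 0) (XT.lf (nat_lit 0) (nat_lit 102990006) (nat_lit 0) (nat_lit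 122807003) (nat_lit 152) (nat_lit 102990006) (nat_lit 183) (nat_lit 3) (nat_lit 183) (nat_lit 1) (nat_lit 185) (nat_lit 1) (nat_lit 344) (nat_lit 295) (nat_lit 261)) (XT.nd (nat_lit 78) (nat_lit 152) (nat_lit 0) (XT.lf (nat_lit 76) (nat_lit 93086772) (nat_lit 0) (nat_lit 110318944) (nat_lit 76) (nat_lit 110318944) (nat_lit 183) (nat_lit 3) (nat_lit 182) (nat_lit 1) (nat_lit 183) (nat_lit 1) (nat_lit 345) (nat_lit 295) (nat_lit 260)) (XT.lf (nat_lit 152) (nat_lit 290845992) (nat_lit 0) (nat_lit 4540756) (nat_lit 76) (nat_lit 4540756) (nat_lit 182) (nat_lit 1) (nat_lit 180) (nat_lit 1) (nat_lit 181) (nat_lit 1) (nat_lit 346) (nat_lit 295) (nat_lit 259))))) (XT.nd (nat_lit 234) (nat_lit 228) (nat_lit 0) (XT.nd (nat_lit 78) (nat_lit 228) (nat_lit 0) (XT.lf (nat_lit 0) (nat_lit 91430095) (nat_lit 0) (nat_lit 102760527) (nat_lit 152) (nat_lit 91430095) (nat_lit 180) (nat_lit 3) (nat_lit 180) (nat_lit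 1) (nat_lit 182) (nat_lit 1) (nat_lit 347) (nat_lit 295) (nat_lit 258)) (XT.nd (nat_lit 78) (nat_lit 152) (nat_lit 0) (XT.lf (nat_lit 76) (nat_lit 84288560) (nat_lit 0) (nat_lit 94141110) (nat_lit 76) (nat_lit 94141110) (nat_lit 180) (nat_lit 3) (nat_lit 179) (nat_lit 1) (nat_lit 180) (nat_lit 1) (nat_lit 348) (nat_lit 295) (nat_lit 257)) (XT.lf (nat_lit 152) (nat_lit 255437756) (nat_lit 0) (nat_lit 2596192) (nat_lit 76) (nat_lit 2596192) (nat_lit 179) (nat_lit 1) (nat_lit 177) (nat_lit 1) (nat_lit 178) (nat_lit 1) (nat_lit 349) (nat_lit 295) (nat_lit 256)))) (XT.nd (nat_lit 78) (nat_lit 228) (nat_lit 0) (XT.lf (nat_lit 0) (nat_lit 80575649) (nat_lit 0) (nat_lit 87053860) (nat_lit 152) (nat_lit 80575649) (nat_lit 177) (nat_lit 3) (nat_lit 177) (nat_lit 1) (nat_lit 179) (nat_lit 1) (nat_lit 350) (nat_lit 295) (nat_lit 255)) (XT.nd (nat_lit 78) (nat_lit 152) (nat_lit 0) (XT.lf (nat_lit 76) (nat_lit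 75206081) (nat_lit 0) (nat_lit 80839308) (nat_lit 76) (nat_lit 80839308) (nat_lit 177) (nat_lit 3) (nat_lit 176) (nat_lit 1) (nat_lit 177) (nat_lit 1) (nat_lit 351) (nat_lit 295) (nat_lit 254)) (XT.lf (nat_lit 152) (nat_lit 223565293) (nat_lit 0) (nat_lit 1484381) (nat_lit 76) (nat_lit 1484381) (nat_lit 176) (nat_lit 1) (nat_lit 174) (nat_lit 1) (nat_lit 175) (nat_lit 1) (nat_lit 352) (nat_lit 295) (nat_lit 253))))))))
noncomputable def ec16 : XT := (XT.nd (nat_lit 43836) (nat_lit 0) (nat_lit 2280) (XT.nd (nat_lit 858) (nat_lit 380) (nat_lit 0) (XT.nd (nat_lit 390) (nat_lit 456) (nat_lit 0) (XT.nd (nat_lit 156) (nat_lit 228) (nat_lit 0) (XT.nd (nat_lit 78) (nat_lit 76) (nat_lit 0) (XT.lf (nat_lit 0) (nat_lit 70678254) (nat_lit 0) (nat_lit 74382193) (nat_lit 152) (nat_lit 70678254) (nat_lit 174) (nat_lit 3) (nat_lit 174) (nat_lit 1) (nat_lit 176) (nat_lit 1) (nat_lit 353) (nat_lit 295) (nat_lit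 252)) (XT.lf (nat_lit 76) (nat_lit 66489601) (nat_lit 0) (nat_lit 69710418) (nat_lit 76) (nat_lit 69710418) (nat_lit 174) (nat_lit 3) (nat_lit 173) (nat_lit 1) (nat_lit 174) (nat_lit 1) (nat_lit 354) (nat_lit 295) (nat_lit 251))) (XT.nd (nat_lit 78) (nat_lit 76) (nat_lit 0) (XT.lf (nat_lit 152) (nat_lit 195231075) (nat_lit 0) (nat_lit 848699) (nat_lit 76) (nat_lit 848699) (nat_lit 173) (nat_lit 1) (nat_lit 171) (nat_lit 1) (nat_lit 172) (nat_lit 1) (nat_lit 355) (nat_lit 295) (nat_lit 250)) (XT.nd (nat_lit 78) (nat_lit 76) (nat_lit 0) (XT.lf (nat_lit 0) (nat_lit 61809535) (nat_lit 0) (nat_lit 63927274) (nat_lit 152) (nat_lit 61809535) (nat_lit 171) (nat_lit 3) (nat_lit 171) (nat_lit 1) (nat_lit 173) (nat_lit 1) (nat_lit 356) (nat_lit 295) (nat_lit 249)) (XT.lf (nat_lit 76) (nat_lit 58441976) (nat_lit 0) (nat_lit 60283489) (nat_lit 76) (nat_lit 60283489) (nat_lit 171) (nat_lit 3) (nat_lit 170) (nat_lit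 1) (nat_lit 171) (nat_lit 1) (nat_lit 357) (nat_lit 295) (nat_lit 248))))) (XT.nd (nat_lit 234) (nat_lit 228) (nat_lit 0) (XT.nd (nat_lit 78) (nat_lit 76) (nat_lit 0) (XT.lf (nat_lit 152) (nat_lit 170238690) (nat_lit 0) (nat_lit 485246) (nat_lit 76) (nat_lit 485246) (nat_lit 170) (nat_lit 1) (nat_lit 168) (nat_lit 1) (nat_lit 169) (nat_lit 1) (nat_lit 358) (nat_lit 295) (nat_lit 247)) (XT.nd (nat_lit 78) (nat_lit 76) (nat_lit 0) (XT.lf (nat_lit 0) (nat_lit 53947640) (nat_lit 0) (nat_lit 55158464) (nat_lit 152) (nat_lit 53947640) (nat_lit 168) (nat_lit 3) (nat_lit 168) (nat_lit 1) (nat_lit 170) (nat_lit 1) (nat_lit 359) (nat_lit 295) (nat_lit 246)) (XT.lf (nat_lit 76) (nat_lit 51176417) (nat_lit 0) (nat_lit 52229307) (nat_lit 76) (nat_lit 52229307) (nat_lit 168) (nat_lit 3) (nat_lit 167) (nat_lit 1) (nat_lit 168) (nat_lit 1) (nat_lit 360) (nat_lit 295) (nat_lit 245)))) (XT.nd (nat_lit 78) (nat_lit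 76) (nat_lit 0) (XT.lf (nat_lit 152) (nat_lit 148303819) (nat_lit 0) (nat_lit 277441) (nat_lit 76) (nat_lit 277441) (nat_lit 167) (nat_lit 1) (nat_lit 165) (nat_lit 1) (nat_lit 166) (nat_lit 1) (nat_lit 361) (nat_lit 295) (nat_lit 244)) (XT.nd (nat_lit 78) (nat_lit 76) (nat_lit 0) (XT.lf (nat_lit 0) (nat_lit 47025467) (nat_lit 0) (nat_lit 47717759) (nat_lit 152) (nat_lit 47025467) (nat_lit 165) (nat_lit 3) (nat_lit 165) (nat_lit 1) (nat_lit 167) (nat_lit 1) (nat_lit 362) (nat_lit 295) (nat_lit 243)) (XT.lf (nat_lit 76) (nat_lit 44705523) (nat_lit 0) (nat_lit 45307517) (nat_lit 76) (nat_lit 45307517) (nat_lit 165) (nat_lit 3) (nat_lit 164) (nat_lit 1) (nat_lit 165) (nat_lit 1) (nat_lit 363) (nat_lit 295) (nat_lit 242)))))) (XT.nd (nat_lit 42510) (nat_lit 0) (nat_lit 4104) (XT.nd (nat_lit 156) (nat_lit 228) (nat_lit 0) (XT.nd (nat_lit 78) (nat_lit 0) (nat_lit 0) (XT.lf (nat_lit 152) (nat_lit 129114316)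 (nat_lit 0) (nat_lit 158628) (nat_lit 76) (nat_lit 158628) (nat_lit 164) (nat_lit 1) (nat_lit 162) (nat_lit 1) (nat_lit 163) (nat_lit 1) (nat_lit 364) (nat_lit 295) (nat_lit 241)) (XT.lf (nat_lit 0) (nat_lit 40957162) (nat_lit 0) (nat_lit 41352982) (nat_lit 152) (nat_lit 40957162) (nat_lit 162) (nat_lit 3) (nat_lit 162) (nat_lit 1) (nat_lit 164) (nat_lit 1) (nat_lit 365) (nat_lit 295) (nat_lit 240))) (XT.nd (nat_lit 78) (nat_lit 152) (nat_lit 0) (XT.lf (nat_lit 76) (nat_lit 38991172) (nat_lit 0) (nat_lit 39335364) (nat_lit 76) (nat_lit 39335364) (nat_lit 162) (nat_lit 3) (nat_lit 161) (nat_lit 1) (nat_lit 162) (nat_lit 1) (nat_lit 366) (nat_lit 295) (nat_lit 239)) (XT.nd (nat_lit 78) (nat_lit 0) (nat_lit 0) (XT.lf (nat_lit 152) (nat_lit 112361639) (nat_lit 0) (nat_lit 90696) (nat_lit 76) (nat_lit 90696) (nat_lit 161) (nat_lit 1) (nat_lit 159) (nat_lit 1) (nat_lit 160) (nat_lit 1) (nat_lit 367)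 (nat_lit 295) (nat_lit 238)) (XT.lf (nat_lit 0) (nat_lit 35652345) (nat_lit 0) (nat_lit 35878657) (nat_lit 152) (nat_lit 35652345) (nat_lit 159) (nat_lit 3) (nat_lit 159) (nat_lit 1) (nat_lit 161) (nat_lit 1) (nat_lit 368) (nat_lit 295) (nat_lit 237))))) (XT.nd (nat_lit 234) (nat_lit 152) (nat_lit 0) (XT.nd (nat_lit 78) (nat_lit 0) (nat_lit 0) (XT.lf (nat_lit 380) (nat_lit 401174275) (nat_lit 0) (nat_lit 355329929) (nat_lit 380) (nat_lit 401174275) (nat_lit 220) (nat_lit 1) (nat_lit 215) (nat_lit 0) (nat_lit 220) (nat_lit 0) (nat_lit 308) (nat_lit 296) (nat_lit 296)) (XT.nd (nat_lit 78) (nat_lit 0) (nat_lit 76) (XT.lf (nat_lit 380) (nat_lit 1483891581) (nat_lit 76) (nat_lit 339178568) (nat_lit 0) (nat_lit 339178568) (nat_lit 220) (nat_lit 1) (nat_lit 216) (nat_lit 1) (nat_lit 215) (nat_lit 0) (nat_lit 309) (nat_lit 296) (nat_lit 295)) (XT.lf (nat_lit 380) (nat_lit 654090900) (nat_lit 0) (nat_lit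 711712600) (nat_lit 304) (nat_lit 654090900) (nat_lit 221) (nat_lit 1) (nat_lit 216) (nat_lit 1) (nat_lit 220) (nat_lit 1) (nat_lit 310) (nat_lit 296) (nat_lit 294)))) (XT.nd (nat_lit 78) (nat_lit 228) (nat_lit 0) (XT.lf (nat_lit 380) (nat_lit 1123040113) (nat_lit 76) (nat_lit 384424142) (nat_lit 0) (nat_lit 384424142) (nat_lit 221) (nat_lit 1) (nat_lit 217) (nat_lit 1) (nat_lit 216) (nat_lit 1) (nat_lit 311) (nat_lit 296) (nat_lit 293)) (XT.nd (nat_lit 78) (nat_lit 304) (nat_lit 0) (XT.lf (nat_lit 76) (nat_lit 454284620) (nat_lit 0) (nat_lit 865034184) (nat_lit 304) (nat_lit 454284620) (nat_lit 218) (nat_lit 1) (nat_lit 217) (nat_lit 1) (nat_lit 221) (nat_lit 1) (nat_lit 312) (nat_lit 296) (nat_lit 292)) (XT.lf (nat_lit 380) (nat_lit 682753095) (nat_lit 0) (nat_lit 491432585) (nat_lit 304) (nat_lit 491432585) (nat_lit 218) (nat_lit 1) (nat_lit 213) (nat_lit 1) (nat_lit 217) (nat_lit 1) (nat_lit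 313) (nat_lit 296) (nat_lit 291))))))) (XT.nd (nat_lit 858) (nat_lit 912) (nat_lit 0) (XT.nd (nat_lit 390) (nat_lit 380) (nat_lit 0) (XT.nd (nat_lit 156) (nat_lit 380) (nat_lit 0) (XT.nd (nat_lit 78) (nat_lit 152) (nat_lit 0) (XT.lf (nat_lit 76) (nat_lit 226939588) (nat_lit 0) (nat_lit 1113598248) (nat_lit 380) (nat_lit 226939588) (nat_lit 214) (nat_lit 1) (nat_lit 213) (nat_lit 1) (nat_lit 218) (nat_lit 1) (nat_lit 314) (nat_lit 296) (nat_lit 290)) (XT.lf (nat_lit 228) (nat_lit 204240276) (nat_lit 0) (nat_lit 635647463) (nat_lit 152) (nat_lit 635647463) (nat_lit 214) (nat_lit 1) (nat_lit 211) (nat_lit 1) (nat_lit 213) (nat_lit 1) (nat_lit 315) (nat_lit 296) (nat_lit 289))) (XT.nd (nat_lit 78) (nat_lit 152) (nat_lit 0) (XT.lf (nat_lit 228) (nat_lit 1372492086) (nat_lit 0) (nat_lit 10768588) (nat_lit 152) (nat_lit 10768588) (nat_lit 211) (nat_lit 1) (nat_lit 208) (nat_lit 1) (nat_lit 210) (nat_lit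 1) (nat_lit 316) (nat_lit 296) (nat_lit 288)) (XT.nd (nat_lit 78) (nat_lit 152) (nat_lit 0) (XT.lf (nat_lit 76) (nat_lit 527320232) (nat_lit 0) (nat_lit 258886164) (nat_lit 228) (nat_lit 527320232) (nat_lit 209) (nat_lit 1) (nat_lit 208) (nat_lit 1) (nat_lit 211) (nat_lit 1) (nat_lit 317) (nat_lit 296) (nat_lit 287)) (XT.lf (nat_lit 228) (nat_lit 766480196) (nat_lit 0) (nat_lit 237754622) (nat_lit 152) (nat_lit 237754622) (nat_lit 209) (nat_lit 1) (nat_lit 206) (nat_lit 1) (nat_lit 208) (nat_lit 1) (nat_lit 318) (nat_lit 296) (nat_lit 286))))) (XT.nd (nat_lit 234) (nat_lit 76) (nat_lit 0) (XT.nd (nat_lit 78) (nat_lit 304) (nat_lit 0) (XT.lf (nat_lit 76) (nat_lit 239703497) (nat_lit 0) (nat_lit 695615450) (nat_lit 228) (nat_lit 239703497) (nat_lit 207) (nat_lit 1) (nat_lit 206) (nat_lit 1) (nat_lit 209) (nat_lit 1) (nat_lit 319) (nat_lit 296) (nat_lit 285)) (XT.nd (nat_lit 78) (nat_lit 228) (nat_lit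 0) (XT.lf (nat_lit 152) (nat_lit 198159237) (nat_lit 0) (nat_lit 457253416) (nat_lit 76) (nat_lit 457253416) (nat_lit 207) (nat_lit 1) (nat_lit 205) (nat_lit 1) (nat_lit 206) (nat_lit 1) (nat_lit 320) (nat_lit 296) (nat_lit 284)) (XT.lf (nat_lit 228) (nat_lit 1003198545) (nat_lit 0) (nat_lit 26650996) (nat_lit 152) (nat_lit 26650996) (nat_lit 205) (nat_lit 1) (nat_lit 202) (nat_lit 1) (nat_lit 204) (nat_lit 1) (nat_lit 321) (nat_lit 296) (nat_lit 283)))) (XT.nd (nat_lit 78) (nat_lit 76) (nat_lit 0) (XT.lf (nat_lit 76) (nat_lit 351097914) (nat_lit 0) (nat_lit 298163804) (nat_lit 228) (nat_lit 351097914) (nat_lit 203) (nat_lit 1) (nat_lit 202) (nat_lit 1) (nat_lit 205) (nat_lit 1) (nat_lit 322) (nat_lit 296) (nat_lit 282)) (XT.nd (nat_lit 78) (nat_lit 0) (nat_lit 0) (XT.lf (nat_lit 152) (nat_lit 426901436) (nat_lit 0) (nat_lit 261436124) (nat_lit 76) (nat_lit 261436124) (nat_lit 203) (nat_lit 1)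 (nat_lit 201) (nat_lit 1) (nat_lit 202) (nat_lit 1) (nat_lit 323) (nat_lit 296) (nat_lit 281)) (XT.lf (nat_lit 0) (nat_lit 83593184) (nat_lit 0) (nat_lit 735947976) (nat_lit 152) (nat_lit 83593184) (nat_lit 201) (nat_lit 3) (nat_lit 201) (nat_lit 1) (nat_lit 203) (nat_lit 1) (nat_lit 324) (nat_lit 296) (nat_lit 280)))))) (XT.nd (nat_lit 390) (nat_lit 456) (nat_lit 0) (XT.nd (nat_lit 156) (nat_lit 228) (nat_lit 0) (XT.nd (nat_lit 78) (nat_lit 76) (nat_lit 0) (XT.lf (nat_lit 76) (nat_lit 386868904) (nat_lit 0) (nat_lit 83905177) (nat_lit 152) (nat_lit 386868904) (nat_lit 200) (nat_lit 1) (nat_lit 199) (nat_lit 1) (nat_lit 201) (nat_lit 1) (nat_lit 325) (nat_lit 296) (nat_lit 279)) (XT.lf (nat_lit 152) (nat_lit 516780759) (nat_lit 0) (nat_lit 149476952) (nat_lit 76) (nat_lit 149476952) (nat_lit 200) (nat_lit 1) (nat_lit 198) (nat_lit 1) (nat_lit 199) (nat_lit 1) (nat_lit 326) (nat_lit 296) (nat_lit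 278))) (XT.nd (nat_lit 78) (nat_lit 228) (nat_lit 0) (XT.lf (nat_lit 0) (nat_lit 134365619) (nat_lit 0) (nat_lit 507351589) (nat_lit 152) (nat_lit 134365619) (nat_lit 198) (nat_lit 3) (nat_lit 198) (nat_lit 1) (nat_lit 200) (nat_lit 1) (nat_lit 327) (nat_lit 296) (nat_lit 277)) (XT.nd (nat_lit 78) (nat_lit 152) (nat_lit 0) (XT.lf (nat_lit 76) (nat_lit 29974568) (nat_lit 0) (nat_lit 354310194) (nat_lit 76) (nat_lit 354310194) (nat_lit 198) (nat_lit 3) (nat_lit 197) (nat_lit 1) (nat_lit 198) (nat_lit 1) (nat_lit 328) (nat_lit 296) (nat_lit 276)) (XT.lf (nat_lit 152) (nat_lit 532600187) (nat_lit 0) (nat_lit 85463932) (nat_lit 76) (nat_lit 85463932) (nat_lit 197) (nat_lit 1) (nat_lit 195) (nat_lit 1) (nat_lit 196) (nat_lit 1) (nat_lit 329) (nat_lit 296) (nat_lit 275))))) (XT.nd (nat_lit 234) (nat_lit 228) (nat_lit 0) (XT.nd (nat_lit 78) (nat_lit 228) (nat_lit 0) (XT.lf (nat_lit 0) (nat_lit 152103062)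 (nat_lit 0) (nat_lit 365359000) (nat_lit 152) (nat_lit 152103062) (nat_lit 195) (nat_lit 3) (nat_lit 195) (nat_lit 1) (nat_lit 197) (nat_lit 1) (nat_lit 330) (nat_lit 296) (nat_lit 274)) (XT.nd (nat_lit 78) (nat_lit 152) (nat_lit 0) (XT.lf (nat_lit 76) (nat_lit 88995363) (nat_lit 0) (nat_lit 274435309) (nat_lit 76) (nat_lit 274435309) (nat_lit 195) (nat_lit 3) (nat_lit 194) (nat_lit 1) (nat_lit 195) (nat_lit 1) (nat_lit 331) (nat_lit 296) (nat_lit 273)) (XT.lf (nat_lit 152) (nat_lit 510715112) (nat_lit 0) (nat_lit 48864281) (nat_lit 76) (nat_lit 48864281) (nat_lit 194) (nat_lit 1) (nat_lit 192) (nat_lit 1) (nat_lit 193) (nat_lit 1) (nat_lit 332) (nat_lit 296) (nat_lit 272)))) (XT.nd (nat_lit 78) (nat_lit 228) (nat_lit 0) (XT.lf (nat_lit 0) (nat_lit 152425491) (nat_lit 0) (nat_lit 274355266) (nat_lit 152) (nat_lit 152425491) (nat_lit 192) (nat_lit 3) (nat_lit 192) (nat_lit 1) (nat_lit 194) (nat_lit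 1) (nat_lit 333) (nat_lit 296) (nat_lit 271)) (XT.nd (nat_lit 78) (nat_lit 152) (nat_lit 0) (XT.lf (nat_lit 76) (nat_lit 113368002) (nat_lit 0) (nat_lit 219393893) (nat_lit 76) (nat_lit 219393893) (nat_lit 192) (nat_lit 3) (nat_lit 191) (nat_lit 1) (nat_lit 192) (nat_lit 1) (nat_lit 334) (nat_lit 296) (nat_lit 270)) (XT.lf (nat_lit 152) (nat_lit 471306698) (nat_lit 0) (nat_lit 27938311) (nat_lit 76) (nat_lit 27938311) (nat_lit 191) (nat_lit 1) (nat_lit 189) (nat_lit 1) (nat_lit 190) (nat_lit 1) (nat_lit 335) (nat_lit 296) (nat_lit 269))))))))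
noncomputable def ec17 : XT := (XT.nd (nat_lit 1716) (nat_lit 912) (nat_lit 0) (XT.nd (nat_lit 858) (nat_lit 836) (nat_lit 0) (XT.nd (nat_lit 390) (nat_lit 456) (nat_lit 0) (XT.nd (nat_lit 156) (nat_lit 228) (nat_lit 0) (XT.nd (nat_lit 78) (nat_lit 76) (nat_lit 0) (XT.lf (nat_lit 0) (nat_lit 144071571) (nat_lit 0) (nat_lit 213785315) (nat_lit 152) (nat_lit 144071571) (nat_lit 189) (nat_lit 3) (nat_lit 189) (nat_lit 1) (nat_lit 191) (nat_lit 1) (nat_lit 336) (nat_lit 296) (nat_lit 268)) (XT.lf (nat_lit 76) (nat_lit 119152970) (nat_lit 0) (nat_lit 179773617) (nat_lit 76) (nat_lit 179773617) (nat_lit 189) (nat_lit 3) (nat_lit 188) (nat_lit 1) (nat_lit 189) (nat_lit 1) (nat_lit 337) (nat_lit 296) (nat_lit 267))) (XT.nd (nat_lit 78) (nat_lit 76) (nat_lit 0) (XT.lf (nat_lit 152) (nat_lit 425387374) (nat_lit 0) (nat_lit 15973820) (nat_lit 76) (nat_lit 15973820) (nat_lit 188) (nat_lit 1) (nat_lit 186)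 (nat_lit 1) (nat_lit 187) (nat_lit 1) (nat_lit 338) (nat_lit 296) (nat_lit 266)) (XT.nd (nat_lit 78) (nat_lit 76) (nat_lit 0) (XT.lf (nat_lit 0) (nat_lit 131870607) (nat_lit 0) (nat_lit 171729667) (nat_lit 152) (nat_lit 131870607) (nat_lit 186) (nat_lit 3) (nat_lit 186) (nat_lit 1) (nat_lit 188) (nat_lit 1) (nat_lit 339) (nat_lit 296) (nat_lit 265)) (XT.lf (nat_lit 76) (nat_lit 115373442) (nat_lit 0) (nat_lit 150033494) (nat_lit 76) (nat_lit 150033494) (nat_lit 186) (nat_lit 3) (nat_lit 185) (nat_lit 1) (nat_lit 186) (nat_lit 1) (nat_lit 340) (nat_lit 296) (nat_lit 264))))) (XT.nd (nat_lit 234) (nat_lit 228) (nat_lit 0) (XT.nd (nat_lit 78) (nat_lit 76) (nat_lit 0) (XT.lf (nat_lit 152) (nat_lit 378795950) (nat_lit 0) (nat_lit 9133083) (nat_lit 76) (nat_lit 9133083) (nat_lit 185) (nat_lit 1) (nat_lit 183) (nat_lit 1) (nat_lit 184) (nat_lit 1) (nat_lit 341) (nat_lit 296) (nat_lit 263)) (XT.nd (nat_lit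 78) (nat_lit 76) (nat_lit 0) (XT.lf (nat_lit 0) (nat_lit 118438507) (nat_lit 0) (nat_lit 141228054) (nat_lit 152) (nat_lit 118438507) (nat_lit 183) (nat_lit 3) (nat_lit 183) (nat_lit 1) (nat_lit 185) (nat_lit 1) (nat_lit 342) (nat_lit 296) (nat_lit 262)) (XT.lf (nat_lit 76) (nat_lit 107049788) (nat_lit 0) (nat_lit 126866785) (nat_lit 76) (nat_lit 126866785) (nat_lit 183) (nat_lit 3) (nat_lit 182) (nat_lit 1) (nat_lit 183) (nat_lit 1) (nat_lit 343) (nat_lit 296) (nat_lit 261)))) (XT.nd (nat_lit 78) (nat_lit 76) (nat_lit 0) (XT.lf (nat_lit 152) (nat_lit 334472891) (nat_lit 0) (nat_lit 5221870) (nat_lit 76) (nat_lit 5221870) (nat_lit 182) (nat_lit 1) (nat_lit 180) (nat_lit 1) (nat_lit 181) (nat_lit 1) (nat_lit 344) (nat_lit 296) (nat_lit 260)) (XT.nd (nat_lit 78) (nat_lit 76) (nat_lit 0) (XT.lf (nat_lit 0) (nat_lit 105144609) (nat_lit 0) (nat_lit 118174607) (nat_lit 152) (nat_lit 105144609) (nat_lit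 180) (nat_lit 3) (nat_lit 180) (nat_lit 1) (nat_lit 182) (nat_lit 1) (nat_lit 345) (nat_lit 296) (nat_lit 259)) (XT.lf (nat_lit 76) (nat_lit 96931845) (nat_lit 0) (nat_lit 108262277) (nat_lit 76) (nat_lit 108262277) (nat_lit 180) (nat_lit 3) (nat_lit 179) (nat_lit 1) (nat_lit 180) (nat_lit 1) (nat_lit 346) (nat_lit 296) (nat_lit 258)))))) (XT.nd (nat_lit 390) (nat_lit 456) (nat_lit 0) (XT.nd (nat_lit 156) (nat_lit 228) (nat_lit 0) (XT.nd (nat_lit 78) (nat_lit 0) (nat_lit 0) (XT.lf (nat_lit 152) (nat_lit 293753419) (nat_lit 0) (nat_lit 2985621) (nat_lit 76) (nat_lit 2985621) (nat_lit 179) (nat_lit 1) (nat_lit 177) (nat_lit 1) (nat_lit 178) (nat_lit 1) (nat_lit 347) (nat_lit 296) (nat_lit 257)) (XT.lf (nat_lit 0) (nat_lit 92661996) (nat_lit 0) (nat_lit 100111940) (nat_lit 152) (nat_lit 92661996) (nat_lit 177) (nat_lit 3) (nat_lit 177) (nat_lit 1) (nat_lit 179) (nat_lit 1) (nat_lit 348) (nat_lit 296)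 (nat_lit 256))) (XT.nd (nat_lit 78) (nat_lit 152) (nat_lit 0) (XT.lf (nat_lit 76) (nat_lit 86486993) (nat_lit 0) (nat_lit 92965205) (nat_lit 76) (nat_lit 92965205) (nat_lit 177) (nat_lit 3) (nat_lit 176) (nat_lit 1) (nat_lit 177) (nat_lit 1) (nat_lit 349) (nat_lit 296) (nat_lit 255)) (XT.nd (nat_lit 78) (nat_lit 0) (nat_lit 0) (XT.lf (nat_lit 152) (nat_lit 257100087) (nat_lit 0) (nat_lit 1707038) (nat_lit 76) (nat_lit 1707038) (nat_lit 176) (nat_lit 1) (nat_lit 174) (nat_lit 1) (nat_lit 175) (nat_lit 1) (nat_lit 350) (nat_lit 296) (nat_lit 254)) (XT.lf (nat_lit 0) (nat_lit 81279993) (nat_lit 0) (nat_lit 85539522) (nat_lit 152) (nat_lit 81279993) (nat_lit 174) (nat_lit 3) (nat_lit 174) (nat_lit 1) (nat_lit 176) (nat_lit 1) (nat_lit 351) (nat_lit 296) (nat_lit 253))))) (XT.nd (nat_lit 234) (nat_lit 228) (nat_lit 0) (XT.nd (nat_lit 78) (nat_lit 152) (nat_lit 0) (XT.lf (nat_lit 76) (nat_lit 76463042)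 (nat_lit 0) (nat_lit 80166980) (nat_lit 76) (nat_lit 80166980) (nat_lit 174) (nat_lit 3) (nat_lit 173) (nat_lit 1) (nat_lit 174) (nat_lit 1) (nat_lit 352) (nat_lit 296) (nat_lit 252)) (XT.nd (nat_lit 78) (nat_lit 0) (nat_lit 0) (XT.lf (nat_lit 152) (nat_lit 224515736) (nat_lit 0) (nat_lit 976004) (nat_lit 76) (nat_lit 976004) (nat_lit 173) (nat_lit 1) (nat_lit 171) (nat_lit 1) (nat_lit 172) (nat_lit 1) (nat_lit 353) (nat_lit 296) (nat_lit 251)) (XT.lf (nat_lit 0) (nat_lit 71080965) (nat_lit 0) (nat_lit 73516365) (nat_lit 152) (nat_lit 71080965) (nat_lit 171) (nat_lit 3) (nat_lit 171) (nat_lit 1) (nat_lit 173) (nat_lit 1) (nat_lit 354) (nat_lit 296) (nat_lit 250)))) (XT.nd (nat_lit 78) (nat_lit 152) (nat_lit 0) (XT.lf (nat_lit 76) (nat_lit 67208273) (nat_lit 0) (nat_lit 69326012) (nat_lit 76) (nat_lit 69326012) (nat_lit 171) (nat_lit 3) (nat_lit 170) (nat_lit 1) (nat_lit 171) (nat_lit 1) (nat_lit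 355) (nat_lit 296) (nat_lit 249)) (XT.nd (nat_lit 78) (nat_lit 0) (nat_lit 0) (XT.lf (nat_lit 152) (nat_lit 195774494) (nat_lit 0) (nat_lit 558033) (nat_lit 76) (nat_lit 558033) (nat_lit 170) (nat_lit 1) (nat_lit 168) (nat_lit 1) (nat_lit 169) (nat_lit 1) (nat_lit 356) (nat_lit 296) (nat_lit 248)) (XT.lf (nat_lit 0) (nat_lit 62039786) (nat_lit 0) (nat_lit 63432234) (nat_lit 152) (nat_lit 62039786) (nat_lit 168) (nat_lit 3) (nat_lit 168) (nat_lit 1) (nat_lit 170) (nat_lit 1) (nat_lit 357) (nat_lit 296) (nat_lit 247))))))) (XT.nd (nat_lit 42822) (nat_lit 0) (nat_lit 3800) (XT.nd (nat_lit 390) (nat_lit 456) (nat_lit 0) (XT.nd (nat_lit 156) (nat_lit 228) (nat_lit 0) (XT.nd (nat_lit 78) (nat_lit 152) (nat_lit 0) (XT.lf (nat_lit 76) (nat_lit 58852879) (nat_lit 0) (nat_lit 60063703) (nat_lit 76) (nat_lit 60063703) (nat_lit 168) (nat_lit 3) (nat_lit 167) (nat_lit 1) (nat_lit 168) (nat_lit 1) (nat_lit 358)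 (nat_lit 296) (nat_lit 246)) (XT.lf (nat_lit 152) (nat_lit 170549391) (nat_lit 0) (nat_lit 319057) (nat_lit 76) (nat_lit 319057) (nat_lit 167) (nat_lit 1) (nat_lit 165) (nat_lit 1) (nat_lit 166) (nat_lit 1) (nat_lit 359) (nat_lit 296) (nat_lit 245))) (XT.nd (nat_lit 78) (nat_lit 228) (nat_lit 0) (XT.lf (nat_lit 0) (nat_lit 54079287) (nat_lit 0) (nat_lit 54875423) (nat_lit 152) (nat_lit 54079287) (nat_lit 165) (nat_lit 3) (nat_lit 165) (nat_lit 1) (nat_lit 167) (nat_lit 1) (nat_lit 360) (nat_lit 296) (nat_lit 244)) (XT.nd (nat_lit 78) (nat_lit 152) (nat_lit 0) (XT.lf (nat_lit 76) (nat_lit 51411352) (nat_lit 0) (nat_lit 52103644) (nat_lit 76) (nat_lit 52103644) (nat_lit 165) (nat_lit 3) (nat_lit 164) (nat_lit 1) (nat_lit 165) (nat_lit 1) (nat_lit 361) (nat_lit 296) (nat_lit 243)) (XT.lf (nat_lit 152) (nat_lit 148481463) (nat_lit 0) (nat_lit 182422) (nat_lit 76) (nat_lit 182422) (nat_lit 164) (nat_lit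 1) (nat_lit 162) (nat_lit 1) (nat_lit 163) (nat_lit 1) (nat_lit 362) (nat_lit 296) (nat_lit 242))))) (XT.nd (nat_lit 234) (nat_lit 228) (nat_lit 0) (XT.nd (nat_lit 78) (nat_lit 228) (nat_lit 0) (XT.lf (nat_lit 0) (nat_lit 47100736) (nat_lit 0) (nat_lit 47555930) (nat_lit 152) (nat_lit 47100736) (nat_lit 162) (nat_lit 3) (nat_lit 162) (nat_lit 1) (nat_lit 164) (nat_lit 1) (nat_lit 363) (nat_lit 296) (nat_lit 241)) (XT.nd (nat_lit 78) (nat_lit 152) (nat_lit 0) (XT.lf (nat_lit 76) (nat_lit 44839848) (nat_lit 0) (nat_lit 45235668) (nat_lit 76) (nat_lit 45235668) (nat_lit 162) (nat_lit 3) (nat_lit 161) (nat_lit 1) (nat_lit 162) (nat_lit 1) (nat_lit 364) (nat_lit 296) (nat_lit 240)) (XT.lf (nat_lit 152) (nat_lit 129215885) (nat_lit 0) (nat_lit 104300) (nat_lit 76) (nat_lit 104300) (nat_lit 161) (nat_lit 1) (nat_lit 159) (nat_lit 1) (nat_lit 160) (nat_lit 1) (nat_lit 365) (nat_lit 296) (nat_lit 239))))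 (XT.nd (nat_lit 78) (nat_lit 228) (nat_lit 0) (XT.lf (nat_lit 0) (nat_lit 41000197) (nat_lit 0) (nat_lit 41260456) (nat_lit 152) (nat_lit 41000197) (nat_lit 159) (nat_lit 3) (nat_lit 159) (nat_lit 1) (nat_lit 161) (nat_lit 1) (nat_lit 366) (nat_lit 296) (nat_lit 238)) (XT.nd (nat_lit 78) (nat_lit 152) (nat_lit 0) (XT.lf (nat_lit 76) (nat_lit 39067973) (nat_lit 0) (nat_lit 39294284) (nat_lit 76) (nat_lit 39294284) (nat_lit 159) (nat_lit 3) (nat_lit 158) (nat_lit 1) (nat_lit 159) (nat_lit 1) (nat_lit 367) (nat_lit 296) (nat_lit 237)) (XT.lf (nat_lit 152) (nat_lit 112419711) (nat_lit 0) (nat_lit 59634) (nat_lit 76) (nat_lit 59634) (nat_lit 158) (nat_lit 1) (nat_lit 156) (nat_lit 1) (nat_lit 157) (nat_lit 1) (nat_lit 368) (nat_lit 296) (nat_lit 236)))))) (XT.nd (nat_lit 468) (nat_lit 532) (nat_lit 0) (XT.nd (nat_lit 234) (nat_lit 152) (nat_lit 0) (XT.nd (nat_lit 78) (nat_lit 0) (nat_lit 0) (XT.lf (nat_lit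 380) (nat_lit 461350416) (nat_lit 0) (nat_lit 408629418) (nat_lit 380) (nat_lit 461350416) (nat_lit 220) (nat_lit 1) (nat_lit 215) (nat_lit 0) (nat_lit 220) (nat_lit 0) (nat_lit 306) (nat_lit 297) (nat_lit 297)) (XT.nd (nat_lit 78) (nat_lit 0) (nat_lit 76) (XT.lf (nat_lit 380) (nat_lit 1706475318) (nat_lit 76) (nat_lit 390055353) (nat_lit 0) (nat_lit 390055353) (nat_lit 220) (nat_lit 1) (nat_lit 216) (nat_lit 1) (nat_lit 215) (nat_lit 0) (nat_lit 307) (nat_lit 297) (nat_lit 296)) (XT.lf (nat_lit 380) (nat_lit 752204535) (nat_lit 0) (nat_lit 818469490) (nat_lit 304) (nat_lit 752204535) (nat_lit 221) (nat_lit 1) (nat_lit 216) (nat_lit 1) (nat_lit 220) (nat_lit 1) (nat_lit 308) (nat_lit 297) (nat_lit 295)))) (XT.nd (nat_lit 78) (nat_lit 228) (nat_lit 0) (XT.lf (nat_lit 380) (nat_lit 1291496130) (nat_lit 76) (nat_lit 442087763) (nat_lit 0) (nat_lit 442087763) (nat_lit 221) (nat_lit 1) (nat_lit 217)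 (nat_lit 1) (nat_lit 216) (nat_lit 1) (nat_lit 309) (nat_lit 297) (nat_lit 294)) (XT.nd (nat_lit 78) (nat_lit 304) (nat_lit 0) (XT.lf (nat_lit 76) (nat_lit 522427313) (nat_lit 0) (nat_lit 994789311) (nat_lit 304) (nat_lit 522427313) (nat_lit 218) (nat_lit 1) (nat_lit 217) (nat_lit 1) (nat_lit 221) (nat_lit 1) (nat_lit 310) (nat_lit 297) (nat_lit 293)) (XT.lf (nat_lit 380) (nat_lit 785166059) (nat_lit 0) (nat_lit 565147473) (nat_lit 304) (nat_lit 565147473) (nat_lit 218) (nat_lit 1) (nat_lit 213) (nat_lit 1) (nat_lit 217) (nat_lit 1) (nat_lit 311) (nat_lit 297) (nat_lit 292))))) (XT.nd (nat_lit 234) (nat_lit 152) (nat_lit 0) (XT.nd (nat_lit 78) (nat_lit 380) (nat_lit 0) (XT.lf (nat_lit 76) (nat_lit 260980526) (nat_lit 0) (nat_lit 1280637985) (nat_lit 380) (nat_lit 260980526) (nat_lit 214) (nat_lit 1) (nat_lit 213) (nat_lit 1) (nat_lit 218) (nat_lit 1) (nat_lit 312) (nat_lit 297) (nat_lit 291)) (XT.nd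 (nat_lit 78) (nat_lit 228) (nat_lit 0) (XT.lf (nat_lit 228) (nat_lit 234876317) (nat_lit 0) (nat_lit 730994582) (nat_lit 152) (nat_lit 730994582) (nat_lit 214) (nat_lit 1) (nat_lit 211) (nat_lit 1) (nat_lit 213) (nat_lit 1) (nat_lit 313) (nat_lit 297) (nat_lit 290)) (XT.lf (nat_lit 228) (nat_lit 1578365899) (nat_lit 0) (nat_lit 12383876) (nat_lit 152) (nat_lit 12383876) (nat_lit 211) (nat_lit 1) (nat_lit 208) (nat_lit 1) (nat_lit 210) (nat_lit 1) (nat_lit 314) (nat_lit 297) (nat_lit 289)))) (XT.nd (nat_lit 78) (nat_lit 152) (nat_lit 0) (XT.lf (nat_lit 76) (nat_lit 606418267) (nat_lit 0) (nat_lit 297719089) (nat_lit 228) (nat_lit 606418267) (nat_lit 209) (nat_lit 1) (nat_lit 208) (nat_lit 1) (nat_lit 211) (nat_lit 1) (nat_lit 315) (nat_lit 297) (nat_lit 288)) (XT.nd (nat_lit 78) (nat_lit 0) (nat_lit 0) (XT.lf (nat_lit 228) (nat_lit 881452226) (nat_lit 0) (nat_lit 273417815) (nat_lit 152) (nat_lit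 273417815) (nat_lit 209) (nat_lit 1) (nat_lit 206) (nat_lit 1) (nat_lit 208) (nat_lit 1) (nat_lit 316) (nat_lit 297) (nat_lit 287)) (XT.lf (nat_lit 76) (nat_lit 275659021) (nat_lit 0) (nat_lit 799957767) (nat_lit 228) (nat_lit 275659021) (nat_lit 207) (nat_lit 1) (nat_lit 206) (nat_lit 1) (nat_lit 209) (nat_lit 1) (nat_lit 317) (nat_lit 297) (nat_lit 286))))))))
noncomputable def ec18 : XT := (XT.nd (nat_lit 1716) (nat_lit 1596) (nat_lit 0) (XT.nd (nat_lit 858) (nat_lit 912) (nat_lit 0) (XT.nd (nat_lit 390) (nat_lit 456) (nat_lit 0) (XT.nd (nat_lit 156) (nat_lit 76) (nat_lit 0) (XT.nd (nat_lit 78) (nat_lit 228) (nat_lit 0) (XT.lf (nat_lit 152) (nat_lit 227883123) (nat_lit 0) (nat_lit 525841428) (nat_lit 76) (nat_lit 525841428) (nat_lit 207) (nat_lit 1) (nat_lit 205) (nat_lit 1) (nat_lit 206) (nat_lit 1) (nat_lit 318) (nat_lit 297) (nat_lit 285)) (XT.lf (nat_lit 228) (nat_lit 1153678327) (nat_lit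 0) (nat_lit 30648645) (nat_lit 152) (nat_lit 30648645) (nat_lit 205) (nat_lit 1) (nat_lit 202) (nat_lit 1) (nat_lit 204) (nat_lit 1) (nat_lit 319) (nat_lit 297) (nat_lit 284))) (XT.nd (nat_lit 78) (nat_lit 76) (nat_lit 0) (XT.lf (nat_lit 76) (nat_lit 403762601) (nat_lit 0) (nat_lit 342888374) (nat_lit 228) (nat_lit 403762601) (nat_lit 203) (nat_lit 1) (nat_lit 202) (nat_lit 1) (nat_lit 205) (nat_lit 1) (nat_lit 320) (nat_lit 297) (nat_lit 283)) (XT.nd (nat_lit 78) (nat_lit 0) (nat_lit 0) (XT.lf (nat_lit 152) (nat_lit 490936652) (nat_lit 0) (nat_lit 300651543) (nat_lit 76) (nat_lit 300651543) (nat_lit 203) (nat_lit 1) (nat_lit 201) (nat_lit 1) (nat_lit 202) (nat_lit 1) (nat_lit 321) (nat_lit 297) (nat_lit 282)) (XT.lf (nat_lit 0) (nat_lit 96132161) (nat_lit 0) (nat_lit 846340172) (nat_lit 152) (nat_lit 96132161) (nat_lit 201) (nat_lit 3) (nat_lit 201) (nat_lit 1) (nat_lit 203) (nat_lit 1) (nat_lit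 322) (nat_lit 297) (nat_lit 281))))) (XT.nd (nat_lit 234) (nat_lit 228) (nat_lit 0) (XT.nd (nat_lit 78) (nat_lit 76) (nat_lit 0) (XT.lf (nat_lit 76) (nat_lit 444899240) (nat_lit 0) (nat_lit 96490954) (nat_lit 152) (nat_lit 444899240) (nat_lit 200) (nat_lit 1) (nat_lit 199) (nat_lit 1) (nat_lit 201) (nat_lit 1) (nat_lit 323) (nat_lit 297) (nat_lit 280)) (XT.nd (nat_lit 78) (nat_lit 0) (nat_lit 0) (XT.lf (nat_lit 152) (nat_lit 594297873) (nat_lit 0) (nat_lit 171898495) (nat_lit 76) (nat_lit 171898495) (nat_lit 200) (nat_lit 1) (nat_lit 198) (nat_lit 1) (nat_lit 199) (nat_lit 1) (nat_lit 324) (nat_lit 297) (nat_lit 279)) (XT.lf (nat_lit 0) (nat_lit 154520462) (nat_lit 0) (nat_lit 583454327) (nat_lit 152) (nat_lit 154520462) (nat_lit 198) (nat_lit 3) (nat_lit 198) (nat_lit 1) (nat_lit 200) (nat_lit 1) (nat_lit 325) (nat_lit 297) (nat_lit 278)))) (XT.nd (nat_lit 78) (nat_lit 152) (nat_lit 0) (XT.lf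 (nat_lit 76) (nat_lit 34470753) (nat_lit 0) (nat_lit 407456723) (nat_lit 76) (nat_lit 407456723) (nat_lit 198) (nat_lit 3) (nat_lit 197) (nat_lit 1) (nat_lit 198) (nat_lit 1) (nat_lit 326) (nat_lit 297) (nat_lit 277)) (XT.nd (nat_lit 78) (nat_lit 0) (nat_lit 0) (XT.lf (nat_lit 152) (nat_lit 612490215) (nat_lit 0) (nat_lit 98283522) (nat_lit 76) (nat_lit 98283522) (nat_lit 197) (nat_lit 1) (nat_lit 195) (nat_lit 1) (nat_lit 196) (nat_lit 1) (nat_lit 327) (nat_lit 297) (nat_lit 276)) (XT.lf (nat_lit 0) (nat_lit 174918521) (nat_lit 0) (nat_lit 420162850) (nat_lit 152) (nat_lit 174918521) (nat_lit 195) (nat_lit 3) (nat_lit 195) (nat_lit 1) (nat_lit 197) (nat_lit 1) (nat_lit 328) (nat_lit 297) (nat_lit 275)))))) (XT.nd (nat_lit 390) (nat_lit 456) (nat_lit 0) (XT.nd (nat_lit 156) (nat_lit 228) (nat_lit 0) (XT.nd (nat_lit 78) (nat_lit 152) (nat_lit 0) (XT.lf (nat_lit 76) (nat_lit 102344667) (nat_lit 0)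 (nat_lit 315600606) (nat_lit 76) (nat_lit 315600606) (nat_lit 195) (nat_lit 3) (nat_lit 194) (nat_lit 1) (nat_lit 195) (nat_lit 1) (nat_lit 329) (nat_lit 297) (nat_lit 274)) (XT.lf (nat_lit 152) (nat_lit 587322379) (nat_lit 0) (nat_lit 56193923) (nat_lit 76) (nat_lit 56193923) (nat_lit 194) (nat_lit 1) (nat_lit 192) (nat_lit 1) (nat_lit 193) (nat_lit 1) (nat_lit 330) (nat_lit 297) (nat_lit 273))) (XT.nd (nat_lit 78) (nat_lit 228) (nat_lit 0) (XT.lf (nat_lit 0) (nat_lit 175289315) (nat_lit 0) (nat_lit 315508556) (nat_lit 152) (nat_lit 175289315) (nat_lit 192) (nat_lit 3) (nat_lit 192) (nat_lit 1) (nat_lit 194) (nat_lit 1) (nat_lit 331) (nat_lit 297) (nat_lit 272)) (XT.nd (nat_lit 78) (nat_lit 152) (nat_lit 0) (XT.lf (nat_lit 76) (nat_lit 130373202) (nat_lit 0) (nat_lit 252302977) (nat_lit 76) (nat_lit 252302977) (nat_lit 192) (nat_lit 3) (nat_lit 191) (nat_lit 1) (nat_lit 192) (nat_lit 1) (nat_lit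 332) (nat_lit 297) (nat_lit 271)) (XT.lf (nat_lit 152) (nat_lit 542002703) (nat_lit 0) (nat_lit 32129057) (nat_lit 76) (nat_lit 32129057) (nat_lit 191) (nat_lit 1) (nat_lit 189) (nat_lit 1) (nat_lit 190) (nat_lit 1) (nat_lit 333) (nat_lit 297) (nat_lit 270))))) (XT.nd (nat_lit 234) (nat_lit 228) (nat_lit 0) (XT.nd (nat_lit 78) (nat_lit 228) (nat_lit 0) (XT.lf (nat_lit 0) (nat_lit 165682306) (nat_lit 0) (nat_lit 245853113) (nat_lit 152) (nat_lit 165682306) (nat_lit 189) (nat_lit 3) (nat_lit 189) (nat_lit 1) (nat_lit 191) (nat_lit 1) (nat_lit 334) (nat_lit 297) (nat_lit 269)) (XT.nd (nat_lit 78) (nat_lit 152) (nat_lit 0) (XT.lf (nat_lit 76) (nat_lit 137025915) (nat_lit 0) (nat_lit 206739660) (nat_lit 76) (nat_lit 206739660) (nat_lit 189) (nat_lit 3) (nat_lit 188) (nat_lit 1) (nat_lit 189) (nat_lit 1) (nat_lit 335) (nat_lit 297) (nat_lit 268)) (XT.lf (nat_lit 152) (nat_lit 489195480) (nat_lit 0) (nat_lit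 18369893) (nat_lit 76) (nat_lit 18369893) (nat_lit 188) (nat_lit 1) (nat_lit 186) (nat_lit 1) (nat_lit 187) (nat_lit 1) (nat_lit 336) (nat_lit 297) (nat_lit 267)))) (XT.nd (nat_lit 78) (nat_lit 228) (nat_lit 0) (XT.lf (nat_lit 0) (nat_lit 151651198) (nat_lit 0) (nat_lit 197489117) (nat_lit 152) (nat_lit 151651198) (nat_lit 186) (nat_lit 3) (nat_lit 186) (nat_lit 1) (nat_lit 188) (nat_lit 1) (nat_lit 337) (nat_lit 297) (nat_lit 266)) (XT.nd (nat_lit 78) (nat_lit 152) (nat_lit 0) (XT.lf (nat_lit 76) (nat_lit 132679459) (nat_lit 0) (nat_lit 172538518) (nat_lit 76) (nat_lit 172538518) (nat_lit 186) (nat_lit 3) (nat_lit 185) (nat_lit 1) (nat_lit 186) (nat_lit 1) (nat_lit 338) (nat_lit 297) (nat_lit 265)) (XT.lf (nat_lit 152) (nat_lit 435615343) (nat_lit 0) (nat_lit 10503046) (nat_lit 76) (nat_lit 10503046) (nat_lit 185) (nat_lit 1) (nat_lit 183) (nat_lit 1) (nat_lit 184) (nat_lit 1) (nat_lit 339) (nat_lit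 297) (nat_lit 264))))))) (XT.nd (nat_lit 858) (nat_lit 836) (nat_lit 0) (XT.nd (nat_lit 390) (nat_lit 456) (nat_lit 0) (XT.nd (nat_lit 156) (nat_lit 228) (nat_lit 0) (XT.nd (nat_lit 78) (nat_lit 76) (nat_lit 0) (XT.lf (nat_lit 0) (nat_lit 136204283) (nat_lit 0) (nat_lit 162412262) (nat_lit 152) (nat_lit 136204283) (nat_lit 183) (nat_lit 3) (nat_lit 183) (nat_lit 1) (nat_lit 185) (nat_lit 1) (nat_lit 340) (nat_lit 297) (nat_lit 263)) (XT.lf (nat_lit 76) (nat_lit 123107256) (nat_lit 0) (nat_lit 145896803) (nat_lit 76) (nat_lit 145896803) (nat_lit 183) (nat_lit 3) (nat_lit 182) (nat_lit 1) (nat_lit 183) (nat_lit 1) (nat_lit 341) (nat_lit 297) (nat_lit 262))) (XT.nd (nat_lit 78) (nat_lit 76) (nat_lit 0) (XT.lf (nat_lit 152) (nat_lit 384643825) (nat_lit 0) (nat_lit 6005150) (nat_lit 76) (nat_lit 6005150) (nat_lit 182) (nat_lit 1) (nat_lit 180) (nat_lit 1) (nat_lit 181) (nat_lit 1) (nat_lit 342) (nat_lit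 297) (nat_lit 261)) (XT.nd (nat_lit 78) (nat_lit 76) (nat_lit 0) (XT.lf (nat_lit 0) (nat_lit 120916301) (nat_lit 0) (nat_lit 135900798) (nat_lit 152) (nat_lit 120916301) (nat_lit 180) (nat_lit 3) (nat_lit 180) (nat_lit 1) (nat_lit 182) (nat_lit 1) (nat_lit 343) (nat_lit 297) (nat_lit 260)) (XT.lf (nat_lit 76) (nat_lit 111471621) (nat_lit 0) (nat_lit 124501619) (nat_lit 76) (nat_lit 124501619) (nat_lit 180) (nat_lit 3) (nat_lit 179) (nat_lit 1) (nat_lit 180) (nat_lit 1) (nat_lit 344) (nat_lit 297) (nat_lit 259))))) (XT.nd (nat_lit 234) (nat_lit 228) (nat_lit 0) (XT.nd (nat_lit 78) (nat_lit 76) (nat_lit 0) (XT.lf (nat_lit 152) (nat_lit 337816432) (nat_lit 0) (nat_lit 3433464) (nat_lit 76) (nat_lit 3433464) (nat_lit 179) (nat_lit 1) (nat_lit 177) (nat_lit 1) (nat_lit 178) (nat_lit 1) (nat_lit 345) (nat_lit 297) (nat_lit 258)) (XT.nd (nat_lit 78) (nat_lit 76) (nat_lit 0) (XT.lf (nat_lit 0) (nat_lit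 106561296) (nat_lit 0) (nat_lit 115128731) (nat_lit 152) (nat_lit 106561296) (nat_lit 177) (nat_lit 3) (nat_lit 177) (nat_lit 1) (nat_lit 179) (nat_lit 1) (nat_lit 346) (nat_lit 297) (nat_lit 257)) (XT.lf (nat_lit 76) (nat_lit 99460042) (nat_lit 0) (nat_lit 106909985) (nat_lit 76) (nat_lit 106909985) (nat_lit 177) (nat_lit 3) (nat_lit 176) (nat_lit 1) (nat_lit 177) (nat_lit 1) (nat_lit 347) (nat_lit 297) (nat_lit 256)))) (XT.nd (nat_lit 78) (nat_lit 76) (nat_lit 0) (XT.lf (nat_lit 152) (nat_lit 295665100) (nat_lit 0) (nat_lit 1963094) (nat_lit 76) (nat_lit 1963094) (nat_lit 176) (nat_lit 1) (nat_lit 174) (nat_lit 1) (nat_lit 175) (nat_lit 1) (nat_lit 348) (nat_lit 297) (nat_lit 255)) (XT.nd (nat_lit 78) (nat_lit 76) (nat_lit 0) (XT.lf (nat_lit 0) (nat_lit 93471991) (nat_lit 0) (nat_lit 98370450) (nat_lit 152) (nat_lit 93471991) (nat_lit 174) (nat_lit 3) (nat_lit 174) (nat_lit 1) (nat_lit 176) (nat_lit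 1) (nat_lit 349) (nat_lit 297) (nat_lit 254)) (XT.lf (nat_lit 76) (nat_lit 87932498) (nat_lit 0) (nat_lit 92192027) (nat_lit 76) (nat_lit 92192027) (nat_lit 174) (nat_lit 3) (nat_lit 173) (nat_lit 1) (nat_lit 174) (nat_lit 1) (nat_lit 350) (nat_lit 297) (nat_lit 253)))))) (XT.nd (nat_lit 390) (nat_lit 456) (nat_lit 0) (XT.nd (nat_lit 156) (nat_lit 228) (nat_lit 0) (XT.nd (nat_lit 78) (nat_lit 0) (nat_lit 0) (XT.lf (nat_lit 152) (nat_lit 258193096) (nat_lit 0) (nat_lit 1122405) (nat_lit 76) (nat_lit 1122405) (nat_lit 173) (nat_lit 1) (nat_lit 171) (nat_lit 1) (nat_lit 172) (nat_lit 1) (nat_lit 351) (nat_lit 297) (nat_lit 252)) (XT.lf (nat_lit 0) (nat_lit 81743110) (nat_lit 0) (nat_lit 84543819) (nat_lit 152) (nat_lit 81743110) (nat_lit 171) (nat_lit 3) (nat_lit 171) (nat_lit 1) (nat_lit 173) (nat_lit 1) (nat_lit 352) (nat_lit 297) (nat_lit 251))) (XT.nd (nat_lit 78) (nat_lit 152) (nat_lit 0) (XT.lf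 (nat_lit 76) (nat_lit 77289514) (nat_lit 0) (nat_lit 79724914) (nat_lit 76) (nat_lit 79724914) (nat_lit 171) (nat_lit 3) (nat_lit 170) (nat_lit 1) (nat_lit 171) (nat_lit 1) (nat_lit 353) (nat_lit 297) (nat_lit 250)) (XT.nd (nat_lit 78) (nat_lit 0) (nat_lit 0) (XT.lf (nat_lit 152) (nat_lit 225140668) (nat_lit 0) (nat_lit 641739) (nat_lit 76) (nat_lit 641739) (nat_lit 170) (nat_lit 1) (nat_lit 168) (nat_lit 1) (nat_lit 169) (nat_lit 1) (nat_lit 354) (nat_lit 297) (nat_lit 249)) (XT.lf (nat_lit 0) (nat_lit 71345754) (nat_lit 0) (nat_lit 72947069) (nat_lit 152) (nat_lit 71345754) (nat_lit 168) (nat_lit 3) (nat_lit 168) (nat_lit 1) (nat_lit 170) (nat_lit 1) (nat_lit 355) (nat_lit 297) (nat_lit 248))))) (XT.nd (nat_lit 234) (nat_lit 228) (nat_lit 0) (XT.nd (nat_lit 78) (nat_lit 152) (nat_lit 0) (XT.lf (nat_lit 76) (nat_lit 67680811) (nat_lit 0) (nat_lit 69073259) (nat_lit 76) (nat_lit 69073259) (nat_lit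 168) (nat_lit 3) (nat_lit 167) (nat_lit 1) (nat_lit 168) (nat_lit 1) (nat_lit 356) (nat_lit 297) (nat_lit 247)) (XT.nd (nat_lit 78) (nat_lit 0) (nat_lit 0) (XT.lf (nat_lit 152) (nat_lit 196131800) (nat_lit 0) (nat_lit 366916) (nat_lit 76) (nat_lit 366916) (nat_lit 167) (nat_lit 1) (nat_lit 165) (nat_lit 1) (nat_lit 166) (nat_lit 1) (nat_lit 357) (nat_lit 297) (nat_lit 246)) (XT.lf (nat_lit 0) (nat_lit 62191180) (nat_lit 0) (nat_lit 63106737) (nat_lit 152) (nat_lit 62191180) (nat_lit 165) (nat_lit 3) (nat_lit 165) (nat_lit 1) (nat_lit 167) (nat_lit 1) (nat_lit 358) (nat_lit 297) (nat_lit 245)))) (XT.nd (nat_lit 78) (nat_lit 152) (nat_lit 0) (XT.lf (nat_lit 76) (nat_lit 59123054) (nat_lit 0) (nat_lit 59919191) (nat_lit 76) (nat_lit 59919191) (nat_lit 165) (nat_lit 3) (nat_lit 164) (nat_lit 1) (nat_lit 165) (nat_lit 1) (nat_lit 359) (nat_lit 297) (nat_lit 244)) (XT.nd (nat_lit 78) (nat_lit 0) (nat_lit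 0) (XT.lf (nat_lit 152) (nat_lit 170753683) (nat_lit 0) (nat_lit 209785) (nat_lit 76) (nat_lit 209785) (nat_lit 164) (nat_lit 1) (nat_lit 162) (nat_lit 1) (nat_lit 163) (nat_lit 1) (nat_lit 360) (nat_lit 297) (nat_lit 243)) (XT.lf (nat_lit 0) (nat_lit 54165847) (nat_lit 0) (nat_lit 54689319) (nat_lit 152) (nat_lit 54165847) (nat_lit 162) (nat_lit 3) (nat_lit 162) (nat_lit 1) (nat_lit 164) (nat_lit 1) (nat_lit 361) (nat_lit 297) (nat_lit 242))))))))
noncomputable def ec19 : XT := (XT.nd (nat_lit 43524) (nat_lit 0) (nat_lit 1900) (XT.nd (nat_lit 42666) (nat_lit 0) (nat_lit 3572) (XT.nd (nat_lit 390) (nat_lit 76) (nat_lit 0) (XT.nd (nat_lit 156) (nat_lit 228) (nat_lit 0) (XT.nd (nat_lit 78) (nat_lit 152) (nat_lit 0) (XT.lf (nat_lit 76) (nat_lit 51565825) (nat_lit 0) (nat_lit 52021019) (nat_lit 76) (nat_lit 52021019) (nat_lit 162) (nat_lit 3) (nat_lit 161) (nat_lit 1) (nat_lit 162) (nat_lit 1) (nat_lit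 362) (nat_lit 297) (nat_lit 241)) (XT.lf (nat_lit 152) (nat_lit 148598267) (nat_lit 0) (nat_lit 119945) (nat_lit 76) (nat_lit 119945) (nat_lit 161) (nat_lit 1) (nat_lit 159) (nat_lit 1) (nat_lit 160) (nat_lit 1) (nat_lit 363) (nat_lit 297) (nat_lit 240))) (XT.nd (nat_lit 78) (nat_lit 228) (nat_lit 0) (XT.lf (nat_lit 0) (nat_lit 47150227) (nat_lit 0) (nat_lit 47449524) (nat_lit 152) (nat_lit 47150227) (nat_lit 159) (nat_lit 3) (nat_lit 159) (nat_lit 1) (nat_lit 161) (nat_lit 1) (nat_lit 364) (nat_lit 297) (nat_lit 239)) (XT.nd (nat_lit 78) (nat_lit 152) (nat_lit 0) (XT.lf (nat_lit 76) (nat_lit 44928169) (nat_lit 0) (nat_lit 45188427) (nat_lit 76) (nat_lit 45188427) (nat_lit 159) (nat_lit 3) (nat_lit 158) (nat_lit 1) (nat_lit 159) (nat_lit 1) (nat_lit 365) (nat_lit 297) (nat_lit 238)) (XT.lf (nat_lit 152) (nat_lit 129282668) (nat_lit 0) (nat_lit 68579) (nat_lit 76) (nat_lit 68579) (nat_lit 158) (nat_lit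 1) (nat_lit 156) (nat_lit 1) (nat_lit 157) (nat_lit 1) (nat_lit 366) (nat_lit 297) (nat_lit 237))))) (XT.nd (nat_lit 42042) (nat_lit 0) (nat_lit 4560) (XT.nd (nat_lit 78) (nat_lit 76) (nat_lit 0) (XT.lf (nat_lit 0) (nat_lit 41028494) (nat_lit 0) (nat_lit 41199618) (nat_lit 152) (nat_lit 41028494) (nat_lit 156) (nat_lit 3) (nat_lit 156) (nat_lit 1) (nat_lit 158) (nat_lit 1) (nat_lit 367) (nat_lit 297) (nat_lit 236)) (XT.nd (nat_lit 41886) (nat_lit 0) (nat_lit 4560) (XT.lf (nat_lit 76) (nat_lit 39118470) (nat_lit 0) (nat_lit 39267274) (nat_lit 76) (nat_lit 39267274) (nat_lit 156) (nat_lit 3) (nat_lit 155) (nat_lit 1) (nat_lit 156) (nat_lit 1) (nat_lit 368) (nat_lit 297) (nat_lit 235)) (XT.lf (nat_lit 380) (nat_lit 530552978) (nat_lit 0) (nat_lit 469923831) (nat_lit 380) (nat_lit 530552978) (nat_lit 220) (nat_lit 1) (nat_lit 215) (nat_lit 0) (nat_lit 220) (nat_lit 0) (nat_lit 304) (nat_lit 298) (nat_lit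 298)))) (XT.nd (nat_lit 78) (nat_lit 0) (nat_lit 76) (XT.lf (nat_lit 380) (nat_lit 1962446616) (nat_lit 76) (nat_lit 448563657) (nat_lit 0) (nat_lit 448563657) (nat_lit 220) (nat_lit 1) (nat_lit 216) (nat_lit 1) (nat_lit 215) (nat_lit 0) (nat_lit 305) (nat_lit 298) (nat_lit 297)) (XT.nd (nat_lit 78) (nat_lit 0) (nat_lit 0) (XT.lf (nat_lit 380) (nat_lit 865035215) (nat_lit 0) (nat_lit 941239914) (nat_lit 304) (nat_lit 865035215) (nat_lit 221) (nat_lit 1) (nat_lit 216) (nat_lit 1) (nat_lit 220) (nat_lit 1) (nat_lit 306) (nat_lit 298) (nat_lit 296)) (XT.lf (nat_lit 380) (nat_lit 1485220549) (nat_lit 76) (nat_lit 508400928) (nat_lit 0) (nat_lit 508400928) (nat_lit 221) (nat_lit 1) (nat_lit 217) (nat_lit 1) (nat_lit 216) (nat_lit 1) (nat_lit 307) (nat_lit 298) (nat_lit 295)))))) (XT.nd (nat_lit 390) (nat_lit 456) (nat_lit 0) (XT.nd (nat_lit 156) (nat_lit 380) (nat_lit 0) (XT.nd (nat_lit 78) (nat_lit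 304) (nat_lit 0) (XT.lf (nat_lit 76) (nat_lit 600791410) (nat_lit 0) (nat_lit 1144007708) (nat_lit 304) (nat_lit 600791410) (nat_lit 218) (nat_lit 1) (nat_lit 217) (nat_lit 1) (nat_lit 221) (nat_lit 1) (nat_lit 308) (nat_lit 298) (nat_lit 294)) (XT.lf (nat_lit 380) (nat_lit 902940968) (nat_lit 0) (nat_lit 649919594) (nat_lit 304) (nat_lit 649919594) (nat_lit 218) (nat_lit 1) (nat_lit 213) (nat_lit 1) (nat_lit 217) (nat_lit 1) (nat_lit 309) (nat_lit 298) (nat_lit 293))) (XT.nd (nat_lit 78) (nat_lit 380) (nat_lit 0) (XT.lf (nat_lit 76) (nat_lit 300127605) (nat_lit 0) (nat_lit 1472733683) (nat_lit 380) (nat_lit 300127605) (nat_lit 214) (nat_lit 1) (nat_lit 213) (nat_lit 1) (nat_lit 218) (nat_lit 1) (nat_lit 310) (nat_lit 298) (nat_lit 292)) (XT.nd (nat_lit 78) (nat_lit 228) (nat_lit 0) (XT.lf (nat_lit 228) (nat_lit 270107765) (nat_lit 0) (nat_lit 840643770) (nat_lit 152) (nat_lit 840643770) (nat_lit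 214) (nat_lit 1) (nat_lit 211) (nat_lit 1) (nat_lit 213) (nat_lit 1) (nat_lit 311) (nat_lit 298) (nat_lit 291)) (XT.lf (nat_lit 228) (nat_lit 1815120784) (nat_lit 0) (nat_lit 14241457) (nat_lit 152) (nat_lit 14241457) (nat_lit 211) (nat_lit 1) (nat_lit 208) (nat_lit 1) (nat_lit 210) (nat_lit 1) (nat_lit 312) (nat_lit 298) (nat_lit 290))))) (XT.nd (nat_lit 234) (nat_lit 304) (nat_lit 0) (XT.nd (nat_lit 78) (nat_lit 152) (nat_lit 0) (XT.lf (nat_lit 76) (nat_lit 697381007) (nat_lit 0) (nat_lit 342376953) (nat_lit 228) (nat_lit 697381007) (nat_lit 209) (nat_lit 1) (nat_lit 208) (nat_lit 1) (nat_lit 211) (nat_lit 1) (nat_lit 313) (nat_lit 298) (nat_lit 289)) (XT.nd (nat_lit 78) (nat_lit 0) (nat_lit 0) (XT.lf (nat_lit 228) (nat_lit 1013670060) (nat_lit 0) (nat_lit 314430487) (nat_lit 152) (nat_lit 314430487) (nat_lit 209) (nat_lit 1) (nat_lit 206) (nat_lit 1) (nat_lit 208) (nat_lit 1) (nat_lit 314) (nat_lit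 298) (nat_lit 288)) (XT.lf (nat_lit 76) (nat_lit 317007874) (nat_lit 0) (nat_lit 919951432) (nat_lit 228) (nat_lit 317007874) (nat_lit 207) (nat_lit 1) (nat_lit 206) (nat_lit 1) (nat_lit 209) (nat_lit 1) (nat_lit 315) (nat_lit 298) (nat_lit 287)))) (XT.nd (nat_lit 78) (nat_lit 228) (nat_lit 0) (XT.lf (nat_lit 152) (nat_lit 262065592) (nat_lit 0) (nat_lit 604717643) (nat_lit 76) (nat_lit 604717643) (nat_lit 207) (nat_lit 1) (nat_lit 205) (nat_lit 1) (nat_lit 206) (nat_lit 1) (nat_lit 316) (nat_lit 298) (nat_lit 286)) (XT.nd (nat_lit 78) (nat_lit 0) (nat_lit 0) (XT.lf (nat_lit 228) (nat_lit 1326730076) (nat_lit 0) (nat_lit 35245942) (nat_lit 152) (nat_lit 35245942) (nat_lit 205) (nat_lit 1) (nat_lit 202) (nat_lit 1) (nat_lit 204) (nat_lit 1) (nat_lit 317) (nat_lit 298) (nat_lit 285)) (XT.lf (nat_lit 76) (nat_lit 464326992) (nat_lit 0) (nat_lit 394321631) (nat_lit 228) (nat_lit 464326992) (nat_lit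 203) (nat_lit 1) (nat_lit 202) (nat_lit 1) (nat_lit 205) (nat_lit 1) (nat_lit 318) (nat_lit 298) (nat_lit 284))))))) (XT.nd (nat_lit 858) (nat_lit 912) (nat_lit 0) (XT.nd (nat_lit 390) (nat_lit 456) (nat_lit 0) (XT.nd (nat_lit 156) (nat_lit 228) (nat_lit 0) (XT.nd (nat_lit 78) (nat_lit 0) (nat_lit 0) (XT.lf (nat_lit 152) (nat_lit 564577150) (nat_lit 0) (nat_lit 345749275) (nat_lit 76) (nat_lit 345749275) (nat_lit 203) (nat_lit 1) (nat_lit 201) (nat_lit 1) (nat_lit 202) (nat_lit 1) (nat_lit 319) (nat_lit 298) (nat_lit 283)) (XT.lf (nat_lit 0) (nat_lit 110551986) (nat_lit 0) (nat_lit 973291198) (nat_lit 152) (nat_lit 110551986) (nat_lit 201) (nat_lit 3) (nat_lit 201) (nat_lit 1) (nat_lit 203) (nat_lit 1) (nat_lit 320) (nat_lit 298) (nat_lit 282))) (XT.nd (nat_lit 78) (nat_lit 76) (nat_lit 0) (XT.lf (nat_lit 76) (nat_lit 511634126) (nat_lit 0) (nat_lit 110964597) (nat_lit 152) (nat_lit 511634126)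 (nat_lit 200) (nat_lit 1) (nat_lit 199) (nat_lit 1) (nat_lit 201) (nat_lit 1) (nat_lit 321) (nat_lit 298) (nat_lit 281)) (XT.nd (nat_lit 78) (nat_lit 0) (nat_lit 0) (XT.lf (nat_lit 152) (nat_lit 683442554) (nat_lit 0) (nat_lit 197683270) (nat_lit 76) (nat_lit 197683270) (nat_lit 200) (nat_lit 1) (nat_lit 198) (nat_lit 1) (nat_lit 199) (nat_lit 1) (nat_lit 322) (nat_lit 298) (nat_lit 280)) (XT.lf (nat_lit 0) (nat_lit 177698532) (nat_lit 0) (nat_lit 670972476) (nat_lit 152) (nat_lit 177698532) (nat_lit 198) (nat_lit 3) (nat_lit 198) (nat_lit 1) (nat_lit 200) (nat_lit 1) (nat_lit 323) (nat_lit 298) (nat_lit 279))))) (XT.nd (nat_lit 234) (nat_lit 228) (nat_lit 0) (XT.nd (nat_lit 78) (nat_lit 152) (nat_lit 0) (XT.lf (nat_lit 76) (nat_lit 39641367) (nat_lit 0) (nat_lit 468575231) (nat_lit 76) (nat_lit 468575231) (nat_lit 198) (nat_lit 3) (nat_lit 197) (nat_lit 1) (nat_lit 198) (nat_lit 1) (nat_lit 324)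 (nat_lit 298) (nat_lit 278)) (XT.nd (nat_lit 78) (nat_lit 0) (nat_lit 0) (XT.lf (nat_lit 152) (nat_lit 704363748) (nat_lit 0) (nat_lit 113026051) (nat_lit 76) (nat_lit 113026051) (nat_lit 197) (nat_lit 1) (nat_lit 195) (nat_lit 1) (nat_lit 196) (nat_lit 1) (nat_lit 325) (nat_lit 298) (nat_lit 277)) (XT.lf (nat_lit 0) (nat_lit 201156299) (nat_lit 0) (nat_lit 483187278) (nat_lit 152) (nat_lit 201156299) (nat_lit 195) (nat_lit 3) (nat_lit 195) (nat_lit 1) (nat_lit 197) (nat_lit 1) (nat_lit 326) (nat_lit 298) (nat_lit 276)))) (XT.nd (nat_lit 78) (nat_lit 152) (nat_lit 0) (XT.lf (nat_lit 76) (nat_lit 117696367) (nat_lit 0) (nat_lit 362940697) (nat_lit 76) (nat_lit 362940697) (nat_lit 195) (nat_lit 3) (nat_lit 194) (nat_lit 1) (nat_lit 195) (nat_lit 1) (nat_lit 327) (nat_lit 298) (nat_lit 275)) (XT.nd (nat_lit 78) (nat_lit 0) (nat_lit 0) (XT.lf (nat_lit 152) (nat_lit 675420736) (nat_lit 0) (nat_lit 64623011)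 (nat_lit 76) (nat_lit 64623011) (nat_lit 194) (nat_lit 1) (nat_lit 192) (nat_lit 1) (nat_lit 193) (nat_lit 1) (nat_lit 328) (nat_lit 298) (nat_lit 274)) (XT.lf (nat_lit 0) (nat_lit 201582712) (nat_lit 0) (nat_lit 362834839) (nat_lit 152) (nat_lit 201582712) (nat_lit 192) (nat_lit 3) (nat_lit 192) (nat_lit 1) (nat_lit 194) (nat_lit 1) (nat_lit 329) (nat_lit 298) (nat_lit 273)))))) (XT.nd (nat_lit 468) (nat_lit 456) (nat_lit 0) (XT.nd (nat_lit 234) (nat_lit 228) (nat_lit 0) (XT.nd (nat_lit 78) (nat_lit 152) (nat_lit 0) (XT.lf (nat_lit 76) (nat_lit 149929182) (nat_lit 0) (nat_lit 290148423) (nat_lit 76) (nat_lit 290148423) (nat_lit 192) (nat_lit 3) (nat_lit 191) (nat_lit 1) (nat_lit 192) (nat_lit 1) (nat_lit 330) (nat_lit 298) (nat_lit 272)) (XT.nd (nat_lit 78) (nat_lit 0) (nat_lit 0) (XT.lf (nat_lit 152) (nat_lit 623303109) (nat_lit 0) (nat_lit 36948416) (nat_lit 76) (nat_lit 36948416) (nat_lit 191)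 (nat_lit 1) (nat_lit 189) (nat_lit 1) (nat_lit 190) (nat_lit 1) (nat_lit 331) (nat_lit 298) (nat_lit 271)) (XT.lf (nat_lit 0) (nat_lit 190534652) (nat_lit 0) (nat_lit 282731080) (nat_lit 152) (nat_lit 190534652) (nat_lit 189) (nat_lit 3) (nat_lit 189) (nat_lit 1) (nat_lit 191) (nat_lit 1) (nat_lit 332) (nat_lit 298) (nat_lit 270)))) (XT.nd (nat_lit 78) (nat_lit 152) (nat_lit 0) (XT.lf (nat_lit 76) (nat_lit 157579803) (nat_lit 0) (nat_lit 237750609) (nat_lit 76) (nat_lit 237750609) (nat_lit 189) (nat_lit 3) (nat_lit 188) (nat_lit 1) (nat_lit 189) (nat_lit 1) (nat_lit 333) (nat_lit 298) (nat_lit 269)) (XT.nd (nat_lit 78) (nat_lit 0) (nat_lit 0) (XT.lf (nat_lit 152) (nat_lit 562574802) (nat_lit 0) (nat_lit 21125377) (nat_lit 76) (nat_lit 21125377) (nat_lit 188) (nat_lit 1) (nat_lit 186) (nat_lit 1) (nat_lit 187) (nat_lit 1) (nat_lit 334) (nat_lit 298) (nat_lit 268)) (XT.lf (nat_lit 0) (nat_lit 174398878)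 (nat_lit 0) (nat_lit 227112484) (nat_lit 152) (nat_lit 174398878) (nat_lit 186) (nat_lit 3) (nat_lit 186) (nat_lit 1) (nat_lit 188) (nat_lit 1) (nat_lit 335) (nat_lit 298) (nat_lit 267))))) (XT.nd (nat_lit 234) (nat_lit 228) (nat_lit 0) (XT.nd (nat_lit 78) (nat_lit 152) (nat_lit 0) (XT.lf (nat_lit 76) (nat_lit 152581378) (nat_lit 0) (nat_lit 198419296) (nat_lit 76) (nat_lit 198419296) (nat_lit 186) (nat_lit 3) (nat_lit 185) (nat_lit 1) (nat_lit 186) (nat_lit 1) (nat_lit 336) (nat_lit 298) (nat_lit 266)) (XT.nd (nat_lit 78) (nat_lit 0) (nat_lit 0) (XT.lf (nat_lit 152) (nat_lit 500957644) (nat_lit 0) (nat_lit 12078502) (nat_lit 76) (nat_lit 12078502) (nat_lit 185) (nat_lit 1) (nat_lit 183) (nat_lit 1) (nat_lit 184) (nat_lit 1) (nat_lit 337) (nat_lit 298) (nat_lit 265)) (XT.lf (nat_lit 0) (nat_lit 156634926) (nat_lit 0) (nat_lit 186774102) (nat_lit 152) (nat_lit 156634926) (nat_lit 183) (nat_lit 3)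 (nat_lit 183) (nat_lit 1) (nat_lit 185) (nat_lit 1) (nat_lit 338) (nat_lit 298) (nat_lit 264)))) (XT.nd (nat_lit 78) (nat_lit 152) (nat_lit 0) (XT.lf (nat_lit 76) (nat_lit 141573345) (nat_lit 0) (nat_lit 167781324) (nat_lit 76) (nat_lit 167781324) (nat_lit 183) (nat_lit 3) (nat_lit 182) (nat_lit 1) (nat_lit 183) (nat_lit 1) (nat_lit 339) (nat_lit 298) (nat_lit 263)) (XT.nd (nat_lit 78) (nat_lit 0) (nat_lit 0) (XT.lf (nat_lit 152) (nat_lit 442340399) (nat_lit 0) (nat_lit 6905923) (nat_lit 76) (nat_lit 6905923) (nat_lit 182) (nat_lit 1) (nat_lit 180) (nat_lit 1) (nat_lit 181) (nat_lit 1) (nat_lit 340) (nat_lit 298) (nat_lit 262)) (XT.lf (nat_lit 0) (nat_lit 139053746) (nat_lit 0) (nat_lit 156285917) (nat_lit 152) (nat_lit 139053746) (nat_lit 180) (nat_lit 3) (nat_lit 180) (nat_lit 1) (nat_lit 182) (nat_lit 1) (nat_lit 341) (nat_lit 298) (nat_lit 261))))))))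
noncomputable def ec20 : XT := (XT.nd (nat_lit 1716) (nat_lit 456) (nat_lit 0) (XT.nd (nat_lit 858) (nat_lit 760) (nat_lit 0) (XT.nd (nat_lit 390) (nat_lit 456) (nat_lit 0) (XT.nd (nat_lit 156) (nat_lit 228) (nat_lit 0) (XT.nd (nat_lit 78) (nat_lit 152) (nat_lit 0) (XT.lf (nat_lit 76) (nat_lit 128192365) (nat_lit 0) (nat_lit 143176861) (nat_lit 76) (nat_lit 143176861) (nat_lit 180) (nat_lit 3) (nat_lit 179) (nat_lit 1) (nat_lit 180) (nat_lit 1) (nat_lit 342) (nat_lit 298) (nat_lit 260)) (XT.lf (nat_lit 152) (nat_lit 388488897) (nat_lit 0) (nat_lit 3948484) (nat_lit 76) (nat_lit 3948484) (nat_lit 179) (nat_lit 1) (nat_lit 177) (nat_lit 1) (nat_lit 178) (nat_lit 1) (nat_lit 343) (nat_lit 298) (nat_lit 259))) (XT.nd (nat_lit 78) (nat_lit 228) (nat_lit 0) (XT.lf (nat_lit 0) (nat_lit 122545490) (nat_lit 0) (nat_lit 132398040) (nat_lit 152) (nat_lit 122545490) (nat_lit 177) (nat_lit 3) (nat_lit 177)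 (nat_lit 1) (nat_lit 179) (nat_lit 1) (nat_lit 344) (nat_lit 298) (nat_lit 258)) (XT.nd (nat_lit 78) (nat_lit 152) (nat_lit 0) (XT.lf (nat_lit 76) (nat_lit 114379048) (nat_lit 0) (nat_lit 122946483) (nat_lit 76) (nat_lit 122946483) (nat_lit 177) (nat_lit 3) (nat_lit 176) (nat_lit 1) (nat_lit 177) (nat_lit 1) (nat_lit 345) (nat_lit 298) (nat_lit 257)) (XT.lf (nat_lit 152) (nat_lit 340014865) (nat_lit 0) (nat_lit 2257558) (nat_lit 76) (nat_lit 2257558) (nat_lit 176) (nat_lit 1) (nat_lit 174) (nat_lit 1) (nat_lit 175) (nat_lit 1) (nat_lit 346) (nat_lit 298) (nat_lit 256))))) (XT.nd (nat_lit 234) (nat_lit 228) (nat_lit 0) (XT.nd (nat_lit 78) (nat_lit 228) (nat_lit 0) (XT.lf (nat_lit 0) (nat_lit 107492790) (nat_lit 0) (nat_lit 113126018) (nat_lit 152) (nat_lit 107492790) (nat_lit 174) (nat_lit 3) (nat_lit 174) (nat_lit 1) (nat_lit 176) (nat_lit 1) (nat_lit 347) (nat_lit 298) (nat_lit 255)) (XT.nd (nat_lit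 78) (nat_lit 152) (nat_lit 0) (XT.lf (nat_lit 76) (nat_lit 101122373) (nat_lit 0) (nat_lit 106020832) (nat_lit 76) (nat_lit 106020832) (nat_lit 174) (nat_lit 3) (nat_lit 173) (nat_lit 1) (nat_lit 174) (nat_lit 1) (nat_lit 348) (nat_lit 298) (nat_lit 254)) (XT.lf (nat_lit 152) (nat_lit 296922061) (nat_lit 0) (nat_lit 1290766) (nat_lit 76) (nat_lit 1290766) (nat_lit 173) (nat_lit 1) (nat_lit 171) (nat_lit 1) (nat_lit 172) (nat_lit 1) (nat_lit 349) (nat_lit 298) (nat_lit 253)))) (XT.nd (nat_lit 78) (nat_lit 228) (nat_lit 0) (XT.lf (nat_lit 0) (nat_lit 94004576) (nat_lit 0) (nat_lit 97225392) (nat_lit 152) (nat_lit 94004576) (nat_lit 171) (nat_lit 3) (nat_lit 171) (nat_lit 1) (nat_lit 173) (nat_lit 1) (nat_lit 350) (nat_lit 298) (nat_lit 252)) (XT.nd (nat_lit 78) (nat_lit 152) (nat_lit 0) (XT.lf (nat_lit 76) (nat_lit 88882941) (nat_lit 0) (nat_lit 91683651) (nat_lit 76) (nat_lit 91683651) (nat_lit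 171) (nat_lit 3) (nat_lit 170) (nat_lit 1) (nat_lit 171) (nat_lit 1) (nat_lit 351) (nat_lit 298) (nat_lit 251)) (XT.lf (nat_lit 152) (nat_lit 258911768) (nat_lit 0) (nat_lit 737999) (nat_lit 76) (nat_lit 737999) (nat_lit 170) (nat_lit 1) (nat_lit 168) (nat_lit 1) (nat_lit 169) (nat_lit 1) (nat_lit 352) (nat_lit 298) (nat_lit 250)))))) (XT.nd (nat_lit 390) (nat_lit 456) (nat_lit 0) (XT.nd (nat_lit 156) (nat_lit 228) (nat_lit 0) (XT.nd (nat_lit 78) (nat_lit 76) (nat_lit 0) (XT.lf (nat_lit 0) (nat_lit 82047617) (nat_lit 0) (nat_lit 83889129) (nat_lit 152) (nat_lit 82047617) (nat_lit 168) (nat_lit 3) (nat_lit 168) (nat_lit 1) (nat_lit 170) (nat_lit 1) (nat_lit 353) (nat_lit 298) (nat_lit 249)) (XT.lf (nat_lit 76) (nat_lit 77832933) (nat_lit 0) (nat_lit 79434248) (nat_lit 76) (nat_lit 79434248) (nat_lit 168) (nat_lit 3) (nat_lit 167) (nat_lit 1) (nat_lit 168) (nat_lit 1) (nat_lit 354) (nat_lit 298)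 (nat_lit 248))) (XT.nd (nat_lit 78) (nat_lit 76) (nat_lit 0) (XT.lf (nat_lit 152) (nat_lit 225551570) (nat_lit 0) (nat_lit 421953) (nat_lit 76) (nat_lit 421953) (nat_lit 167) (nat_lit 1) (nat_lit 165) (nat_lit 1) (nat_lit 166) (nat_lit 1) (nat_lit 355) (nat_lit 298) (nat_lit 247)) (XT.nd (nat_lit 78) (nat_lit 76) (nat_lit 0) (XT.lf (nat_lit 0) (nat_lit 71519857) (nat_lit 0) (nat_lit 72572747) (nat_lit 152) (nat_lit 71519857) (nat_lit 165) (nat_lit 3) (nat_lit 165) (nat_lit 1) (nat_lit 167) (nat_lit 1) (nat_lit 356) (nat_lit 298) (nat_lit 246)) (XT.lf (nat_lit 76) (nat_lit 67991513) (nat_lit 0) (nat_lit 68907070) (nat_lit 76) (nat_lit 68907070) (nat_lit 165) (nat_lit 3) (nat_lit 164) (nat_lit 1) (nat_lit 165) (nat_lit 1) (nat_lit 357) (nat_lit 298) (nat_lit 245))))) (XT.nd (nat_lit 234) (nat_lit 228) (nat_lit 0) (XT.nd (nat_lit 78) (nat_lit 76) (nat_lit 0) (XT.lf (nat_lit 152) (nat_lit 196366735)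 (nat_lit 0) (nat_lit 241253) (nat_lit 76) (nat_lit 241253) (nat_lit 164) (nat_lit 1) (nat_lit 162) (nat_lit 1) (nat_lit 163) (nat_lit 1) (nat_lit 358) (nat_lit 298) (nat_lit 244)) (XT.nd (nat_lit 78) (nat_lit 76) (nat_lit 0) (XT.lf (nat_lit 0) (nat_lit 62290724) (nat_lit 0) (nat_lit 62892717) (nat_lit 152) (nat_lit 62290724) (nat_lit 162) (nat_lit 3) (nat_lit 162) (nat_lit 1) (nat_lit 164) (nat_lit 1) (nat_lit 359) (nat_lit 298) (nat_lit 243)) (XT.lf (nat_lit 76) (nat_lit 59300699) (nat_lit 0) (nat_lit 59824172) (nat_lit 76) (nat_lit 59824172) (nat_lit 162) (nat_lit 3) (nat_lit 161) (nat_lit 1) (nat_lit 162) (nat_lit 1) (nat_lit 360) (nat_lit 298) (nat_lit 242)))) (XT.nd (nat_lit 78) (nat_lit 76) (nat_lit 0) (XT.lf (nat_lit 152) (nat_lit 170888008) (nat_lit 0) (nat_lit 137937) (nat_lit 76) (nat_lit 137937) (nat_lit 161) (nat_lit 1) (nat_lit 159) (nat_lit 1) (nat_lit 160) (nat_lit 1) (nat_lit 361)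 (nat_lit 298) (nat_lit 241)) (XT.nd (nat_lit 78) (nat_lit 76) (nat_lit 0) (XT.lf (nat_lit 0) (nat_lit 54222761) (nat_lit 0) (nat_lit 54566953) (nat_lit 152) (nat_lit 54222761) (nat_lit 159) (nat_lit 3) (nat_lit 159) (nat_lit 1) (nat_lit 161) (nat_lit 1) (nat_lit 362) (nat_lit 298) (nat_lit 240)) (XT.lf (nat_lit 76) (nat_lit 51667394) (nat_lit 0) (nat_lit 51966691) (nat_lit 76) (nat_lit 51966691) (nat_lit 159) (nat_lit 3) (nat_lit 158) (nat_lit 1) (nat_lit 159) (nat_lit 1) (nat_lit 363) (nat_lit 298) (nat_lit 239))))))) (XT.nd (nat_lit 42432) (nat_lit 0) (nat_lit 3724) (XT.nd (nat_lit 390) (nat_lit 76) (nat_lit 0) (XT.nd (nat_lit 156) (nat_lit 228) (nat_lit 0) (XT.nd (nat_lit 78) (nat_lit 0) (nat_lit 0) (XT.lf (nat_lit 152) (nat_lit 148675068) (nat_lit 0) (nat_lit 78866) (nat_lit 76) (nat_lit 78866) (nat_lit 158) (nat_lit 1) (nat_lit 156) (nat_lit 1) (nat_lit 157) (nat_lit 1) (nat_lit 364) (nat_lit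 298) (nat_lit 238)) (XT.lf (nat_lit 0) (nat_lit 47182768) (nat_lit 0) (nat_lit 47379561) (nat_lit 152) (nat_lit 47182768) (nat_lit 156) (nat_lit 3) (nat_lit 156) (nat_lit 1) (nat_lit 158) (nat_lit 1) (nat_lit 365) (nat_lit 298) (nat_lit 237))) (XT.nd (nat_lit 78) (nat_lit 152) (nat_lit 0) (XT.lf (nat_lit 76) (nat_lit 44986241) (nat_lit 0) (nat_lit 45157365) (nat_lit 76) (nat_lit 45157365) (nat_lit 156) (nat_lit 3) (nat_lit 155) (nat_lit 1) (nat_lit 156) (nat_lit 1) (nat_lit 366) (nat_lit 298) (nat_lit 236)) (XT.nd (nat_lit 78) (nat_lit 0) (nat_lit 0) (XT.lf (nat_lit 152) (nat_lit 129326579) (nat_lit 0) (nat_lit 45091) (nat_lit 76) (nat_lit 45091) (nat_lit 155) (nat_lit 1) (nat_lit 153) (nat_lit 1) (nat_lit 154) (nat_lit 1) (nat_lit 367) (nat_lit 298) (nat_lit 235)) (XT.lf (nat_lit 0) (nat_lit 41047099) (nat_lit 0) (nat_lit 41159616) (nat_lit 152) (nat_lit 41047099) (nat_lit 153) (nat_lit 3) (nat_lit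 153) (nat_lit 1) (nat_lit 155) (nat_lit 1) (nat_lit 368) (nat_lit 298) (nat_lit 234))))) (XT.nd (nat_lit 41808) (nat_lit 0) (nat_lit 4864) (XT.nd (nat_lit 41652) (nat_lit 0) (nat_lit 4788) (XT.lf (nat_lit 76) (nat_lit 39151673) (nat_lit 0) (nat_lit 39249514) (nat_lit 76) (nat_lit 39249514) (nat_lit 153) (nat_lit 3) (nat_lit 152) (nat_lit 1) (nat_lit 153) (nat_lit 1) (nat_lit 369) (nat_lit 298) (nat_lit 233)) (XT.nd (nat_lit 78) (nat_lit 0) (nat_lit 0) (XT.lf (nat_lit 380) (nat_lit 610135925) (nat_lit 0) (nat_lit 540412405) (nat_lit 380) (nat_lit 610135925) (nat_lit 220) (nat_lit 1) (nat_lit 215) (nat_lit 0) (nat_lit 220) (nat_lit 0) (nat_lit 302) (nat_lit 299) (nat_lit 299)) (XT.lf (nat_lit 380) (nat_lit 2256813609) (nat_lit 76) (nat_lit 515848205) (nat_lit 0) (nat_lit 515848205) (nat_lit 220) (nat_lit 1) (nat_lit 216) (nat_lit 1) (nat_lit 215) (nat_lit 0) (nat_lit 303) (nat_lit 299) (nat_lit 298))))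 (XT.nd (nat_lit 78) (nat_lit 0) (nat_lit 0) (XT.lf (nat_lit 380) (nat_lit 994790497) (nat_lit 0) (nat_lit 1082425901) (nat_lit 304) (nat_lit 994790497) (nat_lit 221) (nat_lit 1) (nat_lit 216) (nat_lit 1) (nat_lit 220) (nat_lit 1) (nat_lit 304) (nat_lit 299) (nat_lit 297)) (XT.nd (nat_lit 78) (nat_lit 0) (nat_lit 76) (XT.lf (nat_lit 380) (nat_lit 1708003632) (nat_lit 76) (nat_lit 584661067) (nat_lit 0) (nat_lit 584661067) (nat_lit 221) (nat_lit 1) (nat_lit 217) (nat_lit 1) (nat_lit 216) (nat_lit 1) (nat_lit 305) (nat_lit 299) (nat_lit 296)) (XT.lf (nat_lit 76) (nat_lit 690910122) (nat_lit 0) (nat_lit 1315608864) (nat_lit 304) (nat_lit 690910122) (nat_lit 218) (nat_lit 1) (nat_lit 217) (nat_lit 1) (nat_lit 221) (nat_lit 1) (nat_lit 306) (nat_lit 299) (nat_lit 295)))))) (XT.nd (nat_lit 390) (nat_lit 532) (nat_lit 0) (XT.nd (nat_lit 156) (nat_lit 380) (nat_lit 0) (XT.nd (nat_lit 78) (nat_lit 0) (nat_lit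 0) (XT.lf (nat_lit 380) (nat_lit 1038382113) (nat_lit 0) (nat_lit 747407533) (nat_lit 304) (nat_lit 747407533) (nat_lit 218) (nat_lit 1) (nat_lit 213) (nat_lit 1) (nat_lit 217) (nat_lit 1) (nat_lit 307) (nat_lit 299) (nat_lit 294)) (XT.lf (nat_lit 76) (nat_lit 345146746) (nat_lit 0) (nat_lit 1693643736) (nat_lit 380) (nat_lit 345146746) (nat_lit 214) (nat_lit 1) (nat_lit 213) (nat_lit 1) (nat_lit 218) (nat_lit 1) (nat_lit 308) (nat_lit 299) (nat_lit 293))) (XT.nd (nat_lit 78) (nat_lit 228) (nat_lit 0) (XT.lf (nat_lit 228) (nat_lit 310623930) (nat_lit 0) (nat_lit 966740335) (nat_lit 152) (nat_lit 966740335) (nat_lit 214) (nat_lit 1) (nat_lit 211) (nat_lit 1) (nat_lit 213) (nat_lit 1) (nat_lit 309) (nat_lit 299) (nat_lit 292)) (XT.nd (nat_lit 78) (nat_lit 0) (nat_lit 0) (XT.lf (nat_lit 228) (nat_lit 2087388901) (nat_lit 0) (nat_lit 16377676) (nat_lit 152) (nat_lit 16377676) (nat_lit 211) (nat_lit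 1) (nat_lit 208) (nat_lit 1) (nat_lit 210) (nat_lit 1) (nat_lit 310) (nat_lit 299) (nat_lit 291)) (XT.lf (nat_lit 76) (nat_lit 801988158) (nat_lit 0) (nat_lit 393733496) (nat_lit 228) (nat_lit 801988158) (nat_lit 209) (nat_lit 1) (nat_lit 208) (nat_lit 1) (nat_lit 211) (nat_lit 1) (nat_lit 311) (nat_lit 299) (nat_lit 290))))) (XT.nd (nat_lit 234) (nat_lit 304) (nat_lit 0) (XT.nd (nat_lit 78) (nat_lit 76) (nat_lit 0) (XT.lf (nat_lit 228) (nat_lit 1165720569) (nat_lit 0) (nat_lit 361595061) (nat_lit 152) (nat_lit 361595061) (nat_lit 209) (nat_lit 1) (nat_lit 206) (nat_lit 1) (nat_lit 208) (nat_lit 1) (nat_lit 312) (nat_lit 299) (nat_lit 289)) (XT.nd (nat_lit 78) (nat_lit 76) (nat_lit 0) (XT.lf (nat_lit 76) (nat_lit 364559056) (nat_lit 0) (nat_lit 1057944147) (nat_lit 228) (nat_lit 364559056) (nat_lit 207) (nat_lit 1) (nat_lit 206) (nat_lit 1) (nat_lit 209) (nat_lit 1) (nat_lit 313) (nat_lit 299)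 (nat_lit 288)) (XT.lf (nat_lit 152) (nat_lit 301375431) (nat_lit 0) (nat_lit 695425289) (nat_lit 76) (nat_lit 695425289) (nat_lit 207) (nat_lit 1) (nat_lit 205) (nat_lit 1) (nat_lit 206) (nat_lit 1) (nat_lit 314) (nat_lit 299) (nat_lit 287)))) (XT.nd (nat_lit 78) (nat_lit 76) (nat_lit 0) (XT.lf (nat_lit 228) (nat_lit 1525739587) (nat_lit 0) (nat_lit 40532833) (nat_lit 152) (nat_lit 40532833) (nat_lit 205) (nat_lit 1) (nat_lit 202) (nat_lit 1) (nat_lit 204) (nat_lit 1) (nat_lit 315) (nat_lit 299) (nat_lit 286)) (XT.nd (nat_lit 78) (nat_lit 76) (nat_lit 0) (XT.lf (nat_lit 76) (nat_lit 533976040) (nat_lit 0) (nat_lit 453469875) (nat_lit 228) (nat_lit 533976040) (nat_lit 203) (nat_lit 1) (nat_lit 202) (nat_lit 1) (nat_lit 205) (nat_lit 1) (nat_lit 316) (nat_lit 299) (nat_lit 285)) (XT.lf (nat_lit 152) (nat_lit 649263722) (nat_lit 0) (nat_lit 397611666) (nat_lit 76) (nat_lit 397611666) (nat_lit 203)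 (nat_lit 1) (nat_lit 201) (nat_lit 1) (nat_lit 202) (nat_lit 1) (nat_lit 317) (nat_lit 299) (nat_lit 284))))))))
noncomputable def ec21 : XT := (XT.nd (nat_lit 1716) (nat_lit 1824) (nat_lit 0) (XT.nd (nat_lit 858) (nat_lit 836) (nat_lit 0) (XT.nd (nat_lit 390) (nat_lit 456) (nat_lit 0) (XT.nd (nat_lit 156) (nat_lit 152) (nat_lit 0) (XT.nd (nat_lit 78) (nat_lit 152) (nat_lit 0) (XT.lf (nat_lit 0) (nat_lit 127134784) (nat_lit 0) (nat_lit 1119284878) (nat_lit 152) (nat_lit 127134784) (nat_lit 201) (nat_lit 3) (nat_lit 201) (nat_lit 1) (nat_lit 203) (nat_lit 1) (nat_lit 318) (nat_lit 299) (nat_lit 283)) (XT.lf (nat_lit 76) (nat_lit 588379245) (nat_lit 0) (nat_lit 127609286) (nat_lit 152) (nat_lit 588379245) (nat_lit 200) (nat_lit 1) (nat_lit 199) (nat_lit 1) (nat_lit 201) (nat_lit 1) (nat_lit 319) (nat_lit 299) (nat_lit 282))) (XT.nd (nat_lit 78) (nat_lit 76) (nat_lit 0) (XT.lf (nat_lit 152) (nat_lit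 785958937) (nat_lit 0) (nat_lit 227335760) (nat_lit 76) (nat_lit 227335760) (nat_lit 200) (nat_lit 1) (nat_lit 198) (nat_lit 1) (nat_lit 199) (nat_lit 1) (nat_lit 320) (nat_lit 299) (nat_lit 281)) (XT.nd (nat_lit 78) (nat_lit 76) (nat_lit 0) (XT.lf (nat_lit 0) (nat_lit 204353311) (nat_lit 0) (nat_lit 771618348) (nat_lit 152) (nat_lit 204353311) (nat_lit 198) (nat_lit 3) (nat_lit 198) (nat_lit 1) (nat_lit 200) (nat_lit 1) (nat_lit 321) (nat_lit 299) (nat_lit 280)) (XT.lf (nat_lit 76) (nat_lit 45587572) (nat_lit 0) (nat_lit 538861516) (nat_lit 76) (nat_lit 538861516) (nat_lit 198) (nat_lit 3) (nat_lit 197) (nat_lit 1) (nat_lit 198) (nat_lit 1) (nat_lit 322) (nat_lit 299) (nat_lit 279))))) (XT.nd (nat_lit 234) (nat_lit 228) (nat_lit 0) (XT.nd (nat_lit 78) (nat_lit 76) (nat_lit 0) (XT.lf (nat_lit 152) (nat_lit 810018310) (nat_lit 0) (nat_lit 129979959) (nat_lit 76) (nat_lit 129979959) (nat_lit 197)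 (nat_lit 1) (nat_lit 195) (nat_lit 1) (nat_lit 196) (nat_lit 1) (nat_lit 323) (nat_lit 299) (nat_lit 278)) (XT.nd (nat_lit 78) (nat_lit 76) (nat_lit 0) (XT.lf (nat_lit 0) (nat_lit 231329744) (nat_lit 0) (nat_lit 555665370) (nat_lit 152) (nat_lit 231329744) (nat_lit 195) (nat_lit 3) (nat_lit 195) (nat_lit 1) (nat_lit 197) (nat_lit 1) (nat_lit 324) (nat_lit 299) (nat_lit 277)) (XT.lf (nat_lit 76) (nat_lit 135350823) (nat_lit 0) (nat_lit 417381801) (nat_lit 76) (nat_lit 417381801) (nat_lit 195) (nat_lit 3) (nat_lit 194) (nat_lit 1) (nat_lit 195) (nat_lit 1) (nat_lit 325) (nat_lit 299) (nat_lit 276)))) (XT.nd (nat_lit 78) (nat_lit 76) (nat_lit 0) (XT.lf (nat_lit 152) (nat_lit 776733847) (nat_lit 0) (nat_lit 74316463) (nat_lit 76) (nat_lit 74316463) (nat_lit 194) (nat_lit 1) (nat_lit 192) (nat_lit 1) (nat_lit 193) (nat_lit 1) (nat_lit 326) (nat_lit 299) (nat_lit 275)) (XT.nd (nat_lit 78) (nat_lit 76)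 (nat_lit 0) (XT.lf (nat_lit 0) (nat_lit 231820119) (nat_lit 0) (nat_lit 417260065) (nat_lit 152) (nat_lit 231820119) (nat_lit 192) (nat_lit 3) (nat_lit 192) (nat_lit 1) (nat_lit 194) (nat_lit 1) (nat_lit 327) (nat_lit 299) (nat_lit 274)) (XT.lf (nat_lit 76) (nat_lit 172418560) (nat_lit 0) (nat_lit 333670687) (nat_lit 76) (nat_lit 333670687) (nat_lit 192) (nat_lit 3) (nat_lit 191) (nat_lit 1) (nat_lit 192) (nat_lit 1) (nat_lit 328) (nat_lit 299) (nat_lit 273)))))) (XT.nd (nat_lit 390) (nat_lit 456) (nat_lit 0) (XT.nd (nat_lit 156) (nat_lit 228) (nat_lit 0) (XT.nd (nat_lit 78) (nat_lit 0) (nat_lit 0) (XT.lf (nat_lit 152) (nat_lit 716798575) (nat_lit 0) (nat_lit 42490679) (nat_lit 76) (nat_lit 42490679) (nat_lit 191) (nat_lit 1) (nat_lit 189) (nat_lit 1) (nat_lit 190) (nat_lit 1) (nat_lit 329) (nat_lit 299) (nat_lit 272)) (XT.lf (nat_lit 0) (nat_lit 219114850) (nat_lit 0) (nat_lit 325140742) (nat_lit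 152) (nat_lit 219114850) (nat_lit 189) (nat_lit 3) (nat_lit 189) (nat_lit 1) (nat_lit 191) (nat_lit 1) (nat_lit 330) (nat_lit 299) (nat_lit 271))) (XT.nd (nat_lit 78) (nat_lit 152) (nat_lit 0) (XT.lf (nat_lit 76) (nat_lit 181216773) (nat_lit 0) (nat_lit 273413200) (nat_lit 76) (nat_lit 273413200) (nat_lit 189) (nat_lit 3) (nat_lit 188) (nat_lit 1) (nat_lit 189) (nat_lit 1) (nat_lit 331) (nat_lit 299) (nat_lit 270)) (XT.nd (nat_lit 78) (nat_lit 0) (nat_lit 0) (XT.lf (nat_lit 152) (nat_lit 646961023) (nat_lit 0) (nat_lit 24294183) (nat_lit 76) (nat_lit 24294183) (nat_lit 188) (nat_lit 1) (nat_lit 186) (nat_lit 1) (nat_lit 187) (nat_lit 1) (nat_lit 332) (nat_lit 299) (nat_lit 269)) (XT.lf (nat_lit 0) (nat_lit 200558710) (nat_lit 0) (nat_lit 261179357) (nat_lit 152) (nat_lit 200558710) (nat_lit 186) (nat_lit 3) (nat_lit 186) (nat_lit 1) (nat_lit 188) (nat_lit 1) (nat_lit 333) (nat_lit 299) (nat_lit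 268))))) (XT.nd (nat_lit 234) (nat_lit 228) (nat_lit 0) (XT.nd (nat_lit 78) (nat_lit 152) (nat_lit 0) (XT.lf (nat_lit 76) (nat_lit 175468584) (nat_lit 0) (nat_lit 228182191) (nat_lit 76) (nat_lit 228182191) (nat_lit 186) (nat_lit 3) (nat_lit 185) (nat_lit 1) (nat_lit 186) (nat_lit 1) (nat_lit 334) (nat_lit 299) (nat_lit 267)) (XT.nd (nat_lit 78) (nat_lit 0) (nat_lit 0) (XT.lf (nat_lit 152) (nat_lit 576101291) (nat_lit 0) (nat_lit 13890278) (nat_lit 76) (nat_lit 13890278) (nat_lit 185) (nat_lit 1) (nat_lit 183) (nat_lit 1) (nat_lit 184) (nat_lit 1) (nat_lit 335) (nat_lit 299) (nat_lit 266)) (XT.lf (nat_lit 0) (nat_lit 180130165) (nat_lit 0) (nat_lit 214790217) (nat_lit 152) (nat_lit 180130165) (nat_lit 183) (nat_lit 3) (nat_lit 183) (nat_lit 1) (nat_lit 185) (nat_lit 1) (nat_lit 336) (nat_lit 299) (nat_lit 265)))) (XT.nd (nat_lit 78) (nat_lit 152) (nat_lit 0) (XT.lf (nat_lit 76) (nat_lit 162809347)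 (nat_lit 0) (nat_lit 192948522) (nat_lit 76) (nat_lit 192948522) (nat_lit 183) (nat_lit 3) (nat_lit 182) (nat_lit 1) (nat_lit 183) (nat_lit 1) (nat_lit 337) (nat_lit 299) (nat_lit 264)) (XT.nd (nat_lit 78) (nat_lit 0) (nat_lit 0) (XT.lf (nat_lit 152) (nat_lit 508691458) (nat_lit 0) (nat_lit 7941811) (nat_lit 76) (nat_lit 7941811) (nat_lit 182) (nat_lit 1) (nat_lit 180) (nat_lit 1) (nat_lit 181) (nat_lit 1) (nat_lit 338) (nat_lit 299) (nat_lit 263)) (XT.lf (nat_lit 0) (nat_lit 159911808) (nat_lit 0) (nat_lit 179728805) (nat_lit 152) (nat_lit 159911808) (nat_lit 180) (nat_lit 3) (nat_lit 180) (nat_lit 1) (nat_lit 182) (nat_lit 1) (nat_lit 339) (nat_lit 299) (nat_lit 262))))))) (XT.nd (nat_lit 858) (nat_lit 912) (nat_lit 0) (XT.nd (nat_lit 390) (nat_lit 456) (nat_lit 0) (XT.nd (nat_lit 156) (nat_lit 228) (nat_lit 0) (XT.nd (nat_lit 78) (nat_lit 152) (nat_lit 0) (XT.lf (nat_lit 76) (nat_lit 147421219)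 (nat_lit 0) (nat_lit 164653391) (nat_lit 76) (nat_lit 164653391) (nat_lit 180) (nat_lit 3) (nat_lit 179) (nat_lit 1) (nat_lit 180) (nat_lit 1) (nat_lit 340) (nat_lit 299) (nat_lit 261)) (XT.lf (nat_lit 152) (nat_lit 446762232) (nat_lit 0) (nat_lit 4540756) (nat_lit 76) (nat_lit 4540756) (nat_lit 179) (nat_lit 1) (nat_lit 177) (nat_lit 1) (nat_lit 178) (nat_lit 1) (nat_lit 341) (nat_lit 299) (nat_lit 260))) (XT.nd (nat_lit 78) (nat_lit 228) (nat_lit 0) (XT.lf (nat_lit 0) (nat_lit 140927314) (nat_lit 0) (nat_lit 152257746) (nat_lit 152) (nat_lit 140927314) (nat_lit 177) (nat_lit 3) (nat_lit 177) (nat_lit 1) (nat_lit 179) (nat_lit 1) (nat_lit 342) (nat_lit 299) (nat_lit 259)) (XT.nd (nat_lit 78) (nat_lit 152) (nat_lit 0) (XT.lf (nat_lit 76) (nat_lit 131535906) (nat_lit 0) (nat_lit 141388456) (nat_lit 76) (nat_lit 141388456) (nat_lit 177) (nat_lit 3) (nat_lit 176) (nat_lit 1) (nat_lit 177) (nat_lit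 1) (nat_lit 343) (nat_lit 299) (nat_lit 258)) (XT.lf (nat_lit 152) (nat_lit 391017095) (nat_lit 0) (nat_lit 2596192) (nat_lit 76) (nat_lit 2596192) (nat_lit 176) (nat_lit 1) (nat_lit 174) (nat_lit 1) (nat_lit 175) (nat_lit 1) (nat_lit 344) (nat_lit 299) (nat_lit 257))))) (XT.nd (nat_lit 234) (nat_lit 228) (nat_lit 0) (XT.nd (nat_lit 78) (nat_lit 228) (nat_lit 0) (XT.lf (nat_lit 0) (nat_lit 123616709) (nat_lit 0) (nat_lit 130094920) (nat_lit 152) (nat_lit 123616709) (nat_lit 174) (nat_lit 3) (nat_lit 174) (nat_lit 1) (nat_lit 176) (nat_lit 1) (nat_lit 345) (nat_lit 299) (nat_lit 256)) (XT.nd (nat_lit 78) (nat_lit 152) (nat_lit 0) (XT.lf (nat_lit 76) (nat_lit 116290729) (nat_lit 0) (nat_lit 121923956) (nat_lit 76) (nat_lit 121923956) (nat_lit 174) (nat_lit 3) (nat_lit 173) (nat_lit 1) (nat_lit 174) (nat_lit 1) (nat_lit 346) (nat_lit 299) (nat_lit 255)) (XT.lf (nat_lit 152) (nat_lit 341460370) (nat_lit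 0) (nat_lit 1484381) (nat_lit 76) (nat_lit 1484381) (nat_lit 173) (nat_lit 1) (nat_lit 171) (nat_lit 1) (nat_lit 172) (nat_lit 1) (nat_lit 347) (nat_lit 299) (nat_lit 254)))) (XT.nd (nat_lit 78) (nat_lit 228) (nat_lit 0) (XT.lf (nat_lit 0) (nat_lit 108105263) (nat_lit 0) (nat_lit 111809201) (nat_lit 152) (nat_lit 108105263) (nat_lit 171) (nat_lit 3) (nat_lit 171) (nat_lit 1) (nat_lit 173) (nat_lit 1) (nat_lit 348) (nat_lit 299) (nat_lit 253)) (XT.nd (nat_lit 78) (nat_lit 152) (nat_lit 0) (XT.lf (nat_lit 76) (nat_lit 102215382) (nat_lit 0) (nat_lit 105436199) (nat_lit 76) (nat_lit 105436199) (nat_lit 171) (nat_lit 3) (nat_lit 170) (nat_lit 1) (nat_lit 171) (nat_lit 1) (nat_lit 349) (nat_lit 299) (nat_lit 252)) (XT.lf (nat_lit 152) (nat_lit 297748533) (nat_lit 0) (nat_lit 848699) (nat_lit 76) (nat_lit 848699) (nat_lit 170) (nat_lit 1) (nat_lit 168) (nat_lit 1) (nat_lit 169) (nat_lit 1) (nat_lit 350)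 (nat_lit 299) (nat_lit 251)))))) (XT.nd (nat_lit 468) (nat_lit 456) (nat_lit 0) (XT.nd (nat_lit 234) (nat_lit 228) (nat_lit 0) (XT.nd (nat_lit 78) (nat_lit 228) (nat_lit 0) (XT.lf (nat_lit 0) (nat_lit 94354760) (nat_lit 0) (nat_lit 96472499) (nat_lit 152) (nat_lit 94354760) (nat_lit 168) (nat_lit 3) (nat_lit 168) (nat_lit 1) (nat_lit 170) (nat_lit 1) (nat_lit 351) (nat_lit 299) (nat_lit 250)) (XT.nd (nat_lit 78) (nat_lit 152) (nat_lit 0) (XT.lf (nat_lit 76) (nat_lit 89507873) (nat_lit 0) (nat_lit 91349385) (nat_lit 76) (nat_lit 91349385) (nat_lit 168) (nat_lit 3) (nat_lit 167) (nat_lit 1) (nat_lit 168) (nat_lit 1) (nat_lit 352) (nat_lit 299) (nat_lit 249)) (XT.lf (nat_lit 152) (nat_lit 259384306) (nat_lit 0) (nat_lit 485246) (nat_lit 76) (nat_lit 485246) (nat_lit 167) (nat_lit 1) (nat_lit 165) (nat_lit 1) (nat_lit 166) (nat_lit 1) (nat_lit 353) (nat_lit 299) (nat_lit 248)))) (XT.nd (nat_lit 78)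 (nat_lit 228) (nat_lit 0) (XT.lf (nat_lit 0) (nat_lit 82247835) (nat_lit 0) (nat_lit 83458659) (nat_lit 152) (nat_lit 82247835) (nat_lit 165) (nat_lit 3) (nat_lit 165) (nat_lit 1) (nat_lit 167) (nat_lit 1) (nat_lit 354) (nat_lit 299) (nat_lit 247)) (XT.nd (nat_lit 78) (nat_lit 152) (nat_lit 0) (XT.lf (nat_lit 76) (nat_lit 78190240) (nat_lit 0) (nat_lit 79243130) (nat_lit 76) (nat_lit 79243130) (nat_lit 165) (nat_lit 3) (nat_lit 164) (nat_lit 1) (nat_lit 165) (nat_lit 1) (nat_lit 355) (nat_lit 299) (nat_lit 246)) (XT.lf (nat_lit 152) (nat_lit 225821746) (nat_lit 0) (nat_lit 277441) (nat_lit 76) (nat_lit 277441) (nat_lit 164) (nat_lit 1) (nat_lit 162) (nat_lit 1) (nat_lit 163) (nat_lit 1) (nat_lit 356) (nat_lit 299) (nat_lit 245))))) (XT.nd (nat_lit 234) (nat_lit 228) (nat_lit 0) (XT.nd (nat_lit 78) (nat_lit 228) (nat_lit 0) (XT.lf (nat_lit 0) (nat_lit 71634332) (nat_lit 0) (nat_lit 72326625) (nat_lit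 152) (nat_lit 71634332) (nat_lit 162) (nat_lit 3) (nat_lit 162) (nat_lit 1) (nat_lit 164) (nat_lit 1) (nat_lit 357) (nat_lit 299) (nat_lit 244)) (XT.nd (nat_lit 78) (nat_lit 152) (nat_lit 0) (XT.lf (nat_lit 76) (nat_lit 68195804) (nat_lit 0) (nat_lit 68797798) (nat_lit 76) (nat_lit 68797798) (nat_lit 162) (nat_lit 3) (nat_lit 161) (nat_lit 1) (nat_lit 162) (nat_lit 1) (nat_lit 358) (nat_lit 299) (nat_lit 243)) (XT.lf (nat_lit 152) (nat_lit 196521209) (nat_lit 0) (nat_lit 158628) (nat_lit 76) (nat_lit 158628) (nat_lit 161) (nat_lit 1) (nat_lit 159) (nat_lit 1) (nat_lit 160) (nat_lit 1) (nat_lit 359) (nat_lit 299) (nat_lit 242)))) (XT.nd (nat_lit 78) (nat_lit 228) (nat_lit 0) (XT.lf (nat_lit 0) (nat_lit 62356175) (nat_lit 0) (nat_lit 62751996) (nat_lit 152) (nat_lit 62356175) (nat_lit 159) (nat_lit 3) (nat_lit 159) (nat_lit 1) (nat_lit 161) (nat_lit 1) (nat_lit 360) (nat_lit 299) (nat_lit 241)) (XT.nd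 (nat_lit 78) (nat_lit 152) (nat_lit 0) (XT.lf (nat_lit 76) (nat_lit 59417503) (nat_lit 0) (nat_lit 59761695) (nat_lit 76) (nat_lit 59761695) (nat_lit 159) (nat_lit 3) (nat_lit 158) (nat_lit 1) (nat_lit 159) (nat_lit 1) (nat_lit 361) (nat_lit 299) (nat_lit 240)) (XT.lf (nat_lit 152) (nat_lit 170976328) (nat_lit 0) (nat_lit 90696) (nat_lit 76) (nat_lit 90696) (nat_lit 158) (nat_lit 1) (nat_lit 156) (nat_lit 1) (nat_lit 157) (nat_lit 1) (nat_lit 362) (nat_lit 299) (nat_lit 239))))))))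
noncomputable def ec22 : XT := (XT.nd (nat_lit 43134) (nat_lit 0) (nat_lit 2280) (XT.nd (nat_lit 42276) (nat_lit 0) (nat_lit 3952) (XT.nd (nat_lit 390) (nat_lit 152) (nat_lit 0) (XT.nd (nat_lit 156) (nat_lit 228) (nat_lit 0) (XT.nd (nat_lit 78) (nat_lit 76) (nat_lit 0) (XT.lf (nat_lit 0) (nat_lit 54260183) (nat_lit 0) (nat_lit 54486495) (nat_lit 152) (nat_lit 54260183) (nat_lit 156) (nat_lit 3) (nat_lit 156) (nat_lit 1) (nat_lit 158) (nat_lit 1) (nat_lit 363) (nat_lit 299) (nat_lit 238)) (XT.lf (nat_lit 76) (nat_lit 51734177) (nat_lit 0) (nat_lit 51930970) (nat_lit 76) (nat_lit 51930970) (nat_lit 156) (nat_lit 3) (nat_lit 155) (nat_lit 1) (nat_lit 156) (nat_lit 1) (nat_lit 364) (nat_lit 299) (nat_lit 237))) (XT.nd (nat_lit 78) (nat_lit 76) (nat_lit 0) (XT.lf (nat_lit 152) (nat_lit 148725566) (nat_lit 0) (nat_lit 51855) (nat_lit 76) (nat_lit 51855) (nat_lit 155) (nat_lit 1) (nat_lit 153) (nat_lit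 1) (nat_lit 154) (nat_lit 1) (nat_lit 365) (nat_lit 299) (nat_lit 236)) (XT.nd (nat_lit 78) (nat_lit 76) (nat_lit 0) (XT.lf (nat_lit 0) (nat_lit 47204164) (nat_lit 0) (nat_lit 47333559) (nat_lit 152) (nat_lit 47204164) (nat_lit 153) (nat_lit 3) (nat_lit 153) (nat_lit 1) (nat_lit 155) (nat_lit 1) (nat_lit 366) (nat_lit 299) (nat_lit 235)) (XT.lf (nat_lit 76) (nat_lit 45024425) (nat_lit 0) (nat_lit 45136941) (nat_lit 76) (nat_lit 45136941) (nat_lit 153) (nat_lit 3) (nat_lit 152) (nat_lit 1) (nat_lit 153) (nat_lit 1) (nat_lit 367) (nat_lit 299) (nat_lit 234))))) (XT.nd (nat_lit 41652) (nat_lit 0) (nat_lit 4940) (XT.nd (nat_lit 78) (nat_lit 0) (nat_lit 0) (XT.lf (nat_lit 152) (nat_lit 129355451) (nat_lit 0) (nat_lit 29648) (nat_lit 76) (nat_lit 29648) (nat_lit 152) (nat_lit 1) (nat_lit 150) (nat_lit 1) (nat_lit 151) (nat_lit 1) (nat_lit 368) (nat_lit 299) (nat_lit 233)) (XT.nd (nat_lit 41496) (nat_lit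 0) (nat_lit 4940) (XT.lf (nat_lit 0) (nat_lit 41059333) (nat_lit 0) (nat_lit 41133315) (nat_lit 152) (nat_lit 41059333) (nat_lit 150) (nat_lit 3) (nat_lit 150) (nat_lit 1) (nat_lit 152) (nat_lit 1) (nat_lit 369) (nat_lit 299) (nat_lit 232)) (XT.lf (nat_lit 380) (nat_lit 701656314) (nat_lit 0) (nat_lit 621474266) (nat_lit 380) (nat_lit 701656314) (nat_lit 220) (nat_lit 1) (nat_lit 215) (nat_lit 0) (nat_lit 220) (nat_lit 0) (nat_lit 300) (nat_lit 300) (nat_lit 300)))) (XT.nd (nat_lit 78) (nat_lit 0) (nat_lit 76) (XT.lf (nat_lit 380) (nat_lit 2595335650) (nat_lit 76) (nat_lit 593225436) (nat_lit 0) (nat_lit 593225436) (nat_lit 220) (nat_lit 1) (nat_lit 216) (nat_lit 1) (nat_lit 215) (nat_lit 0) (nat_lit 301) (nat_lit 300) (nat_lit 299)) (XT.nd (nat_lit 78) (nat_lit 0) (nat_lit 0) (XT.lf (nat_lit 380) (nat_lit 1144009072) (nat_lit 0) (nat_lit 1244789787) (nat_lit 304) (nat_lit 1144009072) (nat_lit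 221) (nat_lit 1) (nat_lit 216) (nat_lit 1) (nat_lit 220) (nat_lit 1) (nat_lit 302) (nat_lit 300) (nat_lit 298)) (XT.lf (nat_lit 380) (nat_lit 1964204177) (nat_lit 76) (nat_lit 672360227) (nat_lit 0) (nat_lit 672360227) (nat_lit 221) (nat_lit 1) (nat_lit 217) (nat_lit 1) (nat_lit 216) (nat_lit 1) (nat_lit 303) (nat_lit 300) (nat_lit 297)))))) (XT.nd (nat_lit 390) (nat_lit 456) (nat_lit 0) (XT.nd (nat_lit 156) (nat_lit 380) (nat_lit 0) (XT.nd (nat_lit 78) (nat_lit 304) (nat_lit 0) (XT.lf (nat_lit 76) (nat_lit 794546640) (nat_lit 0) (nat_lit 1512950194) (nat_lit 304) (nat_lit 794546640) (nat_lit 218) (nat_lit 1) (nat_lit 217) (nat_lit 1) (nat_lit 221) (nat_lit 1) (nat_lit 304) (nat_lit 300) (nat_lit 296)) (XT.lf (nat_lit 380) (nat_lit 1194139430) (nat_lit 0) (nat_lit 859518663) (nat_lit 304) (nat_lit 859518663) (nat_lit 218) (nat_lit 1) (nat_lit 213) (nat_lit 1) (nat_lit 217) (nat_lit 1) (nat_lit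 305) (nat_lit 300) (nat_lit 295))) (XT.nd (nat_lit 78) (nat_lit 380) (nat_lit 0) (XT.lf (nat_lit 76) (nat_lit 396918758) (nat_lit 0) (nat_lit 1947690296) (nat_lit 380) (nat_lit 396918758) (nat_lit 214) (nat_lit 1) (nat_lit 213) (nat_lit 1) (nat_lit 218) (nat_lit 1) (nat_lit 306) (nat_lit 300) (nat_lit 294)) (XT.nd (nat_lit 78) (nat_lit 228) (nat_lit 0) (XT.lf (nat_lit 228) (nat_lit 357217519) (nat_lit 0) (nat_lit 1111751386) (nat_lit 152) (nat_lit 1111751386) (nat_lit 214) (nat_lit 1) (nat_lit 211) (nat_lit 1) (nat_lit 213) (nat_lit 1) (nat_lit 307) (nat_lit 300) (nat_lit 293)) (XT.lf (nat_lit 228) (nat_lit 2400497236) (nat_lit 0) (nat_lit 18834328) (nat_lit 152) (nat_lit 18834328) (nat_lit 211) (nat_lit 1) (nat_lit 208) (nat_lit 1) (nat_lit 210) (nat_lit 1) (nat_lit 308) (nat_lit 300) (nat_lit 292))))) (XT.nd (nat_lit 234) (nat_lit 304) (nat_lit 0) (XT.nd (nat_lit 78) (nat_lit 152) (nat_lit 0)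 (XT.lf (nat_lit 76) (nat_lit 922286381) (nat_lit 0) (nat_lit 452793520) (nat_lit 228) (nat_lit 922286381) (nat_lit 209) (nat_lit 1) (nat_lit 208) (nat_lit 1) (nat_lit 211) (nat_lit 1) (nat_lit 309) (nat_lit 300) (nat_lit 291)) (XT.nd (nat_lit 78) (nat_lit 0) (nat_lit 0) (XT.lf (nat_lit 228) (nat_lit 1340578654) (nat_lit 0) (nat_lit 415834320) (nat_lit 152) (nat_lit 415834320) (nat_lit 209) (nat_lit 1) (nat_lit 206) (nat_lit 1) (nat_lit 208) (nat_lit 1) (nat_lit 310) (nat_lit 300) (nat_lit 290)) (XT.lf (nat_lit 76) (nat_lit 419242914) (nat_lit 0) (nat_lit 1216635770) (nat_lit 228) (nat_lit 419242914) (nat_lit 207) (nat_lit 1) (nat_lit 206) (nat_lit 1) (nat_lit 209) (nat_lit 1) (nat_lit 311) (nat_lit 300) (nat_lit 289)))) (XT.nd (nat_lit 78) (nat_lit 228) (nat_lit 0) (XT.lf (nat_lit 152) (nat_lit 346581745) (nat_lit 0) (nat_lit 799739083) (nat_lit 76) (nat_lit 799739083) (nat_lit 207) (nat_lit 1)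 (nat_lit 205) (nat_lit 1) (nat_lit 206) (nat_lit 1) (nat_lit 312) (nat_lit 300) (nat_lit 288)) (XT.nd (nat_lit 78) (nat_lit 0) (nat_lit 0) (XT.lf (nat_lit 228) (nat_lit 1754600525) (nat_lit 0) (nat_lit 46612758) (nat_lit 152) (nat_lit 46612758) (nat_lit 205) (nat_lit 1) (nat_lit 202) (nat_lit 1) (nat_lit 204) (nat_lit 1) (nat_lit 313) (nat_lit 300) (nat_lit 287)) (XT.lf (nat_lit 76) (nat_lit 614072447) (nat_lit 0) (nat_lit 521490357) (nat_lit 228) (nat_lit 614072447) (nat_lit 203) (nat_lit 1) (nat_lit 202) (nat_lit 1) (nat_lit 205) (nat_lit 1) (nat_lit 314) (nat_lit 300) (nat_lit 286))))))) (XT.nd (nat_lit 858) (nat_lit 912) (nat_lit 0) (XT.nd (nat_lit 390) (nat_lit 456) (nat_lit 0) (XT.nd (nat_lit 156) (nat_lit 228) (nat_lit 0) (XT.nd (nat_lit 78) (nat_lit 0) (nat_lit 0) (XT.lf (nat_lit 152) (nat_lit 746653281) (nat_lit 0) (nat_lit 457253416) (nat_lit 76) (nat_lit 457253416) (nat_lit 203) (nat_lit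 1) (nat_lit 201) (nat_lit 1) (nat_lit 202) (nat_lit 1) (nat_lit 315) (nat_lit 300) (nat_lit 285)) (XT.lf (nat_lit 0) (nat_lit 146205001) (nat_lit 0) (nat_lit 1287177609) (nat_lit 152) (nat_lit 146205001) (nat_lit 201) (nat_lit 3) (nat_lit 201) (nat_lit 1) (nat_lit 203) (nat_lit 1) (nat_lit 316) (nat_lit 300) (nat_lit 284))) (XT.nd (nat_lit 78) (nat_lit 76) (nat_lit 0) (XT.lf (nat_lit 76) (nat_lit 676636132) (nat_lit 0) (nat_lit 146750679) (nat_lit 152) (nat_lit 676636132) (nat_lit 200) (nat_lit 1) (nat_lit 199) (nat_lit 1) (nat_lit 201) (nat_lit 1) (nat_lit 317) (nat_lit 300) (nat_lit 283)) (XT.nd (nat_lit 78) (nat_lit 0) (nat_lit 0) (XT.lf (nat_lit 152) (nat_lit 903852778) (nat_lit 0) (nat_lit 261436124) (nat_lit 76) (nat_lit 261436124) (nat_lit 200) (nat_lit 1) (nat_lit 198) (nat_lit 1) (nat_lit 199) (nat_lit 1) (nat_lit 318) (nat_lit 300) (nat_lit 282)) (XT.lf (nat_lit 0) (nat_lit 235006308)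 (nat_lit 0) (nat_lit 887361100) (nat_lit 152) (nat_lit 235006308) (nat_lit 198) (nat_lit 3) (nat_lit 198) (nat_lit 1) (nat_lit 200) (nat_lit 1) (nat_lit 319) (nat_lit 300) (nat_lit 281))))) (XT.nd (nat_lit 234) (nat_lit 228) (nat_lit 0) (XT.nd (nat_lit 78) (nat_lit 152) (nat_lit 0) (XT.lf (nat_lit 76) (nat_lit 52425707) (nat_lit 0) (nat_lit 619690744) (nat_lit 76) (nat_lit 619690744) (nat_lit 198) (nat_lit 3) (nat_lit 197) (nat_lit 1) (nat_lit 198) (nat_lit 1) (nat_lit 320) (nat_lit 300) (nat_lit 280)) (XT.nd (nat_lit 78) (nat_lit 0) (nat_lit 0) (XT.lf (nat_lit 152) (nat_lit 931521056) (nat_lit 0) (nat_lit 149476952) (nat_lit 76) (nat_lit 149476952) (nat_lit 197) (nat_lit 1) (nat_lit 195) (nat_lit 1) (nat_lit 196) (nat_lit 1) (nat_lit 321) (nat_lit 300) (nat_lit 279)) (XT.lf (nat_lit 0) (nat_lit 266029206) (nat_lit 0) (nat_lit 639015175) (nat_lit 152) (nat_lit 266029206) (nat_lit 195) (nat_lit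 3) (nat_lit 195) (nat_lit 1) (nat_lit 197) (nat_lit 1) (nat_lit 322) (nat_lit 300) (nat_lit 278)))) (XT.nd (nat_lit 78) (nat_lit 152) (nat_lit 0) (XT.lf (nat_lit 76) (nat_lit 155653446) (nat_lit 0) (nat_lit 479989072) (nat_lit 76) (nat_lit 479989072) (nat_lit 195) (nat_lit 3) (nat_lit 194) (nat_lit 1) (nat_lit 195) (nat_lit 1) (nat_lit 323) (nat_lit 300) (nat_lit 277)) (XT.nd (nat_lit 78) (nat_lit 0) (nat_lit 0) (XT.lf (nat_lit 152) (nat_lit 893243924) (nat_lit 0) (nat_lit 85463932) (nat_lit 76) (nat_lit 85463932) (nat_lit 194) (nat_lit 1) (nat_lit 192) (nat_lit 1) (nat_lit 193) (nat_lit 1) (nat_lit 324) (nat_lit 300) (nat_lit 276)) (XT.lf (nat_lit 0) (nat_lit 266593137) (nat_lit 0) (nat_lit 479849075) (nat_lit 152) (nat_lit 266593137) (nat_lit 192) (nat_lit 3) (nat_lit 192) (nat_lit 1) (nat_lit 194) (nat_lit 1) (nat_lit 325) (nat_lit 300) (nat_lit 275)))))) (XT.nd (nat_lit 390) (nat_lit 456) (nat_lit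 0) (XT.nd (nat_lit 156) (nat_lit 228) (nat_lit 0) (XT.nd (nat_lit 78) (nat_lit 152) (nat_lit 0) (XT.lf (nat_lit 76) (nat_lit 198281344) (nat_lit 0) (nat_lit 383721290) (nat_lit 76) (nat_lit 383721290) (nat_lit 192) (nat_lit 3) (nat_lit 191) (nat_lit 1) (nat_lit 192) (nat_lit 1) (nat_lit 326) (nat_lit 300) (nat_lit 274)) (XT.lf (nat_lit 152) (nat_lit 824318362) (nat_lit 0) (nat_lit 48864281) (nat_lit 76) (nat_lit 48864281) (nat_lit 191) (nat_lit 1) (nat_lit 189) (nat_lit 1) (nat_lit 190) (nat_lit 1) (nat_lit 327) (nat_lit 300) (nat_lit 273))) (XT.nd (nat_lit 78) (nat_lit 228) (nat_lit 0) (XT.lf (nat_lit 0) (nat_lit 251982078) (nat_lit 0) (nat_lit 373911853) (nat_lit 152) (nat_lit 251982078) (nat_lit 189) (nat_lit 3) (nat_lit 189) (nat_lit 1) (nat_lit 191) (nat_lit 1) (nat_lit 328) (nat_lit 300) (nat_lit 272)) (XT.nd (nat_lit 78) (nat_lit 152) (nat_lit 0) (XT.lf (nat_lit 76) (nat_lit 208399289) (nat_lit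 0) (nat_lit 314425181) (nat_lit 76) (nat_lit 314425181) (nat_lit 189) (nat_lit 3) (nat_lit 188) (nat_lit 1) (nat_lit 189) (nat_lit 1) (nat_lit 329) (nat_lit 300) (nat_lit 271)) (XT.lf (nat_lit 152) (nat_lit 744005176) (nat_lit 0) (nat_lit 27938311) (nat_lit 76) (nat_lit 27938311) (nat_lit 188) (nat_lit 1) (nat_lit 186) (nat_lit 1) (nat_lit 187) (nat_lit 1) (nat_lit 330) (nat_lit 300) (nat_lit 270))))) (XT.nd (nat_lit 234) (nat_lit 228) (nat_lit 0) (XT.nd (nat_lit 78) (nat_lit 228) (nat_lit 0) (XT.lf (nat_lit 0) (nat_lit 230642516) (nat_lit 0) (nat_lit 300356261) (nat_lit 152) (nat_lit 230642516) (nat_lit 186) (nat_lit 3) (nat_lit 186) (nat_lit 1) (nat_lit 188) (nat_lit 1) (nat_lit 331) (nat_lit 300) (nat_lit 269)) (XT.nd (nat_lit 78) (nat_lit 152) (nat_lit 0) (XT.lf (nat_lit 76) (nat_lit 201788872) (nat_lit 0) (nat_lit 262409520) (nat_lit 76) (nat_lit 262409520) (nat_lit 186) (nat_lit 3) (nat_lit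 185) (nat_lit 1) (nat_lit 186) (nat_lit 1) (nat_lit 332) (nat_lit 300) (nat_lit 268)) (XT.lf (nat_lit 152) (nat_lit 662516485) (nat_lit 0) (nat_lit 15973820) (nat_lit 76) (nat_lit 15973820) (nat_lit 185) (nat_lit 1) (nat_lit 183) (nat_lit 1) (nat_lit 184) (nat_lit 1) (nat_lit 333) (nat_lit 300) (nat_lit 267)))) (XT.nd (nat_lit 78) (nat_lit 228) (nat_lit 0) (XT.lf (nat_lit 0) (nat_lit 207149690) (nat_lit 0) (nat_lit 247008749) (nat_lit 152) (nat_lit 207149690) (nat_lit 183) (nat_lit 3) (nat_lit 183) (nat_lit 1) (nat_lit 185) (nat_lit 1) (nat_lit 334) (nat_lit 300) (nat_lit 266)) (XT.nd (nat_lit 78) (nat_lit 152) (nat_lit 0) (XT.lf (nat_lit 76) (nat_lit 187230749) (nat_lit 0) (nat_lit 221890801) (nat_lit 76) (nat_lit 221890801) (nat_lit 183) (nat_lit 3) (nat_lit 182) (nat_lit 1) (nat_lit 183) (nat_lit 1) (nat_lit 335) (nat_lit 300) (nat_lit 265)) (XT.lf (nat_lit 152) (nat_lit 584995177) (nat_lit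 0) (nat_lit 9133083) (nat_lit 76) (nat_lit 9133083) (nat_lit 182) (nat_lit 1) (nat_lit 180) (nat_lit 1) (nat_lit 181) (nat_lit 1) (nat_lit 336) (nat_lit 300) (nat_lit 264))))))))
noncomputable def ec23 : XT := (XT.nd (nat_lit 1716) (nat_lit 912) (nat_lit 0) (XT.nd (nat_lit 858) (nat_lit 836) (nat_lit 0) (XT.nd (nat_lit 390) (nat_lit 456) (nat_lit 0) (XT.nd (nat_lit 156) (nat_lit 228) (nat_lit 0) (XT.nd (nat_lit 78) (nat_lit 76) (nat_lit 0) (XT.lf (nat_lit 0) (nat_lit 183898579) (nat_lit 0) (nat_lit 206688126) (nat_lit 152) (nat_lit 183898579) (nat_lit 180) (nat_lit 3) (nat_lit 180) (nat_lit 1) (nat_lit 182) (nat_lit 1) (nat_lit 337) (nat_lit 300) (nat_lit 263)) (XT.lf (nat_lit 76) (nat_lit 169534402) (nat_lit 0) (nat_lit 189351399) (nat_lit 76) (nat_lit 189351399) (nat_lit 180) (nat_lit 3) (nat_lit 179) (nat_lit 1) (nat_lit 180) (nat_lit 1) (nat_lit 338) (nat_lit 300) (nat_lit 262))) (XT.nd (nat_lit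 78) (nat_lit 76) (nat_lit 0) (XT.lf (nat_lit 152) (nat_lit 513776567) (nat_lit 0) (nat_lit 5221870) (nat_lit 76) (nat_lit 5221870) (nat_lit 179) (nat_lit 1) (nat_lit 177) (nat_lit 1) (nat_lit 178) (nat_lit 1) (nat_lit 339) (nat_lit 300) (nat_lit 261)) (XT.nd (nat_lit 78) (nat_lit 76) (nat_lit 0) (XT.lf (nat_lit 0) (nat_lit 162066411) (nat_lit 0) (nat_lit 175096408) (nat_lit 152) (nat_lit 162066411) (nat_lit 177) (nat_lit 3) (nat_lit 177) (nat_lit 1) (nat_lit 179) (nat_lit 1) (nat_lit 340) (nat_lit 300) (nat_lit 260)) (XT.lf (nat_lit 76) (nat_lit 151266292) (nat_lit 0) (nat_lit 162596724) (nat_lit 76) (nat_lit 162596724) (nat_lit 177) (nat_lit 3) (nat_lit 176) (nat_lit 1) (nat_lit 177) (nat_lit 1) (nat_lit 341) (nat_lit 300) (nat_lit 259))))) (XT.nd (nat_lit 234) (nat_lit 228) (nat_lit 0) (XT.nd (nat_lit 78) (nat_lit 76) (nat_lit 0) (XT.lf (nat_lit 152) (nat_lit 449669659) (nat_lit 0) (nat_lit 2985621)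 (nat_lit 76) (nat_lit 2985621) (nat_lit 176) (nat_lit 1) (nat_lit 174) (nat_lit 1) (nat_lit 175) (nat_lit 1) (nat_lit 342) (nat_lit 300) (nat_lit 258)) (XT.nd (nat_lit 78) (nat_lit 76) (nat_lit 0) (XT.lf (nat_lit 0) (nat_lit 142159215) (nat_lit 0) (nat_lit 149609159) (nat_lit 152) (nat_lit 142159215) (nat_lit 174) (nat_lit 3) (nat_lit 174) (nat_lit 1) (nat_lit 176) (nat_lit 1) (nat_lit 343) (nat_lit 300) (nat_lit 257)) (XT.lf (nat_lit 76) (nat_lit 133734338) (nat_lit 0) (nat_lit 140212550) (nat_lit 76) (nat_lit 140212550) (nat_lit 174) (nat_lit 3) (nat_lit 173) (nat_lit 1) (nat_lit 174) (nat_lit 1) (nat_lit 344) (nat_lit 300) (nat_lit 256)))) (XT.nd (nat_lit 78) (nat_lit 76) (nat_lit 0) (XT.lf (nat_lit 152) (nat_lit 392679426) (nat_lit 0) (nat_lit 1707038) (nat_lit 76) (nat_lit 1707038) (nat_lit 173) (nat_lit 1) (nat_lit 171) (nat_lit 1) (nat_lit 172) (nat_lit 1) (nat_lit 345) (nat_lit 300) (nat_lit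 255)) (XT.nd (nat_lit 78) (nat_lit 76) (nat_lit 0) (XT.lf (nat_lit 0) (nat_lit 124321052) (nat_lit 0) (nat_lit 128580582) (nat_lit 152) (nat_lit 124321052) (nat_lit 171) (nat_lit 3) (nat_lit 171) (nat_lit 1) (nat_lit 173) (nat_lit 1) (nat_lit 346) (nat_lit 300) (nat_lit 254)) (XT.lf (nat_lit 76) (nat_lit 117547690) (nat_lit 0) (nat_lit 121251628) (nat_lit 76) (nat_lit 121251628) (nat_lit 171) (nat_lit 3) (nat_lit 170) (nat_lit 1) (nat_lit 171) (nat_lit 1) (nat_lit 347) (nat_lit 300) (nat_lit 253)))))) (XT.nd (nat_lit 390) (nat_lit 456) (nat_lit 0) (XT.nd (nat_lit 156) (nat_lit 228) (nat_lit 0) (XT.nd (nat_lit 78) (nat_lit 0) (nat_lit 0) (XT.lf (nat_lit 152) (nat_lit 342410813) (nat_lit 0) (nat_lit 976004) (nat_lit 76) (nat_lit 976004) (nat_lit 170) (nat_lit 1) (nat_lit 168) (nat_lit 1) (nat_lit 169) (nat_lit 1) (nat_lit 348) (nat_lit 300) (nat_lit 252)) (XT.lf (nat_lit 0) (nat_lit 108507974) (nat_lit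 0) (nat_lit 110943373) (nat_lit 152) (nat_lit 108507974) (nat_lit 168) (nat_lit 3) (nat_lit 168) (nat_lit 1) (nat_lit 170) (nat_lit 1) (nat_lit 349) (nat_lit 300) (nat_lit 251))) (XT.nd (nat_lit 78) (nat_lit 152) (nat_lit 0) (XT.lf (nat_lit 76) (nat_lit 102934054) (nat_lit 0) (nat_lit 105051793) (nat_lit 76) (nat_lit 105051793) (nat_lit 168) (nat_lit 3) (nat_lit 167) (nat_lit 1) (nat_lit 168) (nat_lit 1) (nat_lit 350) (nat_lit 300) (nat_lit 250)) (XT.nd (nat_lit 78) (nat_lit 0) (nat_lit 0) (XT.lf (nat_lit 152) (nat_lit 298291952) (nat_lit 0) (nat_lit 558033) (nat_lit 76) (nat_lit 558033) (nat_lit 167) (nat_lit 1) (nat_lit 165) (nat_lit 1) (nat_lit 166) (nat_lit 1) (nat_lit 351) (nat_lit 300) (nat_lit 249)) (XT.lf (nat_lit 0) (nat_lit 94585011) (nat_lit 0) (nat_lit 95977458) (nat_lit 152) (nat_lit 94585011) (nat_lit 165) (nat_lit 3) (nat_lit 165) (nat_lit 1) (nat_lit 167) (nat_lit 1) (nat_lit 352)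 (nat_lit 300) (nat_lit 248))))) (XT.nd (nat_lit 234) (nat_lit 228) (nat_lit 0) (XT.nd (nat_lit 78) (nat_lit 152) (nat_lit 0) (XT.lf (nat_lit 76) (nat_lit 89918776) (nat_lit 0) (nat_lit 91129600) (nat_lit 76) (nat_lit 91129600) (nat_lit 165) (nat_lit 3) (nat_lit 164) (nat_lit 1) (nat_lit 165) (nat_lit 1) (nat_lit 353) (nat_lit 300) (nat_lit 247)) (XT.nd (nat_lit 78) (nat_lit 0) (nat_lit 0) (XT.lf (nat_lit 152) (nat_lit 259695008) (nat_lit 0) (nat_lit 319057) (nat_lit 76) (nat_lit 319057) (nat_lit 164) (nat_lit 1) (nat_lit 162) (nat_lit 1) (nat_lit 163) (nat_lit 1) (nat_lit 354) (nat_lit 300) (nat_lit 246)) (XT.lf (nat_lit 0) (nat_lit 82379482) (nat_lit 0) (nat_lit 83175619) (nat_lit 152) (nat_lit 82379482) (nat_lit 162) (nat_lit 3) (nat_lit 162) (nat_lit 1) (nat_lit 164) (nat_lit 1) (nat_lit 355) (nat_lit 300) (nat_lit 245)))) (XT.nd (nat_lit 78) (nat_lit 152) (nat_lit 0) (XT.lf (nat_lit 76) (nat_lit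 78425175) (nat_lit 0) (nat_lit 79117467) (nat_lit 76) (nat_lit 79117467) (nat_lit 162) (nat_lit 3) (nat_lit 161) (nat_lit 1) (nat_lit 162) (nat_lit 1) (nat_lit 356) (nat_lit 300) (nat_lit 244)) (XT.nd (nat_lit 78) (nat_lit 0) (nat_lit 0) (XT.lf (nat_lit 152) (nat_lit 225999390) (nat_lit 0) (nat_lit 182422) (nat_lit 76) (nat_lit 182422) (nat_lit 161) (nat_lit 1) (nat_lit 159) (nat_lit 1) (nat_lit 160) (nat_lit 1) (nat_lit 357) (nat_lit 300) (nat_lit 243)) (XT.lf (nat_lit 0) (nat_lit 71709602) (nat_lit 0) (nat_lit 72164795) (nat_lit 152) (nat_lit 71709602) (nat_lit 159) (nat_lit 3) (nat_lit 159) (nat_lit 1) (nat_lit 161) (nat_lit 1) (nat_lit 358) (nat_lit 300) (nat_lit 242))))))) (XT.nd (nat_lit 42120) (nat_lit 0) (nat_lit 4484) (XT.nd (nat_lit 390) (nat_lit 456) (nat_lit 0) (XT.nd (nat_lit 156) (nat_lit 228) (nat_lit 0) (XT.nd (nat_lit 78) (nat_lit 152) (nat_lit 0) (XT.lf (nat_lit 76) (nat_lit 68330129)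 (nat_lit 0) (nat_lit 68725949) (nat_lit 76) (nat_lit 68725949) (nat_lit 159) (nat_lit 3) (nat_lit 158) (nat_lit 1) (nat_lit 159) (nat_lit 1) (nat_lit 359) (nat_lit 300) (nat_lit 241)) (XT.lf (nat_lit 152) (nat_lit 196622778) (nat_lit 0) (nat_lit 104300) (nat_lit 76) (nat_lit 104300) (nat_lit 158) (nat_lit 1) (nat_lit 156) (nat_lit 1) (nat_lit 157) (nat_lit 1) (nat_lit 360) (nat_lit 300) (nat_lit 240))) (XT.nd (nat_lit 78) (nat_lit 228) (nat_lit 0) (XT.lf (nat_lit 0) (nat_lit 62399211) (nat_lit 0) (nat_lit 62659469) (nat_lit 152) (nat_lit 62399211) (nat_lit 156) (nat_lit 3) (nat_lit 156) (nat_lit 1) (nat_lit 158) (nat_lit 1) (nat_lit 361) (nat_lit 300) (nat_lit 239)) (XT.nd (nat_lit 78) (nat_lit 152) (nat_lit 0) (XT.lf (nat_lit 76) (nat_lit 59494304) (nat_lit 0) (nat_lit 59720616) (nat_lit 76) (nat_lit 59720616) (nat_lit 156) (nat_lit 3) (nat_lit 155) (nat_lit 1) (nat_lit 156) (nat_lit 1) (nat_lit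 362) (nat_lit 300) (nat_lit 238)) (XT.lf (nat_lit 152) (nat_lit 171034401) (nat_lit 0) (nat_lit 59634) (nat_lit 76) (nat_lit 59634) (nat_lit 155) (nat_lit 1) (nat_lit 153) (nat_lit 1) (nat_lit 154) (nat_lit 1) (nat_lit 363) (nat_lit 300) (nat_lit 237))))) (XT.nd (nat_lit 234) (nat_lit 228) (nat_lit 0) (XT.nd (nat_lit 78) (nat_lit 228) (nat_lit 0) (XT.lf (nat_lit 0) (nat_lit 54284789) (nat_lit 0) (nat_lit 54433593) (nat_lit 152) (nat_lit 54284789) (nat_lit 153) (nat_lit 3) (nat_lit 153) (nat_lit 1) (nat_lit 155) (nat_lit 1) (nat_lit 364) (nat_lit 300) (nat_lit 236)) (XT.nd (nat_lit 78) (nat_lit 152) (nat_lit 0) (XT.lf (nat_lit 76) (nat_lit 51778088) (nat_lit 0) (nat_lit 51907483) (nat_lit 76) (nat_lit 51907483) (nat_lit 153) (nat_lit 3) (nat_lit 152) (nat_lit 1) (nat_lit 153) (nat_lit 1) (nat_lit 365) (nat_lit 300) (nat_lit 235)) (XT.lf (nat_lit 152) (nat_lit 148758769) (nat_lit 0) (nat_lit 34096)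 (nat_lit 76) (nat_lit 34096) (nat_lit 152) (nat_lit 1) (nat_lit 150) (nat_lit 1) (nat_lit 151) (nat_lit 1) (nat_lit 366) (nat_lit 300) (nat_lit 234)))) (XT.nd (nat_lit 78) (nat_lit 228) (nat_lit 0) (XT.lf (nat_lit 0) (nat_lit 47218233) (nat_lit 0) (nat_lit 47303312) (nat_lit 152) (nat_lit 47218233) (nat_lit 150) (nat_lit 3) (nat_lit 150) (nat_lit 1) (nat_lit 152) (nat_lit 1) (nat_lit 367) (nat_lit 300) (nat_lit 233)) (XT.nd (nat_lit 78) (nat_lit 152) (nat_lit 0) (XT.lf (nat_lit 76) (nat_lit 45049531) (nat_lit 0) (nat_lit 45123513) (nat_lit 76) (nat_lit 45123513) (nat_lit 150) (nat_lit 3) (nat_lit 149) (nat_lit 1) (nat_lit 150) (nat_lit 1) (nat_lit 368) (nat_lit 300) (nat_lit 232)) (XT.lf (nat_lit 152) (nat_lit 129374435) (nat_lit 0) (nat_lit 19494) (nat_lit 76) (nat_lit 19494) (nat_lit 149) (nat_lit 1) (nat_lit 147) (nat_lit 1) (nat_lit 148) (nat_lit 1) (nat_lit 369) (nat_lit 300) (nat_lit 231))))))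 (XT.nd (nat_lit 468) (nat_lit 532) (nat_lit 0) (XT.nd (nat_lit 234) (nat_lit 152) (nat_lit 0) (XT.nd (nat_lit 78) (nat_lit 0) (nat_lit 0) (XT.lf (nat_lit 380) (nat_lit 806904761) (nat_lit 0) (nat_lit 714695406) (nat_lit 380) (nat_lit 806904761) (nat_lit 220) (nat_lit 1) (nat_lit 215) (nat_lit 0) (nat_lit 220) (nat_lit 0) (nat_lit 298) (nat_lit 301) (nat_lit 301)) (XT.nd (nat_lit 78) (nat_lit 0) (nat_lit 76) (XT.lf (nat_lit 380) (nat_lit 2984635998) (nat_lit 76) (nat_lit 682209251) (nat_lit 0) (nat_lit 682209251) (nat_lit 220) (nat_lit 1) (nat_lit 216) (nat_lit 1) (nat_lit 215) (nat_lit 0) (nat_lit 299) (nat_lit 301) (nat_lit 300)) (XT.lf (nat_lit 380) (nat_lit 1315610433) (nat_lit 0) (nat_lit 1431508255) (nat_lit 304) (nat_lit 1315610433) (nat_lit 221) (nat_lit 1) (nat_lit 216) (nat_lit 1) (nat_lit 220) (nat_lit 1) (nat_lit 300) (nat_lit 301) (nat_lit 299)))) (XT.nd (nat_lit 78) (nat_lit 228) (nat_lit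 0) (XT.lf (nat_lit 380) (nat_lit 2258834803) (nat_lit 76) (nat_lit 773214261) (nat_lit 0) (nat_lit 773214261) (nat_lit 221) (nat_lit 1) (nat_lit 217) (nat_lit 1) (nat_lit 216) (nat_lit 1) (nat_lit 301) (nat_lit 301) (nat_lit 298)) (XT.nd (nat_lit 78) (nat_lit 304) (nat_lit 0) (XT.lf (nat_lit 76) (nat_lit 913728636) (nat_lit 0) (nat_lit 1739892723) (nat_lit 304) (nat_lit 913728636) (nat_lit 218) (nat_lit 1) (nat_lit 217) (nat_lit 1) (nat_lit 221) (nat_lit 1) (nat_lit 302) (nat_lit 301) (nat_lit 297)) (XT.lf (nat_lit 380) (nat_lit 1373260345) (nat_lit 0) (nat_lit 988446463) (nat_lit 304) (nat_lit 988446463) (nat_lit 218) (nat_lit 1) (nat_lit 213) (nat_lit 1) (nat_lit 217) (nat_lit 1) (nat_lit 303) (nat_lit 301) (nat_lit 296))))) (XT.nd (nat_lit 234) (nat_lit 152) (nat_lit 0) (XT.nd (nat_lit 78) (nat_lit 380) (nat_lit 0) (XT.lf (nat_lit 76) (nat_lit 456456572) (nat_lit 0) (nat_lit 2239843841) (nat_lit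 380) (nat_lit 456456572) (nat_lit 214) (nat_lit 1) (nat_lit 213) (nat_lit 1) (nat_lit 218) (nat_lit 1) (nat_lit 304) (nat_lit 301) (nat_lit 295)) (XT.nd (nat_lit 78) (nat_lit 228) (nat_lit 0) (XT.lf (nat_lit 228) (nat_lit 410800147) (nat_lit 0) (nat_lit 1278514094) (nat_lit 152) (nat_lit 1278514094) (nat_lit 214) (nat_lit 1) (nat_lit 211) (nat_lit 1) (nat_lit 213) (nat_lit 1) (nat_lit 305) (nat_lit 301) (nat_lit 294)) (XT.lf (nat_lit 228) (nat_lit 2760571822) (nat_lit 0) (nat_lit 21659477) (nat_lit 152) (nat_lit 21659477) (nat_lit 211) (nat_lit 1) (nat_lit 208) (nat_lit 1) (nat_lit 210) (nat_lit 1) (nat_lit 306) (nat_lit 301) (nat_lit 293)))) (XT.nd (nat_lit 78) (nat_lit 152) (nat_lit 0) (XT.lf (nat_lit 76) (nat_lit 1060629339) (nat_lit 0) (nat_lit 520712548) (nat_lit 228) (nat_lit 1060629339) (nat_lit 209) (nat_lit 1) (nat_lit 208) (nat_lit 1) (nat_lit 211) (nat_lit 1) (nat_lit 307) (nat_lit 301)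 (nat_lit 292)) (XT.nd (nat_lit 78) (nat_lit 0) (nat_lit 0) (XT.lf (nat_lit 228) (nat_lit 1541665452) (nat_lit 0) (nat_lit 478209468) (nat_lit 152) (nat_lit 478209468) (nat_lit 209) (nat_lit 1) (nat_lit 206) (nat_lit 1) (nat_lit 208) (nat_lit 1) (nat_lit 308) (nat_lit 301) (nat_lit 291)) (XT.lf (nat_lit 76) (nat_lit 482129351) (nat_lit 0) (nat_lit 1399131135) (nat_lit 228) (nat_lit 482129351) (nat_lit 207) (nat_lit 1) (nat_lit 206) (nat_lit 1) (nat_lit 209) (nat_lit 1) (nat_lit 309) (nat_lit 301) (nat_lit 290))))))))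
noncomputable def ec24 : XT := (XT.nd (nat_lit 1716) (nat_lit 1596) (nat_lit 0) (XT.nd (nat_lit 858) (nat_lit 912) (nat_lit 0) (XT.nd (nat_lit 390) (nat_lit 456) (nat_lit 0) (XT.nd (nat_lit 156) (nat_lit 76) (nat_lit 0) (XT.nd (nat_lit 78) (nat_lit 228) (nat_lit 0) (XT.lf (nat_lit 152) (nat_lit 398569007) (nat_lit 0) (nat_lit 919699945) (nat_lit 76) (nat_lit 919699945) (nat_lit 207) (nat_lit 1) (nat_lit 205) (nat_lit 1) (nat_lit 206) (nat_lit 1) (nat_lit 310) (nat_lit 301) (nat_lit 289)) (XT.lf (nat_lit 228) (nat_lit 2017790604) (nat_lit 0) (nat_lit 53604672) (nat_lit 152) (nat_lit 53604672) (nat_lit 205) (nat_lit 1) (nat_lit 202) (nat_lit 1) (nat_lit 204) (nat_lit 1) (nat_lit 311) (nat_lit 301) (nat_lit 288))) (XT.nd (nat_lit 78) (nat_lit 76) (nat_lit 0) (XT.lf (nat_lit 76) (nat_lit 706183314) (nat_lit 0) (nat_lit 599713910) (nat_lit 228) (nat_lit 706183314) (nat_lit 203) (nat_lit 1) (nat_lit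 202) (nat_lit 1) (nat_lit 205) (nat_lit 1) (nat_lit 312) (nat_lit 301) (nat_lit 287)) (XT.nd (nat_lit 78) (nat_lit 0) (nat_lit 0) (XT.lf (nat_lit 152) (nat_lit 858651273) (nat_lit 0) (nat_lit 525841428) (nat_lit 76) (nat_lit 525841428) (nat_lit 203) (nat_lit 1) (nat_lit 201) (nat_lit 1) (nat_lit 202) (nat_lit 1) (nat_lit 313) (nat_lit 301) (nat_lit 286)) (XT.lf (nat_lit 0) (nat_lit 168135752) (nat_lit 0) (nat_lit 1480254251) (nat_lit 152) (nat_lit 168135752) (nat_lit 201) (nat_lit 3) (nat_lit 201) (nat_lit 1) (nat_lit 203) (nat_lit 1) (nat_lit 314) (nat_lit 301) (nat_lit 285))))) (XT.nd (nat_lit 234) (nat_lit 228) (nat_lit 0) (XT.nd (nat_lit 78) (nat_lit 76) (nat_lit 0) (XT.lf (nat_lit 76) (nat_lit 778131551) (nat_lit 0) (nat_lit 168763281) (nat_lit 152) (nat_lit 778131551) (nat_lit 200) (nat_lit 1) (nat_lit 199) (nat_lit 1) (nat_lit 201) (nat_lit 1) (nat_lit 315) (nat_lit 301) (nat_lit 284)) (XT.nd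 (nat_lit 78) (nat_lit 0) (nat_lit 0) (XT.lf (nat_lit 152) (nat_lit 1039430695) (nat_lit 0) (nat_lit 300651543) (nat_lit 76) (nat_lit 300651543) (nat_lit 200) (nat_lit 1) (nat_lit 198) (nat_lit 1) (nat_lit 199) (nat_lit 1) (nat_lit 316) (nat_lit 301) (nat_lit 283)) (XT.lf (nat_lit 0) (nat_lit 270257255) (nat_lit 0) (nat_lit 1020465265) (nat_lit 152) (nat_lit 270257255) (nat_lit 198) (nat_lit 3) (nat_lit 198) (nat_lit 1) (nat_lit 200) (nat_lit 1) (nat_lit 317) (nat_lit 301) (nat_lit 282)))) (XT.nd (nat_lit 78) (nat_lit 152) (nat_lit 0) (XT.lf (nat_lit 76) (nat_lit 60289564) (nat_lit 0) (nat_lit 712644355) (nat_lit 76) (nat_lit 712644355) (nat_lit 198) (nat_lit 3) (nat_lit 197) (nat_lit 1) (nat_lit 198) (nat_lit 1) (nat_lit 318) (nat_lit 301) (nat_lit 281)) (XT.nd (nat_lit 78) (nat_lit 0) (nat_lit 0) (XT.lf (nat_lit 152) (nat_lit 1071249215) (nat_lit 0) (nat_lit 171898495) (nat_lit 76) (nat_lit 171898495)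 (nat_lit 197) (nat_lit 1) (nat_lit 195) (nat_lit 1) (nat_lit 196) (nat_lit 1) (nat_lit 319) (nat_lit 301) (nat_lit 280)) (XT.lf (nat_lit 0) (nat_lit 305933587) (nat_lit 0) (nat_lit 734867451) (nat_lit 152) (nat_lit 305933587) (nat_lit 195) (nat_lit 3) (nat_lit 195) (nat_lit 1) (nat_lit 197) (nat_lit 1) (nat_lit 320) (nat_lit 301) (nat_lit 279)))))) (XT.nd (nat_lit 390) (nat_lit 456) (nat_lit 0) (XT.nd (nat_lit 156) (nat_lit 228) (nat_lit 0) (XT.nd (nat_lit 78) (nat_lit 152) (nat_lit 0) (XT.lf (nat_lit 76) (nat_lit 179001463) (nat_lit 0) (nat_lit 551987433) (nat_lit 76) (nat_lit 551987433) (nat_lit 195) (nat_lit 3) (nat_lit 194) (nat_lit 1) (nat_lit 195) (nat_lit 1) (nat_lit 321) (nat_lit 301) (nat_lit 278)) (XT.lf (nat_lit 152) (nat_lit 1027230512) (nat_lit 0) (nat_lit 98283522) (nat_lit 76) (nat_lit 98283522) (nat_lit 194) (nat_lit 1) (nat_lit 192) (nat_lit 1) (nat_lit 193) (nat_lit 1) (nat_lit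 322) (nat_lit 301) (nat_lit 277))) (XT.nd (nat_lit 78) (nat_lit 228) (nat_lit 0) (XT.lf (nat_lit 0) (nat_lit 306582107) (nat_lit 0) (nat_lit 551826437) (nat_lit 152) (nat_lit 306582107) (nat_lit 192) (nat_lit 3) (nat_lit 192) (nat_lit 1) (nat_lit 194) (nat_lit 1) (nat_lit 323) (nat_lit 301) (nat_lit 276)) (XT.nd (nat_lit 78) (nat_lit 152) (nat_lit 0) (XT.lf (nat_lit 76) (nat_lit 228023545) (nat_lit 0) (nat_lit 441279484) (nat_lit 76) (nat_lit 441279484) (nat_lit 192) (nat_lit 3) (nat_lit 191) (nat_lit 1) (nat_lit 192) (nat_lit 1) (nat_lit 324) (nat_lit 301) (nat_lit 275)) (XT.lf (nat_lit 152) (nat_lit 947966116) (nat_lit 0) (nat_lit 56193923) (nat_lit 76) (nat_lit 56193923) (nat_lit 191) (nat_lit 1) (nat_lit 189) (nat_lit 1) (nat_lit 190) (nat_lit 1) (nat_lit 325) (nat_lit 301) (nat_lit 274))))) (XT.nd (nat_lit 234) (nat_lit 228) (nat_lit 0) (XT.nd (nat_lit 78) (nat_lit 228) (nat_lit 0) (XT.lf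 (nat_lit 0) (nat_lit 289779390) (nat_lit 0) (nat_lit 429998631) (nat_lit 152) (nat_lit 289779390) (nat_lit 189) (nat_lit 3) (nat_lit 189) (nat_lit 1) (nat_lit 191) (nat_lit 1) (nat_lit 326) (nat_lit 301) (nat_lit 273)) (XT.nd (nat_lit 78) (nat_lit 152) (nat_lit 0) (XT.lf (nat_lit 76) (nat_lit 239659183) (nat_lit 0) (nat_lit 361588958) (nat_lit 76) (nat_lit 361588958) (nat_lit 189) (nat_lit 3) (nat_lit 188) (nat_lit 1) (nat_lit 189) (nat_lit 1) (nat_lit 327) (nat_lit 301) (nat_lit 272)) (XT.lf (nat_lit 152) (nat_lit 855605953) (nat_lit 0) (nat_lit 32129057) (nat_lit 76) (nat_lit 32129057) (nat_lit 188) (nat_lit 1) (nat_lit 186) (nat_lit 1) (nat_lit 187) (nat_lit 1) (nat_lit 328) (nat_lit 301) (nat_lit 271)))) (XT.nd (nat_lit 78) (nat_lit 228) (nat_lit 0) (XT.lf (nat_lit 0) (nat_lit 265238893) (nat_lit 0) (nat_lit 345409700) (nat_lit 152) (nat_lit 265238893) (nat_lit 186) (nat_lit 3) (nat_lit 186)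 (nat_lit 1) (nat_lit 188) (nat_lit 1) (nat_lit 329) (nat_lit 301) (nat_lit 270)) (XT.nd (nat_lit 78) (nat_lit 152) (nat_lit 0) (XT.lf (nat_lit 76) (nat_lit 232057203) (nat_lit 0) (nat_lit 301770948) (nat_lit 76) (nat_lit 301770948) (nat_lit 186) (nat_lit 3) (nat_lit 185) (nat_lit 1) (nat_lit 186) (nat_lit 1) (nat_lit 330) (nat_lit 301) (nat_lit 269)) (XT.lf (nat_lit 152) (nat_lit 761893958) (nat_lit 0) (nat_lit 18369893) (nat_lit 76) (nat_lit 18369893) (nat_lit 185) (nat_lit 1) (nat_lit 183) (nat_lit 1) (nat_lit 184) (nat_lit 1) (nat_lit 331) (nat_lit 301) (nat_lit 268))))))) (XT.nd (nat_lit 858) (nat_lit 836) (nat_lit 0) (XT.nd (nat_lit 390) (nat_lit 456) (nat_lit 0) (XT.nd (nat_lit 156) (nat_lit 228) (nat_lit 0) (XT.nd (nat_lit 78) (nat_lit 76) (nat_lit 0) (XT.lf (nat_lit 0) (nat_lit 238222143) (nat_lit 0) (nat_lit 284060062) (nat_lit 152) (nat_lit 238222143) (nat_lit 183) (nat_lit 3) (nat_lit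 183) (nat_lit 1) (nat_lit 185) (nat_lit 1) (nat_lit 332) (nat_lit 301) (nat_lit 267)) (XT.lf (nat_lit 76) (nat_lit 215315361) (nat_lit 0) (nat_lit 255174421) (nat_lit 76) (nat_lit 255174421) (nat_lit 183) (nat_lit 3) (nat_lit 182) (nat_lit 1) (nat_lit 183) (nat_lit 1) (nat_lit 333) (nat_lit 301) (nat_lit 266))) (XT.nd (nat_lit 78) (nat_lit 76) (nat_lit 0) (XT.lf (nat_lit 152) (nat_lit 672744454) (nat_lit 0) (nat_lit 10503046) (nat_lit 76) (nat_lit 10503046) (nat_lit 182) (nat_lit 1) (nat_lit 180) (nat_lit 1) (nat_lit 181) (nat_lit 1) (nat_lit 334) (nat_lit 301) (nat_lit 265)) (XT.nd (nat_lit 78) (nat_lit 76) (nat_lit 0) (XT.lf (nat_lit 0) (nat_lit 211483366) (nat_lit 0) (nat_lit 237691345) (nat_lit 152) (nat_lit 211483366) (nat_lit 180) (nat_lit 3) (nat_lit 180) (nat_lit 1) (nat_lit 182) (nat_lit 1) (nat_lit 335) (nat_lit 301) (nat_lit 264)) (XT.lf (nat_lit 76) (nat_lit 194964563) (nat_lit 0) (nat_lit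 217754109) (nat_lit 76) (nat_lit 217754109) (nat_lit 180) (nat_lit 3) (nat_lit 179) (nat_lit 1) (nat_lit 180) (nat_lit 1) (nat_lit 336) (nat_lit 301) (nat_lit 263))))) (XT.nd (nat_lit 234) (nat_lit 228) (nat_lit 0) (XT.nd (nat_lit 78) (nat_lit 76) (nat_lit 0) (XT.lf (nat_lit 152) (nat_lit 590843052) (nat_lit 0) (nat_lit 6005150) (nat_lit 76) (nat_lit 6005150) (nat_lit 179) (nat_lit 1) (nat_lit 177) (nat_lit 1) (nat_lit 178) (nat_lit 1) (nat_lit 337) (nat_lit 301) (nat_lit 262)) (XT.nd (nat_lit 78) (nat_lit 76) (nat_lit 0) (XT.lf (nat_lit 0) (nat_lit 186376373) (nat_lit 0) (nat_lit 201360870) (nat_lit 152) (nat_lit 186376373) (nat_lit 177) (nat_lit 3) (nat_lit 177) (nat_lit 1) (nat_lit 179) (nat_lit 1) (nat_lit 338) (nat_lit 301) (nat_lit 261)) (XT.lf (nat_lit 76) (nat_lit 173956236) (nat_lit 0) (nat_lit 186986233) (nat_lit 76) (nat_lit 186986233) (nat_lit 177) (nat_lit 3) (nat_lit 176) (nat_lit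 1) (nat_lit 177) (nat_lit 1) (nat_lit 339) (nat_lit 301) (nat_lit 260)))) (XT.nd (nat_lit 78) (nat_lit 76) (nat_lit 0) (XT.lf (nat_lit 152) (nat_lit 517120108) (nat_lit 0) (nat_lit 3433464) (nat_lit 76) (nat_lit 3433464) (nat_lit 176) (nat_lit 1) (nat_lit 174) (nat_lit 1) (nat_lit 175) (nat_lit 1) (nat_lit 340) (nat_lit 301) (nat_lit 259)) (XT.nd (nat_lit 78) (nat_lit 76) (nat_lit 0) (XT.lf (nat_lit 0) (nat_lit 163483098) (nat_lit 0) (nat_lit 172050532) (nat_lit 152) (nat_lit 163483098) (nat_lit 174) (nat_lit 3) (nat_lit 174) (nat_lit 1) (nat_lit 176) (nat_lit 1) (nat_lit 341) (nat_lit 301) (nat_lit 258)) (XT.lf (nat_lit 76) (nat_lit 153794489) (nat_lit 0) (nat_lit 161244432) (nat_lit 76) (nat_lit 161244432) (nat_lit 174) (nat_lit 3) (nat_lit 173) (nat_lit 1) (nat_lit 174) (nat_lit 1) (nat_lit 342) (nat_lit 301) (nat_lit 257)))))) (XT.nd (nat_lit 390) (nat_lit 456) (nat_lit 0) (XT.nd (nat_lit 156)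 (nat_lit 228) (nat_lit 0) (XT.nd (nat_lit 78) (nat_lit 0) (nat_lit 0) (XT.lf (nat_lit 152) (nat_lit 451581340) (nat_lit 0) (nat_lit 1963094) (nat_lit 76) (nat_lit 1963094) (nat_lit 173) (nat_lit 1) (nat_lit 171) (nat_lit 1) (nat_lit 172) (nat_lit 1) (nat_lit 343) (nat_lit 301) (nat_lit 256)) (XT.lf (nat_lit 0) (nat_lit 142969210) (nat_lit 0) (nat_lit 147867669) (nat_lit 152) (nat_lit 142969210) (nat_lit 171) (nat_lit 3) (nat_lit 171) (nat_lit 1) (nat_lit 173) (nat_lit 1) (nat_lit 344) (nat_lit 301) (nat_lit 255))) (XT.nd (nat_lit 78) (nat_lit 152) (nat_lit 0) (XT.lf (nat_lit 76) (nat_lit 135179843) (nat_lit 0) (nat_lit 139439373) (nat_lit 76) (nat_lit 139439373) (nat_lit 171) (nat_lit 3) (nat_lit 170) (nat_lit 1) (nat_lit 171) (nat_lit 1) (nat_lit 345) (nat_lit 301) (nat_lit 254)) (XT.nd (nat_lit 78) (nat_lit 0) (nat_lit 0) (XT.lf (nat_lit 152) (nat_lit 393772435) (nat_lit 0) (nat_lit 1122405)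 (nat_lit 76) (nat_lit 1122405) (nat_lit 170) (nat_lit 1) (nat_lit 168) (nat_lit 1) (nat_lit 169) (nat_lit 1) (nat_lit 346) (nat_lit 301) (nat_lit 253)) (XT.lf (nat_lit 0) (nat_lit 124784170) (nat_lit 0) (nat_lit 127584879) (nat_lit 152) (nat_lit 124784170) (nat_lit 168) (nat_lit 3) (nat_lit 168) (nat_lit 1) (nat_lit 170) (nat_lit 1) (nat_lit 347) (nat_lit 301) (nat_lit 252))))) (XT.nd (nat_lit 234) (nat_lit 228) (nat_lit 0) (XT.nd (nat_lit 78) (nat_lit 152) (nat_lit 0) (XT.lf (nat_lit 76) (nat_lit 118374162) (nat_lit 0) (nat_lit 120809562) (nat_lit 76) (nat_lit 120809562) (nat_lit 168) (nat_lit 3) (nat_lit 167) (nat_lit 1) (nat_lit 168) (nat_lit 1) (nat_lit 348) (nat_lit 301) (nat_lit 251)) (XT.nd (nat_lit 78) (nat_lit 0) (nat_lit 0) (XT.lf (nat_lit 152) (nat_lit 343035745) (nat_lit 0) (nat_lit 641739) (nat_lit 76) (nat_lit 641739) (nat_lit 167) (nat_lit 1) (nat_lit 165) (nat_lit 1) (nat_lit 166)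 (nat_lit 1) (nat_lit 349) (nat_lit 301) (nat_lit 250)) (XT.lf (nat_lit 0) (nat_lit 108772763) (nat_lit 0) (nat_lit 110374077) (nat_lit 152) (nat_lit 108772763) (nat_lit 165) (nat_lit 3) (nat_lit 165) (nat_lit 1) (nat_lit 167) (nat_lit 1) (nat_lit 350) (nat_lit 301) (nat_lit 249)))) (XT.nd (nat_lit 78) (nat_lit 152) (nat_lit 0) (XT.lf (nat_lit 76) (nat_lit 103406592) (nat_lit 0) (nat_lit 104799040) (nat_lit 76) (nat_lit 104799040) (nat_lit 165) (nat_lit 3) (nat_lit 164) (nat_lit 1) (nat_lit 165) (nat_lit 1) (nat_lit 351) (nat_lit 301) (nat_lit 248)) (XT.nd (nat_lit 78) (nat_lit 0) (nat_lit 0) (XT.lf (nat_lit 152) (nat_lit 298649259) (nat_lit 0) (nat_lit 366916) (nat_lit 76) (nat_lit 366916) (nat_lit 164) (nat_lit 1) (nat_lit 162) (nat_lit 1) (nat_lit 163) (nat_lit 1) (nat_lit 352) (nat_lit 301) (nat_lit 247)) (XT.lf (nat_lit 0) (nat_lit 94736405) (nat_lit 0) (nat_lit 95651962) (nat_lit 152) (nat_lit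 94736405) (nat_lit 162) (nat_lit 3) (nat_lit 162) (nat_lit 1) (nat_lit 164) (nat_lit 1) (nat_lit 353) (nat_lit 301) (nat_lit 246))))))))
noncomputable def ec25 : XT := (XT.nd (nat_lit 42822) (nat_lit 0) (nat_lit 3268) (XT.nd (nat_lit 858) (nat_lit 304) (nat_lit 0) (XT.nd (nat_lit 390) (nat_lit 456) (nat_lit 0) (XT.nd (nat_lit 156) (nat_lit 228) (nat_lit 0) (XT.nd (nat_lit 78) (nat_lit 152) (nat_lit 0) (XT.lf (nat_lit 76) (nat_lit 90188951) (nat_lit 0) (nat_lit 90985087) (nat_lit 76) (nat_lit 90985087) (nat_lit 162) (nat_lit 3) (nat_lit 161) (nat_lit 1) (nat_lit 162) (nat_lit 1) (nat_lit 354) (nat_lit 301) (nat_lit 245)) (XT.lf (nat_lit 152) (nat_lit 259899299) (nat_lit 0) (nat_lit 209785) (nat_lit 76) (nat_lit 209785) (nat_lit 161) (nat_lit 1) (nat_lit 159) (nat_lit 1) (nat_lit 160) (nat_lit 1) (nat_lit 355) (nat_lit 301) (nat_lit 244))) (XT.nd (nat_lit 78) (nat_lit 228) (nat_lit 0) (XT.lf (nat_lit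 0) (nat_lit 82466042) (nat_lit 0) (nat_lit 82989515) (nat_lit 152) (nat_lit 82466042) (nat_lit 159) (nat_lit 3) (nat_lit 159) (nat_lit 1) (nat_lit 161) (nat_lit 1) (nat_lit 356) (nat_lit 301) (nat_lit 243)) (XT.nd (nat_lit 78) (nat_lit 152) (nat_lit 0) (XT.lf (nat_lit 76) (nat_lit 78579648) (nat_lit 0) (nat_lit 79034842) (nat_lit 76) (nat_lit 79034842) (nat_lit 159) (nat_lit 3) (nat_lit 158) (nat_lit 1) (nat_lit 159) (nat_lit 1) (nat_lit 357) (nat_lit 301) (nat_lit 242)) (XT.lf (nat_lit 152) (nat_lit 226116194) (nat_lit 0) (nat_lit 119945) (nat_lit 76) (nat_lit 119945) (nat_lit 158) (nat_lit 1) (nat_lit 156) (nat_lit 1) (nat_lit 157) (nat_lit 1) (nat_lit 358) (nat_lit 301) (nat_lit 241))))) (XT.nd (nat_lit 234) (nat_lit 228) (nat_lit 0) (XT.nd (nat_lit 78) (nat_lit 228) (nat_lit 0) (XT.lf (nat_lit 0) (nat_lit 71759093) (nat_lit 0) (nat_lit 72058390) (nat_lit 152) (nat_lit 71759093) (nat_lit 156)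 (nat_lit 3) (nat_lit 156) (nat_lit 1) (nat_lit 158) (nat_lit 1) (nat_lit 359) (nat_lit 301) (nat_lit 240)) (XT.nd (nat_lit 78) (nat_lit 152) (nat_lit 0) (XT.lf (nat_lit 76) (nat_lit 68418450) (nat_lit 0) (nat_lit 68678708) (nat_lit 76) (nat_lit 68678708) (nat_lit 156) (nat_lit 3) (nat_lit 155) (nat_lit 1) (nat_lit 156) (nat_lit 1) (nat_lit 360) (nat_lit 301) (nat_lit 239)) (XT.lf (nat_lit 152) (nat_lit 196689561) (nat_lit 0) (nat_lit 68579) (nat_lit 76) (nat_lit 68579) (nat_lit 155) (nat_lit 1) (nat_lit 153) (nat_lit 1) (nat_lit 154) (nat_lit 1) (nat_lit 361) (nat_lit 301) (nat_lit 238)))) (XT.nd (nat_lit 78) (nat_lit 228) (nat_lit 0) (XT.lf (nat_lit 0) (nat_lit 62427508) (nat_lit 0) (nat_lit 62598632) (nat_lit 152) (nat_lit 62427508) (nat_lit 153) (nat_lit 3) (nat_lit 153) (nat_lit 1) (nat_lit 155) (nat_lit 1) (nat_lit 362) (nat_lit 301) (nat_lit 237)) (XT.nd (nat_lit 78) (nat_lit 152) (nat_lit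 0) (XT.lf (nat_lit 76) (nat_lit 59544802) (nat_lit 0) (nat_lit 59693605) (nat_lit 76) (nat_lit 59693605) (nat_lit 153) (nat_lit 3) (nat_lit 152) (nat_lit 1) (nat_lit 153) (nat_lit 1) (nat_lit 363) (nat_lit 301) (nat_lit 236)) (XT.lf (nat_lit 152) (nat_lit 171072584) (nat_lit 0) (nat_lit 39210) (nat_lit 76) (nat_lit 39210) (nat_lit 152) (nat_lit 1) (nat_lit 150) (nat_lit 1) (nat_lit 151) (nat_lit 1) (nat_lit 364) (nat_lit 301) (nat_lit 235)))))) (XT.nd (nat_lit 41496) (nat_lit 0) (nat_lit 5092) (XT.nd (nat_lit 156) (nat_lit 228) (nat_lit 0) (XT.nd (nat_lit 78) (nat_lit 76) (nat_lit 0) (XT.lf (nat_lit 0) (nat_lit 54300968) (nat_lit 0) (nat_lit 54398809) (nat_lit 152) (nat_lit 54300968) (nat_lit 150) (nat_lit 3) (nat_lit 150) (nat_lit 1) (nat_lit 152) (nat_lit 1) (nat_lit 365) (nat_lit 301) (nat_lit 234)) (XT.lf (nat_lit 76) (nat_lit 51806961) (nat_lit 0) (nat_lit 51892039) (nat_lit 76) (nat_lit 51892039)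 (nat_lit 150) (nat_lit 3) (nat_lit 149) (nat_lit 1) (nat_lit 150) (nat_lit 1) (nat_lit 366) (nat_lit 301) (nat_lit 233))) (XT.nd (nat_lit 78) (nat_lit 76) (nat_lit 0) (XT.lf (nat_lit 152) (nat_lit 148780600) (nat_lit 0) (nat_lit 22418) (nat_lit 76) (nat_lit 22418) (nat_lit 149) (nat_lit 1) (nat_lit 147) (nat_lit 1) (nat_lit 148) (nat_lit 1) (nat_lit 367) (nat_lit 301) (nat_lit 232)) (XT.nd (nat_lit 78) (nat_lit 76) (nat_lit 0) (XT.lf (nat_lit 0) (nat_lit 47227483) (nat_lit 0) (nat_lit 47283424) (nat_lit 152) (nat_lit 47227483) (nat_lit 147) (nat_lit 3) (nat_lit 147) (nat_lit 1) (nat_lit 149) (nat_lit 1) (nat_lit 368) (nat_lit 301) (nat_lit 231)) (XT.lf (nat_lit 76) (nat_lit 45066039) (nat_lit 0) (nat_lit 45114683) (nat_lit 76) (nat_lit 45114683) (nat_lit 147) (nat_lit 3) (nat_lit 146) (nat_lit 1) (nat_lit 147) (nat_lit 1) (nat_lit 369) (nat_lit 301) (nat_lit 230))))) (XT.nd (nat_lit 234) (nat_lit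 152) (nat_lit 0) (XT.nd (nat_lit 78) (nat_lit 0) (nat_lit 0) (XT.lf (nat_lit 380) (nat_lit 927940476) (nat_lit 0) (nat_lit 821899717) (nat_lit 380) (nat_lit 927940476) (nat_lit 220) (nat_lit 1) (nat_lit 215) (nat_lit 0) (nat_lit 220) (nat_lit 0) (nat_lit 296) (nat_lit 302) (nat_lit 302)) (XT.nd (nat_lit 78) (nat_lit 0) (nat_lit 76) (XT.lf (nat_lit 380) (nat_lit 3432331398) (nat_lit 76) (nat_lit 784540639) (nat_lit 0) (nat_lit 784540639) (nat_lit 220) (nat_lit 1) (nat_lit 216) (nat_lit 1) (nat_lit 215) (nat_lit 0) (nat_lit 297) (nat_lit 302) (nat_lit 301)) (XT.lf (nat_lit 380) (nat_lit 1512951998) (nat_lit 0) (nat_lit 1646234493) (nat_lit 304) (nat_lit 1512951998) (nat_lit 221) (nat_lit 1) (nat_lit 216) (nat_lit 1) (nat_lit 220) (nat_lit 1) (nat_lit 298) (nat_lit 302) (nat_lit 300)))) (XT.nd (nat_lit 78) (nat_lit 228) (nat_lit 0) (XT.lf (nat_lit 380) (nat_lit 2597660024) (nat_lit 76) (nat_lit 889196400)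 (nat_lit 0) (nat_lit 889196400) (nat_lit 221) (nat_lit 1) (nat_lit 217) (nat_lit 1) (nat_lit 216) (nat_lit 1) (nat_lit 299) (nat_lit 302) (nat_lit 299)) (XT.nd (nat_lit 78) (nat_lit 304) (nat_lit 0) (XT.lf (nat_lit 76) (nat_lit 1050787932) (nat_lit 0) (nat_lit 2000876631) (nat_lit 304) (nat_lit 1050787932) (nat_lit 218) (nat_lit 1) (nat_lit 217) (nat_lit 1) (nat_lit 221) (nat_lit 1) (nat_lit 300) (nat_lit 302) (nat_lit 298)) (XT.lf (nat_lit 380) (nat_lit 1579249397) (nat_lit 0) (nat_lit 1136713432) (nat_lit 304) (nat_lit 1136713432) (nat_lit 218) (nat_lit 1) (nat_lit 213) (nat_lit 1) (nat_lit 217) (nat_lit 1) (nat_lit 301) (nat_lit 302) (nat_lit 297))))))) (XT.nd (nat_lit 858) (nat_lit 912) (nat_lit 0) (XT.nd (nat_lit 390) (nat_lit 380) (nat_lit 0) (XT.nd (nat_lit 156) (nat_lit 380) (nat_lit 0) (XT.nd (nat_lit 78) (nat_lit 152) (nat_lit 0) (XT.lf (nat_lit 76) (nat_lit 524925058) (nat_lit 0) (nat_lit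 2575820417) (nat_lit 380) (nat_lit 524925058) (nat_lit 214) (nat_lit 1) (nat_lit 213) (nat_lit 1) (nat_lit 218) (nat_lit 1) (nat_lit 302) (nat_lit 302) (nat_lit 296)) (XT.lf (nat_lit 228) (nat_lit 472420169) (nat_lit 0) (nat_lit 1470291208) (nat_lit 152) (nat_lit 1470291208) (nat_lit 214) (nat_lit 1) (nat_lit 211) (nat_lit 1) (nat_lit 213) (nat_lit 1) (nat_lit 303) (nat_lit 302) (nat_lit 295))) (XT.nd (nat_lit 78) (nat_lit 152) (nat_lit 0) (XT.lf (nat_lit 228) (nat_lit 3174657595) (nat_lit 0) (nat_lit 24908398) (nat_lit 152) (nat_lit 24908398) (nat_lit 211) (nat_lit 1) (nat_lit 208) (nat_lit 1) (nat_lit 210) (nat_lit 1) (nat_lit 304) (nat_lit 302) (nat_lit 294)) (XT.nd (nat_lit 78) (nat_lit 152) (nat_lit 0) (XT.lf (nat_lit 76) (nat_lit 1219723740) (nat_lit 0) (nat_lit 598819430) (nat_lit 228) (nat_lit 1219723740) (nat_lit 209) (nat_lit 1) (nat_lit 208) (nat_lit 1) (nat_lit 211) (nat_lit 1) (nat_lit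 305) (nat_lit 302) (nat_lit 293)) (XT.lf (nat_lit 228) (nat_lit 1772915270) (nat_lit 0) (nat_lit 549940888) (nat_lit 152) (nat_lit 549940888) (nat_lit 209) (nat_lit 1) (nat_lit 206) (nat_lit 1) (nat_lit 208) (nat_lit 1) (nat_lit 306) (nat_lit 302) (nat_lit 292))))) (XT.nd (nat_lit 234) (nat_lit 76) (nat_lit 0) (XT.nd (nat_lit 78) (nat_lit 304) (nat_lit 0) (XT.lf (nat_lit 76) (nat_lit 554448754) (nat_lit 0) (nat_lit 1609000805) (nat_lit 228) (nat_lit 554448754) (nat_lit 207) (nat_lit 1) (nat_lit 206) (nat_lit 1) (nat_lit 209) (nat_lit 1) (nat_lit 307) (nat_lit 302) (nat_lit 291)) (XT.nd (nat_lit 78) (nat_lit 228) (nat_lit 0) (XT.lf (nat_lit 152) (nat_lit 458354358) (nat_lit 0) (nat_lit 1057654937) (nat_lit 76) (nat_lit 1057654937) (nat_lit 207) (nat_lit 1) (nat_lit 205) (nat_lit 1) (nat_lit 206) (nat_lit 1) (nat_lit 308) (nat_lit 302) (nat_lit 290)) (XT.lf (nat_lit 228) (nat_lit 2320459195) (nat_lit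 0) (nat_lit 61645373) (nat_lit 152) (nat_lit 61645373) (nat_lit 205) (nat_lit 1) (nat_lit 202) (nat_lit 1) (nat_lit 204) (nat_lit 1) (nat_lit 309) (nat_lit 302) (nat_lit 289)))) (XT.nd (nat_lit 78) (nat_lit 76) (nat_lit 0) (XT.lf (nat_lit 76) (nat_lit 812110811) (nat_lit 0) (nat_lit 689670997) (nat_lit 228) (nat_lit 812110811) (nat_lit 203) (nat_lit 1) (nat_lit 202) (nat_lit 1) (nat_lit 205) (nat_lit 1) (nat_lit 310) (nat_lit 302) (nat_lit 288)) (XT.nd (nat_lit 78) (nat_lit 0) (nat_lit 0) (XT.lf (nat_lit 152) (nat_lit 987448964) (nat_lit 0) (nat_lit 604717643) (nat_lit 76) (nat_lit 604717643) (nat_lit 203) (nat_lit 1) (nat_lit 201) (nat_lit 1) (nat_lit 202) (nat_lit 1) (nat_lit 311) (nat_lit 302) (nat_lit 287)) (XT.lf (nat_lit 0) (nat_lit 193356114) (nat_lit 0) (nat_lit 1702292388) (nat_lit 152) (nat_lit 193356114) (nat_lit 201) (nat_lit 3) (nat_lit 201) (nat_lit 1) (nat_lit 203) (nat_lit 1) (nat_lit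 312) (nat_lit 302) (nat_lit 286)))))) (XT.nd (nat_lit 468) (nat_lit 456) (nat_lit 0) (XT.nd (nat_lit 234) (nat_lit 228) (nat_lit 0) (XT.nd (nat_lit 78) (nat_lit 76) (nat_lit 0) (XT.lf (nat_lit 76) (nat_lit 894851284) (nat_lit 0) (nat_lit 194077774) (nat_lit 152) (nat_lit 894851284) (nat_lit 200) (nat_lit 1) (nat_lit 199) (nat_lit 1) (nat_lit 201) (nat_lit 1) (nat_lit 313) (nat_lit 302) (nat_lit 285)) (XT.nd (nat_lit 78) (nat_lit 0) (nat_lit 0) (XT.lf (nat_lit 152) (nat_lit 1195345299) (nat_lit 0) (nat_lit 345749275) (nat_lit 76) (nat_lit 345749275) (nat_lit 200) (nat_lit 1) (nat_lit 198) (nat_lit 1) (nat_lit 199) (nat_lit 1) (nat_lit 314) (nat_lit 302) (nat_lit 284)) (XT.lf (nat_lit 0) (nat_lit 310795843) (nat_lit 0) (nat_lit 1173535055) (nat_lit 152) (nat_lit 310795843) (nat_lit 198) (nat_lit 3) (nat_lit 198) (nat_lit 1) (nat_lit 200) (nat_lit 1) (nat_lit 315) (nat_lit 302) (nat_lit 283)))) (XT.nd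 (nat_lit 78) (nat_lit 152) (nat_lit 0) (XT.lf (nat_lit 76) (nat_lit 69332998) (nat_lit 0) (nat_lit 819541009) (nat_lit 76) (nat_lit 819541009) (nat_lit 198) (nat_lit 3) (nat_lit 197) (nat_lit 1) (nat_lit 198) (nat_lit 1) (nat_lit 316) (nat_lit 302) (nat_lit 282)) (XT.nd (nat_lit 78) (nat_lit 0) (nat_lit 0) (XT.lf (nat_lit 152) (nat_lit 1231936597) (nat_lit 0) (nat_lit 197683270) (nat_lit 76) (nat_lit 197683270) (nat_lit 197) (nat_lit 1) (nat_lit 195) (nat_lit 1) (nat_lit 196) (nat_lit 1) (nat_lit 317) (nat_lit 302) (nat_lit 281)) (XT.lf (nat_lit 0) (nat_lit 351823625) (nat_lit 0) (nat_lit 845097569) (nat_lit 152) (nat_lit 351823625) (nat_lit 195) (nat_lit 3) (nat_lit 195) (nat_lit 1) (nat_lit 197) (nat_lit 1) (nat_lit 318) (nat_lit 302) (nat_lit 280))))) (XT.nd (nat_lit 234) (nat_lit 228) (nat_lit 0) (XT.nd (nat_lit 78) (nat_lit 152) (nat_lit 0) (XT.lf (nat_lit 76) (nat_lit 205851683) (nat_lit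 0) (nat_lit 634785547) (nat_lit 76) (nat_lit 634785547) (nat_lit 195) (nat_lit 3) (nat_lit 194) (nat_lit 1) (nat_lit 195) (nat_lit 1) (nat_lit 319) (nat_lit 302) (nat_lit 279)) (XT.nd (nat_lit 78) (nat_lit 0) (nat_lit 0) (XT.lf (nat_lit 152) (nat_lit 1181315089) (nat_lit 0) (nat_lit 113026051) (nat_lit 76) (nat_lit 113026051) (nat_lit 194) (nat_lit 1) (nat_lit 192) (nat_lit 1) (nat_lit 193) (nat_lit 1) (nat_lit 320) (nat_lit 302) (nat_lit 278)) (XT.lf (nat_lit 0) (nat_lit 352569423) (nat_lit 0) (nat_lit 634600402) (nat_lit 152) (nat_lit 352569423) (nat_lit 192) (nat_lit 3) (nat_lit 192) (nat_lit 1) (nat_lit 194) (nat_lit 1) (nat_lit 321) (nat_lit 302) (nat_lit 277)))) (XT.nd (nat_lit 78) (nat_lit 152) (nat_lit 0) (XT.lf (nat_lit 76) (nat_lit 262227077) (nat_lit 0) (nat_lit 507471406) (nat_lit 76) (nat_lit 507471406) (nat_lit 192) (nat_lit 3) (nat_lit 191) (nat_lit 1) (nat_lit 192) (nat_lit 1) (nat_lit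 322) (nat_lit 302) (nat_lit 276)) (XT.nd (nat_lit 78) (nat_lit 0) (nat_lit 0) (XT.lf (nat_lit 152) (nat_lit 1090161033) (nat_lit 0) (nat_lit 64623011) (nat_lit 76) (nat_lit 64623011) (nat_lit 191) (nat_lit 1) (nat_lit 189) (nat_lit 1) (nat_lit 190) (nat_lit 1) (nat_lit 323) (nat_lit 302) (nat_lit 275)) (XT.lf (nat_lit 0) (nat_lit 333246298) (nat_lit 0) (nat_lit 494498426) (nat_lit 152) (nat_lit 333246298) (nat_lit 189) (nat_lit 3) (nat_lit 189) (nat_lit 1) (nat_lit 191) (nat_lit 1) (nat_lit 324) (nat_lit 302) (nat_lit 274))))))))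
noncomputable def ec26 : XT := (XT.nd (nat_lit 1716) (nat_lit 1748) (nat_lit 0) (XT.nd (nat_lit 858) (nat_lit 760) (nat_lit 0) (XT.nd (nat_lit 390) (nat_lit 456) (nat_lit 0) (XT.nd (nat_lit 156) (nat_lit 228) (nat_lit 0) (XT.nd (nat_lit 78) (nat_lit 152) (nat_lit 0) (XT.lf (nat_lit 76) (nat_lit 275608060) (nat_lit 0) (nat_lit 415827301) (nat_lit 76) (nat_lit 415827301) (nat_lit 189) (nat_lit 3) (nat_lit 188) (nat_lit 1) (nat_lit 189) (nat_lit 1) (nat_lit 325) (nat_lit 302) (nat_lit 273)) (XT.lf (nat_lit 152) (nat_lit 983946846) (nat_lit 0) (nat_lit 36948416) (nat_lit 76) (nat_lit 36948416) (nat_lit 188) (nat_lit 1) (nat_lit 186) (nat_lit 1) (nat_lit 187) (nat_lit 1) (nat_lit 326) (nat_lit 302) (nat_lit 272))) (XT.nd (nat_lit 78) (nat_lit 228) (nat_lit 0) (XT.lf (nat_lit 0) (nat_lit 305024728) (nat_lit 0) (nat_lit 397221155) (nat_lit 152) (nat_lit 305024728) (nat_lit 186) (nat_lit 3) (nat_lit 186)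 (nat_lit 1) (nat_lit 188) (nat_lit 1) (nat_lit 327) (nat_lit 302) (nat_lit 271)) (XT.nd (nat_lit 78) (nat_lit 152) (nat_lit 0) (XT.lf (nat_lit 76) (nat_lit 266865784) (nat_lit 0) (nat_lit 347036590) (nat_lit 76) (nat_lit 347036590) (nat_lit 186) (nat_lit 3) (nat_lit 185) (nat_lit 1) (nat_lit 186) (nat_lit 1) (nat_lit 328) (nat_lit 302) (nat_lit 270)) (XT.lf (nat_lit 152) (nat_lit 876178052) (nat_lit 0) (nat_lit 21125377) (nat_lit 76) (nat_lit 21125377) (nat_lit 185) (nat_lit 1) (nat_lit 183) (nat_lit 1) (nat_lit 184) (nat_lit 1) (nat_lit 329) (nat_lit 302) (nat_lit 269))))) (XT.nd (nat_lit 234) (nat_lit 228) (nat_lit 0) (XT.nd (nat_lit 78) (nat_lit 228) (nat_lit 0) (XT.lf (nat_lit 0) (nat_lit 273955465) (nat_lit 0) (nat_lit 326669071) (nat_lit 152) (nat_lit 273955465) (nat_lit 183) (nat_lit 3) (nat_lit 183) (nat_lit 1) (nat_lit 185) (nat_lit 1) (nat_lit 330) (nat_lit 302) (nat_lit 268)) (XT.nd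 (nat_lit 78) (nat_lit 152) (nat_lit 0) (XT.lf (nat_lit 76) (nat_lit 247612665) (nat_lit 0) (nat_lit 293450584) (nat_lit 76) (nat_lit 293450584) (nat_lit 183) (nat_lit 3) (nat_lit 182) (nat_lit 1) (nat_lit 183) (nat_lit 1) (nat_lit 331) (nat_lit 302) (nat_lit 267)) (XT.lf (nat_lit 152) (nat_lit 773656122) (nat_lit 0) (nat_lit 12078502) (nat_lit 76) (nat_lit 12078502) (nat_lit 182) (nat_lit 1) (nat_lit 180) (nat_lit 1) (nat_lit 181) (nat_lit 1) (nat_lit 332) (nat_lit 302) (nat_lit 266)))) (XT.nd (nat_lit 78) (nat_lit 228) (nat_lit 0) (XT.lf (nat_lit 0) (nat_lit 243205871) (nat_lit 0) (nat_lit 273345047) (nat_lit 152) (nat_lit 243205871) (nat_lit 180) (nat_lit 3) (nat_lit 180) (nat_lit 1) (nat_lit 182) (nat_lit 1) (nat_lit 333) (nat_lit 302) (nat_lit 265)) (XT.nd (nat_lit 78) (nat_lit 152) (nat_lit 0) (XT.lf (nat_lit 76) (nat_lit 224209247) (nat_lit 0) (nat_lit 250417226) (nat_lit 76) (nat_lit 250417226)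 (nat_lit 180) (nat_lit 3) (nat_lit 179) (nat_lit 1) (nat_lit 180) (nat_lit 1) (nat_lit 334) (nat_lit 302) (nat_lit 264)) (XT.lf (nat_lit 152) (nat_lit 679469510) (nat_lit 0) (nat_lit 6905923) (nat_lit 76) (nat_lit 6905923) (nat_lit 179) (nat_lit 1) (nat_lit 177) (nat_lit 1) (nat_lit 178) (nat_lit 1) (nat_lit 335) (nat_lit 302) (nat_lit 263)))))) (XT.nd (nat_lit 390) (nat_lit 456) (nat_lit 0) (XT.nd (nat_lit 156) (nat_lit 228) (nat_lit 0) (XT.nd (nat_lit 78) (nat_lit 76) (nat_lit 0) (XT.lf (nat_lit 0) (nat_lit 214332829) (nat_lit 0) (nat_lit 231565000) (nat_lit 152) (nat_lit 214332829) (nat_lit 177) (nat_lit 3) (nat_lit 177) (nat_lit 1) (nat_lit 179) (nat_lit 1) (nat_lit 336) (nat_lit 302) (nat_lit 262)) (XT.lf (nat_lit 76) (nat_lit 200049671) (nat_lit 0) (nat_lit 215034168) (nat_lit 76) (nat_lit 215034168) (nat_lit 177) (nat_lit 3) (nat_lit 176) (nat_lit 1) (nat_lit 177) (nat_lit 1) (nat_lit 337)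 (nat_lit 302) (nat_lit 261))) (XT.nd (nat_lit 78) (nat_lit 76) (nat_lit 0) (XT.lf (nat_lit 152) (nat_lit 594688124) (nat_lit 0) (nat_lit 3948484) (nat_lit 76) (nat_lit 3948484) (nat_lit 176) (nat_lit 1) (nat_lit 174) (nat_lit 1) (nat_lit 175) (nat_lit 1) (nat_lit 338) (nat_lit 302) (nat_lit 260)) (XT.nd (nat_lit 78) (nat_lit 76) (nat_lit 0) (XT.lf (nat_lit 0) (nat_lit 188005562) (nat_lit 0) (nat_lit 197858112) (nat_lit 152) (nat_lit 188005562) (nat_lit 174) (nat_lit 3) (nat_lit 174) (nat_lit 1) (nat_lit 176) (nat_lit 1) (nat_lit 339) (nat_lit 302) (nat_lit 259)) (XT.lf (nat_lit 76) (nat_lit 176863663) (nat_lit 0) (nat_lit 185431097) (nat_lit 76) (nat_lit 185431097) (nat_lit 174) (nat_lit 3) (nat_lit 173) (nat_lit 1) (nat_lit 174) (nat_lit 1) (nat_lit 340) (nat_lit 302) (nat_lit 258))))) (XT.nd (nat_lit 234) (nat_lit 228) (nat_lit 0) (XT.nd (nat_lit 78) (nat_lit 76) (nat_lit 0) (XT.lf (nat_lit 152)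 (nat_lit 519318541) (nat_lit 0) (nat_lit 2257558) (nat_lit 76) (nat_lit 2257558) (nat_lit 173) (nat_lit 1) (nat_lit 171) (nat_lit 1) (nat_lit 172) (nat_lit 1) (nat_lit 341) (nat_lit 302) (nat_lit 257)) (XT.nd (nat_lit 78) (nat_lit 76) (nat_lit 0) (XT.lf (nat_lit 0) (nat_lit 164414592) (nat_lit 0) (nat_lit 170047819) (nat_lit 152) (nat_lit 164414592) (nat_lit 171) (nat_lit 3) (nat_lit 171) (nat_lit 1) (nat_lit 173) (nat_lit 1) (nat_lit 342) (nat_lit 302) (nat_lit 256)) (XT.lf (nat_lit 76) (nat_lit 155456820) (nat_lit 0) (nat_lit 160355279) (nat_lit 76) (nat_lit 160355279) (nat_lit 171) (nat_lit 3) (nat_lit 170) (nat_lit 1) (nat_lit 171) (nat_lit 1) (nat_lit 343) (nat_lit 302) (nat_lit 255)))) (XT.nd (nat_lit 78) (nat_lit 76) (nat_lit 0) (XT.lf (nat_lit 152) (nat_lit 452838300) (nat_lit 0) (nat_lit 1290766) (nat_lit 76) (nat_lit 1290766) (nat_lit 170) (nat_lit 1) (nat_lit 168) (nat_lit 1) (nat_lit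 169) (nat_lit 1) (nat_lit 344) (nat_lit 302) (nat_lit 254)) (XT.nd (nat_lit 78) (nat_lit 76) (nat_lit 0) (XT.lf (nat_lit 0) (nat_lit 143501795) (nat_lit 0) (nat_lit 146722611) (nat_lit 152) (nat_lit 143501795) (nat_lit 168) (nat_lit 3) (nat_lit 168) (nat_lit 1) (nat_lit 170) (nat_lit 1) (nat_lit 345) (nat_lit 302) (nat_lit 253)) (XT.lf (nat_lit 76) (nat_lit 136130287) (nat_lit 0) (nat_lit 138930996) (nat_lit 76) (nat_lit 138930996) (nat_lit 168) (nat_lit 3) (nat_lit 167) (nat_lit 1) (nat_lit 168) (nat_lit 1) (nat_lit 346) (nat_lit 302) (nat_lit 252))))))) (XT.nd (nat_lit 858) (nat_lit 912) (nat_lit 0) (XT.nd (nat_lit 390) (nat_lit 456) (nat_lit 0) (XT.nd (nat_lit 156) (nat_lit 228) (nat_lit 0) (XT.nd (nat_lit 78) (nat_lit 0) (nat_lit 0) (XT.lf (nat_lit 152) (nat_lit 394491107) (nat_lit 0) (nat_lit 737999) (nat_lit 76) (nat_lit 737999) (nat_lit 167) (nat_lit 1) (nat_lit 165) (nat_lit 1) (nat_lit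 166) (nat_lit 1) (nat_lit 347) (nat_lit 302) (nat_lit 251)) (XT.lf (nat_lit 0) (nat_lit 125088677) (nat_lit 0) (nat_lit 126930189) (nat_lit 152) (nat_lit 125088677) (nat_lit 165) (nat_lit 3) (nat_lit 165) (nat_lit 1) (nat_lit 167) (nat_lit 1) (nat_lit 348) (nat_lit 302) (nat_lit 250))) (XT.nd (nat_lit 78) (nat_lit 152) (nat_lit 0) (XT.lf (nat_lit 76) (nat_lit 118917581) (nat_lit 0) (nat_lit 120518896) (nat_lit 76) (nat_lit 120518896) (nat_lit 165) (nat_lit 3) (nat_lit 164) (nat_lit 1) (nat_lit 165) (nat_lit 1) (nat_lit 349) (nat_lit 302) (nat_lit 249)) (XT.nd (nat_lit 78) (nat_lit 0) (nat_lit 0) (XT.lf (nat_lit 152) (nat_lit 343446648) (nat_lit 0) (nat_lit 421953) (nat_lit 76) (nat_lit 421953) (nat_lit 164) (nat_lit 1) (nat_lit 162) (nat_lit 1) (nat_lit 163) (nat_lit 1) (nat_lit 350) (nat_lit 302) (nat_lit 248)) (XT.lf (nat_lit 0) (nat_lit 108946865) (nat_lit 0) (nat_lit 109999756) (nat_lit 152)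 (nat_lit 108946865) (nat_lit 162) (nat_lit 3) (nat_lit 162) (nat_lit 1) (nat_lit 164) (nat_lit 1) (nat_lit 351) (nat_lit 302) (nat_lit 247))))) (XT.nd (nat_lit 234) (nat_lit 228) (nat_lit 0) (XT.nd (nat_lit 78) (nat_lit 152) (nat_lit 0) (XT.lf (nat_lit 76) (nat_lit 103717294) (nat_lit 0) (nat_lit 104632851) (nat_lit 76) (nat_lit 104632851) (nat_lit 162) (nat_lit 3) (nat_lit 161) (nat_lit 1) (nat_lit 162) (nat_lit 1) (nat_lit 352) (nat_lit 302) (nat_lit 246)) (XT.nd (nat_lit 78) (nat_lit 0) (nat_lit 0) (XT.lf (nat_lit 152) (nat_lit 298884194) (nat_lit 0) (nat_lit 241253) (nat_lit 76) (nat_lit 241253) (nat_lit 161) (nat_lit 1) (nat_lit 159) (nat_lit 1) (nat_lit 160) (nat_lit 1) (nat_lit 353) (nat_lit 302) (nat_lit 245)) (XT.lf (nat_lit 0) (nat_lit 94835949) (nat_lit 0) (nat_lit 95437942) (nat_lit 152) (nat_lit 94835949) (nat_lit 159) (nat_lit 3) (nat_lit 159) (nat_lit 1) (nat_lit 161) (nat_lit 1)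 (nat_lit 354) (nat_lit 302) (nat_lit 244)))) (XT.nd (nat_lit 78) (nat_lit 152) (nat_lit 0) (XT.lf (nat_lit 76) (nat_lit 90366596) (nat_lit 0) (nat_lit 90890068) (nat_lit 76) (nat_lit 90890068) (nat_lit 159) (nat_lit 3) (nat_lit 158) (nat_lit 1) (nat_lit 159) (nat_lit 1) (nat_lit 355) (nat_lit 302) (nat_lit 243)) (XT.nd (nat_lit 78) (nat_lit 0) (nat_lit 0) (XT.lf (nat_lit 152) (nat_lit 260033624) (nat_lit 0) (nat_lit 137937) (nat_lit 76) (nat_lit 137937) (nat_lit 158) (nat_lit 1) (nat_lit 156) (nat_lit 1) (nat_lit 157) (nat_lit 1) (nat_lit 356) (nat_lit 302) (nat_lit 242)) (XT.lf (nat_lit 0) (nat_lit 82522957) (nat_lit 0) (nat_lit 82867149) (nat_lit 152) (nat_lit 82522957) (nat_lit 156) (nat_lit 3) (nat_lit 156) (nat_lit 1) (nat_lit 158) (nat_lit 1) (nat_lit 357) (nat_lit 302) (nat_lit 241)))))) (XT.nd (nat_lit 390) (nat_lit 456) (nat_lit 0) (XT.nd (nat_lit 156) (nat_lit 228) (nat_lit 0) (XT.nd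 (nat_lit 78) (nat_lit 152) (nat_lit 0) (XT.lf (nat_lit 76) (nat_lit 78681217) (nat_lit 0) (nat_lit 78980514) (nat_lit 76) (nat_lit 78980514) (nat_lit 156) (nat_lit 3) (nat_lit 155) (nat_lit 1) (nat_lit 156) (nat_lit 1) (nat_lit 358) (nat_lit 302) (nat_lit 240)) (XT.lf (nat_lit 152) (nat_lit 226192995) (nat_lit 0) (nat_lit 78866) (nat_lit 76) (nat_lit 78866) (nat_lit 155) (nat_lit 1) (nat_lit 153) (nat_lit 1) (nat_lit 154) (nat_lit 1) (nat_lit 359) (nat_lit 302) (nat_lit 239))) (XT.nd (nat_lit 78) (nat_lit 228) (nat_lit 0) (XT.lf (nat_lit 0) (nat_lit 71791634) (nat_lit 0) (nat_lit 71988427) (nat_lit 152) (nat_lit 71791634) (nat_lit 153) (nat_lit 3) (nat_lit 153) (nat_lit 1) (nat_lit 155) (nat_lit 1) (nat_lit 360) (nat_lit 302) (nat_lit 238)) (XT.nd (nat_lit 78) (nat_lit 152) (nat_lit 0) (XT.lf (nat_lit 76) (nat_lit 68476522) (nat_lit 0) (nat_lit 68647646) (nat_lit 76) (nat_lit 68647646) (nat_lit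 153) (nat_lit 3) (nat_lit 152) (nat_lit 1) (nat_lit 153) (nat_lit 1) (nat_lit 361) (nat_lit 302) (nat_lit 237)) (XT.lf (nat_lit 152) (nat_lit 196733472) (nat_lit 0) (nat_lit 45091) (nat_lit 76) (nat_lit 45091) (nat_lit 152) (nat_lit 1) (nat_lit 150) (nat_lit 1) (nat_lit 151) (nat_lit 1) (nat_lit 362) (nat_lit 302) (nat_lit 236))))) (XT.nd (nat_lit 234) (nat_lit 228) (nat_lit 0) (XT.nd (nat_lit 78) (nat_lit 228) (nat_lit 0) (XT.lf (nat_lit 0) (nat_lit 62446113) (nat_lit 0) (nat_lit 62558630) (nat_lit 152) (nat_lit 62446113) (nat_lit 150) (nat_lit 3) (nat_lit 150) (nat_lit 1) (nat_lit 152) (nat_lit 1) (nat_lit 363) (nat_lit 302) (nat_lit 235)) (XT.nd (nat_lit 78) (nat_lit 152) (nat_lit 0) (XT.lf (nat_lit 76) (nat_lit 59578005) (nat_lit 0) (nat_lit 59675845) (nat_lit 76) (nat_lit 59675845) (nat_lit 150) (nat_lit 3) (nat_lit 149) (nat_lit 1) (nat_lit 150) (nat_lit 1) (nat_lit 364) (nat_lit 302) (nat_lit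 234)) (XT.lf (nat_lit 152) (nat_lit 171097690) (nat_lit 0) (nat_lit 25781) (nat_lit 76) (nat_lit 25781) (nat_lit 149) (nat_lit 1) (nat_lit 147) (nat_lit 1) (nat_lit 148) (nat_lit 1) (nat_lit 365) (nat_lit 302) (nat_lit 233)))) (XT.nd (nat_lit 78) (nat_lit 228) (nat_lit 0) (XT.lf (nat_lit 0) (nat_lit 54311606) (nat_lit 0) (nat_lit 54375938) (nat_lit 152) (nat_lit 54311606) (nat_lit 147) (nat_lit 3) (nat_lit 147) (nat_lit 1) (nat_lit 149) (nat_lit 1) (nat_lit 366) (nat_lit 302) (nat_lit 232)) (XT.nd (nat_lit 78) (nat_lit 152) (nat_lit 0) (XT.lf (nat_lit 76) (nat_lit 51825945) (nat_lit 0) (nat_lit 51881885) (nat_lit 76) (nat_lit 51881885) (nat_lit 147) (nat_lit 3) (nat_lit 146) (nat_lit 1) (nat_lit 147) (nat_lit 1) (nat_lit 367) (nat_lit 302) (nat_lit 231)) (XT.lf (nat_lit 152) (nat_lit 148794955) (nat_lit 0) (nat_lit 14740) (nat_lit 76) (nat_lit 14740) (nat_lit 146) (nat_lit 1) (nat_lit 144) (nat_lit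 1) (nat_lit 145) (nat_lit 1) (nat_lit 368) (nat_lit 302) (nat_lit 230))))))))
noncomputable def ec27 : XT := (XT.nd (nat_lit 42666) (nat_lit 0) (nat_lit 2280) (XT.nd (nat_lit 41808) (nat_lit 0) (nat_lit 4028) (XT.nd (nat_lit 41340) (nat_lit 0) (nat_lit 4864) (XT.nd (nat_lit 41106) (nat_lit 0) (nat_lit 5396) (XT.nd (nat_lit 41028) (nat_lit 0) (nat_lit 5396) (XT.lf (nat_lit 0) (nat_lit 47233565) (nat_lit 0) (nat_lit 47270347) (nat_lit 152) (nat_lit 47233565) (nat_lit 144) (nat_lit 3) (nat_lit 144) (nat_lit 1) (nat_lit 146) (nat_lit 1) (nat_lit 369) (nat_lit 302) (nat_lit 229)) (XT.lf (nat_lit 380) (nat_lit 1067131547) (nat_lit 0) (nat_lit 945184675) (nat_lit 380) (nat_lit 1067131547) (nat_lit 220) (nat_lit 1) (nat_lit 215) (nat_lit 0) (nat_lit 220) (nat_lit 0) (nat_lit 294) (nat_lit 303) (nat_lit 303))) (XT.nd (nat_lit 78) (nat_lit 0) (nat_lit 76) (XT.lf (nat_lit 380) (nat_lit 3947181107) (nat_lit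 76) (nat_lit 902221735) (nat_lit 0) (nat_lit 902221735) (nat_lit 220) (nat_lit 1) (nat_lit 216) (nat_lit 1) (nat_lit 215) (nat_lit 0) (nat_lit 295) (nat_lit 303) (nat_lit 302)) (XT.nd (nat_lit 78) (nat_lit 0) (nat_lit 0) (XT.lf (nat_lit 380) (nat_lit 1739894798) (nat_lit 0) (nat_lit 1893169667) (nat_lit 304) (nat_lit 1739894798) (nat_lit 221) (nat_lit 1) (nat_lit 216) (nat_lit 1) (nat_lit 220) (nat_lit 1) (nat_lit 296) (nat_lit 303) (nat_lit 301)) (XT.lf (nat_lit 380) (nat_lit 2987309027) (nat_lit 76) (nat_lit 1022575861) (nat_lit 0) (nat_lit 1022575861) (nat_lit 221) (nat_lit 1) (nat_lit 217) (nat_lit 1) (nat_lit 216) (nat_lit 1) (nat_lit 297) (nat_lit 303) (nat_lit 300))))) (XT.nd (nat_lit 234) (nat_lit 380) (nat_lit 0) (XT.nd (nat_lit 78) (nat_lit 304) (nat_lit 0) (XT.lf (nat_lit 76) (nat_lit 1208406122) (nat_lit 0) (nat_lit 2301008126) (nat_lit 304) (nat_lit 1208406122) (nat_lit 218) (nat_lit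 1) (nat_lit 217) (nat_lit 1) (nat_lit 221) (nat_lit 1) (nat_lit 298) (nat_lit 303) (nat_lit 299)) (XT.nd (nat_lit 78) (nat_lit 0) (nat_lit 0) (XT.lf (nat_lit 380) (nat_lit 1816136806) (nat_lit 0) (nat_lit 1307220447) (nat_lit 304) (nat_lit 1307220447) (nat_lit 218) (nat_lit 1) (nat_lit 213) (nat_lit 1) (nat_lit 217) (nat_lit 1) (nat_lit 299) (nat_lit 303) (nat_lit 298)) (XT.lf (nat_lit 76) (nat_lit 603663816) (nat_lit 0) (nat_lit 2962193480) (nat_lit 380) (nat_lit 603663816) (nat_lit 214) (nat_lit 1) (nat_lit 213) (nat_lit 1) (nat_lit 218) (nat_lit 1) (nat_lit 300) (nat_lit 303) (nat_lit 297)))) (XT.nd (nat_lit 78) (nat_lit 228) (nat_lit 0) (XT.lf (nat_lit 228) (nat_lit 543283195) (nat_lit 0) (nat_lit 1690834889) (nat_lit 152) (nat_lit 1690834889) (nat_lit 214) (nat_lit 1) (nat_lit 211) (nat_lit 1) (nat_lit 213) (nat_lit 1) (nat_lit 301) (nat_lit 303) (nat_lit 296)) (XT.nd (nat_lit 78) (nat_lit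 0) (nat_lit 0) (XT.lf (nat_lit 228) (nat_lit 3650856235) (nat_lit 0) (nat_lit 28644658) (nat_lit 152) (nat_lit 28644658) (nat_lit 211) (nat_lit 1) (nat_lit 208) (nat_lit 1) (nat_lit 210) (nat_lit 1) (nat_lit 302) (nat_lit 303) (nat_lit 295)) (XT.lf (nat_lit 76) (nat_lit 1402682301) (nat_lit 0) (nat_lit 688642345) (nat_lit 228) (nat_lit 1402682301) (nat_lit 209) (nat_lit 1) (nat_lit 208) (nat_lit 1) (nat_lit 211) (nat_lit 1) (nat_lit 303) (nat_lit 303) (nat_lit 294)))))) (XT.nd (nat_lit 390) (nat_lit 380) (nat_lit 0) (XT.nd (nat_lit 156) (nat_lit 304) (nat_lit 0) (XT.nd (nat_lit 78) (nat_lit 0) (nat_lit 0) (XT.lf (nat_lit 228) (nat_lit 2038852561) (nat_lit 0) (nat_lit 632432021) (nat_lit 152) (nat_lit 632432021) (nat_lit 209) (nat_lit 1) (nat_lit 206) (nat_lit 1) (nat_lit 208) (nat_lit 1) (nat_lit 304) (nat_lit 303) (nat_lit 293)) (XT.lf (nat_lit 76) (nat_lit 637616067) (nat_lit 0) (nat_lit 1850350926)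 (nat_lit 228) (nat_lit 637616067) (nat_lit 207) (nat_lit 1) (nat_lit 206) (nat_lit 1) (nat_lit 209) (nat_lit 1) (nat_lit 305) (nat_lit 303) (nat_lit 292))) (XT.nd (nat_lit 78) (nat_lit 228) (nat_lit 0) (XT.lf (nat_lit 152) (nat_lit 527107512) (nat_lit 0) (nat_lit 1216303177) (nat_lit 76) (nat_lit 1216303177) (nat_lit 207) (nat_lit 1) (nat_lit 205) (nat_lit 1) (nat_lit 206) (nat_lit 1) (nat_lit 306) (nat_lit 303) (nat_lit 291)) (XT.nd (nat_lit 78) (nat_lit 0) (nat_lit 0) (XT.lf (nat_lit 228) (nat_lit 2668528074) (nat_lit 0) (nat_lit 70892179) (nat_lit 152) (nat_lit 70892179) (nat_lit 205) (nat_lit 1) (nat_lit 202) (nat_lit 1) (nat_lit 204) (nat_lit 1) (nat_lit 307) (nat_lit 303) (nat_lit 290)) (XT.lf (nat_lit 76) (nat_lit 933927432) (nat_lit 0) (nat_lit 793121647) (nat_lit 228) (nat_lit 933927432) (nat_lit 203) (nat_lit 1) (nat_lit 202) (nat_lit 1) (nat_lit 205) (nat_lit 1) (nat_lit 308) (nat_lit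 303) (nat_lit 289))))) (XT.nd (nat_lit 234) (nat_lit 152) (nat_lit 0) (XT.nd (nat_lit 78) (nat_lit 152) (nat_lit 0) (XT.lf (nat_lit 152) (nat_lit 1135566308) (nat_lit 0) (nat_lit 695425289) (nat_lit 76) (nat_lit 695425289) (nat_lit 203) (nat_lit 1) (nat_lit 201) (nat_lit 1) (nat_lit 202) (nat_lit 1) (nat_lit 309) (nat_lit 303) (nat_lit 288)) (XT.nd (nat_lit 78) (nat_lit 152) (nat_lit 0) (XT.lf (nat_lit 0) (nat_lit 222359532) (nat_lit 0) (nat_lit 1957636247) (nat_lit 152) (nat_lit 222359532) (nat_lit 201) (nat_lit 3) (nat_lit 201) (nat_lit 1) (nat_lit 203) (nat_lit 1) (nat_lit 310) (nat_lit 303) (nat_lit 287)) (XT.lf (nat_lit 76) (nat_lit 1029078977) (nat_lit 0) (nat_lit 223189440) (nat_lit 152) (nat_lit 1029078977) (nat_lit 200) (nat_lit 1) (nat_lit 199) (nat_lit 1) (nat_lit 201) (nat_lit 1) (nat_lit 311) (nat_lit 303) (nat_lit 286)))) (XT.nd (nat_lit 78) (nat_lit 76) (nat_lit 0) (XT.lf (nat_lit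 152) (nat_lit 1374647094) (nat_lit 0) (nat_lit 397611666) (nat_lit 76) (nat_lit 397611666) (nat_lit 200) (nat_lit 1) (nat_lit 198) (nat_lit 1) (nat_lit 199) (nat_lit 1) (nat_lit 312) (nat_lit 303) (nat_lit 285)) (XT.nd (nat_lit 78) (nat_lit 76) (nat_lit 0) (XT.lf (nat_lit 0) (nat_lit 357415219) (nat_lit 0) (nat_lit 1349565313) (nat_lit 152) (nat_lit 357415219) (nat_lit 198) (nat_lit 3) (nat_lit 198) (nat_lit 1) (nat_lit 200) (nat_lit 1) (nat_lit 313) (nat_lit 303) (nat_lit 284)) (XT.lf (nat_lit 76) (nat_lit 79732948) (nat_lit 0) (nat_lit 942472160) (nat_lit 76) (nat_lit 942472160) (nat_lit 198) (nat_lit 3) (nat_lit 197) (nat_lit 1) (nat_lit 198) (nat_lit 1) (nat_lit 314) (nat_lit 303) (nat_lit 283))))))) (XT.nd (nat_lit 858) (nat_lit 912) (nat_lit 0) (XT.nd (nat_lit 390) (nat_lit 456) (nat_lit 0) (XT.nd (nat_lit 156) (nat_lit 228) (nat_lit 0) (XT.nd (nat_lit 78) (nat_lit 0) (nat_lit 0) (XT.lf (nat_lit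 152) (nat_lit 1416727087) (nat_lit 0) (nat_lit 227335760) (nat_lit 76) (nat_lit 227335760) (nat_lit 197) (nat_lit 1) (nat_lit 195) (nat_lit 1) (nat_lit 196) (nat_lit 1) (nat_lit 315) (nat_lit 303) (nat_lit 282)) (XT.lf (nat_lit 0) (nat_lit 404597168) (nat_lit 0) (nat_lit 971862205) (nat_lit 152) (nat_lit 404597168) (nat_lit 195) (nat_lit 3) (nat_lit 195) (nat_lit 1) (nat_lit 197) (nat_lit 1) (nat_lit 316) (nat_lit 303) (nat_lit 281))) (XT.nd (nat_lit 78) (nat_lit 152) (nat_lit 0) (XT.lf (nat_lit 76) (nat_lit 236729435) (nat_lit 0) (nat_lit 730003380) (nat_lit 76) (nat_lit 730003380) (nat_lit 195) (nat_lit 3) (nat_lit 194) (nat_lit 1) (nat_lit 195) (nat_lit 1) (nat_lit 317) (nat_lit 303) (nat_lit 280)) (XT.nd (nat_lit 78) (nat_lit 0) (nat_lit 0) (XT.lf (nat_lit 152) (nat_lit 1358512353) (nat_lit 0) (nat_lit 129979959) (nat_lit 76) (nat_lit 129979959) (nat_lit 194) (nat_lit 1) (nat_lit 192) (nat_lit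 1) (nat_lit 193) (nat_lit 1) (nat_lit 318) (nat_lit 303) (nat_lit 279)) (XT.lf (nat_lit 0) (nat_lit 405454837) (nat_lit 0) (nat_lit 729790463) (nat_lit 152) (nat_lit 405454837) (nat_lit 192) (nat_lit 3) (nat_lit 192) (nat_lit 1) (nat_lit 194) (nat_lit 1) (nat_lit 319) (nat_lit 303) (nat_lit 278))))) (XT.nd (nat_lit 234) (nat_lit 228) (nat_lit 0) (XT.nd (nat_lit 78) (nat_lit 152) (nat_lit 0) (XT.lf (nat_lit 76) (nat_lit 301561139) (nat_lit 0) (nat_lit 583592118) (nat_lit 76) (nat_lit 583592118) (nat_lit 192) (nat_lit 3) (nat_lit 191) (nat_lit 1) (nat_lit 192) (nat_lit 1) (nat_lit 320) (nat_lit 303) (nat_lit 277)) (XT.nd (nat_lit 78) (nat_lit 0) (nat_lit 0) (XT.lf (nat_lit 152) (nat_lit 1253685189) (nat_lit 0) (nat_lit 74316463) (nat_lit 76) (nat_lit 74316463) (nat_lit 191) (nat_lit 1) (nat_lit 189) (nat_lit 1) (nat_lit 190) (nat_lit 1) (nat_lit 321) (nat_lit 303) (nat_lit 276)) (XT.lf (nat_lit 0)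 (nat_lit 383233243) (nat_lit 0) (nat_lit 568673190) (nat_lit 152) (nat_lit 383233243) (nat_lit 189) (nat_lit 3) (nat_lit 189) (nat_lit 1) (nat_lit 191) (nat_lit 1) (nat_lit 322) (nat_lit 303) (nat_lit 275)))) (XT.nd (nat_lit 78) (nat_lit 152) (nat_lit 0) (XT.lf (nat_lit 76) (nat_lit 316949269) (nat_lit 0) (nat_lit 478201397) (nat_lit 76) (nat_lit 478201397) (nat_lit 189) (nat_lit 3) (nat_lit 188) (nat_lit 1) (nat_lit 189) (nat_lit 1) (nat_lit 323) (nat_lit 303) (nat_lit 274)) (XT.nd (nat_lit 78) (nat_lit 0) (nat_lit 0) (XT.lf (nat_lit 152) (nat_lit 1131538873) (nat_lit 0) (nat_lit 42490679) (nat_lit 76) (nat_lit 42490679) (nat_lit 188) (nat_lit 1) (nat_lit 186) (nat_lit 1) (nat_lit 187) (nat_lit 1) (nat_lit 324) (nat_lit 303) (nat_lit 273)) (XT.lf (nat_lit 0) (nat_lit 350778437) (nat_lit 0) (nat_lit 456804328) (nat_lit 152) (nat_lit 350778437) (nat_lit 186) (nat_lit 3) (nat_lit 186) (nat_lit 1)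 (nat_lit 188) (nat_lit 1) (nat_lit 325) (nat_lit 303) (nat_lit 272)))))) (XT.nd (nat_lit 468) (nat_lit 456) (nat_lit 0) (XT.nd (nat_lit 234) (nat_lit 228) (nat_lit 0) (XT.nd (nat_lit 78) (nat_lit 152) (nat_lit 0) (XT.lf (nat_lit 76) (nat_lit 306895651) (nat_lit 0) (nat_lit 399092078) (nat_lit 76) (nat_lit 399092078) (nat_lit 186) (nat_lit 3) (nat_lit 185) (nat_lit 1) (nat_lit 186) (nat_lit 1) (nat_lit 326) (nat_lit 303) (nat_lit 271)) (XT.nd (nat_lit 78) (nat_lit 0) (nat_lit 0) (XT.lf (nat_lit 152) (nat_lit 1007604759) (nat_lit 0) (nat_lit 24294183) (nat_lit 76) (nat_lit 24294183) (nat_lit 185) (nat_lit 1) (nat_lit 183) (nat_lit 1) (nat_lit 184) (nat_lit 1) (nat_lit 327) (nat_lit 303) (nat_lit 270)) (XT.lf (nat_lit 0) (nat_lit 315048785) (nat_lit 0) (nat_lit 375669432) (nat_lit 152) (nat_lit 315048785) (nat_lit 183) (nat_lit 3) (nat_lit 183) (nat_lit 1) (nat_lit 185) (nat_lit 1) (nat_lit 328) (nat_lit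 303) (nat_lit 269)))) (XT.nd (nat_lit 78) (nat_lit 152) (nat_lit 0) (XT.lf (nat_lit 76) (nat_lit 284754565) (nat_lit 0) (nat_lit 337468172) (nat_lit 76) (nat_lit 337468172) (nat_lit 183) (nat_lit 3) (nat_lit 182) (nat_lit 1) (nat_lit 183) (nat_lit 1) (nat_lit 329) (nat_lit 303) (nat_lit 268)) (XT.nd (nat_lit 78) (nat_lit 0) (nat_lit 0) (XT.lf (nat_lit 152) (nat_lit 889704541) (nat_lit 0) (nat_lit 13890278) (nat_lit 76) (nat_lit 13890278) (nat_lit 182) (nat_lit 1) (nat_lit 180) (nat_lit 1) (nat_lit 181) (nat_lit 1) (nat_lit 330) (nat_lit 303) (nat_lit 267)) (XT.lf (nat_lit 0) (nat_lit 279686752) (nat_lit 0) (nat_lit 314346804) (nat_lit 152) (nat_lit 279686752) (nat_lit 180) (nat_lit 3) (nat_lit 180) (nat_lit 1) (nat_lit 182) (nat_lit 1) (nat_lit 331) (nat_lit 303) (nat_lit 266))))) (XT.nd (nat_lit 234) (nat_lit 228) (nat_lit 0) (XT.nd (nat_lit 78) (nat_lit 152) (nat_lit 0) (XT.lf (nat_lit 76) (nat_lit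 257840634) (nat_lit 0) (nat_lit 287979810) (nat_lit 76) (nat_lit 287979810) (nat_lit 180) (nat_lit 3) (nat_lit 179) (nat_lit 1) (nat_lit 180) (nat_lit 1) (nat_lit 332) (nat_lit 303) (nat_lit 265)) (XT.nd (nat_lit 78) (nat_lit 0) (nat_lit 0) (XT.lf (nat_lit 152) (nat_lit 781389936) (nat_lit 0) (nat_lit 7941811) (nat_lit 76) (nat_lit 7941811) (nat_lit 179) (nat_lit 1) (nat_lit 177) (nat_lit 1) (nat_lit 178) (nat_lit 1) (nat_lit 333) (nat_lit 303) (nat_lit 264)) (XT.lf (nat_lit 0) (nat_lit 246482753) (nat_lit 0) (nat_lit 266299750) (nat_lit 152) (nat_lit 246482753) (nat_lit 177) (nat_lit 3) (nat_lit 177) (nat_lit 1) (nat_lit 179) (nat_lit 1) (nat_lit 334) (nat_lit 303) (nat_lit 263)))) (XT.nd (nat_lit 78) (nat_lit 152) (nat_lit 0) (XT.lf (nat_lit 76) (nat_lit 230057122) (nat_lit 0) (nat_lit 247289293) (nat_lit 76) (nat_lit 247289293) (nat_lit 177) (nat_lit 3) (nat_lit 176) (nat_lit 1) (nat_lit 177)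 (nat_lit 1) (nat_lit 335) (nat_lit 303) (nat_lit 262)) (XT.nd (nat_lit 78) (nat_lit 0) (nat_lit 0) (XT.lf (nat_lit 152) (nat_lit 683891343) (nat_lit 0) (nat_lit 4540756) (nat_lit 76) (nat_lit 4540756) (nat_lit 176) (nat_lit 1) (nat_lit 174) (nat_lit 1) (nat_lit 175) (nat_lit 1) (nat_lit 336) (nat_lit 303) (nat_lit 261)) (XT.lf (nat_lit 0) (nat_lit 216206397) (nat_lit 0) (nat_lit 227536829) (nat_lit 152) (nat_lit 216206397) (nat_lit 174) (nat_lit 3) (nat_lit 174) (nat_lit 1) (nat_lit 176) (nat_lit 1) (nat_lit 337) (nat_lit 303) (nat_lit 260))))))))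
noncomputable def ec28 : XT := (XT.nd (nat_lit 1716) (nat_lit 1064) (nat_lit 0) (XT.nd (nat_lit 858) (nat_lit 760) (nat_lit 0) (XT.nd (nat_lit 390) (nat_lit 456) (nat_lit 0) (XT.nd (nat_lit 156) (nat_lit 228) (nat_lit 0) (XT.nd (nat_lit 78) (nat_lit 152) (nat_lit 0) (XT.lf (nat_lit 76) (nat_lit 203393212) (nat_lit 0) (nat_lit 213245762) (nat_lit 76) (nat_lit 213245762) (nat_lit 174) (nat_lit 3) (nat_lit 173) (nat_lit 1) (nat_lit 174) (nat_lit 1) (nat_lit 338) (nat_lit 303) (nat_lit 259)) (XT.lf (nat_lit 152) (nat_lit 597216322) (nat_lit 0) (nat_lit 2596192) (nat_lit 76) (nat_lit 2596192) (nat_lit 173) (nat_lit 1) (nat_lit 171) (nat_lit 1) (nat_lit 172) (nat_lit 1) (nat_lit 339) (nat_lit 303) (nat_lit 258))) (XT.nd (nat_lit 78) (nat_lit 228) (nat_lit 0) (XT.lf (nat_lit 0) (nat_lit 189076781) (nat_lit 0) (nat_lit 195554992) (nat_lit 152) (nat_lit 189076781) (nat_lit 171) (nat_lit 3) (nat_lit 171)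 (nat_lit 1) (nat_lit 173) (nat_lit 1) (nat_lit 340) (nat_lit 303) (nat_lit 257)) (XT.nd (nat_lit 78) (nat_lit 152) (nat_lit 0) (XT.lf (nat_lit 76) (nat_lit 178775343) (nat_lit 0) (nat_lit 184408571) (nat_lit 76) (nat_lit 184408571) (nat_lit 171) (nat_lit 3) (nat_lit 170) (nat_lit 1) (nat_lit 171) (nat_lit 1) (nat_lit 341) (nat_lit 303) (nat_lit 256)) (XT.lf (nat_lit 152) (nat_lit 520764046) (nat_lit 0) (nat_lit 1484381) (nat_lit 76) (nat_lit 1484381) (nat_lit 170) (nat_lit 1) (nat_lit 168) (nat_lit 1) (nat_lit 169) (nat_lit 1) (nat_lit 342) (nat_lit 303) (nat_lit 255))))) (XT.nd (nat_lit 234) (nat_lit 228) (nat_lit 0) (XT.nd (nat_lit 78) (nat_lit 228) (nat_lit 0) (XT.lf (nat_lit 0) (nat_lit 165027065) (nat_lit 0) (nat_lit 168731003) (nat_lit 152) (nat_lit 165027065) (nat_lit 168) (nat_lit 3) (nat_lit 168) (nat_lit 1) (nat_lit 170) (nat_lit 1) (nat_lit 343) (nat_lit 303) (nat_lit 254)) (XT.nd (nat_lit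 78) (nat_lit 152) (nat_lit 0) (XT.lf (nat_lit 76) (nat_lit 156549830) (nat_lit 0) (nat_lit 159770646) (nat_lit 76) (nat_lit 159770646) (nat_lit 168) (nat_lit 3) (nat_lit 167) (nat_lit 1) (nat_lit 168) (nat_lit 1) (nat_lit 344) (nat_lit 303) (nat_lit 253)) (XT.lf (nat_lit 152) (nat_lit 453664773) (nat_lit 0) (nat_lit 848699) (nat_lit 76) (nat_lit 848699) (nat_lit 167) (nat_lit 1) (nat_lit 165) (nat_lit 1) (nat_lit 166) (nat_lit 1) (nat_lit 345) (nat_lit 303) (nat_lit 252)))) (XT.nd (nat_lit 78) (nat_lit 228) (nat_lit 0) (XT.lf (nat_lit 0) (nat_lit 143851979) (nat_lit 0) (nat_lit 145969717) (nat_lit 152) (nat_lit 143851979) (nat_lit 165) (nat_lit 3) (nat_lit 165) (nat_lit 1) (nat_lit 167) (nat_lit 1) (nat_lit 346) (nat_lit 303) (nat_lit 251)) (XT.nd (nat_lit 78) (nat_lit 152) (nat_lit 0) (XT.lf (nat_lit 76) (nat_lit 136755218) (nat_lit 0) (nat_lit 138596730) (nat_lit 76) (nat_lit 138596730) (nat_lit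 165) (nat_lit 3) (nat_lit 164) (nat_lit 1) (nat_lit 165) (nat_lit 1) (nat_lit 347) (nat_lit 303) (nat_lit 250)) (XT.lf (nat_lit 152) (nat_lit 394963645) (nat_lit 0) (nat_lit 485246) (nat_lit 76) (nat_lit 485246) (nat_lit 164) (nat_lit 1) (nat_lit 162) (nat_lit 1) (nat_lit 163) (nat_lit 1) (nat_lit 348) (nat_lit 303) (nat_lit 249)))))) (XT.nd (nat_lit 390) (nat_lit 456) (nat_lit 0) (XT.nd (nat_lit 156) (nat_lit 228) (nat_lit 0) (XT.nd (nat_lit 78) (nat_lit 76) (nat_lit 0) (XT.lf (nat_lit 0) (nat_lit 125288895) (nat_lit 0) (nat_lit 126499719) (nat_lit 152) (nat_lit 125288895) (nat_lit 162) (nat_lit 3) (nat_lit 162) (nat_lit 1) (nat_lit 164) (nat_lit 1) (nat_lit 349) (nat_lit 303) (nat_lit 248)) (XT.lf (nat_lit 76) (nat_lit 119274888) (nat_lit 0) (nat_lit 120327778) (nat_lit 76) (nat_lit 120327778) (nat_lit 162) (nat_lit 3) (nat_lit 161) (nat_lit 1) (nat_lit 162) (nat_lit 1) (nat_lit 350) (nat_lit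 303) (nat_lit 247))) (XT.nd (nat_lit 78) (nat_lit 76) (nat_lit 0) (XT.lf (nat_lit 152) (nat_lit 343716823) (nat_lit 0) (nat_lit 277441) (nat_lit 76) (nat_lit 277441) (nat_lit 161) (nat_lit 1) (nat_lit 159) (nat_lit 1) (nat_lit 160) (nat_lit 1) (nat_lit 351) (nat_lit 303) (nat_lit 246)) (XT.nd (nat_lit 78) (nat_lit 76) (nat_lit 0) (XT.lf (nat_lit 0) (nat_lit 109061341) (nat_lit 0) (nat_lit 109753634) (nat_lit 152) (nat_lit 109061341) (nat_lit 159) (nat_lit 3) (nat_lit 159) (nat_lit 1) (nat_lit 161) (nat_lit 1) (nat_lit 352) (nat_lit 303) (nat_lit 245)) (XT.lf (nat_lit 76) (nat_lit 103921585) (nat_lit 0) (nat_lit 104523579) (nat_lit 76) (nat_lit 104523579) (nat_lit 159) (nat_lit 3) (nat_lit 158) (nat_lit 1) (nat_lit 159) (nat_lit 1) (nat_lit 353) (nat_lit 303) (nat_lit 244))))) (XT.nd (nat_lit 234) (nat_lit 228) (nat_lit 0) (XT.nd (nat_lit 78) (nat_lit 76) (nat_lit 0) (XT.lf (nat_lit 152) (nat_lit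 299038667) (nat_lit 0) (nat_lit 158628) (nat_lit 76) (nat_lit 158628) (nat_lit 158) (nat_lit 1) (nat_lit 156) (nat_lit 1) (nat_lit 157) (nat_lit 1) (nat_lit 354) (nat_lit 303) (nat_lit 243)) (XT.nd (nat_lit 78) (nat_lit 76) (nat_lit 0) (XT.lf (nat_lit 0) (nat_lit 94901400) (nat_lit 0) (nat_lit 95297221) (nat_lit 152) (nat_lit 94901400) (nat_lit 156) (nat_lit 3) (nat_lit 156) (nat_lit 1) (nat_lit 158) (nat_lit 1) (nat_lit 355) (nat_lit 303) (nat_lit 242)) (XT.lf (nat_lit 76) (nat_lit 90483400) (nat_lit 0) (nat_lit 90827592) (nat_lit 76) (nat_lit 90827592) (nat_lit 156) (nat_lit 3) (nat_lit 155) (nat_lit 1) (nat_lit 156) (nat_lit 1) (nat_lit 356) (nat_lit 303) (nat_lit 241)))) (XT.nd (nat_lit 78) (nat_lit 76) (nat_lit 0) (XT.lf (nat_lit 152) (nat_lit 260121944) (nat_lit 0) (nat_lit 90696) (nat_lit 76) (nat_lit 90696) (nat_lit 155) (nat_lit 1) (nat_lit 153) (nat_lit 1) (nat_lit 154) (nat_lit 1) (nat_lit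 357) (nat_lit 303) (nat_lit 240)) (XT.nd (nat_lit 78) (nat_lit 76) (nat_lit 0) (XT.lf (nat_lit 0) (nat_lit 82560379) (nat_lit 0) (nat_lit 82786691) (nat_lit 152) (nat_lit 82560379) (nat_lit 153) (nat_lit 3) (nat_lit 153) (nat_lit 1) (nat_lit 155) (nat_lit 1) (nat_lit 358) (nat_lit 303) (nat_lit 239)) (XT.lf (nat_lit 76) (nat_lit 78748000) (nat_lit 0) (nat_lit 78944793) (nat_lit 76) (nat_lit 78944793) (nat_lit 153) (nat_lit 3) (nat_lit 152) (nat_lit 1) (nat_lit 153) (nat_lit 1) (nat_lit 359) (nat_lit 303) (nat_lit 238))))))) (XT.nd (nat_lit 858) (nat_lit 228) (nat_lit 0) (XT.nd (nat_lit 390) (nat_lit 456) (nat_lit 0) (XT.nd (nat_lit 156) (nat_lit 228) (nat_lit 0) (XT.nd (nat_lit 78) (nat_lit 0) (nat_lit 0) (XT.lf (nat_lit 152) (nat_lit 226243493) (nat_lit 0) (nat_lit 51855) (nat_lit 76) (nat_lit 51855) (nat_lit 152) (nat_lit 1) (nat_lit 150) (nat_lit 1) (nat_lit 151) (nat_lit 1) (nat_lit 360) (nat_lit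 303) (nat_lit 237)) (XT.lf (nat_lit 0) (nat_lit 71813030) (nat_lit 0) (nat_lit 71942425) (nat_lit 152) (nat_lit 71813030) (nat_lit 150) (nat_lit 3) (nat_lit 150) (nat_lit 1) (nat_lit 152) (nat_lit 1) (nat_lit 361) (nat_lit 303) (nat_lit 236))) (XT.nd (nat_lit 78) (nat_lit 152) (nat_lit 0) (XT.lf (nat_lit 76) (nat_lit 68514705) (nat_lit 0) (nat_lit 68627222) (nat_lit 76) (nat_lit 68627222) (nat_lit 150) (nat_lit 3) (nat_lit 149) (nat_lit 1) (nat_lit 150) (nat_lit 1) (nat_lit 362) (nat_lit 303) (nat_lit 235)) (XT.nd (nat_lit 78) (nat_lit 0) (nat_lit 0) (XT.lf (nat_lit 152) (nat_lit 196762344) (nat_lit 0) (nat_lit 29648) (nat_lit 76) (nat_lit 29648) (nat_lit 149) (nat_lit 1) (nat_lit 147) (nat_lit 1) (nat_lit 148) (nat_lit 1) (nat_lit 363) (nat_lit 303) (nat_lit 234)) (XT.lf (nat_lit 0) (nat_lit 62458347) (nat_lit 0) (nat_lit 62532328) (nat_lit 152) (nat_lit 62458347) (nat_lit 147) (nat_lit 3) (nat_lit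 147) (nat_lit 1) (nat_lit 149) (nat_lit 1) (nat_lit 364) (nat_lit 303) (nat_lit 233))))) (XT.nd (nat_lit 234) (nat_lit 228) (nat_lit 0) (XT.nd (nat_lit 78) (nat_lit 152) (nat_lit 0) (XT.lf (nat_lit 76) (nat_lit 59599836) (nat_lit 0) (nat_lit 59664168) (nat_lit 76) (nat_lit 59664168) (nat_lit 147) (nat_lit 3) (nat_lit 146) (nat_lit 1) (nat_lit 147) (nat_lit 1) (nat_lit 365) (nat_lit 303) (nat_lit 232)) (XT.nd (nat_lit 78) (nat_lit 0) (nat_lit 0) (XT.lf (nat_lit 152) (nat_lit 171114198) (nat_lit 0) (nat_lit 16951) (nat_lit 76) (nat_lit 16951) (nat_lit 146) (nat_lit 1) (nat_lit 144) (nat_lit 1) (nat_lit 145) (nat_lit 1) (nat_lit 366) (nat_lit 303) (nat_lit 231)) (XT.lf (nat_lit 0) (nat_lit 54318600) (nat_lit 0) (nat_lit 54360899) (nat_lit 152) (nat_lit 54318600) (nat_lit 144) (nat_lit 3) (nat_lit 144) (nat_lit 1) (nat_lit 146) (nat_lit 1) (nat_lit 367) (nat_lit 303) (nat_lit 230)))) (XT.nd (nat_lit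 78) (nat_lit 152) (nat_lit 0) (XT.lf (nat_lit 76) (nat_lit 51838427) (nat_lit 0) (nat_lit 51875209) (nat_lit 76) (nat_lit 51875209) (nat_lit 144) (nat_lit 3) (nat_lit 143) (nat_lit 1) (nat_lit 144) (nat_lit 1) (nat_lit 368) (nat_lit 303) (nat_lit 229)) (XT.nd (nat_lit 78) (nat_lit 0) (nat_lit 0) (XT.lf (nat_lit 152) (nat_lit 148804393) (nat_lit 0) (nat_lit 9692) (nat_lit 76) (nat_lit 9692) (nat_lit 143) (nat_lit 1) (nat_lit 141) (nat_lit 1) (nat_lit 142) (nat_lit 1) (nat_lit 369) (nat_lit 303) (nat_lit 228)) (XT.lf (nat_lit 0) (nat_lit 47237564) (nat_lit 0) (nat_lit 47261749) (nat_lit 152) (nat_lit 47237564) (nat_lit 141) (nat_lit 3) (nat_lit 141) (nat_lit 1) (nat_lit 143) (nat_lit 1) (nat_lit 370) (nat_lit 303) (nat_lit 227)))))) (XT.nd (nat_lit 40950) (nat_lit 0) (nat_lit 5320) (XT.nd (nat_lit 40716) (nat_lit 0) (nat_lit 5852) (XT.nd (nat_lit 78) (nat_lit 152) (nat_lit 0) (XT.lf (nat_lit 76)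 (nat_lit 45084030) (nat_lit 0) (nat_lit 45105060) (nat_lit 76) (nat_lit 45105060) (nat_lit 141) (nat_lit 3) (nat_lit 140) (nat_lit 1) (nat_lit 141) (nat_lit 1) (nat_lit 371) (nat_lit 303) (nat_lit 226)) (XT.lf (nat_lit 152) (nat_lit 129400521) (nat_lit 0) (nat_lit 5541) (nat_lit 76) (nat_lit 5541) (nat_lit 140) (nat_lit 1) (nat_lit 138) (nat_lit 1) (nat_lit 139) (nat_lit 1) (nat_lit 372) (nat_lit 303) (nat_lit 225))) (XT.nd (nat_lit 78) (nat_lit 0) (nat_lit 0) (XT.lf (nat_lit 380) (nat_lit 1227201279) (nat_lit 0) (nat_lit 1086962376) (nat_lit 380) (nat_lit 1227201279) (nat_lit 220) (nat_lit 1) (nat_lit 215) (nat_lit 0) (nat_lit 220) (nat_lit 0) (nat_lit 292) (nat_lit 304) (nat_lit 304)) (XT.nd (nat_lit 78) (nat_lit 0) (nat_lit 76) (XT.lf (nat_lit 380) (nat_lit 4539258274) (nat_lit 76) (nat_lit 1037554995) (nat_lit 0) (nat_lit 1037554995) (nat_lit 220) (nat_lit 1) (nat_lit 216) (nat_lit 1) (nat_lit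 215) (nat_lit 0) (nat_lit 293) (nat_lit 304) (nat_lit 303)) (XT.lf (nat_lit 380) (nat_lit 2000879017) (nat_lit 0) (nat_lit 2177145117) (nat_lit 304) (nat_lit 2000879017) (nat_lit 221) (nat_lit 1) (nat_lit 216) (nat_lit 1) (nat_lit 220) (nat_lit 1) (nat_lit 294) (nat_lit 304) (nat_lit 302))))) (XT.nd (nat_lit 234) (nat_lit 380) (nat_lit 0) (XT.nd (nat_lit 78) (nat_lit 228) (nat_lit 0) (XT.lf (nat_lit 380) (nat_lit 3435405381) (nat_lit 76) (nat_lit 1175962240) (nat_lit 0) (nat_lit 1175962240) (nat_lit 221) (nat_lit 1) (nat_lit 217) (nat_lit 1) (nat_lit 216) (nat_lit 1) (nat_lit 295) (nat_lit 304) (nat_lit 301)) (XT.nd (nat_lit 78) (nat_lit 304) (nat_lit 0) (XT.lf (nat_lit 76) (nat_lit 1389667040) (nat_lit 0) (nat_lit 2646159345) (nat_lit 304) (nat_lit 1389667040) (nat_lit 218) (nat_lit 1) (nat_lit 217) (nat_lit 1) (nat_lit 221) (nat_lit 1) (nat_lit 296) (nat_lit 304) (nat_lit 300)) (XT.lf (nat_lit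 380) (nat_lit 2088557327) (nat_lit 0) (nat_lit 1503303514) (nat_lit 304) (nat_lit 1503303514) (nat_lit 218) (nat_lit 1) (nat_lit 213) (nat_lit 1) (nat_lit 217) (nat_lit 1) (nat_lit 297) (nat_lit 304) (nat_lit 299)))) (XT.nd (nat_lit 78) (nat_lit 380) (nat_lit 0) (XT.lf (nat_lit 76) (nat_lit 694213389) (nat_lit 0) (nat_lit 3406522502) (nat_lit 380) (nat_lit 694213389) (nat_lit 214) (nat_lit 1) (nat_lit 213) (nat_lit 1) (nat_lit 218) (nat_lit 1) (nat_lit 298) (nat_lit 304) (nat_lit 298)) (XT.nd (nat_lit 78) (nat_lit 228) (nat_lit 0) (XT.lf (nat_lit 228) (nat_lit 624775674) (nat_lit 0) (nat_lit 1944460122) (nat_lit 152) (nat_lit 1944460122) (nat_lit 214) (nat_lit 1) (nat_lit 211) (nat_lit 1) (nat_lit 213) (nat_lit 1) (nat_lit 299) (nat_lit 304) (nat_lit 297)) (XT.lf (nat_lit 228) (nat_lit 4198484670) (nat_lit 0) (nat_lit 32941357) (nat_lit 152) (nat_lit 32941357) (nat_lit 211) (nat_lit 1) (nat_lit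 208) (nat_lit 1) (nat_lit 210) (nat_lit 1) (nat_lit 300) (nat_lit 304) (nat_lit 296))))))))
noncomputable def ec29 : XT := (XT.nd (nat_lit 1716) (nat_lit 1672) (nat_lit 0) (XT.nd (nat_lit 858) (nat_lit 912) (nat_lit 0) (XT.nd (nat_lit 390) (nat_lit 304) (nat_lit 0) (XT.nd (nat_lit 156) (nat_lit 304) (nat_lit 0) (XT.nd (nat_lit 78) (nat_lit 152) (nat_lit 0) (XT.lf (nat_lit 76) (nat_lit 1613084646) (nat_lit 0) (nat_lit 791938697) (nat_lit 228) (nat_lit 1613084646) (nat_lit 209) (nat_lit 1) (nat_lit 208) (nat_lit 1) (nat_lit 211) (nat_lit 1) (nat_lit 301) (nat_lit 304) (nat_lit 295)) (XT.lf (nat_lit 228) (nat_lit 2344680445) (nat_lit 0) (nat_lit 727296825) (nat_lit 152) (nat_lit 727296825) (nat_lit 209) (nat_lit 1) (nat_lit 206) (nat_lit 1) (nat_lit 208) (nat_lit 1) (nat_lit 302) (nat_lit 304) (nat_lit 294))) (XT.nd (nat_lit 78) (nat_lit 304) (nat_lit 0) (XT.lf (nat_lit 76) (nat_lit 733258477) (nat_lit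 0) (nat_lit 2127903565) (nat_lit 228) (nat_lit 733258477) (nat_lit 207) (nat_lit 1) (nat_lit 206) (nat_lit 1) (nat_lit 209) (nat_lit 1) (nat_lit 303) (nat_lit 304) (nat_lit 293)) (XT.nd (nat_lit 78) (nat_lit 228) (nat_lit 0) (XT.lf (nat_lit 152) (nat_lit 606173639) (nat_lit 0) (nat_lit 1398748654) (nat_lit 76) (nat_lit 1398748654) (nat_lit 207) (nat_lit 1) (nat_lit 205) (nat_lit 1) (nat_lit 206) (nat_lit 1) (nat_lit 304) (nat_lit 304) (nat_lit 292)) (XT.lf (nat_lit 228) (nat_lit 3068807286) (nat_lit 0) (nat_lit 81526006) (nat_lit 152) (nat_lit 81526006) (nat_lit 205) (nat_lit 1) (nat_lit 202) (nat_lit 1) (nat_lit 204) (nat_lit 1) (nat_lit 305) (nat_lit 304) (nat_lit 291))))) (XT.nd (nat_lit 234) (nat_lit 228) (nat_lit 0) (XT.nd (nat_lit 78) (nat_lit 76) (nat_lit 0) (XT.lf (nat_lit 76) (nat_lit 1074016547) (nat_lit 0) (nat_lit 912089894) (nat_lit 228) (nat_lit 1074016547) (nat_lit 203) (nat_lit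 1) (nat_lit 202) (nat_lit 1) (nat_lit 205) (nat_lit 1) (nat_lit 306) (nat_lit 304) (nat_lit 290)) (XT.nd (nat_lit 78) (nat_lit 0) (nat_lit 0) (XT.lf (nat_lit 152) (nat_lit 1305901255) (nat_lit 0) (nat_lit 799739083) (nat_lit 76) (nat_lit 799739083) (nat_lit 203) (nat_lit 1) (nat_lit 201) (nat_lit 1) (nat_lit 202) (nat_lit 1) (nat_lit 307) (nat_lit 304) (nat_lit 289)) (XT.lf (nat_lit 0) (nat_lit 255713462) (nat_lit 0) (nat_lit 2251281684) (nat_lit 152) (nat_lit 255713462) (nat_lit 201) (nat_lit 3) (nat_lit 201) (nat_lit 1) (nat_lit 203) (nat_lit 1) (nat_lit 308) (nat_lit 304) (nat_lit 288)))) (XT.nd (nat_lit 78) (nat_lit 76) (nat_lit 0) (XT.lf (nat_lit 76) (nat_lit 1183440823) (nat_lit 0) (nat_lit 256667856) (nat_lit 152) (nat_lit 1183440823) (nat_lit 200) (nat_lit 1) (nat_lit 199) (nat_lit 1) (nat_lit 201) (nat_lit 1) (nat_lit 309) (nat_lit 304) (nat_lit 287)) (XT.nd (nat_lit 78) (nat_lit 0) (nat_lit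 0) (XT.lf (nat_lit 152) (nat_lit 1580844158) (nat_lit 0) (nat_lit 457253416) (nat_lit 76) (nat_lit 457253416) (nat_lit 200) (nat_lit 1) (nat_lit 198) (nat_lit 1) (nat_lit 199) (nat_lit 1) (nat_lit 310) (nat_lit 304) (nat_lit 286)) (XT.lf (nat_lit 0) (nat_lit 411027502) (nat_lit 0) (nat_lit 1552000110) (nat_lit 152) (nat_lit 411027502) (nat_lit 198) (nat_lit 3) (nat_lit 198) (nat_lit 1) (nat_lit 200) (nat_lit 1) (nat_lit 311) (nat_lit 304) (nat_lit 285)))))) (XT.nd (nat_lit 390) (nat_lit 456) (nat_lit 0) (XT.nd (nat_lit 156) (nat_lit 228) (nat_lit 0) (XT.nd (nat_lit 78) (nat_lit 152) (nat_lit 0) (XT.lf (nat_lit 76) (nat_lit 91692890) (nat_lit 0) (nat_lit 1083842984) (nat_lit 76) (nat_lit 1083842984) (nat_lit 198) (nat_lit 3) (nat_lit 197) (nat_lit 1) (nat_lit 198) (nat_lit 1) (nat_lit 312) (nat_lit 304) (nat_lit 284)) (XT.lf (nat_lit 152) (nat_lit 1629236150) (nat_lit 0) (nat_lit 261436124) (nat_lit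 76) (nat_lit 261436124) (nat_lit 197) (nat_lit 1) (nat_lit 195) (nat_lit 1) (nat_lit 196) (nat_lit 1) (nat_lit 313) (nat_lit 304) (nat_lit 283))) (XT.nd (nat_lit 78) (nat_lit 228) (nat_lit 0) (XT.lf (nat_lit 0) (nat_lit 465286744) (nat_lit 0) (nat_lit 1117641535) (nat_lit 152) (nat_lit 465286744) (nat_lit 195) (nat_lit 3) (nat_lit 195) (nat_lit 1) (nat_lit 197) (nat_lit 1) (nat_lit 314) (nat_lit 304) (nat_lit 282)) (XT.nd (nat_lit 78) (nat_lit 152) (nat_lit 0) (XT.lf (nat_lit 76) (nat_lit 272238850) (nat_lit 0) (nat_lit 839503887) (nat_lit 76) (nat_lit 839503887) (nat_lit 195) (nat_lit 3) (nat_lit 194) (nat_lit 1) (nat_lit 195) (nat_lit 1) (nat_lit 315) (nat_lit 304) (nat_lit 281)) (XT.lf (nat_lit 152) (nat_lit 1562289206) (nat_lit 0) (nat_lit 149476952) (nat_lit 76) (nat_lit 149476952) (nat_lit 194) (nat_lit 1) (nat_lit 192) (nat_lit 1) (nat_lit 193) (nat_lit 1) (nat_lit 316) (nat_lit 304) (nat_lit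 280))))) (XT.nd (nat_lit 234) (nat_lit 228) (nat_lit 0) (XT.nd (nat_lit 78) (nat_lit 228) (nat_lit 0) (XT.lf (nat_lit 0) (nat_lit 466273063) (nat_lit 0) (nat_lit 839259032) (nat_lit 152) (nat_lit 466273063) (nat_lit 192) (nat_lit 3) (nat_lit 192) (nat_lit 1) (nat_lit 194) (nat_lit 1) (nat_lit 317) (nat_lit 304) (nat_lit 279)) (XT.nd (nat_lit 78) (nat_lit 152) (nat_lit 0) (XT.lf (nat_lit 76) (nat_lit 346795310) (nat_lit 0) (nat_lit 671130935) (nat_lit 76) (nat_lit 671130935) (nat_lit 192) (nat_lit 3) (nat_lit 191) (nat_lit 1) (nat_lit 192) (nat_lit 1) (nat_lit 318) (nat_lit 304) (nat_lit 278)) (XT.lf (nat_lit 152) (nat_lit 1441737967) (nat_lit 0) (nat_lit 85463932) (nat_lit 76) (nat_lit 85463932) (nat_lit 191) (nat_lit 1) (nat_lit 189) (nat_lit 1) (nat_lit 190) (nat_lit 1) (nat_lit 319) (nat_lit 304) (nat_lit 277)))) (XT.nd (nat_lit 78) (nat_lit 228) (nat_lit 0) (XT.lf (nat_lit 0) (nat_lit 440718230)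 (nat_lit 0) (nat_lit 653974168) (nat_lit 152) (nat_lit 440718230) (nat_lit 189) (nat_lit 3) (nat_lit 189) (nat_lit 1) (nat_lit 191) (nat_lit 1) (nat_lit 320) (nat_lit 304) (nat_lit 276)) (XT.nd (nat_lit 78) (nat_lit 152) (nat_lit 0) (XT.lf (nat_lit 76) (nat_lit 364491660) (nat_lit 0) (nat_lit 549931606) (nat_lit 76) (nat_lit 549931606) (nat_lit 189) (nat_lit 3) (nat_lit 188) (nat_lit 1) (nat_lit 189) (nat_lit 1) (nat_lit 321) (nat_lit 304) (nat_lit 275)) (XT.lf (nat_lit 152) (nat_lit 1301269703) (nat_lit 0) (nat_lit 48864281) (nat_lit 76) (nat_lit 48864281) (nat_lit 188) (nat_lit 1) (nat_lit 186) (nat_lit 1) (nat_lit 187) (nat_lit 1) (nat_lit 322) (nat_lit 304) (nat_lit 274))))))) (XT.nd (nat_lit 858) (nat_lit 912) (nat_lit 0) (XT.nd (nat_lit 390) (nat_lit 456) (nat_lit 0) (XT.nd (nat_lit 156) (nat_lit 228) (nat_lit 0) (XT.nd (nat_lit 78) (nat_lit 76) (nat_lit 0) (XT.lf (nat_lit 0) (nat_lit 403395202)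 (nat_lit 0) (nat_lit 525324977) (nat_lit 152) (nat_lit 403395202) (nat_lit 186) (nat_lit 3) (nat_lit 186) (nat_lit 1) (nat_lit 188) (nat_lit 1) (nat_lit 323) (nat_lit 304) (nat_lit 273)) (XT.lf (nat_lit 76) (nat_lit 352929999) (nat_lit 0) (nat_lit 458955890) (nat_lit 76) (nat_lit 458955890) (nat_lit 186) (nat_lit 3) (nat_lit 185) (nat_lit 1) (nat_lit 186) (nat_lit 1) (nat_lit 324) (nat_lit 304) (nat_lit 272))) (XT.nd (nat_lit 78) (nat_lit 76) (nat_lit 0) (XT.lf (nat_lit 152) (nat_lit 1158745473) (nat_lit 0) (nat_lit 27938311) (nat_lit 76) (nat_lit 27938311) (nat_lit 185) (nat_lit 1) (nat_lit 183) (nat_lit 1) (nat_lit 184) (nat_lit 1) (nat_lit 325) (nat_lit 304) (nat_lit 271)) (XT.nd (nat_lit 78) (nat_lit 76) (nat_lit 0) (XT.lf (nat_lit 0) (nat_lit 362306102) (nat_lit 0) (nat_lit 432019847) (nat_lit 152) (nat_lit 362306102) (nat_lit 183) (nat_lit 3) (nat_lit 183) (nat_lit 1) (nat_lit 185) (nat_lit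 1) (nat_lit 326) (nat_lit 304) (nat_lit 270)) (XT.lf (nat_lit 76) (nat_lit 327467750) (nat_lit 0) (nat_lit 388088398) (nat_lit 76) (nat_lit 388088398) (nat_lit 183) (nat_lit 3) (nat_lit 182) (nat_lit 1) (nat_lit 183) (nat_lit 1) (nat_lit 327) (nat_lit 304) (nat_lit 269))))) (XT.nd (nat_lit 234) (nat_lit 228) (nat_lit 0) (XT.nd (nat_lit 78) (nat_lit 76) (nat_lit 0) (XT.lf (nat_lit 152) (nat_lit 1023160222) (nat_lit 0) (nat_lit 15973820) (nat_lit 76) (nat_lit 15973820) (nat_lit 182) (nat_lit 1) (nat_lit 180) (nat_lit 1) (nat_lit 181) (nat_lit 1) (nat_lit 328) (nat_lit 304) (nat_lit 268)) (XT.nd (nat_lit 78) (nat_lit 76) (nat_lit 0) (XT.lf (nat_lit 0) (nat_lit 321639765) (nat_lit 0) (nat_lit 361498825) (nat_lit 152) (nat_lit 321639765) (nat_lit 180) (nat_lit 3) (nat_lit 180) (nat_lit 1) (nat_lit 182) (nat_lit 1) (nat_lit 329) (nat_lit 304) (nat_lit 267)) (XT.lf (nat_lit 76) (nat_lit 296516730) (nat_lit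 0) (nat_lit 331176781) (nat_lit 76) (nat_lit 331176781) (nat_lit 180) (nat_lit 3) (nat_lit 179) (nat_lit 1) (nat_lit 180) (nat_lit 1) (nat_lit 330) (nat_lit 304) (nat_lit 266)))) (XT.nd (nat_lit 78) (nat_lit 76) (nat_lit 0) (XT.lf (nat_lit 152) (nat_lit 898598427) (nat_lit 0) (nat_lit 9133083) (nat_lit 76) (nat_lit 9133083) (nat_lit 179) (nat_lit 1) (nat_lit 177) (nat_lit 1) (nat_lit 178) (nat_lit 1) (nat_lit 331) (nat_lit 304) (nat_lit 265)) (XT.nd (nat_lit 78) (nat_lit 76) (nat_lit 0) (XT.lf (nat_lit 0) (nat_lit 283455166) (nat_lit 0) (nat_lit 306244713) (nat_lit 152) (nat_lit 283455166) (nat_lit 177) (nat_lit 3) (nat_lit 177) (nat_lit 1) (nat_lit 179) (nat_lit 1) (nat_lit 332) (nat_lit 304) (nat_lit 264)) (XT.lf (nat_lit 76) (nat_lit 264565690) (nat_lit 0) (nat_lit 284382687) (nat_lit 76) (nat_lit 284382687) (nat_lit 177) (nat_lit 3) (nat_lit 176) (nat_lit 1) (nat_lit 177) (nat_lit 1) (nat_lit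 333) (nat_lit 304) (nat_lit 263)))))) (XT.nd (nat_lit 468) (nat_lit 456) (nat_lit 0) (XT.nd (nat_lit 234) (nat_lit 228) (nat_lit 0) (XT.nd (nat_lit 78) (nat_lit 76) (nat_lit 0) (XT.lf (nat_lit 152) (nat_lit 786475044) (nat_lit 0) (nat_lit 5221870) (nat_lit 76) (nat_lit 5221870) (nat_lit 176) (nat_lit 1) (nat_lit 174) (nat_lit 1) (nat_lit 175) (nat_lit 1) (nat_lit 334) (nat_lit 304) (nat_lit 262)) (XT.nd (nat_lit 78) (nat_lit 76) (nat_lit 0) (XT.lf (nat_lit 0) (nat_lit 248637356) (nat_lit 0) (nat_lit 261667354) (nat_lit 152) (nat_lit 248637356) (nat_lit 174) (nat_lit 3) (nat_lit 174) (nat_lit 1) (nat_lit 176) (nat_lit 1) (nat_lit 335) (nat_lit 304) (nat_lit 261)) (XT.lf (nat_lit 76) (nat_lit 233902194) (nat_lit 0) (nat_lit 245232626) (nat_lit 76) (nat_lit 245232626) (nat_lit 174) (nat_lit 3) (nat_lit 173) (nat_lit 1) (nat_lit 174) (nat_lit 1) (nat_lit 336) (nat_lit 304) (nat_lit 260)))) (XT.nd (nat_lit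 78) (nat_lit 76) (nat_lit 0) (XT.lf (nat_lit 152) (nat_lit 686798770) (nat_lit 0) (nat_lit 2985621) (nat_lit 76) (nat_lit 2985621) (nat_lit 173) (nat_lit 1) (nat_lit 171) (nat_lit 1) (nat_lit 172) (nat_lit 1) (nat_lit 337) (nat_lit 304) (nat_lit 259)) (XT.nd (nat_lit 78) (nat_lit 76) (nat_lit 0) (XT.lf (nat_lit 0) (nat_lit 217438298) (nat_lit 0) (nat_lit 224888241) (nat_lit 152) (nat_lit 217438298) (nat_lit 171) (nat_lit 3) (nat_lit 171) (nat_lit 1) (nat_lit 173) (nat_lit 1) (nat_lit 338) (nat_lit 304) (nat_lit 258)) (XT.lf (nat_lit 76) (nat_lit 205591645) (nat_lit 0) (nat_lit 212069856) (nat_lit 76) (nat_lit 212069856) (nat_lit 171) (nat_lit 3) (nat_lit 170) (nat_lit 1) (nat_lit 171) (nat_lit 1) (nat_lit 339) (nat_lit 304) (nat_lit 257))))) (XT.nd (nat_lit 234) (nat_lit 228) (nat_lit 0) (XT.nd (nat_lit 78) (nat_lit 76) (nat_lit 0) (XT.lf (nat_lit 152) (nat_lit 598878653) (nat_lit 0) (nat_lit 1707038)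 (nat_lit 76) (nat_lit 1707038) (nat_lit 170) (nat_lit 1) (nat_lit 168) (nat_lit 1) (nat_lit 169) (nat_lit 1) (nat_lit 340) (nat_lit 304) (nat_lit 256)) (XT.nd (nat_lit 78) (nat_lit 76) (nat_lit 0) (XT.lf (nat_lit 0) (nat_lit 189781125) (nat_lit 0) (nat_lit 194040654) (nat_lit 152) (nat_lit 189781125) (nat_lit 168) (nat_lit 3) (nat_lit 168) (nat_lit 1) (nat_lit 170) (nat_lit 1) (nat_lit 341) (nat_lit 304) (nat_lit 255)) (XT.lf (nat_lit 76) (nat_lit 180032304) (nat_lit 0) (nat_lit 183736243) (nat_lit 76) (nat_lit 183736243) (nat_lit 168) (nat_lit 3) (nat_lit 167) (nat_lit 1) (nat_lit 168) (nat_lit 1) (nat_lit 342) (nat_lit 304) (nat_lit 254)))) (XT.nd (nat_lit 78) (nat_lit 76) (nat_lit 0) (XT.lf (nat_lit 152) (nat_lit 521714489) (nat_lit 0) (nat_lit 976004) (nat_lit 76) (nat_lit 976004) (nat_lit 167) (nat_lit 1) (nat_lit 165) (nat_lit 1) (nat_lit 166) (nat_lit 1) (nat_lit 343) (nat_lit 304) (nat_lit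 253)) (XT.nd (nat_lit 78) (nat_lit 76) (nat_lit 0) (XT.lf (nat_lit 0) (nat_lit 165429775) (nat_lit 0) (nat_lit 167865175) (nat_lit 152) (nat_lit 165429775) (nat_lit 165) (nat_lit 3) (nat_lit 165) (nat_lit 1) (nat_lit 167) (nat_lit 1) (nat_lit 344) (nat_lit 304) (nat_lit 252)) (XT.lf (nat_lit 76) (nat_lit 157268501) (nat_lit 0) (nat_lit 159386240) (nat_lit 76) (nat_lit 159386240) (nat_lit 165) (nat_lit 3) (nat_lit 164) (nat_lit 1) (nat_lit 165) (nat_lit 1) (nat_lit 345) (nat_lit 304) (nat_lit 251))))))))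
noncomputable def ec30 : XT := (XT.nd (nat_lit 1716) (nat_lit 304) (nat_lit 0) (XT.nd (nat_lit 858) (nat_lit 912) (nat_lit 0) (XT.nd (nat_lit 390) (nat_lit 456) (nat_lit 0) (XT.nd (nat_lit 156) (nat_lit 228) (nat_lit 0) (XT.nd (nat_lit 78) (nat_lit 0) (nat_lit 0) (XT.lf (nat_lit 152) (nat_lit 454208192) (nat_lit 0) (nat_lit 558033) (nat_lit 76) (nat_lit 558033) (nat_lit 164) (nat_lit 1) (nat_lit 162) (nat_lit 1) (nat_lit 163) (nat_lit 1) (nat_lit 346) (nat_lit 304) (nat_lit 250)) (XT.lf (nat_lit 0) (nat_lit 144082230) (nat_lit 0) (nat_lit 145474677) (nat_lit 152) (nat_lit 144082230) (nat_lit 162) (nat_lit 3) (nat_lit 162) (nat_lit 1) (nat_lit 164) (nat_lit 1) (nat_lit 347) (nat_lit 304) (nat_lit 249))) (XT.nd (nat_lit 78) (nat_lit 152) (nat_lit 0) (XT.lf (nat_lit 76) (nat_lit 137166121) (nat_lit 0) (nat_lit 138376945) (nat_lit 76) (nat_lit 138376945) (nat_lit 162) (nat_lit 3) (nat_lit 161) (nat_lit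 1) (nat_lit 162) (nat_lit 1) (nat_lit 348) (nat_lit 304) (nat_lit 248)) (XT.nd (nat_lit 78) (nat_lit 0) (nat_lit 0) (XT.lf (nat_lit 152) (nat_lit 395274346) (nat_lit 0) (nat_lit 319057) (nat_lit 76) (nat_lit 319057) (nat_lit 161) (nat_lit 1) (nat_lit 159) (nat_lit 1) (nat_lit 160) (nat_lit 1) (nat_lit 349) (nat_lit 304) (nat_lit 247)) (XT.lf (nat_lit 0) (nat_lit 125420542) (nat_lit 0) (nat_lit 126216679) (nat_lit 152) (nat_lit 125420542) (nat_lit 159) (nat_lit 3) (nat_lit 159) (nat_lit 1) (nat_lit 161) (nat_lit 1) (nat_lit 350) (nat_lit 304) (nat_lit 246))))) (XT.nd (nat_lit 234) (nat_lit 228) (nat_lit 0) (XT.nd (nat_lit 78) (nat_lit 152) (nat_lit 0) (XT.lf (nat_lit 76) (nat_lit 119509823) (nat_lit 0) (nat_lit 120202115) (nat_lit 76) (nat_lit 120202115) (nat_lit 159) (nat_lit 3) (nat_lit 158) (nat_lit 1) (nat_lit 159) (nat_lit 1) (nat_lit 351) (nat_lit 304) (nat_lit 245)) (XT.nd (nat_lit 78) (nat_lit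 0) (nat_lit 0) (XT.lf (nat_lit 152) (nat_lit 343894467) (nat_lit 0) (nat_lit 182422) (nat_lit 76) (nat_lit 182422) (nat_lit 158) (nat_lit 1) (nat_lit 156) (nat_lit 1) (nat_lit 157) (nat_lit 1) (nat_lit 352) (nat_lit 304) (nat_lit 244)) (XT.lf (nat_lit 0) (nat_lit 109136611) (nat_lit 0) (nat_lit 109591804) (nat_lit 152) (nat_lit 109136611) (nat_lit 156) (nat_lit 3) (nat_lit 156) (nat_lit 1) (nat_lit 158) (nat_lit 1) (nat_lit 353) (nat_lit 304) (nat_lit 243)))) (XT.nd (nat_lit 78) (nat_lit 152) (nat_lit 0) (XT.lf (nat_lit 76) (nat_lit 104055910) (nat_lit 0) (nat_lit 104451730) (nat_lit 76) (nat_lit 104451730) (nat_lit 156) (nat_lit 3) (nat_lit 155) (nat_lit 1) (nat_lit 156) (nat_lit 1) (nat_lit 354) (nat_lit 304) (nat_lit 242)) (XT.nd (nat_lit 78) (nat_lit 0) (nat_lit 0) (XT.lf (nat_lit 152) (nat_lit 299140236) (nat_lit 0) (nat_lit 104300) (nat_lit 76) (nat_lit 104300) (nat_lit 155) (nat_lit 1) (nat_lit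 153) (nat_lit 1) (nat_lit 154) (nat_lit 1) (nat_lit 355) (nat_lit 304) (nat_lit 241)) (XT.lf (nat_lit 0) (nat_lit 94944436) (nat_lit 0) (nat_lit 95204694) (nat_lit 152) (nat_lit 94944436) (nat_lit 153) (nat_lit 3) (nat_lit 153) (nat_lit 1) (nat_lit 155) (nat_lit 1) (nat_lit 356) (nat_lit 304) (nat_lit 240)))))) (XT.nd (nat_lit 390) (nat_lit 456) (nat_lit 0) (XT.nd (nat_lit 156) (nat_lit 228) (nat_lit 0) (XT.nd (nat_lit 78) (nat_lit 152) (nat_lit 0) (XT.lf (nat_lit 76) (nat_lit 90560200) (nat_lit 0) (nat_lit 90786512) (nat_lit 76) (nat_lit 90786512) (nat_lit 153) (nat_lit 3) (nat_lit 152) (nat_lit 1) (nat_lit 153) (nat_lit 1) (nat_lit 357) (nat_lit 304) (nat_lit 239)) (XT.lf (nat_lit 152) (nat_lit 260180017) (nat_lit 0) (nat_lit 59634) (nat_lit 76) (nat_lit 59634) (nat_lit 152) (nat_lit 1) (nat_lit 150) (nat_lit 1) (nat_lit 151) (nat_lit 1) (nat_lit 358) (nat_lit 304) (nat_lit 238))) (XT.nd (nat_lit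 78) (nat_lit 228) (nat_lit 0) (XT.lf (nat_lit 0) (nat_lit 82584985) (nat_lit 0) (nat_lit 82733788) (nat_lit 152) (nat_lit 82584985) (nat_lit 150) (nat_lit 3) (nat_lit 150) (nat_lit 1) (nat_lit 152) (nat_lit 1) (nat_lit 359) (nat_lit 304) (nat_lit 237)) (XT.nd (nat_lit 78) (nat_lit 152) (nat_lit 0) (XT.lf (nat_lit 76) (nat_lit 78791911) (nat_lit 0) (nat_lit 78921306) (nat_lit 76) (nat_lit 78921306) (nat_lit 150) (nat_lit 3) (nat_lit 149) (nat_lit 1) (nat_lit 150) (nat_lit 1) (nat_lit 360) (nat_lit 304) (nat_lit 236)) (XT.lf (nat_lit 152) (nat_lit 226276696) (nat_lit 0) (nat_lit 34096) (nat_lit 76) (nat_lit 34096) (nat_lit 149) (nat_lit 1) (nat_lit 147) (nat_lit 1) (nat_lit 148) (nat_lit 1) (nat_lit 361) (nat_lit 304) (nat_lit 235))))) (XT.nd (nat_lit 234) (nat_lit 228) (nat_lit 0) (XT.nd (nat_lit 78) (nat_lit 228) (nat_lit 0) (XT.lf (nat_lit 0) (nat_lit 71827099) (nat_lit 0) (nat_lit 71912178) (nat_lit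 152) (nat_lit 71827099) (nat_lit 147) (nat_lit 3) (nat_lit 147) (nat_lit 1) (nat_lit 149) (nat_lit 1) (nat_lit 362) (nat_lit 304) (nat_lit 234)) (XT.nd (nat_lit 78) (nat_lit 152) (nat_lit 0) (XT.lf (nat_lit 76) (nat_lit 68539812) (nat_lit 0) (nat_lit 68613793) (nat_lit 76) (nat_lit 68613793) (nat_lit 147) (nat_lit 3) (nat_lit 146) (nat_lit 1) (nat_lit 147) (nat_lit 1) (nat_lit 363) (nat_lit 304) (nat_lit 233)) (XT.lf (nat_lit 152) (nat_lit 196781328) (nat_lit 0) (nat_lit 19494) (nat_lit 76) (nat_lit 19494) (nat_lit 146) (nat_lit 1) (nat_lit 144) (nat_lit 1) (nat_lit 145) (nat_lit 1) (nat_lit 364) (nat_lit 304) (nat_lit 232)))) (XT.nd (nat_lit 78) (nat_lit 228) (nat_lit 0) (XT.lf (nat_lit 0) (nat_lit 62466390) (nat_lit 0) (nat_lit 62515034) (nat_lit 152) (nat_lit 62466390) (nat_lit 144) (nat_lit 3) (nat_lit 144) (nat_lit 1) (nat_lit 146) (nat_lit 1) (nat_lit 365) (nat_lit 304) (nat_lit 231)) (XT.nd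 (nat_lit 78) (nat_lit 152) (nat_lit 0) (XT.lf (nat_lit 76) (nat_lit 59614191) (nat_lit 0) (nat_lit 59656490) (nat_lit 76) (nat_lit 59656490) (nat_lit 144) (nat_lit 3) (nat_lit 143) (nat_lit 1) (nat_lit 144) (nat_lit 1) (nat_lit 366) (nat_lit 304) (nat_lit 230)) (XT.lf (nat_lit 152) (nat_lit 171125052) (nat_lit 0) (nat_lit 11146) (nat_lit 76) (nat_lit 11146) (nat_lit 143) (nat_lit 1) (nat_lit 141) (nat_lit 1) (nat_lit 142) (nat_lit 1) (nat_lit 367) (nat_lit 304) (nat_lit 229))))))) (XT.nd (nat_lit 41262) (nat_lit 0) (nat_lit 4712) (XT.nd (nat_lit 40794) (nat_lit 0) (nat_lit 5776) (XT.nd (nat_lit 156) (nat_lit 228) (nat_lit 0) (XT.nd (nat_lit 78) (nat_lit 76) (nat_lit 0) (XT.lf (nat_lit 0) (nat_lit 54323199) (nat_lit 0) (nat_lit 54351012) (nat_lit 152) (nat_lit 54323199) (nat_lit 141) (nat_lit 3) (nat_lit 141) (nat_lit 1) (nat_lit 143) (nat_lit 1) (nat_lit 368) (nat_lit 304) (nat_lit 228)) (XT.lf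 (nat_lit 76) (nat_lit 51846634) (nat_lit 0) (nat_lit 51870819) (nat_lit 76) (nat_lit 51870819) (nat_lit 141) (nat_lit 3) (nat_lit 140) (nat_lit 1) (nat_lit 141) (nat_lit 1) (nat_lit 369) (nat_lit 304) (nat_lit 227))) (XT.nd (nat_lit 78) (nat_lit 76) (nat_lit 0) (XT.lf (nat_lit 152) (nat_lit 148810599) (nat_lit 0) (nat_lit 6372) (nat_lit 76) (nat_lit 6372) (nat_lit 140) (nat_lit 1) (nat_lit 138) (nat_lit 1) (nat_lit 139) (nat_lit 1) (nat_lit 370) (nat_lit 304) (nat_lit 226)) (XT.nd (nat_lit 78) (nat_lit 76) (nat_lit 0) (XT.lf (nat_lit 0) (nat_lit 47240194) (nat_lit 0) (nat_lit 47256096) (nat_lit 152) (nat_lit 47240194) (nat_lit 138) (nat_lit 3) (nat_lit 138) (nat_lit 1) (nat_lit 140) (nat_lit 1) (nat_lit 371) (nat_lit 304) (nat_lit 225)) (XT.lf (nat_lit 76) (nat_lit 45088722) (nat_lit 0) (nat_lit 45102550) (nat_lit 76) (nat_lit 45102550) (nat_lit 138) (nat_lit 3) (nat_lit 137) (nat_lit 1) (nat_lit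 138) (nat_lit 1) (nat_lit 372) (nat_lit 304) (nat_lit 224))))) (XT.nd (nat_lit 234) (nat_lit 152) (nat_lit 0) (XT.nd (nat_lit 78) (nat_lit 0) (nat_lit 0) (XT.lf (nat_lit 380) (nat_lit 1411281471) (nat_lit 0) (nat_lit 1250006733) (nat_lit 380) (nat_lit 1411281471) (nat_lit 220) (nat_lit 1) (nat_lit 215) (nat_lit 0) (nat_lit 220) (nat_lit 0) (nat_lit 290) (nat_lit 305) (nat_lit 305)) (XT.nd (nat_lit 78) (nat_lit 0) (nat_lit 76) (XT.lf (nat_lit 380) (nat_lit 5220147015) (nat_lit 76) (nat_lit 1193188245) (nat_lit 0) (nat_lit 1193188245) (nat_lit 220) (nat_lit 1) (nat_lit 216) (nat_lit 1) (nat_lit 215) (nat_lit 0) (nat_lit 291) (nat_lit 305) (nat_lit 304)) (XT.lf (nat_lit 380) (nat_lit 2301010870) (nat_lit 0) (nat_lit 2503716885) (nat_lit 304) (nat_lit 2301010870) (nat_lit 221) (nat_lit 1) (nat_lit 216) (nat_lit 1) (nat_lit 220) (nat_lit 1) (nat_lit 292) (nat_lit 305) (nat_lit 303)))) (XT.nd (nat_lit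 78) (nat_lit 228) (nat_lit 0) (XT.lf (nat_lit 380) (nat_lit 3950716189) (nat_lit 76) (nat_lit 1352356576) (nat_lit 0) (nat_lit 1352356576) (nat_lit 221) (nat_lit 1) (nat_lit 217) (nat_lit 1) (nat_lit 216) (nat_lit 1) (nat_lit 293) (nat_lit 305) (nat_lit 302)) (XT.nd (nat_lit 78) (nat_lit 304) (nat_lit 0) (XT.lf (nat_lit 76) (nat_lit 1598117096) (nat_lit 0) (nat_lit 3043083247) (nat_lit 304) (nat_lit 1598117096) (nat_lit 218) (nat_lit 1) (nat_lit 217) (nat_lit 1) (nat_lit 221) (nat_lit 1) (nat_lit 294) (nat_lit 305) (nat_lit 301)) (XT.lf (nat_lit 380) (nat_lit 2401840926) (nat_lit 0) (nat_lit 1728799041) (nat_lit 304) (nat_lit 1728799041) (nat_lit 218) (nat_lit 1) (nat_lit 213) (nat_lit 1) (nat_lit 217) (nat_lit 1) (nat_lit 295) (nat_lit 305) (nat_lit 300)))))) (XT.nd (nat_lit 468) (nat_lit 532) (nat_lit 0) (XT.nd (nat_lit 234) (nat_lit 152) (nat_lit 0) (XT.nd (nat_lit 78) (nat_lit 380) (nat_lit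 0) (XT.lf (nat_lit 76) (nat_lit 798345397) (nat_lit 0) (nat_lit 3917500877) (nat_lit 380) (nat_lit 798345397) (nat_lit 214) (nat_lit 1) (nat_lit 213) (nat_lit 1) (nat_lit 218) (nat_lit 1) (nat_lit 296) (nat_lit 305) (nat_lit 299)) (XT.nd (nat_lit 78) (nat_lit 228) (nat_lit 0) (XT.lf (nat_lit 228) (nat_lit 718492025) (nat_lit 0) (nat_lit 2236129141) (nat_lit 152) (nat_lit 2236129141) (nat_lit 214) (nat_lit 1) (nat_lit 211) (nat_lit 1) (nat_lit 213) (nat_lit 1) (nat_lit 297) (nat_lit 305) (nat_lit 298)) (XT.lf (nat_lit 228) (nat_lit 4828257371) (nat_lit 0) (nat_lit 37882561) (nat_lit 152) (nat_lit 37882561) (nat_lit 211) (nat_lit 1) (nat_lit 208) (nat_lit 1) (nat_lit 210) (nat_lit 1) (nat_lit 298) (nat_lit 305) (nat_lit 297)))) (XT.nd (nat_lit 78) (nat_lit 152) (nat_lit 0) (XT.lf (nat_lit 76) (nat_lit 1855047343) (nat_lit 0) (nat_lit 910729501) (nat_lit 228) (nat_lit 1855047343) (nat_lit 209) (nat_lit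 1) (nat_lit 208) (nat_lit 1) (nat_lit 211) (nat_lit 1) (nat_lit 299) (nat_lit 305) (nat_lit 296)) (XT.nd (nat_lit 78) (nat_lit 0) (nat_lit 0) (XT.lf (nat_lit 228) (nat_lit 2696382512) (nat_lit 0) (nat_lit 836391348) (nat_lit 152) (nat_lit 836391348) (nat_lit 209) (nat_lit 1) (nat_lit 206) (nat_lit 1) (nat_lit 208) (nat_lit 1) (nat_lit 300) (nat_lit 305) (nat_lit 295)) (XT.lf (nat_lit 76) (nat_lit 843247249) (nat_lit 0) (nat_lit 2447089100) (nat_lit 228) (nat_lit 843247249) (nat_lit 207) (nat_lit 1) (nat_lit 206) (nat_lit 1) (nat_lit 209) (nat_lit 1) (nat_lit 301) (nat_lit 305) (nat_lit 294))))) (XT.nd (nat_lit 234) (nat_lit 228) (nat_lit 0) (XT.nd (nat_lit 78) (nat_lit 228) (nat_lit 0) (XT.lf (nat_lit 152) (nat_lit 697099685) (nat_lit 0) (nat_lit 1608560952) (nat_lit 76) (nat_lit 1608560952) (nat_lit 207) (nat_lit 1) (nat_lit 205) (nat_lit 1) (nat_lit 206) (nat_lit 1) (nat_lit 302) (nat_lit 305)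 (nat_lit 293)) (XT.nd (nat_lit 78) (nat_lit 0) (nat_lit 0) (XT.lf (nat_lit 228) (nat_lit 3529128378) (nat_lit 0) (nat_lit 93754907) (nat_lit 152) (nat_lit 93754907) (nat_lit 205) (nat_lit 1) (nat_lit 202) (nat_lit 1) (nat_lit 204) (nat_lit 1) (nat_lit 303) (nat_lit 305) (nat_lit 292)) (XT.lf (nat_lit 76) (nat_lit 1235119030) (nat_lit 0) (nat_lit 1048903378) (nat_lit 228) (nat_lit 1235119030) (nat_lit 203) (nat_lit 1) (nat_lit 202) (nat_lit 1) (nat_lit 205) (nat_lit 1) (nat_lit 304) (nat_lit 305) (nat_lit 291)))) (XT.nd (nat_lit 78) (nat_lit 152) (nat_lit 0) (XT.lf (nat_lit 152) (nat_lit 1501786443) (nat_lit 0) (nat_lit 919699945) (nat_lit 76) (nat_lit 919699945) (nat_lit 203) (nat_lit 1) (nat_lit 201) (nat_lit 1) (nat_lit 202) (nat_lit 1) (nat_lit 305) (nat_lit 305) (nat_lit 290)) (XT.nd (nat_lit 78) (nat_lit 152) (nat_lit 0) (XT.lf (nat_lit 0) (nat_lit 294070481) (nat_lit 0) (nat_lit 2588973937)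 (nat_lit 152) (nat_lit 294070481) (nat_lit 201) (nat_lit 3) (nat_lit 201) (nat_lit 1) (nat_lit 203) (nat_lit 1) (nat_lit 306) (nat_lit 305) (nat_lit 289)) (XT.lf (nat_lit 76) (nat_lit 1360956947) (nat_lit 0) (nat_lit 295168034) (nat_lit 152) (nat_lit 1360956947) (nat_lit 200) (nat_lit 1) (nat_lit 199) (nat_lit 1) (nat_lit 201) (nat_lit 1) (nat_lit 307) (nat_lit 305) (nat_lit 288))))))))
noncomputable def ec31 : XT := (XT.nd (nat_lit 1716) (nat_lit 1672) (nat_lit 0) (XT.nd (nat_lit 858) (nat_lit 912) (nat_lit 0) (XT.nd (nat_lit 390) (nat_lit 456) (nat_lit 0) (XT.nd (nat_lit 156) (nat_lit 228) (nat_lit 0) (XT.nd (nat_lit 78) (nat_lit 0) (nat_lit 0) (XT.lf (nat_lit 152) (nat_lit 1817970782) (nat_lit 0) (nat_lit 525841428) (nat_lit 76) (nat_lit 525841428) (nat_lit 200) (nat_lit 1) (nat_lit 198) (nat_lit 1) (nat_lit 199) (nat_lit 1) (nat_lit 308) (nat_lit 305) (nat_lit 287)) (XT.lf (nat_lit 0) (nat_lit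 472681628) (nat_lit 0) (nat_lit 1784800127) (nat_lit 152) (nat_lit 472681628) (nat_lit 198) (nat_lit 3) (nat_lit 198) (nat_lit 1) (nat_lit 200) (nat_lit 1) (nat_lit 309) (nat_lit 305) (nat_lit 286))) (XT.nd (nat_lit 78) (nat_lit 152) (nat_lit 0) (XT.lf (nat_lit 76) (nat_lit 105446824) (nat_lit 0) (nat_lit 1246419432) (nat_lit 76) (nat_lit 1246419432) (nat_lit 198) (nat_lit 3) (nat_lit 197) (nat_lit 1) (nat_lit 198) (nat_lit 1) (nat_lit 310) (nat_lit 305) (nat_lit 285)) (XT.nd (nat_lit 78) (nat_lit 0) (nat_lit 0) (XT.lf (nat_lit 152) (nat_lit 1873621573) (nat_lit 0) (nat_lit 300651543) (nat_lit 76) (nat_lit 300651543) (nat_lit 197) (nat_lit 1) (nat_lit 195) (nat_lit 1) (nat_lit 196) (nat_lit 1) (nat_lit 311) (nat_lit 305) (nat_lit 284)) (XT.lf (nat_lit 0) (nat_lit 535079755) (nat_lit 0) (nat_lit 1285287766) (nat_lit 152) (nat_lit 535079755) (nat_lit 195) (nat_lit 3) (nat_lit 195) (nat_lit 1) (nat_lit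 197) (nat_lit 1) (nat_lit 312) (nat_lit 305) (nat_lit 283))))) (XT.nd (nat_lit 234) (nat_lit 228) (nat_lit 0) (XT.nd (nat_lit 78) (nat_lit 152) (nat_lit 0) (XT.lf (nat_lit 76) (nat_lit 313074678) (nat_lit 0) (nat_lit 965429470) (nat_lit 76) (nat_lit 965429470) (nat_lit 195) (nat_lit 3) (nat_lit 194) (nat_lit 1) (nat_lit 195) (nat_lit 1) (nat_lit 313) (nat_lit 305) (nat_lit 282)) (XT.nd (nat_lit 78) (nat_lit 0) (nat_lit 0) (XT.lf (nat_lit 152) (nat_lit 1796632587) (nat_lit 0) (nat_lit 171898495) (nat_lit 76) (nat_lit 171898495) (nat_lit 194) (nat_lit 1) (nat_lit 192) (nat_lit 1) (nat_lit 193) (nat_lit 1) (nat_lit 314) (nat_lit 305) (nat_lit 281)) (XT.lf (nat_lit 0) (nat_lit 536214022) (nat_lit 0) (nat_lit 965147887) (nat_lit 152) (nat_lit 536214022) (nat_lit 192) (nat_lit 3) (nat_lit 192) (nat_lit 1) (nat_lit 194) (nat_lit 1) (nat_lit 315) (nat_lit 305) (nat_lit 280)))) (XT.nd (nat_lit 78) (nat_lit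 152) (nat_lit 0) (XT.lf (nat_lit 76) (nat_lit 398814606) (nat_lit 0) (nat_lit 771800576) (nat_lit 76) (nat_lit 771800576) (nat_lit 192) (nat_lit 3) (nat_lit 191) (nat_lit 1) (nat_lit 192) (nat_lit 1) (nat_lit 316) (nat_lit 305) (nat_lit 279)) (XT.nd (nat_lit 78) (nat_lit 0) (nat_lit 0) (XT.lf (nat_lit 152) (nat_lit 1657998662) (nat_lit 0) (nat_lit 98283522) (nat_lit 76) (nat_lit 98283522) (nat_lit 191) (nat_lit 1) (nat_lit 189) (nat_lit 1) (nat_lit 190) (nat_lit 1) (nat_lit 317) (nat_lit 305) (nat_lit 278)) (XT.lf (nat_lit 0) (nat_lit 506825964) (nat_lit 0) (nat_lit 752070294) (nat_lit 152) (nat_lit 506825964) (nat_lit 189) (nat_lit 3) (nat_lit 189) (nat_lit 1) (nat_lit 191) (nat_lit 1) (nat_lit 318) (nat_lit 305) (nat_lit 277)))))) (XT.nd (nat_lit 390) (nat_lit 456) (nat_lit 0) (XT.nd (nat_lit 156) (nat_lit 228) (nat_lit 0) (XT.nd (nat_lit 78) (nat_lit 152) (nat_lit 0) (XT.lf (nat_lit 76) (nat_lit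 419165409) (nat_lit 0) (nat_lit 632421347) (nat_lit 76) (nat_lit 632421347) (nat_lit 189) (nat_lit 3) (nat_lit 188) (nat_lit 1) (nat_lit 189) (nat_lit 1) (nat_lit 319) (nat_lit 305) (nat_lit 276)) (XT.lf (nat_lit 152) (nat_lit 1496460159) (nat_lit 0) (nat_lit 56193923) (nat_lit 76) (nat_lit 56193923) (nat_lit 188) (nat_lit 1) (nat_lit 186) (nat_lit 1) (nat_lit 187) (nat_lit 1) (nat_lit 320) (nat_lit 305) (nat_lit 275))) (XT.nd (nat_lit 78) (nat_lit 228) (nat_lit 0) (XT.lf (nat_lit 0) (nat_lit 463904483) (nat_lit 0) (nat_lit 604123724) (nat_lit 152) (nat_lit 463904483) (nat_lit 186) (nat_lit 3) (nat_lit 186) (nat_lit 1) (nat_lit 188) (nat_lit 1) (nat_lit 321) (nat_lit 305) (nat_lit 274)) (XT.nd (nat_lit 78) (nat_lit 152) (nat_lit 0) (XT.lf (nat_lit 76) (nat_lit 405869499) (nat_lit 0) (nat_lit 527799274) (nat_lit 76) (nat_lit 527799274) (nat_lit 186) (nat_lit 3) (nat_lit 185) (nat_lit 1) (nat_lit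 186) (nat_lit 1) (nat_lit 322) (nat_lit 305) (nat_lit 273)) (XT.lf (nat_lit 152) (nat_lit 1332557294) (nat_lit 0) (nat_lit 32129057) (nat_lit 76) (nat_lit 32129057) (nat_lit 185) (nat_lit 1) (nat_lit 183) (nat_lit 1) (nat_lit 184) (nat_lit 1) (nat_lit 323) (nat_lit 305) (nat_lit 272))))) (XT.nd (nat_lit 234) (nat_lit 228) (nat_lit 0) (XT.nd (nat_lit 78) (nat_lit 228) (nat_lit 0) (XT.lf (nat_lit 0) (nat_lit 416652018) (nat_lit 0) (nat_lit 496822824) (nat_lit 152) (nat_lit 416652018) (nat_lit 183) (nat_lit 3) (nat_lit 183) (nat_lit 1) (nat_lit 185) (nat_lit 1) (nat_lit 324) (nat_lit 305) (nat_lit 271)) (XT.nd (nat_lit 78) (nat_lit 152) (nat_lit 0) (XT.lf (nat_lit 76) (nat_lit 376587913) (nat_lit 0) (nat_lit 446301657) (nat_lit 76) (nat_lit 446301657) (nat_lit 183) (nat_lit 3) (nat_lit 182) (nat_lit 1) (nat_lit 183) (nat_lit 1) (nat_lit 325) (nat_lit 305) (nat_lit 270)) (XT.lf (nat_lit 152) (nat_lit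 1176634255) (nat_lit 0) (nat_lit 18369893) (nat_lit 76) (nat_lit 18369893) (nat_lit 182) (nat_lit 1) (nat_lit 180) (nat_lit 1) (nat_lit 181) (nat_lit 1) (nat_lit 326) (nat_lit 305) (nat_lit 269)))) (XT.nd (nat_lit 78) (nat_lit 228) (nat_lit 0) (XT.lf (nat_lit 0) (nat_lit 369885730) (nat_lit 0) (nat_lit 415723648) (nat_lit 152) (nat_lit 369885730) (nat_lit 180) (nat_lit 3) (nat_lit 180) (nat_lit 1) (nat_lit 182) (nat_lit 1) (nat_lit 327) (nat_lit 305) (nat_lit 268)) (XT.nd (nat_lit 78) (nat_lit 152) (nat_lit 0) (XT.lf (nat_lit 76) (nat_lit 340994239) (nat_lit 0) (nat_lit 380853299) (nat_lit 76) (nat_lit 380853299) (nat_lit 180) (nat_lit 3) (nat_lit 179) (nat_lit 1) (nat_lit 180) (nat_lit 1) (nat_lit 328) (nat_lit 305) (nat_lit 267)) (XT.lf (nat_lit 152) (nat_lit 1033388191) (nat_lit 0) (nat_lit 10503046) (nat_lit 76) (nat_lit 10503046) (nat_lit 179) (nat_lit 1) (nat_lit 177) (nat_lit 1) (nat_lit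 178) (nat_lit 1) (nat_lit 329) (nat_lit 305) (nat_lit 266))))))) (XT.nd (nat_lit 858) (nat_lit 912) (nat_lit 0) (XT.nd (nat_lit 390) (nat_lit 456) (nat_lit 0) (XT.nd (nat_lit 156) (nat_lit 228) (nat_lit 0) (XT.nd (nat_lit 78) (nat_lit 76) (nat_lit 0) (XT.lf (nat_lit 0) (nat_lit 325973441) (nat_lit 0) (nat_lit 352181420) (nat_lit 152) (nat_lit 325973441) (nat_lit 177) (nat_lit 3) (nat_lit 177) (nat_lit 1) (nat_lit 179) (nat_lit 1) (nat_lit 330) (nat_lit 305) (nat_lit 265)) (XT.lf (nat_lit 76) (nat_lit 304250543) (nat_lit 0) (nat_lit 327040090) (nat_lit 76) (nat_lit 327040090) (nat_lit 177) (nat_lit 3) (nat_lit 176) (nat_lit 1) (nat_lit 177) (nat_lit 1) (nat_lit 331) (nat_lit 305) (nat_lit 264))) (XT.nd (nat_lit 78) (nat_lit 76) (nat_lit 0) (XT.lf (nat_lit 152) (nat_lit 904446301) (nat_lit 0) (nat_lit 6005150) (nat_lit 76) (nat_lit 6005150) (nat_lit 176) (nat_lit 1) (nat_lit 174) (nat_lit 1) (nat_lit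 175) (nat_lit 1) (nat_lit 332) (nat_lit 305) (nat_lit 263)) (XT.nd (nat_lit 78) (nat_lit 76) (nat_lit 0) (XT.lf (nat_lit 0) (nat_lit 285932960) (nat_lit 0) (nat_lit 300917457) (nat_lit 152) (nat_lit 285932960) (nat_lit 174) (nat_lit 3) (nat_lit 174) (nat_lit 1) (nat_lit 176) (nat_lit 1) (nat_lit 333) (nat_lit 305) (nat_lit 262)) (XT.lf (nat_lit 76) (nat_lit 268987523) (nat_lit 0) (nat_lit 282017521) (nat_lit 76) (nat_lit 282017521) (nat_lit 174) (nat_lit 3) (nat_lit 173) (nat_lit 1) (nat_lit 174) (nat_lit 1) (nat_lit 334) (nat_lit 305) (nat_lit 261))))) (XT.nd (nat_lit 234) (nat_lit 228) (nat_lit 0) (XT.nd (nat_lit 78) (nat_lit 76) (nat_lit 0) (XT.lf (nat_lit 152) (nat_lit 789818586) (nat_lit 0) (nat_lit 3433464) (nat_lit 76) (nat_lit 3433464) (nat_lit 173) (nat_lit 1) (nat_lit 171) (nat_lit 1) (nat_lit 172) (nat_lit 1) (nat_lit 335) (nat_lit 305) (nat_lit 260)) (XT.nd (nat_lit 78) (nat_lit 76)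 (nat_lit 0) (XT.lf (nat_lit 0) (nat_lit 250054043) (nat_lit 0) (nat_lit 258621478) (nat_lit 152) (nat_lit 250054043) (nat_lit 171) (nat_lit 3) (nat_lit 171) (nat_lit 1) (nat_lit 173) (nat_lit 1) (nat_lit 336) (nat_lit 305) (nat_lit 259)) (XT.lf (nat_lit 76) (nat_lit 236430392) (nat_lit 0) (nat_lit 243880335) (nat_lit 76) (nat_lit 243880335) (nat_lit 171) (nat_lit 3) (nat_lit 170) (nat_lit 1) (nat_lit 171) (nat_lit 1) (nat_lit 337) (nat_lit 305) (nat_lit 258)))) (XT.nd (nat_lit 78) (nat_lit 76) (nat_lit 0) (XT.lf (nat_lit 152) (nat_lit 688710451) (nat_lit 0) (nat_lit 1963094) (nat_lit 76) (nat_lit 1963094) (nat_lit 170) (nat_lit 1) (nat_lit 168) (nat_lit 1) (nat_lit 169) (nat_lit 1) (nat_lit 338) (nat_lit 305) (nat_lit 257)) (XT.nd (nat_lit 78) (nat_lit 76) (nat_lit 0) (XT.lf (nat_lit 0) (nat_lit 218248293) (nat_lit 0) (nat_lit 223146752) (nat_lit 152) (nat_lit 218248293) (nat_lit 168) (nat_lit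 3) (nat_lit 168) (nat_lit 1) (nat_lit 170) (nat_lit 1) (nat_lit 339) (nat_lit 305) (nat_lit 256)) (XT.lf (nat_lit 76) (nat_lit 207037150) (nat_lit 0) (nat_lit 211296679) (nat_lit 76) (nat_lit 211296679) (nat_lit 168) (nat_lit 3) (nat_lit 167) (nat_lit 1) (nat_lit 168) (nat_lit 1) (nat_lit 340) (nat_lit 305) (nat_lit 255)))))) (XT.nd (nat_lit 468) (nat_lit 456) (nat_lit 0) (XT.nd (nat_lit 234) (nat_lit 228) (nat_lit 0) (XT.nd (nat_lit 78) (nat_lit 76) (nat_lit 0) (XT.lf (nat_lit 152) (nat_lit 599971662) (nat_lit 0) (nat_lit 1122405) (nat_lit 76) (nat_lit 1122405) (nat_lit 167) (nat_lit 1) (nat_lit 165) (nat_lit 1) (nat_lit 166) (nat_lit 1) (nat_lit 341) (nat_lit 305) (nat_lit 254)) (XT.nd (nat_lit 78) (nat_lit 76) (nat_lit 0) (XT.lf (nat_lit 0) (nat_lit 190244242) (nat_lit 0) (nat_lit 193044951) (nat_lit 152) (nat_lit 190244242) (nat_lit 165) (nat_lit 3) (nat_lit 165) (nat_lit 1) (nat_lit 167) (nat_lit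 1) (nat_lit 342) (nat_lit 305) (nat_lit 253)) (XT.lf (nat_lit 76) (nat_lit 180858776) (nat_lit 0) (nat_lit 183294176) (nat_lit 76) (nat_lit 183294176) (nat_lit 165) (nat_lit 3) (nat_lit 164) (nat_lit 1) (nat_lit 165) (nat_lit 1) (nat_lit 343) (nat_lit 305) (nat_lit 252)))) (XT.nd (nat_lit 78) (nat_lit 76) (nat_lit 0) (XT.lf (nat_lit 152) (nat_lit 522339420) (nat_lit 0) (nat_lit 641739) (nat_lit 76) (nat_lit 641739) (nat_lit 164) (nat_lit 1) (nat_lit 162) (nat_lit 1) (nat_lit 163) (nat_lit 1) (nat_lit 344) (nat_lit 305) (nat_lit 251)) (XT.nd (nat_lit 78) (nat_lit 76) (nat_lit 0) (XT.lf (nat_lit 0) (nat_lit 165694564) (nat_lit 0) (nat_lit 167295879) (nat_lit 152) (nat_lit 165694564) (nat_lit 162) (nat_lit 3) (nat_lit 162) (nat_lit 1) (nat_lit 164) (nat_lit 1) (nat_lit 345) (nat_lit 305) (nat_lit 250)) (XT.lf (nat_lit 76) (nat_lit 157741039) (nat_lit 0) (nat_lit 159133487) (nat_lit 76) (nat_lit 159133487)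 (nat_lit 162) (nat_lit 3) (nat_lit 161) (nat_lit 1) (nat_lit 162) (nat_lit 1) (nat_lit 346) (nat_lit 305) (nat_lit 249))))) (XT.nd (nat_lit 234) (nat_lit 228) (nat_lit 0) (XT.nd (nat_lit 78) (nat_lit 76) (nat_lit 0) (XT.lf (nat_lit 152) (nat_lit 454565498) (nat_lit 0) (nat_lit 366916) (nat_lit 76) (nat_lit 366916) (nat_lit 161) (nat_lit 1) (nat_lit 159) (nat_lit 1) (nat_lit 160) (nat_lit 1) (nat_lit 347) (nat_lit 305) (nat_lit 248)) (XT.nd (nat_lit 78) (nat_lit 76) (nat_lit 0) (XT.lf (nat_lit 0) (nat_lit 144233624) (nat_lit 0) (nat_lit 145149181) (nat_lit 152) (nat_lit 144233624) (nat_lit 159) (nat_lit 3) (nat_lit 159) (nat_lit 1) (nat_lit 161) (nat_lit 1) (nat_lit 348) (nat_lit 305) (nat_lit 247)) (XT.lf (nat_lit 76) (nat_lit 137436296) (nat_lit 0) (nat_lit 138232433) (nat_lit 76) (nat_lit 138232433) (nat_lit 159) (nat_lit 3) (nat_lit 158) (nat_lit 1) (nat_lit 159) (nat_lit 1) (nat_lit 349) (nat_lit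 305) (nat_lit 246)))) (XT.nd (nat_lit 78) (nat_lit 76) (nat_lit 0) (XT.lf (nat_lit 152) (nat_lit 395478638) (nat_lit 0) (nat_lit 209785) (nat_lit 76) (nat_lit 209785) (nat_lit 158) (nat_lit 1) (nat_lit 156) (nat_lit 1) (nat_lit 157) (nat_lit 1) (nat_lit 350) (nat_lit 305) (nat_lit 245)) (XT.nd (nat_lit 78) (nat_lit 76) (nat_lit 0) (XT.lf (nat_lit 0) (nat_lit 125507102) (nat_lit 0) (nat_lit 126030575) (nat_lit 152) (nat_lit 125507102) (nat_lit 156) (nat_lit 3) (nat_lit 156) (nat_lit 1) (nat_lit 158) (nat_lit 1) (nat_lit 351) (nat_lit 305) (nat_lit 244)) (XT.lf (nat_lit 76) (nat_lit 119664296) (nat_lit 0) (nat_lit 120119490) (nat_lit 76) (nat_lit 120119490) (nat_lit 156) (nat_lit 3) (nat_lit 155) (nat_lit 1) (nat_lit 156) (nat_lit 1) (nat_lit 352) (nat_lit 305) (nat_lit 243))))))))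
noncomputable def ec32 : XT := (XT.nd (nat_lit 41964) (nat_lit 0) (nat_lit 4484) (XT.nd (nat_lit 858) (nat_lit 684) (nat_lit 0) (XT.nd (nat_lit 390) (nat_lit 456) (nat_lit 0) (XT.nd (nat_lit 156) (nat_lit 228) (nat_lit 0) (XT.nd (nat_lit 78) (nat_lit 0) (nat_lit 0) (XT.lf (nat_lit 152) (nat_lit 344011272) (nat_lit 0) (nat_lit 119945) (nat_lit 76) (nat_lit 119945) (nat_lit 155) (nat_lit 1) (nat_lit 153) (nat_lit 1) (nat_lit 154) (nat_lit 1) (nat_lit 353) (nat_lit 305) (nat_lit 242)) (XT.lf (nat_lit 0) (nat_lit 109186101) (nat_lit 0) (nat_lit 109485399) (nat_lit 152) (nat_lit 109186101) (nat_lit 153) (nat_lit 3) (nat_lit 153) (nat_lit 1) (nat_lit 155) (nat_lit 1) (nat_lit 354) (nat_lit 305) (nat_lit 241))) (XT.nd (nat_lit 78) (nat_lit 152) (nat_lit 0) (XT.lf (nat_lit 76) (nat_lit 104144231) (nat_lit 0) (nat_lit 104404489) (nat_lit 76) (nat_lit 104404489) (nat_lit 153) (nat_lit 3) (nat_lit 152) (nat_lit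 1) (nat_lit 153) (nat_lit 1) (nat_lit 355) (nat_lit 305) (nat_lit 240)) (XT.nd (nat_lit 78) (nat_lit 0) (nat_lit 0) (XT.lf (nat_lit 152) (nat_lit 299207019) (nat_lit 0) (nat_lit 68579) (nat_lit 76) (nat_lit 68579) (nat_lit 152) (nat_lit 1) (nat_lit 150) (nat_lit 1) (nat_lit 151) (nat_lit 1) (nat_lit 356) (nat_lit 305) (nat_lit 239)) (XT.lf (nat_lit 0) (nat_lit 94972733) (nat_lit 0) (nat_lit 95143857) (nat_lit 152) (nat_lit 94972733) (nat_lit 150) (nat_lit 3) (nat_lit 150) (nat_lit 1) (nat_lit 152) (nat_lit 1) (nat_lit 357) (nat_lit 305) (nat_lit 238))))) (XT.nd (nat_lit 234) (nat_lit 228) (nat_lit 0) (XT.nd (nat_lit 78) (nat_lit 152) (nat_lit 0) (XT.lf (nat_lit 76) (nat_lit 90610698) (nat_lit 0) (nat_lit 90759502) (nat_lit 76) (nat_lit 90759502) (nat_lit 150) (nat_lit 3) (nat_lit 149) (nat_lit 1) (nat_lit 150) (nat_lit 1) (nat_lit 358) (nat_lit 305) (nat_lit 237)) (XT.nd (nat_lit 78) (nat_lit 0)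 (nat_lit 0) (XT.lf (nat_lit 152) (nat_lit 260218200) (nat_lit 0) (nat_lit 39210) (nat_lit 76) (nat_lit 39210) (nat_lit 149) (nat_lit 1) (nat_lit 147) (nat_lit 1) (nat_lit 148) (nat_lit 1) (nat_lit 359) (nat_lit 305) (nat_lit 236)) (XT.lf (nat_lit 0) (nat_lit 82601163) (nat_lit 0) (nat_lit 82699004) (nat_lit 152) (nat_lit 82601163) (nat_lit 147) (nat_lit 3) (nat_lit 147) (nat_lit 1) (nat_lit 149) (nat_lit 1) (nat_lit 360) (nat_lit 305) (nat_lit 235)))) (XT.nd (nat_lit 78) (nat_lit 152) (nat_lit 0) (XT.lf (nat_lit 76) (nat_lit 78820784) (nat_lit 0) (nat_lit 78905863) (nat_lit 76) (nat_lit 78905863) (nat_lit 147) (nat_lit 3) (nat_lit 146) (nat_lit 1) (nat_lit 147) (nat_lit 1) (nat_lit 361) (nat_lit 305) (nat_lit 234)) (XT.nd (nat_lit 78) (nat_lit 0) (nat_lit 0) (XT.lf (nat_lit 152) (nat_lit 226298527) (nat_lit 0) (nat_lit 22418) (nat_lit 76) (nat_lit 22418) (nat_lit 146) (nat_lit 1) (nat_lit 144)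 (nat_lit 1) (nat_lit 145) (nat_lit 1) (nat_lit 362) (nat_lit 305) (nat_lit 233)) (XT.lf (nat_lit 0) (nat_lit 71836349) (nat_lit 0) (nat_lit 71892290) (nat_lit 152) (nat_lit 71836349) (nat_lit 144) (nat_lit 3) (nat_lit 144) (nat_lit 1) (nat_lit 146) (nat_lit 1) (nat_lit 363) (nat_lit 305) (nat_lit 232)))))) (XT.nd (nat_lit 390) (nat_lit 228) (nat_lit 0) (XT.nd (nat_lit 156) (nat_lit 228) (nat_lit 0) (XT.nd (nat_lit 78) (nat_lit 152) (nat_lit 0) (XT.lf (nat_lit 76) (nat_lit 68556320) (nat_lit 0) (nat_lit 68604964) (nat_lit 76) (nat_lit 68604964) (nat_lit 144) (nat_lit 3) (nat_lit 143) (nat_lit 1) (nat_lit 144) (nat_lit 1) (nat_lit 364) (nat_lit 305) (nat_lit 231)) (XT.lf (nat_lit 152) (nat_lit 196793810) (nat_lit 0) (nat_lit 12817) (nat_lit 76) (nat_lit 12817) (nat_lit 143) (nat_lit 1) (nat_lit 141) (nat_lit 1) (nat_lit 142) (nat_lit 1) (nat_lit 365) (nat_lit 305) (nat_lit 230))) (XT.nd (nat_lit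 78) (nat_lit 228) (nat_lit 0) (XT.lf (nat_lit 0) (nat_lit 62471679) (nat_lit 0) (nat_lit 62503663) (nat_lit 152) (nat_lit 62471679) (nat_lit 141) (nat_lit 3) (nat_lit 141) (nat_lit 1) (nat_lit 143) (nat_lit 1) (nat_lit 366) (nat_lit 305) (nat_lit 229)) (XT.nd (nat_lit 78) (nat_lit 152) (nat_lit 0) (XT.lf (nat_lit 76) (nat_lit 59623629) (nat_lit 0) (nat_lit 59651442) (nat_lit 76) (nat_lit 59651442) (nat_lit 141) (nat_lit 3) (nat_lit 140) (nat_lit 1) (nat_lit 141) (nat_lit 1) (nat_lit 367) (nat_lit 305) (nat_lit 228)) (XT.lf (nat_lit 152) (nat_lit 171132189) (nat_lit 0) (nat_lit 7328) (nat_lit 76) (nat_lit 7328) (nat_lit 140) (nat_lit 1) (nat_lit 138) (nat_lit 1) (nat_lit 139) (nat_lit 1) (nat_lit 368) (nat_lit 305) (nat_lit 227))))) (XT.nd (nat_lit 234) (nat_lit 0) (nat_lit 0) (XT.nd (nat_lit 78) (nat_lit 228) (nat_lit 0) (XT.lf (nat_lit 0) (nat_lit 54326223) (nat_lit 0) (nat_lit 54344510) (nat_lit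 152) (nat_lit 54326223) (nat_lit 138) (nat_lit 3) (nat_lit 138) (nat_lit 1) (nat_lit 140) (nat_lit 1) (nat_lit 369) (nat_lit 305) (nat_lit 226)) (XT.nd (nat_lit 78) (nat_lit 152) (nat_lit 0) (XT.lf (nat_lit 76) (nat_lit 51852030) (nat_lit 0) (nat_lit 51867932) (nat_lit 76) (nat_lit 51867932) (nat_lit 138) (nat_lit 3) (nat_lit 137) (nat_lit 1) (nat_lit 138) (nat_lit 1) (nat_lit 370) (nat_lit 305) (nat_lit 225)) (XT.lf (nat_lit 152) (nat_lit 148814680) (nat_lit 0) (nat_lit 4190) (nat_lit 76) (nat_lit 4190) (nat_lit 137) (nat_lit 1) (nat_lit 135) (nat_lit 1) (nat_lit 136) (nat_lit 1) (nat_lit 371) (nat_lit 305) (nat_lit 224)))) (XT.nd (nat_lit 40326) (nat_lit 0) (nat_lit 6080) (XT.lf (nat_lit 0) (nat_lit 47241923) (nat_lit 0) (nat_lit 47252379) (nat_lit 152) (nat_lit 47241923) (nat_lit 135) (nat_lit 3) (nat_lit 135) (nat_lit 1) (nat_lit 137) (nat_lit 1) (nat_lit 372) (nat_lit 305) (nat_lit 223)) (XT.nd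 (nat_lit 78) (nat_lit 0) (nat_lit 0) (XT.lf (nat_lit 380) (nat_lit 1622973692) (nat_lit 0) (nat_lit 1437507743) (nat_lit 380) (nat_lit 1622973692) (nat_lit 220) (nat_lit 1) (nat_lit 215) (nat_lit 0) (nat_lit 220) (nat_lit 0) (nat_lit 288) (nat_lit 306) (nat_lit 306)) (XT.lf (nat_lit 380) (nat_lit 6003169067) (nat_lit 76) (nat_lit 1372166482) (nat_lit 0) (nat_lit 1372166482) (nat_lit 220) (nat_lit 1) (nat_lit 216) (nat_lit 1) (nat_lit 215) (nat_lit 0) (nat_lit 289) (nat_lit 306) (nat_lit 305))))))) (XT.nd (nat_lit 858) (nat_lit 836) (nat_lit 0) (XT.nd (nat_lit 390) (nat_lit 608) (nat_lit 0) (XT.nd (nat_lit 156) (nat_lit 228) (nat_lit 0) (XT.nd (nat_lit 78) (nat_lit 0) (nat_lit 0) (XT.lf (nat_lit 380) (nat_lit 2646162500) (nat_lit 0) (nat_lit 2879274417) (nat_lit 304) (nat_lit 2646162500) (nat_lit 221) (nat_lit 1) (nat_lit 216) (nat_lit 1) (nat_lit 220) (nat_lit 1) (nat_lit 290) (nat_lit 306) (nat_lit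 304)) (XT.lf (nat_lit 380) (nat_lit 4543323617) (nat_lit 76) (nat_lit 1555210062) (nat_lit 0) (nat_lit 1555210062) (nat_lit 221) (nat_lit 1) (nat_lit 217) (nat_lit 1) (nat_lit 216) (nat_lit 1) (nat_lit 291) (nat_lit 306) (nat_lit 303))) (XT.nd (nat_lit 78) (nat_lit 304) (nat_lit 0) (XT.lf (nat_lit 76) (nat_lit 1837834661) (nat_lit 0) (nat_lit 3499545734) (nat_lit 304) (nat_lit 1837834661) (nat_lit 218) (nat_lit 1) (nat_lit 217) (nat_lit 1) (nat_lit 221) (nat_lit 1) (nat_lit 292) (nat_lit 306) (nat_lit 302)) (XT.nd (nat_lit 78) (nat_lit 0) (nat_lit 0) (XT.lf (nat_lit 380) (nat_lit 2762117065) (nat_lit 0) (nat_lit 1988118897) (nat_lit 304) (nat_lit 1988118897) (nat_lit 218) (nat_lit 1) (nat_lit 213) (nat_lit 1) (nat_lit 217) (nat_lit 1) (nat_lit 293) (nat_lit 306) (nat_lit 301)) (XT.lf (nat_lit 76) (nat_lit 918097207) (nat_lit 0) (nat_lit 4505126009) (nat_lit 380) (nat_lit 918097207) (nat_lit 214)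 (nat_lit 1) (nat_lit 213) (nat_lit 1) (nat_lit 218) (nat_lit 1) (nat_lit 294) (nat_lit 306) (nat_lit 300))))) (XT.nd (nat_lit 234) (nat_lit 228) (nat_lit 0) (XT.nd (nat_lit 78) (nat_lit 228) (nat_lit 0) (XT.lf (nat_lit 228) (nat_lit 826265829) (nat_lit 0) (nat_lit 2571548512) (nat_lit 152) (nat_lit 2571548512) (nat_lit 214) (nat_lit 1) (nat_lit 211) (nat_lit 1) (nat_lit 213) (nat_lit 1) (nat_lit 295) (nat_lit 306) (nat_lit 299)) (XT.nd (nat_lit 78) (nat_lit 0) (nat_lit 0) (XT.lf (nat_lit 228) (nat_lit 5552495976) (nat_lit 0) (nat_lit 43564945) (nat_lit 152) (nat_lit 43564945) (nat_lit 211) (nat_lit 1) (nat_lit 208) (nat_lit 1) (nat_lit 210) (nat_lit 1) (nat_lit 296) (nat_lit 306) (nat_lit 298)) (XT.lf (nat_lit 76) (nat_lit 2133304444) (nat_lit 0) (nat_lit 1047338927) (nat_lit 228) (nat_lit 2133304444) (nat_lit 209) (nat_lit 1) (nat_lit 208) (nat_lit 1) (nat_lit 211) (nat_lit 1) (nat_lit 297) (nat_lit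 306) (nat_lit 297)))) (XT.nd (nat_lit 78) (nat_lit 76) (nat_lit 0) (XT.lf (nat_lit 228) (nat_lit 3100839889) (nat_lit 0) (nat_lit 961850051) (nat_lit 152) (nat_lit 961850051) (nat_lit 209) (nat_lit 1) (nat_lit 206) (nat_lit 1) (nat_lit 208) (nat_lit 1) (nat_lit 298) (nat_lit 306) (nat_lit 296)) (XT.nd (nat_lit 78) (nat_lit 76) (nat_lit 0) (XT.lf (nat_lit 76) (nat_lit 969734336) (nat_lit 0) (nat_lit 2814152465) (nat_lit 228) (nat_lit 969734336) (nat_lit 207) (nat_lit 1) (nat_lit 206) (nat_lit 1) (nat_lit 209) (nat_lit 1) (nat_lit 299) (nat_lit 306) (nat_lit 295)) (XT.lf (nat_lit 152) (nat_lit 801664638) (nat_lit 0) (nat_lit 1849845095) (nat_lit 76) (nat_lit 1849845095) (nat_lit 207) (nat_lit 1) (nat_lit 205) (nat_lit 1) (nat_lit 206) (nat_lit 1) (nat_lit 300) (nat_lit 306) (nat_lit 294)))))) (XT.nd (nat_lit 390) (nat_lit 380) (nat_lit 0) (XT.nd (nat_lit 156) (nat_lit 228) (nat_lit 0) (XT.nd (nat_lit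 78) (nat_lit 0) (nat_lit 0) (XT.lf (nat_lit 228) (nat_lit 4058497635) (nat_lit 0) (nat_lit 107818143) (nat_lit 152) (nat_lit 107818143) (nat_lit 205) (nat_lit 1) (nat_lit 202) (nat_lit 1) (nat_lit 204) (nat_lit 1) (nat_lit 301) (nat_lit 306) (nat_lit 293)) (XT.lf (nat_lit 76) (nat_lit 1420386884) (nat_lit 0) (nat_lit 1206238884) (nat_lit 228) (nat_lit 1420386884) (nat_lit 203) (nat_lit 1) (nat_lit 202) (nat_lit 1) (nat_lit 205) (nat_lit 1) (nat_lit 302) (nat_lit 306) (nat_lit 292))) (XT.nd (nat_lit 78) (nat_lit 152) (nat_lit 0) (XT.lf (nat_lit 152) (nat_lit 1727054409) (nat_lit 0) (nat_lit 1057654937) (nat_lit 76) (nat_lit 1057654937) (nat_lit 203) (nat_lit 1) (nat_lit 201) (nat_lit 1) (nat_lit 202) (nat_lit 1) (nat_lit 303) (nat_lit 306) (nat_lit 291)) (XT.nd (nat_lit 78) (nat_lit 152) (nat_lit 0) (XT.lf (nat_lit 0) (nat_lit 338181053) (nat_lit 0) (nat_lit 2977320027) (nat_lit 152) (nat_lit 338181053)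 (nat_lit 201) (nat_lit 3) (nat_lit 201) (nat_lit 1) (nat_lit 203) (nat_lit 1) (nat_lit 304) (nat_lit 306) (nat_lit 290)) (XT.lf (nat_lit 76) (nat_lit 1565100489) (nat_lit 0) (nat_lit 339443240) (nat_lit 152) (nat_lit 1565100489) (nat_lit 200) (nat_lit 1) (nat_lit 199) (nat_lit 1) (nat_lit 201) (nat_lit 1) (nat_lit 305) (nat_lit 306) (nat_lit 289))))) (XT.nd (nat_lit 234) (nat_lit 228) (nat_lit 0) (XT.nd (nat_lit 78) (nat_lit 76) (nat_lit 0) (XT.lf (nat_lit 152) (nat_lit 2090666400) (nat_lit 0) (nat_lit 604717643) (nat_lit 76) (nat_lit 604717643) (nat_lit 200) (nat_lit 1) (nat_lit 198) (nat_lit 1) (nat_lit 199) (nat_lit 1) (nat_lit 306) (nat_lit 306) (nat_lit 288)) (XT.nd (nat_lit 78) (nat_lit 76) (nat_lit 0) (XT.lf (nat_lit 0) (nat_lit 543583872) (nat_lit 0) (nat_lit 2052520146) (nat_lit 152) (nat_lit 543583872) (nat_lit 198) (nat_lit 3) (nat_lit 198) (nat_lit 1) (nat_lit 200) (nat_lit 1) (nat_lit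 307) (nat_lit 306) (nat_lit 287)) (XT.lf (nat_lit 76) (nat_lit 121263848) (nat_lit 0) (nat_lit 1433382347) (nat_lit 76) (nat_lit 1433382347) (nat_lit 198) (nat_lit 3) (nat_lit 197) (nat_lit 1) (nat_lit 198) (nat_lit 1) (nat_lit 308) (nat_lit 306) (nat_lit 286)))) (XT.nd (nat_lit 78) (nat_lit 76) (nat_lit 0) (XT.lf (nat_lit 152) (nat_lit 2154664809) (nat_lit 0) (nat_lit 345749275) (nat_lit 76) (nat_lit 345749275) (nat_lit 197) (nat_lit 1) (nat_lit 195) (nat_lit 1) (nat_lit 196) (nat_lit 1) (nat_lit 309) (nat_lit 306) (nat_lit 285)) (XT.nd (nat_lit 78) (nat_lit 76) (nat_lit 0) (XT.lf (nat_lit 0) (nat_lit 615341719) (nat_lit 0) (nat_lit 1478080931) (nat_lit 152) (nat_lit 615341719) (nat_lit 195) (nat_lit 3) (nat_lit 195) (nat_lit 1) (nat_lit 197) (nat_lit 1) (nat_lit 310) (nat_lit 306) (nat_lit 284)) (XT.lf (nat_lit 76) (nat_lit 360035880) (nat_lit 0) (nat_lit 1110243890) (nat_lit 76) (nat_lit 1110243890)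 (nat_lit 195) (nat_lit 3) (nat_lit 194) (nat_lit 1) (nat_lit 195) (nat_lit 1) (nat_lit 311) (nat_lit 306) (nat_lit 283))))))))
noncomputable def ec33 : XT := (XT.nd (nat_lit 1716) (nat_lit 1672) (nat_lit 0) (XT.nd (nat_lit 858) (nat_lit 912) (nat_lit 0) (XT.nd (nat_lit 390) (nat_lit 456) (nat_lit 0) (XT.nd (nat_lit 156) (nat_lit 228) (nat_lit 0) (XT.nd (nat_lit 78) (nat_lit 0) (nat_lit 0) (XT.lf (nat_lit 152) (nat_lit 2066127475) (nat_lit 0) (nat_lit 197683270) (nat_lit 76) (nat_lit 197683270) (nat_lit 194) (nat_lit 1) (nat_lit 192) (nat_lit 1) (nat_lit 193) (nat_lit 1) (nat_lit 312) (nat_lit 306) (nat_lit 282)) (XT.lf (nat_lit 0) (nat_lit 616646126) (nat_lit 0) (nat_lit 1109920070) (nat_lit 152) (nat_lit 616646126) (nat_lit 192) (nat_lit 3) (nat_lit 192) (nat_lit 1) (nat_lit 194) (nat_lit 1) (nat_lit 313) (nat_lit 306) (nat_lit 281))) (XT.nd (nat_lit 78) (nat_lit 152) (nat_lit 0) (XT.lf (nat_lit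 76) (nat_lit 458636797) (nat_lit 0) (nat_lit 887570662) (nat_lit 76) (nat_lit 887570662) (nat_lit 192) (nat_lit 3) (nat_lit 191) (nat_lit 1) (nat_lit 192) (nat_lit 1) (nat_lit 314) (nat_lit 306) (nat_lit 280)) (XT.nd (nat_lit 78) (nat_lit 0) (nat_lit 0) (XT.lf (nat_lit 152) (nat_lit 1906698461) (nat_lit 0) (nat_lit 113026051) (nat_lit 76) (nat_lit 113026051) (nat_lit 191) (nat_lit 1) (nat_lit 189) (nat_lit 1) (nat_lit 190) (nat_lit 1) (nat_lit 315) (nat_lit 306) (nat_lit 279)) (XT.lf (nat_lit 0) (nat_lit 582849859) (nat_lit 0) (nat_lit 864880838) (nat_lit 152) (nat_lit 582849859) (nat_lit 189) (nat_lit 3) (nat_lit 189) (nat_lit 1) (nat_lit 191) (nat_lit 1) (nat_lit 316) (nat_lit 306) (nat_lit 278))))) (XT.nd (nat_lit 234) (nat_lit 228) (nat_lit 0) (XT.nd (nat_lit 78) (nat_lit 152) (nat_lit 0) (XT.lf (nat_lit 76) (nat_lit 482040220) (nat_lit 0) (nat_lit 727284549) (nat_lit 76) (nat_lit 727284549)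 (nat_lit 189) (nat_lit 3) (nat_lit 188) (nat_lit 1) (nat_lit 189) (nat_lit 1) (nat_lit 317) (nat_lit 306) (nat_lit 277)) (XT.nd (nat_lit 78) (nat_lit 0) (nat_lit 0) (XT.lf (nat_lit 152) (nat_lit 1720929183) (nat_lit 0) (nat_lit 64623011) (nat_lit 76) (nat_lit 64623011) (nat_lit 188) (nat_lit 1) (nat_lit 186) (nat_lit 1) (nat_lit 187) (nat_lit 1) (nat_lit 318) (nat_lit 306) (nat_lit 276)) (XT.lf (nat_lit 0) (nat_lit 533490155) (nat_lit 0) (nat_lit 694742283) (nat_lit 152) (nat_lit 533490155) (nat_lit 186) (nat_lit 3) (nat_lit 186) (nat_lit 1) (nat_lit 188) (nat_lit 1) (nat_lit 319) (nat_lit 306) (nat_lit 275)))) (XT.nd (nat_lit 78) (nat_lit 152) (nat_lit 0) (XT.lf (nat_lit 76) (nat_lit 466749924) (nat_lit 0) (nat_lit 606969165) (nat_lit 76) (nat_lit 606969165) (nat_lit 186) (nat_lit 3) (nat_lit 185) (nat_lit 1) (nat_lit 186) (nat_lit 1) (nat_lit 320) (nat_lit 306) (nat_lit 274)) (XT.nd (nat_lit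 78) (nat_lit 0) (nat_lit 0) (XT.lf (nat_lit 152) (nat_lit 1532440889) (nat_lit 0) (nat_lit 36948416) (nat_lit 76) (nat_lit 36948416) (nat_lit 185) (nat_lit 1) (nat_lit 183) (nat_lit 1) (nat_lit 184) (nat_lit 1) (nat_lit 321) (nat_lit 306) (nat_lit 273)) (XT.lf (nat_lit 0) (nat_lit 479149821) (nat_lit 0) (nat_lit 571346248) (nat_lit 152) (nat_lit 479149821) (nat_lit 183) (nat_lit 3) (nat_lit 183) (nat_lit 1) (nat_lit 185) (nat_lit 1) (nat_lit 322) (nat_lit 306) (nat_lit 272)))))) (XT.nd (nat_lit 390) (nat_lit 456) (nat_lit 0) (XT.nd (nat_lit 156) (nat_lit 228) (nat_lit 0) (XT.nd (nat_lit 78) (nat_lit 152) (nat_lit 0) (XT.lf (nat_lit 76) (nat_lit 433076100) (nat_lit 0) (nat_lit 513246906) (nat_lit 76) (nat_lit 513246906) (nat_lit 183) (nat_lit 3) (nat_lit 182) (nat_lit 1) (nat_lit 183) (nat_lit 1) (nat_lit 323) (nat_lit 306) (nat_lit 271)) (XT.lf (nat_lit 152) (nat_lit 1353129393) (nat_lit 0) (nat_lit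 21125377) (nat_lit 76) (nat_lit 21125377) (nat_lit 182) (nat_lit 1) (nat_lit 180) (nat_lit 1) (nat_lit 181) (nat_lit 1) (nat_lit 324) (nat_lit 306) (nat_lit 270))) (XT.nd (nat_lit 78) (nat_lit 228) (nat_lit 0) (XT.lf (nat_lit 0) (nat_lit 425368589) (nat_lit 0) (nat_lit 478082196) (nat_lit 152) (nat_lit 425368589) (nat_lit 180) (nat_lit 3) (nat_lit 180) (nat_lit 1) (nat_lit 182) (nat_lit 1) (nat_lit 325) (nat_lit 306) (nat_lit 269)) (XT.nd (nat_lit 78) (nat_lit 152) (nat_lit 0) (XT.lf (nat_lit 76) (nat_lit 392143375) (nat_lit 0) (nat_lit 437981294) (nat_lit 76) (nat_lit 437981294) (nat_lit 180) (nat_lit 3) (nat_lit 179) (nat_lit 1) (nat_lit 180) (nat_lit 1) (nat_lit 326) (nat_lit 306) (nat_lit 268)) (XT.lf (nat_lit 152) (nat_lit 1188396419) (nat_lit 0) (nat_lit 12078502) (nat_lit 76) (nat_lit 12078502) (nat_lit 179) (nat_lit 1) (nat_lit 177) (nat_lit 1) (nat_lit 178) (nat_lit 1) (nat_lit 327) (nat_lit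 306) (nat_lit 267))))) (XT.nd (nat_lit 234) (nat_lit 228) (nat_lit 0) (XT.nd (nat_lit 78) (nat_lit 228) (nat_lit 0) (XT.lf (nat_lit 0) (nat_lit 374869458) (nat_lit 0) (nat_lit 405008633) (nat_lit 152) (nat_lit 374869458) (nat_lit 177) (nat_lit 3) (nat_lit 177) (nat_lit 1) (nat_lit 179) (nat_lit 1) (nat_lit 328) (nat_lit 306) (nat_lit 266)) (XT.nd (nat_lit 78) (nat_lit 152) (nat_lit 0) (XT.lf (nat_lit 76) (nat_lit 349888125) (nat_lit 0) (nat_lit 376096104) (nat_lit 76) (nat_lit 376096104) (nat_lit 177) (nat_lit 3) (nat_lit 176) (nat_lit 1) (nat_lit 177) (nat_lit 1) (nat_lit 329) (nat_lit 306) (nat_lit 265)) (XT.lf (nat_lit 152) (nat_lit 1040113246) (nat_lit 0) (nat_lit 6905923) (nat_lit 76) (nat_lit 6905923) (nat_lit 176) (nat_lit 1) (nat_lit 174) (nat_lit 1) (nat_lit 175) (nat_lit 1) (nat_lit 330) (nat_lit 306) (nat_lit 264)))) (XT.nd (nat_lit 78) (nat_lit 228) (nat_lit 0) (XT.lf (nat_lit 0) (nat_lit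 328822904) (nat_lit 0) (nat_lit 346055076) (nat_lit 152) (nat_lit 328822904) (nat_lit 174) (nat_lit 3) (nat_lit 174) (nat_lit 1) (nat_lit 176) (nat_lit 1) (nat_lit 331) (nat_lit 306) (nat_lit 263)) (XT.nd (nat_lit 78) (nat_lit 152) (nat_lit 0) (XT.lf (nat_lit 76) (nat_lit 309335652) (nat_lit 0) (nat_lit 324320149) (nat_lit 76) (nat_lit 324320149) (nat_lit 174) (nat_lit 3) (nat_lit 173) (nat_lit 1) (nat_lit 174) (nat_lit 1) (nat_lit 332) (nat_lit 306) (nat_lit 262)) (XT.lf (nat_lit 152) (nat_lit 908291373) (nat_lit 0) (nat_lit 3948484) (nat_lit 76) (nat_lit 3948484) (nat_lit 173) (nat_lit 1) (nat_lit 171) (nat_lit 1) (nat_lit 172) (nat_lit 1) (nat_lit 333) (nat_lit 306) (nat_lit 261))))))) (XT.nd (nat_lit 858) (nat_lit 912) (nat_lit 0) (XT.nd (nat_lit 390) (nat_lit 456) (nat_lit 0) (XT.nd (nat_lit 156) (nat_lit 228) (nat_lit 0) (XT.nd (nat_lit 78) (nat_lit 76) (nat_lit 0) (XT.lf (nat_lit 0) (nat_lit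 287562149) (nat_lit 0) (nat_lit 297414699) (nat_lit 152) (nat_lit 287562149) (nat_lit 171) (nat_lit 3) (nat_lit 171) (nat_lit 1) (nat_lit 173) (nat_lit 1) (nat_lit 334) (nat_lit 306) (nat_lit 260)) (XT.lf (nat_lit 76) (nat_lit 271894950) (nat_lit 0) (nat_lit 280462385) (nat_lit 76) (nat_lit 280462385) (nat_lit 171) (nat_lit 3) (nat_lit 170) (nat_lit 1) (nat_lit 171) (nat_lit 1) (nat_lit 335) (nat_lit 306) (nat_lit 259))) (XT.nd (nat_lit 78) (nat_lit 76) (nat_lit 0) (XT.lf (nat_lit 152) (nat_lit 792017018) (nat_lit 0) (nat_lit 2257558) (nat_lit 76) (nat_lit 2257558) (nat_lit 170) (nat_lit 1) (nat_lit 168) (nat_lit 1) (nat_lit 169) (nat_lit 1) (nat_lit 336) (nat_lit 306) (nat_lit 258)) (XT.nd (nat_lit 78) (nat_lit 76) (nat_lit 0) (XT.lf (nat_lit 0) (nat_lit 250985537) (nat_lit 0) (nat_lit 256618765) (nat_lit 152) (nat_lit 250985537) (nat_lit 168) (nat_lit 3) (nat_lit 168) (nat_lit 1) (nat_lit 170)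 (nat_lit 1) (nat_lit 337) (nat_lit 306) (nat_lit 257)) (XT.lf (nat_lit 76) (nat_lit 238092722) (nat_lit 0) (nat_lit 242991181) (nat_lit 76) (nat_lit 242991181) (nat_lit 168) (nat_lit 3) (nat_lit 167) (nat_lit 1) (nat_lit 168) (nat_lit 1) (nat_lit 338) (nat_lit 306) (nat_lit 256))))) (XT.nd (nat_lit 234) (nat_lit 228) (nat_lit 0) (XT.nd (nat_lit 78) (nat_lit 76) (nat_lit 0) (XT.lf (nat_lit 152) (nat_lit 689967412) (nat_lit 0) (nat_lit 1290766) (nat_lit 76) (nat_lit 1290766) (nat_lit 167) (nat_lit 1) (nat_lit 165) (nat_lit 1) (nat_lit 166) (nat_lit 1) (nat_lit 339) (nat_lit 306) (nat_lit 255)) (XT.nd (nat_lit 78) (nat_lit 76) (nat_lit 0) (XT.lf (nat_lit 0) (nat_lit 218780878) (nat_lit 0) (nat_lit 222001694) (nat_lit 152) (nat_lit 218780878) (nat_lit 165) (nat_lit 3) (nat_lit 165) (nat_lit 1) (nat_lit 167) (nat_lit 1) (nat_lit 340) (nat_lit 306) (nat_lit 254)) (XT.lf (nat_lit 76) (nat_lit 207987593)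 (nat_lit 0) (nat_lit 210788303) (nat_lit 76) (nat_lit 210788303) (nat_lit 165) (nat_lit 3) (nat_lit 164) (nat_lit 1) (nat_lit 165) (nat_lit 1) (nat_lit 341) (nat_lit 306) (nat_lit 253)))) (XT.nd (nat_lit 78) (nat_lit 76) (nat_lit 0) (XT.lf (nat_lit 152) (nat_lit 600690334) (nat_lit 0) (nat_lit 737999) (nat_lit 76) (nat_lit 737999) (nat_lit 164) (nat_lit 1) (nat_lit 162) (nat_lit 1) (nat_lit 163) (nat_lit 1) (nat_lit 342) (nat_lit 306) (nat_lit 252)) (XT.nd (nat_lit 78) (nat_lit 76) (nat_lit 0) (XT.lf (nat_lit 0) (nat_lit 190548749) (nat_lit 0) (nat_lit 192390261) (nat_lit 152) (nat_lit 190548749) (nat_lit 162) (nat_lit 3) (nat_lit 162) (nat_lit 1) (nat_lit 164) (nat_lit 1) (nat_lit 343) (nat_lit 306) (nat_lit 251)) (XT.lf (nat_lit 76) (nat_lit 181402195) (nat_lit 0) (nat_lit 183003510) (nat_lit 76) (nat_lit 183003510) (nat_lit 162) (nat_lit 3) (nat_lit 161) (nat_lit 1) (nat_lit 162) (nat_lit 1)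 (nat_lit 344) (nat_lit 306) (nat_lit 250)))))) (XT.nd (nat_lit 468) (nat_lit 456) (nat_lit 0) (XT.nd (nat_lit 234) (nat_lit 228) (nat_lit 0) (XT.nd (nat_lit 78) (nat_lit 76) (nat_lit 0) (XT.lf (nat_lit 152) (nat_lit 522750323) (nat_lit 0) (nat_lit 421953) (nat_lit 76) (nat_lit 421953) (nat_lit 161) (nat_lit 1) (nat_lit 159) (nat_lit 1) (nat_lit 160) (nat_lit 1) (nat_lit 345) (nat_lit 306) (nat_lit 249)) (XT.nd (nat_lit 78) (nat_lit 76) (nat_lit 0) (XT.lf (nat_lit 0) (nat_lit 165868667) (nat_lit 0) (nat_lit 166921558) (nat_lit 152) (nat_lit 165868667) (nat_lit 159) (nat_lit 3) (nat_lit 159) (nat_lit 1) (nat_lit 161) (nat_lit 1) (nat_lit 346) (nat_lit 306) (nat_lit 248)) (XT.lf (nat_lit 76) (nat_lit 158051741) (nat_lit 0) (nat_lit 158967298) (nat_lit 76) (nat_lit 158967298) (nat_lit 159) (nat_lit 3) (nat_lit 158) (nat_lit 1) (nat_lit 159) (nat_lit 1) (nat_lit 347) (nat_lit 306) (nat_lit 247)))) (XT.nd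 (nat_lit 78) (nat_lit 76) (nat_lit 0) (XT.lf (nat_lit 152) (nat_lit 454800433) (nat_lit 0) (nat_lit 241253) (nat_lit 76) (nat_lit 241253) (nat_lit 158) (nat_lit 1) (nat_lit 156) (nat_lit 1) (nat_lit 157) (nat_lit 1) (nat_lit 348) (nat_lit 306) (nat_lit 246)) (XT.nd (nat_lit 78) (nat_lit 76) (nat_lit 0) (XT.lf (nat_lit 0) (nat_lit 144333168) (nat_lit 0) (nat_lit 144935161) (nat_lit 152) (nat_lit 144333168) (nat_lit 156) (nat_lit 3) (nat_lit 156) (nat_lit 1) (nat_lit 158) (nat_lit 1) (nat_lit 349) (nat_lit 306) (nat_lit 245)) (XT.lf (nat_lit 76) (nat_lit 137613941) (nat_lit 0) (nat_lit 138137414) (nat_lit 76) (nat_lit 138137414) (nat_lit 156) (nat_lit 3) (nat_lit 155) (nat_lit 1) (nat_lit 156) (nat_lit 1) (nat_lit 350) (nat_lit 306) (nat_lit 244))))) (XT.nd (nat_lit 234) (nat_lit 228) (nat_lit 0) (XT.nd (nat_lit 78) (nat_lit 76) (nat_lit 0) (XT.lf (nat_lit 152) (nat_lit 395612963) (nat_lit 0) (nat_lit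 137937) (nat_lit 76) (nat_lit 137937) (nat_lit 155) (nat_lit 1) (nat_lit 153) (nat_lit 1) (nat_lit 154) (nat_lit 1) (nat_lit 351) (nat_lit 306) (nat_lit 243)) (XT.nd (nat_lit 78) (nat_lit 76) (nat_lit 0) (XT.lf (nat_lit 0) (nat_lit 125564017) (nat_lit 0) (nat_lit 125908209) (nat_lit 152) (nat_lit 125564017) (nat_lit 153) (nat_lit 3) (nat_lit 153) (nat_lit 1) (nat_lit 155) (nat_lit 1) (nat_lit 352) (nat_lit 306) (nat_lit 242)) (XT.lf (nat_lit 76) (nat_lit 119765865) (nat_lit 0) (nat_lit 120065162) (nat_lit 76) (nat_lit 120065162) (nat_lit 153) (nat_lit 3) (nat_lit 152) (nat_lit 1) (nat_lit 153) (nat_lit 1) (nat_lit 353) (nat_lit 306) (nat_lit 241)))) (XT.nd (nat_lit 78) (nat_lit 76) (nat_lit 0) (XT.lf (nat_lit 152) (nat_lit 344088072) (nat_lit 0) (nat_lit 78866) (nat_lit 76) (nat_lit 78866) (nat_lit 152) (nat_lit 1) (nat_lit 150) (nat_lit 1) (nat_lit 151) (nat_lit 1) (nat_lit 354) (nat_lit 306)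 (nat_lit 240)) (XT.nd (nat_lit 78) (nat_lit 76) (nat_lit 0) (XT.lf (nat_lit 0) (nat_lit 109218643) (nat_lit 0) (nat_lit 109415435) (nat_lit 152) (nat_lit 109218643) (nat_lit 150) (nat_lit 3) (nat_lit 150) (nat_lit 1) (nat_lit 152) (nat_lit 1) (nat_lit 355) (nat_lit 306) (nat_lit 239)) (XT.lf (nat_lit 76) (nat_lit 104202303) (nat_lit 0) (nat_lit 104373427) (nat_lit 76) (nat_lit 104373427) (nat_lit 150) (nat_lit 3) (nat_lit 149) (nat_lit 1) (nat_lit 150) (nat_lit 1) (nat_lit 356) (nat_lit 306) (nat_lit 238))))))))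
noncomputable def ec34 : XT := (XT.nd (nat_lit 41808) (nat_lit 0) (nat_lit 4332) (XT.nd (nat_lit 858) (nat_lit 456) (nat_lit 0) (XT.nd (nat_lit 390) (nat_lit 456) (nat_lit 0) (XT.nd (nat_lit 156) (nat_lit 228) (nat_lit 0) (XT.nd (nat_lit 78) (nat_lit 0) (nat_lit 0) (XT.lf (nat_lit 152) (nat_lit 299250930) (nat_lit 0) (nat_lit 45091) (nat_lit 76) (nat_lit 45091) (nat_lit 149) (nat_lit 1) (nat_lit 147) (nat_lit 1) (nat_lit 148) (nat_lit 1) (nat_lit 357) (nat_lit 306) (nat_lit 237)) (XT.lf (nat_lit 0) (nat_lit 94991338) (nat_lit 0) (nat_lit 95103855) (nat_lit 152) (nat_lit 94991338) (nat_lit 147) (nat_lit 3) (nat_lit 147) (nat_lit 1) (nat_lit 149) (nat_lit 1) (nat_lit 358) (nat_lit 306) (nat_lit 236))) (XT.nd (nat_lit 78) (nat_lit 152) (nat_lit 0) (XT.lf (nat_lit 76) (nat_lit 90643901) (nat_lit 0) (nat_lit 90741742) (nat_lit 76) (nat_lit 90741742) (nat_lit 147) (nat_lit 3) (nat_lit 146) (nat_lit 1)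 (nat_lit 147) (nat_lit 1) (nat_lit 359) (nat_lit 306) (nat_lit 235)) (XT.nd (nat_lit 78) (nat_lit 0) (nat_lit 0) (XT.lf (nat_lit 152) (nat_lit 260243307) (nat_lit 0) (nat_lit 25781) (nat_lit 76) (nat_lit 25781) (nat_lit 146) (nat_lit 1) (nat_lit 144) (nat_lit 1) (nat_lit 145) (nat_lit 1) (nat_lit 360) (nat_lit 306) (nat_lit 234)) (XT.lf (nat_lit 0) (nat_lit 82611801) (nat_lit 0) (nat_lit 82676133) (nat_lit 152) (nat_lit 82611801) (nat_lit 144) (nat_lit 3) (nat_lit 144) (nat_lit 1) (nat_lit 146) (nat_lit 1) (nat_lit 361) (nat_lit 306) (nat_lit 233))))) (XT.nd (nat_lit 234) (nat_lit 228) (nat_lit 0) (XT.nd (nat_lit 78) (nat_lit 152) (nat_lit 0) (XT.lf (nat_lit 76) (nat_lit 78839768) (nat_lit 0) (nat_lit 78895708) (nat_lit 76) (nat_lit 78895708) (nat_lit 144) (nat_lit 3) (nat_lit 143) (nat_lit 1) (nat_lit 144) (nat_lit 1) (nat_lit 362) (nat_lit 306) (nat_lit 232)) (XT.nd (nat_lit 78) (nat_lit 0) (nat_lit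 0) (XT.lf (nat_lit 152) (nat_lit 226312882) (nat_lit 0) (nat_lit 14740) (nat_lit 76) (nat_lit 14740) (nat_lit 143) (nat_lit 1) (nat_lit 141) (nat_lit 1) (nat_lit 142) (nat_lit 1) (nat_lit 363) (nat_lit 306) (nat_lit 231)) (XT.lf (nat_lit 0) (nat_lit 71842431) (nat_lit 0) (nat_lit 71879213) (nat_lit 152) (nat_lit 71842431) (nat_lit 141) (nat_lit 3) (nat_lit 141) (nat_lit 1) (nat_lit 143) (nat_lit 1) (nat_lit 364) (nat_lit 306) (nat_lit 230)))) (XT.nd (nat_lit 78) (nat_lit 152) (nat_lit 0) (XT.lf (nat_lit 76) (nat_lit 68567174) (nat_lit 0) (nat_lit 68599158) (nat_lit 76) (nat_lit 68599158) (nat_lit 141) (nat_lit 3) (nat_lit 140) (nat_lit 1) (nat_lit 141) (nat_lit 1) (nat_lit 365) (nat_lit 306) (nat_lit 229)) (XT.nd (nat_lit 78) (nat_lit 0) (nat_lit 0) (XT.lf (nat_lit 152) (nat_lit 196802018) (nat_lit 0) (nat_lit 8428) (nat_lit 76) (nat_lit 8428) (nat_lit 140) (nat_lit 1) (nat_lit 138) (nat_lit 1)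 (nat_lit 139) (nat_lit 1) (nat_lit 366) (nat_lit 306) (nat_lit 228)) (XT.lf (nat_lit 0) (nat_lit 62475157) (nat_lit 0) (nat_lit 62496187) (nat_lit 152) (nat_lit 62475157) (nat_lit 138) (nat_lit 3) (nat_lit 138) (nat_lit 1) (nat_lit 140) (nat_lit 1) (nat_lit 367) (nat_lit 306) (nat_lit 227)))))) (XT.nd (nat_lit 40482) (nat_lit 0) (nat_lit 6156) (XT.nd (nat_lit 156) (nat_lit 228) (nat_lit 0) (XT.nd (nat_lit 78) (nat_lit 152) (nat_lit 0) (XT.lf (nat_lit 76) (nat_lit 59629835) (nat_lit 0) (nat_lit 59648122) (nat_lit 76) (nat_lit 59648122) (nat_lit 138) (nat_lit 3) (nat_lit 137) (nat_lit 1) (nat_lit 138) (nat_lit 1) (nat_lit 368) (nat_lit 306) (nat_lit 226)) (XT.lf (nat_lit 152) (nat_lit 171136882) (nat_lit 0) (nat_lit 4818) (nat_lit 76) (nat_lit 4818) (nat_lit 137) (nat_lit 1) (nat_lit 135) (nat_lit 1) (nat_lit 136) (nat_lit 1) (nat_lit 369) (nat_lit 306) (nat_lit 225))) (XT.nd (nat_lit 78) (nat_lit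 228) (nat_lit 0) (XT.lf (nat_lit 0) (nat_lit 54328211) (nat_lit 0) (nat_lit 54340235) (nat_lit 152) (nat_lit 54328211) (nat_lit 135) (nat_lit 3) (nat_lit 135) (nat_lit 1) (nat_lit 137) (nat_lit 1) (nat_lit 370) (nat_lit 306) (nat_lit 224)) (XT.nd (nat_lit 78) (nat_lit 152) (nat_lit 0) (XT.lf (nat_lit 76) (nat_lit 51855579) (nat_lit 0) (nat_lit 51866034) (nat_lit 76) (nat_lit 51866034) (nat_lit 135) (nat_lit 3) (nat_lit 134) (nat_lit 1) (nat_lit 135) (nat_lit 1) (nat_lit 371) (nat_lit 306) (nat_lit 223)) (XT.lf (nat_lit 152) (nat_lit 148817363) (nat_lit 0) (nat_lit 2755) (nat_lit 76) (nat_lit 2755) (nat_lit 134) (nat_lit 1) (nat_lit 132) (nat_lit 1) (nat_lit 133) (nat_lit 1) (nat_lit 372) (nat_lit 306) (nat_lit 222))))) (XT.nd (nat_lit 234) (nat_lit 152) (nat_lit 0) (XT.nd (nat_lit 78) (nat_lit 0) (nat_lit 0) (XT.lf (nat_lit 380) (nat_lit 1866419746) (nat_lit 0) (nat_lit 1653133904) (nat_lit 380)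 (nat_lit 1866419746) (nat_lit 220) (nat_lit 1) (nat_lit 215) (nat_lit 0) (nat_lit 220) (nat_lit 0) (nat_lit 286) (nat_lit 307) (nat_lit 307)) (XT.nd (nat_lit 78) (nat_lit 0) (nat_lit 76) (XT.lf (nat_lit 380) (nat_lit 6903644427) (nat_lit 76) (nat_lit 1577991454) (nat_lit 0) (nat_lit 1577991454) (nat_lit 220) (nat_lit 1) (nat_lit 216) (nat_lit 1) (nat_lit 215) (nat_lit 0) (nat_lit 287) (nat_lit 307) (nat_lit 306)) (XT.lf (nat_lit 380) (nat_lit 3043086876) (nat_lit 0) (nat_lit 3311165580) (nat_lit 304) (nat_lit 3043086876) (nat_lit 221) (nat_lit 1) (nat_lit 216) (nat_lit 1) (nat_lit 220) (nat_lit 1) (nat_lit 288) (nat_lit 307) (nat_lit 305)))) (XT.nd (nat_lit 78) (nat_lit 228) (nat_lit 0) (XT.lf (nat_lit 380) (nat_lit 5224822160) (nat_lit 76) (nat_lit 1788491571) (nat_lit 0) (nat_lit 1788491571) (nat_lit 221) (nat_lit 1) (nat_lit 217) (nat_lit 1) (nat_lit 216) (nat_lit 1) (nat_lit 289) (nat_lit 307)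 (nat_lit 304)) (XT.nd (nat_lit 78) (nat_lit 304) (nat_lit 0) (XT.lf (nat_lit 76) (nat_lit 2113509860) (nat_lit 0) (nat_lit 4024477595) (nat_lit 304) (nat_lit 2113509860) (nat_lit 218) (nat_lit 1) (nat_lit 217) (nat_lit 1) (nat_lit 221) (nat_lit 1) (nat_lit 290) (nat_lit 307) (nat_lit 303)) (XT.lf (nat_lit 380) (nat_lit 3176434625) (nat_lit 0) (nat_lit 2286336732) (nat_lit 304) (nat_lit 2286336732) (nat_lit 218) (nat_lit 1) (nat_lit 213) (nat_lit 1) (nat_lit 217) (nat_lit 1) (nat_lit 291) (nat_lit 307) (nat_lit 302))))))) (XT.nd (nat_lit 858) (nat_lit 912) (nat_lit 0) (XT.nd (nat_lit 390) (nat_lit 380) (nat_lit 0) (XT.nd (nat_lit 156) (nat_lit 380) (nat_lit 0) (XT.nd (nat_lit 78) (nat_lit 152) (nat_lit 0) (XT.lf (nat_lit 76) (nat_lit 1055811788) (nat_lit 0) (nat_lit 5180894910) (nat_lit 380) (nat_lit 1055811788) (nat_lit 214) (nat_lit 1) (nat_lit 213) (nat_lit 1) (nat_lit 218) (nat_lit 1) (nat_lit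 292) (nat_lit 307) (nat_lit 301)) (XT.lf (nat_lit 228) (nat_lit 950205703) (nat_lit 0) (nat_lit 2957280789) (nat_lit 152) (nat_lit 2957280789) (nat_lit 214) (nat_lit 1) (nat_lit 211) (nat_lit 1) (nat_lit 213) (nat_lit 1) (nat_lit 293) (nat_lit 307) (nat_lit 300))) (XT.nd (nat_lit 78) (nat_lit 152) (nat_lit 0) (XT.lf (nat_lit 228) (nat_lit 6385370373) (nat_lit 0) (nat_lit 50099687) (nat_lit 152) (nat_lit 50099687) (nat_lit 211) (nat_lit 1) (nat_lit 208) (nat_lit 1) (nat_lit 210) (nat_lit 1) (nat_lit 294) (nat_lit 307) (nat_lit 299)) (XT.nd (nat_lit 78) (nat_lit 152) (nat_lit 0) (XT.lf (nat_lit 76) (nat_lit 2453300111) (nat_lit 0) (nat_lit 1204439766) (nat_lit 228) (nat_lit 2453300111) (nat_lit 209) (nat_lit 1) (nat_lit 208) (nat_lit 1) (nat_lit 211) (nat_lit 1) (nat_lit 295) (nat_lit 307) (nat_lit 298)) (XT.lf (nat_lit 228) (nat_lit 3565965872) (nat_lit 0) (nat_lit 1106127559) (nat_lit 152) (nat_lit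 1106127559) (nat_lit 209) (nat_lit 1) (nat_lit 206) (nat_lit 1) (nat_lit 208) (nat_lit 1) (nat_lit 296) (nat_lit 307) (nat_lit 297))))) (XT.nd (nat_lit 234) (nat_lit 76) (nat_lit 0) (XT.nd (nat_lit 78) (nat_lit 304) (nat_lit 0) (XT.lf (nat_lit 76) (nat_lit 1115194487) (nat_lit 0) (nat_lit 3236275335) (nat_lit 228) (nat_lit 1115194487) (nat_lit 207) (nat_lit 1) (nat_lit 206) (nat_lit 1) (nat_lit 209) (nat_lit 1) (nat_lit 297) (nat_lit 307) (nat_lit 296)) (XT.nd (nat_lit 78) (nat_lit 228) (nat_lit 0) (XT.lf (nat_lit 152) (nat_lit 921914333) (nat_lit 0) (nat_lit 2127321860) (nat_lit 76) (nat_lit 2127321860) (nat_lit 207) (nat_lit 1) (nat_lit 205) (nat_lit 1) (nat_lit 206) (nat_lit 1) (nat_lit 298) (nat_lit 307) (nat_lit 295)) (XT.lf (nat_lit 228) (nat_lit 4667272281) (nat_lit 0) (nat_lit 123990865) (nat_lit 152) (nat_lit 123990865) (nat_lit 205) (nat_lit 1) (nat_lit 202) (nat_lit 1) (nat_lit 204)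 (nat_lit 1) (nat_lit 299) (nat_lit 307) (nat_lit 294)))) (XT.nd (nat_lit 78) (nat_lit 76) (nat_lit 0) (XT.lf (nat_lit 76) (nat_lit 1633444917) (nat_lit 0) (nat_lit 1387174717) (nat_lit 228) (nat_lit 1633444917) (nat_lit 203) (nat_lit 1) (nat_lit 202) (nat_lit 1) (nat_lit 205) (nat_lit 1) (nat_lit 300) (nat_lit 307) (nat_lit 293)) (XT.nd (nat_lit 78) (nat_lit 0) (nat_lit 0) (XT.lf (nat_lit 152) (nat_lit 1986112571) (nat_lit 0) (nat_lit 1216303177) (nat_lit 76) (nat_lit 1216303177) (nat_lit 203) (nat_lit 1) (nat_lit 201) (nat_lit 1) (nat_lit 202) (nat_lit 1) (nat_lit 301) (nat_lit 307) (nat_lit 292)) (XT.lf (nat_lit 0) (nat_lit 388908211) (nat_lit 0) (nat_lit 3423918031) (nat_lit 152) (nat_lit 388908211) (nat_lit 201) (nat_lit 3) (nat_lit 201) (nat_lit 1) (nat_lit 203) (nat_lit 1) (nat_lit 302) (nat_lit 307) (nat_lit 291)))))) (XT.nd (nat_lit 390) (nat_lit 456) (nat_lit 0) (XT.nd (nat_lit 156) (nat_lit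 228) (nat_lit 0) (XT.nd (nat_lit 78) (nat_lit 76) (nat_lit 0) (XT.lf (nat_lit 76) (nat_lit 1799865563) (nat_lit 0) (nat_lit 390359726) (nat_lit 152) (nat_lit 1799865563) (nat_lit 200) (nat_lit 1) (nat_lit 199) (nat_lit 1) (nat_lit 201) (nat_lit 1) (nat_lit 303) (nat_lit 307) (nat_lit 290)) (XT.lf (nat_lit 152) (nat_lit 2404266360) (nat_lit 0) (nat_lit 695425289) (nat_lit 76) (nat_lit 695425289) (nat_lit 200) (nat_lit 1) (nat_lit 198) (nat_lit 1) (nat_lit 199) (nat_lit 1) (nat_lit 304) (nat_lit 307) (nat_lit 289))) (XT.nd (nat_lit 78) (nat_lit 228) (nat_lit 0) (XT.lf (nat_lit 0) (nat_lit 625121453) (nat_lit 0) (nat_lit 2360398168) (nat_lit 152) (nat_lit 625121453) (nat_lit 198) (nat_lit 3) (nat_lit 198) (nat_lit 1) (nat_lit 200) (nat_lit 1) (nat_lit 305) (nat_lit 307) (nat_lit 288)) (XT.nd (nat_lit 78) (nat_lit 152) (nat_lit 0) (XT.lf (nat_lit 76) (nat_lit 139453425) (nat_lit 0) (nat_lit 1648389699)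 (nat_lit 76) (nat_lit 1648389699) (nat_lit 198) (nat_lit 3) (nat_lit 197) (nat_lit 1) (nat_lit 198) (nat_lit 1) (nat_lit 306) (nat_lit 307) (nat_lit 287)) (XT.lf (nat_lit 152) (nat_lit 2477864530) (nat_lit 0) (nat_lit 397611666) (nat_lit 76) (nat_lit 397611666) (nat_lit 197) (nat_lit 1) (nat_lit 195) (nat_lit 1) (nat_lit 196) (nat_lit 1) (nat_lit 307) (nat_lit 307) (nat_lit 286))))) (XT.nd (nat_lit 234) (nat_lit 228) (nat_lit 0) (XT.nd (nat_lit 78) (nat_lit 228) (nat_lit 0) (XT.lf (nat_lit 0) (nat_lit 707642977) (nat_lit 0) (nat_lit 1699793071) (nat_lit 152) (nat_lit 707642977) (nat_lit 195) (nat_lit 3) (nat_lit 195) (nat_lit 1) (nat_lit 197) (nat_lit 1) (nat_lit 308) (nat_lit 307) (nat_lit 285)) (XT.nd (nat_lit 78) (nat_lit 152) (nat_lit 0) (XT.lf (nat_lit 76) (nat_lit 414041262) (nat_lit 0) (nat_lit 1276780474) (nat_lit 76) (nat_lit 1276780474) (nat_lit 195) (nat_lit 3) (nat_lit 194) (nat_lit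 1) (nat_lit 195) (nat_lit 1) (nat_lit 309) (nat_lit 307) (nat_lit 284)) (XT.lf (nat_lit 152) (nat_lit 2376046596) (nat_lit 0) (nat_lit 227335760) (nat_lit 76) (nat_lit 227335760) (nat_lit 194) (nat_lit 1) (nat_lit 192) (nat_lit 1) (nat_lit 193) (nat_lit 1) (nat_lit 310) (nat_lit 307) (nat_lit 283)))) (XT.nd (nat_lit 78) (nat_lit 228) (nat_lit 0) (XT.lf (nat_lit 0) (nat_lit 709143044) (nat_lit 0) (nat_lit 1276408081) (nat_lit 152) (nat_lit 709143044) (nat_lit 192) (nat_lit 3) (nat_lit 192) (nat_lit 1) (nat_lit 194) (nat_lit 1) (nat_lit 311) (nat_lit 307) (nat_lit 282)) (XT.nd (nat_lit 78) (nat_lit 152) (nat_lit 0) (XT.lf (nat_lit 76) (nat_lit 527432317) (nat_lit 0) (nat_lit 1020706261) (nat_lit 76) (nat_lit 1020706261) (nat_lit 192) (nat_lit 3) (nat_lit 191) (nat_lit 1) (nat_lit 192) (nat_lit 1) (nat_lit 312) (nat_lit 307) (nat_lit 281)) (XT.lf (nat_lit 152) (nat_lit 2192703231) (nat_lit 0) (nat_lit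 129979959) (nat_lit 76) (nat_lit 129979959) (nat_lit 191) (nat_lit 1) (nat_lit 189) (nat_lit 1) (nat_lit 190) (nat_lit 1) (nat_lit 313) (nat_lit 307) (nat_lit 280))))))))
noncomputable def ec35 : XT := (XT.nd (nat_lit 1716) (nat_lit 1824) (nat_lit 0) (XT.nd (nat_lit 858) (nat_lit 836) (nat_lit 0) (XT.nd (nat_lit 390) (nat_lit 456) (nat_lit 0) (XT.nd (nat_lit 156) (nat_lit 228) (nat_lit 0) (XT.nd (nat_lit 78) (nat_lit 76) (nat_lit 0) (XT.lf (nat_lit 0) (nat_lit 670277338) (nat_lit 0) (nat_lit 994612964) (nat_lit 152) (nat_lit 670277338) (nat_lit 189) (nat_lit 3) (nat_lit 189) (nat_lit 1) (nat_lit 191) (nat_lit 1) (nat_lit 314) (nat_lit 307) (nat_lit 279)) (XT.lf (nat_lit 76) (nat_lit 554346253) (nat_lit 0) (nat_lit 836377232) (nat_lit 76) (nat_lit 836377232) (nat_lit 189) (nat_lit 3) (nat_lit 188) (nat_lit 1) (nat_lit 189) (nat_lit 1) (nat_lit 315) (nat_lit 307) (nat_lit 278))) (XT.nd (nat_lit 78)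 (nat_lit 76) (nat_lit 0) (XT.lf (nat_lit 152) (nat_lit 1979068561) (nat_lit 0) (nat_lit 74316463) (nat_lit 76) (nat_lit 74316463) (nat_lit 188) (nat_lit 1) (nat_lit 186) (nat_lit 1) (nat_lit 187) (nat_lit 1) (nat_lit 316) (nat_lit 307) (nat_lit 277)) (XT.nd (nat_lit 78) (nat_lit 76) (nat_lit 0) (XT.lf (nat_lit 0) (nat_lit 613513679) (nat_lit 0) (nat_lit 798953625) (nat_lit 152) (nat_lit 613513679) (nat_lit 186) (nat_lit 3) (nat_lit 186) (nat_lit 1) (nat_lit 188) (nat_lit 1) (nat_lit 317) (nat_lit 307) (nat_lit 276)) (XT.lf (nat_lit 76) (nat_lit 536762412) (nat_lit 0) (nat_lit 698014540) (nat_lit 76) (nat_lit 698014540) (nat_lit 186) (nat_lit 3) (nat_lit 185) (nat_lit 1) (nat_lit 186) (nat_lit 1) (nat_lit 318) (nat_lit 307) (nat_lit 275))))) (XT.nd (nat_lit 234) (nat_lit 228) (nat_lit 0) (XT.nd (nat_lit 78) (nat_lit 76) (nat_lit 0) (XT.lf (nat_lit 152) (nat_lit 1762307022) (nat_lit 0) (nat_lit 42490679)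 (nat_lit 76) (nat_lit 42490679) (nat_lit 185) (nat_lit 1) (nat_lit 183) (nat_lit 1) (nat_lit 184) (nat_lit 1) (nat_lit 319) (nat_lit 307) (nat_lit 274)) (XT.nd (nat_lit 78) (nat_lit 76) (nat_lit 0) (XT.lf (nat_lit 0) (nat_lit 551022294) (nat_lit 0) (nat_lit 657048185) (nat_lit 152) (nat_lit 551022294) (nat_lit 183) (nat_lit 3) (nat_lit 183) (nat_lit 1) (nat_lit 185) (nat_lit 1) (nat_lit 320) (nat_lit 307) (nat_lit 273)) (XT.lf (nat_lit 76) (nat_lit 498037515) (nat_lit 0) (nat_lit 590233942) (nat_lit 76) (nat_lit 590233942) (nat_lit 183) (nat_lit 3) (nat_lit 182) (nat_lit 1) (nat_lit 183) (nat_lit 1) (nat_lit 321) (nat_lit 307) (nat_lit 272)))) (XT.nd (nat_lit 78) (nat_lit 76) (nat_lit 0) (XT.lf (nat_lit 152) (nat_lit 1556098802) (nat_lit 0) (nat_lit 24294183) (nat_lit 76) (nat_lit 24294183) (nat_lit 182) (nat_lit 1) (nat_lit 180) (nat_lit 1) (nat_lit 181) (nat_lit 1) (nat_lit 322) (nat_lit 307)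 (nat_lit 271)) (XT.nd (nat_lit 78) (nat_lit 76) (nat_lit 0) (XT.lf (nat_lit 0) (nat_lit 489173878) (nat_lit 0) (nat_lit 549794525) (nat_lit 152) (nat_lit 489173878) (nat_lit 180) (nat_lit 3) (nat_lit 180) (nat_lit 1) (nat_lit 182) (nat_lit 1) (nat_lit 323) (nat_lit 307) (nat_lit 270)) (XT.lf (nat_lit 76) (nat_lit 450964881) (nat_lit 0) (nat_lit 503678488) (nat_lit 76) (nat_lit 503678488) (nat_lit 180) (nat_lit 3) (nat_lit 179) (nat_lit 1) (nat_lit 180) (nat_lit 1) (nat_lit 324) (nat_lit 307) (nat_lit 269)))))) (XT.nd (nat_lit 390) (nat_lit 456) (nat_lit 0) (XT.nd (nat_lit 156) (nat_lit 228) (nat_lit 0) (XT.nd (nat_lit 78) (nat_lit 0) (nat_lit 0) (XT.lf (nat_lit 152) (nat_lit 1366655882) (nat_lit 0) (nat_lit 13890278) (nat_lit 76) (nat_lit 13890278) (nat_lit 179) (nat_lit 1) (nat_lit 177) (nat_lit 1) (nat_lit 178) (nat_lit 1) (nat_lit 325) (nat_lit 307) (nat_lit 268)) (XT.lf (nat_lit 0) (nat_lit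 431099876) (nat_lit 0) (nat_lit 465759928) (nat_lit 152) (nat_lit 431099876) (nat_lit 177) (nat_lit 3) (nat_lit 177) (nat_lit 1) (nat_lit 179) (nat_lit 1) (nat_lit 326) (nat_lit 307) (nat_lit 267))) (XT.nd (nat_lit 78) (nat_lit 152) (nat_lit 0) (XT.lf (nat_lit 76) (nat_lit 402371344) (nat_lit 0) (nat_lit 432510520) (nat_lit 76) (nat_lit 432510520) (nat_lit 177) (nat_lit 3) (nat_lit 176) (nat_lit 1) (nat_lit 177) (nat_lit 1) (nat_lit 327) (nat_lit 307) (nat_lit 266)) (XT.nd (nat_lit 78) (nat_lit 0) (nat_lit 0) (XT.lf (nat_lit 152) (nat_lit 1196130233) (nat_lit 0) (nat_lit 7941811) (nat_lit 76) (nat_lit 7941811) (nat_lit 176) (nat_lit 1) (nat_lit 174) (nat_lit 1) (nat_lit 175) (nat_lit 1) (nat_lit 328) (nat_lit 307) (nat_lit 265)) (XT.lf (nat_lit 0) (nat_lit 378146340) (nat_lit 0) (nat_lit 397963337) (nat_lit 152) (nat_lit 378146340) (nat_lit 174) (nat_lit 3) (nat_lit 174) (nat_lit 1) (nat_lit 176)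 (nat_lit 1) (nat_lit 329) (nat_lit 307) (nat_lit 264))))) (XT.nd (nat_lit 234) (nat_lit 228) (nat_lit 0) (XT.nd (nat_lit 78) (nat_lit 152) (nat_lit 0) (XT.lf (nat_lit 76) (nat_lit 355736000) (nat_lit 0) (nat_lit 372968171) (nat_lit 76) (nat_lit 372968171) (nat_lit 174) (nat_lit 3) (nat_lit 173) (nat_lit 1) (nat_lit 174) (nat_lit 1) (nat_lit 330) (nat_lit 307) (nat_lit 263)) (XT.nd (nat_lit 78) (nat_lit 0) (nat_lit 0) (XT.lf (nat_lit 152) (nat_lit 1044535080) (nat_lit 0) (nat_lit 4540756) (nat_lit 76) (nat_lit 4540756) (nat_lit 173) (nat_lit 1) (nat_lit 171) (nat_lit 1) (nat_lit 172) (nat_lit 1) (nat_lit 331) (nat_lit 307) (nat_lit 262)) (XT.lf (nat_lit 0) (nat_lit 330696472) (nat_lit 0) (nat_lit 342026904) (nat_lit 152) (nat_lit 330696472) (nat_lit 171) (nat_lit 3) (nat_lit 171) (nat_lit 1) (nat_lit 173) (nat_lit 1) (nat_lit 332) (nat_lit 307) (nat_lit 261)))) (XT.nd (nat_lit 78) (nat_lit 152)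 (nat_lit 0) (XT.lf (nat_lit 76) (nat_lit 312679193) (nat_lit 0) (nat_lit 322531743) (nat_lit 76) (nat_lit 322531743) (nat_lit 171) (nat_lit 3) (nat_lit 170) (nat_lit 1) (nat_lit 171) (nat_lit 1) (nat_lit 333) (nat_lit 307) (nat_lit 260)) (XT.nd (nat_lit 78) (nat_lit 0) (nat_lit 0) (XT.lf (nat_lit 152) (nat_lit 910819571) (nat_lit 0) (nat_lit 2596192) (nat_lit 76) (nat_lit 2596192) (nat_lit 170) (nat_lit 1) (nat_lit 168) (nat_lit 1) (nat_lit 169) (nat_lit 1) (nat_lit 334) (nat_lit 307) (nat_lit 259)) (XT.lf (nat_lit 0) (nat_lit 288633368) (nat_lit 0) (nat_lit 295111580) (nat_lit 152) (nat_lit 288633368) (nat_lit 168) (nat_lit 3) (nat_lit 168) (nat_lit 1) (nat_lit 170) (nat_lit 1) (nat_lit 335) (nat_lit 307) (nat_lit 258))))))) (XT.nd (nat_lit 858) (nat_lit 912) (nat_lit 0) (XT.nd (nat_lit 390) (nat_lit 456) (nat_lit 0) (XT.nd (nat_lit 156) (nat_lit 228) (nat_lit 0) (XT.nd (nat_lit 78) (nat_lit 152)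 (nat_lit 0) (XT.lf (nat_lit 76) (nat_lit 273806631) (nat_lit 0) (nat_lit 279439858) (nat_lit 76) (nat_lit 279439858) (nat_lit 168) (nat_lit 3) (nat_lit 167) (nat_lit 1) (nat_lit 168) (nat_lit 1) (nat_lit 336) (nat_lit 307) (nat_lit 257)) (XT.lf (nat_lit 152) (nat_lit 793462523) (nat_lit 0) (nat_lit 1484381) (nat_lit 76) (nat_lit 1484381) (nat_lit 167) (nat_lit 1) (nat_lit 165) (nat_lit 1) (nat_lit 166) (nat_lit 1) (nat_lit 337) (nat_lit 307) (nat_lit 256))) (XT.nd (nat_lit 78) (nat_lit 228) (nat_lit 0) (XT.lf (nat_lit 0) (nat_lit 251598010) (nat_lit 0) (nat_lit 255301949) (nat_lit 152) (nat_lit 251598010) (nat_lit 165) (nat_lit 3) (nat_lit 165) (nat_lit 1) (nat_lit 167) (nat_lit 1) (nat_lit 338) (nat_lit 307) (nat_lit 255)) (XT.nd (nat_lit 78) (nat_lit 152) (nat_lit 0) (XT.lf (nat_lit 76) (nat_lit 239185732) (nat_lit 0) (nat_lit 242406548) (nat_lit 76) (nat_lit 242406548) (nat_lit 165) (nat_lit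 3) (nat_lit 164) (nat_lit 1) (nat_lit 165) (nat_lit 1) (nat_lit 339) (nat_lit 307) (nat_lit 254)) (XT.lf (nat_lit 152) (nat_lit 690793884) (nat_lit 0) (nat_lit 848699) (nat_lit 76) (nat_lit 848699) (nat_lit 164) (nat_lit 1) (nat_lit 162) (nat_lit 1) (nat_lit 163) (nat_lit 1) (nat_lit 340) (nat_lit 307) (nat_lit 253))))) (XT.nd (nat_lit 234) (nat_lit 228) (nat_lit 0) (XT.nd (nat_lit 78) (nat_lit 228) (nat_lit 0) (XT.lf (nat_lit 0) (nat_lit 219131061) (nat_lit 0) (nat_lit 221248800) (nat_lit 152) (nat_lit 219131061) (nat_lit 162) (nat_lit 3) (nat_lit 162) (nat_lit 1) (nat_lit 164) (nat_lit 1) (nat_lit 341) (nat_lit 307) (nat_lit 252)) (XT.nd (nat_lit 78) (nat_lit 152) (nat_lit 0) (XT.lf (nat_lit 76) (nat_lit 208612525) (nat_lit 0) (nat_lit 210454037) (nat_lit 76) (nat_lit 210454037) (nat_lit 162) (nat_lit 3) (nat_lit 161) (nat_lit 1) (nat_lit 162) (nat_lit 1) (nat_lit 342) (nat_lit 307) (nat_lit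 251)) (XT.lf (nat_lit 152) (nat_lit 601162872) (nat_lit 0) (nat_lit 485246) (nat_lit 76) (nat_lit 485246) (nat_lit 161) (nat_lit 1) (nat_lit 159) (nat_lit 1) (nat_lit 160) (nat_lit 1) (nat_lit 343) (nat_lit 307) (nat_lit 250)))) (XT.nd (nat_lit 78) (nat_lit 228) (nat_lit 0) (XT.lf (nat_lit 0) (nat_lit 190748967) (nat_lit 0) (nat_lit 191959791) (nat_lit 152) (nat_lit 190748967) (nat_lit 159) (nat_lit 3) (nat_lit 159) (nat_lit 1) (nat_lit 161) (nat_lit 1) (nat_lit 344) (nat_lit 307) (nat_lit 249)) (XT.nd (nat_lit 78) (nat_lit 152) (nat_lit 0) (XT.lf (nat_lit 76) (nat_lit 181759502) (nat_lit 0) (nat_lit 182812393) (nat_lit 76) (nat_lit 182812393) (nat_lit 159) (nat_lit 3) (nat_lit 158) (nat_lit 1) (nat_lit 159) (nat_lit 1) (nat_lit 345) (nat_lit 307) (nat_lit 248)) (XT.lf (nat_lit 152) (nat_lit 523020499) (nat_lit 0) (nat_lit 277441) (nat_lit 76) (nat_lit 277441) (nat_lit 158) (nat_lit 1) (nat_lit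 156) (nat_lit 1) (nat_lit 157) (nat_lit 1) (nat_lit 346) (nat_lit 307) (nat_lit 247)))))) (XT.nd (nat_lit 468) (nat_lit 456) (nat_lit 0) (XT.nd (nat_lit 234) (nat_lit 228) (nat_lit 0) (XT.nd (nat_lit 78) (nat_lit 228) (nat_lit 0) (XT.lf (nat_lit 0) (nat_lit 165983143) (nat_lit 0) (nat_lit 166675435) (nat_lit 152) (nat_lit 165983143) (nat_lit 156) (nat_lit 3) (nat_lit 156) (nat_lit 1) (nat_lit 158) (nat_lit 1) (nat_lit 347) (nat_lit 307) (nat_lit 246)) (XT.nd (nat_lit 78) (nat_lit 152) (nat_lit 0) (XT.lf (nat_lit 76) (nat_lit 158256032) (nat_lit 0) (nat_lit 158858026) (nat_lit 76) (nat_lit 158858026) (nat_lit 156) (nat_lit 3) (nat_lit 155) (nat_lit 1) (nat_lit 156) (nat_lit 1) (nat_lit 348) (nat_lit 307) (nat_lit 245)) (XT.lf (nat_lit 152) (nat_lit 454954907) (nat_lit 0) (nat_lit 158628) (nat_lit 76) (nat_lit 158628) (nat_lit 155) (nat_lit 1) (nat_lit 153) (nat_lit 1) (nat_lit 154) (nat_lit 1) (nat_lit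 349) (nat_lit 307) (nat_lit 244)))) (XT.nd (nat_lit 78) (nat_lit 228) (nat_lit 0) (XT.lf (nat_lit 0) (nat_lit 144398619) (nat_lit 0) (nat_lit 144794440) (nat_lit 152) (nat_lit 144398619) (nat_lit 153) (nat_lit 3) (nat_lit 153) (nat_lit 1) (nat_lit 155) (nat_lit 1) (nat_lit 350) (nat_lit 307) (nat_lit 243)) (XT.nd (nat_lit 78) (nat_lit 152) (nat_lit 0) (XT.lf (nat_lit 76) (nat_lit 137730745) (nat_lit 0) (nat_lit 138074937) (nat_lit 76) (nat_lit 138074937) (nat_lit 153) (nat_lit 3) (nat_lit 152) (nat_lit 1) (nat_lit 153) (nat_lit 1) (nat_lit 351) (nat_lit 307) (nat_lit 242)) (XT.lf (nat_lit 152) (nat_lit 395701283) (nat_lit 0) (nat_lit 90696) (nat_lit 76) (nat_lit 90696) (nat_lit 152) (nat_lit 1) (nat_lit 150) (nat_lit 1) (nat_lit 151) (nat_lit 1) (nat_lit 352) (nat_lit 307) (nat_lit 241))))) (XT.nd (nat_lit 234) (nat_lit 228) (nat_lit 0) (XT.nd (nat_lit 78) (nat_lit 228) (nat_lit 0) (XT.lf (nat_lit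 0) (nat_lit 125601439) (nat_lit 0) (nat_lit 125827751) (nat_lit 152) (nat_lit 125601439) (nat_lit 150) (nat_lit 3) (nat_lit 150) (nat_lit 1) (nat_lit 152) (nat_lit 1) (nat_lit 353) (nat_lit 307) (nat_lit 240)) (XT.nd (nat_lit 78) (nat_lit 152) (nat_lit 0) (XT.lf (nat_lit 76) (nat_lit 119832648) (nat_lit 0) (nat_lit 120029441) (nat_lit 76) (nat_lit 120029441) (nat_lit 150) (nat_lit 3) (nat_lit 149) (nat_lit 1) (nat_lit 150) (nat_lit 1) (nat_lit 354) (nat_lit 307) (nat_lit 239)) (XT.lf (nat_lit 152) (nat_lit 344138570) (nat_lit 0) (nat_lit 51855) (nat_lit 76) (nat_lit 51855) (nat_lit 149) (nat_lit 1) (nat_lit 147) (nat_lit 1) (nat_lit 148) (nat_lit 1) (nat_lit 355) (nat_lit 307) (nat_lit 238)))) (XT.nd (nat_lit 78) (nat_lit 228) (nat_lit 0) (XT.lf (nat_lit 0) (nat_lit 109240039) (nat_lit 0) (nat_lit 109369433) (nat_lit 152) (nat_lit 109240039) (nat_lit 147) (nat_lit 3) (nat_lit 147) (nat_lit 1) (nat_lit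 149) (nat_lit 1) (nat_lit 356) (nat_lit 307) (nat_lit 237)) (XT.nd (nat_lit 78) (nat_lit 152) (nat_lit 0) (XT.lf (nat_lit 76) (nat_lit 104240486) (nat_lit 0) (nat_lit 104353003) (nat_lit 76) (nat_lit 104353003) (nat_lit 147) (nat_lit 3) (nat_lit 146) (nat_lit 1) (nat_lit 147) (nat_lit 1) (nat_lit 357) (nat_lit 307) (nat_lit 236)) (XT.lf (nat_lit 152) (nat_lit 299279803) (nat_lit 0) (nat_lit 29648) (nat_lit 76) (nat_lit 29648) (nat_lit 146) (nat_lit 1) (nat_lit 144) (nat_lit 1) (nat_lit 145) (nat_lit 1) (nat_lit 358) (nat_lit 307) (nat_lit 235))))))))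
noncomputable def ec36 : XT := (XT.nd (nat_lit 41652) (nat_lit 0) (nat_lit 4332) (XT.nd (nat_lit 858) (nat_lit 228) (nat_lit 0) (XT.nd (nat_lit 390) (nat_lit 456) (nat_lit 0) (XT.nd (nat_lit 156) (nat_lit 228) (nat_lit 0) (XT.nd (nat_lit 78) (nat_lit 76) (nat_lit 0) (XT.lf (nat_lit 0) (nat_lit 95003571) (nat_lit 0) (nat_lit 95077553) (nat_lit 152) (nat_lit 95003571) (nat_lit 144) (nat_lit 3) (nat_lit 144) (nat_lit 1) (nat_lit 146) (nat_lit 1) (nat_lit 359) (nat_lit 307) (nat_lit 234)) (XT.lf (nat_lit 76) (nat_lit 90665733) (nat_lit 0) (nat_lit 90730065) (nat_lit 76) (nat_lit 90730065) (nat_lit 144) (nat_lit 3) (nat_lit 143) (nat_lit 1) (nat_lit 144) (nat_lit 1) (nat_lit 360) (nat_lit 307) (nat_lit 233))) (XT.nd (nat_lit 78) (nat_lit 76) (nat_lit 0) (XT.lf (nat_lit 152) (nat_lit 260259814) (nat_lit 0) (nat_lit 16951) (nat_lit 76) (nat_lit 16951) (nat_lit 143) (nat_lit 1) (nat_lit 141) (nat_lit 1)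 (nat_lit 142) (nat_lit 1) (nat_lit 361) (nat_lit 307) (nat_lit 232)) (XT.nd (nat_lit 78) (nat_lit 76) (nat_lit 0) (XT.lf (nat_lit 0) (nat_lit 82618796) (nat_lit 0) (nat_lit 82661095) (nat_lit 152) (nat_lit 82618796) (nat_lit 141) (nat_lit 3) (nat_lit 141) (nat_lit 1) (nat_lit 143) (nat_lit 1) (nat_lit 362) (nat_lit 307) (nat_lit 231)) (XT.lf (nat_lit 76) (nat_lit 78852250) (nat_lit 0) (nat_lit 78889032) (nat_lit 76) (nat_lit 78889032) (nat_lit 141) (nat_lit 3) (nat_lit 140) (nat_lit 1) (nat_lit 141) (nat_lit 1) (nat_lit 363) (nat_lit 307) (nat_lit 230))))) (XT.nd (nat_lit 234) (nat_lit 228) (nat_lit 0) (XT.nd (nat_lit 78) (nat_lit 76) (nat_lit 0) (XT.lf (nat_lit 152) (nat_lit 226322320) (nat_lit 0) (nat_lit 9692) (nat_lit 76) (nat_lit 9692) (nat_lit 140) (nat_lit 1) (nat_lit 138) (nat_lit 1) (nat_lit 139) (nat_lit 1) (nat_lit 364) (nat_lit 307) (nat_lit 229)) (XT.nd (nat_lit 78) (nat_lit 76) (nat_lit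 0) (XT.lf (nat_lit 0) (nat_lit 71846430) (nat_lit 0) (nat_lit 71870615) (nat_lit 152) (nat_lit 71846430) (nat_lit 138) (nat_lit 3) (nat_lit 138) (nat_lit 1) (nat_lit 140) (nat_lit 1) (nat_lit 365) (nat_lit 307) (nat_lit 228)) (XT.lf (nat_lit 76) (nat_lit 68574310) (nat_lit 0) (nat_lit 68595341) (nat_lit 76) (nat_lit 68595341) (nat_lit 138) (nat_lit 3) (nat_lit 137) (nat_lit 1) (nat_lit 138) (nat_lit 1) (nat_lit 366) (nat_lit 307) (nat_lit 227)))) (XT.nd (nat_lit 78) (nat_lit 76) (nat_lit 0) (XT.lf (nat_lit 152) (nat_lit 196807414) (nat_lit 0) (nat_lit 5541) (nat_lit 76) (nat_lit 5541) (nat_lit 137) (nat_lit 1) (nat_lit 135) (nat_lit 1) (nat_lit 136) (nat_lit 1) (nat_lit 367) (nat_lit 307) (nat_lit 226)) (XT.nd (nat_lit 78) (nat_lit 76) (nat_lit 0) (XT.lf (nat_lit 0) (nat_lit 62477443) (nat_lit 0) (nat_lit 62491271) (nat_lit 152) (nat_lit 62477443) (nat_lit 135) (nat_lit 3) (nat_lit 135) (nat_lit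 1) (nat_lit 137) (nat_lit 1) (nat_lit 368) (nat_lit 307) (nat_lit 225)) (XT.lf (nat_lit 76) (nat_lit 59633916) (nat_lit 0) (nat_lit 59645940) (nat_lit 76) (nat_lit 59645940) (nat_lit 135) (nat_lit 3) (nat_lit 134) (nat_lit 1) (nat_lit 135) (nat_lit 1) (nat_lit 369) (nat_lit 307) (nat_lit 224)))))) (XT.nd (nat_lit 40326) (nat_lit 0) (nat_lit 6080) (XT.nd (nat_lit 156) (nat_lit 76) (nat_lit 0) (XT.nd (nat_lit 78) (nat_lit 0) (nat_lit 0) (XT.lf (nat_lit 152) (nat_lit 171139967) (nat_lit 0) (nat_lit 3168) (nat_lit 76) (nat_lit 3168) (nat_lit 134) (nat_lit 1) (nat_lit 132) (nat_lit 1) (nat_lit 133) (nat_lit 1) (nat_lit 370) (nat_lit 307) (nat_lit 223)) (XT.lf (nat_lit 0) (nat_lit 54329519) (nat_lit 0) (nat_lit 54337425) (nat_lit 152) (nat_lit 54329519) (nat_lit 132) (nat_lit 3) (nat_lit 132) (nat_lit 1) (nat_lit 134) (nat_lit 1) (nat_lit 371) (nat_lit 307) (nat_lit 222))) (XT.nd (nat_lit 40014) (nat_lit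 0) (nat_lit 6384) (XT.lf (nat_lit 76) (nat_lit 51857912) (nat_lit 0) (nat_lit 51864787) (nat_lit 76) (nat_lit 51864787) (nat_lit 132) (nat_lit 3) (nat_lit 131) (nat_lit 1) (nat_lit 132) (nat_lit 1) (nat_lit 372) (nat_lit 307) (nat_lit 221)) (XT.nd (nat_lit 78) (nat_lit 0) (nat_lit 0) (XT.lf (nat_lit 380) (nat_lit 2146382708) (nat_lit 0) (nat_lit 1901103990) (nat_lit 380) (nat_lit 2146382708) (nat_lit 220) (nat_lit 1) (nat_lit 215) (nat_lit 0) (nat_lit 220) (nat_lit 0) (nat_lit 284) (nat_lit 308) (nat_lit 308)) (XT.lf (nat_lit 380) (nat_lit 7939191091) (nat_lit 76) (nat_lit 1814690172) (nat_lit 0) (nat_lit 1814690172) (nat_lit 220) (nat_lit 1) (nat_lit 216) (nat_lit 1) (nat_lit 215) (nat_lit 0) (nat_lit 285) (nat_lit 308) (nat_lit 307))))) (XT.nd (nat_lit 234) (nat_lit 380) (nat_lit 0) (XT.nd (nat_lit 78) (nat_lit 0) (nat_lit 0) (XT.lf (nat_lit 380) (nat_lit 3499549907) (nat_lit 0) (nat_lit 3807840417)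 (nat_lit 304) (nat_lit 3499549907) (nat_lit 221) (nat_lit 1) (nat_lit 216) (nat_lit 1) (nat_lit 220) (nat_lit 1) (nat_lit 286) (nat_lit 308) (nat_lit 306)) (XT.nd (nat_lit 78) (nat_lit 0) (nat_lit 76) (XT.lf (nat_lit 380) (nat_lit 6008545484) (nat_lit 76) (nat_lit 2056765307) (nat_lit 0) (nat_lit 2056765307) (nat_lit 221) (nat_lit 1) (nat_lit 217) (nat_lit 1) (nat_lit 216) (nat_lit 1) (nat_lit 287) (nat_lit 308) (nat_lit 305)) (XT.lf (nat_lit 76) (nat_lit 2430536339) (nat_lit 0) (nat_lit 4628149234) (nat_lit 304) (nat_lit 2430536339) (nat_lit 218) (nat_lit 1) (nat_lit 217) (nat_lit 1) (nat_lit 221) (nat_lit 1) (nat_lit 288) (nat_lit 308) (nat_lit 304)))) (XT.nd (nat_lit 78) (nat_lit 152) (nat_lit 0) (XT.lf (nat_lit 380) (nat_lit 3652899819) (nat_lit 0) (nat_lit 2629287242) (nat_lit 304) (nat_lit 2629287242) (nat_lit 218) (nat_lit 1) (nat_lit 213) (nat_lit 1) (nat_lit 217) (nat_lit 1) (nat_lit 289)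 (nat_lit 308) (nat_lit 303)) (XT.nd (nat_lit 78) (nat_lit 152) (nat_lit 0) (XT.lf (nat_lit 76) (nat_lit 1214183557) (nat_lit 0) (nat_lit 5958029147) (nat_lit 380) (nat_lit 1214183557) (nat_lit 214) (nat_lit 1) (nat_lit 213) (nat_lit 1) (nat_lit 218) (nat_lit 1) (nat_lit 290) (nat_lit 308) (nat_lit 302)) (XT.lf (nat_lit 228) (nat_lit 1092736559) (nat_lit 0) (nat_lit 3400872907) (nat_lit 152) (nat_lit 3400872907) (nat_lit 214) (nat_lit 1) (nat_lit 211) (nat_lit 1) (nat_lit 213) (nat_lit 1) (nat_lit 291) (nat_lit 308) (nat_lit 301))))))) (XT.nd (nat_lit 858) (nat_lit 760) (nat_lit 0) (XT.nd (nat_lit 390) (nat_lit 532) (nat_lit 0) (XT.nd (nat_lit 156) (nat_lit 228) (nat_lit 0) (XT.nd (nat_lit 78) (nat_lit 0) (nat_lit 0) (XT.lf (nat_lit 228) (nat_lit 7343175929) (nat_lit 0) (nat_lit 57614640) (nat_lit 152) (nat_lit 57614640) (nat_lit 211) (nat_lit 1) (nat_lit 208) (nat_lit 1) (nat_lit 210) (nat_lit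 1) (nat_lit 292) (nat_lit 308) (nat_lit 300)) (XT.lf (nat_lit 76) (nat_lit 2821295127) (nat_lit 0) (nat_lit 1385105731) (nat_lit 228) (nat_lit 2821295127) (nat_lit 209) (nat_lit 1) (nat_lit 208) (nat_lit 1) (nat_lit 211) (nat_lit 1) (nat_lit 293) (nat_lit 308) (nat_lit 299))) (XT.nd (nat_lit 78) (nat_lit 76) (nat_lit 0) (XT.lf (nat_lit 228) (nat_lit 4100860753) (nat_lit 0) (nat_lit 1272046692) (nat_lit 152) (nat_lit 1272046692) (nat_lit 209) (nat_lit 1) (nat_lit 206) (nat_lit 1) (nat_lit 208) (nat_lit 1) (nat_lit 294) (nat_lit 308) (nat_lit 298)) (XT.nd (nat_lit 78) (nat_lit 76) (nat_lit 0) (XT.lf (nat_lit 76) (nat_lit 1282473660) (nat_lit 0) (nat_lit 3721716636) (nat_lit 228) (nat_lit 1282473660) (nat_lit 207) (nat_lit 1) (nat_lit 206) (nat_lit 1) (nat_lit 209) (nat_lit 1) (nat_lit 295) (nat_lit 308) (nat_lit 297)) (XT.lf (nat_lit 152) (nat_lit 1060201483) (nat_lit 0) (nat_lit 2446420139) (nat_lit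 76) (nat_lit 2446420139) (nat_lit 207) (nat_lit 1) (nat_lit 205) (nat_lit 1) (nat_lit 206) (nat_lit 1) (nat_lit 296) (nat_lit 308) (nat_lit 296))))) (XT.nd (nat_lit 234) (nat_lit 228) (nat_lit 0) (XT.nd (nat_lit 78) (nat_lit 76) (nat_lit 0) (XT.lf (nat_lit 228) (nat_lit 5367363123) (nat_lit 0) (nat_lit 142589494) (nat_lit 152) (nat_lit 142589494) (nat_lit 205) (nat_lit 1) (nat_lit 202) (nat_lit 1) (nat_lit 204) (nat_lit 1) (nat_lit 297) (nat_lit 308) (nat_lit 295)) (XT.nd (nat_lit 78) (nat_lit 76) (nat_lit 0) (XT.lf (nat_lit 76) (nat_lit 1878461654) (nat_lit 0) (nat_lit 1595250925) (nat_lit 228) (nat_lit 1878461654) (nat_lit 203) (nat_lit 1) (nat_lit 202) (nat_lit 1) (nat_lit 205) (nat_lit 1) (nat_lit 298) (nat_lit 308) (nat_lit 294)) (XT.lf (nat_lit 152) (nat_lit 2284029457) (nat_lit 0) (nat_lit 1398748654) (nat_lit 76) (nat_lit 1398748654) (nat_lit 203) (nat_lit 1) (nat_lit 201) (nat_lit 1) (nat_lit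 202) (nat_lit 1) (nat_lit 299) (nat_lit 308) (nat_lit 293)))) (XT.nd (nat_lit 78) (nat_lit 228) (nat_lit 0) (XT.lf (nat_lit 0) (nat_lit 447244443) (nat_lit 0) (nat_lit 3937505736) (nat_lit 152) (nat_lit 447244443) (nat_lit 201) (nat_lit 3) (nat_lit 201) (nat_lit 1) (nat_lit 203) (nat_lit 1) (nat_lit 300) (nat_lit 308) (nat_lit 292)) (XT.nd (nat_lit 78) (nat_lit 76) (nat_lit 0) (XT.lf (nat_lit 76) (nat_lit 2069845397) (nat_lit 0) (nat_lit 448913684) (nat_lit 152) (nat_lit 2069845397) (nat_lit 200) (nat_lit 1) (nat_lit 199) (nat_lit 1) (nat_lit 201) (nat_lit 1) (nat_lit 301) (nat_lit 308) (nat_lit 291)) (XT.lf (nat_lit 152) (nat_lit 2764906314) (nat_lit 0) (nat_lit 799739083) (nat_lit 76) (nat_lit 799739083) (nat_lit 200) (nat_lit 1) (nat_lit 198) (nat_lit 1) (nat_lit 199) (nat_lit 1) (nat_lit 302) (nat_lit 308) (nat_lit 290)))))) (XT.nd (nat_lit 390) (nat_lit 456) (nat_lit 0) (XT.nd (nat_lit 156)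 (nat_lit 228) (nat_lit 0) (XT.nd (nat_lit 78) (nat_lit 76) (nat_lit 0) (XT.lf (nat_lit 0) (nat_lit 718889671) (nat_lit 0) (nat_lit 2714457893) (nat_lit 152) (nat_lit 718889671) (nat_lit 198) (nat_lit 3) (nat_lit 198) (nat_lit 1) (nat_lit 200) (nat_lit 1) (nat_lit 303) (nat_lit 308) (nat_lit 289)) (XT.lf (nat_lit 76) (nat_lit 160371439) (nat_lit 0) (nat_lit 1895648154) (nat_lit 76) (nat_lit 1895648154) (nat_lit 198) (nat_lit 3) (nat_lit 197) (nat_lit 1) (nat_lit 198) (nat_lit 1) (nat_lit 304) (nat_lit 308) (nat_lit 288))) (XT.nd (nat_lit 78) (nat_lit 76) (nat_lit 0) (XT.lf (nat_lit 152) (nat_lit 2849544210) (nat_lit 0) (nat_lit 457253416) (nat_lit 76) (nat_lit 457253416) (nat_lit 197) (nat_lit 1) (nat_lit 195) (nat_lit 1) (nat_lit 196) (nat_lit 1) (nat_lit 305) (nat_lit 308) (nat_lit 287)) (XT.nd (nat_lit 78) (nat_lit 76) (nat_lit 0) (XT.lf (nat_lit 0) (nat_lit 813789423) (nat_lit 0) (nat_lit 1954762031)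 (nat_lit 152) (nat_lit 813789423) (nat_lit 195) (nat_lit 3) (nat_lit 195) (nat_lit 1) (nat_lit 197) (nat_lit 1) (nat_lit 306) (nat_lit 308) (nat_lit 286)) (XT.lf (nat_lit 76) (nat_lit 476147451) (nat_lit 0) (nat_lit 1468297545) (nat_lit 76) (nat_lit 1468297545) (nat_lit 195) (nat_lit 3) (nat_lit 194) (nat_lit 1) (nat_lit 195) (nat_lit 1) (nat_lit 307) (nat_lit 308) (nat_lit 285))))) (XT.nd (nat_lit 234) (nat_lit 228) (nat_lit 0) (XT.nd (nat_lit 78) (nat_lit 76) (nat_lit 0) (XT.lf (nat_lit 152) (nat_lit 2732453586) (nat_lit 0) (nat_lit 261436124) (nat_lit 76) (nat_lit 261436124) (nat_lit 194) (nat_lit 1) (nat_lit 192) (nat_lit 1) (nat_lit 193) (nat_lit 1) (nat_lit 308) (nat_lit 308) (nat_lit 284)) (XT.nd (nat_lit 78) (nat_lit 76) (nat_lit 0) (XT.lf (nat_lit 0) (nat_lit 815514501) (nat_lit 0) (nat_lit 1467869293) (nat_lit 152) (nat_lit 815514501) (nat_lit 192) (nat_lit 3) (nat_lit 192) (nat_lit 1)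 (nat_lit 194) (nat_lit 1) (nat_lit 309) (nat_lit 308) (nat_lit 283)) (XT.lf (nat_lit 76) (nat_lit 606547164) (nat_lit 0) (nat_lit 1173812201) (nat_lit 76) (nat_lit 1173812201) (nat_lit 192) (nat_lit 3) (nat_lit 191) (nat_lit 1) (nat_lit 192) (nat_lit 1) (nat_lit 310) (nat_lit 308) (nat_lit 282)))) (XT.nd (nat_lit 78) (nat_lit 76) (nat_lit 0) (XT.lf (nat_lit 152) (nat_lit 2521608715) (nat_lit 0) (nat_lit 149476952) (nat_lit 76) (nat_lit 149476952) (nat_lit 191) (nat_lit 1) (nat_lit 189) (nat_lit 1) (nat_lit 190) (nat_lit 1) (nat_lit 311) (nat_lit 308) (nat_lit 281)) (XT.nd (nat_lit 78) (nat_lit 76) (nat_lit 0) (XT.lf (nat_lit 0) (nat_lit 770818939) (nat_lit 0) (nat_lit 1143804908) (nat_lit 152) (nat_lit 770818939) (nat_lit 189) (nat_lit 3) (nat_lit 189) (nat_lit 1) (nat_lit 191) (nat_lit 1) (nat_lit 312) (nat_lit 308) (nat_lit 280)) (XT.lf (nat_lit 76) (nat_lit 637498191) (nat_lit 0) (nat_lit 961833817)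 (nat_lit 76) (nat_lit 961833817) (nat_lit 189) (nat_lit 3) (nat_lit 188) (nat_lit 1) (nat_lit 189) (nat_lit 1) (nat_lit 313) (nat_lit 308) (nat_lit 279))))))))
noncomputable def ec37 : XT := (XT.nd (nat_lit 1716) (nat_lit 1672) (nat_lit 0) (XT.nd (nat_lit 858) (nat_lit 912) (nat_lit 0) (XT.nd (nat_lit 390) (nat_lit 456) (nat_lit 0) (XT.nd (nat_lit 156) (nat_lit 228) (nat_lit 0) (XT.nd (nat_lit 78) (nat_lit 0) (nat_lit 0) (XT.lf (nat_lit 152) (nat_lit 2275928845) (nat_lit 0) (nat_lit 85463932) (nat_lit 76) (nat_lit 85463932) (nat_lit 188) (nat_lit 1) (nat_lit 186) (nat_lit 1) (nat_lit 187) (nat_lit 1) (nat_lit 314) (nat_lit 308) (nat_lit 278)) (XT.lf (nat_lit 0) (nat_lit 705540731) (nat_lit 0) (nat_lit 918796669) (nat_lit 152) (nat_lit 705540731) (nat_lit 186) (nat_lit 3) (nat_lit 186) (nat_lit 1) (nat_lit 188) (nat_lit 1) (nat_lit 315) (nat_lit 308) (nat_lit 277))) (XT.nd (nat_lit 78) (nat_lit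 152) (nat_lit 0) (XT.lf (nat_lit 76) (nat_lit 617276774) (nat_lit 0) (nat_lit 802716721) (nat_lit 76) (nat_lit 802716721) (nat_lit 186) (nat_lit 3) (nat_lit 185) (nat_lit 1) (nat_lit 186) (nat_lit 1) (nat_lit 316) (nat_lit 308) (nat_lit 276)) (XT.nd (nat_lit 78) (nat_lit 0) (nat_lit 0) (XT.lf (nat_lit 152) (nat_lit 2026653075) (nat_lit 0) (nat_lit 48864281) (nat_lit 76) (nat_lit 48864281) (nat_lit 185) (nat_lit 1) (nat_lit 183) (nat_lit 1) (nat_lit 184) (nat_lit 1) (nat_lit 317) (nat_lit 308) (nat_lit 275)) (XT.lf (nat_lit 0) (nat_lit 633675638) (nat_lit 0) (nat_lit 755605413) (nat_lit 152) (nat_lit 633675638) (nat_lit 183) (nat_lit 3) (nat_lit 183) (nat_lit 1) (nat_lit 185) (nat_lit 1) (nat_lit 318) (nat_lit 308) (nat_lit 274))))) (XT.nd (nat_lit 234) (nat_lit 228) (nat_lit 0) (XT.nd (nat_lit 78) (nat_lit 152) (nat_lit 0) (XT.lf (nat_lit 76) (nat_lit 572743142) (nat_lit 0) (nat_lit 678769033)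 (nat_lit 76) (nat_lit 678769033) (nat_lit 183) (nat_lit 3) (nat_lit 182) (nat_lit 1) (nat_lit 183) (nat_lit 1) (nat_lit 319) (nat_lit 308) (nat_lit 273)) (XT.nd (nat_lit 78) (nat_lit 0) (nat_lit 0) (XT.lf (nat_lit 152) (nat_lit 1789513623) (nat_lit 0) (nat_lit 27938311) (nat_lit 76) (nat_lit 27938311) (nat_lit 182) (nat_lit 1) (nat_lit 180) (nat_lit 1) (nat_lit 181) (nat_lit 1) (nat_lit 320) (nat_lit 308) (nat_lit 272)) (XT.lf (nat_lit 0) (nat_lit 562549959) (nat_lit 0) (nat_lit 632263704) (nat_lit 152) (nat_lit 562549959) (nat_lit 180) (nat_lit 3) (nat_lit 180) (nat_lit 1) (nat_lit 182) (nat_lit 1) (nat_lit 321) (nat_lit 308) (nat_lit 271)))) (XT.nd (nat_lit 78) (nat_lit 152) (nat_lit 0) (XT.lf (nat_lit 76) (nat_lit 518609614) (nat_lit 0) (nat_lit 579230261) (nat_lit 76) (nat_lit 579230261) (nat_lit 180) (nat_lit 3) (nat_lit 179) (nat_lit 1) (nat_lit 180) (nat_lit 1) (nat_lit 322) (nat_lit 308)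 (nat_lit 270)) (XT.nd (nat_lit 78) (nat_lit 0) (nat_lit 0) (XT.lf (nat_lit 152) (nat_lit 1571654265) (nat_lit 0) (nat_lit 15973820) (nat_lit 76) (nat_lit 15973820) (nat_lit 179) (nat_lit 1) (nat_lit 177) (nat_lit 1) (nat_lit 178) (nat_lit 1) (nat_lit 323) (nat_lit 308) (nat_lit 269)) (XT.lf (nat_lit 0) (nat_lit 495764858) (nat_lit 0) (nat_lit 535623918) (nat_lit 152) (nat_lit 495764858) (nat_lit 177) (nat_lit 3) (nat_lit 177) (nat_lit 1) (nat_lit 179) (nat_lit 1) (nat_lit 324) (nat_lit 308) (nat_lit 268)))))) (XT.nd (nat_lit 390) (nat_lit 456) (nat_lit 0) (XT.nd (nat_lit 156) (nat_lit 228) (nat_lit 0) (XT.nd (nat_lit 78) (nat_lit 152) (nat_lit 0) (XT.lf (nat_lit 76) (nat_lit 462727046) (nat_lit 0) (nat_lit 497387098) (nat_lit 76) (nat_lit 497387098) (nat_lit 177) (nat_lit 3) (nat_lit 176) (nat_lit 1) (nat_lit 177) (nat_lit 1) (nat_lit 325) (nat_lit 308) (nat_lit 267)) (XT.lf (nat_lit 152) (nat_lit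 1375549768) (nat_lit 0) (nat_lit 9133083) (nat_lit 76) (nat_lit 9133083) (nat_lit 176) (nat_lit 1) (nat_lit 174) (nat_lit 1) (nat_lit 175) (nat_lit 1) (nat_lit 326) (nat_lit 308) (nat_lit 266))) (XT.nd (nat_lit 78) (nat_lit 228) (nat_lit 0) (XT.lf (nat_lit 0) (nat_lit 434868291) (nat_lit 0) (nat_lit 457657838) (nat_lit 152) (nat_lit 434868291) (nat_lit 174) (nat_lit 3) (nat_lit 174) (nat_lit 1) (nat_lit 176) (nat_lit 1) (nat_lit 327) (nat_lit 308) (nat_lit 265)) (XT.nd (nat_lit 78) (nat_lit 152) (nat_lit 0) (XT.lf (nat_lit 76) (nat_lit 409096400) (nat_lit 0) (nat_lit 428913397) (nat_lit 76) (nat_lit 428913397) (nat_lit 174) (nat_lit 3) (nat_lit 173) (nat_lit 1) (nat_lit 174) (nat_lit 1) (nat_lit 328) (nat_lit 308) (nat_lit 264)) (XT.lf (nat_lit 152) (nat_lit 1201215342) (nat_lit 0) (nat_lit 5221870) (nat_lit 76) (nat_lit 5221870) (nat_lit 173) (nat_lit 1) (nat_lit 171) (nat_lit 1) (nat_lit 172)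 (nat_lit 1) (nat_lit 329) (nat_lit 308) (nat_lit 263))))) (XT.nd (nat_lit 234) (nat_lit 228) (nat_lit 0) (XT.nd (nat_lit 78) (nat_lit 228) (nat_lit 0) (XT.lf (nat_lit 0) (nat_lit 380300943) (nat_lit 0) (nat_lit 393330940) (nat_lit 152) (nat_lit 380300943) (nat_lit 171) (nat_lit 3) (nat_lit 171) (nat_lit 1) (nat_lit 173) (nat_lit 1) (nat_lit 330) (nat_lit 308) (nat_lit 262)) (XT.nd (nat_lit 78) (nat_lit 152) (nat_lit 0) (XT.lf (nat_lit 76) (nat_lit 359581072) (nat_lit 0) (nat_lit 370911504) (nat_lit 76) (nat_lit 370911504) (nat_lit 171) (nat_lit 3) (nat_lit 170) (nat_lit 1) (nat_lit 171) (nat_lit 1) (nat_lit 331) (nat_lit 308) (nat_lit 261)) (XT.lf (nat_lit 152) (nat_lit 1047442507) (nat_lit 0) (nat_lit 2985621) (nat_lit 76) (nat_lit 2985621) (nat_lit 170) (nat_lit 1) (nat_lit 168) (nat_lit 1) (nat_lit 169) (nat_lit 1) (nat_lit 332) (nat_lit 308) (nat_lit 260)))) (XT.nd (nat_lit 78) (nat_lit 228)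 (nat_lit 0) (XT.lf (nat_lit 0) (nat_lit 331928373) (nat_lit 0) (nat_lit 339378317) (nat_lit 152) (nat_lit 331928373) (nat_lit 168) (nat_lit 3) (nat_lit 168) (nat_lit 1) (nat_lit 170) (nat_lit 1) (nat_lit 333) (nat_lit 308) (nat_lit 259)) (XT.nd (nat_lit 78) (nat_lit 152) (nat_lit 0) (XT.lf (nat_lit 76) (nat_lit 314877626) (nat_lit 0) (nat_lit 321355837) (nat_lit 76) (nat_lit 321355837) (nat_lit 168) (nat_lit 3) (nat_lit 167) (nat_lit 1) (nat_lit 168) (nat_lit 1) (nat_lit 334) (nat_lit 308) (nat_lit 258)) (XT.lf (nat_lit 152) (nat_lit 912481902) (nat_lit 0) (nat_lit 1707038) (nat_lit 76) (nat_lit 1707038) (nat_lit 167) (nat_lit 1) (nat_lit 165) (nat_lit 1) (nat_lit 166) (nat_lit 1) (nat_lit 335) (nat_lit 308) (nat_lit 257))))))) (XT.nd (nat_lit 858) (nat_lit 912) (nat_lit 0) (XT.nd (nat_lit 390) (nat_lit 456) (nat_lit 0) (XT.nd (nat_lit 156) (nat_lit 228) (nat_lit 0) (XT.nd (nat_lit 78) (nat_lit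 76) (nat_lit 0) (XT.lf (nat_lit 0) (nat_lit 289337712) (nat_lit 0) (nat_lit 293597241) (nat_lit 152) (nat_lit 289337712) (nat_lit 165) (nat_lit 3) (nat_lit 165) (nat_lit 1) (nat_lit 167) (nat_lit 1) (nat_lit 336) (nat_lit 308) (nat_lit 256)) (XT.lf (nat_lit 76) (nat_lit 275063592) (nat_lit 0) (nat_lit 278767530) (nat_lit 76) (nat_lit 278767530) (nat_lit 165) (nat_lit 3) (nat_lit 164) (nat_lit 1) (nat_lit 165) (nat_lit 1) (nat_lit 337) (nat_lit 308) (nat_lit 255))) (XT.nd (nat_lit 78) (nat_lit 76) (nat_lit 0) (XT.lf (nat_lit 152) (nat_lit 794412966) (nat_lit 0) (nat_lit 976004) (nat_lit 76) (nat_lit 976004) (nat_lit 164) (nat_lit 1) (nat_lit 162) (nat_lit 1) (nat_lit 163) (nat_lit 1) (nat_lit 338) (nat_lit 308) (nat_lit 254)) (XT.nd (nat_lit 78) (nat_lit 76) (nat_lit 0) (XT.lf (nat_lit 0) (nat_lit 252000721) (nat_lit 0) (nat_lit 254436120) (nat_lit 152) (nat_lit 252000721) (nat_lit 162) (nat_lit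 3) (nat_lit 162) (nat_lit 1) (nat_lit 164) (nat_lit 1) (nat_lit 339) (nat_lit 308) (nat_lit 253)) (XT.lf (nat_lit 76) (nat_lit 239904403) (nat_lit 0) (nat_lit 242022142) (nat_lit 76) (nat_lit 242022142) (nat_lit 162) (nat_lit 3) (nat_lit 161) (nat_lit 1) (nat_lit 162) (nat_lit 1) (nat_lit 340) (nat_lit 308) (nat_lit 252))))) (XT.nd (nat_lit 234) (nat_lit 228) (nat_lit 0) (XT.nd (nat_lit 78) (nat_lit 76) (nat_lit 0) (XT.lf (nat_lit 152) (nat_lit 691337303) (nat_lit 0) (nat_lit 558033) (nat_lit 76) (nat_lit 558033) (nat_lit 161) (nat_lit 1) (nat_lit 159) (nat_lit 1) (nat_lit 160) (nat_lit 1) (nat_lit 341) (nat_lit 308) (nat_lit 251)) (XT.nd (nat_lit 78) (nat_lit 76) (nat_lit 0) (XT.lf (nat_lit 0) (nat_lit 219361313) (nat_lit 0) (nat_lit 220753760) (nat_lit 152) (nat_lit 219361313) (nat_lit 159) (nat_lit 3) (nat_lit 159) (nat_lit 1) (nat_lit 161) (nat_lit 1) (nat_lit 342) (nat_lit 308) (nat_lit 250))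 (XT.lf (nat_lit 76) (nat_lit 209023427) (nat_lit 0) (nat_lit 210234252) (nat_lit 76) (nat_lit 210234252) (nat_lit 159) (nat_lit 3) (nat_lit 158) (nat_lit 1) (nat_lit 159) (nat_lit 1) (nat_lit 343) (nat_lit 308) (nat_lit 249)))) (XT.nd (nat_lit 78) (nat_lit 76) (nat_lit 0) (XT.lf (nat_lit 152) (nat_lit 601473573) (nat_lit 0) (nat_lit 319057) (nat_lit 76) (nat_lit 319057) (nat_lit 158) (nat_lit 1) (nat_lit 156) (nat_lit 1) (nat_lit 157) (nat_lit 1) (nat_lit 344) (nat_lit 308) (nat_lit 248)) (XT.nd (nat_lit 78) (nat_lit 76) (nat_lit 0) (XT.lf (nat_lit 0) (nat_lit 190880614) (nat_lit 0) (nat_lit 191676751) (nat_lit 152) (nat_lit 190880614) (nat_lit 156) (nat_lit 3) (nat_lit 156) (nat_lit 1) (nat_lit 158) (nat_lit 1) (nat_lit 345) (nat_lit 308) (nat_lit 247)) (XT.lf (nat_lit 76) (nat_lit 181994437) (nat_lit 0) (nat_lit 182686730) (nat_lit 76) (nat_lit 182686730) (nat_lit 156) (nat_lit 3) (nat_lit 155)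 (nat_lit 1) (nat_lit 156) (nat_lit 1) (nat_lit 346) (nat_lit 308) (nat_lit 246)))))) (XT.nd (nat_lit 468) (nat_lit 456) (nat_lit 0) (XT.nd (nat_lit 234) (nat_lit 228) (nat_lit 0) (XT.nd (nat_lit 78) (nat_lit 76) (nat_lit 0) (XT.lf (nat_lit 152) (nat_lit 523198143) (nat_lit 0) (nat_lit 182422) (nat_lit 76) (nat_lit 182422) (nat_lit 155) (nat_lit 1) (nat_lit 153) (nat_lit 1) (nat_lit 154) (nat_lit 1) (nat_lit 347) (nat_lit 308) (nat_lit 245)) (XT.nd (nat_lit 78) (nat_lit 76) (nat_lit 0) (XT.lf (nat_lit 0) (nat_lit 166058412) (nat_lit 0) (nat_lit 166513606) (nat_lit 152) (nat_lit 166058412) (nat_lit 153) (nat_lit 3) (nat_lit 153) (nat_lit 1) (nat_lit 155) (nat_lit 1) (nat_lit 348) (nat_lit 308) (nat_lit 244)) (XT.lf (nat_lit 76) (nat_lit 158390357) (nat_lit 0) (nat_lit 158786178) (nat_lit 76) (nat_lit 158786178) (nat_lit 153) (nat_lit 3) (nat_lit 152) (nat_lit 1) (nat_lit 153) (nat_lit 1) (nat_lit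 349) (nat_lit 308) (nat_lit 243)))) (XT.nd (nat_lit 78) (nat_lit 76) (nat_lit 0) (XT.lf (nat_lit 152) (nat_lit 455056476) (nat_lit 0) (nat_lit 104300) (nat_lit 76) (nat_lit 104300) (nat_lit 152) (nat_lit 1) (nat_lit 150) (nat_lit 1) (nat_lit 151) (nat_lit 1) (nat_lit 350) (nat_lit 308) (nat_lit 242)) (XT.nd (nat_lit 78) (nat_lit 76) (nat_lit 0) (XT.lf (nat_lit 0) (nat_lit 144441655) (nat_lit 0) (nat_lit 144701913) (nat_lit 152) (nat_lit 144441655) (nat_lit 150) (nat_lit 3) (nat_lit 150) (nat_lit 1) (nat_lit 152) (nat_lit 1) (nat_lit 351) (nat_lit 308) (nat_lit 241)) (XT.lf (nat_lit 76) (nat_lit 137807546) (nat_lit 0) (nat_lit 138033858) (nat_lit 76) (nat_lit 138033858) (nat_lit 150) (nat_lit 3) (nat_lit 149) (nat_lit 1) (nat_lit 150) (nat_lit 1) (nat_lit 352) (nat_lit 308) (nat_lit 240))))) (XT.nd (nat_lit 234) (nat_lit 228) (nat_lit 0) (XT.nd (nat_lit 78) (nat_lit 76) (nat_lit 0) (XT.lf (nat_lit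 152) (nat_lit 395759356) (nat_lit 0) (nat_lit 59634) (nat_lit 76) (nat_lit 59634) (nat_lit 149) (nat_lit 1) (nat_lit 147) (nat_lit 1) (nat_lit 148) (nat_lit 1) (nat_lit 353) (nat_lit 308) (nat_lit 239)) (XT.nd (nat_lit 78) (nat_lit 76) (nat_lit 0) (XT.lf (nat_lit 0) (nat_lit 125626045) (nat_lit 0) (nat_lit 125774848) (nat_lit 152) (nat_lit 125626045) (nat_lit 147) (nat_lit 3) (nat_lit 147) (nat_lit 1) (nat_lit 149) (nat_lit 1) (nat_lit 354) (nat_lit 308) (nat_lit 238)) (XT.lf (nat_lit 76) (nat_lit 119876560) (nat_lit 0) (nat_lit 120005954) (nat_lit 76) (nat_lit 120005954) (nat_lit 147) (nat_lit 3) (nat_lit 146) (nat_lit 1) (nat_lit 147) (nat_lit 1) (nat_lit 355) (nat_lit 308) (nat_lit 237)))) (XT.nd (nat_lit 78) (nat_lit 76) (nat_lit 0) (XT.lf (nat_lit 152) (nat_lit 344171773) (nat_lit 0) (nat_lit 34096) (nat_lit 76) (nat_lit 34096) (nat_lit 146) (nat_lit 1) (nat_lit 144) (nat_lit 1) (nat_lit 145)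 (nat_lit 1) (nat_lit 356) (nat_lit 308) (nat_lit 236)) (XT.nd (nat_lit 78) (nat_lit 76) (nat_lit 0) (XT.lf (nat_lit 0) (nat_lit 109254107) (nat_lit 0) (nat_lit 109339186) (nat_lit 152) (nat_lit 109254107) (nat_lit 144) (nat_lit 3) (nat_lit 144) (nat_lit 1) (nat_lit 146) (nat_lit 1) (nat_lit 357) (nat_lit 308) (nat_lit 235)) (XT.lf (nat_lit 76) (nat_lit 104265593) (nat_lit 0) (nat_lit 104339574) (nat_lit 76) (nat_lit 104339574) (nat_lit 144) (nat_lit 3) (nat_lit 143) (nat_lit 1) (nat_lit 144) (nat_lit 1) (nat_lit 358) (nat_lit 308) (nat_lit 234))))))))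
noncomputable def ec38 : XT := (XT.nd (nat_lit 41496) (nat_lit 0) (nat_lit 4484) (XT.nd (nat_lit 858) (nat_lit 228) (nat_lit 0) (XT.nd (nat_lit 390) (nat_lit 456) (nat_lit 0) (XT.nd (nat_lit 156) (nat_lit 228) (nat_lit 0) (XT.nd (nat_lit 78) (nat_lit 0) (nat_lit 0) (XT.lf (nat_lit 152) (nat_lit 299298787) (nat_lit 0) (nat_lit 19494) (nat_lit 76) (nat_lit 19494) (nat_lit 143) (nat_lit 1) (nat_lit 141) (nat_lit 1) (nat_lit 142) (nat_lit 1) (nat_lit 359) (nat_lit 308) (nat_lit 233)) (XT.lf (nat_lit 0) (nat_lit 95011615) (nat_lit 0) (nat_lit 95060259) (nat_lit 152) (nat_lit 95011615) (nat_lit 141) (nat_lit 3) (nat_lit 141) (nat_lit 1) (nat_lit 143) (nat_lit 1) (nat_lit 360) (nat_lit 308) (nat_lit 232))) (XT.nd (nat_lit 78) (nat_lit 152) (nat_lit 0) (XT.lf (nat_lit 76) (nat_lit 90680087) (nat_lit 0) (nat_lit 90722387) (nat_lit 76) (nat_lit 90722387) (nat_lit 141) (nat_lit 3) (nat_lit 140) (nat_lit 1)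 (nat_lit 141) (nat_lit 1) (nat_lit 361) (nat_lit 308) (nat_lit 231)) (XT.nd (nat_lit 78) (nat_lit 0) (nat_lit 0) (XT.lf (nat_lit 152) (nat_lit 260270668) (nat_lit 0) (nat_lit 11146) (nat_lit 76) (nat_lit 11146) (nat_lit 140) (nat_lit 1) (nat_lit 138) (nat_lit 1) (nat_lit 139) (nat_lit 1) (nat_lit 362) (nat_lit 308) (nat_lit 230)) (XT.lf (nat_lit 0) (nat_lit 82623395) (nat_lit 0) (nat_lit 82651207) (nat_lit 152) (nat_lit 82623395) (nat_lit 138) (nat_lit 3) (nat_lit 138) (nat_lit 1) (nat_lit 140) (nat_lit 1) (nat_lit 363) (nat_lit 308) (nat_lit 229))))) (XT.nd (nat_lit 234) (nat_lit 228) (nat_lit 0) (XT.nd (nat_lit 78) (nat_lit 152) (nat_lit 0) (XT.lf (nat_lit 76) (nat_lit 78860457) (nat_lit 0) (nat_lit 78884642) (nat_lit 76) (nat_lit 78884642) (nat_lit 138) (nat_lit 3) (nat_lit 137) (nat_lit 1) (nat_lit 138) (nat_lit 1) (nat_lit 364) (nat_lit 308) (nat_lit 228)) (XT.nd (nat_lit 78) (nat_lit 0) (nat_lit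 0) (XT.lf (nat_lit 152) (nat_lit 226328526) (nat_lit 0) (nat_lit 6372) (nat_lit 76) (nat_lit 6372) (nat_lit 137) (nat_lit 1) (nat_lit 135) (nat_lit 1) (nat_lit 136) (nat_lit 1) (nat_lit 365) (nat_lit 308) (nat_lit 227)) (XT.lf (nat_lit 0) (nat_lit 71849060) (nat_lit 0) (nat_lit 71864961) (nat_lit 152) (nat_lit 71849060) (nat_lit 135) (nat_lit 3) (nat_lit 135) (nat_lit 1) (nat_lit 137) (nat_lit 1) (nat_lit 366) (nat_lit 308) (nat_lit 226)))) (XT.nd (nat_lit 78) (nat_lit 152) (nat_lit 0) (XT.lf (nat_lit 76) (nat_lit 68579003) (nat_lit 0) (nat_lit 68592831) (nat_lit 76) (nat_lit 68592831) (nat_lit 135) (nat_lit 3) (nat_lit 134) (nat_lit 1) (nat_lit 135) (nat_lit 1) (nat_lit 367) (nat_lit 308) (nat_lit 225)) (XT.nd (nat_lit 78) (nat_lit 0) (nat_lit 0) (XT.lf (nat_lit 152) (nat_lit 196810962) (nat_lit 0) (nat_lit 3643) (nat_lit 76) (nat_lit 3643) (nat_lit 134) (nat_lit 1) (nat_lit 132) (nat_lit 1) (nat_lit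 133) (nat_lit 1) (nat_lit 368) (nat_lit 308) (nat_lit 224)) (XT.lf (nat_lit 0) (nat_lit 62478946) (nat_lit 0) (nat_lit 62488038) (nat_lit 152) (nat_lit 62478946) (nat_lit 132) (nat_lit 3) (nat_lit 132) (nat_lit 1) (nat_lit 134) (nat_lit 1) (nat_lit 369) (nat_lit 308) (nat_lit 223)))))) (XT.nd (nat_lit 40170) (nat_lit 0) (nat_lit 6232) (XT.nd (nat_lit 156) (nat_lit 0) (nat_lit 0) (XT.nd (nat_lit 78) (nat_lit 152) (nat_lit 0) (XT.lf (nat_lit 76) (nat_lit 59636599) (nat_lit 0) (nat_lit 59644505) (nat_lit 76) (nat_lit 59644505) (nat_lit 132) (nat_lit 3) (nat_lit 131) (nat_lit 1) (nat_lit 132) (nat_lit 1) (nat_lit 370) (nat_lit 308) (nat_lit 222)) (XT.lf (nat_lit 152) (nat_lit 171141996) (nat_lit 0) (nat_lit 2083) (nat_lit 76) (nat_lit 2083) (nat_lit 131) (nat_lit 1) (nat_lit 129) (nat_lit 1) (nat_lit 130) (nat_lit 1) (nat_lit 371) (nat_lit 308) (nat_lit 221))) (XT.nd (nat_lit 39858) (nat_lit 0) (nat_lit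 6536) (XT.lf (nat_lit 0) (nat_lit 54330378) (nat_lit 0) (nat_lit 54335577) (nat_lit 152) (nat_lit 54330378) (nat_lit 129) (nat_lit 3) (nat_lit 129) (nat_lit 1) (nat_lit 131) (nat_lit 1) (nat_lit 372) (nat_lit 308) (nat_lit 220)) (XT.nd (nat_lit 78) (nat_lit 0) (nat_lit 0) (XT.lf (nat_lit 380) (nat_lit 2468340114) (nat_lit 0) (nat_lit 2186269588) (nat_lit 380) (nat_lit 2468340114) (nat_lit 220) (nat_lit 1) (nat_lit 215) (nat_lit 0) (nat_lit 220) (nat_lit 0) (nat_lit 282) (nat_lit 309) (nat_lit 309)) (XT.lf (nat_lit 380) (nat_lit 9130069755) (nat_lit 76) (nat_lit 2086893698) (nat_lit 0) (nat_lit 2086893698) (nat_lit 220) (nat_lit 1) (nat_lit 216) (nat_lit 1) (nat_lit 215) (nat_lit 0) (nat_lit 283) (nat_lit 309) (nat_lit 308))))) (XT.nd (nat_lit 234) (nat_lit 380) (nat_lit 0) (XT.nd (nat_lit 78) (nat_lit 0) (nat_lit 0) (XT.lf (nat_lit 380) (nat_lit 4024482393) (nat_lit 0) (nat_lit 4379016480) (nat_lit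 304) (nat_lit 4024482393) (nat_lit 221) (nat_lit 1) (nat_lit 216) (nat_lit 1) (nat_lit 220) (nat_lit 1) (nat_lit 284) (nat_lit 309) (nat_lit 307)) (XT.nd (nat_lit 78) (nat_lit 0) (nat_lit 76) (XT.lf (nat_lit 380) (nat_lit 6909827307) (nat_lit 76) (nat_lit 2365280103) (nat_lit 0) (nat_lit 2365280103) (nat_lit 221) (nat_lit 1) (nat_lit 217) (nat_lit 1) (nat_lit 216) (nat_lit 1) (nat_lit 285) (nat_lit 309) (nat_lit 306)) (XT.lf (nat_lit 76) (nat_lit 2795116790) (nat_lit 0) (nat_lit 5322371619) (nat_lit 304) (nat_lit 2795116790) (nat_lit 218) (nat_lit 1) (nat_lit 217) (nat_lit 1) (nat_lit 221) (nat_lit 1) (nat_lit 286) (nat_lit 309) (nat_lit 305)))) (XT.nd (nat_lit 78) (nat_lit 152) (nat_lit 0) (XT.lf (nat_lit 380) (nat_lit 4200834792) (nat_lit 0) (nat_lit 3023680328) (nat_lit 304) (nat_lit 3023680328) (nat_lit 218) (nat_lit 1) (nat_lit 213) (nat_lit 1) (nat_lit 217) (nat_lit 1) (nat_lit 287) (nat_lit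 309) (nat_lit 304)) (XT.nd (nat_lit 78) (nat_lit 152) (nat_lit 0) (XT.lf (nat_lit 76) (nat_lit 1396311090) (nat_lit 0) (nat_lit 6851733519) (nat_lit 380) (nat_lit 1396311090) (nat_lit 214) (nat_lit 1) (nat_lit 213) (nat_lit 1) (nat_lit 218) (nat_lit 1) (nat_lit 288) (nat_lit 309) (nat_lit 303)) (XT.lf (nat_lit 228) (nat_lit 1256647043) (nat_lit 0) (nat_lit 3911003843) (nat_lit 152) (nat_lit 3911003843) (nat_lit 214) (nat_lit 1) (nat_lit 211) (nat_lit 1) (nat_lit 213) (nat_lit 1) (nat_lit 289) (nat_lit 309) (nat_lit 302))))))) (XT.nd (nat_lit 858) (nat_lit 760) (nat_lit 0) (XT.nd (nat_lit 390) (nat_lit 532) (nat_lit 0) (XT.nd (nat_lit 156) (nat_lit 228) (nat_lit 0) (XT.nd (nat_lit 78) (nat_lit 0) (nat_lit 0) (XT.lf (nat_lit 228) (nat_lit 8444652318) (nat_lit 0) (nat_lit 66256836) (nat_lit 152) (nat_lit 66256836) (nat_lit 211) (nat_lit 1) (nat_lit 208) (nat_lit 1) (nat_lit 210) (nat_lit 1) (nat_lit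 290) (nat_lit 309) (nat_lit 301)) (XT.lf (nat_lit 76) (nat_lit 3244489397) (nat_lit 0) (nat_lit 1592871591) (nat_lit 228) (nat_lit 3244489397) (nat_lit 209) (nat_lit 1) (nat_lit 208) (nat_lit 1) (nat_lit 211) (nat_lit 1) (nat_lit 291) (nat_lit 309) (nat_lit 300))) (XT.nd (nat_lit 78) (nat_lit 76) (nat_lit 0) (XT.lf (nat_lit 228) (nat_lit 4715989866) (nat_lit 0) (nat_lit 1462853696) (nat_lit 152) (nat_lit 1462853696) (nat_lit 209) (nat_lit 1) (nat_lit 206) (nat_lit 1) (nat_lit 208) (nat_lit 1) (nat_lit 292) (nat_lit 309) (nat_lit 299)) (XT.nd (nat_lit 78) (nat_lit 76) (nat_lit 0) (XT.lf (nat_lit 76) (nat_lit 1474844709) (nat_lit 0) (nat_lit 4279974131) (nat_lit 228) (nat_lit 1474844709) (nat_lit 207) (nat_lit 1) (nat_lit 206) (nat_lit 1) (nat_lit 209) (nat_lit 1) (nat_lit 293) (nat_lit 309) (nat_lit 298)) (XT.lf (nat_lit 152) (nat_lit 1219231706) (nat_lit 0) (nat_lit 2813383159) (nat_lit 76) (nat_lit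 2813383159) (nat_lit 207) (nat_lit 1) (nat_lit 205) (nat_lit 1) (nat_lit 206) (nat_lit 1) (nat_lit 294) (nat_lit 309) (nat_lit 297))))) (XT.nd (nat_lit 234) (nat_lit 228) (nat_lit 0) (XT.nd (nat_lit 78) (nat_lit 76) (nat_lit 0) (XT.lf (nat_lit 228) (nat_lit 6172467591) (nat_lit 0) (nat_lit 163977918) (nat_lit 152) (nat_lit 163977918) (nat_lit 205) (nat_lit 1) (nat_lit 202) (nat_lit 1) (nat_lit 204) (nat_lit 1) (nat_lit 295) (nat_lit 309) (nat_lit 296)) (XT.nd (nat_lit 78) (nat_lit 76) (nat_lit 0) (XT.lf (nat_lit 76) (nat_lit 2160230903) (nat_lit 0) (nat_lit 1834538564) (nat_lit 228) (nat_lit 2160230903) (nat_lit 203) (nat_lit 1) (nat_lit 202) (nat_lit 1) (nat_lit 205) (nat_lit 1) (nat_lit 296) (nat_lit 309) (nat_lit 295)) (XT.lf (nat_lit 152) (nat_lit 2626633875) (nat_lit 0) (nat_lit 1608560952) (nat_lit 76) (nat_lit 1608560952) (nat_lit 203) (nat_lit 1) (nat_lit 201) (nat_lit 1) (nat_lit 202)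 (nat_lit 1) (nat_lit 297) (nat_lit 309) (nat_lit 294)))) (XT.nd (nat_lit 78) (nat_lit 228) (nat_lit 0) (XT.lf (nat_lit 0) (nat_lit 514331109) (nat_lit 0) (nat_lit 4528131596) (nat_lit 152) (nat_lit 514331109) (nat_lit 201) (nat_lit 3) (nat_lit 201) (nat_lit 1) (nat_lit 203) (nat_lit 1) (nat_lit 298) (nat_lit 309) (nat_lit 293)) (XT.nd (nat_lit 78) (nat_lit 76) (nat_lit 0) (XT.lf (nat_lit 76) (nat_lit 2380322207) (nat_lit 0) (nat_lit 516250737) (nat_lit 152) (nat_lit 2380322207) (nat_lit 200) (nat_lit 1) (nat_lit 199) (nat_lit 1) (nat_lit 201) (nat_lit 1) (nat_lit 299) (nat_lit 309) (nat_lit 292)) (XT.lf (nat_lit 152) (nat_lit 3179642261) (nat_lit 0) (nat_lit 919699945) (nat_lit 76) (nat_lit 919699945) (nat_lit 200) (nat_lit 1) (nat_lit 198) (nat_lit 1) (nat_lit 199) (nat_lit 1) (nat_lit 300) (nat_lit 309) (nat_lit 291)))))) (XT.nd (nat_lit 390) (nat_lit 456) (nat_lit 0) (XT.nd (nat_lit 156) (nat_lit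 228) (nat_lit 0) (XT.nd (nat_lit 78) (nat_lit 76) (nat_lit 0) (XT.lf (nat_lit 0) (nat_lit 826723121) (nat_lit 0) (nat_lit 3121626577) (nat_lit 152) (nat_lit 826723121) (nat_lit 198) (nat_lit 3) (nat_lit 198) (nat_lit 1) (nat_lit 200) (nat_lit 1) (nat_lit 301) (nat_lit 309) (nat_lit 290)) (XT.lf (nat_lit 76) (nat_lit 184427155) (nat_lit 0) (nat_lit 2179995377) (nat_lit 76) (nat_lit 2179995377) (nat_lit 198) (nat_lit 3) (nat_lit 197) (nat_lit 1) (nat_lit 198) (nat_lit 1) (nat_lit 302) (nat_lit 309) (nat_lit 289))) (XT.nd (nat_lit 78) (nat_lit 76) (nat_lit 0) (XT.lf (nat_lit 152) (nat_lit 3276975841) (nat_lit 0) (nat_lit 525841428) (nat_lit 76) (nat_lit 525841428) (nat_lit 197) (nat_lit 1) (nat_lit 195) (nat_lit 1) (nat_lit 196) (nat_lit 1) (nat_lit 303) (nat_lit 309) (nat_lit 288)) (XT.nd (nat_lit 78) (nat_lit 76) (nat_lit 0) (XT.lf (nat_lit 0) (nat_lit 935857837) (nat_lit 0) (nat_lit 2247976336)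 (nat_lit 152) (nat_lit 935857837) (nat_lit 195) (nat_lit 3) (nat_lit 195) (nat_lit 1) (nat_lit 197) (nat_lit 1) (nat_lit 304) (nat_lit 309) (nat_lit 287)) (XT.lf (nat_lit 76) (nat_lit 547569569) (nat_lit 0) (nat_lit 1688542177) (nat_lit 76) (nat_lit 1688542177) (nat_lit 195) (nat_lit 3) (nat_lit 194) (nat_lit 1) (nat_lit 195) (nat_lit 1) (nat_lit 305) (nat_lit 309) (nat_lit 286))))) (XT.nd (nat_lit 234) (nat_lit 228) (nat_lit 0) (XT.nd (nat_lit 78) (nat_lit 76) (nat_lit 0) (XT.lf (nat_lit 152) (nat_lit 3142321624) (nat_lit 0) (nat_lit 300651543) (nat_lit 76) (nat_lit 300651543) (nat_lit 194) (nat_lit 1) (nat_lit 192) (nat_lit 1) (nat_lit 193) (nat_lit 1) (nat_lit 306) (nat_lit 309) (nat_lit 285)) (XT.nd (nat_lit 78) (nat_lit 76) (nat_lit 0) (XT.lf (nat_lit 0) (nat_lit 937841676) (nat_lit 0) (nat_lit 1688049687) (nat_lit 152) (nat_lit 937841676) (nat_lit 192) (nat_lit 3) (nat_lit 192) (nat_lit 1)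 (nat_lit 194) (nat_lit 1) (nat_lit 307) (nat_lit 309) (nat_lit 284)) (XT.lf (nat_lit 76) (nat_lit 697529239) (nat_lit 0) (nat_lit 1349884031) (nat_lit 76) (nat_lit 1349884031) (nat_lit 192) (nat_lit 3) (nat_lit 191) (nat_lit 1) (nat_lit 192) (nat_lit 1) (nat_lit 308) (nat_lit 309) (nat_lit 283)))) (XT.nd (nat_lit 78) (nat_lit 76) (nat_lit 0) (XT.lf (nat_lit 152) (nat_lit 2899850023) (nat_lit 0) (nat_lit 171898495) (nat_lit 76) (nat_lit 171898495) (nat_lit 191) (nat_lit 1) (nat_lit 189) (nat_lit 1) (nat_lit 190) (nat_lit 1) (nat_lit 309) (nat_lit 309) (nat_lit 282)) (XT.nd (nat_lit 78) (nat_lit 76) (nat_lit 0) (XT.lf (nat_lit 0) (nat_lit 886441780) (nat_lit 0) (nat_lit 1315375644) (nat_lit 152) (nat_lit 886441780) (nat_lit 189) (nat_lit 3) (nat_lit 189) (nat_lit 1) (nat_lit 191) (nat_lit 1) (nat_lit 310) (nat_lit 309) (nat_lit 281)) (XT.lf (nat_lit 76) (nat_lit 733122920) (nat_lit 0) (nat_lit 1106108889)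 (nat_lit 76) (nat_lit 1106108889) (nat_lit 189) (nat_lit 3) (nat_lit 188) (nat_lit 1) (nat_lit 189) (nat_lit 1) (nat_lit 311) (nat_lit 309) (nat_lit 280))))))))
noncomputable def ec39 : XT := (XT.nd (nat_lit 1716) (nat_lit 1672) (nat_lit 0) (XT.nd (nat_lit 858) (nat_lit 912) (nat_lit 0) (XT.nd (nat_lit 390) (nat_lit 456) (nat_lit 0) (XT.nd (nat_lit 156) (nat_lit 228) (nat_lit 0) (XT.nd (nat_lit 78) (nat_lit 0) (nat_lit 0) (XT.lf (nat_lit 152) (nat_lit 2617318171) (nat_lit 0) (nat_lit 98283522) (nat_lit 76) (nat_lit 98283522) (nat_lit 188) (nat_lit 1) (nat_lit 186) (nat_lit 1) (nat_lit 187) (nat_lit 1) (nat_lit 312) (nat_lit 309) (nat_lit 279)) (XT.lf (nat_lit 0) (nat_lit 811371840) (nat_lit 0) (nat_lit 1056616170) (nat_lit 152) (nat_lit 811371840) (nat_lit 186) (nat_lit 3) (nat_lit 186) (nat_lit 1) (nat_lit 188) (nat_lit 1) (nat_lit 313) (nat_lit 309) (nat_lit 278))) (XT.nd (nat_lit 78) (nat_lit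 152) (nat_lit 0) (XT.lf (nat_lit 76) (nat_lit 709868290) (nat_lit 0) (nat_lit 923124229) (nat_lit 76) (nat_lit 923124229) (nat_lit 186) (nat_lit 3) (nat_lit 185) (nat_lit 1) (nat_lit 186) (nat_lit 1) (nat_lit 314) (nat_lit 309) (nat_lit 277)) (XT.nd (nat_lit 78) (nat_lit 0) (nat_lit 0) (XT.lf (nat_lit 152) (nat_lit 2330651037) (nat_lit 0) (nat_lit 56193923) (nat_lit 76) (nat_lit 56193923) (nat_lit 185) (nat_lit 1) (nat_lit 183) (nat_lit 1) (nat_lit 184) (nat_lit 1) (nat_lit 315) (nat_lit 309) (nat_lit 276)) (XT.lf (nat_lit 0) (nat_lit 728726984) (nat_lit 0) (nat_lit 868946225) (nat_lit 152) (nat_lit 728726984) (nat_lit 183) (nat_lit 3) (nat_lit 183) (nat_lit 1) (nat_lit 185) (nat_lit 1) (nat_lit 316) (nat_lit 309) (nat_lit 275))))) (XT.nd (nat_lit 234) (nat_lit 228) (nat_lit 0) (XT.nd (nat_lit 78) (nat_lit 152) (nat_lit 0) (XT.lf (nat_lit 76) (nat_lit 658654613) (nat_lit 0) (nat_lit 780584388)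 (nat_lit 76) (nat_lit 780584388) (nat_lit 183) (nat_lit 3) (nat_lit 182) (nat_lit 1) (nat_lit 183) (nat_lit 1) (nat_lit 317) (nat_lit 309) (nat_lit 274)) (XT.nd (nat_lit 78) (nat_lit 0) (nat_lit 0) (XT.lf (nat_lit 152) (nat_lit 2057940666) (nat_lit 0) (nat_lit 32129057) (nat_lit 76) (nat_lit 32129057) (nat_lit 182) (nat_lit 1) (nat_lit 180) (nat_lit 1) (nat_lit 181) (nat_lit 1) (nat_lit 318) (nat_lit 309) (nat_lit 273)) (XT.lf (nat_lit 0) (nat_lit 646932453) (nat_lit 0) (nat_lit 727103260) (nat_lit 152) (nat_lit 646932453) (nat_lit 180) (nat_lit 3) (nat_lit 180) (nat_lit 1) (nat_lit 182) (nat_lit 1) (nat_lit 319) (nat_lit 309) (nat_lit 272)))) (XT.nd (nat_lit 78) (nat_lit 152) (nat_lit 0) (XT.lf (nat_lit 76) (nat_lit 596401056) (nat_lit 0) (nat_lit 666114800) (nat_lit 76) (nat_lit 666114800) (nat_lit 180) (nat_lit 3) (nat_lit 179) (nat_lit 1) (nat_lit 180) (nat_lit 1) (nat_lit 320) (nat_lit 309)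 (nat_lit 271)) (XT.nd (nat_lit 78) (nat_lit 0) (nat_lit 0) (XT.lf (nat_lit 152) (nat_lit 1807402405) (nat_lit 0) (nat_lit 18369893) (nat_lit 76) (nat_lit 18369893) (nat_lit 179) (nat_lit 1) (nat_lit 177) (nat_lit 1) (nat_lit 178) (nat_lit 1) (nat_lit 321) (nat_lit 309) (nat_lit 270)) (XT.lf (nat_lit 0) (nat_lit 570129587) (nat_lit 0) (nat_lit 615967505) (nat_lit 152) (nat_lit 570129587) (nat_lit 177) (nat_lit 3) (nat_lit 177) (nat_lit 1) (nat_lit 179) (nat_lit 1) (nat_lit 322) (nat_lit 309) (nat_lit 269)))))) (XT.nd (nat_lit 390) (nat_lit 456) (nat_lit 0) (XT.nd (nat_lit 156) (nat_lit 228) (nat_lit 0) (XT.nd (nat_lit 78) (nat_lit 152) (nat_lit 0) (XT.lf (nat_lit 76) (nat_lit 532136103) (nat_lit 0) (nat_lit 571995162) (nat_lit 76) (nat_lit 571995162) (nat_lit 177) (nat_lit 3) (nat_lit 176) (nat_lit 1) (nat_lit 177) (nat_lit 1) (nat_lit 323) (nat_lit 309) (nat_lit 268)) (XT.lf (nat_lit 152) (nat_lit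 1581882234) (nat_lit 0) (nat_lit 10503046) (nat_lit 76) (nat_lit 10503046) (nat_lit 176) (nat_lit 1) (nat_lit 174) (nat_lit 1) (nat_lit 175) (nat_lit 1) (nat_lit 324) (nat_lit 309) (nat_lit 267))) (XT.nd (nat_lit 78) (nat_lit 228) (nat_lit 0) (XT.lf (nat_lit 0) (nat_lit 500098534) (nat_lit 0) (nat_lit 526306513) (nat_lit 152) (nat_lit 500098534) (nat_lit 174) (nat_lit 3) (nat_lit 174) (nat_lit 1) (nat_lit 176) (nat_lit 1) (nat_lit 325) (nat_lit 309) (nat_lit 266)) (XT.nd (nat_lit 78) (nat_lit 152) (nat_lit 0) (XT.lf (nat_lit 76) (nat_lit 470460860) (nat_lit 0) (nat_lit 493250406) (nat_lit 76) (nat_lit 493250406) (nat_lit 174) (nat_lit 3) (nat_lit 173) (nat_lit 1) (nat_lit 174) (nat_lit 1) (nat_lit 326) (nat_lit 309) (nat_lit 265)) (XT.lf (nat_lit 152) (nat_lit 1381397643) (nat_lit 0) (nat_lit 6005150) (nat_lit 76) (nat_lit 6005150) (nat_lit 173) (nat_lit 1) (nat_lit 171) (nat_lit 1) (nat_lit 172)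 (nat_lit 1) (nat_lit 327) (nat_lit 309) (nat_lit 264))))) (XT.nd (nat_lit 234) (nat_lit 228) (nat_lit 0) (XT.nd (nat_lit 78) (nat_lit 228) (nat_lit 0) (XT.lf (nat_lit 0) (nat_lit 437346084) (nat_lit 0) (nat_lit 452330581) (nat_lit 152) (nat_lit 437346084) (nat_lit 171) (nat_lit 3) (nat_lit 171) (nat_lit 1) (nat_lit 173) (nat_lit 1) (nat_lit 328) (nat_lit 309) (nat_lit 263)) (XT.nd (nat_lit 78) (nat_lit 152) (nat_lit 0) (XT.lf (nat_lit 76) (nat_lit 413518233) (nat_lit 0) (nat_lit 426548230) (nat_lit 76) (nat_lit 426548230) (nat_lit 171) (nat_lit 3) (nat_lit 170) (nat_lit 1) (nat_lit 171) (nat_lit 1) (nat_lit 329) (nat_lit 309) (nat_lit 262)) (XT.lf (nat_lit 152) (nat_lit 1204558883) (nat_lit 0) (nat_lit 3433464) (nat_lit 76) (nat_lit 3433464) (nat_lit 170) (nat_lit 1) (nat_lit 168) (nat_lit 1) (nat_lit 169) (nat_lit 1) (nat_lit 330) (nat_lit 309) (nat_lit 261)))) (XT.nd (nat_lit 78) (nat_lit 228)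 (nat_lit 0) (XT.lf (nat_lit 0) (nat_lit 381717629) (nat_lit 0) (nat_lit 390285064) (nat_lit 152) (nat_lit 381717629) (nat_lit 168) (nat_lit 3) (nat_lit 168) (nat_lit 1) (nat_lit 170) (nat_lit 1) (nat_lit 331) (nat_lit 309) (nat_lit 260)) (XT.nd (nat_lit 78) (nat_lit 152) (nat_lit 0) (XT.lf (nat_lit 76) (nat_lit 362109269) (nat_lit 0) (nat_lit 369559213) (nat_lit 76) (nat_lit 369559213) (nat_lit 168) (nat_lit 3) (nat_lit 167) (nat_lit 1) (nat_lit 168) (nat_lit 1) (nat_lit 332) (nat_lit 309) (nat_lit 259)) (XT.lf (nat_lit 152) (nat_lit 1049354187) (nat_lit 0) (nat_lit 1963094) (nat_lit 76) (nat_lit 1963094) (nat_lit 167) (nat_lit 1) (nat_lit 165) (nat_lit 1) (nat_lit 166) (nat_lit 1) (nat_lit 333) (nat_lit 309) (nat_lit 258))))))) (XT.nd (nat_lit 858) (nat_lit 912) (nat_lit 0) (XT.nd (nat_lit 390) (nat_lit 456) (nat_lit 0) (XT.nd (nat_lit 156) (nat_lit 228) (nat_lit 0) (XT.nd (nat_lit 78) (nat_lit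 76) (nat_lit 0) (XT.lf (nat_lit 0) (nat_lit 332738368) (nat_lit 0) (nat_lit 337636827) (nat_lit 152) (nat_lit 332738368) (nat_lit 165) (nat_lit 3) (nat_lit 165) (nat_lit 1) (nat_lit 167) (nat_lit 1) (nat_lit 334) (nat_lit 309) (nat_lit 257)) (XT.lf (nat_lit 76) (nat_lit 316323131) (nat_lit 0) (nat_lit 320582660) (nat_lit 76) (nat_lit 320582660) (nat_lit 165) (nat_lit 3) (nat_lit 164) (nat_lit 1) (nat_lit 165) (nat_lit 1) (nat_lit 335) (nat_lit 309) (nat_lit 256))) (XT.nd (nat_lit 78) (nat_lit 76) (nat_lit 0) (XT.lf (nat_lit 152) (nat_lit 913574911) (nat_lit 0) (nat_lit 1122405) (nat_lit 76) (nat_lit 1122405) (nat_lit 164) (nat_lit 1) (nat_lit 162) (nat_lit 1) (nat_lit 163) (nat_lit 1) (nat_lit 336) (nat_lit 309) (nat_lit 255)) (XT.nd (nat_lit 78) (nat_lit 76) (nat_lit 0) (XT.lf (nat_lit 0) (nat_lit 289800829) (nat_lit 0) (nat_lit 292601539) (nat_lit 152) (nat_lit 289800829) (nat_lit 162) (nat_lit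 3) (nat_lit 162) (nat_lit 1) (nat_lit 164) (nat_lit 1) (nat_lit 337) (nat_lit 309) (nat_lit 254)) (XT.lf (nat_lit 76) (nat_lit 275890064) (nat_lit 0) (nat_lit 278325464) (nat_lit 76) (nat_lit 278325464) (nat_lit 162) (nat_lit 3) (nat_lit 161) (nat_lit 1) (nat_lit 162) (nat_lit 1) (nat_lit 338) (nat_lit 309) (nat_lit 253))))) (XT.nd (nat_lit 234) (nat_lit 228) (nat_lit 0) (XT.nd (nat_lit 78) (nat_lit 76) (nat_lit 0) (XT.lf (nat_lit 152) (nat_lit 795037898) (nat_lit 0) (nat_lit 641739) (nat_lit 76) (nat_lit 641739) (nat_lit 161) (nat_lit 1) (nat_lit 159) (nat_lit 1) (nat_lit 160) (nat_lit 1) (nat_lit 339) (nat_lit 309) (nat_lit 252)) (XT.nd (nat_lit 78) (nat_lit 76) (nat_lit 0) (XT.lf (nat_lit 0) (nat_lit 252265510) (nat_lit 0) (nat_lit 253866824) (nat_lit 152) (nat_lit 252265510) (nat_lit 159) (nat_lit 3) (nat_lit 159) (nat_lit 1) (nat_lit 161) (nat_lit 1) (nat_lit 340) (nat_lit 309) (nat_lit 251))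 (XT.lf (nat_lit 76) (nat_lit 240376942) (nat_lit 0) (nat_lit 241769389) (nat_lit 76) (nat_lit 241769389) (nat_lit 159) (nat_lit 3) (nat_lit 158) (nat_lit 1) (nat_lit 159) (nat_lit 1) (nat_lit 341) (nat_lit 309) (nat_lit 250)))) (XT.nd (nat_lit 78) (nat_lit 76) (nat_lit 0) (XT.lf (nat_lit 152) (nat_lit 691694609) (nat_lit 0) (nat_lit 366916) (nat_lit 76) (nat_lit 366916) (nat_lit 158) (nat_lit 1) (nat_lit 156) (nat_lit 1) (nat_lit 157) (nat_lit 1) (nat_lit 342) (nat_lit 309) (nat_lit 249)) (XT.nd (nat_lit 78) (nat_lit 76) (nat_lit 0) (XT.lf (nat_lit 0) (nat_lit 219512707) (nat_lit 0) (nat_lit 220428263) (nat_lit 152) (nat_lit 219512707) (nat_lit 156) (nat_lit 3) (nat_lit 156) (nat_lit 1) (nat_lit 158) (nat_lit 1) (nat_lit 343) (nat_lit 309) (nat_lit 248)) (XT.lf (nat_lit 76) (nat_lit 209293603) (nat_lit 0) (nat_lit 210089739) (nat_lit 76) (nat_lit 210089739) (nat_lit 156) (nat_lit 3) (nat_lit 155)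 (nat_lit 1) (nat_lit 156) (nat_lit 1) (nat_lit 344) (nat_lit 309) (nat_lit 247)))))) (XT.nd (nat_lit 468) (nat_lit 456) (nat_lit 0) (XT.nd (nat_lit 234) (nat_lit 228) (nat_lit 0) (XT.nd (nat_lit 78) (nat_lit 76) (nat_lit 0) (XT.lf (nat_lit 152) (nat_lit 601677865) (nat_lit 0) (nat_lit 209785) (nat_lit 76) (nat_lit 209785) (nat_lit 155) (nat_lit 1) (nat_lit 153) (nat_lit 1) (nat_lit 154) (nat_lit 1) (nat_lit 345) (nat_lit 309) (nat_lit 246)) (XT.nd (nat_lit 78) (nat_lit 76) (nat_lit 0) (XT.lf (nat_lit 0) (nat_lit 190967174) (nat_lit 0) (nat_lit 191490647) (nat_lit 152) (nat_lit 190967174) (nat_lit 153) (nat_lit 3) (nat_lit 153) (nat_lit 1) (nat_lit 155) (nat_lit 1) (nat_lit 346) (nat_lit 309) (nat_lit 245)) (XT.lf (nat_lit 76) (nat_lit 182148911) (nat_lit 0) (nat_lit 182604104) (nat_lit 76) (nat_lit 182604104) (nat_lit 153) (nat_lit 3) (nat_lit 152) (nat_lit 1) (nat_lit 153) (nat_lit 1) (nat_lit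 347) (nat_lit 309) (nat_lit 244)))) (XT.nd (nat_lit 78) (nat_lit 76) (nat_lit 0) (XT.lf (nat_lit 152) (nat_lit 523314947) (nat_lit 0) (nat_lit 119945) (nat_lit 76) (nat_lit 119945) (nat_lit 152) (nat_lit 1) (nat_lit 150) (nat_lit 1) (nat_lit 151) (nat_lit 1) (nat_lit 348) (nat_lit 309) (nat_lit 243)) (XT.nd (nat_lit 78) (nat_lit 76) (nat_lit 0) (XT.lf (nat_lit 0) (nat_lit 166107903) (nat_lit 0) (nat_lit 166407200) (nat_lit 152) (nat_lit 166107903) (nat_lit 150) (nat_lit 3) (nat_lit 150) (nat_lit 1) (nat_lit 152) (nat_lit 1) (nat_lit 349) (nat_lit 309) (nat_lit 242)) (XT.lf (nat_lit 76) (nat_lit 158478678) (nat_lit 0) (nat_lit 158738936) (nat_lit 76) (nat_lit 158738936) (nat_lit 150) (nat_lit 3) (nat_lit 149) (nat_lit 1) (nat_lit 150) (nat_lit 1) (nat_lit 350) (nat_lit 309) (nat_lit 241))))) (XT.nd (nat_lit 234) (nat_lit 228) (nat_lit 0) (XT.nd (nat_lit 78) (nat_lit 76) (nat_lit 0) (XT.lf (nat_lit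 152) (nat_lit 455123259) (nat_lit 0) (nat_lit 68579) (nat_lit 76) (nat_lit 68579) (nat_lit 149) (nat_lit 1) (nat_lit 147) (nat_lit 1) (nat_lit 148) (nat_lit 1) (nat_lit 351) (nat_lit 309) (nat_lit 240)) (XT.nd (nat_lit 78) (nat_lit 76) (nat_lit 0) (XT.lf (nat_lit 0) (nat_lit 144469952) (nat_lit 0) (nat_lit 144641076) (nat_lit 152) (nat_lit 144469952) (nat_lit 147) (nat_lit 3) (nat_lit 147) (nat_lit 1) (nat_lit 149) (nat_lit 1) (nat_lit 352) (nat_lit 309) (nat_lit 239)) (XT.lf (nat_lit 76) (nat_lit 137858044) (nat_lit 0) (nat_lit 138006847) (nat_lit 76) (nat_lit 138006847) (nat_lit 147) (nat_lit 3) (nat_lit 146) (nat_lit 1) (nat_lit 147) (nat_lit 1) (nat_lit 353) (nat_lit 309) (nat_lit 238)))) (XT.nd (nat_lit 78) (nat_lit 76) (nat_lit 0) (XT.lf (nat_lit 152) (nat_lit 395797539) (nat_lit 0) (nat_lit 39210) (nat_lit 76) (nat_lit 39210) (nat_lit 146) (nat_lit 1) (nat_lit 144) (nat_lit 1) (nat_lit 145)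 (nat_lit 1) (nat_lit 354) (nat_lit 309) (nat_lit 237)) (XT.nd (nat_lit 78) (nat_lit 76) (nat_lit 0) (XT.lf (nat_lit 0) (nat_lit 125642223) (nat_lit 0) (nat_lit 125740064) (nat_lit 152) (nat_lit 125642223) (nat_lit 144) (nat_lit 3) (nat_lit 144) (nat_lit 1) (nat_lit 146) (nat_lit 1) (nat_lit 355) (nat_lit 309) (nat_lit 236)) (XT.lf (nat_lit 76) (nat_lit 119905432) (nat_lit 0) (nat_lit 119990511) (nat_lit 76) (nat_lit 119990511) (nat_lit 144) (nat_lit 3) (nat_lit 143) (nat_lit 1) (nat_lit 144) (nat_lit 1) (nat_lit 356) (nat_lit 309) (nat_lit 235))))))))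
noncomputable def ec40 : XT := (XT.nd (nat_lit 41340) (nat_lit 0) (nat_lit 4788) (XT.nd (nat_lit 858) (nat_lit 456) (nat_lit 0) (XT.nd (nat_lit 390) (nat_lit 456) (nat_lit 0) (XT.nd (nat_lit 156) (nat_lit 228) (nat_lit 0) (XT.nd (nat_lit 78) (nat_lit 0) (nat_lit 0) (XT.lf (nat_lit 152) (nat_lit 344193605) (nat_lit 0) (nat_lit 22418) (nat_lit 76) (nat_lit 22418) (nat_lit 143) (nat_lit 1) (nat_lit 141) (nat_lit 1) (nat_lit 142) (nat_lit 1) (nat_lit 357) (nat_lit 309) (nat_lit 234)) (XT.lf (nat_lit 0) (nat_lit 109263357) (nat_lit 0) (nat_lit 109319298) (nat_lit 152) (nat_lit 109263357) (nat_lit 141) (nat_lit 3) (nat_lit 141) (nat_lit 1) (nat_lit 143) (nat_lit 1) (nat_lit 358) (nat_lit 309) (nat_lit 233))) (XT.nd (nat_lit 78) (nat_lit 152) (nat_lit 0) (XT.lf (nat_lit 76) (nat_lit 104282101) (nat_lit 0) (nat_lit 104330745) (nat_lit 76) (nat_lit 104330745) (nat_lit 141) (nat_lit 3) (nat_lit 140) (nat_lit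 1) (nat_lit 141) (nat_lit 1) (nat_lit 359) (nat_lit 309) (nat_lit 232)) (XT.nd (nat_lit 78) (nat_lit 0) (nat_lit 0) (XT.lf (nat_lit 152) (nat_lit 299311269) (nat_lit 0) (nat_lit 12817) (nat_lit 76) (nat_lit 12817) (nat_lit 140) (nat_lit 1) (nat_lit 138) (nat_lit 1) (nat_lit 139) (nat_lit 1) (nat_lit 360) (nat_lit 309) (nat_lit 231)) (XT.lf (nat_lit 0) (nat_lit 95016904) (nat_lit 0) (nat_lit 95048888) (nat_lit 152) (nat_lit 95016904) (nat_lit 138) (nat_lit 3) (nat_lit 138) (nat_lit 1) (nat_lit 140) (nat_lit 1) (nat_lit 361) (nat_lit 309) (nat_lit 230))))) (XT.nd (nat_lit 234) (nat_lit 228) (nat_lit 0) (XT.nd (nat_lit 78) (nat_lit 152) (nat_lit 0) (XT.lf (nat_lit 76) (nat_lit 90689526) (nat_lit 0) (nat_lit 90717338) (nat_lit 76) (nat_lit 90717338) (nat_lit 138) (nat_lit 3) (nat_lit 137) (nat_lit 1) (nat_lit 138) (nat_lit 1) (nat_lit 362) (nat_lit 309) (nat_lit 229)) (XT.nd (nat_lit 78) (nat_lit 0)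 (nat_lit 0) (XT.lf (nat_lit 152) (nat_lit 260277805) (nat_lit 0) (nat_lit 7328) (nat_lit 76) (nat_lit 7328) (nat_lit 137) (nat_lit 1) (nat_lit 135) (nat_lit 1) (nat_lit 136) (nat_lit 1) (nat_lit 363) (nat_lit 309) (nat_lit 228)) (XT.lf (nat_lit 0) (nat_lit 82626419) (nat_lit 0) (nat_lit 82644706) (nat_lit 152) (nat_lit 82626419) (nat_lit 135) (nat_lit 3) (nat_lit 135) (nat_lit 1) (nat_lit 137) (nat_lit 1) (nat_lit 364) (nat_lit 309) (nat_lit 227)))) (XT.nd (nat_lit 78) (nat_lit 152) (nat_lit 0) (XT.lf (nat_lit 76) (nat_lit 78865854) (nat_lit 0) (nat_lit 78881755) (nat_lit 76) (nat_lit 78881755) (nat_lit 135) (nat_lit 3) (nat_lit 134) (nat_lit 1) (nat_lit 135) (nat_lit 1) (nat_lit 365) (nat_lit 309) (nat_lit 226)) (XT.nd (nat_lit 78) (nat_lit 0) (nat_lit 0) (XT.lf (nat_lit 152) (nat_lit 226332607) (nat_lit 0) (nat_lit 4190) (nat_lit 76) (nat_lit 4190) (nat_lit 134) (nat_lit 1) (nat_lit 132) (nat_lit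 1) (nat_lit 133) (nat_lit 1) (nat_lit 366) (nat_lit 309) (nat_lit 225)) (XT.lf (nat_lit 0) (nat_lit 71850789) (nat_lit 0) (nat_lit 71861244) (nat_lit 152) (nat_lit 71850789) (nat_lit 132) (nat_lit 3) (nat_lit 132) (nat_lit 1) (nat_lit 134) (nat_lit 1) (nat_lit 367) (nat_lit 309) (nat_lit 224)))))) (XT.nd (nat_lit 40014) (nat_lit 0) (nat_lit 6612) (XT.nd (nat_lit 156) (nat_lit 228) (nat_lit 0) (XT.nd (nat_lit 78) (nat_lit 152) (nat_lit 0) (XT.lf (nat_lit 76) (nat_lit 68582088) (nat_lit 0) (nat_lit 68591180) (nat_lit 76) (nat_lit 68591180) (nat_lit 132) (nat_lit 3) (nat_lit 131) (nat_lit 1) (nat_lit 132) (nat_lit 1) (nat_lit 368) (nat_lit 309) (nat_lit 223)) (XT.lf (nat_lit 152) (nat_lit 196813295) (nat_lit 0) (nat_lit 2395) (nat_lit 76) (nat_lit 2395) (nat_lit 131) (nat_lit 1) (nat_lit 129) (nat_lit 1) (nat_lit 130) (nat_lit 1) (nat_lit 369) (nat_lit 309) (nat_lit 222))) (XT.nd (nat_lit 78) (nat_lit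 228) (nat_lit 0) (XT.lf (nat_lit 0) (nat_lit 62479935) (nat_lit 0) (nat_lit 62485913) (nat_lit 152) (nat_lit 62479935) (nat_lit 129) (nat_lit 3) (nat_lit 129) (nat_lit 1) (nat_lit 131) (nat_lit 1) (nat_lit 370) (nat_lit 309) (nat_lit 221)) (XT.nd (nat_lit 78) (nat_lit 152) (nat_lit 0) (XT.lf (nat_lit 76) (nat_lit 59638363) (nat_lit 0) (nat_lit 59643561) (nat_lit 76) (nat_lit 59643561) (nat_lit 129) (nat_lit 3) (nat_lit 128) (nat_lit 1) (nat_lit 129) (nat_lit 1) (nat_lit 371) (nat_lit 309) (nat_lit 220)) (XT.lf (nat_lit 152) (nat_lit 171143330) (nat_lit 0) (nat_lit 1369) (nat_lit 76) (nat_lit 1369) (nat_lit 128) (nat_lit 1) (nat_lit 126) (nat_lit 1) (nat_lit 127) (nat_lit 1) (nat_lit 372) (nat_lit 309) (nat_lit 219))))) (XT.nd (nat_lit 234) (nat_lit 152) (nat_lit 0) (XT.nd (nat_lit 78) (nat_lit 0) (nat_lit 0) (XT.lf (nat_lit 380) (nat_lit 2838591131) (nat_lit 0) (nat_lit 2514210027) (nat_lit 380)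 (nat_lit 2838591131) (nat_lit 220) (nat_lit 1) (nat_lit 215) (nat_lit 0) (nat_lit 220) (nat_lit 0) (nat_lit 280) (nat_lit 310) (nat_lit 310)) (XT.nd (nat_lit 78) (nat_lit 0) (nat_lit 76) (XT.lf (nat_lit 380) (nat_lit 10499580218) (nat_lit 76) (nat_lit 2399927753) (nat_lit 0) (nat_lit 2399927753) (nat_lit 220) (nat_lit 1) (nat_lit 216) (nat_lit 1) (nat_lit 215) (nat_lit 0) (nat_lit 281) (nat_lit 310) (nat_lit 309)) (XT.lf (nat_lit 380) (nat_lit 4628154752) (nat_lit 0) (nat_lit 5035868952) (nat_lit 304) (nat_lit 4628154752) (nat_lit 221) (nat_lit 1) (nat_lit 216) (nat_lit 1) (nat_lit 220) (nat_lit 1) (nat_lit 282) (nat_lit 310) (nat_lit 308)))) (XT.nd (nat_lit 78) (nat_lit 228) (nat_lit 0) (XT.lf (nat_lit 380) (nat_lit 7946301403) (nat_lit 76) (nat_lit 2720072119) (nat_lit 0) (nat_lit 2720072119) (nat_lit 221) (nat_lit 1) (nat_lit 217) (nat_lit 1) (nat_lit 216) (nat_lit 1) (nat_lit 283) (nat_lit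 310) (nat_lit 307)) (XT.nd (nat_lit 78) (nat_lit 304) (nat_lit 0) (XT.lf (nat_lit 76) (nat_lit 3214384308) (nat_lit 0) (nat_lit 6120727362) (nat_lit 304) (nat_lit 3214384308) (nat_lit 218) (nat_lit 1) (nat_lit 217) (nat_lit 1) (nat_lit 221) (nat_lit 1) (nat_lit 284) (nat_lit 310) (nat_lit 306)) (XT.lf (nat_lit 380) (nat_lit 4830960011) (nat_lit 0) (nat_lit 3477232378) (nat_lit 304) (nat_lit 3477232378) (nat_lit 218) (nat_lit 1) (nat_lit 213) (nat_lit 1) (nat_lit 217) (nat_lit 1) (nat_lit 285) (nat_lit 310) (nat_lit 305))))))) (XT.nd (nat_lit 858) (nat_lit 912) (nat_lit 0) (XT.nd (nat_lit 390) (nat_lit 380) (nat_lit 0) (XT.nd (nat_lit 156) (nat_lit 380) (nat_lit 0) (XT.nd (nat_lit 78) (nat_lit 152) (nat_lit 0) (XT.lf (nat_lit 76) (nat_lit 1605757754) (nat_lit 0) (nat_lit 7879493547) (nat_lit 380) (nat_lit 1605757754) (nat_lit 214) (nat_lit 1) (nat_lit 213) (nat_lit 1) (nat_lit 218) (nat_lit 1) (nat_lit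 286) (nat_lit 310) (nat_lit 304)) (XT.lf (nat_lit 228) (nat_lit 1445144099) (nat_lit 0) (nat_lit 4497654420) (nat_lit 152) (nat_lit 4497654420) (nat_lit 214) (nat_lit 1) (nat_lit 211) (nat_lit 1) (nat_lit 213) (nat_lit 1) (nat_lit 287) (nat_lit 310) (nat_lit 303))) (XT.nd (nat_lit 78) (nat_lit 152) (nat_lit 0) (XT.lf (nat_lit 228) (nat_lit 9711350166) (nat_lit 0) (nat_lit 76195361) (nat_lit 152) (nat_lit 76195361) (nat_lit 211) (nat_lit 1) (nat_lit 208) (nat_lit 1) (nat_lit 210) (nat_lit 1) (nat_lit 288) (nat_lit 310) (nat_lit 302)) (XT.nd (nat_lit 78) (nat_lit 152) (nat_lit 0) (XT.lf (nat_lit 76) (nat_lit 3731162806) (nat_lit 0) (nat_lit 1831802329) (nat_lit 228) (nat_lit 3731162806) (nat_lit 209) (nat_lit 1) (nat_lit 208) (nat_lit 1) (nat_lit 211) (nat_lit 1) (nat_lit 289) (nat_lit 310) (nat_lit 301)) (XT.lf (nat_lit 228) (nat_lit 5423388346) (nat_lit 0) (nat_lit 1682281751) (nat_lit 152) (nat_lit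 1682281751) (nat_lit 209) (nat_lit 1) (nat_lit 206) (nat_lit 1) (nat_lit 208) (nat_lit 1) (nat_lit 290) (nat_lit 310) (nat_lit 300))))) (XT.nd (nat_lit 234) (nat_lit 76) (nat_lit 0) (XT.nd (nat_lit 78) (nat_lit 304) (nat_lit 0) (XT.lf (nat_lit 76) (nat_lit 1696071415) (nat_lit 0) (nat_lit 4921970251) (nat_lit 228) (nat_lit 1696071415) (nat_lit 207) (nat_lit 1) (nat_lit 206) (nat_lit 1) (nat_lit 209) (nat_lit 1) (nat_lit 291) (nat_lit 310) (nat_lit 299)) (XT.nd (nat_lit 78) (nat_lit 228) (nat_lit 0) (XT.lf (nat_lit 152) (nat_lit 1402116462) (nat_lit 0) (nat_lit 3235390633) (nat_lit 76) (nat_lit 3235390633) (nat_lit 207) (nat_lit 1) (nat_lit 205) (nat_lit 1) (nat_lit 206) (nat_lit 1) (nat_lit 292) (nat_lit 310) (nat_lit 298)) (XT.lf (nat_lit 228) (nat_lit 7098337730) (nat_lit 0) (nat_lit 188574606) (nat_lit 152) (nat_lit 188574606) (nat_lit 205) (nat_lit 1) (nat_lit 202) (nat_lit 1) (nat_lit 204)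 (nat_lit 1) (nat_lit 293) (nat_lit 310) (nat_lit 297)))) (XT.nd (nat_lit 78) (nat_lit 76) (nat_lit 0) (XT.lf (nat_lit 76) (nat_lit 2484265538) (nat_lit 0) (nat_lit 2109719348) (nat_lit 228) (nat_lit 2484265538) (nat_lit 203) (nat_lit 1) (nat_lit 202) (nat_lit 1) (nat_lit 205) (nat_lit 1) (nat_lit 294) (nat_lit 310) (nat_lit 296)) (XT.nd (nat_lit 78) (nat_lit 0) (nat_lit 0) (XT.lf (nat_lit 152) (nat_lit 3020628957) (nat_lit 0) (nat_lit 1849845095) (nat_lit 76) (nat_lit 1849845095) (nat_lit 203) (nat_lit 1) (nat_lit 201) (nat_lit 1) (nat_lit 202) (nat_lit 1) (nat_lit 295) (nat_lit 310) (nat_lit 295)) (XT.lf (nat_lit 0) (nat_lit 591480776) (nat_lit 0) (nat_lit 5207351336) (nat_lit 152) (nat_lit 591480776) (nat_lit 201) (nat_lit 3) (nat_lit 201) (nat_lit 1) (nat_lit 203) (nat_lit 1) (nat_lit 296) (nat_lit 310) (nat_lit 294)))))) (XT.nd (nat_lit 390) (nat_lit 456) (nat_lit 0) (XT.nd (nat_lit 156) (nat_lit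 228) (nat_lit 0) (XT.nd (nat_lit 78) (nat_lit 76) (nat_lit 0) (XT.lf (nat_lit 76) (nat_lit 2737370538) (nat_lit 0) (nat_lit 593688348) (nat_lit 152) (nat_lit 2737370538) (nat_lit 200) (nat_lit 1) (nat_lit 199) (nat_lit 1) (nat_lit 201) (nat_lit 1) (nat_lit 297) (nat_lit 310) (nat_lit 293)) (XT.lf (nat_lit 152) (nat_lit 3656588600) (nat_lit 0) (nat_lit 1057654937) (nat_lit 76) (nat_lit 1057654937) (nat_lit 200) (nat_lit 1) (nat_lit 198) (nat_lit 1) (nat_lit 199) (nat_lit 1) (nat_lit 298) (nat_lit 310) (nat_lit 292))) (XT.nd (nat_lit 78) (nat_lit 228) (nat_lit 0) (XT.lf (nat_lit 0) (nat_lit 950731590) (nat_lit 0) (nat_lit 3589870564) (nat_lit 152) (nat_lit 950731590) (nat_lit 198) (nat_lit 3) (nat_lit 198) (nat_lit 1) (nat_lit 200) (nat_lit 1) (nat_lit 299) (nat_lit 310) (nat_lit 291)) (XT.nd (nat_lit 78) (nat_lit 152) (nat_lit 0) (XT.lf (nat_lit 76) (nat_lit 212091228) (nat_lit 0) (nat_lit 2506994683)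 (nat_lit 76) (nat_lit 2506994683) (nat_lit 198) (nat_lit 3) (nat_lit 197) (nat_lit 1) (nat_lit 198) (nat_lit 1) (nat_lit 300) (nat_lit 310) (nat_lit 290)) (XT.lf (nat_lit 152) (nat_lit 3768522217) (nat_lit 0) (nat_lit 604717643) (nat_lit 76) (nat_lit 604717643) (nat_lit 197) (nat_lit 1) (nat_lit 195) (nat_lit 1) (nat_lit 196) (nat_lit 1) (nat_lit 301) (nat_lit 310) (nat_lit 289))))) (XT.nd (nat_lit 234) (nat_lit 228) (nat_lit 0) (XT.nd (nat_lit 78) (nat_lit 228) (nat_lit 0) (XT.lf (nat_lit 0) (nat_lit 1076236512) (nat_lit 0) (nat_lit 2585172786) (nat_lit 152) (nat_lit 1076236512) (nat_lit 195) (nat_lit 3) (nat_lit 195) (nat_lit 1) (nat_lit 197) (nat_lit 1) (nat_lit 302) (nat_lit 310) (nat_lit 288)) (XT.nd (nat_lit 78) (nat_lit 152) (nat_lit 0) (XT.lf (nat_lit 76) (nat_lit 629705005) (nat_lit 0) (nat_lit 1941823504) (nat_lit 76) (nat_lit 1941823504) (nat_lit 195) (nat_lit 3) (nat_lit 194) (nat_lit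 1) (nat_lit 195) (nat_lit 1) (nat_lit 303) (nat_lit 310) (nat_lit 287)) (XT.lf (nat_lit 152) (nat_lit 3613669867) (nat_lit 0) (nat_lit 345749275) (nat_lit 76) (nat_lit 345749275) (nat_lit 194) (nat_lit 1) (nat_lit 192) (nat_lit 1) (nat_lit 193) (nat_lit 1) (nat_lit 304) (nat_lit 310) (nat_lit 286)))) (XT.nd (nat_lit 78) (nat_lit 228) (nat_lit 0) (XT.lf (nat_lit 0) (nat_lit 1078517928) (nat_lit 0) (nat_lit 1941257140) (nat_lit 152) (nat_lit 1078517928) (nat_lit 192) (nat_lit 3) (nat_lit 192) (nat_lit 1) (nat_lit 194) (nat_lit 1) (nat_lit 305) (nat_lit 310) (nat_lit 285)) (XT.nd (nat_lit 78) (nat_lit 152) (nat_lit 0) (XT.lf (nat_lit 76) (nat_lit 802158625) (nat_lit 0) (nat_lit 1552366635) (nat_lit 76) (nat_lit 1552366635) (nat_lit 192) (nat_lit 3) (nat_lit 191) (nat_lit 1) (nat_lit 192) (nat_lit 1) (nat_lit 306) (nat_lit 310) (nat_lit 284)) (XT.lf (nat_lit 152) (nat_lit 3334827526) (nat_lit 0) (nat_lit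 197683270) (nat_lit 76) (nat_lit 197683270) (nat_lit 191) (nat_lit 1) (nat_lit 189) (nat_lit 1) (nat_lit 190) (nat_lit 1) (nat_lit 307) (nat_lit 310) (nat_lit 283))))))))
noncomputable def ec41 : XT := (XT.nd (nat_lit 1716) (nat_lit 1824) (nat_lit 0) (XT.nd (nat_lit 858) (nat_lit 836) (nat_lit 0) (XT.nd (nat_lit 390) (nat_lit 456) (nat_lit 0) (XT.nd (nat_lit 156) (nat_lit 228) (nat_lit 0) (XT.nd (nat_lit 78) (nat_lit 76) (nat_lit 0) (XT.lf (nat_lit 0) (nat_lit 1019408047) (nat_lit 0) (nat_lit 1512681991) (nat_lit 152) (nat_lit 1019408047) (nat_lit 189) (nat_lit 3) (nat_lit 189) (nat_lit 1) (nat_lit 191) (nat_lit 1) (nat_lit 308) (nat_lit 310) (nat_lit 282)) (XT.lf (nat_lit 76) (nat_lit 843091358) (nat_lit 0) (nat_lit 1272025223) (nat_lit 76) (nat_lit 1272025223) (nat_lit 189) (nat_lit 3) (nat_lit 188) (nat_lit 1) (nat_lit 189) (nat_lit 1) (nat_lit 309) (nat_lit 310) (nat_lit 281))) (XT.nd (nat_lit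 78) (nat_lit 76) (nat_lit 0) (XT.lf (nat_lit 152) (nat_lit 3009915897) (nat_lit 0) (nat_lit 113026051) (nat_lit 76) (nat_lit 113026051) (nat_lit 188) (nat_lit 1) (nat_lit 186) (nat_lit 1) (nat_lit 187) (nat_lit 1) (nat_lit 310) (nat_lit 310) (nat_lit 280)) (XT.nd (nat_lit 78) (nat_lit 76) (nat_lit 0) (XT.lf (nat_lit 0) (nat_lit 933077616) (nat_lit 0) (nat_lit 1215108595) (nat_lit 152) (nat_lit 933077616) (nat_lit 186) (nat_lit 3) (nat_lit 186) (nat_lit 1) (nat_lit 188) (nat_lit 1) (nat_lit 311) (nat_lit 310) (nat_lit 279)) (XT.lf (nat_lit 76) (nat_lit 816348534) (nat_lit 0) (nat_lit 1061592863) (nat_lit 76) (nat_lit 1061592863) (nat_lit 186) (nat_lit 3) (nat_lit 185) (nat_lit 1) (nat_lit 186) (nat_lit 1) (nat_lit 312) (nat_lit 310) (nat_lit 278))))) (XT.nd (nat_lit 234) (nat_lit 228) (nat_lit 0) (XT.nd (nat_lit 78) (nat_lit 76) (nat_lit 0) (XT.lf (nat_lit 152) (nat_lit 2680248692) (nat_lit 0) (nat_lit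 64623011) (nat_lit 76) (nat_lit 64623011) (nat_lit 185) (nat_lit 1) (nat_lit 183) (nat_lit 1) (nat_lit 184) (nat_lit 1) (nat_lit 313) (nat_lit 310) (nat_lit 277)) (XT.nd (nat_lit 78) (nat_lit 76) (nat_lit 0) (XT.lf (nat_lit 0) (nat_lit 838036031) (nat_lit 0) (nat_lit 999288159) (nat_lit 152) (nat_lit 838036031) (nat_lit 183) (nat_lit 3) (nat_lit 183) (nat_lit 1) (nat_lit 185) (nat_lit 1) (nat_lit 314) (nat_lit 310) (nat_lit 276)) (XT.lf (nat_lit 76) (nat_lit 757452805) (nat_lit 0) (nat_lit 897672047) (nat_lit 76) (nat_lit 897672047) (nat_lit 183) (nat_lit 3) (nat_lit 182) (nat_lit 1) (nat_lit 183) (nat_lit 1) (nat_lit 315) (nat_lit 310) (nat_lit 275)))) (XT.nd (nat_lit 78) (nat_lit 76) (nat_lit 0) (XT.lf (nat_lit 152) (nat_lit 2366631766) (nat_lit 0) (nat_lit 36948416) (nat_lit 76) (nat_lit 36948416) (nat_lit 182) (nat_lit 1) (nat_lit 180) (nat_lit 1) (nat_lit 181) (nat_lit 1) (nat_lit 316) (nat_lit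 310) (nat_lit 274)) (XT.nd (nat_lit 78) (nat_lit 76) (nat_lit 0) (XT.lf (nat_lit 0) (nat_lit 743972322) (nat_lit 0) (nat_lit 836168749) (nat_lit 152) (nat_lit 743972322) (nat_lit 180) (nat_lit 3) (nat_lit 180) (nat_lit 1) (nat_lit 182) (nat_lit 1) (nat_lit 317) (nat_lit 310) (nat_lit 273)) (XT.lf (nat_lit 76) (nat_lit 685861214) (nat_lit 0) (nat_lit 766032020) (nat_lit 76) (nat_lit 766032020) (nat_lit 180) (nat_lit 3) (nat_lit 179) (nat_lit 1) (nat_lit 180) (nat_lit 1) (nat_lit 318) (nat_lit 310) (nat_lit 272)))))) (XT.nd (nat_lit 390) (nat_lit 456) (nat_lit 0) (XT.nd (nat_lit 156) (nat_lit 228) (nat_lit 0) (XT.nd (nat_lit 78) (nat_lit 0) (nat_lit 0) (XT.lf (nat_lit 152) (nat_lit 2078512765) (nat_lit 0) (nat_lit 21125377) (nat_lit 76) (nat_lit 21125377) (nat_lit 179) (nat_lit 1) (nat_lit 177) (nat_lit 1) (nat_lit 178) (nat_lit 1) (nat_lit 319) (nat_lit 310) (nat_lit 271)) (XT.lf (nat_lit 0) (nat_lit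 655649025) (nat_lit 0) (nat_lit 708362631) (nat_lit 152) (nat_lit 655649025) (nat_lit 177) (nat_lit 3) (nat_lit 177) (nat_lit 1) (nat_lit 179) (nat_lit 1) (nat_lit 320) (nat_lit 310) (nat_lit 270))) (XT.nd (nat_lit 78) (nat_lit 152) (nat_lit 0) (XT.lf (nat_lit 76) (nat_lit 611956518) (nat_lit 0) (nat_lit 657794437) (nat_lit 76) (nat_lit 657794437) (nat_lit 177) (nat_lit 3) (nat_lit 176) (nat_lit 1) (nat_lit 177) (nat_lit 1) (nat_lit 321) (nat_lit 310) (nat_lit 269)) (XT.nd (nat_lit 78) (nat_lit 0) (nat_lit 0) (XT.lf (nat_lit 152) (nat_lit 1819164569) (nat_lit 0) (nat_lit 12078502) (nat_lit 76) (nat_lit 12078502) (nat_lit 176) (nat_lit 1) (nat_lit 174) (nat_lit 1) (nat_lit 175) (nat_lit 1) (nat_lit 322) (nat_lit 310) (nat_lit 268)) (XT.lf (nat_lit 0) (nat_lit 575113315) (nat_lit 0) (nat_lit 605252490) (nat_lit 152) (nat_lit 575113315) (nat_lit 174) (nat_lit 3) (nat_lit 174) (nat_lit 1) (nat_lit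 176) (nat_lit 1) (nat_lit 323) (nat_lit 310) (nat_lit 267))))) (XT.nd (nat_lit 234) (nat_lit 228) (nat_lit 0) (XT.nd (nat_lit 78) (nat_lit 152) (nat_lit 0) (XT.lf (nat_lit 76) (nat_lit 541029989) (nat_lit 0) (nat_lit 567237967) (nat_lit 76) (nat_lit 567237967) (nat_lit 174) (nat_lit 3) (nat_lit 173) (nat_lit 1) (nat_lit 174) (nat_lit 1) (nat_lit 324) (nat_lit 310) (nat_lit 266)) (XT.nd (nat_lit 78) (nat_lit 0) (nat_lit 0) (XT.lf (nat_lit 152) (nat_lit 1588607289) (nat_lit 0) (nat_lit 6905923) (nat_lit 76) (nat_lit 6905923) (nat_lit 173) (nat_lit 1) (nat_lit 171) (nat_lit 1) (nat_lit 172) (nat_lit 1) (nat_lit 325) (nat_lit 310) (nat_lit 265)) (XT.lf (nat_lit 0) (nat_lit 502947997) (nat_lit 0) (nat_lit 520180169) (nat_lit 152) (nat_lit 502947997) (nat_lit 171) (nat_lit 3) (nat_lit 171) (nat_lit 1) (nat_lit 173) (nat_lit 1) (nat_lit 326) (nat_lit 310) (nat_lit 264)))) (XT.nd (nat_lit 78) (nat_lit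 152) (nat_lit 0) (XT.lf (nat_lit 76) (nat_lit 475545968) (nat_lit 0) (nat_lit 490530465) (nat_lit 76) (nat_lit 490530465) (nat_lit 171) (nat_lit 3) (nat_lit 170) (nat_lit 1) (nat_lit 171) (nat_lit 1) (nat_lit 327) (nat_lit 310) (nat_lit 263)) (XT.nd (nat_lit 78) (nat_lit 0) (nat_lit 0) (XT.lf (nat_lit 152) (nat_lit 1385242715) (nat_lit 0) (nat_lit 3948484) (nat_lit 76) (nat_lit 3948484) (nat_lit 170) (nat_lit 1) (nat_lit 168) (nat_lit 1) (nat_lit 169) (nat_lit 1) (nat_lit 328) (nat_lit 310) (nat_lit 262)) (XT.lf (nat_lit 0) (nat_lit 438975274) (nat_lit 0) (nat_lit 448827824) (nat_lit 152) (nat_lit 438975274) (nat_lit 168) (nat_lit 3) (nat_lit 168) (nat_lit 1) (nat_lit 170) (nat_lit 1) (nat_lit 329) (nat_lit 310) (nat_lit 261))))))) (XT.nd (nat_lit 858) (nat_lit 912) (nat_lit 0) (XT.nd (nat_lit 390) (nat_lit 456) (nat_lit 0) (XT.nd (nat_lit 156) (nat_lit 228) (nat_lit 0) (XT.nd (nat_lit 78) (nat_lit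 152) (nat_lit 0) (XT.lf (nat_lit 76) (nat_lit 416425660) (nat_lit 0) (nat_lit 424993095) (nat_lit 76) (nat_lit 424993095) (nat_lit 168) (nat_lit 3) (nat_lit 167) (nat_lit 1) (nat_lit 168) (nat_lit 1) (nat_lit 330) (nat_lit 310) (nat_lit 260)) (XT.lf (nat_lit 152) (nat_lit 1206757315) (nat_lit 0) (nat_lit 2257558) (nat_lit 76) (nat_lit 2257558) (nat_lit 167) (nat_lit 1) (nat_lit 165) (nat_lit 1) (nat_lit 166) (nat_lit 1) (nat_lit 331) (nat_lit 310) (nat_lit 259))) (XT.nd (nat_lit 78) (nat_lit 228) (nat_lit 0) (XT.lf (nat_lit 0) (nat_lit 382649124) (nat_lit 0) (nat_lit 388282351) (nat_lit 152) (nat_lit 382649124) (nat_lit 165) (nat_lit 3) (nat_lit 165) (nat_lit 1) (nat_lit 167) (nat_lit 1) (nat_lit 332) (nat_lit 310) (nat_lit 258)) (XT.nd (nat_lit 78) (nat_lit 152) (nat_lit 0) (XT.lf (nat_lit 76) (nat_lit 363771600) (nat_lit 0) (nat_lit 368670059) (nat_lit 76) (nat_lit 368670059) (nat_lit 165) (nat_lit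 3) (nat_lit 164) (nat_lit 1) (nat_lit 165) (nat_lit 1) (nat_lit 333) (nat_lit 310) (nat_lit 257)) (XT.lf (nat_lit 152) (nat_lit 1050611148) (nat_lit 0) (nat_lit 1290766) (nat_lit 76) (nat_lit 1290766) (nat_lit 164) (nat_lit 1) (nat_lit 162) (nat_lit 1) (nat_lit 163) (nat_lit 1) (nat_lit 334) (nat_lit 310) (nat_lit 256))))) (XT.nd (nat_lit 234) (nat_lit 228) (nat_lit 0) (XT.nd (nat_lit 78) (nat_lit 228) (nat_lit 0) (XT.lf (nat_lit 0) (nat_lit 333270953) (nat_lit 0) (nat_lit 336491769) (nat_lit 152) (nat_lit 333270953) (nat_lit 162) (nat_lit 3) (nat_lit 162) (nat_lit 1) (nat_lit 164) (nat_lit 1) (nat_lit 335) (nat_lit 310) (nat_lit 255)) (XT.nd (nat_lit 78) (nat_lit 152) (nat_lit 0) (XT.lf (nat_lit 76) (nat_lit 317273574) (nat_lit 0) (nat_lit 320074283) (nat_lit 76) (nat_lit 320074283) (nat_lit 162) (nat_lit 3) (nat_lit 161) (nat_lit 1) (nat_lit 162) (nat_lit 1) (nat_lit 336) (nat_lit 310) (nat_lit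 254)) (XT.lf (nat_lit 152) (nat_lit 914293583) (nat_lit 0) (nat_lit 737999) (nat_lit 76) (nat_lit 737999) (nat_lit 161) (nat_lit 1) (nat_lit 159) (nat_lit 1) (nat_lit 160) (nat_lit 1) (nat_lit 337) (nat_lit 310) (nat_lit 253)))) (XT.nd (nat_lit 78) (nat_lit 228) (nat_lit 0) (XT.lf (nat_lit 0) (nat_lit 290105336) (nat_lit 0) (nat_lit 291946848) (nat_lit 152) (nat_lit 290105336) (nat_lit 159) (nat_lit 3) (nat_lit 159) (nat_lit 1) (nat_lit 161) (nat_lit 1) (nat_lit 338) (nat_lit 310) (nat_lit 252)) (XT.nd (nat_lit 78) (nat_lit 152) (nat_lit 0) (XT.lf (nat_lit 76) (nat_lit 276433483) (nat_lit 0) (nat_lit 278034798) (nat_lit 76) (nat_lit 278034798) (nat_lit 159) (nat_lit 3) (nat_lit 158) (nat_lit 1) (nat_lit 159) (nat_lit 1) (nat_lit 339) (nat_lit 310) (nat_lit 251)) (XT.lf (nat_lit 152) (nat_lit 795448801) (nat_lit 0) (nat_lit 421953) (nat_lit 76) (nat_lit 421953) (nat_lit 158) (nat_lit 1) (nat_lit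 156) (nat_lit 1) (nat_lit 157) (nat_lit 1) (nat_lit 340) (nat_lit 310) (nat_lit 250)))))) (XT.nd (nat_lit 468) (nat_lit 456) (nat_lit 0) (XT.nd (nat_lit 234) (nat_lit 228) (nat_lit 0) (XT.nd (nat_lit 78) (nat_lit 228) (nat_lit 0) (XT.lf (nat_lit 0) (nat_lit 252439613) (nat_lit 0) (nat_lit 253492503) (nat_lit 152) (nat_lit 252439613) (nat_lit 156) (nat_lit 3) (nat_lit 156) (nat_lit 1) (nat_lit 158) (nat_lit 1) (nat_lit 341) (nat_lit 310) (nat_lit 249)) (XT.nd (nat_lit 78) (nat_lit 152) (nat_lit 0) (XT.lf (nat_lit 76) (nat_lit 240687643) (nat_lit 0) (nat_lit 241603200) (nat_lit 76) (nat_lit 241603200) (nat_lit 156) (nat_lit 3) (nat_lit 155) (nat_lit 1) (nat_lit 156) (nat_lit 1) (nat_lit 342) (nat_lit 310) (nat_lit 248)) (XT.lf (nat_lit 152) (nat_lit 691929544) (nat_lit 0) (nat_lit 241253) (nat_lit 76) (nat_lit 241253) (nat_lit 155) (nat_lit 1) (nat_lit 153) (nat_lit 1) (nat_lit 154) (nat_lit 1) (nat_lit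 343) (nat_lit 310) (nat_lit 247)))) (XT.nd (nat_lit 78) (nat_lit 228) (nat_lit 0) (XT.lf (nat_lit 0) (nat_lit 219612250) (nat_lit 0) (nat_lit 220214244) (nat_lit 152) (nat_lit 219612250) (nat_lit 153) (nat_lit 3) (nat_lit 153) (nat_lit 1) (nat_lit 155) (nat_lit 1) (nat_lit 344) (nat_lit 310) (nat_lit 246)) (XT.nd (nat_lit 78) (nat_lit 152) (nat_lit 0) (XT.lf (nat_lit 76) (nat_lit 209471247) (nat_lit 0) (nat_lit 209994720) (nat_lit 76) (nat_lit 209994720) (nat_lit 153) (nat_lit 3) (nat_lit 152) (nat_lit 1) (nat_lit 153) (nat_lit 1) (nat_lit 345) (nat_lit 310) (nat_lit 245)) (XT.lf (nat_lit 152) (nat_lit 601812190) (nat_lit 0) (nat_lit 137937) (nat_lit 76) (nat_lit 137937) (nat_lit 152) (nat_lit 1) (nat_lit 150) (nat_lit 1) (nat_lit 151) (nat_lit 1) (nat_lit 346) (nat_lit 310) (nat_lit 244))))) (XT.nd (nat_lit 234) (nat_lit 228) (nat_lit 0) (XT.nd (nat_lit 78) (nat_lit 228) (nat_lit 0) (XT.lf (nat_lit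 0) (nat_lit 191024089) (nat_lit 0) (nat_lit 191368281) (nat_lit 152) (nat_lit 191024089) (nat_lit 150) (nat_lit 3) (nat_lit 150) (nat_lit 1) (nat_lit 152) (nat_lit 1) (nat_lit 347) (nat_lit 310) (nat_lit 243)) (XT.nd (nat_lit 78) (nat_lit 152) (nat_lit 0) (XT.lf (nat_lit 76) (nat_lit 182250480) (nat_lit 0) (nat_lit 182549777) (nat_lit 76) (nat_lit 182549777) (nat_lit 150) (nat_lit 3) (nat_lit 149) (nat_lit 1) (nat_lit 150) (nat_lit 1) (nat_lit 348) (nat_lit 310) (nat_lit 242)) (XT.lf (nat_lit 152) (nat_lit 523391748) (nat_lit 0) (nat_lit 78866) (nat_lit 76) (nat_lit 78866) (nat_lit 149) (nat_lit 1) (nat_lit 147) (nat_lit 1) (nat_lit 148) (nat_lit 1) (nat_lit 349) (nat_lit 310) (nat_lit 241)))) (XT.nd (nat_lit 78) (nat_lit 228) (nat_lit 0) (XT.lf (nat_lit 0) (nat_lit 166140444) (nat_lit 0) (nat_lit 166337237) (nat_lit 152) (nat_lit 166140444) (nat_lit 147) (nat_lit 3) (nat_lit 147) (nat_lit 1) (nat_lit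 149) (nat_lit 1) (nat_lit 350) (nat_lit 310) (nat_lit 240)) (XT.nd (nat_lit 78) (nat_lit 152) (nat_lit 0) (XT.lf (nat_lit 76) (nat_lit 158536750) (nat_lit 0) (nat_lit 158707874) (nat_lit 76) (nat_lit 158707874) (nat_lit 147) (nat_lit 3) (nat_lit 146) (nat_lit 1) (nat_lit 147) (nat_lit 1) (nat_lit 351) (nat_lit 310) (nat_lit 239)) (XT.lf (nat_lit 152) (nat_lit 455167170) (nat_lit 0) (nat_lit 45091) (nat_lit 76) (nat_lit 45091) (nat_lit 146) (nat_lit 1) (nat_lit 144) (nat_lit 1) (nat_lit 145) (nat_lit 1) (nat_lit 352) (nat_lit 310) (nat_lit 238))))))))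
noncomputable def ec42 : XT := (XT.nd (nat_lit 41184) (nat_lit 0) (nat_lit 5244) (XT.nd (nat_lit 858) (nat_lit 684) (nat_lit 0) (XT.nd (nat_lit 390) (nat_lit 456) (nat_lit 0) (XT.nd (nat_lit 156) (nat_lit 228) (nat_lit 0) (XT.nd (nat_lit 78) (nat_lit 76) (nat_lit 0) (XT.lf (nat_lit 0) (nat_lit 144488557) (nat_lit 0) (nat_lit 144601074) (nat_lit 152) (nat_lit 144488557) (nat_lit 144) (nat_lit 3) (nat_lit 144) (nat_lit 1) (nat_lit 146) (nat_lit 1) (nat_lit 353) (nat_lit 310) (nat_lit 237)) (XT.lf (nat_lit 76) (nat_lit 137891247) (nat_lit 0) (nat_lit 137989087) (nat_lit 76) (nat_lit 137989087) (nat_lit 144) (nat_lit 3) (nat_lit 143) (nat_lit 1) (nat_lit 144) (nat_lit 1) (nat_lit 354) (nat_lit 310) (nat_lit 236))) (XT.nd (nat_lit 78) (nat_lit 76) (nat_lit 0) (XT.lf (nat_lit 152) (nat_lit 395822645) (nat_lit 0) (nat_lit 25781) (nat_lit 76) (nat_lit 25781) (nat_lit 143) (nat_lit 1) (nat_lit 141) (nat_lit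 1) (nat_lit 142) (nat_lit 1) (nat_lit 355) (nat_lit 310) (nat_lit 235)) (XT.nd (nat_lit 78) (nat_lit 76) (nat_lit 0) (XT.lf (nat_lit 0) (nat_lit 125652861) (nat_lit 0) (nat_lit 125717193) (nat_lit 152) (nat_lit 125652861) (nat_lit 141) (nat_lit 3) (nat_lit 141) (nat_lit 1) (nat_lit 143) (nat_lit 1) (nat_lit 356) (nat_lit 310) (nat_lit 234)) (XT.lf (nat_lit 76) (nat_lit 119924416) (nat_lit 0) (nat_lit 119980356) (nat_lit 76) (nat_lit 119980356) (nat_lit 141) (nat_lit 3) (nat_lit 140) (nat_lit 1) (nat_lit 141) (nat_lit 1) (nat_lit 357) (nat_lit 310) (nat_lit 233))))) (XT.nd (nat_lit 234) (nat_lit 228) (nat_lit 0) (XT.nd (nat_lit 78) (nat_lit 76) (nat_lit 0) (XT.lf (nat_lit 152) (nat_lit 344207959) (nat_lit 0) (nat_lit 14740) (nat_lit 76) (nat_lit 14740) (nat_lit 140) (nat_lit 1) (nat_lit 138) (nat_lit 1) (nat_lit 139) (nat_lit 1) (nat_lit 358) (nat_lit 310) (nat_lit 232)) (XT.nd (nat_lit 78) (nat_lit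 76) (nat_lit 0) (XT.lf (nat_lit 0) (nat_lit 109269440) (nat_lit 0) (nat_lit 109306222) (nat_lit 152) (nat_lit 109269440) (nat_lit 138) (nat_lit 3) (nat_lit 138) (nat_lit 1) (nat_lit 140) (nat_lit 1) (nat_lit 359) (nat_lit 310) (nat_lit 231)) (XT.lf (nat_lit 76) (nat_lit 104292955) (nat_lit 0) (nat_lit 104324939) (nat_lit 76) (nat_lit 104324939) (nat_lit 138) (nat_lit 3) (nat_lit 137) (nat_lit 1) (nat_lit 138) (nat_lit 1) (nat_lit 360) (nat_lit 310) (nat_lit 230)))) (XT.nd (nat_lit 78) (nat_lit 76) (nat_lit 0) (XT.lf (nat_lit 152) (nat_lit 299319476) (nat_lit 0) (nat_lit 8428) (nat_lit 76) (nat_lit 8428) (nat_lit 137) (nat_lit 1) (nat_lit 135) (nat_lit 1) (nat_lit 136) (nat_lit 1) (nat_lit 361) (nat_lit 310) (nat_lit 229)) (XT.nd (nat_lit 78) (nat_lit 76) (nat_lit 0) (XT.lf (nat_lit 0) (nat_lit 95020381) (nat_lit 0) (nat_lit 95041412) (nat_lit 152) (nat_lit 95020381) (nat_lit 135) (nat_lit 3) (nat_lit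 135) (nat_lit 1) (nat_lit 137) (nat_lit 1) (nat_lit 362) (nat_lit 310) (nat_lit 228)) (XT.lf (nat_lit 76) (nat_lit 90695732) (nat_lit 0) (nat_lit 90714019) (nat_lit 76) (nat_lit 90714019) (nat_lit 135) (nat_lit 3) (nat_lit 134) (nat_lit 1) (nat_lit 135) (nat_lit 1) (nat_lit 363) (nat_lit 310) (nat_lit 227)))))) (XT.nd (nat_lit 390) (nat_lit 304) (nat_lit 0) (XT.nd (nat_lit 156) (nat_lit 228) (nat_lit 0) (XT.nd (nat_lit 78) (nat_lit 0) (nat_lit 0) (XT.lf (nat_lit 152) (nat_lit 260282498) (nat_lit 0) (nat_lit 4818) (nat_lit 76) (nat_lit 4818) (nat_lit 134) (nat_lit 1) (nat_lit 132) (nat_lit 1) (nat_lit 133) (nat_lit 1) (nat_lit 364) (nat_lit 310) (nat_lit 226)) (XT.lf (nat_lit 0) (nat_lit 82628407) (nat_lit 0) (nat_lit 82640431) (nat_lit 152) (nat_lit 82628407) (nat_lit 132) (nat_lit 3) (nat_lit 132) (nat_lit 1) (nat_lit 134) (nat_lit 1) (nat_lit 365) (nat_lit 310) (nat_lit 225))) (XT.nd (nat_lit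 78) (nat_lit 152) (nat_lit 0) (XT.lf (nat_lit 76) (nat_lit 78869402) (nat_lit 0) (nat_lit 78879857) (nat_lit 76) (nat_lit 78879857) (nat_lit 132) (nat_lit 3) (nat_lit 131) (nat_lit 1) (nat_lit 132) (nat_lit 1) (nat_lit 366) (nat_lit 310) (nat_lit 224)) (XT.nd (nat_lit 78) (nat_lit 0) (nat_lit 0) (XT.lf (nat_lit 152) (nat_lit 226335290) (nat_lit 0) (nat_lit 2755) (nat_lit 76) (nat_lit 2755) (nat_lit 131) (nat_lit 1) (nat_lit 129) (nat_lit 1) (nat_lit 130) (nat_lit 1) (nat_lit 367) (nat_lit 310) (nat_lit 223)) (XT.lf (nat_lit 0) (nat_lit 71851925) (nat_lit 0) (nat_lit 71858800) (nat_lit 152) (nat_lit 71851925) (nat_lit 129) (nat_lit 3) (nat_lit 129) (nat_lit 1) (nat_lit 131) (nat_lit 1) (nat_lit 368) (nat_lit 310) (nat_lit 222))))) (XT.nd (nat_lit 234) (nat_lit 76) (nat_lit 0) (XT.nd (nat_lit 78) (nat_lit 152) (nat_lit 0) (XT.lf (nat_lit 76) (nat_lit 68584117) (nat_lit 0) (nat_lit 68590095) (nat_lit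 76) (nat_lit 68590095) (nat_lit 129) (nat_lit 3) (nat_lit 128) (nat_lit 1) (nat_lit 129) (nat_lit 1) (nat_lit 369) (nat_lit 310) (nat_lit 221)) (XT.nd (nat_lit 78) (nat_lit 0) (nat_lit 0) (XT.lf (nat_lit 152) (nat_lit 196814829) (nat_lit 0) (nat_lit 1575) (nat_lit 76) (nat_lit 1575) (nat_lit 128) (nat_lit 1) (nat_lit 126) (nat_lit 1) (nat_lit 127) (nat_lit 1) (nat_lit 370) (nat_lit 310) (nat_lit 220)) (XT.lf (nat_lit 0) (nat_lit 62480585) (nat_lit 0) (nat_lit 62484516) (nat_lit 152) (nat_lit 62480585) (nat_lit 126) (nat_lit 3) (nat_lit 126) (nat_lit 1) (nat_lit 128) (nat_lit 1) (nat_lit 371) (nat_lit 310) (nat_lit 219)))) (XT.nd (nat_lit 39546) (nat_lit 0) (nat_lit 6840) (XT.lf (nat_lit 76) (nat_lit 59639523) (nat_lit 0) (nat_lit 59642941) (nat_lit 76) (nat_lit 59642941) (nat_lit 126) (nat_lit 3) (nat_lit 125) (nat_lit 1) (nat_lit 126) (nat_lit 1) (nat_lit 372) (nat_lit 310) (nat_lit 218)) (XT.nd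 (nat_lit 78) (nat_lit 0) (nat_lit 0) (XT.lf (nat_lit 380) (nat_lit 3264379801) (nat_lit 0) (nat_lit 2891341531) (nat_lit 380) (nat_lit 3264379801) (nat_lit 220) (nat_lit 1) (nat_lit 215) (nat_lit 0) (nat_lit 220) (nat_lit 0) (nat_lit 278) (nat_lit 311) (nat_lit 311)) (XT.lf (nat_lit 380) (nat_lit 12074517251) (nat_lit 76) (nat_lit 2759916916) (nat_lit 0) (nat_lit 2759916916) (nat_lit 220) (nat_lit 1) (nat_lit 216) (nat_lit 1) (nat_lit 215) (nat_lit 0) (nat_lit 279) (nat_lit 311) (nat_lit 310))))))) (XT.nd (nat_lit 858) (nat_lit 836) (nat_lit 0) (XT.nd (nat_lit 390) (nat_lit 608) (nat_lit 0) (XT.nd (nat_lit 156) (nat_lit 228) (nat_lit 0) (XT.nd (nat_lit 78) (nat_lit 0) (nat_lit 0) (XT.lf (nat_lit 380) (nat_lit 5322377965) (nat_lit 0) (nat_lit 5791249295) (nat_lit 304) (nat_lit 5322377965) (nat_lit 221) (nat_lit 1) (nat_lit 216) (nat_lit 1) (nat_lit 220) (nat_lit 1) (nat_lit 280) (nat_lit 311) (nat_lit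 309)) (XT.lf (nat_lit 380) (nat_lit 9138246613) (nat_lit 76) (nat_lit 3128082937) (nat_lit 0) (nat_lit 3128082937) (nat_lit 221) (nat_lit 1) (nat_lit 217) (nat_lit 1) (nat_lit 216) (nat_lit 1) (nat_lit 281) (nat_lit 311) (nat_lit 308))) (XT.nd (nat_lit 78) (nat_lit 304) (nat_lit 0) (XT.lf (nat_lit 76) (nat_lit 3696541955) (nat_lit 0) (nat_lit 7038836466) (nat_lit 304) (nat_lit 3696541955) (nat_lit 218) (nat_lit 1) (nat_lit 217) (nat_lit 1) (nat_lit 221) (nat_lit 1) (nat_lit 282) (nat_lit 311) (nat_lit 307)) (XT.nd (nat_lit 78) (nat_lit 0) (nat_lit 0) (XT.lf (nat_lit 380) (nat_lit 5555604013) (nat_lit 0) (nat_lit 3998817235) (nat_lit 304) (nat_lit 3998817235) (nat_lit 218) (nat_lit 1) (nat_lit 213) (nat_lit 1) (nat_lit 217) (nat_lit 1) (nat_lit 283) (nat_lit 311) (nat_lit 306)) (XT.lf (nat_lit 76) (nat_lit 1846621417) (nat_lit 0) (nat_lit 9061417579) (nat_lit 380) (nat_lit 1846621417) (nat_lit 214)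 (nat_lit 1) (nat_lit 213) (nat_lit 1) (nat_lit 218) (nat_lit 1) (nat_lit 284) (nat_lit 311) (nat_lit 305))))) (XT.nd (nat_lit 234) (nat_lit 228) (nat_lit 0) (XT.nd (nat_lit 78) (nat_lit 228) (nat_lit 0) (XT.lf (nat_lit 228) (nat_lit 1661915714) (nat_lit 0) (nat_lit 5172302583) (nat_lit 152) (nat_lit 5172302583) (nat_lit 214) (nat_lit 1) (nat_lit 211) (nat_lit 1) (nat_lit 213) (nat_lit 1) (nat_lit 285) (nat_lit 311) (nat_lit 304)) (XT.nd (nat_lit 78) (nat_lit 0) (nat_lit 0) (XT.lf (nat_lit 228) (nat_lit 11168052691) (nat_lit 0) (nat_lit 87624665) (nat_lit 152) (nat_lit 87624665) (nat_lit 211) (nat_lit 1) (nat_lit 208) (nat_lit 1) (nat_lit 210) (nat_lit 1) (nat_lit 286) (nat_lit 311) (nat_lit 303)) (XT.lf (nat_lit 76) (nat_lit 4290837227) (nat_lit 0) (nat_lit 2106572679) (nat_lit 228) (nat_lit 4290837227) (nat_lit 209) (nat_lit 1) (nat_lit 208) (nat_lit 1) (nat_lit 211) (nat_lit 1) (nat_lit 287)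 (nat_lit 311) (nat_lit 302)))) (XT.nd (nat_lit 78) (nat_lit 76) (nat_lit 0) (XT.lf (nat_lit 228) (nat_lit 6236896598) (nat_lit 0) (nat_lit 1934624014) (nat_lit 152) (nat_lit 1934624014) (nat_lit 209) (nat_lit 1) (nat_lit 206) (nat_lit 1) (nat_lit 208) (nat_lit 1) (nat_lit 288) (nat_lit 311) (nat_lit 301)) (XT.nd (nat_lit 78) (nat_lit 76) (nat_lit 0) (XT.lf (nat_lit 76) (nat_lit 1950482127) (nat_lit 0) (nat_lit 5660265788) (nat_lit 228) (nat_lit 1950482127) (nat_lit 207) (nat_lit 1) (nat_lit 206) (nat_lit 1) (nat_lit 209) (nat_lit 1) (nat_lit 289) (nat_lit 311) (nat_lit 300)) (XT.lf (nat_lit 152) (nat_lit 1612433931) (nat_lit 0) (nat_lit 3720699229) (nat_lit 76) (nat_lit 3720699229) (nat_lit 207) (nat_lit 1) (nat_lit 205) (nat_lit 1) (nat_lit 206) (nat_lit 1) (nat_lit 290) (nat_lit 311) (nat_lit 299)))))) (XT.nd (nat_lit 390) (nat_lit 380) (nat_lit 0) (XT.nd (nat_lit 156) (nat_lit 228) (nat_lit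 0) (XT.nd (nat_lit 78) (nat_lit 0) (nat_lit 0) (XT.lf (nat_lit 228) (nat_lit 8163088390) (nat_lit 0) (nat_lit 216860797) (nat_lit 152) (nat_lit 216860797) (nat_lit 205) (nat_lit 1) (nat_lit 202) (nat_lit 1) (nat_lit 204) (nat_lit 1) (nat_lit 291) (nat_lit 311) (nat_lit 298)) (XT.lf (nat_lit 76) (nat_lit 2856905369) (nat_lit 0) (nat_lit 2426177251) (nat_lit 228) (nat_lit 2856905369) (nat_lit 203) (nat_lit 1) (nat_lit 202) (nat_lit 1) (nat_lit 205) (nat_lit 1) (nat_lit 292) (nat_lit 311) (nat_lit 297))) (XT.nd (nat_lit 78) (nat_lit 152) (nat_lit 0) (XT.lf (nat_lit 152) (nat_lit 3473723300) (nat_lit 0) (nat_lit 2127321860) (nat_lit 76) (nat_lit 2127321860) (nat_lit 203) (nat_lit 1) (nat_lit 201) (nat_lit 1) (nat_lit 202) (nat_lit 1) (nat_lit 293) (nat_lit 311) (nat_lit 296)) (XT.nd (nat_lit 78) (nat_lit 152) (nat_lit 0) (XT.lf (nat_lit 0) (nat_lit 680202892) (nat_lit 0) (nat_lit 5988454037) (nat_lit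 152) (nat_lit 680202892) (nat_lit 201) (nat_lit 3) (nat_lit 201) (nat_lit 1) (nat_lit 203) (nat_lit 1) (nat_lit 294) (nat_lit 311) (nat_lit 295)) (XT.lf (nat_lit 76) (nat_lit 3147976119) (nat_lit 0) (nat_lit 682741600) (nat_lit 152) (nat_lit 3147976119) (nat_lit 200) (nat_lit 1) (nat_lit 199) (nat_lit 1) (nat_lit 201) (nat_lit 1) (nat_lit 295) (nat_lit 311) (nat_lit 294))))) (XT.nd (nat_lit 234) (nat_lit 228) (nat_lit 0) (XT.nd (nat_lit 78) (nat_lit 76) (nat_lit 0) (XT.lf (nat_lit 152) (nat_lit 4205076890) (nat_lit 0) (nat_lit 1216303177) (nat_lit 76) (nat_lit 1216303177) (nat_lit 200) (nat_lit 1) (nat_lit 198) (nat_lit 1) (nat_lit 199) (nat_lit 1) (nat_lit 296) (nat_lit 311) (nat_lit 293)) (XT.nd (nat_lit 78) (nat_lit 76) (nat_lit 0) (XT.lf (nat_lit 0) (nat_lit 1093341328) (nat_lit 0) (nat_lit 4128351148) (nat_lit 152) (nat_lit 1093341328) (nat_lit 198) (nat_lit 3) (nat_lit 198) (nat_lit 1) (nat_lit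 200) (nat_lit 1) (nat_lit 297) (nat_lit 311) (nat_lit 292)) (XT.lf (nat_lit 76) (nat_lit 243904912) (nat_lit 0) (nat_lit 2883043886) (nat_lit 76) (nat_lit 2883043886) (nat_lit 198) (nat_lit 3) (nat_lit 197) (nat_lit 1) (nat_lit 198) (nat_lit 1) (nat_lit 298) (nat_lit 311) (nat_lit 291)))) (XT.nd (nat_lit 78) (nat_lit 76) (nat_lit 0) (XT.lf (nat_lit 152) (nat_lit 4333800550) (nat_lit 0) (nat_lit 695425289) (nat_lit 76) (nat_lit 695425289) (nat_lit 197) (nat_lit 1) (nat_lit 195) (nat_lit 1) (nat_lit 196) (nat_lit 1) (nat_lit 299) (nat_lit 311) (nat_lit 290)) (XT.nd (nat_lit 78) (nat_lit 76) (nat_lit 0) (XT.lf (nat_lit 0) (nat_lit 1237671989) (nat_lit 0) (nat_lit 2972948704) (nat_lit 152) (nat_lit 1237671989) (nat_lit 195) (nat_lit 3) (nat_lit 195) (nat_lit 1) (nat_lit 197) (nat_lit 1) (nat_lit 300) (nat_lit 311) (nat_lit 289)) (XT.lf (nat_lit 76) (nat_lit 724160755) (nat_lit 0) (nat_lit 2233097029)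 (nat_lit 76) (nat_lit 2233097029) (nat_lit 195) (nat_lit 3) (nat_lit 194) (nat_lit 1) (nat_lit 195) (nat_lit 1) (nat_lit 301) (nat_lit 311) (nat_lit 288))))))))
noncomputable def ec43 : XT := (XT.nd (nat_lit 1716) (nat_lit 1672) (nat_lit 0) (XT.nd (nat_lit 858) (nat_lit 912) (nat_lit 0) (XT.nd (nat_lit 390) (nat_lit 456) (nat_lit 0) (XT.nd (nat_lit 156) (nat_lit 228) (nat_lit 0) (XT.nd (nat_lit 78) (nat_lit 0) (nat_lit 0) (XT.lf (nat_lit 152) (nat_lit 4155720348) (nat_lit 0) (nat_lit 397611666) (nat_lit 76) (nat_lit 397611666) (nat_lit 194) (nat_lit 1) (nat_lit 192) (nat_lit 1) (nat_lit 193) (nat_lit 1) (nat_lit 302) (nat_lit 311) (nat_lit 287)) (XT.lf (nat_lit 0) (nat_lit 1240295617) (nat_lit 0) (nat_lit 2232445711) (nat_lit 152) (nat_lit 1240295617) (nat_lit 192) (nat_lit 3) (nat_lit 192) (nat_lit 1) (nat_lit 194) (nat_lit 1) (nat_lit 303) (nat_lit 311) (nat_lit 286))) (XT.nd (nat_lit 78) (nat_lit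 152) (nat_lit 0) (XT.lf (nat_lit 76) (nat_lit 922482419) (nat_lit 0) (nat_lit 1785221631) (nat_lit 76) (nat_lit 1785221631) (nat_lit 192) (nat_lit 3) (nat_lit 191) (nat_lit 1) (nat_lit 192) (nat_lit 1) (nat_lit 304) (nat_lit 311) (nat_lit 285)) (XT.nd (nat_lit 78) (nat_lit 0) (nat_lit 0) (XT.lf (nat_lit 152) (nat_lit 3835051655) (nat_lit 0) (nat_lit 227335760) (nat_lit 76) (nat_lit 227335760) (nat_lit 191) (nat_lit 1) (nat_lit 189) (nat_lit 1) (nat_lit 190) (nat_lit 1) (nat_lit 305) (nat_lit 311) (nat_lit 284)) (XT.lf (nat_lit 0) (nat_lit 1172319254) (nat_lit 0) (nat_lit 1739584290) (nat_lit 152) (nat_lit 1172319254) (nat_lit 189) (nat_lit 3) (nat_lit 189) (nat_lit 1) (nat_lit 191) (nat_lit 1) (nat_lit 306) (nat_lit 311) (nat_lit 283))))) (XT.nd (nat_lit 234) (nat_lit 228) (nat_lit 0) (XT.nd (nat_lit 78) (nat_lit 152) (nat_lit 0) (XT.lf (nat_lit 76) (nat_lit 969555062) (nat_lit 0) (nat_lit 1462829006)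 (nat_lit 76) (nat_lit 1462829006) (nat_lit 189) (nat_lit 3) (nat_lit 188) (nat_lit 1) (nat_lit 189) (nat_lit 1) (nat_lit 307) (nat_lit 311) (nat_lit 282)) (XT.nd (nat_lit 78) (nat_lit 0) (nat_lit 0) (XT.lf (nat_lit 152) (nat_lit 3461403282) (nat_lit 0) (nat_lit 129979959) (nat_lit 76) (nat_lit 129979959) (nat_lit 188) (nat_lit 1) (nat_lit 186) (nat_lit 1) (nat_lit 187) (nat_lit 1) (nat_lit 308) (nat_lit 311) (nat_lit 281)) (XT.lf (nat_lit 0) (nat_lit 1073039259) (nat_lit 0) (nat_lit 1397374885) (nat_lit 152) (nat_lit 1073039259) (nat_lit 186) (nat_lit 3) (nat_lit 186) (nat_lit 1) (nat_lit 188) (nat_lit 1) (nat_lit 309) (nat_lit 311) (nat_lit 280)))) (XT.nd (nat_lit 78) (nat_lit 152) (nat_lit 0) (XT.lf (nat_lit 76) (nat_lit 938800814) (nat_lit 0) (nat_lit 1220831793) (nat_lit 76) (nat_lit 1220831793) (nat_lit 186) (nat_lit 3) (nat_lit 185) (nat_lit 1) (nat_lit 186) (nat_lit 1) (nat_lit 310) (nat_lit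 311) (nat_lit 279)) (XT.nd (nat_lit 78) (nat_lit 0) (nat_lit 0) (XT.lf (nat_lit 152) (nat_lit 3082285996) (nat_lit 0) (nat_lit 74316463) (nat_lit 76) (nat_lit 74316463) (nat_lit 185) (nat_lit 1) (nat_lit 183) (nat_lit 1) (nat_lit 184) (nat_lit 1) (nat_lit 311) (nat_lit 311) (nat_lit 278)) (XT.lf (nat_lit 0) (nat_lit 963741436) (nat_lit 0) (nat_lit 1149181383) (nat_lit 152) (nat_lit 963741436) (nat_lit 183) (nat_lit 3) (nat_lit 183) (nat_lit 1) (nat_lit 185) (nat_lit 1) (nat_lit 312) (nat_lit 311) (nat_lit 277)))))) (XT.nd (nat_lit 390) (nat_lit 456) (nat_lit 0) (XT.nd (nat_lit 156) (nat_lit 228) (nat_lit 0) (XT.nd (nat_lit 78) (nat_lit 152) (nat_lit 0) (XT.lf (nat_lit 76) (nat_lit 871070726) (nat_lit 0) (nat_lit 1032322854) (nat_lit 76) (nat_lit 1032322854) (nat_lit 183) (nat_lit 3) (nat_lit 182) (nat_lit 1) (nat_lit 183) (nat_lit 1) (nat_lit 313) (nat_lit 311) (nat_lit 276)) (XT.lf (nat_lit 152)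 (nat_lit 2721626531) (nat_lit 0) (nat_lit 42490679) (nat_lit 76) (nat_lit 42490679) (nat_lit 182) (nat_lit 1) (nat_lit 180) (nat_lit 1) (nat_lit 181) (nat_lit 1) (nat_lit 314) (nat_lit 311) (nat_lit 275))) (XT.nd (nat_lit 78) (nat_lit 228) (nat_lit 0) (XT.lf (nat_lit 0) (nat_lit 855568170) (nat_lit 0) (nat_lit 961594061) (nat_lit 152) (nat_lit 855568170) (nat_lit 180) (nat_lit 3) (nat_lit 180) (nat_lit 1) (nat_lit 182) (nat_lit 1) (nat_lit 315) (nat_lit 311) (nat_lit 274)) (XT.nd (nat_lit 78) (nat_lit 152) (nat_lit 0) (XT.lf (nat_lit 76) (nat_lit 788740396) (nat_lit 0) (nat_lit 880936823) (nat_lit 76) (nat_lit 880936823) (nat_lit 180) (nat_lit 3) (nat_lit 179) (nat_lit 1) (nat_lit 180) (nat_lit 1) (nat_lit 316) (nat_lit 311) (nat_lit 273)) (XT.lf (nat_lit 152) (nat_lit 2390289680) (nat_lit 0) (nat_lit 24294183) (nat_lit 76) (nat_lit 24294183) (nat_lit 179) (nat_lit 1) (nat_lit 177) (nat_lit 1)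 (nat_lit 178) (nat_lit 1) (nat_lit 317) (nat_lit 311) (nat_lit 272))))) (XT.nd (nat_lit 234) (nat_lit 228) (nat_lit 0) (XT.nd (nat_lit 78) (nat_lit 228) (nat_lit 0) (XT.lf (nat_lit 0) (nat_lit 753996379) (nat_lit 0) (nat_lit 814617026) (nat_lit 152) (nat_lit 753996379) (nat_lit 177) (nat_lit 3) (nat_lit 177) (nat_lit 1) (nat_lit 179) (nat_lit 1) (nat_lit 318) (nat_lit 311) (nat_lit 271)) (XT.nd (nat_lit 78) (nat_lit 152) (nat_lit 0) (XT.lf (nat_lit 76) (nat_lit 703749996) (nat_lit 0) (nat_lit 756463602) (nat_lit 76) (nat_lit 756463602) (nat_lit 177) (nat_lit 3) (nat_lit 176) (nat_lit 1) (nat_lit 177) (nat_lit 1) (nat_lit 319) (nat_lit 311) (nat_lit 270)) (XT.lf (nat_lit 152) (nat_lit 2092039254) (nat_lit 0) (nat_lit 13890278) (nat_lit 76) (nat_lit 13890278) (nat_lit 176) (nat_lit 1) (nat_lit 174) (nat_lit 1) (nat_lit 175) (nat_lit 1) (nat_lit 320) (nat_lit 311) (nat_lit 269)))) (XT.nd (nat_lit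 78) (nat_lit 228) (nat_lit 0) (XT.lf (nat_lit 0) (nat_lit 661380312) (nat_lit 0) (nat_lit 696040364) (nat_lit 152) (nat_lit 661380312) (nat_lit 174) (nat_lit 3) (nat_lit 174) (nat_lit 1) (nat_lit 176) (nat_lit 1) (nat_lit 321) (nat_lit 311) (nat_lit 268)) (XT.nd (nat_lit 78) (nat_lit 152) (nat_lit 0) (XT.lf (nat_lit 76) (nat_lit 622184487) (nat_lit 0) (nat_lit 652323663) (nat_lit 76) (nat_lit 652323663) (nat_lit 174) (nat_lit 3) (nat_lit 173) (nat_lit 1) (nat_lit 174) (nat_lit 1) (nat_lit 322) (nat_lit 311) (nat_lit 267)) (XT.lf (nat_lit 152) (nat_lit 1826898383) (nat_lit 0) (nat_lit 7941811) (nat_lit 76) (nat_lit 7941811) (nat_lit 173) (nat_lit 1) (nat_lit 171) (nat_lit 1) (nat_lit 172) (nat_lit 1) (nat_lit 323) (nat_lit 311) (nat_lit 266))))))) (XT.nd (nat_lit 858) (nat_lit 912) (nat_lit 0) (XT.nd (nat_lit 390) (nat_lit 456) (nat_lit 0) (XT.nd (nat_lit 156) (nat_lit 228) (nat_lit 0) (XT.nd (nat_lit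 78) (nat_lit 76) (nat_lit 0) (XT.lf (nat_lit 0) (nat_lit 578390197) (nat_lit 0) (nat_lit 598207194) (nat_lit 152) (nat_lit 578390197) (nat_lit 171) (nat_lit 3) (nat_lit 171) (nat_lit 1) (nat_lit 173) (nat_lit 1) (nat_lit 324) (nat_lit 311) (nat_lit 265)) (XT.lf (nat_lit 76) (nat_lit 546877863) (nat_lit 0) (nat_lit 564110035) (nat_lit 76) (nat_lit 564110035) (nat_lit 171) (nat_lit 3) (nat_lit 170) (nat_lit 1) (nat_lit 171) (nat_lit 1) (nat_lit 325) (nat_lit 311) (nat_lit 264))) (XT.nd (nat_lit 78) (nat_lit 76) (nat_lit 0) (XT.lf (nat_lit 152) (nat_lit 1593029123) (nat_lit 0) (nat_lit 4540756) (nat_lit 76) (nat_lit 4540756) (nat_lit 170) (nat_lit 1) (nat_lit 168) (nat_lit 1) (nat_lit 169) (nat_lit 1) (nat_lit 326) (nat_lit 311) (nat_lit 263)) (XT.nd (nat_lit 78) (nat_lit 76) (nat_lit 0) (XT.lf (nat_lit 0) (nat_lit 504821565) (nat_lit 0) (nat_lit 516151997) (nat_lit 152) (nat_lit 504821565) (nat_lit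 168) (nat_lit 3) (nat_lit 168) (nat_lit 1) (nat_lit 170) (nat_lit 1) (nat_lit 327) (nat_lit 311) (nat_lit 262)) (XT.lf (nat_lit 76) (nat_lit 478889509) (nat_lit 0) (nat_lit 488742059) (nat_lit 76) (nat_lit 488742059) (nat_lit 168) (nat_lit 3) (nat_lit 167) (nat_lit 1) (nat_lit 168) (nat_lit 1) (nat_lit 328) (nat_lit 311) (nat_lit 261))))) (XT.nd (nat_lit 234) (nat_lit 228) (nat_lit 0) (XT.nd (nat_lit 78) (nat_lit 76) (nat_lit 0) (XT.lf (nat_lit 152) (nat_lit 1387770913) (nat_lit 0) (nat_lit 2596192) (nat_lit 76) (nat_lit 2596192) (nat_lit 167) (nat_lit 1) (nat_lit 165) (nat_lit 1) (nat_lit 166) (nat_lit 1) (nat_lit 329) (nat_lit 311) (nat_lit 260)) (XT.nd (nat_lit 78) (nat_lit 76) (nat_lit 0) (XT.lf (nat_lit 0) (nat_lit 440046492) (nat_lit 0) (nat_lit 446524704) (nat_lit 152) (nat_lit 440046492) (nat_lit 165) (nat_lit 3) (nat_lit 165) (nat_lit 1) (nat_lit 167) (nat_lit 1) (nat_lit 330) (nat_lit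 311) (nat_lit 259)) (XT.lf (nat_lit 76) (nat_lit 418337340) (nat_lit 0) (nat_lit 423970568) (nat_lit 76) (nat_lit 423970568) (nat_lit 165) (nat_lit 3) (nat_lit 164) (nat_lit 1) (nat_lit 165) (nat_lit 1) (nat_lit 331) (nat_lit 311) (nat_lit 258)))) (XT.nd (nat_lit 78) (nat_lit 76) (nat_lit 0) (XT.lf (nat_lit 152) (nat_lit 1208202821) (nat_lit 0) (nat_lit 1484381) (nat_lit 76) (nat_lit 1484381) (nat_lit 164) (nat_lit 1) (nat_lit 162) (nat_lit 1) (nat_lit 163) (nat_lit 1) (nat_lit 332) (nat_lit 311) (nat_lit 257)) (XT.nd (nat_lit 78) (nat_lit 76) (nat_lit 0) (XT.lf (nat_lit 0) (nat_lit 383261596) (nat_lit 0) (nat_lit 386965535) (nat_lit 152) (nat_lit 383261596) (nat_lit 162) (nat_lit 3) (nat_lit 162) (nat_lit 1) (nat_lit 164) (nat_lit 1) (nat_lit 333) (nat_lit 311) (nat_lit 256)) (XT.lf (nat_lit 76) (nat_lit 364864610) (nat_lit 0) (nat_lit 368085426) (nat_lit 76) (nat_lit 368085426) (nat_lit 162)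 (nat_lit 3) (nat_lit 161) (nat_lit 1) (nat_lit 162) (nat_lit 1) (nat_lit 334) (nat_lit 311) (nat_lit 255)))))) (XT.nd (nat_lit 468) (nat_lit 456) (nat_lit 0) (XT.nd (nat_lit 234) (nat_lit 228) (nat_lit 0) (XT.nd (nat_lit 78) (nat_lit 76) (nat_lit 0) (XT.lf (nat_lit 152) (nat_lit 1051437620) (nat_lit 0) (nat_lit 848699) (nat_lit 76) (nat_lit 848699) (nat_lit 161) (nat_lit 1) (nat_lit 159) (nat_lit 1) (nat_lit 160) (nat_lit 1) (nat_lit 335) (nat_lit 311) (nat_lit 254)) (XT.nd (nat_lit 78) (nat_lit 76) (nat_lit 0) (XT.lf (nat_lit 0) (nat_lit 333621137) (nat_lit 0) (nat_lit 335738875) (nat_lit 152) (nat_lit 333621137) (nat_lit 159) (nat_lit 3) (nat_lit 159) (nat_lit 1) (nat_lit 161) (nat_lit 1) (nat_lit 336) (nat_lit 311) (nat_lit 253)) (XT.lf (nat_lit 76) (nat_lit 317898506) (nat_lit 0) (nat_lit 319740018) (nat_lit 76) (nat_lit 319740018) (nat_lit 159) (nat_lit 3) (nat_lit 158) (nat_lit 1) (nat_lit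 159) (nat_lit 1) (nat_lit 337) (nat_lit 311) (nat_lit 252)))) (XT.nd (nat_lit 78) (nat_lit 76) (nat_lit 0) (XT.lf (nat_lit 152) (nat_lit 914766121) (nat_lit 0) (nat_lit 485246) (nat_lit 76) (nat_lit 485246) (nat_lit 158) (nat_lit 1) (nat_lit 156) (nat_lit 1) (nat_lit 157) (nat_lit 1) (nat_lit 338) (nat_lit 311) (nat_lit 251)) (XT.nd (nat_lit 78) (nat_lit 76) (nat_lit 0) (XT.lf (nat_lit 0) (nat_lit 290305555) (nat_lit 0) (nat_lit 291516379) (nat_lit 152) (nat_lit 290305555) (nat_lit 156) (nat_lit 3) (nat_lit 156) (nat_lit 1) (nat_lit 158) (nat_lit 1) (nat_lit 339) (nat_lit 311) (nat_lit 250)) (XT.lf (nat_lit 76) (nat_lit 276790790) (nat_lit 0) (nat_lit 277843680) (nat_lit 76) (nat_lit 277843680) (nat_lit 156) (nat_lit 3) (nat_lit 155) (nat_lit 1) (nat_lit 156) (nat_lit 1) (nat_lit 340) (nat_lit 311) (nat_lit 249))))) (XT.nd (nat_lit 234) (nat_lit 228) (nat_lit 0) (XT.nd (nat_lit 78) (nat_lit 76)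 (nat_lit 0) (XT.lf (nat_lit 152) (nat_lit 795718976) (nat_lit 0) (nat_lit 277441) (nat_lit 76) (nat_lit 277441) (nat_lit 155) (nat_lit 1) (nat_lit 153) (nat_lit 1) (nat_lit 154) (nat_lit 1) (nat_lit 341) (nat_lit 311) (nat_lit 248)) (XT.nd (nat_lit 78) (nat_lit 76) (nat_lit 0) (XT.lf (nat_lit 0) (nat_lit 252554088) (nat_lit 0) (nat_lit 253246381) (nat_lit 152) (nat_lit 252554088) (nat_lit 153) (nat_lit 3) (nat_lit 153) (nat_lit 1) (nat_lit 155) (nat_lit 1) (nat_lit 342) (nat_lit 311) (nat_lit 247)) (XT.lf (nat_lit 76) (nat_lit 240891935) (nat_lit 0) (nat_lit 241493928) (nat_lit 76) (nat_lit 241493928) (nat_lit 153) (nat_lit 3) (nat_lit 152) (nat_lit 1) (nat_lit 153) (nat_lit 1) (nat_lit 343) (nat_lit 311) (nat_lit 246)))) (XT.nd (nat_lit 78) (nat_lit 76) (nat_lit 0) (XT.lf (nat_lit 152) (nat_lit 692084018) (nat_lit 0) (nat_lit 158628) (nat_lit 76) (nat_lit 158628) (nat_lit 152) (nat_lit 1) (nat_lit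 150) (nat_lit 1) (nat_lit 151) (nat_lit 1) (nat_lit 344) (nat_lit 311) (nat_lit 245)) (XT.nd (nat_lit 78) (nat_lit 76) (nat_lit 0) (XT.lf (nat_lit 0) (nat_lit 219677702) (nat_lit 0) (nat_lit 220073523) (nat_lit 152) (nat_lit 219677702) (nat_lit 150) (nat_lit 3) (nat_lit 150) (nat_lit 1) (nat_lit 152) (nat_lit 1) (nat_lit 345) (nat_lit 311) (nat_lit 244)) (XT.lf (nat_lit 76) (nat_lit 209588052) (nat_lit 0) (nat_lit 209932243) (nat_lit 76) (nat_lit 209932243) (nat_lit 150) (nat_lit 3) (nat_lit 149) (nat_lit 1) (nat_lit 150) (nat_lit 1) (nat_lit 346) (nat_lit 311) (nat_lit 243))))))))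
noncomputable def ec44 : XT := (XT.nd (nat_lit 1716) (nat_lit 228) (nat_lit 0) (XT.nd (nat_lit 858) (nat_lit 912) (nat_lit 0) (XT.nd (nat_lit 390) (nat_lit 456) (nat_lit 0) (XT.nd (nat_lit 156) (nat_lit 228) (nat_lit 0) (XT.nd (nat_lit 78) (nat_lit 0) (nat_lit 0) (XT.lf (nat_lit 152) (nat_lit 601900510) (nat_lit 0) (nat_lit 90696) (nat_lit 76) (nat_lit 90696) (nat_lit 149) (nat_lit 1) (nat_lit 147) (nat_lit 1) (nat_lit 148) (nat_lit 1) (nat_lit 347) (nat_lit 311) (nat_lit 242)) (XT.lf (nat_lit 0) (nat_lit 191061511) (nat_lit 0) (nat_lit 191287823) (nat_lit 152) (nat_lit 191061511) (nat_lit 147) (nat_lit 3) (nat_lit 147) (nat_lit 1) (nat_lit 149) (nat_lit 1) (nat_lit 348) (nat_lit 311) (nat_lit 241))) (XT.nd (nat_lit 78) (nat_lit 152) (nat_lit 0) (XT.lf (nat_lit 76) (nat_lit 182317263) (nat_lit 0) (nat_lit 182514055) (nat_lit 76) (nat_lit 182514055) (nat_lit 147) (nat_lit 3) (nat_lit 146) (nat_lit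 1) (nat_lit 147) (nat_lit 1) (nat_lit 349) (nat_lit 311) (nat_lit 240)) (XT.nd (nat_lit 78) (nat_lit 0) (nat_lit 0) (XT.lf (nat_lit 152) (nat_lit 523442246) (nat_lit 0) (nat_lit 51855) (nat_lit 76) (nat_lit 51855) (nat_lit 146) (nat_lit 1) (nat_lit 144) (nat_lit 1) (nat_lit 145) (nat_lit 1) (nat_lit 350) (nat_lit 311) (nat_lit 239)) (XT.lf (nat_lit 0) (nat_lit 166161841) (nat_lit 0) (nat_lit 166291235) (nat_lit 152) (nat_lit 166161841) (nat_lit 144) (nat_lit 3) (nat_lit 144) (nat_lit 1) (nat_lit 146) (nat_lit 1) (nat_lit 351) (nat_lit 311) (nat_lit 238))))) (XT.nd (nat_lit 234) (nat_lit 228) (nat_lit 0) (XT.nd (nat_lit 78) (nat_lit 152) (nat_lit 0) (XT.lf (nat_lit 76) (nat_lit 158574934) (nat_lit 0) (nat_lit 158687451) (nat_lit 76) (nat_lit 158687451) (nat_lit 144) (nat_lit 3) (nat_lit 143) (nat_lit 1) (nat_lit 144) (nat_lit 1) (nat_lit 352) (nat_lit 311) (nat_lit 237)) (XT.nd (nat_lit 78) (nat_lit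 0) (nat_lit 0) (XT.lf (nat_lit 152) (nat_lit 455196042) (nat_lit 0) (nat_lit 29648) (nat_lit 76) (nat_lit 29648) (nat_lit 143) (nat_lit 1) (nat_lit 141) (nat_lit 1) (nat_lit 142) (nat_lit 1) (nat_lit 353) (nat_lit 311) (nat_lit 236)) (XT.lf (nat_lit 0) (nat_lit 144500790) (nat_lit 0) (nat_lit 144574772) (nat_lit 152) (nat_lit 144500790) (nat_lit 141) (nat_lit 3) (nat_lit 141) (nat_lit 1) (nat_lit 143) (nat_lit 1) (nat_lit 354) (nat_lit 311) (nat_lit 235)))) (XT.nd (nat_lit 78) (nat_lit 152) (nat_lit 0) (XT.lf (nat_lit 76) (nat_lit 137913078) (nat_lit 0) (nat_lit 137977410) (nat_lit 76) (nat_lit 137977410) (nat_lit 141) (nat_lit 3) (nat_lit 140) (nat_lit 1) (nat_lit 141) (nat_lit 1) (nat_lit 355) (nat_lit 311) (nat_lit 234)) (XT.nd (nat_lit 78) (nat_lit 0) (nat_lit 0) (XT.lf (nat_lit 152) (nat_lit 395839153) (nat_lit 0) (nat_lit 16951) (nat_lit 76) (nat_lit 16951) (nat_lit 140) (nat_lit 1) (nat_lit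 138) (nat_lit 1) (nat_lit 139) (nat_lit 1) (nat_lit 356) (nat_lit 311) (nat_lit 233)) (XT.lf (nat_lit 0) (nat_lit 125659856) (nat_lit 0) (nat_lit 125702155) (nat_lit 152) (nat_lit 125659856) (nat_lit 138) (nat_lit 3) (nat_lit 138) (nat_lit 1) (nat_lit 140) (nat_lit 1) (nat_lit 357) (nat_lit 311) (nat_lit 232)))))) (XT.nd (nat_lit 390) (nat_lit 456) (nat_lit 0) (XT.nd (nat_lit 156) (nat_lit 228) (nat_lit 0) (XT.nd (nat_lit 78) (nat_lit 152) (nat_lit 0) (XT.lf (nat_lit 76) (nat_lit 119936898) (nat_lit 0) (nat_lit 119973680) (nat_lit 76) (nat_lit 119973680) (nat_lit 138) (nat_lit 3) (nat_lit 137) (nat_lit 1) (nat_lit 138) (nat_lit 1) (nat_lit 358) (nat_lit 311) (nat_lit 231)) (XT.lf (nat_lit 152) (nat_lit 344217398) (nat_lit 0) (nat_lit 9692) (nat_lit 76) (nat_lit 9692) (nat_lit 137) (nat_lit 1) (nat_lit 135) (nat_lit 1) (nat_lit 136) (nat_lit 1) (nat_lit 359) (nat_lit 311) (nat_lit 230))) (XT.nd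 (nat_lit 78) (nat_lit 228) (nat_lit 0) (XT.lf (nat_lit 0) (nat_lit 109273439) (nat_lit 0) (nat_lit 109297623) (nat_lit 152) (nat_lit 109273439) (nat_lit 135) (nat_lit 3) (nat_lit 135) (nat_lit 1) (nat_lit 137) (nat_lit 1) (nat_lit 360) (nat_lit 311) (nat_lit 229)) (XT.nd (nat_lit 78) (nat_lit 152) (nat_lit 0) (XT.lf (nat_lit 76) (nat_lit 104300091) (nat_lit 0) (nat_lit 104321122) (nat_lit 76) (nat_lit 104321122) (nat_lit 135) (nat_lit 3) (nat_lit 134) (nat_lit 1) (nat_lit 135) (nat_lit 1) (nat_lit 361) (nat_lit 311) (nat_lit 228)) (XT.lf (nat_lit 152) (nat_lit 299324873) (nat_lit 0) (nat_lit 5541) (nat_lit 76) (nat_lit 5541) (nat_lit 134) (nat_lit 1) (nat_lit 132) (nat_lit 1) (nat_lit 133) (nat_lit 1) (nat_lit 362) (nat_lit 311) (nat_lit 227))))) (XT.nd (nat_lit 234) (nat_lit 228) (nat_lit 0) (XT.nd (nat_lit 78) (nat_lit 228) (nat_lit 0) (XT.lf (nat_lit 0) (nat_lit 95022668) (nat_lit 0) (nat_lit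 95036496) (nat_lit 152) (nat_lit 95022668) (nat_lit 132) (nat_lit 3) (nat_lit 132) (nat_lit 1) (nat_lit 134) (nat_lit 1) (nat_lit 363) (nat_lit 311) (nat_lit 226)) (XT.nd (nat_lit 78) (nat_lit 152) (nat_lit 0) (XT.lf (nat_lit 76) (nat_lit 90699812) (nat_lit 0) (nat_lit 90711836) (nat_lit 76) (nat_lit 90711836) (nat_lit 132) (nat_lit 3) (nat_lit 131) (nat_lit 1) (nat_lit 132) (nat_lit 1) (nat_lit 364) (nat_lit 311) (nat_lit 225)) (XT.lf (nat_lit 152) (nat_lit 260285583) (nat_lit 0) (nat_lit 3168) (nat_lit 76) (nat_lit 3168) (nat_lit 131) (nat_lit 1) (nat_lit 129) (nat_lit 1) (nat_lit 130) (nat_lit 1) (nat_lit 365) (nat_lit 311) (nat_lit 224)))) (XT.nd (nat_lit 78) (nat_lit 228) (nat_lit 0) (XT.lf (nat_lit 0) (nat_lit 82629714) (nat_lit 0) (nat_lit 82637620) (nat_lit 152) (nat_lit 82629714) (nat_lit 129) (nat_lit 3) (nat_lit 129) (nat_lit 1) (nat_lit 131) (nat_lit 1) (nat_lit 366) (nat_lit 311) (nat_lit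 223)) (XT.nd (nat_lit 78) (nat_lit 152) (nat_lit 0) (XT.lf (nat_lit 76) (nat_lit 78871735) (nat_lit 0) (nat_lit 78878610) (nat_lit 76) (nat_lit 78878610) (nat_lit 129) (nat_lit 3) (nat_lit 128) (nat_lit 1) (nat_lit 129) (nat_lit 1) (nat_lit 367) (nat_lit 311) (nat_lit 222)) (XT.lf (nat_lit 152) (nat_lit 226337054) (nat_lit 0) (nat_lit 1811) (nat_lit 76) (nat_lit 1811) (nat_lit 128) (nat_lit 1) (nat_lit 126) (nat_lit 1) (nat_lit 127) (nat_lit 1) (nat_lit 368) (nat_lit 311) (nat_lit 221))))))) (XT.nd (nat_lit 40248) (nat_lit 0) (nat_lit 5700) (XT.nd (nat_lit 39780) (nat_lit 0) (nat_lit 6688) (XT.nd (nat_lit 156) (nat_lit 152) (nat_lit 0) (XT.nd (nat_lit 78) (nat_lit 76) (nat_lit 0) (XT.lf (nat_lit 0) (nat_lit 71852673) (nat_lit 0) (nat_lit 71857193) (nat_lit 152) (nat_lit 71852673) (nat_lit 126) (nat_lit 3) (nat_lit 126) (nat_lit 1) (nat_lit 128) (nat_lit 1) (nat_lit 369) (nat_lit 311) (nat_lit 220))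 (XT.lf (nat_lit 76) (nat_lit 68585451) (nat_lit 0) (nat_lit 68589382) (nat_lit 76) (nat_lit 68589382) (nat_lit 126) (nat_lit 3) (nat_lit 125) (nat_lit 1) (nat_lit 126) (nat_lit 1) (nat_lit 370) (nat_lit 311) (nat_lit 219))) (XT.nd (nat_lit 39468) (nat_lit 0) (nat_lit 6992) (XT.lf (nat_lit 152) (nat_lit 196815838) (nat_lit 0) (nat_lit 1035) (nat_lit 76) (nat_lit 1035) (nat_lit 125) (nat_lit 1) (nat_lit 123) (nat_lit 1) (nat_lit 124) (nat_lit 1) (nat_lit 371) (nat_lit 311) (nat_lit 218)) (XT.nd (nat_lit 78) (nat_lit 0) (nat_lit 0) (XT.lf (nat_lit 380) (nat_lit 3754036771) (nat_lit 0) (nat_lit 3325042761) (nat_lit 380) (nat_lit 3754036771) (nat_lit 220) (nat_lit 1) (nat_lit 215) (nat_lit 0) (nat_lit 220) (nat_lit 0) (nat_lit 276) (nat_lit 312) (nat_lit 312)) (XT.lf (nat_lit 380) (nat_lit 13885694839) (nat_lit 76) (nat_lit 3173904453) (nat_lit 0) (nat_lit 3173904453) (nat_lit 220) (nat_lit 1) (nat_lit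 216) (nat_lit 1) (nat_lit 215) (nat_lit 0) (nat_lit 277) (nat_lit 312) (nat_lit 311))))) (XT.nd (nat_lit 234) (nat_lit 380) (nat_lit 0) (XT.nd (nat_lit 78) (nat_lit 0) (nat_lit 0) (XT.lf (nat_lit 380) (nat_lit 6120734660) (nat_lit 0) (nat_lit 6659936689) (nat_lit 304) (nat_lit 6120734660) (nat_lit 221) (nat_lit 1) (nat_lit 216) (nat_lit 1) (nat_lit 220) (nat_lit 1) (nat_lit 278) (nat_lit 312) (nat_lit 310)) (XT.nd (nat_lit 78) (nat_lit 0) (nat_lit 76) (XT.lf (nat_lit 380) (nat_lit 10508983605) (nat_lit 76) (nat_lit 3597295378) (nat_lit 0) (nat_lit 3597295378) (nat_lit 221) (nat_lit 1) (nat_lit 217) (nat_lit 1) (nat_lit 216) (nat_lit 1) (nat_lit 279) (nat_lit 312) (nat_lit 309)) (XT.lf (nat_lit 76) (nat_lit 4251023248) (nat_lit 0) (nat_lit 8094661936) (nat_lit 304) (nat_lit 4251023248) (nat_lit 218) (nat_lit 1) (nat_lit 217) (nat_lit 1) (nat_lit 221) (nat_lit 1) (nat_lit 280) (nat_lit 312) (nat_lit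 308)))) (XT.nd (nat_lit 78) (nat_lit 152) (nat_lit 0) (XT.lf (nat_lit 380) (nat_lit 6388944615) (nat_lit 0) (nat_lit 4598639820) (nat_lit 304) (nat_lit 4598639820) (nat_lit 218) (nat_lit 1) (nat_lit 213) (nat_lit 1) (nat_lit 217) (nat_lit 1) (nat_lit 281) (nat_lit 312) (nat_lit 307)) (XT.nd (nat_lit 78) (nat_lit 152) (nat_lit 0) (XT.lf (nat_lit 76) (nat_lit 2123614630) (nat_lit 0) (nat_lit 10420630215) (nat_lit 380) (nat_lit 2123614630) (nat_lit 214) (nat_lit 1) (nat_lit 213) (nat_lit 1) (nat_lit 218) (nat_lit 1) (nat_lit 282) (nat_lit 312) (nat_lit 306)) (XT.lf (nat_lit 228) (nat_lit 1911203071) (nat_lit 0) (nat_lit 5948147971) (nat_lit 152) (nat_lit 5948147971) (nat_lit 214) (nat_lit 1) (nat_lit 211) (nat_lit 1) (nat_lit 213) (nat_lit 1) (nat_lit 283) (nat_lit 312) (nat_lit 305)))))) (XT.nd (nat_lit 390) (nat_lit 532) (nat_lit 0) (XT.nd (nat_lit 156) (nat_lit 228) (nat_lit 0) (XT.nd (nat_lit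 78) (nat_lit 0) (nat_lit 0) (XT.lf (nat_lit 228) (nat_lit 12843260595) (nat_lit 0) (nat_lit 100768365) (nat_lit 152) (nat_lit 100768365) (nat_lit 211) (nat_lit 1) (nat_lit 208) (nat_lit 1) (nat_lit 210) (nat_lit 1) (nat_lit 284) (nat_lit 312) (nat_lit 304)) (XT.lf (nat_lit 76) (nat_lit 4934462811) (nat_lit 0) (nat_lit 2422558580) (nat_lit 228) (nat_lit 4934462811) (nat_lit 209) (nat_lit 1) (nat_lit 208) (nat_lit 1) (nat_lit 211) (nat_lit 1) (nat_lit 285) (nat_lit 312) (nat_lit 303))) (XT.nd (nat_lit 78) (nat_lit 76) (nat_lit 0) (XT.lf (nat_lit 228) (nat_lit 7172431088) (nat_lit 0) (nat_lit 2224817616) (nat_lit 152) (nat_lit 2224817616) (nat_lit 209) (nat_lit 1) (nat_lit 206) (nat_lit 1) (nat_lit 208) (nat_lit 1) (nat_lit 286) (nat_lit 312) (nat_lit 302)) (XT.nd (nat_lit 78) (nat_lit 76) (nat_lit 0) (XT.lf (nat_lit 76) (nat_lit 2243054447) (nat_lit 0) (nat_lit 6509305657) (nat_lit 228) (nat_lit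 2243054447) (nat_lit 207) (nat_lit 1) (nat_lit 206) (nat_lit 1) (nat_lit 209) (nat_lit 1) (nat_lit 287) (nat_lit 312) (nat_lit 301)) (XT.lf (nat_lit 152) (nat_lit 1854299021) (nat_lit 0) (nat_lit 4278804113) (nat_lit 76) (nat_lit 4278804113) (nat_lit 207) (nat_lit 1) (nat_lit 205) (nat_lit 1) (nat_lit 206) (nat_lit 1) (nat_lit 288) (nat_lit 312) (nat_lit 300))))) (XT.nd (nat_lit 234) (nat_lit 228) (nat_lit 0) (XT.nd (nat_lit 78) (nat_lit 76) (nat_lit 0) (XT.lf (nat_lit 228) (nat_lit 9387551648) (nat_lit 0) (nat_lit 249389917) (nat_lit 152) (nat_lit 249389917) (nat_lit 205) (nat_lit 1) (nat_lit 202) (nat_lit 1) (nat_lit 204) (nat_lit 1) (nat_lit 289) (nat_lit 312) (nat_lit 299)) (XT.nd (nat_lit 78) (nat_lit 76) (nat_lit 0) (XT.lf (nat_lit 76) (nat_lit 3285441174) (nat_lit 0) (nat_lit 2790103838) (nat_lit 228) (nat_lit 3285441174) (nat_lit 203) (nat_lit 1) (nat_lit 202) (nat_lit 1) (nat_lit 205)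 (nat_lit 1) (nat_lit 290) (nat_lit 312) (nat_lit 298)) (XT.lf (nat_lit 152) (nat_lit 3994781795) (nat_lit 0) (nat_lit 2446420139) (nat_lit 76) (nat_lit 2446420139) (nat_lit 203) (nat_lit 1) (nat_lit 201) (nat_lit 1) (nat_lit 202) (nat_lit 1) (nat_lit 291) (nat_lit 312) (nat_lit 297)))) (XT.nd (nat_lit 78) (nat_lit 228) (nat_lit 0) (XT.lf (nat_lit 0) (nat_lit 782233326) (nat_lit 0) (nat_lit 6886722142) (nat_lit 152) (nat_lit 782233326) (nat_lit 201) (nat_lit 3) (nat_lit 201) (nat_lit 1) (nat_lit 203) (nat_lit 1) (nat_lit 292) (nat_lit 312) (nat_lit 296)) (XT.nd (nat_lit 78) (nat_lit 76) (nat_lit 0) (XT.lf (nat_lit 76) (nat_lit 3620172536) (nat_lit 0) (nat_lit 785152840) (nat_lit 152) (nat_lit 3620172536) (nat_lit 200) (nat_lit 1) (nat_lit 199) (nat_lit 1) (nat_lit 201) (nat_lit 1) (nat_lit 293) (nat_lit 312) (nat_lit 295)) (XT.lf (nat_lit 152) (nat_lit 4835838423) (nat_lit 0) (nat_lit 1398748654)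 (nat_lit 76) (nat_lit 1398748654) (nat_lit 200) (nat_lit 1) (nat_lit 198) (nat_lit 1) (nat_lit 199) (nat_lit 1) (nat_lit 294) (nat_lit 312) (nat_lit 294))))))))
noncomputable def ec45 : XT := (XT.nd (nat_lit 1716) (nat_lit 1824) (nat_lit 0) (XT.nd (nat_lit 858) (nat_lit 836) (nat_lit 0) (XT.nd (nat_lit 390) (nat_lit 456) (nat_lit 0) (XT.nd (nat_lit 156) (nat_lit 228) (nat_lit 0) (XT.nd (nat_lit 78) (nat_lit 76) (nat_lit 0) (XT.lf (nat_lit 0) (nat_lit 1257342528) (nat_lit 0) (nat_lit 4747603821) (nat_lit 152) (nat_lit 1257342528) (nat_lit 198) (nat_lit 3) (nat_lit 198) (nat_lit 1) (nat_lit 200) (nat_lit 1) (nat_lit 295) (nat_lit 312) (nat_lit 293)) (XT.lf (nat_lit 76) (nat_lit 280490649) (nat_lit 0) (nat_lit 3315500469) (nat_lit 76) (nat_lit 3315500469) (nat_lit 198) (nat_lit 3) (nat_lit 197) (nat_lit 1) (nat_lit 198) (nat_lit 1) (nat_lit 296) (nat_lit 312) (nat_lit 292))) (XT.nd (nat_lit 78) (nat_lit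 76) (nat_lit 0) (XT.lf (nat_lit 152) (nat_lit 4983870632) (nat_lit 0) (nat_lit 799739083) (nat_lit 76) (nat_lit 799739083) (nat_lit 197) (nat_lit 1) (nat_lit 195) (nat_lit 1) (nat_lit 196) (nat_lit 1) (nat_lit 297) (nat_lit 312) (nat_lit 291)) (XT.nd (nat_lit 78) (nat_lit 76) (nat_lit 0) (XT.lf (nat_lit 0) (nat_lit 1423322788) (nat_lit 0) (nat_lit 3418891010) (nat_lit 152) (nat_lit 1423322788) (nat_lit 195) (nat_lit 3) (nat_lit 195) (nat_lit 1) (nat_lit 197) (nat_lit 1) (nat_lit 298) (nat_lit 312) (nat_lit 290)) (XT.lf (nat_lit 76) (nat_lit 832784869) (nat_lit 0) (nat_lit 2568061584) (nat_lit 76) (nat_lit 2568061584) (nat_lit 195) (nat_lit 3) (nat_lit 194) (nat_lit 1) (nat_lit 195) (nat_lit 1) (nat_lit 299) (nat_lit 312) (nat_lit 289))))) (XT.nd (nat_lit 234) (nat_lit 228) (nat_lit 0) (XT.nd (nat_lit 78) (nat_lit 76) (nat_lit 0) (XT.lf (nat_lit 152) (nat_lit 4779078400) (nat_lit 0) (nat_lit 457253416)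 (nat_lit 76) (nat_lit 457253416) (nat_lit 194) (nat_lit 1) (nat_lit 192) (nat_lit 1) (nat_lit 193) (nat_lit 1) (nat_lit 300) (nat_lit 312) (nat_lit 288)) (XT.nd (nat_lit 78) (nat_lit 76) (nat_lit 0) (XT.lf (nat_lit 0) (nat_lit 1426339960) (nat_lit 0) (nat_lit 2567312568) (nat_lit 152) (nat_lit 1426339960) (nat_lit 192) (nat_lit 3) (nat_lit 192) (nat_lit 1) (nat_lit 194) (nat_lit 1) (nat_lit 301) (nat_lit 312) (nat_lit 287)) (XT.lf (nat_lit 76) (nat_lit 1060854782) (nat_lit 0) (nat_lit 2053004876) (nat_lit 76) (nat_lit 2053004876) (nat_lit 192) (nat_lit 3) (nat_lit 191) (nat_lit 1) (nat_lit 192) (nat_lit 1) (nat_lit 302) (nat_lit 312) (nat_lit 286)))) (XT.nd (nat_lit 78) (nat_lit 76) (nat_lit 0) (XT.lf (nat_lit 152) (nat_lit 4410309404) (nat_lit 0) (nat_lit 261436124) (nat_lit 76) (nat_lit 261436124) (nat_lit 191) (nat_lit 1) (nat_lit 189) (nat_lit 1) (nat_lit 190) (nat_lit 1) (nat_lit 303) (nat_lit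 312) (nat_lit 285)) (XT.nd (nat_lit 78) (nat_lit 76) (nat_lit 0) (XT.lf (nat_lit 0) (nat_lit 1348167142) (nat_lit 0) (nat_lit 2000521933) (nat_lit 152) (nat_lit 1348167142) (nat_lit 189) (nat_lit 3) (nat_lit 189) (nat_lit 1) (nat_lit 191) (nat_lit 1) (nat_lit 304) (nat_lit 312) (nat_lit 284)) (XT.lf (nat_lit 76) (nat_lit 1114988321) (nat_lit 0) (nat_lit 1682253357) (nat_lit 76) (nat_lit 1682253357) (nat_lit 189) (nat_lit 3) (nat_lit 188) (nat_lit 1) (nat_lit 189) (nat_lit 1) (nat_lit 305) (nat_lit 312) (nat_lit 283)))))) (XT.nd (nat_lit 390) (nat_lit 456) (nat_lit 0) (XT.nd (nat_lit 156) (nat_lit 228) (nat_lit 0) (XT.nd (nat_lit 78) (nat_lit 0) (nat_lit 0) (XT.lf (nat_lit 152) (nat_lit 3980613774) (nat_lit 0) (nat_lit 149476952) (nat_lit 76) (nat_lit 149476952) (nat_lit 188) (nat_lit 1) (nat_lit 186) (nat_lit 1) (nat_lit 187) (nat_lit 1) (nat_lit 306) (nat_lit 312) (nat_lit 282)) (XT.lf (nat_lit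 0) (nat_lit 1233995148) (nat_lit 0) (nat_lit 1606981117) (nat_lit 152) (nat_lit 1233995148) (nat_lit 186) (nat_lit 3) (nat_lit 186) (nat_lit 1) (nat_lit 188) (nat_lit 1) (nat_lit 307) (nat_lit 312) (nat_lit 281))) (XT.nd (nat_lit 78) (nat_lit 152) (nat_lit 0) (XT.lf (nat_lit 76) (nat_lit 1079620936) (nat_lit 0) (nat_lit 1403956562) (nat_lit 76) (nat_lit 1403956562) (nat_lit 186) (nat_lit 3) (nat_lit 185) (nat_lit 1) (nat_lit 186) (nat_lit 1) (nat_lit 308) (nat_lit 312) (nat_lit 280)) (XT.nd (nat_lit 78) (nat_lit 0) (nat_lit 0) (XT.lf (nat_lit 152) (nat_lit 3544628896) (nat_lit 0) (nat_lit 85463932) (nat_lit 76) (nat_lit 85463932) (nat_lit 185) (nat_lit 1) (nat_lit 183) (nat_lit 1) (nat_lit 184) (nat_lit 1) (nat_lit 309) (nat_lit 312) (nat_lit 279)) (XT.lf (nat_lit 0) (nat_lit 1108302652) (nat_lit 0) (nat_lit 1321558590) (nat_lit 152) (nat_lit 1108302652) (nat_lit 183) (nat_lit 3) (nat_lit 183)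 (nat_lit 1) (nat_lit 185) (nat_lit 1) (nat_lit 310) (nat_lit 312) (nat_lit 278))))) (XT.nd (nat_lit 234) (nat_lit 228) (nat_lit 0) (XT.nd (nat_lit 78) (nat_lit 152) (nat_lit 0) (XT.lf (nat_lit 76) (nat_lit 1001731335) (nat_lit 0) (nat_lit 1187171282) (nat_lit 76) (nat_lit 1187171282) (nat_lit 183) (nat_lit 3) (nat_lit 182) (nat_lit 1) (nat_lit 183) (nat_lit 1) (nat_lit 311) (nat_lit 312) (nat_lit 277)) (XT.nd (nat_lit 78) (nat_lit 0) (nat_lit 0) (XT.lf (nat_lit 152) (nat_lit 3129870511) (nat_lit 0) (nat_lit 48864281) (nat_lit 76) (nat_lit 48864281) (nat_lit 182) (nat_lit 1) (nat_lit 180) (nat_lit 1) (nat_lit 181) (nat_lit 1) (nat_lit 312) (nat_lit 312) (nat_lit 276)) (XT.lf (nat_lit 0) (nat_lit 983903395) (nat_lit 0) (nat_lit 1105833170) (nat_lit 152) (nat_lit 983903395) (nat_lit 180) (nat_lit 3) (nat_lit 180) (nat_lit 1) (nat_lit 182) (nat_lit 1) (nat_lit 313) (nat_lit 312) (nat_lit 275)))) (XT.nd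 (nat_lit 78) (nat_lit 152) (nat_lit 0) (XT.lf (nat_lit 76) (nat_lit 907051456) (nat_lit 0) (nat_lit 1013077347) (nat_lit 76) (nat_lit 1013077347) (nat_lit 180) (nat_lit 3) (nat_lit 179) (nat_lit 1) (nat_lit 180) (nat_lit 1) (nat_lit 314) (nat_lit 312) (nat_lit 274)) (XT.nd (nat_lit 78) (nat_lit 0) (nat_lit 0) (XT.lf (nat_lit 152) (nat_lit 2748833132) (nat_lit 0) (nat_lit 27938311) (nat_lit 76) (nat_lit 27938311) (nat_lit 179) (nat_lit 1) (nat_lit 177) (nat_lit 1) (nat_lit 178) (nat_lit 1) (nat_lit 315) (nat_lit 312) (nat_lit 273)) (XT.lf (nat_lit 0) (nat_lit 867095835) (nat_lit 0) (nat_lit 936809580) (nat_lit 152) (nat_lit 867095835) (nat_lit 177) (nat_lit 3) (nat_lit 177) (nat_lit 1) (nat_lit 179) (nat_lit 1) (nat_lit 316) (nat_lit 312) (nat_lit 272))))))) (XT.nd (nat_lit 858) (nat_lit 912) (nat_lit 0) (XT.nd (nat_lit 390) (nat_lit 456) (nat_lit 0) (XT.nd (nat_lit 156) (nat_lit 228) (nat_lit 0)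 (XT.nd (nat_lit 78) (nat_lit 152) (nat_lit 0) (XT.lf (nat_lit 76) (nat_lit 809312495) (nat_lit 0) (nat_lit 869933143) (nat_lit 76) (nat_lit 869933143) (nat_lit 177) (nat_lit 3) (nat_lit 176) (nat_lit 1) (nat_lit 177) (nat_lit 1) (nat_lit 317) (nat_lit 312) (nat_lit 271)) (XT.lf (nat_lit 152) (nat_lit 2405845143) (nat_lit 0) (nat_lit 15973820) (nat_lit 76) (nat_lit 15973820) (nat_lit 176) (nat_lit 1) (nat_lit 174) (nat_lit 1) (nat_lit 175) (nat_lit 1) (nat_lit 318) (nat_lit 312) (nat_lit 270))) (XT.nd (nat_lit 78) (nat_lit 228) (nat_lit 0) (XT.lf (nat_lit 0) (nat_lit 760587359) (nat_lit 0) (nat_lit 800446419) (nat_lit 152) (nat_lit 760587359) (nat_lit 174) (nat_lit 3) (nat_lit 174) (nat_lit 1) (nat_lit 176) (nat_lit 1) (nat_lit 319) (nat_lit 312) (nat_lit 269)) (XT.nd (nat_lit 78) (nat_lit 152) (nat_lit 0) (XT.lf (nat_lit 76) (nat_lit 715512160) (nat_lit 0) (nat_lit 750172212) (nat_lit 76) (nat_lit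 750172212) (nat_lit 174) (nat_lit 3) (nat_lit 173) (nat_lit 1) (nat_lit 174) (nat_lit 1) (nat_lit 320) (nat_lit 312) (nat_lit 268)) (XT.lf (nat_lit 152) (nat_lit 2100933140) (nat_lit 0) (nat_lit 9133083) (nat_lit 76) (nat_lit 9133083) (nat_lit 173) (nat_lit 1) (nat_lit 171) (nat_lit 1) (nat_lit 172) (nat_lit 1) (nat_lit 321) (nat_lit 312) (nat_lit 267))))) (XT.nd (nat_lit 234) (nat_lit 228) (nat_lit 0) (XT.nd (nat_lit 78) (nat_lit 228) (nat_lit 0) (XT.lf (nat_lit 0) (nat_lit 665148726) (nat_lit 0) (nat_lit 687938273) (nat_lit 152) (nat_lit 665148726) (nat_lit 171) (nat_lit 3) (nat_lit 171) (nat_lit 1) (nat_lit 173) (nat_lit 1) (nat_lit 322) (nat_lit 312) (nat_lit 266)) (XT.nd (nat_lit 78) (nat_lit 152) (nat_lit 0) (XT.lf (nat_lit 76) (nat_lit 628909543) (nat_lit 0) (nat_lit 648726540) (nat_lit 76) (nat_lit 648726540) (nat_lit 171) (nat_lit 3) (nat_lit 170) (nat_lit 1) (nat_lit 171) (nat_lit 1)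 (nat_lit 323) (nat_lit 312) (nat_lit 265)) (XT.lf (nat_lit 152) (nat_lit 1831983491) (nat_lit 0) (nat_lit 5221870) (nat_lit 76) (nat_lit 5221870) (nat_lit 170) (nat_lit 1) (nat_lit 168) (nat_lit 1) (nat_lit 169) (nat_lit 1) (nat_lit 324) (nat_lit 312) (nat_lit 264)))) (XT.nd (nat_lit 78) (nat_lit 228) (nat_lit 0) (XT.lf (nat_lit 0) (nat_lit 580544800) (nat_lit 0) (nat_lit 593574797) (nat_lit 152) (nat_lit 580544800) (nat_lit 168) (nat_lit 3) (nat_lit 168) (nat_lit 1) (nat_lit 170) (nat_lit 1) (nat_lit 325) (nat_lit 312) (nat_lit 263)) (XT.nd (nat_lit 78) (nat_lit 152) (nat_lit 0) (XT.lf (nat_lit 76) (nat_lit 550722935) (nat_lit 0) (nat_lit 562053368) (nat_lit 76) (nat_lit 562053368) (nat_lit 168) (nat_lit 3) (nat_lit 167) (nat_lit 1) (nat_lit 168) (nat_lit 1) (nat_lit 326) (nat_lit 312) (nat_lit 262)) (XT.lf (nat_lit 152) (nat_lit 1595936550) (nat_lit 0) (nat_lit 2985621) (nat_lit 76) (nat_lit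 2985621) (nat_lit 167) (nat_lit 1) (nat_lit 165) (nat_lit 1) (nat_lit 166) (nat_lit 1) (nat_lit 327) (nat_lit 312) (nat_lit 261)))))) (XT.nd (nat_lit 468) (nat_lit 456) (nat_lit 0) (XT.nd (nat_lit 234) (nat_lit 228) (nat_lit 0) (XT.nd (nat_lit 78) (nat_lit 228) (nat_lit 0) (XT.lf (nat_lit 0) (nat_lit 506053466) (nat_lit 0) (nat_lit 513503410) (nat_lit 152) (nat_lit 506053466) (nat_lit 165) (nat_lit 3) (nat_lit 165) (nat_lit 1) (nat_lit 167) (nat_lit 1) (nat_lit 328) (nat_lit 312) (nat_lit 260)) (XT.nd (nat_lit 78) (nat_lit 152) (nat_lit 0) (XT.lf (nat_lit 76) (nat_lit 481087942) (nat_lit 0) (nat_lit 487566153) (nat_lit 76) (nat_lit 487566153) (nat_lit 165) (nat_lit 3) (nat_lit 164) (nat_lit 1) (nat_lit 165) (nat_lit 1) (nat_lit 329) (nat_lit 312) (nat_lit 259)) (XT.lf (nat_lit 152) (nat_lit 1389433244) (nat_lit 0) (nat_lit 1707038) (nat_lit 76) (nat_lit 1707038) (nat_lit 164) (nat_lit 1) (nat_lit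 162) (nat_lit 1) (nat_lit 163) (nat_lit 1) (nat_lit 330) (nat_lit 312) (nat_lit 258)))) (XT.nd (nat_lit 78) (nat_lit 228) (nat_lit 0) (XT.lf (nat_lit 0) (nat_lit 440750836) (nat_lit 0) (nat_lit 445010365) (nat_lit 152) (nat_lit 440750836) (nat_lit 162) (nat_lit 3) (nat_lit 162) (nat_lit 1) (nat_lit 164) (nat_lit 1) (nat_lit 331) (nat_lit 312) (nat_lit 257)) (XT.nd (nat_lit 78) (nat_lit 152) (nat_lit 0) (XT.lf (nat_lit 76) (nat_lit 419594301) (nat_lit 0) (nat_lit 423298240) (nat_lit 76) (nat_lit 423298240) (nat_lit 162) (nat_lit 3) (nat_lit 161) (nat_lit 1) (nat_lit 162) (nat_lit 1) (nat_lit 332) (nat_lit 312) (nat_lit 256)) (XT.lf (nat_lit 152) (nat_lit 1209153264) (nat_lit 0) (nat_lit 976004) (nat_lit 76) (nat_lit 976004) (nat_lit 161) (nat_lit 1) (nat_lit 159) (nat_lit 1) (nat_lit 160) (nat_lit 1) (nat_lit 333) (nat_lit 312) (nat_lit 255))))) (XT.nd (nat_lit 234) (nat_lit 228) (nat_lit 0) (XT.nd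 (nat_lit 78) (nat_lit 228) (nat_lit 0) (XT.lf (nat_lit 0) (nat_lit 383664307) (nat_lit 0) (nat_lit 386099707) (nat_lit 152) (nat_lit 383664307) (nat_lit 159) (nat_lit 3) (nat_lit 159) (nat_lit 1) (nat_lit 161) (nat_lit 1) (nat_lit 334) (nat_lit 312) (nat_lit 254)) (XT.nd (nat_lit 78) (nat_lit 152) (nat_lit 0) (XT.lf (nat_lit 76) (nat_lit 365583281) (nat_lit 0) (nat_lit 367701020) (nat_lit 76) (nat_lit 367701020) (nat_lit 159) (nat_lit 3) (nat_lit 158) (nat_lit 1) (nat_lit 159) (nat_lit 1) (nat_lit 335) (nat_lit 312) (nat_lit 253)) (XT.lf (nat_lit 152) (nat_lit 1051981039) (nat_lit 0) (nat_lit 558033) (nat_lit 76) (nat_lit 558033) (nat_lit 158) (nat_lit 1) (nat_lit 156) (nat_lit 1) (nat_lit 157) (nat_lit 1) (nat_lit 336) (nat_lit 312) (nat_lit 252)))) (XT.nd (nat_lit 78) (nat_lit 228) (nat_lit 0) (XT.lf (nat_lit 0) (nat_lit 333851388) (nat_lit 0) (nat_lit 335243835) (nat_lit 152) (nat_lit 333851388)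 (nat_lit 156) (nat_lit 3) (nat_lit 156) (nat_lit 1) (nat_lit 158) (nat_lit 1) (nat_lit 337) (nat_lit 312) (nat_lit 251)) (XT.nd (nat_lit 78) (nat_lit 152) (nat_lit 0) (XT.lf (nat_lit 76) (nat_lit 318309408) (nat_lit 0) (nat_lit 319520232) (nat_lit 76) (nat_lit 319520232) (nat_lit 156) (nat_lit 3) (nat_lit 155) (nat_lit 1) (nat_lit 156) (nat_lit 1) (nat_lit 338) (nat_lit 312) (nat_lit 250)) (XT.lf (nat_lit 152) (nat_lit 915076823) (nat_lit 0) (nat_lit 319057) (nat_lit 76) (nat_lit 319057) (nat_lit 155) (nat_lit 1) (nat_lit 153) (nat_lit 1) (nat_lit 154) (nat_lit 1) (nat_lit 339) (nat_lit 312) (nat_lit 249))))))))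
noncomputable def ec46 : XT := (XT.nd (nat_lit 1716) (nat_lit 760) (nat_lit 0) (XT.nd (nat_lit 858) (nat_lit 836) (nat_lit 0) (XT.nd (nat_lit 390) (nat_lit 456) (nat_lit 0) (XT.nd (nat_lit 156) (nat_lit 228) (nat_lit 0) (XT.nd (nat_lit 78) (nat_lit 76) (nat_lit 0) (XT.lf (nat_lit 0) (nat_lit 290437201) (nat_lit 0) (nat_lit 291233338) (nat_lit 152) (nat_lit 290437201) (nat_lit 153) (nat_lit 3) (nat_lit 153) (nat_lit 1) (nat_lit 155) (nat_lit 1) (nat_lit 340) (nat_lit 312) (nat_lit 248)) (XT.lf (nat_lit 76) (nat_lit 277025725) (nat_lit 0) (nat_lit 277718017) (nat_lit 76) (nat_lit 277718017) (nat_lit 153) (nat_lit 3) (nat_lit 152) (nat_lit 1) (nat_lit 153) (nat_lit 1) (nat_lit 341) (nat_lit 312) (nat_lit 247))) (XT.nd (nat_lit 78) (nat_lit 76) (nat_lit 0) (XT.lf (nat_lit 152) (nat_lit 795896621) (nat_lit 0) (nat_lit 182422) (nat_lit 76) (nat_lit 182422) (nat_lit 152) (nat_lit 1) (nat_lit 150) (nat_lit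 1) (nat_lit 151) (nat_lit 1) (nat_lit 342) (nat_lit 312) (nat_lit 246)) (XT.nd (nat_lit 78) (nat_lit 76) (nat_lit 0) (XT.lf (nat_lit 0) (nat_lit 252629358) (nat_lit 0) (nat_lit 253084551) (nat_lit 152) (nat_lit 252629358) (nat_lit 150) (nat_lit 3) (nat_lit 150) (nat_lit 1) (nat_lit 152) (nat_lit 1) (nat_lit 343) (nat_lit 312) (nat_lit 245)) (XT.lf (nat_lit 76) (nat_lit 241026259) (nat_lit 0) (nat_lit 241422080) (nat_lit 76) (nat_lit 241422080) (nat_lit 150) (nat_lit 3) (nat_lit 149) (nat_lit 1) (nat_lit 150) (nat_lit 1) (nat_lit 344) (nat_lit 312) (nat_lit 244))))) (XT.nd (nat_lit 234) (nat_lit 228) (nat_lit 0) (XT.nd (nat_lit 78) (nat_lit 76) (nat_lit 0) (XT.lf (nat_lit 152) (nat_lit 692185587) (nat_lit 0) (nat_lit 104300) (nat_lit 76) (nat_lit 104300) (nat_lit 149) (nat_lit 1) (nat_lit 147) (nat_lit 1) (nat_lit 148) (nat_lit 1) (nat_lit 345) (nat_lit 312) (nat_lit 243)) (XT.nd (nat_lit 78) (nat_lit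 76) (nat_lit 0) (XT.lf (nat_lit 0) (nat_lit 219720738) (nat_lit 0) (nat_lit 219980996) (nat_lit 152) (nat_lit 219720738) (nat_lit 147) (nat_lit 3) (nat_lit 147) (nat_lit 1) (nat_lit 149) (nat_lit 1) (nat_lit 346) (nat_lit 312) (nat_lit 242)) (XT.lf (nat_lit 76) (nat_lit 209664852) (nat_lit 0) (nat_lit 209891164) (nat_lit 76) (nat_lit 209891164) (nat_lit 147) (nat_lit 3) (nat_lit 146) (nat_lit 1) (nat_lit 147) (nat_lit 1) (nat_lit 347) (nat_lit 312) (nat_lit 241)))) (XT.nd (nat_lit 78) (nat_lit 76) (nat_lit 0) (XT.lf (nat_lit 152) (nat_lit 601958583) (nat_lit 0) (nat_lit 59634) (nat_lit 76) (nat_lit 59634) (nat_lit 146) (nat_lit 1) (nat_lit 144) (nat_lit 1) (nat_lit 145) (nat_lit 1) (nat_lit 348) (nat_lit 312) (nat_lit 240)) (XT.nd (nat_lit 78) (nat_lit 76) (nat_lit 0) (XT.lf (nat_lit 0) (nat_lit 191086117) (nat_lit 0) (nat_lit 191234920) (nat_lit 152) (nat_lit 191086117) (nat_lit 144) (nat_lit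 3) (nat_lit 144) (nat_lit 1) (nat_lit 146) (nat_lit 1) (nat_lit 349) (nat_lit 312) (nat_lit 239)) (XT.lf (nat_lit 76) (nat_lit 182361174) (nat_lit 0) (nat_lit 182490568) (nat_lit 76) (nat_lit 182490568) (nat_lit 144) (nat_lit 3) (nat_lit 143) (nat_lit 1) (nat_lit 144) (nat_lit 1) (nat_lit 350) (nat_lit 312) (nat_lit 238)))))) (XT.nd (nat_lit 390) (nat_lit 456) (nat_lit 0) (XT.nd (nat_lit 156) (nat_lit 228) (nat_lit 0) (XT.nd (nat_lit 78) (nat_lit 0) (nat_lit 0) (XT.lf (nat_lit 152) (nat_lit 523475449) (nat_lit 0) (nat_lit 34096) (nat_lit 76) (nat_lit 34096) (nat_lit 143) (nat_lit 1) (nat_lit 141) (nat_lit 1) (nat_lit 142) (nat_lit 1) (nat_lit 351) (nat_lit 312) (nat_lit 237)) (XT.lf (nat_lit 0) (nat_lit 166175909) (nat_lit 0) (nat_lit 166260988) (nat_lit 152) (nat_lit 166175909) (nat_lit 141) (nat_lit 3) (nat_lit 141) (nat_lit 1) (nat_lit 143) (nat_lit 1) (nat_lit 352) (nat_lit 312) (nat_lit 236)))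 (XT.nd (nat_lit 78) (nat_lit 152) (nat_lit 0) (XT.lf (nat_lit 76) (nat_lit 158600040) (nat_lit 0) (nat_lit 158674022) (nat_lit 76) (nat_lit 158674022) (nat_lit 141) (nat_lit 3) (nat_lit 140) (nat_lit 1) (nat_lit 141) (nat_lit 1) (nat_lit 353) (nat_lit 312) (nat_lit 235)) (XT.nd (nat_lit 78) (nat_lit 0) (nat_lit 0) (XT.lf (nat_lit 152) (nat_lit 455215026) (nat_lit 0) (nat_lit 19494) (nat_lit 76) (nat_lit 19494) (nat_lit 140) (nat_lit 1) (nat_lit 138) (nat_lit 1) (nat_lit 139) (nat_lit 1) (nat_lit 354) (nat_lit 312) (nat_lit 234)) (XT.lf (nat_lit 0) (nat_lit 144508834) (nat_lit 0) (nat_lit 144557478) (nat_lit 152) (nat_lit 144508834) (nat_lit 138) (nat_lit 3) (nat_lit 138) (nat_lit 1) (nat_lit 140) (nat_lit 1) (nat_lit 355) (nat_lit 312) (nat_lit 233))))) (XT.nd (nat_lit 234) (nat_lit 228) (nat_lit 0) (XT.nd (nat_lit 78) (nat_lit 152) (nat_lit 0) (XT.lf (nat_lit 76) (nat_lit 137927433) (nat_lit 0)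 (nat_lit 137969732) (nat_lit 76) (nat_lit 137969732) (nat_lit 138) (nat_lit 3) (nat_lit 137) (nat_lit 1) (nat_lit 138) (nat_lit 1) (nat_lit 356) (nat_lit 312) (nat_lit 232)) (XT.nd (nat_lit 78) (nat_lit 0) (nat_lit 0) (XT.lf (nat_lit 152) (nat_lit 395850007) (nat_lit 0) (nat_lit 11146) (nat_lit 76) (nat_lit 11146) (nat_lit 137) (nat_lit 1) (nat_lit 135) (nat_lit 1) (nat_lit 136) (nat_lit 1) (nat_lit 357) (nat_lit 312) (nat_lit 231)) (XT.lf (nat_lit 0) (nat_lit 125664455) (nat_lit 0) (nat_lit 125692267) (nat_lit 152) (nat_lit 125664455) (nat_lit 135) (nat_lit 3) (nat_lit 135) (nat_lit 1) (nat_lit 137) (nat_lit 1) (nat_lit 358) (nat_lit 312) (nat_lit 230)))) (XT.nd (nat_lit 78) (nat_lit 152) (nat_lit 0) (XT.lf (nat_lit 76) (nat_lit 119945105) (nat_lit 0) (nat_lit 119969290) (nat_lit 76) (nat_lit 119969290) (nat_lit 135) (nat_lit 3) (nat_lit 134) (nat_lit 1) (nat_lit 135) (nat_lit 1) (nat_lit 359)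 (nat_lit 312) (nat_lit 229)) (XT.nd (nat_lit 78) (nat_lit 0) (nat_lit 0) (XT.lf (nat_lit 152) (nat_lit 344223604) (nat_lit 0) (nat_lit 6372) (nat_lit 76) (nat_lit 6372) (nat_lit 134) (nat_lit 1) (nat_lit 132) (nat_lit 1) (nat_lit 133) (nat_lit 1) (nat_lit 360) (nat_lit 312) (nat_lit 228)) (XT.lf (nat_lit 0) (nat_lit 109276068) (nat_lit 0) (nat_lit 109291970) (nat_lit 152) (nat_lit 109276068) (nat_lit 132) (nat_lit 3) (nat_lit 132) (nat_lit 1) (nat_lit 134) (nat_lit 1) (nat_lit 361) (nat_lit 312) (nat_lit 227))))))) (XT.nd (nat_lit 40092) (nat_lit 0) (nat_lit 6384) (XT.nd (nat_lit 390) (nat_lit 304) (nat_lit 0) (XT.nd (nat_lit 156) (nat_lit 228) (nat_lit 0) (XT.nd (nat_lit 78) (nat_lit 152) (nat_lit 0) (XT.lf (nat_lit 76) (nat_lit 104304784) (nat_lit 0) (nat_lit 104318612) (nat_lit 76) (nat_lit 104318612) (nat_lit 132) (nat_lit 3) (nat_lit 131) (nat_lit 1) (nat_lit 132) (nat_lit 1) (nat_lit 362)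 (nat_lit 312) (nat_lit 226)) (XT.lf (nat_lit 152) (nat_lit 299328421) (nat_lit 0) (nat_lit 3643) (nat_lit 76) (nat_lit 3643) (nat_lit 131) (nat_lit 1) (nat_lit 129) (nat_lit 1) (nat_lit 130) (nat_lit 1) (nat_lit 363) (nat_lit 312) (nat_lit 225))) (XT.nd (nat_lit 78) (nat_lit 228) (nat_lit 0) (XT.lf (nat_lit 0) (nat_lit 95024171) (nat_lit 0) (nat_lit 95033263) (nat_lit 152) (nat_lit 95024171) (nat_lit 129) (nat_lit 3) (nat_lit 129) (nat_lit 1) (nat_lit 131) (nat_lit 1) (nat_lit 364) (nat_lit 312) (nat_lit 224)) (XT.nd (nat_lit 78) (nat_lit 152) (nat_lit 0) (XT.lf (nat_lit 76) (nat_lit 90702495) (nat_lit 0) (nat_lit 90710401) (nat_lit 76) (nat_lit 90710401) (nat_lit 129) (nat_lit 3) (nat_lit 128) (nat_lit 1) (nat_lit 129) (nat_lit 1) (nat_lit 365) (nat_lit 312) (nat_lit 223)) (XT.lf (nat_lit 152) (nat_lit 260287612) (nat_lit 0) (nat_lit 2083) (nat_lit 76) (nat_lit 2083) (nat_lit 128) (nat_lit 1)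 (nat_lit 126) (nat_lit 1) (nat_lit 127) (nat_lit 1) (nat_lit 366) (nat_lit 312) (nat_lit 222))))) (XT.nd (nat_lit 234) (nat_lit 76) (nat_lit 0) (XT.nd (nat_lit 78) (nat_lit 228) (nat_lit 0) (XT.lf (nat_lit 0) (nat_lit 82630574) (nat_lit 0) (nat_lit 82635772) (nat_lit 152) (nat_lit 82630574) (nat_lit 126) (nat_lit 3) (nat_lit 126) (nat_lit 1) (nat_lit 128) (nat_lit 1) (nat_lit 367) (nat_lit 312) (nat_lit 221)) (XT.nd (nat_lit 78) (nat_lit 152) (nat_lit 0) (XT.lf (nat_lit 76) (nat_lit 78873269) (nat_lit 0) (nat_lit 78877789) (nat_lit 76) (nat_lit 78877789) (nat_lit 126) (nat_lit 3) (nat_lit 125) (nat_lit 1) (nat_lit 126) (nat_lit 1) (nat_lit 368) (nat_lit 312) (nat_lit 220)) (XT.lf (nat_lit 152) (nat_lit 226338214) (nat_lit 0) (nat_lit 1191) (nat_lit 76) (nat_lit 1191) (nat_lit 125) (nat_lit 1) (nat_lit 123) (nat_lit 1) (nat_lit 124) (nat_lit 1) (nat_lit 369) (nat_lit 312) (nat_lit 219)))) (XT.nd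 (nat_lit 78) (nat_lit 76) (nat_lit 0) (XT.lf (nat_lit 0) (nat_lit 71853164) (nat_lit 0) (nat_lit 71856136) (nat_lit 152) (nat_lit 71853164) (nat_lit 123) (nat_lit 3) (nat_lit 123) (nat_lit 1) (nat_lit 125) (nat_lit 1) (nat_lit 370) (nat_lit 312) (nat_lit 218)) (XT.nd (nat_lit 39312) (nat_lit 0) (nat_lit 7068) (XT.lf (nat_lit 76) (nat_lit 68586328) (nat_lit 0) (nat_lit 68588913) (nat_lit 76) (nat_lit 68588913) (nat_lit 123) (nat_lit 3) (nat_lit 122) (nat_lit 1) (nat_lit 123) (nat_lit 1) (nat_lit 371) (nat_lit 312) (nat_lit 217)) (XT.lf (nat_lit 380) (nat_lit 4317142287) (nat_lit 0) (nat_lit 3823799175) (nat_lit 380) (nat_lit 4317142287) (nat_lit 220) (nat_lit 1) (nat_lit 215) (nat_lit 0) (nat_lit 220) (nat_lit 0) (nat_lit 274) (nat_lit 313) (nat_lit 313)))))) (XT.nd (nat_lit 390) (nat_lit 532) (nat_lit 0) (XT.nd (nat_lit 156) (nat_lit 152) (nat_lit 0) (XT.nd (nat_lit 78) (nat_lit 0) (nat_lit 76)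 (XT.lf (nat_lit 380) (nat_lit 15968549065) (nat_lit 76) (nat_lit 3649990121) (nat_lit 0) (nat_lit 3649990121) (nat_lit 220) (nat_lit 1) (nat_lit 216) (nat_lit 1) (nat_lit 215) (nat_lit 0) (nat_lit 275) (nat_lit 313) (nat_lit 312)) (XT.lf (nat_lit 380) (nat_lit 7038844859) (nat_lit 0) (nat_lit 7658927192) (nat_lit 304) (nat_lit 7038844859) (nat_lit 221) (nat_lit 1) (nat_lit 216) (nat_lit 1) (nat_lit 220) (nat_lit 1) (nat_lit 276) (nat_lit 313) (nat_lit 311))) (XT.nd (nat_lit 78) (nat_lit 228) (nat_lit 0) (XT.lf (nat_lit 380) (nat_lit 12085331146) (nat_lit 76) (nat_lit 4136889684) (nat_lit 0) (nat_lit 4136889684) (nat_lit 221) (nat_lit 1) (nat_lit 217) (nat_lit 1) (nat_lit 216) (nat_lit 1) (nat_lit 277) (nat_lit 313) (nat_lit 310)) (XT.nd (nat_lit 78) (nat_lit 304) (nat_lit 0) (XT.lf (nat_lit 76) (nat_lit 4888676735) (nat_lit 0) (nat_lit 9308861227) (nat_lit 304) (nat_lit 4888676735) (nat_lit 218)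 (nat_lit 1) (nat_lit 217) (nat_lit 1) (nat_lit 221) (nat_lit 1) (nat_lit 278) (nat_lit 313) (nat_lit 309)) (XT.lf (nat_lit 380) (nat_lit 7347286307) (nat_lit 0) (nat_lit 5288435793) (nat_lit 304) (nat_lit 5288435793) (nat_lit 218) (nat_lit 1) (nat_lit 213) (nat_lit 1) (nat_lit 217) (nat_lit 1) (nat_lit 279) (nat_lit 313) (nat_lit 308))))) (XT.nd (nat_lit 234) (nat_lit 152) (nat_lit 0) (XT.nd (nat_lit 78) (nat_lit 380) (nat_lit 0) (XT.lf (nat_lit 76) (nat_lit 2442156824) (nat_lit 0) (nat_lit 11983724748) (nat_lit 380) (nat_lit 2442156824) (nat_lit 214) (nat_lit 1) (nat_lit 213) (nat_lit 1) (nat_lit 218) (nat_lit 1) (nat_lit 280) (nat_lit 313) (nat_lit 307)) (XT.nd (nat_lit 78) (nat_lit 228) (nat_lit 0) (XT.lf (nat_lit 228) (nat_lit 2197883532) (nat_lit 0) (nat_lit 6840370166) (nat_lit 152) (nat_lit 6840370166) (nat_lit 214) (nat_lit 1) (nat_lit 211) (nat_lit 1) (nat_lit 213) (nat_lit 1) (nat_lit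 281) (nat_lit 313) (nat_lit 306)) (XT.lf (nat_lit 228) (nat_lit 14769749684) (nat_lit 0) (nat_lit 115883620) (nat_lit 152) (nat_lit 115883620) (nat_lit 211) (nat_lit 1) (nat_lit 208) (nat_lit 1) (nat_lit 210) (nat_lit 1) (nat_lit 282) (nat_lit 313) (nat_lit 305)))) (XT.nd (nat_lit 78) (nat_lit 152) (nat_lit 0) (XT.lf (nat_lit 76) (nat_lit 5674632233) (nat_lit 0) (nat_lit 2785942368) (nat_lit 228) (nat_lit 5674632233) (nat_lit 209) (nat_lit 1) (nat_lit 208) (nat_lit 1) (nat_lit 211) (nat_lit 1) (nat_lit 283) (nat_lit 313) (nat_lit 304)) (XT.nd (nat_lit 78) (nat_lit 0) (nat_lit 0) (XT.lf (nat_lit 228) (nat_lit 8248295751) (nat_lit 0) (nat_lit 2558540258) (nat_lit 152) (nat_lit 2558540258) (nat_lit 209) (nat_lit 1) (nat_lit 206) (nat_lit 1) (nat_lit 208) (nat_lit 1) (nat_lit 284) (nat_lit 313) (nat_lit 303)) (XT.lf (nat_lit 76) (nat_lit 2579512614) (nat_lit 0) (nat_lit 7485701505) (nat_lit 228) (nat_lit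 2579512614) (nat_lit 207) (nat_lit 1) (nat_lit 206) (nat_lit 1) (nat_lit 209) (nat_lit 1) (nat_lit 285) (nat_lit 313) (nat_lit 302))))))))
noncomputable def ec47 : XT := (XT.nd (nat_lit 1716) (nat_lit 1672) (nat_lit 0) (XT.nd (nat_lit 858) (nat_lit 912) (nat_lit 0) (XT.nd (nat_lit 390) (nat_lit 456) (nat_lit 0) (XT.nd (nat_lit 156) (nat_lit 76) (nat_lit 0) (XT.nd (nat_lit 78) (nat_lit 228) (nat_lit 0) (XT.lf (nat_lit 152) (nat_lit 2132443874) (nat_lit 0) (nat_lit 4920624730) (nat_lit 76) (nat_lit 4920624730) (nat_lit 207) (nat_lit 1) (nat_lit 205) (nat_lit 1) (nat_lit 206) (nat_lit 1) (nat_lit 286) (nat_lit 313) (nat_lit 301)) (XT.lf (nat_lit 228) (nat_lit 10795684396) (nat_lit 0) (nat_lit 286798405) (nat_lit 152) (nat_lit 286798405) (nat_lit 205) (nat_lit 1) (nat_lit 202) (nat_lit 1) (nat_lit 204) (nat_lit 1) (nat_lit 287) (nat_lit 313) (nat_lit 300))) (XT.nd (nat_lit 78) (nat_lit 76) (nat_lit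 0) (XT.lf (nat_lit 76) (nat_lit 3778257350) (nat_lit 0) (nat_lit 3208619414) (nat_lit 228) (nat_lit 3778257350) (nat_lit 203) (nat_lit 1) (nat_lit 202) (nat_lit 1) (nat_lit 205) (nat_lit 1) (nat_lit 288) (nat_lit 313) (nat_lit 299)) (XT.nd (nat_lit 78) (nat_lit 0) (nat_lit 0) (XT.lf (nat_lit 152) (nat_lit 4593999065) (nat_lit 0) (nat_lit 2813383159) (nat_lit 76) (nat_lit 2813383159) (nat_lit 203) (nat_lit 1) (nat_lit 201) (nat_lit 1) (nat_lit 202) (nat_lit 1) (nat_lit 289) (nat_lit 313) (nat_lit 298)) (XT.lf (nat_lit 0) (nat_lit 899568325) (nat_lit 0) (nat_lit 7919730463) (nat_lit 152) (nat_lit 899568325) (nat_lit 201) (nat_lit 3) (nat_lit 201) (nat_lit 1) (nat_lit 203) (nat_lit 1) (nat_lit 290) (nat_lit 313) (nat_lit 297))))) (XT.nd (nat_lit 234) (nat_lit 228) (nat_lit 0) (XT.nd (nat_lit 78) (nat_lit 76) (nat_lit 0) (XT.lf (nat_lit 76) (nat_lit 4163198417) (nat_lit 0) (nat_lit 902925766) (nat_lit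 152) (nat_lit 4163198417) (nat_lit 200) (nat_lit 1) (nat_lit 199) (nat_lit 1) (nat_lit 201) (nat_lit 1) (nat_lit 291) (nat_lit 313) (nat_lit 296)) (XT.nd (nat_lit 78) (nat_lit 0) (nat_lit 0) (XT.lf (nat_lit 152) (nat_lit 5561214187) (nat_lit 0) (nat_lit 1608560952) (nat_lit 76) (nat_lit 1608560952) (nat_lit 200) (nat_lit 1) (nat_lit 198) (nat_lit 1) (nat_lit 199) (nat_lit 1) (nat_lit 292) (nat_lit 313) (nat_lit 295)) (XT.lf (nat_lit 0) (nat_lit 1445943907) (nat_lit 0) (nat_lit 5459744394) (nat_lit 152) (nat_lit 1445943907) (nat_lit 198) (nat_lit 3) (nat_lit 198) (nat_lit 1) (nat_lit 200) (nat_lit 1) (nat_lit 293) (nat_lit 313) (nat_lit 294)))) (XT.nd (nat_lit 78) (nat_lit 152) (nat_lit 0) (XT.lf (nat_lit 76) (nat_lit 322564246) (nat_lit 0) (nat_lit 3812825540) (nat_lit 76) (nat_lit 3812825540) (nat_lit 198) (nat_lit 3) (nat_lit 197) (nat_lit 1) (nat_lit 198) (nat_lit 1) (nat_lit 294) (nat_lit 313)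 (nat_lit 293)) (XT.nd (nat_lit 78) (nat_lit 0) (nat_lit 0) (XT.lf (nat_lit 152) (nat_lit 5731451227) (nat_lit 0) (nat_lit 919699945) (nat_lit 76) (nat_lit 919699945) (nat_lit 197) (nat_lit 1) (nat_lit 195) (nat_lit 1) (nat_lit 196) (nat_lit 1) (nat_lit 295) (nat_lit 313) (nat_lit 292)) (XT.lf (nat_lit 0) (nat_lit 1636821206) (nat_lit 0) (nat_lit 3931724662) (nat_lit 152) (nat_lit 1636821206) (nat_lit 195) (nat_lit 3) (nat_lit 195) (nat_lit 1) (nat_lit 197) (nat_lit 1) (nat_lit 296) (nat_lit 313) (nat_lit 291)))))) (XT.nd (nat_lit 390) (nat_lit 456) (nat_lit 0) (XT.nd (nat_lit 156) (nat_lit 228) (nat_lit 0) (XT.nd (nat_lit 78) (nat_lit 152) (nat_lit 0) (XT.lf (nat_lit 76) (nat_lit 957702599) (nat_lit 0) (nat_lit 2953270821) (nat_lit 76) (nat_lit 2953270821) (nat_lit 195) (nat_lit 3) (nat_lit 194) (nat_lit 1) (nat_lit 195) (nat_lit 1) (nat_lit 297) (nat_lit 313) (nat_lit 290)) (XT.lf (nat_lit 152)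 (nat_lit 5495940160) (nat_lit 0) (nat_lit 525841428) (nat_lit 76) (nat_lit 525841428) (nat_lit 194) (nat_lit 1) (nat_lit 192) (nat_lit 1) (nat_lit 193) (nat_lit 1) (nat_lit 298) (nat_lit 313) (nat_lit 289))) (XT.nd (nat_lit 78) (nat_lit 228) (nat_lit 0) (XT.lf (nat_lit 0) (nat_lit 1640290954) (nat_lit 0) (nat_lit 2952409453) (nat_lit 152) (nat_lit 1640290954) (nat_lit 192) (nat_lit 3) (nat_lit 192) (nat_lit 1) (nat_lit 194) (nat_lit 1) (nat_lit 299) (nat_lit 313) (nat_lit 288)) (XT.nd (nat_lit 78) (nat_lit 152) (nat_lit 0) (XT.lf (nat_lit 76) (nat_lit 1219982999) (nat_lit 0) (nat_lit 2360955607) (nat_lit 76) (nat_lit 2360955607) (nat_lit 192) (nat_lit 3) (nat_lit 191) (nat_lit 1) (nat_lit 192) (nat_lit 1) (nat_lit 300) (nat_lit 313) (nat_lit 287)) (XT.lf (nat_lit 152) (nat_lit 5071855814) (nat_lit 0) (nat_lit 300651543) (nat_lit 76) (nat_lit 300651543) (nat_lit 191) (nat_lit 1) (nat_lit 189) (nat_lit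 1) (nat_lit 190) (nat_lit 1) (nat_lit 301) (nat_lit 313) (nat_lit 286))))) (XT.nd (nat_lit 234) (nat_lit 228) (nat_lit 0) (XT.nd (nat_lit 78) (nat_lit 228) (nat_lit 0) (XT.lf (nat_lit 0) (nat_lit 1550392213) (nat_lit 0) (nat_lit 2300600224) (nat_lit 152) (nat_lit 1550392213) (nat_lit 189) (nat_lit 3) (nat_lit 189) (nat_lit 1) (nat_lit 191) (nat_lit 1) (nat_lit 302) (nat_lit 313) (nat_lit 285)) (XT.nd (nat_lit 78) (nat_lit 152) (nat_lit 0) (XT.lf (nat_lit 76) (nat_lit 1282236569) (nat_lit 0) (nat_lit 1934591361) (nat_lit 76) (nat_lit 1934591361) (nat_lit 189) (nat_lit 3) (nat_lit 188) (nat_lit 1) (nat_lit 189) (nat_lit 1) (nat_lit 303) (nat_lit 313) (nat_lit 284)) (XT.lf (nat_lit 152) (nat_lit 4577705840) (nat_lit 0) (nat_lit 171898495) (nat_lit 76) (nat_lit 171898495) (nat_lit 188) (nat_lit 1) (nat_lit 186) (nat_lit 1) (nat_lit 187) (nat_lit 1) (nat_lit 304) (nat_lit 313) (nat_lit 283)))) (XT.nd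 (nat_lit 78) (nat_lit 228) (nat_lit 0) (XT.lf (nat_lit 0) (nat_lit 1419094420) (nat_lit 0) (nat_lit 1848028285) (nat_lit 152) (nat_lit 1419094420) (nat_lit 186) (nat_lit 3) (nat_lit 186) (nat_lit 1) (nat_lit 188) (nat_lit 1) (nat_lit 305) (nat_lit 313) (nat_lit 282)) (XT.nd (nat_lit 78) (nat_lit 152) (nat_lit 0) (XT.lf (nat_lit 76) (nat_lit 1241564077) (nat_lit 0) (nat_lit 1614550046) (nat_lit 76) (nat_lit 1614550046) (nat_lit 186) (nat_lit 3) (nat_lit 185) (nat_lit 1) (nat_lit 186) (nat_lit 1) (nat_lit 306) (nat_lit 313) (nat_lit 281)) (XT.lf (nat_lit 152) (nat_lit 4076323230) (nat_lit 0) (nat_lit 98283522) (nat_lit 76) (nat_lit 98283522) (nat_lit 185) (nat_lit 1) (nat_lit 183) (nat_lit 1) (nat_lit 184) (nat_lit 1) (nat_lit 307) (nat_lit 313) (nat_lit 280))))))) (XT.nd (nat_lit 858) (nat_lit 912) (nat_lit 0) (XT.nd (nat_lit 390) (nat_lit 456) (nat_lit 0) (XT.nd (nat_lit 156) (nat_lit 228) (nat_lit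 0) (XT.nd (nat_lit 78) (nat_lit 76) (nat_lit 0) (XT.lf (nat_lit 0) (nat_lit 1274548049) (nat_lit 0) (nat_lit 1519792379) (nat_lit 152) (nat_lit 1274548049) (nat_lit 183) (nat_lit 3) (nat_lit 183) (nat_lit 1) (nat_lit 185) (nat_lit 1) (nat_lit 308) (nat_lit 313) (nat_lit 279)) (XT.lf (nat_lit 76) (nat_lit 1151991035) (nat_lit 0) (nat_lit 1365246974) (nat_lit 76) (nat_lit 1365246974) (nat_lit 183) (nat_lit 3) (nat_lit 182) (nat_lit 1) (nat_lit 183) (nat_lit 1) (nat_lit 309) (nat_lit 313) (nat_lit 278))) (XT.nd (nat_lit 78) (nat_lit 76) (nat_lit 0) (XT.lf (nat_lit 152) (nat_lit 3599351088) (nat_lit 0) (nat_lit 56193923) (nat_lit 76) (nat_lit 56193923) (nat_lit 182) (nat_lit 1) (nat_lit 180) (nat_lit 1) (nat_lit 181) (nat_lit 1) (nat_lit 310) (nat_lit 313) (nat_lit 277)) (XT.nd (nat_lit 78) (nat_lit 76) (nat_lit 0) (XT.lf (nat_lit 0) (nat_lit 1131488905) (nat_lit 0) (nat_lit 1271708146) (nat_lit 152)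 (nat_lit 1131488905) (nat_lit 180) (nat_lit 3) (nat_lit 180) (nat_lit 1) (nat_lit 182) (nat_lit 1) (nat_lit 311) (nat_lit 313) (nat_lit 276)) (XT.lf (nat_lit 76) (nat_lit 1043109174) (nat_lit 0) (nat_lit 1165038949) (nat_lit 76) (nat_lit 1165038949) (nat_lit 180) (nat_lit 3) (nat_lit 179) (nat_lit 1) (nat_lit 180) (nat_lit 1) (nat_lit 312) (nat_lit 313) (nat_lit 275))))) (XT.nd (nat_lit 234) (nat_lit 228) (nat_lit 0) (XT.nd (nat_lit 78) (nat_lit 76) (nat_lit 0) (XT.lf (nat_lit 152) (nat_lit 3161158102) (nat_lit 0) (nat_lit 32129057) (nat_lit 76) (nat_lit 32129057) (nat_lit 179) (nat_lit 1) (nat_lit 177) (nat_lit 1) (nat_lit 178) (nat_lit 1) (nat_lit 313) (nat_lit 313) (nat_lit 274)) (XT.nd (nat_lit 78) (nat_lit 76) (nat_lit 0) (XT.lf (nat_lit 0) (nat_lit 997160211) (nat_lit 0) (nat_lit 1077331017) (nat_lit 152) (nat_lit 997160211) (nat_lit 177) (nat_lit 3) (nat_lit 177) (nat_lit 1) (nat_lit 179)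 (nat_lit 1) (nat_lit 314) (nat_lit 313) (nat_lit 273)) (XT.lf (nat_lit 76) (nat_lit 930709370) (nat_lit 0) (nat_lit 1000423114) (nat_lit 76) (nat_lit 1000423114) (nat_lit 177) (nat_lit 3) (nat_lit 176) (nat_lit 1) (nat_lit 177) (nat_lit 1) (nat_lit 315) (nat_lit 313) (nat_lit 272)))) (XT.nd (nat_lit 78) (nat_lit 76) (nat_lit 0) (XT.lf (nat_lit 152) (nat_lit 2766721914) (nat_lit 0) (nat_lit 18369893) (nat_lit 76) (nat_lit 18369893) (nat_lit 176) (nat_lit 1) (nat_lit 174) (nat_lit 1) (nat_lit 175) (nat_lit 1) (nat_lit 316) (nat_lit 313) (nat_lit 271)) (XT.nd (nat_lit 78) (nat_lit 76) (nat_lit 0) (XT.lf (nat_lit 0) (nat_lit 874675463) (nat_lit 0) (nat_lit 920513381) (nat_lit 152) (nat_lit 874675463) (nat_lit 174) (nat_lit 3) (nat_lit 174) (nat_lit 1) (nat_lit 176) (nat_lit 1) (nat_lit 317) (nat_lit 313) (nat_lit 270)) (XT.lf (nat_lit 76) (nat_lit 822838984) (nat_lit 0) (nat_lit 862698044) (nat_lit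 76) (nat_lit 862698044) (nat_lit 174) (nat_lit 3) (nat_lit 173) (nat_lit 1) (nat_lit 174) (nat_lit 1) (nat_lit 318) (nat_lit 313) (nat_lit 269)))))) (XT.nd (nat_lit 468) (nat_lit 456) (nat_lit 0) (XT.nd (nat_lit 234) (nat_lit 228) (nat_lit 0) (XT.nd (nat_lit 78) (nat_lit 76) (nat_lit 0) (XT.lf (nat_lit 152) (nat_lit 2416073112) (nat_lit 0) (nat_lit 10503046) (nat_lit 76) (nat_lit 10503046) (nat_lit 173) (nat_lit 1) (nat_lit 171) (nat_lit 1) (nat_lit 172) (nat_lit 1) (nat_lit 319) (nat_lit 313) (nat_lit 268)) (XT.nd (nat_lit 78) (nat_lit 76) (nat_lit 0) (XT.lf (nat_lit 0) (nat_lit 764921035) (nat_lit 0) (nat_lit 791129014) (nat_lit 152) (nat_lit 764921035) (nat_lit 171) (nat_lit 3) (nat_lit 171) (nat_lit 1) (nat_lit 173) (nat_lit 1) (nat_lit 320) (nat_lit 313) (nat_lit 267)) (XT.lf (nat_lit 76) (nat_lit 723245974) (nat_lit 0) (nat_lit 746035521) (nat_lit 76) (nat_lit 746035521) (nat_lit 171) (nat_lit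 3) (nat_lit 170) (nat_lit 1) (nat_lit 171) (nat_lit 1) (nat_lit 321) (nat_lit 313) (nat_lit 266)))) (XT.nd (nat_lit 78) (nat_lit 76) (nat_lit 0) (XT.lf (nat_lit 152) (nat_lit 2106781015) (nat_lit 0) (nat_lit 6005150) (nat_lit 76) (nat_lit 6005150) (nat_lit 170) (nat_lit 1) (nat_lit 168) (nat_lit 1) (nat_lit 169) (nat_lit 1) (nat_lit 322) (nat_lit 313) (nat_lit 265)) (XT.nd (nat_lit 78) (nat_lit 76) (nat_lit 0) (XT.lf (nat_lit 0) (nat_lit 667626520) (nat_lit 0) (nat_lit 682611017) (nat_lit 152) (nat_lit 667626520) (nat_lit 168) (nat_lit 3) (nat_lit 168) (nat_lit 1) (nat_lit 170) (nat_lit 1) (nat_lit 323) (nat_lit 313) (nat_lit 264)) (XT.lf (nat_lit 76) (nat_lit 633331376) (nat_lit 0) (nat_lit 646361373) (nat_lit 76) (nat_lit 646361373) (nat_lit 168) (nat_lit 3) (nat_lit 167) (nat_lit 1) (nat_lit 168) (nat_lit 1) (nat_lit 324) (nat_lit 313) (nat_lit 263))))) (XT.nd (nat_lit 234) (nat_lit 228) (nat_lit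 0) (XT.nd (nat_lit 78) (nat_lit 76) (nat_lit 0) (XT.lf (nat_lit 152) (nat_lit 1835327032) (nat_lit 0) (nat_lit 3433464) (nat_lit 76) (nat_lit 3433464) (nat_lit 167) (nat_lit 1) (nat_lit 165) (nat_lit 1) (nat_lit 166) (nat_lit 1) (nat_lit 325) (nat_lit 313) (nat_lit 262)) (XT.nd (nat_lit 78) (nat_lit 76) (nat_lit 0) (XT.lf (nat_lit 0) (nat_lit 581961486) (nat_lit 0) (nat_lit 590528921) (nat_lit 152) (nat_lit 581961486) (nat_lit 165) (nat_lit 3) (nat_lit 165) (nat_lit 1) (nat_lit 167) (nat_lit 1) (nat_lit 326) (nat_lit 313) (nat_lit 261)) (XT.lf (nat_lit 76) (nat_lit 553251133) (nat_lit 0) (nat_lit 560701076) (nat_lit 76) (nat_lit 560701076) (nat_lit 165) (nat_lit 3) (nat_lit 164) (nat_lit 1) (nat_lit 165) (nat_lit 1) (nat_lit 327) (nat_lit 313) (nat_lit 260)))) (XT.nd (nat_lit 78) (nat_lit 76) (nat_lit 0) (XT.lf (nat_lit 152) (nat_lit 1597848230) (nat_lit 0) (nat_lit 1963094) (nat_lit 76) (nat_lit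 1963094) (nat_lit 164) (nat_lit 1) (nat_lit 162) (nat_lit 1) (nat_lit 163) (nat_lit 1) (nat_lit 328) (nat_lit 313) (nat_lit 259)) (XT.nd (nat_lit 78) (nat_lit 76) (nat_lit 0) (XT.lf (nat_lit 0) (nat_lit 506863461) (nat_lit 0) (nat_lit 511761920) (nat_lit 152) (nat_lit 506863461) (nat_lit 162) (nat_lit 3) (nat_lit 162) (nat_lit 1) (nat_lit 164) (nat_lit 1) (nat_lit 329) (nat_lit 313) (nat_lit 258)) (XT.lf (nat_lit 76) (nat_lit 482533447) (nat_lit 0) (nat_lit 486792976) (nat_lit 76) (nat_lit 486792976) (nat_lit 162) (nat_lit 3) (nat_lit 161) (nat_lit 1) (nat_lit 162) (nat_lit 1) (nat_lit 330) (nat_lit 313) (nat_lit 257))))))))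
noncomputable def ec48 : XT := (XT.nd (nat_lit 1716) (nat_lit 1368) (nat_lit 0) (XT.nd (nat_lit 858) (nat_lit 912) (nat_lit 0) (XT.nd (nat_lit 390) (nat_lit 456) (nat_lit 0) (XT.nd (nat_lit 156) (nat_lit 228) (nat_lit 0) (XT.nd (nat_lit 78) (nat_lit 0) (nat_lit 0) (XT.lf (nat_lit 152) (nat_lit 1390526253) (nat_lit 0) (nat_lit 1122405) (nat_lit 76) (nat_lit 1122405) (nat_lit 161) (nat_lit 1) (nat_lit 159) (nat_lit 1) (nat_lit 160) (nat_lit 1) (nat_lit 331) (nat_lit 313) (nat_lit 256)) (XT.lf (nat_lit 0) (nat_lit 441213953) (nat_lit 0) (nat_lit 444014663) (nat_lit 152) (nat_lit 441213953) (nat_lit 159) (nat_lit 3) (nat_lit 159) (nat_lit 1) (nat_lit 161) (nat_lit 1) (nat_lit 332) (nat_lit 313) (nat_lit 255))) (XT.nd (nat_lit 78) (nat_lit 152) (nat_lit 0) (XT.lf (nat_lit 76) (nat_lit 420420774) (nat_lit 0) (nat_lit 422856173) (nat_lit 76) (nat_lit 422856173) (nat_lit 159) (nat_lit 3) (nat_lit 158)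 (nat_lit 1) (nat_lit 159) (nat_lit 1) (nat_lit 333) (nat_lit 313) (nat_lit 254)) (XT.nd (nat_lit 78) (nat_lit 0) (nat_lit 0) (XT.lf (nat_lit 152) (nat_lit 1209778195) (nat_lit 0) (nat_lit 641739) (nat_lit 76) (nat_lit 641739) (nat_lit 158) (nat_lit 1) (nat_lit 156) (nat_lit 1) (nat_lit 157) (nat_lit 1) (nat_lit 334) (nat_lit 313) (nat_lit 253)) (XT.lf (nat_lit 0) (nat_lit 383929096) (nat_lit 0) (nat_lit 385530411) (nat_lit 152) (nat_lit 383929096) (nat_lit 156) (nat_lit 3) (nat_lit 156) (nat_lit 1) (nat_lit 158) (nat_lit 1) (nat_lit 335) (nat_lit 313) (nat_lit 252))))) (XT.nd (nat_lit 234) (nat_lit 228) (nat_lit 0) (XT.nd (nat_lit 78) (nat_lit 152) (nat_lit 0) (XT.lf (nat_lit 76) (nat_lit 366055820) (nat_lit 0) (nat_lit 367448267) (nat_lit 76) (nat_lit 367448267) (nat_lit 156) (nat_lit 3) (nat_lit 155) (nat_lit 1) (nat_lit 156) (nat_lit 1) (nat_lit 336) (nat_lit 313) (nat_lit 251)) (XT.nd (nat_lit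 78) (nat_lit 0) (nat_lit 0) (XT.lf (nat_lit 152) (nat_lit 1052338346) (nat_lit 0) (nat_lit 366916) (nat_lit 76) (nat_lit 366916) (nat_lit 155) (nat_lit 1) (nat_lit 153) (nat_lit 1) (nat_lit 154) (nat_lit 1) (nat_lit 337) (nat_lit 313) (nat_lit 250)) (XT.lf (nat_lit 0) (nat_lit 334002782) (nat_lit 0) (nat_lit 334918339) (nat_lit 152) (nat_lit 334002782) (nat_lit 153) (nat_lit 3) (nat_lit 153) (nat_lit 1) (nat_lit 155) (nat_lit 1) (nat_lit 338) (nat_lit 313) (nat_lit 249)))) (XT.nd (nat_lit 78) (nat_lit 152) (nat_lit 0) (XT.lf (nat_lit 76) (nat_lit 318579584) (nat_lit 0) (nat_lit 319375720) (nat_lit 76) (nat_lit 319375720) (nat_lit 153) (nat_lit 3) (nat_lit 152) (nat_lit 1) (nat_lit 153) (nat_lit 1) (nat_lit 339) (nat_lit 313) (nat_lit 248)) (XT.nd (nat_lit 78) (nat_lit 0) (nat_lit 0) (XT.lf (nat_lit 152) (nat_lit 915281114) (nat_lit 0) (nat_lit 209785) (nat_lit 76) (nat_lit 209785) (nat_lit 152)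 (nat_lit 1) (nat_lit 150) (nat_lit 1) (nat_lit 151) (nat_lit 1) (nat_lit 340) (nat_lit 313) (nat_lit 247)) (XT.lf (nat_lit 0) (nat_lit 290523761) (nat_lit 0) (nat_lit 291047234) (nat_lit 152) (nat_lit 290523761) (nat_lit 150) (nat_lit 3) (nat_lit 150) (nat_lit 1) (nat_lit 152) (nat_lit 1) (nat_lit 341) (nat_lit 313) (nat_lit 246)))))) (XT.nd (nat_lit 390) (nat_lit 456) (nat_lit 0) (XT.nd (nat_lit 156) (nat_lit 228) (nat_lit 0) (XT.nd (nat_lit 78) (nat_lit 152) (nat_lit 0) (XT.lf (nat_lit 76) (nat_lit 277180198) (nat_lit 0) (nat_lit 277635392) (nat_lit 76) (nat_lit 277635392) (nat_lit 150) (nat_lit 3) (nat_lit 149) (nat_lit 1) (nat_lit 150) (nat_lit 1) (nat_lit 342) (nat_lit 313) (nat_lit 245)) (XT.lf (nat_lit 152) (nat_lit 796013425) (nat_lit 0) (nat_lit 119945) (nat_lit 76) (nat_lit 119945) (nat_lit 149) (nat_lit 1) (nat_lit 147) (nat_lit 1) (nat_lit 148) (nat_lit 1) (nat_lit 343) (nat_lit 313)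 (nat_lit 244))) (XT.nd (nat_lit 78) (nat_lit 228) (nat_lit 0) (XT.lf (nat_lit 0) (nat_lit 252678849) (nat_lit 0) (nat_lit 252978146) (nat_lit 152) (nat_lit 252678849) (nat_lit 147) (nat_lit 3) (nat_lit 147) (nat_lit 1) (nat_lit 149) (nat_lit 1) (nat_lit 344) (nat_lit 313) (nat_lit 243)) (XT.nd (nat_lit 78) (nat_lit 152) (nat_lit 0) (XT.lf (nat_lit 76) (nat_lit 241114580) (nat_lit 0) (nat_lit 241374839) (nat_lit 76) (nat_lit 241374839) (nat_lit 147) (nat_lit 3) (nat_lit 146) (nat_lit 1) (nat_lit 147) (nat_lit 1) (nat_lit 345) (nat_lit 313) (nat_lit 242)) (XT.lf (nat_lit 152) (nat_lit 692252370) (nat_lit 0) (nat_lit 68579) (nat_lit 76) (nat_lit 68579) (nat_lit 146) (nat_lit 1) (nat_lit 144) (nat_lit 1) (nat_lit 145) (nat_lit 1) (nat_lit 346) (nat_lit 313) (nat_lit 241))))) (XT.nd (nat_lit 234) (nat_lit 228) (nat_lit 0) (XT.nd (nat_lit 78) (nat_lit 228) (nat_lit 0) (XT.lf (nat_lit 0) (nat_lit 219749034)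 (nat_lit 0) (nat_lit 219920159) (nat_lit 152) (nat_lit 219749034) (nat_lit 144) (nat_lit 3) (nat_lit 144) (nat_lit 1) (nat_lit 146) (nat_lit 1) (nat_lit 347) (nat_lit 313) (nat_lit 240)) (XT.nd (nat_lit 78) (nat_lit 152) (nat_lit 0) (XT.lf (nat_lit 76) (nat_lit 209715350) (nat_lit 0) (nat_lit 209864153) (nat_lit 76) (nat_lit 209864153) (nat_lit 144) (nat_lit 3) (nat_lit 143) (nat_lit 1) (nat_lit 144) (nat_lit 1) (nat_lit 348) (nat_lit 313) (nat_lit 239)) (XT.lf (nat_lit 152) (nat_lit 601996766) (nat_lit 0) (nat_lit 39210) (nat_lit 76) (nat_lit 39210) (nat_lit 143) (nat_lit 1) (nat_lit 141) (nat_lit 1) (nat_lit 142) (nat_lit 1) (nat_lit 349) (nat_lit 313) (nat_lit 238)))) (XT.nd (nat_lit 78) (nat_lit 228) (nat_lit 0) (XT.lf (nat_lit 0) (nat_lit 191102295) (nat_lit 0) (nat_lit 191200136) (nat_lit 152) (nat_lit 191102295) (nat_lit 141) (nat_lit 3) (nat_lit 141) (nat_lit 1) (nat_lit 143) (nat_lit 1)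 (nat_lit 350) (nat_lit 313) (nat_lit 237)) (XT.nd (nat_lit 78) (nat_lit 152) (nat_lit 0) (XT.lf (nat_lit 76) (nat_lit 182390046) (nat_lit 0) (nat_lit 182475125) (nat_lit 76) (nat_lit 182475125) (nat_lit 141) (nat_lit 3) (nat_lit 140) (nat_lit 1) (nat_lit 141) (nat_lit 1) (nat_lit 351) (nat_lit 313) (nat_lit 236)) (XT.lf (nat_lit 152) (nat_lit 523497280) (nat_lit 0) (nat_lit 22418) (nat_lit 76) (nat_lit 22418) (nat_lit 140) (nat_lit 1) (nat_lit 138) (nat_lit 1) (nat_lit 139) (nat_lit 1) (nat_lit 352) (nat_lit 313) (nat_lit 235))))))) (XT.nd (nat_lit 858) (nat_lit 608) (nat_lit 0) (XT.nd (nat_lit 390) (nat_lit 456) (nat_lit 0) (XT.nd (nat_lit 156) (nat_lit 228) (nat_lit 0) (XT.nd (nat_lit 78) (nat_lit 76) (nat_lit 0) (XT.lf (nat_lit 0) (nat_lit 166185159) (nat_lit 0) (nat_lit 166241100) (nat_lit 152) (nat_lit 166185159) (nat_lit 138) (nat_lit 3) (nat_lit 138) (nat_lit 1) (nat_lit 140) (nat_lit 1)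 (nat_lit 353) (nat_lit 313) (nat_lit 234)) (XT.lf (nat_lit 76) (nat_lit 158616548) (nat_lit 0) (nat_lit 158665192) (nat_lit 76) (nat_lit 158665192) (nat_lit 138) (nat_lit 3) (nat_lit 137) (nat_lit 1) (nat_lit 138) (nat_lit 1) (nat_lit 354) (nat_lit 313) (nat_lit 233))) (XT.nd (nat_lit 78) (nat_lit 76) (nat_lit 0) (XT.lf (nat_lit 152) (nat_lit 455227509) (nat_lit 0) (nat_lit 12817) (nat_lit 76) (nat_lit 12817) (nat_lit 137) (nat_lit 1) (nat_lit 135) (nat_lit 1) (nat_lit 136) (nat_lit 1) (nat_lit 355) (nat_lit 313) (nat_lit 232)) (XT.nd (nat_lit 78) (nat_lit 76) (nat_lit 0) (XT.lf (nat_lit 0) (nat_lit 144514123) (nat_lit 0) (nat_lit 144546107) (nat_lit 152) (nat_lit 144514123) (nat_lit 135) (nat_lit 3) (nat_lit 135) (nat_lit 1) (nat_lit 137) (nat_lit 1) (nat_lit 356) (nat_lit 313) (nat_lit 231)) (XT.lf (nat_lit 76) (nat_lit 137936871) (nat_lit 0) (nat_lit 137964684) (nat_lit 76) (nat_lit 137964684)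 (nat_lit 135) (nat_lit 3) (nat_lit 134) (nat_lit 1) (nat_lit 135) (nat_lit 1) (nat_lit 357) (nat_lit 313) (nat_lit 230))))) (XT.nd (nat_lit 234) (nat_lit 228) (nat_lit 0) (XT.nd (nat_lit 78) (nat_lit 76) (nat_lit 0) (XT.lf (nat_lit 152) (nat_lit 395857144) (nat_lit 0) (nat_lit 7328) (nat_lit 76) (nat_lit 7328) (nat_lit 134) (nat_lit 1) (nat_lit 132) (nat_lit 1) (nat_lit 133) (nat_lit 1) (nat_lit 358) (nat_lit 313) (nat_lit 229)) (XT.nd (nat_lit 78) (nat_lit 76) (nat_lit 0) (XT.lf (nat_lit 0) (nat_lit 125667479) (nat_lit 0) (nat_lit 125685766) (nat_lit 152) (nat_lit 125667479) (nat_lit 132) (nat_lit 3) (nat_lit 132) (nat_lit 1) (nat_lit 134) (nat_lit 1) (nat_lit 359) (nat_lit 313) (nat_lit 228)) (XT.lf (nat_lit 76) (nat_lit 119950502) (nat_lit 0) (nat_lit 119966404) (nat_lit 76) (nat_lit 119966404) (nat_lit 132) (nat_lit 3) (nat_lit 131) (nat_lit 1) (nat_lit 132) (nat_lit 1) (nat_lit 360) (nat_lit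 313) (nat_lit 227)))) (XT.nd (nat_lit 78) (nat_lit 76) (nat_lit 0) (XT.lf (nat_lit 152) (nat_lit 344227684) (nat_lit 0) (nat_lit 4190) (nat_lit 76) (nat_lit 4190) (nat_lit 131) (nat_lit 1) (nat_lit 129) (nat_lit 1) (nat_lit 130) (nat_lit 1) (nat_lit 361) (nat_lit 313) (nat_lit 226)) (XT.nd (nat_lit 78) (nat_lit 76) (nat_lit 0) (XT.lf (nat_lit 0) (nat_lit 109277797) (nat_lit 0) (nat_lit 109288253) (nat_lit 152) (nat_lit 109277797) (nat_lit 129) (nat_lit 3) (nat_lit 129) (nat_lit 1) (nat_lit 131) (nat_lit 1) (nat_lit 362) (nat_lit 313) (nat_lit 225)) (XT.lf (nat_lit 76) (nat_lit 104307869) (nat_lit 0) (nat_lit 104316961) (nat_lit 76) (nat_lit 104316961) (nat_lit 129) (nat_lit 3) (nat_lit 128) (nat_lit 1) (nat_lit 129) (nat_lit 1) (nat_lit 363) (nat_lit 313) (nat_lit 224)))))) (XT.nd (nat_lit 390) (nat_lit 228) (nat_lit 0) (XT.nd (nat_lit 156) (nat_lit 228) (nat_lit 0) (XT.nd (nat_lit 78) (nat_lit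 0) (nat_lit 0) (XT.lf (nat_lit 152) (nat_lit 299330754) (nat_lit 0) (nat_lit 2395) (nat_lit 76) (nat_lit 2395) (nat_lit 128) (nat_lit 1) (nat_lit 126) (nat_lit 1) (nat_lit 127) (nat_lit 1) (nat_lit 364) (nat_lit 313) (nat_lit 223)) (XT.lf (nat_lit 0) (nat_lit 95025160) (nat_lit 0) (nat_lit 95031138) (nat_lit 152) (nat_lit 95025160) (nat_lit 126) (nat_lit 3) (nat_lit 126) (nat_lit 1) (nat_lit 128) (nat_lit 1) (nat_lit 365) (nat_lit 313) (nat_lit 222))) (XT.nd (nat_lit 78) (nat_lit 152) (nat_lit 0) (XT.lf (nat_lit 76) (nat_lit 90704259) (nat_lit 0) (nat_lit 90709458) (nat_lit 76) (nat_lit 90709458) (nat_lit 126) (nat_lit 3) (nat_lit 125) (nat_lit 1) (nat_lit 126) (nat_lit 1) (nat_lit 366) (nat_lit 313) (nat_lit 221)) (XT.nd (nat_lit 78) (nat_lit 0) (nat_lit 0) (XT.lf (nat_lit 152) (nat_lit 260288946) (nat_lit 0) (nat_lit 1369) (nat_lit 76) (nat_lit 1369) (nat_lit 125) (nat_lit 1) (nat_lit 123) (nat_lit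 1) (nat_lit 124) (nat_lit 1) (nat_lit 367) (nat_lit 313) (nat_lit 220)) (XT.lf (nat_lit 0) (nat_lit 82631139) (nat_lit 0) (nat_lit 82634557) (nat_lit 152) (nat_lit 82631139) (nat_lit 123) (nat_lit 3) (nat_lit 123) (nat_lit 1) (nat_lit 125) (nat_lit 1) (nat_lit 368) (nat_lit 313) (nat_lit 219))))) (XT.nd (nat_lit 39312) (nat_lit 0) (nat_lit 7220) (XT.nd (nat_lit 78) (nat_lit 152) (nat_lit 0) (XT.lf (nat_lit 76) (nat_lit 78874277) (nat_lit 0) (nat_lit 78877250) (nat_lit 76) (nat_lit 78877250) (nat_lit 123) (nat_lit 3) (nat_lit 122) (nat_lit 1) (nat_lit 123) (nat_lit 1) (nat_lit 369) (nat_lit 313) (nat_lit 218)) (XT.nd (nat_lit 78) (nat_lit 0) (nat_lit 0) (XT.lf (nat_lit 152) (nat_lit 226338976) (nat_lit 0) (nat_lit 783) (nat_lit 76) (nat_lit 783) (nat_lit 122) (nat_lit 1) (nat_lit 120) (nat_lit 1) (nat_lit 121) (nat_lit 1) (nat_lit 370) (nat_lit 313) (nat_lit 217)) (XT.lf (nat_lit 0) (nat_lit 71853487)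 (nat_lit 0) (nat_lit 71855442) (nat_lit 152) (nat_lit 71853487) (nat_lit 120) (nat_lit 3) (nat_lit 120) (nat_lit 1) (nat_lit 122) (nat_lit 1) (nat_lit 371) (nat_lit 313) (nat_lit 216)))) (XT.nd (nat_lit 78) (nat_lit 0) (nat_lit 0) (XT.lf (nat_lit 380) (nat_lit 4964713630) (nat_lit 0) (nat_lit 4397369051) (nat_lit 380) (nat_lit 4964713630) (nat_lit 220) (nat_lit 1) (nat_lit 215) (nat_lit 0) (nat_lit 220) (nat_lit 0) (nat_lit 272) (nat_lit 314) (nat_lit 314)) (XT.nd (nat_lit 78) (nat_lit 0) (nat_lit 76) (XT.lf (nat_lit 380) (nat_lit 18363831424) (nat_lit 76) (nat_lit 4197488640) (nat_lit 0) (nat_lit 4197488640) (nat_lit 220) (nat_lit 1) (nat_lit 216) (nat_lit 1) (nat_lit 215) (nat_lit 0) (nat_lit 273) (nat_lit 314) (nat_lit 313)) (XT.lf (nat_lit 380) (nat_lit 8094671588) (nat_lit 0) (nat_lit 8807766271) (nat_lit 304) (nat_lit 8094671588) (nat_lit 221) (nat_lit 1) (nat_lit 216) (nat_lit 1) (nat_lit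 220) (nat_lit 1) (nat_lit 274) (nat_lit 314) (nat_lit 312))))))))
noncomputable def ec49 : XT := (XT.nd (nat_lit 1716) (nat_lit 1672) (nat_lit 0) (XT.nd (nat_lit 858) (nat_lit 760) (nat_lit 0) (XT.nd (nat_lit 390) (nat_lit 684) (nat_lit 0) (XT.nd (nat_lit 156) (nat_lit 380) (nat_lit 0) (XT.nd (nat_lit 78) (nat_lit 0) (nat_lit 76) (XT.lf (nat_lit 380) (nat_lit 13898130818) (nat_lit 76) (nat_lit 4757423137) (nat_lit 0) (nat_lit 4757423137) (nat_lit 221) (nat_lit 1) (nat_lit 217) (nat_lit 1) (nat_lit 216) (nat_lit 1) (nat_lit 275) (nat_lit 314) (nat_lit 311)) (XT.lf (nat_lit 76) (nat_lit 5621978246) (nat_lit 0) (nat_lit 10705190411) (nat_lit 304) (nat_lit 5621978246) (nat_lit 218) (nat_lit 1) (nat_lit 217) (nat_lit 1) (nat_lit 221) (nat_lit 1) (nat_lit 276) (nat_lit 314) (nat_lit 310))) (XT.nd (nat_lit 78) (nat_lit 152) (nat_lit 0) (XT.lf (nat_lit 380) (nat_lit 8449379253) (nat_lit 0) (nat_lit 6081701162)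 (nat_lit 304) (nat_lit 6081701162) (nat_lit 218) (nat_lit 1) (nat_lit 213) (nat_lit 1) (nat_lit 217) (nat_lit 1) (nat_lit 277) (nat_lit 314) (nat_lit 309)) (XT.nd (nat_lit 78) (nat_lit 152) (nat_lit 0) (XT.lf (nat_lit 76) (nat_lit 2808480348) (nat_lit 0) (nat_lit 13781283460) (nat_lit 380) (nat_lit 2808480348) (nat_lit 214) (nat_lit 1) (nat_lit 213) (nat_lit 1) (nat_lit 218) (nat_lit 1) (nat_lit 278) (nat_lit 314) (nat_lit 308)) (XT.lf (nat_lit 228) (nat_lit 2527566062) (nat_lit 0) (nat_lit 7866425691) (nat_lit 152) (nat_lit 7866425691) (nat_lit 214) (nat_lit 1) (nat_lit 211) (nat_lit 1) (nat_lit 213) (nat_lit 1) (nat_lit 279) (nat_lit 314) (nat_lit 307))))) (XT.nd (nat_lit 234) (nat_lit 304) (nat_lit 0) (XT.nd (nat_lit 78) (nat_lit 152) (nat_lit 0) (XT.lf (nat_lit 228) (nat_lit 16985212137) (nat_lit 0) (nat_lit 133266163) (nat_lit 152) (nat_lit 133266163) (nat_lit 211) (nat_lit 1) (nat_lit 208)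 (nat_lit 1) (nat_lit 210) (nat_lit 1) (nat_lit 280) (nat_lit 314) (nat_lit 306)) (XT.nd (nat_lit 78) (nat_lit 152) (nat_lit 0) (XT.lf (nat_lit 76) (nat_lit 6525827068) (nat_lit 0) (nat_lit 3203833723) (nat_lit 228) (nat_lit 6525827068) (nat_lit 209) (nat_lit 1) (nat_lit 208) (nat_lit 1) (nat_lit 211) (nat_lit 1) (nat_lit 281) (nat_lit 314) (nat_lit 305)) (XT.lf (nat_lit 228) (nat_lit 9485540114) (nat_lit 0) (nat_lit 2942321297) (nat_lit 152) (nat_lit 2942321297) (nat_lit 209) (nat_lit 1) (nat_lit 206) (nat_lit 1) (nat_lit 208) (nat_lit 1) (nat_lit 282) (nat_lit 314) (nat_lit 304)))) (XT.nd (nat_lit 78) (nat_lit 304) (nat_lit 0) (XT.lf (nat_lit 76) (nat_lit 2966439506) (nat_lit 0) (nat_lit 8608556731) (nat_lit 228) (nat_lit 2966439506) (nat_lit 207) (nat_lit 1) (nat_lit 206) (nat_lit 1) (nat_lit 209) (nat_lit 1) (nat_lit 283) (nat_lit 314) (nat_lit 303)) (XT.nd (nat_lit 78) (nat_lit 228) (nat_lit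 0) (XT.lf (nat_lit 152) (nat_lit 2452310456) (nat_lit 0) (nat_lit 5658718439) (nat_lit 76) (nat_lit 5658718439) (nat_lit 207) (nat_lit 1) (nat_lit 205) (nat_lit 1) (nat_lit 206) (nat_lit 1) (nat_lit 284) (nat_lit 314) (nat_lit 302)) (XT.lf (nat_lit 228) (nat_lit 12415037055) (nat_lit 0) (nat_lit 329818165) (nat_lit 152) (nat_lit 329818165) (nat_lit 205) (nat_lit 1) (nat_lit 202) (nat_lit 1) (nat_lit 204) (nat_lit 1) (nat_lit 285) (nat_lit 314) (nat_lit 301)))))) (XT.nd (nat_lit 390) (nat_lit 456) (nat_lit 0) (XT.nd (nat_lit 156) (nat_lit 228) (nat_lit 0) (XT.nd (nat_lit 78) (nat_lit 76) (nat_lit 0) (XT.lf (nat_lit 76) (nat_lit 4344995953) (nat_lit 0) (nat_lit 3689912326) (nat_lit 228) (nat_lit 4344995953) (nat_lit 203) (nat_lit 1) (nat_lit 202) (nat_lit 1) (nat_lit 205) (nat_lit 1) (nat_lit 286) (nat_lit 314) (nat_lit 300)) (XT.lf (nat_lit 152) (nat_lit 5283098924) (nat_lit 0) (nat_lit 3235390633)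 (nat_lit 76) (nat_lit 3235390633) (nat_lit 203) (nat_lit 1) (nat_lit 201) (nat_lit 1) (nat_lit 202) (nat_lit 1) (nat_lit 287) (nat_lit 314) (nat_lit 299))) (XT.nd (nat_lit 78) (nat_lit 228) (nat_lit 0) (XT.lf (nat_lit 0) (nat_lit 1034503574) (nat_lit 0) (nat_lit 9107690033) (nat_lit 152) (nat_lit 1034503574) (nat_lit 201) (nat_lit 3) (nat_lit 201) (nat_lit 1) (nat_lit 203) (nat_lit 1) (nat_lit 288) (nat_lit 314) (nat_lit 298)) (XT.nd (nat_lit 78) (nat_lit 76) (nat_lit 0) (XT.lf (nat_lit 76) (nat_lit 4787678179) (nat_lit 0) (nat_lit 1038364631) (nat_lit 152) (nat_lit 4787678179) (nat_lit 200) (nat_lit 1) (nat_lit 199) (nat_lit 1) (nat_lit 201) (nat_lit 1) (nat_lit 289) (nat_lit 314) (nat_lit 297)) (XT.lf (nat_lit 152) (nat_lit 6395396315) (nat_lit 0) (nat_lit 1849845095) (nat_lit 76) (nat_lit 1849845095) (nat_lit 200) (nat_lit 1) (nat_lit 198) (nat_lit 1) (nat_lit 199) (nat_lit 1) (nat_lit 290)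 (nat_lit 314) (nat_lit 296))))) (XT.nd (nat_lit 234) (nat_lit 228) (nat_lit 0) (XT.nd (nat_lit 78) (nat_lit 228) (nat_lit 0) (XT.lf (nat_lit 0) (nat_lit 1662835493) (nat_lit 0) (nat_lit 6278706053) (nat_lit 152) (nat_lit 1662835493) (nat_lit 198) (nat_lit 3) (nat_lit 198) (nat_lit 1) (nat_lit 200) (nat_lit 1) (nat_lit 291) (nat_lit 314) (nat_lit 295)) (XT.nd (nat_lit 78) (nat_lit 152) (nat_lit 0) (XT.lf (nat_lit 76) (nat_lit 370948883) (nat_lit 0) (nat_lit 4384749371) (nat_lit 76) (nat_lit 4384749371) (nat_lit 198) (nat_lit 3) (nat_lit 197) (nat_lit 1) (nat_lit 198) (nat_lit 1) (nat_lit 292) (nat_lit 314) (nat_lit 294)) (XT.lf (nat_lit 152) (nat_lit 6591168912) (nat_lit 0) (nat_lit 1057654937) (nat_lit 76) (nat_lit 1057654937) (nat_lit 197) (nat_lit 1) (nat_lit 195) (nat_lit 1) (nat_lit 196) (nat_lit 1) (nat_lit 293) (nat_lit 314) (nat_lit 293)))) (XT.nd (nat_lit 78) (nat_lit 228) (nat_lit 0) (XT.lf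 (nat_lit 0) (nat_lit 1882344387) (nat_lit 0) (nat_lit 4521483361) (nat_lit 152) (nat_lit 1882344387) (nat_lit 195) (nat_lit 3) (nat_lit 195) (nat_lit 1) (nat_lit 197) (nat_lit 1) (nat_lit 294) (nat_lit 314) (nat_lit 292)) (XT.nd (nat_lit 78) (nat_lit 152) (nat_lit 0) (XT.lf (nat_lit 76) (nat_lit 1101357989) (nat_lit 0) (nat_lit 3396261445) (nat_lit 76) (nat_lit 3396261445) (nat_lit 195) (nat_lit 3) (nat_lit 194) (nat_lit 1) (nat_lit 195) (nat_lit 1) (nat_lit 295) (nat_lit 314) (nat_lit 291)) (XT.lf (nat_lit 152) (nat_lit 6320331184) (nat_lit 0) (nat_lit 604717643) (nat_lit 76) (nat_lit 604717643) (nat_lit 194) (nat_lit 1) (nat_lit 192) (nat_lit 1) (nat_lit 193) (nat_lit 1) (nat_lit 296) (nat_lit 314) (nat_lit 290))))))) (XT.nd (nat_lit 858) (nat_lit 912) (nat_lit 0) (XT.nd (nat_lit 390) (nat_lit 456) (nat_lit 0) (XT.nd (nat_lit 156) (nat_lit 228) (nat_lit 0) (XT.nd (nat_lit 78) (nat_lit 76) (nat_lit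 0) (XT.lf (nat_lit 0) (nat_lit 1886334597) (nat_lit 0) (nat_lit 3395270871) (nat_lit 152) (nat_lit 1886334597) (nat_lit 192) (nat_lit 3) (nat_lit 192) (nat_lit 1) (nat_lit 194) (nat_lit 1) (nat_lit 297) (nat_lit 314) (nat_lit 289)) (XT.lf (nat_lit 76) (nat_lit 1402980449) (nat_lit 0) (nat_lit 2715098948) (nat_lit 76) (nat_lit 2715098948) (nat_lit 192) (nat_lit 3) (nat_lit 191) (nat_lit 1) (nat_lit 192) (nat_lit 1) (nat_lit 298) (nat_lit 314) (nat_lit 288))) (XT.nd (nat_lit 78) (nat_lit 76) (nat_lit 0) (XT.lf (nat_lit 152) (nat_lit 5832634186) (nat_lit 0) (nat_lit 345749275) (nat_lit 76) (nat_lit 345749275) (nat_lit 191) (nat_lit 1) (nat_lit 189) (nat_lit 1) (nat_lit 190) (nat_lit 1) (nat_lit 299) (nat_lit 314) (nat_lit 287)) (XT.nd (nat_lit 78) (nat_lit 76) (nat_lit 0) (XT.lf (nat_lit 0) (nat_lit 1782951045) (nat_lit 0) (nat_lit 2645690257) (nat_lit 152) (nat_lit 1782951045) (nat_lit 189) (nat_lit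 3) (nat_lit 189) (nat_lit 1) (nat_lit 191) (nat_lit 1) (nat_lit 300) (nat_lit 314) (nat_lit 286)) (XT.lf (nat_lit 76) (nat_lit 1474572055) (nat_lit 0) (nat_lit 2224780065) (nat_lit 76) (nat_lit 2224780065) (nat_lit 189) (nat_lit 3) (nat_lit 188) (nat_lit 1) (nat_lit 189) (nat_lit 1) (nat_lit 301) (nat_lit 314) (nat_lit 285))))) (XT.nd (nat_lit 234) (nat_lit 228) (nat_lit 0) (XT.nd (nat_lit 78) (nat_lit 76) (nat_lit 0) (XT.lf (nat_lit 152) (nat_lit 5264361717) (nat_lit 0) (nat_lit 197683270) (nat_lit 76) (nat_lit 197683270) (nat_lit 188) (nat_lit 1) (nat_lit 186) (nat_lit 1) (nat_lit 187) (nat_lit 1) (nat_lit 302) (nat_lit 314) (nat_lit 284)) (XT.nd (nat_lit 78) (nat_lit 76) (nat_lit 0) (XT.lf (nat_lit 0) (nat_lit 1631958583) (nat_lit 0) (nat_lit 2125232528) (nat_lit 152) (nat_lit 1631958583) (nat_lit 186) (nat_lit 3) (nat_lit 186) (nat_lit 1) (nat_lit 188) (nat_lit 1) (nat_lit 303) (nat_lit 314)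 (nat_lit 283)) (XT.lf (nat_lit 76) (nat_lit 1427798688) (nat_lit 0) (nat_lit 1856732553) (nat_lit 76) (nat_lit 1856732553) (nat_lit 186) (nat_lit 3) (nat_lit 185) (nat_lit 1) (nat_lit 186) (nat_lit 1) (nat_lit 304) (nat_lit 314) (nat_lit 282)))) (XT.nd (nat_lit 78) (nat_lit 76) (nat_lit 0) (XT.lf (nat_lit 152) (nat_lit 4687771715) (nat_lit 0) (nat_lit 113026051) (nat_lit 76) (nat_lit 113026051) (nat_lit 185) (nat_lit 1) (nat_lit 183) (nat_lit 1) (nat_lit 184) (nat_lit 1) (nat_lit 305) (nat_lit 314) (nat_lit 281)) (XT.nd (nat_lit 78) (nat_lit 76) (nat_lit 0) (XT.lf (nat_lit 0) (nat_lit 1465730257) (nat_lit 0) (nat_lit 1747761236) (nat_lit 152) (nat_lit 1465730257) (nat_lit 183) (nat_lit 3) (nat_lit 183) (nat_lit 1) (nat_lit 185) (nat_lit 1) (nat_lit 306) (nat_lit 314) (nat_lit 280)) (XT.lf (nat_lit 76) (nat_lit 1324789691) (nat_lit 0) (nat_lit 1570034020) (nat_lit 76) (nat_lit 1570034020) (nat_lit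 183) (nat_lit 3) (nat_lit 182) (nat_lit 1) (nat_lit 183) (nat_lit 1) (nat_lit 307) (nat_lit 314) (nat_lit 279)))))) (XT.nd (nat_lit 468) (nat_lit 456) (nat_lit 0) (XT.nd (nat_lit 234) (nat_lit 228) (nat_lit 0) (XT.nd (nat_lit 78) (nat_lit 76) (nat_lit 0) (XT.lf (nat_lit 152) (nat_lit 4139253751) (nat_lit 0) (nat_lit 64623011) (nat_lit 76) (nat_lit 64623011) (nat_lit 182) (nat_lit 1) (nat_lit 180) (nat_lit 1) (nat_lit 181) (nat_lit 1) (nat_lit 308) (nat_lit 314) (nat_lit 278)) (XT.nd (nat_lit 78) (nat_lit 76) (nat_lit 0) (XT.lf (nat_lit 0) (nat_lit 1301212241) (nat_lit 0) (nat_lit 1462464368) (nat_lit 152) (nat_lit 1301212241) (nat_lit 180) (nat_lit 3) (nat_lit 180) (nat_lit 1) (nat_lit 182) (nat_lit 1) (nat_lit 309) (nat_lit 314) (nat_lit 277)) (XT.lf (nat_lit 76) (nat_lit 1199575550) (nat_lit 0) (nat_lit 1339794792) (nat_lit 76) (nat_lit 1339794792) (nat_lit 180) (nat_lit 3) (nat_lit 179) (nat_lit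 1) (nat_lit 180) (nat_lit 1) (nat_lit 310) (nat_lit 314) (nat_lit 276)))) (XT.nd (nat_lit 78) (nat_lit 76) (nat_lit 0) (XT.lf (nat_lit 152) (nat_lit 3635331818) (nat_lit 0) (nat_lit 36948416) (nat_lit 76) (nat_lit 36948416) (nat_lit 179) (nat_lit 1) (nat_lit 177) (nat_lit 1) (nat_lit 178) (nat_lit 1) (nat_lit 311) (nat_lit 314) (nat_lit 275)) (XT.nd (nat_lit 78) (nat_lit 76) (nat_lit 0) (XT.lf (nat_lit 0) (nat_lit 1146734243) (nat_lit 0) (nat_lit 1238930670) (nat_lit 152) (nat_lit 1146734243) (nat_lit 177) (nat_lit 3) (nat_lit 177) (nat_lit 1) (nat_lit 179) (nat_lit 1) (nat_lit 312) (nat_lit 314) (nat_lit 274)) (XT.lf (nat_lit 76) (nat_lit 1070315775) (nat_lit 0) (nat_lit 1150486581) (nat_lit 76) (nat_lit 1150486581) (nat_lit 177) (nat_lit 3) (nat_lit 176) (nat_lit 1) (nat_lit 177) (nat_lit 1) (nat_lit 313) (nat_lit 314) (nat_lit 273))))) (XT.nd (nat_lit 234) (nat_lit 228) (nat_lit 0) (XT.nd (nat_lit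 78) (nat_lit 76) (nat_lit 0) (XT.lf (nat_lit 152) (nat_lit 3181730201) (nat_lit 0) (nat_lit 21125377) (nat_lit 76) (nat_lit 21125377) (nat_lit 176) (nat_lit 1) (nat_lit 174) (nat_lit 1) (nat_lit 175) (nat_lit 1) (nat_lit 314) (nat_lit 314) (nat_lit 272)) (XT.nd (nat_lit 78) (nat_lit 76) (nat_lit 0) (XT.lf (nat_lit 0) (nat_lit 1005876782) (nat_lit 0) (nat_lit 1058590389) (nat_lit 152) (nat_lit 1005876782) (nat_lit 174) (nat_lit 3) (nat_lit 174) (nat_lit 1) (nat_lit 176) (nat_lit 1) (nat_lit 315) (nat_lit 314) (nat_lit 271)) (XT.lf (nat_lit 76) (nat_lit 946264832) (nat_lit 0) (nat_lit 992102751) (nat_lit 76) (nat_lit 992102751) (nat_lit 174) (nat_lit 3) (nat_lit 173) (nat_lit 1) (nat_lit 174) (nat_lit 1) (nat_lit 316) (nat_lit 314) (nat_lit 270)))) (XT.nd (nat_lit 78) (nat_lit 76) (nat_lit 0) (XT.lf (nat_lit 152) (nat_lit 2778484078) (nat_lit 0) (nat_lit 12078502) (nat_lit 76) (nat_lit 12078502)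 (nat_lit 173) (nat_lit 1) (nat_lit 171) (nat_lit 1) (nat_lit 172) (nat_lit 1) (nat_lit 317) (nat_lit 314) (nat_lit 269)) (XT.nd (nat_lit 78) (nat_lit 76) (nat_lit 0) (XT.lf (nat_lit 0) (nat_lit 879659191) (nat_lit 0) (nat_lit 909798366) (nat_lit 152) (nat_lit 879659191) (nat_lit 171) (nat_lit 3) (nat_lit 171) (nat_lit 1) (nat_lit 173) (nat_lit 1) (nat_lit 318) (nat_lit 314) (nat_lit 268)) (XT.lf (nat_lit 76) (nat_lit 831732870) (nat_lit 0) (nat_lit 857940849) (nat_lit 76) (nat_lit 857940849) (nat_lit 171) (nat_lit 3) (nat_lit 170) (nat_lit 1) (nat_lit 171) (nat_lit 1) (nat_lit 319) (nat_lit 314) (nat_lit 267))))))))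
noncomputable def ec50 : XT := (XT.nd (nat_lit 1716) (nat_lit 1596) (nat_lit 0) (XT.nd (nat_lit 858) (nat_lit 912) (nat_lit 0) (XT.nd (nat_lit 390) (nat_lit 456) (nat_lit 0) (XT.nd (nat_lit 156) (nat_lit 228) (nat_lit 0) (XT.nd (nat_lit 78) (nat_lit 0) (nat_lit 0) (XT.lf (nat_lit 152) (nat_lit 2422798167) (nat_lit 0) (nat_lit 6905923) (nat_lit 76) (nat_lit 6905923) (nat_lit 170) (nat_lit 1) (nat_lit 168) (nat_lit 1) (nat_lit 169) (nat_lit 1) (nat_lit 320) (nat_lit 314) (nat_lit 266)) (XT.lf (nat_lit 0) (nat_lit 767770498) (nat_lit 0) (nat_lit 785002669) (nat_lit 152) (nat_lit 767770498) (nat_lit 168) (nat_lit 3) (nat_lit 168) (nat_lit 1) (nat_lit 170) (nat_lit 1) (nat_lit 321) (nat_lit 314) (nat_lit 265))) (XT.nd (nat_lit 78) (nat_lit 152) (nat_lit 0) (XT.lf (nat_lit 76) (nat_lit 728331082) (nat_lit 0) (nat_lit 743315579) (nat_lit 76) (nat_lit 743315579) (nat_lit 168) (nat_lit 3) (nat_lit 167)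 (nat_lit 1) (nat_lit 168) (nat_lit 1) (nat_lit 322) (nat_lit 314) (nat_lit 264)) (XT.nd (nat_lit 78) (nat_lit 0) (nat_lit 0) (XT.lf (nat_lit 152) (nat_lit 2110626087) (nat_lit 0) (nat_lit 3948484) (nat_lit 76) (nat_lit 3948484) (nat_lit 167) (nat_lit 1) (nat_lit 165) (nat_lit 1) (nat_lit 166) (nat_lit 1) (nat_lit 323) (nat_lit 314) (nat_lit 263)) (XT.lf (nat_lit 0) (nat_lit 669255709) (nat_lit 0) (nat_lit 679108259) (nat_lit 152) (nat_lit 669255709) (nat_lit 165) (nat_lit 3) (nat_lit 165) (nat_lit 1) (nat_lit 167) (nat_lit 1) (nat_lit 324) (nat_lit 314) (nat_lit 262))))) (XT.nd (nat_lit 234) (nat_lit 228) (nat_lit 0) (XT.nd (nat_lit 78) (nat_lit 152) (nat_lit 0) (XT.lf (nat_lit 76) (nat_lit 636238803) (nat_lit 0) (nat_lit 644806238) (nat_lit 76) (nat_lit 644806238) (nat_lit 165) (nat_lit 3) (nat_lit 164) (nat_lit 1) (nat_lit 165) (nat_lit 1) (nat_lit 325) (nat_lit 314) (nat_lit 261)) (XT.nd (nat_lit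 78) (nat_lit 0) (nat_lit 0) (XT.lf (nat_lit 152) (nat_lit 1837525465) (nat_lit 0) (nat_lit 2257558) (nat_lit 76) (nat_lit 2257558) (nat_lit 164) (nat_lit 1) (nat_lit 162) (nat_lit 1) (nat_lit 163) (nat_lit 1) (nat_lit 326) (nat_lit 314) (nat_lit 260)) (XT.lf (nat_lit 0) (nat_lit 582892981) (nat_lit 0) (nat_lit 588526208) (nat_lit 152) (nat_lit 582892981) (nat_lit 162) (nat_lit 3) (nat_lit 162) (nat_lit 1) (nat_lit 164) (nat_lit 1) (nat_lit 327) (nat_lit 314) (nat_lit 259)))) (XT.nd (nat_lit 78) (nat_lit 152) (nat_lit 0) (XT.lf (nat_lit 76) (nat_lit 554913464) (nat_lit 0) (nat_lit 559811922) (nat_lit 76) (nat_lit 559811922) (nat_lit 162) (nat_lit 3) (nat_lit 161) (nat_lit 1) (nat_lit 162) (nat_lit 1) (nat_lit 328) (nat_lit 314) (nat_lit 258)) (XT.nd (nat_lit 78) (nat_lit 0) (nat_lit 0) (XT.lf (nat_lit 152) (nat_lit 1599105191) (nat_lit 0) (nat_lit 1290766) (nat_lit 76) (nat_lit 1290766) (nat_lit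 161) (nat_lit 1) (nat_lit 159) (nat_lit 1) (nat_lit 160) (nat_lit 1) (nat_lit 329) (nat_lit 314) (nat_lit 257)) (XT.lf (nat_lit 0) (nat_lit 507396046) (nat_lit 0) (nat_lit 510616862) (nat_lit 152) (nat_lit 507396046) (nat_lit 159) (nat_lit 3) (nat_lit 159) (nat_lit 1) (nat_lit 161) (nat_lit 1) (nat_lit 330) (nat_lit 314) (nat_lit 256)))))) (XT.nd (nat_lit 390) (nat_lit 456) (nat_lit 0) (XT.nd (nat_lit 156) (nat_lit 228) (nat_lit 0) (XT.nd (nat_lit 78) (nat_lit 152) (nat_lit 0) (XT.lf (nat_lit 76) (nat_lit 483483890) (nat_lit 0) (nat_lit 486284599) (nat_lit 76) (nat_lit 486284599) (nat_lit 159) (nat_lit 3) (nat_lit 158) (nat_lit 1) (nat_lit 159) (nat_lit 1) (nat_lit 331) (nat_lit 314) (nat_lit 255)) (XT.lf (nat_lit 152) (nat_lit 1391244925) (nat_lit 0) (nat_lit 737999) (nat_lit 76) (nat_lit 737999) (nat_lit 158) (nat_lit 1) (nat_lit 156) (nat_lit 1) (nat_lit 157) (nat_lit 1) (nat_lit 332) (nat_lit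 314) (nat_lit 254))) (XT.nd (nat_lit 78) (nat_lit 228) (nat_lit 0) (XT.lf (nat_lit 0) (nat_lit 441518460) (nat_lit 0) (nat_lit 443359973) (nat_lit 152) (nat_lit 441518460) (nat_lit 156) (nat_lit 3) (nat_lit 156) (nat_lit 1) (nat_lit 158) (nat_lit 1) (nat_lit 333) (nat_lit 314) (nat_lit 253)) (XT.nd (nat_lit 78) (nat_lit 152) (nat_lit 0) (XT.lf (nat_lit 76) (nat_lit 420964193) (nat_lit 0) (nat_lit 422565507) (nat_lit 76) (nat_lit 422565507) (nat_lit 156) (nat_lit 3) (nat_lit 155) (nat_lit 1) (nat_lit 156) (nat_lit 1) (nat_lit 334) (nat_lit 314) (nat_lit 252)) (XT.lf (nat_lit 152) (nat_lit 1210189098) (nat_lit 0) (nat_lit 421953) (nat_lit 76) (nat_lit 421953) (nat_lit 155) (nat_lit 1) (nat_lit 153) (nat_lit 1) (nat_lit 154) (nat_lit 1) (nat_lit 335) (nat_lit 314) (nat_lit 251))))) (XT.nd (nat_lit 234) (nat_lit 228) (nat_lit 0) (XT.nd (nat_lit 78) (nat_lit 228) (nat_lit 0) (XT.lf (nat_lit 0) (nat_lit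 384103199) (nat_lit 0) (nat_lit 385156089) (nat_lit 152) (nat_lit 384103199) (nat_lit 153) (nat_lit 3) (nat_lit 153) (nat_lit 1) (nat_lit 155) (nat_lit 1) (nat_lit 336) (nat_lit 314) (nat_lit 250)) (XT.nd (nat_lit 78) (nat_lit 152) (nat_lit 0) (XT.lf (nat_lit 76) (nat_lit 366366521) (nat_lit 0) (nat_lit 367282078) (nat_lit 76) (nat_lit 367282078) (nat_lit 153) (nat_lit 3) (nat_lit 152) (nat_lit 1) (nat_lit 153) (nat_lit 1) (nat_lit 337) (nat_lit 314) (nat_lit 249)) (XT.lf (nat_lit 152) (nat_lit 1052573281) (nat_lit 0) (nat_lit 241253) (nat_lit 76) (nat_lit 241253) (nat_lit 152) (nat_lit 1) (nat_lit 150) (nat_lit 1) (nat_lit 151) (nat_lit 1) (nat_lit 338) (nat_lit 314) (nat_lit 248)))) (XT.nd (nat_lit 78) (nat_lit 228) (nat_lit 0) (XT.lf (nat_lit 0) (nat_lit 334102326) (nat_lit 0) (nat_lit 334704319) (nat_lit 152) (nat_lit 334102326) (nat_lit 150) (nat_lit 3) (nat_lit 150) (nat_lit 1) (nat_lit 152)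 (nat_lit 1) (nat_lit 339) (nat_lit 314) (nat_lit 247)) (XT.nd (nat_lit 78) (nat_lit 152) (nat_lit 0) (XT.lf (nat_lit 76) (nat_lit 318757228) (nat_lit 0) (nat_lit 319280701) (nat_lit 76) (nat_lit 319280701) (nat_lit 150) (nat_lit 3) (nat_lit 149) (nat_lit 1) (nat_lit 150) (nat_lit 1) (nat_lit 340) (nat_lit 314) (nat_lit 246)) (XT.lf (nat_lit 152) (nat_lit 915415439) (nat_lit 0) (nat_lit 137937) (nat_lit 76) (nat_lit 137937) (nat_lit 149) (nat_lit 1) (nat_lit 147) (nat_lit 1) (nat_lit 148) (nat_lit 1) (nat_lit 341) (nat_lit 314) (nat_lit 245))))))) (XT.nd (nat_lit 858) (nat_lit 836) (nat_lit 0) (XT.nd (nat_lit 390) (nat_lit 456) (nat_lit 0) (XT.nd (nat_lit 156) (nat_lit 228) (nat_lit 0) (XT.nd (nat_lit 78) (nat_lit 76) (nat_lit 0) (XT.lf (nat_lit 0) (nat_lit 290580676) (nat_lit 0) (nat_lit 290924868) (nat_lit 152) (nat_lit 290580676) (nat_lit 147) (nat_lit 3) (nat_lit 147) (nat_lit 1) (nat_lit 149)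 (nat_lit 1) (nat_lit 342) (nat_lit 314) (nat_lit 244)) (XT.lf (nat_lit 76) (nat_lit 277281767) (nat_lit 0) (nat_lit 277581064) (nat_lit 76) (nat_lit 277581064) (nat_lit 147) (nat_lit 3) (nat_lit 146) (nat_lit 1) (nat_lit 147) (nat_lit 1) (nat_lit 343) (nat_lit 314) (nat_lit 243))) (XT.nd (nat_lit 78) (nat_lit 76) (nat_lit 0) (XT.lf (nat_lit 152) (nat_lit 796090226) (nat_lit 0) (nat_lit 78866) (nat_lit 76) (nat_lit 78866) (nat_lit 146) (nat_lit 1) (nat_lit 144) (nat_lit 1) (nat_lit 145) (nat_lit 1) (nat_lit 344) (nat_lit 314) (nat_lit 242)) (XT.nd (nat_lit 78) (nat_lit 76) (nat_lit 0) (XT.lf (nat_lit 0) (nat_lit 252711390) (nat_lit 0) (nat_lit 252908182) (nat_lit 152) (nat_lit 252711390) (nat_lit 144) (nat_lit 3) (nat_lit 144) (nat_lit 1) (nat_lit 146) (nat_lit 1) (nat_lit 345) (nat_lit 314) (nat_lit 241)) (XT.lf (nat_lit 76) (nat_lit 241172652) (nat_lit 0) (nat_lit 241343777) (nat_lit 76) (nat_lit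 241343777) (nat_lit 144) (nat_lit 3) (nat_lit 143) (nat_lit 1) (nat_lit 144) (nat_lit 1) (nat_lit 346) (nat_lit 314) (nat_lit 240))))) (XT.nd (nat_lit 234) (nat_lit 228) (nat_lit 0) (XT.nd (nat_lit 78) (nat_lit 76) (nat_lit 0) (XT.lf (nat_lit 152) (nat_lit 692296281) (nat_lit 0) (nat_lit 45091) (nat_lit 76) (nat_lit 45091) (nat_lit 143) (nat_lit 1) (nat_lit 141) (nat_lit 1) (nat_lit 142) (nat_lit 1) (nat_lit 347) (nat_lit 314) (nat_lit 239)) (XT.nd (nat_lit 78) (nat_lit 76) (nat_lit 0) (XT.lf (nat_lit 0) (nat_lit 219767640) (nat_lit 0) (nat_lit 219880157) (nat_lit 152) (nat_lit 219767640) (nat_lit 141) (nat_lit 3) (nat_lit 141) (nat_lit 1) (nat_lit 143) (nat_lit 1) (nat_lit 348) (nat_lit 314) (nat_lit 238)) (XT.lf (nat_lit 76) (nat_lit 209748553) (nat_lit 0) (nat_lit 209846394) (nat_lit 76) (nat_lit 209846394) (nat_lit 141) (nat_lit 3) (nat_lit 140) (nat_lit 1) (nat_lit 141) (nat_lit 1) (nat_lit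 349) (nat_lit 314) (nat_lit 237)))) (XT.nd (nat_lit 78) (nat_lit 76) (nat_lit 0) (XT.lf (nat_lit 152) (nat_lit 602021872) (nat_lit 0) (nat_lit 25781) (nat_lit 76) (nat_lit 25781) (nat_lit 140) (nat_lit 1) (nat_lit 138) (nat_lit 1) (nat_lit 139) (nat_lit 1) (nat_lit 350) (nat_lit 314) (nat_lit 236)) (XT.nd (nat_lit 78) (nat_lit 76) (nat_lit 0) (XT.lf (nat_lit 0) (nat_lit 191112933) (nat_lit 0) (nat_lit 191177265) (nat_lit 152) (nat_lit 191112933) (nat_lit 138) (nat_lit 3) (nat_lit 138) (nat_lit 1) (nat_lit 140) (nat_lit 1) (nat_lit 351) (nat_lit 314) (nat_lit 235)) (XT.lf (nat_lit 76) (nat_lit 182409030) (nat_lit 0) (nat_lit 182464971) (nat_lit 76) (nat_lit 182464971) (nat_lit 138) (nat_lit 3) (nat_lit 137) (nat_lit 1) (nat_lit 138) (nat_lit 1) (nat_lit 352) (nat_lit 314) (nat_lit 234)))))) (XT.nd (nat_lit 390) (nat_lit 456) (nat_lit 0) (XT.nd (nat_lit 156) (nat_lit 228) (nat_lit 0) (XT.nd (nat_lit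 78) (nat_lit 0) (nat_lit 0) (XT.lf (nat_lit 152) (nat_lit 523511635) (nat_lit 0) (nat_lit 14740) (nat_lit 76) (nat_lit 14740) (nat_lit 137) (nat_lit 1) (nat_lit 135) (nat_lit 1) (nat_lit 136) (nat_lit 1) (nat_lit 353) (nat_lit 314) (nat_lit 233)) (XT.lf (nat_lit 0) (nat_lit 166191241) (nat_lit 0) (nat_lit 166228023) (nat_lit 152) (nat_lit 166191241) (nat_lit 135) (nat_lit 3) (nat_lit 135) (nat_lit 1) (nat_lit 137) (nat_lit 1) (nat_lit 354) (nat_lit 314) (nat_lit 232))) (XT.nd (nat_lit 78) (nat_lit 152) (nat_lit 0) (XT.lf (nat_lit 76) (nat_lit 158627402) (nat_lit 0) (nat_lit 158659386) (nat_lit 76) (nat_lit 158659386) (nat_lit 135) (nat_lit 3) (nat_lit 134) (nat_lit 1) (nat_lit 135) (nat_lit 1) (nat_lit 355) (nat_lit 314) (nat_lit 231)) (XT.nd (nat_lit 78) (nat_lit 0) (nat_lit 0) (XT.lf (nat_lit 152) (nat_lit 455235716) (nat_lit 0) (nat_lit 8428) (nat_lit 76) (nat_lit 8428) (nat_lit 134) (nat_lit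 1) (nat_lit 132) (nat_lit 1) (nat_lit 133) (nat_lit 1) (nat_lit 356) (nat_lit 314) (nat_lit 230)) (XT.lf (nat_lit 0) (nat_lit 144517600) (nat_lit 0) (nat_lit 144538631) (nat_lit 152) (nat_lit 144517600) (nat_lit 132) (nat_lit 3) (nat_lit 132) (nat_lit 1) (nat_lit 134) (nat_lit 1) (nat_lit 357) (nat_lit 314) (nat_lit 229))))) (XT.nd (nat_lit 234) (nat_lit 228) (nat_lit 0) (XT.nd (nat_lit 78) (nat_lit 152) (nat_lit 0) (XT.lf (nat_lit 76) (nat_lit 137943077) (nat_lit 0) (nat_lit 137961364) (nat_lit 76) (nat_lit 137961364) (nat_lit 132) (nat_lit 3) (nat_lit 131) (nat_lit 1) (nat_lit 132) (nat_lit 1) (nat_lit 358) (nat_lit 314) (nat_lit 228)) (XT.nd (nat_lit 78) (nat_lit 0) (nat_lit 0) (XT.lf (nat_lit 152) (nat_lit 395861837) (nat_lit 0) (nat_lit 4818) (nat_lit 76) (nat_lit 4818) (nat_lit 131) (nat_lit 1) (nat_lit 129) (nat_lit 1) (nat_lit 130) (nat_lit 1) (nat_lit 359) (nat_lit 314) (nat_lit 227))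 (XT.lf (nat_lit 0) (nat_lit 125669467) (nat_lit 0) (nat_lit 125681491) (nat_lit 152) (nat_lit 125669467) (nat_lit 129) (nat_lit 3) (nat_lit 129) (nat_lit 1) (nat_lit 131) (nat_lit 1) (nat_lit 360) (nat_lit 314) (nat_lit 226)))) (XT.nd (nat_lit 78) (nat_lit 152) (nat_lit 0) (XT.lf (nat_lit 76) (nat_lit 119954050) (nat_lit 0) (nat_lit 119964506) (nat_lit 76) (nat_lit 119964506) (nat_lit 129) (nat_lit 3) (nat_lit 128) (nat_lit 1) (nat_lit 129) (nat_lit 1) (nat_lit 361) (nat_lit 314) (nat_lit 225)) (XT.nd (nat_lit 78) (nat_lit 0) (nat_lit 0) (XT.lf (nat_lit 152) (nat_lit 344230367) (nat_lit 0) (nat_lit 2755) (nat_lit 76) (nat_lit 2755) (nat_lit 128) (nat_lit 1) (nat_lit 126) (nat_lit 1) (nat_lit 127) (nat_lit 1) (nat_lit 362) (nat_lit 314) (nat_lit 224)) (XT.lf (nat_lit 0) (nat_lit 109278934) (nat_lit 0) (nat_lit 109285809) (nat_lit 152) (nat_lit 109278934) (nat_lit 126) (nat_lit 3) (nat_lit 126) (nat_lit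 1) (nat_lit 128) (nat_lit 1) (nat_lit 363) (nat_lit 314) (nat_lit 223))))))))
noncomputable def ec51 : XT := (XT.nd (nat_lit 40638) (nat_lit 0) (nat_lit 4788) (XT.nd (nat_lit 39780) (nat_lit 0) (nat_lit 6460) (XT.nd (nat_lit 390) (nat_lit 228) (nat_lit 0) (XT.nd (nat_lit 156) (nat_lit 228) (nat_lit 0) (XT.nd (nat_lit 78) (nat_lit 152) (nat_lit 0) (XT.lf (nat_lit 76) (nat_lit 104309898) (nat_lit 0) (nat_lit 104315876) (nat_lit 76) (nat_lit 104315876) (nat_lit 126) (nat_lit 3) (nat_lit 125) (nat_lit 1) (nat_lit 126) (nat_lit 1) (nat_lit 364) (nat_lit 314) (nat_lit 222)) (XT.lf (nat_lit 152) (nat_lit 299332288) (nat_lit 0) (nat_lit 1575) (nat_lit 76) (nat_lit 1575) (nat_lit 125) (nat_lit 1) (nat_lit 123) (nat_lit 1) (nat_lit 124) (nat_lit 1) (nat_lit 365) (nat_lit 314) (nat_lit 221))) (XT.nd (nat_lit 78) (nat_lit 228) (nat_lit 0) (XT.lf (nat_lit 0) (nat_lit 95025810) (nat_lit 0) (nat_lit 95029741)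 (nat_lit 152) (nat_lit 95025810) (nat_lit 123) (nat_lit 3) (nat_lit 123) (nat_lit 1) (nat_lit 125) (nat_lit 1) (nat_lit 366) (nat_lit 314) (nat_lit 220)) (XT.nd (nat_lit 78) (nat_lit 152) (nat_lit 0) (XT.lf (nat_lit 76) (nat_lit 90705419) (nat_lit 0) (nat_lit 90708837) (nat_lit 76) (nat_lit 90708837) (nat_lit 123) (nat_lit 3) (nat_lit 122) (nat_lit 1) (nat_lit 123) (nat_lit 1) (nat_lit 367) (nat_lit 314) (nat_lit 219)) (XT.lf (nat_lit 152) (nat_lit 260289823) (nat_lit 0) (nat_lit 900) (nat_lit 76) (nat_lit 900) (nat_lit 122) (nat_lit 1) (nat_lit 120) (nat_lit 1) (nat_lit 121) (nat_lit 1) (nat_lit 368) (nat_lit 314) (nat_lit 218))))) (XT.nd (nat_lit 39156) (nat_lit 0) (nat_lit 7448) (XT.nd (nat_lit 78) (nat_lit 228) (nat_lit 0) (XT.lf (nat_lit 0) (nat_lit 82631511) (nat_lit 0) (nat_lit 82633758) (nat_lit 152) (nat_lit 82631511) (nat_lit 120) (nat_lit 3) (nat_lit 120) (nat_lit 1) (nat_lit 122) (nat_lit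 1) (nat_lit 369) (nat_lit 314) (nat_lit 217)) (XT.nd (nat_lit 78) (nat_lit 152) (nat_lit 0) (XT.lf (nat_lit 76) (nat_lit 78874941) (nat_lit 0) (nat_lit 78876895) (nat_lit 76) (nat_lit 78876895) (nat_lit 120) (nat_lit 3) (nat_lit 119) (nat_lit 1) (nat_lit 120) (nat_lit 1) (nat_lit 370) (nat_lit 314) (nat_lit 216)) (XT.lf (nat_lit 152) (nat_lit 226339478) (nat_lit 0) (nat_lit 514) (nat_lit 76) (nat_lit 514) (nat_lit 119) (nat_lit 1) (nat_lit 117) (nat_lit 1) (nat_lit 118) (nat_lit 1) (nat_lit 371) (nat_lit 314) (nat_lit 215)))) (XT.nd (nat_lit 78) (nat_lit 0) (nat_lit 0) (XT.lf (nat_lit 380) (nat_lit 5709420675) (nat_lit 0) (nat_lit 5056974409) (nat_lit 380) (nat_lit 5709420675) (nat_lit 220) (nat_lit 1) (nat_lit 215) (nat_lit 0) (nat_lit 220) (nat_lit 0) (nat_lit 270) (nat_lit 315) (nat_lit 315)) (XT.nd (nat_lit 78) (nat_lit 0) (nat_lit 76) (XT.lf (nat_lit 380) (nat_lit 21118406138) (nat_lit 76)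 (nat_lit 4827111936) (nat_lit 0) (nat_lit 4827111936) (nat_lit 220) (nat_lit 1) (nat_lit 216) (nat_lit 1) (nat_lit 215) (nat_lit 0) (nat_lit 271) (nat_lit 315) (nat_lit 314)) (XT.lf (nat_lit 380) (nat_lit 9308872326) (nat_lit 0) (nat_lit 10128931212) (nat_lit 304) (nat_lit 9308872326) (nat_lit 221) (nat_lit 1) (nat_lit 216) (nat_lit 1) (nat_lit 220) (nat_lit 1) (nat_lit 272) (nat_lit 315) (nat_lit 313)))))) (XT.nd (nat_lit 390) (nat_lit 684) (nat_lit 0) (XT.nd (nat_lit 156) (nat_lit 380) (nat_lit 0) (XT.nd (nat_lit 78) (nat_lit 0) (nat_lit 76) (XT.lf (nat_lit 380) (nat_lit 15982850441) (nat_lit 76) (nat_lit 5471036608) (nat_lit 0) (nat_lit 5471036608) (nat_lit 221) (nat_lit 1) (nat_lit 217) (nat_lit 1) (nat_lit 216) (nat_lit 1) (nat_lit 273) (nat_lit 315) (nat_lit 312)) (XT.lf (nat_lit 76) (nat_lit 6465274983) (nat_lit 0) (nat_lit 12310968972) (nat_lit 304) (nat_lit 6465274983) (nat_lit 218) (nat_lit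 1) (nat_lit 217) (nat_lit 1) (nat_lit 221) (nat_lit 1) (nat_lit 274) (nat_lit 315) (nat_lit 311))) (XT.nd (nat_lit 78) (nat_lit 152) (nat_lit 0) (XT.lf (nat_lit 380) (nat_lit 9716786141) (nat_lit 0) (nat_lit 6993956336) (nat_lit 304) (nat_lit 6993956336) (nat_lit 218) (nat_lit 1) (nat_lit 213) (nat_lit 1) (nat_lit 217) (nat_lit 1) (nat_lit 275) (nat_lit 315) (nat_lit 310)) (XT.nd (nat_lit 78) (nat_lit 152) (nat_lit 0) (XT.lf (nat_lit 76) (nat_lit 3229752400) (nat_lit 0) (nat_lit 15848475979) (nat_lit 380) (nat_lit 3229752400) (nat_lit 214) (nat_lit 1) (nat_lit 213) (nat_lit 1) (nat_lit 218) (nat_lit 1) (nat_lit 276) (nat_lit 315) (nat_lit 309)) (XT.lf (nat_lit 228) (nat_lit 2906700972) (nat_lit 0) (nat_lit 9046389545) (nat_lit 152) (nat_lit 9046389545) (nat_lit 214) (nat_lit 1) (nat_lit 211) (nat_lit 1) (nat_lit 213) (nat_lit 1) (nat_lit 277) (nat_lit 315) (nat_lit 308))))) (XT.nd (nat_lit 234)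 (nat_lit 304) (nat_lit 0) (XT.nd (nat_lit 78) (nat_lit 152) (nat_lit 0) (XT.lf (nat_lit 228) (nat_lit 19532993957) (nat_lit 0) (nat_lit 153256087) (nat_lit 152) (nat_lit 153256087) (nat_lit 211) (nat_lit 1) (nat_lit 208) (nat_lit 1) (nat_lit 210) (nat_lit 1) (nat_lit 278) (nat_lit 315) (nat_lit 307)) (XT.nd (nat_lit 78) (nat_lit 152) (nat_lit 0) (XT.lf (nat_lit 76) (nat_lit 7504701129) (nat_lit 0) (nat_lit 3684408781) (nat_lit 228) (nat_lit 7504701129) (nat_lit 209) (nat_lit 1) (nat_lit 208) (nat_lit 1) (nat_lit 211) (nat_lit 1) (nat_lit 279) (nat_lit 315) (nat_lit 306)) (XT.lf (nat_lit 228) (nat_lit 10908371131) (nat_lit 0) (nat_lit 3383669491) (nat_lit 152) (nat_lit 3383669491) (nat_lit 209) (nat_lit 1) (nat_lit 206) (nat_lit 1) (nat_lit 208) (nat_lit 1) (nat_lit 280) (nat_lit 315) (nat_lit 305)))) (XT.nd (nat_lit 78) (nat_lit 304) (nat_lit 0) (XT.lf (nat_lit 76) (nat_lit 3411405432) (nat_lit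 0) (nat_lit 9899840241) (nat_lit 228) (nat_lit 3411405432) (nat_lit 207) (nat_lit 1) (nat_lit 206) (nat_lit 1) (nat_lit 209) (nat_lit 1) (nat_lit 281) (nat_lit 315) (nat_lit 304)) (XT.nd (nat_lit 78) (nat_lit 228) (nat_lit 0) (XT.lf (nat_lit 152) (nat_lit 2820157024) (nat_lit 0) (nat_lit 6507526205) (nat_lit 76) (nat_lit 6507526205) (nat_lit 207) (nat_lit 1) (nat_lit 205) (nat_lit 1) (nat_lit 206) (nat_lit 1) (nat_lit 282) (nat_lit 315) (nat_lit 303)) (XT.lf (nat_lit 228) (nat_lit 14277292613) (nat_lit 0) (nat_lit 379290890) (nat_lit 152) (nat_lit 379290890) (nat_lit 205) (nat_lit 1) (nat_lit 202) (nat_lit 1) (nat_lit 204) (nat_lit 1) (nat_lit 283) (nat_lit 315) (nat_lit 302))))))) (XT.nd (nat_lit 858) (nat_lit 912) (nat_lit 0) (XT.nd (nat_lit 390) (nat_lit 456) (nat_lit 0) (XT.nd (nat_lit 156) (nat_lit 228) (nat_lit 0) (XT.nd (nat_lit 78) (nat_lit 76) (nat_lit 0) (XT.lf (nat_lit 76) (nat_lit 4996745346)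 (nat_lit 0) (nat_lit 4243399175) (nat_lit 228) (nat_lit 4996745346) (nat_lit 203) (nat_lit 1) (nat_lit 202) (nat_lit 1) (nat_lit 205) (nat_lit 1) (nat_lit 284) (nat_lit 315) (nat_lit 301)) (XT.lf (nat_lit 152) (nat_lit 6075563763) (nat_lit 0) (nat_lit 3720699229) (nat_lit 76) (nat_lit 3720699229) (nat_lit 203) (nat_lit 1) (nat_lit 201) (nat_lit 1) (nat_lit 202) (nat_lit 1) (nat_lit 285) (nat_lit 315) (nat_lit 300))) (XT.nd (nat_lit 78) (nat_lit 228) (nat_lit 0) (XT.lf (nat_lit 0) (nat_lit 1189679110) (nat_lit 0) (nat_lit 10473843538) (nat_lit 152) (nat_lit 1189679110) (nat_lit 201) (nat_lit 3) (nat_lit 201) (nat_lit 1) (nat_lit 203) (nat_lit 1) (nat_lit 286) (nat_lit 315) (nat_lit 299)) (XT.nd (nat_lit 78) (nat_lit 76) (nat_lit 0) (XT.lf (nat_lit 76) (nat_lit 5505829906) (nat_lit 0) (nat_lit 1194119326) (nat_lit 152) (nat_lit 5505829906) (nat_lit 200) (nat_lit 1) (nat_lit 199) (nat_lit 1) (nat_lit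 201) (nat_lit 1) (nat_lit 287) (nat_lit 315) (nat_lit 298)) (XT.lf (nat_lit 152) (nat_lit 7354705762) (nat_lit 0) (nat_lit 2127321860) (nat_lit 76) (nat_lit 2127321860) (nat_lit 200) (nat_lit 1) (nat_lit 198) (nat_lit 1) (nat_lit 199) (nat_lit 1) (nat_lit 288) (nat_lit 315) (nat_lit 297))))) (XT.nd (nat_lit 234) (nat_lit 228) (nat_lit 0) (XT.nd (nat_lit 78) (nat_lit 228) (nat_lit 0) (XT.lf (nat_lit 0) (nat_lit 1912260817) (nat_lit 0) (nat_lit 7220511961) (nat_lit 152) (nat_lit 1912260817) (nat_lit 198) (nat_lit 3) (nat_lit 198) (nat_lit 1) (nat_lit 200) (nat_lit 1) (nat_lit 289) (nat_lit 315) (nat_lit 296)) (XT.nd (nat_lit 78) (nat_lit 152) (nat_lit 0) (XT.lf (nat_lit 76) (nat_lit 426591216) (nat_lit 0) (nat_lit 5042461776) (nat_lit 76) (nat_lit 5042461776) (nat_lit 198) (nat_lit 3) (nat_lit 197) (nat_lit 1) (nat_lit 198) (nat_lit 1) (nat_lit 290) (nat_lit 315) (nat_lit 295)) (XT.lf (nat_lit 152)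 (nat_lit 7579844248) (nat_lit 0) (nat_lit 1216303177) (nat_lit 76) (nat_lit 1216303177) (nat_lit 197) (nat_lit 1) (nat_lit 195) (nat_lit 1) (nat_lit 196) (nat_lit 1) (nat_lit 291) (nat_lit 315) (nat_lit 294)))) (XT.nd (nat_lit 78) (nat_lit 228) (nat_lit 0) (XT.lf (nat_lit 0) (nat_lit 2164696045) (nat_lit 0) (nat_lit 5199705865) (nat_lit 152) (nat_lit 2164696045) (nat_lit 195) (nat_lit 3) (nat_lit 195) (nat_lit 1) (nat_lit 197) (nat_lit 1) (nat_lit 292) (nat_lit 315) (nat_lit 293)) (XT.nd (nat_lit 78) (nat_lit 152) (nat_lit 0) (XT.lf (nat_lit 76) (nat_lit 1266561687) (nat_lit 0) (nat_lit 3905700661) (nat_lit 76) (nat_lit 3905700661) (nat_lit 195) (nat_lit 3) (nat_lit 194) (nat_lit 1) (nat_lit 195) (nat_lit 1) (nat_lit 293) (nat_lit 315) (nat_lit 292)) (XT.lf (nat_lit 152) (nat_lit 7268380862) (nat_lit 0) (nat_lit 695425289) (nat_lit 76) (nat_lit 695425289) (nat_lit 194) (nat_lit 1) (nat_lit 192)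 (nat_lit 1) (nat_lit 193) (nat_lit 1) (nat_lit 294) (nat_lit 315) (nat_lit 291)))))) (XT.nd (nat_lit 468) (nat_lit 456) (nat_lit 0) (XT.nd (nat_lit 234) (nat_lit 228) (nat_lit 0) (XT.nd (nat_lit 78) (nat_lit 228) (nat_lit 0) (XT.lf (nat_lit 0) (nat_lit 2169284787) (nat_lit 0) (nat_lit 3904561502) (nat_lit 152) (nat_lit 2169284787) (nat_lit 192) (nat_lit 3) (nat_lit 192) (nat_lit 1) (nat_lit 194) (nat_lit 1) (nat_lit 295) (nat_lit 315) (nat_lit 290)) (XT.nd (nat_lit 78) (nat_lit 152) (nat_lit 0) (XT.lf (nat_lit 76) (nat_lit 1613427516) (nat_lit 0) (nat_lit 3122363790) (nat_lit 76) (nat_lit 3122363790) (nat_lit 192) (nat_lit 3) (nat_lit 191) (nat_lit 1) (nat_lit 192) (nat_lit 1) (nat_lit 296) (nat_lit 315) (nat_lit 289)) (XT.lf (nat_lit 152) (nat_lit 6707529314) (nat_lit 0) (nat_lit 397611666) (nat_lit 76) (nat_lit 397611666) (nat_lit 191) (nat_lit 1) (nat_lit 189) (nat_lit 1) (nat_lit 190) (nat_lit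 1) (nat_lit 297) (nat_lit 315) (nat_lit 288)))) (XT.nd (nat_lit 78) (nat_lit 228) (nat_lit 0) (XT.lf (nat_lit 0) (nat_lit 2050393702) (nat_lit 0) (nat_lit 3042543796) (nat_lit 152) (nat_lit 2050393702) (nat_lit 189) (nat_lit 3) (nat_lit 189) (nat_lit 1) (nat_lit 191) (nat_lit 1) (nat_lit 298) (nat_lit 315) (nat_lit 287)) (XT.nd (nat_lit 78) (nat_lit 152) (nat_lit 0) (XT.lf (nat_lit 76) (nat_lit 1695757863) (nat_lit 0) (nat_lit 2558497075) (nat_lit 76) (nat_lit 2558497075) (nat_lit 189) (nat_lit 3) (nat_lit 188) (nat_lit 1) (nat_lit 189) (nat_lit 1) (nat_lit 299) (nat_lit 315) (nat_lit 286)) (XT.lf (nat_lit 152) (nat_lit 6054015974) (nat_lit 0) (nat_lit 227335760) (nat_lit 76) (nat_lit 227335760) (nat_lit 188) (nat_lit 1) (nat_lit 186) (nat_lit 1) (nat_lit 187) (nat_lit 1) (nat_lit 300) (nat_lit 315) (nat_lit 285))))) (XT.nd (nat_lit 234) (nat_lit 228) (nat_lit 0) (XT.nd (nat_lit 78) (nat_lit 228)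 (nat_lit 0) (XT.lf (nat_lit 0) (nat_lit 1876752371) (nat_lit 0) (nat_lit 2444017407) (nat_lit 152) (nat_lit 1876752371) (nat_lit 186) (nat_lit 3) (nat_lit 186) (nat_lit 1) (nat_lit 188) (nat_lit 1) (nat_lit 301) (nat_lit 315) (nat_lit 284)) (XT.nd (nat_lit 78) (nat_lit 152) (nat_lit 0) (XT.lf (nat_lit 76) (nat_lit 1641968492) (nat_lit 0) (nat_lit 2135242436) (nat_lit 76) (nat_lit 2135242436) (nat_lit 186) (nat_lit 3) (nat_lit 185) (nat_lit 1) (nat_lit 186) (nat_lit 1) (nat_lit 302) (nat_lit 315) (nat_lit 283)) (XT.lf (nat_lit 152) (nat_lit 5390937472) (nat_lit 0) (nat_lit 129979959) (nat_lit 76) (nat_lit 129979959) (nat_lit 185) (nat_lit 1) (nat_lit 183) (nat_lit 1) (nat_lit 184) (nat_lit 1) (nat_lit 303) (nat_lit 315) (nat_lit 282)))) (XT.nd (nat_lit 78) (nat_lit 228) (nat_lit 0) (XT.lf (nat_lit 0) (nat_lit 1685589796) (nat_lit 0) (nat_lit 2009925421) (nat_lit 152) (nat_lit 1685589796) (nat_lit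 183) (nat_lit 3) (nat_lit 183) (nat_lit 1) (nat_lit 185) (nat_lit 1) (nat_lit 304) (nat_lit 315) (nat_lit 281)) (XT.nd (nat_lit 78) (nat_lit 152) (nat_lit 0) (XT.lf (nat_lit 76) (nat_lit 1523508145) (nat_lit 0) (nat_lit 1805539123) (nat_lit 76) (nat_lit 1805539123) (nat_lit 183) (nat_lit 3) (nat_lit 182) (nat_lit 1) (nat_lit 183) (nat_lit 1) (nat_lit 305) (nat_lit 315) (nat_lit 280)) (XT.lf (nat_lit 152) (nat_lit 4760141814) (nat_lit 0) (nat_lit 74316463) (nat_lit 76) (nat_lit 74316463) (nat_lit 182) (nat_lit 1) (nat_lit 180) (nat_lit 1) (nat_lit 181) (nat_lit 1) (nat_lit 306) (nat_lit 315) (nat_lit 279))))))))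
noncomputable def ec52 : XT := (XT.nd (nat_lit 1716) (nat_lit 1672) (nat_lit 0) (XT.nd (nat_lit 858) (nat_lit 836) (nat_lit 0) (XT.nd (nat_lit 390) (nat_lit 456) (nat_lit 0) (XT.nd (nat_lit 156) (nat_lit 228) (nat_lit 0) (XT.nd (nat_lit 78) (nat_lit 76) (nat_lit 0) (XT.lf (nat_lit 0) (nat_lit 1496394077) (nat_lit 0) (nat_lit 1681834023) (nat_lit 152) (nat_lit 1496394077) (nat_lit 180) (nat_lit 3) (nat_lit 180) (nat_lit 1) (nat_lit 182) (nat_lit 1) (nat_lit 307) (nat_lit 315) (nat_lit 278)) (XT.lf (nat_lit 76) (nat_lit 1379511883) (nat_lit 0) (nat_lit 1540764010) (nat_lit 76) (nat_lit 1540764010) (nat_lit 180) (nat_lit 3) (nat_lit 179) (nat_lit 1) (nat_lit 180) (nat_lit 1) (nat_lit 308) (nat_lit 315) (nat_lit 277))) (XT.nd (nat_lit 78) (nat_lit 76) (nat_lit 0) (XT.lf (nat_lit 152) (nat_lit 4180631590) (nat_lit 0) (nat_lit 42490679) (nat_lit 76) (nat_lit 42490679) (nat_lit 179) (nat_lit 1) (nat_lit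 177) (nat_lit 1) (nat_lit 178) (nat_lit 1) (nat_lit 309) (nat_lit 315) (nat_lit 276)) (XT.nd (nat_lit 78) (nat_lit 76) (nat_lit 0) (XT.lf (nat_lit 0) (nat_lit 1318744379) (nat_lit 0) (nat_lit 1424770270) (nat_lit 152) (nat_lit 1318744379) (nat_lit 177) (nat_lit 3) (nat_lit 177) (nat_lit 1) (nat_lit 179) (nat_lit 1) (nat_lit 310) (nat_lit 315) (nat_lit 275)) (XT.lf (nat_lit 76) (nat_lit 1230863141) (nat_lit 0) (nat_lit 1323059569) (nat_lit 76) (nat_lit 1323059569) (nat_lit 177) (nat_lit 3) (nat_lit 176) (nat_lit 1) (nat_lit 177) (nat_lit 1) (nat_lit 311) (nat_lit 315) (nat_lit 274))))) (XT.nd (nat_lit 234) (nat_lit 228) (nat_lit 0) (XT.nd (nat_lit 78) (nat_lit 76) (nat_lit 0) (XT.lf (nat_lit 152) (nat_lit 3658989731) (nat_lit 0) (nat_lit 24294183) (nat_lit 76) (nat_lit 24294183) (nat_lit 176) (nat_lit 1) (nat_lit 174) (nat_lit 1) (nat_lit 175) (nat_lit 1) (nat_lit 312) (nat_lit 315) (nat_lit 273))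 (XT.nd (nat_lit 78) (nat_lit 76) (nat_lit 0) (XT.lf (nat_lit 0) (nat_lit 1156758300) (nat_lit 0) (nat_lit 1217378947) (nat_lit 152) (nat_lit 1156758300) (nat_lit 174) (nat_lit 3) (nat_lit 174) (nat_lit 1) (nat_lit 176) (nat_lit 1) (nat_lit 313) (nat_lit 315) (nat_lit 272)) (XT.lf (nat_lit 76) (nat_lit 1088204557) (nat_lit 0) (nat_lit 1140918163) (nat_lit 76) (nat_lit 1140918163) (nat_lit 174) (nat_lit 3) (nat_lit 173) (nat_lit 1) (nat_lit 174) (nat_lit 1) (nat_lit 314) (nat_lit 315) (nat_lit 271)))) (XT.nd (nat_lit 78) (nat_lit 76) (nat_lit 0) (XT.lf (nat_lit 152) (nat_lit 3195256690) (nat_lit 0) (nat_lit 13890278) (nat_lit 76) (nat_lit 13890278) (nat_lit 173) (nat_lit 1) (nat_lit 171) (nat_lit 1) (nat_lit 172) (nat_lit 1) (nat_lit 315) (nat_lit 315) (nat_lit 270)) (XT.nd (nat_lit 78) (nat_lit 76) (nat_lit 0) (XT.lf (nat_lit 0) (nat_lit 1011608069) (nat_lit 0) (nat_lit 1046268121) (nat_lit 152)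 (nat_lit 1011608069) (nat_lit 171) (nat_lit 3) (nat_lit 171) (nat_lit 1) (nat_lit 173) (nat_lit 1) (nat_lit 316) (nat_lit 315) (nat_lit 269)) (XT.lf (nat_lit 76) (nat_lit 956492801) (nat_lit 0) (nat_lit 986631976) (nat_lit 76) (nat_lit 986631976) (nat_lit 171) (nat_lit 3) (nat_lit 170) (nat_lit 1) (nat_lit 171) (nat_lit 1) (nat_lit 317) (nat_lit 315) (nat_lit 268)))))) (XT.nd (nat_lit 390) (nat_lit 456) (nat_lit 0) (XT.nd (nat_lit 156) (nat_lit 228) (nat_lit 0) (XT.nd (nat_lit 78) (nat_lit 0) (nat_lit 0) (XT.lf (nat_lit 152) (nat_lit 2786217892) (nat_lit 0) (nat_lit 7941811) (nat_lit 76) (nat_lit 7941811) (nat_lit 170) (nat_lit 1) (nat_lit 168) (nat_lit 1) (nat_lit 169) (nat_lit 1) (nat_lit 318) (nat_lit 315) (nat_lit 267)) (XT.lf (nat_lit 0) (nat_lit 882936073) (nat_lit 0) (nat_lit 902753070) (nat_lit 152) (nat_lit 882936073) (nat_lit 168) (nat_lit 3) (nat_lit 168) (nat_lit 1) (nat_lit 170) (nat_lit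 1) (nat_lit 319) (nat_lit 315) (nat_lit 266))) (XT.nd (nat_lit 78) (nat_lit 152) (nat_lit 0) (XT.lf (nat_lit 76) (nat_lit 837580745) (nat_lit 0) (nat_lit 854812916) (nat_lit 76) (nat_lit 854812916) (nat_lit 168) (nat_lit 3) (nat_lit 167) (nat_lit 1) (nat_lit 168) (nat_lit 1) (nat_lit 320) (nat_lit 315) (nat_lit 265)) (XT.nd (nat_lit 78) (nat_lit 0) (nat_lit 0) (XT.lf (nat_lit 152) (nat_lit 2427220000) (nat_lit 0) (nat_lit 4540756) (nat_lit 76) (nat_lit 4540756) (nat_lit 167) (nat_lit 1) (nat_lit 165) (nat_lit 1) (nat_lit 166) (nat_lit 1) (nat_lit 321) (nat_lit 315) (nat_lit 264)) (XT.lf (nat_lit 0) (nat_lit 769644066) (nat_lit 0) (nat_lit 780974498) (nat_lit 152) (nat_lit 769644066) (nat_lit 165) (nat_lit 3) (nat_lit 165) (nat_lit 1) (nat_lit 167) (nat_lit 1) (nat_lit 322) (nat_lit 315) (nat_lit 263))))) (XT.nd (nat_lit 234) (nat_lit 228) (nat_lit 0) (XT.nd (nat_lit 78) (nat_lit 152) (nat_lit 0)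 (XT.lf (nat_lit 76) (nat_lit 731674623) (nat_lit 0) (nat_lit 741527173) (nat_lit 76) (nat_lit 741527173) (nat_lit 165) (nat_lit 3) (nat_lit 164) (nat_lit 1) (nat_lit 165) (nat_lit 1) (nat_lit 323) (nat_lit 315) (nat_lit 262)) (XT.nd (nat_lit 78) (nat_lit 0) (nat_lit 0) (XT.lf (nat_lit 152) (nat_lit 2113154285) (nat_lit 0) (nat_lit 2596192) (nat_lit 76) (nat_lit 2596192) (nat_lit 164) (nat_lit 1) (nat_lit 162) (nat_lit 1) (nat_lit 163) (nat_lit 1) (nat_lit 324) (nat_lit 315) (nat_lit 261)) (XT.lf (nat_lit 0) (nat_lit 670326928) (nat_lit 0) (nat_lit 676805139) (nat_lit 152) (nat_lit 670326928) (nat_lit 162) (nat_lit 3) (nat_lit 162) (nat_lit 1) (nat_lit 164) (nat_lit 1) (nat_lit 325) (nat_lit 315) (nat_lit 260)))) (XT.nd (nat_lit 78) (nat_lit 152) (nat_lit 0) (XT.lf (nat_lit 76) (nat_lit 638150483) (nat_lit 0) (nat_lit 643783711) (nat_lit 76) (nat_lit 643783711) (nat_lit 162) (nat_lit 3) (nat_lit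 161) (nat_lit 1) (nat_lit 162) (nat_lit 1) (nat_lit 326) (nat_lit 315) (nat_lit 259)) (XT.nd (nat_lit 78) (nat_lit 0) (nat_lit 0) (XT.lf (nat_lit 152) (nat_lit 1838970970) (nat_lit 0) (nat_lit 1484381) (nat_lit 76) (nat_lit 1484381) (nat_lit 161) (nat_lit 1) (nat_lit 159) (nat_lit 1) (nat_lit 160) (nat_lit 1) (nat_lit 327) (nat_lit 315) (nat_lit 258)) (XT.lf (nat_lit 0) (nat_lit 583505453) (nat_lit 0) (nat_lit 587209392) (nat_lit 152) (nat_lit 583505453) (nat_lit 159) (nat_lit 3) (nat_lit 159) (nat_lit 1) (nat_lit 161) (nat_lit 1) (nat_lit 328) (nat_lit 315) (nat_lit 257))))))) (XT.nd (nat_lit 858) (nat_lit 760) (nat_lit 0) (XT.nd (nat_lit 390) (nat_lit 456) (nat_lit 0) (XT.nd (nat_lit 156) (nat_lit 228) (nat_lit 0) (XT.nd (nat_lit 78) (nat_lit 152) (nat_lit 0) (XT.lf (nat_lit 76) (nat_lit 556006473) (nat_lit 0) (nat_lit 559227289) (nat_lit 76) (nat_lit 559227289) (nat_lit 159) (nat_lit 3) (nat_lit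 158) (nat_lit 1) (nat_lit 159) (nat_lit 1) (nat_lit 329) (nat_lit 315) (nat_lit 256)) (XT.lf (nat_lit 152) (nat_lit 1599931664) (nat_lit 0) (nat_lit 848699) (nat_lit 76) (nat_lit 848699) (nat_lit 158) (nat_lit 1) (nat_lit 156) (nat_lit 1) (nat_lit 157) (nat_lit 1) (nat_lit 330) (nat_lit 315) (nat_lit 255))) (XT.nd (nat_lit 78) (nat_lit 228) (nat_lit 0) (XT.lf (nat_lit 0) (nat_lit 507746230) (nat_lit 0) (nat_lit 509863968) (nat_lit 152) (nat_lit 507746230) (nat_lit 156) (nat_lit 3) (nat_lit 156) (nat_lit 1) (nat_lit 158) (nat_lit 1) (nat_lit 331) (nat_lit 315) (nat_lit 254)) (XT.nd (nat_lit 78) (nat_lit 152) (nat_lit 0) (XT.lf (nat_lit 76) (nat_lit 484108822) (nat_lit 0) (nat_lit 485950334) (nat_lit 76) (nat_lit 485950334) (nat_lit 156) (nat_lit 3) (nat_lit 155) (nat_lit 1) (nat_lit 156) (nat_lit 1) (nat_lit 332) (nat_lit 315) (nat_lit 253)) (XT.lf (nat_lit 152) (nat_lit 1391717463) (nat_lit 0)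 (nat_lit 485246) (nat_lit 76) (nat_lit 485246) (nat_lit 155) (nat_lit 1) (nat_lit 153) (nat_lit 1) (nat_lit 154) (nat_lit 1) (nat_lit 333) (nat_lit 315) (nat_lit 252))))) (XT.nd (nat_lit 234) (nat_lit 228) (nat_lit 0) (XT.nd (nat_lit 78) (nat_lit 228) (nat_lit 0) (XT.lf (nat_lit 0) (nat_lit 441718679) (nat_lit 0) (nat_lit 442929503) (nat_lit 152) (nat_lit 441718679) (nat_lit 153) (nat_lit 3) (nat_lit 153) (nat_lit 1) (nat_lit 155) (nat_lit 1) (nat_lit 334) (nat_lit 315) (nat_lit 251)) (XT.nd (nat_lit 78) (nat_lit 152) (nat_lit 0) (XT.lf (nat_lit 76) (nat_lit 421321499) (nat_lit 0) (nat_lit 422374390) (nat_lit 76) (nat_lit 422374390) (nat_lit 153) (nat_lit 3) (nat_lit 152) (nat_lit 1) (nat_lit 153) (nat_lit 1) (nat_lit 335) (nat_lit 315) (nat_lit 250)) (XT.lf (nat_lit 152) (nat_lit 1210459273) (nat_lit 0) (nat_lit 277441) (nat_lit 76) (nat_lit 277441) (nat_lit 152) (nat_lit 1) (nat_lit 150) (nat_lit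 1) (nat_lit 151) (nat_lit 1) (nat_lit 336) (nat_lit 315) (nat_lit 249)))) (XT.nd (nat_lit 78) (nat_lit 228) (nat_lit 0) (XT.lf (nat_lit 0) (nat_lit 384217675) (nat_lit 0) (nat_lit 384909967) (nat_lit 152) (nat_lit 384217675) (nat_lit 150) (nat_lit 3) (nat_lit 150) (nat_lit 1) (nat_lit 152) (nat_lit 1) (nat_lit 337) (nat_lit 315) (nat_lit 248)) (XT.nd (nat_lit 78) (nat_lit 152) (nat_lit 0) (XT.lf (nat_lit 76) (nat_lit 366570812) (nat_lit 0) (nat_lit 367172806) (nat_lit 76) (nat_lit 367172806) (nat_lit 150) (nat_lit 3) (nat_lit 149) (nat_lit 1) (nat_lit 150) (nat_lit 1) (nat_lit 338) (nat_lit 315) (nat_lit 247)) (XT.lf (nat_lit 152) (nat_lit 1052727755) (nat_lit 0) (nat_lit 158628) (nat_lit 76) (nat_lit 158628) (nat_lit 149) (nat_lit 1) (nat_lit 147) (nat_lit 1) (nat_lit 148) (nat_lit 1) (nat_lit 339) (nat_lit 315) (nat_lit 246)))))) (XT.nd (nat_lit 390) (nat_lit 456) (nat_lit 0) (XT.nd (nat_lit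 156) (nat_lit 228) (nat_lit 0) (XT.nd (nat_lit 78) (nat_lit 76) (nat_lit 0) (XT.lf (nat_lit 0) (nat_lit 334167777) (nat_lit 0) (nat_lit 334563598) (nat_lit 152) (nat_lit 334167777) (nat_lit 147) (nat_lit 3) (nat_lit 147) (nat_lit 1) (nat_lit 149) (nat_lit 1) (nat_lit 340) (nat_lit 315) (nat_lit 245)) (XT.lf (nat_lit 76) (nat_lit 318874032) (nat_lit 0) (nat_lit 319218224) (nat_lit 76) (nat_lit 319218224) (nat_lit 147) (nat_lit 3) (nat_lit 146) (nat_lit 1) (nat_lit 147) (nat_lit 1) (nat_lit 341) (nat_lit 315) (nat_lit 244))) (XT.nd (nat_lit 78) (nat_lit 76) (nat_lit 0) (XT.lf (nat_lit 152) (nat_lit 915503760) (nat_lit 0) (nat_lit 90696) (nat_lit 76) (nat_lit 90696) (nat_lit 146) (nat_lit 1) (nat_lit 144) (nat_lit 1) (nat_lit 145) (nat_lit 1) (nat_lit 342) (nat_lit 315) (nat_lit 243)) (XT.nd (nat_lit 78) (nat_lit 76) (nat_lit 0) (XT.lf (nat_lit 0) (nat_lit 290618098) (nat_lit 0) (nat_lit 290844410)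 (nat_lit 152) (nat_lit 290618098) (nat_lit 144) (nat_lit 3) (nat_lit 144) (nat_lit 1) (nat_lit 146) (nat_lit 1) (nat_lit 343) (nat_lit 315) (nat_lit 242)) (XT.lf (nat_lit 76) (nat_lit 277348550) (nat_lit 0) (nat_lit 277545343) (nat_lit 76) (nat_lit 277545343) (nat_lit 144) (nat_lit 3) (nat_lit 143) (nat_lit 1) (nat_lit 144) (nat_lit 1) (nat_lit 344) (nat_lit 315) (nat_lit 241))))) (XT.nd (nat_lit 234) (nat_lit 228) (nat_lit 0) (XT.nd (nat_lit 78) (nat_lit 76) (nat_lit 0) (XT.lf (nat_lit 152) (nat_lit 796140723) (nat_lit 0) (nat_lit 51855) (nat_lit 76) (nat_lit 51855) (nat_lit 143) (nat_lit 1) (nat_lit 141) (nat_lit 1) (nat_lit 142) (nat_lit 1) (nat_lit 345) (nat_lit 315) (nat_lit 240)) (XT.nd (nat_lit 78) (nat_lit 76) (nat_lit 0) (XT.lf (nat_lit 0) (nat_lit 252732786) (nat_lit 0) (nat_lit 252862180) (nat_lit 152) (nat_lit 252732786) (nat_lit 141) (nat_lit 3) (nat_lit 141) (nat_lit 1) (nat_lit 143)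 (nat_lit 1) (nat_lit 346) (nat_lit 315) (nat_lit 239)) (XT.lf (nat_lit 76) (nat_lit 241210836) (nat_lit 0) (nat_lit 241323353) (nat_lit 76) (nat_lit 241323353) (nat_lit 141) (nat_lit 3) (nat_lit 140) (nat_lit 1) (nat_lit 141) (nat_lit 1) (nat_lit 347) (nat_lit 315) (nat_lit 238)))) (XT.nd (nat_lit 78) (nat_lit 76) (nat_lit 0) (XT.lf (nat_lit 152) (nat_lit 692325153) (nat_lit 0) (nat_lit 29648) (nat_lit 76) (nat_lit 29648) (nat_lit 140) (nat_lit 1) (nat_lit 138) (nat_lit 1) (nat_lit 139) (nat_lit 1) (nat_lit 348) (nat_lit 315) (nat_lit 237)) (XT.nd (nat_lit 78) (nat_lit 76) (nat_lit 0) (XT.lf (nat_lit 0) (nat_lit 219779873) (nat_lit 0) (nat_lit 219853855) (nat_lit 152) (nat_lit 219779873) (nat_lit 138) (nat_lit 3) (nat_lit 138) (nat_lit 1) (nat_lit 140) (nat_lit 1) (nat_lit 349) (nat_lit 315) (nat_lit 236)) (XT.lf (nat_lit 76) (nat_lit 209770384) (nat_lit 0) (nat_lit 209834716) (nat_lit 76) (nat_lit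 209834716) (nat_lit 138) (nat_lit 3) (nat_lit 137) (nat_lit 1) (nat_lit 138) (nat_lit 1) (nat_lit 350) (nat_lit 315) (nat_lit 235))))))))
noncomputable def ec53 : XT := (XT.nd (nat_lit 40482) (nat_lit 0) (nat_lit 5928) (XT.nd (nat_lit 858) (nat_lit 760) (nat_lit 0) (XT.nd (nat_lit 390) (nat_lit 456) (nat_lit 0) (XT.nd (nat_lit 156) (nat_lit 228) (nat_lit 0) (XT.nd (nat_lit 78) (nat_lit 0) (nat_lit 0) (XT.lf (nat_lit 152) (nat_lit 602038380) (nat_lit 0) (nat_lit 16951) (nat_lit 76) (nat_lit 16951) (nat_lit 137) (nat_lit 1) (nat_lit 135) (nat_lit 1) (nat_lit 136) (nat_lit 1) (nat_lit 351) (nat_lit 315) (nat_lit 234)) (XT.lf (nat_lit 0) (nat_lit 191119928) (nat_lit 0) (nat_lit 191162227) (nat_lit 152) (nat_lit 191119928) (nat_lit 135) (nat_lit 3) (nat_lit 135) (nat_lit 1) (nat_lit 137) (nat_lit 1) (nat_lit 352) (nat_lit 315) (nat_lit 233))) (XT.nd (nat_lit 78) (nat_lit 152) (nat_lit 0) (XT.lf (nat_lit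 76) (nat_lit 182421512) (nat_lit 0) (nat_lit 182458294) (nat_lit 76) (nat_lit 182458294) (nat_lit 135) (nat_lit 3) (nat_lit 134) (nat_lit 1) (nat_lit 135) (nat_lit 1) (nat_lit 353) (nat_lit 315) (nat_lit 232)) (XT.nd (nat_lit 78) (nat_lit 0) (nat_lit 0) (XT.lf (nat_lit 152) (nat_lit 523521073) (nat_lit 0) (nat_lit 9692) (nat_lit 76) (nat_lit 9692) (nat_lit 134) (nat_lit 1) (nat_lit 132) (nat_lit 1) (nat_lit 133) (nat_lit 1) (nat_lit 354) (nat_lit 315) (nat_lit 231)) (XT.lf (nat_lit 0) (nat_lit 166195241) (nat_lit 0) (nat_lit 166219425) (nat_lit 152) (nat_lit 166195241) (nat_lit 132) (nat_lit 3) (nat_lit 132) (nat_lit 1) (nat_lit 134) (nat_lit 1) (nat_lit 355) (nat_lit 315) (nat_lit 230))))) (XT.nd (nat_lit 234) (nat_lit 228) (nat_lit 0) (XT.nd (nat_lit 78) (nat_lit 152) (nat_lit 0) (XT.lf (nat_lit 76) (nat_lit 158634539) (nat_lit 0) (nat_lit 158655569) (nat_lit 76) (nat_lit 158655569) (nat_lit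 132) (nat_lit 3) (nat_lit 131) (nat_lit 1) (nat_lit 132) (nat_lit 1) (nat_lit 356) (nat_lit 315) (nat_lit 229)) (XT.nd (nat_lit 78) (nat_lit 0) (nat_lit 0) (XT.lf (nat_lit 152) (nat_lit 455241112) (nat_lit 0) (nat_lit 5541) (nat_lit 76) (nat_lit 5541) (nat_lit 131) (nat_lit 1) (nat_lit 129) (nat_lit 1) (nat_lit 130) (nat_lit 1) (nat_lit 357) (nat_lit 315) (nat_lit 228)) (XT.lf (nat_lit 0) (nat_lit 144519887) (nat_lit 0) (nat_lit 144533715) (nat_lit 152) (nat_lit 144519887) (nat_lit 129) (nat_lit 3) (nat_lit 129) (nat_lit 1) (nat_lit 131) (nat_lit 1) (nat_lit 358) (nat_lit 315) (nat_lit 227)))) (XT.nd (nat_lit 78) (nat_lit 152) (nat_lit 0) (XT.lf (nat_lit 76) (nat_lit 137947157) (nat_lit 0) (nat_lit 137959182) (nat_lit 76) (nat_lit 137959182) (nat_lit 129) (nat_lit 3) (nat_lit 128) (nat_lit 1) (nat_lit 129) (nat_lit 1) (nat_lit 359) (nat_lit 315) (nat_lit 226)) (XT.nd (nat_lit 78) (nat_lit 0) (nat_lit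 0) (XT.lf (nat_lit 152) (nat_lit 395864922) (nat_lit 0) (nat_lit 3168) (nat_lit 76) (nat_lit 3168) (nat_lit 128) (nat_lit 1) (nat_lit 126) (nat_lit 1) (nat_lit 127) (nat_lit 1) (nat_lit 360) (nat_lit 315) (nat_lit 225)) (XT.lf (nat_lit 0) (nat_lit 125670774) (nat_lit 0) (nat_lit 125678680) (nat_lit 152) (nat_lit 125670774) (nat_lit 126) (nat_lit 3) (nat_lit 126) (nat_lit 1) (nat_lit 128) (nat_lit 1) (nat_lit 361) (nat_lit 315) (nat_lit 224)))))) (XT.nd (nat_lit 390) (nat_lit 304) (nat_lit 0) (XT.nd (nat_lit 156) (nat_lit 228) (nat_lit 0) (XT.nd (nat_lit 78) (nat_lit 152) (nat_lit 0) (XT.lf (nat_lit 76) (nat_lit 119956383) (nat_lit 0) (nat_lit 119963258) (nat_lit 76) (nat_lit 119963258) (nat_lit 126) (nat_lit 3) (nat_lit 125) (nat_lit 1) (nat_lit 126) (nat_lit 1) (nat_lit 362) (nat_lit 315) (nat_lit 223)) (XT.lf (nat_lit 152) (nat_lit 344232131) (nat_lit 0) (nat_lit 1811) (nat_lit 76) (nat_lit 1811)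 (nat_lit 125) (nat_lit 1) (nat_lit 123) (nat_lit 1) (nat_lit 124) (nat_lit 1) (nat_lit 363) (nat_lit 315) (nat_lit 222))) (XT.nd (nat_lit 78) (nat_lit 228) (nat_lit 0) (XT.lf (nat_lit 0) (nat_lit 109279681) (nat_lit 0) (nat_lit 109284202) (nat_lit 152) (nat_lit 109279681) (nat_lit 123) (nat_lit 3) (nat_lit 123) (nat_lit 1) (nat_lit 125) (nat_lit 1) (nat_lit 364) (nat_lit 315) (nat_lit 221)) (XT.nd (nat_lit 78) (nat_lit 152) (nat_lit 0) (XT.lf (nat_lit 76) (nat_lit 104311232) (nat_lit 0) (nat_lit 104315163) (nat_lit 76) (nat_lit 104315163) (nat_lit 123) (nat_lit 3) (nat_lit 122) (nat_lit 1) (nat_lit 123) (nat_lit 1) (nat_lit 365) (nat_lit 315) (nat_lit 220)) (XT.lf (nat_lit 152) (nat_lit 299333296) (nat_lit 0) (nat_lit 1035) (nat_lit 76) (nat_lit 1035) (nat_lit 122) (nat_lit 1) (nat_lit 120) (nat_lit 1) (nat_lit 121) (nat_lit 1) (nat_lit 366) (nat_lit 315) (nat_lit 219))))) (XT.nd (nat_lit 234)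 (nat_lit 76) (nat_lit 0) (XT.nd (nat_lit 78) (nat_lit 228) (nat_lit 0) (XT.lf (nat_lit 0) (nat_lit 95026237) (nat_lit 0) (nat_lit 95028822) (nat_lit 152) (nat_lit 95026237) (nat_lit 120) (nat_lit 3) (nat_lit 120) (nat_lit 1) (nat_lit 122) (nat_lit 1) (nat_lit 367) (nat_lit 315) (nat_lit 218)) (XT.nd (nat_lit 78) (nat_lit 152) (nat_lit 0) (XT.lf (nat_lit 76) (nat_lit 90706182) (nat_lit 0) (nat_lit 90708429) (nat_lit 76) (nat_lit 90708429) (nat_lit 120) (nat_lit 3) (nat_lit 119) (nat_lit 1) (nat_lit 120) (nat_lit 1) (nat_lit 368) (nat_lit 315) (nat_lit 217)) (XT.lf (nat_lit 152) (nat_lit 260290400) (nat_lit 0) (nat_lit 592) (nat_lit 76) (nat_lit 592) (nat_lit 119) (nat_lit 1) (nat_lit 117) (nat_lit 1) (nat_lit 118) (nat_lit 1) (nat_lit 369) (nat_lit 315) (nat_lit 216)))) (XT.nd (nat_lit 78) (nat_lit 76) (nat_lit 0) (XT.lf (nat_lit 0) (nat_lit 82631755) (nat_lit 0) (nat_lit 82633233) (nat_lit 152)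 (nat_lit 82631755) (nat_lit 117) (nat_lit 3) (nat_lit 117) (nat_lit 1) (nat_lit 119) (nat_lit 1) (nat_lit 370) (nat_lit 315) (nat_lit 215)) (XT.nd (nat_lit 38844) (nat_lit 0) (nat_lit 7524) (XT.lf (nat_lit 76) (nat_lit 78875377) (nat_lit 0) (nat_lit 78876662) (nat_lit 76) (nat_lit 78876662) (nat_lit 117) (nat_lit 3) (nat_lit 116) (nat_lit 1) (nat_lit 117) (nat_lit 1) (nat_lit 371) (nat_lit 315) (nat_lit 214)) (XT.lf (nat_lit 380) (nat_lit 6565833776) (nat_lit 0) (nat_lit 5815520570) (nat_lit 380) (nat_lit 6565833776) (nat_lit 220) (nat_lit 1) (nat_lit 215) (nat_lit 0) (nat_lit 220) (nat_lit 0) (nat_lit 268) (nat_lit 316) (nat_lit 316))))))) (XT.nd (nat_lit 858) (nat_lit 912) (nat_lit 0) (XT.nd (nat_lit 390) (nat_lit 532) (nat_lit 0) (XT.nd (nat_lit 156) (nat_lit 152) (nat_lit 0) (XT.nd (nat_lit 78) (nat_lit 0) (nat_lit 76) (XT.lf (nat_lit 380) (nat_lit 24286167059) (nat_lit 76) (nat_lit 5551178726)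 (nat_lit 0) (nat_lit 5551178726) (nat_lit 220) (nat_lit 1) (nat_lit 216) (nat_lit 1) (nat_lit 215) (nat_lit 0) (nat_lit 269) (nat_lit 316) (nat_lit 315)) (XT.lf (nat_lit 380) (nat_lit 10705203175) (nat_lit 0) (nat_lit 11648270894) (nat_lit 304) (nat_lit 10705203175) (nat_lit 221) (nat_lit 1) (nat_lit 216) (nat_lit 1) (nat_lit 220) (nat_lit 1) (nat_lit 270) (nat_lit 316) (nat_lit 314))) (XT.nd (nat_lit 78) (nat_lit 228) (nat_lit 0) (XT.lf (nat_lit 380) (nat_lit 18380278007) (nat_lit 76) (nat_lit 6291692099) (nat_lit 0) (nat_lit 6291692099) (nat_lit 221) (nat_lit 1) (nat_lit 217) (nat_lit 1) (nat_lit 216) (nat_lit 1) (nat_lit 271) (nat_lit 316) (nat_lit 313)) (XT.nd (nat_lit 78) (nat_lit 304) (nat_lit 0) (XT.lf (nat_lit 76) (nat_lit 7435066230) (nat_lit 0) (nat_lit 14157614318) (nat_lit 304) (nat_lit 7435066230) (nat_lit 218) (nat_lit 1) (nat_lit 217) (nat_lit 1) (nat_lit 221) (nat_lit 1) (nat_lit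 272) (nat_lit 316) (nat_lit 312)) (XT.lf (nat_lit 380) (nat_lit 11174304063) (nat_lit 0) (nat_lit 8043049787) (nat_lit 304) (nat_lit 8043049787) (nat_lit 218) (nat_lit 1) (nat_lit 213) (nat_lit 1) (nat_lit 217) (nat_lit 1) (nat_lit 273) (nat_lit 316) (nat_lit 311))))) (XT.nd (nat_lit 234) (nat_lit 152) (nat_lit 0) (XT.nd (nat_lit 78) (nat_lit 380) (nat_lit 0) (XT.lf (nat_lit 76) (nat_lit 3714215260) (nat_lit 0) (nat_lit 18225747376) (nat_lit 380) (nat_lit 3714215260) (nat_lit 214) (nat_lit 1) (nat_lit 213) (nat_lit 1) (nat_lit 218) (nat_lit 1) (nat_lit 274) (nat_lit 316) (nat_lit 310)) (XT.nd (nat_lit 78) (nat_lit 228) (nat_lit 0) (XT.lf (nat_lit 228) (nat_lit 3342706117) (nat_lit 0) (nat_lit 10403347977) (nat_lit 152) (nat_lit 10403347977) (nat_lit 214) (nat_lit 1) (nat_lit 211) (nat_lit 1) (nat_lit 213) (nat_lit 1) (nat_lit 275) (nat_lit 316) (nat_lit 309)) (XT.lf (nat_lit 228) (nat_lit 22462943051)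 (nat_lit 0) (nat_lit 176244501) (nat_lit 152) (nat_lit 176244501) (nat_lit 211) (nat_lit 1) (nat_lit 208) (nat_lit 1) (nat_lit 210) (nat_lit 1) (nat_lit 276) (nat_lit 316) (nat_lit 308)))) (XT.nd (nat_lit 78) (nat_lit 152) (nat_lit 0) (XT.lf (nat_lit 76) (nat_lit 8630406298) (nat_lit 0) (nat_lit 4237070099) (nat_lit 228) (nat_lit 8630406298) (nat_lit 209) (nat_lit 1) (nat_lit 208) (nat_lit 1) (nat_lit 211) (nat_lit 1) (nat_lit 277) (nat_lit 316) (nat_lit 307)) (XT.nd (nat_lit 78) (nat_lit 0) (nat_lit 0) (XT.lf (nat_lit 228) (nat_lit 12544626801) (nat_lit 0) (nat_lit 3891219915) (nat_lit 152) (nat_lit 3891219915) (nat_lit 209) (nat_lit 1) (nat_lit 206) (nat_lit 1) (nat_lit 208) (nat_lit 1) (nat_lit 278) (nat_lit 316) (nat_lit 306)) (XT.lf (nat_lit 76) (nat_lit 3923116247) (nat_lit 0) (nat_lit 11384816277) (nat_lit 228) (nat_lit 3923116247) (nat_lit 207) (nat_lit 1) (nat_lit 206) (nat_lit 1) (nat_lit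 209) (nat_lit 1) (nat_lit 279) (nat_lit 316) (nat_lit 305)))))) (XT.nd (nat_lit 468) (nat_lit 380) (nat_lit 0) (XT.nd (nat_lit 234) (nat_lit 228) (nat_lit 0) (XT.nd (nat_lit 78) (nat_lit 228) (nat_lit 0) (XT.lf (nat_lit 152) (nat_lit 3243180578) (nat_lit 0) (nat_lit 7483655136) (nat_lit 76) (nat_lit 7483655136) (nat_lit 207) (nat_lit 1) (nat_lit 205) (nat_lit 1) (nat_lit 206) (nat_lit 1) (nat_lit 280) (nat_lit 316) (nat_lit 304)) (XT.nd (nat_lit 78) (nat_lit 0) (nat_lit 0) (XT.lf (nat_lit 228) (nat_lit 16418886505) (nat_lit 0) (nat_lit 436184524) (nat_lit 152) (nat_lit 436184524) (nat_lit 205) (nat_lit 1) (nat_lit 202) (nat_lit 1) (nat_lit 204) (nat_lit 1) (nat_lit 281) (nat_lit 316) (nat_lit 303)) (XT.lf (nat_lit 76) (nat_lit 5746257148) (nat_lit 0) (nat_lit 4879909052) (nat_lit 228) (nat_lit 5746257148) (nat_lit 203) (nat_lit 1) (nat_lit 202) (nat_lit 1) (nat_lit 205) (nat_lit 1) (nat_lit 282)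 (nat_lit 316) (nat_lit 302)))) (XT.nd (nat_lit 78) (nat_lit 152) (nat_lit 0) (XT.lf (nat_lit 152) (nat_lit 6986898328) (nat_lit 0) (nat_lit 4278804113) (nat_lit 76) (nat_lit 4278804113) (nat_lit 203) (nat_lit 1) (nat_lit 201) (nat_lit 1) (nat_lit 202) (nat_lit 1) (nat_lit 283) (nat_lit 316) (nat_lit 301)) (XT.nd (nat_lit 78) (nat_lit 152) (nat_lit 0) (XT.lf (nat_lit 0) (nat_lit 1368130977) (nat_lit 0) (nat_lit 12044920069) (nat_lit 152) (nat_lit 1368130977) (nat_lit 201) (nat_lit 3) (nat_lit 201) (nat_lit 1) (nat_lit 203) (nat_lit 1) (nat_lit 284) (nat_lit 316) (nat_lit 300)) (XT.lf (nat_lit 76) (nat_lit 6331704393) (nat_lit 0) (nat_lit 1373237225) (nat_lit 152) (nat_lit 6331704393) (nat_lit 200) (nat_lit 1) (nat_lit 199) (nat_lit 1) (nat_lit 201) (nat_lit 1) (nat_lit 285) (nat_lit 316) (nat_lit 299))))) (XT.nd (nat_lit 234) (nat_lit 228) (nat_lit 0) (XT.nd (nat_lit 78) (nat_lit 76) (nat_lit 0)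 (XT.lf (nat_lit 152) (nat_lit 8457911627) (nat_lit 0) (nat_lit 2446420139) (nat_lit 76) (nat_lit 2446420139) (nat_lit 200) (nat_lit 1) (nat_lit 198) (nat_lit 1) (nat_lit 199) (nat_lit 1) (nat_lit 286) (nat_lit 316) (nat_lit 298)) (XT.nd (nat_lit 78) (nat_lit 76) (nat_lit 0) (XT.lf (nat_lit 0) (nat_lit 2199099939) (nat_lit 0) (nat_lit 8303588755) (nat_lit 152) (nat_lit 2199099939) (nat_lit 198) (nat_lit 3) (nat_lit 198) (nat_lit 1) (nat_lit 200) (nat_lit 1) (nat_lit 287) (nat_lit 316) (nat_lit 297)) (XT.lf (nat_lit 76) (nat_lit 490579898) (nat_lit 0) (nat_lit 5798831043) (nat_lit 76) (nat_lit 5798831043) (nat_lit 198) (nat_lit 3) (nat_lit 197) (nat_lit 1) (nat_lit 198) (nat_lit 1) (nat_lit 288) (nat_lit 316) (nat_lit 296)))) (XT.nd (nat_lit 78) (nat_lit 76) (nat_lit 0) (XT.lf (nat_lit 152) (nat_lit 8716820886) (nat_lit 0) (nat_lit 1398748654) (nat_lit 76) (nat_lit 1398748654) (nat_lit 197) (nat_lit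 1) (nat_lit 195) (nat_lit 1) (nat_lit 196) (nat_lit 1) (nat_lit 289) (nat_lit 316) (nat_lit 295)) (XT.nd (nat_lit 78) (nat_lit 76) (nat_lit 0) (XT.lf (nat_lit 0) (nat_lit 2489400452) (nat_lit 0) (nat_lit 5979661745) (nat_lit 152) (nat_lit 2489400452) (nat_lit 195) (nat_lit 3) (nat_lit 195) (nat_lit 1) (nat_lit 197) (nat_lit 1) (nat_lit 290) (nat_lit 316) (nat_lit 294)) (XT.lf (nat_lit 76) (nat_lit 1456545941) (nat_lit 0) (nat_lit 4491555761) (nat_lit 76) (nat_lit 4491555761) (nat_lit 195) (nat_lit 3) (nat_lit 194) (nat_lit 1) (nat_lit 195) (nat_lit 1) (nat_lit 291) (nat_lit 316) (nat_lit 293))))))))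
noncomputable def ec54 : XT := (XT.nd (nat_lit 1716) (nat_lit 1596) (nat_lit 0) (XT.nd (nat_lit 858) (nat_lit 912) (nat_lit 0) (XT.nd (nat_lit 390) (nat_lit 456) (nat_lit 0) (XT.nd (nat_lit 156) (nat_lit 228) (nat_lit 0) (XT.nd (nat_lit 78) (nat_lit 0) (nat_lit 0) (XT.lf (nat_lit 152) (nat_lit 8358637991) (nat_lit 0) (nat_lit 799739083) (nat_lit 76) (nat_lit 799739083) (nat_lit 194) (nat_lit 1) (nat_lit 192) (nat_lit 1) (nat_lit 193) (nat_lit 1) (nat_lit 292) (nat_lit 316) (nat_lit 292)) (XT.lf (nat_lit 0) (nat_lit 2494677505) (nat_lit 0) (nat_lit 4490245727) (nat_lit 152) (nat_lit 2494677505) (nat_lit 192) (nat_lit 3) (nat_lit 192) (nat_lit 1) (nat_lit 194) (nat_lit 1) (nat_lit 293) (nat_lit 316) (nat_lit 291))) (XT.nd (nat_lit 78) (nat_lit 152) (nat_lit 0) (XT.lf (nat_lit 76) (nat_lit 1855441644) (nat_lit 0) (nat_lit 3590718359) (nat_lit 76) (nat_lit 3590718359) (nat_lit 192) (nat_lit 3) (nat_lit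 191) (nat_lit 1) (nat_lit 192) (nat_lit 1) (nat_lit 294) (nat_lit 316) (nat_lit 290)) (XT.nd (nat_lit 78) (nat_lit 0) (nat_lit 0) (XT.lf (nat_lit 152) (nat_lit 7713658712) (nat_lit 0) (nat_lit 457253416) (nat_lit 76) (nat_lit 457253416) (nat_lit 191) (nat_lit 1) (nat_lit 189) (nat_lit 1) (nat_lit 190) (nat_lit 1) (nat_lit 295) (nat_lit 316) (nat_lit 289)) (XT.lf (nat_lit 0) (nat_lit 2357952757) (nat_lit 0) (nat_lit 3498925365) (nat_lit 152) (nat_lit 2357952757) (nat_lit 189) (nat_lit 3) (nat_lit 189) (nat_lit 1) (nat_lit 191) (nat_lit 1) (nat_lit 296) (nat_lit 316) (nat_lit 288))))) (XT.nd (nat_lit 234) (nat_lit 228) (nat_lit 0) (XT.nd (nat_lit 78) (nat_lit 152) (nat_lit 0) (XT.lf (nat_lit 76) (nat_lit 1950121543) (nat_lit 0) (nat_lit 2942271637) (nat_lit 76) (nat_lit 2942271637) (nat_lit 189) (nat_lit 3) (nat_lit 188) (nat_lit 1) (nat_lit 189) (nat_lit 1) (nat_lit 297) (nat_lit 316) (nat_lit 287))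 (XT.nd (nat_lit 78) (nat_lit 0) (nat_lit 0) (XT.lf (nat_lit 152) (nat_lit 6962118370) (nat_lit 0) (nat_lit 261436124) (nat_lit 76) (nat_lit 261436124) (nat_lit 188) (nat_lit 1) (nat_lit 186) (nat_lit 1) (nat_lit 187) (nat_lit 1) (nat_lit 298) (nat_lit 316) (nat_lit 286)) (XT.lf (nat_lit 0) (nat_lit 2158265226) (nat_lit 0) (nat_lit 2810620018) (nat_lit 152) (nat_lit 2158265226) (nat_lit 186) (nat_lit 3) (nat_lit 186) (nat_lit 1) (nat_lit 188) (nat_lit 1) (nat_lit 299) (nat_lit 316) (nat_lit 285)))) (XT.nd (nat_lit 78) (nat_lit 152) (nat_lit 0) (XT.lf (nat_lit 76) (nat_lit 1888263766) (nat_lit 0) (nat_lit 2455528802) (nat_lit 76) (nat_lit 2455528802) (nat_lit 186) (nat_lit 3) (nat_lit 185) (nat_lit 1) (nat_lit 186) (nat_lit 1) (nat_lit 300) (nat_lit 316) (nat_lit 284)) (XT.nd (nat_lit 78) (nat_lit 0) (nat_lit 0) (XT.lf (nat_lit 152) (nat_lit 6199578093) (nat_lit 0) (nat_lit 149476952) (nat_lit 76)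 (nat_lit 149476952) (nat_lit 185) (nat_lit 1) (nat_lit 183) (nat_lit 1) (nat_lit 184) (nat_lit 1) (nat_lit 301) (nat_lit 316) (nat_lit 283)) (XT.lf (nat_lit 0) (nat_lit 1938428265) (nat_lit 0) (nat_lit 2311414234) (nat_lit 152) (nat_lit 1938428265) (nat_lit 183) (nat_lit 3) (nat_lit 183) (nat_lit 1) (nat_lit 185) (nat_lit 1) (nat_lit 302) (nat_lit 316) (nat_lit 282)))))) (XT.nd (nat_lit 390) (nat_lit 456) (nat_lit 0) (XT.nd (nat_lit 156) (nat_lit 228) (nat_lit 0) (XT.nd (nat_lit 78) (nat_lit 152) (nat_lit 0) (XT.lf (nat_lit 76) (nat_lit 1752034366) (nat_lit 0) (nat_lit 2076369992) (nat_lit 76) (nat_lit 2076369992) (nat_lit 183) (nat_lit 3) (nat_lit 182) (nat_lit 1) (nat_lit 183) (nat_lit 1) (nat_lit 303) (nat_lit 316) (nat_lit 281)) (XT.lf (nat_lit 152) (nat_lit 5474163086) (nat_lit 0) (nat_lit 85463932) (nat_lit 76) (nat_lit 85463932) (nat_lit 182) (nat_lit 1) (nat_lit 180) (nat_lit 1) (nat_lit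 181) (nat_lit 1) (nat_lit 304) (nat_lit 316) (nat_lit 280))) (XT.nd (nat_lit 78) (nat_lit 228) (nat_lit 0) (XT.lf (nat_lit 0) (nat_lit 1720853188) (nat_lit 0) (nat_lit 1934109127) (nat_lit 152) (nat_lit 1720853188) (nat_lit 180) (nat_lit 3) (nat_lit 180) (nat_lit 1) (nat_lit 182) (nat_lit 1) (nat_lit 305) (nat_lit 316) (nat_lit 279)) (XT.nd (nat_lit 78) (nat_lit 152) (nat_lit 0) (XT.lf (nat_lit 76) (nat_lit 1586438666) (nat_lit 0) (nat_lit 1771878612) (nat_lit 76) (nat_lit 1771878612) (nat_lit 180) (nat_lit 3) (nat_lit 179) (nat_lit 1) (nat_lit 180) (nat_lit 1) (nat_lit 306) (nat_lit 316) (nat_lit 278)) (XT.lf (nat_lit 152) (nat_lit 4807726329) (nat_lit 0) (nat_lit 48864281) (nat_lit 76) (nat_lit 48864281) (nat_lit 179) (nat_lit 1) (nat_lit 177) (nat_lit 1) (nat_lit 178) (nat_lit 1) (nat_lit 307) (nat_lit 316) (nat_lit 277))))) (XT.nd (nat_lit 234) (nat_lit 228) (nat_lit 0) (XT.nd (nat_lit 78)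 (nat_lit 228) (nat_lit 0) (XT.lf (nat_lit 0) (nat_lit 1516556036) (nat_lit 0) (nat_lit 1638485811) (nat_lit 152) (nat_lit 1516556036) (nat_lit 177) (nat_lit 3) (nat_lit 177) (nat_lit 1) (nat_lit 179) (nat_lit 1) (nat_lit 308) (nat_lit 316) (nat_lit 276)) (XT.nd (nat_lit 78) (nat_lit 152) (nat_lit 0) (XT.lf (nat_lit 76) (nat_lit 1415492613) (nat_lit 0) (nat_lit 1521518504) (nat_lit 76) (nat_lit 1521518504) (nat_lit 177) (nat_lit 3) (nat_lit 176) (nat_lit 1) (nat_lit 177) (nat_lit 1) (nat_lit 309) (nat_lit 316) (nat_lit 275)) (XT.lf (nat_lit 152) (nat_lit 4207838191) (nat_lit 0) (nat_lit 27938311) (nat_lit 76) (nat_lit 27938311) (nat_lit 176) (nat_lit 1) (nat_lit 174) (nat_lit 1) (nat_lit 175) (nat_lit 1) (nat_lit 310) (nat_lit 316) (nat_lit 274)))) (XT.nd (nat_lit 78) (nat_lit 228) (nat_lit 0) (XT.lf (nat_lit 0) (nat_lit 1330272045) (nat_lit 0) (nat_lit 1399985789) (nat_lit 152) (nat_lit 1330272045)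 (nat_lit 174) (nat_lit 3) (nat_lit 174) (nat_lit 1) (nat_lit 176) (nat_lit 1) (nat_lit 311) (nat_lit 316) (nat_lit 273)) (XT.nd (nat_lit 78) (nat_lit 152) (nat_lit 0) (XT.lf (nat_lit 76) (nat_lit 1251435240) (nat_lit 0) (nat_lit 1312055888) (nat_lit 76) (nat_lit 1312055888) (nat_lit 174) (nat_lit 3) (nat_lit 173) (nat_lit 1) (nat_lit 174) (nat_lit 1) (nat_lit 312) (nat_lit 316) (nat_lit 272)) (XT.lf (nat_lit 152) (nat_lit 3674545194) (nat_lit 0) (nat_lit 15973820) (nat_lit 76) (nat_lit 15973820) (nat_lit 173) (nat_lit 1) (nat_lit 171) (nat_lit 1) (nat_lit 172) (nat_lit 1) (nat_lit 313) (nat_lit 316) (nat_lit 271))))))) (XT.nd (nat_lit 858) (nat_lit 836) (nat_lit 0) (XT.nd (nat_lit 390) (nat_lit 456) (nat_lit 0) (XT.nd (nat_lit 156) (nat_lit 228) (nat_lit 0) (XT.nd (nat_lit 78) (nat_lit 76) (nat_lit 0) (XT.lf (nat_lit 0) (nat_lit 1163349280) (nat_lit 0) (nat_lit 1203208340) (nat_lit 152) (nat_lit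 1163349280) (nat_lit 171) (nat_lit 3) (nat_lit 171) (nat_lit 1) (nat_lit 173) (nat_lit 1) (nat_lit 314) (nat_lit 316) (nat_lit 270)) (XT.lf (nat_lit 76) (nat_lit 1099966721) (nat_lit 0) (nat_lit 1134626773) (nat_lit 76) (nat_lit 1134626773) (nat_lit 171) (nat_lit 3) (nat_lit 170) (nat_lit 1) (nat_lit 171) (nat_lit 1) (nat_lit 315) (nat_lit 316) (nat_lit 269))) (XT.nd (nat_lit 78) (nat_lit 76) (nat_lit 0) (XT.lf (nat_lit 152) (nat_lit 3204150576) (nat_lit 0) (nat_lit 9133083) (nat_lit 76) (nat_lit 9133083) (nat_lit 170) (nat_lit 1) (nat_lit 168) (nat_lit 1) (nat_lit 169) (nat_lit 1) (nat_lit 316) (nat_lit 316) (nat_lit 268)) (XT.nd (nat_lit 78) (nat_lit 76) (nat_lit 0) (XT.lf (nat_lit 0) (nat_lit 1015376484) (nat_lit 0) (nat_lit 1038166030) (nat_lit 152) (nat_lit 1015376484) (nat_lit 168) (nat_lit 3) (nat_lit 168) (nat_lit 1) (nat_lit 170) (nat_lit 1) (nat_lit 317) (nat_lit 316) (nat_lit 267)) (XT.lf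 (nat_lit 76) (nat_lit 963217856) (nat_lit 0) (nat_lit 983034854) (nat_lit 76) (nat_lit 983034854) (nat_lit 168) (nat_lit 3) (nat_lit 167) (nat_lit 1) (nat_lit 168) (nat_lit 1) (nat_lit 318) (nat_lit 316) (nat_lit 266))))) (XT.nd (nat_lit 234) (nat_lit 228) (nat_lit 0) (XT.nd (nat_lit 78) (nat_lit 76) (nat_lit 0) (XT.lf (nat_lit 152) (nat_lit 2791303001) (nat_lit 0) (nat_lit 5221870) (nat_lit 76) (nat_lit 5221870) (nat_lit 167) (nat_lit 1) (nat_lit 165) (nat_lit 1) (nat_lit 166) (nat_lit 1) (nat_lit 319) (nat_lit 316) (nat_lit 265)) (XT.nd (nat_lit 78) (nat_lit 76) (nat_lit 0) (XT.lf (nat_lit 0) (nat_lit 885090676) (nat_lit 0) (nat_lit 898120673) (nat_lit 152) (nat_lit 885090676) (nat_lit 165) (nat_lit 3) (nat_lit 165) (nat_lit 1) (nat_lit 167) (nat_lit 1) (nat_lit 320) (nat_lit 316) (nat_lit 264)) (XT.lf (nat_lit 76) (nat_lit 841425817) (nat_lit 0) (nat_lit 852756250) (nat_lit 76) (nat_lit 852756250)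 (nat_lit 165) (nat_lit 3) (nat_lit 164) (nat_lit 1) (nat_lit 165) (nat_lit 1) (nat_lit 321) (nat_lit 316) (nat_lit 263)))) (XT.nd (nat_lit 78) (nat_lit 76) (nat_lit 0) (XT.lf (nat_lit 152) (nat_lit 2430127428) (nat_lit 0) (nat_lit 2985621) (nat_lit 76) (nat_lit 2985621) (nat_lit 164) (nat_lit 1) (nat_lit 162) (nat_lit 1) (nat_lit 163) (nat_lit 1) (nat_lit 322) (nat_lit 316) (nat_lit 262)) (XT.nd (nat_lit 78) (nat_lit 76) (nat_lit 0) (XT.lf (nat_lit 0) (nat_lit 770875967) (nat_lit 0) (nat_lit 778325910) (nat_lit 152) (nat_lit 770875967) (nat_lit 162) (nat_lit 3) (nat_lit 162) (nat_lit 1) (nat_lit 164) (nat_lit 1) (nat_lit 323) (nat_lit 316) (nat_lit 261)) (XT.lf (nat_lit 76) (nat_lit 733873056) (nat_lit 0) (nat_lit 740351268) (nat_lit 76) (nat_lit 740351268) (nat_lit 162) (nat_lit 3) (nat_lit 161) (nat_lit 1) (nat_lit 162) (nat_lit 1) (nat_lit 324) (nat_lit 316) (nat_lit 260)))))) (XT.nd (nat_lit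 390) (nat_lit 456) (nat_lit 0) (XT.nd (nat_lit 156) (nat_lit 228) (nat_lit 0) (XT.nd (nat_lit 78) (nat_lit 0) (nat_lit 0) (XT.lf (nat_lit 152) (nat_lit 2114816616) (nat_lit 0) (nat_lit 1707038) (nat_lit 76) (nat_lit 1707038) (nat_lit 161) (nat_lit 1) (nat_lit 159) (nat_lit 1) (nat_lit 160) (nat_lit 1) (nat_lit 325) (nat_lit 316) (nat_lit 259)) (XT.lf (nat_lit 0) (nat_lit 671031272) (nat_lit 0) (nat_lit 675290801) (nat_lit 152) (nat_lit 671031272) (nat_lit 159) (nat_lit 3) (nat_lit 159) (nat_lit 1) (nat_lit 161) (nat_lit 1) (nat_lit 326) (nat_lit 316) (nat_lit 258))) (XT.nd (nat_lit 78) (nat_lit 152) (nat_lit 0) (XT.lf (nat_lit 76) (nat_lit 639407444) (nat_lit 0) (nat_lit 643111383) (nat_lit 76) (nat_lit 643111383) (nat_lit 159) (nat_lit 3) (nat_lit 158) (nat_lit 1) (nat_lit 159) (nat_lit 1) (nat_lit 327) (nat_lit 316) (nat_lit 257)) (XT.nd (nat_lit 78) (nat_lit 0) (nat_lit 0) (XT.lf (nat_lit 152)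 (nat_lit 1839921413) (nat_lit 0) (nat_lit 976004) (nat_lit 76) (nat_lit 976004) (nat_lit 158) (nat_lit 1) (nat_lit 156) (nat_lit 1) (nat_lit 157) (nat_lit 1) (nat_lit 328) (nat_lit 316) (nat_lit 256)) (XT.lf (nat_lit 0) (nat_lit 583908164) (nat_lit 0) (nat_lit 586343564) (nat_lit 152) (nat_lit 583908164) (nat_lit 156) (nat_lit 3) (nat_lit 156) (nat_lit 1) (nat_lit 158) (nat_lit 1) (nat_lit 329) (nat_lit 316) (nat_lit 255))))) (XT.nd (nat_lit 234) (nat_lit 228) (nat_lit 0) (XT.nd (nat_lit 78) (nat_lit 152) (nat_lit 0) (XT.lf (nat_lit 76) (nat_lit 556725145) (nat_lit 0) (nat_lit 558842884) (nat_lit 76) (nat_lit 558842884) (nat_lit 156) (nat_lit 3) (nat_lit 155) (nat_lit 1) (nat_lit 156) (nat_lit 1) (nat_lit 330) (nat_lit 316) (nat_lit 254)) (XT.nd (nat_lit 78) (nat_lit 0) (nat_lit 0) (XT.lf (nat_lit 152) (nat_lit 1600475082) (nat_lit 0) (nat_lit 558033) (nat_lit 76) (nat_lit 558033) (nat_lit 155)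 (nat_lit 1) (nat_lit 153) (nat_lit 1) (nat_lit 154) (nat_lit 1) (nat_lit 331) (nat_lit 316) (nat_lit 253)) (XT.lf (nat_lit 0) (nat_lit 507976481) (nat_lit 0) (nat_lit 509368928) (nat_lit 152) (nat_lit 507976481) (nat_lit 153) (nat_lit 3) (nat_lit 153) (nat_lit 1) (nat_lit 155) (nat_lit 1) (nat_lit 332) (nat_lit 316) (nat_lit 252)))) (XT.nd (nat_lit 78) (nat_lit 152) (nat_lit 0) (XT.lf (nat_lit 76) (nat_lit 484519724) (nat_lit 0) (nat_lit 485730548) (nat_lit 76) (nat_lit 485730548) (nat_lit 153) (nat_lit 3) (nat_lit 152) (nat_lit 1) (nat_lit 153) (nat_lit 1) (nat_lit 333) (nat_lit 316) (nat_lit 251)) (XT.nd (nat_lit 78) (nat_lit 0) (nat_lit 0) (XT.lf (nat_lit 152) (nat_lit 1392028164) (nat_lit 0) (nat_lit 319057) (nat_lit 76) (nat_lit 319057) (nat_lit 152) (nat_lit 1) (nat_lit 150) (nat_lit 1) (nat_lit 151) (nat_lit 1) (nat_lit 334) (nat_lit 316) (nat_lit 250)) (XT.lf (nat_lit 0) (nat_lit 441850326)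 (nat_lit 0) (nat_lit 442646462) (nat_lit 152) (nat_lit 441850326) (nat_lit 150) (nat_lit 3) (nat_lit 150) (nat_lit 1) (nat_lit 152) (nat_lit 1) (nat_lit 335) (nat_lit 316) (nat_lit 249))))))))
noncomputable def ec55 : XT := (XT.nd (nat_lit 1716) (nat_lit 1064) (nat_lit 0) (XT.nd (nat_lit 858) (nat_lit 760) (nat_lit 0) (XT.nd (nat_lit 390) (nat_lit 456) (nat_lit 0) (XT.nd (nat_lit 156) (nat_lit 228) (nat_lit 0) (XT.nd (nat_lit 78) (nat_lit 152) (nat_lit 0) (XT.lf (nat_lit 76) (nat_lit 421556434) (nat_lit 0) (nat_lit 422248727) (nat_lit 76) (nat_lit 422248727) (nat_lit 150) (nat_lit 3) (nat_lit 149) (nat_lit 1) (nat_lit 150) (nat_lit 1) (nat_lit 336) (nat_lit 316) (nat_lit 248)) (XT.lf (nat_lit 152) (nat_lit 1210636918) (nat_lit 0) (nat_lit 182422) (nat_lit 76) (nat_lit 182422) (nat_lit 149) (nat_lit 1) (nat_lit 147) (nat_lit 1) (nat_lit 148) (nat_lit 1) (nat_lit 337) (nat_lit 316) (nat_lit 247)))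 (XT.nd (nat_lit 78) (nat_lit 228) (nat_lit 0) (XT.lf (nat_lit 0) (nat_lit 384292944) (nat_lit 0) (nat_lit 384748138) (nat_lit 152) (nat_lit 384292944) (nat_lit 147) (nat_lit 3) (nat_lit 147) (nat_lit 1) (nat_lit 149) (nat_lit 1) (nat_lit 338) (nat_lit 316) (nat_lit 246)) (XT.nd (nat_lit 78) (nat_lit 152) (nat_lit 0) (XT.lf (nat_lit 76) (nat_lit 366705137) (nat_lit 0) (nat_lit 367100958) (nat_lit 76) (nat_lit 367100958) (nat_lit 147) (nat_lit 3) (nat_lit 146) (nat_lit 1) (nat_lit 147) (nat_lit 1) (nat_lit 339) (nat_lit 316) (nat_lit 245)) (XT.lf (nat_lit 152) (nat_lit 1052829324) (nat_lit 0) (nat_lit 104300) (nat_lit 76) (nat_lit 104300) (nat_lit 146) (nat_lit 1) (nat_lit 144) (nat_lit 1) (nat_lit 145) (nat_lit 1) (nat_lit 340) (nat_lit 316) (nat_lit 244))))) (XT.nd (nat_lit 234) (nat_lit 228) (nat_lit 0) (XT.nd (nat_lit 78) (nat_lit 228) (nat_lit 0) (XT.lf (nat_lit 0) (nat_lit 334210813) (nat_lit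 0) (nat_lit 334471071) (nat_lit 152) (nat_lit 334210813) (nat_lit 144) (nat_lit 3) (nat_lit 144) (nat_lit 1) (nat_lit 146) (nat_lit 1) (nat_lit 341) (nat_lit 316) (nat_lit 243)) (XT.nd (nat_lit 78) (nat_lit 152) (nat_lit 0) (XT.lf (nat_lit 76) (nat_lit 318950833) (nat_lit 0) (nat_lit 319177145) (nat_lit 76) (nat_lit 319177145) (nat_lit 144) (nat_lit 3) (nat_lit 143) (nat_lit 1) (nat_lit 144) (nat_lit 1) (nat_lit 342) (nat_lit 316) (nat_lit 242)) (XT.lf (nat_lit 152) (nat_lit 915561832) (nat_lit 0) (nat_lit 59634) (nat_lit 76) (nat_lit 59634) (nat_lit 143) (nat_lit 1) (nat_lit 141) (nat_lit 1) (nat_lit 142) (nat_lit 1) (nat_lit 343) (nat_lit 316) (nat_lit 241)))) (XT.nd (nat_lit 78) (nat_lit 228) (nat_lit 0) (XT.lf (nat_lit 0) (nat_lit 290642704) (nat_lit 0) (nat_lit 290791507) (nat_lit 152) (nat_lit 290642704) (nat_lit 141) (nat_lit 3) (nat_lit 141) (nat_lit 1) (nat_lit 143) (nat_lit 1) (nat_lit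 344) (nat_lit 316) (nat_lit 240)) (XT.nd (nat_lit 78) (nat_lit 152) (nat_lit 0) (XT.lf (nat_lit 76) (nat_lit 277392461) (nat_lit 0) (nat_lit 277521856) (nat_lit 76) (nat_lit 277521856) (nat_lit 141) (nat_lit 3) (nat_lit 140) (nat_lit 1) (nat_lit 141) (nat_lit 1) (nat_lit 345) (nat_lit 316) (nat_lit 239)) (XT.lf (nat_lit 152) (nat_lit 796173926) (nat_lit 0) (nat_lit 34096) (nat_lit 76) (nat_lit 34096) (nat_lit 140) (nat_lit 1) (nat_lit 138) (nat_lit 1) (nat_lit 139) (nat_lit 1) (nat_lit 346) (nat_lit 316) (nat_lit 238)))))) (XT.nd (nat_lit 390) (nat_lit 456) (nat_lit 0) (XT.nd (nat_lit 156) (nat_lit 228) (nat_lit 0) (XT.nd (nat_lit 78) (nat_lit 76) (nat_lit 0) (XT.lf (nat_lit 0) (nat_lit 252746854) (nat_lit 0) (nat_lit 252831933) (nat_lit 152) (nat_lit 252746854) (nat_lit 138) (nat_lit 3) (nat_lit 138) (nat_lit 1) (nat_lit 140) (nat_lit 1) (nat_lit 347) (nat_lit 316) (nat_lit 237)) (XT.lf (nat_lit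 76) (nat_lit 241235942) (nat_lit 0) (nat_lit 241309924) (nat_lit 76) (nat_lit 241309924) (nat_lit 138) (nat_lit 3) (nat_lit 137) (nat_lit 1) (nat_lit 138) (nat_lit 1) (nat_lit 348) (nat_lit 316) (nat_lit 236))) (XT.nd (nat_lit 78) (nat_lit 76) (nat_lit 0) (XT.lf (nat_lit 152) (nat_lit 692344137) (nat_lit 0) (nat_lit 19494) (nat_lit 76) (nat_lit 19494) (nat_lit 137) (nat_lit 1) (nat_lit 135) (nat_lit 1) (nat_lit 136) (nat_lit 1) (nat_lit 349) (nat_lit 316) (nat_lit 235)) (XT.nd (nat_lit 78) (nat_lit 76) (nat_lit 0) (XT.lf (nat_lit 0) (nat_lit 219787917) (nat_lit 0) (nat_lit 219836561) (nat_lit 152) (nat_lit 219787917) (nat_lit 135) (nat_lit 3) (nat_lit 135) (nat_lit 1) (nat_lit 137) (nat_lit 1) (nat_lit 350) (nat_lit 316) (nat_lit 234)) (XT.lf (nat_lit 76) (nat_lit 209784739) (nat_lit 0) (nat_lit 209827038) (nat_lit 76) (nat_lit 209827038) (nat_lit 135) (nat_lit 3) (nat_lit 134) (nat_lit 1) (nat_lit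 135) (nat_lit 1) (nat_lit 351) (nat_lit 316) (nat_lit 233))))) (XT.nd (nat_lit 234) (nat_lit 228) (nat_lit 0) (XT.nd (nat_lit 78) (nat_lit 76) (nat_lit 0) (XT.lf (nat_lit 152) (nat_lit 602049234) (nat_lit 0) (nat_lit 11146) (nat_lit 76) (nat_lit 11146) (nat_lit 134) (nat_lit 1) (nat_lit 132) (nat_lit 1) (nat_lit 133) (nat_lit 1) (nat_lit 352) (nat_lit 316) (nat_lit 232)) (XT.nd (nat_lit 78) (nat_lit 76) (nat_lit 0) (XT.lf (nat_lit 0) (nat_lit 191124527) (nat_lit 0) (nat_lit 191152339) (nat_lit 152) (nat_lit 191124527) (nat_lit 132) (nat_lit 3) (nat_lit 132) (nat_lit 1) (nat_lit 134) (nat_lit 1) (nat_lit 353) (nat_lit 316) (nat_lit 231)) (XT.lf (nat_lit 76) (nat_lit 182429719) (nat_lit 0) (nat_lit 182453904) (nat_lit 76) (nat_lit 182453904) (nat_lit 132) (nat_lit 3) (nat_lit 131) (nat_lit 1) (nat_lit 132) (nat_lit 1) (nat_lit 354) (nat_lit 316) (nat_lit 230)))) (XT.nd (nat_lit 78) (nat_lit 76) (nat_lit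 0) (XT.lf (nat_lit 152) (nat_lit 523527279) (nat_lit 0) (nat_lit 6372) (nat_lit 76) (nat_lit 6372) (nat_lit 131) (nat_lit 1) (nat_lit 129) (nat_lit 1) (nat_lit 130) (nat_lit 1) (nat_lit 355) (nat_lit 316) (nat_lit 229)) (XT.nd (nat_lit 78) (nat_lit 76) (nat_lit 0) (XT.lf (nat_lit 0) (nat_lit 166197870) (nat_lit 0) (nat_lit 166213772) (nat_lit 152) (nat_lit 166197870) (nat_lit 129) (nat_lit 3) (nat_lit 129) (nat_lit 1) (nat_lit 131) (nat_lit 1) (nat_lit 356) (nat_lit 316) (nat_lit 228)) (XT.lf (nat_lit 76) (nat_lit 158639231) (nat_lit 0) (nat_lit 158653059) (nat_lit 76) (nat_lit 158653059) (nat_lit 129) (nat_lit 3) (nat_lit 128) (nat_lit 1) (nat_lit 129) (nat_lit 1) (nat_lit 357) (nat_lit 316) (nat_lit 227))))))) (XT.nd (nat_lit 858) (nat_lit 228) (nat_lit 0) (XT.nd (nat_lit 390) (nat_lit 456) (nat_lit 0) (XT.nd (nat_lit 156) (nat_lit 228) (nat_lit 0) (XT.nd (nat_lit 78) (nat_lit 0) (nat_lit 0)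 (XT.lf (nat_lit 152) (nat_lit 455244660) (nat_lit 0) (nat_lit 3643) (nat_lit 76) (nat_lit 3643) (nat_lit 128) (nat_lit 1) (nat_lit 126) (nat_lit 1) (nat_lit 127) (nat_lit 1) (nat_lit 358) (nat_lit 316) (nat_lit 226)) (XT.lf (nat_lit 0) (nat_lit 144521390) (nat_lit 0) (nat_lit 144530482) (nat_lit 152) (nat_lit 144521390) (nat_lit 126) (nat_lit 3) (nat_lit 126) (nat_lit 1) (nat_lit 128) (nat_lit 1) (nat_lit 359) (nat_lit 316) (nat_lit 225))) (XT.nd (nat_lit 78) (nat_lit 152) (nat_lit 0) (XT.lf (nat_lit 76) (nat_lit 137949840) (nat_lit 0) (nat_lit 137957746) (nat_lit 76) (nat_lit 137957746) (nat_lit 126) (nat_lit 3) (nat_lit 125) (nat_lit 1) (nat_lit 126) (nat_lit 1) (nat_lit 360) (nat_lit 316) (nat_lit 224)) (XT.nd (nat_lit 78) (nat_lit 0) (nat_lit 0) (XT.lf (nat_lit 152) (nat_lit 395866951) (nat_lit 0) (nat_lit 2083) (nat_lit 76) (nat_lit 2083) (nat_lit 125) (nat_lit 1) (nat_lit 123) (nat_lit 1)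 (nat_lit 124) (nat_lit 1) (nat_lit 361) (nat_lit 316) (nat_lit 223)) (XT.lf (nat_lit 0) (nat_lit 125671634) (nat_lit 0) (nat_lit 125676832) (nat_lit 152) (nat_lit 125671634) (nat_lit 123) (nat_lit 3) (nat_lit 123) (nat_lit 1) (nat_lit 125) (nat_lit 1) (nat_lit 362) (nat_lit 316) (nat_lit 222))))) (XT.nd (nat_lit 234) (nat_lit 228) (nat_lit 0) (XT.nd (nat_lit 78) (nat_lit 152) (nat_lit 0) (XT.lf (nat_lit 76) (nat_lit 119957917) (nat_lit 0) (nat_lit 119962437) (nat_lit 76) (nat_lit 119962437) (nat_lit 123) (nat_lit 3) (nat_lit 122) (nat_lit 1) (nat_lit 123) (nat_lit 1) (nat_lit 363) (nat_lit 316) (nat_lit 221)) (XT.nd (nat_lit 78) (nat_lit 0) (nat_lit 0) (XT.lf (nat_lit 152) (nat_lit 344233291) (nat_lit 0) (nat_lit 1191) (nat_lit 76) (nat_lit 1191) (nat_lit 122) (nat_lit 1) (nat_lit 120) (nat_lit 1) (nat_lit 121) (nat_lit 1) (nat_lit 364) (nat_lit 316) (nat_lit 220)) (XT.lf (nat_lit 0) (nat_lit 109280173)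 (nat_lit 0) (nat_lit 109283145) (nat_lit 152) (nat_lit 109280173) (nat_lit 120) (nat_lit 3) (nat_lit 120) (nat_lit 1) (nat_lit 122) (nat_lit 1) (nat_lit 365) (nat_lit 316) (nat_lit 219)))) (XT.nd (nat_lit 78) (nat_lit 152) (nat_lit 0) (XT.lf (nat_lit 76) (nat_lit 104312109) (nat_lit 0) (nat_lit 104314694) (nat_lit 76) (nat_lit 104314694) (nat_lit 120) (nat_lit 3) (nat_lit 119) (nat_lit 1) (nat_lit 120) (nat_lit 1) (nat_lit 366) (nat_lit 316) (nat_lit 218)) (XT.nd (nat_lit 78) (nat_lit 0) (nat_lit 0) (XT.lf (nat_lit 152) (nat_lit 299333960) (nat_lit 0) (nat_lit 681) (nat_lit 76) (nat_lit 681) (nat_lit 119) (nat_lit 1) (nat_lit 117) (nat_lit 1) (nat_lit 118) (nat_lit 1) (nat_lit 367) (nat_lit 316) (nat_lit 217)) (XT.lf (nat_lit 0) (nat_lit 95026518) (nat_lit 0) (nat_lit 95028218) (nat_lit 152) (nat_lit 95026518) (nat_lit 117) (nat_lit 3) (nat_lit 117) (nat_lit 1) (nat_lit 119) (nat_lit 1) (nat_lit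 368) (nat_lit 316) (nat_lit 216)))))) (XT.nd (nat_lit 39078) (nat_lit 0) (nat_lit 7144) (XT.nd (nat_lit 38844) (nat_lit 0) (nat_lit 7676) (XT.nd (nat_lit 78) (nat_lit 152) (nat_lit 0) (XT.lf (nat_lit 76) (nat_lit 90706683) (nat_lit 0) (nat_lit 90708161) (nat_lit 76) (nat_lit 90708161) (nat_lit 117) (nat_lit 3) (nat_lit 116) (nat_lit 1) (nat_lit 117) (nat_lit 1) (nat_lit 369) (nat_lit 316) (nat_lit 215)) (XT.nd (nat_lit 78) (nat_lit 0) (nat_lit 0) (XT.lf (nat_lit 152) (nat_lit 260290779) (nat_lit 0) (nat_lit 389) (nat_lit 76) (nat_lit 389) (nat_lit 116) (nat_lit 1) (nat_lit 114) (nat_lit 1) (nat_lit 115) (nat_lit 1) (nat_lit 370) (nat_lit 316) (nat_lit 214)) (XT.lf (nat_lit 0) (nat_lit 82631916) (nat_lit 0) (nat_lit 82632887) (nat_lit 152) (nat_lit 82631916) (nat_lit 114) (nat_lit 3) (nat_lit 114) (nat_lit 1) (nat_lit 116) (nat_lit 1) (nat_lit 371) (nat_lit 316) (nat_lit 213)))) (XT.nd (nat_lit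 78) (nat_lit 0) (nat_lit 0) (XT.lf (nat_lit 380) (nat_lit 7550708842) (nat_lit 0) (nat_lit 6687848656) (nat_lit 380) (nat_lit 7550708842) (nat_lit 220) (nat_lit 1) (nat_lit 215) (nat_lit 0) (nat_lit 220) (nat_lit 0) (nat_lit 266) (nat_lit 317) (nat_lit 317)) (XT.nd (nat_lit 78) (nat_lit 0) (nat_lit 76) (XT.lf (nat_lit 380) (nat_lit 27929092118) (nat_lit 76) (nat_lit 6383855535) (nat_lit 0) (nat_lit 6383855535) (nat_lit 220) (nat_lit 1) (nat_lit 216) (nat_lit 1) (nat_lit 215) (nat_lit 0) (nat_lit 267) (nat_lit 317) (nat_lit 316)) (XT.lf (nat_lit 380) (nat_lit 12310983652) (nat_lit 0) (nat_lit 13395511528) (nat_lit 304) (nat_lit 12310983652) (nat_lit 221) (nat_lit 1) (nat_lit 216) (nat_lit 1) (nat_lit 220) (nat_lit 1) (nat_lit 268) (nat_lit 317) (nat_lit 315))))) (XT.nd (nat_lit 234) (nat_lit 380) (nat_lit 0) (XT.nd (nat_lit 78) (nat_lit 228) (nat_lit 0) (XT.lf (nat_lit 380) (nat_lit 21137319708)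 (nat_lit 76) (nat_lit 7235445914) (nat_lit 0) (nat_lit 7235445914) (nat_lit 221) (nat_lit 1) (nat_lit 217) (nat_lit 1) (nat_lit 216) (nat_lit 1) (nat_lit 269) (nat_lit 317) (nat_lit 314)) (XT.nd (nat_lit 78) (nat_lit 304) (nat_lit 0) (XT.lf (nat_lit 76) (nat_lit 8550326165) (nat_lit 0) (nat_lit 16281256466) (nat_lit 304) (nat_lit 8550326165) (nat_lit 218) (nat_lit 1) (nat_lit 217) (nat_lit 1) (nat_lit 221) (nat_lit 1) (nat_lit 270) (nat_lit 317) (nat_lit 313)) (XT.lf (nat_lit 380) (nat_lit 12850449672) (nat_lit 0) (nat_lit 9249507255) (nat_lit 304) (nat_lit 9249507255) (nat_lit 218) (nat_lit 1) (nat_lit 213) (nat_lit 1) (nat_lit 217) (nat_lit 1) (nat_lit 271) (nat_lit 317) (nat_lit 312)))) (XT.nd (nat_lit 78) (nat_lit 380) (nat_lit 0) (XT.lf (nat_lit 76) (nat_lit 4271347549) (nat_lit 0) (nat_lit 20959609483) (nat_lit 380) (nat_lit 4271347549) (nat_lit 214) (nat_lit 1) (nat_lit 213) (nat_lit 1)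 (nat_lit 218) (nat_lit 1) (nat_lit 272) (nat_lit 317) (nat_lit 311)) (XT.nd (nat_lit 78) (nat_lit 228) (nat_lit 0) (XT.lf (nat_lit 228) (nat_lit 3844112035) (nat_lit 0) (nat_lit 11963850173) (nat_lit 152) (nat_lit 11963850173) (nat_lit 214) (nat_lit 1) (nat_lit 211) (nat_lit 1) (nat_lit 213) (nat_lit 1) (nat_lit 273) (nat_lit 317) (nat_lit 310)) (XT.lf (nat_lit 228) (nat_lit 25832384509) (nat_lit 0) (nat_lit 202681176) (nat_lit 152) (nat_lit 202681176) (nat_lit 211) (nat_lit 1) (nat_lit 208) (nat_lit 1) (nat_lit 210) (nat_lit 1) (nat_lit 274) (nat_lit 317) (nat_lit 309))))))))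
noncomputable def ec56 : XT := (XT.nd (nat_lit 1716) (nat_lit 1596) (nat_lit 0) (XT.nd (nat_lit 858) (nat_lit 912) (nat_lit 0) (XT.nd (nat_lit 390) (nat_lit 304) (nat_lit 0) (XT.nd (nat_lit 156) (nat_lit 304) (nat_lit 0) (XT.nd (nat_lit 78) (nat_lit 152) (nat_lit 0) (XT.lf (nat_lit 76) (nat_lit 9924967243) (nat_lit 0) (nat_lit 4872630614) (nat_lit 228) (nat_lit 9924967243) (nat_lit 209) (nat_lit 1) (nat_lit 208) (nat_lit 1) (nat_lit 211) (nat_lit 1) (nat_lit 275) (nat_lit 317) (nat_lit 308)) (XT.lf (nat_lit 228) (nat_lit 14426320821) (nat_lit 0) (nat_lit 4474902903) (nat_lit 152) (nat_lit 4474902903) (nat_lit 209) (nat_lit 1) (nat_lit 206) (nat_lit 1) (nat_lit 208) (nat_lit 1) (nat_lit 276) (nat_lit 317) (nat_lit 307))) (XT.nd (nat_lit 78) (nat_lit 304) (nat_lit 0) (XT.lf (nat_lit 76) (nat_lit 4511583684) (nat_lit 0) (nat_lit 13092538719) (nat_lit 228) (nat_lit 4511583684) (nat_lit 207) (nat_lit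 1) (nat_lit 206) (nat_lit 1) (nat_lit 209) (nat_lit 1) (nat_lit 277) (nat_lit 317) (nat_lit 306)) (XT.nd (nat_lit 78) (nat_lit 228) (nat_lit 0) (XT.lf (nat_lit 152) (nat_lit 3729657664) (nat_lit 0) (nat_lit 8606203407) (nat_lit 76) (nat_lit 8606203407) (nat_lit 207) (nat_lit 1) (nat_lit 205) (nat_lit 1) (nat_lit 206) (nat_lit 1) (nat_lit 278) (nat_lit 317) (nat_lit 305)) (XT.lf (nat_lit 228) (nat_lit 18881719481) (nat_lit 0) (nat_lit 501612203) (nat_lit 152) (nat_lit 501612203) (nat_lit 205) (nat_lit 1) (nat_lit 202) (nat_lit 1) (nat_lit 204) (nat_lit 1) (nat_lit 279) (nat_lit 317) (nat_lit 304))))) (XT.nd (nat_lit 234) (nat_lit 228) (nat_lit 0) (XT.nd (nat_lit 78) (nat_lit 76) (nat_lit 0) (XT.lf (nat_lit 76) (nat_lit 6608195720) (nat_lit 0) (nat_lit 5611895409) (nat_lit 228) (nat_lit 6608195720) (nat_lit 203) (nat_lit 1) (nat_lit 202) (nat_lit 1) (nat_lit 205) (nat_lit 1) (nat_lit 280) (nat_lit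 317) (nat_lit 303)) (XT.nd (nat_lit 78) (nat_lit 0) (nat_lit 0) (XT.lf (nat_lit 152) (nat_lit 8034933077) (nat_lit 0) (nat_lit 4920624730) (nat_lit 76) (nat_lit 4920624730) (nat_lit 203) (nat_lit 1) (nat_lit 201) (nat_lit 1) (nat_lit 202) (nat_lit 1) (nat_lit 281) (nat_lit 317) (nat_lit 302)) (XT.lf (nat_lit 0) (nat_lit 1573350623) (nat_lit 0) (nat_lit 13851658079) (nat_lit 152) (nat_lit 1573350623) (nat_lit 201) (nat_lit 3) (nat_lit 201) (nat_lit 1) (nat_lit 203) (nat_lit 1) (nat_lit 282) (nat_lit 317) (nat_lit 301)))) (XT.nd (nat_lit 78) (nat_lit 76) (nat_lit 0) (XT.lf (nat_lit 76) (nat_lit 7281460052) (nat_lit 0) (nat_lit 1579222809) (nat_lit 152) (nat_lit 7281460052) (nat_lit 200) (nat_lit 1) (nat_lit 199) (nat_lit 1) (nat_lit 201) (nat_lit 1) (nat_lit 283) (nat_lit 317) (nat_lit 300)) (XT.nd (nat_lit 78) (nat_lit 0) (nat_lit 0) (XT.lf (nat_lit 152) (nat_lit 9726598371) (nat_lit 0) (nat_lit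 2813383159) (nat_lit 76) (nat_lit 2813383159) (nat_lit 200) (nat_lit 1) (nat_lit 198) (nat_lit 1) (nat_lit 199) (nat_lit 1) (nat_lit 284) (nat_lit 317) (nat_lit 299)) (XT.lf (nat_lit 0) (nat_lit 2528964930) (nat_lit 0) (nat_lit 9549127069) (nat_lit 152) (nat_lit 2528964930) (nat_lit 198) (nat_lit 3) (nat_lit 198) (nat_lit 1) (nat_lit 200) (nat_lit 1) (nat_lit 285) (nat_lit 317) (nat_lit 298)))))) (XT.nd (nat_lit 390) (nat_lit 456) (nat_lit 0) (XT.nd (nat_lit 156) (nat_lit 228) (nat_lit 0) (XT.nd (nat_lit 78) (nat_lit 152) (nat_lit 0) (XT.lf (nat_lit 76) (nat_lit 564166883) (nat_lit 0) (nat_lit 6668655699) (nat_lit 76) (nat_lit 6668655699) (nat_lit 198) (nat_lit 3) (nat_lit 197) (nat_lit 1) (nat_lit 198) (nat_lit 1) (nat_lit 286) (nat_lit 317) (nat_lit 297)) (XT.lf (nat_lit 152) (nat_lit 10024344019) (nat_lit 0) (nat_lit 1608560952) (nat_lit 76) (nat_lit 1608560952) (nat_lit 197) (nat_lit 1) (nat_lit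 195) (nat_lit 1) (nat_lit 196) (nat_lit 1) (nat_lit 287) (nat_lit 317) (nat_lit 296))) (XT.nd (nat_lit 78) (nat_lit 228) (nat_lit 0) (XT.lf (nat_lit 0) (nat_lit 2862810520) (nat_lit 0) (nat_lit 6876611007) (nat_lit 152) (nat_lit 2862810520) (nat_lit 195) (nat_lit 3) (nat_lit 195) (nat_lit 1) (nat_lit 197) (nat_lit 1) (nat_lit 288) (nat_lit 317) (nat_lit 295)) (XT.nd (nat_lit 78) (nat_lit 152) (nat_lit 0) (XT.lf (nat_lit 76) (nat_lit 1675027832) (nat_lit 0) (nat_lit 5165289125) (nat_lit 76) (nat_lit 5165289125) (nat_lit 195) (nat_lit 3) (nat_lit 194) (nat_lit 1) (nat_lit 195) (nat_lit 1) (nat_lit 289) (nat_lit 317) (nat_lit 294)) (XT.lf (nat_lit 152) (nat_lit 9612433690) (nat_lit 0) (nat_lit 919699945) (nat_lit 76) (nat_lit 919699945) (nat_lit 194) (nat_lit 1) (nat_lit 192) (nat_lit 1) (nat_lit 193) (nat_lit 1) (nat_lit 290) (nat_lit 317) (nat_lit 293))))) (XT.nd (nat_lit 234) (nat_lit 228) (nat_lit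 0) (XT.nd (nat_lit 78) (nat_lit 228) (nat_lit 0) (XT.lf (nat_lit 0) (nat_lit 2868879131) (nat_lit 0) (nat_lit 5163782586) (nat_lit 152) (nat_lit 2868879131) (nat_lit 192) (nat_lit 3) (nat_lit 192) (nat_lit 1) (nat_lit 194) (nat_lit 1) (nat_lit 291) (nat_lit 317) (nat_lit 292)) (XT.nd (nat_lit 78) (nat_lit 152) (nat_lit 0) (XT.lf (nat_lit 76) (nat_lit 2133757891) (nat_lit 0) (nat_lit 4129326113) (nat_lit 76) (nat_lit 4129326113) (nat_lit 192) (nat_lit 3) (nat_lit 191) (nat_lit 1) (nat_lit 192) (nat_lit 1) (nat_lit 292) (nat_lit 317) (nat_lit 291)) (XT.lf (nat_lit 152) (nat_lit 8870707518) (nat_lit 0) (nat_lit 525841428) (nat_lit 76) (nat_lit 525841428) (nat_lit 191) (nat_lit 1) (nat_lit 189) (nat_lit 1) (nat_lit 190) (nat_lit 1) (nat_lit 293) (nat_lit 317) (nat_lit 290)))) (XT.nd (nat_lit 78) (nat_lit 228) (nat_lit 0) (XT.lf (nat_lit 0) (nat_lit 2711645671) (nat_lit 0) (nat_lit 4023764170) (nat_lit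 152) (nat_lit 2711645671) (nat_lit 189) (nat_lit 3) (nat_lit 189) (nat_lit 1) (nat_lit 191) (nat_lit 1) (nat_lit 294) (nat_lit 317) (nat_lit 289)) (XT.nd (nat_lit 78) (nat_lit 152) (nat_lit 0) (XT.lf (nat_lit 76) (nat_lit 2242639774) (nat_lit 0) (nat_lit 3383612382) (nat_lit 76) (nat_lit 3383612382) (nat_lit 189) (nat_lit 3) (nat_lit 188) (nat_lit 1) (nat_lit 189) (nat_lit 1) (nat_lit 295) (nat_lit 317) (nat_lit 288)) (XT.lf (nat_lit 152) (nat_lit 8006436126) (nat_lit 0) (nat_lit 300651543) (nat_lit 76) (nat_lit 300651543) (nat_lit 188) (nat_lit 1) (nat_lit 186) (nat_lit 1) (nat_lit 187) (nat_lit 1) (nat_lit 296) (nat_lit 317) (nat_lit 287))))))) (XT.nd (nat_lit 858) (nat_lit 836) (nat_lit 0) (XT.nd (nat_lit 390) (nat_lit 456) (nat_lit 0) (XT.nd (nat_lit 156) (nat_lit 228) (nat_lit 0) (XT.nd (nat_lit 78) (nat_lit 76) (nat_lit 0) (XT.lf (nat_lit 0) (nat_lit 2482005010) (nat_lit 0) (nat_lit 3232213021)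 (nat_lit 152) (nat_lit 2482005010) (nat_lit 186) (nat_lit 3) (nat_lit 186) (nat_lit 1) (nat_lit 188) (nat_lit 1) (nat_lit 297) (nat_lit 317) (nat_lit 286)) (XT.lf (nat_lit 76) (nat_lit 2171503331) (nat_lit 0) (nat_lit 2823858122) (nat_lit 76) (nat_lit 2823858122) (nat_lit 186) (nat_lit 3) (nat_lit 185) (nat_lit 1) (nat_lit 186) (nat_lit 1) (nat_lit 298) (nat_lit 317) (nat_lit 285))) (XT.nd (nat_lit 78) (nat_lit 76) (nat_lit 0) (XT.lf (nat_lit 152) (nat_lit 7129514807) (nat_lit 0) (nat_lit 171898495) (nat_lit 76) (nat_lit 171898495) (nat_lit 185) (nat_lit 1) (nat_lit 183) (nat_lit 1) (nat_lit 184) (nat_lit 1) (nat_lit 299) (nat_lit 317) (nat_lit 284)) (XT.nd (nat_lit 78) (nat_lit 76) (nat_lit 0) (XT.lf (nat_lit 0) (nat_lit 2229192505) (nat_lit 0) (nat_lit 2658126370) (nat_lit 152) (nat_lit 2229192505) (nat_lit 183) (nat_lit 3) (nat_lit 183) (nat_lit 1) (nat_lit 185) (nat_lit 1) (nat_lit 300) (nat_lit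 317) (nat_lit 283)) (XT.lf (nat_lit 76) (nat_lit 2014839521) (nat_lit 0) (nat_lit 2387825491) (nat_lit 76) (nat_lit 2387825491) (nat_lit 183) (nat_lit 3) (nat_lit 182) (nat_lit 1) (nat_lit 183) (nat_lit 1) (nat_lit 301) (nat_lit 317) (nat_lit 282))))) (XT.nd (nat_lit 234) (nat_lit 228) (nat_lit 0) (XT.nd (nat_lit 78) (nat_lit 76) (nat_lit 0) (XT.lf (nat_lit 152) (nat_lit 6295287549) (nat_lit 0) (nat_lit 98283522) (nat_lit 76) (nat_lit 98283522) (nat_lit 182) (nat_lit 1) (nat_lit 180) (nat_lit 1) (nat_lit 181) (nat_lit 1) (nat_lit 302) (nat_lit 317) (nat_lit 281)) (XT.nd (nat_lit 78) (nat_lit 76) (nat_lit 0) (XT.lf (nat_lit 0) (nat_lit 1978981167) (nat_lit 0) (nat_lit 2224225496) (nat_lit 152) (nat_lit 1978981167) (nat_lit 180) (nat_lit 3) (nat_lit 180) (nat_lit 1) (nat_lit 182) (nat_lit 1) (nat_lit 303) (nat_lit 317) (nat_lit 280)) (XT.lf (nat_lit 76) (nat_lit 1824404465) (nat_lit 0) (nat_lit 2037660404)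 (nat_lit 76) (nat_lit 2037660404) (nat_lit 180) (nat_lit 3) (nat_lit 179) (nat_lit 1) (nat_lit 180) (nat_lit 1) (nat_lit 304) (nat_lit 317) (nat_lit 279)))) (XT.nd (nat_lit 78) (nat_lit 76) (nat_lit 0) (XT.lf (nat_lit 152) (nat_lit 5528885278) (nat_lit 0) (nat_lit 56193923) (nat_lit 76) (nat_lit 56193923) (nat_lit 179) (nat_lit 1) (nat_lit 177) (nat_lit 1) (nat_lit 178) (nat_lit 1) (nat_lit 305) (nat_lit 317) (nat_lit 278)) (XT.nd (nat_lit 78) (nat_lit 76) (nat_lit 0) (XT.lf (nat_lit 0) (nat_lit 1744039441) (nat_lit 0) (nat_lit 1884258683) (nat_lit 152) (nat_lit 1744039441) (nat_lit 177) (nat_lit 3) (nat_lit 177) (nat_lit 1) (nat_lit 179) (nat_lit 1) (nat_lit 306) (nat_lit 317) (nat_lit 277)) (XT.lf (nat_lit 76) (nat_lit 1627816505) (nat_lit 0) (nat_lit 1749746280) (nat_lit 76) (nat_lit 1749746280) (nat_lit 177) (nat_lit 3) (nat_lit 176) (nat_lit 1) (nat_lit 177) (nat_lit 1) (nat_lit 307) (nat_lit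 317) (nat_lit 276)))))) (XT.nd (nat_lit 390) (nat_lit 456) (nat_lit 0) (XT.nd (nat_lit 156) (nat_lit 228) (nat_lit 0) (XT.nd (nat_lit 78) (nat_lit 0) (nat_lit 0) (XT.lf (nat_lit 152) (nat_lit 4839013920) (nat_lit 0) (nat_lit 32129057) (nat_lit 76) (nat_lit 32129057) (nat_lit 176) (nat_lit 1) (nat_lit 174) (nat_lit 1) (nat_lit 175) (nat_lit 1) (nat_lit 308) (nat_lit 317) (nat_lit 275)) (XT.lf (nat_lit 0) (nat_lit 1529812851) (nat_lit 0) (nat_lit 1609983658) (nat_lit 152) (nat_lit 1529812851) (nat_lit 174) (nat_lit 3) (nat_lit 174) (nat_lit 1) (nat_lit 176) (nat_lit 1) (nat_lit 309) (nat_lit 317) (nat_lit 274))) (XT.nd (nat_lit 78) (nat_lit 152) (nat_lit 0) (XT.lf (nat_lit 76) (nat_lit 1439150526) (nat_lit 0) (nat_lit 1508864271) (nat_lit 76) (nat_lit 1508864271) (nat_lit 174) (nat_lit 3) (nat_lit 173) (nat_lit 1) (nat_lit 174) (nat_lit 1) (nat_lit 310) (nat_lit 317) (nat_lit 273)) (XT.nd (nat_lit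 78) (nat_lit 0) (nat_lit 0) (XT.lf (nat_lit 152) (nat_lit 4225726973) (nat_lit 0) (nat_lit 18369893) (nat_lit 76) (nat_lit 18369893) (nat_lit 173) (nat_lit 1) (nat_lit 171) (nat_lit 1) (nat_lit 172) (nat_lit 1) (nat_lit 311) (nat_lit 317) (nat_lit 272)) (XT.lf (nat_lit 0) (nat_lit 1337851672) (nat_lit 0) (nat_lit 1383689591) (nat_lit 152) (nat_lit 1337851672) (nat_lit 171) (nat_lit 3) (nat_lit 171) (nat_lit 1) (nat_lit 173) (nat_lit 1) (nat_lit 312) (nat_lit 317) (nat_lit 271))))) (XT.nd (nat_lit 234) (nat_lit 228) (nat_lit 0) (XT.nd (nat_lit 78) (nat_lit 152) (nat_lit 0) (XT.lf (nat_lit 76) (nat_lit 1264961729) (nat_lit 0) (nat_lit 1304820789) (nat_lit 76) (nat_lit 1304820789) (nat_lit 171) (nat_lit 3) (nat_lit 170) (nat_lit 1) (nat_lit 171) (nat_lit 1) (nat_lit 313) (nat_lit 317) (nat_lit 270)) (XT.nd (nat_lit 78) (nat_lit 0) (nat_lit 0) (XT.lf (nat_lit 152) (nat_lit 3684773163) (nat_lit 0) (nat_lit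 10503046) (nat_lit 76) (nat_lit 10503046) (nat_lit 170) (nat_lit 1) (nat_lit 168) (nat_lit 1) (nat_lit 169) (nat_lit 1) (nat_lit 314) (nat_lit 317) (nat_lit 269)) (XT.lf (nat_lit 0) (nat_lit 1167682956) (nat_lit 0) (nat_lit 1193890935) (nat_lit 152) (nat_lit 1167682956) (nat_lit 168) (nat_lit 3) (nat_lit 168) (nat_lit 1) (nat_lit 170) (nat_lit 1) (nat_lit 315) (nat_lit 317) (nat_lit 268)))) (XT.nd (nat_lit 78) (nat_lit 152) (nat_lit 0) (XT.lf (nat_lit 76) (nat_lit 1107700535) (nat_lit 0) (nat_lit 1130490082) (nat_lit 76) (nat_lit 1130490082) (nat_lit 168) (nat_lit 3) (nat_lit 167) (nat_lit 1) (nat_lit 168) (nat_lit 1) (nat_lit 316) (nat_lit 317) (nat_lit 267)) (XT.nd (nat_lit 78) (nat_lit 0) (nat_lit 0) (XT.lf (nat_lit 152) (nat_lit 3209998451) (nat_lit 0) (nat_lit 6005150) (nat_lit 76) (nat_lit 6005150) (nat_lit 167) (nat_lit 1) (nat_lit 165) (nat_lit 1) (nat_lit 166) (nat_lit 1) (nat_lit 317)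 (nat_lit 317) (nat_lit 266)) (XT.lf (nat_lit 0) (nat_lit 1017854277) (nat_lit 0) (nat_lit 1032838774) (nat_lit 152) (nat_lit 1017854277) (nat_lit 165) (nat_lit 3) (nat_lit 165) (nat_lit 1) (nat_lit 167) (nat_lit 1) (nat_lit 318) (nat_lit 317) (nat_lit 265))))))))
noncomputable def ec57 : XT := (XT.nd (nat_lit 1716) (nat_lit 1748) (nat_lit 0) (XT.nd (nat_lit 858) (nat_lit 760) (nat_lit 0) (XT.nd (nat_lit 390) (nat_lit 456) (nat_lit 0) (XT.nd (nat_lit 156) (nat_lit 228) (nat_lit 0) (XT.nd (nat_lit 78) (nat_lit 152) (nat_lit 0) (XT.lf (nat_lit 76) (nat_lit 967639690) (nat_lit 0) (nat_lit 980669687) (nat_lit 76) (nat_lit 980669687) (nat_lit 165) (nat_lit 3) (nat_lit 164) (nat_lit 1) (nat_lit 165) (nat_lit 1) (nat_lit 319) (nat_lit 317) (nat_lit 264)) (XT.lf (nat_lit 152) (nat_lit 2794646542) (nat_lit 0) (nat_lit 3433464) (nat_lit 76) (nat_lit 3433464) (nat_lit 164) (nat_lit 1) (nat_lit 162) (nat_lit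 1) (nat_lit 163) (nat_lit 1) (nat_lit 320) (nat_lit 317) (nat_lit 263))) (XT.nd (nat_lit 78) (nat_lit 228) (nat_lit 0) (XT.lf (nat_lit 0) (nat_lit 886507362) (nat_lit 0) (nat_lit 895074797) (nat_lit 152) (nat_lit 886507362) (nat_lit 162) (nat_lit 3) (nat_lit 162) (nat_lit 1) (nat_lit 164) (nat_lit 1) (nat_lit 321) (nat_lit 317) (nat_lit 262)) (XT.nd (nat_lit 78) (nat_lit 152) (nat_lit 0) (XT.lf (nat_lit 76) (nat_lit 843954015) (nat_lit 0) (nat_lit 851403958) (nat_lit 76) (nat_lit 851403958) (nat_lit 162) (nat_lit 3) (nat_lit 161) (nat_lit 1) (nat_lit 162) (nat_lit 1) (nat_lit 322) (nat_lit 317) (nat_lit 261)) (XT.lf (nat_lit 152) (nat_lit 2432039108) (nat_lit 0) (nat_lit 1963094) (nat_lit 76) (nat_lit 1963094) (nat_lit 161) (nat_lit 1) (nat_lit 159) (nat_lit 1) (nat_lit 160) (nat_lit 1) (nat_lit 323) (nat_lit 317) (nat_lit 260))))) (XT.nd (nat_lit 234) (nat_lit 228) (nat_lit 0) (XT.nd (nat_lit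 78) (nat_lit 228) (nat_lit 0) (XT.lf (nat_lit 0) (nat_lit 771685962) (nat_lit 0) (nat_lit 776584421) (nat_lit 152) (nat_lit 771685962) (nat_lit 159) (nat_lit 3) (nat_lit 159) (nat_lit 1) (nat_lit 161) (nat_lit 1) (nat_lit 324) (nat_lit 317) (nat_lit 259)) (XT.nd (nat_lit 78) (nat_lit 152) (nat_lit 0) (XT.lf (nat_lit 76) (nat_lit 735318561) (nat_lit 0) (nat_lit 739578090) (nat_lit 76) (nat_lit 739578090) (nat_lit 159) (nat_lit 3) (nat_lit 158) (nat_lit 1) (nat_lit 159) (nat_lit 1) (nat_lit 325) (nat_lit 317) (nat_lit 258)) (XT.lf (nat_lit 152) (nat_lit 2115909625) (nat_lit 0) (nat_lit 1122405) (nat_lit 76) (nat_lit 1122405) (nat_lit 158) (nat_lit 1) (nat_lit 156) (nat_lit 1) (nat_lit 157) (nat_lit 1) (nat_lit 326) (nat_lit 317) (nat_lit 257)))) (XT.nd (nat_lit 78) (nat_lit 228) (nat_lit 0) (XT.lf (nat_lit 0) (nat_lit 671494389) (nat_lit 0) (nat_lit 674295098) (nat_lit 152) (nat_lit 671494389) (nat_lit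 156) (nat_lit 3) (nat_lit 156) (nat_lit 1) (nat_lit 158) (nat_lit 1) (nat_lit 327) (nat_lit 317) (nat_lit 256)) (XT.nd (nat_lit 78) (nat_lit 152) (nat_lit 0) (XT.lf (nat_lit 76) (nat_lit 640233917) (nat_lit 0) (nat_lit 642669316) (nat_lit 76) (nat_lit 642669316) (nat_lit 156) (nat_lit 3) (nat_lit 155) (nat_lit 1) (nat_lit 156) (nat_lit 1) (nat_lit 328) (nat_lit 317) (nat_lit 255)) (XT.lf (nat_lit 152) (nat_lit 1840546345) (nat_lit 0) (nat_lit 641739) (nat_lit 76) (nat_lit 641739) (nat_lit 155) (nat_lit 1) (nat_lit 153) (nat_lit 1) (nat_lit 154) (nat_lit 1) (nat_lit 329) (nat_lit 317) (nat_lit 254)))))) (XT.nd (nat_lit 390) (nat_lit 456) (nat_lit 0) (XT.nd (nat_lit 156) (nat_lit 228) (nat_lit 0) (XT.nd (nat_lit 78) (nat_lit 76) (nat_lit 0) (XT.lf (nat_lit 0) (nat_lit 584172953) (nat_lit 0) (nat_lit 585774268) (nat_lit 152) (nat_lit 584172953) (nat_lit 153) (nat_lit 3) (nat_lit 153) (nat_lit 1) (nat_lit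 155) (nat_lit 1) (nat_lit 330) (nat_lit 317) (nat_lit 253)) (XT.lf (nat_lit 76) (nat_lit 557197683) (nat_lit 0) (nat_lit 558590131) (nat_lit 76) (nat_lit 558590131) (nat_lit 153) (nat_lit 3) (nat_lit 152) (nat_lit 1) (nat_lit 153) (nat_lit 1) (nat_lit 331) (nat_lit 317) (nat_lit 252))) (XT.nd (nat_lit 78) (nat_lit 76) (nat_lit 0) (XT.lf (nat_lit 152) (nat_lit 1600832389) (nat_lit 0) (nat_lit 366916) (nat_lit 76) (nat_lit 366916) (nat_lit 152) (nat_lit 1) (nat_lit 150) (nat_lit 1) (nat_lit 151) (nat_lit 1) (nat_lit 332) (nat_lit 317) (nat_lit 251)) (XT.nd (nat_lit 78) (nat_lit 76) (nat_lit 0) (XT.lf (nat_lit 0) (nat_lit 508127875) (nat_lit 0) (nat_lit 509043432) (nat_lit 152) (nat_lit 508127875) (nat_lit 150) (nat_lit 3) (nat_lit 150) (nat_lit 1) (nat_lit 152) (nat_lit 1) (nat_lit 333) (nat_lit 317) (nat_lit 250)) (XT.lf (nat_lit 76) (nat_lit 484789900) (nat_lit 0) (nat_lit 485586036) (nat_lit 76)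 (nat_lit 485586036) (nat_lit 150) (nat_lit 3) (nat_lit 149) (nat_lit 1) (nat_lit 150) (nat_lit 1) (nat_lit 334) (nat_lit 317) (nat_lit 249))))) (XT.nd (nat_lit 234) (nat_lit 228) (nat_lit 0) (XT.nd (nat_lit 78) (nat_lit 76) (nat_lit 0) (XT.lf (nat_lit 152) (nat_lit 1392232456) (nat_lit 0) (nat_lit 209785) (nat_lit 76) (nat_lit 209785) (nat_lit 149) (nat_lit 1) (nat_lit 147) (nat_lit 1) (nat_lit 148) (nat_lit 1) (nat_lit 335) (nat_lit 317) (nat_lit 248)) (XT.nd (nat_lit 78) (nat_lit 76) (nat_lit 0) (XT.lf (nat_lit 0) (nat_lit 441936886) (nat_lit 0) (nat_lit 442460358) (nat_lit 152) (nat_lit 441936886) (nat_lit 147) (nat_lit 3) (nat_lit 147) (nat_lit 1) (nat_lit 149) (nat_lit 1) (nat_lit 336) (nat_lit 317) (nat_lit 247)) (XT.lf (nat_lit 76) (nat_lit 421710908) (nat_lit 0) (nat_lit 422166102) (nat_lit 76) (nat_lit 422166102) (nat_lit 147) (nat_lit 3) (nat_lit 146) (nat_lit 1) (nat_lit 147) (nat_lit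 1) (nat_lit 337) (nat_lit 317) (nat_lit 246)))) (XT.nd (nat_lit 78) (nat_lit 76) (nat_lit 0) (XT.lf (nat_lit 152) (nat_lit 1210753722) (nat_lit 0) (nat_lit 119945) (nat_lit 76) (nat_lit 119945) (nat_lit 146) (nat_lit 1) (nat_lit 144) (nat_lit 1) (nat_lit 145) (nat_lit 1) (nat_lit 338) (nat_lit 317) (nat_lit 245)) (XT.nd (nat_lit 78) (nat_lit 76) (nat_lit 0) (XT.lf (nat_lit 0) (nat_lit 384342435) (nat_lit 0) (nat_lit 384641732) (nat_lit 152) (nat_lit 384342435) (nat_lit 144) (nat_lit 3) (nat_lit 144) (nat_lit 1) (nat_lit 146) (nat_lit 1) (nat_lit 339) (nat_lit 317) (nat_lit 244)) (XT.lf (nat_lit 76) (nat_lit 366793458) (nat_lit 0) (nat_lit 367053716) (nat_lit 76) (nat_lit 367053716) (nat_lit 144) (nat_lit 3) (nat_lit 143) (nat_lit 1) (nat_lit 144) (nat_lit 1) (nat_lit 340) (nat_lit 317) (nat_lit 243))))))) (XT.nd (nat_lit 858) (nat_lit 912) (nat_lit 0) (XT.nd (nat_lit 390) (nat_lit 456) (nat_lit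 0) (XT.nd (nat_lit 156) (nat_lit 228) (nat_lit 0) (XT.nd (nat_lit 78) (nat_lit 0) (nat_lit 0) (XT.lf (nat_lit 152) (nat_lit 1052896107) (nat_lit 0) (nat_lit 68579) (nat_lit 76) (nat_lit 68579) (nat_lit 143) (nat_lit 1) (nat_lit 141) (nat_lit 1) (nat_lit 142) (nat_lit 1) (nat_lit 341) (nat_lit 317) (nat_lit 242)) (XT.lf (nat_lit 0) (nat_lit 334239110) (nat_lit 0) (nat_lit 334410234) (nat_lit 152) (nat_lit 334239110) (nat_lit 141) (nat_lit 3) (nat_lit 141) (nat_lit 1) (nat_lit 143) (nat_lit 1) (nat_lit 342) (nat_lit 317) (nat_lit 241))) (XT.nd (nat_lit 78) (nat_lit 152) (nat_lit 0) (XT.lf (nat_lit 76) (nat_lit 319001331) (nat_lit 0) (nat_lit 319150134) (nat_lit 76) (nat_lit 319150134) (nat_lit 141) (nat_lit 3) (nat_lit 140) (nat_lit 1) (nat_lit 141) (nat_lit 1) (nat_lit 343) (nat_lit 317) (nat_lit 240)) (XT.nd (nat_lit 78) (nat_lit 0) (nat_lit 0) (XT.lf (nat_lit 152) (nat_lit 915600015) (nat_lit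 0) (nat_lit 39210) (nat_lit 76) (nat_lit 39210) (nat_lit 140) (nat_lit 1) (nat_lit 138) (nat_lit 1) (nat_lit 139) (nat_lit 1) (nat_lit 344) (nat_lit 317) (nat_lit 239)) (XT.lf (nat_lit 0) (nat_lit 290658883) (nat_lit 0) (nat_lit 290756723) (nat_lit 152) (nat_lit 290658883) (nat_lit 138) (nat_lit 3) (nat_lit 138) (nat_lit 1) (nat_lit 140) (nat_lit 1) (nat_lit 345) (nat_lit 317) (nat_lit 238))))) (XT.nd (nat_lit 234) (nat_lit 228) (nat_lit 0) (XT.nd (nat_lit 78) (nat_lit 152) (nat_lit 0) (XT.lf (nat_lit 76) (nat_lit 277421334) (nat_lit 0) (nat_lit 277506413) (nat_lit 76) (nat_lit 277506413) (nat_lit 138) (nat_lit 3) (nat_lit 137) (nat_lit 1) (nat_lit 138) (nat_lit 1) (nat_lit 346) (nat_lit 317) (nat_lit 237)) (XT.nd (nat_lit 78) (nat_lit 0) (nat_lit 0) (XT.lf (nat_lit 152) (nat_lit 796195758) (nat_lit 0) (nat_lit 22418) (nat_lit 76) (nat_lit 22418) (nat_lit 137) (nat_lit 1) (nat_lit 135) (nat_lit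 1) (nat_lit 136) (nat_lit 1) (nat_lit 347) (nat_lit 317) (nat_lit 236)) (XT.lf (nat_lit 0) (nat_lit 252756105) (nat_lit 0) (nat_lit 252812045) (nat_lit 152) (nat_lit 252756105) (nat_lit 135) (nat_lit 3) (nat_lit 135) (nat_lit 1) (nat_lit 137) (nat_lit 1) (nat_lit 348) (nat_lit 317) (nat_lit 235)))) (XT.nd (nat_lit 78) (nat_lit 152) (nat_lit 0) (XT.lf (nat_lit 76) (nat_lit 241252450) (nat_lit 0) (nat_lit 241301094) (nat_lit 76) (nat_lit 241301094) (nat_lit 135) (nat_lit 3) (nat_lit 134) (nat_lit 1) (nat_lit 135) (nat_lit 1) (nat_lit 349) (nat_lit 317) (nat_lit 234)) (XT.nd (nat_lit 78) (nat_lit 0) (nat_lit 0) (XT.lf (nat_lit 152) (nat_lit 692356620) (nat_lit 0) (nat_lit 12817) (nat_lit 76) (nat_lit 12817) (nat_lit 134) (nat_lit 1) (nat_lit 132) (nat_lit 1) (nat_lit 133) (nat_lit 1) (nat_lit 350) (nat_lit 317) (nat_lit 233)) (XT.lf (nat_lit 0) (nat_lit 219793206) (nat_lit 0) (nat_lit 219825190) (nat_lit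 152) (nat_lit 219793206) (nat_lit 132) (nat_lit 3) (nat_lit 132) (nat_lit 1) (nat_lit 134) (nat_lit 1) (nat_lit 351) (nat_lit 317) (nat_lit 232)))))) (XT.nd (nat_lit 468) (nat_lit 456) (nat_lit 0) (XT.nd (nat_lit 234) (nat_lit 228) (nat_lit 0) (XT.nd (nat_lit 78) (nat_lit 152) (nat_lit 0) (XT.lf (nat_lit 76) (nat_lit 209794177) (nat_lit 0) (nat_lit 209821990) (nat_lit 76) (nat_lit 209821990) (nat_lit 132) (nat_lit 3) (nat_lit 131) (nat_lit 1) (nat_lit 132) (nat_lit 1) (nat_lit 352) (nat_lit 317) (nat_lit 231)) (XT.nd (nat_lit 78) (nat_lit 0) (nat_lit 0) (XT.lf (nat_lit 152) (nat_lit 602056371) (nat_lit 0) (nat_lit 7328) (nat_lit 76) (nat_lit 7328) (nat_lit 131) (nat_lit 1) (nat_lit 129) (nat_lit 1) (nat_lit 130) (nat_lit 1) (nat_lit 353) (nat_lit 317) (nat_lit 230)) (XT.lf (nat_lit 0) (nat_lit 191127551) (nat_lit 0) (nat_lit 191145838) (nat_lit 152) (nat_lit 191127551) (nat_lit 129) (nat_lit 3)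 (nat_lit 129) (nat_lit 1) (nat_lit 131) (nat_lit 1) (nat_lit 354) (nat_lit 317) (nat_lit 229)))) (XT.nd (nat_lit 78) (nat_lit 152) (nat_lit 0) (XT.lf (nat_lit 76) (nat_lit 182435116) (nat_lit 0) (nat_lit 182451018) (nat_lit 76) (nat_lit 182451018) (nat_lit 129) (nat_lit 3) (nat_lit 128) (nat_lit 1) (nat_lit 129) (nat_lit 1) (nat_lit 355) (nat_lit 317) (nat_lit 228)) (XT.nd (nat_lit 78) (nat_lit 0) (nat_lit 0) (XT.lf (nat_lit 152) (nat_lit 523531360) (nat_lit 0) (nat_lit 4190) (nat_lit 76) (nat_lit 4190) (nat_lit 128) (nat_lit 1) (nat_lit 126) (nat_lit 1) (nat_lit 127) (nat_lit 1) (nat_lit 356) (nat_lit 317) (nat_lit 227)) (XT.lf (nat_lit 0) (nat_lit 166199599) (nat_lit 0) (nat_lit 166210055) (nat_lit 152) (nat_lit 166199599) (nat_lit 126) (nat_lit 3) (nat_lit 126) (nat_lit 1) (nat_lit 128) (nat_lit 1) (nat_lit 357) (nat_lit 317) (nat_lit 226))))) (XT.nd (nat_lit 234) (nat_lit 228) (nat_lit 0) (XT.nd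 (nat_lit 78) (nat_lit 152) (nat_lit 0) (XT.lf (nat_lit 76) (nat_lit 158642317) (nat_lit 0) (nat_lit 158651409) (nat_lit 76) (nat_lit 158651409) (nat_lit 126) (nat_lit 3) (nat_lit 125) (nat_lit 1) (nat_lit 126) (nat_lit 1) (nat_lit 358) (nat_lit 317) (nat_lit 225)) (XT.nd (nat_lit 78) (nat_lit 0) (nat_lit 0) (XT.lf (nat_lit 152) (nat_lit 455246993) (nat_lit 0) (nat_lit 2395) (nat_lit 76) (nat_lit 2395) (nat_lit 125) (nat_lit 1) (nat_lit 123) (nat_lit 1) (nat_lit 124) (nat_lit 1) (nat_lit 359) (nat_lit 317) (nat_lit 224)) (XT.lf (nat_lit 0) (nat_lit 144522379) (nat_lit 0) (nat_lit 144528357) (nat_lit 152) (nat_lit 144522379) (nat_lit 123) (nat_lit 3) (nat_lit 123) (nat_lit 1) (nat_lit 125) (nat_lit 1) (nat_lit 360) (nat_lit 317) (nat_lit 223)))) (XT.nd (nat_lit 78) (nat_lit 152) (nat_lit 0) (XT.lf (nat_lit 76) (nat_lit 137951605) (nat_lit 0) (nat_lit 137956803) (nat_lit 76) (nat_lit 137956803) (nat_lit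 123) (nat_lit 3) (nat_lit 122) (nat_lit 1) (nat_lit 123) (nat_lit 1) (nat_lit 361) (nat_lit 317) (nat_lit 222)) (XT.nd (nat_lit 78) (nat_lit 0) (nat_lit 0) (XT.lf (nat_lit 152) (nat_lit 395868285) (nat_lit 0) (nat_lit 1369) (nat_lit 76) (nat_lit 1369) (nat_lit 122) (nat_lit 1) (nat_lit 120) (nat_lit 1) (nat_lit 121) (nat_lit 1) (nat_lit 362) (nat_lit 317) (nat_lit 221)) (XT.lf (nat_lit 0) (nat_lit 125672199) (nat_lit 0) (nat_lit 125675617) (nat_lit 152) (nat_lit 125672199) (nat_lit 120) (nat_lit 3) (nat_lit 120) (nat_lit 1) (nat_lit 122) (nat_lit 1) (nat_lit 363) (nat_lit 317) (nat_lit 220))))))))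
noncomputable def ec58 : XT := (XT.nd (nat_lit 40170) (nat_lit 0) (nat_lit 5396) (XT.nd (nat_lit 39312) (nat_lit 0) (nat_lit 6916) (XT.nd (nat_lit 390) (nat_lit 228) (nat_lit 0) (XT.nd (nat_lit 156) (nat_lit 228) (nat_lit 0) (XT.nd (nat_lit 78) (nat_lit 152) (nat_lit 0) (XT.lf (nat_lit 76) (nat_lit 119958926) (nat_lit 0) (nat_lit 119961898) (nat_lit 76) (nat_lit 119961898) (nat_lit 120) (nat_lit 3) (nat_lit 119) (nat_lit 1) (nat_lit 120) (nat_lit 1) (nat_lit 364) (nat_lit 317) (nat_lit 219)) (XT.lf (nat_lit 152) (nat_lit 344234054) (nat_lit 0) (nat_lit 783) (nat_lit 76) (nat_lit 783) (nat_lit 119) (nat_lit 1) (nat_lit 117) (nat_lit 1) (nat_lit 118) (nat_lit 1) (nat_lit 365) (nat_lit 317) (nat_lit 218))) (XT.nd (nat_lit 78) (nat_lit 228) (nat_lit 0) (XT.lf (nat_lit 0) (nat_lit 109280496) (nat_lit 0) (nat_lit 109282450) (nat_lit 152) (nat_lit 109280496) (nat_lit 117) (nat_lit 3) (nat_lit 117) (nat_lit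 1) (nat_lit 119) (nat_lit 1) (nat_lit 366) (nat_lit 317) (nat_lit 217)) (XT.nd (nat_lit 78) (nat_lit 152) (nat_lit 0) (XT.lf (nat_lit 76) (nat_lit 104312686) (nat_lit 0) (nat_lit 104314385) (nat_lit 76) (nat_lit 104314385) (nat_lit 117) (nat_lit 3) (nat_lit 116) (nat_lit 1) (nat_lit 117) (nat_lit 1) (nat_lit 367) (nat_lit 317) (nat_lit 216)) (XT.lf (nat_lit 152) (nat_lit 299334396) (nat_lit 0) (nat_lit 447) (nat_lit 76) (nat_lit 447) (nat_lit 116) (nat_lit 1) (nat_lit 114) (nat_lit 1) (nat_lit 115) (nat_lit 1) (nat_lit 368) (nat_lit 317) (nat_lit 215))))) (XT.nd (nat_lit 38688) (nat_lit 0) (nat_lit 7904) (XT.nd (nat_lit 78) (nat_lit 228) (nat_lit 0) (XT.lf (nat_lit 0) (nat_lit 95026703) (nat_lit 0) (nat_lit 95027820) (nat_lit 152) (nat_lit 95026703) (nat_lit 114) (nat_lit 3) (nat_lit 114) (nat_lit 1) (nat_lit 116) (nat_lit 1) (nat_lit 369) (nat_lit 317) (nat_lit 214)) (XT.nd (nat_lit 78) (nat_lit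 152) (nat_lit 0) (XT.lf (nat_lit 76) (nat_lit 90707013) (nat_lit 0) (nat_lit 90707985) (nat_lit 76) (nat_lit 90707985) (nat_lit 114) (nat_lit 3) (nat_lit 113) (nat_lit 1) (nat_lit 114) (nat_lit 1) (nat_lit 370) (nat_lit 317) (nat_lit 213)) (XT.lf (nat_lit 152) (nat_lit 260291028) (nat_lit 0) (nat_lit 256) (nat_lit 76) (nat_lit 256) (nat_lit 113) (nat_lit 1) (nat_lit 111) (nat_lit 1) (nat_lit 112) (nat_lit 1) (nat_lit 371) (nat_lit 317) (nat_lit 212)))) (XT.nd (nat_lit 78) (nat_lit 0) (nat_lit 0) (XT.lf (nat_lit 380) (nat_lit 8683315169) (nat_lit 0) (nat_lit 7691025954) (nat_lit 380) (nat_lit 8683315169) (nat_lit 220) (nat_lit 1) (nat_lit 215) (nat_lit 0) (nat_lit 220) (nat_lit 0) (nat_lit 264) (nat_lit 318) (nat_lit 318)) (XT.nd (nat_lit 78) (nat_lit 0) (nat_lit 76) (XT.lf (nat_lit 380) (nat_lit 32118455936) (nat_lit 76) (nat_lit 7341433865) (nat_lit 0) (nat_lit 7341433865) (nat_lit 220) (nat_lit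 1) (nat_lit 216) (nat_lit 1) (nat_lit 215) (nat_lit 0) (nat_lit 265) (nat_lit 318) (nat_lit 317)) (XT.lf (nat_lit 380) (nat_lit 14157631199) (nat_lit 0) (nat_lit 15404838257) (nat_lit 304) (nat_lit 14157631199) (nat_lit 221) (nat_lit 1) (nat_lit 216) (nat_lit 1) (nat_lit 220) (nat_lit 1) (nat_lit 266) (nat_lit 318) (nat_lit 316)))))) (XT.nd (nat_lit 390) (nat_lit 684) (nat_lit 0) (XT.nd (nat_lit 156) (nat_lit 380) (nat_lit 0) (XT.nd (nat_lit 78) (nat_lit 0) (nat_lit 76) (XT.lf (nat_lit 380) (nat_lit 24307917664) (nat_lit 76) (nat_lit 8320762801) (nat_lit 0) (nat_lit 8320762801) (nat_lit 221) (nat_lit 1) (nat_lit 217) (nat_lit 1) (nat_lit 216) (nat_lit 1) (nat_lit 267) (nat_lit 318) (nat_lit 315)) (XT.lf (nat_lit 76) (nat_lit 9832875090) (nat_lit 0) (nat_lit 18723444936) (nat_lit 304) (nat_lit 9832875090) (nat_lit 218) (nat_lit 1) (nat_lit 217) (nat_lit 1) (nat_lit 221) (nat_lit 1) (nat_lit 268)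 (nat_lit 318) (nat_lit 314))) (XT.nd (nat_lit 78) (nat_lit 152) (nat_lit 0) (XT.lf (nat_lit 380) (nat_lit 14778017123) (nat_lit 0) (nat_lit 10636933343) (nat_lit 304) (nat_lit 10636933343) (nat_lit 218) (nat_lit 1) (nat_lit 213) (nat_lit 1) (nat_lit 217) (nat_lit 1) (nat_lit 269) (nat_lit 318) (nat_lit 313)) (XT.nd (nat_lit 78) (nat_lit 152) (nat_lit 0) (XT.lf (nat_lit 76) (nat_lit 4912049682) (nat_lit 0) (nat_lit 24103550905) (nat_lit 380) (nat_lit 4912049682) (nat_lit 214) (nat_lit 1) (nat_lit 213) (nat_lit 1) (nat_lit 218) (nat_lit 1) (nat_lit 270) (nat_lit 318) (nat_lit 312)) (XT.lf (nat_lit 228) (nat_lit 4420728840) (nat_lit 0) (nat_lit 13758427700) (nat_lit 152) (nat_lit 13758427700) (nat_lit 214) (nat_lit 1) (nat_lit 211) (nat_lit 1) (nat_lit 213) (nat_lit 1) (nat_lit 271) (nat_lit 318) (nat_lit 311))))) (XT.nd (nat_lit 234) (nat_lit 304) (nat_lit 0) (XT.nd (nat_lit 78) (nat_lit 152) (nat_lit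 0) (XT.lf (nat_lit 228) (nat_lit 29707242185) (nat_lit 0) (nat_lit 233083352) (nat_lit 152) (nat_lit 233083352) (nat_lit 211) (nat_lit 1) (nat_lit 208) (nat_lit 1) (nat_lit 210) (nat_lit 1) (nat_lit 272) (nat_lit 318) (nat_lit 310)) (XT.nd (nat_lit 78) (nat_lit 152) (nat_lit 0) (XT.lf (nat_lit 76) (nat_lit 11413712329) (nat_lit 0) (nat_lit 5603525206) (nat_lit 228) (nat_lit 11413712329) (nat_lit 209) (nat_lit 1) (nat_lit 208) (nat_lit 1) (nat_lit 211) (nat_lit 1) (nat_lit 273) (nat_lit 318) (nat_lit 309)) (XT.lf (nat_lit 228) (nat_lit 16590268945) (nat_lit 0) (nat_lit 5146138338) (nat_lit 152) (nat_lit 5146138338) (nat_lit 209) (nat_lit 1) (nat_lit 206) (nat_lit 1) (nat_lit 208) (nat_lit 1) (nat_lit 274) (nat_lit 318) (nat_lit 308)))) (XT.nd (nat_lit 78) (nat_lit 304) (nat_lit 0) (XT.lf (nat_lit 76) (nat_lit 5188321236) (nat_lit 0) (nat_lit 15056419527) (nat_lit 228) (nat_lit 5188321236) (nat_lit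 207) (nat_lit 1) (nat_lit 206) (nat_lit 1) (nat_lit 209) (nat_lit 1) (nat_lit 275) (nat_lit 318) (nat_lit 307)) (XT.nd (nat_lit 78) (nat_lit 228) (nat_lit 0) (XT.lf (nat_lit 152) (nat_lit 4289106314) (nat_lit 0) (nat_lit 9897133918) (nat_lit 76) (nat_lit 9897133918) (nat_lit 207) (nat_lit 1) (nat_lit 205) (nat_lit 1) (nat_lit 206) (nat_lit 1) (nat_lit 276) (nat_lit 318) (nat_lit 306)) (XT.lf (nat_lit 228) (nat_lit 21713977403) (nat_lit 0) (nat_lit 576854033) (nat_lit 152) (nat_lit 576854033) (nat_lit 205) (nat_lit 1) (nat_lit 202) (nat_lit 1) (nat_lit 204) (nat_lit 1) (nat_lit 277) (nat_lit 318) (nat_lit 305))))))) (XT.nd (nat_lit 858) (nat_lit 760) (nat_lit 0) (XT.nd (nat_lit 390) (nat_lit 456) (nat_lit 0) (XT.nd (nat_lit 156) (nat_lit 228) (nat_lit 0) (XT.nd (nat_lit 78) (nat_lit 76) (nat_lit 0) (XT.lf (nat_lit 76) (nat_lit 7599425078) (nat_lit 0) (nat_lit 6453679721) (nat_lit 228) (nat_lit 7599425078)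 (nat_lit 203) (nat_lit 1) (nat_lit 202) (nat_lit 1) (nat_lit 205) (nat_lit 1) (nat_lit 278) (nat_lit 318) (nat_lit 304)) (XT.lf (nat_lit 152) (nat_lit 9240173038) (nat_lit 0) (nat_lit 5658718439) (nat_lit 76) (nat_lit 5658718439) (nat_lit 203) (nat_lit 1) (nat_lit 201) (nat_lit 1) (nat_lit 202) (nat_lit 1) (nat_lit 279) (nat_lit 318) (nat_lit 303))) (XT.nd (nat_lit 78) (nat_lit 228) (nat_lit 0) (XT.lf (nat_lit 0) (nat_lit 1809353217) (nat_lit 0) (nat_lit 15929406791) (nat_lit 152) (nat_lit 1809353217) (nat_lit 201) (nat_lit 3) (nat_lit 201) (nat_lit 1) (nat_lit 203) (nat_lit 1) (nat_lit 280) (nat_lit 318) (nat_lit 302)) (XT.nd (nat_lit 78) (nat_lit 76) (nat_lit 0) (XT.lf (nat_lit 76) (nat_lit 8373679059) (nat_lit 0) (nat_lit 1816106230) (nat_lit 152) (nat_lit 8373679059) (nat_lit 200) (nat_lit 1) (nat_lit 199) (nat_lit 1) (nat_lit 201) (nat_lit 1) (nat_lit 281) (nat_lit 318) (nat_lit 301)) (XT.lf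 (nat_lit 152) (nat_lit 11185588127) (nat_lit 0) (nat_lit 3235390633) (nat_lit 76) (nat_lit 3235390633) (nat_lit 200) (nat_lit 1) (nat_lit 198) (nat_lit 1) (nat_lit 199) (nat_lit 1) (nat_lit 282) (nat_lit 318) (nat_lit 300))))) (XT.nd (nat_lit 234) (nat_lit 228) (nat_lit 0) (XT.nd (nat_lit 78) (nat_lit 228) (nat_lit 0) (XT.lf (nat_lit 0) (nat_lit 2908309670) (nat_lit 0) (nat_lit 10981496129) (nat_lit 152) (nat_lit 2908309670) (nat_lit 198) (nat_lit 3) (nat_lit 198) (nat_lit 1) (nat_lit 200) (nat_lit 1) (nat_lit 283) (nat_lit 318) (nat_lit 299)) (XT.nd (nat_lit 78) (nat_lit 152) (nat_lit 0) (XT.lf (nat_lit 76) (nat_lit 648791916) (nat_lit 0) (nat_lit 7668954054) (nat_lit 76) (nat_lit 7668954054) (nat_lit 198) (nat_lit 3) (nat_lit 197) (nat_lit 1) (nat_lit 198) (nat_lit 1) (nat_lit 284) (nat_lit 318) (nat_lit 298)) (XT.lf (nat_lit 152) (nat_lit 11527995622) (nat_lit 0) (nat_lit 1849845095) (nat_lit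 76) (nat_lit 1849845095) (nat_lit 197) (nat_lit 1) (nat_lit 195) (nat_lit 1) (nat_lit 196) (nat_lit 1) (nat_lit 285) (nat_lit 318) (nat_lit 297)))) (XT.nd (nat_lit 78) (nat_lit 228) (nat_lit 0) (XT.lf (nat_lit 0) (nat_lit 3292232098) (nat_lit 0) (nat_lit 7908102658) (nat_lit 152) (nat_lit 3292232098) (nat_lit 195) (nat_lit 3) (nat_lit 195) (nat_lit 1) (nat_lit 197) (nat_lit 1) (nat_lit 286) (nat_lit 318) (nat_lit 296)) (XT.nd (nat_lit 78) (nat_lit 152) (nat_lit 0) (XT.lf (nat_lit 76) (nat_lit 1926282007) (nat_lit 0) (nat_lit 5940082494) (nat_lit 76) (nat_lit 5940082494) (nat_lit 195) (nat_lit 3) (nat_lit 194) (nat_lit 1) (nat_lit 195) (nat_lit 1) (nat_lit 287) (nat_lit 318) (nat_lit 295)) (XT.lf (nat_lit 152) (nat_lit 11054298743) (nat_lit 0) (nat_lit 1057654937) (nat_lit 76) (nat_lit 1057654937) (nat_lit 194) (nat_lit 1) (nat_lit 192) (nat_lit 1) (nat_lit 193) (nat_lit 1) (nat_lit 288) (nat_lit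 318) (nat_lit 294)))))) (XT.nd (nat_lit 390) (nat_lit 456) (nat_lit 0) (XT.nd (nat_lit 156) (nat_lit 228) (nat_lit 0) (XT.nd (nat_lit 78) (nat_lit 76) (nat_lit 0) (XT.lf (nat_lit 0) (nat_lit 3299211000) (nat_lit 0) (nat_lit 5938349974) (nat_lit 152) (nat_lit 3299211000) (nat_lit 192) (nat_lit 3) (nat_lit 192) (nat_lit 1) (nat_lit 194) (nat_lit 1) (nat_lit 289) (nat_lit 318) (nat_lit 293)) (XT.lf (nat_lit 76) (nat_lit 2453821574) (nat_lit 0) (nat_lit 4748725030) (nat_lit 76) (nat_lit 4748725030) (nat_lit 192) (nat_lit 3) (nat_lit 191) (nat_lit 1) (nat_lit 192) (nat_lit 1) (nat_lit 290) (nat_lit 318) (nat_lit 292))) (XT.nd (nat_lit 78) (nat_lit 76) (nat_lit 0) (XT.lf (nat_lit 152) (nat_lit 10201313646) (nat_lit 0) (nat_lit 604717643) (nat_lit 76) (nat_lit 604717643) (nat_lit 191) (nat_lit 1) (nat_lit 189) (nat_lit 1) (nat_lit 190) (nat_lit 1) (nat_lit 291) (nat_lit 318) (nat_lit 291)) (XT.nd (nat_lit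 78) (nat_lit 76) (nat_lit 0) (XT.lf (nat_lit 0) (nat_lit 3118392522) (nat_lit 0) (nat_lit 4627328796) (nat_lit 152) (nat_lit 3118392522) (nat_lit 189) (nat_lit 3) (nat_lit 189) (nat_lit 1) (nat_lit 191) (nat_lit 1) (nat_lit 292) (nat_lit 318) (nat_lit 290)) (XT.lf (nat_lit 76) (nat_lit 2579035741) (nat_lit 0) (nat_lit 3891154240) (nat_lit 76) (nat_lit 3891154240) (nat_lit 189) (nat_lit 3) (nat_lit 188) (nat_lit 1) (nat_lit 189) (nat_lit 1) (nat_lit 293) (nat_lit 318) (nat_lit 289))))) (XT.nd (nat_lit 234) (nat_lit 228) (nat_lit 0) (XT.nd (nat_lit 78) (nat_lit 76) (nat_lit 0) (XT.lf (nat_lit 152) (nat_lit 9207401545) (nat_lit 0) (nat_lit 345749275) (nat_lit 76) (nat_lit 345749275) (nat_lit 188) (nat_lit 1) (nat_lit 186) (nat_lit 1) (nat_lit 187) (nat_lit 1) (nat_lit 294) (nat_lit 318) (nat_lit 288)) (XT.nd (nat_lit 78) (nat_lit 76) (nat_lit 0) (XT.lf (nat_lit 0) (nat_lit 2854305762) (nat_lit 0)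 (nat_lit 3717044974) (nat_lit 152) (nat_lit 2854305762) (nat_lit 186) (nat_lit 3) (nat_lit 186) (nat_lit 1) (nat_lit 188) (nat_lit 1) (nat_lit 295) (nat_lit 318) (nat_lit 287)) (XT.lf (nat_lit 76) (nat_lit 2497228830) (nat_lit 0) (nat_lit 3247436841) (nat_lit 76) (nat_lit 3247436841) (nat_lit 186) (nat_lit 3) (nat_lit 185) (nat_lit 1) (nat_lit 186) (nat_lit 1) (nat_lit 296) (nat_lit 318) (nat_lit 286)))) (XT.nd (nat_lit 78) (nat_lit 76) (nat_lit 0) (XT.lf (nat_lit 152) (nat_lit 8198942028) (nat_lit 0) (nat_lit 197683270) (nat_lit 76) (nat_lit 197683270) (nat_lit 185) (nat_lit 1) (nat_lit 183) (nat_lit 1) (nat_lit 184) (nat_lit 1) (nat_lit 297) (nat_lit 318) (nat_lit 285)) (XT.nd (nat_lit 78) (nat_lit 76) (nat_lit 0) (XT.lf (nat_lit 0) (nat_lit 2563571381) (nat_lit 0) (nat_lit 3056845325) (nat_lit 152) (nat_lit 2563571381) (nat_lit 183) (nat_lit 3) (nat_lit 183) (nat_lit 1) (nat_lit 185) (nat_lit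 1) (nat_lit 298) (nat_lit 318) (nat_lit 284)) (XT.lf (nat_lit 76) (nat_lit 2317065450) (nat_lit 0) (nat_lit 2745999314) (nat_lit 76) (nat_lit 2745999314) (nat_lit 183) (nat_lit 3) (nat_lit 182) (nat_lit 1) (nat_lit 183) (nat_lit 1) (nat_lit 299) (nat_lit 318) (nat_lit 283))))))))
noncomputable def ec59 : XT := (XT.nd (nat_lit 1716) (nat_lit 1672) (nat_lit 0) (XT.nd (nat_lit 858) (nat_lit 912) (nat_lit 0) (XT.nd (nat_lit 390) (nat_lit 456) (nat_lit 0) (XT.nd (nat_lit 156) (nat_lit 228) (nat_lit 0) (XT.nd (nat_lit 78) (nat_lit 0) (nat_lit 0) (XT.lf (nat_lit 152) (nat_lit 7239580682) (nat_lit 0) (nat_lit 113026051) (nat_lit 76) (nat_lit 113026051) (nat_lit 182) (nat_lit 1) (nat_lit 180) (nat_lit 1) (nat_lit 181) (nat_lit 1) (nat_lit 300) (nat_lit 318) (nat_lit 282)) (XT.lf (nat_lit 0) (nat_lit 2275828342) (nat_lit 0) (nat_lit 2557859320) (nat_lit 152) (nat_lit 2275828342) (nat_lit 180) (nat_lit 3)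 (nat_lit 180) (nat_lit 1) (nat_lit 182) (nat_lit 1) (nat_lit 301) (nat_lit 318) (nat_lit 281))) (XT.nd (nat_lit 78) (nat_lit 152) (nat_lit 0) (XT.lf (nat_lit 76) (nat_lit 2098065135) (nat_lit 0) (nat_lit 2343309465) (nat_lit 76) (nat_lit 2343309465) (nat_lit 180) (nat_lit 3) (nat_lit 179) (nat_lit 1) (nat_lit 180) (nat_lit 1) (nat_lit 302) (nat_lit 318) (nat_lit 280)) (XT.nd (nat_lit 78) (nat_lit 0) (nat_lit 0) (XT.lf (nat_lit 152) (nat_lit 6358218070) (nat_lit 0) (nat_lit 64623011) (nat_lit 76) (nat_lit 64623011) (nat_lit 179) (nat_lit 1) (nat_lit 177) (nat_lit 1) (nat_lit 178) (nat_lit 1) (nat_lit 303) (nat_lit 318) (nat_lit 279)) (XT.lf (nat_lit 0) (nat_lit 2005645358) (nat_lit 0) (nat_lit 2166897485) (nat_lit 152) (nat_lit 2005645358) (nat_lit 177) (nat_lit 3) (nat_lit 177) (nat_lit 1) (nat_lit 179) (nat_lit 1) (nat_lit 304) (nat_lit 318) (nat_lit 278))))) (XT.nd (nat_lit 234) (nat_lit 228)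 (nat_lit 0) (XT.nd (nat_lit 78) (nat_lit 152) (nat_lit 0) (XT.lf (nat_lit 76) (nat_lit 1871988980) (nat_lit 0) (nat_lit 2012208222) (nat_lit 76) (nat_lit 2012208222) (nat_lit 177) (nat_lit 3) (nat_lit 176) (nat_lit 1) (nat_lit 177) (nat_lit 1) (nat_lit 305) (nat_lit 318) (nat_lit 277)) (XT.nd (nat_lit 78) (nat_lit 0) (nat_lit 0) (XT.lf (nat_lit 152) (nat_lit 5564866008) (nat_lit 0) (nat_lit 36948416) (nat_lit 76) (nat_lit 36948416) (nat_lit 176) (nat_lit 1) (nat_lit 174) (nat_lit 1) (nat_lit 175) (nat_lit 1) (nat_lit 306) (nat_lit 318) (nat_lit 276)) (XT.lf (nat_lit 0) (nat_lit 1759284779) (nat_lit 0) (nat_lit 1851481206) (nat_lit 152) (nat_lit 1759284779) (nat_lit 174) (nat_lit 3) (nat_lit 174) (nat_lit 1) (nat_lit 176) (nat_lit 1) (nat_lit 307) (nat_lit 318) (nat_lit 275)))) (XT.nd (nat_lit 78) (nat_lit 152) (nat_lit 0) (XT.lf (nat_lit 76) (nat_lit 1655023105) (nat_lit 0) (nat_lit 1735193912)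 (nat_lit 76) (nat_lit 1735193912) (nat_lit 174) (nat_lit 3) (nat_lit 173) (nat_lit 1) (nat_lit 174) (nat_lit 1) (nat_lit 308) (nat_lit 318) (nat_lit 274)) (XT.nd (nat_lit 78) (nat_lit 0) (nat_lit 0) (XT.lf (nat_lit 152) (nat_lit 4859586019) (nat_lit 0) (nat_lit 21125377) (nat_lit 76) (nat_lit 21125377) (nat_lit 173) (nat_lit 1) (nat_lit 171) (nat_lit 1) (nat_lit 172) (nat_lit 1) (nat_lit 309) (nat_lit 318) (nat_lit 273)) (XT.lf (nat_lit 0) (nat_lit 1538529423) (nat_lit 0) (nat_lit 1591243029) (nat_lit 152) (nat_lit 1538529423) (nat_lit 171) (nat_lit 3) (nat_lit 171) (nat_lit 1) (nat_lit 173) (nat_lit 1) (nat_lit 310) (nat_lit 318) (nat_lit 272)))))) (XT.nd (nat_lit 390) (nat_lit 456) (nat_lit 0) (XT.nd (nat_lit 156) (nat_lit 228) (nat_lit 0) (XT.nd (nat_lit 78) (nat_lit 152) (nat_lit 0) (XT.lf (nat_lit 76) (nat_lit 1454705989) (nat_lit 0) (nat_lit 1500543907) (nat_lit 76) (nat_lit 1500543907) (nat_lit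 171) (nat_lit 3) (nat_lit 170) (nat_lit 1) (nat_lit 171) (nat_lit 1) (nat_lit 311) (nat_lit 318) (nat_lit 271)) (XT.lf (nat_lit 152) (nat_lit 4237489137) (nat_lit 0) (nat_lit 12078502) (nat_lit 76) (nat_lit 12078502) (nat_lit 170) (nat_lit 1) (nat_lit 168) (nat_lit 1) (nat_lit 169) (nat_lit 1) (nat_lit 312) (nat_lit 318) (nat_lit 270))) (XT.nd (nat_lit 78) (nat_lit 228) (nat_lit 0) (XT.lf (nat_lit 0) (nat_lit 1342835400) (nat_lit 0) (nat_lit 1372974575) (nat_lit 152) (nat_lit 1342835400) (nat_lit 168) (nat_lit 3) (nat_lit 168) (nat_lit 1) (nat_lit 170) (nat_lit 1) (nat_lit 313) (nat_lit 318) (nat_lit 269)) (XT.nd (nat_lit 78) (nat_lit 152) (nat_lit 0) (XT.lf (nat_lit 76) (nat_lit 1273855615) (nat_lit 0) (nat_lit 1300063594) (nat_lit 76) (nat_lit 1300063594) (nat_lit 168) (nat_lit 3) (nat_lit 167) (nat_lit 1) (nat_lit 168) (nat_lit 1) (nat_lit 314) (nat_lit 318) (nat_lit 268)) (XT.lf (nat_lit 152)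 (nat_lit 3691498218) (nat_lit 0) (nat_lit 6905923) (nat_lit 76) (nat_lit 6905923) (nat_lit 167) (nat_lit 1) (nat_lit 165) (nat_lit 1) (nat_lit 166) (nat_lit 1) (nat_lit 315) (nat_lit 318) (nat_lit 267))))) (XT.nd (nat_lit 234) (nat_lit 228) (nat_lit 0) (XT.nd (nat_lit 78) (nat_lit 228) (nat_lit 0) (XT.lf (nat_lit 0) (nat_lit 1170532419) (nat_lit 0) (nat_lit 1187764590) (nat_lit 152) (nat_lit 1170532419) (nat_lit 165) (nat_lit 3) (nat_lit 165) (nat_lit 1) (nat_lit 167) (nat_lit 1) (nat_lit 316) (nat_lit 318) (nat_lit 266)) (XT.nd (nat_lit 78) (nat_lit 152) (nat_lit 0) (XT.lf (nat_lit 76) (nat_lit 1112785643) (nat_lit 0) (nat_lit 1127770140) (nat_lit 76) (nat_lit 1127770140) (nat_lit 165) (nat_lit 3) (nat_lit 164) (nat_lit 1) (nat_lit 165) (nat_lit 1) (nat_lit 317) (nat_lit 318) (nat_lit 265)) (XT.lf (nat_lit 152) (nat_lit 3213843523) (nat_lit 0) (nat_lit 3948484) (nat_lit 76) (nat_lit 3948484) (nat_lit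 164) (nat_lit 1) (nat_lit 162) (nat_lit 1) (nat_lit 163) (nat_lit 1) (nat_lit 318) (nat_lit 318) (nat_lit 264)))) (XT.nd (nat_lit 78) (nat_lit 228) (nat_lit 0) (XT.lf (nat_lit 0) (nat_lit 1019483467) (nat_lit 0) (nat_lit 1029336017) (nat_lit 152) (nat_lit 1019483467) (nat_lit 162) (nat_lit 3) (nat_lit 162) (nat_lit 1) (nat_lit 164) (nat_lit 1) (nat_lit 319) (nat_lit 318) (nat_lit 263)) (XT.nd (nat_lit 78) (nat_lit 152) (nat_lit 0) (XT.lf (nat_lit 76) (nat_lit 970547117) (nat_lit 0) (nat_lit 979114552) (nat_lit 76) (nat_lit 979114552) (nat_lit 162) (nat_lit 3) (nat_lit 161) (nat_lit 1) (nat_lit 162) (nat_lit 1) (nat_lit 320) (nat_lit 318) (nat_lit 262)) (XT.lf (nat_lit 152) (nat_lit 2796844974) (nat_lit 0) (nat_lit 2257558) (nat_lit 76) (nat_lit 2257558) (nat_lit 161) (nat_lit 1) (nat_lit 159) (nat_lit 1) (nat_lit 160) (nat_lit 1) (nat_lit 321) (nat_lit 318) (nat_lit 261))))))) (XT.nd (nat_lit 858)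 (nat_lit 912) (nat_lit 0) (XT.nd (nat_lit 390) (nat_lit 456) (nat_lit 0) (XT.nd (nat_lit 156) (nat_lit 228) (nat_lit 0) (XT.nd (nat_lit 78) (nat_lit 76) (nat_lit 0) (XT.lf (nat_lit 0) (nat_lit 887438857) (nat_lit 0) (nat_lit 893072084) (nat_lit 152) (nat_lit 887438857) (nat_lit 159) (nat_lit 3) (nat_lit 159) (nat_lit 1) (nat_lit 161) (nat_lit 1) (nat_lit 322) (nat_lit 318) (nat_lit 260)) (XT.lf (nat_lit 76) (nat_lit 845616345) (nat_lit 0) (nat_lit 850514804) (nat_lit 76) (nat_lit 850514804) (nat_lit 159) (nat_lit 3) (nat_lit 158) (nat_lit 1) (nat_lit 159) (nat_lit 1) (nat_lit 323) (nat_lit 318) (nat_lit 259))) (XT.nd (nat_lit 78) (nat_lit 76) (nat_lit 0) (XT.lf (nat_lit 152) (nat_lit 2433296069) (nat_lit 0) (nat_lit 1290766) (nat_lit 76) (nat_lit 1290766) (nat_lit 158) (nat_lit 1) (nat_lit 156) (nat_lit 1) (nat_lit 157) (nat_lit 1) (nat_lit 324) (nat_lit 318) (nat_lit 258)) (XT.nd (nat_lit 78)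 (nat_lit 76) (nat_lit 0) (XT.lf (nat_lit 0) (nat_lit 772218547) (nat_lit 0) (nat_lit 775439363) (nat_lit 152) (nat_lit 772218547) (nat_lit 156) (nat_lit 3) (nat_lit 156) (nat_lit 1) (nat_lit 158) (nat_lit 1) (nat_lit 325) (nat_lit 318) (nat_lit 257)) (XT.lf (nat_lit 76) (nat_lit 736269004) (nat_lit 0) (nat_lit 739069714) (nat_lit 76) (nat_lit 739069714) (nat_lit 156) (nat_lit 3) (nat_lit 155) (nat_lit 1) (nat_lit 156) (nat_lit 1) (nat_lit 326) (nat_lit 318) (nat_lit 256))))) (XT.nd (nat_lit 234) (nat_lit 228) (nat_lit 0) (XT.nd (nat_lit 78) (nat_lit 76) (nat_lit 0) (XT.lf (nat_lit 152) (nat_lit 2116628297) (nat_lit 0) (nat_lit 737999) (nat_lit 76) (nat_lit 737999) (nat_lit 155) (nat_lit 1) (nat_lit 153) (nat_lit 1) (nat_lit 154) (nat_lit 1) (nat_lit 327) (nat_lit 318) (nat_lit 255)) (XT.nd (nat_lit 78) (nat_lit 76) (nat_lit 0) (XT.lf (nat_lit 0) (nat_lit 671798896) (nat_lit 0) (nat_lit 673640408)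 (nat_lit 152) (nat_lit 671798896) (nat_lit 153) (nat_lit 3) (nat_lit 153) (nat_lit 1) (nat_lit 155) (nat_lit 1) (nat_lit 328) (nat_lit 318) (nat_lit 254)) (XT.lf (nat_lit 76) (nat_lit 640777336) (nat_lit 0) (nat_lit 642378650) (nat_lit 76) (nat_lit 642378650) (nat_lit 153) (nat_lit 3) (nat_lit 152) (nat_lit 1) (nat_lit 153) (nat_lit 1) (nat_lit 329) (nat_lit 318) (nat_lit 253)))) (XT.nd (nat_lit 78) (nat_lit 76) (nat_lit 0) (XT.lf (nat_lit 152) (nat_lit 1840957248) (nat_lit 0) (nat_lit 421953) (nat_lit 76) (nat_lit 421953) (nat_lit 152) (nat_lit 1) (nat_lit 150) (nat_lit 1) (nat_lit 151) (nat_lit 1) (nat_lit 330) (nat_lit 318) (nat_lit 252)) (XT.nd (nat_lit 78) (nat_lit 76) (nat_lit 0) (XT.lf (nat_lit 0) (nat_lit 584347056) (nat_lit 0) (nat_lit 585399946) (nat_lit 152) (nat_lit 584347056) (nat_lit 150) (nat_lit 3) (nat_lit 150) (nat_lit 1) (nat_lit 152) (nat_lit 1) (nat_lit 331) (nat_lit 318) (nat_lit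 251)) (XT.lf (nat_lit 76) (nat_lit 557508385) (nat_lit 0) (nat_lit 558423942) (nat_lit 76) (nat_lit 558423942) (nat_lit 150) (nat_lit 3) (nat_lit 149) (nat_lit 1) (nat_lit 150) (nat_lit 1) (nat_lit 332) (nat_lit 318) (nat_lit 250)))))) (XT.nd (nat_lit 468) (nat_lit 456) (nat_lit 0) (XT.nd (nat_lit 234) (nat_lit 228) (nat_lit 0) (XT.nd (nat_lit 78) (nat_lit 76) (nat_lit 0) (XT.lf (nat_lit 152) (nat_lit 1601067324) (nat_lit 0) (nat_lit 241253) (nat_lit 76) (nat_lit 241253) (nat_lit 149) (nat_lit 1) (nat_lit 147) (nat_lit 1) (nat_lit 148) (nat_lit 1) (nat_lit 333) (nat_lit 318) (nat_lit 249)) (XT.nd (nat_lit 78) (nat_lit 76) (nat_lit 0) (XT.lf (nat_lit 0) (nat_lit 508227419) (nat_lit 0) (nat_lit 508829412) (nat_lit 152) (nat_lit 508227419) (nat_lit 147) (nat_lit 3) (nat_lit 147) (nat_lit 1) (nat_lit 149) (nat_lit 1) (nat_lit 334) (nat_lit 318) (nat_lit 248)) (XT.lf (nat_lit 76) (nat_lit 484967544)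 (nat_lit 0) (nat_lit 485491017) (nat_lit 76) (nat_lit 485491017) (nat_lit 147) (nat_lit 3) (nat_lit 146) (nat_lit 1) (nat_lit 147) (nat_lit 1) (nat_lit 335) (nat_lit 318) (nat_lit 247)))) (XT.nd (nat_lit 78) (nat_lit 76) (nat_lit 0) (XT.lf (nat_lit 152) (nat_lit 1392366781) (nat_lit 0) (nat_lit 137937) (nat_lit 76) (nat_lit 137937) (nat_lit 146) (nat_lit 1) (nat_lit 144) (nat_lit 1) (nat_lit 145) (nat_lit 1) (nat_lit 336) (nat_lit 318) (nat_lit 246)) (XT.nd (nat_lit 78) (nat_lit 76) (nat_lit 0) (XT.lf (nat_lit 0) (nat_lit 441993800) (nat_lit 0) (nat_lit 442337992) (nat_lit 152) (nat_lit 441993800) (nat_lit 144) (nat_lit 3) (nat_lit 144) (nat_lit 1) (nat_lit 146) (nat_lit 1) (nat_lit 337) (nat_lit 318) (nat_lit 245)) (XT.lf (nat_lit 76) (nat_lit 421812477) (nat_lit 0) (nat_lit 422111774) (nat_lit 76) (nat_lit 422111774) (nat_lit 144) (nat_lit 3) (nat_lit 143) (nat_lit 1) (nat_lit 144) (nat_lit 1)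 (nat_lit 338) (nat_lit 318) (nat_lit 244))))) (XT.nd (nat_lit 234) (nat_lit 228) (nat_lit 0) (XT.nd (nat_lit 78) (nat_lit 76) (nat_lit 0) (XT.lf (nat_lit 152) (nat_lit 1210830523) (nat_lit 0) (nat_lit 78866) (nat_lit 76) (nat_lit 78866) (nat_lit 143) (nat_lit 1) (nat_lit 141) (nat_lit 1) (nat_lit 142) (nat_lit 1) (nat_lit 339) (nat_lit 318) (nat_lit 243)) (XT.nd (nat_lit 78) (nat_lit 76) (nat_lit 0) (XT.lf (nat_lit 0) (nat_lit 384374976) (nat_lit 0) (nat_lit 384571769) (nat_lit 152) (nat_lit 384374976) (nat_lit 141) (nat_lit 3) (nat_lit 141) (nat_lit 1) (nat_lit 143) (nat_lit 1) (nat_lit 340) (nat_lit 318) (nat_lit 242)) (XT.lf (nat_lit 76) (nat_lit 366851530) (nat_lit 0) (nat_lit 367022655) (nat_lit 76) (nat_lit 367022655) (nat_lit 141) (nat_lit 3) (nat_lit 140) (nat_lit 1) (nat_lit 141) (nat_lit 1) (nat_lit 341) (nat_lit 318) (nat_lit 241)))) (XT.nd (nat_lit 78) (nat_lit 76) (nat_lit 0) (XT.lf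 (nat_lit 152) (nat_lit 1052940018) (nat_lit 0) (nat_lit 45091) (nat_lit 76) (nat_lit 45091) (nat_lit 140) (nat_lit 1) (nat_lit 138) (nat_lit 1) (nat_lit 139) (nat_lit 1) (nat_lit 342) (nat_lit 318) (nat_lit 240)) (XT.nd (nat_lit 78) (nat_lit 76) (nat_lit 0) (XT.lf (nat_lit 0) (nat_lit 334257715) (nat_lit 0) (nat_lit 334370232) (nat_lit 152) (nat_lit 334257715) (nat_lit 138) (nat_lit 3) (nat_lit 138) (nat_lit 1) (nat_lit 140) (nat_lit 1) (nat_lit 343) (nat_lit 318) (nat_lit 239)) (XT.lf (nat_lit 76) (nat_lit 319034534) (nat_lit 0) (nat_lit 319132375) (nat_lit 76) (nat_lit 319132375) (nat_lit 138) (nat_lit 3) (nat_lit 137) (nat_lit 1) (nat_lit 138) (nat_lit 1) (nat_lit 344) (nat_lit 318) (nat_lit 238))))))))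
noncomputable def ec60 : XT := (XT.nd (nat_lit 1716) (nat_lit 304) (nat_lit 0) (XT.nd (nat_lit 858) (nat_lit 912) (nat_lit 0) (XT.nd (nat_lit 390) (nat_lit 456) (nat_lit 0) (XT.nd (nat_lit 156) (nat_lit 228) (nat_lit 0) (XT.nd (nat_lit 78) (nat_lit 0) (nat_lit 0) (XT.lf (nat_lit 152) (nat_lit 915625122) (nat_lit 0) (nat_lit 25781) (nat_lit 76) (nat_lit 25781) (nat_lit 137) (nat_lit 1) (nat_lit 135) (nat_lit 1) (nat_lit 136) (nat_lit 1) (nat_lit 345) (nat_lit 318) (nat_lit 237)) (XT.lf (nat_lit 0) (nat_lit 290669520) (nat_lit 0) (nat_lit 290733852) (nat_lit 152) (nat_lit 290669520) (nat_lit 135) (nat_lit 3) (nat_lit 135) (nat_lit 1) (nat_lit 137) (nat_lit 1) (nat_lit 346) (nat_lit 318) (nat_lit 236))) (XT.nd (nat_lit 78) (nat_lit 152) (nat_lit 0) (XT.lf (nat_lit 76) (nat_lit 277440318) (nat_lit 0) (nat_lit 277496258) (nat_lit 76) (nat_lit 277496258) (nat_lit 135) (nat_lit 3) (nat_lit 134) (nat_lit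 1) (nat_lit 135) (nat_lit 1) (nat_lit 347) (nat_lit 318) (nat_lit 235)) (XT.nd (nat_lit 78) (nat_lit 0) (nat_lit 0) (XT.lf (nat_lit 152) (nat_lit 796210113) (nat_lit 0) (nat_lit 14740) (nat_lit 76) (nat_lit 14740) (nat_lit 134) (nat_lit 1) (nat_lit 132) (nat_lit 1) (nat_lit 133) (nat_lit 1) (nat_lit 348) (nat_lit 318) (nat_lit 234)) (XT.lf (nat_lit 0) (nat_lit 252762187) (nat_lit 0) (nat_lit 252798969) (nat_lit 152) (nat_lit 252762187) (nat_lit 132) (nat_lit 3) (nat_lit 132) (nat_lit 1) (nat_lit 134) (nat_lit 1) (nat_lit 349) (nat_lit 318) (nat_lit 233))))) (XT.nd (nat_lit 234) (nat_lit 228) (nat_lit 0) (XT.nd (nat_lit 78) (nat_lit 152) (nat_lit 0) (XT.lf (nat_lit 76) (nat_lit 241263304) (nat_lit 0) (nat_lit 241295288) (nat_lit 76) (nat_lit 241295288) (nat_lit 132) (nat_lit 3) (nat_lit 131) (nat_lit 1) (nat_lit 132) (nat_lit 1) (nat_lit 350) (nat_lit 318) (nat_lit 232)) (XT.nd (nat_lit 78) (nat_lit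 0) (nat_lit 0) (XT.lf (nat_lit 152) (nat_lit 692364827) (nat_lit 0) (nat_lit 8428) (nat_lit 76) (nat_lit 8428) (nat_lit 131) (nat_lit 1) (nat_lit 129) (nat_lit 1) (nat_lit 130) (nat_lit 1) (nat_lit 351) (nat_lit 318) (nat_lit 231)) (XT.lf (nat_lit 0) (nat_lit 219796683) (nat_lit 0) (nat_lit 219817713) (nat_lit 152) (nat_lit 219796683) (nat_lit 129) (nat_lit 3) (nat_lit 129) (nat_lit 1) (nat_lit 131) (nat_lit 1) (nat_lit 352) (nat_lit 318) (nat_lit 230)))) (XT.nd (nat_lit 78) (nat_lit 152) (nat_lit 0) (XT.lf (nat_lit 76) (nat_lit 209800383) (nat_lit 0) (nat_lit 209818670) (nat_lit 76) (nat_lit 209818670) (nat_lit 129) (nat_lit 3) (nat_lit 128) (nat_lit 1) (nat_lit 129) (nat_lit 1) (nat_lit 353) (nat_lit 318) (nat_lit 229)) (XT.nd (nat_lit 78) (nat_lit 0) (nat_lit 0) (XT.lf (nat_lit 152) (nat_lit 602061064) (nat_lit 0) (nat_lit 4818) (nat_lit 76) (nat_lit 4818) (nat_lit 128) (nat_lit 1) (nat_lit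 126) (nat_lit 1) (nat_lit 127) (nat_lit 1) (nat_lit 354) (nat_lit 318) (nat_lit 228)) (XT.lf (nat_lit 0) (nat_lit 191129539) (nat_lit 0) (nat_lit 191141563) (nat_lit 152) (nat_lit 191129539) (nat_lit 126) (nat_lit 3) (nat_lit 126) (nat_lit 1) (nat_lit 128) (nat_lit 1) (nat_lit 355) (nat_lit 318) (nat_lit 227)))))) (XT.nd (nat_lit 390) (nat_lit 456) (nat_lit 0) (XT.nd (nat_lit 156) (nat_lit 228) (nat_lit 0) (XT.nd (nat_lit 78) (nat_lit 152) (nat_lit 0) (XT.lf (nat_lit 76) (nat_lit 182438664) (nat_lit 0) (nat_lit 182449120) (nat_lit 76) (nat_lit 182449120) (nat_lit 126) (nat_lit 3) (nat_lit 125) (nat_lit 1) (nat_lit 126) (nat_lit 1) (nat_lit 356) (nat_lit 318) (nat_lit 226)) (XT.lf (nat_lit 152) (nat_lit 523534043) (nat_lit 0) (nat_lit 2755) (nat_lit 76) (nat_lit 2755) (nat_lit 125) (nat_lit 1) (nat_lit 123) (nat_lit 1) (nat_lit 124) (nat_lit 1) (nat_lit 357) (nat_lit 318) (nat_lit 225))) (XT.nd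 (nat_lit 78) (nat_lit 228) (nat_lit 0) (XT.lf (nat_lit 0) (nat_lit 166200736) (nat_lit 0) (nat_lit 166207611) (nat_lit 152) (nat_lit 166200736) (nat_lit 123) (nat_lit 3) (nat_lit 123) (nat_lit 1) (nat_lit 125) (nat_lit 1) (nat_lit 358) (nat_lit 318) (nat_lit 224)) (XT.nd (nat_lit 78) (nat_lit 152) (nat_lit 0) (XT.lf (nat_lit 76) (nat_lit 158644345) (nat_lit 0) (nat_lit 158650323) (nat_lit 76) (nat_lit 158650323) (nat_lit 123) (nat_lit 3) (nat_lit 122) (nat_lit 1) (nat_lit 123) (nat_lit 1) (nat_lit 359) (nat_lit 318) (nat_lit 223)) (XT.lf (nat_lit 152) (nat_lit 455248527) (nat_lit 0) (nat_lit 1575) (nat_lit 76) (nat_lit 1575) (nat_lit 122) (nat_lit 1) (nat_lit 120) (nat_lit 1) (nat_lit 121) (nat_lit 1) (nat_lit 360) (nat_lit 318) (nat_lit 222))))) (XT.nd (nat_lit 234) (nat_lit 228) (nat_lit 0) (XT.nd (nat_lit 78) (nat_lit 228) (nat_lit 0) (XT.lf (nat_lit 0) (nat_lit 144523029) (nat_lit 0) (nat_lit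 144526960) (nat_lit 152) (nat_lit 144523029) (nat_lit 120) (nat_lit 3) (nat_lit 120) (nat_lit 1) (nat_lit 122) (nat_lit 1) (nat_lit 361) (nat_lit 318) (nat_lit 221)) (XT.nd (nat_lit 78) (nat_lit 152) (nat_lit 0) (XT.lf (nat_lit 76) (nat_lit 137952764) (nat_lit 0) (nat_lit 137956182) (nat_lit 76) (nat_lit 137956182) (nat_lit 120) (nat_lit 3) (nat_lit 119) (nat_lit 1) (nat_lit 120) (nat_lit 1) (nat_lit 362) (nat_lit 318) (nat_lit 220)) (XT.lf (nat_lit 152) (nat_lit 395869162) (nat_lit 0) (nat_lit 900) (nat_lit 76) (nat_lit 900) (nat_lit 119) (nat_lit 1) (nat_lit 117) (nat_lit 1) (nat_lit 118) (nat_lit 1) (nat_lit 363) (nat_lit 318) (nat_lit 219)))) (XT.nd (nat_lit 78) (nat_lit 228) (nat_lit 0) (XT.lf (nat_lit 0) (nat_lit 125672571) (nat_lit 0) (nat_lit 125674818) (nat_lit 152) (nat_lit 125672571) (nat_lit 117) (nat_lit 3) (nat_lit 117) (nat_lit 1) (nat_lit 119) (nat_lit 1) (nat_lit 364) (nat_lit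 318) (nat_lit 218)) (XT.nd (nat_lit 78) (nat_lit 152) (nat_lit 0) (XT.lf (nat_lit 76) (nat_lit 119959589) (nat_lit 0) (nat_lit 119961543) (nat_lit 76) (nat_lit 119961543) (nat_lit 117) (nat_lit 3) (nat_lit 116) (nat_lit 1) (nat_lit 117) (nat_lit 1) (nat_lit 365) (nat_lit 318) (nat_lit 217)) (XT.lf (nat_lit 152) (nat_lit 344234555) (nat_lit 0) (nat_lit 514) (nat_lit 76) (nat_lit 514) (nat_lit 116) (nat_lit 1) (nat_lit 114) (nat_lit 1) (nat_lit 115) (nat_lit 1) (nat_lit 366) (nat_lit 318) (nat_lit 216))))))) (XT.nd (nat_lit 39156) (nat_lit 0) (nat_lit 6916) (XT.nd (nat_lit 38688) (nat_lit 0) (nat_lit 7828) (XT.nd (nat_lit 156) (nat_lit 228) (nat_lit 0) (XT.nd (nat_lit 78) (nat_lit 76) (nat_lit 0) (XT.lf (nat_lit 0) (nat_lit 109280709) (nat_lit 0) (nat_lit 109281993) (nat_lit 152) (nat_lit 109280709) (nat_lit 114) (nat_lit 3) (nat_lit 114) (nat_lit 1) (nat_lit 116) (nat_lit 1) (nat_lit 367) (nat_lit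 318) (nat_lit 215)) (XT.lf (nat_lit 76) (nat_lit 104313065) (nat_lit 0) (nat_lit 104314182) (nat_lit 76) (nat_lit 104314182) (nat_lit 114) (nat_lit 3) (nat_lit 113) (nat_lit 1) (nat_lit 114) (nat_lit 1) (nat_lit 368) (nat_lit 318) (nat_lit 214))) (XT.nd (nat_lit 78) (nat_lit 76) (nat_lit 0) (XT.lf (nat_lit 152) (nat_lit 299334682) (nat_lit 0) (nat_lit 294) (nat_lit 76) (nat_lit 294) (nat_lit 113) (nat_lit 1) (nat_lit 111) (nat_lit 1) (nat_lit 112) (nat_lit 1) (nat_lit 369) (nat_lit 318) (nat_lit 213)) (XT.nd (nat_lit 78) (nat_lit 76) (nat_lit 0) (XT.lf (nat_lit 0) (nat_lit 95026824) (nat_lit 0) (nat_lit 95027559) (nat_lit 152) (nat_lit 95026824) (nat_lit 111) (nat_lit 3) (nat_lit 111) (nat_lit 1) (nat_lit 113) (nat_lit 1) (nat_lit 370) (nat_lit 318) (nat_lit 212)) (XT.lf (nat_lit 76) (nat_lit 90707230) (nat_lit 0) (nat_lit 90707869) (nat_lit 76) (nat_lit 90707869) (nat_lit 111) (nat_lit 3) (nat_lit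 110) (nat_lit 1) (nat_lit 111) (nat_lit 1) (nat_lit 371) (nat_lit 318) (nat_lit 211))))) (XT.nd (nat_lit 234) (nat_lit 152) (nat_lit 0) (XT.nd (nat_lit 78) (nat_lit 0) (nat_lit 0) (XT.lf (nat_lit 380) (nat_lit 9985812444) (nat_lit 0) (nat_lit 8844679847) (nat_lit 380) (nat_lit 9985812444) (nat_lit 220) (nat_lit 1) (nat_lit 215) (nat_lit 0) (nat_lit 220) (nat_lit 0) (nat_lit 262) (nat_lit 319) (nat_lit 319)) (XT.nd (nat_lit 78) (nat_lit 0) (nat_lit 76) (XT.lf (nat_lit 380) (nat_lit 36936224326) (nat_lit 76) (nat_lit 8442648945) (nat_lit 0) (nat_lit 8442648945) (nat_lit 220) (nat_lit 1) (nat_lit 216) (nat_lit 1) (nat_lit 215) (nat_lit 0) (nat_lit 263) (nat_lit 319) (nat_lit 318)) (XT.lf (nat_lit 380) (nat_lit 16281275879) (nat_lit 0) (nat_lit 17715563996) (nat_lit 304) (nat_lit 16281275879) (nat_lit 221) (nat_lit 1) (nat_lit 216) (nat_lit 1) (nat_lit 220) (nat_lit 1) (nat_lit 264) (nat_lit 319) (nat_lit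 317)))) (XT.nd (nat_lit 78) (nat_lit 228) (nat_lit 0) (XT.lf (nat_lit 380) (nat_lit 27954105314) (nat_lit 76) (nat_lit 9568877221) (nat_lit 0) (nat_lit 9568877221) (nat_lit 221) (nat_lit 1) (nat_lit 217) (nat_lit 1) (nat_lit 216) (nat_lit 1) (nat_lit 265) (nat_lit 319) (nat_lit 316)) (XT.nd (nat_lit 78) (nat_lit 304) (nat_lit 0) (XT.lf (nat_lit 76) (nat_lit 11307806353) (nat_lit 0) (nat_lit 21531961677) (nat_lit 304) (nat_lit 11307806353) (nat_lit 218) (nat_lit 1) (nat_lit 217) (nat_lit 1) (nat_lit 221) (nat_lit 1) (nat_lit 266) (nat_lit 319) (nat_lit 315)) (XT.lf (nat_lit 380) (nat_lit 16994719691) (nat_lit 0) (nat_lit 12232473345) (nat_lit 304) (nat_lit 12232473345) (nat_lit 218) (nat_lit 1) (nat_lit 213) (nat_lit 1) (nat_lit 217) (nat_lit 1) (nat_lit 267) (nat_lit 319) (nat_lit 314)))))) (XT.nd (nat_lit 390) (nat_lit 380) (nat_lit 0) (XT.nd (nat_lit 156) (nat_lit 380) (nat_lit 0) (XT.nd (nat_lit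 78) (nat_lit 152) (nat_lit 0) (XT.lf (nat_lit 76) (nat_lit 5648857134) (nat_lit 0) (nat_lit 27719083541) (nat_lit 380) (nat_lit 5648857134) (nat_lit 214) (nat_lit 1) (nat_lit 213) (nat_lit 1) (nat_lit 218) (nat_lit 1) (nat_lit 268) (nat_lit 319) (nat_lit 313)) (XT.lf (nat_lit 228) (nat_lit 5083838166) (nat_lit 0) (nat_lit 15822191855) (nat_lit 152) (nat_lit 15822191855) (nat_lit 214) (nat_lit 1) (nat_lit 211) (nat_lit 1) (nat_lit 213) (nat_lit 1) (nat_lit 269) (nat_lit 319) (nat_lit 312))) (XT.nd (nat_lit 78) (nat_lit 152) (nat_lit 0) (XT.lf (nat_lit 228) (nat_lit 34163328513) (nat_lit 0) (nat_lit 268045855) (nat_lit 152) (nat_lit 268045855) (nat_lit 211) (nat_lit 1) (nat_lit 208) (nat_lit 1) (nat_lit 210) (nat_lit 1) (nat_lit 270) (nat_lit 319) (nat_lit 311)) (XT.nd (nat_lit 78) (nat_lit 152) (nat_lit 0) (XT.lf (nat_lit 76) (nat_lit 13125769179) (nat_lit 0) (nat_lit 6444053987) (nat_lit 228) (nat_lit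 13125769179) (nat_lit 209) (nat_lit 1) (nat_lit 208) (nat_lit 1) (nat_lit 211) (nat_lit 1) (nat_lit 271) (nat_lit 319) (nat_lit 310)) (XT.lf (nat_lit 228) (nat_lit 19078809286) (nat_lit 0) (nat_lit 5918059089) (nat_lit 152) (nat_lit 5918059089) (nat_lit 209) (nat_lit 1) (nat_lit 206) (nat_lit 1) (nat_lit 208) (nat_lit 1) (nat_lit 272) (nat_lit 319) (nat_lit 309))))) (XT.nd (nat_lit 234) (nat_lit 76) (nat_lit 0) (XT.nd (nat_lit 78) (nat_lit 304) (nat_lit 0) (XT.lf (nat_lit 76) (nat_lit 5966569422) (nat_lit 0) (nat_lit 17314882456) (nat_lit 228) (nat_lit 5966569422) (nat_lit 207) (nat_lit 1) (nat_lit 206) (nat_lit 1) (nat_lit 209) (nat_lit 1) (nat_lit 273) (nat_lit 319) (nat_lit 308)) (XT.nd (nat_lit 78) (nat_lit 228) (nat_lit 0) (XT.lf (nat_lit 152) (nat_lit 4932472261) (nat_lit 0) (nat_lit 11381704006) (nat_lit 76) (nat_lit 11381704006) (nat_lit 207) (nat_lit 1) (nat_lit 205) (nat_lit 1) (nat_lit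 206) (nat_lit 1) (nat_lit 274) (nat_lit 319) (nat_lit 307)) (XT.lf (nat_lit 228) (nat_lit 24971074014) (nat_lit 0) (nat_lit 663382138) (nat_lit 152) (nat_lit 663382138) (nat_lit 205) (nat_lit 1) (nat_lit 202) (nat_lit 1) (nat_lit 204) (nat_lit 1) (nat_lit 275) (nat_lit 319) (nat_lit 306)))) (XT.nd (nat_lit 78) (nat_lit 76) (nat_lit 0) (XT.lf (nat_lit 76) (nat_lit 8739338840) (nat_lit 0) (nat_lit 7421731679) (nat_lit 228) (nat_lit 8739338840) (nat_lit 203) (nat_lit 1) (nat_lit 202) (nat_lit 1) (nat_lit 205) (nat_lit 1) (nat_lit 276) (nat_lit 319) (nat_lit 305)) (XT.nd (nat_lit 78) (nat_lit 0) (nat_lit 0) (XT.lf (nat_lit 152) (nat_lit 10626198994) (nat_lit 0) (nat_lit 6507526205) (nat_lit 76) (nat_lit 6507526205) (nat_lit 203) (nat_lit 1) (nat_lit 201) (nat_lit 1) (nat_lit 202) (nat_lit 1) (nat_lit 277) (nat_lit 319) (nat_lit 304)) (XT.lf (nat_lit 0) (nat_lit 2080756200) (nat_lit 0) (nat_lit 18318817810)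 (nat_lit 152) (nat_lit 2080756200) (nat_lit 201) (nat_lit 3) (nat_lit 201) (nat_lit 1) (nat_lit 203) (nat_lit 1) (nat_lit 278) (nat_lit 319) (nat_lit 303))))))))
noncomputable def ec61 : XT := (XT.nd (nat_lit 1716) (nat_lit 1748) (nat_lit 0) (XT.nd (nat_lit 858) (nat_lit 760) (nat_lit 0) (XT.nd (nat_lit 390) (nat_lit 456) (nat_lit 0) (XT.nd (nat_lit 156) (nat_lit 228) (nat_lit 0) (XT.nd (nat_lit 78) (nat_lit 76) (nat_lit 0) (XT.lf (nat_lit 76) (nat_lit 9629730918) (nat_lit 0) (nat_lit 2088522165) (nat_lit 152) (nat_lit 9629730918) (nat_lit 200) (nat_lit 1) (nat_lit 199) (nat_lit 1) (nat_lit 201) (nat_lit 1) (nat_lit 279) (nat_lit 319) (nat_lit 302)) (XT.lf (nat_lit 152) (nat_lit 12863426346) (nat_lit 0) (nat_lit 3720699229) (nat_lit 76) (nat_lit 3720699229) (nat_lit 200) (nat_lit 1) (nat_lit 198) (nat_lit 1) (nat_lit 199) (nat_lit 1) (nat_lit 280) (nat_lit 319) (nat_lit 301))) (XT.nd (nat_lit 78)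 (nat_lit 228) (nat_lit 0) (XT.lf (nat_lit 0) (nat_lit 3344556121) (nat_lit 0) (nat_lit 12628720548) (nat_lit 152) (nat_lit 3344556121) (nat_lit 198) (nat_lit 3) (nat_lit 198) (nat_lit 1) (nat_lit 200) (nat_lit 1) (nat_lit 281) (nat_lit 319) (nat_lit 300)) (XT.nd (nat_lit 78) (nat_lit 152) (nat_lit 0) (XT.lf (nat_lit 76) (nat_lit 746110703) (nat_lit 0) (nat_lit 8819297162) (nat_lit 76) (nat_lit 8819297162) (nat_lit 198) (nat_lit 3) (nat_lit 197) (nat_lit 1) (nat_lit 198) (nat_lit 1) (nat_lit 282) (nat_lit 319) (nat_lit 299)) (XT.lf (nat_lit 152) (nat_lit 13257194965) (nat_lit 0) (nat_lit 2127321860) (nat_lit 76) (nat_lit 2127321860) (nat_lit 197) (nat_lit 1) (nat_lit 195) (nat_lit 1) (nat_lit 196) (nat_lit 1) (nat_lit 283) (nat_lit 319) (nat_lit 298))))) (XT.nd (nat_lit 234) (nat_lit 228) (nat_lit 0) (XT.nd (nat_lit 78) (nat_lit 228) (nat_lit 0) (XT.lf (nat_lit 0) (nat_lit 3786066913) (nat_lit 0)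 (nat_lit 9094318057) (nat_lit 152) (nat_lit 3786066913) (nat_lit 195) (nat_lit 3) (nat_lit 195) (nat_lit 1) (nat_lit 197) (nat_lit 1) (nat_lit 284) (nat_lit 319) (nat_lit 297)) (XT.nd (nat_lit 78) (nat_lit 152) (nat_lit 0) (XT.lf (nat_lit 76) (nat_lit 2215224308) (nat_lit 0) (nat_lit 6831094868) (nat_lit 76) (nat_lit 6831094868) (nat_lit 195) (nat_lit 3) (nat_lit 194) (nat_lit 1) (nat_lit 195) (nat_lit 1) (nat_lit 285) (nat_lit 319) (nat_lit 296)) (XT.lf (nat_lit 152) (nat_lit 12712443555) (nat_lit 0) (nat_lit 1216303177) (nat_lit 76) (nat_lit 1216303177) (nat_lit 194) (nat_lit 1) (nat_lit 192) (nat_lit 1) (nat_lit 193) (nat_lit 1) (nat_lit 286) (nat_lit 319) (nat_lit 295)))) (XT.nd (nat_lit 78) (nat_lit 228) (nat_lit 0) (XT.lf (nat_lit 0) (nat_lit 3794092650) (nat_lit 0) (nat_lit 6829102471) (nat_lit 152) (nat_lit 3794092650) (nat_lit 192) (nat_lit 3) (nat_lit 192) (nat_lit 1) (nat_lit 194) (nat_lit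 1) (nat_lit 287) (nat_lit 319) (nat_lit 294)) (XT.nd (nat_lit 78) (nat_lit 152) (nat_lit 0) (XT.lf (nat_lit 76) (nat_lit 2821894811) (nat_lit 0) (nat_lit 5461033785) (nat_lit 76) (nat_lit 5461033785) (nat_lit 192) (nat_lit 3) (nat_lit 191) (nat_lit 1) (nat_lit 192) (nat_lit 1) (nat_lit 288) (nat_lit 319) (nat_lit 293)) (XT.lf (nat_lit 152) (nat_lit 11731510693) (nat_lit 0) (nat_lit 695425289) (nat_lit 76) (nat_lit 695425289) (nat_lit 191) (nat_lit 1) (nat_lit 189) (nat_lit 1) (nat_lit 190) (nat_lit 1) (nat_lit 289) (nat_lit 319) (nat_lit 292)))))) (XT.nd (nat_lit 390) (nat_lit 456) (nat_lit 0) (XT.nd (nat_lit 156) (nat_lit 228) (nat_lit 0) (XT.nd (nat_lit 78) (nat_lit 76) (nat_lit 0) (XT.lf (nat_lit 0) (nat_lit 3586151400) (nat_lit 0) (nat_lit 5321428115) (nat_lit 152) (nat_lit 3586151400) (nat_lit 189) (nat_lit 3) (nat_lit 189) (nat_lit 1) (nat_lit 191) (nat_lit 1) (nat_lit 290) (nat_lit 319)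 (nat_lit 291)) (XT.lf (nat_lit 76) (nat_lit 2965891102) (nat_lit 0) (nat_lit 4474827376) (nat_lit 76) (nat_lit 4474827376) (nat_lit 189) (nat_lit 3) (nat_lit 188) (nat_lit 1) (nat_lit 189) (nat_lit 1) (nat_lit 291) (nat_lit 319) (nat_lit 290))) (XT.nd (nat_lit 78) (nat_lit 76) (nat_lit 0) (XT.lf (nat_lit 152) (nat_lit 10588511777) (nat_lit 0) (nat_lit 397611666) (nat_lit 76) (nat_lit 397611666) (nat_lit 188) (nat_lit 1) (nat_lit 186) (nat_lit 1) (nat_lit 187) (nat_lit 1) (nat_lit 292) (nat_lit 319) (nat_lit 289)) (XT.nd (nat_lit 78) (nat_lit 76) (nat_lit 0) (XT.lf (nat_lit 0) (nat_lit 3282451626) (nat_lit 0) (nat_lit 4274601720) (nat_lit 152) (nat_lit 3282451626) (nat_lit 186) (nat_lit 3) (nat_lit 186) (nat_lit 1) (nat_lit 188) (nat_lit 1) (nat_lit 293) (nat_lit 319) (nat_lit 288)) (XT.lf (nat_lit 76) (nat_lit 2871813155) (nat_lit 0) (nat_lit 3734552367) (nat_lit 76) (nat_lit 3734552367) (nat_lit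 186) (nat_lit 3) (nat_lit 185) (nat_lit 1) (nat_lit 186) (nat_lit 1) (nat_lit 294) (nat_lit 319) (nat_lit 287))))) (XT.nd (nat_lit 234) (nat_lit 228) (nat_lit 0) (XT.nd (nat_lit 78) (nat_lit 76) (nat_lit 0) (XT.lf (nat_lit 152) (nat_lit 9428783333) (nat_lit 0) (nat_lit 227335760) (nat_lit 76) (nat_lit 227335760) (nat_lit 185) (nat_lit 1) (nat_lit 183) (nat_lit 1) (nat_lit 184) (nat_lit 1) (nat_lit 295) (nat_lit 319) (nat_lit 286)) (XT.nd (nat_lit 78) (nat_lit 76) (nat_lit 0) (XT.lf (nat_lit 0) (nat_lit 2948107088) (nat_lit 0) (nat_lit 3515372124) (nat_lit 152) (nat_lit 2948107088) (nat_lit 183) (nat_lit 3) (nat_lit 183) (nat_lit 1) (nat_lit 185) (nat_lit 1) (nat_lit 296) (nat_lit 319) (nat_lit 285)) (XT.lf (nat_lit 76) (nat_lit 2664625267) (nat_lit 0) (nat_lit 3157899212) (nat_lit 76) (nat_lit 3157899212) (nat_lit 183) (nat_lit 3) (nat_lit 182) (nat_lit 1) (nat_lit 183) (nat_lit 1) (nat_lit 297)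 (nat_lit 319) (nat_lit 284)))) (XT.nd (nat_lit 78) (nat_lit 76) (nat_lit 0) (XT.lf (nat_lit 152) (nat_lit 8325517784) (nat_lit 0) (nat_lit 129979959) (nat_lit 76) (nat_lit 129979959) (nat_lit 182) (nat_lit 1) (nat_lit 180) (nat_lit 1) (nat_lit 181) (nat_lit 1) (nat_lit 298) (nat_lit 319) (nat_lit 283)) (XT.nd (nat_lit 78) (nat_lit 76) (nat_lit 0) (XT.lf (nat_lit 0) (nat_lit 2617202593) (nat_lit 0) (nat_lit 2941538219) (nat_lit 152) (nat_lit 2617202593) (nat_lit 180) (nat_lit 3) (nat_lit 180) (nat_lit 1) (nat_lit 182) (nat_lit 1) (nat_lit 299) (nat_lit 319) (nat_lit 282)) (XT.lf (nat_lit 76) (nat_lit 2412774906) (nat_lit 0) (nat_lit 2694805885) (nat_lit 76) (nat_lit 2694805885) (nat_lit 180) (nat_lit 3) (nat_lit 179) (nat_lit 1) (nat_lit 180) (nat_lit 1) (nat_lit 300) (nat_lit 319) (nat_lit 281))))))) (XT.nd (nat_lit 858) (nat_lit 912) (nat_lit 0) (XT.nd (nat_lit 390) (nat_lit 456) (nat_lit 0) (XT.nd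 (nat_lit 156) (nat_lit 228) (nat_lit 0) (XT.nd (nat_lit 78) (nat_lit 0) (nat_lit 0) (XT.lf (nat_lit 152) (nat_lit 7311950781) (nat_lit 0) (nat_lit 74316463) (nat_lit 76) (nat_lit 74316463) (nat_lit 179) (nat_lit 1) (nat_lit 177) (nat_lit 1) (nat_lit 178) (nat_lit 1) (nat_lit 301) (nat_lit 319) (nat_lit 280)) (XT.lf (nat_lit 0) (nat_lit 2306492161) (nat_lit 0) (nat_lit 2491932108) (nat_lit 152) (nat_lit 2306492161) (nat_lit 177) (nat_lit 3) (nat_lit 177) (nat_lit 1) (nat_lit 179) (nat_lit 1) (nat_lit 302) (nat_lit 319) (nat_lit 279))) (XT.nd (nat_lit 78) (nat_lit 152) (nat_lit 0) (XT.lf (nat_lit 76) (nat_lit 2152787327) (nat_lit 0) (nat_lit 2314039455) (nat_lit 76) (nat_lit 2314039455) (nat_lit 177) (nat_lit 3) (nat_lit 176) (nat_lit 1) (nat_lit 177) (nat_lit 1) (nat_lit 303) (nat_lit 319) (nat_lit 278)) (XT.nd (nat_lit 78) (nat_lit 0) (nat_lit 0) (XT.lf (nat_lit 152) (nat_lit 6399595909) (nat_lit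 0) (nat_lit 42490679) (nat_lit 76) (nat_lit 42490679) (nat_lit 176) (nat_lit 1) (nat_lit 174) (nat_lit 1) (nat_lit 175) (nat_lit 1) (nat_lit 304) (nat_lit 319) (nat_lit 277)) (XT.lf (nat_lit 0) (nat_lit 2023177496) (nat_lit 0) (nat_lit 2129203387) (nat_lit 152) (nat_lit 2023177496) (nat_lit 174) (nat_lit 3) (nat_lit 174) (nat_lit 1) (nat_lit 176) (nat_lit 1) (nat_lit 305) (nat_lit 319) (nat_lit 276))))) (XT.nd (nat_lit 234) (nat_lit 228) (nat_lit 0) (XT.nd (nat_lit 78) (nat_lit 152) (nat_lit 0) (XT.lf (nat_lit 76) (nat_lit 1903276571) (nat_lit 0) (nat_lit 1995472999) (nat_lit 76) (nat_lit 1995472999) (nat_lit 174) (nat_lit 3) (nat_lit 173) (nat_lit 1) (nat_lit 174) (nat_lit 1) (nat_lit 306) (nat_lit 319) (nat_lit 275)) (XT.nd (nat_lit 78) (nat_lit 0) (nat_lit 0) (XT.lf (nat_lit 152) (nat_lit 5588523922) (nat_lit 0) (nat_lit 24294183) (nat_lit 76) (nat_lit 24294183) (nat_lit 173) (nat_lit 1) (nat_lit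 171) (nat_lit 1) (nat_lit 172) (nat_lit 1) (nat_lit 307) (nat_lit 319) (nat_lit 274)) (XT.lf (nat_lit 0) (nat_lit 1769308836) (nat_lit 0) (nat_lit 1829929484) (nat_lit 152) (nat_lit 1769308836) (nat_lit 171) (nat_lit 3) (nat_lit 171) (nat_lit 1) (nat_lit 173) (nat_lit 1) (nat_lit 308) (nat_lit 319) (nat_lit 273)))) (XT.nd (nat_lit 78) (nat_lit 152) (nat_lit 0) (XT.lf (nat_lit 76) (nat_lit 1672911887) (nat_lit 0) (nat_lit 1725625494) (nat_lit 76) (nat_lit 1725625494) (nat_lit 171) (nat_lit 3) (nat_lit 170) (nat_lit 1) (nat_lit 171) (nat_lit 1) (nat_lit 309) (nat_lit 319) (nat_lit 272)) (XT.nd (nat_lit 78) (nat_lit 0) (nat_lit 0) (XT.lf (nat_lit 152) (nat_lit 4873112508) (nat_lit 0) (nat_lit 13890278) (nat_lit 76) (nat_lit 13890278) (nat_lit 170) (nat_lit 1) (nat_lit 168) (nat_lit 1) (nat_lit 169) (nat_lit 1) (nat_lit 310) (nat_lit 319) (nat_lit 271)) (XT.lf (nat_lit 0) (nat_lit 1544260710) (nat_lit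 0) (nat_lit 1578920762) (nat_lit 152) (nat_lit 1544260710) (nat_lit 168) (nat_lit 3) (nat_lit 168) (nat_lit 1) (nat_lit 170) (nat_lit 1) (nat_lit 311) (nat_lit 319) (nat_lit 270)))))) (XT.nd (nat_lit 468) (nat_lit 456) (nat_lit 0) (XT.nd (nat_lit 234) (nat_lit 228) (nat_lit 0) (XT.nd (nat_lit 78) (nat_lit 152) (nat_lit 0) (XT.lf (nat_lit 76) (nat_lit 1464933958) (nat_lit 0) (nat_lit 1495073133) (nat_lit 76) (nat_lit 1495073133) (nat_lit 168) (nat_lit 3) (nat_lit 167) (nat_lit 1) (nat_lit 168) (nat_lit 1) (nat_lit 312) (nat_lit 319) (nat_lit 269)) (XT.nd (nat_lit 78) (nat_lit 0) (nat_lit 0) (XT.lf (nat_lit 152) (nat_lit 4245222951) (nat_lit 0) (nat_lit 7941811) (nat_lit 76) (nat_lit 7941811) (nat_lit 167) (nat_lit 1) (nat_lit 165) (nat_lit 1) (nat_lit 166) (nat_lit 1) (nat_lit 313) (nat_lit 319) (nat_lit 268)) (XT.lf (nat_lit 0) (nat_lit 1346112282) (nat_lit 0) (nat_lit 1365929279) (nat_lit 152)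 (nat_lit 1346112282) (nat_lit 165) (nat_lit 3) (nat_lit 165) (nat_lit 1) (nat_lit 167) (nat_lit 1) (nat_lit 314) (nat_lit 319) (nat_lit 267)))) (XT.nd (nat_lit 78) (nat_lit 152) (nat_lit 0) (XT.lf (nat_lit 76) (nat_lit 1279703490) (nat_lit 0) (nat_lit 1296935661) (nat_lit 76) (nat_lit 1296935661) (nat_lit 165) (nat_lit 3) (nat_lit 164) (nat_lit 1) (nat_lit 165) (nat_lit 1) (nat_lit 315) (nat_lit 319) (nat_lit 266)) (XT.nd (nat_lit 78) (nat_lit 0) (nat_lit 0) (XT.lf (nat_lit 152) (nat_lit 3695920052) (nat_lit 0) (nat_lit 4540756) (nat_lit 76) (nat_lit 4540756) (nat_lit 164) (nat_lit 1) (nat_lit 162) (nat_lit 1) (nat_lit 163) (nat_lit 1) (nat_lit 316) (nat_lit 319) (nat_lit 265)) (XT.lf (nat_lit 0) (nat_lit 1172405987) (nat_lit 0) (nat_lit 1183736419) (nat_lit 152) (nat_lit 1172405987) (nat_lit 162) (nat_lit 3) (nat_lit 162) (nat_lit 1) (nat_lit 164) (nat_lit 1) (nat_lit 317) (nat_lit 319) (nat_lit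 264))))) (XT.nd (nat_lit 234) (nat_lit 228) (nat_lit 0) (XT.nd (nat_lit 78) (nat_lit 152) (nat_lit 0) (XT.lf (nat_lit 76) (nat_lit 1116129184) (nat_lit 0) (nat_lit 1125981734) (nat_lit 76) (nat_lit 1125981734) (nat_lit 162) (nat_lit 3) (nat_lit 161) (nat_lit 1) (nat_lit 162) (nat_lit 1) (nat_lit 318) (nat_lit 319) (nat_lit 263)) (XT.nd (nat_lit 78) (nat_lit 0) (nat_lit 0) (XT.lf (nat_lit 152) (nat_lit 3216371721) (nat_lit 0) (nat_lit 2596192) (nat_lit 76) (nat_lit 2596192) (nat_lit 161) (nat_lit 1) (nat_lit 159) (nat_lit 1) (nat_lit 160) (nat_lit 1) (nat_lit 319) (nat_lit 319) (nat_lit 262)) (XT.lf (nat_lit 0) (nat_lit 1020554685) (nat_lit 0) (nat_lit 1027032897) (nat_lit 152) (nat_lit 1020554685) (nat_lit 159) (nat_lit 3) (nat_lit 159) (nat_lit 1) (nat_lit 161) (nat_lit 1) (nat_lit 320) (nat_lit 319) (nat_lit 261)))) (XT.nd (nat_lit 78) (nat_lit 152) (nat_lit 0) (XT.lf (nat_lit 76) (nat_lit 972458797)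 (nat_lit 0) (nat_lit 978092025) (nat_lit 76) (nat_lit 978092025) (nat_lit 159) (nat_lit 3) (nat_lit 158) (nat_lit 1) (nat_lit 159) (nat_lit 1) (nat_lit 321) (nat_lit 319) (nat_lit 260)) (XT.nd (nat_lit 78) (nat_lit 0) (nat_lit 0) (XT.lf (nat_lit 152) (nat_lit 2798290479) (nat_lit 0) (nat_lit 1484381) (nat_lit 76) (nat_lit 1484381) (nat_lit 158) (nat_lit 1) (nat_lit 156) (nat_lit 1) (nat_lit 157) (nat_lit 1) (nat_lit 322) (nat_lit 319) (nat_lit 259)) (XT.lf (nat_lit 0) (nat_lit 888051329) (nat_lit 0) (nat_lit 891755268) (nat_lit 152) (nat_lit 888051329) (nat_lit 156) (nat_lit 3) (nat_lit 156) (nat_lit 1) (nat_lit 158) (nat_lit 1) (nat_lit 323) (nat_lit 319) (nat_lit 258))))))))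
noncomputable def ec62 : XT := (XT.nd (nat_lit 1716) (nat_lit 1748) (nat_lit 0) (XT.nd (nat_lit 858) (nat_lit 760) (nat_lit 0) (XT.nd (nat_lit 390) (nat_lit 456) (nat_lit 0) (XT.nd (nat_lit 156) (nat_lit 228) (nat_lit 0) (XT.nd (nat_lit 78) (nat_lit 152) (nat_lit 0) (XT.lf (nat_lit 76) (nat_lit 846709355) (nat_lit 0) (nat_lit 849930171) (nat_lit 76) (nat_lit 849930171) (nat_lit 156) (nat_lit 3) (nat_lit 155) (nat_lit 1) (nat_lit 156) (nat_lit 1) (nat_lit 324) (nat_lit 319) (nat_lit 257)) (XT.lf (nat_lit 152) (nat_lit 2434122541) (nat_lit 0) (nat_lit 848699) (nat_lit 76) (nat_lit 848699) (nat_lit 155) (nat_lit 1) (nat_lit 153) (nat_lit 1) (nat_lit 154) (nat_lit 1) (nat_lit 325) (nat_lit 319) (nat_lit 256))) (XT.nd (nat_lit 78) (nat_lit 228) (nat_lit 0) (XT.lf (nat_lit 0) (nat_lit 772568731) (nat_lit 0) (nat_lit 774686469) (nat_lit 152) (nat_lit 772568731) (nat_lit 153) (nat_lit 3) (nat_lit 153)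 (nat_lit 1) (nat_lit 155) (nat_lit 1) (nat_lit 326) (nat_lit 319) (nat_lit 255)) (XT.nd (nat_lit 78) (nat_lit 152) (nat_lit 0) (XT.lf (nat_lit 76) (nat_lit 736893936) (nat_lit 0) (nat_lit 738735448) (nat_lit 76) (nat_lit 738735448) (nat_lit 153) (nat_lit 3) (nat_lit 152) (nat_lit 1) (nat_lit 153) (nat_lit 1) (nat_lit 327) (nat_lit 319) (nat_lit 254)) (XT.lf (nat_lit 152) (nat_lit 2117100835) (nat_lit 0) (nat_lit 485246) (nat_lit 76) (nat_lit 485246) (nat_lit 152) (nat_lit 1) (nat_lit 150) (nat_lit 1) (nat_lit 151) (nat_lit 1) (nat_lit 328) (nat_lit 319) (nat_lit 253))))) (XT.nd (nat_lit 234) (nat_lit 228) (nat_lit 0) (XT.nd (nat_lit 78) (nat_lit 228) (nat_lit 0) (XT.lf (nat_lit 0) (nat_lit 671999114) (nat_lit 0) (nat_lit 673209939) (nat_lit 152) (nat_lit 671999114) (nat_lit 150) (nat_lit 3) (nat_lit 150) (nat_lit 1) (nat_lit 152) (nat_lit 1) (nat_lit 329) (nat_lit 319) (nat_lit 252)) (XT.nd (nat_lit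 78) (nat_lit 152) (nat_lit 0) (XT.lf (nat_lit 76) (nat_lit 641134642) (nat_lit 0) (nat_lit 642187533) (nat_lit 76) (nat_lit 642187533) (nat_lit 150) (nat_lit 3) (nat_lit 149) (nat_lit 1) (nat_lit 150) (nat_lit 1) (nat_lit 330) (nat_lit 319) (nat_lit 251)) (XT.lf (nat_lit 152) (nat_lit 1841227423) (nat_lit 0) (nat_lit 277441) (nat_lit 76) (nat_lit 277441) (nat_lit 149) (nat_lit 1) (nat_lit 147) (nat_lit 1) (nat_lit 148) (nat_lit 1) (nat_lit 331) (nat_lit 319) (nat_lit 250)))) (XT.nd (nat_lit 78) (nat_lit 228) (nat_lit 0) (XT.lf (nat_lit 0) (nat_lit 584461532) (nat_lit 0) (nat_lit 585153824) (nat_lit 152) (nat_lit 584461532) (nat_lit 147) (nat_lit 3) (nat_lit 147) (nat_lit 1) (nat_lit 149) (nat_lit 1) (nat_lit 332) (nat_lit 319) (nat_lit 249)) (XT.nd (nat_lit 78) (nat_lit 152) (nat_lit 0) (XT.lf (nat_lit 76) (nat_lit 557712676) (nat_lit 0) (nat_lit 558314669) (nat_lit 76) (nat_lit 558314669) (nat_lit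 147) (nat_lit 3) (nat_lit 146) (nat_lit 1) (nat_lit 147) (nat_lit 1) (nat_lit 333) (nat_lit 319) (nat_lit 248)) (XT.lf (nat_lit 152) (nat_lit 1601221798) (nat_lit 0) (nat_lit 158628) (nat_lit 76) (nat_lit 158628) (nat_lit 146) (nat_lit 1) (nat_lit 144) (nat_lit 1) (nat_lit 145) (nat_lit 1) (nat_lit 334) (nat_lit 319) (nat_lit 247)))))) (XT.nd (nat_lit 390) (nat_lit 456) (nat_lit 0) (XT.nd (nat_lit 156) (nat_lit 228) (nat_lit 0) (XT.nd (nat_lit 78) (nat_lit 76) (nat_lit 0) (XT.lf (nat_lit 0) (nat_lit 508292870) (nat_lit 0) (nat_lit 508688691) (nat_lit 152) (nat_lit 508292870) (nat_lit 144) (nat_lit 3) (nat_lit 144) (nat_lit 1) (nat_lit 146) (nat_lit 1) (nat_lit 335) (nat_lit 319) (nat_lit 246)) (XT.lf (nat_lit 76) (nat_lit 485084348) (nat_lit 0) (nat_lit 485428540) (nat_lit 76) (nat_lit 485428540) (nat_lit 144) (nat_lit 3) (nat_lit 143) (nat_lit 1) (nat_lit 144) (nat_lit 1) (nat_lit 336) (nat_lit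 319) (nat_lit 245))) (XT.nd (nat_lit 78) (nat_lit 76) (nat_lit 0) (XT.lf (nat_lit 152) (nat_lit 1392455101) (nat_lit 0) (nat_lit 90696) (nat_lit 76) (nat_lit 90696) (nat_lit 143) (nat_lit 1) (nat_lit 141) (nat_lit 1) (nat_lit 142) (nat_lit 1) (nat_lit 337) (nat_lit 319) (nat_lit 244)) (XT.nd (nat_lit 78) (nat_lit 76) (nat_lit 0) (XT.lf (nat_lit 0) (nat_lit 442031223) (nat_lit 0) (nat_lit 442257534) (nat_lit 152) (nat_lit 442031223) (nat_lit 141) (nat_lit 3) (nat_lit 141) (nat_lit 1) (nat_lit 143) (nat_lit 1) (nat_lit 338) (nat_lit 319) (nat_lit 243)) (XT.lf (nat_lit 76) (nat_lit 421879260) (nat_lit 0) (nat_lit 422076053) (nat_lit 76) (nat_lit 422076053) (nat_lit 141) (nat_lit 3) (nat_lit 140) (nat_lit 1) (nat_lit 141) (nat_lit 1) (nat_lit 339) (nat_lit 319) (nat_lit 242))))) (XT.nd (nat_lit 234) (nat_lit 228) (nat_lit 0) (XT.nd (nat_lit 78) (nat_lit 76) (nat_lit 0) (XT.lf (nat_lit 152) (nat_lit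 1210881021) (nat_lit 0) (nat_lit 51855) (nat_lit 76) (nat_lit 51855) (nat_lit 140) (nat_lit 1) (nat_lit 138) (nat_lit 1) (nat_lit 139) (nat_lit 1) (nat_lit 340) (nat_lit 319) (nat_lit 241)) (XT.nd (nat_lit 78) (nat_lit 76) (nat_lit 0) (XT.lf (nat_lit 0) (nat_lit 384396372) (nat_lit 0) (nat_lit 384525767) (nat_lit 152) (nat_lit 384396372) (nat_lit 138) (nat_lit 3) (nat_lit 138) (nat_lit 1) (nat_lit 140) (nat_lit 1) (nat_lit 341) (nat_lit 319) (nat_lit 240)) (XT.lf (nat_lit 76) (nat_lit 366889714) (nat_lit 0) (nat_lit 367002231) (nat_lit 76) (nat_lit 367002231) (nat_lit 138) (nat_lit 3) (nat_lit 137) (nat_lit 1) (nat_lit 138) (nat_lit 1) (nat_lit 342) (nat_lit 319) (nat_lit 239)))) (XT.nd (nat_lit 78) (nat_lit 76) (nat_lit 0) (XT.lf (nat_lit 152) (nat_lit 1052968890) (nat_lit 0) (nat_lit 29648) (nat_lit 76) (nat_lit 29648) (nat_lit 137) (nat_lit 1) (nat_lit 135) (nat_lit 1) (nat_lit 136) (nat_lit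 1) (nat_lit 343) (nat_lit 319) (nat_lit 238)) (XT.nd (nat_lit 78) (nat_lit 76) (nat_lit 0) (XT.lf (nat_lit 0) (nat_lit 334269948) (nat_lit 0) (nat_lit 334343930) (nat_lit 152) (nat_lit 334269948) (nat_lit 135) (nat_lit 3) (nat_lit 135) (nat_lit 1) (nat_lit 137) (nat_lit 1) (nat_lit 344) (nat_lit 319) (nat_lit 237)) (XT.lf (nat_lit 76) (nat_lit 319056365) (nat_lit 0) (nat_lit 319120697) (nat_lit 76) (nat_lit 319120697) (nat_lit 135) (nat_lit 3) (nat_lit 134) (nat_lit 1) (nat_lit 135) (nat_lit 1) (nat_lit 345) (nat_lit 319) (nat_lit 236))))))) (XT.nd (nat_lit 858) (nat_lit 912) (nat_lit 0) (XT.nd (nat_lit 390) (nat_lit 456) (nat_lit 0) (XT.nd (nat_lit 156) (nat_lit 228) (nat_lit 0) (XT.nd (nat_lit 78) (nat_lit 0) (nat_lit 0) (XT.lf (nat_lit 152) (nat_lit 915641629) (nat_lit 0) (nat_lit 16951) (nat_lit 76) (nat_lit 16951) (nat_lit 134) (nat_lit 1) (nat_lit 132) (nat_lit 1) (nat_lit 133) (nat_lit 1)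 (nat_lit 346) (nat_lit 319) (nat_lit 235)) (XT.lf (nat_lit 0) (nat_lit 290676515) (nat_lit 0) (nat_lit 290718814) (nat_lit 152) (nat_lit 290676515) (nat_lit 132) (nat_lit 3) (nat_lit 132) (nat_lit 1) (nat_lit 134) (nat_lit 1) (nat_lit 347) (nat_lit 319) (nat_lit 234))) (XT.nd (nat_lit 78) (nat_lit 152) (nat_lit 0) (XT.lf (nat_lit 76) (nat_lit 277452800) (nat_lit 0) (nat_lit 277489582) (nat_lit 76) (nat_lit 277489582) (nat_lit 132) (nat_lit 3) (nat_lit 131) (nat_lit 1) (nat_lit 132) (nat_lit 1) (nat_lit 348) (nat_lit 319) (nat_lit 233)) (XT.nd (nat_lit 78) (nat_lit 0) (nat_lit 0) (XT.lf (nat_lit 152) (nat_lit 796219551) (nat_lit 0) (nat_lit 9692) (nat_lit 76) (nat_lit 9692) (nat_lit 131) (nat_lit 1) (nat_lit 129) (nat_lit 1) (nat_lit 130) (nat_lit 1) (nat_lit 349) (nat_lit 319) (nat_lit 232)) (XT.lf (nat_lit 0) (nat_lit 252766186) (nat_lit 0) (nat_lit 252790371) (nat_lit 152) (nat_lit 252766186)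 (nat_lit 129) (nat_lit 3) (nat_lit 129) (nat_lit 1) (nat_lit 131) (nat_lit 1) (nat_lit 350) (nat_lit 319) (nat_lit 231))))) (XT.nd (nat_lit 234) (nat_lit 228) (nat_lit 0) (XT.nd (nat_lit 78) (nat_lit 152) (nat_lit 0) (XT.lf (nat_lit 76) (nat_lit 241270441) (nat_lit 0) (nat_lit 241291471) (nat_lit 76) (nat_lit 241291471) (nat_lit 129) (nat_lit 3) (nat_lit 128) (nat_lit 1) (nat_lit 129) (nat_lit 1) (nat_lit 351) (nat_lit 319) (nat_lit 230)) (XT.nd (nat_lit 78) (nat_lit 0) (nat_lit 0) (XT.lf (nat_lit 152) (nat_lit 692370223) (nat_lit 0) (nat_lit 5541) (nat_lit 76) (nat_lit 5541) (nat_lit 128) (nat_lit 1) (nat_lit 126) (nat_lit 1) (nat_lit 127) (nat_lit 1) (nat_lit 352) (nat_lit 319) (nat_lit 229)) (XT.lf (nat_lit 0) (nat_lit 219798970) (nat_lit 0) (nat_lit 219812797) (nat_lit 152) (nat_lit 219798970) (nat_lit 126) (nat_lit 3) (nat_lit 126) (nat_lit 1) (nat_lit 128) (nat_lit 1) (nat_lit 353) (nat_lit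 319) (nat_lit 228)))) (XT.nd (nat_lit 78) (nat_lit 152) (nat_lit 0) (XT.lf (nat_lit 76) (nat_lit 209804464) (nat_lit 0) (nat_lit 209816488) (nat_lit 76) (nat_lit 209816488) (nat_lit 126) (nat_lit 3) (nat_lit 125) (nat_lit 1) (nat_lit 126) (nat_lit 1) (nat_lit 354) (nat_lit 319) (nat_lit 227)) (XT.nd (nat_lit 78) (nat_lit 0) (nat_lit 0) (XT.lf (nat_lit 152) (nat_lit 602064149) (nat_lit 0) (nat_lit 3168) (nat_lit 76) (nat_lit 3168) (nat_lit 125) (nat_lit 1) (nat_lit 123) (nat_lit 1) (nat_lit 124) (nat_lit 1) (nat_lit 355) (nat_lit 319) (nat_lit 226)) (XT.lf (nat_lit 0) (nat_lit 191130846) (nat_lit 0) (nat_lit 191138752) (nat_lit 152) (nat_lit 191130846) (nat_lit 123) (nat_lit 3) (nat_lit 123) (nat_lit 1) (nat_lit 125) (nat_lit 1) (nat_lit 356) (nat_lit 319) (nat_lit 225)))))) (XT.nd (nat_lit 468) (nat_lit 456) (nat_lit 0) (XT.nd (nat_lit 234) (nat_lit 228) (nat_lit 0) (XT.nd (nat_lit 78) (nat_lit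 152) (nat_lit 0) (XT.lf (nat_lit 76) (nat_lit 182440997) (nat_lit 0) (nat_lit 182447872) (nat_lit 76) (nat_lit 182447872) (nat_lit 123) (nat_lit 3) (nat_lit 122) (nat_lit 1) (nat_lit 123) (nat_lit 1) (nat_lit 357) (nat_lit 319) (nat_lit 224)) (XT.nd (nat_lit 78) (nat_lit 0) (nat_lit 0) (XT.lf (nat_lit 152) (nat_lit 523535807) (nat_lit 0) (nat_lit 1811) (nat_lit 76) (nat_lit 1811) (nat_lit 122) (nat_lit 1) (nat_lit 120) (nat_lit 1) (nat_lit 121) (nat_lit 1) (nat_lit 358) (nat_lit 319) (nat_lit 223)) (XT.lf (nat_lit 0) (nat_lit 166201483) (nat_lit 0) (nat_lit 166206004) (nat_lit 152) (nat_lit 166201483) (nat_lit 120) (nat_lit 3) (nat_lit 120) (nat_lit 1) (nat_lit 122) (nat_lit 1) (nat_lit 359) (nat_lit 319) (nat_lit 222)))) (XT.nd (nat_lit 78) (nat_lit 152) (nat_lit 0) (XT.lf (nat_lit 76) (nat_lit 158645679) (nat_lit 0) (nat_lit 158649610) (nat_lit 76) (nat_lit 158649610) (nat_lit 120) (nat_lit 3)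 (nat_lit 119) (nat_lit 1) (nat_lit 120) (nat_lit 1) (nat_lit 360) (nat_lit 319) (nat_lit 221)) (XT.nd (nat_lit 78) (nat_lit 0) (nat_lit 0) (XT.lf (nat_lit 152) (nat_lit 455249536) (nat_lit 0) (nat_lit 1035) (nat_lit 76) (nat_lit 1035) (nat_lit 119) (nat_lit 1) (nat_lit 117) (nat_lit 1) (nat_lit 118) (nat_lit 1) (nat_lit 361) (nat_lit 319) (nat_lit 220)) (XT.lf (nat_lit 0) (nat_lit 144523456) (nat_lit 0) (nat_lit 144526041) (nat_lit 152) (nat_lit 144523456) (nat_lit 117) (nat_lit 3) (nat_lit 117) (nat_lit 1) (nat_lit 119) (nat_lit 1) (nat_lit 362) (nat_lit 319) (nat_lit 219))))) (XT.nd (nat_lit 234) (nat_lit 228) (nat_lit 0) (XT.nd (nat_lit 78) (nat_lit 152) (nat_lit 0) (XT.lf (nat_lit 76) (nat_lit 137953527) (nat_lit 0) (nat_lit 137955775) (nat_lit 76) (nat_lit 137955775) (nat_lit 117) (nat_lit 3) (nat_lit 116) (nat_lit 1) (nat_lit 117) (nat_lit 1) (nat_lit 363) (nat_lit 319) (nat_lit 218)) (XT.nd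 (nat_lit 78) (nat_lit 0) (nat_lit 0) (XT.lf (nat_lit 152) (nat_lit 395869738) (nat_lit 0) (nat_lit 592) (nat_lit 76) (nat_lit 592) (nat_lit 116) (nat_lit 1) (nat_lit 114) (nat_lit 1) (nat_lit 115) (nat_lit 1) (nat_lit 364) (nat_lit 319) (nat_lit 217)) (XT.lf (nat_lit 0) (nat_lit 125672815) (nat_lit 0) (nat_lit 125674293) (nat_lit 152) (nat_lit 125672815) (nat_lit 114) (nat_lit 3) (nat_lit 114) (nat_lit 1) (nat_lit 116) (nat_lit 1) (nat_lit 365) (nat_lit 319) (nat_lit 216)))) (XT.nd (nat_lit 78) (nat_lit 152) (nat_lit 0) (XT.lf (nat_lit 76) (nat_lit 119960025) (nat_lit 0) (nat_lit 119961310) (nat_lit 76) (nat_lit 119961310) (nat_lit 114) (nat_lit 3) (nat_lit 113) (nat_lit 1) (nat_lit 114) (nat_lit 1) (nat_lit 366) (nat_lit 319) (nat_lit 215)) (XT.nd (nat_lit 78) (nat_lit 0) (nat_lit 0) (XT.lf (nat_lit 152) (nat_lit 344234885) (nat_lit 0) (nat_lit 338) (nat_lit 76) (nat_lit 338) (nat_lit 113) (nat_lit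 1) (nat_lit 111) (nat_lit 1) (nat_lit 112) (nat_lit 1) (nat_lit 367) (nat_lit 319) (nat_lit 214)) (XT.lf (nat_lit 0) (nat_lit 109280848) (nat_lit 0) (nat_lit 109281693) (nat_lit 152) (nat_lit 109280848) (nat_lit 111) (nat_lit 3) (nat_lit 111) (nat_lit 1) (nat_lit 113) (nat_lit 1) (nat_lit 368) (nat_lit 319) (nat_lit 213))))))))
noncomputable def ec63 : XT := (XT.nd (nat_lit 39858) (nat_lit 0) (nat_lit 5168) (XT.nd (nat_lit 39000) (nat_lit 0) (nat_lit 6840) (XT.nd (nat_lit 38532) (nat_lit 0) (nat_lit 7828) (XT.nd (nat_lit 156) (nat_lit 0) (nat_lit 0) (XT.nd (nat_lit 78) (nat_lit 152) (nat_lit 0) (XT.lf (nat_lit 76) (nat_lit 104313314) (nat_lit 0) (nat_lit 104314049) (nat_lit 76) (nat_lit 104314049) (nat_lit 111) (nat_lit 3) (nat_lit 110) (nat_lit 1) (nat_lit 111) (nat_lit 1) (nat_lit 369) (nat_lit 319) (nat_lit 212)) (XT.lf (nat_lit 152) (nat_lit 299334871) (nat_lit 0) (nat_lit 193) (nat_lit 76)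 (nat_lit 193) (nat_lit 110) (nat_lit 1) (nat_lit 108) (nat_lit 1) (nat_lit 109) (nat_lit 1) (nat_lit 370) (nat_lit 319) (nat_lit 211))) (XT.nd (nat_lit 38220) (nat_lit 0) (nat_lit 8132) (XT.lf (nat_lit 0) (nat_lit 95026904) (nat_lit 0) (nat_lit 95027387) (nat_lit 152) (nat_lit 95026904) (nat_lit 108) (nat_lit 3) (nat_lit 108) (nat_lit 1) (nat_lit 110) (nat_lit 1) (nat_lit 371) (nat_lit 319) (nat_lit 210)) (XT.nd (nat_lit 78) (nat_lit 0) (nat_lit 0) (XT.lf (nat_lit 380) (nat_lit 11483684311) (nat_lit 0) (nat_lit 10171381825) (nat_lit 380) (nat_lit 11483684311) (nat_lit 220) (nat_lit 1) (nat_lit 215) (nat_lit 0) (nat_lit 220) (nat_lit 0) (nat_lit 260) (nat_lit 320) (nat_lit 320)) (XT.lf (nat_lit 380) (nat_lit 42476657975) (nat_lit 76) (nat_lit 9709046287) (nat_lit 0) (nat_lit 9709046287) (nat_lit 220) (nat_lit 1) (nat_lit 216) (nat_lit 1) (nat_lit 215) (nat_lit 0) (nat_lit 261) (nat_lit 320) (nat_lit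 319))))) (XT.nd (nat_lit 234) (nat_lit 380) (nat_lit 0) (XT.nd (nat_lit 78) (nat_lit 0) (nat_lit 0) (XT.lf (nat_lit 380) (nat_lit 18723467261) (nat_lit 0) (nat_lit 20372898595) (nat_lit 304) (nat_lit 18723467261) (nat_lit 221) (nat_lit 1) (nat_lit 216) (nat_lit 1) (nat_lit 220) (nat_lit 1) (nat_lit 262) (nat_lit 320) (nat_lit 318)) (XT.nd (nat_lit 78) (nat_lit 0) (nat_lit 76) (XT.lf (nat_lit 380) (nat_lit 32147221111) (nat_lit 76) (nat_lit 11004208804) (nat_lit 0) (nat_lit 11004208804) (nat_lit 221) (nat_lit 1) (nat_lit 217) (nat_lit 1) (nat_lit 216) (nat_lit 1) (nat_lit 263) (nat_lit 320) (nat_lit 317)) (XT.lf (nat_lit 76) (nat_lit 13003977306) (nat_lit 0) (nat_lit 24761755928) (nat_lit 304) (nat_lit 13003977306) (nat_lit 218) (nat_lit 1) (nat_lit 217) (nat_lit 1) (nat_lit 221) (nat_lit 1) (nat_lit 264) (nat_lit 320) (nat_lit 316)))) (XT.nd (nat_lit 78) (nat_lit 152) (nat_lit 0) (XT.lf (nat_lit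 380) (nat_lit 19543927645) (nat_lit 0) (nat_lit 14067344346) (nat_lit 304) (nat_lit 14067344346) (nat_lit 218) (nat_lit 1) (nat_lit 213) (nat_lit 1) (nat_lit 217) (nat_lit 1) (nat_lit 265) (nat_lit 320) (nat_lit 315)) (XT.nd (nat_lit 78) (nat_lit 152) (nat_lit 0) (XT.lf (nat_lit 76) (nat_lit 6496185704) (nat_lit 0) (nat_lit 31876946072) (nat_lit 380) (nat_lit 6496185704) (nat_lit 214) (nat_lit 1) (nat_lit 213) (nat_lit 1) (nat_lit 218) (nat_lit 1) (nat_lit 266) (nat_lit 320) (nat_lit 314)) (XT.lf (nat_lit 228) (nat_lit 5846413891) (nat_lit 0) (nat_lit 18195520633) (nat_lit 152) (nat_lit 18195520633) (nat_lit 214) (nat_lit 1) (nat_lit 211) (nat_lit 1) (nat_lit 213) (nat_lit 1) (nat_lit 267) (nat_lit 320) (nat_lit 313)))))) (XT.nd (nat_lit 390) (nat_lit 532) (nat_lit 0) (XT.nd (nat_lit 156) (nat_lit 228) (nat_lit 0) (XT.nd (nat_lit 78) (nat_lit 0) (nat_lit 0) (XT.lf (nat_lit 228) (nat_lit 39287827790)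 (nat_lit 0) (nat_lit 308252734) (nat_lit 152) (nat_lit 308252734) (nat_lit 211) (nat_lit 1) (nat_lit 208) (nat_lit 1) (nat_lit 210) (nat_lit 1) (nat_lit 268) (nat_lit 320) (nat_lit 312)) (XT.lf (nat_lit 76) (nat_lit 15094634555) (nat_lit 0) (nat_lit 7410662085) (nat_lit 228) (nat_lit 15094634555) (nat_lit 209) (nat_lit 1) (nat_lit 208) (nat_lit 1) (nat_lit 211) (nat_lit 1) (nat_lit 269) (nat_lit 320) (nat_lit 311))) (XT.nd (nat_lit 78) (nat_lit 76) (nat_lit 0) (XT.lf (nat_lit 228) (nat_lit 21940630680) (nat_lit 0) (nat_lit 6805767952) (nat_lit 152) (nat_lit 6805767952) (nat_lit 209) (nat_lit 1) (nat_lit 206) (nat_lit 1) (nat_lit 208) (nat_lit 1) (nat_lit 270) (nat_lit 320) (nat_lit 310)) (XT.nd (nat_lit 78) (nat_lit 76) (nat_lit 0) (XT.lf (nat_lit 76) (nat_lit 6861554835) (nat_lit 0) (nat_lit 19912114825) (nat_lit 228) (nat_lit 6861554835) (nat_lit 207) (nat_lit 1) (nat_lit 206) (nat_lit 1) (nat_lit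 209) (nat_lit 1) (nat_lit 271) (nat_lit 320) (nat_lit 309)) (XT.lf (nat_lit 152) (nat_lit 5672343101) (nat_lit 0) (nat_lit 13088959607) (nat_lit 76) (nat_lit 13088959607) (nat_lit 207) (nat_lit 1) (nat_lit 205) (nat_lit 1) (nat_lit 206) (nat_lit 1) (nat_lit 272) (nat_lit 320) (nat_lit 308))))) (XT.nd (nat_lit 234) (nat_lit 228) (nat_lit 0) (XT.nd (nat_lit 78) (nat_lit 76) (nat_lit 0) (XT.lf (nat_lit 228) (nat_lit 28716735116) (nat_lit 0) (nat_lit 762889459) (nat_lit 152) (nat_lit 762889459) (nat_lit 205) (nat_lit 1) (nat_lit 202) (nat_lit 1) (nat_lit 204) (nat_lit 1) (nat_lit 273) (nat_lit 320) (nat_lit 307)) (XT.nd (nat_lit 78) (nat_lit 76) (nat_lit 0) (XT.lf (nat_lit 76) (nat_lit 10050239666) (nat_lit 0) (nat_lit 8534991431) (nat_lit 228) (nat_lit 10050239666) (nat_lit 203) (nat_lit 1) (nat_lit 202) (nat_lit 1) (nat_lit 205) (nat_lit 1) (nat_lit 274) (nat_lit 320) (nat_lit 306)) (XT.lf (nat_lit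 152) (nat_lit 12220128843) (nat_lit 0) (nat_lit 7483655136) (nat_lit 76) (nat_lit 7483655136) (nat_lit 203) (nat_lit 1) (nat_lit 201) (nat_lit 1) (nat_lit 202) (nat_lit 1) (nat_lit 275) (nat_lit 320) (nat_lit 305)))) (XT.nd (nat_lit 78) (nat_lit 228) (nat_lit 0) (XT.lf (nat_lit 0) (nat_lit 2392869630) (nat_lit 0) (nat_lit 21066640482) (nat_lit 152) (nat_lit 2392869630) (nat_lit 201) (nat_lit 3) (nat_lit 201) (nat_lit 1) (nat_lit 203) (nat_lit 1) (nat_lit 276) (nat_lit 320) (nat_lit 304)) (XT.nd (nat_lit 78) (nat_lit 76) (nat_lit 0) (XT.lf (nat_lit 76) (nat_lit 11074190556) (nat_lit 0) (nat_lit 2401800490) (nat_lit 152) (nat_lit 11074190556) (nat_lit 200) (nat_lit 1) (nat_lit 199) (nat_lit 1) (nat_lit 201) (nat_lit 1) (nat_lit 277) (nat_lit 320) (nat_lit 303)) (XT.lf (nat_lit 152) (nat_lit 14792940298) (nat_lit 0) (nat_lit 4278804113) (nat_lit 76) (nat_lit 4278804113) (nat_lit 200) (nat_lit 1) (nat_lit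 198) (nat_lit 1) (nat_lit 199) (nat_lit 1) (nat_lit 278) (nat_lit 320) (nat_lit 302))))))) (XT.nd (nat_lit 858) (nat_lit 912) (nat_lit 0) (XT.nd (nat_lit 390) (nat_lit 456) (nat_lit 0) (XT.nd (nat_lit 156) (nat_lit 228) (nat_lit 0) (XT.nd (nat_lit 78) (nat_lit 76) (nat_lit 0) (XT.lf (nat_lit 0) (nat_lit 3846239539) (nat_lit 0) (nat_lit 14523028631) (nat_lit 152) (nat_lit 3846239539) (nat_lit 198) (nat_lit 3) (nat_lit 198) (nat_lit 1) (nat_lit 200) (nat_lit 1) (nat_lit 279) (nat_lit 320) (nat_lit 301)) (XT.lf (nat_lit 76) (nat_lit 858027309) (nat_lit 0) (nat_lit 10142191737) (nat_lit 76) (nat_lit 10142191737) (nat_lit 198) (nat_lit 3) (nat_lit 197) (nat_lit 1) (nat_lit 198) (nat_lit 1) (nat_lit 280) (nat_lit 320) (nat_lit 300))) (XT.nd (nat_lit 78) (nat_lit 76) (nat_lit 0) (XT.lf (nat_lit 152) (nat_lit 15245774210) (nat_lit 0) (nat_lit 2446420139) (nat_lit 76) (nat_lit 2446420139) (nat_lit 197)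 (nat_lit 1) (nat_lit 195) (nat_lit 1) (nat_lit 196) (nat_lit 1) (nat_lit 281) (nat_lit 320) (nat_lit 299)) (XT.nd (nat_lit 78) (nat_lit 76) (nat_lit 0) (XT.lf (nat_lit 0) (nat_lit 4353976950) (nat_lit 0) (nat_lit 10458465766) (nat_lit 152) (nat_lit 4353976950) (nat_lit 195) (nat_lit 3) (nat_lit 195) (nat_lit 1) (nat_lit 197) (nat_lit 1) (nat_lit 282) (nat_lit 320) (nat_lit 298)) (XT.lf (nat_lit 76) (nat_lit 2547507954) (nat_lit 0) (nat_lit 7855759098) (nat_lit 76) (nat_lit 7855759098) (nat_lit 195) (nat_lit 3) (nat_lit 194) (nat_lit 1) (nat_lit 195) (nat_lit 1) (nat_lit 283) (nat_lit 320) (nat_lit 297))))) (XT.nd (nat_lit 234) (nat_lit 228) (nat_lit 0) (XT.nd (nat_lit 78) (nat_lit 76) (nat_lit 0) (XT.lf (nat_lit 152) (nat_lit 14619310088) (nat_lit 0) (nat_lit 1398748654) (nat_lit 76) (nat_lit 1398748654) (nat_lit 194) (nat_lit 1) (nat_lit 192) (nat_lit 1) (nat_lit 193) (nat_lit 1) (nat_lit 284)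 (nat_lit 320) (nat_lit 296)) (XT.nd (nat_lit 78) (nat_lit 76) (nat_lit 0) (XT.lf (nat_lit 0) (nat_lit 4363206548) (nat_lit 0) (nat_lit 7853467841) (nat_lit 152) (nat_lit 4363206548) (nat_lit 192) (nat_lit 3) (nat_lit 192) (nat_lit 1) (nat_lit 194) (nat_lit 1) (nat_lit 285) (nat_lit 320) (nat_lit 295)) (XT.lf (nat_lit 76) (nat_lit 3245179032) (nat_lit 0) (nat_lit 6280188852) (nat_lit 76) (nat_lit 6280188852) (nat_lit 192) (nat_lit 3) (nat_lit 191) (nat_lit 1) (nat_lit 192) (nat_lit 1) (nat_lit 286) (nat_lit 320) (nat_lit 294)))) (XT.nd (nat_lit 78) (nat_lit 76) (nat_lit 0) (XT.lf (nat_lit 152) (nat_lit 13491237297) (nat_lit 0) (nat_lit 799739083) (nat_lit 76) (nat_lit 799739083) (nat_lit 191) (nat_lit 1) (nat_lit 189) (nat_lit 1) (nat_lit 190) (nat_lit 1) (nat_lit 287) (nat_lit 320) (nat_lit 293)) (XT.nd (nat_lit 78) (nat_lit 76) (nat_lit 0) (XT.lf (nat_lit 0) (nat_lit 4124074110) (nat_lit 0) (nat_lit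 6119642332) (nat_lit 152) (nat_lit 4124074110) (nat_lit 189) (nat_lit 3) (nat_lit 189) (nat_lit 1) (nat_lit 191) (nat_lit 1) (nat_lit 288) (nat_lit 320) (nat_lit 292)) (XT.lf (nat_lit 76) (nat_lit 3410774767) (nat_lit 0) (nat_lit 5146051482) (nat_lit 76) (nat_lit 5146051482) (nat_lit 189) (nat_lit 3) (nat_lit 188) (nat_lit 1) (nat_lit 189) (nat_lit 1) (nat_lit 289) (nat_lit 320) (nat_lit 291)))))) (XT.nd (nat_lit 468) (nat_lit 456) (nat_lit 0) (XT.nd (nat_lit 234) (nat_lit 228) (nat_lit 0) (XT.nd (nat_lit 78) (nat_lit 76) (nat_lit 0) (XT.lf (nat_lit 152) (nat_lit 12176788543) (nat_lit 0) (nat_lit 457253416) (nat_lit 76) (nat_lit 457253416) (nat_lit 188) (nat_lit 1) (nat_lit 186) (nat_lit 1) (nat_lit 187) (nat_lit 1) (nat_lit 290) (nat_lit 320) (nat_lit 290)) (XT.nd (nat_lit 78) (nat_lit 76) (nat_lit 0) (XT.lf (nat_lit 0) (nat_lit 3774819371) (nat_lit 0) (nat_lit 4915791978) (nat_lit 152) (nat_lit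 3774819371) (nat_lit 186) (nat_lit 3) (nat_lit 186) (nat_lit 1) (nat_lit 188) (nat_lit 1) (nat_lit 291) (nat_lit 320) (nat_lit 289)) (XT.lf (nat_lit 76) (nat_lit 3302585128) (nat_lit 0) (nat_lit 4294735222) (nat_lit 76) (nat_lit 4294735222) (nat_lit 186) (nat_lit 3) (nat_lit 185) (nat_lit 1) (nat_lit 186) (nat_lit 1) (nat_lit 292) (nat_lit 320) (nat_lit 288)))) (XT.nd (nat_lit 78) (nat_lit 76) (nat_lit 0) (XT.lf (nat_lit 152) (nat_lit 10843100833) (nat_lit 0) (nat_lit 261436124) (nat_lit 76) (nat_lit 261436124) (nat_lit 185) (nat_lit 1) (nat_lit 183) (nat_lit 1) (nat_lit 184) (nat_lit 1) (nat_lit 293) (nat_lit 320) (nat_lit 287)) (XT.nd (nat_lit 78) (nat_lit 76) (nat_lit 0) (XT.lf (nat_lit 0) (nat_lit 3390323151) (nat_lit 0) (nat_lit 4042677943) (nat_lit 152) (nat_lit 3390323151) (nat_lit 183) (nat_lit 3) (nat_lit 183) (nat_lit 1) (nat_lit 185) (nat_lit 1) (nat_lit 294) (nat_lit 320) (nat_lit 286))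 (XT.lf (nat_lit 76) (nat_lit 3064319057) (nat_lit 0) (nat_lit 3631584094) (nat_lit 76) (nat_lit 3631584094) (nat_lit 183) (nat_lit 3) (nat_lit 182) (nat_lit 1) (nat_lit 183) (nat_lit 1) (nat_lit 295) (nat_lit 320) (nat_lit 285))))) (XT.nd (nat_lit 234) (nat_lit 228) (nat_lit 0) (XT.nd (nat_lit 78) (nat_lit 76) (nat_lit 0) (XT.lf (nat_lit 152) (nat_lit 9574345452) (nat_lit 0) (nat_lit 149476952) (nat_lit 76) (nat_lit 149476952) (nat_lit 182) (nat_lit 1) (nat_lit 180) (nat_lit 1) (nat_lit 181) (nat_lit 1) (nat_lit 296) (nat_lit 320) (nat_lit 284)) (XT.nd (nat_lit 78) (nat_lit 76) (nat_lit 0) (XT.lf (nat_lit 0) (nat_lit 3009782982) (nat_lit 0) (nat_lit 3382768951) (nat_lit 152) (nat_lit 3009782982) (nat_lit 180) (nat_lit 3) (nat_lit 180) (nat_lit 1) (nat_lit 182) (nat_lit 1) (nat_lit 297) (nat_lit 320) (nat_lit 283)) (XT.lf (nat_lit 76) (nat_lit 2774691142) (nat_lit 0) (nat_lit 3099026767) (nat_lit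 76) (nat_lit 3099026767) (nat_lit 180) (nat_lit 3) (nat_lit 179) (nat_lit 1) (nat_lit 180) (nat_lit 1) (nat_lit 298) (nat_lit 320) (nat_lit 282)))) (XT.nd (nat_lit 78) (nat_lit 76) (nat_lit 0) (XT.lf (nat_lit 152) (nat_lit 8408743398) (nat_lit 0) (nat_lit 85463932) (nat_lit 76) (nat_lit 85463932) (nat_lit 179) (nat_lit 1) (nat_lit 177) (nat_lit 1) (nat_lit 178) (nat_lit 1) (nat_lit 299) (nat_lit 320) (nat_lit 281)) (XT.nd (nat_lit 78) (nat_lit 76) (nat_lit 0) (XT.lf (nat_lit 0) (nat_lit 2652465986) (nat_lit 0) (nat_lit 2865721924) (nat_lit 152) (nat_lit 2652465986) (nat_lit 177) (nat_lit 3) (nat_lit 177) (nat_lit 1) (nat_lit 179) (nat_lit 1) (nat_lit 300) (nat_lit 320) (nat_lit 280)) (XT.lf (nat_lit 76) (nat_lit 2475705427) (nat_lit 0) (nat_lit 2661145373) (nat_lit 76) (nat_lit 2661145373) (nat_lit 177) (nat_lit 3) (nat_lit 176) (nat_lit 1) (nat_lit 177) (nat_lit 1) (nat_lit 301) (nat_lit 320)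 (nat_lit 279))))))))
noncomputable def ec64 : XT := (XT.nd (nat_lit 1716) (nat_lit 1596) (nat_lit 0) (XT.nd (nat_lit 858) (nat_lit 912) (nat_lit 0) (XT.nd (nat_lit 390) (nat_lit 456) (nat_lit 0) (XT.nd (nat_lit 156) (nat_lit 228) (nat_lit 0) (XT.nd (nat_lit 78) (nat_lit 0) (nat_lit 0) (XT.lf (nat_lit 152) (nat_lit 7359535296) (nat_lit 0) (nat_lit 48864281) (nat_lit 76) (nat_lit 48864281) (nat_lit 176) (nat_lit 1) (nat_lit 174) (nat_lit 1) (nat_lit 175) (nat_lit 1) (nat_lit 302) (nat_lit 320) (nat_lit 278)) (XT.lf (nat_lit 0) (nat_lit 2326654121) (nat_lit 0) (nat_lit 2448583896) (nat_lit 152) (nat_lit 2326654121) (nat_lit 174) (nat_lit 3) (nat_lit 174) (nat_lit 1) (nat_lit 176) (nat_lit 1) (nat_lit 303) (nat_lit 320) (nat_lit 277))) (XT.nd (nat_lit 78) (nat_lit 152) (nat_lit 0) (XT.lf (nat_lit 76) (nat_lit 2188768057) (nat_lit 0) (nat_lit 2294793948) (nat_lit 76) (nat_lit 2294793948) (nat_lit 174)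 (nat_lit 3) (nat_lit 173) (nat_lit 1) (nat_lit 174) (nat_lit 1) (nat_lit 304) (nat_lit 320) (nat_lit 276)) (XT.nd (nat_lit 78) (nat_lit 0) (nat_lit 0) (XT.lf (nat_lit 152) (nat_lit 6426802510) (nat_lit 0) (nat_lit 27938311) (nat_lit 76) (nat_lit 27938311) (nat_lit 173) (nat_lit 1) (nat_lit 171) (nat_lit 1) (nat_lit 172) (nat_lit 1) (nat_lit 305) (nat_lit 320) (nat_lit 275)) (XT.lf (nat_lit 0) (nat_lit 2034705162) (nat_lit 0) (nat_lit 2104418906) (nat_lit 152) (nat_lit 2034705162) (nat_lit 171) (nat_lit 3) (nat_lit 171) (nat_lit 1) (nat_lit 173) (nat_lit 1) (nat_lit 306) (nat_lit 320) (nat_lit 274))))) (XT.nd (nat_lit 234) (nat_lit 228) (nat_lit 0) (XT.nd (nat_lit 78) (nat_lit 152) (nat_lit 0) (XT.lf (nat_lit 76) (nat_lit 1923848670) (nat_lit 0) (nat_lit 1984469318) (nat_lit 76) (nat_lit 1984469318) (nat_lit 171) (nat_lit 3) (nat_lit 170) (nat_lit 1) (nat_lit 171) (nat_lit 1) (nat_lit 307) (nat_lit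 320) (nat_lit 273)) (XT.nd (nat_lit 78) (nat_lit 0) (nat_lit 0) (XT.lf (nat_lit 152) (nat_lit 5604079384) (nat_lit 0) (nat_lit 15973820) (nat_lit 76) (nat_lit 15973820) (nat_lit 170) (nat_lit 1) (nat_lit 168) (nat_lit 1) (nat_lit 169) (nat_lit 1) (nat_lit 308) (nat_lit 320) (nat_lit 272)) (XT.lf (nat_lit 0) (nat_lit 1775899816) (nat_lit 0) (nat_lit 1815758876) (nat_lit 152) (nat_lit 1775899816) (nat_lit 168) (nat_lit 3) (nat_lit 168) (nat_lit 1) (nat_lit 170) (nat_lit 1) (nat_lit 309) (nat_lit 320) (nat_lit 271)))) (XT.nd (nat_lit 78) (nat_lit 152) (nat_lit 0) (XT.lf (nat_lit 76) (nat_lit 1684674051) (nat_lit 0) (nat_lit 1719334103) (nat_lit 76) (nat_lit 1719334103) (nat_lit 168) (nat_lit 3) (nat_lit 167) (nat_lit 1) (nat_lit 168) (nat_lit 1) (nat_lit 310) (nat_lit 320) (nat_lit 270)) (XT.nd (nat_lit 78) (nat_lit 0) (nat_lit 0) (XT.lf (nat_lit 152) (nat_lit 4882006394) (nat_lit 0) (nat_lit 9133083)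 (nat_lit 76) (nat_lit 9133083) (nat_lit 167) (nat_lit 1) (nat_lit 165) (nat_lit 1) (nat_lit 166) (nat_lit 1) (nat_lit 311) (nat_lit 320) (nat_lit 269)) (XT.lf (nat_lit 0) (nat_lit 1548029124) (nat_lit 0) (nat_lit 1570818671) (nat_lit 152) (nat_lit 1548029124) (nat_lit 165) (nat_lit 3) (nat_lit 165) (nat_lit 1) (nat_lit 167) (nat_lit 1) (nat_lit 312) (nat_lit 320) (nat_lit 268)))))) (XT.nd (nat_lit 390) (nat_lit 456) (nat_lit 0) (XT.nd (nat_lit 156) (nat_lit 228) (nat_lit 0) (XT.nd (nat_lit 78) (nat_lit 152) (nat_lit 0) (XT.lf (nat_lit 76) (nat_lit 1471659013) (nat_lit 0) (nat_lit 1491476011) (nat_lit 76) (nat_lit 1491476011) (nat_lit 165) (nat_lit 3) (nat_lit 164) (nat_lit 1) (nat_lit 165) (nat_lit 1) (nat_lit 313) (nat_lit 320) (nat_lit 267)) (XT.lf (nat_lit 152) (nat_lit 4250308059) (nat_lit 0) (nat_lit 5221870) (nat_lit 76) (nat_lit 5221870) (nat_lit 164) (nat_lit 1) (nat_lit 162) (nat_lit 1)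 (nat_lit 163) (nat_lit 1) (nat_lit 314) (nat_lit 320) (nat_lit 266))) (XT.nd (nat_lit 78) (nat_lit 228) (nat_lit 0) (XT.lf (nat_lit 0) (nat_lit 1348266885) (nat_lit 0) (nat_lit 1361296882) (nat_lit 152) (nat_lit 1348266885) (nat_lit 162) (nat_lit 3) (nat_lit 162) (nat_lit 1) (nat_lit 164) (nat_lit 1) (nat_lit 315) (nat_lit 320) (nat_lit 265)) (XT.nd (nat_lit 78) (nat_lit 152) (nat_lit 0) (XT.lf (nat_lit 76) (nat_lit 1283548562) (nat_lit 0) (nat_lit 1294878995) (nat_lit 76) (nat_lit 1294878995) (nat_lit 162) (nat_lit 3) (nat_lit 161) (nat_lit 1) (nat_lit 162) (nat_lit 1) (nat_lit 316) (nat_lit 320) (nat_lit 264)) (XT.lf (nat_lit 152) (nat_lit 3698827479) (nat_lit 0) (nat_lit 2985621) (nat_lit 76) (nat_lit 2985621) (nat_lit 161) (nat_lit 1) (nat_lit 159) (nat_lit 1) (nat_lit 160) (nat_lit 1) (nat_lit 317) (nat_lit 320) (nat_lit 263))))) (XT.nd (nat_lit 234) (nat_lit 228) (nat_lit 0) (XT.nd (nat_lit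 78) (nat_lit 228) (nat_lit 0) (XT.lf (nat_lit 0) (nat_lit 1173637888) (nat_lit 0) (nat_lit 1181087831) (nat_lit 152) (nat_lit 1173637888) (nat_lit 159) (nat_lit 3) (nat_lit 159) (nat_lit 1) (nat_lit 161) (nat_lit 1) (nat_lit 318) (nat_lit 320) (nat_lit 262)) (XT.nd (nat_lit 78) (nat_lit 152) (nat_lit 0) (XT.lf (nat_lit 76) (nat_lit 1118327617) (nat_lit 0) (nat_lit 1124805829) (nat_lit 76) (nat_lit 1124805829) (nat_lit 159) (nat_lit 3) (nat_lit 158) (nat_lit 1) (nat_lit 159) (nat_lit 1) (nat_lit 319) (nat_lit 320) (nat_lit 261)) (XT.lf (nat_lit 152) (nat_lit 3218034051) (nat_lit 0) (nat_lit 1707038) (nat_lit 76) (nat_lit 1707038) (nat_lit 158) (nat_lit 1) (nat_lit 156) (nat_lit 1) (nat_lit 157) (nat_lit 1) (nat_lit 320) (nat_lit 320) (nat_lit 260)))) (XT.nd (nat_lit 78) (nat_lit 228) (nat_lit 0) (XT.lf (nat_lit 0) (nat_lit 1021259029) (nat_lit 0) (nat_lit 1025518558) (nat_lit 152) (nat_lit 1021259029)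 (nat_lit 156) (nat_lit 3) (nat_lit 156) (nat_lit 1) (nat_lit 158) (nat_lit 1) (nat_lit 321) (nat_lit 320) (nat_lit 259)) (XT.nd (nat_lit 78) (nat_lit 152) (nat_lit 0) (XT.lf (nat_lit 76) (nat_lit 973715758) (nat_lit 0) (nat_lit 977419697) (nat_lit 76) (nat_lit 977419697) (nat_lit 156) (nat_lit 3) (nat_lit 155) (nat_lit 1) (nat_lit 156) (nat_lit 1) (nat_lit 322) (nat_lit 320) (nat_lit 258)) (XT.lf (nat_lit 152) (nat_lit 2799240923) (nat_lit 0) (nat_lit 976004) (nat_lit 76) (nat_lit 976004) (nat_lit 155) (nat_lit 1) (nat_lit 153) (nat_lit 1) (nat_lit 154) (nat_lit 1) (nat_lit 323) (nat_lit 320) (nat_lit 257))))))) (XT.nd (nat_lit 858) (nat_lit 836) (nat_lit 0) (XT.nd (nat_lit 390) (nat_lit 456) (nat_lit 0) (XT.nd (nat_lit 156) (nat_lit 228) (nat_lit 0) (XT.nd (nat_lit 78) (nat_lit 76) (nat_lit 0) (XT.lf (nat_lit 0) (nat_lit 888454040) (nat_lit 0) (nat_lit 890889440) (nat_lit 152) (nat_lit 888454040)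 (nat_lit 153) (nat_lit 3) (nat_lit 153) (nat_lit 1) (nat_lit 155) (nat_lit 1) (nat_lit 324) (nat_lit 320) (nat_lit 256)) (XT.lf (nat_lit 76) (nat_lit 847428027) (nat_lit 0) (nat_lit 849545765) (nat_lit 76) (nat_lit 849545765) (nat_lit 153) (nat_lit 3) (nat_lit 152) (nat_lit 1) (nat_lit 153) (nat_lit 1) (nat_lit 325) (nat_lit 320) (nat_lit 255))) (XT.nd (nat_lit 78) (nat_lit 76) (nat_lit 0) (XT.lf (nat_lit 152) (nat_lit 2434665960) (nat_lit 0) (nat_lit 558033) (nat_lit 76) (nat_lit 558033) (nat_lit 152) (nat_lit 1) (nat_lit 150) (nat_lit 1) (nat_lit 151) (nat_lit 1) (nat_lit 326) (nat_lit 320) (nat_lit 254)) (XT.nd (nat_lit 78) (nat_lit 76) (nat_lit 0) (XT.lf (nat_lit 0) (nat_lit 772798982) (nat_lit 0) (nat_lit 774191429) (nat_lit 152) (nat_lit 772798982) (nat_lit 150) (nat_lit 3) (nat_lit 150) (nat_lit 1) (nat_lit 152) (nat_lit 1) (nat_lit 327) (nat_lit 320) (nat_lit 253)) (XT.lf (nat_lit 76) (nat_lit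 737304839) (nat_lit 0) (nat_lit 738515663) (nat_lit 76) (nat_lit 738515663) (nat_lit 150) (nat_lit 3) (nat_lit 149) (nat_lit 1) (nat_lit 150) (nat_lit 1) (nat_lit 328) (nat_lit 320) (nat_lit 252))))) (XT.nd (nat_lit 234) (nat_lit 228) (nat_lit 0) (XT.nd (nat_lit 78) (nat_lit 76) (nat_lit 0) (XT.lf (nat_lit 152) (nat_lit 2117411536) (nat_lit 0) (nat_lit 319057) (nat_lit 76) (nat_lit 319057) (nat_lit 149) (nat_lit 1) (nat_lit 147) (nat_lit 1) (nat_lit 148) (nat_lit 1) (nat_lit 329) (nat_lit 320) (nat_lit 251)) (XT.nd (nat_lit 78) (nat_lit 76) (nat_lit 0) (XT.lf (nat_lit 0) (nat_lit 672130761) (nat_lit 0) (nat_lit 672926898) (nat_lit 152) (nat_lit 672130761) (nat_lit 147) (nat_lit 3) (nat_lit 147) (nat_lit 1) (nat_lit 149) (nat_lit 1) (nat_lit 330) (nat_lit 320) (nat_lit 250)) (XT.lf (nat_lit 76) (nat_lit 641369577) (nat_lit 0) (nat_lit 642061870) (nat_lit 76) (nat_lit 642061870) (nat_lit 147) (nat_lit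 3) (nat_lit 146) (nat_lit 1) (nat_lit 147) (nat_lit 1) (nat_lit 331) (nat_lit 320) (nat_lit 249)))) (XT.nd (nat_lit 78) (nat_lit 76) (nat_lit 0) (XT.lf (nat_lit 152) (nat_lit 1841405068) (nat_lit 0) (nat_lit 182422) (nat_lit 76) (nat_lit 182422) (nat_lit 146) (nat_lit 1) (nat_lit 144) (nat_lit 1) (nat_lit 145) (nat_lit 1) (nat_lit 332) (nat_lit 320) (nat_lit 248)) (XT.nd (nat_lit 78) (nat_lit 76) (nat_lit 0) (XT.lf (nat_lit 0) (nat_lit 584536801) (nat_lit 0) (nat_lit 584991995) (nat_lit 152) (nat_lit 584536801) (nat_lit 144) (nat_lit 3) (nat_lit 144) (nat_lit 1) (nat_lit 146) (nat_lit 1) (nat_lit 333) (nat_lit 320) (nat_lit 247)) (XT.lf (nat_lit 76) (nat_lit 557847001) (nat_lit 0) (nat_lit 558242821) (nat_lit 76) (nat_lit 558242821) (nat_lit 144) (nat_lit 3) (nat_lit 143) (nat_lit 1) (nat_lit 144) (nat_lit 1) (nat_lit 334) (nat_lit 320) (nat_lit 246)))))) (XT.nd (nat_lit 390) (nat_lit 456) (nat_lit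 0) (XT.nd (nat_lit 156) (nat_lit 228) (nat_lit 0) (XT.nd (nat_lit 78) (nat_lit 0) (nat_lit 0) (XT.lf (nat_lit 152) (nat_lit 1601323367) (nat_lit 0) (nat_lit 104300) (nat_lit 76) (nat_lit 104300) (nat_lit 143) (nat_lit 1) (nat_lit 141) (nat_lit 1) (nat_lit 142) (nat_lit 1) (nat_lit 335) (nat_lit 320) (nat_lit 245)) (XT.lf (nat_lit 0) (nat_lit 508335906) (nat_lit 0) (nat_lit 508596164) (nat_lit 152) (nat_lit 508335906) (nat_lit 141) (nat_lit 3) (nat_lit 141) (nat_lit 1) (nat_lit 143) (nat_lit 1) (nat_lit 336) (nat_lit 320) (nat_lit 244))) (XT.nd (nat_lit 78) (nat_lit 152) (nat_lit 0) (XT.lf (nat_lit 76) (nat_lit 485161149) (nat_lit 0) (nat_lit 485387461) (nat_lit 76) (nat_lit 485387461) (nat_lit 141) (nat_lit 3) (nat_lit 140) (nat_lit 1) (nat_lit 141) (nat_lit 1) (nat_lit 337) (nat_lit 320) (nat_lit 243)) (XT.nd (nat_lit 78) (nat_lit 0) (nat_lit 0) (XT.lf (nat_lit 152) (nat_lit 1392513174) (nat_lit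 0) (nat_lit 59634) (nat_lit 76) (nat_lit 59634) (nat_lit 140) (nat_lit 1) (nat_lit 138) (nat_lit 1) (nat_lit 139) (nat_lit 1) (nat_lit 338) (nat_lit 320) (nat_lit 242)) (XT.lf (nat_lit 0) (nat_lit 442055828) (nat_lit 0) (nat_lit 442204632) (nat_lit 152) (nat_lit 442055828) (nat_lit 138) (nat_lit 3) (nat_lit 138) (nat_lit 1) (nat_lit 140) (nat_lit 1) (nat_lit 339) (nat_lit 320) (nat_lit 241))))) (XT.nd (nat_lit 234) (nat_lit 228) (nat_lit 0) (XT.nd (nat_lit 78) (nat_lit 152) (nat_lit 0) (XT.lf (nat_lit 76) (nat_lit 421923171) (nat_lit 0) (nat_lit 422052565) (nat_lit 76) (nat_lit 422052565) (nat_lit 138) (nat_lit 3) (nat_lit 137) (nat_lit 1) (nat_lit 138) (nat_lit 1) (nat_lit 340) (nat_lit 320) (nat_lit 240)) (XT.nd (nat_lit 78) (nat_lit 0) (nat_lit 0) (XT.lf (nat_lit 152) (nat_lit 1210914224) (nat_lit 0) (nat_lit 34096) (nat_lit 76) (nat_lit 34096) (nat_lit 137) (nat_lit 1) (nat_lit 135) (nat_lit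 1) (nat_lit 136) (nat_lit 1) (nat_lit 341) (nat_lit 320) (nat_lit 239)) (XT.lf (nat_lit 0) (nat_lit 384410441) (nat_lit 0) (nat_lit 384495520) (nat_lit 152) (nat_lit 384410441) (nat_lit 135) (nat_lit 3) (nat_lit 135) (nat_lit 1) (nat_lit 137) (nat_lit 1) (nat_lit 342) (nat_lit 320) (nat_lit 238)))) (XT.nd (nat_lit 78) (nat_lit 152) (nat_lit 0) (XT.lf (nat_lit 76) (nat_lit 366914820) (nat_lit 0) (nat_lit 366988802) (nat_lit 76) (nat_lit 366988802) (nat_lit 135) (nat_lit 3) (nat_lit 134) (nat_lit 1) (nat_lit 135) (nat_lit 1) (nat_lit 343) (nat_lit 320) (nat_lit 237)) (XT.nd (nat_lit 78) (nat_lit 0) (nat_lit 0) (XT.lf (nat_lit 152) (nat_lit 1052987874) (nat_lit 0) (nat_lit 19494) (nat_lit 76) (nat_lit 19494) (nat_lit 134) (nat_lit 1) (nat_lit 132) (nat_lit 1) (nat_lit 133) (nat_lit 1) (nat_lit 344) (nat_lit 320) (nat_lit 236)) (XT.lf (nat_lit 0) (nat_lit 334277992) (nat_lit 0) (nat_lit 334326636)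 (nat_lit 152) (nat_lit 334277992) (nat_lit 132) (nat_lit 3) (nat_lit 132) (nat_lit 1) (nat_lit 134) (nat_lit 1) (nat_lit 345) (nat_lit 320) (nat_lit 235))))))))
noncomputable def ec65 : XT := (XT.nd (nat_lit 1716) (nat_lit 380) (nat_lit 0) (XT.nd (nat_lit 858) (nat_lit 760) (nat_lit 0) (XT.nd (nat_lit 390) (nat_lit 456) (nat_lit 0) (XT.nd (nat_lit 156) (nat_lit 228) (nat_lit 0) (XT.nd (nat_lit 78) (nat_lit 152) (nat_lit 0) (XT.lf (nat_lit 76) (nat_lit 319070720) (nat_lit 0) (nat_lit 319113019) (nat_lit 76) (nat_lit 319113019) (nat_lit 132) (nat_lit 3) (nat_lit 131) (nat_lit 1) (nat_lit 132) (nat_lit 1) (nat_lit 346) (nat_lit 320) (nat_lit 234)) (XT.lf (nat_lit 152) (nat_lit 915652484) (nat_lit 0) (nat_lit 11146) (nat_lit 76) (nat_lit 11146) (nat_lit 131) (nat_lit 1) (nat_lit 129) (nat_lit 1) (nat_lit 130) (nat_lit 1) (nat_lit 347) (nat_lit 320) (nat_lit 233))) (XT.nd (nat_lit 78) (nat_lit 228)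 (nat_lit 0) (XT.lf (nat_lit 0) (nat_lit 290681114) (nat_lit 0) (nat_lit 290708926) (nat_lit 152) (nat_lit 290681114) (nat_lit 129) (nat_lit 3) (nat_lit 129) (nat_lit 1) (nat_lit 131) (nat_lit 1) (nat_lit 348) (nat_lit 320) (nat_lit 232)) (XT.nd (nat_lit 78) (nat_lit 152) (nat_lit 0) (XT.lf (nat_lit 76) (nat_lit 277461007) (nat_lit 0) (nat_lit 277485192) (nat_lit 76) (nat_lit 277485192) (nat_lit 129) (nat_lit 3) (nat_lit 128) (nat_lit 1) (nat_lit 129) (nat_lit 1) (nat_lit 349) (nat_lit 320) (nat_lit 231)) (XT.lf (nat_lit 152) (nat_lit 796225757) (nat_lit 0) (nat_lit 6372) (nat_lit 76) (nat_lit 6372) (nat_lit 128) (nat_lit 1) (nat_lit 126) (nat_lit 1) (nat_lit 127) (nat_lit 1) (nat_lit 350) (nat_lit 320) (nat_lit 230))))) (XT.nd (nat_lit 234) (nat_lit 228) (nat_lit 0) (XT.nd (nat_lit 78) (nat_lit 228) (nat_lit 0) (XT.lf (nat_lit 0) (nat_lit 252768815) (nat_lit 0) (nat_lit 252784717) (nat_lit 152)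 (nat_lit 252768815) (nat_lit 126) (nat_lit 3) (nat_lit 126) (nat_lit 1) (nat_lit 128) (nat_lit 1) (nat_lit 351) (nat_lit 320) (nat_lit 229)) (XT.nd (nat_lit 78) (nat_lit 152) (nat_lit 0) (XT.lf (nat_lit 76) (nat_lit 241275133) (nat_lit 0) (nat_lit 241288961) (nat_lit 76) (nat_lit 241288961) (nat_lit 126) (nat_lit 3) (nat_lit 125) (nat_lit 1) (nat_lit 126) (nat_lit 1) (nat_lit 352) (nat_lit 320) (nat_lit 228)) (XT.lf (nat_lit 152) (nat_lit 692373771) (nat_lit 0) (nat_lit 3643) (nat_lit 76) (nat_lit 3643) (nat_lit 125) (nat_lit 1) (nat_lit 123) (nat_lit 1) (nat_lit 124) (nat_lit 1) (nat_lit 353) (nat_lit 320) (nat_lit 227)))) (XT.nd (nat_lit 78) (nat_lit 228) (nat_lit 0) (XT.lf (nat_lit 0) (nat_lit 219800473) (nat_lit 0) (nat_lit 219809565) (nat_lit 152) (nat_lit 219800473) (nat_lit 123) (nat_lit 3) (nat_lit 123) (nat_lit 1) (nat_lit 125) (nat_lit 1) (nat_lit 354) (nat_lit 320) (nat_lit 226)) (XT.nd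 (nat_lit 78) (nat_lit 152) (nat_lit 0) (XT.lf (nat_lit 76) (nat_lit 209807147) (nat_lit 0) (nat_lit 209815053) (nat_lit 76) (nat_lit 209815053) (nat_lit 123) (nat_lit 3) (nat_lit 122) (nat_lit 1) (nat_lit 123) (nat_lit 1) (nat_lit 355) (nat_lit 320) (nat_lit 225)) (XT.lf (nat_lit 152) (nat_lit 602066178) (nat_lit 0) (nat_lit 2083) (nat_lit 76) (nat_lit 2083) (nat_lit 122) (nat_lit 1) (nat_lit 120) (nat_lit 1) (nat_lit 121) (nat_lit 1) (nat_lit 356) (nat_lit 320) (nat_lit 224)))))) (XT.nd (nat_lit 390) (nat_lit 456) (nat_lit 0) (XT.nd (nat_lit 156) (nat_lit 228) (nat_lit 0) (XT.nd (nat_lit 78) (nat_lit 76) (nat_lit 0) (XT.lf (nat_lit 0) (nat_lit 191131706) (nat_lit 0) (nat_lit 191136904) (nat_lit 152) (nat_lit 191131706) (nat_lit 120) (nat_lit 3) (nat_lit 120) (nat_lit 1) (nat_lit 122) (nat_lit 1) (nat_lit 357) (nat_lit 320) (nat_lit 223)) (XT.lf (nat_lit 76) (nat_lit 182442531) (nat_lit 0) (nat_lit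 182447051) (nat_lit 76) (nat_lit 182447051) (nat_lit 120) (nat_lit 3) (nat_lit 119) (nat_lit 1) (nat_lit 120) (nat_lit 1) (nat_lit 358) (nat_lit 320) (nat_lit 222))) (XT.nd (nat_lit 78) (nat_lit 76) (nat_lit 0) (XT.lf (nat_lit 152) (nat_lit 523536967) (nat_lit 0) (nat_lit 1191) (nat_lit 76) (nat_lit 1191) (nat_lit 119) (nat_lit 1) (nat_lit 117) (nat_lit 1) (nat_lit 118) (nat_lit 1) (nat_lit 359) (nat_lit 320) (nat_lit 221)) (XT.nd (nat_lit 78) (nat_lit 76) (nat_lit 0) (XT.lf (nat_lit 0) (nat_lit 166201975) (nat_lit 0) (nat_lit 166204947) (nat_lit 152) (nat_lit 166201975) (nat_lit 117) (nat_lit 3) (nat_lit 117) (nat_lit 1) (nat_lit 119) (nat_lit 1) (nat_lit 360) (nat_lit 320) (nat_lit 220)) (XT.lf (nat_lit 76) (nat_lit 158646556) (nat_lit 0) (nat_lit 158649141) (nat_lit 76) (nat_lit 158649141) (nat_lit 117) (nat_lit 3) (nat_lit 116) (nat_lit 1) (nat_lit 117) (nat_lit 1) (nat_lit 361) (nat_lit 320)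 (nat_lit 219))))) (XT.nd (nat_lit 234) (nat_lit 228) (nat_lit 0) (XT.nd (nat_lit 78) (nat_lit 76) (nat_lit 0) (XT.lf (nat_lit 152) (nat_lit 455250199) (nat_lit 0) (nat_lit 681) (nat_lit 76) (nat_lit 681) (nat_lit 116) (nat_lit 1) (nat_lit 114) (nat_lit 1) (nat_lit 115) (nat_lit 1) (nat_lit 362) (nat_lit 320) (nat_lit 218)) (XT.nd (nat_lit 78) (nat_lit 76) (nat_lit 0) (XT.lf (nat_lit 0) (nat_lit 144523737) (nat_lit 0) (nat_lit 144525437) (nat_lit 152) (nat_lit 144523737) (nat_lit 114) (nat_lit 3) (nat_lit 114) (nat_lit 1) (nat_lit 116) (nat_lit 1) (nat_lit 363) (nat_lit 320) (nat_lit 217)) (XT.lf (nat_lit 76) (nat_lit 137954029) (nat_lit 0) (nat_lit 137955506) (nat_lit 76) (nat_lit 137955506) (nat_lit 114) (nat_lit 3) (nat_lit 113) (nat_lit 1) (nat_lit 114) (nat_lit 1) (nat_lit 364) (nat_lit 320) (nat_lit 216)))) (XT.nd (nat_lit 78) (nat_lit 76) (nat_lit 0) (XT.lf (nat_lit 152) (nat_lit 395870118)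 (nat_lit 0) (nat_lit 389) (nat_lit 76) (nat_lit 389) (nat_lit 113) (nat_lit 1) (nat_lit 111) (nat_lit 1) (nat_lit 112) (nat_lit 1) (nat_lit 365) (nat_lit 320) (nat_lit 215)) (XT.nd (nat_lit 78) (nat_lit 76) (nat_lit 0) (XT.lf (nat_lit 0) (nat_lit 125672976) (nat_lit 0) (nat_lit 125673947) (nat_lit 152) (nat_lit 125672976) (nat_lit 111) (nat_lit 3) (nat_lit 111) (nat_lit 1) (nat_lit 113) (nat_lit 1) (nat_lit 366) (nat_lit 320) (nat_lit 214)) (XT.lf (nat_lit 76) (nat_lit 119960312) (nat_lit 0) (nat_lit 119961156) (nat_lit 76) (nat_lit 119961156) (nat_lit 111) (nat_lit 3) (nat_lit 110) (nat_lit 1) (nat_lit 111) (nat_lit 1) (nat_lit 367) (nat_lit 320) (nat_lit 213))))))) (XT.nd (nat_lit 38844) (nat_lit 0) (nat_lit 7068) (XT.nd (nat_lit 38376) (nat_lit 0) (nat_lit 8208) (XT.nd (nat_lit 156) (nat_lit 228) (nat_lit 0) (XT.nd (nat_lit 78) (nat_lit 0) (nat_lit 0) (XT.lf (nat_lit 152) (nat_lit 344235102)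 (nat_lit 0) (nat_lit 222) (nat_lit 76) (nat_lit 222) (nat_lit 110) (nat_lit 1) (nat_lit 108) (nat_lit 1) (nat_lit 109) (nat_lit 1) (nat_lit 368) (nat_lit 320) (nat_lit 212)) (XT.lf (nat_lit 0) (nat_lit 109280940) (nat_lit 0) (nat_lit 109281496) (nat_lit 152) (nat_lit 109280940) (nat_lit 108) (nat_lit 3) (nat_lit 108) (nat_lit 1) (nat_lit 110) (nat_lit 1) (nat_lit 369) (nat_lit 320) (nat_lit 211))) (XT.nd (nat_lit 78) (nat_lit 152) (nat_lit 0) (XT.lf (nat_lit 76) (nat_lit 104313478) (nat_lit 0) (nat_lit 104313961) (nat_lit 76) (nat_lit 104313961) (nat_lit 108) (nat_lit 3) (nat_lit 107) (nat_lit 1) (nat_lit 108) (nat_lit 1) (nat_lit 370) (nat_lit 320) (nat_lit 210)) (XT.nd (nat_lit 38064) (nat_lit 0) (nat_lit 8360) (XT.lf (nat_lit 152) (nat_lit 299334995) (nat_lit 0) (nat_lit 127) (nat_lit 76) (nat_lit 127) (nat_lit 107) (nat_lit 1) (nat_lit 105) (nat_lit 1) (nat_lit 106) (nat_lit 1) (nat_lit 371)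 (nat_lit 320) (nat_lit 209)) (XT.lf (nat_lit 380) (nat_lit 13206236958) (nat_lit 0) (nat_lit 11697089098) (nat_lit 380) (nat_lit 13206236958) (nat_lit 220) (nat_lit 1) (nat_lit 215) (nat_lit 0) (nat_lit 220) (nat_lit 0) (nat_lit 258) (nat_lit 321) (nat_lit 321))))) (XT.nd (nat_lit 234) (nat_lit 152) (nat_lit 0) (XT.nd (nat_lit 78) (nat_lit 0) (nat_lit 76) (XT.lf (nat_lit 380) (nat_lit 48848156671) (nat_lit 76) (nat_lit 11165403230) (nat_lit 0) (nat_lit 11165403230) (nat_lit 220) (nat_lit 1) (nat_lit 216) (nat_lit 1) (nat_lit 215) (nat_lit 0) (nat_lit 259) (nat_lit 321) (nat_lit 320)) (XT.nd (nat_lit 78) (nat_lit 0) (nat_lit 0) (XT.lf (nat_lit 380) (nat_lit 21531987351) (nat_lit 0) (nat_lit 23428833385) (nat_lit 304) (nat_lit 21531987351) (nat_lit 221) (nat_lit 1) (nat_lit 216) (nat_lit 1) (nat_lit 220) (nat_lit 1) (nat_lit 260) (nat_lit 321) (nat_lit 319)) (XT.lf (nat_lit 380) (nat_lit 36969304278)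 (nat_lit 76) (nat_lit 12654840125) (nat_lit 0) (nat_lit 12654840125) (nat_lit 221) (nat_lit 1) (nat_lit 217) (nat_lit 1) (nat_lit 216) (nat_lit 1) (nat_lit 261) (nat_lit 321) (nat_lit 318)))) (XT.nd (nat_lit 78) (nat_lit 304) (nat_lit 0) (XT.lf (nat_lit 76) (nat_lit 14954573902) (nat_lit 0) (nat_lit 28476019318) (nat_lit 304) (nat_lit 14954573902) (nat_lit 218) (nat_lit 1) (nat_lit 217) (nat_lit 1) (nat_lit 221) (nat_lit 1) (nat_lit 262) (nat_lit 321) (nat_lit 317)) (XT.nd (nat_lit 78) (nat_lit 0) (nat_lit 0) (XT.lf (nat_lit 380) (nat_lit 22475516792) (nat_lit 0) (nat_lit 16177445998) (nat_lit 304) (nat_lit 16177445998) (nat_lit 218) (nat_lit 1) (nat_lit 213) (nat_lit 1) (nat_lit 217) (nat_lit 1) (nat_lit 263) (nat_lit 321) (nat_lit 316)) (XT.lf (nat_lit 76) (nat_lit 7470613560) (nat_lit 0) (nat_lit 36658487983) (nat_lit 380) (nat_lit 7470613560) (nat_lit 214) (nat_lit 1) (nat_lit 213) (nat_lit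 1) (nat_lit 218) (nat_lit 1) (nat_lit 264) (nat_lit 321) (nat_lit 315)))))) (XT.nd (nat_lit 468) (nat_lit 532) (nat_lit 0) (XT.nd (nat_lit 234) (nat_lit 228) (nat_lit 0) (XT.nd (nat_lit 78) (nat_lit 228) (nat_lit 0) (XT.lf (nat_lit 228) (nat_lit 6723375975) (nat_lit 0) (nat_lit 20924848728) (nat_lit 152) (nat_lit 20924848728) (nat_lit 214) (nat_lit 1) (nat_lit 211) (nat_lit 1) (nat_lit 213) (nat_lit 1) (nat_lit 265) (nat_lit 321) (nat_lit 314)) (XT.nd (nat_lit 78) (nat_lit 0) (nat_lit 0) (XT.lf (nat_lit 228) (nat_lit 45181001959) (nat_lit 0) (nat_lit 354490644) (nat_lit 152) (nat_lit 354490644) (nat_lit 211) (nat_lit 1) (nat_lit 208) (nat_lit 1) (nat_lit 210) (nat_lit 1) (nat_lit 266) (nat_lit 321) (nat_lit 313)) (XT.lf (nat_lit 76) (nat_lit 17358829739) (nat_lit 0) (nat_lit 8522261397) (nat_lit 228) (nat_lit 17358829739) (nat_lit 209) (nat_lit 1) (nat_lit 208) (nat_lit 1) (nat_lit 211) (nat_lit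 1) (nat_lit 267) (nat_lit 321) (nat_lit 312)))) (XT.nd (nat_lit 78) (nat_lit 76) (nat_lit 0) (XT.lf (nat_lit 228) (nat_lit 25231725282) (nat_lit 0) (nat_lit 7826633145) (nat_lit 152) (nat_lit 7826633145) (nat_lit 209) (nat_lit 1) (nat_lit 206) (nat_lit 1) (nat_lit 208) (nat_lit 1) (nat_lit 268) (nat_lit 321) (nat_lit 311)) (XT.nd (nat_lit 78) (nat_lit 76) (nat_lit 0) (XT.lf (nat_lit 76) (nat_lit 7890788061) (nat_lit 0) (nat_lit 22898932048) (nat_lit 228) (nat_lit 7890788061) (nat_lit 207) (nat_lit 1) (nat_lit 206) (nat_lit 1) (nat_lit 209) (nat_lit 1) (nat_lit 269) (nat_lit 321) (nat_lit 310)) (XT.lf (nat_lit 152) (nat_lit 6523194566) (nat_lit 0) (nat_lit 15052303548) (nat_lit 76) (nat_lit 15052303548) (nat_lit 207) (nat_lit 1) (nat_lit 205) (nat_lit 1) (nat_lit 206) (nat_lit 1) (nat_lit 270) (nat_lit 321) (nat_lit 309))))) (XT.nd (nat_lit 234) (nat_lit 228) (nat_lit 0) (XT.nd (nat_lit 78) (nat_lit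 76) (nat_lit 0) (XT.lf (nat_lit 228) (nat_lit 33024245384) (nat_lit 0) (nat_lit 877322878) (nat_lit 152) (nat_lit 877322878) (nat_lit 205) (nat_lit 1) (nat_lit 202) (nat_lit 1) (nat_lit 204) (nat_lit 1) (nat_lit 271) (nat_lit 321) (nat_lit 308)) (XT.nd (nat_lit 78) (nat_lit 76) (nat_lit 0) (XT.lf (nat_lit 76) (nat_lit 11557775616) (nat_lit 0) (nat_lit 9815240146) (nat_lit 228) (nat_lit 11557775616) (nat_lit 203) (nat_lit 1) (nat_lit 202) (nat_lit 1) (nat_lit 205) (nat_lit 1) (nat_lit 272) (nat_lit 321) (nat_lit 307)) (XT.lf (nat_lit 152) (nat_lit 14053148170) (nat_lit 0) (nat_lit 8606203407) (nat_lit 76) (nat_lit 8606203407) (nat_lit 203) (nat_lit 1) (nat_lit 201) (nat_lit 1) (nat_lit 202) (nat_lit 1) (nat_lit 273) (nat_lit 321) (nat_lit 306)))) (XT.nd (nat_lit 78) (nat_lit 228) (nat_lit 0) (XT.lf (nat_lit 0) (nat_lit 2751800074) (nat_lit 0) (nat_lit 24226636554) (nat_lit 152) (nat_lit 2751800074)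 (nat_lit 201) (nat_lit 3) (nat_lit 201) (nat_lit 1) (nat_lit 203) (nat_lit 1) (nat_lit 274) (nat_lit 321) (nat_lit 305)) (XT.nd (nat_lit 78) (nat_lit 76) (nat_lit 0) (XT.lf (nat_lit 76) (nat_lit 12735319140) (nat_lit 0) (nat_lit 2762070563) (nat_lit 152) (nat_lit 12735319140) (nat_lit 200) (nat_lit 1) (nat_lit 199) (nat_lit 1) (nat_lit 201) (nat_lit 1) (nat_lit 275) (nat_lit 321) (nat_lit 304)) (XT.lf (nat_lit 152) (nat_lit 17011881342) (nat_lit 0) (nat_lit 4920624730) (nat_lit 76) (nat_lit 4920624730) (nat_lit 200) (nat_lit 1) (nat_lit 198) (nat_lit 1) (nat_lit 199) (nat_lit 1) (nat_lit 276) (nat_lit 321) (nat_lit 303))))))))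
noncomputable def ec66 : XT := (XT.nd (nat_lit 1716) (nat_lit 1672) (nat_lit 0) (XT.nd (nat_lit 858) (nat_lit 836) (nat_lit 0) (XT.nd (nat_lit 390) (nat_lit 456) (nat_lit 0) (XT.nd (nat_lit 156) (nat_lit 228) (nat_lit 0) (XT.nd (nat_lit 78) (nat_lit 76) (nat_lit 0) (XT.lf (nat_lit 0) (nat_lit 4423175470) (nat_lit 0) (nat_lit 16701482926) (nat_lit 152) (nat_lit 4423175470) (nat_lit 198) (nat_lit 3) (nat_lit 198) (nat_lit 1) (nat_lit 200) (nat_lit 1) (nat_lit 277) (nat_lit 321) (nat_lit 302)) (XT.lf (nat_lit 76) (nat_lit 986731405) (nat_lit 0) (nat_lit 11663520497) (nat_lit 76) (nat_lit 11663520497) (nat_lit 198) (nat_lit 3) (nat_lit 197) (nat_lit 1) (nat_lit 198) (nat_lit 1) (nat_lit 278) (nat_lit 321) (nat_lit 301))) (XT.nd (nat_lit 78) (nat_lit 76) (nat_lit 0) (XT.lf (nat_lit 152) (nat_lit 17532640341) (nat_lit 0) (nat_lit 2813383159) (nat_lit 76) (nat_lit 2813383159) (nat_lit 197) (nat_lit 1)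 (nat_lit 195) (nat_lit 1) (nat_lit 196) (nat_lit 1) (nat_lit 279) (nat_lit 321) (nat_lit 300)) (XT.nd (nat_lit 78) (nat_lit 76) (nat_lit 0) (XT.lf (nat_lit 0) (nat_lit 5007073492) (nat_lit 0) (nat_lit 12027235631) (nat_lit 152) (nat_lit 5007073492) (nat_lit 195) (nat_lit 3) (nat_lit 195) (nat_lit 1) (nat_lit 197) (nat_lit 1) (nat_lit 280) (nat_lit 321) (nat_lit 299)) (XT.lf (nat_lit 76) (nat_lit 2929634147) (nat_lit 0) (nat_lit 9034122963) (nat_lit 76) (nat_lit 9034122963) (nat_lit 195) (nat_lit 3) (nat_lit 194) (nat_lit 1) (nat_lit 195) (nat_lit 1) (nat_lit 281) (nat_lit 321) (nat_lit 298))))) (XT.nd (nat_lit 234) (nat_lit 228) (nat_lit 0) (XT.nd (nat_lit 78) (nat_lit 76) (nat_lit 0) (XT.lf (nat_lit 152) (nat_lit 16812206601) (nat_lit 0) (nat_lit 1608560952) (nat_lit 76) (nat_lit 1608560952) (nat_lit 194) (nat_lit 1) (nat_lit 192) (nat_lit 1) (nat_lit 193) (nat_lit 1) (nat_lit 282) (nat_lit 321)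 (nat_lit 297)) (XT.nd (nat_lit 78) (nat_lit 76) (nat_lit 0) (XT.lf (nat_lit 0) (nat_lit 5017687530) (nat_lit 0) (nat_lit 9031488018) (nat_lit 152) (nat_lit 5017687530) (nat_lit 192) (nat_lit 3) (nat_lit 192) (nat_lit 1) (nat_lit 194) (nat_lit 1) (nat_lit 283) (nat_lit 321) (nat_lit 296)) (XT.lf (nat_lit 76) (nat_lit 3731955887) (nat_lit 0) (nat_lit 7222217180) (nat_lit 76) (nat_lit 7222217180) (nat_lit 192) (nat_lit 3) (nat_lit 191) (nat_lit 1) (nat_lit 192) (nat_lit 1) (nat_lit 284) (nat_lit 321) (nat_lit 295)))) (XT.nd (nat_lit 78) (nat_lit 76) (nat_lit 0) (XT.lf (nat_lit 152) (nat_lit 15514922892) (nat_lit 0) (nat_lit 919699945) (nat_lit 76) (nat_lit 919699945) (nat_lit 191) (nat_lit 1) (nat_lit 189) (nat_lit 1) (nat_lit 190) (nat_lit 1) (nat_lit 285) (nat_lit 321) (nat_lit 294)) (XT.nd (nat_lit 78) (nat_lit 76) (nat_lit 0) (XT.lf (nat_lit 0) (nat_lit 4742685227) (nat_lit 0) (nat_lit 7037588682)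 (nat_lit 152) (nat_lit 4742685227) (nat_lit 189) (nat_lit 3) (nat_lit 189) (nat_lit 1) (nat_lit 191) (nat_lit 1) (nat_lit 286) (nat_lit 321) (nat_lit 293)) (XT.lf (nat_lit 76) (nat_lit 3922390982) (nat_lit 0) (nat_lit 5917959205) (nat_lit 76) (nat_lit 5917959205) (nat_lit 189) (nat_lit 3) (nat_lit 188) (nat_lit 1) (nat_lit 189) (nat_lit 1) (nat_lit 287) (nat_lit 321) (nat_lit 292)))))) (XT.nd (nat_lit 390) (nat_lit 456) (nat_lit 0) (XT.nd (nat_lit 156) (nat_lit 228) (nat_lit 0) (XT.nd (nat_lit 78) (nat_lit 0) (nat_lit 0) (XT.lf (nat_lit 152) (nat_lit 14003306825) (nat_lit 0) (nat_lit 525841428) (nat_lit 76) (nat_lit 525841428) (nat_lit 188) (nat_lit 1) (nat_lit 186) (nat_lit 1) (nat_lit 187) (nat_lit 1) (nat_lit 288) (nat_lit 321) (nat_lit 291)) (XT.lf (nat_lit 0) (nat_lit 4341042276) (nat_lit 0) (nat_lit 5653160775) (nat_lit 152) (nat_lit 4341042276) (nat_lit 186) (nat_lit 3) (nat_lit 186) (nat_lit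 1) (nat_lit 188) (nat_lit 1) (nat_lit 289) (nat_lit 321) (nat_lit 290))) (XT.nd (nat_lit 78) (nat_lit 152) (nat_lit 0) (XT.lf (nat_lit 76) (nat_lit 3797972898) (nat_lit 0) (nat_lit 4938945505) (nat_lit 76) (nat_lit 4938945505) (nat_lit 186) (nat_lit 3) (nat_lit 185) (nat_lit 1) (nat_lit 186) (nat_lit 1) (nat_lit 290) (nat_lit 321) (nat_lit 289)) (XT.nd (nat_lit 78) (nat_lit 0) (nat_lit 0) (XT.lf (nat_lit 152) (nat_lit 12469565958) (nat_lit 0) (nat_lit 300651543) (nat_lit 76) (nat_lit 300651543) (nat_lit 185) (nat_lit 1) (nat_lit 183) (nat_lit 1) (nat_lit 184) (nat_lit 1) (nat_lit 291) (nat_lit 321) (nat_lit 288)) (XT.lf (nat_lit 0) (nat_lit 3898871624) (nat_lit 0) (nat_lit 4649079634) (nat_lit 152) (nat_lit 3898871624) (nat_lit 183) (nat_lit 3) (nat_lit 183) (nat_lit 1) (nat_lit 185) (nat_lit 1) (nat_lit 292) (nat_lit 321) (nat_lit 287))))) (XT.nd (nat_lit 234) (nat_lit 228) (nat_lit 0) (XT.nd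 (nat_lit 78) (nat_lit 152) (nat_lit 0) (XT.lf (nat_lit 76) (nat_lit 3523966916) (nat_lit 0) (nat_lit 4176321708) (nat_lit 76) (nat_lit 4176321708) (nat_lit 183) (nat_lit 3) (nat_lit 182) (nat_lit 1) (nat_lit 183) (nat_lit 1) (nat_lit 293) (nat_lit 321) (nat_lit 286)) (XT.nd (nat_lit 78) (nat_lit 0) (nat_lit 0) (XT.lf (nat_lit 152) (nat_lit 11010497270) (nat_lit 0) (nat_lit 171898495) (nat_lit 76) (nat_lit 171898495) (nat_lit 182) (nat_lit 1) (nat_lit 180) (nat_lit 1) (nat_lit 181) (nat_lit 1) (nat_lit 294) (nat_lit 321) (nat_lit 285)) (XT.lf (nat_lit 0) (nat_lit 3461250429) (nat_lit 0) (nat_lit 3890184294) (nat_lit 152) (nat_lit 3461250429) (nat_lit 180) (nat_lit 3) (nat_lit 180) (nat_lit 1) (nat_lit 182) (nat_lit 1) (nat_lit 295) (nat_lit 321) (nat_lit 284)))) (XT.nd (nat_lit 78) (nat_lit 152) (nat_lit 0) (XT.lf (nat_lit 76) (nat_lit 3190894813) (nat_lit 0) (nat_lit 3563880782) (nat_lit 76) (nat_lit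 3563880782) (nat_lit 180) (nat_lit 3) (nat_lit 179) (nat_lit 1) (nat_lit 180) (nat_lit 1) (nat_lit 296) (nat_lit 321) (nat_lit 283)) (XT.nd (nat_lit 78) (nat_lit 0) (nat_lit 0) (XT.lf (nat_lit 152) (nat_lit 9670054908) (nat_lit 0) (nat_lit 98283522) (nat_lit 76) (nat_lit 98283522) (nat_lit 179) (nat_lit 1) (nat_lit 177) (nat_lit 1) (nat_lit 178) (nat_lit 1) (nat_lit 297) (nat_lit 321) (nat_lit 282)) (XT.lf (nat_lit 0) (nat_lit 3050335884) (nat_lit 0) (nat_lit 3295580213) (nat_lit 152) (nat_lit 3050335884) (nat_lit 177) (nat_lit 3) (nat_lit 177) (nat_lit 1) (nat_lit 179) (nat_lit 1) (nat_lit 298) (nat_lit 321) (nat_lit 281))))))) (XT.nd (nat_lit 858) (nat_lit 760) (nat_lit 0) (XT.nd (nat_lit 390) (nat_lit 456) (nat_lit 0) (XT.nd (nat_lit 156) (nat_lit 228) (nat_lit 0) (XT.nd (nat_lit 78) (nat_lit 152) (nat_lit 0) (XT.lf (nat_lit 76) (nat_lit 2847061241) (nat_lit 0) (nat_lit 3060317179) (nat_lit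 76) (nat_lit 3060317179) (nat_lit 177) (nat_lit 3) (nat_lit 176) (nat_lit 1) (nat_lit 177) (nat_lit 1) (nat_lit 299) (nat_lit 321) (nat_lit 280)) (XT.lf (nat_lit 152) (nat_lit 8463465590) (nat_lit 0) (nat_lit 56193923) (nat_lit 76) (nat_lit 56193923) (nat_lit 176) (nat_lit 1) (nat_lit 174) (nat_lit 1) (nat_lit 175) (nat_lit 1) (nat_lit 300) (nat_lit 321) (nat_lit 279))) (XT.nd (nat_lit 78) (nat_lit 228) (nat_lit 0) (XT.lf (nat_lit 0) (nat_lit 2675652239) (nat_lit 0) (nat_lit 2815871480) (nat_lit 152) (nat_lit 2675652239) (nat_lit 174) (nat_lit 3) (nat_lit 174) (nat_lit 1) (nat_lit 176) (nat_lit 1) (nat_lit 301) (nat_lit 321) (nat_lit 278)) (XT.nd (nat_lit 78) (nat_lit 152) (nat_lit 0) (XT.lf (nat_lit 76) (nat_lit 2517083266) (nat_lit 0) (nat_lit 2639013041) (nat_lit 76) (nat_lit 2639013041) (nat_lit 174) (nat_lit 3) (nat_lit 173) (nat_lit 1) (nat_lit 174) (nat_lit 1) (nat_lit 302) (nat_lit 321)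 (nat_lit 277)) (XT.lf (nat_lit 152) (nat_lit 7390822887) (nat_lit 0) (nat_lit 32129057) (nat_lit 76) (nat_lit 32129057) (nat_lit 173) (nat_lit 1) (nat_lit 171) (nat_lit 1) (nat_lit 172) (nat_lit 1) (nat_lit 303) (nat_lit 321) (nat_lit 276))))) (XT.nd (nat_lit 234) (nat_lit 228) (nat_lit 0) (XT.nd (nat_lit 78) (nat_lit 228) (nat_lit 0) (XT.lf (nat_lit 0) (nat_lit 2339910936) (nat_lit 0) (nat_lit 2420081742) (nat_lit 152) (nat_lit 2339910936) (nat_lit 171) (nat_lit 3) (nat_lit 171) (nat_lit 1) (nat_lit 173) (nat_lit 1) (nat_lit 304) (nat_lit 321) (nat_lit 275)) (XT.nd (nat_lit 78) (nat_lit 152) (nat_lit 0) (XT.lf (nat_lit 76) (nat_lit 2212425971) (nat_lit 0) (nat_lit 2282139715) (nat_lit 76) (nat_lit 2282139715) (nat_lit 171) (nat_lit 3) (nat_lit 170) (nat_lit 1) (nat_lit 171) (nat_lit 1) (nat_lit 305) (nat_lit 321) (nat_lit 274)) (XT.lf (nat_lit 152) (nat_lit 6444691292) (nat_lit 0) (nat_lit 18369893)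 (nat_lit 76) (nat_lit 18369893) (nat_lit 170) (nat_lit 1) (nat_lit 168) (nat_lit 1) (nat_lit 169) (nat_lit 1) (nat_lit 306) (nat_lit 321) (nat_lit 273)))) (XT.nd (nat_lit 78) (nat_lit 228) (nat_lit 0) (XT.lf (nat_lit 0) (nat_lit 2042284789) (nat_lit 0) (nat_lit 2088122708) (nat_lit 152) (nat_lit 2042284789) (nat_lit 168) (nat_lit 3) (nat_lit 168) (nat_lit 1) (nat_lit 170) (nat_lit 1) (nat_lit 307) (nat_lit 321) (nat_lit 272)) (XT.nd (nat_lit 78) (nat_lit 152) (nat_lit 0) (XT.lf (nat_lit 76) (nat_lit 1937375159) (nat_lit 0) (nat_lit 1977234219) (nat_lit 76) (nat_lit 1977234219) (nat_lit 168) (nat_lit 3) (nat_lit 167) (nat_lit 1) (nat_lit 168) (nat_lit 1) (nat_lit 308) (nat_lit 321) (nat_lit 271)) (XT.lf (nat_lit 152) (nat_lit 5614307353) (nat_lit 0) (nat_lit 10503046) (nat_lit 76) (nat_lit 10503046) (nat_lit 167) (nat_lit 1) (nat_lit 165) (nat_lit 1) (nat_lit 166) (nat_lit 1) (nat_lit 309) (nat_lit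 321) (nat_lit 270)))))) (XT.nd (nat_lit 390) (nat_lit 456) (nat_lit 0) (XT.nd (nat_lit 156) (nat_lit 228) (nat_lit 0) (XT.nd (nat_lit 78) (nat_lit 76) (nat_lit 0) (XT.lf (nat_lit 0) (nat_lit 1780233493) (nat_lit 0) (nat_lit 1806441472) (nat_lit 152) (nat_lit 1780233493) (nat_lit 165) (nat_lit 3) (nat_lit 165) (nat_lit 1) (nat_lit 167) (nat_lit 1) (nat_lit 310) (nat_lit 321) (nat_lit 269)) (XT.lf (nat_lit 76) (nat_lit 1692407865) (nat_lit 0) (nat_lit 1715197412) (nat_lit 76) (nat_lit 1715197412) (nat_lit 165) (nat_lit 3) (nat_lit 164) (nat_lit 1) (nat_lit 165) (nat_lit 1) (nat_lit 311) (nat_lit 321) (nat_lit 268))) (XT.nd (nat_lit 78) (nat_lit 76) (nat_lit 0) (XT.lf (nat_lit 152) (nat_lit 4887854268) (nat_lit 0) (nat_lit 6005150) (nat_lit 76) (nat_lit 6005150) (nat_lit 164) (nat_lit 1) (nat_lit 162) (nat_lit 1) (nat_lit 163) (nat_lit 1) (nat_lit 312) (nat_lit 321) (nat_lit 267)) (XT.nd (nat_lit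 78) (nat_lit 76) (nat_lit 0) (XT.lf (nat_lit 0) (nat_lit 1550506918) (nat_lit 0) (nat_lit 1565491415) (nat_lit 152) (nat_lit 1550506918) (nat_lit 162) (nat_lit 3) (nat_lit 162) (nat_lit 1) (nat_lit 164) (nat_lit 1) (nat_lit 313) (nat_lit 321) (nat_lit 266)) (XT.lf (nat_lit 76) (nat_lit 1476080847) (nat_lit 0) (nat_lit 1489110844) (nat_lit 76) (nat_lit 1489110844) (nat_lit 162) (nat_lit 3) (nat_lit 161) (nat_lit 1) (nat_lit 162) (nat_lit 1) (nat_lit 314) (nat_lit 321) (nat_lit 265))))) (XT.nd (nat_lit 234) (nat_lit 228) (nat_lit 0) (XT.nd (nat_lit 78) (nat_lit 76) (nat_lit 0) (XT.lf (nat_lit 152) (nat_lit 4253651601) (nat_lit 0) (nat_lit 3433464) (nat_lit 76) (nat_lit 3433464) (nat_lit 161) (nat_lit 1) (nat_lit 159) (nat_lit 1) (nat_lit 160) (nat_lit 1) (nat_lit 315) (nat_lit 321) (nat_lit 264)) (XT.nd (nat_lit 78) (nat_lit 76) (nat_lit 0) (XT.lf (nat_lit 0) (nat_lit 1349683572) (nat_lit 0) (nat_lit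 1358251006) (nat_lit 152) (nat_lit 1349683572) (nat_lit 159) (nat_lit 3) (nat_lit 159) (nat_lit 1) (nat_lit 161) (nat_lit 1) (nat_lit 316) (nat_lit 321) (nat_lit 263)) (XT.lf (nat_lit 76) (nat_lit 1286076760) (nat_lit 0) (nat_lit 1293526703) (nat_lit 76) (nat_lit 1293526703) (nat_lit 159) (nat_lit 3) (nat_lit 158) (nat_lit 1) (nat_lit 159) (nat_lit 1) (nat_lit 317) (nat_lit 321) (nat_lit 262)))) (XT.nd (nat_lit 78) (nat_lit 76) (nat_lit 0) (XT.lf (nat_lit 152) (nat_lit 3700739159) (nat_lit 0) (nat_lit 1963094) (nat_lit 76) (nat_lit 1963094) (nat_lit 158) (nat_lit 1) (nat_lit 156) (nat_lit 1) (nat_lit 157) (nat_lit 1) (nat_lit 318) (nat_lit 321) (nat_lit 261)) (XT.nd (nat_lit 78) (nat_lit 76) (nat_lit 0) (XT.lf (nat_lit 0) (nat_lit 1174447883) (nat_lit 0) (nat_lit 1179346342) (nat_lit 152) (nat_lit 1174447883) (nat_lit 156) (nat_lit 3) (nat_lit 156) (nat_lit 1) (nat_lit 158) (nat_lit 1) (nat_lit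 319) (nat_lit 321) (nat_lit 260)) (XT.lf (nat_lit 76) (nat_lit 1119773122) (nat_lit 0) (nat_lit 1124032651) (nat_lit 76) (nat_lit 1124032651) (nat_lit 156) (nat_lit 3) (nat_lit 155) (nat_lit 1) (nat_lit 156) (nat_lit 1) (nat_lit 320) (nat_lit 321) (nat_lit 259))))))))
noncomputable def ec67 : XT := (XT.nd (nat_lit 1716) (nat_lit 1672) (nat_lit 0) (XT.nd (nat_lit 858) (nat_lit 912) (nat_lit 0) (XT.nd (nat_lit 390) (nat_lit 456) (nat_lit 0) (XT.nd (nat_lit 156) (nat_lit 228) (nat_lit 0) (XT.nd (nat_lit 78) (nat_lit 0) (nat_lit 0) (XT.lf (nat_lit 152) (nat_lit 3219127061) (nat_lit 0) (nat_lit 1122405) (nat_lit 76) (nat_lit 1122405) (nat_lit 155) (nat_lit 1) (nat_lit 153) (nat_lit 1) (nat_lit 154) (nat_lit 1) (nat_lit 321) (nat_lit 321) (nat_lit 258)) (XT.lf (nat_lit 0) (nat_lit 1021722146) (nat_lit 0) (nat_lit 1024522856) (nat_lit 152) (nat_lit 1021722146) (nat_lit 153) (nat_lit 3) (nat_lit 153) (nat_lit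 1) (nat_lit 155) (nat_lit 1) (nat_lit 322) (nat_lit 321) (nat_lit 257))) (XT.nd (nat_lit 78) (nat_lit 152) (nat_lit 0) (XT.lf (nat_lit 76) (nat_lit 974542231) (nat_lit 0) (nat_lit 976977630) (nat_lit 76) (nat_lit 976977630) (nat_lit 153) (nat_lit 3) (nat_lit 152) (nat_lit 1) (nat_lit 153) (nat_lit 1) (nat_lit 323) (nat_lit 321) (nat_lit 256)) (XT.nd (nat_lit 78) (nat_lit 0) (nat_lit 0) (XT.lf (nat_lit 152) (nat_lit 2799865854) (nat_lit 0) (nat_lit 641739) (nat_lit 76) (nat_lit 641739) (nat_lit 152) (nat_lit 1) (nat_lit 150) (nat_lit 1) (nat_lit 151) (nat_lit 1) (nat_lit 324) (nat_lit 321) (nat_lit 255)) (XT.lf (nat_lit 0) (nat_lit 888718829) (nat_lit 0) (nat_lit 890320144) (nat_lit 152) (nat_lit 888718829) (nat_lit 150) (nat_lit 3) (nat_lit 150) (nat_lit 1) (nat_lit 152) (nat_lit 1) (nat_lit 325) (nat_lit 321) (nat_lit 254))))) (XT.nd (nat_lit 234) (nat_lit 228) (nat_lit 0) (XT.nd (nat_lit 78)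 (nat_lit 152) (nat_lit 0) (XT.lf (nat_lit 76) (nat_lit 847900565) (nat_lit 0) (nat_lit 849293012) (nat_lit 76) (nat_lit 849293012) (nat_lit 150) (nat_lit 3) (nat_lit 149) (nat_lit 1) (nat_lit 150) (nat_lit 1) (nat_lit 326) (nat_lit 321) (nat_lit 253)) (XT.nd (nat_lit 78) (nat_lit 0) (nat_lit 0) (XT.lf (nat_lit 152) (nat_lit 2435023267) (nat_lit 0) (nat_lit 366916) (nat_lit 76) (nat_lit 366916) (nat_lit 149) (nat_lit 1) (nat_lit 147) (nat_lit 1) (nat_lit 148) (nat_lit 1) (nat_lit 327) (nat_lit 321) (nat_lit 252)) (XT.lf (nat_lit 0) (nat_lit 772950376) (nat_lit 0) (nat_lit 773865933) (nat_lit 152) (nat_lit 772950376) (nat_lit 147) (nat_lit 3) (nat_lit 147) (nat_lit 1) (nat_lit 149) (nat_lit 1) (nat_lit 328) (nat_lit 321) (nat_lit 251)))) (XT.nd (nat_lit 78) (nat_lit 152) (nat_lit 0) (XT.lf (nat_lit 76) (nat_lit 737575014) (nat_lit 0) (nat_lit 738371151) (nat_lit 76) (nat_lit 738371151) (nat_lit 147)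 (nat_lit 3) (nat_lit 146) (nat_lit 1) (nat_lit 147) (nat_lit 1) (nat_lit 329) (nat_lit 321) (nat_lit 250)) (XT.nd (nat_lit 78) (nat_lit 0) (nat_lit 0) (XT.lf (nat_lit 152) (nat_lit 2117615828) (nat_lit 0) (nat_lit 209785) (nat_lit 76) (nat_lit 209785) (nat_lit 146) (nat_lit 1) (nat_lit 144) (nat_lit 1) (nat_lit 145) (nat_lit 1) (nat_lit 330) (nat_lit 321) (nat_lit 249)) (XT.lf (nat_lit 0) (nat_lit 672217321) (nat_lit 0) (nat_lit 672740794) (nat_lit 152) (nat_lit 672217321) (nat_lit 144) (nat_lit 3) (nat_lit 144) (nat_lit 1) (nat_lit 146) (nat_lit 1) (nat_lit 331) (nat_lit 321) (nat_lit 248)))))) (XT.nd (nat_lit 390) (nat_lit 456) (nat_lit 0) (XT.nd (nat_lit 156) (nat_lit 228) (nat_lit 0) (XT.nd (nat_lit 78) (nat_lit 152) (nat_lit 0) (XT.lf (nat_lit 76) (nat_lit 641524051) (nat_lit 0) (nat_lit 641979245) (nat_lit 76) (nat_lit 641979245) (nat_lit 144) (nat_lit 3) (nat_lit 143) (nat_lit 1) (nat_lit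 144) (nat_lit 1) (nat_lit 332) (nat_lit 321) (nat_lit 247)) (XT.lf (nat_lit 152) (nat_lit 1841521872) (nat_lit 0) (nat_lit 119945) (nat_lit 76) (nat_lit 119945) (nat_lit 143) (nat_lit 1) (nat_lit 141) (nat_lit 1) (nat_lit 142) (nat_lit 1) (nat_lit 333) (nat_lit 321) (nat_lit 246))) (XT.nd (nat_lit 78) (nat_lit 228) (nat_lit 0) (XT.lf (nat_lit 0) (nat_lit 584586292) (nat_lit 0) (nat_lit 584885589) (nat_lit 152) (nat_lit 584586292) (nat_lit 141) (nat_lit 3) (nat_lit 141) (nat_lit 1) (nat_lit 143) (nat_lit 1) (nat_lit 334) (nat_lit 321) (nat_lit 245)) (XT.nd (nat_lit 78) (nat_lit 152) (nat_lit 0) (XT.lf (nat_lit 76) (nat_lit 557935322) (nat_lit 0) (nat_lit 558195580) (nat_lit 76) (nat_lit 558195580) (nat_lit 141) (nat_lit 3) (nat_lit 140) (nat_lit 1) (nat_lit 141) (nat_lit 1) (nat_lit 335) (nat_lit 321) (nat_lit 244)) (XT.lf (nat_lit 152) (nat_lit 1601390150) (nat_lit 0) (nat_lit 68579) (nat_lit 76)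 (nat_lit 68579) (nat_lit 140) (nat_lit 1) (nat_lit 138) (nat_lit 1) (nat_lit 139) (nat_lit 1) (nat_lit 336) (nat_lit 321) (nat_lit 243))))) (XT.nd (nat_lit 234) (nat_lit 228) (nat_lit 0) (XT.nd (nat_lit 78) (nat_lit 228) (nat_lit 0) (XT.lf (nat_lit 0) (nat_lit 508364203) (nat_lit 0) (nat_lit 508535327) (nat_lit 152) (nat_lit 508364203) (nat_lit 138) (nat_lit 3) (nat_lit 138) (nat_lit 1) (nat_lit 140) (nat_lit 1) (nat_lit 337) (nat_lit 321) (nat_lit 242)) (XT.nd (nat_lit 78) (nat_lit 152) (nat_lit 0) (XT.lf (nat_lit 76) (nat_lit 485211647) (nat_lit 0) (nat_lit 485360450) (nat_lit 76) (nat_lit 485360450) (nat_lit 138) (nat_lit 3) (nat_lit 137) (nat_lit 1) (nat_lit 138) (nat_lit 1) (nat_lit 338) (nat_lit 321) (nat_lit 241)) (XT.lf (nat_lit 152) (nat_lit 1392551357) (nat_lit 0) (nat_lit 39210) (nat_lit 76) (nat_lit 39210) (nat_lit 137) (nat_lit 1) (nat_lit 135) (nat_lit 1) (nat_lit 136) (nat_lit 1)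 (nat_lit 339) (nat_lit 321) (nat_lit 240)))) (XT.nd (nat_lit 78) (nat_lit 228) (nat_lit 0) (XT.lf (nat_lit 0) (nat_lit 442072007) (nat_lit 0) (nat_lit 442169848) (nat_lit 152) (nat_lit 442072007) (nat_lit 135) (nat_lit 3) (nat_lit 135) (nat_lit 1) (nat_lit 137) (nat_lit 1) (nat_lit 340) (nat_lit 321) (nat_lit 239)) (XT.nd (nat_lit 78) (nat_lit 152) (nat_lit 0) (XT.lf (nat_lit 76) (nat_lit 421952043) (nat_lit 0) (nat_lit 422037122) (nat_lit 76) (nat_lit 422037122) (nat_lit 135) (nat_lit 3) (nat_lit 134) (nat_lit 1) (nat_lit 135) (nat_lit 1) (nat_lit 341) (nat_lit 321) (nat_lit 238)) (XT.lf (nat_lit 152) (nat_lit 1210936055) (nat_lit 0) (nat_lit 22418) (nat_lit 76) (nat_lit 22418) (nat_lit 134) (nat_lit 1) (nat_lit 132) (nat_lit 1) (nat_lit 133) (nat_lit 1) (nat_lit 342) (nat_lit 321) (nat_lit 237))))))) (XT.nd (nat_lit 858) (nat_lit 912) (nat_lit 0) (XT.nd (nat_lit 390) (nat_lit 456) (nat_lit 0)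 (XT.nd (nat_lit 156) (nat_lit 228) (nat_lit 0) (XT.nd (nat_lit 78) (nat_lit 76) (nat_lit 0) (XT.lf (nat_lit 0) (nat_lit 384419691) (nat_lit 0) (nat_lit 384475632) (nat_lit 152) (nat_lit 384419691) (nat_lit 132) (nat_lit 3) (nat_lit 132) (nat_lit 1) (nat_lit 134) (nat_lit 1) (nat_lit 343) (nat_lit 321) (nat_lit 236)) (XT.lf (nat_lit 76) (nat_lit 366931328) (nat_lit 0) (nat_lit 366979972) (nat_lit 76) (nat_lit 366979972) (nat_lit 132) (nat_lit 3) (nat_lit 131) (nat_lit 1) (nat_lit 132) (nat_lit 1) (nat_lit 344) (nat_lit 321) (nat_lit 235))) (XT.nd (nat_lit 78) (nat_lit 76) (nat_lit 0) (XT.lf (nat_lit 152) (nat_lit 1053000356) (nat_lit 0) (nat_lit 12817) (nat_lit 76) (nat_lit 12817) (nat_lit 131) (nat_lit 1) (nat_lit 129) (nat_lit 1) (nat_lit 130) (nat_lit 1) (nat_lit 345) (nat_lit 321) (nat_lit 234)) (XT.nd (nat_lit 78) (nat_lit 76) (nat_lit 0) (XT.lf (nat_lit 0) (nat_lit 334283281) (nat_lit 0) (nat_lit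 334315265) (nat_lit 152) (nat_lit 334283281) (nat_lit 129) (nat_lit 3) (nat_lit 129) (nat_lit 1) (nat_lit 131) (nat_lit 1) (nat_lit 346) (nat_lit 321) (nat_lit 233)) (XT.lf (nat_lit 76) (nat_lit 319080158) (nat_lit 0) (nat_lit 319107971) (nat_lit 76) (nat_lit 319107971) (nat_lit 129) (nat_lit 3) (nat_lit 128) (nat_lit 1) (nat_lit 129) (nat_lit 1) (nat_lit 347) (nat_lit 321) (nat_lit 232))))) (XT.nd (nat_lit 234) (nat_lit 228) (nat_lit 0) (XT.nd (nat_lit 78) (nat_lit 76) (nat_lit 0) (XT.lf (nat_lit 152) (nat_lit 915659620) (nat_lit 0) (nat_lit 7328) (nat_lit 76) (nat_lit 7328) (nat_lit 128) (nat_lit 1) (nat_lit 126) (nat_lit 1) (nat_lit 127) (nat_lit 1) (nat_lit 348) (nat_lit 321) (nat_lit 231)) (XT.nd (nat_lit 78) (nat_lit 76) (nat_lit 0) (XT.lf (nat_lit 0) (nat_lit 290684138) (nat_lit 0) (nat_lit 290702425) (nat_lit 152) (nat_lit 290684138) (nat_lit 126) (nat_lit 3) (nat_lit 126) (nat_lit 1) (nat_lit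 128) (nat_lit 1) (nat_lit 349) (nat_lit 321) (nat_lit 230)) (XT.lf (nat_lit 76) (nat_lit 277466404) (nat_lit 0) (nat_lit 277482305) (nat_lit 76) (nat_lit 277482305) (nat_lit 126) (nat_lit 3) (nat_lit 125) (nat_lit 1) (nat_lit 126) (nat_lit 1) (nat_lit 350) (nat_lit 321) (nat_lit 229)))) (XT.nd (nat_lit 78) (nat_lit 76) (nat_lit 0) (XT.lf (nat_lit 152) (nat_lit 796229837) (nat_lit 0) (nat_lit 4190) (nat_lit 76) (nat_lit 4190) (nat_lit 125) (nat_lit 1) (nat_lit 123) (nat_lit 1) (nat_lit 124) (nat_lit 1) (nat_lit 351) (nat_lit 321) (nat_lit 228)) (XT.nd (nat_lit 78) (nat_lit 76) (nat_lit 0) (XT.lf (nat_lit 0) (nat_lit 252770544) (nat_lit 0) (nat_lit 252781000) (nat_lit 152) (nat_lit 252770544) (nat_lit 123) (nat_lit 3) (nat_lit 123) (nat_lit 1) (nat_lit 125) (nat_lit 1) (nat_lit 352) (nat_lit 321) (nat_lit 227)) (XT.lf (nat_lit 76) (nat_lit 241278219) (nat_lit 0) (nat_lit 241287311) (nat_lit 76) (nat_lit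 241287311) (nat_lit 123) (nat_lit 3) (nat_lit 122) (nat_lit 1) (nat_lit 123) (nat_lit 1) (nat_lit 353) (nat_lit 321) (nat_lit 226)))))) (XT.nd (nat_lit 468) (nat_lit 456) (nat_lit 0) (XT.nd (nat_lit 234) (nat_lit 228) (nat_lit 0) (XT.nd (nat_lit 78) (nat_lit 76) (nat_lit 0) (XT.lf (nat_lit 152) (nat_lit 692376104) (nat_lit 0) (nat_lit 2395) (nat_lit 76) (nat_lit 2395) (nat_lit 122) (nat_lit 1) (nat_lit 120) (nat_lit 1) (nat_lit 121) (nat_lit 1) (nat_lit 354) (nat_lit 321) (nat_lit 225)) (XT.nd (nat_lit 78) (nat_lit 76) (nat_lit 0) (XT.lf (nat_lit 0) (nat_lit 219801462) (nat_lit 0) (nat_lit 219807440) (nat_lit 152) (nat_lit 219801462) (nat_lit 120) (nat_lit 3) (nat_lit 120) (nat_lit 1) (nat_lit 122) (nat_lit 1) (nat_lit 355) (nat_lit 321) (nat_lit 224)) (XT.lf (nat_lit 76) (nat_lit 209808911) (nat_lit 0) (nat_lit 209814109) (nat_lit 76) (nat_lit 209814109) (nat_lit 120) (nat_lit 3) (nat_lit 119)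 (nat_lit 1) (nat_lit 120) (nat_lit 1) (nat_lit 356) (nat_lit 321) (nat_lit 223)))) (XT.nd (nat_lit 78) (nat_lit 76) (nat_lit 0) (XT.lf (nat_lit 152) (nat_lit 602067512) (nat_lit 0) (nat_lit 1369) (nat_lit 76) (nat_lit 1369) (nat_lit 119) (nat_lit 1) (nat_lit 117) (nat_lit 1) (nat_lit 118) (nat_lit 1) (nat_lit 357) (nat_lit 321) (nat_lit 222)) (XT.nd (nat_lit 78) (nat_lit 76) (nat_lit 0) (XT.lf (nat_lit 0) (nat_lit 191132271) (nat_lit 0) (nat_lit 191135689) (nat_lit 152) (nat_lit 191132271) (nat_lit 117) (nat_lit 3) (nat_lit 117) (nat_lit 1) (nat_lit 119) (nat_lit 1) (nat_lit 358) (nat_lit 321) (nat_lit 221)) (XT.lf (nat_lit 76) (nat_lit 182443540) (nat_lit 0) (nat_lit 182446512) (nat_lit 76) (nat_lit 182446512) (nat_lit 117) (nat_lit 3) (nat_lit 116) (nat_lit 1) (nat_lit 117) (nat_lit 1) (nat_lit 359) (nat_lit 321) (nat_lit 220))))) (XT.nd (nat_lit 234) (nat_lit 228) (nat_lit 0) (XT.nd (nat_lit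 78) (nat_lit 76) (nat_lit 0) (XT.lf (nat_lit 152) (nat_lit 523537729) (nat_lit 0) (nat_lit 783) (nat_lit 76) (nat_lit 783) (nat_lit 116) (nat_lit 1) (nat_lit 114) (nat_lit 1) (nat_lit 115) (nat_lit 1) (nat_lit 360) (nat_lit 321) (nat_lit 219)) (XT.nd (nat_lit 78) (nat_lit 76) (nat_lit 0) (XT.lf (nat_lit 0) (nat_lit 166202298) (nat_lit 0) (nat_lit 166204252) (nat_lit 152) (nat_lit 166202298) (nat_lit 114) (nat_lit 3) (nat_lit 114) (nat_lit 1) (nat_lit 116) (nat_lit 1) (nat_lit 361) (nat_lit 321) (nat_lit 218)) (XT.lf (nat_lit 76) (nat_lit 158647133) (nat_lit 0) (nat_lit 158648832) (nat_lit 76) (nat_lit 158648832) (nat_lit 114) (nat_lit 3) (nat_lit 113) (nat_lit 1) (nat_lit 114) (nat_lit 1) (nat_lit 362) (nat_lit 321) (nat_lit 217)))) (XT.nd (nat_lit 78) (nat_lit 76) (nat_lit 0) (XT.lf (nat_lit 152) (nat_lit 455250635) (nat_lit 0) (nat_lit 447) (nat_lit 76) (nat_lit 447) (nat_lit 113) (nat_lit 1)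 (nat_lit 111) (nat_lit 1) (nat_lit 112) (nat_lit 1) (nat_lit 363) (nat_lit 321) (nat_lit 216)) (XT.nd (nat_lit 78) (nat_lit 76) (nat_lit 0) (XT.lf (nat_lit 0) (nat_lit 144523922) (nat_lit 0) (nat_lit 144525039) (nat_lit 152) (nat_lit 144523922) (nat_lit 111) (nat_lit 3) (nat_lit 111) (nat_lit 1) (nat_lit 113) (nat_lit 1) (nat_lit 364) (nat_lit 321) (nat_lit 215)) (XT.lf (nat_lit 76) (nat_lit 137954358) (nat_lit 0) (nat_lit 137955330) (nat_lit 76) (nat_lit 137955330) (nat_lit 111) (nat_lit 3) (nat_lit 110) (nat_lit 1) (nat_lit 111) (nat_lit 1) (nat_lit 365) (nat_lit 321) (nat_lit 214))))))))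
noncomputable def ec68 : XT := (XT.nd (nat_lit 39546) (nat_lit 0) (nat_lit 5776) (XT.nd (nat_lit 38688) (nat_lit 0) (nat_lit 7372) (XT.nd (nat_lit 390) (nat_lit 76) (nat_lit 0) (XT.nd (nat_lit 156) (nat_lit 228) (nat_lit 0) (XT.nd (nat_lit 78) (nat_lit 0) (nat_lit 0) (XT.lf (nat_lit 152) (nat_lit 395870367) (nat_lit 0) (nat_lit 256) (nat_lit 76) (nat_lit 256) (nat_lit 110) (nat_lit 1) (nat_lit 108) (nat_lit 1) (nat_lit 109) (nat_lit 1) (nat_lit 366) (nat_lit 321) (nat_lit 213)) (XT.lf (nat_lit 0) (nat_lit 125673081) (nat_lit 0) (nat_lit 125673720) (nat_lit 152) (nat_lit 125673081) (nat_lit 108) (nat_lit 3) (nat_lit 108) (nat_lit 1) (nat_lit 110) (nat_lit 1) (nat_lit 367) (nat_lit 321) (nat_lit 212))) (XT.nd (nat_lit 78) (nat_lit 152) (nat_lit 0) (XT.lf (nat_lit 76) (nat_lit 119960500) (nat_lit 0) (nat_lit 119961056) (nat_lit 76) (nat_lit 119961056) (nat_lit 108) (nat_lit 3) (nat_lit 107) (nat_lit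 1) (nat_lit 108) (nat_lit 1) (nat_lit 368) (nat_lit 321) (nat_lit 211)) (XT.nd (nat_lit 78) (nat_lit 0) (nat_lit 0) (XT.lf (nat_lit 152) (nat_lit 344235244) (nat_lit 0) (nat_lit 146) (nat_lit 76) (nat_lit 146) (nat_lit 107) (nat_lit 1) (nat_lit 105) (nat_lit 1) (nat_lit 106) (nat_lit 1) (nat_lit 369) (nat_lit 321) (nat_lit 210)) (XT.lf (nat_lit 0) (nat_lit 109281000) (nat_lit 0) (nat_lit 109281366) (nat_lit 152) (nat_lit 109281000) (nat_lit 105) (nat_lit 3) (nat_lit 105) (nat_lit 1) (nat_lit 107) (nat_lit 1) (nat_lit 370) (nat_lit 321) (nat_lit 209))))) (XT.nd (nat_lit 38064) (nat_lit 0) (nat_lit 8512) (XT.nd (nat_lit 37908) (nat_lit 0) (nat_lit 8436) (XT.lf (nat_lit 76) (nat_lit 104313586) (nat_lit 0) (nat_lit 104313904) (nat_lit 76) (nat_lit 104313904) (nat_lit 105) (nat_lit 3) (nat_lit 104) (nat_lit 1) (nat_lit 105) (nat_lit 1) (nat_lit 371) (nat_lit 321) (nat_lit 208)) (XT.nd (nat_lit 78) (nat_lit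 0) (nat_lit 0) (XT.lf (nat_lit 380) (nat_lit 15187172502) (nat_lit 0) (nat_lit 13451652463) (nat_lit 380) (nat_lit 15187172502) (nat_lit 220) (nat_lit 1) (nat_lit 215) (nat_lit 0) (nat_lit 220) (nat_lit 0) (nat_lit 256) (nat_lit 322) (nat_lit 322)) (XT.lf (nat_lit 380) (nat_lit 56175380172) (nat_lit 76) (nat_lit 12840213715) (nat_lit 0) (nat_lit 12840213715) (nat_lit 220) (nat_lit 1) (nat_lit 216) (nat_lit 1) (nat_lit 215) (nat_lit 0) (nat_lit 257) (nat_lit 322) (nat_lit 321)))) (XT.nd (nat_lit 78) (nat_lit 0) (nat_lit 0) (XT.lf (nat_lit 380) (nat_lit 24761785453) (nat_lit 0) (nat_lit 26943158393) (nat_lit 304) (nat_lit 24761785453) (nat_lit 221) (nat_lit 1) (nat_lit 216) (nat_lit 1) (nat_lit 220) (nat_lit 1) (nat_lit 258) (nat_lit 322) (nat_lit 320)) (XT.nd (nat_lit 78) (nat_lit 0) (nat_lit 76) (XT.lf (nat_lit 380) (nat_lit 42514699919) (nat_lit 76) (nat_lit 14553066144) (nat_lit 0) (nat_lit 14553066144)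 (nat_lit 221) (nat_lit 1) (nat_lit 217) (nat_lit 1) (nat_lit 216) (nat_lit 1) (nat_lit 259) (nat_lit 322) (nat_lit 319)) (XT.lf (nat_lit 76) (nat_lit 17197759988) (nat_lit 0) (nat_lit 32747422215) (nat_lit 304) (nat_lit 17197759988) (nat_lit 218) (nat_lit 1) (nat_lit 217) (nat_lit 1) (nat_lit 221) (nat_lit 1) (nat_lit 260) (nat_lit 322) (nat_lit 318)))))) (XT.nd (nat_lit 390) (nat_lit 532) (nat_lit 0) (XT.nd (nat_lit 156) (nat_lit 380) (nat_lit 0) (XT.nd (nat_lit 78) (nat_lit 0) (nat_lit 0) (XT.lf (nat_lit 380) (nat_lit 25846844311) (nat_lit 0) (nat_lit 18604062898) (nat_lit 304) (nat_lit 18604062898) (nat_lit 218) (nat_lit 1) (nat_lit 213) (nat_lit 1) (nat_lit 217) (nat_lit 1) (nat_lit 261) (nat_lit 322) (nat_lit 317)) (XT.lf (nat_lit 76) (nat_lit 8591205594) (nat_lit 0) (nat_lit 42157261180) (nat_lit 380) (nat_lit 8591205594) (nat_lit 214) (nat_lit 1) (nat_lit 213) (nat_lit 1) (nat_lit 218) (nat_lit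 1) (nat_lit 262) (nat_lit 322) (nat_lit 316))) (XT.nd (nat_lit 78) (nat_lit 228) (nat_lit 0) (XT.lf (nat_lit 228) (nat_lit 7731882372) (nat_lit 0) (nat_lit 24063576037) (nat_lit 152) (nat_lit 24063576037) (nat_lit 214) (nat_lit 1) (nat_lit 211) (nat_lit 1) (nat_lit 213) (nat_lit 1) (nat_lit 263) (nat_lit 322) (nat_lit 315)) (XT.nd (nat_lit 78) (nat_lit 0) (nat_lit 0) (XT.lf (nat_lit 228) (nat_lit 51958152252) (nat_lit 0) (nat_lit 407664240) (nat_lit 152) (nat_lit 407664240) (nat_lit 211) (nat_lit 1) (nat_lit 208) (nat_lit 1) (nat_lit 210) (nat_lit 1) (nat_lit 264) (nat_lit 322) (nat_lit 314)) (XT.lf (nat_lit 76) (nat_lit 19962654200) (nat_lit 0) (nat_lit 9800600607) (nat_lit 228) (nat_lit 19962654200) (nat_lit 209) (nat_lit 1) (nat_lit 208) (nat_lit 1) (nat_lit 211) (nat_lit 1) (nat_lit 265) (nat_lit 322) (nat_lit 313))))) (XT.nd (nat_lit 234) (nat_lit 304) (nat_lit 0) (XT.nd (nat_lit 78) (nat_lit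 76) (nat_lit 0) (XT.lf (nat_lit 228) (nat_lit 29016484074) (nat_lit 0) (nat_lit 9000628117) (nat_lit 152) (nat_lit 9000628117) (nat_lit 209) (nat_lit 1) (nat_lit 206) (nat_lit 1) (nat_lit 208) (nat_lit 1) (nat_lit 266) (nat_lit 322) (nat_lit 312)) (XT.nd (nat_lit 78) (nat_lit 76) (nat_lit 0) (XT.lf (nat_lit 76) (nat_lit 9074406270) (nat_lit 0) (nat_lit 26333771856) (nat_lit 228) (nat_lit 9074406270) (nat_lit 207) (nat_lit 1) (nat_lit 206) (nat_lit 1) (nat_lit 209) (nat_lit 1) (nat_lit 267) (nat_lit 322) (nat_lit 311)) (XT.lf (nat_lit 152) (nat_lit 7501673751) (nat_lit 0) (nat_lit 17310149080) (nat_lit 76) (nat_lit 17310149080) (nat_lit 207) (nat_lit 1) (nat_lit 205) (nat_lit 1) (nat_lit 206) (nat_lit 1) (nat_lit 268) (nat_lit 322) (nat_lit 310)))) (XT.nd (nat_lit 78) (nat_lit 76) (nat_lit 0) (XT.lf (nat_lit 228) (nat_lit 37977882191) (nat_lit 0) (nat_lit 1008921310) (nat_lit 152) (nat_lit 1008921310)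 (nat_lit 205) (nat_lit 1) (nat_lit 202) (nat_lit 1) (nat_lit 204) (nat_lit 1) (nat_lit 269) (nat_lit 322) (nat_lit 309)) (XT.nd (nat_lit 78) (nat_lit 76) (nat_lit 0) (XT.lf (nat_lit 76) (nat_lit 13291441959) (nat_lit 0) (nat_lit 11287526168) (nat_lit 228) (nat_lit 13291441959) (nat_lit 203) (nat_lit 1) (nat_lit 202) (nat_lit 1) (nat_lit 205) (nat_lit 1) (nat_lit 270) (nat_lit 322) (nat_lit 308)) (XT.lf (nat_lit 152) (nat_lit 16161120396) (nat_lit 0) (nat_lit 9897133918) (nat_lit 76) (nat_lit 9897133918) (nat_lit 203) (nat_lit 1) (nat_lit 201) (nat_lit 1) (nat_lit 202) (nat_lit 1) (nat_lit 271) (nat_lit 322) (nat_lit 307))))))) (XT.nd (nat_lit 858) (nat_lit 836) (nat_lit 0) (XT.nd (nat_lit 390) (nat_lit 456) (nat_lit 0) (XT.nd (nat_lit 156) (nat_lit 152) (nat_lit 0) (XT.nd (nat_lit 78) (nat_lit 152) (nat_lit 0) (XT.lf (nat_lit 0) (nat_lit 3164570085) (nat_lit 0) (nat_lit 27860632037) (nat_lit 152)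 (nat_lit 3164570085) (nat_lit 201) (nat_lit 3) (nat_lit 201) (nat_lit 1) (nat_lit 203) (nat_lit 1) (nat_lit 272) (nat_lit 322) (nat_lit 306)) (XT.lf (nat_lit 76) (nat_lit 14645617011) (nat_lit 0) (nat_lit 3176381148) (nat_lit 152) (nat_lit 14645617011) (nat_lit 200) (nat_lit 1) (nat_lit 199) (nat_lit 1) (nat_lit 201) (nat_lit 1) (nat_lit 273) (nat_lit 322) (nat_lit 305))) (XT.nd (nat_lit 78) (nat_lit 76) (nat_lit 0) (XT.lf (nat_lit 152) (nat_lit 19563663544) (nat_lit 0) (nat_lit 5658718439) (nat_lit 76) (nat_lit 5658718439) (nat_lit 200) (nat_lit 1) (nat_lit 198) (nat_lit 1) (nat_lit 199) (nat_lit 1) (nat_lit 274) (nat_lit 322) (nat_lit 304)) (XT.nd (nat_lit 78) (nat_lit 76) (nat_lit 0) (XT.lf (nat_lit 0) (nat_lit 5086651790) (nat_lit 0) (nat_lit 19206705364) (nat_lit 152) (nat_lit 5086651790) (nat_lit 198) (nat_lit 3) (nat_lit 198) (nat_lit 1) (nat_lit 200) (nat_lit 1) (nat_lit 275) (nat_lit 322)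 (nat_lit 303)) (XT.lf (nat_lit 76) (nat_lit 1134741116) (nat_lit 0) (nat_lit 13413048572) (nat_lit 76) (nat_lit 13413048572) (nat_lit 198) (nat_lit 3) (nat_lit 197) (nat_lit 1) (nat_lit 198) (nat_lit 1) (nat_lit 276) (nat_lit 322) (nat_lit 302))))) (XT.nd (nat_lit 234) (nat_lit 228) (nat_lit 0) (XT.nd (nat_lit 78) (nat_lit 76) (nat_lit 0) (XT.lf (nat_lit 152) (nat_lit 20162536392) (nat_lit 0) (nat_lit 3235390633) (nat_lit 76) (nat_lit 3235390633) (nat_lit 197) (nat_lit 1) (nat_lit 195) (nat_lit 1) (nat_lit 196) (nat_lit 1) (nat_lit 277) (nat_lit 322) (nat_lit 301)) (XT.nd (nat_lit 78) (nat_lit 76) (nat_lit 0) (XT.lf (nat_lit 0) (nat_lit 5758134516) (nat_lit 0) (nat_lit 13831320975) (nat_lit 152) (nat_lit 5758134516) (nat_lit 195) (nat_lit 3) (nat_lit 195) (nat_lit 1) (nat_lit 197) (nat_lit 1) (nat_lit 278) (nat_lit 322) (nat_lit 300)) (XT.lf (nat_lit 76) (nat_lit 3369079269) (nat_lit 0) (nat_lit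 10389241407) (nat_lit 76) (nat_lit 10389241407) (nat_lit 195) (nat_lit 3) (nat_lit 194) (nat_lit 1) (nat_lit 195) (nat_lit 1) (nat_lit 279) (nat_lit 322) (nat_lit 299)))) (XT.nd (nat_lit 78) (nat_lit 76) (nat_lit 0) (XT.lf (nat_lit 152) (nat_lit 19334037592) (nat_lit 0) (nat_lit 1849845095) (nat_lit 76) (nat_lit 1849845095) (nat_lit 194) (nat_lit 1) (nat_lit 192) (nat_lit 1) (nat_lit 193) (nat_lit 1) (nat_lit 280) (nat_lit 322) (nat_lit 298)) (XT.nd (nat_lit 78) (nat_lit 76) (nat_lit 0) (XT.lf (nat_lit 0) (nat_lit 5770340660) (nat_lit 0) (nat_lit 10386211220) (nat_lit 152) (nat_lit 5770340660) (nat_lit 192) (nat_lit 3) (nat_lit 192) (nat_lit 1) (nat_lit 194) (nat_lit 1) (nat_lit 281) (nat_lit 322) (nat_lit 297)) (XT.lf (nat_lit 76) (nat_lit 4291749270) (nat_lit 0) (nat_lit 8305549757) (nat_lit 76) (nat_lit 8305549757) (nat_lit 192) (nat_lit 3) (nat_lit 191) (nat_lit 1) (nat_lit 192) (nat_lit 1)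 (nat_lit 282) (nat_lit 322) (nat_lit 296)))))) (XT.nd (nat_lit 390) (nat_lit 456) (nat_lit 0) (XT.nd (nat_lit 156) (nat_lit 228) (nat_lit 0) (XT.nd (nat_lit 78) (nat_lit 0) (nat_lit 0) (XT.lf (nat_lit 152) (nat_lit 17842161326) (nat_lit 0) (nat_lit 1057654937) (nat_lit 76) (nat_lit 1057654937) (nat_lit 191) (nat_lit 1) (nat_lit 189) (nat_lit 1) (nat_lit 190) (nat_lit 1) (nat_lit 283) (nat_lit 322) (nat_lit 295)) (XT.lf (nat_lit 0) (nat_lit 5454088011) (nat_lit 0) (nat_lit 8093226985) (nat_lit 152) (nat_lit 5454088011) (nat_lit 189) (nat_lit 3) (nat_lit 189) (nat_lit 1) (nat_lit 191) (nat_lit 1) (nat_lit 284) (nat_lit 322) (nat_lit 294))) (XT.nd (nat_lit 78) (nat_lit 152) (nat_lit 0) (XT.lf (nat_lit 76) (nat_lit 4510749630) (nat_lit 0) (nat_lit 6805653085) (nat_lit 76) (nat_lit 6805653085) (nat_lit 189) (nat_lit 3) (nat_lit 188) (nat_lit 1) (nat_lit 189) (nat_lit 1) (nat_lit 285) (nat_lit 322) (nat_lit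 293)) (XT.nd (nat_lit 78) (nat_lit 0) (nat_lit 0) (XT.lf (nat_lit 152) (nat_lit 16103802849) (nat_lit 0) (nat_lit 604717643) (nat_lit 76) (nat_lit 604717643) (nat_lit 188) (nat_lit 1) (nat_lit 186) (nat_lit 1) (nat_lit 187) (nat_lit 1) (nat_lit 286) (nat_lit 322) (nat_lit 292)) (XT.lf (nat_lit 0) (nat_lit 4992198618) (nat_lit 0) (nat_lit 6501134892) (nat_lit 152) (nat_lit 4992198618) (nat_lit 186) (nat_lit 3) (nat_lit 186) (nat_lit 1) (nat_lit 188) (nat_lit 1) (nat_lit 287) (nat_lit 322) (nat_lit 291))))) (XT.nd (nat_lit 234) (nat_lit 228) (nat_lit 0) (XT.nd (nat_lit 78) (nat_lit 152) (nat_lit 0) (XT.lf (nat_lit 76) (nat_lit 4367668832) (nat_lit 0) (nat_lit 5679787331) (nat_lit 76) (nat_lit 5679787331) (nat_lit 186) (nat_lit 3) (nat_lit 185) (nat_lit 1) (nat_lit 186) (nat_lit 1) (nat_lit 288) (nat_lit 322) (nat_lit 290)) (XT.nd (nat_lit 78) (nat_lit 0) (nat_lit 0) (XT.lf (nat_lit 152) (nat_lit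 14340000851) (nat_lit 0) (nat_lit 345749275) (nat_lit 76) (nat_lit 345749275) (nat_lit 185) (nat_lit 1) (nat_lit 183) (nat_lit 1) (nat_lit 184) (nat_lit 1) (nat_lit 289) (nat_lit 322) (nat_lit 289)) (XT.lf (nat_lit 0) (nat_lit 4483702367) (nat_lit 0) (nat_lit 5346441579) (nat_lit 152) (nat_lit 4483702367) (nat_lit 183) (nat_lit 3) (nat_lit 183) (nat_lit 1) (nat_lit 185) (nat_lit 1) (nat_lit 290) (nat_lit 322) (nat_lit 288)))) (XT.nd (nat_lit 78) (nat_lit 152) (nat_lit 0) (XT.lf (nat_lit 76) (nat_lit 4052561953) (nat_lit 0) (nat_lit 4802769964) (nat_lit 76) (nat_lit 4802769964) (nat_lit 183) (nat_lit 3) (nat_lit 182) (nat_lit 1) (nat_lit 183) (nat_lit 1) (nat_lit 291) (nat_lit 322) (nat_lit 287)) (XT.nd (nat_lit 78) (nat_lit 0) (nat_lit 0) (XT.lf (nat_lit 152) (nat_lit 12662071860) (nat_lit 0) (nat_lit 197683270) (nat_lit 76) (nat_lit 197683270) (nat_lit 182) (nat_lit 1) (nat_lit 180) (nat_lit 1)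 (nat_lit 181) (nat_lit 1) (nat_lit 292) (nat_lit 322) (nat_lit 286)) (XT.lf (nat_lit 0) (nat_lit 3980437994) (nat_lit 0) (nat_lit 4473711938) (nat_lit 152) (nat_lit 3980437994) (nat_lit 180) (nat_lit 3) (nat_lit 180) (nat_lit 1) (nat_lit 182) (nat_lit 1) (nat_lit 293) (nat_lit 322) (nat_lit 285))))))))
noncomputable def ec69 : XT := (XT.nd (nat_lit 1716) (nat_lit 1748) (nat_lit 0) (XT.nd (nat_lit 858) (nat_lit 760) (nat_lit 0) (XT.nd (nat_lit 390) (nat_lit 456) (nat_lit 0) (XT.nd (nat_lit 156) (nat_lit 228) (nat_lit 0) (XT.nd (nat_lit 78) (nat_lit 152) (nat_lit 0) (XT.lf (nat_lit 76) (nat_lit 3669529035) (nat_lit 0) (nat_lit 4098462900) (nat_lit 76) (nat_lit 4098462900) (nat_lit 180) (nat_lit 3) (nat_lit 179) (nat_lit 1) (nat_lit 180) (nat_lit 1) (nat_lit 294) (nat_lit 322) (nat_lit 284)) (XT.lf (nat_lit 152) (nat_lit 11120563144) (nat_lit 0) (nat_lit 113026051) (nat_lit 76) (nat_lit 113026051)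 (nat_lit 179) (nat_lit 1) (nat_lit 177) (nat_lit 1) (nat_lit 178) (nat_lit 1) (nat_lit 295) (nat_lit 322) (nat_lit 283))) (XT.nd (nat_lit 78) (nat_lit 228) (nat_lit 0) (XT.lf (nat_lit 0) (nat_lit 3507886266) (nat_lit 0) (nat_lit 3789917245) (nat_lit 152) (nat_lit 3507886266) (nat_lit 177) (nat_lit 3) (nat_lit 177) (nat_lit 1) (nat_lit 179) (nat_lit 1) (nat_lit 296) (nat_lit 322) (nat_lit 282)) (XT.nd (nat_lit 78) (nat_lit 152) (nat_lit 0) (XT.lf (nat_lit 76) (nat_lit 3274120427) (nat_lit 0) (nat_lit 3519364756) (nat_lit 76) (nat_lit 3519364756) (nat_lit 177) (nat_lit 3) (nat_lit 176) (nat_lit 1) (nat_lit 177) (nat_lit 1) (nat_lit 297) (nat_lit 322) (nat_lit 281)) (XT.lf (nat_lit 152) (nat_lit 9732985429) (nat_lit 0) (nat_lit 64623011) (nat_lit 76) (nat_lit 64623011) (nat_lit 176) (nat_lit 1) (nat_lit 174) (nat_lit 1) (nat_lit 175) (nat_lit 1) (nat_lit 298) (nat_lit 322) (nat_lit 280))))) (XT.nd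 (nat_lit 234) (nat_lit 228) (nat_lit 0) (XT.nd (nat_lit 78) (nat_lit 228) (nat_lit 0) (XT.lf (nat_lit 0) (nat_lit 3077000075) (nat_lit 0) (nat_lit 3238252202) (nat_lit 152) (nat_lit 3077000075) (nat_lit 174) (nat_lit 3) (nat_lit 174) (nat_lit 1) (nat_lit 176) (nat_lit 1) (nat_lit 299) (nat_lit 322) (nat_lit 279)) (XT.nd (nat_lit 78) (nat_lit 152) (nat_lit 0) (XT.lf (nat_lit 76) (nat_lit 2894645756) (nat_lit 0) (nat_lit 3034864997) (nat_lit 76) (nat_lit 3034864997) (nat_lit 174) (nat_lit 3) (nat_lit 173) (nat_lit 1) (nat_lit 174) (nat_lit 1) (nat_lit 300) (nat_lit 322) (nat_lit 278)) (XT.lf (nat_lit 152) (nat_lit 8499446320) (nat_lit 0) (nat_lit 36948416) (nat_lit 76) (nat_lit 36948416) (nat_lit 173) (nat_lit 1) (nat_lit 171) (nat_lit 1) (nat_lit 172) (nat_lit 1) (nat_lit 301) (nat_lit 322) (nat_lit 277)))) (XT.nd (nat_lit 78) (nat_lit 228) (nat_lit 0) (XT.lf (nat_lit 0) (nat_lit 2690897577) (nat_lit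 0) (nat_lit 2783094004) (nat_lit 152) (nat_lit 2690897577) (nat_lit 171) (nat_lit 3) (nat_lit 171) (nat_lit 1) (nat_lit 173) (nat_lit 1) (nat_lit 302) (nat_lit 322) (nat_lit 276)) (XT.nd (nat_lit 78) (nat_lit 152) (nat_lit 0) (XT.lf (nat_lit 76) (nat_lit 2544289867) (nat_lit 0) (nat_lit 2624460673) (nat_lit 76) (nat_lit 2624460673) (nat_lit 171) (nat_lit 3) (nat_lit 170) (nat_lit 1) (nat_lit 171) (nat_lit 1) (nat_lit 303) (nat_lit 322) (nat_lit 275)) (XT.lf (nat_lit 152) (nat_lit 7411394986) (nat_lit 0) (nat_lit 21125377) (nat_lit 76) (nat_lit 21125377) (nat_lit 170) (nat_lit 1) (nat_lit 168) (nat_lit 1) (nat_lit 169) (nat_lit 1) (nat_lit 304) (nat_lit 322) (nat_lit 274)))))) (XT.nd (nat_lit 390) (nat_lit 456) (nat_lit 0) (XT.nd (nat_lit 156) (nat_lit 228) (nat_lit 0) (XT.nd (nat_lit 78) (nat_lit 76) (nat_lit 0) (XT.lf (nat_lit 0) (nat_lit 2348627507) (nat_lit 0) (nat_lit 2401341114) (nat_lit 152)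 (nat_lit 2348627507) (nat_lit 168) (nat_lit 3) (nat_lit 168) (nat_lit 1) (nat_lit 170) (nat_lit 1) (nat_lit 305) (nat_lit 322) (nat_lit 273)) (XT.lf (nat_lit 76) (nat_lit 2227981433) (nat_lit 0) (nat_lit 2273819352) (nat_lit 76) (nat_lit 2273819352) (nat_lit 168) (nat_lit 3) (nat_lit 167) (nat_lit 1) (nat_lit 168) (nat_lit 1) (nat_lit 306) (nat_lit 322) (nat_lit 272))) (XT.nd (nat_lit 78) (nat_lit 76) (nat_lit 0) (XT.lf (nat_lit 152) (nat_lit 6456453456) (nat_lit 0) (nat_lit 12078502) (nat_lit 76) (nat_lit 12078502) (nat_lit 167) (nat_lit 1) (nat_lit 165) (nat_lit 1) (nat_lit 166) (nat_lit 1) (nat_lit 307) (nat_lit 322) (nat_lit 271)) (XT.nd (nat_lit 78) (nat_lit 76) (nat_lit 0) (XT.lf (nat_lit 0) (nat_lit 2047268517) (nat_lit 0) (nat_lit 2077407693) (nat_lit 152) (nat_lit 2047268517) (nat_lit 165) (nat_lit 3) (nat_lit 165) (nat_lit 1) (nat_lit 167) (nat_lit 1) (nat_lit 308) (nat_lit 322) (nat_lit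 270)) (XT.lf (nat_lit 76) (nat_lit 1946269045) (nat_lit 0) (nat_lit 1972477024) (nat_lit 76) (nat_lit 1972477024) (nat_lit 165) (nat_lit 3) (nat_lit 164) (nat_lit 1) (nat_lit 165) (nat_lit 1) (nat_lit 309) (nat_lit 322) (nat_lit 269))))) (XT.nd (nat_lit 234) (nat_lit 228) (nat_lit 0) (XT.nd (nat_lit 78) (nat_lit 76) (nat_lit 0) (XT.lf (nat_lit 152) (nat_lit 5621032409) (nat_lit 0) (nat_lit 6905923) (nat_lit 76) (nat_lit 6905923) (nat_lit 164) (nat_lit 1) (nat_lit 162) (nat_lit 1) (nat_lit 163) (nat_lit 1) (nat_lit 310) (nat_lit 322) (nat_lit 268)) (XT.nd (nat_lit 78) (nat_lit 76) (nat_lit 0) (XT.lf (nat_lit 0) (nat_lit 1783082956) (nat_lit 0) (nat_lit 1800315127) (nat_lit 152) (nat_lit 1783082956) (nat_lit 162) (nat_lit 3) (nat_lit 162) (nat_lit 1) (nat_lit 164) (nat_lit 1) (nat_lit 311) (nat_lit 322) (nat_lit 267)) (XT.lf (nat_lit 76) (nat_lit 1697492974) (nat_lit 0) (nat_lit 1712477471) (nat_lit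 76) (nat_lit 1712477471) (nat_lit 162) (nat_lit 3) (nat_lit 161) (nat_lit 1) (nat_lit 162) (nat_lit 1) (nat_lit 312) (nat_lit 322) (nat_lit 266)))) (XT.nd (nat_lit 78) (nat_lit 76) (nat_lit 0) (XT.lf (nat_lit 152) (nat_lit 4891699341) (nat_lit 0) (nat_lit 3948484) (nat_lit 76) (nat_lit 3948484) (nat_lit 161) (nat_lit 1) (nat_lit 159) (nat_lit 1) (nat_lit 160) (nat_lit 1) (nat_lit 313) (nat_lit 322) (nat_lit 265)) (XT.nd (nat_lit 78) (nat_lit 76) (nat_lit 0) (XT.lf (nat_lit 0) (nat_lit 1552136107) (nat_lit 0) (nat_lit 1561988657) (nat_lit 152) (nat_lit 1552136107) (nat_lit 159) (nat_lit 3) (nat_lit 159) (nat_lit 1) (nat_lit 161) (nat_lit 1) (nat_lit 314) (nat_lit 322) (nat_lit 264)) (XT.lf (nat_lit 76) (nat_lit 1478988274) (nat_lit 0) (nat_lit 1487555708) (nat_lit 76) (nat_lit 1487555708) (nat_lit 159) (nat_lit 3) (nat_lit 158) (nat_lit 1) (nat_lit 159) (nat_lit 1) (nat_lit 315) (nat_lit 322) (nat_lit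 263))))))) (XT.nd (nat_lit 858) (nat_lit 912) (nat_lit 0) (XT.nd (nat_lit 390) (nat_lit 456) (nat_lit 0) (XT.nd (nat_lit 156) (nat_lit 228) (nat_lit 0) (XT.nd (nat_lit 78) (nat_lit 0) (nat_lit 0) (XT.lf (nat_lit 152) (nat_lit 4255850033) (nat_lit 0) (nat_lit 2257558) (nat_lit 76) (nat_lit 2257558) (nat_lit 158) (nat_lit 1) (nat_lit 156) (nat_lit 1) (nat_lit 157) (nat_lit 1) (nat_lit 316) (nat_lit 322) (nat_lit 262)) (XT.lf (nat_lit 0) (nat_lit 1350615066) (nat_lit 0) (nat_lit 1356248293) (nat_lit 152) (nat_lit 1350615066) (nat_lit 156) (nat_lit 3) (nat_lit 156) (nat_lit 1) (nat_lit 158) (nat_lit 1) (nat_lit 317) (nat_lit 322) (nat_lit 261))) (XT.nd (nat_lit 78) (nat_lit 152) (nat_lit 0) (XT.lf (nat_lit 76) (nat_lit 1287739091) (nat_lit 0) (nat_lit 1292637549) (nat_lit 76) (nat_lit 1292637549) (nat_lit 156) (nat_lit 3) (nat_lit 155) (nat_lit 1) (nat_lit 156) (nat_lit 1) (nat_lit 318) (nat_lit 322)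 (nat_lit 260)) (XT.nd (nat_lit 78) (nat_lit 0) (nat_lit 0) (XT.lf (nat_lit 152) (nat_lit 3701996120) (nat_lit 0) (nat_lit 1290766) (nat_lit 76) (nat_lit 1290766) (nat_lit 155) (nat_lit 1) (nat_lit 153) (nat_lit 1) (nat_lit 154) (nat_lit 1) (nat_lit 319) (nat_lit 322) (nat_lit 259)) (XT.lf (nat_lit 0) (nat_lit 1174980468) (nat_lit 0) (nat_lit 1178201284) (nat_lit 152) (nat_lit 1174980468) (nat_lit 153) (nat_lit 3) (nat_lit 153) (nat_lit 1) (nat_lit 155) (nat_lit 1) (nat_lit 320) (nat_lit 322) (nat_lit 258))))) (XT.nd (nat_lit 234) (nat_lit 228) (nat_lit 0) (XT.nd (nat_lit 78) (nat_lit 152) (nat_lit 0) (XT.lf (nat_lit 76) (nat_lit 1120723565) (nat_lit 0) (nat_lit 1123524275) (nat_lit 76) (nat_lit 1123524275) (nat_lit 153) (nat_lit 3) (nat_lit 152) (nat_lit 1) (nat_lit 153) (nat_lit 1) (nat_lit 321) (nat_lit 322) (nat_lit 257)) (XT.nd (nat_lit 78) (nat_lit 0) (nat_lit 0) (XT.lf (nat_lit 152) (nat_lit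 3219845733) (nat_lit 0) (nat_lit 737999) (nat_lit 76) (nat_lit 737999) (nat_lit 152) (nat_lit 1) (nat_lit 150) (nat_lit 1) (nat_lit 151) (nat_lit 1) (nat_lit 322) (nat_lit 322) (nat_lit 256)) (XT.lf (nat_lit 0) (nat_lit 1022026653) (nat_lit 0) (nat_lit 1023868165) (nat_lit 152) (nat_lit 1022026653) (nat_lit 150) (nat_lit 3) (nat_lit 150) (nat_lit 1) (nat_lit 152) (nat_lit 1) (nat_lit 323) (nat_lit 322) (nat_lit 255)))) (XT.nd (nat_lit 78) (nat_lit 152) (nat_lit 0) (XT.lf (nat_lit 76) (nat_lit 975085650) (nat_lit 0) (nat_lit 976686964) (nat_lit 76) (nat_lit 976686964) (nat_lit 150) (nat_lit 3) (nat_lit 149) (nat_lit 1) (nat_lit 150) (nat_lit 1) (nat_lit 324) (nat_lit 322) (nat_lit 254)) (XT.nd (nat_lit 78) (nat_lit 0) (nat_lit 0) (XT.lf (nat_lit 152) (nat_lit 2800276757) (nat_lit 0) (nat_lit 421953) (nat_lit 76) (nat_lit 421953) (nat_lit 149) (nat_lit 1) (nat_lit 147) (nat_lit 1) (nat_lit 148) (nat_lit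 1) (nat_lit 325) (nat_lit 322) (nat_lit 253)) (XT.lf (nat_lit 0) (nat_lit 888892932) (nat_lit 0) (nat_lit 889945822) (nat_lit 152) (nat_lit 888892932) (nat_lit 147) (nat_lit 3) (nat_lit 147) (nat_lit 1) (nat_lit 149) (nat_lit 1) (nat_lit 326) (nat_lit 322) (nat_lit 252)))))) (XT.nd (nat_lit 468) (nat_lit 456) (nat_lit 0) (XT.nd (nat_lit 234) (nat_lit 228) (nat_lit 0) (XT.nd (nat_lit 78) (nat_lit 152) (nat_lit 0) (XT.lf (nat_lit 76) (nat_lit 848211266) (nat_lit 0) (nat_lit 849126823) (nat_lit 76) (nat_lit 849126823) (nat_lit 147) (nat_lit 3) (nat_lit 146) (nat_lit 1) (nat_lit 147) (nat_lit 1) (nat_lit 327) (nat_lit 322) (nat_lit 251)) (XT.nd (nat_lit 78) (nat_lit 0) (nat_lit 0) (XT.lf (nat_lit 152) (nat_lit 2435258202) (nat_lit 0) (nat_lit 241253) (nat_lit 76) (nat_lit 241253) (nat_lit 146) (nat_lit 1) (nat_lit 144) (nat_lit 1) (nat_lit 145) (nat_lit 1) (nat_lit 328) (nat_lit 322) (nat_lit 250))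 (XT.lf (nat_lit 0) (nat_lit 773049920) (nat_lit 0) (nat_lit 773651913) (nat_lit 152) (nat_lit 773049920) (nat_lit 144) (nat_lit 3) (nat_lit 144) (nat_lit 1) (nat_lit 146) (nat_lit 1) (nat_lit 329) (nat_lit 322) (nat_lit 249)))) (XT.nd (nat_lit 78) (nat_lit 152) (nat_lit 0) (XT.lf (nat_lit 76) (nat_lit 737752659) (nat_lit 0) (nat_lit 738276131) (nat_lit 76) (nat_lit 738276131) (nat_lit 144) (nat_lit 3) (nat_lit 143) (nat_lit 1) (nat_lit 144) (nat_lit 1) (nat_lit 330) (nat_lit 322) (nat_lit 248)) (XT.nd (nat_lit 78) (nat_lit 0) (nat_lit 0) (XT.lf (nat_lit 152) (nat_lit 2117750153) (nat_lit 0) (nat_lit 137937) (nat_lit 76) (nat_lit 137937) (nat_lit 143) (nat_lit 1) (nat_lit 141) (nat_lit 1) (nat_lit 142) (nat_lit 1) (nat_lit 331) (nat_lit 322) (nat_lit 247)) (XT.lf (nat_lit 0) (nat_lit 672274236) (nat_lit 0) (nat_lit 672618428) (nat_lit 152) (nat_lit 672274236) (nat_lit 141) (nat_lit 3) (nat_lit 141)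 (nat_lit 1) (nat_lit 143) (nat_lit 1) (nat_lit 332) (nat_lit 322) (nat_lit 246))))) (XT.nd (nat_lit 234) (nat_lit 228) (nat_lit 0) (XT.nd (nat_lit 78) (nat_lit 152) (nat_lit 0) (XT.lf (nat_lit 76) (nat_lit 641625620) (nat_lit 0) (nat_lit 641924917) (nat_lit 76) (nat_lit 641924917) (nat_lit 141) (nat_lit 3) (nat_lit 140) (nat_lit 1) (nat_lit 141) (nat_lit 1) (nat_lit 333) (nat_lit 322) (nat_lit 245)) (XT.nd (nat_lit 78) (nat_lit 0) (nat_lit 0) (XT.lf (nat_lit 152) (nat_lit 1841598672) (nat_lit 0) (nat_lit 78866) (nat_lit 76) (nat_lit 78866) (nat_lit 140) (nat_lit 1) (nat_lit 138) (nat_lit 1) (nat_lit 139) (nat_lit 1) (nat_lit 334) (nat_lit 322) (nat_lit 244)) (XT.lf (nat_lit 0) (nat_lit 584618833) (nat_lit 0) (nat_lit 584815626) (nat_lit 152) (nat_lit 584618833) (nat_lit 138) (nat_lit 3) (nat_lit 138) (nat_lit 1) (nat_lit 140) (nat_lit 1) (nat_lit 335) (nat_lit 322) (nat_lit 243)))) (XT.nd (nat_lit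 78) (nat_lit 152) (nat_lit 0) (XT.lf (nat_lit 76) (nat_lit 557993394) (nat_lit 0) (nat_lit 558164518) (nat_lit 76) (nat_lit 558164518) (nat_lit 138) (nat_lit 3) (nat_lit 137) (nat_lit 1) (nat_lit 138) (nat_lit 1) (nat_lit 336) (nat_lit 322) (nat_lit 242)) (XT.nd (nat_lit 78) (nat_lit 0) (nat_lit 0) (XT.lf (nat_lit 152) (nat_lit 1601434061) (nat_lit 0) (nat_lit 45091) (nat_lit 76) (nat_lit 45091) (nat_lit 137) (nat_lit 1) (nat_lit 135) (nat_lit 1) (nat_lit 136) (nat_lit 1) (nat_lit 337) (nat_lit 322) (nat_lit 241)) (XT.lf (nat_lit 0) (nat_lit 508382808) (nat_lit 0) (nat_lit 508495325) (nat_lit 152) (nat_lit 508382808) (nat_lit 135) (nat_lit 3) (nat_lit 135) (nat_lit 1) (nat_lit 137) (nat_lit 1) (nat_lit 338) (nat_lit 322) (nat_lit 240))))))))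
noncomputable def ec70 : XT := (XT.nd (nat_lit 1716) (nat_lit 836) (nat_lit 0) (XT.nd (nat_lit 858) (nat_lit 760) (nat_lit 0) (XT.nd (nat_lit 390) (nat_lit 456) (nat_lit 0) (XT.nd (nat_lit 156) (nat_lit 228) (nat_lit 0) (XT.nd (nat_lit 78) (nat_lit 152) (nat_lit 0) (XT.lf (nat_lit 76) (nat_lit 485244850) (nat_lit 0) (nat_lit 485342691) (nat_lit 76) (nat_lit 485342691) (nat_lit 135) (nat_lit 3) (nat_lit 134) (nat_lit 1) (nat_lit 135) (nat_lit 1) (nat_lit 339) (nat_lit 322) (nat_lit 239)) (XT.lf (nat_lit 152) (nat_lit 1392576463) (nat_lit 0) (nat_lit 25781) (nat_lit 76) (nat_lit 25781) (nat_lit 134) (nat_lit 1) (nat_lit 132) (nat_lit 1) (nat_lit 133) (nat_lit 1) (nat_lit 340) (nat_lit 322) (nat_lit 238))) (XT.nd (nat_lit 78) (nat_lit 228) (nat_lit 0) (XT.lf (nat_lit 0) (nat_lit 442082645) (nat_lit 0) (nat_lit 442146977) (nat_lit 152) (nat_lit 442082645) (nat_lit 132) (nat_lit 3) (nat_lit 132) (nat_lit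 1) (nat_lit 134) (nat_lit 1) (nat_lit 341) (nat_lit 322) (nat_lit 237)) (XT.nd (nat_lit 78) (nat_lit 152) (nat_lit 0) (XT.lf (nat_lit 76) (nat_lit 421971027) (nat_lit 0) (nat_lit 422026968) (nat_lit 76) (nat_lit 422026968) (nat_lit 132) (nat_lit 3) (nat_lit 131) (nat_lit 1) (nat_lit 132) (nat_lit 1) (nat_lit 342) (nat_lit 322) (nat_lit 236)) (XT.lf (nat_lit 152) (nat_lit 1210950410) (nat_lit 0) (nat_lit 14740) (nat_lit 76) (nat_lit 14740) (nat_lit 131) (nat_lit 1) (nat_lit 129) (nat_lit 1) (nat_lit 130) (nat_lit 1) (nat_lit 343) (nat_lit 322) (nat_lit 235))))) (XT.nd (nat_lit 234) (nat_lit 228) (nat_lit 0) (XT.nd (nat_lit 78) (nat_lit 228) (nat_lit 0) (XT.lf (nat_lit 0) (nat_lit 384425773) (nat_lit 0) (nat_lit 384462555) (nat_lit 152) (nat_lit 384425773) (nat_lit 129) (nat_lit 3) (nat_lit 129) (nat_lit 1) (nat_lit 131) (nat_lit 1) (nat_lit 344) (nat_lit 322) (nat_lit 234)) (XT.nd (nat_lit 78) (nat_lit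 152) (nat_lit 0) (XT.lf (nat_lit 76) (nat_lit 366942182) (nat_lit 0) (nat_lit 366974166) (nat_lit 76) (nat_lit 366974166) (nat_lit 129) (nat_lit 3) (nat_lit 128) (nat_lit 1) (nat_lit 129) (nat_lit 1) (nat_lit 345) (nat_lit 322) (nat_lit 233)) (XT.lf (nat_lit 152) (nat_lit 1053008564) (nat_lit 0) (nat_lit 8428) (nat_lit 76) (nat_lit 8428) (nat_lit 128) (nat_lit 1) (nat_lit 126) (nat_lit 1) (nat_lit 127) (nat_lit 1) (nat_lit 346) (nat_lit 322) (nat_lit 232)))) (XT.nd (nat_lit 78) (nat_lit 228) (nat_lit 0) (XT.lf (nat_lit 0) (nat_lit 334286758) (nat_lit 0) (nat_lit 334307789) (nat_lit 152) (nat_lit 334286758) (nat_lit 126) (nat_lit 3) (nat_lit 126) (nat_lit 1) (nat_lit 128) (nat_lit 1) (nat_lit 347) (nat_lit 322) (nat_lit 231)) (XT.nd (nat_lit 78) (nat_lit 152) (nat_lit 0) (XT.lf (nat_lit 76) (nat_lit 319086364) (nat_lit 0) (nat_lit 319104651) (nat_lit 76) (nat_lit 319104651) (nat_lit 126) (nat_lit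 3) (nat_lit 125) (nat_lit 1) (nat_lit 126) (nat_lit 1) (nat_lit 348) (nat_lit 322) (nat_lit 230)) (XT.lf (nat_lit 152) (nat_lit 915664313) (nat_lit 0) (nat_lit 4818) (nat_lit 76) (nat_lit 4818) (nat_lit 125) (nat_lit 1) (nat_lit 123) (nat_lit 1) (nat_lit 124) (nat_lit 1) (nat_lit 349) (nat_lit 322) (nat_lit 229)))))) (XT.nd (nat_lit 390) (nat_lit 456) (nat_lit 0) (XT.nd (nat_lit 156) (nat_lit 228) (nat_lit 0) (XT.nd (nat_lit 78) (nat_lit 76) (nat_lit 0) (XT.lf (nat_lit 0) (nat_lit 290686126) (nat_lit 0) (nat_lit 290698150) (nat_lit 152) (nat_lit 290686126) (nat_lit 123) (nat_lit 3) (nat_lit 123) (nat_lit 1) (nat_lit 125) (nat_lit 1) (nat_lit 350) (nat_lit 322) (nat_lit 228)) (XT.lf (nat_lit 76) (nat_lit 277469952) (nat_lit 0) (nat_lit 277480408) (nat_lit 76) (nat_lit 277480408) (nat_lit 123) (nat_lit 3) (nat_lit 122) (nat_lit 1) (nat_lit 123) (nat_lit 1) (nat_lit 351) (nat_lit 322) (nat_lit 227)))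 (XT.nd (nat_lit 78) (nat_lit 76) (nat_lit 0) (XT.lf (nat_lit 152) (nat_lit 796232520) (nat_lit 0) (nat_lit 2755) (nat_lit 76) (nat_lit 2755) (nat_lit 122) (nat_lit 1) (nat_lit 120) (nat_lit 1) (nat_lit 121) (nat_lit 1) (nat_lit 352) (nat_lit 322) (nat_lit 226)) (XT.nd (nat_lit 78) (nat_lit 76) (nat_lit 0) (XT.lf (nat_lit 0) (nat_lit 252771681) (nat_lit 0) (nat_lit 252778556) (nat_lit 152) (nat_lit 252771681) (nat_lit 120) (nat_lit 3) (nat_lit 120) (nat_lit 1) (nat_lit 122) (nat_lit 1) (nat_lit 353) (nat_lit 322) (nat_lit 225)) (XT.lf (nat_lit 76) (nat_lit 241280248) (nat_lit 0) (nat_lit 241286226) (nat_lit 76) (nat_lit 241286226) (nat_lit 120) (nat_lit 3) (nat_lit 119) (nat_lit 1) (nat_lit 120) (nat_lit 1) (nat_lit 354) (nat_lit 322) (nat_lit 224))))) (XT.nd (nat_lit 234) (nat_lit 228) (nat_lit 0) (XT.nd (nat_lit 78) (nat_lit 76) (nat_lit 0) (XT.lf (nat_lit 152) (nat_lit 692377638) (nat_lit 0)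 (nat_lit 1575) (nat_lit 76) (nat_lit 1575) (nat_lit 119) (nat_lit 1) (nat_lit 117) (nat_lit 1) (nat_lit 118) (nat_lit 1) (nat_lit 355) (nat_lit 322) (nat_lit 223)) (XT.nd (nat_lit 78) (nat_lit 76) (nat_lit 0) (XT.lf (nat_lit 0) (nat_lit 219802112) (nat_lit 0) (nat_lit 219806042) (nat_lit 152) (nat_lit 219802112) (nat_lit 117) (nat_lit 3) (nat_lit 117) (nat_lit 1) (nat_lit 119) (nat_lit 1) (nat_lit 356) (nat_lit 322) (nat_lit 222)) (XT.lf (nat_lit 76) (nat_lit 209810071) (nat_lit 0) (nat_lit 209813489) (nat_lit 76) (nat_lit 209813489) (nat_lit 117) (nat_lit 3) (nat_lit 116) (nat_lit 1) (nat_lit 117) (nat_lit 1) (nat_lit 357) (nat_lit 322) (nat_lit 221)))) (XT.nd (nat_lit 78) (nat_lit 76) (nat_lit 0) (XT.lf (nat_lit 152) (nat_lit 602068389) (nat_lit 0) (nat_lit 900) (nat_lit 76) (nat_lit 900) (nat_lit 116) (nat_lit 1) (nat_lit 114) (nat_lit 1) (nat_lit 115) (nat_lit 1) (nat_lit 358) (nat_lit 322)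 (nat_lit 220)) (XT.nd (nat_lit 78) (nat_lit 76) (nat_lit 0) (XT.lf (nat_lit 0) (nat_lit 191132643) (nat_lit 0) (nat_lit 191134890) (nat_lit 152) (nat_lit 191132643) (nat_lit 114) (nat_lit 3) (nat_lit 114) (nat_lit 1) (nat_lit 116) (nat_lit 1) (nat_lit 359) (nat_lit 322) (nat_lit 219)) (XT.lf (nat_lit 76) (nat_lit 182444203) (nat_lit 0) (nat_lit 182446157) (nat_lit 76) (nat_lit 182446157) (nat_lit 114) (nat_lit 3) (nat_lit 113) (nat_lit 1) (nat_lit 114) (nat_lit 1) (nat_lit 360) (nat_lit 322) (nat_lit 218))))))) (XT.nd (nat_lit 38532) (nat_lit 0) (nat_lit 7904) (XT.nd (nat_lit 390) (nat_lit 456) (nat_lit 0) (XT.nd (nat_lit 156) (nat_lit 228) (nat_lit 0) (XT.nd (nat_lit 78) (nat_lit 0) (nat_lit 0) (XT.lf (nat_lit 152) (nat_lit 523538231) (nat_lit 0) (nat_lit 514) (nat_lit 76) (nat_lit 514) (nat_lit 113) (nat_lit 1) (nat_lit 111) (nat_lit 1) (nat_lit 112) (nat_lit 1) (nat_lit 361) (nat_lit 322) (nat_lit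 217)) (XT.lf (nat_lit 0) (nat_lit 166202510) (nat_lit 0) (nat_lit 166203795) (nat_lit 152) (nat_lit 166202510) (nat_lit 111) (nat_lit 3) (nat_lit 111) (nat_lit 1) (nat_lit 113) (nat_lit 1) (nat_lit 362) (nat_lit 322) (nat_lit 216))) (XT.nd (nat_lit 78) (nat_lit 152) (nat_lit 0) (XT.lf (nat_lit 76) (nat_lit 158647512) (nat_lit 0) (nat_lit 158648629) (nat_lit 76) (nat_lit 158648629) (nat_lit 111) (nat_lit 3) (nat_lit 110) (nat_lit 1) (nat_lit 111) (nat_lit 1) (nat_lit 363) (nat_lit 322) (nat_lit 215)) (XT.nd (nat_lit 78) (nat_lit 0) (nat_lit 0) (XT.lf (nat_lit 152) (nat_lit 455250922) (nat_lit 0) (nat_lit 294) (nat_lit 76) (nat_lit 294) (nat_lit 110) (nat_lit 1) (nat_lit 108) (nat_lit 1) (nat_lit 109) (nat_lit 1) (nat_lit 364) (nat_lit 322) (nat_lit 214)) (XT.lf (nat_lit 0) (nat_lit 144524043) (nat_lit 0) (nat_lit 144524778) (nat_lit 152) (nat_lit 144524043) (nat_lit 108) (nat_lit 3) (nat_lit 108)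 (nat_lit 1) (nat_lit 110) (nat_lit 1) (nat_lit 365) (nat_lit 322) (nat_lit 213))))) (XT.nd (nat_lit 234) (nat_lit 228) (nat_lit 0) (XT.nd (nat_lit 78) (nat_lit 152) (nat_lit 0) (XT.lf (nat_lit 76) (nat_lit 137954575) (nat_lit 0) (nat_lit 137955214) (nat_lit 76) (nat_lit 137955214) (nat_lit 108) (nat_lit 3) (nat_lit 107) (nat_lit 1) (nat_lit 108) (nat_lit 1) (nat_lit 366) (nat_lit 322) (nat_lit 212)) (XT.nd (nat_lit 78) (nat_lit 0) (nat_lit 0) (XT.lf (nat_lit 152) (nat_lit 395870531) (nat_lit 0) (nat_lit 168) (nat_lit 76) (nat_lit 168) (nat_lit 107) (nat_lit 1) (nat_lit 105) (nat_lit 1) (nat_lit 106) (nat_lit 1) (nat_lit 367) (nat_lit 322) (nat_lit 211)) (XT.lf (nat_lit 0) (nat_lit 125673151) (nat_lit 0) (nat_lit 125673571) (nat_lit 152) (nat_lit 125673151) (nat_lit 105) (nat_lit 3) (nat_lit 105) (nat_lit 1) (nat_lit 107) (nat_lit 1) (nat_lit 368) (nat_lit 322) (nat_lit 210)))) (XT.nd (nat_lit 78)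 (nat_lit 152) (nat_lit 0) (XT.lf (nat_lit 76) (nat_lit 119960624) (nat_lit 0) (nat_lit 119960989) (nat_lit 76) (nat_lit 119960989) (nat_lit 105) (nat_lit 3) (nat_lit 104) (nat_lit 1) (nat_lit 105) (nat_lit 1) (nat_lit 369) (nat_lit 322) (nat_lit 209)) (XT.nd (nat_lit 78) (nat_lit 0) (nat_lit 0) (XT.lf (nat_lit 152) (nat_lit 344235338) (nat_lit 0) (nat_lit 96) (nat_lit 76) (nat_lit 96) (nat_lit 104) (nat_lit 1) (nat_lit 102) (nat_lit 1) (nat_lit 103) (nat_lit 1) (nat_lit 370) (nat_lit 322) (nat_lit 208)) (XT.lf (nat_lit 0) (nat_lit 109281040) (nat_lit 0) (nat_lit 109281280) (nat_lit 152) (nat_lit 109281040) (nat_lit 102) (nat_lit 3) (nat_lit 102) (nat_lit 1) (nat_lit 104) (nat_lit 1) (nat_lit 371) (nat_lit 322) (nat_lit 207)))))) (XT.nd (nat_lit 390) (nat_lit 684) (nat_lit 0) (XT.nd (nat_lit 156) (nat_lit 0) (nat_lit 76) (XT.nd (nat_lit 78) (nat_lit 0) (nat_lit 0) (XT.lf (nat_lit 380) (nat_lit 17465248377)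 (nat_lit 0) (nat_lit 15469400333) (nat_lit 380) (nat_lit 17465248377) (nat_lit 220) (nat_lit 1) (nat_lit 215) (nat_lit 0) (nat_lit 220) (nat_lit 0) (nat_lit 254) (nat_lit 323) (nat_lit 323)) (XT.lf (nat_lit 380) (nat_lit 64601687198) (nat_lit 76) (nat_lit 14766245772) (nat_lit 0) (nat_lit 14766245772) (nat_lit 220) (nat_lit 1) (nat_lit 216) (nat_lit 1) (nat_lit 215) (nat_lit 0) (nat_lit 255) (nat_lit 323) (nat_lit 322))) (XT.nd (nat_lit 78) (nat_lit 0) (nat_lit 0) (XT.lf (nat_lit 380) (nat_lit 28476053271) (nat_lit 0) (nat_lit 30984632152) (nat_lit 304) (nat_lit 28476053271) (nat_lit 221) (nat_lit 1) (nat_lit 216) (nat_lit 1) (nat_lit 220) (nat_lit 1) (nat_lit 256) (nat_lit 323) (nat_lit 321)) (XT.nd (nat_lit 78) (nat_lit 0) (nat_lit 76) (XT.lf (nat_lit 380) (nat_lit 48891904907) (nat_lit 76) (nat_lit 16736026066) (nat_lit 0) (nat_lit 16736026066) (nat_lit 221) (nat_lit 1) (nat_lit 217) (nat_lit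 1) (nat_lit 216) (nat_lit 1) (nat_lit 257) (nat_lit 323) (nat_lit 320)) (XT.lf (nat_lit 76) (nat_lit 19777423986) (nat_lit 0) (nat_lit 37659535548) (nat_lit 304) (nat_lit 19777423986) (nat_lit 218) (nat_lit 1) (nat_lit 217) (nat_lit 1) (nat_lit 221) (nat_lit 1) (nat_lit 258) (nat_lit 323) (nat_lit 319))))) (XT.nd (nat_lit 234) (nat_lit 380) (nat_lit 0) (XT.nd (nat_lit 78) (nat_lit 152) (nat_lit 0) (XT.lf (nat_lit 380) (nat_lit 29723870958) (nat_lit 0) (nat_lit 21394672333) (nat_lit 304) (nat_lit 21394672333) (nat_lit 218) (nat_lit 1) (nat_lit 213) (nat_lit 1) (nat_lit 217) (nat_lit 1) (nat_lit 259) (nat_lit 323) (nat_lit 318)) (XT.nd (nat_lit 78) (nat_lit 152) (nat_lit 0) (XT.lf (nat_lit 76) (nat_lit 9879886433) (nat_lit 0) (nat_lit 48480850358) (nat_lit 380) (nat_lit 9879886433) (nat_lit 214) (nat_lit 1) (nat_lit 213) (nat_lit 1) (nat_lit 218) (nat_lit 1) (nat_lit 260) (nat_lit 323) (nat_lit 317))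 (XT.lf (nat_lit 228) (nat_lit 8891664727) (nat_lit 0) (nat_lit 27673112443) (nat_lit 152) (nat_lit 27673112443) (nat_lit 214) (nat_lit 1) (nat_lit 211) (nat_lit 1) (nat_lit 213) (nat_lit 1) (nat_lit 261) (nat_lit 323) (nat_lit 316)))) (XT.nd (nat_lit 78) (nat_lit 152) (nat_lit 0) (XT.lf (nat_lit 228) (nat_lit 59751875090) (nat_lit 0) (nat_lit 468813877) (nat_lit 152) (nat_lit 468813877) (nat_lit 211) (nat_lit 1) (nat_lit 208) (nat_lit 1) (nat_lit 210) (nat_lit 1) (nat_lit 262) (nat_lit 323) (nat_lit 315)) (XT.nd (nat_lit 78) (nat_lit 152) (nat_lit 0) (XT.lf (nat_lit 76) (nat_lit 22957052330) (nat_lit 0) (nat_lit 11270690698) (nat_lit 228) (nat_lit 22957052330) (nat_lit 209) (nat_lit 1) (nat_lit 208) (nat_lit 1) (nat_lit 211) (nat_lit 1) (nat_lit 263) (nat_lit 323) (nat_lit 314)) (XT.lf (nat_lit 228) (nat_lit 33368956685) (nat_lit 0) (nat_lit 10350722335) (nat_lit 152) (nat_lit 10350722335) (nat_lit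 209) (nat_lit 1) (nat_lit 206) (nat_lit 1) (nat_lit 208) (nat_lit 1) (nat_lit 264) (nat_lit 323) (nat_lit 313))))))))
noncomputable def ec71 : XT := (XT.nd (nat_lit 1716) (nat_lit 1748) (nat_lit 0) (XT.nd (nat_lit 858) (nat_lit 760) (nat_lit 0) (XT.nd (nat_lit 390) (nat_lit 456) (nat_lit 0) (XT.nd (nat_lit 156) (nat_lit 304) (nat_lit 0) (XT.nd (nat_lit 78) (nat_lit 76) (nat_lit 0) (XT.lf (nat_lit 76) (nat_lit 10435567210) (nat_lit 0) (nat_lit 30283837634) (nat_lit 228) (nat_lit 10435567210) (nat_lit 207) (nat_lit 1) (nat_lit 206) (nat_lit 1) (nat_lit 209) (nat_lit 1) (nat_lit 265) (nat_lit 323) (nat_lit 312)) (XT.lf (nat_lit 152) (nat_lit 8626924814) (nat_lit 0) (nat_lit 19906671442) (nat_lit 76) (nat_lit 19906671442) (nat_lit 207) (nat_lit 1) (nat_lit 205) (nat_lit 1) (nat_lit 206) (nat_lit 1) (nat_lit 266) (nat_lit 323) (nat_lit 311))) (XT.nd (nat_lit 78) (nat_lit 76) (nat_lit 0) (XT.lf (nat_lit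 228) (nat_lit 43674564520) (nat_lit 0) (nat_lit 1160259506) (nat_lit 152) (nat_lit 1160259506) (nat_lit 205) (nat_lit 1) (nat_lit 202) (nat_lit 1) (nat_lit 204) (nat_lit 1) (nat_lit 267) (nat_lit 323) (nat_lit 310)) (XT.nd (nat_lit 78) (nat_lit 76) (nat_lit 0) (XT.lf (nat_lit 76) (nat_lit 15285158253) (nat_lit 0) (nat_lit 12980655093) (nat_lit 228) (nat_lit 15285158253) (nat_lit 203) (nat_lit 1) (nat_lit 202) (nat_lit 1) (nat_lit 205) (nat_lit 1) (nat_lit 268) (nat_lit 323) (nat_lit 309)) (XT.lf (nat_lit 152) (nat_lit 18585288455) (nat_lit 0) (nat_lit 11381704006) (nat_lit 76) (nat_lit 11381704006) (nat_lit 203) (nat_lit 1) (nat_lit 201) (nat_lit 1) (nat_lit 202) (nat_lit 1) (nat_lit 269) (nat_lit 323) (nat_lit 308))))) (XT.nd (nat_lit 234) (nat_lit 228) (nat_lit 0) (XT.nd (nat_lit 78) (nat_lit 228) (nat_lit 0) (XT.lf (nat_lit 0) (nat_lit 3639255598) (nat_lit 0) (nat_lit 32039726843) (nat_lit 152)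 (nat_lit 3639255598) (nat_lit 201) (nat_lit 3) (nat_lit 201) (nat_lit 1) (nat_lit 203) (nat_lit 1) (nat_lit 270) (nat_lit 323) (nat_lit 307)) (XT.nd (nat_lit 78) (nat_lit 76) (nat_lit 0) (XT.lf (nat_lit 76) (nat_lit 16842459562) (nat_lit 0) (nat_lit 3652838320) (nat_lit 152) (nat_lit 16842459562) (nat_lit 200) (nat_lit 1) (nat_lit 199) (nat_lit 1) (nat_lit 201) (nat_lit 1) (nat_lit 271) (nat_lit 323) (nat_lit 306)) (XT.lf (nat_lit 152) (nat_lit 22498213076) (nat_lit 0) (nat_lit 6507526205) (nat_lit 76) (nat_lit 6507526205) (nat_lit 200) (nat_lit 1) (nat_lit 198) (nat_lit 1) (nat_lit 199) (nat_lit 1) (nat_lit 272) (nat_lit 323) (nat_lit 305)))) (XT.nd (nat_lit 78) (nat_lit 228) (nat_lit 0) (XT.lf (nat_lit 0) (nat_lit 5849649559) (nat_lit 0) (nat_lit 22087711169) (nat_lit 152) (nat_lit 5849649559) (nat_lit 198) (nat_lit 3) (nat_lit 198) (nat_lit 1) (nat_lit 200) (nat_lit 1) (nat_lit 273) (nat_lit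 323) (nat_lit 304)) (XT.nd (nat_lit 78) (nat_lit 152) (nat_lit 0) (XT.lf (nat_lit 76) (nat_lit 1304952284) (nat_lit 0) (nat_lit 15425005858) (nat_lit 76) (nat_lit 15425005858) (nat_lit 198) (nat_lit 3) (nat_lit 197) (nat_lit 1) (nat_lit 198) (nat_lit 1) (nat_lit 274) (nat_lit 323) (nat_lit 303)) (XT.lf (nat_lit 152) (nat_lit 23186916851) (nat_lit 0) (nat_lit 3720699229) (nat_lit 76) (nat_lit 3720699229) (nat_lit 197) (nat_lit 1) (nat_lit 195) (nat_lit 1) (nat_lit 196) (nat_lit 1) (nat_lit 275) (nat_lit 323) (nat_lit 302)))))) (XT.nd (nat_lit 390) (nat_lit 456) (nat_lit 0) (XT.nd (nat_lit 156) (nat_lit 228) (nat_lit 0) (XT.nd (nat_lit 78) (nat_lit 76) (nat_lit 0) (XT.lf (nat_lit 0) (nat_lit 6621854694) (nat_lit 0) (nat_lit 15906019122) (nat_lit 152) (nat_lit 6621854694) (nat_lit 195) (nat_lit 3) (nat_lit 195) (nat_lit 1) (nat_lit 197) (nat_lit 1) (nat_lit 276) (nat_lit 323) (nat_lit 301)) (XT.lf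 (nat_lit 76) (nat_lit 3874441159) (nat_lit 0) (nat_lit 11947627619) (nat_lit 76) (nat_lit 11947627619) (nat_lit 195) (nat_lit 3) (nat_lit 194) (nat_lit 1) (nat_lit 195) (nat_lit 1) (nat_lit 277) (nat_lit 323) (nat_lit 300))) (XT.nd (nat_lit 78) (nat_lit 76) (nat_lit 0) (XT.lf (nat_lit 152) (nat_lit 22234143231) (nat_lit 0) (nat_lit 2127321860) (nat_lit 76) (nat_lit 2127321860) (nat_lit 194) (nat_lit 1) (nat_lit 192) (nat_lit 1) (nat_lit 193) (nat_lit 1) (nat_lit 278) (nat_lit 323) (nat_lit 299)) (XT.nd (nat_lit 78) (nat_lit 76) (nat_lit 0) (XT.lf (nat_lit 0) (nat_lit 6635891759) (nat_lit 0) (nat_lit 11944142903) (nat_lit 152) (nat_lit 6635891759) (nat_lit 192) (nat_lit 3) (nat_lit 192) (nat_lit 1) (nat_lit 194) (nat_lit 1) (nat_lit 279) (nat_lit 323) (nat_lit 298)) (XT.lf (nat_lit 76) (nat_lit 4935511661) (nat_lit 0) (nat_lit 9551382221) (nat_lit 76) (nat_lit 9551382221) (nat_lit 192) (nat_lit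 3) (nat_lit 191) (nat_lit 1) (nat_lit 192) (nat_lit 1) (nat_lit 280) (nat_lit 323) (nat_lit 297))))) (XT.nd (nat_lit 234) (nat_lit 228) (nat_lit 0) (XT.nd (nat_lit 78) (nat_lit 76) (nat_lit 0) (XT.lf (nat_lit 152) (nat_lit 20518485525) (nat_lit 0) (nat_lit 1216303177) (nat_lit 76) (nat_lit 1216303177) (nat_lit 191) (nat_lit 1) (nat_lit 189) (nat_lit 1) (nat_lit 190) (nat_lit 1) (nat_lit 281) (nat_lit 323) (nat_lit 296)) (XT.nd (nat_lit 78) (nat_lit 76) (nat_lit 0) (XT.lf (nat_lit 0) (nat_lit 6272201212) (nat_lit 0) (nat_lit 9307211033) (nat_lit 152) (nat_lit 6272201212) (nat_lit 189) (nat_lit 3) (nat_lit 189) (nat_lit 1) (nat_lit 191) (nat_lit 1) (nat_lit 282) (nat_lit 323) (nat_lit 295)) (XT.lf (nat_lit 76) (nat_lit 5187362074) (nat_lit 0) (nat_lit 7826501048) (nat_lit 76) (nat_lit 7826501048) (nat_lit 189) (nat_lit 3) (nat_lit 188) (nat_lit 1) (nat_lit 189) (nat_lit 1) (nat_lit 283) (nat_lit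 323) (nat_lit 294)))) (XT.nd (nat_lit 78) (nat_lit 76) (nat_lit 0) (XT.lf (nat_lit 152) (nat_lit 18519373276) (nat_lit 0) (nat_lit 695425289) (nat_lit 76) (nat_lit 695425289) (nat_lit 188) (nat_lit 1) (nat_lit 186) (nat_lit 1) (nat_lit 187) (nat_lit 1) (nat_lit 284) (nat_lit 323) (nat_lit 293)) (XT.nd (nat_lit 78) (nat_lit 76) (nat_lit 0) (XT.lf (nat_lit 0) (nat_lit 5741028410) (nat_lit 0) (nat_lit 7476305125) (nat_lit 152) (nat_lit 5741028410) (nat_lit 186) (nat_lit 3) (nat_lit 186) (nat_lit 1) (nat_lit 188) (nat_lit 1) (nat_lit 285) (nat_lit 323) (nat_lit 292)) (XT.lf (nat_lit 76) (nat_lit 5022819157) (nat_lit 0) (nat_lit 6531755431) (nat_lit 76) (nat_lit 6531755431) (nat_lit 186) (nat_lit 3) (nat_lit 185) (nat_lit 1) (nat_lit 186) (nat_lit 1) (nat_lit 286) (nat_lit 323) (nat_lit 291))))))) (XT.nd (nat_lit 858) (nat_lit 912) (nat_lit 0) (XT.nd (nat_lit 390) (nat_lit 456) (nat_lit 0) (XT.nd (nat_lit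 156) (nat_lit 228) (nat_lit 0) (XT.nd (nat_lit 78) (nat_lit 0) (nat_lit 0) (XT.lf (nat_lit 152) (nat_lit 16491000979) (nat_lit 0) (nat_lit 397611666) (nat_lit 76) (nat_lit 397611666) (nat_lit 185) (nat_lit 1) (nat_lit 183) (nat_lit 1) (nat_lit 184) (nat_lit 1) (nat_lit 287) (nat_lit 323) (nat_lit 290)) (XT.lf (nat_lit 0) (nat_lit 5156257722) (nat_lit 0) (nat_lit 6148407816) (nat_lit 152) (nat_lit 5156257722) (nat_lit 183) (nat_lit 3) (nat_lit 183) (nat_lit 1) (nat_lit 185) (nat_lit 1) (nat_lit 288) (nat_lit 323) (nat_lit 289))) (XT.nd (nat_lit 78) (nat_lit 152) (nat_lit 0) (XT.lf (nat_lit 76) (nat_lit 4660446247) (nat_lit 0) (nat_lit 5523185459) (nat_lit 76) (nat_lit 5523185459) (nat_lit 183) (nat_lit 3) (nat_lit 182) (nat_lit 1) (nat_lit 183) (nat_lit 1) (nat_lit 289) (nat_lit 323) (nat_lit 288)) (XT.nd (nat_lit 78) (nat_lit 0) (nat_lit 0) (XT.lf (nat_lit 152) (nat_lit 14561382639) (nat_lit 0)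 (nat_lit 227335760) (nat_lit 76) (nat_lit 227335760) (nat_lit 182) (nat_lit 1) (nat_lit 180) (nat_lit 1) (nat_lit 181) (nat_lit 1) (nat_lit 290) (nat_lit 323) (nat_lit 287)) (XT.lf (nat_lit 0) (nat_lit 4577503693) (nat_lit 0) (nat_lit 5144768729) (nat_lit 152) (nat_lit 4577503693) (nat_lit 180) (nat_lit 3) (nat_lit 180) (nat_lit 1) (nat_lit 182) (nat_lit 1) (nat_lit 291) (nat_lit 323) (nat_lit 286))))) (XT.nd (nat_lit 234) (nat_lit 228) (nat_lit 0) (XT.nd (nat_lit 78) (nat_lit 152) (nat_lit 0) (XT.lf (nat_lit 76) (nat_lit 4219958390) (nat_lit 0) (nat_lit 4713232335) (nat_lit 76) (nat_lit 4713232335) (nat_lit 180) (nat_lit 3) (nat_lit 179) (nat_lit 1) (nat_lit 180) (nat_lit 1) (nat_lit 292) (nat_lit 323) (nat_lit 285)) (XT.nd (nat_lit 78) (nat_lit 0) (nat_lit 0) (XT.lf (nat_lit 152) (nat_lit 12788647616) (nat_lit 0) (nat_lit 129979959) (nat_lit 76) (nat_lit 129979959) (nat_lit 179) (nat_lit 1) (nat_lit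 177) (nat_lit 1) (nat_lit 178) (nat_lit 1) (nat_lit 293) (nat_lit 323) (nat_lit 284)) (XT.lf (nat_lit 0) (nat_lit 4034069206) (nat_lit 0) (nat_lit 4358404832) (nat_lit 152) (nat_lit 4034069206) (nat_lit 177) (nat_lit 3) (nat_lit 177) (nat_lit 1) (nat_lit 179) (nat_lit 1) (nat_lit 294) (nat_lit 323) (nat_lit 283)))) (XT.nd (nat_lit 78) (nat_lit 152) (nat_lit 0) (XT.lf (nat_lit 76) (nat_lit 3765238491) (nat_lit 0) (nat_lit 4047269470) (nat_lit 76) (nat_lit 4047269470) (nat_lit 177) (nat_lit 3) (nat_lit 176) (nat_lit 1) (nat_lit 177) (nat_lit 1) (nat_lit 295) (nat_lit 323) (nat_lit 282)) (XT.nd (nat_lit 78) (nat_lit 0) (nat_lit 0) (XT.lf (nat_lit 152) (nat_lit 11192933243) (nat_lit 0) (nat_lit 74316463) (nat_lit 76) (nat_lit 74316463) (nat_lit 176) (nat_lit 1) (nat_lit 174) (nat_lit 1) (nat_lit 175) (nat_lit 1) (nat_lit 296) (nat_lit 323) (nat_lit 281)) (XT.lf (nat_lit 0) (nat_lit 3538550086) (nat_lit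 0) (nat_lit 3723990033) (nat_lit 152) (nat_lit 3538550086) (nat_lit 174) (nat_lit 3) (nat_lit 174) (nat_lit 1) (nat_lit 176) (nat_lit 1) (nat_lit 297) (nat_lit 323) (nat_lit 280)))))) (XT.nd (nat_lit 468) (nat_lit 456) (nat_lit 0) (XT.nd (nat_lit 234) (nat_lit 228) (nat_lit 0) (XT.nd (nat_lit 78) (nat_lit 152) (nat_lit 0) (XT.lf (nat_lit 76) (nat_lit 3328842619) (nat_lit 0) (nat_lit 3490094747) (nat_lit 76) (nat_lit 3490094747) (nat_lit 174) (nat_lit 3) (nat_lit 173) (nat_lit 1) (nat_lit 174) (nat_lit 1) (nat_lit 298) (nat_lit 323) (nat_lit 279)) (XT.nd (nat_lit 78) (nat_lit 0) (nat_lit 0) (XT.lf (nat_lit 152) (nat_lit 9774363268) (nat_lit 0) (nat_lit 42490679) (nat_lit 76) (nat_lit 42490679) (nat_lit 173) (nat_lit 1) (nat_lit 171) (nat_lit 1) (nat_lit 172) (nat_lit 1) (nat_lit 299) (nat_lit 323) (nat_lit 278)) (XT.lf (nat_lit 0) (nat_lit 3094532213) (nat_lit 0) (nat_lit 3200558104) (nat_lit 152)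 (nat_lit 3094532213) (nat_lit 171) (nat_lit 3) (nat_lit 171) (nat_lit 1) (nat_lit 173) (nat_lit 1) (nat_lit 300) (nat_lit 323) (nat_lit 277)))) (XT.nd (nat_lit 78) (nat_lit 152) (nat_lit 0) (XT.lf (nat_lit 76) (nat_lit 2925933347) (nat_lit 0) (nat_lit 3018129774) (nat_lit 76) (nat_lit 3018129774) (nat_lit 171) (nat_lit 3) (nat_lit 170) (nat_lit 1) (nat_lit 171) (nat_lit 1) (nat_lit 301) (nat_lit 323) (nat_lit 276)) (XT.nd (nat_lit 78) (nat_lit 0) (nat_lit 0) (XT.lf (nat_lit 152) (nat_lit 8523104234) (nat_lit 0) (nat_lit 24294183) (nat_lit 76) (nat_lit 24294183) (nat_lit 170) (nat_lit 1) (nat_lit 168) (nat_lit 1) (nat_lit 169) (nat_lit 1) (nat_lit 302) (nat_lit 323) (nat_lit 275)) (XT.lf (nat_lit 0) (nat_lit 2700921634) (nat_lit 0) (nat_lit 2761542281) (nat_lit 152) (nat_lit 2700921634) (nat_lit 168) (nat_lit 3) (nat_lit 168) (nat_lit 1) (nat_lit 170) (nat_lit 1) (nat_lit 303) (nat_lit 323) (nat_lit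 274))))) (XT.nd (nat_lit 234) (nat_lit 228) (nat_lit 0) (XT.nd (nat_lit 78) (nat_lit 152) (nat_lit 0) (XT.lf (nat_lit 76) (nat_lit 2562178648) (nat_lit 0) (nat_lit 2614892255) (nat_lit 76) (nat_lit 2614892255) (nat_lit 168) (nat_lit 3) (nat_lit 167) (nat_lit 1) (nat_lit 168) (nat_lit 1) (nat_lit 304) (nat_lit 323) (nat_lit 273)) (XT.nd (nat_lit 78) (nat_lit 0) (nat_lit 0) (XT.lf (nat_lit 152) (nat_lit 7424921475) (nat_lit 0) (nat_lit 13890278) (nat_lit 76) (nat_lit 13890278) (nat_lit 167) (nat_lit 1) (nat_lit 165) (nat_lit 1) (nat_lit 166) (nat_lit 1) (nat_lit 305) (nat_lit 323) (nat_lit 272)) (XT.lf (nat_lit 0) (nat_lit 2354358795) (nat_lit 0) (nat_lit 2389018847) (nat_lit 152) (nat_lit 2354358795) (nat_lit 165) (nat_lit 3) (nat_lit 165) (nat_lit 1) (nat_lit 167) (nat_lit 1) (nat_lit 306) (nat_lit 323) (nat_lit 271)))) (XT.nd (nat_lit 78) (nat_lit 152) (nat_lit 0) (XT.lf (nat_lit 76) (nat_lit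 2238209402) (nat_lit 0) (nat_lit 2268348578) (nat_lit 76) (nat_lit 2268348578) (nat_lit 165) (nat_lit 3) (nat_lit 164) (nat_lit 1) (nat_lit 165) (nat_lit 1) (nat_lit 307) (nat_lit 323) (nat_lit 270)) (XT.nd (nat_lit 78) (nat_lit 0) (nat_lit 0) (XT.lf (nat_lit 152) (nat_lit 6464187270) (nat_lit 0) (nat_lit 7941811) (nat_lit 76) (nat_lit 7941811) (nat_lit 164) (nat_lit 1) (nat_lit 162) (nat_lit 1) (nat_lit 163) (nat_lit 1) (nat_lit 308) (nat_lit 323) (nat_lit 269)) (XT.lf (nat_lit 0) (nat_lit 2050545399) (nat_lit 0) (nat_lit 2070362396) (nat_lit 152) (nat_lit 2050545399) (nat_lit 162) (nat_lit 3) (nat_lit 162) (nat_lit 1) (nat_lit 164) (nat_lit 1) (nat_lit 309) (nat_lit 323) (nat_lit 268))))))))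
noncomputable def ec72 : XT := (XT.nd (nat_lit 1716) (nat_lit 1748) (nat_lit 0) (XT.nd (nat_lit 858) (nat_lit 760) (nat_lit 0) (XT.nd (nat_lit 390) (nat_lit 456) (nat_lit 0) (XT.nd (nat_lit 156) (nat_lit 228) (nat_lit 0) (XT.nd (nat_lit 78) (nat_lit 152) (nat_lit 0) (XT.lf (nat_lit 76) (nat_lit 1952116920) (nat_lit 0) (nat_lit 1969349091) (nat_lit 76) (nat_lit 1969349091) (nat_lit 162) (nat_lit 3) (nat_lit 161) (nat_lit 1) (nat_lit 162) (nat_lit 1) (nat_lit 310) (nat_lit 323) (nat_lit 267)) (XT.lf (nat_lit 152) (nat_lit 5625454242) (nat_lit 0) (nat_lit 4540756) (nat_lit 76) (nat_lit 4540756) (nat_lit 161) (nat_lit 1) (nat_lit 159) (nat_lit 1) (nat_lit 160) (nat_lit 1) (nat_lit 311) (nat_lit 323) (nat_lit 266))) (XT.nd (nat_lit 78) (nat_lit 228) (nat_lit 0) (XT.lf (nat_lit 0) (nat_lit 1784956524) (nat_lit 0) (nat_lit 1796286956) (nat_lit 152) (nat_lit 1784956524) (nat_lit 159) (nat_lit 3) (nat_lit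 159) (nat_lit 1) (nat_lit 161) (nat_lit 1) (nat_lit 312) (nat_lit 323) (nat_lit 265)) (XT.nd (nat_lit 78) (nat_lit 152) (nat_lit 0) (XT.lf (nat_lit 76) (nat_lit 1700836515) (nat_lit 0) (nat_lit 1710689065) (nat_lit 76) (nat_lit 1710689065) (nat_lit 159) (nat_lit 3) (nat_lit 158) (nat_lit 1) (nat_lit 159) (nat_lit 1) (nat_lit 313) (nat_lit 323) (nat_lit 264)) (XT.lf (nat_lit 152) (nat_lit 4894227538) (nat_lit 0) (nat_lit 2596192) (nat_lit 76) (nat_lit 2596192) (nat_lit 158) (nat_lit 1) (nat_lit 156) (nat_lit 1) (nat_lit 157) (nat_lit 1) (nat_lit 314) (nat_lit 323) (nat_lit 263))))) (XT.nd (nat_lit 234) (nat_lit 228) (nat_lit 0) (XT.nd (nat_lit 78) (nat_lit 228) (nat_lit 0) (XT.lf (nat_lit 0) (nat_lit 1553207326) (nat_lit 0) (nat_lit 1559685537) (nat_lit 152) (nat_lit 1553207326) (nat_lit 156) (nat_lit 3) (nat_lit 156) (nat_lit 1) (nat_lit 158) (nat_lit 1) (nat_lit 315) (nat_lit 323) (nat_lit 262))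 (XT.nd (nat_lit 78) (nat_lit 152) (nat_lit 0) (XT.lf (nat_lit 76) (nat_lit 1480899954) (nat_lit 0) (nat_lit 1486533182) (nat_lit 76) (nat_lit 1486533182) (nat_lit 156) (nat_lit 3) (nat_lit 155) (nat_lit 1) (nat_lit 156) (nat_lit 1) (nat_lit 316) (nat_lit 323) (nat_lit 261)) (XT.lf (nat_lit 152) (nat_lit 4257295538) (nat_lit 0) (nat_lit 1484381) (nat_lit 76) (nat_lit 1484381) (nat_lit 155) (nat_lit 1) (nat_lit 153) (nat_lit 1) (nat_lit 154) (nat_lit 1) (nat_lit 317) (nat_lit 323) (nat_lit 260)))) (XT.nd (nat_lit 78) (nat_lit 228) (nat_lit 0) (XT.lf (nat_lit 0) (nat_lit 1351227539) (nat_lit 0) (nat_lit 1354931477) (nat_lit 152) (nat_lit 1351227539) (nat_lit 153) (nat_lit 3) (nat_lit 153) (nat_lit 1) (nat_lit 155) (nat_lit 1) (nat_lit 318) (nat_lit 323) (nat_lit 259)) (XT.nd (nat_lit 78) (nat_lit 152) (nat_lit 0) (XT.lf (nat_lit 76) (nat_lit 1288832100) (nat_lit 0) (nat_lit 1292052916) (nat_lit 76)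 (nat_lit 1292052916) (nat_lit 153) (nat_lit 3) (nat_lit 152) (nat_lit 1) (nat_lit 153) (nat_lit 1) (nat_lit 319) (nat_lit 323) (nat_lit 258)) (XT.lf (nat_lit 152) (nat_lit 3702822592) (nat_lit 0) (nat_lit 848699) (nat_lit 76) (nat_lit 848699) (nat_lit 152) (nat_lit 1) (nat_lit 150) (nat_lit 1) (nat_lit 151) (nat_lit 1) (nat_lit 320) (nat_lit 323) (nat_lit 257)))))) (XT.nd (nat_lit 390) (nat_lit 456) (nat_lit 0) (XT.nd (nat_lit 156) (nat_lit 228) (nat_lit 0) (XT.nd (nat_lit 78) (nat_lit 76) (nat_lit 0) (XT.lf (nat_lit 0) (nat_lit 1175330652) (nat_lit 0) (nat_lit 1177448390) (nat_lit 152) (nat_lit 1175330652) (nat_lit 150) (nat_lit 3) (nat_lit 150) (nat_lit 1) (nat_lit 152) (nat_lit 1) (nat_lit 321) (nat_lit 323) (nat_lit 256)) (XT.lf (nat_lit 76) (nat_lit 1121348497) (nat_lit 0) (nat_lit 1123190009) (nat_lit 76) (nat_lit 1123190009) (nat_lit 150) (nat_lit 3) (nat_lit 149) (nat_lit 1) (nat_lit 150)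 (nat_lit 1) (nat_lit 322) (nat_lit 323) (nat_lit 255))) (XT.nd (nat_lit 78) (nat_lit 76) (nat_lit 0) (XT.lf (nat_lit 152) (nat_lit 3220318271) (nat_lit 0) (nat_lit 485246) (nat_lit 76) (nat_lit 485246) (nat_lit 149) (nat_lit 1) (nat_lit 147) (nat_lit 1) (nat_lit 148) (nat_lit 1) (nat_lit 323) (nat_lit 323) (nat_lit 254)) (XT.nd (nat_lit 78) (nat_lit 76) (nat_lit 0) (XT.lf (nat_lit 0) (nat_lit 1022226872) (nat_lit 0) (nat_lit 1023437696) (nat_lit 152) (nat_lit 1022226872) (nat_lit 147) (nat_lit 3) (nat_lit 147) (nat_lit 1) (nat_lit 149) (nat_lit 1) (nat_lit 324) (nat_lit 323) (nat_lit 253)) (XT.lf (nat_lit 76) (nat_lit 975442956) (nat_lit 0) (nat_lit 976495847) (nat_lit 76) (nat_lit 976495847) (nat_lit 147) (nat_lit 3) (nat_lit 146) (nat_lit 1) (nat_lit 147) (nat_lit 1) (nat_lit 325) (nat_lit 323) (nat_lit 252))))) (XT.nd (nat_lit 234) (nat_lit 228) (nat_lit 0) (XT.nd (nat_lit 78) (nat_lit 76) (nat_lit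 0) (XT.lf (nat_lit 152) (nat_lit 2800546932) (nat_lit 0) (nat_lit 277441) (nat_lit 76) (nat_lit 277441) (nat_lit 146) (nat_lit 1) (nat_lit 144) (nat_lit 1) (nat_lit 145) (nat_lit 1) (nat_lit 326) (nat_lit 323) (nat_lit 251)) (XT.nd (nat_lit 78) (nat_lit 76) (nat_lit 0) (XT.lf (nat_lit 0) (nat_lit 889007408) (nat_lit 0) (nat_lit 889699700) (nat_lit 152) (nat_lit 889007408) (nat_lit 144) (nat_lit 3) (nat_lit 144) (nat_lit 1) (nat_lit 146) (nat_lit 1) (nat_lit 327) (nat_lit 323) (nat_lit 250)) (XT.lf (nat_lit 76) (nat_lit 848415558) (nat_lit 0) (nat_lit 849017551) (nat_lit 76) (nat_lit 849017551) (nat_lit 144) (nat_lit 3) (nat_lit 143) (nat_lit 1) (nat_lit 144) (nat_lit 1) (nat_lit 328) (nat_lit 323) (nat_lit 249)))) (XT.nd (nat_lit 78) (nat_lit 76) (nat_lit 0) (XT.lf (nat_lit 152) (nat_lit 2435412676) (nat_lit 0) (nat_lit 158628) (nat_lit 76) (nat_lit 158628) (nat_lit 143) (nat_lit 1) (nat_lit 141)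 (nat_lit 1) (nat_lit 142) (nat_lit 1) (nat_lit 329) (nat_lit 323) (nat_lit 248)) (XT.nd (nat_lit 78) (nat_lit 76) (nat_lit 0) (XT.lf (nat_lit 0) (nat_lit 773115371) (nat_lit 0) (nat_lit 773511192) (nat_lit 152) (nat_lit 773115371) (nat_lit 141) (nat_lit 3) (nat_lit 141) (nat_lit 1) (nat_lit 143) (nat_lit 1) (nat_lit 330) (nat_lit 323) (nat_lit 247)) (XT.lf (nat_lit 76) (nat_lit 737869463) (nat_lit 0) (nat_lit 738213655) (nat_lit 76) (nat_lit 738213655) (nat_lit 141) (nat_lit 3) (nat_lit 140) (nat_lit 1) (nat_lit 141) (nat_lit 1) (nat_lit 331) (nat_lit 323) (nat_lit 246))))))) (XT.nd (nat_lit 858) (nat_lit 912) (nat_lit 0) (XT.nd (nat_lit 390) (nat_lit 456) (nat_lit 0) (XT.nd (nat_lit 156) (nat_lit 228) (nat_lit 0) (XT.nd (nat_lit 78) (nat_lit 0) (nat_lit 0) (XT.lf (nat_lit 152) (nat_lit 2117838473) (nat_lit 0) (nat_lit 90696) (nat_lit 76) (nat_lit 90696) (nat_lit 140) (nat_lit 1) (nat_lit 138)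 (nat_lit 1) (nat_lit 139) (nat_lit 1) (nat_lit 332) (nat_lit 323) (nat_lit 245)) (XT.lf (nat_lit 0) (nat_lit 672311658) (nat_lit 0) (nat_lit 672537970) (nat_lit 152) (nat_lit 672311658) (nat_lit 138) (nat_lit 3) (nat_lit 138) (nat_lit 1) (nat_lit 140) (nat_lit 1) (nat_lit 333) (nat_lit 323) (nat_lit 244))) (XT.nd (nat_lit 78) (nat_lit 152) (nat_lit 0) (XT.lf (nat_lit 76) (nat_lit 641692403) (nat_lit 0) (nat_lit 641889196) (nat_lit 76) (nat_lit 641889196) (nat_lit 138) (nat_lit 3) (nat_lit 137) (nat_lit 1) (nat_lit 138) (nat_lit 1) (nat_lit 334) (nat_lit 323) (nat_lit 243)) (XT.nd (nat_lit 78) (nat_lit 0) (nat_lit 0) (XT.lf (nat_lit 152) (nat_lit 1841649170) (nat_lit 0) (nat_lit 51855) (nat_lit 76) (nat_lit 51855) (nat_lit 137) (nat_lit 1) (nat_lit 135) (nat_lit 1) (nat_lit 136) (nat_lit 1) (nat_lit 335) (nat_lit 323) (nat_lit 242)) (XT.lf (nat_lit 0) (nat_lit 584640229) (nat_lit 0) (nat_lit 584769624)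 (nat_lit 152) (nat_lit 584640229) (nat_lit 135) (nat_lit 3) (nat_lit 135) (nat_lit 1) (nat_lit 137) (nat_lit 1) (nat_lit 336) (nat_lit 323) (nat_lit 241))))) (XT.nd (nat_lit 234) (nat_lit 228) (nat_lit 0) (XT.nd (nat_lit 78) (nat_lit 152) (nat_lit 0) (XT.lf (nat_lit 76) (nat_lit 558031577) (nat_lit 0) (nat_lit 558144094) (nat_lit 76) (nat_lit 558144094) (nat_lit 135) (nat_lit 3) (nat_lit 134) (nat_lit 1) (nat_lit 135) (nat_lit 1) (nat_lit 337) (nat_lit 323) (nat_lit 240)) (XT.nd (nat_lit 78) (nat_lit 0) (nat_lit 0) (XT.lf (nat_lit 152) (nat_lit 1601462933) (nat_lit 0) (nat_lit 29648) (nat_lit 76) (nat_lit 29648) (nat_lit 134) (nat_lit 1) (nat_lit 132) (nat_lit 1) (nat_lit 133) (nat_lit 1) (nat_lit 338) (nat_lit 323) (nat_lit 239)) (XT.lf (nat_lit 0) (nat_lit 508395041) (nat_lit 0) (nat_lit 508469023) (nat_lit 152) (nat_lit 508395041) (nat_lit 132) (nat_lit 3) (nat_lit 132) (nat_lit 1) (nat_lit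 134) (nat_lit 1) (nat_lit 339) (nat_lit 323) (nat_lit 238)))) (XT.nd (nat_lit 78) (nat_lit 152) (nat_lit 0) (XT.lf (nat_lit 76) (nat_lit 485266681) (nat_lit 0) (nat_lit 485331013) (nat_lit 76) (nat_lit 485331013) (nat_lit 132) (nat_lit 3) (nat_lit 131) (nat_lit 1) (nat_lit 132) (nat_lit 1) (nat_lit 340) (nat_lit 323) (nat_lit 237)) (XT.nd (nat_lit 78) (nat_lit 0) (nat_lit 0) (XT.lf (nat_lit 152) (nat_lit 1392592971) (nat_lit 0) (nat_lit 16951) (nat_lit 76) (nat_lit 16951) (nat_lit 131) (nat_lit 1) (nat_lit 129) (nat_lit 1) (nat_lit 130) (nat_lit 1) (nat_lit 341) (nat_lit 323) (nat_lit 236)) (XT.lf (nat_lit 0) (nat_lit 442089639) (nat_lit 0) (nat_lit 442131938) (nat_lit 152) (nat_lit 442089639) (nat_lit 129) (nat_lit 3) (nat_lit 129) (nat_lit 1) (nat_lit 131) (nat_lit 1) (nat_lit 342) (nat_lit 323) (nat_lit 235)))))) (XT.nd (nat_lit 390) (nat_lit 456) (nat_lit 0) (XT.nd (nat_lit 156) (nat_lit 228)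 (nat_lit 0) (XT.nd (nat_lit 78) (nat_lit 152) (nat_lit 0) (XT.lf (nat_lit 76) (nat_lit 421983509) (nat_lit 0) (nat_lit 422020291) (nat_lit 76) (nat_lit 422020291) (nat_lit 129) (nat_lit 3) (nat_lit 128) (nat_lit 1) (nat_lit 129) (nat_lit 1) (nat_lit 343) (nat_lit 323) (nat_lit 234)) (XT.lf (nat_lit 152) (nat_lit 1210959848) (nat_lit 0) (nat_lit 9692) (nat_lit 76) (nat_lit 9692) (nat_lit 128) (nat_lit 1) (nat_lit 126) (nat_lit 1) (nat_lit 127) (nat_lit 1) (nat_lit 344) (nat_lit 323) (nat_lit 233))) (XT.nd (nat_lit 78) (nat_lit 228) (nat_lit 0) (XT.lf (nat_lit 0) (nat_lit 384429772) (nat_lit 0) (nat_lit 384453957) (nat_lit 152) (nat_lit 384429772) (nat_lit 126) (nat_lit 3) (nat_lit 126) (nat_lit 1) (nat_lit 128) (nat_lit 1) (nat_lit 345) (nat_lit 323) (nat_lit 232)) (XT.nd (nat_lit 78) (nat_lit 152) (nat_lit 0) (XT.lf (nat_lit 76) (nat_lit 366949319) (nat_lit 0) (nat_lit 366970349) (nat_lit 76) (nat_lit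 366970349) (nat_lit 126) (nat_lit 3) (nat_lit 125) (nat_lit 1) (nat_lit 126) (nat_lit 1) (nat_lit 346) (nat_lit 323) (nat_lit 231)) (XT.lf (nat_lit 152) (nat_lit 1053013960) (nat_lit 0) (nat_lit 5541) (nat_lit 76) (nat_lit 5541) (nat_lit 125) (nat_lit 1) (nat_lit 123) (nat_lit 1) (nat_lit 124) (nat_lit 1) (nat_lit 347) (nat_lit 323) (nat_lit 230))))) (XT.nd (nat_lit 234) (nat_lit 228) (nat_lit 0) (XT.nd (nat_lit 78) (nat_lit 228) (nat_lit 0) (XT.lf (nat_lit 0) (nat_lit 334289045) (nat_lit 0) (nat_lit 334302873) (nat_lit 152) (nat_lit 334289045) (nat_lit 123) (nat_lit 3) (nat_lit 123) (nat_lit 1) (nat_lit 125) (nat_lit 1) (nat_lit 348) (nat_lit 323) (nat_lit 229)) (XT.nd (nat_lit 78) (nat_lit 152) (nat_lit 0) (XT.lf (nat_lit 76) (nat_lit 319090445) (nat_lit 0) (nat_lit 319102469) (nat_lit 76) (nat_lit 319102469) (nat_lit 123) (nat_lit 3) (nat_lit 122) (nat_lit 1) (nat_lit 123) (nat_lit 1) (nat_lit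 349) (nat_lit 323) (nat_lit 228)) (XT.lf (nat_lit 152) (nat_lit 915667398) (nat_lit 0) (nat_lit 3168) (nat_lit 76) (nat_lit 3168) (nat_lit 122) (nat_lit 1) (nat_lit 120) (nat_lit 1) (nat_lit 121) (nat_lit 1) (nat_lit 350) (nat_lit 323) (nat_lit 227)))) (XT.nd (nat_lit 78) (nat_lit 228) (nat_lit 0) (XT.lf (nat_lit 0) (nat_lit 290687433) (nat_lit 0) (nat_lit 290695339) (nat_lit 152) (nat_lit 290687433) (nat_lit 120) (nat_lit 3) (nat_lit 120) (nat_lit 1) (nat_lit 122) (nat_lit 1) (nat_lit 351) (nat_lit 323) (nat_lit 226)) (XT.nd (nat_lit 78) (nat_lit 152) (nat_lit 0) (XT.lf (nat_lit 76) (nat_lit 277472285) (nat_lit 0) (nat_lit 277479160) (nat_lit 76) (nat_lit 277479160) (nat_lit 120) (nat_lit 3) (nat_lit 119) (nat_lit 1) (nat_lit 120) (nat_lit 1) (nat_lit 352) (nat_lit 323) (nat_lit 225)) (XT.lf (nat_lit 152) (nat_lit 796234284) (nat_lit 0) (nat_lit 1811) (nat_lit 76) (nat_lit 1811) (nat_lit 119)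 (nat_lit 1) (nat_lit 117) (nat_lit 1) (nat_lit 118) (nat_lit 1) (nat_lit 353) (nat_lit 323) (nat_lit 224))))))))
noncomputable def ec73 : XT := (XT.nd (nat_lit 39234) (nat_lit 0) (nat_lit 6992) (XT.nd (nat_lit 858) (nat_lit 608) (nat_lit 0) (XT.nd (nat_lit 390) (nat_lit 456) (nat_lit 0) (XT.nd (nat_lit 156) (nat_lit 228) (nat_lit 0) (XT.nd (nat_lit 78) (nat_lit 76) (nat_lit 0) (XT.lf (nat_lit 0) (nat_lit 252772428) (nat_lit 0) (nat_lit 252776949) (nat_lit 152) (nat_lit 252772428) (nat_lit 117) (nat_lit 3) (nat_lit 117) (nat_lit 1) (nat_lit 119) (nat_lit 1) (nat_lit 354) (nat_lit 323) (nat_lit 223)) (XT.lf (nat_lit 76) (nat_lit 241281582) (nat_lit 0) (nat_lit 241285512) (nat_lit 76) (nat_lit 241285512) (nat_lit 117) (nat_lit 3) (nat_lit 116) (nat_lit 1) (nat_lit 117) (nat_lit 1) (nat_lit 355) (nat_lit 323) (nat_lit 222))) (XT.nd (nat_lit 78) (nat_lit 76) (nat_lit 0) (XT.lf (nat_lit 152) (nat_lit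 692378647) (nat_lit 0) (nat_lit 1035) (nat_lit 76) (nat_lit 1035) (nat_lit 116) (nat_lit 1) (nat_lit 114) (nat_lit 1) (nat_lit 115) (nat_lit 1) (nat_lit 356) (nat_lit 323) (nat_lit 221)) (XT.nd (nat_lit 78) (nat_lit 76) (nat_lit 0) (XT.lf (nat_lit 0) (nat_lit 219802539) (nat_lit 0) (nat_lit 219805124) (nat_lit 152) (nat_lit 219802539) (nat_lit 114) (nat_lit 3) (nat_lit 114) (nat_lit 1) (nat_lit 116) (nat_lit 1) (nat_lit 357) (nat_lit 323) (nat_lit 220)) (XT.lf (nat_lit 76) (nat_lit 209810833) (nat_lit 0) (nat_lit 209813081) (nat_lit 76) (nat_lit 209813081) (nat_lit 114) (nat_lit 3) (nat_lit 113) (nat_lit 1) (nat_lit 114) (nat_lit 1) (nat_lit 358) (nat_lit 323) (nat_lit 219))))) (XT.nd (nat_lit 234) (nat_lit 228) (nat_lit 0) (XT.nd (nat_lit 78) (nat_lit 76) (nat_lit 0) (XT.lf (nat_lit 152) (nat_lit 602068965) (nat_lit 0) (nat_lit 592) (nat_lit 76) (nat_lit 592) (nat_lit 113) (nat_lit 1) (nat_lit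 111) (nat_lit 1) (nat_lit 112) (nat_lit 1) (nat_lit 359) (nat_lit 323) (nat_lit 218)) (XT.nd (nat_lit 78) (nat_lit 76) (nat_lit 0) (XT.lf (nat_lit 0) (nat_lit 191132887) (nat_lit 0) (nat_lit 191134365) (nat_lit 152) (nat_lit 191132887) (nat_lit 111) (nat_lit 3) (nat_lit 111) (nat_lit 1) (nat_lit 113) (nat_lit 1) (nat_lit 360) (nat_lit 323) (nat_lit 217)) (XT.lf (nat_lit 76) (nat_lit 182444639) (nat_lit 0) (nat_lit 182445924) (nat_lit 76) (nat_lit 182445924) (nat_lit 111) (nat_lit 3) (nat_lit 110) (nat_lit 1) (nat_lit 111) (nat_lit 1) (nat_lit 361) (nat_lit 323) (nat_lit 216)))) (XT.nd (nat_lit 78) (nat_lit 76) (nat_lit 0) (XT.lf (nat_lit 152) (nat_lit 523538560) (nat_lit 0) (nat_lit 338) (nat_lit 76) (nat_lit 338) (nat_lit 110) (nat_lit 1) (nat_lit 108) (nat_lit 1) (nat_lit 109) (nat_lit 1) (nat_lit 362) (nat_lit 323) (nat_lit 215)) (XT.nd (nat_lit 78) (nat_lit 76) (nat_lit 0) (XT.lf (nat_lit 0)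 (nat_lit 166202650) (nat_lit 0) (nat_lit 166203495) (nat_lit 152) (nat_lit 166202650) (nat_lit 108) (nat_lit 3) (nat_lit 108) (nat_lit 1) (nat_lit 110) (nat_lit 1) (nat_lit 363) (nat_lit 323) (nat_lit 214)) (XT.lf (nat_lit 76) (nat_lit 158647761) (nat_lit 0) (nat_lit 158648496) (nat_lit 76) (nat_lit 158648496) (nat_lit 108) (nat_lit 3) (nat_lit 107) (nat_lit 1) (nat_lit 108) (nat_lit 1) (nat_lit 364) (nat_lit 323) (nat_lit 213)))))) (XT.nd (nat_lit 390) (nat_lit 228) (nat_lit 0) (XT.nd (nat_lit 156) (nat_lit 228) (nat_lit 0) (XT.nd (nat_lit 78) (nat_lit 0) (nat_lit 0) (XT.lf (nat_lit 152) (nat_lit 455251111) (nat_lit 0) (nat_lit 193) (nat_lit 76) (nat_lit 193) (nat_lit 107) (nat_lit 1) (nat_lit 105) (nat_lit 1) (nat_lit 106) (nat_lit 1) (nat_lit 365) (nat_lit 323) (nat_lit 212)) (XT.lf (nat_lit 0) (nat_lit 144524123) (nat_lit 0) (nat_lit 144524606) (nat_lit 152) (nat_lit 144524123) (nat_lit 105)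 (nat_lit 3) (nat_lit 105) (nat_lit 1) (nat_lit 107) (nat_lit 1) (nat_lit 366) (nat_lit 323) (nat_lit 211))) (XT.nd (nat_lit 78) (nat_lit 152) (nat_lit 0) (XT.lf (nat_lit 76) (nat_lit 137954718) (nat_lit 0) (nat_lit 137955138) (nat_lit 76) (nat_lit 137955138) (nat_lit 105) (nat_lit 3) (nat_lit 104) (nat_lit 1) (nat_lit 105) (nat_lit 1) (nat_lit 367) (nat_lit 323) (nat_lit 210)) (XT.nd (nat_lit 78) (nat_lit 0) (nat_lit 0) (XT.lf (nat_lit 152) (nat_lit 395870639) (nat_lit 0) (nat_lit 110) (nat_lit 76) (nat_lit 110) (nat_lit 104) (nat_lit 1) (nat_lit 102) (nat_lit 1) (nat_lit 103) (nat_lit 1) (nat_lit 368) (nat_lit 323) (nat_lit 209)) (XT.lf (nat_lit 0) (nat_lit 125673196) (nat_lit 0) (nat_lit 125673472) (nat_lit 152) (nat_lit 125673196) (nat_lit 102) (nat_lit 3) (nat_lit 102) (nat_lit 1) (nat_lit 104) (nat_lit 1) (nat_lit 369) (nat_lit 323) (nat_lit 208))))) (XT.nd (nat_lit 37752) (nat_lit 0) (nat_lit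 8816) (XT.nd (nat_lit 78) (nat_lit 152) (nat_lit 0) (XT.lf (nat_lit 76) (nat_lit 119960705) (nat_lit 0) (nat_lit 119960946) (nat_lit 76) (nat_lit 119960946) (nat_lit 102) (nat_lit 3) (nat_lit 101) (nat_lit 1) (nat_lit 102) (nat_lit 1) (nat_lit 370) (nat_lit 323) (nat_lit 207)) (XT.nd (nat_lit 37596) (nat_lit 0) (nat_lit 8816) (XT.lf (nat_lit 152) (nat_lit 344235400) (nat_lit 0) (nat_lit 63) (nat_lit 76) (nat_lit 63) (nat_lit 101) (nat_lit 1) (nat_lit 99) (nat_lit 1) (nat_lit 100) (nat_lit 1) (nat_lit 371) (nat_lit 323) (nat_lit 206)) (XT.lf (nat_lit 380) (nat_lit 20085035633) (nat_lit 0) (nat_lit 17789810383) (nat_lit 380) (nat_lit 20085035633) (nat_lit 220) (nat_lit 1) (nat_lit 215) (nat_lit 0) (nat_lit 220) (nat_lit 0) (nat_lit 252) (nat_lit 324) (nat_lit 324)))) (XT.nd (nat_lit 78) (nat_lit 0) (nat_lit 76) (XT.lf (nat_lit 380) (nat_lit 74291940278) (nat_lit 76) (nat_lit 16981182638) (nat_lit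 0) (nat_lit 16981182638) (nat_lit 220) (nat_lit 1) (nat_lit 216) (nat_lit 1) (nat_lit 215) (nat_lit 0) (nat_lit 253) (nat_lit 324) (nat_lit 323)) (XT.nd (nat_lit 78) (nat_lit 0) (nat_lit 0) (XT.lf (nat_lit 380) (nat_lit 32747461262) (nat_lit 0) (nat_lit 35632326974) (nat_lit 304) (nat_lit 32747461262) (nat_lit 221) (nat_lit 1) (nat_lit 216) (nat_lit 1) (nat_lit 220) (nat_lit 1) (nat_lit 254) (nat_lit 324) (nat_lit 322)) (XT.lf (nat_lit 380) (nat_lit 56225690644) (nat_lit 76) (nat_lit 19246429976) (nat_lit 0) (nat_lit 19246429976) (nat_lit 221) (nat_lit 1) (nat_lit 217) (nat_lit 1) (nat_lit 216) (nat_lit 1) (nat_lit 255) (nat_lit 324) (nat_lit 321))))))) (XT.nd (nat_lit 858) (nat_lit 836) (nat_lit 0) (XT.nd (nat_lit 390) (nat_lit 456) (nat_lit 0) (XT.nd (nat_lit 156) (nat_lit 380) (nat_lit 0) (XT.nd (nat_lit 78) (nat_lit 304) (nat_lit 0) (XT.lf (nat_lit 76) (nat_lit 22744037584) (nat_lit 0) (nat_lit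 43308465880) (nat_lit 304) (nat_lit 22744037584) (nat_lit 218) (nat_lit 1) (nat_lit 217) (nat_lit 1) (nat_lit 221) (nat_lit 1) (nat_lit 256) (nat_lit 324) (nat_lit 320)) (XT.lf (nat_lit 380) (nat_lit 34182451601) (nat_lit 0) (nat_lit 24603873183) (nat_lit 304) (nat_lit 24603873183) (nat_lit 218) (nat_lit 1) (nat_lit 213) (nat_lit 1) (nat_lit 217) (nat_lit 1) (nat_lit 257) (nat_lit 324) (nat_lit 319))) (XT.nd (nat_lit 78) (nat_lit 380) (nat_lit 0) (XT.lf (nat_lit 76) (nat_lit 11361869398) (nat_lit 0) (nat_lit 55752977911) (nat_lit 380) (nat_lit 11361869398) (nat_lit 214) (nat_lit 1) (nat_lit 213) (nat_lit 1) (nat_lit 218) (nat_lit 1) (nat_lit 258) (nat_lit 324) (nat_lit 318)) (XT.nd (nat_lit 78) (nat_lit 228) (nat_lit 0) (XT.lf (nat_lit 228) (nat_lit 10225414437) (nat_lit 0) (nat_lit 31824079309) (nat_lit 152) (nat_lit 31824079309) (nat_lit 214) (nat_lit 1) (nat_lit 211) (nat_lit 1) (nat_lit 213)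 (nat_lit 1) (nat_lit 259) (nat_lit 324) (nat_lit 317)) (XT.lf (nat_lit 228) (nat_lit 68714656354) (nat_lit 0) (nat_lit 539135958) (nat_lit 152) (nat_lit 539135958) (nat_lit 211) (nat_lit 1) (nat_lit 208) (nat_lit 1) (nat_lit 210) (nat_lit 1) (nat_lit 260) (nat_lit 324) (nat_lit 316))))) (XT.nd (nat_lit 234) (nat_lit 304) (nat_lit 0) (XT.nd (nat_lit 78) (nat_lit 152) (nat_lit 0) (XT.lf (nat_lit 76) (nat_lit 26400610179) (nat_lit 0) (nat_lit 12961294303) (nat_lit 228) (nat_lit 26400610179) (nat_lit 209) (nat_lit 1) (nat_lit 208) (nat_lit 1) (nat_lit 211) (nat_lit 1) (nat_lit 261) (nat_lit 324) (nat_lit 315)) (XT.nd (nat_lit 78) (nat_lit 0) (nat_lit 0) (XT.lf (nat_lit 228) (nat_lit 38374300188) (nat_lit 0) (nat_lit 11903330685) (nat_lit 152) (nat_lit 11903330685) (nat_lit 209) (nat_lit 1) (nat_lit 206) (nat_lit 1) (nat_lit 208) (nat_lit 1) (nat_lit 262) (nat_lit 324) (nat_lit 314)) (XT.lf (nat_lit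 76) (nat_lit 12000902292) (nat_lit 0) (nat_lit 34826413279) (nat_lit 228) (nat_lit 12000902292) (nat_lit 207) (nat_lit 1) (nat_lit 206) (nat_lit 1) (nat_lit 209) (nat_lit 1) (nat_lit 263) (nat_lit 324) (nat_lit 313)))) (XT.nd (nat_lit 78) (nat_lit 228) (nat_lit 0) (XT.lf (nat_lit 152) (nat_lit 9920963536) (nat_lit 0) (nat_lit 22892672159) (nat_lit 76) (nat_lit 22892672159) (nat_lit 207) (nat_lit 1) (nat_lit 205) (nat_lit 1) (nat_lit 206) (nat_lit 1) (nat_lit 264) (nat_lit 324) (nat_lit 312)) (XT.nd (nat_lit 78) (nat_lit 0) (nat_lit 0) (XT.lf (nat_lit 228) (nat_lit 50225749198) (nat_lit 0) (nat_lit 1334298432) (nat_lit 152) (nat_lit 1334298432) (nat_lit 205) (nat_lit 1) (nat_lit 202) (nat_lit 1) (nat_lit 204) (nat_lit 1) (nat_lit 265) (nat_lit 324) (nat_lit 311)) (XT.lf (nat_lit 76) (nat_lit 17577931990) (nat_lit 0) (nat_lit 14927753357) (nat_lit 228) (nat_lit 17577931990) (nat_lit 203) (nat_lit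 1) (nat_lit 202) (nat_lit 1) (nat_lit 205) (nat_lit 1) (nat_lit 266) (nat_lit 324) (nat_lit 310)))))) (XT.nd (nat_lit 468) (nat_lit 456) (nat_lit 0) (XT.nd (nat_lit 234) (nat_lit 152) (nat_lit 0) (XT.nd (nat_lit 78) (nat_lit 152) (nat_lit 0) (XT.lf (nat_lit 152) (nat_lit 21373081723) (nat_lit 0) (nat_lit 13088959607) (nat_lit 76) (nat_lit 13088959607) (nat_lit 203) (nat_lit 1) (nat_lit 201) (nat_lit 1) (nat_lit 202) (nat_lit 1) (nat_lit 267) (nat_lit 324) (nat_lit 309)) (XT.nd (nat_lit 78) (nat_lit 152) (nat_lit 0) (XT.lf (nat_lit 0) (nat_lit 4185143938) (nat_lit 0) (nat_lit 36845685869) (nat_lit 152) (nat_lit 4185143938) (nat_lit 201) (nat_lit 3) (nat_lit 201) (nat_lit 1) (nat_lit 203) (nat_lit 1) (nat_lit 268) (nat_lit 324) (nat_lit 308)) (XT.lf (nat_lit 76) (nat_lit 19368828497) (nat_lit 0) (nat_lit 4200764068) (nat_lit 152) (nat_lit 19368828497) (nat_lit 200) (nat_lit 1) (nat_lit 199) (nat_lit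 1) (nat_lit 201) (nat_lit 1) (nat_lit 269) (nat_lit 324) (nat_lit 307)))) (XT.nd (nat_lit 78) (nat_lit 76) (nat_lit 0) (XT.lf (nat_lit 152) (nat_lit 25872945037) (nat_lit 0) (nat_lit 7483655136) (nat_lit 76) (nat_lit 7483655136) (nat_lit 200) (nat_lit 1) (nat_lit 198) (nat_lit 1) (nat_lit 199) (nat_lit 1) (nat_lit 270) (nat_lit 324) (nat_lit 306)) (XT.nd (nat_lit 78) (nat_lit 76) (nat_lit 0) (XT.lf (nat_lit 0) (nat_lit 6727096993) (nat_lit 0) (nat_lit 25400867845) (nat_lit 152) (nat_lit 6727096993) (nat_lit 198) (nat_lit 3) (nat_lit 198) (nat_lit 1) (nat_lit 200) (nat_lit 1) (nat_lit 271) (nat_lit 324) (nat_lit 305)) (XT.lf (nat_lit 76) (nat_lit 1500695126) (nat_lit 0) (nat_lit 17738756737) (nat_lit 76) (nat_lit 17738756737) (nat_lit 198) (nat_lit 3) (nat_lit 197) (nat_lit 1) (nat_lit 198) (nat_lit 1) (nat_lit 272) (nat_lit 324) (nat_lit 304))))) (XT.nd (nat_lit 234) (nat_lit 228) (nat_lit 0) (XT.nd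 (nat_lit 78) (nat_lit 76) (nat_lit 0) (XT.lf (nat_lit 152) (nat_lit 26664954379) (nat_lit 0) (nat_lit 4278804113) (nat_lit 76) (nat_lit 4278804113) (nat_lit 197) (nat_lit 1) (nat_lit 195) (nat_lit 1) (nat_lit 196) (nat_lit 1) (nat_lit 273) (nat_lit 324) (nat_lit 303)) (XT.nd (nat_lit 78) (nat_lit 76) (nat_lit 0) (XT.lf (nat_lit 0) (nat_lit 7615132898) (nat_lit 0) (nat_lit 18291921990) (nat_lit 152) (nat_lit 7615132898) (nat_lit 195) (nat_lit 3) (nat_lit 195) (nat_lit 1) (nat_lit 197) (nat_lit 1) (nat_lit 274) (nat_lit 324) (nat_lit 302)) (XT.lf (nat_lit 76) (nat_lit 4455607333) (nat_lit 0) (nat_lit 13739771761) (nat_lit 76) (nat_lit 13739771761) (nat_lit 195) (nat_lit 3) (nat_lit 194) (nat_lit 1) (nat_lit 195) (nat_lit 1) (nat_lit 275) (nat_lit 324) (nat_lit 301)))) (XT.nd (nat_lit 78) (nat_lit 76) (nat_lit 0) (XT.lf (nat_lit 152) (nat_lit 25569264715) (nat_lit 0) (nat_lit 2446420139) (nat_lit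 76) (nat_lit 2446420139) (nat_lit 194) (nat_lit 1) (nat_lit 192) (nat_lit 1) (nat_lit 193) (nat_lit 1) (nat_lit 276) (nat_lit 324) (nat_lit 300)) (XT.nd (nat_lit 78) (nat_lit 76) (nat_lit 0) (XT.lf (nat_lit 0) (nat_lit 7631275523) (nat_lit 0) (nat_lit 13735764339) (nat_lit 152) (nat_lit 7631275523) (nat_lit 192) (nat_lit 3) (nat_lit 192) (nat_lit 1) (nat_lit 194) (nat_lit 1) (nat_lit 277) (nat_lit 324) (nat_lit 299)) (XT.lf (nat_lit 76) (nat_lit 5675838410) (nat_lit 0) (nat_lit 10984089554) (nat_lit 76) (nat_lit 10984089554) (nat_lit 192) (nat_lit 3) (nat_lit 191) (nat_lit 1) (nat_lit 192) (nat_lit 1) (nat_lit 278) (nat_lit 324) (nat_lit 298))))))))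
noncomputable def ec74 : XT := (XT.nd (nat_lit 1716) (nat_lit 1596) (nat_lit 0) (XT.nd (nat_lit 858) (nat_lit 912) (nat_lit 0) (XT.nd (nat_lit 390) (nat_lit 456) (nat_lit 0) (XT.nd (nat_lit 156) (nat_lit 228) (nat_lit 0) (XT.nd (nat_lit 78) (nat_lit 0) (nat_lit 0) (XT.lf (nat_lit 152) (nat_lit 23596258354) (nat_lit 0) (nat_lit 1398748654) (nat_lit 76) (nat_lit 1398748654) (nat_lit 191) (nat_lit 1) (nat_lit 189) (nat_lit 1) (nat_lit 190) (nat_lit 1) (nat_lit 279) (nat_lit 324) (nat_lit 297)) (XT.lf (nat_lit 0) (nat_lit 7213031394) (nat_lit 0) (nat_lit 10703292687) (nat_lit 152) (nat_lit 7213031394) (nat_lit 189) (nat_lit 3) (nat_lit 189) (nat_lit 1) (nat_lit 191) (nat_lit 1) (nat_lit 280) (nat_lit 324) (nat_lit 296))) (XT.nd (nat_lit 78) (nat_lit 152) (nat_lit 0) (XT.lf (nat_lit 76) (nat_lit 5965466385) (nat_lit 0) (nat_lit 9000476206) (nat_lit 76) (nat_lit 9000476206) (nat_lit 189) (nat_lit 3)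 (nat_lit 188) (nat_lit 1) (nat_lit 189) (nat_lit 1) (nat_lit 281) (nat_lit 324) (nat_lit 295)) (XT.nd (nat_lit 78) (nat_lit 0) (nat_lit 0) (XT.lf (nat_lit 152) (nat_lit 21297279268) (nat_lit 0) (nat_lit 799739083) (nat_lit 76) (nat_lit 799739083) (nat_lit 188) (nat_lit 1) (nat_lit 186) (nat_lit 1) (nat_lit 187) (nat_lit 1) (nat_lit 282) (nat_lit 324) (nat_lit 294)) (XT.lf (nat_lit 0) (nat_lit 6602182672) (nat_lit 0) (nat_lit 8597750894) (nat_lit 152) (nat_lit 6602182672) (nat_lit 186) (nat_lit 3) (nat_lit 186) (nat_lit 1) (nat_lit 188) (nat_lit 1) (nat_lit 283) (nat_lit 324) (nat_lit 293))))) (XT.nd (nat_lit 234) (nat_lit 228) (nat_lit 0) (XT.nd (nat_lit 78) (nat_lit 152) (nat_lit 0) (XT.lf (nat_lit 76) (nat_lit 5776242031) (nat_lit 0) (nat_lit 7511518746) (nat_lit 76) (nat_lit 7511518746) (nat_lit 186) (nat_lit 3) (nat_lit 185) (nat_lit 1) (nat_lit 186) (nat_lit 1) (nat_lit 284) (nat_lit 324)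 (nat_lit 292)) (XT.nd (nat_lit 78) (nat_lit 0) (nat_lit 0) (XT.lf (nat_lit 152) (nat_lit 18964651126) (nat_lit 0) (nat_lit 457253416) (nat_lit 76) (nat_lit 457253416) (nat_lit 185) (nat_lit 1) (nat_lit 183) (nat_lit 1) (nat_lit 184) (nat_lit 1) (nat_lit 285) (nat_lit 324) (nat_lit 291)) (XT.lf (nat_lit 0) (nat_lit 5929696381) (nat_lit 0) (nat_lit 7070668989) (nat_lit 152) (nat_lit 5929696381) (nat_lit 183) (nat_lit 3) (nat_lit 183) (nat_lit 1) (nat_lit 185) (nat_lit 1) (nat_lit 286) (nat_lit 324) (nat_lit 290)))) (XT.nd (nat_lit 78) (nat_lit 152) (nat_lit 0) (XT.lf (nat_lit 76) (nat_lit 5359513184) (nat_lit 0) (nat_lit 6351663277) (nat_lit 76) (nat_lit 6351663277) (nat_lit 183) (nat_lit 3) (nat_lit 182) (nat_lit 1) (nat_lit 183) (nat_lit 1) (nat_lit 287) (nat_lit 324) (nat_lit 289)) (XT.nd (nat_lit 78) (nat_lit 0) (nat_lit 0) (XT.lf (nat_lit 152) (nat_lit 16745590035) (nat_lit 0) (nat_lit 261436124)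 (nat_lit 76) (nat_lit 261436124) (nat_lit 182) (nat_lit 1) (nat_lit 180) (nat_lit 1) (nat_lit 181) (nat_lit 1) (nat_lit 288) (nat_lit 324) (nat_lit 288)) (XT.lf (nat_lit 0) (nat_lit 5264129247) (nat_lit 0) (nat_lit 5916484039) (nat_lit 152) (nat_lit 5264129247) (nat_lit 180) (nat_lit 3) (nat_lit 180) (nat_lit 1) (nat_lit 182) (nat_lit 1) (nat_lit 289) (nat_lit 324) (nat_lit 287)))))) (XT.nd (nat_lit 390) (nat_lit 456) (nat_lit 0) (XT.nd (nat_lit 156) (nat_lit 228) (nat_lit 0) (XT.nd (nat_lit 78) (nat_lit 152) (nat_lit 0) (XT.lf (nat_lit 76) (nat_lit 4852952149) (nat_lit 0) (nat_lit 5420217185) (nat_lit 76) (nat_lit 5420217185) (nat_lit 180) (nat_lit 3) (nat_lit 179) (nat_lit 1) (nat_lit 180) (nat_lit 1) (nat_lit 290) (nat_lit 324) (nat_lit 286)) (XT.lf (nat_lit 152) (nat_lit 14706944758) (nat_lit 0) (nat_lit 149476952) (nat_lit 76) (nat_lit 149476952) (nat_lit 179) (nat_lit 1) (nat_lit 177) (nat_lit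 1) (nat_lit 178) (nat_lit 1) (nat_lit 291) (nat_lit 324) (nat_lit 285))) (XT.nd (nat_lit 78) (nat_lit 228) (nat_lit 0) (XT.lf (nat_lit 0) (nat_lit 4639179587) (nat_lit 0) (nat_lit 5012165557) (nat_lit 152) (nat_lit 4639179587) (nat_lit 177) (nat_lit 3) (nat_lit 177) (nat_lit 1) (nat_lit 179) (nat_lit 1) (nat_lit 292) (nat_lit 324) (nat_lit 284)) (XT.nd (nat_lit 78) (nat_lit 152) (nat_lit 0) (XT.lf (nat_lit 76) (nat_lit 4330024265) (nat_lit 0) (nat_lit 4654359890) (nat_lit 76) (nat_lit 4654359890) (nat_lit 177) (nat_lit 3) (nat_lit 176) (nat_lit 1) (nat_lit 177) (nat_lit 1) (nat_lit 293) (nat_lit 324) (nat_lit 283)) (XT.lf (nat_lit 152) (nat_lit 12871873230) (nat_lit 0) (nat_lit 85463932) (nat_lit 76) (nat_lit 85463932) (nat_lit 176) (nat_lit 1) (nat_lit 174) (nat_lit 1) (nat_lit 175) (nat_lit 1) (nat_lit 294) (nat_lit 324) (nat_lit 282))))) (XT.nd (nat_lit 234) (nat_lit 228) (nat_lit 0) (XT.nd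 (nat_lit 78) (nat_lit 228) (nat_lit 0) (XT.lf (nat_lit 0) (nat_lit 4069332599) (nat_lit 0) (nat_lit 4282588537) (nat_lit 152) (nat_lit 4069332599) (nat_lit 174) (nat_lit 3) (nat_lit 174) (nat_lit 1) (nat_lit 176) (nat_lit 1) (nat_lit 295) (nat_lit 324) (nat_lit 281)) (XT.nd (nat_lit 78) (nat_lit 152) (nat_lit 0) (XT.lf (nat_lit 76) (nat_lit 3828169012) (nat_lit 0) (nat_lit 4013608959) (nat_lit 76) (nat_lit 4013608959) (nat_lit 174) (nat_lit 3) (nat_lit 173) (nat_lit 1) (nat_lit 174) (nat_lit 1) (nat_lit 296) (nat_lit 324) (nat_lit 280)) (XT.lf (nat_lit 152) (nat_lit 11240517758) (nat_lit 0) (nat_lit 48864281) (nat_lit 76) (nat_lit 48864281) (nat_lit 173) (nat_lit 1) (nat_lit 171) (nat_lit 1) (nat_lit 172) (nat_lit 1) (nat_lit 297) (nat_lit 324) (nat_lit 279)))) (XT.nd (nat_lit 78) (nat_lit 228) (nat_lit 0) (XT.lf (nat_lit 0) (nat_lit 3558712045) (nat_lit 0) (nat_lit 3680641820) (nat_lit 152) (nat_lit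 3558712045) (nat_lit 171) (nat_lit 3) (nat_lit 171) (nat_lit 1) (nat_lit 173) (nat_lit 1) (nat_lit 298) (nat_lit 324) (nat_lit 278)) (XT.nd (nat_lit 78) (nat_lit 152) (nat_lit 0) (XT.lf (nat_lit 76) (nat_lit 3364823349) (nat_lit 0) (nat_lit 3470849240) (nat_lit 76) (nat_lit 3470849240) (nat_lit 171) (nat_lit 3) (nat_lit 170) (nat_lit 1) (nat_lit 171) (nat_lit 1) (nat_lit 299) (nat_lit 324) (nat_lit 277)) (XT.lf (nat_lit 152) (nat_lit 9801569869) (nat_lit 0) (nat_lit 27938311) (nat_lit 76) (nat_lit 27938311) (nat_lit 170) (nat_lit 1) (nat_lit 168) (nat_lit 1) (nat_lit 169) (nat_lit 1) (nat_lit 300) (nat_lit 324) (nat_lit 276))))))) (XT.nd (nat_lit 858) (nat_lit 836) (nat_lit 0) (XT.nd (nat_lit 390) (nat_lit 456) (nat_lit 0) (XT.nd (nat_lit 156) (nat_lit 228) (nat_lit 0) (XT.nd (nat_lit 78) (nat_lit 76) (nat_lit 0) (XT.lf (nat_lit 0) (nat_lit 3106059879) (nat_lit 0) (nat_lit 3175773623) (nat_lit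 152) (nat_lit 3106059879) (nat_lit 168) (nat_lit 3) (nat_lit 168) (nat_lit 1) (nat_lit 170) (nat_lit 1) (nat_lit 301) (nat_lit 324) (nat_lit 275)) (XT.lf (nat_lit 76) (nat_lit 2946505446) (nat_lit 0) (nat_lit 3007126093) (nat_lit 76) (nat_lit 3007126093) (nat_lit 168) (nat_lit 3) (nat_lit 167) (nat_lit 1) (nat_lit 168) (nat_lit 1) (nat_lit 302) (nat_lit 324) (nat_lit 274))) (XT.nd (nat_lit 78) (nat_lit 76) (nat_lit 0) (XT.lf (nat_lit 152) (nat_lit 8538659696) (nat_lit 0) (nat_lit 15973820) (nat_lit 76) (nat_lit 15973820) (nat_lit 167) (nat_lit 1) (nat_lit 165) (nat_lit 1) (nat_lit 166) (nat_lit 1) (nat_lit 303) (nat_lit 324) (nat_lit 273)) (XT.nd (nat_lit 78) (nat_lit 76) (nat_lit 0) (XT.lf (nat_lit 0) (nat_lit 2707512614) (nat_lit 0) (nat_lit 2747371674) (nat_lit 152) (nat_lit 2707512614) (nat_lit 165) (nat_lit 3) (nat_lit 165) (nat_lit 1) (nat_lit 167) (nat_lit 1) (nat_lit 304) (nat_lit 324)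 (nat_lit 272)) (XT.lf (nat_lit 76) (nat_lit 2573940813) (nat_lit 0) (nat_lit 2608600865) (nat_lit 76) (nat_lit 2608600865) (nat_lit 165) (nat_lit 3) (nat_lit 164) (nat_lit 1) (nat_lit 165) (nat_lit 1) (nat_lit 305) (nat_lit 324) (nat_lit 271))))) (XT.nd (nat_lit 234) (nat_lit 228) (nat_lit 0) (XT.nd (nat_lit 78) (nat_lit 76) (nat_lit 0) (XT.lf (nat_lit 152) (nat_lit 7433815361) (nat_lit 0) (nat_lit 9133083) (nat_lit 76) (nat_lit 9133083) (nat_lit 164) (nat_lit 1) (nat_lit 162) (nat_lit 1) (nat_lit 163) (nat_lit 1) (nat_lit 306) (nat_lit 324) (nat_lit 270)) (XT.nd (nat_lit 78) (nat_lit 76) (nat_lit 0) (XT.lf (nat_lit 0) (nat_lit 2358127209) (nat_lit 0) (nat_lit 2380916756) (nat_lit 152) (nat_lit 2358127209) (nat_lit 162) (nat_lit 3) (nat_lit 162) (nat_lit 1) (nat_lit 164) (nat_lit 1) (nat_lit 307) (nat_lit 324) (nat_lit 269)) (XT.lf (nat_lit 76) (nat_lit 2244934458) (nat_lit 0) (nat_lit 2264751455)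 (nat_lit 76) (nat_lit 2264751455) (nat_lit 162) (nat_lit 3) (nat_lit 161) (nat_lit 1) (nat_lit 162) (nat_lit 1) (nat_lit 308) (nat_lit 324) (nat_lit 268)))) (XT.nd (nat_lit 78) (nat_lit 76) (nat_lit 0) (XT.lf (nat_lit 152) (nat_lit 6469272378) (nat_lit 0) (nat_lit 5221870) (nat_lit 76) (nat_lit 5221870) (nat_lit 161) (nat_lit 1) (nat_lit 159) (nat_lit 1) (nat_lit 160) (nat_lit 1) (nat_lit 309) (nat_lit 324) (nat_lit 267)) (XT.nd (nat_lit 78) (nat_lit 76) (nat_lit 0) (XT.lf (nat_lit 0) (nat_lit 2052700002) (nat_lit 0) (nat_lit 2065729999) (nat_lit 152) (nat_lit 2052700002) (nat_lit 159) (nat_lit 3) (nat_lit 159) (nat_lit 1) (nat_lit 161) (nat_lit 1) (nat_lit 310) (nat_lit 324) (nat_lit 266)) (XT.lf (nat_lit 76) (nat_lit 1955961992) (nat_lit 0) (nat_lit 1967292425) (nat_lit 76) (nat_lit 1967292425) (nat_lit 159) (nat_lit 3) (nat_lit 158) (nat_lit 1) (nat_lit 159) (nat_lit 1) (nat_lit 311) (nat_lit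 324) (nat_lit 265)))))) (XT.nd (nat_lit 390) (nat_lit 456) (nat_lit 0) (XT.nd (nat_lit 156) (nat_lit 228) (nat_lit 0) (XT.nd (nat_lit 78) (nat_lit 0) (nat_lit 0) (XT.lf (nat_lit 152) (nat_lit 5628361669) (nat_lit 0) (nat_lit 2985621) (nat_lit 76) (nat_lit 2985621) (nat_lit 158) (nat_lit 1) (nat_lit 156) (nat_lit 1) (nat_lit 157) (nat_lit 1) (nat_lit 312) (nat_lit 324) (nat_lit 264)) (XT.lf (nat_lit 0) (nat_lit 1786188425) (nat_lit 0) (nat_lit 1793638368) (nat_lit 152) (nat_lit 1786188425) (nat_lit 156) (nat_lit 3) (nat_lit 156) (nat_lit 1) (nat_lit 158) (nat_lit 1) (nat_lit 313) (nat_lit 324) (nat_lit 263))) (XT.nd (nat_lit 78) (nat_lit 152) (nat_lit 0) (XT.lf (nat_lit 76) (nat_lit 1703034947) (nat_lit 0) (nat_lit 1709513159) (nat_lit 76) (nat_lit 1709513159) (nat_lit 156) (nat_lit 3) (nat_lit 155) (nat_lit 1) (nat_lit 156) (nat_lit 1) (nat_lit 314) (nat_lit 324) (nat_lit 262)) (XT.nd (nat_lit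 78) (nat_lit 0) (nat_lit 0) (XT.lf (nat_lit 152) (nat_lit 4895889869) (nat_lit 0) (nat_lit 1707038) (nat_lit 76) (nat_lit 1707038) (nat_lit 155) (nat_lit 1) (nat_lit 153) (nat_lit 1) (nat_lit 154) (nat_lit 1) (nat_lit 315) (nat_lit 324) (nat_lit 261)) (XT.lf (nat_lit 0) (nat_lit 1553911669) (nat_lit 0) (nat_lit 1558171199) (nat_lit 152) (nat_lit 1553911669) (nat_lit 153) (nat_lit 3) (nat_lit 153) (nat_lit 1) (nat_lit 155) (nat_lit 1) (nat_lit 316) (nat_lit 324) (nat_lit 260))))) (XT.nd (nat_lit 234) (nat_lit 228) (nat_lit 0) (XT.nd (nat_lit 78) (nat_lit 152) (nat_lit 0) (XT.lf (nat_lit 76) (nat_lit 1482156915) (nat_lit 0) (nat_lit 1485860854) (nat_lit 76) (nat_lit 1485860854) (nat_lit 153) (nat_lit 3) (nat_lit 152) (nat_lit 1) (nat_lit 153) (nat_lit 1) (nat_lit 317) (nat_lit 324) (nat_lit 259)) (XT.nd (nat_lit 78) (nat_lit 0) (nat_lit 0) (XT.lf (nat_lit 152) (nat_lit 4258245981) (nat_lit 0) (nat_lit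 976004) (nat_lit 76) (nat_lit 976004) (nat_lit 152) (nat_lit 1) (nat_lit 150) (nat_lit 1) (nat_lit 151) (nat_lit 1) (nat_lit 318) (nat_lit 324) (nat_lit 258)) (XT.lf (nat_lit 0) (nat_lit 1351630249) (nat_lit 0) (nat_lit 1354065649) (nat_lit 152) (nat_lit 1351630249) (nat_lit 150) (nat_lit 3) (nat_lit 150) (nat_lit 1) (nat_lit 152) (nat_lit 1) (nat_lit 319) (nat_lit 324) (nat_lit 257)))) (XT.nd (nat_lit 78) (nat_lit 152) (nat_lit 0) (XT.lf (nat_lit 76) (nat_lit 1289550772) (nat_lit 0) (nat_lit 1291668511) (nat_lit 76) (nat_lit 1291668511) (nat_lit 150) (nat_lit 3) (nat_lit 149) (nat_lit 1) (nat_lit 150) (nat_lit 1) (nat_lit 320) (nat_lit 324) (nat_lit 256)) (XT.nd (nat_lit 78) (nat_lit 0) (nat_lit 0) (XT.lf (nat_lit 152) (nat_lit 3703366011) (nat_lit 0) (nat_lit 558033) (nat_lit 76) (nat_lit 558033) (nat_lit 149) (nat_lit 1) (nat_lit 147) (nat_lit 1) (nat_lit 148) (nat_lit 1) (nat_lit 321) (nat_lit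 324) (nat_lit 255)) (XT.lf (nat_lit 0) (nat_lit 1175560903) (nat_lit 0) (nat_lit 1176953350) (nat_lit 152) (nat_lit 1175560903) (nat_lit 147) (nat_lit 3) (nat_lit 147) (nat_lit 1) (nat_lit 149) (nat_lit 1) (nat_lit 322) (nat_lit 324) (nat_lit 254))))))))
noncomputable def ec75 : XT := (XT.nd (nat_lit 1716) (nat_lit 1748) (nat_lit 0) (XT.nd (nat_lit 858) (nat_lit 760) (nat_lit 0) (XT.nd (nat_lit 390) (nat_lit 456) (nat_lit 0) (XT.nd (nat_lit 156) (nat_lit 228) (nat_lit 0) (XT.nd (nat_lit 78) (nat_lit 152) (nat_lit 0) (XT.lf (nat_lit 76) (nat_lit 1121759400) (nat_lit 0) (nat_lit 1122970224) (nat_lit 76) (nat_lit 1122970224) (nat_lit 147) (nat_lit 3) (nat_lit 146) (nat_lit 1) (nat_lit 147) (nat_lit 1) (nat_lit 323) (nat_lit 324) (nat_lit 253)) (XT.lf (nat_lit 152) (nat_lit 3220628972) (nat_lit 0) (nat_lit 319057) (nat_lit 76) (nat_lit 319057) (nat_lit 146) (nat_lit 1) (nat_lit 144) (nat_lit 1) (nat_lit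 145) (nat_lit 1) (nat_lit 324) (nat_lit 324) (nat_lit 252))) (XT.nd (nat_lit 78) (nat_lit 228) (nat_lit 0) (XT.lf (nat_lit 0) (nat_lit 1022358519) (nat_lit 0) (nat_lit 1023154655) (nat_lit 152) (nat_lit 1022358519) (nat_lit 144) (nat_lit 3) (nat_lit 144) (nat_lit 1) (nat_lit 146) (nat_lit 1) (nat_lit 325) (nat_lit 324) (nat_lit 251)) (XT.nd (nat_lit 78) (nat_lit 152) (nat_lit 0) (XT.lf (nat_lit 76) (nat_lit 975677891) (nat_lit 0) (nat_lit 976370184) (nat_lit 76) (nat_lit 976370184) (nat_lit 144) (nat_lit 3) (nat_lit 143) (nat_lit 1) (nat_lit 144) (nat_lit 1) (nat_lit 326) (nat_lit 324) (nat_lit 250)) (XT.lf (nat_lit 152) (nat_lit 2800724577) (nat_lit 0) (nat_lit 182422) (nat_lit 76) (nat_lit 182422) (nat_lit 143) (nat_lit 1) (nat_lit 141) (nat_lit 1) (nat_lit 142) (nat_lit 1) (nat_lit 327) (nat_lit 324) (nat_lit 249))))) (XT.nd (nat_lit 234) (nat_lit 228) (nat_lit 0) (XT.nd (nat_lit 78) (nat_lit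 228) (nat_lit 0) (XT.lf (nat_lit 0) (nat_lit 889082677) (nat_lit 0) (nat_lit 889537871) (nat_lit 152) (nat_lit 889082677) (nat_lit 141) (nat_lit 3) (nat_lit 141) (nat_lit 1) (nat_lit 143) (nat_lit 1) (nat_lit 328) (nat_lit 324) (nat_lit 248)) (XT.nd (nat_lit 78) (nat_lit 152) (nat_lit 0) (XT.lf (nat_lit 76) (nat_lit 848549882) (nat_lit 0) (nat_lit 848945703) (nat_lit 76) (nat_lit 848945703) (nat_lit 141) (nat_lit 3) (nat_lit 140) (nat_lit 1) (nat_lit 141) (nat_lit 1) (nat_lit 329) (nat_lit 324) (nat_lit 247)) (XT.lf (nat_lit 152) (nat_lit 2435514244) (nat_lit 0) (nat_lit 104300) (nat_lit 76) (nat_lit 104300) (nat_lit 140) (nat_lit 1) (nat_lit 138) (nat_lit 1) (nat_lit 139) (nat_lit 1) (nat_lit 330) (nat_lit 324) (nat_lit 246)))) (XT.nd (nat_lit 78) (nat_lit 228) (nat_lit 0) (XT.lf (nat_lit 0) (nat_lit 773158407) (nat_lit 0) (nat_lit 773418665) (nat_lit 152) (nat_lit 773158407) (nat_lit 138) (nat_lit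 3) (nat_lit 138) (nat_lit 1) (nat_lit 140) (nat_lit 1) (nat_lit 331) (nat_lit 324) (nat_lit 245)) (XT.nd (nat_lit 78) (nat_lit 152) (nat_lit 0) (XT.lf (nat_lit 76) (nat_lit 737946264) (nat_lit 0) (nat_lit 738172575) (nat_lit 76) (nat_lit 738172575) (nat_lit 138) (nat_lit 3) (nat_lit 137) (nat_lit 1) (nat_lit 138) (nat_lit 1) (nat_lit 332) (nat_lit 324) (nat_lit 244)) (XT.lf (nat_lit 152) (nat_lit 2117896546) (nat_lit 0) (nat_lit 59634) (nat_lit 76) (nat_lit 59634) (nat_lit 137) (nat_lit 1) (nat_lit 135) (nat_lit 1) (nat_lit 136) (nat_lit 1) (nat_lit 333) (nat_lit 324) (nat_lit 243)))))) (XT.nd (nat_lit 390) (nat_lit 456) (nat_lit 0) (XT.nd (nat_lit 156) (nat_lit 228) (nat_lit 0) (XT.nd (nat_lit 78) (nat_lit 76) (nat_lit 0) (XT.lf (nat_lit 0) (nat_lit 672336264) (nat_lit 0) (nat_lit 672485067) (nat_lit 152) (nat_lit 672336264) (nat_lit 135) (nat_lit 3) (nat_lit 135) (nat_lit 1) (nat_lit 137) (nat_lit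 1) (nat_lit 334) (nat_lit 324) (nat_lit 242)) (XT.lf (nat_lit 76) (nat_lit 641736314) (nat_lit 0) (nat_lit 641865709) (nat_lit 76) (nat_lit 641865709) (nat_lit 135) (nat_lit 3) (nat_lit 134) (nat_lit 1) (nat_lit 135) (nat_lit 1) (nat_lit 335) (nat_lit 324) (nat_lit 241))) (XT.nd (nat_lit 78) (nat_lit 76) (nat_lit 0) (XT.lf (nat_lit 152) (nat_lit 1841682373) (nat_lit 0) (nat_lit 34096) (nat_lit 76) (nat_lit 34096) (nat_lit 134) (nat_lit 1) (nat_lit 132) (nat_lit 1) (nat_lit 133) (nat_lit 1) (nat_lit 336) (nat_lit 324) (nat_lit 240)) (XT.nd (nat_lit 78) (nat_lit 76) (nat_lit 0) (XT.lf (nat_lit 0) (nat_lit 584654298) (nat_lit 0) (nat_lit 584739377) (nat_lit 152) (nat_lit 584654298) (nat_lit 132) (nat_lit 3) (nat_lit 132) (nat_lit 1) (nat_lit 134) (nat_lit 1) (nat_lit 337) (nat_lit 324) (nat_lit 239)) (XT.lf (nat_lit 76) (nat_lit 558056684) (nat_lit 0) (nat_lit 558130665) (nat_lit 76) (nat_lit 558130665)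 (nat_lit 132) (nat_lit 3) (nat_lit 131) (nat_lit 1) (nat_lit 132) (nat_lit 1) (nat_lit 338) (nat_lit 324) (nat_lit 238))))) (XT.nd (nat_lit 234) (nat_lit 228) (nat_lit 0) (XT.nd (nat_lit 78) (nat_lit 76) (nat_lit 0) (XT.lf (nat_lit 152) (nat_lit 1601481917) (nat_lit 0) (nat_lit 19494) (nat_lit 76) (nat_lit 19494) (nat_lit 131) (nat_lit 1) (nat_lit 129) (nat_lit 1) (nat_lit 130) (nat_lit 1) (nat_lit 339) (nat_lit 324) (nat_lit 237)) (XT.nd (nat_lit 78) (nat_lit 76) (nat_lit 0) (XT.lf (nat_lit 0) (nat_lit 508403085) (nat_lit 0) (nat_lit 508451729) (nat_lit 152) (nat_lit 508403085) (nat_lit 129) (nat_lit 3) (nat_lit 129) (nat_lit 1) (nat_lit 131) (nat_lit 1) (nat_lit 340) (nat_lit 324) (nat_lit 236)) (XT.lf (nat_lit 76) (nat_lit 485281036) (nat_lit 0) (nat_lit 485323335) (nat_lit 76) (nat_lit 485323335) (nat_lit 129) (nat_lit 3) (nat_lit 128) (nat_lit 1) (nat_lit 129) (nat_lit 1) (nat_lit 341) (nat_lit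 324) (nat_lit 235)))) (XT.nd (nat_lit 78) (nat_lit 76) (nat_lit 0) (XT.lf (nat_lit 152) (nat_lit 1392603825) (nat_lit 0) (nat_lit 11146) (nat_lit 76) (nat_lit 11146) (nat_lit 128) (nat_lit 1) (nat_lit 126) (nat_lit 1) (nat_lit 127) (nat_lit 1) (nat_lit 342) (nat_lit 324) (nat_lit 234)) (XT.nd (nat_lit 78) (nat_lit 76) (nat_lit 0) (XT.lf (nat_lit 0) (nat_lit 442094238) (nat_lit 0) (nat_lit 442122051) (nat_lit 152) (nat_lit 442094238) (nat_lit 126) (nat_lit 3) (nat_lit 126) (nat_lit 1) (nat_lit 128) (nat_lit 1) (nat_lit 343) (nat_lit 324) (nat_lit 233)) (XT.lf (nat_lit 76) (nat_lit 421991717) (nat_lit 0) (nat_lit 422015902) (nat_lit 76) (nat_lit 422015902) (nat_lit 126) (nat_lit 3) (nat_lit 125) (nat_lit 1) (nat_lit 126) (nat_lit 1) (nat_lit 344) (nat_lit 324) (nat_lit 232))))))) (XT.nd (nat_lit 858) (nat_lit 912) (nat_lit 0) (XT.nd (nat_lit 390) (nat_lit 456) (nat_lit 0) (XT.nd (nat_lit 156) (nat_lit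 228) (nat_lit 0) (XT.nd (nat_lit 78) (nat_lit 0) (nat_lit 0) (XT.lf (nat_lit 152) (nat_lit 1210966054) (nat_lit 0) (nat_lit 6372) (nat_lit 76) (nat_lit 6372) (nat_lit 125) (nat_lit 1) (nat_lit 123) (nat_lit 1) (nat_lit 124) (nat_lit 1) (nat_lit 345) (nat_lit 324) (nat_lit 231)) (XT.lf (nat_lit 0) (nat_lit 384432402) (nat_lit 0) (nat_lit 384448304) (nat_lit 152) (nat_lit 384432402) (nat_lit 123) (nat_lit 3) (nat_lit 123) (nat_lit 1) (nat_lit 125) (nat_lit 1) (nat_lit 346) (nat_lit 324) (nat_lit 230))) (XT.nd (nat_lit 78) (nat_lit 152) (nat_lit 0) (XT.lf (nat_lit 76) (nat_lit 366954011) (nat_lit 0) (nat_lit 366967839) (nat_lit 76) (nat_lit 366967839) (nat_lit 123) (nat_lit 3) (nat_lit 122) (nat_lit 1) (nat_lit 123) (nat_lit 1) (nat_lit 347) (nat_lit 324) (nat_lit 229)) (XT.nd (nat_lit 78) (nat_lit 0) (nat_lit 0) (XT.lf (nat_lit 152) (nat_lit 1053017508) (nat_lit 0) (nat_lit 3643) (nat_lit 76) (nat_lit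 3643) (nat_lit 122) (nat_lit 1) (nat_lit 120) (nat_lit 1) (nat_lit 121) (nat_lit 1) (nat_lit 348) (nat_lit 324) (nat_lit 228)) (XT.lf (nat_lit 0) (nat_lit 334290548) (nat_lit 0) (nat_lit 334299640) (nat_lit 152) (nat_lit 334290548) (nat_lit 120) (nat_lit 3) (nat_lit 120) (nat_lit 1) (nat_lit 122) (nat_lit 1) (nat_lit 349) (nat_lit 324) (nat_lit 227))))) (XT.nd (nat_lit 234) (nat_lit 228) (nat_lit 0) (XT.nd (nat_lit 78) (nat_lit 152) (nat_lit 0) (XT.lf (nat_lit 76) (nat_lit 319093128) (nat_lit 0) (nat_lit 319101034) (nat_lit 76) (nat_lit 319101034) (nat_lit 120) (nat_lit 3) (nat_lit 119) (nat_lit 1) (nat_lit 120) (nat_lit 1) (nat_lit 350) (nat_lit 324) (nat_lit 226)) (XT.nd (nat_lit 78) (nat_lit 0) (nat_lit 0) (XT.lf (nat_lit 152) (nat_lit 915669427) (nat_lit 0) (nat_lit 2083) (nat_lit 76) (nat_lit 2083) (nat_lit 119) (nat_lit 1) (nat_lit 117) (nat_lit 1) (nat_lit 118) (nat_lit 1) (nat_lit 351)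 (nat_lit 324) (nat_lit 225)) (XT.lf (nat_lit 0) (nat_lit 290688293) (nat_lit 0) (nat_lit 290693491) (nat_lit 152) (nat_lit 290688293) (nat_lit 117) (nat_lit 3) (nat_lit 117) (nat_lit 1) (nat_lit 119) (nat_lit 1) (nat_lit 352) (nat_lit 324) (nat_lit 224)))) (XT.nd (nat_lit 78) (nat_lit 152) (nat_lit 0) (XT.lf (nat_lit 76) (nat_lit 277473819) (nat_lit 0) (nat_lit 277478339) (nat_lit 76) (nat_lit 277478339) (nat_lit 117) (nat_lit 3) (nat_lit 116) (nat_lit 1) (nat_lit 117) (nat_lit 1) (nat_lit 353) (nat_lit 324) (nat_lit 223)) (XT.nd (nat_lit 78) (nat_lit 0) (nat_lit 0) (XT.lf (nat_lit 152) (nat_lit 796235444) (nat_lit 0) (nat_lit 1191) (nat_lit 76) (nat_lit 1191) (nat_lit 116) (nat_lit 1) (nat_lit 114) (nat_lit 1) (nat_lit 115) (nat_lit 1) (nat_lit 354) (nat_lit 324) (nat_lit 222)) (XT.lf (nat_lit 0) (nat_lit 252772920) (nat_lit 0) (nat_lit 252775892) (nat_lit 152) (nat_lit 252772920) (nat_lit 114)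 (nat_lit 3) (nat_lit 114) (nat_lit 1) (nat_lit 116) (nat_lit 1) (nat_lit 355) (nat_lit 324) (nat_lit 221)))))) (XT.nd (nat_lit 468) (nat_lit 456) (nat_lit 0) (XT.nd (nat_lit 234) (nat_lit 228) (nat_lit 0) (XT.nd (nat_lit 78) (nat_lit 152) (nat_lit 0) (XT.lf (nat_lit 76) (nat_lit 241282459) (nat_lit 0) (nat_lit 241285043) (nat_lit 76) (nat_lit 241285043) (nat_lit 114) (nat_lit 3) (nat_lit 113) (nat_lit 1) (nat_lit 114) (nat_lit 1) (nat_lit 356) (nat_lit 324) (nat_lit 220)) (XT.nd (nat_lit 78) (nat_lit 0) (nat_lit 0) (XT.lf (nat_lit 152) (nat_lit 692379310) (nat_lit 0) (nat_lit 681) (nat_lit 76) (nat_lit 681) (nat_lit 113) (nat_lit 1) (nat_lit 111) (nat_lit 1) (nat_lit 112) (nat_lit 1) (nat_lit 357) (nat_lit 324) (nat_lit 219)) (XT.lf (nat_lit 0) (nat_lit 219802820) (nat_lit 0) (nat_lit 219804519) (nat_lit 152) (nat_lit 219802820) (nat_lit 111) (nat_lit 3) (nat_lit 111) (nat_lit 1) (nat_lit 113)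 (nat_lit 1) (nat_lit 358) (nat_lit 324) (nat_lit 218)))) (XT.nd (nat_lit 78) (nat_lit 152) (nat_lit 0) (XT.lf (nat_lit 76) (nat_lit 209811335) (nat_lit 0) (nat_lit 209812813) (nat_lit 76) (nat_lit 209812813) (nat_lit 111) (nat_lit 3) (nat_lit 110) (nat_lit 1) (nat_lit 111) (nat_lit 1) (nat_lit 359) (nat_lit 324) (nat_lit 217)) (XT.nd (nat_lit 78) (nat_lit 0) (nat_lit 0) (XT.lf (nat_lit 152) (nat_lit 602069345) (nat_lit 0) (nat_lit 389) (nat_lit 76) (nat_lit 389) (nat_lit 110) (nat_lit 1) (nat_lit 108) (nat_lit 1) (nat_lit 109) (nat_lit 1) (nat_lit 360) (nat_lit 324) (nat_lit 216)) (XT.lf (nat_lit 0) (nat_lit 191133048) (nat_lit 0) (nat_lit 191134019) (nat_lit 152) (nat_lit 191133048) (nat_lit 108) (nat_lit 3) (nat_lit 108) (nat_lit 1) (nat_lit 110) (nat_lit 1) (nat_lit 361) (nat_lit 324) (nat_lit 215))))) (XT.nd (nat_lit 234) (nat_lit 228) (nat_lit 0) (XT.nd (nat_lit 78) (nat_lit 152) (nat_lit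 0) (XT.lf (nat_lit 76) (nat_lit 182444926) (nat_lit 0) (nat_lit 182445771) (nat_lit 76) (nat_lit 182445771) (nat_lit 108) (nat_lit 3) (nat_lit 107) (nat_lit 1) (nat_lit 108) (nat_lit 1) (nat_lit 362) (nat_lit 324) (nat_lit 214)) (XT.nd (nat_lit 78) (nat_lit 0) (nat_lit 0) (XT.lf (nat_lit 152) (nat_lit 523538777) (nat_lit 0) (nat_lit 222) (nat_lit 76) (nat_lit 222) (nat_lit 107) (nat_lit 1) (nat_lit 105) (nat_lit 1) (nat_lit 106) (nat_lit 1) (nat_lit 363) (nat_lit 324) (nat_lit 213)) (XT.lf (nat_lit 0) (nat_lit 166202742) (nat_lit 0) (nat_lit 166203297) (nat_lit 152) (nat_lit 166202742) (nat_lit 105) (nat_lit 3) (nat_lit 105) (nat_lit 1) (nat_lit 107) (nat_lit 1) (nat_lit 364) (nat_lit 324) (nat_lit 212)))) (XT.nd (nat_lit 78) (nat_lit 152) (nat_lit 0) (XT.lf (nat_lit 76) (nat_lit 158647925) (nat_lit 0) (nat_lit 158648408) (nat_lit 76) (nat_lit 158648408) (nat_lit 105) (nat_lit 3) (nat_lit 104)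 (nat_lit 1) (nat_lit 105) (nat_lit 1) (nat_lit 365) (nat_lit 324) (nat_lit 211)) (XT.nd (nat_lit 78) (nat_lit 0) (nat_lit 0) (XT.lf (nat_lit 152) (nat_lit 455251235) (nat_lit 0) (nat_lit 127) (nat_lit 76) (nat_lit 127) (nat_lit 104) (nat_lit 1) (nat_lit 102) (nat_lit 1) (nat_lit 103) (nat_lit 1) (nat_lit 366) (nat_lit 324) (nat_lit 210)) (XT.lf (nat_lit 0) (nat_lit 144524176) (nat_lit 0) (nat_lit 144524493) (nat_lit 152) (nat_lit 144524176) (nat_lit 102) (nat_lit 3) (nat_lit 102) (nat_lit 1) (nat_lit 104) (nat_lit 1) (nat_lit 367) (nat_lit 324) (nat_lit 209))))))))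
noncomputable def ec76 : XT := (XT.nd (nat_lit 39078) (nat_lit 0) (nat_lit 6004) (XT.nd (nat_lit 38220) (nat_lit 0) (nat_lit 7676) (XT.nd (nat_lit 37752) (nat_lit 0) (nat_lit 8740) (XT.nd (nat_lit 156) (nat_lit 76) (nat_lit 0) (XT.nd (nat_lit 78) (nat_lit 152) (nat_lit 0) (XT.lf (nat_lit 76) (nat_lit 137954811) (nat_lit 0) (nat_lit 137955088) (nat_lit 76) (nat_lit 137955088) (nat_lit 102) (nat_lit 3) (nat_lit 101) (nat_lit 1) (nat_lit 102) (nat_lit 1) (nat_lit 368) (nat_lit 324) (nat_lit 208)) (XT.lf (nat_lit 152) (nat_lit 395870710) (nat_lit 0) (nat_lit 72) (nat_lit 76) (nat_lit 72) (nat_lit 101) (nat_lit 1) (nat_lit 99) (nat_lit 1) (nat_lit 100) (nat_lit 1) (nat_lit 369) (nat_lit 324) (nat_lit 207))) (XT.nd (nat_lit 78) (nat_lit 76) (nat_lit 0) (XT.lf (nat_lit 0) (nat_lit 125673226) (nat_lit 0) (nat_lit 125673408) (nat_lit 152) (nat_lit 125673226) (nat_lit 99) (nat_lit 3) (nat_lit 99) (nat_lit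 1) (nat_lit 101) (nat_lit 1) (nat_lit 370) (nat_lit 324) (nat_lit 206)) (XT.nd (nat_lit 37440) (nat_lit 0) (nat_lit 8892) (XT.lf (nat_lit 76) (nat_lit 119960759) (nat_lit 0) (nat_lit 119960917) (nat_lit 76) (nat_lit 119960917) (nat_lit 99) (nat_lit 3) (nat_lit 98) (nat_lit 1) (nat_lit 99) (nat_lit 1) (nat_lit 371) (nat_lit 324) (nat_lit 205)) (XT.lf (nat_lit 380) (nat_lit 23097790979) (nat_lit 0) (nat_lit 20458281940) (nat_lit 380) (nat_lit 23097790979) (nat_lit 220) (nat_lit 1) (nat_lit 215) (nat_lit 0) (nat_lit 220) (nat_lit 0) (nat_lit 250) (nat_lit 325) (nat_lit 325))))) (XT.nd (nat_lit 234) (nat_lit 152) (nat_lit 0) (XT.nd (nat_lit 78) (nat_lit 0) (nat_lit 76) (XT.lf (nat_lit 380) (nat_lit 85435731319) (nat_lit 76) (nat_lit 19528360034) (nat_lit 0) (nat_lit 19528360034) (nat_lit 220) (nat_lit 1) (nat_lit 216) (nat_lit 1) (nat_lit 215) (nat_lit 0) (nat_lit 251) (nat_lit 325) (nat_lit 324))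 (XT.nd (nat_lit 78) (nat_lit 0) (nat_lit 0) (XT.lf (nat_lit 380) (nat_lit 37659580451) (nat_lit 0) (nat_lit 40977176021) (nat_lit 304) (nat_lit 37659580451) (nat_lit 221) (nat_lit 1) (nat_lit 216) (nat_lit 1) (nat_lit 220) (nat_lit 1) (nat_lit 252) (nat_lit 325) (nat_lit 323)) (XT.lf (nat_lit 380) (nat_lit 64659544240) (nat_lit 76) (nat_lit 22133394472) (nat_lit 0) (nat_lit 22133394472) (nat_lit 221) (nat_lit 1) (nat_lit 217) (nat_lit 1) (nat_lit 216) (nat_lit 1) (nat_lit 253) (nat_lit 325) (nat_lit 322)))) (XT.nd (nat_lit 78) (nat_lit 304) (nat_lit 0) (XT.lf (nat_lit 76) (nat_lit 26155643221) (nat_lit 0) (nat_lit 49804735762) (nat_lit 304) (nat_lit 26155643221) (nat_lit 218) (nat_lit 1) (nat_lit 217) (nat_lit 1) (nat_lit 221) (nat_lit 1) (nat_lit 254) (nat_lit 325) (nat_lit 321)) (XT.nd (nat_lit 78) (nat_lit 0) (nat_lit 0) (XT.lf (nat_lit 380) (nat_lit 39309819342) (nat_lit 0) (nat_lit 28294454160)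 (nat_lit 304) (nat_lit 28294454160) (nat_lit 218) (nat_lit 1) (nat_lit 213) (nat_lit 1) (nat_lit 217) (nat_lit 1) (nat_lit 255) (nat_lit 325) (nat_lit 320)) (XT.lf (nat_lit 76) (nat_lit 13066149808) (nat_lit 0) (nat_lit 64115924598) (nat_lit 380) (nat_lit 13066149808) (nat_lit 214) (nat_lit 1) (nat_lit 213) (nat_lit 1) (nat_lit 218) (nat_lit 1) (nat_lit 256) (nat_lit 325) (nat_lit 319)))))) (XT.nd (nat_lit 390) (nat_lit 532) (nat_lit 0) (XT.nd (nat_lit 156) (nat_lit 152) (nat_lit 0) (XT.nd (nat_lit 78) (nat_lit 228) (nat_lit 0) (XT.lf (nat_lit 228) (nat_lit 11759226602) (nat_lit 0) (nat_lit 36597691206) (nat_lit 152) (nat_lit 36597691206) (nat_lit 214) (nat_lit 1) (nat_lit 211) (nat_lit 1) (nat_lit 213) (nat_lit 1) (nat_lit 257) (nat_lit 325) (nat_lit 318)) (XT.lf (nat_lit 228) (nat_lit 79021854807) (nat_lit 0) (nat_lit 620006352) (nat_lit 152) (nat_lit 620006352) (nat_lit 211) (nat_lit 1) (nat_lit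 208) (nat_lit 1) (nat_lit 210) (nat_lit 1) (nat_lit 258) (nat_lit 325) (nat_lit 317))) (XT.nd (nat_lit 78) (nat_lit 152) (nat_lit 0) (XT.lf (nat_lit 76) (nat_lit 30360701706) (nat_lit 0) (nat_lit 14905488448) (nat_lit 228) (nat_lit 30360701706) (nat_lit 209) (nat_lit 1) (nat_lit 208) (nat_lit 1) (nat_lit 211) (nat_lit 1) (nat_lit 259) (nat_lit 325) (nat_lit 316)) (XT.nd (nat_lit 78) (nat_lit 0) (nat_lit 0) (XT.lf (nat_lit 228) (nat_lit 44130445216) (nat_lit 0) (nat_lit 13688830288) (nat_lit 152) (nat_lit 13688830288) (nat_lit 209) (nat_lit 1) (nat_lit 206) (nat_lit 1) (nat_lit 208) (nat_lit 1) (nat_lit 260) (nat_lit 325) (nat_lit 315)) (XT.lf (nat_lit 76) (nat_lit 13801037636) (nat_lit 0) (nat_lit 40050375271) (nat_lit 228) (nat_lit 13801037636) (nat_lit 207) (nat_lit 1) (nat_lit 206) (nat_lit 1) (nat_lit 209) (nat_lit 1) (nat_lit 261) (nat_lit 325) (nat_lit 314))))) (XT.nd (nat_lit 234) (nat_lit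 228) (nat_lit 0) (XT.nd (nat_lit 78) (nat_lit 228) (nat_lit 0) (XT.lf (nat_lit 152) (nat_lit 11409108066) (nat_lit 0) (nat_lit 26326572982) (nat_lit 76) (nat_lit 26326572982) (nat_lit 207) (nat_lit 1) (nat_lit 205) (nat_lit 1) (nat_lit 206) (nat_lit 1) (nat_lit 262) (nat_lit 325) (nat_lit 313)) (XT.nd (nat_lit 78) (nat_lit 0) (nat_lit 0) (XT.lf (nat_lit 228) (nat_lit 57759611578) (nat_lit 0) (nat_lit 1534443197) (nat_lit 152) (nat_lit 1534443197) (nat_lit 205) (nat_lit 1) (nat_lit 202) (nat_lit 1) (nat_lit 204) (nat_lit 1) (nat_lit 263) (nat_lit 325) (nat_lit 312)) (XT.lf (nat_lit 76) (nat_lit 20214621789) (nat_lit 0) (nat_lit 17166916361) (nat_lit 228) (nat_lit 20214621789) (nat_lit 203) (nat_lit 1) (nat_lit 202) (nat_lit 1) (nat_lit 205) (nat_lit 1) (nat_lit 264) (nat_lit 325) (nat_lit 311)))) (XT.nd (nat_lit 78) (nat_lit 152) (nat_lit 0) (XT.lf (nat_lit 152) (nat_lit 24579043982) (nat_lit 0)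 (nat_lit 15052303548) (nat_lit 76) (nat_lit 15052303548) (nat_lit 203) (nat_lit 1) (nat_lit 201) (nat_lit 1) (nat_lit 202) (nat_lit 1) (nat_lit 265) (nat_lit 325) (nat_lit 310)) (XT.nd (nat_lit 78) (nat_lit 152) (nat_lit 0) (XT.lf (nat_lit 0) (nat_lit 4812915529) (nat_lit 0) (nat_lit 42372538750) (nat_lit 152) (nat_lit 4812915529) (nat_lit 201) (nat_lit 3) (nat_lit 201) (nat_lit 1) (nat_lit 203) (nat_lit 1) (nat_lit 266) (nat_lit 325) (nat_lit 309)) (XT.lf (nat_lit 76) (nat_lit 22274152771) (nat_lit 0) (nat_lit 4830878678) (nat_lit 152) (nat_lit 22274152771) (nat_lit 200) (nat_lit 1) (nat_lit 199) (nat_lit 1) (nat_lit 201) (nat_lit 1) (nat_lit 267) (nat_lit 325) (nat_lit 308))))))) (XT.nd (nat_lit 858) (nat_lit 912) (nat_lit 0) (XT.nd (nat_lit 390) (nat_lit 456) (nat_lit 0) (XT.nd (nat_lit 156) (nat_lit 228) (nat_lit 0) (XT.nd (nat_lit 78) (nat_lit 0) (nat_lit 0) (XT.lf (nat_lit 152) (nat_lit 29753886793)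 (nat_lit 0) (nat_lit 8606203407) (nat_lit 76) (nat_lit 8606203407) (nat_lit 200) (nat_lit 1) (nat_lit 198) (nat_lit 1) (nat_lit 199) (nat_lit 1) (nat_lit 268) (nat_lit 325) (nat_lit 307)) (XT.lf (nat_lit 0) (nat_lit 7736161542) (nat_lit 0) (nat_lit 29210998021) (nat_lit 152) (nat_lit 7736161542) (nat_lit 198) (nat_lit 3) (nat_lit 198) (nat_lit 1) (nat_lit 200) (nat_lit 1) (nat_lit 269) (nat_lit 325) (nat_lit 306))) (XT.nd (nat_lit 78) (nat_lit 152) (nat_lit 0) (XT.lf (nat_lit 76) (nat_lit 1725799395) (nat_lit 0) (nat_lit 20399570247) (nat_lit 76) (nat_lit 20399570247) (nat_lit 198) (nat_lit 3) (nat_lit 197) (nat_lit 1) (nat_lit 198) (nat_lit 1) (nat_lit 270) (nat_lit 325) (nat_lit 305)) (XT.nd (nat_lit 78) (nat_lit 0) (nat_lit 0) (XT.lf (nat_lit 152) (nat_lit 30664697536) (nat_lit 0) (nat_lit 4920624730) (nat_lit 76) (nat_lit 4920624730) (nat_lit 197) (nat_lit 1) (nat_lit 195) (nat_lit 1) (nat_lit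 196) (nat_lit 1) (nat_lit 271) (nat_lit 325) (nat_lit 304)) (XT.lf (nat_lit 0) (nat_lit 8757402833) (nat_lit 0) (nat_lit 21035710289) (nat_lit 152) (nat_lit 8757402833) (nat_lit 195) (nat_lit 3) (nat_lit 195) (nat_lit 1) (nat_lit 197) (nat_lit 1) (nat_lit 272) (nat_lit 325) (nat_lit 303))))) (XT.nd (nat_lit 234) (nat_lit 228) (nat_lit 0) (XT.nd (nat_lit 78) (nat_lit 152) (nat_lit 0) (XT.lf (nat_lit 76) (nat_lit 5123948434) (nat_lit 0) (nat_lit 15800737526) (nat_lit 76) (nat_lit 15800737526) (nat_lit 195) (nat_lit 3) (nat_lit 194) (nat_lit 1) (nat_lit 195) (nat_lit 1) (nat_lit 273) (nat_lit 325) (nat_lit 302)) (XT.nd (nat_lit 78) (nat_lit 0) (nat_lit 0) (XT.lf (nat_lit 152) (nat_lit 29404654423) (nat_lit 0) (nat_lit 2813383159) (nat_lit 76) (nat_lit 2813383159) (nat_lit 194) (nat_lit 1) (nat_lit 192) (nat_lit 1) (nat_lit 193) (nat_lit 1) (nat_lit 274) (nat_lit 325) (nat_lit 301)) (XT.lf (nat_lit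 0) (nat_lit 8775966851) (nat_lit 0) (nat_lit 15796128990) (nat_lit 152) (nat_lit 8775966851) (nat_lit 192) (nat_lit 3) (nat_lit 192) (nat_lit 1) (nat_lit 194) (nat_lit 1) (nat_lit 275) (nat_lit 325) (nat_lit 300)))) (XT.nd (nat_lit 78) (nat_lit 152) (nat_lit 0) (XT.lf (nat_lit 76) (nat_lit 6527214172) (nat_lit 0) (nat_lit 12631702987) (nat_lit 76) (nat_lit 12631702987) (nat_lit 192) (nat_lit 3) (nat_lit 191) (nat_lit 1) (nat_lit 192) (nat_lit 1) (nat_lit 276) (nat_lit 325) (nat_lit 299)) (XT.nd (nat_lit 78) (nat_lit 0) (nat_lit 0) (XT.lf (nat_lit 152) (nat_lit 27135697107) (nat_lit 0) (nat_lit 1608560952) (nat_lit 76) (nat_lit 1608560952) (nat_lit 191) (nat_lit 1) (nat_lit 189) (nat_lit 1) (nat_lit 190) (nat_lit 1) (nat_lit 277) (nat_lit 325) (nat_lit 298)) (XT.lf (nat_lit 0) (nat_lit 8294986104) (nat_lit 0) (nat_lit 12308786591) (nat_lit 152) (nat_lit 8294986104) (nat_lit 189) (nat_lit 3) (nat_lit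 189) (nat_lit 1) (nat_lit 191) (nat_lit 1) (nat_lit 278) (nat_lit 325) (nat_lit 297)))))) (XT.nd (nat_lit 390) (nat_lit 456) (nat_lit 0) (XT.nd (nat_lit 156) (nat_lit 228) (nat_lit 0) (XT.nd (nat_lit 78) (nat_lit 152) (nat_lit 0) (XT.lf (nat_lit 76) (nat_lit 6860286343) (nat_lit 0) (nat_lit 10350547636) (nat_lit 76) (nat_lit 10350547636) (nat_lit 189) (nat_lit 3) (nat_lit 188) (nat_lit 1) (nat_lit 189) (nat_lit 1) (nat_lit 279) (nat_lit 325) (nat_lit 296)) (XT.lf (nat_lit 152) (nat_lit 24491871158) (nat_lit 0) (nat_lit 919699945) (nat_lit 76) (nat_lit 919699945) (nat_lit 188) (nat_lit 1) (nat_lit 186) (nat_lit 1) (nat_lit 187) (nat_lit 1) (nat_lit 280) (nat_lit 325) (nat_lit 295))) (XT.nd (nat_lit 78) (nat_lit 228) (nat_lit 0) (XT.lf (nat_lit 0) (nat_lit 7592510073) (nat_lit 0) (nat_lit 9887413529) (nat_lit 152) (nat_lit 7592510073) (nat_lit 186) (nat_lit 3) (nat_lit 186) (nat_lit 1) (nat_lit 188)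 (nat_lit 1) (nat_lit 281) (nat_lit 325) (nat_lit 294)) (XT.nd (nat_lit 78) (nat_lit 152) (nat_lit 0) (XT.lf (nat_lit 76) (nat_lit 6642678335) (nat_lit 0) (nat_lit 8638246558) (nat_lit 76) (nat_lit 8638246558) (nat_lit 186) (nat_lit 3) (nat_lit 185) (nat_lit 1) (nat_lit 186) (nat_lit 1) (nat_lit 282) (nat_lit 325) (nat_lit 293)) (XT.lf (nat_lit 152) (nat_lit 21809348795) (nat_lit 0) (nat_lit 525841428) (nat_lit 76) (nat_lit 525841428) (nat_lit 185) (nat_lit 1) (nat_lit 183) (nat_lit 1) (nat_lit 184) (nat_lit 1) (nat_lit 283) (nat_lit 325) (nat_lit 292))))) (XT.nd (nat_lit 234) (nat_lit 228) (nat_lit 0) (XT.nd (nat_lit 78) (nat_lit 228) (nat_lit 0) (XT.lf (nat_lit 0) (nat_lit 6819150838) (nat_lit 0) (nat_lit 8131269337) (nat_lit 152) (nat_lit 6819150838) (nat_lit 183) (nat_lit 3) (nat_lit 183) (nat_lit 1) (nat_lit 185) (nat_lit 1) (nat_lit 284) (nat_lit 325) (nat_lit 291)) (XT.nd (nat_lit 78) (nat_lit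 152) (nat_lit 0) (XT.lf (nat_lit 76) (nat_lit 6163440161) (nat_lit 0) (nat_lit 7304412769) (nat_lit 76) (nat_lit 7304412769) (nat_lit 183) (nat_lit 3) (nat_lit 182) (nat_lit 1) (nat_lit 183) (nat_lit 1) (nat_lit 285) (nat_lit 325) (nat_lit 290)) (XT.lf (nat_lit 152) (nat_lit 19257428540) (nat_lit 0) (nat_lit 300651543) (nat_lit 76) (nat_lit 300651543) (nat_lit 182) (nat_lit 1) (nat_lit 180) (nat_lit 1) (nat_lit 181) (nat_lit 1) (nat_lit 286) (nat_lit 325) (nat_lit 289)))) (XT.nd (nat_lit 78) (nat_lit 228) (nat_lit 0) (XT.lf (nat_lit 0) (nat_lit 6053748634) (nat_lit 0) (nat_lit 6803956645) (nat_lit 152) (nat_lit 6053748634) (nat_lit 180) (nat_lit 3) (nat_lit 180) (nat_lit 1) (nat_lit 182) (nat_lit 1) (nat_lit 287) (nat_lit 325) (nat_lit 288)) (XT.nd (nat_lit 78) (nat_lit 152) (nat_lit 0) (XT.lf (nat_lit 76) (nat_lit 5580894971) (nat_lit 0) (nat_lit 6233249763) (nat_lit 76) (nat_lit 6233249763) (nat_lit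 180) (nat_lit 3) (nat_lit 179) (nat_lit 1) (nat_lit 180) (nat_lit 1) (nat_lit 288) (nat_lit 325) (nat_lit 287)) (XT.lf (nat_lit 152) (nat_lit 16912986472) (nat_lit 0) (nat_lit 171898495) (nat_lit 76) (nat_lit 171898495) (nat_lit 179) (nat_lit 1) (nat_lit 177) (nat_lit 1) (nat_lit 178) (nat_lit 1) (nat_lit 289) (nat_lit 325) (nat_lit 286))))))))
noncomputable def ec77 : XT := (XT.nd (nat_lit 1716) (nat_lit 1824) (nat_lit 0) (XT.nd (nat_lit 858) (nat_lit 836) (nat_lit 0) (XT.nd (nat_lit 390) (nat_lit 456) (nat_lit 0) (XT.nd (nat_lit 156) (nat_lit 228) (nat_lit 0) (XT.nd (nat_lit 78) (nat_lit 76) (nat_lit 0) (XT.lf (nat_lit 0) (nat_lit 5335056525) (nat_lit 0) (nat_lit 5763990390) (nat_lit 152) (nat_lit 5335056525) (nat_lit 177) (nat_lit 3) (nat_lit 177) (nat_lit 1) (nat_lit 179) (nat_lit 1) (nat_lit 290) (nat_lit 325) (nat_lit 285)) (XT.lf (nat_lit 76) (nat_lit 4979527905) (nat_lit 0) (nat_lit 5352513874)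 (nat_lit 76) (nat_lit 5352513874) (nat_lit 177) (nat_lit 3) (nat_lit 176) (nat_lit 1) (nat_lit 177) (nat_lit 1) (nat_lit 291) (nat_lit 325) (nat_lit 284))) (XT.nd (nat_lit 78) (nat_lit 76) (nat_lit 0) (XT.lf (nat_lit 152) (nat_lit 14802654214) (nat_lit 0) (nat_lit 98283522) (nat_lit 76) (nat_lit 98283522) (nat_lit 176) (nat_lit 1) (nat_lit 174) (nat_lit 1) (nat_lit 175) (nat_lit 1) (nat_lit 292) (nat_lit 325) (nat_lit 283)) (XT.nd (nat_lit 78) (nat_lit 76) (nat_lit 0) (XT.lf (nat_lit 0) (nat_lit 4679732489) (nat_lit 0) (nat_lit 4924976818) (nat_lit 152) (nat_lit 4679732489) (nat_lit 174) (nat_lit 3) (nat_lit 174) (nat_lit 1) (nat_lit 176) (nat_lit 1) (nat_lit 293) (nat_lit 325) (nat_lit 282)) (XT.lf (nat_lit 76) (nat_lit 4402394364) (nat_lit 0) (nat_lit 4615650303) (nat_lit 76) (nat_lit 4615650303) (nat_lit 174) (nat_lit 3) (nat_lit 173) (nat_lit 1) (nat_lit 174) (nat_lit 1) (nat_lit 294) (nat_lit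 325) (nat_lit 281))))) (XT.nd (nat_lit 234) (nat_lit 228) (nat_lit 0) (XT.nd (nat_lit 78) (nat_lit 76) (nat_lit 0) (XT.lf (nat_lit 152) (nat_lit 12926595422) (nat_lit 0) (nat_lit 56193923) (nat_lit 76) (nat_lit 56193923) (nat_lit 173) (nat_lit 1) (nat_lit 171) (nat_lit 1) (nat_lit 172) (nat_lit 1) (nat_lit 295) (nat_lit 325) (nat_lit 280)) (XT.nd (nat_lit 78) (nat_lit 76) (nat_lit 0) (XT.lf (nat_lit 0) (nat_lit 4092518852) (nat_lit 0) (nat_lit 4232738093) (nat_lit 152) (nat_lit 4092518852) (nat_lit 171) (nat_lit 3) (nat_lit 171) (nat_lit 1) (nat_lit 173) (nat_lit 1) (nat_lit 296) (nat_lit 325) (nat_lit 279)) (XT.lf (nat_lit 76) (nat_lit 3869546851) (nat_lit 0) (nat_lit 3991476626) (nat_lit 76) (nat_lit 3991476626) (nat_lit 171) (nat_lit 3) (nat_lit 170) (nat_lit 1) (nat_lit 171) (nat_lit 1) (nat_lit 297) (nat_lit 325) (nat_lit 278)))) (XT.nd (nat_lit 78) (nat_lit 76) (nat_lit 0) (XT.lf (nat_lit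 152) (nat_lit 11271805349) (nat_lit 0) (nat_lit 32129057) (nat_lit 76) (nat_lit 32129057) (nat_lit 170) (nat_lit 1) (nat_lit 168) (nat_lit 1) (nat_lit 169) (nat_lit 1) (nat_lit 298) (nat_lit 325) (nat_lit 277)) (XT.nd (nat_lit 78) (nat_lit 76) (nat_lit 0) (XT.lf (nat_lit 0) (nat_lit 3571968861) (nat_lit 0) (nat_lit 3652139667) (nat_lit 152) (nat_lit 3571968861) (nat_lit 168) (nat_lit 3) (nat_lit 168) (nat_lit 1) (nat_lit 170) (nat_lit 1) (nat_lit 299) (nat_lit 325) (nat_lit 276)) (XT.lf (nat_lit 76) (nat_lit 3388481262) (nat_lit 0) (nat_lit 3458195007) (nat_lit 76) (nat_lit 3458195007) (nat_lit 168) (nat_lit 3) (nat_lit 167) (nat_lit 1) (nat_lit 168) (nat_lit 1) (nat_lit 300) (nat_lit 325) (nat_lit 275)))))) (XT.nd (nat_lit 390) (nat_lit 456) (nat_lit 0) (XT.nd (nat_lit 156) (nat_lit 228) (nat_lit 0) (XT.nd (nat_lit 78) (nat_lit 0) (nat_lit 0) (XT.lf (nat_lit 152) (nat_lit 9819458650) (nat_lit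 0) (nat_lit 18369893) (nat_lit 76) (nat_lit 18369893) (nat_lit 167) (nat_lit 1) (nat_lit 165) (nat_lit 1) (nat_lit 166) (nat_lit 1) (nat_lit 301) (nat_lit 325) (nat_lit 274)) (XT.lf (nat_lit 0) (nat_lit 3113639506) (nat_lit 0) (nat_lit 3159477425) (nat_lit 152) (nat_lit 3113639506) (nat_lit 165) (nat_lit 3) (nat_lit 165) (nat_lit 1) (nat_lit 167) (nat_lit 1) (nat_lit 302) (nat_lit 325) (nat_lit 273))) (XT.nd (nat_lit 78) (nat_lit 152) (nat_lit 0) (XT.lf (nat_lit 76) (nat_lit 2960031935) (nat_lit 0) (nat_lit 2999890994) (nat_lit 76) (nat_lit 2999890994) (nat_lit 165) (nat_lit 3) (nat_lit 164) (nat_lit 1) (nat_lit 165) (nat_lit 1) (nat_lit 303) (nat_lit 325) (nat_lit 272)) (XT.nd (nat_lit 78) (nat_lit 0) (nat_lit 0) (XT.lf (nat_lit 152) (nat_lit 8548887665) (nat_lit 0) (nat_lit 10503046) (nat_lit 76) (nat_lit 10503046) (nat_lit 164) (nat_lit 1) (nat_lit 162) (nat_lit 1) (nat_lit 163) (nat_lit 1)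 (nat_lit 304) (nat_lit 325) (nat_lit 271)) (XT.lf (nat_lit 0) (nat_lit 2711846290) (nat_lit 0) (nat_lit 2738054269) (nat_lit 152) (nat_lit 2711846290) (nat_lit 162) (nat_lit 3) (nat_lit 162) (nat_lit 1) (nat_lit 164) (nat_lit 1) (nat_lit 305) (nat_lit 325) (nat_lit 270))))) (XT.nd (nat_lit 234) (nat_lit 228) (nat_lit 0) (XT.nd (nat_lit 78) (nat_lit 152) (nat_lit 0) (XT.lf (nat_lit 76) (nat_lit 2581674627) (nat_lit 0) (nat_lit 2604464173) (nat_lit 76) (nat_lit 2604464173) (nat_lit 162) (nat_lit 3) (nat_lit 161) (nat_lit 1) (nat_lit 162) (nat_lit 1) (nat_lit 306) (nat_lit 325) (nat_lit 269)) (XT.nd (nat_lit 78) (nat_lit 0) (nat_lit 0) (XT.lf (nat_lit 152) (nat_lit 7439663235) (nat_lit 0) (nat_lit 6005150) (nat_lit 76) (nat_lit 6005150) (nat_lit 161) (nat_lit 1) (nat_lit 159) (nat_lit 1) (nat_lit 160) (nat_lit 1) (nat_lit 307) (nat_lit 325) (nat_lit 268)) (XT.lf (nat_lit 0) (nat_lit 2360605003) (nat_lit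 0) (nat_lit 2375589499) (nat_lit 152) (nat_lit 2360605003) (nat_lit 159) (nat_lit 3) (nat_lit 159) (nat_lit 1) (nat_lit 161) (nat_lit 1) (nat_lit 308) (nat_lit 325) (nat_lit 267)))) (XT.nd (nat_lit 78) (nat_lit 152) (nat_lit 0) (XT.lf (nat_lit 76) (nat_lit 2249356291) (nat_lit 0) (nat_lit 2262386288) (nat_lit 76) (nat_lit 2262386288) (nat_lit 159) (nat_lit 3) (nat_lit 158) (nat_lit 1) (nat_lit 159) (nat_lit 1) (nat_lit 309) (nat_lit 325) (nat_lit 266)) (XT.nd (nat_lit 78) (nat_lit 0) (nat_lit 0) (XT.lf (nat_lit 152) (nat_lit 6472615920) (nat_lit 0) (nat_lit 3433464) (nat_lit 76) (nat_lit 3433464) (nat_lit 158) (nat_lit 1) (nat_lit 156) (nat_lit 1) (nat_lit 157) (nat_lit 1) (nat_lit 310) (nat_lit 325) (nat_lit 265)) (XT.lf (nat_lit 0) (nat_lit 2054116689) (nat_lit 0) (nat_lit 2062684123) (nat_lit 152) (nat_lit 2054116689) (nat_lit 156) (nat_lit 3) (nat_lit 156) (nat_lit 1) (nat_lit 158) (nat_lit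 1) (nat_lit 311) (nat_lit 325) (nat_lit 264))))))) (XT.nd (nat_lit 858) (nat_lit 912) (nat_lit 0) (XT.nd (nat_lit 390) (nat_lit 456) (nat_lit 0) (XT.nd (nat_lit 156) (nat_lit 228) (nat_lit 0) (XT.nd (nat_lit 78) (nat_lit 152) (nat_lit 0) (XT.lf (nat_lit 76) (nat_lit 1958490190) (nat_lit 0) (nat_lit 1965940133) (nat_lit 76) (nat_lit 1965940133) (nat_lit 156) (nat_lit 3) (nat_lit 155) (nat_lit 1) (nat_lit 156) (nat_lit 1) (nat_lit 312) (nat_lit 325) (nat_lit 263)) (XT.lf (nat_lit 152) (nat_lit 5630273350) (nat_lit 0) (nat_lit 1963094) (nat_lit 76) (nat_lit 1963094) (nat_lit 155) (nat_lit 1) (nat_lit 153) (nat_lit 1) (nat_lit 154) (nat_lit 1) (nat_lit 313) (nat_lit 325) (nat_lit 262))) (XT.nd (nat_lit 78) (nat_lit 228) (nat_lit 0) (XT.lf (nat_lit 0) (nat_lit 1786998420) (nat_lit 0) (nat_lit 1791896879) (nat_lit 152) (nat_lit 1786998420) (nat_lit 153) (nat_lit 3) (nat_lit 153) (nat_lit 1) (nat_lit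 155) (nat_lit 1) (nat_lit 314) (nat_lit 325) (nat_lit 261)) (XT.nd (nat_lit 78) (nat_lit 152) (nat_lit 0) (XT.lf (nat_lit 76) (nat_lit 1704480453) (nat_lit 0) (nat_lit 1708739982) (nat_lit 76) (nat_lit 1708739982) (nat_lit 153) (nat_lit 3) (nat_lit 152) (nat_lit 1) (nat_lit 153) (nat_lit 1) (nat_lit 315) (nat_lit 325) (nat_lit 260)) (XT.lf (nat_lit 152) (nat_lit 4896982879) (nat_lit 0) (nat_lit 1122405) (nat_lit 76) (nat_lit 1122405) (nat_lit 152) (nat_lit 1) (nat_lit 150) (nat_lit 1) (nat_lit 151) (nat_lit 1) (nat_lit 316) (nat_lit 325) (nat_lit 259))))) (XT.nd (nat_lit 234) (nat_lit 228) (nat_lit 0) (XT.nd (nat_lit 78) (nat_lit 228) (nat_lit 0) (XT.lf (nat_lit 0) (nat_lit 1554374787) (nat_lit 0) (nat_lit 1557175496) (nat_lit 152) (nat_lit 1554374787) (nat_lit 150) (nat_lit 3) (nat_lit 150) (nat_lit 1) (nat_lit 152) (nat_lit 1) (nat_lit 317) (nat_lit 325) (nat_lit 258)) (XT.nd (nat_lit 78) (nat_lit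 152) (nat_lit 0) (XT.lf (nat_lit 76) (nat_lit 1482983387) (nat_lit 0) (nat_lit 1485418787) (nat_lit 76) (nat_lit 1485418787) (nat_lit 150) (nat_lit 3) (nat_lit 149) (nat_lit 1) (nat_lit 150) (nat_lit 1) (nat_lit 318) (nat_lit 325) (nat_lit 257)) (XT.lf (nat_lit 152) (nat_lit 4258870913) (nat_lit 0) (nat_lit 641739) (nat_lit 76) (nat_lit 641739) (nat_lit 149) (nat_lit 1) (nat_lit 147) (nat_lit 1) (nat_lit 148) (nat_lit 1) (nat_lit 319) (nat_lit 325) (nat_lit 256)))) (XT.nd (nat_lit 78) (nat_lit 228) (nat_lit 0) (XT.lf (nat_lit 0) (nat_lit 1351895038) (nat_lit 0) (nat_lit 1353496353) (nat_lit 152) (nat_lit 1351895038) (nat_lit 147) (nat_lit 3) (nat_lit 147) (nat_lit 1) (nat_lit 149) (nat_lit 1) (nat_lit 320) (nat_lit 325) (nat_lit 255)) (XT.nd (nat_lit 78) (nat_lit 152) (nat_lit 0) (XT.lf (nat_lit 76) (nat_lit 1290023310) (nat_lit 0) (nat_lit 1291415758) (nat_lit 76) (nat_lit 1291415758) (nat_lit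 147) (nat_lit 3) (nat_lit 146) (nat_lit 1) (nat_lit 147) (nat_lit 1) (nat_lit 321) (nat_lit 325) (nat_lit 254)) (XT.lf (nat_lit 152) (nat_lit 3703723318) (nat_lit 0) (nat_lit 366916) (nat_lit 76) (nat_lit 366916) (nat_lit 146) (nat_lit 1) (nat_lit 144) (nat_lit 1) (nat_lit 145) (nat_lit 1) (nat_lit 322) (nat_lit 325) (nat_lit 253)))))) (XT.nd (nat_lit 468) (nat_lit 456) (nat_lit 0) (XT.nd (nat_lit 234) (nat_lit 228) (nat_lit 0) (XT.nd (nat_lit 78) (nat_lit 228) (nat_lit 0) (XT.lf (nat_lit 0) (nat_lit 1175712297) (nat_lit 0) (nat_lit 1176627854) (nat_lit 152) (nat_lit 1175712297) (nat_lit 144) (nat_lit 3) (nat_lit 144) (nat_lit 1) (nat_lit 146) (nat_lit 1) (nat_lit 323) (nat_lit 325) (nat_lit 252)) (XT.nd (nat_lit 78) (nat_lit 152) (nat_lit 0) (XT.lf (nat_lit 76) (nat_lit 1122029575) (nat_lit 0) (nat_lit 1122825712) (nat_lit 76) (nat_lit 1122825712) (nat_lit 144) (nat_lit 3) (nat_lit 143) (nat_lit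 1) (nat_lit 144) (nat_lit 1) (nat_lit 324) (nat_lit 325) (nat_lit 251)) (XT.lf (nat_lit 152) (nat_lit 3220833264) (nat_lit 0) (nat_lit 209785) (nat_lit 76) (nat_lit 209785) (nat_lit 143) (nat_lit 1) (nat_lit 141) (nat_lit 1) (nat_lit 142) (nat_lit 1) (nat_lit 325) (nat_lit 325) (nat_lit 250)))) (XT.nd (nat_lit 78) (nat_lit 228) (nat_lit 0) (XT.lf (nat_lit 0) (nat_lit 1022445079) (nat_lit 0) (nat_lit 1022968551) (nat_lit 152) (nat_lit 1022445079) (nat_lit 141) (nat_lit 3) (nat_lit 141) (nat_lit 1) (nat_lit 143) (nat_lit 1) (nat_lit 326) (nat_lit 325) (nat_lit 249)) (XT.nd (nat_lit 78) (nat_lit 152) (nat_lit 0) (XT.lf (nat_lit 76) (nat_lit 975832365) (nat_lit 0) (nat_lit 976287558) (nat_lit 76) (nat_lit 976287558) (nat_lit 141) (nat_lit 3) (nat_lit 140) (nat_lit 1) (nat_lit 141) (nat_lit 1) (nat_lit 327) (nat_lit 325) (nat_lit 248)) (XT.lf (nat_lit 152) (nat_lit 2800841381) (nat_lit 0) (nat_lit 119945)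 (nat_lit 76) (nat_lit 119945) (nat_lit 140) (nat_lit 1) (nat_lit 138) (nat_lit 1) (nat_lit 139) (nat_lit 1) (nat_lit 328) (nat_lit 325) (nat_lit 247))))) (XT.nd (nat_lit 234) (nat_lit 228) (nat_lit 0) (XT.nd (nat_lit 78) (nat_lit 228) (nat_lit 0) (XT.lf (nat_lit 0) (nat_lit 889132168) (nat_lit 0) (nat_lit 889431465) (nat_lit 152) (nat_lit 889132168) (nat_lit 138) (nat_lit 3) (nat_lit 138) (nat_lit 1) (nat_lit 140) (nat_lit 1) (nat_lit 329) (nat_lit 325) (nat_lit 246)) (XT.nd (nat_lit 78) (nat_lit 152) (nat_lit 0) (XT.lf (nat_lit 76) (nat_lit 848638203) (nat_lit 0) (nat_lit 848898462) (nat_lit 76) (nat_lit 848898462) (nat_lit 138) (nat_lit 3) (nat_lit 137) (nat_lit 1) (nat_lit 138) (nat_lit 1) (nat_lit 330) (nat_lit 325) (nat_lit 245)) (XT.lf (nat_lit 152) (nat_lit 2435581028) (nat_lit 0) (nat_lit 68579) (nat_lit 76) (nat_lit 68579) (nat_lit 137) (nat_lit 1) (nat_lit 135) (nat_lit 1) (nat_lit 136)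 (nat_lit 1) (nat_lit 331) (nat_lit 325) (nat_lit 244)))) (XT.nd (nat_lit 78) (nat_lit 228) (nat_lit 0) (XT.lf (nat_lit 0) (nat_lit 773186703) (nat_lit 0) (nat_lit 773357828) (nat_lit 152) (nat_lit 773186703) (nat_lit 135) (nat_lit 3) (nat_lit 135) (nat_lit 1) (nat_lit 137) (nat_lit 1) (nat_lit 332) (nat_lit 325) (nat_lit 243)) (XT.nd (nat_lit 78) (nat_lit 152) (nat_lit 0) (XT.lf (nat_lit 76) (nat_lit 737996761) (nat_lit 0) (nat_lit 738145565) (nat_lit 76) (nat_lit 738145565) (nat_lit 135) (nat_lit 3) (nat_lit 134) (nat_lit 1) (nat_lit 135) (nat_lit 1) (nat_lit 333) (nat_lit 325) (nat_lit 242)) (XT.lf (nat_lit 152) (nat_lit 2117934729) (nat_lit 0) (nat_lit 39210) (nat_lit 76) (nat_lit 39210) (nat_lit 134) (nat_lit 1) (nat_lit 132) (nat_lit 1) (nat_lit 133) (nat_lit 1) (nat_lit 334) (nat_lit 325) (nat_lit 241))))))))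
noncomputable def ec78 : XT := (XT.nd (nat_lit 1716) (nat_lit 1140) (nat_lit 0) (XT.nd (nat_lit 858) (nat_lit 836) (nat_lit 0) (XT.nd (nat_lit 390) (nat_lit 456) (nat_lit 0) (XT.nd (nat_lit 156) (nat_lit 228) (nat_lit 0) (XT.nd (nat_lit 78) (nat_lit 76) (nat_lit 0) (XT.lf (nat_lit 0) (nat_lit 672352442) (nat_lit 0) (nat_lit 672450283) (nat_lit 152) (nat_lit 672352442) (nat_lit 132) (nat_lit 3) (nat_lit 132) (nat_lit 1) (nat_lit 134) (nat_lit 1) (nat_lit 335) (nat_lit 325) (nat_lit 240)) (XT.lf (nat_lit 76) (nat_lit 641765186) (nat_lit 0) (nat_lit 641850265) (nat_lit 76) (nat_lit 641850265) (nat_lit 132) (nat_lit 3) (nat_lit 131) (nat_lit 1) (nat_lit 132) (nat_lit 1) (nat_lit 336) (nat_lit 325) (nat_lit 239))) (XT.nd (nat_lit 78) (nat_lit 76) (nat_lit 0) (XT.lf (nat_lit 152) (nat_lit 1841704205) (nat_lit 0) (nat_lit 22418) (nat_lit 76) (nat_lit 22418) (nat_lit 131) (nat_lit 1) (nat_lit 129) (nat_lit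 1) (nat_lit 130) (nat_lit 1) (nat_lit 337) (nat_lit 325) (nat_lit 238)) (XT.nd (nat_lit 78) (nat_lit 76) (nat_lit 0) (XT.lf (nat_lit 0) (nat_lit 584663548) (nat_lit 0) (nat_lit 584719489) (nat_lit 152) (nat_lit 584663548) (nat_lit 129) (nat_lit 3) (nat_lit 129) (nat_lit 1) (nat_lit 131) (nat_lit 1) (nat_lit 338) (nat_lit 325) (nat_lit 237)) (XT.lf (nat_lit 76) (nat_lit 558073191) (nat_lit 0) (nat_lit 558121836) (nat_lit 76) (nat_lit 558121836) (nat_lit 129) (nat_lit 3) (nat_lit 128) (nat_lit 1) (nat_lit 129) (nat_lit 1) (nat_lit 339) (nat_lit 325) (nat_lit 236))))) (XT.nd (nat_lit 234) (nat_lit 228) (nat_lit 0) (XT.nd (nat_lit 78) (nat_lit 76) (nat_lit 0) (XT.lf (nat_lit 152) (nat_lit 1601494399) (nat_lit 0) (nat_lit 12817) (nat_lit 76) (nat_lit 12817) (nat_lit 128) (nat_lit 1) (nat_lit 126) (nat_lit 1) (nat_lit 127) (nat_lit 1) (nat_lit 340) (nat_lit 325) (nat_lit 235)) (XT.nd (nat_lit 78) (nat_lit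 76) (nat_lit 0) (XT.lf (nat_lit 0) (nat_lit 508408374) (nat_lit 0) (nat_lit 508440358) (nat_lit 152) (nat_lit 508408374) (nat_lit 126) (nat_lit 3) (nat_lit 126) (nat_lit 1) (nat_lit 128) (nat_lit 1) (nat_lit 341) (nat_lit 325) (nat_lit 234)) (XT.lf (nat_lit 76) (nat_lit 485290474) (nat_lit 0) (nat_lit 485318287) (nat_lit 76) (nat_lit 485318287) (nat_lit 126) (nat_lit 3) (nat_lit 125) (nat_lit 1) (nat_lit 126) (nat_lit 1) (nat_lit 342) (nat_lit 325) (nat_lit 233)))) (XT.nd (nat_lit 78) (nat_lit 76) (nat_lit 0) (XT.lf (nat_lit 152) (nat_lit 1392610962) (nat_lit 0) (nat_lit 7328) (nat_lit 76) (nat_lit 7328) (nat_lit 125) (nat_lit 1) (nat_lit 123) (nat_lit 1) (nat_lit 124) (nat_lit 1) (nat_lit 343) (nat_lit 325) (nat_lit 232)) (XT.nd (nat_lit 78) (nat_lit 76) (nat_lit 0) (XT.lf (nat_lit 0) (nat_lit 442097262) (nat_lit 0) (nat_lit 442115549) (nat_lit 152) (nat_lit 442097262) (nat_lit 123) (nat_lit 3)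 (nat_lit 123) (nat_lit 1) (nat_lit 125) (nat_lit 1) (nat_lit 344) (nat_lit 325) (nat_lit 231)) (XT.lf (nat_lit 76) (nat_lit 421997113) (nat_lit 0) (nat_lit 422013015) (nat_lit 76) (nat_lit 422013015) (nat_lit 123) (nat_lit 3) (nat_lit 122) (nat_lit 1) (nat_lit 123) (nat_lit 1) (nat_lit 345) (nat_lit 325) (nat_lit 230)))))) (XT.nd (nat_lit 390) (nat_lit 456) (nat_lit 0) (XT.nd (nat_lit 156) (nat_lit 228) (nat_lit 0) (XT.nd (nat_lit 78) (nat_lit 0) (nat_lit 0) (XT.lf (nat_lit 152) (nat_lit 1210970134) (nat_lit 0) (nat_lit 4190) (nat_lit 76) (nat_lit 4190) (nat_lit 122) (nat_lit 1) (nat_lit 120) (nat_lit 1) (nat_lit 121) (nat_lit 1) (nat_lit 346) (nat_lit 325) (nat_lit 229)) (XT.lf (nat_lit 0) (nat_lit 384434131) (nat_lit 0) (nat_lit 384444586) (nat_lit 152) (nat_lit 384434131) (nat_lit 120) (nat_lit 3) (nat_lit 120) (nat_lit 1) (nat_lit 122) (nat_lit 1) (nat_lit 347) (nat_lit 325) (nat_lit 228)))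 (XT.nd (nat_lit 78) (nat_lit 152) (nat_lit 0) (XT.lf (nat_lit 76) (nat_lit 366957097) (nat_lit 0) (nat_lit 366966189) (nat_lit 76) (nat_lit 366966189) (nat_lit 120) (nat_lit 3) (nat_lit 119) (nat_lit 1) (nat_lit 120) (nat_lit 1) (nat_lit 348) (nat_lit 325) (nat_lit 227)) (XT.nd (nat_lit 78) (nat_lit 0) (nat_lit 0) (XT.lf (nat_lit 152) (nat_lit 1053019841) (nat_lit 0) (nat_lit 2395) (nat_lit 76) (nat_lit 2395) (nat_lit 119) (nat_lit 1) (nat_lit 117) (nat_lit 1) (nat_lit 118) (nat_lit 1) (nat_lit 349) (nat_lit 325) (nat_lit 226)) (XT.lf (nat_lit 0) (nat_lit 334291537) (nat_lit 0) (nat_lit 334297515) (nat_lit 152) (nat_lit 334291537) (nat_lit 117) (nat_lit 3) (nat_lit 117) (nat_lit 1) (nat_lit 119) (nat_lit 1) (nat_lit 350) (nat_lit 325) (nat_lit 225))))) (XT.nd (nat_lit 234) (nat_lit 228) (nat_lit 0) (XT.nd (nat_lit 78) (nat_lit 152) (nat_lit 0) (XT.lf (nat_lit 76) (nat_lit 319094892) (nat_lit 0)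 (nat_lit 319100090) (nat_lit 76) (nat_lit 319100090) (nat_lit 117) (nat_lit 3) (nat_lit 116) (nat_lit 1) (nat_lit 117) (nat_lit 1) (nat_lit 351) (nat_lit 325) (nat_lit 224)) (XT.nd (nat_lit 78) (nat_lit 0) (nat_lit 0) (XT.lf (nat_lit 152) (nat_lit 915670761) (nat_lit 0) (nat_lit 1369) (nat_lit 76) (nat_lit 1369) (nat_lit 116) (nat_lit 1) (nat_lit 114) (nat_lit 1) (nat_lit 115) (nat_lit 1) (nat_lit 352) (nat_lit 325) (nat_lit 223)) (XT.lf (nat_lit 0) (nat_lit 290688858) (nat_lit 0) (nat_lit 290692276) (nat_lit 152) (nat_lit 290688858) (nat_lit 114) (nat_lit 3) (nat_lit 114) (nat_lit 1) (nat_lit 116) (nat_lit 1) (nat_lit 353) (nat_lit 325) (nat_lit 222)))) (XT.nd (nat_lit 78) (nat_lit 152) (nat_lit 0) (XT.lf (nat_lit 76) (nat_lit 277474827) (nat_lit 0) (nat_lit 277477800) (nat_lit 76) (nat_lit 277477800) (nat_lit 114) (nat_lit 3) (nat_lit 113) (nat_lit 1) (nat_lit 114) (nat_lit 1) (nat_lit 354) (nat_lit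 325) (nat_lit 221)) (XT.nd (nat_lit 78) (nat_lit 0) (nat_lit 0) (XT.lf (nat_lit 152) (nat_lit 796236207) (nat_lit 0) (nat_lit 783) (nat_lit 76) (nat_lit 783) (nat_lit 113) (nat_lit 1) (nat_lit 111) (nat_lit 1) (nat_lit 112) (nat_lit 1) (nat_lit 355) (nat_lit 325) (nat_lit 220)) (XT.lf (nat_lit 0) (nat_lit 252773243) (nat_lit 0) (nat_lit 252775197) (nat_lit 152) (nat_lit 252773243) (nat_lit 111) (nat_lit 3) (nat_lit 111) (nat_lit 1) (nat_lit 113) (nat_lit 1) (nat_lit 356) (nat_lit 325) (nat_lit 219))))))) (XT.nd (nat_lit 858) (nat_lit 228) (nat_lit 0) (XT.nd (nat_lit 390) (nat_lit 456) (nat_lit 0) (XT.nd (nat_lit 156) (nat_lit 228) (nat_lit 0) (XT.nd (nat_lit 78) (nat_lit 152) (nat_lit 0) (XT.lf (nat_lit 76) (nat_lit 241283035) (nat_lit 0) (nat_lit 241284735) (nat_lit 76) (nat_lit 241284735) (nat_lit 111) (nat_lit 3) (nat_lit 110) (nat_lit 1) (nat_lit 111) (nat_lit 1) (nat_lit 357) (nat_lit 325)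 (nat_lit 218)) (XT.lf (nat_lit 152) (nat_lit 692379746) (nat_lit 0) (nat_lit 447) (nat_lit 76) (nat_lit 447) (nat_lit 110) (nat_lit 1) (nat_lit 108) (nat_lit 1) (nat_lit 109) (nat_lit 1) (nat_lit 358) (nat_lit 325) (nat_lit 217))) (XT.nd (nat_lit 78) (nat_lit 228) (nat_lit 0) (XT.lf (nat_lit 0) (nat_lit 219803005) (nat_lit 0) (nat_lit 219804122) (nat_lit 152) (nat_lit 219803005) (nat_lit 108) (nat_lit 3) (nat_lit 108) (nat_lit 1) (nat_lit 110) (nat_lit 1) (nat_lit 359) (nat_lit 325) (nat_lit 216)) (XT.nd (nat_lit 78) (nat_lit 152) (nat_lit 0) (XT.lf (nat_lit 76) (nat_lit 209811665) (nat_lit 0) (nat_lit 209812636) (nat_lit 76) (nat_lit 209812636) (nat_lit 108) (nat_lit 3) (nat_lit 107) (nat_lit 1) (nat_lit 108) (nat_lit 1) (nat_lit 360) (nat_lit 325) (nat_lit 215)) (XT.lf (nat_lit 152) (nat_lit 602069594) (nat_lit 0) (nat_lit 256) (nat_lit 76) (nat_lit 256) (nat_lit 107) (nat_lit 1) (nat_lit 105)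 (nat_lit 1) (nat_lit 106) (nat_lit 1) (nat_lit 361) (nat_lit 325) (nat_lit 214))))) (XT.nd (nat_lit 234) (nat_lit 228) (nat_lit 0) (XT.nd (nat_lit 78) (nat_lit 228) (nat_lit 0) (XT.lf (nat_lit 0) (nat_lit 191133153) (nat_lit 0) (nat_lit 191133792) (nat_lit 152) (nat_lit 191133153) (nat_lit 105) (nat_lit 3) (nat_lit 105) (nat_lit 1) (nat_lit 107) (nat_lit 1) (nat_lit 362) (nat_lit 325) (nat_lit 213)) (XT.nd (nat_lit 78) (nat_lit 152) (nat_lit 0) (XT.lf (nat_lit 76) (nat_lit 182445114) (nat_lit 0) (nat_lit 182445670) (nat_lit 76) (nat_lit 182445670) (nat_lit 105) (nat_lit 3) (nat_lit 104) (nat_lit 1) (nat_lit 105) (nat_lit 1) (nat_lit 363) (nat_lit 325) (nat_lit 212)) (XT.lf (nat_lit 152) (nat_lit 523538920) (nat_lit 0) (nat_lit 146) (nat_lit 76) (nat_lit 146) (nat_lit 104) (nat_lit 1) (nat_lit 102) (nat_lit 1) (nat_lit 103) (nat_lit 1) (nat_lit 364) (nat_lit 325) (nat_lit 211)))) (XT.nd (nat_lit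 78) (nat_lit 228) (nat_lit 0) (XT.lf (nat_lit 0) (nat_lit 166202802) (nat_lit 0) (nat_lit 166203168) (nat_lit 152) (nat_lit 166202802) (nat_lit 102) (nat_lit 3) (nat_lit 102) (nat_lit 1) (nat_lit 104) (nat_lit 1) (nat_lit 365) (nat_lit 325) (nat_lit 210)) (XT.nd (nat_lit 78) (nat_lit 152) (nat_lit 0) (XT.lf (nat_lit 76) (nat_lit 158648033) (nat_lit 0) (nat_lit 158648351) (nat_lit 76) (nat_lit 158648351) (nat_lit 102) (nat_lit 3) (nat_lit 101) (nat_lit 1) (nat_lit 102) (nat_lit 1) (nat_lit 366) (nat_lit 325) (nat_lit 209)) (XT.lf (nat_lit 152) (nat_lit 455251316) (nat_lit 0) (nat_lit 83) (nat_lit 76) (nat_lit 83) (nat_lit 101) (nat_lit 1) (nat_lit 99) (nat_lit 1) (nat_lit 100) (nat_lit 1) (nat_lit 367) (nat_lit 325) (nat_lit 208)))))) (XT.nd (nat_lit 37596) (nat_lit 0) (nat_lit 8892) (XT.nd (nat_lit 156) (nat_lit 152) (nat_lit 0) (XT.nd (nat_lit 78) (nat_lit 76) (nat_lit 0) (XT.lf (nat_lit 0) (nat_lit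 144524210) (nat_lit 0) (nat_lit 144524419) (nat_lit 152) (nat_lit 144524210) (nat_lit 99) (nat_lit 3) (nat_lit 99) (nat_lit 1) (nat_lit 101) (nat_lit 1) (nat_lit 368) (nat_lit 325) (nat_lit 207)) (XT.lf (nat_lit 76) (nat_lit 137954873) (nat_lit 0) (nat_lit 137955055) (nat_lit 76) (nat_lit 137955055) (nat_lit 99) (nat_lit 3) (nat_lit 98) (nat_lit 1) (nat_lit 99) (nat_lit 1) (nat_lit 369) (nat_lit 325) (nat_lit 206))) (XT.nd (nat_lit 78) (nat_lit 0) (nat_lit 0) (XT.lf (nat_lit 152) (nat_lit 395870756) (nat_lit 0) (nat_lit 47) (nat_lit 76) (nat_lit 47) (nat_lit 98) (nat_lit 1) (nat_lit 96) (nat_lit 1) (nat_lit 97) (nat_lit 1) (nat_lit 370) (nat_lit 325) (nat_lit 205)) (XT.nd (nat_lit 37284) (nat_lit 0) (nat_lit 9044) (XT.lf (nat_lit 0) (nat_lit 125673246) (nat_lit 0) (nat_lit 125673365) (nat_lit 152) (nat_lit 125673246) (nat_lit 96) (nat_lit 3) (nat_lit 96) (nat_lit 1) (nat_lit 98) (nat_lit 1) (nat_lit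 371) (nat_lit 325) (nat_lit 204)) (XT.lf (nat_lit 380) (nat_lit 26562459625) (nat_lit 0) (nat_lit 23527024231) (nat_lit 380) (nat_lit 26562459625) (nat_lit 220) (nat_lit 1) (nat_lit 215) (nat_lit 0) (nat_lit 220) (nat_lit 0) (nat_lit 248) (nat_lit 326) (nat_lit 326))))) (XT.nd (nat_lit 234) (nat_lit 152) (nat_lit 0) (XT.nd (nat_lit 78) (nat_lit 0) (nat_lit 76) (XT.lf (nat_lit 380) (nat_lit 98251091017) (nat_lit 76) (nat_lit 22457614039) (nat_lit 0) (nat_lit 22457614039) (nat_lit 220) (nat_lit 1) (nat_lit 216) (nat_lit 1) (nat_lit 215) (nat_lit 0) (nat_lit 249) (nat_lit 326) (nat_lit 325)) (XT.nd (nat_lit 78) (nat_lit 0) (nat_lit 0) (XT.lf (nat_lit 380) (nat_lit 43308517519) (nat_lit 0) (nat_lit 47123752424) (nat_lit 304) (nat_lit 43308517519) (nat_lit 221) (nat_lit 1) (nat_lit 216) (nat_lit 1) (nat_lit 220) (nat_lit 1) (nat_lit 250) (nat_lit 326) (nat_lit 324)) (XT.lf (nat_lit 380) (nat_lit 74358475876)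 (nat_lit 76) (nat_lit 25453403643) (nat_lit 0) (nat_lit 25453403643) (nat_lit 221) (nat_lit 1) (nat_lit 217) (nat_lit 1) (nat_lit 216) (nat_lit 1) (nat_lit 251) (nat_lit 326) (nat_lit 323)))) (XT.nd (nat_lit 78) (nat_lit 304) (nat_lit 0) (XT.lf (nat_lit 76) (nat_lit 30078989705) (nat_lit 0) (nat_lit 57275446126) (nat_lit 304) (nat_lit 30078989705) (nat_lit 218) (nat_lit 1) (nat_lit 217) (nat_lit 1) (nat_lit 221) (nat_lit 1) (nat_lit 252) (nat_lit 326) (nat_lit 322)) (XT.nd (nat_lit 78) (nat_lit 0) (nat_lit 0) (XT.lf (nat_lit 380) (nat_lit 45206292243) (nat_lit 0) (nat_lit 32538622285) (nat_lit 304) (nat_lit 32538622285) (nat_lit 218) (nat_lit 1) (nat_lit 213) (nat_lit 1) (nat_lit 217) (nat_lit 1) (nat_lit 253) (nat_lit 326) (nat_lit 321)) (XT.lf (nat_lit 76) (nat_lit 15026072279) (nat_lit 0) (nat_lit 73733313288) (nat_lit 380) (nat_lit 15026072279) (nat_lit 214) (nat_lit 1) (nat_lit 213) (nat_lit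 1) (nat_lit 218) (nat_lit 1) (nat_lit 254) (nat_lit 326) (nat_lit 320))))))))
noncomputable def ec79 : XT := (XT.nd (nat_lit 1716) (nat_lit 1824) (nat_lit 0) (XT.nd (nat_lit 858) (nat_lit 760) (nat_lit 0) (XT.nd (nat_lit 390) (nat_lit 532) (nat_lit 0) (XT.nd (nat_lit 156) (nat_lit 152) (nat_lit 0) (XT.nd (nat_lit 78) (nat_lit 228) (nat_lit 0) (XT.lf (nat_lit 228) (nat_lit 13523110593) (nat_lit 0) (nat_lit 42087344887) (nat_lit 152) (nat_lit 42087344887) (nat_lit 214) (nat_lit 1) (nat_lit 211) (nat_lit 1) (nat_lit 213) (nat_lit 1) (nat_lit 255) (nat_lit 326) (nat_lit 319)) (XT.lf (nat_lit 228) (nat_lit 90875133028) (nat_lit 0) (nat_lit 713007305) (nat_lit 152) (nat_lit 713007305) (nat_lit 211) (nat_lit 1) (nat_lit 208) (nat_lit 1) (nat_lit 210) (nat_lit 1) (nat_lit 256) (nat_lit 326) (nat_lit 318))) (XT.nd (nat_lit 78) (nat_lit 152) (nat_lit 0) (XT.lf (nat_lit 76) (nat_lit 34914806962) (nat_lit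 0) (nat_lit 17141311716) (nat_lit 228) (nat_lit 34914806962) (nat_lit 209) (nat_lit 1) (nat_lit 208) (nat_lit 1) (nat_lit 211) (nat_lit 1) (nat_lit 257) (nat_lit 326) (nat_lit 317)) (XT.nd (nat_lit 78) (nat_lit 0) (nat_lit 0) (XT.lf (nat_lit 228) (nat_lit 50750011999) (nat_lit 0) (nat_lit 15742154831) (nat_lit 152) (nat_lit 15742154831) (nat_lit 209) (nat_lit 1) (nat_lit 206) (nat_lit 1) (nat_lit 208) (nat_lit 1) (nat_lit 258) (nat_lit 326) (nat_lit 316)) (XT.lf (nat_lit 76) (nat_lit 15871193281) (nat_lit 0) (nat_lit 46057931562) (nat_lit 228) (nat_lit 15871193281) (nat_lit 207) (nat_lit 1) (nat_lit 206) (nat_lit 1) (nat_lit 209) (nat_lit 1) (nat_lit 259) (nat_lit 326) (nat_lit 315))))) (XT.nd (nat_lit 234) (nat_lit 228) (nat_lit 0) (XT.nd (nat_lit 78) (nat_lit 228) (nat_lit 0) (XT.lf (nat_lit 152) (nat_lit 13120474276) (nat_lit 0) (nat_lit 30275558930) (nat_lit 76) (nat_lit 30275558930) (nat_lit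 207) (nat_lit 1) (nat_lit 205) (nat_lit 1) (nat_lit 206) (nat_lit 1) (nat_lit 260) (nat_lit 326) (nat_lit 314)) (XT.nd (nat_lit 78) (nat_lit 0) (nat_lit 0) (XT.lf (nat_lit 228) (nat_lit 66423553315) (nat_lit 0) (nat_lit 1764609677) (nat_lit 152) (nat_lit 1764609677) (nat_lit 205) (nat_lit 1) (nat_lit 202) (nat_lit 1) (nat_lit 204) (nat_lit 1) (nat_lit 261) (nat_lit 326) (nat_lit 313)) (XT.lf (nat_lit 76) (nat_lit 23246815058) (nat_lit 0) (nat_lit 19741953815) (nat_lit 228) (nat_lit 23246815058) (nat_lit 203) (nat_lit 1) (nat_lit 202) (nat_lit 1) (nat_lit 205) (nat_lit 1) (nat_lit 262) (nat_lit 326) (nat_lit 312)))) (XT.nd (nat_lit 78) (nat_lit 152) (nat_lit 0) (XT.lf (nat_lit 152) (nat_lit 28265900579) (nat_lit 0) (nat_lit 17310149080) (nat_lit 76) (nat_lit 17310149080) (nat_lit 203) (nat_lit 1) (nat_lit 201) (nat_lit 1) (nat_lit 202) (nat_lit 1) (nat_lit 263) (nat_lit 326) (nat_lit 311)) (XT.nd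 (nat_lit 78) (nat_lit 152) (nat_lit 0) (XT.lf (nat_lit 0) (nat_lit 5534852858) (nat_lit 0) (nat_lit 48728419562) (nat_lit 152) (nat_lit 5534852858) (nat_lit 201) (nat_lit 3) (nat_lit 201) (nat_lit 1) (nat_lit 203) (nat_lit 1) (nat_lit 264) (nat_lit 326) (nat_lit 310)) (XT.lf (nat_lit 76) (nat_lit 25615275687) (nat_lit 0) (nat_lit 5555510480) (nat_lit 152) (nat_lit 25615275687) (nat_lit 200) (nat_lit 1) (nat_lit 199) (nat_lit 1) (nat_lit 201) (nat_lit 1) (nat_lit 265) (nat_lit 326) (nat_lit 309)))))) (XT.nd (nat_lit 390) (nat_lit 456) (nat_lit 0) (XT.nd (nat_lit 156) (nat_lit 228) (nat_lit 0) (XT.nd (nat_lit 78) (nat_lit 0) (nat_lit 0) (XT.lf (nat_lit 152) (nat_lit 34216969812) (nat_lit 0) (nat_lit 9897133918) (nat_lit 76) (nat_lit 9897133918) (nat_lit 200) (nat_lit 1) (nat_lit 198) (nat_lit 1) (nat_lit 199) (nat_lit 1) (nat_lit 266) (nat_lit 326) (nat_lit 308)) (XT.lf (nat_lit 0) (nat_lit 8896585773)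 (nat_lit 0) (nat_lit 33592647725) (nat_lit 152) (nat_lit 8896585773) (nat_lit 198) (nat_lit 3) (nat_lit 198) (nat_lit 1) (nat_lit 200) (nat_lit 1) (nat_lit 267) (nat_lit 326) (nat_lit 307))) (XT.nd (nat_lit 78) (nat_lit 152) (nat_lit 0) (XT.lf (nat_lit 76) (nat_lit 1984669305) (nat_lit 0) (nat_lit 23459505784) (nat_lit 76) (nat_lit 23459505784) (nat_lit 198) (nat_lit 3) (nat_lit 197) (nat_lit 1) (nat_lit 198) (nat_lit 1) (nat_lit 268) (nat_lit 326) (nat_lit 306)) (XT.nd (nat_lit 78) (nat_lit 0) (nat_lit 0) (XT.lf (nat_lit 152) (nat_lit 35264402167) (nat_lit 0) (nat_lit 5658718439) (nat_lit 76) (nat_lit 5658718439) (nat_lit 197) (nat_lit 1) (nat_lit 195) (nat_lit 1) (nat_lit 196) (nat_lit 1) (nat_lit 269) (nat_lit 326) (nat_lit 305)) (XT.lf (nat_lit 0) (nat_lit 10071013258) (nat_lit 0) (nat_lit 24191066832) (nat_lit 152) (nat_lit 10071013258) (nat_lit 195) (nat_lit 3) (nat_lit 195) (nat_lit 1) (nat_lit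 197) (nat_lit 1) (nat_lit 270) (nat_lit 326) (nat_lit 304))))) (XT.nd (nat_lit 234) (nat_lit 228) (nat_lit 0) (XT.nd (nat_lit 78) (nat_lit 152) (nat_lit 0) (XT.lf (nat_lit 76) (nat_lit 5892540699) (nat_lit 0) (nat_lit 18170848155) (nat_lit 76) (nat_lit 18170848155) (nat_lit 195) (nat_lit 3) (nat_lit 194) (nat_lit 1) (nat_lit 195) (nat_lit 1) (nat_lit 271) (nat_lit 326) (nat_lit 303)) (XT.nd (nat_lit 78) (nat_lit 0) (nat_lit 0) (XT.lf (nat_lit 152) (nat_lit 33815352586) (nat_lit 0) (nat_lit 3235390633) (nat_lit 76) (nat_lit 3235390633) (nat_lit 194) (nat_lit 1) (nat_lit 192) (nat_lit 1) (nat_lit 193) (nat_lit 1) (nat_lit 272) (nat_lit 326) (nat_lit 302)) (XT.lf (nat_lit 0) (nat_lit 10092361879) (nat_lit 0) (nat_lit 18165548338) (nat_lit 152) (nat_lit 10092361879) (nat_lit 192) (nat_lit 3) (nat_lit 192) (nat_lit 1) (nat_lit 194) (nat_lit 1) (nat_lit 273) (nat_lit 326) (nat_lit 301)))) (XT.nd (nat_lit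 78) (nat_lit 152) (nat_lit 0) (XT.lf (nat_lit 76) (nat_lit 7506296297) (nat_lit 0) (nat_lit 14526458436) (nat_lit 76) (nat_lit 14526458436) (nat_lit 192) (nat_lit 3) (nat_lit 191) (nat_lit 1) (nat_lit 192) (nat_lit 1) (nat_lit 274) (nat_lit 326) (nat_lit 300)) (XT.nd (nat_lit 78) (nat_lit 0) (nat_lit 0) (XT.lf (nat_lit 152) (nat_lit 31206051673) (nat_lit 0) (nat_lit 1849845095) (nat_lit 76) (nat_lit 1849845095) (nat_lit 191) (nat_lit 1) (nat_lit 189) (nat_lit 1) (nat_lit 190) (nat_lit 1) (nat_lit 275) (nat_lit 326) (nat_lit 299)) (XT.lf (nat_lit 0) (nat_lit 9539234019) (nat_lit 0) (nat_lit 14155104579) (nat_lit 152) (nat_lit 9539234019) (nat_lit 189) (nat_lit 3) (nat_lit 189) (nat_lit 1) (nat_lit 191) (nat_lit 1) (nat_lit 276) (nat_lit 326) (nat_lit 298))))))) (XT.nd (nat_lit 858) (nat_lit 912) (nat_lit 0) (XT.nd (nat_lit 390) (nat_lit 456) (nat_lit 0) (XT.nd (nat_lit 156) (nat_lit 228) (nat_lit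 0) (XT.nd (nat_lit 78) (nat_lit 152) (nat_lit 0) (XT.lf (nat_lit 76) (nat_lit 7889329295) (nat_lit 0) (nat_lit 11903129782) (nat_lit 76) (nat_lit 11903129782) (nat_lit 189) (nat_lit 3) (nat_lit 188) (nat_lit 1) (nat_lit 189) (nat_lit 1) (nat_lit 277) (nat_lit 326) (nat_lit 297)) (XT.lf (nat_lit 152) (nat_lit 28165651832) (nat_lit 0) (nat_lit 1057654937) (nat_lit 76) (nat_lit 1057654937) (nat_lit 188) (nat_lit 1) (nat_lit 186) (nat_lit 1) (nat_lit 187) (nat_lit 1) (nat_lit 278) (nat_lit 326) (nat_lit 296))) (XT.nd (nat_lit 78) (nat_lit 228) (nat_lit 0) (XT.lf (nat_lit 0) (nat_lit 8731386584) (nat_lit 0) (nat_lit 11370525558) (nat_lit 152) (nat_lit 8731386584) (nat_lit 186) (nat_lit 3) (nat_lit 186) (nat_lit 1) (nat_lit 188) (nat_lit 1) (nat_lit 279) (nat_lit 326) (nat_lit 295)) (XT.nd (nat_lit 78) (nat_lit 152) (nat_lit 0) (XT.lf (nat_lit 76) (nat_lit 7639080086) (nat_lit 0) (nat_lit 9933983542)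 (nat_lit 76) (nat_lit 9933983542) (nat_lit 186) (nat_lit 3) (nat_lit 185) (nat_lit 1) (nat_lit 186) (nat_lit 1) (nat_lit 280) (nat_lit 326) (nat_lit 294)) (XT.lf (nat_lit 152) (nat_lit 25080751114) (nat_lit 0) (nat_lit 604717643) (nat_lit 76) (nat_lit 604717643) (nat_lit 185) (nat_lit 1) (nat_lit 183) (nat_lit 1) (nat_lit 184) (nat_lit 1) (nat_lit 281) (nat_lit 326) (nat_lit 293))))) (XT.nd (nat_lit 234) (nat_lit 228) (nat_lit 0) (XT.nd (nat_lit 78) (nat_lit 228) (nat_lit 0) (XT.lf (nat_lit 0) (nat_lit 7842023464) (nat_lit 0) (nat_lit 9350959738) (nat_lit 152) (nat_lit 7842023464) (nat_lit 183) (nat_lit 3) (nat_lit 183) (nat_lit 1) (nat_lit 185) (nat_lit 1) (nat_lit 282) (nat_lit 326) (nat_lit 292)) (XT.nd (nat_lit 78) (nat_lit 152) (nat_lit 0) (XT.lf (nat_lit 76) (nat_lit 7087956185) (nat_lit 0) (nat_lit 8400074685) (nat_lit 76) (nat_lit 8400074685) (nat_lit 183) (nat_lit 3) (nat_lit 182) (nat_lit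 1) (nat_lit 183) (nat_lit 1) (nat_lit 283) (nat_lit 326) (nat_lit 291)) (XT.lf (nat_lit 152) (nat_lit 22146042822) (nat_lit 0) (nat_lit 345749275) (nat_lit 76) (nat_lit 345749275) (nat_lit 182) (nat_lit 1) (nat_lit 180) (nat_lit 1) (nat_lit 181) (nat_lit 1) (nat_lit 284) (nat_lit 326) (nat_lit 290)))) (XT.nd (nat_lit 78) (nat_lit 228) (nat_lit 0) (XT.lf (nat_lit 0) (nat_lit 6961810929) (nat_lit 0) (nat_lit 7824550141) (nat_lit 152) (nat_lit 6961810929) (nat_lit 180) (nat_lit 3) (nat_lit 180) (nat_lit 1) (nat_lit 182) (nat_lit 1) (nat_lit 285) (nat_lit 326) (nat_lit 289)) (XT.nd (nat_lit 78) (nat_lit 152) (nat_lit 0) (XT.lf (nat_lit 76) (nat_lit 6418029217) (nat_lit 0) (nat_lit 7168237228) (nat_lit 76) (nat_lit 7168237228) (nat_lit 180) (nat_lit 3) (nat_lit 179) (nat_lit 1) (nat_lit 180) (nat_lit 1) (nat_lit 286) (nat_lit 326) (nat_lit 288)) (XT.lf (nat_lit 152) (nat_lit 19449934443) (nat_lit 0)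 (nat_lit 197683270) (nat_lit 76) (nat_lit 197683270) (nat_lit 179) (nat_lit 1) (nat_lit 177) (nat_lit 1) (nat_lit 178) (nat_lit 1) (nat_lit 287) (nat_lit 326) (nat_lit 287)))))) (XT.nd (nat_lit 468) (nat_lit 456) (nat_lit 0) (XT.nd (nat_lit 234) (nat_lit 228) (nat_lit 0) (XT.nd (nat_lit 78) (nat_lit 228) (nat_lit 0) (XT.lf (nat_lit 0) (nat_lit 6135315004) (nat_lit 0) (nat_lit 6628588949) (nat_lit 152) (nat_lit 6135315004) (nat_lit 177) (nat_lit 3) (nat_lit 177) (nat_lit 1) (nat_lit 179) (nat_lit 1) (nat_lit 288) (nat_lit 326) (nat_lit 286)) (XT.nd (nat_lit 78) (nat_lit 152) (nat_lit 0) (XT.lf (nat_lit 76) (nat_lit 5726457090) (nat_lit 0) (nat_lit 6155390955) (nat_lit 76) (nat_lit 6155390955) (nat_lit 177) (nat_lit 3) (nat_lit 176) (nat_lit 1) (nat_lit 177) (nat_lit 1) (nat_lit 289) (nat_lit 326) (nat_lit 285)) (XT.lf (nat_lit 152) (nat_lit 17023052346) (nat_lit 0) (nat_lit 113026051) (nat_lit 76)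 (nat_lit 113026051) (nat_lit 176) (nat_lit 1) (nat_lit 174) (nat_lit 1) (nat_lit 175) (nat_lit 1) (nat_lit 290) (nat_lit 326) (nat_lit 284)))) (XT.nd (nat_lit 78) (nat_lit 228) (nat_lit 0) (XT.lf (nat_lit 0) (nat_lit 5381692362) (nat_lit 0) (nat_lit 5663723341) (nat_lit 152) (nat_lit 5381692362) (nat_lit 174) (nat_lit 3) (nat_lit 174) (nat_lit 1) (nat_lit 176) (nat_lit 1) (nat_lit 291) (nat_lit 326) (nat_lit 283)) (XT.nd (nat_lit 78) (nat_lit 152) (nat_lit 0) (XT.lf (nat_lit 76) (nat_lit 5062753519) (nat_lit 0) (nat_lit 5307997848) (nat_lit 76) (nat_lit 5307997848) (nat_lit 174) (nat_lit 3) (nat_lit 173) (nat_lit 1) (nat_lit 174) (nat_lit 1) (nat_lit 292) (nat_lit 326) (nat_lit 282)) (XT.lf (nat_lit 152) (nat_lit 14865584735) (nat_lit 0) (nat_lit 64623011) (nat_lit 76) (nat_lit 64623011) (nat_lit 173) (nat_lit 1) (nat_lit 171) (nat_lit 1) (nat_lit 172) (nat_lit 1) (nat_lit 293) (nat_lit 326) (nat_lit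 281))))) (XT.nd (nat_lit 234) (nat_lit 228) (nat_lit 0) (XT.nd (nat_lit 78) (nat_lit 228) (nat_lit 0) (XT.lf (nat_lit 0) (nat_lit 4706396680) (nat_lit 0) (nat_lit 4867648807) (nat_lit 152) (nat_lit 4706396680) (nat_lit 171) (nat_lit 3) (nat_lit 171) (nat_lit 1) (nat_lit 173) (nat_lit 1) (nat_lit 294) (nat_lit 326) (nat_lit 280)) (XT.nd (nat_lit 78) (nat_lit 152) (nat_lit 0) (XT.lf (nat_lit 76) (nat_lit 4449978879) (nat_lit 0) (nat_lit 4590198120) (nat_lit 76) (nat_lit 4590198120) (nat_lit 171) (nat_lit 3) (nat_lit 170) (nat_lit 1) (nat_lit 171) (nat_lit 1) (nat_lit 295) (nat_lit 326) (nat_lit 279)) (XT.lf (nat_lit 152) (nat_lit 12962576151) (nat_lit 0) (nat_lit 36948416) (nat_lit 76) (nat_lit 36948416) (nat_lit 170) (nat_lit 1) (nat_lit 168) (nat_lit 1) (nat_lit 169) (nat_lit 1) (nat_lit 296) (nat_lit 326) (nat_lit 278)))) (XT.nd (nat_lit 78) (nat_lit 228) (nat_lit 0) (XT.lf (nat_lit 0) (nat_lit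 4107764190) (nat_lit 0) (nat_lit 4199960617) (nat_lit 152) (nat_lit 4107764190) (nat_lit 168) (nat_lit 3) (nat_lit 168) (nat_lit 1) (nat_lit 170) (nat_lit 1) (nat_lit 297) (nat_lit 326) (nat_lit 277)) (XT.nd (nat_lit 78) (nat_lit 152) (nat_lit 0) (XT.lf (nat_lit 76) (nat_lit 3896753452) (nat_lit 0) (nat_lit 3976924258) (nat_lit 76) (nat_lit 3976924258) (nat_lit 168) (nat_lit 3) (nat_lit 167) (nat_lit 1) (nat_lit 168) (nat_lit 1) (nat_lit 298) (nat_lit 326) (nat_lit 276)) (XT.lf (nat_lit 152) (nat_lit 11292377448) (nat_lit 0) (nat_lit 21125377) (nat_lit 76) (nat_lit 21125377) (nat_lit 167) (nat_lit 1) (nat_lit 165) (nat_lit 1) (nat_lit 166) (nat_lit 1) (nat_lit 299) (nat_lit 326) (nat_lit 275))))))))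
noncomputable def ec80 : XT := (XT.nd (nat_lit 1716) (nat_lit 1672) (nat_lit 0) (XT.nd (nat_lit 858) (nat_lit 836) (nat_lit 0) (XT.nd (nat_lit 390) (nat_lit 456) (nat_lit 0) (XT.nd (nat_lit 156) (nat_lit 228) (nat_lit 0) (XT.nd (nat_lit 78) (nat_lit 76) (nat_lit 0) (XT.lf (nat_lit 0) (nat_lit 3580685432) (nat_lit 0) (nat_lit 3633399038) (nat_lit 152) (nat_lit 3580685432) (nat_lit 165) (nat_lit 3) (nat_lit 165) (nat_lit 1) (nat_lit 167) (nat_lit 1) (nat_lit 300) (nat_lit 326) (nat_lit 274)) (XT.lf (nat_lit 76) (nat_lit 3404036725) (nat_lit 0) (nat_lit 3449874644) (nat_lit 76) (nat_lit 3449874644) (nat_lit 165) (nat_lit 3) (nat_lit 164) (nat_lit 1) (nat_lit 165) (nat_lit 1) (nat_lit 301) (nat_lit 326) (nat_lit 273))) (XT.nd (nat_lit 78) (nat_lit 76) (nat_lit 0) (XT.lf (nat_lit 152) (nat_lit 9831220815) (nat_lit 0) (nat_lit 12078502) (nat_lit 76) (nat_lit 12078502) (nat_lit 164) (nat_lit 1) (nat_lit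 162) (nat_lit 1) (nat_lit 163) (nat_lit 1) (nat_lit 302) (nat_lit 326) (nat_lit 272)) (XT.nd (nat_lit 78) (nat_lit 76) (nat_lit 0) (XT.lf (nat_lit 0) (nat_lit 3118623234) (nat_lit 0) (nat_lit 3148762410) (nat_lit 152) (nat_lit 3118623234) (nat_lit 162) (nat_lit 3) (nat_lit 162) (nat_lit 1) (nat_lit 164) (nat_lit 1) (nat_lit 303) (nat_lit 326) (nat_lit 271)) (XT.lf (nat_lit 76) (nat_lit 2968925821) (nat_lit 0) (nat_lit 2995133799) (nat_lit 76) (nat_lit 2995133799) (nat_lit 162) (nat_lit 3) (nat_lit 161) (nat_lit 1) (nat_lit 162) (nat_lit 1) (nat_lit 304) (nat_lit 326) (nat_lit 270))))) (XT.nd (nat_lit 234) (nat_lit 228) (nat_lit 0) (XT.nd (nat_lit 78) (nat_lit 76) (nat_lit 0) (XT.lf (nat_lit 152) (nat_lit 8555612720) (nat_lit 0) (nat_lit 6905923) (nat_lit 76) (nat_lit 6905923) (nat_lit 161) (nat_lit 1) (nat_lit 159) (nat_lit 1) (nat_lit 160) (nat_lit 1) (nat_lit 305) (nat_lit 326) (nat_lit 269))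 (XT.nd (nat_lit 78) (nat_lit 76) (nat_lit 0) (XT.lf (nat_lit 0) (nat_lit 2714695753) (nat_lit 0) (nat_lit 2731927924) (nat_lit 152) (nat_lit 2714695753) (nat_lit 159) (nat_lit 3) (nat_lit 159) (nat_lit 1) (nat_lit 161) (nat_lit 1) (nat_lit 306) (nat_lit 326) (nat_lit 268)) (XT.lf (nat_lit 76) (nat_lit 2586759735) (nat_lit 0) (nat_lit 2601744232) (nat_lit 76) (nat_lit 2601744232) (nat_lit 159) (nat_lit 3) (nat_lit 158) (nat_lit 1) (nat_lit 159) (nat_lit 1) (nat_lit 307) (nat_lit 326) (nat_lit 267)))) (XT.nd (nat_lit 78) (nat_lit 76) (nat_lit 0) (XT.lf (nat_lit 152) (nat_lit 7443508308) (nat_lit 0) (nat_lit 3948484) (nat_lit 76) (nat_lit 3948484) (nat_lit 158) (nat_lit 1) (nat_lit 156) (nat_lit 1) (nat_lit 157) (nat_lit 1) (nat_lit 308) (nat_lit 326) (nat_lit 266)) (XT.nd (nat_lit 78) (nat_lit 76) (nat_lit 0) (XT.lf (nat_lit 0) (nat_lit 2362234192) (nat_lit 0) (nat_lit 2372086742) (nat_lit 152) (nat_lit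 2362234192) (nat_lit 156) (nat_lit 3) (nat_lit 156) (nat_lit 1) (nat_lit 158) (nat_lit 1) (nat_lit 309) (nat_lit 326) (nat_lit 265)) (XT.lf (nat_lit 76) (nat_lit 2252263718) (nat_lit 0) (nat_lit 2260831153) (nat_lit 76) (nat_lit 2260831153) (nat_lit 156) (nat_lit 3) (nat_lit 155) (nat_lit 1) (nat_lit 156) (nat_lit 1) (nat_lit 310) (nat_lit 326) (nat_lit 264)))))) (XT.nd (nat_lit 390) (nat_lit 456) (nat_lit 0) (XT.nd (nat_lit 156) (nat_lit 228) (nat_lit 0) (XT.nd (nat_lit 78) (nat_lit 0) (nat_lit 0) (XT.lf (nat_lit 152) (nat_lit 6474814352) (nat_lit 0) (nat_lit 2257558) (nat_lit 76) (nat_lit 2257558) (nat_lit 155) (nat_lit 1) (nat_lit 153) (nat_lit 1) (nat_lit 154) (nat_lit 1) (nat_lit 311) (nat_lit 326) (nat_lit 263)) (XT.lf (nat_lit 0) (nat_lit 2055048183) (nat_lit 0) (nat_lit 2060681410) (nat_lit 152) (nat_lit 2055048183) (nat_lit 153) (nat_lit 3) (nat_lit 153) (nat_lit 1) (nat_lit 155) (nat_lit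 1) (nat_lit 312) (nat_lit 326) (nat_lit 262))) (XT.nd (nat_lit 78) (nat_lit 152) (nat_lit 0) (XT.lf (nat_lit 76) (nat_lit 1960152521) (nat_lit 0) (nat_lit 1965050979) (nat_lit 76) (nat_lit 1965050979) (nat_lit 153) (nat_lit 3) (nat_lit 152) (nat_lit 1) (nat_lit 153) (nat_lit 1) (nat_lit 313) (nat_lit 326) (nat_lit 261)) (XT.nd (nat_lit 78) (nat_lit 0) (nat_lit 0) (XT.lf (nat_lit 152) (nat_lit 5631530311) (nat_lit 0) (nat_lit 1290766) (nat_lit 76) (nat_lit 1290766) (nat_lit 152) (nat_lit 1) (nat_lit 150) (nat_lit 1) (nat_lit 151) (nat_lit 1) (nat_lit 314) (nat_lit 326) (nat_lit 260)) (XT.lf (nat_lit 0) (nat_lit 1787531005) (nat_lit 0) (nat_lit 1790751821) (nat_lit 152) (nat_lit 1787531005) (nat_lit 150) (nat_lit 3) (nat_lit 150) (nat_lit 1) (nat_lit 152) (nat_lit 1) (nat_lit 315) (nat_lit 326) (nat_lit 259))))) (XT.nd (nat_lit 234) (nat_lit 228) (nat_lit 0) (XT.nd (nat_lit 78) (nat_lit 152) (nat_lit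 0) (XT.lf (nat_lit 76) (nat_lit 1705430896) (nat_lit 0) (nat_lit 1708231605) (nat_lit 76) (nat_lit 1708231605) (nat_lit 150) (nat_lit 3) (nat_lit 149) (nat_lit 1) (nat_lit 150) (nat_lit 1) (nat_lit 316) (nat_lit 326) (nat_lit 258)) (XT.nd (nat_lit 78) (nat_lit 0) (nat_lit 0) (XT.lf (nat_lit 152) (nat_lit 4897701550) (nat_lit 0) (nat_lit 737999) (nat_lit 76) (nat_lit 737999) (nat_lit 149) (nat_lit 1) (nat_lit 147) (nat_lit 1) (nat_lit 148) (nat_lit 1) (nat_lit 317) (nat_lit 326) (nat_lit 257)) (XT.lf (nat_lit 0) (nat_lit 1554679294) (nat_lit 0) (nat_lit 1556520806) (nat_lit 152) (nat_lit 1554679294) (nat_lit 147) (nat_lit 3) (nat_lit 147) (nat_lit 1) (nat_lit 149) (nat_lit 1) (nat_lit 318) (nat_lit 326) (nat_lit 256)))) (XT.nd (nat_lit 78) (nat_lit 152) (nat_lit 0) (XT.lf (nat_lit 76) (nat_lit 1483526806) (nat_lit 0) (nat_lit 1485128121) (nat_lit 76) (nat_lit 1485128121) (nat_lit 147) (nat_lit 3)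 (nat_lit 146) (nat_lit 1) (nat_lit 147) (nat_lit 1) (nat_lit 319) (nat_lit 326) (nat_lit 255)) (XT.nd (nat_lit 78) (nat_lit 0) (nat_lit 0) (XT.lf (nat_lit 152) (nat_lit 4259281816) (nat_lit 0) (nat_lit 421953) (nat_lit 76) (nat_lit 421953) (nat_lit 146) (nat_lit 1) (nat_lit 144) (nat_lit 1) (nat_lit 145) (nat_lit 1) (nat_lit 320) (nat_lit 326) (nat_lit 254)) (XT.lf (nat_lit 0) (nat_lit 1352069141) (nat_lit 0) (nat_lit 1353122032) (nat_lit 152) (nat_lit 1352069141) (nat_lit 144) (nat_lit 3) (nat_lit 144) (nat_lit 1) (nat_lit 146) (nat_lit 1) (nat_lit 321) (nat_lit 326) (nat_lit 253))))))) (XT.nd (nat_lit 858) (nat_lit 760) (nat_lit 0) (XT.nd (nat_lit 390) (nat_lit 456) (nat_lit 0) (XT.nd (nat_lit 156) (nat_lit 228) (nat_lit 0) (XT.nd (nat_lit 78) (nat_lit 152) (nat_lit 0) (XT.lf (nat_lit 76) (nat_lit 1290334011) (nat_lit 0) (nat_lit 1291249568) (nat_lit 76) (nat_lit 1291249568) (nat_lit 144) (nat_lit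 3) (nat_lit 143) (nat_lit 1) (nat_lit 144) (nat_lit 1) (nat_lit 322) (nat_lit 326) (nat_lit 252)) (XT.lf (nat_lit 152) (nat_lit 3703958253) (nat_lit 0) (nat_lit 241253) (nat_lit 76) (nat_lit 241253) (nat_lit 143) (nat_lit 1) (nat_lit 141) (nat_lit 1) (nat_lit 142) (nat_lit 1) (nat_lit 323) (nat_lit 326) (nat_lit 251))) (XT.nd (nat_lit 78) (nat_lit 228) (nat_lit 0) (XT.lf (nat_lit 0) (nat_lit 1175811841) (nat_lit 0) (nat_lit 1176413834) (nat_lit 152) (nat_lit 1175811841) (nat_lit 141) (nat_lit 3) (nat_lit 141) (nat_lit 1) (nat_lit 143) (nat_lit 1) (nat_lit 324) (nat_lit 326) (nat_lit 250)) (XT.nd (nat_lit 78) (nat_lit 152) (nat_lit 0) (XT.lf (nat_lit 76) (nat_lit 1122207220) (nat_lit 0) (nat_lit 1122730692) (nat_lit 76) (nat_lit 1122730692) (nat_lit 141) (nat_lit 3) (nat_lit 140) (nat_lit 1) (nat_lit 141) (nat_lit 1) (nat_lit 325) (nat_lit 326) (nat_lit 249)) (XT.lf (nat_lit 152) (nat_lit 3220967588)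 (nat_lit 0) (nat_lit 137937) (nat_lit 76) (nat_lit 137937) (nat_lit 140) (nat_lit 1) (nat_lit 138) (nat_lit 1) (nat_lit 139) (nat_lit 1) (nat_lit 326) (nat_lit 326) (nat_lit 248))))) (XT.nd (nat_lit 234) (nat_lit 228) (nat_lit 0) (XT.nd (nat_lit 78) (nat_lit 228) (nat_lit 0) (XT.lf (nat_lit 0) (nat_lit 1022501993) (nat_lit 0) (nat_lit 1022846185) (nat_lit 152) (nat_lit 1022501993) (nat_lit 138) (nat_lit 3) (nat_lit 138) (nat_lit 1) (nat_lit 140) (nat_lit 1) (nat_lit 327) (nat_lit 326) (nat_lit 247)) (XT.nd (nat_lit 78) (nat_lit 152) (nat_lit 0) (XT.lf (nat_lit 76) (nat_lit 975933934) (nat_lit 0) (nat_lit 976233231) (nat_lit 76) (nat_lit 976233231) (nat_lit 138) (nat_lit 3) (nat_lit 137) (nat_lit 1) (nat_lit 138) (nat_lit 1) (nat_lit 328) (nat_lit 326) (nat_lit 246)) (XT.lf (nat_lit 152) (nat_lit 2800918182) (nat_lit 0) (nat_lit 78866) (nat_lit 76) (nat_lit 78866) (nat_lit 137) (nat_lit 1) (nat_lit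 135) (nat_lit 1) (nat_lit 136) (nat_lit 1) (nat_lit 329) (nat_lit 326) (nat_lit 245)))) (XT.nd (nat_lit 78) (nat_lit 228) (nat_lit 0) (XT.lf (nat_lit 0) (nat_lit 889164709) (nat_lit 0) (nat_lit 889361502) (nat_lit 152) (nat_lit 889164709) (nat_lit 135) (nat_lit 3) (nat_lit 135) (nat_lit 1) (nat_lit 137) (nat_lit 1) (nat_lit 330) (nat_lit 326) (nat_lit 244)) (XT.nd (nat_lit 78) (nat_lit 152) (nat_lit 0) (XT.lf (nat_lit 76) (nat_lit 848696276) (nat_lit 0) (nat_lit 848867400) (nat_lit 76) (nat_lit 848867400) (nat_lit 135) (nat_lit 3) (nat_lit 134) (nat_lit 1) (nat_lit 135) (nat_lit 1) (nat_lit 331) (nat_lit 326) (nat_lit 243)) (XT.lf (nat_lit 152) (nat_lit 2435624939) (nat_lit 0) (nat_lit 45091) (nat_lit 76) (nat_lit 45091) (nat_lit 134) (nat_lit 1) (nat_lit 132) (nat_lit 1) (nat_lit 133) (nat_lit 1) (nat_lit 332) (nat_lit 326) (nat_lit 242)))))) (XT.nd (nat_lit 390) (nat_lit 456) (nat_lit 0) (XT.nd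 (nat_lit 156) (nat_lit 228) (nat_lit 0) (XT.nd (nat_lit 78) (nat_lit 76) (nat_lit 0) (XT.lf (nat_lit 0) (nat_lit 773205309) (nat_lit 0) (nat_lit 773317826) (nat_lit 152) (nat_lit 773205309) (nat_lit 132) (nat_lit 3) (nat_lit 132) (nat_lit 1) (nat_lit 134) (nat_lit 1) (nat_lit 333) (nat_lit 326) (nat_lit 241)) (XT.lf (nat_lit 76) (nat_lit 738029964) (nat_lit 0) (nat_lit 738127805) (nat_lit 76) (nat_lit 738127805) (nat_lit 132) (nat_lit 3) (nat_lit 131) (nat_lit 1) (nat_lit 132) (nat_lit 1) (nat_lit 334) (nat_lit 326) (nat_lit 240))) (XT.nd (nat_lit 78) (nat_lit 76) (nat_lit 0) (XT.lf (nat_lit 152) (nat_lit 2117959835) (nat_lit 0) (nat_lit 25781) (nat_lit 76) (nat_lit 25781) (nat_lit 131) (nat_lit 1) (nat_lit 129) (nat_lit 1) (nat_lit 130) (nat_lit 1) (nat_lit 335) (nat_lit 326) (nat_lit 239)) (XT.nd (nat_lit 78) (nat_lit 76) (nat_lit 0) (XT.lf (nat_lit 0) (nat_lit 672363080) (nat_lit 0) (nat_lit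 672427412) (nat_lit 152) (nat_lit 672363080) (nat_lit 129) (nat_lit 3) (nat_lit 129) (nat_lit 1) (nat_lit 131) (nat_lit 1) (nat_lit 336) (nat_lit 326) (nat_lit 238)) (XT.lf (nat_lit 76) (nat_lit 641784170) (nat_lit 0) (nat_lit 641840111) (nat_lit 76) (nat_lit 641840111) (nat_lit 129) (nat_lit 3) (nat_lit 128) (nat_lit 1) (nat_lit 129) (nat_lit 1) (nat_lit 337) (nat_lit 326) (nat_lit 237))))) (XT.nd (nat_lit 234) (nat_lit 228) (nat_lit 0) (XT.nd (nat_lit 78) (nat_lit 76) (nat_lit 0) (XT.lf (nat_lit 152) (nat_lit 1841718559) (nat_lit 0) (nat_lit 14740) (nat_lit 76) (nat_lit 14740) (nat_lit 128) (nat_lit 1) (nat_lit 126) (nat_lit 1) (nat_lit 127) (nat_lit 1) (nat_lit 338) (nat_lit 326) (nat_lit 236)) (XT.nd (nat_lit 78) (nat_lit 76) (nat_lit 0) (XT.lf (nat_lit 0) (nat_lit 584669630) (nat_lit 0) (nat_lit 584706412) (nat_lit 152) (nat_lit 584669630) (nat_lit 126) (nat_lit 3) (nat_lit 126) (nat_lit 1)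 (nat_lit 128) (nat_lit 1) (nat_lit 339) (nat_lit 326) (nat_lit 235)) (XT.lf (nat_lit 76) (nat_lit 558084046) (nat_lit 0) (nat_lit 558116030) (nat_lit 76) (nat_lit 558116030) (nat_lit 126) (nat_lit 3) (nat_lit 125) (nat_lit 1) (nat_lit 126) (nat_lit 1) (nat_lit 340) (nat_lit 326) (nat_lit 234)))) (XT.nd (nat_lit 78) (nat_lit 76) (nat_lit 0) (XT.lf (nat_lit 152) (nat_lit 1601502607) (nat_lit 0) (nat_lit 8428) (nat_lit 76) (nat_lit 8428) (nat_lit 125) (nat_lit 1) (nat_lit 123) (nat_lit 1) (nat_lit 124) (nat_lit 1) (nat_lit 341) (nat_lit 326) (nat_lit 233)) (XT.nd (nat_lit 78) (nat_lit 76) (nat_lit 0) (XT.lf (nat_lit 0) (nat_lit 508411851) (nat_lit 0) (nat_lit 508432882) (nat_lit 152) (nat_lit 508411851) (nat_lit 123) (nat_lit 3) (nat_lit 123) (nat_lit 1) (nat_lit 125) (nat_lit 1) (nat_lit 342) (nat_lit 326) (nat_lit 232)) (XT.lf (nat_lit 76) (nat_lit 485296680) (nat_lit 0) (nat_lit 485314967) (nat_lit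 76) (nat_lit 485314967) (nat_lit 123) (nat_lit 3) (nat_lit 122) (nat_lit 1) (nat_lit 123) (nat_lit 1) (nat_lit 343) (nat_lit 326) (nat_lit 231))))))))
noncomputable def ec81 : XT := (XT.nd (nat_lit 1716) (nat_lit 456) (nat_lit 0) (XT.nd (nat_lit 858) (nat_lit 912) (nat_lit 0) (XT.nd (nat_lit 390) (nat_lit 456) (nat_lit 0) (XT.nd (nat_lit 156) (nat_lit 228) (nat_lit 0) (XT.nd (nat_lit 78) (nat_lit 0) (nat_lit 0) (XT.lf (nat_lit 152) (nat_lit 1392615655) (nat_lit 0) (nat_lit 4818) (nat_lit 76) (nat_lit 4818) (nat_lit 122) (nat_lit 1) (nat_lit 120) (nat_lit 1) (nat_lit 121) (nat_lit 1) (nat_lit 344) (nat_lit 326) (nat_lit 230)) (XT.lf (nat_lit 0) (nat_lit 442099250) (nat_lit 0) (nat_lit 442111274) (nat_lit 152) (nat_lit 442099250) (nat_lit 120) (nat_lit 3) (nat_lit 120) (nat_lit 1) (nat_lit 122) (nat_lit 1) (nat_lit 345) (nat_lit 326) (nat_lit 229))) (XT.nd (nat_lit 78) (nat_lit 152) (nat_lit 0) (XT.lf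 (nat_lit 76) (nat_lit 422000661) (nat_lit 0) (nat_lit 422011117) (nat_lit 76) (nat_lit 422011117) (nat_lit 120) (nat_lit 3) (nat_lit 119) (nat_lit 1) (nat_lit 120) (nat_lit 1) (nat_lit 346) (nat_lit 326) (nat_lit 228)) (XT.nd (nat_lit 78) (nat_lit 0) (nat_lit 0) (XT.lf (nat_lit 152) (nat_lit 1210972817) (nat_lit 0) (nat_lit 2755) (nat_lit 76) (nat_lit 2755) (nat_lit 119) (nat_lit 1) (nat_lit 117) (nat_lit 1) (nat_lit 118) (nat_lit 1) (nat_lit 347) (nat_lit 326) (nat_lit 227)) (XT.lf (nat_lit 0) (nat_lit 384435267) (nat_lit 0) (nat_lit 384442142) (nat_lit 152) (nat_lit 384435267) (nat_lit 117) (nat_lit 3) (nat_lit 117) (nat_lit 1) (nat_lit 119) (nat_lit 1) (nat_lit 348) (nat_lit 326) (nat_lit 226))))) (XT.nd (nat_lit 234) (nat_lit 228) (nat_lit 0) (XT.nd (nat_lit 78) (nat_lit 152) (nat_lit 0) (XT.lf (nat_lit 76) (nat_lit 366959126) (nat_lit 0) (nat_lit 366965104) (nat_lit 76) (nat_lit 366965104)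 (nat_lit 117) (nat_lit 3) (nat_lit 116) (nat_lit 1) (nat_lit 117) (nat_lit 1) (nat_lit 349) (nat_lit 326) (nat_lit 225)) (XT.nd (nat_lit 78) (nat_lit 0) (nat_lit 0) (XT.lf (nat_lit 152) (nat_lit 1053021375) (nat_lit 0) (nat_lit 1575) (nat_lit 76) (nat_lit 1575) (nat_lit 116) (nat_lit 1) (nat_lit 114) (nat_lit 1) (nat_lit 115) (nat_lit 1) (nat_lit 350) (nat_lit 326) (nat_lit 224)) (XT.lf (nat_lit 0) (nat_lit 334292187) (nat_lit 0) (nat_lit 334296118) (nat_lit 152) (nat_lit 334292187) (nat_lit 114) (nat_lit 3) (nat_lit 114) (nat_lit 1) (nat_lit 116) (nat_lit 1) (nat_lit 351) (nat_lit 326) (nat_lit 223)))) (XT.nd (nat_lit 78) (nat_lit 152) (nat_lit 0) (XT.lf (nat_lit 76) (nat_lit 319096052) (nat_lit 0) (nat_lit 319099470) (nat_lit 76) (nat_lit 319099470) (nat_lit 114) (nat_lit 3) (nat_lit 113) (nat_lit 1) (nat_lit 114) (nat_lit 1) (nat_lit 352) (nat_lit 326) (nat_lit 222)) (XT.nd (nat_lit 78) (nat_lit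 0) (nat_lit 0) (XT.lf (nat_lit 152) (nat_lit 915671638) (nat_lit 0) (nat_lit 900) (nat_lit 76) (nat_lit 900) (nat_lit 113) (nat_lit 1) (nat_lit 111) (nat_lit 1) (nat_lit 112) (nat_lit 1) (nat_lit 353) (nat_lit 326) (nat_lit 221)) (XT.lf (nat_lit 0) (nat_lit 290689230) (nat_lit 0) (nat_lit 290691477) (nat_lit 152) (nat_lit 290689230) (nat_lit 111) (nat_lit 3) (nat_lit 111) (nat_lit 1) (nat_lit 113) (nat_lit 1) (nat_lit 354) (nat_lit 326) (nat_lit 220)))))) (XT.nd (nat_lit 390) (nat_lit 456) (nat_lit 0) (XT.nd (nat_lit 156) (nat_lit 228) (nat_lit 0) (XT.nd (nat_lit 78) (nat_lit 152) (nat_lit 0) (XT.lf (nat_lit 76) (nat_lit 277475491) (nat_lit 0) (nat_lit 277477445) (nat_lit 76) (nat_lit 277477445) (nat_lit 111) (nat_lit 3) (nat_lit 110) (nat_lit 1) (nat_lit 111) (nat_lit 1) (nat_lit 355) (nat_lit 326) (nat_lit 219)) (XT.lf (nat_lit 152) (nat_lit 796236708) (nat_lit 0) (nat_lit 514) (nat_lit 76) (nat_lit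 514) (nat_lit 110) (nat_lit 1) (nat_lit 108) (nat_lit 1) (nat_lit 109) (nat_lit 1) (nat_lit 356) (nat_lit 326) (nat_lit 218))) (XT.nd (nat_lit 78) (nat_lit 228) (nat_lit 0) (XT.lf (nat_lit 0) (nat_lit 252773456) (nat_lit 0) (nat_lit 252774741) (nat_lit 152) (nat_lit 252773456) (nat_lit 108) (nat_lit 3) (nat_lit 108) (nat_lit 1) (nat_lit 110) (nat_lit 1) (nat_lit 357) (nat_lit 326) (nat_lit 217)) (XT.nd (nat_lit 78) (nat_lit 152) (nat_lit 0) (XT.lf (nat_lit 76) (nat_lit 241283414) (nat_lit 0) (nat_lit 241284532) (nat_lit 76) (nat_lit 241284532) (nat_lit 108) (nat_lit 3) (nat_lit 107) (nat_lit 1) (nat_lit 108) (nat_lit 1) (nat_lit 358) (nat_lit 326) (nat_lit 216)) (XT.lf (nat_lit 152) (nat_lit 692380033) (nat_lit 0) (nat_lit 294) (nat_lit 76) (nat_lit 294) (nat_lit 107) (nat_lit 1) (nat_lit 105) (nat_lit 1) (nat_lit 106) (nat_lit 1) (nat_lit 359) (nat_lit 326) (nat_lit 215))))) (XT.nd (nat_lit 234)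 (nat_lit 228) (nat_lit 0) (XT.nd (nat_lit 78) (nat_lit 228) (nat_lit 0) (XT.lf (nat_lit 0) (nat_lit 219803126) (nat_lit 0) (nat_lit 219803861) (nat_lit 152) (nat_lit 219803126) (nat_lit 105) (nat_lit 3) (nat_lit 105) (nat_lit 1) (nat_lit 107) (nat_lit 1) (nat_lit 360) (nat_lit 326) (nat_lit 214)) (XT.nd (nat_lit 78) (nat_lit 152) (nat_lit 0) (XT.lf (nat_lit 76) (nat_lit 209811881) (nat_lit 0) (nat_lit 209812520) (nat_lit 76) (nat_lit 209812520) (nat_lit 105) (nat_lit 3) (nat_lit 104) (nat_lit 1) (nat_lit 105) (nat_lit 1) (nat_lit 361) (nat_lit 326) (nat_lit 213)) (XT.lf (nat_lit 152) (nat_lit 602069758) (nat_lit 0) (nat_lit 168) (nat_lit 76) (nat_lit 168) (nat_lit 104) (nat_lit 1) (nat_lit 102) (nat_lit 1) (nat_lit 103) (nat_lit 1) (nat_lit 362) (nat_lit 326) (nat_lit 212)))) (XT.nd (nat_lit 78) (nat_lit 228) (nat_lit 0) (XT.lf (nat_lit 0) (nat_lit 191133223) (nat_lit 0) (nat_lit 191133643) (nat_lit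 152) (nat_lit 191133223) (nat_lit 102) (nat_lit 3) (nat_lit 102) (nat_lit 1) (nat_lit 104) (nat_lit 1) (nat_lit 363) (nat_lit 326) (nat_lit 211)) (XT.nd (nat_lit 78) (nat_lit 152) (nat_lit 0) (XT.lf (nat_lit 76) (nat_lit 182445238) (nat_lit 0) (nat_lit 182445603) (nat_lit 76) (nat_lit 182445603) (nat_lit 102) (nat_lit 3) (nat_lit 101) (nat_lit 1) (nat_lit 102) (nat_lit 1) (nat_lit 364) (nat_lit 326) (nat_lit 210)) (XT.lf (nat_lit 152) (nat_lit 523539014) (nat_lit 0) (nat_lit 96) (nat_lit 76) (nat_lit 96) (nat_lit 101) (nat_lit 1) (nat_lit 99) (nat_lit 1) (nat_lit 100) (nat_lit 1) (nat_lit 365) (nat_lit 326) (nat_lit 209))))))) (XT.nd (nat_lit 37908) (nat_lit 0) (nat_lit 8208) (XT.nd (nat_lit 390) (nat_lit 152) (nat_lit 0) (XT.nd (nat_lit 156) (nat_lit 228) (nat_lit 0) (XT.nd (nat_lit 78) (nat_lit 76) (nat_lit 0) (XT.lf (nat_lit 0) (nat_lit 166202842) (nat_lit 0) (nat_lit 166203082) (nat_lit 152)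 (nat_lit 166202842) (nat_lit 99) (nat_lit 3) (nat_lit 99) (nat_lit 1) (nat_lit 101) (nat_lit 1) (nat_lit 366) (nat_lit 326) (nat_lit 208)) (XT.lf (nat_lit 76) (nat_lit 158648104) (nat_lit 0) (nat_lit 158648313) (nat_lit 76) (nat_lit 158648313) (nat_lit 99) (nat_lit 3) (nat_lit 98) (nat_lit 1) (nat_lit 99) (nat_lit 1) (nat_lit 367) (nat_lit 326) (nat_lit 207))) (XT.nd (nat_lit 78) (nat_lit 76) (nat_lit 0) (XT.lf (nat_lit 152) (nat_lit 455251370) (nat_lit 0) (nat_lit 55) (nat_lit 76) (nat_lit 55) (nat_lit 98) (nat_lit 1) (nat_lit 96) (nat_lit 1) (nat_lit 97) (nat_lit 1) (nat_lit 368) (nat_lit 326) (nat_lit 206)) (XT.nd (nat_lit 78) (nat_lit 76) (nat_lit 0) (XT.lf (nat_lit 0) (nat_lit 144524233) (nat_lit 0) (nat_lit 144524370) (nat_lit 152) (nat_lit 144524233) (nat_lit 96) (nat_lit 3) (nat_lit 96) (nat_lit 1) (nat_lit 98) (nat_lit 1) (nat_lit 369) (nat_lit 326) (nat_lit 205)) (XT.lf (nat_lit 76) (nat_lit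 137954914) (nat_lit 0) (nat_lit 137955033) (nat_lit 76) (nat_lit 137955033) (nat_lit 96) (nat_lit 3) (nat_lit 95) (nat_lit 1) (nat_lit 96) (nat_lit 1) (nat_lit 370) (nat_lit 326) (nat_lit 204))))) (XT.nd (nat_lit 37284) (nat_lit 0) (nat_lit 9348) (XT.nd (nat_lit 37128) (nat_lit 0) (nat_lit 9272) (XT.lf (nat_lit 152) (nat_lit 395870787) (nat_lit 0) (nat_lit 31) (nat_lit 76) (nat_lit 31) (nat_lit 95) (nat_lit 1) (nat_lit 93) (nat_lit 1) (nat_lit 94) (nat_lit 1) (nat_lit 371) (nat_lit 326) (nat_lit 203)) (XT.nd (nat_lit 78) (nat_lit 0) (nat_lit 0) (XT.lf (nat_lit 380) (nat_lit 30546828569) (nat_lit 0) (nat_lit 27056077866) (nat_lit 380) (nat_lit 30546828569) (nat_lit 220) (nat_lit 1) (nat_lit 215) (nat_lit 0) (nat_lit 220) (nat_lit 0) (nat_lit 246) (nat_lit 327) (nat_lit 327)) (XT.lf (nat_lit 380) (nat_lit 112988754670) (nat_lit 76) (nat_lit 25826256145) (nat_lit 0) (nat_lit 25826256145) (nat_lit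 220) (nat_lit 1) (nat_lit 216) (nat_lit 1) (nat_lit 215) (nat_lit 0) (nat_lit 247) (nat_lit 327) (nat_lit 326)))) (XT.nd (nat_lit 78) (nat_lit 0) (nat_lit 0) (XT.lf (nat_lit 380) (nat_lit 49804795147) (nat_lit 0) (nat_lit 54192315288) (nat_lit 304) (nat_lit 49804795147) (nat_lit 221) (nat_lit 1) (nat_lit 216) (nat_lit 1) (nat_lit 220) (nat_lit 1) (nat_lit 248) (nat_lit 327) (nat_lit 325)) (XT.nd (nat_lit 78) (nat_lit 0) (nat_lit 76) (XT.lf (nat_lit 380) (nat_lit 85512247258) (nat_lit 76) (nat_lit 29271414189) (nat_lit 0) (nat_lit 29271414189) (nat_lit 221) (nat_lit 1) (nat_lit 217) (nat_lit 1) (nat_lit 216) (nat_lit 1) (nat_lit 249) (nat_lit 327) (nat_lit 324)) (XT.lf (nat_lit 76) (nat_lit 34590838160) (nat_lit 0) (nat_lit 65866763046) (nat_lit 304) (nat_lit 34590838160) (nat_lit 218) (nat_lit 1) (nat_lit 217) (nat_lit 1) (nat_lit 221) (nat_lit 1) (nat_lit 250) (nat_lit 327) (nat_lit 323))))))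 (XT.nd (nat_lit 468) (nat_lit 380) (nat_lit 0) (XT.nd (nat_lit 234) (nat_lit 380) (nat_lit 0) (XT.nd (nat_lit 78) (nat_lit 152) (nat_lit 0) (XT.lf (nat_lit 380) (nat_lit 51987236079) (nat_lit 0) (nat_lit 37419415627) (nat_lit 304) (nat_lit 37419415627) (nat_lit 218) (nat_lit 1) (nat_lit 213) (nat_lit 1) (nat_lit 217) (nat_lit 1) (nat_lit 251) (nat_lit 327) (nat_lit 322)) (XT.nd (nat_lit 78) (nat_lit 152) (nat_lit 0) (XT.lf (nat_lit 76) (nat_lit 17279983121) (nat_lit 0) (nat_lit 84793310281) (nat_lit 380) (nat_lit 17279983121) (nat_lit 214) (nat_lit 1) (nat_lit 213) (nat_lit 1) (nat_lit 218) (nat_lit 1) (nat_lit 252) (nat_lit 327) (nat_lit 321)) (XT.lf (nat_lit 228) (nat_lit 15551577182) (nat_lit 0) (nat_lit 48400446620) (nat_lit 152) (nat_lit 48400446620) (nat_lit 214) (nat_lit 1) (nat_lit 211) (nat_lit 1) (nat_lit 213) (nat_lit 1) (nat_lit 253) (nat_lit 327) (nat_lit 320)))) (XT.nd (nat_lit 78)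 (nat_lit 152) (nat_lit 0) (XT.lf (nat_lit 228) (nat_lit 104506402983) (nat_lit 0) (nat_lit 819958400) (nat_lit 152) (nat_lit 819958400) (nat_lit 211) (nat_lit 1) (nat_lit 208) (nat_lit 1) (nat_lit 210) (nat_lit 1) (nat_lit 254) (nat_lit 327) (nat_lit 319)) (XT.nd (nat_lit 78) (nat_lit 152) (nat_lit 0) (XT.lf (nat_lit 76) (nat_lit 40152028007) (nat_lit 0) (nat_lit 19712508473) (nat_lit 228) (nat_lit 40152028007) (nat_lit 209) (nat_lit 1) (nat_lit 208) (nat_lit 1) (nat_lit 211) (nat_lit 1) (nat_lit 255) (nat_lit 327) (nat_lit 318)) (XT.lf (nat_lit 228) (nat_lit 58362513798) (nat_lit 0) (nat_lit 18103478056) (nat_lit 152) (nat_lit 18103478056) (nat_lit 209) (nat_lit 1) (nat_lit 206) (nat_lit 1) (nat_lit 208) (nat_lit 1) (nat_lit 256) (nat_lit 327) (nat_lit 317))))) (XT.nd (nat_lit 234) (nat_lit 76) (nat_lit 0) (XT.nd (nat_lit 78) (nat_lit 304) (nat_lit 0) (XT.lf (nat_lit 76) (nat_lit 18251872274)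 (nat_lit 0) (nat_lit 52966621296) (nat_lit 228) (nat_lit 18251872274) (nat_lit 207) (nat_lit 1) (nat_lit 206) (nat_lit 1) (nat_lit 209) (nat_lit 1) (nat_lit 257) (nat_lit 327) (nat_lit 316)) (XT.nd (nat_lit 78) (nat_lit 228) (nat_lit 0) (XT.lf (nat_lit 152) (nat_lit 15088545418) (nat_lit 0) (nat_lit 34816892770) (nat_lit 76) (nat_lit 34816892770) (nat_lit 207) (nat_lit 1) (nat_lit 205) (nat_lit 1) (nat_lit 206) (nat_lit 1) (nat_lit 258) (nat_lit 327) (nat_lit 315)) (XT.lf (nat_lit 228) (nat_lit 76387086312) (nat_lit 0) (nat_lit 2029301128) (nat_lit 152) (nat_lit 2029301128) (nat_lit 205) (nat_lit 1) (nat_lit 202) (nat_lit 1) (nat_lit 204) (nat_lit 1) (nat_lit 259) (nat_lit 327) (nat_lit 314)))) (XT.nd (nat_lit 78) (nat_lit 76) (nat_lit 0) (XT.lf (nat_lit 76) (nat_lit 26733837316) (nat_lit 0) (nat_lit 22703246887) (nat_lit 228) (nat_lit 26733837316) (nat_lit 203) (nat_lit 1) (nat_lit 202) (nat_lit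 1) (nat_lit 205) (nat_lit 1) (nat_lit 260) (nat_lit 327) (nat_lit 313)) (XT.nd (nat_lit 78) (nat_lit 0) (nat_lit 0) (XT.lf (nat_lit 152) (nat_lit 32505785666) (nat_lit 0) (nat_lit 19906671442) (nat_lit 76) (nat_lit 19906671442) (nat_lit 203) (nat_lit 1) (nat_lit 201) (nat_lit 1) (nat_lit 202) (nat_lit 1) (nat_lit 261) (nat_lit 327) (nat_lit 312)) (XT.lf (nat_lit 0) (nat_lit 6365080787) (nat_lit 0) (nat_lit 56037682497) (nat_lit 152) (nat_lit 6365080787) (nat_lit 201) (nat_lit 3) (nat_lit 201) (nat_lit 1) (nat_lit 203) (nat_lit 1) (nat_lit 262) (nat_lit 327) (nat_lit 311))))))))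
noncomputable def ec82 : XT := (XT.nd (nat_lit 1716) (nat_lit 1748) (nat_lit 0) (XT.nd (nat_lit 858) (nat_lit 760) (nat_lit 0) (XT.nd (nat_lit 390) (nat_lit 456) (nat_lit 0) (XT.nd (nat_lit 156) (nat_lit 228) (nat_lit 0) (XT.nd (nat_lit 78) (nat_lit 76) (nat_lit 0) (XT.lf (nat_lit 76) (nat_lit 29457567040) (nat_lit 0) (nat_lit 6388837052) (nat_lit 152) (nat_lit 29457567040) (nat_lit 200) (nat_lit 1) (nat_lit 199) (nat_lit 1) (nat_lit 201) (nat_lit 1) (nat_lit 263) (nat_lit 327) (nat_lit 310)) (XT.lf (nat_lit 152) (nat_lit 39349515283) (nat_lit 0) (nat_lit 11381704006) (nat_lit 76) (nat_lit 11381704006) (nat_lit 200) (nat_lit 1) (nat_lit 198) (nat_lit 1) (nat_lit 199) (nat_lit 1) (nat_lit 264) (nat_lit 327) (nat_lit 309))) (XT.nd (nat_lit 78) (nat_lit 228) (nat_lit 0) (XT.lf (nat_lit 0) (nat_lit 10231073639) (nat_lit 0) (nat_lit 38631544883) (nat_lit 152) (nat_lit 10231073639) (nat_lit 198) (nat_lit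 3) (nat_lit 198) (nat_lit 1) (nat_lit 200) (nat_lit 1) (nat_lit 265) (nat_lit 327) (nat_lit 308)) (XT.nd (nat_lit 78) (nat_lit 152) (nat_lit 0) (XT.lf (nat_lit 76) (nat_lit 2282369700) (nat_lit 0) (nat_lit 26978431652) (nat_lit 76) (nat_lit 26978431652) (nat_lit 198) (nat_lit 3) (nat_lit 197) (nat_lit 1) (nat_lit 198) (nat_lit 1) (nat_lit 266) (nat_lit 327) (nat_lit 307)) (XT.lf (nat_lit 152) (nat_lit 40554062492) (nat_lit 0) (nat_lit 6507526205) (nat_lit 76) (nat_lit 6507526205) (nat_lit 197) (nat_lit 1) (nat_lit 195) (nat_lit 1) (nat_lit 196) (nat_lit 1) (nat_lit 267) (nat_lit 327) (nat_lit 306))))) (XT.nd (nat_lit 234) (nat_lit 228) (nat_lit 0) (XT.nd (nat_lit 78) (nat_lit 228) (nat_lit 0) (XT.lf (nat_lit 0) (nat_lit 11581665246) (nat_lit 0) (nat_lit 27819726857) (nat_lit 152) (nat_lit 11581665246) (nat_lit 195) (nat_lit 3) (nat_lit 195) (nat_lit 1) (nat_lit 197) (nat_lit 1) (nat_lit 268) (nat_lit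 327) (nat_lit 305)) (XT.nd (nat_lit 78) (nat_lit 152) (nat_lit 0) (XT.lf (nat_lit 76) (nat_lit 6776421804) (nat_lit 0) (nat_lit 20896475378) (nat_lit 76) (nat_lit 20896475378) (nat_lit 195) (nat_lit 3) (nat_lit 194) (nat_lit 1) (nat_lit 195) (nat_lit 1) (nat_lit 269) (nat_lit 327) (nat_lit 304)) (XT.lf (nat_lit 152) (nat_lit 38887655474) (nat_lit 0) (nat_lit 3720699229) (nat_lit 76) (nat_lit 3720699229) (nat_lit 194) (nat_lit 1) (nat_lit 192) (nat_lit 1) (nat_lit 193) (nat_lit 1) (nat_lit 270) (nat_lit 327) (nat_lit 303)))) (XT.nd (nat_lit 78) (nat_lit 228) (nat_lit 0) (XT.lf (nat_lit 0) (nat_lit 11606216161) (nat_lit 0) (nat_lit 20890380589) (nat_lit 152) (nat_lit 11606216161) (nat_lit 192) (nat_lit 3) (nat_lit 192) (nat_lit 1) (nat_lit 194) (nat_lit 1) (nat_lit 271) (nat_lit 327) (nat_lit 302)) (XT.nd (nat_lit 78) (nat_lit 152) (nat_lit 0) (XT.lf (nat_lit 76) (nat_lit 8632240742) (nat_lit 0)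 (nat_lit 16705427201) (nat_lit 76) (nat_lit 16705427201) (nat_lit 192) (nat_lit 3) (nat_lit 191) (nat_lit 1) (nat_lit 192) (nat_lit 1) (nat_lit 272) (nat_lit 327) (nat_lit 301)) (XT.lf (nat_lit 152) (nat_lit 35886959424) (nat_lit 0) (nat_lit 2127321860) (nat_lit 76) (nat_lit 2127321860) (nat_lit 191) (nat_lit 1) (nat_lit 189) (nat_lit 1) (nat_lit 190) (nat_lit 1) (nat_lit 273) (nat_lit 327) (nat_lit 300)))))) (XT.nd (nat_lit 390) (nat_lit 456) (nat_lit 0) (XT.nd (nat_lit 156) (nat_lit 228) (nat_lit 0) (XT.nd (nat_lit 78) (nat_lit 76) (nat_lit 0) (XT.lf (nat_lit 0) (nat_lit 10970119122) (nat_lit 0) (nat_lit 16278370266) (nat_lit 152) (nat_lit 10970119122) (nat_lit 189) (nat_lit 3) (nat_lit 189) (nat_lit 1) (nat_lit 191) (nat_lit 1) (nat_lit 274) (nat_lit 327) (nat_lit 299)) (XT.lf (nat_lit 76) (nat_lit 9072728689) (nat_lit 0) (nat_lit 13688599249) (nat_lit 76) (nat_lit 13688599249) (nat_lit 189)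 (nat_lit 3) (nat_lit 188) (nat_lit 1) (nat_lit 189) (nat_lit 1) (nat_lit 275) (nat_lit 327) (nat_lit 298))) (XT.nd (nat_lit 78) (nat_lit 76) (nat_lit 0) (XT.lf (nat_lit 152) (nat_lit 32390499606) (nat_lit 0) (nat_lit 1216303177) (nat_lit 76) (nat_lit 1216303177) (nat_lit 188) (nat_lit 1) (nat_lit 186) (nat_lit 1) (nat_lit 187) (nat_lit 1) (nat_lit 276) (nat_lit 327) (nat_lit 297)) (XT.nd (nat_lit 78) (nat_lit 76) (nat_lit 0) (XT.lf (nat_lit 0) (nat_lit 10041094572) (nat_lit 0) (nat_lit 13076104392) (nat_lit 152) (nat_lit 10041094572) (nat_lit 186) (nat_lit 3) (nat_lit 186) (nat_lit 1) (nat_lit 188) (nat_lit 1) (nat_lit 277) (nat_lit 327) (nat_lit 296)) (XT.lf (nat_lit 76) (nat_lit 8784942099) (nat_lit 0) (nat_lit 11424081073) (nat_lit 76) (nat_lit 11424081073) (nat_lit 186) (nat_lit 3) (nat_lit 185) (nat_lit 1) (nat_lit 186) (nat_lit 1) (nat_lit 278) (nat_lit 327) (nat_lit 295))))) (XT.nd (nat_lit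 234) (nat_lit 228) (nat_lit 0) (XT.nd (nat_lit 78) (nat_lit 76) (nat_lit 0) (XT.lf (nat_lit 152) (nat_lit 28842863782) (nat_lit 0) (nat_lit 695425289) (nat_lit 76) (nat_lit 695425289) (nat_lit 185) (nat_lit 1) (nat_lit 183) (nat_lit 1) (nat_lit 184) (nat_lit 1) (nat_lit 279) (nat_lit 327) (nat_lit 294)) (XT.nd (nat_lit 78) (nat_lit 76) (nat_lit 0) (XT.lf (nat_lit 0) (nat_lit 9018326984) (nat_lit 0) (nat_lit 10753603699) (nat_lit 152) (nat_lit 9018326984) (nat_lit 183) (nat_lit 3) (nat_lit 183) (nat_lit 1) (nat_lit 185) (nat_lit 1) (nat_lit 280) (nat_lit 327) (nat_lit 293)) (XT.lf (nat_lit 76) (nat_lit 8151149613) (nat_lit 0) (nat_lit 9660085887) (nat_lit 76) (nat_lit 9660085887) (nat_lit 183) (nat_lit 3) (nat_lit 182) (nat_lit 1) (nat_lit 183) (nat_lit 1) (nat_lit 281) (nat_lit 327) (nat_lit 292)))) (XT.nd (nat_lit 78) (nat_lit 76) (nat_lit 0) (XT.lf (nat_lit 152) (nat_lit 25467949245) (nat_lit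 0) (nat_lit 397611666) (nat_lit 76) (nat_lit 397611666) (nat_lit 182) (nat_lit 1) (nat_lit 180) (nat_lit 1) (nat_lit 181) (nat_lit 1) (nat_lit 282) (nat_lit 327) (nat_lit 291)) (XT.nd (nat_lit 78) (nat_lit 76) (nat_lit 0) (XT.lf (nat_lit 0) (nat_lit 8006082569) (nat_lit 0) (nat_lit 8998232663) (nat_lit 152) (nat_lit 8006082569) (nat_lit 180) (nat_lit 3) (nat_lit 180) (nat_lit 1) (nat_lit 182) (nat_lit 1) (nat_lit 283) (nat_lit 327) (nat_lit 290)) (XT.lf (nat_lit 76) (nat_lit 7380733600) (nat_lit 0) (nat_lit 8243472812) (nat_lit 76) (nat_lit 8243472812) (nat_lit 180) (nat_lit 3) (nat_lit 179) (nat_lit 1) (nat_lit 180) (nat_lit 1) (nat_lit 284) (nat_lit 327) (nat_lit 289))))))) (XT.nd (nat_lit 858) (nat_lit 912) (nat_lit 0) (XT.nd (nat_lit 390) (nat_lit 456) (nat_lit 0) (XT.nd (nat_lit 156) (nat_lit 228) (nat_lit 0) (XT.nd (nat_lit 78) (nat_lit 0) (nat_lit 0) (XT.lf (nat_lit 152) (nat_lit 22367424609)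 (nat_lit 0) (nat_lit 227335760) (nat_lit 76) (nat_lit 227335760) (nat_lit 179) (nat_lit 1) (nat_lit 177) (nat_lit 1) (nat_lit 178) (nat_lit 1) (nat_lit 285) (nat_lit 327) (nat_lit 288)) (XT.lf (nat_lit 0) (nat_lit 7055612255) (nat_lit 0) (nat_lit 7622877291) (nat_lit 152) (nat_lit 7055612255) (nat_lit 177) (nat_lit 3) (nat_lit 177) (nat_lit 1) (nat_lit 179) (nat_lit 1) (nat_lit 286) (nat_lit 327) (nat_lit 287))) (XT.nd (nat_lit 78) (nat_lit 152) (nat_lit 0) (XT.lf (nat_lit 76) (nat_lit 6585425654) (nat_lit 0) (nat_lit 7078699599) (nat_lit 76) (nat_lit 7078699599) (nat_lit 177) (nat_lit 3) (nat_lit 176) (nat_lit 1) (nat_lit 177) (nat_lit 1) (nat_lit 287) (nat_lit 327) (nat_lit 286)) (XT.nd (nat_lit 78) (nat_lit 0) (nat_lit 0) (XT.lf (nat_lit 152) (nat_lit 19576510198) (nat_lit 0) (nat_lit 129979959) (nat_lit 76) (nat_lit 129979959) (nat_lit 176) (nat_lit 1) (nat_lit 174) (nat_lit 1) (nat_lit 175)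 (nat_lit 1) (nat_lit 288) (nat_lit 327) (nat_lit 285)) (XT.lf (nat_lit 0) (nat_lit 6188946217) (nat_lit 0) (nat_lit 6513281842) (nat_lit 152) (nat_lit 6188946217) (nat_lit 174) (nat_lit 3) (nat_lit 174) (nat_lit 1) (nat_lit 176) (nat_lit 1) (nat_lit 289) (nat_lit 327) (nat_lit 284))))) (XT.nd (nat_lit 234) (nat_lit 228) (nat_lit 0) (XT.nd (nat_lit 78) (nat_lit 152) (nat_lit 0) (XT.lf (nat_lit 76) (nat_lit 5822166546) (nat_lit 0) (nat_lit 6104197525) (nat_lit 76) (nat_lit 6104197525) (nat_lit 174) (nat_lit 3) (nat_lit 173) (nat_lit 1) (nat_lit 174) (nat_lit 1) (nat_lit 290) (nat_lit 327) (nat_lit 283)) (XT.nd (nat_lit 78) (nat_lit 0) (nat_lit 0) (XT.lf (nat_lit 152) (nat_lit 17095422446) (nat_lit 0) (nat_lit 74316463) (nat_lit 76) (nat_lit 74316463) (nat_lit 173) (nat_lit 1) (nat_lit 171) (nat_lit 1) (nat_lit 172) (nat_lit 1) (nat_lit 291) (nat_lit 327) (nat_lit 282)) (XT.lf (nat_lit 0) (nat_lit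 5412356182) (nat_lit 0) (nat_lit 5597796128) (nat_lit 152) (nat_lit 5412356182) (nat_lit 171) (nat_lit 3) (nat_lit 171) (nat_lit 1) (nat_lit 173) (nat_lit 1) (nat_lit 292) (nat_lit 327) (nat_lit 281)))) (XT.nd (nat_lit 78) (nat_lit 152) (nat_lit 0) (XT.lf (nat_lit 76) (nat_lit 5117475711) (nat_lit 0) (nat_lit 5278727838) (nat_lit 76) (nat_lit 5278727838) (nat_lit 171) (nat_lit 3) (nat_lit 170) (nat_lit 1) (nat_lit 171) (nat_lit 1) (nat_lit 293) (nat_lit 327) (nat_lit 280)) (XT.nd (nat_lit 78) (nat_lit 0) (nat_lit 0) (XT.lf (nat_lit 152) (nat_lit 14906962574) (nat_lit 0) (nat_lit 42490679) (nat_lit 76) (nat_lit 42490679) (nat_lit 170) (nat_lit 1) (nat_lit 168) (nat_lit 1) (nat_lit 169) (nat_lit 1) (nat_lit 294) (nat_lit 327) (nat_lit 279)) (XT.lf (nat_lit 0) (nat_lit 4723928818) (nat_lit 0) (nat_lit 4829954710) (nat_lit 152) (nat_lit 4723928818) (nat_lit 168) (nat_lit 3) (nat_lit 168) (nat_lit 1)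 (nat_lit 170) (nat_lit 1) (nat_lit 295) (nat_lit 327) (nat_lit 278)))))) (XT.nd (nat_lit 390) (nat_lit 456) (nat_lit 0) (XT.nd (nat_lit 156) (nat_lit 228) (nat_lit 0) (XT.nd (nat_lit 78) (nat_lit 152) (nat_lit 0) (XT.lf (nat_lit 76) (nat_lit 4481266470) (nat_lit 0) (nat_lit 4573462897) (nat_lit 76) (nat_lit 4573462897) (nat_lit 168) (nat_lit 3) (nat_lit 167) (nat_lit 1) (nat_lit 168) (nat_lit 1) (nat_lit 296) (nat_lit 327) (nat_lit 277)) (XT.lf (nat_lit 152) (nat_lit 12986234065) (nat_lit 0) (nat_lit 24294183) (nat_lit 76) (nat_lit 24294183) (nat_lit 167) (nat_lit 1) (nat_lit 165) (nat_lit 1) (nat_lit 166) (nat_lit 1) (nat_lit 297) (nat_lit 327) (nat_lit 276))) (XT.nd (nat_lit 78) (nat_lit 228) (nat_lit 0) (XT.lf (nat_lit 0) (nat_lit 4117788247) (nat_lit 0) (nat_lit 4178408894) (nat_lit 152) (nat_lit 4117788247) (nat_lit 165) (nat_lit 3) (nat_lit 165) (nat_lit 1) (nat_lit 167) (nat_lit 1) (nat_lit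 298) (nat_lit 327) (nat_lit 275)) (XT.nd (nat_lit 78) (nat_lit 152) (nat_lit 0) (XT.lf (nat_lit 76) (nat_lit 3914642234) (nat_lit 0) (nat_lit 3967355840) (nat_lit 76) (nat_lit 3967355840) (nat_lit 165) (nat_lit 3) (nat_lit 164) (nat_lit 1) (nat_lit 165) (nat_lit 1) (nat_lit 299) (nat_lit 327) (nat_lit 274)) (XT.lf (nat_lit 152) (nat_lit 11305903937) (nat_lit 0) (nat_lit 13890278) (nat_lit 76) (nat_lit 13890278) (nat_lit 164) (nat_lit 1) (nat_lit 162) (nat_lit 1) (nat_lit 163) (nat_lit 1) (nat_lit 300) (nat_lit 327) (nat_lit 273))))) (XT.nd (nat_lit 234) (nat_lit 228) (nat_lit 0) (XT.nd (nat_lit 78) (nat_lit 228) (nat_lit 0) (XT.lf (nat_lit 0) (nat_lit 3586416719) (nat_lit 0) (nat_lit 3621076771) (nat_lit 152) (nat_lit 3586416719) (nat_lit 162) (nat_lit 3) (nat_lit 162) (nat_lit 1) (nat_lit 164) (nat_lit 1) (nat_lit 301) (nat_lit 327) (nat_lit 272)) (XT.nd (nat_lit 78) (nat_lit 152) (nat_lit 0)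 (XT.lf (nat_lit 76) (nat_lit 3414264694) (nat_lit 0) (nat_lit 3444403869) (nat_lit 76) (nat_lit 3444403869) (nat_lit 162) (nat_lit 3) (nat_lit 161) (nat_lit 1) (nat_lit 162) (nat_lit 1) (nat_lit 302) (nat_lit 327) (nat_lit 271)) (XT.lf (nat_lit 152) (nat_lit 9838954629) (nat_lit 0) (nat_lit 7941811) (nat_lit 76) (nat_lit 7941811) (nat_lit 161) (nat_lit 1) (nat_lit 159) (nat_lit 1) (nat_lit 160) (nat_lit 1) (nat_lit 303) (nat_lit 327) (nat_lit 270)))) (XT.nd (nat_lit 78) (nat_lit 228) (nat_lit 0) (XT.lf (nat_lit 0) (nat_lit 3121900116) (nat_lit 0) (nat_lit 3141717113) (nat_lit 152) (nat_lit 3121900116) (nat_lit 159) (nat_lit 3) (nat_lit 159) (nat_lit 1) (nat_lit 161) (nat_lit 1) (nat_lit 304) (nat_lit 327) (nat_lit 269)) (XT.nd (nat_lit 78) (nat_lit 152) (nat_lit 0) (XT.lf (nat_lit 76) (nat_lit 2974773695) (nat_lit 0) (nat_lit 2992005867) (nat_lit 76) (nat_lit 2992005867) (nat_lit 159) (nat_lit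 3) (nat_lit 158) (nat_lit 1) (nat_lit 159) (nat_lit 1) (nat_lit 305) (nat_lit 327) (nat_lit 268)) (XT.lf (nat_lit 152) (nat_lit 8560034554) (nat_lit 0) (nat_lit 4540756) (nat_lit 76) (nat_lit 4540756) (nat_lit 158) (nat_lit 1) (nat_lit 156) (nat_lit 1) (nat_lit 157) (nat_lit 1) (nat_lit 306) (nat_lit 327) (nat_lit 267))))))))
noncomputable def ec83 : XT := (XT.nd (nat_lit 1716) (nat_lit 1824) (nat_lit 0) (XT.nd (nat_lit 858) (nat_lit 836) (nat_lit 0) (XT.nd (nat_lit 390) (nat_lit 456) (nat_lit 0) (XT.nd (nat_lit 156) (nat_lit 228) (nat_lit 0) (XT.nd (nat_lit 78) (nat_lit 76) (nat_lit 0) (XT.lf (nat_lit 0) (nat_lit 2716569321) (nat_lit 0) (nat_lit 2727899753) (nat_lit 152) (nat_lit 2716569321) (nat_lit 156) (nat_lit 3) (nat_lit 156) (nat_lit 1) (nat_lit 158) (nat_lit 1) (nat_lit 307) (nat_lit 327) (nat_lit 266)) (XT.lf (nat_lit 76) (nat_lit 2590103276) (nat_lit 0) (nat_lit 2599955826) (nat_lit 76)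 (nat_lit 2599955826) (nat_lit 156) (nat_lit 3) (nat_lit 155) (nat_lit 1) (nat_lit 156) (nat_lit 1) (nat_lit 308) (nat_lit 327) (nat_lit 265))) (XT.nd (nat_lit 78) (nat_lit 76) (nat_lit 0) (XT.lf (nat_lit 152) (nat_lit 7446036505) (nat_lit 0) (nat_lit 2596192) (nat_lit 76) (nat_lit 2596192) (nat_lit 155) (nat_lit 1) (nat_lit 153) (nat_lit 1) (nat_lit 154) (nat_lit 1) (nat_lit 309) (nat_lit 327) (nat_lit 264)) (XT.nd (nat_lit 78) (nat_lit 76) (nat_lit 0) (XT.lf (nat_lit 0) (nat_lit 2363305411) (nat_lit 0) (nat_lit 2369783622) (nat_lit 152) (nat_lit 2363305411) (nat_lit 153) (nat_lit 3) (nat_lit 153) (nat_lit 1) (nat_lit 155) (nat_lit 1) (nat_lit 310) (nat_lit 327) (nat_lit 263)) (XT.lf (nat_lit 76) (nat_lit 2254175399) (nat_lit 0) (nat_lit 2259808626) (nat_lit 76) (nat_lit 2259808626) (nat_lit 153) (nat_lit 3) (nat_lit 152) (nat_lit 1) (nat_lit 153) (nat_lit 1) (nat_lit 311) (nat_lit 327) (nat_lit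 262))))) (XT.nd (nat_lit 234) (nat_lit 228) (nat_lit 0) (XT.nd (nat_lit 78) (nat_lit 76) (nat_lit 0) (XT.lf (nat_lit 152) (nat_lit 6476259857) (nat_lit 0) (nat_lit 1484381) (nat_lit 76) (nat_lit 1484381) (nat_lit 152) (nat_lit 1) (nat_lit 150) (nat_lit 1) (nat_lit 151) (nat_lit 1) (nat_lit 312) (nat_lit 327) (nat_lit 261)) (XT.nd (nat_lit 78) (nat_lit 76) (nat_lit 0) (XT.lf (nat_lit 0) (nat_lit 2055660656) (nat_lit 0) (nat_lit 2059364594) (nat_lit 152) (nat_lit 2055660656) (nat_lit 150) (nat_lit 3) (nat_lit 150) (nat_lit 1) (nat_lit 152) (nat_lit 1) (nat_lit 313) (nat_lit 327) (nat_lit 260)) (XT.lf (nat_lit 76) (nat_lit 1961245530) (nat_lit 0) (nat_lit 1964466346) (nat_lit 76) (nat_lit 1964466346) (nat_lit 150) (nat_lit 3) (nat_lit 149) (nat_lit 1) (nat_lit 150) (nat_lit 1) (nat_lit 314) (nat_lit 327) (nat_lit 259)))) (XT.nd (nat_lit 78) (nat_lit 76) (nat_lit 0) (XT.lf (nat_lit 152) (nat_lit 5632356783)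 (nat_lit 0) (nat_lit 848699) (nat_lit 76) (nat_lit 848699) (nat_lit 149) (nat_lit 1) (nat_lit 147) (nat_lit 1) (nat_lit 148) (nat_lit 1) (nat_lit 315) (nat_lit 327) (nat_lit 258)) (XT.nd (nat_lit 78) (nat_lit 76) (nat_lit 0) (XT.lf (nat_lit 0) (nat_lit 1787881188) (nat_lit 0) (nat_lit 1789998927) (nat_lit 152) (nat_lit 1787881188) (nat_lit 147) (nat_lit 3) (nat_lit 147) (nat_lit 1) (nat_lit 149) (nat_lit 1) (nat_lit 316) (nat_lit 327) (nat_lit 257)) (XT.lf (nat_lit 76) (nat_lit 1706055827) (nat_lit 0) (nat_lit 1707897339) (nat_lit 76) (nat_lit 1707897339) (nat_lit 147) (nat_lit 3) (nat_lit 146) (nat_lit 1) (nat_lit 147) (nat_lit 1) (nat_lit 317) (nat_lit 327) (nat_lit 256)))))) (XT.nd (nat_lit 390) (nat_lit 456) (nat_lit 0) (XT.nd (nat_lit 156) (nat_lit 228) (nat_lit 0) (XT.nd (nat_lit 78) (nat_lit 0) (nat_lit 0) (XT.lf (nat_lit 152) (nat_lit 4898174088) (nat_lit 0) (nat_lit 485246) (nat_lit 76)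 (nat_lit 485246) (nat_lit 146) (nat_lit 1) (nat_lit 144) (nat_lit 1) (nat_lit 145) (nat_lit 1) (nat_lit 318) (nat_lit 327) (nat_lit 255)) (XT.lf (nat_lit 0) (nat_lit 1554879512) (nat_lit 0) (nat_lit 1556090336) (nat_lit 152) (nat_lit 1554879512) (nat_lit 144) (nat_lit 3) (nat_lit 144) (nat_lit 1) (nat_lit 146) (nat_lit 1) (nat_lit 319) (nat_lit 327) (nat_lit 254))) (XT.nd (nat_lit 78) (nat_lit 152) (nat_lit 0) (XT.lf (nat_lit 76) (nat_lit 1483884113) (nat_lit 0) (nat_lit 1484937004) (nat_lit 76) (nat_lit 1484937004) (nat_lit 144) (nat_lit 3) (nat_lit 143) (nat_lit 1) (nat_lit 144) (nat_lit 1) (nat_lit 320) (nat_lit 327) (nat_lit 253)) (XT.nd (nat_lit 78) (nat_lit 0) (nat_lit 0) (XT.lf (nat_lit 152) (nat_lit 4259551991) (nat_lit 0) (nat_lit 277441) (nat_lit 76) (nat_lit 277441) (nat_lit 143) (nat_lit 1) (nat_lit 141) (nat_lit 1) (nat_lit 142) (nat_lit 1) (nat_lit 321) (nat_lit 327) (nat_lit 252))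 (XT.lf (nat_lit 0) (nat_lit 1352183617) (nat_lit 0) (nat_lit 1352875909) (nat_lit 152) (nat_lit 1352183617) (nat_lit 141) (nat_lit 3) (nat_lit 141) (nat_lit 1) (nat_lit 143) (nat_lit 1) (nat_lit 322) (nat_lit 327) (nat_lit 251))))) (XT.nd (nat_lit 234) (nat_lit 228) (nat_lit 0) (XT.nd (nat_lit 78) (nat_lit 152) (nat_lit 0) (XT.lf (nat_lit 76) (nat_lit 1290538303) (nat_lit 0) (nat_lit 1291140296) (nat_lit 76) (nat_lit 1291140296) (nat_lit 141) (nat_lit 3) (nat_lit 140) (nat_lit 1) (nat_lit 141) (nat_lit 1) (nat_lit 323) (nat_lit 327) (nat_lit 250)) (XT.nd (nat_lit 78) (nat_lit 0) (nat_lit 0) (XT.lf (nat_lit 152) (nat_lit 3704112727) (nat_lit 0) (nat_lit 158628) (nat_lit 76) (nat_lit 158628) (nat_lit 140) (nat_lit 1) (nat_lit 138) (nat_lit 1) (nat_lit 139) (nat_lit 1) (nat_lit 324) (nat_lit 327) (nat_lit 249)) (XT.lf (nat_lit 0) (nat_lit 1175877292) (nat_lit 0) (nat_lit 1176273113) (nat_lit 152)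 (nat_lit 1175877292) (nat_lit 138) (nat_lit 3) (nat_lit 138) (nat_lit 1) (nat_lit 140) (nat_lit 1) (nat_lit 325) (nat_lit 327) (nat_lit 248)))) (XT.nd (nat_lit 78) (nat_lit 152) (nat_lit 0) (XT.lf (nat_lit 76) (nat_lit 1122324024) (nat_lit 0) (nat_lit 1122668216) (nat_lit 76) (nat_lit 1122668216) (nat_lit 138) (nat_lit 3) (nat_lit 137) (nat_lit 1) (nat_lit 138) (nat_lit 1) (nat_lit 326) (nat_lit 327) (nat_lit 247)) (XT.nd (nat_lit 78) (nat_lit 0) (nat_lit 0) (XT.lf (nat_lit 152) (nat_lit 3221055909) (nat_lit 0) (nat_lit 90696) (nat_lit 76) (nat_lit 90696) (nat_lit 137) (nat_lit 1) (nat_lit 135) (nat_lit 1) (nat_lit 136) (nat_lit 1) (nat_lit 327) (nat_lit 327) (nat_lit 246)) (XT.lf (nat_lit 0) (nat_lit 1022539415) (nat_lit 0) (nat_lit 1022765727) (nat_lit 152) (nat_lit 1022539415) (nat_lit 135) (nat_lit 3) (nat_lit 135) (nat_lit 1) (nat_lit 137) (nat_lit 1) (nat_lit 328) (nat_lit 327) (nat_lit 245)))))))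 (XT.nd (nat_lit 858) (nat_lit 912) (nat_lit 0) (XT.nd (nat_lit 390) (nat_lit 456) (nat_lit 0) (XT.nd (nat_lit 156) (nat_lit 228) (nat_lit 0) (XT.nd (nat_lit 78) (nat_lit 152) (nat_lit 0) (XT.lf (nat_lit 76) (nat_lit 976000717) (nat_lit 0) (nat_lit 976197510) (nat_lit 76) (nat_lit 976197510) (nat_lit 135) (nat_lit 3) (nat_lit 134) (nat_lit 1) (nat_lit 135) (nat_lit 1) (nat_lit 329) (nat_lit 327) (nat_lit 244)) (XT.lf (nat_lit 152) (nat_lit 2800968679) (nat_lit 0) (nat_lit 51855) (nat_lit 76) (nat_lit 51855) (nat_lit 134) (nat_lit 1) (nat_lit 132) (nat_lit 1) (nat_lit 133) (nat_lit 1) (nat_lit 330) (nat_lit 327) (nat_lit 243))) (XT.nd (nat_lit 78) (nat_lit 228) (nat_lit 0) (XT.lf (nat_lit 0) (nat_lit 889186105) (nat_lit 0) (nat_lit 889315500) (nat_lit 152) (nat_lit 889186105) (nat_lit 132) (nat_lit 3) (nat_lit 132) (nat_lit 1) (nat_lit 134) (nat_lit 1) (nat_lit 331) (nat_lit 327) (nat_lit 242)) (XT.nd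 (nat_lit 78) (nat_lit 152) (nat_lit 0) (XT.lf (nat_lit 76) (nat_lit 848734459) (nat_lit 0) (nat_lit 848846976) (nat_lit 76) (nat_lit 848846976) (nat_lit 132) (nat_lit 3) (nat_lit 131) (nat_lit 1) (nat_lit 132) (nat_lit 1) (nat_lit 332) (nat_lit 327) (nat_lit 241)) (XT.lf (nat_lit 152) (nat_lit 2435653811) (nat_lit 0) (nat_lit 29648) (nat_lit 76) (nat_lit 29648) (nat_lit 131) (nat_lit 1) (nat_lit 129) (nat_lit 1) (nat_lit 130) (nat_lit 1) (nat_lit 333) (nat_lit 327) (nat_lit 240))))) (XT.nd (nat_lit 234) (nat_lit 228) (nat_lit 0) (XT.nd (nat_lit 78) (nat_lit 228) (nat_lit 0) (XT.lf (nat_lit 0) (nat_lit 773217542) (nat_lit 0) (nat_lit 773291524) (nat_lit 152) (nat_lit 773217542) (nat_lit 129) (nat_lit 3) (nat_lit 129) (nat_lit 1) (nat_lit 131) (nat_lit 1) (nat_lit 334) (nat_lit 327) (nat_lit 239)) (XT.nd (nat_lit 78) (nat_lit 152) (nat_lit 0) (XT.lf (nat_lit 76) (nat_lit 738051796) (nat_lit 0) (nat_lit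 738116128) (nat_lit 76) (nat_lit 738116128) (nat_lit 129) (nat_lit 3) (nat_lit 128) (nat_lit 1) (nat_lit 129) (nat_lit 1) (nat_lit 335) (nat_lit 327) (nat_lit 238)) (XT.lf (nat_lit 152) (nat_lit 2117976343) (nat_lit 0) (nat_lit 16951) (nat_lit 76) (nat_lit 16951) (nat_lit 128) (nat_lit 1) (nat_lit 126) (nat_lit 1) (nat_lit 127) (nat_lit 1) (nat_lit 336) (nat_lit 327) (nat_lit 237)))) (XT.nd (nat_lit 78) (nat_lit 228) (nat_lit 0) (XT.lf (nat_lit 0) (nat_lit 672370075) (nat_lit 0) (nat_lit 672412374) (nat_lit 152) (nat_lit 672370075) (nat_lit 126) (nat_lit 3) (nat_lit 126) (nat_lit 1) (nat_lit 128) (nat_lit 1) (nat_lit 337) (nat_lit 327) (nat_lit 236)) (XT.nd (nat_lit 78) (nat_lit 152) (nat_lit 0) (XT.lf (nat_lit 76) (nat_lit 641796652) (nat_lit 0) (nat_lit 641833434) (nat_lit 76) (nat_lit 641833434) (nat_lit 126) (nat_lit 3) (nat_lit 125) (nat_lit 1) (nat_lit 126) (nat_lit 1) (nat_lit 338) (nat_lit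 327) (nat_lit 235)) (XT.lf (nat_lit 152) (nat_lit 1841727998) (nat_lit 0) (nat_lit 9692) (nat_lit 76) (nat_lit 9692) (nat_lit 125) (nat_lit 1) (nat_lit 123) (nat_lit 1) (nat_lit 124) (nat_lit 1) (nat_lit 339) (nat_lit 327) (nat_lit 234)))))) (XT.nd (nat_lit 468) (nat_lit 456) (nat_lit 0) (XT.nd (nat_lit 234) (nat_lit 228) (nat_lit 0) (XT.nd (nat_lit 78) (nat_lit 228) (nat_lit 0) (XT.lf (nat_lit 0) (nat_lit 584673629) (nat_lit 0) (nat_lit 584697814) (nat_lit 152) (nat_lit 584673629) (nat_lit 123) (nat_lit 3) (nat_lit 123) (nat_lit 1) (nat_lit 125) (nat_lit 1) (nat_lit 340) (nat_lit 327) (nat_lit 233)) (XT.nd (nat_lit 78) (nat_lit 152) (nat_lit 0) (XT.lf (nat_lit 76) (nat_lit 558091182) (nat_lit 0) (nat_lit 558112213) (nat_lit 76) (nat_lit 558112213) (nat_lit 123) (nat_lit 3) (nat_lit 122) (nat_lit 1) (nat_lit 123) (nat_lit 1) (nat_lit 341) (nat_lit 327) (nat_lit 232)) (XT.lf (nat_lit 152) (nat_lit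 1601508003) (nat_lit 0) (nat_lit 5541) (nat_lit 76) (nat_lit 5541) (nat_lit 122) (nat_lit 1) (nat_lit 120) (nat_lit 1) (nat_lit 121) (nat_lit 1) (nat_lit 342) (nat_lit 327) (nat_lit 231)))) (XT.nd (nat_lit 78) (nat_lit 228) (nat_lit 0) (XT.lf (nat_lit 0) (nat_lit 508414138) (nat_lit 0) (nat_lit 508427966) (nat_lit 152) (nat_lit 508414138) (nat_lit 120) (nat_lit 3) (nat_lit 120) (nat_lit 1) (nat_lit 122) (nat_lit 1) (nat_lit 343) (nat_lit 327) (nat_lit 230)) (XT.nd (nat_lit 78) (nat_lit 152) (nat_lit 0) (XT.lf (nat_lit 76) (nat_lit 485300761) (nat_lit 0) (nat_lit 485312785) (nat_lit 76) (nat_lit 485312785) (nat_lit 120) (nat_lit 3) (nat_lit 119) (nat_lit 1) (nat_lit 120) (nat_lit 1) (nat_lit 344) (nat_lit 327) (nat_lit 229)) (XT.lf (nat_lit 152) (nat_lit 1392618740) (nat_lit 0) (nat_lit 3168) (nat_lit 76) (nat_lit 3168) (nat_lit 119) (nat_lit 1) (nat_lit 117) (nat_lit 1) (nat_lit 118) (nat_lit 1)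 (nat_lit 345) (nat_lit 327) (nat_lit 228))))) (XT.nd (nat_lit 234) (nat_lit 228) (nat_lit 0) (XT.nd (nat_lit 78) (nat_lit 228) (nat_lit 0) (XT.lf (nat_lit 0) (nat_lit 442100558) (nat_lit 0) (nat_lit 442108464) (nat_lit 152) (nat_lit 442100558) (nat_lit 117) (nat_lit 3) (nat_lit 117) (nat_lit 1) (nat_lit 119) (nat_lit 1) (nat_lit 346) (nat_lit 327) (nat_lit 227)) (XT.nd (nat_lit 78) (nat_lit 152) (nat_lit 0) (XT.lf (nat_lit 76) (nat_lit 422002994) (nat_lit 0) (nat_lit 422009869) (nat_lit 76) (nat_lit 422009869) (nat_lit 117) (nat_lit 3) (nat_lit 116) (nat_lit 1) (nat_lit 117) (nat_lit 1) (nat_lit 347) (nat_lit 327) (nat_lit 226)) (XT.lf (nat_lit 152) (nat_lit 1210974582) (nat_lit 0) (nat_lit 1811) (nat_lit 76) (nat_lit 1811) (nat_lit 116) (nat_lit 1) (nat_lit 114) (nat_lit 1) (nat_lit 115) (nat_lit 1) (nat_lit 348) (nat_lit 327) (nat_lit 225)))) (XT.nd (nat_lit 78) (nat_lit 228) (nat_lit 0) (XT.lf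 (nat_lit 0) (nat_lit 384436015) (nat_lit 0) (nat_lit 384440535) (nat_lit 152) (nat_lit 384436015) (nat_lit 114) (nat_lit 3) (nat_lit 114) (nat_lit 1) (nat_lit 116) (nat_lit 1) (nat_lit 349) (nat_lit 327) (nat_lit 224)) (XT.nd (nat_lit 78) (nat_lit 152) (nat_lit 0) (XT.lf (nat_lit 76) (nat_lit 366960459) (nat_lit 0) (nat_lit 366964390) (nat_lit 76) (nat_lit 366964390) (nat_lit 114) (nat_lit 3) (nat_lit 113) (nat_lit 1) (nat_lit 114) (nat_lit 1) (nat_lit 350) (nat_lit 327) (nat_lit 223)) (XT.lf (nat_lit 152) (nat_lit 1053022384) (nat_lit 0) (nat_lit 1035) (nat_lit 76) (nat_lit 1035) (nat_lit 113) (nat_lit 1) (nat_lit 111) (nat_lit 1) (nat_lit 112) (nat_lit 1) (nat_lit 351) (nat_lit 327) (nat_lit 222))))))))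
noncomputable def ec84 : XT := (XT.nd (nat_lit 38610) (nat_lit 0) (nat_lit 7752) (XT.nd (nat_lit 858) (nat_lit 684) (nat_lit 0) (XT.nd (nat_lit 390) (nat_lit 456) (nat_lit 0) (XT.nd (nat_lit 156) (nat_lit 228) (nat_lit 0) (XT.nd (nat_lit 78) (nat_lit 76) (nat_lit 0) (XT.lf (nat_lit 0) (nat_lit 334292614) (nat_lit 0) (nat_lit 334295199) (nat_lit 152) (nat_lit 334292614) (nat_lit 111) (nat_lit 3) (nat_lit 111) (nat_lit 1) (nat_lit 113) (nat_lit 1) (nat_lit 352) (nat_lit 327) (nat_lit 221)) (XT.lf (nat_lit 76) (nat_lit 319096814) (nat_lit 0) (nat_lit 319099062) (nat_lit 76) (nat_lit 319099062) (nat_lit 111) (nat_lit 3) (nat_lit 110) (nat_lit 1) (nat_lit 111) (nat_lit 1) (nat_lit 353) (nat_lit 327) (nat_lit 220))) (XT.nd (nat_lit 78) (nat_lit 76) (nat_lit 0) (XT.lf (nat_lit 152) (nat_lit 915672215) (nat_lit 0) (nat_lit 592) (nat_lit 76) (nat_lit 592) (nat_lit 110) (nat_lit 1) (nat_lit 108) (nat_lit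 1) (nat_lit 109) (nat_lit 1) (nat_lit 354) (nat_lit 327) (nat_lit 219)) (XT.nd (nat_lit 78) (nat_lit 76) (nat_lit 0) (XT.lf (nat_lit 0) (nat_lit 290689474) (nat_lit 0) (nat_lit 290690952) (nat_lit 152) (nat_lit 290689474) (nat_lit 108) (nat_lit 3) (nat_lit 108) (nat_lit 1) (nat_lit 110) (nat_lit 1) (nat_lit 355) (nat_lit 327) (nat_lit 218)) (XT.lf (nat_lit 76) (nat_lit 277475927) (nat_lit 0) (nat_lit 277477212) (nat_lit 76) (nat_lit 277477212) (nat_lit 108) (nat_lit 3) (nat_lit 107) (nat_lit 1) (nat_lit 108) (nat_lit 1) (nat_lit 356) (nat_lit 327) (nat_lit 217))))) (XT.nd (nat_lit 234) (nat_lit 228) (nat_lit 0) (XT.nd (nat_lit 78) (nat_lit 76) (nat_lit 0) (XT.lf (nat_lit 152) (nat_lit 796237038) (nat_lit 0) (nat_lit 338) (nat_lit 76) (nat_lit 338) (nat_lit 107) (nat_lit 1) (nat_lit 105) (nat_lit 1) (nat_lit 106) (nat_lit 1) (nat_lit 357) (nat_lit 327) (nat_lit 216)) (XT.nd (nat_lit 78) (nat_lit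 76) (nat_lit 0) (XT.lf (nat_lit 0) (nat_lit 252773595) (nat_lit 0) (nat_lit 252774440) (nat_lit 152) (nat_lit 252773595) (nat_lit 105) (nat_lit 3) (nat_lit 105) (nat_lit 1) (nat_lit 107) (nat_lit 1) (nat_lit 358) (nat_lit 327) (nat_lit 215)) (XT.lf (nat_lit 76) (nat_lit 241283664) (nat_lit 0) (nat_lit 241284398) (nat_lit 76) (nat_lit 241284398) (nat_lit 105) (nat_lit 3) (nat_lit 104) (nat_lit 1) (nat_lit 105) (nat_lit 1) (nat_lit 359) (nat_lit 327) (nat_lit 214)))) (XT.nd (nat_lit 78) (nat_lit 76) (nat_lit 0) (XT.lf (nat_lit 152) (nat_lit 692380222) (nat_lit 0) (nat_lit 193) (nat_lit 76) (nat_lit 193) (nat_lit 104) (nat_lit 1) (nat_lit 102) (nat_lit 1) (nat_lit 103) (nat_lit 1) (nat_lit 360) (nat_lit 327) (nat_lit 213)) (XT.nd (nat_lit 78) (nat_lit 76) (nat_lit 0) (XT.lf (nat_lit 0) (nat_lit 219803206) (nat_lit 0) (nat_lit 219803689) (nat_lit 152) (nat_lit 219803206) (nat_lit 102) (nat_lit 3) (nat_lit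 102) (nat_lit 1) (nat_lit 104) (nat_lit 1) (nat_lit 361) (nat_lit 327) (nat_lit 212)) (XT.lf (nat_lit 76) (nat_lit 209812024) (nat_lit 0) (nat_lit 209812444) (nat_lit 76) (nat_lit 209812444) (nat_lit 102) (nat_lit 3) (nat_lit 101) (nat_lit 1) (nat_lit 102) (nat_lit 1) (nat_lit 362) (nat_lit 327) (nat_lit 211)))))) (XT.nd (nat_lit 390) (nat_lit 304) (nat_lit 0) (XT.nd (nat_lit 156) (nat_lit 228) (nat_lit 0) (XT.nd (nat_lit 78) (nat_lit 0) (nat_lit 0) (XT.lf (nat_lit 152) (nat_lit 602069866) (nat_lit 0) (nat_lit 110) (nat_lit 76) (nat_lit 110) (nat_lit 101) (nat_lit 1) (nat_lit 99) (nat_lit 1) (nat_lit 100) (nat_lit 1) (nat_lit 363) (nat_lit 327) (nat_lit 210)) (XT.lf (nat_lit 0) (nat_lit 191133268) (nat_lit 0) (nat_lit 191133545) (nat_lit 152) (nat_lit 191133268) (nat_lit 99) (nat_lit 3) (nat_lit 99) (nat_lit 1) (nat_lit 101) (nat_lit 1) (nat_lit 364) (nat_lit 327) (nat_lit 209))) (XT.nd (nat_lit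 78) (nat_lit 152) (nat_lit 0) (XT.lf (nat_lit 76) (nat_lit 182445320) (nat_lit 0) (nat_lit 182445560) (nat_lit 76) (nat_lit 182445560) (nat_lit 99) (nat_lit 3) (nat_lit 98) (nat_lit 1) (nat_lit 99) (nat_lit 1) (nat_lit 365) (nat_lit 327) (nat_lit 208)) (XT.nd (nat_lit 78) (nat_lit 0) (nat_lit 0) (XT.lf (nat_lit 152) (nat_lit 523539075) (nat_lit 0) (nat_lit 63) (nat_lit 76) (nat_lit 63) (nat_lit 98) (nat_lit 1) (nat_lit 96) (nat_lit 1) (nat_lit 97) (nat_lit 1) (nat_lit 366) (nat_lit 327) (nat_lit 207)) (XT.lf (nat_lit 0) (nat_lit 166202868) (nat_lit 0) (nat_lit 166203026) (nat_lit 152) (nat_lit 166202868) (nat_lit 96) (nat_lit 3) (nat_lit 96) (nat_lit 1) (nat_lit 98) (nat_lit 1) (nat_lit 367) (nat_lit 327) (nat_lit 206))))) (XT.nd (nat_lit 234) (nat_lit 76) (nat_lit 0) (XT.nd (nat_lit 78) (nat_lit 152) (nat_lit 0) (XT.lf (nat_lit 76) (nat_lit 158648151) (nat_lit 0) (nat_lit 158648288) (nat_lit 76)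 (nat_lit 158648288) (nat_lit 96) (nat_lit 3) (nat_lit 95) (nat_lit 1) (nat_lit 96) (nat_lit 1) (nat_lit 368) (nat_lit 327) (nat_lit 205)) (XT.nd (nat_lit 78) (nat_lit 0) (nat_lit 0) (XT.lf (nat_lit 152) (nat_lit 455251405) (nat_lit 0) (nat_lit 36) (nat_lit 76) (nat_lit 36) (nat_lit 95) (nat_lit 1) (nat_lit 93) (nat_lit 1) (nat_lit 94) (nat_lit 1) (nat_lit 369) (nat_lit 327) (nat_lit 204)) (XT.lf (nat_lit 0) (nat_lit 144524248) (nat_lit 0) (nat_lit 144524338) (nat_lit 152) (nat_lit 144524248) (nat_lit 93) (nat_lit 3) (nat_lit 93) (nat_lit 1) (nat_lit 95) (nat_lit 1) (nat_lit 370) (nat_lit 327) (nat_lit 203)))) (XT.nd (nat_lit 36972) (nat_lit 0) (nat_lit 9348) (XT.lf (nat_lit 76) (nat_lit 137954940) (nat_lit 0) (nat_lit 137955019) (nat_lit 76) (nat_lit 137955019) (nat_lit 93) (nat_lit 3) (nat_lit 92) (nat_lit 1) (nat_lit 93) (nat_lit 1) (nat_lit 371) (nat_lit 327) (nat_lit 202)) (XT.nd (nat_lit 78)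 (nat_lit 0) (nat_lit 0) (XT.lf (nat_lit 380) (nat_lit 35128852855) (nat_lit 0) (nat_lit 31114489546) (nat_lit 380) (nat_lit 35128852855) (nat_lit 220) (nat_lit 1) (nat_lit 215) (nat_lit 0) (nat_lit 220) (nat_lit 0) (nat_lit 244) (nat_lit 328) (nat_lit 328)) (XT.lf (nat_lit 380) (nat_lit 129937067870) (nat_lit 76) (nat_lit 29700194567) (nat_lit 0) (nat_lit 29700194567) (nat_lit 220) (nat_lit 1) (nat_lit 216) (nat_lit 1) (nat_lit 215) (nat_lit 0) (nat_lit 245) (nat_lit 328) (nat_lit 327))))))) (XT.nd (nat_lit 858) (nat_lit 836) (nat_lit 0) (XT.nd (nat_lit 390) (nat_lit 608) (nat_lit 0) (XT.nd (nat_lit 156) (nat_lit 228) (nat_lit 0) (XT.nd (nat_lit 78) (nat_lit 0) (nat_lit 0) (XT.lf (nat_lit 380) (nat_lit 57275514419) (nat_lit 0) (nat_lit 62321162581) (nat_lit 304) (nat_lit 57275514419) (nat_lit 221) (nat_lit 1) (nat_lit 216) (nat_lit 1) (nat_lit 220) (nat_lit 1) (nat_lit 246) (nat_lit 328) (nat_lit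 326)) (XT.lf (nat_lit 380) (nat_lit 98339084347) (nat_lit 76) (nat_lit 33662126318) (nat_lit 0) (nat_lit 33662126318) (nat_lit 221) (nat_lit 1) (nat_lit 217) (nat_lit 1) (nat_lit 216) (nat_lit 1) (nat_lit 247) (nat_lit 328) (nat_lit 325))) (XT.nd (nat_lit 78) (nat_lit 304) (nat_lit 0) (XT.lf (nat_lit 76) (nat_lit 39779463884) (nat_lit 0) (nat_lit 75746777502) (nat_lit 304) (nat_lit 39779463884) (nat_lit 218) (nat_lit 1) (nat_lit 217) (nat_lit 1) (nat_lit 221) (nat_lit 1) (nat_lit 248) (nat_lit 328) (nat_lit 324)) (XT.nd (nat_lit 78) (nat_lit 0) (nat_lit 0) (XT.lf (nat_lit 380) (nat_lit 59785321491) (nat_lit 0) (nat_lit 43032327971) (nat_lit 304) (nat_lit 43032327971) (nat_lit 218) (nat_lit 1) (nat_lit 213) (nat_lit 1) (nat_lit 217) (nat_lit 1) (nat_lit 249) (nat_lit 328) (nat_lit 323)) (XT.lf (nat_lit 76) (nat_lit 19871980589) (nat_lit 0) (nat_lit 97512306823) (nat_lit 380) (nat_lit 19871980589)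 (nat_lit 214) (nat_lit 1) (nat_lit 213) (nat_lit 1) (nat_lit 218) (nat_lit 1) (nat_lit 250) (nat_lit 328) (nat_lit 322))))) (XT.nd (nat_lit 234) (nat_lit 228) (nat_lit 0) (XT.nd (nat_lit 78) (nat_lit 228) (nat_lit 0) (XT.lf (nat_lit 228) (nat_lit 17884313759) (nat_lit 0) (nat_lit 55660513613) (nat_lit 152) (nat_lit 55660513613) (nat_lit 214) (nat_lit 1) (nat_lit 211) (nat_lit 1) (nat_lit 213) (nat_lit 1) (nat_lit 251) (nat_lit 328) (nat_lit 321)) (XT.nd (nat_lit 78) (nat_lit 0) (nat_lit 0) (XT.lf (nat_lit 228) (nat_lit 120182363430) (nat_lit 0) (nat_lit 942952161) (nat_lit 152) (nat_lit 942952161) (nat_lit 211) (nat_lit 1) (nat_lit 208) (nat_lit 1) (nat_lit 210) (nat_lit 1) (nat_lit 252) (nat_lit 328) (nat_lit 320)) (XT.lf (nat_lit 76) (nat_lit 46174832208) (nat_lit 0) (nat_lit 22669384744) (nat_lit 228) (nat_lit 46174832208) (nat_lit 209) (nat_lit 1) (nat_lit 208) (nat_lit 1) (nat_lit 211) (nat_lit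 1) (nat_lit 253) (nat_lit 328) (nat_lit 319)))) (XT.nd (nat_lit 78) (nat_lit 76) (nat_lit 0) (XT.lf (nat_lit 228) (nat_lit 67116890868) (nat_lit 0) (nat_lit 20818999764) (nat_lit 152) (nat_lit 20818999764) (nat_lit 209) (nat_lit 1) (nat_lit 206) (nat_lit 1) (nat_lit 208) (nat_lit 1) (nat_lit 254) (nat_lit 328) (nat_lit 318)) (XT.nd (nat_lit 78) (nat_lit 76) (nat_lit 0) (XT.lf (nat_lit 76) (nat_lit 20989653115) (nat_lit 0) (nat_lit 60911614491) (nat_lit 228) (nat_lit 20989653115) (nat_lit 207) (nat_lit 1) (nat_lit 206) (nat_lit 1) (nat_lit 209) (nat_lit 1) (nat_lit 255) (nat_lit 328) (nat_lit 317)) (XT.lf (nat_lit 152) (nat_lit 17351827230) (nat_lit 0) (nat_lit 40039426685) (nat_lit 76) (nat_lit 40039426685) (nat_lit 207) (nat_lit 1) (nat_lit 205) (nat_lit 1) (nat_lit 206) (nat_lit 1) (nat_lit 256) (nat_lit 328) (nat_lit 316)))))) (XT.nd (nat_lit 390) (nat_lit 380) (nat_lit 0) (XT.nd (nat_lit 156)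 (nat_lit 228) (nat_lit 0) (XT.nd (nat_lit 78) (nat_lit 0) (nat_lit 0) (XT.lf (nat_lit 228) (nat_lit 87845149259) (nat_lit 0) (nat_lit 2333696298) (nat_lit 152) (nat_lit 2333696298) (nat_lit 205) (nat_lit 1) (nat_lit 202) (nat_lit 1) (nat_lit 204) (nat_lit 1) (nat_lit 257) (nat_lit 328) (nat_lit 315)) (XT.lf (nat_lit 76) (nat_lit 30743912914) (nat_lit 0) (nat_lit 26108733920) (nat_lit 228) (nat_lit 30743912914) (nat_lit 203) (nat_lit 1) (nat_lit 202) (nat_lit 1) (nat_lit 205) (nat_lit 1) (nat_lit 258) (nat_lit 328) (nat_lit 314))) (XT.nd (nat_lit 78) (nat_lit 152) (nat_lit 0) (XT.lf (nat_lit 152) (nat_lit 37381653516) (nat_lit 0) (nat_lit 22892672159) (nat_lit 76) (nat_lit 22892672159) (nat_lit 203) (nat_lit 1) (nat_lit 201) (nat_lit 1) (nat_lit 202) (nat_lit 1) (nat_lit 259) (nat_lit 328) (nat_lit 313)) (XT.nd (nat_lit 78) (nat_lit 152) (nat_lit 0) (XT.lf (nat_lit 0) (nat_lit 7319842905) (nat_lit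 0) (nat_lit 64443334871) (nat_lit 152) (nat_lit 7319842905) (nat_lit 201) (nat_lit 3) (nat_lit 201) (nat_lit 1) (nat_lit 203) (nat_lit 1) (nat_lit 260) (nat_lit 328) (nat_lit 312)) (XT.lf (nat_lit 76) (nat_lit 33876202096) (nat_lit 0) (nat_lit 7347162610) (nat_lit 152) (nat_lit 33876202096) (nat_lit 200) (nat_lit 1) (nat_lit 199) (nat_lit 1) (nat_lit 201) (nat_lit 1) (nat_lit 261) (nat_lit 328) (nat_lit 311))))) (XT.nd (nat_lit 234) (nat_lit 228) (nat_lit 0) (XT.nd (nat_lit 78) (nat_lit 76) (nat_lit 0) (XT.lf (nat_lit 152) (nat_lit 45251942576) (nat_lit 0) (nat_lit 13088959607) (nat_lit 76) (nat_lit 13088959607) (nat_lit 200) (nat_lit 1) (nat_lit 198) (nat_lit 1) (nat_lit 199) (nat_lit 1) (nat_lit 262) (nat_lit 328) (nat_lit 310)) (XT.nd (nat_lit 78) (nat_lit 76) (nat_lit 0) (XT.lf (nat_lit 0) (nat_lit 11765734685) (nat_lit 0) (nat_lit 44426276616) (nat_lit 152) (nat_lit 11765734685) (nat_lit 198)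 (nat_lit 3) (nat_lit 198) (nat_lit 1) (nat_lit 200) (nat_lit 1) (nat_lit 263) (nat_lit 328) (nat_lit 309)) (XT.lf (nat_lit 76) (nat_lit 2624725155) (nat_lit 0) (nat_lit 31025196400) (nat_lit 76) (nat_lit 31025196400) (nat_lit 198) (nat_lit 3) (nat_lit 197) (nat_lit 1) (nat_lit 198) (nat_lit 1) (nat_lit 264) (nat_lit 328) (nat_lit 308)))) (XT.nd (nat_lit 78) (nat_lit 76) (nat_lit 0) (XT.lf (nat_lit 152) (nat_lit 46637171865) (nat_lit 0) (nat_lit 7483655136) (nat_lit 76) (nat_lit 7483655136) (nat_lit 197) (nat_lit 1) (nat_lit 195) (nat_lit 1) (nat_lit 196) (nat_lit 1) (nat_lit 265) (nat_lit 328) (nat_lit 307)) (XT.nd (nat_lit 78) (nat_lit 76) (nat_lit 0) (XT.lf (nat_lit 0) (nat_lit 13318915033) (nat_lit 0) (nat_lit 31992685885) (nat_lit 152) (nat_lit 13318915033) (nat_lit 195) (nat_lit 3) (nat_lit 195) (nat_lit 1) (nat_lit 197) (nat_lit 1) (nat_lit 266) (nat_lit 328) (nat_lit 306)) (XT.lf (nat_lit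 76) (nat_lit 7792885074) (nat_lit 0) (nat_lit 24030946685) (nat_lit 76) (nat_lit 24030946685) (nat_lit 195) (nat_lit 3) (nat_lit 194) (nat_lit 1) (nat_lit 195) (nat_lit 1) (nat_lit 267) (nat_lit 328) (nat_lit 305))))))))
noncomputable def ec85 : XT := (XT.nd (nat_lit 1716) (nat_lit 1672) (nat_lit 0) (XT.nd (nat_lit 858) (nat_lit 912) (nat_lit 0) (XT.nd (nat_lit 390) (nat_lit 456) (nat_lit 0) (XT.nd (nat_lit 156) (nat_lit 228) (nat_lit 0) (XT.nd (nat_lit 78) (nat_lit 0) (nat_lit 0) (XT.lf (nat_lit 152) (nat_lit 44720803795) (nat_lit 0) (nat_lit 4278804113) (nat_lit 76) (nat_lit 4278804113) (nat_lit 194) (nat_lit 1) (nat_lit 192) (nat_lit 1) (nat_lit 193) (nat_lit 1) (nat_lit 268) (nat_lit 328) (nat_lit 304)) (XT.lf (nat_lit 0) (nat_lit 13347148586) (nat_lit 0) (nat_lit 24023937678) (nat_lit 152) (nat_lit 13347148586) (nat_lit 192) (nat_lit 3) (nat_lit 192) (nat_lit 1) (nat_lit 194) (nat_lit 1) (nat_lit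 269) (nat_lit 328) (nat_lit 303))) (XT.nd (nat_lit 78) (nat_lit 152) (nat_lit 0) (XT.lf (nat_lit 76) (nat_lit 9927076853) (nat_lit 0) (nat_lit 19211241281) (nat_lit 76) (nat_lit 19211241281) (nat_lit 192) (nat_lit 3) (nat_lit 191) (nat_lit 1) (nat_lit 192) (nat_lit 1) (nat_lit 270) (nat_lit 328) (nat_lit 302)) (XT.nd (nat_lit 78) (nat_lit 0) (nat_lit 0) (XT.lf (nat_lit 152) (nat_lit 41270003338) (nat_lit 0) (nat_lit 2446420139) (nat_lit 76) (nat_lit 2446420139) (nat_lit 191) (nat_lit 1) (nat_lit 189) (nat_lit 1) (nat_lit 190) (nat_lit 1) (nat_lit 271) (nat_lit 328) (nat_lit 301)) (XT.lf (nat_lit 0) (nat_lit 12615636990) (nat_lit 0) (nat_lit 18720125806) (nat_lit 152) (nat_lit 12615636990) (nat_lit 189) (nat_lit 3) (nat_lit 189) (nat_lit 1) (nat_lit 191) (nat_lit 1) (nat_lit 272) (nat_lit 328) (nat_lit 300))))) (XT.nd (nat_lit 234) (nat_lit 228) (nat_lit 0) (XT.nd (nat_lit 78) (nat_lit 152) (nat_lit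 0) (XT.lf (nat_lit 76) (nat_lit 10433637993) (nat_lit 0) (nat_lit 15741889137) (nat_lit 76) (nat_lit 15741889137) (nat_lit 189) (nat_lit 3) (nat_lit 188) (nat_lit 1) (nat_lit 189) (nat_lit 1) (nat_lit 273) (nat_lit 328) (nat_lit 299)) (XT.nd (nat_lit 78) (nat_lit 0) (nat_lit 0) (XT.lf (nat_lit 152) (nat_lit 37249074547) (nat_lit 0) (nat_lit 1398748654) (nat_lit 76) (nat_lit 1398748654) (nat_lit 188) (nat_lit 1) (nat_lit 186) (nat_lit 1) (nat_lit 187) (nat_lit 1) (nat_lit 274) (nat_lit 328) (nat_lit 298)) (XT.lf (nat_lit 0) (nat_lit 11547258757) (nat_lit 0) (nat_lit 15037520051) (nat_lit 152) (nat_lit 11547258757) (nat_lit 186) (nat_lit 3) (nat_lit 186) (nat_lit 1) (nat_lit 188) (nat_lit 1) (nat_lit 275) (nat_lit 328) (nat_lit 297)))) (XT.nd (nat_lit 78) (nat_lit 152) (nat_lit 0) (XT.lf (nat_lit 76) (nat_lit 10102683414) (nat_lit 0) (nat_lit 13137693234) (nat_lit 76) (nat_lit 13137693234) (nat_lit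 186) (nat_lit 3) (nat_lit 185) (nat_lit 1) (nat_lit 186) (nat_lit 1) (nat_lit 276) (nat_lit 328) (nat_lit 296)) (XT.nd (nat_lit 78) (nat_lit 0) (nat_lit 0) (XT.lf (nat_lit 152) (nat_lit 33169293349) (nat_lit 0) (nat_lit 799739083) (nat_lit 76) (nat_lit 799739083) (nat_lit 185) (nat_lit 1) (nat_lit 183) (nat_lit 1) (nat_lit 184) (nat_lit 1) (nat_lit 277) (nat_lit 328) (nat_lit 295)) (XT.lf (nat_lit 0) (nat_lit 10371076031) (nat_lit 0) (nat_lit 12366644254) (nat_lit 152) (nat_lit 10371076031) (nat_lit 183) (nat_lit 3) (nat_lit 183) (nat_lit 1) (nat_lit 185) (nat_lit 1) (nat_lit 278) (nat_lit 328) (nat_lit 294)))))) (XT.nd (nat_lit 390) (nat_lit 456) (nat_lit 0) (XT.nd (nat_lit 156) (nat_lit 228) (nat_lit 0) (XT.nd (nat_lit 78) (nat_lit 152) (nat_lit 0) (XT.lf (nat_lit 76) (nat_lit 9373822055) (nat_lit 0) (nat_lit 11109098771) (nat_lit 76) (nat_lit 11109098771) (nat_lit 183) (nat_lit 3) (nat_lit 182)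 (nat_lit 1) (nat_lit 183) (nat_lit 1) (nat_lit 279) (nat_lit 328) (nat_lit 293)) (XT.lf (nat_lit 152) (nat_lit 29288141632) (nat_lit 0) (nat_lit 457253416) (nat_lit 76) (nat_lit 457253416) (nat_lit 182) (nat_lit 1) (nat_lit 180) (nat_lit 1) (nat_lit 181) (nat_lit 1) (nat_lit 280) (nat_lit 328) (nat_lit 292))) (XT.nd (nat_lit 78) (nat_lit 228) (nat_lit 0) (XT.lf (nat_lit 0) (nat_lit 9206994954) (nat_lit 0) (nat_lit 10347967562) (nat_lit 152) (nat_lit 9206994954) (nat_lit 180) (nat_lit 3) (nat_lit 180) (nat_lit 1) (nat_lit 182) (nat_lit 1) (nat_lit 281) (nat_lit 328) (nat_lit 291)) (XT.nd (nat_lit 78) (nat_lit 152) (nat_lit 0) (XT.lf (nat_lit 76) (nat_lit 8487843640) (nat_lit 0) (nat_lit 9479993734) (nat_lit 76) (nat_lit 9479993734) (nat_lit 180) (nat_lit 3) (nat_lit 179) (nat_lit 1) (nat_lit 180) (nat_lit 1) (nat_lit 282) (nat_lit 328) (nat_lit 290)) (XT.lf (nat_lit 152) (nat_lit 25722538301) (nat_lit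 0) (nat_lit 261436124) (nat_lit 76) (nat_lit 261436124) (nat_lit 179) (nat_lit 1) (nat_lit 177) (nat_lit 1) (nat_lit 178) (nat_lit 1) (nat_lit 283) (nat_lit 328) (nat_lit 289))))) (XT.nd (nat_lit 234) (nat_lit 228) (nat_lit 0) (XT.nd (nat_lit 78) (nat_lit 228) (nat_lit 0) (XT.lf (nat_lit 0) (nat_lit 8113954093) (nat_lit 0) (nat_lit 8766308885) (nat_lit 152) (nat_lit 8113954093) (nat_lit 177) (nat_lit 3) (nat_lit 177) (nat_lit 1) (nat_lit 179) (nat_lit 1) (nat_lit 284) (nat_lit 328) (nat_lit 288)) (XT.nd (nat_lit 78) (nat_lit 152) (nat_lit 0) (XT.lf (nat_lit 76) (nat_lit 7573239502) (nat_lit 0) (nat_lit 8140504538) (nat_lit 76) (nat_lit 8140504538) (nat_lit 177) (nat_lit 3) (nat_lit 176) (nat_lit 1) (nat_lit 177) (nat_lit 1) (nat_lit 285) (nat_lit 328) (nat_lit 287)) (XT.lf (nat_lit 152) (nat_lit 22512986728) (nat_lit 0) (nat_lit 149476952) (nat_lit 76) (nat_lit 149476952) (nat_lit 176) (nat_lit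 1) (nat_lit 174) (nat_lit 1) (nat_lit 175) (nat_lit 1) (nat_lit 286) (nat_lit 328) (nat_lit 286)))) (XT.nd (nat_lit 78) (nat_lit 228) (nat_lit 0) (XT.lf (nat_lit 0) (nat_lit 7117288149) (nat_lit 0) (nat_lit 7490274119) (nat_lit 152) (nat_lit 7117288149) (nat_lit 174) (nat_lit 3) (nat_lit 174) (nat_lit 1) (nat_lit 176) (nat_lit 1) (nat_lit 287) (nat_lit 328) (nat_lit 285)) (XT.nd (nat_lit 78) (nat_lit 152) (nat_lit 0) (XT.lf (nat_lit 76) (nat_lit 6695491528) (nat_lit 0) (nat_lit 7019827154) (nat_lit 76) (nat_lit 7019827154) (nat_lit 174) (nat_lit 3) (nat_lit 173) (nat_lit 1) (nat_lit 174) (nat_lit 1) (nat_lit 288) (nat_lit 328) (nat_lit 284)) (XT.lf (nat_lit 152) (nat_lit 19659735812) (nat_lit 0) (nat_lit 85463932) (nat_lit 76) (nat_lit 85463932) (nat_lit 173) (nat_lit 1) (nat_lit 171) (nat_lit 1) (nat_lit 172) (nat_lit 1) (nat_lit 289) (nat_lit 328) (nat_lit 283))))))) (XT.nd (nat_lit 858) (nat_lit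 912) (nat_lit 0) (XT.nd (nat_lit 390) (nat_lit 456) (nat_lit 0) (XT.nd (nat_lit 156) (nat_lit 228) (nat_lit 0) (XT.nd (nat_lit 78) (nat_lit 76) (nat_lit 0) (XT.lf (nat_lit 0) (nat_lit 6224209609) (nat_lit 0) (nat_lit 6437465548) (nat_lit 152) (nat_lit 6224209609) (nat_lit 171) (nat_lit 3) (nat_lit 171) (nat_lit 1) (nat_lit 173) (nat_lit 1) (nat_lit 290) (nat_lit 328) (nat_lit 282)) (XT.lf (nat_lit 76) (nat_lit 5885097067) (nat_lit 0) (nat_lit 6070537014) (nat_lit 76) (nat_lit 6070537014) (nat_lit 171) (nat_lit 3) (nat_lit 170) (nat_lit 1) (nat_lit 171) (nat_lit 1) (nat_lit 291) (nat_lit 328) (nat_lit 281))) (XT.nd (nat_lit 78) (nat_lit 76) (nat_lit 0) (XT.lf (nat_lit 152) (nat_lit 17143006960) (nat_lit 0) (nat_lit 48864281) (nat_lit 76) (nat_lit 48864281) (nat_lit 170) (nat_lit 1) (nat_lit 168) (nat_lit 1) (nat_lit 169) (nat_lit 1) (nat_lit 292) (nat_lit 328) (nat_lit 280)) (XT.nd (nat_lit 78)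 (nat_lit 76) (nat_lit 0) (XT.lf (nat_lit 0) (nat_lit 5432518141) (nat_lit 0) (nat_lit 5554447916) (nat_lit 152) (nat_lit 5432518141) (nat_lit 168) (nat_lit 3) (nat_lit 168) (nat_lit 1) (nat_lit 170) (nat_lit 1) (nat_lit 293) (nat_lit 328) (nat_lit 279)) (XT.lf (nat_lit 76) (nat_lit 5153456440) (nat_lit 0) (nat_lit 5259482332) (nat_lit 76) (nat_lit 5259482332) (nat_lit 168) (nat_lit 3) (nat_lit 167) (nat_lit 1) (nat_lit 168) (nat_lit 1) (nat_lit 294) (nat_lit 328) (nat_lit 278))))) (XT.nd (nat_lit 234) (nat_lit 228) (nat_lit 0) (XT.nd (nat_lit 78) (nat_lit 76) (nat_lit 0) (XT.lf (nat_lit 152) (nat_lit 14934169175) (nat_lit 0) (nat_lit 27938311) (nat_lit 76) (nat_lit 27938311) (nat_lit 167) (nat_lit 1) (nat_lit 165) (nat_lit 1) (nat_lit 166) (nat_lit 1) (nat_lit 295) (nat_lit 328) (nat_lit 277)) (XT.nd (nat_lit 78) (nat_lit 76) (nat_lit 0) (XT.lf (nat_lit 0) (nat_lit 4735456484) (nat_lit 0) (nat_lit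 4805170229) (nat_lit 152) (nat_lit 4735456484) (nat_lit 165) (nat_lit 3) (nat_lit 165) (nat_lit 1) (nat_lit 167) (nat_lit 1) (nat_lit 296) (nat_lit 328) (nat_lit 276)) (XT.lf (nat_lit 76) (nat_lit 4501838569) (nat_lit 0) (nat_lit 4562459216) (nat_lit 76) (nat_lit 4562459216) (nat_lit 165) (nat_lit 3) (nat_lit 164) (nat_lit 1) (nat_lit 165) (nat_lit 1) (nat_lit 297) (nat_lit 328) (nat_lit 275)))) (XT.nd (nat_lit 78) (nat_lit 76) (nat_lit 0) (XT.lf (nat_lit 152) (nat_lit 13001789528) (nat_lit 0) (nat_lit 15973820) (nat_lit 76) (nat_lit 15973820) (nat_lit 164) (nat_lit 1) (nat_lit 162) (nat_lit 1) (nat_lit 163) (nat_lit 1) (nat_lit 298) (nat_lit 328) (nat_lit 274)) (XT.nd (nat_lit 78) (nat_lit 76) (nat_lit 0) (XT.lf (nat_lit 0) (nat_lit 4124379227) (nat_lit 0) (nat_lit 4164238287) (nat_lit 152) (nat_lit 4124379227) (nat_lit 162) (nat_lit 3) (nat_lit 162) (nat_lit 1) (nat_lit 164) (nat_lit 1) (nat_lit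 299) (nat_lit 328) (nat_lit 273)) (XT.lf (nat_lit 76) (nat_lit 3926404398) (nat_lit 0) (nat_lit 3961064450) (nat_lit 76) (nat_lit 3961064450) (nat_lit 162) (nat_lit 3) (nat_lit 161) (nat_lit 1) (nat_lit 162) (nat_lit 1) (nat_lit 300) (nat_lit 328) (nat_lit 272)))))) (XT.nd (nat_lit 468) (nat_lit 456) (nat_lit 0) (XT.nd (nat_lit 234) (nat_lit 228) (nat_lit 0) (XT.nd (nat_lit 78) (nat_lit 76) (nat_lit 0) (XT.lf (nat_lit 152) (nat_lit 11314797823) (nat_lit 0) (nat_lit 9133083) (nat_lit 76) (nat_lit 9133083) (nat_lit 161) (nat_lit 1) (nat_lit 159) (nat_lit 1) (nat_lit 160) (nat_lit 1) (nat_lit 301) (nat_lit 328) (nat_lit 271)) (XT.nd (nat_lit 78) (nat_lit 76) (nat_lit 0) (XT.lf (nat_lit 0) (nat_lit 3590185133) (nat_lit 0) (nat_lit 3612974680) (nat_lit 152) (nat_lit 3590185133) (nat_lit 159) (nat_lit 3) (nat_lit 159) (nat_lit 1) (nat_lit 161) (nat_lit 1) (nat_lit 302) (nat_lit 328) (nat_lit 270)) (XT.lf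 (nat_lit 76) (nat_lit 3420989749) (nat_lit 0) (nat_lit 3440806747) (nat_lit 76) (nat_lit 3440806747) (nat_lit 159) (nat_lit 3) (nat_lit 158) (nat_lit 1) (nat_lit 159) (nat_lit 1) (nat_lit 303) (nat_lit 328) (nat_lit 269)))) (XT.nd (nat_lit 78) (nat_lit 76) (nat_lit 0) (XT.lf (nat_lit 152) (nat_lit 9844039737) (nat_lit 0) (nat_lit 5221870) (nat_lit 76) (nat_lit 5221870) (nat_lit 158) (nat_lit 1) (nat_lit 156) (nat_lit 1) (nat_lit 157) (nat_lit 1) (nat_lit 304) (nat_lit 328) (nat_lit 268)) (XT.nd (nat_lit 78) (nat_lit 76) (nat_lit 0) (XT.lf (nat_lit 0) (nat_lit 3124054719) (nat_lit 0) (nat_lit 3137084716) (nat_lit 152) (nat_lit 3124054719) (nat_lit 156) (nat_lit 3) (nat_lit 156) (nat_lit 1) (nat_lit 158) (nat_lit 1) (nat_lit 305) (nat_lit 328) (nat_lit 267)) (XT.lf (nat_lit 76) (nat_lit 2978618767) (nat_lit 0) (nat_lit 2989949200) (nat_lit 76) (nat_lit 2989949200) (nat_lit 156) (nat_lit 3) (nat_lit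 155) (nat_lit 1) (nat_lit 156) (nat_lit 1) (nat_lit 306) (nat_lit 328) (nat_lit 266))))) (XT.nd (nat_lit 234) (nat_lit 228) (nat_lit 0) (XT.nd (nat_lit 78) (nat_lit 76) (nat_lit 0) (XT.lf (nat_lit 152) (nat_lit 8562941981) (nat_lit 0) (nat_lit 2985621) (nat_lit 76) (nat_lit 2985621) (nat_lit 155) (nat_lit 1) (nat_lit 153) (nat_lit 1) (nat_lit 154) (nat_lit 1) (nat_lit 307) (nat_lit 328) (nat_lit 265)) (XT.nd (nat_lit 78) (nat_lit 76) (nat_lit 0) (XT.lf (nat_lit 0) (nat_lit 2717801222) (nat_lit 0) (nat_lit 2725251166) (nat_lit 152) (nat_lit 2717801222) (nat_lit 153) (nat_lit 3) (nat_lit 153) (nat_lit 1) (nat_lit 155) (nat_lit 1) (nat_lit 308) (nat_lit 328) (nat_lit 264)) (XT.lf (nat_lit 76) (nat_lit 2592301709) (nat_lit 0) (nat_lit 2598779920) (nat_lit 76) (nat_lit 2598779920) (nat_lit 153) (nat_lit 3) (nat_lit 152) (nat_lit 1) (nat_lit 153) (nat_lit 1) (nat_lit 309) (nat_lit 328) (nat_lit 263))))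 (XT.nd (nat_lit 78) (nat_lit 76) (nat_lit 0) (XT.lf (nat_lit 152) (nat_lit 7447698836) (nat_lit 0) (nat_lit 1707038) (nat_lit 76) (nat_lit 1707038) (nat_lit 152) (nat_lit 1) (nat_lit 150) (nat_lit 1) (nat_lit 151) (nat_lit 1) (nat_lit 310) (nat_lit 328) (nat_lit 262)) (XT.nd (nat_lit 78) (nat_lit 76) (nat_lit 0) (XT.lf (nat_lit 0) (nat_lit 2364009754) (nat_lit 0) (nat_lit 2368269283) (nat_lit 152) (nat_lit 2364009754) (nat_lit 150) (nat_lit 3) (nat_lit 150) (nat_lit 1) (nat_lit 152) (nat_lit 1) (nat_lit 311) (nat_lit 328) (nat_lit 261)) (XT.lf (nat_lit 76) (nat_lit 2255432360) (nat_lit 0) (nat_lit 2259136298) (nat_lit 76) (nat_lit 2259136298) (nat_lit 150) (nat_lit 3) (nat_lit 149) (nat_lit 1) (nat_lit 150) (nat_lit 1) (nat_lit 312) (nat_lit 328) (nat_lit 260))))))))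
noncomputable def ec86 : XT := (XT.nd (nat_lit 1716) (nat_lit 1596) (nat_lit 0) (XT.nd (nat_lit 858) (nat_lit 912) (nat_lit 0) (XT.nd (nat_lit 390) (nat_lit 456) (nat_lit 0) (XT.nd (nat_lit 156) (nat_lit 228) (nat_lit 0) (XT.nd (nat_lit 78) (nat_lit 0) (nat_lit 0) (XT.lf (nat_lit 152) (nat_lit 6477210300) (nat_lit 0) (nat_lit 976004) (nat_lit 76) (nat_lit 976004) (nat_lit 149) (nat_lit 1) (nat_lit 147) (nat_lit 1) (nat_lit 148) (nat_lit 1) (nat_lit 313) (nat_lit 328) (nat_lit 259)) (XT.lf (nat_lit 0) (nat_lit 2056063366) (nat_lit 0) (nat_lit 2058498766) (nat_lit 152) (nat_lit 2056063366) (nat_lit 147) (nat_lit 3) (nat_lit 147) (nat_lit 1) (nat_lit 149) (nat_lit 1) (nat_lit 314) (nat_lit 328) (nat_lit 258))) (XT.nd (nat_lit 78) (nat_lit 152) (nat_lit 0) (XT.lf (nat_lit 76) (nat_lit 1961964202) (nat_lit 0) (nat_lit 1964081940) (nat_lit 76) (nat_lit 1964081940) (nat_lit 147) (nat_lit 3) (nat_lit 146)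 (nat_lit 1) (nat_lit 147) (nat_lit 1) (nat_lit 315) (nat_lit 328) (nat_lit 257)) (XT.nd (nat_lit 78) (nat_lit 0) (nat_lit 0) (XT.lf (nat_lit 152) (nat_lit 5632900202) (nat_lit 0) (nat_lit 558033) (nat_lit 76) (nat_lit 558033) (nat_lit 146) (nat_lit 1) (nat_lit 144) (nat_lit 1) (nat_lit 145) (nat_lit 1) (nat_lit 316) (nat_lit 328) (nat_lit 256)) (XT.lf (nat_lit 0) (nat_lit 1788111439) (nat_lit 0) (nat_lit 1789503887) (nat_lit 152) (nat_lit 1788111439) (nat_lit 144) (nat_lit 3) (nat_lit 144) (nat_lit 1) (nat_lit 146) (nat_lit 1) (nat_lit 317) (nat_lit 328) (nat_lit 255))))) (XT.nd (nat_lit 234) (nat_lit 228) (nat_lit 0) (XT.nd (nat_lit 78) (nat_lit 152) (nat_lit 0) (XT.lf (nat_lit 76) (nat_lit 1706466730) (nat_lit 0) (nat_lit 1707677554) (nat_lit 76) (nat_lit 1707677554) (nat_lit 144) (nat_lit 3) (nat_lit 143) (nat_lit 1) (nat_lit 144) (nat_lit 1) (nat_lit 318) (nat_lit 328) (nat_lit 254)) (XT.nd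 (nat_lit 78) (nat_lit 0) (nat_lit 0) (XT.lf (nat_lit 152) (nat_lit 4898484790) (nat_lit 0) (nat_lit 319057) (nat_lit 76) (nat_lit 319057) (nat_lit 143) (nat_lit 1) (nat_lit 141) (nat_lit 1) (nat_lit 142) (nat_lit 1) (nat_lit 319) (nat_lit 328) (nat_lit 253)) (XT.lf (nat_lit 0) (nat_lit 1555011159) (nat_lit 0) (nat_lit 1555807296) (nat_lit 152) (nat_lit 1555011159) (nat_lit 141) (nat_lit 3) (nat_lit 141) (nat_lit 1) (nat_lit 143) (nat_lit 1) (nat_lit 320) (nat_lit 328) (nat_lit 252)))) (XT.nd (nat_lit 78) (nat_lit 152) (nat_lit 0) (XT.lf (nat_lit 76) (nat_lit 1484119048) (nat_lit 0) (nat_lit 1484811341) (nat_lit 76) (nat_lit 1484811341) (nat_lit 141) (nat_lit 3) (nat_lit 140) (nat_lit 1) (nat_lit 141) (nat_lit 1) (nat_lit 321) (nat_lit 328) (nat_lit 251)) (XT.nd (nat_lit 78) (nat_lit 0) (nat_lit 0) (XT.lf (nat_lit 152) (nat_lit 4259729636) (nat_lit 0) (nat_lit 182422) (nat_lit 76) (nat_lit 182422)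 (nat_lit 140) (nat_lit 1) (nat_lit 138) (nat_lit 1) (nat_lit 139) (nat_lit 1) (nat_lit 322) (nat_lit 328) (nat_lit 250)) (XT.lf (nat_lit 0) (nat_lit 1352258886) (nat_lit 0) (nat_lit 1352714080) (nat_lit 152) (nat_lit 1352258886) (nat_lit 138) (nat_lit 3) (nat_lit 138) (nat_lit 1) (nat_lit 140) (nat_lit 1) (nat_lit 323) (nat_lit 328) (nat_lit 249)))))) (XT.nd (nat_lit 390) (nat_lit 456) (nat_lit 0) (XT.nd (nat_lit 156) (nat_lit 228) (nat_lit 0) (XT.nd (nat_lit 78) (nat_lit 152) (nat_lit 0) (XT.lf (nat_lit 76) (nat_lit 1290672628) (nat_lit 0) (nat_lit 1291068448) (nat_lit 76) (nat_lit 1291068448) (nat_lit 138) (nat_lit 3) (nat_lit 137) (nat_lit 1) (nat_lit 138) (nat_lit 1) (nat_lit 324) (nat_lit 328) (nat_lit 248)) (XT.lf (nat_lit 152) (nat_lit 3704214296) (nat_lit 0) (nat_lit 104300) (nat_lit 76) (nat_lit 104300) (nat_lit 137) (nat_lit 1) (nat_lit 135) (nat_lit 1) (nat_lit 136) (nat_lit 1) (nat_lit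 325) (nat_lit 328) (nat_lit 247))) (XT.nd (nat_lit 78) (nat_lit 228) (nat_lit 0) (XT.lf (nat_lit 0) (nat_lit 1175920328) (nat_lit 0) (nat_lit 1176180586) (nat_lit 152) (nat_lit 1175920328) (nat_lit 135) (nat_lit 3) (nat_lit 135) (nat_lit 1) (nat_lit 137) (nat_lit 1) (nat_lit 326) (nat_lit 328) (nat_lit 246)) (XT.nd (nat_lit 78) (nat_lit 152) (nat_lit 0) (XT.lf (nat_lit 76) (nat_lit 1122400825) (nat_lit 0) (nat_lit 1122627136) (nat_lit 76) (nat_lit 1122627136) (nat_lit 135) (nat_lit 3) (nat_lit 134) (nat_lit 1) (nat_lit 135) (nat_lit 1) (nat_lit 327) (nat_lit 328) (nat_lit 245)) (XT.lf (nat_lit 152) (nat_lit 3221113981) (nat_lit 0) (nat_lit 59634) (nat_lit 76) (nat_lit 59634) (nat_lit 134) (nat_lit 1) (nat_lit 132) (nat_lit 1) (nat_lit 133) (nat_lit 1) (nat_lit 328) (nat_lit 328) (nat_lit 244))))) (XT.nd (nat_lit 234) (nat_lit 228) (nat_lit 0) (XT.nd (nat_lit 78) (nat_lit 228) (nat_lit 0) (XT.lf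 (nat_lit 0) (nat_lit 1022564021) (nat_lit 0) (nat_lit 1022712825) (nat_lit 152) (nat_lit 1022564021) (nat_lit 132) (nat_lit 3) (nat_lit 132) (nat_lit 1) (nat_lit 134) (nat_lit 1) (nat_lit 329) (nat_lit 328) (nat_lit 243)) (XT.nd (nat_lit 78) (nat_lit 152) (nat_lit 0) (XT.lf (nat_lit 76) (nat_lit 976044628) (nat_lit 0) (nat_lit 976174022) (nat_lit 76) (nat_lit 976174022) (nat_lit 132) (nat_lit 3) (nat_lit 131) (nat_lit 1) (nat_lit 132) (nat_lit 1) (nat_lit 330) (nat_lit 328) (nat_lit 242)) (XT.lf (nat_lit 152) (nat_lit 2801001883) (nat_lit 0) (nat_lit 34096) (nat_lit 76) (nat_lit 34096) (nat_lit 131) (nat_lit 1) (nat_lit 129) (nat_lit 1) (nat_lit 130) (nat_lit 1) (nat_lit 331) (nat_lit 328) (nat_lit 241)))) (XT.nd (nat_lit 78) (nat_lit 228) (nat_lit 0) (XT.lf (nat_lit 0) (nat_lit 889200174) (nat_lit 0) (nat_lit 889285253) (nat_lit 152) (nat_lit 889200174) (nat_lit 129) (nat_lit 3) (nat_lit 129)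 (nat_lit 1) (nat_lit 131) (nat_lit 1) (nat_lit 332) (nat_lit 328) (nat_lit 240)) (XT.nd (nat_lit 78) (nat_lit 152) (nat_lit 0) (XT.lf (nat_lit 76) (nat_lit 848759565) (nat_lit 0) (nat_lit 848833547) (nat_lit 76) (nat_lit 848833547) (nat_lit 129) (nat_lit 3) (nat_lit 128) (nat_lit 1) (nat_lit 129) (nat_lit 1) (nat_lit 333) (nat_lit 328) (nat_lit 239)) (XT.lf (nat_lit 152) (nat_lit 2435672795) (nat_lit 0) (nat_lit 19494) (nat_lit 76) (nat_lit 19494) (nat_lit 128) (nat_lit 1) (nat_lit 126) (nat_lit 1) (nat_lit 127) (nat_lit 1) (nat_lit 334) (nat_lit 328) (nat_lit 238))))))) (XT.nd (nat_lit 858) (nat_lit 836) (nat_lit 0) (XT.nd (nat_lit 390) (nat_lit 456) (nat_lit 0) (XT.nd (nat_lit 156) (nat_lit 228) (nat_lit 0) (XT.nd (nat_lit 78) (nat_lit 76) (nat_lit 0) (XT.lf (nat_lit 0) (nat_lit 773225586) (nat_lit 0) (nat_lit 773274230) (nat_lit 152) (nat_lit 773225586) (nat_lit 126) (nat_lit 3) (nat_lit 126)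 (nat_lit 1) (nat_lit 128) (nat_lit 1) (nat_lit 335) (nat_lit 328) (nat_lit 237)) (XT.lf (nat_lit 76) (nat_lit 738066150) (nat_lit 0) (nat_lit 738108450) (nat_lit 76) (nat_lit 738108450) (nat_lit 126) (nat_lit 3) (nat_lit 125) (nat_lit 1) (nat_lit 126) (nat_lit 1) (nat_lit 336) (nat_lit 328) (nat_lit 236))) (XT.nd (nat_lit 78) (nat_lit 76) (nat_lit 0) (XT.lf (nat_lit 152) (nat_lit 2117987197) (nat_lit 0) (nat_lit 11146) (nat_lit 76) (nat_lit 11146) (nat_lit 125) (nat_lit 1) (nat_lit 123) (nat_lit 1) (nat_lit 124) (nat_lit 1) (nat_lit 337) (nat_lit 328) (nat_lit 235)) (XT.nd (nat_lit 78) (nat_lit 76) (nat_lit 0) (XT.lf (nat_lit 0) (nat_lit 672374674) (nat_lit 0) (nat_lit 672402486) (nat_lit 152) (nat_lit 672374674) (nat_lit 123) (nat_lit 3) (nat_lit 123) (nat_lit 1) (nat_lit 125) (nat_lit 1) (nat_lit 338) (nat_lit 328) (nat_lit 234)) (XT.lf (nat_lit 76) (nat_lit 641804860) (nat_lit 0) (nat_lit 641829045)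 (nat_lit 76) (nat_lit 641829045) (nat_lit 123) (nat_lit 3) (nat_lit 122) (nat_lit 1) (nat_lit 123) (nat_lit 1) (nat_lit 339) (nat_lit 328) (nat_lit 233))))) (XT.nd (nat_lit 234) (nat_lit 228) (nat_lit 0) (XT.nd (nat_lit 78) (nat_lit 76) (nat_lit 0) (XT.lf (nat_lit 152) (nat_lit 1841734204) (nat_lit 0) (nat_lit 6372) (nat_lit 76) (nat_lit 6372) (nat_lit 122) (nat_lit 1) (nat_lit 120) (nat_lit 1) (nat_lit 121) (nat_lit 1) (nat_lit 340) (nat_lit 328) (nat_lit 232)) (XT.nd (nat_lit 78) (nat_lit 76) (nat_lit 0) (XT.lf (nat_lit 0) (nat_lit 584676259) (nat_lit 0) (nat_lit 584692161) (nat_lit 152) (nat_lit 584676259) (nat_lit 120) (nat_lit 3) (nat_lit 120) (nat_lit 1) (nat_lit 122) (nat_lit 1) (nat_lit 341) (nat_lit 328) (nat_lit 231)) (XT.lf (nat_lit 76) (nat_lit 558095875) (nat_lit 0) (nat_lit 558109703) (nat_lit 76) (nat_lit 558109703) (nat_lit 120) (nat_lit 3) (nat_lit 119) (nat_lit 1) (nat_lit 120)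 (nat_lit 1) (nat_lit 342) (nat_lit 328) (nat_lit 230)))) (XT.nd (nat_lit 78) (nat_lit 76) (nat_lit 0) (XT.lf (nat_lit 152) (nat_lit 1601511551) (nat_lit 0) (nat_lit 3643) (nat_lit 76) (nat_lit 3643) (nat_lit 119) (nat_lit 1) (nat_lit 117) (nat_lit 1) (nat_lit 118) (nat_lit 1) (nat_lit 343) (nat_lit 328) (nat_lit 229)) (XT.nd (nat_lit 78) (nat_lit 76) (nat_lit 0) (XT.lf (nat_lit 0) (nat_lit 508415641) (nat_lit 0) (nat_lit 508424733) (nat_lit 152) (nat_lit 508415641) (nat_lit 117) (nat_lit 3) (nat_lit 117) (nat_lit 1) (nat_lit 119) (nat_lit 1) (nat_lit 344) (nat_lit 328) (nat_lit 228)) (XT.lf (nat_lit 76) (nat_lit 485303444) (nat_lit 0) (nat_lit 485311350) (nat_lit 76) (nat_lit 485311350) (nat_lit 117) (nat_lit 3) (nat_lit 116) (nat_lit 1) (nat_lit 117) (nat_lit 1) (nat_lit 345) (nat_lit 328) (nat_lit 227)))))) (XT.nd (nat_lit 390) (nat_lit 456) (nat_lit 0) (XT.nd (nat_lit 156) (nat_lit 228) (nat_lit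 0) (XT.nd (nat_lit 78) (nat_lit 0) (nat_lit 0) (XT.lf (nat_lit 152) (nat_lit 1392620769) (nat_lit 0) (nat_lit 2083) (nat_lit 76) (nat_lit 2083) (nat_lit 116) (nat_lit 1) (nat_lit 114) (nat_lit 1) (nat_lit 115) (nat_lit 1) (nat_lit 346) (nat_lit 328) (nat_lit 226)) (XT.lf (nat_lit 0) (nat_lit 442101417) (nat_lit 0) (nat_lit 442106616) (nat_lit 152) (nat_lit 442101417) (nat_lit 114) (nat_lit 3) (nat_lit 114) (nat_lit 1) (nat_lit 116) (nat_lit 1) (nat_lit 347) (nat_lit 328) (nat_lit 225))) (XT.nd (nat_lit 78) (nat_lit 152) (nat_lit 0) (XT.lf (nat_lit 76) (nat_lit 422004528) (nat_lit 0) (nat_lit 422009049) (nat_lit 76) (nat_lit 422009049) (nat_lit 114) (nat_lit 3) (nat_lit 113) (nat_lit 1) (nat_lit 114) (nat_lit 1) (nat_lit 348) (nat_lit 328) (nat_lit 224)) (XT.nd (nat_lit 78) (nat_lit 0) (nat_lit 0) (XT.lf (nat_lit 152) (nat_lit 1210975741) (nat_lit 0) (nat_lit 1191) (nat_lit 76) (nat_lit 1191) (nat_lit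 113) (nat_lit 1) (nat_lit 111) (nat_lit 1) (nat_lit 112) (nat_lit 1) (nat_lit 349) (nat_lit 328) (nat_lit 223)) (XT.lf (nat_lit 0) (nat_lit 384436506) (nat_lit 0) (nat_lit 384439479) (nat_lit 152) (nat_lit 384436506) (nat_lit 111) (nat_lit 3) (nat_lit 111) (nat_lit 1) (nat_lit 113) (nat_lit 1) (nat_lit 350) (nat_lit 328) (nat_lit 222))))) (XT.nd (nat_lit 234) (nat_lit 228) (nat_lit 0) (XT.nd (nat_lit 78) (nat_lit 152) (nat_lit 0) (XT.lf (nat_lit 76) (nat_lit 366961337) (nat_lit 0) (nat_lit 366963921) (nat_lit 76) (nat_lit 366963921) (nat_lit 111) (nat_lit 3) (nat_lit 110) (nat_lit 1) (nat_lit 111) (nat_lit 1) (nat_lit 351) (nat_lit 328) (nat_lit 221)) (XT.nd (nat_lit 78) (nat_lit 0) (nat_lit 0) (XT.lf (nat_lit 152) (nat_lit 1053023047) (nat_lit 0) (nat_lit 681) (nat_lit 76) (nat_lit 681) (nat_lit 110) (nat_lit 1) (nat_lit 108) (nat_lit 1) (nat_lit 109) (nat_lit 1) (nat_lit 352) (nat_lit 328) (nat_lit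 220)) (XT.lf (nat_lit 0) (nat_lit 334292895) (nat_lit 0) (nat_lit 334294595) (nat_lit 152) (nat_lit 334292895) (nat_lit 108) (nat_lit 3) (nat_lit 108) (nat_lit 1) (nat_lit 110) (nat_lit 1) (nat_lit 353) (nat_lit 328) (nat_lit 219)))) (XT.nd (nat_lit 78) (nat_lit 152) (nat_lit 0) (XT.lf (nat_lit 76) (nat_lit 319097316) (nat_lit 0) (nat_lit 319098793) (nat_lit 76) (nat_lit 319098793) (nat_lit 108) (nat_lit 3) (nat_lit 107) (nat_lit 1) (nat_lit 108) (nat_lit 1) (nat_lit 354) (nat_lit 328) (nat_lit 218)) (XT.nd (nat_lit 78) (nat_lit 0) (nat_lit 0) (XT.lf (nat_lit 152) (nat_lit 915672594) (nat_lit 0) (nat_lit 389) (nat_lit 76) (nat_lit 389) (nat_lit 107) (nat_lit 1) (nat_lit 105) (nat_lit 1) (nat_lit 106) (nat_lit 1) (nat_lit 355) (nat_lit 328) (nat_lit 217)) (XT.lf (nat_lit 0) (nat_lit 290689635) (nat_lit 0) (nat_lit 290690606) (nat_lit 152) (nat_lit 290689635) (nat_lit 105) (nat_lit 3) (nat_lit 105)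 (nat_lit 1) (nat_lit 107) (nat_lit 1) (nat_lit 356) (nat_lit 328) (nat_lit 216))))))))
noncomputable def ec87 : XT := (XT.nd (nat_lit 38454) (nat_lit 0) (nat_lit 7448) (XT.nd (nat_lit 858) (nat_lit 228) (nat_lit 0) (XT.nd (nat_lit 390) (nat_lit 456) (nat_lit 0) (XT.nd (nat_lit 156) (nat_lit 228) (nat_lit 0) (XT.nd (nat_lit 78) (nat_lit 152) (nat_lit 0) (XT.lf (nat_lit 76) (nat_lit 277476213) (nat_lit 0) (nat_lit 277477058) (nat_lit 76) (nat_lit 277477058) (nat_lit 105) (nat_lit 3) (nat_lit 104) (nat_lit 1) (nat_lit 105) (nat_lit 1) (nat_lit 357) (nat_lit 328) (nat_lit 215)) (XT.lf (nat_lit 152) (nat_lit 796237255) (nat_lit 0) (nat_lit 222) (nat_lit 76) (nat_lit 222) (nat_lit 104) (nat_lit 1) (nat_lit 102) (nat_lit 1) (nat_lit 103) (nat_lit 1) (nat_lit 358) (nat_lit 328) (nat_lit 214))) (XT.nd (nat_lit 78) (nat_lit 228) (nat_lit 0) (XT.lf (nat_lit 0) (nat_lit 252773687) (nat_lit 0) (nat_lit 252774243)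 (nat_lit 152) (nat_lit 252773687) (nat_lit 102) (nat_lit 3) (nat_lit 102) (nat_lit 1) (nat_lit 104) (nat_lit 1) (nat_lit 359) (nat_lit 328) (nat_lit 213)) (XT.nd (nat_lit 78) (nat_lit 152) (nat_lit 0) (XT.lf (nat_lit 76) (nat_lit 241283828) (nat_lit 0) (nat_lit 241284311) (nat_lit 76) (nat_lit 241284311) (nat_lit 102) (nat_lit 3) (nat_lit 101) (nat_lit 1) (nat_lit 102) (nat_lit 1) (nat_lit 360) (nat_lit 328) (nat_lit 212)) (XT.lf (nat_lit 152) (nat_lit 692380346) (nat_lit 0) (nat_lit 127) (nat_lit 76) (nat_lit 127) (nat_lit 101) (nat_lit 1) (nat_lit 99) (nat_lit 1) (nat_lit 100) (nat_lit 1) (nat_lit 361) (nat_lit 328) (nat_lit 211))))) (XT.nd (nat_lit 234) (nat_lit 228) (nat_lit 0) (XT.nd (nat_lit 78) (nat_lit 228) (nat_lit 0) (XT.lf (nat_lit 0) (nat_lit 219803259) (nat_lit 0) (nat_lit 219803576) (nat_lit 152) (nat_lit 219803259) (nat_lit 99) (nat_lit 3) (nat_lit 99) (nat_lit 1) (nat_lit 101) (nat_lit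 1) (nat_lit 362) (nat_lit 328) (nat_lit 210)) (XT.nd (nat_lit 78) (nat_lit 152) (nat_lit 0) (XT.lf (nat_lit 76) (nat_lit 209812118) (nat_lit 0) (nat_lit 209812394) (nat_lit 76) (nat_lit 209812394) (nat_lit 99) (nat_lit 3) (nat_lit 98) (nat_lit 1) (nat_lit 99) (nat_lit 1) (nat_lit 363) (nat_lit 328) (nat_lit 209)) (XT.lf (nat_lit 152) (nat_lit 602069937) (nat_lit 0) (nat_lit 72) (nat_lit 76) (nat_lit 72) (nat_lit 98) (nat_lit 1) (nat_lit 96) (nat_lit 1) (nat_lit 97) (nat_lit 1) (nat_lit 364) (nat_lit 328) (nat_lit 208)))) (XT.nd (nat_lit 78) (nat_lit 228) (nat_lit 0) (XT.lf (nat_lit 0) (nat_lit 191133298) (nat_lit 0) (nat_lit 191133480) (nat_lit 152) (nat_lit 191133298) (nat_lit 96) (nat_lit 3) (nat_lit 96) (nat_lit 1) (nat_lit 98) (nat_lit 1) (nat_lit 365) (nat_lit 328) (nat_lit 207)) (XT.nd (nat_lit 78) (nat_lit 152) (nat_lit 0) (XT.lf (nat_lit 76) (nat_lit 182445373) (nat_lit 0) (nat_lit 182445531)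 (nat_lit 76) (nat_lit 182445531) (nat_lit 96) (nat_lit 3) (nat_lit 95) (nat_lit 1) (nat_lit 96) (nat_lit 1) (nat_lit 366) (nat_lit 328) (nat_lit 206)) (XT.lf (nat_lit 152) (nat_lit 523539116) (nat_lit 0) (nat_lit 41) (nat_lit 76) (nat_lit 41) (nat_lit 95) (nat_lit 1) (nat_lit 93) (nat_lit 1) (nat_lit 94) (nat_lit 1) (nat_lit 367) (nat_lit 328) (nat_lit 205)))))) (XT.nd (nat_lit 37128) (nat_lit 0) (nat_lit 9348) (XT.nd (nat_lit 156) (nat_lit 152) (nat_lit 0) (XT.nd (nat_lit 78) (nat_lit 76) (nat_lit 0) (XT.lf (nat_lit 0) (nat_lit 166202885) (nat_lit 0) (nat_lit 166202989) (nat_lit 152) (nat_lit 166202885) (nat_lit 93) (nat_lit 3) (nat_lit 93) (nat_lit 1) (nat_lit 95) (nat_lit 1) (nat_lit 368) (nat_lit 328) (nat_lit 204)) (XT.lf (nat_lit 76) (nat_lit 158648181) (nat_lit 0) (nat_lit 158648272) (nat_lit 76) (nat_lit 158648272) (nat_lit 93) (nat_lit 3) (nat_lit 92) (nat_lit 1) (nat_lit 93) (nat_lit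 1) (nat_lit 369) (nat_lit 328) (nat_lit 203))) (XT.nd (nat_lit 78) (nat_lit 0) (nat_lit 0) (XT.lf (nat_lit 152) (nat_lit 455251428) (nat_lit 0) (nat_lit 23) (nat_lit 76) (nat_lit 23) (nat_lit 92) (nat_lit 1) (nat_lit 90) (nat_lit 1) (nat_lit 91) (nat_lit 1) (nat_lit 370) (nat_lit 328) (nat_lit 202)) (XT.nd (nat_lit 36816) (nat_lit 0) (nat_lit 9500) (XT.lf (nat_lit 0) (nat_lit 144524258) (nat_lit 0) (nat_lit 144524317) (nat_lit 152) (nat_lit 144524258) (nat_lit 90) (nat_lit 3) (nat_lit 90) (nat_lit 1) (nat_lit 92) (nat_lit 1) (nat_lit 371) (nat_lit 328) (nat_lit 201)) (XT.lf (nat_lit 380) (nat_lit 40398180783) (nat_lit 0) (nat_lit 35781662978) (nat_lit 380) (nat_lit 40398180783) (nat_lit 220) (nat_lit 1) (nat_lit 215) (nat_lit 0) (nat_lit 220) (nat_lit 0) (nat_lit 242) (nat_lit 329) (nat_lit 329))))) (XT.nd (nat_lit 234) (nat_lit 152) (nat_lit 0) (XT.nd (nat_lit 78) (nat_lit 0) (nat_lit 76) (XT.lf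 (nat_lit 380) (nat_lit 149427628051) (nat_lit 76) (nat_lit 34155223752) (nat_lit 0) (nat_lit 34155223752) (nat_lit 220) (nat_lit 1) (nat_lit 216) (nat_lit 1) (nat_lit 215) (nat_lit 0) (nat_lit 243) (nat_lit 329) (nat_lit 328)) (XT.nd (nat_lit 78) (nat_lit 0) (nat_lit 0) (XT.lf (nat_lit 380) (nat_lit 65866841582) (nat_lit 0) (nat_lit 71669336968) (nat_lit 304) (nat_lit 65866841582) (nat_lit 221) (nat_lit 1) (nat_lit 216) (nat_lit 1) (nat_lit 220) (nat_lit 1) (nat_lit 244) (nat_lit 329) (nat_lit 327)) (XT.lf (nat_lit 380) (nat_lit 113089946999) (nat_lit 76) (nat_lit 38711445266) (nat_lit 0) (nat_lit 38711445266) (nat_lit 221) (nat_lit 1) (nat_lit 217) (nat_lit 1) (nat_lit 216) (nat_lit 1) (nat_lit 245) (nat_lit 329) (nat_lit 326)))) (XT.nd (nat_lit 78) (nat_lit 304) (nat_lit 0) (XT.lf (nat_lit 76) (nat_lit 45746383467) (nat_lit 0) (nat_lit 87108794128) (nat_lit 304) (nat_lit 45746383467) (nat_lit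 218) (nat_lit 1) (nat_lit 217) (nat_lit 1) (nat_lit 221) (nat_lit 1) (nat_lit 246) (nat_lit 329) (nat_lit 325)) (XT.nd (nat_lit 78) (nat_lit 0) (nat_lit 0) (XT.lf (nat_lit 380) (nat_lit 68753119715) (nat_lit 0) (nat_lit 49487177167) (nat_lit 304) (nat_lit 49487177167) (nat_lit 218) (nat_lit 1) (nat_lit 213) (nat_lit 1) (nat_lit 217) (nat_lit 1) (nat_lit 247) (nat_lit 329) (nat_lit 324)) (XT.lf (nat_lit 76) (nat_lit 22852777678) (nat_lit 0) (nat_lit 112139152847) (nat_lit 380) (nat_lit 22852777678) (nat_lit 214) (nat_lit 1) (nat_lit 213) (nat_lit 1) (nat_lit 218) (nat_lit 1) (nat_lit 248) (nat_lit 329) (nat_lit 323))))))) (XT.nd (nat_lit 858) (nat_lit 836) (nat_lit 0) (XT.nd (nat_lit 390) (nat_lit 532) (nat_lit 0) (XT.nd (nat_lit 156) (nat_lit 152) (nat_lit 0) (XT.nd (nat_lit 78) (nat_lit 228) (nat_lit 0) (XT.lf (nat_lit 228) (nat_lit 20566960823) (nat_lit 0) (nat_lit 64009590655) (nat_lit 152)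 (nat_lit 64009590655) (nat_lit 214) (nat_lit 1) (nat_lit 211) (nat_lit 1) (nat_lit 213) (nat_lit 1) (nat_lit 249) (nat_lit 329) (nat_lit 322)) (XT.lf (nat_lit 228) (nat_lit 138209717945) (nat_lit 0) (nat_lit 1084394985) (nat_lit 152) (nat_lit 1084394985) (nat_lit 211) (nat_lit 1) (nat_lit 208) (nat_lit 1) (nat_lit 210) (nat_lit 1) (nat_lit 250) (nat_lit 329) (nat_lit 321))) (XT.nd (nat_lit 78) (nat_lit 152) (nat_lit 0) (XT.lf (nat_lit 76) (nat_lit 53101057039) (nat_lit 0) (nat_lit 26069792456) (nat_lit 228) (nat_lit 53101057039) (nat_lit 209) (nat_lit 1) (nat_lit 208) (nat_lit 1) (nat_lit 211) (nat_lit 1) (nat_lit 251) (nat_lit 329) (nat_lit 320)) (XT.nd (nat_lit 78) (nat_lit 0) (nat_lit 0) (XT.lf (nat_lit 228) (nat_lit 77184424499) (nat_lit 0) (nat_lit 23941849729) (nat_lit 152) (nat_lit 23941849729) (nat_lit 209) (nat_lit 1) (nat_lit 206) (nat_lit 1) (nat_lit 208) (nat_lit 1) (nat_lit 252) (nat_lit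 329) (nat_lit 319)) (XT.lf (nat_lit 76) (nat_lit 24138101082) (nat_lit 0) (nat_lit 70048356664) (nat_lit 228) (nat_lit 24138101082) (nat_lit 207) (nat_lit 1) (nat_lit 206) (nat_lit 1) (nat_lit 209) (nat_lit 1) (nat_lit 253) (nat_lit 329) (nat_lit 318))))) (XT.nd (nat_lit 234) (nat_lit 228) (nat_lit 0) (XT.nd (nat_lit 78) (nat_lit 228) (nat_lit 0) (XT.lf (nat_lit 152) (nat_lit 19954601315) (nat_lit 0) (nat_lit 46045340688) (nat_lit 76) (nat_lit 46045340688) (nat_lit 207) (nat_lit 1) (nat_lit 205) (nat_lit 1) (nat_lit 206) (nat_lit 1) (nat_lit 254) (nat_lit 329) (nat_lit 317)) (XT.nd (nat_lit 78) (nat_lit 0) (nat_lit 0) (XT.lf (nat_lit 228) (nat_lit 101021921648) (nat_lit 0) (nat_lit 2683750742) (nat_lit 152) (nat_lit 2683750742) (nat_lit 205) (nat_lit 1) (nat_lit 202) (nat_lit 1) (nat_lit 204) (nat_lit 1) (nat_lit 255) (nat_lit 329) (nat_lit 316)) (XT.lf (nat_lit 76) (nat_lit 35355499851) (nat_lit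 0) (nat_lit 30025044008) (nat_lit 228) (nat_lit 35355499851) (nat_lit 203) (nat_lit 1) (nat_lit 202) (nat_lit 1) (nat_lit 205) (nat_lit 1) (nat_lit 256) (nat_lit 329) (nat_lit 315)))) (XT.nd (nat_lit 78) (nat_lit 152) (nat_lit 0) (XT.lf (nat_lit 152) (nat_lit 42988901544) (nat_lit 0) (nat_lit 26326572982) (nat_lit 76) (nat_lit 26326572982) (nat_lit 203) (nat_lit 1) (nat_lit 201) (nat_lit 1) (nat_lit 202) (nat_lit 1) (nat_lit 257) (nat_lit 329) (nat_lit 314)) (XT.nd (nat_lit 78) (nat_lit 152) (nat_lit 0) (XT.lf (nat_lit 0) (nat_lit 8417819341) (nat_lit 0) (nat_lit 74109835102) (nat_lit 152) (nat_lit 8417819341) (nat_lit 201) (nat_lit 3) (nat_lit 201) (nat_lit 1) (nat_lit 203) (nat_lit 1) (nat_lit 258) (nat_lit 329) (nat_lit 313)) (XT.lf (nat_lit 76) (nat_lit 38957632411) (nat_lit 0) (nat_lit 8449237002) (nat_lit 152) (nat_lit 38957632411) (nat_lit 200) (nat_lit 1) (nat_lit 199) (nat_lit 1) (nat_lit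 201) (nat_lit 1) (nat_lit 259) (nat_lit 329) (nat_lit 312)))))) (XT.nd (nat_lit 468) (nat_lit 456) (nat_lit 0) (XT.nd (nat_lit 234) (nat_lit 228) (nat_lit 0) (XT.nd (nat_lit 78) (nat_lit 76) (nat_lit 0) (XT.lf (nat_lit 152) (nat_lit 52039733962) (nat_lit 0) (nat_lit 15052303548) (nat_lit 76) (nat_lit 15052303548) (nat_lit 200) (nat_lit 1) (nat_lit 198) (nat_lit 1) (nat_lit 199) (nat_lit 1) (nat_lit 260) (nat_lit 329) (nat_lit 311)) (XT.nd (nat_lit 78) (nat_lit 76) (nat_lit 0) (XT.lf (nat_lit 0) (nat_lit 13530594888) (nat_lit 0) (nat_lit 51090218109) (nat_lit 152) (nat_lit 13530594888) (nat_lit 198) (nat_lit 3) (nat_lit 198) (nat_lit 1) (nat_lit 200) (nat_lit 1) (nat_lit 261) (nat_lit 329) (nat_lit 310)) (XT.lf (nat_lit 76) (nat_lit 3018433929) (nat_lit 0) (nat_lit 35678975860) (nat_lit 76) (nat_lit 35678975860) (nat_lit 198) (nat_lit 3) (nat_lit 197) (nat_lit 1) (nat_lit 198) (nat_lit 1) (nat_lit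 262) (nat_lit 329) (nat_lit 309)))) (XT.nd (nat_lit 78) (nat_lit 76) (nat_lit 0) (XT.lf (nat_lit 152) (nat_lit 53632747645) (nat_lit 0) (nat_lit 8606203407) (nat_lit 76) (nat_lit 8606203407) (nat_lit 197) (nat_lit 1) (nat_lit 195) (nat_lit 1) (nat_lit 196) (nat_lit 1) (nat_lit 263) (nat_lit 329) (nat_lit 308)) (XT.nd (nat_lit 78) (nat_lit 76) (nat_lit 0) (XT.lf (nat_lit 0) (nat_lit 15316752288) (nat_lit 0) (nat_lit 36791588768) (nat_lit 152) (nat_lit 15316752288) (nat_lit 195) (nat_lit 3) (nat_lit 195) (nat_lit 1) (nat_lit 197) (nat_lit 1) (nat_lit 264) (nat_lit 329) (nat_lit 307)) (XT.lf (nat_lit 76) (nat_lit 8961817835) (nat_lit 0) (nat_lit 27635588687) (nat_lit 76) (nat_lit 27635588687) (nat_lit 195) (nat_lit 3) (nat_lit 194) (nat_lit 1) (nat_lit 195) (nat_lit 1) (nat_lit 265) (nat_lit 329) (nat_lit 306))))) (XT.nd (nat_lit 234) (nat_lit 228) (nat_lit 0) (XT.nd (nat_lit 78) (nat_lit 76) (nat_lit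 0) (XT.lf (nat_lit 152) (nat_lit 51428924364) (nat_lit 0) (nat_lit 4920624730) (nat_lit 76) (nat_lit 4920624730) (nat_lit 194) (nat_lit 1) (nat_lit 192) (nat_lit 1) (nat_lit 193) (nat_lit 1) (nat_lit 266) (nat_lit 329) (nat_lit 305)) (XT.nd (nat_lit 78) (nat_lit 76) (nat_lit 0) (XT.lf (nat_lit 0) (nat_lit 15349220873) (nat_lit 0) (nat_lit 27627528329) (nat_lit 152) (nat_lit 15349220873) (nat_lit 192) (nat_lit 3) (nat_lit 192) (nat_lit 1) (nat_lit 194) (nat_lit 1) (nat_lit 267) (nat_lit 329) (nat_lit 304)) (XT.lf (nat_lit 76) (nat_lit 11416138382) (nat_lit 0) (nat_lit 22092927474) (nat_lit 76) (nat_lit 22092927474) (nat_lit 192) (nat_lit 3) (nat_lit 191) (nat_lit 1) (nat_lit 192) (nat_lit 1) (nat_lit 268) (nat_lit 329) (nat_lit 303)))) (XT.nd (nat_lit 78) (nat_lit 76) (nat_lit 0) (XT.lf (nat_lit 152) (nat_lit 47460503838) (nat_lit 0) (nat_lit 2813383159) (nat_lit 76) (nat_lit 2813383159) (nat_lit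 191) (nat_lit 1) (nat_lit 189) (nat_lit 1) (nat_lit 190) (nat_lit 1) (nat_lit 269) (nat_lit 329) (nat_lit 302)) (XT.nd (nat_lit 78) (nat_lit 76) (nat_lit 0) (XT.lf (nat_lit 0) (nat_lit 14507982539) (nat_lit 0) (nat_lit 21528144677) (nat_lit 152) (nat_lit 14507982539) (nat_lit 189) (nat_lit 3) (nat_lit 189) (nat_lit 1) (nat_lit 191) (nat_lit 1) (nat_lit 270) (nat_lit 329) (nat_lit 301)) (XT.lf (nat_lit 76) (nat_lit 11998683692) (nat_lit 0) (nat_lit 18103172507) (nat_lit 76) (nat_lit 18103172507) (nat_lit 189) (nat_lit 3) (nat_lit 188) (nat_lit 1) (nat_lit 189) (nat_lit 1) (nat_lit 271) (nat_lit 329) (nat_lit 300))))))))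
noncomputable def ec88 : XT := (XT.nd (nat_lit 1716) (nat_lit 1596) (nat_lit 0) (XT.nd (nat_lit 858) (nat_lit 912) (nat_lit 0) (XT.nd (nat_lit 390) (nat_lit 456) (nat_lit 0) (XT.nd (nat_lit 156) (nat_lit 228) (nat_lit 0) (XT.nd (nat_lit 78) (nat_lit 0) (nat_lit 0) (XT.lf (nat_lit 152) (nat_lit 42836435730) (nat_lit 0) (nat_lit 1608560952) (nat_lit 76) (nat_lit 1608560952) (nat_lit 188) (nat_lit 1) (nat_lit 186) (nat_lit 1) (nat_lit 187) (nat_lit 1) (nat_lit 272) (nat_lit 329) (nat_lit 299)) (XT.lf (nat_lit 0) (nat_lit 13279347571) (nat_lit 0) (nat_lit 17293148058) (nat_lit 152) (nat_lit 13279347571) (nat_lit 186) (nat_lit 3) (nat_lit 186) (nat_lit 1) (nat_lit 188) (nat_lit 1) (nat_lit 273) (nat_lit 329) (nat_lit 298))) (XT.nd (nat_lit 78) (nat_lit 152) (nat_lit 0) (XT.lf (nat_lit 76) (nat_lit 11618085926) (nat_lit 0) (nat_lit 15108347219) (nat_lit 76) (nat_lit 15108347219) (nat_lit 186) (nat_lit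 3) (nat_lit 185) (nat_lit 1) (nat_lit 186) (nat_lit 1) (nat_lit 274) (nat_lit 329) (nat_lit 297)) (XT.nd (nat_lit 78) (nat_lit 0) (nat_lit 0) (XT.lf (nat_lit 152) (nat_lit 38144687351) (nat_lit 0) (nat_lit 919699945) (nat_lit 76) (nat_lit 919699945) (nat_lit 185) (nat_lit 1) (nat_lit 183) (nat_lit 1) (nat_lit 184) (nat_lit 1) (nat_lit 275) (nat_lit 329) (nat_lit 296)) (XT.lf (nat_lit 0) (nat_lit 11926737436) (nat_lit 0) (nat_lit 14221640892) (nat_lit 152) (nat_lit 11926737436) (nat_lit 183) (nat_lit 3) (nat_lit 183) (nat_lit 1) (nat_lit 185) (nat_lit 1) (nat_lit 276) (nat_lit 329) (nat_lit 295))))) (XT.nd (nat_lit 234) (nat_lit 228) (nat_lit 0) (XT.nd (nat_lit 78) (nat_lit 152) (nat_lit 0) (XT.lf (nat_lit 76) (nat_lit 10779895364) (nat_lit 0) (nat_lit 12775463586) (nat_lit 76) (nat_lit 12775463586) (nat_lit 183) (nat_lit 3) (nat_lit 182) (nat_lit 1) (nat_lit 183) (nat_lit 1) (nat_lit 277) (nat_lit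 329) (nat_lit 294)) (XT.nd (nat_lit 78) (nat_lit 0) (nat_lit 0) (XT.lf (nat_lit 152) (nat_lit 33681362876) (nat_lit 0) (nat_lit 525841428) (nat_lit 76) (nat_lit 525841428) (nat_lit 182) (nat_lit 1) (nat_lit 180) (nat_lit 1) (nat_lit 181) (nat_lit 1) (nat_lit 278) (nat_lit 329) (nat_lit 293)) (XT.lf (nat_lit 0) (nat_lit 10588044197) (nat_lit 0) (nat_lit 11900162696) (nat_lit 152) (nat_lit 10588044197) (nat_lit 180) (nat_lit 3) (nat_lit 180) (nat_lit 1) (nat_lit 182) (nat_lit 1) (nat_lit 279) (nat_lit 329) (nat_lit 292)))) (XT.nd (nat_lit 78) (nat_lit 152) (nat_lit 0) (XT.lf (nat_lit 76) (nat_lit 9761020186) (nat_lit 0) (nat_lit 10901992794) (nat_lit 76) (nat_lit 10901992794) (nat_lit 180) (nat_lit 3) (nat_lit 179) (nat_lit 1) (nat_lit 180) (nat_lit 1) (nat_lit 280) (nat_lit 329) (nat_lit 291)) (XT.nd (nat_lit 78) (nat_lit 0) (nat_lit 0) (XT.lf (nat_lit 152) (nat_lit 29580919046) (nat_lit 0) (nat_lit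 300651543) (nat_lit 76) (nat_lit 300651543) (nat_lit 179) (nat_lit 1) (nat_lit 177) (nat_lit 1) (nat_lit 178) (nat_lit 1) (nat_lit 281) (nat_lit 329) (nat_lit 290)) (XT.lf (nat_lit 0) (nat_lit 9331047207) (nat_lit 0) (nat_lit 10081255218) (nat_lit 152) (nat_lit 9331047207) (nat_lit 177) (nat_lit 3) (nat_lit 177) (nat_lit 1) (nat_lit 179) (nat_lit 1) (nat_lit 282) (nat_lit 329) (nat_lit 289)))))) (XT.nd (nat_lit 390) (nat_lit 456) (nat_lit 0) (XT.nd (nat_lit 156) (nat_lit 228) (nat_lit 0) (XT.nd (nat_lit 78) (nat_lit 152) (nat_lit 0) (XT.lf (nat_lit 76) (nat_lit 8709225428) (nat_lit 0) (nat_lit 9361580219) (nat_lit 76) (nat_lit 9361580219) (nat_lit 177) (nat_lit 3) (nat_lit 176) (nat_lit 1) (nat_lit 177) (nat_lit 1) (nat_lit 283) (nat_lit 329) (nat_lit 288)) (XT.lf (nat_lit 152) (nat_lit 25889934738) (nat_lit 0) (nat_lit 171898495) (nat_lit 76) (nat_lit 171898495) (nat_lit 176) (nat_lit 1) (nat_lit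 174) (nat_lit 1) (nat_lit 175) (nat_lit 1) (nat_lit 284) (nat_lit 329) (nat_lit 287))) (XT.nd (nat_lit 78) (nat_lit 228) (nat_lit 0) (XT.lf (nat_lit 0) (nat_lit 8184881372) (nat_lit 0) (nat_lit 8613815236) (nat_lit 152) (nat_lit 8184881372) (nat_lit 174) (nat_lit 3) (nat_lit 174) (nat_lit 1) (nat_lit 176) (nat_lit 1) (nat_lit 285) (nat_lit 329) (nat_lit 286)) (XT.nd (nat_lit 78) (nat_lit 152) (nat_lit 0) (XT.lf (nat_lit 76) (nat_lit 7699815258) (nat_lit 0) (nat_lit 8072801227) (nat_lit 76) (nat_lit 8072801227) (nat_lit 174) (nat_lit 3) (nat_lit 173) (nat_lit 1) (nat_lit 174) (nat_lit 1) (nat_lit 286) (nat_lit 329) (nat_lit 285)) (XT.lf (nat_lit 152) (nat_lit 22608696184) (nat_lit 0) (nat_lit 98283522) (nat_lit 76) (nat_lit 98283522) (nat_lit 173) (nat_lit 1) (nat_lit 171) (nat_lit 1) (nat_lit 172) (nat_lit 1) (nat_lit 287) (nat_lit 329) (nat_lit 284))))) (XT.nd (nat_lit 234) (nat_lit 228) (nat_lit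 0) (XT.nd (nat_lit 78) (nat_lit 228) (nat_lit 0) (XT.lf (nat_lit 0) (nat_lit 7157841051) (nat_lit 0) (nat_lit 7403085380) (nat_lit 152) (nat_lit 7157841051) (nat_lit 171) (nat_lit 3) (nat_lit 171) (nat_lit 1) (nat_lit 173) (nat_lit 1) (nat_lit 288) (nat_lit 329) (nat_lit 283)) (XT.nd (nat_lit 78) (nat_lit 152) (nat_lit 0) (XT.lf (nat_lit 76) (nat_lit 6767861628) (nat_lit 0) (nat_lit 6981117566) (nat_lit 76) (nat_lit 6981117566) (nat_lit 171) (nat_lit 3) (nat_lit 170) (nat_lit 1) (nat_lit 171) (nat_lit 1) (nat_lit 289) (nat_lit 329) (nat_lit 282)) (XT.lf (nat_lit 152) (nat_lit 19714458005) (nat_lit 0) (nat_lit 56193923) (nat_lit 76) (nat_lit 56193923) (nat_lit 170) (nat_lit 1) (nat_lit 168) (nat_lit 1) (nat_lit 169) (nat_lit 1) (nat_lit 290) (nat_lit 329) (nat_lit 281)))) (XT.nd (nat_lit 78) (nat_lit 228) (nat_lit 0) (XT.lf (nat_lit 0) (nat_lit 6247395862) (nat_lit 0) (nat_lit 6387615104) (nat_lit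 152) (nat_lit 6247395862) (nat_lit 168) (nat_lit 3) (nat_lit 168) (nat_lit 1) (nat_lit 170) (nat_lit 1) (nat_lit 291) (nat_lit 329) (nat_lit 280)) (XT.nd (nat_lit 78) (nat_lit 152) (nat_lit 0) (XT.lf (nat_lit 76) (nat_lit 5926474906) (nat_lit 0) (nat_lit 6048404682) (nat_lit 76) (nat_lit 6048404682) (nat_lit 168) (nat_lit 3) (nat_lit 167) (nat_lit 1) (nat_lit 168) (nat_lit 1) (nat_lit 292) (nat_lit 329) (nat_lit 279)) (XT.lf (nat_lit 152) (nat_lit 17174294551) (nat_lit 0) (nat_lit 32129057) (nat_lit 76) (nat_lit 32129057) (nat_lit 167) (nat_lit 1) (nat_lit 165) (nat_lit 1) (nat_lit 166) (nat_lit 1) (nat_lit 293) (nat_lit 329) (nat_lit 278))))))) (XT.nd (nat_lit 858) (nat_lit 836) (nat_lit 0) (XT.nd (nat_lit 390) (nat_lit 456) (nat_lit 0) (XT.nd (nat_lit 156) (nat_lit 228) (nat_lit 0) (XT.nd (nat_lit 78) (nat_lit 76) (nat_lit 0) (XT.lf (nat_lit 0) (nat_lit 5445774957) (nat_lit 0) (nat_lit 5525945763)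 (nat_lit 152) (nat_lit 5445774957) (nat_lit 165) (nat_lit 3) (nat_lit 165) (nat_lit 1) (nat_lit 167) (nat_lit 1) (nat_lit 294) (nat_lit 329) (nat_lit 277)) (XT.lf (nat_lit 76) (nat_lit 5177114354) (nat_lit 0) (nat_lit 5246828099) (nat_lit 76) (nat_lit 5246828099) (nat_lit 165) (nat_lit 3) (nat_lit 164) (nat_lit 1) (nat_lit 165) (nat_lit 1) (nat_lit 295) (nat_lit 329) (nat_lit 276))) (XT.nd (nat_lit 78) (nat_lit 76) (nat_lit 0) (XT.lf (nat_lit 152) (nat_lit 14952057957) (nat_lit 0) (nat_lit 18369893) (nat_lit 76) (nat_lit 18369893) (nat_lit 164) (nat_lit 1) (nat_lit 162) (nat_lit 1) (nat_lit 163) (nat_lit 1) (nat_lit 296) (nat_lit 329) (nat_lit 275)) (XT.nd (nat_lit 78) (nat_lit 76) (nat_lit 0) (XT.lf (nat_lit 0) (nat_lit 4743036111) (nat_lit 0) (nat_lit 4788874030) (nat_lit 152) (nat_lit 4743036111) (nat_lit 162) (nat_lit 3) (nat_lit 162) (nat_lit 1) (nat_lit 164) (nat_lit 1) (nat_lit 297) (nat_lit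 329) (nat_lit 274)) (XT.lf (nat_lit 76) (nat_lit 4515365058) (nat_lit 0) (nat_lit 4555224117) (nat_lit 76) (nat_lit 4555224117) (nat_lit 162) (nat_lit 3) (nat_lit 161) (nat_lit 1) (nat_lit 162) (nat_lit 1) (nat_lit 298) (nat_lit 329) (nat_lit 273))))) (XT.nd (nat_lit 234) (nat_lit 228) (nat_lit 0) (XT.nd (nat_lit 78) (nat_lit 76) (nat_lit 0) (XT.lf (nat_lit 152) (nat_lit 13012017497) (nat_lit 0) (nat_lit 10503046) (nat_lit 76) (nat_lit 10503046) (nat_lit 161) (nat_lit 1) (nat_lit 159) (nat_lit 1) (nat_lit 160) (nat_lit 1) (nat_lit 299) (nat_lit 329) (nat_lit 272)) (XT.nd (nat_lit 78) (nat_lit 76) (nat_lit 0) (XT.lf (nat_lit 0) (nat_lit 4128712904) (nat_lit 0) (nat_lit 4154920882) (nat_lit 152) (nat_lit 4128712904) (nat_lit 159) (nat_lit 3) (nat_lit 159) (nat_lit 1) (nat_lit 161) (nat_lit 1) (nat_lit 300) (nat_lit 329) (nat_lit 271)) (XT.lf (nat_lit 76) (nat_lit 3934138212) (nat_lit 0) (nat_lit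 3956927759) (nat_lit 76) (nat_lit 3956927759) (nat_lit 159) (nat_lit 3) (nat_lit 158) (nat_lit 1) (nat_lit 159) (nat_lit 1) (nat_lit 301) (nat_lit 329) (nat_lit 270)))) (XT.nd (nat_lit 78) (nat_lit 76) (nat_lit 0) (XT.lf (nat_lit 152) (nat_lit 11320645697) (nat_lit 0) (nat_lit 6005150) (nat_lit 76) (nat_lit 6005150) (nat_lit 158) (nat_lit 1) (nat_lit 156) (nat_lit 1) (nat_lit 157) (nat_lit 1) (nat_lit 302) (nat_lit 329) (nat_lit 269)) (XT.nd (nat_lit 78) (nat_lit 76) (nat_lit 0) (XT.lf (nat_lit 0) (nat_lit 3592662927) (nat_lit 0) (nat_lit 3607647424) (nat_lit 152) (nat_lit 3592662927) (nat_lit 156) (nat_lit 3) (nat_lit 156) (nat_lit 1) (nat_lit 158) (nat_lit 1) (nat_lit 303) (nat_lit 329) (nat_lit 268)) (XT.lf (nat_lit 76) (nat_lit 3425411583) (nat_lit 0) (nat_lit 3438441580) (nat_lit 76) (nat_lit 3438441580) (nat_lit 156) (nat_lit 3) (nat_lit 155) (nat_lit 1) (nat_lit 156) (nat_lit 1) (nat_lit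 304) (nat_lit 329) (nat_lit 267)))))) (XT.nd (nat_lit 390) (nat_lit 456) (nat_lit 0) (XT.nd (nat_lit 156) (nat_lit 228) (nat_lit 0) (XT.nd (nat_lit 78) (nat_lit 0) (nat_lit 0) (XT.lf (nat_lit 152) (nat_lit 9847383278) (nat_lit 0) (nat_lit 3433464) (nat_lit 76) (nat_lit 3433464) (nat_lit 155) (nat_lit 1) (nat_lit 153) (nat_lit 1) (nat_lit 154) (nat_lit 1) (nat_lit 305) (nat_lit 329) (nat_lit 266)) (XT.lf (nat_lit 0) (nat_lit 3125471406) (nat_lit 0) (nat_lit 3134038840) (nat_lit 152) (nat_lit 3125471406) (nat_lit 153) (nat_lit 3) (nat_lit 153) (nat_lit 1) (nat_lit 155) (nat_lit 1) (nat_lit 306) (nat_lit 329) (nat_lit 265))) (XT.nd (nat_lit 78) (nat_lit 152) (nat_lit 0) (XT.lf (nat_lit 76) (nat_lit 2981146965) (nat_lit 0) (nat_lit 2988596908) (nat_lit 76) (nat_lit 2988596908) (nat_lit 153) (nat_lit 3) (nat_lit 152) (nat_lit 1) (nat_lit 153) (nat_lit 1) (nat_lit 307) (nat_lit 329) (nat_lit 264)) (XT.nd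 (nat_lit 78) (nat_lit 0) (nat_lit 0) (XT.lf (nat_lit 152) (nat_lit 8564853661) (nat_lit 0) (nat_lit 1963094) (nat_lit 76) (nat_lit 1963094) (nat_lit 152) (nat_lit 1) (nat_lit 150) (nat_lit 1) (nat_lit 151) (nat_lit 1) (nat_lit 308) (nat_lit 329) (nat_lit 263)) (XT.lf (nat_lit 0) (nat_lit 2718611217) (nat_lit 0) (nat_lit 2723509676) (nat_lit 152) (nat_lit 2718611217) (nat_lit 150) (nat_lit 3) (nat_lit 150) (nat_lit 1) (nat_lit 152) (nat_lit 1) (nat_lit 309) (nat_lit 329) (nat_lit 262))))) (XT.nd (nat_lit 234) (nat_lit 228) (nat_lit 0) (XT.nd (nat_lit 78) (nat_lit 152) (nat_lit 0) (XT.lf (nat_lit 76) (nat_lit 2593747214) (nat_lit 0) (nat_lit 2598006743) (nat_lit 76) (nat_lit 2598006743) (nat_lit 150) (nat_lit 3) (nat_lit 149) (nat_lit 1) (nat_lit 150) (nat_lit 1) (nat_lit 310) (nat_lit 329) (nat_lit 261)) (XT.nd (nat_lit 78) (nat_lit 0) (nat_lit 0) (XT.lf (nat_lit 152) (nat_lit 7448791845) (nat_lit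 0) (nat_lit 1122405) (nat_lit 76) (nat_lit 1122405) (nat_lit 149) (nat_lit 1) (nat_lit 147) (nat_lit 1) (nat_lit 148) (nat_lit 1) (nat_lit 311) (nat_lit 329) (nat_lit 260)) (XT.lf (nat_lit 0) (nat_lit 2364472872) (nat_lit 0) (nat_lit 2367273581) (nat_lit 152) (nat_lit 2364472872) (nat_lit 147) (nat_lit 3) (nat_lit 147) (nat_lit 1) (nat_lit 149) (nat_lit 1) (nat_lit 312) (nat_lit 329) (nat_lit 259)))) (XT.nd (nat_lit 78) (nat_lit 152) (nat_lit 0) (XT.lf (nat_lit 76) (nat_lit 2256258832) (nat_lit 0) (nat_lit 2258694232) (nat_lit 76) (nat_lit 2258694232) (nat_lit 147) (nat_lit 3) (nat_lit 146) (nat_lit 1) (nat_lit 147) (nat_lit 1) (nat_lit 313) (nat_lit 329) (nat_lit 258)) (XT.nd (nat_lit 78) (nat_lit 0) (nat_lit 0) (XT.lf (nat_lit 152) (nat_lit 6477835232) (nat_lit 0) (nat_lit 641739) (nat_lit 76) (nat_lit 641739) (nat_lit 146) (nat_lit 1) (nat_lit 144) (nat_lit 1) (nat_lit 145) (nat_lit 1) (nat_lit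 314) (nat_lit 329) (nat_lit 257)) (XT.lf (nat_lit 0) (nat_lit 2056328155) (nat_lit 0) (nat_lit 2057929470) (nat_lit 152) (nat_lit 2056328155) (nat_lit 144) (nat_lit 3) (nat_lit 144) (nat_lit 1) (nat_lit 146) (nat_lit 1) (nat_lit 315) (nat_lit 329) (nat_lit 256))))))))
noncomputable def ec89 : XT := (XT.nd (nat_lit 1716) (nat_lit 1748) (nat_lit 0) (XT.nd (nat_lit 858) (nat_lit 760) (nat_lit 0) (XT.nd (nat_lit 390) (nat_lit 456) (nat_lit 0) (XT.nd (nat_lit 156) (nat_lit 228) (nat_lit 0) (XT.nd (nat_lit 78) (nat_lit 152) (nat_lit 0) (XT.lf (nat_lit 76) (nat_lit 1962436740) (nat_lit 0) (nat_lit 1963829188) (nat_lit 76) (nat_lit 1963829188) (nat_lit 144) (nat_lit 3) (nat_lit 143) (nat_lit 1) (nat_lit 144) (nat_lit 1) (nat_lit 316) (nat_lit 329) (nat_lit 255)) (XT.lf (nat_lit 152) (nat_lit 5633257509) (nat_lit 0) (nat_lit 366916) (nat_lit 76) (nat_lit 366916) (nat_lit 143) (nat_lit 1) (nat_lit 141) (nat_lit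 1) (nat_lit 142) (nat_lit 1) (nat_lit 317) (nat_lit 329) (nat_lit 254))) (XT.nd (nat_lit 78) (nat_lit 228) (nat_lit 0) (XT.lf (nat_lit 0) (nat_lit 1788262833) (nat_lit 0) (nat_lit 1789178390) (nat_lit 152) (nat_lit 1788262833) (nat_lit 141) (nat_lit 3) (nat_lit 141) (nat_lit 1) (nat_lit 143) (nat_lit 1) (nat_lit 318) (nat_lit 329) (nat_lit 253)) (XT.nd (nat_lit 78) (nat_lit 152) (nat_lit 0) (XT.lf (nat_lit 76) (nat_lit 1706736905) (nat_lit 0) (nat_lit 1707533042) (nat_lit 76) (nat_lit 1707533042) (nat_lit 141) (nat_lit 3) (nat_lit 140) (nat_lit 1) (nat_lit 141) (nat_lit 1) (nat_lit 319) (nat_lit 329) (nat_lit 252)) (XT.lf (nat_lit 152) (nat_lit 4898689081) (nat_lit 0) (nat_lit 209785) (nat_lit 76) (nat_lit 209785) (nat_lit 140) (nat_lit 1) (nat_lit 138) (nat_lit 1) (nat_lit 139) (nat_lit 1) (nat_lit 320) (nat_lit 329) (nat_lit 251))))) (XT.nd (nat_lit 234) (nat_lit 228) (nat_lit 0) (XT.nd (nat_lit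 78) (nat_lit 228) (nat_lit 0) (XT.lf (nat_lit 0) (nat_lit 1555097719) (nat_lit 0) (nat_lit 1555621192) (nat_lit 152) (nat_lit 1555097719) (nat_lit 138) (nat_lit 3) (nat_lit 138) (nat_lit 1) (nat_lit 140) (nat_lit 1) (nat_lit 321) (nat_lit 329) (nat_lit 250)) (XT.nd (nat_lit 78) (nat_lit 152) (nat_lit 0) (XT.lf (nat_lit 76) (nat_lit 1484273522) (nat_lit 0) (nat_lit 1484728715) (nat_lit 76) (nat_lit 1484728715) (nat_lit 138) (nat_lit 3) (nat_lit 137) (nat_lit 1) (nat_lit 138) (nat_lit 1) (nat_lit 322) (nat_lit 329) (nat_lit 249)) (XT.lf (nat_lit 152) (nat_lit 4259846440) (nat_lit 0) (nat_lit 119945) (nat_lit 76) (nat_lit 119945) (nat_lit 137) (nat_lit 1) (nat_lit 135) (nat_lit 1) (nat_lit 136) (nat_lit 1) (nat_lit 323) (nat_lit 329) (nat_lit 248)))) (XT.nd (nat_lit 78) (nat_lit 228) (nat_lit 0) (XT.lf (nat_lit 0) (nat_lit 1352308377) (nat_lit 0) (nat_lit 1352607674) (nat_lit 152) (nat_lit 1352308377)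 (nat_lit 135) (nat_lit 3) (nat_lit 135) (nat_lit 1) (nat_lit 137) (nat_lit 1) (nat_lit 324) (nat_lit 329) (nat_lit 247)) (XT.nd (nat_lit 78) (nat_lit 152) (nat_lit 0) (XT.lf (nat_lit 76) (nat_lit 1290760948) (nat_lit 0) (nat_lit 1291021207) (nat_lit 76) (nat_lit 1291021207) (nat_lit 135) (nat_lit 3) (nat_lit 134) (nat_lit 1) (nat_lit 135) (nat_lit 1) (nat_lit 325) (nat_lit 329) (nat_lit 246)) (XT.lf (nat_lit 152) (nat_lit 3704281079) (nat_lit 0) (nat_lit 68579) (nat_lit 76) (nat_lit 68579) (nat_lit 134) (nat_lit 1) (nat_lit 132) (nat_lit 1) (nat_lit 133) (nat_lit 1) (nat_lit 326) (nat_lit 329) (nat_lit 245)))))) (XT.nd (nat_lit 390) (nat_lit 456) (nat_lit 0) (XT.nd (nat_lit 156) (nat_lit 228) (nat_lit 0) (XT.nd (nat_lit 78) (nat_lit 76) (nat_lit 0) (XT.lf (nat_lit 0) (nat_lit 1175948624) (nat_lit 0) (nat_lit 1176119749) (nat_lit 152) (nat_lit 1175948624) (nat_lit 132) (nat_lit 3) (nat_lit 132)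 (nat_lit 1) (nat_lit 134) (nat_lit 1) (nat_lit 327) (nat_lit 329) (nat_lit 244)) (XT.lf (nat_lit 76) (nat_lit 1122451322) (nat_lit 0) (nat_lit 1122600126) (nat_lit 76) (nat_lit 1122600126) (nat_lit 132) (nat_lit 3) (nat_lit 131) (nat_lit 1) (nat_lit 132) (nat_lit 1) (nat_lit 328) (nat_lit 329) (nat_lit 243))) (XT.nd (nat_lit 78) (nat_lit 76) (nat_lit 0) (XT.lf (nat_lit 152) (nat_lit 3221152165) (nat_lit 0) (nat_lit 39210) (nat_lit 76) (nat_lit 39210) (nat_lit 131) (nat_lit 1) (nat_lit 129) (nat_lit 1) (nat_lit 130) (nat_lit 1) (nat_lit 329) (nat_lit 329) (nat_lit 242)) (XT.nd (nat_lit 78) (nat_lit 76) (nat_lit 0) (XT.lf (nat_lit 0) (nat_lit 1022580200) (nat_lit 0) (nat_lit 1022678041) (nat_lit 152) (nat_lit 1022580200) (nat_lit 129) (nat_lit 3) (nat_lit 129) (nat_lit 1) (nat_lit 131) (nat_lit 1) (nat_lit 330) (nat_lit 329) (nat_lit 241)) (XT.lf (nat_lit 76) (nat_lit 976073500) (nat_lit 0) (nat_lit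 976158579) (nat_lit 76) (nat_lit 976158579) (nat_lit 129) (nat_lit 3) (nat_lit 128) (nat_lit 1) (nat_lit 129) (nat_lit 1) (nat_lit 331) (nat_lit 329) (nat_lit 240))))) (XT.nd (nat_lit 234) (nat_lit 228) (nat_lit 0) (XT.nd (nat_lit 78) (nat_lit 76) (nat_lit 0) (XT.lf (nat_lit 152) (nat_lit 2801023714) (nat_lit 0) (nat_lit 22418) (nat_lit 76) (nat_lit 22418) (nat_lit 128) (nat_lit 1) (nat_lit 126) (nat_lit 1) (nat_lit 127) (nat_lit 1) (nat_lit 332) (nat_lit 329) (nat_lit 239)) (XT.nd (nat_lit 78) (nat_lit 76) (nat_lit 0) (XT.lf (nat_lit 0) (nat_lit 889209424) (nat_lit 0) (nat_lit 889265365) (nat_lit 152) (nat_lit 889209424) (nat_lit 126) (nat_lit 3) (nat_lit 126) (nat_lit 1) (nat_lit 128) (nat_lit 1) (nat_lit 333) (nat_lit 329) (nat_lit 238)) (XT.lf (nat_lit 76) (nat_lit 848776073) (nat_lit 0) (nat_lit 848824717) (nat_lit 76) (nat_lit 848824717) (nat_lit 126) (nat_lit 3) (nat_lit 125) (nat_lit 1)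 (nat_lit 126) (nat_lit 1) (nat_lit 334) (nat_lit 329) (nat_lit 237)))) (XT.nd (nat_lit 78) (nat_lit 76) (nat_lit 0) (XT.lf (nat_lit 152) (nat_lit 2435685277) (nat_lit 0) (nat_lit 12817) (nat_lit 76) (nat_lit 12817) (nat_lit 125) (nat_lit 1) (nat_lit 123) (nat_lit 1) (nat_lit 124) (nat_lit 1) (nat_lit 335) (nat_lit 329) (nat_lit 236)) (XT.nd (nat_lit 78) (nat_lit 76) (nat_lit 0) (XT.lf (nat_lit 0) (nat_lit 773230875) (nat_lit 0) (nat_lit 773262859) (nat_lit 152) (nat_lit 773230875) (nat_lit 123) (nat_lit 3) (nat_lit 123) (nat_lit 1) (nat_lit 125) (nat_lit 1) (nat_lit 336) (nat_lit 329) (nat_lit 235)) (XT.lf (nat_lit 76) (nat_lit 738075589) (nat_lit 0) (nat_lit 738103401) (nat_lit 76) (nat_lit 738103401) (nat_lit 123) (nat_lit 3) (nat_lit 122) (nat_lit 1) (nat_lit 123) (nat_lit 1) (nat_lit 337) (nat_lit 329) (nat_lit 234))))))) (XT.nd (nat_lit 858) (nat_lit 912) (nat_lit 0) (XT.nd (nat_lit 390) (nat_lit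 456) (nat_lit 0) (XT.nd (nat_lit 156) (nat_lit 228) (nat_lit 0) (XT.nd (nat_lit 78) (nat_lit 0) (nat_lit 0) (XT.lf (nat_lit 152) (nat_lit 2117994334) (nat_lit 0) (nat_lit 7328) (nat_lit 76) (nat_lit 7328) (nat_lit 122) (nat_lit 1) (nat_lit 120) (nat_lit 1) (nat_lit 121) (nat_lit 1) (nat_lit 338) (nat_lit 329) (nat_lit 233)) (XT.lf (nat_lit 0) (nat_lit 672377698) (nat_lit 0) (nat_lit 672395985) (nat_lit 152) (nat_lit 672377698) (nat_lit 120) (nat_lit 3) (nat_lit 120) (nat_lit 1) (nat_lit 122) (nat_lit 1) (nat_lit 339) (nat_lit 329) (nat_lit 232))) (XT.nd (nat_lit 78) (nat_lit 152) (nat_lit 0) (XT.lf (nat_lit 76) (nat_lit 641810256) (nat_lit 0) (nat_lit 641826158) (nat_lit 76) (nat_lit 641826158) (nat_lit 120) (nat_lit 3) (nat_lit 119) (nat_lit 1) (nat_lit 120) (nat_lit 1) (nat_lit 340) (nat_lit 329) (nat_lit 231)) (XT.nd (nat_lit 78) (nat_lit 0) (nat_lit 0) (XT.lf (nat_lit 152) (nat_lit 1841738284)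 (nat_lit 0) (nat_lit 4190) (nat_lit 76) (nat_lit 4190) (nat_lit 119) (nat_lit 1) (nat_lit 117) (nat_lit 1) (nat_lit 118) (nat_lit 1) (nat_lit 341) (nat_lit 329) (nat_lit 230)) (XT.lf (nat_lit 0) (nat_lit 584677988) (nat_lit 0) (nat_lit 584688443) (nat_lit 152) (nat_lit 584677988) (nat_lit 117) (nat_lit 3) (nat_lit 117) (nat_lit 1) (nat_lit 119) (nat_lit 1) (nat_lit 342) (nat_lit 329) (nat_lit 229))))) (XT.nd (nat_lit 234) (nat_lit 228) (nat_lit 0) (XT.nd (nat_lit 78) (nat_lit 152) (nat_lit 0) (XT.lf (nat_lit 76) (nat_lit 558098960) (nat_lit 0) (nat_lit 558108052) (nat_lit 76) (nat_lit 558108052) (nat_lit 117) (nat_lit 3) (nat_lit 116) (nat_lit 1) (nat_lit 117) (nat_lit 1) (nat_lit 343) (nat_lit 329) (nat_lit 228)) (XT.nd (nat_lit 78) (nat_lit 0) (nat_lit 0) (XT.lf (nat_lit 152) (nat_lit 1601513884) (nat_lit 0) (nat_lit 2395) (nat_lit 76) (nat_lit 2395) (nat_lit 116) (nat_lit 1) (nat_lit 114) (nat_lit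 1) (nat_lit 115) (nat_lit 1) (nat_lit 344) (nat_lit 329) (nat_lit 227)) (XT.lf (nat_lit 0) (nat_lit 508416630) (nat_lit 0) (nat_lit 508422608) (nat_lit 152) (nat_lit 508416630) (nat_lit 114) (nat_lit 3) (nat_lit 114) (nat_lit 1) (nat_lit 116) (nat_lit 1) (nat_lit 345) (nat_lit 329) (nat_lit 226)))) (XT.nd (nat_lit 78) (nat_lit 152) (nat_lit 0) (XT.lf (nat_lit 76) (nat_lit 485305208) (nat_lit 0) (nat_lit 485310406) (nat_lit 76) (nat_lit 485310406) (nat_lit 114) (nat_lit 3) (nat_lit 113) (nat_lit 1) (nat_lit 114) (nat_lit 1) (nat_lit 346) (nat_lit 329) (nat_lit 225)) (XT.nd (nat_lit 78) (nat_lit 0) (nat_lit 0) (XT.lf (nat_lit 152) (nat_lit 1392622103) (nat_lit 0) (nat_lit 1369) (nat_lit 76) (nat_lit 1369) (nat_lit 113) (nat_lit 1) (nat_lit 111) (nat_lit 1) (nat_lit 112) (nat_lit 1) (nat_lit 347) (nat_lit 329) (nat_lit 224)) (XT.lf (nat_lit 0) (nat_lit 442101982) (nat_lit 0) (nat_lit 442105400) (nat_lit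 152) (nat_lit 442101982) (nat_lit 111) (nat_lit 3) (nat_lit 111) (nat_lit 1) (nat_lit 113) (nat_lit 1) (nat_lit 348) (nat_lit 329) (nat_lit 223)))))) (XT.nd (nat_lit 468) (nat_lit 456) (nat_lit 0) (XT.nd (nat_lit 234) (nat_lit 228) (nat_lit 0) (XT.nd (nat_lit 78) (nat_lit 152) (nat_lit 0) (XT.lf (nat_lit 76) (nat_lit 422005537) (nat_lit 0) (nat_lit 422008509) (nat_lit 76) (nat_lit 422008509) (nat_lit 111) (nat_lit 3) (nat_lit 110) (nat_lit 1) (nat_lit 111) (nat_lit 1) (nat_lit 349) (nat_lit 329) (nat_lit 222)) (XT.nd (nat_lit 78) (nat_lit 0) (nat_lit 0) (XT.lf (nat_lit 152) (nat_lit 1210976504) (nat_lit 0) (nat_lit 783) (nat_lit 76) (nat_lit 783) (nat_lit 110) (nat_lit 1) (nat_lit 108) (nat_lit 1) (nat_lit 109) (nat_lit 1) (nat_lit 350) (nat_lit 329) (nat_lit 221)) (XT.lf (nat_lit 0) (nat_lit 384436830) (nat_lit 0) (nat_lit 384438784) (nat_lit 152) (nat_lit 384436830) (nat_lit 108) (nat_lit 3)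 (nat_lit 108) (nat_lit 1) (nat_lit 110) (nat_lit 1) (nat_lit 351) (nat_lit 329) (nat_lit 220)))) (XT.nd (nat_lit 78) (nat_lit 152) (nat_lit 0) (XT.lf (nat_lit 76) (nat_lit 366961913) (nat_lit 0) (nat_lit 366963613) (nat_lit 76) (nat_lit 366963613) (nat_lit 108) (nat_lit 3) (nat_lit 107) (nat_lit 1) (nat_lit 108) (nat_lit 1) (nat_lit 352) (nat_lit 329) (nat_lit 219)) (XT.nd (nat_lit 78) (nat_lit 0) (nat_lit 0) (XT.lf (nat_lit 152) (nat_lit 1053023483) (nat_lit 0) (nat_lit 447) (nat_lit 76) (nat_lit 447) (nat_lit 107) (nat_lit 1) (nat_lit 105) (nat_lit 1) (nat_lit 106) (nat_lit 1) (nat_lit 353) (nat_lit 329) (nat_lit 218)) (XT.lf (nat_lit 0) (nat_lit 334293080) (nat_lit 0) (nat_lit 334294197) (nat_lit 152) (nat_lit 334293080) (nat_lit 105) (nat_lit 3) (nat_lit 105) (nat_lit 1) (nat_lit 107) (nat_lit 1) (nat_lit 354) (nat_lit 329) (nat_lit 217))))) (XT.nd (nat_lit 234) (nat_lit 228) (nat_lit 0) (XT.nd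 (nat_lit 78) (nat_lit 152) (nat_lit 0) (XT.lf (nat_lit 76) (nat_lit 319097645) (nat_lit 0) (nat_lit 319098617) (nat_lit 76) (nat_lit 319098617) (nat_lit 105) (nat_lit 3) (nat_lit 104) (nat_lit 1) (nat_lit 105) (nat_lit 1) (nat_lit 355) (nat_lit 329) (nat_lit 216)) (XT.nd (nat_lit 78) (nat_lit 0) (nat_lit 0) (XT.lf (nat_lit 152) (nat_lit 915672843) (nat_lit 0) (nat_lit 256) (nat_lit 76) (nat_lit 256) (nat_lit 104) (nat_lit 1) (nat_lit 102) (nat_lit 1) (nat_lit 103) (nat_lit 1) (nat_lit 356) (nat_lit 329) (nat_lit 215)) (XT.lf (nat_lit 0) (nat_lit 290689740) (nat_lit 0) (nat_lit 290690379) (nat_lit 152) (nat_lit 290689740) (nat_lit 102) (nat_lit 3) (nat_lit 102) (nat_lit 1) (nat_lit 104) (nat_lit 1) (nat_lit 357) (nat_lit 329) (nat_lit 214)))) (XT.nd (nat_lit 78) (nat_lit 152) (nat_lit 0) (XT.lf (nat_lit 76) (nat_lit 277476402) (nat_lit 0) (nat_lit 277476957) (nat_lit 76) (nat_lit 277476957) (nat_lit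 102) (nat_lit 3) (nat_lit 101) (nat_lit 1) (nat_lit 102) (nat_lit 1) (nat_lit 358) (nat_lit 329) (nat_lit 213)) (XT.nd (nat_lit 78) (nat_lit 0) (nat_lit 0) (XT.lf (nat_lit 152) (nat_lit 796237397) (nat_lit 0) (nat_lit 146) (nat_lit 76) (nat_lit 146) (nat_lit 101) (nat_lit 1) (nat_lit 99) (nat_lit 1) (nat_lit 100) (nat_lit 1) (nat_lit 359) (nat_lit 329) (nat_lit 212)) (XT.lf (nat_lit 0) (nat_lit 252773748) (nat_lit 0) (nat_lit 252774113) (nat_lit 152) (nat_lit 252773748) (nat_lit 99) (nat_lit 3) (nat_lit 99) (nat_lit 1) (nat_lit 101) (nat_lit 1) (nat_lit 360) (nat_lit 329) (nat_lit 211))))))))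
noncomputable def ec90 : XT := (XT.nd (nat_lit 38298) (nat_lit 0) (nat_lit 7448) (XT.nd (nat_lit 37440) (nat_lit 0) (nat_lit 9044) (XT.nd (nat_lit 390) (nat_lit 456) (nat_lit 0) (XT.nd (nat_lit 156) (nat_lit 228) (nat_lit 0) (XT.nd (nat_lit 78) (nat_lit 152) (nat_lit 0) (XT.lf (nat_lit 76) (nat_lit 241283935) (nat_lit 0) (nat_lit 241284253) (nat_lit 76) (nat_lit 241284253) (nat_lit 99) (nat_lit 3) (nat_lit 98) (nat_lit 1) (nat_lit 99) (nat_lit 1) (nat_lit 361) (nat_lit 329) (nat_lit 210)) (XT.lf (nat_lit 152) (nat_lit 692380427) (nat_lit 0) (nat_lit 83) (nat_lit 76) (nat_lit 83) (nat_lit 98) (nat_lit 1) (nat_lit 96) (nat_lit 1) (nat_lit 97) (nat_lit 1) (nat_lit 362) (nat_lit 329) (nat_lit 209))) (XT.nd (nat_lit 78) (nat_lit 228) (nat_lit 0) (XT.lf (nat_lit 0) (nat_lit 219803293) (nat_lit 0) (nat_lit 219803502) (nat_lit 152) (nat_lit 219803293) (nat_lit 96) (nat_lit 3) (nat_lit 96) (nat_lit 1) (nat_lit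 98) (nat_lit 1) (nat_lit 363) (nat_lit 329) (nat_lit 208)) (XT.nd (nat_lit 78) (nat_lit 152) (nat_lit 0) (XT.lf (nat_lit 76) (nat_lit 209812179) (nat_lit 0) (nat_lit 209812361) (nat_lit 76) (nat_lit 209812361) (nat_lit 96) (nat_lit 3) (nat_lit 95) (nat_lit 1) (nat_lit 96) (nat_lit 1) (nat_lit 364) (nat_lit 329) (nat_lit 207)) (XT.lf (nat_lit 152) (nat_lit 602069983) (nat_lit 0) (nat_lit 47) (nat_lit 76) (nat_lit 47) (nat_lit 95) (nat_lit 1) (nat_lit 93) (nat_lit 1) (nat_lit 94) (nat_lit 1) (nat_lit 365) (nat_lit 329) (nat_lit 206))))) (XT.nd (nat_lit 234) (nat_lit 228) (nat_lit 0) (XT.nd (nat_lit 78) (nat_lit 228) (nat_lit 0) (XT.lf (nat_lit 0) (nat_lit 191133318) (nat_lit 0) (nat_lit 191133438) (nat_lit 152) (nat_lit 191133318) (nat_lit 93) (nat_lit 3) (nat_lit 93) (nat_lit 1) (nat_lit 95) (nat_lit 1) (nat_lit 366) (nat_lit 329) (nat_lit 205)) (XT.nd (nat_lit 78) (nat_lit 152) (nat_lit 0) (XT.lf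 (nat_lit 76) (nat_lit 182445409) (nat_lit 0) (nat_lit 182445512) (nat_lit 76) (nat_lit 182445512) (nat_lit 93) (nat_lit 3) (nat_lit 92) (nat_lit 1) (nat_lit 93) (nat_lit 1) (nat_lit 367) (nat_lit 329) (nat_lit 204)) (XT.lf (nat_lit 152) (nat_lit 523539142) (nat_lit 0) (nat_lit 27) (nat_lit 76) (nat_lit 27) (nat_lit 92) (nat_lit 1) (nat_lit 90) (nat_lit 1) (nat_lit 91) (nat_lit 1) (nat_lit 368) (nat_lit 329) (nat_lit 203)))) (XT.nd (nat_lit 78) (nat_lit 228) (nat_lit 0) (XT.lf (nat_lit 0) (nat_lit 166202897) (nat_lit 0) (nat_lit 166202965) (nat_lit 152) (nat_lit 166202897) (nat_lit 90) (nat_lit 3) (nat_lit 90) (nat_lit 1) (nat_lit 92) (nat_lit 1) (nat_lit 369) (nat_lit 329) (nat_lit 202)) (XT.nd (nat_lit 78) (nat_lit 152) (nat_lit 0) (XT.lf (nat_lit 76) (nat_lit 158648201) (nat_lit 0) (nat_lit 158648261) (nat_lit 76) (nat_lit 158648261) (nat_lit 90) (nat_lit 3) (nat_lit 89) (nat_lit 1) (nat_lit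 90) (nat_lit 1) (nat_lit 370) (nat_lit 329) (nat_lit 201)) (XT.lf (nat_lit 152) (nat_lit 455251443) (nat_lit 0) (nat_lit 15) (nat_lit 76) (nat_lit 15) (nat_lit 89) (nat_lit 1) (nat_lit 87) (nat_lit 1) (nat_lit 88) (nat_lit 1) (nat_lit 371) (nat_lit 329) (nat_lit 200)))))) (XT.nd (nat_lit 390) (nat_lit 684) (nat_lit 0) (XT.nd (nat_lit 156) (nat_lit 0) (nat_lit 76) (XT.nd (nat_lit 78) (nat_lit 0) (nat_lit 0) (XT.lf (nat_lit 380) (nat_lit 46457907901) (nat_lit 0) (nat_lit 41148912425) (nat_lit 380) (nat_lit 46457907901) (nat_lit 220) (nat_lit 1) (nat_lit 215) (nat_lit 0) (nat_lit 220) (nat_lit 0) (nat_lit 240) (nat_lit 330) (nat_lit 330)) (XT.lf (nat_lit 380) (nat_lit 171841772259) (nat_lit 76) (nat_lit 39278507315) (nat_lit 0) (nat_lit 39278507315) (nat_lit 220) (nat_lit 1) (nat_lit 216) (nat_lit 1) (nat_lit 215) (nat_lit 0) (nat_lit 241) (nat_lit 330) (nat_lit 329))) (XT.nd (nat_lit 78) (nat_lit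 0) (nat_lit 0) (XT.lf (nat_lit 380) (nat_lit 75746867820) (nat_lit 0) (nat_lit 82419737513) (nat_lit 304) (nat_lit 75746867820) (nat_lit 221) (nat_lit 1) (nat_lit 216) (nat_lit 1) (nat_lit 220) (nat_lit 1) (nat_lit 242) (nat_lit 330) (nat_lit 328)) (XT.nd (nat_lit 78) (nat_lit 0) (nat_lit 76) (XT.lf (nat_lit 380) (nat_lit 130053439048) (nat_lit 76) (nat_lit 44518162056) (nat_lit 0) (nat_lit 44518162056) (nat_lit 221) (nat_lit 1) (nat_lit 217) (nat_lit 1) (nat_lit 216) (nat_lit 1) (nat_lit 243) (nat_lit 330) (nat_lit 327)) (XT.lf (nat_lit 76) (nat_lit 52608340987) (nat_lit 0) (nat_lit 100175113247) (nat_lit 304) (nat_lit 52608340987) (nat_lit 218) (nat_lit 1) (nat_lit 217) (nat_lit 1) (nat_lit 221) (nat_lit 1) (nat_lit 244) (nat_lit 330) (nat_lit 326))))) (XT.nd (nat_lit 234) (nat_lit 380) (nat_lit 0) (XT.nd (nat_lit 78) (nat_lit 152) (nat_lit 0) (XT.lf (nat_lit 380) (nat_lit 79066087673) (nat_lit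 0) (nat_lit 56910253742) (nat_lit 304) (nat_lit 56910253742) (nat_lit 218) (nat_lit 1) (nat_lit 213) (nat_lit 1) (nat_lit 217) (nat_lit 1) (nat_lit 245) (nat_lit 330) (nat_lit 325)) (XT.nd (nat_lit 78) (nat_lit 152) (nat_lit 0) (XT.lf (nat_lit 76) (nat_lit 26280694329) (nat_lit 0) (nat_lit 128960025774) (nat_lit 380) (nat_lit 26280694329) (nat_lit 214) (nat_lit 1) (nat_lit 213) (nat_lit 1) (nat_lit 218) (nat_lit 1) (nat_lit 246) (nat_lit 330) (nat_lit 324)) (XT.lf (nat_lit 228) (nat_lit 23652004946) (nat_lit 0) (nat_lit 73611029253) (nat_lit 152) (nat_lit 73611029253) (nat_lit 214) (nat_lit 1) (nat_lit 211) (nat_lit 1) (nat_lit 213) (nat_lit 1) (nat_lit 247) (nat_lit 330) (nat_lit 323)))) (XT.nd (nat_lit 78) (nat_lit 152) (nat_lit 0) (XT.lf (nat_lit 228) (nat_lit 158941175637) (nat_lit 0) (nat_lit 1247054233) (nat_lit 152) (nat_lit 1247054233) (nat_lit 211) (nat_lit 1) (nat_lit 208) (nat_lit 1)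 (nat_lit 210) (nat_lit 1) (nat_lit 248) (nat_lit 330) (nat_lit 322)) (XT.nd (nat_lit 78) (nat_lit 152) (nat_lit 0) (XT.lf (nat_lit 76) (nat_lit 61066215595) (nat_lit 0) (nat_lit 29980261324) (nat_lit 228) (nat_lit 61066215595) (nat_lit 209) (nat_lit 1) (nat_lit 208) (nat_lit 1) (nat_lit 211) (nat_lit 1) (nat_lit 249) (nat_lit 330) (nat_lit 321)) (XT.lf (nat_lit 228) (nat_lit 88762088173) (nat_lit 0) (nat_lit 27533127188) (nat_lit 152) (nat_lit 27533127188) (nat_lit 209) (nat_lit 1) (nat_lit 206) (nat_lit 1) (nat_lit 208) (nat_lit 1) (nat_lit 250) (nat_lit 330) (nat_lit 320))))))) (XT.nd (nat_lit 858) (nat_lit 760) (nat_lit 0) (XT.nd (nat_lit 390) (nat_lit 456) (nat_lit 0) (XT.nd (nat_lit 156) (nat_lit 304) (nat_lit 0) (XT.nd (nat_lit 78) (nat_lit 76) (nat_lit 0) (XT.lf (nat_lit 76) (nat_lit 27758816245) (nat_lit 0) (nat_lit 80555610164) (nat_lit 228) (nat_lit 27758816245) (nat_lit 207) (nat_lit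 1) (nat_lit 206) (nat_lit 1) (nat_lit 209) (nat_lit 1) (nat_lit 251) (nat_lit 330) (nat_lit 319)) (XT.lf (nat_lit 152) (nat_lit 22947791512) (nat_lit 0) (nat_lit 52952141791) (nat_lit 76) (nat_lit 52952141791) (nat_lit 207) (nat_lit 1) (nat_lit 205) (nat_lit 1) (nat_lit 206) (nat_lit 1) (nat_lit 252) (nat_lit 330) (nat_lit 318))) (XT.nd (nat_lit 78) (nat_lit 76) (nat_lit 0) (XT.lf (nat_lit 228) (nat_lit 116175209895) (nat_lit 0) (nat_lit 3086313354) (nat_lit 152) (nat_lit 3086313354) (nat_lit 205) (nat_lit 1) (nat_lit 202) (nat_lit 1) (nat_lit 204) (nat_lit 1) (nat_lit 253) (nat_lit 330) (nat_lit 317)) (XT.nd (nat_lit 78) (nat_lit 76) (nat_lit 0) (XT.lf (nat_lit 76) (nat_lit 40658824829) (nat_lit 0) (nat_lit 34528800610) (nat_lit 228) (nat_lit 40658824829) (nat_lit 203) (nat_lit 1) (nat_lit 202) (nat_lit 1) (nat_lit 205) (nat_lit 1) (nat_lit 254) (nat_lit 330) (nat_lit 316)) (XT.lf (nat_lit 152)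 (nat_lit 49437236775) (nat_lit 0) (nat_lit 30275558930) (nat_lit 76) (nat_lit 30275558930) (nat_lit 203) (nat_lit 1) (nat_lit 201) (nat_lit 1) (nat_lit 202) (nat_lit 1) (nat_lit 255) (nat_lit 330) (nat_lit 315))))) (XT.nd (nat_lit 234) (nat_lit 228) (nat_lit 0) (XT.nd (nat_lit 78) (nat_lit 228) (nat_lit 0) (XT.lf (nat_lit 0) (nat_lit 9680492242) (nat_lit 0) (nat_lit 85226310367) (nat_lit 152) (nat_lit 9680492242) (nat_lit 201) (nat_lit 3) (nat_lit 201) (nat_lit 1) (nat_lit 203) (nat_lit 1) (nat_lit 256) (nat_lit 330) (nat_lit 314)) (XT.nd (nat_lit 78) (nat_lit 76) (nat_lit 0) (XT.lf (nat_lit 76) (nat_lit 44801277272) (nat_lit 0) (nat_lit 9716622552) (nat_lit 152) (nat_lit 44801277272) (nat_lit 200) (nat_lit 1) (nat_lit 199) (nat_lit 1) (nat_lit 201) (nat_lit 1) (nat_lit 257) (nat_lit 330) (nat_lit 313)) (XT.lf (nat_lit 152) (nat_lit 59845694057) (nat_lit 0) (nat_lit 17310149080) (nat_lit 76) (nat_lit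 17310149080) (nat_lit 200) (nat_lit 1) (nat_lit 198) (nat_lit 1) (nat_lit 199) (nat_lit 1) (nat_lit 258) (nat_lit 330) (nat_lit 312)))) (XT.nd (nat_lit 78) (nat_lit 228) (nat_lit 0) (XT.lf (nat_lit 0) (nat_lit 15560184121) (nat_lit 0) (nat_lit 58753750825) (nat_lit 152) (nat_lit 15560184121) (nat_lit 198) (nat_lit 3) (nat_lit 198) (nat_lit 1) (nat_lit 200) (nat_lit 1) (nat_lit 259) (nat_lit 330) (nat_lit 311)) (XT.nd (nat_lit 78) (nat_lit 152) (nat_lit 0) (XT.lf (nat_lit 76) (nat_lit 3471199018) (nat_lit 0) (nat_lit 41030822239) (nat_lit 76) (nat_lit 41030822239) (nat_lit 198) (nat_lit 3) (nat_lit 197) (nat_lit 1) (nat_lit 198) (nat_lit 1) (nat_lit 260) (nat_lit 330) (nat_lit 310)) (XT.lf (nat_lit 152) (nat_lit 61677659792) (nat_lit 0) (nat_lit 9897133918) (nat_lit 76) (nat_lit 9897133918) (nat_lit 197) (nat_lit 1) (nat_lit 195) (nat_lit 1) (nat_lit 196) (nat_lit 1) (nat_lit 261) (nat_lit 330)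 (nat_lit 309)))))) (XT.nd (nat_lit 390) (nat_lit 456) (nat_lit 0) (XT.nd (nat_lit 156) (nat_lit 228) (nat_lit 0) (XT.nd (nat_lit 78) (nat_lit 76) (nat_lit 0) (XT.lf (nat_lit 0) (nat_lit 17614265132) (nat_lit 0) (nat_lit 42310327084) (nat_lit 152) (nat_lit 17614265132) (nat_lit 195) (nat_lit 3) (nat_lit 195) (nat_lit 1) (nat_lit 197) (nat_lit 1) (nat_lit 262) (nat_lit 330) (nat_lit 308)) (XT.lf (nat_lit 76) (nat_lit 10306090511) (nat_lit 0) (nat_lit 31780926991) (nat_lit 76) (nat_lit 31780926991) (nat_lit 195) (nat_lit 3) (nat_lit 194) (nat_lit 1) (nat_lit 195) (nat_lit 1) (nat_lit 263) (nat_lit 330) (nat_lit 307))) (XT.nd (nat_lit 78) (nat_lit 76) (nat_lit 0) (XT.lf (nat_lit 152) (nat_lit 59143263019) (nat_lit 0) (nat_lit 5658718439) (nat_lit 76) (nat_lit 5658718439) (nat_lit 194) (nat_lit 1) (nat_lit 192) (nat_lit 1) (nat_lit 193) (nat_lit 1) (nat_lit 264) (nat_lit 330) (nat_lit 306)) (XT.nd (nat_lit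 78) (nat_lit 76) (nat_lit 0) (XT.lf (nat_lit 0) (nat_lit 17651604005) (nat_lit 0) (nat_lit 31771657579) (nat_lit 152) (nat_lit 17651604005) (nat_lit 192) (nat_lit 3) (nat_lit 192) (nat_lit 1) (nat_lit 194) (nat_lit 1) (nat_lit 265) (nat_lit 330) (nat_lit 305)) (XT.lf (nat_lit 76) (nat_lit 13128559139) (nat_lit 0) (nat_lit 25406866595) (nat_lit 76) (nat_lit 25406866595) (nat_lit 192) (nat_lit 3) (nat_lit 191) (nat_lit 1) (nat_lit 192) (nat_lit 1) (nat_lit 266) (nat_lit 330) (nat_lit 304))))) (XT.nd (nat_lit 234) (nat_lit 228) (nat_lit 0) (XT.nd (nat_lit 78) (nat_lit 76) (nat_lit 0) (XT.lf (nat_lit 152) (nat_lit 54579579414) (nat_lit 0) (nat_lit 3235390633) (nat_lit 76) (nat_lit 3235390633) (nat_lit 191) (nat_lit 1) (nat_lit 189) (nat_lit 1) (nat_lit 190) (nat_lit 1) (nat_lit 267) (nat_lit 330) (nat_lit 303)) (XT.nd (nat_lit 78) (nat_lit 76) (nat_lit 0) (XT.lf (nat_lit 0) (nat_lit 16684179920) (nat_lit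 0) (nat_lit 24757366379) (nat_lit 152) (nat_lit 16684179920) (nat_lit 189) (nat_lit 3) (nat_lit 189) (nat_lit 1) (nat_lit 191) (nat_lit 1) (nat_lit 268) (nat_lit 330) (nat_lit 302)) (XT.lf (nat_lit 76) (nat_lit 13798486245) (nat_lit 0) (nat_lit 20818648384) (nat_lit 76) (nat_lit 20818648384) (nat_lit 189) (nat_lit 3) (nat_lit 188) (nat_lit 1) (nat_lit 189) (nat_lit 1) (nat_lit 269) (nat_lit 330) (nat_lit 301)))) (XT.nd (nat_lit 78) (nat_lit 76) (nat_lit 0) (XT.lf (nat_lit 152) (nat_lit 49261901089) (nat_lit 0) (nat_lit 1849845095) (nat_lit 76) (nat_lit 1849845095) (nat_lit 188) (nat_lit 1) (nat_lit 186) (nat_lit 1) (nat_lit 187) (nat_lit 1) (nat_lit 270) (nat_lit 330) (nat_lit 300)) (XT.nd (nat_lit 78) (nat_lit 76) (nat_lit 0) (XT.lf (nat_lit 0) (nat_lit 15271249707) (nat_lit 0) (nat_lit 19887120267) (nat_lit 152) (nat_lit 15271249707) (nat_lit 186) (nat_lit 3) (nat_lit 186) (nat_lit 1) (nat_lit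 188) (nat_lit 1) (nat_lit 271) (nat_lit 330) (nat_lit 299)) (XT.lf (nat_lit 76) (nat_lit 13360798815) (nat_lit 0) (nat_lit 17374599302) (nat_lit 76) (nat_lit 17374599302) (nat_lit 186) (nat_lit 3) (nat_lit 185) (nat_lit 1) (nat_lit 186) (nat_lit 1) (nat_lit 272) (nat_lit 330) (nat_lit 298))))))))
noncomputable def ec91 : XT := (XT.nd (nat_lit 1716) (nat_lit 1672) (nat_lit 0) (XT.nd (nat_lit 858) (nat_lit 912) (nat_lit 0) (XT.nd (nat_lit 390) (nat_lit 456) (nat_lit 0) (XT.nd (nat_lit 156) (nat_lit 228) (nat_lit 0) (XT.nd (nat_lit 78) (nat_lit 0) (nat_lit 0) (XT.lf (nat_lit 152) (nat_lit 43866390454) (nat_lit 0) (nat_lit 1057654937) (nat_lit 76) (nat_lit 1057654937) (nat_lit 185) (nat_lit 1) (nat_lit 183) (nat_lit 1) (nat_lit 184) (nat_lit 1) (nat_lit 273) (nat_lit 330) (nat_lit 297)) (XT.lf (nat_lit 0) (nat_lit 13715748051) (nat_lit 0) (nat_lit 16354887025) (nat_lit 152) (nat_lit 13715748051) (nat_lit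 183) (nat_lit 3) (nat_lit 183) (nat_lit 1) (nat_lit 185) (nat_lit 1) (nat_lit 274) (nat_lit 330) (nat_lit 296))) (XT.nd (nat_lit 78) (nat_lit 152) (nat_lit 0) (XT.lf (nat_lit 76) (nat_lit 12396879669) (nat_lit 0) (nat_lit 14691783124) (nat_lit 76) (nat_lit 14691783124) (nat_lit 183) (nat_lit 3) (nat_lit 182) (nat_lit 1) (nat_lit 183) (nat_lit 1) (nat_lit 275) (nat_lit 330) (nat_lit 295)) (XT.nd (nat_lit 78) (nat_lit 0) (nat_lit 0) (XT.lf (nat_lit 152) (nat_lit 38733567308) (nat_lit 0) (nat_lit 604717643) (nat_lit 76) (nat_lit 604717643) (nat_lit 182) (nat_lit 1) (nat_lit 180) (nat_lit 1) (nat_lit 181) (nat_lit 1) (nat_lit 276) (nat_lit 330) (nat_lit 294)) (XT.lf (nat_lit 0) (nat_lit 12176250827) (nat_lit 0) (nat_lit 13685187101) (nat_lit 152) (nat_lit 12176250827) (nat_lit 180) (nat_lit 3) (nat_lit 180) (nat_lit 1) (nat_lit 182) (nat_lit 1) (nat_lit 277) (nat_lit 330) (nat_lit 293))))) (XT.nd (nat_lit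 234) (nat_lit 228) (nat_lit 0) (XT.nd (nat_lit 78) (nat_lit 152) (nat_lit 0) (XT.lf (nat_lit 76) (nat_lit 11225173214) (nat_lit 0) (nat_lit 12537291713) (nat_lit 76) (nat_lit 12537291713) (nat_lit 180) (nat_lit 3) (nat_lit 179) (nat_lit 1) (nat_lit 180) (nat_lit 1) (nat_lit 278) (nat_lit 330) (nat_lit 292)) (XT.nd (nat_lit 78) (nat_lit 0) (nat_lit 0) (XT.lf (nat_lit 152) (nat_lit 34018056903) (nat_lit 0) (nat_lit 345749275) (nat_lit 76) (nat_lit 345749275) (nat_lit 179) (nat_lit 1) (nat_lit 177) (nat_lit 1) (nat_lit 178) (nat_lit 1) (nat_lit 279) (nat_lit 330) (nat_lit 291)) (XT.lf (nat_lit 0) (nat_lit 10730704288) (nat_lit 0) (nat_lit 11593443500) (nat_lit 152) (nat_lit 10730704288) (nat_lit 177) (nat_lit 3) (nat_lit 177) (nat_lit 1) (nat_lit 179) (nat_lit 1) (nat_lit 280) (nat_lit 330) (nat_lit 290)))) (XT.nd (nat_lit 78) (nat_lit 152) (nat_lit 0) (XT.lf (nat_lit 76) (nat_lit 10015609242) (nat_lit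 0) (nat_lit 10765817252) (nat_lit 76) (nat_lit 10765817252) (nat_lit 177) (nat_lit 3) (nat_lit 176) (nat_lit 1) (nat_lit 177) (nat_lit 1) (nat_lit 281) (nat_lit 330) (nat_lit 289)) (XT.nd (nat_lit 78) (nat_lit 0) (nat_lit 0) (XT.lf (nat_lit 152) (nat_lit 29773424948) (nat_lit 0) (nat_lit 197683270) (nat_lit 76) (nat_lit 197683270) (nat_lit 176) (nat_lit 1) (nat_lit 174) (nat_lit 1) (nat_lit 175) (nat_lit 1) (nat_lit 282) (nat_lit 330) (nat_lit 288)) (XT.lf (nat_lit 0) (nat_lit 9412613577) (nat_lit 0) (nat_lit 9905887522) (nat_lit 152) (nat_lit 9412613577) (nat_lit 174) (nat_lit 3) (nat_lit 174) (nat_lit 1) (nat_lit 176) (nat_lit 1) (nat_lit 283) (nat_lit 330) (nat_lit 287)))))) (XT.nd (nat_lit 390) (nat_lit 456) (nat_lit 0) (XT.nd (nat_lit 156) (nat_lit 228) (nat_lit 0) (XT.nd (nat_lit 78) (nat_lit 152) (nat_lit 0) (XT.lf (nat_lit 76) (nat_lit 8854787547) (nat_lit 0) (nat_lit 9283721411) (nat_lit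 76) (nat_lit 9283721411) (nat_lit 174) (nat_lit 3) (nat_lit 173) (nat_lit 1) (nat_lit 174) (nat_lit 1) (nat_lit 284) (nat_lit 330) (nat_lit 286)) (XT.lf (nat_lit 152) (nat_lit 26000000612) (nat_lit 0) (nat_lit 113026051) (nat_lit 76) (nat_lit 113026051) (nat_lit 173) (nat_lit 1) (nat_lit 171) (nat_lit 1) (nat_lit 172) (nat_lit 1) (nat_lit 285) (nat_lit 330) (nat_lit 285))) (XT.nd (nat_lit 78) (nat_lit 228) (nat_lit 0) (XT.lf (nat_lit 0) (nat_lit 8231517208) (nat_lit 0) (nat_lit 8513548187) (nat_lit 152) (nat_lit 8231517208) (nat_lit 171) (nat_lit 3) (nat_lit 171) (nat_lit 1) (nat_lit 173) (nat_lit 1) (nat_lit 286) (nat_lit 330) (nat_lit 284)) (XT.nd (nat_lit 78) (nat_lit 152) (nat_lit 0) (XT.lf (nat_lit 76) (nat_lit 7783040872) (nat_lit 0) (nat_lit 8028285201) (nat_lit 76) (nat_lit 8028285201) (nat_lit 171) (nat_lit 3) (nat_lit 170) (nat_lit 1) (nat_lit 171) (nat_lit 1) (nat_lit 287) (nat_lit 330)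 (nat_lit 283)) (XT.lf (nat_lit 152) (nat_lit 22671626705) (nat_lit 0) (nat_lit 64623011) (nat_lit 76) (nat_lit 64623011) (nat_lit 170) (nat_lit 1) (nat_lit 168) (nat_lit 1) (nat_lit 169) (nat_lit 1) (nat_lit 288) (nat_lit 330) (nat_lit 282))))) (XT.nd (nat_lit 234) (nat_lit 228) (nat_lit 0) (XT.nd (nat_lit 78) (nat_lit 228) (nat_lit 0) (XT.lf (nat_lit 0) (nat_lit 7184505242) (nat_lit 0) (nat_lit 7345757369) (nat_lit 152) (nat_lit 7184505242) (nat_lit 168) (nat_lit 3) (nat_lit 168) (nat_lit 1) (nat_lit 170) (nat_lit 1) (nat_lit 289) (nat_lit 330) (nat_lit 281)) (XT.nd (nat_lit 78) (nat_lit 152) (nat_lit 0) (XT.lf (nat_lit 76) (nat_lit 6815446143) (nat_lit 0) (nat_lit 6955665384) (nat_lit 76) (nat_lit 6955665384) (nat_lit 168) (nat_lit 3) (nat_lit 167) (nat_lit 1) (nat_lit 168) (nat_lit 1) (nat_lit 290) (nat_lit 330) (nat_lit 280)) (XT.lf (nat_lit 152) (nat_lit 19750438734) (nat_lit 0) (nat_lit 36948416)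 (nat_lit 76) (nat_lit 36948416) (nat_lit 167) (nat_lit 1) (nat_lit 165) (nat_lit 1) (nat_lit 166) (nat_lit 1) (nat_lit 291) (nat_lit 330) (nat_lit 279)))) (XT.nd (nat_lit 78) (nat_lit 228) (nat_lit 0) (XT.lf (nat_lit 0) (nat_lit 6262641200) (nat_lit 0) (nat_lit 6354837627) (nat_lit 152) (nat_lit 6262641200) (nat_lit 165) (nat_lit 3) (nat_lit 165) (nat_lit 1) (nat_lit 167) (nat_lit 1) (nat_lit 292) (nat_lit 330) (nat_lit 278)) (XT.nd (nat_lit 78) (nat_lit 152) (nat_lit 0) (XT.lf (nat_lit 76) (nat_lit 5953681507) (nat_lit 0) (nat_lit 6033852314) (nat_lit 76) (nat_lit 6033852314) (nat_lit 165) (nat_lit 3) (nat_lit 164) (nat_lit 1) (nat_lit 165) (nat_lit 1) (nat_lit 293) (nat_lit 330) (nat_lit 277)) (XT.lf (nat_lit 152) (nat_lit 17194866650) (nat_lit 0) (nat_lit 21125377) (nat_lit 76) (nat_lit 21125377) (nat_lit 164) (nat_lit 1) (nat_lit 162) (nat_lit 1) (nat_lit 163) (nat_lit 1) (nat_lit 294) (nat_lit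 330) (nat_lit 276))))))) (XT.nd (nat_lit 858) (nat_lit 912) (nat_lit 0) (XT.nd (nat_lit 390) (nat_lit 456) (nat_lit 0) (XT.nd (nat_lit 156) (nat_lit 228) (nat_lit 0) (XT.nd (nat_lit 78) (nat_lit 76) (nat_lit 0) (XT.lf (nat_lit 0) (nat_lit 5454491528) (nat_lit 0) (nat_lit 5507205134) (nat_lit 152) (nat_lit 5454491528) (nat_lit 162) (nat_lit 3) (nat_lit 162) (nat_lit 1) (nat_lit 164) (nat_lit 1) (nat_lit 295) (nat_lit 330) (nat_lit 275)) (XT.lf (nat_lit 76) (nat_lit 5192669816) (nat_lit 0) (nat_lit 5238507735) (nat_lit 76) (nat_lit 5238507735) (nat_lit 162) (nat_lit 3) (nat_lit 161) (nat_lit 1) (nat_lit 162) (nat_lit 1) (nat_lit 296) (nat_lit 330) (nat_lit 274))) (XT.nd (nat_lit 78) (nat_lit 76) (nat_lit 0) (XT.lf (nat_lit 152) (nat_lit 14963820121) (nat_lit 0) (nat_lit 12078502) (nat_lit 76) (nat_lit 12078502) (nat_lit 161) (nat_lit 1) (nat_lit 159) (nat_lit 1) (nat_lit 160) (nat_lit 1) (nat_lit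 297) (nat_lit 330) (nat_lit 273)) (XT.nd (nat_lit 78) (nat_lit 76) (nat_lit 0) (XT.lf (nat_lit 0) (nat_lit 4748019839) (nat_lit 0) (nat_lit 4778159015) (nat_lit 152) (nat_lit 4748019839) (nat_lit 159) (nat_lit 3) (nat_lit 159) (nat_lit 1) (nat_lit 161) (nat_lit 1) (nat_lit 298) (nat_lit 330) (nat_lit 272)) (XT.lf (nat_lit 76) (nat_lit 4524258944) (nat_lit 0) (nat_lit 4550466923) (nat_lit 76) (nat_lit 4550466923) (nat_lit 159) (nat_lit 3) (nat_lit 158) (nat_lit 1) (nat_lit 159) (nat_lit 1) (nat_lit 299) (nat_lit 330) (nat_lit 271))))) (XT.nd (nat_lit 234) (nat_lit 228) (nat_lit 0) (XT.nd (nat_lit 78) (nat_lit 76) (nat_lit 0) (XT.lf (nat_lit 152) (nat_lit 13018742552) (nat_lit 0) (nat_lit 6905923) (nat_lit 76) (nat_lit 6905923) (nat_lit 158) (nat_lit 1) (nat_lit 156) (nat_lit 1) (nat_lit 157) (nat_lit 1) (nat_lit 300) (nat_lit 330) (nat_lit 270)) (XT.nd (nat_lit 78) (nat_lit 76) (nat_lit 0) (XT.lf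 (nat_lit 0) (nat_lit 4131562366) (nat_lit 0) (nat_lit 4148794538) (nat_lit 152) (nat_lit 4131562366) (nat_lit 156) (nat_lit 3) (nat_lit 156) (nat_lit 1) (nat_lit 158) (nat_lit 1) (nat_lit 301) (nat_lit 330) (nat_lit 269)) (XT.lf (nat_lit 76) (nat_lit 3939223320) (nat_lit 0) (nat_lit 3954207817) (nat_lit 76) (nat_lit 3954207817) (nat_lit 156) (nat_lit 3) (nat_lit 155) (nat_lit 1) (nat_lit 156) (nat_lit 1) (nat_lit 302) (nat_lit 330) (nat_lit 268)))) (XT.nd (nat_lit 78) (nat_lit 76) (nat_lit 0) (XT.lf (nat_lit 152) (nat_lit 11324490770) (nat_lit 0) (nat_lit 3948484) (nat_lit 76) (nat_lit 3948484) (nat_lit 155) (nat_lit 1) (nat_lit 153) (nat_lit 1) (nat_lit 154) (nat_lit 1) (nat_lit 303) (nat_lit 330) (nat_lit 267)) (XT.nd (nat_lit 78) (nat_lit 76) (nat_lit 0) (XT.lf (nat_lit 0) (nat_lit 3594292117) (nat_lit 0) (nat_lit 3604144667) (nat_lit 152) (nat_lit 3594292117) (nat_lit 153) (nat_lit 3) (nat_lit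 153) (nat_lit 1) (nat_lit 155) (nat_lit 1) (nat_lit 304) (nat_lit 330) (nat_lit 266)) (XT.lf (nat_lit 76) (nat_lit 3428319010) (nat_lit 0) (nat_lit 3436886445) (nat_lit 76) (nat_lit 3436886445) (nat_lit 153) (nat_lit 3) (nat_lit 152) (nat_lit 1) (nat_lit 153) (nat_lit 1) (nat_lit 305) (nat_lit 330) (nat_lit 265)))))) (XT.nd (nat_lit 468) (nat_lit 456) (nat_lit 0) (XT.nd (nat_lit 234) (nat_lit 228) (nat_lit 0) (XT.nd (nat_lit 78) (nat_lit 76) (nat_lit 0) (XT.lf (nat_lit 152) (nat_lit 9849581711) (nat_lit 0) (nat_lit 2257558) (nat_lit 76) (nat_lit 2257558) (nat_lit 152) (nat_lit 1) (nat_lit 150) (nat_lit 1) (nat_lit 151) (nat_lit 1) (nat_lit 306) (nat_lit 330) (nat_lit 264)) (XT.nd (nat_lit 78) (nat_lit 76) (nat_lit 0) (XT.lf (nat_lit 0) (nat_lit 3126402900) (nat_lit 0) (nat_lit 3132036127) (nat_lit 152) (nat_lit 3126402900) (nat_lit 150) (nat_lit 3) (nat_lit 150) (nat_lit 1) (nat_lit 152) (nat_lit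 1) (nat_lit 307) (nat_lit 330) (nat_lit 263)) (XT.lf (nat_lit 76) (nat_lit 2982809296) (nat_lit 0) (nat_lit 2987707755) (nat_lit 76) (nat_lit 2987707755) (nat_lit 150) (nat_lit 3) (nat_lit 149) (nat_lit 1) (nat_lit 150) (nat_lit 1) (nat_lit 308) (nat_lit 330) (nat_lit 262)))) (XT.nd (nat_lit 78) (nat_lit 76) (nat_lit 0) (XT.lf (nat_lit 152) (nat_lit 8566110622) (nat_lit 0) (nat_lit 1290766) (nat_lit 76) (nat_lit 1290766) (nat_lit 149) (nat_lit 1) (nat_lit 147) (nat_lit 1) (nat_lit 148) (nat_lit 1) (nat_lit 309) (nat_lit 330) (nat_lit 261)) (XT.nd (nat_lit 78) (nat_lit 76) (nat_lit 0) (XT.lf (nat_lit 0) (nat_lit 2719143802) (nat_lit 0) (nat_lit 2722364618) (nat_lit 152) (nat_lit 2719143802) (nat_lit 147) (nat_lit 3) (nat_lit 147) (nat_lit 1) (nat_lit 149) (nat_lit 1) (nat_lit 310) (nat_lit 330) (nat_lit 260)) (XT.lf (nat_lit 76) (nat_lit 2594697657) (nat_lit 0) (nat_lit 2597498366) (nat_lit 76)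 (nat_lit 2597498366) (nat_lit 147) (nat_lit 3) (nat_lit 146) (nat_lit 1) (nat_lit 147) (nat_lit 1) (nat_lit 311) (nat_lit 330) (nat_lit 259))))) (XT.nd (nat_lit 234) (nat_lit 228) (nat_lit 0) (XT.nd (nat_lit 78) (nat_lit 76) (nat_lit 0) (XT.lf (nat_lit 152) (nat_lit 7449510517) (nat_lit 0) (nat_lit 737999) (nat_lit 76) (nat_lit 737999) (nat_lit 146) (nat_lit 1) (nat_lit 144) (nat_lit 1) (nat_lit 145) (nat_lit 1) (nat_lit 312) (nat_lit 330) (nat_lit 258)) (XT.nd (nat_lit 78) (nat_lit 76) (nat_lit 0) (XT.lf (nat_lit 0) (nat_lit 2364777379) (nat_lit 0) (nat_lit 2366618891) (nat_lit 152) (nat_lit 2364777379) (nat_lit 144) (nat_lit 3) (nat_lit 144) (nat_lit 1) (nat_lit 146) (nat_lit 1) (nat_lit 313) (nat_lit 330) (nat_lit 257)) (XT.lf (nat_lit 76) (nat_lit 2256802251) (nat_lit 0) (nat_lit 2258403566) (nat_lit 76) (nat_lit 2258403566) (nat_lit 144) (nat_lit 3) (nat_lit 143) (nat_lit 1) (nat_lit 144)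 (nat_lit 1) (nat_lit 314) (nat_lit 330) (nat_lit 256)))) (XT.nd (nat_lit 78) (nat_lit 76) (nat_lit 0) (XT.lf (nat_lit 152) (nat_lit 6478246135) (nat_lit 0) (nat_lit 421953) (nat_lit 76) (nat_lit 421953) (nat_lit 143) (nat_lit 1) (nat_lit 141) (nat_lit 1) (nat_lit 142) (nat_lit 1) (nat_lit 315) (nat_lit 330) (nat_lit 255)) (XT.nd (nat_lit 78) (nat_lit 76) (nat_lit 0) (XT.lf (nat_lit 0) (nat_lit 2056502258) (nat_lit 0) (nat_lit 2057555149) (nat_lit 152) (nat_lit 2056502258) (nat_lit 141) (nat_lit 3) (nat_lit 141) (nat_lit 1) (nat_lit 143) (nat_lit 1) (nat_lit 316) (nat_lit 330) (nat_lit 254)) (XT.lf (nat_lit 76) (nat_lit 1962747441) (nat_lit 0) (nat_lit 1963662998) (nat_lit 76) (nat_lit 1963662998) (nat_lit 141) (nat_lit 3) (nat_lit 140) (nat_lit 1) (nat_lit 141) (nat_lit 1) (nat_lit 317) (nat_lit 330) (nat_lit 253))))))))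
noncomputable def ec92 : XT := (XT.nd (nat_lit 1716) (nat_lit 1596) (nat_lit 0) (XT.nd (nat_lit 858) (nat_lit 912) (nat_lit 0) (XT.nd (nat_lit 390) (nat_lit 456) (nat_lit 0) (XT.nd (nat_lit 156) (nat_lit 228) (nat_lit 0) (XT.nd (nat_lit 78) (nat_lit 0) (nat_lit 0) (XT.lf (nat_lit 152) (nat_lit 5633492444) (nat_lit 0) (nat_lit 241253) (nat_lit 76) (nat_lit 241253) (nat_lit 140) (nat_lit 1) (nat_lit 138) (nat_lit 1) (nat_lit 139) (nat_lit 1) (nat_lit 318) (nat_lit 330) (nat_lit 252)) (XT.lf (nat_lit 0) (nat_lit 1788362377) (nat_lit 0) (nat_lit 1788964371) (nat_lit 152) (nat_lit 1788362377) (nat_lit 138) (nat_lit 3) (nat_lit 138) (nat_lit 1) (nat_lit 140) (nat_lit 1) (nat_lit 319) (nat_lit 330) (nat_lit 251))) (XT.nd (nat_lit 78) (nat_lit 152) (nat_lit 0) (XT.lf (nat_lit 76) (nat_lit 1706914550) (nat_lit 0) (nat_lit 1707438023) (nat_lit 76) (nat_lit 1707438023) (nat_lit 138) (nat_lit 3) (nat_lit 137)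 (nat_lit 1) (nat_lit 138) (nat_lit 1) (nat_lit 320) (nat_lit 330) (nat_lit 250)) (XT.nd (nat_lit 78) (nat_lit 0) (nat_lit 0) (XT.lf (nat_lit 152) (nat_lit 4898823406) (nat_lit 0) (nat_lit 137937) (nat_lit 76) (nat_lit 137937) (nat_lit 137) (nat_lit 1) (nat_lit 135) (nat_lit 1) (nat_lit 136) (nat_lit 1) (nat_lit 321) (nat_lit 330) (nat_lit 249)) (XT.lf (nat_lit 0) (nat_lit 1555154634) (nat_lit 0) (nat_lit 1555498826) (nat_lit 152) (nat_lit 1555154634) (nat_lit 135) (nat_lit 3) (nat_lit 135) (nat_lit 1) (nat_lit 137) (nat_lit 1) (nat_lit 322) (nat_lit 330) (nat_lit 248))))) (XT.nd (nat_lit 234) (nat_lit 228) (nat_lit 0) (XT.nd (nat_lit 78) (nat_lit 152) (nat_lit 0) (XT.lf (nat_lit 76) (nat_lit 1484375091) (nat_lit 0) (nat_lit 1484674388) (nat_lit 76) (nat_lit 1484674388) (nat_lit 135) (nat_lit 3) (nat_lit 134) (nat_lit 1) (nat_lit 135) (nat_lit 1) (nat_lit 323) (nat_lit 330) (nat_lit 247)) (XT.nd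 (nat_lit 78) (nat_lit 0) (nat_lit 0) (XT.lf (nat_lit 152) (nat_lit 4259923241) (nat_lit 0) (nat_lit 78866) (nat_lit 76) (nat_lit 78866) (nat_lit 134) (nat_lit 1) (nat_lit 132) (nat_lit 1) (nat_lit 133) (nat_lit 1) (nat_lit 324) (nat_lit 330) (nat_lit 246)) (XT.lf (nat_lit 0) (nat_lit 1352340918) (nat_lit 0) (nat_lit 1352537711) (nat_lit 152) (nat_lit 1352340918) (nat_lit 132) (nat_lit 3) (nat_lit 132) (nat_lit 1) (nat_lit 134) (nat_lit 1) (nat_lit 325) (nat_lit 330) (nat_lit 245)))) (XT.nd (nat_lit 78) (nat_lit 152) (nat_lit 0) (XT.lf (nat_lit 76) (nat_lit 1290819021) (nat_lit 0) (nat_lit 1290990145) (nat_lit 76) (nat_lit 1290990145) (nat_lit 132) (nat_lit 3) (nat_lit 131) (nat_lit 1) (nat_lit 132) (nat_lit 1) (nat_lit 326) (nat_lit 330) (nat_lit 244)) (XT.nd (nat_lit 78) (nat_lit 0) (nat_lit 0) (XT.lf (nat_lit 152) (nat_lit 3704324990) (nat_lit 0) (nat_lit 45091) (nat_lit 76) (nat_lit 45091) (nat_lit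 131) (nat_lit 1) (nat_lit 129) (nat_lit 1) (nat_lit 130) (nat_lit 1) (nat_lit 327) (nat_lit 330) (nat_lit 243)) (XT.lf (nat_lit 0) (nat_lit 1175967230) (nat_lit 0) (nat_lit 1176079747) (nat_lit 152) (nat_lit 1175967230) (nat_lit 129) (nat_lit 3) (nat_lit 129) (nat_lit 1) (nat_lit 131) (nat_lit 1) (nat_lit 328) (nat_lit 330) (nat_lit 242)))))) (XT.nd (nat_lit 390) (nat_lit 456) (nat_lit 0) (XT.nd (nat_lit 156) (nat_lit 228) (nat_lit 0) (XT.nd (nat_lit 78) (nat_lit 152) (nat_lit 0) (XT.lf (nat_lit 76) (nat_lit 1122484525) (nat_lit 0) (nat_lit 1122582366) (nat_lit 76) (nat_lit 1122582366) (nat_lit 129) (nat_lit 3) (nat_lit 128) (nat_lit 1) (nat_lit 129) (nat_lit 1) (nat_lit 329) (nat_lit 330) (nat_lit 241)) (XT.lf (nat_lit 152) (nat_lit 3221177271) (nat_lit 0) (nat_lit 25781) (nat_lit 76) (nat_lit 25781) (nat_lit 128) (nat_lit 1) (nat_lit 126) (nat_lit 1) (nat_lit 127) (nat_lit 1) (nat_lit 330) (nat_lit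 330) (nat_lit 240))) (XT.nd (nat_lit 78) (nat_lit 228) (nat_lit 0) (XT.lf (nat_lit 0) (nat_lit 1022590838) (nat_lit 0) (nat_lit 1022655170) (nat_lit 152) (nat_lit 1022590838) (nat_lit 126) (nat_lit 3) (nat_lit 126) (nat_lit 1) (nat_lit 128) (nat_lit 1) (nat_lit 331) (nat_lit 330) (nat_lit 239)) (XT.nd (nat_lit 78) (nat_lit 152) (nat_lit 0) (XT.lf (nat_lit 76) (nat_lit 976092484) (nat_lit 0) (nat_lit 976148425) (nat_lit 76) (nat_lit 976148425) (nat_lit 126) (nat_lit 3) (nat_lit 125) (nat_lit 1) (nat_lit 126) (nat_lit 1) (nat_lit 332) (nat_lit 330) (nat_lit 238)) (XT.lf (nat_lit 152) (nat_lit 2801038069) (nat_lit 0) (nat_lit 14740) (nat_lit 76) (nat_lit 14740) (nat_lit 125) (nat_lit 1) (nat_lit 123) (nat_lit 1) (nat_lit 124) (nat_lit 1) (nat_lit 333) (nat_lit 330) (nat_lit 237))))) (XT.nd (nat_lit 234) (nat_lit 228) (nat_lit 0) (XT.nd (nat_lit 78) (nat_lit 228) (nat_lit 0) (XT.lf (nat_lit 0) (nat_lit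 889215506) (nat_lit 0) (nat_lit 889252288) (nat_lit 152) (nat_lit 889215506) (nat_lit 123) (nat_lit 3) (nat_lit 123) (nat_lit 1) (nat_lit 125) (nat_lit 1) (nat_lit 334) (nat_lit 330) (nat_lit 236)) (XT.nd (nat_lit 78) (nat_lit 152) (nat_lit 0) (XT.lf (nat_lit 76) (nat_lit 848786927) (nat_lit 0) (nat_lit 848818912) (nat_lit 76) (nat_lit 848818912) (nat_lit 123) (nat_lit 3) (nat_lit 122) (nat_lit 1) (nat_lit 123) (nat_lit 1) (nat_lit 335) (nat_lit 330) (nat_lit 235)) (XT.lf (nat_lit 152) (nat_lit 2435693484) (nat_lit 0) (nat_lit 8428) (nat_lit 76) (nat_lit 8428) (nat_lit 122) (nat_lit 1) (nat_lit 120) (nat_lit 1) (nat_lit 121) (nat_lit 1) (nat_lit 336) (nat_lit 330) (nat_lit 234)))) (XT.nd (nat_lit 78) (nat_lit 228) (nat_lit 0) (XT.lf (nat_lit 0) (nat_lit 773234352) (nat_lit 0) (nat_lit 773255383) (nat_lit 152) (nat_lit 773234352) (nat_lit 120) (nat_lit 3) (nat_lit 120) (nat_lit 1) (nat_lit 122)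 (nat_lit 1) (nat_lit 337) (nat_lit 330) (nat_lit 233)) (XT.nd (nat_lit 78) (nat_lit 152) (nat_lit 0) (XT.lf (nat_lit 76) (nat_lit 738081795) (nat_lit 0) (nat_lit 738100082) (nat_lit 76) (nat_lit 738100082) (nat_lit 120) (nat_lit 3) (nat_lit 119) (nat_lit 1) (nat_lit 120) (nat_lit 1) (nat_lit 338) (nat_lit 330) (nat_lit 232)) (XT.lf (nat_lit 152) (nat_lit 2117999027) (nat_lit 0) (nat_lit 4818) (nat_lit 76) (nat_lit 4818) (nat_lit 119) (nat_lit 1) (nat_lit 117) (nat_lit 1) (nat_lit 118) (nat_lit 1) (nat_lit 339) (nat_lit 330) (nat_lit 231))))))) (XT.nd (nat_lit 858) (nat_lit 836) (nat_lit 0) (XT.nd (nat_lit 390) (nat_lit 456) (nat_lit 0) (XT.nd (nat_lit 156) (nat_lit 228) (nat_lit 0) (XT.nd (nat_lit 78) (nat_lit 76) (nat_lit 0) (XT.lf (nat_lit 0) (nat_lit 672379686) (nat_lit 0) (nat_lit 672391710) (nat_lit 152) (nat_lit 672379686) (nat_lit 117) (nat_lit 3) (nat_lit 117) (nat_lit 1) (nat_lit 119)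 (nat_lit 1) (nat_lit 340) (nat_lit 330) (nat_lit 230)) (XT.lf (nat_lit 76) (nat_lit 641813804) (nat_lit 0) (nat_lit 641824260) (nat_lit 76) (nat_lit 641824260) (nat_lit 117) (nat_lit 3) (nat_lit 116) (nat_lit 1) (nat_lit 117) (nat_lit 1) (nat_lit 341) (nat_lit 330) (nat_lit 229))) (XT.nd (nat_lit 78) (nat_lit 76) (nat_lit 0) (XT.lf (nat_lit 152) (nat_lit 1841740967) (nat_lit 0) (nat_lit 2755) (nat_lit 76) (nat_lit 2755) (nat_lit 116) (nat_lit 1) (nat_lit 114) (nat_lit 1) (nat_lit 115) (nat_lit 1) (nat_lit 342) (nat_lit 330) (nat_lit 228)) (XT.nd (nat_lit 78) (nat_lit 76) (nat_lit 0) (XT.lf (nat_lit 0) (nat_lit 584679124) (nat_lit 0) (nat_lit 584685999) (nat_lit 152) (nat_lit 584679124) (nat_lit 114) (nat_lit 3) (nat_lit 114) (nat_lit 1) (nat_lit 116) (nat_lit 1) (nat_lit 343) (nat_lit 330) (nat_lit 227)) (XT.lf (nat_lit 76) (nat_lit 558100989) (nat_lit 0) (nat_lit 558106967) (nat_lit 76) (nat_lit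 558106967) (nat_lit 114) (nat_lit 3) (nat_lit 113) (nat_lit 1) (nat_lit 114) (nat_lit 1) (nat_lit 344) (nat_lit 330) (nat_lit 226))))) (XT.nd (nat_lit 234) (nat_lit 228) (nat_lit 0) (XT.nd (nat_lit 78) (nat_lit 76) (nat_lit 0) (XT.lf (nat_lit 152) (nat_lit 1601515418) (nat_lit 0) (nat_lit 1575) (nat_lit 76) (nat_lit 1575) (nat_lit 113) (nat_lit 1) (nat_lit 111) (nat_lit 1) (nat_lit 112) (nat_lit 1) (nat_lit 345) (nat_lit 330) (nat_lit 225)) (XT.nd (nat_lit 78) (nat_lit 76) (nat_lit 0) (XT.lf (nat_lit 0) (nat_lit 508417280) (nat_lit 0) (nat_lit 508421211) (nat_lit 152) (nat_lit 508417280) (nat_lit 111) (nat_lit 3) (nat_lit 111) (nat_lit 1) (nat_lit 113) (nat_lit 1) (nat_lit 346) (nat_lit 330) (nat_lit 224)) (XT.lf (nat_lit 76) (nat_lit 485306368) (nat_lit 0) (nat_lit 485309786) (nat_lit 76) (nat_lit 485309786) (nat_lit 111) (nat_lit 3) (nat_lit 110) (nat_lit 1) (nat_lit 111) (nat_lit 1) (nat_lit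 347) (nat_lit 330) (nat_lit 223)))) (XT.nd (nat_lit 78) (nat_lit 76) (nat_lit 0) (XT.lf (nat_lit 152) (nat_lit 1392622980) (nat_lit 0) (nat_lit 900) (nat_lit 76) (nat_lit 900) (nat_lit 110) (nat_lit 1) (nat_lit 108) (nat_lit 1) (nat_lit 109) (nat_lit 1) (nat_lit 348) (nat_lit 330) (nat_lit 222)) (XT.nd (nat_lit 78) (nat_lit 76) (nat_lit 0) (XT.lf (nat_lit 0) (nat_lit 442102354) (nat_lit 0) (nat_lit 442104601) (nat_lit 152) (nat_lit 442102354) (nat_lit 108) (nat_lit 3) (nat_lit 108) (nat_lit 1) (nat_lit 110) (nat_lit 1) (nat_lit 349) (nat_lit 330) (nat_lit 221)) (XT.lf (nat_lit 76) (nat_lit 422006200) (nat_lit 0) (nat_lit 422008155) (nat_lit 76) (nat_lit 422008155) (nat_lit 108) (nat_lit 3) (nat_lit 107) (nat_lit 1) (nat_lit 108) (nat_lit 1) (nat_lit 350) (nat_lit 330) (nat_lit 220)))))) (XT.nd (nat_lit 390) (nat_lit 456) (nat_lit 0) (XT.nd (nat_lit 156) (nat_lit 228) (nat_lit 0) (XT.nd (nat_lit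 78) (nat_lit 0) (nat_lit 0) (XT.lf (nat_lit 152) (nat_lit 1210977006) (nat_lit 0) (nat_lit 514) (nat_lit 76) (nat_lit 514) (nat_lit 107) (nat_lit 1) (nat_lit 105) (nat_lit 1) (nat_lit 106) (nat_lit 1) (nat_lit 351) (nat_lit 330) (nat_lit 219)) (XT.lf (nat_lit 0) (nat_lit 384437042) (nat_lit 0) (nat_lit 384438327) (nat_lit 152) (nat_lit 384437042) (nat_lit 105) (nat_lit 3) (nat_lit 105) (nat_lit 1) (nat_lit 107) (nat_lit 1) (nat_lit 352) (nat_lit 330) (nat_lit 218))) (XT.nd (nat_lit 78) (nat_lit 152) (nat_lit 0) (XT.lf (nat_lit 76) (nat_lit 366962292) (nat_lit 0) (nat_lit 366963410) (nat_lit 76) (nat_lit 366963410) (nat_lit 105) (nat_lit 3) (nat_lit 104) (nat_lit 1) (nat_lit 105) (nat_lit 1) (nat_lit 353) (nat_lit 330) (nat_lit 217)) (XT.nd (nat_lit 78) (nat_lit 0) (nat_lit 0) (XT.lf (nat_lit 152) (nat_lit 1053023770) (nat_lit 0) (nat_lit 294) (nat_lit 76) (nat_lit 294) (nat_lit 104) (nat_lit 1)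 (nat_lit 102) (nat_lit 1) (nat_lit 103) (nat_lit 1) (nat_lit 354) (nat_lit 330) (nat_lit 216)) (XT.lf (nat_lit 0) (nat_lit 334293201) (nat_lit 0) (nat_lit 334293936) (nat_lit 152) (nat_lit 334293201) (nat_lit 102) (nat_lit 3) (nat_lit 102) (nat_lit 1) (nat_lit 104) (nat_lit 1) (nat_lit 355) (nat_lit 330) (nat_lit 215))))) (XT.nd (nat_lit 234) (nat_lit 228) (nat_lit 0) (XT.nd (nat_lit 78) (nat_lit 152) (nat_lit 0) (XT.lf (nat_lit 76) (nat_lit 319097862) (nat_lit 0) (nat_lit 319098501) (nat_lit 76) (nat_lit 319098501) (nat_lit 102) (nat_lit 3) (nat_lit 101) (nat_lit 1) (nat_lit 102) (nat_lit 1) (nat_lit 356) (nat_lit 330) (nat_lit 214)) (XT.nd (nat_lit 78) (nat_lit 0) (nat_lit 0) (XT.lf (nat_lit 152) (nat_lit 915673007) (nat_lit 0) (nat_lit 168) (nat_lit 76) (nat_lit 168) (nat_lit 101) (nat_lit 1) (nat_lit 99) (nat_lit 1) (nat_lit 100) (nat_lit 1) (nat_lit 357) (nat_lit 330) (nat_lit 213)) (XT.lf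 (nat_lit 0) (nat_lit 290689810) (nat_lit 0) (nat_lit 290690230) (nat_lit 152) (nat_lit 290689810) (nat_lit 99) (nat_lit 3) (nat_lit 99) (nat_lit 1) (nat_lit 101) (nat_lit 1) (nat_lit 358) (nat_lit 330) (nat_lit 212)))) (XT.nd (nat_lit 78) (nat_lit 152) (nat_lit 0) (XT.lf (nat_lit 76) (nat_lit 277476526) (nat_lit 0) (nat_lit 277476891) (nat_lit 76) (nat_lit 277476891) (nat_lit 99) (nat_lit 3) (nat_lit 98) (nat_lit 1) (nat_lit 99) (nat_lit 1) (nat_lit 359) (nat_lit 330) (nat_lit 211)) (XT.nd (nat_lit 78) (nat_lit 0) (nat_lit 0) (XT.lf (nat_lit 152) (nat_lit 796237491) (nat_lit 0) (nat_lit 96) (nat_lit 76) (nat_lit 96) (nat_lit 98) (nat_lit 1) (nat_lit 96) (nat_lit 1) (nat_lit 97) (nat_lit 1) (nat_lit 360) (nat_lit 330) (nat_lit 210)) (XT.lf (nat_lit 0) (nat_lit 252773787) (nat_lit 0) (nat_lit 252774027) (nat_lit 152) (nat_lit 252773787) (nat_lit 96) (nat_lit 3) (nat_lit 96) (nat_lit 1) (nat_lit 98)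 (nat_lit 1) (nat_lit 361) (nat_lit 330) (nat_lit 209))))))))
noncomputable def ec93 : XT := (XT.nd (nat_lit 38142) (nat_lit 0) (nat_lit 7372) (XT.nd (nat_lit 37284) (nat_lit 0) (nat_lit 9120) (XT.nd (nat_lit 390) (nat_lit 304) (nat_lit 0) (XT.nd (nat_lit 156) (nat_lit 228) (nat_lit 0) (XT.nd (nat_lit 78) (nat_lit 152) (nat_lit 0) (XT.lf (nat_lit 76) (nat_lit 241284006) (nat_lit 0) (nat_lit 241284215) (nat_lit 76) (nat_lit 241284215) (nat_lit 96) (nat_lit 3) (nat_lit 95) (nat_lit 1) (nat_lit 96) (nat_lit 1) (nat_lit 362) (nat_lit 330) (nat_lit 208)) (XT.lf (nat_lit 152) (nat_lit 692380481) (nat_lit 0) (nat_lit 55) (nat_lit 76) (nat_lit 55) (nat_lit 95) (nat_lit 1) (nat_lit 93) (nat_lit 1) (nat_lit 94) (nat_lit 1) (nat_lit 363) (nat_lit 330) (nat_lit 207))) (XT.nd (nat_lit 78) (nat_lit 228) (nat_lit 0) (XT.lf (nat_lit 0) (nat_lit 219803316) (nat_lit 0) (nat_lit 219803453) (nat_lit 152) (nat_lit 219803316)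 (nat_lit 93) (nat_lit 3) (nat_lit 93) (nat_lit 1) (nat_lit 95) (nat_lit 1) (nat_lit 364) (nat_lit 330) (nat_lit 206)) (XT.nd (nat_lit 78) (nat_lit 152) (nat_lit 0) (XT.lf (nat_lit 76) (nat_lit 209812220) (nat_lit 0) (nat_lit 209812339) (nat_lit 76) (nat_lit 209812339) (nat_lit 93) (nat_lit 3) (nat_lit 92) (nat_lit 1) (nat_lit 93) (nat_lit 1) (nat_lit 365) (nat_lit 330) (nat_lit 205)) (XT.lf (nat_lit 152) (nat_lit 602070014) (nat_lit 0) (nat_lit 31) (nat_lit 76) (nat_lit 31) (nat_lit 92) (nat_lit 1) (nat_lit 90) (nat_lit 1) (nat_lit 91) (nat_lit 1) (nat_lit 366) (nat_lit 330) (nat_lit 204))))) (XT.nd (nat_lit 234) (nat_lit 76) (nat_lit 0) (XT.nd (nat_lit 78) (nat_lit 228) (nat_lit 0) (XT.lf (nat_lit 0) (nat_lit 191133331) (nat_lit 0) (nat_lit 191133410) (nat_lit 152) (nat_lit 191133331) (nat_lit 90) (nat_lit 3) (nat_lit 90) (nat_lit 1) (nat_lit 92) (nat_lit 1) (nat_lit 367) (nat_lit 330) (nat_lit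 203)) (XT.nd (nat_lit 78) (nat_lit 152) (nat_lit 0) (XT.lf (nat_lit 76) (nat_lit 182445432) (nat_lit 0) (nat_lit 182445500) (nat_lit 76) (nat_lit 182445500) (nat_lit 90) (nat_lit 3) (nat_lit 89) (nat_lit 1) (nat_lit 90) (nat_lit 1) (nat_lit 368) (nat_lit 330) (nat_lit 202)) (XT.lf (nat_lit 152) (nat_lit 523539160) (nat_lit 0) (nat_lit 17) (nat_lit 76) (nat_lit 17) (nat_lit 89) (nat_lit 1) (nat_lit 87) (nat_lit 1) (nat_lit 88) (nat_lit 1) (nat_lit 369) (nat_lit 330) (nat_lit 201)))) (XT.nd (nat_lit 78) (nat_lit 76) (nat_lit 0) (XT.lf (nat_lit 0) (nat_lit 166202904) (nat_lit 0) (nat_lit 166202949) (nat_lit 152) (nat_lit 166202904) (nat_lit 87) (nat_lit 3) (nat_lit 87) (nat_lit 1) (nat_lit 89) (nat_lit 1) (nat_lit 370) (nat_lit 330) (nat_lit 200)) (XT.nd (nat_lit 36504) (nat_lit 0) (nat_lit 9804) (XT.lf (nat_lit 76) (nat_lit 158648215) (nat_lit 0) (nat_lit 158648254) (nat_lit 76) (nat_lit 158648254)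 (nat_lit 87) (nat_lit 3) (nat_lit 86) (nat_lit 1) (nat_lit 87) (nat_lit 1) (nat_lit 371) (nat_lit 330) (nat_lit 199)) (XT.lf (nat_lit 380) (nat_lit 53426594086) (nat_lit 0) (nat_lit 47321249289) (nat_lit 380) (nat_lit 53426594086) (nat_lit 220) (nat_lit 1) (nat_lit 215) (nat_lit 0) (nat_lit 220) (nat_lit 0) (nat_lit 238) (nat_lit 331) (nat_lit 331)))))) (XT.nd (nat_lit 390) (nat_lit 532) (nat_lit 0) (XT.nd (nat_lit 156) (nat_lit 152) (nat_lit 0) (XT.nd (nat_lit 78) (nat_lit 0) (nat_lit 76) (XT.lf (nat_lit 380) (nat_lit 197618038098) (nat_lit 76) (nat_lit 45170283412) (nat_lit 0) (nat_lit 45170283412) (nat_lit 220) (nat_lit 1) (nat_lit 216) (nat_lit 1) (nat_lit 215) (nat_lit 0) (nat_lit 239) (nat_lit 331) (nat_lit 330)) (XT.lf (nat_lit 380) (nat_lit 87108897993) (nat_lit 0) (nat_lit 94782698140) (nat_lit 304) (nat_lit 87108897993) (nat_lit 221) (nat_lit 1) (nat_lit 216) (nat_lit 1) (nat_lit 220)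 (nat_lit 1) (nat_lit 240) (nat_lit 331) (nat_lit 329))) (XT.nd (nat_lit 78) (nat_lit 228) (nat_lit 0) (XT.lf (nat_lit 380) (nat_lit 149561454906) (nat_lit 76) (nat_lit 51195886364) (nat_lit 0) (nat_lit 51195886364) (nat_lit 221) (nat_lit 1) (nat_lit 217) (nat_lit 1) (nat_lit 216) (nat_lit 1) (nat_lit 241) (nat_lit 331) (nat_lit 328)) (XT.nd (nat_lit 78) (nat_lit 304) (nat_lit 0) (XT.lf (nat_lit 76) (nat_lit 60499592135) (nat_lit 0) (nat_lit 115201380234) (nat_lit 304) (nat_lit 60499592135) (nat_lit 218) (nat_lit 1) (nat_lit 217) (nat_lit 1) (nat_lit 221) (nat_lit 1) (nat_lit 242) (nat_lit 331) (nat_lit 327)) (XT.lf (nat_lit 380) (nat_lit 90926000824) (nat_lit 0) (nat_lit 65446791804) (nat_lit 304) (nat_lit 65446791804) (nat_lit 218) (nat_lit 1) (nat_lit 213) (nat_lit 1) (nat_lit 217) (nat_lit 1) (nat_lit 243) (nat_lit 331) (nat_lit 326))))) (XT.nd (nat_lit 234) (nat_lit 152) (nat_lit 0) (XT.nd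 (nat_lit 78) (nat_lit 380) (nat_lit 0) (XT.lf (nat_lit 76) (nat_lit 30222798479) (nat_lit 0) (nat_lit 148304029640) (nat_lit 380) (nat_lit 30222798479) (nat_lit 214) (nat_lit 1) (nat_lit 213) (nat_lit 1) (nat_lit 218) (nat_lit 1) (nat_lit 244) (nat_lit 331) (nat_lit 325)) (XT.nd (nat_lit 78) (nat_lit 228) (nat_lit 0) (XT.lf (nat_lit 228) (nat_lit 27199805688) (nat_lit 0) (nat_lit 84652683641) (nat_lit 152) (nat_lit 84652683641) (nat_lit 214) (nat_lit 1) (nat_lit 211) (nat_lit 1) (nat_lit 213) (nat_lit 1) (nat_lit 245) (nat_lit 331) (nat_lit 324)) (XT.lf (nat_lit 228) (nat_lit 182782351982) (nat_lit 0) (nat_lit 1434112368) (nat_lit 152) (nat_lit 1434112368) (nat_lit 211) (nat_lit 1) (nat_lit 208) (nat_lit 1) (nat_lit 210) (nat_lit 1) (nat_lit 246) (nat_lit 331) (nat_lit 323)))) (XT.nd (nat_lit 78) (nat_lit 152) (nat_lit 0) (XT.lf (nat_lit 76) (nat_lit 70226147934) (nat_lit 0) (nat_lit 34477300523)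 (nat_lit 228) (nat_lit 70226147934) (nat_lit 209) (nat_lit 1) (nat_lit 208) (nat_lit 1) (nat_lit 211) (nat_lit 1) (nat_lit 247) (nat_lit 331) (nat_lit 322)) (XT.nd (nat_lit 78) (nat_lit 0) (nat_lit 0) (XT.lf (nat_lit 228) (nat_lit 102076401400) (nat_lit 0) (nat_lit 31663096266) (nat_lit 152) (nat_lit 31663096266) (nat_lit 209) (nat_lit 1) (nat_lit 206) (nat_lit 1) (nat_lit 208) (nat_lit 1) (nat_lit 248) (nat_lit 331) (nat_lit 321)) (XT.lf (nat_lit 76) (nat_lit 31922638681) (nat_lit 0) (nat_lit 92638951689) (nat_lit 228) (nat_lit 31922638681) (nat_lit 207) (nat_lit 1) (nat_lit 206) (nat_lit 1) (nat_lit 209) (nat_lit 1) (nat_lit 249) (nat_lit 331) (nat_lit 320))))))) (XT.nd (nat_lit 858) (nat_lit 912) (nat_lit 0) (XT.nd (nat_lit 390) (nat_lit 456) (nat_lit 0) (XT.nd (nat_lit 156) (nat_lit 76) (nat_lit 0) (XT.nd (nat_lit 78) (nat_lit 228) (nat_lit 0) (XT.lf (nat_lit 152) (nat_lit 26389960239) (nat_lit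 0) (nat_lit 60894963060) (nat_lit 76) (nat_lit 60894963060) (nat_lit 207) (nat_lit 1) (nat_lit 205) (nat_lit 1) (nat_lit 206) (nat_lit 1) (nat_lit 250) (nat_lit 331) (nat_lit 319)) (XT.lf (nat_lit 228) (nat_lit 133601491379) (nat_lit 0) (nat_lit 3549260357) (nat_lit 152) (nat_lit 3549260357) (nat_lit 205) (nat_lit 1) (nat_lit 202) (nat_lit 1) (nat_lit 204) (nat_lit 1) (nat_lit 251) (nat_lit 331) (nat_lit 318))) (XT.nd (nat_lit 78) (nat_lit 76) (nat_lit 0) (XT.lf (nat_lit 76) (nat_lit 46757648553) (nat_lit 0) (nat_lit 39708120701) (nat_lit 228) (nat_lit 46757648553) (nat_lit 203) (nat_lit 1) (nat_lit 202) (nat_lit 1) (nat_lit 205) (nat_lit 1) (nat_lit 252) (nat_lit 331) (nat_lit 317)) (XT.nd (nat_lit 78) (nat_lit 0) (nat_lit 0) (XT.lf (nat_lit 152) (nat_lit 56852822292) (nat_lit 0) (nat_lit 34816892770) (nat_lit 76) (nat_lit 34816892770) (nat_lit 203) (nat_lit 1) (nat_lit 201) (nat_lit 1) (nat_lit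 202) (nat_lit 1) (nat_lit 253) (nat_lit 331) (nat_lit 316)) (XT.lf (nat_lit 0) (nat_lit 11132566079) (nat_lit 0) (nat_lit 98010256922) (nat_lit 152) (nat_lit 11132566079) (nat_lit 201) (nat_lit 3) (nat_lit 201) (nat_lit 1) (nat_lit 203) (nat_lit 1) (nat_lit 254) (nat_lit 331) (nat_lit 315))))) (XT.nd (nat_lit 234) (nat_lit 228) (nat_lit 0) (XT.nd (nat_lit 78) (nat_lit 76) (nat_lit 0) (XT.lf (nat_lit 76) (nat_lit 51521468863) (nat_lit 0) (nat_lit 11174115935) (nat_lit 152) (nat_lit 51521468863) (nat_lit 200) (nat_lit 1) (nat_lit 199) (nat_lit 1) (nat_lit 201) (nat_lit 1) (nat_lit 255) (nat_lit 331) (nat_lit 314)) (XT.nd (nat_lit 78) (nat_lit 0) (nat_lit 0) (XT.lf (nat_lit 152) (nat_lit 68822548166) (nat_lit 0) (nat_lit 19906671442) (nat_lit 76) (nat_lit 19906671442) (nat_lit 200) (nat_lit 1) (nat_lit 198) (nat_lit 1) (nat_lit 199) (nat_lit 1) (nat_lit 256) (nat_lit 331) (nat_lit 313)) (XT.lf (nat_lit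 0) (nat_lit 17894211739) (nat_lit 0) (nat_lit 67566813449) (nat_lit 152) (nat_lit 17894211739) (nat_lit 198) (nat_lit 3) (nat_lit 198) (nat_lit 1) (nat_lit 200) (nat_lit 1) (nat_lit 257) (nat_lit 331) (nat_lit 312)))) (XT.nd (nat_lit 78) (nat_lit 152) (nat_lit 0) (XT.lf (nat_lit 76) (nat_lit 3991878871) (nat_lit 0) (nat_lit 47185445575) (nat_lit 76) (nat_lit 47185445575) (nat_lit 198) (nat_lit 3) (nat_lit 197) (nat_lit 1) (nat_lit 198) (nat_lit 1) (nat_lit 258) (nat_lit 331) (nat_lit 311)) (XT.nd (nat_lit 78) (nat_lit 0) (nat_lit 0) (XT.lf (nat_lit 152) (nat_lit 70929308761) (nat_lit 0) (nat_lit 11381704006) (nat_lit 76) (nat_lit 11381704006) (nat_lit 197) (nat_lit 1) (nat_lit 195) (nat_lit 1) (nat_lit 196) (nat_lit 1) (nat_lit 259) (nat_lit 331) (nat_lit 310)) (XT.lf (nat_lit 0) (nat_lit 20256404902) (nat_lit 0) (nat_lit 48656876146) (nat_lit 152) (nat_lit 20256404902) (nat_lit 195) (nat_lit 3)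 (nat_lit 195) (nat_lit 1) (nat_lit 197) (nat_lit 1) (nat_lit 260) (nat_lit 331) (nat_lit 309)))))) (XT.nd (nat_lit 468) (nat_lit 456) (nat_lit 0) (XT.nd (nat_lit 234) (nat_lit 228) (nat_lit 0) (XT.nd (nat_lit 78) (nat_lit 152) (nat_lit 0) (XT.lf (nat_lit 76) (nat_lit 11852004087) (nat_lit 0) (nat_lit 36548066039) (nat_lit 76) (nat_lit 36548066039) (nat_lit 195) (nat_lit 3) (nat_lit 194) (nat_lit 1) (nat_lit 195) (nat_lit 1) (nat_lit 261) (nat_lit 331) (nat_lit 308)) (XT.nd (nat_lit 78) (nat_lit 0) (nat_lit 0) (XT.lf (nat_lit 152) (nat_lit 68014752472) (nat_lit 0) (nat_lit 6507526205) (nat_lit 76) (nat_lit 6507526205) (nat_lit 194) (nat_lit 1) (nat_lit 192) (nat_lit 1) (nat_lit 193) (nat_lit 1) (nat_lit 262) (nat_lit 331) (nat_lit 307)) (XT.lf (nat_lit 0) (nat_lit 20299344605) (nat_lit 0) (nat_lit 36537406216) (nat_lit 152) (nat_lit 20299344605) (nat_lit 192) (nat_lit 3) (nat_lit 192) (nat_lit 1)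 (nat_lit 194) (nat_lit 1) (nat_lit 263) (nat_lit 331) (nat_lit 306)))) (XT.nd (nat_lit 78) (nat_lit 152) (nat_lit 0) (XT.lf (nat_lit 76) (nat_lit 15097843010) (nat_lit 0) (nat_lit 29217896584) (nat_lit 76) (nat_lit 29217896584) (nat_lit 192) (nat_lit 3) (nat_lit 191) (nat_lit 1) (nat_lit 192) (nat_lit 1) (nat_lit 264) (nat_lit 331) (nat_lit 305)) (XT.nd (nat_lit 78) (nat_lit 0) (nat_lit 0) (XT.lf (nat_lit 152) (nat_lit 62766516327) (nat_lit 0) (nat_lit 3720699229) (nat_lit 76) (nat_lit 3720699229) (nat_lit 191) (nat_lit 1) (nat_lit 189) (nat_lit 1) (nat_lit 190) (nat_lit 1) (nat_lit 265) (nat_lit 331) (nat_lit 304)) (XT.lf (nat_lit 0) (nat_lit 19186806908) (nat_lit 0) (nat_lit 28470971336) (nat_lit 152) (nat_lit 19186806908) (nat_lit 189) (nat_lit 3) (nat_lit 189) (nat_lit 1) (nat_lit 191) (nat_lit 1) (nat_lit 266) (nat_lit 331) (nat_lit 303))))) (XT.nd (nat_lit 234) (nat_lit 228) (nat_lit 0) (XT.nd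 (nat_lit 78) (nat_lit 152) (nat_lit 0) (XT.lf (nat_lit 76) (nat_lit 15868259182) (nat_lit 0) (nat_lit 23941445641) (nat_lit 76) (nat_lit 23941445641) (nat_lit 189) (nat_lit 3) (nat_lit 188) (nat_lit 1) (nat_lit 189) (nat_lit 1) (nat_lit 267) (nat_lit 331) (nat_lit 302)) (XT.nd (nat_lit 78) (nat_lit 0) (nat_lit 0) (XT.lf (nat_lit 152) (nat_lit 56651186252) (nat_lit 0) (nat_lit 2127321860) (nat_lit 76) (nat_lit 2127321860) (nat_lit 188) (nat_lit 1) (nat_lit 186) (nat_lit 1) (nat_lit 187) (nat_lit 1) (nat_lit 268) (nat_lit 331) (nat_lit 301)) (XT.lf (nat_lit 0) (nat_lit 17561937163) (nat_lit 0) (nat_lit 22870188307) (nat_lit 152) (nat_lit 17561937163) (nat_lit 186) (nat_lit 3) (nat_lit 186) (nat_lit 1) (nat_lit 188) (nat_lit 1) (nat_lit 269) (nat_lit 331) (nat_lit 300)))) (XT.nd (nat_lit 78) (nat_lit 152) (nat_lit 0) (XT.lf (nat_lit 76) (nat_lit 15364918637) (nat_lit 0) (nat_lit 19980789197) (nat_lit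 76) (nat_lit 19980789197) (nat_lit 186) (nat_lit 3) (nat_lit 185) (nat_lit 1) (nat_lit 186) (nat_lit 1) (nat_lit 270) (nat_lit 331) (nat_lit 299)) (XT.nd (nat_lit 78) (nat_lit 0) (nat_lit 0) (XT.lf (nat_lit 152) (nat_lit 50446349022) (nat_lit 0) (nat_lit 1216303177) (nat_lit 76) (nat_lit 1216303177) (nat_lit 185) (nat_lit 1) (nat_lit 183) (nat_lit 1) (nat_lit 184) (nat_lit 1) (nat_lit 271) (nat_lit 331) (nat_lit 298)) (XT.lf (nat_lit 0) (nat_lit 15773110259) (nat_lit 0) (nat_lit 18808120079) (nat_lit 152) (nat_lit 15773110259) (nat_lit 183) (nat_lit 3) (nat_lit 183) (nat_lit 1) (nat_lit 185) (nat_lit 1) (nat_lit 272) (nat_lit 331) (nat_lit 297))))))))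
noncomputable def ec94 : XT := (XT.nd (nat_lit 1716) (nat_lit 1748) (nat_lit 0) (XT.nd (nat_lit 858) (nat_lit 760) (nat_lit 0) (XT.nd (nat_lit 390) (nat_lit 456) (nat_lit 0) (XT.nd (nat_lit 156) (nat_lit 228) (nat_lit 0) (XT.nd (nat_lit 78) (nat_lit 152) (nat_lit 0) (XT.lf (nat_lit 76) (nat_lit 14256411619) (nat_lit 0) (nat_lit 16895550593) (nat_lit 76) (nat_lit 16895550593) (nat_lit 183) (nat_lit 3) (nat_lit 182) (nat_lit 1) (nat_lit 183) (nat_lit 1) (nat_lit 273) (nat_lit 331) (nat_lit 296)) (XT.lf (nat_lit 152) (nat_lit 44543602404) (nat_lit 0) (nat_lit 695425289) (nat_lit 76) (nat_lit 695425289) (nat_lit 182) (nat_lit 1) (nat_lit 180) (nat_lit 1) (nat_lit 181) (nat_lit 1) (nat_lit 274) (nat_lit 331) (nat_lit 295))) (XT.nd (nat_lit 78) (nat_lit 228) (nat_lit 0) (XT.lf (nat_lit 0) (nat_lit 14002688451) (nat_lit 0) (nat_lit 15737965166) (nat_lit 152) (nat_lit 14002688451) (nat_lit 180) (nat_lit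 3) (nat_lit 180) (nat_lit 1) (nat_lit 182) (nat_lit 1) (nat_lit 275) (nat_lit 331) (nat_lit 294)) (XT.nd (nat_lit 78) (nat_lit 152) (nat_lit 0) (XT.lf (nat_lit 76) (nat_lit 12908949196) (nat_lit 0) (nat_lit 14417885470) (nat_lit 76) (nat_lit 14417885470) (nat_lit 180) (nat_lit 3) (nat_lit 179) (nat_lit 1) (nat_lit 180) (nat_lit 1) (nat_lit 276) (nat_lit 331) (nat_lit 293)) (XT.lf (nat_lit 152) (nat_lit 39120765438) (nat_lit 0) (nat_lit 397611666) (nat_lit 76) (nat_lit 397611666) (nat_lit 179) (nat_lit 1) (nat_lit 177) (nat_lit 1) (nat_lit 178) (nat_lit 1) (nat_lit 277) (nat_lit 331) (nat_lit 292))))) (XT.nd (nat_lit 234) (nat_lit 228) (nat_lit 0) (XT.nd (nat_lit 78) (nat_lit 228) (nat_lit 0) (XT.lf (nat_lit 0) (nat_lit 12340309932) (nat_lit 0) (nat_lit 13332460026) (nat_lit 152) (nat_lit 12340309932) (nat_lit 177) (nat_lit 3) (nat_lit 177) (nat_lit 1) (nat_lit 179) (nat_lit 1) (nat_lit 278) (nat_lit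 331) (nat_lit 291)) (XT.nd (nat_lit 78) (nat_lit 152) (nat_lit 0) (XT.lf (nat_lit 76) (nat_lit 11517950628) (nat_lit 0) (nat_lit 12380689840) (nat_lit 76) (nat_lit 12380689840) (nat_lit 177) (nat_lit 3) (nat_lit 176) (nat_lit 1) (nat_lit 177) (nat_lit 1) (nat_lit 279) (nat_lit 331) (nat_lit 290)) (XT.lf (nat_lit 152) (nat_lit 34239438691) (nat_lit 0) (nat_lit 227335760) (nat_lit 76) (nat_lit 227335760) (nat_lit 176) (nat_lit 1) (nat_lit 174) (nat_lit 1) (nat_lit 175) (nat_lit 1) (nat_lit 280) (nat_lit 331) (nat_lit 289)))) (XT.nd (nat_lit 78) (nat_lit 228) (nat_lit 0) (XT.lf (nat_lit 0) (nat_lit 10824505614) (nat_lit 0) (nat_lit 11391770650) (nat_lit 152) (nat_lit 10824505614) (nat_lit 174) (nat_lit 3) (nat_lit 174) (nat_lit 1) (nat_lit 176) (nat_lit 1) (nat_lit 281) (nat_lit 331) (nat_lit 288)) (XT.nd (nat_lit 78) (nat_lit 152) (nat_lit 0) (XT.lf (nat_lit 76) (nat_lit 10183005679) (nat_lit 0)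 (nat_lit 10676279623) (nat_lit 76) (nat_lit 10676279623) (nat_lit 174) (nat_lit 3) (nat_lit 173) (nat_lit 1) (nat_lit 174) (nat_lit 1) (nat_lit 282) (nat_lit 331) (nat_lit 287)) (XT.lf (nat_lit 152) (nat_lit 29900000704) (nat_lit 0) (nat_lit 129979959) (nat_lit 76) (nat_lit 129979959) (nat_lit 173) (nat_lit 1) (nat_lit 171) (nat_lit 1) (nat_lit 172) (nat_lit 1) (nat_lit 283) (nat_lit 331) (nat_lit 286)))))) (XT.nd (nat_lit 390) (nat_lit 456) (nat_lit 0) (XT.nd (nat_lit 156) (nat_lit 228) (nat_lit 0) (XT.nd (nat_lit 78) (nat_lit 76) (nat_lit 0) (XT.lf (nat_lit 0) (nat_lit 9466244790) (nat_lit 0) (nat_lit 9790580415) (nat_lit 152) (nat_lit 9466244790) (nat_lit 171) (nat_lit 3) (nat_lit 171) (nat_lit 1) (nat_lit 173) (nat_lit 1) (nat_lit 284) (nat_lit 331) (nat_lit 285)) (XT.lf (nat_lit 76) (nat_lit 8950497003) (nat_lit 0) (nat_lit 9232527981) (nat_lit 76) (nat_lit 9232527981) (nat_lit 171) (nat_lit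 3) (nat_lit 170) (nat_lit 1) (nat_lit 171) (nat_lit 1) (nat_lit 285) (nat_lit 331) (nat_lit 284))) (XT.nd (nat_lit 78) (nat_lit 76) (nat_lit 0) (XT.lf (nat_lit 152) (nat_lit 26072370711) (nat_lit 0) (nat_lit 74316463) (nat_lit 76) (nat_lit 74316463) (nat_lit 170) (nat_lit 1) (nat_lit 168) (nat_lit 1) (nat_lit 169) (nat_lit 1) (nat_lit 286) (nat_lit 331) (nat_lit 283)) (XT.nd (nat_lit 78) (nat_lit 76) (nat_lit 0) (XT.lf (nat_lit 0) (nat_lit 8262181028) (nat_lit 0) (nat_lit 8447620975) (nat_lit 152) (nat_lit 8262181028) (nat_lit 168) (nat_lit 3) (nat_lit 168) (nat_lit 1) (nat_lit 170) (nat_lit 1) (nat_lit 287) (nat_lit 331) (nat_lit 282)) (XT.lf (nat_lit 76) (nat_lit 7837763064) (nat_lit 0) (nat_lit 7999015191) (nat_lit 76) (nat_lit 7999015191) (nat_lit 168) (nat_lit 3) (nat_lit 167) (nat_lit 1) (nat_lit 168) (nat_lit 1) (nat_lit 288) (nat_lit 331) (nat_lit 281))))) (XT.nd (nat_lit 234) (nat_lit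 228) (nat_lit 0) (XT.nd (nat_lit 78) (nat_lit 76) (nat_lit 0) (XT.lf (nat_lit 152) (nat_lit 22713004544) (nat_lit 0) (nat_lit 42490679) (nat_lit 76) (nat_lit 42490679) (nat_lit 167) (nat_lit 1) (nat_lit 165) (nat_lit 1) (nat_lit 166) (nat_lit 1) (nat_lit 289) (nat_lit 331) (nat_lit 280)) (XT.nd (nat_lit 78) (nat_lit 76) (nat_lit 0) (XT.lf (nat_lit 0) (nat_lit 7202037380) (nat_lit 0) (nat_lit 7308063272) (nat_lit 152) (nat_lit 7202037380) (nat_lit 165) (nat_lit 3) (nat_lit 165) (nat_lit 1) (nat_lit 167) (nat_lit 1) (nat_lit 290) (nat_lit 331) (nat_lit 279)) (XT.lf (nat_lit 76) (nat_lit 6846733733) (nat_lit 0) (nat_lit 6938930161) (nat_lit 76) (nat_lit 6938930161) (nat_lit 165) (nat_lit 3) (nat_lit 164) (nat_lit 1) (nat_lit 165) (nat_lit 1) (nat_lit 291) (nat_lit 331) (nat_lit 278)))) (XT.nd (nat_lit 78) (nat_lit 76) (nat_lit 0) (XT.lf (nat_lit 152) (nat_lit 19774096648) (nat_lit 0) (nat_lit 24294183)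 (nat_lit 76) (nat_lit 24294183) (nat_lit 164) (nat_lit 1) (nat_lit 162) (nat_lit 1) (nat_lit 163) (nat_lit 1) (nat_lit 292) (nat_lit 331) (nat_lit 277)) (XT.nd (nat_lit 78) (nat_lit 76) (nat_lit 0) (XT.lf (nat_lit 0) (nat_lit 6272665257) (nat_lit 0) (nat_lit 6333285905) (nat_lit 152) (nat_lit 6272665257) (nat_lit 162) (nat_lit 3) (nat_lit 162) (nat_lit 1) (nat_lit 164) (nat_lit 1) (nat_lit 293) (nat_lit 331) (nat_lit 276)) (XT.lf (nat_lit 76) (nat_lit 5971570289) (nat_lit 0) (nat_lit 6024283896) (nat_lit 76) (nat_lit 6024283896) (nat_lit 162) (nat_lit 3) (nat_lit 161) (nat_lit 1) (nat_lit 162) (nat_lit 1) (nat_lit 294) (nat_lit 331) (nat_lit 275))))))) (XT.nd (nat_lit 858) (nat_lit 912) (nat_lit 0) (XT.nd (nat_lit 390) (nat_lit 456) (nat_lit 0) (XT.nd (nat_lit 156) (nat_lit 228) (nat_lit 0) (XT.nd (nat_lit 78) (nat_lit 0) (nat_lit 0) (XT.lf (nat_lit 152) (nat_lit 17208393139) (nat_lit 0) (nat_lit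 13890278) (nat_lit 76) (nat_lit 13890278) (nat_lit 161) (nat_lit 1) (nat_lit 159) (nat_lit 1) (nat_lit 160) (nat_lit 1) (nat_lit 295) (nat_lit 331) (nat_lit 274)) (XT.lf (nat_lit 0) (nat_lit 5460222815) (nat_lit 0) (nat_lit 5494882867) (nat_lit 152) (nat_lit 5460222815) (nat_lit 159) (nat_lit 3) (nat_lit 159) (nat_lit 1) (nat_lit 161) (nat_lit 1) (nat_lit 296) (nat_lit 331) (nat_lit 273))) (XT.nd (nat_lit 78) (nat_lit 152) (nat_lit 0) (XT.lf (nat_lit 76) (nat_lit 5202897785) (nat_lit 0) (nat_lit 5233036961) (nat_lit 76) (nat_lit 5233036961) (nat_lit 159) (nat_lit 3) (nat_lit 158) (nat_lit 1) (nat_lit 159) (nat_lit 1) (nat_lit 297) (nat_lit 331) (nat_lit 272)) (XT.nd (nat_lit 78) (nat_lit 0) (nat_lit 0) (XT.lf (nat_lit 152) (nat_lit 14971553935) (nat_lit 0) (nat_lit 7941811) (nat_lit 76) (nat_lit 7941811) (nat_lit 158) (nat_lit 1) (nat_lit 156) (nat_lit 1) (nat_lit 157) (nat_lit 1) (nat_lit 298)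 (nat_lit 331) (nat_lit 271)) (XT.lf (nat_lit 0) (nat_lit 4751296721) (nat_lit 0) (nat_lit 4771113718) (nat_lit 152) (nat_lit 4751296721) (nat_lit 156) (nat_lit 3) (nat_lit 156) (nat_lit 1) (nat_lit 158) (nat_lit 1) (nat_lit 299) (nat_lit 331) (nat_lit 270))))) (XT.nd (nat_lit 234) (nat_lit 228) (nat_lit 0) (XT.nd (nat_lit 78) (nat_lit 152) (nat_lit 0) (XT.lf (nat_lit 76) (nat_lit 4530106818) (nat_lit 0) (nat_lit 4547338990) (nat_lit 76) (nat_lit 4547338990) (nat_lit 156) (nat_lit 3) (nat_lit 155) (nat_lit 1) (nat_lit 156) (nat_lit 1) (nat_lit 300) (nat_lit 331) (nat_lit 269)) (XT.nd (nat_lit 78) (nat_lit 0) (nat_lit 0) (XT.lf (nat_lit 152) (nat_lit 13023164385) (nat_lit 0) (nat_lit 4540756) (nat_lit 76) (nat_lit 4540756) (nat_lit 155) (nat_lit 1) (nat_lit 153) (nat_lit 1) (nat_lit 154) (nat_lit 1) (nat_lit 301) (nat_lit 331) (nat_lit 268)) (XT.lf (nat_lit 0) (nat_lit 4133435934) (nat_lit 0) (nat_lit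 4144766367) (nat_lit 152) (nat_lit 4133435934) (nat_lit 153) (nat_lit 3) (nat_lit 153) (nat_lit 1) (nat_lit 155) (nat_lit 1) (nat_lit 302) (nat_lit 331) (nat_lit 267)))) (XT.nd (nat_lit 78) (nat_lit 152) (nat_lit 0) (XT.lf (nat_lit 76) (nat_lit 3942566861) (nat_lit 0) (nat_lit 3952419411) (nat_lit 76) (nat_lit 3952419411) (nat_lit 153) (nat_lit 3) (nat_lit 152) (nat_lit 1) (nat_lit 153) (nat_lit 1) (nat_lit 303) (nat_lit 331) (nat_lit 266)) (XT.nd (nat_lit 78) (nat_lit 0) (nat_lit 0) (XT.lf (nat_lit 152) (nat_lit 11327018967) (nat_lit 0) (nat_lit 2596192) (nat_lit 76) (nat_lit 2596192) (nat_lit 152) (nat_lit 1) (nat_lit 150) (nat_lit 1) (nat_lit 151) (nat_lit 1) (nat_lit 304) (nat_lit 331) (nat_lit 265)) (XT.lf (nat_lit 0) (nat_lit 3595363335) (nat_lit 0) (nat_lit 3601841547) (nat_lit 152) (nat_lit 3595363335) (nat_lit 150) (nat_lit 3) (nat_lit 150) (nat_lit 1) (nat_lit 152) (nat_lit 1) (nat_lit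 305) (nat_lit 331) (nat_lit 264)))))) (XT.nd (nat_lit 468) (nat_lit 456) (nat_lit 0) (XT.nd (nat_lit 234) (nat_lit 228) (nat_lit 0) (XT.nd (nat_lit 78) (nat_lit 152) (nat_lit 0) (XT.lf (nat_lit 76) (nat_lit 3430230690) (nat_lit 0) (nat_lit 3435863918) (nat_lit 76) (nat_lit 3435863918) (nat_lit 150) (nat_lit 3) (nat_lit 149) (nat_lit 1) (nat_lit 150) (nat_lit 1) (nat_lit 306) (nat_lit 331) (nat_lit 263)) (XT.nd (nat_lit 78) (nat_lit 0) (nat_lit 0) (XT.lf (nat_lit 152) (nat_lit 9851027216) (nat_lit 0) (nat_lit 1484381) (nat_lit 76) (nat_lit 1484381) (nat_lit 149) (nat_lit 1) (nat_lit 147) (nat_lit 1) (nat_lit 148) (nat_lit 1) (nat_lit 307) (nat_lit 331) (nat_lit 262)) (XT.lf (nat_lit 0) (nat_lit 3127015373) (nat_lit 0) (nat_lit 3130719311) (nat_lit 152) (nat_lit 3127015373) (nat_lit 147) (nat_lit 3) (nat_lit 147) (nat_lit 1) (nat_lit 149) (nat_lit 1) (nat_lit 308) (nat_lit 331) (nat_lit 261)))) (XT.nd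 (nat_lit 78) (nat_lit 152) (nat_lit 0) (XT.lf (nat_lit 76) (nat_lit 2983902305) (nat_lit 0) (nat_lit 2987123122) (nat_lit 76) (nat_lit 2987123122) (nat_lit 147) (nat_lit 3) (nat_lit 146) (nat_lit 1) (nat_lit 147) (nat_lit 1) (nat_lit 309) (nat_lit 331) (nat_lit 260)) (XT.nd (nat_lit 78) (nat_lit 0) (nat_lit 0) (XT.lf (nat_lit 152) (nat_lit 8566937095) (nat_lit 0) (nat_lit 848699) (nat_lit 76) (nat_lit 848699) (nat_lit 146) (nat_lit 1) (nat_lit 144) (nat_lit 1) (nat_lit 145) (nat_lit 1) (nat_lit 310) (nat_lit 331) (nat_lit 259)) (XT.lf (nat_lit 0) (nat_lit 2719493986) (nat_lit 0) (nat_lit 2721611724) (nat_lit 152) (nat_lit 2719493986) (nat_lit 144) (nat_lit 3) (nat_lit 144) (nat_lit 1) (nat_lit 146) (nat_lit 1) (nat_lit 311) (nat_lit 331) (nat_lit 258))))) (XT.nd (nat_lit 234) (nat_lit 228) (nat_lit 0) (XT.nd (nat_lit 78) (nat_lit 152) (nat_lit 0) (XT.lf (nat_lit 76) (nat_lit 2595322589) (nat_lit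 0) (nat_lit 2597164101) (nat_lit 76) (nat_lit 2597164101) (nat_lit 144) (nat_lit 3) (nat_lit 143) (nat_lit 1) (nat_lit 144) (nat_lit 1) (nat_lit 312) (nat_lit 331) (nat_lit 257)) (XT.nd (nat_lit 78) (nat_lit 0) (nat_lit 0) (XT.lf (nat_lit 152) (nat_lit 7449983055) (nat_lit 0) (nat_lit 485246) (nat_lit 76) (nat_lit 485246) (nat_lit 143) (nat_lit 1) (nat_lit 141) (nat_lit 1) (nat_lit 142) (nat_lit 1) (nat_lit 313) (nat_lit 331) (nat_lit 256)) (XT.lf (nat_lit 0) (nat_lit 2364977597) (nat_lit 0) (nat_lit 2366188421) (nat_lit 152) (nat_lit 2364977597) (nat_lit 141) (nat_lit 3) (nat_lit 141) (nat_lit 1) (nat_lit 143) (nat_lit 1) (nat_lit 314) (nat_lit 331) (nat_lit 255)))) (XT.nd (nat_lit 78) (nat_lit 152) (nat_lit 0) (XT.lf (nat_lit 76) (nat_lit 2257159558) (nat_lit 0) (nat_lit 2258212448) (nat_lit 76) (nat_lit 2258212448) (nat_lit 141) (nat_lit 3) (nat_lit 140) (nat_lit 1) (nat_lit 141) (nat_lit 1)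 (nat_lit 315) (nat_lit 331) (nat_lit 254)) (XT.nd (nat_lit 78) (nat_lit 0) (nat_lit 0) (XT.lf (nat_lit 152) (nat_lit 6478516310) (nat_lit 0) (nat_lit 277441) (nat_lit 76) (nat_lit 277441) (nat_lit 140) (nat_lit 1) (nat_lit 138) (nat_lit 1) (nat_lit 139) (nat_lit 1) (nat_lit 316) (nat_lit 331) (nat_lit 253)) (XT.lf (nat_lit 0) (nat_lit 2056616734) (nat_lit 0) (nat_lit 2057309026) (nat_lit 152) (nat_lit 2056616734) (nat_lit 138) (nat_lit 3) (nat_lit 138) (nat_lit 1) (nat_lit 140) (nat_lit 1) (nat_lit 317) (nat_lit 331) (nat_lit 252))))))))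
noncomputable def ec95 : XT := (XT.nd (nat_lit 1716) (nat_lit 1748) (nat_lit 0) (XT.nd (nat_lit 858) (nat_lit 760) (nat_lit 0) (XT.nd (nat_lit 390) (nat_lit 456) (nat_lit 0) (XT.nd (nat_lit 156) (nat_lit 228) (nat_lit 0) (XT.nd (nat_lit 78) (nat_lit 152) (nat_lit 0) (XT.lf (nat_lit 76) (nat_lit 1962951733) (nat_lit 0) (nat_lit 1963553726) (nat_lit 76) (nat_lit 1963553726) (nat_lit 138) (nat_lit 3) (nat_lit 137) (nat_lit 1) (nat_lit 138) (nat_lit 1) (nat_lit 318) (nat_lit 331) (nat_lit 251)) (XT.lf (nat_lit 152) (nat_lit 5633646917) (nat_lit 0) (nat_lit 158628) (nat_lit 76) (nat_lit 158628) (nat_lit 137) (nat_lit 1) (nat_lit 135) (nat_lit 1) (nat_lit 136) (nat_lit 1) (nat_lit 319) (nat_lit 331) (nat_lit 250))) (XT.nd (nat_lit 78) (nat_lit 228) (nat_lit 0) (XT.lf (nat_lit 0) (nat_lit 1788427829) (nat_lit 0) (nat_lit 1788823649) (nat_lit 152) (nat_lit 1788427829) (nat_lit 135) (nat_lit 3) (nat_lit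 135) (nat_lit 1) (nat_lit 137) (nat_lit 1) (nat_lit 320) (nat_lit 331) (nat_lit 249)) (XT.nd (nat_lit 78) (nat_lit 152) (nat_lit 0) (XT.lf (nat_lit 76) (nat_lit 1707031354) (nat_lit 0) (nat_lit 1707375546) (nat_lit 76) (nat_lit 1707375546) (nat_lit 135) (nat_lit 3) (nat_lit 134) (nat_lit 1) (nat_lit 135) (nat_lit 1) (nat_lit 321) (nat_lit 331) (nat_lit 248)) (XT.lf (nat_lit 152) (nat_lit 4898911727) (nat_lit 0) (nat_lit 90696) (nat_lit 76) (nat_lit 90696) (nat_lit 134) (nat_lit 1) (nat_lit 132) (nat_lit 1) (nat_lit 133) (nat_lit 1) (nat_lit 322) (nat_lit 331) (nat_lit 247))))) (XT.nd (nat_lit 234) (nat_lit 228) (nat_lit 0) (XT.nd (nat_lit 78) (nat_lit 228) (nat_lit 0) (XT.lf (nat_lit 0) (nat_lit 1555192056) (nat_lit 0) (nat_lit 1555418368) (nat_lit 152) (nat_lit 1555192056) (nat_lit 132) (nat_lit 3) (nat_lit 132) (nat_lit 1) (nat_lit 134) (nat_lit 1) (nat_lit 323) (nat_lit 331) (nat_lit 246)) (XT.nd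 (nat_lit 78) (nat_lit 152) (nat_lit 0) (XT.lf (nat_lit 76) (nat_lit 1484441874) (nat_lit 0) (nat_lit 1484638667) (nat_lit 76) (nat_lit 1484638667) (nat_lit 132) (nat_lit 3) (nat_lit 131) (nat_lit 1) (nat_lit 132) (nat_lit 1) (nat_lit 324) (nat_lit 331) (nat_lit 245)) (XT.lf (nat_lit 152) (nat_lit 4259973738) (nat_lit 0) (nat_lit 51855) (nat_lit 76) (nat_lit 51855) (nat_lit 131) (nat_lit 1) (nat_lit 129) (nat_lit 1) (nat_lit 130) (nat_lit 1) (nat_lit 325) (nat_lit 331) (nat_lit 244)))) (XT.nd (nat_lit 78) (nat_lit 228) (nat_lit 0) (XT.lf (nat_lit 0) (nat_lit 1352362314) (nat_lit 0) (nat_lit 1352491709) (nat_lit 152) (nat_lit 1352362314) (nat_lit 129) (nat_lit 3) (nat_lit 129) (nat_lit 1) (nat_lit 131) (nat_lit 1) (nat_lit 326) (nat_lit 331) (nat_lit 243)) (XT.nd (nat_lit 78) (nat_lit 152) (nat_lit 0) (XT.lf (nat_lit 76) (nat_lit 1290857204) (nat_lit 0) (nat_lit 1290969721) (nat_lit 76) (nat_lit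 1290969721) (nat_lit 129) (nat_lit 3) (nat_lit 128) (nat_lit 1) (nat_lit 129) (nat_lit 1) (nat_lit 327) (nat_lit 331) (nat_lit 242)) (XT.lf (nat_lit 152) (nat_lit 3704353862) (nat_lit 0) (nat_lit 29648) (nat_lit 76) (nat_lit 29648) (nat_lit 128) (nat_lit 1) (nat_lit 126) (nat_lit 1) (nat_lit 127) (nat_lit 1) (nat_lit 328) (nat_lit 331) (nat_lit 241)))))) (XT.nd (nat_lit 390) (nat_lit 456) (nat_lit 0) (XT.nd (nat_lit 156) (nat_lit 228) (nat_lit 0) (XT.nd (nat_lit 78) (nat_lit 76) (nat_lit 0) (XT.lf (nat_lit 0) (nat_lit 1175979463) (nat_lit 0) (nat_lit 1176053445) (nat_lit 152) (nat_lit 1175979463) (nat_lit 126) (nat_lit 3) (nat_lit 126) (nat_lit 1) (nat_lit 128) (nat_lit 1) (nat_lit 329) (nat_lit 331) (nat_lit 240)) (XT.lf (nat_lit 76) (nat_lit 1122506357) (nat_lit 0) (nat_lit 1122570689) (nat_lit 76) (nat_lit 1122570689) (nat_lit 126) (nat_lit 3) (nat_lit 125) (nat_lit 1) (nat_lit 126) (nat_lit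 1) (nat_lit 330) (nat_lit 331) (nat_lit 239))) (XT.nd (nat_lit 78) (nat_lit 76) (nat_lit 0) (XT.lf (nat_lit 152) (nat_lit 3221193779) (nat_lit 0) (nat_lit 16951) (nat_lit 76) (nat_lit 16951) (nat_lit 125) (nat_lit 1) (nat_lit 123) (nat_lit 1) (nat_lit 124) (nat_lit 1) (nat_lit 331) (nat_lit 331) (nat_lit 238)) (XT.nd (nat_lit 78) (nat_lit 76) (nat_lit 0) (XT.lf (nat_lit 0) (nat_lit 1022597832) (nat_lit 0) (nat_lit 1022640131) (nat_lit 152) (nat_lit 1022597832) (nat_lit 123) (nat_lit 3) (nat_lit 123) (nat_lit 1) (nat_lit 125) (nat_lit 1) (nat_lit 332) (nat_lit 331) (nat_lit 237)) (XT.lf (nat_lit 76) (nat_lit 976104966) (nat_lit 0) (nat_lit 976141748) (nat_lit 76) (nat_lit 976141748) (nat_lit 123) (nat_lit 3) (nat_lit 122) (nat_lit 1) (nat_lit 123) (nat_lit 1) (nat_lit 333) (nat_lit 331) (nat_lit 236))))) (XT.nd (nat_lit 234) (nat_lit 228) (nat_lit 0) (XT.nd (nat_lit 78) (nat_lit 76) (nat_lit 0)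 (XT.lf (nat_lit 152) (nat_lit 2801047507) (nat_lit 0) (nat_lit 9692) (nat_lit 76) (nat_lit 9692) (nat_lit 122) (nat_lit 1) (nat_lit 120) (nat_lit 1) (nat_lit 121) (nat_lit 1) (nat_lit 334) (nat_lit 331) (nat_lit 235)) (XT.nd (nat_lit 78) (nat_lit 76) (nat_lit 0) (XT.lf (nat_lit 0) (nat_lit 889219505) (nat_lit 0) (nat_lit 889243690) (nat_lit 152) (nat_lit 889219505) (nat_lit 120) (nat_lit 3) (nat_lit 120) (nat_lit 1) (nat_lit 122) (nat_lit 1) (nat_lit 335) (nat_lit 331) (nat_lit 234)) (XT.lf (nat_lit 76) (nat_lit 848794064) (nat_lit 0) (nat_lit 848815094) (nat_lit 76) (nat_lit 848815094) (nat_lit 120) (nat_lit 3) (nat_lit 119) (nat_lit 1) (nat_lit 120) (nat_lit 1) (nat_lit 336) (nat_lit 331) (nat_lit 233)))) (XT.nd (nat_lit 78) (nat_lit 76) (nat_lit 0) (XT.lf (nat_lit 152) (nat_lit 2435698881) (nat_lit 0) (nat_lit 5541) (nat_lit 76) (nat_lit 5541) (nat_lit 119) (nat_lit 1) (nat_lit 117) (nat_lit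 1) (nat_lit 118) (nat_lit 1) (nat_lit 337) (nat_lit 331) (nat_lit 232)) (XT.nd (nat_lit 78) (nat_lit 76) (nat_lit 0) (XT.lf (nat_lit 0) (nat_lit 773236639) (nat_lit 0) (nat_lit 773250467) (nat_lit 152) (nat_lit 773236639) (nat_lit 117) (nat_lit 3) (nat_lit 117) (nat_lit 1) (nat_lit 119) (nat_lit 1) (nat_lit 338) (nat_lit 331) (nat_lit 231)) (XT.lf (nat_lit 76) (nat_lit 738085875) (nat_lit 0) (nat_lit 738097899) (nat_lit 76) (nat_lit 738097899) (nat_lit 117) (nat_lit 3) (nat_lit 116) (nat_lit 1) (nat_lit 117) (nat_lit 1) (nat_lit 339) (nat_lit 331) (nat_lit 230))))))) (XT.nd (nat_lit 858) (nat_lit 912) (nat_lit 0) (XT.nd (nat_lit 390) (nat_lit 456) (nat_lit 0) (XT.nd (nat_lit 156) (nat_lit 228) (nat_lit 0) (XT.nd (nat_lit 78) (nat_lit 0) (nat_lit 0) (XT.lf (nat_lit 152) (nat_lit 2118002112) (nat_lit 0) (nat_lit 3168) (nat_lit 76) (nat_lit 3168) (nat_lit 116) (nat_lit 1) (nat_lit 114) (nat_lit 1)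 (nat_lit 115) (nat_lit 1) (nat_lit 340) (nat_lit 331) (nat_lit 229)) (XT.lf (nat_lit 0) (nat_lit 672380993) (nat_lit 0) (nat_lit 672388899) (nat_lit 152) (nat_lit 672380993) (nat_lit 114) (nat_lit 3) (nat_lit 114) (nat_lit 1) (nat_lit 116) (nat_lit 1) (nat_lit 341) (nat_lit 331) (nat_lit 228))) (XT.nd (nat_lit 78) (nat_lit 152) (nat_lit 0) (XT.lf (nat_lit 76) (nat_lit 641816137) (nat_lit 0) (nat_lit 641823012) (nat_lit 76) (nat_lit 641823012) (nat_lit 114) (nat_lit 3) (nat_lit 113) (nat_lit 1) (nat_lit 114) (nat_lit 1) (nat_lit 342) (nat_lit 331) (nat_lit 227)) (XT.nd (nat_lit 78) (nat_lit 0) (nat_lit 0) (XT.lf (nat_lit 152) (nat_lit 1841742731) (nat_lit 0) (nat_lit 1811) (nat_lit 76) (nat_lit 1811) (nat_lit 113) (nat_lit 1) (nat_lit 111) (nat_lit 1) (nat_lit 112) (nat_lit 1) (nat_lit 343) (nat_lit 331) (nat_lit 226)) (XT.lf (nat_lit 0) (nat_lit 584679872) (nat_lit 0) (nat_lit 584684392) (nat_lit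 152) (nat_lit 584679872) (nat_lit 111) (nat_lit 3) (nat_lit 111) (nat_lit 1) (nat_lit 113) (nat_lit 1) (nat_lit 344) (nat_lit 331) (nat_lit 225))))) (XT.nd (nat_lit 234) (nat_lit 228) (nat_lit 0) (XT.nd (nat_lit 78) (nat_lit 152) (nat_lit 0) (XT.lf (nat_lit 76) (nat_lit 558102323) (nat_lit 0) (nat_lit 558106254) (nat_lit 76) (nat_lit 558106254) (nat_lit 111) (nat_lit 3) (nat_lit 110) (nat_lit 1) (nat_lit 111) (nat_lit 1) (nat_lit 345) (nat_lit 331) (nat_lit 224)) (XT.nd (nat_lit 78) (nat_lit 0) (nat_lit 0) (XT.lf (nat_lit 152) (nat_lit 1601516427) (nat_lit 0) (nat_lit 1035) (nat_lit 76) (nat_lit 1035) (nat_lit 110) (nat_lit 1) (nat_lit 108) (nat_lit 1) (nat_lit 109) (nat_lit 1) (nat_lit 346) (nat_lit 331) (nat_lit 223)) (XT.lf (nat_lit 0) (nat_lit 508417707) (nat_lit 0) (nat_lit 508420292) (nat_lit 152) (nat_lit 508417707) (nat_lit 108) (nat_lit 3) (nat_lit 108) (nat_lit 1) (nat_lit 110) (nat_lit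 1) (nat_lit 347) (nat_lit 331) (nat_lit 222)))) (XT.nd (nat_lit 78) (nat_lit 152) (nat_lit 0) (XT.lf (nat_lit 76) (nat_lit 485307130) (nat_lit 0) (nat_lit 485309378) (nat_lit 76) (nat_lit 485309378) (nat_lit 108) (nat_lit 3) (nat_lit 107) (nat_lit 1) (nat_lit 108) (nat_lit 1) (nat_lit 348) (nat_lit 331) (nat_lit 221)) (XT.nd (nat_lit 78) (nat_lit 0) (nat_lit 0) (XT.lf (nat_lit 152) (nat_lit 1392623557) (nat_lit 0) (nat_lit 592) (nat_lit 76) (nat_lit 592) (nat_lit 107) (nat_lit 1) (nat_lit 105) (nat_lit 1) (nat_lit 106) (nat_lit 1) (nat_lit 349) (nat_lit 331) (nat_lit 220)) (XT.lf (nat_lit 0) (nat_lit 442102598) (nat_lit 0) (nat_lit 442104076) (nat_lit 152) (nat_lit 442102598) (nat_lit 105) (nat_lit 3) (nat_lit 105) (nat_lit 1) (nat_lit 107) (nat_lit 1) (nat_lit 350) (nat_lit 331) (nat_lit 219)))))) (XT.nd (nat_lit 468) (nat_lit 456) (nat_lit 0) (XT.nd (nat_lit 234) (nat_lit 228) (nat_lit 0) (XT.nd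 (nat_lit 78) (nat_lit 152) (nat_lit 0) (XT.lf (nat_lit 76) (nat_lit 422006636) (nat_lit 0) (nat_lit 422007921) (nat_lit 76) (nat_lit 422007921) (nat_lit 105) (nat_lit 3) (nat_lit 104) (nat_lit 1) (nat_lit 105) (nat_lit 1) (nat_lit 351) (nat_lit 331) (nat_lit 218)) (XT.nd (nat_lit 78) (nat_lit 0) (nat_lit 0) (XT.lf (nat_lit 152) (nat_lit 1210977335) (nat_lit 0) (nat_lit 338) (nat_lit 76) (nat_lit 338) (nat_lit 104) (nat_lit 1) (nat_lit 102) (nat_lit 1) (nat_lit 103) (nat_lit 1) (nat_lit 352) (nat_lit 331) (nat_lit 217)) (XT.lf (nat_lit 0) (nat_lit 384437182) (nat_lit 0) (nat_lit 384438027) (nat_lit 152) (nat_lit 384437182) (nat_lit 102) (nat_lit 3) (nat_lit 102) (nat_lit 1) (nat_lit 104) (nat_lit 1) (nat_lit 353) (nat_lit 331) (nat_lit 216)))) (XT.nd (nat_lit 78) (nat_lit 152) (nat_lit 0) (XT.lf (nat_lit 76) (nat_lit 366962542) (nat_lit 0) (nat_lit 366963276) (nat_lit 76) (nat_lit 366963276) (nat_lit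 102) (nat_lit 3) (nat_lit 101) (nat_lit 1) (nat_lit 102) (nat_lit 1) (nat_lit 354) (nat_lit 331) (nat_lit 215)) (XT.nd (nat_lit 78) (nat_lit 0) (nat_lit 0) (XT.lf (nat_lit 152) (nat_lit 1053023958) (nat_lit 0) (nat_lit 193) (nat_lit 76) (nat_lit 193) (nat_lit 101) (nat_lit 1) (nat_lit 99) (nat_lit 1) (nat_lit 100) (nat_lit 1) (nat_lit 355) (nat_lit 331) (nat_lit 214)) (XT.lf (nat_lit 0) (nat_lit 334293281) (nat_lit 0) (nat_lit 334293764) (nat_lit 152) (nat_lit 334293281) (nat_lit 99) (nat_lit 3) (nat_lit 99) (nat_lit 1) (nat_lit 101) (nat_lit 1) (nat_lit 356) (nat_lit 331) (nat_lit 213))))) (XT.nd (nat_lit 234) (nat_lit 228) (nat_lit 0) (XT.nd (nat_lit 78) (nat_lit 152) (nat_lit 0) (XT.lf (nat_lit 76) (nat_lit 319098005) (nat_lit 0) (nat_lit 319098425) (nat_lit 76) (nat_lit 319098425) (nat_lit 99) (nat_lit 3) (nat_lit 98) (nat_lit 1) (nat_lit 99) (nat_lit 1) (nat_lit 357) (nat_lit 331) (nat_lit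 212)) (XT.nd (nat_lit 78) (nat_lit 0) (nat_lit 0) (XT.lf (nat_lit 152) (nat_lit 915673115) (nat_lit 0) (nat_lit 110) (nat_lit 76) (nat_lit 110) (nat_lit 98) (nat_lit 1) (nat_lit 96) (nat_lit 1) (nat_lit 97) (nat_lit 1) (nat_lit 358) (nat_lit 331) (nat_lit 211)) (XT.lf (nat_lit 0) (nat_lit 290689855) (nat_lit 0) (nat_lit 290690132) (nat_lit 152) (nat_lit 290689855) (nat_lit 96) (nat_lit 3) (nat_lit 96) (nat_lit 1) (nat_lit 98) (nat_lit 1) (nat_lit 359) (nat_lit 331) (nat_lit 210)))) (XT.nd (nat_lit 78) (nat_lit 152) (nat_lit 0) (XT.lf (nat_lit 76) (nat_lit 277476607) (nat_lit 0) (nat_lit 277476848) (nat_lit 76) (nat_lit 277476848) (nat_lit 96) (nat_lit 3) (nat_lit 95) (nat_lit 1) (nat_lit 96) (nat_lit 1) (nat_lit 360) (nat_lit 331) (nat_lit 209)) (XT.nd (nat_lit 78) (nat_lit 0) (nat_lit 0) (XT.lf (nat_lit 152) (nat_lit 796237553) (nat_lit 0) (nat_lit 63) (nat_lit 76) (nat_lit 63) (nat_lit 95) (nat_lit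 1) (nat_lit 93) (nat_lit 1) (nat_lit 94) (nat_lit 1) (nat_lit 361) (nat_lit 331) (nat_lit 208)) (XT.lf (nat_lit 0) (nat_lit 252773813) (nat_lit 0) (nat_lit 252773971) (nat_lit 152) (nat_lit 252773813) (nat_lit 93) (nat_lit 3) (nat_lit 93) (nat_lit 1) (nat_lit 95) (nat_lit 1) (nat_lit 362) (nat_lit 331) (nat_lit 207))))))))
noncomputable def ec96 : XT := (XT.nd (nat_lit 37986) (nat_lit 0) (nat_lit 7524) (XT.nd (nat_lit 37128) (nat_lit 0) (nat_lit 9196) (XT.nd (nat_lit 390) (nat_lit 228) (nat_lit 0) (XT.nd (nat_lit 156) (nat_lit 228) (nat_lit 0) (XT.nd (nat_lit 78) (nat_lit 152) (nat_lit 0) (XT.lf (nat_lit 76) (nat_lit 241284053) (nat_lit 0) (nat_lit 241284190) (nat_lit 76) (nat_lit 241284190) (nat_lit 93) (nat_lit 3) (nat_lit 92) (nat_lit 1) (nat_lit 93) (nat_lit 1) (nat_lit 363) (nat_lit 331) (nat_lit 206)) (XT.lf (nat_lit 152) (nat_lit 692380516) (nat_lit 0) (nat_lit 36) (nat_lit 76) (nat_lit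 36) (nat_lit 92) (nat_lit 1) (nat_lit 90) (nat_lit 1) (nat_lit 91) (nat_lit 1) (nat_lit 364) (nat_lit 331) (nat_lit 205))) (XT.nd (nat_lit 78) (nat_lit 228) (nat_lit 0) (XT.lf (nat_lit 0) (nat_lit 219803331) (nat_lit 0) (nat_lit 219803421) (nat_lit 152) (nat_lit 219803331) (nat_lit 90) (nat_lit 3) (nat_lit 90) (nat_lit 1) (nat_lit 92) (nat_lit 1) (nat_lit 365) (nat_lit 331) (nat_lit 204)) (XT.nd (nat_lit 78) (nat_lit 152) (nat_lit 0) (XT.lf (nat_lit 76) (nat_lit 209812247) (nat_lit 0) (nat_lit 209812325) (nat_lit 76) (nat_lit 209812325) (nat_lit 90) (nat_lit 3) (nat_lit 89) (nat_lit 1) (nat_lit 90) (nat_lit 1) (nat_lit 366) (nat_lit 331) (nat_lit 203)) (XT.lf (nat_lit 152) (nat_lit 602070034) (nat_lit 0) (nat_lit 20) (nat_lit 76) (nat_lit 20) (nat_lit 89) (nat_lit 1) (nat_lit 87) (nat_lit 1) (nat_lit 88) (nat_lit 1) (nat_lit 367) (nat_lit 331) (nat_lit 202))))) (XT.nd (nat_lit 234) (nat_lit 0)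 (nat_lit 0) (XT.nd (nat_lit 78) (nat_lit 228) (nat_lit 0) (XT.lf (nat_lit 0) (nat_lit 191133340) (nat_lit 0) (nat_lit 191133391) (nat_lit 152) (nat_lit 191133340) (nat_lit 87) (nat_lit 3) (nat_lit 87) (nat_lit 1) (nat_lit 89) (nat_lit 1) (nat_lit 368) (nat_lit 331) (nat_lit 201)) (XT.nd (nat_lit 78) (nat_lit 152) (nat_lit 0) (XT.lf (nat_lit 76) (nat_lit 182445447) (nat_lit 0) (nat_lit 182445492) (nat_lit 76) (nat_lit 182445492) (nat_lit 87) (nat_lit 3) (nat_lit 86) (nat_lit 1) (nat_lit 87) (nat_lit 1) (nat_lit 369) (nat_lit 331) (nat_lit 200)) (XT.lf (nat_lit 152) (nat_lit 523539171) (nat_lit 0) (nat_lit 11) (nat_lit 76) (nat_lit 11) (nat_lit 86) (nat_lit 1) (nat_lit 84) (nat_lit 1) (nat_lit 85) (nat_lit 1) (nat_lit 370) (nat_lit 331) (nat_lit 199)))) (XT.nd (nat_lit 36348) (nat_lit 0) (nat_lit 9956) (XT.lf (nat_lit 0) (nat_lit 166202909) (nat_lit 0) (nat_lit 166202938) (nat_lit 152) (nat_lit 166202909)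 (nat_lit 84) (nat_lit 3) (nat_lit 84) (nat_lit 1) (nat_lit 86) (nat_lit 1) (nat_lit 371) (nat_lit 331) (nat_lit 198)) (XT.nd (nat_lit 78) (nat_lit 0) (nat_lit 0) (XT.lf (nat_lit 380) (nat_lit 61440583199) (nat_lit 0) (nat_lit 54419436682) (nat_lit 380) (nat_lit 61440583199) (nat_lit 220) (nat_lit 1) (nat_lit 215) (nat_lit 0) (nat_lit 220) (nat_lit 0) (nat_lit 236) (nat_lit 332) (nat_lit 332)) (XT.lf (nat_lit 380) (nat_lit 227260743812) (nat_lit 76) (nat_lit 51945825924) (nat_lit 0) (nat_lit 51945825924) (nat_lit 220) (nat_lit 1) (nat_lit 216) (nat_lit 1) (nat_lit 215) (nat_lit 0) (nat_lit 237) (nat_lit 332) (nat_lit 331)))))) (XT.nd (nat_lit 390) (nat_lit 608) (nat_lit 0) (XT.nd (nat_lit 156) (nat_lit 228) (nat_lit 0) (XT.nd (nat_lit 78) (nat_lit 0) (nat_lit 0) (XT.lf (nat_lit 380) (nat_lit 100175232692) (nat_lit 0) (nat_lit 109000102861) (nat_lit 304) (nat_lit 100175232692) (nat_lit 221) (nat_lit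 1) (nat_lit 216) (nat_lit 1) (nat_lit 220) (nat_lit 1) (nat_lit 238) (nat_lit 332) (nat_lit 330)) (XT.lf (nat_lit 380) (nat_lit 171995673142) (nat_lit 76) (nat_lit 58875269319) (nat_lit 0) (nat_lit 58875269319) (nat_lit 221) (nat_lit 1) (nat_lit 217) (nat_lit 1) (nat_lit 216) (nat_lit 1) (nat_lit 239) (nat_lit 332) (nat_lit 329))) (XT.nd (nat_lit 78) (nat_lit 304) (nat_lit 0) (XT.lf (nat_lit 76) (nat_lit 69574530956) (nat_lit 0) (nat_lit 132481587269) (nat_lit 304) (nat_lit 69574530956) (nat_lit 218) (nat_lit 1) (nat_lit 217) (nat_lit 1) (nat_lit 221) (nat_lit 1) (nat_lit 240) (nat_lit 332) (nat_lit 328)) (XT.nd (nat_lit 78) (nat_lit 0) (nat_lit 0) (XT.lf (nat_lit 380) (nat_lit 104564900947) (nat_lit 0) (nat_lit 75263810574) (nat_lit 304) (nat_lit 75263810574) (nat_lit 218) (nat_lit 1) (nat_lit 213) (nat_lit 1) (nat_lit 217) (nat_lit 1) (nat_lit 241) (nat_lit 332) (nat_lit 327)) (XT.lf (nat_lit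 76) (nat_lit 34756218251) (nat_lit 0) (nat_lit 170549634086) (nat_lit 380) (nat_lit 34756218251) (nat_lit 214) (nat_lit 1) (nat_lit 213) (nat_lit 1) (nat_lit 218) (nat_lit 1) (nat_lit 242) (nat_lit 332) (nat_lit 326))))) (XT.nd (nat_lit 234) (nat_lit 228) (nat_lit 0) (XT.nd (nat_lit 78) (nat_lit 228) (nat_lit 0) (XT.lf (nat_lit 228) (nat_lit 31279776542) (nat_lit 0) (nat_lit 97350586187) (nat_lit 152) (nat_lit 97350586187) (nat_lit 214) (nat_lit 1) (nat_lit 211) (nat_lit 1) (nat_lit 213) (nat_lit 1) (nat_lit 243) (nat_lit 332) (nat_lit 325)) (XT.nd (nat_lit 78) (nat_lit 0) (nat_lit 0) (XT.lf (nat_lit 228) (nat_lit 210199704779) (nat_lit 0) (nat_lit 1649229223) (nat_lit 152) (nat_lit 1649229223) (nat_lit 211) (nat_lit 1) (nat_lit 208) (nat_lit 1) (nat_lit 210) (nat_lit 1) (nat_lit 244) (nat_lit 332) (nat_lit 324)) (XT.lf (nat_lit 76) (nat_lit 80760070125) (nat_lit 0) (nat_lit 39648895602) (nat_lit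 228) (nat_lit 80760070125) (nat_lit 209) (nat_lit 1) (nat_lit 208) (nat_lit 1) (nat_lit 211) (nat_lit 1) (nat_lit 245) (nat_lit 332) (nat_lit 323)))) (XT.nd (nat_lit 78) (nat_lit 76) (nat_lit 0) (XT.lf (nat_lit 228) (nat_lit 117387861610) (nat_lit 0) (nat_lit 36412560706) (nat_lit 152) (nat_lit 36412560706) (nat_lit 209) (nat_lit 1) (nat_lit 206) (nat_lit 1) (nat_lit 208) (nat_lit 1) (nat_lit 246) (nat_lit 332) (nat_lit 322)) (XT.nd (nat_lit 78) (nat_lit 76) (nat_lit 0) (XT.lf (nat_lit 76) (nat_lit 36711034484) (nat_lit 0) (nat_lit 106534794442) (nat_lit 228) (nat_lit 36711034484) (nat_lit 207) (nat_lit 1) (nat_lit 206) (nat_lit 1) (nat_lit 209) (nat_lit 1) (nat_lit 247) (nat_lit 332) (nat_lit 321)) (XT.lf (nat_lit 152) (nat_lit 30348454275) (nat_lit 0) (nat_lit 70029207519) (nat_lit 76) (nat_lit 70029207519) (nat_lit 207) (nat_lit 1) (nat_lit 205) (nat_lit 1) (nat_lit 206) (nat_lit 1) (nat_lit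 248) (nat_lit 332) (nat_lit 320))))))) (XT.nd (nat_lit 858) (nat_lit 836) (nat_lit 0) (XT.nd (nat_lit 390) (nat_lit 380) (nat_lit 0) (XT.nd (nat_lit 156) (nat_lit 228) (nat_lit 0) (XT.nd (nat_lit 78) (nat_lit 0) (nat_lit 0) (XT.lf (nat_lit 228) (nat_lit 153641715086) (nat_lit 0) (nat_lit 4081649411) (nat_lit 152) (nat_lit 4081649411) (nat_lit 205) (nat_lit 1) (nat_lit 202) (nat_lit 1) (nat_lit 204) (nat_lit 1) (nat_lit 249) (nat_lit 332) (nat_lit 319)) (XT.lf (nat_lit 76) (nat_lit 53771295836) (nat_lit 0) (nat_lit 45664338806) (nat_lit 228) (nat_lit 53771295836) (nat_lit 203) (nat_lit 1) (nat_lit 202) (nat_lit 1) (nat_lit 205) (nat_lit 1) (nat_lit 250) (nat_lit 332) (nat_lit 318))) (XT.nd (nat_lit 78) (nat_lit 152) (nat_lit 0) (XT.lf (nat_lit 152) (nat_lit 65380745636) (nat_lit 0) (nat_lit 40039426685) (nat_lit 76) (nat_lit 40039426685) (nat_lit 203) (nat_lit 1) (nat_lit 201) (nat_lit 1) (nat_lit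 202) (nat_lit 1) (nat_lit 251) (nat_lit 332) (nat_lit 317)) (XT.nd (nat_lit 78) (nat_lit 152) (nat_lit 0) (XT.lf (nat_lit 0) (nat_lit 12802450990) (nat_lit 0) (nat_lit 112711795461) (nat_lit 152) (nat_lit 12802450990) (nat_lit 201) (nat_lit 3) (nat_lit 201) (nat_lit 1) (nat_lit 203) (nat_lit 1) (nat_lit 252) (nat_lit 332) (nat_lit 316)) (XT.lf (nat_lit 76) (nat_lit 59249689193) (nat_lit 0) (nat_lit 12850233325) (nat_lit 152) (nat_lit 59249689193) (nat_lit 200) (nat_lit 1) (nat_lit 199) (nat_lit 1) (nat_lit 201) (nat_lit 1) (nat_lit 253) (nat_lit 332) (nat_lit 315))))) (XT.nd (nat_lit 234) (nat_lit 228) (nat_lit 0) (XT.nd (nat_lit 78) (nat_lit 76) (nat_lit 0) (XT.lf (nat_lit 152) (nat_lit 79145930390) (nat_lit 0) (nat_lit 22892672159) (nat_lit 76) (nat_lit 22892672159) (nat_lit 200) (nat_lit 1) (nat_lit 198) (nat_lit 1) (nat_lit 199) (nat_lit 1) (nat_lit 254) (nat_lit 332) (nat_lit 314)) (XT.nd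 (nat_lit 78) (nat_lit 76) (nat_lit 0) (XT.lf (nat_lit 0) (nat_lit 20578343500) (nat_lit 0) (nat_lit 77701835466) (nat_lit 152) (nat_lit 20578343500) (nat_lit 198) (nat_lit 3) (nat_lit 198) (nat_lit 1) (nat_lit 200) (nat_lit 1) (nat_lit 255) (nat_lit 332) (nat_lit 313)) (XT.lf (nat_lit 76) (nat_lit 4590660702) (nat_lit 0) (nat_lit 54263262411) (nat_lit 76) (nat_lit 54263262411) (nat_lit 198) (nat_lit 3) (nat_lit 197) (nat_lit 1) (nat_lit 198) (nat_lit 1) (nat_lit 256) (nat_lit 332) (nat_lit 312)))) (XT.nd (nat_lit 78) (nat_lit 76) (nat_lit 0) (XT.lf (nat_lit 152) (nat_lit 81568705075) (nat_lit 0) (nat_lit 13088959607) (nat_lit 76) (nat_lit 13088959607) (nat_lit 197) (nat_lit 1) (nat_lit 195) (nat_lit 1) (nat_lit 196) (nat_lit 1) (nat_lit 257) (nat_lit 332) (nat_lit 311)) (XT.nd (nat_lit 78) (nat_lit 76) (nat_lit 0) (XT.lf (nat_lit 0) (nat_lit 23294865637) (nat_lit 0) (nat_lit 55955407568) (nat_lit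 152) (nat_lit 23294865637) (nat_lit 195) (nat_lit 3) (nat_lit 195) (nat_lit 1) (nat_lit 197) (nat_lit 1) (nat_lit 258) (nat_lit 332) (nat_lit 310)) (XT.lf (nat_lit 76) (nat_lit 13629804701) (nat_lit 0) (nat_lit 42030275945) (nat_lit 76) (nat_lit 42030275945) (nat_lit 195) (nat_lit 3) (nat_lit 194) (nat_lit 1) (nat_lit 195) (nat_lit 1) (nat_lit 259) (nat_lit 332) (nat_lit 309)))))) (XT.nd (nat_lit 390) (nat_lit 456) (nat_lit 0) (XT.nd (nat_lit 156) (nat_lit 228) (nat_lit 0) (XT.nd (nat_lit 78) (nat_lit 0) (nat_lit 0) (XT.lf (nat_lit 152) (nat_lit 78216965343) (nat_lit 0) (nat_lit 7483655136) (nat_lit 76) (nat_lit 7483655136) (nat_lit 194) (nat_lit 1) (nat_lit 192) (nat_lit 1) (nat_lit 193) (nat_lit 1) (nat_lit 260) (nat_lit 332) (nat_lit 308)) (XT.lf (nat_lit 0) (nat_lit 23344246296) (nat_lit 0) (nat_lit 42018017148) (nat_lit 152) (nat_lit 23344246296) (nat_lit 192) (nat_lit 3) (nat_lit 192) (nat_lit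 1) (nat_lit 194) (nat_lit 1) (nat_lit 261) (nat_lit 332) (nat_lit 307))) (XT.nd (nat_lit 78) (nat_lit 152) (nat_lit 0) (XT.lf (nat_lit 76) (nat_lit 17362519461) (nat_lit 0) (nat_lit 33600581072) (nat_lit 76) (nat_lit 33600581072) (nat_lit 192) (nat_lit 3) (nat_lit 191) (nat_lit 1) (nat_lit 192) (nat_lit 1) (nat_lit 262) (nat_lit 332) (nat_lit 306)) (XT.nd (nat_lit 78) (nat_lit 0) (nat_lit 0) (XT.lf (nat_lit 152) (nat_lit 72181493776) (nat_lit 0) (nat_lit 4278804113) (nat_lit 76) (nat_lit 4278804113) (nat_lit 191) (nat_lit 1) (nat_lit 189) (nat_lit 1) (nat_lit 190) (nat_lit 1) (nat_lit 263) (nat_lit 332) (nat_lit 305)) (XT.lf (nat_lit 0) (nat_lit 22064827944) (nat_lit 0) (nat_lit 32741617037) (nat_lit 152) (nat_lit 22064827944) (nat_lit 189) (nat_lit 3) (nat_lit 189) (nat_lit 1) (nat_lit 191) (nat_lit 1) (nat_lit 264) (nat_lit 332) (nat_lit 304))))) (XT.nd (nat_lit 234) (nat_lit 228) (nat_lit 0)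 (XT.nd (nat_lit 78) (nat_lit 152) (nat_lit 0) (XT.lf (nat_lit 76) (nat_lit 18248498060) (nat_lit 0) (nat_lit 27532662488) (nat_lit 76) (nat_lit 27532662488) (nat_lit 189) (nat_lit 3) (nat_lit 188) (nat_lit 1) (nat_lit 189) (nat_lit 1) (nat_lit 265) (nat_lit 332) (nat_lit 303)) (XT.nd (nat_lit 78) (nat_lit 0) (nat_lit 0) (XT.lf (nat_lit 152) (nat_lit 65148864190) (nat_lit 0) (nat_lit 2446420139) (nat_lit 76) (nat_lit 2446420139) (nat_lit 188) (nat_lit 1) (nat_lit 186) (nat_lit 1) (nat_lit 187) (nat_lit 1) (nat_lit 266) (nat_lit 332) (nat_lit 302)) (XT.lf (nat_lit 0) (nat_lit 20196227737) (nat_lit 0) (nat_lit 26300716553) (nat_lit 152) (nat_lit 20196227737) (nat_lit 186) (nat_lit 3) (nat_lit 186) (nat_lit 1) (nat_lit 188) (nat_lit 1) (nat_lit 267) (nat_lit 332) (nat_lit 301)))) (XT.nd (nat_lit 78) (nat_lit 152) (nat_lit 0) (XT.lf (nat_lit 76) (nat_lit 17669656433) (nat_lit 0) (nat_lit 22977907577)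 (nat_lit 76) (nat_lit 22977907577) (nat_lit 186) (nat_lit 3) (nat_lit 185) (nat_lit 1) (nat_lit 186) (nat_lit 1) (nat_lit 268) (nat_lit 332) (nat_lit 300)) (XT.nd (nat_lit 78) (nat_lit 0) (nat_lit 0) (XT.lf (nat_lit 152) (nat_lit 58013301376) (nat_lit 0) (nat_lit 1398748654) (nat_lit 76) (nat_lit 1398748654) (nat_lit 185) (nat_lit 1) (nat_lit 183) (nat_lit 1) (nat_lit 184) (nat_lit 1) (nat_lit 269) (nat_lit 332) (nat_lit 299)) (XT.lf (nat_lit 0) (nat_lit 18139076798) (nat_lit 0) (nat_lit 21629338091) (nat_lit 152) (nat_lit 18139076798) (nat_lit 183) (nat_lit 3) (nat_lit 183) (nat_lit 1) (nat_lit 185) (nat_lit 1) (nat_lit 270) (nat_lit 332) (nat_lit 298))))))))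
noncomputable def ec97 : XT := (XT.nd (nat_lit 1716) (nat_lit 1748) (nat_lit 0) (XT.nd (nat_lit 858) (nat_lit 760) (nat_lit 0) (XT.nd (nat_lit 390) (nat_lit 456) (nat_lit 0) (XT.nd (nat_lit 156) (nat_lit 228) (nat_lit 0) (XT.nd (nat_lit 78) (nat_lit 152) (nat_lit 0) (XT.lf (nat_lit 76) (nat_lit 16394873362) (nat_lit 0) (nat_lit 19429883182) (nat_lit 76) (nat_lit 19429883182) (nat_lit 183) (nat_lit 3) (nat_lit 182) (nat_lit 1) (nat_lit 183) (nat_lit 1) (nat_lit 271) (nat_lit 332) (nat_lit 297)) (XT.lf (nat_lit 152) (nat_lit 51225142765) (nat_lit 0) (nat_lit 799739083) (nat_lit 76) (nat_lit 799739083) (nat_lit 182) (nat_lit 1) (nat_lit 180) (nat_lit 1) (nat_lit 181) (nat_lit 1) (nat_lit 272) (nat_lit 332) (nat_lit 296))) (XT.nd (nat_lit 78) (nat_lit 228) (nat_lit 0) (XT.lf (nat_lit 0) (nat_lit 16103091719) (nat_lit 0) (nat_lit 18098659941) (nat_lit 152) (nat_lit 16103091719) (nat_lit 180) (nat_lit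 3) (nat_lit 180) (nat_lit 1) (nat_lit 182) (nat_lit 1) (nat_lit 273) (nat_lit 332) (nat_lit 295)) (XT.nd (nat_lit 78) (nat_lit 152) (nat_lit 0) (XT.lf (nat_lit 76) (nat_lit 14845291575) (nat_lit 0) (nat_lit 16580568291) (nat_lit 76) (nat_lit 16580568291) (nat_lit 180) (nat_lit 3) (nat_lit 179) (nat_lit 1) (nat_lit 180) (nat_lit 1) (nat_lit 274) (nat_lit 332) (nat_lit 294)) (XT.lf (nat_lit 152) (nat_lit 44988880254) (nat_lit 0) (nat_lit 457253416) (nat_lit 76) (nat_lit 457253416) (nat_lit 179) (nat_lit 1) (nat_lit 177) (nat_lit 1) (nat_lit 178) (nat_lit 1) (nat_lit 275) (nat_lit 332) (nat_lit 293))))) (XT.nd (nat_lit 234) (nat_lit 228) (nat_lit 0) (XT.nd (nat_lit 78) (nat_lit 228) (nat_lit 0) (XT.lf (nat_lit 0) (nat_lit 14191356422) (nat_lit 0) (nat_lit 15332329029) (nat_lit 152) (nat_lit 14191356422) (nat_lit 177) (nat_lit 3) (nat_lit 177) (nat_lit 1) (nat_lit 179) (nat_lit 1) (nat_lit 276) (nat_lit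 332) (nat_lit 292)) (XT.nd (nat_lit 78) (nat_lit 152) (nat_lit 0) (XT.lf (nat_lit 76) (nat_lit 13245643222) (nat_lit 0) (nat_lit 14237793316) (nat_lit 76) (nat_lit 14237793316) (nat_lit 177) (nat_lit 3) (nat_lit 176) (nat_lit 1) (nat_lit 177) (nat_lit 1) (nat_lit 277) (nat_lit 332) (nat_lit 291)) (XT.lf (nat_lit 152) (nat_lit 39375354494) (nat_lit 0) (nat_lit 261436124) (nat_lit 76) (nat_lit 261436124) (nat_lit 176) (nat_lit 1) (nat_lit 174) (nat_lit 1) (nat_lit 175) (nat_lit 1) (nat_lit 278) (nat_lit 332) (nat_lit 290)))) (XT.nd (nat_lit 78) (nat_lit 228) (nat_lit 0) (XT.lf (nat_lit 0) (nat_lit 12448181456) (nat_lit 0) (nat_lit 13100536248) (nat_lit 152) (nat_lit 12448181456) (nat_lit 174) (nat_lit 3) (nat_lit 174) (nat_lit 1) (nat_lit 176) (nat_lit 1) (nat_lit 279) (nat_lit 332) (nat_lit 289)) (XT.nd (nat_lit 78) (nat_lit 152) (nat_lit 0) (XT.lf (nat_lit 76) (nat_lit 11710456531) (nat_lit 0)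 (nat_lit 12277721567) (nat_lit 76) (nat_lit 12277721567) (nat_lit 174) (nat_lit 3) (nat_lit 173) (nat_lit 1) (nat_lit 174) (nat_lit 1) (nat_lit 280) (nat_lit 332) (nat_lit 288)) (XT.lf (nat_lit 152) (nat_lit 34385000810) (nat_lit 0) (nat_lit 149476952) (nat_lit 76) (nat_lit 149476952) (nat_lit 173) (nat_lit 1) (nat_lit 171) (nat_lit 1) (nat_lit 172) (nat_lit 1) (nat_lit 281) (nat_lit 332) (nat_lit 287)))))) (XT.nd (nat_lit 390) (nat_lit 456) (nat_lit 0) (XT.nd (nat_lit 156) (nat_lit 228) (nat_lit 0) (XT.nd (nat_lit 78) (nat_lit 76) (nat_lit 0) (XT.lf (nat_lit 0) (nat_lit 10886181508) (nat_lit 0) (nat_lit 11259167478) (nat_lit 152) (nat_lit 10886181508) (nat_lit 171) (nat_lit 3) (nat_lit 171) (nat_lit 1) (nat_lit 173) (nat_lit 1) (nat_lit 282) (nat_lit 332) (nat_lit 286)) (XT.lf (nat_lit 76) (nat_lit 10293071553) (nat_lit 0) (nat_lit 10617407179) (nat_lit 76) (nat_lit 10617407179) (nat_lit 171)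 (nat_lit 3) (nat_lit 170) (nat_lit 1) (nat_lit 171) (nat_lit 1) (nat_lit 283) (nat_lit 332) (nat_lit 285))) (XT.nd (nat_lit 78) (nat_lit 76) (nat_lit 0) (XT.lf (nat_lit 152) (nat_lit 29983226318) (nat_lit 0) (nat_lit 85463932) (nat_lit 76) (nat_lit 85463932) (nat_lit 170) (nat_lit 1) (nat_lit 168) (nat_lit 1) (nat_lit 169) (nat_lit 1) (nat_lit 284) (nat_lit 332) (nat_lit 284)) (XT.nd (nat_lit 78) (nat_lit 76) (nat_lit 0) (XT.lf (nat_lit 0) (nat_lit 9501508182) (nat_lit 0) (nat_lit 9714764121) (nat_lit 152) (nat_lit 9501508182) (nat_lit 168) (nat_lit 3) (nat_lit 168) (nat_lit 1) (nat_lit 170) (nat_lit 1) (nat_lit 285) (nat_lit 332) (nat_lit 283)) (XT.lf (nat_lit 76) (nat_lit 9013427524) (nat_lit 0) (nat_lit 9198867470) (nat_lit 76) (nat_lit 9198867470) (nat_lit 168) (nat_lit 3) (nat_lit 167) (nat_lit 1) (nat_lit 168) (nat_lit 1) (nat_lit 286) (nat_lit 332) (nat_lit 282))))) (XT.nd (nat_lit 234)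 (nat_lit 228) (nat_lit 0) (XT.nd (nat_lit 78) (nat_lit 76) (nat_lit 0) (XT.lf (nat_lit 152) (nat_lit 26119955226) (nat_lit 0) (nat_lit 48864281) (nat_lit 76) (nat_lit 48864281) (nat_lit 167) (nat_lit 1) (nat_lit 165) (nat_lit 1) (nat_lit 166) (nat_lit 1) (nat_lit 287) (nat_lit 332) (nat_lit 281)) (XT.nd (nat_lit 78) (nat_lit 76) (nat_lit 0) (XT.lf (nat_lit 0) (nat_lit 8282342987) (nat_lit 0) (nat_lit 8404272762) (nat_lit 152) (nat_lit 8282342987) (nat_lit 165) (nat_lit 3) (nat_lit 165) (nat_lit 1) (nat_lit 167) (nat_lit 1) (nat_lit 288) (nat_lit 332) (nat_lit 280)) (XT.lf (nat_lit 76) (nat_lit 7873743794) (nat_lit 0) (nat_lit 7979769685) (nat_lit 76) (nat_lit 7979769685) (nat_lit 165) (nat_lit 3) (nat_lit 164) (nat_lit 1) (nat_lit 165) (nat_lit 1) (nat_lit 289) (nat_lit 332) (nat_lit 279)))) (XT.nd (nat_lit 78) (nat_lit 76) (nat_lit 0) (XT.lf (nat_lit 152) (nat_lit 22740211145) (nat_lit 0) (nat_lit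 27938311) (nat_lit 76) (nat_lit 27938311) (nat_lit 164) (nat_lit 1) (nat_lit 162) (nat_lit 1) (nat_lit 163) (nat_lit 1) (nat_lit 290) (nat_lit 332) (nat_lit 278)) (XT.nd (nat_lit 78) (nat_lit 76) (nat_lit 0) (XT.lf (nat_lit 0) (nat_lit 7213565046) (nat_lit 0) (nat_lit 7283278790) (nat_lit 152) (nat_lit 7213565046) (nat_lit 162) (nat_lit 3) (nat_lit 162) (nat_lit 1) (nat_lit 164) (nat_lit 1) (nat_lit 291) (nat_lit 332) (nat_lit 277)) (XT.lf (nat_lit 76) (nat_lit 6867305832) (nat_lit 0) (nat_lit 6927926480) (nat_lit 76) (nat_lit 6927926480) (nat_lit 162) (nat_lit 3) (nat_lit 161) (nat_lit 1) (nat_lit 162) (nat_lit 1) (nat_lit 292) (nat_lit 332) (nat_lit 276))))))) (XT.nd (nat_lit 858) (nat_lit 912) (nat_lit 0) (XT.nd (nat_lit 390) (nat_lit 456) (nat_lit 0) (XT.nd (nat_lit 156) (nat_lit 228) (nat_lit 0) (XT.nd (nat_lit 78) (nat_lit 0) (nat_lit 0) (XT.lf (nat_lit 152) (nat_lit 19789652110) (nat_lit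 0) (nat_lit 15973820) (nat_lit 76) (nat_lit 15973820) (nat_lit 161) (nat_lit 1) (nat_lit 159) (nat_lit 1) (nat_lit 160) (nat_lit 1) (nat_lit 293) (nat_lit 332) (nat_lit 275)) (XT.lf (nat_lit 0) (nat_lit 6279256237) (nat_lit 0) (nat_lit 6319115297) (nat_lit 152) (nat_lit 6279256237) (nat_lit 159) (nat_lit 3) (nat_lit 159) (nat_lit 1) (nat_lit 161) (nat_lit 1) (nat_lit 294) (nat_lit 332) (nat_lit 274))) (XT.nd (nat_lit 78) (nat_lit 152) (nat_lit 0) (XT.lf (nat_lit 76) (nat_lit 5983332453) (nat_lit 0) (nat_lit 6017992505) (nat_lit 76) (nat_lit 6017992505) (nat_lit 159) (nat_lit 3) (nat_lit 158) (nat_lit 1) (nat_lit 159) (nat_lit 1) (nat_lit 295) (nat_lit 332) (nat_lit 273)) (XT.nd (nat_lit 78) (nat_lit 0) (nat_lit 0) (XT.lf (nat_lit 152) (nat_lit 17217287025) (nat_lit 0) (nat_lit 9133083) (nat_lit 76) (nat_lit 9133083) (nat_lit 158) (nat_lit 1) (nat_lit 156) (nat_lit 1) (nat_lit 157) (nat_lit 1) (nat_lit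 296) (nat_lit 332) (nat_lit 272)) (XT.lf (nat_lit 0) (nat_lit 5463991229) (nat_lit 0) (nat_lit 5486780776) (nat_lit 152) (nat_lit 5463991229) (nat_lit 156) (nat_lit 3) (nat_lit 156) (nat_lit 1) (nat_lit 158) (nat_lit 1) (nat_lit 297) (nat_lit 332) (nat_lit 271))))) (XT.nd (nat_lit 234) (nat_lit 228) (nat_lit 0) (XT.nd (nat_lit 78) (nat_lit 152) (nat_lit 0) (XT.lf (nat_lit 76) (nat_lit 5209622841) (nat_lit 0) (nat_lit 5229439838) (nat_lit 76) (nat_lit 5229439838) (nat_lit 156) (nat_lit 3) (nat_lit 155) (nat_lit 1) (nat_lit 156) (nat_lit 1) (nat_lit 298) (nat_lit 332) (nat_lit 270)) (XT.nd (nat_lit 78) (nat_lit 0) (nat_lit 0) (XT.lf (nat_lit 152) (nat_lit 14976639043) (nat_lit 0) (nat_lit 5221870) (nat_lit 76) (nat_lit 5221870) (nat_lit 155) (nat_lit 1) (nat_lit 153) (nat_lit 1) (nat_lit 154) (nat_lit 1) (nat_lit 299) (nat_lit 332) (nat_lit 269)) (XT.lf (nat_lit 0) (nat_lit 4753451324) (nat_lit 0)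 (nat_lit 4766481322) (nat_lit 152) (nat_lit 4753451324) (nat_lit 153) (nat_lit 3) (nat_lit 153) (nat_lit 1) (nat_lit 155) (nat_lit 1) (nat_lit 300) (nat_lit 332) (nat_lit 268)))) (XT.nd (nat_lit 78) (nat_lit 152) (nat_lit 0) (XT.lf (nat_lit 76) (nat_lit 4533951891) (nat_lit 0) (nat_lit 4545282323) (nat_lit 76) (nat_lit 4545282323) (nat_lit 153) (nat_lit 3) (nat_lit 152) (nat_lit 1) (nat_lit 153) (nat_lit 1) (nat_lit 301) (nat_lit 332) (nat_lit 267)) (XT.nd (nat_lit 78) (nat_lit 0) (nat_lit 0) (XT.lf (nat_lit 152) (nat_lit 13026071813) (nat_lit 0) (nat_lit 2985621) (nat_lit 76) (nat_lit 2985621) (nat_lit 152) (nat_lit 1) (nat_lit 150) (nat_lit 1) (nat_lit 151) (nat_lit 1) (nat_lit 302) (nat_lit 332) (nat_lit 266)) (XT.lf (nat_lit 0) (nat_lit 4134667835) (nat_lit 0) (nat_lit 4142117779) (nat_lit 152) (nat_lit 4134667835) (nat_lit 150) (nat_lit 3) (nat_lit 150) (nat_lit 1) (nat_lit 152) (nat_lit 1)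 (nat_lit 303) (nat_lit 332) (nat_lit 265)))))) (XT.nd (nat_lit 468) (nat_lit 456) (nat_lit 0) (XT.nd (nat_lit 234) (nat_lit 228) (nat_lit 0) (XT.nd (nat_lit 78) (nat_lit 152) (nat_lit 0) (XT.lf (nat_lit 76) (nat_lit 3944765294) (nat_lit 0) (nat_lit 3951243506) (nat_lit 76) (nat_lit 3951243506) (nat_lit 150) (nat_lit 3) (nat_lit 149) (nat_lit 1) (nat_lit 150) (nat_lit 1) (nat_lit 304) (nat_lit 332) (nat_lit 264)) (XT.nd (nat_lit 78) (nat_lit 0) (nat_lit 0) (XT.lf (nat_lit 152) (nat_lit 11328681298) (nat_lit 0) (nat_lit 1707038) (nat_lit 76) (nat_lit 1707038) (nat_lit 149) (nat_lit 1) (nat_lit 147) (nat_lit 1) (nat_lit 148) (nat_lit 1) (nat_lit 305) (nat_lit 332) (nat_lit 263)) (XT.lf (nat_lit 0) (nat_lit 3596067679) (nat_lit 0) (nat_lit 3600327208) (nat_lit 152) (nat_lit 3596067679) (nat_lit 147) (nat_lit 3) (nat_lit 147) (nat_lit 1) (nat_lit 149) (nat_lit 1) (nat_lit 306) (nat_lit 332) (nat_lit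 262)))) (XT.nd (nat_lit 78) (nat_lit 152) (nat_lit 0) (XT.lf (nat_lit 76) (nat_lit 3431487651) (nat_lit 0) (nat_lit 3435191590) (nat_lit 76) (nat_lit 3435191590) (nat_lit 147) (nat_lit 3) (nat_lit 146) (nat_lit 1) (nat_lit 147) (nat_lit 1) (nat_lit 307) (nat_lit 332) (nat_lit 261)) (XT.nd (nat_lit 78) (nat_lit 0) (nat_lit 0) (XT.lf (nat_lit 152) (nat_lit 9851977659) (nat_lit 0) (nat_lit 976004) (nat_lit 76) (nat_lit 976004) (nat_lit 146) (nat_lit 1) (nat_lit 144) (nat_lit 1) (nat_lit 145) (nat_lit 1) (nat_lit 308) (nat_lit 332) (nat_lit 260)) (XT.lf (nat_lit 0) (nat_lit 3127418083) (nat_lit 0) (nat_lit 3129853483) (nat_lit 152) (nat_lit 3127418083) (nat_lit 144) (nat_lit 3) (nat_lit 144) (nat_lit 1) (nat_lit 146) (nat_lit 1) (nat_lit 309) (nat_lit 332) (nat_lit 259))))) (XT.nd (nat_lit 234) (nat_lit 228) (nat_lit 0) (XT.nd (nat_lit 78) (nat_lit 152) (nat_lit 0) (XT.lf (nat_lit 76) (nat_lit 2984620977)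 (nat_lit 0) (nat_lit 2986738716) (nat_lit 76) (nat_lit 2986738716) (nat_lit 144) (nat_lit 3) (nat_lit 143) (nat_lit 1) (nat_lit 144) (nat_lit 1) (nat_lit 310) (nat_lit 332) (nat_lit 258)) (XT.nd (nat_lit 78) (nat_lit 0) (nat_lit 0) (XT.lf (nat_lit 152) (nat_lit 8567480514) (nat_lit 0) (nat_lit 558033) (nat_lit 76) (nat_lit 558033) (nat_lit 143) (nat_lit 1) (nat_lit 141) (nat_lit 1) (nat_lit 142) (nat_lit 1) (nat_lit 311) (nat_lit 332) (nat_lit 257)) (XT.lf (nat_lit 0) (nat_lit 2719724237) (nat_lit 0) (nat_lit 2721116684) (nat_lit 152) (nat_lit 2719724237) (nat_lit 141) (nat_lit 3) (nat_lit 141) (nat_lit 1) (nat_lit 143) (nat_lit 1) (nat_lit 312) (nat_lit 332) (nat_lit 256)))) (XT.nd (nat_lit 78) (nat_lit 152) (nat_lit 0) (XT.lf (nat_lit 76) (nat_lit 2595733491) (nat_lit 0) (nat_lit 2596944315) (nat_lit 76) (nat_lit 2596944315) (nat_lit 141) (nat_lit 3) (nat_lit 140) (nat_lit 1) (nat_lit 141) (nat_lit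 1) (nat_lit 313) (nat_lit 332) (nat_lit 255)) (XT.nd (nat_lit 78) (nat_lit 0) (nat_lit 0) (XT.lf (nat_lit 152) (nat_lit 7450293757) (nat_lit 0) (nat_lit 319057) (nat_lit 76) (nat_lit 319057) (nat_lit 140) (nat_lit 1) (nat_lit 138) (nat_lit 1) (nat_lit 139) (nat_lit 1) (nat_lit 314) (nat_lit 332) (nat_lit 254)) (XT.lf (nat_lit 0) (nat_lit 2365109244) (nat_lit 0) (nat_lit 2365905380) (nat_lit 152) (nat_lit 2365109244) (nat_lit 138) (nat_lit 3) (nat_lit 138) (nat_lit 1) (nat_lit 140) (nat_lit 1) (nat_lit 315) (nat_lit 332) (nat_lit 253))))))))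
noncomputable def ec98 : XT := (XT.nd (nat_lit 1716) (nat_lit 1748) (nat_lit 0) (XT.nd (nat_lit 858) (nat_lit 760) (nat_lit 0) (XT.nd (nat_lit 390) (nat_lit 456) (nat_lit 0) (XT.nd (nat_lit 156) (nat_lit 228) (nat_lit 0) (XT.nd (nat_lit 78) (nat_lit 152) (nat_lit 0) (XT.lf (nat_lit 76) (nat_lit 2257394493) (nat_lit 0) (nat_lit 2258086785) (nat_lit 76) (nat_lit 2258086785) (nat_lit 138) (nat_lit 3) (nat_lit 137) (nat_lit 1) (nat_lit 138) (nat_lit 1) (nat_lit 316) (nat_lit 332) (nat_lit 252)) (XT.lf (nat_lit 152) (nat_lit 6478693955) (nat_lit 0) (nat_lit 182422) (nat_lit 76) (nat_lit 182422) (nat_lit 137) (nat_lit 1) (nat_lit 135) (nat_lit 1) (nat_lit 136) (nat_lit 1) (nat_lit 317) (nat_lit 332) (nat_lit 251))) (XT.nd (nat_lit 78) (nat_lit 228) (nat_lit 0) (XT.lf (nat_lit 0) (nat_lit 2056692003) (nat_lit 0) (nat_lit 2057147197) (nat_lit 152) (nat_lit 2056692003) (nat_lit 135) (nat_lit 3) (nat_lit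 135) (nat_lit 1) (nat_lit 137) (nat_lit 1) (nat_lit 318) (nat_lit 332) (nat_lit 250)) (XT.nd (nat_lit 78) (nat_lit 152) (nat_lit 0) (XT.lf (nat_lit 76) (nat_lit 1963086058) (nat_lit 0) (nat_lit 1963481878) (nat_lit 76) (nat_lit 1963481878) (nat_lit 135) (nat_lit 3) (nat_lit 134) (nat_lit 1) (nat_lit 135) (nat_lit 1) (nat_lit 319) (nat_lit 332) (nat_lit 249)) (XT.lf (nat_lit 152) (nat_lit 5633748486) (nat_lit 0) (nat_lit 104300) (nat_lit 76) (nat_lit 104300) (nat_lit 134) (nat_lit 1) (nat_lit 132) (nat_lit 1) (nat_lit 133) (nat_lit 1) (nat_lit 320) (nat_lit 332) (nat_lit 248))))) (XT.nd (nat_lit 234) (nat_lit 228) (nat_lit 0) (XT.nd (nat_lit 78) (nat_lit 228) (nat_lit 0) (XT.lf (nat_lit 0) (nat_lit 1788470864) (nat_lit 0) (nat_lit 1788731123) (nat_lit 152) (nat_lit 1788470864) (nat_lit 132) (nat_lit 3) (nat_lit 132) (nat_lit 1) (nat_lit 134) (nat_lit 1) (nat_lit 321) (nat_lit 332) (nat_lit 247))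 (XT.nd (nat_lit 78) (nat_lit 152) (nat_lit 0) (XT.lf (nat_lit 76) (nat_lit 1707108155) (nat_lit 0) (nat_lit 1707334467) (nat_lit 76) (nat_lit 1707334467) (nat_lit 132) (nat_lit 3) (nat_lit 131) (nat_lit 1) (nat_lit 132) (nat_lit 1) (nat_lit 322) (nat_lit 332) (nat_lit 246)) (XT.lf (nat_lit 152) (nat_lit 4898969799) (nat_lit 0) (nat_lit 59634) (nat_lit 76) (nat_lit 59634) (nat_lit 131) (nat_lit 1) (nat_lit 129) (nat_lit 1) (nat_lit 130) (nat_lit 1) (nat_lit 323) (nat_lit 332) (nat_lit 245)))) (XT.nd (nat_lit 78) (nat_lit 228) (nat_lit 0) (XT.lf (nat_lit 0) (nat_lit 1555216662) (nat_lit 0) (nat_lit 1555365465) (nat_lit 152) (nat_lit 1555216662) (nat_lit 129) (nat_lit 3) (nat_lit 129) (nat_lit 1) (nat_lit 131) (nat_lit 1) (nat_lit 324) (nat_lit 332) (nat_lit 244)) (XT.nd (nat_lit 78) (nat_lit 152) (nat_lit 0) (XT.lf (nat_lit 76) (nat_lit 1484485785) (nat_lit 0) (nat_lit 1484615179) (nat_lit 76) (nat_lit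 1484615179) (nat_lit 129) (nat_lit 3) (nat_lit 128) (nat_lit 1) (nat_lit 129) (nat_lit 1) (nat_lit 325) (nat_lit 332) (nat_lit 243)) (XT.lf (nat_lit 152) (nat_lit 4260006941) (nat_lit 0) (nat_lit 34096) (nat_lit 76) (nat_lit 34096) (nat_lit 128) (nat_lit 1) (nat_lit 126) (nat_lit 1) (nat_lit 127) (nat_lit 1) (nat_lit 326) (nat_lit 332) (nat_lit 242)))))) (XT.nd (nat_lit 390) (nat_lit 456) (nat_lit 0) (XT.nd (nat_lit 156) (nat_lit 228) (nat_lit 0) (XT.nd (nat_lit 78) (nat_lit 76) (nat_lit 0) (XT.lf (nat_lit 0) (nat_lit 1352376383) (nat_lit 0) (nat_lit 1352461462) (nat_lit 152) (nat_lit 1352376383) (nat_lit 126) (nat_lit 3) (nat_lit 126) (nat_lit 1) (nat_lit 128) (nat_lit 1) (nat_lit 327) (nat_lit 332) (nat_lit 241)) (XT.lf (nat_lit 76) (nat_lit 1290882310) (nat_lit 0) (nat_lit 1290956292) (nat_lit 76) (nat_lit 1290956292) (nat_lit 126) (nat_lit 3) (nat_lit 125) (nat_lit 1) (nat_lit 126) (nat_lit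 1) (nat_lit 328) (nat_lit 332) (nat_lit 240))) (XT.nd (nat_lit 78) (nat_lit 76) (nat_lit 0) (XT.lf (nat_lit 152) (nat_lit 3704372846) (nat_lit 0) (nat_lit 19494) (nat_lit 76) (nat_lit 19494) (nat_lit 125) (nat_lit 1) (nat_lit 123) (nat_lit 1) (nat_lit 124) (nat_lit 1) (nat_lit 329) (nat_lit 332) (nat_lit 239)) (XT.nd (nat_lit 78) (nat_lit 76) (nat_lit 0) (XT.lf (nat_lit 0) (nat_lit 1175987507) (nat_lit 0) (nat_lit 1176036151) (nat_lit 152) (nat_lit 1175987507) (nat_lit 123) (nat_lit 3) (nat_lit 123) (nat_lit 1) (nat_lit 125) (nat_lit 1) (nat_lit 330) (nat_lit 332) (nat_lit 238)) (XT.lf (nat_lit 76) (nat_lit 1122520711) (nat_lit 0) (nat_lit 1122563011) (nat_lit 76) (nat_lit 1122563011) (nat_lit 123) (nat_lit 3) (nat_lit 122) (nat_lit 1) (nat_lit 123) (nat_lit 1) (nat_lit 331) (nat_lit 332) (nat_lit 237))))) (XT.nd (nat_lit 234) (nat_lit 228) (nat_lit 0) (XT.nd (nat_lit 78) (nat_lit 76) (nat_lit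 0) (XT.lf (nat_lit 152) (nat_lit 3221204633) (nat_lit 0) (nat_lit 11146) (nat_lit 76) (nat_lit 11146) (nat_lit 122) (nat_lit 1) (nat_lit 120) (nat_lit 1) (nat_lit 121) (nat_lit 1) (nat_lit 332) (nat_lit 332) (nat_lit 236)) (XT.nd (nat_lit 78) (nat_lit 76) (nat_lit 0) (XT.lf (nat_lit 0) (nat_lit 1022602431) (nat_lit 0) (nat_lit 1022630244) (nat_lit 152) (nat_lit 1022602431) (nat_lit 120) (nat_lit 3) (nat_lit 120) (nat_lit 1) (nat_lit 122) (nat_lit 1) (nat_lit 333) (nat_lit 332) (nat_lit 235)) (XT.lf (nat_lit 76) (nat_lit 976113174) (nat_lit 0) (nat_lit 976137358) (nat_lit 76) (nat_lit 976137358) (nat_lit 120) (nat_lit 3) (nat_lit 119) (nat_lit 1) (nat_lit 120) (nat_lit 1) (nat_lit 334) (nat_lit 332) (nat_lit 234)))) (XT.nd (nat_lit 78) (nat_lit 76) (nat_lit 0) (XT.lf (nat_lit 152) (nat_lit 2801053713) (nat_lit 0) (nat_lit 6372) (nat_lit 76) (nat_lit 6372) (nat_lit 119) (nat_lit 1) (nat_lit 117)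 (nat_lit 1) (nat_lit 118) (nat_lit 1) (nat_lit 335) (nat_lit 332) (nat_lit 233)) (XT.nd (nat_lit 78) (nat_lit 76) (nat_lit 0) (XT.lf (nat_lit 0) (nat_lit 889222135) (nat_lit 0) (nat_lit 889238037) (nat_lit 152) (nat_lit 889222135) (nat_lit 117) (nat_lit 3) (nat_lit 117) (nat_lit 1) (nat_lit 119) (nat_lit 1) (nat_lit 336) (nat_lit 332) (nat_lit 232)) (XT.lf (nat_lit 76) (nat_lit 848798757) (nat_lit 0) (nat_lit 848812584) (nat_lit 76) (nat_lit 848812584) (nat_lit 117) (nat_lit 3) (nat_lit 116) (nat_lit 1) (nat_lit 117) (nat_lit 1) (nat_lit 337) (nat_lit 332) (nat_lit 231))))))) (XT.nd (nat_lit 858) (nat_lit 912) (nat_lit 0) (XT.nd (nat_lit 390) (nat_lit 456) (nat_lit 0) (XT.nd (nat_lit 156) (nat_lit 228) (nat_lit 0) (XT.nd (nat_lit 78) (nat_lit 0) (nat_lit 0) (XT.lf (nat_lit 152) (nat_lit 2435702429) (nat_lit 0) (nat_lit 3643) (nat_lit 76) (nat_lit 3643) (nat_lit 116) (nat_lit 1) (nat_lit 114) (nat_lit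 1) (nat_lit 115) (nat_lit 1) (nat_lit 338) (nat_lit 332) (nat_lit 230)) (XT.lf (nat_lit 0) (nat_lit 773238142) (nat_lit 0) (nat_lit 773247234) (nat_lit 152) (nat_lit 773238142) (nat_lit 114) (nat_lit 3) (nat_lit 114) (nat_lit 1) (nat_lit 116) (nat_lit 1) (nat_lit 339) (nat_lit 332) (nat_lit 229))) (XT.nd (nat_lit 78) (nat_lit 152) (nat_lit 0) (XT.lf (nat_lit 76) (nat_lit 738088558) (nat_lit 0) (nat_lit 738096464) (nat_lit 76) (nat_lit 738096464) (nat_lit 114) (nat_lit 3) (nat_lit 113) (nat_lit 1) (nat_lit 114) (nat_lit 1) (nat_lit 340) (nat_lit 332) (nat_lit 228)) (XT.nd (nat_lit 78) (nat_lit 0) (nat_lit 0) (XT.lf (nat_lit 152) (nat_lit 2118004141) (nat_lit 0) (nat_lit 2083) (nat_lit 76) (nat_lit 2083) (nat_lit 113) (nat_lit 1) (nat_lit 111) (nat_lit 1) (nat_lit 112) (nat_lit 1) (nat_lit 341) (nat_lit 332) (nat_lit 227)) (XT.lf (nat_lit 0) (nat_lit 672381853) (nat_lit 0) (nat_lit 672387051) (nat_lit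 152) (nat_lit 672381853) (nat_lit 111) (nat_lit 3) (nat_lit 111) (nat_lit 1) (nat_lit 113) (nat_lit 1) (nat_lit 342) (nat_lit 332) (nat_lit 226))))) (XT.nd (nat_lit 234) (nat_lit 228) (nat_lit 0) (XT.nd (nat_lit 78) (nat_lit 152) (nat_lit 0) (XT.lf (nat_lit 76) (nat_lit 641817671) (nat_lit 0) (nat_lit 641822192) (nat_lit 76) (nat_lit 641822192) (nat_lit 111) (nat_lit 3) (nat_lit 110) (nat_lit 1) (nat_lit 111) (nat_lit 1) (nat_lit 343) (nat_lit 332) (nat_lit 225)) (XT.nd (nat_lit 78) (nat_lit 0) (nat_lit 0) (XT.lf (nat_lit 152) (nat_lit 1841743891) (nat_lit 0) (nat_lit 1191) (nat_lit 76) (nat_lit 1191) (nat_lit 110) (nat_lit 1) (nat_lit 108) (nat_lit 1) (nat_lit 109) (nat_lit 1) (nat_lit 344) (nat_lit 332) (nat_lit 224)) (XT.lf (nat_lit 0) (nat_lit 584680363) (nat_lit 0) (nat_lit 584683336) (nat_lit 152) (nat_lit 584680363) (nat_lit 108) (nat_lit 3) (nat_lit 108) (nat_lit 1) (nat_lit 110) (nat_lit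 1) (nat_lit 345) (nat_lit 332) (nat_lit 223)))) (XT.nd (nat_lit 78) (nat_lit 152) (nat_lit 0) (XT.lf (nat_lit 76) (nat_lit 558103200) (nat_lit 0) (nat_lit 558105785) (nat_lit 76) (nat_lit 558105785) (nat_lit 108) (nat_lit 3) (nat_lit 107) (nat_lit 1) (nat_lit 108) (nat_lit 1) (nat_lit 346) (nat_lit 332) (nat_lit 222)) (XT.nd (nat_lit 78) (nat_lit 0) (nat_lit 0) (XT.lf (nat_lit 152) (nat_lit 1601517090) (nat_lit 0) (nat_lit 681) (nat_lit 76) (nat_lit 681) (nat_lit 107) (nat_lit 1) (nat_lit 105) (nat_lit 1) (nat_lit 106) (nat_lit 1) (nat_lit 347) (nat_lit 332) (nat_lit 221)) (XT.lf (nat_lit 0) (nat_lit 508417988) (nat_lit 0) (nat_lit 508419688) (nat_lit 152) (nat_lit 508417988) (nat_lit 105) (nat_lit 3) (nat_lit 105) (nat_lit 1) (nat_lit 107) (nat_lit 1) (nat_lit 348) (nat_lit 332) (nat_lit 220)))))) (XT.nd (nat_lit 390) (nat_lit 456) (nat_lit 0) (XT.nd (nat_lit 156) (nat_lit 228) (nat_lit 0) (XT.nd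 (nat_lit 78) (nat_lit 152) (nat_lit 0) (XT.lf (nat_lit 76) (nat_lit 485307632) (nat_lit 0) (nat_lit 485309110) (nat_lit 76) (nat_lit 485309110) (nat_lit 105) (nat_lit 3) (nat_lit 104) (nat_lit 1) (nat_lit 105) (nat_lit 1) (nat_lit 349) (nat_lit 332) (nat_lit 219)) (XT.lf (nat_lit 152) (nat_lit 1392623936) (nat_lit 0) (nat_lit 389) (nat_lit 76) (nat_lit 389) (nat_lit 104) (nat_lit 1) (nat_lit 102) (nat_lit 1) (nat_lit 103) (nat_lit 1) (nat_lit 350) (nat_lit 332) (nat_lit 218))) (XT.nd (nat_lit 78) (nat_lit 228) (nat_lit 0) (XT.lf (nat_lit 0) (nat_lit 442102759) (nat_lit 0) (nat_lit 442103731) (nat_lit 152) (nat_lit 442102759) (nat_lit 102) (nat_lit 3) (nat_lit 102) (nat_lit 1) (nat_lit 104) (nat_lit 1) (nat_lit 351) (nat_lit 332) (nat_lit 217)) (XT.nd (nat_lit 78) (nat_lit 152) (nat_lit 0) (XT.lf (nat_lit 76) (nat_lit 422006923) (nat_lit 0) (nat_lit 422007768) (nat_lit 76) (nat_lit 422007768) (nat_lit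 102) (nat_lit 3) (nat_lit 101) (nat_lit 1) (nat_lit 102) (nat_lit 1) (nat_lit 352) (nat_lit 332) (nat_lit 216)) (XT.lf (nat_lit 152) (nat_lit 1210977552) (nat_lit 0) (nat_lit 222) (nat_lit 76) (nat_lit 222) (nat_lit 101) (nat_lit 1) (nat_lit 99) (nat_lit 1) (nat_lit 100) (nat_lit 1) (nat_lit 353) (nat_lit 332) (nat_lit 215))))) (XT.nd (nat_lit 234) (nat_lit 228) (nat_lit 0) (XT.nd (nat_lit 78) (nat_lit 228) (nat_lit 0) (XT.lf (nat_lit 0) (nat_lit 384437274) (nat_lit 0) (nat_lit 384437829) (nat_lit 152) (nat_lit 384437274) (nat_lit 99) (nat_lit 3) (nat_lit 99) (nat_lit 1) (nat_lit 101) (nat_lit 1) (nat_lit 354) (nat_lit 332) (nat_lit 214)) (XT.nd (nat_lit 78) (nat_lit 152) (nat_lit 0) (XT.lf (nat_lit 76) (nat_lit 366962706) (nat_lit 0) (nat_lit 366963189) (nat_lit 76) (nat_lit 366963189) (nat_lit 99) (nat_lit 3) (nat_lit 98) (nat_lit 1) (nat_lit 99) (nat_lit 1) (nat_lit 355) (nat_lit 332) (nat_lit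 213)) (XT.lf (nat_lit 152) (nat_lit 1053024082) (nat_lit 0) (nat_lit 127) (nat_lit 76) (nat_lit 127) (nat_lit 98) (nat_lit 1) (nat_lit 96) (nat_lit 1) (nat_lit 97) (nat_lit 1) (nat_lit 356) (nat_lit 332) (nat_lit 212)))) (XT.nd (nat_lit 78) (nat_lit 228) (nat_lit 0) (XT.lf (nat_lit 0) (nat_lit 334293334) (nat_lit 0) (nat_lit 334293651) (nat_lit 152) (nat_lit 334293334) (nat_lit 96) (nat_lit 3) (nat_lit 96) (nat_lit 1) (nat_lit 98) (nat_lit 1) (nat_lit 357) (nat_lit 332) (nat_lit 211)) (XT.nd (nat_lit 78) (nat_lit 152) (nat_lit 0) (XT.lf (nat_lit 76) (nat_lit 319098099) (nat_lit 0) (nat_lit 319098375) (nat_lit 76) (nat_lit 319098375) (nat_lit 96) (nat_lit 3) (nat_lit 95) (nat_lit 1) (nat_lit 96) (nat_lit 1) (nat_lit 358) (nat_lit 332) (nat_lit 210)) (XT.lf (nat_lit 152) (nat_lit 915673186) (nat_lit 0) (nat_lit 72) (nat_lit 76) (nat_lit 72) (nat_lit 95) (nat_lit 1) (nat_lit 93) (nat_lit 1) (nat_lit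 94) (nat_lit 1) (nat_lit 359) (nat_lit 332) (nat_lit 209))))))))
noncomputable def ec99 : XT := (XT.nd (nat_lit 37830) (nat_lit 0) (nat_lit 7904) (XT.nd (nat_lit 858) (nat_lit 152) (nat_lit 0) (XT.nd (nat_lit 390) (nat_lit 456) (nat_lit 0) (XT.nd (nat_lit 156) (nat_lit 228) (nat_lit 0) (XT.nd (nat_lit 78) (nat_lit 76) (nat_lit 0) (XT.lf (nat_lit 0) (nat_lit 290689885) (nat_lit 0) (nat_lit 290690067) (nat_lit 152) (nat_lit 290689885) (nat_lit 93) (nat_lit 3) (nat_lit 93) (nat_lit 1) (nat_lit 95) (nat_lit 1) (nat_lit 360) (nat_lit 332) (nat_lit 208)) (XT.lf (nat_lit 76) (nat_lit 277476661) (nat_lit 0) (nat_lit 277476819) (nat_lit 76) (nat_lit 277476819) (nat_lit 93) (nat_lit 3) (nat_lit 92) (nat_lit 1) (nat_lit 93) (nat_lit 1) (nat_lit 361) (nat_lit 332) (nat_lit 207))) (XT.nd (nat_lit 78) (nat_lit 76) (nat_lit 0) (XT.lf (nat_lit 152) (nat_lit 796237593) (nat_lit 0) (nat_lit 41) (nat_lit 76) (nat_lit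 41) (nat_lit 92) (nat_lit 1) (nat_lit 90) (nat_lit 1) (nat_lit 91) (nat_lit 1) (nat_lit 362) (nat_lit 332) (nat_lit 206)) (XT.nd (nat_lit 78) (nat_lit 76) (nat_lit 0) (XT.lf (nat_lit 0) (nat_lit 252773831) (nat_lit 0) (nat_lit 252773934) (nat_lit 152) (nat_lit 252773831) (nat_lit 90) (nat_lit 3) (nat_lit 90) (nat_lit 1) (nat_lit 92) (nat_lit 1) (nat_lit 363) (nat_lit 332) (nat_lit 205)) (XT.lf (nat_lit 76) (nat_lit 241284084) (nat_lit 0) (nat_lit 241284174) (nat_lit 76) (nat_lit 241284174) (nat_lit 90) (nat_lit 3) (nat_lit 89) (nat_lit 1) (nat_lit 90) (nat_lit 1) (nat_lit 364) (nat_lit 332) (nat_lit 204))))) (XT.nd (nat_lit 234) (nat_lit 228) (nat_lit 0) (XT.nd (nat_lit 78) (nat_lit 76) (nat_lit 0) (XT.lf (nat_lit 152) (nat_lit 692380539) (nat_lit 0) (nat_lit 23) (nat_lit 76) (nat_lit 23) (nat_lit 89) (nat_lit 1) (nat_lit 87) (nat_lit 1) (nat_lit 88) (nat_lit 1) (nat_lit 365) (nat_lit 332) (nat_lit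 203)) (XT.nd (nat_lit 78) (nat_lit 76) (nat_lit 0) (XT.lf (nat_lit 0) (nat_lit 219803341) (nat_lit 0) (nat_lit 219803400) (nat_lit 152) (nat_lit 219803341) (nat_lit 87) (nat_lit 3) (nat_lit 87) (nat_lit 1) (nat_lit 89) (nat_lit 1) (nat_lit 366) (nat_lit 332) (nat_lit 202)) (XT.lf (nat_lit 76) (nat_lit 209812264) (nat_lit 0) (nat_lit 209812316) (nat_lit 76) (nat_lit 209812316) (nat_lit 87) (nat_lit 3) (nat_lit 86) (nat_lit 1) (nat_lit 87) (nat_lit 1) (nat_lit 367) (nat_lit 332) (nat_lit 201)))) (XT.nd (nat_lit 78) (nat_lit 76) (nat_lit 0) (XT.lf (nat_lit 152) (nat_lit 602070047) (nat_lit 0) (nat_lit 13) (nat_lit 76) (nat_lit 13) (nat_lit 86) (nat_lit 1) (nat_lit 84) (nat_lit 1) (nat_lit 85) (nat_lit 1) (nat_lit 368) (nat_lit 332) (nat_lit 200)) (XT.nd (nat_lit 78) (nat_lit 76) (nat_lit 0) (XT.lf (nat_lit 0) (nat_lit 191133345) (nat_lit 0) (nat_lit 191133379) (nat_lit 152) (nat_lit 191133345) (nat_lit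 84) (nat_lit 3) (nat_lit 84) (nat_lit 1) (nat_lit 86) (nat_lit 1) (nat_lit 369) (nat_lit 332) (nat_lit 199)) (XT.lf (nat_lit 76) (nat_lit 182445457) (nat_lit 0) (nat_lit 182445486) (nat_lit 76) (nat_lit 182445486) (nat_lit 84) (nat_lit 3) (nat_lit 83) (nat_lit 1) (nat_lit 84) (nat_lit 1) (nat_lit 370) (nat_lit 332) (nat_lit 198)))))) (XT.nd (nat_lit 36504) (nat_lit 0) (nat_lit 9652) (XT.nd (nat_lit 36270) (nat_lit 0) (nat_lit 10184) (XT.nd (nat_lit 36192) (nat_lit 0) (nat_lit 10184) (XT.lf (nat_lit 152) (nat_lit 523539179) (nat_lit 0) (nat_lit 7) (nat_lit 76) (nat_lit 7) (nat_lit 83) (nat_lit 1) (nat_lit 81) (nat_lit 1) (nat_lit 82) (nat_lit 1) (nat_lit 371) (nat_lit 332) (nat_lit 197)) (XT.lf (nat_lit 380) (nat_lit 70656670679) (nat_lit 0) (nat_lit 62582352185) (nat_lit 380) (nat_lit 70656670679) (nat_lit 220) (nat_lit 1) (nat_lit 215) (nat_lit 0) (nat_lit 220) (nat_lit 0) (nat_lit 234) (nat_lit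 333) (nat_lit 333))) (XT.nd (nat_lit 78) (nat_lit 0) (nat_lit 76) (XT.lf (nat_lit 380) (nat_lit 261349855384) (nat_lit 76) (nat_lit 59737699813) (nat_lit 0) (nat_lit 59737699813) (nat_lit 220) (nat_lit 1) (nat_lit 216) (nat_lit 1) (nat_lit 215) (nat_lit 0) (nat_lit 235) (nat_lit 333) (nat_lit 332)) (XT.nd (nat_lit 78) (nat_lit 0) (nat_lit 0) (XT.lf (nat_lit 380) (nat_lit 115201517595) (nat_lit 0) (nat_lit 125350118291) (nat_lit 304) (nat_lit 115201517595) (nat_lit 221) (nat_lit 1) (nat_lit 216) (nat_lit 1) (nat_lit 220) (nat_lit 1) (nat_lit 236) (nat_lit 333) (nat_lit 331)) (XT.lf (nat_lit 380) (nat_lit 197795024113) (nat_lit 76) (nat_lit 67706559717) (nat_lit 0) (nat_lit 67706559717) (nat_lit 221) (nat_lit 1) (nat_lit 217) (nat_lit 1) (nat_lit 216) (nat_lit 1) (nat_lit 237) (nat_lit 333) (nat_lit 330))))) (XT.nd (nat_lit 234) (nat_lit 380) (nat_lit 0) (XT.nd (nat_lit 78) (nat_lit 304) (nat_lit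 0) (XT.lf (nat_lit 76) (nat_lit 80010710599) (nat_lit 0) (nat_lit 152353825360) (nat_lit 304) (nat_lit 80010710599) (nat_lit 218) (nat_lit 1) (nat_lit 217) (nat_lit 1) (nat_lit 221) (nat_lit 1) (nat_lit 238) (nat_lit 333) (nat_lit 329)) (XT.nd (nat_lit 78) (nat_lit 0) (nat_lit 0) (XT.lf (nat_lit 380) (nat_lit 120249636089) (nat_lit 0) (nat_lit 86553382161) (nat_lit 304) (nat_lit 86553382161) (nat_lit 218) (nat_lit 1) (nat_lit 213) (nat_lit 1) (nat_lit 217) (nat_lit 1) (nat_lit 239) (nat_lit 333) (nat_lit 328)) (XT.lf (nat_lit 76) (nat_lit 39969650988) (nat_lit 0) (nat_lit 196132079199) (nat_lit 380) (nat_lit 39969650988) (nat_lit 214) (nat_lit 1) (nat_lit 213) (nat_lit 1) (nat_lit 218) (nat_lit 1) (nat_lit 240) (nat_lit 333) (nat_lit 327)))) (XT.nd (nat_lit 78) (nat_lit 228) (nat_lit 0) (XT.lf (nat_lit 228) (nat_lit 35971743023) (nat_lit 0) (nat_lit 111953174115) (nat_lit 152) (nat_lit 111953174115)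 (nat_lit 214) (nat_lit 1) (nat_lit 211) (nat_lit 1) (nat_lit 213) (nat_lit 1) (nat_lit 241) (nat_lit 333) (nat_lit 326)) (XT.nd (nat_lit 78) (nat_lit 0) (nat_lit 0) (XT.lf (nat_lit 228) (nat_lit 241729660496) (nat_lit 0) (nat_lit 1896613606) (nat_lit 152) (nat_lit 1896613606) (nat_lit 211) (nat_lit 1) (nat_lit 208) (nat_lit 1) (nat_lit 210) (nat_lit 1) (nat_lit 242) (nat_lit 333) (nat_lit 325)) (XT.lf (nat_lit 76) (nat_lit 92874080643) (nat_lit 0) (nat_lit 45596229942) (nat_lit 228) (nat_lit 92874080643) (nat_lit 209) (nat_lit 1) (nat_lit 208) (nat_lit 1) (nat_lit 211) (nat_lit 1) (nat_lit 243) (nat_lit 333) (nat_lit 324))))))) (XT.nd (nat_lit 858) (nat_lit 912) (nat_lit 0) (XT.nd (nat_lit 390) (nat_lit 380) (nat_lit 0) (XT.nd (nat_lit 156) (nat_lit 304) (nat_lit 0) (XT.nd (nat_lit 78) (nat_lit 0) (nat_lit 0) (XT.lf (nat_lit 228) (nat_lit 134996040851) (nat_lit 0) (nat_lit 41874444812) (nat_lit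 152) (nat_lit 41874444812) (nat_lit 209) (nat_lit 1) (nat_lit 206) (nat_lit 1) (nat_lit 208) (nat_lit 1) (nat_lit 244) (nat_lit 333) (nat_lit 323)) (XT.lf (nat_lit 76) (nat_lit 42217689656) (nat_lit 0) (nat_lit 122515013609) (nat_lit 228) (nat_lit 42217689656) (nat_lit 207) (nat_lit 1) (nat_lit 206) (nat_lit 1) (nat_lit 209) (nat_lit 1) (nat_lit 245) (nat_lit 333) (nat_lit 322))) (XT.nd (nat_lit 78) (nat_lit 228) (nat_lit 0) (XT.lf (nat_lit 152) (nat_lit 34900722417) (nat_lit 0) (nat_lit 80533588647) (nat_lit 76) (nat_lit 80533588647) (nat_lit 207) (nat_lit 1) (nat_lit 205) (nat_lit 1) (nat_lit 206) (nat_lit 1) (nat_lit 246) (nat_lit 333) (nat_lit 321)) (XT.nd (nat_lit 78) (nat_lit 0) (nat_lit 0) (XT.lf (nat_lit 228) (nat_lit 176687972349) (nat_lit 0) (nat_lit 4693896822) (nat_lit 152) (nat_lit 4693896822) (nat_lit 205) (nat_lit 1) (nat_lit 202) (nat_lit 1) (nat_lit 204) (nat_lit 1) (nat_lit 247)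 (nat_lit 333) (nat_lit 320)) (XT.lf (nat_lit 76) (nat_lit 61836990211) (nat_lit 0) (nat_lit 52513989628) (nat_lit 228) (nat_lit 61836990211) (nat_lit 203) (nat_lit 1) (nat_lit 202) (nat_lit 1) (nat_lit 205) (nat_lit 1) (nat_lit 248) (nat_lit 333) (nat_lit 319))))) (XT.nd (nat_lit 234) (nat_lit 152) (nat_lit 0) (XT.nd (nat_lit 78) (nat_lit 152) (nat_lit 0) (XT.lf (nat_lit 152) (nat_lit 75187857481) (nat_lit 0) (nat_lit 46045340688) (nat_lit 76) (nat_lit 46045340688) (nat_lit 203) (nat_lit 1) (nat_lit 201) (nat_lit 1) (nat_lit 202) (nat_lit 1) (nat_lit 249) (nat_lit 333) (nat_lit 318)) (XT.nd (nat_lit 78) (nat_lit 152) (nat_lit 0) (XT.lf (nat_lit 0) (nat_lit 14722818639) (nat_lit 0) (nat_lit 129618564780) (nat_lit 152) (nat_lit 14722818639) (nat_lit 201) (nat_lit 3) (nat_lit 201) (nat_lit 1) (nat_lit 203) (nat_lit 1) (nat_lit 250) (nat_lit 333) (nat_lit 317)) (XT.lf (nat_lit 76) (nat_lit 68137142572)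 (nat_lit 0) (nat_lit 14777768324) (nat_lit 152) (nat_lit 68137142572) (nat_lit 200) (nat_lit 1) (nat_lit 199) (nat_lit 1) (nat_lit 201) (nat_lit 1) (nat_lit 251) (nat_lit 333) (nat_lit 316)))) (XT.nd (nat_lit 78) (nat_lit 76) (nat_lit 0) (XT.lf (nat_lit 152) (nat_lit 91017819949) (nat_lit 0) (nat_lit 26326572982) (nat_lit 76) (nat_lit 26326572982) (nat_lit 200) (nat_lit 1) (nat_lit 198) (nat_lit 1) (nat_lit 199) (nat_lit 1) (nat_lit 252) (nat_lit 333) (nat_lit 315)) (XT.nd (nat_lit 78) (nat_lit 76) (nat_lit 0) (XT.lf (nat_lit 0) (nat_lit 23665095025) (nat_lit 0) (nat_lit 89357110786) (nat_lit 152) (nat_lit 23665095025) (nat_lit 198) (nat_lit 3) (nat_lit 198) (nat_lit 1) (nat_lit 200) (nat_lit 1) (nat_lit 253) (nat_lit 333) (nat_lit 314)) (XT.lf (nat_lit 76) (nat_lit 5279259807) (nat_lit 0) (nat_lit 62402751773) (nat_lit 76) (nat_lit 62402751773) (nat_lit 198) (nat_lit 3) (nat_lit 197) (nat_lit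 1) (nat_lit 198) (nat_lit 1) (nat_lit 254) (nat_lit 333) (nat_lit 313)))))) (XT.nd (nat_lit 468) (nat_lit 456) (nat_lit 0) (XT.nd (nat_lit 234) (nat_lit 228) (nat_lit 0) (XT.nd (nat_lit 78) (nat_lit 76) (nat_lit 0) (XT.lf (nat_lit 152) (nat_lit 93804010837) (nat_lit 0) (nat_lit 15052303548) (nat_lit 76) (nat_lit 15052303548) (nat_lit 197) (nat_lit 1) (nat_lit 195) (nat_lit 1) (nat_lit 196) (nat_lit 1) (nat_lit 255) (nat_lit 333) (nat_lit 312)) (XT.nd (nat_lit 78) (nat_lit 76) (nat_lit 0) (XT.lf (nat_lit 0) (nat_lit 26789095483) (nat_lit 0) (nat_lit 64348718704) (nat_lit 152) (nat_lit 26789095483) (nat_lit 195) (nat_lit 3) (nat_lit 195) (nat_lit 1) (nat_lit 197) (nat_lit 1) (nat_lit 256) (nat_lit 333) (nat_lit 311)) (XT.lf (nat_lit 76) (nat_lit 15674275406) (nat_lit 0) (nat_lit 48334817337) (nat_lit 76) (nat_lit 48334817337) (nat_lit 195) (nat_lit 3) (nat_lit 194) (nat_lit 1) (nat_lit 195) (nat_lit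 1) (nat_lit 257) (nat_lit 333) (nat_lit 310)))) (XT.nd (nat_lit 78) (nat_lit 76) (nat_lit 0) (XT.lf (nat_lit 152) (nat_lit 89949510145) (nat_lit 0) (nat_lit 8606203407) (nat_lit 76) (nat_lit 8606203407) (nat_lit 194) (nat_lit 1) (nat_lit 192) (nat_lit 1) (nat_lit 193) (nat_lit 1) (nat_lit 258) (nat_lit 333) (nat_lit 309)) (XT.nd (nat_lit 78) (nat_lit 76) (nat_lit 0) (XT.lf (nat_lit 0) (nat_lit 26845883241) (nat_lit 0) (nat_lit 48320719720) (nat_lit 152) (nat_lit 26845883241) (nat_lit 192) (nat_lit 3) (nat_lit 192) (nat_lit 1) (nat_lit 194) (nat_lit 1) (nat_lit 259) (nat_lit 333) (nat_lit 308)) (XT.lf (nat_lit 76) (nat_lit 19966897381) (nat_lit 0) (nat_lit 38640668233) (nat_lit 76) (nat_lit 38640668233) (nat_lit 192) (nat_lit 3) (nat_lit 191) (nat_lit 1) (nat_lit 192) (nat_lit 1) (nat_lit 260) (nat_lit 333) (nat_lit 307))))) (XT.nd (nat_lit 234) (nat_lit 228) (nat_lit 0) (XT.nd (nat_lit 78) (nat_lit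 76) (nat_lit 0) (XT.lf (nat_lit 152) (nat_lit 83008717842) (nat_lit 0) (nat_lit 4920624730) (nat_lit 76) (nat_lit 4920624730) (nat_lit 191) (nat_lit 1) (nat_lit 189) (nat_lit 1) (nat_lit 190) (nat_lit 1) (nat_lit 261) (nat_lit 333) (nat_lit 306)) (XT.nd (nat_lit 78) (nat_lit 76) (nat_lit 0) (XT.lf (nat_lit 0) (nat_lit 25374552136) (nat_lit 0) (nat_lit 37652859592) (nat_lit 152) (nat_lit 25374552136) (nat_lit 189) (nat_lit 3) (nat_lit 189) (nat_lit 1) (nat_lit 191) (nat_lit 1) (nat_lit 262) (nat_lit 333) (nat_lit 305)) (XT.lf (nat_lit 76) (nat_lit 20985772769) (nat_lit 0) (nat_lit 31662561861) (nat_lit 76) (nat_lit 31662561861) (nat_lit 189) (nat_lit 3) (nat_lit 188) (nat_lit 1) (nat_lit 189) (nat_lit 1) (nat_lit 263) (nat_lit 333) (nat_lit 304)))) (XT.nd (nat_lit 78) (nat_lit 76) (nat_lit 0) (XT.lf (nat_lit 152) (nat_lit 74921193819) (nat_lit 0) (nat_lit 2813383159) (nat_lit 76) (nat_lit 2813383159)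 (nat_lit 188) (nat_lit 1) (nat_lit 186) (nat_lit 1) (nat_lit 187) (nat_lit 1) (nat_lit 264) (nat_lit 333) (nat_lit 303)) (XT.nd (nat_lit 78) (nat_lit 76) (nat_lit 0) (XT.lf (nat_lit 0) (nat_lit 23225661898) (nat_lit 0) (nat_lit 30245824036) (nat_lit 152) (nat_lit 23225661898) (nat_lit 186) (nat_lit 3) (nat_lit 186) (nat_lit 1) (nat_lit 188) (nat_lit 1) (nat_lit 265) (nat_lit 333) (nat_lit 302)) (XT.lf (nat_lit 76) (nat_lit 20320104898) (nat_lit 0) (nat_lit 26424593714) (nat_lit 76) (nat_lit 26424593714) (nat_lit 186) (nat_lit 3) (nat_lit 185) (nat_lit 1) (nat_lit 186) (nat_lit 1) (nat_lit 266) (nat_lit 333) (nat_lit 301))))))))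
noncomputable def ec100 : XT := (XT.nd (nat_lit 1716) (nat_lit 1596) (nat_lit 0) (XT.nd (nat_lit 858) (nat_lit 912) (nat_lit 0) (XT.nd (nat_lit 390) (nat_lit 456) (nat_lit 0) (XT.nd (nat_lit 156) (nat_lit 228) (nat_lit 0) (XT.nd (nat_lit 78) (nat_lit 0) (nat_lit 0) (XT.lf (nat_lit 152) (nat_lit 66715296582) (nat_lit 0) (nat_lit 1608560952) (nat_lit 76) (nat_lit 1608560952) (nat_lit 185) (nat_lit 1) (nat_lit 183) (nat_lit 1) (nat_lit 184) (nat_lit 1) (nat_lit 267) (nat_lit 333) (nat_lit 300)) (XT.lf (nat_lit 0) (nat_lit 20859938318) (nat_lit 0) (nat_lit 24873738805) (nat_lit 152) (nat_lit 20859938318) (nat_lit 183) (nat_lit 3) (nat_lit 183) (nat_lit 1) (nat_lit 185) (nat_lit 1) (nat_lit 268) (nat_lit 333) (nat_lit 299))) (XT.nd (nat_lit 78) (nat_lit 152) (nat_lit 0) (XT.lf (nat_lit 76) (nat_lit 18854104366) (nat_lit 0) (nat_lit 22344365659) (nat_lit 76) (nat_lit 22344365659) (nat_lit 183) (nat_lit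 3) (nat_lit 182) (nat_lit 1) (nat_lit 183) (nat_lit 1) (nat_lit 269) (nat_lit 333) (nat_lit 298)) (XT.nd (nat_lit 78) (nat_lit 0) (nat_lit 0) (XT.lf (nat_lit 152) (nat_lit 58908914180) (nat_lit 0) (nat_lit 919699945) (nat_lit 76) (nat_lit 919699945) (nat_lit 182) (nat_lit 1) (nat_lit 180) (nat_lit 1) (nat_lit 181) (nat_lit 1) (nat_lit 270) (nat_lit 333) (nat_lit 297)) (XT.lf (nat_lit 0) (nat_lit 18518555477) (nat_lit 0) (nat_lit 20813458932) (nat_lit 152) (nat_lit 18518555477) (nat_lit 180) (nat_lit 3) (nat_lit 180) (nat_lit 1) (nat_lit 182) (nat_lit 1) (nat_lit 271) (nat_lit 333) (nat_lit 296))))) (XT.nd (nat_lit 234) (nat_lit 228) (nat_lit 0) (XT.nd (nat_lit 78) (nat_lit 152) (nat_lit 0) (XT.lf (nat_lit 76) (nat_lit 17072085312) (nat_lit 0) (nat_lit 19067653534) (nat_lit 76) (nat_lit 19067653534) (nat_lit 180) (nat_lit 3) (nat_lit 179) (nat_lit 1) (nat_lit 180) (nat_lit 1) (nat_lit 272) (nat_lit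 333) (nat_lit 295)) (XT.nd (nat_lit 78) (nat_lit 0) (nat_lit 0) (XT.lf (nat_lit 152) (nat_lit 51737212292) (nat_lit 0) (nat_lit 525841428) (nat_lit 76) (nat_lit 525841428) (nat_lit 179) (nat_lit 1) (nat_lit 177) (nat_lit 1) (nat_lit 178) (nat_lit 1) (nat_lit 273) (nat_lit 333) (nat_lit 294)) (XT.lf (nat_lit 0) (nat_lit 16320059885) (nat_lit 0) (nat_lit 17632178384) (nat_lit 152) (nat_lit 16320059885) (nat_lit 177) (nat_lit 3) (nat_lit 177) (nat_lit 1) (nat_lit 179) (nat_lit 1) (nat_lit 274) (nat_lit 333) (nat_lit 293)))) (XT.nd (nat_lit 78) (nat_lit 152) (nat_lit 0) (XT.lf (nat_lit 76) (nat_lit 15232489706) (nat_lit 0) (nat_lit 16373462314) (nat_lit 76) (nat_lit 16373462314) (nat_lit 177) (nat_lit 3) (nat_lit 176) (nat_lit 1) (nat_lit 177) (nat_lit 1) (nat_lit 275) (nat_lit 333) (nat_lit 292)) (XT.nd (nat_lit 78) (nat_lit 0) (nat_lit 0) (XT.lf (nat_lit 152) (nat_lit 45281657669) (nat_lit 0) (nat_lit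 300651543) (nat_lit 76) (nat_lit 300651543) (nat_lit 176) (nat_lit 1) (nat_lit 174) (nat_lit 1) (nat_lit 175) (nat_lit 1) (nat_lit 276) (nat_lit 333) (nat_lit 291)) (XT.lf (nat_lit 0) (nat_lit 14315408675) (nat_lit 0) (nat_lit 15065616685) (nat_lit 152) (nat_lit 14315408675) (nat_lit 174) (nat_lit 3) (nat_lit 174) (nat_lit 1) (nat_lit 176) (nat_lit 1) (nat_lit 277) (nat_lit 333) (nat_lit 290)))))) (XT.nd (nat_lit 390) (nat_lit 456) (nat_lit 0) (XT.nd (nat_lit 156) (nat_lit 228) (nat_lit 0) (XT.nd (nat_lit 78) (nat_lit 152) (nat_lit 0) (XT.lf (nat_lit 76) (nat_lit 13467025010) (nat_lit 0) (nat_lit 14119379802) (nat_lit 76) (nat_lit 14119379802) (nat_lit 174) (nat_lit 3) (nat_lit 173) (nat_lit 1) (nat_lit 174) (nat_lit 1) (nat_lit 278) (nat_lit 333) (nat_lit 289)) (XT.lf (nat_lit 152) (nat_lit 39542750931) (nat_lit 0) (nat_lit 171898495) (nat_lit 76) (nat_lit 171898495) (nat_lit 173) (nat_lit 1)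 (nat_lit 171) (nat_lit 1) (nat_lit 172) (nat_lit 1) (nat_lit 279) (nat_lit 333) (nat_lit 288))) (XT.nd (nat_lit 78) (nat_lit 228) (nat_lit 0) (XT.lf (nat_lit 0) (nat_lit 12519108735) (nat_lit 0) (nat_lit 12948042599) (nat_lit 152) (nat_lit 12519108735) (nat_lit 171) (nat_lit 3) (nat_lit 171) (nat_lit 1) (nat_lit 173) (nat_lit 1) (nat_lit 280) (nat_lit 333) (nat_lit 287)) (XT.nd (nat_lit 78) (nat_lit 152) (nat_lit 0) (XT.lf (nat_lit 76) (nat_lit 11837032286) (nat_lit 0) (nat_lit 12210018256) (nat_lit 76) (nat_lit 12210018256) (nat_lit 171) (nat_lit 3) (nat_lit 170) (nat_lit 1) (nat_lit 171) (nat_lit 1) (nat_lit 281) (nat_lit 333) (nat_lit 286)) (XT.lf (nat_lit 152) (nat_lit 34480710266) (nat_lit 0) (nat_lit 98283522) (nat_lit 76) (nat_lit 98283522) (nat_lit 170) (nat_lit 1) (nat_lit 168) (nat_lit 1) (nat_lit 169) (nat_lit 1) (nat_lit 282) (nat_lit 333) (nat_lit 285))))) (XT.nd (nat_lit 234) (nat_lit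 228) (nat_lit 0) (XT.nd (nat_lit 78) (nat_lit 228) (nat_lit 0) (XT.lf (nat_lit 0) (nat_lit 10926734410) (nat_lit 0) (nat_lit 11171978739) (nat_lit 152) (nat_lit 10926734410) (nat_lit 168) (nat_lit 3) (nat_lit 168) (nat_lit 1) (nat_lit 170) (nat_lit 1) (nat_lit 283) (nat_lit 333) (nat_lit 284)) (XT.nd (nat_lit 78) (nat_lit 152) (nat_lit 0) (XT.lf (nat_lit 76) (nat_lit 10365441652) (nat_lit 0) (nat_lit 10578697591) (nat_lit 76) (nat_lit 10578697591) (nat_lit 168) (nat_lit 3) (nat_lit 167) (nat_lit 1) (nat_lit 168) (nat_lit 1) (nat_lit 284) (nat_lit 333) (nat_lit 283)) (XT.lf (nat_lit 152) (nat_lit 30037948510) (nat_lit 0) (nat_lit 56193923) (nat_lit 76) (nat_lit 56193923) (nat_lit 167) (nat_lit 1) (nat_lit 165) (nat_lit 1) (nat_lit 166) (nat_lit 1) (nat_lit 285) (nat_lit 333) (nat_lit 282)))) (XT.nd (nat_lit 78) (nat_lit 228) (nat_lit 0) (XT.lf (nat_lit 0) (nat_lit 9524694436) (nat_lit 0) (nat_lit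 9664913677) (nat_lit 152) (nat_lit 9524694436) (nat_lit 165) (nat_lit 3) (nat_lit 165) (nat_lit 1) (nat_lit 167) (nat_lit 1) (nat_lit 286) (nat_lit 333) (nat_lit 281)) (XT.nd (nat_lit 78) (nat_lit 152) (nat_lit 0) (XT.lf (nat_lit 76) (nat_lit 9054805363) (nat_lit 0) (nat_lit 9176735138) (nat_lit 76) (nat_lit 9176735138) (nat_lit 165) (nat_lit 3) (nat_lit 164) (nat_lit 1) (nat_lit 165) (nat_lit 1) (nat_lit 287) (nat_lit 333) (nat_lit 280)) (XT.lf (nat_lit 152) (nat_lit 26151242817) (nat_lit 0) (nat_lit 32129057) (nat_lit 76) (nat_lit 32129057) (nat_lit 164) (nat_lit 1) (nat_lit 162) (nat_lit 1) (nat_lit 163) (nat_lit 1) (nat_lit 288) (nat_lit 333) (nat_lit 279))))))) (XT.nd (nat_lit 858) (nat_lit 836) (nat_lit 0) (XT.nd (nat_lit 390) (nat_lit 456) (nat_lit 0) (XT.nd (nat_lit 156) (nat_lit 228) (nat_lit 0) (XT.nd (nat_lit 78) (nat_lit 76) (nat_lit 0) (XT.lf (nat_lit 0) (nat_lit 8295599803) (nat_lit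 0) (nat_lit 8375770609) (nat_lit 152) (nat_lit 8295599803) (nat_lit 162) (nat_lit 3) (nat_lit 162) (nat_lit 1) (nat_lit 164) (nat_lit 1) (nat_lit 289) (nat_lit 333) (nat_lit 278)) (XT.lf (nat_lit 76) (nat_lit 7897401707) (nat_lit 0) (nat_lit 7967115452) (nat_lit 76) (nat_lit 7967115452) (nat_lit 162) (nat_lit 3) (nat_lit 161) (nat_lit 1) (nat_lit 162) (nat_lit 1) (nat_lit 290) (nat_lit 333) (nat_lit 277))) (XT.nd (nat_lit 78) (nat_lit 76) (nat_lit 0) (XT.lf (nat_lit 152) (nat_lit 22758099927) (nat_lit 0) (nat_lit 18369893) (nat_lit 76) (nat_lit 18369893) (nat_lit 161) (nat_lit 1) (nat_lit 159) (nat_lit 1) (nat_lit 160) (nat_lit 1) (nat_lit 291) (nat_lit 333) (nat_lit 276)) (XT.nd (nat_lit 78) (nat_lit 76) (nat_lit 0) (XT.lf (nat_lit 0) (nat_lit 7221144673) (nat_lit 0) (nat_lit 7266982592) (nat_lit 152) (nat_lit 7221144673) (nat_lit 159) (nat_lit 3) (nat_lit 159) (nat_lit 1) (nat_lit 161) (nat_lit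 1) (nat_lit 292) (nat_lit 333) (nat_lit 275)) (XT.lf (nat_lit 76) (nat_lit 6880832321) (nat_lit 0) (nat_lit 6920691381) (nat_lit 76) (nat_lit 6920691381) (nat_lit 159) (nat_lit 3) (nat_lit 158) (nat_lit 1) (nat_lit 159) (nat_lit 1) (nat_lit 293) (nat_lit 333) (nat_lit 274))))) (XT.nd (nat_lit 234) (nat_lit 228) (nat_lit 0) (XT.nd (nat_lit 78) (nat_lit 76) (nat_lit 0) (XT.lf (nat_lit 152) (nat_lit 19799880079) (nat_lit 0) (nat_lit 10503046) (nat_lit 76) (nat_lit 10503046) (nat_lit 158) (nat_lit 1) (nat_lit 156) (nat_lit 1) (nat_lit 157) (nat_lit 1) (nat_lit 294) (nat_lit 333) (nat_lit 273)) (XT.nd (nat_lit 78) (nat_lit 76) (nat_lit 0) (XT.lf (nat_lit 0) (nat_lit 6283589914) (nat_lit 0) (nat_lit 6309797893) (nat_lit 152) (nat_lit 6283589914) (nat_lit 156) (nat_lit 3) (nat_lit 156) (nat_lit 1) (nat_lit 158) (nat_lit 1) (nat_lit 295) (nat_lit 333) (nat_lit 272)) (XT.lf (nat_lit 76) (nat_lit 5991066267)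 (nat_lit 0) (nat_lit 6013855814) (nat_lit 76) (nat_lit 6013855814) (nat_lit 156) (nat_lit 3) (nat_lit 155) (nat_lit 1) (nat_lit 156) (nat_lit 1) (nat_lit 296) (nat_lit 333) (nat_lit 271)))) (XT.nd (nat_lit 78) (nat_lit 76) (nat_lit 0) (XT.lf (nat_lit 152) (nat_lit 17223134900) (nat_lit 0) (nat_lit 6005150) (nat_lit 76) (nat_lit 6005150) (nat_lit 155) (nat_lit 1) (nat_lit 153) (nat_lit 1) (nat_lit 154) (nat_lit 1) (nat_lit 297) (nat_lit 333) (nat_lit 270)) (XT.nd (nat_lit 78) (nat_lit 76) (nat_lit 0) (XT.lf (nat_lit 0) (nat_lit 5466469023) (nat_lit 0) (nat_lit 5481453520) (nat_lit 152) (nat_lit 5466469023) (nat_lit 153) (nat_lit 3) (nat_lit 153) (nat_lit 1) (nat_lit 155) (nat_lit 1) (nat_lit 298) (nat_lit 333) (nat_lit 269)) (XT.lf (nat_lit 76) (nat_lit 5214044674) (nat_lit 0) (nat_lit 5227074672) (nat_lit 76) (nat_lit 5227074672) (nat_lit 153) (nat_lit 3) (nat_lit 152) (nat_lit 1) (nat_lit 153)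 (nat_lit 1) (nat_lit 299) (nat_lit 333) (nat_lit 268)))))) (XT.nd (nat_lit 390) (nat_lit 456) (nat_lit 0) (XT.nd (nat_lit 156) (nat_lit 228) (nat_lit 0) (XT.nd (nat_lit 78) (nat_lit 0) (nat_lit 0) (XT.lf (nat_lit 152) (nat_lit 14979982584) (nat_lit 0) (nat_lit 3433464) (nat_lit 76) (nat_lit 3433464) (nat_lit 152) (nat_lit 1) (nat_lit 150) (nat_lit 1) (nat_lit 151) (nat_lit 1) (nat_lit 300) (nat_lit 333) (nat_lit 267)) (XT.lf (nat_lit 0) (nat_lit 4754868011) (nat_lit 0) (nat_lit 4763435446) (nat_lit 152) (nat_lit 4754868011) (nat_lit 150) (nat_lit 3) (nat_lit 150) (nat_lit 1) (nat_lit 152) (nat_lit 1) (nat_lit 301) (nat_lit 333) (nat_lit 266))) (XT.nd (nat_lit 78) (nat_lit 152) (nat_lit 0) (XT.lf (nat_lit 76) (nat_lit 4536480088) (nat_lit 0) (nat_lit 4543930031) (nat_lit 76) (nat_lit 4543930031) (nat_lit 150) (nat_lit 3) (nat_lit 149) (nat_lit 1) (nat_lit 150) (nat_lit 1) (nat_lit 302) (nat_lit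 333) (nat_lit 265)) (XT.nd (nat_lit 78) (nat_lit 0) (nat_lit 0) (XT.lf (nat_lit 152) (nat_lit 13027983493) (nat_lit 0) (nat_lit 1963094) (nat_lit 76) (nat_lit 1963094) (nat_lit 149) (nat_lit 1) (nat_lit 147) (nat_lit 1) (nat_lit 148) (nat_lit 1) (nat_lit 303) (nat_lit 333) (nat_lit 264)) (XT.lf (nat_lit 0) (nat_lit 4135477831) (nat_lit 0) (nat_lit 4140376289) (nat_lit 152) (nat_lit 4135477831) (nat_lit 147) (nat_lit 3) (nat_lit 147) (nat_lit 1) (nat_lit 149) (nat_lit 1) (nat_lit 304) (nat_lit 333) (nat_lit 263))))) (XT.nd (nat_lit 234) (nat_lit 228) (nat_lit 0) (XT.nd (nat_lit 78) (nat_lit 152) (nat_lit 0) (XT.lf (nat_lit 76) (nat_lit 3946210799) (nat_lit 0) (nat_lit 3950470328) (nat_lit 76) (nat_lit 3950470328) (nat_lit 147) (nat_lit 3) (nat_lit 146) (nat_lit 1) (nat_lit 147) (nat_lit 1) (nat_lit 305) (nat_lit 333) (nat_lit 262)) (XT.nd (nat_lit 78) (nat_lit 0) (nat_lit 0) (XT.lf (nat_lit 152)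 (nat_lit 11329774308) (nat_lit 0) (nat_lit 1122405) (nat_lit 76) (nat_lit 1122405) (nat_lit 146) (nat_lit 1) (nat_lit 144) (nat_lit 1) (nat_lit 145) (nat_lit 1) (nat_lit 306) (nat_lit 333) (nat_lit 261)) (XT.lf (nat_lit 0) (nat_lit 3596530796) (nat_lit 0) (nat_lit 3599331506) (nat_lit 152) (nat_lit 3596530796) (nat_lit 144) (nat_lit 3) (nat_lit 144) (nat_lit 1) (nat_lit 146) (nat_lit 1) (nat_lit 307) (nat_lit 333) (nat_lit 260)))) (XT.nd (nat_lit 78) (nat_lit 152) (nat_lit 0) (XT.lf (nat_lit 76) (nat_lit 3432314124) (nat_lit 0) (nat_lit 3434749523) (nat_lit 76) (nat_lit 3434749523) (nat_lit 144) (nat_lit 3) (nat_lit 143) (nat_lit 1) (nat_lit 144) (nat_lit 1) (nat_lit 308) (nat_lit 333) (nat_lit 259)) (XT.nd (nat_lit 78) (nat_lit 0) (nat_lit 0) (XT.lf (nat_lit 152) (nat_lit 9852602591) (nat_lit 0) (nat_lit 641739) (nat_lit 76) (nat_lit 641739) (nat_lit 143) (nat_lit 1) (nat_lit 141) (nat_lit 1)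 (nat_lit 142) (nat_lit 1) (nat_lit 309) (nat_lit 333) (nat_lit 258)) (XT.lf (nat_lit 0) (nat_lit 3127682872) (nat_lit 0) (nat_lit 3129284187) (nat_lit 152) (nat_lit 3127682872) (nat_lit 141) (nat_lit 3) (nat_lit 141) (nat_lit 1) (nat_lit 143) (nat_lit 1) (nat_lit 310) (nat_lit 333) (nat_lit 257))))))))
noncomputable def ec101 : XT := (XT.nd (nat_lit 1716) (nat_lit 1748) (nat_lit 0) (XT.nd (nat_lit 858) (nat_lit 760) (nat_lit 0) (XT.nd (nat_lit 390) (nat_lit 456) (nat_lit 0) (XT.nd (nat_lit 156) (nat_lit 228) (nat_lit 0) (XT.nd (nat_lit 78) (nat_lit 152) (nat_lit 0) (XT.lf (nat_lit 76) (nat_lit 2985093515) (nat_lit 0) (nat_lit 2986485963) (nat_lit 76) (nat_lit 2986485963) (nat_lit 141) (nat_lit 3) (nat_lit 140) (nat_lit 1) (nat_lit 141) (nat_lit 1) (nat_lit 311) (nat_lit 333) (nat_lit 256)) (XT.lf (nat_lit 152) (nat_lit 8567837820) (nat_lit 0) (nat_lit 366916) (nat_lit 76) (nat_lit 366916) (nat_lit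 140) (nat_lit 1) (nat_lit 138) (nat_lit 1) (nat_lit 139) (nat_lit 1) (nat_lit 312) (nat_lit 333) (nat_lit 255))) (XT.nd (nat_lit 78) (nat_lit 228) (nat_lit 0) (XT.lf (nat_lit 0) (nat_lit 2719875631) (nat_lit 0) (nat_lit 2720791188) (nat_lit 152) (nat_lit 2719875631) (nat_lit 138) (nat_lit 3) (nat_lit 138) (nat_lit 1) (nat_lit 140) (nat_lit 1) (nat_lit 313) (nat_lit 333) (nat_lit 254)) (XT.nd (nat_lit 78) (nat_lit 152) (nat_lit 0) (XT.lf (nat_lit 76) (nat_lit 2596003667) (nat_lit 0) (nat_lit 2596799803) (nat_lit 76) (nat_lit 2596799803) (nat_lit 138) (nat_lit 3) (nat_lit 137) (nat_lit 1) (nat_lit 138) (nat_lit 1) (nat_lit 314) (nat_lit 333) (nat_lit 253)) (XT.lf (nat_lit 152) (nat_lit 7450498048) (nat_lit 0) (nat_lit 209785) (nat_lit 76) (nat_lit 209785) (nat_lit 137) (nat_lit 1) (nat_lit 135) (nat_lit 1) (nat_lit 136) (nat_lit 1) (nat_lit 315) (nat_lit 333) (nat_lit 252))))) (XT.nd (nat_lit 234)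 (nat_lit 228) (nat_lit 0) (XT.nd (nat_lit 78) (nat_lit 228) (nat_lit 0) (XT.lf (nat_lit 0) (nat_lit 2365195804) (nat_lit 0) (nat_lit 2365719277) (nat_lit 152) (nat_lit 2365195804) (nat_lit 135) (nat_lit 3) (nat_lit 135) (nat_lit 1) (nat_lit 137) (nat_lit 1) (nat_lit 316) (nat_lit 333) (nat_lit 251)) (XT.nd (nat_lit 78) (nat_lit 152) (nat_lit 0) (XT.lf (nat_lit 76) (nat_lit 2257548966) (nat_lit 0) (nat_lit 2258004160) (nat_lit 76) (nat_lit 2258004160) (nat_lit 135) (nat_lit 3) (nat_lit 134) (nat_lit 1) (nat_lit 135) (nat_lit 1) (nat_lit 317) (nat_lit 333) (nat_lit 250)) (XT.lf (nat_lit 152) (nat_lit 6478810759) (nat_lit 0) (nat_lit 119945) (nat_lit 76) (nat_lit 119945) (nat_lit 134) (nat_lit 1) (nat_lit 132) (nat_lit 1) (nat_lit 133) (nat_lit 1) (nat_lit 318) (nat_lit 333) (nat_lit 249)))) (XT.nd (nat_lit 78) (nat_lit 228) (nat_lit 0) (XT.lf (nat_lit 0) (nat_lit 2056741494) (nat_lit 0) (nat_lit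 2057040791) (nat_lit 152) (nat_lit 2056741494) (nat_lit 132) (nat_lit 3) (nat_lit 132) (nat_lit 1) (nat_lit 134) (nat_lit 1) (nat_lit 319) (nat_lit 333) (nat_lit 248)) (XT.nd (nat_lit 78) (nat_lit 152) (nat_lit 0) (XT.lf (nat_lit 76) (nat_lit 1963174378) (nat_lit 0) (nat_lit 1963434637) (nat_lit 76) (nat_lit 1963434637) (nat_lit 132) (nat_lit 3) (nat_lit 131) (nat_lit 1) (nat_lit 132) (nat_lit 1) (nat_lit 320) (nat_lit 333) (nat_lit 247)) (XT.lf (nat_lit 152) (nat_lit 5633815269) (nat_lit 0) (nat_lit 68579) (nat_lit 76) (nat_lit 68579) (nat_lit 131) (nat_lit 1) (nat_lit 129) (nat_lit 1) (nat_lit 130) (nat_lit 1) (nat_lit 321) (nat_lit 333) (nat_lit 246)))))) (XT.nd (nat_lit 390) (nat_lit 456) (nat_lit 0) (XT.nd (nat_lit 156) (nat_lit 228) (nat_lit 0) (XT.nd (nat_lit 78) (nat_lit 76) (nat_lit 0) (XT.lf (nat_lit 0) (nat_lit 1788499161) (nat_lit 0) (nat_lit 1788670285) (nat_lit 152) (nat_lit 1788499161)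 (nat_lit 129) (nat_lit 3) (nat_lit 129) (nat_lit 1) (nat_lit 131) (nat_lit 1) (nat_lit 322) (nat_lit 333) (nat_lit 245)) (XT.lf (nat_lit 76) (nat_lit 1707158653) (nat_lit 0) (nat_lit 1707307456) (nat_lit 76) (nat_lit 1707307456) (nat_lit 129) (nat_lit 3) (nat_lit 128) (nat_lit 1) (nat_lit 129) (nat_lit 1) (nat_lit 323) (nat_lit 333) (nat_lit 244))) (XT.nd (nat_lit 78) (nat_lit 76) (nat_lit 0) (XT.lf (nat_lit 152) (nat_lit 4899007983) (nat_lit 0) (nat_lit 39210) (nat_lit 76) (nat_lit 39210) (nat_lit 128) (nat_lit 1) (nat_lit 126) (nat_lit 1) (nat_lit 127) (nat_lit 1) (nat_lit 324) (nat_lit 333) (nat_lit 243)) (XT.nd (nat_lit 78) (nat_lit 76) (nat_lit 0) (XT.lf (nat_lit 0) (nat_lit 1555232840) (nat_lit 0) (nat_lit 1555330681) (nat_lit 152) (nat_lit 1555232840) (nat_lit 126) (nat_lit 3) (nat_lit 126) (nat_lit 1) (nat_lit 128) (nat_lit 1) (nat_lit 325) (nat_lit 333) (nat_lit 242)) (XT.lf (nat_lit 76)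 (nat_lit 1484514657) (nat_lit 0) (nat_lit 1484599736) (nat_lit 76) (nat_lit 1484599736) (nat_lit 126) (nat_lit 3) (nat_lit 125) (nat_lit 1) (nat_lit 126) (nat_lit 1) (nat_lit 326) (nat_lit 333) (nat_lit 241))))) (XT.nd (nat_lit 234) (nat_lit 228) (nat_lit 0) (XT.nd (nat_lit 78) (nat_lit 76) (nat_lit 0) (XT.lf (nat_lit 152) (nat_lit 4260028773) (nat_lit 0) (nat_lit 22418) (nat_lit 76) (nat_lit 22418) (nat_lit 125) (nat_lit 1) (nat_lit 123) (nat_lit 1) (nat_lit 124) (nat_lit 1) (nat_lit 327) (nat_lit 333) (nat_lit 240)) (XT.nd (nat_lit 78) (nat_lit 76) (nat_lit 0) (XT.lf (nat_lit 0) (nat_lit 1352385633) (nat_lit 0) (nat_lit 1352441574) (nat_lit 152) (nat_lit 1352385633) (nat_lit 123) (nat_lit 3) (nat_lit 123) (nat_lit 1) (nat_lit 125) (nat_lit 1) (nat_lit 328) (nat_lit 333) (nat_lit 239)) (XT.lf (nat_lit 76) (nat_lit 1290898818) (nat_lit 0) (nat_lit 1290947462) (nat_lit 76) (nat_lit 1290947462) (nat_lit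 123) (nat_lit 3) (nat_lit 122) (nat_lit 1) (nat_lit 123) (nat_lit 1) (nat_lit 329) (nat_lit 333) (nat_lit 238)))) (XT.nd (nat_lit 78) (nat_lit 76) (nat_lit 0) (XT.lf (nat_lit 152) (nat_lit 3704385328) (nat_lit 0) (nat_lit 12817) (nat_lit 76) (nat_lit 12817) (nat_lit 122) (nat_lit 1) (nat_lit 120) (nat_lit 1) (nat_lit 121) (nat_lit 1) (nat_lit 330) (nat_lit 333) (nat_lit 237)) (XT.nd (nat_lit 78) (nat_lit 76) (nat_lit 0) (XT.lf (nat_lit 0) (nat_lit 1175992796) (nat_lit 0) (nat_lit 1176024780) (nat_lit 152) (nat_lit 1175992796) (nat_lit 120) (nat_lit 3) (nat_lit 120) (nat_lit 1) (nat_lit 122) (nat_lit 1) (nat_lit 331) (nat_lit 333) (nat_lit 236)) (XT.lf (nat_lit 76) (nat_lit 1122530150) (nat_lit 0) (nat_lit 1122557962) (nat_lit 76) (nat_lit 1122557962) (nat_lit 120) (nat_lit 3) (nat_lit 119) (nat_lit 1) (nat_lit 120) (nat_lit 1) (nat_lit 332) (nat_lit 333) (nat_lit 235))))))) (XT.nd (nat_lit 858)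 (nat_lit 912) (nat_lit 0) (XT.nd (nat_lit 390) (nat_lit 456) (nat_lit 0) (XT.nd (nat_lit 156) (nat_lit 228) (nat_lit 0) (XT.nd (nat_lit 78) (nat_lit 0) (nat_lit 0) (XT.lf (nat_lit 152) (nat_lit 3221211770) (nat_lit 0) (nat_lit 7328) (nat_lit 76) (nat_lit 7328) (nat_lit 119) (nat_lit 1) (nat_lit 117) (nat_lit 1) (nat_lit 118) (nat_lit 1) (nat_lit 333) (nat_lit 333) (nat_lit 234)) (XT.lf (nat_lit 0) (nat_lit 1022605455) (nat_lit 0) (nat_lit 1022623742) (nat_lit 152) (nat_lit 1022605455) (nat_lit 117) (nat_lit 3) (nat_lit 117) (nat_lit 1) (nat_lit 119) (nat_lit 1) (nat_lit 334) (nat_lit 333) (nat_lit 233))) (XT.nd (nat_lit 78) (nat_lit 152) (nat_lit 0) (XT.lf (nat_lit 76) (nat_lit 976118570) (nat_lit 0) (nat_lit 976134472) (nat_lit 76) (nat_lit 976134472) (nat_lit 117) (nat_lit 3) (nat_lit 116) (nat_lit 1) (nat_lit 117) (nat_lit 1) (nat_lit 335) (nat_lit 333) (nat_lit 232)) (XT.nd (nat_lit 78) (nat_lit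 0) (nat_lit 0) (XT.lf (nat_lit 152) (nat_lit 2801057793) (nat_lit 0) (nat_lit 4190) (nat_lit 76) (nat_lit 4190) (nat_lit 116) (nat_lit 1) (nat_lit 114) (nat_lit 1) (nat_lit 115) (nat_lit 1) (nat_lit 336) (nat_lit 333) (nat_lit 231)) (XT.lf (nat_lit 0) (nat_lit 889223864) (nat_lit 0) (nat_lit 889234319) (nat_lit 152) (nat_lit 889223864) (nat_lit 114) (nat_lit 3) (nat_lit 114) (nat_lit 1) (nat_lit 116) (nat_lit 1) (nat_lit 337) (nat_lit 333) (nat_lit 230))))) (XT.nd (nat_lit 234) (nat_lit 228) (nat_lit 0) (XT.nd (nat_lit 78) (nat_lit 152) (nat_lit 0) (XT.lf (nat_lit 76) (nat_lit 848801842) (nat_lit 0) (nat_lit 848810934) (nat_lit 76) (nat_lit 848810934) (nat_lit 114) (nat_lit 3) (nat_lit 113) (nat_lit 1) (nat_lit 114) (nat_lit 1) (nat_lit 338) (nat_lit 333) (nat_lit 229)) (XT.nd (nat_lit 78) (nat_lit 0) (nat_lit 0) (XT.lf (nat_lit 152) (nat_lit 2435704762) (nat_lit 0) (nat_lit 2395) (nat_lit 76)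 (nat_lit 2395) (nat_lit 113) (nat_lit 1) (nat_lit 111) (nat_lit 1) (nat_lit 112) (nat_lit 1) (nat_lit 339) (nat_lit 333) (nat_lit 228)) (XT.lf (nat_lit 0) (nat_lit 773239131) (nat_lit 0) (nat_lit 773245109) (nat_lit 152) (nat_lit 773239131) (nat_lit 111) (nat_lit 3) (nat_lit 111) (nat_lit 1) (nat_lit 113) (nat_lit 1) (nat_lit 340) (nat_lit 333) (nat_lit 227)))) (XT.nd (nat_lit 78) (nat_lit 152) (nat_lit 0) (XT.lf (nat_lit 76) (nat_lit 738090322) (nat_lit 0) (nat_lit 738095521) (nat_lit 76) (nat_lit 738095521) (nat_lit 111) (nat_lit 3) (nat_lit 110) (nat_lit 1) (nat_lit 111) (nat_lit 1) (nat_lit 341) (nat_lit 333) (nat_lit 226)) (XT.nd (nat_lit 78) (nat_lit 0) (nat_lit 0) (XT.lf (nat_lit 152) (nat_lit 2118005475) (nat_lit 0) (nat_lit 1369) (nat_lit 76) (nat_lit 1369) (nat_lit 110) (nat_lit 1) (nat_lit 108) (nat_lit 1) (nat_lit 109) (nat_lit 1) (nat_lit 342) (nat_lit 333) (nat_lit 225)) (XT.lf (nat_lit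 0) (nat_lit 672382418) (nat_lit 0) (nat_lit 672385836) (nat_lit 152) (nat_lit 672382418) (nat_lit 108) (nat_lit 3) (nat_lit 108) (nat_lit 1) (nat_lit 110) (nat_lit 1) (nat_lit 343) (nat_lit 333) (nat_lit 224)))))) (XT.nd (nat_lit 468) (nat_lit 456) (nat_lit 0) (XT.nd (nat_lit 234) (nat_lit 228) (nat_lit 0) (XT.nd (nat_lit 78) (nat_lit 152) (nat_lit 0) (XT.lf (nat_lit 76) (nat_lit 641818680) (nat_lit 0) (nat_lit 641821652) (nat_lit 76) (nat_lit 641821652) (nat_lit 108) (nat_lit 3) (nat_lit 107) (nat_lit 1) (nat_lit 108) (nat_lit 1) (nat_lit 344) (nat_lit 333) (nat_lit 223)) (XT.nd (nat_lit 78) (nat_lit 0) (nat_lit 0) (XT.lf (nat_lit 152) (nat_lit 1841744654) (nat_lit 0) (nat_lit 783) (nat_lit 76) (nat_lit 783) (nat_lit 107) (nat_lit 1) (nat_lit 105) (nat_lit 1) (nat_lit 106) (nat_lit 1) (nat_lit 345) (nat_lit 333) (nat_lit 222)) (XT.lf (nat_lit 0) (nat_lit 584680687) (nat_lit 0) (nat_lit 584682641)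 (nat_lit 152) (nat_lit 584680687) (nat_lit 105) (nat_lit 3) (nat_lit 105) (nat_lit 1) (nat_lit 107) (nat_lit 1) (nat_lit 346) (nat_lit 333) (nat_lit 221)))) (XT.nd (nat_lit 78) (nat_lit 152) (nat_lit 0) (XT.lf (nat_lit 76) (nat_lit 558103777) (nat_lit 0) (nat_lit 558105476) (nat_lit 76) (nat_lit 558105476) (nat_lit 105) (nat_lit 3) (nat_lit 104) (nat_lit 1) (nat_lit 105) (nat_lit 1) (nat_lit 347) (nat_lit 333) (nat_lit 220)) (XT.nd (nat_lit 78) (nat_lit 0) (nat_lit 0) (XT.lf (nat_lit 152) (nat_lit 1601517526) (nat_lit 0) (nat_lit 447) (nat_lit 76) (nat_lit 447) (nat_lit 104) (nat_lit 1) (nat_lit 102) (nat_lit 1) (nat_lit 103) (nat_lit 1) (nat_lit 348) (nat_lit 333) (nat_lit 219)) (XT.lf (nat_lit 0) (nat_lit 508418173) (nat_lit 0) (nat_lit 508419290) (nat_lit 152) (nat_lit 508418173) (nat_lit 102) (nat_lit 3) (nat_lit 102) (nat_lit 1) (nat_lit 104) (nat_lit 1) (nat_lit 349) (nat_lit 333) (nat_lit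 218))))) (XT.nd (nat_lit 234) (nat_lit 228) (nat_lit 0) (XT.nd (nat_lit 78) (nat_lit 152) (nat_lit 0) (XT.lf (nat_lit 76) (nat_lit 485307962) (nat_lit 0) (nat_lit 485308933) (nat_lit 76) (nat_lit 485308933) (nat_lit 102) (nat_lit 3) (nat_lit 101) (nat_lit 1) (nat_lit 102) (nat_lit 1) (nat_lit 350) (nat_lit 333) (nat_lit 217)) (XT.nd (nat_lit 78) (nat_lit 0) (nat_lit 0) (XT.lf (nat_lit 152) (nat_lit 1392624185) (nat_lit 0) (nat_lit 256) (nat_lit 76) (nat_lit 256) (nat_lit 101) (nat_lit 1) (nat_lit 99) (nat_lit 1) (nat_lit 100) (nat_lit 1) (nat_lit 351) (nat_lit 333) (nat_lit 216)) (XT.lf (nat_lit 0) (nat_lit 442102865) (nat_lit 0) (nat_lit 442103504) (nat_lit 152) (nat_lit 442102865) (nat_lit 99) (nat_lit 3) (nat_lit 99) (nat_lit 1) (nat_lit 101) (nat_lit 1) (nat_lit 352) (nat_lit 333) (nat_lit 215)))) (XT.nd (nat_lit 78) (nat_lit 152) (nat_lit 0) (XT.lf (nat_lit 76) (nat_lit 422007112) (nat_lit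 0) (nat_lit 422007667) (nat_lit 76) (nat_lit 422007667) (nat_lit 99) (nat_lit 3) (nat_lit 98) (nat_lit 1) (nat_lit 99) (nat_lit 1) (nat_lit 353) (nat_lit 333) (nat_lit 214)) (XT.nd (nat_lit 78) (nat_lit 0) (nat_lit 0) (XT.lf (nat_lit 152) (nat_lit 1210977695) (nat_lit 0) (nat_lit 146) (nat_lit 76) (nat_lit 146) (nat_lit 98) (nat_lit 1) (nat_lit 96) (nat_lit 1) (nat_lit 97) (nat_lit 1) (nat_lit 354) (nat_lit 333) (nat_lit 213)) (XT.lf (nat_lit 0) (nat_lit 384437334) (nat_lit 0) (nat_lit 384437699) (nat_lit 152) (nat_lit 384437334) (nat_lit 96) (nat_lit 3) (nat_lit 96) (nat_lit 1) (nat_lit 98) (nat_lit 1) (nat_lit 355) (nat_lit 333) (nat_lit 212))))))))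
noncomputable def ec102 : XT := (XT.nd (nat_lit 37674) (nat_lit 0) (nat_lit 8284) (XT.nd (nat_lit 858) (nat_lit 304) (nat_lit 0) (XT.nd (nat_lit 390) (nat_lit 456) (nat_lit 0) (XT.nd (nat_lit 156) (nat_lit 228) (nat_lit 0) (XT.nd (nat_lit 78) (nat_lit 152) (nat_lit 0) (XT.lf (nat_lit 76) (nat_lit 366962813) (nat_lit 0) (nat_lit 366963131) (nat_lit 76) (nat_lit 366963131) (nat_lit 96) (nat_lit 3) (nat_lit 95) (nat_lit 1) (nat_lit 96) (nat_lit 1) (nat_lit 356) (nat_lit 333) (nat_lit 211)) (XT.lf (nat_lit 152) (nat_lit 1053024164) (nat_lit 0) (nat_lit 83) (nat_lit 76) (nat_lit 83) (nat_lit 95) (nat_lit 1) (nat_lit 93) (nat_lit 1) (nat_lit 94) (nat_lit 1) (nat_lit 357) (nat_lit 333) (nat_lit 210))) (XT.nd (nat_lit 78) (nat_lit 228) (nat_lit 0) (XT.lf (nat_lit 0) (nat_lit 334293368) (nat_lit 0) (nat_lit 334293577) (nat_lit 152) (nat_lit 334293368) (nat_lit 93) (nat_lit 3) (nat_lit 93) (nat_lit 1) (nat_lit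 95) (nat_lit 1) (nat_lit 358) (nat_lit 333) (nat_lit 209)) (XT.nd (nat_lit 78) (nat_lit 152) (nat_lit 0) (XT.lf (nat_lit 76) (nat_lit 319098160) (nat_lit 0) (nat_lit 319098342) (nat_lit 76) (nat_lit 319098342) (nat_lit 93) (nat_lit 3) (nat_lit 92) (nat_lit 1) (nat_lit 93) (nat_lit 1) (nat_lit 359) (nat_lit 333) (nat_lit 208)) (XT.lf (nat_lit 152) (nat_lit 915673232) (nat_lit 0) (nat_lit 47) (nat_lit 76) (nat_lit 47) (nat_lit 92) (nat_lit 1) (nat_lit 90) (nat_lit 1) (nat_lit 91) (nat_lit 1) (nat_lit 360) (nat_lit 333) (nat_lit 207))))) (XT.nd (nat_lit 234) (nat_lit 228) (nat_lit 0) (XT.nd (nat_lit 78) (nat_lit 228) (nat_lit 0) (XT.lf (nat_lit 0) (nat_lit 290689905) (nat_lit 0) (nat_lit 290690025) (nat_lit 152) (nat_lit 290689905) (nat_lit 90) (nat_lit 3) (nat_lit 90) (nat_lit 1) (nat_lit 92) (nat_lit 1) (nat_lit 361) (nat_lit 333) (nat_lit 206)) (XT.nd (nat_lit 78) (nat_lit 152) (nat_lit 0) (XT.lf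 (nat_lit 76) (nat_lit 277476696) (nat_lit 0) (nat_lit 277476800) (nat_lit 76) (nat_lit 277476800) (nat_lit 90) (nat_lit 3) (nat_lit 89) (nat_lit 1) (nat_lit 90) (nat_lit 1) (nat_lit 362) (nat_lit 333) (nat_lit 205)) (XT.lf (nat_lit 152) (nat_lit 796237620) (nat_lit 0) (nat_lit 27) (nat_lit 76) (nat_lit 27) (nat_lit 89) (nat_lit 1) (nat_lit 87) (nat_lit 1) (nat_lit 88) (nat_lit 1) (nat_lit 363) (nat_lit 333) (nat_lit 204)))) (XT.nd (nat_lit 78) (nat_lit 228) (nat_lit 0) (XT.lf (nat_lit 0) (nat_lit 252773842) (nat_lit 0) (nat_lit 252773910) (nat_lit 152) (nat_lit 252773842) (nat_lit 87) (nat_lit 3) (nat_lit 87) (nat_lit 1) (nat_lit 89) (nat_lit 1) (nat_lit 364) (nat_lit 333) (nat_lit 203)) (XT.nd (nat_lit 78) (nat_lit 152) (nat_lit 0) (XT.lf (nat_lit 76) (nat_lit 241284104) (nat_lit 0) (nat_lit 241284163) (nat_lit 76) (nat_lit 241284163) (nat_lit 87) (nat_lit 3) (nat_lit 86) (nat_lit 1) (nat_lit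 87) (nat_lit 1) (nat_lit 365) (nat_lit 333) (nat_lit 202)) (XT.lf (nat_lit 152) (nat_lit 692380554) (nat_lit 0) (nat_lit 15) (nat_lit 76) (nat_lit 15) (nat_lit 86) (nat_lit 1) (nat_lit 84) (nat_lit 1) (nat_lit 85) (nat_lit 1) (nat_lit 366) (nat_lit 333) (nat_lit 201)))))) (XT.nd (nat_lit 36348) (nat_lit 0) (nat_lit 10108) (XT.nd (nat_lit 156) (nat_lit 228) (nat_lit 0) (XT.nd (nat_lit 78) (nat_lit 76) (nat_lit 0) (XT.lf (nat_lit 0) (nat_lit 219803347) (nat_lit 0) (nat_lit 219803386) (nat_lit 152) (nat_lit 219803347) (nat_lit 84) (nat_lit 3) (nat_lit 84) (nat_lit 1) (nat_lit 86) (nat_lit 1) (nat_lit 367) (nat_lit 333) (nat_lit 200)) (XT.lf (nat_lit 76) (nat_lit 209812276) (nat_lit 0) (nat_lit 209812310) (nat_lit 76) (nat_lit 209812310) (nat_lit 84) (nat_lit 3) (nat_lit 83) (nat_lit 1) (nat_lit 84) (nat_lit 1) (nat_lit 368) (nat_lit 333) (nat_lit 199))) (XT.nd (nat_lit 78) (nat_lit 76) (nat_lit 0)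 (XT.lf (nat_lit 152) (nat_lit 602070056) (nat_lit 0) (nat_lit 8) (nat_lit 76) (nat_lit 8) (nat_lit 83) (nat_lit 1) (nat_lit 81) (nat_lit 1) (nat_lit 82) (nat_lit 1) (nat_lit 369) (nat_lit 333) (nat_lit 198)) (XT.nd (nat_lit 78) (nat_lit 76) (nat_lit 0) (XT.lf (nat_lit 0) (nat_lit 191133349) (nat_lit 0) (nat_lit 191133371) (nat_lit 152) (nat_lit 191133349) (nat_lit 81) (nat_lit 3) (nat_lit 81) (nat_lit 1) (nat_lit 83) (nat_lit 1) (nat_lit 370) (nat_lit 333) (nat_lit 197)) (XT.lf (nat_lit 76) (nat_lit 182445464) (nat_lit 0) (nat_lit 182445483) (nat_lit 76) (nat_lit 182445483) (nat_lit 81) (nat_lit 3) (nat_lit 80) (nat_lit 1) (nat_lit 81) (nat_lit 1) (nat_lit 371) (nat_lit 333) (nat_lit 196))))) (XT.nd (nat_lit 234) (nat_lit 152) (nat_lit 0) (XT.nd (nat_lit 78) (nat_lit 0) (nat_lit 0) (XT.lf (nat_lit 380) (nat_lit 81255171281) (nat_lit 0) (nat_lit 71969705012) (nat_lit 380) (nat_lit 81255171281) (nat_lit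 220) (nat_lit 1) (nat_lit 215) (nat_lit 0) (nat_lit 220) (nat_lit 0) (nat_lit 232) (nat_lit 334) (nat_lit 334)) (XT.nd (nat_lit 78) (nat_lit 0) (nat_lit 76) (XT.lf (nat_lit 380) (nat_lit 300552333692) (nat_lit 76) (nat_lit 68698354785) (nat_lit 0) (nat_lit 68698354785) (nat_lit 220) (nat_lit 1) (nat_lit 216) (nat_lit 1) (nat_lit 215) (nat_lit 0) (nat_lit 233) (nat_lit 334) (nat_lit 333)) (XT.lf (nat_lit 380) (nat_lit 132481745235) (nat_lit 0) (nat_lit 144152636034) (nat_lit 304) (nat_lit 132481745235) (nat_lit 221) (nat_lit 1) (nat_lit 216) (nat_lit 1) (nat_lit 220) (nat_lit 1) (nat_lit 234) (nat_lit 334) (nat_lit 332)))) (XT.nd (nat_lit 78) (nat_lit 228) (nat_lit 0) (XT.lf (nat_lit 380) (nat_lit 227464277730) (nat_lit 76) (nat_lit 77862543674) (nat_lit 0) (nat_lit 77862543674) (nat_lit 221) (nat_lit 1) (nat_lit 217) (nat_lit 1) (nat_lit 216) (nat_lit 1) (nat_lit 235) (nat_lit 334) (nat_lit 331))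 (XT.nd (nat_lit 78) (nat_lit 304) (nat_lit 0) (XT.lf (nat_lit 76) (nat_lit 92012317189) (nat_lit 0) (nat_lit 175206899164) (nat_lit 304) (nat_lit 92012317189) (nat_lit 218) (nat_lit 1) (nat_lit 217) (nat_lit 1) (nat_lit 221) (nat_lit 1) (nat_lit 236) (nat_lit 334) (nat_lit 330)) (XT.lf (nat_lit 380) (nat_lit 138287081503) (nat_lit 0) (nat_lit 99536389485) (nat_lit 304) (nat_lit 99536389485) (nat_lit 218) (nat_lit 1) (nat_lit 213) (nat_lit 1) (nat_lit 217) (nat_lit 1) (nat_lit 237) (nat_lit 334) (nat_lit 329))))))) (XT.nd (nat_lit 858) (nat_lit 912) (nat_lit 0) (XT.nd (nat_lit 390) (nat_lit 380) (nat_lit 0) (XT.nd (nat_lit 156) (nat_lit 380) (nat_lit 0) (XT.nd (nat_lit 78) (nat_lit 152) (nat_lit 0) (XT.lf (nat_lit 76) (nat_lit 45965098637) (nat_lit 0) (nat_lit 225551891079) (nat_lit 380) (nat_lit 45965098637) (nat_lit 214) (nat_lit 1) (nat_lit 213) (nat_lit 1) (nat_lit 218) (nat_lit 1) (nat_lit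 238) (nat_lit 334) (nat_lit 328)) (XT.lf (nat_lit 228) (nat_lit 41367504476) (nat_lit 0) (nat_lit 128746150233) (nat_lit 152) (nat_lit 128746150233) (nat_lit 214) (nat_lit 1) (nat_lit 211) (nat_lit 1) (nat_lit 213) (nat_lit 1) (nat_lit 239) (nat_lit 334) (nat_lit 327))) (XT.nd (nat_lit 78) (nat_lit 152) (nat_lit 0) (XT.lf (nat_lit 228) (nat_lit 277989109571) (nat_lit 0) (nat_lit 2181105647) (nat_lit 152) (nat_lit 2181105647) (nat_lit 211) (nat_lit 1) (nat_lit 208) (nat_lit 1) (nat_lit 210) (nat_lit 1) (nat_lit 240) (nat_lit 334) (nat_lit 326)) (XT.nd (nat_lit 78) (nat_lit 152) (nat_lit 0) (XT.lf (nat_lit 76) (nat_lit 106805192740) (nat_lit 0) (nat_lit 52435664434) (nat_lit 228) (nat_lit 106805192740) (nat_lit 209) (nat_lit 1) (nat_lit 208) (nat_lit 1) (nat_lit 211) (nat_lit 1) (nat_lit 241) (nat_lit 334) (nat_lit 325)) (XT.lf (nat_lit 228) (nat_lit 155245446979) (nat_lit 0) (nat_lit 48155611534)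 (nat_lit 152) (nat_lit 48155611534) (nat_lit 209) (nat_lit 1) (nat_lit 206) (nat_lit 1) (nat_lit 208) (nat_lit 1) (nat_lit 242) (nat_lit 334) (nat_lit 324))))) (XT.nd (nat_lit 234) (nat_lit 76) (nat_lit 0) (XT.nd (nat_lit 78) (nat_lit 304) (nat_lit 0) (XT.lf (nat_lit 76) (nat_lit 48550343105) (nat_lit 0) (nat_lit 140892265650) (nat_lit 228) (nat_lit 48550343105) (nat_lit 207) (nat_lit 1) (nat_lit 206) (nat_lit 1) (nat_lit 209) (nat_lit 1) (nat_lit 243) (nat_lit 334) (nat_lit 323)) (XT.nd (nat_lit 78) (nat_lit 228) (nat_lit 0) (XT.lf (nat_lit 152) (nat_lit 40135830779) (nat_lit 0) (nat_lit 92613626944) (nat_lit 76) (nat_lit 92613626944) (nat_lit 207) (nat_lit 1) (nat_lit 205) (nat_lit 1) (nat_lit 206) (nat_lit 1) (nat_lit 244) (nat_lit 334) (nat_lit 322)) (XT.lf (nat_lit 228) (nat_lit 203191168202) (nat_lit 0) (nat_lit 5397981346) (nat_lit 152) (nat_lit 5397981346) (nat_lit 205) (nat_lit 1) (nat_lit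 202) (nat_lit 1) (nat_lit 204) (nat_lit 1) (nat_lit 245) (nat_lit 334) (nat_lit 321)))) (XT.nd (nat_lit 78) (nat_lit 76) (nat_lit 0) (XT.lf (nat_lit 76) (nat_lit 71112538743) (nat_lit 0) (nat_lit 60391088072) (nat_lit 228) (nat_lit 71112538743) (nat_lit 203) (nat_lit 1) (nat_lit 202) (nat_lit 1) (nat_lit 205) (nat_lit 1) (nat_lit 246) (nat_lit 334) (nat_lit 320)) (XT.nd (nat_lit 78) (nat_lit 0) (nat_lit 0) (XT.lf (nat_lit 152) (nat_lit 86466036103) (nat_lit 0) (nat_lit 52952141791) (nat_lit 76) (nat_lit 52952141791) (nat_lit 203) (nat_lit 1) (nat_lit 201) (nat_lit 1) (nat_lit 202) (nat_lit 1) (nat_lit 247) (nat_lit 334) (nat_lit 319)) (XT.lf (nat_lit 0) (nat_lit 16931241435) (nat_lit 0) (nat_lit 149061349497) (nat_lit 152) (nat_lit 16931241435) (nat_lit 201) (nat_lit 3) (nat_lit 201) (nat_lit 1) (nat_lit 203) (nat_lit 1) (nat_lit 248) (nat_lit 334) (nat_lit 318)))))) (XT.nd (nat_lit 390) (nat_lit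 456) (nat_lit 0) (XT.nd (nat_lit 156) (nat_lit 228) (nat_lit 0) (XT.nd (nat_lit 78) (nat_lit 76) (nat_lit 0) (XT.lf (nat_lit 76) (nat_lit 78357713958) (nat_lit 0) (nat_lit 16994433573) (nat_lit 152) (nat_lit 78357713958) (nat_lit 200) (nat_lit 1) (nat_lit 199) (nat_lit 1) (nat_lit 201) (nat_lit 1) (nat_lit 249) (nat_lit 334) (nat_lit 317)) (XT.lf (nat_lit 152) (nat_lit 104670492942) (nat_lit 0) (nat_lit 30275558930) (nat_lit 76) (nat_lit 30275558930) (nat_lit 200) (nat_lit 1) (nat_lit 198) (nat_lit 1) (nat_lit 199) (nat_lit 1) (nat_lit 250) (nat_lit 334) (nat_lit 316))) (XT.nd (nat_lit 78) (nat_lit 228) (nat_lit 0) (XT.lf (nat_lit 0) (nat_lit 27214859279) (nat_lit 0) (nat_lit 102760677404) (nat_lit 152) (nat_lit 27214859279) (nat_lit 198) (nat_lit 3) (nat_lit 198) (nat_lit 1) (nat_lit 200) (nat_lit 1) (nat_lit 251) (nat_lit 334) (nat_lit 315)) (XT.nd (nat_lit 78) (nat_lit 152) (nat_lit 0) (XT.lf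 (nat_lit 76) (nat_lit 6071148778) (nat_lit 0) (nat_lit 71763164539) (nat_lit 76) (nat_lit 71763164539) (nat_lit 198) (nat_lit 3) (nat_lit 197) (nat_lit 1) (nat_lit 198) (nat_lit 1) (nat_lit 252) (nat_lit 334) (nat_lit 314)) (XT.lf (nat_lit 152) (nat_lit 107874612462) (nat_lit 0) (nat_lit 17310149080) (nat_lit 76) (nat_lit 17310149080) (nat_lit 197) (nat_lit 1) (nat_lit 195) (nat_lit 1) (nat_lit 196) (nat_lit 1) (nat_lit 253) (nat_lit 334) (nat_lit 313))))) (XT.nd (nat_lit 234) (nat_lit 228) (nat_lit 0) (XT.nd (nat_lit 78) (nat_lit 228) (nat_lit 0) (XT.lf (nat_lit 0) (nat_lit 30807459805) (nat_lit 0) (nat_lit 74001026509) (nat_lit 152) (nat_lit 30807459805) (nat_lit 195) (nat_lit 3) (nat_lit 195) (nat_lit 1) (nat_lit 197) (nat_lit 1) (nat_lit 254) (nat_lit 334) (nat_lit 312)) (XT.nd (nat_lit 78) (nat_lit 152) (nat_lit 0) (XT.lf (nat_lit 76) (nat_lit 18025416717) (nat_lit 0) (nat_lit 55585039938)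 (nat_lit 76) (nat_lit 55585039938) (nat_lit 195) (nat_lit 3) (nat_lit 194) (nat_lit 1) (nat_lit 195) (nat_lit 1) (nat_lit 255) (nat_lit 334) (nat_lit 311)) (XT.lf (nat_lit 152) (nat_lit 103441936666) (nat_lit 0) (nat_lit 9897133918) (nat_lit 76) (nat_lit 9897133918) (nat_lit 194) (nat_lit 1) (nat_lit 192) (nat_lit 1) (nat_lit 193) (nat_lit 1) (nat_lit 256) (nat_lit 334) (nat_lit 310)))) (XT.nd (nat_lit 78) (nat_lit 228) (nat_lit 0) (XT.lf (nat_lit 0) (nat_lit 30872765727) (nat_lit 0) (nat_lit 55568827679) (nat_lit 152) (nat_lit 30872765727) (nat_lit 192) (nat_lit 3) (nat_lit 192) (nat_lit 1) (nat_lit 194) (nat_lit 1) (nat_lit 257) (nat_lit 334) (nat_lit 309)) (XT.nd (nat_lit 78) (nat_lit 152) (nat_lit 0) (XT.lf (nat_lit 76) (nat_lit 22961931988) (nat_lit 0) (nat_lit 44436768468) (nat_lit 76) (nat_lit 44436768468) (nat_lit 192) (nat_lit 3) (nat_lit 191) (nat_lit 1) (nat_lit 192) (nat_lit 1) (nat_lit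 258) (nat_lit 334) (nat_lit 308)) (XT.lf (nat_lit 152) (nat_lit 95460025518) (nat_lit 0) (nat_lit 5658718439) (nat_lit 76) (nat_lit 5658718439) (nat_lit 191) (nat_lit 1) (nat_lit 189) (nat_lit 1) (nat_lit 190) (nat_lit 1) (nat_lit 259) (nat_lit 334) (nat_lit 307))))))))
noncomputable def ec103 : XT := (XT.nd (nat_lit 1716) (nat_lit 1824) (nat_lit 0) (XT.nd (nat_lit 858) (nat_lit 836) (nat_lit 0) (XT.nd (nat_lit 390) (nat_lit 456) (nat_lit 0) (XT.nd (nat_lit 156) (nat_lit 228) (nat_lit 0) (XT.nd (nat_lit 78) (nat_lit 76) (nat_lit 0) (XT.lf (nat_lit 0) (nat_lit 29180734957) (nat_lit 0) (nat_lit 43300788531) (nat_lit 152) (nat_lit 29180734957) (nat_lit 189) (nat_lit 3) (nat_lit 189) (nat_lit 1) (nat_lit 191) (nat_lit 1) (nat_lit 260) (nat_lit 334) (nat_lit 306)) (XT.lf (nat_lit 76) (nat_lit 24133638684) (nat_lit 0) (nat_lit 36411946140) (nat_lit 76) (nat_lit 36411946140) (nat_lit 189) (nat_lit 3)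 (nat_lit 188) (nat_lit 1) (nat_lit 189) (nat_lit 1) (nat_lit 261) (nat_lit 334) (nat_lit 305))) (XT.nd (nat_lit 78) (nat_lit 76) (nat_lit 0) (XT.lf (nat_lit 152) (nat_lit 86159372892) (nat_lit 0) (nat_lit 3235390633) (nat_lit 76) (nat_lit 3235390633) (nat_lit 188) (nat_lit 1) (nat_lit 186) (nat_lit 1) (nat_lit 187) (nat_lit 1) (nat_lit 262) (nat_lit 334) (nat_lit 304)) (XT.nd (nat_lit 78) (nat_lit 76) (nat_lit 0) (XT.lf (nat_lit 0) (nat_lit 26709511183) (nat_lit 0) (nat_lit 34782697642) (nat_lit 152) (nat_lit 26709511183) (nat_lit 186) (nat_lit 3) (nat_lit 186) (nat_lit 1) (nat_lit 188) (nat_lit 1) (nat_lit 263) (nat_lit 334) (nat_lit 303)) (XT.lf (nat_lit 76) (nat_lit 23368120633) (nat_lit 0) (nat_lit 30388282771) (nat_lit 76) (nat_lit 30388282771) (nat_lit 186) (nat_lit 3) (nat_lit 185) (nat_lit 1) (nat_lit 186) (nat_lit 1) (nat_lit 264) (nat_lit 334) (nat_lit 302))))) (XT.nd (nat_lit 234) (nat_lit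 228) (nat_lit 0) (XT.nd (nat_lit 78) (nat_lit 76) (nat_lit 0) (XT.lf (nat_lit 152) (nat_lit 76722591070) (nat_lit 0) (nat_lit 1849845095) (nat_lit 76) (nat_lit 1849845095) (nat_lit 185) (nat_lit 1) (nat_lit 183) (nat_lit 1) (nat_lit 184) (nat_lit 1) (nat_lit 265) (nat_lit 334) (nat_lit 301)) (XT.nd (nat_lit 78) (nat_lit 76) (nat_lit 0) (XT.lf (nat_lit 0) (nat_lit 23988929066) (nat_lit 0) (nat_lit 28604799626) (nat_lit 152) (nat_lit 23988929066) (nat_lit 183) (nat_lit 3) (nat_lit 183) (nat_lit 1) (nat_lit 185) (nat_lit 1) (nat_lit 266) (nat_lit 334) (nat_lit 300)) (XT.lf (nat_lit 76) (nat_lit 21682220021) (nat_lit 0) (nat_lit 25696020508) (nat_lit 76) (nat_lit 25696020508) (nat_lit 183) (nat_lit 3) (nat_lit 182) (nat_lit 1) (nat_lit 183) (nat_lit 1) (nat_lit 267) (nat_lit 334) (nat_lit 299)))) (XT.nd (nat_lit 78) (nat_lit 76) (nat_lit 0) (XT.lf (nat_lit 152) (nat_lit 67745251307) (nat_lit 0) (nat_lit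 1057654937) (nat_lit 76) (nat_lit 1057654937) (nat_lit 182) (nat_lit 1) (nat_lit 180) (nat_lit 1) (nat_lit 181) (nat_lit 1) (nat_lit 268) (nat_lit 334) (nat_lit 298)) (XT.nd (nat_lit 78) (nat_lit 76) (nat_lit 0) (XT.lf (nat_lit 0) (nat_lit 21296338798) (nat_lit 0) (nat_lit 23935477772) (nat_lit 152) (nat_lit 21296338798) (nat_lit 180) (nat_lit 3) (nat_lit 180) (nat_lit 1) (nat_lit 182) (nat_lit 1) (nat_lit 269) (nat_lit 334) (nat_lit 297)) (XT.lf (nat_lit 76) (nat_lit 19632898109) (nat_lit 0) (nat_lit 21927801564) (nat_lit 76) (nat_lit 21927801564) (nat_lit 180) (nat_lit 3) (nat_lit 179) (nat_lit 1) (nat_lit 180) (nat_lit 1) (nat_lit 270) (nat_lit 334) (nat_lit 296)))))) (XT.nd (nat_lit 390) (nat_lit 456) (nat_lit 0) (XT.nd (nat_lit 156) (nat_lit 228) (nat_lit 0) (XT.nd (nat_lit 78) (nat_lit 0) (nat_lit 0) (XT.lf (nat_lit 152) (nat_lit 59497794136) (nat_lit 0) (nat_lit 604717643) (nat_lit 76) (nat_lit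 604717643) (nat_lit 179) (nat_lit 1) (nat_lit 177) (nat_lit 1) (nat_lit 178) (nat_lit 1) (nat_lit 271) (nat_lit 334) (nat_lit 295)) (XT.lf (nat_lit 0) (nat_lit 18768068868) (nat_lit 0) (nat_lit 20277005142) (nat_lit 152) (nat_lit 18768068868) (nat_lit 177) (nat_lit 3) (nat_lit 177) (nat_lit 1) (nat_lit 179) (nat_lit 1) (nat_lit 272) (nat_lit 334) (nat_lit 294))) (XT.nd (nat_lit 78) (nat_lit 152) (nat_lit 0) (XT.lf (nat_lit 76) (nat_lit 17517363162) (nat_lit 0) (nat_lit 18829481661) (nat_lit 76) (nat_lit 18829481661) (nat_lit 177) (nat_lit 3) (nat_lit 176) (nat_lit 1) (nat_lit 177) (nat_lit 1) (nat_lit 273) (nat_lit 334) (nat_lit 293)) (XT.nd (nat_lit 78) (nat_lit 0) (nat_lit 0) (XT.lf (nat_lit 152) (nat_lit 52073906319) (nat_lit 0) (nat_lit 345749275) (nat_lit 76) (nat_lit 345749275) (nat_lit 176) (nat_lit 1) (nat_lit 174) (nat_lit 1) (nat_lit 175) (nat_lit 1) (nat_lit 274) (nat_lit 334) (nat_lit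 292)) (XT.lf (nat_lit 0) (nat_lit 16462719976) (nat_lit 0) (nat_lit 17325459188) (nat_lit 152) (nat_lit 16462719976) (nat_lit 174) (nat_lit 3) (nat_lit 174) (nat_lit 1) (nat_lit 176) (nat_lit 1) (nat_lit 275) (nat_lit 334) (nat_lit 291))))) (XT.nd (nat_lit 234) (nat_lit 228) (nat_lit 0) (XT.nd (nat_lit 78) (nat_lit 152) (nat_lit 0) (XT.lf (nat_lit 76) (nat_lit 15487078762) (nat_lit 0) (nat_lit 16237286772) (nat_lit 76) (nat_lit 16237286772) (nat_lit 174) (nat_lit 3) (nat_lit 173) (nat_lit 1) (nat_lit 174) (nat_lit 1) (nat_lit 276) (nat_lit 334) (nat_lit 290)) (XT.nd (nat_lit 78) (nat_lit 0) (nat_lit 0) (XT.lf (nat_lit 152) (nat_lit 45474163571) (nat_lit 0) (nat_lit 197683270) (nat_lit 76) (nat_lit 197683270) (nat_lit 173) (nat_lit 1) (nat_lit 171) (nat_lit 1) (nat_lit 172) (nat_lit 1) (nat_lit 277) (nat_lit 334) (nat_lit 289)) (XT.lf (nat_lit 0) (nat_lit 14396975045) (nat_lit 0) (nat_lit 14890248989)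 (nat_lit 152) (nat_lit 14396975045) (nat_lit 171) (nat_lit 3) (nat_lit 171) (nat_lit 1) (nat_lit 173) (nat_lit 1) (nat_lit 278) (nat_lit 334) (nat_lit 288)))) (XT.nd (nat_lit 78) (nat_lit 152) (nat_lit 0) (XT.lf (nat_lit 76) (nat_lit 13612587129) (nat_lit 0) (nat_lit 14041520994) (nat_lit 76) (nat_lit 14041520994) (nat_lit 171) (nat_lit 3) (nat_lit 170) (nat_lit 1) (nat_lit 171) (nat_lit 1) (nat_lit 279) (nat_lit 334) (nat_lit 287)) (XT.nd (nat_lit 78) (nat_lit 0) (nat_lit 0) (XT.lf (nat_lit 152) (nat_lit 39652816806) (nat_lit 0) (nat_lit 113026051) (nat_lit 76) (nat_lit 113026051) (nat_lit 170) (nat_lit 1) (nat_lit 168) (nat_lit 1) (nat_lit 169) (nat_lit 1) (nat_lit 280) (nat_lit 334) (nat_lit 286)) (XT.lf (nat_lit 0) (nat_lit 12565744571) (nat_lit 0) (nat_lit 12847775550) (nat_lit 152) (nat_lit 12565744571) (nat_lit 168) (nat_lit 3) (nat_lit 168) (nat_lit 1) (nat_lit 170) (nat_lit 1) (nat_lit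 281) (nat_lit 334) (nat_lit 285))))))) (XT.nd (nat_lit 858) (nat_lit 912) (nat_lit 0) (XT.nd (nat_lit 390) (nat_lit 456) (nat_lit 0) (XT.nd (nat_lit 156) (nat_lit 228) (nat_lit 0) (XT.nd (nat_lit 78) (nat_lit 152) (nat_lit 0) (XT.lf (nat_lit 76) (nat_lit 11920257900) (nat_lit 0) (nat_lit 12165502230) (nat_lit 76) (nat_lit 12165502230) (nat_lit 168) (nat_lit 3) (nat_lit 167) (nat_lit 1) (nat_lit 168) (nat_lit 1) (nat_lit 282) (nat_lit 334) (nat_lit 284)) (XT.lf (nat_lit 152) (nat_lit 34543640787) (nat_lit 0) (nat_lit 64623011) (nat_lit 76) (nat_lit 64623011) (nat_lit 167) (nat_lit 1) (nat_lit 165) (nat_lit 1) (nat_lit 166) (nat_lit 1) (nat_lit 283) (nat_lit 334) (nat_lit 283))) (XT.nd (nat_lit 78) (nat_lit 228) (nat_lit 0) (XT.lf (nat_lit 0) (nat_lit 10953398601) (nat_lit 0) (nat_lit 11114650728) (nat_lit 152) (nat_lit 10953398601) (nat_lit 165) (nat_lit 3) (nat_lit 165) (nat_lit 1) (nat_lit 167)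 (nat_lit 1) (nat_lit 284) (nat_lit 334) (nat_lit 282)) (XT.nd (nat_lit 78) (nat_lit 152) (nat_lit 0) (XT.lf (nat_lit 76) (nat_lit 10413026167) (nat_lit 0) (nat_lit 10553245408) (nat_lit 76) (nat_lit 10553245408) (nat_lit 165) (nat_lit 3) (nat_lit 164) (nat_lit 1) (nat_lit 165) (nat_lit 1) (nat_lit 285) (nat_lit 334) (nat_lit 281)) (XT.lf (nat_lit 152) (nat_lit 30073929240) (nat_lit 0) (nat_lit 36948416) (nat_lit 76) (nat_lit 36948416) (nat_lit 164) (nat_lit 1) (nat_lit 162) (nat_lit 1) (nat_lit 163) (nat_lit 1) (nat_lit 286) (nat_lit 334) (nat_lit 280))))) (XT.nd (nat_lit 234) (nat_lit 228) (nat_lit 0) (XT.nd (nat_lit 78) (nat_lit 228) (nat_lit 0) (XT.lf (nat_lit 0) (nat_lit 9539939773) (nat_lit 0) (nat_lit 9632136201) (nat_lit 152) (nat_lit 9539939773) (nat_lit 162) (nat_lit 3) (nat_lit 162) (nat_lit 1) (nat_lit 164) (nat_lit 1) (nat_lit 287) (nat_lit 334) (nat_lit 279)) (XT.nd (nat_lit 78) (nat_lit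 152) (nat_lit 0) (XT.lf (nat_lit 76) (nat_lit 9082011964) (nat_lit 0) (nat_lit 9162182770) (nat_lit 76) (nat_lit 9162182770) (nat_lit 162) (nat_lit 3) (nat_lit 161) (nat_lit 1) (nat_lit 162) (nat_lit 1) (nat_lit 288) (nat_lit 334) (nat_lit 278)) (XT.lf (nat_lit 152) (nat_lit 26171814916) (nat_lit 0) (nat_lit 21125377) (nat_lit 76) (nat_lit 21125377) (nat_lit 161) (nat_lit 1) (nat_lit 159) (nat_lit 1) (nat_lit 160) (nat_lit 1) (nat_lit 289) (nat_lit 334) (nat_lit 277)))) (XT.nd (nat_lit 78) (nat_lit 228) (nat_lit 0) (XT.lf (nat_lit 0) (nat_lit 8304316374) (nat_lit 0) (nat_lit 8357029981) (nat_lit 152) (nat_lit 8304316374) (nat_lit 159) (nat_lit 3) (nat_lit 159) (nat_lit 1) (nat_lit 161) (nat_lit 1) (nat_lit 290) (nat_lit 334) (nat_lit 276)) (XT.nd (nat_lit 78) (nat_lit 152) (nat_lit 0) (XT.lf (nat_lit 76) (nat_lit 7912957170) (nat_lit 0) (nat_lit 7958795088) (nat_lit 76) (nat_lit 7958795088) (nat_lit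 159) (nat_lit 3) (nat_lit 158) (nat_lit 1) (nat_lit 159) (nat_lit 1) (nat_lit 291) (nat_lit 334) (nat_lit 275)) (XT.lf (nat_lit 152) (nat_lit 22769862091) (nat_lit 0) (nat_lit 12078502) (nat_lit 76) (nat_lit 12078502) (nat_lit 158) (nat_lit 1) (nat_lit 156) (nat_lit 1) (nat_lit 157) (nat_lit 1) (nat_lit 292) (nat_lit 334) (nat_lit 274)))))) (XT.nd (nat_lit 468) (nat_lit 456) (nat_lit 0) (XT.nd (nat_lit 234) (nat_lit 228) (nat_lit 0) (XT.nd (nat_lit 78) (nat_lit 228) (nat_lit 0) (XT.lf (nat_lit 0) (nat_lit 7226128401) (nat_lit 0) (nat_lit 7256267577) (nat_lit 152) (nat_lit 7226128401) (nat_lit 156) (nat_lit 3) (nat_lit 156) (nat_lit 1) (nat_lit 158) (nat_lit 1) (nat_lit 293) (nat_lit 334) (nat_lit 273)) (XT.nd (nat_lit 78) (nat_lit 152) (nat_lit 0) (XT.lf (nat_lit 76) (nat_lit 6889726207) (nat_lit 0) (nat_lit 6915934186) (nat_lit 76) (nat_lit 6915934186) (nat_lit 156) (nat_lit 3) (nat_lit 155) (nat_lit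 1) (nat_lit 156) (nat_lit 1) (nat_lit 294) (nat_lit 334) (nat_lit 272)) (XT.lf (nat_lit 152) (nat_lit 19806605135) (nat_lit 0) (nat_lit 6905923) (nat_lit 76) (nat_lit 6905923) (nat_lit 155) (nat_lit 1) (nat_lit 153) (nat_lit 1) (nat_lit 154) (nat_lit 1) (nat_lit 295) (nat_lit 334) (nat_lit 271)))) (XT.nd (nat_lit 78) (nat_lit 228) (nat_lit 0) (XT.lf (nat_lit 0) (nat_lit 6286439377) (nat_lit 0) (nat_lit 6303671548) (nat_lit 152) (nat_lit 6286439377) (nat_lit 153) (nat_lit 3) (nat_lit 153) (nat_lit 1) (nat_lit 155) (nat_lit 1) (nat_lit 296) (nat_lit 334) (nat_lit 270)) (XT.nd (nat_lit 78) (nat_lit 152) (nat_lit 0) (XT.lf (nat_lit 76) (nat_lit 5996151376) (nat_lit 0) (nat_lit 6011135872) (nat_lit 76) (nat_lit 6011135872) (nat_lit 153) (nat_lit 3) (nat_lit 152) (nat_lit 1) (nat_lit 153) (nat_lit 1) (nat_lit 297) (nat_lit 334) (nat_lit 269)) (XT.lf (nat_lit 152) (nat_lit 17226979972) (nat_lit 0) (nat_lit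 3948484) (nat_lit 76) (nat_lit 3948484) (nat_lit 152) (nat_lit 1) (nat_lit 150) (nat_lit 1) (nat_lit 151) (nat_lit 1) (nat_lit 298) (nat_lit 334) (nat_lit 268))))) (XT.nd (nat_lit 234) (nat_lit 228) (nat_lit 0) (XT.nd (nat_lit 78) (nat_lit 228) (nat_lit 0) (XT.lf (nat_lit 0) (nat_lit 5468098213) (nat_lit 0) (nat_lit 5477950763) (nat_lit 152) (nat_lit 5468098213) (nat_lit 150) (nat_lit 3) (nat_lit 150) (nat_lit 1) (nat_lit 152) (nat_lit 1) (nat_lit 299) (nat_lit 334) (nat_lit 267)) (XT.nd (nat_lit 78) (nat_lit 152) (nat_lit 0) (XT.lf (nat_lit 76) (nat_lit 5216952101) (nat_lit 0) (nat_lit 5225519536) (nat_lit 76) (nat_lit 5225519536) (nat_lit 150) (nat_lit 3) (nat_lit 149) (nat_lit 1) (nat_lit 150) (nat_lit 1) (nat_lit 300) (nat_lit 334) (nat_lit 266)) (XT.lf (nat_lit 152) (nat_lit 14982181017) (nat_lit 0) (nat_lit 2257558) (nat_lit 76) (nat_lit 2257558) (nat_lit 149) (nat_lit 1) (nat_lit 147) (nat_lit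 1) (nat_lit 148) (nat_lit 1) (nat_lit 301) (nat_lit 334) (nat_lit 265)))) (XT.nd (nat_lit 78) (nat_lit 228) (nat_lit 0) (XT.lf (nat_lit 0) (nat_lit 4755799505) (nat_lit 0) (nat_lit 4761432733) (nat_lit 152) (nat_lit 4755799505) (nat_lit 147) (nat_lit 3) (nat_lit 147) (nat_lit 1) (nat_lit 149) (nat_lit 1) (nat_lit 302) (nat_lit 334) (nat_lit 264)) (XT.nd (nat_lit 78) (nat_lit 152) (nat_lit 0) (XT.lf (nat_lit 76) (nat_lit 4538142419) (nat_lit 0) (nat_lit 4543040878) (nat_lit 76) (nat_lit 4543040878) (nat_lit 147) (nat_lit 3) (nat_lit 146) (nat_lit 1) (nat_lit 147) (nat_lit 1) (nat_lit 303) (nat_lit 334) (nat_lit 263)) (XT.lf (nat_lit 152) (nat_lit 13029240454) (nat_lit 0) (nat_lit 1290766) (nat_lit 76) (nat_lit 1290766) (nat_lit 146) (nat_lit 1) (nat_lit 144) (nat_lit 1) (nat_lit 145) (nat_lit 1) (nat_lit 304) (nat_lit 334) (nat_lit 262))))))))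
noncomputable def ec104 : XT := (XT.nd (nat_lit 1716) (nat_lit 1672) (nat_lit 0) (XT.nd (nat_lit 858) (nat_lit 836) (nat_lit 0) (XT.nd (nat_lit 390) (nat_lit 456) (nat_lit 0) (XT.nd (nat_lit 156) (nat_lit 228) (nat_lit 0) (XT.nd (nat_lit 78) (nat_lit 76) (nat_lit 0) (XT.lf (nat_lit 0) (nat_lit 4136010416) (nat_lit 0) (nat_lit 4139231232) (nat_lit 152) (nat_lit 4136010416) (nat_lit 144) (nat_lit 3) (nat_lit 144) (nat_lit 1) (nat_lit 146) (nat_lit 1) (nat_lit 305) (nat_lit 334) (nat_lit 261)) (XT.lf (nat_lit 76) (nat_lit 3947161242) (nat_lit 0) (nat_lit 3949961952) (nat_lit 76) (nat_lit 3949961952) (nat_lit 144) (nat_lit 3) (nat_lit 143) (nat_lit 1) (nat_lit 144) (nat_lit 1) (nat_lit 306) (nat_lit 334) (nat_lit 260))) (XT.nd (nat_lit 78) (nat_lit 76) (nat_lit 0) (XT.lf (nat_lit 152) (nat_lit 11330492979) (nat_lit 0) (nat_lit 737999) (nat_lit 76) (nat_lit 737999) (nat_lit 143) (nat_lit 1) (nat_lit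 141) (nat_lit 1) (nat_lit 142) (nat_lit 1) (nat_lit 307) (nat_lit 334) (nat_lit 259)) (XT.nd (nat_lit 78) (nat_lit 76) (nat_lit 0) (XT.lf (nat_lit 0) (nat_lit 3596835303) (nat_lit 0) (nat_lit 3598676815) (nat_lit 152) (nat_lit 3596835303) (nat_lit 141) (nat_lit 3) (nat_lit 141) (nat_lit 1) (nat_lit 143) (nat_lit 1) (nat_lit 308) (nat_lit 334) (nat_lit 258)) (XT.lf (nat_lit 76) (nat_lit 3432857543) (nat_lit 0) (nat_lit 3434458857) (nat_lit 76) (nat_lit 3434458857) (nat_lit 141) (nat_lit 3) (nat_lit 140) (nat_lit 1) (nat_lit 141) (nat_lit 1) (nat_lit 309) (nat_lit 334) (nat_lit 257))))) (XT.nd (nat_lit 234) (nat_lit 228) (nat_lit 0) (XT.nd (nat_lit 78) (nat_lit 76) (nat_lit 0) (XT.lf (nat_lit 152) (nat_lit 9853013493) (nat_lit 0) (nat_lit 421953) (nat_lit 76) (nat_lit 421953) (nat_lit 140) (nat_lit 1) (nat_lit 138) (nat_lit 1) (nat_lit 139) (nat_lit 1) (nat_lit 310) (nat_lit 334) (nat_lit 256)) (XT.nd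 (nat_lit 78) (nat_lit 76) (nat_lit 0) (XT.lf (nat_lit 0) (nat_lit 3127856975) (nat_lit 0) (nat_lit 3128909866) (nat_lit 152) (nat_lit 3127856975) (nat_lit 138) (nat_lit 3) (nat_lit 138) (nat_lit 1) (nat_lit 140) (nat_lit 1) (nat_lit 311) (nat_lit 334) (nat_lit 255)) (XT.lf (nat_lit 76) (nat_lit 2985404217) (nat_lit 0) (nat_lit 2986319774) (nat_lit 76) (nat_lit 2986319774) (nat_lit 138) (nat_lit 3) (nat_lit 137) (nat_lit 1) (nat_lit 138) (nat_lit 1) (nat_lit 312) (nat_lit 334) (nat_lit 254)))) (XT.nd (nat_lit 78) (nat_lit 76) (nat_lit 0) (XT.lf (nat_lit 152) (nat_lit 8568072755) (nat_lit 0) (nat_lit 241253) (nat_lit 76) (nat_lit 241253) (nat_lit 137) (nat_lit 1) (nat_lit 135) (nat_lit 1) (nat_lit 136) (nat_lit 1) (nat_lit 313) (nat_lit 334) (nat_lit 253)) (XT.nd (nat_lit 78) (nat_lit 76) (nat_lit 0) (XT.lf (nat_lit 0) (nat_lit 2719975175) (nat_lit 0) (nat_lit 2720577168) (nat_lit 152) (nat_lit 2719975175)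 (nat_lit 135) (nat_lit 3) (nat_lit 135) (nat_lit 1) (nat_lit 137) (nat_lit 1) (nat_lit 314) (nat_lit 334) (nat_lit 252)) (XT.lf (nat_lit 76) (nat_lit 2596181311) (nat_lit 0) (nat_lit 2596704784) (nat_lit 76) (nat_lit 2596704784) (nat_lit 135) (nat_lit 3) (nat_lit 134) (nat_lit 1) (nat_lit 135) (nat_lit 1) (nat_lit 315) (nat_lit 334) (nat_lit 251)))))) (XT.nd (nat_lit 390) (nat_lit 456) (nat_lit 0) (XT.nd (nat_lit 156) (nat_lit 228) (nat_lit 0) (XT.nd (nat_lit 78) (nat_lit 0) (nat_lit 0) (XT.lf (nat_lit 152) (nat_lit 7450632373) (nat_lit 0) (nat_lit 137937) (nat_lit 76) (nat_lit 137937) (nat_lit 134) (nat_lit 1) (nat_lit 132) (nat_lit 1) (nat_lit 133) (nat_lit 1) (nat_lit 316) (nat_lit 334) (nat_lit 250)) (XT.lf (nat_lit 0) (nat_lit 2365252718) (nat_lit 0) (nat_lit 2365596910) (nat_lit 152) (nat_lit 2365252718) (nat_lit 132) (nat_lit 3) (nat_lit 132) (nat_lit 1) (nat_lit 134) (nat_lit 1) (nat_lit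 317) (nat_lit 334) (nat_lit 249))) (XT.nd (nat_lit 78) (nat_lit 152) (nat_lit 0) (XT.lf (nat_lit 76) (nat_lit 2257650535) (nat_lit 0) (nat_lit 2257949832) (nat_lit 76) (nat_lit 2257949832) (nat_lit 132) (nat_lit 3) (nat_lit 131) (nat_lit 1) (nat_lit 132) (nat_lit 1) (nat_lit 318) (nat_lit 334) (nat_lit 248)) (XT.nd (nat_lit 78) (nat_lit 0) (nat_lit 0) (XT.lf (nat_lit 152) (nat_lit 6478887560) (nat_lit 0) (nat_lit 78866) (nat_lit 76) (nat_lit 78866) (nat_lit 131) (nat_lit 1) (nat_lit 129) (nat_lit 1) (nat_lit 130) (nat_lit 1) (nat_lit 319) (nat_lit 334) (nat_lit 247)) (XT.lf (nat_lit 0) (nat_lit 2056774035) (nat_lit 0) (nat_lit 2056970828) (nat_lit 152) (nat_lit 2056774035) (nat_lit 129) (nat_lit 3) (nat_lit 129) (nat_lit 1) (nat_lit 131) (nat_lit 1) (nat_lit 320) (nat_lit 334) (nat_lit 246))))) (XT.nd (nat_lit 234) (nat_lit 228) (nat_lit 0) (XT.nd (nat_lit 78) (nat_lit 152) (nat_lit 0) (XT.lf (nat_lit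 76) (nat_lit 1963232451) (nat_lit 0) (nat_lit 1963403575) (nat_lit 76) (nat_lit 1963403575) (nat_lit 129) (nat_lit 3) (nat_lit 128) (nat_lit 1) (nat_lit 129) (nat_lit 1) (nat_lit 321) (nat_lit 334) (nat_lit 245)) (XT.nd (nat_lit 78) (nat_lit 0) (nat_lit 0) (XT.lf (nat_lit 152) (nat_lit 5633859180) (nat_lit 0) (nat_lit 45091) (nat_lit 76) (nat_lit 45091) (nat_lit 128) (nat_lit 1) (nat_lit 126) (nat_lit 1) (nat_lit 127) (nat_lit 1) (nat_lit 322) (nat_lit 334) (nat_lit 244)) (XT.lf (nat_lit 0) (nat_lit 1788517767) (nat_lit 0) (nat_lit 1788630283) (nat_lit 152) (nat_lit 1788517767) (nat_lit 126) (nat_lit 3) (nat_lit 126) (nat_lit 1) (nat_lit 128) (nat_lit 1) (nat_lit 323) (nat_lit 334) (nat_lit 243)))) (XT.nd (nat_lit 78) (nat_lit 152) (nat_lit 0) (XT.lf (nat_lit 76) (nat_lit 1707191856) (nat_lit 0) (nat_lit 1707289696) (nat_lit 76) (nat_lit 1707289696) (nat_lit 126) (nat_lit 3) (nat_lit 125) (nat_lit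 1) (nat_lit 126) (nat_lit 1) (nat_lit 324) (nat_lit 334) (nat_lit 242)) (XT.nd (nat_lit 78) (nat_lit 0) (nat_lit 0) (XT.lf (nat_lit 152) (nat_lit 4899033089) (nat_lit 0) (nat_lit 25781) (nat_lit 76) (nat_lit 25781) (nat_lit 125) (nat_lit 1) (nat_lit 123) (nat_lit 1) (nat_lit 124) (nat_lit 1) (nat_lit 325) (nat_lit 334) (nat_lit 241)) (XT.lf (nat_lit 0) (nat_lit 1555243478) (nat_lit 0) (nat_lit 1555307810) (nat_lit 152) (nat_lit 1555243478) (nat_lit 123) (nat_lit 3) (nat_lit 123) (nat_lit 1) (nat_lit 125) (nat_lit 1) (nat_lit 326) (nat_lit 334) (nat_lit 240))))))) (XT.nd (nat_lit 858) (nat_lit 760) (nat_lit 0) (XT.nd (nat_lit 390) (nat_lit 456) (nat_lit 0) (XT.nd (nat_lit 156) (nat_lit 228) (nat_lit 0) (XT.nd (nat_lit 78) (nat_lit 152) (nat_lit 0) (XT.lf (nat_lit 76) (nat_lit 1484533641) (nat_lit 0) (nat_lit 1484589582) (nat_lit 76) (nat_lit 1484589582) (nat_lit 123) (nat_lit 3) (nat_lit 122) (nat_lit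 1) (nat_lit 123) (nat_lit 1) (nat_lit 327) (nat_lit 334) (nat_lit 239)) (XT.lf (nat_lit 152) (nat_lit 4260043128) (nat_lit 0) (nat_lit 14740) (nat_lit 76) (nat_lit 14740) (nat_lit 122) (nat_lit 1) (nat_lit 120) (nat_lit 1) (nat_lit 121) (nat_lit 1) (nat_lit 328) (nat_lit 334) (nat_lit 238))) (XT.nd (nat_lit 78) (nat_lit 228) (nat_lit 0) (XT.lf (nat_lit 0) (nat_lit 1352391715) (nat_lit 0) (nat_lit 1352428497) (nat_lit 152) (nat_lit 1352391715) (nat_lit 120) (nat_lit 3) (nat_lit 120) (nat_lit 1) (nat_lit 122) (nat_lit 1) (nat_lit 329) (nat_lit 334) (nat_lit 237)) (XT.nd (nat_lit 78) (nat_lit 152) (nat_lit 0) (XT.lf (nat_lit 76) (nat_lit 1290909672) (nat_lit 0) (nat_lit 1290941657) (nat_lit 76) (nat_lit 1290941657) (nat_lit 120) (nat_lit 3) (nat_lit 119) (nat_lit 1) (nat_lit 120) (nat_lit 1) (nat_lit 330) (nat_lit 334) (nat_lit 236)) (XT.lf (nat_lit 152) (nat_lit 3704393536) (nat_lit 0) (nat_lit 8428)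 (nat_lit 76) (nat_lit 8428) (nat_lit 119) (nat_lit 1) (nat_lit 117) (nat_lit 1) (nat_lit 118) (nat_lit 1) (nat_lit 331) (nat_lit 334) (nat_lit 235))))) (XT.nd (nat_lit 234) (nat_lit 228) (nat_lit 0) (XT.nd (nat_lit 78) (nat_lit 228) (nat_lit 0) (XT.lf (nat_lit 0) (nat_lit 1175996273) (nat_lit 0) (nat_lit 1176017304) (nat_lit 152) (nat_lit 1175996273) (nat_lit 117) (nat_lit 3) (nat_lit 117) (nat_lit 1) (nat_lit 119) (nat_lit 1) (nat_lit 332) (nat_lit 334) (nat_lit 234)) (XT.nd (nat_lit 78) (nat_lit 152) (nat_lit 0) (XT.lf (nat_lit 76) (nat_lit 1122536356) (nat_lit 0) (nat_lit 1122554643) (nat_lit 76) (nat_lit 1122554643) (nat_lit 117) (nat_lit 3) (nat_lit 116) (nat_lit 1) (nat_lit 117) (nat_lit 1) (nat_lit 333) (nat_lit 334) (nat_lit 233)) (XT.lf (nat_lit 152) (nat_lit 3221216463) (nat_lit 0) (nat_lit 4818) (nat_lit 76) (nat_lit 4818) (nat_lit 116) (nat_lit 1) (nat_lit 114) (nat_lit 1) (nat_lit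 115) (nat_lit 1) (nat_lit 334) (nat_lit 334) (nat_lit 232)))) (XT.nd (nat_lit 78) (nat_lit 228) (nat_lit 0) (XT.lf (nat_lit 0) (nat_lit 1022607443) (nat_lit 0) (nat_lit 1022619467) (nat_lit 152) (nat_lit 1022607443) (nat_lit 114) (nat_lit 3) (nat_lit 114) (nat_lit 1) (nat_lit 116) (nat_lit 1) (nat_lit 335) (nat_lit 334) (nat_lit 231)) (XT.nd (nat_lit 78) (nat_lit 152) (nat_lit 0) (XT.lf (nat_lit 76) (nat_lit 976122118) (nat_lit 0) (nat_lit 976132574) (nat_lit 76) (nat_lit 976132574) (nat_lit 114) (nat_lit 3) (nat_lit 113) (nat_lit 1) (nat_lit 114) (nat_lit 1) (nat_lit 336) (nat_lit 334) (nat_lit 230)) (XT.lf (nat_lit 152) (nat_lit 2801060476) (nat_lit 0) (nat_lit 2755) (nat_lit 76) (nat_lit 2755) (nat_lit 113) (nat_lit 1) (nat_lit 111) (nat_lit 1) (nat_lit 112) (nat_lit 1) (nat_lit 337) (nat_lit 334) (nat_lit 229)))))) (XT.nd (nat_lit 390) (nat_lit 456) (nat_lit 0) (XT.nd (nat_lit 156) (nat_lit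 228) (nat_lit 0) (XT.nd (nat_lit 78) (nat_lit 76) (nat_lit 0) (XT.lf (nat_lit 0) (nat_lit 889225000) (nat_lit 0) (nat_lit 889231875) (nat_lit 152) (nat_lit 889225000) (nat_lit 111) (nat_lit 3) (nat_lit 111) (nat_lit 1) (nat_lit 113) (nat_lit 1) (nat_lit 338) (nat_lit 334) (nat_lit 228)) (XT.lf (nat_lit 76) (nat_lit 848803871) (nat_lit 0) (nat_lit 848809849) (nat_lit 76) (nat_lit 848809849) (nat_lit 111) (nat_lit 3) (nat_lit 110) (nat_lit 1) (nat_lit 111) (nat_lit 1) (nat_lit 339) (nat_lit 334) (nat_lit 227))) (XT.nd (nat_lit 78) (nat_lit 76) (nat_lit 0) (XT.lf (nat_lit 152) (nat_lit 2435706296) (nat_lit 0) (nat_lit 1575) (nat_lit 76) (nat_lit 1575) (nat_lit 110) (nat_lit 1) (nat_lit 108) (nat_lit 1) (nat_lit 109) (nat_lit 1) (nat_lit 340) (nat_lit 334) (nat_lit 226)) (XT.nd (nat_lit 78) (nat_lit 76) (nat_lit 0) (XT.lf (nat_lit 0) (nat_lit 773239781) (nat_lit 0) (nat_lit 773243711) (nat_lit 152)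 (nat_lit 773239781) (nat_lit 108) (nat_lit 3) (nat_lit 108) (nat_lit 1) (nat_lit 110) (nat_lit 1) (nat_lit 341) (nat_lit 334) (nat_lit 225)) (XT.lf (nat_lit 76) (nat_lit 738091482) (nat_lit 0) (nat_lit 738094900) (nat_lit 76) (nat_lit 738094900) (nat_lit 108) (nat_lit 3) (nat_lit 107) (nat_lit 1) (nat_lit 108) (nat_lit 1) (nat_lit 342) (nat_lit 334) (nat_lit 224))))) (XT.nd (nat_lit 234) (nat_lit 228) (nat_lit 0) (XT.nd (nat_lit 78) (nat_lit 76) (nat_lit 0) (XT.lf (nat_lit 152) (nat_lit 2118006352) (nat_lit 0) (nat_lit 900) (nat_lit 76) (nat_lit 900) (nat_lit 107) (nat_lit 1) (nat_lit 105) (nat_lit 1) (nat_lit 106) (nat_lit 1) (nat_lit 343) (nat_lit 334) (nat_lit 223)) (XT.nd (nat_lit 78) (nat_lit 76) (nat_lit 0) (XT.lf (nat_lit 0) (nat_lit 672382790) (nat_lit 0) (nat_lit 672385037) (nat_lit 152) (nat_lit 672382790) (nat_lit 105) (nat_lit 3) (nat_lit 105) (nat_lit 1) (nat_lit 107) (nat_lit 1) (nat_lit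 344) (nat_lit 334) (nat_lit 222)) (XT.lf (nat_lit 76) (nat_lit 641819343) (nat_lit 0) (nat_lit 641821298) (nat_lit 76) (nat_lit 641821298) (nat_lit 105) (nat_lit 3) (nat_lit 104) (nat_lit 1) (nat_lit 105) (nat_lit 1) (nat_lit 345) (nat_lit 334) (nat_lit 221)))) (XT.nd (nat_lit 78) (nat_lit 76) (nat_lit 0) (XT.lf (nat_lit 152) (nat_lit 1841745155) (nat_lit 0) (nat_lit 514) (nat_lit 76) (nat_lit 514) (nat_lit 104) (nat_lit 1) (nat_lit 102) (nat_lit 1) (nat_lit 103) (nat_lit 1) (nat_lit 346) (nat_lit 334) (nat_lit 220)) (XT.nd (nat_lit 78) (nat_lit 76) (nat_lit 0) (XT.lf (nat_lit 0) (nat_lit 584680899) (nat_lit 0) (nat_lit 584682184) (nat_lit 152) (nat_lit 584680899) (nat_lit 102) (nat_lit 3) (nat_lit 102) (nat_lit 1) (nat_lit 104) (nat_lit 1) (nat_lit 347) (nat_lit 334) (nat_lit 219)) (XT.lf (nat_lit 76) (nat_lit 558104156) (nat_lit 0) (nat_lit 558105273) (nat_lit 76) (nat_lit 558105273) (nat_lit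 102) (nat_lit 3) (nat_lit 101) (nat_lit 1) (nat_lit 102) (nat_lit 1) (nat_lit 348) (nat_lit 334) (nat_lit 218))))))))
noncomputable def ec105 : XT := (XT.nd (nat_lit 1716) (nat_lit 0) (nat_lit 0) (XT.nd (nat_lit 858) (nat_lit 912) (nat_lit 0) (XT.nd (nat_lit 390) (nat_lit 456) (nat_lit 0) (XT.nd (nat_lit 156) (nat_lit 228) (nat_lit 0) (XT.nd (nat_lit 78) (nat_lit 0) (nat_lit 0) (XT.lf (nat_lit 152) (nat_lit 1601517813) (nat_lit 0) (nat_lit 294) (nat_lit 76) (nat_lit 294) (nat_lit 101) (nat_lit 1) (nat_lit 99) (nat_lit 1) (nat_lit 100) (nat_lit 1) (nat_lit 349) (nat_lit 334) (nat_lit 217)) (XT.lf (nat_lit 0) (nat_lit 508418294) (nat_lit 0) (nat_lit 508419029) (nat_lit 152) (nat_lit 508418294) (nat_lit 99) (nat_lit 3) (nat_lit 99) (nat_lit 1) (nat_lit 101) (nat_lit 1) (nat_lit 350) (nat_lit 334) (nat_lit 216))) (XT.nd (nat_lit 78) (nat_lit 152) (nat_lit 0) (XT.lf (nat_lit 76) (nat_lit 485308178)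 (nat_lit 0) (nat_lit 485308817) (nat_lit 76) (nat_lit 485308817) (nat_lit 99) (nat_lit 3) (nat_lit 98) (nat_lit 1) (nat_lit 99) (nat_lit 1) (nat_lit 351) (nat_lit 334) (nat_lit 215)) (XT.nd (nat_lit 78) (nat_lit 0) (nat_lit 0) (XT.lf (nat_lit 152) (nat_lit 1392624349) (nat_lit 0) (nat_lit 168) (nat_lit 76) (nat_lit 168) (nat_lit 98) (nat_lit 1) (nat_lit 96) (nat_lit 1) (nat_lit 97) (nat_lit 1) (nat_lit 352) (nat_lit 334) (nat_lit 214)) (XT.lf (nat_lit 0) (nat_lit 442102934) (nat_lit 0) (nat_lit 442103354) (nat_lit 152) (nat_lit 442102934) (nat_lit 96) (nat_lit 3) (nat_lit 96) (nat_lit 1) (nat_lit 98) (nat_lit 1) (nat_lit 353) (nat_lit 334) (nat_lit 213))))) (XT.nd (nat_lit 234) (nat_lit 228) (nat_lit 0) (XT.nd (nat_lit 78) (nat_lit 152) (nat_lit 0) (XT.lf (nat_lit 76) (nat_lit 422007236) (nat_lit 0) (nat_lit 422007601) (nat_lit 76) (nat_lit 422007601) (nat_lit 96) (nat_lit 3) (nat_lit 95) (nat_lit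 1) (nat_lit 96) (nat_lit 1) (nat_lit 354) (nat_lit 334) (nat_lit 212)) (XT.nd (nat_lit 78) (nat_lit 0) (nat_lit 0) (XT.lf (nat_lit 152) (nat_lit 1210977788) (nat_lit 0) (nat_lit 96) (nat_lit 76) (nat_lit 96) (nat_lit 95) (nat_lit 1) (nat_lit 93) (nat_lit 1) (nat_lit 94) (nat_lit 1) (nat_lit 355) (nat_lit 334) (nat_lit 211)) (XT.lf (nat_lit 0) (nat_lit 384437374) (nat_lit 0) (nat_lit 384437614) (nat_lit 152) (nat_lit 384437374) (nat_lit 93) (nat_lit 3) (nat_lit 93) (nat_lit 1) (nat_lit 95) (nat_lit 1) (nat_lit 356) (nat_lit 334) (nat_lit 210)))) (XT.nd (nat_lit 78) (nat_lit 152) (nat_lit 0) (XT.lf (nat_lit 76) (nat_lit 366962884) (nat_lit 0) (nat_lit 366963093) (nat_lit 76) (nat_lit 366963093) (nat_lit 93) (nat_lit 3) (nat_lit 92) (nat_lit 1) (nat_lit 93) (nat_lit 1) (nat_lit 357) (nat_lit 334) (nat_lit 209)) (XT.nd (nat_lit 78) (nat_lit 0) (nat_lit 0) (XT.lf (nat_lit 152) (nat_lit 1053024217) (nat_lit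 0) (nat_lit 55) (nat_lit 76) (nat_lit 55) (nat_lit 92) (nat_lit 1) (nat_lit 90) (nat_lit 1) (nat_lit 91) (nat_lit 1) (nat_lit 358) (nat_lit 334) (nat_lit 208)) (XT.lf (nat_lit 0) (nat_lit 334293391) (nat_lit 0) (nat_lit 334293528) (nat_lit 152) (nat_lit 334293391) (nat_lit 90) (nat_lit 3) (nat_lit 90) (nat_lit 1) (nat_lit 92) (nat_lit 1) (nat_lit 359) (nat_lit 334) (nat_lit 207)))))) (XT.nd (nat_lit 390) (nat_lit 456) (nat_lit 0) (XT.nd (nat_lit 156) (nat_lit 228) (nat_lit 0) (XT.nd (nat_lit 78) (nat_lit 152) (nat_lit 0) (XT.lf (nat_lit 76) (nat_lit 319098201) (nat_lit 0) (nat_lit 319098320) (nat_lit 76) (nat_lit 319098320) (nat_lit 90) (nat_lit 3) (nat_lit 89) (nat_lit 1) (nat_lit 90) (nat_lit 1) (nat_lit 360) (nat_lit 334) (nat_lit 206)) (XT.lf (nat_lit 152) (nat_lit 915673263) (nat_lit 0) (nat_lit 31) (nat_lit 76) (nat_lit 31) (nat_lit 89) (nat_lit 1) (nat_lit 87) (nat_lit 1) (nat_lit 88) (nat_lit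 1) (nat_lit 361) (nat_lit 334) (nat_lit 205))) (XT.nd (nat_lit 78) (nat_lit 228) (nat_lit 0) (XT.lf (nat_lit 0) (nat_lit 290689918) (nat_lit 0) (nat_lit 290689997) (nat_lit 152) (nat_lit 290689918) (nat_lit 87) (nat_lit 3) (nat_lit 87) (nat_lit 1) (nat_lit 89) (nat_lit 1) (nat_lit 362) (nat_lit 334) (nat_lit 204)) (XT.nd (nat_lit 78) (nat_lit 152) (nat_lit 0) (XT.lf (nat_lit 76) (nat_lit 277476719) (nat_lit 0) (nat_lit 277476788) (nat_lit 76) (nat_lit 277476788) (nat_lit 87) (nat_lit 3) (nat_lit 86) (nat_lit 1) (nat_lit 87) (nat_lit 1) (nat_lit 363) (nat_lit 334) (nat_lit 203)) (XT.lf (nat_lit 152) (nat_lit 796237638) (nat_lit 0) (nat_lit 17) (nat_lit 76) (nat_lit 17) (nat_lit 86) (nat_lit 1) (nat_lit 84) (nat_lit 1) (nat_lit 85) (nat_lit 1) (nat_lit 364) (nat_lit 334) (nat_lit 202))))) (XT.nd (nat_lit 234) (nat_lit 228) (nat_lit 0) (XT.nd (nat_lit 78) (nat_lit 228) (nat_lit 0) (XT.lf (nat_lit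 0) (nat_lit 252773849) (nat_lit 0) (nat_lit 252773894) (nat_lit 152) (nat_lit 252773849) (nat_lit 84) (nat_lit 3) (nat_lit 84) (nat_lit 1) (nat_lit 86) (nat_lit 1) (nat_lit 365) (nat_lit 334) (nat_lit 201)) (XT.nd (nat_lit 78) (nat_lit 152) (nat_lit 0) (XT.lf (nat_lit 76) (nat_lit 241284117) (nat_lit 0) (nat_lit 241284156) (nat_lit 76) (nat_lit 241284156) (nat_lit 84) (nat_lit 3) (nat_lit 83) (nat_lit 1) (nat_lit 84) (nat_lit 1) (nat_lit 366) (nat_lit 334) (nat_lit 200)) (XT.lf (nat_lit 152) (nat_lit 692380564) (nat_lit 0) (nat_lit 10) (nat_lit 76) (nat_lit 10) (nat_lit 83) (nat_lit 1) (nat_lit 81) (nat_lit 1) (nat_lit 82) (nat_lit 1) (nat_lit 367) (nat_lit 334) (nat_lit 199)))) (XT.nd (nat_lit 78) (nat_lit 228) (nat_lit 0) (XT.lf (nat_lit 0) (nat_lit 219803351) (nat_lit 0) (nat_lit 219803377) (nat_lit 152) (nat_lit 219803351) (nat_lit 81) (nat_lit 3) (nat_lit 81) (nat_lit 1) (nat_lit 83) (nat_lit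 1) (nat_lit 368) (nat_lit 334) (nat_lit 198)) (XT.nd (nat_lit 78) (nat_lit 152) (nat_lit 0) (XT.lf (nat_lit 76) (nat_lit 209812283) (nat_lit 0) (nat_lit 209812305) (nat_lit 76) (nat_lit 209812305) (nat_lit 81) (nat_lit 3) (nat_lit 80) (nat_lit 1) (nat_lit 81) (nat_lit 1) (nat_lit 369) (nat_lit 334) (nat_lit 197)) (XT.lf (nat_lit 152) (nat_lit 602070062) (nat_lit 0) (nat_lit 5) (nat_lit 76) (nat_lit 5) (nat_lit 80) (nat_lit 1) (nat_lit 78) (nat_lit 1) (nat_lit 79) (nat_lit 1) (nat_lit 370) (nat_lit 334) (nat_lit 196))))))) (XT.nd (nat_lit 36660) (nat_lit 0) (nat_lit 8892) (XT.nd (nat_lit 36192) (nat_lit 0) (nat_lit 9880) (XT.nd (nat_lit 35958) (nat_lit 0) (nat_lit 10412) (XT.nd (nat_lit 35880) (nat_lit 0) (nat_lit 10412) (XT.lf (nat_lit 0) (nat_lit 191133351) (nat_lit 0) (nat_lit 191133366) (nat_lit 152) (nat_lit 191133351) (nat_lit 78) (nat_lit 3) (nat_lit 78) (nat_lit 1) (nat_lit 80) (nat_lit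 1) (nat_lit 371) (nat_lit 334) (nat_lit 195)) (XT.lf (nat_lit 380) (nat_lit 93443446973) (nat_lit 0) (nat_lit 82765160764) (nat_lit 380) (nat_lit 93443446973) (nat_lit 220) (nat_lit 1) (nat_lit 215) (nat_lit 0) (nat_lit 220) (nat_lit 0) (nat_lit 230) (nat_lit 335) (nat_lit 335))) (XT.nd (nat_lit 78) (nat_lit 0) (nat_lit 76) (XT.lf (nat_lit 380) (nat_lit 345635183746) (nat_lit 76) (nat_lit 79003108002) (nat_lit 0) (nat_lit 79003108002) (nat_lit 220) (nat_lit 1) (nat_lit 216) (nat_lit 1) (nat_lit 215) (nat_lit 0) (nat_lit 231) (nat_lit 335) (nat_lit 334)) (XT.nd (nat_lit 78) (nat_lit 0) (nat_lit 0) (XT.lf (nat_lit 380) (nat_lit 152354007020) (nat_lit 0) (nat_lit 165775531440) (nat_lit 304) (nat_lit 152354007020) (nat_lit 221) (nat_lit 1) (nat_lit 216) (nat_lit 1) (nat_lit 220) (nat_lit 1) (nat_lit 232) (nat_lit 335) (nat_lit 333)) (XT.lf (nat_lit 380) (nat_lit 261583919390) (nat_lit 76) (nat_lit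 89541925225) (nat_lit 0) (nat_lit 89541925225) (nat_lit 221) (nat_lit 1) (nat_lit 217) (nat_lit 1) (nat_lit 216) (nat_lit 1) (nat_lit 233) (nat_lit 335) (nat_lit 332))))) (XT.nd (nat_lit 234) (nat_lit 380) (nat_lit 0) (XT.nd (nat_lit 78) (nat_lit 304) (nat_lit 0) (XT.lf (nat_lit 76) (nat_lit 105814164768) (nat_lit 0) (nat_lit 201487934039) (nat_lit 304) (nat_lit 105814164768) (nat_lit 218) (nat_lit 1) (nat_lit 217) (nat_lit 1) (nat_lit 221) (nat_lit 1) (nat_lit 234) (nat_lit 335) (nat_lit 331)) (XT.nd (nat_lit 78) (nat_lit 0) (nat_lit 0) (XT.lf (nat_lit 380) (nat_lit 159030143728) (nat_lit 0) (nat_lit 114466847908) (nat_lit 304) (nat_lit 114466847908) (nat_lit 218) (nat_lit 1) (nat_lit 213) (nat_lit 1) (nat_lit 217) (nat_lit 1) (nat_lit 235) (nat_lit 335) (nat_lit 330)) (XT.lf (nat_lit 76) (nat_lit 52859863432) (nat_lit 0) (nat_lit 259384674741) (nat_lit 380) (nat_lit 52859863432) (nat_lit 214)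 (nat_lit 1) (nat_lit 213) (nat_lit 1) (nat_lit 218) (nat_lit 1) (nat_lit 236) (nat_lit 335) (nat_lit 329)))) (XT.nd (nat_lit 78) (nat_lit 228) (nat_lit 0) (XT.lf (nat_lit 228) (nat_lit 47572630148) (nat_lit 0) (nat_lit 148058072768) (nat_lit 152) (nat_lit 148058072768) (nat_lit 214) (nat_lit 1) (nat_lit 211) (nat_lit 1) (nat_lit 213) (nat_lit 1) (nat_lit 237) (nat_lit 335) (nat_lit 328)) (XT.nd (nat_lit 78) (nat_lit 0) (nat_lit 0) (XT.lf (nat_lit 228) (nat_lit 319687476007) (nat_lit 0) (nat_lit 2508271494) (nat_lit 152) (nat_lit 2508271494) (nat_lit 211) (nat_lit 1) (nat_lit 208) (nat_lit 1) (nat_lit 210) (nat_lit 1) (nat_lit 238) (nat_lit 335) (nat_lit 327)) (XT.lf (nat_lit 76) (nat_lit 122825971651) (nat_lit 0) (nat_lit 60301014099) (nat_lit 228) (nat_lit 122825971651) (nat_lit 209) (nat_lit 1) (nat_lit 208) (nat_lit 1) (nat_lit 211) (nat_lit 1) (nat_lit 239) (nat_lit 335) (nat_lit 326))))))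 (XT.nd (nat_lit 468) (nat_lit 456) (nat_lit 0) (XT.nd (nat_lit 234) (nat_lit 304) (nat_lit 0) (XT.nd (nat_lit 78) (nat_lit 76) (nat_lit 0) (XT.lf (nat_lit 228) (nat_lit 178532264026) (nat_lit 0) (nat_lit 55378953265) (nat_lit 152) (nat_lit 55378953265) (nat_lit 209) (nat_lit 1) (nat_lit 206) (nat_lit 1) (nat_lit 208) (nat_lit 1) (nat_lit 240) (nat_lit 335) (nat_lit 325)) (XT.nd (nat_lit 78) (nat_lit 76) (nat_lit 0) (XT.lf (nat_lit 76) (nat_lit 55832894571) (nat_lit 0) (nat_lit 162026105497) (nat_lit 228) (nat_lit 55832894571) (nat_lit 207) (nat_lit 1) (nat_lit 206) (nat_lit 1) (nat_lit 209) (nat_lit 1) (nat_lit 241) (nat_lit 335) (nat_lit 324)) (XT.lf (nat_lit 152) (nat_lit 46156205396) (nat_lit 0) (nat_lit 106505670986) (nat_lit 76) (nat_lit 106505670986) (nat_lit 207) (nat_lit 1) (nat_lit 205) (nat_lit 1) (nat_lit 206) (nat_lit 1) (nat_lit 242) (nat_lit 335) (nat_lit 323)))) (XT.nd (nat_lit 78)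 (nat_lit 76) (nat_lit 0) (XT.lf (nat_lit 228) (nat_lit 233669843432) (nat_lit 0) (nat_lit 6207678548) (nat_lit 152) (nat_lit 6207678548) (nat_lit 205) (nat_lit 1) (nat_lit 202) (nat_lit 1) (nat_lit 204) (nat_lit 1) (nat_lit 243) (nat_lit 335) (nat_lit 322)) (XT.nd (nat_lit 78) (nat_lit 76) (nat_lit 0) (XT.lf (nat_lit 76) (nat_lit 81779419555) (nat_lit 0) (nat_lit 69449751283) (nat_lit 228) (nat_lit 81779419555) (nat_lit 203) (nat_lit 1) (nat_lit 202) (nat_lit 1) (nat_lit 205) (nat_lit 1) (nat_lit 244) (nat_lit 335) (nat_lit 321)) (XT.lf (nat_lit 152) (nat_lit 99435941519) (nat_lit 0) (nat_lit 60894963060) (nat_lit 76) (nat_lit 60894963060) (nat_lit 203) (nat_lit 1) (nat_lit 201) (nat_lit 1) (nat_lit 202) (nat_lit 1) (nat_lit 245) (nat_lit 335) (nat_lit 320))))) (XT.nd (nat_lit 234) (nat_lit 228) (nat_lit 0) (XT.nd (nat_lit 78) (nat_lit 228) (nat_lit 0) (XT.lf (nat_lit 0) (nat_lit 19470927650) (nat_lit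 0) (nat_lit 171420551922) (nat_lit 152) (nat_lit 19470927650) (nat_lit 201) (nat_lit 3) (nat_lit 201) (nat_lit 1) (nat_lit 203) (nat_lit 1) (nat_lit 246) (nat_lit 335) (nat_lit 319)) (XT.nd (nat_lit 78) (nat_lit 76) (nat_lit 0) (XT.lf (nat_lit 76) (nat_lit 90111371052) (nat_lit 0) (nat_lit 19543598609) (nat_lit 152) (nat_lit 90111371052) (nat_lit 200) (nat_lit 1) (nat_lit 199) (nat_lit 1) (nat_lit 201) (nat_lit 1) (nat_lit 247) (nat_lit 335) (nat_lit 318)) (XT.lf (nat_lit 152) (nat_lit 120371066883) (nat_lit 0) (nat_lit 34816892770) (nat_lit 76) (nat_lit 34816892770) (nat_lit 200) (nat_lit 1) (nat_lit 198) (nat_lit 1) (nat_lit 199) (nat_lit 1) (nat_lit 248) (nat_lit 335) (nat_lit 317)))) (XT.nd (nat_lit 78) (nat_lit 228) (nat_lit 0) (XT.lf (nat_lit 0) (nat_lit 31297088171) (nat_lit 0) (nat_lit 118174779015) (nat_lit 152) (nat_lit 31297088171) (nat_lit 198) (nat_lit 3) (nat_lit 198) (nat_lit 1)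 (nat_lit 200) (nat_lit 1) (nat_lit 249) (nat_lit 335) (nat_lit 316)) (XT.nd (nat_lit 78) (nat_lit 152) (nat_lit 0) (XT.lf (nat_lit 76) (nat_lit 6981821095) (nat_lit 0) (nat_lit 82527639220) (nat_lit 76) (nat_lit 82527639220) (nat_lit 198) (nat_lit 3) (nat_lit 197) (nat_lit 1) (nat_lit 198) (nat_lit 1) (nat_lit 250) (nat_lit 335) (nat_lit 315)) (XT.lf (nat_lit 152) (nat_lit 124055804332) (nat_lit 0) (nat_lit 19906671442) (nat_lit 76) (nat_lit 19906671442) (nat_lit 197) (nat_lit 1) (nat_lit 195) (nat_lit 1) (nat_lit 196) (nat_lit 1) (nat_lit 251) (nat_lit 335) (nat_lit 314))))))))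
noncomputable def ec106 : XT := (XT.nd (nat_lit 1716) (nat_lit 1672) (nat_lit 0) (XT.nd (nat_lit 858) (nat_lit 836) (nat_lit 0) (XT.nd (nat_lit 390) (nat_lit 456) (nat_lit 0) (XT.nd (nat_lit 156) (nat_lit 228) (nat_lit 0) (XT.nd (nat_lit 78) (nat_lit 76) (nat_lit 0) (XT.lf (nat_lit 0) (nat_lit 35428578776) (nat_lit 0) (nat_lit 85101180486) (nat_lit 152) (nat_lit 35428578776) (nat_lit 195) (nat_lit 3) (nat_lit 195) (nat_lit 1) (nat_lit 197) (nat_lit 1) (nat_lit 252) (nat_lit 335) (nat_lit 313)) (XT.lf (nat_lit 76) (nat_lit 20729229224) (nat_lit 0) (nat_lit 63922795928) (nat_lit 76) (nat_lit 63922795928) (nat_lit 195) (nat_lit 3) (nat_lit 194) (nat_lit 1) (nat_lit 195) (nat_lit 1) (nat_lit 253) (nat_lit 335) (nat_lit 312))) (XT.nd (nat_lit 78) (nat_lit 76) (nat_lit 0) (XT.lf (nat_lit 152) (nat_lit 118958227166) (nat_lit 0) (nat_lit 11381704006) (nat_lit 76) (nat_lit 11381704006) (nat_lit 194) (nat_lit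 1) (nat_lit 192) (nat_lit 1) (nat_lit 193) (nat_lit 1) (nat_lit 254) (nat_lit 335) (nat_lit 311)) (XT.nd (nat_lit 78) (nat_lit 76) (nat_lit 0) (XT.lf (nat_lit 0) (nat_lit 35503680586) (nat_lit 0) (nat_lit 63904151830) (nat_lit 152) (nat_lit 35503680586) (nat_lit 192) (nat_lit 3) (nat_lit 192) (nat_lit 1) (nat_lit 194) (nat_lit 1) (nat_lit 255) (nat_lit 335) (nat_lit 310)) (XT.lf (nat_lit 76) (nat_lit 26406221786) (nat_lit 0) (nat_lit 51102283738) (nat_lit 76) (nat_lit 51102283738) (nat_lit 192) (nat_lit 3) (nat_lit 191) (nat_lit 1) (nat_lit 192) (nat_lit 1) (nat_lit 256) (nat_lit 335) (nat_lit 309))))) (XT.nd (nat_lit 234) (nat_lit 228) (nat_lit 0) (XT.nd (nat_lit 78) (nat_lit 76) (nat_lit 0) (XT.lf (nat_lit 152) (nat_lit 109779029346) (nat_lit 0) (nat_lit 6507526205) (nat_lit 76) (nat_lit 6507526205) (nat_lit 191) (nat_lit 1) (nat_lit 189) (nat_lit 1) (nat_lit 190) (nat_lit 1) (nat_lit 257) (nat_lit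 335) (nat_lit 308)) (XT.nd (nat_lit 78) (nat_lit 76) (nat_lit 0) (XT.lf (nat_lit 0) (nat_lit 33557845200) (nat_lit 0) (nat_lit 49795906811) (nat_lit 152) (nat_lit 33557845200) (nat_lit 189) (nat_lit 3) (nat_lit 189) (nat_lit 1) (nat_lit 191) (nat_lit 1) (nat_lit 258) (nat_lit 335) (nat_lit 307)) (XT.lf (nat_lit 76) (nat_lit 27753684487) (nat_lit 0) (nat_lit 41873738061) (nat_lit 76) (nat_lit 41873738061) (nat_lit 189) (nat_lit 3) (nat_lit 188) (nat_lit 1) (nat_lit 189) (nat_lit 1) (nat_lit 259) (nat_lit 335) (nat_lit 306)))) (XT.nd (nat_lit 78) (nat_lit 76) (nat_lit 0) (XT.lf (nat_lit 152) (nat_lit 99083278826) (nat_lit 0) (nat_lit 3720699229) (nat_lit 76) (nat_lit 3720699229) (nat_lit 188) (nat_lit 1) (nat_lit 186) (nat_lit 1) (nat_lit 187) (nat_lit 1) (nat_lit 260) (nat_lit 335) (nat_lit 305)) (XT.nd (nat_lit 78) (nat_lit 76) (nat_lit 0) (XT.lf (nat_lit 0) (nat_lit 30715937860) (nat_lit 0) (nat_lit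 40000102288) (nat_lit 152) (nat_lit 30715937860) (nat_lit 186) (nat_lit 3) (nat_lit 186) (nat_lit 1) (nat_lit 188) (nat_lit 1) (nat_lit 261) (nat_lit 335) (nat_lit 304)) (XT.lf (nat_lit 76) (nat_lit 26873338728) (nat_lit 0) (nat_lit 34946525187) (nat_lit 76) (nat_lit 34946525187) (nat_lit 186) (nat_lit 3) (nat_lit 185) (nat_lit 1) (nat_lit 186) (nat_lit 1) (nat_lit 262) (nat_lit 335) (nat_lit 303)))))) (XT.nd (nat_lit 390) (nat_lit 456) (nat_lit 0) (XT.nd (nat_lit 156) (nat_lit 228) (nat_lit 0) (XT.nd (nat_lit 78) (nat_lit 0) (nat_lit 0) (XT.lf (nat_lit 152) (nat_lit 88230979730) (nat_lit 0) (nat_lit 2127321860) (nat_lit 76) (nat_lit 2127321860) (nat_lit 185) (nat_lit 1) (nat_lit 183) (nat_lit 1) (nat_lit 184) (nat_lit 1) (nat_lit 263) (nat_lit 335) (nat_lit 302)) (XT.lf (nat_lit 0) (nat_lit 27587268426) (nat_lit 0) (nat_lit 32895519570) (nat_lit 152) (nat_lit 27587268426) (nat_lit 183) (nat_lit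 3) (nat_lit 183) (nat_lit 1) (nat_lit 185) (nat_lit 1) (nat_lit 264) (nat_lit 335) (nat_lit 301))) (XT.nd (nat_lit 78) (nat_lit 152) (nat_lit 0) (XT.lf (nat_lit 76) (nat_lit 24934553024) (nat_lit 0) (nat_lit 29550423585) (nat_lit 76) (nat_lit 29550423585) (nat_lit 183) (nat_lit 3) (nat_lit 182) (nat_lit 1) (nat_lit 183) (nat_lit 1) (nat_lit 265) (nat_lit 335) (nat_lit 300)) (XT.nd (nat_lit 78) (nat_lit 0) (nat_lit 0) (XT.lf (nat_lit 152) (nat_lit 77907039003) (nat_lit 0) (nat_lit 1216303177) (nat_lit 76) (nat_lit 1216303177) (nat_lit 182) (nat_lit 1) (nat_lit 180) (nat_lit 1) (nat_lit 181) (nat_lit 1) (nat_lit 266) (nat_lit 335) (nat_lit 299)) (XT.lf (nat_lit 0) (nat_lit 24490789618) (nat_lit 0) (nat_lit 27525799438) (nat_lit 152) (nat_lit 24490789618) (nat_lit 180) (nat_lit 3) (nat_lit 180) (nat_lit 1) (nat_lit 182) (nat_lit 1) (nat_lit 267) (nat_lit 335) (nat_lit 298))))) (XT.nd (nat_lit 234)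 (nat_lit 228) (nat_lit 0) (XT.nd (nat_lit 78) (nat_lit 152) (nat_lit 0) (XT.lf (nat_lit 76) (nat_lit 22577832825) (nat_lit 0) (nat_lit 25216971799) (nat_lit 76) (nat_lit 25216971799) (nat_lit 180) (nat_lit 3) (nat_lit 179) (nat_lit 1) (nat_lit 180) (nat_lit 1) (nat_lit 268) (nat_lit 335) (nat_lit 297)) (XT.nd (nat_lit 78) (nat_lit 0) (nat_lit 0) (XT.lf (nat_lit 152) (nat_lit 68422463257) (nat_lit 0) (nat_lit 695425289) (nat_lit 76) (nat_lit 695425289) (nat_lit 179) (nat_lit 1) (nat_lit 177) (nat_lit 1) (nat_lit 178) (nat_lit 1) (nat_lit 269) (nat_lit 335) (nat_lit 296)) (XT.lf (nat_lit 0) (nat_lit 21583279198) (nat_lit 0) (nat_lit 23318555913) (nat_lit 152) (nat_lit 21583279198) (nat_lit 177) (nat_lit 3) (nat_lit 177) (nat_lit 1) (nat_lit 179) (nat_lit 1) (nat_lit 270) (nat_lit 335) (nat_lit 295)))) (XT.nd (nat_lit 78) (nat_lit 152) (nat_lit 0) (XT.lf (nat_lit 76) (nat_lit 20144967636) (nat_lit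 0) (nat_lit 21653903910) (nat_lit 76) (nat_lit 21653903910) (nat_lit 177) (nat_lit 3) (nat_lit 176) (nat_lit 1) (nat_lit 177) (nat_lit 1) (nat_lit 271) (nat_lit 335) (nat_lit 294)) (XT.nd (nat_lit 78) (nat_lit 0) (nat_lit 0) (XT.lf (nat_lit 152) (nat_lit 59884992267) (nat_lit 0) (nat_lit 397611666) (nat_lit 76) (nat_lit 397611666) (nat_lit 176) (nat_lit 1) (nat_lit 174) (nat_lit 1) (nat_lit 175) (nat_lit 1) (nat_lit 272) (nat_lit 335) (nat_lit 293)) (XT.lf (nat_lit 0) (nat_lit 18932127972) (nat_lit 0) (nat_lit 19924278066) (nat_lit 152) (nat_lit 18932127972) (nat_lit 174) (nat_lit 3) (nat_lit 174) (nat_lit 1) (nat_lit 176) (nat_lit 1) (nat_lit 273) (nat_lit 335) (nat_lit 292))))))) (XT.nd (nat_lit 858) (nat_lit 760) (nat_lit 0) (XT.nd (nat_lit 390) (nat_lit 456) (nat_lit 0) (XT.nd (nat_lit 156) (nat_lit 228) (nat_lit 0) (XT.nd (nat_lit 78) (nat_lit 152) (nat_lit 0) (XT.lf (nat_lit 76) (nat_lit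 17810140576) (nat_lit 0) (nat_lit 18672879788) (nat_lit 76) (nat_lit 18672879788) (nat_lit 174) (nat_lit 3) (nat_lit 173) (nat_lit 1) (nat_lit 174) (nat_lit 1) (nat_lit 274) (nat_lit 335) (nat_lit 291)) (XT.lf (nat_lit 152) (nat_lit 52295288107) (nat_lit 0) (nat_lit 227335760) (nat_lit 76) (nat_lit 227335760) (nat_lit 173) (nat_lit 1) (nat_lit 171) (nat_lit 1) (nat_lit 172) (nat_lit 1) (nat_lit 275) (nat_lit 335) (nat_lit 290))) (XT.nd (nat_lit 78) (nat_lit 228) (nat_lit 0) (XT.lf (nat_lit 0) (nat_lit 16556521302) (nat_lit 0) (nat_lit 17123786338) (nat_lit 152) (nat_lit 16556521302) (nat_lit 171) (nat_lit 3) (nat_lit 171) (nat_lit 1) (nat_lit 173) (nat_lit 1) (nat_lit 276) (nat_lit 335) (nat_lit 289)) (XT.nd (nat_lit 78) (nat_lit 152) (nat_lit 0) (XT.lf (nat_lit 76) (nat_lit 15654475199) (nat_lit 0) (nat_lit 16147749143) (nat_lit 76) (nat_lit 16147749143) (nat_lit 171) (nat_lit 3) (nat_lit 170)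 (nat_lit 1) (nat_lit 171) (nat_lit 1) (nat_lit 277) (nat_lit 335) (nat_lit 288)) (XT.lf (nat_lit 152) (nat_lit 45600739327) (nat_lit 0) (nat_lit 129979959) (nat_lit 76) (nat_lit 129979959) (nat_lit 170) (nat_lit 1) (nat_lit 168) (nat_lit 1) (nat_lit 169) (nat_lit 1) (nat_lit 278) (nat_lit 335) (nat_lit 287))))) (XT.nd (nat_lit 234) (nat_lit 228) (nat_lit 0) (XT.nd (nat_lit 78) (nat_lit 228) (nat_lit 0) (XT.lf (nat_lit 0) (nat_lit 14450606257) (nat_lit 0) (nat_lit 14774941883) (nat_lit 152) (nat_lit 14450606257) (nat_lit 168) (nat_lit 3) (nat_lit 168) (nat_lit 1) (nat_lit 170) (nat_lit 1) (nat_lit 279) (nat_lit 335) (nat_lit 286)) (XT.nd (nat_lit 78) (nat_lit 152) (nat_lit 0) (XT.lf (nat_lit 76) (nat_lit 13708296585) (nat_lit 0) (nat_lit 13990327564) (nat_lit 76) (nat_lit 13990327564) (nat_lit 168) (nat_lit 3) (nat_lit 167) (nat_lit 1) (nat_lit 168) (nat_lit 1) (nat_lit 280) (nat_lit 335) (nat_lit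 285)) (XT.lf (nat_lit 152) (nat_lit 39725186905) (nat_lit 0) (nat_lit 74316463) (nat_lit 76) (nat_lit 74316463) (nat_lit 167) (nat_lit 1) (nat_lit 165) (nat_lit 1) (nat_lit 166) (nat_lit 1) (nat_lit 281) (nat_lit 335) (nat_lit 284)))) (XT.nd (nat_lit 78) (nat_lit 228) (nat_lit 0) (XT.lf (nat_lit 0) (nat_lit 12596408391) (nat_lit 0) (nat_lit 12781848338) (nat_lit 152) (nat_lit 12596408391) (nat_lit 165) (nat_lit 3) (nat_lit 165) (nat_lit 1) (nat_lit 167) (nat_lit 1) (nat_lit 282) (nat_lit 335) (nat_lit 283)) (XT.nd (nat_lit 78) (nat_lit 152) (nat_lit 0) (XT.lf (nat_lit 76) (nat_lit 11974980092) (nat_lit 0) (nat_lit 12136232220) (nat_lit 76) (nat_lit 12136232220) (nat_lit 165) (nat_lit 3) (nat_lit 164) (nat_lit 1) (nat_lit 165) (nat_lit 1) (nat_lit 283) (nat_lit 335) (nat_lit 282)) (XT.lf (nat_lit 152) (nat_lit 34585018626) (nat_lit 0) (nat_lit 42490679) (nat_lit 76) (nat_lit 42490679) (nat_lit 164)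 (nat_lit 1) (nat_lit 162) (nat_lit 1) (nat_lit 163) (nat_lit 1) (nat_lit 284) (nat_lit 335) (nat_lit 281)))))) (XT.nd (nat_lit 390) (nat_lit 456) (nat_lit 0) (XT.nd (nat_lit 156) (nat_lit 228) (nat_lit 0) (XT.nd (nat_lit 78) (nat_lit 76) (nat_lit 0) (XT.lf (nat_lit 0) (nat_lit 10970930739) (nat_lit 0) (nat_lit 11076956631) (nat_lit 152) (nat_lit 10970930739) (nat_lit 162) (nat_lit 3) (nat_lit 162) (nat_lit 1) (nat_lit 164) (nat_lit 1) (nat_lit 285) (nat_lit 335) (nat_lit 280)) (XT.lf (nat_lit 76) (nat_lit 10444313758) (nat_lit 0) (nat_lit 10536510185) (nat_lit 76) (nat_lit 10536510185) (nat_lit 162) (nat_lit 3) (nat_lit 161) (nat_lit 1) (nat_lit 162) (nat_lit 1) (nat_lit 286) (nat_lit 335) (nat_lit 279))) (XT.nd (nat_lit 78) (nat_lit 76) (nat_lit 0) (XT.lf (nat_lit 152) (nat_lit 30097587153) (nat_lit 0) (nat_lit 24294183) (nat_lit 76) (nat_lit 24294183) (nat_lit 161) (nat_lit 1) (nat_lit 159) (nat_lit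 1) (nat_lit 160) (nat_lit 1) (nat_lit 287) (nat_lit 335) (nat_lit 278)) (XT.nd (nat_lit 78) (nat_lit 76) (nat_lit 0) (XT.lf (nat_lit 0) (nat_lit 9549963830) (nat_lit 0) (nat_lit 9610584478) (nat_lit 152) (nat_lit 9549963830) (nat_lit 159) (nat_lit 3) (nat_lit 159) (nat_lit 1) (nat_lit 161) (nat_lit 1) (nat_lit 288) (nat_lit 335) (nat_lit 277)) (XT.lf (nat_lit 76) (nat_lit 9099900745) (nat_lit 0) (nat_lit 9152614352) (nat_lit 76) (nat_lit 9152614352) (nat_lit 159) (nat_lit 3) (nat_lit 158) (nat_lit 1) (nat_lit 159) (nat_lit 1) (nat_lit 289) (nat_lit 335) (nat_lit 276))))) (XT.nd (nat_lit 234) (nat_lit 228) (nat_lit 0) (XT.nd (nat_lit 78) (nat_lit 76) (nat_lit 0) (XT.lf (nat_lit 152) (nat_lit 26185341405) (nat_lit 0) (nat_lit 13890278) (nat_lit 76) (nat_lit 13890278) (nat_lit 158) (nat_lit 1) (nat_lit 156) (nat_lit 1) (nat_lit 157) (nat_lit 1) (nat_lit 290) (nat_lit 335) (nat_lit 275)) (XT.nd (nat_lit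 78) (nat_lit 76) (nat_lit 0) (XT.lf (nat_lit 0) (nat_lit 8310047661) (nat_lit 0) (nat_lit 8344707713) (nat_lit 152) (nat_lit 8310047661) (nat_lit 156) (nat_lit 3) (nat_lit 156) (nat_lit 1) (nat_lit 158) (nat_lit 1) (nat_lit 291) (nat_lit 335) (nat_lit 274)) (XT.lf (nat_lit 76) (nat_lit 7923185139) (nat_lit 0) (nat_lit 7953324314) (nat_lit 76) (nat_lit 7953324314) (nat_lit 156) (nat_lit 3) (nat_lit 155) (nat_lit 1) (nat_lit 156) (nat_lit 1) (nat_lit 292) (nat_lit 335) (nat_lit 273)))) (XT.nd (nat_lit 78) (nat_lit 76) (nat_lit 0) (XT.lf (nat_lit 152) (nat_lit 22777595905) (nat_lit 0) (nat_lit 7941811) (nat_lit 76) (nat_lit 7941811) (nat_lit 155) (nat_lit 1) (nat_lit 153) (nat_lit 1) (nat_lit 154) (nat_lit 1) (nat_lit 293) (nat_lit 335) (nat_lit 272)) (XT.nd (nat_lit 78) (nat_lit 76) (nat_lit 0) (XT.lf (nat_lit 0) (nat_lit 7229405283) (nat_lit 0) (nat_lit 7249222280) (nat_lit 152) (nat_lit 7229405283)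 (nat_lit 153) (nat_lit 3) (nat_lit 153) (nat_lit 1) (nat_lit 155) (nat_lit 1) (nat_lit 294) (nat_lit 335) (nat_lit 271)) (XT.lf (nat_lit 76) (nat_lit 6895574082) (nat_lit 0) (nat_lit 6912806253) (nat_lit 76) (nat_lit 6912806253) (nat_lit 153) (nat_lit 3) (nat_lit 152) (nat_lit 1) (nat_lit 153) (nat_lit 1) (nat_lit 295) (nat_lit 335) (nat_lit 270))))))))
noncomputable def ec107 : XT := (XT.nd (nat_lit 1716) (nat_lit 1672) (nat_lit 0) (XT.nd (nat_lit 858) (nat_lit 912) (nat_lit 0) (XT.nd (nat_lit 390) (nat_lit 456) (nat_lit 0) (XT.nd (nat_lit 156) (nat_lit 228) (nat_lit 0) (XT.nd (nat_lit 78) (nat_lit 0) (nat_lit 0) (XT.lf (nat_lit 152) (nat_lit 19811026968) (nat_lit 0) (nat_lit 4540756) (nat_lit 76) (nat_lit 4540756) (nat_lit 152) (nat_lit 1) (nat_lit 150) (nat_lit 1) (nat_lit 151) (nat_lit 1) (nat_lit 296) (nat_lit 335) (nat_lit 269)) (XT.lf (nat_lit 0) (nat_lit 6288312945) (nat_lit 0) (nat_lit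 6299643377) (nat_lit 152) (nat_lit 6288312945) (nat_lit 150) (nat_lit 3) (nat_lit 150) (nat_lit 1) (nat_lit 152) (nat_lit 1) (nat_lit 297) (nat_lit 335) (nat_lit 268))) (XT.nd (nat_lit 78) (nat_lit 152) (nat_lit 0) (XT.lf (nat_lit 76) (nat_lit 5999494917) (nat_lit 0) (nat_lit 6009347467) (nat_lit 76) (nat_lit 6009347467) (nat_lit 150) (nat_lit 3) (nat_lit 149) (nat_lit 1) (nat_lit 150) (nat_lit 1) (nat_lit 298) (nat_lit 335) (nat_lit 267)) (XT.nd (nat_lit 78) (nat_lit 0) (nat_lit 0) (XT.lf (nat_lit 152) (nat_lit 17229508170) (nat_lit 0) (nat_lit 2596192) (nat_lit 76) (nat_lit 2596192) (nat_lit 149) (nat_lit 1) (nat_lit 147) (nat_lit 1) (nat_lit 148) (nat_lit 1) (nat_lit 299) (nat_lit 335) (nat_lit 266)) (XT.lf (nat_lit 0) (nat_lit 5469169431) (nat_lit 0) (nat_lit 5475647643) (nat_lit 152) (nat_lit 5469169431) (nat_lit 147) (nat_lit 3) (nat_lit 147) (nat_lit 1) (nat_lit 149) (nat_lit 1) (nat_lit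 300) (nat_lit 335) (nat_lit 265))))) (XT.nd (nat_lit 234) (nat_lit 228) (nat_lit 0) (XT.nd (nat_lit 78) (nat_lit 152) (nat_lit 0) (XT.lf (nat_lit 76) (nat_lit 5218863782) (nat_lit 0) (nat_lit 5224497009) (nat_lit 76) (nat_lit 5224497009) (nat_lit 147) (nat_lit 3) (nat_lit 146) (nat_lit 1) (nat_lit 147) (nat_lit 1) (nat_lit 301) (nat_lit 335) (nat_lit 264)) (XT.nd (nat_lit 78) (nat_lit 0) (nat_lit 0) (XT.lf (nat_lit 152) (nat_lit 14983626522) (nat_lit 0) (nat_lit 1484381) (nat_lit 76) (nat_lit 1484381) (nat_lit 146) (nat_lit 1) (nat_lit 144) (nat_lit 1) (nat_lit 145) (nat_lit 1) (nat_lit 302) (nat_lit 335) (nat_lit 263)) (XT.lf (nat_lit 0) (nat_lit 4756411978) (nat_lit 0) (nat_lit 4760115916) (nat_lit 152) (nat_lit 4756411978) (nat_lit 144) (nat_lit 3) (nat_lit 144) (nat_lit 1) (nat_lit 146) (nat_lit 1) (nat_lit 303) (nat_lit 335) (nat_lit 262)))) (XT.nd (nat_lit 78) (nat_lit 152) (nat_lit 0) (XT.lf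 (nat_lit 76) (nat_lit 4539235429) (nat_lit 0) (nat_lit 4542456245) (nat_lit 76) (nat_lit 4542456245) (nat_lit 144) (nat_lit 3) (nat_lit 143) (nat_lit 1) (nat_lit 144) (nat_lit 1) (nat_lit 304) (nat_lit 335) (nat_lit 261)) (XT.nd (nat_lit 78) (nat_lit 0) (nat_lit 0) (XT.lf (nat_lit 152) (nat_lit 13030066926) (nat_lit 0) (nat_lit 848699) (nat_lit 76) (nat_lit 848699) (nat_lit 143) (nat_lit 1) (nat_lit 141) (nat_lit 1) (nat_lit 142) (nat_lit 1) (nat_lit 305) (nat_lit 335) (nat_lit 260)) (XT.lf (nat_lit 0) (nat_lit 4136360599) (nat_lit 0) (nat_lit 4138478338) (nat_lit 152) (nat_lit 4136360599) (nat_lit 141) (nat_lit 3) (nat_lit 141) (nat_lit 1) (nat_lit 143) (nat_lit 1) (nat_lit 306) (nat_lit 335) (nat_lit 259)))))) (XT.nd (nat_lit 390) (nat_lit 456) (nat_lit 0) (XT.nd (nat_lit 156) (nat_lit 228) (nat_lit 0) (XT.nd (nat_lit 78) (nat_lit 152) (nat_lit 0) (XT.lf (nat_lit 76) (nat_lit 3947786174) (nat_lit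 0) (nat_lit 3949627686) (nat_lit 76) (nat_lit 3949627686) (nat_lit 141) (nat_lit 3) (nat_lit 140) (nat_lit 1) (nat_lit 141) (nat_lit 1) (nat_lit 307) (nat_lit 335) (nat_lit 258)) (XT.lf (nat_lit 152) (nat_lit 11330965518) (nat_lit 0) (nat_lit 485246) (nat_lit 76) (nat_lit 485246) (nat_lit 140) (nat_lit 1) (nat_lit 138) (nat_lit 1) (nat_lit 139) (nat_lit 1) (nat_lit 308) (nat_lit 335) (nat_lit 257))) (XT.nd (nat_lit 78) (nat_lit 228) (nat_lit 0) (XT.lf (nat_lit 0) (nat_lit 3597035522) (nat_lit 0) (nat_lit 3598246346) (nat_lit 152) (nat_lit 3597035522) (nat_lit 138) (nat_lit 3) (nat_lit 138) (nat_lit 1) (nat_lit 140) (nat_lit 1) (nat_lit 309) (nat_lit 335) (nat_lit 256)) (XT.nd (nat_lit 78) (nat_lit 152) (nat_lit 0) (XT.lf (nat_lit 76) (nat_lit 3433214849) (nat_lit 0) (nat_lit 3434267740) (nat_lit 76) (nat_lit 3434267740) (nat_lit 138) (nat_lit 3) (nat_lit 137) (nat_lit 1) (nat_lit 138) (nat_lit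 1) (nat_lit 310) (nat_lit 335) (nat_lit 255)) (XT.lf (nat_lit 152) (nat_lit 9853283669) (nat_lit 0) (nat_lit 277441) (nat_lit 76) (nat_lit 277441) (nat_lit 137) (nat_lit 1) (nat_lit 135) (nat_lit 1) (nat_lit 136) (nat_lit 1) (nat_lit 311) (nat_lit 335) (nat_lit 254))))) (XT.nd (nat_lit 234) (nat_lit 228) (nat_lit 0) (XT.nd (nat_lit 78) (nat_lit 228) (nat_lit 0) (XT.lf (nat_lit 0) (nat_lit 3127971451) (nat_lit 0) (nat_lit 3128663743) (nat_lit 152) (nat_lit 3127971451) (nat_lit 135) (nat_lit 3) (nat_lit 135) (nat_lit 1) (nat_lit 137) (nat_lit 1) (nat_lit 312) (nat_lit 335) (nat_lit 253)) (XT.nd (nat_lit 78) (nat_lit 152) (nat_lit 0) (XT.lf (nat_lit 76) (nat_lit 2985608508) (nat_lit 0) (nat_lit 2986210502) (nat_lit 76) (nat_lit 2986210502) (nat_lit 135) (nat_lit 3) (nat_lit 134) (nat_lit 1) (nat_lit 135) (nat_lit 1) (nat_lit 313) (nat_lit 335) (nat_lit 252)) (XT.lf (nat_lit 152) (nat_lit 8568227229)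 (nat_lit 0) (nat_lit 158628) (nat_lit 76) (nat_lit 158628) (nat_lit 134) (nat_lit 1) (nat_lit 132) (nat_lit 1) (nat_lit 133) (nat_lit 1) (nat_lit 314) (nat_lit 335) (nat_lit 251)))) (XT.nd (nat_lit 78) (nat_lit 228) (nat_lit 0) (XT.lf (nat_lit 0) (nat_lit 2720040626) (nat_lit 0) (nat_lit 2720436447) (nat_lit 152) (nat_lit 2720040626) (nat_lit 132) (nat_lit 3) (nat_lit 132) (nat_lit 1) (nat_lit 134) (nat_lit 1) (nat_lit 315) (nat_lit 335) (nat_lit 250)) (XT.nd (nat_lit 78) (nat_lit 152) (nat_lit 0) (XT.lf (nat_lit 76) (nat_lit 2596298115) (nat_lit 0) (nat_lit 2596642307) (nat_lit 76) (nat_lit 2596642307) (nat_lit 132) (nat_lit 3) (nat_lit 131) (nat_lit 1) (nat_lit 132) (nat_lit 1) (nat_lit 316) (nat_lit 335) (nat_lit 249)) (XT.lf (nat_lit 152) (nat_lit 7450720694) (nat_lit 0) (nat_lit 90696) (nat_lit 76) (nat_lit 90696) (nat_lit 131) (nat_lit 1) (nat_lit 129) (nat_lit 1) (nat_lit 130) (nat_lit 1)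 (nat_lit 317) (nat_lit 335) (nat_lit 248))))))) (XT.nd (nat_lit 858) (nat_lit 912) (nat_lit 0) (XT.nd (nat_lit 390) (nat_lit 456) (nat_lit 0) (XT.nd (nat_lit 156) (nat_lit 228) (nat_lit 0) (XT.nd (nat_lit 78) (nat_lit 76) (nat_lit 0) (XT.lf (nat_lit 0) (nat_lit 2365290141) (nat_lit 0) (nat_lit 2365516452) (nat_lit 152) (nat_lit 2365290141) (nat_lit 129) (nat_lit 3) (nat_lit 129) (nat_lit 1) (nat_lit 131) (nat_lit 1) (nat_lit 318) (nat_lit 335) (nat_lit 247)) (XT.lf (nat_lit 76) (nat_lit 2257717318) (nat_lit 0) (nat_lit 2257914111) (nat_lit 76) (nat_lit 2257914111) (nat_lit 129) (nat_lit 3) (nat_lit 128) (nat_lit 1) (nat_lit 129) (nat_lit 1) (nat_lit 319) (nat_lit 335) (nat_lit 246))) (XT.nd (nat_lit 78) (nat_lit 76) (nat_lit 0) (XT.lf (nat_lit 152) (nat_lit 6478938057) (nat_lit 0) (nat_lit 51855) (nat_lit 76) (nat_lit 51855) (nat_lit 128) (nat_lit 1) (nat_lit 126) (nat_lit 1) (nat_lit 127) (nat_lit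 1) (nat_lit 320) (nat_lit 335) (nat_lit 245)) (XT.nd (nat_lit 78) (nat_lit 76) (nat_lit 0) (XT.lf (nat_lit 0) (nat_lit 2056795432) (nat_lit 0) (nat_lit 2056924826) (nat_lit 152) (nat_lit 2056795432) (nat_lit 126) (nat_lit 3) (nat_lit 126) (nat_lit 1) (nat_lit 128) (nat_lit 1) (nat_lit 321) (nat_lit 335) (nat_lit 244)) (XT.lf (nat_lit 76) (nat_lit 1963270634) (nat_lit 0) (nat_lit 1963383151) (nat_lit 76) (nat_lit 1963383151) (nat_lit 126) (nat_lit 3) (nat_lit 125) (nat_lit 1) (nat_lit 126) (nat_lit 1) (nat_lit 322) (nat_lit 335) (nat_lit 243))))) (XT.nd (nat_lit 234) (nat_lit 228) (nat_lit 0) (XT.nd (nat_lit 78) (nat_lit 76) (nat_lit 0) (XT.lf (nat_lit 152) (nat_lit 5633888052) (nat_lit 0) (nat_lit 29648) (nat_lit 76) (nat_lit 29648) (nat_lit 125) (nat_lit 1) (nat_lit 123) (nat_lit 1) (nat_lit 124) (nat_lit 1) (nat_lit 323) (nat_lit 335) (nat_lit 242)) (XT.nd (nat_lit 78) (nat_lit 76) (nat_lit 0)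 (XT.lf (nat_lit 0) (nat_lit 1788530000) (nat_lit 0) (nat_lit 1788603982) (nat_lit 152) (nat_lit 1788530000) (nat_lit 123) (nat_lit 3) (nat_lit 123) (nat_lit 1) (nat_lit 125) (nat_lit 1) (nat_lit 324) (nat_lit 335) (nat_lit 241)) (XT.lf (nat_lit 76) (nat_lit 1707213687) (nat_lit 0) (nat_lit 1707278019) (nat_lit 76) (nat_lit 1707278019) (nat_lit 123) (nat_lit 3) (nat_lit 122) (nat_lit 1) (nat_lit 123) (nat_lit 1) (nat_lit 325) (nat_lit 335) (nat_lit 240)))) (XT.nd (nat_lit 78) (nat_lit 76) (nat_lit 0) (XT.lf (nat_lit 152) (nat_lit 4899049597) (nat_lit 0) (nat_lit 16951) (nat_lit 76) (nat_lit 16951) (nat_lit 122) (nat_lit 1) (nat_lit 120) (nat_lit 1) (nat_lit 121) (nat_lit 1) (nat_lit 326) (nat_lit 335) (nat_lit 239)) (XT.nd (nat_lit 78) (nat_lit 76) (nat_lit 0) (XT.lf (nat_lit 0) (nat_lit 1555250473) (nat_lit 0) (nat_lit 1555292772) (nat_lit 152) (nat_lit 1555250473) (nat_lit 120) (nat_lit 3) (nat_lit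 120) (nat_lit 1) (nat_lit 122) (nat_lit 1) (nat_lit 327) (nat_lit 335) (nat_lit 238)) (XT.lf (nat_lit 76) (nat_lit 1484546123) (nat_lit 0) (nat_lit 1484582905) (nat_lit 76) (nat_lit 1484582905) (nat_lit 120) (nat_lit 3) (nat_lit 119) (nat_lit 1) (nat_lit 120) (nat_lit 1) (nat_lit 328) (nat_lit 335) (nat_lit 237)))))) (XT.nd (nat_lit 468) (nat_lit 456) (nat_lit 0) (XT.nd (nat_lit 234) (nat_lit 228) (nat_lit 0) (XT.nd (nat_lit 78) (nat_lit 76) (nat_lit 0) (XT.lf (nat_lit 152) (nat_lit 4260052566) (nat_lit 0) (nat_lit 9692) (nat_lit 76) (nat_lit 9692) (nat_lit 119) (nat_lit 1) (nat_lit 117) (nat_lit 1) (nat_lit 118) (nat_lit 1) (nat_lit 329) (nat_lit 335) (nat_lit 236)) (XT.nd (nat_lit 78) (nat_lit 76) (nat_lit 0) (XT.lf (nat_lit 0) (nat_lit 1352395714) (nat_lit 0) (nat_lit 1352419899) (nat_lit 152) (nat_lit 1352395714) (nat_lit 117) (nat_lit 3) (nat_lit 117) (nat_lit 1) (nat_lit 119) (nat_lit 1)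 (nat_lit 330) (nat_lit 335) (nat_lit 235)) (XT.lf (nat_lit 76) (nat_lit 1290916809) (nat_lit 0) (nat_lit 1290937839) (nat_lit 76) (nat_lit 1290937839) (nat_lit 117) (nat_lit 3) (nat_lit 116) (nat_lit 1) (nat_lit 117) (nat_lit 1) (nat_lit 331) (nat_lit 335) (nat_lit 234)))) (XT.nd (nat_lit 78) (nat_lit 76) (nat_lit 0) (XT.lf (nat_lit 152) (nat_lit 3704398932) (nat_lit 0) (nat_lit 5541) (nat_lit 76) (nat_lit 5541) (nat_lit 116) (nat_lit 1) (nat_lit 114) (nat_lit 1) (nat_lit 115) (nat_lit 1) (nat_lit 332) (nat_lit 335) (nat_lit 233)) (XT.nd (nat_lit 78) (nat_lit 76) (nat_lit 0) (XT.lf (nat_lit 0) (nat_lit 1175998560) (nat_lit 0) (nat_lit 1176012388) (nat_lit 152) (nat_lit 1175998560) (nat_lit 114) (nat_lit 3) (nat_lit 114) (nat_lit 1) (nat_lit 116) (nat_lit 1) (nat_lit 333) (nat_lit 335) (nat_lit 232)) (XT.lf (nat_lit 76) (nat_lit 1122540436) (nat_lit 0) (nat_lit 1122552460) (nat_lit 76) (nat_lit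 1122552460) (nat_lit 114) (nat_lit 3) (nat_lit 113) (nat_lit 1) (nat_lit 114) (nat_lit 1) (nat_lit 334) (nat_lit 335) (nat_lit 231))))) (XT.nd (nat_lit 234) (nat_lit 228) (nat_lit 0) (XT.nd (nat_lit 78) (nat_lit 76) (nat_lit 0) (XT.lf (nat_lit 152) (nat_lit 3221219548) (nat_lit 0) (nat_lit 3168) (nat_lit 76) (nat_lit 3168) (nat_lit 113) (nat_lit 1) (nat_lit 111) (nat_lit 1) (nat_lit 112) (nat_lit 1) (nat_lit 335) (nat_lit 335) (nat_lit 230)) (XT.nd (nat_lit 78) (nat_lit 76) (nat_lit 0) (XT.lf (nat_lit 0) (nat_lit 1022608751) (nat_lit 0) (nat_lit 1022616657) (nat_lit 152) (nat_lit 1022608751) (nat_lit 111) (nat_lit 3) (nat_lit 111) (nat_lit 1) (nat_lit 113) (nat_lit 1) (nat_lit 336) (nat_lit 335) (nat_lit 229)) (XT.lf (nat_lit 76) (nat_lit 976124451) (nat_lit 0) (nat_lit 976131326) (nat_lit 76) (nat_lit 976131326) (nat_lit 111) (nat_lit 3) (nat_lit 110) (nat_lit 1) (nat_lit 111) (nat_lit 1) (nat_lit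 337) (nat_lit 335) (nat_lit 228)))) (XT.nd (nat_lit 78) (nat_lit 76) (nat_lit 0) (XT.lf (nat_lit 152) (nat_lit 2801062240) (nat_lit 0) (nat_lit 1811) (nat_lit 76) (nat_lit 1811) (nat_lit 110) (nat_lit 1) (nat_lit 108) (nat_lit 1) (nat_lit 109) (nat_lit 1) (nat_lit 338) (nat_lit 335) (nat_lit 227)) (XT.nd (nat_lit 78) (nat_lit 76) (nat_lit 0) (XT.lf (nat_lit 0) (nat_lit 889225748) (nat_lit 0) (nat_lit 889230268) (nat_lit 152) (nat_lit 889225748) (nat_lit 108) (nat_lit 3) (nat_lit 108) (nat_lit 1) (nat_lit 110) (nat_lit 1) (nat_lit 339) (nat_lit 335) (nat_lit 226)) (XT.lf (nat_lit 76) (nat_lit 848805205) (nat_lit 0) (nat_lit 848809135) (nat_lit 76) (nat_lit 848809135) (nat_lit 108) (nat_lit 3) (nat_lit 107) (nat_lit 1) (nat_lit 108) (nat_lit 1) (nat_lit 340) (nat_lit 335) (nat_lit 225))))))))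
noncomputable def ec108 : XT := (XT.nd (nat_lit 1716) (nat_lit 684) (nat_lit 0) (XT.nd (nat_lit 858) (nat_lit 912) (nat_lit 0) (XT.nd (nat_lit 390) (nat_lit 456) (nat_lit 0) (XT.nd (nat_lit 156) (nat_lit 228) (nat_lit 0) (XT.nd (nat_lit 78) (nat_lit 0) (nat_lit 0) (XT.lf (nat_lit 152) (nat_lit 2435707305) (nat_lit 0) (nat_lit 1035) (nat_lit 76) (nat_lit 1035) (nat_lit 107) (nat_lit 1) (nat_lit 105) (nat_lit 1) (nat_lit 106) (nat_lit 1) (nat_lit 341) (nat_lit 335) (nat_lit 224)) (XT.lf (nat_lit 0) (nat_lit 773240208) (nat_lit 0) (nat_lit 773242793) (nat_lit 152) (nat_lit 773240208) (nat_lit 105) (nat_lit 3) (nat_lit 105) (nat_lit 1) (nat_lit 107) (nat_lit 1) (nat_lit 342) (nat_lit 335) (nat_lit 223))) (XT.nd (nat_lit 78) (nat_lit 152) (nat_lit 0) (XT.lf (nat_lit 76) (nat_lit 738092245) (nat_lit 0) (nat_lit 738094492) (nat_lit 76) (nat_lit 738094492) (nat_lit 105) (nat_lit 3) (nat_lit 104) (nat_lit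 1) (nat_lit 105) (nat_lit 1) (nat_lit 343) (nat_lit 335) (nat_lit 222)) (XT.nd (nat_lit 78) (nat_lit 0) (nat_lit 0) (XT.lf (nat_lit 152) (nat_lit 2118006928) (nat_lit 0) (nat_lit 592) (nat_lit 76) (nat_lit 592) (nat_lit 104) (nat_lit 1) (nat_lit 102) (nat_lit 1) (nat_lit 103) (nat_lit 1) (nat_lit 344) (nat_lit 335) (nat_lit 221)) (XT.lf (nat_lit 0) (nat_lit 672383034) (nat_lit 0) (nat_lit 672384512) (nat_lit 152) (nat_lit 672383034) (nat_lit 102) (nat_lit 3) (nat_lit 102) (nat_lit 1) (nat_lit 104) (nat_lit 1) (nat_lit 345) (nat_lit 335) (nat_lit 220))))) (XT.nd (nat_lit 234) (nat_lit 228) (nat_lit 0) (XT.nd (nat_lit 78) (nat_lit 152) (nat_lit 0) (XT.lf (nat_lit 76) (nat_lit 641819779) (nat_lit 0) (nat_lit 641821064) (nat_lit 76) (nat_lit 641821064) (nat_lit 102) (nat_lit 3) (nat_lit 101) (nat_lit 1) (nat_lit 102) (nat_lit 1) (nat_lit 346) (nat_lit 335) (nat_lit 219)) (XT.nd (nat_lit 78) (nat_lit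 0) (nat_lit 0) (XT.lf (nat_lit 152) (nat_lit 1841745485) (nat_lit 0) (nat_lit 338) (nat_lit 76) (nat_lit 338) (nat_lit 101) (nat_lit 1) (nat_lit 99) (nat_lit 1) (nat_lit 100) (nat_lit 1) (nat_lit 347) (nat_lit 335) (nat_lit 218)) (XT.lf (nat_lit 0) (nat_lit 584681039) (nat_lit 0) (nat_lit 584681884) (nat_lit 152) (nat_lit 584681039) (nat_lit 99) (nat_lit 3) (nat_lit 99) (nat_lit 1) (nat_lit 101) (nat_lit 1) (nat_lit 348) (nat_lit 335) (nat_lit 217)))) (XT.nd (nat_lit 78) (nat_lit 152) (nat_lit 0) (XT.lf (nat_lit 76) (nat_lit 558104405) (nat_lit 0) (nat_lit 558105140) (nat_lit 76) (nat_lit 558105140) (nat_lit 99) (nat_lit 3) (nat_lit 98) (nat_lit 1) (nat_lit 99) (nat_lit 1) (nat_lit 349) (nat_lit 335) (nat_lit 216)) (XT.nd (nat_lit 78) (nat_lit 0) (nat_lit 0) (XT.lf (nat_lit 152) (nat_lit 1601518001) (nat_lit 0) (nat_lit 193) (nat_lit 76) (nat_lit 193) (nat_lit 98) (nat_lit 1) (nat_lit 96) (nat_lit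 1) (nat_lit 97) (nat_lit 1) (nat_lit 350) (nat_lit 335) (nat_lit 215)) (XT.lf (nat_lit 0) (nat_lit 508418374) (nat_lit 0) (nat_lit 508418857) (nat_lit 152) (nat_lit 508418374) (nat_lit 96) (nat_lit 3) (nat_lit 96) (nat_lit 1) (nat_lit 98) (nat_lit 1) (nat_lit 351) (nat_lit 335) (nat_lit 214)))))) (XT.nd (nat_lit 390) (nat_lit 456) (nat_lit 0) (XT.nd (nat_lit 156) (nat_lit 228) (nat_lit 0) (XT.nd (nat_lit 78) (nat_lit 152) (nat_lit 0) (XT.lf (nat_lit 76) (nat_lit 485308321) (nat_lit 0) (nat_lit 485308741) (nat_lit 76) (nat_lit 485308741) (nat_lit 96) (nat_lit 3) (nat_lit 95) (nat_lit 1) (nat_lit 96) (nat_lit 1) (nat_lit 352) (nat_lit 335) (nat_lit 213)) (XT.lf (nat_lit 152) (nat_lit 1392624457) (nat_lit 0) (nat_lit 110) (nat_lit 76) (nat_lit 110) (nat_lit 95) (nat_lit 1) (nat_lit 93) (nat_lit 1) (nat_lit 94) (nat_lit 1) (nat_lit 353) (nat_lit 335) (nat_lit 212))) (XT.nd (nat_lit 78) (nat_lit 228)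 (nat_lit 0) (XT.lf (nat_lit 0) (nat_lit 442102980) (nat_lit 0) (nat_lit 442103256) (nat_lit 152) (nat_lit 442102980) (nat_lit 93) (nat_lit 3) (nat_lit 93) (nat_lit 1) (nat_lit 95) (nat_lit 1) (nat_lit 354) (nat_lit 335) (nat_lit 211)) (XT.nd (nat_lit 78) (nat_lit 152) (nat_lit 0) (XT.lf (nat_lit 76) (nat_lit 422007317) (nat_lit 0) (nat_lit 422007557) (nat_lit 76) (nat_lit 422007557) (nat_lit 93) (nat_lit 3) (nat_lit 92) (nat_lit 1) (nat_lit 93) (nat_lit 1) (nat_lit 355) (nat_lit 335) (nat_lit 210)) (XT.lf (nat_lit 152) (nat_lit 1210977850) (nat_lit 0) (nat_lit 63) (nat_lit 76) (nat_lit 63) (nat_lit 92) (nat_lit 1) (nat_lit 90) (nat_lit 1) (nat_lit 91) (nat_lit 1) (nat_lit 356) (nat_lit 335) (nat_lit 209))))) (XT.nd (nat_lit 234) (nat_lit 228) (nat_lit 0) (XT.nd (nat_lit 78) (nat_lit 228) (nat_lit 0) (XT.lf (nat_lit 0) (nat_lit 384437400) (nat_lit 0) (nat_lit 384437558) (nat_lit 152) (nat_lit 384437400)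 (nat_lit 90) (nat_lit 3) (nat_lit 90) (nat_lit 1) (nat_lit 92) (nat_lit 1) (nat_lit 357) (nat_lit 335) (nat_lit 208)) (XT.nd (nat_lit 78) (nat_lit 152) (nat_lit 0) (XT.lf (nat_lit 76) (nat_lit 366962931) (nat_lit 0) (nat_lit 366963068) (nat_lit 76) (nat_lit 366963068) (nat_lit 90) (nat_lit 3) (nat_lit 89) (nat_lit 1) (nat_lit 90) (nat_lit 1) (nat_lit 358) (nat_lit 335) (nat_lit 207)) (XT.lf (nat_lit 152) (nat_lit 1053024253) (nat_lit 0) (nat_lit 36) (nat_lit 76) (nat_lit 36) (nat_lit 89) (nat_lit 1) (nat_lit 87) (nat_lit 1) (nat_lit 88) (nat_lit 1) (nat_lit 359) (nat_lit 335) (nat_lit 206)))) (XT.nd (nat_lit 78) (nat_lit 228) (nat_lit 0) (XT.lf (nat_lit 0) (nat_lit 334293406) (nat_lit 0) (nat_lit 334293496) (nat_lit 152) (nat_lit 334293406) (nat_lit 87) (nat_lit 3) (nat_lit 87) (nat_lit 1) (nat_lit 89) (nat_lit 1) (nat_lit 360) (nat_lit 335) (nat_lit 205)) (XT.nd (nat_lit 78) (nat_lit 152) (nat_lit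 0) (XT.lf (nat_lit 76) (nat_lit 319098227) (nat_lit 0) (nat_lit 319098306) (nat_lit 76) (nat_lit 319098306) (nat_lit 87) (nat_lit 3) (nat_lit 86) (nat_lit 1) (nat_lit 87) (nat_lit 1) (nat_lit 361) (nat_lit 335) (nat_lit 204)) (XT.lf (nat_lit 152) (nat_lit 915673283) (nat_lit 0) (nat_lit 20) (nat_lit 76) (nat_lit 20) (nat_lit 86) (nat_lit 1) (nat_lit 84) (nat_lit 1) (nat_lit 85) (nat_lit 1) (nat_lit 362) (nat_lit 335) (nat_lit 203))))))) (XT.nd (nat_lit 36504) (nat_lit 0) (nat_lit 9880) (XT.nd (nat_lit 390) (nat_lit 380) (nat_lit 0) (XT.nd (nat_lit 156) (nat_lit 228) (nat_lit 0) (XT.nd (nat_lit 78) (nat_lit 76) (nat_lit 0) (XT.lf (nat_lit 0) (nat_lit 290689927) (nat_lit 0) (nat_lit 290689978) (nat_lit 152) (nat_lit 290689927) (nat_lit 84) (nat_lit 3) (nat_lit 84) (nat_lit 1) (nat_lit 86) (nat_lit 1) (nat_lit 363) (nat_lit 335) (nat_lit 202)) (XT.lf (nat_lit 76) (nat_lit 277476735) (nat_lit 0) (nat_lit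 277476780) (nat_lit 76) (nat_lit 277476780) (nat_lit 84) (nat_lit 3) (nat_lit 83) (nat_lit 1) (nat_lit 84) (nat_lit 1) (nat_lit 364) (nat_lit 335) (nat_lit 201))) (XT.nd (nat_lit 78) (nat_lit 76) (nat_lit 0) (XT.lf (nat_lit 152) (nat_lit 796237649) (nat_lit 0) (nat_lit 11) (nat_lit 76) (nat_lit 11) (nat_lit 83) (nat_lit 1) (nat_lit 81) (nat_lit 1) (nat_lit 82) (nat_lit 1) (nat_lit 365) (nat_lit 335) (nat_lit 200)) (XT.nd (nat_lit 78) (nat_lit 76) (nat_lit 0) (XT.lf (nat_lit 0) (nat_lit 252773854) (nat_lit 0) (nat_lit 252773884) (nat_lit 152) (nat_lit 252773854) (nat_lit 81) (nat_lit 3) (nat_lit 81) (nat_lit 1) (nat_lit 83) (nat_lit 1) (nat_lit 366) (nat_lit 335) (nat_lit 199)) (XT.lf (nat_lit 76) (nat_lit 241284126) (nat_lit 0) (nat_lit 241284151) (nat_lit 76) (nat_lit 241284151) (nat_lit 81) (nat_lit 3) (nat_lit 80) (nat_lit 1) (nat_lit 81) (nat_lit 1) (nat_lit 367) (nat_lit 335) (nat_lit 198)))))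 (XT.nd (nat_lit 234) (nat_lit 152) (nat_lit 0) (XT.nd (nat_lit 78) (nat_lit 76) (nat_lit 0) (XT.lf (nat_lit 152) (nat_lit 692380571) (nat_lit 0) (nat_lit 6) (nat_lit 76) (nat_lit 6) (nat_lit 80) (nat_lit 1) (nat_lit 78) (nat_lit 1) (nat_lit 79) (nat_lit 1) (nat_lit 368) (nat_lit 335) (nat_lit 197)) (XT.nd (nat_lit 78) (nat_lit 76) (nat_lit 0) (XT.lf (nat_lit 0) (nat_lit 219803354) (nat_lit 0) (nat_lit 219803371) (nat_lit 152) (nat_lit 219803354) (nat_lit 78) (nat_lit 3) (nat_lit 78) (nat_lit 1) (nat_lit 80) (nat_lit 1) (nat_lit 369) (nat_lit 335) (nat_lit 196)) (XT.lf (nat_lit 76) (nat_lit 209812288) (nat_lit 0) (nat_lit 209812303) (nat_lit 76) (nat_lit 209812303) (nat_lit 78) (nat_lit 3) (nat_lit 77) (nat_lit 1) (nat_lit 78) (nat_lit 1) (nat_lit 370) (nat_lit 335) (nat_lit 195)))) (XT.nd (nat_lit 35724) (nat_lit 0) (nat_lit 10640) (XT.lf (nat_lit 152) (nat_lit 602070065) (nat_lit 0) (nat_lit 3)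 (nat_lit 76) (nat_lit 3) (nat_lit 77) (nat_lit 1) (nat_lit 75) (nat_lit 1) (nat_lit 76) (nat_lit 1) (nat_lit 371) (nat_lit 335) (nat_lit 194)) (XT.nd (nat_lit 78) (nat_lit 0) (nat_lit 0) (XT.lf (nat_lit 380) (nat_lit 107459964019) (nat_lit 0) (nat_lit 95179934879) (nat_lit 380) (nat_lit 107459964019) (nat_lit 220) (nat_lit 1) (nat_lit 215) (nat_lit 0) (nat_lit 220) (nat_lit 0) (nat_lit 228) (nat_lit 336) (nat_lit 336)) (XT.lf (nat_lit 380) (nat_lit 397480461308) (nat_lit 76) (nat_lit 90853574203) (nat_lit 0) (nat_lit 90853574203) (nat_lit 220) (nat_lit 1) (nat_lit 216) (nat_lit 1) (nat_lit 215) (nat_lit 0) (nat_lit 229) (nat_lit 336) (nat_lit 335)))))) (XT.nd (nat_lit 390) (nat_lit 608) (nat_lit 0) (XT.nd (nat_lit 156) (nat_lit 228) (nat_lit 0) (XT.nd (nat_lit 78) (nat_lit 0) (nat_lit 0) (XT.lf (nat_lit 380) (nat_lit 175207108073) (nat_lit 0) (nat_lit 190641861156) (nat_lit 304) (nat_lit 175207108073)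 (nat_lit 221) (nat_lit 1) (nat_lit 216) (nat_lit 1) (nat_lit 220) (nat_lit 1) (nat_lit 230) (nat_lit 336) (nat_lit 334)) (XT.lf (nat_lit 380) (nat_lit 300821507298) (nat_lit 76) (nat_lit 102973214009) (nat_lit 0) (nat_lit 102973214009) (nat_lit 221) (nat_lit 1) (nat_lit 217) (nat_lit 1) (nat_lit 216) (nat_lit 1) (nat_lit 231) (nat_lit 336) (nat_lit 333))) (XT.nd (nat_lit 78) (nat_lit 304) (nat_lit 0) (XT.lf (nat_lit 76) (nat_lit 121686289483) (nat_lit 0) (nat_lit 231711124145) (nat_lit 304) (nat_lit 121686289483) (nat_lit 218) (nat_lit 1) (nat_lit 217) (nat_lit 1) (nat_lit 221) (nat_lit 1) (nat_lit 232) (nat_lit 336) (nat_lit 332)) (XT.nd (nat_lit 78) (nat_lit 0) (nat_lit 0) (XT.lf (nat_lit 380) (nat_lit 182884665288) (nat_lit 0) (nat_lit 131636875094) (nat_lit 304) (nat_lit 131636875094) (nat_lit 218) (nat_lit 1) (nat_lit 213) (nat_lit 1) (nat_lit 217) (nat_lit 1) (nat_lit 233) (nat_lit 336) (nat_lit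 331)) (XT.lf (nat_lit 76) (nat_lit 60788842947) (nat_lit 0) (nat_lit 298292375953) (nat_lit 380) (nat_lit 60788842947) (nat_lit 214) (nat_lit 1) (nat_lit 213) (nat_lit 1) (nat_lit 218) (nat_lit 1) (nat_lit 234) (nat_lit 336) (nat_lit 330))))) (XT.nd (nat_lit 234) (nat_lit 228) (nat_lit 0) (XT.nd (nat_lit 78) (nat_lit 228) (nat_lit 0) (XT.lf (nat_lit 228) (nat_lit 54708524670) (nat_lit 0) (nat_lit 170266783683) (nat_lit 152) (nat_lit 170266783683) (nat_lit 214) (nat_lit 1) (nat_lit 211) (nat_lit 1) (nat_lit 213) (nat_lit 1) (nat_lit 235) (nat_lit 336) (nat_lit 329)) (XT.nd (nat_lit 78) (nat_lit 0) (nat_lit 0) (XT.lf (nat_lit 228) (nat_lit 367640597408) (nat_lit 0) (nat_lit 2884512219) (nat_lit 152) (nat_lit 2884512219) (nat_lit 211) (nat_lit 1) (nat_lit 208) (nat_lit 1) (nat_lit 210) (nat_lit 1) (nat_lit 236) (nat_lit 336) (nat_lit 328)) (XT.lf (nat_lit 76) (nat_lit 141249867399) (nat_lit 0) (nat_lit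 69346166213) (nat_lit 228) (nat_lit 141249867399) (nat_lit 209) (nat_lit 1) (nat_lit 208) (nat_lit 1) (nat_lit 211) (nat_lit 1) (nat_lit 237) (nat_lit 336) (nat_lit 327)))) (XT.nd (nat_lit 78) (nat_lit 76) (nat_lit 0) (XT.lf (nat_lit 228) (nat_lit 205312103630) (nat_lit 0) (nat_lit 63685796254) (nat_lit 152) (nat_lit 63685796254) (nat_lit 209) (nat_lit 1) (nat_lit 206) (nat_lit 1) (nat_lit 208) (nat_lit 1) (nat_lit 238) (nat_lit 336) (nat_lit 326)) (XT.nd (nat_lit 78) (nat_lit 76) (nat_lit 0) (XT.lf (nat_lit 76) (nat_lit 64207828756) (nat_lit 0) (nat_lit 186330021322) (nat_lit 228) (nat_lit 64207828756) (nat_lit 207) (nat_lit 1) (nat_lit 206) (nat_lit 1) (nat_lit 209) (nat_lit 1) (nat_lit 239) (nat_lit 336) (nat_lit 325)) (XT.lf (nat_lit 152) (nat_lit 53079636206) (nat_lit 0) (nat_lit 122481521633) (nat_lit 76) (nat_lit 122481521633) (nat_lit 207) (nat_lit 1) (nat_lit 205) (nat_lit 1) (nat_lit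 206) (nat_lit 1) (nat_lit 240) (nat_lit 336) (nat_lit 324))))))))
noncomputable def ec109 : XT := (XT.nd (nat_lit 1716) (nat_lit 1824) (nat_lit 0) (XT.nd (nat_lit 858) (nat_lit 836) (nat_lit 0) (XT.nd (nat_lit 390) (nat_lit 380) (nat_lit 0) (XT.nd (nat_lit 156) (nat_lit 228) (nat_lit 0) (XT.nd (nat_lit 78) (nat_lit 0) (nat_lit 0) (XT.lf (nat_lit 228) (nat_lit 268720319947) (nat_lit 0) (nat_lit 7138830330) (nat_lit 152) (nat_lit 7138830330) (nat_lit 205) (nat_lit 1) (nat_lit 202) (nat_lit 1) (nat_lit 204) (nat_lit 1) (nat_lit 241) (nat_lit 336) (nat_lit 323)) (XT.lf (nat_lit 76) (nat_lit 94046332488) (nat_lit 0) (nat_lit 79867213975) (nat_lit 228) (nat_lit 94046332488) (nat_lit 203) (nat_lit 1) (nat_lit 202) (nat_lit 1) (nat_lit 205) (nat_lit 1) (nat_lit 242) (nat_lit 336) (nat_lit 322))) (XT.nd (nat_lit 78) (nat_lit 152) (nat_lit 0) (XT.lf (nat_lit 152) (nat_lit 114351332747) (nat_lit 0) (nat_lit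 70029207519) (nat_lit 76) (nat_lit 70029207519) (nat_lit 203) (nat_lit 1) (nat_lit 201) (nat_lit 1) (nat_lit 202) (nat_lit 1) (nat_lit 243) (nat_lit 336) (nat_lit 321)) (XT.nd (nat_lit 78) (nat_lit 152) (nat_lit 0) (XT.lf (nat_lit 0) (nat_lit 22391566798) (nat_lit 0) (nat_lit 197133634710) (nat_lit 152) (nat_lit 22391566798) (nat_lit 201) (nat_lit 3) (nat_lit 201) (nat_lit 1) (nat_lit 203) (nat_lit 1) (nat_lit 244) (nat_lit 336) (nat_lit 320)) (XT.lf (nat_lit 76) (nat_lit 103628076709) (nat_lit 0) (nat_lit 22475138400) (nat_lit 152) (nat_lit 103628076709) (nat_lit 200) (nat_lit 1) (nat_lit 199) (nat_lit 1) (nat_lit 201) (nat_lit 1) (nat_lit 245) (nat_lit 336) (nat_lit 319))))) (XT.nd (nat_lit 234) (nat_lit 228) (nat_lit 0) (XT.nd (nat_lit 78) (nat_lit 76) (nat_lit 0) (XT.lf (nat_lit 152) (nat_lit 138426726915) (nat_lit 0) (nat_lit 40039426685) (nat_lit 76) (nat_lit 40039426685) (nat_lit 200) (nat_lit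 1) (nat_lit 198) (nat_lit 1) (nat_lit 199) (nat_lit 1) (nat_lit 246) (nat_lit 336) (nat_lit 318)) (XT.nd (nat_lit 78) (nat_lit 76) (nat_lit 0) (XT.lf (nat_lit 0) (nat_lit 35991651397) (nat_lit 0) (nat_lit 135900995867) (nat_lit 152) (nat_lit 35991651397) (nat_lit 198) (nat_lit 3) (nat_lit 198) (nat_lit 1) (nat_lit 200) (nat_lit 1) (nat_lit 247) (nat_lit 336) (nat_lit 317)) (XT.lf (nat_lit 76) (nat_lit 8029094259) (nat_lit 0) (nat_lit 94906785103) (nat_lit 76) (nat_lit 94906785103) (nat_lit 198) (nat_lit 3) (nat_lit 197) (nat_lit 1) (nat_lit 198) (nat_lit 1) (nat_lit 248) (nat_lit 336) (nat_lit 316)))) (XT.nd (nat_lit 78) (nat_lit 76) (nat_lit 0) (XT.lf (nat_lit 152) (nat_lit 142664174981) (nat_lit 0) (nat_lit 22892672159) (nat_lit 76) (nat_lit 22892672159) (nat_lit 197) (nat_lit 1) (nat_lit 195) (nat_lit 1) (nat_lit 196) (nat_lit 1) (nat_lit 249) (nat_lit 336) (nat_lit 315)) (XT.nd (nat_lit 78)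 (nat_lit 76) (nat_lit 0) (XT.lf (nat_lit 0) (nat_lit 40742865592) (nat_lit 0) (nat_lit 97866357558) (nat_lit 152) (nat_lit 40742865592) (nat_lit 195) (nat_lit 3) (nat_lit 195) (nat_lit 1) (nat_lit 197) (nat_lit 1) (nat_lit 250) (nat_lit 336) (nat_lit 314)) (XT.lf (nat_lit 76) (nat_lit 23838613608) (nat_lit 0) (nat_lit 73511215318) (nat_lit 76) (nat_lit 73511215318) (nat_lit 195) (nat_lit 3) (nat_lit 194) (nat_lit 1) (nat_lit 195) (nat_lit 1) (nat_lit 251) (nat_lit 336) (nat_lit 313)))))) (XT.nd (nat_lit 390) (nat_lit 456) (nat_lit 0) (XT.nd (nat_lit 156) (nat_lit 228) (nat_lit 0) (XT.nd (nat_lit 78) (nat_lit 0) (nat_lit 0) (XT.lf (nat_lit 152) (nat_lit 136801961241) (nat_lit 0) (nat_lit 13088959607) (nat_lit 76) (nat_lit 13088959607) (nat_lit 194) (nat_lit 1) (nat_lit 192) (nat_lit 1) (nat_lit 193) (nat_lit 1) (nat_lit 252) (nat_lit 336) (nat_lit 312)) (XT.lf (nat_lit 0) (nat_lit 40829232674) (nat_lit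 0) (nat_lit 73489774605) (nat_lit 152) (nat_lit 40829232674) (nat_lit 192) (nat_lit 3) (nat_lit 192) (nat_lit 1) (nat_lit 194) (nat_lit 1) (nat_lit 253) (nat_lit 336) (nat_lit 311))) (XT.nd (nat_lit 78) (nat_lit 152) (nat_lit 0) (XT.lf (nat_lit 76) (nat_lit 30367155054) (nat_lit 0) (nat_lit 58767626298) (nat_lit 76) (nat_lit 58767626298) (nat_lit 192) (nat_lit 3) (nat_lit 191) (nat_lit 1) (nat_lit 192) (nat_lit 1) (nat_lit 254) (nat_lit 336) (nat_lit 310)) (XT.nd (nat_lit 78) (nat_lit 0) (nat_lit 0) (XT.lf (nat_lit 152) (nat_lit 126245883748) (nat_lit 0) (nat_lit 7483655136) (nat_lit 76) (nat_lit 7483655136) (nat_lit 191) (nat_lit 1) (nat_lit 189) (nat_lit 1) (nat_lit 190) (nat_lit 1) (nat_lit 255) (nat_lit 336) (nat_lit 309)) (XT.lf (nat_lit 0) (nat_lit 38591521980) (nat_lit 0) (nat_lit 57265292832) (nat_lit 152) (nat_lit 38591521980) (nat_lit 189) (nat_lit 3) (nat_lit 189) (nat_lit 1) (nat_lit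 191) (nat_lit 1) (nat_lit 256) (nat_lit 336) (nat_lit 308))))) (XT.nd (nat_lit 234) (nat_lit 228) (nat_lit 0) (XT.nd (nat_lit 78) (nat_lit 152) (nat_lit 0) (XT.lf (nat_lit 76) (nat_lit 31916737160) (nat_lit 0) (nat_lit 48154798770) (nat_lit 76) (nat_lit 48154798770) (nat_lit 189) (nat_lit 3) (nat_lit 188) (nat_lit 1) (nat_lit 189) (nat_lit 1) (nat_lit 257) (nat_lit 336) (nat_lit 307)) (XT.nd (nat_lit 78) (nat_lit 0) (nat_lit 0) (XT.lf (nat_lit 152) (nat_lit 113945770650) (nat_lit 0) (nat_lit 4278804113) (nat_lit 76) (nat_lit 4278804113) (nat_lit 188) (nat_lit 1) (nat_lit 186) (nat_lit 1) (nat_lit 187) (nat_lit 1) (nat_lit 258) (nat_lit 336) (nat_lit 306)) (XT.lf (nat_lit 0) (nat_lit 35323328539) (nat_lit 0) (nat_lit 46000117631) (nat_lit 152) (nat_lit 35323328539) (nat_lit 186) (nat_lit 3) (nat_lit 186) (nat_lit 1) (nat_lit 188) (nat_lit 1) (nat_lit 259) (nat_lit 336) (nat_lit 305)))) (XT.nd (nat_lit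 78) (nat_lit 152) (nat_lit 0) (XT.lf (nat_lit 76) (nat_lit 30904339537) (nat_lit 0) (nat_lit 40188503965) (nat_lit 76) (nat_lit 40188503965) (nat_lit 186) (nat_lit 3) (nat_lit 185) (nat_lit 1) (nat_lit 186) (nat_lit 1) (nat_lit 260) (nat_lit 336) (nat_lit 304)) (XT.nd (nat_lit 78) (nat_lit 0) (nat_lit 0) (XT.lf (nat_lit 152) (nat_lit 101465626690) (nat_lit 0) (nat_lit 2446420139) (nat_lit 76) (nat_lit 2446420139) (nat_lit 185) (nat_lit 1) (nat_lit 183) (nat_lit 1) (nat_lit 184) (nat_lit 1) (nat_lit 261) (nat_lit 336) (nat_lit 303)) (XT.lf (nat_lit 0) (nat_lit 31725358689) (nat_lit 0) (nat_lit 37829847505) (nat_lit 152) (nat_lit 31725358689) (nat_lit 183) (nat_lit 3) (nat_lit 183) (nat_lit 1) (nat_lit 185) (nat_lit 1) (nat_lit 262) (nat_lit 336) (nat_lit 302))))))) (XT.nd (nat_lit 858) (nat_lit 912) (nat_lit 0) (XT.nd (nat_lit 390) (nat_lit 456) (nat_lit 0) (XT.nd (nat_lit 156) (nat_lit 228) (nat_lit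 0) (XT.nd (nat_lit 78) (nat_lit 152) (nat_lit 0) (XT.lf (nat_lit 76) (nat_lit 28674735978) (nat_lit 0) (nat_lit 33982987122) (nat_lit 76) (nat_lit 33982987122) (nat_lit 183) (nat_lit 3) (nat_lit 182) (nat_lit 1) (nat_lit 183) (nat_lit 1) (nat_lit 263) (nat_lit 336) (nat_lit 301)) (XT.lf (nat_lit 152) (nat_lit 89593094853) (nat_lit 0) (nat_lit 1398748654) (nat_lit 76) (nat_lit 1398748654) (nat_lit 182) (nat_lit 1) (nat_lit 180) (nat_lit 1) (nat_lit 181) (nat_lit 1) (nat_lit 264) (nat_lit 336) (nat_lit 300))) (XT.nd (nat_lit 78) (nat_lit 228) (nat_lit 0) (XT.lf (nat_lit 0) (nat_lit 28164408061) (nat_lit 0) (nat_lit 31654669354) (nat_lit 152) (nat_lit 28164408061) (nat_lit 180) (nat_lit 3) (nat_lit 180) (nat_lit 1) (nat_lit 182) (nat_lit 1) (nat_lit 265) (nat_lit 336) (nat_lit 299)) (XT.nd (nat_lit 78) (nat_lit 152) (nat_lit 0) (XT.lf (nat_lit 76) (nat_lit 25964507749) (nat_lit 0) (nat_lit 28999517569)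 (nat_lit 76) (nat_lit 28999517569) (nat_lit 180) (nat_lit 3) (nat_lit 179) (nat_lit 1) (nat_lit 180) (nat_lit 1) (nat_lit 266) (nat_lit 336) (nat_lit 298)) (XT.lf (nat_lit 152) (nat_lit 78685832745) (nat_lit 0) (nat_lit 799739083) (nat_lit 76) (nat_lit 799739083) (nat_lit 179) (nat_lit 1) (nat_lit 177) (nat_lit 1) (nat_lit 178) (nat_lit 1) (nat_lit 267) (nat_lit 336) (nat_lit 297))))) (XT.nd (nat_lit 234) (nat_lit 228) (nat_lit 0) (XT.nd (nat_lit 78) (nat_lit 228) (nat_lit 0) (XT.lf (nat_lit 0) (nat_lit 24820771078) (nat_lit 0) (nat_lit 26816339300) (nat_lit 152) (nat_lit 24820771078) (nat_lit 177) (nat_lit 3) (nat_lit 177) (nat_lit 1) (nat_lit 179) (nat_lit 1) (nat_lit 268) (nat_lit 336) (nat_lit 296)) (XT.nd (nat_lit 78) (nat_lit 152) (nat_lit 0) (XT.lf (nat_lit 76) (nat_lit 23166712782) (nat_lit 0) (nat_lit 24901989497) (nat_lit 76) (nat_lit 24901989497) (nat_lit 177) (nat_lit 3) (nat_lit 176)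 (nat_lit 1) (nat_lit 177) (nat_lit 1) (nat_lit 269) (nat_lit 336) (nat_lit 295)) (XT.lf (nat_lit 152) (nat_lit 68867741107) (nat_lit 0) (nat_lit 457253416) (nat_lit 76) (nat_lit 457253416) (nat_lit 176) (nat_lit 1) (nat_lit 174) (nat_lit 1) (nat_lit 175) (nat_lit 1) (nat_lit 270) (nat_lit 336) (nat_lit 294)))) (XT.nd (nat_lit 78) (nat_lit 228) (nat_lit 0) (XT.lf (nat_lit 0) (nat_lit 21771947168) (nat_lit 0) (nat_lit 22912919776) (nat_lit 152) (nat_lit 21771947168) (nat_lit 174) (nat_lit 3) (nat_lit 174) (nat_lit 1) (nat_lit 176) (nat_lit 1) (nat_lit 271) (nat_lit 336) (nat_lit 293)) (XT.nd (nat_lit 78) (nat_lit 152) (nat_lit 0) (XT.lf (nat_lit 76) (nat_lit 20481661663) (nat_lit 0) (nat_lit 21473811756) (nat_lit 76) (nat_lit 21473811756) (nat_lit 174) (nat_lit 3) (nat_lit 173) (nat_lit 1) (nat_lit 174) (nat_lit 1) (nat_lit 272) (nat_lit 336) (nat_lit 292)) (XT.lf (nat_lit 152) (nat_lit 60139581323)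 (nat_lit 0) (nat_lit 261436124) (nat_lit 76) (nat_lit 261436124) (nat_lit 173) (nat_lit 1) (nat_lit 171) (nat_lit 1) (nat_lit 172) (nat_lit 1) (nat_lit 273) (nat_lit 336) (nat_lit 291)))))) (XT.nd (nat_lit 468) (nat_lit 456) (nat_lit 0) (XT.nd (nat_lit 234) (nat_lit 228) (nat_lit 0) (XT.nd (nat_lit 78) (nat_lit 228) (nat_lit 0) (XT.lf (nat_lit 0) (nat_lit 19039999497) (nat_lit 0) (nat_lit 19692354289) (nat_lit 152) (nat_lit 19039999497) (nat_lit 171) (nat_lit 3) (nat_lit 171) (nat_lit 1) (nat_lit 173) (nat_lit 1) (nat_lit 274) (nat_lit 336) (nat_lit 290)) (XT.nd (nat_lit 78) (nat_lit 152) (nat_lit 0) (XT.lf (nat_lit 76) (nat_lit 18002646479) (nat_lit 0) (nat_lit 18569911515) (nat_lit 76) (nat_lit 18569911515) (nat_lit 171) (nat_lit 3) (nat_lit 170) (nat_lit 1) (nat_lit 171) (nat_lit 1) (nat_lit 275) (nat_lit 336) (nat_lit 289)) (XT.lf (nat_lit 152) (nat_lit 52440850226) (nat_lit 0) (nat_lit 149476952)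 (nat_lit 76) (nat_lit 149476952) (nat_lit 170) (nat_lit 1) (nat_lit 168) (nat_lit 1) (nat_lit 169) (nat_lit 1) (nat_lit 276) (nat_lit 336) (nat_lit 288)))) (XT.nd (nat_lit 78) (nat_lit 228) (nat_lit 0) (XT.lf (nat_lit 0) (nat_lit 16618197196) (nat_lit 0) (nat_lit 16991183165) (nat_lit 152) (nat_lit 16618197196) (nat_lit 168) (nat_lit 3) (nat_lit 168) (nat_lit 1) (nat_lit 170) (nat_lit 1) (nat_lit 277) (nat_lit 336) (nat_lit 287)) (XT.nd (nat_lit 78) (nat_lit 152) (nat_lit 0) (XT.lf (nat_lit 76) (nat_lit 15764541073) (nat_lit 0) (nat_lit 16088876699) (nat_lit 76) (nat_lit 16088876699) (nat_lit 168) (nat_lit 3) (nat_lit 167) (nat_lit 1) (nat_lit 168) (nat_lit 1) (nat_lit 278) (nat_lit 336) (nat_lit 286)) (XT.lf (nat_lit 152) (nat_lit 45683964941) (nat_lit 0) (nat_lit 85463932) (nat_lit 76) (nat_lit 85463932) (nat_lit 167) (nat_lit 1) (nat_lit 165) (nat_lit 1) (nat_lit 166) (nat_lit 1) (nat_lit 279)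 (nat_lit 336) (nat_lit 285))))) (XT.nd (nat_lit 234) (nat_lit 228) (nat_lit 0) (XT.nd (nat_lit 78) (nat_lit 228) (nat_lit 0) (XT.lf (nat_lit 0) (nat_lit 14485869650) (nat_lit 0) (nat_lit 14699125589) (nat_lit 152) (nat_lit 14485869650) (nat_lit 165) (nat_lit 3) (nat_lit 165) (nat_lit 1) (nat_lit 167) (nat_lit 1) (nat_lit 280) (nat_lit 336) (nat_lit 284)) (XT.nd (nat_lit 78) (nat_lit 152) (nat_lit 0) (XT.lf (nat_lit 76) (nat_lit 13771227106) (nat_lit 0) (nat_lit 13956667053) (nat_lit 76) (nat_lit 13956667053) (nat_lit 165) (nat_lit 3) (nat_lit 164) (nat_lit 1) (nat_lit 165) (nat_lit 1) (nat_lit 281) (nat_lit 336) (nat_lit 283)) (XT.lf (nat_lit 152) (nat_lit 39772771420) (nat_lit 0) (nat_lit 48864281) (nat_lit 76) (nat_lit 48864281) (nat_lit 164) (nat_lit 1) (nat_lit 162) (nat_lit 1) (nat_lit 163) (nat_lit 1) (nat_lit 282) (nat_lit 336) (nat_lit 282)))) (XT.nd (nat_lit 78) (nat_lit 228) (nat_lit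 0) (XT.lf (nat_lit 0) (nat_lit 12616570350) (nat_lit 0) (nat_lit 12738500125) (nat_lit 152) (nat_lit 12616570350) (nat_lit 162) (nat_lit 3) (nat_lit 162) (nat_lit 1) (nat_lit 164) (nat_lit 1) (nat_lit 283) (nat_lit 336) (nat_lit 281)) (XT.nd (nat_lit 78) (nat_lit 152) (nat_lit 0) (XT.lf (nat_lit 76) (nat_lit 12010960822) (nat_lit 0) (nat_lit 12116986713) (nat_lit 76) (nat_lit 12116986713) (nat_lit 162) (nat_lit 3) (nat_lit 161) (nat_lit 1) (nat_lit 162) (nat_lit 1) (nat_lit 284) (nat_lit 336) (nat_lit 280)) (XT.lf (nat_lit 152) (nat_lit 34612225227) (nat_lit 0) (nat_lit 27938311) (nat_lit 76) (nat_lit 27938311) (nat_lit 161) (nat_lit 1) (nat_lit 159) (nat_lit 1) (nat_lit 160) (nat_lit 1) (nat_lit 285) (nat_lit 336) (nat_lit 279))))))))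
noncomputable def ec110 : XT := (XT.nd (nat_lit 1716) (nat_lit 1672) (nat_lit 0) (XT.nd (nat_lit 858) (nat_lit 836) (nat_lit 0) (XT.nd (nat_lit 390) (nat_lit 456) (nat_lit 0) (XT.nd (nat_lit 156) (nat_lit 228) (nat_lit 0) (XT.nd (nat_lit 78) (nat_lit 76) (nat_lit 0) (XT.lf (nat_lit 0) (nat_lit 10982458405) (nat_lit 0) (nat_lit 11052172150) (nat_lit 152) (nat_lit 10982458405) (nat_lit 159) (nat_lit 3) (nat_lit 159) (nat_lit 1) (nat_lit 161) (nat_lit 1) (nat_lit 286) (nat_lit 336) (nat_lit 278)) (XT.lf (nat_lit 76) (nat_lit 10464885857) (nat_lit 0) (nat_lit 10525506505) (nat_lit 76) (nat_lit 10525506505) (nat_lit 159) (nat_lit 3) (nat_lit 158) (nat_lit 1) (nat_lit 159) (nat_lit 1) (nat_lit 287) (nat_lit 336) (nat_lit 277))) (XT.nd (nat_lit 78) (nat_lit 76) (nat_lit 0) (XT.lf (nat_lit 152) (nat_lit 30113142616) (nat_lit 0) (nat_lit 15973820) (nat_lit 76) (nat_lit 15973820) (nat_lit 158) (nat_lit 1)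 (nat_lit 156) (nat_lit 1) (nat_lit 157) (nat_lit 1) (nat_lit 288) (nat_lit 336) (nat_lit 276)) (XT.nd (nat_lit 78) (nat_lit 76) (nat_lit 0) (XT.lf (nat_lit 0) (nat_lit 9556554811) (nat_lit 0) (nat_lit 9596413870) (nat_lit 152) (nat_lit 9556554811) (nat_lit 156) (nat_lit 3) (nat_lit 156) (nat_lit 1) (nat_lit 158) (nat_lit 1) (nat_lit 289) (nat_lit 336) (nat_lit 275)) (XT.lf (nat_lit 76) (nat_lit 9111662910) (nat_lit 0) (nat_lit 9146322961) (nat_lit 76) (nat_lit 9146322961) (nat_lit 156) (nat_lit 3) (nat_lit 155) (nat_lit 1) (nat_lit 156) (nat_lit 1) (nat_lit 290) (nat_lit 336) (nat_lit 274))))) (XT.nd (nat_lit 234) (nat_lit 228) (nat_lit 0) (XT.nd (nat_lit 78) (nat_lit 76) (nat_lit 0) (XT.lf (nat_lit 152) (nat_lit 26194235291) (nat_lit 0) (nat_lit 9133083) (nat_lit 76) (nat_lit 9133083) (nat_lit 155) (nat_lit 1) (nat_lit 153) (nat_lit 1) (nat_lit 154) (nat_lit 1) (nat_lit 291) (nat_lit 336) (nat_lit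 273)) (XT.nd (nat_lit 78) (nat_lit 76) (nat_lit 0) (XT.lf (nat_lit 0) (nat_lit 8313816076) (nat_lit 0) (nat_lit 8336605622) (nat_lit 152) (nat_lit 8313816076) (nat_lit 153) (nat_lit 3) (nat_lit 153) (nat_lit 1) (nat_lit 155) (nat_lit 1) (nat_lit 292) (nat_lit 336) (nat_lit 272)) (XT.lf (nat_lit 76) (nat_lit 7929910194) (nat_lit 0) (nat_lit 7949727192) (nat_lit 76) (nat_lit 7949727192) (nat_lit 153) (nat_lit 3) (nat_lit 152) (nat_lit 1) (nat_lit 153) (nat_lit 1) (nat_lit 293) (nat_lit 336) (nat_lit 271)))) (XT.nd (nat_lit 78) (nat_lit 76) (nat_lit 0) (XT.lf (nat_lit 152) (nat_lit 22782681013) (nat_lit 0) (nat_lit 5221870) (nat_lit 76) (nat_lit 5221870) (nat_lit 152) (nat_lit 1) (nat_lit 150) (nat_lit 1) (nat_lit 151) (nat_lit 1) (nat_lit 294) (nat_lit 336) (nat_lit 270)) (XT.nd (nat_lit 78) (nat_lit 76) (nat_lit 0) (XT.lf (nat_lit 0) (nat_lit 7231559886) (nat_lit 0) (nat_lit 7244589884) (nat_lit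 152) (nat_lit 7231559886) (nat_lit 150) (nat_lit 3) (nat_lit 150) (nat_lit 1) (nat_lit 152) (nat_lit 1) (nat_lit 295) (nat_lit 336) (nat_lit 269)) (XT.lf (nat_lit 76) (nat_lit 6899419154) (nat_lit 0) (nat_lit 6910749587) (nat_lit 76) (nat_lit 6910749587) (nat_lit 150) (nat_lit 3) (nat_lit 149) (nat_lit 1) (nat_lit 150) (nat_lit 1) (nat_lit 296) (nat_lit 336) (nat_lit 268)))))) (XT.nd (nat_lit 390) (nat_lit 456) (nat_lit 0) (XT.nd (nat_lit 156) (nat_lit 228) (nat_lit 0) (XT.nd (nat_lit 78) (nat_lit 0) (nat_lit 0) (XT.lf (nat_lit 152) (nat_lit 19813934395) (nat_lit 0) (nat_lit 2985621) (nat_lit 76) (nat_lit 2985621) (nat_lit 149) (nat_lit 1) (nat_lit 147) (nat_lit 1) (nat_lit 148) (nat_lit 1) (nat_lit 297) (nat_lit 336) (nat_lit 267)) (XT.lf (nat_lit 0) (nat_lit 6289544846) (nat_lit 0) (nat_lit 6296994789) (nat_lit 152) (nat_lit 6289544846) (nat_lit 147) (nat_lit 3) (nat_lit 147) (nat_lit 1) (nat_lit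 149) (nat_lit 1) (nat_lit 298) (nat_lit 336) (nat_lit 266))) (XT.nd (nat_lit 78) (nat_lit 152) (nat_lit 0) (XT.lf (nat_lit 76) (nat_lit 6001693349) (nat_lit 0) (nat_lit 6008171561) (nat_lit 76) (nat_lit 6008171561) (nat_lit 147) (nat_lit 3) (nat_lit 146) (nat_lit 1) (nat_lit 147) (nat_lit 1) (nat_lit 299) (nat_lit 336) (nat_lit 265)) (XT.nd (nat_lit 78) (nat_lit 0) (nat_lit 0) (XT.lf (nat_lit 152) (nat_lit 17231170501) (nat_lit 0) (nat_lit 1707038) (nat_lit 76) (nat_lit 1707038) (nat_lit 146) (nat_lit 1) (nat_lit 144) (nat_lit 1) (nat_lit 145) (nat_lit 1) (nat_lit 300) (nat_lit 336) (nat_lit 264)) (XT.lf (nat_lit 0) (nat_lit 5469873775) (nat_lit 0) (nat_lit 5474133304) (nat_lit 152) (nat_lit 5469873775) (nat_lit 144) (nat_lit 3) (nat_lit 144) (nat_lit 1) (nat_lit 146) (nat_lit 1) (nat_lit 301) (nat_lit 336) (nat_lit 263))))) (XT.nd (nat_lit 234) (nat_lit 228) (nat_lit 0) (XT.nd (nat_lit 78) (nat_lit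 152) (nat_lit 0) (XT.lf (nat_lit 76) (nat_lit 5220120743) (nat_lit 0) (nat_lit 5223824681) (nat_lit 76) (nat_lit 5223824681) (nat_lit 144) (nat_lit 3) (nat_lit 143) (nat_lit 1) (nat_lit 144) (nat_lit 1) (nat_lit 302) (nat_lit 336) (nat_lit 262)) (XT.nd (nat_lit 78) (nat_lit 0) (nat_lit 0) (XT.lf (nat_lit 152) (nat_lit 14984576965) (nat_lit 0) (nat_lit 976004) (nat_lit 76) (nat_lit 976004) (nat_lit 143) (nat_lit 1) (nat_lit 141) (nat_lit 1) (nat_lit 142) (nat_lit 1) (nat_lit 303) (nat_lit 336) (nat_lit 261)) (XT.lf (nat_lit 0) (nat_lit 4756814689) (nat_lit 0) (nat_lit 4759250088) (nat_lit 152) (nat_lit 4756814689) (nat_lit 141) (nat_lit 3) (nat_lit 141) (nat_lit 1) (nat_lit 143) (nat_lit 1) (nat_lit 304) (nat_lit 336) (nat_lit 260)))) (XT.nd (nat_lit 78) (nat_lit 152) (nat_lit 0) (XT.lf (nat_lit 76) (nat_lit 4539954100) (nat_lit 0) (nat_lit 4542071839) (nat_lit 76) (nat_lit 4542071839) (nat_lit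 141) (nat_lit 3) (nat_lit 140) (nat_lit 1) (nat_lit 141) (nat_lit 1) (nat_lit 305) (nat_lit 336) (nat_lit 259)) (XT.nd (nat_lit 78) (nat_lit 0) (nat_lit 0) (XT.lf (nat_lit 152) (nat_lit 13030610345) (nat_lit 0) (nat_lit 558033) (nat_lit 76) (nat_lit 558033) (nat_lit 140) (nat_lit 1) (nat_lit 138) (nat_lit 1) (nat_lit 139) (nat_lit 1) (nat_lit 306) (nat_lit 336) (nat_lit 258)) (XT.lf (nat_lit 0) (nat_lit 4136590850) (nat_lit 0) (nat_lit 4137983298) (nat_lit 152) (nat_lit 4136590850) (nat_lit 138) (nat_lit 3) (nat_lit 138) (nat_lit 1) (nat_lit 140) (nat_lit 1) (nat_lit 307) (nat_lit 336) (nat_lit 257))))))) (XT.nd (nat_lit 858) (nat_lit 760) (nat_lit 0) (XT.nd (nat_lit 390) (nat_lit 456) (nat_lit 0) (XT.nd (nat_lit 156) (nat_lit 228) (nat_lit 0) (XT.nd (nat_lit 78) (nat_lit 152) (nat_lit 0) (XT.lf (nat_lit 76) (nat_lit 3948197077) (nat_lit 0) (nat_lit 3949407901) (nat_lit 76) (nat_lit 3949407901)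 (nat_lit 138) (nat_lit 3) (nat_lit 137) (nat_lit 1) (nat_lit 138) (nat_lit 1) (nat_lit 308) (nat_lit 336) (nat_lit 256)) (XT.lf (nat_lit 152) (nat_lit 11331276219) (nat_lit 0) (nat_lit 319057) (nat_lit 76) (nat_lit 319057) (nat_lit 137) (nat_lit 1) (nat_lit 135) (nat_lit 1) (nat_lit 136) (nat_lit 1) (nat_lit 309) (nat_lit 336) (nat_lit 255))) (XT.nd (nat_lit 78) (nat_lit 228) (nat_lit 0) (XT.lf (nat_lit 0) (nat_lit 3597167168) (nat_lit 0) (nat_lit 3597963305) (nat_lit 152) (nat_lit 3597167168) (nat_lit 135) (nat_lit 3) (nat_lit 135) (nat_lit 1) (nat_lit 137) (nat_lit 1) (nat_lit 310) (nat_lit 336) (nat_lit 254)) (XT.nd (nat_lit 78) (nat_lit 152) (nat_lit 0) (XT.lf (nat_lit 76) (nat_lit 3433449784) (nat_lit 0) (nat_lit 3434142077) (nat_lit 76) (nat_lit 3434142077) (nat_lit 135) (nat_lit 3) (nat_lit 134) (nat_lit 1) (nat_lit 135) (nat_lit 1) (nat_lit 311) (nat_lit 336) (nat_lit 253)) (XT.lf (nat_lit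 152) (nat_lit 9853461313) (nat_lit 0) (nat_lit 182422) (nat_lit 76) (nat_lit 182422) (nat_lit 134) (nat_lit 1) (nat_lit 132) (nat_lit 1) (nat_lit 133) (nat_lit 1) (nat_lit 312) (nat_lit 336) (nat_lit 252))))) (XT.nd (nat_lit 234) (nat_lit 228) (nat_lit 0) (XT.nd (nat_lit 78) (nat_lit 228) (nat_lit 0) (XT.lf (nat_lit 0) (nat_lit 3128046720) (nat_lit 0) (nat_lit 3128501914) (nat_lit 152) (nat_lit 3128046720) (nat_lit 132) (nat_lit 3) (nat_lit 132) (nat_lit 1) (nat_lit 134) (nat_lit 1) (nat_lit 313) (nat_lit 336) (nat_lit 251)) (XT.nd (nat_lit 78) (nat_lit 152) (nat_lit 0) (XT.lf (nat_lit 76) (nat_lit 2985742833) (nat_lit 0) (nat_lit 2986138653) (nat_lit 76) (nat_lit 2986138653) (nat_lit 132) (nat_lit 3) (nat_lit 131) (nat_lit 1) (nat_lit 132) (nat_lit 1) (nat_lit 314) (nat_lit 336) (nat_lit 250)) (XT.lf (nat_lit 152) (nat_lit 8568328798) (nat_lit 0) (nat_lit 104300) (nat_lit 76) (nat_lit 104300)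 (nat_lit 131) (nat_lit 1) (nat_lit 129) (nat_lit 1) (nat_lit 130) (nat_lit 1) (nat_lit 315) (nat_lit 336) (nat_lit 249)))) (XT.nd (nat_lit 78) (nat_lit 228) (nat_lit 0) (XT.lf (nat_lit 0) (nat_lit 2720083662) (nat_lit 0) (nat_lit 2720343920) (nat_lit 152) (nat_lit 2720083662) (nat_lit 129) (nat_lit 3) (nat_lit 129) (nat_lit 1) (nat_lit 131) (nat_lit 1) (nat_lit 316) (nat_lit 336) (nat_lit 248)) (XT.nd (nat_lit 78) (nat_lit 152) (nat_lit 0) (XT.lf (nat_lit 76) (nat_lit 2596374916) (nat_lit 0) (nat_lit 2596601228) (nat_lit 76) (nat_lit 2596601228) (nat_lit 129) (nat_lit 3) (nat_lit 128) (nat_lit 1) (nat_lit 129) (nat_lit 1) (nat_lit 317) (nat_lit 336) (nat_lit 247)) (XT.lf (nat_lit 152) (nat_lit 7450778766) (nat_lit 0) (nat_lit 59634) (nat_lit 76) (nat_lit 59634) (nat_lit 128) (nat_lit 1) (nat_lit 126) (nat_lit 1) (nat_lit 127) (nat_lit 1) (nat_lit 318) (nat_lit 336) (nat_lit 246)))))) (XT.nd (nat_lit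 390) (nat_lit 456) (nat_lit 0) (XT.nd (nat_lit 156) (nat_lit 228) (nat_lit 0) (XT.nd (nat_lit 78) (nat_lit 76) (nat_lit 0) (XT.lf (nat_lit 0) (nat_lit 2365314746) (nat_lit 0) (nat_lit 2365463550) (nat_lit 152) (nat_lit 2365314746) (nat_lit 126) (nat_lit 3) (nat_lit 126) (nat_lit 1) (nat_lit 128) (nat_lit 1) (nat_lit 319) (nat_lit 336) (nat_lit 245)) (XT.lf (nat_lit 76) (nat_lit 2257761229) (nat_lit 0) (nat_lit 2257890624) (nat_lit 76) (nat_lit 2257890624) (nat_lit 126) (nat_lit 3) (nat_lit 125) (nat_lit 1) (nat_lit 126) (nat_lit 1) (nat_lit 320) (nat_lit 336) (nat_lit 244))) (XT.nd (nat_lit 78) (nat_lit 76) (nat_lit 0) (XT.lf (nat_lit 152) (nat_lit 6478971260) (nat_lit 0) (nat_lit 34096) (nat_lit 76) (nat_lit 34096) (nat_lit 125) (nat_lit 1) (nat_lit 123) (nat_lit 1) (nat_lit 124) (nat_lit 1) (nat_lit 321) (nat_lit 336) (nat_lit 243)) (XT.nd (nat_lit 78) (nat_lit 76) (nat_lit 0) (XT.lf (nat_lit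 0) (nat_lit 2056809500) (nat_lit 0) (nat_lit 2056894579) (nat_lit 152) (nat_lit 2056809500) (nat_lit 123) (nat_lit 3) (nat_lit 123) (nat_lit 1) (nat_lit 125) (nat_lit 1) (nat_lit 322) (nat_lit 336) (nat_lit 242)) (XT.lf (nat_lit 76) (nat_lit 1963295740) (nat_lit 0) (nat_lit 1963369722) (nat_lit 76) (nat_lit 1963369722) (nat_lit 123) (nat_lit 3) (nat_lit 122) (nat_lit 1) (nat_lit 123) (nat_lit 1) (nat_lit 323) (nat_lit 336) (nat_lit 241))))) (XT.nd (nat_lit 234) (nat_lit 228) (nat_lit 0) (XT.nd (nat_lit 78) (nat_lit 76) (nat_lit 0) (XT.lf (nat_lit 152) (nat_lit 5633907036) (nat_lit 0) (nat_lit 19494) (nat_lit 76) (nat_lit 19494) (nat_lit 122) (nat_lit 1) (nat_lit 120) (nat_lit 1) (nat_lit 121) (nat_lit 1) (nat_lit 324) (nat_lit 336) (nat_lit 240)) (XT.nd (nat_lit 78) (nat_lit 76) (nat_lit 0) (XT.lf (nat_lit 0) (nat_lit 1788538044) (nat_lit 0) (nat_lit 1788586688) (nat_lit 152) (nat_lit 1788538044)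 (nat_lit 120) (nat_lit 3) (nat_lit 120) (nat_lit 1) (nat_lit 122) (nat_lit 1) (nat_lit 325) (nat_lit 336) (nat_lit 239)) (XT.lf (nat_lit 76) (nat_lit 1707228042) (nat_lit 0) (nat_lit 1707270341) (nat_lit 76) (nat_lit 1707270341) (nat_lit 120) (nat_lit 3) (nat_lit 119) (nat_lit 1) (nat_lit 120) (nat_lit 1) (nat_lit 326) (nat_lit 336) (nat_lit 238)))) (XT.nd (nat_lit 78) (nat_lit 76) (nat_lit 0) (XT.lf (nat_lit 152) (nat_lit 4899060451) (nat_lit 0) (nat_lit 11146) (nat_lit 76) (nat_lit 11146) (nat_lit 119) (nat_lit 1) (nat_lit 117) (nat_lit 1) (nat_lit 118) (nat_lit 1) (nat_lit 327) (nat_lit 336) (nat_lit 237)) (XT.nd (nat_lit 78) (nat_lit 76) (nat_lit 0) (XT.lf (nat_lit 0) (nat_lit 1555255072) (nat_lit 0) (nat_lit 1555282884) (nat_lit 152) (nat_lit 1555255072) (nat_lit 117) (nat_lit 3) (nat_lit 117) (nat_lit 1) (nat_lit 119) (nat_lit 1) (nat_lit 328) (nat_lit 336) (nat_lit 236)) (XT.lf (nat_lit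 76) (nat_lit 1484554331) (nat_lit 0) (nat_lit 1484578515) (nat_lit 76) (nat_lit 1484578515) (nat_lit 117) (nat_lit 3) (nat_lit 116) (nat_lit 1) (nat_lit 117) (nat_lit 1) (nat_lit 329) (nat_lit 336) (nat_lit 235))))))))
noncomputable def ec111 : XT := (XT.nd (nat_lit 1716) (nat_lit 1444) (nat_lit 0) (XT.nd (nat_lit 858) (nat_lit 912) (nat_lit 0) (XT.nd (nat_lit 390) (nat_lit 456) (nat_lit 0) (XT.nd (nat_lit 156) (nat_lit 228) (nat_lit 0) (XT.nd (nat_lit 78) (nat_lit 0) (nat_lit 0) (XT.lf (nat_lit 152) (nat_lit 4260058772) (nat_lit 0) (nat_lit 6372) (nat_lit 76) (nat_lit 6372) (nat_lit 116) (nat_lit 1) (nat_lit 114) (nat_lit 1) (nat_lit 115) (nat_lit 1) (nat_lit 330) (nat_lit 336) (nat_lit 234)) (XT.lf (nat_lit 0) (nat_lit 1352398344) (nat_lit 0) (nat_lit 1352414246) (nat_lit 152) (nat_lit 1352398344) (nat_lit 114) (nat_lit 3) (nat_lit 114) (nat_lit 1) (nat_lit 116) (nat_lit 1) (nat_lit 331) (nat_lit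 336) (nat_lit 233))) (XT.nd (nat_lit 78) (nat_lit 152) (nat_lit 0) (XT.lf (nat_lit 76) (nat_lit 1290921502) (nat_lit 0) (nat_lit 1290935329) (nat_lit 76) (nat_lit 1290935329) (nat_lit 114) (nat_lit 3) (nat_lit 113) (nat_lit 1) (nat_lit 114) (nat_lit 1) (nat_lit 332) (nat_lit 336) (nat_lit 232)) (XT.nd (nat_lit 78) (nat_lit 0) (nat_lit 0) (XT.lf (nat_lit 152) (nat_lit 3704402480) (nat_lit 0) (nat_lit 3643) (nat_lit 76) (nat_lit 3643) (nat_lit 113) (nat_lit 1) (nat_lit 111) (nat_lit 1) (nat_lit 112) (nat_lit 1) (nat_lit 333) (nat_lit 336) (nat_lit 231)) (XT.lf (nat_lit 0) (nat_lit 1176000063) (nat_lit 0) (nat_lit 1176009155) (nat_lit 152) (nat_lit 1176000063) (nat_lit 111) (nat_lit 3) (nat_lit 111) (nat_lit 1) (nat_lit 113) (nat_lit 1) (nat_lit 334) (nat_lit 336) (nat_lit 230))))) (XT.nd (nat_lit 234) (nat_lit 228) (nat_lit 0) (XT.nd (nat_lit 78) (nat_lit 152) (nat_lit 0) (XT.lf (nat_lit 76) (nat_lit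 1122543119) (nat_lit 0) (nat_lit 1122551025) (nat_lit 76) (nat_lit 1122551025) (nat_lit 111) (nat_lit 3) (nat_lit 110) (nat_lit 1) (nat_lit 111) (nat_lit 1) (nat_lit 335) (nat_lit 336) (nat_lit 229)) (XT.nd (nat_lit 78) (nat_lit 0) (nat_lit 0) (XT.lf (nat_lit 152) (nat_lit 3221221577) (nat_lit 0) (nat_lit 2083) (nat_lit 76) (nat_lit 2083) (nat_lit 110) (nat_lit 1) (nat_lit 108) (nat_lit 1) (nat_lit 109) (nat_lit 1) (nat_lit 336) (nat_lit 336) (nat_lit 228)) (XT.lf (nat_lit 0) (nat_lit 1022609610) (nat_lit 0) (nat_lit 1022614809) (nat_lit 152) (nat_lit 1022609610) (nat_lit 108) (nat_lit 3) (nat_lit 108) (nat_lit 1) (nat_lit 110) (nat_lit 1) (nat_lit 337) (nat_lit 336) (nat_lit 227)))) (XT.nd (nat_lit 78) (nat_lit 152) (nat_lit 0) (XT.lf (nat_lit 76) (nat_lit 976125985) (nat_lit 0) (nat_lit 976130506) (nat_lit 76) (nat_lit 976130506) (nat_lit 108) (nat_lit 3) (nat_lit 107) (nat_lit 1) (nat_lit 108)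 (nat_lit 1) (nat_lit 338) (nat_lit 336) (nat_lit 226)) (XT.nd (nat_lit 78) (nat_lit 0) (nat_lit 0) (XT.lf (nat_lit 152) (nat_lit 2801063400) (nat_lit 0) (nat_lit 1191) (nat_lit 76) (nat_lit 1191) (nat_lit 107) (nat_lit 1) (nat_lit 105) (nat_lit 1) (nat_lit 106) (nat_lit 1) (nat_lit 339) (nat_lit 336) (nat_lit 225)) (XT.lf (nat_lit 0) (nat_lit 889226239) (nat_lit 0) (nat_lit 889229212) (nat_lit 152) (nat_lit 889226239) (nat_lit 105) (nat_lit 3) (nat_lit 105) (nat_lit 1) (nat_lit 107) (nat_lit 1) (nat_lit 340) (nat_lit 336) (nat_lit 224)))))) (XT.nd (nat_lit 390) (nat_lit 456) (nat_lit 0) (XT.nd (nat_lit 156) (nat_lit 228) (nat_lit 0) (XT.nd (nat_lit 78) (nat_lit 152) (nat_lit 0) (XT.lf (nat_lit 76) (nat_lit 848806082) (nat_lit 0) (nat_lit 848808666) (nat_lit 76) (nat_lit 848808666) (nat_lit 105) (nat_lit 3) (nat_lit 104) (nat_lit 1) (nat_lit 105) (nat_lit 1) (nat_lit 341) (nat_lit 336) (nat_lit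 223)) (XT.lf (nat_lit 152) (nat_lit 2435707968) (nat_lit 0) (nat_lit 681) (nat_lit 76) (nat_lit 681) (nat_lit 104) (nat_lit 1) (nat_lit 102) (nat_lit 1) (nat_lit 103) (nat_lit 1) (nat_lit 342) (nat_lit 336) (nat_lit 222))) (XT.nd (nat_lit 78) (nat_lit 228) (nat_lit 0) (XT.lf (nat_lit 0) (nat_lit 773240489) (nat_lit 0) (nat_lit 773242188) (nat_lit 152) (nat_lit 773240489) (nat_lit 102) (nat_lit 3) (nat_lit 102) (nat_lit 1) (nat_lit 104) (nat_lit 1) (nat_lit 343) (nat_lit 336) (nat_lit 221)) (XT.nd (nat_lit 78) (nat_lit 152) (nat_lit 0) (XT.lf (nat_lit 76) (nat_lit 738092746) (nat_lit 0) (nat_lit 738094224) (nat_lit 76) (nat_lit 738094224) (nat_lit 102) (nat_lit 3) (nat_lit 101) (nat_lit 1) (nat_lit 102) (nat_lit 1) (nat_lit 344) (nat_lit 336) (nat_lit 220)) (XT.lf (nat_lit 152) (nat_lit 2118007308) (nat_lit 0) (nat_lit 389) (nat_lit 76) (nat_lit 389) (nat_lit 101) (nat_lit 1) (nat_lit 99) (nat_lit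 1) (nat_lit 100) (nat_lit 1) (nat_lit 345) (nat_lit 336) (nat_lit 219))))) (XT.nd (nat_lit 234) (nat_lit 228) (nat_lit 0) (XT.nd (nat_lit 78) (nat_lit 228) (nat_lit 0) (XT.lf (nat_lit 0) (nat_lit 672383195) (nat_lit 0) (nat_lit 672384166) (nat_lit 152) (nat_lit 672383195) (nat_lit 99) (nat_lit 3) (nat_lit 99) (nat_lit 1) (nat_lit 101) (nat_lit 1) (nat_lit 346) (nat_lit 336) (nat_lit 218)) (XT.nd (nat_lit 78) (nat_lit 152) (nat_lit 0) (XT.lf (nat_lit 76) (nat_lit 641820066) (nat_lit 0) (nat_lit 641820911) (nat_lit 76) (nat_lit 641820911) (nat_lit 99) (nat_lit 3) (nat_lit 98) (nat_lit 1) (nat_lit 99) (nat_lit 1) (nat_lit 347) (nat_lit 336) (nat_lit 217)) (XT.lf (nat_lit 152) (nat_lit 1841745702) (nat_lit 0) (nat_lit 222) (nat_lit 76) (nat_lit 222) (nat_lit 98) (nat_lit 1) (nat_lit 96) (nat_lit 1) (nat_lit 97) (nat_lit 1) (nat_lit 348) (nat_lit 336) (nat_lit 216)))) (XT.nd (nat_lit 78) (nat_lit 228)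 (nat_lit 0) (XT.lf (nat_lit 0) (nat_lit 584681131) (nat_lit 0) (nat_lit 584681686) (nat_lit 152) (nat_lit 584681131) (nat_lit 96) (nat_lit 3) (nat_lit 96) (nat_lit 1) (nat_lit 98) (nat_lit 1) (nat_lit 349) (nat_lit 336) (nat_lit 215)) (XT.nd (nat_lit 78) (nat_lit 152) (nat_lit 0) (XT.lf (nat_lit 76) (nat_lit 558104569) (nat_lit 0) (nat_lit 558105052) (nat_lit 76) (nat_lit 558105052) (nat_lit 96) (nat_lit 3) (nat_lit 95) (nat_lit 1) (nat_lit 96) (nat_lit 1) (nat_lit 350) (nat_lit 336) (nat_lit 214)) (XT.lf (nat_lit 152) (nat_lit 1601518125) (nat_lit 0) (nat_lit 127) (nat_lit 76) (nat_lit 127) (nat_lit 95) (nat_lit 1) (nat_lit 93) (nat_lit 1) (nat_lit 94) (nat_lit 1) (nat_lit 351) (nat_lit 336) (nat_lit 213))))))) (XT.nd (nat_lit 858) (nat_lit 684) (nat_lit 0) (XT.nd (nat_lit 390) (nat_lit 456) (nat_lit 0) (XT.nd (nat_lit 156) (nat_lit 228) (nat_lit 0) (XT.nd (nat_lit 78) (nat_lit 76) (nat_lit 0)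 (XT.lf (nat_lit 0) (nat_lit 508418427) (nat_lit 0) (nat_lit 508418744) (nat_lit 152) (nat_lit 508418427) (nat_lit 93) (nat_lit 3) (nat_lit 93) (nat_lit 1) (nat_lit 95) (nat_lit 1) (nat_lit 352) (nat_lit 336) (nat_lit 212)) (XT.lf (nat_lit 76) (nat_lit 485308415) (nat_lit 0) (nat_lit 485308691) (nat_lit 76) (nat_lit 485308691) (nat_lit 93) (nat_lit 3) (nat_lit 92) (nat_lit 1) (nat_lit 93) (nat_lit 1) (nat_lit 353) (nat_lit 336) (nat_lit 211))) (XT.nd (nat_lit 78) (nat_lit 76) (nat_lit 0) (XT.lf (nat_lit 152) (nat_lit 1392624528) (nat_lit 0) (nat_lit 72) (nat_lit 76) (nat_lit 72) (nat_lit 92) (nat_lit 1) (nat_lit 90) (nat_lit 1) (nat_lit 91) (nat_lit 1) (nat_lit 354) (nat_lit 336) (nat_lit 210)) (XT.nd (nat_lit 78) (nat_lit 76) (nat_lit 0) (XT.lf (nat_lit 0) (nat_lit 442103010) (nat_lit 0) (nat_lit 442103191) (nat_lit 152) (nat_lit 442103010) (nat_lit 90) (nat_lit 3) (nat_lit 90) (nat_lit 1) (nat_lit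 92) (nat_lit 1) (nat_lit 355) (nat_lit 336) (nat_lit 209)) (XT.lf (nat_lit 76) (nat_lit 422007371) (nat_lit 0) (nat_lit 422007529) (nat_lit 76) (nat_lit 422007529) (nat_lit 90) (nat_lit 3) (nat_lit 89) (nat_lit 1) (nat_lit 90) (nat_lit 1) (nat_lit 356) (nat_lit 336) (nat_lit 208))))) (XT.nd (nat_lit 234) (nat_lit 228) (nat_lit 0) (XT.nd (nat_lit 78) (nat_lit 76) (nat_lit 0) (XT.lf (nat_lit 152) (nat_lit 1210977891) (nat_lit 0) (nat_lit 41) (nat_lit 76) (nat_lit 41) (nat_lit 89) (nat_lit 1) (nat_lit 87) (nat_lit 1) (nat_lit 88) (nat_lit 1) (nat_lit 357) (nat_lit 336) (nat_lit 207)) (XT.nd (nat_lit 78) (nat_lit 76) (nat_lit 0) (XT.lf (nat_lit 0) (nat_lit 384437417) (nat_lit 0) (nat_lit 384437521) (nat_lit 152) (nat_lit 384437417) (nat_lit 87) (nat_lit 3) (nat_lit 87) (nat_lit 1) (nat_lit 89) (nat_lit 1) (nat_lit 358) (nat_lit 336) (nat_lit 206)) (XT.lf (nat_lit 76) (nat_lit 366962962) (nat_lit 0)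 (nat_lit 366963052) (nat_lit 76) (nat_lit 366963052) (nat_lit 87) (nat_lit 3) (nat_lit 86) (nat_lit 1) (nat_lit 87) (nat_lit 1) (nat_lit 359) (nat_lit 336) (nat_lit 205)))) (XT.nd (nat_lit 78) (nat_lit 76) (nat_lit 0) (XT.lf (nat_lit 152) (nat_lit 1053024276) (nat_lit 0) (nat_lit 23) (nat_lit 76) (nat_lit 23) (nat_lit 86) (nat_lit 1) (nat_lit 84) (nat_lit 1) (nat_lit 85) (nat_lit 1) (nat_lit 360) (nat_lit 336) (nat_lit 204)) (XT.nd (nat_lit 78) (nat_lit 76) (nat_lit 0) (XT.lf (nat_lit 0) (nat_lit 334293416) (nat_lit 0) (nat_lit 334293475) (nat_lit 152) (nat_lit 334293416) (nat_lit 84) (nat_lit 3) (nat_lit 84) (nat_lit 1) (nat_lit 86) (nat_lit 1) (nat_lit 361) (nat_lit 336) (nat_lit 203)) (XT.lf (nat_lit 76) (nat_lit 319098245) (nat_lit 0) (nat_lit 319098297) (nat_lit 76) (nat_lit 319098297) (nat_lit 84) (nat_lit 3) (nat_lit 83) (nat_lit 1) (nat_lit 84) (nat_lit 1) (nat_lit 362) (nat_lit 336) (nat_lit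 202)))))) (XT.nd (nat_lit 468) (nat_lit 228) (nat_lit 0) (XT.nd (nat_lit 234) (nat_lit 228) (nat_lit 0) (XT.nd (nat_lit 78) (nat_lit 76) (nat_lit 0) (XT.lf (nat_lit 152) (nat_lit 915673296) (nat_lit 0) (nat_lit 13) (nat_lit 76) (nat_lit 13) (nat_lit 83) (nat_lit 1) (nat_lit 81) (nat_lit 1) (nat_lit 82) (nat_lit 1) (nat_lit 363) (nat_lit 336) (nat_lit 201)) (XT.nd (nat_lit 78) (nat_lit 76) (nat_lit 0) (XT.lf (nat_lit 0) (nat_lit 290689932) (nat_lit 0) (nat_lit 290689966) (nat_lit 152) (nat_lit 290689932) (nat_lit 81) (nat_lit 3) (nat_lit 81) (nat_lit 1) (nat_lit 83) (nat_lit 1) (nat_lit 364) (nat_lit 336) (nat_lit 200)) (XT.lf (nat_lit 76) (nat_lit 277476745) (nat_lit 0) (nat_lit 277476774) (nat_lit 76) (nat_lit 277476774) (nat_lit 81) (nat_lit 3) (nat_lit 80) (nat_lit 1) (nat_lit 81) (nat_lit 1) (nat_lit 365) (nat_lit 336) (nat_lit 199)))) (XT.nd (nat_lit 78) (nat_lit 76) (nat_lit 0) (XT.lf (nat_lit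 152) (nat_lit 796237657) (nat_lit 0) (nat_lit 7) (nat_lit 76) (nat_lit 7) (nat_lit 80) (nat_lit 1) (nat_lit 78) (nat_lit 1) (nat_lit 79) (nat_lit 1) (nat_lit 366) (nat_lit 336) (nat_lit 198)) (XT.nd (nat_lit 78) (nat_lit 76) (nat_lit 0) (XT.lf (nat_lit 0) (nat_lit 252773857) (nat_lit 0) (nat_lit 252773877) (nat_lit 152) (nat_lit 252773857) (nat_lit 78) (nat_lit 3) (nat_lit 78) (nat_lit 1) (nat_lit 80) (nat_lit 1) (nat_lit 367) (nat_lit 336) (nat_lit 197)) (XT.lf (nat_lit 76) (nat_lit 241284131) (nat_lit 0) (nat_lit 241284148) (nat_lit 76) (nat_lit 241284148) (nat_lit 78) (nat_lit 3) (nat_lit 77) (nat_lit 1) (nat_lit 78) (nat_lit 1) (nat_lit 368) (nat_lit 336) (nat_lit 196))))) (XT.nd (nat_lit 35724) (nat_lit 0) (nat_lit 10716) (XT.nd (nat_lit 78) (nat_lit 76) (nat_lit 0) (XT.lf (nat_lit 152) (nat_lit 692380575) (nat_lit 0) (nat_lit 4) (nat_lit 76) (nat_lit 4) (nat_lit 77) (nat_lit 1) (nat_lit 75)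 (nat_lit 1) (nat_lit 76) (nat_lit 1) (nat_lit 369) (nat_lit 336) (nat_lit 195)) (XT.nd (nat_lit 78) (nat_lit 76) (nat_lit 0) (XT.lf (nat_lit 0) (nat_lit 219803356) (nat_lit 0) (nat_lit 219803367) (nat_lit 152) (nat_lit 219803356) (nat_lit 75) (nat_lit 3) (nat_lit 75) (nat_lit 1) (nat_lit 77) (nat_lit 1) (nat_lit 370) (nat_lit 336) (nat_lit 194)) (XT.lf (nat_lit 76) (nat_lit 209812291) (nat_lit 0) (nat_lit 209812301) (nat_lit 76) (nat_lit 209812301) (nat_lit 75) (nat_lit 3) (nat_lit 74) (nat_lit 1) (nat_lit 75) (nat_lit 1) (nat_lit 371) (nat_lit 336) (nat_lit 193)))) (XT.nd (nat_lit 78) (nat_lit 0) (nat_lit 0) (XT.lf (nat_lit 380) (nat_lit 123578958622) (nat_lit 0) (nat_lit 109456925111) (nat_lit 380) (nat_lit 123578958622) (nat_lit 220) (nat_lit 1) (nat_lit 215) (nat_lit 0) (nat_lit 220) (nat_lit 0) (nat_lit 226) (nat_lit 337) (nat_lit 337)) (XT.nd (nat_lit 78) (nat_lit 0) (nat_lit 76) (XT.lf (nat_lit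 380) (nat_lit 457102530504) (nat_lit 76) (nat_lit 104481610333) (nat_lit 0) (nat_lit 104481610333) (nat_lit 220) (nat_lit 1) (nat_lit 216) (nat_lit 1) (nat_lit 215) (nat_lit 0) (nat_lit 227) (nat_lit 337) (nat_lit 336)) (XT.lf (nat_lit 380) (nat_lit 201488174284) (nat_lit 0) (nat_lit 219238140329) (nat_lit 304) (nat_lit 201488174284) (nat_lit 221) (nat_lit 1) (nat_lit 216) (nat_lit 1) (nat_lit 220) (nat_lit 1) (nat_lit 228) (nat_lit 337) (nat_lit 335))))))))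
noncomputable def ec112 : XT := (XT.nd (nat_lit 1716) (nat_lit 1596) (nat_lit 0) (XT.nd (nat_lit 858) (nat_lit 760) (nat_lit 0) (XT.nd (nat_lit 390) (nat_lit 684) (nat_lit 0) (XT.nd (nat_lit 156) (nat_lit 380) (nat_lit 0) (XT.nd (nat_lit 78) (nat_lit 0) (nat_lit 76) (XT.lf (nat_lit 380) (nat_lit 345944733393) (nat_lit 76) (nat_lit 118419196111) (nat_lit 0) (nat_lit 118419196111) (nat_lit 221) (nat_lit 1) (nat_lit 217) (nat_lit 1) (nat_lit 216) (nat_lit 1) (nat_lit 229) (nat_lit 337) (nat_lit 334)) (XT.lf (nat_lit 76) (nat_lit 139939232905) (nat_lit 0) (nat_lit 266467792766) (nat_lit 304) (nat_lit 139939232905) (nat_lit 218) (nat_lit 1) (nat_lit 217) (nat_lit 1) (nat_lit 221) (nat_lit 1) (nat_lit 230) (nat_lit 337) (nat_lit 333))) (XT.nd (nat_lit 78) (nat_lit 152) (nat_lit 0) (XT.lf (nat_lit 380) (nat_lit 210317365081) (nat_lit 0) (nat_lit 151382406358) (nat_lit 304) (nat_lit 151382406358) (nat_lit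 218) (nat_lit 1) (nat_lit 213) (nat_lit 1) (nat_lit 217) (nat_lit 1) (nat_lit 231) (nat_lit 337) (nat_lit 332)) (XT.nd (nat_lit 78) (nat_lit 152) (nat_lit 0) (XT.lf (nat_lit 76) (nat_lit 69907169389) (nat_lit 0) (nat_lit 343036232346) (nat_lit 380) (nat_lit 69907169389) (nat_lit 214) (nat_lit 1) (nat_lit 213) (nat_lit 1) (nat_lit 218) (nat_lit 1) (nat_lit 232) (nat_lit 337) (nat_lit 331)) (XT.lf (nat_lit 228) (nat_lit 62914803371) (nat_lit 0) (nat_lit 195806801235) (nat_lit 152) (nat_lit 195806801235) (nat_lit 214) (nat_lit 1) (nat_lit 211) (nat_lit 1) (nat_lit 213) (nat_lit 1) (nat_lit 233) (nat_lit 337) (nat_lit 330))))) (XT.nd (nat_lit 234) (nat_lit 304) (nat_lit 0) (XT.nd (nat_lit 78) (nat_lit 152) (nat_lit 0) (XT.lf (nat_lit 228) (nat_lit 422786687019) (nat_lit 0) (nat_lit 3317189052) (nat_lit 152) (nat_lit 3317189052) (nat_lit 211) (nat_lit 1) (nat_lit 208) (nat_lit 1) (nat_lit 210) (nat_lit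 1) (nat_lit 234) (nat_lit 337) (nat_lit 329)) (XT.nd (nat_lit 78) (nat_lit 152) (nat_lit 0) (XT.lf (nat_lit 76) (nat_lit 162437347509) (nat_lit 0) (nat_lit 79748091146) (nat_lit 228) (nat_lit 162437347509) (nat_lit 209) (nat_lit 1) (nat_lit 208) (nat_lit 1) (nat_lit 211) (nat_lit 1) (nat_lit 235) (nat_lit 337) (nat_lit 328)) (XT.lf (nat_lit 228) (nat_lit 236108919174) (nat_lit 0) (nat_lit 73238665692) (nat_lit 152) (nat_lit 73238665692) (nat_lit 209) (nat_lit 1) (nat_lit 206) (nat_lit 1) (nat_lit 208) (nat_lit 1) (nat_lit 236) (nat_lit 337) (nat_lit 327)))) (XT.nd (nat_lit 78) (nat_lit 304) (nat_lit 0) (XT.lf (nat_lit 76) (nat_lit 73839003070) (nat_lit 0) (nat_lit 214279524521) (nat_lit 228) (nat_lit 73839003070) (nat_lit 207) (nat_lit 1) (nat_lit 206) (nat_lit 1) (nat_lit 209) (nat_lit 1) (nat_lit 237) (nat_lit 337) (nat_lit 326)) (XT.nd (nat_lit 78) (nat_lit 228) (nat_lit 0) (XT.lf (nat_lit 152)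 (nat_lit 61041581637) (nat_lit 0) (nat_lit 140853749878) (nat_lit 76) (nat_lit 140853749878) (nat_lit 207) (nat_lit 1) (nat_lit 205) (nat_lit 1) (nat_lit 206) (nat_lit 1) (nat_lit 238) (nat_lit 337) (nat_lit 325)) (XT.lf (nat_lit 228) (nat_lit 309028367939) (nat_lit 0) (nat_lit 8209654879) (nat_lit 152) (nat_lit 8209654879) (nat_lit 205) (nat_lit 1) (nat_lit 202) (nat_lit 1) (nat_lit 204) (nat_lit 1) (nat_lit 239) (nat_lit 337) (nat_lit 324)))))) (XT.nd (nat_lit 390) (nat_lit 456) (nat_lit 0) (XT.nd (nat_lit 156) (nat_lit 228) (nat_lit 0) (XT.nd (nat_lit 78) (nat_lit 76) (nat_lit 0) (XT.lf (nat_lit 76) (nat_lit 108153282361) (nat_lit 0) (nat_lit 91847296071) (nat_lit 228) (nat_lit 108153282361) (nat_lit 203) (nat_lit 1) (nat_lit 202) (nat_lit 1) (nat_lit 205) (nat_lit 1) (nat_lit 240) (nat_lit 337) (nat_lit 323)) (XT.lf (nat_lit 152) (nat_lit 131504032659) (nat_lit 0) (nat_lit 80533588647) (nat_lit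 76) (nat_lit 80533588647) (nat_lit 203) (nat_lit 1) (nat_lit 201) (nat_lit 1) (nat_lit 202) (nat_lit 1) (nat_lit 241) (nat_lit 337) (nat_lit 322))) (XT.nd (nat_lit 78) (nat_lit 228) (nat_lit 0) (XT.lf (nat_lit 0) (nat_lit 25750301818) (nat_lit 0) (nat_lit 226703679917) (nat_lit 152) (nat_lit 25750301818) (nat_lit 201) (nat_lit 3) (nat_lit 201) (nat_lit 1) (nat_lit 203) (nat_lit 1) (nat_lit 242) (nat_lit 337) (nat_lit 321)) (XT.nd (nat_lit 78) (nat_lit 76) (nat_lit 0) (XT.lf (nat_lit 76) (nat_lit 119172288216) (nat_lit 0) (nat_lit 25846409160) (nat_lit 152) (nat_lit 119172288216) (nat_lit 200) (nat_lit 1) (nat_lit 199) (nat_lit 1) (nat_lit 201) (nat_lit 1) (nat_lit 243) (nat_lit 337) (nat_lit 320)) (XT.lf (nat_lit 152) (nat_lit 159190735953) (nat_lit 0) (nat_lit 46045340688) (nat_lit 76) (nat_lit 46045340688) (nat_lit 200) (nat_lit 1) (nat_lit 198) (nat_lit 1) (nat_lit 199) (nat_lit 1) (nat_lit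 244) (nat_lit 337) (nat_lit 319))))) (XT.nd (nat_lit 234) (nat_lit 228) (nat_lit 0) (XT.nd (nat_lit 78) (nat_lit 228) (nat_lit 0) (XT.lf (nat_lit 0) (nat_lit 41390399106) (nat_lit 0) (nat_lit 156286145247) (nat_lit 152) (nat_lit 41390399106) (nat_lit 198) (nat_lit 3) (nat_lit 198) (nat_lit 1) (nat_lit 200) (nat_lit 1) (nat_lit 245) (nat_lit 337) (nat_lit 318)) (XT.nd (nat_lit 78) (nat_lit 152) (nat_lit 0) (XT.lf (nat_lit 76) (nat_lit 9233458398) (nat_lit 0) (nat_lit 109142802869) (nat_lit 76) (nat_lit 109142802869) (nat_lit 198) (nat_lit 3) (nat_lit 197) (nat_lit 1) (nat_lit 198) (nat_lit 1) (nat_lit 246) (nat_lit 337) (nat_lit 317)) (XT.lf (nat_lit 152) (nat_lit 164063801229) (nat_lit 0) (nat_lit 26326572982) (nat_lit 76) (nat_lit 26326572982) (nat_lit 197) (nat_lit 1) (nat_lit 195) (nat_lit 1) (nat_lit 196) (nat_lit 1) (nat_lit 247) (nat_lit 337) (nat_lit 316)))) (XT.nd (nat_lit 78) (nat_lit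 228) (nat_lit 0) (XT.lf (nat_lit 0) (nat_lit 46854295431) (nat_lit 0) (nat_lit 112546311192) (nat_lit 152) (nat_lit 46854295431) (nat_lit 195) (nat_lit 3) (nat_lit 195) (nat_lit 1) (nat_lit 197) (nat_lit 1) (nat_lit 248) (nat_lit 337) (nat_lit 315)) (XT.nd (nat_lit 78) (nat_lit 152) (nat_lit 0) (XT.lf (nat_lit 76) (nat_lit 27414405649) (nat_lit 0) (nat_lit 84537897615) (nat_lit 76) (nat_lit 84537897615) (nat_lit 195) (nat_lit 3) (nat_lit 194) (nat_lit 1) (nat_lit 195) (nat_lit 1) (nat_lit 249) (nat_lit 337) (nat_lit 314)) (XT.lf (nat_lit 152) (nat_lit 157322255428) (nat_lit 0) (nat_lit 15052303548) (nat_lit 76) (nat_lit 15052303548) (nat_lit 194) (nat_lit 1) (nat_lit 192) (nat_lit 1) (nat_lit 193) (nat_lit 1) (nat_lit 250) (nat_lit 337) (nat_lit 313))))))) (XT.nd (nat_lit 858) (nat_lit 836) (nat_lit 0) (XT.nd (nat_lit 390) (nat_lit 456) (nat_lit 0) (XT.nd (nat_lit 156) (nat_lit 228) (nat_lit 0)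 (XT.nd (nat_lit 78) (nat_lit 76) (nat_lit 0) (XT.lf (nat_lit 0) (nat_lit 46953617575) (nat_lit 0) (nat_lit 84513240796) (nat_lit 152) (nat_lit 46953617575) (nat_lit 192) (nat_lit 3) (nat_lit 192) (nat_lit 1) (nat_lit 194) (nat_lit 1) (nat_lit 251) (nat_lit 337) (nat_lit 312)) (XT.lf (nat_lit 76) (nat_lit 34922228312) (nat_lit 0) (nat_lit 67582770243) (nat_lit 76) (nat_lit 67582770243) (nat_lit 192) (nat_lit 3) (nat_lit 191) (nat_lit 1) (nat_lit 192) (nat_lit 1) (nat_lit 252) (nat_lit 337) (nat_lit 311))) (XT.nd (nat_lit 78) (nat_lit 76) (nat_lit 0) (XT.lf (nat_lit 152) (nat_lit 145182766311) (nat_lit 0) (nat_lit 8606203407) (nat_lit 76) (nat_lit 8606203407) (nat_lit 191) (nat_lit 1) (nat_lit 189) (nat_lit 1) (nat_lit 190) (nat_lit 1) (nat_lit 253) (nat_lit 337) (nat_lit 310)) (XT.nd (nat_lit 78) (nat_lit 76) (nat_lit 0) (XT.lf (nat_lit 0) (nat_lit 44380250277) (nat_lit 0) (nat_lit 65855086757)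 (nat_lit 152) (nat_lit 44380250277) (nat_lit 189) (nat_lit 3) (nat_lit 189) (nat_lit 1) (nat_lit 191) (nat_lit 1) (nat_lit 254) (nat_lit 337) (nat_lit 309)) (XT.lf (nat_lit 76) (nat_lit 36704247734) (nat_lit 0) (nat_lit 55378018586) (nat_lit 76) (nat_lit 55378018586) (nat_lit 189) (nat_lit 3) (nat_lit 188) (nat_lit 1) (nat_lit 189) (nat_lit 1) (nat_lit 255) (nat_lit 337) (nat_lit 308))))) (XT.nd (nat_lit 234) (nat_lit 228) (nat_lit 0) (XT.nd (nat_lit 78) (nat_lit 76) (nat_lit 0) (XT.lf (nat_lit 152) (nat_lit 131037636247) (nat_lit 0) (nat_lit 4920624730) (nat_lit 76) (nat_lit 4920624730) (nat_lit 188) (nat_lit 1) (nat_lit 186) (nat_lit 1) (nat_lit 187) (nat_lit 1) (nat_lit 256) (nat_lit 337) (nat_lit 307)) (XT.nd (nat_lit 78) (nat_lit 76) (nat_lit 0) (XT.lf (nat_lit 0) (nat_lit 40621827820) (nat_lit 0) (nat_lit 52900135276) (nat_lit 152) (nat_lit 40621827820) (nat_lit 186) (nat_lit 3) (nat_lit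 186) (nat_lit 1) (nat_lit 188) (nat_lit 1) (nat_lit 257) (nat_lit 337) (nat_lit 306)) (XT.lf (nat_lit 76) (nat_lit 35539990467) (nat_lit 0) (nat_lit 46216779559) (nat_lit 76) (nat_lit 46216779559) (nat_lit 186) (nat_lit 3) (nat_lit 185) (nat_lit 1) (nat_lit 186) (nat_lit 1) (nat_lit 258) (nat_lit 337) (nat_lit 305)))) (XT.nd (nat_lit 78) (nat_lit 76) (nat_lit 0) (XT.lf (nat_lit 152) (nat_lit 116685470693) (nat_lit 0) (nat_lit 2813383159) (nat_lit 76) (nat_lit 2813383159) (nat_lit 185) (nat_lit 1) (nat_lit 183) (nat_lit 1) (nat_lit 184) (nat_lit 1) (nat_lit 259) (nat_lit 337) (nat_lit 304)) (XT.nd (nat_lit 78) (nat_lit 76) (nat_lit 0) (XT.lf (nat_lit 0) (nat_lit 36484162493) (nat_lit 0) (nat_lit 43504324631) (nat_lit 152) (nat_lit 36484162493) (nat_lit 183) (nat_lit 3) (nat_lit 183) (nat_lit 1) (nat_lit 185) (nat_lit 1) (nat_lit 260) (nat_lit 337) (nat_lit 303)) (XT.lf (nat_lit 76) (nat_lit 32975946375)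 (nat_lit 0) (nat_lit 39080435191) (nat_lit 76) (nat_lit 39080435191) (nat_lit 183) (nat_lit 3) (nat_lit 182) (nat_lit 1) (nat_lit 183) (nat_lit 1) (nat_lit 261) (nat_lit 337) (nat_lit 302)))))) (XT.nd (nat_lit 390) (nat_lit 456) (nat_lit 0) (XT.nd (nat_lit 156) (nat_lit 228) (nat_lit 0) (XT.nd (nat_lit 78) (nat_lit 0) (nat_lit 0) (XT.lf (nat_lit 152) (nat_lit 103032059081) (nat_lit 0) (nat_lit 1608560952) (nat_lit 76) (nat_lit 1608560952) (nat_lit 182) (nat_lit 1) (nat_lit 180) (nat_lit 1) (nat_lit 181) (nat_lit 1) (nat_lit 262) (nat_lit 337) (nat_lit 301)) (XT.lf (nat_lit 0) (nat_lit 32389069270) (nat_lit 0) (nat_lit 36402869757) (nat_lit 152) (nat_lit 32389069270) (nat_lit 180) (nat_lit 3) (nat_lit 180) (nat_lit 1) (nat_lit 182) (nat_lit 1) (nat_lit 263) (nat_lit 337) (nat_lit 300))) (XT.nd (nat_lit 78) (nat_lit 152) (nat_lit 0) (XT.lf (nat_lit 76) (nat_lit 29859183911) (nat_lit 0) (nat_lit 33349445205)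 (nat_lit 76) (nat_lit 33349445205) (nat_lit 180) (nat_lit 3) (nat_lit 179) (nat_lit 1) (nat_lit 180) (nat_lit 1) (nat_lit 264) (nat_lit 337) (nat_lit 299)) (XT.nd (nat_lit 78) (nat_lit 0) (nat_lit 0) (XT.lf (nat_lit 152) (nat_lit 90488707657) (nat_lit 0) (nat_lit 919699945) (nat_lit 76) (nat_lit 919699945) (nat_lit 179) (nat_lit 1) (nat_lit 177) (nat_lit 1) (nat_lit 178) (nat_lit 1) (nat_lit 265) (nat_lit 337) (nat_lit 298)) (XT.lf (nat_lit 0) (nat_lit 28543886739) (nat_lit 0) (nat_lit 30838790195) (nat_lit 152) (nat_lit 28543886739) (nat_lit 177) (nat_lit 3) (nat_lit 177) (nat_lit 1) (nat_lit 179) (nat_lit 1) (nat_lit 266) (nat_lit 337) (nat_lit 297))))) (XT.nd (nat_lit 234) (nat_lit 228) (nat_lit 0) (XT.nd (nat_lit 78) (nat_lit 152) (nat_lit 0) (XT.lf (nat_lit 76) (nat_lit 26641719699) (nat_lit 0) (nat_lit 28637287921) (nat_lit 76) (nat_lit 28637287921) (nat_lit 177) (nat_lit 3) (nat_lit 176)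 (nat_lit 1) (nat_lit 177) (nat_lit 1) (nat_lit 267) (nat_lit 337) (nat_lit 296)) (XT.nd (nat_lit 78) (nat_lit 0) (nat_lit 0) (XT.lf (nat_lit 152) (nat_lit 79197902273) (nat_lit 0) (nat_lit 525841428) (nat_lit 76) (nat_lit 525841428) (nat_lit 176) (nat_lit 1) (nat_lit 174) (nat_lit 1) (nat_lit 175) (nat_lit 1) (nat_lit 268) (nat_lit 337) (nat_lit 295)) (XT.lf (nat_lit 0) (nat_lit 25037739244) (nat_lit 0) (nat_lit 26349857743) (nat_lit 152) (nat_lit 25037739244) (nat_lit 174) (nat_lit 3) (nat_lit 174) (nat_lit 1) (nat_lit 176) (nat_lit 1) (nat_lit 269) (nat_lit 337) (nat_lit 294)))) (XT.nd (nat_lit 78) (nat_lit 152) (nat_lit 0) (XT.lf (nat_lit 76) (nat_lit 23553910912) (nat_lit 0) (nat_lit 24694883520) (nat_lit 76) (nat_lit 24694883520) (nat_lit 174) (nat_lit 3) (nat_lit 173) (nat_lit 1) (nat_lit 174) (nat_lit 1) (nat_lit 270) (nat_lit 337) (nat_lit 293)) (XT.nd (nat_lit 78) (nat_lit 0) (nat_lit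 0) (XT.lf (nat_lit 152) (nat_lit 69160518521) (nat_lit 0) (nat_lit 300651543) (nat_lit 76) (nat_lit 300651543) (nat_lit 173) (nat_lit 1) (nat_lit 171) (nat_lit 1) (nat_lit 172) (nat_lit 1) (nat_lit 271) (nat_lit 337) (nat_lit 292)) (XT.lf (nat_lit 0) (nat_lit 21895999422) (nat_lit 0) (nat_lit 22646207432) (nat_lit 152) (nat_lit 21895999422) (nat_lit 171) (nat_lit 3) (nat_lit 171) (nat_lit 1) (nat_lit 173) (nat_lit 1) (nat_lit 272) (nat_lit 337) (nat_lit 291))))))))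
noncomputable def ec113 : XT := (XT.nd (nat_lit 1716) (nat_lit 1748) (nat_lit 0) (XT.nd (nat_lit 858) (nat_lit 760) (nat_lit 0) (XT.nd (nat_lit 390) (nat_lit 456) (nat_lit 0) (XT.nd (nat_lit 156) (nat_lit 228) (nat_lit 0) (XT.nd (nat_lit 78) (nat_lit 152) (nat_lit 0) (XT.lf (nat_lit 76) (nat_lit 20703043450) (nat_lit 0) (nat_lit 21355398242) (nat_lit 76) (nat_lit 21355398242) (nat_lit 171) (nat_lit 3) (nat_lit 170) (nat_lit 1) (nat_lit 171) (nat_lit 1) (nat_lit 273) (nat_lit 337) (nat_lit 290)) (XT.lf (nat_lit 152) (nat_lit 60306977760) (nat_lit 0) (nat_lit 171898495) (nat_lit 76) (nat_lit 171898495) (nat_lit 170) (nat_lit 1) (nat_lit 168) (nat_lit 1) (nat_lit 169) (nat_lit 1) (nat_lit 274) (nat_lit 337) (nat_lit 289))) (XT.nd (nat_lit 78) (nat_lit 228) (nat_lit 0) (XT.lf (nat_lit 0) (nat_lit 19110926775) (nat_lit 0) (nat_lit 19539860640) (nat_lit 152) (nat_lit 19110926775) (nat_lit 168) (nat_lit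 3) (nat_lit 168) (nat_lit 1) (nat_lit 170) (nat_lit 1) (nat_lit 275) (nat_lit 337) (nat_lit 288)) (XT.nd (nat_lit 78) (nat_lit 152) (nat_lit 0) (XT.lf (nat_lit 76) (nat_lit 18129222234) (nat_lit 0) (nat_lit 18502208204) (nat_lit 76) (nat_lit 18502208204) (nat_lit 168) (nat_lit 3) (nat_lit 167) (nat_lit 1) (nat_lit 168) (nat_lit 1) (nat_lit 276) (nat_lit 337) (nat_lit 287)) (XT.lf (nat_lit 152) (nat_lit 52536559682) (nat_lit 0) (nat_lit 98283522) (nat_lit 76) (nat_lit 98283522) (nat_lit 167) (nat_lit 1) (nat_lit 165) (nat_lit 1) (nat_lit 166) (nat_lit 1) (nat_lit 277) (nat_lit 337) (nat_lit 286))))) (XT.nd (nat_lit 234) (nat_lit 228) (nat_lit 0) (XT.nd (nat_lit 78) (nat_lit 228) (nat_lit 0) (XT.lf (nat_lit 0) (nat_lit 16658750097) (nat_lit 0) (nat_lit 16903994427) (nat_lit 152) (nat_lit 16658750097) (nat_lit 165) (nat_lit 3) (nat_lit 165) (nat_lit 1) (nat_lit 167) (nat_lit 1) (nat_lit 278) (nat_lit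 337) (nat_lit 285)) (XT.nd (nat_lit 78) (nat_lit 152) (nat_lit 0) (XT.lf (nat_lit 76) (nat_lit 15836911172) (nat_lit 0) (nat_lit 16050167111) (nat_lit 76) (nat_lit 16050167111) (nat_lit 165) (nat_lit 3) (nat_lit 164) (nat_lit 1) (nat_lit 165) (nat_lit 1) (nat_lit 279) (nat_lit 337) (nat_lit 284)) (XT.lf (nat_lit 152) (nat_lit 45738687133) (nat_lit 0) (nat_lit 56193923) (nat_lit 76) (nat_lit 56193923) (nat_lit 164) (nat_lit 1) (nat_lit 162) (nat_lit 1) (nat_lit 163) (nat_lit 1) (nat_lit 280) (nat_lit 337) (nat_lit 283)))) (XT.nd (nat_lit 78) (nat_lit 228) (nat_lit 0) (XT.lf (nat_lit 0) (nat_lit 14509055903) (nat_lit 0) (nat_lit 14649275144) (nat_lit 152) (nat_lit 14509055903) (nat_lit 162) (nat_lit 3) (nat_lit 162) (nat_lit 1) (nat_lit 164) (nat_lit 1) (nat_lit 281) (nat_lit 337) (nat_lit 282)) (XT.nd (nat_lit 78) (nat_lit 152) (nat_lit 0) (XT.lf (nat_lit 76) (nat_lit 13812604945) (nat_lit 0) (nat_lit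 13934534720) (nat_lit 76) (nat_lit 13934534720) (nat_lit 162) (nat_lit 3) (nat_lit 161) (nat_lit 1) (nat_lit 162) (nat_lit 1) (nat_lit 282) (nat_lit 337) (nat_lit 281)) (XT.lf (nat_lit 152) (nat_lit 39804059011) (nat_lit 0) (nat_lit 32129057) (nat_lit 76) (nat_lit 32129057) (nat_lit 161) (nat_lit 1) (nat_lit 159) (nat_lit 1) (nat_lit 160) (nat_lit 1) (nat_lit 283) (nat_lit 337) (nat_lit 280)))))) (XT.nd (nat_lit 390) (nat_lit 456) (nat_lit 0) (XT.nd (nat_lit 156) (nat_lit 228) (nat_lit 0) (XT.nd (nat_lit 78) (nat_lit 76) (nat_lit 0) (XT.lf (nat_lit 0) (nat_lit 12629827166) (nat_lit 0) (nat_lit 12709997972) (nat_lit 152) (nat_lit 12629827166) (nat_lit 159) (nat_lit 3) (nat_lit 159) (nat_lit 1) (nat_lit 161) (nat_lit 1) (nat_lit 284) (nat_lit 337) (nat_lit 279)) (XT.lf (nat_lit 76) (nat_lit 12034618736) (nat_lit 0) (nat_lit 12104332480) (nat_lit 76) (nat_lit 12104332480) (nat_lit 159) (nat_lit 3)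 (nat_lit 158) (nat_lit 1) (nat_lit 159) (nat_lit 1) (nat_lit 285) (nat_lit 337) (nat_lit 278))) (XT.nd (nat_lit 78) (nat_lit 76) (nat_lit 0) (XT.lf (nat_lit 152) (nat_lit 34630114008) (nat_lit 0) (nat_lit 18369893) (nat_lit 76) (nat_lit 18369893) (nat_lit 158) (nat_lit 1) (nat_lit 156) (nat_lit 1) (nat_lit 157) (nat_lit 1) (nat_lit 286) (nat_lit 337) (nat_lit 277)) (XT.nd (nat_lit 78) (nat_lit 76) (nat_lit 0) (XT.lf (nat_lit 0) (nat_lit 10990038032) (nat_lit 0) (nat_lit 11035875951) (nat_lit 152) (nat_lit 10990038032) (nat_lit 156) (nat_lit 3) (nat_lit 156) (nat_lit 1) (nat_lit 158) (nat_lit 1) (nat_lit 287) (nat_lit 337) (nat_lit 276)) (XT.lf (nat_lit 76) (nat_lit 10478412346) (nat_lit 0) (nat_lit 10518271406) (nat_lit 76) (nat_lit 10518271406) (nat_lit 156) (nat_lit 3) (nat_lit 155) (nat_lit 1) (nat_lit 156) (nat_lit 1) (nat_lit 288) (nat_lit 337) (nat_lit 275))))) (XT.nd (nat_lit 234) (nat_lit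 228) (nat_lit 0) (XT.nd (nat_lit 78) (nat_lit 76) (nat_lit 0) (XT.lf (nat_lit 152) (nat_lit 30123370585) (nat_lit 0) (nat_lit 10503046) (nat_lit 76) (nat_lit 10503046) (nat_lit 155) (nat_lit 1) (nat_lit 153) (nat_lit 1) (nat_lit 154) (nat_lit 1) (nat_lit 289) (nat_lit 337) (nat_lit 274)) (XT.nd (nat_lit 78) (nat_lit 76) (nat_lit 0) (XT.lf (nat_lit 0) (nat_lit 9560888487) (nat_lit 0) (nat_lit 9587096466) (nat_lit 152) (nat_lit 9560888487) (nat_lit 153) (nat_lit 3) (nat_lit 153) (nat_lit 1) (nat_lit 155) (nat_lit 1) (nat_lit 290) (nat_lit 337) (nat_lit 273)) (XT.lf (nat_lit 76) (nat_lit 9119396724) (nat_lit 0) (nat_lit 9142186270) (nat_lit 76) (nat_lit 9142186270) (nat_lit 153) (nat_lit 3) (nat_lit 152) (nat_lit 1) (nat_lit 153) (nat_lit 1) (nat_lit 291) (nat_lit 337) (nat_lit 272)))) (XT.nd (nat_lit 78) (nat_lit 76) (nat_lit 0) (XT.lf (nat_lit 152) (nat_lit 26200083166) (nat_lit 0) (nat_lit 6005150)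 (nat_lit 76) (nat_lit 6005150) (nat_lit 152) (nat_lit 1) (nat_lit 150) (nat_lit 1) (nat_lit 151) (nat_lit 1) (nat_lit 292) (nat_lit 337) (nat_lit 271)) (XT.nd (nat_lit 78) (nat_lit 76) (nat_lit 0) (XT.lf (nat_lit 0) (nat_lit 8316293869) (nat_lit 0) (nat_lit 8331278366) (nat_lit 152) (nat_lit 8316293869) (nat_lit 150) (nat_lit 3) (nat_lit 150) (nat_lit 1) (nat_lit 152) (nat_lit 1) (nat_lit 293) (nat_lit 337) (nat_lit 270)) (XT.lf (nat_lit 76) (nat_lit 7934332028) (nat_lit 0) (nat_lit 7947362025) (nat_lit 76) (nat_lit 7947362025) (nat_lit 150) (nat_lit 3) (nat_lit 149) (nat_lit 1) (nat_lit 150) (nat_lit 1) (nat_lit 294) (nat_lit 337) (nat_lit 269))))))) (XT.nd (nat_lit 858) (nat_lit 912) (nat_lit 0) (XT.nd (nat_lit 390) (nat_lit 456) (nat_lit 0) (XT.nd (nat_lit 156) (nat_lit 228) (nat_lit 0) (XT.nd (nat_lit 78) (nat_lit 0) (nat_lit 0) (XT.lf (nat_lit 152) (nat_lit 22786024555) (nat_lit 0) (nat_lit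 3433464) (nat_lit 76) (nat_lit 3433464) (nat_lit 149) (nat_lit 1) (nat_lit 147) (nat_lit 1) (nat_lit 148) (nat_lit 1) (nat_lit 295) (nat_lit 337) (nat_lit 268)) (XT.lf (nat_lit 0) (nat_lit 7232976573) (nat_lit 0) (nat_lit 7241544008) (nat_lit 152) (nat_lit 7232976573) (nat_lit 147) (nat_lit 3) (nat_lit 147) (nat_lit 1) (nat_lit 149) (nat_lit 1) (nat_lit 296) (nat_lit 337) (nat_lit 267))) (XT.nd (nat_lit 78) (nat_lit 152) (nat_lit 0) (XT.lf (nat_lit 76) (nat_lit 6901947352) (nat_lit 0) (nat_lit 6909397295) (nat_lit 76) (nat_lit 6909397295) (nat_lit 147) (nat_lit 3) (nat_lit 146) (nat_lit 1) (nat_lit 147) (nat_lit 1) (nat_lit 297) (nat_lit 337) (nat_lit 266)) (XT.nd (nat_lit 78) (nat_lit 0) (nat_lit 0) (XT.lf (nat_lit 152) (nat_lit 19815846076) (nat_lit 0) (nat_lit 1963094) (nat_lit 76) (nat_lit 1963094) (nat_lit 146) (nat_lit 1) (nat_lit 144) (nat_lit 1) (nat_lit 145) (nat_lit 1) (nat_lit 298) (nat_lit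 337) (nat_lit 265)) (XT.lf (nat_lit 0) (nat_lit 6290354841) (nat_lit 0) (nat_lit 6295253300) (nat_lit 152) (nat_lit 6290354841) (nat_lit 144) (nat_lit 3) (nat_lit 144) (nat_lit 1) (nat_lit 146) (nat_lit 1) (nat_lit 299) (nat_lit 337) (nat_lit 264))))) (XT.nd (nat_lit 234) (nat_lit 228) (nat_lit 0) (XT.nd (nat_lit 78) (nat_lit 152) (nat_lit 0) (XT.lf (nat_lit 76) (nat_lit 6003138854) (nat_lit 0) (nat_lit 6007398384) (nat_lit 76) (nat_lit 6007398384) (nat_lit 144) (nat_lit 3) (nat_lit 143) (nat_lit 1) (nat_lit 144) (nat_lit 1) (nat_lit 300) (nat_lit 337) (nat_lit 263)) (XT.nd (nat_lit 78) (nat_lit 0) (nat_lit 0) (XT.lf (nat_lit 152) (nat_lit 17232263510) (nat_lit 0) (nat_lit 1122405) (nat_lit 76) (nat_lit 1122405) (nat_lit 143) (nat_lit 1) (nat_lit 141) (nat_lit 1) (nat_lit 142) (nat_lit 1) (nat_lit 301) (nat_lit 337) (nat_lit 262)) (XT.lf (nat_lit 0) (nat_lit 5470336892) (nat_lit 0) (nat_lit 5473137602)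 (nat_lit 152) (nat_lit 5470336892) (nat_lit 141) (nat_lit 3) (nat_lit 141) (nat_lit 1) (nat_lit 143) (nat_lit 1) (nat_lit 302) (nat_lit 337) (nat_lit 261)))) (XT.nd (nat_lit 78) (nat_lit 152) (nat_lit 0) (XT.lf (nat_lit 76) (nat_lit 5220947215) (nat_lit 0) (nat_lit 5223382615) (nat_lit 76) (nat_lit 5223382615) (nat_lit 141) (nat_lit 3) (nat_lit 140) (nat_lit 1) (nat_lit 141) (nat_lit 1) (nat_lit 303) (nat_lit 337) (nat_lit 260)) (XT.nd (nat_lit 78) (nat_lit 0) (nat_lit 0) (XT.lf (nat_lit 152) (nat_lit 14985201897) (nat_lit 0) (nat_lit 641739) (nat_lit 76) (nat_lit 641739) (nat_lit 140) (nat_lit 1) (nat_lit 138) (nat_lit 1) (nat_lit 139) (nat_lit 1) (nat_lit 304) (nat_lit 337) (nat_lit 259)) (XT.lf (nat_lit 0) (nat_lit 4757079478) (nat_lit 0) (nat_lit 4758680792) (nat_lit 152) (nat_lit 4757079478) (nat_lit 138) (nat_lit 3) (nat_lit 138) (nat_lit 1) (nat_lit 140) (nat_lit 1) (nat_lit 305) (nat_lit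 337) (nat_lit 258)))))) (XT.nd (nat_lit 468) (nat_lit 456) (nat_lit 0) (XT.nd (nat_lit 234) (nat_lit 228) (nat_lit 0) (XT.nd (nat_lit 78) (nat_lit 152) (nat_lit 0) (XT.lf (nat_lit 76) (nat_lit 4540426638) (nat_lit 0) (nat_lit 4541819086) (nat_lit 76) (nat_lit 4541819086) (nat_lit 138) (nat_lit 3) (nat_lit 137) (nat_lit 1) (nat_lit 138) (nat_lit 1) (nat_lit 306) (nat_lit 337) (nat_lit 257)) (XT.nd (nat_lit 78) (nat_lit 0) (nat_lit 0) (XT.lf (nat_lit 152) (nat_lit 13030967652) (nat_lit 0) (nat_lit 366916) (nat_lit 76) (nat_lit 366916) (nat_lit 137) (nat_lit 1) (nat_lit 135) (nat_lit 1) (nat_lit 136) (nat_lit 1) (nat_lit 307) (nat_lit 337) (nat_lit 256)) (XT.lf (nat_lit 0) (nat_lit 4136742244) (nat_lit 0) (nat_lit 4137657801) (nat_lit 152) (nat_lit 4136742244) (nat_lit 135) (nat_lit 3) (nat_lit 135) (nat_lit 1) (nat_lit 137) (nat_lit 1) (nat_lit 308) (nat_lit 337) (nat_lit 255)))) (XT.nd (nat_lit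 78) (nat_lit 152) (nat_lit 0) (XT.lf (nat_lit 76) (nat_lit 3948467252) (nat_lit 0) (nat_lit 3949263388) (nat_lit 76) (nat_lit 3949263388) (nat_lit 135) (nat_lit 3) (nat_lit 134) (nat_lit 1) (nat_lit 135) (nat_lit 1) (nat_lit 309) (nat_lit 337) (nat_lit 254)) (XT.nd (nat_lit 78) (nat_lit 0) (nat_lit 0) (XT.lf (nat_lit 152) (nat_lit 11331480510) (nat_lit 0) (nat_lit 209785) (nat_lit 76) (nat_lit 209785) (nat_lit 134) (nat_lit 1) (nat_lit 132) (nat_lit 1) (nat_lit 133) (nat_lit 1) (nat_lit 310) (nat_lit 337) (nat_lit 253)) (XT.lf (nat_lit 0) (nat_lit 3597253728) (nat_lit 0) (nat_lit 3597777201) (nat_lit 152) (nat_lit 3597253728) (nat_lit 132) (nat_lit 3) (nat_lit 132) (nat_lit 1) (nat_lit 134) (nat_lit 1) (nat_lit 311) (nat_lit 337) (nat_lit 252))))) (XT.nd (nat_lit 234) (nat_lit 228) (nat_lit 0) (XT.nd (nat_lit 78) (nat_lit 152) (nat_lit 0) (XT.lf (nat_lit 76) (nat_lit 3433604258) (nat_lit 0) (nat_lit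 3434059451) (nat_lit 76) (nat_lit 3434059451) (nat_lit 132) (nat_lit 3) (nat_lit 131) (nat_lit 1) (nat_lit 132) (nat_lit 1) (nat_lit 312) (nat_lit 337) (nat_lit 251)) (XT.nd (nat_lit 78) (nat_lit 0) (nat_lit 0) (XT.lf (nat_lit 152) (nat_lit 9853578117) (nat_lit 0) (nat_lit 119945) (nat_lit 76) (nat_lit 119945) (nat_lit 131) (nat_lit 1) (nat_lit 129) (nat_lit 1) (nat_lit 130) (nat_lit 1) (nat_lit 313) (nat_lit 337) (nat_lit 250)) (XT.lf (nat_lit 0) (nat_lit 3128096211) (nat_lit 0) (nat_lit 3128395508) (nat_lit 152) (nat_lit 3128096211) (nat_lit 129) (nat_lit 3) (nat_lit 129) (nat_lit 1) (nat_lit 131) (nat_lit 1) (nat_lit 314) (nat_lit 337) (nat_lit 249)))) (XT.nd (nat_lit 78) (nat_lit 152) (nat_lit 0) (XT.lf (nat_lit 76) (nat_lit 2985831154) (nat_lit 0) (nat_lit 2986091412) (nat_lit 76) (nat_lit 2986091412) (nat_lit 129) (nat_lit 3) (nat_lit 128) (nat_lit 1) (nat_lit 129) (nat_lit 1) (nat_lit 315)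 (nat_lit 337) (nat_lit 248)) (XT.nd (nat_lit 78) (nat_lit 0) (nat_lit 0) (XT.lf (nat_lit 152) (nat_lit 8568395581) (nat_lit 0) (nat_lit 68579) (nat_lit 76) (nat_lit 68579) (nat_lit 128) (nat_lit 1) (nat_lit 126) (nat_lit 1) (nat_lit 127) (nat_lit 1) (nat_lit 316) (nat_lit 337) (nat_lit 247)) (XT.lf (nat_lit 0) (nat_lit 2720111958) (nat_lit 0) (nat_lit 2720283083) (nat_lit 152) (nat_lit 2720111958) (nat_lit 126) (nat_lit 3) (nat_lit 126) (nat_lit 1) (nat_lit 128) (nat_lit 1) (nat_lit 317) (nat_lit 337) (nat_lit 246))))))))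
noncomputable def ec114 : XT := (XT.nd (nat_lit 1716) (nat_lit 1748) (nat_lit 0) (XT.nd (nat_lit 858) (nat_lit 760) (nat_lit 0) (XT.nd (nat_lit 390) (nat_lit 456) (nat_lit 0) (XT.nd (nat_lit 156) (nat_lit 228) (nat_lit 0) (XT.nd (nat_lit 78) (nat_lit 152) (nat_lit 0) (XT.lf (nat_lit 76) (nat_lit 2596425414) (nat_lit 0) (nat_lit 2596574217) (nat_lit 76) (nat_lit 2596574217) (nat_lit 126) (nat_lit 3) (nat_lit 125) (nat_lit 1) (nat_lit 126) (nat_lit 1) (nat_lit 318) (nat_lit 337) (nat_lit 245)) (XT.lf (nat_lit 152) (nat_lit 7450816949) (nat_lit 0) (nat_lit 39210) (nat_lit 76) (nat_lit 39210) (nat_lit 125) (nat_lit 1) (nat_lit 123) (nat_lit 1) (nat_lit 124) (nat_lit 1) (nat_lit 319) (nat_lit 337) (nat_lit 244))) (XT.nd (nat_lit 78) (nat_lit 228) (nat_lit 0) (XT.lf (nat_lit 0) (nat_lit 2365330925) (nat_lit 0) (nat_lit 2365428766) (nat_lit 152) (nat_lit 2365330925) (nat_lit 123) (nat_lit 3) (nat_lit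 123) (nat_lit 1) (nat_lit 125) (nat_lit 1) (nat_lit 320) (nat_lit 337) (nat_lit 243)) (XT.nd (nat_lit 78) (nat_lit 152) (nat_lit 0) (XT.lf (nat_lit 76) (nat_lit 2257790102) (nat_lit 0) (nat_lit 2257875180) (nat_lit 76) (nat_lit 2257875180) (nat_lit 123) (nat_lit 3) (nat_lit 122) (nat_lit 1) (nat_lit 123) (nat_lit 1) (nat_lit 321) (nat_lit 337) (nat_lit 242)) (XT.lf (nat_lit 152) (nat_lit 6478993092) (nat_lit 0) (nat_lit 22418) (nat_lit 76) (nat_lit 22418) (nat_lit 122) (nat_lit 1) (nat_lit 120) (nat_lit 1) (nat_lit 121) (nat_lit 1) (nat_lit 322) (nat_lit 337) (nat_lit 241))))) (XT.nd (nat_lit 234) (nat_lit 228) (nat_lit 0) (XT.nd (nat_lit 78) (nat_lit 228) (nat_lit 0) (XT.lf (nat_lit 0) (nat_lit 2056818750) (nat_lit 0) (nat_lit 2056874691) (nat_lit 152) (nat_lit 2056818750) (nat_lit 120) (nat_lit 3) (nat_lit 120) (nat_lit 1) (nat_lit 122) (nat_lit 1) (nat_lit 323) (nat_lit 337) (nat_lit 240)) (XT.nd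 (nat_lit 78) (nat_lit 152) (nat_lit 0) (XT.lf (nat_lit 76) (nat_lit 1963312248) (nat_lit 0) (nat_lit 1963360892) (nat_lit 76) (nat_lit 1963360892) (nat_lit 120) (nat_lit 3) (nat_lit 119) (nat_lit 1) (nat_lit 120) (nat_lit 1) (nat_lit 324) (nat_lit 337) (nat_lit 239)) (XT.lf (nat_lit 152) (nat_lit 5633919519) (nat_lit 0) (nat_lit 12817) (nat_lit 76) (nat_lit 12817) (nat_lit 119) (nat_lit 1) (nat_lit 117) (nat_lit 1) (nat_lit 118) (nat_lit 1) (nat_lit 325) (nat_lit 337) (nat_lit 238)))) (XT.nd (nat_lit 78) (nat_lit 228) (nat_lit 0) (XT.lf (nat_lit 0) (nat_lit 1788543332) (nat_lit 0) (nat_lit 1788575317) (nat_lit 152) (nat_lit 1788543332) (nat_lit 117) (nat_lit 3) (nat_lit 117) (nat_lit 1) (nat_lit 119) (nat_lit 1) (nat_lit 326) (nat_lit 337) (nat_lit 237)) (XT.nd (nat_lit 78) (nat_lit 152) (nat_lit 0) (XT.lf (nat_lit 76) (nat_lit 1707237480) (nat_lit 0) (nat_lit 1707265293) (nat_lit 76) (nat_lit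 1707265293) (nat_lit 117) (nat_lit 3) (nat_lit 116) (nat_lit 1) (nat_lit 117) (nat_lit 1) (nat_lit 327) (nat_lit 337) (nat_lit 236)) (XT.lf (nat_lit 152) (nat_lit 4899067588) (nat_lit 0) (nat_lit 7328) (nat_lit 76) (nat_lit 7328) (nat_lit 116) (nat_lit 1) (nat_lit 114) (nat_lit 1) (nat_lit 115) (nat_lit 1) (nat_lit 328) (nat_lit 337) (nat_lit 235)))))) (XT.nd (nat_lit 390) (nat_lit 456) (nat_lit 0) (XT.nd (nat_lit 156) (nat_lit 228) (nat_lit 0) (XT.nd (nat_lit 78) (nat_lit 76) (nat_lit 0) (XT.lf (nat_lit 0) (nat_lit 1555258096) (nat_lit 0) (nat_lit 1555276383) (nat_lit 152) (nat_lit 1555258096) (nat_lit 114) (nat_lit 3) (nat_lit 114) (nat_lit 1) (nat_lit 116) (nat_lit 1) (nat_lit 329) (nat_lit 337) (nat_lit 234)) (XT.lf (nat_lit 76) (nat_lit 1484559727) (nat_lit 0) (nat_lit 1484575629) (nat_lit 76) (nat_lit 1484575629) (nat_lit 114) (nat_lit 3) (nat_lit 113) (nat_lit 1) (nat_lit 114) (nat_lit 1)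 (nat_lit 330) (nat_lit 337) (nat_lit 233))) (XT.nd (nat_lit 78) (nat_lit 76) (nat_lit 0) (XT.lf (nat_lit 152) (nat_lit 4260062852) (nat_lit 0) (nat_lit 4190) (nat_lit 76) (nat_lit 4190) (nat_lit 113) (nat_lit 1) (nat_lit 111) (nat_lit 1) (nat_lit 112) (nat_lit 1) (nat_lit 331) (nat_lit 337) (nat_lit 232)) (XT.nd (nat_lit 78) (nat_lit 76) (nat_lit 0) (XT.lf (nat_lit 0) (nat_lit 1352400073) (nat_lit 0) (nat_lit 1352410529) (nat_lit 152) (nat_lit 1352400073) (nat_lit 111) (nat_lit 3) (nat_lit 111) (nat_lit 1) (nat_lit 113) (nat_lit 1) (nat_lit 332) (nat_lit 337) (nat_lit 231)) (XT.lf (nat_lit 76) (nat_lit 1290924587) (nat_lit 0) (nat_lit 1290933679) (nat_lit 76) (nat_lit 1290933679) (nat_lit 111) (nat_lit 3) (nat_lit 110) (nat_lit 1) (nat_lit 111) (nat_lit 1) (nat_lit 333) (nat_lit 337) (nat_lit 230))))) (XT.nd (nat_lit 234) (nat_lit 228) (nat_lit 0) (XT.nd (nat_lit 78) (nat_lit 76) (nat_lit 0) (XT.lf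 (nat_lit 152) (nat_lit 3704404813) (nat_lit 0) (nat_lit 2395) (nat_lit 76) (nat_lit 2395) (nat_lit 110) (nat_lit 1) (nat_lit 108) (nat_lit 1) (nat_lit 109) (nat_lit 1) (nat_lit 334) (nat_lit 337) (nat_lit 229)) (XT.nd (nat_lit 78) (nat_lit 76) (nat_lit 0) (XT.lf (nat_lit 0) (nat_lit 1176001052) (nat_lit 0) (nat_lit 1176007030) (nat_lit 152) (nat_lit 1176001052) (nat_lit 108) (nat_lit 3) (nat_lit 108) (nat_lit 1) (nat_lit 110) (nat_lit 1) (nat_lit 335) (nat_lit 337) (nat_lit 228)) (XT.lf (nat_lit 76) (nat_lit 1122544883) (nat_lit 0) (nat_lit 1122550082) (nat_lit 76) (nat_lit 1122550082) (nat_lit 108) (nat_lit 3) (nat_lit 107) (nat_lit 1) (nat_lit 108) (nat_lit 1) (nat_lit 336) (nat_lit 337) (nat_lit 227)))) (XT.nd (nat_lit 78) (nat_lit 76) (nat_lit 0) (XT.lf (nat_lit 152) (nat_lit 3221222911) (nat_lit 0) (nat_lit 1369) (nat_lit 76) (nat_lit 1369) (nat_lit 107) (nat_lit 1) (nat_lit 105) (nat_lit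 1) (nat_lit 106) (nat_lit 1) (nat_lit 337) (nat_lit 337) (nat_lit 226)) (XT.nd (nat_lit 78) (nat_lit 76) (nat_lit 0) (XT.lf (nat_lit 0) (nat_lit 1022610175) (nat_lit 0) (nat_lit 1022613593) (nat_lit 152) (nat_lit 1022610175) (nat_lit 105) (nat_lit 3) (nat_lit 105) (nat_lit 1) (nat_lit 107) (nat_lit 1) (nat_lit 338) (nat_lit 337) (nat_lit 225)) (XT.lf (nat_lit 76) (nat_lit 976126994) (nat_lit 0) (nat_lit 976129966) (nat_lit 76) (nat_lit 976129966) (nat_lit 105) (nat_lit 3) (nat_lit 104) (nat_lit 1) (nat_lit 105) (nat_lit 1) (nat_lit 339) (nat_lit 337) (nat_lit 224))))))) (XT.nd (nat_lit 858) (nat_lit 912) (nat_lit 0) (XT.nd (nat_lit 390) (nat_lit 456) (nat_lit 0) (XT.nd (nat_lit 156) (nat_lit 228) (nat_lit 0) (XT.nd (nat_lit 78) (nat_lit 0) (nat_lit 0) (XT.lf (nat_lit 152) (nat_lit 2801064163) (nat_lit 0) (nat_lit 783) (nat_lit 76) (nat_lit 783) (nat_lit 104) (nat_lit 1) (nat_lit 102) (nat_lit 1)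 (nat_lit 103) (nat_lit 1) (nat_lit 340) (nat_lit 337) (nat_lit 223)) (XT.lf (nat_lit 0) (nat_lit 889226563) (nat_lit 0) (nat_lit 889228517) (nat_lit 152) (nat_lit 889226563) (nat_lit 102) (nat_lit 3) (nat_lit 102) (nat_lit 1) (nat_lit 104) (nat_lit 1) (nat_lit 341) (nat_lit 337) (nat_lit 222))) (XT.nd (nat_lit 78) (nat_lit 152) (nat_lit 0) (XT.lf (nat_lit 76) (nat_lit 848806658) (nat_lit 0) (nat_lit 848808358) (nat_lit 76) (nat_lit 848808358) (nat_lit 102) (nat_lit 3) (nat_lit 101) (nat_lit 1) (nat_lit 102) (nat_lit 1) (nat_lit 342) (nat_lit 337) (nat_lit 221)) (XT.nd (nat_lit 78) (nat_lit 0) (nat_lit 0) (XT.lf (nat_lit 152) (nat_lit 2435708404) (nat_lit 0) (nat_lit 447) (nat_lit 76) (nat_lit 447) (nat_lit 101) (nat_lit 1) (nat_lit 99) (nat_lit 1) (nat_lit 100) (nat_lit 1) (nat_lit 343) (nat_lit 337) (nat_lit 220)) (XT.lf (nat_lit 0) (nat_lit 773240674) (nat_lit 0) (nat_lit 773241791) (nat_lit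 152) (nat_lit 773240674) (nat_lit 99) (nat_lit 3) (nat_lit 99) (nat_lit 1) (nat_lit 101) (nat_lit 1) (nat_lit 344) (nat_lit 337) (nat_lit 219))))) (XT.nd (nat_lit 234) (nat_lit 228) (nat_lit 0) (XT.nd (nat_lit 78) (nat_lit 152) (nat_lit 0) (XT.lf (nat_lit 76) (nat_lit 738093076) (nat_lit 0) (nat_lit 738094048) (nat_lit 76) (nat_lit 738094048) (nat_lit 99) (nat_lit 3) (nat_lit 98) (nat_lit 1) (nat_lit 99) (nat_lit 1) (nat_lit 345) (nat_lit 337) (nat_lit 218)) (XT.nd (nat_lit 78) (nat_lit 0) (nat_lit 0) (XT.lf (nat_lit 152) (nat_lit 2118007557) (nat_lit 0) (nat_lit 256) (nat_lit 76) (nat_lit 256) (nat_lit 98) (nat_lit 1) (nat_lit 96) (nat_lit 1) (nat_lit 97) (nat_lit 1) (nat_lit 346) (nat_lit 337) (nat_lit 217)) (XT.lf (nat_lit 0) (nat_lit 672383300) (nat_lit 0) (nat_lit 672383939) (nat_lit 152) (nat_lit 672383300) (nat_lit 96) (nat_lit 3) (nat_lit 96) (nat_lit 1) (nat_lit 98) (nat_lit 1) (nat_lit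 347) (nat_lit 337) (nat_lit 216)))) (XT.nd (nat_lit 78) (nat_lit 152) (nat_lit 0) (XT.lf (nat_lit 76) (nat_lit 641820255) (nat_lit 0) (nat_lit 641820810) (nat_lit 76) (nat_lit 641820810) (nat_lit 96) (nat_lit 3) (nat_lit 95) (nat_lit 1) (nat_lit 96) (nat_lit 1) (nat_lit 348) (nat_lit 337) (nat_lit 215)) (XT.nd (nat_lit 78) (nat_lit 0) (nat_lit 0) (XT.lf (nat_lit 152) (nat_lit 1841745844) (nat_lit 0) (nat_lit 146) (nat_lit 76) (nat_lit 146) (nat_lit 95) (nat_lit 1) (nat_lit 93) (nat_lit 1) (nat_lit 94) (nat_lit 1) (nat_lit 349) (nat_lit 337) (nat_lit 214)) (XT.lf (nat_lit 0) (nat_lit 584681191) (nat_lit 0) (nat_lit 584681556) (nat_lit 152) (nat_lit 584681191) (nat_lit 93) (nat_lit 3) (nat_lit 93) (nat_lit 1) (nat_lit 95) (nat_lit 1) (nat_lit 350) (nat_lit 337) (nat_lit 213)))))) (XT.nd (nat_lit 390) (nat_lit 456) (nat_lit 0) (XT.nd (nat_lit 156) (nat_lit 228) (nat_lit 0) (XT.nd (nat_lit 78) (nat_lit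 152) (nat_lit 0) (XT.lf (nat_lit 76) (nat_lit 558104677) (nat_lit 0) (nat_lit 558104995) (nat_lit 76) (nat_lit 558104995) (nat_lit 93) (nat_lit 3) (nat_lit 92) (nat_lit 1) (nat_lit 93) (nat_lit 1) (nat_lit 351) (nat_lit 337) (nat_lit 212)) (XT.lf (nat_lit 152) (nat_lit 1601518207) (nat_lit 0) (nat_lit 83) (nat_lit 76) (nat_lit 83) (nat_lit 92) (nat_lit 1) (nat_lit 90) (nat_lit 1) (nat_lit 91) (nat_lit 1) (nat_lit 352) (nat_lit 337) (nat_lit 211))) (XT.nd (nat_lit 78) (nat_lit 228) (nat_lit 0) (XT.lf (nat_lit 0) (nat_lit 508418461) (nat_lit 0) (nat_lit 508418670) (nat_lit 152) (nat_lit 508418461) (nat_lit 90) (nat_lit 3) (nat_lit 90) (nat_lit 1) (nat_lit 92) (nat_lit 1) (nat_lit 353) (nat_lit 337) (nat_lit 210)) (XT.nd (nat_lit 78) (nat_lit 152) (nat_lit 0) (XT.lf (nat_lit 76) (nat_lit 485308476) (nat_lit 0) (nat_lit 485308658) (nat_lit 76) (nat_lit 485308658) (nat_lit 90) (nat_lit 3) (nat_lit 89)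 (nat_lit 1) (nat_lit 90) (nat_lit 1) (nat_lit 354) (nat_lit 337) (nat_lit 209)) (XT.lf (nat_lit 152) (nat_lit 1392624574) (nat_lit 0) (nat_lit 47) (nat_lit 76) (nat_lit 47) (nat_lit 89) (nat_lit 1) (nat_lit 87) (nat_lit 1) (nat_lit 88) (nat_lit 1) (nat_lit 355) (nat_lit 337) (nat_lit 208))))) (XT.nd (nat_lit 234) (nat_lit 228) (nat_lit 0) (XT.nd (nat_lit 78) (nat_lit 228) (nat_lit 0) (XT.lf (nat_lit 0) (nat_lit 442103030) (nat_lit 0) (nat_lit 442103149) (nat_lit 152) (nat_lit 442103030) (nat_lit 87) (nat_lit 3) (nat_lit 87) (nat_lit 1) (nat_lit 89) (nat_lit 1) (nat_lit 356) (nat_lit 337) (nat_lit 207)) (XT.nd (nat_lit 78) (nat_lit 152) (nat_lit 0) (XT.lf (nat_lit 76) (nat_lit 422007406) (nat_lit 0) (nat_lit 422007510) (nat_lit 76) (nat_lit 422007510) (nat_lit 87) (nat_lit 3) (nat_lit 86) (nat_lit 1) (nat_lit 87) (nat_lit 1) (nat_lit 357) (nat_lit 337) (nat_lit 206)) (XT.lf (nat_lit 152) (nat_lit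 1210977917) (nat_lit 0) (nat_lit 27) (nat_lit 76) (nat_lit 27) (nat_lit 86) (nat_lit 1) (nat_lit 84) (nat_lit 1) (nat_lit 85) (nat_lit 1) (nat_lit 358) (nat_lit 337) (nat_lit 205)))) (XT.nd (nat_lit 78) (nat_lit 228) (nat_lit 0) (XT.lf (nat_lit 0) (nat_lit 384437428) (nat_lit 0) (nat_lit 384437497) (nat_lit 152) (nat_lit 384437428) (nat_lit 84) (nat_lit 3) (nat_lit 84) (nat_lit 1) (nat_lit 86) (nat_lit 1) (nat_lit 359) (nat_lit 337) (nat_lit 204)) (XT.nd (nat_lit 78) (nat_lit 152) (nat_lit 0) (XT.lf (nat_lit 76) (nat_lit 366962982) (nat_lit 0) (nat_lit 366963041) (nat_lit 76) (nat_lit 366963041) (nat_lit 84) (nat_lit 3) (nat_lit 83) (nat_lit 1) (nat_lit 84) (nat_lit 1) (nat_lit 360) (nat_lit 337) (nat_lit 203)) (XT.lf (nat_lit 152) (nat_lit 1053024291) (nat_lit 0) (nat_lit 15) (nat_lit 76) (nat_lit 15) (nat_lit 83) (nat_lit 1) (nat_lit 81) (nat_lit 1) (nat_lit 82) (nat_lit 1) (nat_lit 361) (nat_lit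 337) (nat_lit 202))))))))
noncomputable def ec115 : XT := (XT.nd (nat_lit 37050) (nat_lit 0) (nat_lit 8436) (XT.nd (nat_lit 36192) (nat_lit 0) (nat_lit 10184) (XT.nd (nat_lit 390) (nat_lit 380) (nat_lit 0) (XT.nd (nat_lit 156) (nat_lit 228) (nat_lit 0) (XT.nd (nat_lit 78) (nat_lit 76) (nat_lit 0) (XT.lf (nat_lit 0) (nat_lit 334293422) (nat_lit 0) (nat_lit 334293461) (nat_lit 152) (nat_lit 334293422) (nat_lit 81) (nat_lit 3) (nat_lit 81) (nat_lit 1) (nat_lit 83) (nat_lit 1) (nat_lit 362) (nat_lit 337) (nat_lit 201)) (XT.lf (nat_lit 76) (nat_lit 319098256) (nat_lit 0) (nat_lit 319098290) (nat_lit 76) (nat_lit 319098290) (nat_lit 81) (nat_lit 3) (nat_lit 80) (nat_lit 1) (nat_lit 81) (nat_lit 1) (nat_lit 363) (nat_lit 337) (nat_lit 200))) (XT.nd (nat_lit 78) (nat_lit 76) (nat_lit 0) (XT.lf (nat_lit 152) (nat_lit 915673305) (nat_lit 0) (nat_lit 8) (nat_lit 76) (nat_lit 8) (nat_lit 80) (nat_lit 1) (nat_lit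 78) (nat_lit 1) (nat_lit 79) (nat_lit 1) (nat_lit 364) (nat_lit 337) (nat_lit 199)) (XT.nd (nat_lit 78) (nat_lit 76) (nat_lit 0) (XT.lf (nat_lit 0) (nat_lit 290689936) (nat_lit 0) (nat_lit 290689958) (nat_lit 152) (nat_lit 290689936) (nat_lit 78) (nat_lit 3) (nat_lit 78) (nat_lit 1) (nat_lit 80) (nat_lit 1) (nat_lit 365) (nat_lit 337) (nat_lit 198)) (XT.lf (nat_lit 76) (nat_lit 277476751) (nat_lit 0) (nat_lit 277476771) (nat_lit 76) (nat_lit 277476771) (nat_lit 78) (nat_lit 3) (nat_lit 77) (nat_lit 1) (nat_lit 78) (nat_lit 1) (nat_lit 366) (nat_lit 337) (nat_lit 197))))) (XT.nd (nat_lit 234) (nat_lit 152) (nat_lit 0) (XT.nd (nat_lit 78) (nat_lit 76) (nat_lit 0) (XT.lf (nat_lit 152) (nat_lit 796237662) (nat_lit 0) (nat_lit 5) (nat_lit 76) (nat_lit 5) (nat_lit 77) (nat_lit 1) (nat_lit 75) (nat_lit 1) (nat_lit 76) (nat_lit 1) (nat_lit 367) (nat_lit 337) (nat_lit 196)) (XT.nd (nat_lit 78) (nat_lit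 76) (nat_lit 0) (XT.lf (nat_lit 0) (nat_lit 252773859) (nat_lit 0) (nat_lit 252773872) (nat_lit 152) (nat_lit 252773859) (nat_lit 75) (nat_lit 3) (nat_lit 75) (nat_lit 1) (nat_lit 77) (nat_lit 1) (nat_lit 368) (nat_lit 337) (nat_lit 195)) (XT.lf (nat_lit 76) (nat_lit 241284135) (nat_lit 0) (nat_lit 241284146) (nat_lit 76) (nat_lit 241284146) (nat_lit 75) (nat_lit 3) (nat_lit 74) (nat_lit 1) (nat_lit 75) (nat_lit 1) (nat_lit 369) (nat_lit 337) (nat_lit 194)))) (XT.nd (nat_lit 78) (nat_lit 0) (nat_lit 0) (XT.lf (nat_lit 152) (nat_lit 692380578) (nat_lit 0) (nat_lit 2) (nat_lit 76) (nat_lit 2) (nat_lit 74) (nat_lit 1) (nat_lit 72) (nat_lit 1) (nat_lit 73) (nat_lit 1) (nat_lit 370) (nat_lit 337) (nat_lit 193)) (XT.nd (nat_lit 35412) (nat_lit 0) (nat_lit 10868) (XT.lf (nat_lit 0) (nat_lit 219803357) (nat_lit 0) (nat_lit 219803364) (nat_lit 152) (nat_lit 219803357) (nat_lit 72) (nat_lit 3) (nat_lit 72)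 (nat_lit 1) (nat_lit 74) (nat_lit 1) (nat_lit 371) (nat_lit 337) (nat_lit 192)) (XT.lf (nat_lit 380) (nat_lit 142115802415) (nat_lit 0) (nat_lit 125875463878) (nat_lit 380) (nat_lit 142115802415) (nat_lit 220) (nat_lit 1) (nat_lit 215) (nat_lit 0) (nat_lit 220) (nat_lit 0) (nat_lit 224) (nat_lit 338) (nat_lit 338)))))) (XT.nd (nat_lit 390) (nat_lit 532) (nat_lit 0) (XT.nd (nat_lit 156) (nat_lit 152) (nat_lit 0) (XT.nd (nat_lit 78) (nat_lit 0) (nat_lit 76) (XT.lf (nat_lit 380) (nat_lit 525667910080) (nat_lit 76) (nat_lit 120153851883) (nat_lit 0) (nat_lit 120153851883) (nat_lit 220) (nat_lit 1) (nat_lit 216) (nat_lit 1) (nat_lit 215) (nat_lit 0) (nat_lit 225) (nat_lit 338) (nat_lit 337)) (XT.lf (nat_lit 380) (nat_lit 231711400427) (nat_lit 0) (nat_lit 252123861378) (nat_lit 304) (nat_lit 231711400427) (nat_lit 221) (nat_lit 1) (nat_lit 216) (nat_lit 1) (nat_lit 220) (nat_lit 1) (nat_lit 226) (nat_lit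 338) (nat_lit 336))) (XT.nd (nat_lit 78) (nat_lit 228) (nat_lit 0) (XT.lf (nat_lit 380) (nat_lit 397836443402) (nat_lit 76) (nat_lit 136182075527) (nat_lit 0) (nat_lit 136182075527) (nat_lit 221) (nat_lit 1) (nat_lit 217) (nat_lit 1) (nat_lit 216) (nat_lit 1) (nat_lit 227) (nat_lit 338) (nat_lit 335)) (XT.nd (nat_lit 78) (nat_lit 304) (nat_lit 0) (XT.lf (nat_lit 76) (nat_lit 160930117841) (nat_lit 0) (nat_lit 306437961681) (nat_lit 304) (nat_lit 160930117841) (nat_lit 218) (nat_lit 1) (nat_lit 217) (nat_lit 1) (nat_lit 221) (nat_lit 1) (nat_lit 228) (nat_lit 338) (nat_lit 334)) (XT.lf (nat_lit 380) (nat_lit 241864969843) (nat_lit 0) (nat_lit 174089767312) (nat_lit 304) (nat_lit 174089767312) (nat_lit 218) (nat_lit 1) (nat_lit 213) (nat_lit 1) (nat_lit 217) (nat_lit 1) (nat_lit 229) (nat_lit 338) (nat_lit 333))))) (XT.nd (nat_lit 234) (nat_lit 152) (nat_lit 0) (XT.nd (nat_lit 78) (nat_lit 380) (nat_lit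 0) (XT.lf (nat_lit 76) (nat_lit 80393244798) (nat_lit 0) (nat_lit 394491667198) (nat_lit 380) (nat_lit 80393244798) (nat_lit 214) (nat_lit 1) (nat_lit 213) (nat_lit 1) (nat_lit 218) (nat_lit 1) (nat_lit 230) (nat_lit 338) (nat_lit 332)) (XT.nd (nat_lit 78) (nat_lit 228) (nat_lit 0) (XT.lf (nat_lit 228) (nat_lit 72352023877) (nat_lit 0) (nat_lit 225177821421) (nat_lit 152) (nat_lit 225177821421) (nat_lit 214) (nat_lit 1) (nat_lit 211) (nat_lit 1) (nat_lit 213) (nat_lit 1) (nat_lit 231) (nat_lit 338) (nat_lit 331)) (XT.lf (nat_lit 228) (nat_lit 486204690072) (nat_lit 0) (nat_lit 3814767409) (nat_lit 152) (nat_lit 3814767409) (nat_lit 211) (nat_lit 1) (nat_lit 208) (nat_lit 1) (nat_lit 210) (nat_lit 1) (nat_lit 232) (nat_lit 338) (nat_lit 330)))) (XT.nd (nat_lit 78) (nat_lit 152) (nat_lit 0) (XT.lf (nat_lit 76) (nat_lit 186802949635) (nat_lit 0) (nat_lit 91710304818) (nat_lit 228) (nat_lit 186802949635)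 (nat_lit 209) (nat_lit 1) (nat_lit 208) (nat_lit 1) (nat_lit 211) (nat_lit 1) (nat_lit 233) (nat_lit 338) (nat_lit 329)) (XT.nd (nat_lit 78) (nat_lit 0) (nat_lit 0) (XT.lf (nat_lit 228) (nat_lit 271525257050) (nat_lit 0) (nat_lit 84224465546) (nat_lit 152) (nat_lit 84224465546) (nat_lit 209) (nat_lit 1) (nat_lit 206) (nat_lit 1) (nat_lit 208) (nat_lit 1) (nat_lit 234) (nat_lit 338) (nat_lit 328)) (XT.lf (nat_lit 76) (nat_lit 84914853530) (nat_lit 0) (nat_lit 246421453199) (nat_lit 228) (nat_lit 84914853530) (nat_lit 207) (nat_lit 1) (nat_lit 206) (nat_lit 1) (nat_lit 209) (nat_lit 1) (nat_lit 235) (nat_lit 338) (nat_lit 327))))))) (XT.nd (nat_lit 858) (nat_lit 912) (nat_lit 0) (XT.nd (nat_lit 390) (nat_lit 456) (nat_lit 0) (XT.nd (nat_lit 156) (nat_lit 76) (nat_lit 0) (XT.nd (nat_lit 78) (nat_lit 228) (nat_lit 0) (XT.lf (nat_lit 152) (nat_lit 70197818882) (nat_lit 0) (nat_lit 161981812360) (nat_lit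 76) (nat_lit 161981812360) (nat_lit 207) (nat_lit 1) (nat_lit 205) (nat_lit 1) (nat_lit 206) (nat_lit 1) (nat_lit 236) (nat_lit 338) (nat_lit 326)) (XT.lf (nat_lit 228) (nat_lit 355382623130) (nat_lit 0) (nat_lit 9441103111) (nat_lit 152) (nat_lit 9441103111) (nat_lit 205) (nat_lit 1) (nat_lit 202) (nat_lit 1) (nat_lit 204) (nat_lit 1) (nat_lit 237) (nat_lit 338) (nat_lit 325))) (XT.nd (nat_lit 78) (nat_lit 76) (nat_lit 0) (XT.lf (nat_lit 76) (nat_lit 124376274716) (nat_lit 0) (nat_lit 105624390482) (nat_lit 228) (nat_lit 124376274716) (nat_lit 203) (nat_lit 1) (nat_lit 202) (nat_lit 1) (nat_lit 205) (nat_lit 1) (nat_lit 238) (nat_lit 338) (nat_lit 324)) (XT.nd (nat_lit 78) (nat_lit 0) (nat_lit 0) (XT.lf (nat_lit 152) (nat_lit 151229637558) (nat_lit 0) (nat_lit 92613626944) (nat_lit 76) (nat_lit 92613626944) (nat_lit 203) (nat_lit 1) (nat_lit 201) (nat_lit 1) (nat_lit 202) (nat_lit 1) (nat_lit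 239) (nat_lit 338) (nat_lit 323)) (XT.lf (nat_lit 0) (nat_lit 29612847090) (nat_lit 0) (nat_lit 260709231904) (nat_lit 152) (nat_lit 29612847090) (nat_lit 201) (nat_lit 3) (nat_lit 201) (nat_lit 1) (nat_lit 203) (nat_lit 1) (nat_lit 240) (nat_lit 338) (nat_lit 322))))) (XT.nd (nat_lit 234) (nat_lit 228) (nat_lit 0) (XT.nd (nat_lit 78) (nat_lit 76) (nat_lit 0) (XT.lf (nat_lit 76) (nat_lit 137048131448) (nat_lit 0) (nat_lit 29723370534) (nat_lit 152) (nat_lit 137048131448) (nat_lit 200) (nat_lit 1) (nat_lit 199) (nat_lit 1) (nat_lit 201) (nat_lit 1) (nat_lit 241) (nat_lit 338) (nat_lit 321)) (XT.nd (nat_lit 78) (nat_lit 0) (nat_lit 0) (XT.lf (nat_lit 152) (nat_lit 183069346346) (nat_lit 0) (nat_lit 52952141791) (nat_lit 76) (nat_lit 52952141791) (nat_lit 200) (nat_lit 1) (nat_lit 198) (nat_lit 1) (nat_lit 199) (nat_lit 1) (nat_lit 242) (nat_lit 338) (nat_lit 320)) (XT.lf (nat_lit 0) (nat_lit 47598958972)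 (nat_lit 0) (nat_lit 179729067034) (nat_lit 152) (nat_lit 47598958972) (nat_lit 198) (nat_lit 3) (nat_lit 198) (nat_lit 1) (nat_lit 200) (nat_lit 1) (nat_lit 243) (nat_lit 338) (nat_lit 319)))) (XT.nd (nat_lit 78) (nat_lit 152) (nat_lit 0) (XT.lf (nat_lit 76) (nat_lit 10618477158) (nat_lit 0) (nat_lit 125514223299) (nat_lit 76) (nat_lit 125514223299) (nat_lit 198) (nat_lit 3) (nat_lit 197) (nat_lit 1) (nat_lit 198) (nat_lit 1) (nat_lit 244) (nat_lit 338) (nat_lit 318)) (XT.nd (nat_lit 78) (nat_lit 0) (nat_lit 0) (XT.lf (nat_lit 152) (nat_lit 188673371413) (nat_lit 0) (nat_lit 30275558930) (nat_lit 76) (nat_lit 30275558930) (nat_lit 197) (nat_lit 1) (nat_lit 195) (nat_lit 1) (nat_lit 196) (nat_lit 1) (nat_lit 245) (nat_lit 338) (nat_lit 317)) (XT.lf (nat_lit 0) (nat_lit 53882439746) (nat_lit 0) (nat_lit 129428257871) (nat_lit 152) (nat_lit 53882439746) (nat_lit 195) (nat_lit 3) (nat_lit 195) (nat_lit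 1) (nat_lit 197) (nat_lit 1) (nat_lit 246) (nat_lit 338) (nat_lit 316)))))) (XT.nd (nat_lit 468) (nat_lit 456) (nat_lit 0) (XT.nd (nat_lit 234) (nat_lit 228) (nat_lit 0) (XT.nd (nat_lit 78) (nat_lit 152) (nat_lit 0) (XT.lf (nat_lit 76) (nat_lit 31526566497) (nat_lit 0) (nat_lit 97218582258) (nat_lit 76) (nat_lit 97218582258) (nat_lit 195) (nat_lit 3) (nat_lit 194) (nat_lit 1) (nat_lit 195) (nat_lit 1) (nat_lit 247) (nat_lit 338) (nat_lit 315)) (XT.nd (nat_lit 78) (nat_lit 0) (nat_lit 0) (XT.lf (nat_lit 152) (nat_lit 180920593742) (nat_lit 0) (nat_lit 17310149080) (nat_lit 76) (nat_lit 17310149080) (nat_lit 194) (nat_lit 1) (nat_lit 192) (nat_lit 1) (nat_lit 193) (nat_lit 1) (nat_lit 248) (nat_lit 338) (nat_lit 314)) (XT.lf (nat_lit 0) (nat_lit 53996660211) (nat_lit 0) (nat_lit 97190226915) (nat_lit 152) (nat_lit 53996660211) (nat_lit 192) (nat_lit 3) (nat_lit 192) (nat_lit 1) (nat_lit 194) (nat_lit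 1) (nat_lit 249) (nat_lit 338) (nat_lit 313)))) (XT.nd (nat_lit 78) (nat_lit 152) (nat_lit 0) (XT.lf (nat_lit 76) (nat_lit 40160562559) (nat_lit 0) (nat_lit 77720185780) (nat_lit 76) (nat_lit 77720185780) (nat_lit 192) (nat_lit 3) (nat_lit 191) (nat_lit 1) (nat_lit 192) (nat_lit 1) (nat_lit 250) (nat_lit 338) (nat_lit 312)) (XT.nd (nat_lit 78) (nat_lit 0) (nat_lit 0) (XT.lf (nat_lit 152) (nat_lit 166960181257) (nat_lit 0) (nat_lit 9897133918) (nat_lit 76) (nat_lit 9897133918) (nat_lit 191) (nat_lit 1) (nat_lit 189) (nat_lit 1) (nat_lit 190) (nat_lit 1) (nat_lit 251) (nat_lit 338) (nat_lit 311)) (XT.lf (nat_lit 0) (nat_lit 51037287819) (nat_lit 0) (nat_lit 75733349771) (nat_lit 152) (nat_lit 51037287819) (nat_lit 189) (nat_lit 3) (nat_lit 189) (nat_lit 1) (nat_lit 191) (nat_lit 1) (nat_lit 252) (nat_lit 338) (nat_lit 310))))) (XT.nd (nat_lit 234) (nat_lit 228) (nat_lit 0) (XT.nd (nat_lit 78) (nat_lit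 152) (nat_lit 0) (XT.lf (nat_lit 76) (nat_lit 42209884894) (nat_lit 0) (nat_lit 63684721374) (nat_lit 76) (nat_lit 63684721374) (nat_lit 189) (nat_lit 3) (nat_lit 188) (nat_lit 1) (nat_lit 189) (nat_lit 1) (nat_lit 253) (nat_lit 338) (nat_lit 309)) (XT.nd (nat_lit 78) (nat_lit 0) (nat_lit 0) (XT.lf (nat_lit 152) (nat_lit 150693281685) (nat_lit 0) (nat_lit 5658718439) (nat_lit 76) (nat_lit 5658718439) (nat_lit 188) (nat_lit 1) (nat_lit 186) (nat_lit 1) (nat_lit 187) (nat_lit 1) (nat_lit 254) (nat_lit 338) (nat_lit 308)) (XT.lf (nat_lit 0) (nat_lit 46715101994) (nat_lit 0) (nat_lit 60835155568) (nat_lit 152) (nat_lit 46715101994) (nat_lit 186) (nat_lit 3) (nat_lit 186) (nat_lit 1) (nat_lit 188) (nat_lit 1) (nat_lit 255) (nat_lit 338) (nat_lit 307)))) (XT.nd (nat_lit 78) (nat_lit 152) (nat_lit 0) (XT.lf (nat_lit 76) (nat_lit 40870989037) (nat_lit 0) (nat_lit 53149296493) (nat_lit 76) (nat_lit 53149296493)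 (nat_lit 186) (nat_lit 3) (nat_lit 185) (nat_lit 1) (nat_lit 186) (nat_lit 1) (nat_lit 256) (nat_lit 338) (nat_lit 306)) (XT.nd (nat_lit 78) (nat_lit 0) (nat_lit 0) (XT.lf (nat_lit 152) (nat_lit 134188291297) (nat_lit 0) (nat_lit 3235390633) (nat_lit 76) (nat_lit 3235390633) (nat_lit 185) (nat_lit 1) (nat_lit 183) (nat_lit 1) (nat_lit 184) (nat_lit 1) (nat_lit 257) (nat_lit 338) (nat_lit 305)) (XT.lf (nat_lit 0) (nat_lit 41956786867) (nat_lit 0) (nat_lit 50029973326) (nat_lit 152) (nat_lit 41956786867) (nat_lit 183) (nat_lit 3) (nat_lit 183) (nat_lit 1) (nat_lit 185) (nat_lit 1) (nat_lit 258) (nat_lit 338) (nat_lit 304))))))))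
noncomputable def ec116 : XT := (XT.nd (nat_lit 1716) (nat_lit 1748) (nat_lit 0) (XT.nd (nat_lit 858) (nat_lit 760) (nat_lit 0) (XT.nd (nat_lit 390) (nat_lit 456) (nat_lit 0) (XT.nd (nat_lit 156) (nat_lit 228) (nat_lit 0) (XT.nd (nat_lit 78) (nat_lit 152) (nat_lit 0) (XT.lf (nat_lit 76) (nat_lit 37922338331) (nat_lit 0) (nat_lit 44942500469) (nat_lit 76) (nat_lit 44942500469) (nat_lit 183) (nat_lit 3) (nat_lit 182) (nat_lit 1) (nat_lit 183) (nat_lit 1) (nat_lit 259) (nat_lit 338) (nat_lit 303)) (XT.lf (nat_lit 152) (nat_lit 118486867944) (nat_lit 0) (nat_lit 1849845095) (nat_lit 76) (nat_lit 1849845095) (nat_lit 182) (nat_lit 1) (nat_lit 180) (nat_lit 1) (nat_lit 181) (nat_lit 1) (nat_lit 260) (nat_lit 338) (nat_lit 302))) (XT.nd (nat_lit 78) (nat_lit 228) (nat_lit 0) (XT.lf (nat_lit 0) (nat_lit 37247429661) (nat_lit 0) (nat_lit 41863300221) (nat_lit 152) (nat_lit 37247429661) (nat_lit 180) (nat_lit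 3) (nat_lit 180) (nat_lit 1) (nat_lit 182) (nat_lit 1) (nat_lit 261) (nat_lit 338) (nat_lit 301)) (XT.nd (nat_lit 78) (nat_lit 152) (nat_lit 0) (XT.lf (nat_lit 76) (nat_lit 34338061498) (nat_lit 0) (nat_lit 38351861985) (nat_lit 76) (nat_lit 38351861985) (nat_lit 180) (nat_lit 3) (nat_lit 179) (nat_lit 1) (nat_lit 180) (nat_lit 1) (nat_lit 262) (nat_lit 338) (nat_lit 300)) (XT.lf (nat_lit 152) (nat_lit 104062013806) (nat_lit 0) (nat_lit 1057654937) (nat_lit 76) (nat_lit 1057654937) (nat_lit 179) (nat_lit 1) (nat_lit 177) (nat_lit 1) (nat_lit 178) (nat_lit 1) (nat_lit 263) (nat_lit 338) (nat_lit 299))))) (XT.nd (nat_lit 234) (nat_lit 228) (nat_lit 0) (XT.nd (nat_lit 78) (nat_lit 228) (nat_lit 0) (XT.lf (nat_lit 0) (nat_lit 32825469750) (nat_lit 0) (nat_lit 35464608724) (nat_lit 152) (nat_lit 32825469750) (nat_lit 177) (nat_lit 3) (nat_lit 177) (nat_lit 1) (nat_lit 179) (nat_lit 1) (nat_lit 264)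 (nat_lit 338) (nat_lit 298)) (XT.nd (nat_lit 78) (nat_lit 152) (nat_lit 0) (XT.lf (nat_lit 76) (nat_lit 30637977654) (nat_lit 0) (nat_lit 32932881110) (nat_lit 76) (nat_lit 32932881110) (nat_lit 177) (nat_lit 3) (nat_lit 176) (nat_lit 1) (nat_lit 177) (nat_lit 1) (nat_lit 265) (nat_lit 338) (nat_lit 297)) (XT.lf (nat_lit 152) (nat_lit 91077587614) (nat_lit 0) (nat_lit 604717643) (nat_lit 76) (nat_lit 604717643) (nat_lit 176) (nat_lit 1) (nat_lit 174) (nat_lit 1) (nat_lit 175) (nat_lit 1) (nat_lit 266) (nat_lit 338) (nat_lit 296)))) (XT.nd (nat_lit 78) (nat_lit 228) (nat_lit 0) (XT.lf (nat_lit 0) (nat_lit 28793400130) (nat_lit 0) (nat_lit 30302336404) (nat_lit 152) (nat_lit 28793400130) (nat_lit 174) (nat_lit 3) (nat_lit 174) (nat_lit 1) (nat_lit 176) (nat_lit 1) (nat_lit 267) (nat_lit 338) (nat_lit 295)) (XT.nd (nat_lit 78) (nat_lit 152) (nat_lit 0) (XT.lf (nat_lit 76) (nat_lit 27086997549) (nat_lit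 0) (nat_lit 28399116048) (nat_lit 76) (nat_lit 28399116048) (nat_lit 174) (nat_lit 3) (nat_lit 173) (nat_lit 1) (nat_lit 174) (nat_lit 1) (nat_lit 268) (nat_lit 338) (nat_lit 294)) (XT.lf (nat_lit 152) (nat_lit 79534596299) (nat_lit 0) (nat_lit 345749275) (nat_lit 76) (nat_lit 345749275) (nat_lit 173) (nat_lit 1) (nat_lit 171) (nat_lit 1) (nat_lit 172) (nat_lit 1) (nat_lit 269) (nat_lit 338) (nat_lit 293)))))) (XT.nd (nat_lit 390) (nat_lit 456) (nat_lit 0) (XT.nd (nat_lit 156) (nat_lit 228) (nat_lit 0) (XT.nd (nat_lit 78) (nat_lit 76) (nat_lit 0) (XT.lf (nat_lit 0) (nat_lit 25180399335) (nat_lit 0) (nat_lit 26043138547) (nat_lit 152) (nat_lit 25180399335) (nat_lit 171) (nat_lit 3) (nat_lit 171) (nat_lit 1) (nat_lit 173) (nat_lit 1) (nat_lit 270) (nat_lit 338) (nat_lit 292)) (XT.lf (nat_lit 76) (nat_lit 23808499968) (nat_lit 0) (nat_lit 24558707978) (nat_lit 76) (nat_lit 24558707978) (nat_lit 171)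 (nat_lit 3) (nat_lit 170) (nat_lit 1) (nat_lit 171) (nat_lit 1) (nat_lit 271) (nat_lit 338) (nat_lit 291))) (XT.nd (nat_lit 78) (nat_lit 76) (nat_lit 0) (XT.lf (nat_lit 152) (nat_lit 69353024424) (nat_lit 0) (nat_lit 197683270) (nat_lit 76) (nat_lit 197683270) (nat_lit 170) (nat_lit 1) (nat_lit 168) (nat_lit 1) (nat_lit 169) (nat_lit 1) (nat_lit 272) (nat_lit 338) (nat_lit 290)) (XT.nd (nat_lit 78) (nat_lit 76) (nat_lit 0) (XT.lf (nat_lit 0) (nat_lit 21977565792) (nat_lit 0) (nat_lit 22470839736) (nat_lit 152) (nat_lit 21977565792) (nat_lit 168) (nat_lit 3) (nat_lit 168) (nat_lit 1) (nat_lit 170) (nat_lit 1) (nat_lit 273) (nat_lit 338) (nat_lit 289)) (XT.lf (nat_lit 76) (nat_lit 20848605569) (nat_lit 0) (nat_lit 21277539434) (nat_lit 76) (nat_lit 21277539434) (nat_lit 168) (nat_lit 3) (nat_lit 167) (nat_lit 1) (nat_lit 168) (nat_lit 1) (nat_lit 274) (nat_lit 338) (nat_lit 288))))) (XT.nd (nat_lit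 234) (nat_lit 228) (nat_lit 0) (XT.nd (nat_lit 78) (nat_lit 76) (nat_lit 0) (XT.lf (nat_lit 152) (nat_lit 60417043634) (nat_lit 0) (nat_lit 113026051) (nat_lit 76) (nat_lit 113026051) (nat_lit 167) (nat_lit 1) (nat_lit 165) (nat_lit 1) (nat_lit 166) (nat_lit 1) (nat_lit 275) (nat_lit 338) (nat_lit 287)) (XT.nd (nat_lit 78) (nat_lit 76) (nat_lit 0) (XT.lf (nat_lit 0) (nat_lit 19157562612) (nat_lit 0) (nat_lit 19439593591) (nat_lit 152) (nat_lit 19157562612) (nat_lit 165) (nat_lit 3) (nat_lit 165) (nat_lit 1) (nat_lit 167) (nat_lit 1) (nat_lit 276) (nat_lit 338) (nat_lit 286)) (XT.lf (nat_lit 76) (nat_lit 18212447848) (nat_lit 0) (nat_lit 18457692178) (nat_lit 76) (nat_lit 18457692178) (nat_lit 165) (nat_lit 3) (nat_lit 164) (nat_lit 1) (nat_lit 165) (nat_lit 1) (nat_lit 277) (nat_lit 338) (nat_lit 285)))) (XT.nd (nat_lit 78) (nat_lit 76) (nat_lit 0) (XT.lf (nat_lit 152) (nat_lit 52599490203) (nat_lit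 0) (nat_lit 64623011) (nat_lit 76) (nat_lit 64623011) (nat_lit 164) (nat_lit 1) (nat_lit 162) (nat_lit 1) (nat_lit 163) (nat_lit 1) (nat_lit 278) (nat_lit 338) (nat_lit 284)) (XT.nd (nat_lit 78) (nat_lit 76) (nat_lit 0) (XT.lf (nat_lit 0) (nat_lit 16685414289) (nat_lit 0) (nat_lit 16846666416) (nat_lit 152) (nat_lit 16685414289) (nat_lit 162) (nat_lit 3) (nat_lit 162) (nat_lit 1) (nat_lit 164) (nat_lit 1) (nat_lit 279) (nat_lit 338) (nat_lit 283)) (XT.lf (nat_lit 76) (nat_lit 15884495687) (nat_lit 0) (nat_lit 16024714928) (nat_lit 76) (nat_lit 16024714928) (nat_lit 162) (nat_lit 3) (nat_lit 161) (nat_lit 1) (nat_lit 162) (nat_lit 1) (nat_lit 280) (nat_lit 338) (nat_lit 282))))))) (XT.nd (nat_lit 858) (nat_lit 912) (nat_lit 0) (XT.nd (nat_lit 390) (nat_lit 456) (nat_lit 0) (XT.nd (nat_lit 156) (nat_lit 228) (nat_lit 0) (XT.nd (nat_lit 78) (nat_lit 0) (nat_lit 0) (XT.lf (nat_lit 152) (nat_lit 45774667862)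 (nat_lit 0) (nat_lit 36948416) (nat_lit 76) (nat_lit 36948416) (nat_lit 161) (nat_lit 1) (nat_lit 159) (nat_lit 1) (nat_lit 160) (nat_lit 1) (nat_lit 281) (nat_lit 338) (nat_lit 281)) (XT.lf (nat_lit 0) (nat_lit 14524301241) (nat_lit 0) (nat_lit 14616497668) (nat_lit 152) (nat_lit 14524301241) (nat_lit 159) (nat_lit 3) (nat_lit 159) (nat_lit 1) (nat_lit 161) (nat_lit 1) (nat_lit 282) (nat_lit 338) (nat_lit 280))) (XT.nd (nat_lit 78) (nat_lit 152) (nat_lit 0) (XT.lf (nat_lit 76) (nat_lit 13839811546) (nat_lit 0) (nat_lit 13919982352) (nat_lit 76) (nat_lit 13919982352) (nat_lit 159) (nat_lit 3) (nat_lit 158) (nat_lit 1) (nat_lit 159) (nat_lit 1) (nat_lit 283) (nat_lit 338) (nat_lit 279)) (XT.nd (nat_lit 78) (nat_lit 0) (nat_lit 0) (XT.lf (nat_lit 152) (nat_lit 39824631110) (nat_lit 0) (nat_lit 21125377) (nat_lit 76) (nat_lit 21125377) (nat_lit 158) (nat_lit 1) (nat_lit 156) (nat_lit 1) (nat_lit 157)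 (nat_lit 1) (nat_lit 284) (nat_lit 338) (nat_lit 278)) (XT.lf (nat_lit 0) (nat_lit 12638543737) (nat_lit 0) (nat_lit 12691257344) (nat_lit 152) (nat_lit 12638543737) (nat_lit 156) (nat_lit 3) (nat_lit 156) (nat_lit 1) (nat_lit 158) (nat_lit 1) (nat_lit 285) (nat_lit 338) (nat_lit 277))))) (XT.nd (nat_lit 234) (nat_lit 228) (nat_lit 0) (XT.nd (nat_lit 78) (nat_lit 152) (nat_lit 0) (XT.lf (nat_lit 76) (nat_lit 12050174198) (nat_lit 0) (nat_lit 12096012117) (nat_lit 76) (nat_lit 12096012117) (nat_lit 156) (nat_lit 3) (nat_lit 155) (nat_lit 1) (nat_lit 156) (nat_lit 1) (nat_lit 286) (nat_lit 338) (nat_lit 276)) (XT.nd (nat_lit 78) (nat_lit 0) (nat_lit 0) (XT.lf (nat_lit 152) (nat_lit 34641876173) (nat_lit 0) (nat_lit 12078502) (nat_lit 76) (nat_lit 12078502) (nat_lit 155) (nat_lit 1) (nat_lit 153) (nat_lit 1) (nat_lit 154) (nat_lit 1) (nat_lit 287) (nat_lit 338) (nat_lit 275)) (XT.lf (nat_lit 0) (nat_lit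 10995021760) (nat_lit 0) (nat_lit 11025160936) (nat_lit 152) (nat_lit 10995021760) (nat_lit 153) (nat_lit 3) (nat_lit 153) (nat_lit 1) (nat_lit 155) (nat_lit 1) (nat_lit 288) (nat_lit 338) (nat_lit 274)))) (XT.nd (nat_lit 78) (nat_lit 152) (nat_lit 0) (XT.lf (nat_lit 76) (nat_lit 10487306232) (nat_lit 0) (nat_lit 10513514211) (nat_lit 76) (nat_lit 10513514211) (nat_lit 153) (nat_lit 3) (nat_lit 152) (nat_lit 1) (nat_lit 153) (nat_lit 1) (nat_lit 289) (nat_lit 338) (nat_lit 273)) (XT.nd (nat_lit 78) (nat_lit 0) (nat_lit 0) (XT.lf (nat_lit 152) (nat_lit 30130095640) (nat_lit 0) (nat_lit 6905923) (nat_lit 76) (nat_lit 6905923) (nat_lit 152) (nat_lit 1) (nat_lit 150) (nat_lit 1) (nat_lit 151) (nat_lit 1) (nat_lit 290) (nat_lit 338) (nat_lit 272)) (XT.lf (nat_lit 0) (nat_lit 9563737950) (nat_lit 0) (nat_lit 9580970121) (nat_lit 152) (nat_lit 9563737950) (nat_lit 150) (nat_lit 3) (nat_lit 150) (nat_lit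 1) (nat_lit 152) (nat_lit 1) (nat_lit 291) (nat_lit 338) (nat_lit 271)))))) (XT.nd (nat_lit 390) (nat_lit 456) (nat_lit 0) (XT.nd (nat_lit 156) (nat_lit 228) (nat_lit 0) (XT.nd (nat_lit 78) (nat_lit 152) (nat_lit 0) (XT.lf (nat_lit 76) (nat_lit 9124481832) (nat_lit 0) (nat_lit 9139466329) (nat_lit 76) (nat_lit 9139466329) (nat_lit 150) (nat_lit 3) (nat_lit 149) (nat_lit 1) (nat_lit 150) (nat_lit 1) (nat_lit 292) (nat_lit 338) (nat_lit 270)) (XT.lf (nat_lit 152) (nat_lit 26203928238) (nat_lit 0) (nat_lit 3948484) (nat_lit 76) (nat_lit 3948484) (nat_lit 149) (nat_lit 1) (nat_lit 147) (nat_lit 1) (nat_lit 148) (nat_lit 1) (nat_lit 293) (nat_lit 338) (nat_lit 269))) (XT.nd (nat_lit 78) (nat_lit 228) (nat_lit 0) (XT.lf (nat_lit 0) (nat_lit 8317923059) (nat_lit 0) (nat_lit 8327775609) (nat_lit 152) (nat_lit 8317923059) (nat_lit 147) (nat_lit 3) (nat_lit 147) (nat_lit 1) (nat_lit 149) (nat_lit 1) (nat_lit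 294) (nat_lit 338) (nat_lit 268)) (XT.nd (nat_lit 78) (nat_lit 152) (nat_lit 0) (XT.lf (nat_lit 76) (nat_lit 7937239455) (nat_lit 0) (nat_lit 7945806889) (nat_lit 76) (nat_lit 7945806889) (nat_lit 147) (nat_lit 3) (nat_lit 146) (nat_lit 1) (nat_lit 147) (nat_lit 1) (nat_lit 295) (nat_lit 338) (nat_lit 267)) (XT.lf (nat_lit 152) (nat_lit 22788222987) (nat_lit 0) (nat_lit 2257558) (nat_lit 76) (nat_lit 2257558) (nat_lit 146) (nat_lit 1) (nat_lit 144) (nat_lit 1) (nat_lit 145) (nat_lit 1) (nat_lit 296) (nat_lit 338) (nat_lit 266))))) (XT.nd (nat_lit 234) (nat_lit 228) (nat_lit 0) (XT.nd (nat_lit 78) (nat_lit 228) (nat_lit 0) (XT.lf (nat_lit 0) (nat_lit 7233908067) (nat_lit 0) (nat_lit 7239541295) (nat_lit 152) (nat_lit 7233908067) (nat_lit 144) (nat_lit 3) (nat_lit 144) (nat_lit 1) (nat_lit 146) (nat_lit 1) (nat_lit 297) (nat_lit 338) (nat_lit 265)) (XT.nd (nat_lit 78) (nat_lit 152) (nat_lit 0) (XT.lf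 (nat_lit 76) (nat_lit 6903609683) (nat_lit 0) (nat_lit 6908508141) (nat_lit 76) (nat_lit 6908508141) (nat_lit 144) (nat_lit 3) (nat_lit 143) (nat_lit 1) (nat_lit 144) (nat_lit 1) (nat_lit 298) (nat_lit 338) (nat_lit 264)) (XT.lf (nat_lit 152) (nat_lit 19817103037) (nat_lit 0) (nat_lit 1290766) (nat_lit 76) (nat_lit 1290766) (nat_lit 143) (nat_lit 1) (nat_lit 141) (nat_lit 1) (nat_lit 142) (nat_lit 1) (nat_lit 299) (nat_lit 338) (nat_lit 263)))) (XT.nd (nat_lit 78) (nat_lit 228) (nat_lit 0) (XT.lf (nat_lit 0) (nat_lit 6290887426) (nat_lit 0) (nat_lit 6294108242) (nat_lit 152) (nat_lit 6290887426) (nat_lit 141) (nat_lit 3) (nat_lit 141) (nat_lit 1) (nat_lit 143) (nat_lit 1) (nat_lit 300) (nat_lit 338) (nat_lit 262)) (XT.nd (nat_lit 78) (nat_lit 152) (nat_lit 0) (XT.lf (nat_lit 76) (nat_lit 6004089298) (nat_lit 0) (nat_lit 6006890007) (nat_lit 76) (nat_lit 6006890007) (nat_lit 141) (nat_lit 3) (nat_lit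 140) (nat_lit 1) (nat_lit 141) (nat_lit 1) (nat_lit 301) (nat_lit 338) (nat_lit 261)) (XT.lf (nat_lit 152) (nat_lit 17232982182) (nat_lit 0) (nat_lit 737999) (nat_lit 76) (nat_lit 737999) (nat_lit 140) (nat_lit 1) (nat_lit 138) (nat_lit 1) (nat_lit 139) (nat_lit 1) (nat_lit 302) (nat_lit 338) (nat_lit 260))))))))
noncomputable def ec117 : XT := (XT.nd (nat_lit 1716) (nat_lit 1824) (nat_lit 0) (XT.nd (nat_lit 858) (nat_lit 836) (nat_lit 0) (XT.nd (nat_lit 390) (nat_lit 456) (nat_lit 0) (XT.nd (nat_lit 156) (nat_lit 228) (nat_lit 0) (XT.nd (nat_lit 78) (nat_lit 76) (nat_lit 0) (XT.lf (nat_lit 0) (nat_lit 5470641399) (nat_lit 0) (nat_lit 5472482911) (nat_lit 152) (nat_lit 5470641399) (nat_lit 138) (nat_lit 3) (nat_lit 138) (nat_lit 1) (nat_lit 140) (nat_lit 1) (nat_lit 303) (nat_lit 338) (nat_lit 259)) (XT.lf (nat_lit 76) (nat_lit 5221490634) (nat_lit 0) (nat_lit 5223091949) (nat_lit 76) (nat_lit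 5223091949) (nat_lit 138) (nat_lit 3) (nat_lit 137) (nat_lit 1) (nat_lit 138) (nat_lit 1) (nat_lit 304) (nat_lit 338) (nat_lit 258))) (XT.nd (nat_lit 78) (nat_lit 76) (nat_lit 0) (XT.lf (nat_lit 152) (nat_lit 14985612800) (nat_lit 0) (nat_lit 421953) (nat_lit 76) (nat_lit 421953) (nat_lit 137) (nat_lit 1) (nat_lit 135) (nat_lit 1) (nat_lit 136) (nat_lit 1) (nat_lit 305) (nat_lit 338) (nat_lit 257)) (XT.nd (nat_lit 78) (nat_lit 76) (nat_lit 0) (XT.lf (nat_lit 0) (nat_lit 4757253580) (nat_lit 0) (nat_lit 4758306471) (nat_lit 152) (nat_lit 4757253580) (nat_lit 135) (nat_lit 3) (nat_lit 135) (nat_lit 1) (nat_lit 137) (nat_lit 1) (nat_lit 306) (nat_lit 338) (nat_lit 256)) (XT.lf (nat_lit 76) (nat_lit 4540737340) (nat_lit 0) (nat_lit 4541652897) (nat_lit 76) (nat_lit 4541652897) (nat_lit 135) (nat_lit 3) (nat_lit 134) (nat_lit 1) (nat_lit 135) (nat_lit 1) (nat_lit 307) (nat_lit 338) (nat_lit 255)))))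 (XT.nd (nat_lit 234) (nat_lit 228) (nat_lit 0) (XT.nd (nat_lit 78) (nat_lit 76) (nat_lit 0) (XT.lf (nat_lit 152) (nat_lit 13031202587) (nat_lit 0) (nat_lit 241253) (nat_lit 76) (nat_lit 241253) (nat_lit 134) (nat_lit 1) (nat_lit 132) (nat_lit 1) (nat_lit 133) (nat_lit 1) (nat_lit 308) (nat_lit 338) (nat_lit 254)) (XT.nd (nat_lit 78) (nat_lit 76) (nat_lit 0) (XT.lf (nat_lit 0) (nat_lit 4136841788) (nat_lit 0) (nat_lit 4137443781) (nat_lit 152) (nat_lit 4136841788) (nat_lit 132) (nat_lit 3) (nat_lit 132) (nat_lit 1) (nat_lit 134) (nat_lit 1) (nat_lit 309) (nat_lit 338) (nat_lit 253)) (XT.lf (nat_lit 76) (nat_lit 3948644897) (nat_lit 0) (nat_lit 3949168369) (nat_lit 76) (nat_lit 3949168369) (nat_lit 132) (nat_lit 3) (nat_lit 131) (nat_lit 1) (nat_lit 132) (nat_lit 1) (nat_lit 310) (nat_lit 338) (nat_lit 252)))) (XT.nd (nat_lit 78) (nat_lit 76) (nat_lit 0) (XT.lf (nat_lit 152) (nat_lit 11331614835)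 (nat_lit 0) (nat_lit 137937) (nat_lit 76) (nat_lit 137937) (nat_lit 131) (nat_lit 1) (nat_lit 129) (nat_lit 1) (nat_lit 130) (nat_lit 1) (nat_lit 311) (nat_lit 338) (nat_lit 251)) (XT.nd (nat_lit 78) (nat_lit 76) (nat_lit 0) (XT.lf (nat_lit 0) (nat_lit 3597310643) (nat_lit 0) (nat_lit 3597654835) (nat_lit 152) (nat_lit 3597310643) (nat_lit 129) (nat_lit 3) (nat_lit 129) (nat_lit 1) (nat_lit 131) (nat_lit 1) (nat_lit 312) (nat_lit 338) (nat_lit 250)) (XT.lf (nat_lit 76) (nat_lit 3433705827) (nat_lit 0) (nat_lit 3434005124) (nat_lit 76) (nat_lit 3434005124) (nat_lit 129) (nat_lit 3) (nat_lit 128) (nat_lit 1) (nat_lit 129) (nat_lit 1) (nat_lit 313) (nat_lit 338) (nat_lit 249)))))) (XT.nd (nat_lit 390) (nat_lit 456) (nat_lit 0) (XT.nd (nat_lit 156) (nat_lit 228) (nat_lit 0) (XT.nd (nat_lit 78) (nat_lit 0) (nat_lit 0) (XT.lf (nat_lit 152) (nat_lit 9853654918) (nat_lit 0) (nat_lit 78866) (nat_lit 76)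 (nat_lit 78866) (nat_lit 128) (nat_lit 1) (nat_lit 126) (nat_lit 1) (nat_lit 127) (nat_lit 1) (nat_lit 314) (nat_lit 338) (nat_lit 248)) (XT.lf (nat_lit 0) (nat_lit 3128128752) (nat_lit 0) (nat_lit 3128325545) (nat_lit 152) (nat_lit 3128128752) (nat_lit 126) (nat_lit 3) (nat_lit 126) (nat_lit 1) (nat_lit 128) (nat_lit 1) (nat_lit 315) (nat_lit 338) (nat_lit 247))) (XT.nd (nat_lit 78) (nat_lit 152) (nat_lit 0) (XT.lf (nat_lit 76) (nat_lit 2985889226) (nat_lit 0) (nat_lit 2986060350) (nat_lit 76) (nat_lit 2986060350) (nat_lit 126) (nat_lit 3) (nat_lit 125) (nat_lit 1) (nat_lit 126) (nat_lit 1) (nat_lit 316) (nat_lit 338) (nat_lit 246)) (XT.nd (nat_lit 78) (nat_lit 0) (nat_lit 0) (XT.lf (nat_lit 152) (nat_lit 8568439492) (nat_lit 0) (nat_lit 45091) (nat_lit 76) (nat_lit 45091) (nat_lit 125) (nat_lit 1) (nat_lit 123) (nat_lit 1) (nat_lit 124) (nat_lit 1) (nat_lit 317) (nat_lit 338) (nat_lit 245)) (XT.lf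 (nat_lit 0) (nat_lit 2720130564) (nat_lit 0) (nat_lit 2720243081) (nat_lit 152) (nat_lit 2720130564) (nat_lit 123) (nat_lit 3) (nat_lit 123) (nat_lit 1) (nat_lit 125) (nat_lit 1) (nat_lit 318) (nat_lit 338) (nat_lit 244))))) (XT.nd (nat_lit 234) (nat_lit 228) (nat_lit 0) (XT.nd (nat_lit 78) (nat_lit 152) (nat_lit 0) (XT.lf (nat_lit 76) (nat_lit 2596458617) (nat_lit 0) (nat_lit 2596556458) (nat_lit 76) (nat_lit 2596556458) (nat_lit 123) (nat_lit 3) (nat_lit 122) (nat_lit 1) (nat_lit 123) (nat_lit 1) (nat_lit 319) (nat_lit 338) (nat_lit 243)) (XT.nd (nat_lit 78) (nat_lit 0) (nat_lit 0) (XT.lf (nat_lit 152) (nat_lit 7450842056) (nat_lit 0) (nat_lit 25781) (nat_lit 76) (nat_lit 25781) (nat_lit 122) (nat_lit 1) (nat_lit 120) (nat_lit 1) (nat_lit 121) (nat_lit 1) (nat_lit 320) (nat_lit 338) (nat_lit 242)) (XT.lf (nat_lit 0) (nat_lit 2365341563) (nat_lit 0) (nat_lit 2365405895) (nat_lit 152) (nat_lit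 2365341563) (nat_lit 120) (nat_lit 3) (nat_lit 120) (nat_lit 1) (nat_lit 122) (nat_lit 1) (nat_lit 321) (nat_lit 338) (nat_lit 241)))) (XT.nd (nat_lit 78) (nat_lit 152) (nat_lit 0) (XT.lf (nat_lit 76) (nat_lit 2257809085) (nat_lit 0) (nat_lit 2257865026) (nat_lit 76) (nat_lit 2257865026) (nat_lit 120) (nat_lit 3) (nat_lit 119) (nat_lit 1) (nat_lit 120) (nat_lit 1) (nat_lit 322) (nat_lit 338) (nat_lit 240)) (XT.nd (nat_lit 78) (nat_lit 0) (nat_lit 0) (XT.lf (nat_lit 152) (nat_lit 6479007446) (nat_lit 0) (nat_lit 14740) (nat_lit 76) (nat_lit 14740) (nat_lit 119) (nat_lit 1) (nat_lit 117) (nat_lit 1) (nat_lit 118) (nat_lit 1) (nat_lit 323) (nat_lit 338) (nat_lit 239)) (XT.lf (nat_lit 0) (nat_lit 2056824832) (nat_lit 0) (nat_lit 2056861614) (nat_lit 152) (nat_lit 2056824832) (nat_lit 117) (nat_lit 3) (nat_lit 117) (nat_lit 1) (nat_lit 119) (nat_lit 1) (nat_lit 324) (nat_lit 338) (nat_lit 238)))))))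 (XT.nd (nat_lit 858) (nat_lit 912) (nat_lit 0) (XT.nd (nat_lit 390) (nat_lit 456) (nat_lit 0) (XT.nd (nat_lit 156) (nat_lit 228) (nat_lit 0) (XT.nd (nat_lit 78) (nat_lit 152) (nat_lit 0) (XT.lf (nat_lit 76) (nat_lit 1963323102) (nat_lit 0) (nat_lit 1963355087) (nat_lit 76) (nat_lit 1963355087) (nat_lit 117) (nat_lit 3) (nat_lit 116) (nat_lit 1) (nat_lit 117) (nat_lit 1) (nat_lit 325) (nat_lit 338) (nat_lit 237)) (XT.lf (nat_lit 152) (nat_lit 5633927726) (nat_lit 0) (nat_lit 8428) (nat_lit 76) (nat_lit 8428) (nat_lit 116) (nat_lit 1) (nat_lit 114) (nat_lit 1) (nat_lit 115) (nat_lit 1) (nat_lit 326) (nat_lit 338) (nat_lit 236))) (XT.nd (nat_lit 78) (nat_lit 228) (nat_lit 0) (XT.lf (nat_lit 0) (nat_lit 1788546810) (nat_lit 0) (nat_lit 1788567840) (nat_lit 152) (nat_lit 1788546810) (nat_lit 114) (nat_lit 3) (nat_lit 114) (nat_lit 1) (nat_lit 116) (nat_lit 1) (nat_lit 327) (nat_lit 338) (nat_lit 235))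 (XT.nd (nat_lit 78) (nat_lit 152) (nat_lit 0) (XT.lf (nat_lit 76) (nat_lit 1707243686) (nat_lit 0) (nat_lit 1707261973) (nat_lit 76) (nat_lit 1707261973) (nat_lit 114) (nat_lit 3) (nat_lit 113) (nat_lit 1) (nat_lit 114) (nat_lit 1) (nat_lit 328) (nat_lit 338) (nat_lit 234)) (XT.lf (nat_lit 152) (nat_lit 4899072280) (nat_lit 0) (nat_lit 4818) (nat_lit 76) (nat_lit 4818) (nat_lit 113) (nat_lit 1) (nat_lit 111) (nat_lit 1) (nat_lit 112) (nat_lit 1) (nat_lit 329) (nat_lit 338) (nat_lit 233))))) (XT.nd (nat_lit 234) (nat_lit 228) (nat_lit 0) (XT.nd (nat_lit 78) (nat_lit 228) (nat_lit 0) (XT.lf (nat_lit 0) (nat_lit 1555260084) (nat_lit 0) (nat_lit 1555272108) (nat_lit 152) (nat_lit 1555260084) (nat_lit 111) (nat_lit 3) (nat_lit 111) (nat_lit 1) (nat_lit 113) (nat_lit 1) (nat_lit 330) (nat_lit 338) (nat_lit 232)) (XT.nd (nat_lit 78) (nat_lit 152) (nat_lit 0) (XT.lf (nat_lit 76) (nat_lit 1484563275) (nat_lit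 0) (nat_lit 1484573731) (nat_lit 76) (nat_lit 1484573731) (nat_lit 111) (nat_lit 3) (nat_lit 110) (nat_lit 1) (nat_lit 111) (nat_lit 1) (nat_lit 331) (nat_lit 338) (nat_lit 231)) (XT.lf (nat_lit 152) (nat_lit 4260065535) (nat_lit 0) (nat_lit 2755) (nat_lit 76) (nat_lit 2755) (nat_lit 110) (nat_lit 1) (nat_lit 108) (nat_lit 1) (nat_lit 109) (nat_lit 1) (nat_lit 332) (nat_lit 338) (nat_lit 230)))) (XT.nd (nat_lit 78) (nat_lit 228) (nat_lit 0) (XT.lf (nat_lit 0) (nat_lit 1352401210) (nat_lit 0) (nat_lit 1352408084) (nat_lit 152) (nat_lit 1352401210) (nat_lit 108) (nat_lit 3) (nat_lit 108) (nat_lit 1) (nat_lit 110) (nat_lit 1) (nat_lit 333) (nat_lit 338) (nat_lit 229)) (XT.nd (nat_lit 78) (nat_lit 152) (nat_lit 0) (XT.lf (nat_lit 76) (nat_lit 1290926616) (nat_lit 0) (nat_lit 1290932594) (nat_lit 76) (nat_lit 1290932594) (nat_lit 108) (nat_lit 3) (nat_lit 107) (nat_lit 1) (nat_lit 108) (nat_lit 1) (nat_lit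 334) (nat_lit 338) (nat_lit 228)) (XT.lf (nat_lit 152) (nat_lit 3704406347) (nat_lit 0) (nat_lit 1575) (nat_lit 76) (nat_lit 1575) (nat_lit 107) (nat_lit 1) (nat_lit 105) (nat_lit 1) (nat_lit 106) (nat_lit 1) (nat_lit 335) (nat_lit 338) (nat_lit 227)))))) (XT.nd (nat_lit 468) (nat_lit 456) (nat_lit 0) (XT.nd (nat_lit 234) (nat_lit 228) (nat_lit 0) (XT.nd (nat_lit 78) (nat_lit 228) (nat_lit 0) (XT.lf (nat_lit 0) (nat_lit 1176001702) (nat_lit 0) (nat_lit 1176005632) (nat_lit 152) (nat_lit 1176001702) (nat_lit 105) (nat_lit 3) (nat_lit 105) (nat_lit 1) (nat_lit 107) (nat_lit 1) (nat_lit 336) (nat_lit 338) (nat_lit 226)) (XT.nd (nat_lit 78) (nat_lit 152) (nat_lit 0) (XT.lf (nat_lit 76) (nat_lit 1122546043) (nat_lit 0) (nat_lit 1122549461) (nat_lit 76) (nat_lit 1122549461) (nat_lit 105) (nat_lit 3) (nat_lit 104) (nat_lit 1) (nat_lit 105) (nat_lit 1) (nat_lit 337) (nat_lit 338) (nat_lit 225)) (XT.lf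 (nat_lit 152) (nat_lit 3221223788) (nat_lit 0) (nat_lit 900) (nat_lit 76) (nat_lit 900) (nat_lit 104) (nat_lit 1) (nat_lit 102) (nat_lit 1) (nat_lit 103) (nat_lit 1) (nat_lit 338) (nat_lit 338) (nat_lit 224)))) (XT.nd (nat_lit 78) (nat_lit 228) (nat_lit 0) (XT.lf (nat_lit 0) (nat_lit 1022610547) (nat_lit 0) (nat_lit 1022612794) (nat_lit 152) (nat_lit 1022610547) (nat_lit 102) (nat_lit 3) (nat_lit 102) (nat_lit 1) (nat_lit 104) (nat_lit 1) (nat_lit 339) (nat_lit 338) (nat_lit 223)) (XT.nd (nat_lit 78) (nat_lit 152) (nat_lit 0) (XT.lf (nat_lit 76) (nat_lit 976127657) (nat_lit 0) (nat_lit 976129611) (nat_lit 76) (nat_lit 976129611) (nat_lit 102) (nat_lit 3) (nat_lit 101) (nat_lit 1) (nat_lit 102) (nat_lit 1) (nat_lit 340) (nat_lit 338) (nat_lit 222)) (XT.lf (nat_lit 152) (nat_lit 2801064665) (nat_lit 0) (nat_lit 514) (nat_lit 76) (nat_lit 514) (nat_lit 101) (nat_lit 1) (nat_lit 99) (nat_lit 1) (nat_lit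 100) (nat_lit 1) (nat_lit 341) (nat_lit 338) (nat_lit 221))))) (XT.nd (nat_lit 234) (nat_lit 228) (nat_lit 0) (XT.nd (nat_lit 78) (nat_lit 228) (nat_lit 0) (XT.lf (nat_lit 0) (nat_lit 889226775) (nat_lit 0) (nat_lit 889228060) (nat_lit 152) (nat_lit 889226775) (nat_lit 99) (nat_lit 3) (nat_lit 99) (nat_lit 1) (nat_lit 101) (nat_lit 1) (nat_lit 342) (nat_lit 338) (nat_lit 220)) (XT.nd (nat_lit 78) (nat_lit 152) (nat_lit 0) (XT.lf (nat_lit 76) (nat_lit 848807038) (nat_lit 0) (nat_lit 848808155) (nat_lit 76) (nat_lit 848808155) (nat_lit 99) (nat_lit 3) (nat_lit 98) (nat_lit 1) (nat_lit 99) (nat_lit 1) (nat_lit 343) (nat_lit 338) (nat_lit 219)) (XT.lf (nat_lit 152) (nat_lit 2435708691) (nat_lit 0) (nat_lit 294) (nat_lit 76) (nat_lit 294) (nat_lit 98) (nat_lit 1) (nat_lit 96) (nat_lit 1) (nat_lit 97) (nat_lit 1) (nat_lit 344) (nat_lit 338) (nat_lit 218)))) (XT.nd (nat_lit 78) (nat_lit 228) (nat_lit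 0) (XT.lf (nat_lit 0) (nat_lit 773240795) (nat_lit 0) (nat_lit 773241530) (nat_lit 152) (nat_lit 773240795) (nat_lit 96) (nat_lit 3) (nat_lit 96) (nat_lit 1) (nat_lit 98) (nat_lit 1) (nat_lit 345) (nat_lit 338) (nat_lit 217)) (XT.nd (nat_lit 78) (nat_lit 152) (nat_lit 0) (XT.lf (nat_lit 76) (nat_lit 738093293) (nat_lit 0) (nat_lit 738093932) (nat_lit 76) (nat_lit 738093932) (nat_lit 96) (nat_lit 3) (nat_lit 95) (nat_lit 1) (nat_lit 96) (nat_lit 1) (nat_lit 346) (nat_lit 338) (nat_lit 216)) (XT.lf (nat_lit 152) (nat_lit 2118007721) (nat_lit 0) (nat_lit 168) (nat_lit 76) (nat_lit 168) (nat_lit 95) (nat_lit 1) (nat_lit 93) (nat_lit 1) (nat_lit 94) (nat_lit 1) (nat_lit 347) (nat_lit 338) (nat_lit 215))))))))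
noncomputable def ec118 : XT := (XT.nd (nat_lit 1716) (nat_lit 228) (nat_lit 0) (XT.nd (nat_lit 858) (nat_lit 836) (nat_lit 0) (XT.nd (nat_lit 390) (nat_lit 456) (nat_lit 0) (XT.nd (nat_lit 156) (nat_lit 228) (nat_lit 0) (XT.nd (nat_lit 78) (nat_lit 76) (nat_lit 0) (XT.lf (nat_lit 0) (nat_lit 672383370) (nat_lit 0) (nat_lit 672383790) (nat_lit 152) (nat_lit 672383370) (nat_lit 93) (nat_lit 3) (nat_lit 93) (nat_lit 1) (nat_lit 95) (nat_lit 1) (nat_lit 348) (nat_lit 338) (nat_lit 214)) (XT.lf (nat_lit 76) (nat_lit 641820379) (nat_lit 0) (nat_lit 641820744) (nat_lit 76) (nat_lit 641820744) (nat_lit 93) (nat_lit 3) (nat_lit 92) (nat_lit 1) (nat_lit 93) (nat_lit 1) (nat_lit 349) (nat_lit 338) (nat_lit 213))) (XT.nd (nat_lit 78) (nat_lit 76) (nat_lit 0) (XT.lf (nat_lit 152) (nat_lit 1841745938) (nat_lit 0) (nat_lit 96) (nat_lit 76) (nat_lit 96) (nat_lit 92) (nat_lit 1) (nat_lit 90) (nat_lit 1) (nat_lit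 91) (nat_lit 1) (nat_lit 350) (nat_lit 338) (nat_lit 212)) (XT.nd (nat_lit 78) (nat_lit 76) (nat_lit 0) (XT.lf (nat_lit 0) (nat_lit 584681231) (nat_lit 0) (nat_lit 584681471) (nat_lit 152) (nat_lit 584681231) (nat_lit 90) (nat_lit 3) (nat_lit 90) (nat_lit 1) (nat_lit 92) (nat_lit 1) (nat_lit 351) (nat_lit 338) (nat_lit 211)) (XT.lf (nat_lit 76) (nat_lit 558104748) (nat_lit 0) (nat_lit 558104957) (nat_lit 76) (nat_lit 558104957) (nat_lit 90) (nat_lit 3) (nat_lit 89) (nat_lit 1) (nat_lit 90) (nat_lit 1) (nat_lit 352) (nat_lit 338) (nat_lit 210))))) (XT.nd (nat_lit 234) (nat_lit 228) (nat_lit 0) (XT.nd (nat_lit 78) (nat_lit 76) (nat_lit 0) (XT.lf (nat_lit 152) (nat_lit 1601518260) (nat_lit 0) (nat_lit 55) (nat_lit 76) (nat_lit 55) (nat_lit 89) (nat_lit 1) (nat_lit 87) (nat_lit 1) (nat_lit 88) (nat_lit 1) (nat_lit 353) (nat_lit 338) (nat_lit 209)) (XT.nd (nat_lit 78) (nat_lit 76) (nat_lit 0) (XT.lf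 (nat_lit 0) (nat_lit 508418484) (nat_lit 0) (nat_lit 508418621) (nat_lit 152) (nat_lit 508418484) (nat_lit 87) (nat_lit 3) (nat_lit 87) (nat_lit 1) (nat_lit 89) (nat_lit 1) (nat_lit 354) (nat_lit 338) (nat_lit 208)) (XT.lf (nat_lit 76) (nat_lit 485308517) (nat_lit 0) (nat_lit 485308636) (nat_lit 76) (nat_lit 485308636) (nat_lit 87) (nat_lit 3) (nat_lit 86) (nat_lit 1) (nat_lit 87) (nat_lit 1) (nat_lit 355) (nat_lit 338) (nat_lit 207)))) (XT.nd (nat_lit 78) (nat_lit 76) (nat_lit 0) (XT.lf (nat_lit 152) (nat_lit 1392624605) (nat_lit 0) (nat_lit 31) (nat_lit 76) (nat_lit 31) (nat_lit 86) (nat_lit 1) (nat_lit 84) (nat_lit 1) (nat_lit 85) (nat_lit 1) (nat_lit 356) (nat_lit 338) (nat_lit 206)) (XT.nd (nat_lit 78) (nat_lit 76) (nat_lit 0) (XT.lf (nat_lit 0) (nat_lit 442103043) (nat_lit 0) (nat_lit 442103121) (nat_lit 152) (nat_lit 442103043) (nat_lit 84) (nat_lit 3) (nat_lit 84) (nat_lit 1) (nat_lit 86)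 (nat_lit 1) (nat_lit 357) (nat_lit 338) (nat_lit 205)) (XT.lf (nat_lit 76) (nat_lit 422007429) (nat_lit 0) (nat_lit 422007497) (nat_lit 76) (nat_lit 422007497) (nat_lit 84) (nat_lit 3) (nat_lit 83) (nat_lit 1) (nat_lit 84) (nat_lit 1) (nat_lit 358) (nat_lit 338) (nat_lit 204)))))) (XT.nd (nat_lit 390) (nat_lit 456) (nat_lit 0) (XT.nd (nat_lit 156) (nat_lit 228) (nat_lit 0) (XT.nd (nat_lit 78) (nat_lit 0) (nat_lit 0) (XT.lf (nat_lit 152) (nat_lit 1210977935) (nat_lit 0) (nat_lit 17) (nat_lit 76) (nat_lit 17) (nat_lit 83) (nat_lit 1) (nat_lit 81) (nat_lit 1) (nat_lit 82) (nat_lit 1) (nat_lit 359) (nat_lit 338) (nat_lit 203)) (XT.lf (nat_lit 0) (nat_lit 384437436) (nat_lit 0) (nat_lit 384437481) (nat_lit 152) (nat_lit 384437436) (nat_lit 81) (nat_lit 3) (nat_lit 81) (nat_lit 1) (nat_lit 83) (nat_lit 1) (nat_lit 360) (nat_lit 338) (nat_lit 202))) (XT.nd (nat_lit 78) (nat_lit 152) (nat_lit 0) (XT.lf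 (nat_lit 76) (nat_lit 366962995) (nat_lit 0) (nat_lit 366963034) (nat_lit 76) (nat_lit 366963034) (nat_lit 81) (nat_lit 3) (nat_lit 80) (nat_lit 1) (nat_lit 81) (nat_lit 1) (nat_lit 361) (nat_lit 338) (nat_lit 201)) (XT.nd (nat_lit 78) (nat_lit 0) (nat_lit 0) (XT.lf (nat_lit 152) (nat_lit 1053024301) (nat_lit 0) (nat_lit 10) (nat_lit 76) (nat_lit 10) (nat_lit 80) (nat_lit 1) (nat_lit 78) (nat_lit 1) (nat_lit 79) (nat_lit 1) (nat_lit 362) (nat_lit 338) (nat_lit 200)) (XT.lf (nat_lit 0) (nat_lit 334293427) (nat_lit 0) (nat_lit 334293452) (nat_lit 152) (nat_lit 334293427) (nat_lit 78) (nat_lit 3) (nat_lit 78) (nat_lit 1) (nat_lit 80) (nat_lit 1) (nat_lit 363) (nat_lit 338) (nat_lit 199))))) (XT.nd (nat_lit 234) (nat_lit 228) (nat_lit 0) (XT.nd (nat_lit 78) (nat_lit 152) (nat_lit 0) (XT.lf (nat_lit 76) (nat_lit 319098264) (nat_lit 0) (nat_lit 319098286) (nat_lit 76) (nat_lit 319098286) (nat_lit 78)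 (nat_lit 3) (nat_lit 77) (nat_lit 1) (nat_lit 78) (nat_lit 1) (nat_lit 364) (nat_lit 338) (nat_lit 198)) (XT.nd (nat_lit 78) (nat_lit 0) (nat_lit 0) (XT.lf (nat_lit 152) (nat_lit 915673311) (nat_lit 0) (nat_lit 5) (nat_lit 76) (nat_lit 5) (nat_lit 77) (nat_lit 1) (nat_lit 75) (nat_lit 1) (nat_lit 76) (nat_lit 1) (nat_lit 365) (nat_lit 338) (nat_lit 197)) (XT.lf (nat_lit 0) (nat_lit 290689938) (nat_lit 0) (nat_lit 290689953) (nat_lit 152) (nat_lit 290689938) (nat_lit 75) (nat_lit 3) (nat_lit 75) (nat_lit 1) (nat_lit 77) (nat_lit 1) (nat_lit 366) (nat_lit 338) (nat_lit 196)))) (XT.nd (nat_lit 78) (nat_lit 152) (nat_lit 0) (XT.lf (nat_lit 76) (nat_lit 277476756) (nat_lit 0) (nat_lit 277476768) (nat_lit 76) (nat_lit 277476768) (nat_lit 75) (nat_lit 3) (nat_lit 74) (nat_lit 1) (nat_lit 75) (nat_lit 1) (nat_lit 367) (nat_lit 338) (nat_lit 195)) (XT.nd (nat_lit 78) (nat_lit 0) (nat_lit 0) (XT.lf (nat_lit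 152) (nat_lit 796237665) (nat_lit 0) (nat_lit 3) (nat_lit 76) (nat_lit 3) (nat_lit 74) (nat_lit 1) (nat_lit 72) (nat_lit 1) (nat_lit 73) (nat_lit 1) (nat_lit 368) (nat_lit 338) (nat_lit 194)) (XT.lf (nat_lit 0) (nat_lit 252773861) (nat_lit 0) (nat_lit 252773869) (nat_lit 152) (nat_lit 252773861) (nat_lit 72) (nat_lit 3) (nat_lit 72) (nat_lit 1) (nat_lit 74) (nat_lit 1) (nat_lit 369) (nat_lit 338) (nat_lit 193))))))) (XT.nd (nat_lit 36036) (nat_lit 0) (nat_lit 9804) (XT.nd (nat_lit 35568) (nat_lit 0) (nat_lit 10564) (XT.nd (nat_lit 35334) (nat_lit 0) (nat_lit 11096) (XT.nd (nat_lit 78) (nat_lit 152) (nat_lit 0) (XT.lf (nat_lit 76) (nat_lit 241284138) (nat_lit 0) (nat_lit 241284145) (nat_lit 76) (nat_lit 241284145) (nat_lit 72) (nat_lit 3) (nat_lit 71) (nat_lit 1) (nat_lit 72) (nat_lit 1) (nat_lit 370) (nat_lit 338) (nat_lit 192)) (XT.lf (nat_lit 152) (nat_lit 692380580) (nat_lit 0) (nat_lit 1) (nat_lit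 76) (nat_lit 1) (nat_lit 71) (nat_lit 1) (nat_lit 69) (nat_lit 1) (nat_lit 70) (nat_lit 1) (nat_lit 371) (nat_lit 338) (nat_lit 191))) (XT.nd (nat_lit 78) (nat_lit 0) (nat_lit 0) (XT.lf (nat_lit 380) (nat_lit 163433172777) (nat_lit 0) (nat_lit 144756783460) (nat_lit 380) (nat_lit 163433172777) (nat_lit 220) (nat_lit 1) (nat_lit 215) (nat_lit 0) (nat_lit 220) (nat_lit 0) (nat_lit 222) (nat_lit 339) (nat_lit 339)) (XT.nd (nat_lit 78) (nat_lit 0) (nat_lit 76) (XT.lf (nat_lit 380) (nat_lit 604518096592) (nat_lit 76) (nat_lit 138176929666) (nat_lit 0) (nat_lit 138176929666) (nat_lit 220) (nat_lit 1) (nat_lit 216) (nat_lit 1) (nat_lit 215) (nat_lit 0) (nat_lit 223) (nat_lit 339) (nat_lit 338)) (XT.lf (nat_lit 380) (nat_lit 266468110491) (nat_lit 0) (nat_lit 289942440585) (nat_lit 304) (nat_lit 266468110491) (nat_lit 221) (nat_lit 1) (nat_lit 216) (nat_lit 1) (nat_lit 220) (nat_lit 1) (nat_lit 224) (nat_lit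 339) (nat_lit 337))))) (XT.nd (nat_lit 234) (nat_lit 380) (nat_lit 0) (XT.nd (nat_lit 78) (nat_lit 228) (nat_lit 0) (XT.lf (nat_lit 380) (nat_lit 457511909913) (nat_lit 76) (nat_lit 156609386857) (nat_lit 0) (nat_lit 156609386857) (nat_lit 221) (nat_lit 1) (nat_lit 217) (nat_lit 1) (nat_lit 216) (nat_lit 1) (nat_lit 225) (nat_lit 339) (nat_lit 336)) (XT.nd (nat_lit 78) (nat_lit 304) (nat_lit 0) (XT.lf (nat_lit 76) (nat_lit 185069635518) (nat_lit 0) (nat_lit 352403655934) (nat_lit 304) (nat_lit 185069635518) (nat_lit 218) (nat_lit 1) (nat_lit 217) (nat_lit 1) (nat_lit 221) (nat_lit 1) (nat_lit 226) (nat_lit 339) (nat_lit 335)) (XT.lf (nat_lit 380) (nat_lit 278144715320) (nat_lit 0) (nat_lit 200203232409) (nat_lit 304) (nat_lit 200203232409) (nat_lit 218) (nat_lit 1) (nat_lit 213) (nat_lit 1) (nat_lit 217) (nat_lit 1) (nat_lit 227) (nat_lit 339) (nat_lit 334)))) (XT.nd (nat_lit 78) (nat_lit 380)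 (nat_lit 0) (XT.lf (nat_lit 76) (nat_lit 92452231518) (nat_lit 0) (nat_lit 453665417277) (nat_lit 380) (nat_lit 92452231518) (nat_lit 214) (nat_lit 1) (nat_lit 213) (nat_lit 1) (nat_lit 218) (nat_lit 1) (nat_lit 228) (nat_lit 339) (nat_lit 333)) (XT.nd (nat_lit 78) (nat_lit 228) (nat_lit 0) (XT.lf (nat_lit 228) (nat_lit 83204827458) (nat_lit 0) (nat_lit 258954494634) (nat_lit 152) (nat_lit 258954494634) (nat_lit 214) (nat_lit 1) (nat_lit 211) (nat_lit 1) (nat_lit 213) (nat_lit 1) (nat_lit 229) (nat_lit 339) (nat_lit 332)) (XT.lf (nat_lit 228) (nat_lit 559135393583) (nat_lit 0) (nat_lit 4386982521) (nat_lit 152) (nat_lit 4386982521) (nat_lit 211) (nat_lit 1) (nat_lit 208) (nat_lit 1) (nat_lit 210) (nat_lit 1) (nat_lit 230) (nat_lit 339) (nat_lit 331)))))) (XT.nd (nat_lit 390) (nat_lit 304) (nat_lit 0) (XT.nd (nat_lit 156) (nat_lit 304) (nat_lit 0) (XT.nd (nat_lit 78) (nat_lit 152) (nat_lit 0) (XT.lf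 (nat_lit 76) (nat_lit 214823392080) (nat_lit 0) (nat_lit 105466850540) (nat_lit 228) (nat_lit 214823392080) (nat_lit 209) (nat_lit 1) (nat_lit 208) (nat_lit 1) (nat_lit 211) (nat_lit 1) (nat_lit 231) (nat_lit 339) (nat_lit 330)) (XT.lf (nat_lit 228) (nat_lit 312254045608) (nat_lit 0) (nat_lit 96858135378) (nat_lit 152) (nat_lit 96858135378) (nat_lit 209) (nat_lit 1) (nat_lit 206) (nat_lit 1) (nat_lit 208) (nat_lit 1) (nat_lit 232) (nat_lit 339) (nat_lit 329))) (XT.nd (nat_lit 78) (nat_lit 304) (nat_lit 0) (XT.lf (nat_lit 76) (nat_lit 97652081560) (nat_lit 0) (nat_lit 283384671179) (nat_lit 228) (nat_lit 97652081560) (nat_lit 207) (nat_lit 1) (nat_lit 206) (nat_lit 1) (nat_lit 209) (nat_lit 1) (nat_lit 233) (nat_lit 339) (nat_lit 328)) (XT.nd (nat_lit 78) (nat_lit 228) (nat_lit 0) (XT.lf (nat_lit 152) (nat_lit 80727491715) (nat_lit 0) (nat_lit 186279084214) (nat_lit 76) (nat_lit 186279084214) (nat_lit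 207) (nat_lit 1) (nat_lit 205) (nat_lit 1) (nat_lit 206) (nat_lit 1) (nat_lit 234) (nat_lit 339) (nat_lit 327)) (XT.lf (nat_lit 228) (nat_lit 408690016600) (nat_lit 0) (nat_lit 10857268578) (nat_lit 152) (nat_lit 10857268578) (nat_lit 205) (nat_lit 1) (nat_lit 202) (nat_lit 1) (nat_lit 204) (nat_lit 1) (nat_lit 235) (nat_lit 339) (nat_lit 326))))) (XT.nd (nat_lit 234) (nat_lit 228) (nat_lit 0) (XT.nd (nat_lit 78) (nat_lit 76) (nat_lit 0) (XT.lf (nat_lit 76) (nat_lit 143032715923) (nat_lit 0) (nat_lit 121468049054) (nat_lit 228) (nat_lit 143032715923) (nat_lit 203) (nat_lit 1) (nat_lit 202) (nat_lit 1) (nat_lit 205) (nat_lit 1) (nat_lit 236) (nat_lit 339) (nat_lit 325)) (XT.nd (nat_lit 78) (nat_lit 0) (nat_lit 0) (XT.lf (nat_lit 152) (nat_lit 173914083192) (nat_lit 0) (nat_lit 106505670986) (nat_lit 76) (nat_lit 106505670986) (nat_lit 203) (nat_lit 1) (nat_lit 201) (nat_lit 1) (nat_lit 202) (nat_lit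 1) (nat_lit 237) (nat_lit 339) (nat_lit 324)) (XT.lf (nat_lit 0) (nat_lit 34054774154) (nat_lit 0) (nat_lit 299815616690) (nat_lit 152) (nat_lit 34054774154) (nat_lit 201) (nat_lit 3) (nat_lit 201) (nat_lit 1) (nat_lit 203) (nat_lit 1) (nat_lit 238) (nat_lit 339) (nat_lit 323)))) (XT.nd (nat_lit 78) (nat_lit 76) (nat_lit 0) (XT.lf (nat_lit 76) (nat_lit 157605351166) (nat_lit 0) (nat_lit 34181876115) (nat_lit 152) (nat_lit 157605351166) (nat_lit 200) (nat_lit 1) (nat_lit 199) (nat_lit 1) (nat_lit 201) (nat_lit 1) (nat_lit 239) (nat_lit 339) (nat_lit 322)) (XT.nd (nat_lit 78) (nat_lit 0) (nat_lit 0) (XT.lf (nat_lit 152) (nat_lit 210529748298) (nat_lit 0) (nat_lit 60894963060) (nat_lit 76) (nat_lit 60894963060) (nat_lit 200) (nat_lit 1) (nat_lit 198) (nat_lit 1) (nat_lit 199) (nat_lit 1) (nat_lit 240) (nat_lit 339) (nat_lit 321)) (XT.lf (nat_lit 0) (nat_lit 54738802818) (nat_lit 0) (nat_lit 206688427090)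 (nat_lit 152) (nat_lit 54738802818) (nat_lit 198) (nat_lit 3) (nat_lit 198) (nat_lit 1) (nat_lit 200) (nat_lit 1) (nat_lit 241) (nat_lit 339) (nat_lit 320))))))))
noncomputable def ec119 : XT := (XT.nd (nat_lit 1716) (nat_lit 1748) (nat_lit 0) (XT.nd (nat_lit 858) (nat_lit 760) (nat_lit 0) (XT.nd (nat_lit 390) (nat_lit 456) (nat_lit 0) (XT.nd (nat_lit 156) (nat_lit 228) (nat_lit 0) (XT.nd (nat_lit 78) (nat_lit 152) (nat_lit 0) (XT.lf (nat_lit 76) (nat_lit 12211248732) (nat_lit 0) (nat_lit 144341356794) (nat_lit 76) (nat_lit 144341356794) (nat_lit 198) (nat_lit 3) (nat_lit 197) (nat_lit 1) (nat_lit 198) (nat_lit 1) (nat_lit 242) (nat_lit 339) (nat_lit 319)) (XT.lf (nat_lit 152) (nat_lit 216974377125) (nat_lit 0) (nat_lit 34816892770) (nat_lit 76) (nat_lit 34816892770) (nat_lit 197) (nat_lit 1) (nat_lit 195) (nat_lit 1) (nat_lit 196) (nat_lit 1) (nat_lit 243) (nat_lit 339) (nat_lit 318))) (XT.nd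 (nat_lit 78) (nat_lit 228) (nat_lit 0) (XT.lf (nat_lit 0) (nat_lit 61964805708) (nat_lit 0) (nat_lit 148842496552) (nat_lit 152) (nat_lit 61964805708) (nat_lit 195) (nat_lit 3) (nat_lit 195) (nat_lit 1) (nat_lit 197) (nat_lit 1) (nat_lit 244) (nat_lit 339) (nat_lit 317)) (XT.nd (nat_lit 78) (nat_lit 152) (nat_lit 0) (XT.lf (nat_lit 76) (nat_lit 36255551471) (nat_lit 0) (nat_lit 111801369596) (nat_lit 76) (nat_lit 111801369596) (nat_lit 195) (nat_lit 3) (nat_lit 194) (nat_lit 1) (nat_lit 195) (nat_lit 1) (nat_lit 245) (nat_lit 339) (nat_lit 316)) (XT.lf (nat_lit 152) (nat_lit 208058682803) (nat_lit 0) (nat_lit 19906671442) (nat_lit 76) (nat_lit 19906671442) (nat_lit 194) (nat_lit 1) (nat_lit 192) (nat_lit 1) (nat_lit 193) (nat_lit 1) (nat_lit 246) (nat_lit 339) (nat_lit 315))))) (XT.nd (nat_lit 234) (nat_lit 228) (nat_lit 0) (XT.nd (nat_lit 78) (nat_lit 228) (nat_lit 0) (XT.lf (nat_lit 0) (nat_lit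 62096159243) (nat_lit 0) (nat_lit 111768760953) (nat_lit 152) (nat_lit 62096159243) (nat_lit 192) (nat_lit 3) (nat_lit 192) (nat_lit 1) (nat_lit 194) (nat_lit 1) (nat_lit 247) (nat_lit 339) (nat_lit 314)) (XT.nd (nat_lit 78) (nat_lit 152) (nat_lit 0) (XT.lf (nat_lit 76) (nat_lit 46184646943) (nat_lit 0) (nat_lit 89378213647) (nat_lit 76) (nat_lit 89378213647) (nat_lit 192) (nat_lit 3) (nat_lit 191) (nat_lit 1) (nat_lit 192) (nat_lit 1) (nat_lit 248) (nat_lit 339) (nat_lit 313)) (XT.lf (nat_lit 152) (nat_lit 192004208446) (nat_lit 0) (nat_lit 11381704006) (nat_lit 76) (nat_lit 11381704006) (nat_lit 191) (nat_lit 1) (nat_lit 189) (nat_lit 1) (nat_lit 190) (nat_lit 1) (nat_lit 249) (nat_lit 339) (nat_lit 312)))) (XT.nd (nat_lit 78) (nat_lit 228) (nat_lit 0) (XT.lf (nat_lit 0) (nat_lit 58692880992) (nat_lit 0) (nat_lit 87093352237) (nat_lit 152) (nat_lit 58692880992) (nat_lit 189) (nat_lit 3) (nat_lit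 189) (nat_lit 1) (nat_lit 191) (nat_lit 1) (nat_lit 250) (nat_lit 339) (nat_lit 311)) (XT.nd (nat_lit 78) (nat_lit 152) (nat_lit 0) (XT.lf (nat_lit 76) (nat_lit 48541367628) (nat_lit 0) (nat_lit 73237429580) (nat_lit 76) (nat_lit 73237429580) (nat_lit 189) (nat_lit 3) (nat_lit 188) (nat_lit 1) (nat_lit 189) (nat_lit 1) (nat_lit 251) (nat_lit 339) (nat_lit 310)) (XT.lf (nat_lit 152) (nat_lit 173297273937) (nat_lit 0) (nat_lit 6507526205) (nat_lit 76) (nat_lit 6507526205) (nat_lit 188) (nat_lit 1) (nat_lit 186) (nat_lit 1) (nat_lit 187) (nat_lit 1) (nat_lit 252) (nat_lit 339) (nat_lit 309)))))) (XT.nd (nat_lit 390) (nat_lit 456) (nat_lit 0) (XT.nd (nat_lit 156) (nat_lit 228) (nat_lit 0) (XT.nd (nat_lit 78) (nat_lit 76) (nat_lit 0) (XT.lf (nat_lit 0) (nat_lit 53722367293) (nat_lit 0) (nat_lit 69960428903) (nat_lit 152) (nat_lit 53722367293) (nat_lit 186) (nat_lit 3) (nat_lit 186) (nat_lit 1) (nat_lit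 188) (nat_lit 1) (nat_lit 253) (nat_lit 339) (nat_lit 308)) (XT.lf (nat_lit 76) (nat_lit 47001637393) (nat_lit 0) (nat_lit 61121690967) (nat_lit 76) (nat_lit 61121690967) (nat_lit 186) (nat_lit 3) (nat_lit 185) (nat_lit 1) (nat_lit 186) (nat_lit 1) (nat_lit 254) (nat_lit 339) (nat_lit 307))) (XT.nd (nat_lit 78) (nat_lit 76) (nat_lit 0) (XT.lf (nat_lit 152) (nat_lit 154316534992) (nat_lit 0) (nat_lit 3720699229) (nat_lit 76) (nat_lit 3720699229) (nat_lit 185) (nat_lit 1) (nat_lit 183) (nat_lit 1) (nat_lit 184) (nat_lit 1) (nat_lit 255) (nat_lit 339) (nat_lit 306)) (XT.nd (nat_lit 78) (nat_lit 76) (nat_lit 0) (XT.lf (nat_lit 0) (nat_lit 48250304897) (nat_lit 0) (nat_lit 57534469325) (nat_lit 152) (nat_lit 48250304897) (nat_lit 183) (nat_lit 3) (nat_lit 183) (nat_lit 1) (nat_lit 185) (nat_lit 1) (nat_lit 256) (nat_lit 339) (nat_lit 305)) (XT.lf (nat_lit 76) (nat_lit 43610689081) (nat_lit 0) (nat_lit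 51683875540) (nat_lit 76) (nat_lit 51683875540) (nat_lit 183) (nat_lit 3) (nat_lit 182) (nat_lit 1) (nat_lit 183) (nat_lit 1) (nat_lit 257) (nat_lit 339) (nat_lit 304))))) (XT.nd (nat_lit 234) (nat_lit 228) (nat_lit 0) (XT.nd (nat_lit 78) (nat_lit 76) (nat_lit 0) (XT.lf (nat_lit 152) (nat_lit 136259898135) (nat_lit 0) (nat_lit 2127321860) (nat_lit 76) (nat_lit 2127321860) (nat_lit 182) (nat_lit 1) (nat_lit 180) (nat_lit 1) (nat_lit 181) (nat_lit 1) (nat_lit 258) (nat_lit 339) (nat_lit 303)) (XT.nd (nat_lit 78) (nat_lit 76) (nat_lit 0) (XT.lf (nat_lit 0) (nat_lit 42834544110) (nat_lit 0) (nat_lit 48142795254) (nat_lit 152) (nat_lit 42834544110) (nat_lit 180) (nat_lit 3) (nat_lit 180) (nat_lit 1) (nat_lit 182) (nat_lit 1) (nat_lit 259) (nat_lit 339) (nat_lit 302)) (XT.lf (nat_lit 76) (nat_lit 39488770723) (nat_lit 0) (nat_lit 44104641283) (nat_lit 76) (nat_lit 44104641283) (nat_lit 180) (nat_lit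 3) (nat_lit 179) (nat_lit 1) (nat_lit 180) (nat_lit 1) (nat_lit 260) (nat_lit 339) (nat_lit 301)))) (XT.nd (nat_lit 78) (nat_lit 76) (nat_lit 0) (XT.lf (nat_lit 152) (nat_lit 119671315877) (nat_lit 0) (nat_lit 1216303177) (nat_lit 76) (nat_lit 1216303177) (nat_lit 179) (nat_lit 1) (nat_lit 177) (nat_lit 1) (nat_lit 178) (nat_lit 1) (nat_lit 261) (nat_lit 339) (nat_lit 300)) (XT.nd (nat_lit 78) (nat_lit 76) (nat_lit 0) (XT.lf (nat_lit 0) (nat_lit 37749290213) (nat_lit 0) (nat_lit 40784300033) (nat_lit 152) (nat_lit 37749290213) (nat_lit 177) (nat_lit 3) (nat_lit 177) (nat_lit 1) (nat_lit 179) (nat_lit 1) (nat_lit 262) (nat_lit 339) (nat_lit 299)) (XT.lf (nat_lit 76) (nat_lit 35233674302) (nat_lit 0) (nat_lit 37872813276) (nat_lit 76) (nat_lit 37872813276) (nat_lit 177) (nat_lit 3) (nat_lit 176) (nat_lit 1) (nat_lit 177) (nat_lit 1) (nat_lit 263) (nat_lit 339) (nat_lit 298))))))) (XT.nd (nat_lit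 858) (nat_lit 912) (nat_lit 0) (XT.nd (nat_lit 390) (nat_lit 456) (nat_lit 0) (XT.nd (nat_lit 156) (nat_lit 228) (nat_lit 0) (XT.nd (nat_lit 78) (nat_lit 0) (nat_lit 0) (XT.lf (nat_lit 152) (nat_lit 104739225756) (nat_lit 0) (nat_lit 695425289) (nat_lit 76) (nat_lit 695425289) (nat_lit 176) (nat_lit 1) (nat_lit 174) (nat_lit 1) (nat_lit 175) (nat_lit 1) (nat_lit 264) (nat_lit 339) (nat_lit 297)) (XT.lf (nat_lit 0) (nat_lit 33112410150) (nat_lit 0) (nat_lit 34847686865) (nat_lit 152) (nat_lit 33112410150) (nat_lit 174) (nat_lit 3) (nat_lit 174) (nat_lit 1) (nat_lit 176) (nat_lit 1) (nat_lit 265) (nat_lit 339) (nat_lit 296))) (XT.nd (nat_lit 78) (nat_lit 152) (nat_lit 0) (XT.lf (nat_lit 76) (nat_lit 31150047181) (nat_lit 0) (nat_lit 32658983455) (nat_lit 76) (nat_lit 32658983455) (nat_lit 174) (nat_lit 3) (nat_lit 173) (nat_lit 1) (nat_lit 174) (nat_lit 1) (nat_lit 266) (nat_lit 339) (nat_lit 295))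 (XT.nd (nat_lit 78) (nat_lit 0) (nat_lit 0) (XT.lf (nat_lit 152) (nat_lit 91464785744) (nat_lit 0) (nat_lit 397611666) (nat_lit 76) (nat_lit 397611666) (nat_lit 173) (nat_lit 1) (nat_lit 171) (nat_lit 1) (nat_lit 172) (nat_lit 1) (nat_lit 267) (nat_lit 339) (nat_lit 294)) (XT.lf (nat_lit 0) (nat_lit 28957459235) (nat_lit 0) (nat_lit 29949609329) (nat_lit 152) (nat_lit 28957459235) (nat_lit 171) (nat_lit 3) (nat_lit 171) (nat_lit 1) (nat_lit 173) (nat_lit 1) (nat_lit 268) (nat_lit 339) (nat_lit 293))))) (XT.nd (nat_lit 234) (nat_lit 228) (nat_lit 0) (XT.nd (nat_lit 78) (nat_lit 152) (nat_lit 0) (XT.lf (nat_lit 76) (nat_lit 27379774963) (nat_lit 0) (nat_lit 28242514175) (nat_lit 76) (nat_lit 28242514175) (nat_lit 171) (nat_lit 3) (nat_lit 170) (nat_lit 1) (nat_lit 171) (nat_lit 1) (nat_lit 269) (nat_lit 339) (nat_lit 292)) (XT.nd (nat_lit 78) (nat_lit 0) (nat_lit 0) (XT.lf (nat_lit 152) (nat_lit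 79755978087) (nat_lit 0) (nat_lit 227335760) (nat_lit 76) (nat_lit 227335760) (nat_lit 170) (nat_lit 1) (nat_lit 168) (nat_lit 1) (nat_lit 169) (nat_lit 1) (nat_lit 270) (nat_lit 339) (nat_lit 291)) (XT.lf (nat_lit 0) (nat_lit 25274200661) (nat_lit 0) (nat_lit 25841465697) (nat_lit 152) (nat_lit 25274200661) (nat_lit 168) (nat_lit 3) (nat_lit 168) (nat_lit 1) (nat_lit 170) (nat_lit 1) (nat_lit 271) (nat_lit 339) (nat_lit 290)))) (XT.nd (nat_lit 78) (nat_lit 152) (nat_lit 0) (XT.lf (nat_lit 76) (nat_lit 23975896405) (nat_lit 0) (nat_lit 24469170349) (nat_lit 76) (nat_lit 24469170349) (nat_lit 168) (nat_lit 3) (nat_lit 167) (nat_lit 1) (nat_lit 168) (nat_lit 1) (nat_lit 272) (nat_lit 339) (nat_lit 289)) (XT.nd (nat_lit 78) (nat_lit 0) (nat_lit 0) (XT.lf (nat_lit 152) (nat_lit 69479600179) (nat_lit 0) (nat_lit 129979959) (nat_lit 76) (nat_lit 129979959) (nat_lit 167) (nat_lit 1) (nat_lit 165) (nat_lit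 1) (nat_lit 166) (nat_lit 1) (nat_lit 273) (nat_lit 339) (nat_lit 288)) (XT.lf (nat_lit 0) (nat_lit 22031197004) (nat_lit 0) (nat_lit 22355532630) (nat_lit 152) (nat_lit 22031197004) (nat_lit 165) (nat_lit 3) (nat_lit 165) (nat_lit 1) (nat_lit 167) (nat_lit 1) (nat_lit 274) (nat_lit 339) (nat_lit 287)))))) (XT.nd (nat_lit 468) (nat_lit 456) (nat_lit 0) (XT.nd (nat_lit 234) (nat_lit 228) (nat_lit 0) (XT.nd (nat_lit 78) (nat_lit 152) (nat_lit 0) (XT.lf (nat_lit 76) (nat_lit 20944315025) (nat_lit 0) (nat_lit 21226346004) (nat_lit 76) (nat_lit 21226346004) (nat_lit 165) (nat_lit 3) (nat_lit 164) (nat_lit 1) (nat_lit 165) (nat_lit 1) (nat_lit 275) (nat_lit 339) (nat_lit 286)) (XT.nd (nat_lit 78) (nat_lit 0) (nat_lit 0) (XT.lf (nat_lit 152) (nat_lit 60489413733) (nat_lit 0) (nat_lit 74316463) (nat_lit 76) (nat_lit 74316463) (nat_lit 164) (nat_lit 1) (nat_lit 162) (nat_lit 1) (nat_lit 163) (nat_lit 1)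 (nat_lit 276) (nat_lit 339) (nat_lit 285)) (XT.lf (nat_lit 0) (nat_lit 19188226432) (nat_lit 0) (nat_lit 19373666379) (nat_lit 152) (nat_lit 19188226432) (nat_lit 162) (nat_lit 3) (nat_lit 162) (nat_lit 1) (nat_lit 164) (nat_lit 1) (nat_lit 277) (nat_lit 339) (nat_lit 284)))) (XT.nd (nat_lit 78) (nat_lit 152) (nat_lit 0) (XT.lf (nat_lit 76) (nat_lit 18267170040) (nat_lit 0) (nat_lit 18428422168) (nat_lit 76) (nat_lit 18428422168) (nat_lit 162) (nat_lit 3) (nat_lit 161) (nat_lit 1) (nat_lit 162) (nat_lit 1) (nat_lit 278) (nat_lit 339) (nat_lit 283)) (XT.nd (nat_lit 78) (nat_lit 0) (nat_lit 0) (XT.lf (nat_lit 152) (nat_lit 52640868042) (nat_lit 0) (nat_lit 42490679) (nat_lit 76) (nat_lit 42490679) (nat_lit 161) (nat_lit 1) (nat_lit 159) (nat_lit 1) (nat_lit 160) (nat_lit 1) (nat_lit 279) (nat_lit 339) (nat_lit 282)) (XT.lf (nat_lit 0) (nat_lit 16702946427) (nat_lit 0) (nat_lit 16808972318) (nat_lit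 152) (nat_lit 16702946427) (nat_lit 159) (nat_lit 3) (nat_lit 159) (nat_lit 1) (nat_lit 161) (nat_lit 1) (nat_lit 280) (nat_lit 339) (nat_lit 281))))) (XT.nd (nat_lit 234) (nat_lit 228) (nat_lit 0) (XT.nd (nat_lit 78) (nat_lit 152) (nat_lit 0) (XT.lf (nat_lit 76) (nat_lit 15915783278) (nat_lit 0) (nat_lit 16007979705) (nat_lit 76) (nat_lit 16007979705) (nat_lit 159) (nat_lit 3) (nat_lit 158) (nat_lit 1) (nat_lit 159) (nat_lit 1) (nat_lit 281) (nat_lit 339) (nat_lit 280)) (XT.nd (nat_lit 78) (nat_lit 0) (nat_lit 0) (XT.lf (nat_lit 152) (nat_lit 45798325776) (nat_lit 0) (nat_lit 24294183) (nat_lit 76) (nat_lit 24294183) (nat_lit 158) (nat_lit 1) (nat_lit 156) (nat_lit 1) (nat_lit 157) (nat_lit 1) (nat_lit 282) (nat_lit 339) (nat_lit 279)) (XT.lf (nat_lit 0) (nat_lit 14534325298) (nat_lit 0) (nat_lit 14594945945) (nat_lit 152) (nat_lit 14534325298) (nat_lit 156) (nat_lit 3) (nat_lit 156) (nat_lit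 1) (nat_lit 158) (nat_lit 1) (nat_lit 283) (nat_lit 339) (nat_lit 278)))) (XT.nd (nat_lit 78) (nat_lit 152) (nat_lit 0) (XT.lf (nat_lit 76) (nat_lit 13857700328) (nat_lit 0) (nat_lit 13910413934) (nat_lit 76) (nat_lit 13910413934) (nat_lit 156) (nat_lit 3) (nat_lit 155) (nat_lit 1) (nat_lit 156) (nat_lit 1) (nat_lit 284) (nat_lit 339) (nat_lit 277)) (XT.nd (nat_lit 78) (nat_lit 0) (nat_lit 0) (XT.lf (nat_lit 152) (nat_lit 39838157599) (nat_lit 0) (nat_lit 13890278) (nat_lit 76) (nat_lit 13890278) (nat_lit 155) (nat_lit 1) (nat_lit 153) (nat_lit 1) (nat_lit 154) (nat_lit 1) (nat_lit 285) (nat_lit 339) (nat_lit 276)) (XT.lf (nat_lit 0) (nat_lit 12644275024) (nat_lit 0) (nat_lit 12678935076) (nat_lit 152) (nat_lit 12644275024) (nat_lit 153) (nat_lit 3) (nat_lit 153) (nat_lit 1) (nat_lit 155) (nat_lit 1) (nat_lit 286) (nat_lit 339) (nat_lit 275))))))))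
noncomputable def ec120 : XT := (XT.nd (nat_lit 1716) (nat_lit 1748) (nat_lit 0) (XT.nd (nat_lit 858) (nat_lit 760) (nat_lit 0) (XT.nd (nat_lit 390) (nat_lit 456) (nat_lit 0) (XT.nd (nat_lit 156) (nat_lit 228) (nat_lit 0) (XT.nd (nat_lit 78) (nat_lit 152) (nat_lit 0) (XT.lf (nat_lit 76) (nat_lit 12060402167) (nat_lit 0) (nat_lit 12090541343) (nat_lit 76) (nat_lit 12090541343) (nat_lit 153) (nat_lit 3) (nat_lit 152) (nat_lit 1) (nat_lit 153) (nat_lit 1) (nat_lit 287) (nat_lit 339) (nat_lit 274)) (XT.lf (nat_lit 152) (nat_lit 34649609987) (nat_lit 0) (nat_lit 7941811) (nat_lit 76) (nat_lit 7941811) (nat_lit 152) (nat_lit 1) (nat_lit 150) (nat_lit 1) (nat_lit 151) (nat_lit 1) (nat_lit 288) (nat_lit 339) (nat_lit 273))) (XT.nd (nat_lit 78) (nat_lit 228) (nat_lit 0) (XT.lf (nat_lit 0) (nat_lit 10998298642) (nat_lit 0) (nat_lit 11018115640) (nat_lit 152) (nat_lit 10998298642) (nat_lit 150) (nat_lit 3)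 (nat_lit 150) (nat_lit 1) (nat_lit 152) (nat_lit 1) (nat_lit 289) (nat_lit 339) (nat_lit 272)) (XT.nd (nat_lit 78) (nat_lit 152) (nat_lit 0) (XT.lf (nat_lit 76) (nat_lit 10493154107) (nat_lit 0) (nat_lit 10510386278) (nat_lit 76) (nat_lit 10510386278) (nat_lit 150) (nat_lit 3) (nat_lit 149) (nat_lit 1) (nat_lit 150) (nat_lit 1) (nat_lit 290) (nat_lit 339) (nat_lit 271)) (XT.lf (nat_lit 152) (nat_lit 30134517474) (nat_lit 0) (nat_lit 4540756) (nat_lit 76) (nat_lit 4540756) (nat_lit 149) (nat_lit 1) (nat_lit 147) (nat_lit 1) (nat_lit 148) (nat_lit 1) (nat_lit 291) (nat_lit 339) (nat_lit 270))))) (XT.nd (nat_lit 234) (nat_lit 228) (nat_lit 0) (XT.nd (nat_lit 78) (nat_lit 228) (nat_lit 0) (XT.lf (nat_lit 0) (nat_lit 9565611518) (nat_lit 0) (nat_lit 9576941950) (nat_lit 152) (nat_lit 9565611518) (nat_lit 147) (nat_lit 3) (nat_lit 147) (nat_lit 1) (nat_lit 149) (nat_lit 1) (nat_lit 292) (nat_lit 339)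 (nat_lit 269)) (XT.nd (nat_lit 78) (nat_lit 152) (nat_lit 0) (XT.lf (nat_lit 76) (nat_lit 9127825373) (nat_lit 0) (nat_lit 9137677923) (nat_lit 76) (nat_lit 9137677923) (nat_lit 147) (nat_lit 3) (nat_lit 146) (nat_lit 1) (nat_lit 147) (nat_lit 1) (nat_lit 293) (nat_lit 339) (nat_lit 268)) (XT.lf (nat_lit 152) (nat_lit 26206456435) (nat_lit 0) (nat_lit 2596192) (nat_lit 76) (nat_lit 2596192) (nat_lit 146) (nat_lit 1) (nat_lit 144) (nat_lit 1) (nat_lit 145) (nat_lit 1) (nat_lit 294) (nat_lit 339) (nat_lit 267)))) (XT.nd (nat_lit 78) (nat_lit 228) (nat_lit 0) (XT.lf (nat_lit 0) (nat_lit 8318994277) (nat_lit 0) (nat_lit 8325472489) (nat_lit 152) (nat_lit 8318994277) (nat_lit 144) (nat_lit 3) (nat_lit 144) (nat_lit 1) (nat_lit 146) (nat_lit 1) (nat_lit 295) (nat_lit 339) (nat_lit 266)) (XT.nd (nat_lit 78) (nat_lit 152) (nat_lit 0) (XT.lf (nat_lit 76) (nat_lit 7939151135) (nat_lit 0) (nat_lit 7944784363)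 (nat_lit 76) (nat_lit 7944784363) (nat_lit 144) (nat_lit 3) (nat_lit 143) (nat_lit 1) (nat_lit 144) (nat_lit 1) (nat_lit 296) (nat_lit 339) (nat_lit 265)) (XT.lf (nat_lit 152) (nat_lit 22789668492) (nat_lit 0) (nat_lit 1484381) (nat_lit 76) (nat_lit 1484381) (nat_lit 143) (nat_lit 1) (nat_lit 141) (nat_lit 1) (nat_lit 142) (nat_lit 1) (nat_lit 297) (nat_lit 339) (nat_lit 264)))))) (XT.nd (nat_lit 390) (nat_lit 456) (nat_lit 0) (XT.nd (nat_lit 156) (nat_lit 228) (nat_lit 0) (XT.nd (nat_lit 78) (nat_lit 76) (nat_lit 0) (XT.lf (nat_lit 0) (nat_lit 7234520540) (nat_lit 0) (nat_lit 7238224478) (nat_lit 152) (nat_lit 7234520540) (nat_lit 141) (nat_lit 3) (nat_lit 141) (nat_lit 1) (nat_lit 143) (nat_lit 1) (nat_lit 298) (nat_lit 339) (nat_lit 263)) (XT.lf (nat_lit 76) (nat_lit 6904702692) (nat_lit 0) (nat_lit 6907923508) (nat_lit 76) (nat_lit 6907923508) (nat_lit 141) (nat_lit 3) (nat_lit 140) (nat_lit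 1) (nat_lit 141) (nat_lit 1) (nat_lit 299) (nat_lit 339) (nat_lit 262))) (XT.nd (nat_lit 78) (nat_lit 76) (nat_lit 0) (XT.lf (nat_lit 152) (nat_lit 19817929509) (nat_lit 0) (nat_lit 848699) (nat_lit 76) (nat_lit 848699) (nat_lit 140) (nat_lit 1) (nat_lit 138) (nat_lit 1) (nat_lit 139) (nat_lit 1) (nat_lit 300) (nat_lit 339) (nat_lit 261)) (XT.nd (nat_lit 78) (nat_lit 76) (nat_lit 0) (XT.lf (nat_lit 0) (nat_lit 6291237609) (nat_lit 0) (nat_lit 6293355348) (nat_lit 152) (nat_lit 6291237609) (nat_lit 138) (nat_lit 3) (nat_lit 138) (nat_lit 1) (nat_lit 140) (nat_lit 1) (nat_lit 301) (nat_lit 339) (nat_lit 260)) (XT.lf (nat_lit 76) (nat_lit 6004714229) (nat_lit 0) (nat_lit 6006555741) (nat_lit 76) (nat_lit 6006555741) (nat_lit 138) (nat_lit 3) (nat_lit 137) (nat_lit 1) (nat_lit 138) (nat_lit 1) (nat_lit 302) (nat_lit 339) (nat_lit 259))))) (XT.nd (nat_lit 234) (nat_lit 228) (nat_lit 0) (XT.nd (nat_lit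 78) (nat_lit 76) (nat_lit 0) (XT.lf (nat_lit 152) (nat_lit 17233454720) (nat_lit 0) (nat_lit 485246) (nat_lit 76) (nat_lit 485246) (nat_lit 137) (nat_lit 1) (nat_lit 135) (nat_lit 1) (nat_lit 136) (nat_lit 1) (nat_lit 303) (nat_lit 339) (nat_lit 258)) (XT.nd (nat_lit 78) (nat_lit 76) (nat_lit 0) (XT.lf (nat_lit 0) (nat_lit 5470841618) (nat_lit 0) (nat_lit 5472052442) (nat_lit 152) (nat_lit 5470841618) (nat_lit 135) (nat_lit 3) (nat_lit 135) (nat_lit 1) (nat_lit 137) (nat_lit 1) (nat_lit 304) (nat_lit 339) (nat_lit 257)) (XT.lf (nat_lit 76) (nat_lit 5221847941) (nat_lit 0) (nat_lit 5222900831) (nat_lit 76) (nat_lit 5222900831) (nat_lit 135) (nat_lit 3) (nat_lit 134) (nat_lit 1) (nat_lit 135) (nat_lit 1) (nat_lit 305) (nat_lit 339) (nat_lit 256)))) (XT.nd (nat_lit 78) (nat_lit 76) (nat_lit 0) (XT.lf (nat_lit 152) (nat_lit 14985882975) (nat_lit 0) (nat_lit 277441) (nat_lit 76) (nat_lit 277441) (nat_lit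 134) (nat_lit 1) (nat_lit 132) (nat_lit 1) (nat_lit 133) (nat_lit 1) (nat_lit 306) (nat_lit 339) (nat_lit 255)) (XT.nd (nat_lit 78) (nat_lit 76) (nat_lit 0) (XT.lf (nat_lit 0) (nat_lit 4757368056) (nat_lit 0) (nat_lit 4758060349) (nat_lit 152) (nat_lit 4757368056) (nat_lit 132) (nat_lit 3) (nat_lit 132) (nat_lit 1) (nat_lit 134) (nat_lit 1) (nat_lit 307) (nat_lit 339) (nat_lit 254)) (XT.lf (nat_lit 76) (nat_lit 4540941631) (nat_lit 0) (nat_lit 4541543625) (nat_lit 76) (nat_lit 4541543625) (nat_lit 132) (nat_lit 3) (nat_lit 131) (nat_lit 1) (nat_lit 132) (nat_lit 1) (nat_lit 308) (nat_lit 339) (nat_lit 253))))))) (XT.nd (nat_lit 858) (nat_lit 912) (nat_lit 0) (XT.nd (nat_lit 390) (nat_lit 456) (nat_lit 0) (XT.nd (nat_lit 156) (nat_lit 228) (nat_lit 0) (XT.nd (nat_lit 78) (nat_lit 0) (nat_lit 0) (XT.lf (nat_lit 152) (nat_lit 13031357061) (nat_lit 0) (nat_lit 158628) (nat_lit 76) (nat_lit 158628)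 (nat_lit 131) (nat_lit 1) (nat_lit 129) (nat_lit 1) (nat_lit 130) (nat_lit 1) (nat_lit 309) (nat_lit 339) (nat_lit 252)) (XT.lf (nat_lit 0) (nat_lit 4136907240) (nat_lit 0) (nat_lit 4137303060) (nat_lit 152) (nat_lit 4136907240) (nat_lit 129) (nat_lit 3) (nat_lit 129) (nat_lit 1) (nat_lit 131) (nat_lit 1) (nat_lit 310) (nat_lit 339) (nat_lit 251))) (XT.nd (nat_lit 78) (nat_lit 152) (nat_lit 0) (XT.lf (nat_lit 76) (nat_lit 3948761701) (nat_lit 0) (nat_lit 3949105893) (nat_lit 76) (nat_lit 3949105893) (nat_lit 129) (nat_lit 3) (nat_lit 128) (nat_lit 1) (nat_lit 129) (nat_lit 1) (nat_lit 311) (nat_lit 339) (nat_lit 250)) (XT.nd (nat_lit 78) (nat_lit 0) (nat_lit 0) (XT.lf (nat_lit 152) (nat_lit 11331703156) (nat_lit 0) (nat_lit 90696) (nat_lit 76) (nat_lit 90696) (nat_lit 128) (nat_lit 1) (nat_lit 126) (nat_lit 1) (nat_lit 127) (nat_lit 1) (nat_lit 312) (nat_lit 339) (nat_lit 249)) (XT.lf (nat_lit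 0) (nat_lit 3597348065) (nat_lit 0) (nat_lit 3597574377) (nat_lit 152) (nat_lit 3597348065) (nat_lit 126) (nat_lit 3) (nat_lit 126) (nat_lit 1) (nat_lit 128) (nat_lit 1) (nat_lit 313) (nat_lit 339) (nat_lit 248))))) (XT.nd (nat_lit 234) (nat_lit 228) (nat_lit 0) (XT.nd (nat_lit 78) (nat_lit 152) (nat_lit 0) (XT.lf (nat_lit 76) (nat_lit 3433772610) (nat_lit 0) (nat_lit 3433969403) (nat_lit 76) (nat_lit 3433969403) (nat_lit 126) (nat_lit 3) (nat_lit 125) (nat_lit 1) (nat_lit 126) (nat_lit 1) (nat_lit 314) (nat_lit 339) (nat_lit 247)) (XT.nd (nat_lit 78) (nat_lit 0) (nat_lit 0) (XT.lf (nat_lit 152) (nat_lit 9853705416) (nat_lit 0) (nat_lit 51855) (nat_lit 76) (nat_lit 51855) (nat_lit 125) (nat_lit 1) (nat_lit 123) (nat_lit 1) (nat_lit 124) (nat_lit 1) (nat_lit 315) (nat_lit 339) (nat_lit 246)) (XT.lf (nat_lit 0) (nat_lit 3128150149) (nat_lit 0) (nat_lit 3128279543) (nat_lit 152) (nat_lit 3128150149)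 (nat_lit 123) (nat_lit 3) (nat_lit 123) (nat_lit 1) (nat_lit 125) (nat_lit 1) (nat_lit 316) (nat_lit 339) (nat_lit 245)))) (XT.nd (nat_lit 78) (nat_lit 152) (nat_lit 0) (XT.lf (nat_lit 76) (nat_lit 2985927409) (nat_lit 0) (nat_lit 2986039926) (nat_lit 76) (nat_lit 2986039926) (nat_lit 123) (nat_lit 3) (nat_lit 122) (nat_lit 1) (nat_lit 123) (nat_lit 1) (nat_lit 317) (nat_lit 339) (nat_lit 244)) (XT.nd (nat_lit 78) (nat_lit 0) (nat_lit 0) (XT.lf (nat_lit 152) (nat_lit 8568468364) (nat_lit 0) (nat_lit 29648) (nat_lit 76) (nat_lit 29648) (nat_lit 122) (nat_lit 1) (nat_lit 120) (nat_lit 1) (nat_lit 121) (nat_lit 1) (nat_lit 318) (nat_lit 339) (nat_lit 243)) (XT.lf (nat_lit 0) (nat_lit 2720142797) (nat_lit 0) (nat_lit 2720216779) (nat_lit 152) (nat_lit 2720142797) (nat_lit 120) (nat_lit 3) (nat_lit 120) (nat_lit 1) (nat_lit 122) (nat_lit 1) (nat_lit 319) (nat_lit 339) (nat_lit 242)))))) (XT.nd (nat_lit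 390) (nat_lit 456) (nat_lit 0) (XT.nd (nat_lit 156) (nat_lit 228) (nat_lit 0) (XT.nd (nat_lit 78) (nat_lit 152) (nat_lit 0) (XT.lf (nat_lit 76) (nat_lit 2596480448) (nat_lit 0) (nat_lit 2596544780) (nat_lit 76) (nat_lit 2596544780) (nat_lit 120) (nat_lit 3) (nat_lit 119) (nat_lit 1) (nat_lit 120) (nat_lit 1) (nat_lit 320) (nat_lit 339) (nat_lit 241)) (XT.lf (nat_lit 152) (nat_lit 7450858564) (nat_lit 0) (nat_lit 16951) (nat_lit 76) (nat_lit 16951) (nat_lit 119) (nat_lit 1) (nat_lit 117) (nat_lit 1) (nat_lit 118) (nat_lit 1) (nat_lit 321) (nat_lit 339) (nat_lit 240))) (XT.nd (nat_lit 78) (nat_lit 228) (nat_lit 0) (XT.lf (nat_lit 0) (nat_lit 2365348557) (nat_lit 0) (nat_lit 2365390857) (nat_lit 152) (nat_lit 2365348557) (nat_lit 117) (nat_lit 3) (nat_lit 117) (nat_lit 1) (nat_lit 119) (nat_lit 1) (nat_lit 322) (nat_lit 339) (nat_lit 239)) (XT.nd (nat_lit 78) (nat_lit 152) (nat_lit 0) (XT.lf (nat_lit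 76) (nat_lit 2257821568) (nat_lit 0) (nat_lit 2257858350) (nat_lit 76) (nat_lit 2257858350) (nat_lit 117) (nat_lit 3) (nat_lit 116) (nat_lit 1) (nat_lit 117) (nat_lit 1) (nat_lit 323) (nat_lit 339) (nat_lit 238)) (XT.lf (nat_lit 152) (nat_lit 6479016885) (nat_lit 0) (nat_lit 9692) (nat_lit 76) (nat_lit 9692) (nat_lit 116) (nat_lit 1) (nat_lit 114) (nat_lit 1) (nat_lit 115) (nat_lit 1) (nat_lit 324) (nat_lit 339) (nat_lit 237))))) (XT.nd (nat_lit 234) (nat_lit 228) (nat_lit 0) (XT.nd (nat_lit 78) (nat_lit 228) (nat_lit 0) (XT.lf (nat_lit 0) (nat_lit 2056828832) (nat_lit 0) (nat_lit 2056853016) (nat_lit 152) (nat_lit 2056828832) (nat_lit 114) (nat_lit 3) (nat_lit 114) (nat_lit 1) (nat_lit 116) (nat_lit 1) (nat_lit 325) (nat_lit 339) (nat_lit 236)) (XT.nd (nat_lit 78) (nat_lit 152) (nat_lit 0) (XT.lf (nat_lit 76) (nat_lit 1963330239) (nat_lit 0) (nat_lit 1963351269) (nat_lit 76) (nat_lit 1963351269)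 (nat_lit 114) (nat_lit 3) (nat_lit 113) (nat_lit 1) (nat_lit 114) (nat_lit 1) (nat_lit 326) (nat_lit 339) (nat_lit 235)) (XT.lf (nat_lit 152) (nat_lit 5633933122) (nat_lit 0) (nat_lit 5541) (nat_lit 76) (nat_lit 5541) (nat_lit 113) (nat_lit 1) (nat_lit 111) (nat_lit 1) (nat_lit 112) (nat_lit 1) (nat_lit 327) (nat_lit 339) (nat_lit 234)))) (XT.nd (nat_lit 78) (nat_lit 228) (nat_lit 0) (XT.lf (nat_lit 0) (nat_lit 1788549096) (nat_lit 0) (nat_lit 1788562924) (nat_lit 152) (nat_lit 1788549096) (nat_lit 111) (nat_lit 3) (nat_lit 111) (nat_lit 1) (nat_lit 113) (nat_lit 1) (nat_lit 328) (nat_lit 339) (nat_lit 233)) (XT.nd (nat_lit 78) (nat_lit 152) (nat_lit 0) (XT.lf (nat_lit 76) (nat_lit 1707247767) (nat_lit 0) (nat_lit 1707259791) (nat_lit 76) (nat_lit 1707259791) (nat_lit 111) (nat_lit 3) (nat_lit 110) (nat_lit 1) (nat_lit 111) (nat_lit 1) (nat_lit 329) (nat_lit 339) (nat_lit 232)) (XT.lf (nat_lit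 152) (nat_lit 4899075366) (nat_lit 0) (nat_lit 3168) (nat_lit 76) (nat_lit 3168) (nat_lit 110) (nat_lit 1) (nat_lit 108) (nat_lit 1) (nat_lit 109) (nat_lit 1) (nat_lit 330) (nat_lit 339) (nat_lit 231))))))))
noncomputable def ec121 : XT := (XT.nd (nat_lit 1716) (nat_lit 1444) (nat_lit 0) (XT.nd (nat_lit 858) (nat_lit 836) (nat_lit 0) (XT.nd (nat_lit 390) (nat_lit 456) (nat_lit 0) (XT.nd (nat_lit 156) (nat_lit 228) (nat_lit 0) (XT.nd (nat_lit 78) (nat_lit 76) (nat_lit 0) (XT.lf (nat_lit 0) (nat_lit 1555261391) (nat_lit 0) (nat_lit 1555269297) (nat_lit 152) (nat_lit 1555261391) (nat_lit 108) (nat_lit 3) (nat_lit 108) (nat_lit 1) (nat_lit 110) (nat_lit 1) (nat_lit 331) (nat_lit 339) (nat_lit 230)) (XT.lf (nat_lit 76) (nat_lit 1484565608) (nat_lit 0) (nat_lit 1484572483) (nat_lit 76) (nat_lit 1484572483) (nat_lit 108) (nat_lit 3) (nat_lit 107) (nat_lit 1) (nat_lit 108) (nat_lit 1) (nat_lit 332) (nat_lit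 339) (nat_lit 229))) (XT.nd (nat_lit 78) (nat_lit 76) (nat_lit 0) (XT.lf (nat_lit 152) (nat_lit 4260067299) (nat_lit 0) (nat_lit 1811) (nat_lit 76) (nat_lit 1811) (nat_lit 107) (nat_lit 1) (nat_lit 105) (nat_lit 1) (nat_lit 106) (nat_lit 1) (nat_lit 333) (nat_lit 339) (nat_lit 228)) (XT.nd (nat_lit 78) (nat_lit 76) (nat_lit 0) (XT.lf (nat_lit 0) (nat_lit 1352401957) (nat_lit 0) (nat_lit 1352406477) (nat_lit 152) (nat_lit 1352401957) (nat_lit 105) (nat_lit 3) (nat_lit 105) (nat_lit 1) (nat_lit 107) (nat_lit 1) (nat_lit 334) (nat_lit 339) (nat_lit 227)) (XT.lf (nat_lit 76) (nat_lit 1290927950) (nat_lit 0) (nat_lit 1290931880) (nat_lit 76) (nat_lit 1290931880) (nat_lit 105) (nat_lit 3) (nat_lit 104) (nat_lit 1) (nat_lit 105) (nat_lit 1) (nat_lit 335) (nat_lit 339) (nat_lit 226))))) (XT.nd (nat_lit 234) (nat_lit 228) (nat_lit 0) (XT.nd (nat_lit 78) (nat_lit 76) (nat_lit 0) (XT.lf (nat_lit 152) (nat_lit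 3704407356) (nat_lit 0) (nat_lit 1035) (nat_lit 76) (nat_lit 1035) (nat_lit 104) (nat_lit 1) (nat_lit 102) (nat_lit 1) (nat_lit 103) (nat_lit 1) (nat_lit 336) (nat_lit 339) (nat_lit 225)) (XT.nd (nat_lit 78) (nat_lit 76) (nat_lit 0) (XT.lf (nat_lit 0) (nat_lit 1176002129) (nat_lit 0) (nat_lit 1176004714) (nat_lit 152) (nat_lit 1176002129) (nat_lit 102) (nat_lit 3) (nat_lit 102) (nat_lit 1) (nat_lit 104) (nat_lit 1) (nat_lit 337) (nat_lit 339) (nat_lit 224)) (XT.lf (nat_lit 76) (nat_lit 1122546806) (nat_lit 0) (nat_lit 1122549053) (nat_lit 76) (nat_lit 1122549053) (nat_lit 102) (nat_lit 3) (nat_lit 101) (nat_lit 1) (nat_lit 102) (nat_lit 1) (nat_lit 338) (nat_lit 339) (nat_lit 223)))) (XT.nd (nat_lit 78) (nat_lit 76) (nat_lit 0) (XT.lf (nat_lit 152) (nat_lit 3221224364) (nat_lit 0) (nat_lit 592) (nat_lit 76) (nat_lit 592) (nat_lit 101) (nat_lit 1) (nat_lit 99) (nat_lit 1) (nat_lit 100) (nat_lit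 1) (nat_lit 339) (nat_lit 339) (nat_lit 222)) (XT.nd (nat_lit 78) (nat_lit 76) (nat_lit 0) (XT.lf (nat_lit 0) (nat_lit 1022610791) (nat_lit 0) (nat_lit 1022612269) (nat_lit 152) (nat_lit 1022610791) (nat_lit 99) (nat_lit 3) (nat_lit 99) (nat_lit 1) (nat_lit 101) (nat_lit 1) (nat_lit 340) (nat_lit 339) (nat_lit 221)) (XT.lf (nat_lit 76) (nat_lit 976128093) (nat_lit 0) (nat_lit 976129378) (nat_lit 76) (nat_lit 976129378) (nat_lit 99) (nat_lit 3) (nat_lit 98) (nat_lit 1) (nat_lit 99) (nat_lit 1) (nat_lit 341) (nat_lit 339) (nat_lit 220)))))) (XT.nd (nat_lit 390) (nat_lit 456) (nat_lit 0) (XT.nd (nat_lit 156) (nat_lit 228) (nat_lit 0) (XT.nd (nat_lit 78) (nat_lit 0) (nat_lit 0) (XT.lf (nat_lit 152) (nat_lit 2801064994) (nat_lit 0) (nat_lit 338) (nat_lit 76) (nat_lit 338) (nat_lit 98) (nat_lit 1) (nat_lit 96) (nat_lit 1) (nat_lit 97) (nat_lit 1) (nat_lit 342) (nat_lit 339) (nat_lit 219)) (XT.lf (nat_lit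 0) (nat_lit 889226915) (nat_lit 0) (nat_lit 889227760) (nat_lit 152) (nat_lit 889226915) (nat_lit 96) (nat_lit 3) (nat_lit 96) (nat_lit 1) (nat_lit 98) (nat_lit 1) (nat_lit 343) (nat_lit 339) (nat_lit 218))) (XT.nd (nat_lit 78) (nat_lit 152) (nat_lit 0) (XT.lf (nat_lit 76) (nat_lit 848807287) (nat_lit 0) (nat_lit 848808022) (nat_lit 76) (nat_lit 848808022) (nat_lit 96) (nat_lit 3) (nat_lit 95) (nat_lit 1) (nat_lit 96) (nat_lit 1) (nat_lit 344) (nat_lit 339) (nat_lit 217)) (XT.nd (nat_lit 78) (nat_lit 0) (nat_lit 0) (XT.lf (nat_lit 152) (nat_lit 2435708879) (nat_lit 0) (nat_lit 193) (nat_lit 76) (nat_lit 193) (nat_lit 95) (nat_lit 1) (nat_lit 93) (nat_lit 1) (nat_lit 94) (nat_lit 1) (nat_lit 345) (nat_lit 339) (nat_lit 216)) (XT.lf (nat_lit 0) (nat_lit 773240875) (nat_lit 0) (nat_lit 773241358) (nat_lit 152) (nat_lit 773240875) (nat_lit 93) (nat_lit 3) (nat_lit 93) (nat_lit 1) (nat_lit 95) (nat_lit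 1) (nat_lit 346) (nat_lit 339) (nat_lit 215))))) (XT.nd (nat_lit 234) (nat_lit 228) (nat_lit 0) (XT.nd (nat_lit 78) (nat_lit 152) (nat_lit 0) (XT.lf (nat_lit 76) (nat_lit 738093435) (nat_lit 0) (nat_lit 738093855) (nat_lit 76) (nat_lit 738093855) (nat_lit 93) (nat_lit 3) (nat_lit 92) (nat_lit 1) (nat_lit 93) (nat_lit 1) (nat_lit 347) (nat_lit 339) (nat_lit 214)) (XT.nd (nat_lit 78) (nat_lit 0) (nat_lit 0) (XT.lf (nat_lit 152) (nat_lit 2118007829) (nat_lit 0) (nat_lit 110) (nat_lit 76) (nat_lit 110) (nat_lit 92) (nat_lit 1) (nat_lit 90) (nat_lit 1) (nat_lit 91) (nat_lit 1) (nat_lit 348) (nat_lit 339) (nat_lit 213)) (XT.lf (nat_lit 0) (nat_lit 672383415) (nat_lit 0) (nat_lit 672383692) (nat_lit 152) (nat_lit 672383415) (nat_lit 90) (nat_lit 3) (nat_lit 90) (nat_lit 1) (nat_lit 92) (nat_lit 1) (nat_lit 349) (nat_lit 339) (nat_lit 212)))) (XT.nd (nat_lit 78) (nat_lit 152) (nat_lit 0) (XT.lf (nat_lit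 76) (nat_lit 641820460) (nat_lit 0) (nat_lit 641820700) (nat_lit 76) (nat_lit 641820700) (nat_lit 90) (nat_lit 3) (nat_lit 89) (nat_lit 1) (nat_lit 90) (nat_lit 1) (nat_lit 350) (nat_lit 339) (nat_lit 211)) (XT.nd (nat_lit 78) (nat_lit 0) (nat_lit 0) (XT.lf (nat_lit 152) (nat_lit 1841746000) (nat_lit 0) (nat_lit 63) (nat_lit 76) (nat_lit 63) (nat_lit 89) (nat_lit 1) (nat_lit 87) (nat_lit 1) (nat_lit 88) (nat_lit 1) (nat_lit 351) (nat_lit 339) (nat_lit 210)) (XT.lf (nat_lit 0) (nat_lit 584681257) (nat_lit 0) (nat_lit 584681415) (nat_lit 152) (nat_lit 584681257) (nat_lit 87) (nat_lit 3) (nat_lit 87) (nat_lit 1) (nat_lit 89) (nat_lit 1) (nat_lit 352) (nat_lit 339) (nat_lit 209))))))) (XT.nd (nat_lit 858) (nat_lit 532) (nat_lit 0) (XT.nd (nat_lit 390) (nat_lit 456) (nat_lit 0) (XT.nd (nat_lit 156) (nat_lit 228) (nat_lit 0) (XT.nd (nat_lit 78) (nat_lit 152) (nat_lit 0) (XT.lf (nat_lit 76) (nat_lit 558104794)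 (nat_lit 0) (nat_lit 558104932) (nat_lit 76) (nat_lit 558104932) (nat_lit 87) (nat_lit 3) (nat_lit 86) (nat_lit 1) (nat_lit 87) (nat_lit 1) (nat_lit 353) (nat_lit 339) (nat_lit 208)) (XT.lf (nat_lit 152) (nat_lit 1601518296) (nat_lit 0) (nat_lit 36) (nat_lit 76) (nat_lit 36) (nat_lit 86) (nat_lit 1) (nat_lit 84) (nat_lit 1) (nat_lit 85) (nat_lit 1) (nat_lit 354) (nat_lit 339) (nat_lit 207))) (XT.nd (nat_lit 78) (nat_lit 228) (nat_lit 0) (XT.lf (nat_lit 0) (nat_lit 508418499) (nat_lit 0) (nat_lit 508418589) (nat_lit 152) (nat_lit 508418499) (nat_lit 84) (nat_lit 3) (nat_lit 84) (nat_lit 1) (nat_lit 86) (nat_lit 1) (nat_lit 355) (nat_lit 339) (nat_lit 206)) (XT.nd (nat_lit 78) (nat_lit 152) (nat_lit 0) (XT.lf (nat_lit 76) (nat_lit 485308543) (nat_lit 0) (nat_lit 485308622) (nat_lit 76) (nat_lit 485308622) (nat_lit 84) (nat_lit 3) (nat_lit 83) (nat_lit 1) (nat_lit 84) (nat_lit 1) (nat_lit 356) (nat_lit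 339) (nat_lit 205)) (XT.lf (nat_lit 152) (nat_lit 1392624625) (nat_lit 0) (nat_lit 20) (nat_lit 76) (nat_lit 20) (nat_lit 83) (nat_lit 1) (nat_lit 81) (nat_lit 1) (nat_lit 82) (nat_lit 1) (nat_lit 357) (nat_lit 339) (nat_lit 204))))) (XT.nd (nat_lit 234) (nat_lit 228) (nat_lit 0) (XT.nd (nat_lit 78) (nat_lit 228) (nat_lit 0) (XT.lf (nat_lit 0) (nat_lit 442103051) (nat_lit 0) (nat_lit 442103103) (nat_lit 152) (nat_lit 442103051) (nat_lit 81) (nat_lit 3) (nat_lit 81) (nat_lit 1) (nat_lit 83) (nat_lit 1) (nat_lit 358) (nat_lit 339) (nat_lit 203)) (XT.nd (nat_lit 78) (nat_lit 152) (nat_lit 0) (XT.lf (nat_lit 76) (nat_lit 422007444) (nat_lit 0) (nat_lit 422007489) (nat_lit 76) (nat_lit 422007489) (nat_lit 81) (nat_lit 3) (nat_lit 80) (nat_lit 1) (nat_lit 81) (nat_lit 1) (nat_lit 359) (nat_lit 339) (nat_lit 202)) (XT.lf (nat_lit 152) (nat_lit 1210977946) (nat_lit 0) (nat_lit 11) (nat_lit 76) (nat_lit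 11) (nat_lit 80) (nat_lit 1) (nat_lit 78) (nat_lit 1) (nat_lit 79) (nat_lit 1) (nat_lit 360) (nat_lit 339) (nat_lit 201)))) (XT.nd (nat_lit 78) (nat_lit 228) (nat_lit 0) (XT.lf (nat_lit 0) (nat_lit 384437441) (nat_lit 0) (nat_lit 384437470) (nat_lit 152) (nat_lit 384437441) (nat_lit 78) (nat_lit 3) (nat_lit 78) (nat_lit 1) (nat_lit 80) (nat_lit 1) (nat_lit 361) (nat_lit 339) (nat_lit 200)) (XT.nd (nat_lit 78) (nat_lit 152) (nat_lit 0) (XT.lf (nat_lit 76) (nat_lit 366963004) (nat_lit 0) (nat_lit 366963029) (nat_lit 76) (nat_lit 366963029) (nat_lit 78) (nat_lit 3) (nat_lit 77) (nat_lit 1) (nat_lit 78) (nat_lit 1) (nat_lit 362) (nat_lit 339) (nat_lit 199)) (XT.lf (nat_lit 152) (nat_lit 1053024308) (nat_lit 0) (nat_lit 6) (nat_lit 76) (nat_lit 6) (nat_lit 77) (nat_lit 1) (nat_lit 75) (nat_lit 1) (nat_lit 76) (nat_lit 1) (nat_lit 363) (nat_lit 339) (nat_lit 198)))))) (XT.nd (nat_lit 468) (nat_lit 76)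 (nat_lit 0) (XT.nd (nat_lit 234) (nat_lit 228) (nat_lit 0) (XT.nd (nat_lit 78) (nat_lit 228) (nat_lit 0) (XT.lf (nat_lit 0) (nat_lit 334293429) (nat_lit 0) (nat_lit 334293446) (nat_lit 152) (nat_lit 334293429) (nat_lit 75) (nat_lit 3) (nat_lit 75) (nat_lit 1) (nat_lit 77) (nat_lit 1) (nat_lit 364) (nat_lit 339) (nat_lit 197)) (XT.nd (nat_lit 78) (nat_lit 152) (nat_lit 0) (XT.lf (nat_lit 76) (nat_lit 319098269) (nat_lit 0) (nat_lit 319098284) (nat_lit 76) (nat_lit 319098284) (nat_lit 75) (nat_lit 3) (nat_lit 74) (nat_lit 1) (nat_lit 75) (nat_lit 1) (nat_lit 365) (nat_lit 339) (nat_lit 196)) (XT.lf (nat_lit 152) (nat_lit 915673315) (nat_lit 0) (nat_lit 3) (nat_lit 76) (nat_lit 3) (nat_lit 74) (nat_lit 1) (nat_lit 72) (nat_lit 1) (nat_lit 73) (nat_lit 1) (nat_lit 366) (nat_lit 339) (nat_lit 195)))) (XT.nd (nat_lit 78) (nat_lit 228) (nat_lit 0) (XT.lf (nat_lit 0) (nat_lit 290689940) (nat_lit 0) (nat_lit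 290689950) (nat_lit 152) (nat_lit 290689940) (nat_lit 72) (nat_lit 3) (nat_lit 72) (nat_lit 1) (nat_lit 74) (nat_lit 1) (nat_lit 367) (nat_lit 339) (nat_lit 194)) (XT.nd (nat_lit 78) (nat_lit 152) (nat_lit 0) (XT.lf (nat_lit 76) (nat_lit 277476758) (nat_lit 0) (nat_lit 277476767) (nat_lit 76) (nat_lit 277476767) (nat_lit 72) (nat_lit 3) (nat_lit 71) (nat_lit 1) (nat_lit 72) (nat_lit 1) (nat_lit 368) (nat_lit 339) (nat_lit 193)) (XT.lf (nat_lit 152) (nat_lit 796237667) (nat_lit 0) (nat_lit 2) (nat_lit 76) (nat_lit 2) (nat_lit 71) (nat_lit 1) (nat_lit 69) (nat_lit 1) (nat_lit 70) (nat_lit 1) (nat_lit 369) (nat_lit 339) (nat_lit 192))))) (XT.nd (nat_lit 35256) (nat_lit 0) (nat_lit 11172) (XT.nd (nat_lit 78) (nat_lit 76) (nat_lit 0) (XT.lf (nat_lit 0) (nat_lit 252773862) (nat_lit 0) (nat_lit 252773867) (nat_lit 152) (nat_lit 252773862) (nat_lit 69) (nat_lit 3) (nat_lit 69) (nat_lit 1) (nat_lit 71)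 (nat_lit 1) (nat_lit 370) (nat_lit 339) (nat_lit 191)) (XT.nd (nat_lit 35100) (nat_lit 0) (nat_lit 11172) (XT.lf (nat_lit 76) (nat_lit 241284139) (nat_lit 0) (nat_lit 241284144) (nat_lit 76) (nat_lit 241284144) (nat_lit 69) (nat_lit 3) (nat_lit 68) (nat_lit 1) (nat_lit 69) (nat_lit 1) (nat_lit 371) (nat_lit 339) (nat_lit 190)) (XT.lf (nat_lit 380) (nat_lit 187948148694) (nat_lit 0) (nat_lit 166470300979) (nat_lit 380) (nat_lit 187948148694) (nat_lit 220) (nat_lit 1) (nat_lit 215) (nat_lit 0) (nat_lit 220) (nat_lit 0) (nat_lit 220) (nat_lit 340) (nat_lit 340)))) (XT.nd (nat_lit 78) (nat_lit 0) (nat_lit 76) (XT.lf (nat_lit 380) (nat_lit 695195811081) (nat_lit 76) (nat_lit 158903469116) (nat_lit 0) (nat_lit 158903469116) (nat_lit 220) (nat_lit 1) (nat_lit 216) (nat_lit 1) (nat_lit 215) (nat_lit 0) (nat_lit 221) (nat_lit 340) (nat_lit 339)) (XT.nd (nat_lit 78) (nat_lit 0) (nat_lit 0) (XT.lf (nat_lit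 380) (nat_lit 306438327065) (nat_lit 0) (nat_lit 333433806673) (nat_lit 304) (nat_lit 306438327065) (nat_lit 221) (nat_lit 1) (nat_lit 216) (nat_lit 1) (nat_lit 220) (nat_lit 1) (nat_lit 222) (nat_lit 340) (nat_lit 338)) (XT.lf (nat_lit 380) (nat_lit 526138696399) (nat_lit 76) (nat_lit 180100794885) (nat_lit 0) (nat_lit 180100794885) (nat_lit 221) (nat_lit 1) (nat_lit 217) (nat_lit 1) (nat_lit 216) (nat_lit 1) (nat_lit 223) (nat_lit 340) (nat_lit 337))))))))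
noncomputable def ec122 : XT := (XT.nd (nat_lit 1716) (nat_lit 1672) (nat_lit 0) (XT.nd (nat_lit 858) (nat_lit 760) (nat_lit 0) (XT.nd (nat_lit 390) (nat_lit 456) (nat_lit 0) (XT.nd (nat_lit 156) (nat_lit 380) (nat_lit 0) (XT.nd (nat_lit 78) (nat_lit 304) (nat_lit 0) (XT.lf (nat_lit 76) (nat_lit 212830080845) (nat_lit 0) (nat_lit 405264204324) (nat_lit 304) (nat_lit 212830080845) (nat_lit 218) (nat_lit 1) (nat_lit 217) (nat_lit 1) (nat_lit 221) (nat_lit 1) (nat_lit 224) (nat_lit 340) (nat_lit 336)) (XT.lf (nat_lit 380) (nat_lit 319866422618) (nat_lit 0) (nat_lit 230233717270) (nat_lit 304) (nat_lit 230233717270) (nat_lit 218) (nat_lit 1) (nat_lit 213) (nat_lit 1) (nat_lit 217) (nat_lit 1) (nat_lit 225) (nat_lit 340) (nat_lit 335))) (XT.nd (nat_lit 78) (nat_lit 380) (nat_lit 0) (XT.lf (nat_lit 76) (nat_lit 106320066245) (nat_lit 0) (nat_lit 521715229869) (nat_lit 380) (nat_lit 106320066245) (nat_lit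 214) (nat_lit 1) (nat_lit 213) (nat_lit 1) (nat_lit 218) (nat_lit 1) (nat_lit 226) (nat_lit 340) (nat_lit 334)) (XT.nd (nat_lit 78) (nat_lit 228) (nat_lit 0) (XT.lf (nat_lit 228) (nat_lit 95685551577) (nat_lit 0) (nat_lit 297797668829) (nat_lit 152) (nat_lit 297797668829) (nat_lit 214) (nat_lit 1) (nat_lit 211) (nat_lit 1) (nat_lit 213) (nat_lit 1) (nat_lit 227) (nat_lit 340) (nat_lit 333)) (XT.lf (nat_lit 228) (nat_lit 643005702620) (nat_lit 0) (nat_lit 5045029899) (nat_lit 152) (nat_lit 5045029899) (nat_lit 211) (nat_lit 1) (nat_lit 208) (nat_lit 1) (nat_lit 210) (nat_lit 1) (nat_lit 228) (nat_lit 340) (nat_lit 332))))) (XT.nd (nat_lit 234) (nat_lit 304) (nat_lit 0) (XT.nd (nat_lit 78) (nat_lit 152) (nat_lit 0) (XT.lf (nat_lit 76) (nat_lit 247046900893) (nat_lit 0) (nat_lit 121286878121) (nat_lit 228) (nat_lit 247046900893) (nat_lit 209) (nat_lit 1) (nat_lit 208) (nat_lit 1) (nat_lit 211) (nat_lit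 1) (nat_lit 229) (nat_lit 340) (nat_lit 331)) (XT.nd (nat_lit 78) (nat_lit 0) (nat_lit 0) (XT.lf (nat_lit 228) (nat_lit 359092152449) (nat_lit 0) (nat_lit 111386855685) (nat_lit 152) (nat_lit 111386855685) (nat_lit 209) (nat_lit 1) (nat_lit 206) (nat_lit 1) (nat_lit 208) (nat_lit 1) (nat_lit 230) (nat_lit 340) (nat_lit 330)) (XT.lf (nat_lit 76) (nat_lit 112299893794) (nat_lit 0) (nat_lit 325892371856) (nat_lit 228) (nat_lit 112299893794) (nat_lit 207) (nat_lit 1) (nat_lit 206) (nat_lit 1) (nat_lit 209) (nat_lit 1) (nat_lit 231) (nat_lit 340) (nat_lit 329)))) (XT.nd (nat_lit 78) (nat_lit 228) (nat_lit 0) (XT.lf (nat_lit 152) (nat_lit 92836615472) (nat_lit 0) (nat_lit 214220946847) (nat_lit 76) (nat_lit 214220946847) (nat_lit 207) (nat_lit 1) (nat_lit 205) (nat_lit 1) (nat_lit 206) (nat_lit 1) (nat_lit 232) (nat_lit 340) (nat_lit 328)) (XT.nd (nat_lit 78) (nat_lit 0) (nat_lit 0) (XT.lf (nat_lit 228)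 (nat_lit 469993519090) (nat_lit 0) (nat_lit 12485858865) (nat_lit 152) (nat_lit 12485858865) (nat_lit 205) (nat_lit 1) (nat_lit 202) (nat_lit 1) (nat_lit 204) (nat_lit 1) (nat_lit 233) (nat_lit 340) (nat_lit 327)) (XT.lf (nat_lit 76) (nat_lit 164487623312) (nat_lit 0) (nat_lit 139688256413) (nat_lit 228) (nat_lit 164487623312) (nat_lit 203) (nat_lit 1) (nat_lit 202) (nat_lit 1) (nat_lit 205) (nat_lit 1) (nat_lit 234) (nat_lit 340) (nat_lit 326)))))) (XT.nd (nat_lit 390) (nat_lit 456) (nat_lit 0) (XT.nd (nat_lit 156) (nat_lit 228) (nat_lit 0) (XT.nd (nat_lit 78) (nat_lit 0) (nat_lit 0) (XT.lf (nat_lit 152) (nat_lit 200001195670) (nat_lit 0) (nat_lit 122481521633) (nat_lit 76) (nat_lit 122481521633) (nat_lit 203) (nat_lit 1) (nat_lit 201) (nat_lit 1) (nat_lit 202) (nat_lit 1) (nat_lit 235) (nat_lit 340) (nat_lit 325)) (XT.lf (nat_lit 0) (nat_lit 39162990277) (nat_lit 0) (nat_lit 344787959193) (nat_lit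 152) (nat_lit 39162990277) (nat_lit 201) (nat_lit 3) (nat_lit 201) (nat_lit 1) (nat_lit 203) (nat_lit 1) (nat_lit 236) (nat_lit 340) (nat_lit 324))) (XT.nd (nat_lit 78) (nat_lit 76) (nat_lit 0) (XT.lf (nat_lit 76) (nat_lit 181246153841) (nat_lit 0) (nat_lit 39309157532) (nat_lit 152) (nat_lit 181246153841) (nat_lit 200) (nat_lit 1) (nat_lit 199) (nat_lit 1) (nat_lit 201) (nat_lit 1) (nat_lit 237) (nat_lit 340) (nat_lit 323)) (XT.nd (nat_lit 78) (nat_lit 0) (nat_lit 0) (XT.lf (nat_lit 152) (nat_lit 242109210542) (nat_lit 0) (nat_lit 70029207519) (nat_lit 76) (nat_lit 70029207519) (nat_lit 200) (nat_lit 1) (nat_lit 198) (nat_lit 1) (nat_lit 199) (nat_lit 1) (nat_lit 238) (nat_lit 340) (nat_lit 322)) (XT.lf (nat_lit 0) (nat_lit 62949623241) (nat_lit 0) (nat_lit 237691691153) (nat_lit 152) (nat_lit 62949623241) (nat_lit 198) (nat_lit 3) (nat_lit 198) (nat_lit 1) (nat_lit 200) (nat_lit 1) (nat_lit 239)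 (nat_lit 340) (nat_lit 321))))) (XT.nd (nat_lit 234) (nat_lit 228) (nat_lit 0) (XT.nd (nat_lit 78) (nat_lit 152) (nat_lit 0) (XT.lf (nat_lit 76) (nat_lit 14042936042) (nat_lit 0) (nat_lit 165992560313) (nat_lit 76) (nat_lit 165992560313) (nat_lit 198) (nat_lit 3) (nat_lit 197) (nat_lit 1) (nat_lit 198) (nat_lit 1) (nat_lit 240) (nat_lit 340) (nat_lit 320)) (XT.nd (nat_lit 78) (nat_lit 0) (nat_lit 0) (XT.lf (nat_lit 152) (nat_lit 249520533694) (nat_lit 0) (nat_lit 40039426685) (nat_lit 76) (nat_lit 40039426685) (nat_lit 197) (nat_lit 1) (nat_lit 195) (nat_lit 1) (nat_lit 196) (nat_lit 1) (nat_lit 241) (nat_lit 340) (nat_lit 319)) (XT.lf (nat_lit 0) (nat_lit 71259526564) (nat_lit 0) (nat_lit 171168871035) (nat_lit 152) (nat_lit 71259526564) (nat_lit 195) (nat_lit 3) (nat_lit 195) (nat_lit 1) (nat_lit 197) (nat_lit 1) (nat_lit 242) (nat_lit 340) (nat_lit 318)))) (XT.nd (nat_lit 78) (nat_lit 152) (nat_lit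 0) (XT.lf (nat_lit 76) (nat_lit 41693884192) (nat_lit 0) (nat_lit 128571575036) (nat_lit 76) (nat_lit 128571575036) (nat_lit 195) (nat_lit 3) (nat_lit 194) (nat_lit 1) (nat_lit 195) (nat_lit 1) (nat_lit 243) (nat_lit 340) (nat_lit 317)) (XT.nd (nat_lit 78) (nat_lit 0) (nat_lit 0) (XT.lf (nat_lit 152) (nat_lit 239267485224) (nat_lit 0) (nat_lit 22892672159) (nat_lit 76) (nat_lit 22892672159) (nat_lit 194) (nat_lit 1) (nat_lit 192) (nat_lit 1) (nat_lit 193) (nat_lit 1) (nat_lit 244) (nat_lit 340) (nat_lit 316)) (XT.lf (nat_lit 0) (nat_lit 71410583130) (nat_lit 0) (nat_lit 128534075096) (nat_lit 152) (nat_lit 71410583130) (nat_lit 192) (nat_lit 3) (nat_lit 192) (nat_lit 1) (nat_lit 194) (nat_lit 1) (nat_lit 245) (nat_lit 340) (nat_lit 315))))))) (XT.nd (nat_lit 858) (nat_lit 760) (nat_lit 0) (XT.nd (nat_lit 390) (nat_lit 456) (nat_lit 0) (XT.nd (nat_lit 156) (nat_lit 228) (nat_lit 0) (XT.nd (nat_lit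 78) (nat_lit 152) (nat_lit 0) (XT.lf (nat_lit 76) (nat_lit 53112343984) (nat_lit 0) (nat_lit 102784945694) (nat_lit 76) (nat_lit 102784945694) (nat_lit 192) (nat_lit 3) (nat_lit 191) (nat_lit 1) (nat_lit 192) (nat_lit 1) (nat_lit 246) (nat_lit 340) (nat_lit 314)) (XT.lf (nat_lit 152) (nat_lit 220804839713) (nat_lit 0) (nat_lit 13088959607) (nat_lit 76) (nat_lit 13088959607) (nat_lit 191) (nat_lit 1) (nat_lit 189) (nat_lit 1) (nat_lit 190) (nat_lit 1) (nat_lit 247) (nat_lit 340) (nat_lit 313))) (XT.nd (nat_lit 78) (nat_lit 228) (nat_lit 0) (XT.lf (nat_lit 0) (nat_lit 67496813141) (nat_lit 0) (nat_lit 100157355072) (nat_lit 152) (nat_lit 67496813141) (nat_lit 189) (nat_lit 3) (nat_lit 189) (nat_lit 1) (nat_lit 191) (nat_lit 1) (nat_lit 248) (nat_lit 340) (nat_lit 312)) (XT.nd (nat_lit 78) (nat_lit 152) (nat_lit 0) (XT.lf (nat_lit 76) (nat_lit 55822572773) (nat_lit 0) (nat_lit 84223044017) (nat_lit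 76) (nat_lit 84223044017) (nat_lit 189) (nat_lit 3) (nat_lit 188) (nat_lit 1) (nat_lit 189) (nat_lit 1) (nat_lit 249) (nat_lit 340) (nat_lit 311)) (XT.lf (nat_lit 152) (nat_lit 199291865028) (nat_lit 0) (nat_lit 7483655136) (nat_lit 76) (nat_lit 7483655136) (nat_lit 188) (nat_lit 1) (nat_lit 186) (nat_lit 1) (nat_lit 187) (nat_lit 1) (nat_lit 250) (nat_lit 340) (nat_lit 310))))) (XT.nd (nat_lit 234) (nat_lit 228) (nat_lit 0) (XT.nd (nat_lit 78) (nat_lit 228) (nat_lit 0) (XT.lf (nat_lit 0) (nat_lit 61780722387) (nat_lit 0) (nat_lit 80454493239) (nat_lit 152) (nat_lit 61780722387) (nat_lit 186) (nat_lit 3) (nat_lit 186) (nat_lit 1) (nat_lit 188) (nat_lit 1) (nat_lit 251) (nat_lit 340) (nat_lit 309)) (XT.nd (nat_lit 78) (nat_lit 152) (nat_lit 0) (XT.lf (nat_lit 76) (nat_lit 54051883002) (nat_lit 0) (nat_lit 70289944613) (nat_lit 76) (nat_lit 70289944613) (nat_lit 186) (nat_lit 3) (nat_lit 185) (nat_lit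 1) (nat_lit 186) (nat_lit 1) (nat_lit 252) (nat_lit 340) (nat_lit 308)) (XT.lf (nat_lit 152) (nat_lit 177464015241) (nat_lit 0) (nat_lit 4278804113) (nat_lit 76) (nat_lit 4278804113) (nat_lit 185) (nat_lit 1) (nat_lit 183) (nat_lit 1) (nat_lit 184) (nat_lit 1) (nat_lit 253) (nat_lit 340) (nat_lit 307)))) (XT.nd (nat_lit 78) (nat_lit 228) (nat_lit 0) (XT.lf (nat_lit 0) (nat_lit 55487850632) (nat_lit 0) (nat_lit 66164639724) (nat_lit 152) (nat_lit 55487850632) (nat_lit 183) (nat_lit 3) (nat_lit 183) (nat_lit 1) (nat_lit 185) (nat_lit 1) (nat_lit 254) (nat_lit 340) (nat_lit 306)) (XT.nd (nat_lit 78) (nat_lit 152) (nat_lit 0) (XT.lf (nat_lit 76) (nat_lit 50152292443) (nat_lit 0) (nat_lit 59436456871) (nat_lit 76) (nat_lit 59436456871) (nat_lit 183) (nat_lit 3) (nat_lit 182) (nat_lit 1) (nat_lit 183) (nat_lit 1) (nat_lit 255) (nat_lit 340) (nat_lit 305)) (XT.lf (nat_lit 152) (nat_lit 156698882856) (nat_lit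 0) (nat_lit 2446420139) (nat_lit 76) (nat_lit 2446420139) (nat_lit 182) (nat_lit 1) (nat_lit 180) (nat_lit 1) (nat_lit 181) (nat_lit 1) (nat_lit 256) (nat_lit 340) (nat_lit 304)))))) (XT.nd (nat_lit 390) (nat_lit 456) (nat_lit 0) (XT.nd (nat_lit 156) (nat_lit 228) (nat_lit 0) (XT.nd (nat_lit 78) (nat_lit 76) (nat_lit 0) (XT.lf (nat_lit 0) (nat_lit 49259725726) (nat_lit 0) (nat_lit 55364214542) (nat_lit 152) (nat_lit 49259725726) (nat_lit 180) (nat_lit 3) (nat_lit 180) (nat_lit 1) (nat_lit 182) (nat_lit 1) (nat_lit 257) (nat_lit 340) (nat_lit 303)) (XT.lf (nat_lit 76) (nat_lit 45412086331) (nat_lit 0) (nat_lit 50720337476) (nat_lit 76) (nat_lit 50720337476) (nat_lit 180) (nat_lit 3) (nat_lit 179) (nat_lit 1) (nat_lit 180) (nat_lit 1) (nat_lit 258) (nat_lit 340) (nat_lit 302))) (XT.nd (nat_lit 78) (nat_lit 76) (nat_lit 0) (XT.lf (nat_lit 152) (nat_lit 137622013259) (nat_lit 0) (nat_lit 1398748654)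 (nat_lit 76) (nat_lit 1398748654) (nat_lit 179) (nat_lit 1) (nat_lit 177) (nat_lit 1) (nat_lit 178) (nat_lit 1) (nat_lit 259) (nat_lit 340) (nat_lit 301)) (XT.nd (nat_lit 78) (nat_lit 76) (nat_lit 0) (XT.lf (nat_lit 0) (nat_lit 43411683745) (nat_lit 0) (nat_lit 46901945038) (nat_lit 152) (nat_lit 43411683745) (nat_lit 177) (nat_lit 3) (nat_lit 177) (nat_lit 1) (nat_lit 179) (nat_lit 1) (nat_lit 260) (nat_lit 340) (nat_lit 300)) (XT.lf (nat_lit 76) (nat_lit 40518725447) (nat_lit 0) (nat_lit 43553735268) (nat_lit 76) (nat_lit 43553735268) (nat_lit 177) (nat_lit 3) (nat_lit 176) (nat_lit 1) (nat_lit 177) (nat_lit 1) (nat_lit 261) (nat_lit 340) (nat_lit 299))))) (XT.nd (nat_lit 234) (nat_lit 228) (nat_lit 0) (XT.nd (nat_lit 78) (nat_lit 76) (nat_lit 0) (XT.lf (nat_lit 152) (nat_lit 120450109620) (nat_lit 0) (nat_lit 799739083) (nat_lit 76) (nat_lit 799739083) (nat_lit 176) (nat_lit 1) (nat_lit 174)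 (nat_lit 1) (nat_lit 175) (nat_lit 1) (nat_lit 262) (nat_lit 340) (nat_lit 298)) (XT.nd (nat_lit 78) (nat_lit 76) (nat_lit 0) (XT.lf (nat_lit 0) (nat_lit 38079271673) (nat_lit 0) (nat_lit 40074839895) (nat_lit 152) (nat_lit 38079271673) (nat_lit 174) (nat_lit 3) (nat_lit 174) (nat_lit 1) (nat_lit 176) (nat_lit 1) (nat_lit 263) (nat_lit 340) (nat_lit 297)) (XT.lf (nat_lit 76) (nat_lit 35822554259) (nat_lit 0) (nat_lit 37557830974) (nat_lit 76) (nat_lit 37557830974) (nat_lit 174) (nat_lit 3) (nat_lit 173) (nat_lit 1) (nat_lit 174) (nat_lit 1) (nat_lit 264) (nat_lit 340) (nat_lit 296)))) (XT.nd (nat_lit 78) (nat_lit 76) (nat_lit 0) (XT.lf (nat_lit 152) (nat_lit 105184503606) (nat_lit 0) (nat_lit 457253416) (nat_lit 76) (nat_lit 457253416) (nat_lit 173) (nat_lit 1) (nat_lit 171) (nat_lit 1) (nat_lit 172) (nat_lit 1) (nat_lit 265) (nat_lit 340) (nat_lit 295)) (XT.nd (nat_lit 78) (nat_lit 76) (nat_lit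 0) (XT.lf (nat_lit 0) (nat_lit 33301078121) (nat_lit 0) (nat_lit 34442050729) (nat_lit 152) (nat_lit 33301078121) (nat_lit 171) (nat_lit 3) (nat_lit 171) (nat_lit 1) (nat_lit 173) (nat_lit 1) (nat_lit 266) (nat_lit 340) (nat_lit 294)) (XT.lf (nat_lit 76) (nat_lit 31486741208) (nat_lit 0) (nat_lit 32478891302) (nat_lit 76) (nat_lit 32478891302) (nat_lit 171) (nat_lit 3) (nat_lit 170) (nat_lit 1) (nat_lit 171) (nat_lit 1) (nat_lit 267) (nat_lit 340) (nat_lit 293))))))))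
noncomputable def ec123 : XT := (XT.nd (nat_lit 1716) (nat_lit 1672) (nat_lit 0) (XT.nd (nat_lit 858) (nat_lit 912) (nat_lit 0) (XT.nd (nat_lit 390) (nat_lit 456) (nat_lit 0) (XT.nd (nat_lit 156) (nat_lit 228) (nat_lit 0) (XT.nd (nat_lit 78) (nat_lit 0) (nat_lit 0) (XT.lf (nat_lit 152) (nat_lit 91719374800) (nat_lit 0) (nat_lit 261436124) (nat_lit 76) (nat_lit 261436124) (nat_lit 170) (nat_lit 1) (nat_lit 168) (nat_lit 1) (nat_lit 169) (nat_lit 1) (nat_lit 268) (nat_lit 340) (nat_lit 292)) (XT.lf (nat_lit 0) (nat_lit 29065330760) (nat_lit 0) (nat_lit 29717685551) (nat_lit 152) (nat_lit 29065330760) (nat_lit 168) (nat_lit 3) (nat_lit 168) (nat_lit 1) (nat_lit 170) (nat_lit 1) (nat_lit 269) (nat_lit 340) (nat_lit 291))) (XT.nd (nat_lit 78) (nat_lit 152) (nat_lit 0) (XT.lf (nat_lit 76) (nat_lit 27572280866) (nat_lit 0) (nat_lit 28139545902) (nat_lit 76) (nat_lit 28139545902) (nat_lit 168) (nat_lit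 3) (nat_lit 167) (nat_lit 1) (nat_lit 168) (nat_lit 1) (nat_lit 270) (nat_lit 340) (nat_lit 290)) (XT.nd (nat_lit 78) (nat_lit 0) (nat_lit 0) (XT.lf (nat_lit 152) (nat_lit 79901540206) (nat_lit 0) (nat_lit 149476952) (nat_lit 76) (nat_lit 149476952) (nat_lit 167) (nat_lit 1) (nat_lit 165) (nat_lit 1) (nat_lit 166) (nat_lit 1) (nat_lit 271) (nat_lit 340) (nat_lit 289)) (XT.lf (nat_lit 0) (nat_lit 25335876555) (nat_lit 0) (nat_lit 25708862524) (nat_lit 152) (nat_lit 25335876555) (nat_lit 165) (nat_lit 3) (nat_lit 165) (nat_lit 1) (nat_lit 167) (nat_lit 1) (nat_lit 272) (nat_lit 340) (nat_lit 288))))) (XT.nd (nat_lit 234) (nat_lit 228) (nat_lit 0) (XT.nd (nat_lit 78) (nat_lit 152) (nat_lit 0) (XT.lf (nat_lit 76) (nat_lit 24085962279) (nat_lit 0) (nat_lit 24410297905) (nat_lit 76) (nat_lit 24410297905) (nat_lit 165) (nat_lit 3) (nat_lit 164) (nat_lit 1) (nat_lit 165) (nat_lit 1) (nat_lit 273) (nat_lit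 340) (nat_lit 287)) (XT.nd (nat_lit 78) (nat_lit 0) (nat_lit 0) (XT.lf (nat_lit 152) (nat_lit 69562825793) (nat_lit 0) (nat_lit 85463932) (nat_lit 76) (nat_lit 85463932) (nat_lit 164) (nat_lit 1) (nat_lit 162) (nat_lit 1) (nat_lit 163) (nat_lit 1) (nat_lit 274) (nat_lit 340) (nat_lit 286)) (XT.lf (nat_lit 0) (nat_lit 22066460397) (nat_lit 0) (nat_lit 22279716335) (nat_lit 152) (nat_lit 22066460397) (nat_lit 162) (nat_lit 3) (nat_lit 162) (nat_lit 1) (nat_lit 164) (nat_lit 1) (nat_lit 275) (nat_lit 340) (nat_lit 285)))) (XT.nd (nat_lit 78) (nat_lit 152) (nat_lit 0) (XT.lf (nat_lit 76) (nat_lit 21007245546) (nat_lit 0) (nat_lit 21192685493) (nat_lit 76) (nat_lit 21192685493) (nat_lit 162) (nat_lit 3) (nat_lit 161) (nat_lit 1) (nat_lit 162) (nat_lit 1) (nat_lit 276) (nat_lit 340) (nat_lit 284)) (XT.nd (nat_lit 78) (nat_lit 0) (nat_lit 0) (XT.lf (nat_lit 152) (nat_lit 60536998248) (nat_lit 0) (nat_lit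 48864281) (nat_lit 76) (nat_lit 48864281) (nat_lit 161) (nat_lit 1) (nat_lit 159) (nat_lit 1) (nat_lit 160) (nat_lit 1) (nat_lit 277) (nat_lit 340) (nat_lit 283)) (XT.lf (nat_lit 0) (nat_lit 19208388391) (nat_lit 0) (nat_lit 19330318166) (nat_lit 152) (nat_lit 19208388391) (nat_lit 159) (nat_lit 3) (nat_lit 159) (nat_lit 1) (nat_lit 161) (nat_lit 1) (nat_lit 278) (nat_lit 340) (nat_lit 282)))))) (XT.nd (nat_lit 390) (nat_lit 456) (nat_lit 0) (XT.nd (nat_lit 156) (nat_lit 228) (nat_lit 0) (XT.nd (nat_lit 78) (nat_lit 152) (nat_lit 0) (XT.lf (nat_lit 76) (nat_lit 18303150770) (nat_lit 0) (nat_lit 18409176661) (nat_lit 76) (nat_lit 18409176661) (nat_lit 159) (nat_lit 3) (nat_lit 158) (nat_lit 1) (nat_lit 159) (nat_lit 1) (nat_lit 279) (nat_lit 340) (nat_lit 281)) (XT.lf (nat_lit 152) (nat_lit 52668074643) (nat_lit 0) (nat_lit 27938311) (nat_lit 76) (nat_lit 27938311) (nat_lit 158) (nat_lit 1) (nat_lit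 156) (nat_lit 1) (nat_lit 157) (nat_lit 1) (nat_lit 280) (nat_lit 340) (nat_lit 280))) (XT.nd (nat_lit 78) (nat_lit 228) (nat_lit 0) (XT.lf (nat_lit 0) (nat_lit 16714474093) (nat_lit 0) (nat_lit 16784187837) (nat_lit 152) (nat_lit 16714474093) (nat_lit 156) (nat_lit 3) (nat_lit 156) (nat_lit 1) (nat_lit 158) (nat_lit 1) (nat_lit 281) (nat_lit 340) (nat_lit 279)) (XT.nd (nat_lit 78) (nat_lit 152) (nat_lit 0) (XT.lf (nat_lit 76) (nat_lit 15936355377) (nat_lit 0) (nat_lit 15996976025) (nat_lit 76) (nat_lit 15996976025) (nat_lit 156) (nat_lit 3) (nat_lit 155) (nat_lit 1) (nat_lit 156) (nat_lit 1) (nat_lit 282) (nat_lit 340) (nat_lit 278)) (XT.lf (nat_lit 152) (nat_lit 45813881238) (nat_lit 0) (nat_lit 15973820) (nat_lit 76) (nat_lit 15973820) (nat_lit 155) (nat_lit 1) (nat_lit 153) (nat_lit 1) (nat_lit 154) (nat_lit 1) (nat_lit 283) (nat_lit 340) (nat_lit 277))))) (XT.nd (nat_lit 234) (nat_lit 228)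 (nat_lit 0) (XT.nd (nat_lit 78) (nat_lit 228) (nat_lit 0) (XT.lf (nat_lit 0) (nat_lit 14540916278) (nat_lit 0) (nat_lit 14580775338) (nat_lit 152) (nat_lit 14540916278) (nat_lit 153) (nat_lit 3) (nat_lit 153) (nat_lit 1) (nat_lit 155) (nat_lit 1) (nat_lit 284) (nat_lit 340) (nat_lit 276)) (XT.nd (nat_lit 78) (nat_lit 152) (nat_lit 0) (XT.lf (nat_lit 76) (nat_lit 13869462492) (nat_lit 0) (nat_lit 13904122544) (nat_lit 76) (nat_lit 13904122544) (nat_lit 153) (nat_lit 3) (nat_lit 152) (nat_lit 1) (nat_lit 153) (nat_lit 1) (nat_lit 285) (nat_lit 340) (nat_lit 275)) (XT.lf (nat_lit 152) (nat_lit 39847051485) (nat_lit 0) (nat_lit 9133083) (nat_lit 76) (nat_lit 9133083) (nat_lit 152) (nat_lit 1) (nat_lit 150) (nat_lit 1) (nat_lit 151) (nat_lit 1) (nat_lit 286) (nat_lit 340) (nat_lit 274)))) (XT.nd (nat_lit 78) (nat_lit 228) (nat_lit 0) (XT.lf (nat_lit 0) (nat_lit 12648043439) (nat_lit 0) (nat_lit 12670832986)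 (nat_lit 152) (nat_lit 12648043439) (nat_lit 150) (nat_lit 3) (nat_lit 150) (nat_lit 1) (nat_lit 152) (nat_lit 1) (nat_lit 287) (nat_lit 340) (nat_lit 273)) (XT.nd (nat_lit 78) (nat_lit 152) (nat_lit 0) (XT.lf (nat_lit 76) (nat_lit 12067127223) (nat_lit 0) (nat_lit 12086944220) (nat_lit 76) (nat_lit 12086944220) (nat_lit 150) (nat_lit 3) (nat_lit 149) (nat_lit 1) (nat_lit 150) (nat_lit 1) (nat_lit 288) (nat_lit 340) (nat_lit 272)) (XT.lf (nat_lit 152) (nat_lit 34654695095) (nat_lit 0) (nat_lit 5221870) (nat_lit 76) (nat_lit 5221870) (nat_lit 149) (nat_lit 1) (nat_lit 147) (nat_lit 1) (nat_lit 148) (nat_lit 1) (nat_lit 289) (nat_lit 340) (nat_lit 271))))))) (XT.nd (nat_lit 858) (nat_lit 912) (nat_lit 0) (XT.nd (nat_lit 390) (nat_lit 456) (nat_lit 0) (XT.nd (nat_lit 156) (nat_lit 228) (nat_lit 0) (XT.nd (nat_lit 78) (nat_lit 76) (nat_lit 0) (XT.lf (nat_lit 0) (nat_lit 11000453245) (nat_lit 0) (nat_lit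 11013483243) (nat_lit 152) (nat_lit 11000453245) (nat_lit 147) (nat_lit 3) (nat_lit 147) (nat_lit 1) (nat_lit 149) (nat_lit 1) (nat_lit 290) (nat_lit 340) (nat_lit 270)) (XT.lf (nat_lit 76) (nat_lit 10496999179) (nat_lit 0) (nat_lit 10508329611) (nat_lit 76) (nat_lit 10508329611) (nat_lit 147) (nat_lit 3) (nat_lit 146) (nat_lit 1) (nat_lit 147) (nat_lit 1) (nat_lit 291) (nat_lit 340) (nat_lit 269))) (XT.nd (nat_lit 78) (nat_lit 76) (nat_lit 0) (XT.lf (nat_lit 152) (nat_lit 30137424901) (nat_lit 0) (nat_lit 2985621) (nat_lit 76) (nat_lit 2985621) (nat_lit 146) (nat_lit 1) (nat_lit 144) (nat_lit 1) (nat_lit 145) (nat_lit 1) (nat_lit 292) (nat_lit 340) (nat_lit 268)) (XT.nd (nat_lit 78) (nat_lit 76) (nat_lit 0) (XT.lf (nat_lit 0) (nat_lit 9566843419) (nat_lit 0) (nat_lit 9574293362) (nat_lit 152) (nat_lit 9566843419) (nat_lit 144) (nat_lit 3) (nat_lit 144) (nat_lit 1) (nat_lit 146) (nat_lit 1) (nat_lit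 293) (nat_lit 340) (nat_lit 267)) (XT.lf (nat_lit 76) (nat_lit 9130023806) (nat_lit 0) (nat_lit 9136502017) (nat_lit 76) (nat_lit 9136502017) (nat_lit 144) (nat_lit 3) (nat_lit 143) (nat_lit 1) (nat_lit 144) (nat_lit 1) (nat_lit 294) (nat_lit 340) (nat_lit 266))))) (XT.nd (nat_lit 234) (nat_lit 228) (nat_lit 0) (XT.nd (nat_lit 78) (nat_lit 76) (nat_lit 0) (XT.lf (nat_lit 152) (nat_lit 26208118766) (nat_lit 0) (nat_lit 1707038) (nat_lit 76) (nat_lit 1707038) (nat_lit 143) (nat_lit 1) (nat_lit 141) (nat_lit 1) (nat_lit 142) (nat_lit 1) (nat_lit 295) (nat_lit 340) (nat_lit 265)) (XT.nd (nat_lit 78) (nat_lit 76) (nat_lit 0) (XT.lf (nat_lit 0) (nat_lit 8319698621) (nat_lit 0) (nat_lit 8323958150) (nat_lit 152) (nat_lit 8319698621) (nat_lit 141) (nat_lit 3) (nat_lit 141) (nat_lit 1) (nat_lit 143) (nat_lit 1) (nat_lit 296) (nat_lit 340) (nat_lit 264)) (XT.lf (nat_lit 76) (nat_lit 7940408096) (nat_lit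 0) (nat_lit 7944112035) (nat_lit 76) (nat_lit 7944112035) (nat_lit 141) (nat_lit 3) (nat_lit 140) (nat_lit 1) (nat_lit 141) (nat_lit 1) (nat_lit 297) (nat_lit 340) (nat_lit 263)))) (XT.nd (nat_lit 78) (nat_lit 76) (nat_lit 0) (XT.lf (nat_lit 152) (nat_lit 22790618935) (nat_lit 0) (nat_lit 976004) (nat_lit 76) (nat_lit 976004) (nat_lit 140) (nat_lit 1) (nat_lit 138) (nat_lit 1) (nat_lit 139) (nat_lit 1) (nat_lit 298) (nat_lit 340) (nat_lit 262)) (XT.nd (nat_lit 78) (nat_lit 76) (nat_lit 0) (XT.lf (nat_lit 0) (nat_lit 7234923251) (nat_lit 0) (nat_lit 7237358650) (nat_lit 152) (nat_lit 7234923251) (nat_lit 138) (nat_lit 3) (nat_lit 138) (nat_lit 1) (nat_lit 140) (nat_lit 1) (nat_lit 299) (nat_lit 340) (nat_lit 261)) (XT.lf (nat_lit 76) (nat_lit 6905421364) (nat_lit 0) (nat_lit 6907539103) (nat_lit 76) (nat_lit 6907539103) (nat_lit 138) (nat_lit 3) (nat_lit 137) (nat_lit 1) (nat_lit 138) (nat_lit 1)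 (nat_lit 300) (nat_lit 340) (nat_lit 260)))))) (XT.nd (nat_lit 468) (nat_lit 456) (nat_lit 0) (XT.nd (nat_lit 234) (nat_lit 228) (nat_lit 0) (XT.nd (nat_lit 78) (nat_lit 76) (nat_lit 0) (XT.lf (nat_lit 152) (nat_lit 19818472928) (nat_lit 0) (nat_lit 558033) (nat_lit 76) (nat_lit 558033) (nat_lit 137) (nat_lit 1) (nat_lit 135) (nat_lit 1) (nat_lit 136) (nat_lit 1) (nat_lit 301) (nat_lit 340) (nat_lit 259)) (XT.nd (nat_lit 78) (nat_lit 76) (nat_lit 0) (XT.lf (nat_lit 0) (nat_lit 6291467860) (nat_lit 0) (nat_lit 6292860308) (nat_lit 152) (nat_lit 6291467860) (nat_lit 135) (nat_lit 3) (nat_lit 135) (nat_lit 1) (nat_lit 137) (nat_lit 1) (nat_lit 302) (nat_lit 340) (nat_lit 258)) (XT.lf (nat_lit 76) (nat_lit 6005125132) (nat_lit 0) (nat_lit 6006335956) (nat_lit 76) (nat_lit 6006335956) (nat_lit 135) (nat_lit 3) (nat_lit 134) (nat_lit 1) (nat_lit 135) (nat_lit 1) (nat_lit 303) (nat_lit 340) (nat_lit 257))))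 (XT.nd (nat_lit 78) (nat_lit 76) (nat_lit 0) (XT.lf (nat_lit 152) (nat_lit 17233765421) (nat_lit 0) (nat_lit 319057) (nat_lit 76) (nat_lit 319057) (nat_lit 134) (nat_lit 1) (nat_lit 132) (nat_lit 1) (nat_lit 133) (nat_lit 1) (nat_lit 304) (nat_lit 340) (nat_lit 256)) (XT.nd (nat_lit 78) (nat_lit 76) (nat_lit 0) (XT.lf (nat_lit 0) (nat_lit 5470973264) (nat_lit 0) (nat_lit 5471769401) (nat_lit 152) (nat_lit 5470973264) (nat_lit 132) (nat_lit 3) (nat_lit 132) (nat_lit 1) (nat_lit 134) (nat_lit 1) (nat_lit 305) (nat_lit 340) (nat_lit 255)) (XT.lf (nat_lit 76) (nat_lit 5222082876) (nat_lit 0) (nat_lit 5222775168) (nat_lit 76) (nat_lit 5222775168) (nat_lit 132) (nat_lit 3) (nat_lit 131) (nat_lit 1) (nat_lit 132) (nat_lit 1) (nat_lit 306) (nat_lit 340) (nat_lit 254))))) (XT.nd (nat_lit 234) (nat_lit 228) (nat_lit 0) (XT.nd (nat_lit 78) (nat_lit 76) (nat_lit 0) (XT.lf (nat_lit 152) (nat_lit 14986060620)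 (nat_lit 0) (nat_lit 182422) (nat_lit 76) (nat_lit 182422) (nat_lit 131) (nat_lit 1) (nat_lit 129) (nat_lit 1) (nat_lit 130) (nat_lit 1) (nat_lit 307) (nat_lit 340) (nat_lit 253)) (XT.nd (nat_lit 78) (nat_lit 76) (nat_lit 0) (XT.lf (nat_lit 0) (nat_lit 4757443326) (nat_lit 0) (nat_lit 4757898519) (nat_lit 152) (nat_lit 4757443326) (nat_lit 129) (nat_lit 3) (nat_lit 129) (nat_lit 1) (nat_lit 131) (nat_lit 1) (nat_lit 308) (nat_lit 340) (nat_lit 252)) (XT.lf (nat_lit 76) (nat_lit 4541075956) (nat_lit 0) (nat_lit 4541471777) (nat_lit 76) (nat_lit 4541471777) (nat_lit 129) (nat_lit 3) (nat_lit 128) (nat_lit 1) (nat_lit 129) (nat_lit 1) (nat_lit 309) (nat_lit 340) (nat_lit 251)))) (XT.nd (nat_lit 78) (nat_lit 76) (nat_lit 0) (XT.lf (nat_lit 152) (nat_lit 13031458629) (nat_lit 0) (nat_lit 104300) (nat_lit 76) (nat_lit 104300) (nat_lit 128) (nat_lit 1) (nat_lit 126) (nat_lit 1) (nat_lit 127) (nat_lit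 1) (nat_lit 310) (nat_lit 340) (nat_lit 250)) (XT.nd (nat_lit 78) (nat_lit 76) (nat_lit 0) (XT.lf (nat_lit 0) (nat_lit 4136950275) (nat_lit 0) (nat_lit 4137210534) (nat_lit 152) (nat_lit 4136950275) (nat_lit 126) (nat_lit 3) (nat_lit 126) (nat_lit 1) (nat_lit 128) (nat_lit 1) (nat_lit 311) (nat_lit 340) (nat_lit 249)) (XT.lf (nat_lit 76) (nat_lit 3948838501) (nat_lit 0) (nat_lit 3949064813) (nat_lit 76) (nat_lit 3949064813) (nat_lit 126) (nat_lit 3) (nat_lit 125) (nat_lit 1) (nat_lit 126) (nat_lit 1) (nat_lit 312) (nat_lit 340) (nat_lit 248))))))))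
noncomputable def ec124 : XT := (XT.nd (nat_lit 1716) (nat_lit 1596) (nat_lit 0) (XT.nd (nat_lit 858) (nat_lit 912) (nat_lit 0) (XT.nd (nat_lit 390) (nat_lit 456) (nat_lit 0) (XT.nd (nat_lit 156) (nat_lit 228) (nat_lit 0) (XT.nd (nat_lit 78) (nat_lit 0) (nat_lit 0) (XT.lf (nat_lit 152) (nat_lit 11331761228) (nat_lit 0) (nat_lit 59634) (nat_lit 76) (nat_lit 59634) (nat_lit 125) (nat_lit 1) (nat_lit 123) (nat_lit 1) (nat_lit 124) (nat_lit 1) (nat_lit 313) (nat_lit 340) (nat_lit 247)) (XT.lf (nat_lit 0) (nat_lit 3597372671) (nat_lit 0) (nat_lit 3597521475) (nat_lit 152) (nat_lit 3597372671) (nat_lit 123) (nat_lit 3) (nat_lit 123) (nat_lit 1) (nat_lit 125) (nat_lit 1) (nat_lit 314) (nat_lit 340) (nat_lit 246))) (XT.nd (nat_lit 78) (nat_lit 152) (nat_lit 0) (XT.lf (nat_lit 76) (nat_lit 3433816521) (nat_lit 0) (nat_lit 3433945915) (nat_lit 76) (nat_lit 3433945915) (nat_lit 123) (nat_lit 3) (nat_lit 122)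 (nat_lit 1) (nat_lit 123) (nat_lit 1) (nat_lit 315) (nat_lit 340) (nat_lit 245)) (XT.nd (nat_lit 78) (nat_lit 0) (nat_lit 0) (XT.lf (nat_lit 152) (nat_lit 9853738619) (nat_lit 0) (nat_lit 34096) (nat_lit 76) (nat_lit 34096) (nat_lit 122) (nat_lit 1) (nat_lit 120) (nat_lit 1) (nat_lit 121) (nat_lit 1) (nat_lit 316) (nat_lit 340) (nat_lit 244)) (XT.lf (nat_lit 0) (nat_lit 3128164217) (nat_lit 0) (nat_lit 3128249296) (nat_lit 152) (nat_lit 3128164217) (nat_lit 120) (nat_lit 3) (nat_lit 120) (nat_lit 1) (nat_lit 122) (nat_lit 1) (nat_lit 317) (nat_lit 340) (nat_lit 243))))) (XT.nd (nat_lit 234) (nat_lit 228) (nat_lit 0) (XT.nd (nat_lit 78) (nat_lit 152) (nat_lit 0) (XT.lf (nat_lit 76) (nat_lit 2985952516) (nat_lit 0) (nat_lit 2986026497) (nat_lit 76) (nat_lit 2986026497) (nat_lit 120) (nat_lit 3) (nat_lit 119) (nat_lit 1) (nat_lit 120) (nat_lit 1) (nat_lit 318) (nat_lit 340) (nat_lit 242)) (XT.nd (nat_lit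 78) (nat_lit 0) (nat_lit 0) (XT.lf (nat_lit 152) (nat_lit 8568487348) (nat_lit 0) (nat_lit 19494) (nat_lit 76) (nat_lit 19494) (nat_lit 119) (nat_lit 1) (nat_lit 117) (nat_lit 1) (nat_lit 118) (nat_lit 1) (nat_lit 319) (nat_lit 340) (nat_lit 241)) (XT.lf (nat_lit 0) (nat_lit 2720150841) (nat_lit 0) (nat_lit 2720199485) (nat_lit 152) (nat_lit 2720150841) (nat_lit 117) (nat_lit 3) (nat_lit 117) (nat_lit 1) (nat_lit 119) (nat_lit 1) (nat_lit 320) (nat_lit 340) (nat_lit 240)))) (XT.nd (nat_lit 78) (nat_lit 152) (nat_lit 0) (XT.lf (nat_lit 76) (nat_lit 2596494803) (nat_lit 0) (nat_lit 2596537102) (nat_lit 76) (nat_lit 2596537102) (nat_lit 117) (nat_lit 3) (nat_lit 116) (nat_lit 1) (nat_lit 117) (nat_lit 1) (nat_lit 321) (nat_lit 340) (nat_lit 239)) (XT.nd (nat_lit 78) (nat_lit 0) (nat_lit 0) (XT.lf (nat_lit 152) (nat_lit 7450869418) (nat_lit 0) (nat_lit 11146) (nat_lit 76) (nat_lit 11146) (nat_lit 116)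 (nat_lit 1) (nat_lit 114) (nat_lit 1) (nat_lit 115) (nat_lit 1) (nat_lit 322) (nat_lit 340) (nat_lit 238)) (XT.lf (nat_lit 0) (nat_lit 2365353156) (nat_lit 0) (nat_lit 2365380969) (nat_lit 152) (nat_lit 2365353156) (nat_lit 114) (nat_lit 3) (nat_lit 114) (nat_lit 1) (nat_lit 116) (nat_lit 1) (nat_lit 323) (nat_lit 340) (nat_lit 237)))))) (XT.nd (nat_lit 390) (nat_lit 456) (nat_lit 0) (XT.nd (nat_lit 156) (nat_lit 228) (nat_lit 0) (XT.nd (nat_lit 78) (nat_lit 152) (nat_lit 0) (XT.lf (nat_lit 76) (nat_lit 2257829775) (nat_lit 0) (nat_lit 2257853960) (nat_lit 76) (nat_lit 2257853960) (nat_lit 114) (nat_lit 3) (nat_lit 113) (nat_lit 1) (nat_lit 114) (nat_lit 1) (nat_lit 324) (nat_lit 340) (nat_lit 236)) (XT.lf (nat_lit 152) (nat_lit 6479023091) (nat_lit 0) (nat_lit 6372) (nat_lit 76) (nat_lit 6372) (nat_lit 113) (nat_lit 1) (nat_lit 111) (nat_lit 1) (nat_lit 112) (nat_lit 1) (nat_lit 325) (nat_lit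 340) (nat_lit 235))) (XT.nd (nat_lit 78) (nat_lit 228) (nat_lit 0) (XT.lf (nat_lit 0) (nat_lit 2056831461) (nat_lit 0) (nat_lit 2056847363) (nat_lit 152) (nat_lit 2056831461) (nat_lit 111) (nat_lit 3) (nat_lit 111) (nat_lit 1) (nat_lit 113) (nat_lit 1) (nat_lit 326) (nat_lit 340) (nat_lit 234)) (XT.nd (nat_lit 78) (nat_lit 152) (nat_lit 0) (XT.lf (nat_lit 76) (nat_lit 1963334932) (nat_lit 0) (nat_lit 1963348759) (nat_lit 76) (nat_lit 1963348759) (nat_lit 111) (nat_lit 3) (nat_lit 110) (nat_lit 1) (nat_lit 111) (nat_lit 1) (nat_lit 327) (nat_lit 340) (nat_lit 233)) (XT.lf (nat_lit 152) (nat_lit 5633936671) (nat_lit 0) (nat_lit 3643) (nat_lit 76) (nat_lit 3643) (nat_lit 110) (nat_lit 1) (nat_lit 108) (nat_lit 1) (nat_lit 109) (nat_lit 1) (nat_lit 328) (nat_lit 340) (nat_lit 232))))) (XT.nd (nat_lit 234) (nat_lit 228) (nat_lit 0) (XT.nd (nat_lit 78) (nat_lit 228) (nat_lit 0) (XT.lf (nat_lit 0) (nat_lit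 1788550600) (nat_lit 0) (nat_lit 1788559692) (nat_lit 152) (nat_lit 1788550600) (nat_lit 108) (nat_lit 3) (nat_lit 108) (nat_lit 1) (nat_lit 110) (nat_lit 1) (nat_lit 329) (nat_lit 340) (nat_lit 231)) (XT.nd (nat_lit 78) (nat_lit 152) (nat_lit 0) (XT.lf (nat_lit 76) (nat_lit 1707250450) (nat_lit 0) (nat_lit 1707258356) (nat_lit 76) (nat_lit 1707258356) (nat_lit 108) (nat_lit 3) (nat_lit 107) (nat_lit 1) (nat_lit 108) (nat_lit 1) (nat_lit 330) (nat_lit 340) (nat_lit 230)) (XT.lf (nat_lit 152) (nat_lit 4899077394) (nat_lit 0) (nat_lit 2083) (nat_lit 76) (nat_lit 2083) (nat_lit 107) (nat_lit 1) (nat_lit 105) (nat_lit 1) (nat_lit 106) (nat_lit 1) (nat_lit 331) (nat_lit 340) (nat_lit 229)))) (XT.nd (nat_lit 78) (nat_lit 228) (nat_lit 0) (XT.lf (nat_lit 0) (nat_lit 1555262251) (nat_lit 0) (nat_lit 1555267449) (nat_lit 152) (nat_lit 1555262251) (nat_lit 105) (nat_lit 3) (nat_lit 105) (nat_lit 1) (nat_lit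 107) (nat_lit 1) (nat_lit 332) (nat_lit 340) (nat_lit 228)) (XT.nd (nat_lit 78) (nat_lit 152) (nat_lit 0) (XT.lf (nat_lit 76) (nat_lit 1484567142) (nat_lit 0) (nat_lit 1484571663) (nat_lit 76) (nat_lit 1484571663) (nat_lit 105) (nat_lit 3) (nat_lit 104) (nat_lit 1) (nat_lit 105) (nat_lit 1) (nat_lit 333) (nat_lit 340) (nat_lit 227)) (XT.lf (nat_lit 152) (nat_lit 4260068459) (nat_lit 0) (nat_lit 1191) (nat_lit 76) (nat_lit 1191) (nat_lit 104) (nat_lit 1) (nat_lit 102) (nat_lit 1) (nat_lit 103) (nat_lit 1) (nat_lit 334) (nat_lit 340) (nat_lit 226))))))) (XT.nd (nat_lit 858) (nat_lit 836) (nat_lit 0) (XT.nd (nat_lit 390) (nat_lit 456) (nat_lit 0) (XT.nd (nat_lit 156) (nat_lit 228) (nat_lit 0) (XT.nd (nat_lit 78) (nat_lit 76) (nat_lit 0) (XT.lf (nat_lit 0) (nat_lit 1352402449) (nat_lit 0) (nat_lit 1352405421) (nat_lit 152) (nat_lit 1352402449) (nat_lit 102) (nat_lit 3) (nat_lit 102) (nat_lit 1) (nat_lit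 104) (nat_lit 1) (nat_lit 335) (nat_lit 340) (nat_lit 225)) (XT.lf (nat_lit 76) (nat_lit 1290928827) (nat_lit 0) (nat_lit 1290931411) (nat_lit 76) (nat_lit 1290931411) (nat_lit 102) (nat_lit 3) (nat_lit 101) (nat_lit 1) (nat_lit 102) (nat_lit 1) (nat_lit 336) (nat_lit 340) (nat_lit 224))) (XT.nd (nat_lit 78) (nat_lit 76) (nat_lit 0) (XT.lf (nat_lit 152) (nat_lit 3704408019) (nat_lit 0) (nat_lit 681) (nat_lit 76) (nat_lit 681) (nat_lit 101) (nat_lit 1) (nat_lit 99) (nat_lit 1) (nat_lit 100) (nat_lit 1) (nat_lit 337) (nat_lit 340) (nat_lit 223)) (XT.nd (nat_lit 78) (nat_lit 76) (nat_lit 0) (XT.lf (nat_lit 0) (nat_lit 1176002410) (nat_lit 0) (nat_lit 1176004109) (nat_lit 152) (nat_lit 1176002410) (nat_lit 99) (nat_lit 3) (nat_lit 99) (nat_lit 1) (nat_lit 101) (nat_lit 1) (nat_lit 338) (nat_lit 340) (nat_lit 222)) (XT.lf (nat_lit 76) (nat_lit 1122547307) (nat_lit 0) (nat_lit 1122548785) (nat_lit 76)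 (nat_lit 1122548785) (nat_lit 99) (nat_lit 3) (nat_lit 98) (nat_lit 1) (nat_lit 99) (nat_lit 1) (nat_lit 339) (nat_lit 340) (nat_lit 221))))) (XT.nd (nat_lit 234) (nat_lit 228) (nat_lit 0) (XT.nd (nat_lit 78) (nat_lit 76) (nat_lit 0) (XT.lf (nat_lit 152) (nat_lit 3221224743) (nat_lit 0) (nat_lit 389) (nat_lit 76) (nat_lit 389) (nat_lit 98) (nat_lit 1) (nat_lit 96) (nat_lit 1) (nat_lit 97) (nat_lit 1) (nat_lit 340) (nat_lit 340) (nat_lit 220)) (XT.nd (nat_lit 78) (nat_lit 76) (nat_lit 0) (XT.lf (nat_lit 0) (nat_lit 1022610952) (nat_lit 0) (nat_lit 1022611924) (nat_lit 152) (nat_lit 1022610952) (nat_lit 96) (nat_lit 3) (nat_lit 96) (nat_lit 1) (nat_lit 98) (nat_lit 1) (nat_lit 341) (nat_lit 340) (nat_lit 219)) (XT.lf (nat_lit 76) (nat_lit 976128380) (nat_lit 0) (nat_lit 976129225) (nat_lit 76) (nat_lit 976129225) (nat_lit 96) (nat_lit 3) (nat_lit 95) (nat_lit 1) (nat_lit 96) (nat_lit 1) (nat_lit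 342) (nat_lit 340) (nat_lit 218)))) (XT.nd (nat_lit 78) (nat_lit 76) (nat_lit 0) (XT.lf (nat_lit 152) (nat_lit 2801065211) (nat_lit 0) (nat_lit 222) (nat_lit 76) (nat_lit 222) (nat_lit 95) (nat_lit 1) (nat_lit 93) (nat_lit 1) (nat_lit 94) (nat_lit 1) (nat_lit 343) (nat_lit 340) (nat_lit 217)) (XT.nd (nat_lit 78) (nat_lit 76) (nat_lit 0) (XT.lf (nat_lit 0) (nat_lit 889227007) (nat_lit 0) (nat_lit 889227562) (nat_lit 152) (nat_lit 889227007) (nat_lit 93) (nat_lit 3) (nat_lit 93) (nat_lit 1) (nat_lit 95) (nat_lit 1) (nat_lit 344) (nat_lit 340) (nat_lit 216)) (XT.lf (nat_lit 76) (nat_lit 848807451) (nat_lit 0) (nat_lit 848807934) (nat_lit 76) (nat_lit 848807934) (nat_lit 93) (nat_lit 3) (nat_lit 92) (nat_lit 1) (nat_lit 93) (nat_lit 1) (nat_lit 345) (nat_lit 340) (nat_lit 215)))))) (XT.nd (nat_lit 390) (nat_lit 456) (nat_lit 0) (XT.nd (nat_lit 156) (nat_lit 228) (nat_lit 0) (XT.nd (nat_lit 78) (nat_lit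 0) (nat_lit 0) (XT.lf (nat_lit 152) (nat_lit 2435709003) (nat_lit 0) (nat_lit 127) (nat_lit 76) (nat_lit 127) (nat_lit 92) (nat_lit 1) (nat_lit 90) (nat_lit 1) (nat_lit 91) (nat_lit 1) (nat_lit 346) (nat_lit 340) (nat_lit 214)) (XT.lf (nat_lit 0) (nat_lit 773240928) (nat_lit 0) (nat_lit 773241245) (nat_lit 152) (nat_lit 773240928) (nat_lit 90) (nat_lit 3) (nat_lit 90) (nat_lit 1) (nat_lit 92) (nat_lit 1) (nat_lit 347) (nat_lit 340) (nat_lit 213))) (XT.nd (nat_lit 78) (nat_lit 152) (nat_lit 0) (XT.lf (nat_lit 76) (nat_lit 738093529) (nat_lit 0) (nat_lit 738093805) (nat_lit 76) (nat_lit 738093805) (nat_lit 90) (nat_lit 3) (nat_lit 89) (nat_lit 1) (nat_lit 90) (nat_lit 1) (nat_lit 348) (nat_lit 340) (nat_lit 212)) (XT.nd (nat_lit 78) (nat_lit 0) (nat_lit 0) (XT.lf (nat_lit 152) (nat_lit 2118007900) (nat_lit 0) (nat_lit 72) (nat_lit 76) (nat_lit 72) (nat_lit 89) (nat_lit 1) (nat_lit 87) (nat_lit 1)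 (nat_lit 88) (nat_lit 1) (nat_lit 349) (nat_lit 340) (nat_lit 211)) (XT.lf (nat_lit 0) (nat_lit 672383445) (nat_lit 0) (nat_lit 672383627) (nat_lit 152) (nat_lit 672383445) (nat_lit 87) (nat_lit 3) (nat_lit 87) (nat_lit 1) (nat_lit 89) (nat_lit 1) (nat_lit 350) (nat_lit 340) (nat_lit 210))))) (XT.nd (nat_lit 234) (nat_lit 228) (nat_lit 0) (XT.nd (nat_lit 78) (nat_lit 152) (nat_lit 0) (XT.lf (nat_lit 76) (nat_lit 641820514) (nat_lit 0) (nat_lit 641820672) (nat_lit 76) (nat_lit 641820672) (nat_lit 87) (nat_lit 3) (nat_lit 86) (nat_lit 1) (nat_lit 87) (nat_lit 1) (nat_lit 351) (nat_lit 340) (nat_lit 209)) (XT.nd (nat_lit 78) (nat_lit 0) (nat_lit 0) (XT.lf (nat_lit 152) (nat_lit 1841746040) (nat_lit 0) (nat_lit 41) (nat_lit 76) (nat_lit 41) (nat_lit 86) (nat_lit 1) (nat_lit 84) (nat_lit 1) (nat_lit 85) (nat_lit 1) (nat_lit 352) (nat_lit 340) (nat_lit 208)) (XT.lf (nat_lit 0) (nat_lit 584681274) (nat_lit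 0) (nat_lit 584681378) (nat_lit 152) (nat_lit 584681274) (nat_lit 84) (nat_lit 3) (nat_lit 84) (nat_lit 1) (nat_lit 86) (nat_lit 1) (nat_lit 353) (nat_lit 340) (nat_lit 207)))) (XT.nd (nat_lit 78) (nat_lit 152) (nat_lit 0) (XT.lf (nat_lit 76) (nat_lit 558104825) (nat_lit 0) (nat_lit 558104915) (nat_lit 76) (nat_lit 558104915) (nat_lit 84) (nat_lit 3) (nat_lit 83) (nat_lit 1) (nat_lit 84) (nat_lit 1) (nat_lit 354) (nat_lit 340) (nat_lit 206)) (XT.nd (nat_lit 78) (nat_lit 0) (nat_lit 0) (XT.lf (nat_lit 152) (nat_lit 1601518319) (nat_lit 0) (nat_lit 23) (nat_lit 76) (nat_lit 23) (nat_lit 83) (nat_lit 1) (nat_lit 81) (nat_lit 1) (nat_lit 82) (nat_lit 1) (nat_lit 355) (nat_lit 340) (nat_lit 205)) (XT.lf (nat_lit 0) (nat_lit 508418509) (nat_lit 0) (nat_lit 508418568) (nat_lit 152) (nat_lit 508418509) (nat_lit 81) (nat_lit 3) (nat_lit 81) (nat_lit 1) (nat_lit 83) (nat_lit 1) (nat_lit 356) (nat_lit 340)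 (nat_lit 204))))))))
noncomputable def ec125 : XT := (XT.nd (nat_lit 36582) (nat_lit 0) (nat_lit 9272) (XT.nd (nat_lit 858) (nat_lit 228) (nat_lit 0) (XT.nd (nat_lit 390) (nat_lit 456) (nat_lit 0) (XT.nd (nat_lit 156) (nat_lit 228) (nat_lit 0) (XT.nd (nat_lit 78) (nat_lit 152) (nat_lit 0) (XT.lf (nat_lit 76) (nat_lit 485308561) (nat_lit 0) (nat_lit 485308613) (nat_lit 76) (nat_lit 485308613) (nat_lit 81) (nat_lit 3) (nat_lit 80) (nat_lit 1) (nat_lit 81) (nat_lit 1) (nat_lit 357) (nat_lit 340) (nat_lit 203)) (XT.lf (nat_lit 152) (nat_lit 1392624638) (nat_lit 0) (nat_lit 13) (nat_lit 76) (nat_lit 13) (nat_lit 80) (nat_lit 1) (nat_lit 78) (nat_lit 1) (nat_lit 79) (nat_lit 1) (nat_lit 358) (nat_lit 340) (nat_lit 202))) (XT.nd (nat_lit 78) (nat_lit 228) (nat_lit 0) (XT.lf (nat_lit 0) (nat_lit 442103057) (nat_lit 0) (nat_lit 442103091) (nat_lit 152) (nat_lit 442103057) (nat_lit 78) (nat_lit 3) (nat_lit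 78) (nat_lit 1) (nat_lit 80) (nat_lit 1) (nat_lit 359) (nat_lit 340) (nat_lit 201)) (XT.nd (nat_lit 78) (nat_lit 152) (nat_lit 0) (XT.lf (nat_lit 76) (nat_lit 422007454) (nat_lit 0) (nat_lit 422007484) (nat_lit 76) (nat_lit 422007484) (nat_lit 78) (nat_lit 3) (nat_lit 77) (nat_lit 1) (nat_lit 78) (nat_lit 1) (nat_lit 360) (nat_lit 340) (nat_lit 200)) (XT.lf (nat_lit 152) (nat_lit 1210977954) (nat_lit 0) (nat_lit 7) (nat_lit 76) (nat_lit 7) (nat_lit 77) (nat_lit 1) (nat_lit 75) (nat_lit 1) (nat_lit 76) (nat_lit 1) (nat_lit 361) (nat_lit 340) (nat_lit 199))))) (XT.nd (nat_lit 234) (nat_lit 228) (nat_lit 0) (XT.nd (nat_lit 78) (nat_lit 228) (nat_lit 0) (XT.lf (nat_lit 0) (nat_lit 384437444) (nat_lit 0) (nat_lit 384437463) (nat_lit 152) (nat_lit 384437444) (nat_lit 75) (nat_lit 3) (nat_lit 75) (nat_lit 1) (nat_lit 77) (nat_lit 1) (nat_lit 362) (nat_lit 340) (nat_lit 198)) (XT.nd (nat_lit 78) (nat_lit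 152) (nat_lit 0) (XT.lf (nat_lit 76) (nat_lit 366963009) (nat_lit 0) (nat_lit 366963026) (nat_lit 76) (nat_lit 366963026) (nat_lit 75) (nat_lit 3) (nat_lit 74) (nat_lit 1) (nat_lit 75) (nat_lit 1) (nat_lit 363) (nat_lit 340) (nat_lit 197)) (XT.lf (nat_lit 152) (nat_lit 1053024312) (nat_lit 0) (nat_lit 4) (nat_lit 76) (nat_lit 4) (nat_lit 74) (nat_lit 1) (nat_lit 72) (nat_lit 1) (nat_lit 73) (nat_lit 1) (nat_lit 364) (nat_lit 340) (nat_lit 196)))) (XT.nd (nat_lit 78) (nat_lit 228) (nat_lit 0) (XT.lf (nat_lit 0) (nat_lit 334293431) (nat_lit 0) (nat_lit 334293442) (nat_lit 152) (nat_lit 334293431) (nat_lit 72) (nat_lit 3) (nat_lit 72) (nat_lit 1) (nat_lit 74) (nat_lit 1) (nat_lit 365) (nat_lit 340) (nat_lit 195)) (XT.nd (nat_lit 78) (nat_lit 152) (nat_lit 0) (XT.lf (nat_lit 76) (nat_lit 319098272) (nat_lit 0) (nat_lit 319098282) (nat_lit 76) (nat_lit 319098282) (nat_lit 72) (nat_lit 3) (nat_lit 71)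 (nat_lit 1) (nat_lit 72) (nat_lit 1) (nat_lit 366) (nat_lit 340) (nat_lit 194)) (XT.lf (nat_lit 152) (nat_lit 915673317) (nat_lit 0) (nat_lit 2) (nat_lit 76) (nat_lit 2) (nat_lit 71) (nat_lit 1) (nat_lit 69) (nat_lit 1) (nat_lit 70) (nat_lit 1) (nat_lit 367) (nat_lit 340) (nat_lit 193)))))) (XT.nd (nat_lit 35256) (nat_lit 0) (nat_lit 11172) (XT.nd (nat_lit 156) (nat_lit 152) (nat_lit 0) (XT.nd (nat_lit 78) (nat_lit 76) (nat_lit 0) (XT.lf (nat_lit 0) (nat_lit 290689941) (nat_lit 0) (nat_lit 290689947) (nat_lit 152) (nat_lit 290689941) (nat_lit 69) (nat_lit 3) (nat_lit 69) (nat_lit 1) (nat_lit 71) (nat_lit 1) (nat_lit 368) (nat_lit 340) (nat_lit 192)) (XT.lf (nat_lit 76) (nat_lit 277476760) (nat_lit 0) (nat_lit 277476766) (nat_lit 76) (nat_lit 277476766) (nat_lit 69) (nat_lit 3) (nat_lit 68) (nat_lit 1) (nat_lit 69) (nat_lit 1) (nat_lit 369) (nat_lit 340) (nat_lit 191))) (XT.nd (nat_lit 78) (nat_lit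 0) (nat_lit 0) (XT.lf (nat_lit 152) (nat_lit 796237668) (nat_lit 0) (nat_lit 1) (nat_lit 76) (nat_lit 1) (nat_lit 68) (nat_lit 1) (nat_lit 66) (nat_lit 1) (nat_lit 67) (nat_lit 1) (nat_lit 370) (nat_lit 340) (nat_lit 190)) (XT.nd (nat_lit 34944) (nat_lit 0) (nat_lit 11324) (XT.lf (nat_lit 0) (nat_lit 252773862) (nat_lit 0) (nat_lit 252773866) (nat_lit 152) (nat_lit 252773862) (nat_lit 66) (nat_lit 3) (nat_lit 66) (nat_lit 1) (nat_lit 68) (nat_lit 1) (nat_lit 371) (nat_lit 340) (nat_lit 189)) (XT.lf (nat_lit 380) (nat_lit 216140370998) (nat_lit 0) (nat_lit 191440846125) (nat_lit 380) (nat_lit 216140370998) (nat_lit 220) (nat_lit 1) (nat_lit 215) (nat_lit 0) (nat_lit 220) (nat_lit 0) (nat_lit 218) (nat_lit 341) (nat_lit 341))))) (XT.nd (nat_lit 234) (nat_lit 152) (nat_lit 0) (XT.nd (nat_lit 78) (nat_lit 0) (nat_lit 76) (XT.lf (nat_lit 380) (nat_lit 799475182743) (nat_lit 76) (nat_lit 182738989483)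 (nat_lit 0) (nat_lit 182738989483) (nat_lit 220) (nat_lit 1) (nat_lit 216) (nat_lit 1) (nat_lit 215) (nat_lit 0) (nat_lit 219) (nat_lit 341) (nat_lit 340)) (XT.nd (nat_lit 78) (nat_lit 0) (nat_lit 0) (XT.lf (nat_lit 380) (nat_lit 352404076125) (nat_lit 0) (nat_lit 383448877674) (nat_lit 304) (nat_lit 352404076125) (nat_lit 221) (nat_lit 1) (nat_lit 216) (nat_lit 1) (nat_lit 220) (nat_lit 1) (nat_lit 220) (nat_lit 341) (nat_lit 339)) (XT.lf (nat_lit 380) (nat_lit 605059500859) (nat_lit 76) (nat_lit 207115914118) (nat_lit 0) (nat_lit 207115914118) (nat_lit 221) (nat_lit 1) (nat_lit 217) (nat_lit 1) (nat_lit 216) (nat_lit 1) (nat_lit 221) (nat_lit 341) (nat_lit 338)))) (XT.nd (nat_lit 78) (nat_lit 304) (nat_lit 0) (XT.lf (nat_lit 76) (nat_lit 244754592972) (nat_lit 0) (nat_lit 466053834973) (nat_lit 304) (nat_lit 244754592972) (nat_lit 218) (nat_lit 1) (nat_lit 217) (nat_lit 1) (nat_lit 221) (nat_lit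 1) (nat_lit 222) (nat_lit 341) (nat_lit 337)) (XT.nd (nat_lit 78) (nat_lit 0) (nat_lit 0) (XT.lf (nat_lit 380) (nat_lit 367846386010) (nat_lit 0) (nat_lit 264768774861) (nat_lit 304) (nat_lit 264768774861) (nat_lit 218) (nat_lit 1) (nat_lit 213) (nat_lit 1) (nat_lit 217) (nat_lit 1) (nat_lit 223) (nat_lit 341) (nat_lit 336)) (XT.lf (nat_lit 76) (nat_lit 122268076182) (nat_lit 0) (nat_lit 599972514349) (nat_lit 380) (nat_lit 122268076182) (nat_lit 214) (nat_lit 1) (nat_lit 213) (nat_lit 1) (nat_lit 218) (nat_lit 1) (nat_lit 224) (nat_lit 341) (nat_lit 335))))))) (XT.nd (nat_lit 858) (nat_lit 836) (nat_lit 0) (XT.nd (nat_lit 390) (nat_lit 532) (nat_lit 0) (XT.nd (nat_lit 156) (nat_lit 152) (nat_lit 0) (XT.nd (nat_lit 78) (nat_lit 228) (nat_lit 0) (XT.lf (nat_lit 228) (nat_lit 110038384314) (nat_lit 0) (nat_lit 342467319154) (nat_lit 152) (nat_lit 342467319154) (nat_lit 214) (nat_lit 1) (nat_lit 211)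 (nat_lit 1) (nat_lit 213) (nat_lit 1) (nat_lit 225) (nat_lit 341) (nat_lit 334)) (XT.lf (nat_lit 228) (nat_lit 739456558014) (nat_lit 0) (nat_lit 5801784384) (nat_lit 152) (nat_lit 5801784384) (nat_lit 211) (nat_lit 1) (nat_lit 208) (nat_lit 1) (nat_lit 210) (nat_lit 1) (nat_lit 226) (nat_lit 341) (nat_lit 333))) (XT.nd (nat_lit 78) (nat_lit 152) (nat_lit 0) (XT.lf (nat_lit 76) (nat_lit 284103936026) (nat_lit 0) (nat_lit 139479909840) (nat_lit 228) (nat_lit 284103936026) (nat_lit 209) (nat_lit 1) (nat_lit 208) (nat_lit 1) (nat_lit 211) (nat_lit 1) (nat_lit 227) (nat_lit 341) (nat_lit 332)) (XT.nd (nat_lit 78) (nat_lit 0) (nat_lit 0) (XT.lf (nat_lit 228) (nat_lit 412955975317) (nat_lit 0) (nat_lit 128094884038) (nat_lit 152) (nat_lit 128094884038) (nat_lit 209) (nat_lit 1) (nat_lit 206) (nat_lit 1) (nat_lit 208) (nat_lit 1) (nat_lit 228) (nat_lit 341) (nat_lit 331)) (XT.lf (nat_lit 76) (nat_lit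 129144877863) (nat_lit 0) (nat_lit 374776227634) (nat_lit 228) (nat_lit 129144877863) (nat_lit 207) (nat_lit 1) (nat_lit 206) (nat_lit 1) (nat_lit 209) (nat_lit 1) (nat_lit 229) (nat_lit 341) (nat_lit 330))))) (XT.nd (nat_lit 234) (nat_lit 228) (nat_lit 0) (XT.nd (nat_lit 78) (nat_lit 228) (nat_lit 0) (XT.lf (nat_lit 152) (nat_lit 106762107793) (nat_lit 0) (nat_lit 246354088874) (nat_lit 76) (nat_lit 246354088874) (nat_lit 207) (nat_lit 1) (nat_lit 205) (nat_lit 1) (nat_lit 206) (nat_lit 1) (nat_lit 230) (nat_lit 341) (nat_lit 329)) (XT.nd (nat_lit 78) (nat_lit 0) (nat_lit 0) (XT.lf (nat_lit 228) (nat_lit 540492546953) (nat_lit 0) (nat_lit 14358737695) (nat_lit 152) (nat_lit 14358737695) (nat_lit 205) (nat_lit 1) (nat_lit 202) (nat_lit 1) (nat_lit 204) (nat_lit 1) (nat_lit 231) (nat_lit 341) (nat_lit 328)) (XT.lf (nat_lit 76) (nat_lit 189160766809) (nat_lit 0) (nat_lit 160641494875) (nat_lit 228)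 (nat_lit 189160766809) (nat_lit 203) (nat_lit 1) (nat_lit 202) (nat_lit 1) (nat_lit 205) (nat_lit 1) (nat_lit 232) (nat_lit 341) (nat_lit 327)))) (XT.nd (nat_lit 78) (nat_lit 152) (nat_lit 0) (XT.lf (nat_lit 152) (nat_lit 230001375021) (nat_lit 0) (nat_lit 140853749878) (nat_lit 76) (nat_lit 140853749878) (nat_lit 203) (nat_lit 1) (nat_lit 201) (nat_lit 1) (nat_lit 202) (nat_lit 1) (nat_lit 233) (nat_lit 341) (nat_lit 326)) (XT.nd (nat_lit 78) (nat_lit 152) (nat_lit 0) (XT.lf (nat_lit 0) (nat_lit 45037438819) (nat_lit 0) (nat_lit 396506153073) (nat_lit 152) (nat_lit 45037438819) (nat_lit 201) (nat_lit 3) (nat_lit 201) (nat_lit 1) (nat_lit 203) (nat_lit 1) (nat_lit 234) (nat_lit 341) (nat_lit 325)) (XT.lf (nat_lit 76) (nat_lit 208433076917) (nat_lit 0) (nat_lit 45205531162) (nat_lit 152) (nat_lit 208433076917) (nat_lit 200) (nat_lit 1) (nat_lit 199) (nat_lit 1) (nat_lit 201) (nat_lit 1) (nat_lit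 235) (nat_lit 341) (nat_lit 324)))))) (XT.nd (nat_lit 468) (nat_lit 456) (nat_lit 0) (XT.nd (nat_lit 234) (nat_lit 228) (nat_lit 0) (XT.nd (nat_lit 78) (nat_lit 76) (nat_lit 0) (XT.lf (nat_lit 152) (nat_lit 278425592124) (nat_lit 0) (nat_lit 80533588647) (nat_lit 76) (nat_lit 80533588647) (nat_lit 200) (nat_lit 1) (nat_lit 198) (nat_lit 1) (nat_lit 199) (nat_lit 1) (nat_lit 236) (nat_lit 341) (nat_lit 323)) (XT.nd (nat_lit 78) (nat_lit 76) (nat_lit 0) (XT.lf (nat_lit 0) (nat_lit 72392066727) (nat_lit 0) (nat_lit 273345444826) (nat_lit 152) (nat_lit 72392066727) (nat_lit 198) (nat_lit 3) (nat_lit 198) (nat_lit 1) (nat_lit 200) (nat_lit 1) (nat_lit 237) (nat_lit 341) (nat_lit 322)) (XT.lf (nat_lit 76) (nat_lit 16149376448) (nat_lit 0) (nat_lit 190891444360) (nat_lit 76) (nat_lit 190891444360) (nat_lit 198) (nat_lit 3) (nat_lit 197) (nat_lit 1) (nat_lit 198) (nat_lit 1) (nat_lit 238) (nat_lit 341)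 (nat_lit 321)))) (XT.nd (nat_lit 78) (nat_lit 76) (nat_lit 0) (XT.lf (nat_lit 152) (nat_lit 286948613748) (nat_lit 0) (nat_lit 46045340688) (nat_lit 76) (nat_lit 46045340688) (nat_lit 197) (nat_lit 1) (nat_lit 195) (nat_lit 1) (nat_lit 196) (nat_lit 1) (nat_lit 239) (nat_lit 341) (nat_lit 320)) (XT.nd (nat_lit 78) (nat_lit 76) (nat_lit 0) (XT.lf (nat_lit 0) (nat_lit 81948455549) (nat_lit 0) (nat_lit 196844201690) (nat_lit 152) (nat_lit 81948455549) (nat_lit 195) (nat_lit 3) (nat_lit 195) (nat_lit 1) (nat_lit 197) (nat_lit 1) (nat_lit 240) (nat_lit 341) (nat_lit 319)) (XT.lf (nat_lit 76) (nat_lit 47947966821) (nat_lit 0) (nat_lit 147857311291) (nat_lit 76) (nat_lit 147857311291) (nat_lit 195) (nat_lit 3) (nat_lit 194) (nat_lit 1) (nat_lit 195) (nat_lit 1) (nat_lit 241) (nat_lit 341) (nat_lit 318))))) (XT.nd (nat_lit 234) (nat_lit 228) (nat_lit 0) (XT.nd (nat_lit 78) (nat_lit 76) (nat_lit 0) (XT.lf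 (nat_lit 152) (nat_lit 275157608007) (nat_lit 0) (nat_lit 26326572982) (nat_lit 76) (nat_lit 26326572982) (nat_lit 194) (nat_lit 1) (nat_lit 192) (nat_lit 1) (nat_lit 193) (nat_lit 1) (nat_lit 242) (nat_lit 341) (nat_lit 317)) (XT.nd (nat_lit 78) (nat_lit 76) (nat_lit 0) (XT.lf (nat_lit 0) (nat_lit 82122170599) (nat_lit 0) (nat_lit 147814186360) (nat_lit 152) (nat_lit 82122170599) (nat_lit 192) (nat_lit 3) (nat_lit 192) (nat_lit 1) (nat_lit 194) (nat_lit 1) (nat_lit 243) (nat_lit 341) (nat_lit 316)) (XT.lf (nat_lit 76) (nat_lit 61079195582) (nat_lit 0) (nat_lit 118202687548) (nat_lit 76) (nat_lit 118202687548) (nat_lit 192) (nat_lit 3) (nat_lit 191) (nat_lit 1) (nat_lit 192) (nat_lit 1) (nat_lit 244) (nat_lit 341) (nat_lit 315)))) (XT.nd (nat_lit 78) (nat_lit 76) (nat_lit 0) (XT.lf (nat_lit 152) (nat_lit 253925565670) (nat_lit 0) (nat_lit 15052303548) (nat_lit 76) (nat_lit 15052303548) (nat_lit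 191) (nat_lit 1) (nat_lit 189) (nat_lit 1) (nat_lit 190) (nat_lit 1) (nat_lit 245) (nat_lit 341) (nat_lit 314)) (XT.nd (nat_lit 78) (nat_lit 76) (nat_lit 0) (XT.lf (nat_lit 0) (nat_lit 77621335112) (nat_lit 0) (nat_lit 115180958333) (nat_lit 152) (nat_lit 77621335112) (nat_lit 189) (nat_lit 3) (nat_lit 189) (nat_lit 1) (nat_lit 191) (nat_lit 1) (nat_lit 246) (nat_lit 341) (nat_lit 313)) (XT.lf (nat_lit 76) (nat_lit 64195958689) (nat_lit 0) (nat_lit 96856500620) (nat_lit 76) (nat_lit 96856500620) (nat_lit 189) (nat_lit 3) (nat_lit 188) (nat_lit 1) (nat_lit 189) (nat_lit 1) (nat_lit 247) (nat_lit 341) (nat_lit 312))))))))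
noncomputable def ec126 : XT := (XT.nd (nat_lit 1716) (nat_lit 1672) (nat_lit 0) (XT.nd (nat_lit 858) (nat_lit 912) (nat_lit 0) (XT.nd (nat_lit 390) (nat_lit 456) (nat_lit 0) (XT.nd (nat_lit 156) (nat_lit 228) (nat_lit 0) (XT.nd (nat_lit 78) (nat_lit 0) (nat_lit 0) (XT.lf (nat_lit 152) (nat_lit 229185644782) (nat_lit 0) (nat_lit 8606203407) (nat_lit 76) (nat_lit 8606203407) (nat_lit 188) (nat_lit 1) (nat_lit 186) (nat_lit 1) (nat_lit 187) (nat_lit 1) (nat_lit 248) (nat_lit 341) (nat_lit 311)) (XT.lf (nat_lit 0) (nat_lit 71047830745) (nat_lit 0) (nat_lit 92522667224) (nat_lit 152) (nat_lit 71047830745) (nat_lit 186) (nat_lit 3) (nat_lit 186) (nat_lit 1) (nat_lit 188) (nat_lit 1) (nat_lit 249) (nat_lit 341) (nat_lit 310))) (XT.nd (nat_lit 78) (nat_lit 152) (nat_lit 0) (XT.lf (nat_lit 76) (nat_lit 62159665453) (nat_lit 0) (nat_lit 80833436305) (nat_lit 76) (nat_lit 80833436305) (nat_lit 186) (nat_lit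 3) (nat_lit 185) (nat_lit 1) (nat_lit 186) (nat_lit 1) (nat_lit 250) (nat_lit 341) (nat_lit 309)) (XT.nd (nat_lit 78) (nat_lit 0) (nat_lit 0) (XT.lf (nat_lit 152) (nat_lit 204083617527) (nat_lit 0) (nat_lit 4920624730) (nat_lit 76) (nat_lit 4920624730) (nat_lit 185) (nat_lit 1) (nat_lit 183) (nat_lit 1) (nat_lit 184) (nat_lit 1) (nat_lit 251) (nat_lit 341) (nat_lit 308)) (XT.lf (nat_lit 0) (nat_lit 63811028227) (nat_lit 0) (nat_lit 76089335683) (nat_lit 152) (nat_lit 63811028227) (nat_lit 183) (nat_lit 3) (nat_lit 183) (nat_lit 1) (nat_lit 185) (nat_lit 1) (nat_lit 252) (nat_lit 341) (nat_lit 307))))) (XT.nd (nat_lit 234) (nat_lit 228) (nat_lit 0) (XT.nd (nat_lit 78) (nat_lit 152) (nat_lit 0) (XT.lf (nat_lit 76) (nat_lit 57675136310) (nat_lit 0) (nat_lit 68351925402) (nat_lit 76) (nat_lit 68351925402) (nat_lit 183) (nat_lit 3) (nat_lit 182) (nat_lit 1) (nat_lit 183) (nat_lit 1) (nat_lit 253) (nat_lit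 341) (nat_lit 306)) (XT.nd (nat_lit 78) (nat_lit 0) (nat_lit 0) (XT.lf (nat_lit 152) (nat_lit 180203715284) (nat_lit 0) (nat_lit 2813383159) (nat_lit 76) (nat_lit 2813383159) (nat_lit 182) (nat_lit 1) (nat_lit 180) (nat_lit 1) (nat_lit 181) (nat_lit 1) (nat_lit 254) (nat_lit 341) (nat_lit 305)) (XT.lf (nat_lit 0) (nat_lit 56648684585) (nat_lit 0) (nat_lit 63668846724) (nat_lit 152) (nat_lit 56648684585) (nat_lit 180) (nat_lit 3) (nat_lit 180) (nat_lit 1) (nat_lit 182) (nat_lit 1) (nat_lit 255) (nat_lit 341) (nat_lit 304)))) (XT.nd (nat_lit 78) (nat_lit 152) (nat_lit 0) (XT.lf (nat_lit 76) (nat_lit 52223899281) (nat_lit 0) (nat_lit 58328388097) (nat_lit 76) (nat_lit 58328388097) (nat_lit 180) (nat_lit 3) (nat_lit 179) (nat_lit 1) (nat_lit 180) (nat_lit 1) (nat_lit 256) (nat_lit 341) (nat_lit 303)) (XT.nd (nat_lit 78) (nat_lit 0) (nat_lit 0) (XT.lf (nat_lit 152) (nat_lit 158265315248) (nat_lit 0)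 (nat_lit 1608560952) (nat_lit 76) (nat_lit 1608560952) (nat_lit 179) (nat_lit 1) (nat_lit 177) (nat_lit 1) (nat_lit 178) (nat_lit 1) (nat_lit 257) (nat_lit 341) (nat_lit 302)) (XT.lf (nat_lit 0) (nat_lit 49923436307) (nat_lit 0) (nat_lit 53937236794) (nat_lit 152) (nat_lit 49923436307) (nat_lit 177) (nat_lit 3) (nat_lit 177) (nat_lit 1) (nat_lit 179) (nat_lit 1) (nat_lit 258) (nat_lit 341) (nat_lit 301)))))) (XT.nd (nat_lit 390) (nat_lit 456) (nat_lit 0) (XT.nd (nat_lit 156) (nat_lit 228) (nat_lit 0) (XT.nd (nat_lit 78) (nat_lit 152) (nat_lit 0) (XT.lf (nat_lit 76) (nat_lit 46596534265) (nat_lit 0) (nat_lit 50086795558) (nat_lit 76) (nat_lit 50086795558) (nat_lit 177) (nat_lit 3) (nat_lit 176) (nat_lit 1) (nat_lit 177) (nat_lit 1) (nat_lit 259) (nat_lit 341) (nat_lit 300)) (XT.lf (nat_lit 152) (nat_lit 138517626063) (nat_lit 0) (nat_lit 919699945) (nat_lit 76) (nat_lit 919699945) (nat_lit 176)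 (nat_lit 1) (nat_lit 174) (nat_lit 1) (nat_lit 175) (nat_lit 1) (nat_lit 260) (nat_lit 341) (nat_lit 299))) (XT.nd (nat_lit 78) (nat_lit 228) (nat_lit 0) (XT.lf (nat_lit 0) (nat_lit 43791162424) (nat_lit 0) (nat_lit 46086065879) (nat_lit 152) (nat_lit 43791162424) (nat_lit 174) (nat_lit 3) (nat_lit 174) (nat_lit 1) (nat_lit 176) (nat_lit 1) (nat_lit 261) (nat_lit 341) (nat_lit 298)) (XT.nd (nat_lit 78) (nat_lit 152) (nat_lit 0) (XT.lf (nat_lit 76) (nat_lit 41195937398) (nat_lit 0) (nat_lit 43191505620) (nat_lit 76) (nat_lit 43191505620) (nat_lit 174) (nat_lit 3) (nat_lit 173) (nat_lit 1) (nat_lit 174) (nat_lit 1) (nat_lit 262) (nat_lit 341) (nat_lit 297)) (XT.lf (nat_lit 152) (nat_lit 120962179147) (nat_lit 0) (nat_lit 525841428) (nat_lit 76) (nat_lit 525841428) (nat_lit 173) (nat_lit 1) (nat_lit 171) (nat_lit 1) (nat_lit 172) (nat_lit 1) (nat_lit 263) (nat_lit 341) (nat_lit 296))))) (XT.nd (nat_lit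 234) (nat_lit 228) (nat_lit 0) (XT.nd (nat_lit 78) (nat_lit 228) (nat_lit 0) (XT.lf (nat_lit 0) (nat_lit 38296239839) (nat_lit 0) (nat_lit 39608358338) (nat_lit 152) (nat_lit 38296239839) (nat_lit 171) (nat_lit 3) (nat_lit 171) (nat_lit 1) (nat_lit 173) (nat_lit 1) (nat_lit 264) (nat_lit 341) (nat_lit 295)) (XT.nd (nat_lit 78) (nat_lit 152) (nat_lit 0) (XT.lf (nat_lit 76) (nat_lit 36209752389) (nat_lit 0) (nat_lit 37350724997) (nat_lit 76) (nat_lit 37350724997) (nat_lit 171) (nat_lit 3) (nat_lit 170) (nat_lit 1) (nat_lit 171) (nat_lit 1) (nat_lit 265) (nat_lit 341) (nat_lit 294)) (XT.lf (nat_lit 152) (nat_lit 105477281020) (nat_lit 0) (nat_lit 300651543) (nat_lit 76) (nat_lit 300651543) (nat_lit 170) (nat_lit 1) (nat_lit 168) (nat_lit 1) (nat_lit 169) (nat_lit 1) (nat_lit 266) (nat_lit 341) (nat_lit 293)))) (XT.nd (nat_lit 78) (nat_lit 228) (nat_lit 0) (XT.lf (nat_lit 0) (nat_lit 33425130374) (nat_lit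 0) (nat_lit 34175338384) (nat_lit 152) (nat_lit 33425130374) (nat_lit 168) (nat_lit 3) (nat_lit 168) (nat_lit 1) (nat_lit 170) (nat_lit 1) (nat_lit 267) (nat_lit 341) (nat_lit 292)) (XT.nd (nat_lit 78) (nat_lit 152) (nat_lit 0) (XT.lf (nat_lit 76) (nat_lit 31708122996) (nat_lit 0) (nat_lit 32360477787) (nat_lit 76) (nat_lit 32360477787) (nat_lit 168) (nat_lit 3) (nat_lit 167) (nat_lit 1) (nat_lit 168) (nat_lit 1) (nat_lit 268) (nat_lit 341) (nat_lit 291)) (XT.lf (nat_lit 152) (nat_lit 91886771237) (nat_lit 0) (nat_lit 171898495) (nat_lit 76) (nat_lit 171898495) (nat_lit 167) (nat_lit 1) (nat_lit 165) (nat_lit 1) (nat_lit 166) (nat_lit 1) (nat_lit 269) (nat_lit 341) (nat_lit 290))))))) (XT.nd (nat_lit 858) (nat_lit 912) (nat_lit 0) (XT.nd (nat_lit 390) (nat_lit 456) (nat_lit 0) (XT.nd (nat_lit 156) (nat_lit 228) (nat_lit 0) (XT.nd (nat_lit 78) (nat_lit 76) (nat_lit 0) (XT.lf (nat_lit 0) (nat_lit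 29136258038) (nat_lit 0) (nat_lit 29565191903) (nat_lit 152) (nat_lit 29136258038) (nat_lit 165) (nat_lit 3) (nat_lit 165) (nat_lit 1) (nat_lit 167) (nat_lit 1) (nat_lit 270) (nat_lit 341) (nat_lit 289)) (XT.lf (nat_lit 76) (nat_lit 27698856621) (nat_lit 0) (nat_lit 28071842591) (nat_lit 76) (nat_lit 28071842591) (nat_lit 165) (nat_lit 3) (nat_lit 164) (nat_lit 1) (nat_lit 165) (nat_lit 1) (nat_lit 271) (nat_lit 341) (nat_lit 288))) (XT.nd (nat_lit 78) (nat_lit 76) (nat_lit 0) (XT.lf (nat_lit 152) (nat_lit 79997249662) (nat_lit 0) (nat_lit 98283522) (nat_lit 76) (nat_lit 98283522) (nat_lit 164) (nat_lit 1) (nat_lit 162) (nat_lit 1) (nat_lit 163) (nat_lit 1) (nat_lit 272) (nat_lit 341) (nat_lit 287)) (XT.nd (nat_lit 78) (nat_lit 76) (nat_lit 0) (XT.lf (nat_lit 0) (nat_lit 25376429456) (nat_lit 0) (nat_lit 25621673786) (nat_lit 152) (nat_lit 25376429456) (nat_lit 162) (nat_lit 3) (nat_lit 162) (nat_lit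 1) (nat_lit 164) (nat_lit 1) (nat_lit 273) (nat_lit 341) (nat_lit 286)) (XT.lf (nat_lit 76) (nat_lit 24158332378) (nat_lit 0) (nat_lit 24371588317) (nat_lit 76) (nat_lit 24371588317) (nat_lit 162) (nat_lit 3) (nat_lit 161) (nat_lit 1) (nat_lit 162) (nat_lit 1) (nat_lit 274) (nat_lit 341) (nat_lit 285))))) (XT.nd (nat_lit 234) (nat_lit 228) (nat_lit 0) (XT.nd (nat_lit 78) (nat_lit 76) (nat_lit 0) (XT.lf (nat_lit 152) (nat_lit 69617547985) (nat_lit 0) (nat_lit 56193923) (nat_lit 76) (nat_lit 56193923) (nat_lit 161) (nat_lit 1) (nat_lit 159) (nat_lit 1) (nat_lit 160) (nat_lit 1) (nat_lit 275) (nat_lit 341) (nat_lit 284)) (XT.nd (nat_lit 78) (nat_lit 76) (nat_lit 0) (XT.lf (nat_lit 0) (nat_lit 22089646650) (nat_lit 0) (nat_lit 22229865891) (nat_lit 152) (nat_lit 22089646650) (nat_lit 159) (nat_lit 3) (nat_lit 159) (nat_lit 1) (nat_lit 161) (nat_lit 1) (nat_lit 276) (nat_lit 341) (nat_lit 283)) (XT.lf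 (nat_lit 76) (nat_lit 21048623385) (nat_lit 0) (nat_lit 21170553161) (nat_lit 76) (nat_lit 21170553161) (nat_lit 159) (nat_lit 3) (nat_lit 158) (nat_lit 1) (nat_lit 159) (nat_lit 1) (nat_lit 277) (nat_lit 341) (nat_lit 282)))) (XT.nd (nat_lit 78) (nat_lit 76) (nat_lit 0) (XT.lf (nat_lit 152) (nat_lit 60568285839) (nat_lit 0) (nat_lit 32129057) (nat_lit 76) (nat_lit 32129057) (nat_lit 158) (nat_lit 1) (nat_lit 156) (nat_lit 1) (nat_lit 157) (nat_lit 1) (nat_lit 278) (nat_lit 341) (nat_lit 281)) (XT.nd (nat_lit 78) (nat_lit 76) (nat_lit 0) (XT.lf (nat_lit 0) (nat_lit 19221645207) (nat_lit 0) (nat_lit 19301816013) (nat_lit 152) (nat_lit 19221645207) (nat_lit 156) (nat_lit 3) (nat_lit 156) (nat_lit 1) (nat_lit 158) (nat_lit 1) (nat_lit 279) (nat_lit 341) (nat_lit 280)) (XT.lf (nat_lit 76) (nat_lit 18326808684) (nat_lit 0) (nat_lit 18396522428) (nat_lit 76) (nat_lit 18396522428) (nat_lit 156) (nat_lit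 3) (nat_lit 155) (nat_lit 1) (nat_lit 156) (nat_lit 1) (nat_lit 280) (nat_lit 341) (nat_lit 279)))))) (XT.nd (nat_lit 468) (nat_lit 456) (nat_lit 0) (XT.nd (nat_lit 234) (nat_lit 228) (nat_lit 0) (XT.nd (nat_lit 78) (nat_lit 76) (nat_lit 0) (XT.lf (nat_lit 152) (nat_lit 52685963424) (nat_lit 0) (nat_lit 18369893) (nat_lit 76) (nat_lit 18369893) (nat_lit 155) (nat_lit 1) (nat_lit 153) (nat_lit 1) (nat_lit 154) (nat_lit 1) (nat_lit 281) (nat_lit 341) (nat_lit 278)) (XT.nd (nat_lit 78) (nat_lit 76) (nat_lit 0) (XT.lf (nat_lit 0) (nat_lit 16722053720) (nat_lit 0) (nat_lit 16767891639) (nat_lit 152) (nat_lit 16722053720) (nat_lit 153) (nat_lit 3) (nat_lit 153) (nat_lit 1) (nat_lit 155) (nat_lit 1) (nat_lit 282) (nat_lit 341) (nat_lit 277)) (XT.lf (nat_lit 76) (nat_lit 15949881866) (nat_lit 0) (nat_lit 15989740926) (nat_lit 76) (nat_lit 15989740926) (nat_lit 153) (nat_lit 3) (nat_lit 152) (nat_lit 1)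 (nat_lit 153) (nat_lit 1) (nat_lit 283) (nat_lit 341) (nat_lit 276)))) (XT.nd (nat_lit 78) (nat_lit 76) (nat_lit 0) (XT.lf (nat_lit 152) (nat_lit 45824109207) (nat_lit 0) (nat_lit 10503046) (nat_lit 76) (nat_lit 10503046) (nat_lit 152) (nat_lit 1) (nat_lit 150) (nat_lit 1) (nat_lit 151) (nat_lit 1) (nat_lit 284) (nat_lit 341) (nat_lit 275)) (XT.nd (nat_lit 78) (nat_lit 76) (nat_lit 0) (XT.lf (nat_lit 0) (nat_lit 14545249955) (nat_lit 0) (nat_lit 14571457933) (nat_lit 152) (nat_lit 14545249955) (nat_lit 150) (nat_lit 3) (nat_lit 150) (nat_lit 1) (nat_lit 152) (nat_lit 1) (nat_lit 285) (nat_lit 341) (nat_lit 274)) (XT.lf (nat_lit 76) (nat_lit 13877196306) (nat_lit 0) (nat_lit 13899985853) (nat_lit 76) (nat_lit 13899985853) (nat_lit 150) (nat_lit 3) (nat_lit 149) (nat_lit 1) (nat_lit 150) (nat_lit 1) (nat_lit 286) (nat_lit 341) (nat_lit 273))))) (XT.nd (nat_lit 234) (nat_lit 228) (nat_lit 0) (XT.nd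 (nat_lit 78) (nat_lit 76) (nat_lit 0) (XT.lf (nat_lit 152) (nat_lit 39852899359) (nat_lit 0) (nat_lit 6005150) (nat_lit 76) (nat_lit 6005150) (nat_lit 149) (nat_lit 1) (nat_lit 147) (nat_lit 1) (nat_lit 148) (nat_lit 1) (nat_lit 287) (nat_lit 341) (nat_lit 272)) (XT.nd (nat_lit 78) (nat_lit 76) (nat_lit 0) (XT.lf (nat_lit 0) (nat_lit 12650521232) (nat_lit 0) (nat_lit 12665505729) (nat_lit 152) (nat_lit 12650521232) (nat_lit 147) (nat_lit 3) (nat_lit 147) (nat_lit 1) (nat_lit 149) (nat_lit 1) (nat_lit 288) (nat_lit 341) (nat_lit 271)) (XT.lf (nat_lit 76) (nat_lit 12071549056) (nat_lit 0) (nat_lit 12084579053) (nat_lit 76) (nat_lit 12084579053) (nat_lit 147) (nat_lit 3) (nat_lit 146) (nat_lit 1) (nat_lit 147) (nat_lit 1) (nat_lit 289) (nat_lit 341) (nat_lit 270)))) (XT.nd (nat_lit 78) (nat_lit 76) (nat_lit 0) (XT.lf (nat_lit 152) (nat_lit 34658038636) (nat_lit 0) (nat_lit 3433464) (nat_lit 76) (nat_lit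 3433464) (nat_lit 146) (nat_lit 1) (nat_lit 144) (nat_lit 1) (nat_lit 145) (nat_lit 1) (nat_lit 290) (nat_lit 341) (nat_lit 269)) (XT.nd (nat_lit 78) (nat_lit 76) (nat_lit 0) (XT.lf (nat_lit 0) (nat_lit 11001869932) (nat_lit 0) (nat_lit 11010437367) (nat_lit 152) (nat_lit 11001869932) (nat_lit 144) (nat_lit 3) (nat_lit 144) (nat_lit 1) (nat_lit 146) (nat_lit 1) (nat_lit 291) (nat_lit 341) (nat_lit 268)) (XT.lf (nat_lit 76) (nat_lit 10499527376) (nat_lit 0) (nat_lit 10506977320) (nat_lit 76) (nat_lit 10506977320) (nat_lit 144) (nat_lit 3) (nat_lit 143) (nat_lit 1) (nat_lit 144) (nat_lit 1) (nat_lit 292) (nat_lit 341) (nat_lit 267))))))))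
noncomputable def ec127 : XT := (XT.nd (nat_lit 1716) (nat_lit 1672) (nat_lit 0) (XT.nd (nat_lit 858) (nat_lit 912) (nat_lit 0) (XT.nd (nat_lit 390) (nat_lit 456) (nat_lit 0) (XT.nd (nat_lit 156) (nat_lit 228) (nat_lit 0) (XT.nd (nat_lit 78) (nat_lit 0) (nat_lit 0) (XT.lf (nat_lit 152) (nat_lit 30139336581) (nat_lit 0) (nat_lit 1963094) (nat_lit 76) (nat_lit 1963094) (nat_lit 143) (nat_lit 1) (nat_lit 141) (nat_lit 1) (nat_lit 142) (nat_lit 1) (nat_lit 293) (nat_lit 341) (nat_lit 266)) (XT.lf (nat_lit 0) (nat_lit 9567653414) (nat_lit 0) (nat_lit 9572551873) (nat_lit 152) (nat_lit 9567653414) (nat_lit 141) (nat_lit 3) (nat_lit 141) (nat_lit 1) (nat_lit 143) (nat_lit 1) (nat_lit 294) (nat_lit 341) (nat_lit 265))) (XT.nd (nat_lit 78) (nat_lit 152) (nat_lit 0) (XT.lf (nat_lit 76) (nat_lit 9131469311) (nat_lit 0) (nat_lit 9135728840) (nat_lit 76) (nat_lit 9135728840) (nat_lit 141) (nat_lit 3) (nat_lit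 140) (nat_lit 1) (nat_lit 141) (nat_lit 1) (nat_lit 295) (nat_lit 341) (nat_lit 264)) (XT.nd (nat_lit 78) (nat_lit 0) (nat_lit 0) (XT.lf (nat_lit 152) (nat_lit 26209211776) (nat_lit 0) (nat_lit 1122405) (nat_lit 76) (nat_lit 1122405) (nat_lit 140) (nat_lit 1) (nat_lit 138) (nat_lit 1) (nat_lit 139) (nat_lit 1) (nat_lit 296) (nat_lit 341) (nat_lit 263)) (XT.lf (nat_lit 0) (nat_lit 8320161738) (nat_lit 0) (nat_lit 8322962448) (nat_lit 152) (nat_lit 8320161738) (nat_lit 138) (nat_lit 3) (nat_lit 138) (nat_lit 1) (nat_lit 140) (nat_lit 1) (nat_lit 297) (nat_lit 341) (nat_lit 262))))) (XT.nd (nat_lit 234) (nat_lit 228) (nat_lit 0) (XT.nd (nat_lit 78) (nat_lit 152) (nat_lit 0) (XT.lf (nat_lit 76) (nat_lit 7941234568) (nat_lit 0) (nat_lit 7943669968) (nat_lit 76) (nat_lit 7943669968) (nat_lit 138) (nat_lit 3) (nat_lit 137) (nat_lit 1) (nat_lit 138) (nat_lit 1) (nat_lit 298) (nat_lit 341) (nat_lit 261))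 (XT.nd (nat_lit 78) (nat_lit 0) (nat_lit 0) (XT.lf (nat_lit 152) (nat_lit 22791243867) (nat_lit 0) (nat_lit 641739) (nat_lit 76) (nat_lit 641739) (nat_lit 137) (nat_lit 1) (nat_lit 135) (nat_lit 1) (nat_lit 136) (nat_lit 1) (nat_lit 299) (nat_lit 341) (nat_lit 260)) (XT.lf (nat_lit 0) (nat_lit 7235188039) (nat_lit 0) (nat_lit 7236789354) (nat_lit 152) (nat_lit 7235188039) (nat_lit 135) (nat_lit 3) (nat_lit 135) (nat_lit 1) (nat_lit 137) (nat_lit 1) (nat_lit 300) (nat_lit 341) (nat_lit 259)))) (XT.nd (nat_lit 78) (nat_lit 152) (nat_lit 0) (XT.lf (nat_lit 76) (nat_lit 6905893902) (nat_lit 0) (nat_lit 6907286350) (nat_lit 76) (nat_lit 6907286350) (nat_lit 135) (nat_lit 3) (nat_lit 134) (nat_lit 1) (nat_lit 135) (nat_lit 1) (nat_lit 301) (nat_lit 341) (nat_lit 258)) (XT.nd (nat_lit 78) (nat_lit 0) (nat_lit 0) (XT.lf (nat_lit 152) (nat_lit 19818830235) (nat_lit 0) (nat_lit 366916) (nat_lit 76) (nat_lit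 366916) (nat_lit 134) (nat_lit 1) (nat_lit 132) (nat_lit 1) (nat_lit 133) (nat_lit 1) (nat_lit 302) (nat_lit 341) (nat_lit 257)) (XT.lf (nat_lit 0) (nat_lit 6291619254) (nat_lit 0) (nat_lit 6292534811) (nat_lit 152) (nat_lit 6291619254) (nat_lit 132) (nat_lit 3) (nat_lit 132) (nat_lit 1) (nat_lit 134) (nat_lit 1) (nat_lit 303) (nat_lit 341) (nat_lit 256)))))) (XT.nd (nat_lit 390) (nat_lit 456) (nat_lit 0) (XT.nd (nat_lit 156) (nat_lit 228) (nat_lit 0) (XT.nd (nat_lit 78) (nat_lit 152) (nat_lit 0) (XT.lf (nat_lit 76) (nat_lit 6005395307) (nat_lit 0) (nat_lit 6006191444) (nat_lit 76) (nat_lit 6006191444) (nat_lit 132) (nat_lit 3) (nat_lit 131) (nat_lit 1) (nat_lit 132) (nat_lit 1) (nat_lit 304) (nat_lit 341) (nat_lit 255)) (XT.lf (nat_lit 152) (nat_lit 17233969713) (nat_lit 0) (nat_lit 209785) (nat_lit 76) (nat_lit 209785) (nat_lit 131) (nat_lit 1) (nat_lit 129) (nat_lit 1) (nat_lit 130) (nat_lit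 1) (nat_lit 305) (nat_lit 341) (nat_lit 254))) (XT.nd (nat_lit 78) (nat_lit 228) (nat_lit 0) (XT.lf (nat_lit 0) (nat_lit 5471059824) (nat_lit 0) (nat_lit 5471583297) (nat_lit 152) (nat_lit 5471059824) (nat_lit 129) (nat_lit 3) (nat_lit 129) (nat_lit 1) (nat_lit 131) (nat_lit 1) (nat_lit 306) (nat_lit 341) (nat_lit 253)) (XT.nd (nat_lit 78) (nat_lit 152) (nat_lit 0) (XT.lf (nat_lit 76) (nat_lit 5222237349) (nat_lit 0) (nat_lit 5222692543) (nat_lit 76) (nat_lit 5222692543) (nat_lit 129) (nat_lit 3) (nat_lit 128) (nat_lit 1) (nat_lit 129) (nat_lit 1) (nat_lit 307) (nat_lit 341) (nat_lit 252)) (XT.lf (nat_lit 152) (nat_lit 14986177424) (nat_lit 0) (nat_lit 119945) (nat_lit 76) (nat_lit 119945) (nat_lit 128) (nat_lit 1) (nat_lit 126) (nat_lit 1) (nat_lit 127) (nat_lit 1) (nat_lit 308) (nat_lit 341) (nat_lit 251))))) (XT.nd (nat_lit 234) (nat_lit 228) (nat_lit 0) (XT.nd (nat_lit 78) (nat_lit 228) (nat_lit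 0) (XT.lf (nat_lit 0) (nat_lit 4757492816) (nat_lit 0) (nat_lit 4757792114) (nat_lit 152) (nat_lit 4757492816) (nat_lit 126) (nat_lit 3) (nat_lit 126) (nat_lit 1) (nat_lit 128) (nat_lit 1) (nat_lit 309) (nat_lit 341) (nat_lit 250)) (XT.nd (nat_lit 78) (nat_lit 152) (nat_lit 0) (XT.lf (nat_lit 76) (nat_lit 4541164277) (nat_lit 0) (nat_lit 4541424535) (nat_lit 76) (nat_lit 4541424535) (nat_lit 126) (nat_lit 3) (nat_lit 125) (nat_lit 1) (nat_lit 126) (nat_lit 1) (nat_lit 310) (nat_lit 341) (nat_lit 249)) (XT.lf (nat_lit 152) (nat_lit 13031525413) (nat_lit 0) (nat_lit 68579) (nat_lit 76) (nat_lit 68579) (nat_lit 125) (nat_lit 1) (nat_lit 123) (nat_lit 1) (nat_lit 124) (nat_lit 1) (nat_lit 311) (nat_lit 341) (nat_lit 248)))) (XT.nd (nat_lit 78) (nat_lit 228) (nat_lit 0) (XT.lf (nat_lit 0) (nat_lit 4136978572) (nat_lit 0) (nat_lit 4137149696) (nat_lit 152) (nat_lit 4136978572) (nat_lit 123) (nat_lit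 3) (nat_lit 123) (nat_lit 1) (nat_lit 125) (nat_lit 1) (nat_lit 312) (nat_lit 341) (nat_lit 247)) (XT.nd (nat_lit 78) (nat_lit 152) (nat_lit 0) (XT.lf (nat_lit 76) (nat_lit 3948888999) (nat_lit 0) (nat_lit 3949037803) (nat_lit 76) (nat_lit 3949037803) (nat_lit 123) (nat_lit 3) (nat_lit 122) (nat_lit 1) (nat_lit 123) (nat_lit 1) (nat_lit 313) (nat_lit 341) (nat_lit 246)) (XT.lf (nat_lit 152) (nat_lit 11331799412) (nat_lit 0) (nat_lit 39210) (nat_lit 76) (nat_lit 39210) (nat_lit 122) (nat_lit 1) (nat_lit 120) (nat_lit 1) (nat_lit 121) (nat_lit 1) (nat_lit 314) (nat_lit 341) (nat_lit 245))))))) (XT.nd (nat_lit 858) (nat_lit 912) (nat_lit 0) (XT.nd (nat_lit 390) (nat_lit 456) (nat_lit 0) (XT.nd (nat_lit 156) (nat_lit 228) (nat_lit 0) (XT.nd (nat_lit 78) (nat_lit 76) (nat_lit 0) (XT.lf (nat_lit 0) (nat_lit 3597388850) (nat_lit 0) (nat_lit 3597486690) (nat_lit 152) (nat_lit 3597388850) (nat_lit 120)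 (nat_lit 3) (nat_lit 120) (nat_lit 1) (nat_lit 122) (nat_lit 1) (nat_lit 315) (nat_lit 341) (nat_lit 244)) (XT.lf (nat_lit 76) (nat_lit 3433845393) (nat_lit 0) (nat_lit 3433930472) (nat_lit 76) (nat_lit 3433930472) (nat_lit 120) (nat_lit 3) (nat_lit 119) (nat_lit 1) (nat_lit 120) (nat_lit 1) (nat_lit 316) (nat_lit 341) (nat_lit 243))) (XT.nd (nat_lit 78) (nat_lit 76) (nat_lit 0) (XT.lf (nat_lit 152) (nat_lit 9853760450) (nat_lit 0) (nat_lit 22418) (nat_lit 76) (nat_lit 22418) (nat_lit 119) (nat_lit 1) (nat_lit 117) (nat_lit 1) (nat_lit 118) (nat_lit 1) (nat_lit 317) (nat_lit 341) (nat_lit 242)) (XT.nd (nat_lit 78) (nat_lit 76) (nat_lit 0) (XT.lf (nat_lit 0) (nat_lit 3128173467) (nat_lit 0) (nat_lit 3128229408) (nat_lit 152) (nat_lit 3128173467) (nat_lit 117) (nat_lit 3) (nat_lit 117) (nat_lit 1) (nat_lit 119) (nat_lit 1) (nat_lit 318) (nat_lit 341) (nat_lit 241)) (XT.lf (nat_lit 76) (nat_lit 2985969023)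 (nat_lit 0) (nat_lit 2986017668) (nat_lit 76) (nat_lit 2986017668) (nat_lit 117) (nat_lit 3) (nat_lit 116) (nat_lit 1) (nat_lit 117) (nat_lit 1) (nat_lit 319) (nat_lit 341) (nat_lit 240))))) (XT.nd (nat_lit 234) (nat_lit 228) (nat_lit 0) (XT.nd (nat_lit 78) (nat_lit 76) (nat_lit 0) (XT.lf (nat_lit 152) (nat_lit 8568499830) (nat_lit 0) (nat_lit 12817) (nat_lit 76) (nat_lit 12817) (nat_lit 116) (nat_lit 1) (nat_lit 114) (nat_lit 1) (nat_lit 115) (nat_lit 1) (nat_lit 320) (nat_lit 341) (nat_lit 239)) (XT.nd (nat_lit 78) (nat_lit 76) (nat_lit 0) (XT.lf (nat_lit 0) (nat_lit 2720156130) (nat_lit 0) (nat_lit 2720188114) (nat_lit 152) (nat_lit 2720156130) (nat_lit 114) (nat_lit 3) (nat_lit 114) (nat_lit 1) (nat_lit 116) (nat_lit 1) (nat_lit 321) (nat_lit 341) (nat_lit 238)) (XT.lf (nat_lit 76) (nat_lit 2596504241) (nat_lit 0) (nat_lit 2596532054) (nat_lit 76) (nat_lit 2596532054) (nat_lit 114) (nat_lit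 3) (nat_lit 113) (nat_lit 1) (nat_lit 114) (nat_lit 1) (nat_lit 322) (nat_lit 341) (nat_lit 237)))) (XT.nd (nat_lit 78) (nat_lit 76) (nat_lit 0) (XT.lf (nat_lit 152) (nat_lit 7450876554) (nat_lit 0) (nat_lit 7328) (nat_lit 76) (nat_lit 7328) (nat_lit 113) (nat_lit 1) (nat_lit 111) (nat_lit 1) (nat_lit 112) (nat_lit 1) (nat_lit 323) (nat_lit 341) (nat_lit 236)) (XT.nd (nat_lit 78) (nat_lit 76) (nat_lit 0) (XT.lf (nat_lit 0) (nat_lit 2365356180) (nat_lit 0) (nat_lit 2365374467) (nat_lit 152) (nat_lit 2365356180) (nat_lit 111) (nat_lit 3) (nat_lit 111) (nat_lit 1) (nat_lit 113) (nat_lit 1) (nat_lit 324) (nat_lit 341) (nat_lit 235)) (XT.lf (nat_lit 76) (nat_lit 2257835171) (nat_lit 0) (nat_lit 2257851073) (nat_lit 76) (nat_lit 2257851073) (nat_lit 111) (nat_lit 3) (nat_lit 110) (nat_lit 1) (nat_lit 111) (nat_lit 1) (nat_lit 325) (nat_lit 341) (nat_lit 234)))))) (XT.nd (nat_lit 468) (nat_lit 456) (nat_lit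 0) (XT.nd (nat_lit 234) (nat_lit 228) (nat_lit 0) (XT.nd (nat_lit 78) (nat_lit 76) (nat_lit 0) (XT.lf (nat_lit 152) (nat_lit 6479027171) (nat_lit 0) (nat_lit 4190) (nat_lit 76) (nat_lit 4190) (nat_lit 110) (nat_lit 1) (nat_lit 108) (nat_lit 1) (nat_lit 109) (nat_lit 1) (nat_lit 326) (nat_lit 341) (nat_lit 233)) (XT.nd (nat_lit 78) (nat_lit 76) (nat_lit 0) (XT.lf (nat_lit 0) (nat_lit 2056833190) (nat_lit 0) (nat_lit 2056843646) (nat_lit 152) (nat_lit 2056833190) (nat_lit 108) (nat_lit 3) (nat_lit 108) (nat_lit 1) (nat_lit 110) (nat_lit 1) (nat_lit 327) (nat_lit 341) (nat_lit 232)) (XT.lf (nat_lit 76) (nat_lit 1963338017) (nat_lit 0) (nat_lit 1963347109) (nat_lit 76) (nat_lit 1963347109) (nat_lit 108) (nat_lit 3) (nat_lit 107) (nat_lit 1) (nat_lit 108) (nat_lit 1) (nat_lit 328) (nat_lit 341) (nat_lit 231)))) (XT.nd (nat_lit 78) (nat_lit 76) (nat_lit 0) (XT.lf (nat_lit 152) (nat_lit 5633939004) (nat_lit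 0) (nat_lit 2395) (nat_lit 76) (nat_lit 2395) (nat_lit 107) (nat_lit 1) (nat_lit 105) (nat_lit 1) (nat_lit 106) (nat_lit 1) (nat_lit 329) (nat_lit 341) (nat_lit 230)) (XT.nd (nat_lit 78) (nat_lit 76) (nat_lit 0) (XT.lf (nat_lit 0) (nat_lit 1788551588) (nat_lit 0) (nat_lit 1788557566) (nat_lit 152) (nat_lit 1788551588) (nat_lit 105) (nat_lit 3) (nat_lit 105) (nat_lit 1) (nat_lit 107) (nat_lit 1) (nat_lit 330) (nat_lit 341) (nat_lit 229)) (XT.lf (nat_lit 76) (nat_lit 1707252214) (nat_lit 0) (nat_lit 1707257412) (nat_lit 76) (nat_lit 1707257412) (nat_lit 105) (nat_lit 3) (nat_lit 104) (nat_lit 1) (nat_lit 105) (nat_lit 1) (nat_lit 331) (nat_lit 341) (nat_lit 228))))) (XT.nd (nat_lit 234) (nat_lit 228) (nat_lit 0) (XT.nd (nat_lit 78) (nat_lit 76) (nat_lit 0) (XT.lf (nat_lit 152) (nat_lit 4899078728) (nat_lit 0) (nat_lit 1369) (nat_lit 76) (nat_lit 1369) (nat_lit 104) (nat_lit 1) (nat_lit 102) (nat_lit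 1) (nat_lit 103) (nat_lit 1) (nat_lit 332) (nat_lit 341) (nat_lit 227)) (XT.nd (nat_lit 78) (nat_lit 76) (nat_lit 0) (XT.lf (nat_lit 0) (nat_lit 1555262816) (nat_lit 0) (nat_lit 1555266234) (nat_lit 152) (nat_lit 1555262816) (nat_lit 102) (nat_lit 3) (nat_lit 102) (nat_lit 1) (nat_lit 104) (nat_lit 1) (nat_lit 333) (nat_lit 341) (nat_lit 226)) (XT.lf (nat_lit 76) (nat_lit 1484568151) (nat_lit 0) (nat_lit 1484571123) (nat_lit 76) (nat_lit 1484571123) (nat_lit 102) (nat_lit 3) (nat_lit 101) (nat_lit 1) (nat_lit 102) (nat_lit 1) (nat_lit 334) (nat_lit 341) (nat_lit 225)))) (XT.nd (nat_lit 78) (nat_lit 76) (nat_lit 0) (XT.lf (nat_lit 152) (nat_lit 4260069222) (nat_lit 0) (nat_lit 783) (nat_lit 76) (nat_lit 783) (nat_lit 101) (nat_lit 1) (nat_lit 99) (nat_lit 1) (nat_lit 100) (nat_lit 1) (nat_lit 335) (nat_lit 341) (nat_lit 224)) (XT.nd (nat_lit 78) (nat_lit 76) (nat_lit 0) (XT.lf (nat_lit 0) (nat_lit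 1352402772) (nat_lit 0) (nat_lit 1352404726) (nat_lit 152) (nat_lit 1352402772) (nat_lit 99) (nat_lit 3) (nat_lit 99) (nat_lit 1) (nat_lit 101) (nat_lit 1) (nat_lit 336) (nat_lit 341) (nat_lit 223)) (XT.lf (nat_lit 76) (nat_lit 1290929403) (nat_lit 0) (nat_lit 1290931103) (nat_lit 76) (nat_lit 1290931103) (nat_lit 99) (nat_lit 3) (nat_lit 98) (nat_lit 1) (nat_lit 99) (nat_lit 1) (nat_lit 337) (nat_lit 341) (nat_lit 222))))))))
noncomputable def ec128 : XT := (XT.nd (nat_lit 1716) (nat_lit 760) (nat_lit 0) (XT.nd (nat_lit 858) (nat_lit 912) (nat_lit 0) (XT.nd (nat_lit 390) (nat_lit 456) (nat_lit 0) (XT.nd (nat_lit 156) (nat_lit 228) (nat_lit 0) (XT.nd (nat_lit 78) (nat_lit 0) (nat_lit 0) (XT.lf (nat_lit 152) (nat_lit 3704408455) (nat_lit 0) (nat_lit 447) (nat_lit 76) (nat_lit 447) (nat_lit 98) (nat_lit 1) (nat_lit 96) (nat_lit 1) (nat_lit 97) (nat_lit 1) (nat_lit 338) (nat_lit 341) (nat_lit 221))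 (XT.lf (nat_lit 0) (nat_lit 1176002595) (nat_lit 0) (nat_lit 1176003712) (nat_lit 152) (nat_lit 1176002595) (nat_lit 96) (nat_lit 3) (nat_lit 96) (nat_lit 1) (nat_lit 98) (nat_lit 1) (nat_lit 339) (nat_lit 341) (nat_lit 220))) (XT.nd (nat_lit 78) (nat_lit 152) (nat_lit 0) (XT.lf (nat_lit 76) (nat_lit 1122547637) (nat_lit 0) (nat_lit 1122548609) (nat_lit 76) (nat_lit 1122548609) (nat_lit 96) (nat_lit 3) (nat_lit 95) (nat_lit 1) (nat_lit 96) (nat_lit 1) (nat_lit 340) (nat_lit 341) (nat_lit 219)) (XT.nd (nat_lit 78) (nat_lit 0) (nat_lit 0) (XT.lf (nat_lit 152) (nat_lit 3221224993) (nat_lit 0) (nat_lit 256) (nat_lit 76) (nat_lit 256) (nat_lit 95) (nat_lit 1) (nat_lit 93) (nat_lit 1) (nat_lit 94) (nat_lit 1) (nat_lit 341) (nat_lit 341) (nat_lit 218)) (XT.lf (nat_lit 0) (nat_lit 1022611058) (nat_lit 0) (nat_lit 1022611696) (nat_lit 152) (nat_lit 1022611058) (nat_lit 93) (nat_lit 3) (nat_lit 93) (nat_lit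 1) (nat_lit 95) (nat_lit 1) (nat_lit 342) (nat_lit 341) (nat_lit 217))))) (XT.nd (nat_lit 234) (nat_lit 228) (nat_lit 0) (XT.nd (nat_lit 78) (nat_lit 152) (nat_lit 0) (XT.lf (nat_lit 76) (nat_lit 976128568) (nat_lit 0) (nat_lit 976129124) (nat_lit 76) (nat_lit 976129124) (nat_lit 93) (nat_lit 3) (nat_lit 92) (nat_lit 1) (nat_lit 93) (nat_lit 1) (nat_lit 343) (nat_lit 341) (nat_lit 216)) (XT.nd (nat_lit 78) (nat_lit 0) (nat_lit 0) (XT.lf (nat_lit 152) (nat_lit 2801065354) (nat_lit 0) (nat_lit 146) (nat_lit 76) (nat_lit 146) (nat_lit 92) (nat_lit 1) (nat_lit 90) (nat_lit 1) (nat_lit 91) (nat_lit 1) (nat_lit 344) (nat_lit 341) (nat_lit 215)) (XT.lf (nat_lit 0) (nat_lit 889227067) (nat_lit 0) (nat_lit 889227432) (nat_lit 152) (nat_lit 889227067) (nat_lit 90) (nat_lit 3) (nat_lit 90) (nat_lit 1) (nat_lit 92) (nat_lit 1) (nat_lit 345) (nat_lit 341) (nat_lit 214)))) (XT.nd (nat_lit 78) (nat_lit 152) (nat_lit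 0) (XT.lf (nat_lit 76) (nat_lit 848807559) (nat_lit 0) (nat_lit 848807876) (nat_lit 76) (nat_lit 848807876) (nat_lit 90) (nat_lit 3) (nat_lit 89) (nat_lit 1) (nat_lit 90) (nat_lit 1) (nat_lit 346) (nat_lit 341) (nat_lit 213)) (XT.nd (nat_lit 78) (nat_lit 0) (nat_lit 0) (XT.lf (nat_lit 152) (nat_lit 2435709085) (nat_lit 0) (nat_lit 83) (nat_lit 76) (nat_lit 83) (nat_lit 89) (nat_lit 1) (nat_lit 87) (nat_lit 1) (nat_lit 88) (nat_lit 1) (nat_lit 347) (nat_lit 341) (nat_lit 212)) (XT.lf (nat_lit 0) (nat_lit 773240962) (nat_lit 0) (nat_lit 773241171) (nat_lit 152) (nat_lit 773240962) (nat_lit 87) (nat_lit 3) (nat_lit 87) (nat_lit 1) (nat_lit 89) (nat_lit 1) (nat_lit 348) (nat_lit 341) (nat_lit 211)))))) (XT.nd (nat_lit 390) (nat_lit 456) (nat_lit 0) (XT.nd (nat_lit 156) (nat_lit 228) (nat_lit 0) (XT.nd (nat_lit 78) (nat_lit 152) (nat_lit 0) (XT.lf (nat_lit 76) (nat_lit 738093591) (nat_lit 0) (nat_lit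 738093772) (nat_lit 76) (nat_lit 738093772) (nat_lit 87) (nat_lit 3) (nat_lit 86) (nat_lit 1) (nat_lit 87) (nat_lit 1) (nat_lit 349) (nat_lit 341) (nat_lit 210)) (XT.lf (nat_lit 152) (nat_lit 2118007946) (nat_lit 0) (nat_lit 47) (nat_lit 76) (nat_lit 47) (nat_lit 86) (nat_lit 1) (nat_lit 84) (nat_lit 1) (nat_lit 85) (nat_lit 1) (nat_lit 350) (nat_lit 341) (nat_lit 209))) (XT.nd (nat_lit 78) (nat_lit 228) (nat_lit 0) (XT.lf (nat_lit 0) (nat_lit 672383465) (nat_lit 0) (nat_lit 672383585) (nat_lit 152) (nat_lit 672383465) (nat_lit 84) (nat_lit 3) (nat_lit 84) (nat_lit 1) (nat_lit 86) (nat_lit 1) (nat_lit 351) (nat_lit 341) (nat_lit 208)) (XT.nd (nat_lit 78) (nat_lit 152) (nat_lit 0) (XT.lf (nat_lit 76) (nat_lit 641820549) (nat_lit 0) (nat_lit 641820653) (nat_lit 76) (nat_lit 641820653) (nat_lit 84) (nat_lit 3) (nat_lit 83) (nat_lit 1) (nat_lit 84) (nat_lit 1) (nat_lit 352) (nat_lit 341) (nat_lit 207))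 (XT.lf (nat_lit 152) (nat_lit 1841746067) (nat_lit 0) (nat_lit 27) (nat_lit 76) (nat_lit 27) (nat_lit 83) (nat_lit 1) (nat_lit 81) (nat_lit 1) (nat_lit 82) (nat_lit 1) (nat_lit 353) (nat_lit 341) (nat_lit 206))))) (XT.nd (nat_lit 234) (nat_lit 228) (nat_lit 0) (XT.nd (nat_lit 78) (nat_lit 228) (nat_lit 0) (XT.lf (nat_lit 0) (nat_lit 584681285) (nat_lit 0) (nat_lit 584681354) (nat_lit 152) (nat_lit 584681285) (nat_lit 81) (nat_lit 3) (nat_lit 81) (nat_lit 1) (nat_lit 83) (nat_lit 1) (nat_lit 354) (nat_lit 341) (nat_lit 205)) (XT.nd (nat_lit 78) (nat_lit 152) (nat_lit 0) (XT.lf (nat_lit 76) (nat_lit 558104845) (nat_lit 0) (nat_lit 558104905) (nat_lit 76) (nat_lit 558104905) (nat_lit 81) (nat_lit 3) (nat_lit 80) (nat_lit 1) (nat_lit 81) (nat_lit 1) (nat_lit 355) (nat_lit 341) (nat_lit 204)) (XT.lf (nat_lit 152) (nat_lit 1601518334) (nat_lit 0) (nat_lit 15) (nat_lit 76) (nat_lit 15) (nat_lit 80) (nat_lit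 1) (nat_lit 78) (nat_lit 1) (nat_lit 79) (nat_lit 1) (nat_lit 356) (nat_lit 341) (nat_lit 203)))) (XT.nd (nat_lit 78) (nat_lit 228) (nat_lit 0) (XT.lf (nat_lit 0) (nat_lit 508418515) (nat_lit 0) (nat_lit 508418554) (nat_lit 152) (nat_lit 508418515) (nat_lit 78) (nat_lit 3) (nat_lit 78) (nat_lit 1) (nat_lit 80) (nat_lit 1) (nat_lit 357) (nat_lit 341) (nat_lit 202)) (XT.nd (nat_lit 78) (nat_lit 152) (nat_lit 0) (XT.lf (nat_lit 76) (nat_lit 485308572) (nat_lit 0) (nat_lit 485308606) (nat_lit 76) (nat_lit 485308606) (nat_lit 78) (nat_lit 3) (nat_lit 77) (nat_lit 1) (nat_lit 78) (nat_lit 1) (nat_lit 358) (nat_lit 341) (nat_lit 201)) (XT.lf (nat_lit 152) (nat_lit 1392624647) (nat_lit 0) (nat_lit 8) (nat_lit 76) (nat_lit 8) (nat_lit 77) (nat_lit 1) (nat_lit 75) (nat_lit 1) (nat_lit 76) (nat_lit 1) (nat_lit 359) (nat_lit 341) (nat_lit 200))))))) (XT.nd (nat_lit 858) (nat_lit 0) (nat_lit 0) (XT.nd (nat_lit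 390) (nat_lit 456) (nat_lit 0) (XT.nd (nat_lit 156) (nat_lit 228) (nat_lit 0) (XT.nd (nat_lit 78) (nat_lit 76) (nat_lit 0) (XT.lf (nat_lit 0) (nat_lit 442103060) (nat_lit 0) (nat_lit 442103083) (nat_lit 152) (nat_lit 442103060) (nat_lit 75) (nat_lit 3) (nat_lit 75) (nat_lit 1) (nat_lit 77) (nat_lit 1) (nat_lit 360) (nat_lit 341) (nat_lit 199)) (XT.lf (nat_lit 76) (nat_lit 422007461) (nat_lit 0) (nat_lit 422007480) (nat_lit 76) (nat_lit 422007480) (nat_lit 75) (nat_lit 3) (nat_lit 74) (nat_lit 1) (nat_lit 75) (nat_lit 1) (nat_lit 361) (nat_lit 341) (nat_lit 198))) (XT.nd (nat_lit 78) (nat_lit 76) (nat_lit 0) (XT.lf (nat_lit 152) (nat_lit 1210977959) (nat_lit 0) (nat_lit 5) (nat_lit 76) (nat_lit 5) (nat_lit 74) (nat_lit 1) (nat_lit 72) (nat_lit 1) (nat_lit 73) (nat_lit 1) (nat_lit 362) (nat_lit 341) (nat_lit 197)) (XT.nd (nat_lit 78) (nat_lit 76) (nat_lit 0) (XT.lf (nat_lit 0) (nat_lit 384437446)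 (nat_lit 0) (nat_lit 384437459) (nat_lit 152) (nat_lit 384437446) (nat_lit 72) (nat_lit 3) (nat_lit 72) (nat_lit 1) (nat_lit 74) (nat_lit 1) (nat_lit 363) (nat_lit 341) (nat_lit 196)) (XT.lf (nat_lit 76) (nat_lit 366963013) (nat_lit 0) (nat_lit 366963024) (nat_lit 76) (nat_lit 366963024) (nat_lit 72) (nat_lit 3) (nat_lit 71) (nat_lit 1) (nat_lit 72) (nat_lit 1) (nat_lit 364) (nat_lit 341) (nat_lit 195))))) (XT.nd (nat_lit 234) (nat_lit 228) (nat_lit 0) (XT.nd (nat_lit 78) (nat_lit 76) (nat_lit 0) (XT.lf (nat_lit 152) (nat_lit 1053024315) (nat_lit 0) (nat_lit 2) (nat_lit 76) (nat_lit 2) (nat_lit 71) (nat_lit 1) (nat_lit 69) (nat_lit 1) (nat_lit 70) (nat_lit 1) (nat_lit 365) (nat_lit 341) (nat_lit 194)) (XT.nd (nat_lit 78) (nat_lit 76) (nat_lit 0) (XT.lf (nat_lit 0) (nat_lit 334293432) (nat_lit 0) (nat_lit 334293440) (nat_lit 152) (nat_lit 334293432) (nat_lit 69) (nat_lit 3) (nat_lit 69) (nat_lit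 1) (nat_lit 71) (nat_lit 1) (nat_lit 366) (nat_lit 341) (nat_lit 193)) (XT.lf (nat_lit 76) (nat_lit 319098274) (nat_lit 0) (nat_lit 319098281) (nat_lit 76) (nat_lit 319098281) (nat_lit 69) (nat_lit 3) (nat_lit 68) (nat_lit 1) (nat_lit 69) (nat_lit 1) (nat_lit 367) (nat_lit 341) (nat_lit 192)))) (XT.nd (nat_lit 78) (nat_lit 76) (nat_lit 0) (XT.lf (nat_lit 152) (nat_lit 915673319) (nat_lit 0) (nat_lit 1) (nat_lit 76) (nat_lit 1) (nat_lit 68) (nat_lit 1) (nat_lit 66) (nat_lit 1) (nat_lit 67) (nat_lit 1) (nat_lit 368) (nat_lit 341) (nat_lit 191)) (XT.nd (nat_lit 78) (nat_lit 76) (nat_lit 0) (XT.lf (nat_lit 0) (nat_lit 290689942) (nat_lit 0) (nat_lit 290689946) (nat_lit 152) (nat_lit 290689942) (nat_lit 66) (nat_lit 3) (nat_lit 66) (nat_lit 1) (nat_lit 68) (nat_lit 1) (nat_lit 369) (nat_lit 341) (nat_lit 190)) (XT.lf (nat_lit 76) (nat_lit 277476761) (nat_lit 0) (nat_lit 277476765) (nat_lit 76) (nat_lit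 277476765) (nat_lit 66) (nat_lit 3) (nat_lit 65) (nat_lit 1) (nat_lit 66) (nat_lit 1) (nat_lit 370) (nat_lit 341) (nat_lit 189)))))) (XT.nd (nat_lit 35100) (nat_lit 0) (nat_lit 10868) (XT.nd (nat_lit 34866) (nat_lit 0) (nat_lit 11400) (XT.nd (nat_lit 34788) (nat_lit 0) (nat_lit 11400) (XT.lf (nat_lit 0) (nat_lit 796237669) (nat_lit 0) (nat_lit 0) (nat_lit 0) (nat_lit 0) (nat_lit 65) (nat_lit 1) (nat_lit 1) (nat_lit 0) (nat_lit 1) (nat_lit 0) (nat_lit 371) (nat_lit 341) (nat_lit 188)) (XT.lf (nat_lit 380) (nat_lit 248561426648) (nat_lit 0) (nat_lit 220156973044) (nat_lit 380) (nat_lit 248561426648) (nat_lit 220) (nat_lit 1) (nat_lit 215) (nat_lit 0) (nat_lit 220) (nat_lit 0) (nat_lit 216) (nat_lit 342) (nat_lit 342))) (XT.nd (nat_lit 78) (nat_lit 0) (nat_lit 76) (XT.lf (nat_lit 380) (nat_lit 919396460155) (nat_lit 76) (nat_lit 210149837906) (nat_lit 0) (nat_lit 210149837906) (nat_lit 220) (nat_lit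 1) (nat_lit 216) (nat_lit 1) (nat_lit 215) (nat_lit 0) (nat_lit 217) (nat_lit 342) (nat_lit 341)) (XT.nd (nat_lit 78) (nat_lit 0) (nat_lit 0) (XT.lf (nat_lit 380) (nat_lit 405264687544) (nat_lit 0) (nat_lit 440966209325) (nat_lit 304) (nat_lit 405264687544) (nat_lit 221) (nat_lit 1) (nat_lit 216) (nat_lit 1) (nat_lit 220) (nat_lit 1) (nat_lit 218) (nat_lit 342) (nat_lit 340)) (XT.lf (nat_lit 380) (nat_lit 695818425988) (nat_lit 76) (nat_lit 238183301236) (nat_lit 0) (nat_lit 238183301236) (nat_lit 221) (nat_lit 1) (nat_lit 217) (nat_lit 1) (nat_lit 216) (nat_lit 1) (nat_lit 219) (nat_lit 342) (nat_lit 339))))) (XT.nd (nat_lit 234) (nat_lit 380) (nat_lit 0) (XT.nd (nat_lit 78) (nat_lit 304) (nat_lit 0) (XT.lf (nat_lit 76) (nat_lit 281467781918) (nat_lit 0) (nat_lit 535961910219) (nat_lit 304) (nat_lit 281467781918) (nat_lit 218) (nat_lit 1) (nat_lit 217) (nat_lit 1) (nat_lit 221) (nat_lit 1) (nat_lit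 220) (nat_lit 342) (nat_lit 338)) (XT.nd (nat_lit 78) (nat_lit 0) (nat_lit 0) (XT.lf (nat_lit 380) (nat_lit 423023343912) (nat_lit 0) (nat_lit 304484091090) (nat_lit 304) (nat_lit 304484091090) (nat_lit 218) (nat_lit 1) (nat_lit 213) (nat_lit 1) (nat_lit 217) (nat_lit 1) (nat_lit 221) (nat_lit 342) (nat_lit 337)) (XT.lf (nat_lit 76) (nat_lit 140608287610) (nat_lit 0) (nat_lit 689968391502) (nat_lit 380) (nat_lit 140608287610) (nat_lit 214) (nat_lit 1) (nat_lit 213) (nat_lit 1) (nat_lit 218) (nat_lit 1) (nat_lit 222) (nat_lit 342) (nat_lit 336)))) (XT.nd (nat_lit 78) (nat_lit 228) (nat_lit 0) (XT.lf (nat_lit 228) (nat_lit 126544141961) (nat_lit 0) (nat_lit 393837417027) (nat_lit 152) (nat_lit 393837417027) (nat_lit 214) (nat_lit 1) (nat_lit 211) (nat_lit 1) (nat_lit 213) (nat_lit 1) (nat_lit 223) (nat_lit 342) (nat_lit 335)) (XT.nd (nat_lit 78) (nat_lit 0) (nat_lit 0) (XT.lf (nat_lit 228) (nat_lit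 850375041716) (nat_lit 0) (nat_lit 6672052042) (nat_lit 152) (nat_lit 6672052042) (nat_lit 211) (nat_lit 1) (nat_lit 208) (nat_lit 1) (nat_lit 210) (nat_lit 1) (nat_lit 224) (nat_lit 342) (nat_lit 334)) (XT.lf (nat_lit 76) (nat_lit 326719526431) (nat_lit 0) (nat_lit 160401896316) (nat_lit 228) (nat_lit 326719526431) (nat_lit 209) (nat_lit 1) (nat_lit 208) (nat_lit 1) (nat_lit 211) (nat_lit 1) (nat_lit 225) (nat_lit 342) (nat_lit 333))))))))
noncomputable def ec129 : XT := (XT.nd (nat_lit 1716) (nat_lit 1824) (nat_lit 0) (XT.nd (nat_lit 858) (nat_lit 836) (nat_lit 0) (XT.nd (nat_lit 390) (nat_lit 380) (nat_lit 0) (XT.nd (nat_lit 156) (nat_lit 304) (nat_lit 0) (XT.nd (nat_lit 78) (nat_lit 0) (nat_lit 0) (XT.lf (nat_lit 228) (nat_lit 474899371614) (nat_lit 0) (nat_lit 147309116644) (nat_lit 152) (nat_lit 147309116644) (nat_lit 209) (nat_lit 1) (nat_lit 206) (nat_lit 1) (nat_lit 208) (nat_lit 1) (nat_lit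 226) (nat_lit 342) (nat_lit 332)) (XT.lf (nat_lit 76) (nat_lit 148516609543) (nat_lit 0) (nat_lit 430992661779) (nat_lit 228) (nat_lit 148516609543) (nat_lit 207) (nat_lit 1) (nat_lit 206) (nat_lit 1) (nat_lit 209) (nat_lit 1) (nat_lit 227) (nat_lit 342) (nat_lit 331))) (XT.nd (nat_lit 78) (nat_lit 228) (nat_lit 0) (XT.lf (nat_lit 152) (nat_lit 122776423962) (nat_lit 0) (nat_lit 283307202205) (nat_lit 76) (nat_lit 283307202205) (nat_lit 207) (nat_lit 1) (nat_lit 205) (nat_lit 1) (nat_lit 206) (nat_lit 1) (nat_lit 228) (nat_lit 342) (nat_lit 330)) (XT.nd (nat_lit 78) (nat_lit 0) (nat_lit 0) (XT.lf (nat_lit 228) (nat_lit 621566428996) (nat_lit 0) (nat_lit 16512548349) (nat_lit 152) (nat_lit 16512548349) (nat_lit 205) (nat_lit 1) (nat_lit 202) (nat_lit 1) (nat_lit 204) (nat_lit 1) (nat_lit 229) (nat_lit 342) (nat_lit 329)) (XT.lf (nat_lit 76) (nat_lit 217534881830) (nat_lit 0) (nat_lit 184737719106)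 (nat_lit 228) (nat_lit 217534881830) (nat_lit 203) (nat_lit 1) (nat_lit 202) (nat_lit 1) (nat_lit 205) (nat_lit 1) (nat_lit 230) (nat_lit 342) (nat_lit 328))))) (XT.nd (nat_lit 234) (nat_lit 152) (nat_lit 0) (XT.nd (nat_lit 78) (nat_lit 152) (nat_lit 0) (XT.lf (nat_lit 152) (nat_lit 264501581274) (nat_lit 0) (nat_lit 161981812360) (nat_lit 76) (nat_lit 161981812360) (nat_lit 203) (nat_lit 1) (nat_lit 201) (nat_lit 1) (nat_lit 202) (nat_lit 1) (nat_lit 231) (nat_lit 342) (nat_lit 327)) (XT.nd (nat_lit 78) (nat_lit 152) (nat_lit 0) (XT.lf (nat_lit 0) (nat_lit 51793054642) (nat_lit 0) (nat_lit 455982076034) (nat_lit 152) (nat_lit 51793054642) (nat_lit 201) (nat_lit 3) (nat_lit 201) (nat_lit 1) (nat_lit 203) (nat_lit 1) (nat_lit 232) (nat_lit 342) (nat_lit 326)) (XT.lf (nat_lit 76) (nat_lit 239698038454) (nat_lit 0) (nat_lit 51986360836) (nat_lit 152) (nat_lit 239698038454) (nat_lit 200) (nat_lit 1)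 (nat_lit 199) (nat_lit 1) (nat_lit 201) (nat_lit 1) (nat_lit 233) (nat_lit 342) (nat_lit 325)))) (XT.nd (nat_lit 78) (nat_lit 76) (nat_lit 0) (XT.lf (nat_lit 152) (nat_lit 320189430942) (nat_lit 0) (nat_lit 92613626944) (nat_lit 76) (nat_lit 92613626944) (nat_lit 200) (nat_lit 1) (nat_lit 198) (nat_lit 1) (nat_lit 199) (nat_lit 1) (nat_lit 234) (nat_lit 342) (nat_lit 324)) (XT.nd (nat_lit 78) (nat_lit 76) (nat_lit 0) (XT.lf (nat_lit 0) (nat_lit 83250876736) (nat_lit 0) (nat_lit 314347261550) (nat_lit 152) (nat_lit 83250876736) (nat_lit 198) (nat_lit 3) (nat_lit 198) (nat_lit 1) (nat_lit 200) (nat_lit 1) (nat_lit 235) (nat_lit 342) (nat_lit 323)) (XT.lf (nat_lit 76) (nat_lit 18571782915) (nat_lit 0) (nat_lit 219525161014) (nat_lit 76) (nat_lit 219525161014) (nat_lit 198) (nat_lit 3) (nat_lit 197) (nat_lit 1) (nat_lit 198) (nat_lit 1) (nat_lit 236) (nat_lit 342) (nat_lit 322)))))) (XT.nd (nat_lit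 390) (nat_lit 456) (nat_lit 0) (XT.nd (nat_lit 156) (nat_lit 228) (nat_lit 0) (XT.nd (nat_lit 78) (nat_lit 0) (nat_lit 0) (XT.lf (nat_lit 152) (nat_lit 329990905810) (nat_lit 0) (nat_lit 52952141791) (nat_lit 76) (nat_lit 52952141791) (nat_lit 197) (nat_lit 1) (nat_lit 195) (nat_lit 1) (nat_lit 196) (nat_lit 1) (nat_lit 237) (nat_lit 342) (nat_lit 321)) (XT.lf (nat_lit 0) (nat_lit 94240723882) (nat_lit 0) (nat_lit 226370831944) (nat_lit 152) (nat_lit 94240723882) (nat_lit 195) (nat_lit 3) (nat_lit 195) (nat_lit 1) (nat_lit 197) (nat_lit 1) (nat_lit 238) (nat_lit 342) (nat_lit 320))) (XT.nd (nat_lit 78) (nat_lit 152) (nat_lit 0) (XT.lf (nat_lit 76) (nat_lit 55140161844) (nat_lit 0) (nat_lit 170035907985) (nat_lit 76) (nat_lit 170035907985) (nat_lit 195) (nat_lit 3) (nat_lit 194) (nat_lit 1) (nat_lit 195) (nat_lit 1) (nat_lit 239) (nat_lit 342) (nat_lit 319)) (XT.nd (nat_lit 78) (nat_lit 0) (nat_lit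 0) (XT.lf (nat_lit 152) (nat_lit 316431249209) (nat_lit 0) (nat_lit 30275558930) (nat_lit 76) (nat_lit 30275558930) (nat_lit 194) (nat_lit 1) (nat_lit 192) (nat_lit 1) (nat_lit 193) (nat_lit 1) (nat_lit 240) (nat_lit 342) (nat_lit 318)) (XT.lf (nat_lit 0) (nat_lit 94440496189) (nat_lit 0) (nat_lit 169986314314) (nat_lit 152) (nat_lit 94440496189) (nat_lit 192) (nat_lit 3) (nat_lit 192) (nat_lit 1) (nat_lit 194) (nat_lit 1) (nat_lit 241) (nat_lit 342) (nat_lit 317))))) (XT.nd (nat_lit 234) (nat_lit 228) (nat_lit 0) (XT.nd (nat_lit 78) (nat_lit 152) (nat_lit 0) (XT.lf (nat_lit 76) (nat_lit 70241074920) (nat_lit 0) (nat_lit 135933090681) (nat_lit 76) (nat_lit 135933090681) (nat_lit 192) (nat_lit 3) (nat_lit 191) (nat_lit 1) (nat_lit 192) (nat_lit 1) (nat_lit 242) (nat_lit 342) (nat_lit 316)) (XT.nd (nat_lit 78) (nat_lit 0) (nat_lit 0) (XT.lf (nat_lit 152) (nat_lit 292014400520) (nat_lit 0) (nat_lit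 17310149080) (nat_lit 76) (nat_lit 17310149080) (nat_lit 191) (nat_lit 1) (nat_lit 189) (nat_lit 1) (nat_lit 190) (nat_lit 1) (nat_lit 243) (nat_lit 342) (nat_lit 315)) (XT.lf (nat_lit 0) (nat_lit 89264535379) (nat_lit 0) (nat_lit 132458102083) (nat_lit 152) (nat_lit 89264535379) (nat_lit 189) (nat_lit 3) (nat_lit 189) (nat_lit 1) (nat_lit 191) (nat_lit 1) (nat_lit 244) (nat_lit 342) (nat_lit 314)))) (XT.nd (nat_lit 78) (nat_lit 152) (nat_lit 0) (XT.lf (nat_lit 76) (nat_lit 73825352492) (nat_lit 0) (nat_lit 111384975713) (nat_lit 76) (nat_lit 111384975713) (nat_lit 189) (nat_lit 3) (nat_lit 188) (nat_lit 1) (nat_lit 189) (nat_lit 1) (nat_lit 245) (nat_lit 342) (nat_lit 313)) (XT.nd (nat_lit 78) (nat_lit 0) (nat_lit 0) (XT.lf (nat_lit 152) (nat_lit 263563491500) (nat_lit 0) (nat_lit 9897133918) (nat_lit 76) (nat_lit 9897133918) (nat_lit 188) (nat_lit 1) (nat_lit 186) (nat_lit 1) (nat_lit 187) (nat_lit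 1) (nat_lit 246) (nat_lit 342) (nat_lit 312)) (XT.lf (nat_lit 0) (nat_lit 81705005356) (nat_lit 0) (nat_lit 106401067308) (nat_lit 152) (nat_lit 81705005356) (nat_lit 186) (nat_lit 3) (nat_lit 186) (nat_lit 1) (nat_lit 188) (nat_lit 1) (nat_lit 247) (nat_lit 342) (nat_lit 311))))))) (XT.nd (nat_lit 858) (nat_lit 912) (nat_lit 0) (XT.nd (nat_lit 390) (nat_lit 456) (nat_lit 0) (XT.nd (nat_lit 156) (nat_lit 228) (nat_lit 0) (XT.nd (nat_lit 78) (nat_lit 152) (nat_lit 0) (XT.lf (nat_lit 76) (nat_lit 71483615271) (nat_lit 0) (nat_lit 92958451750) (nat_lit 76) (nat_lit 92958451750) (nat_lit 186) (nat_lit 3) (nat_lit 185) (nat_lit 1) (nat_lit 186) (nat_lit 1) (nat_lit 248) (nat_lit 342) (nat_lit 310)) (XT.lf (nat_lit 152) (nat_lit 234696160156) (nat_lit 0) (nat_lit 5658718439) (nat_lit 76) (nat_lit 5658718439) (nat_lit 185) (nat_lit 1) (nat_lit 183) (nat_lit 1) (nat_lit 184) (nat_lit 1) (nat_lit 249) (nat_lit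 342) (nat_lit 309))) (XT.nd (nat_lit 78) (nat_lit 228) (nat_lit 0) (XT.lf (nat_lit 0) (nat_lit 73382682461) (nat_lit 0) (nat_lit 87502736035) (nat_lit 152) (nat_lit 73382682461) (nat_lit 183) (nat_lit 3) (nat_lit 183) (nat_lit 1) (nat_lit 185) (nat_lit 1) (nat_lit 250) (nat_lit 342) (nat_lit 308)) (XT.nd (nat_lit 78) (nat_lit 152) (nat_lit 0) (XT.lf (nat_lit 76) (nat_lit 66326406756) (nat_lit 0) (nat_lit 78604714212) (nat_lit 76) (nat_lit 78604714212) (nat_lit 183) (nat_lit 3) (nat_lit 182) (nat_lit 1) (nat_lit 183) (nat_lit 1) (nat_lit 251) (nat_lit 342) (nat_lit 307)) (XT.lf (nat_lit 152) (nat_lit 207234272577) (nat_lit 0) (nat_lit 3235390633) (nat_lit 76) (nat_lit 3235390633) (nat_lit 182) (nat_lit 1) (nat_lit 180) (nat_lit 1) (nat_lit 181) (nat_lit 1) (nat_lit 252) (nat_lit 342) (nat_lit 306))))) (XT.nd (nat_lit 234) (nat_lit 228) (nat_lit 0) (XT.nd (nat_lit 78) (nat_lit 228) (nat_lit 0) (XT.lf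 (nat_lit 0) (nat_lit 65145987273) (nat_lit 0) (nat_lit 73219173732) (nat_lit 152) (nat_lit 65145987273) (nat_lit 180) (nat_lit 3) (nat_lit 180) (nat_lit 1) (nat_lit 182) (nat_lit 1) (nat_lit 253) (nat_lit 342) (nat_lit 305)) (XT.nd (nat_lit 78) (nat_lit 152) (nat_lit 0) (XT.lf (nat_lit 76) (nat_lit 60057484173) (nat_lit 0) (nat_lit 67077646312) (nat_lit 76) (nat_lit 67077646312) (nat_lit 180) (nat_lit 3) (nat_lit 179) (nat_lit 1) (nat_lit 180) (nat_lit 1) (nat_lit 254) (nat_lit 342) (nat_lit 304)) (XT.lf (nat_lit 152) (nat_lit 182005112535) (nat_lit 0) (nat_lit 1849845095) (nat_lit 76) (nat_lit 1849845095) (nat_lit 179) (nat_lit 1) (nat_lit 177) (nat_lit 1) (nat_lit 178) (nat_lit 1) (nat_lit 255) (nat_lit 342) (nat_lit 303)))) (XT.nd (nat_lit 78) (nat_lit 228) (nat_lit 0) (XT.lf (nat_lit 0) (nat_lit 57411951753) (nat_lit 0) (nat_lit 62027822313) (nat_lit 152) (nat_lit 57411951753) (nat_lit 177)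 (nat_lit 3) (nat_lit 177) (nat_lit 1) (nat_lit 179) (nat_lit 1) (nat_lit 256) (nat_lit 342) (nat_lit 302)) (XT.nd (nat_lit 78) (nat_lit 152) (nat_lit 0) (XT.lf (nat_lit 76) (nat_lit 53586014404) (nat_lit 0) (nat_lit 57599814892) (nat_lit 76) (nat_lit 57599814892) (nat_lit 177) (nat_lit 3) (nat_lit 176) (nat_lit 1) (nat_lit 177) (nat_lit 1) (nat_lit 257) (nat_lit 342) (nat_lit 301)) (XT.lf (nat_lit 152) (nat_lit 159295269972) (nat_lit 0) (nat_lit 1057654937) (nat_lit 76) (nat_lit 1057654937) (nat_lit 176) (nat_lit 1) (nat_lit 174) (nat_lit 1) (nat_lit 175) (nat_lit 1) (nat_lit 258) (nat_lit 342) (nat_lit 300)))))) (XT.nd (nat_lit 468) (nat_lit 456) (nat_lit 0) (XT.nd (nat_lit 234) (nat_lit 228) (nat_lit 0) (XT.nd (nat_lit 78) (nat_lit 228) (nat_lit 0) (XT.lf (nat_lit 0) (nat_lit 50359836787) (nat_lit 0) (nat_lit 52998975761) (nat_lit 152) (nat_lit 50359836787) (nat_lit 174) (nat_lit 3) (nat_lit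 174) (nat_lit 1) (nat_lit 176) (nat_lit 1) (nat_lit 259) (nat_lit 342) (nat_lit 299)) (XT.nd (nat_lit 78) (nat_lit 152) (nat_lit 0) (XT.lf (nat_lit 76) (nat_lit 47375328007) (nat_lit 0) (nat_lit 49670231463) (nat_lit 76) (nat_lit 49670231463) (nat_lit 174) (nat_lit 3) (nat_lit 173) (nat_lit 1) (nat_lit 174) (nat_lit 1) (nat_lit 260) (nat_lit 342) (nat_lit 298)) (XT.lf (nat_lit 152) (nat_lit 139106506019) (nat_lit 0) (nat_lit 604717643) (nat_lit 76) (nat_lit 604717643) (nat_lit 173) (nat_lit 1) (nat_lit 171) (nat_lit 1) (nat_lit 172) (nat_lit 1) (nat_lit 261) (nat_lit 342) (nat_lit 297)))) (XT.nd (nat_lit 78) (nat_lit 228) (nat_lit 0) (XT.lf (nat_lit 0) (nat_lit 44040675815) (nat_lit 0) (nat_lit 45549612089) (nat_lit 152) (nat_lit 44040675815) (nat_lit 171) (nat_lit 3) (nat_lit 171) (nat_lit 1) (nat_lit 173) (nat_lit 1) (nat_lit 262) (nat_lit 342) (nat_lit 296)) (XT.nd (nat_lit 78) (nat_lit 152)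 (nat_lit 0) (XT.lf (nat_lit 76) (nat_lit 41641215248) (nat_lit 0) (nat_lit 42953333747) (nat_lit 76) (nat_lit 42953333747) (nat_lit 171) (nat_lit 3) (nat_lit 170) (nat_lit 1) (nat_lit 171) (nat_lit 1) (nat_lit 263) (nat_lit 342) (nat_lit 295)) (XT.lf (nat_lit 152) (nat_lit 121298873174) (nat_lit 0) (nat_lit 345749275) (nat_lit 76) (nat_lit 345749275) (nat_lit 170) (nat_lit 1) (nat_lit 168) (nat_lit 1) (nat_lit 169) (nat_lit 1) (nat_lit 264) (nat_lit 342) (nat_lit 294))))) (XT.nd (nat_lit 234) (nat_lit 228) (nat_lit 0) (XT.nd (nat_lit 78) (nat_lit 228) (nat_lit 0) (XT.lf (nat_lit 0) (nat_lit 38438899930) (nat_lit 0) (nat_lit 39301639142) (nat_lit 152) (nat_lit 38438899930) (nat_lit 168) (nat_lit 3) (nat_lit 168) (nat_lit 1) (nat_lit 170) (nat_lit 1) (nat_lit 265) (nat_lit 342) (nat_lit 293)) (XT.nd (nat_lit 78) (nat_lit 152) (nat_lit 0) (XT.lf (nat_lit 76) (nat_lit 36464341445) (nat_lit 0) (nat_lit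 37214549456) (nat_lit 76) (nat_lit 37214549456) (nat_lit 168) (nat_lit 3) (nat_lit 167) (nat_lit 1) (nat_lit 168) (nat_lit 1) (nat_lit 266) (nat_lit 342) (nat_lit 292)) (XT.lf (nat_lit 152) (nat_lit 105669786923) (nat_lit 0) (nat_lit 197683270) (nat_lit 76) (nat_lit 197683270) (nat_lit 167) (nat_lit 1) (nat_lit 165) (nat_lit 1) (nat_lit 166) (nat_lit 1) (nat_lit 267) (nat_lit 342) (nat_lit 291)))) (XT.nd (nat_lit 78) (nat_lit 228) (nat_lit 0) (XT.lf (nat_lit 0) (nat_lit 33506696744) (nat_lit 0) (nat_lit 33999970688) (nat_lit 152) (nat_lit 33506696744) (nat_lit 165) (nat_lit 3) (nat_lit 165) (nat_lit 1) (nat_lit 167) (nat_lit 1) (nat_lit 268) (nat_lit 342) (nat_lit 290)) (XT.nd (nat_lit 78) (nat_lit 152) (nat_lit 0) (XT.lf (nat_lit 76) (nat_lit 31853685115) (nat_lit 0) (nat_lit 32282618979) (nat_lit 76) (nat_lit 32282618979) (nat_lit 165) (nat_lit 3) (nat_lit 164) (nat_lit 1) (nat_lit 165) (nat_lit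 1) (nat_lit 269) (nat_lit 342) (nat_lit 289)) (XT.lf (nat_lit 152) (nat_lit 91996837112) (nat_lit 0) (nat_lit 113026051) (nat_lit 76) (nat_lit 113026051) (nat_lit 164) (nat_lit 1) (nat_lit 162) (nat_lit 1) (nat_lit 163) (nat_lit 1) (nat_lit 270) (nat_lit 342) (nat_lit 288))))))))
noncomputable def ec130 : XT := (XT.nd (nat_lit 1716) (nat_lit 1672) (nat_lit 0) (XT.nd (nat_lit 858) (nat_lit 836) (nat_lit 0) (XT.nd (nat_lit 390) (nat_lit 456) (nat_lit 0) (XT.nd (nat_lit 156) (nat_lit 228) (nat_lit 0) (XT.nd (nat_lit 78) (nat_lit 76) (nat_lit 0) (XT.lf (nat_lit 0) (nat_lit 29182893875) (nat_lit 0) (nat_lit 29464924854) (nat_lit 152) (nat_lit 29182893875) (nat_lit 162) (nat_lit 3) (nat_lit 162) (nat_lit 1) (nat_lit 164) (nat_lit 1) (nat_lit 271) (nat_lit 342) (nat_lit 287)) (XT.lf (nat_lit 76) (nat_lit 27782082235) (nat_lit 0) (nat_lit 28027326565) (nat_lit 76) (nat_lit 28027326565) (nat_lit 162) (nat_lit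 3) (nat_lit 161) (nat_lit 1) (nat_lit 162) (nat_lit 1) (nat_lit 272) (nat_lit 342) (nat_lit 286))) (XT.nd (nat_lit 78) (nat_lit 76) (nat_lit 0) (XT.lf (nat_lit 152) (nat_lit 80060180183) (nat_lit 0) (nat_lit 64623011) (nat_lit 76) (nat_lit 64623011) (nat_lit 161) (nat_lit 1) (nat_lit 159) (nat_lit 1) (nat_lit 160) (nat_lit 1) (nat_lit 273) (nat_lit 342) (nat_lit 285)) (XT.nd (nat_lit 78) (nat_lit 76) (nat_lit 0) (XT.lf (nat_lit 0) (nat_lit 25403093647) (nat_lit 0) (nat_lit 25564345775) (nat_lit 152) (nat_lit 25403093647) (nat_lit 159) (nat_lit 3) (nat_lit 159) (nat_lit 1) (nat_lit 161) (nat_lit 1) (nat_lit 274) (nat_lit 342) (nat_lit 284)) (XT.lf (nat_lit 76) (nat_lit 24205916893) (nat_lit 0) (nat_lit 24346136135) (nat_lit 76) (nat_lit 24346136135) (nat_lit 159) (nat_lit 3) (nat_lit 158) (nat_lit 1) (nat_lit 159) (nat_lit 1) (nat_lit 275) (nat_lit 342) (nat_lit 283))))) (XT.nd (nat_lit 234) (nat_lit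 228) (nat_lit 0) (XT.nd (nat_lit 78) (nat_lit 76) (nat_lit 0) (XT.lf (nat_lit 152) (nat_lit 69653528715) (nat_lit 0) (nat_lit 36948416) (nat_lit 76) (nat_lit 36948416) (nat_lit 158) (nat_lit 1) (nat_lit 156) (nat_lit 1) (nat_lit 157) (nat_lit 1) (nat_lit 276) (nat_lit 342) (nat_lit 282)) (XT.nd (nat_lit 78) (nat_lit 76) (nat_lit 0) (XT.lf (nat_lit 0) (nat_lit 22104891988) (nat_lit 0) (nat_lit 22197088415) (nat_lit 152) (nat_lit 22104891988) (nat_lit 156) (nat_lit 3) (nat_lit 156) (nat_lit 1) (nat_lit 158) (nat_lit 1) (nat_lit 277) (nat_lit 342) (nat_lit 281)) (XT.lf (nat_lit 76) (nat_lit 21075829986) (nat_lit 0) (nat_lit 21156000793) (nat_lit 76) (nat_lit 21156000793) (nat_lit 156) (nat_lit 3) (nat_lit 155) (nat_lit 1) (nat_lit 156) (nat_lit 1) (nat_lit 278) (nat_lit 342) (nat_lit 280)))) (XT.nd (nat_lit 78) (nat_lit 76) (nat_lit 0) (XT.lf (nat_lit 152) (nat_lit 60588857938) (nat_lit 0) (nat_lit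 21125377) (nat_lit 76) (nat_lit 21125377) (nat_lit 155) (nat_lit 1) (nat_lit 153) (nat_lit 1) (nat_lit 154) (nat_lit 1) (nat_lit 279) (nat_lit 342) (nat_lit 279)) (XT.nd (nat_lit 78) (nat_lit 76) (nat_lit 0) (XT.lf (nat_lit 0) (nat_lit 19230361778) (nat_lit 0) (nat_lit 19283075385) (nat_lit 152) (nat_lit 19230361778) (nat_lit 153) (nat_lit 3) (nat_lit 153) (nat_lit 1) (nat_lit 155) (nat_lit 1) (nat_lit 280) (nat_lit 342) (nat_lit 278)) (XT.lf (nat_lit 76) (nat_lit 18342364146) (nat_lit 0) (nat_lit 18388202065) (nat_lit 76) (nat_lit 18388202065) (nat_lit 153) (nat_lit 3) (nat_lit 152) (nat_lit 1) (nat_lit 153) (nat_lit 1) (nat_lit 281) (nat_lit 342) (nat_lit 277)))))) (XT.nd (nat_lit 390) (nat_lit 456) (nat_lit 0) (XT.nd (nat_lit 156) (nat_lit 228) (nat_lit 0) (XT.nd (nat_lit 78) (nat_lit 0) (nat_lit 0) (XT.lf (nat_lit 152) (nat_lit 52697725589) (nat_lit 0) (nat_lit 12078502) (nat_lit 76) (nat_lit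 12078502) (nat_lit 152) (nat_lit 1) (nat_lit 150) (nat_lit 1) (nat_lit 151) (nat_lit 1) (nat_lit 282) (nat_lit 342) (nat_lit 276)) (XT.lf (nat_lit 0) (nat_lit 16727037448) (nat_lit 0) (nat_lit 16757176624) (nat_lit 152) (nat_lit 16727037448) (nat_lit 150) (nat_lit 3) (nat_lit 150) (nat_lit 1) (nat_lit 152) (nat_lit 1) (nat_lit 283) (nat_lit 342) (nat_lit 275))) (XT.nd (nat_lit 78) (nat_lit 152) (nat_lit 0) (XT.lf (nat_lit 76) (nat_lit 15958775752) (nat_lit 0) (nat_lit 15984983731) (nat_lit 76) (nat_lit 15984983731) (nat_lit 150) (nat_lit 3) (nat_lit 149) (nat_lit 1) (nat_lit 150) (nat_lit 1) (nat_lit 284) (nat_lit 342) (nat_lit 274)) (XT.nd (nat_lit 78) (nat_lit 0) (nat_lit 0) (XT.lf (nat_lit 152) (nat_lit 45830834263) (nat_lit 0) (nat_lit 6905923) (nat_lit 76) (nat_lit 6905923) (nat_lit 149) (nat_lit 1) (nat_lit 147) (nat_lit 1) (nat_lit 148) (nat_lit 1) (nat_lit 285) (nat_lit 342) (nat_lit 273))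 (XT.lf (nat_lit 0) (nat_lit 14548099417) (nat_lit 0) (nat_lit 14565331589) (nat_lit 152) (nat_lit 14548099417) (nat_lit 147) (nat_lit 3) (nat_lit 147) (nat_lit 1) (nat_lit 149) (nat_lit 1) (nat_lit 286) (nat_lit 342) (nat_lit 272))))) (XT.nd (nat_lit 234) (nat_lit 228) (nat_lit 0) (XT.nd (nat_lit 78) (nat_lit 152) (nat_lit 0) (XT.lf (nat_lit 76) (nat_lit 13882281414) (nat_lit 0) (nat_lit 13897265911) (nat_lit 76) (nat_lit 13897265911) (nat_lit 147) (nat_lit 3) (nat_lit 146) (nat_lit 1) (nat_lit 147) (nat_lit 1) (nat_lit 287) (nat_lit 342) (nat_lit 271)) (XT.nd (nat_lit 78) (nat_lit 0) (nat_lit 0) (XT.lf (nat_lit 152) (nat_lit 39856744431) (nat_lit 0) (nat_lit 3948484) (nat_lit 76) (nat_lit 3948484) (nat_lit 146) (nat_lit 1) (nat_lit 144) (nat_lit 1) (nat_lit 145) (nat_lit 1) (nat_lit 288) (nat_lit 342) (nat_lit 270)) (XT.lf (nat_lit 0) (nat_lit 12652150422) (nat_lit 0) (nat_lit 12662002972) (nat_lit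 152) (nat_lit 12652150422) (nat_lit 144) (nat_lit 3) (nat_lit 144) (nat_lit 1) (nat_lit 146) (nat_lit 1) (nat_lit 289) (nat_lit 342) (nat_lit 269)))) (XT.nd (nat_lit 78) (nat_lit 152) (nat_lit 0) (XT.lf (nat_lit 76) (nat_lit 12074456483) (nat_lit 0) (nat_lit 12083023918) (nat_lit 76) (nat_lit 12083023918) (nat_lit 144) (nat_lit 3) (nat_lit 143) (nat_lit 1) (nat_lit 144) (nat_lit 1) (nat_lit 290) (nat_lit 342) (nat_lit 268)) (XT.nd (nat_lit 78) (nat_lit 0) (nat_lit 0) (XT.lf (nat_lit 152) (nat_lit 34660237069) (nat_lit 0) (nat_lit 2257558) (nat_lit 76) (nat_lit 2257558) (nat_lit 143) (nat_lit 1) (nat_lit 141) (nat_lit 1) (nat_lit 142) (nat_lit 1) (nat_lit 291) (nat_lit 342) (nat_lit 267)) (XT.lf (nat_lit 0) (nat_lit 11002801426) (nat_lit 0) (nat_lit 11008434654) (nat_lit 152) (nat_lit 11002801426) (nat_lit 141) (nat_lit 3) (nat_lit 141) (nat_lit 1) (nat_lit 143) (nat_lit 1) (nat_lit 292) (nat_lit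 342) (nat_lit 266))))))) (XT.nd (nat_lit 858) (nat_lit 760) (nat_lit 0) (XT.nd (nat_lit 390) (nat_lit 456) (nat_lit 0) (XT.nd (nat_lit 156) (nat_lit 228) (nat_lit 0) (XT.nd (nat_lit 78) (nat_lit 152) (nat_lit 0) (XT.lf (nat_lit 76) (nat_lit 10501189707) (nat_lit 0) (nat_lit 10506088166) (nat_lit 76) (nat_lit 10506088166) (nat_lit 141) (nat_lit 3) (nat_lit 140) (nat_lit 1) (nat_lit 141) (nat_lit 1) (nat_lit 293) (nat_lit 342) (nat_lit 265)) (XT.lf (nat_lit 152) (nat_lit 30140593542) (nat_lit 0) (nat_lit 1290766) (nat_lit 76) (nat_lit 1290766) (nat_lit 140) (nat_lit 1) (nat_lit 138) (nat_lit 1) (nat_lit 139) (nat_lit 1) (nat_lit 294) (nat_lit 342) (nat_lit 264))) (XT.nd (nat_lit 78) (nat_lit 228) (nat_lit 0) (XT.lf (nat_lit 0) (nat_lit 9568185999) (nat_lit 0) (nat_lit 9571406815) (nat_lit 152) (nat_lit 9568185999) (nat_lit 138) (nat_lit 3) (nat_lit 138) (nat_lit 1) (nat_lit 140) (nat_lit 1) (nat_lit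 295) (nat_lit 342) (nat_lit 263)) (XT.nd (nat_lit 78) (nat_lit 152) (nat_lit 0) (XT.lf (nat_lit 76) (nat_lit 9132419754) (nat_lit 0) (nat_lit 9135220463) (nat_lit 76) (nat_lit 9135220463) (nat_lit 138) (nat_lit 3) (nat_lit 137) (nat_lit 1) (nat_lit 138) (nat_lit 1) (nat_lit 296) (nat_lit 342) (nat_lit 262)) (XT.lf (nat_lit 152) (nat_lit 26209930447) (nat_lit 0) (nat_lit 737999) (nat_lit 76) (nat_lit 737999) (nat_lit 137) (nat_lit 1) (nat_lit 135) (nat_lit 1) (nat_lit 136) (nat_lit 1) (nat_lit 297) (nat_lit 342) (nat_lit 261))))) (XT.nd (nat_lit 234) (nat_lit 228) (nat_lit 0) (XT.nd (nat_lit 78) (nat_lit 228) (nat_lit 0) (XT.lf (nat_lit 0) (nat_lit 8320466245) (nat_lit 0) (nat_lit 8322307758) (nat_lit 152) (nat_lit 8320466245) (nat_lit 135) (nat_lit 3) (nat_lit 135) (nat_lit 1) (nat_lit 137) (nat_lit 1) (nat_lit 298) (nat_lit 342) (nat_lit 260)) (XT.nd (nat_lit 78) (nat_lit 152) (nat_lit 0) (XT.lf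 (nat_lit 76) (nat_lit 7941777987) (nat_lit 0) (nat_lit 7943379302) (nat_lit 76) (nat_lit 7943379302) (nat_lit 135) (nat_lit 3) (nat_lit 134) (nat_lit 1) (nat_lit 135) (nat_lit 1) (nat_lit 299) (nat_lit 342) (nat_lit 259)) (XT.lf (nat_lit 152) (nat_lit 22791654770) (nat_lit 0) (nat_lit 421953) (nat_lit 76) (nat_lit 421953) (nat_lit 134) (nat_lit 1) (nat_lit 132) (nat_lit 1) (nat_lit 133) (nat_lit 1) (nat_lit 300) (nat_lit 342) (nat_lit 258)))) (XT.nd (nat_lit 78) (nat_lit 228) (nat_lit 0) (XT.lf (nat_lit 0) (nat_lit 7235362142) (nat_lit 0) (nat_lit 7236415033) (nat_lit 152) (nat_lit 7235362142) (nat_lit 132) (nat_lit 3) (nat_lit 132) (nat_lit 1) (nat_lit 134) (nat_lit 1) (nat_lit 301) (nat_lit 342) (nat_lit 257)) (XT.nd (nat_lit 78) (nat_lit 152) (nat_lit 0) (XT.lf (nat_lit 76) (nat_lit 6906204604) (nat_lit 0) (nat_lit 6907120160) (nat_lit 76) (nat_lit 6907120160) (nat_lit 132) (nat_lit 3) (nat_lit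 131) (nat_lit 1) (nat_lit 132) (nat_lit 1) (nat_lit 302) (nat_lit 342) (nat_lit 256)) (XT.lf (nat_lit 152) (nat_lit 19819065170) (nat_lit 0) (nat_lit 241253) (nat_lit 76) (nat_lit 241253) (nat_lit 131) (nat_lit 1) (nat_lit 129) (nat_lit 1) (nat_lit 130) (nat_lit 1) (nat_lit 303) (nat_lit 342) (nat_lit 255)))))) (XT.nd (nat_lit 390) (nat_lit 456) (nat_lit 0) (XT.nd (nat_lit 156) (nat_lit 228) (nat_lit 0) (XT.nd (nat_lit 78) (nat_lit 76) (nat_lit 0) (XT.lf (nat_lit 0) (nat_lit 6291718798) (nat_lit 0) (nat_lit 6292320792) (nat_lit 152) (nat_lit 6291718798) (nat_lit 129) (nat_lit 3) (nat_lit 129) (nat_lit 1) (nat_lit 131) (nat_lit 1) (nat_lit 304) (nat_lit 342) (nat_lit 254)) (XT.lf (nat_lit 76) (nat_lit 6005572952) (nat_lit 0) (nat_lit 6006096425) (nat_lit 76) (nat_lit 6006096425) (nat_lit 129) (nat_lit 3) (nat_lit 128) (nat_lit 1) (nat_lit 129) (nat_lit 1) (nat_lit 305) (nat_lit 342) (nat_lit 253)))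 (XT.nd (nat_lit 78) (nat_lit 76) (nat_lit 0) (XT.lf (nat_lit 152) (nat_lit 17234104038) (nat_lit 0) (nat_lit 137937) (nat_lit 76) (nat_lit 137937) (nat_lit 128) (nat_lit 1) (nat_lit 126) (nat_lit 1) (nat_lit 127) (nat_lit 1) (nat_lit 306) (nat_lit 342) (nat_lit 252)) (XT.nd (nat_lit 78) (nat_lit 76) (nat_lit 0) (XT.lf (nat_lit 0) (nat_lit 5471116739) (nat_lit 0) (nat_lit 5471460931) (nat_lit 152) (nat_lit 5471116739) (nat_lit 126) (nat_lit 3) (nat_lit 126) (nat_lit 1) (nat_lit 128) (nat_lit 1) (nat_lit 307) (nat_lit 342) (nat_lit 251)) (XT.lf (nat_lit 76) (nat_lit 5222338918) (nat_lit 0) (nat_lit 5222638216) (nat_lit 76) (nat_lit 5222638216) (nat_lit 126) (nat_lit 3) (nat_lit 125) (nat_lit 1) (nat_lit 126) (nat_lit 1) (nat_lit 308) (nat_lit 342) (nat_lit 250))))) (XT.nd (nat_lit 234) (nat_lit 228) (nat_lit 0) (XT.nd (nat_lit 78) (nat_lit 76) (nat_lit 0) (XT.lf (nat_lit 152) (nat_lit 14986254225)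 (nat_lit 0) (nat_lit 78866) (nat_lit 76) (nat_lit 78866) (nat_lit 125) (nat_lit 1) (nat_lit 123) (nat_lit 1) (nat_lit 124) (nat_lit 1) (nat_lit 309) (nat_lit 342) (nat_lit 249)) (XT.nd (nat_lit 78) (nat_lit 76) (nat_lit 0) (XT.lf (nat_lit 0) (nat_lit 4757525358) (nat_lit 0) (nat_lit 4757722150) (nat_lit 152) (nat_lit 4757525358) (nat_lit 123) (nat_lit 3) (nat_lit 123) (nat_lit 1) (nat_lit 125) (nat_lit 1) (nat_lit 310) (nat_lit 342) (nat_lit 248)) (XT.lf (nat_lit 76) (nat_lit 4541222349) (nat_lit 0) (nat_lit 4541393473) (nat_lit 76) (nat_lit 4541393473) (nat_lit 123) (nat_lit 3) (nat_lit 122) (nat_lit 1) (nat_lit 123) (nat_lit 1) (nat_lit 311) (nat_lit 342) (nat_lit 247)))) (XT.nd (nat_lit 78) (nat_lit 76) (nat_lit 0) (XT.lf (nat_lit 152) (nat_lit 13031569324) (nat_lit 0) (nat_lit 45091) (nat_lit 76) (nat_lit 45091) (nat_lit 122) (nat_lit 1) (nat_lit 120) (nat_lit 1) (nat_lit 121) (nat_lit 1) (nat_lit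 312) (nat_lit 342) (nat_lit 246)) (XT.nd (nat_lit 78) (nat_lit 76) (nat_lit 0) (XT.lf (nat_lit 0) (nat_lit 4136997177) (nat_lit 0) (nat_lit 4137109694) (nat_lit 152) (nat_lit 4136997177) (nat_lit 120) (nat_lit 3) (nat_lit 120) (nat_lit 1) (nat_lit 122) (nat_lit 1) (nat_lit 313) (nat_lit 342) (nat_lit 245)) (XT.lf (nat_lit 76) (nat_lit 3948922202) (nat_lit 0) (nat_lit 3949020043) (nat_lit 76) (nat_lit 3949020043) (nat_lit 120) (nat_lit 3) (nat_lit 119) (nat_lit 1) (nat_lit 120) (nat_lit 1) (nat_lit 314) (nat_lit 342) (nat_lit 244))))))))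
noncomputable def ec131 : XT := (XT.nd (nat_lit 1716) (nat_lit 1672) (nat_lit 0) (XT.nd (nat_lit 858) (nat_lit 912) (nat_lit 0) (XT.nd (nat_lit 390) (nat_lit 456) (nat_lit 0) (XT.nd (nat_lit 156) (nat_lit 228) (nat_lit 0) (XT.nd (nat_lit 78) (nat_lit 0) (nat_lit 0) (XT.lf (nat_lit 152) (nat_lit 11331824518) (nat_lit 0) (nat_lit 25781) (nat_lit 76) (nat_lit 25781) (nat_lit 119) (nat_lit 1) (nat_lit 117) (nat_lit 1) (nat_lit 118) (nat_lit 1) (nat_lit 315) (nat_lit 342) (nat_lit 243)) (XT.lf (nat_lit 0) (nat_lit 3597399487) (nat_lit 0) (nat_lit 3597463819) (nat_lit 152) (nat_lit 3597399487) (nat_lit 117) (nat_lit 3) (nat_lit 117) (nat_lit 1) (nat_lit 119) (nat_lit 1) (nat_lit 316) (nat_lit 342) (nat_lit 242))) (XT.nd (nat_lit 78) (nat_lit 152) (nat_lit 0) (XT.lf (nat_lit 76) (nat_lit 3433864377) (nat_lit 0) (nat_lit 3433920318) (nat_lit 76) (nat_lit 3433920318) (nat_lit 117) (nat_lit 3) (nat_lit 116)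 (nat_lit 1) (nat_lit 117) (nat_lit 1) (nat_lit 317) (nat_lit 342) (nat_lit 241)) (XT.nd (nat_lit 78) (nat_lit 0) (nat_lit 0) (XT.lf (nat_lit 152) (nat_lit 9853774805) (nat_lit 0) (nat_lit 14740) (nat_lit 76) (nat_lit 14740) (nat_lit 116) (nat_lit 1) (nat_lit 114) (nat_lit 1) (nat_lit 115) (nat_lit 1) (nat_lit 318) (nat_lit 342) (nat_lit 240)) (XT.lf (nat_lit 0) (nat_lit 3128179549) (nat_lit 0) (nat_lit 3128216331) (nat_lit 152) (nat_lit 3128179549) (nat_lit 114) (nat_lit 3) (nat_lit 114) (nat_lit 1) (nat_lit 116) (nat_lit 1) (nat_lit 319) (nat_lit 342) (nat_lit 239))))) (XT.nd (nat_lit 234) (nat_lit 228) (nat_lit 0) (XT.nd (nat_lit 78) (nat_lit 152) (nat_lit 0) (XT.lf (nat_lit 76) (nat_lit 2985979878) (nat_lit 0) (nat_lit 2986011862) (nat_lit 76) (nat_lit 2986011862) (nat_lit 114) (nat_lit 3) (nat_lit 113) (nat_lit 1) (nat_lit 114) (nat_lit 1) (nat_lit 320) (nat_lit 342) (nat_lit 238)) (XT.nd (nat_lit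 78) (nat_lit 0) (nat_lit 0) (XT.lf (nat_lit 152) (nat_lit 8568508038) (nat_lit 0) (nat_lit 8428) (nat_lit 76) (nat_lit 8428) (nat_lit 113) (nat_lit 1) (nat_lit 111) (nat_lit 1) (nat_lit 112) (nat_lit 1) (nat_lit 321) (nat_lit 342) (nat_lit 237)) (XT.lf (nat_lit 0) (nat_lit 2720159607) (nat_lit 0) (nat_lit 2720180638) (nat_lit 152) (nat_lit 2720159607) (nat_lit 111) (nat_lit 3) (nat_lit 111) (nat_lit 1) (nat_lit 113) (nat_lit 1) (nat_lit 322) (nat_lit 342) (nat_lit 236)))) (XT.nd (nat_lit 78) (nat_lit 152) (nat_lit 0) (XT.lf (nat_lit 76) (nat_lit 2596510447) (nat_lit 0) (nat_lit 2596528734) (nat_lit 76) (nat_lit 2596528734) (nat_lit 111) (nat_lit 3) (nat_lit 110) (nat_lit 1) (nat_lit 111) (nat_lit 1) (nat_lit 323) (nat_lit 342) (nat_lit 235)) (XT.nd (nat_lit 78) (nat_lit 0) (nat_lit 0) (XT.lf (nat_lit 152) (nat_lit 7450881247) (nat_lit 0) (nat_lit 4818) (nat_lit 76) (nat_lit 4818) (nat_lit 110)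 (nat_lit 1) (nat_lit 108) (nat_lit 1) (nat_lit 109) (nat_lit 1) (nat_lit 324) (nat_lit 342) (nat_lit 234)) (XT.lf (nat_lit 0) (nat_lit 2365358168) (nat_lit 0) (nat_lit 2365370193) (nat_lit 152) (nat_lit 2365358168) (nat_lit 108) (nat_lit 3) (nat_lit 108) (nat_lit 1) (nat_lit 110) (nat_lit 1) (nat_lit 325) (nat_lit 342) (nat_lit 233)))))) (XT.nd (nat_lit 390) (nat_lit 456) (nat_lit 0) (XT.nd (nat_lit 156) (nat_lit 228) (nat_lit 0) (XT.nd (nat_lit 78) (nat_lit 152) (nat_lit 0) (XT.lf (nat_lit 76) (nat_lit 2257838720) (nat_lit 0) (nat_lit 2257849175) (nat_lit 76) (nat_lit 2257849175) (nat_lit 108) (nat_lit 3) (nat_lit 107) (nat_lit 1) (nat_lit 108) (nat_lit 1) (nat_lit 326) (nat_lit 342) (nat_lit 232)) (XT.lf (nat_lit 152) (nat_lit 6479029854) (nat_lit 0) (nat_lit 2755) (nat_lit 76) (nat_lit 2755) (nat_lit 107) (nat_lit 1) (nat_lit 105) (nat_lit 1) (nat_lit 106) (nat_lit 1) (nat_lit 327) (nat_lit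 342) (nat_lit 231))) (XT.nd (nat_lit 78) (nat_lit 228) (nat_lit 0) (XT.lf (nat_lit 0) (nat_lit 2056834327) (nat_lit 0) (nat_lit 2056841202) (nat_lit 152) (nat_lit 2056834327) (nat_lit 105) (nat_lit 3) (nat_lit 105) (nat_lit 1) (nat_lit 107) (nat_lit 1) (nat_lit 328) (nat_lit 342) (nat_lit 230)) (XT.nd (nat_lit 78) (nat_lit 152) (nat_lit 0) (XT.lf (nat_lit 76) (nat_lit 1963340046) (nat_lit 0) (nat_lit 1963346024) (nat_lit 76) (nat_lit 1963346024) (nat_lit 105) (nat_lit 3) (nat_lit 104) (nat_lit 1) (nat_lit 105) (nat_lit 1) (nat_lit 329) (nat_lit 342) (nat_lit 229)) (XT.lf (nat_lit 152) (nat_lit 5633940538) (nat_lit 0) (nat_lit 1575) (nat_lit 76) (nat_lit 1575) (nat_lit 104) (nat_lit 1) (nat_lit 102) (nat_lit 1) (nat_lit 103) (nat_lit 1) (nat_lit 330) (nat_lit 342) (nat_lit 228))))) (XT.nd (nat_lit 234) (nat_lit 228) (nat_lit 0) (XT.nd (nat_lit 78) (nat_lit 228) (nat_lit 0) (XT.lf (nat_lit 0) (nat_lit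 1788552238) (nat_lit 0) (nat_lit 1788556169) (nat_lit 152) (nat_lit 1788552238) (nat_lit 102) (nat_lit 3) (nat_lit 102) (nat_lit 1) (nat_lit 104) (nat_lit 1) (nat_lit 331) (nat_lit 342) (nat_lit 227)) (XT.nd (nat_lit 78) (nat_lit 152) (nat_lit 0) (XT.lf (nat_lit 76) (nat_lit 1707253374) (nat_lit 0) (nat_lit 1707256792) (nat_lit 76) (nat_lit 1707256792) (nat_lit 102) (nat_lit 3) (nat_lit 101) (nat_lit 1) (nat_lit 102) (nat_lit 1) (nat_lit 332) (nat_lit 342) (nat_lit 226)) (XT.lf (nat_lit 152) (nat_lit 4899079605) (nat_lit 0) (nat_lit 900) (nat_lit 76) (nat_lit 900) (nat_lit 101) (nat_lit 1) (nat_lit 99) (nat_lit 1) (nat_lit 100) (nat_lit 1) (nat_lit 333) (nat_lit 342) (nat_lit 225)))) (XT.nd (nat_lit 78) (nat_lit 228) (nat_lit 0) (XT.lf (nat_lit 0) (nat_lit 1555263188) (nat_lit 0) (nat_lit 1555265435) (nat_lit 152) (nat_lit 1555263188) (nat_lit 99) (nat_lit 3) (nat_lit 99) (nat_lit 1) (nat_lit 101)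 (nat_lit 1) (nat_lit 334) (nat_lit 342) (nat_lit 224)) (XT.nd (nat_lit 78) (nat_lit 152) (nat_lit 0) (XT.lf (nat_lit 76) (nat_lit 1484568814) (nat_lit 0) (nat_lit 1484570768) (nat_lit 76) (nat_lit 1484570768) (nat_lit 99) (nat_lit 3) (nat_lit 98) (nat_lit 1) (nat_lit 99) (nat_lit 1) (nat_lit 335) (nat_lit 342) (nat_lit 223)) (XT.lf (nat_lit 152) (nat_lit 4260069723) (nat_lit 0) (nat_lit 514) (nat_lit 76) (nat_lit 514) (nat_lit 98) (nat_lit 1) (nat_lit 96) (nat_lit 1) (nat_lit 97) (nat_lit 1) (nat_lit 336) (nat_lit 342) (nat_lit 222))))))) (XT.nd (nat_lit 858) (nat_lit 912) (nat_lit 0) (XT.nd (nat_lit 390) (nat_lit 456) (nat_lit 0) (XT.nd (nat_lit 156) (nat_lit 228) (nat_lit 0) (XT.nd (nat_lit 78) (nat_lit 76) (nat_lit 0) (XT.lf (nat_lit 0) (nat_lit 1352402984) (nat_lit 0) (nat_lit 1352404269) (nat_lit 152) (nat_lit 1352402984) (nat_lit 96) (nat_lit 3) (nat_lit 96) (nat_lit 1) (nat_lit 98) (nat_lit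 1) (nat_lit 337) (nat_lit 342) (nat_lit 221)) (XT.lf (nat_lit 76) (nat_lit 1290929783) (nat_lit 0) (nat_lit 1290930900) (nat_lit 76) (nat_lit 1290930900) (nat_lit 96) (nat_lit 3) (nat_lit 95) (nat_lit 1) (nat_lit 96) (nat_lit 1) (nat_lit 338) (nat_lit 342) (nat_lit 220))) (XT.nd (nat_lit 78) (nat_lit 76) (nat_lit 0) (XT.lf (nat_lit 152) (nat_lit 3704408742) (nat_lit 0) (nat_lit 294) (nat_lit 76) (nat_lit 294) (nat_lit 95) (nat_lit 1) (nat_lit 93) (nat_lit 1) (nat_lit 94) (nat_lit 1) (nat_lit 339) (nat_lit 342) (nat_lit 219)) (XT.nd (nat_lit 78) (nat_lit 76) (nat_lit 0) (XT.lf (nat_lit 0) (nat_lit 1176002716) (nat_lit 0) (nat_lit 1176003451) (nat_lit 152) (nat_lit 1176002716) (nat_lit 93) (nat_lit 3) (nat_lit 93) (nat_lit 1) (nat_lit 95) (nat_lit 1) (nat_lit 340) (nat_lit 342) (nat_lit 218)) (XT.lf (nat_lit 76) (nat_lit 1122547854) (nat_lit 0) (nat_lit 1122548493) (nat_lit 76) (nat_lit 1122548493)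 (nat_lit 93) (nat_lit 3) (nat_lit 92) (nat_lit 1) (nat_lit 93) (nat_lit 1) (nat_lit 341) (nat_lit 342) (nat_lit 217))))) (XT.nd (nat_lit 234) (nat_lit 228) (nat_lit 0) (XT.nd (nat_lit 78) (nat_lit 76) (nat_lit 0) (XT.lf (nat_lit 152) (nat_lit 3221225157) (nat_lit 0) (nat_lit 168) (nat_lit 76) (nat_lit 168) (nat_lit 92) (nat_lit 1) (nat_lit 90) (nat_lit 1) (nat_lit 91) (nat_lit 1) (nat_lit 342) (nat_lit 342) (nat_lit 216)) (XT.nd (nat_lit 78) (nat_lit 76) (nat_lit 0) (XT.lf (nat_lit 0) (nat_lit 1022611127) (nat_lit 0) (nat_lit 1022611547) (nat_lit 152) (nat_lit 1022611127) (nat_lit 90) (nat_lit 3) (nat_lit 90) (nat_lit 1) (nat_lit 92) (nat_lit 1) (nat_lit 343) (nat_lit 342) (nat_lit 215)) (XT.lf (nat_lit 76) (nat_lit 976128692) (nat_lit 0) (nat_lit 976129058) (nat_lit 76) (nat_lit 976129058) (nat_lit 90) (nat_lit 3) (nat_lit 89) (nat_lit 1) (nat_lit 90) (nat_lit 1) (nat_lit 344) (nat_lit 342) (nat_lit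 214)))) (XT.nd (nat_lit 78) (nat_lit 76) (nat_lit 0) (XT.lf (nat_lit 152) (nat_lit 2801065447) (nat_lit 0) (nat_lit 96) (nat_lit 76) (nat_lit 96) (nat_lit 89) (nat_lit 1) (nat_lit 87) (nat_lit 1) (nat_lit 88) (nat_lit 1) (nat_lit 345) (nat_lit 342) (nat_lit 213)) (XT.nd (nat_lit 78) (nat_lit 76) (nat_lit 0) (XT.lf (nat_lit 0) (nat_lit 889227107) (nat_lit 0) (nat_lit 889227347) (nat_lit 152) (nat_lit 889227107) (nat_lit 87) (nat_lit 3) (nat_lit 87) (nat_lit 1) (nat_lit 89) (nat_lit 1) (nat_lit 346) (nat_lit 342) (nat_lit 212)) (XT.lf (nat_lit 76) (nat_lit 848807629) (nat_lit 0) (nat_lit 848807838) (nat_lit 76) (nat_lit 848807838) (nat_lit 87) (nat_lit 3) (nat_lit 86) (nat_lit 1) (nat_lit 87) (nat_lit 1) (nat_lit 347) (nat_lit 342) (nat_lit 211)))))) (XT.nd (nat_lit 468) (nat_lit 456) (nat_lit 0) (XT.nd (nat_lit 234) (nat_lit 228) (nat_lit 0) (XT.nd (nat_lit 78) (nat_lit 76) (nat_lit 0) (XT.lf (nat_lit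 152) (nat_lit 2435709138) (nat_lit 0) (nat_lit 55) (nat_lit 76) (nat_lit 55) (nat_lit 86) (nat_lit 1) (nat_lit 84) (nat_lit 1) (nat_lit 85) (nat_lit 1) (nat_lit 348) (nat_lit 342) (nat_lit 210)) (XT.nd (nat_lit 78) (nat_lit 76) (nat_lit 0) (XT.lf (nat_lit 0) (nat_lit 773240985) (nat_lit 0) (nat_lit 773241122) (nat_lit 152) (nat_lit 773240985) (nat_lit 84) (nat_lit 3) (nat_lit 84) (nat_lit 1) (nat_lit 86) (nat_lit 1) (nat_lit 349) (nat_lit 342) (nat_lit 209)) (XT.lf (nat_lit 76) (nat_lit 738093631) (nat_lit 0) (nat_lit 738093751) (nat_lit 76) (nat_lit 738093751) (nat_lit 84) (nat_lit 3) (nat_lit 83) (nat_lit 1) (nat_lit 84) (nat_lit 1) (nat_lit 350) (nat_lit 342) (nat_lit 208)))) (XT.nd (nat_lit 78) (nat_lit 76) (nat_lit 0) (XT.lf (nat_lit 152) (nat_lit 2118007977) (nat_lit 0) (nat_lit 31) (nat_lit 76) (nat_lit 31) (nat_lit 83) (nat_lit 1) (nat_lit 81) (nat_lit 1) (nat_lit 82) (nat_lit 1) (nat_lit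 351) (nat_lit 342) (nat_lit 207)) (XT.nd (nat_lit 78) (nat_lit 76) (nat_lit 0) (XT.lf (nat_lit 0) (nat_lit 672383478) (nat_lit 0) (nat_lit 672383557) (nat_lit 152) (nat_lit 672383478) (nat_lit 81) (nat_lit 3) (nat_lit 81) (nat_lit 1) (nat_lit 83) (nat_lit 1) (nat_lit 352) (nat_lit 342) (nat_lit 206)) (XT.lf (nat_lit 76) (nat_lit 641820572) (nat_lit 0) (nat_lit 641820640) (nat_lit 76) (nat_lit 641820640) (nat_lit 81) (nat_lit 3) (nat_lit 80) (nat_lit 1) (nat_lit 81) (nat_lit 1) (nat_lit 353) (nat_lit 342) (nat_lit 205))))) (XT.nd (nat_lit 234) (nat_lit 228) (nat_lit 0) (XT.nd (nat_lit 78) (nat_lit 76) (nat_lit 0) (XT.lf (nat_lit 152) (nat_lit 1841746084) (nat_lit 0) (nat_lit 17) (nat_lit 76) (nat_lit 17) (nat_lit 80) (nat_lit 1) (nat_lit 78) (nat_lit 1) (nat_lit 79) (nat_lit 1) (nat_lit 354) (nat_lit 342) (nat_lit 204)) (XT.nd (nat_lit 78) (nat_lit 76) (nat_lit 0) (XT.lf (nat_lit 0) (nat_lit 584681293)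 (nat_lit 0) (nat_lit 584681338) (nat_lit 152) (nat_lit 584681293) (nat_lit 78) (nat_lit 3) (nat_lit 78) (nat_lit 1) (nat_lit 80) (nat_lit 1) (nat_lit 355) (nat_lit 342) (nat_lit 203)) (XT.lf (nat_lit 76) (nat_lit 558104858) (nat_lit 0) (nat_lit 558104897) (nat_lit 76) (nat_lit 558104897) (nat_lit 78) (nat_lit 3) (nat_lit 77) (nat_lit 1) (nat_lit 78) (nat_lit 1) (nat_lit 356) (nat_lit 342) (nat_lit 202)))) (XT.nd (nat_lit 78) (nat_lit 76) (nat_lit 0) (XT.lf (nat_lit 152) (nat_lit 1601518344) (nat_lit 0) (nat_lit 10) (nat_lit 76) (nat_lit 10) (nat_lit 77) (nat_lit 1) (nat_lit 75) (nat_lit 1) (nat_lit 76) (nat_lit 1) (nat_lit 357) (nat_lit 342) (nat_lit 201)) (XT.nd (nat_lit 78) (nat_lit 76) (nat_lit 0) (XT.lf (nat_lit 0) (nat_lit 508418520) (nat_lit 0) (nat_lit 508418545) (nat_lit 152) (nat_lit 508418520) (nat_lit 75) (nat_lit 3) (nat_lit 75) (nat_lit 1) (nat_lit 77) (nat_lit 1) (nat_lit 358) (nat_lit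 342) (nat_lit 200)) (XT.lf (nat_lit 76) (nat_lit 485308580) (nat_lit 0) (nat_lit 485308602) (nat_lit 76) (nat_lit 485308602) (nat_lit 75) (nat_lit 3) (nat_lit 74) (nat_lit 1) (nat_lit 75) (nat_lit 1) (nat_lit 359) (nat_lit 342) (nat_lit 199))))))))
noncomputable def ec132 : XT := (XT.nd (nat_lit 36270) (nat_lit 0) (nat_lit 9424) (XT.nd (nat_lit 858) (nat_lit 76) (nat_lit 0) (XT.nd (nat_lit 390) (nat_lit 456) (nat_lit 0) (XT.nd (nat_lit 156) (nat_lit 228) (nat_lit 0) (XT.nd (nat_lit 78) (nat_lit 0) (nat_lit 0) (XT.lf (nat_lit 152) (nat_lit 1392624653) (nat_lit 0) (nat_lit 5) (nat_lit 76) (nat_lit 5) (nat_lit 74) (nat_lit 1) (nat_lit 72) (nat_lit 1) (nat_lit 73) (nat_lit 1) (nat_lit 360) (nat_lit 342) (nat_lit 198)) (XT.lf (nat_lit 0) (nat_lit 442103063) (nat_lit 0) (nat_lit 442103078) (nat_lit 152) (nat_lit 442103063) (nat_lit 72) (nat_lit 3) (nat_lit 72) (nat_lit 1) (nat_lit 74) (nat_lit 1) (nat_lit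 361) (nat_lit 342) (nat_lit 197))) (XT.nd (nat_lit 78) (nat_lit 152) (nat_lit 0) (XT.lf (nat_lit 76) (nat_lit 422007465) (nat_lit 0) (nat_lit 422007478) (nat_lit 76) (nat_lit 422007478) (nat_lit 72) (nat_lit 3) (nat_lit 71) (nat_lit 1) (nat_lit 72) (nat_lit 1) (nat_lit 362) (nat_lit 342) (nat_lit 196)) (XT.nd (nat_lit 78) (nat_lit 0) (nat_lit 0) (XT.lf (nat_lit 152) (nat_lit 1210977962) (nat_lit 0) (nat_lit 3) (nat_lit 76) (nat_lit 3) (nat_lit 71) (nat_lit 1) (nat_lit 69) (nat_lit 1) (nat_lit 70) (nat_lit 1) (nat_lit 363) (nat_lit 342) (nat_lit 195)) (XT.lf (nat_lit 0) (nat_lit 384437447) (nat_lit 0) (nat_lit 384437456) (nat_lit 152) (nat_lit 384437447) (nat_lit 69) (nat_lit 3) (nat_lit 69) (nat_lit 1) (nat_lit 71) (nat_lit 1) (nat_lit 364) (nat_lit 342) (nat_lit 194))))) (XT.nd (nat_lit 234) (nat_lit 228) (nat_lit 0) (XT.nd (nat_lit 78) (nat_lit 152) (nat_lit 0) (XT.lf (nat_lit 76) (nat_lit 366963016)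 (nat_lit 0) (nat_lit 366963023) (nat_lit 76) (nat_lit 366963023) (nat_lit 69) (nat_lit 3) (nat_lit 68) (nat_lit 1) (nat_lit 69) (nat_lit 1) (nat_lit 365) (nat_lit 342) (nat_lit 193)) (XT.nd (nat_lit 78) (nat_lit 0) (nat_lit 0) (XT.lf (nat_lit 152) (nat_lit 1053024317) (nat_lit 0) (nat_lit 1) (nat_lit 76) (nat_lit 1) (nat_lit 68) (nat_lit 1) (nat_lit 66) (nat_lit 1) (nat_lit 67) (nat_lit 1) (nat_lit 366) (nat_lit 342) (nat_lit 192)) (XT.lf (nat_lit 0) (nat_lit 334293433) (nat_lit 0) (nat_lit 334293438) (nat_lit 152) (nat_lit 334293433) (nat_lit 66) (nat_lit 3) (nat_lit 66) (nat_lit 1) (nat_lit 68) (nat_lit 1) (nat_lit 367) (nat_lit 342) (nat_lit 191)))) (XT.nd (nat_lit 78) (nat_lit 152) (nat_lit 0) (XT.lf (nat_lit 76) (nat_lit 319098276) (nat_lit 0) (nat_lit 319098280) (nat_lit 76) (nat_lit 319098280) (nat_lit 66) (nat_lit 3) (nat_lit 65) (nat_lit 1) (nat_lit 66) (nat_lit 1) (nat_lit 368) (nat_lit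 342) (nat_lit 190)) (XT.nd (nat_lit 78) (nat_lit 0) (nat_lit 0) (XT.lf (nat_lit 152) (nat_lit 915673320) (nat_lit 0) (nat_lit 1) (nat_lit 76) (nat_lit 1) (nat_lit 65) (nat_lit 1) (nat_lit 63) (nat_lit 1) (nat_lit 64) (nat_lit 1) (nat_lit 369) (nat_lit 342) (nat_lit 189)) (XT.lf (nat_lit 0) (nat_lit 290689942) (nat_lit 0) (nat_lit 290689945) (nat_lit 152) (nat_lit 290689942) (nat_lit 63) (nat_lit 3) (nat_lit 63) (nat_lit 1) (nat_lit 65) (nat_lit 1) (nat_lit 370) (nat_lit 342) (nat_lit 188)))))) (XT.nd (nat_lit 34944) (nat_lit 0) (nat_lit 11096) (XT.nd (nat_lit 34710) (nat_lit 0) (nat_lit 11628) (XT.nd (nat_lit 34632) (nat_lit 0) (nat_lit 11628) (XT.lf (nat_lit 76) (nat_lit 277476762) (nat_lit 0) (nat_lit 277476765) (nat_lit 76) (nat_lit 277476765) (nat_lit 63) (nat_lit 3) (nat_lit 62) (nat_lit 1) (nat_lit 63) (nat_lit 1) (nat_lit 371) (nat_lit 342) (nat_lit 187)) (XT.lf (nat_lit 380) (nat_lit 285845640645)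 (nat_lit 0) (nat_lit 253180519001) (nat_lit 380) (nat_lit 285845640645) (nat_lit 220) (nat_lit 1) (nat_lit 215) (nat_lit 0) (nat_lit 220) (nat_lit 0) (nat_lit 214) (nat_lit 343) (nat_lit 343))) (XT.nd (nat_lit 78) (nat_lit 0) (nat_lit 76) (XT.lf (nat_lit 380) (nat_lit 1057305929178) (nat_lit 76) (nat_lit 241672313592) (nat_lit 0) (nat_lit 241672313592) (nat_lit 220) (nat_lit 1) (nat_lit 216) (nat_lit 1) (nat_lit 215) (nat_lit 0) (nat_lit 215) (nat_lit 343) (nat_lit 342)) (XT.nd (nat_lit 78) (nat_lit 0) (nat_lit 0) (XT.lf (nat_lit 380) (nat_lit 466054390675) (nat_lit 0) (nat_lit 507111140724) (nat_lit 304) (nat_lit 466054390675) (nat_lit 221) (nat_lit 1) (nat_lit 216) (nat_lit 1) (nat_lit 220) (nat_lit 1) (nat_lit 216) (nat_lit 343) (nat_lit 341)) (XT.lf (nat_lit 380) (nat_lit 800191189887) (nat_lit 76) (nat_lit 273910796421) (nat_lit 0) (nat_lit 273910796421) (nat_lit 221) (nat_lit 1) (nat_lit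 217) (nat_lit 1) (nat_lit 216) (nat_lit 1) (nat_lit 217) (nat_lit 343) (nat_lit 340))))) (XT.nd (nat_lit 234) (nat_lit 380) (nat_lit 0) (XT.nd (nat_lit 78) (nat_lit 304) (nat_lit 0) (XT.lf (nat_lit 76) (nat_lit 323687949206) (nat_lit 0) (nat_lit 616356196751) (nat_lit 304) (nat_lit 323687949206) (nat_lit 218) (nat_lit 1) (nat_lit 217) (nat_lit 1) (nat_lit 221) (nat_lit 1) (nat_lit 218) (nat_lit 343) (nat_lit 339)) (XT.nd (nat_lit 78) (nat_lit 0) (nat_lit 0) (XT.lf (nat_lit 380) (nat_lit 486476845499) (nat_lit 0) (nat_lit 350156704754) (nat_lit 304) (nat_lit 350156704754) (nat_lit 218) (nat_lit 1) (nat_lit 213) (nat_lit 1) (nat_lit 217) (nat_lit 1) (nat_lit 219) (nat_lit 343) (nat_lit 338)) (XT.lf (nat_lit 76) (nat_lit 161699530751) (nat_lit 0) (nat_lit 793463650227) (nat_lit 380) (nat_lit 161699530751) (nat_lit 214) (nat_lit 1) (nat_lit 213) (nat_lit 1) (nat_lit 218) (nat_lit 1) (nat_lit 220) (nat_lit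 343) (nat_lit 337)))) (XT.nd (nat_lit 78) (nat_lit 228) (nat_lit 0) (XT.lf (nat_lit 228) (nat_lit 145525763255) (nat_lit 0) (nat_lit 452913029581) (nat_lit 152) (nat_lit 452913029581) (nat_lit 214) (nat_lit 1) (nat_lit 211) (nat_lit 1) (nat_lit 213) (nat_lit 1) (nat_lit 221) (nat_lit 343) (nat_lit 336)) (XT.nd (nat_lit 78) (nat_lit 0) (nat_lit 0) (XT.lf (nat_lit 228) (nat_lit 977931297973) (nat_lit 0) (nat_lit 7672859848) (nat_lit 152) (nat_lit 7672859848) (nat_lit 211) (nat_lit 1) (nat_lit 208) (nat_lit 1) (nat_lit 210) (nat_lit 1) (nat_lit 222) (nat_lit 343) (nat_lit 335)) (XT.lf (nat_lit 76) (nat_lit 375727455395) (nat_lit 0) (nat_lit 184462180763) (nat_lit 228) (nat_lit 375727455395) (nat_lit 209) (nat_lit 1) (nat_lit 208) (nat_lit 1) (nat_lit 211) (nat_lit 1) (nat_lit 223) (nat_lit 343) (nat_lit 334))))))) (XT.nd (nat_lit 858) (nat_lit 836) (nat_lit 0) (XT.nd (nat_lit 390) (nat_lit 380) (nat_lit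 0) (XT.nd (nat_lit 156) (nat_lit 304) (nat_lit 0) (XT.nd (nat_lit 78) (nat_lit 0) (nat_lit 0) (XT.lf (nat_lit 228) (nat_lit 546134277357) (nat_lit 0) (nat_lit 169405484141) (nat_lit 152) (nat_lit 169405484141) (nat_lit 209) (nat_lit 1) (nat_lit 206) (nat_lit 1) (nat_lit 208) (nat_lit 1) (nat_lit 224) (nat_lit 343) (nat_lit 333)) (XT.lf (nat_lit 76) (nat_lit 170794100975) (nat_lit 0) (nat_lit 495641561046) (nat_lit 228) (nat_lit 170794100975) (nat_lit 207) (nat_lit 1) (nat_lit 206) (nat_lit 1) (nat_lit 209) (nat_lit 1) (nat_lit 225) (nat_lit 343) (nat_lit 332))) (XT.nd (nat_lit 78) (nat_lit 228) (nat_lit 0) (XT.lf (nat_lit 152) (nat_lit 141192887556) (nat_lit 0) (nat_lit 325803282536) (nat_lit 76) (nat_lit 325803282536) (nat_lit 207) (nat_lit 1) (nat_lit 205) (nat_lit 1) (nat_lit 206) (nat_lit 1) (nat_lit 226) (nat_lit 343) (nat_lit 331)) (XT.nd (nat_lit 78) (nat_lit 0) (nat_lit 0) (XT.lf (nat_lit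 228) (nat_lit 714801393346) (nat_lit 0) (nat_lit 18989430602) (nat_lit 152) (nat_lit 18989430602) (nat_lit 205) (nat_lit 1) (nat_lit 202) (nat_lit 1) (nat_lit 204) (nat_lit 1) (nat_lit 227) (nat_lit 343) (nat_lit 330)) (XT.lf (nat_lit 76) (nat_lit 250165114104) (nat_lit 0) (nat_lit 212448376972) (nat_lit 228) (nat_lit 250165114104) (nat_lit 203) (nat_lit 1) (nat_lit 202) (nat_lit 1) (nat_lit 205) (nat_lit 1) (nat_lit 228) (nat_lit 343) (nat_lit 329))))) (XT.nd (nat_lit 234) (nat_lit 152) (nat_lit 0) (XT.nd (nat_lit 78) (nat_lit 152) (nat_lit 0) (XT.lf (nat_lit 152) (nat_lit 304176818466) (nat_lit 0) (nat_lit 186279084214) (nat_lit 76) (nat_lit 186279084214) (nat_lit 203) (nat_lit 1) (nat_lit 201) (nat_lit 1) (nat_lit 202) (nat_lit 1) (nat_lit 229) (nat_lit 343) (nat_lit 328)) (XT.nd (nat_lit 78) (nat_lit 152) (nat_lit 0) (XT.lf (nat_lit 0) (nat_lit 59562012838) (nat_lit 0) (nat_lit 524379387439)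 (nat_lit 152) (nat_lit 59562012838) (nat_lit 201) (nat_lit 3) (nat_lit 201) (nat_lit 1) (nat_lit 203) (nat_lit 1) (nat_lit 230) (nat_lit 343) (nat_lit 327)) (XT.lf (nat_lit 76) (nat_lit 275652744223) (nat_lit 0) (nat_lit 59784314962) (nat_lit 152) (nat_lit 275652744223) (nat_lit 200) (nat_lit 1) (nat_lit 199) (nat_lit 1) (nat_lit 201) (nat_lit 1) (nat_lit 231) (nat_lit 343) (nat_lit 326)))) (XT.nd (nat_lit 78) (nat_lit 76) (nat_lit 0) (XT.lf (nat_lit 152) (nat_lit 368217845584) (nat_lit 0) (nat_lit 106505670986) (nat_lit 76) (nat_lit 106505670986) (nat_lit 200) (nat_lit 1) (nat_lit 198) (nat_lit 1) (nat_lit 199) (nat_lit 1) (nat_lit 232) (nat_lit 343) (nat_lit 325)) (XT.nd (nat_lit 78) (nat_lit 76) (nat_lit 0) (XT.lf (nat_lit 0) (nat_lit 95738508247) (nat_lit 0) (nat_lit 361499350783) (nat_lit 152) (nat_lit 95738508247) (nat_lit 198) (nat_lit 3) (nat_lit 198) (nat_lit 1) (nat_lit 200) (nat_lit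 1) (nat_lit 233) (nat_lit 343) (nat_lit 324)) (XT.lf (nat_lit 76) (nat_lit 21357550352) (nat_lit 0) (nat_lit 252453935166) (nat_lit 76) (nat_lit 252453935166) (nat_lit 198) (nat_lit 3) (nat_lit 197) (nat_lit 1) (nat_lit 198) (nat_lit 1) (nat_lit 234) (nat_lit 343) (nat_lit 323)))))) (XT.nd (nat_lit 390) (nat_lit 456) (nat_lit 0) (XT.nd (nat_lit 156) (nat_lit 228) (nat_lit 0) (XT.nd (nat_lit 78) (nat_lit 0) (nat_lit 0) (XT.lf (nat_lit 152) (nat_lit 379489541682) (nat_lit 0) (nat_lit 60894963060) (nat_lit 76) (nat_lit 60894963060) (nat_lit 197) (nat_lit 1) (nat_lit 195) (nat_lit 1) (nat_lit 196) (nat_lit 1) (nat_lit 235) (nat_lit 343) (nat_lit 322)) (XT.lf (nat_lit 0) (nat_lit 108376832464) (nat_lit 0) (nat_lit 260326456735) (nat_lit 152) (nat_lit 108376832464) (nat_lit 195) (nat_lit 3) (nat_lit 195) (nat_lit 1) (nat_lit 197) (nat_lit 1) (nat_lit 236) (nat_lit 343) (nat_lit 321))) (XT.nd (nat_lit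 78) (nat_lit 152) (nat_lit 0) (XT.lf (nat_lit 76) (nat_lit 63411186121) (nat_lit 0) (nat_lit 195541294183) (nat_lit 76) (nat_lit 195541294183) (nat_lit 195) (nat_lit 3) (nat_lit 194) (nat_lit 1) (nat_lit 195) (nat_lit 1) (nat_lit 237) (nat_lit 343) (nat_lit 320)) (XT.nd (nat_lit 78) (nat_lit 0) (nat_lit 0) (XT.lf (nat_lit 152) (nat_lit 363895936590) (nat_lit 0) (nat_lit 34816892770) (nat_lit 76) (nat_lit 34816892770) (nat_lit 194) (nat_lit 1) (nat_lit 192) (nat_lit 1) (nat_lit 193) (nat_lit 1) (nat_lit 238) (nat_lit 343) (nat_lit 319)) (XT.lf (nat_lit 0) (nat_lit 108606570618) (nat_lit 0) (nat_lit 195484261461) (nat_lit 152) (nat_lit 108606570618) (nat_lit 192) (nat_lit 3) (nat_lit 192) (nat_lit 1) (nat_lit 194) (nat_lit 1) (nat_lit 239) (nat_lit 343) (nat_lit 318))))) (XT.nd (nat_lit 234) (nat_lit 228) (nat_lit 0) (XT.nd (nat_lit 78) (nat_lit 152) (nat_lit 0) (XT.lf (nat_lit 76) (nat_lit 80777236158)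 (nat_lit 0) (nat_lit 156323054283) (nat_lit 76) (nat_lit 156323054283) (nat_lit 192) (nat_lit 3) (nat_lit 191) (nat_lit 1) (nat_lit 192) (nat_lit 1) (nat_lit 240) (nat_lit 343) (nat_lit 317)) (XT.nd (nat_lit 78) (nat_lit 0) (nat_lit 0) (XT.lf (nat_lit 152) (nat_lit 335816560599) (nat_lit 0) (nat_lit 19906671442) (nat_lit 76) (nat_lit 19906671442) (nat_lit 191) (nat_lit 1) (nat_lit 189) (nat_lit 1) (nat_lit 190) (nat_lit 1) (nat_lit 241) (nat_lit 343) (nat_lit 316)) (XT.lf (nat_lit 0) (nat_lit 102654215686) (nat_lit 0) (nat_lit 152326817396) (nat_lit 152) (nat_lit 102654215686) (nat_lit 189) (nat_lit 3) (nat_lit 189) (nat_lit 1) (nat_lit 191) (nat_lit 1) (nat_lit 242) (nat_lit 343) (nat_lit 315)))) (XT.nd (nat_lit 78) (nat_lit 152) (nat_lit 0) (XT.lf (nat_lit 76) (nat_lit 84899155366) (nat_lit 0) (nat_lit 128092722070) (nat_lit 76) (nat_lit 128092722070) (nat_lit 189) (nat_lit 3) (nat_lit 188) (nat_lit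 1) (nat_lit 189) (nat_lit 1) (nat_lit 243) (nat_lit 343) (nat_lit 314)) (XT.nd (nat_lit 78) (nat_lit 0) (nat_lit 0) (XT.lf (nat_lit 152) (nat_lit 303098015225) (nat_lit 0) (nat_lit 11381704006) (nat_lit 76) (nat_lit 11381704006) (nat_lit 188) (nat_lit 1) (nat_lit 186) (nat_lit 1) (nat_lit 187) (nat_lit 1) (nat_lit 244) (nat_lit 343) (nat_lit 313)) (XT.lf (nat_lit 0) (nat_lit 93960756160) (nat_lit 0) (nat_lit 122361227404) (nat_lit 152) (nat_lit 93960756160) (nat_lit 186) (nat_lit 3) (nat_lit 186) (nat_lit 1) (nat_lit 188) (nat_lit 1) (nat_lit 245) (nat_lit 343) (nat_lit 312))))))))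
noncomputable def ec133 : XT := (XT.nd (nat_lit 1716) (nat_lit 1748) (nat_lit 0) (XT.nd (nat_lit 858) (nat_lit 760) (nat_lit 0) (XT.nd (nat_lit 390) (nat_lit 456) (nat_lit 0) (XT.nd (nat_lit 156) (nat_lit 228) (nat_lit 0) (XT.nd (nat_lit 78) (nat_lit 152) (nat_lit 0) (XT.lf (nat_lit 76) (nat_lit 82206157561) (nat_lit 0) (nat_lit 106902219513) (nat_lit 76) (nat_lit 106902219513) (nat_lit 186) (nat_lit 3) (nat_lit 185) (nat_lit 1) (nat_lit 186) (nat_lit 1) (nat_lit 246) (nat_lit 343) (nat_lit 311)) (XT.lf (nat_lit 152) (nat_lit 269900584180) (nat_lit 0) (nat_lit 6507526205) (nat_lit 76) (nat_lit 6507526205) (nat_lit 185) (nat_lit 1) (nat_lit 183) (nat_lit 1) (nat_lit 184) (nat_lit 1) (nat_lit 247) (nat_lit 343) (nat_lit 310))) (XT.nd (nat_lit 78) (nat_lit 228) (nat_lit 0) (XT.lf (nat_lit 0) (nat_lit 84390084830) (nat_lit 0) (nat_lit 100628146440) (nat_lit 152) (nat_lit 84390084830) (nat_lit 183)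 (nat_lit 3) (nat_lit 183) (nat_lit 1) (nat_lit 185) (nat_lit 1) (nat_lit 248) (nat_lit 343) (nat_lit 309)) (XT.nd (nat_lit 78) (nat_lit 152) (nat_lit 0) (XT.lf (nat_lit 76) (nat_lit 76275367770) (nat_lit 0) (nat_lit 90395421344) (nat_lit 76) (nat_lit 90395421344) (nat_lit 183) (nat_lit 3) (nat_lit 182) (nat_lit 1) (nat_lit 183) (nat_lit 1) (nat_lit 249) (nat_lit 343) (nat_lit 308)) (XT.lf (nat_lit 152) (nat_lit 238319413463) (nat_lit 0) (nat_lit 3720699229) (nat_lit 76) (nat_lit 3720699229) (nat_lit 182) (nat_lit 1) (nat_lit 180) (nat_lit 1) (nat_lit 181) (nat_lit 1) (nat_lit 250) (nat_lit 343) (nat_lit 307))))) (XT.nd (nat_lit 234) (nat_lit 228) (nat_lit 0) (XT.nd (nat_lit 78) (nat_lit 228) (nat_lit 0) (XT.lf (nat_lit 0) (nat_lit 74917885364) (nat_lit 0) (nat_lit 84202049792) (nat_lit 152) (nat_lit 74917885364) (nat_lit 180) (nat_lit 3) (nat_lit 180) (nat_lit 1) (nat_lit 182) (nat_lit 1) (nat_lit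 251) (nat_lit 343) (nat_lit 306)) (XT.nd (nat_lit 78) (nat_lit 152) (nat_lit 0) (XT.lf (nat_lit 76) (nat_lit 69066106800) (nat_lit 0) (nat_lit 77139293259) (nat_lit 76) (nat_lit 77139293259) (nat_lit 180) (nat_lit 3) (nat_lit 179) (nat_lit 1) (nat_lit 180) (nat_lit 1) (nat_lit 252) (nat_lit 343) (nat_lit 305)) (XT.lf (nat_lit 152) (nat_lit 209305879415) (nat_lit 0) (nat_lit 2127321860) (nat_lit 76) (nat_lit 2127321860) (nat_lit 179) (nat_lit 1) (nat_lit 177) (nat_lit 1) (nat_lit 178) (nat_lit 1) (nat_lit 253) (nat_lit 343) (nat_lit 304)))) (XT.nd (nat_lit 78) (nat_lit 228) (nat_lit 0) (XT.lf (nat_lit 0) (nat_lit 66023744516) (nat_lit 0) (nat_lit 71331995660) (nat_lit 152) (nat_lit 66023744516) (nat_lit 177) (nat_lit 3) (nat_lit 177) (nat_lit 1) (nat_lit 179) (nat_lit 1) (nat_lit 254) (nat_lit 343) (nat_lit 303)) (XT.nd (nat_lit 78) (nat_lit 152) (nat_lit 0) (XT.lf (nat_lit 76) (nat_lit 61623916565)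 (nat_lit 0) (nat_lit 66239787125) (nat_lit 76) (nat_lit 66239787125) (nat_lit 177) (nat_lit 3) (nat_lit 176) (nat_lit 1) (nat_lit 177) (nat_lit 1) (nat_lit 255) (nat_lit 343) (nat_lit 302)) (XT.lf (nat_lit 152) (nat_lit 183189560468) (nat_lit 0) (nat_lit 1216303177) (nat_lit 76) (nat_lit 1216303177) (nat_lit 176) (nat_lit 1) (nat_lit 174) (nat_lit 1) (nat_lit 175) (nat_lit 1) (nat_lit 256) (nat_lit 343) (nat_lit 301)))))) (XT.nd (nat_lit 390) (nat_lit 456) (nat_lit 0) (XT.nd (nat_lit 156) (nat_lit 228) (nat_lit 0) (XT.nd (nat_lit 78) (nat_lit 76) (nat_lit 0) (XT.lf (nat_lit 0) (nat_lit 57913812305) (nat_lit 0) (nat_lit 60948822126) (nat_lit 152) (nat_lit 57913812305) (nat_lit 174) (nat_lit 3) (nat_lit 174) (nat_lit 1) (nat_lit 176) (nat_lit 1) (nat_lit 257) (nat_lit 343) (nat_lit 300)) (XT.lf (nat_lit 76) (nat_lit 54481627208) (nat_lit 0) (nat_lit 57120766183) (nat_lit 76) (nat_lit 57120766183)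 (nat_lit 174) (nat_lit 3) (nat_lit 173) (nat_lit 1) (nat_lit 174) (nat_lit 1) (nat_lit 258) (nat_lit 343) (nat_lit 299))) (XT.nd (nat_lit 78) (nat_lit 76) (nat_lit 0) (XT.lf (nat_lit 152) (nat_lit 159972481922) (nat_lit 0) (nat_lit 695425289) (nat_lit 76) (nat_lit 695425289) (nat_lit 173) (nat_lit 1) (nat_lit 171) (nat_lit 1) (nat_lit 172) (nat_lit 1) (nat_lit 259) (nat_lit 343) (nat_lit 298)) (XT.nd (nat_lit 78) (nat_lit 76) (nat_lit 0) (XT.lf (nat_lit 0) (nat_lit 50646777187) (nat_lit 0) (nat_lit 52382053902) (nat_lit 152) (nat_lit 50646777187) (nat_lit 171) (nat_lit 3) (nat_lit 171) (nat_lit 1) (nat_lit 173) (nat_lit 1) (nat_lit 260) (nat_lit 343) (nat_lit 297)) (XT.lf (nat_lit 76) (nat_lit 47887397535) (nat_lit 0) (nat_lit 49396333809) (nat_lit 76) (nat_lit 49396333809) (nat_lit 171) (nat_lit 3) (nat_lit 170) (nat_lit 1) (nat_lit 171) (nat_lit 1) (nat_lit 261) (nat_lit 343) (nat_lit 296)))))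 (XT.nd (nat_lit 234) (nat_lit 228) (nat_lit 0) (XT.nd (nat_lit 78) (nat_lit 76) (nat_lit 0) (XT.lf (nat_lit 152) (nat_lit 139493704150) (nat_lit 0) (nat_lit 397611666) (nat_lit 76) (nat_lit 397611666) (nat_lit 170) (nat_lit 1) (nat_lit 168) (nat_lit 1) (nat_lit 169) (nat_lit 1) (nat_lit 262) (nat_lit 343) (nat_lit 295)) (XT.nd (nat_lit 78) (nat_lit 76) (nat_lit 0) (XT.lf (nat_lit 0) (nat_lit 44204734919) (nat_lit 0) (nat_lit 45196885013) (nat_lit 152) (nat_lit 44204734919) (nat_lit 168) (nat_lit 3) (nat_lit 168) (nat_lit 1) (nat_lit 170) (nat_lit 1) (nat_lit 263) (nat_lit 343) (nat_lit 294)) (XT.lf (nat_lit 76) (nat_lit 41933992662) (nat_lit 0) (nat_lit 42796731874) (nat_lit 76) (nat_lit 42796731874) (nat_lit 168) (nat_lit 3) (nat_lit 167) (nat_lit 1) (nat_lit 168) (nat_lit 1) (nat_lit 264) (nat_lit 343) (nat_lit 293)))) (XT.nd (nat_lit 78) (nat_lit 76) (nat_lit 0) (XT.lf (nat_lit 152) (nat_lit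 121520254961) (nat_lit 0) (nat_lit 227335760) (nat_lit 76) (nat_lit 227335760) (nat_lit 167) (nat_lit 1) (nat_lit 165) (nat_lit 1) (nat_lit 166) (nat_lit 1) (nat_lit 265) (nat_lit 343) (nat_lit 292)) (XT.nd (nat_lit 78) (nat_lit 76) (nat_lit 0) (XT.lf (nat_lit 0) (nat_lit 38532701256) (nat_lit 0) (nat_lit 39099966292) (nat_lit 152) (nat_lit 38532701256) (nat_lit 165) (nat_lit 3) (nat_lit 165) (nat_lit 1) (nat_lit 167) (nat_lit 1) (nat_lit 266) (nat_lit 343) (nat_lit 291)) (XT.lf (nat_lit 76) (nat_lit 36631737882) (nat_lit 0) (nat_lit 37125011826) (nat_lit 76) (nat_lit 37125011826) (nat_lit 165) (nat_lit 3) (nat_lit 164) (nat_lit 1) (nat_lit 165) (nat_lit 1) (nat_lit 267) (nat_lit 343) (nat_lit 290))))))) (XT.nd (nat_lit 858) (nat_lit 912) (nat_lit 0) (XT.nd (nat_lit 390) (nat_lit 456) (nat_lit 0) (XT.nd (nat_lit 156) (nat_lit 228) (nat_lit 0) (XT.nd (nat_lit 78) (nat_lit 0) (nat_lit 0) (XT.lf (nat_lit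 152) (nat_lit 105796362678) (nat_lit 0) (nat_lit 129979959) (nat_lit 76) (nat_lit 129979959) (nat_lit 164) (nat_lit 1) (nat_lit 162) (nat_lit 1) (nat_lit 163) (nat_lit 1) (nat_lit 268) (nat_lit 343) (nat_lit 289)) (XT.lf (nat_lit 0) (nat_lit 33560327956) (nat_lit 0) (nat_lit 33884663582) (nat_lit 152) (nat_lit 33560327956) (nat_lit 162) (nat_lit 3) (nat_lit 162) (nat_lit 1) (nat_lit 164) (nat_lit 1) (nat_lit 269) (nat_lit 343) (nat_lit 288))) (XT.nd (nat_lit 78) (nat_lit 152) (nat_lit 0) (XT.lf (nat_lit 76) (nat_lit 31949394571) (nat_lit 0) (nat_lit 32231425549) (nat_lit 76) (nat_lit 32231425549) (nat_lit 162) (nat_lit 3) (nat_lit 161) (nat_lit 1) (nat_lit 162) (nat_lit 1) (nat_lit 270) (nat_lit 343) (nat_lit 287)) (XT.nd (nat_lit 78) (nat_lit 0) (nat_lit 0) (XT.lf (nat_lit 152) (nat_lit 92069207211) (nat_lit 0) (nat_lit 74316463) (nat_lit 76) (nat_lit 74316463) (nat_lit 161) (nat_lit 1) (nat_lit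 159) (nat_lit 1) (nat_lit 160) (nat_lit 1) (nat_lit 271) (nat_lit 343) (nat_lit 286)) (XT.lf (nat_lit 0) (nat_lit 29213557695) (nat_lit 0) (nat_lit 29398997641) (nat_lit 152) (nat_lit 29213557695) (nat_lit 159) (nat_lit 3) (nat_lit 159) (nat_lit 1) (nat_lit 161) (nat_lit 1) (nat_lit 272) (nat_lit 343) (nat_lit 285))))) (XT.nd (nat_lit 234) (nat_lit 228) (nat_lit 0) (XT.nd (nat_lit 78) (nat_lit 152) (nat_lit 0) (XT.lf (nat_lit 76) (nat_lit 27836804427) (nat_lit 0) (nat_lit 27998056555) (nat_lit 76) (nat_lit 27998056555) (nat_lit 159) (nat_lit 3) (nat_lit 158) (nat_lit 1) (nat_lit 159) (nat_lit 1) (nat_lit 273) (nat_lit 343) (nat_lit 284)) (XT.nd (nat_lit 78) (nat_lit 0) (nat_lit 0) (XT.lf (nat_lit 152) (nat_lit 80101558022) (nat_lit 0) (nat_lit 42490679) (nat_lit 76) (nat_lit 42490679) (nat_lit 158) (nat_lit 1) (nat_lit 156) (nat_lit 1) (nat_lit 157) (nat_lit 1) (nat_lit 274) (nat_lit 343) (nat_lit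 283)) (XT.lf (nat_lit 0) (nat_lit 25420625786) (nat_lit 0) (nat_lit 25526651677) (nat_lit 152) (nat_lit 25420625786) (nat_lit 156) (nat_lit 3) (nat_lit 156) (nat_lit 1) (nat_lit 158) (nat_lit 1) (nat_lit 275) (nat_lit 343) (nat_lit 282)))) (XT.nd (nat_lit 78) (nat_lit 152) (nat_lit 0) (XT.lf (nat_lit 76) (nat_lit 24237204484) (nat_lit 0) (nat_lit 24329400912) (nat_lit 76) (nat_lit 24329400912) (nat_lit 156) (nat_lit 3) (nat_lit 155) (nat_lit 1) (nat_lit 156) (nat_lit 1) (nat_lit 276) (nat_lit 343) (nat_lit 281)) (XT.nd (nat_lit 78) (nat_lit 0) (nat_lit 0) (XT.lf (nat_lit 152) (nat_lit 69677186629) (nat_lit 0) (nat_lit 24294183) (nat_lit 76) (nat_lit 24294183) (nat_lit 155) (nat_lit 1) (nat_lit 153) (nat_lit 1) (nat_lit 154) (nat_lit 1) (nat_lit 277) (nat_lit 343) (nat_lit 280)) (XT.lf (nat_lit 0) (nat_lit 22114916045) (nat_lit 0) (nat_lit 22175536692) (nat_lit 152) (nat_lit 22114916045) (nat_lit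 153) (nat_lit 3) (nat_lit 153) (nat_lit 1) (nat_lit 155) (nat_lit 1) (nat_lit 278) (nat_lit 343) (nat_lit 279)))))) (XT.nd (nat_lit 468) (nat_lit 456) (nat_lit 0) (XT.nd (nat_lit 234) (nat_lit 228) (nat_lit 0) (XT.nd (nat_lit 78) (nat_lit 152) (nat_lit 0) (XT.lf (nat_lit 76) (nat_lit 21093718768) (nat_lit 0) (nat_lit 21146432375) (nat_lit 76) (nat_lit 21146432375) (nat_lit 153) (nat_lit 3) (nat_lit 152) (nat_lit 1) (nat_lit 153) (nat_lit 1) (nat_lit 279) (nat_lit 343) (nat_lit 278)) (XT.nd (nat_lit 78) (nat_lit 0) (nat_lit 0) (XT.lf (nat_lit 152) (nat_lit 60602384427) (nat_lit 0) (nat_lit 13890278) (nat_lit 76) (nat_lit 13890278) (nat_lit 152) (nat_lit 1) (nat_lit 150) (nat_lit 1) (nat_lit 151) (nat_lit 1) (nat_lit 280) (nat_lit 343) (nat_lit 277)) (XT.lf (nat_lit 0) (nat_lit 19236093065) (nat_lit 0) (nat_lit 19270753117) (nat_lit 152) (nat_lit 19236093065) (nat_lit 150) (nat_lit 3) (nat_lit 150)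 (nat_lit 1) (nat_lit 152) (nat_lit 1) (nat_lit 281) (nat_lit 343) (nat_lit 276)))) (XT.nd (nat_lit 78) (nat_lit 152) (nat_lit 0) (XT.lf (nat_lit 76) (nat_lit 18352592115) (nat_lit 0) (nat_lit 18382731291) (nat_lit 76) (nat_lit 18382731291) (nat_lit 150) (nat_lit 3) (nat_lit 149) (nat_lit 1) (nat_lit 150) (nat_lit 1) (nat_lit 282) (nat_lit 343) (nat_lit 275)) (XT.nd (nat_lit 78) (nat_lit 0) (nat_lit 0) (XT.lf (nat_lit 152) (nat_lit 52705459403) (nat_lit 0) (nat_lit 7941811) (nat_lit 76) (nat_lit 7941811) (nat_lit 149) (nat_lit 1) (nat_lit 147) (nat_lit 1) (nat_lit 148) (nat_lit 1) (nat_lit 283) (nat_lit 343) (nat_lit 274)) (XT.lf (nat_lit 0) (nat_lit 16730314330) (nat_lit 0) (nat_lit 16750131327) (nat_lit 152) (nat_lit 16730314330) (nat_lit 147) (nat_lit 3) (nat_lit 147) (nat_lit 1) (nat_lit 149) (nat_lit 1) (nat_lit 284) (nat_lit 343) (nat_lit 273))))) (XT.nd (nat_lit 234) (nat_lit 228) (nat_lit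 0) (XT.nd (nat_lit 78) (nat_lit 152) (nat_lit 0) (XT.lf (nat_lit 76) (nat_lit 15964623627) (nat_lit 0) (nat_lit 15981855798) (nat_lit 76) (nat_lit 15981855798) (nat_lit 147) (nat_lit 3) (nat_lit 146) (nat_lit 1) (nat_lit 147) (nat_lit 1) (nat_lit 285) (nat_lit 343) (nat_lit 272)) (XT.nd (nat_lit 78) (nat_lit 0) (nat_lit 0) (XT.lf (nat_lit 152) (nat_lit 45835256096) (nat_lit 0) (nat_lit 4540756) (nat_lit 76) (nat_lit 4540756) (nat_lit 146) (nat_lit 1) (nat_lit 144) (nat_lit 1) (nat_lit 145) (nat_lit 1) (nat_lit 286) (nat_lit 343) (nat_lit 271)) (XT.lf (nat_lit 0) (nat_lit 14549972985) (nat_lit 0) (nat_lit 14561303418) (nat_lit 152) (nat_lit 14549972985) (nat_lit 144) (nat_lit 3) (nat_lit 144) (nat_lit 1) (nat_lit 146) (nat_lit 1) (nat_lit 287) (nat_lit 343) (nat_lit 270)))) (XT.nd (nat_lit 78) (nat_lit 152) (nat_lit 0) (XT.lf (nat_lit 76) (nat_lit 13885624956) (nat_lit 0) (nat_lit 13895477506) (nat_lit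 76) (nat_lit 13895477506) (nat_lit 144) (nat_lit 3) (nat_lit 143) (nat_lit 1) (nat_lit 144) (nat_lit 1) (nat_lit 288) (nat_lit 343) (nat_lit 269)) (XT.nd (nat_lit 78) (nat_lit 0) (nat_lit 0) (XT.lf (nat_lit 152) (nat_lit 39859272629) (nat_lit 0) (nat_lit 2596192) (nat_lit 76) (nat_lit 2596192) (nat_lit 143) (nat_lit 1) (nat_lit 141) (nat_lit 1) (nat_lit 142) (nat_lit 1) (nat_lit 289) (nat_lit 343) (nat_lit 268)) (XT.lf (nat_lit 0) (nat_lit 12653221640) (nat_lit 0) (nat_lit 12659699852) (nat_lit 152) (nat_lit 12653221640) (nat_lit 141) (nat_lit 3) (nat_lit 141) (nat_lit 1) (nat_lit 143) (nat_lit 1) (nat_lit 290) (nat_lit 343) (nat_lit 267))))))))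
noncomputable def ec134 : XT := (XT.nd (nat_lit 1716) (nat_lit 1748) (nat_lit 0) (XT.nd (nat_lit 858) (nat_lit 760) (nat_lit 0) (XT.nd (nat_lit 390) (nat_lit 456) (nat_lit 0) (XT.nd (nat_lit 156) (nat_lit 228) (nat_lit 0) (XT.nd (nat_lit 78) (nat_lit 152) (nat_lit 0) (XT.lf (nat_lit 76) (nat_lit 12076368164) (nat_lit 0) (nat_lit 12082001391) (nat_lit 76) (nat_lit 12082001391) (nat_lit 141) (nat_lit 3) (nat_lit 140) (nat_lit 1) (nat_lit 141) (nat_lit 1) (nat_lit 291) (nat_lit 343) (nat_lit 266)) (XT.lf (nat_lit 152) (nat_lit 34661682574) (nat_lit 0) (nat_lit 1484381) (nat_lit 76) (nat_lit 1484381) (nat_lit 140) (nat_lit 1) (nat_lit 138) (nat_lit 1) (nat_lit 139) (nat_lit 1) (nat_lit 292) (nat_lit 343) (nat_lit 265))) (XT.nd (nat_lit 78) (nat_lit 228) (nat_lit 0) (XT.lf (nat_lit 0) (nat_lit 11003413899) (nat_lit 0) (nat_lit 11007117838) (nat_lit 152) (nat_lit 11003413899) (nat_lit 138) (nat_lit 3)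 (nat_lit 138) (nat_lit 1) (nat_lit 140) (nat_lit 1) (nat_lit 293) (nat_lit 343) (nat_lit 264)) (XT.nd (nat_lit 78) (nat_lit 152) (nat_lit 0) (XT.lf (nat_lit 76) (nat_lit 10502282717) (nat_lit 0) (nat_lit 10505503533) (nat_lit 76) (nat_lit 10505503533) (nat_lit 138) (nat_lit 3) (nat_lit 137) (nat_lit 1) (nat_lit 138) (nat_lit 1) (nat_lit 294) (nat_lit 343) (nat_lit 263)) (XT.lf (nat_lit 152) (nat_lit 30141420015) (nat_lit 0) (nat_lit 848699) (nat_lit 76) (nat_lit 848699) (nat_lit 137) (nat_lit 1) (nat_lit 135) (nat_lit 1) (nat_lit 136) (nat_lit 1) (nat_lit 295) (nat_lit 343) (nat_lit 262))))) (XT.nd (nat_lit 234) (nat_lit 228) (nat_lit 0) (XT.nd (nat_lit 78) (nat_lit 228) (nat_lit 0) (XT.lf (nat_lit 0) (nat_lit 9568536182) (nat_lit 0) (nat_lit 9570653921) (nat_lit 152) (nat_lit 9568536182) (nat_lit 135) (nat_lit 3) (nat_lit 135) (nat_lit 1) (nat_lit 137) (nat_lit 1) (nat_lit 296) (nat_lit 343) (nat_lit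 261)) (XT.nd (nat_lit 78) (nat_lit 152) (nat_lit 0) (XT.lf (nat_lit 76) (nat_lit 9133044686) (nat_lit 0) (nat_lit 9134886198) (nat_lit 76) (nat_lit 9134886198) (nat_lit 135) (nat_lit 3) (nat_lit 134) (nat_lit 1) (nat_lit 135) (nat_lit 1) (nat_lit 297) (nat_lit 343) (nat_lit 260)) (XT.lf (nat_lit 152) (nat_lit 26210402986) (nat_lit 0) (nat_lit 485246) (nat_lit 76) (nat_lit 485246) (nat_lit 134) (nat_lit 1) (nat_lit 132) (nat_lit 1) (nat_lit 133) (nat_lit 1) (nat_lit 298) (nat_lit 343) (nat_lit 259)))) (XT.nd (nat_lit 78) (nat_lit 228) (nat_lit 0) (XT.lf (nat_lit 0) (nat_lit 8320666464) (nat_lit 0) (nat_lit 8321877288) (nat_lit 152) (nat_lit 8320666464) (nat_lit 132) (nat_lit 3) (nat_lit 132) (nat_lit 1) (nat_lit 134) (nat_lit 1) (nat_lit 299) (nat_lit 343) (nat_lit 258)) (XT.nd (nat_lit 78) (nat_lit 152) (nat_lit 0) (XT.lf (nat_lit 76) (nat_lit 7942135294) (nat_lit 0) (nat_lit 7943188185) (nat_lit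 76) (nat_lit 7943188185) (nat_lit 132) (nat_lit 3) (nat_lit 131) (nat_lit 1) (nat_lit 132) (nat_lit 1) (nat_lit 300) (nat_lit 343) (nat_lit 257)) (XT.lf (nat_lit 152) (nat_lit 22791924945) (nat_lit 0) (nat_lit 277441) (nat_lit 76) (nat_lit 277441) (nat_lit 131) (nat_lit 1) (nat_lit 129) (nat_lit 1) (nat_lit 130) (nat_lit 1) (nat_lit 301) (nat_lit 343) (nat_lit 256)))))) (XT.nd (nat_lit 390) (nat_lit 456) (nat_lit 0) (XT.nd (nat_lit 156) (nat_lit 228) (nat_lit 0) (XT.nd (nat_lit 78) (nat_lit 76) (nat_lit 0) (XT.lf (nat_lit 0) (nat_lit 7235476618) (nat_lit 0) (nat_lit 7236168911) (nat_lit 152) (nat_lit 7235476618) (nat_lit 129) (nat_lit 3) (nat_lit 129) (nat_lit 1) (nat_lit 131) (nat_lit 1) (nat_lit 302) (nat_lit 343) (nat_lit 255)) (XT.lf (nat_lit 76) (nat_lit 6906408895) (nat_lit 0) (nat_lit 6907010888) (nat_lit 76) (nat_lit 6907010888) (nat_lit 129) (nat_lit 3) (nat_lit 128) (nat_lit 1) (nat_lit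 129) (nat_lit 1) (nat_lit 303) (nat_lit 343) (nat_lit 254))) (XT.nd (nat_lit 78) (nat_lit 76) (nat_lit 0) (XT.lf (nat_lit 152) (nat_lit 19819219643) (nat_lit 0) (nat_lit 158628) (nat_lit 76) (nat_lit 158628) (nat_lit 128) (nat_lit 1) (nat_lit 126) (nat_lit 1) (nat_lit 127) (nat_lit 1) (nat_lit 304) (nat_lit 343) (nat_lit 253)) (XT.nd (nat_lit 78) (nat_lit 76) (nat_lit 0) (XT.lf (nat_lit 0) (nat_lit 6291784250) (nat_lit 0) (nat_lit 6292180070) (nat_lit 152) (nat_lit 6291784250) (nat_lit 126) (nat_lit 3) (nat_lit 126) (nat_lit 1) (nat_lit 128) (nat_lit 1) (nat_lit 305) (nat_lit 343) (nat_lit 252)) (XT.lf (nat_lit 76) (nat_lit 6005689756) (nat_lit 0) (nat_lit 6006033948) (nat_lit 76) (nat_lit 6006033948) (nat_lit 126) (nat_lit 3) (nat_lit 125) (nat_lit 1) (nat_lit 126) (nat_lit 1) (nat_lit 306) (nat_lit 343) (nat_lit 251))))) (XT.nd (nat_lit 234) (nat_lit 228) (nat_lit 0) (XT.nd (nat_lit 78) (nat_lit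 76) (nat_lit 0) (XT.lf (nat_lit 152) (nat_lit 17234192358) (nat_lit 0) (nat_lit 90696) (nat_lit 76) (nat_lit 90696) (nat_lit 125) (nat_lit 1) (nat_lit 123) (nat_lit 1) (nat_lit 124) (nat_lit 1) (nat_lit 307) (nat_lit 343) (nat_lit 250)) (XT.nd (nat_lit 78) (nat_lit 76) (nat_lit 0) (XT.lf (nat_lit 0) (nat_lit 5471154161) (nat_lit 0) (nat_lit 5471380473) (nat_lit 152) (nat_lit 5471154161) (nat_lit 123) (nat_lit 3) (nat_lit 123) (nat_lit 1) (nat_lit 125) (nat_lit 1) (nat_lit 308) (nat_lit 343) (nat_lit 249)) (XT.lf (nat_lit 76) (nat_lit 5222405702) (nat_lit 0) (nat_lit 5222602494) (nat_lit 76) (nat_lit 5222602494) (nat_lit 123) (nat_lit 3) (nat_lit 122) (nat_lit 1) (nat_lit 123) (nat_lit 1) (nat_lit 309) (nat_lit 343) (nat_lit 248)))) (XT.nd (nat_lit 78) (nat_lit 76) (nat_lit 0) (XT.lf (nat_lit 152) (nat_lit 14986304722) (nat_lit 0) (nat_lit 51855) (nat_lit 76) (nat_lit 51855) (nat_lit 122) (nat_lit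 1) (nat_lit 120) (nat_lit 1) (nat_lit 121) (nat_lit 1) (nat_lit 310) (nat_lit 343) (nat_lit 247)) (XT.nd (nat_lit 78) (nat_lit 76) (nat_lit 0) (XT.lf (nat_lit 0) (nat_lit 4757546754) (nat_lit 0) (nat_lit 4757676148) (nat_lit 152) (nat_lit 4757546754) (nat_lit 120) (nat_lit 3) (nat_lit 120) (nat_lit 1) (nat_lit 122) (nat_lit 1) (nat_lit 311) (nat_lit 343) (nat_lit 246)) (XT.lf (nat_lit 76) (nat_lit 4541260533) (nat_lit 0) (nat_lit 4541373049) (nat_lit 76) (nat_lit 4541373049) (nat_lit 120) (nat_lit 3) (nat_lit 119) (nat_lit 1) (nat_lit 120) (nat_lit 1) (nat_lit 312) (nat_lit 343) (nat_lit 245))))))) (XT.nd (nat_lit 858) (nat_lit 912) (nat_lit 0) (XT.nd (nat_lit 390) (nat_lit 456) (nat_lit 0) (XT.nd (nat_lit 156) (nat_lit 228) (nat_lit 0) (XT.nd (nat_lit 78) (nat_lit 0) (nat_lit 0) (XT.lf (nat_lit 152) (nat_lit 13031598196) (nat_lit 0) (nat_lit 29648) (nat_lit 76) (nat_lit 29648) (nat_lit 119) (nat_lit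 1) (nat_lit 117) (nat_lit 1) (nat_lit 118) (nat_lit 1) (nat_lit 313) (nat_lit 343) (nat_lit 244)) (XT.lf (nat_lit 0) (nat_lit 4137009411) (nat_lit 0) (nat_lit 4137083392) (nat_lit 152) (nat_lit 4137009411) (nat_lit 117) (nat_lit 3) (nat_lit 117) (nat_lit 1) (nat_lit 119) (nat_lit 1) (nat_lit 314) (nat_lit 343) (nat_lit 243))) (XT.nd (nat_lit 78) (nat_lit 152) (nat_lit 0) (XT.lf (nat_lit 76) (nat_lit 3948944034) (nat_lit 0) (nat_lit 3949008366) (nat_lit 76) (nat_lit 3949008366) (nat_lit 117) (nat_lit 3) (nat_lit 116) (nat_lit 1) (nat_lit 117) (nat_lit 1) (nat_lit 315) (nat_lit 343) (nat_lit 242)) (XT.nd (nat_lit 78) (nat_lit 0) (nat_lit 0) (XT.lf (nat_lit 152) (nat_lit 11331841026) (nat_lit 0) (nat_lit 16951) (nat_lit 76) (nat_lit 16951) (nat_lit 116) (nat_lit 1) (nat_lit 114) (nat_lit 1) (nat_lit 115) (nat_lit 1) (nat_lit 316) (nat_lit 343) (nat_lit 241)) (XT.lf (nat_lit 0) (nat_lit 3597406482)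 (nat_lit 0) (nat_lit 3597448781) (nat_lit 152) (nat_lit 3597406482) (nat_lit 114) (nat_lit 3) (nat_lit 114) (nat_lit 1) (nat_lit 116) (nat_lit 1) (nat_lit 317) (nat_lit 343) (nat_lit 240))))) (XT.nd (nat_lit 234) (nat_lit 228) (nat_lit 0) (XT.nd (nat_lit 78) (nat_lit 152) (nat_lit 0) (XT.lf (nat_lit 76) (nat_lit 3433876859) (nat_lit 0) (nat_lit 3433913641) (nat_lit 76) (nat_lit 3433913641) (nat_lit 114) (nat_lit 3) (nat_lit 113) (nat_lit 1) (nat_lit 114) (nat_lit 1) (nat_lit 318) (nat_lit 343) (nat_lit 239)) (XT.nd (nat_lit 78) (nat_lit 0) (nat_lit 0) (XT.lf (nat_lit 152) (nat_lit 9853784243) (nat_lit 0) (nat_lit 9692) (nat_lit 76) (nat_lit 9692) (nat_lit 113) (nat_lit 1) (nat_lit 111) (nat_lit 1) (nat_lit 112) (nat_lit 1) (nat_lit 319) (nat_lit 343) (nat_lit 238)) (XT.lf (nat_lit 0) (nat_lit 3128183549) (nat_lit 0) (nat_lit 3128207733) (nat_lit 152) (nat_lit 3128183549) (nat_lit 111) (nat_lit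 3) (nat_lit 111) (nat_lit 1) (nat_lit 113) (nat_lit 1) (nat_lit 320) (nat_lit 343) (nat_lit 237)))) (XT.nd (nat_lit 78) (nat_lit 152) (nat_lit 0) (XT.lf (nat_lit 76) (nat_lit 2985987014) (nat_lit 0) (nat_lit 2986008045) (nat_lit 76) (nat_lit 2986008045) (nat_lit 111) (nat_lit 3) (nat_lit 110) (nat_lit 1) (nat_lit 111) (nat_lit 1) (nat_lit 321) (nat_lit 343) (nat_lit 236)) (XT.nd (nat_lit 78) (nat_lit 0) (nat_lit 0) (XT.lf (nat_lit 152) (nat_lit 8568513434) (nat_lit 0) (nat_lit 5541) (nat_lit 76) (nat_lit 5541) (nat_lit 110) (nat_lit 1) (nat_lit 108) (nat_lit 1) (nat_lit 109) (nat_lit 1) (nat_lit 322) (nat_lit 343) (nat_lit 235)) (XT.lf (nat_lit 0) (nat_lit 2720161894) (nat_lit 0) (nat_lit 2720175722) (nat_lit 152) (nat_lit 2720161894) (nat_lit 108) (nat_lit 3) (nat_lit 108) (nat_lit 1) (nat_lit 110) (nat_lit 1) (nat_lit 323) (nat_lit 343) (nat_lit 234)))))) (XT.nd (nat_lit 390) (nat_lit 456) (nat_lit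 0) (XT.nd (nat_lit 156) (nat_lit 228) (nat_lit 0) (XT.nd (nat_lit 78) (nat_lit 152) (nat_lit 0) (XT.lf (nat_lit 76) (nat_lit 2596514528) (nat_lit 0) (nat_lit 2596526552) (nat_lit 76) (nat_lit 2596526552) (nat_lit 108) (nat_lit 3) (nat_lit 107) (nat_lit 1) (nat_lit 108) (nat_lit 1) (nat_lit 324) (nat_lit 343) (nat_lit 233)) (XT.lf (nat_lit 152) (nat_lit 7450884332) (nat_lit 0) (nat_lit 3168) (nat_lit 76) (nat_lit 3168) (nat_lit 107) (nat_lit 1) (nat_lit 105) (nat_lit 1) (nat_lit 106) (nat_lit 1) (nat_lit 325) (nat_lit 343) (nat_lit 232))) (XT.nd (nat_lit 78) (nat_lit 228) (nat_lit 0) (XT.lf (nat_lit 0) (nat_lit 2365359476) (nat_lit 0) (nat_lit 2365367382) (nat_lit 152) (nat_lit 2365359476) (nat_lit 105) (nat_lit 3) (nat_lit 105) (nat_lit 1) (nat_lit 107) (nat_lit 1) (nat_lit 326) (nat_lit 343) (nat_lit 231)) (XT.nd (nat_lit 78) (nat_lit 152) (nat_lit 0) (XT.lf (nat_lit 76) (nat_lit 2257841053) (nat_lit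 0) (nat_lit 2257847928) (nat_lit 76) (nat_lit 2257847928) (nat_lit 105) (nat_lit 3) (nat_lit 104) (nat_lit 1) (nat_lit 105) (nat_lit 1) (nat_lit 327) (nat_lit 343) (nat_lit 230)) (XT.lf (nat_lit 152) (nat_lit 6479031618) (nat_lit 0) (nat_lit 1811) (nat_lit 76) (nat_lit 1811) (nat_lit 104) (nat_lit 1) (nat_lit 102) (nat_lit 1) (nat_lit 103) (nat_lit 1) (nat_lit 328) (nat_lit 343) (nat_lit 229))))) (XT.nd (nat_lit 234) (nat_lit 228) (nat_lit 0) (XT.nd (nat_lit 78) (nat_lit 228) (nat_lit 0) (XT.lf (nat_lit 0) (nat_lit 2056835074) (nat_lit 0) (nat_lit 2056839594) (nat_lit 152) (nat_lit 2056835074) (nat_lit 102) (nat_lit 3) (nat_lit 102) (nat_lit 1) (nat_lit 104) (nat_lit 1) (nat_lit 329) (nat_lit 343) (nat_lit 228)) (XT.nd (nat_lit 78) (nat_lit 152) (nat_lit 0) (XT.lf (nat_lit 76) (nat_lit 1963341380) (nat_lit 0) (nat_lit 1963345310) (nat_lit 76) (nat_lit 1963345310) (nat_lit 102) (nat_lit 3) (nat_lit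 101) (nat_lit 1) (nat_lit 102) (nat_lit 1) (nat_lit 330) (nat_lit 343) (nat_lit 227)) (XT.lf (nat_lit 152) (nat_lit 5633941546) (nat_lit 0) (nat_lit 1035) (nat_lit 76) (nat_lit 1035) (nat_lit 101) (nat_lit 1) (nat_lit 99) (nat_lit 1) (nat_lit 100) (nat_lit 1) (nat_lit 331) (nat_lit 343) (nat_lit 226)))) (XT.nd (nat_lit 78) (nat_lit 228) (nat_lit 0) (XT.lf (nat_lit 0) (nat_lit 1788552666) (nat_lit 0) (nat_lit 1788555250) (nat_lit 152) (nat_lit 1788552666) (nat_lit 99) (nat_lit 3) (nat_lit 99) (nat_lit 1) (nat_lit 101) (nat_lit 1) (nat_lit 332) (nat_lit 343) (nat_lit 225)) (XT.nd (nat_lit 78) (nat_lit 152) (nat_lit 0) (XT.lf (nat_lit 76) (nat_lit 1707254136) (nat_lit 0) (nat_lit 1707256384) (nat_lit 76) (nat_lit 1707256384) (nat_lit 99) (nat_lit 3) (nat_lit 98) (nat_lit 1) (nat_lit 99) (nat_lit 1) (nat_lit 333) (nat_lit 343) (nat_lit 224)) (XT.lf (nat_lit 152) (nat_lit 4899080182) (nat_lit 0) (nat_lit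 592) (nat_lit 76) (nat_lit 592) (nat_lit 98) (nat_lit 1) (nat_lit 96) (nat_lit 1) (nat_lit 97) (nat_lit 1) (nat_lit 334) (nat_lit 343) (nat_lit 223))))))))
noncomputable def ec135 : XT := (XT.nd (nat_lit 1716) (nat_lit 1140) (nat_lit 0) (XT.nd (nat_lit 858) (nat_lit 836) (nat_lit 0) (XT.nd (nat_lit 390) (nat_lit 456) (nat_lit 0) (XT.nd (nat_lit 156) (nat_lit 228) (nat_lit 0) (XT.nd (nat_lit 78) (nat_lit 76) (nat_lit 0) (XT.lf (nat_lit 0) (nat_lit 1555263432) (nat_lit 0) (nat_lit 1555264910) (nat_lit 152) (nat_lit 1555263432) (nat_lit 96) (nat_lit 3) (nat_lit 96) (nat_lit 1) (nat_lit 98) (nat_lit 1) (nat_lit 335) (nat_lit 343) (nat_lit 222)) (XT.lf (nat_lit 76) (nat_lit 1484569250) (nat_lit 0) (nat_lit 1484570535) (nat_lit 76) (nat_lit 1484570535) (nat_lit 96) (nat_lit 3) (nat_lit 95) (nat_lit 1) (nat_lit 96) (nat_lit 1) (nat_lit 336) (nat_lit 343) (nat_lit 221))) (XT.nd (nat_lit 78) (nat_lit 76)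 (nat_lit 0) (XT.lf (nat_lit 152) (nat_lit 4260070053) (nat_lit 0) (nat_lit 338) (nat_lit 76) (nat_lit 338) (nat_lit 95) (nat_lit 1) (nat_lit 93) (nat_lit 1) (nat_lit 94) (nat_lit 1) (nat_lit 337) (nat_lit 343) (nat_lit 220)) (XT.nd (nat_lit 78) (nat_lit 76) (nat_lit 0) (XT.lf (nat_lit 0) (nat_lit 1352403124) (nat_lit 0) (nat_lit 1352403969) (nat_lit 152) (nat_lit 1352403124) (nat_lit 93) (nat_lit 3) (nat_lit 93) (nat_lit 1) (nat_lit 95) (nat_lit 1) (nat_lit 338) (nat_lit 343) (nat_lit 219)) (XT.lf (nat_lit 76) (nat_lit 1290930032) (nat_lit 0) (nat_lit 1290930767) (nat_lit 76) (nat_lit 1290930767) (nat_lit 93) (nat_lit 3) (nat_lit 92) (nat_lit 1) (nat_lit 93) (nat_lit 1) (nat_lit 339) (nat_lit 343) (nat_lit 218))))) (XT.nd (nat_lit 234) (nat_lit 228) (nat_lit 0) (XT.nd (nat_lit 78) (nat_lit 76) (nat_lit 0) (XT.lf (nat_lit 152) (nat_lit 3704408930) (nat_lit 0) (nat_lit 193) (nat_lit 76) (nat_lit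 193) (nat_lit 92) (nat_lit 1) (nat_lit 90) (nat_lit 1) (nat_lit 91) (nat_lit 1) (nat_lit 340) (nat_lit 343) (nat_lit 217)) (XT.nd (nat_lit 78) (nat_lit 76) (nat_lit 0) (XT.lf (nat_lit 0) (nat_lit 1176002796) (nat_lit 0) (nat_lit 1176003279) (nat_lit 152) (nat_lit 1176002796) (nat_lit 90) (nat_lit 3) (nat_lit 90) (nat_lit 1) (nat_lit 92) (nat_lit 1) (nat_lit 341) (nat_lit 343) (nat_lit 216)) (XT.lf (nat_lit 76) (nat_lit 1122547996) (nat_lit 0) (nat_lit 1122548416) (nat_lit 76) (nat_lit 1122548416) (nat_lit 90) (nat_lit 3) (nat_lit 89) (nat_lit 1) (nat_lit 90) (nat_lit 1) (nat_lit 342) (nat_lit 343) (nat_lit 215)))) (XT.nd (nat_lit 78) (nat_lit 76) (nat_lit 0) (XT.lf (nat_lit 152) (nat_lit 3221225265) (nat_lit 0) (nat_lit 110) (nat_lit 76) (nat_lit 110) (nat_lit 89) (nat_lit 1) (nat_lit 87) (nat_lit 1) (nat_lit 88) (nat_lit 1) (nat_lit 343) (nat_lit 343) (nat_lit 214)) (XT.nd (nat_lit 78) (nat_lit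 76) (nat_lit 0) (XT.lf (nat_lit 0) (nat_lit 1022611173) (nat_lit 0) (nat_lit 1022611449) (nat_lit 152) (nat_lit 1022611173) (nat_lit 87) (nat_lit 3) (nat_lit 87) (nat_lit 1) (nat_lit 89) (nat_lit 1) (nat_lit 344) (nat_lit 343) (nat_lit 213)) (XT.lf (nat_lit 76) (nat_lit 976128774) (nat_lit 0) (nat_lit 976129014) (nat_lit 76) (nat_lit 976129014) (nat_lit 87) (nat_lit 3) (nat_lit 86) (nat_lit 1) (nat_lit 87) (nat_lit 1) (nat_lit 345) (nat_lit 343) (nat_lit 212)))))) (XT.nd (nat_lit 390) (nat_lit 456) (nat_lit 0) (XT.nd (nat_lit 156) (nat_lit 228) (nat_lit 0) (XT.nd (nat_lit 78) (nat_lit 0) (nat_lit 0) (XT.lf (nat_lit 152) (nat_lit 2801065509) (nat_lit 0) (nat_lit 63) (nat_lit 76) (nat_lit 63) (nat_lit 86) (nat_lit 1) (nat_lit 84) (nat_lit 1) (nat_lit 85) (nat_lit 1) (nat_lit 346) (nat_lit 343) (nat_lit 211)) (XT.lf (nat_lit 0) (nat_lit 889227133) (nat_lit 0) (nat_lit 889227291) (nat_lit 152) (nat_lit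 889227133) (nat_lit 84) (nat_lit 3) (nat_lit 84) (nat_lit 1) (nat_lit 86) (nat_lit 1) (nat_lit 347) (nat_lit 343) (nat_lit 210))) (XT.nd (nat_lit 78) (nat_lit 152) (nat_lit 0) (XT.lf (nat_lit 76) (nat_lit 848807676) (nat_lit 0) (nat_lit 848807813) (nat_lit 76) (nat_lit 848807813) (nat_lit 84) (nat_lit 3) (nat_lit 83) (nat_lit 1) (nat_lit 84) (nat_lit 1) (nat_lit 348) (nat_lit 343) (nat_lit 209)) (XT.nd (nat_lit 78) (nat_lit 0) (nat_lit 0) (XT.lf (nat_lit 152) (nat_lit 2435709173) (nat_lit 0) (nat_lit 36) (nat_lit 76) (nat_lit 36) (nat_lit 83) (nat_lit 1) (nat_lit 81) (nat_lit 1) (nat_lit 82) (nat_lit 1) (nat_lit 349) (nat_lit 343) (nat_lit 208)) (XT.lf (nat_lit 0) (nat_lit 773241000) (nat_lit 0) (nat_lit 773241090) (nat_lit 152) (nat_lit 773241000) (nat_lit 81) (nat_lit 3) (nat_lit 81) (nat_lit 1) (nat_lit 83) (nat_lit 1) (nat_lit 350) (nat_lit 343) (nat_lit 207))))) (XT.nd (nat_lit 234) (nat_lit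 228) (nat_lit 0) (XT.nd (nat_lit 78) (nat_lit 152) (nat_lit 0) (XT.lf (nat_lit 76) (nat_lit 738093658) (nat_lit 0) (nat_lit 738093736) (nat_lit 76) (nat_lit 738093736) (nat_lit 81) (nat_lit 3) (nat_lit 80) (nat_lit 1) (nat_lit 81) (nat_lit 1) (nat_lit 351) (nat_lit 343) (nat_lit 206)) (XT.nd (nat_lit 78) (nat_lit 0) (nat_lit 0) (XT.lf (nat_lit 152) (nat_lit 2118007997) (nat_lit 0) (nat_lit 20) (nat_lit 76) (nat_lit 20) (nat_lit 80) (nat_lit 1) (nat_lit 78) (nat_lit 1) (nat_lit 79) (nat_lit 1) (nat_lit 352) (nat_lit 343) (nat_lit 205)) (XT.lf (nat_lit 0) (nat_lit 672383487) (nat_lit 0) (nat_lit 672383538) (nat_lit 152) (nat_lit 672383487) (nat_lit 78) (nat_lit 3) (nat_lit 78) (nat_lit 1) (nat_lit 80) (nat_lit 1) (nat_lit 353) (nat_lit 343) (nat_lit 204)))) (XT.nd (nat_lit 78) (nat_lit 152) (nat_lit 0) (XT.lf (nat_lit 76) (nat_lit 641820587) (nat_lit 0) (nat_lit 641820632) (nat_lit 76) (nat_lit 641820632)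 (nat_lit 78) (nat_lit 3) (nat_lit 77) (nat_lit 1) (nat_lit 78) (nat_lit 1) (nat_lit 354) (nat_lit 343) (nat_lit 203)) (XT.nd (nat_lit 78) (nat_lit 0) (nat_lit 0) (XT.lf (nat_lit 152) (nat_lit 1841746096) (nat_lit 0) (nat_lit 11) (nat_lit 76) (nat_lit 11) (nat_lit 77) (nat_lit 1) (nat_lit 75) (nat_lit 1) (nat_lit 76) (nat_lit 1) (nat_lit 355) (nat_lit 343) (nat_lit 202)) (XT.lf (nat_lit 0) (nat_lit 584681298) (nat_lit 0) (nat_lit 584681327) (nat_lit 152) (nat_lit 584681298) (nat_lit 75) (nat_lit 3) (nat_lit 75) (nat_lit 1) (nat_lit 77) (nat_lit 1) (nat_lit 356) (nat_lit 343) (nat_lit 201))))))) (XT.nd (nat_lit 858) (nat_lit 228) (nat_lit 0) (XT.nd (nat_lit 390) (nat_lit 456) (nat_lit 0) (XT.nd (nat_lit 156) (nat_lit 228) (nat_lit 0) (XT.nd (nat_lit 78) (nat_lit 152) (nat_lit 0) (XT.lf (nat_lit 76) (nat_lit 558104867) (nat_lit 0) (nat_lit 558104893) (nat_lit 76) (nat_lit 558104893) (nat_lit 75) (nat_lit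 3) (nat_lit 74) (nat_lit 1) (nat_lit 75) (nat_lit 1) (nat_lit 357) (nat_lit 343) (nat_lit 200)) (XT.lf (nat_lit 152) (nat_lit 1601518351) (nat_lit 0) (nat_lit 6) (nat_lit 76) (nat_lit 6) (nat_lit 74) (nat_lit 1) (nat_lit 72) (nat_lit 1) (nat_lit 73) (nat_lit 1) (nat_lit 358) (nat_lit 343) (nat_lit 199))) (XT.nd (nat_lit 78) (nat_lit 228) (nat_lit 0) (XT.lf (nat_lit 0) (nat_lit 508418522) (nat_lit 0) (nat_lit 508418539) (nat_lit 152) (nat_lit 508418522) (nat_lit 72) (nat_lit 3) (nat_lit 72) (nat_lit 1) (nat_lit 74) (nat_lit 1) (nat_lit 359) (nat_lit 343) (nat_lit 198)) (XT.nd (nat_lit 78) (nat_lit 152) (nat_lit 0) (XT.lf (nat_lit 76) (nat_lit 485308585) (nat_lit 0) (nat_lit 485308600) (nat_lit 76) (nat_lit 485308600) (nat_lit 72) (nat_lit 3) (nat_lit 71) (nat_lit 1) (nat_lit 72) (nat_lit 1) (nat_lit 360) (nat_lit 343) (nat_lit 197)) (XT.lf (nat_lit 152) (nat_lit 1392624656) (nat_lit 0) (nat_lit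 3) (nat_lit 76) (nat_lit 3) (nat_lit 71) (nat_lit 1) (nat_lit 69) (nat_lit 1) (nat_lit 70) (nat_lit 1) (nat_lit 361) (nat_lit 343) (nat_lit 196))))) (XT.nd (nat_lit 234) (nat_lit 228) (nat_lit 0) (XT.nd (nat_lit 78) (nat_lit 228) (nat_lit 0) (XT.lf (nat_lit 0) (nat_lit 442103064) (nat_lit 0) (nat_lit 442103074) (nat_lit 152) (nat_lit 442103064) (nat_lit 69) (nat_lit 3) (nat_lit 69) (nat_lit 1) (nat_lit 71) (nat_lit 1) (nat_lit 362) (nat_lit 343) (nat_lit 195)) (XT.nd (nat_lit 78) (nat_lit 152) (nat_lit 0) (XT.lf (nat_lit 76) (nat_lit 422007468) (nat_lit 0) (nat_lit 422007476) (nat_lit 76) (nat_lit 422007476) (nat_lit 69) (nat_lit 3) (nat_lit 68) (nat_lit 1) (nat_lit 69) (nat_lit 1) (nat_lit 363) (nat_lit 343) (nat_lit 194)) (XT.lf (nat_lit 152) (nat_lit 1210977964) (nat_lit 0) (nat_lit 2) (nat_lit 76) (nat_lit 2) (nat_lit 68) (nat_lit 1) (nat_lit 66) (nat_lit 1) (nat_lit 67) (nat_lit 1) (nat_lit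 364) (nat_lit 343) (nat_lit 193)))) (XT.nd (nat_lit 78) (nat_lit 228) (nat_lit 0) (XT.lf (nat_lit 0) (nat_lit 384437448) (nat_lit 0) (nat_lit 384437454) (nat_lit 152) (nat_lit 384437448) (nat_lit 66) (nat_lit 3) (nat_lit 66) (nat_lit 1) (nat_lit 68) (nat_lit 1) (nat_lit 365) (nat_lit 343) (nat_lit 192)) (XT.nd (nat_lit 78) (nat_lit 152) (nat_lit 0) (XT.lf (nat_lit 76) (nat_lit 366963017) (nat_lit 0) (nat_lit 366963022) (nat_lit 76) (nat_lit 366963022) (nat_lit 66) (nat_lit 3) (nat_lit 65) (nat_lit 1) (nat_lit 66) (nat_lit 1) (nat_lit 366) (nat_lit 343) (nat_lit 191)) (XT.lf (nat_lit 152) (nat_lit 1053024318) (nat_lit 0) (nat_lit 1) (nat_lit 76) (nat_lit 1) (nat_lit 65) (nat_lit 1) (nat_lit 63) (nat_lit 1) (nat_lit 64) (nat_lit 1) (nat_lit 367) (nat_lit 343) (nat_lit 190)))))) (XT.nd (nat_lit 34866) (nat_lit 0) (nat_lit 11476) (XT.nd (nat_lit 234) (nat_lit 152) (nat_lit 0) (XT.nd (nat_lit 78) (nat_lit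 76) (nat_lit 0) (XT.lf (nat_lit 0) (nat_lit 334293434) (nat_lit 0) (nat_lit 334293437) (nat_lit 152) (nat_lit 334293434) (nat_lit 63) (nat_lit 3) (nat_lit 63) (nat_lit 1) (nat_lit 65) (nat_lit 1) (nat_lit 368) (nat_lit 343) (nat_lit 189)) (XT.nd (nat_lit 78) (nat_lit 0) (nat_lit 0) (XT.lf (nat_lit 76) (nat_lit 319098277) (nat_lit 0) (nat_lit 319098279) (nat_lit 76) (nat_lit 319098279) (nat_lit 63) (nat_lit 3) (nat_lit 62) (nat_lit 1) (nat_lit 63) (nat_lit 1) (nat_lit 369) (nat_lit 343) (nat_lit 188)) (XT.lf (nat_lit 0) (nat_lit 915673321) (nat_lit 0) (nat_lit 0) (nat_lit 0) (nat_lit 0) (nat_lit 62) (nat_lit 1) (nat_lit 1) (nat_lit 0) (nat_lit 1) (nat_lit 0) (nat_lit 370) (nat_lit 343) (nat_lit 187)))) (XT.nd (nat_lit 34476) (nat_lit 0) (nat_lit 11780) (XT.lf (nat_lit 0) (nat_lit 290689943) (nat_lit 0) (nat_lit 290689944) (nat_lit 152) (nat_lit 290689943) (nat_lit 60) (nat_lit 3) (nat_lit 60) (nat_lit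 1) (nat_lit 62) (nat_lit 1) (nat_lit 371) (nat_lit 343) (nat_lit 186)) (XT.nd (nat_lit 78) (nat_lit 0) (nat_lit 0) (XT.lf (nat_lit 380) (nat_lit 328722486742) (nat_lit 0) (nat_lit 291157596851) (nat_lit 380) (nat_lit 328722486742) (nat_lit 220) (nat_lit 1) (nat_lit 215) (nat_lit 0) (nat_lit 220) (nat_lit 0) (nat_lit 212) (nat_lit 344) (nat_lit 344)) (XT.lf (nat_lit 380) (nat_lit 1215901818555) (nat_lit 76) (nat_lit 277923160631) (nat_lit 0) (nat_lit 277923160631) (nat_lit 220) (nat_lit 1) (nat_lit 216) (nat_lit 1) (nat_lit 215) (nat_lit 0) (nat_lit 213) (nat_lit 344) (nat_lit 343))))) (XT.nd (nat_lit 234) (nat_lit 380) (nat_lit 0) (XT.nd (nat_lit 78) (nat_lit 0) (nat_lit 0) (XT.lf (nat_lit 380) (nat_lit 535962549276) (nat_lit 0) (nat_lit 583177811833) (nat_lit 304) (nat_lit 535962549276) (nat_lit 221) (nat_lit 1) (nat_lit 216) (nat_lit 1) (nat_lit 220) (nat_lit 1) (nat_lit 214) (nat_lit 344) (nat_lit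 342)) (XT.nd (nat_lit 78) (nat_lit 0) (nat_lit 76) (XT.lf (nat_lit 380) (nat_lit 920219868370) (nat_lit 76) (nat_lit 314997415885) (nat_lit 0) (nat_lit 314997415885) (nat_lit 221) (nat_lit 1) (nat_lit 217) (nat_lit 1) (nat_lit 216) (nat_lit 1) (nat_lit 215) (nat_lit 344) (nat_lit 341)) (XT.lf (nat_lit 76) (nat_lit 372241141587) (nat_lit 0) (nat_lit 708809626264) (nat_lit 304) (nat_lit 372241141587) (nat_lit 218) (nat_lit 1) (nat_lit 217) (nat_lit 1) (nat_lit 221) (nat_lit 1) (nat_lit 216) (nat_lit 344) (nat_lit 340)))) (XT.nd (nat_lit 78) (nat_lit 152) (nat_lit 0) (XT.lf (nat_lit 380) (nat_lit 559448372324) (nat_lit 0) (nat_lit 402680210467) (nat_lit 304) (nat_lit 402680210467) (nat_lit 218) (nat_lit 1) (nat_lit 213) (nat_lit 1) (nat_lit 217) (nat_lit 1) (nat_lit 217) (nat_lit 344) (nat_lit 339)) (XT.nd (nat_lit 78) (nat_lit 152) (nat_lit 0) (XT.lf (nat_lit 76) (nat_lit 185954460364) (nat_lit 0)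 (nat_lit 912483197761) (nat_lit 380) (nat_lit 185954460364) (nat_lit 214) (nat_lit 1) (nat_lit 213) (nat_lit 1) (nat_lit 218) (nat_lit 1) (nat_lit 218) (nat_lit 344) (nat_lit 338)) (XT.lf (nat_lit 228) (nat_lit 167354627743) (nat_lit 0) (nat_lit 520849984018) (nat_lit 152) (nat_lit 520849984018) (nat_lit 214) (nat_lit 1) (nat_lit 211) (nat_lit 1) (nat_lit 213) (nat_lit 1) (nat_lit 219) (nat_lit 344) (nat_lit 337))))))))
noncomputable def ec136 : XT := (XT.nd (nat_lit 1716) (nat_lit 1748) (nat_lit 0) (XT.nd (nat_lit 858) (nat_lit 760) (nat_lit 0) (XT.nd (nat_lit 390) (nat_lit 532) (nat_lit 0) (XT.nd (nat_lit 156) (nat_lit 228) (nat_lit 0) (XT.nd (nat_lit 78) (nat_lit 0) (nat_lit 0) (XT.lf (nat_lit 228) (nat_lit 1124620992669) (nat_lit 0) (nat_lit 8823788825) (nat_lit 152) (nat_lit 8823788825) (nat_lit 211) (nat_lit 1) (nat_lit 208) (nat_lit 1) (nat_lit 210) (nat_lit 1) (nat_lit 220) (nat_lit 344)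 (nat_lit 336)) (XT.lf (nat_lit 76) (nat_lit 432086573705) (nat_lit 0) (nat_lit 212131507878) (nat_lit 228) (nat_lit 432086573705) (nat_lit 209) (nat_lit 1) (nat_lit 208) (nat_lit 1) (nat_lit 211) (nat_lit 1) (nat_lit 221) (nat_lit 344) (nat_lit 335))) (XT.nd (nat_lit 78) (nat_lit 76) (nat_lit 0) (XT.lf (nat_lit 228) (nat_lit 628054418960) (nat_lit 0) (nat_lit 194816306762) (nat_lit 152) (nat_lit 194816306762) (nat_lit 209) (nat_lit 1) (nat_lit 206) (nat_lit 1) (nat_lit 208) (nat_lit 1) (nat_lit 222) (nat_lit 344) (nat_lit 334)) (XT.nd (nat_lit 78) (nat_lit 76) (nat_lit 0) (XT.lf (nat_lit 76) (nat_lit 196413216121) (nat_lit 0) (nat_lit 569987795203) (nat_lit 228) (nat_lit 196413216121) (nat_lit 207) (nat_lit 1) (nat_lit 206) (nat_lit 1) (nat_lit 209) (nat_lit 1) (nat_lit 223) (nat_lit 344) (nat_lit 333)) (XT.lf (nat_lit 152) (nat_lit 162371820689) (nat_lit 0) (nat_lit 374673774916) (nat_lit 76)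 (nat_lit 374673774916) (nat_lit 207) (nat_lit 1) (nat_lit 205) (nat_lit 1) (nat_lit 206) (nat_lit 1) (nat_lit 224) (nat_lit 344) (nat_lit 332))))) (XT.nd (nat_lit 234) (nat_lit 228) (nat_lit 0) (XT.nd (nat_lit 78) (nat_lit 76) (nat_lit 0) (XT.lf (nat_lit 228) (nat_lit 822021602348) (nat_lit 0) (nat_lit 21837845192) (nat_lit 152) (nat_lit 21837845192) (nat_lit 205) (nat_lit 1) (nat_lit 202) (nat_lit 1) (nat_lit 204) (nat_lit 1) (nat_lit 225) (nat_lit 344) (nat_lit 331)) (XT.nd (nat_lit 78) (nat_lit 76) (nat_lit 0) (XT.lf (nat_lit 76) (nat_lit 287689881220) (nat_lit 0) (nat_lit 244315633518) (nat_lit 228) (nat_lit 287689881220) (nat_lit 203) (nat_lit 1) (nat_lit 202) (nat_lit 1) (nat_lit 205) (nat_lit 1) (nat_lit 226) (nat_lit 344) (nat_lit 330)) (XT.lf (nat_lit 152) (nat_lit 349803341235) (nat_lit 0) (nat_lit 214220946847) (nat_lit 76) (nat_lit 214220946847) (nat_lit 203) (nat_lit 1) (nat_lit 201)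 (nat_lit 1) (nat_lit 202) (nat_lit 1) (nat_lit 227) (nat_lit 344) (nat_lit 329)))) (XT.nd (nat_lit 78) (nat_lit 228) (nat_lit 0) (XT.lf (nat_lit 0) (nat_lit 68496314764) (nat_lit 0) (nat_lit 603036295555) (nat_lit 152) (nat_lit 68496314764) (nat_lit 201) (nat_lit 3) (nat_lit 201) (nat_lit 1) (nat_lit 203) (nat_lit 1) (nat_lit 228) (nat_lit 344) (nat_lit 328)) (XT.nd (nat_lit 78) (nat_lit 76) (nat_lit 0) (XT.lf (nat_lit 76) (nat_lit 317000655856) (nat_lit 0) (nat_lit 68751962206) (nat_lit 152) (nat_lit 317000655856) (nat_lit 200) (nat_lit 1) (nat_lit 199) (nat_lit 1) (nat_lit 201) (nat_lit 1) (nat_lit 229) (nat_lit 344) (nat_lit 327)) (XT.lf (nat_lit 152) (nat_lit 423450522421) (nat_lit 0) (nat_lit 122481521633) (nat_lit 76) (nat_lit 122481521633) (nat_lit 200) (nat_lit 1) (nat_lit 198) (nat_lit 1) (nat_lit 199) (nat_lit 1) (nat_lit 230) (nat_lit 344) (nat_lit 326)))))) (XT.nd (nat_lit 390) (nat_lit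 456) (nat_lit 0) (XT.nd (nat_lit 156) (nat_lit 228) (nat_lit 0) (XT.nd (nat_lit 78) (nat_lit 76) (nat_lit 0) (XT.lf (nat_lit 0) (nat_lit 110099284484) (nat_lit 0) (nat_lit 415724253400) (nat_lit 152) (nat_lit 110099284484) (nat_lit 198) (nat_lit 3) (nat_lit 198) (nat_lit 1) (nat_lit 200) (nat_lit 1) (nat_lit 231) (nat_lit 344) (nat_lit 325)) (XT.lf (nat_lit 76) (nat_lit 24561182905) (nat_lit 0) (nat_lit 290322025441) (nat_lit 76) (nat_lit 290322025441) (nat_lit 198) (nat_lit 3) (nat_lit 197) (nat_lit 1) (nat_lit 198) (nat_lit 1) (nat_lit 232) (nat_lit 344) (nat_lit 324))) (XT.nd (nat_lit 78) (nat_lit 76) (nat_lit 0) (XT.lf (nat_lit 152) (nat_lit 436412972934) (nat_lit 0) (nat_lit 70029207519) (nat_lit 76) (nat_lit 70029207519) (nat_lit 197) (nat_lit 1) (nat_lit 195) (nat_lit 1) (nat_lit 196) (nat_lit 1) (nat_lit 233) (nat_lit 344) (nat_lit 323)) (XT.nd (nat_lit 78) (nat_lit 76) (nat_lit 0) (XT.lf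 (nat_lit 0) (nat_lit 124633357334) (nat_lit 0) (nat_lit 299375425246) (nat_lit 152) (nat_lit 124633357334) (nat_lit 195) (nat_lit 3) (nat_lit 195) (nat_lit 1) (nat_lit 197) (nat_lit 1) (nat_lit 234) (nat_lit 344) (nat_lit 322)) (XT.lf (nat_lit 76) (nat_lit 72922864039) (nat_lit 0) (nat_lit 224872488311) (nat_lit 76) (nat_lit 224872488311) (nat_lit 195) (nat_lit 3) (nat_lit 194) (nat_lit 1) (nat_lit 195) (nat_lit 1) (nat_lit 235) (nat_lit 344) (nat_lit 321))))) (XT.nd (nat_lit 234) (nat_lit 228) (nat_lit 0) (XT.nd (nat_lit 78) (nat_lit 76) (nat_lit 0) (XT.lf (nat_lit 152) (nat_lit 418480327078) (nat_lit 0) (nat_lit 40039426685) (nat_lit 76) (nat_lit 40039426685) (nat_lit 194) (nat_lit 1) (nat_lit 192) (nat_lit 1) (nat_lit 193) (nat_lit 1) (nat_lit 236) (nat_lit 344) (nat_lit 320)) (XT.nd (nat_lit 78) (nat_lit 76) (nat_lit 0) (XT.lf (nat_lit 0) (nat_lit 124897556210) (nat_lit 0) (nat_lit 224806900681)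 (nat_lit 152) (nat_lit 124897556210) (nat_lit 192) (nat_lit 3) (nat_lit 192) (nat_lit 1) (nat_lit 194) (nat_lit 1) (nat_lit 237) (nat_lit 344) (nat_lit 319)) (XT.lf (nat_lit 76) (nat_lit 92893821581) (nat_lit 0) (nat_lit 179771512425) (nat_lit 76) (nat_lit 179771512425) (nat_lit 192) (nat_lit 3) (nat_lit 191) (nat_lit 1) (nat_lit 192) (nat_lit 1) (nat_lit 238) (nat_lit 344) (nat_lit 318)))) (XT.nd (nat_lit 78) (nat_lit 76) (nat_lit 0) (XT.lf (nat_lit 152) (nat_lit 386189044689) (nat_lit 0) (nat_lit 22892672159) (nat_lit 76) (nat_lit 22892672159) (nat_lit 191) (nat_lit 1) (nat_lit 189) (nat_lit 1) (nat_lit 190) (nat_lit 1) (nat_lit 239) (nat_lit 344) (nat_lit 317)) (XT.nd (nat_lit 78) (nat_lit 76) (nat_lit 0) (XT.lf (nat_lit 0) (nat_lit 118052348039) (nat_lit 0) (nat_lit 175175840005) (nat_lit 152) (nat_lit 118052348039) (nat_lit 189) (nat_lit 3) (nat_lit 189) (nat_lit 1) (nat_lit 191) (nat_lit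 1) (nat_lit 240) (nat_lit 344) (nat_lit 316)) (XT.lf (nat_lit 76) (nat_lit 97634028671) (nat_lit 0) (nat_lit 147306630380) (nat_lit 76) (nat_lit 147306630380) (nat_lit 189) (nat_lit 3) (nat_lit 188) (nat_lit 1) (nat_lit 189) (nat_lit 1) (nat_lit 241) (nat_lit 344) (nat_lit 315))))))) (XT.nd (nat_lit 858) (nat_lit 912) (nat_lit 0) (XT.nd (nat_lit 390) (nat_lit 456) (nat_lit 0) (XT.nd (nat_lit 156) (nat_lit 228) (nat_lit 0) (XT.nd (nat_lit 78) (nat_lit 0) (nat_lit 0) (XT.lf (nat_lit 152) (nat_lit 348562717508) (nat_lit 0) (nat_lit 13088959607) (nat_lit 76) (nat_lit 13088959607) (nat_lit 188) (nat_lit 1) (nat_lit 186) (nat_lit 1) (nat_lit 187) (nat_lit 1) (nat_lit 242) (nat_lit 344) (nat_lit 314)) (XT.lf (nat_lit 0) (nat_lit 108054869584) (nat_lit 0) (nat_lit 140715411515) (nat_lit 152) (nat_lit 108054869584) (nat_lit 186) (nat_lit 3) (nat_lit 186) (nat_lit 1) (nat_lit 188) (nat_lit 1) (nat_lit 243)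 (nat_lit 344) (nat_lit 313))) (XT.nd (nat_lit 78) (nat_lit 152) (nat_lit 0) (XT.lf (nat_lit 76) (nat_lit 94537081195) (nat_lit 0) (nat_lit 122937552440) (nat_lit 76) (nat_lit 122937552440) (nat_lit 186) (nat_lit 3) (nat_lit 185) (nat_lit 1) (nat_lit 186) (nat_lit 1) (nat_lit 244) (nat_lit 344) (nat_lit 312)) (XT.nd (nat_lit 78) (nat_lit 0) (nat_lit 0) (XT.lf (nat_lit 152) (nat_lit 310385671807) (nat_lit 0) (nat_lit 7483655136) (nat_lit 76) (nat_lit 7483655136) (nat_lit 185) (nat_lit 1) (nat_lit 183) (nat_lit 1) (nat_lit 184) (nat_lit 1) (nat_lit 245) (nat_lit 344) (nat_lit 311)) (XT.lf (nat_lit 0) (nat_lit 97048597554) (nat_lit 0) (nat_lit 115722368406) (nat_lit 152) (nat_lit 97048597554) (nat_lit 183) (nat_lit 3) (nat_lit 183) (nat_lit 1) (nat_lit 185) (nat_lit 1) (nat_lit 246) (nat_lit 344) (nat_lit 310))))) (XT.nd (nat_lit 234) (nat_lit 228) (nat_lit 0) (XT.nd (nat_lit 78) (nat_lit 152) (nat_lit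 0) (XT.lf (nat_lit 76) (nat_lit 87716672935) (nat_lit 0) (nat_lit 103954734546) (nat_lit 76) (nat_lit 103954734546) (nat_lit 183) (nat_lit 3) (nat_lit 182) (nat_lit 1) (nat_lit 183) (nat_lit 1) (nat_lit 247) (nat_lit 344) (nat_lit 309)) (XT.nd (nat_lit 78) (nat_lit 0) (nat_lit 0) (XT.lf (nat_lit 152) (nat_lit 274067325483) (nat_lit 0) (nat_lit 4278804113) (nat_lit 76) (nat_lit 4278804113) (nat_lit 182) (nat_lit 1) (nat_lit 180) (nat_lit 1) (nat_lit 181) (nat_lit 1) (nat_lit 248) (nat_lit 344) (nat_lit 308)) (XT.lf (nat_lit 0) (nat_lit 86155568169) (nat_lit 0) (nat_lit 96832357261) (nat_lit 152) (nat_lit 86155568169) (nat_lit 180) (nat_lit 3) (nat_lit 180) (nat_lit 1) (nat_lit 182) (nat_lit 1) (nat_lit 249) (nat_lit 344) (nat_lit 307)))) (XT.nd (nat_lit 78) (nat_lit 152) (nat_lit 0) (XT.lf (nat_lit 76) (nat_lit 79426022820) (nat_lit 0) (nat_lit 88710187247) (nat_lit 76) (nat_lit 88710187247) (nat_lit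 180) (nat_lit 3) (nat_lit 179) (nat_lit 1) (nat_lit 180) (nat_lit 1) (nat_lit 250) (nat_lit 344) (nat_lit 306)) (XT.nd (nat_lit 78) (nat_lit 0) (nat_lit 0) (XT.lf (nat_lit 152) (nat_lit 240701761327) (nat_lit 0) (nat_lit 2446420139) (nat_lit 76) (nat_lit 2446420139) (nat_lit 179) (nat_lit 1) (nat_lit 177) (nat_lit 1) (nat_lit 178) (nat_lit 1) (nat_lit 251) (nat_lit 344) (nat_lit 305)) (XT.lf (nat_lit 0) (nat_lit 75927306194) (nat_lit 0) (nat_lit 82031795009) (nat_lit 152) (nat_lit 75927306194) (nat_lit 177) (nat_lit 3) (nat_lit 177) (nat_lit 1) (nat_lit 179) (nat_lit 1) (nat_lit 252) (nat_lit 344) (nat_lit 304)))))) (XT.nd (nat_lit 390) (nat_lit 456) (nat_lit 0) (XT.nd (nat_lit 156) (nat_lit 228) (nat_lit 0) (XT.nd (nat_lit 78) (nat_lit 152) (nat_lit 0) (XT.lf (nat_lit 76) (nat_lit 70867504050) (nat_lit 0) (nat_lit 76175755194) (nat_lit 76) (nat_lit 76175755194) (nat_lit 177) (nat_lit 3) (nat_lit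 176) (nat_lit 1) (nat_lit 177) (nat_lit 1) (nat_lit 253) (nat_lit 344) (nat_lit 303)) (XT.lf (nat_lit 152) (nat_lit 210667994538) (nat_lit 0) (nat_lit 1398748654) (nat_lit 76) (nat_lit 1398748654) (nat_lit 176) (nat_lit 1) (nat_lit 174) (nat_lit 1) (nat_lit 175) (nat_lit 1) (nat_lit 254) (nat_lit 344) (nat_lit 302))) (XT.nd (nat_lit 78) (nat_lit 228) (nat_lit 0) (XT.lf (nat_lit 0) (nat_lit 66600884151) (nat_lit 0) (nat_lit 70091145444) (nat_lit 152) (nat_lit 66600884151) (nat_lit 174) (nat_lit 3) (nat_lit 174) (nat_lit 1) (nat_lit 176) (nat_lit 1) (nat_lit 255) (nat_lit 344) (nat_lit 301)) (XT.nd (nat_lit 78) (nat_lit 152) (nat_lit 0) (XT.lf (nat_lit 76) (nat_lit 62653871290) (nat_lit 0) (nat_lit 65688881110) (nat_lit 76) (nat_lit 65688881110) (nat_lit 174) (nat_lit 3) (nat_lit 173) (nat_lit 1) (nat_lit 174) (nat_lit 1) (nat_lit 256) (nat_lit 344) (nat_lit 300)) (XT.lf (nat_lit 152) (nat_lit 183968354211)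 (nat_lit 0) (nat_lit 799739083) (nat_lit 76) (nat_lit 799739083) (nat_lit 173) (nat_lit 1) (nat_lit 171) (nat_lit 1) (nat_lit 172) (nat_lit 1) (nat_lit 257) (nat_lit 344) (nat_lit 299))))) (XT.nd (nat_lit 234) (nat_lit 228) (nat_lit 0) (XT.nd (nat_lit 78) (nat_lit 228) (nat_lit 0) (XT.lf (nat_lit 0) (nat_lit 58243793765) (nat_lit 0) (nat_lit 60239361987) (nat_lit 152) (nat_lit 58243793765) (nat_lit 171) (nat_lit 3) (nat_lit 171) (nat_lit 1) (nat_lit 173) (nat_lit 1) (nat_lit 258) (nat_lit 344) (nat_lit 298)) (XT.nd (nat_lit 78) (nat_lit 152) (nat_lit 0) (XT.lf (nat_lit 76) (nat_lit 55070507165) (nat_lit 0) (nat_lit 56805783880) (nat_lit 76) (nat_lit 56805783880) (nat_lit 171) (nat_lit 3) (nat_lit 170) (nat_lit 1) (nat_lit 171) (nat_lit 1) (nat_lit 259) (nat_lit 344) (nat_lit 297)) (XT.lf (nat_lit 152) (nat_lit 160417759772) (nat_lit 0) (nat_lit 457253416) (nat_lit 76) (nat_lit 457253416) (nat_lit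 170) (nat_lit 1) (nat_lit 168) (nat_lit 1) (nat_lit 169) (nat_lit 1) (nat_lit 260) (nat_lit 344) (nat_lit 296)))) (XT.nd (nat_lit 78) (nat_lit 228) (nat_lit 0) (XT.lf (nat_lit 0) (nat_lit 50835445157) (nat_lit 0) (nat_lit 51976417765) (nat_lit 152) (nat_lit 50835445157) (nat_lit 168) (nat_lit 3) (nat_lit 168) (nat_lit 1) (nat_lit 170) (nat_lit 1) (nat_lit 261) (nat_lit 344) (nat_lit 295)) (XT.nd (nat_lit 78) (nat_lit 152) (nat_lit 0) (XT.lf (nat_lit 76) (nat_lit 48224091561) (nat_lit 0) (nat_lit 49216241655) (nat_lit 76) (nat_lit 49216241655) (nat_lit 168) (nat_lit 3) (nat_lit 167) (nat_lit 1) (nat_lit 168) (nat_lit 1) (nat_lit 262) (nat_lit 344) (nat_lit 294)) (XT.lf (nat_lit 152) (nat_lit 139748293206) (nat_lit 0) (nat_lit 261436124) (nat_lit 76) (nat_lit 261436124) (nat_lit 167) (nat_lit 1) (nat_lit 165) (nat_lit 1) (nat_lit 166) (nat_lit 1) (nat_lit 263) (nat_lit 344) (nat_lit 293))))))))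
noncomputable def ec137 : XT := (XT.nd (nat_lit 1716) (nat_lit 1824) (nat_lit 0) (XT.nd (nat_lit 858) (nat_lit 836) (nat_lit 0) (XT.nd (nat_lit 390) (nat_lit 456) (nat_lit 0) (XT.nd (nat_lit 156) (nat_lit 228) (nat_lit 0) (XT.nd (nat_lit 78) (nat_lit 76) (nat_lit 0) (XT.lf (nat_lit 0) (nat_lit 44312606444) (nat_lit 0) (nat_lit 44964961236) (nat_lit 152) (nat_lit 44312606444) (nat_lit 165) (nat_lit 3) (nat_lit 165) (nat_lit 1) (nat_lit 167) (nat_lit 1) (nat_lit 264) (nat_lit 344) (nat_lit 292)) (XT.lf (nat_lit 76) (nat_lit 42126498564) (nat_lit 0) (nat_lit 42693763601) (nat_lit 76) (nat_lit 42693763601) (nat_lit 165) (nat_lit 3) (nat_lit 164) (nat_lit 1) (nat_lit 165) (nat_lit 1) (nat_lit 265) (nat_lit 344) (nat_lit 291))) (XT.nd (nat_lit 78) (nat_lit 76) (nat_lit 0) (XT.lf (nat_lit 152) (nat_lit 121665817080) (nat_lit 0) (nat_lit 149476952) (nat_lit 76) (nat_lit 149476952) (nat_lit 164) (nat_lit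 1) (nat_lit 162) (nat_lit 1) (nat_lit 163) (nat_lit 1) (nat_lit 266) (nat_lit 344) (nat_lit 290)) (XT.nd (nat_lit 78) (nat_lit 76) (nat_lit 0) (XT.lf (nat_lit 0) (nat_lit 38594377150) (nat_lit 0) (nat_lit 38967363119) (nat_lit 152) (nat_lit 38594377150) (nat_lit 162) (nat_lit 3) (nat_lit 162) (nat_lit 1) (nat_lit 164) (nat_lit 1) (nat_lit 267) (nat_lit 344) (nat_lit 289)) (XT.lf (nat_lit 76) (nat_lit 36741803756) (nat_lit 0) (nat_lit 37066139382) (nat_lit 76) (nat_lit 37066139382) (nat_lit 162) (nat_lit 3) (nat_lit 161) (nat_lit 1) (nat_lit 162) (nat_lit 1) (nat_lit 268) (nat_lit 344) (nat_lit 288))))) (XT.nd (nat_lit 234) (nat_lit 228) (nat_lit 0) (XT.nd (nat_lit 78) (nat_lit 76) (nat_lit 0) (XT.lf (nat_lit 152) (nat_lit 105879588292) (nat_lit 0) (nat_lit 85463932) (nat_lit 76) (nat_lit 85463932) (nat_lit 161) (nat_lit 1) (nat_lit 159) (nat_lit 1) (nat_lit 160) (nat_lit 1) (nat_lit 269) (nat_lit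 344) (nat_lit 287)) (XT.nd (nat_lit 78) (nat_lit 76) (nat_lit 0) (XT.lf (nat_lit 0) (nat_lit 33595591349) (nat_lit 0) (nat_lit 33808847288) (nat_lit 152) (nat_lit 33595591349) (nat_lit 159) (nat_lit 3) (nat_lit 159) (nat_lit 1) (nat_lit 161) (nat_lit 1) (nat_lit 270) (nat_lit 344) (nat_lit 286)) (XT.lf (nat_lit 76) (nat_lit 32012325092) (nat_lit 0) (nat_lit 32197765038) (nat_lit 76) (nat_lit 32197765038) (nat_lit 159) (nat_lit 3) (nat_lit 158) (nat_lit 1) (nat_lit 159) (nat_lit 1) (nat_lit 271) (nat_lit 344) (nat_lit 285)))) (XT.nd (nat_lit 78) (nat_lit 76) (nat_lit 0) (XT.lf (nat_lit 152) (nat_lit 92116791726) (nat_lit 0) (nat_lit 48864281) (nat_lit 76) (nat_lit 48864281) (nat_lit 158) (nat_lit 1) (nat_lit 156) (nat_lit 1) (nat_lit 157) (nat_lit 1) (nat_lit 272) (nat_lit 344) (nat_lit 284)) (XT.nd (nat_lit 78) (nat_lit 76) (nat_lit 0) (XT.lf (nat_lit 0) (nat_lit 29233719654) (nat_lit 0) (nat_lit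 29355649429) (nat_lit 152) (nat_lit 29233719654) (nat_lit 156) (nat_lit 3) (nat_lit 156) (nat_lit 1) (nat_lit 158) (nat_lit 1) (nat_lit 273) (nat_lit 344) (nat_lit 283)) (XT.lf (nat_lit 76) (nat_lit 27872785157) (nat_lit 0) (nat_lit 27978811048) (nat_lit 76) (nat_lit 27978811048) (nat_lit 156) (nat_lit 3) (nat_lit 155) (nat_lit 1) (nat_lit 156) (nat_lit 1) (nat_lit 274) (nat_lit 344) (nat_lit 282)))))) (XT.nd (nat_lit 390) (nat_lit 456) (nat_lit 0) (XT.nd (nat_lit 156) (nat_lit 228) (nat_lit 0) (XT.nd (nat_lit 78) (nat_lit 0) (nat_lit 0) (XT.lf (nat_lit 152) (nat_lit 80128764623) (nat_lit 0) (nat_lit 27938311) (nat_lit 76) (nat_lit 27938311) (nat_lit 155) (nat_lit 1) (nat_lit 153) (nat_lit 1) (nat_lit 154) (nat_lit 1) (nat_lit 275) (nat_lit 344) (nat_lit 281)) (XT.lf (nat_lit 0) (nat_lit 25432153452) (nat_lit 0) (nat_lit 25501867196) (nat_lit 152) (nat_lit 25432153452) (nat_lit 153) (nat_lit 3)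 (nat_lit 153) (nat_lit 1) (nat_lit 155) (nat_lit 1) (nat_lit 276) (nat_lit 344) (nat_lit 280))) (XT.nd (nat_lit 78) (nat_lit 152) (nat_lit 0) (XT.lf (nat_lit 76) (nat_lit 24257776583) (nat_lit 0) (nat_lit 24318397231) (nat_lit 76) (nat_lit 24318397231) (nat_lit 153) (nat_lit 3) (nat_lit 152) (nat_lit 1) (nat_lit 153) (nat_lit 1) (nat_lit 277) (nat_lit 344) (nat_lit 279)) (XT.nd (nat_lit 78) (nat_lit 0) (nat_lit 0) (XT.lf (nat_lit 152) (nat_lit 69692742091) (nat_lit 0) (nat_lit 15973820) (nat_lit 76) (nat_lit 15973820) (nat_lit 152) (nat_lit 1) (nat_lit 150) (nat_lit 1) (nat_lit 151) (nat_lit 1) (nat_lit 278) (nat_lit 344) (nat_lit 278)) (XT.lf (nat_lit 0) (nat_lit 22121507025) (nat_lit 0) (nat_lit 22161366085) (nat_lit 152) (nat_lit 22121507025) (nat_lit 150) (nat_lit 3) (nat_lit 150) (nat_lit 1) (nat_lit 152) (nat_lit 1) (nat_lit 279) (nat_lit 344) (nat_lit 277))))) (XT.nd (nat_lit 234) (nat_lit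 228) (nat_lit 0) (XT.nd (nat_lit 78) (nat_lit 152) (nat_lit 0) (XT.lf (nat_lit 76) (nat_lit 21105480932) (nat_lit 0) (nat_lit 21140140984) (nat_lit 76) (nat_lit 21140140984) (nat_lit 150) (nat_lit 3) (nat_lit 149) (nat_lit 1) (nat_lit 150) (nat_lit 1) (nat_lit 280) (nat_lit 344) (nat_lit 276)) (XT.nd (nat_lit 78) (nat_lit 0) (nat_lit 0) (XT.lf (nat_lit 152) (nat_lit 60611278313) (nat_lit 0) (nat_lit 9133083) (nat_lit 76) (nat_lit 9133083) (nat_lit 149) (nat_lit 1) (nat_lit 147) (nat_lit 1) (nat_lit 148) (nat_lit 1) (nat_lit 281) (nat_lit 344) (nat_lit 275)) (XT.lf (nat_lit 0) (nat_lit 19239861480) (nat_lit 0) (nat_lit 19262651026) (nat_lit 152) (nat_lit 19239861480) (nat_lit 147) (nat_lit 3) (nat_lit 147) (nat_lit 1) (nat_lit 149) (nat_lit 1) (nat_lit 282) (nat_lit 344) (nat_lit 274)))) (XT.nd (nat_lit 78) (nat_lit 152) (nat_lit 0) (XT.lf (nat_lit 76) (nat_lit 18359317171) (nat_lit 0) (nat_lit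 18379134168) (nat_lit 76) (nat_lit 18379134168) (nat_lit 147) (nat_lit 3) (nat_lit 146) (nat_lit 1) (nat_lit 147) (nat_lit 1) (nat_lit 283) (nat_lit 344) (nat_lit 273)) (XT.nd (nat_lit 78) (nat_lit 0) (nat_lit 0) (XT.lf (nat_lit 152) (nat_lit 52710544511) (nat_lit 0) (nat_lit 5221870) (nat_lit 76) (nat_lit 5221870) (nat_lit 146) (nat_lit 1) (nat_lit 144) (nat_lit 1) (nat_lit 145) (nat_lit 1) (nat_lit 284) (nat_lit 344) (nat_lit 272)) (XT.lf (nat_lit 0) (nat_lit 16732468933) (nat_lit 0) (nat_lit 16745498930) (nat_lit 152) (nat_lit 16732468933) (nat_lit 144) (nat_lit 3) (nat_lit 144) (nat_lit 1) (nat_lit 146) (nat_lit 1) (nat_lit 285) (nat_lit 344) (nat_lit 271))))))) (XT.nd (nat_lit 858) (nat_lit 912) (nat_lit 0) (XT.nd (nat_lit 390) (nat_lit 456) (nat_lit 0) (XT.nd (nat_lit 156) (nat_lit 228) (nat_lit 0) (XT.nd (nat_lit 78) (nat_lit 152) (nat_lit 0) (XT.lf (nat_lit 76) (nat_lit 15968468699) (nat_lit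 0) (nat_lit 15979799131) (nat_lit 76) (nat_lit 15979799131) (nat_lit 144) (nat_lit 3) (nat_lit 143) (nat_lit 1) (nat_lit 144) (nat_lit 1) (nat_lit 286) (nat_lit 344) (nat_lit 270)) (XT.lf (nat_lit 152) (nat_lit 45838163523) (nat_lit 0) (nat_lit 2985621) (nat_lit 76) (nat_lit 2985621) (nat_lit 143) (nat_lit 1) (nat_lit 141) (nat_lit 1) (nat_lit 142) (nat_lit 1) (nat_lit 287) (nat_lit 344) (nat_lit 269))) (XT.nd (nat_lit 78) (nat_lit 228) (nat_lit 0) (XT.lf (nat_lit 0) (nat_lit 14551204887) (nat_lit 0) (nat_lit 14558654830) (nat_lit 152) (nat_lit 14551204887) (nat_lit 141) (nat_lit 3) (nat_lit 141) (nat_lit 1) (nat_lit 143) (nat_lit 1) (nat_lit 288) (nat_lit 344) (nat_lit 268)) (XT.nd (nat_lit 78) (nat_lit 152) (nat_lit 0) (XT.lf (nat_lit 76) (nat_lit 13887823388) (nat_lit 0) (nat_lit 13894301600) (nat_lit 76) (nat_lit 13894301600) (nat_lit 141) (nat_lit 3) (nat_lit 140) (nat_lit 1) (nat_lit 141)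 (nat_lit 1) (nat_lit 289) (nat_lit 344) (nat_lit 267)) (XT.lf (nat_lit 152) (nat_lit 39860934960) (nat_lit 0) (nat_lit 1707038) (nat_lit 76) (nat_lit 1707038) (nat_lit 140) (nat_lit 1) (nat_lit 138) (nat_lit 1) (nat_lit 139) (nat_lit 1) (nat_lit 290) (nat_lit 344) (nat_lit 266))))) (XT.nd (nat_lit 234) (nat_lit 228) (nat_lit 0) (XT.nd (nat_lit 78) (nat_lit 228) (nat_lit 0) (XT.lf (nat_lit 0) (nat_lit 12653925984) (nat_lit 0) (nat_lit 12658185513) (nat_lit 152) (nat_lit 12653925984) (nat_lit 138) (nat_lit 3) (nat_lit 138) (nat_lit 1) (nat_lit 140) (nat_lit 1) (nat_lit 291) (nat_lit 344) (nat_lit 265)) (XT.nd (nat_lit 78) (nat_lit 152) (nat_lit 0) (XT.lf (nat_lit 76) (nat_lit 12077625125) (nat_lit 0) (nat_lit 12081329063) (nat_lit 76) (nat_lit 12081329063) (nat_lit 138) (nat_lit 3) (nat_lit 137) (nat_lit 1) (nat_lit 138) (nat_lit 1) (nat_lit 292) (nat_lit 344) (nat_lit 264)) (XT.lf (nat_lit 152)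 (nat_lit 34662633017) (nat_lit 0) (nat_lit 976004) (nat_lit 76) (nat_lit 976004) (nat_lit 137) (nat_lit 1) (nat_lit 135) (nat_lit 1) (nat_lit 136) (nat_lit 1) (nat_lit 293) (nat_lit 344) (nat_lit 263)))) (XT.nd (nat_lit 78) (nat_lit 228) (nat_lit 0) (XT.lf (nat_lit 0) (nat_lit 11003816610) (nat_lit 0) (nat_lit 11006252009) (nat_lit 152) (nat_lit 11003816610) (nat_lit 135) (nat_lit 3) (nat_lit 135) (nat_lit 1) (nat_lit 137) (nat_lit 1) (nat_lit 294) (nat_lit 344) (nat_lit 262)) (XT.nd (nat_lit 78) (nat_lit 152) (nat_lit 0) (XT.lf (nat_lit 76) (nat_lit 10503001388) (nat_lit 0) (nat_lit 10505119127) (nat_lit 76) (nat_lit 10505119127) (nat_lit 135) (nat_lit 3) (nat_lit 134) (nat_lit 1) (nat_lit 135) (nat_lit 1) (nat_lit 295) (nat_lit 344) (nat_lit 261)) (XT.lf (nat_lit 152) (nat_lit 30141963433) (nat_lit 0) (nat_lit 558033) (nat_lit 76) (nat_lit 558033) (nat_lit 134) (nat_lit 1) (nat_lit 132) (nat_lit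 1) (nat_lit 133) (nat_lit 1) (nat_lit 296) (nat_lit 344) (nat_lit 260)))))) (XT.nd (nat_lit 468) (nat_lit 456) (nat_lit 0) (XT.nd (nat_lit 234) (nat_lit 228) (nat_lit 0) (XT.nd (nat_lit 78) (nat_lit 228) (nat_lit 0) (XT.lf (nat_lit 0) (nat_lit 9568766434) (nat_lit 0) (nat_lit 9570158881) (nat_lit 152) (nat_lit 9568766434) (nat_lit 132) (nat_lit 3) (nat_lit 132) (nat_lit 1) (nat_lit 134) (nat_lit 1) (nat_lit 297) (nat_lit 344) (nat_lit 259)) (XT.nd (nat_lit 78) (nat_lit 152) (nat_lit 0) (XT.lf (nat_lit 76) (nat_lit 9133455588) (nat_lit 0) (nat_lit 9134666412) (nat_lit 76) (nat_lit 9134666412) (nat_lit 132) (nat_lit 3) (nat_lit 131) (nat_lit 1) (nat_lit 132) (nat_lit 1) (nat_lit 298) (nat_lit 344) (nat_lit 258)) (XT.lf (nat_lit 152) (nat_lit 26210713687) (nat_lit 0) (nat_lit 319057) (nat_lit 76) (nat_lit 319057) (nat_lit 131) (nat_lit 1) (nat_lit 129) (nat_lit 1) (nat_lit 130) (nat_lit 1) (nat_lit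 299) (nat_lit 344) (nat_lit 257)))) (XT.nd (nat_lit 78) (nat_lit 228) (nat_lit 0) (XT.lf (nat_lit 0) (nat_lit 8320798111) (nat_lit 0) (nat_lit 8321594247) (nat_lit 152) (nat_lit 8320798111) (nat_lit 129) (nat_lit 3) (nat_lit 129) (nat_lit 1) (nat_lit 131) (nat_lit 1) (nat_lit 300) (nat_lit 344) (nat_lit 256)) (XT.nd (nat_lit 78) (nat_lit 152) (nat_lit 0) (XT.lf (nat_lit 76) (nat_lit 7942370229) (nat_lit 0) (nat_lit 7943062522) (nat_lit 76) (nat_lit 7943062522) (nat_lit 129) (nat_lit 3) (nat_lit 128) (nat_lit 1) (nat_lit 129) (nat_lit 1) (nat_lit 301) (nat_lit 344) (nat_lit 255)) (XT.lf (nat_lit 152) (nat_lit 22792102590) (nat_lit 0) (nat_lit 182422) (nat_lit 76) (nat_lit 182422) (nat_lit 128) (nat_lit 1) (nat_lit 126) (nat_lit 1) (nat_lit 127) (nat_lit 1) (nat_lit 302) (nat_lit 344) (nat_lit 254))))) (XT.nd (nat_lit 234) (nat_lit 228) (nat_lit 0) (XT.nd (nat_lit 78) (nat_lit 228) (nat_lit 0) (XT.lf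 (nat_lit 0) (nat_lit 7235551887) (nat_lit 0) (nat_lit 7236007081) (nat_lit 152) (nat_lit 7235551887) (nat_lit 126) (nat_lit 3) (nat_lit 126) (nat_lit 1) (nat_lit 128) (nat_lit 1) (nat_lit 303) (nat_lit 344) (nat_lit 253)) (XT.nd (nat_lit 78) (nat_lit 152) (nat_lit 0) (XT.lf (nat_lit 76) (nat_lit 6906543220) (nat_lit 0) (nat_lit 6906939040) (nat_lit 76) (nat_lit 6906939040) (nat_lit 126) (nat_lit 3) (nat_lit 125) (nat_lit 1) (nat_lit 126) (nat_lit 1) (nat_lit 304) (nat_lit 344) (nat_lit 252)) (XT.lf (nat_lit 152) (nat_lit 19819321212) (nat_lit 0) (nat_lit 104300) (nat_lit 76) (nat_lit 104300) (nat_lit 125) (nat_lit 1) (nat_lit 123) (nat_lit 1) (nat_lit 124) (nat_lit 1) (nat_lit 305) (nat_lit 344) (nat_lit 251)))) (XT.nd (nat_lit 78) (nat_lit 228) (nat_lit 0) (XT.lf (nat_lit 0) (nat_lit 6291827285) (nat_lit 0) (nat_lit 6292087544) (nat_lit 152) (nat_lit 6291827285) (nat_lit 123) (nat_lit 3) (nat_lit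 123) (nat_lit 1) (nat_lit 125) (nat_lit 1) (nat_lit 306) (nat_lit 344) (nat_lit 250)) (XT.nd (nat_lit 78) (nat_lit 152) (nat_lit 0) (XT.lf (nat_lit 76) (nat_lit 6005766557) (nat_lit 0) (nat_lit 6005992869) (nat_lit 76) (nat_lit 6005992869) (nat_lit 123) (nat_lit 3) (nat_lit 122) (nat_lit 1) (nat_lit 123) (nat_lit 1) (nat_lit 307) (nat_lit 344) (nat_lit 249)) (XT.lf (nat_lit 152) (nat_lit 17234250431) (nat_lit 0) (nat_lit 59634) (nat_lit 76) (nat_lit 59634) (nat_lit 122) (nat_lit 1) (nat_lit 120) (nat_lit 1) (nat_lit 121) (nat_lit 1) (nat_lit 308) (nat_lit 344) (nat_lit 248))))))))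
noncomputable def ec138 : XT := (XT.nd (nat_lit 1716) (nat_lit 1672) (nat_lit 0) (XT.nd (nat_lit 858) (nat_lit 836) (nat_lit 0) (XT.nd (nat_lit 390) (nat_lit 456) (nat_lit 0) (XT.nd (nat_lit 156) (nat_lit 228) (nat_lit 0) (XT.nd (nat_lit 78) (nat_lit 76) (nat_lit 0) (XT.lf (nat_lit 0) (nat_lit 5471178767) (nat_lit 0) (nat_lit 5471327571) (nat_lit 152) (nat_lit 5471178767) (nat_lit 120) (nat_lit 3) (nat_lit 120) (nat_lit 1) (nat_lit 122) (nat_lit 1) (nat_lit 309) (nat_lit 344) (nat_lit 247)) (XT.lf (nat_lit 76) (nat_lit 5222449613) (nat_lit 0) (nat_lit 5222579007) (nat_lit 76) (nat_lit 5222579007) (nat_lit 120) (nat_lit 3) (nat_lit 119) (nat_lit 1) (nat_lit 120) (nat_lit 1) (nat_lit 310) (nat_lit 344) (nat_lit 246))) (XT.nd (nat_lit 78) (nat_lit 76) (nat_lit 0) (XT.lf (nat_lit 152) (nat_lit 14986337925) (nat_lit 0) (nat_lit 34096) (nat_lit 76) (nat_lit 34096) (nat_lit 119) (nat_lit 1) (nat_lit 117)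 (nat_lit 1) (nat_lit 118) (nat_lit 1) (nat_lit 311) (nat_lit 344) (nat_lit 245)) (XT.nd (nat_lit 78) (nat_lit 76) (nat_lit 0) (XT.lf (nat_lit 0) (nat_lit 4757560822) (nat_lit 0) (nat_lit 4757645901) (nat_lit 152) (nat_lit 4757560822) (nat_lit 117) (nat_lit 3) (nat_lit 117) (nat_lit 1) (nat_lit 119) (nat_lit 1) (nat_lit 312) (nat_lit 344) (nat_lit 244)) (XT.lf (nat_lit 76) (nat_lit 4541285639) (nat_lit 0) (nat_lit 4541359621) (nat_lit 76) (nat_lit 4541359621) (nat_lit 117) (nat_lit 3) (nat_lit 116) (nat_lit 1) (nat_lit 117) (nat_lit 1) (nat_lit 313) (nat_lit 344) (nat_lit 243))))) (XT.nd (nat_lit 234) (nat_lit 228) (nat_lit 0) (XT.nd (nat_lit 78) (nat_lit 76) (nat_lit 0) (XT.lf (nat_lit 152) (nat_lit 13031617180) (nat_lit 0) (nat_lit 19494) (nat_lit 76) (nat_lit 19494) (nat_lit 116) (nat_lit 1) (nat_lit 114) (nat_lit 1) (nat_lit 115) (nat_lit 1) (nat_lit 314) (nat_lit 344) (nat_lit 242)) (XT.nd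 (nat_lit 78) (nat_lit 76) (nat_lit 0) (XT.lf (nat_lit 0) (nat_lit 4137017454) (nat_lit 0) (nat_lit 4137066098) (nat_lit 152) (nat_lit 4137017454) (nat_lit 114) (nat_lit 3) (nat_lit 114) (nat_lit 1) (nat_lit 116) (nat_lit 1) (nat_lit 315) (nat_lit 344) (nat_lit 241)) (XT.lf (nat_lit 76) (nat_lit 3948958388) (nat_lit 0) (nat_lit 3949000688) (nat_lit 76) (nat_lit 3949000688) (nat_lit 114) (nat_lit 3) (nat_lit 113) (nat_lit 1) (nat_lit 114) (nat_lit 1) (nat_lit 316) (nat_lit 344) (nat_lit 240)))) (XT.nd (nat_lit 78) (nat_lit 76) (nat_lit 0) (XT.lf (nat_lit 152) (nat_lit 11331851880) (nat_lit 0) (nat_lit 11146) (nat_lit 76) (nat_lit 11146) (nat_lit 113) (nat_lit 1) (nat_lit 111) (nat_lit 1) (nat_lit 112) (nat_lit 1) (nat_lit 317) (nat_lit 344) (nat_lit 239)) (XT.nd (nat_lit 78) (nat_lit 76) (nat_lit 0) (XT.lf (nat_lit 0) (nat_lit 3597411081) (nat_lit 0) (nat_lit 3597438893) (nat_lit 152) (nat_lit 3597411081)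 (nat_lit 111) (nat_lit 3) (nat_lit 111) (nat_lit 1) (nat_lit 113) (nat_lit 1) (nat_lit 318) (nat_lit 344) (nat_lit 238)) (XT.lf (nat_lit 76) (nat_lit 3433885067) (nat_lit 0) (nat_lit 3433909251) (nat_lit 76) (nat_lit 3433909251) (nat_lit 111) (nat_lit 3) (nat_lit 110) (nat_lit 1) (nat_lit 111) (nat_lit 1) (nat_lit 319) (nat_lit 344) (nat_lit 237)))))) (XT.nd (nat_lit 390) (nat_lit 456) (nat_lit 0) (XT.nd (nat_lit 156) (nat_lit 228) (nat_lit 0) (XT.nd (nat_lit 78) (nat_lit 0) (nat_lit 0) (XT.lf (nat_lit 152) (nat_lit 9853790449) (nat_lit 0) (nat_lit 6372) (nat_lit 76) (nat_lit 6372) (nat_lit 110) (nat_lit 1) (nat_lit 108) (nat_lit 1) (nat_lit 109) (nat_lit 1) (nat_lit 320) (nat_lit 344) (nat_lit 236)) (XT.lf (nat_lit 0) (nat_lit 3128186178) (nat_lit 0) (nat_lit 3128202080) (nat_lit 152) (nat_lit 3128186178) (nat_lit 108) (nat_lit 3) (nat_lit 108) (nat_lit 1) (nat_lit 110) (nat_lit 1) (nat_lit 321)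 (nat_lit 344) (nat_lit 235))) (XT.nd (nat_lit 78) (nat_lit 152) (nat_lit 0) (XT.lf (nat_lit 76) (nat_lit 2985991707) (nat_lit 0) (nat_lit 2986005535) (nat_lit 76) (nat_lit 2986005535) (nat_lit 108) (nat_lit 3) (nat_lit 107) (nat_lit 1) (nat_lit 108) (nat_lit 1) (nat_lit 322) (nat_lit 344) (nat_lit 234)) (XT.nd (nat_lit 78) (nat_lit 0) (nat_lit 0) (XT.lf (nat_lit 152) (nat_lit 8568516982) (nat_lit 0) (nat_lit 3643) (nat_lit 76) (nat_lit 3643) (nat_lit 107) (nat_lit 1) (nat_lit 105) (nat_lit 1) (nat_lit 106) (nat_lit 1) (nat_lit 323) (nat_lit 344) (nat_lit 233)) (XT.lf (nat_lit 0) (nat_lit 2720163397) (nat_lit 0) (nat_lit 2720172489) (nat_lit 152) (nat_lit 2720163397) (nat_lit 105) (nat_lit 3) (nat_lit 105) (nat_lit 1) (nat_lit 107) (nat_lit 1) (nat_lit 324) (nat_lit 344) (nat_lit 232))))) (XT.nd (nat_lit 234) (nat_lit 228) (nat_lit 0) (XT.nd (nat_lit 78) (nat_lit 152) (nat_lit 0) (XT.lf (nat_lit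 76) (nat_lit 2596517211) (nat_lit 0) (nat_lit 2596525117) (nat_lit 76) (nat_lit 2596525117) (nat_lit 105) (nat_lit 3) (nat_lit 104) (nat_lit 1) (nat_lit 105) (nat_lit 1) (nat_lit 325) (nat_lit 344) (nat_lit 231)) (XT.nd (nat_lit 78) (nat_lit 0) (nat_lit 0) (XT.lf (nat_lit 152) (nat_lit 7450886361) (nat_lit 0) (nat_lit 2083) (nat_lit 76) (nat_lit 2083) (nat_lit 104) (nat_lit 1) (nat_lit 102) (nat_lit 1) (nat_lit 103) (nat_lit 1) (nat_lit 326) (nat_lit 344) (nat_lit 230)) (XT.lf (nat_lit 0) (nat_lit 2365360335) (nat_lit 0) (nat_lit 2365365534) (nat_lit 152) (nat_lit 2365360335) (nat_lit 102) (nat_lit 3) (nat_lit 102) (nat_lit 1) (nat_lit 104) (nat_lit 1) (nat_lit 327) (nat_lit 344) (nat_lit 229)))) (XT.nd (nat_lit 78) (nat_lit 152) (nat_lit 0) (XT.lf (nat_lit 76) (nat_lit 2257842587) (nat_lit 0) (nat_lit 2257847107) (nat_lit 76) (nat_lit 2257847107) (nat_lit 102) (nat_lit 3) (nat_lit 101) (nat_lit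 1) (nat_lit 102) (nat_lit 1) (nat_lit 328) (nat_lit 344) (nat_lit 228)) (XT.nd (nat_lit 78) (nat_lit 0) (nat_lit 0) (XT.lf (nat_lit 152) (nat_lit 6479032778) (nat_lit 0) (nat_lit 1191) (nat_lit 76) (nat_lit 1191) (nat_lit 101) (nat_lit 1) (nat_lit 99) (nat_lit 1) (nat_lit 100) (nat_lit 1) (nat_lit 329) (nat_lit 344) (nat_lit 227)) (XT.lf (nat_lit 0) (nat_lit 2056835566) (nat_lit 0) (nat_lit 2056838538) (nat_lit 152) (nat_lit 2056835566) (nat_lit 99) (nat_lit 3) (nat_lit 99) (nat_lit 1) (nat_lit 101) (nat_lit 1) (nat_lit 330) (nat_lit 344) (nat_lit 226))))))) (XT.nd (nat_lit 858) (nat_lit 760) (nat_lit 0) (XT.nd (nat_lit 390) (nat_lit 456) (nat_lit 0) (XT.nd (nat_lit 156) (nat_lit 228) (nat_lit 0) (XT.nd (nat_lit 78) (nat_lit 152) (nat_lit 0) (XT.lf (nat_lit 76) (nat_lit 1963342257) (nat_lit 0) (nat_lit 1963344841) (nat_lit 76) (nat_lit 1963344841) (nat_lit 99) (nat_lit 3) (nat_lit 98) (nat_lit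 1) (nat_lit 99) (nat_lit 1) (nat_lit 331) (nat_lit 344) (nat_lit 225)) (XT.lf (nat_lit 152) (nat_lit 5633942209) (nat_lit 0) (nat_lit 681) (nat_lit 76) (nat_lit 681) (nat_lit 98) (nat_lit 1) (nat_lit 96) (nat_lit 1) (nat_lit 97) (nat_lit 1) (nat_lit 332) (nat_lit 344) (nat_lit 224))) (XT.nd (nat_lit 78) (nat_lit 228) (nat_lit 0) (XT.lf (nat_lit 0) (nat_lit 1788552947) (nat_lit 0) (nat_lit 1788554646) (nat_lit 152) (nat_lit 1788552947) (nat_lit 96) (nat_lit 3) (nat_lit 96) (nat_lit 1) (nat_lit 98) (nat_lit 1) (nat_lit 333) (nat_lit 344) (nat_lit 223)) (XT.nd (nat_lit 78) (nat_lit 152) (nat_lit 0) (XT.lf (nat_lit 76) (nat_lit 1707254638) (nat_lit 0) (nat_lit 1707256115) (nat_lit 76) (nat_lit 1707256115) (nat_lit 96) (nat_lit 3) (nat_lit 95) (nat_lit 1) (nat_lit 96) (nat_lit 1) (nat_lit 334) (nat_lit 344) (nat_lit 222)) (XT.lf (nat_lit 152) (nat_lit 4899080561) (nat_lit 0) (nat_lit 389) (nat_lit 76)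 (nat_lit 389) (nat_lit 95) (nat_lit 1) (nat_lit 93) (nat_lit 1) (nat_lit 94) (nat_lit 1) (nat_lit 335) (nat_lit 344) (nat_lit 221))))) (XT.nd (nat_lit 234) (nat_lit 228) (nat_lit 0) (XT.nd (nat_lit 78) (nat_lit 228) (nat_lit 0) (XT.lf (nat_lit 0) (nat_lit 1555263593) (nat_lit 0) (nat_lit 1555264564) (nat_lit 152) (nat_lit 1555263593) (nat_lit 93) (nat_lit 3) (nat_lit 93) (nat_lit 1) (nat_lit 95) (nat_lit 1) (nat_lit 336) (nat_lit 344) (nat_lit 220)) (XT.nd (nat_lit 78) (nat_lit 152) (nat_lit 0) (XT.lf (nat_lit 76) (nat_lit 1484569537) (nat_lit 0) (nat_lit 1484570382) (nat_lit 76) (nat_lit 1484570382) (nat_lit 93) (nat_lit 3) (nat_lit 92) (nat_lit 1) (nat_lit 93) (nat_lit 1) (nat_lit 337) (nat_lit 344) (nat_lit 219)) (XT.lf (nat_lit 152) (nat_lit 4260070270) (nat_lit 0) (nat_lit 222) (nat_lit 76) (nat_lit 222) (nat_lit 92) (nat_lit 1) (nat_lit 90) (nat_lit 1) (nat_lit 91) (nat_lit 1) (nat_lit 338)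 (nat_lit 344) (nat_lit 218)))) (XT.nd (nat_lit 78) (nat_lit 228) (nat_lit 0) (XT.lf (nat_lit 0) (nat_lit 1352403216) (nat_lit 0) (nat_lit 1352403771) (nat_lit 152) (nat_lit 1352403216) (nat_lit 90) (nat_lit 3) (nat_lit 90) (nat_lit 1) (nat_lit 92) (nat_lit 1) (nat_lit 339) (nat_lit 344) (nat_lit 217)) (XT.nd (nat_lit 78) (nat_lit 152) (nat_lit 0) (XT.lf (nat_lit 76) (nat_lit 1290930196) (nat_lit 0) (nat_lit 1290930679) (nat_lit 76) (nat_lit 1290930679) (nat_lit 90) (nat_lit 3) (nat_lit 89) (nat_lit 1) (nat_lit 90) (nat_lit 1) (nat_lit 340) (nat_lit 344) (nat_lit 216)) (XT.lf (nat_lit 152) (nat_lit 3704409054) (nat_lit 0) (nat_lit 127) (nat_lit 76) (nat_lit 127) (nat_lit 89) (nat_lit 1) (nat_lit 87) (nat_lit 1) (nat_lit 88) (nat_lit 1) (nat_lit 341) (nat_lit 344) (nat_lit 215)))))) (XT.nd (nat_lit 390) (nat_lit 456) (nat_lit 0) (XT.nd (nat_lit 156) (nat_lit 228) (nat_lit 0) (XT.nd (nat_lit 78) (nat_lit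 76) (nat_lit 0) (XT.lf (nat_lit 0) (nat_lit 1176002849) (nat_lit 0) (nat_lit 1176003166) (nat_lit 152) (nat_lit 1176002849) (nat_lit 87) (nat_lit 3) (nat_lit 87) (nat_lit 1) (nat_lit 89) (nat_lit 1) (nat_lit 342) (nat_lit 344) (nat_lit 214)) (XT.lf (nat_lit 76) (nat_lit 1122548090) (nat_lit 0) (nat_lit 1122548366) (nat_lit 76) (nat_lit 1122548366) (nat_lit 87) (nat_lit 3) (nat_lit 86) (nat_lit 1) (nat_lit 87) (nat_lit 1) (nat_lit 343) (nat_lit 344) (nat_lit 213))) (XT.nd (nat_lit 78) (nat_lit 76) (nat_lit 0) (XT.lf (nat_lit 152) (nat_lit 3221225335) (nat_lit 0) (nat_lit 72) (nat_lit 76) (nat_lit 72) (nat_lit 86) (nat_lit 1) (nat_lit 84) (nat_lit 1) (nat_lit 85) (nat_lit 1) (nat_lit 344) (nat_lit 344) (nat_lit 212)) (XT.nd (nat_lit 78) (nat_lit 76) (nat_lit 0) (XT.lf (nat_lit 0) (nat_lit 1022611203) (nat_lit 0) (nat_lit 1022611384) (nat_lit 152) (nat_lit 1022611203) (nat_lit 84) (nat_lit 3) (nat_lit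 84) (nat_lit 1) (nat_lit 86) (nat_lit 1) (nat_lit 345) (nat_lit 344) (nat_lit 211)) (XT.lf (nat_lit 76) (nat_lit 976128828) (nat_lit 0) (nat_lit 976128985) (nat_lit 76) (nat_lit 976128985) (nat_lit 84) (nat_lit 3) (nat_lit 83) (nat_lit 1) (nat_lit 84) (nat_lit 1) (nat_lit 346) (nat_lit 344) (nat_lit 210))))) (XT.nd (nat_lit 234) (nat_lit 228) (nat_lit 0) (XT.nd (nat_lit 78) (nat_lit 76) (nat_lit 0) (XT.lf (nat_lit 152) (nat_lit 2801065550) (nat_lit 0) (nat_lit 41) (nat_lit 76) (nat_lit 41) (nat_lit 83) (nat_lit 1) (nat_lit 81) (nat_lit 1) (nat_lit 82) (nat_lit 1) (nat_lit 347) (nat_lit 344) (nat_lit 209)) (XT.nd (nat_lit 78) (nat_lit 76) (nat_lit 0) (XT.lf (nat_lit 0) (nat_lit 889227150) (nat_lit 0) (nat_lit 889227254) (nat_lit 152) (nat_lit 889227150) (nat_lit 81) (nat_lit 3) (nat_lit 81) (nat_lit 1) (nat_lit 83) (nat_lit 1) (nat_lit 348) (nat_lit 344) (nat_lit 208)) (XT.lf (nat_lit 76) (nat_lit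 848807707) (nat_lit 0) (nat_lit 848807797) (nat_lit 76) (nat_lit 848807797) (nat_lit 81) (nat_lit 3) (nat_lit 80) (nat_lit 1) (nat_lit 81) (nat_lit 1) (nat_lit 349) (nat_lit 344) (nat_lit 207)))) (XT.nd (nat_lit 78) (nat_lit 76) (nat_lit 0) (XT.lf (nat_lit 152) (nat_lit 2435709197) (nat_lit 0) (nat_lit 23) (nat_lit 76) (nat_lit 23) (nat_lit 80) (nat_lit 1) (nat_lit 78) (nat_lit 1) (nat_lit 79) (nat_lit 1) (nat_lit 350) (nat_lit 344) (nat_lit 206)) (XT.nd (nat_lit 78) (nat_lit 76) (nat_lit 0) (XT.lf (nat_lit 0) (nat_lit 773241010) (nat_lit 0) (nat_lit 773241069) (nat_lit 152) (nat_lit 773241010) (nat_lit 78) (nat_lit 3) (nat_lit 78) (nat_lit 1) (nat_lit 80) (nat_lit 1) (nat_lit 351) (nat_lit 344) (nat_lit 205)) (XT.lf (nat_lit 76) (nat_lit 738093675) (nat_lit 0) (nat_lit 738093727) (nat_lit 76) (nat_lit 738093727) (nat_lit 78) (nat_lit 3) (nat_lit 77) (nat_lit 1) (nat_lit 78) (nat_lit 1) (nat_lit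 352) (nat_lit 344) (nat_lit 204))))))))
noncomputable def ec139 : XT := (XT.nd (nat_lit 35958) (nat_lit 0) (nat_lit 10108) (XT.nd (nat_lit 858) (nat_lit 532) (nat_lit 0) (XT.nd (nat_lit 390) (nat_lit 456) (nat_lit 0) (XT.nd (nat_lit 156) (nat_lit 228) (nat_lit 0) (XT.nd (nat_lit 78) (nat_lit 0) (nat_lit 0) (XT.lf (nat_lit 152) (nat_lit 2118008010) (nat_lit 0) (nat_lit 13) (nat_lit 76) (nat_lit 13) (nat_lit 77) (nat_lit 1) (nat_lit 75) (nat_lit 1) (nat_lit 76) (nat_lit 1) (nat_lit 353) (nat_lit 344) (nat_lit 203)) (XT.lf (nat_lit 0) (nat_lit 672383492) (nat_lit 0) (nat_lit 672383526) (nat_lit 152) (nat_lit 672383492) (nat_lit 75) (nat_lit 3) (nat_lit 75) (nat_lit 1) (nat_lit 77) (nat_lit 1) (nat_lit 354) (nat_lit 344) (nat_lit 202))) (XT.nd (nat_lit 78) (nat_lit 152) (nat_lit 0) (XT.lf (nat_lit 76) (nat_lit 641820597) (nat_lit 0) (nat_lit 641820627) (nat_lit 76) (nat_lit 641820627) (nat_lit 75)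 (nat_lit 3) (nat_lit 74) (nat_lit 1) (nat_lit 75) (nat_lit 1) (nat_lit 355) (nat_lit 344) (nat_lit 201)) (XT.nd (nat_lit 78) (nat_lit 0) (nat_lit 0) (XT.lf (nat_lit 152) (nat_lit 1841746103) (nat_lit 0) (nat_lit 7) (nat_lit 76) (nat_lit 7) (nat_lit 74) (nat_lit 1) (nat_lit 72) (nat_lit 1) (nat_lit 73) (nat_lit 1) (nat_lit 356) (nat_lit 344) (nat_lit 200)) (XT.lf (nat_lit 0) (nat_lit 584681301) (nat_lit 0) (nat_lit 584681320) (nat_lit 152) (nat_lit 584681301) (nat_lit 72) (nat_lit 3) (nat_lit 72) (nat_lit 1) (nat_lit 74) (nat_lit 1) (nat_lit 357) (nat_lit 344) (nat_lit 199))))) (XT.nd (nat_lit 234) (nat_lit 228) (nat_lit 0) (XT.nd (nat_lit 78) (nat_lit 152) (nat_lit 0) (XT.lf (nat_lit 76) (nat_lit 558104873) (nat_lit 0) (nat_lit 558104890) (nat_lit 76) (nat_lit 558104890) (nat_lit 72) (nat_lit 3) (nat_lit 71) (nat_lit 1) (nat_lit 72) (nat_lit 1) (nat_lit 358) (nat_lit 344) (nat_lit 198)) (XT.nd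 (nat_lit 78) (nat_lit 0) (nat_lit 0) (XT.lf (nat_lit 152) (nat_lit 1601518355) (nat_lit 0) (nat_lit 4) (nat_lit 76) (nat_lit 4) (nat_lit 71) (nat_lit 1) (nat_lit 69) (nat_lit 1) (nat_lit 70) (nat_lit 1) (nat_lit 359) (nat_lit 344) (nat_lit 197)) (XT.lf (nat_lit 0) (nat_lit 508418524) (nat_lit 0) (nat_lit 508418535) (nat_lit 152) (nat_lit 508418524) (nat_lit 69) (nat_lit 3) (nat_lit 69) (nat_lit 1) (nat_lit 71) (nat_lit 1) (nat_lit 360) (nat_lit 344) (nat_lit 196)))) (XT.nd (nat_lit 78) (nat_lit 152) (nat_lit 0) (XT.lf (nat_lit 76) (nat_lit 485308588) (nat_lit 0) (nat_lit 485308598) (nat_lit 76) (nat_lit 485308598) (nat_lit 69) (nat_lit 3) (nat_lit 68) (nat_lit 1) (nat_lit 69) (nat_lit 1) (nat_lit 361) (nat_lit 344) (nat_lit 195)) (XT.nd (nat_lit 78) (nat_lit 0) (nat_lit 0) (XT.lf (nat_lit 152) (nat_lit 1392624659) (nat_lit 0) (nat_lit 2) (nat_lit 76) (nat_lit 2) (nat_lit 68) (nat_lit 1) (nat_lit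 66) (nat_lit 1) (nat_lit 67) (nat_lit 1) (nat_lit 362) (nat_lit 344) (nat_lit 194)) (XT.lf (nat_lit 0) (nat_lit 442103065) (nat_lit 0) (nat_lit 442103072) (nat_lit 152) (nat_lit 442103065) (nat_lit 66) (nat_lit 3) (nat_lit 66) (nat_lit 1) (nat_lit 68) (nat_lit 1) (nat_lit 363) (nat_lit 344) (nat_lit 193)))))) (XT.nd (nat_lit 390) (nat_lit 228) (nat_lit 0) (XT.nd (nat_lit 156) (nat_lit 76) (nat_lit 0) (XT.nd (nat_lit 78) (nat_lit 152) (nat_lit 0) (XT.lf (nat_lit 76) (nat_lit 422007470) (nat_lit 0) (nat_lit 422007475) (nat_lit 76) (nat_lit 422007475) (nat_lit 66) (nat_lit 3) (nat_lit 65) (nat_lit 1) (nat_lit 66) (nat_lit 1) (nat_lit 364) (nat_lit 344) (nat_lit 192)) (XT.lf (nat_lit 152) (nat_lit 1210977966) (nat_lit 0) (nat_lit 1) (nat_lit 76) (nat_lit 1) (nat_lit 65) (nat_lit 1) (nat_lit 63) (nat_lit 1) (nat_lit 64) (nat_lit 1) (nat_lit 365) (nat_lit 344) (nat_lit 191))) (XT.nd (nat_lit 78) (nat_lit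 76) (nat_lit 0) (XT.lf (nat_lit 0) (nat_lit 384437449) (nat_lit 0) (nat_lit 384437452) (nat_lit 152) (nat_lit 384437449) (nat_lit 63) (nat_lit 3) (nat_lit 63) (nat_lit 1) (nat_lit 65) (nat_lit 1) (nat_lit 366) (nat_lit 344) (nat_lit 190)) (XT.nd (nat_lit 78) (nat_lit 0) (nat_lit 0) (XT.lf (nat_lit 76) (nat_lit 366963018) (nat_lit 0) (nat_lit 366963021) (nat_lit 76) (nat_lit 366963021) (nat_lit 63) (nat_lit 3) (nat_lit 62) (nat_lit 1) (nat_lit 63) (nat_lit 1) (nat_lit 367) (nat_lit 344) (nat_lit 189)) (XT.lf (nat_lit 0) (nat_lit 1053024319) (nat_lit 0) (nat_lit 0) (nat_lit 0) (nat_lit 0) (nat_lit 62) (nat_lit 1) (nat_lit 1) (nat_lit 0) (nat_lit 1) (nat_lit 0) (nat_lit 368) (nat_lit 344) (nat_lit 188))))) (XT.nd (nat_lit 34476) (nat_lit 0) (nat_lit 11856) (XT.nd (nat_lit 78) (nat_lit 76) (nat_lit 0) (XT.lf (nat_lit 0) (nat_lit 334293434) (nat_lit 0) (nat_lit 334293436) (nat_lit 152) (nat_lit 334293434)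 (nat_lit 60) (nat_lit 3) (nat_lit 60) (nat_lit 1) (nat_lit 62) (nat_lit 1) (nat_lit 369) (nat_lit 344) (nat_lit 187)) (XT.nd (nat_lit 78) (nat_lit 0) (nat_lit 0) (XT.lf (nat_lit 76) (nat_lit 319098277) (nat_lit 0) (nat_lit 319098279) (nat_lit 76) (nat_lit 319098279) (nat_lit 60) (nat_lit 3) (nat_lit 59) (nat_lit 1) (nat_lit 60) (nat_lit 1) (nat_lit 370) (nat_lit 344) (nat_lit 186)) (XT.lf (nat_lit 0) (nat_lit 915673321) (nat_lit 0) (nat_lit 0) (nat_lit 0) (nat_lit 0) (nat_lit 59) (nat_lit 1) (nat_lit 1) (nat_lit 0) (nat_lit 1) (nat_lit 0) (nat_lit 371) (nat_lit 344) (nat_lit 185)))) (XT.nd (nat_lit 78) (nat_lit 0) (nat_lit 0) (XT.lf (nat_lit 380) (nat_lit 378030859753) (nat_lit 0) (nat_lit 334831236379) (nat_lit 380) (nat_lit 378030859753) (nat_lit 220) (nat_lit 1) (nat_lit 215) (nat_lit 0) (nat_lit 220) (nat_lit 0) (nat_lit 210) (nat_lit 345) (nat_lit 345)) (XT.nd (nat_lit 78) (nat_lit 0) (nat_lit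 76) (XT.lf (nat_lit 380) (nat_lit 1398287091338) (nat_lit 76) (nat_lit 319611634725) (nat_lit 0) (nat_lit 319611634725) (nat_lit 220) (nat_lit 1) (nat_lit 216) (nat_lit 1) (nat_lit 215) (nat_lit 0) (nat_lit 211) (nat_lit 345) (nat_lit 344)) (XT.lf (nat_lit 380) (nat_lit 616356931668) (nat_lit 0) (nat_lit 670654483608) (nat_lit 304) (nat_lit 616356931668) (nat_lit 221) (nat_lit 1) (nat_lit 216) (nat_lit 1) (nat_lit 220) (nat_lit 1) (nat_lit 212) (nat_lit 345) (nat_lit 343))))))) (XT.nd (nat_lit 858) (nat_lit 760) (nat_lit 0) (XT.nd (nat_lit 390) (nat_lit 684) (nat_lit 0) (XT.nd (nat_lit 156) (nat_lit 380) (nat_lit 0) (XT.nd (nat_lit 78) (nat_lit 0) (nat_lit 76) (XT.lf (nat_lit 380) (nat_lit 1058252848625) (nat_lit 76) (nat_lit 362247028267) (nat_lit 0) (nat_lit 362247028267) (nat_lit 221) (nat_lit 1) (nat_lit 217) (nat_lit 1) (nat_lit 216) (nat_lit 1) (nat_lit 213) (nat_lit 345) (nat_lit 342)) (XT.lf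 (nat_lit 76) (nat_lit 428077312825) (nat_lit 0) (nat_lit 815131070204) (nat_lit 304) (nat_lit 428077312825) (nat_lit 218) (nat_lit 1) (nat_lit 217) (nat_lit 1) (nat_lit 221) (nat_lit 1) (nat_lit 214) (nat_lit 345) (nat_lit 341))) (XT.nd (nat_lit 78) (nat_lit 152) (nat_lit 0) (XT.lf (nat_lit 380) (nat_lit 643365628172) (nat_lit 0) (nat_lit 463082242037) (nat_lit 304) (nat_lit 463082242037) (nat_lit 218) (nat_lit 1) (nat_lit 213) (nat_lit 1) (nat_lit 217) (nat_lit 1) (nat_lit 215) (nat_lit 345) (nat_lit 340)) (XT.nd (nat_lit 78) (nat_lit 152) (nat_lit 0) (XT.lf (nat_lit 76) (nat_lit 213847629419) (nat_lit 0) (nat_lit 1049355677426) (nat_lit 380) (nat_lit 213847629419) (nat_lit 214) (nat_lit 1) (nat_lit 213) (nat_lit 1) (nat_lit 218) (nat_lit 1) (nat_lit 216) (nat_lit 345) (nat_lit 339)) (XT.lf (nat_lit 228) (nat_lit 192457821905) (nat_lit 0) (nat_lit 598977481621) (nat_lit 152) (nat_lit 598977481621)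 (nat_lit 214) (nat_lit 1) (nat_lit 211) (nat_lit 1) (nat_lit 213) (nat_lit 1) (nat_lit 217) (nat_lit 345) (nat_lit 338))))) (XT.nd (nat_lit 234) (nat_lit 304) (nat_lit 0) (XT.nd (nat_lit 78) (nat_lit 152) (nat_lit 0) (XT.lf (nat_lit 228) (nat_lit 1293314141570) (nat_lit 0) (nat_lit 10147357149) (nat_lit 152) (nat_lit 10147357149) (nat_lit 211) (nat_lit 1) (nat_lit 208) (nat_lit 1) (nat_lit 210) (nat_lit 1) (nat_lit 218) (nat_lit 345) (nat_lit 337)) (XT.nd (nat_lit 78) (nat_lit 152) (nat_lit 0) (XT.lf (nat_lit 76) (nat_lit 496899559760) (nat_lit 0) (nat_lit 243951234059) (nat_lit 228) (nat_lit 496899559760) (nat_lit 209) (nat_lit 1) (nat_lit 208) (nat_lit 1) (nat_lit 211) (nat_lit 1) (nat_lit 219) (nat_lit 345) (nat_lit 336)) (XT.lf (nat_lit 228) (nat_lit 722262581804) (nat_lit 0) (nat_lit 224038752776) (nat_lit 152) (nat_lit 224038752776) (nat_lit 209) (nat_lit 1) (nat_lit 206) (nat_lit 1) (nat_lit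 208) (nat_lit 1) (nat_lit 220) (nat_lit 345) (nat_lit 335)))) (XT.nd (nat_lit 78) (nat_lit 304) (nat_lit 0) (XT.lf (nat_lit 76) (nat_lit 225875198539) (nat_lit 0) (nat_lit 655485964484) (nat_lit 228) (nat_lit 225875198539) (nat_lit 207) (nat_lit 1) (nat_lit 206) (nat_lit 1) (nat_lit 209) (nat_lit 1) (nat_lit 221) (nat_lit 345) (nat_lit 334)) (XT.nd (nat_lit 78) (nat_lit 228) (nat_lit 0) (XT.lf (nat_lit 152) (nat_lit 186727593793) (nat_lit 0) (nat_lit 430874841154) (nat_lit 76) (nat_lit 430874841154) (nat_lit 207) (nat_lit 1) (nat_lit 205) (nat_lit 1) (nat_lit 206) (nat_lit 1) (nat_lit 222) (nat_lit 345) (nat_lit 333)) (XT.lf (nat_lit 228) (nat_lit 945324842700) (nat_lit 0) (nat_lit 25113521971) (nat_lit 152) (nat_lit 25113521971) (nat_lit 205) (nat_lit 1) (nat_lit 202) (nat_lit 1) (nat_lit 204) (nat_lit 1) (nat_lit 223) (nat_lit 345) (nat_lit 332)))))) (XT.nd (nat_lit 468) (nat_lit 456) (nat_lit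 0) (XT.nd (nat_lit 234) (nat_lit 228) (nat_lit 0) (XT.nd (nat_lit 78) (nat_lit 76) (nat_lit 0) (XT.lf (nat_lit 76) (nat_lit 330843363403) (nat_lit 0) (nat_lit 280962978546) (nat_lit 228) (nat_lit 330843363403) (nat_lit 203) (nat_lit 1) (nat_lit 202) (nat_lit 1) (nat_lit 205) (nat_lit 1) (nat_lit 224) (nat_lit 345) (nat_lit 331)) (XT.nd (nat_lit 78) (nat_lit 0) (nat_lit 0) (XT.lf (nat_lit 152) (nat_lit 402273842421) (nat_lit 0) (nat_lit 246354088874) (nat_lit 76) (nat_lit 246354088874) (nat_lit 203) (nat_lit 1) (nat_lit 201) (nat_lit 1) (nat_lit 202) (nat_lit 1) (nat_lit 225) (nat_lit 345) (nat_lit 330)) (XT.lf (nat_lit 0) (nat_lit 78770761978) (nat_lit 0) (nat_lit 693491739888) (nat_lit 152) (nat_lit 78770761978) (nat_lit 201) (nat_lit 3) (nat_lit 201) (nat_lit 1) (nat_lit 203) (nat_lit 1) (nat_lit 226) (nat_lit 345) (nat_lit 329)))) (XT.nd (nat_lit 78) (nat_lit 76) (nat_lit 0) (XT.lf (nat_lit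 76) (nat_lit 364550754235) (nat_lit 0) (nat_lit 79064756537) (nat_lit 152) (nat_lit 364550754235) (nat_lit 200) (nat_lit 1) (nat_lit 199) (nat_lit 1) (nat_lit 201) (nat_lit 1) (nat_lit 227) (nat_lit 345) (nat_lit 328)) (XT.nd (nat_lit 78) (nat_lit 0) (nat_lit 0) (XT.lf (nat_lit 152) (nat_lit 486968100785) (nat_lit 0) (nat_lit 140853749878) (nat_lit 76) (nat_lit 140853749878) (nat_lit 200) (nat_lit 1) (nat_lit 198) (nat_lit 1) (nat_lit 199) (nat_lit 1) (nat_lit 228) (nat_lit 345) (nat_lit 327)) (XT.lf (nat_lit 0) (nat_lit 126614177156) (nat_lit 0) (nat_lit 478082891410) (nat_lit 152) (nat_lit 126614177156) (nat_lit 198) (nat_lit 3) (nat_lit 198) (nat_lit 1) (nat_lit 200) (nat_lit 1) (nat_lit 229) (nat_lit 345) (nat_lit 326))))) (XT.nd (nat_lit 234) (nat_lit 228) (nat_lit 0) (XT.nd (nat_lit 78) (nat_lit 152) (nat_lit 0) (XT.lf (nat_lit 76) (nat_lit 28245360341) (nat_lit 0) (nat_lit 333870329258)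 (nat_lit 76) (nat_lit 333870329258) (nat_lit 198) (nat_lit 3) (nat_lit 197) (nat_lit 1) (nat_lit 198) (nat_lit 1) (nat_lit 230) (nat_lit 345) (nat_lit 325)) (XT.nd (nat_lit 78) (nat_lit 0) (nat_lit 0) (XT.lf (nat_lit 152) (nat_lit 501874918875) (nat_lit 0) (nat_lit 80533588647) (nat_lit 76) (nat_lit 80533588647) (nat_lit 197) (nat_lit 1) (nat_lit 195) (nat_lit 1) (nat_lit 196) (nat_lit 1) (nat_lit 231) (nat_lit 345) (nat_lit 324)) (XT.lf (nat_lit 0) (nat_lit 143328360934) (nat_lit 0) (nat_lit 344281739033) (nat_lit 152) (nat_lit 143328360934) (nat_lit 195) (nat_lit 3) (nat_lit 195) (nat_lit 1) (nat_lit 197) (nat_lit 1) (nat_lit 232) (nat_lit 345) (nat_lit 323)))) (XT.nd (nat_lit 78) (nat_lit 152) (nat_lit 0) (XT.lf (nat_lit 76) (nat_lit 83861293645) (nat_lit 0) (nat_lit 258603361557) (nat_lit 76) (nat_lit 258603361557) (nat_lit 195) (nat_lit 3) (nat_lit 194) (nat_lit 1) (nat_lit 195) (nat_lit 1)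 (nat_lit 233) (nat_lit 345) (nat_lit 322)) (XT.nd (nat_lit 78) (nat_lit 0) (nat_lit 0) (XT.lf (nat_lit 152) (nat_lit 481252376140) (nat_lit 0) (nat_lit 46045340688) (nat_lit 76) (nat_lit 46045340688) (nat_lit 194) (nat_lit 1) (nat_lit 192) (nat_lit 1) (nat_lit 193) (nat_lit 1) (nat_lit 234) (nat_lit 345) (nat_lit 321)) (XT.lf (nat_lit 0) (nat_lit 143632189642) (nat_lit 0) (nat_lit 258527935783) (nat_lit 152) (nat_lit 143632189642) (nat_lit 192) (nat_lit 3) (nat_lit 192) (nat_lit 1) (nat_lit 194) (nat_lit 1) (nat_lit 235) (nat_lit 345) (nat_lit 320))))))))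
noncomputable def ec140 : XT := (XT.nd (nat_lit 1716) (nat_lit 1748) (nat_lit 0) (XT.nd (nat_lit 858) (nat_lit 760) (nat_lit 0) (XT.nd (nat_lit 390) (nat_lit 456) (nat_lit 0) (XT.nd (nat_lit 156) (nat_lit 228) (nat_lit 0) (XT.nd (nat_lit 78) (nat_lit 152) (nat_lit 0) (XT.lf (nat_lit 76) (nat_lit 106827894819) (nat_lit 0) (nat_lit 206737239289) (nat_lit 76) (nat_lit 206737239289) (nat_lit 192) (nat_lit 3) (nat_lit 191) (nat_lit 1) (nat_lit 192) (nat_lit 1) (nat_lit 236) (nat_lit 345) (nat_lit 319)) (XT.lf (nat_lit 152) (nat_lit 444117401392) (nat_lit 0) (nat_lit 26326572982) (nat_lit 76) (nat_lit 26326572982) (nat_lit 191) (nat_lit 1) (nat_lit 189) (nat_lit 1) (nat_lit 190) (nat_lit 1) (nat_lit 237) (nat_lit 345) (nat_lit 318))) (XT.nd (nat_lit 78) (nat_lit 228) (nat_lit 0) (XT.lf (nat_lit 0) (nat_lit 135760200245) (nat_lit 0) (nat_lit 201452216006) (nat_lit 152) (nat_lit 135760200245) (nat_lit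 189) (nat_lit 3) (nat_lit 189) (nat_lit 1) (nat_lit 191) (nat_lit 1) (nat_lit 238) (nat_lit 345) (nat_lit 317)) (XT.nd (nat_lit 78) (nat_lit 152) (nat_lit 0) (XT.lf (nat_lit 76) (nat_lit 112279132971) (nat_lit 0) (nat_lit 169402624938) (nat_lit 76) (nat_lit 169402624938) (nat_lit 189) (nat_lit 3) (nat_lit 188) (nat_lit 1) (nat_lit 189) (nat_lit 1) (nat_lit 239) (nat_lit 345) (nat_lit 316)) (XT.lf (nat_lit 152) (nat_lit 400847125135) (nat_lit 0) (nat_lit 15052303548) (nat_lit 76) (nat_lit 15052303548) (nat_lit 188) (nat_lit 1) (nat_lit 186) (nat_lit 1) (nat_lit 187) (nat_lit 1) (nat_lit 240) (nat_lit 345) (nat_lit 315))))) (XT.nd (nat_lit 234) (nat_lit 228) (nat_lit 0) (XT.nd (nat_lit 78) (nat_lit 228) (nat_lit 0) (XT.lf (nat_lit 0) (nat_lit 124263100022) (nat_lit 0) (nat_lit 161822723243) (nat_lit 152) (nat_lit 124263100022) (nat_lit 186) (nat_lit 3) (nat_lit 186) (nat_lit 1) (nat_lit 188) (nat_lit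 1) (nat_lit 241) (nat_lit 345) (nat_lit 314)) (XT.nd (nat_lit 78) (nat_lit 152) (nat_lit 0) (XT.lf (nat_lit 76) (nat_lit 108717643375) (nat_lit 0) (nat_lit 141378185306) (nat_lit 76) (nat_lit 141378185306) (nat_lit 186) (nat_lit 3) (nat_lit 185) (nat_lit 1) (nat_lit 186) (nat_lit 1) (nat_lit 242) (nat_lit 345) (nat_lit 313)) (XT.lf (nat_lit 152) (nat_lit 356943522578) (nat_lit 0) (nat_lit 8606203407) (nat_lit 76) (nat_lit 8606203407) (nat_lit 185) (nat_lit 1) (nat_lit 183) (nat_lit 1) (nat_lit 184) (nat_lit 1) (nat_lit 243) (nat_lit 345) (nat_lit 312)))) (XT.nd (nat_lit 78) (nat_lit 228) (nat_lit 0) (XT.lf (nat_lit 0) (nat_lit 111605887188) (nat_lit 0) (nat_lit 133080723667) (nat_lit 152) (nat_lit 111605887188) (nat_lit 183) (nat_lit 3) (nat_lit 183) (nat_lit 1) (nat_lit 185) (nat_lit 1) (nat_lit 244) (nat_lit 345) (nat_lit 311)) (XT.nd (nat_lit 78) (nat_lit 152) (nat_lit 0) (XT.lf (nat_lit 76)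 (nat_lit 100874173875) (nat_lit 0) (nat_lit 119547944727) (nat_lit 76) (nat_lit 119547944727) (nat_lit 183) (nat_lit 3) (nat_lit 182) (nat_lit 1) (nat_lit 183) (nat_lit 1) (nat_lit 245) (nat_lit 345) (nat_lit 310)) (XT.lf (nat_lit 152) (nat_lit 315177424306) (nat_lit 0) (nat_lit 4920624730) (nat_lit 76) (nat_lit 4920624730) (nat_lit 182) (nat_lit 1) (nat_lit 180) (nat_lit 1) (nat_lit 181) (nat_lit 1) (nat_lit 246) (nat_lit 345) (nat_lit 309)))))) (XT.nd (nat_lit 390) (nat_lit 456) (nat_lit 0) (XT.nd (nat_lit 156) (nat_lit 228) (nat_lit 0) (XT.nd (nat_lit 78) (nat_lit 76) (nat_lit 0) (XT.lf (nat_lit 0) (nat_lit 99078903394) (nat_lit 0) (nat_lit 111357210850) (nat_lit 152) (nat_lit 99078903394) (nat_lit 180) (nat_lit 3) (nat_lit 180) (nat_lit 1) (nat_lit 182) (nat_lit 1) (nat_lit 247) (nat_lit 345) (nat_lit 308)) (XT.lf (nat_lit 76) (nat_lit 91339926243) (nat_lit 0) (nat_lit 102016715335) (nat_lit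 76) (nat_lit 102016715335) (nat_lit 180) (nat_lit 3) (nat_lit 179) (nat_lit 1) (nat_lit 180) (nat_lit 1) (nat_lit 248) (nat_lit 345) (nat_lit 307))) (XT.nd (nat_lit 78) (nat_lit 76) (nat_lit 0) (XT.lf (nat_lit 152) (nat_lit 276807025526) (nat_lit 0) (nat_lit 2813383159) (nat_lit 76) (nat_lit 2813383159) (nat_lit 179) (nat_lit 1) (nat_lit 177) (nat_lit 1) (nat_lit 178) (nat_lit 1) (nat_lit 249) (nat_lit 345) (nat_lit 306)) (XT.nd (nat_lit 78) (nat_lit 76) (nat_lit 0) (XT.lf (nat_lit 0) (nat_lit 87316402123) (nat_lit 0) (nat_lit 94336564261) (nat_lit 152) (nat_lit 87316402123) (nat_lit 177) (nat_lit 3) (nat_lit 177) (nat_lit 1) (nat_lit 179) (nat_lit 1) (nat_lit 250) (nat_lit 345) (nat_lit 305)) (XT.lf (nat_lit 76) (nat_lit 81497629658) (nat_lit 0) (nat_lit 87602118474) (nat_lit 76) (nat_lit 87602118474) (nat_lit 177) (nat_lit 3) (nat_lit 176) (nat_lit 1) (nat_lit 177) (nat_lit 1) (nat_lit 251) (nat_lit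 345) (nat_lit 304))))) (XT.nd (nat_lit 234) (nat_lit 228) (nat_lit 0) (XT.nd (nat_lit 78) (nat_lit 76) (nat_lit 0) (XT.lf (nat_lit 152) (nat_lit 242268193719) (nat_lit 0) (nat_lit 1608560952) (nat_lit 76) (nat_lit 1608560952) (nat_lit 176) (nat_lit 1) (nat_lit 174) (nat_lit 1) (nat_lit 175) (nat_lit 1) (nat_lit 252) (nat_lit 345) (nat_lit 303)) (XT.nd (nat_lit 78) (nat_lit 76) (nat_lit 0) (XT.lf (nat_lit 0) (nat_lit 76591016774) (nat_lit 0) (nat_lit 80604817261) (nat_lit 152) (nat_lit 76591016774) (nat_lit 174) (nat_lit 3) (nat_lit 174) (nat_lit 1) (nat_lit 176) (nat_lit 1) (nat_lit 253) (nat_lit 345) (nat_lit 302)) (XT.lf (nat_lit 76) (nat_lit 72051951983) (nat_lit 0) (nat_lit 75542213277) (nat_lit 76) (nat_lit 75542213277) (nat_lit 174) (nat_lit 3) (nat_lit 173) (nat_lit 1) (nat_lit 174) (nat_lit 1) (nat_lit 254) (nat_lit 345) (nat_lit 301)))) (XT.nd (nat_lit 78) (nat_lit 76) (nat_lit 0) (XT.lf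 (nat_lit 152) (nat_lit 211563607342) (nat_lit 0) (nat_lit 919699945) (nat_lit 76) (nat_lit 919699945) (nat_lit 173) (nat_lit 1) (nat_lit 171) (nat_lit 1) (nat_lit 172) (nat_lit 1) (nat_lit 255) (nat_lit 345) (nat_lit 300)) (XT.nd (nat_lit 78) (nat_lit 76) (nat_lit 0) (XT.lf (nat_lit 0) (nat_lit 66980362830) (nat_lit 0) (nat_lit 69275266286) (nat_lit 152) (nat_lit 66980362830) (nat_lit 171) (nat_lit 3) (nat_lit 171) (nat_lit 1) (nat_lit 173) (nat_lit 1) (nat_lit 256) (nat_lit 345) (nat_lit 299)) (XT.lf (nat_lit 76) (nat_lit 63331083240) (nat_lit 0) (nat_lit 65326651462) (nat_lit 76) (nat_lit 65326651462) (nat_lit 171) (nat_lit 3) (nat_lit 170) (nat_lit 1) (nat_lit 171) (nat_lit 1) (nat_lit 257) (nat_lit 345) (nat_lit 298))))))) (XT.nd (nat_lit 858) (nat_lit 912) (nat_lit 0) (XT.nd (nat_lit 390) (nat_lit 456) (nat_lit 0) (XT.nd (nat_lit 156) (nat_lit 228) (nat_lit 0) (XT.nd (nat_lit 78) (nat_lit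 0) (nat_lit 0) (XT.lf (nat_lit 152) (nat_lit 184480423738) (nat_lit 0) (nat_lit 525841428) (nat_lit 76) (nat_lit 525841428) (nat_lit 170) (nat_lit 1) (nat_lit 168) (nat_lit 1) (nat_lit 169) (nat_lit 1) (nat_lit 258) (nat_lit 345) (nat_lit 297)) (XT.lf (nat_lit 0) (nat_lit 58460761931) (nat_lit 0) (nat_lit 59772880430) (nat_lit 152) (nat_lit 58460761931) (nat_lit 168) (nat_lit 3) (nat_lit 168) (nat_lit 1) (nat_lit 170) (nat_lit 1) (nat_lit 259) (nat_lit 345) (nat_lit 296))) (XT.nd (nat_lit 78) (nat_lit 152) (nat_lit 0) (XT.lf (nat_lit 76) (nat_lit 55457705295) (nat_lit 0) (nat_lit 56598677903) (nat_lit 76) (nat_lit 56598677903) (nat_lit 168) (nat_lit 3) (nat_lit 167) (nat_lit 1) (nat_lit 168) (nat_lit 1) (nat_lit 260) (nat_lit 345) (nat_lit 295)) (XT.nd (nat_lit 78) (nat_lit 0) (nat_lit 0) (XT.lf (nat_lit 152) (nat_lit 160710537186) (nat_lit 0) (nat_lit 300651543) (nat_lit 76) (nat_lit 300651543)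 (nat_lit 167) (nat_lit 1) (nat_lit 165) (nat_lit 1) (nat_lit 166) (nat_lit 1) (nat_lit 261) (nat_lit 345) (nat_lit 294)) (XT.lf (nat_lit 0) (nat_lit 50959497411) (nat_lit 0) (nat_lit 51709705421) (nat_lit 152) (nat_lit 50959497411) (nat_lit 165) (nat_lit 3) (nat_lit 165) (nat_lit 1) (nat_lit 167) (nat_lit 1) (nat_lit 262) (nat_lit 345) (nat_lit 293))))) (XT.nd (nat_lit 234) (nat_lit 228) (nat_lit 0) (XT.nd (nat_lit 78) (nat_lit 152) (nat_lit 0) (XT.lf (nat_lit 76) (nat_lit 48445473349) (nat_lit 0) (nat_lit 49097828141) (nat_lit 76) (nat_lit 49097828141) (nat_lit 165) (nat_lit 3) (nat_lit 164) (nat_lit 1) (nat_lit 165) (nat_lit 1) (nat_lit 263) (nat_lit 345) (nat_lit 292)) (XT.nd (nat_lit 78) (nat_lit 0) (nat_lit 0) (XT.lf (nat_lit 152) (nat_lit 139915689642) (nat_lit 0) (nat_lit 171898495) (nat_lit 76) (nat_lit 171898495) (nat_lit 164) (nat_lit 1) (nat_lit 162) (nat_lit 1) (nat_lit 163) (nat_lit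 1) (nat_lit 264) (nat_lit 345) (nat_lit 291)) (XT.lf (nat_lit 0) (nat_lit 44383533722) (nat_lit 0) (nat_lit 44812467587) (nat_lit 152) (nat_lit 44383533722) (nat_lit 162) (nat_lit 3) (nat_lit 162) (nat_lit 1) (nat_lit 164) (nat_lit 1) (nat_lit 265) (nat_lit 345) (nat_lit 290)))) (XT.nd (nat_lit 78) (nat_lit 152) (nat_lit 0) (XT.lf (nat_lit 76) (nat_lit 42253074320) (nat_lit 0) (nat_lit 42626060289) (nat_lit 76) (nat_lit 42626060289) (nat_lit 162) (nat_lit 3) (nat_lit 161) (nat_lit 1) (nat_lit 162) (nat_lit 1) (nat_lit 266) (nat_lit 345) (nat_lit 289)) (XT.nd (nat_lit 78) (nat_lit 0) (nat_lit 0) (XT.lf (nat_lit 152) (nat_lit 121761526536) (nat_lit 0) (nat_lit 98283522) (nat_lit 76) (nat_lit 98283522) (nat_lit 161) (nat_lit 1) (nat_lit 159) (nat_lit 1) (nat_lit 160) (nat_lit 1) (nat_lit 267) (nat_lit 345) (nat_lit 288)) (XT.lf (nat_lit 0) (nat_lit 38634930051) (nat_lit 0) (nat_lit 38880174381) (nat_lit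 152) (nat_lit 38634930051) (nat_lit 159) (nat_lit 3) (nat_lit 159) (nat_lit 1) (nat_lit 161) (nat_lit 1) (nat_lit 268) (nat_lit 345) (nat_lit 287)))))) (XT.nd (nat_lit 390) (nat_lit 456) (nat_lit 0) (XT.nd (nat_lit 156) (nat_lit 228) (nat_lit 0) (XT.nd (nat_lit 78) (nat_lit 152) (nat_lit 0) (XT.lf (nat_lit 76) (nat_lit 36814173856) (nat_lit 0) (nat_lit 37027429794) (nat_lit 76) (nat_lit 37027429794) (nat_lit 159) (nat_lit 3) (nat_lit 158) (nat_lit 1) (nat_lit 159) (nat_lit 1) (nat_lit 269) (nat_lit 345) (nat_lit 286)) (XT.lf (nat_lit 152) (nat_lit 105934310485) (nat_lit 0) (nat_lit 56193923) (nat_lit 76) (nat_lit 56193923) (nat_lit 158) (nat_lit 1) (nat_lit 156) (nat_lit 1) (nat_lit 157) (nat_lit 1) (nat_lit 270) (nat_lit 345) (nat_lit 285))) (XT.nd (nat_lit 78) (nat_lit 228) (nat_lit 0) (XT.lf (nat_lit 0) (nat_lit 33618777602) (nat_lit 0) (nat_lit 33758996843) (nat_lit 152) (nat_lit 33618777602)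 (nat_lit 156) (nat_lit 3) (nat_lit 156) (nat_lit 1) (nat_lit 158) (nat_lit 1) (nat_lit 271) (nat_lit 345) (nat_lit 284)) (XT.nd (nat_lit 78) (nat_lit 152) (nat_lit 0) (XT.lf (nat_lit 76) (nat_lit 32053702931) (nat_lit 0) (nat_lit 32175632706) (nat_lit 76) (nat_lit 32175632706) (nat_lit 156) (nat_lit 3) (nat_lit 155) (nat_lit 1) (nat_lit 156) (nat_lit 1) (nat_lit 272) (nat_lit 345) (nat_lit 283)) (XT.lf (nat_lit 152) (nat_lit 92148079317) (nat_lit 0) (nat_lit 32129057) (nat_lit 76) (nat_lit 32129057) (nat_lit 155) (nat_lit 1) (nat_lit 153) (nat_lit 1) (nat_lit 154) (nat_lit 1) (nat_lit 273) (nat_lit 345) (nat_lit 282))))) (XT.nd (nat_lit 234) (nat_lit 228) (nat_lit 0) (XT.nd (nat_lit 78) (nat_lit 228) (nat_lit 0) (XT.lf (nat_lit 0) (nat_lit 29246976469) (nat_lit 0) (nat_lit 29327147276) (nat_lit 152) (nat_lit 29246976469) (nat_lit 153) (nat_lit 3) (nat_lit 153) (nat_lit 1) (nat_lit 155) (nat_lit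 1) (nat_lit 274) (nat_lit 345) (nat_lit 281)) (XT.nd (nat_lit 78) (nat_lit 152) (nat_lit 0) (XT.lf (nat_lit 76) (nat_lit 27896443071) (nat_lit 0) (nat_lit 27966156815) (nat_lit 76) (nat_lit 27966156815) (nat_lit 153) (nat_lit 3) (nat_lit 152) (nat_lit 1) (nat_lit 153) (nat_lit 1) (nat_lit 275) (nat_lit 345) (nat_lit 280)) (XT.lf (nat_lit 152) (nat_lit 80146653405) (nat_lit 0) (nat_lit 18369893) (nat_lit 76) (nat_lit 18369893) (nat_lit 152) (nat_lit 1) (nat_lit 150) (nat_lit 1) (nat_lit 151) (nat_lit 1) (nat_lit 276) (nat_lit 345) (nat_lit 279)))) (XT.nd (nat_lit 78) (nat_lit 228) (nat_lit 0) (XT.lf (nat_lit 0) (nat_lit 25439733079) (nat_lit 0) (nat_lit 25485570998) (nat_lit 152) (nat_lit 25439733079) (nat_lit 150) (nat_lit 3) (nat_lit 150) (nat_lit 1) (nat_lit 152) (nat_lit 1) (nat_lit 277) (nat_lit 345) (nat_lit 278)) (XT.nd (nat_lit 78) (nat_lit 152) (nat_lit 0) (XT.lf (nat_lit 76) (nat_lit 24271303072)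 (nat_lit 0) (nat_lit 24311162132) (nat_lit 76) (nat_lit 24311162132) (nat_lit 150) (nat_lit 3) (nat_lit 149) (nat_lit 1) (nat_lit 150) (nat_lit 1) (nat_lit 278) (nat_lit 345) (nat_lit 277)) (XT.lf (nat_lit 152) (nat_lit 69702970060) (nat_lit 0) (nat_lit 10503046) (nat_lit 76) (nat_lit 10503046) (nat_lit 149) (nat_lit 1) (nat_lit 147) (nat_lit 1) (nat_lit 148) (nat_lit 1) (nat_lit 279) (nat_lit 345) (nat_lit 276))))))))
noncomputable def ec141 : XT := (XT.nd (nat_lit 1716) (nat_lit 1824) (nat_lit 0) (XT.nd (nat_lit 858) (nat_lit 836) (nat_lit 0) (XT.nd (nat_lit 390) (nat_lit 456) (nat_lit 0) (XT.nd (nat_lit 156) (nat_lit 228) (nat_lit 0) (XT.nd (nat_lit 78) (nat_lit 76) (nat_lit 0) (XT.lf (nat_lit 0) (nat_lit 22125840702) (nat_lit 0) (nat_lit 22152048680) (nat_lit 152) (nat_lit 22125840702) (nat_lit 147) (nat_lit 3) (nat_lit 147) (nat_lit 1) (nat_lit 149) (nat_lit 1) (nat_lit 280) (nat_lit 345)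 (nat_lit 275)) (XT.lf (nat_lit 76) (nat_lit 21113214746) (nat_lit 0) (nat_lit 21136004293) (nat_lit 76) (nat_lit 21136004293) (nat_lit 147) (nat_lit 3) (nat_lit 146) (nat_lit 1) (nat_lit 147) (nat_lit 1) (nat_lit 281) (nat_lit 345) (nat_lit 274))) (XT.nd (nat_lit 78) (nat_lit 76) (nat_lit 0) (XT.lf (nat_lit 152) (nat_lit 60617126187) (nat_lit 0) (nat_lit 6005150) (nat_lit 76) (nat_lit 6005150) (nat_lit 146) (nat_lit 1) (nat_lit 144) (nat_lit 1) (nat_lit 145) (nat_lit 1) (nat_lit 282) (nat_lit 345) (nat_lit 273)) (XT.nd (nat_lit 78) (nat_lit 76) (nat_lit 0) (XT.lf (nat_lit 0) (nat_lit 19242339273) (nat_lit 0) (nat_lit 19257323770) (nat_lit 152) (nat_lit 19242339273) (nat_lit 144) (nat_lit 3) (nat_lit 144) (nat_lit 1) (nat_lit 146) (nat_lit 1) (nat_lit 283) (nat_lit 345) (nat_lit 272)) (XT.lf (nat_lit 76) (nat_lit 18363739004) (nat_lit 0) (nat_lit 18376769001) (nat_lit 76) (nat_lit 18376769001) (nat_lit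 144) (nat_lit 3) (nat_lit 143) (nat_lit 1) (nat_lit 144) (nat_lit 1) (nat_lit 284) (nat_lit 345) (nat_lit 271))))) (XT.nd (nat_lit 234) (nat_lit 228) (nat_lit 0) (XT.nd (nat_lit 78) (nat_lit 76) (nat_lit 0) (XT.lf (nat_lit 152) (nat_lit 52713888052) (nat_lit 0) (nat_lit 3433464) (nat_lit 76) (nat_lit 3433464) (nat_lit 143) (nat_lit 1) (nat_lit 141) (nat_lit 1) (nat_lit 142) (nat_lit 1) (nat_lit 285) (nat_lit 345) (nat_lit 270)) (XT.nd (nat_lit 78) (nat_lit 76) (nat_lit 0) (XT.lf (nat_lit 0) (nat_lit 16733885620) (nat_lit 0) (nat_lit 16742453054) (nat_lit 152) (nat_lit 16733885620) (nat_lit 141) (nat_lit 3) (nat_lit 141) (nat_lit 1) (nat_lit 143) (nat_lit 1) (nat_lit 286) (nat_lit 345) (nat_lit 269)) (XT.lf (nat_lit 76) (nat_lit 15970996896) (nat_lit 0) (nat_lit 15978446840) (nat_lit 76) (nat_lit 15978446840) (nat_lit 141) (nat_lit 3) (nat_lit 140) (nat_lit 1) (nat_lit 141) (nat_lit 1) (nat_lit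 287) (nat_lit 345) (nat_lit 268)))) (XT.nd (nat_lit 78) (nat_lit 76) (nat_lit 0) (XT.lf (nat_lit 152) (nat_lit 45840075204) (nat_lit 0) (nat_lit 1963094) (nat_lit 76) (nat_lit 1963094) (nat_lit 140) (nat_lit 1) (nat_lit 138) (nat_lit 1) (nat_lit 139) (nat_lit 1) (nat_lit 288) (nat_lit 345) (nat_lit 267)) (XT.nd (nat_lit 78) (nat_lit 76) (nat_lit 0) (XT.lf (nat_lit 0) (nat_lit 14552014882) (nat_lit 0) (nat_lit 14556913340) (nat_lit 152) (nat_lit 14552014882) (nat_lit 138) (nat_lit 3) (nat_lit 138) (nat_lit 1) (nat_lit 140) (nat_lit 1) (nat_lit 289) (nat_lit 345) (nat_lit 266)) (XT.lf (nat_lit 76) (nat_lit 13889268893) (nat_lit 0) (nat_lit 13893528423) (nat_lit 76) (nat_lit 13893528423) (nat_lit 138) (nat_lit 3) (nat_lit 137) (nat_lit 1) (nat_lit 138) (nat_lit 1) (nat_lit 290) (nat_lit 345) (nat_lit 265)))))) (XT.nd (nat_lit 390) (nat_lit 456) (nat_lit 0) (XT.nd (nat_lit 156) (nat_lit 228) (nat_lit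 0) (XT.nd (nat_lit 78) (nat_lit 0) (nat_lit 0) (XT.lf (nat_lit 152) (nat_lit 39862027969) (nat_lit 0) (nat_lit 1122405) (nat_lit 76) (nat_lit 1122405) (nat_lit 137) (nat_lit 1) (nat_lit 135) (nat_lit 1) (nat_lit 136) (nat_lit 1) (nat_lit 291) (nat_lit 345) (nat_lit 264)) (XT.lf (nat_lit 0) (nat_lit 12654389101) (nat_lit 0) (nat_lit 12657189811) (nat_lit 152) (nat_lit 12654389101) (nat_lit 135) (nat_lit 3) (nat_lit 135) (nat_lit 1) (nat_lit 137) (nat_lit 1) (nat_lit 292) (nat_lit 345) (nat_lit 263))) (XT.nd (nat_lit 78) (nat_lit 152) (nat_lit 0) (XT.lf (nat_lit 76) (nat_lit 12078451597) (nat_lit 0) (nat_lit 12080886996) (nat_lit 76) (nat_lit 12080886996) (nat_lit 135) (nat_lit 3) (nat_lit 134) (nat_lit 1) (nat_lit 135) (nat_lit 1) (nat_lit 293) (nat_lit 345) (nat_lit 262)) (XT.nd (nat_lit 78) (nat_lit 0) (nat_lit 0) (XT.lf (nat_lit 152) (nat_lit 34663257949) (nat_lit 0) (nat_lit 641739) (nat_lit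 76) (nat_lit 641739) (nat_lit 134) (nat_lit 1) (nat_lit 132) (nat_lit 1) (nat_lit 133) (nat_lit 1) (nat_lit 294) (nat_lit 345) (nat_lit 261)) (XT.lf (nat_lit 0) (nat_lit 11004081399) (nat_lit 0) (nat_lit 11005682713) (nat_lit 152) (nat_lit 11004081399) (nat_lit 132) (nat_lit 3) (nat_lit 132) (nat_lit 1) (nat_lit 134) (nat_lit 1) (nat_lit 295) (nat_lit 345) (nat_lit 260))))) (XT.nd (nat_lit 234) (nat_lit 228) (nat_lit 0) (XT.nd (nat_lit 78) (nat_lit 152) (nat_lit 0) (XT.lf (nat_lit 76) (nat_lit 10503473927) (nat_lit 0) (nat_lit 10504866374) (nat_lit 76) (nat_lit 10504866374) (nat_lit 132) (nat_lit 3) (nat_lit 131) (nat_lit 1) (nat_lit 132) (nat_lit 1) (nat_lit 296) (nat_lit 345) (nat_lit 259)) (XT.nd (nat_lit 78) (nat_lit 0) (nat_lit 0) (XT.lf (nat_lit 152) (nat_lit 30142320740) (nat_lit 0) (nat_lit 366916) (nat_lit 76) (nat_lit 366916) (nat_lit 131) (nat_lit 1) (nat_lit 129) (nat_lit 1) (nat_lit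 130) (nat_lit 1) (nat_lit 297) (nat_lit 345) (nat_lit 258)) (XT.lf (nat_lit 0) (nat_lit 9568917827) (nat_lit 0) (nat_lit 9569833384) (nat_lit 152) (nat_lit 9568917827) (nat_lit 129) (nat_lit 3) (nat_lit 129) (nat_lit 1) (nat_lit 131) (nat_lit 1) (nat_lit 298) (nat_lit 345) (nat_lit 257)))) (XT.nd (nat_lit 78) (nat_lit 152) (nat_lit 0) (XT.lf (nat_lit 76) (nat_lit 9133725764) (nat_lit 0) (nat_lit 9134521900) (nat_lit 76) (nat_lit 9134521900) (nat_lit 129) (nat_lit 3) (nat_lit 128) (nat_lit 1) (nat_lit 129) (nat_lit 1) (nat_lit 299) (nat_lit 345) (nat_lit 256)) (XT.nd (nat_lit 78) (nat_lit 0) (nat_lit 0) (XT.lf (nat_lit 152) (nat_lit 26210917978) (nat_lit 0) (nat_lit 209785) (nat_lit 76) (nat_lit 209785) (nat_lit 128) (nat_lit 1) (nat_lit 126) (nat_lit 1) (nat_lit 127) (nat_lit 1) (nat_lit 300) (nat_lit 345) (nat_lit 255)) (XT.lf (nat_lit 0) (nat_lit 8320884671) (nat_lit 0) (nat_lit 8321408143) (nat_lit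 152) (nat_lit 8320884671) (nat_lit 126) (nat_lit 3) (nat_lit 126) (nat_lit 1) (nat_lit 128) (nat_lit 1) (nat_lit 301) (nat_lit 345) (nat_lit 254))))))) (XT.nd (nat_lit 858) (nat_lit 912) (nat_lit 0) (XT.nd (nat_lit 390) (nat_lit 456) (nat_lit 0) (XT.nd (nat_lit 156) (nat_lit 228) (nat_lit 0) (XT.nd (nat_lit 78) (nat_lit 152) (nat_lit 0) (XT.lf (nat_lit 76) (nat_lit 7942524703) (nat_lit 0) (nat_lit 7942979896) (nat_lit 76) (nat_lit 7942979896) (nat_lit 126) (nat_lit 3) (nat_lit 125) (nat_lit 1) (nat_lit 126) (nat_lit 1) (nat_lit 302) (nat_lit 345) (nat_lit 253)) (XT.lf (nat_lit 152) (nat_lit 22792219394) (nat_lit 0) (nat_lit 119945) (nat_lit 76) (nat_lit 119945) (nat_lit 125) (nat_lit 1) (nat_lit 123) (nat_lit 1) (nat_lit 124) (nat_lit 1) (nat_lit 303) (nat_lit 345) (nat_lit 252))) (XT.nd (nat_lit 78) (nat_lit 228) (nat_lit 0) (XT.lf (nat_lit 0) (nat_lit 7235601378) (nat_lit 0) (nat_lit 7235900676)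 (nat_lit 152) (nat_lit 7235601378) (nat_lit 123) (nat_lit 3) (nat_lit 123) (nat_lit 1) (nat_lit 125) (nat_lit 1) (nat_lit 304) (nat_lit 345) (nat_lit 251)) (XT.nd (nat_lit 78) (nat_lit 152) (nat_lit 0) (XT.lf (nat_lit 76) (nat_lit 6906631540) (nat_lit 0) (nat_lit 6906891799) (nat_lit 76) (nat_lit 6906891799) (nat_lit 123) (nat_lit 3) (nat_lit 122) (nat_lit 1) (nat_lit 123) (nat_lit 1) (nat_lit 305) (nat_lit 345) (nat_lit 250)) (XT.lf (nat_lit 152) (nat_lit 19819387995) (nat_lit 0) (nat_lit 68579) (nat_lit 76) (nat_lit 68579) (nat_lit 122) (nat_lit 1) (nat_lit 120) (nat_lit 1) (nat_lit 121) (nat_lit 1) (nat_lit 306) (nat_lit 345) (nat_lit 249))))) (XT.nd (nat_lit 234) (nat_lit 228) (nat_lit 0) (XT.nd (nat_lit 78) (nat_lit 228) (nat_lit 0) (XT.lf (nat_lit 0) (nat_lit 6291855582) (nat_lit 0) (nat_lit 6292026706) (nat_lit 152) (nat_lit 6291855582) (nat_lit 120) (nat_lit 3) (nat_lit 120) (nat_lit 1)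 (nat_lit 122) (nat_lit 1) (nat_lit 307) (nat_lit 345) (nat_lit 248)) (XT.nd (nat_lit 78) (nat_lit 152) (nat_lit 0) (XT.lf (nat_lit 76) (nat_lit 6005817055) (nat_lit 0) (nat_lit 6005965858) (nat_lit 76) (nat_lit 6005965858) (nat_lit 120) (nat_lit 3) (nat_lit 119) (nat_lit 1) (nat_lit 120) (nat_lit 1) (nat_lit 308) (nat_lit 345) (nat_lit 247)) (XT.lf (nat_lit 152) (nat_lit 17234288614) (nat_lit 0) (nat_lit 39210) (nat_lit 76) (nat_lit 39210) (nat_lit 119) (nat_lit 1) (nat_lit 117) (nat_lit 1) (nat_lit 118) (nat_lit 1) (nat_lit 309) (nat_lit 345) (nat_lit 246)))) (XT.nd (nat_lit 78) (nat_lit 228) (nat_lit 0) (XT.lf (nat_lit 0) (nat_lit 5471194946) (nat_lit 0) (nat_lit 5471292786) (nat_lit 152) (nat_lit 5471194946) (nat_lit 117) (nat_lit 3) (nat_lit 117) (nat_lit 1) (nat_lit 119) (nat_lit 1) (nat_lit 310) (nat_lit 345) (nat_lit 245)) (XT.nd (nat_lit 78) (nat_lit 152) (nat_lit 0) (XT.lf (nat_lit 76)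 (nat_lit 5222478485) (nat_lit 0) (nat_lit 5222563564) (nat_lit 76) (nat_lit 5222563564) (nat_lit 117) (nat_lit 3) (nat_lit 116) (nat_lit 1) (nat_lit 117) (nat_lit 1) (nat_lit 311) (nat_lit 345) (nat_lit 244)) (XT.lf (nat_lit 152) (nat_lit 14986359757) (nat_lit 0) (nat_lit 22418) (nat_lit 76) (nat_lit 22418) (nat_lit 116) (nat_lit 1) (nat_lit 114) (nat_lit 1) (nat_lit 115) (nat_lit 1) (nat_lit 312) (nat_lit 345) (nat_lit 243)))))) (XT.nd (nat_lit 468) (nat_lit 456) (nat_lit 0) (XT.nd (nat_lit 234) (nat_lit 228) (nat_lit 0) (XT.nd (nat_lit 78) (nat_lit 228) (nat_lit 0) (XT.lf (nat_lit 0) (nat_lit 4757570072) (nat_lit 0) (nat_lit 4757626013) (nat_lit 152) (nat_lit 4757570072) (nat_lit 114) (nat_lit 3) (nat_lit 114) (nat_lit 1) (nat_lit 116) (nat_lit 1) (nat_lit 313) (nat_lit 345) (nat_lit 242)) (XT.nd (nat_lit 78) (nat_lit 152) (nat_lit 0) (XT.lf (nat_lit 76) (nat_lit 4541302147) (nat_lit 0) (nat_lit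 4541350791) (nat_lit 76) (nat_lit 4541350791) (nat_lit 114) (nat_lit 3) (nat_lit 113) (nat_lit 1) (nat_lit 114) (nat_lit 1) (nat_lit 314) (nat_lit 345) (nat_lit 241)) (XT.lf (nat_lit 152) (nat_lit 13031629662) (nat_lit 0) (nat_lit 12817) (nat_lit 76) (nat_lit 12817) (nat_lit 113) (nat_lit 1) (nat_lit 111) (nat_lit 1) (nat_lit 112) (nat_lit 1) (nat_lit 315) (nat_lit 345) (nat_lit 240)))) (XT.nd (nat_lit 78) (nat_lit 228) (nat_lit 0) (XT.lf (nat_lit 0) (nat_lit 4137022743) (nat_lit 0) (nat_lit 4137054727) (nat_lit 152) (nat_lit 4137022743) (nat_lit 111) (nat_lit 3) (nat_lit 111) (nat_lit 1) (nat_lit 113) (nat_lit 1) (nat_lit 316) (nat_lit 345) (nat_lit 239)) (XT.nd (nat_lit 78) (nat_lit 152) (nat_lit 0) (XT.lf (nat_lit 76) (nat_lit 3948967827) (nat_lit 0) (nat_lit 3948995639) (nat_lit 76) (nat_lit 3948995639) (nat_lit 111) (nat_lit 3) (nat_lit 110) (nat_lit 1) (nat_lit 111) (nat_lit 1) (nat_lit 317)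 (nat_lit 345) (nat_lit 238)) (XT.lf (nat_lit 152) (nat_lit 11331859017) (nat_lit 0) (nat_lit 7328) (nat_lit 76) (nat_lit 7328) (nat_lit 110) (nat_lit 1) (nat_lit 108) (nat_lit 1) (nat_lit 109) (nat_lit 1) (nat_lit 318) (nat_lit 345) (nat_lit 237))))) (XT.nd (nat_lit 234) (nat_lit 228) (nat_lit 0) (XT.nd (nat_lit 78) (nat_lit 228) (nat_lit 0) (XT.lf (nat_lit 0) (nat_lit 3597414105) (nat_lit 0) (nat_lit 3597432392) (nat_lit 152) (nat_lit 3597414105) (nat_lit 108) (nat_lit 3) (nat_lit 108) (nat_lit 1) (nat_lit 110) (nat_lit 1) (nat_lit 319) (nat_lit 345) (nat_lit 236)) (XT.nd (nat_lit 78) (nat_lit 152) (nat_lit 0) (XT.lf (nat_lit 76) (nat_lit 3433890463) (nat_lit 0) (nat_lit 3433906365) (nat_lit 76) (nat_lit 3433906365) (nat_lit 108) (nat_lit 3) (nat_lit 107) (nat_lit 1) (nat_lit 108) (nat_lit 1) (nat_lit 320) (nat_lit 345) (nat_lit 235)) (XT.lf (nat_lit 152) (nat_lit 9853794530) (nat_lit 0) (nat_lit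 4190) (nat_lit 76) (nat_lit 4190) (nat_lit 107) (nat_lit 1) (nat_lit 105) (nat_lit 1) (nat_lit 106) (nat_lit 1) (nat_lit 321) (nat_lit 345) (nat_lit 234)))) (XT.nd (nat_lit 78) (nat_lit 228) (nat_lit 0) (XT.lf (nat_lit 0) (nat_lit 3128187907) (nat_lit 0) (nat_lit 3128198363) (nat_lit 152) (nat_lit 3128187907) (nat_lit 105) (nat_lit 3) (nat_lit 105) (nat_lit 1) (nat_lit 107) (nat_lit 1) (nat_lit 322) (nat_lit 345) (nat_lit 233)) (XT.nd (nat_lit 78) (nat_lit 152) (nat_lit 0) (XT.lf (nat_lit 76) (nat_lit 2985994792) (nat_lit 0) (nat_lit 2986003884) (nat_lit 76) (nat_lit 2986003884) (nat_lit 105) (nat_lit 3) (nat_lit 104) (nat_lit 1) (nat_lit 105) (nat_lit 1) (nat_lit 323) (nat_lit 345) (nat_lit 232)) (XT.lf (nat_lit 152) (nat_lit 8568519315) (nat_lit 0) (nat_lit 2395) (nat_lit 76) (nat_lit 2395) (nat_lit 104) (nat_lit 1) (nat_lit 102) (nat_lit 1) (nat_lit 103) (nat_lit 1) (nat_lit 324) (nat_lit 345)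 (nat_lit 231))))))))
noncomputable def ec142 : XT := (XT.nd (nat_lit 1716) (nat_lit 1672) (nat_lit 0) (XT.nd (nat_lit 858) (nat_lit 836) (nat_lit 0) (XT.nd (nat_lit 390) (nat_lit 456) (nat_lit 0) (XT.nd (nat_lit 156) (nat_lit 228) (nat_lit 0) (XT.nd (nat_lit 78) (nat_lit 76) (nat_lit 0) (XT.lf (nat_lit 0) (nat_lit 2720164386) (nat_lit 0) (nat_lit 2720170364) (nat_lit 152) (nat_lit 2720164386) (nat_lit 102) (nat_lit 3) (nat_lit 102) (nat_lit 1) (nat_lit 104) (nat_lit 1) (nat_lit 325) (nat_lit 345) (nat_lit 230)) (XT.lf (nat_lit 76) (nat_lit 2596518975) (nat_lit 0) (nat_lit 2596524173) (nat_lit 76) (nat_lit 2596524173) (nat_lit 102) (nat_lit 3) (nat_lit 101) (nat_lit 1) (nat_lit 102) (nat_lit 1) (nat_lit 326) (nat_lit 345) (nat_lit 229))) (XT.nd (nat_lit 78) (nat_lit 76) (nat_lit 0) (XT.lf (nat_lit 152) (nat_lit 7450887695) (nat_lit 0) (nat_lit 1369) (nat_lit 76) (nat_lit 1369) (nat_lit 101) (nat_lit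 1) (nat_lit 99) (nat_lit 1) (nat_lit 100) (nat_lit 1) (nat_lit 327) (nat_lit 345) (nat_lit 228)) (XT.nd (nat_lit 78) (nat_lit 76) (nat_lit 0) (XT.lf (nat_lit 0) (nat_lit 2365360901) (nat_lit 0) (nat_lit 2365364319) (nat_lit 152) (nat_lit 2365360901) (nat_lit 99) (nat_lit 3) (nat_lit 99) (nat_lit 1) (nat_lit 101) (nat_lit 1) (nat_lit 328) (nat_lit 345) (nat_lit 227)) (XT.lf (nat_lit 76) (nat_lit 2257843595) (nat_lit 0) (nat_lit 2257846568) (nat_lit 76) (nat_lit 2257846568) (nat_lit 99) (nat_lit 3) (nat_lit 98) (nat_lit 1) (nat_lit 99) (nat_lit 1) (nat_lit 329) (nat_lit 345) (nat_lit 226))))) (XT.nd (nat_lit 234) (nat_lit 228) (nat_lit 0) (XT.nd (nat_lit 78) (nat_lit 76) (nat_lit 0) (XT.lf (nat_lit 152) (nat_lit 6479033541) (nat_lit 0) (nat_lit 783) (nat_lit 76) (nat_lit 783) (nat_lit 98) (nat_lit 1) (nat_lit 96) (nat_lit 1) (nat_lit 97) (nat_lit 1) (nat_lit 330) (nat_lit 345) (nat_lit 225)) (XT.nd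 (nat_lit 78) (nat_lit 76) (nat_lit 0) (XT.lf (nat_lit 0) (nat_lit 2056835889) (nat_lit 0) (nat_lit 2056837843) (nat_lit 152) (nat_lit 2056835889) (nat_lit 96) (nat_lit 3) (nat_lit 96) (nat_lit 1) (nat_lit 98) (nat_lit 1) (nat_lit 331) (nat_lit 345) (nat_lit 224)) (XT.lf (nat_lit 76) (nat_lit 1963342833) (nat_lit 0) (nat_lit 1963344533) (nat_lit 76) (nat_lit 1963344533) (nat_lit 96) (nat_lit 3) (nat_lit 95) (nat_lit 1) (nat_lit 96) (nat_lit 1) (nat_lit 332) (nat_lit 345) (nat_lit 223)))) (XT.nd (nat_lit 78) (nat_lit 76) (nat_lit 0) (XT.lf (nat_lit 152) (nat_lit 5633942645) (nat_lit 0) (nat_lit 447) (nat_lit 76) (nat_lit 447) (nat_lit 95) (nat_lit 1) (nat_lit 93) (nat_lit 1) (nat_lit 94) (nat_lit 1) (nat_lit 333) (nat_lit 345) (nat_lit 222)) (XT.nd (nat_lit 78) (nat_lit 76) (nat_lit 0) (XT.lf (nat_lit 0) (nat_lit 1788553131) (nat_lit 0) (nat_lit 1788554249) (nat_lit 152) (nat_lit 1788553131) (nat_lit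 93) (nat_lit 3) (nat_lit 93) (nat_lit 1) (nat_lit 95) (nat_lit 1) (nat_lit 334) (nat_lit 345) (nat_lit 221)) (XT.lf (nat_lit 76) (nat_lit 1707254967) (nat_lit 0) (nat_lit 1707255939) (nat_lit 76) (nat_lit 1707255939) (nat_lit 93) (nat_lit 3) (nat_lit 92) (nat_lit 1) (nat_lit 93) (nat_lit 1) (nat_lit 335) (nat_lit 345) (nat_lit 220)))))) (XT.nd (nat_lit 390) (nat_lit 456) (nat_lit 0) (XT.nd (nat_lit 156) (nat_lit 228) (nat_lit 0) (XT.nd (nat_lit 78) (nat_lit 0) (nat_lit 0) (XT.lf (nat_lit 152) (nat_lit 4899080811) (nat_lit 0) (nat_lit 256) (nat_lit 76) (nat_lit 256) (nat_lit 92) (nat_lit 1) (nat_lit 90) (nat_lit 1) (nat_lit 91) (nat_lit 1) (nat_lit 336) (nat_lit 345) (nat_lit 219)) (XT.lf (nat_lit 0) (nat_lit 1555263698) (nat_lit 0) (nat_lit 1555264337) (nat_lit 152) (nat_lit 1555263698) (nat_lit 90) (nat_lit 3) (nat_lit 90) (nat_lit 1) (nat_lit 92) (nat_lit 1) (nat_lit 337) (nat_lit 345) (nat_lit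 218))) (XT.nd (nat_lit 78) (nat_lit 152) (nat_lit 0) (XT.lf (nat_lit 76) (nat_lit 1484569725) (nat_lit 0) (nat_lit 1484570281) (nat_lit 76) (nat_lit 1484570281) (nat_lit 90) (nat_lit 3) (nat_lit 89) (nat_lit 1) (nat_lit 90) (nat_lit 1) (nat_lit 338) (nat_lit 345) (nat_lit 217)) (XT.nd (nat_lit 78) (nat_lit 0) (nat_lit 0) (XT.lf (nat_lit 152) (nat_lit 4260070413) (nat_lit 0) (nat_lit 146) (nat_lit 76) (nat_lit 146) (nat_lit 89) (nat_lit 1) (nat_lit 87) (nat_lit 1) (nat_lit 88) (nat_lit 1) (nat_lit 339) (nat_lit 345) (nat_lit 216)) (XT.lf (nat_lit 0) (nat_lit 1352403276) (nat_lit 0) (nat_lit 1352403641) (nat_lit 152) (nat_lit 1352403276) (nat_lit 87) (nat_lit 3) (nat_lit 87) (nat_lit 1) (nat_lit 89) (nat_lit 1) (nat_lit 340) (nat_lit 345) (nat_lit 215))))) (XT.nd (nat_lit 234) (nat_lit 228) (nat_lit 0) (XT.nd (nat_lit 78) (nat_lit 152) (nat_lit 0) (XT.lf (nat_lit 76) (nat_lit 1290930304) (nat_lit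 0) (nat_lit 1290930621) (nat_lit 76) (nat_lit 1290930621) (nat_lit 87) (nat_lit 3) (nat_lit 86) (nat_lit 1) (nat_lit 87) (nat_lit 1) (nat_lit 341) (nat_lit 345) (nat_lit 214)) (XT.nd (nat_lit 78) (nat_lit 0) (nat_lit 0) (XT.lf (nat_lit 152) (nat_lit 3704409136) (nat_lit 0) (nat_lit 83) (nat_lit 76) (nat_lit 83) (nat_lit 86) (nat_lit 1) (nat_lit 84) (nat_lit 1) (nat_lit 85) (nat_lit 1) (nat_lit 342) (nat_lit 345) (nat_lit 213)) (XT.lf (nat_lit 0) (nat_lit 1176002883) (nat_lit 0) (nat_lit 1176003092) (nat_lit 152) (nat_lit 1176002883) (nat_lit 84) (nat_lit 3) (nat_lit 84) (nat_lit 1) (nat_lit 86) (nat_lit 1) (nat_lit 343) (nat_lit 345) (nat_lit 212)))) (XT.nd (nat_lit 78) (nat_lit 152) (nat_lit 0) (XT.lf (nat_lit 76) (nat_lit 1122548152) (nat_lit 0) (nat_lit 1122548333) (nat_lit 76) (nat_lit 1122548333) (nat_lit 84) (nat_lit 3) (nat_lit 83) (nat_lit 1) (nat_lit 84) (nat_lit 1) (nat_lit 344) (nat_lit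 345) (nat_lit 211)) (XT.nd (nat_lit 78) (nat_lit 0) (nat_lit 0) (XT.lf (nat_lit 152) (nat_lit 3221225382) (nat_lit 0) (nat_lit 47) (nat_lit 76) (nat_lit 47) (nat_lit 83) (nat_lit 1) (nat_lit 81) (nat_lit 1) (nat_lit 82) (nat_lit 1) (nat_lit 345) (nat_lit 345) (nat_lit 210)) (XT.lf (nat_lit 0) (nat_lit 1022611223) (nat_lit 0) (nat_lit 1022611342) (nat_lit 152) (nat_lit 1022611223) (nat_lit 81) (nat_lit 3) (nat_lit 81) (nat_lit 1) (nat_lit 83) (nat_lit 1) (nat_lit 346) (nat_lit 345) (nat_lit 209))))))) (XT.nd (nat_lit 858) (nat_lit 760) (nat_lit 0) (XT.nd (nat_lit 390) (nat_lit 456) (nat_lit 0) (XT.nd (nat_lit 156) (nat_lit 228) (nat_lit 0) (XT.nd (nat_lit 78) (nat_lit 152) (nat_lit 0) (XT.lf (nat_lit 76) (nat_lit 976128863) (nat_lit 0) (nat_lit 976128967) (nat_lit 76) (nat_lit 976128967) (nat_lit 81) (nat_lit 3) (nat_lit 80) (nat_lit 1) (nat_lit 81) (nat_lit 1) (nat_lit 347) (nat_lit 345) (nat_lit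 208)) (XT.lf (nat_lit 152) (nat_lit 2801065576) (nat_lit 0) (nat_lit 27) (nat_lit 76) (nat_lit 27) (nat_lit 80) (nat_lit 1) (nat_lit 78) (nat_lit 1) (nat_lit 79) (nat_lit 1) (nat_lit 348) (nat_lit 345) (nat_lit 207))) (XT.nd (nat_lit 78) (nat_lit 228) (nat_lit 0) (XT.lf (nat_lit 0) (nat_lit 889227161) (nat_lit 0) (nat_lit 889227230) (nat_lit 152) (nat_lit 889227161) (nat_lit 78) (nat_lit 3) (nat_lit 78) (nat_lit 1) (nat_lit 80) (nat_lit 1) (nat_lit 349) (nat_lit 345) (nat_lit 206)) (XT.nd (nat_lit 78) (nat_lit 152) (nat_lit 0) (XT.lf (nat_lit 76) (nat_lit 848807727) (nat_lit 0) (nat_lit 848807786) (nat_lit 76) (nat_lit 848807786) (nat_lit 78) (nat_lit 3) (nat_lit 77) (nat_lit 1) (nat_lit 78) (nat_lit 1) (nat_lit 350) (nat_lit 345) (nat_lit 205)) (XT.lf (nat_lit 152) (nat_lit 2435709212) (nat_lit 0) (nat_lit 15) (nat_lit 76) (nat_lit 15) (nat_lit 77) (nat_lit 1) (nat_lit 75) (nat_lit 1) (nat_lit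 76) (nat_lit 1) (nat_lit 351) (nat_lit 345) (nat_lit 204))))) (XT.nd (nat_lit 234) (nat_lit 228) (nat_lit 0) (XT.nd (nat_lit 78) (nat_lit 228) (nat_lit 0) (XT.lf (nat_lit 0) (nat_lit 773241016) (nat_lit 0) (nat_lit 773241055) (nat_lit 152) (nat_lit 773241016) (nat_lit 75) (nat_lit 3) (nat_lit 75) (nat_lit 1) (nat_lit 77) (nat_lit 1) (nat_lit 352) (nat_lit 345) (nat_lit 203)) (XT.nd (nat_lit 78) (nat_lit 152) (nat_lit 0) (XT.lf (nat_lit 76) (nat_lit 738093687) (nat_lit 0) (nat_lit 738093721) (nat_lit 76) (nat_lit 738093721) (nat_lit 75) (nat_lit 3) (nat_lit 74) (nat_lit 1) (nat_lit 75) (nat_lit 1) (nat_lit 353) (nat_lit 345) (nat_lit 202)) (XT.lf (nat_lit 152) (nat_lit 2118008019) (nat_lit 0) (nat_lit 8) (nat_lit 76) (nat_lit 8) (nat_lit 74) (nat_lit 1) (nat_lit 72) (nat_lit 1) (nat_lit 73) (nat_lit 1) (nat_lit 354) (nat_lit 345) (nat_lit 201)))) (XT.nd (nat_lit 78) (nat_lit 228) (nat_lit 0) (XT.lf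 (nat_lit 0) (nat_lit 672383496) (nat_lit 0) (nat_lit 672383518) (nat_lit 152) (nat_lit 672383496) (nat_lit 72) (nat_lit 3) (nat_lit 72) (nat_lit 1) (nat_lit 74) (nat_lit 1) (nat_lit 355) (nat_lit 345) (nat_lit 200)) (XT.nd (nat_lit 78) (nat_lit 152) (nat_lit 0) (XT.lf (nat_lit 76) (nat_lit 641820604) (nat_lit 0) (nat_lit 641820623) (nat_lit 76) (nat_lit 641820623) (nat_lit 72) (nat_lit 3) (nat_lit 71) (nat_lit 1) (nat_lit 72) (nat_lit 1) (nat_lit 356) (nat_lit 345) (nat_lit 199)) (XT.lf (nat_lit 152) (nat_lit 1841746108) (nat_lit 0) (nat_lit 5) (nat_lit 76) (nat_lit 5) (nat_lit 71) (nat_lit 1) (nat_lit 69) (nat_lit 1) (nat_lit 70) (nat_lit 1) (nat_lit 357) (nat_lit 345) (nat_lit 198)))))) (XT.nd (nat_lit 390) (nat_lit 456) (nat_lit 0) (XT.nd (nat_lit 156) (nat_lit 228) (nat_lit 0) (XT.nd (nat_lit 78) (nat_lit 76) (nat_lit 0) (XT.lf (nat_lit 0) (nat_lit 584681303) (nat_lit 0) (nat_lit 584681316)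 (nat_lit 152) (nat_lit 584681303) (nat_lit 69) (nat_lit 3) (nat_lit 69) (nat_lit 1) (nat_lit 71) (nat_lit 1) (nat_lit 358) (nat_lit 345) (nat_lit 197)) (XT.lf (nat_lit 76) (nat_lit 558104877) (nat_lit 0) (nat_lit 558104888) (nat_lit 76) (nat_lit 558104888) (nat_lit 69) (nat_lit 3) (nat_lit 68) (nat_lit 1) (nat_lit 69) (nat_lit 1) (nat_lit 359) (nat_lit 345) (nat_lit 196))) (XT.nd (nat_lit 78) (nat_lit 76) (nat_lit 0) (XT.lf (nat_lit 152) (nat_lit 1601518358) (nat_lit 0) (nat_lit 2) (nat_lit 76) (nat_lit 2) (nat_lit 68) (nat_lit 1) (nat_lit 66) (nat_lit 1) (nat_lit 67) (nat_lit 1) (nat_lit 360) (nat_lit 345) (nat_lit 195)) (XT.nd (nat_lit 78) (nat_lit 76) (nat_lit 0) (XT.lf (nat_lit 0) (nat_lit 508418525) (nat_lit 0) (nat_lit 508418533) (nat_lit 152) (nat_lit 508418525) (nat_lit 66) (nat_lit 3) (nat_lit 66) (nat_lit 1) (nat_lit 68) (nat_lit 1) (nat_lit 361) (nat_lit 345) (nat_lit 194)) (XT.lf (nat_lit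 76) (nat_lit 485308590) (nat_lit 0) (nat_lit 485308597) (nat_lit 76) (nat_lit 485308597) (nat_lit 66) (nat_lit 3) (nat_lit 65) (nat_lit 1) (nat_lit 66) (nat_lit 1) (nat_lit 362) (nat_lit 345) (nat_lit 193))))) (XT.nd (nat_lit 234) (nat_lit 228) (nat_lit 0) (XT.nd (nat_lit 78) (nat_lit 76) (nat_lit 0) (XT.lf (nat_lit 152) (nat_lit 1392624661) (nat_lit 0) (nat_lit 1) (nat_lit 76) (nat_lit 1) (nat_lit 65) (nat_lit 1) (nat_lit 63) (nat_lit 1) (nat_lit 64) (nat_lit 1) (nat_lit 363) (nat_lit 345) (nat_lit 192)) (XT.nd (nat_lit 78) (nat_lit 76) (nat_lit 0) (XT.lf (nat_lit 0) (nat_lit 442103066) (nat_lit 0) (nat_lit 442103070) (nat_lit 152) (nat_lit 442103066) (nat_lit 63) (nat_lit 3) (nat_lit 63) (nat_lit 1) (nat_lit 65) (nat_lit 1) (nat_lit 364) (nat_lit 345) (nat_lit 191)) (XT.lf (nat_lit 76) (nat_lit 422007471) (nat_lit 0) (nat_lit 422007475) (nat_lit 76) (nat_lit 422007475) (nat_lit 63) (nat_lit 3)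 (nat_lit 62) (nat_lit 1) (nat_lit 63) (nat_lit 1) (nat_lit 365) (nat_lit 345) (nat_lit 190)))) (XT.nd (nat_lit 78) (nat_lit 228) (nat_lit 0) (XT.lf (nat_lit 0) (nat_lit 1210977967) (nat_lit 0) (nat_lit 0) (nat_lit 0) (nat_lit 0) (nat_lit 62) (nat_lit 1) (nat_lit 1) (nat_lit 0) (nat_lit 1) (nat_lit 0) (nat_lit 366) (nat_lit 345) (nat_lit 189)) (XT.nd (nat_lit 78) (nat_lit 76) (nat_lit 0) (XT.lf (nat_lit 0) (nat_lit 384437449) (nat_lit 0) (nat_lit 384437452) (nat_lit 152) (nat_lit 384437449) (nat_lit 60) (nat_lit 3) (nat_lit 60) (nat_lit 1) (nat_lit 62) (nat_lit 1) (nat_lit 367) (nat_lit 345) (nat_lit 188)) (XT.lf (nat_lit 76) (nat_lit 366963019) (nat_lit 0) (nat_lit 366963021) (nat_lit 76) (nat_lit 366963021) (nat_lit 60) (nat_lit 3) (nat_lit 59) (nat_lit 1) (nat_lit 60) (nat_lit 1) (nat_lit 368) (nat_lit 345) (nat_lit 187))))))))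
noncomputable def ec143 : XT := (XT.nd (nat_lit 35802) (nat_lit 0) (nat_lit 9120) (XT.nd (nat_lit 34944) (nat_lit 0) (nat_lit 10792) (XT.nd (nat_lit 34476) (nat_lit 0) (nat_lit 11780) (XT.nd (nat_lit 156) (nat_lit 76) (nat_lit 0) (XT.nd (nat_lit 78) (nat_lit 152) (nat_lit 0) (XT.lf (nat_lit 0) (nat_lit 1053024319) (nat_lit 0) (nat_lit 0) (nat_lit 0) (nat_lit 0) (nat_lit 59) (nat_lit 1) (nat_lit 1) (nat_lit 0) (nat_lit 1) (nat_lit 0) (nat_lit 369) (nat_lit 345) (nat_lit 186)) (XT.lf (nat_lit 0) (nat_lit 334293434) (nat_lit 0) (nat_lit 334293436) (nat_lit 152) (nat_lit 334293434) (nat_lit 57) (nat_lit 3) (nat_lit 57) (nat_lit 1) (nat_lit 59) (nat_lit 1) (nat_lit 370) (nat_lit 345) (nat_lit 185))) (XT.nd (nat_lit 34164) (nat_lit 0) (nat_lit 12084) (XT.lf (nat_lit 76) (nat_lit 319098278) (nat_lit 0) (nat_lit 319098279) (nat_lit 76) (nat_lit 319098279) (nat_lit 57) (nat_lit 3) (nat_lit 56) (nat_lit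 1) (nat_lit 57) (nat_lit 1) (nat_lit 371) (nat_lit 345) (nat_lit 184)) (XT.nd (nat_lit 78) (nat_lit 0) (nat_lit 0) (XT.lf (nat_lit 380) (nat_lit 434735488716) (nat_lit 0) (nat_lit 385055921836) (nat_lit 380) (nat_lit 434735488716) (nat_lit 220) (nat_lit 1) (nat_lit 215) (nat_lit 0) (nat_lit 220) (nat_lit 0) (nat_lit 208) (nat_lit 346) (nat_lit 346)) (XT.lf (nat_lit 380) (nat_lit 1608030155039) (nat_lit 76) (nat_lit 367553379934) (nat_lit 0) (nat_lit 367553379934) (nat_lit 220) (nat_lit 1) (nat_lit 216) (nat_lit 1) (nat_lit 215) (nat_lit 0) (nat_lit 209) (nat_lit 346) (nat_lit 345))))) (XT.nd (nat_lit 234) (nat_lit 380) (nat_lit 0) (XT.nd (nat_lit 78) (nat_lit 0) (nat_lit 0) (XT.lf (nat_lit 380) (nat_lit 708810471418) (nat_lit 0) (nat_lit 771252656149) (nat_lit 304) (nat_lit 708810471418) (nat_lit 221) (nat_lit 1) (nat_lit 216) (nat_lit 1) (nat_lit 220) (nat_lit 1) (nat_lit 210) (nat_lit 346) (nat_lit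 344)) (XT.nd (nat_lit 78) (nat_lit 0) (nat_lit 76) (XT.lf (nat_lit 380) (nat_lit 1216990775919) (nat_lit 76) (nat_lit 416584082508) (nat_lit 0) (nat_lit 416584082508) (nat_lit 221) (nat_lit 1) (nat_lit 217) (nat_lit 1) (nat_lit 216) (nat_lit 1) (nat_lit 211) (nat_lit 346) (nat_lit 343)) (XT.lf (nat_lit 76) (nat_lit 492288909749) (nat_lit 0) (nat_lit 937400730734) (nat_lit 304) (nat_lit 492288909749) (nat_lit 218) (nat_lit 1) (nat_lit 217) (nat_lit 1) (nat_lit 221) (nat_lit 1) (nat_lit 212) (nat_lit 346) (nat_lit 342)))) (XT.nd (nat_lit 78) (nat_lit 152) (nat_lit 0) (XT.lf (nat_lit 380) (nat_lit 739870472398) (nat_lit 0) (nat_lit 532544578342) (nat_lit 304) (nat_lit 532544578342) (nat_lit 218) (nat_lit 1) (nat_lit 213) (nat_lit 1) (nat_lit 217) (nat_lit 1) (nat_lit 213) (nat_lit 346) (nat_lit 341)) (XT.nd (nat_lit 78) (nat_lit 152) (nat_lit 0) (XT.lf (nat_lit 76) (nat_lit 245924773831) (nat_lit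 0) (nat_lit 1206759029040) (nat_lit 380) (nat_lit 245924773831) (nat_lit 214) (nat_lit 1) (nat_lit 213) (nat_lit 1) (nat_lit 218) (nat_lit 1) (nat_lit 214) (nat_lit 346) (nat_lit 340)) (XT.lf (nat_lit 228) (nat_lit 221326495191) (nat_lit 0) (nat_lit 688824103864) (nat_lit 152) (nat_lit 688824103864) (nat_lit 214) (nat_lit 1) (nat_lit 211) (nat_lit 1) (nat_lit 213) (nat_lit 1) (nat_lit 215) (nat_lit 346) (nat_lit 339)))))) (XT.nd (nat_lit 390) (nat_lit 532) (nat_lit 0) (XT.nd (nat_lit 156) (nat_lit 228) (nat_lit 0) (XT.nd (nat_lit 78) (nat_lit 0) (nat_lit 0) (XT.lf (nat_lit 228) (nat_lit 1487311262805) (nat_lit 0) (nat_lit 11669460722) (nat_lit 152) (nat_lit 11669460722) (nat_lit 211) (nat_lit 1) (nat_lit 208) (nat_lit 1) (nat_lit 210) (nat_lit 1) (nat_lit 216) (nat_lit 346) (nat_lit 338)) (XT.lf (nat_lit 76) (nat_lit 571434493724) (nat_lit 0) (nat_lit 280543919168) (nat_lit 228) (nat_lit 571434493724)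 (nat_lit 209) (nat_lit 1) (nat_lit 208) (nat_lit 1) (nat_lit 211) (nat_lit 1) (nat_lit 217) (nat_lit 346) (nat_lit 337))) (XT.nd (nat_lit 78) (nat_lit 76) (nat_lit 0) (XT.lf (nat_lit 228) (nat_lit 830601969075) (nat_lit 0) (nat_lit 257644565693) (nat_lit 152) (nat_lit 257644565693) (nat_lit 209) (nat_lit 1) (nat_lit 206) (nat_lit 1) (nat_lit 208) (nat_lit 1) (nat_lit 218) (nat_lit 346) (nat_lit 336)) (XT.nd (nat_lit 78) (nat_lit 76) (nat_lit 0) (XT.lf (nat_lit 76) (nat_lit 259756478320) (nat_lit 0) (nat_lit 753808859156) (nat_lit 228) (nat_lit 259756478320) (nat_lit 207) (nat_lit 1) (nat_lit 206) (nat_lit 1) (nat_lit 209) (nat_lit 1) (nat_lit 219) (nat_lit 346) (nat_lit 335)) (XT.lf (nat_lit 152) (nat_lit 214736732862) (nat_lit 0) (nat_lit 495506067327) (nat_lit 76) (nat_lit 495506067327) (nat_lit 207) (nat_lit 1) (nat_lit 205) (nat_lit 1) (nat_lit 206) (nat_lit 1) (nat_lit 220) (nat_lit 346) (nat_lit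 334))))) (XT.nd (nat_lit 234) (nat_lit 228) (nat_lit 0) (XT.nd (nat_lit 78) (nat_lit 76) (nat_lit 0) (XT.lf (nat_lit 228) (nat_lit 1087123569105) (nat_lit 0) (nat_lit 28880550267) (nat_lit 152) (nat_lit 28880550267) (nat_lit 205) (nat_lit 1) (nat_lit 202) (nat_lit 1) (nat_lit 204) (nat_lit 1) (nat_lit 221) (nat_lit 346) (nat_lit 333)) (XT.nd (nat_lit 78) (nat_lit 76) (nat_lit 0) (XT.lf (nat_lit 76) (nat_lit 380469867914) (nat_lit 0) (nat_lit 323107425328) (nat_lit 228) (nat_lit 380469867914) (nat_lit 203) (nat_lit 1) (nat_lit 202) (nat_lit 1) (nat_lit 205) (nat_lit 1) (nat_lit 222) (nat_lit 346) (nat_lit 332)) (XT.lf (nat_lit 152) (nat_lit 462614918784) (nat_lit 0) (nat_lit 283307202205) (nat_lit 76) (nat_lit 283307202205) (nat_lit 203) (nat_lit 1) (nat_lit 201) (nat_lit 1) (nat_lit 202) (nat_lit 1) (nat_lit 223) (nat_lit 346) (nat_lit 331)))) (XT.nd (nat_lit 78) (nat_lit 228) (nat_lit 0) (XT.lf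 (nat_lit 0) (nat_lit 90586376275) (nat_lit 0) (nat_lit 797515500871) (nat_lit 152) (nat_lit 90586376275) (nat_lit 201) (nat_lit 3) (nat_lit 201) (nat_lit 1) (nat_lit 203) (nat_lit 1) (nat_lit 224) (nat_lit 346) (nat_lit 330)) (XT.nd (nat_lit 78) (nat_lit 76) (nat_lit 0) (XT.lf (nat_lit 76) (nat_lit 419233367370) (nat_lit 0) (nat_lit 90924470018) (nat_lit 152) (nat_lit 419233367370) (nat_lit 200) (nat_lit 1) (nat_lit 199) (nat_lit 1) (nat_lit 201) (nat_lit 1) (nat_lit 225) (nat_lit 346) (nat_lit 329)) (XT.lf (nat_lit 152) (nat_lit 560013315903) (nat_lit 0) (nat_lit 161981812360) (nat_lit 76) (nat_lit 161981812360) (nat_lit 200) (nat_lit 1) (nat_lit 198) (nat_lit 1) (nat_lit 199) (nat_lit 1) (nat_lit 226) (nat_lit 346) (nat_lit 328))))))) (XT.nd (nat_lit 858) (nat_lit 912) (nat_lit 0) (XT.nd (nat_lit 390) (nat_lit 456) (nat_lit 0) (XT.nd (nat_lit 156) (nat_lit 228) (nat_lit 0) (XT.nd (nat_lit 78)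 (nat_lit 76) (nat_lit 0) (XT.lf (nat_lit 0) (nat_lit 145606303730) (nat_lit 0) (nat_lit 549795325122) (nat_lit 152) (nat_lit 145606303730) (nat_lit 198) (nat_lit 3) (nat_lit 198) (nat_lit 1) (nat_lit 200) (nat_lit 1) (nat_lit 227) (nat_lit 346) (nat_lit 327)) (XT.lf (nat_lit 76) (nat_lit 32482164393) (nat_lit 0) (nat_lit 383950878646) (nat_lit 76) (nat_lit 383950878646) (nat_lit 198) (nat_lit 3) (nat_lit 197) (nat_lit 1) (nat_lit 198) (nat_lit 1) (nat_lit 228) (nat_lit 346) (nat_lit 326))) (XT.nd (nat_lit 78) (nat_lit 76) (nat_lit 0) (XT.lf (nat_lit 152) (nat_lit 577156156706) (nat_lit 0) (nat_lit 92613626944) (nat_lit 76) (nat_lit 92613626944) (nat_lit 197) (nat_lit 1) (nat_lit 195) (nat_lit 1) (nat_lit 196) (nat_lit 1) (nat_lit 229) (nat_lit 346) (nat_lit 325)) (XT.nd (nat_lit 78) (nat_lit 76) (nat_lit 0) (XT.lf (nat_lit 0) (nat_lit 164827615074) (nat_lit 0) (nat_lit 395923999888) (nat_lit 152)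 (nat_lit 164827615074) (nat_lit 195) (nat_lit 3) (nat_lit 195) (nat_lit 1) (nat_lit 197) (nat_lit 1) (nat_lit 230) (nat_lit 346) (nat_lit 324)) (XT.lf (nat_lit 76) (nat_lit 96440487692) (nat_lit 0) (nat_lit 297393865791) (nat_lit 76) (nat_lit 297393865791) (nat_lit 195) (nat_lit 3) (nat_lit 194) (nat_lit 1) (nat_lit 195) (nat_lit 1) (nat_lit 231) (nat_lit 346) (nat_lit 323))))) (XT.nd (nat_lit 234) (nat_lit 228) (nat_lit 0) (XT.nd (nat_lit 78) (nat_lit 76) (nat_lit 0) (XT.lf (nat_lit 152) (nat_lit 553440232561) (nat_lit 0) (nat_lit 52952141791) (nat_lit 76) (nat_lit 52952141791) (nat_lit 194) (nat_lit 1) (nat_lit 192) (nat_lit 1) (nat_lit 193) (nat_lit 1) (nat_lit 232) (nat_lit 346) (nat_lit 322)) (XT.nd (nat_lit 78) (nat_lit 76) (nat_lit 0) (XT.lf (nat_lit 0) (nat_lit 165177018088) (nat_lit 0) (nat_lit 297307126150) (nat_lit 152) (nat_lit 165177018088) (nat_lit 192) (nat_lit 3) (nat_lit 192) (nat_lit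 1) (nat_lit 194) (nat_lit 1) (nat_lit 233) (nat_lit 346) (nat_lit 321)) (XT.lf (nat_lit 76) (nat_lit 122852079042) (nat_lit 0) (nat_lit 237747825183) (nat_lit 76) (nat_lit 237747825183) (nat_lit 192) (nat_lit 3) (nat_lit 191) (nat_lit 1) (nat_lit 192) (nat_lit 1) (nat_lit 234) (nat_lit 346) (nat_lit 320)))) (XT.nd (nat_lit 78) (nat_lit 76) (nat_lit 0) (XT.lf (nat_lit 152) (nat_lit 510735011601) (nat_lit 0) (nat_lit 30275558930) (nat_lit 76) (nat_lit 30275558930) (nat_lit 191) (nat_lit 1) (nat_lit 189) (nat_lit 1) (nat_lit 190) (nat_lit 1) (nat_lit 235) (nat_lit 346) (nat_lit 319)) (XT.nd (nat_lit 78) (nat_lit 76) (nat_lit 0) (XT.lf (nat_lit 0) (nat_lit 156124230282) (nat_lit 0) (nat_lit 231670048407) (nat_lit 152) (nat_lit 156124230282) (nat_lit 189) (nat_lit 3) (nat_lit 189) (nat_lit 1) (nat_lit 191) (nat_lit 1) (nat_lit 236) (nat_lit 346) (nat_lit 318)) (XT.lf (nat_lit 76) (nat_lit 129121002917)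 (nat_lit 0) (nat_lit 194813018678) (nat_lit 76) (nat_lit 194813018678) (nat_lit 189) (nat_lit 3) (nat_lit 188) (nat_lit 1) (nat_lit 189) (nat_lit 1) (nat_lit 237) (nat_lit 346) (nat_lit 317)))))) (XT.nd (nat_lit 468) (nat_lit 456) (nat_lit 0) (XT.nd (nat_lit 234) (nat_lit 228) (nat_lit 0) (XT.nd (nat_lit 78) (nat_lit 76) (nat_lit 0) (XT.lf (nat_lit 152) (nat_lit 460974193905) (nat_lit 0) (nat_lit 17310149080) (nat_lit 76) (nat_lit 17310149080) (nat_lit 188) (nat_lit 1) (nat_lit 186) (nat_lit 1) (nat_lit 187) (nat_lit 1) (nat_lit 238) (nat_lit 346) (nat_lit 316)) (XT.nd (nat_lit 78) (nat_lit 76) (nat_lit 0) (XT.lf (nat_lit 0) (nat_lit 142902565025) (nat_lit 0) (nat_lit 186096131729) (nat_lit 152) (nat_lit 142902565025) (nat_lit 186) (nat_lit 3) (nat_lit 186) (nat_lit 1) (nat_lit 188) (nat_lit 1) (nat_lit 239) (nat_lit 346) (nat_lit 315)) (XT.lf (nat_lit 76) (nat_lit 125025289881) (nat_lit 0) (nat_lit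 162584913102) (nat_lit 76) (nat_lit 162584913102) (nat_lit 186) (nat_lit 3) (nat_lit 185) (nat_lit 1) (nat_lit 186) (nat_lit 1) (nat_lit 240) (nat_lit 346) (nat_lit 314)))) (XT.nd (nat_lit 78) (nat_lit 76) (nat_lit 0) (XT.lf (nat_lit 152) (nat_lit 410485050964) (nat_lit 0) (nat_lit 9897133918) (nat_lit 76) (nat_lit 9897133918) (nat_lit 185) (nat_lit 1) (nat_lit 183) (nat_lit 1) (nat_lit 184) (nat_lit 1) (nat_lit 241) (nat_lit 346) (nat_lit 313)) (XT.nd (nat_lit 78) (nat_lit 76) (nat_lit 0) (XT.lf (nat_lit 0) (nat_lit 128346770266) (nat_lit 0) (nat_lit 153042832218) (nat_lit 152) (nat_lit 128346770266) (nat_lit 183) (nat_lit 3) (nat_lit 183) (nat_lit 1) (nat_lit 185) (nat_lit 1) (nat_lit 242) (nat_lit 346) (nat_lit 312)) (XT.lf (nat_lit 76) (nat_lit 116005299957) (nat_lit 0) (nat_lit 137480136437) (nat_lit 76) (nat_lit 137480136437) (nat_lit 183) (nat_lit 3) (nat_lit 182) (nat_lit 1) (nat_lit 183)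 (nat_lit 1) (nat_lit 243) (nat_lit 346) (nat_lit 311))))) (XT.nd (nat_lit 234) (nat_lit 228) (nat_lit 0) (XT.nd (nat_lit 78) (nat_lit 76) (nat_lit 0) (XT.lf (nat_lit 152) (nat_lit 362454037952) (nat_lit 0) (nat_lit 5658718439) (nat_lit 76) (nat_lit 5658718439) (nat_lit 182) (nat_lit 1) (nat_lit 180) (nat_lit 1) (nat_lit 181) (nat_lit 1) (nat_lit 244) (nat_lit 346) (nat_lit 310)) (XT.nd (nat_lit 78) (nat_lit 76) (nat_lit 0) (XT.lf (nat_lit 0) (nat_lit 113940738904) (nat_lit 0) (nat_lit 128060792478) (nat_lit 152) (nat_lit 113940738904) (nat_lit 180) (nat_lit 3) (nat_lit 180) (nat_lit 1) (nat_lit 182) (nat_lit 1) (nat_lit 245) (nat_lit 346) (nat_lit 309)) (XT.lf (nat_lit 76) (nat_lit 105040915179) (nat_lit 0) (nat_lit 117319222635) (nat_lit 76) (nat_lit 117319222635) (nat_lit 180) (nat_lit 3) (nat_lit 179) (nat_lit 1) (nat_lit 180) (nat_lit 1) (nat_lit 246) (nat_lit 346) (nat_lit 308)))) (XT.nd (nat_lit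 78) (nat_lit 76) (nat_lit 0) (XT.lf (nat_lit 152) (nat_lit 318328079356) (nat_lit 0) (nat_lit 3235390633) (nat_lit 76) (nat_lit 3235390633) (nat_lit 179) (nat_lit 1) (nat_lit 177) (nat_lit 1) (nat_lit 178) (nat_lit 1) (nat_lit 247) (nat_lit 346) (nat_lit 307)) (XT.nd (nat_lit 78) (nat_lit 76) (nat_lit 0) (XT.lf (nat_lit 0) (nat_lit 100413862441) (nat_lit 0) (nat_lit 108487048900) (nat_lit 152) (nat_lit 100413862441) (nat_lit 177) (nat_lit 3) (nat_lit 177) (nat_lit 1) (nat_lit 179) (nat_lit 1) (nat_lit 248) (nat_lit 346) (nat_lit 306)) (XT.lf (nat_lit 76) (nat_lit 93722274106) (nat_lit 0) (nat_lit 100742436245) (nat_lit 76) (nat_lit 100742436245) (nat_lit 177) (nat_lit 3) (nat_lit 176) (nat_lit 1) (nat_lit 177) (nat_lit 1) (nat_lit 249) (nat_lit 346) (nat_lit 305))))))))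
noncomputable def ec144 : XT := (XT.nd (nat_lit 1716) (nat_lit 1596) (nat_lit 0) (XT.nd (nat_lit 858) (nat_lit 912) (nat_lit 0) (XT.nd (nat_lit 390) (nat_lit 456) (nat_lit 0) (XT.nd (nat_lit 156) (nat_lit 228) (nat_lit 0) (XT.nd (nat_lit 78) (nat_lit 0) (nat_lit 0) (XT.lf (nat_lit 152) (nat_lit 278608422777) (nat_lit 0) (nat_lit 1849845095) (nat_lit 76) (nat_lit 1849845095) (nat_lit 176) (nat_lit 1) (nat_lit 174) (nat_lit 1) (nat_lit 175) (nat_lit 1) (nat_lit 250) (nat_lit 346) (nat_lit 304)) (XT.lf (nat_lit 0) (nat_lit 88079669290) (nat_lit 0) (nat_lit 92695539850) (nat_lit 152) (nat_lit 88079669290) (nat_lit 174) (nat_lit 3) (nat_lit 174) (nat_lit 1) (nat_lit 176) (nat_lit 1) (nat_lit 251) (nat_lit 346) (nat_lit 303))) (XT.nd (nat_lit 78) (nat_lit 152) (nat_lit 0) (XT.lf (nat_lit 76) (nat_lit 82859744781) (nat_lit 0) (nat_lit 86873545268) (nat_lit 76) (nat_lit 86873545268) (nat_lit 174) (nat_lit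 3) (nat_lit 173) (nat_lit 1) (nat_lit 174) (nat_lit 1) (nat_lit 252) (nat_lit 346) (nat_lit 302)) (XT.nd (nat_lit 78) (nat_lit 0) (nat_lit 0) (XT.lf (nat_lit 152) (nat_lit 243298148444) (nat_lit 0) (nat_lit 1057654937) (nat_lit 76) (nat_lit 1057654937) (nat_lit 173) (nat_lit 1) (nat_lit 171) (nat_lit 1) (nat_lit 172) (nat_lit 1) (nat_lit 253) (nat_lit 346) (nat_lit 301)) (XT.lf (nat_lit 0) (nat_lit 77027417254) (nat_lit 0) (nat_lit 79666556228) (nat_lit 152) (nat_lit 77027417254) (nat_lit 171) (nat_lit 3) (nat_lit 171) (nat_lit 1) (nat_lit 173) (nat_lit 1) (nat_lit 254) (nat_lit 346) (nat_lit 300))))) (XT.nd (nat_lit 234) (nat_lit 228) (nat_lit 0) (XT.nd (nat_lit 78) (nat_lit 152) (nat_lit 0) (XT.lf (nat_lit 76) (nat_lit 72830745726) (nat_lit 0) (nat_lit 75125649182) (nat_lit 76) (nat_lit 75125649182) (nat_lit 171) (nat_lit 3) (nat_lit 170) (nat_lit 1) (nat_lit 171) (nat_lit 1) (nat_lit 255) (nat_lit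 346) (nat_lit 299)) (XT.nd (nat_lit 78) (nat_lit 0) (nat_lit 0) (XT.lf (nat_lit 152) (nat_lit 212152487299) (nat_lit 0) (nat_lit 604717643) (nat_lit 76) (nat_lit 604717643) (nat_lit 170) (nat_lit 1) (nat_lit 168) (nat_lit 1) (nat_lit 169) (nat_lit 1) (nat_lit 256) (nat_lit 346) (nat_lit 298)) (XT.lf (nat_lit 0) (nat_lit 67229876221) (nat_lit 0) (nat_lit 68738812495) (nat_lit 152) (nat_lit 67229876221) (nat_lit 168) (nat_lit 3) (nat_lit 168) (nat_lit 1) (nat_lit 170) (nat_lit 1) (nat_lit 257) (nat_lit 346) (nat_lit 297)))) (XT.nd (nat_lit 78) (nat_lit 152) (nat_lit 0) (XT.lf (nat_lit 76) (nat_lit 63776361090) (nat_lit 0) (nat_lit 65088479589) (nat_lit 76) (nat_lit 65088479589) (nat_lit 168) (nat_lit 3) (nat_lit 167) (nat_lit 1) (nat_lit 168) (nat_lit 1) (nat_lit 258) (nat_lit 346) (nat_lit 296)) (XT.nd (nat_lit 78) (nat_lit 0) (nat_lit 0) (XT.lf (nat_lit 152) (nat_lit 184817117765) (nat_lit 0) (nat_lit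 345749275) (nat_lit 76) (nat_lit 345749275) (nat_lit 167) (nat_lit 1) (nat_lit 165) (nat_lit 1) (nat_lit 166) (nat_lit 1) (nat_lit 259) (nat_lit 346) (nat_lit 295)) (XT.lf (nat_lit 0) (nat_lit 58603422022) (nat_lit 0) (nat_lit 59466161234) (nat_lit 152) (nat_lit 58603422022) (nat_lit 165) (nat_lit 3) (nat_lit 165) (nat_lit 1) (nat_lit 167) (nat_lit 1) (nat_lit 260) (nat_lit 346) (nat_lit 294)))))) (XT.nd (nat_lit 390) (nat_lit 456) (nat_lit 0) (XT.nd (nat_lit 156) (nat_lit 228) (nat_lit 0) (XT.nd (nat_lit 78) (nat_lit 152) (nat_lit 0) (XT.lf (nat_lit 76) (nat_lit 55712294351) (nat_lit 0) (nat_lit 56462502362) (nat_lit 76) (nat_lit 56462502362) (nat_lit 165) (nat_lit 3) (nat_lit 164) (nat_lit 1) (nat_lit 165) (nat_lit 1) (nat_lit 261) (nat_lit 346) (nat_lit 293)) (XT.lf (nat_lit 152) (nat_lit 160903043089) (nat_lit 0) (nat_lit 197683270) (nat_lit 76) (nat_lit 197683270) (nat_lit 164) (nat_lit 1)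 (nat_lit 162) (nat_lit 1) (nat_lit 163) (nat_lit 1) (nat_lit 262) (nat_lit 346) (nat_lit 292))) (XT.nd (nat_lit 78) (nat_lit 228) (nat_lit 0) (XT.lf (nat_lit 0) (nat_lit 51041063781) (nat_lit 0) (nat_lit 51534337725) (nat_lit 152) (nat_lit 51041063781) (nat_lit 162) (nat_lit 3) (nat_lit 162) (nat_lit 1) (nat_lit 164) (nat_lit 1) (nat_lit 263) (nat_lit 346) (nat_lit 291)) (XT.nd (nat_lit 78) (nat_lit 152) (nat_lit 0) (XT.lf (nat_lit 76) (nat_lit 48591035468) (nat_lit 0) (nat_lit 49019969333) (nat_lit 76) (nat_lit 49019969333) (nat_lit 162) (nat_lit 3) (nat_lit 161) (nat_lit 1) (nat_lit 162) (nat_lit 1) (nat_lit 264) (nat_lit 346) (nat_lit 290)) (XT.lf (nat_lit 152) (nat_lit 140025755517) (nat_lit 0) (nat_lit 113026051) (nat_lit 76) (nat_lit 113026051) (nat_lit 161) (nat_lit 1) (nat_lit 159) (nat_lit 1) (nat_lit 160) (nat_lit 1) (nat_lit 265) (nat_lit 346) (nat_lit 289))))) (XT.nd (nat_lit 234) (nat_lit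 228) (nat_lit 0) (XT.nd (nat_lit 78) (nat_lit 228) (nat_lit 0) (XT.lf (nat_lit 0) (nat_lit 44430169559) (nat_lit 0) (nat_lit 44712200538) (nat_lit 152) (nat_lit 44430169559) (nat_lit 159) (nat_lit 3) (nat_lit 159) (nat_lit 1) (nat_lit 161) (nat_lit 1) (nat_lit 266) (nat_lit 346) (nat_lit 288)) (XT.nd (nat_lit 78) (nat_lit 152) (nat_lit 0) (XT.lf (nat_lit 76) (nat_lit 42336299934) (nat_lit 0) (nat_lit 42581544263) (nat_lit 76) (nat_lit 42581544263) (nat_lit 159) (nat_lit 3) (nat_lit 158) (nat_lit 1) (nat_lit 159) (nat_lit 1) (nat_lit 267) (nat_lit 346) (nat_lit 287)) (XT.lf (nat_lit 152) (nat_lit 121824457057) (nat_lit 0) (nat_lit 64623011) (nat_lit 76) (nat_lit 64623011) (nat_lit 158) (nat_lit 1) (nat_lit 156) (nat_lit 1) (nat_lit 157) (nat_lit 1) (nat_lit 268) (nat_lit 346) (nat_lit 286)))) (XT.nd (nat_lit 78) (nat_lit 228) (nat_lit 0) (XT.lf (nat_lit 0) (nat_lit 38661594242) (nat_lit 0) (nat_lit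 38822846370) (nat_lit 152) (nat_lit 38661594242) (nat_lit 156) (nat_lit 3) (nat_lit 156) (nat_lit 1) (nat_lit 158) (nat_lit 1) (nat_lit 269) (nat_lit 346) (nat_lit 285)) (XT.nd (nat_lit 78) (nat_lit 152) (nat_lit 0) (XT.lf (nat_lit 76) (nat_lit 36861758370) (nat_lit 0) (nat_lit 37001977612) (nat_lit 76) (nat_lit 37001977612) (nat_lit 156) (nat_lit 3) (nat_lit 155) (nat_lit 1) (nat_lit 156) (nat_lit 1) (nat_lit 270) (nat_lit 346) (nat_lit 284)) (XT.lf (nat_lit 152) (nat_lit 105970291214) (nat_lit 0) (nat_lit 36948416) (nat_lit 76) (nat_lit 36948416) (nat_lit 155) (nat_lit 1) (nat_lit 153) (nat_lit 1) (nat_lit 154) (nat_lit 1) (nat_lit 271) (nat_lit 346) (nat_lit 283))))))) (XT.nd (nat_lit 858) (nat_lit 836) (nat_lit 0) (XT.nd (nat_lit 390) (nat_lit 456) (nat_lit 0) (XT.nd (nat_lit 156) (nat_lit 228) (nat_lit 0) (XT.nd (nat_lit 78) (nat_lit 76) (nat_lit 0) (XT.lf (nat_lit 0) (nat_lit 33634022940)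 (nat_lit 0) (nat_lit 33726219367) (nat_lit 152) (nat_lit 33634022940) (nat_lit 153) (nat_lit 3) (nat_lit 153) (nat_lit 1) (nat_lit 155) (nat_lit 1) (nat_lit 272) (nat_lit 346) (nat_lit 282)) (XT.lf (nat_lit 76) (nat_lit 32080909532) (nat_lit 0) (nat_lit 32161080338) (nat_lit 76) (nat_lit 32161080338) (nat_lit 153) (nat_lit 3) (nat_lit 152) (nat_lit 1) (nat_lit 153) (nat_lit 1) (nat_lit 273) (nat_lit 346) (nat_lit 281))) (XT.nd (nat_lit 78) (nat_lit 76) (nat_lit 0) (XT.lf (nat_lit 152) (nat_lit 92168651416) (nat_lit 0) (nat_lit 21125377) (nat_lit 76) (nat_lit 21125377) (nat_lit 152) (nat_lit 1) (nat_lit 150) (nat_lit 1) (nat_lit 151) (nat_lit 1) (nat_lit 274) (nat_lit 346) (nat_lit 280)) (XT.nd (nat_lit 78) (nat_lit 76) (nat_lit 0) (XT.lf (nat_lit 0) (nat_lit 29255693041) (nat_lit 0) (nat_lit 29308406647) (nat_lit 152) (nat_lit 29255693041) (nat_lit 150) (nat_lit 3) (nat_lit 150) (nat_lit 1) (nat_lit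 152) (nat_lit 1) (nat_lit 275) (nat_lit 346) (nat_lit 279)) (XT.lf (nat_lit 76) (nat_lit 27911998533) (nat_lit 0) (nat_lit 27957836452) (nat_lit 76) (nat_lit 27957836452) (nat_lit 150) (nat_lit 3) (nat_lit 149) (nat_lit 1) (nat_lit 150) (nat_lit 1) (nat_lit 276) (nat_lit 346) (nat_lit 278))))) (XT.nd (nat_lit 234) (nat_lit 228) (nat_lit 0) (XT.nd (nat_lit 78) (nat_lit 76) (nat_lit 0) (XT.lf (nat_lit 152) (nat_lit 80158415569) (nat_lit 0) (nat_lit 12078502) (nat_lit 76) (nat_lit 12078502) (nat_lit 149) (nat_lit 1) (nat_lit 147) (nat_lit 1) (nat_lit 148) (nat_lit 1) (nat_lit 277) (nat_lit 346) (nat_lit 277)) (XT.nd (nat_lit 78) (nat_lit 76) (nat_lit 0) (XT.lf (nat_lit 0) (nat_lit 25444716807) (nat_lit 0) (nat_lit 25474855982) (nat_lit 152) (nat_lit 25444716807) (nat_lit 147) (nat_lit 3) (nat_lit 147) (nat_lit 1) (nat_lit 149) (nat_lit 1) (nat_lit 278) (nat_lit 346) (nat_lit 276)) (XT.lf (nat_lit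 76) (nat_lit 24280196958) (nat_lit 0) (nat_lit 24306404937) (nat_lit 76) (nat_lit 24306404937) (nat_lit 147) (nat_lit 3) (nat_lit 146) (nat_lit 1) (nat_lit 147) (nat_lit 1) (nat_lit 279) (nat_lit 346) (nat_lit 275)))) (XT.nd (nat_lit 78) (nat_lit 76) (nat_lit 0) (XT.lf (nat_lit 152) (nat_lit 69709695116) (nat_lit 0) (nat_lit 6905923) (nat_lit 76) (nat_lit 6905923) (nat_lit 146) (nat_lit 1) (nat_lit 144) (nat_lit 1) (nat_lit 145) (nat_lit 1) (nat_lit 280) (nat_lit 346) (nat_lit 274)) (XT.nd (nat_lit 78) (nat_lit 76) (nat_lit 0) (XT.lf (nat_lit 0) (nat_lit 22128690164) (nat_lit 0) (nat_lit 22145922336) (nat_lit 152) (nat_lit 22128690164) (nat_lit 144) (nat_lit 3) (nat_lit 144) (nat_lit 1) (nat_lit 146) (nat_lit 1) (nat_lit 281) (nat_lit 346) (nat_lit 273)) (XT.lf (nat_lit 76) (nat_lit 21118299855) (nat_lit 0) (nat_lit 21133284351) (nat_lit 76) (nat_lit 21133284351) (nat_lit 144) (nat_lit 3) (nat_lit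 143) (nat_lit 1) (nat_lit 144) (nat_lit 1) (nat_lit 282) (nat_lit 346) (nat_lit 272)))))) (XT.nd (nat_lit 390) (nat_lit 456) (nat_lit 0) (XT.nd (nat_lit 156) (nat_lit 228) (nat_lit 0) (XT.nd (nat_lit 78) (nat_lit 0) (nat_lit 0) (XT.lf (nat_lit 152) (nat_lit 60620971260) (nat_lit 0) (nat_lit 3948484) (nat_lit 76) (nat_lit 3948484) (nat_lit 143) (nat_lit 1) (nat_lit 141) (nat_lit 1) (nat_lit 142) (nat_lit 1) (nat_lit 283) (nat_lit 346) (nat_lit 271)) (XT.lf (nat_lit 0) (nat_lit 19243968463) (nat_lit 0) (nat_lit 19253821013) (nat_lit 152) (nat_lit 19243968463) (nat_lit 141) (nat_lit 3) (nat_lit 141) (nat_lit 1) (nat_lit 143) (nat_lit 1) (nat_lit 284) (nat_lit 346) (nat_lit 270))) (XT.nd (nat_lit 78) (nat_lit 152) (nat_lit 0) (XT.lf (nat_lit 76) (nat_lit 18366646431) (nat_lit 0) (nat_lit 18375213866) (nat_lit 76) (nat_lit 18375213866) (nat_lit 141) (nat_lit 3) (nat_lit 140) (nat_lit 1) (nat_lit 141)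 (nat_lit 1) (nat_lit 285) (nat_lit 346) (nat_lit 269)) (XT.nd (nat_lit 78) (nat_lit 0) (nat_lit 0) (XT.lf (nat_lit 152) (nat_lit 52716086485) (nat_lit 0) (nat_lit 2257558) (nat_lit 76) (nat_lit 2257558) (nat_lit 140) (nat_lit 1) (nat_lit 138) (nat_lit 1) (nat_lit 139) (nat_lit 1) (nat_lit 286) (nat_lit 346) (nat_lit 268)) (XT.lf (nat_lit 0) (nat_lit 16734817114) (nat_lit 0) (nat_lit 16740450341) (nat_lit 152) (nat_lit 16734817114) (nat_lit 138) (nat_lit 3) (nat_lit 138) (nat_lit 1) (nat_lit 140) (nat_lit 1) (nat_lit 287) (nat_lit 346) (nat_lit 267))))) (XT.nd (nat_lit 234) (nat_lit 228) (nat_lit 0) (XT.nd (nat_lit 78) (nat_lit 152) (nat_lit 0) (XT.lf (nat_lit 76) (nat_lit 15972659227) (nat_lit 0) (nat_lit 15977557686) (nat_lit 76) (nat_lit 15977557686) (nat_lit 138) (nat_lit 3) (nat_lit 137) (nat_lit 1) (nat_lit 138) (nat_lit 1) (nat_lit 288) (nat_lit 346) (nat_lit 266)) (XT.nd (nat_lit 78) (nat_lit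 0) (nat_lit 0) (XT.lf (nat_lit 152) (nat_lit 45841332165) (nat_lit 0) (nat_lit 1290766) (nat_lit 76) (nat_lit 1290766) (nat_lit 137) (nat_lit 1) (nat_lit 135) (nat_lit 1) (nat_lit 136) (nat_lit 1) (nat_lit 289) (nat_lit 346) (nat_lit 265)) (XT.lf (nat_lit 0) (nat_lit 14552547467) (nat_lit 0) (nat_lit 14555768283) (nat_lit 152) (nat_lit 14552547467) (nat_lit 135) (nat_lit 3) (nat_lit 135) (nat_lit 1) (nat_lit 137) (nat_lit 1) (nat_lit 290) (nat_lit 346) (nat_lit 264)))) (XT.nd (nat_lit 78) (nat_lit 152) (nat_lit 0) (XT.lf (nat_lit 76) (nat_lit 13890219336) (nat_lit 0) (nat_lit 13893020046) (nat_lit 76) (nat_lit 13893020046) (nat_lit 135) (nat_lit 3) (nat_lit 134) (nat_lit 1) (nat_lit 135) (nat_lit 1) (nat_lit 291) (nat_lit 346) (nat_lit 263)) (XT.nd (nat_lit 78) (nat_lit 0) (nat_lit 0) (XT.lf (nat_lit 152) (nat_lit 39862746641) (nat_lit 0) (nat_lit 737999) (nat_lit 76) (nat_lit 737999) (nat_lit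 134) (nat_lit 1) (nat_lit 132) (nat_lit 1) (nat_lit 133) (nat_lit 1) (nat_lit 292) (nat_lit 346) (nat_lit 262)) (XT.lf (nat_lit 0) (nat_lit 12654693609) (nat_lit 0) (nat_lit 12656535121) (nat_lit 152) (nat_lit 12654693609) (nat_lit 132) (nat_lit 3) (nat_lit 132) (nat_lit 1) (nat_lit 134) (nat_lit 1) (nat_lit 293) (nat_lit 346) (nat_lit 261))))))))
noncomputable def ec145 : XT := (XT.nd (nat_lit 1716) (nat_lit 1748) (nat_lit 0) (XT.nd (nat_lit 858) (nat_lit 760) (nat_lit 0) (XT.nd (nat_lit 390) (nat_lit 456) (nat_lit 0) (XT.nd (nat_lit 156) (nat_lit 228) (nat_lit 0) (XT.nd (nat_lit 78) (nat_lit 152) (nat_lit 0) (XT.lf (nat_lit 76) (nat_lit 12078995016) (nat_lit 0) (nat_lit 12080596331) (nat_lit 76) (nat_lit 12080596331) (nat_lit 132) (nat_lit 3) (nat_lit 131) (nat_lit 1) (nat_lit 132) (nat_lit 1) (nat_lit 294) (nat_lit 346) (nat_lit 260)) (XT.lf (nat_lit 152) (nat_lit 34663668851) (nat_lit 0) (nat_lit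 421953) (nat_lit 76) (nat_lit 421953) (nat_lit 131) (nat_lit 1) (nat_lit 129) (nat_lit 1) (nat_lit 130) (nat_lit 1) (nat_lit 295) (nat_lit 346) (nat_lit 259))) (XT.nd (nat_lit 78) (nat_lit 228) (nat_lit 0) (XT.lf (nat_lit 0) (nat_lit 11004255502) (nat_lit 0) (nat_lit 11005308392) (nat_lit 152) (nat_lit 11004255502) (nat_lit 129) (nat_lit 3) (nat_lit 129) (nat_lit 1) (nat_lit 131) (nat_lit 1) (nat_lit 296) (nat_lit 346) (nat_lit 258)) (XT.nd (nat_lit 78) (nat_lit 152) (nat_lit 0) (XT.lf (nat_lit 76) (nat_lit 10503784628) (nat_lit 0) (nat_lit 10504700185) (nat_lit 76) (nat_lit 10504700185) (nat_lit 129) (nat_lit 3) (nat_lit 128) (nat_lit 1) (nat_lit 129) (nat_lit 1) (nat_lit 297) (nat_lit 346) (nat_lit 257)) (XT.lf (nat_lit 152) (nat_lit 30142555675) (nat_lit 0) (nat_lit 241253) (nat_lit 76) (nat_lit 241253) (nat_lit 128) (nat_lit 1) (nat_lit 126) (nat_lit 1) (nat_lit 127) (nat_lit 1) (nat_lit 298)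 (nat_lit 346) (nat_lit 256))))) (XT.nd (nat_lit 234) (nat_lit 228) (nat_lit 0) (XT.nd (nat_lit 78) (nat_lit 228) (nat_lit 0) (XT.lf (nat_lit 0) (nat_lit 9569017371) (nat_lit 0) (nat_lit 9569619365) (nat_lit 152) (nat_lit 9569017371) (nat_lit 126) (nat_lit 3) (nat_lit 126) (nat_lit 1) (nat_lit 128) (nat_lit 1) (nat_lit 299) (nat_lit 346) (nat_lit 255)) (XT.nd (nat_lit 78) (nat_lit 152) (nat_lit 0) (XT.lf (nat_lit 76) (nat_lit 9133903408) (nat_lit 0) (nat_lit 9134426881) (nat_lit 76) (nat_lit 9134426881) (nat_lit 126) (nat_lit 3) (nat_lit 125) (nat_lit 1) (nat_lit 126) (nat_lit 1) (nat_lit 300) (nat_lit 346) (nat_lit 254)) (XT.lf (nat_lit 152) (nat_lit 26211052303) (nat_lit 0) (nat_lit 137937) (nat_lit 76) (nat_lit 137937) (nat_lit 125) (nat_lit 1) (nat_lit 123) (nat_lit 1) (nat_lit 124) (nat_lit 1) (nat_lit 301) (nat_lit 346) (nat_lit 253)))) (XT.nd (nat_lit 78) (nat_lit 228) (nat_lit 0) (XT.lf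 (nat_lit 0) (nat_lit 8320941585) (nat_lit 0) (nat_lit 8321285777) (nat_lit 152) (nat_lit 8320941585) (nat_lit 123) (nat_lit 3) (nat_lit 123) (nat_lit 1) (nat_lit 125) (nat_lit 1) (nat_lit 302) (nat_lit 346) (nat_lit 252)) (XT.nd (nat_lit 78) (nat_lit 152) (nat_lit 0) (XT.lf (nat_lit 76) (nat_lit 7942626272) (nat_lit 0) (nat_lit 7942925569) (nat_lit 76) (nat_lit 7942925569) (nat_lit 123) (nat_lit 3) (nat_lit 122) (nat_lit 1) (nat_lit 123) (nat_lit 1) (nat_lit 303) (nat_lit 346) (nat_lit 251)) (XT.lf (nat_lit 152) (nat_lit 22792296195) (nat_lit 0) (nat_lit 78866) (nat_lit 76) (nat_lit 78866) (nat_lit 122) (nat_lit 1) (nat_lit 120) (nat_lit 1) (nat_lit 121) (nat_lit 1) (nat_lit 304) (nat_lit 346) (nat_lit 250)))))) (XT.nd (nat_lit 390) (nat_lit 456) (nat_lit 0) (XT.nd (nat_lit 156) (nat_lit 228) (nat_lit 0) (XT.nd (nat_lit 78) (nat_lit 76) (nat_lit 0) (XT.lf (nat_lit 0) (nat_lit 7235633919) (nat_lit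 0) (nat_lit 7235830712) (nat_lit 152) (nat_lit 7235633919) (nat_lit 120) (nat_lit 3) (nat_lit 120) (nat_lit 1) (nat_lit 122) (nat_lit 1) (nat_lit 305) (nat_lit 346) (nat_lit 249)) (XT.lf (nat_lit 76) (nat_lit 6906689613) (nat_lit 0) (nat_lit 6906860737) (nat_lit 76) (nat_lit 6906860737) (nat_lit 120) (nat_lit 3) (nat_lit 119) (nat_lit 1) (nat_lit 120) (nat_lit 1) (nat_lit 306) (nat_lit 346) (nat_lit 248))) (XT.nd (nat_lit 78) (nat_lit 76) (nat_lit 0) (XT.lf (nat_lit 152) (nat_lit 19819431906) (nat_lit 0) (nat_lit 45091) (nat_lit 76) (nat_lit 45091) (nat_lit 119) (nat_lit 1) (nat_lit 117) (nat_lit 1) (nat_lit 118) (nat_lit 1) (nat_lit 307) (nat_lit 346) (nat_lit 247)) (XT.nd (nat_lit 78) (nat_lit 76) (nat_lit 0) (XT.lf (nat_lit 0) (nat_lit 6291874188) (nat_lit 0) (nat_lit 6291986704) (nat_lit 152) (nat_lit 6291874188) (nat_lit 117) (nat_lit 3) (nat_lit 117) (nat_lit 1) (nat_lit 119) (nat_lit 1)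 (nat_lit 308) (nat_lit 346) (nat_lit 246)) (XT.lf (nat_lit 76) (nat_lit 6005850258) (nat_lit 0) (nat_lit 6005948098) (nat_lit 76) (nat_lit 6005948098) (nat_lit 117) (nat_lit 3) (nat_lit 116) (nat_lit 1) (nat_lit 117) (nat_lit 1) (nat_lit 309) (nat_lit 346) (nat_lit 245))))) (XT.nd (nat_lit 234) (nat_lit 228) (nat_lit 0) (XT.nd (nat_lit 78) (nat_lit 76) (nat_lit 0) (XT.lf (nat_lit 152) (nat_lit 17234313720) (nat_lit 0) (nat_lit 25781) (nat_lit 76) (nat_lit 25781) (nat_lit 116) (nat_lit 1) (nat_lit 114) (nat_lit 1) (nat_lit 115) (nat_lit 1) (nat_lit 310) (nat_lit 346) (nat_lit 244)) (XT.nd (nat_lit 78) (nat_lit 76) (nat_lit 0) (XT.lf (nat_lit 0) (nat_lit 5471205583) (nat_lit 0) (nat_lit 5471269915) (nat_lit 152) (nat_lit 5471205583) (nat_lit 114) (nat_lit 3) (nat_lit 114) (nat_lit 1) (nat_lit 116) (nat_lit 1) (nat_lit 311) (nat_lit 346) (nat_lit 243)) (XT.lf (nat_lit 76) (nat_lit 5222497469) (nat_lit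 0) (nat_lit 5222553410) (nat_lit 76) (nat_lit 5222553410) (nat_lit 114) (nat_lit 3) (nat_lit 113) (nat_lit 1) (nat_lit 114) (nat_lit 1) (nat_lit 312) (nat_lit 346) (nat_lit 242)))) (XT.nd (nat_lit 78) (nat_lit 76) (nat_lit 0) (XT.lf (nat_lit 152) (nat_lit 14986374111) (nat_lit 0) (nat_lit 14740) (nat_lit 76) (nat_lit 14740) (nat_lit 113) (nat_lit 1) (nat_lit 111) (nat_lit 1) (nat_lit 112) (nat_lit 1) (nat_lit 313) (nat_lit 346) (nat_lit 241)) (XT.nd (nat_lit 78) (nat_lit 76) (nat_lit 0) (XT.lf (nat_lit 0) (nat_lit 4757576155) (nat_lit 0) (nat_lit 4757612937) (nat_lit 152) (nat_lit 4757576155) (nat_lit 111) (nat_lit 3) (nat_lit 111) (nat_lit 1) (nat_lit 113) (nat_lit 1) (nat_lit 314) (nat_lit 346) (nat_lit 240)) (XT.lf (nat_lit 76) (nat_lit 4541313001) (nat_lit 0) (nat_lit 4541344985) (nat_lit 76) (nat_lit 4541344985) (nat_lit 111) (nat_lit 3) (nat_lit 110) (nat_lit 1) (nat_lit 111) (nat_lit 1)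 (nat_lit 315) (nat_lit 346) (nat_lit 239))))))) (XT.nd (nat_lit 858) (nat_lit 912) (nat_lit 0) (XT.nd (nat_lit 390) (nat_lit 456) (nat_lit 0) (XT.nd (nat_lit 156) (nat_lit 228) (nat_lit 0) (XT.nd (nat_lit 78) (nat_lit 0) (nat_lit 0) (XT.lf (nat_lit 152) (nat_lit 13031637869) (nat_lit 0) (nat_lit 8428) (nat_lit 76) (nat_lit 8428) (nat_lit 110) (nat_lit 1) (nat_lit 108) (nat_lit 1) (nat_lit 109) (nat_lit 1) (nat_lit 316) (nat_lit 346) (nat_lit 238)) (XT.lf (nat_lit 0) (nat_lit 4137026221) (nat_lit 0) (nat_lit 4137047251) (nat_lit 152) (nat_lit 4137026221) (nat_lit 108) (nat_lit 3) (nat_lit 108) (nat_lit 1) (nat_lit 110) (nat_lit 1) (nat_lit 317) (nat_lit 346) (nat_lit 237))) (XT.nd (nat_lit 78) (nat_lit 152) (nat_lit 0) (XT.lf (nat_lit 76) (nat_lit 3948974033) (nat_lit 0) (nat_lit 3948992320) (nat_lit 76) (nat_lit 3948992320) (nat_lit 108) (nat_lit 3) (nat_lit 107) (nat_lit 1) (nat_lit 108) (nat_lit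 1) (nat_lit 318) (nat_lit 346) (nat_lit 236)) (XT.nd (nat_lit 78) (nat_lit 0) (nat_lit 0) (XT.lf (nat_lit 152) (nat_lit 11331863709) (nat_lit 0) (nat_lit 4818) (nat_lit 76) (nat_lit 4818) (nat_lit 107) (nat_lit 1) (nat_lit 105) (nat_lit 1) (nat_lit 106) (nat_lit 1) (nat_lit 319) (nat_lit 346) (nat_lit 235)) (XT.lf (nat_lit 0) (nat_lit 3597416093) (nat_lit 0) (nat_lit 3597428117) (nat_lit 152) (nat_lit 3597416093) (nat_lit 105) (nat_lit 3) (nat_lit 105) (nat_lit 1) (nat_lit 107) (nat_lit 1) (nat_lit 320) (nat_lit 346) (nat_lit 234))))) (XT.nd (nat_lit 234) (nat_lit 228) (nat_lit 0) (XT.nd (nat_lit 78) (nat_lit 152) (nat_lit 0) (XT.lf (nat_lit 76) (nat_lit 3433894011) (nat_lit 0) (nat_lit 3433904467) (nat_lit 76) (nat_lit 3433904467) (nat_lit 105) (nat_lit 3) (nat_lit 104) (nat_lit 1) (nat_lit 105) (nat_lit 1) (nat_lit 321) (nat_lit 346) (nat_lit 233)) (XT.nd (nat_lit 78) (nat_lit 0) (nat_lit 0)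 (XT.lf (nat_lit 152) (nat_lit 9853797213) (nat_lit 0) (nat_lit 2755) (nat_lit 76) (nat_lit 2755) (nat_lit 104) (nat_lit 1) (nat_lit 102) (nat_lit 1) (nat_lit 103) (nat_lit 1) (nat_lit 322) (nat_lit 346) (nat_lit 232)) (XT.lf (nat_lit 0) (nat_lit 3128189044) (nat_lit 0) (nat_lit 3128195919) (nat_lit 152) (nat_lit 3128189044) (nat_lit 102) (nat_lit 3) (nat_lit 102) (nat_lit 1) (nat_lit 104) (nat_lit 1) (nat_lit 323) (nat_lit 346) (nat_lit 231)))) (XT.nd (nat_lit 78) (nat_lit 152) (nat_lit 0) (XT.lf (nat_lit 76) (nat_lit 2985996821) (nat_lit 0) (nat_lit 2986002799) (nat_lit 76) (nat_lit 2986002799) (nat_lit 102) (nat_lit 3) (nat_lit 101) (nat_lit 1) (nat_lit 102) (nat_lit 1) (nat_lit 324) (nat_lit 346) (nat_lit 230)) (XT.nd (nat_lit 78) (nat_lit 0) (nat_lit 0) (XT.lf (nat_lit 152) (nat_lit 8568520849) (nat_lit 0) (nat_lit 1575) (nat_lit 76) (nat_lit 1575) (nat_lit 101) (nat_lit 1) (nat_lit 99) (nat_lit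 1) (nat_lit 100) (nat_lit 1) (nat_lit 325) (nat_lit 346) (nat_lit 229)) (XT.lf (nat_lit 0) (nat_lit 2720165036) (nat_lit 0) (nat_lit 2720168966) (nat_lit 152) (nat_lit 2720165036) (nat_lit 99) (nat_lit 3) (nat_lit 99) (nat_lit 1) (nat_lit 101) (nat_lit 1) (nat_lit 326) (nat_lit 346) (nat_lit 228)))))) (XT.nd (nat_lit 468) (nat_lit 456) (nat_lit 0) (XT.nd (nat_lit 234) (nat_lit 228) (nat_lit 0) (XT.nd (nat_lit 78) (nat_lit 152) (nat_lit 0) (XT.lf (nat_lit 76) (nat_lit 2596520135) (nat_lit 0) (nat_lit 2596523553) (nat_lit 76) (nat_lit 2596523553) (nat_lit 99) (nat_lit 3) (nat_lit 98) (nat_lit 1) (nat_lit 99) (nat_lit 1) (nat_lit 327) (nat_lit 346) (nat_lit 227)) (XT.nd (nat_lit 78) (nat_lit 0) (nat_lit 0) (XT.lf (nat_lit 152) (nat_lit 7450888572) (nat_lit 0) (nat_lit 900) (nat_lit 76) (nat_lit 900) (nat_lit 98) (nat_lit 1) (nat_lit 96) (nat_lit 1) (nat_lit 97) (nat_lit 1) (nat_lit 328) (nat_lit 346)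 (nat_lit 226)) (XT.lf (nat_lit 0) (nat_lit 2365361272) (nat_lit 0) (nat_lit 2365363520) (nat_lit 152) (nat_lit 2365361272) (nat_lit 96) (nat_lit 3) (nat_lit 96) (nat_lit 1) (nat_lit 98) (nat_lit 1) (nat_lit 329) (nat_lit 346) (nat_lit 225)))) (XT.nd (nat_lit 78) (nat_lit 152) (nat_lit 0) (XT.lf (nat_lit 76) (nat_lit 2257844259) (nat_lit 0) (nat_lit 2257846213) (nat_lit 76) (nat_lit 2257846213) (nat_lit 96) (nat_lit 3) (nat_lit 95) (nat_lit 1) (nat_lit 96) (nat_lit 1) (nat_lit 330) (nat_lit 346) (nat_lit 224)) (XT.nd (nat_lit 78) (nat_lit 0) (nat_lit 0) (XT.lf (nat_lit 152) (nat_lit 6479034042) (nat_lit 0) (nat_lit 514) (nat_lit 76) (nat_lit 514) (nat_lit 95) (nat_lit 1) (nat_lit 93) (nat_lit 1) (nat_lit 94) (nat_lit 1) (nat_lit 331) (nat_lit 346) (nat_lit 223)) (XT.lf (nat_lit 0) (nat_lit 2056836101) (nat_lit 0) (nat_lit 2056837386) (nat_lit 152) (nat_lit 2056836101) (nat_lit 93) (nat_lit 3) (nat_lit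 93) (nat_lit 1) (nat_lit 95) (nat_lit 1) (nat_lit 332) (nat_lit 346) (nat_lit 222))))) (XT.nd (nat_lit 234) (nat_lit 228) (nat_lit 0) (XT.nd (nat_lit 78) (nat_lit 152) (nat_lit 0) (XT.lf (nat_lit 76) (nat_lit 1963343213) (nat_lit 0) (nat_lit 1963344330) (nat_lit 76) (nat_lit 1963344330) (nat_lit 93) (nat_lit 3) (nat_lit 92) (nat_lit 1) (nat_lit 93) (nat_lit 1) (nat_lit 333) (nat_lit 346) (nat_lit 221)) (XT.nd (nat_lit 78) (nat_lit 0) (nat_lit 0) (XT.lf (nat_lit 152) (nat_lit 5633942932) (nat_lit 0) (nat_lit 294) (nat_lit 76) (nat_lit 294) (nat_lit 92) (nat_lit 1) (nat_lit 90) (nat_lit 1) (nat_lit 91) (nat_lit 1) (nat_lit 334) (nat_lit 346) (nat_lit 220)) (XT.lf (nat_lit 0) (nat_lit 1788553253) (nat_lit 0) (nat_lit 1788553988) (nat_lit 152) (nat_lit 1788553253) (nat_lit 90) (nat_lit 3) (nat_lit 90) (nat_lit 1) (nat_lit 92) (nat_lit 1) (nat_lit 335) (nat_lit 346) (nat_lit 219)))) (XT.nd (nat_lit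 78) (nat_lit 152) (nat_lit 0) (XT.lf (nat_lit 76) (nat_lit 1707255184) (nat_lit 0) (nat_lit 1707255823) (nat_lit 76) (nat_lit 1707255823) (nat_lit 90) (nat_lit 3) (nat_lit 89) (nat_lit 1) (nat_lit 90) (nat_lit 1) (nat_lit 336) (nat_lit 346) (nat_lit 218)) (XT.nd (nat_lit 78) (nat_lit 0) (nat_lit 0) (XT.lf (nat_lit 152) (nat_lit 4899080974) (nat_lit 0) (nat_lit 168) (nat_lit 76) (nat_lit 168) (nat_lit 89) (nat_lit 1) (nat_lit 87) (nat_lit 1) (nat_lit 88) (nat_lit 1) (nat_lit 337) (nat_lit 346) (nat_lit 217)) (XT.lf (nat_lit 0) (nat_lit 1555263768) (nat_lit 0) (nat_lit 1555264188) (nat_lit 152) (nat_lit 1555263768) (nat_lit 87) (nat_lit 3) (nat_lit 87) (nat_lit 1) (nat_lit 89) (nat_lit 1) (nat_lit 338) (nat_lit 346) (nat_lit 216))))))))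
noncomputable def ec146 : XT := (XT.nd (nat_lit 1716) (nat_lit 836) (nat_lit 0) (XT.nd (nat_lit 858) (nat_lit 760) (nat_lit 0) (XT.nd (nat_lit 390) (nat_lit 456) (nat_lit 0) (XT.nd (nat_lit 156) (nat_lit 228) (nat_lit 0) (XT.nd (nat_lit 78) (nat_lit 152) (nat_lit 0) (XT.lf (nat_lit 76) (nat_lit 1484569849) (nat_lit 0) (nat_lit 1484570215) (nat_lit 76) (nat_lit 1484570215) (nat_lit 87) (nat_lit 3) (nat_lit 86) (nat_lit 1) (nat_lit 87) (nat_lit 1) (nat_lit 339) (nat_lit 346) (nat_lit 215)) (XT.lf (nat_lit 152) (nat_lit 4260070506) (nat_lit 0) (nat_lit 96) (nat_lit 76) (nat_lit 96) (nat_lit 86) (nat_lit 1) (nat_lit 84) (nat_lit 1) (nat_lit 85) (nat_lit 1) (nat_lit 340) (nat_lit 346) (nat_lit 214))) (XT.nd (nat_lit 78) (nat_lit 228) (nat_lit 0) (XT.lf (nat_lit 0) (nat_lit 1352403316) (nat_lit 0) (nat_lit 1352403556) (nat_lit 152) (nat_lit 1352403316) (nat_lit 84) (nat_lit 3) (nat_lit 84) (nat_lit 1)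 (nat_lit 86) (nat_lit 1) (nat_lit 341) (nat_lit 346) (nat_lit 213)) (XT.nd (nat_lit 78) (nat_lit 152) (nat_lit 0) (XT.lf (nat_lit 76) (nat_lit 1290930375) (nat_lit 0) (nat_lit 1290930583) (nat_lit 76) (nat_lit 1290930583) (nat_lit 84) (nat_lit 3) (nat_lit 83) (nat_lit 1) (nat_lit 84) (nat_lit 1) (nat_lit 342) (nat_lit 346) (nat_lit 212)) (XT.lf (nat_lit 152) (nat_lit 3704409189) (nat_lit 0) (nat_lit 55) (nat_lit 76) (nat_lit 55) (nat_lit 83) (nat_lit 1) (nat_lit 81) (nat_lit 1) (nat_lit 82) (nat_lit 1) (nat_lit 343) (nat_lit 346) (nat_lit 211))))) (XT.nd (nat_lit 234) (nat_lit 228) (nat_lit 0) (XT.nd (nat_lit 78) (nat_lit 228) (nat_lit 0) (XT.lf (nat_lit 0) (nat_lit 1176002906) (nat_lit 0) (nat_lit 1176003043) (nat_lit 152) (nat_lit 1176002906) (nat_lit 81) (nat_lit 3) (nat_lit 81) (nat_lit 1) (nat_lit 83) (nat_lit 1) (nat_lit 344) (nat_lit 346) (nat_lit 210)) (XT.nd (nat_lit 78) (nat_lit 152)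 (nat_lit 0) (XT.lf (nat_lit 76) (nat_lit 1122548192) (nat_lit 0) (nat_lit 1122548312) (nat_lit 76) (nat_lit 1122548312) (nat_lit 81) (nat_lit 3) (nat_lit 80) (nat_lit 1) (nat_lit 81) (nat_lit 1) (nat_lit 345) (nat_lit 346) (nat_lit 209)) (XT.lf (nat_lit 152) (nat_lit 3221225413) (nat_lit 0) (nat_lit 31) (nat_lit 76) (nat_lit 31) (nat_lit 80) (nat_lit 1) (nat_lit 78) (nat_lit 1) (nat_lit 79) (nat_lit 1) (nat_lit 346) (nat_lit 346) (nat_lit 208)))) (XT.nd (nat_lit 78) (nat_lit 228) (nat_lit 0) (XT.lf (nat_lit 0) (nat_lit 1022611236) (nat_lit 0) (nat_lit 1022611314) (nat_lit 152) (nat_lit 1022611236) (nat_lit 78) (nat_lit 3) (nat_lit 78) (nat_lit 1) (nat_lit 80) (nat_lit 1) (nat_lit 347) (nat_lit 346) (nat_lit 207)) (XT.nd (nat_lit 78) (nat_lit 152) (nat_lit 0) (XT.lf (nat_lit 76) (nat_lit 976128886) (nat_lit 0) (nat_lit 976128954) (nat_lit 76) (nat_lit 976128954) (nat_lit 78) (nat_lit 3) (nat_lit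 77) (nat_lit 1) (nat_lit 78) (nat_lit 1) (nat_lit 348) (nat_lit 346) (nat_lit 206)) (XT.lf (nat_lit 152) (nat_lit 2801065594) (nat_lit 0) (nat_lit 17) (nat_lit 76) (nat_lit 17) (nat_lit 77) (nat_lit 1) (nat_lit 75) (nat_lit 1) (nat_lit 76) (nat_lit 1) (nat_lit 349) (nat_lit 346) (nat_lit 205)))))) (XT.nd (nat_lit 390) (nat_lit 456) (nat_lit 0) (XT.nd (nat_lit 156) (nat_lit 228) (nat_lit 0) (XT.nd (nat_lit 78) (nat_lit 76) (nat_lit 0) (XT.lf (nat_lit 0) (nat_lit 889227169) (nat_lit 0) (nat_lit 889227214) (nat_lit 152) (nat_lit 889227169) (nat_lit 75) (nat_lit 3) (nat_lit 75) (nat_lit 1) (nat_lit 77) (nat_lit 1) (nat_lit 350) (nat_lit 346) (nat_lit 204)) (XT.lf (nat_lit 76) (nat_lit 848807740) (nat_lit 0) (nat_lit 848807779) (nat_lit 76) (nat_lit 848807779) (nat_lit 75) (nat_lit 3) (nat_lit 74) (nat_lit 1) (nat_lit 75) (nat_lit 1) (nat_lit 351) (nat_lit 346) (nat_lit 203))) (XT.nd (nat_lit 78) (nat_lit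 76) (nat_lit 0) (XT.lf (nat_lit 152) (nat_lit 2435709222) (nat_lit 0) (nat_lit 10) (nat_lit 76) (nat_lit 10) (nat_lit 74) (nat_lit 1) (nat_lit 72) (nat_lit 1) (nat_lit 73) (nat_lit 1) (nat_lit 352) (nat_lit 346) (nat_lit 202)) (XT.nd (nat_lit 78) (nat_lit 76) (nat_lit 0) (XT.lf (nat_lit 0) (nat_lit 773241020) (nat_lit 0) (nat_lit 773241046) (nat_lit 152) (nat_lit 773241020) (nat_lit 72) (nat_lit 3) (nat_lit 72) (nat_lit 1) (nat_lit 74) (nat_lit 1) (nat_lit 353) (nat_lit 346) (nat_lit 201)) (XT.lf (nat_lit 76) (nat_lit 738093695) (nat_lit 0) (nat_lit 738093717) (nat_lit 76) (nat_lit 738093717) (nat_lit 72) (nat_lit 3) (nat_lit 71) (nat_lit 1) (nat_lit 72) (nat_lit 1) (nat_lit 354) (nat_lit 346) (nat_lit 200))))) (XT.nd (nat_lit 234) (nat_lit 228) (nat_lit 0) (XT.nd (nat_lit 78) (nat_lit 76) (nat_lit 0) (XT.lf (nat_lit 152) (nat_lit 2118008025) (nat_lit 0) (nat_lit 5) (nat_lit 76) (nat_lit 5) (nat_lit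 71) (nat_lit 1) (nat_lit 69) (nat_lit 1) (nat_lit 70) (nat_lit 1) (nat_lit 355) (nat_lit 346) (nat_lit 199)) (XT.nd (nat_lit 78) (nat_lit 76) (nat_lit 0) (XT.lf (nat_lit 0) (nat_lit 672383498) (nat_lit 0) (nat_lit 672383513) (nat_lit 152) (nat_lit 672383498) (nat_lit 69) (nat_lit 3) (nat_lit 69) (nat_lit 1) (nat_lit 71) (nat_lit 1) (nat_lit 356) (nat_lit 346) (nat_lit 198)) (XT.lf (nat_lit 76) (nat_lit 641820608) (nat_lit 0) (nat_lit 641820621) (nat_lit 76) (nat_lit 641820621) (nat_lit 69) (nat_lit 3) (nat_lit 68) (nat_lit 1) (nat_lit 69) (nat_lit 1) (nat_lit 357) (nat_lit 346) (nat_lit 197)))) (XT.nd (nat_lit 78) (nat_lit 76) (nat_lit 0) (XT.lf (nat_lit 152) (nat_lit 1841746112) (nat_lit 0) (nat_lit 3) (nat_lit 76) (nat_lit 3) (nat_lit 68) (nat_lit 1) (nat_lit 66) (nat_lit 1) (nat_lit 67) (nat_lit 1) (nat_lit 358) (nat_lit 346) (nat_lit 196)) (XT.nd (nat_lit 78) (nat_lit 76) (nat_lit 0) (XT.lf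 (nat_lit 0) (nat_lit 584681304) (nat_lit 0) (nat_lit 584681313) (nat_lit 152) (nat_lit 584681304) (nat_lit 66) (nat_lit 3) (nat_lit 66) (nat_lit 1) (nat_lit 68) (nat_lit 1) (nat_lit 359) (nat_lit 346) (nat_lit 195)) (XT.lf (nat_lit 76) (nat_lit 558104879) (nat_lit 0) (nat_lit 558104886) (nat_lit 76) (nat_lit 558104886) (nat_lit 66) (nat_lit 3) (nat_lit 65) (nat_lit 1) (nat_lit 66) (nat_lit 1) (nat_lit 360) (nat_lit 346) (nat_lit 194))))))) (XT.nd (nat_lit 34788) (nat_lit 0) (nat_lit 11552) (XT.nd (nat_lit 390) (nat_lit 456) (nat_lit 0) (XT.nd (nat_lit 156) (nat_lit 228) (nat_lit 0) (XT.nd (nat_lit 78) (nat_lit 0) (nat_lit 0) (XT.lf (nat_lit 152) (nat_lit 1601518360) (nat_lit 0) (nat_lit 1) (nat_lit 76) (nat_lit 1) (nat_lit 65) (nat_lit 1) (nat_lit 63) (nat_lit 1) (nat_lit 64) (nat_lit 1) (nat_lit 361) (nat_lit 346) (nat_lit 193)) (XT.lf (nat_lit 0) (nat_lit 508418526) (nat_lit 0) (nat_lit 508418531)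 (nat_lit 152) (nat_lit 508418526) (nat_lit 63) (nat_lit 3) (nat_lit 63) (nat_lit 1) (nat_lit 65) (nat_lit 1) (nat_lit 362) (nat_lit 346) (nat_lit 192))) (XT.nd (nat_lit 78) (nat_lit 152) (nat_lit 0) (XT.lf (nat_lit 76) (nat_lit 485308592) (nat_lit 0) (nat_lit 485308596) (nat_lit 76) (nat_lit 485308596) (nat_lit 63) (nat_lit 3) (nat_lit 62) (nat_lit 1) (nat_lit 63) (nat_lit 1) (nat_lit 363) (nat_lit 346) (nat_lit 191)) (XT.nd (nat_lit 78) (nat_lit 0) (nat_lit 0) (XT.lf (nat_lit 152) (nat_lit 1392624662) (nat_lit 0) (nat_lit 1) (nat_lit 76) (nat_lit 1) (nat_lit 62) (nat_lit 1) (nat_lit 60) (nat_lit 1) (nat_lit 61) (nat_lit 1) (nat_lit 364) (nat_lit 346) (nat_lit 190)) (XT.lf (nat_lit 0) (nat_lit 442103067) (nat_lit 0) (nat_lit 442103069) (nat_lit 152) (nat_lit 442103067) (nat_lit 60) (nat_lit 3) (nat_lit 60) (nat_lit 1) (nat_lit 62) (nat_lit 1) (nat_lit 365) (nat_lit 346) (nat_lit 189))))) (XT.nd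 (nat_lit 234) (nat_lit 228) (nat_lit 0) (XT.nd (nat_lit 78) (nat_lit 152) (nat_lit 0) (XT.lf (nat_lit 76) (nat_lit 422007472) (nat_lit 0) (nat_lit 422007474) (nat_lit 76) (nat_lit 422007474) (nat_lit 60) (nat_lit 3) (nat_lit 59) (nat_lit 1) (nat_lit 60) (nat_lit 1) (nat_lit 366) (nat_lit 346) (nat_lit 188)) (XT.nd (nat_lit 78) (nat_lit 152) (nat_lit 0) (XT.lf (nat_lit 0) (nat_lit 1210977967) (nat_lit 0) (nat_lit 0) (nat_lit 0) (nat_lit 0) (nat_lit 59) (nat_lit 1) (nat_lit 1) (nat_lit 0) (nat_lit 1) (nat_lit 0) (nat_lit 367) (nat_lit 346) (nat_lit 187)) (XT.lf (nat_lit 0) (nat_lit 384437449) (nat_lit 0) (nat_lit 384437451) (nat_lit 152) (nat_lit 384437449) (nat_lit 57) (nat_lit 3) (nat_lit 57) (nat_lit 1) (nat_lit 59) (nat_lit 1) (nat_lit 368) (nat_lit 346) (nat_lit 186)))) (XT.nd (nat_lit 78) (nat_lit 152) (nat_lit 0) (XT.lf (nat_lit 76) (nat_lit 366963019) (nat_lit 0) (nat_lit 366963021) (nat_lit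 76) (nat_lit 366963021) (nat_lit 57) (nat_lit 3) (nat_lit 56) (nat_lit 1) (nat_lit 57) (nat_lit 1) (nat_lit 369) (nat_lit 346) (nat_lit 185)) (XT.nd (nat_lit 78) (nat_lit 152) (nat_lit 0) (XT.lf (nat_lit 0) (nat_lit 1053024320) (nat_lit 0) (nat_lit 0) (nat_lit 0) (nat_lit 0) (nat_lit 56) (nat_lit 1) (nat_lit 1) (nat_lit 0) (nat_lit 1) (nat_lit 0) (nat_lit 370) (nat_lit 346) (nat_lit 184)) (XT.lf (nat_lit 0) (nat_lit 334293434) (nat_lit 0) (nat_lit 334293435) (nat_lit 152) (nat_lit 334293434) (nat_lit 54) (nat_lit 3) (nat_lit 54) (nat_lit 1) (nat_lit 56) (nat_lit 1) (nat_lit 371) (nat_lit 346) (nat_lit 183)))))) (XT.nd (nat_lit 390) (nat_lit 684) (nat_lit 0) (XT.nd (nat_lit 156) (nat_lit 0) (nat_lit 76) (XT.nd (nat_lit 78) (nat_lit 0) (nat_lit 0) (XT.lf (nat_lit 380) (nat_lit 499945812024) (nat_lit 0) (nat_lit 442814310111) (nat_lit 380) (nat_lit 499945812024) (nat_lit 220) (nat_lit 1) (nat_lit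 215) (nat_lit 0) (nat_lit 220) (nat_lit 0) (nat_lit 206) (nat_lit 347) (nat_lit 347)) (XT.lf (nat_lit 380) (nat_lit 1849234678295) (nat_lit 76) (nat_lit 422686386924) (nat_lit 0) (nat_lit 422686386924) (nat_lit 220) (nat_lit 1) (nat_lit 216) (nat_lit 1) (nat_lit 215) (nat_lit 0) (nat_lit 207) (nat_lit 347) (nat_lit 346))) (XT.nd (nat_lit 78) (nat_lit 0) (nat_lit 0) (XT.lf (nat_lit 380) (nat_lit 815132042131) (nat_lit 0) (nat_lit 886940554572) (nat_lit 304) (nat_lit 815132042131) (nat_lit 221) (nat_lit 1) (nat_lit 216) (nat_lit 1) (nat_lit 220) (nat_lit 1) (nat_lit 208) (nat_lit 347) (nat_lit 345)) (XT.nd (nat_lit 78) (nat_lit 0) (nat_lit 76) (XT.lf (nat_lit 380) (nat_lit 1399539392307) (nat_lit 76) (nat_lit 479071694884) (nat_lit 0) (nat_lit 479071694884) (nat_lit 221) (nat_lit 1) (nat_lit 217) (nat_lit 1) (nat_lit 216) (nat_lit 1) (nat_lit 209) (nat_lit 347) (nat_lit 344)) (XT.lf (nat_lit 76)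 (nat_lit 566132246211) (nat_lit 0) (nat_lit 1078010840345) (nat_lit 304) (nat_lit 566132246211) (nat_lit 218) (nat_lit 1) (nat_lit 217) (nat_lit 1) (nat_lit 221) (nat_lit 1) (nat_lit 210) (nat_lit 347) (nat_lit 343))))) (XT.nd (nat_lit 234) (nat_lit 380) (nat_lit 0) (XT.nd (nat_lit 78) (nat_lit 152) (nat_lit 0) (XT.lf (nat_lit 380) (nat_lit 850851043258) (nat_lit 0) (nat_lit 612426265094) (nat_lit 304) (nat_lit 612426265094) (nat_lit 218) (nat_lit 1) (nat_lit 213) (nat_lit 1) (nat_lit 217) (nat_lit 1) (nat_lit 211) (nat_lit 347) (nat_lit 342)) (XT.nd (nat_lit 78) (nat_lit 152) (nat_lit 0) (XT.lf (nat_lit 76) (nat_lit 282813489906) (nat_lit 0) (nat_lit 1387772883396) (nat_lit 380) (nat_lit 282813489906) (nat_lit 214) (nat_lit 1) (nat_lit 213) (nat_lit 1) (nat_lit 218) (nat_lit 1) (nat_lit 212) (nat_lit 347) (nat_lit 341)) (XT.lf (nat_lit 228) (nat_lit 254525469469) (nat_lit 0) (nat_lit 792147719444)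 (nat_lit 152) (nat_lit 792147719444) (nat_lit 214) (nat_lit 1) (nat_lit 211) (nat_lit 1) (nat_lit 213) (nat_lit 1) (nat_lit 213) (nat_lit 347) (nat_lit 340)))) (XT.nd (nat_lit 78) (nat_lit 152) (nat_lit 0) (XT.lf (nat_lit 228) (nat_lit 1710407952226) (nat_lit 0) (nat_lit 13419879830) (nat_lit 152) (nat_lit 13419879830) (nat_lit 211) (nat_lit 1) (nat_lit 208) (nat_lit 1) (nat_lit 210) (nat_lit 1) (nat_lit 214) (nat_lit 347) (nat_lit 339)) (XT.nd (nat_lit 78) (nat_lit 152) (nat_lit 0) (XT.lf (nat_lit 76) (nat_lit 657149667783) (nat_lit 0) (nat_lit 322625507044) (nat_lit 228) (nat_lit 657149667783) (nat_lit 209) (nat_lit 1) (nat_lit 208) (nat_lit 1) (nat_lit 211) (nat_lit 1) (nat_lit 215) (nat_lit 347) (nat_lit 338)) (XT.lf (nat_lit 228) (nat_lit 955192264436) (nat_lit 0) (nat_lit 296291250547) (nat_lit 152) (nat_lit 296291250547) (nat_lit 209) (nat_lit 1) (nat_lit 206) (nat_lit 1) (nat_lit 208) (nat_lit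 1) (nat_lit 216) (nat_lit 347) (nat_lit 337))))))))
noncomputable def ec147 : XT := (XT.nd (nat_lit 1716) (nat_lit 1748) (nat_lit 0) (XT.nd (nat_lit 858) (nat_lit 760) (nat_lit 0) (XT.nd (nat_lit 390) (nat_lit 456) (nat_lit 0) (XT.nd (nat_lit 156) (nat_lit 304) (nat_lit 0) (XT.nd (nat_lit 78) (nat_lit 76) (nat_lit 0) (XT.lf (nat_lit 76) (nat_lit 298719950068) (nat_lit 0) (nat_lit 866880188030) (nat_lit 228) (nat_lit 298719950068) (nat_lit 207) (nat_lit 1) (nat_lit 206) (nat_lit 1) (nat_lit 209) (nat_lit 1) (nat_lit 217) (nat_lit 347) (nat_lit 336)) (XT.lf (nat_lit 152) (nat_lit 246947242791) (nat_lit 0) (nat_lit 569831977426) (nat_lit 76) (nat_lit 569831977426) (nat_lit 207) (nat_lit 1) (nat_lit 205) (nat_lit 1) (nat_lit 206) (nat_lit 1) (nat_lit 218) (nat_lit 347) (nat_lit 335))) (XT.nd (nat_lit 78) (nat_lit 76) (nat_lit 0) (XT.lf (nat_lit 228) (nat_lit 1250192104471) (nat_lit 0) (nat_lit 33212632807)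 (nat_lit 152) (nat_lit 33212632807) (nat_lit 205) (nat_lit 1) (nat_lit 202) (nat_lit 1) (nat_lit 204) (nat_lit 1) (nat_lit 219) (nat_lit 347) (nat_lit 334)) (XT.nd (nat_lit 78) (nat_lit 76) (nat_lit 0) (XT.lf (nat_lit 76) (nat_lit 437540348101) (nat_lit 0) (nat_lit 371573539127) (nat_lit 228) (nat_lit 437540348101) (nat_lit 203) (nat_lit 1) (nat_lit 202) (nat_lit 1) (nat_lit 205) (nat_lit 1) (nat_lit 220) (nat_lit 347) (nat_lit 333)) (XT.lf (nat_lit 152) (nat_lit 532007156602) (nat_lit 0) (nat_lit 325803282536) (nat_lit 76) (nat_lit 325803282536) (nat_lit 203) (nat_lit 1) (nat_lit 201) (nat_lit 1) (nat_lit 202) (nat_lit 1) (nat_lit 221) (nat_lit 347) (nat_lit 332))))) (XT.nd (nat_lit 234) (nat_lit 228) (nat_lit 0) (XT.nd (nat_lit 78) (nat_lit 228) (nat_lit 0) (XT.lf (nat_lit 0) (nat_lit 104174332717) (nat_lit 0) (nat_lit 917142826002) (nat_lit 152) (nat_lit 104174332717) (nat_lit 201) (nat_lit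 3) (nat_lit 201) (nat_lit 1) (nat_lit 203) (nat_lit 1) (nat_lit 222) (nat_lit 347) (nat_lit 331)) (XT.nd (nat_lit 78) (nat_lit 76) (nat_lit 0) (XT.lf (nat_lit 76) (nat_lit 482118372475) (nat_lit 0) (nat_lit 104563140520) (nat_lit 152) (nat_lit 482118372475) (nat_lit 200) (nat_lit 1) (nat_lit 199) (nat_lit 1) (nat_lit 201) (nat_lit 1) (nat_lit 223) (nat_lit 347) (nat_lit 330)) (XT.lf (nat_lit 152) (nat_lit 644015313288) (nat_lit 0) (nat_lit 186279084214) (nat_lit 76) (nat_lit 186279084214) (nat_lit 200) (nat_lit 1) (nat_lit 198) (nat_lit 1) (nat_lit 199) (nat_lit 1) (nat_lit 224) (nat_lit 347) (nat_lit 329)))) (XT.nd (nat_lit 78) (nat_lit 228) (nat_lit 0) (XT.lf (nat_lit 0) (nat_lit 167447249290) (nat_lit 0) (nat_lit 632264623890) (nat_lit 152) (nat_lit 167447249290) (nat_lit 198) (nat_lit 3) (nat_lit 198) (nat_lit 1) (nat_lit 200) (nat_lit 1) (nat_lit 225) (nat_lit 347) (nat_lit 328)) (XT.nd (nat_lit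 78) (nat_lit 152) (nat_lit 0) (XT.lf (nat_lit 76) (nat_lit 37354489052) (nat_lit 0) (nat_lit 441543510443) (nat_lit 76) (nat_lit 441543510443) (nat_lit 198) (nat_lit 3) (nat_lit 197) (nat_lit 1) (nat_lit 198) (nat_lit 1) (nat_lit 226) (nat_lit 347) (nat_lit 327)) (XT.lf (nat_lit 152) (nat_lit 663729580212) (nat_lit 0) (nat_lit 106505670986) (nat_lit 76) (nat_lit 106505670986) (nat_lit 197) (nat_lit 1) (nat_lit 195) (nat_lit 1) (nat_lit 196) (nat_lit 1) (nat_lit 227) (nat_lit 347) (nat_lit 326)))))) (XT.nd (nat_lit 390) (nat_lit 456) (nat_lit 0) (XT.nd (nat_lit 156) (nat_lit 228) (nat_lit 0) (XT.nd (nat_lit 78) (nat_lit 76) (nat_lit 0) (XT.lf (nat_lit 0) (nat_lit 189551757335) (nat_lit 0) (nat_lit 455312599871) (nat_lit 152) (nat_lit 189551757335) (nat_lit 195) (nat_lit 3) (nat_lit 195) (nat_lit 1) (nat_lit 197) (nat_lit 1) (nat_lit 228) (nat_lit 347) (nat_lit 325)) (XT.lf (nat_lit 76) (nat_lit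 110906560846) (nat_lit 0) (nat_lit 342002945660) (nat_lit 76) (nat_lit 342002945660) (nat_lit 195) (nat_lit 3) (nat_lit 194) (nat_lit 1) (nat_lit 195) (nat_lit 1) (nat_lit 229) (nat_lit 347) (nat_lit 324))) (XT.nd (nat_lit 78) (nat_lit 76) (nat_lit 0) (XT.lf (nat_lit 152) (nat_lit 636456267446) (nat_lit 0) (nat_lit 60894963060) (nat_lit 76) (nat_lit 60894963060) (nat_lit 194) (nat_lit 1) (nat_lit 192) (nat_lit 1) (nat_lit 193) (nat_lit 1) (nat_lit 230) (nat_lit 347) (nat_lit 323)) (XT.nd (nat_lit 78) (nat_lit 76) (nat_lit 0) (XT.lf (nat_lit 0) (nat_lit 189953570802) (nat_lit 0) (nat_lit 341903195073) (nat_lit 152) (nat_lit 189953570802) (nat_lit 192) (nat_lit 3) (nat_lit 192) (nat_lit 1) (nat_lit 194) (nat_lit 1) (nat_lit 231) (nat_lit 347) (nat_lit 322)) (XT.lf (nat_lit 76) (nat_lit 141279890898) (nat_lit 0) (nat_lit 273409998960) (nat_lit 76) (nat_lit 273409998960) (nat_lit 192) (nat_lit 3) (nat_lit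 191) (nat_lit 1) (nat_lit 192) (nat_lit 1) (nat_lit 232) (nat_lit 347) (nat_lit 321))))) (XT.nd (nat_lit 234) (nat_lit 228) (nat_lit 0) (XT.nd (nat_lit 78) (nat_lit 76) (nat_lit 0) (XT.lf (nat_lit 152) (nat_lit 587345263341) (nat_lit 0) (nat_lit 34816892769) (nat_lit 76) (nat_lit 34816892770) (nat_lit 191) (nat_lit 1) (nat_lit 189) (nat_lit 1) (nat_lit 190) (nat_lit 1) (nat_lit 233) (nat_lit 347) (nat_lit 320)) (XT.nd (nat_lit 78) (nat_lit 76) (nat_lit 0) (XT.lf (nat_lit 0) (nat_lit 179542864824) (nat_lit 0) (nat_lit 266420555668) (nat_lit 152) (nat_lit 179542864824) (nat_lit 189) (nat_lit 3) (nat_lit 189) (nat_lit 1) (nat_lit 191) (nat_lit 1) (nat_lit 234) (nat_lit 347) (nat_lit 319)) (XT.lf (nat_lit 76) (nat_lit 148489153355) (nat_lit 0) (nat_lit 224034971480) (nat_lit 76) (nat_lit 224034971480) (nat_lit 189) (nat_lit 3) (nat_lit 188) (nat_lit 1) (nat_lit 189) (nat_lit 1) (nat_lit 235) (nat_lit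 347) (nat_lit 318)))) (XT.nd (nat_lit 78) (nat_lit 76) (nat_lit 0) (XT.lf (nat_lit 152) (nat_lit 530120322991) (nat_lit 0) (nat_lit 19906671442) (nat_lit 76) (nat_lit 19906671442) (nat_lit 188) (nat_lit 1) (nat_lit 186) (nat_lit 1) (nat_lit 187) (nat_lit 1) (nat_lit 236) (nat_lit 347) (nat_lit 317)) (XT.nd (nat_lit 78) (nat_lit 76) (nat_lit 0) (XT.lf (nat_lit 0) (nat_lit 164337949779) (nat_lit 0) (nat_lit 214010551488) (nat_lit 152) (nat_lit 164337949779) (nat_lit 186) (nat_lit 3) (nat_lit 186) (nat_lit 1) (nat_lit 188) (nat_lit 1) (nat_lit 237) (nat_lit 347) (nat_lit 316)) (XT.lf (nat_lit 76) (nat_lit 143779083363) (nat_lit 0) (nat_lit 186972650067) (nat_lit 76) (nat_lit 186972650067) (nat_lit 186) (nat_lit 3) (nat_lit 185) (nat_lit 1) (nat_lit 186) (nat_lit 1) (nat_lit 238) (nat_lit 347) (nat_lit 315))))))) (XT.nd (nat_lit 858) (nat_lit 912) (nat_lit 0) (XT.nd (nat_lit 390) (nat_lit 456) (nat_lit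 0) (XT.nd (nat_lit 156) (nat_lit 228) (nat_lit 0) (XT.nd (nat_lit 78) (nat_lit 0) (nat_lit 0) (XT.lf (nat_lit 152) (nat_lit 472057808609) (nat_lit 0) (nat_lit 11381704006) (nat_lit 76) (nat_lit 11381704006) (nat_lit 185) (nat_lit 1) (nat_lit 183) (nat_lit 1) (nat_lit 184) (nat_lit 1) (nat_lit 239) (nat_lit 347) (nat_lit 314)) (XT.lf (nat_lit 0) (nat_lit 147598785806) (nat_lit 0) (nat_lit 175999257050) (nat_lit 152) (nat_lit 147598785806) (nat_lit 183) (nat_lit 3) (nat_lit 183) (nat_lit 1) (nat_lit 185) (nat_lit 1) (nat_lit 240) (nat_lit 347) (nat_lit 313))) (XT.nd (nat_lit 78) (nat_lit 152) (nat_lit 0) (XT.lf (nat_lit 76) (nat_lit 133406094950) (nat_lit 0) (nat_lit 158102156902) (nat_lit 76) (nat_lit 158102156902) (nat_lit 183) (nat_lit 3) (nat_lit 182) (nat_lit 1) (nat_lit 183) (nat_lit 1) (nat_lit 241) (nat_lit 347) (nat_lit 312)) (XT.nd (nat_lit 78) (nat_lit 0) (nat_lit 0) (XT.lf (nat_lit 152)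 (nat_lit 416822143644) (nat_lit 0) (nat_lit 6507526205) (nat_lit 76) (nat_lit 6507526205) (nat_lit 182) (nat_lit 1) (nat_lit 180) (nat_lit 1) (nat_lit 181) (nat_lit 1) (nat_lit 242) (nat_lit 347) (nat_lit 311)) (XT.lf (nat_lit 0) (nat_lit 131031849739) (nat_lit 0) (nat_lit 147269911350) (nat_lit 152) (nat_lit 131031849739) (nat_lit 180) (nat_lit 3) (nat_lit 180) (nat_lit 1) (nat_lit 182) (nat_lit 1) (nat_lit 243) (nat_lit 347) (nat_lit 310))))) (XT.nd (nat_lit 234) (nat_lit 228) (nat_lit 0) (XT.nd (nat_lit 78) (nat_lit 152) (nat_lit 0) (XT.lf (nat_lit 76) (nat_lit 120797052456) (nat_lit 0) (nat_lit 134917106030) (nat_lit 76) (nat_lit 134917106030) (nat_lit 180) (nat_lit 3) (nat_lit 179) (nat_lit 1) (nat_lit 180) (nat_lit 1) (nat_lit 244) (nat_lit 347) (nat_lit 309)) (XT.nd (nat_lit 78) (nat_lit 0) (nat_lit 0) (XT.lf (nat_lit 152) (nat_lit 366077291259) (nat_lit 0) (nat_lit 3720699229) (nat_lit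 76) (nat_lit 3720699229) (nat_lit 179) (nat_lit 1) (nat_lit 177) (nat_lit 1) (nat_lit 178) (nat_lit 1) (nat_lit 245) (nat_lit 347) (nat_lit 308)) (XT.lf (nat_lit 0) (nat_lit 115475941807) (nat_lit 0) (nat_lit 124760106235) (nat_lit 152) (nat_lit 115475941807) (nat_lit 177) (nat_lit 3) (nat_lit 177) (nat_lit 1) (nat_lit 179) (nat_lit 1) (nat_lit 246) (nat_lit 347) (nat_lit 307)))) (XT.nd (nat_lit 78) (nat_lit 152) (nat_lit 0) (XT.lf (nat_lit 76) (nat_lit 107780615222) (nat_lit 0) (nat_lit 115853801681) (nat_lit 76) (nat_lit 115853801681) (nat_lit 177) (nat_lit 3) (nat_lit 176) (nat_lit 1) (nat_lit 177) (nat_lit 1) (nat_lit 247) (nat_lit 347) (nat_lit 306)) (XT.nd (nat_lit 78) (nat_lit 0) (nat_lit 0) (XT.lf (nat_lit 152) (nat_lit 320399686194) (nat_lit 0) (nat_lit 2127321860) (nat_lit 76) (nat_lit 2127321860) (nat_lit 176) (nat_lit 1) (nat_lit 174) (nat_lit 1) (nat_lit 175) (nat_lit 1) (nat_lit 248)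 (nat_lit 347) (nat_lit 305)) (XT.lf (nat_lit 0) (nat_lit 101291619684) (nat_lit 0) (nat_lit 106599870828) (nat_lit 152) (nat_lit 101291619684) (nat_lit 174) (nat_lit 3) (nat_lit 174) (nat_lit 1) (nat_lit 176) (nat_lit 1) (nat_lit 249) (nat_lit 347) (nat_lit 304)))))) (XT.nd (nat_lit 468) (nat_lit 456) (nat_lit 0) (XT.nd (nat_lit 234) (nat_lit 228) (nat_lit 0) (XT.nd (nat_lit 78) (nat_lit 152) (nat_lit 0) (XT.lf (nat_lit 76) (nat_lit 95288706498) (nat_lit 0) (nat_lit 99904577058) (nat_lit 76) (nat_lit 99904577058) (nat_lit 174) (nat_lit 3) (nat_lit 173) (nat_lit 1) (nat_lit 174) (nat_lit 1) (nat_lit 250) (nat_lit 347) (nat_lit 303)) (XT.nd (nat_lit 78) (nat_lit 0) (nat_lit 0) (XT.lf (nat_lit 152) (nat_lit 279792870710) (nat_lit 0) (nat_lit 1216303177) (nat_lit 76) (nat_lit 1216303177) (nat_lit 173) (nat_lit 1) (nat_lit 171) (nat_lit 1) (nat_lit 172) (nat_lit 1) (nat_lit 251) (nat_lit 347) (nat_lit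 302)) (XT.lf (nat_lit 0) (nat_lit 88581529843) (nat_lit 0) (nat_lit 91616539663) (nat_lit 152) (nat_lit 88581529843) (nat_lit 171) (nat_lit 3) (nat_lit 171) (nat_lit 1) (nat_lit 173) (nat_lit 1) (nat_lit 252) (nat_lit 347) (nat_lit 301)))) (XT.nd (nat_lit 78) (nat_lit 152) (nat_lit 0) (XT.lf (nat_lit 76) (nat_lit 83755357585) (nat_lit 0) (nat_lit 86394496559) (nat_lit 76) (nat_lit 86394496559) (nat_lit 171) (nat_lit 3) (nat_lit 170) (nat_lit 1) (nat_lit 171) (nat_lit 1) (nat_lit 253) (nat_lit 347) (nat_lit 300)) (XT.nd (nat_lit 78) (nat_lit 0) (nat_lit 0) (XT.lf (nat_lit 152) (nat_lit 243975360394) (nat_lit 0) (nat_lit 695425289) (nat_lit 76) (nat_lit 695425289) (nat_lit 170) (nat_lit 1) (nat_lit 168) (nat_lit 1) (nat_lit 169) (nat_lit 1) (nat_lit 254) (nat_lit 347) (nat_lit 299)) (XT.lf (nat_lit 0) (nat_lit 77314357654) (nat_lit 0) (nat_lit 79049634369) (nat_lit 152) (nat_lit 77314357654) (nat_lit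 168) (nat_lit 3) (nat_lit 168) (nat_lit 1) (nat_lit 170) (nat_lit 1) (nat_lit 255) (nat_lit 347) (nat_lit 298))))) (XT.nd (nat_lit 234) (nat_lit 228) (nat_lit 0) (XT.nd (nat_lit 78) (nat_lit 152) (nat_lit 0) (XT.lf (nat_lit 76) (nat_lit 73342815253) (nat_lit 0) (nat_lit 74851751527) (nat_lit 76) (nat_lit 74851751527) (nat_lit 168) (nat_lit 3) (nat_lit 167) (nat_lit 1) (nat_lit 168) (nat_lit 1) (nat_lit 256) (nat_lit 347) (nat_lit 297)) (XT.nd (nat_lit 78) (nat_lit 0) (nat_lit 0) (XT.lf (nat_lit 152) (nat_lit 212539685429) (nat_lit 0) (nat_lit 397611666) (nat_lit 76) (nat_lit 397611666) (nat_lit 167) (nat_lit 1) (nat_lit 165) (nat_lit 1) (nat_lit 166) (nat_lit 1) (nat_lit 257) (nat_lit 347) (nat_lit 296)) (XT.lf (nat_lit 0) (nat_lit 67393935326) (nat_lit 0) (nat_lit 68386085420) (nat_lit 152) (nat_lit 67393935326) (nat_lit 165) (nat_lit 3) (nat_lit 165) (nat_lit 1) (nat_lit 167) (nat_lit 1) (nat_lit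 258) (nat_lit 347) (nat_lit 295)))) (XT.nd (nat_lit 78) (nat_lit 152) (nat_lit 0) (XT.lf (nat_lit 76) (nat_lit 64069138504) (nat_lit 0) (nat_lit 64931877716) (nat_lit 76) (nat_lit 64931877716) (nat_lit 165) (nat_lit 3) (nat_lit 164) (nat_lit 1) (nat_lit 165) (nat_lit 1) (nat_lit 259) (nat_lit 347) (nat_lit 294)) (XT.nd (nat_lit 78) (nat_lit 0) (nat_lit 0) (XT.lf (nat_lit 152) (nat_lit 185038499552) (nat_lit 0) (nat_lit 227335760) (nat_lit 76) (nat_lit 227335760) (nat_lit 164) (nat_lit 1) (nat_lit 162) (nat_lit 1) (nat_lit 163) (nat_lit 1) (nat_lit 260) (nat_lit 347) (nat_lit 293)) (XT.lf (nat_lit 0) (nat_lit 58697223348) (nat_lit 0) (nat_lit 59264488384) (nat_lit 152) (nat_lit 58697223348) (nat_lit 162) (nat_lit 3) (nat_lit 162) (nat_lit 1) (nat_lit 164) (nat_lit 1) (nat_lit 261) (nat_lit 347) (nat_lit 292))))))))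
noncomputable def ec148 : XT := (XT.nd (nat_lit 1716) (nat_lit 1748) (nat_lit 0) (XT.nd (nat_lit 858) (nat_lit 760) (nat_lit 0) (XT.nd (nat_lit 390) (nat_lit 456) (nat_lit 0) (XT.nd (nat_lit 156) (nat_lit 228) (nat_lit 0) (XT.nd (nat_lit 78) (nat_lit 152) (nat_lit 0) (XT.lf (nat_lit 76) (nat_lit 55879690788) (nat_lit 0) (nat_lit 56372964733) (nat_lit 76) (nat_lit 56372964733) (nat_lit 162) (nat_lit 3) (nat_lit 161) (nat_lit 1) (nat_lit 162) (nat_lit 1) (nat_lit 262) (nat_lit 347) (nat_lit 291)) (XT.lf (nat_lit 152) (nat_lit 161029618845) (nat_lit 0) (nat_lit 129979959) (nat_lit 76) (nat_lit 129979959) (nat_lit 161) (nat_lit 1) (nat_lit 159) (nat_lit 1) (nat_lit 160) (nat_lit 1) (nat_lit 263) (nat_lit 347) (nat_lit 290))) (XT.nd (nat_lit 78) (nat_lit 228) (nat_lit 0) (XT.lf (nat_lit 0) (nat_lit 51094694993) (nat_lit 0) (nat_lit 51419030619) (nat_lit 152) (nat_lit 51094694993) (nat_lit 159) (nat_lit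 3) (nat_lit 159) (nat_lit 1) (nat_lit 161) (nat_lit 1) (nat_lit 264) (nat_lit 347) (nat_lit 289)) (XT.nd (nat_lit 78) (nat_lit 152) (nat_lit 0) (XT.lf (nat_lit 76) (nat_lit 48686744924) (nat_lit 0) (nat_lit 48968775903) (nat_lit 76) (nat_lit 48968775903) (nat_lit 159) (nat_lit 3) (nat_lit 158) (nat_lit 1) (nat_lit 159) (nat_lit 1) (nat_lit 265) (nat_lit 347) (nat_lit 288)) (XT.lf (nat_lit 152) (nat_lit 140098125616) (nat_lit 0) (nat_lit 74316463) (nat_lit 76) (nat_lit 74316463) (nat_lit 158) (nat_lit 1) (nat_lit 156) (nat_lit 1) (nat_lit 157) (nat_lit 1) (nat_lit 266) (nat_lit 347) (nat_lit 287))))) (XT.nd (nat_lit 234) (nat_lit 228) (nat_lit 0) (XT.nd (nat_lit 78) (nat_lit 228) (nat_lit 0) (XT.lf (nat_lit 0) (nat_lit 44460833379) (nat_lit 0) (nat_lit 44646273325) (nat_lit 152) (nat_lit 44460833379) (nat_lit 156) (nat_lit 3) (nat_lit 156) (nat_lit 1) (nat_lit 158) (nat_lit 1) (nat_lit 267) (nat_lit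 347) (nat_lit 286)) (XT.nd (nat_lit 78) (nat_lit 152) (nat_lit 0) (XT.lf (nat_lit 76) (nat_lit 42391022126) (nat_lit 0) (nat_lit 42552274254) (nat_lit 76) (nat_lit 42552274254) (nat_lit 156) (nat_lit 3) (nat_lit 155) (nat_lit 1) (nat_lit 156) (nat_lit 1) (nat_lit 268) (nat_lit 347) (nat_lit 285)) (XT.lf (nat_lit 152) (nat_lit 121865834896) (nat_lit 0) (nat_lit 42490679) (nat_lit 76) (nat_lit 42490679) (nat_lit 155) (nat_lit 1) (nat_lit 153) (nat_lit 1) (nat_lit 154) (nat_lit 1) (nat_lit 269) (nat_lit 347) (nat_lit 284)))) (XT.nd (nat_lit 78) (nat_lit 228) (nat_lit 0) (XT.lf (nat_lit 0) (nat_lit 38679126381) (nat_lit 0) (nat_lit 38785152272) (nat_lit 152) (nat_lit 38679126381) (nat_lit 153) (nat_lit 3) (nat_lit 153) (nat_lit 1) (nat_lit 155) (nat_lit 1) (nat_lit 270) (nat_lit 347) (nat_lit 283)) (XT.nd (nat_lit 78) (nat_lit 152) (nat_lit 0) (XT.lf (nat_lit 76) (nat_lit 36893045961) (nat_lit 0) (nat_lit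 36985242389) (nat_lit 76) (nat_lit 36985242389) (nat_lit 153) (nat_lit 3) (nat_lit 152) (nat_lit 1) (nat_lit 153) (nat_lit 1) (nat_lit 271) (nat_lit 347) (nat_lit 282)) (XT.lf (nat_lit 152) (nat_lit 105993949128) (nat_lit 0) (nat_lit 24294183) (nat_lit 76) (nat_lit 24294183) (nat_lit 152) (nat_lit 1) (nat_lit 150) (nat_lit 1) (nat_lit 151) (nat_lit 1) (nat_lit 272) (nat_lit 347) (nat_lit 281)))))) (XT.nd (nat_lit 390) (nat_lit 456) (nat_lit 0) (XT.nd (nat_lit 156) (nat_lit 228) (nat_lit 0) (XT.nd (nat_lit 78) (nat_lit 76) (nat_lit 0) (XT.lf (nat_lit 0) (nat_lit 33644046997) (nat_lit 0) (nat_lit 33704667644) (nat_lit 152) (nat_lit 33644046997) (nat_lit 150) (nat_lit 3) (nat_lit 150) (nat_lit 1) (nat_lit 152) (nat_lit 1) (nat_lit 273) (nat_lit 347) (nat_lit 280)) (XT.lf (nat_lit 76) (nat_lit 32098798313) (nat_lit 0) (nat_lit 32151511920) (nat_lit 76) (nat_lit 32151511920) (nat_lit 150) (nat_lit 3)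 (nat_lit 149) (nat_lit 1) (nat_lit 150) (nat_lit 1) (nat_lit 274) (nat_lit 347) (nat_lit 279))) (XT.nd (nat_lit 78) (nat_lit 76) (nat_lit 0) (XT.lf (nat_lit 152) (nat_lit 92182177905) (nat_lit 0) (nat_lit 13890278) (nat_lit 76) (nat_lit 13890278) (nat_lit 149) (nat_lit 1) (nat_lit 147) (nat_lit 1) (nat_lit 148) (nat_lit 1) (nat_lit 275) (nat_lit 347) (nat_lit 278)) (XT.nd (nat_lit 78) (nat_lit 76) (nat_lit 0) (XT.lf (nat_lit 0) (nat_lit 29261424328) (nat_lit 0) (nat_lit 29296084380) (nat_lit 152) (nat_lit 29261424328) (nat_lit 147) (nat_lit 3) (nat_lit 147) (nat_lit 1) (nat_lit 149) (nat_lit 1) (nat_lit 276) (nat_lit 347) (nat_lit 277)) (XT.lf (nat_lit 76) (nat_lit 27922226502) (nat_lit 0) (nat_lit 27952365678) (nat_lit 76) (nat_lit 27952365678) (nat_lit 147) (nat_lit 3) (nat_lit 146) (nat_lit 1) (nat_lit 147) (nat_lit 1) (nat_lit 277) (nat_lit 347) (nat_lit 276))))) (XT.nd (nat_lit 234) (nat_lit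 228) (nat_lit 0) (XT.nd (nat_lit 78) (nat_lit 76) (nat_lit 0) (XT.lf (nat_lit 152) (nat_lit 80166149383) (nat_lit 0) (nat_lit 7941811) (nat_lit 76) (nat_lit 7941811) (nat_lit 146) (nat_lit 1) (nat_lit 144) (nat_lit 1) (nat_lit 145) (nat_lit 1) (nat_lit 278) (nat_lit 347) (nat_lit 275)) (XT.nd (nat_lit 78) (nat_lit 76) (nat_lit 0) (XT.lf (nat_lit 0) (nat_lit 25447993689) (nat_lit 0) (nat_lit 25467810686) (nat_lit 152) (nat_lit 25447993689) (nat_lit 144) (nat_lit 3) (nat_lit 144) (nat_lit 1) (nat_lit 146) (nat_lit 1) (nat_lit 279) (nat_lit 347) (nat_lit 274)) (XT.lf (nat_lit 76) (nat_lit 24286044833) (nat_lit 0) (nat_lit 24303277004) (nat_lit 76) (nat_lit 24303277004) (nat_lit 144) (nat_lit 3) (nat_lit 143) (nat_lit 1) (nat_lit 144) (nat_lit 1) (nat_lit 280) (nat_lit 347) (nat_lit 273)))) (XT.nd (nat_lit 78) (nat_lit 76) (nat_lit 0) (XT.lf (nat_lit 152) (nat_lit 69714116949) (nat_lit 0) (nat_lit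 4540756) (nat_lit 76) (nat_lit 4540756) (nat_lit 143) (nat_lit 1) (nat_lit 141) (nat_lit 1) (nat_lit 142) (nat_lit 1) (nat_lit 281) (nat_lit 347) (nat_lit 272)) (XT.nd (nat_lit 78) (nat_lit 76) (nat_lit 0) (XT.lf (nat_lit 0) (nat_lit 22130563732) (nat_lit 0) (nat_lit 22141894165) (nat_lit 152) (nat_lit 22130563732) (nat_lit 141) (nat_lit 3) (nat_lit 141) (nat_lit 1) (nat_lit 143) (nat_lit 1) (nat_lit 282) (nat_lit 347) (nat_lit 271)) (XT.lf (nat_lit 76) (nat_lit 21121643396) (nat_lit 0) (nat_lit 21131495946) (nat_lit 76) (nat_lit 21131495946) (nat_lit 141) (nat_lit 3) (nat_lit 140) (nat_lit 1) (nat_lit 141) (nat_lit 1) (nat_lit 283) (nat_lit 347) (nat_lit 270))))))) (XT.nd (nat_lit 858) (nat_lit 912) (nat_lit 0) (XT.nd (nat_lit 390) (nat_lit 456) (nat_lit 0) (XT.nd (nat_lit 156) (nat_lit 228) (nat_lit 0) (XT.nd (nat_lit 78) (nat_lit 0) (nat_lit 0) (XT.lf (nat_lit 152) (nat_lit 60623499457) (nat_lit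 0) (nat_lit 2596192) (nat_lit 76) (nat_lit 2596192) (nat_lit 140) (nat_lit 1) (nat_lit 138) (nat_lit 1) (nat_lit 139) (nat_lit 1) (nat_lit 284) (nat_lit 347) (nat_lit 269)) (XT.lf (nat_lit 0) (nat_lit 19245039681) (nat_lit 0) (nat_lit 19251517893) (nat_lit 152) (nat_lit 19245039681) (nat_lit 138) (nat_lit 3) (nat_lit 138) (nat_lit 1) (nat_lit 140) (nat_lit 1) (nat_lit 285) (nat_lit 347) (nat_lit 268))) (XT.nd (nat_lit 78) (nat_lit 152) (nat_lit 0) (XT.lf (nat_lit 76) (nat_lit 18368558112) (nat_lit 0) (nat_lit 18374191339) (nat_lit 76) (nat_lit 18374191339) (nat_lit 138) (nat_lit 3) (nat_lit 137) (nat_lit 1) (nat_lit 138) (nat_lit 1) (nat_lit 286) (nat_lit 347) (nat_lit 267)) (XT.nd (nat_lit 78) (nat_lit 0) (nat_lit 0) (XT.lf (nat_lit 152) (nat_lit 52717531990) (nat_lit 0) (nat_lit 1484381) (nat_lit 76) (nat_lit 1484381) (nat_lit 137) (nat_lit 1) (nat_lit 135) (nat_lit 1) (nat_lit 136) (nat_lit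 1) (nat_lit 287) (nat_lit 347) (nat_lit 266)) (XT.lf (nat_lit 0) (nat_lit 16735429587) (nat_lit 0) (nat_lit 16739133525) (nat_lit 152) (nat_lit 16735429587) (nat_lit 135) (nat_lit 3) (nat_lit 135) (nat_lit 1) (nat_lit 137) (nat_lit 1) (nat_lit 288) (nat_lit 347) (nat_lit 265))))) (XT.nd (nat_lit 234) (nat_lit 228) (nat_lit 0) (XT.nd (nat_lit 78) (nat_lit 152) (nat_lit 0) (XT.lf (nat_lit 76) (nat_lit 15973752237) (nat_lit 0) (nat_lit 15976973053) (nat_lit 76) (nat_lit 15976973053) (nat_lit 135) (nat_lit 3) (nat_lit 134) (nat_lit 1) (nat_lit 135) (nat_lit 1) (nat_lit 289) (nat_lit 347) (nat_lit 264)) (XT.nd (nat_lit 78) (nat_lit 0) (nat_lit 0) (XT.lf (nat_lit 152) (nat_lit 45842158637) (nat_lit 0) (nat_lit 848699) (nat_lit 76) (nat_lit 848699) (nat_lit 134) (nat_lit 1) (nat_lit 132) (nat_lit 1) (nat_lit 133) (nat_lit 1) (nat_lit 290) (nat_lit 347) (nat_lit 263)) (XT.lf (nat_lit 0) (nat_lit 14552897650)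 (nat_lit 0) (nat_lit 14555015389) (nat_lit 152) (nat_lit 14552897650) (nat_lit 132) (nat_lit 3) (nat_lit 132) (nat_lit 1) (nat_lit 134) (nat_lit 1) (nat_lit 291) (nat_lit 347) (nat_lit 262)))) (XT.nd (nat_lit 78) (nat_lit 152) (nat_lit 0) (XT.lf (nat_lit 76) (nat_lit 13890844268) (nat_lit 0) (nat_lit 13892685780) (nat_lit 76) (nat_lit 13892685780) (nat_lit 132) (nat_lit 3) (nat_lit 131) (nat_lit 1) (nat_lit 132) (nat_lit 1) (nat_lit 292) (nat_lit 347) (nat_lit 261)) (XT.nd (nat_lit 78) (nat_lit 0) (nat_lit 0) (XT.lf (nat_lit 152) (nat_lit 39863219179) (nat_lit 0) (nat_lit 485246) (nat_lit 76) (nat_lit 485246) (nat_lit 131) (nat_lit 1) (nat_lit 129) (nat_lit 1) (nat_lit 130) (nat_lit 1) (nat_lit 293) (nat_lit 347) (nat_lit 260)) (XT.lf (nat_lit 0) (nat_lit 12654893827) (nat_lit 0) (nat_lit 12656104651) (nat_lit 152) (nat_lit 12654893827) (nat_lit 129) (nat_lit 3) (nat_lit 129) (nat_lit 1) (nat_lit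 131) (nat_lit 1) (nat_lit 294) (nat_lit 347) (nat_lit 259)))))) (XT.nd (nat_lit 390) (nat_lit 456) (nat_lit 0) (XT.nd (nat_lit 156) (nat_lit 228) (nat_lit 0) (XT.nd (nat_lit 78) (nat_lit 152) (nat_lit 0) (XT.lf (nat_lit 76) (nat_lit 12079352322) (nat_lit 0) (nat_lit 12080405213) (nat_lit 76) (nat_lit 12080405213) (nat_lit 129) (nat_lit 3) (nat_lit 128) (nat_lit 1) (nat_lit 129) (nat_lit 1) (nat_lit 295) (nat_lit 347) (nat_lit 258)) (XT.lf (nat_lit 152) (nat_lit 34663939027) (nat_lit 0) (nat_lit 277441) (nat_lit 76) (nat_lit 277441) (nat_lit 128) (nat_lit 1) (nat_lit 126) (nat_lit 1) (nat_lit 127) (nat_lit 1) (nat_lit 296) (nat_lit 347) (nat_lit 257))) (XT.nd (nat_lit 78) (nat_lit 228) (nat_lit 0) (XT.lf (nat_lit 0) (nat_lit 11004369977) (nat_lit 0) (nat_lit 11005062270) (nat_lit 152) (nat_lit 11004369977) (nat_lit 126) (nat_lit 3) (nat_lit 126) (nat_lit 1) (nat_lit 128) (nat_lit 1) (nat_lit 297)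 (nat_lit 347) (nat_lit 256)) (XT.nd (nat_lit 78) (nat_lit 152) (nat_lit 0) (XT.lf (nat_lit 76) (nat_lit 10503988919) (nat_lit 0) (nat_lit 10504590913) (nat_lit 76) (nat_lit 10504590913) (nat_lit 126) (nat_lit 3) (nat_lit 125) (nat_lit 1) (nat_lit 126) (nat_lit 1) (nat_lit 298) (nat_lit 347) (nat_lit 255)) (XT.lf (nat_lit 152) (nat_lit 30142710149) (nat_lit 0) (nat_lit 158628) (nat_lit 76) (nat_lit 158628) (nat_lit 125) (nat_lit 1) (nat_lit 123) (nat_lit 1) (nat_lit 124) (nat_lit 1) (nat_lit 299) (nat_lit 347) (nat_lit 254))))) (XT.nd (nat_lit 234) (nat_lit 228) (nat_lit 0) (XT.nd (nat_lit 78) (nat_lit 228) (nat_lit 0) (XT.lf (nat_lit 0) (nat_lit 9569082823) (nat_lit 0) (nat_lit 9569478644) (nat_lit 152) (nat_lit 9569082823) (nat_lit 123) (nat_lit 3) (nat_lit 123) (nat_lit 1) (nat_lit 125) (nat_lit 1) (nat_lit 300) (nat_lit 347) (nat_lit 253)) (XT.nd (nat_lit 78) (nat_lit 152) (nat_lit 0) (XT.lf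 (nat_lit 76) (nat_lit 9134020212) (nat_lit 0) (nat_lit 9134364404) (nat_lit 76) (nat_lit 9134364404) (nat_lit 123) (nat_lit 3) (nat_lit 122) (nat_lit 1) (nat_lit 123) (nat_lit 1) (nat_lit 301) (nat_lit 347) (nat_lit 252)) (XT.lf (nat_lit 152) (nat_lit 26211140624) (nat_lit 0) (nat_lit 90696) (nat_lit 76) (nat_lit 90696) (nat_lit 122) (nat_lit 1) (nat_lit 120) (nat_lit 1) (nat_lit 121) (nat_lit 1) (nat_lit 302) (nat_lit 347) (nat_lit 251)))) (XT.nd (nat_lit 78) (nat_lit 228) (nat_lit 0) (XT.lf (nat_lit 0) (nat_lit 8320979007) (nat_lit 0) (nat_lit 8321205319) (nat_lit 152) (nat_lit 8320979007) (nat_lit 120) (nat_lit 3) (nat_lit 120) (nat_lit 1) (nat_lit 122) (nat_lit 1) (nat_lit 303) (nat_lit 347) (nat_lit 250)) (XT.nd (nat_lit 78) (nat_lit 152) (nat_lit 0) (XT.lf (nat_lit 76) (nat_lit 7942693055) (nat_lit 0) (nat_lit 7942889848) (nat_lit 76) (nat_lit 7942889848) (nat_lit 120) (nat_lit 3) (nat_lit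 119) (nat_lit 1) (nat_lit 120) (nat_lit 1) (nat_lit 304) (nat_lit 347) (nat_lit 249)) (XT.lf (nat_lit 152) (nat_lit 22792346692) (nat_lit 0) (nat_lit 51855) (nat_lit 76) (nat_lit 51855) (nat_lit 119) (nat_lit 1) (nat_lit 117) (nat_lit 1) (nat_lit 118) (nat_lit 1) (nat_lit 305) (nat_lit 347) (nat_lit 248))))))))
noncomputable def ec149 : XT := (XT.nd (nat_lit 1716) (nat_lit 1824) (nat_lit 0) (XT.nd (nat_lit 858) (nat_lit 836) (nat_lit 0) (XT.nd (nat_lit 390) (nat_lit 456) (nat_lit 0) (XT.nd (nat_lit 156) (nat_lit 228) (nat_lit 0) (XT.nd (nat_lit 78) (nat_lit 76) (nat_lit 0) (XT.lf (nat_lit 0) (nat_lit 7235655316) (nat_lit 0) (nat_lit 7235784710) (nat_lit 152) (nat_lit 7235655316) (nat_lit 117) (nat_lit 3) (nat_lit 117) (nat_lit 1) (nat_lit 119) (nat_lit 1) (nat_lit 306) (nat_lit 347) (nat_lit 247)) (XT.lf (nat_lit 76) (nat_lit 6906727796) (nat_lit 0) (nat_lit 6906840313) (nat_lit 76) (nat_lit 6906840313)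 (nat_lit 117) (nat_lit 3) (nat_lit 116) (nat_lit 1) (nat_lit 117) (nat_lit 1) (nat_lit 307) (nat_lit 347) (nat_lit 246))) (XT.nd (nat_lit 78) (nat_lit 76) (nat_lit 0) (XT.lf (nat_lit 152) (nat_lit 19819460779) (nat_lit 0) (nat_lit 29648) (nat_lit 76) (nat_lit 29648) (nat_lit 116) (nat_lit 1) (nat_lit 114) (nat_lit 1) (nat_lit 115) (nat_lit 1) (nat_lit 308) (nat_lit 347) (nat_lit 245)) (XT.nd (nat_lit 78) (nat_lit 76) (nat_lit 0) (XT.lf (nat_lit 0) (nat_lit 6291886421) (nat_lit 0) (nat_lit 6291960403) (nat_lit 152) (nat_lit 6291886421) (nat_lit 114) (nat_lit 3) (nat_lit 114) (nat_lit 1) (nat_lit 116) (nat_lit 1) (nat_lit 309) (nat_lit 347) (nat_lit 244)) (XT.lf (nat_lit 76) (nat_lit 6005872089) (nat_lit 0) (nat_lit 6005936421) (nat_lit 76) (nat_lit 6005936421) (nat_lit 114) (nat_lit 3) (nat_lit 113) (nat_lit 1) (nat_lit 114) (nat_lit 1) (nat_lit 310) (nat_lit 347) (nat_lit 243))))) (XT.nd (nat_lit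 234) (nat_lit 228) (nat_lit 0) (XT.nd (nat_lit 78) (nat_lit 76) (nat_lit 0) (XT.lf (nat_lit 152) (nat_lit 17234330228) (nat_lit 0) (nat_lit 16951) (nat_lit 76) (nat_lit 16951) (nat_lit 113) (nat_lit 1) (nat_lit 111) (nat_lit 1) (nat_lit 112) (nat_lit 1) (nat_lit 311) (nat_lit 347) (nat_lit 242)) (XT.nd (nat_lit 78) (nat_lit 76) (nat_lit 0) (XT.lf (nat_lit 0) (nat_lit 5471212578) (nat_lit 0) (nat_lit 5471254877) (nat_lit 152) (nat_lit 5471212578) (nat_lit 111) (nat_lit 3) (nat_lit 111) (nat_lit 1) (nat_lit 113) (nat_lit 1) (nat_lit 312) (nat_lit 347) (nat_lit 241)) (XT.lf (nat_lit 76) (nat_lit 5222509951) (nat_lit 0) (nat_lit 5222546733) (nat_lit 76) (nat_lit 5222546733) (nat_lit 111) (nat_lit 3) (nat_lit 110) (nat_lit 1) (nat_lit 111) (nat_lit 1) (nat_lit 313) (nat_lit 347) (nat_lit 240)))) (XT.nd (nat_lit 78) (nat_lit 76) (nat_lit 0) (XT.lf (nat_lit 152) (nat_lit 14986383550) (nat_lit 0) (nat_lit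 9692) (nat_lit 76) (nat_lit 9692) (nat_lit 110) (nat_lit 1) (nat_lit 108) (nat_lit 1) (nat_lit 109) (nat_lit 1) (nat_lit 314) (nat_lit 347) (nat_lit 239)) (XT.nd (nat_lit 78) (nat_lit 76) (nat_lit 0) (XT.lf (nat_lit 0) (nat_lit 4757580154) (nat_lit 0) (nat_lit 4757604338) (nat_lit 152) (nat_lit 4757580154) (nat_lit 108) (nat_lit 3) (nat_lit 108) (nat_lit 1) (nat_lit 110) (nat_lit 1) (nat_lit 315) (nat_lit 347) (nat_lit 238)) (XT.lf (nat_lit 76) (nat_lit 4541320138) (nat_lit 0) (nat_lit 4541341168) (nat_lit 76) (nat_lit 4541341168) (nat_lit 108) (nat_lit 3) (nat_lit 107) (nat_lit 1) (nat_lit 108) (nat_lit 1) (nat_lit 316) (nat_lit 347) (nat_lit 237)))))) (XT.nd (nat_lit 390) (nat_lit 456) (nat_lit 0) (XT.nd (nat_lit 156) (nat_lit 228) (nat_lit 0) (XT.nd (nat_lit 78) (nat_lit 0) (nat_lit 0) (XT.lf (nat_lit 152) (nat_lit 13031643266) (nat_lit 0) (nat_lit 5541) (nat_lit 76) (nat_lit 5541) (nat_lit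 107) (nat_lit 1) (nat_lit 105) (nat_lit 1) (nat_lit 106) (nat_lit 1) (nat_lit 317) (nat_lit 347) (nat_lit 236)) (XT.lf (nat_lit 0) (nat_lit 4137028507) (nat_lit 0) (nat_lit 4137042335) (nat_lit 152) (nat_lit 4137028507) (nat_lit 105) (nat_lit 3) (nat_lit 105) (nat_lit 1) (nat_lit 107) (nat_lit 1) (nat_lit 318) (nat_lit 347) (nat_lit 235))) (XT.nd (nat_lit 78) (nat_lit 152) (nat_lit 0) (XT.lf (nat_lit 76) (nat_lit 3948978113) (nat_lit 0) (nat_lit 3948990137) (nat_lit 76) (nat_lit 3948990137) (nat_lit 105) (nat_lit 3) (nat_lit 104) (nat_lit 1) (nat_lit 105) (nat_lit 1) (nat_lit 319) (nat_lit 347) (nat_lit 234)) (XT.nd (nat_lit 78) (nat_lit 0) (nat_lit 0) (XT.lf (nat_lit 152) (nat_lit 11331866795) (nat_lit 0) (nat_lit 3168) (nat_lit 76) (nat_lit 3168) (nat_lit 104) (nat_lit 1) (nat_lit 102) (nat_lit 1) (nat_lit 103) (nat_lit 1) (nat_lit 320) (nat_lit 347) (nat_lit 233)) (XT.lf (nat_lit 0) (nat_lit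 3597417400) (nat_lit 0) (nat_lit 3597425306) (nat_lit 152) (nat_lit 3597417400) (nat_lit 102) (nat_lit 3) (nat_lit 102) (nat_lit 1) (nat_lit 104) (nat_lit 1) (nat_lit 321) (nat_lit 347) (nat_lit 232))))) (XT.nd (nat_lit 234) (nat_lit 228) (nat_lit 0) (XT.nd (nat_lit 78) (nat_lit 152) (nat_lit 0) (XT.lf (nat_lit 76) (nat_lit 3433896344) (nat_lit 0) (nat_lit 3433903219) (nat_lit 76) (nat_lit 3433903219) (nat_lit 102) (nat_lit 3) (nat_lit 101) (nat_lit 1) (nat_lit 102) (nat_lit 1) (nat_lit 322) (nat_lit 347) (nat_lit 231)) (XT.nd (nat_lit 78) (nat_lit 0) (nat_lit 0) (XT.lf (nat_lit 152) (nat_lit 9853798977) (nat_lit 0) (nat_lit 1811) (nat_lit 76) (nat_lit 1811) (nat_lit 101) (nat_lit 1) (nat_lit 99) (nat_lit 1) (nat_lit 100) (nat_lit 1) (nat_lit 323) (nat_lit 347) (nat_lit 230)) (XT.lf (nat_lit 0) (nat_lit 3128189791) (nat_lit 0) (nat_lit 3128194311) (nat_lit 152) (nat_lit 3128189791) (nat_lit 99)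 (nat_lit 3) (nat_lit 99) (nat_lit 1) (nat_lit 101) (nat_lit 1) (nat_lit 324) (nat_lit 347) (nat_lit 229)))) (XT.nd (nat_lit 78) (nat_lit 152) (nat_lit 0) (XT.lf (nat_lit 76) (nat_lit 2985998155) (nat_lit 0) (nat_lit 2986002086) (nat_lit 76) (nat_lit 2986002086) (nat_lit 99) (nat_lit 3) (nat_lit 98) (nat_lit 1) (nat_lit 99) (nat_lit 1) (nat_lit 325) (nat_lit 347) (nat_lit 228)) (XT.nd (nat_lit 78) (nat_lit 0) (nat_lit 0) (XT.lf (nat_lit 152) (nat_lit 8568521858) (nat_lit 0) (nat_lit 1035) (nat_lit 76) (nat_lit 1035) (nat_lit 98) (nat_lit 1) (nat_lit 96) (nat_lit 1) (nat_lit 97) (nat_lit 1) (nat_lit 326) (nat_lit 347) (nat_lit 227)) (XT.lf (nat_lit 0) (nat_lit 2720165463) (nat_lit 0) (nat_lit 2720168048) (nat_lit 152) (nat_lit 2720165463) (nat_lit 96) (nat_lit 3) (nat_lit 96) (nat_lit 1) (nat_lit 98) (nat_lit 1) (nat_lit 327) (nat_lit 347) (nat_lit 226))))))) (XT.nd (nat_lit 858) (nat_lit 912) (nat_lit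 0) (XT.nd (nat_lit 390) (nat_lit 456) (nat_lit 0) (XT.nd (nat_lit 156) (nat_lit 228) (nat_lit 0) (XT.nd (nat_lit 78) (nat_lit 152) (nat_lit 0) (XT.lf (nat_lit 76) (nat_lit 2596520897) (nat_lit 0) (nat_lit 2596523145) (nat_lit 76) (nat_lit 2596523145) (nat_lit 96) (nat_lit 3) (nat_lit 95) (nat_lit 1) (nat_lit 96) (nat_lit 1) (nat_lit 328) (nat_lit 347) (nat_lit 225)) (XT.lf (nat_lit 152) (nat_lit 7450889149) (nat_lit 0) (nat_lit 592) (nat_lit 76) (nat_lit 592) (nat_lit 95) (nat_lit 1) (nat_lit 93) (nat_lit 1) (nat_lit 94) (nat_lit 1) (nat_lit 329) (nat_lit 347) (nat_lit 224))) (XT.nd (nat_lit 78) (nat_lit 228) (nat_lit 0) (XT.lf (nat_lit 0) (nat_lit 2365361517) (nat_lit 0) (nat_lit 2365362994) (nat_lit 152) (nat_lit 2365361517) (nat_lit 93) (nat_lit 3) (nat_lit 93) (nat_lit 1) (nat_lit 95) (nat_lit 1) (nat_lit 330) (nat_lit 347) (nat_lit 223)) (XT.nd (nat_lit 78) (nat_lit 152) (nat_lit 0) (XT.lf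 (nat_lit 76) (nat_lit 2257844695) (nat_lit 0) (nat_lit 2257845980) (nat_lit 76) (nat_lit 2257845980) (nat_lit 93) (nat_lit 3) (nat_lit 92) (nat_lit 1) (nat_lit 93) (nat_lit 1) (nat_lit 331) (nat_lit 347) (nat_lit 222)) (XT.lf (nat_lit 152) (nat_lit 6479034372) (nat_lit 0) (nat_lit 338) (nat_lit 76) (nat_lit 338) (nat_lit 92) (nat_lit 1) (nat_lit 90) (nat_lit 1) (nat_lit 91) (nat_lit 1) (nat_lit 332) (nat_lit 347) (nat_lit 221))))) (XT.nd (nat_lit 234) (nat_lit 228) (nat_lit 0) (XT.nd (nat_lit 78) (nat_lit 228) (nat_lit 0) (XT.lf (nat_lit 0) (nat_lit 2056836241) (nat_lit 0) (nat_lit 2056837086) (nat_lit 152) (nat_lit 2056836241) (nat_lit 90) (nat_lit 3) (nat_lit 90) (nat_lit 1) (nat_lit 92) (nat_lit 1) (nat_lit 333) (nat_lit 347) (nat_lit 220)) (XT.nd (nat_lit 78) (nat_lit 152) (nat_lit 0) (XT.lf (nat_lit 76) (nat_lit 1963343462) (nat_lit 0) (nat_lit 1963344197) (nat_lit 76) (nat_lit 1963344197)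 (nat_lit 90) (nat_lit 3) (nat_lit 89) (nat_lit 1) (nat_lit 90) (nat_lit 1) (nat_lit 334) (nat_lit 347) (nat_lit 219)) (XT.lf (nat_lit 152) (nat_lit 5633943121) (nat_lit 0) (nat_lit 193) (nat_lit 76) (nat_lit 193) (nat_lit 89) (nat_lit 1) (nat_lit 87) (nat_lit 1) (nat_lit 88) (nat_lit 1) (nat_lit 335) (nat_lit 347) (nat_lit 218)))) (XT.nd (nat_lit 78) (nat_lit 228) (nat_lit 0) (XT.lf (nat_lit 0) (nat_lit 1788553333) (nat_lit 0) (nat_lit 1788553816) (nat_lit 152) (nat_lit 1788553333) (nat_lit 87) (nat_lit 3) (nat_lit 87) (nat_lit 1) (nat_lit 89) (nat_lit 1) (nat_lit 336) (nat_lit 347) (nat_lit 217)) (XT.nd (nat_lit 78) (nat_lit 152) (nat_lit 0) (XT.lf (nat_lit 76) (nat_lit 1707255327) (nat_lit 0) (nat_lit 1707255747) (nat_lit 76) (nat_lit 1707255747) (nat_lit 87) (nat_lit 3) (nat_lit 86) (nat_lit 1) (nat_lit 87) (nat_lit 1) (nat_lit 337) (nat_lit 347) (nat_lit 216)) (XT.lf (nat_lit 152) (nat_lit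 4899081082) (nat_lit 0) (nat_lit 110) (nat_lit 76) (nat_lit 110) (nat_lit 86) (nat_lit 1) (nat_lit 84) (nat_lit 1) (nat_lit 85) (nat_lit 1) (nat_lit 338) (nat_lit 347) (nat_lit 215)))))) (XT.nd (nat_lit 468) (nat_lit 456) (nat_lit 0) (XT.nd (nat_lit 234) (nat_lit 228) (nat_lit 0) (XT.nd (nat_lit 78) (nat_lit 228) (nat_lit 0) (XT.lf (nat_lit 0) (nat_lit 1555263813) (nat_lit 0) (nat_lit 1555264089) (nat_lit 152) (nat_lit 1555263813) (nat_lit 84) (nat_lit 3) (nat_lit 84) (nat_lit 1) (nat_lit 86) (nat_lit 1) (nat_lit 339) (nat_lit 347) (nat_lit 214)) (XT.nd (nat_lit 78) (nat_lit 152) (nat_lit 0) (XT.lf (nat_lit 76) (nat_lit 1484569931) (nat_lit 0) (nat_lit 1484570171) (nat_lit 76) (nat_lit 1484570171) (nat_lit 84) (nat_lit 3) (nat_lit 83) (nat_lit 1) (nat_lit 84) (nat_lit 1) (nat_lit 340) (nat_lit 347) (nat_lit 213)) (XT.lf (nat_lit 152) (nat_lit 4260070568) (nat_lit 0) (nat_lit 63) (nat_lit 76) (nat_lit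 63) (nat_lit 83) (nat_lit 1) (nat_lit 81) (nat_lit 1) (nat_lit 82) (nat_lit 1) (nat_lit 341) (nat_lit 347) (nat_lit 212)))) (XT.nd (nat_lit 78) (nat_lit 228) (nat_lit 0) (XT.lf (nat_lit 0) (nat_lit 1352403342) (nat_lit 0) (nat_lit 1352403500) (nat_lit 152) (nat_lit 1352403342) (nat_lit 81) (nat_lit 3) (nat_lit 81) (nat_lit 1) (nat_lit 83) (nat_lit 1) (nat_lit 342) (nat_lit 347) (nat_lit 211)) (XT.nd (nat_lit 78) (nat_lit 152) (nat_lit 0) (XT.lf (nat_lit 76) (nat_lit 1290930421) (nat_lit 0) (nat_lit 1290930558) (nat_lit 76) (nat_lit 1290930558) (nat_lit 81) (nat_lit 3) (nat_lit 80) (nat_lit 1) (nat_lit 81) (nat_lit 1) (nat_lit 343) (nat_lit 347) (nat_lit 210)) (XT.lf (nat_lit 152) (nat_lit 3704409225) (nat_lit 0) (nat_lit 36) (nat_lit 76) (nat_lit 36) (nat_lit 80) (nat_lit 1) (nat_lit 78) (nat_lit 1) (nat_lit 79) (nat_lit 1) (nat_lit 344) (nat_lit 347) (nat_lit 209))))) (XT.nd (nat_lit 234) (nat_lit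 228) (nat_lit 0) (XT.nd (nat_lit 78) (nat_lit 228) (nat_lit 0) (XT.lf (nat_lit 0) (nat_lit 1176002921) (nat_lit 0) (nat_lit 1176003011) (nat_lit 152) (nat_lit 1176002921) (nat_lit 78) (nat_lit 3) (nat_lit 78) (nat_lit 1) (nat_lit 80) (nat_lit 1) (nat_lit 345) (nat_lit 347) (nat_lit 208)) (XT.nd (nat_lit 78) (nat_lit 152) (nat_lit 0) (XT.lf (nat_lit 76) (nat_lit 1122548219) (nat_lit 0) (nat_lit 1122548297) (nat_lit 76) (nat_lit 1122548297) (nat_lit 78) (nat_lit 3) (nat_lit 77) (nat_lit 1) (nat_lit 78) (nat_lit 1) (nat_lit 346) (nat_lit 347) (nat_lit 207)) (XT.lf (nat_lit 152) (nat_lit 3221225433) (nat_lit 0) (nat_lit 20) (nat_lit 76) (nat_lit 20) (nat_lit 77) (nat_lit 1) (nat_lit 75) (nat_lit 1) (nat_lit 76) (nat_lit 1) (nat_lit 347) (nat_lit 347) (nat_lit 206)))) (XT.nd (nat_lit 78) (nat_lit 228) (nat_lit 0) (XT.lf (nat_lit 0) (nat_lit 1022611244) (nat_lit 0) (nat_lit 1022611296) (nat_lit 152)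 (nat_lit 1022611244) (nat_lit 75) (nat_lit 3) (nat_lit 75) (nat_lit 1) (nat_lit 77) (nat_lit 1) (nat_lit 348) (nat_lit 347) (nat_lit 205)) (XT.nd (nat_lit 78) (nat_lit 152) (nat_lit 0) (XT.lf (nat_lit 76) (nat_lit 976128901) (nat_lit 0) (nat_lit 976128946) (nat_lit 76) (nat_lit 976128946) (nat_lit 75) (nat_lit 3) (nat_lit 74) (nat_lit 1) (nat_lit 75) (nat_lit 1) (nat_lit 349) (nat_lit 347) (nat_lit 204)) (XT.lf (nat_lit 152) (nat_lit 2801065605) (nat_lit 0) (nat_lit 11) (nat_lit 76) (nat_lit 11) (nat_lit 74) (nat_lit 1) (nat_lit 72) (nat_lit 1) (nat_lit 73) (nat_lit 1) (nat_lit 350) (nat_lit 347) (nat_lit 203))))))))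
noncomputable def ec150 : XT := (XT.nd (nat_lit 35490) (nat_lit 0) (nat_lit 10792) (XT.nd (nat_lit 858) (nat_lit 684) (nat_lit 0) (XT.nd (nat_lit 390) (nat_lit 456) (nat_lit 0) (XT.nd (nat_lit 156) (nat_lit 228) (nat_lit 0) (XT.nd (nat_lit 78) (nat_lit 76) (nat_lit 0) (XT.lf (nat_lit 0) (nat_lit 889227174) (nat_lit 0) (nat_lit 889227203) (nat_lit 152) (nat_lit 889227174) (nat_lit 72) (nat_lit 3) (nat_lit 72) (nat_lit 1) (nat_lit 74) (nat_lit 1) (nat_lit 351) (nat_lit 347) (nat_lit 202)) (XT.lf (nat_lit 76) (nat_lit 848807749) (nat_lit 0) (nat_lit 848807774) (nat_lit 76) (nat_lit 848807774) (nat_lit 72) (nat_lit 3) (nat_lit 71) (nat_lit 1) (nat_lit 72) (nat_lit 1) (nat_lit 352) (nat_lit 347) (nat_lit 201))) (XT.nd (nat_lit 78) (nat_lit 76) (nat_lit 0) (XT.lf (nat_lit 152) (nat_lit 2435709228) (nat_lit 0) (nat_lit 6) (nat_lit 76) (nat_lit 6) (nat_lit 71) (nat_lit 1) (nat_lit 69) (nat_lit 1) (nat_lit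 70) (nat_lit 1) (nat_lit 353) (nat_lit 347) (nat_lit 200)) (XT.nd (nat_lit 78) (nat_lit 76) (nat_lit 0) (XT.lf (nat_lit 0) (nat_lit 773241023) (nat_lit 0) (nat_lit 773241040) (nat_lit 152) (nat_lit 773241023) (nat_lit 69) (nat_lit 3) (nat_lit 69) (nat_lit 1) (nat_lit 71) (nat_lit 1) (nat_lit 354) (nat_lit 347) (nat_lit 199)) (XT.lf (nat_lit 76) (nat_lit 738093700) (nat_lit 0) (nat_lit 738093714) (nat_lit 76) (nat_lit 738093714) (nat_lit 69) (nat_lit 3) (nat_lit 68) (nat_lit 1) (nat_lit 69) (nat_lit 1) (nat_lit 355) (nat_lit 347) (nat_lit 198))))) (XT.nd (nat_lit 234) (nat_lit 228) (nat_lit 0) (XT.nd (nat_lit 78) (nat_lit 76) (nat_lit 0) (XT.lf (nat_lit 152) (nat_lit 2118008028) (nat_lit 0) (nat_lit 3) (nat_lit 76) (nat_lit 3) (nat_lit 68) (nat_lit 1) (nat_lit 66) (nat_lit 1) (nat_lit 67) (nat_lit 1) (nat_lit 356) (nat_lit 347) (nat_lit 197)) (XT.nd (nat_lit 78) (nat_lit 76) (nat_lit 0) (XT.lf (nat_lit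 0) (nat_lit 672383500) (nat_lit 0) (nat_lit 672383510) (nat_lit 152) (nat_lit 672383500) (nat_lit 66) (nat_lit 3) (nat_lit 66) (nat_lit 1) (nat_lit 68) (nat_lit 1) (nat_lit 357) (nat_lit 347) (nat_lit 196)) (XT.lf (nat_lit 76) (nat_lit 641820611) (nat_lit 0) (nat_lit 641820619) (nat_lit 76) (nat_lit 641820619) (nat_lit 66) (nat_lit 3) (nat_lit 65) (nat_lit 1) (nat_lit 66) (nat_lit 1) (nat_lit 358) (nat_lit 347) (nat_lit 195)))) (XT.nd (nat_lit 78) (nat_lit 76) (nat_lit 0) (XT.lf (nat_lit 152) (nat_lit 1841746114) (nat_lit 0) (nat_lit 2) (nat_lit 76) (nat_lit 2) (nat_lit 65) (nat_lit 1) (nat_lit 63) (nat_lit 1) (nat_lit 64) (nat_lit 1) (nat_lit 359) (nat_lit 347) (nat_lit 194)) (XT.nd (nat_lit 78) (nat_lit 76) (nat_lit 0) (XT.lf (nat_lit 0) (nat_lit 584681305) (nat_lit 0) (nat_lit 584681311) (nat_lit 152) (nat_lit 584681305) (nat_lit 63) (nat_lit 3) (nat_lit 63) (nat_lit 1) (nat_lit 65) (nat_lit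 1) (nat_lit 360) (nat_lit 347) (nat_lit 193)) (XT.lf (nat_lit 76) (nat_lit 558104881) (nat_lit 0) (nat_lit 558104886) (nat_lit 76) (nat_lit 558104886) (nat_lit 63) (nat_lit 3) (nat_lit 62) (nat_lit 1) (nat_lit 63) (nat_lit 1) (nat_lit 361) (nat_lit 347) (nat_lit 192)))))) (XT.nd (nat_lit 390) (nat_lit 304) (nat_lit 0) (XT.nd (nat_lit 156) (nat_lit 228) (nat_lit 0) (XT.nd (nat_lit 78) (nat_lit 0) (nat_lit 0) (XT.lf (nat_lit 152) (nat_lit 1601518361) (nat_lit 0) (nat_lit 1) (nat_lit 76) (nat_lit 1) (nat_lit 62) (nat_lit 1) (nat_lit 60) (nat_lit 1) (nat_lit 61) (nat_lit 1) (nat_lit 362) (nat_lit 347) (nat_lit 191)) (XT.lf (nat_lit 0) (nat_lit 508418527) (nat_lit 0) (nat_lit 508418530) (nat_lit 152) (nat_lit 508418527) (nat_lit 60) (nat_lit 3) (nat_lit 60) (nat_lit 1) (nat_lit 62) (nat_lit 1) (nat_lit 363) (nat_lit 347) (nat_lit 190))) (XT.nd (nat_lit 78) (nat_lit 152) (nat_lit 0) (XT.lf (nat_lit 76)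 (nat_lit 485308593) (nat_lit 0) (nat_lit 485308596) (nat_lit 76) (nat_lit 485308596) (nat_lit 60) (nat_lit 3) (nat_lit 59) (nat_lit 1) (nat_lit 60) (nat_lit 1) (nat_lit 364) (nat_lit 347) (nat_lit 189)) (XT.nd (nat_lit 78) (nat_lit 152) (nat_lit 0) (XT.lf (nat_lit 0) (nat_lit 1392624662) (nat_lit 0) (nat_lit 0) (nat_lit 0) (nat_lit 0) (nat_lit 59) (nat_lit 1) (nat_lit 1) (nat_lit 0) (nat_lit 1) (nat_lit 0) (nat_lit 365) (nat_lit 347) (nat_lit 188)) (XT.lf (nat_lit 0) (nat_lit 442103067) (nat_lit 0) (nat_lit 442103069) (nat_lit 152) (nat_lit 442103067) (nat_lit 57) (nat_lit 3) (nat_lit 57) (nat_lit 1) (nat_lit 59) (nat_lit 1) (nat_lit 366) (nat_lit 347) (nat_lit 187))))) (XT.nd (nat_lit 234) (nat_lit 76) (nat_lit 0) (XT.nd (nat_lit 78) (nat_lit 152) (nat_lit 0) (XT.lf (nat_lit 76) (nat_lit 422007472) (nat_lit 0) (nat_lit 422007474) (nat_lit 76) (nat_lit 422007474) (nat_lit 57) (nat_lit 3) (nat_lit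 56) (nat_lit 1) (nat_lit 57) (nat_lit 1) (nat_lit 367) (nat_lit 347) (nat_lit 186)) (XT.nd (nat_lit 78) (nat_lit 152) (nat_lit 0) (XT.lf (nat_lit 0) (nat_lit 1210977968) (nat_lit 0) (nat_lit 0) (nat_lit 0) (nat_lit 0) (nat_lit 56) (nat_lit 1) (nat_lit 1) (nat_lit 0) (nat_lit 1) (nat_lit 0) (nat_lit 368) (nat_lit 347) (nat_lit 185)) (XT.lf (nat_lit 0) (nat_lit 384437450) (nat_lit 0) (nat_lit 384437451) (nat_lit 152) (nat_lit 384437450) (nat_lit 54) (nat_lit 3) (nat_lit 54) (nat_lit 1) (nat_lit 56) (nat_lit 1) (nat_lit 369) (nat_lit 347) (nat_lit 184)))) (XT.nd (nat_lit 78) (nat_lit 0) (nat_lit 0) (XT.lf (nat_lit 76) (nat_lit 366963020) (nat_lit 0) (nat_lit 366963021) (nat_lit 76) (nat_lit 366963021) (nat_lit 54) (nat_lit 3) (nat_lit 53) (nat_lit 1) (nat_lit 54) (nat_lit 1) (nat_lit 370) (nat_lit 347) (nat_lit 183)) (XT.nd (nat_lit 33852) (nat_lit 0) (nat_lit 12312) (XT.lf (nat_lit 0) (nat_lit 1053024320)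 (nat_lit 0) (nat_lit 0) (nat_lit 0) (nat_lit 0) (nat_lit 53) (nat_lit 1) (nat_lit 1) (nat_lit 0) (nat_lit 1) (nat_lit 0) (nat_lit 371) (nat_lit 347) (nat_lit 182)) (XT.lf (nat_lit 380) (nat_lit 574937683828) (nat_lit 0) (nat_lit 509236456628) (nat_lit 380) (nat_lit 574937683828) (nat_lit 220) (nat_lit 1) (nat_lit 215) (nat_lit 0) (nat_lit 220) (nat_lit 0) (nat_lit 204) (nat_lit 348) (nat_lit 348))))))) (XT.nd (nat_lit 858) (nat_lit 836) (nat_lit 0) (XT.nd (nat_lit 390) (nat_lit 532) (nat_lit 0) (XT.nd (nat_lit 156) (nat_lit 152) (nat_lit 0) (XT.nd (nat_lit 78) (nat_lit 0) (nat_lit 76) (XT.lf (nat_lit 380) (nat_lit 2126619880039) (nat_lit 76) (nat_lit 486089344963) (nat_lit 0) (nat_lit 486089344963) (nat_lit 220) (nat_lit 1) (nat_lit 216) (nat_lit 1) (nat_lit 215) (nat_lit 0) (nat_lit 205) (nat_lit 348) (nat_lit 347)) (XT.lf (nat_lit 380) (nat_lit 937401848451) (nat_lit 0) (nat_lit 1019981637758)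 (nat_lit 304) (nat_lit 937401848451) (nat_lit 221) (nat_lit 1) (nat_lit 216) (nat_lit 1) (nat_lit 220) (nat_lit 1) (nat_lit 206) (nat_lit 348) (nat_lit 346))) (XT.nd (nat_lit 78) (nat_lit 228) (nat_lit 0) (XT.lf (nat_lit 380) (nat_lit 1609470301154) (nat_lit 76) (nat_lit 550932449116) (nat_lit 0) (nat_lit 550932449116) (nat_lit 221) (nat_lit 1) (nat_lit 217) (nat_lit 1) (nat_lit 216) (nat_lit 1) (nat_lit 207) (nat_lit 348) (nat_lit 345)) (XT.nd (nat_lit 78) (nat_lit 304) (nat_lit 0) (XT.lf (nat_lit 76) (nat_lit 651052083143) (nat_lit 0) (nat_lit 1239712466396) (nat_lit 304) (nat_lit 651052083143) (nat_lit 218) (nat_lit 1) (nat_lit 217) (nat_lit 1) (nat_lit 221) (nat_lit 1) (nat_lit 208) (nat_lit 348) (nat_lit 344)) (XT.lf (nat_lit 380) (nat_lit 978478699747) (nat_lit 0) (nat_lit 704290204858) (nat_lit 304) (nat_lit 704290204858) (nat_lit 218) (nat_lit 1) (nat_lit 213) (nat_lit 1) (nat_lit 217)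 (nat_lit 1) (nat_lit 209) (nat_lit 348) (nat_lit 343))))) (XT.nd (nat_lit 234) (nat_lit 152) (nat_lit 0) (XT.nd (nat_lit 78) (nat_lit 380) (nat_lit 0) (XT.lf (nat_lit 76) (nat_lit 325235513392) (nat_lit 0) (nat_lit 1595938815905) (nat_lit 380) (nat_lit 325235513392) (nat_lit 214) (nat_lit 1) (nat_lit 213) (nat_lit 1) (nat_lit 218) (nat_lit 1) (nat_lit 210) (nat_lit 348) (nat_lit 342)) (XT.nd (nat_lit 78) (nat_lit 228) (nat_lit 0) (XT.lf (nat_lit 228) (nat_lit 292704289890) (nat_lit 0) (nat_lit 910969877361) (nat_lit 152) (nat_lit 910969877361) (nat_lit 214) (nat_lit 1) (nat_lit 211) (nat_lit 1) (nat_lit 213) (nat_lit 1) (nat_lit 211) (nat_lit 348) (nat_lit 341)) (XT.lf (nat_lit 228) (nat_lit 1966969145060) (nat_lit 0) (nat_lit 15432861804) (nat_lit 152) (nat_lit 15432861804) (nat_lit 211) (nat_lit 1) (nat_lit 208) (nat_lit 1) (nat_lit 210) (nat_lit 1) (nat_lit 212) (nat_lit 348) (nat_lit 340))))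 (XT.nd (nat_lit 78) (nat_lit 152) (nat_lit 0) (XT.lf (nat_lit 76) (nat_lit 755722117951) (nat_lit 0) (nat_lit 371019333100) (nat_lit 228) (nat_lit 755722117951) (nat_lit 209) (nat_lit 1) (nat_lit 208) (nat_lit 1) (nat_lit 211) (nat_lit 1) (nat_lit 213) (nat_lit 348) (nat_lit 339)) (XT.nd (nat_lit 78) (nat_lit 0) (nat_lit 0) (XT.lf (nat_lit 228) (nat_lit 1098471104102) (nat_lit 0) (nat_lit 340734938129) (nat_lit 152) (nat_lit 340734938129) (nat_lit 209) (nat_lit 1) (nat_lit 206) (nat_lit 1) (nat_lit 208) (nat_lit 1) (nat_lit 214) (nat_lit 348) (nat_lit 338)) (XT.lf (nat_lit 76) (nat_lit 343527942578) (nat_lit 0) (nat_lit 996912216234) (nat_lit 228) (nat_lit 343527942578) (nat_lit 207) (nat_lit 1) (nat_lit 206) (nat_lit 1) (nat_lit 209) (nat_lit 1) (nat_lit 215) (nat_lit 348) (nat_lit 337)))))) (XT.nd (nat_lit 390) (nat_lit 456) (nat_lit 0) (XT.nd (nat_lit 156) (nat_lit 76) (nat_lit 0) (XT.nd (nat_lit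 78) (nat_lit 228) (nat_lit 0) (XT.lf (nat_lit 152) (nat_lit 283989329210) (nat_lit 0) (nat_lit 655306774040) (nat_lit 76) (nat_lit 655306774040) (nat_lit 207) (nat_lit 1) (nat_lit 205) (nat_lit 1) (nat_lit 206) (nat_lit 1) (nat_lit 216) (nat_lit 348) (nat_lit 336)) (XT.lf (nat_lit 228) (nat_lit 1437720920142) (nat_lit 0) (nat_lit 38194527728) (nat_lit 152) (nat_lit 38194527728) (nat_lit 205) (nat_lit 1) (nat_lit 202) (nat_lit 1) (nat_lit 204) (nat_lit 1) (nat_lit 217) (nat_lit 348) (nat_lit 335))) (XT.nd (nat_lit 78) (nat_lit 76) (nat_lit 0) (XT.lf (nat_lit 76) (nat_lit 503171400316) (nat_lit 0) (nat_lit 427309569996) (nat_lit 228) (nat_lit 503171400316) (nat_lit 203) (nat_lit 1) (nat_lit 202) (nat_lit 1) (nat_lit 205) (nat_lit 1) (nat_lit 218) (nat_lit 348) (nat_lit 334)) (XT.nd (nat_lit 78) (nat_lit 0) (nat_lit 0) (XT.lf (nat_lit 152) (nat_lit 611808230092) (nat_lit 0) (nat_lit 374673774916)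 (nat_lit 76) (nat_lit 374673774916) (nat_lit 203) (nat_lit 1) (nat_lit 201) (nat_lit 1) (nat_lit 202) (nat_lit 1) (nat_lit 219) (nat_lit 348) (nat_lit 333)) (XT.lf (nat_lit 0) (nat_lit 119800482624) (nat_lit 0) (nat_lit 1054714249902) (nat_lit 152) (nat_lit 119800482624) (nat_lit 201) (nat_lit 3) (nat_lit 201) (nat_lit 1) (nat_lit 203) (nat_lit 1) (nat_lit 220) (nat_lit 348) (nat_lit 332))))) (XT.nd (nat_lit 234) (nat_lit 228) (nat_lit 0) (XT.nd (nat_lit 78) (nat_lit 76) (nat_lit 0) (XT.lf (nat_lit 76) (nat_lit 554436128347) (nat_lit 0) (nat_lit 120247611599) (nat_lit 152) (nat_lit 554436128347) (nat_lit 200) (nat_lit 1) (nat_lit 199) (nat_lit 1) (nat_lit 201) (nat_lit 1) (nat_lit 221) (nat_lit 348) (nat_lit 331)) (XT.nd (nat_lit 78) (nat_lit 0) (nat_lit 0) (XT.lf (nat_lit 152) (nat_lit 740617610281) (nat_lit 0) (nat_lit 214220946847) (nat_lit 76) (nat_lit 214220946847) (nat_lit 200) (nat_lit 1)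 (nat_lit 198) (nat_lit 1) (nat_lit 199) (nat_lit 1) (nat_lit 222) (nat_lit 348) (nat_lit 330)) (XT.lf (nat_lit 0) (nat_lit 192564336683) (nat_lit 0) (nat_lit 727104317474) (nat_lit 152) (nat_lit 192564336683) (nat_lit 198) (nat_lit 3) (nat_lit 198) (nat_lit 1) (nat_lit 200) (nat_lit 1) (nat_lit 223) (nat_lit 348) (nat_lit 329)))) (XT.nd (nat_lit 78) (nat_lit 152) (nat_lit 0) (XT.lf (nat_lit 76) (nat_lit 42957662409) (nat_lit 0) (nat_lit 507775037010) (nat_lit 76) (nat_lit 507775037010) (nat_lit 198) (nat_lit 3) (nat_lit 197) (nat_lit 1) (nat_lit 198) (nat_lit 1) (nat_lit 224) (nat_lit 348) (nat_lit 328)) (XT.nd (nat_lit 78) (nat_lit 0) (nat_lit 0) (XT.lf (nat_lit 152) (nat_lit 763289017244) (nat_lit 0) (nat_lit 122481521633) (nat_lit 76) (nat_lit 122481521633) (nat_lit 197) (nat_lit 1) (nat_lit 195) (nat_lit 1) (nat_lit 196) (nat_lit 1) (nat_lit 225) (nat_lit 348) (nat_lit 327)) (XT.lf (nat_lit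 0) (nat_lit 217984520935) (nat_lit 0) (nat_lit 523609489852) (nat_lit 152) (nat_lit 217984520935) (nat_lit 195) (nat_lit 3) (nat_lit 195) (nat_lit 1) (nat_lit 197) (nat_lit 1) (nat_lit 226) (nat_lit 348) (nat_lit 326))))))))
noncomputable def ec151 : XT := (XT.nd (nat_lit 1716) (nat_lit 1748) (nat_lit 0) (XT.nd (nat_lit 858) (nat_lit 760) (nat_lit 0) (XT.nd (nat_lit 390) (nat_lit 456) (nat_lit 0) (XT.nd (nat_lit 156) (nat_lit 228) (nat_lit 0) (XT.nd (nat_lit 78) (nat_lit 152) (nat_lit 0) (XT.lf (nat_lit 76) (nat_lit 127542544973) (nat_lit 0) (nat_lit 393303387509) (nat_lit 76) (nat_lit 393303387509) (nat_lit 195) (nat_lit 3) (nat_lit 194) (nat_lit 1) (nat_lit 195) (nat_lit 1) (nat_lit 227) (nat_lit 348) (nat_lit 325)) (XT.lf (nat_lit 152) (nat_lit 731924707563) (nat_lit 0) (nat_lit 70029207519) (nat_lit 76) (nat_lit 70029207519) (nat_lit 194) (nat_lit 1) (nat_lit 192) (nat_lit 1) (nat_lit 193)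 (nat_lit 1) (nat_lit 228) (nat_lit 348) (nat_lit 324))) (XT.nd (nat_lit 78) (nat_lit 228) (nat_lit 0) (XT.lf (nat_lit 0) (nat_lit 218446606422) (nat_lit 0) (nat_lit 393188674334) (nat_lit 152) (nat_lit 218446606422) (nat_lit 192) (nat_lit 3) (nat_lit 192) (nat_lit 1) (nat_lit 194) (nat_lit 1) (nat_lit 229) (nat_lit 348) (nat_lit 323)) (XT.nd (nat_lit 78) (nat_lit 152) (nat_lit 0) (XT.lf (nat_lit 76) (nat_lit 162471874533) (nat_lit 0) (nat_lit 314421498804) (nat_lit 76) (nat_lit 314421498804) (nat_lit 192) (nat_lit 3) (nat_lit 191) (nat_lit 1) (nat_lit 192) (nat_lit 1) (nat_lit 230) (nat_lit 348) (nat_lit 322)) (XT.lf (nat_lit 152) (nat_lit 675447052842) (nat_lit 0) (nat_lit 40039426685) (nat_lit 76) (nat_lit 40039426685) (nat_lit 191) (nat_lit 1) (nat_lit 189) (nat_lit 1) (nat_lit 190) (nat_lit 1) (nat_lit 231) (nat_lit 348) (nat_lit 321))))) (XT.nd (nat_lit 234) (nat_lit 228) (nat_lit 0) (XT.nd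 (nat_lit 78) (nat_lit 228) (nat_lit 0) (XT.lf (nat_lit 0) (nat_lit 206474294548) (nat_lit 0) (nat_lit 306383639018) (nat_lit 152) (nat_lit 206474294548) (nat_lit 189) (nat_lit 3) (nat_lit 189) (nat_lit 1) (nat_lit 191) (nat_lit 1) (nat_lit 232) (nat_lit 348) (nat_lit 320)) (XT.nd (nat_lit 78) (nat_lit 152) (nat_lit 0) (XT.lf (nat_lit 76) (nat_lit 170762526358) (nat_lit 0) (nat_lit 257640217202) (nat_lit 76) (nat_lit 257640217202) (nat_lit 189) (nat_lit 3) (nat_lit 188) (nat_lit 1) (nat_lit 189) (nat_lit 1) (nat_lit 233) (nat_lit 348) (nat_lit 319)) (XT.lf (nat_lit 152) (nat_lit 609638371440) (nat_lit 0) (nat_lit 22892672159) (nat_lit 76) (nat_lit 22892672159) (nat_lit 188) (nat_lit 1) (nat_lit 186) (nat_lit 1) (nat_lit 187) (nat_lit 1) (nat_lit 234) (nat_lit 348) (nat_lit 318)))) (XT.nd (nat_lit 78) (nat_lit 228) (nat_lit 0) (XT.lf (nat_lit 0) (nat_lit 188988642246) (nat_lit 0) (nat_lit 246112134212)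 (nat_lit 152) (nat_lit 188988642246) (nat_lit 186) (nat_lit 3) (nat_lit 186) (nat_lit 1) (nat_lit 188) (nat_lit 1) (nat_lit 235) (nat_lit 348) (nat_lit 317)) (XT.nd (nat_lit 78) (nat_lit 152) (nat_lit 0) (XT.lf (nat_lit 76) (nat_lit 165345945868) (nat_lit 0) (nat_lit 215018547578) (nat_lit 76) (nat_lit 215018547578) (nat_lit 186) (nat_lit 3) (nat_lit 185) (nat_lit 1) (nat_lit 186) (nat_lit 1) (nat_lit 236) (nat_lit 348) (nat_lit 316)) (XT.lf (nat_lit 152) (nat_lit 542866479901) (nat_lit 0) (nat_lit 13088959607) (nat_lit 76) (nat_lit 13088959607) (nat_lit 185) (nat_lit 1) (nat_lit 183) (nat_lit 1) (nat_lit 184) (nat_lit 1) (nat_lit 237) (nat_lit 348) (nat_lit 315)))))) (XT.nd (nat_lit 390) (nat_lit 456) (nat_lit 0) (XT.nd (nat_lit 156) (nat_lit 228) (nat_lit 0) (XT.nd (nat_lit 78) (nat_lit 76) (nat_lit 0) (XT.lf (nat_lit 0) (nat_lit 169738603677) (nat_lit 0) (nat_lit 202399145608) (nat_lit 152)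 (nat_lit 169738603677) (nat_lit 183) (nat_lit 3) (nat_lit 183) (nat_lit 1) (nat_lit 185) (nat_lit 1) (nat_lit 238) (nat_lit 348) (nat_lit 314)) (XT.lf (nat_lit 76) (nat_lit 153417009193) (nat_lit 0) (nat_lit 181817480438) (nat_lit 76) (nat_lit 181817480438) (nat_lit 183) (nat_lit 3) (nat_lit 182) (nat_lit 1) (nat_lit 183) (nat_lit 1) (nat_lit 239) (nat_lit 348) (nat_lit 313))) (XT.nd (nat_lit 78) (nat_lit 76) (nat_lit 0) (XT.lf (nat_lit 152) (nat_lit 479345465191) (nat_lit 0) (nat_lit 7483655136) (nat_lit 76) (nat_lit 7483655136) (nat_lit 182) (nat_lit 1) (nat_lit 180) (nat_lit 1) (nat_lit 181) (nat_lit 1) (nat_lit 240) (nat_lit 348) (nat_lit 312)) (XT.nd (nat_lit 78) (nat_lit 76) (nat_lit 0) (XT.lf (nat_lit 0) (nat_lit 150686627200) (nat_lit 0) (nat_lit 169360398052) (nat_lit 152) (nat_lit 150686627200) (nat_lit 180) (nat_lit 3) (nat_lit 180) (nat_lit 1) (nat_lit 182) (nat_lit 1) (nat_lit 241)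 (nat_lit 348) (nat_lit 311)) (XT.lf (nat_lit 76) (nat_lit 138916610324) (nat_lit 0) (nat_lit 155154671935) (nat_lit 76) (nat_lit 155154671935) (nat_lit 180) (nat_lit 3) (nat_lit 179) (nat_lit 1) (nat_lit 180) (nat_lit 1) (nat_lit 242) (nat_lit 348) (nat_lit 310))))) (XT.nd (nat_lit 234) (nat_lit 228) (nat_lit 0) (XT.nd (nat_lit 78) (nat_lit 76) (nat_lit 0) (XT.lf (nat_lit 152) (nat_lit 420988884948) (nat_lit 0) (nat_lit 4278804113) (nat_lit 76) (nat_lit 4278804113) (nat_lit 179) (nat_lit 1) (nat_lit 177) (nat_lit 1) (nat_lit 178) (nat_lit 1) (nat_lit 243) (nat_lit 348) (nat_lit 309)) (XT.nd (nat_lit 78) (nat_lit 76) (nat_lit 0) (XT.lf (nat_lit 0) (nat_lit 132797333078) (nat_lit 0) (nat_lit 143474122171) (nat_lit 152) (nat_lit 132797333078) (nat_lit 177) (nat_lit 3) (nat_lit 177) (nat_lit 1) (nat_lit 179) (nat_lit 1) (nat_lit 244) (nat_lit 348) (nat_lit 308)) (XT.lf (nat_lit 76) (nat_lit 123947707506)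 (nat_lit 0) (nat_lit 133231871934) (nat_lit 76) (nat_lit 133231871934) (nat_lit 177) (nat_lit 3) (nat_lit 176) (nat_lit 1) (nat_lit 177) (nat_lit 1) (nat_lit 245) (nat_lit 348) (nat_lit 307)))) (XT.nd (nat_lit 78) (nat_lit 76) (nat_lit 0) (XT.lf (nat_lit 152) (nat_lit 368459639123) (nat_lit 0) (nat_lit 2446420139) (nat_lit 76) (nat_lit 2446420139) (nat_lit 176) (nat_lit 1) (nat_lit 174) (nat_lit 1) (nat_lit 175) (nat_lit 1) (nat_lit 246) (nat_lit 348) (nat_lit 306)) (XT.nd (nat_lit 78) (nat_lit 76) (nat_lit 0) (XT.lf (nat_lit 0) (nat_lit 116485362637) (nat_lit 0) (nat_lit 122589851452) (nat_lit 152) (nat_lit 116485362637) (nat_lit 174) (nat_lit 3) (nat_lit 174) (nat_lit 1) (nat_lit 176) (nat_lit 1) (nat_lit 247) (nat_lit 348) (nat_lit 305)) (XT.lf (nat_lit 76) (nat_lit 109582012473) (nat_lit 0) (nat_lit 114890263617) (nat_lit 76) (nat_lit 114890263617) (nat_lit 174) (nat_lit 3) (nat_lit 173) (nat_lit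 1) (nat_lit 174) (nat_lit 1) (nat_lit 248) (nat_lit 348) (nat_lit 304))))))) (XT.nd (nat_lit 858) (nat_lit 912) (nat_lit 0) (XT.nd (nat_lit 390) (nat_lit 456) (nat_lit 0) (XT.nd (nat_lit 156) (nat_lit 228) (nat_lit 0) (XT.nd (nat_lit 78) (nat_lit 0) (nat_lit 0) (XT.lf (nat_lit 152) (nat_lit 321761801317) (nat_lit 0) (nat_lit 1398748654) (nat_lit 76) (nat_lit 1398748654) (nat_lit 173) (nat_lit 1) (nat_lit 171) (nat_lit 1) (nat_lit 172) (nat_lit 1) (nat_lit 249) (nat_lit 348) (nat_lit 303)) (XT.lf (nat_lit 0) (nat_lit 101868759319) (nat_lit 0) (nat_lit 105359020612) (nat_lit 152) (nat_lit 101868759319) (nat_lit 171) (nat_lit 3) (nat_lit 171) (nat_lit 1) (nat_lit 173) (nat_lit 1) (nat_lit 250) (nat_lit 348) (nat_lit 302))) (XT.nd (nat_lit 78) (nat_lit 152) (nat_lit 0) (XT.lf (nat_lit 76) (nat_lit 96318661223) (nat_lit 0) (nat_lit 99353671043) (nat_lit 76) (nat_lit 99353671043) (nat_lit 171) (nat_lit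 3) (nat_lit 170) (nat_lit 1) (nat_lit 171) (nat_lit 1) (nat_lit 251) (nat_lit 348) (nat_lit 301)) (XT.nd (nat_lit 78) (nat_lit 0) (nat_lit 0) (XT.lf (nat_lit 152) (nat_lit 280571664453) (nat_lit 0) (nat_lit 799739083) (nat_lit 76) (nat_lit 799739083) (nat_lit 170) (nat_lit 1) (nat_lit 168) (nat_lit 1) (nat_lit 169) (nat_lit 1) (nat_lit 252) (nat_lit 348) (nat_lit 300)) (XT.lf (nat_lit 0) (nat_lit 88911511302) (nat_lit 0) (nat_lit 90907079525) (nat_lit 152) (nat_lit 88911511302) (nat_lit 168) (nat_lit 3) (nat_lit 168) (nat_lit 1) (nat_lit 170) (nat_lit 1) (nat_lit 253) (nat_lit 348) (nat_lit 299))))) (XT.nd (nat_lit 234) (nat_lit 228) (nat_lit 0) (XT.nd (nat_lit 78) (nat_lit 152) (nat_lit 0) (XT.lf (nat_lit 76) (nat_lit 84344237542) (nat_lit 0) (nat_lit 86079514257) (nat_lit 76) (nat_lit 86079514257) (nat_lit 168) (nat_lit 3) (nat_lit 167) (nat_lit 1) (nat_lit 168) (nat_lit 1) (nat_lit 254) (nat_lit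 348) (nat_lit 298)) (XT.nd (nat_lit 78) (nat_lit 0) (nat_lit 0) (XT.lf (nat_lit 152) (nat_lit 244420638244) (nat_lit 0) (nat_lit 457253416) (nat_lit 76) (nat_lit 457253416) (nat_lit 167) (nat_lit 1) (nat_lit 165) (nat_lit 1) (nat_lit 166) (nat_lit 1) (nat_lit 255) (nat_lit 348) (nat_lit 297)) (XT.lf (nat_lit 0) (nat_lit 77503025625) (nat_lit 0) (nat_lit 78643998233) (nat_lit 152) (nat_lit 77503025625) (nat_lit 165) (nat_lit 3) (nat_lit 165) (nat_lit 1) (nat_lit 167) (nat_lit 1) (nat_lit 256) (nat_lit 348) (nat_lit 296)))) (XT.nd (nat_lit 78) (nat_lit 152) (nat_lit 0) (XT.lf (nat_lit 76) (nat_lit 73679509280) (nat_lit 0) (nat_lit 74671659374) (nat_lit 76) (nat_lit 74671659374) (nat_lit 165) (nat_lit 3) (nat_lit 164) (nat_lit 1) (nat_lit 165) (nat_lit 1) (nat_lit 257) (nat_lit 348) (nat_lit 295)) (XT.nd (nat_lit 78) (nat_lit 0) (nat_lit 0) (XT.lf (nat_lit 152) (nat_lit 212794274485) (nat_lit 0) (nat_lit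 261436124) (nat_lit 76) (nat_lit 261436124) (nat_lit 164) (nat_lit 1) (nat_lit 162) (nat_lit 1) (nat_lit 163) (nat_lit 1) (nat_lit 258) (nat_lit 348) (nat_lit 294)) (XT.lf (nat_lit 0) (nat_lit 67501806850) (nat_lit 0) (nat_lit 68154161642) (nat_lit 152) (nat_lit 67501806850) (nat_lit 162) (nat_lit 3) (nat_lit 162) (nat_lit 1) (nat_lit 164) (nat_lit 1) (nat_lit 259) (nat_lit 348) (nat_lit 293)))))) (XT.nd (nat_lit 468) (nat_lit 456) (nat_lit 0) (XT.nd (nat_lit 234) (nat_lit 228) (nat_lit 0) (XT.nd (nat_lit 78) (nat_lit 152) (nat_lit 0) (XT.lf (nat_lit 76) (nat_lit 64261644407) (nat_lit 0) (nat_lit 64828909443) (nat_lit 76) (nat_lit 64828909443) (nat_lit 162) (nat_lit 3) (nat_lit 161) (nat_lit 1) (nat_lit 162) (nat_lit 1) (nat_lit 260) (nat_lit 348) (nat_lit 292)) (XT.nd (nat_lit 78) (nat_lit 0) (nat_lit 0) (XT.lf (nat_lit 152) (nat_lit 185184061671) (nat_lit 0) (nat_lit 149476952) (nat_lit 76) (nat_lit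 149476952) (nat_lit 161) (nat_lit 1) (nat_lit 159) (nat_lit 1) (nat_lit 160) (nat_lit 1) (nat_lit 261) (nat_lit 348) (nat_lit 291)) (XT.lf (nat_lit 0) (nat_lit 58758899242) (nat_lit 0) (nat_lit 59131885212) (nat_lit 152) (nat_lit 58758899242) (nat_lit 159) (nat_lit 3) (nat_lit 159) (nat_lit 1) (nat_lit 161) (nat_lit 1) (nat_lit 262) (nat_lit 348) (nat_lit 290)))) (XT.nd (nat_lit 78) (nat_lit 152) (nat_lit 0) (XT.lf (nat_lit 76) (nat_lit 55989756663) (nat_lit 0) (nat_lit 56314092288) (nat_lit 76) (nat_lit 56314092288) (nat_lit 159) (nat_lit 3) (nat_lit 158) (nat_lit 1) (nat_lit 159) (nat_lit 1) (nat_lit 263) (nat_lit 348) (nat_lit 289)) (XT.nd (nat_lit 78) (nat_lit 0) (nat_lit 0) (XT.lf (nat_lit 152) (nat_lit 161112844459) (nat_lit 0) (nat_lit 85463932) (nat_lit 76) (nat_lit 85463932) (nat_lit 158) (nat_lit 1) (nat_lit 156) (nat_lit 1) (nat_lit 157) (nat_lit 1) (nat_lit 264) (nat_lit 348) (nat_lit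 288)) (XT.lf (nat_lit 0) (nat_lit 51129958386) (nat_lit 0) (nat_lit 51343214324) (nat_lit 152) (nat_lit 51129958386) (nat_lit 156) (nat_lit 3) (nat_lit 156) (nat_lit 1) (nat_lit 158) (nat_lit 1) (nat_lit 265) (nat_lit 348) (nat_lit 287))))) (XT.nd (nat_lit 234) (nat_lit 228) (nat_lit 0) (XT.nd (nat_lit 78) (nat_lit 152) (nat_lit 0) (XT.lf (nat_lit 76) (nat_lit 48749675445) (nat_lit 0) (nat_lit 48935115392) (nat_lit 76) (nat_lit 48935115392) (nat_lit 156) (nat_lit 3) (nat_lit 155) (nat_lit 1) (nat_lit 156) (nat_lit 1) (nat_lit 266) (nat_lit 348) (nat_lit 286)) (XT.nd (nat_lit 78) (nat_lit 0) (nat_lit 0) (XT.lf (nat_lit 152) (nat_lit 140145710131) (nat_lit 0) (nat_lit 48864281) (nat_lit 76) (nat_lit 48864281) (nat_lit 155) (nat_lit 1) (nat_lit 153) (nat_lit 1) (nat_lit 154) (nat_lit 1) (nat_lit 267) (nat_lit 348) (nat_lit 285)) (XT.lf (nat_lit 0) (nat_lit 44480995338) (nat_lit 0) (nat_lit 44602925113)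 (nat_lit 152) (nat_lit 44480995338) (nat_lit 153) (nat_lit 3) (nat_lit 153) (nat_lit 1) (nat_lit 155) (nat_lit 1) (nat_lit 268) (nat_lit 348) (nat_lit 284)))) (XT.nd (nat_lit 78) (nat_lit 152) (nat_lit 0) (XT.lf (nat_lit 76) (nat_lit 42427002856) (nat_lit 0) (nat_lit 42533028747) (nat_lit 76) (nat_lit 42533028747) (nat_lit 153) (nat_lit 3) (nat_lit 152) (nat_lit 1) (nat_lit 153) (nat_lit 1) (nat_lit 269) (nat_lit 348) (nat_lit 283)) (XT.nd (nat_lit 78) (nat_lit 0) (nat_lit 0) (XT.lf (nat_lit 152) (nat_lit 121893041497) (nat_lit 0) (nat_lit 27938311) (nat_lit 76) (nat_lit 27938311) (nat_lit 152) (nat_lit 1) (nat_lit 150) (nat_lit 1) (nat_lit 151) (nat_lit 1) (nat_lit 270) (nat_lit 348) (nat_lit 282)) (XT.lf (nat_lit 0) (nat_lit 38690654047) (nat_lit 0) (nat_lit 38760367791) (nat_lit 152) (nat_lit 38690654047) (nat_lit 150) (nat_lit 3) (nat_lit 150) (nat_lit 1) (nat_lit 152) (nat_lit 1) (nat_lit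 271) (nat_lit 348) (nat_lit 281))))))))
noncomputable def ec152 : XT := (XT.nd (nat_lit 1716) (nat_lit 1748) (nat_lit 0) (XT.nd (nat_lit 858) (nat_lit 760) (nat_lit 0) (XT.nd (nat_lit 390) (nat_lit 456) (nat_lit 0) (XT.nd (nat_lit 156) (nat_lit 228) (nat_lit 0) (XT.nd (nat_lit 78) (nat_lit 152) (nat_lit 0) (XT.lf (nat_lit 76) (nat_lit 36913618060) (nat_lit 0) (nat_lit 36974238708) (nat_lit 76) (nat_lit 36974238708) (nat_lit 150) (nat_lit 3) (nat_lit 149) (nat_lit 1) (nat_lit 150) (nat_lit 1) (nat_lit 272) (nat_lit 348) (nat_lit 280)) (XT.lf (nat_lit 152) (nat_lit 106009504590) (nat_lit 0) (nat_lit 15973820) (nat_lit 76) (nat_lit 15973820) (nat_lit 149) (nat_lit 1) (nat_lit 147) (nat_lit 1) (nat_lit 148) (nat_lit 1) (nat_lit 273) (nat_lit 348) (nat_lit 279))) (XT.nd (nat_lit 78) (nat_lit 228) (nat_lit 0) (XT.lf (nat_lit 0) (nat_lit 33650637977) (nat_lit 0) (nat_lit 33690497037) (nat_lit 152) (nat_lit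 33650637977) (nat_lit 147) (nat_lit 3) (nat_lit 147) (nat_lit 1) (nat_lit 149) (nat_lit 1) (nat_lit 274) (nat_lit 348) (nat_lit 278)) (XT.nd (nat_lit 78) (nat_lit 152) (nat_lit 0) (XT.lf (nat_lit 76) (nat_lit 32110560478) (nat_lit 0) (nat_lit 32145220530) (nat_lit 76) (nat_lit 32145220530) (nat_lit 147) (nat_lit 3) (nat_lit 146) (nat_lit 1) (nat_lit 147) (nat_lit 1) (nat_lit 275) (nat_lit 348) (nat_lit 277)) (XT.lf (nat_lit 152) (nat_lit 92191071791) (nat_lit 0) (nat_lit 9133083) (nat_lit 76) (nat_lit 9133083) (nat_lit 146) (nat_lit 1) (nat_lit 144) (nat_lit 1) (nat_lit 145) (nat_lit 1) (nat_lit 276) (nat_lit 348) (nat_lit 276))))) (XT.nd (nat_lit 234) (nat_lit 228) (nat_lit 0) (XT.nd (nat_lit 78) (nat_lit 228) (nat_lit 0) (XT.lf (nat_lit 0) (nat_lit 29265192742) (nat_lit 0) (nat_lit 29287982289) (nat_lit 152) (nat_lit 29265192742) (nat_lit 144) (nat_lit 3) (nat_lit 144) (nat_lit 1) (nat_lit 146)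 (nat_lit 1) (nat_lit 277) (nat_lit 348) (nat_lit 275)) (XT.nd (nat_lit 78) (nat_lit 152) (nat_lit 0) (XT.lf (nat_lit 76) (nat_lit 27928951558) (nat_lit 0) (nat_lit 27948768555) (nat_lit 76) (nat_lit 27948768555) (nat_lit 144) (nat_lit 3) (nat_lit 143) (nat_lit 1) (nat_lit 144) (nat_lit 1) (nat_lit 278) (nat_lit 348) (nat_lit 274)) (XT.lf (nat_lit 152) (nat_lit 80171234491) (nat_lit 0) (nat_lit 5221870) (nat_lit 76) (nat_lit 5221870) (nat_lit 143) (nat_lit 1) (nat_lit 141) (nat_lit 1) (nat_lit 142) (nat_lit 1) (nat_lit 279) (nat_lit 348) (nat_lit 273)))) (XT.nd (nat_lit 78) (nat_lit 228) (nat_lit 0) (XT.lf (nat_lit 0) (nat_lit 25450148292) (nat_lit 0) (nat_lit 25463178289) (nat_lit 152) (nat_lit 25450148292) (nat_lit 141) (nat_lit 3) (nat_lit 141) (nat_lit 1) (nat_lit 143) (nat_lit 1) (nat_lit 280) (nat_lit 348) (nat_lit 272)) (XT.nd (nat_lit 78) (nat_lit 152) (nat_lit 0) (XT.lf (nat_lit 76) (nat_lit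 24289889905) (nat_lit 0) (nat_lit 24301220338) (nat_lit 76) (nat_lit 24301220338) (nat_lit 141) (nat_lit 3) (nat_lit 140) (nat_lit 1) (nat_lit 141) (nat_lit 1) (nat_lit 281) (nat_lit 348) (nat_lit 271)) (XT.lf (nat_lit 152) (nat_lit 69717024376) (nat_lit 0) (nat_lit 2985621) (nat_lit 76) (nat_lit 2985621) (nat_lit 140) (nat_lit 1) (nat_lit 138) (nat_lit 1) (nat_lit 139) (nat_lit 1) (nat_lit 282) (nat_lit 348) (nat_lit 270)))))) (XT.nd (nat_lit 390) (nat_lit 456) (nat_lit 0) (XT.nd (nat_lit 156) (nat_lit 228) (nat_lit 0) (XT.nd (nat_lit 78) (nat_lit 76) (nat_lit 0) (XT.lf (nat_lit 0) (nat_lit 22131795633) (nat_lit 0) (nat_lit 22139245577) (nat_lit 152) (nat_lit 22131795633) (nat_lit 138) (nat_lit 3) (nat_lit 138) (nat_lit 1) (nat_lit 140) (nat_lit 1) (nat_lit 283) (nat_lit 348) (nat_lit 269)) (XT.lf (nat_lit 76) (nat_lit 21123841828) (nat_lit 0) (nat_lit 21130320040) (nat_lit 76) (nat_lit 21130320040)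 (nat_lit 138) (nat_lit 3) (nat_lit 137) (nat_lit 1) (nat_lit 138) (nat_lit 1) (nat_lit 284) (nat_lit 348) (nat_lit 268))) (XT.nd (nat_lit 78) (nat_lit 76) (nat_lit 0) (XT.lf (nat_lit 152) (nat_lit 60625161788) (nat_lit 0) (nat_lit 1707038) (nat_lit 76) (nat_lit 1707038) (nat_lit 137) (nat_lit 1) (nat_lit 135) (nat_lit 1) (nat_lit 136) (nat_lit 1) (nat_lit 285) (nat_lit 348) (nat_lit 267)) (XT.nd (nat_lit 78) (nat_lit 76) (nat_lit 0) (XT.lf (nat_lit 0) (nat_lit 19245744025) (nat_lit 0) (nat_lit 19250003554) (nat_lit 152) (nat_lit 19245744025) (nat_lit 135) (nat_lit 3) (nat_lit 135) (nat_lit 1) (nat_lit 137) (nat_lit 1) (nat_lit 286) (nat_lit 348) (nat_lit 266)) (XT.lf (nat_lit 76) (nat_lit 18369815073) (nat_lit 0) (nat_lit 18373519011) (nat_lit 76) (nat_lit 18373519011) (nat_lit 135) (nat_lit 3) (nat_lit 134) (nat_lit 1) (nat_lit 135) (nat_lit 1) (nat_lit 287) (nat_lit 348) (nat_lit 265))))) (XT.nd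 (nat_lit 234) (nat_lit 228) (nat_lit 0) (XT.nd (nat_lit 78) (nat_lit 76) (nat_lit 0) (XT.lf (nat_lit 152) (nat_lit 52718482433) (nat_lit 0) (nat_lit 976004) (nat_lit 76) (nat_lit 976004) (nat_lit 134) (nat_lit 1) (nat_lit 132) (nat_lit 1) (nat_lit 133) (nat_lit 1) (nat_lit 288) (nat_lit 348) (nat_lit 264)) (XT.nd (nat_lit 78) (nat_lit 76) (nat_lit 0) (XT.lf (nat_lit 0) (nat_lit 16735832297) (nat_lit 0) (nat_lit 16738267697) (nat_lit 152) (nat_lit 16735832297) (nat_lit 132) (nat_lit 3) (nat_lit 132) (nat_lit 1) (nat_lit 134) (nat_lit 1) (nat_lit 289) (nat_lit 348) (nat_lit 263)) (XT.lf (nat_lit 76) (nat_lit 15974470908) (nat_lit 0) (nat_lit 15976588647) (nat_lit 76) (nat_lit 15976588647) (nat_lit 132) (nat_lit 3) (nat_lit 131) (nat_lit 1) (nat_lit 132) (nat_lit 1) (nat_lit 290) (nat_lit 348) (nat_lit 262)))) (XT.nd (nat_lit 78) (nat_lit 76) (nat_lit 0) (XT.lf (nat_lit 152) (nat_lit 45842702056)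 (nat_lit 0) (nat_lit 558033) (nat_lit 76) (nat_lit 558033) (nat_lit 131) (nat_lit 1) (nat_lit 129) (nat_lit 1) (nat_lit 130) (nat_lit 1) (nat_lit 291) (nat_lit 348) (nat_lit 261)) (XT.nd (nat_lit 78) (nat_lit 76) (nat_lit 0) (XT.lf (nat_lit 0) (nat_lit 14553127901) (nat_lit 0) (nat_lit 14554520349) (nat_lit 152) (nat_lit 14553127901) (nat_lit 129) (nat_lit 3) (nat_lit 129) (nat_lit 1) (nat_lit 131) (nat_lit 1) (nat_lit 292) (nat_lit 348) (nat_lit 260)) (XT.lf (nat_lit 76) (nat_lit 13891255171) (nat_lit 0) (nat_lit 13892465995) (nat_lit 76) (nat_lit 13892465995) (nat_lit 129) (nat_lit 3) (nat_lit 128) (nat_lit 1) (nat_lit 129) (nat_lit 1) (nat_lit 293) (nat_lit 348) (nat_lit 259))))))) (XT.nd (nat_lit 858) (nat_lit 912) (nat_lit 0) (XT.nd (nat_lit 390) (nat_lit 456) (nat_lit 0) (XT.nd (nat_lit 156) (nat_lit 228) (nat_lit 0) (XT.nd (nat_lit 78) (nat_lit 0) (nat_lit 0) (XT.lf (nat_lit 152) (nat_lit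 39863529881) (nat_lit 0) (nat_lit 319057) (nat_lit 76) (nat_lit 319057) (nat_lit 128) (nat_lit 1) (nat_lit 126) (nat_lit 1) (nat_lit 127) (nat_lit 1) (nat_lit 294) (nat_lit 348) (nat_lit 258)) (XT.lf (nat_lit 0) (nat_lit 12655025474) (nat_lit 0) (nat_lit 12655821610) (nat_lit 152) (nat_lit 12655025474) (nat_lit 126) (nat_lit 3) (nat_lit 126) (nat_lit 1) (nat_lit 128) (nat_lit 1) (nat_lit 295) (nat_lit 348) (nat_lit 257))) (XT.nd (nat_lit 78) (nat_lit 152) (nat_lit 0) (XT.lf (nat_lit 76) (nat_lit 12079587257) (nat_lit 0) (nat_lit 12080279550) (nat_lit 76) (nat_lit 12080279550) (nat_lit 126) (nat_lit 3) (nat_lit 125) (nat_lit 1) (nat_lit 126) (nat_lit 1) (nat_lit 296) (nat_lit 348) (nat_lit 256)) (XT.nd (nat_lit 78) (nat_lit 0) (nat_lit 0) (XT.lf (nat_lit 152) (nat_lit 34664116671) (nat_lit 0) (nat_lit 182422) (nat_lit 76) (nat_lit 182422) (nat_lit 125) (nat_lit 1) (nat_lit 123) (nat_lit 1) (nat_lit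 124) (nat_lit 1) (nat_lit 297) (nat_lit 348) (nat_lit 255)) (XT.lf (nat_lit 0) (nat_lit 11004445247) (nat_lit 0) (nat_lit 11004900440) (nat_lit 152) (nat_lit 11004445247) (nat_lit 123) (nat_lit 3) (nat_lit 123) (nat_lit 1) (nat_lit 125) (nat_lit 1) (nat_lit 298) (nat_lit 348) (nat_lit 254))))) (XT.nd (nat_lit 234) (nat_lit 228) (nat_lit 0) (XT.nd (nat_lit 78) (nat_lit 152) (nat_lit 0) (XT.lf (nat_lit 76) (nat_lit 10504123244) (nat_lit 0) (nat_lit 10504519065) (nat_lit 76) (nat_lit 10504519065) (nat_lit 123) (nat_lit 3) (nat_lit 122) (nat_lit 1) (nat_lit 123) (nat_lit 1) (nat_lit 299) (nat_lit 348) (nat_lit 253)) (XT.nd (nat_lit 78) (nat_lit 0) (nat_lit 0) (XT.lf (nat_lit 152) (nat_lit 30142811718) (nat_lit 0) (nat_lit 104300) (nat_lit 76) (nat_lit 104300) (nat_lit 122) (nat_lit 1) (nat_lit 120) (nat_lit 1) (nat_lit 121) (nat_lit 1) (nat_lit 300) (nat_lit 348) (nat_lit 252)) (XT.lf (nat_lit 0) (nat_lit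 9569125859) (nat_lit 0) (nat_lit 9569386117) (nat_lit 152) (nat_lit 9569125859) (nat_lit 120) (nat_lit 3) (nat_lit 120) (nat_lit 1) (nat_lit 122) (nat_lit 1) (nat_lit 301) (nat_lit 348) (nat_lit 251)))) (XT.nd (nat_lit 78) (nat_lit 152) (nat_lit 0) (XT.lf (nat_lit 76) (nat_lit 9134097013) (nat_lit 0) (nat_lit 9134323325) (nat_lit 76) (nat_lit 9134323325) (nat_lit 120) (nat_lit 3) (nat_lit 119) (nat_lit 1) (nat_lit 120) (nat_lit 1) (nat_lit 302) (nat_lit 348) (nat_lit 250)) (XT.nd (nat_lit 78) (nat_lit 0) (nat_lit 0) (XT.lf (nat_lit 152) (nat_lit 26211198696) (nat_lit 0) (nat_lit 59634) (nat_lit 76) (nat_lit 59634) (nat_lit 119) (nat_lit 1) (nat_lit 117) (nat_lit 1) (nat_lit 118) (nat_lit 1) (nat_lit 303) (nat_lit 348) (nat_lit 249)) (XT.lf (nat_lit 0) (nat_lit 8321003613) (nat_lit 0) (nat_lit 8321152417) (nat_lit 152) (nat_lit 8321003613) (nat_lit 117) (nat_lit 3) (nat_lit 117) (nat_lit 1) (nat_lit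 119) (nat_lit 1) (nat_lit 304) (nat_lit 348) (nat_lit 248)))))) (XT.nd (nat_lit 390) (nat_lit 456) (nat_lit 0) (XT.nd (nat_lit 156) (nat_lit 228) (nat_lit 0) (XT.nd (nat_lit 78) (nat_lit 152) (nat_lit 0) (XT.lf (nat_lit 76) (nat_lit 7942736966) (nat_lit 0) (nat_lit 7942866360) (nat_lit 76) (nat_lit 7942866360) (nat_lit 117) (nat_lit 3) (nat_lit 116) (nat_lit 1) (nat_lit 117) (nat_lit 1) (nat_lit 305) (nat_lit 348) (nat_lit 247)) (XT.lf (nat_lit 152) (nat_lit 22792379895) (nat_lit 0) (nat_lit 34096) (nat_lit 76) (nat_lit 34096) (nat_lit 116) (nat_lit 1) (nat_lit 114) (nat_lit 1) (nat_lit 115) (nat_lit 1) (nat_lit 306) (nat_lit 348) (nat_lit 246))) (XT.nd (nat_lit 78) (nat_lit 228) (nat_lit 0) (XT.lf (nat_lit 0) (nat_lit 7235669384) (nat_lit 0) (nat_lit 7235754463) (nat_lit 152) (nat_lit 7235669384) (nat_lit 114) (nat_lit 3) (nat_lit 114) (nat_lit 1) (nat_lit 116) (nat_lit 1) (nat_lit 307) (nat_lit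 348) (nat_lit 245)) (XT.nd (nat_lit 78) (nat_lit 152) (nat_lit 0) (XT.lf (nat_lit 76) (nat_lit 6906752903) (nat_lit 0) (nat_lit 6906826884) (nat_lit 76) (nat_lit 6906826884) (nat_lit 114) (nat_lit 3) (nat_lit 113) (nat_lit 1) (nat_lit 114) (nat_lit 1) (nat_lit 308) (nat_lit 348) (nat_lit 244)) (XT.lf (nat_lit 152) (nat_lit 19819479763) (nat_lit 0) (nat_lit 19494) (nat_lit 76) (nat_lit 19494) (nat_lit 113) (nat_lit 1) (nat_lit 111) (nat_lit 1) (nat_lit 112) (nat_lit 1) (nat_lit 309) (nat_lit 348) (nat_lit 243))))) (XT.nd (nat_lit 234) (nat_lit 228) (nat_lit 0) (XT.nd (nat_lit 78) (nat_lit 228) (nat_lit 0) (XT.lf (nat_lit 0) (nat_lit 6291894465) (nat_lit 0) (nat_lit 6291943109) (nat_lit 152) (nat_lit 6291894465) (nat_lit 111) (nat_lit 3) (nat_lit 111) (nat_lit 1) (nat_lit 113) (nat_lit 1) (nat_lit 310) (nat_lit 348) (nat_lit 242)) (XT.nd (nat_lit 78) (nat_lit 152) (nat_lit 0) (XT.lf (nat_lit 76)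 (nat_lit 6005886444) (nat_lit 0) (nat_lit 6005928743) (nat_lit 76) (nat_lit 6005928743) (nat_lit 111) (nat_lit 3) (nat_lit 110) (nat_lit 1) (nat_lit 111) (nat_lit 1) (nat_lit 311) (nat_lit 348) (nat_lit 241)) (XT.lf (nat_lit 152) (nat_lit 17234341082) (nat_lit 0) (nat_lit 11146) (nat_lit 76) (nat_lit 11146) (nat_lit 110) (nat_lit 1) (nat_lit 108) (nat_lit 1) (nat_lit 109) (nat_lit 1) (nat_lit 312) (nat_lit 348) (nat_lit 240)))) (XT.nd (nat_lit 78) (nat_lit 228) (nat_lit 0) (XT.lf (nat_lit 0) (nat_lit 5471217177) (nat_lit 0) (nat_lit 5471244989) (nat_lit 152) (nat_lit 5471217177) (nat_lit 108) (nat_lit 3) (nat_lit 108) (nat_lit 1) (nat_lit 110) (nat_lit 1) (nat_lit 313) (nat_lit 348) (nat_lit 239)) (XT.nd (nat_lit 78) (nat_lit 152) (nat_lit 0) (XT.lf (nat_lit 76) (nat_lit 5222518158) (nat_lit 0) (nat_lit 5222542343) (nat_lit 76) (nat_lit 5222542343) (nat_lit 108) (nat_lit 3) (nat_lit 107) (nat_lit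 1) (nat_lit 108) (nat_lit 1) (nat_lit 314) (nat_lit 348) (nat_lit 238)) (XT.lf (nat_lit 152) (nat_lit 14986389756) (nat_lit 0) (nat_lit 6372) (nat_lit 76) (nat_lit 6372) (nat_lit 107) (nat_lit 1) (nat_lit 105) (nat_lit 1) (nat_lit 106) (nat_lit 1) (nat_lit 315) (nat_lit 348) (nat_lit 237))))))))
noncomputable def ec153 : XT := (XT.nd (nat_lit 1716) (nat_lit 1824) (nat_lit 0) (XT.nd (nat_lit 858) (nat_lit 836) (nat_lit 0) (XT.nd (nat_lit 390) (nat_lit 456) (nat_lit 0) (XT.nd (nat_lit 156) (nat_lit 228) (nat_lit 0) (XT.nd (nat_lit 78) (nat_lit 76) (nat_lit 0) (XT.lf (nat_lit 0) (nat_lit 4757582783) (nat_lit 0) (nat_lit 4757598685) (nat_lit 152) (nat_lit 4757582783) (nat_lit 105) (nat_lit 3) (nat_lit 105) (nat_lit 1) (nat_lit 107) (nat_lit 1) (nat_lit 316) (nat_lit 348) (nat_lit 236)) (XT.lf (nat_lit 76) (nat_lit 4541324830) (nat_lit 0) (nat_lit 4541338658) (nat_lit 76) (nat_lit 4541338658) (nat_lit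 105) (nat_lit 3) (nat_lit 104) (nat_lit 1) (nat_lit 105) (nat_lit 1) (nat_lit 317) (nat_lit 348) (nat_lit 235))) (XT.nd (nat_lit 78) (nat_lit 76) (nat_lit 0) (XT.lf (nat_lit 152) (nat_lit 13031646814) (nat_lit 0) (nat_lit 3643) (nat_lit 76) (nat_lit 3643) (nat_lit 104) (nat_lit 1) (nat_lit 102) (nat_lit 1) (nat_lit 103) (nat_lit 1) (nat_lit 318) (nat_lit 348) (nat_lit 234)) (XT.nd (nat_lit 78) (nat_lit 76) (nat_lit 0) (XT.lf (nat_lit 0) (nat_lit 4137030010) (nat_lit 0) (nat_lit 4137039102) (nat_lit 152) (nat_lit 4137030010) (nat_lit 102) (nat_lit 3) (nat_lit 102) (nat_lit 1) (nat_lit 104) (nat_lit 1) (nat_lit 319) (nat_lit 348) (nat_lit 233)) (XT.lf (nat_lit 76) (nat_lit 3948980796) (nat_lit 0) (nat_lit 3948988702) (nat_lit 76) (nat_lit 3948988702) (nat_lit 102) (nat_lit 3) (nat_lit 101) (nat_lit 1) (nat_lit 102) (nat_lit 1) (nat_lit 320) (nat_lit 348) (nat_lit 232))))) (XT.nd (nat_lit 234) (nat_lit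 228) (nat_lit 0) (XT.nd (nat_lit 78) (nat_lit 76) (nat_lit 0) (XT.lf (nat_lit 152) (nat_lit 11331868823) (nat_lit 0) (nat_lit 2083) (nat_lit 76) (nat_lit 2083) (nat_lit 101) (nat_lit 1) (nat_lit 99) (nat_lit 1) (nat_lit 100) (nat_lit 1) (nat_lit 321) (nat_lit 348) (nat_lit 231)) (XT.nd (nat_lit 78) (nat_lit 76) (nat_lit 0) (XT.lf (nat_lit 0) (nat_lit 3597418260) (nat_lit 0) (nat_lit 3597423458) (nat_lit 152) (nat_lit 3597418260) (nat_lit 99) (nat_lit 3) (nat_lit 99) (nat_lit 1) (nat_lit 101) (nat_lit 1) (nat_lit 322) (nat_lit 348) (nat_lit 230)) (XT.lf (nat_lit 76) (nat_lit 3433897878) (nat_lit 0) (nat_lit 3433902399) (nat_lit 76) (nat_lit 3433902399) (nat_lit 99) (nat_lit 3) (nat_lit 98) (nat_lit 1) (nat_lit 99) (nat_lit 1) (nat_lit 323) (nat_lit 348) (nat_lit 229)))) (XT.nd (nat_lit 78) (nat_lit 76) (nat_lit 0) (XT.lf (nat_lit 152) (nat_lit 9853800137) (nat_lit 0) (nat_lit 1191) (nat_lit 76)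 (nat_lit 1191) (nat_lit 98) (nat_lit 1) (nat_lit 96) (nat_lit 1) (nat_lit 97) (nat_lit 1) (nat_lit 324) (nat_lit 348) (nat_lit 228)) (XT.nd (nat_lit 78) (nat_lit 76) (nat_lit 0) (XT.lf (nat_lit 0) (nat_lit 3128190283) (nat_lit 0) (nat_lit 3128193255) (nat_lit 152) (nat_lit 3128190283) (nat_lit 96) (nat_lit 3) (nat_lit 96) (nat_lit 1) (nat_lit 98) (nat_lit 1) (nat_lit 325) (nat_lit 348) (nat_lit 227)) (XT.lf (nat_lit 76) (nat_lit 2985999032) (nat_lit 0) (nat_lit 2986001617) (nat_lit 76) (nat_lit 2986001617) (nat_lit 96) (nat_lit 3) (nat_lit 95) (nat_lit 1) (nat_lit 96) (nat_lit 1) (nat_lit 326) (nat_lit 348) (nat_lit 226)))))) (XT.nd (nat_lit 390) (nat_lit 456) (nat_lit 0) (XT.nd (nat_lit 156) (nat_lit 228) (nat_lit 0) (XT.nd (nat_lit 78) (nat_lit 0) (nat_lit 0) (XT.lf (nat_lit 152) (nat_lit 8568522521) (nat_lit 0) (nat_lit 681) (nat_lit 76) (nat_lit 681) (nat_lit 95) (nat_lit 1) (nat_lit 93) (nat_lit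 1) (nat_lit 94) (nat_lit 1) (nat_lit 327) (nat_lit 348) (nat_lit 225)) (XT.lf (nat_lit 0) (nat_lit 2720165744) (nat_lit 0) (nat_lit 2720167443) (nat_lit 152) (nat_lit 2720165744) (nat_lit 93) (nat_lit 3) (nat_lit 93) (nat_lit 1) (nat_lit 95) (nat_lit 1) (nat_lit 328) (nat_lit 348) (nat_lit 224))) (XT.nd (nat_lit 78) (nat_lit 152) (nat_lit 0) (XT.lf (nat_lit 76) (nat_lit 2596521399) (nat_lit 0) (nat_lit 2596522877) (nat_lit 76) (nat_lit 2596522877) (nat_lit 93) (nat_lit 3) (nat_lit 92) (nat_lit 1) (nat_lit 93) (nat_lit 1) (nat_lit 329) (nat_lit 348) (nat_lit 223)) (XT.nd (nat_lit 78) (nat_lit 0) (nat_lit 0) (XT.lf (nat_lit 152) (nat_lit 7450889528) (nat_lit 0) (nat_lit 389) (nat_lit 76) (nat_lit 389) (nat_lit 92) (nat_lit 1) (nat_lit 90) (nat_lit 1) (nat_lit 91) (nat_lit 1) (nat_lit 330) (nat_lit 348) (nat_lit 222)) (XT.lf (nat_lit 0) (nat_lit 2365361677) (nat_lit 0) (nat_lit 2365362649) (nat_lit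 152) (nat_lit 2365361677) (nat_lit 90) (nat_lit 3) (nat_lit 90) (nat_lit 1) (nat_lit 92) (nat_lit 1) (nat_lit 331) (nat_lit 348) (nat_lit 221))))) (XT.nd (nat_lit 234) (nat_lit 228) (nat_lit 0) (XT.nd (nat_lit 78) (nat_lit 152) (nat_lit 0) (XT.lf (nat_lit 76) (nat_lit 2257844981) (nat_lit 0) (nat_lit 2257845826) (nat_lit 76) (nat_lit 2257845826) (nat_lit 90) (nat_lit 3) (nat_lit 89) (nat_lit 1) (nat_lit 90) (nat_lit 1) (nat_lit 332) (nat_lit 348) (nat_lit 220)) (XT.nd (nat_lit 78) (nat_lit 0) (nat_lit 0) (XT.lf (nat_lit 152) (nat_lit 6479034589) (nat_lit 0) (nat_lit 222) (nat_lit 76) (nat_lit 222) (nat_lit 89) (nat_lit 1) (nat_lit 87) (nat_lit 1) (nat_lit 88) (nat_lit 1) (nat_lit 333) (nat_lit 348) (nat_lit 219)) (XT.lf (nat_lit 0) (nat_lit 2056836333) (nat_lit 0) (nat_lit 2056836888) (nat_lit 152) (nat_lit 2056836333) (nat_lit 87) (nat_lit 3) (nat_lit 87) (nat_lit 1) (nat_lit 89) (nat_lit 1) (nat_lit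 334) (nat_lit 348) (nat_lit 218)))) (XT.nd (nat_lit 78) (nat_lit 152) (nat_lit 0) (XT.lf (nat_lit 76) (nat_lit 1963343626) (nat_lit 0) (nat_lit 1963344109) (nat_lit 76) (nat_lit 1963344109) (nat_lit 87) (nat_lit 3) (nat_lit 86) (nat_lit 1) (nat_lit 87) (nat_lit 1) (nat_lit 335) (nat_lit 348) (nat_lit 217)) (XT.nd (nat_lit 78) (nat_lit 0) (nat_lit 0) (XT.lf (nat_lit 152) (nat_lit 5633943245) (nat_lit 0) (nat_lit 127) (nat_lit 76) (nat_lit 127) (nat_lit 86) (nat_lit 1) (nat_lit 84) (nat_lit 1) (nat_lit 85) (nat_lit 1) (nat_lit 336) (nat_lit 348) (nat_lit 216)) (XT.lf (nat_lit 0) (nat_lit 1788553385) (nat_lit 0) (nat_lit 1788553703) (nat_lit 152) (nat_lit 1788553385) (nat_lit 84) (nat_lit 3) (nat_lit 84) (nat_lit 1) (nat_lit 86) (nat_lit 1) (nat_lit 337) (nat_lit 348) (nat_lit 215))))))) (XT.nd (nat_lit 858) (nat_lit 912) (nat_lit 0) (XT.nd (nat_lit 390) (nat_lit 456) (nat_lit 0) (XT.nd (nat_lit 156)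 (nat_lit 228) (nat_lit 0) (XT.nd (nat_lit 78) (nat_lit 152) (nat_lit 0) (XT.lf (nat_lit 76) (nat_lit 1707255421) (nat_lit 0) (nat_lit 1707255697) (nat_lit 76) (nat_lit 1707255697) (nat_lit 84) (nat_lit 3) (nat_lit 83) (nat_lit 1) (nat_lit 84) (nat_lit 1) (nat_lit 338) (nat_lit 348) (nat_lit 214)) (XT.lf (nat_lit 152) (nat_lit 4899081153) (nat_lit 0) (nat_lit 72) (nat_lit 76) (nat_lit 72) (nat_lit 83) (nat_lit 1) (nat_lit 81) (nat_lit 1) (nat_lit 82) (nat_lit 1) (nat_lit 339) (nat_lit 348) (nat_lit 213))) (XT.nd (nat_lit 78) (nat_lit 228) (nat_lit 0) (XT.lf (nat_lit 0) (nat_lit 1555263843) (nat_lit 0) (nat_lit 1555264025) (nat_lit 152) (nat_lit 1555263843) (nat_lit 81) (nat_lit 3) (nat_lit 81) (nat_lit 1) (nat_lit 83) (nat_lit 1) (nat_lit 340) (nat_lit 348) (nat_lit 212)) (XT.nd (nat_lit 78) (nat_lit 152) (nat_lit 0) (XT.lf (nat_lit 76) (nat_lit 1484569984) (nat_lit 0) (nat_lit 1484570142) (nat_lit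 76) (nat_lit 1484570142) (nat_lit 81) (nat_lit 3) (nat_lit 80) (nat_lit 1) (nat_lit 81) (nat_lit 1) (nat_lit 341) (nat_lit 348) (nat_lit 211)) (XT.lf (nat_lit 152) (nat_lit 4260070608) (nat_lit 0) (nat_lit 41) (nat_lit 76) (nat_lit 41) (nat_lit 80) (nat_lit 1) (nat_lit 78) (nat_lit 1) (nat_lit 79) (nat_lit 1) (nat_lit 342) (nat_lit 348) (nat_lit 210))))) (XT.nd (nat_lit 234) (nat_lit 228) (nat_lit 0) (XT.nd (nat_lit 78) (nat_lit 228) (nat_lit 0) (XT.lf (nat_lit 0) (nat_lit 1352403359) (nat_lit 0) (nat_lit 1352403463) (nat_lit 152) (nat_lit 1352403359) (nat_lit 78) (nat_lit 3) (nat_lit 78) (nat_lit 1) (nat_lit 80) (nat_lit 1) (nat_lit 343) (nat_lit 348) (nat_lit 209)) (XT.nd (nat_lit 78) (nat_lit 152) (nat_lit 0) (XT.lf (nat_lit 76) (nat_lit 1290930452) (nat_lit 0) (nat_lit 1290930542) (nat_lit 76) (nat_lit 1290930542) (nat_lit 78) (nat_lit 3) (nat_lit 77) (nat_lit 1) (nat_lit 78) (nat_lit 1) (nat_lit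 344) (nat_lit 348) (nat_lit 208)) (XT.lf (nat_lit 152) (nat_lit 3704409248) (nat_lit 0) (nat_lit 23) (nat_lit 76) (nat_lit 23) (nat_lit 77) (nat_lit 1) (nat_lit 75) (nat_lit 1) (nat_lit 76) (nat_lit 1) (nat_lit 345) (nat_lit 348) (nat_lit 207)))) (XT.nd (nat_lit 78) (nat_lit 228) (nat_lit 0) (XT.lf (nat_lit 0) (nat_lit 1176002931) (nat_lit 0) (nat_lit 1176002990) (nat_lit 152) (nat_lit 1176002931) (nat_lit 75) (nat_lit 3) (nat_lit 75) (nat_lit 1) (nat_lit 77) (nat_lit 1) (nat_lit 346) (nat_lit 348) (nat_lit 206)) (XT.nd (nat_lit 78) (nat_lit 152) (nat_lit 0) (XT.lf (nat_lit 76) (nat_lit 1122548236) (nat_lit 0) (nat_lit 1122548288) (nat_lit 76) (nat_lit 1122548288) (nat_lit 75) (nat_lit 3) (nat_lit 74) (nat_lit 1) (nat_lit 75) (nat_lit 1) (nat_lit 347) (nat_lit 348) (nat_lit 205)) (XT.lf (nat_lit 152) (nat_lit 3221225446) (nat_lit 0) (nat_lit 13) (nat_lit 76) (nat_lit 13) (nat_lit 74) (nat_lit 1)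 (nat_lit 72) (nat_lit 1) (nat_lit 73) (nat_lit 1) (nat_lit 348) (nat_lit 348) (nat_lit 204)))))) (XT.nd (nat_lit 468) (nat_lit 456) (nat_lit 0) (XT.nd (nat_lit 234) (nat_lit 228) (nat_lit 0) (XT.nd (nat_lit 78) (nat_lit 228) (nat_lit 0) (XT.lf (nat_lit 0) (nat_lit 1022611250) (nat_lit 0) (nat_lit 1022611284) (nat_lit 152) (nat_lit 1022611250) (nat_lit 72) (nat_lit 3) (nat_lit 72) (nat_lit 1) (nat_lit 74) (nat_lit 1) (nat_lit 349) (nat_lit 348) (nat_lit 203)) (XT.nd (nat_lit 78) (nat_lit 152) (nat_lit 0) (XT.lf (nat_lit 76) (nat_lit 976128911) (nat_lit 0) (nat_lit 976128941) (nat_lit 76) (nat_lit 976128941) (nat_lit 72) (nat_lit 3) (nat_lit 71) (nat_lit 1) (nat_lit 72) (nat_lit 1) (nat_lit 350) (nat_lit 348) (nat_lit 202)) (XT.lf (nat_lit 152) (nat_lit 2801065613) (nat_lit 0) (nat_lit 7) (nat_lit 76) (nat_lit 7) (nat_lit 71) (nat_lit 1) (nat_lit 69) (nat_lit 1) (nat_lit 70) (nat_lit 1) (nat_lit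 351) (nat_lit 348) (nat_lit 201)))) (XT.nd (nat_lit 78) (nat_lit 228) (nat_lit 0) (XT.lf (nat_lit 0) (nat_lit 889227177) (nat_lit 0) (nat_lit 889227196) (nat_lit 152) (nat_lit 889227177) (nat_lit 69) (nat_lit 3) (nat_lit 69) (nat_lit 1) (nat_lit 71) (nat_lit 1) (nat_lit 352) (nat_lit 348) (nat_lit 200)) (XT.nd (nat_lit 78) (nat_lit 152) (nat_lit 0) (XT.lf (nat_lit 76) (nat_lit 848807755) (nat_lit 0) (nat_lit 848807771) (nat_lit 76) (nat_lit 848807771) (nat_lit 69) (nat_lit 3) (nat_lit 68) (nat_lit 1) (nat_lit 69) (nat_lit 1) (nat_lit 353) (nat_lit 348) (nat_lit 199)) (XT.lf (nat_lit 152) (nat_lit 2435709233) (nat_lit 0) (nat_lit 4) (nat_lit 76) (nat_lit 4) (nat_lit 68) (nat_lit 1) (nat_lit 66) (nat_lit 1) (nat_lit 67) (nat_lit 1) (nat_lit 354) (nat_lit 348) (nat_lit 198))))) (XT.nd (nat_lit 234) (nat_lit 228) (nat_lit 0) (XT.nd (nat_lit 78) (nat_lit 228) (nat_lit 0) (XT.lf (nat_lit 0) (nat_lit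 773241025) (nat_lit 0) (nat_lit 773241036) (nat_lit 152) (nat_lit 773241025) (nat_lit 66) (nat_lit 3) (nat_lit 66) (nat_lit 1) (nat_lit 68) (nat_lit 1) (nat_lit 355) (nat_lit 348) (nat_lit 197)) (XT.nd (nat_lit 78) (nat_lit 152) (nat_lit 0) (XT.lf (nat_lit 76) (nat_lit 738093703) (nat_lit 0) (nat_lit 738093712) (nat_lit 76) (nat_lit 738093712) (nat_lit 66) (nat_lit 3) (nat_lit 65) (nat_lit 1) (nat_lit 66) (nat_lit 1) (nat_lit 356) (nat_lit 348) (nat_lit 196)) (XT.lf (nat_lit 152) (nat_lit 2118008031) (nat_lit 0) (nat_lit 2) (nat_lit 76) (nat_lit 2) (nat_lit 65) (nat_lit 1) (nat_lit 63) (nat_lit 1) (nat_lit 64) (nat_lit 1) (nat_lit 357) (nat_lit 348) (nat_lit 195)))) (XT.nd (nat_lit 78) (nat_lit 228) (nat_lit 0) (XT.lf (nat_lit 0) (nat_lit 672383501) (nat_lit 0) (nat_lit 672383507) (nat_lit 152) (nat_lit 672383501) (nat_lit 63) (nat_lit 3) (nat_lit 63) (nat_lit 1) (nat_lit 65) (nat_lit 1) (nat_lit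 358) (nat_lit 348) (nat_lit 194)) (XT.nd (nat_lit 78) (nat_lit 152) (nat_lit 0) (XT.lf (nat_lit 76) (nat_lit 641820613) (nat_lit 0) (nat_lit 641820618) (nat_lit 76) (nat_lit 641820618) (nat_lit 63) (nat_lit 3) (nat_lit 62) (nat_lit 1) (nat_lit 63) (nat_lit 1) (nat_lit 359) (nat_lit 348) (nat_lit 193)) (XT.lf (nat_lit 152) (nat_lit 1841746115) (nat_lit 0) (nat_lit 1) (nat_lit 76) (nat_lit 1) (nat_lit 62) (nat_lit 1) (nat_lit 60) (nat_lit 1) (nat_lit 61) (nat_lit 1) (nat_lit 360) (nat_lit 348) (nat_lit 192))))))))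
noncomputable def ec154 : XT := (XT.nd (nat_lit 35334) (nat_lit 0) (nat_lit 10260) (XT.nd (nat_lit 34476) (nat_lit 0) (nat_lit 11856) (XT.nd (nat_lit 390) (nat_lit 456) (nat_lit 0) (XT.nd (nat_lit 156) (nat_lit 228) (nat_lit 0) (XT.nd (nat_lit 78) (nat_lit 76) (nat_lit 0) (XT.lf (nat_lit 0) (nat_lit 584681306) (nat_lit 0) (nat_lit 584681309) (nat_lit 152) (nat_lit 584681306) (nat_lit 60) (nat_lit 3) (nat_lit 60) (nat_lit 1) (nat_lit 62) (nat_lit 1) (nat_lit 361) (nat_lit 348) (nat_lit 191)) (XT.lf (nat_lit 76) (nat_lit 558104882) (nat_lit 0) (nat_lit 558104885) (nat_lit 76) (nat_lit 558104885) (nat_lit 60) (nat_lit 3) (nat_lit 59) (nat_lit 1) (nat_lit 60) (nat_lit 1) (nat_lit 362) (nat_lit 348) (nat_lit 190))) (XT.nd (nat_lit 78) (nat_lit 228) (nat_lit 0) (XT.lf (nat_lit 0) (nat_lit 1601518362) (nat_lit 0) (nat_lit 0) (nat_lit 0) (nat_lit 0) (nat_lit 59) (nat_lit 1) (nat_lit 1) (nat_lit 0) (nat_lit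 1) (nat_lit 0) (nat_lit 363) (nat_lit 348) (nat_lit 189)) (XT.nd (nat_lit 78) (nat_lit 76) (nat_lit 0) (XT.lf (nat_lit 0) (nat_lit 508418527) (nat_lit 0) (nat_lit 508418529) (nat_lit 152) (nat_lit 508418527) (nat_lit 57) (nat_lit 3) (nat_lit 57) (nat_lit 1) (nat_lit 59) (nat_lit 1) (nat_lit 364) (nat_lit 348) (nat_lit 188)) (XT.lf (nat_lit 76) (nat_lit 485308593) (nat_lit 0) (nat_lit 485308595) (nat_lit 76) (nat_lit 485308595) (nat_lit 57) (nat_lit 3) (nat_lit 56) (nat_lit 1) (nat_lit 57) (nat_lit 1) (nat_lit 365) (nat_lit 348) (nat_lit 187))))) (XT.nd (nat_lit 234) (nat_lit 228) (nat_lit 0) (XT.nd (nat_lit 78) (nat_lit 228) (nat_lit 0) (XT.lf (nat_lit 0) (nat_lit 1392624663) (nat_lit 0) (nat_lit 0) (nat_lit 0) (nat_lit 0) (nat_lit 56) (nat_lit 1) (nat_lit 1) (nat_lit 0) (nat_lit 1) (nat_lit 0) (nat_lit 366) (nat_lit 348) (nat_lit 186)) (XT.nd (nat_lit 78) (nat_lit 76) (nat_lit 0) (XT.lf (nat_lit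 0) (nat_lit 442103067) (nat_lit 0) (nat_lit 442103068) (nat_lit 152) (nat_lit 442103067) (nat_lit 54) (nat_lit 3) (nat_lit 54) (nat_lit 1) (nat_lit 56) (nat_lit 1) (nat_lit 367) (nat_lit 348) (nat_lit 185)) (XT.lf (nat_lit 76) (nat_lit 422007473) (nat_lit 0) (nat_lit 422007474) (nat_lit 76) (nat_lit 422007474) (nat_lit 54) (nat_lit 3) (nat_lit 53) (nat_lit 1) (nat_lit 54) (nat_lit 1) (nat_lit 368) (nat_lit 348) (nat_lit 184)))) (XT.nd (nat_lit 78) (nat_lit 228) (nat_lit 0) (XT.lf (nat_lit 0) (nat_lit 1210977968) (nat_lit 0) (nat_lit 0) (nat_lit 0) (nat_lit 0) (nat_lit 53) (nat_lit 1) (nat_lit 1) (nat_lit 0) (nat_lit 1) (nat_lit 0) (nat_lit 369) (nat_lit 348) (nat_lit 183)) (XT.nd (nat_lit 78) (nat_lit 76) (nat_lit 0) (XT.lf (nat_lit 0) (nat_lit 384437450) (nat_lit 0) (nat_lit 384437450) (nat_lit 152) (nat_lit 384437450) (nat_lit 51) (nat_lit 3) (nat_lit 51) (nat_lit 1) (nat_lit 53) (nat_lit 1)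 (nat_lit 370) (nat_lit 348) (nat_lit 182)) (XT.lf (nat_lit 76) (nat_lit 366963020) (nat_lit 0) (nat_lit 366963021) (nat_lit 76) (nat_lit 366963021) (nat_lit 51) (nat_lit 3) (nat_lit 50) (nat_lit 1) (nat_lit 51) (nat_lit 1) (nat_lit 371) (nat_lit 348) (nat_lit 181)))))) (XT.nd (nat_lit 390) (nat_lit 684) (nat_lit 0) (XT.nd (nat_lit 156) (nat_lit 0) (nat_lit 76) (XT.nd (nat_lit 78) (nat_lit 0) (nat_lit 0) (XT.lf (nat_lit 380) (nat_lit 661178336402) (nat_lit 0) (nat_lit 585621925122) (nat_lit 380) (nat_lit 661178336402) (nat_lit 220) (nat_lit 1) (nat_lit 215) (nat_lit 0) (nat_lit 220) (nat_lit 0) (nat_lit 202) (nat_lit 349) (nat_lit 349)) (XT.lf (nat_lit 380) (nat_lit 2445612862045) (nat_lit 76) (nat_lit 559002746708) (nat_lit 0) (nat_lit 559002746708) (nat_lit 220) (nat_lit 1) (nat_lit 216) (nat_lit 1) (nat_lit 215) (nat_lit 0) (nat_lit 203) (nat_lit 349) (nat_lit 348))) (XT.nd (nat_lit 78) (nat_lit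 0) (nat_lit 0) (XT.lf (nat_lit 380) (nat_lit 1078012125719) (nat_lit 0) (nat_lit 1172978883421) (nat_lit 304) (nat_lit 1078012125719) (nat_lit 221) (nat_lit 1) (nat_lit 216) (nat_lit 1) (nat_lit 220) (nat_lit 1) (nat_lit 204) (nat_lit 349) (nat_lit 347)) (XT.nd (nat_lit 78) (nat_lit 0) (nat_lit 76) (XT.lf (nat_lit 380) (nat_lit 1850890846327) (nat_lit 76) (nat_lit 633572316484) (nat_lit 0) (nat_lit 633572316484) (nat_lit 221) (nat_lit 1) (nat_lit 217) (nat_lit 1) (nat_lit 216) (nat_lit 1) (nat_lit 205) (nat_lit 349) (nat_lit 346)) (XT.lf (nat_lit 76) (nat_lit 748709895614) (nat_lit 0) (nat_lit 1425669336356) (nat_lit 304) (nat_lit 748709895614) (nat_lit 218) (nat_lit 1) (nat_lit 217) (nat_lit 1) (nat_lit 221) (nat_lit 1) (nat_lit 206) (nat_lit 349) (nat_lit 345))))) (XT.nd (nat_lit 234) (nat_lit 380) (nat_lit 0) (XT.nd (nat_lit 78) (nat_lit 152) (nat_lit 0) (XT.lf (nat_lit 380) (nat_lit 1125250504709)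 (nat_lit 0) (nat_lit 809933735587) (nat_lit 304) (nat_lit 809933735587) (nat_lit 218) (nat_lit 1) (nat_lit 213) (nat_lit 1) (nat_lit 217) (nat_lit 1) (nat_lit 207) (nat_lit 349) (nat_lit 344)) (XT.nd (nat_lit 78) (nat_lit 152) (nat_lit 0) (XT.lf (nat_lit 76) (nat_lit 374020840401) (nat_lit 0) (nat_lit 1835329638291) (nat_lit 380) (nat_lit 374020840401) (nat_lit 214) (nat_lit 1) (nat_lit 213) (nat_lit 1) (nat_lit 218) (nat_lit 1) (nat_lit 208) (nat_lit 349) (nat_lit 343)) (XT.lf (nat_lit 228) (nat_lit 336609933373) (nat_lit 0) (nat_lit 1047615358965) (nat_lit 152) (nat_lit 1047615358965) (nat_lit 214) (nat_lit 1) (nat_lit 211) (nat_lit 1) (nat_lit 213) (nat_lit 1) (nat_lit 209) (nat_lit 349) (nat_lit 342)))) (XT.nd (nat_lit 78) (nat_lit 152) (nat_lit 0) (XT.lf (nat_lit 228) (nat_lit 2262014516819) (nat_lit 0) (nat_lit 17747791075) (nat_lit 152) (nat_lit 17747791075) (nat_lit 211) (nat_lit 1) (nat_lit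 208) (nat_lit 1) (nat_lit 210) (nat_lit 1) (nat_lit 210) (nat_lit 349) (nat_lit 341)) (XT.nd (nat_lit 78) (nat_lit 152) (nat_lit 0) (XT.lf (nat_lit 76) (nat_lit 869080435643) (nat_lit 0) (nat_lit 426672233065) (nat_lit 228) (nat_lit 869080435643) (nat_lit 209) (nat_lit 1) (nat_lit 208) (nat_lit 1) (nat_lit 211) (nat_lit 1) (nat_lit 211) (nat_lit 349) (nat_lit 340)) (XT.lf (nat_lit 228) (nat_lit 1263241769717) (nat_lit 0) (nat_lit 391845178848) (nat_lit 152) (nat_lit 391845178848) (nat_lit 209) (nat_lit 1) (nat_lit 206) (nat_lit 1) (nat_lit 208) (nat_lit 1) (nat_lit 212) (nat_lit 349) (nat_lit 339))))))) (XT.nd (nat_lit 858) (nat_lit 760) (nat_lit 0) (XT.nd (nat_lit 390) (nat_lit 456) (nat_lit 0) (XT.nd (nat_lit 156) (nat_lit 304) (nat_lit 0) (XT.nd (nat_lit 78) (nat_lit 76) (nat_lit 0) (XT.lf (nat_lit 76) (nat_lit 395057133965) (nat_lit 0) (nat_lit 1146449048669) (nat_lit 228) (nat_lit 395057133965)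 (nat_lit 207) (nat_lit 1) (nat_lit 206) (nat_lit 1) (nat_lit 209) (nat_lit 1) (nat_lit 213) (nat_lit 349) (nat_lit 338)) (XT.lf (nat_lit 152) (nat_lit 326587728592) (nat_lit 0) (nat_lit 753602790146) (nat_lit 76) (nat_lit 753602790146) (nat_lit 207) (nat_lit 1) (nat_lit 205) (nat_lit 1) (nat_lit 206) (nat_lit 1) (nat_lit 214) (nat_lit 349) (nat_lit 337))) (XT.nd (nat_lit 78) (nat_lit 76) (nat_lit 0) (XT.lf (nat_lit 228) (nat_lit 1653379058163) (nat_lit 0) (nat_lit 43923706887) (nat_lit 152) (nat_lit 43923706887) (nat_lit 205) (nat_lit 1) (nat_lit 202) (nat_lit 1) (nat_lit 204) (nat_lit 1) (nat_lit 215) (nat_lit 349) (nat_lit 336)) (XT.nd (nat_lit 78) (nat_lit 76) (nat_lit 0) (XT.lf (nat_lit 76) (nat_lit 578647110364) (nat_lit 0) (nat_lit 491406005495) (nat_lit 228) (nat_lit 578647110364) (nat_lit 203) (nat_lit 1) (nat_lit 202) (nat_lit 1) (nat_lit 205) (nat_lit 1) (nat_lit 216) (nat_lit 349) (nat_lit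 335)) (XT.lf (nat_lit 152) (nat_lit 703579464606) (nat_lit 0) (nat_lit 430874841154) (nat_lit 76) (nat_lit 430874841154) (nat_lit 203) (nat_lit 1) (nat_lit 201) (nat_lit 1) (nat_lit 202) (nat_lit 1) (nat_lit 217) (nat_lit 349) (nat_lit 334))))) (XT.nd (nat_lit 234) (nat_lit 228) (nat_lit 0) (XT.nd (nat_lit 78) (nat_lit 228) (nat_lit 0) (XT.lf (nat_lit 0) (nat_lit 137770555018) (nat_lit 0) (nat_lit 1212921387387) (nat_lit 152) (nat_lit 137770555018) (nat_lit 201) (nat_lit 3) (nat_lit 201) (nat_lit 1) (nat_lit 203) (nat_lit 1) (nat_lit 218) (nat_lit 349) (nat_lit 333)) (XT.nd (nat_lit 78) (nat_lit 76) (nat_lit 0) (XT.lf (nat_lit 76) (nat_lit 637601547599) (nat_lit 0) (nat_lit 138284753338) (nat_lit 152) (nat_lit 637601547599) (nat_lit 200) (nat_lit 1) (nat_lit 199) (nat_lit 1) (nat_lit 201) (nat_lit 1) (nat_lit 219) (nat_lit 349) (nat_lit 332)) (XT.lf (nat_lit 152) (nat_lit 851710251824) (nat_lit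 0) (nat_lit 246354088874) (nat_lit 76) (nat_lit 246354088874) (nat_lit 200) (nat_lit 1) (nat_lit 198) (nat_lit 1) (nat_lit 199) (nat_lit 1) (nat_lit 220) (nat_lit 349) (nat_lit 331)))) (XT.nd (nat_lit 78) (nat_lit 228) (nat_lit 0) (XT.lf (nat_lit 0) (nat_lit 221448987186) (nat_lit 0) (nat_lit 836169965095) (nat_lit 152) (nat_lit 221448987186) (nat_lit 198) (nat_lit 3) (nat_lit 198) (nat_lit 1) (nat_lit 200) (nat_lit 1) (nat_lit 221) (nat_lit 349) (nat_lit 330)) (XT.nd (nat_lit 78) (nat_lit 152) (nat_lit 0) (XT.lf (nat_lit 76) (nat_lit 49401311771) (nat_lit 0) (nat_lit 583941292562) (nat_lit 76) (nat_lit 583941292562) (nat_lit 198) (nat_lit 3) (nat_lit 197) (nat_lit 1) (nat_lit 198) (nat_lit 1) (nat_lit 222) (nat_lit 349) (nat_lit 329)) (XT.lf (nat_lit 152) (nat_lit 877782369831) (nat_lit 0) (nat_lit 140853749878) (nat_lit 76) (nat_lit 140853749878) (nat_lit 197) (nat_lit 1) (nat_lit 195) (nat_lit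 1) (nat_lit 196) (nat_lit 1) (nat_lit 223) (nat_lit 349) (nat_lit 328)))))) (XT.nd (nat_lit 390) (nat_lit 456) (nat_lit 0) (XT.nd (nat_lit 156) (nat_lit 228) (nat_lit 0) (XT.nd (nat_lit 78) (nat_lit 76) (nat_lit 0) (XT.lf (nat_lit 0) (nat_lit 250682199076) (nat_lit 0) (nat_lit 602150913330) (nat_lit 152) (nat_lit 250682199076) (nat_lit 195) (nat_lit 3) (nat_lit 195) (nat_lit 1) (nat_lit 197) (nat_lit 1) (nat_lit 224) (nat_lit 349) (nat_lit 327)) (XT.lf (nat_lit 76) (nat_lit 146673926719) (nat_lit 0) (nat_lit 452298895635) (nat_lit 76) (nat_lit 452298895635) (nat_lit 195) (nat_lit 3) (nat_lit 194) (nat_lit 1) (nat_lit 195) (nat_lit 1) (nat_lit 225) (nat_lit 349) (nat_lit 326))) (XT.nd (nat_lit 78) (nat_lit 76) (nat_lit 0) (XT.lf (nat_lit 152) (nat_lit 841713413697) (nat_lit 0) (nat_lit 80533588647) (nat_lit 76) (nat_lit 80533588647) (nat_lit 194) (nat_lit 1) (nat_lit 192) (nat_lit 1) (nat_lit 193)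 (nat_lit 1) (nat_lit 226) (nat_lit 349) (nat_lit 325)) (XT.nd (nat_lit 78) (nat_lit 76) (nat_lit 0) (XT.lf (nat_lit 0) (nat_lit 251213597385) (nat_lit 0) (nat_lit 452166975484) (nat_lit 152) (nat_lit 251213597385) (nat_lit 192) (nat_lit 3) (nat_lit 192) (nat_lit 1) (nat_lit 194) (nat_lit 1) (nat_lit 227) (nat_lit 349) (nat_lit 324)) (XT.lf (nat_lit 76) (nat_lit 186842655713) (nat_lit 0) (nat_lit 361584723625) (nat_lit 76) (nat_lit 361584723625) (nat_lit 192) (nat_lit 3) (nat_lit 191) (nat_lit 1) (nat_lit 192) (nat_lit 1) (nat_lit 228) (nat_lit 349) (nat_lit 323))))) (XT.nd (nat_lit 234) (nat_lit 228) (nat_lit 0) (XT.nd (nat_lit 78) (nat_lit 76) (nat_lit 0) (XT.lf (nat_lit 152) (nat_lit 776764110769) (nat_lit 0) (nat_lit 46045340688) (nat_lit 76) (nat_lit 46045340688) (nat_lit 191) (nat_lit 1) (nat_lit 189) (nat_lit 1) (nat_lit 190) (nat_lit 1) (nat_lit 229) (nat_lit 349) (nat_lit 322)) (XT.nd (nat_lit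 78) (nat_lit 76) (nat_lit 0) (XT.lf (nat_lit 0) (nat_lit 237445438730) (nat_lit 0) (nat_lit 352341184871) (nat_lit 152) (nat_lit 237445438730) (nat_lit 189) (nat_lit 3) (nat_lit 189) (nat_lit 1) (nat_lit 191) (nat_lit 1) (nat_lit 230) (nat_lit 349) (nat_lit 321)) (XT.lf (nat_lit 76) (nat_lit 196376905312) (nat_lit 0) (nat_lit 296286249782) (nat_lit 76) (nat_lit 296286249782) (nat_lit 189) (nat_lit 3) (nat_lit 188) (nat_lit 1) (nat_lit 189) (nat_lit 1) (nat_lit 231) (nat_lit 349) (nat_lit 320)))) (XT.nd (nat_lit 78) (nat_lit 76) (nat_lit 0) (XT.lf (nat_lit 152) (nat_lit 701084127156) (nat_lit 0) (nat_lit 26326572982) (nat_lit 76) (nat_lit 26326572982) (nat_lit 188) (nat_lit 1) (nat_lit 186) (nat_lit 1) (nat_lit 187) (nat_lit 1) (nat_lit 232) (nat_lit 349) (nat_lit 319)) (XT.nd (nat_lit 78) (nat_lit 76) (nat_lit 0) (XT.lf (nat_lit 0) (nat_lit 217336938583) (nat_lit 0) (nat_lit 283028954344) (nat_lit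 152) (nat_lit 217336938583) (nat_lit 186) (nat_lit 3) (nat_lit 186) (nat_lit 1) (nat_lit 188) (nat_lit 1) (nat_lit 233) (nat_lit 349) (nat_lit 318)) (XT.lf (nat_lit 76) (nat_lit 190147837748) (nat_lit 0) (nat_lit 247271329714) (nat_lit 76) (nat_lit 247271329714) (nat_lit 186) (nat_lit 3) (nat_lit 185) (nat_lit 1) (nat_lit 186) (nat_lit 1) (nat_lit 234) (nat_lit 349) (nat_lit 317))))))))
noncomputable def ec155 : XT := (XT.nd (nat_lit 1716) (nat_lit 1672) (nat_lit 0) (XT.nd (nat_lit 858) (nat_lit 912) (nat_lit 0) (XT.nd (nat_lit 390) (nat_lit 456) (nat_lit 0) (XT.nd (nat_lit 156) (nat_lit 228) (nat_lit 0) (XT.nd (nat_lit 78) (nat_lit 0) (nat_lit 0) (XT.lf (nat_lit 152) (nat_lit 624296451886) (nat_lit 0) (nat_lit 15052303548) (nat_lit 76) (nat_lit 15052303548) (nat_lit 185) (nat_lit 1) (nat_lit 183) (nat_lit 1) (nat_lit 184) (nat_lit 1) (nat_lit 235) (nat_lit 349) (nat_lit 316)) (XT.lf (nat_lit 0)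 (nat_lit 195199394228) (nat_lit 0) (nat_lit 232759017449) (nat_lit 152) (nat_lit 195199394228) (nat_lit 183) (nat_lit 3) (nat_lit 183) (nat_lit 1) (nat_lit 185) (nat_lit 1) (nat_lit 236) (nat_lit 349) (nat_lit 315))) (XT.nd (nat_lit 78) (nat_lit 152) (nat_lit 0) (XT.lf (nat_lit 76) (nat_lit 176429560572) (nat_lit 0) (nat_lit 209090102503) (nat_lit 76) (nat_lit 209090102503) (nat_lit 183) (nat_lit 3) (nat_lit 182) (nat_lit 1) (nat_lit 183) (nat_lit 1) (nat_lit 237) (nat_lit 349) (nat_lit 314)) (XT.nd (nat_lit 78) (nat_lit 0) (nat_lit 0) (XT.lf (nat_lit 152) (nat_lit 551247284970) (nat_lit 0) (nat_lit 8606203407) (nat_lit 76) (nat_lit 8606203407) (nat_lit 182) (nat_lit 1) (nat_lit 180) (nat_lit 1) (nat_lit 181) (nat_lit 1) (nat_lit 238) (nat_lit 349) (nat_lit 313)) (XT.lf (nat_lit 0) (nat_lit 173289621280) (nat_lit 0) (nat_lit 194764457760) (nat_lit 152) (nat_lit 173289621280) (nat_lit 180) (nat_lit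 3) (nat_lit 180) (nat_lit 1) (nat_lit 182) (nat_lit 1) (nat_lit 239) (nat_lit 349) (nat_lit 312))))) (XT.nd (nat_lit 234) (nat_lit 228) (nat_lit 0) (XT.nd (nat_lit 78) (nat_lit 152) (nat_lit 0) (XT.lf (nat_lit 76) (nat_lit 159754101873) (nat_lit 0) (nat_lit 178427872725) (nat_lit 76) (nat_lit 178427872725) (nat_lit 180) (nat_lit 3) (nat_lit 179) (nat_lit 1) (nat_lit 180) (nat_lit 1) (nat_lit 240) (nat_lit 349) (nat_lit 311)) (XT.nd (nat_lit 78) (nat_lit 0) (nat_lit 0) (XT.lf (nat_lit 152) (nat_lit 484137217690) (nat_lit 0) (nat_lit 4920624730) (nat_lit 76) (nat_lit 4920624730) (nat_lit 179) (nat_lit 1) (nat_lit 177) (nat_lit 1) (nat_lit 178) (nat_lit 1) (nat_lit 241) (nat_lit 349) (nat_lit 310)) (XT.lf (nat_lit 0) (nat_lit 152716933040) (nat_lit 0) (nat_lit 164995240496) (nat_lit 152) (nat_lit 152716933040) (nat_lit 177) (nat_lit 3) (nat_lit 177) (nat_lit 1) (nat_lit 179) (nat_lit 1) (nat_lit 242)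 (nat_lit 349) (nat_lit 309)))) (XT.nd (nat_lit 78) (nat_lit 152) (nat_lit 0) (XT.lf (nat_lit 76) (nat_lit 142539863632) (nat_lit 0) (nat_lit 153216652724) (nat_lit 76) (nat_lit 153216652724) (nat_lit 177) (nat_lit 3) (nat_lit 176) (nat_lit 1) (nat_lit 177) (nat_lit 1) (nat_lit 243) (nat_lit 349) (nat_lit 308)) (XT.nd (nat_lit 78) (nat_lit 0) (nat_lit 0) (XT.lf (nat_lit 152) (nat_lit 423728584991) (nat_lit 0) (nat_lit 2813383159) (nat_lit 76) (nat_lit 2813383159) (nat_lit 176) (nat_lit 1) (nat_lit 174) (nat_lit 1) (nat_lit 175) (nat_lit 1) (nat_lit 244) (nat_lit 349) (nat_lit 307)) (XT.lf (nat_lit 0) (nat_lit 133958167032) (nat_lit 0) (nat_lit 140978329170) (nat_lit 152) (nat_lit 133958167032) (nat_lit 174) (nat_lit 3) (nat_lit 174) (nat_lit 1) (nat_lit 176) (nat_lit 1) (nat_lit 245) (nat_lit 349) (nat_lit 306)))))) (XT.nd (nat_lit 390) (nat_lit 456) (nat_lit 0) (XT.nd (nat_lit 156) (nat_lit 228)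 (nat_lit 0) (XT.nd (nat_lit 78) (nat_lit 152) (nat_lit 0) (XT.lf (nat_lit 76) (nat_lit 126019314344) (nat_lit 0) (nat_lit 132123803160) (nat_lit 76) (nat_lit 132123803160) (nat_lit 174) (nat_lit 3) (nat_lit 173) (nat_lit 1) (nat_lit 174) (nat_lit 1) (nat_lit 246) (nat_lit 349) (nat_lit 305)) (XT.lf (nat_lit 152) (nat_lit 370026071515) (nat_lit 0) (nat_lit 1608560952) (nat_lit 76) (nat_lit 1608560952) (nat_lit 173) (nat_lit 1) (nat_lit 171) (nat_lit 1) (nat_lit 172) (nat_lit 1) (nat_lit 247) (nat_lit 349) (nat_lit 304))) (XT.nd (nat_lit 78) (nat_lit 228) (nat_lit 0) (XT.lf (nat_lit 0) (nat_lit 117149073217) (nat_lit 0) (nat_lit 121162873704) (nat_lit 152) (nat_lit 117149073217) (nat_lit 171) (nat_lit 3) (nat_lit 171) (nat_lit 1) (nat_lit 173) (nat_lit 1) (nat_lit 248) (nat_lit 349) (nat_lit 303)) (XT.nd (nat_lit 78) (nat_lit 152) (nat_lit 0) (XT.lf (nat_lit 76) (nat_lit 110766460406) (nat_lit 0)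 (nat_lit 114256721699) (nat_lit 76) (nat_lit 114256721699) (nat_lit 171) (nat_lit 3) (nat_lit 170) (nat_lit 1) (nat_lit 171) (nat_lit 1) (nat_lit 249) (nat_lit 349) (nat_lit 302)) (XT.lf (nat_lit 152) (nat_lit 322657414121) (nat_lit 0) (nat_lit 919699945) (nat_lit 76) (nat_lit 919699945) (nat_lit 170) (nat_lit 1) (nat_lit 168) (nat_lit 1) (nat_lit 169) (nat_lit 1) (nat_lit 250) (nat_lit 349) (nat_lit 301))))) (XT.nd (nat_lit 234) (nat_lit 228) (nat_lit 0) (XT.nd (nat_lit 78) (nat_lit 228) (nat_lit 0) (XT.lf (nat_lit 0) (nat_lit 102248237998) (nat_lit 0) (nat_lit 104543141453) (nat_lit 152) (nat_lit 102248237998) (nat_lit 168) (nat_lit 3) (nat_lit 168) (nat_lit 1) (nat_lit 170) (nat_lit 1) (nat_lit 251) (nat_lit 349) (nat_lit 300)) (XT.nd (nat_lit 78) (nat_lit 152) (nat_lit 0) (XT.lf (nat_lit 76) (nat_lit 96995873173) (nat_lit 0) (nat_lit 98991441395) (nat_lit 76) (nat_lit 98991441395) (nat_lit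 168) (nat_lit 3) (nat_lit 167) (nat_lit 1) (nat_lit 168) (nat_lit 1) (nat_lit 252) (nat_lit 349) (nat_lit 299)) (XT.lf (nat_lit 152) (nat_lit 281083733980) (nat_lit 0) (nat_lit 525841428) (nat_lit 76) (nat_lit 525841428) (nat_lit 167) (nat_lit 1) (nat_lit 165) (nat_lit 1) (nat_lit 166) (nat_lit 1) (nat_lit 253) (nat_lit 349) (nat_lit 298)))) (XT.nd (nat_lit 78) (nat_lit 228) (nat_lit 0) (XT.lf (nat_lit 0) (nat_lit 89128479468) (nat_lit 0) (nat_lit 90440597967) (nat_lit 152) (nat_lit 89128479468) (nat_lit 165) (nat_lit 3) (nat_lit 165) (nat_lit 1) (nat_lit 167) (nat_lit 1) (nat_lit 254) (nat_lit 349) (nat_lit 297)) (XT.nd (nat_lit 78) (nat_lit 152) (nat_lit 0) (XT.lf (nat_lit 76) (nat_lit 84731435672) (nat_lit 0) (nat_lit 85872408280) (nat_lit 76) (nat_lit 85872408280) (nat_lit 165) (nat_lit 3) (nat_lit 164) (nat_lit 1) (nat_lit 165) (nat_lit 1) (nat_lit 255) (nat_lit 349) (nat_lit 296)) (XT.lf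 (nat_lit 152) (nat_lit 244713415658) (nat_lit 0) (nat_lit 300651543) (nat_lit 76) (nat_lit 300651543) (nat_lit 164) (nat_lit 1) (nat_lit 162) (nat_lit 1) (nat_lit 163) (nat_lit 1) (nat_lit 256) (nat_lit 349) (nat_lit 295))))))) (XT.nd (nat_lit 858) (nat_lit 912) (nat_lit 0) (XT.nd (nat_lit 390) (nat_lit 456) (nat_lit 0) (XT.nd (nat_lit 156) (nat_lit 228) (nat_lit 0) (XT.nd (nat_lit 78) (nat_lit 76) (nat_lit 0) (XT.lf (nat_lit 0) (nat_lit 77627077878) (nat_lit 0) (nat_lit 78377285888) (nat_lit 152) (nat_lit 77627077878) (nat_lit 162) (nat_lit 3) (nat_lit 162) (nat_lit 1) (nat_lit 164) (nat_lit 1) (nat_lit 257) (nat_lit 349) (nat_lit 294)) (XT.lf (nat_lit 76) (nat_lit 73900891068) (nat_lit 0) (nat_lit 74553245859) (nat_lit 76) (nat_lit 74553245859) (nat_lit 162) (nat_lit 3) (nat_lit 161) (nat_lit 1) (nat_lit 162) (nat_lit 1) (nat_lit 258) (nat_lit 349) (nat_lit 293))) (XT.nd (nat_lit 78) (nat_lit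 76) (nat_lit 0) (XT.lf (nat_lit 152) (nat_lit 212961670922) (nat_lit 0) (nat_lit 171898495) (nat_lit 76) (nat_lit 171898495) (nat_lit 161) (nat_lit 1) (nat_lit 159) (nat_lit 1) (nat_lit 160) (nat_lit 1) (nat_lit 259) (nat_lit 349) (nat_lit 292)) (XT.nd (nat_lit 78) (nat_lit 76) (nat_lit 0) (XT.lf (nat_lit 0) (nat_lit 67572734129) (nat_lit 0) (nat_lit 68001667993) (nat_lit 152) (nat_lit 67572734129) (nat_lit 159) (nat_lit 3) (nat_lit 159) (nat_lit 1) (nat_lit 161) (nat_lit 1) (nat_lit 260) (nat_lit 349) (nat_lit 291)) (XT.lf (nat_lit 76) (nat_lit 64388220162) (nat_lit 0) (nat_lit 64761206132) (nat_lit 76) (nat_lit 64761206132) (nat_lit 159) (nat_lit 3) (nat_lit 158) (nat_lit 1) (nat_lit 159) (nat_lit 1) (nat_lit 261) (nat_lit 349) (nat_lit 290))))) (XT.nd (nat_lit 234) (nat_lit 228) (nat_lit 0) (XT.nd (nat_lit 78) (nat_lit 76) (nat_lit 0) (XT.lf (nat_lit 152) (nat_lit 185279771127) (nat_lit 0) (nat_lit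 98283522) (nat_lit 76) (nat_lit 98283522) (nat_lit 158) (nat_lit 1) (nat_lit 156) (nat_lit 1) (nat_lit 157) (nat_lit 1) (nat_lit 262) (nat_lit 349) (nat_lit 289)) (XT.nd (nat_lit 78) (nat_lit 76) (nat_lit 0) (XT.lf (nat_lit 0) (nat_lit 58799452144) (nat_lit 0) (nat_lit 59044696473) (nat_lit 152) (nat_lit 58799452144) (nat_lit 156) (nat_lit 3) (nat_lit 156) (nat_lit 1) (nat_lit 158) (nat_lit 1) (nat_lit 263) (nat_lit 349) (nat_lit 288)) (XT.lf (nat_lit 76) (nat_lit 56062126762) (nat_lit 0) (nat_lit 56275382700) (nat_lit 76) (nat_lit 56275382700) (nat_lit 156) (nat_lit 3) (nat_lit 155) (nat_lit 1) (nat_lit 156) (nat_lit 1) (nat_lit 264) (nat_lit 349) (nat_lit 287)))) (XT.nd (nat_lit 78) (nat_lit 76) (nat_lit 0) (XT.lf (nat_lit 152) (nat_lit 161167566651) (nat_lit 0) (nat_lit 56193923) (nat_lit 76) (nat_lit 56193923) (nat_lit 155) (nat_lit 1) (nat_lit 153) (nat_lit 1) (nat_lit 154) (nat_lit 1) (nat_lit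 265) (nat_lit 349) (nat_lit 286)) (XT.nd (nat_lit 78) (nat_lit 76) (nat_lit 0) (XT.lf (nat_lit 0) (nat_lit 51153144639) (nat_lit 0) (nat_lit 51293363880) (nat_lit 152) (nat_lit 51153144639) (nat_lit 153) (nat_lit 3) (nat_lit 153) (nat_lit 1) (nat_lit 155) (nat_lit 1) (nat_lit 266) (nat_lit 349) (nat_lit 285)) (XT.lf (nat_lit 76) (nat_lit 48791053284) (nat_lit 0) (nat_lit 48912983059) (nat_lit 76) (nat_lit 48912983059) (nat_lit 153) (nat_lit 3) (nat_lit 152) (nat_lit 1) (nat_lit 153) (nat_lit 1) (nat_lit 267) (nat_lit 349) (nat_lit 284)))))) (XT.nd (nat_lit 468) (nat_lit 456) (nat_lit 0) (XT.nd (nat_lit 234) (nat_lit 228) (nat_lit 0) (XT.nd (nat_lit 78) (nat_lit 76) (nat_lit 0) (XT.lf (nat_lit 152) (nat_lit 140176997722) (nat_lit 0) (nat_lit 32129057) (nat_lit 76) (nat_lit 32129057) (nat_lit 152) (nat_lit 1) (nat_lit 150) (nat_lit 1) (nat_lit 151) (nat_lit 1) (nat_lit 268) (nat_lit 349) (nat_lit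 283)) (XT.nd (nat_lit 78) (nat_lit 76) (nat_lit 0) (XT.lf (nat_lit 0) (nat_lit 44494252154) (nat_lit 0) (nat_lit 44574422960) (nat_lit 152) (nat_lit 44494252154) (nat_lit 150) (nat_lit 3) (nat_lit 150) (nat_lit 1) (nat_lit 152) (nat_lit 1) (nat_lit 269) (nat_lit 349) (nat_lit 282)) (XT.lf (nat_lit 76) (nat_lit 42450660769) (nat_lit 0) (nat_lit 42520374514) (nat_lit 76) (nat_lit 42520374514) (nat_lit 150) (nat_lit 3) (nat_lit 149) (nat_lit 1) (nat_lit 150) (nat_lit 1) (nat_lit 270) (nat_lit 349) (nat_lit 281)))) (XT.nd (nat_lit 78) (nat_lit 76) (nat_lit 0) (XT.lf (nat_lit 152) (nat_lit 121910930279) (nat_lit 0) (nat_lit 18369893) (nat_lit 76) (nat_lit 18369893) (nat_lit 149) (nat_lit 1) (nat_lit 147) (nat_lit 1) (nat_lit 148) (nat_lit 1) (nat_lit 271) (nat_lit 349) (nat_lit 280)) (XT.nd (nat_lit 78) (nat_lit 76) (nat_lit 0) (XT.lf (nat_lit 0) (nat_lit 38698233674) (nat_lit 0) (nat_lit 38744071593)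 (nat_lit 152) (nat_lit 38698233674) (nat_lit 147) (nat_lit 3) (nat_lit 147) (nat_lit 1) (nat_lit 149) (nat_lit 1) (nat_lit 272) (nat_lit 349) (nat_lit 279)) (XT.lf (nat_lit 76) (nat_lit 36927144549) (nat_lit 0) (nat_lit 36967003609) (nat_lit 76) (nat_lit 36967003609) (nat_lit 147) (nat_lit 3) (nat_lit 146) (nat_lit 1) (nat_lit 147) (nat_lit 1) (nat_lit 273) (nat_lit 349) (nat_lit 278))))) (XT.nd (nat_lit 234) (nat_lit 228) (nat_lit 0) (XT.nd (nat_lit 78) (nat_lit 76) (nat_lit 0) (XT.lf (nat_lit 152) (nat_lit 106019732559) (nat_lit 0) (nat_lit 10503046) (nat_lit 76) (nat_lit 10503046) (nat_lit 146) (nat_lit 1) (nat_lit 144) (nat_lit 1) (nat_lit 145) (nat_lit 1) (nat_lit 274) (nat_lit 349) (nat_lit 277)) (XT.nd (nat_lit 78) (nat_lit 76) (nat_lit 0) (XT.lf (nat_lit 0) (nat_lit 33654971654) (nat_lit 0) (nat_lit 33681179632) (nat_lit 152) (nat_lit 33654971654) (nat_lit 144) (nat_lit 3) (nat_lit 144)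 (nat_lit 1) (nat_lit 146) (nat_lit 1) (nat_lit 275) (nat_lit 349) (nat_lit 276)) (XT.lf (nat_lit 76) (nat_lit 32118294292) (nat_lit 0) (nat_lit 32141083838) (nat_lit 76) (nat_lit 32141083838) (nat_lit 144) (nat_lit 3) (nat_lit 143) (nat_lit 1) (nat_lit 144) (nat_lit 1) (nat_lit 276) (nat_lit 349) (nat_lit 275)))) (XT.nd (nat_lit 78) (nat_lit 76) (nat_lit 0) (XT.lf (nat_lit 152) (nat_lit 92196919665) (nat_lit 0) (nat_lit 6005150) (nat_lit 76) (nat_lit 6005150) (nat_lit 143) (nat_lit 1) (nat_lit 141) (nat_lit 1) (nat_lit 142) (nat_lit 1) (nat_lit 277) (nat_lit 349) (nat_lit 274)) (XT.nd (nat_lit 78) (nat_lit 76) (nat_lit 0) (XT.lf (nat_lit 0) (nat_lit 29267670536) (nat_lit 0) (nat_lit 29282655033) (nat_lit 152) (nat_lit 29267670536) (nat_lit 141) (nat_lit 3) (nat_lit 141) (nat_lit 1) (nat_lit 143) (nat_lit 1) (nat_lit 278) (nat_lit 349) (nat_lit 273)) (XT.lf (nat_lit 76) (nat_lit 27933373391) (nat_lit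 0) (nat_lit 27946403388) (nat_lit 76) (nat_lit 27946403388) (nat_lit 141) (nat_lit 3) (nat_lit 140) (nat_lit 1) (nat_lit 141) (nat_lit 1) (nat_lit 279) (nat_lit 349) (nat_lit 272))))))))
noncomputable def ec156 : XT := (XT.nd (nat_lit 1716) (nat_lit 1596) (nat_lit 0) (XT.nd (nat_lit 858) (nat_lit 912) (nat_lit 0) (XT.nd (nat_lit 390) (nat_lit 456) (nat_lit 0) (XT.nd (nat_lit 156) (nat_lit 228) (nat_lit 0) (XT.nd (nat_lit 78) (nat_lit 0) (nat_lit 0) (XT.lf (nat_lit 152) (nat_lit 80174578033) (nat_lit 0) (nat_lit 3433464) (nat_lit 76) (nat_lit 3433464) (nat_lit 140) (nat_lit 1) (nat_lit 138) (nat_lit 1) (nat_lit 139) (nat_lit 1) (nat_lit 280) (nat_lit 349) (nat_lit 271)) (XT.lf (nat_lit 0) (nat_lit 25451564979) (nat_lit 0) (nat_lit 25460132413) (nat_lit 152) (nat_lit 25451564979) (nat_lit 138) (nat_lit 3) (nat_lit 138) (nat_lit 1) (nat_lit 140) (nat_lit 1) (nat_lit 281) (nat_lit 349) (nat_lit 270)))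 (XT.nd (nat_lit 78) (nat_lit 152) (nat_lit 0) (XT.lf (nat_lit 76) (nat_lit 24292418103) (nat_lit 0) (nat_lit 24299868046) (nat_lit 76) (nat_lit 24299868046) (nat_lit 138) (nat_lit 3) (nat_lit 137) (nat_lit 1) (nat_lit 138) (nat_lit 1) (nat_lit 282) (nat_lit 349) (nat_lit 269)) (XT.nd (nat_lit 78) (nat_lit 0) (nat_lit 0) (XT.lf (nat_lit 152) (nat_lit 69718936057) (nat_lit 0) (nat_lit 1963094) (nat_lit 76) (nat_lit 1963094) (nat_lit 137) (nat_lit 1) (nat_lit 135) (nat_lit 1) (nat_lit 136) (nat_lit 1) (nat_lit 283) (nat_lit 349) (nat_lit 268)) (XT.lf (nat_lit 0) (nat_lit 22132605629) (nat_lit 0) (nat_lit 22137504087) (nat_lit 152) (nat_lit 22132605629) (nat_lit 135) (nat_lit 3) (nat_lit 135) (nat_lit 1) (nat_lit 137) (nat_lit 1) (nat_lit 284) (nat_lit 349) (nat_lit 267))))) (XT.nd (nat_lit 234) (nat_lit 228) (nat_lit 0) (XT.nd (nat_lit 78) (nat_lit 152) (nat_lit 0) (XT.lf (nat_lit 76) (nat_lit 21125287334)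 (nat_lit 0) (nat_lit 21129546863) (nat_lit 76) (nat_lit 21129546863) (nat_lit 135) (nat_lit 3) (nat_lit 134) (nat_lit 1) (nat_lit 135) (nat_lit 1) (nat_lit 285) (nat_lit 349) (nat_lit 266)) (XT.nd (nat_lit 78) (nat_lit 0) (nat_lit 0) (XT.lf (nat_lit 152) (nat_lit 60626254798) (nat_lit 0) (nat_lit 1122405) (nat_lit 76) (nat_lit 1122405) (nat_lit 134) (nat_lit 1) (nat_lit 132) (nat_lit 1) (nat_lit 133) (nat_lit 1) (nat_lit 286) (nat_lit 349) (nat_lit 265)) (XT.lf (nat_lit 0) (nat_lit 19246207142) (nat_lit 0) (nat_lit 19249007852) (nat_lit 152) (nat_lit 19246207142) (nat_lit 132) (nat_lit 3) (nat_lit 132) (nat_lit 1) (nat_lit 134) (nat_lit 1) (nat_lit 287) (nat_lit 349) (nat_lit 264)))) (XT.nd (nat_lit 78) (nat_lit 152) (nat_lit 0) (XT.lf (nat_lit 76) (nat_lit 18370641545) (nat_lit 0) (nat_lit 18373076944) (nat_lit 76) (nat_lit 18373076944) (nat_lit 132) (nat_lit 3) (nat_lit 131) (nat_lit 1) (nat_lit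 132) (nat_lit 1) (nat_lit 288) (nat_lit 349) (nat_lit 263)) (XT.nd (nat_lit 78) (nat_lit 0) (nat_lit 0) (XT.lf (nat_lit 152) (nat_lit 52719107365) (nat_lit 0) (nat_lit 641739) (nat_lit 76) (nat_lit 641739) (nat_lit 131) (nat_lit 1) (nat_lit 129) (nat_lit 1) (nat_lit 130) (nat_lit 1) (nat_lit 289) (nat_lit 349) (nat_lit 262)) (XT.lf (nat_lit 0) (nat_lit 16736097086) (nat_lit 0) (nat_lit 16737698401) (nat_lit 152) (nat_lit 16736097086) (nat_lit 129) (nat_lit 3) (nat_lit 129) (nat_lit 1) (nat_lit 131) (nat_lit 1) (nat_lit 290) (nat_lit 349) (nat_lit 261)))))) (XT.nd (nat_lit 390) (nat_lit 456) (nat_lit 0) (XT.nd (nat_lit 156) (nat_lit 228) (nat_lit 0) (XT.nd (nat_lit 78) (nat_lit 152) (nat_lit 0) (XT.lf (nat_lit 76) (nat_lit 15974943447) (nat_lit 0) (nat_lit 15976335894) (nat_lit 76) (nat_lit 15976335894) (nat_lit 129) (nat_lit 3) (nat_lit 128) (nat_lit 1) (nat_lit 129) (nat_lit 1) (nat_lit 291) (nat_lit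 349) (nat_lit 260)) (XT.lf (nat_lit 152) (nat_lit 45843059363) (nat_lit 0) (nat_lit 366916) (nat_lit 76) (nat_lit 366916) (nat_lit 128) (nat_lit 1) (nat_lit 126) (nat_lit 1) (nat_lit 127) (nat_lit 1) (nat_lit 292) (nat_lit 349) (nat_lit 259))) (XT.nd (nat_lit 78) (nat_lit 228) (nat_lit 0) (XT.lf (nat_lit 0) (nat_lit 14553279295) (nat_lit 0) (nat_lit 14554194852) (nat_lit 152) (nat_lit 14553279295) (nat_lit 126) (nat_lit 3) (nat_lit 126) (nat_lit 1) (nat_lit 128) (nat_lit 1) (nat_lit 293) (nat_lit 349) (nat_lit 258)) (XT.nd (nat_lit 78) (nat_lit 152) (nat_lit 0) (XT.lf (nat_lit 76) (nat_lit 13891525346) (nat_lit 0) (nat_lit 13892321483) (nat_lit 76) (nat_lit 13892321483) (nat_lit 126) (nat_lit 3) (nat_lit 125) (nat_lit 1) (nat_lit 126) (nat_lit 1) (nat_lit 294) (nat_lit 349) (nat_lit 257)) (XT.lf (nat_lit 152) (nat_lit 39863734172) (nat_lit 0) (nat_lit 209785) (nat_lit 76) (nat_lit 209785) (nat_lit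 125) (nat_lit 1) (nat_lit 123) (nat_lit 1) (nat_lit 124) (nat_lit 1) (nat_lit 295) (nat_lit 349) (nat_lit 256))))) (XT.nd (nat_lit 234) (nat_lit 228) (nat_lit 0) (XT.nd (nat_lit 78) (nat_lit 228) (nat_lit 0) (XT.lf (nat_lit 0) (nat_lit 12655112034) (nat_lit 0) (nat_lit 12655635506) (nat_lit 152) (nat_lit 12655112034) (nat_lit 123) (nat_lit 3) (nat_lit 123) (nat_lit 1) (nat_lit 125) (nat_lit 1) (nat_lit 296) (nat_lit 349) (nat_lit 255)) (XT.nd (nat_lit 78) (nat_lit 152) (nat_lit 0) (XT.lf (nat_lit 76) (nat_lit 12079741731) (nat_lit 0) (nat_lit 12080196925) (nat_lit 76) (nat_lit 12080196925) (nat_lit 123) (nat_lit 3) (nat_lit 122) (nat_lit 1) (nat_lit 123) (nat_lit 1) (nat_lit 297) (nat_lit 349) (nat_lit 254)) (XT.lf (nat_lit 152) (nat_lit 34664233475) (nat_lit 0) (nat_lit 119945) (nat_lit 76) (nat_lit 119945) (nat_lit 122) (nat_lit 1) (nat_lit 120) (nat_lit 1) (nat_lit 121) (nat_lit 1) (nat_lit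 298) (nat_lit 349) (nat_lit 253)))) (XT.nd (nat_lit 78) (nat_lit 228) (nat_lit 0) (XT.lf (nat_lit 0) (nat_lit 11004494738) (nat_lit 0) (nat_lit 11004794035) (nat_lit 152) (nat_lit 11004494738) (nat_lit 120) (nat_lit 3) (nat_lit 120) (nat_lit 1) (nat_lit 122) (nat_lit 1) (nat_lit 299) (nat_lit 349) (nat_lit 252)) (XT.nd (nat_lit 78) (nat_lit 152) (nat_lit 0) (XT.lf (nat_lit 76) (nat_lit 10504211565) (nat_lit 0) (nat_lit 10504471824) (nat_lit 76) (nat_lit 10504471824) (nat_lit 120) (nat_lit 3) (nat_lit 119) (nat_lit 1) (nat_lit 120) (nat_lit 1) (nat_lit 300) (nat_lit 349) (nat_lit 251)) (XT.lf (nat_lit 152) (nat_lit 30142878501) (nat_lit 0) (nat_lit 68579) (nat_lit 76) (nat_lit 68579) (nat_lit 119) (nat_lit 1) (nat_lit 117) (nat_lit 1) (nat_lit 118) (nat_lit 1) (nat_lit 301) (nat_lit 349) (nat_lit 250))))))) (XT.nd (nat_lit 858) (nat_lit 836) (nat_lit 0) (XT.nd (nat_lit 390) (nat_lit 456) (nat_lit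 0) (XT.nd (nat_lit 156) (nat_lit 228) (nat_lit 0) (XT.nd (nat_lit 78) (nat_lit 76) (nat_lit 0) (XT.lf (nat_lit 0) (nat_lit 9569154155) (nat_lit 0) (nat_lit 9569325279) (nat_lit 152) (nat_lit 9569154155) (nat_lit 117) (nat_lit 3) (nat_lit 117) (nat_lit 1) (nat_lit 119) (nat_lit 1) (nat_lit 302) (nat_lit 349) (nat_lit 249)) (XT.lf (nat_lit 76) (nat_lit 9134147511) (nat_lit 0) (nat_lit 9134296314) (nat_lit 76) (nat_lit 9134296314) (nat_lit 117) (nat_lit 3) (nat_lit 116) (nat_lit 1) (nat_lit 117) (nat_lit 1) (nat_lit 303) (nat_lit 349) (nat_lit 248))) (XT.nd (nat_lit 78) (nat_lit 76) (nat_lit 0) (XT.lf (nat_lit 152) (nat_lit 26211236880) (nat_lit 0) (nat_lit 39210) (nat_lit 76) (nat_lit 39210) (nat_lit 116) (nat_lit 1) (nat_lit 114) (nat_lit 1) (nat_lit 115) (nat_lit 1) (nat_lit 304) (nat_lit 349) (nat_lit 247)) (XT.nd (nat_lit 78) (nat_lit 76) (nat_lit 0) (XT.lf (nat_lit 0) (nat_lit 8321019792) (nat_lit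 0) (nat_lit 8321117633) (nat_lit 152) (nat_lit 8321019792) (nat_lit 114) (nat_lit 3) (nat_lit 114) (nat_lit 1) (nat_lit 116) (nat_lit 1) (nat_lit 305) (nat_lit 349) (nat_lit 246)) (XT.lf (nat_lit 76) (nat_lit 7942765838) (nat_lit 0) (nat_lit 7942850917) (nat_lit 76) (nat_lit 7942850917) (nat_lit 114) (nat_lit 3) (nat_lit 113) (nat_lit 1) (nat_lit 114) (nat_lit 1) (nat_lit 306) (nat_lit 349) (nat_lit 245))))) (XT.nd (nat_lit 234) (nat_lit 228) (nat_lit 0) (XT.nd (nat_lit 78) (nat_lit 76) (nat_lit 0) (XT.lf (nat_lit 152) (nat_lit 22792401727) (nat_lit 0) (nat_lit 22418) (nat_lit 76) (nat_lit 22418) (nat_lit 113) (nat_lit 1) (nat_lit 111) (nat_lit 1) (nat_lit 112) (nat_lit 1) (nat_lit 307) (nat_lit 349) (nat_lit 244)) (XT.nd (nat_lit 78) (nat_lit 76) (nat_lit 0) (XT.lf (nat_lit 0) (nat_lit 7235678634) (nat_lit 0) (nat_lit 7235734575) (nat_lit 152) (nat_lit 7235678634) (nat_lit 111) (nat_lit 3) (nat_lit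 111) (nat_lit 1) (nat_lit 113) (nat_lit 1) (nat_lit 308) (nat_lit 349) (nat_lit 243)) (XT.lf (nat_lit 76) (nat_lit 6906769410) (nat_lit 0) (nat_lit 6906818055) (nat_lit 76) (nat_lit 6906818055) (nat_lit 111) (nat_lit 3) (nat_lit 110) (nat_lit 1) (nat_lit 111) (nat_lit 1) (nat_lit 309) (nat_lit 349) (nat_lit 242)))) (XT.nd (nat_lit 78) (nat_lit 76) (nat_lit 0) (XT.lf (nat_lit 152) (nat_lit 19819492245) (nat_lit 0) (nat_lit 12817) (nat_lit 76) (nat_lit 12817) (nat_lit 110) (nat_lit 1) (nat_lit 108) (nat_lit 1) (nat_lit 109) (nat_lit 1) (nat_lit 310) (nat_lit 349) (nat_lit 241)) (XT.nd (nat_lit 78) (nat_lit 76) (nat_lit 0) (XT.lf (nat_lit 0) (nat_lit 6291899753) (nat_lit 0) (nat_lit 6291931738) (nat_lit 152) (nat_lit 6291899753) (nat_lit 108) (nat_lit 3) (nat_lit 108) (nat_lit 1) (nat_lit 110) (nat_lit 1) (nat_lit 311) (nat_lit 349) (nat_lit 240)) (XT.lf (nat_lit 76) (nat_lit 6005895882) (nat_lit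 0) (nat_lit 6005923695) (nat_lit 76) (nat_lit 6005923695) (nat_lit 108) (nat_lit 3) (nat_lit 107) (nat_lit 1) (nat_lit 108) (nat_lit 1) (nat_lit 312) (nat_lit 349) (nat_lit 239)))))) (XT.nd (nat_lit 390) (nat_lit 456) (nat_lit 0) (XT.nd (nat_lit 156) (nat_lit 228) (nat_lit 0) (XT.nd (nat_lit 78) (nat_lit 0) (nat_lit 0) (XT.lf (nat_lit 152) (nat_lit 17234348219) (nat_lit 0) (nat_lit 7328) (nat_lit 76) (nat_lit 7328) (nat_lit 107) (nat_lit 1) (nat_lit 105) (nat_lit 1) (nat_lit 106) (nat_lit 1) (nat_lit 313) (nat_lit 349) (nat_lit 238)) (XT.lf (nat_lit 0) (nat_lit 5471220201) (nat_lit 0) (nat_lit 5471238488) (nat_lit 152) (nat_lit 5471220201) (nat_lit 105) (nat_lit 3) (nat_lit 105) (nat_lit 1) (nat_lit 107) (nat_lit 1) (nat_lit 314) (nat_lit 349) (nat_lit 237))) (XT.nd (nat_lit 78) (nat_lit 152) (nat_lit 0) (XT.lf (nat_lit 76) (nat_lit 5222523555) (nat_lit 0) (nat_lit 5222539457) (nat_lit 76) (nat_lit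 5222539457) (nat_lit 105) (nat_lit 3) (nat_lit 104) (nat_lit 1) (nat_lit 105) (nat_lit 1) (nat_lit 315) (nat_lit 349) (nat_lit 236)) (XT.nd (nat_lit 78) (nat_lit 0) (nat_lit 0) (XT.lf (nat_lit 152) (nat_lit 14986393836) (nat_lit 0) (nat_lit 4190) (nat_lit 76) (nat_lit 4190) (nat_lit 104) (nat_lit 1) (nat_lit 102) (nat_lit 1) (nat_lit 103) (nat_lit 1) (nat_lit 316) (nat_lit 349) (nat_lit 235)) (XT.lf (nat_lit 0) (nat_lit 4757584512) (nat_lit 0) (nat_lit 4757594968) (nat_lit 152) (nat_lit 4757584512) (nat_lit 102) (nat_lit 3) (nat_lit 102) (nat_lit 1) (nat_lit 104) (nat_lit 1) (nat_lit 317) (nat_lit 349) (nat_lit 234))))) (XT.nd (nat_lit 234) (nat_lit 228) (nat_lit 0) (XT.nd (nat_lit 78) (nat_lit 152) (nat_lit 0) (XT.lf (nat_lit 76) (nat_lit 4541327916) (nat_lit 0) (nat_lit 4541337007) (nat_lit 76) (nat_lit 4541337007) (nat_lit 102) (nat_lit 3) (nat_lit 101) (nat_lit 1) (nat_lit 102) (nat_lit 1)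 (nat_lit 318) (nat_lit 349) (nat_lit 233)) (XT.nd (nat_lit 78) (nat_lit 0) (nat_lit 0) (XT.lf (nat_lit 152) (nat_lit 13031649147) (nat_lit 0) (nat_lit 2395) (nat_lit 76) (nat_lit 2395) (nat_lit 101) (nat_lit 1) (nat_lit 99) (nat_lit 1) (nat_lit 100) (nat_lit 1) (nat_lit 319) (nat_lit 349) (nat_lit 232)) (XT.lf (nat_lit 0) (nat_lit 4137030999) (nat_lit 0) (nat_lit 4137036977) (nat_lit 152) (nat_lit 4137030999) (nat_lit 99) (nat_lit 3) (nat_lit 99) (nat_lit 1) (nat_lit 101) (nat_lit 1) (nat_lit 320) (nat_lit 349) (nat_lit 231)))) (XT.nd (nat_lit 78) (nat_lit 152) (nat_lit 0) (XT.lf (nat_lit 76) (nat_lit 3948982560) (nat_lit 0) (nat_lit 3948987758) (nat_lit 76) (nat_lit 3948987758) (nat_lit 99) (nat_lit 3) (nat_lit 98) (nat_lit 1) (nat_lit 99) (nat_lit 1) (nat_lit 321) (nat_lit 349) (nat_lit 230)) (XT.nd (nat_lit 78) (nat_lit 0) (nat_lit 0) (XT.lf (nat_lit 152) (nat_lit 11331870157) (nat_lit 0) (nat_lit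 1369) (nat_lit 76) (nat_lit 1369) (nat_lit 98) (nat_lit 1) (nat_lit 96) (nat_lit 1) (nat_lit 97) (nat_lit 1) (nat_lit 322) (nat_lit 349) (nat_lit 229)) (XT.lf (nat_lit 0) (nat_lit 3597418825) (nat_lit 0) (nat_lit 3597422243) (nat_lit 152) (nat_lit 3597418825) (nat_lit 96) (nat_lit 3) (nat_lit 96) (nat_lit 1) (nat_lit 98) (nat_lit 1) (nat_lit 323) (nat_lit 349) (nat_lit 228))))))))
noncomputable def ec157 : XT := (XT.nd (nat_lit 1716) (nat_lit 1748) (nat_lit 0) (XT.nd (nat_lit 858) (nat_lit 760) (nat_lit 0) (XT.nd (nat_lit 390) (nat_lit 456) (nat_lit 0) (XT.nd (nat_lit 156) (nat_lit 228) (nat_lit 0) (XT.nd (nat_lit 78) (nat_lit 152) (nat_lit 0) (XT.lf (nat_lit 76) (nat_lit 3433898887) (nat_lit 0) (nat_lit 3433901859) (nat_lit 76) (nat_lit 3433901859) (nat_lit 96) (nat_lit 3) (nat_lit 95) (nat_lit 1) (nat_lit 96) (nat_lit 1) (nat_lit 324) (nat_lit 349) (nat_lit 227)) (XT.lf (nat_lit 152) (nat_lit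 9853800899) (nat_lit 0) (nat_lit 783) (nat_lit 76) (nat_lit 783) (nat_lit 95) (nat_lit 1) (nat_lit 93) (nat_lit 1) (nat_lit 94) (nat_lit 1) (nat_lit 325) (nat_lit 349) (nat_lit 226))) (XT.nd (nat_lit 78) (nat_lit 228) (nat_lit 0) (XT.lf (nat_lit 0) (nat_lit 3128190606) (nat_lit 0) (nat_lit 3128192560) (nat_lit 152) (nat_lit 3128190606) (nat_lit 93) (nat_lit 3) (nat_lit 93) (nat_lit 1) (nat_lit 95) (nat_lit 1) (nat_lit 326) (nat_lit 349) (nat_lit 225)) (XT.nd (nat_lit 78) (nat_lit 152) (nat_lit 0) (XT.lf (nat_lit 76) (nat_lit 2985999609) (nat_lit 0) (nat_lit 2986001308) (nat_lit 76) (nat_lit 2986001308) (nat_lit 93) (nat_lit 3) (nat_lit 92) (nat_lit 1) (nat_lit 93) (nat_lit 1) (nat_lit 327) (nat_lit 349) (nat_lit 224)) (XT.lf (nat_lit 152) (nat_lit 8568522957) (nat_lit 0) (nat_lit 447) (nat_lit 76) (nat_lit 447) (nat_lit 92) (nat_lit 1) (nat_lit 90) (nat_lit 1) (nat_lit 91) (nat_lit 1) (nat_lit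 328) (nat_lit 349) (nat_lit 223))))) (XT.nd (nat_lit 234) (nat_lit 228) (nat_lit 0) (XT.nd (nat_lit 78) (nat_lit 228) (nat_lit 0) (XT.lf (nat_lit 0) (nat_lit 2720165929) (nat_lit 0) (nat_lit 2720167046) (nat_lit 152) (nat_lit 2720165929) (nat_lit 90) (nat_lit 3) (nat_lit 90) (nat_lit 1) (nat_lit 92) (nat_lit 1) (nat_lit 329) (nat_lit 349) (nat_lit 222)) (XT.nd (nat_lit 78) (nat_lit 152) (nat_lit 0) (XT.lf (nat_lit 76) (nat_lit 2596521729) (nat_lit 0) (nat_lit 2596522700) (nat_lit 76) (nat_lit 2596522700) (nat_lit 90) (nat_lit 3) (nat_lit 89) (nat_lit 1) (nat_lit 90) (nat_lit 1) (nat_lit 330) (nat_lit 349) (nat_lit 221)) (XT.lf (nat_lit 152) (nat_lit 7450889777) (nat_lit 0) (nat_lit 256) (nat_lit 76) (nat_lit 256) (nat_lit 89) (nat_lit 1) (nat_lit 87) (nat_lit 1) (nat_lit 88) (nat_lit 1) (nat_lit 331) (nat_lit 349) (nat_lit 220)))) (XT.nd (nat_lit 78) (nat_lit 228) (nat_lit 0) (XT.lf (nat_lit 0)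 (nat_lit 2365361783) (nat_lit 0) (nat_lit 2365362422) (nat_lit 152) (nat_lit 2365361783) (nat_lit 87) (nat_lit 3) (nat_lit 87) (nat_lit 1) (nat_lit 89) (nat_lit 1) (nat_lit 332) (nat_lit 349) (nat_lit 219)) (XT.nd (nat_lit 78) (nat_lit 152) (nat_lit 0) (XT.lf (nat_lit 76) (nat_lit 2257845170) (nat_lit 0) (nat_lit 2257845725) (nat_lit 76) (nat_lit 2257845725) (nat_lit 87) (nat_lit 3) (nat_lit 86) (nat_lit 1) (nat_lit 87) (nat_lit 1) (nat_lit 333) (nat_lit 349) (nat_lit 218)) (XT.lf (nat_lit 152) (nat_lit 6479034731) (nat_lit 0) (nat_lit 146) (nat_lit 76) (nat_lit 146) (nat_lit 86) (nat_lit 1) (nat_lit 84) (nat_lit 1) (nat_lit 85) (nat_lit 1) (nat_lit 334) (nat_lit 349) (nat_lit 217)))))) (XT.nd (nat_lit 390) (nat_lit 456) (nat_lit 0) (XT.nd (nat_lit 156) (nat_lit 228) (nat_lit 0) (XT.nd (nat_lit 78) (nat_lit 76) (nat_lit 0) (XT.lf (nat_lit 0) (nat_lit 2056836393) (nat_lit 0) (nat_lit 2056836759)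 (nat_lit 152) (nat_lit 2056836393) (nat_lit 84) (nat_lit 3) (nat_lit 84) (nat_lit 1) (nat_lit 86) (nat_lit 1) (nat_lit 335) (nat_lit 349) (nat_lit 216)) (XT.lf (nat_lit 76) (nat_lit 1963343734) (nat_lit 0) (nat_lit 1963344051) (nat_lit 76) (nat_lit 1963344051) (nat_lit 84) (nat_lit 3) (nat_lit 83) (nat_lit 1) (nat_lit 84) (nat_lit 1) (nat_lit 336) (nat_lit 349) (nat_lit 215))) (XT.nd (nat_lit 78) (nat_lit 76) (nat_lit 0) (XT.lf (nat_lit 152) (nat_lit 5633943326) (nat_lit 0) (nat_lit 83) (nat_lit 76) (nat_lit 83) (nat_lit 83) (nat_lit 1) (nat_lit 81) (nat_lit 1) (nat_lit 82) (nat_lit 1) (nat_lit 337) (nat_lit 349) (nat_lit 214)) (XT.nd (nat_lit 78) (nat_lit 76) (nat_lit 0) (XT.lf (nat_lit 0) (nat_lit 1788553420) (nat_lit 0) (nat_lit 1788553629) (nat_lit 152) (nat_lit 1788553420) (nat_lit 81) (nat_lit 3) (nat_lit 81) (nat_lit 1) (nat_lit 83) (nat_lit 1) (nat_lit 338) (nat_lit 349) (nat_lit 213))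 (XT.lf (nat_lit 76) (nat_lit 1707255482) (nat_lit 0) (nat_lit 1707255664) (nat_lit 76) (nat_lit 1707255664) (nat_lit 81) (nat_lit 3) (nat_lit 80) (nat_lit 1) (nat_lit 81) (nat_lit 1) (nat_lit 339) (nat_lit 349) (nat_lit 212))))) (XT.nd (nat_lit 234) (nat_lit 228) (nat_lit 0) (XT.nd (nat_lit 78) (nat_lit 76) (nat_lit 0) (XT.lf (nat_lit 152) (nat_lit 4899081200) (nat_lit 0) (nat_lit 47) (nat_lit 76) (nat_lit 47) (nat_lit 80) (nat_lit 1) (nat_lit 78) (nat_lit 1) (nat_lit 79) (nat_lit 1) (nat_lit 340) (nat_lit 349) (nat_lit 211)) (XT.nd (nat_lit 78) (nat_lit 76) (nat_lit 0) (XT.lf (nat_lit 0) (nat_lit 1555263863) (nat_lit 0) (nat_lit 1555263982) (nat_lit 152) (nat_lit 1555263863) (nat_lit 78) (nat_lit 3) (nat_lit 78) (nat_lit 1) (nat_lit 80) (nat_lit 1) (nat_lit 341) (nat_lit 349) (nat_lit 210)) (XT.lf (nat_lit 76) (nat_lit 1484570020) (nat_lit 0) (nat_lit 1484570123) (nat_lit 76) (nat_lit 1484570123)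 (nat_lit 78) (nat_lit 3) (nat_lit 77) (nat_lit 1) (nat_lit 78) (nat_lit 1) (nat_lit 342) (nat_lit 349) (nat_lit 209)))) (XT.nd (nat_lit 78) (nat_lit 76) (nat_lit 0) (XT.lf (nat_lit 152) (nat_lit 4260070635) (nat_lit 0) (nat_lit 27) (nat_lit 76) (nat_lit 27) (nat_lit 77) (nat_lit 1) (nat_lit 75) (nat_lit 1) (nat_lit 76) (nat_lit 1) (nat_lit 343) (nat_lit 349) (nat_lit 208)) (XT.nd (nat_lit 78) (nat_lit 76) (nat_lit 0) (XT.lf (nat_lit 0) (nat_lit 1352403370) (nat_lit 0) (nat_lit 1352403439) (nat_lit 152) (nat_lit 1352403370) (nat_lit 75) (nat_lit 3) (nat_lit 75) (nat_lit 1) (nat_lit 77) (nat_lit 1) (nat_lit 344) (nat_lit 349) (nat_lit 207)) (XT.lf (nat_lit 76) (nat_lit 1290930472) (nat_lit 0) (nat_lit 1290930531) (nat_lit 76) (nat_lit 1290930531) (nat_lit 75) (nat_lit 3) (nat_lit 74) (nat_lit 1) (nat_lit 75) (nat_lit 1) (nat_lit 345) (nat_lit 349) (nat_lit 206))))))) (XT.nd (nat_lit 858) (nat_lit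 912) (nat_lit 0) (XT.nd (nat_lit 390) (nat_lit 456) (nat_lit 0) (XT.nd (nat_lit 156) (nat_lit 228) (nat_lit 0) (XT.nd (nat_lit 78) (nat_lit 0) (nat_lit 0) (XT.lf (nat_lit 152) (nat_lit 3704409263) (nat_lit 0) (nat_lit 15) (nat_lit 76) (nat_lit 15) (nat_lit 74) (nat_lit 1) (nat_lit 72) (nat_lit 1) (nat_lit 73) (nat_lit 1) (nat_lit 346) (nat_lit 349) (nat_lit 205)) (XT.lf (nat_lit 0) (nat_lit 1176002937) (nat_lit 0) (nat_lit 1176002976) (nat_lit 152) (nat_lit 1176002937) (nat_lit 72) (nat_lit 3) (nat_lit 72) (nat_lit 1) (nat_lit 74) (nat_lit 1) (nat_lit 347) (nat_lit 349) (nat_lit 204))) (XT.nd (nat_lit 78) (nat_lit 152) (nat_lit 0) (XT.lf (nat_lit 76) (nat_lit 1122548248) (nat_lit 0) (nat_lit 1122548282) (nat_lit 76) (nat_lit 1122548282) (nat_lit 72) (nat_lit 3) (nat_lit 71) (nat_lit 1) (nat_lit 72) (nat_lit 1) (nat_lit 348) (nat_lit 349) (nat_lit 203)) (XT.nd (nat_lit 78) (nat_lit 0) (nat_lit 0)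 (XT.lf (nat_lit 152) (nat_lit 3221225455) (nat_lit 0) (nat_lit 8) (nat_lit 76) (nat_lit 8) (nat_lit 71) (nat_lit 1) (nat_lit 69) (nat_lit 1) (nat_lit 70) (nat_lit 1) (nat_lit 349) (nat_lit 349) (nat_lit 202)) (XT.lf (nat_lit 0) (nat_lit 1022611253) (nat_lit 0) (nat_lit 1022611276) (nat_lit 152) (nat_lit 1022611253) (nat_lit 69) (nat_lit 3) (nat_lit 69) (nat_lit 1) (nat_lit 71) (nat_lit 1) (nat_lit 350) (nat_lit 349) (nat_lit 201))))) (XT.nd (nat_lit 234) (nat_lit 228) (nat_lit 0) (XT.nd (nat_lit 78) (nat_lit 152) (nat_lit 0) (XT.lf (nat_lit 76) (nat_lit 976128918) (nat_lit 0) (nat_lit 976128937) (nat_lit 76) (nat_lit 976128937) (nat_lit 69) (nat_lit 3) (nat_lit 68) (nat_lit 1) (nat_lit 69) (nat_lit 1) (nat_lit 351) (nat_lit 349) (nat_lit 200)) (XT.nd (nat_lit 78) (nat_lit 0) (nat_lit 0) (XT.lf (nat_lit 152) (nat_lit 2801065618) (nat_lit 0) (nat_lit 5) (nat_lit 76) (nat_lit 5) (nat_lit 68) (nat_lit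 1) (nat_lit 66) (nat_lit 1) (nat_lit 67) (nat_lit 1) (nat_lit 352) (nat_lit 349) (nat_lit 199)) (XT.lf (nat_lit 0) (nat_lit 889227179) (nat_lit 0) (nat_lit 889227192) (nat_lit 152) (nat_lit 889227179) (nat_lit 66) (nat_lit 3) (nat_lit 66) (nat_lit 1) (nat_lit 68) (nat_lit 1) (nat_lit 353) (nat_lit 349) (nat_lit 198)))) (XT.nd (nat_lit 78) (nat_lit 152) (nat_lit 0) (XT.lf (nat_lit 76) (nat_lit 848807758) (nat_lit 0) (nat_lit 848807769) (nat_lit 76) (nat_lit 848807769) (nat_lit 66) (nat_lit 3) (nat_lit 65) (nat_lit 1) (nat_lit 66) (nat_lit 1) (nat_lit 354) (nat_lit 349) (nat_lit 197)) (XT.nd (nat_lit 78) (nat_lit 0) (nat_lit 0) (XT.lf (nat_lit 152) (nat_lit 2435709236) (nat_lit 0) (nat_lit 2) (nat_lit 76) (nat_lit 2) (nat_lit 65) (nat_lit 1) (nat_lit 63) (nat_lit 1) (nat_lit 64) (nat_lit 1) (nat_lit 355) (nat_lit 349) (nat_lit 196)) (XT.lf (nat_lit 0) (nat_lit 773241026) (nat_lit 0) (nat_lit 773241034)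 (nat_lit 152) (nat_lit 773241026) (nat_lit 63) (nat_lit 3) (nat_lit 63) (nat_lit 1) (nat_lit 65) (nat_lit 1) (nat_lit 356) (nat_lit 349) (nat_lit 195)))))) (XT.nd (nat_lit 468) (nat_lit 456) (nat_lit 0) (XT.nd (nat_lit 234) (nat_lit 228) (nat_lit 0) (XT.nd (nat_lit 78) (nat_lit 152) (nat_lit 0) (XT.lf (nat_lit 76) (nat_lit 738093705) (nat_lit 0) (nat_lit 738093711) (nat_lit 76) (nat_lit 738093711) (nat_lit 63) (nat_lit 3) (nat_lit 62) (nat_lit 1) (nat_lit 63) (nat_lit 1) (nat_lit 357) (nat_lit 349) (nat_lit 194)) (XT.nd (nat_lit 78) (nat_lit 0) (nat_lit 0) (XT.lf (nat_lit 152) (nat_lit 2118008033) (nat_lit 0) (nat_lit 1) (nat_lit 76) (nat_lit 1) (nat_lit 62) (nat_lit 1) (nat_lit 60) (nat_lit 1) (nat_lit 61) (nat_lit 1) (nat_lit 358) (nat_lit 349) (nat_lit 193)) (XT.lf (nat_lit 0) (nat_lit 672383502) (nat_lit 0) (nat_lit 672383506) (nat_lit 152) (nat_lit 672383502) (nat_lit 60) (nat_lit 3) (nat_lit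 60) (nat_lit 1) (nat_lit 62) (nat_lit 1) (nat_lit 359) (nat_lit 349) (nat_lit 192)))) (XT.nd (nat_lit 78) (nat_lit 152) (nat_lit 0) (XT.lf (nat_lit 76) (nat_lit 641820614) (nat_lit 0) (nat_lit 641820618) (nat_lit 76) (nat_lit 641820618) (nat_lit 60) (nat_lit 3) (nat_lit 59) (nat_lit 1) (nat_lit 60) (nat_lit 1) (nat_lit 360) (nat_lit 349) (nat_lit 191)) (XT.nd (nat_lit 78) (nat_lit 152) (nat_lit 0) (XT.lf (nat_lit 0) (nat_lit 1841746116) (nat_lit 0) (nat_lit 0) (nat_lit 0) (nat_lit 0) (nat_lit 59) (nat_lit 1) (nat_lit 1) (nat_lit 0) (nat_lit 1) (nat_lit 0) (nat_lit 361) (nat_lit 349) (nat_lit 190)) (XT.lf (nat_lit 0) (nat_lit 584681306) (nat_lit 0) (nat_lit 584681309) (nat_lit 152) (nat_lit 584681306) (nat_lit 57) (nat_lit 3) (nat_lit 57) (nat_lit 1) (nat_lit 59) (nat_lit 1) (nat_lit 362) (nat_lit 349) (nat_lit 189))))) (XT.nd (nat_lit 234) (nat_lit 228) (nat_lit 0) (XT.nd (nat_lit 78) (nat_lit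 152) (nat_lit 0) (XT.lf (nat_lit 76) (nat_lit 558104883) (nat_lit 0) (nat_lit 558104885) (nat_lit 76) (nat_lit 558104885) (nat_lit 57) (nat_lit 3) (nat_lit 56) (nat_lit 1) (nat_lit 57) (nat_lit 1) (nat_lit 363) (nat_lit 349) (nat_lit 188)) (XT.nd (nat_lit 78) (nat_lit 152) (nat_lit 0) (XT.lf (nat_lit 0) (nat_lit 1601518362) (nat_lit 0) (nat_lit 0) (nat_lit 0) (nat_lit 0) (nat_lit 56) (nat_lit 1) (nat_lit 1) (nat_lit 0) (nat_lit 1) (nat_lit 0) (nat_lit 364) (nat_lit 349) (nat_lit 187)) (XT.lf (nat_lit 0) (nat_lit 508418527) (nat_lit 0) (nat_lit 508418529) (nat_lit 152) (nat_lit 508418527) (nat_lit 54) (nat_lit 3) (nat_lit 54) (nat_lit 1) (nat_lit 56) (nat_lit 1) (nat_lit 365) (nat_lit 349) (nat_lit 186)))) (XT.nd (nat_lit 78) (nat_lit 152) (nat_lit 0) (XT.lf (nat_lit 76) (nat_lit 485308594) (nat_lit 0) (nat_lit 485308595) (nat_lit 76) (nat_lit 485308595) (nat_lit 54) (nat_lit 3) (nat_lit 53) (nat_lit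 1) (nat_lit 54) (nat_lit 1) (nat_lit 366) (nat_lit 349) (nat_lit 185)) (XT.nd (nat_lit 78) (nat_lit 152) (nat_lit 0) (XT.lf (nat_lit 0) (nat_lit 1392624663) (nat_lit 0) (nat_lit 0) (nat_lit 0) (nat_lit 0) (nat_lit 53) (nat_lit 1) (nat_lit 1) (nat_lit 0) (nat_lit 1) (nat_lit 0) (nat_lit 367) (nat_lit 349) (nat_lit 184)) (XT.lf (nat_lit 0) (nat_lit 442103067) (nat_lit 0) (nat_lit 442103068) (nat_lit 152) (nat_lit 442103067) (nat_lit 51) (nat_lit 3) (nat_lit 51) (nat_lit 1) (nat_lit 53) (nat_lit 1) (nat_lit 368) (nat_lit 349) (nat_lit 183))))))))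
noncomputable def ec158 : XT := (XT.nd (nat_lit 35178) (nat_lit 0) (nat_lit 9728) (XT.nd (nat_lit 34320) (nat_lit 0) (nat_lit 11400) (XT.nd (nat_lit 33852) (nat_lit 0) (nat_lit 12388) (XT.nd (nat_lit 156) (nat_lit 152) (nat_lit 0) (XT.nd (nat_lit 78) (nat_lit 0) (nat_lit 0) (XT.lf (nat_lit 76) (nat_lit 422007473) (nat_lit 0) (nat_lit 422007474) (nat_lit 76) (nat_lit 422007474) (nat_lit 51) (nat_lit 3) (nat_lit 50) (nat_lit 1) (nat_lit 51) (nat_lit 1) (nat_lit 369) (nat_lit 349) (nat_lit 182)) (XT.lf (nat_lit 0) (nat_lit 1210977968) (nat_lit 0) (nat_lit 0) (nat_lit 0) (nat_lit 0) (nat_lit 50) (nat_lit 1) (nat_lit 1) (nat_lit 0) (nat_lit 1) (nat_lit 0) (nat_lit 370) (nat_lit 349) (nat_lit 181))) (XT.nd (nat_lit 33540) (nat_lit 0) (nat_lit 12692) (XT.lf (nat_lit 0) (nat_lit 384437450) (nat_lit 0) (nat_lit 384437450) (nat_lit 152) (nat_lit 384437450) (nat_lit 48) (nat_lit 3) (nat_lit 48) (nat_lit 1)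 (nat_lit 50) (nat_lit 1) (nat_lit 371) (nat_lit 349) (nat_lit 180)) (XT.nd (nat_lit 78) (nat_lit 0) (nat_lit 0) (XT.lf (nat_lit 380) (nat_lit 760355086862) (nat_lit 0) (nat_lit 673465213891) (nat_lit 380) (nat_lit 760355086862) (nat_lit 220) (nat_lit 1) (nat_lit 215) (nat_lit 0) (nat_lit 220) (nat_lit 0) (nat_lit 200) (nat_lit 350) (nat_lit 350)) (XT.lf (nat_lit 380) (nat_lit 2812454791352) (nat_lit 76) (nat_lit 642853158714) (nat_lit 0) (nat_lit 642853158714) (nat_lit 220) (nat_lit 1) (nat_lit 216) (nat_lit 1) (nat_lit 215) (nat_lit 0) (nat_lit 201) (nat_lit 350) (nat_lit 349))))) (XT.nd (nat_lit 234) (nat_lit 380) (nat_lit 0) (XT.nd (nat_lit 78) (nat_lit 0) (nat_lit 0) (XT.lf (nat_lit 380) (nat_lit 1239713944576) (nat_lit 0) (nat_lit 1348925715935) (nat_lit 304) (nat_lit 1239713944576) (nat_lit 221) (nat_lit 1) (nat_lit 216) (nat_lit 1) (nat_lit 220) (nat_lit 1) (nat_lit 202) (nat_lit 350) (nat_lit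 348)) (XT.nd (nat_lit 78) (nat_lit 0) (nat_lit 76) (XT.lf (nat_lit 380) (nat_lit 2128524473276) (nat_lit 76) (nat_lit 728608163957) (nat_lit 0) (nat_lit 728608163957) (nat_lit 221) (nat_lit 1) (nat_lit 217) (nat_lit 1) (nat_lit 216) (nat_lit 1) (nat_lit 203) (nat_lit 350) (nat_lit 347)) (XT.lf (nat_lit 76) (nat_lit 861016379957) (nat_lit 0) (nat_lit 1639519736810) (nat_lit 304) (nat_lit 861016379957) (nat_lit 218) (nat_lit 1) (nat_lit 217) (nat_lit 1) (nat_lit 221) (nat_lit 1) (nat_lit 204) (nat_lit 350) (nat_lit 346)))) (XT.nd (nat_lit 78) (nat_lit 152) (nat_lit 0) (XT.lf (nat_lit 380) (nat_lit 1294038080416) (nat_lit 0) (nat_lit 931423795925) (nat_lit 304) (nat_lit 931423795925) (nat_lit 218) (nat_lit 1) (nat_lit 213) (nat_lit 1) (nat_lit 217) (nat_lit 1) (nat_lit 205) (nat_lit 350) (nat_lit 345)) (XT.nd (nat_lit 78) (nat_lit 152) (nat_lit 0) (XT.lf (nat_lit 76) (nat_lit 430123966461) (nat_lit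 0) (nat_lit 2110629084035) (nat_lit 380) (nat_lit 430123966461) (nat_lit 214) (nat_lit 1) (nat_lit 213) (nat_lit 1) (nat_lit 218) (nat_lit 1) (nat_lit 206) (nat_lit 350) (nat_lit 344)) (XT.lf (nat_lit 228) (nat_lit 387101423379) (nat_lit 0) (nat_lit 1204757662810) (nat_lit 152) (nat_lit 1204757662810) (nat_lit 214) (nat_lit 1) (nat_lit 211) (nat_lit 1) (nat_lit 213) (nat_lit 1) (nat_lit 207) (nat_lit 350) (nat_lit 343)))))) (XT.nd (nat_lit 390) (nat_lit 532) (nat_lit 0) (XT.nd (nat_lit 156) (nat_lit 228) (nat_lit 0) (XT.nd (nat_lit 78) (nat_lit 0) (nat_lit 0) (XT.lf (nat_lit 228) (nat_lit 2601316694342) (nat_lit 0) (nat_lit 20409959737) (nat_lit 152) (nat_lit 20409959737) (nat_lit 211) (nat_lit 1) (nat_lit 208) (nat_lit 1) (nat_lit 210) (nat_lit 1) (nat_lit 208) (nat_lit 350) (nat_lit 342)) (XT.lf (nat_lit 76) (nat_lit 999442500990) (nat_lit 0) (nat_lit 490673068025) (nat_lit 228) (nat_lit 999442500990)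 (nat_lit 209) (nat_lit 1) (nat_lit 208) (nat_lit 1) (nat_lit 211) (nat_lit 1) (nat_lit 209) (nat_lit 350) (nat_lit 341))) (XT.nd (nat_lit 78) (nat_lit 76) (nat_lit 0) (XT.lf (nat_lit 228) (nat_lit 1452728035175) (nat_lit 0) (nat_lit 450621955676) (nat_lit 152) (nat_lit 450621955676) (nat_lit 209) (nat_lit 1) (nat_lit 206) (nat_lit 1) (nat_lit 208) (nat_lit 1) (nat_lit 210) (nat_lit 350) (nat_lit 340)) (XT.nd (nat_lit 78) (nat_lit 76) (nat_lit 0) (XT.lf (nat_lit 76) (nat_lit 454315704060) (nat_lit 0) (nat_lit 1318416405970) (nat_lit 228) (nat_lit 454315704060) (nat_lit 207) (nat_lit 1) (nat_lit 206) (nat_lit 1) (nat_lit 209) (nat_lit 1) (nat_lit 211) (nat_lit 350) (nat_lit 339)) (XT.lf (nat_lit 152) (nat_lit 375575887880) (nat_lit 0) (nat_lit 866643208668) (nat_lit 76) (nat_lit 866643208668) (nat_lit 207) (nat_lit 1) (nat_lit 205) (nat_lit 1) (nat_lit 206) (nat_lit 1) (nat_lit 212) (nat_lit 350)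 (nat_lit 338))))) (XT.nd (nat_lit 234) (nat_lit 228) (nat_lit 0) (XT.nd (nat_lit 78) (nat_lit 76) (nat_lit 0) (XT.lf (nat_lit 228) (nat_lit 1901385916887) (nat_lit 0) (nat_lit 50512262920) (nat_lit 152) (nat_lit 50512262920) (nat_lit 205) (nat_lit 1) (nat_lit 202) (nat_lit 1) (nat_lit 204) (nat_lit 1) (nat_lit 213) (nat_lit 350) (nat_lit 337)) (XT.nd (nat_lit 78) (nat_lit 76) (nat_lit 0) (XT.lf (nat_lit 76) (nat_lit 665444176918) (nat_lit 0) (nat_lit 565116906320) (nat_lit 228) (nat_lit 665444176918) (nat_lit 203) (nat_lit 1) (nat_lit 202) (nat_lit 1) (nat_lit 205) (nat_lit 1) (nat_lit 214) (nat_lit 350) (nat_lit 336)) (XT.lf (nat_lit 152) (nat_lit 809116384297) (nat_lit 0) (nat_lit 495506067327) (nat_lit 76) (nat_lit 495506067327) (nat_lit 203) (nat_lit 1) (nat_lit 201) (nat_lit 1) (nat_lit 202) (nat_lit 1) (nat_lit 215) (nat_lit 350) (nat_lit 335)))) (XT.nd (nat_lit 78) (nat_lit 228) (nat_lit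 0) (XT.lf (nat_lit 0) (nat_lit 158436138271) (nat_lit 0) (nat_lit 1394859595496) (nat_lit 152) (nat_lit 158436138271) (nat_lit 201) (nat_lit 3) (nat_lit 201) (nat_lit 1) (nat_lit 203) (nat_lit 1) (nat_lit 216) (nat_lit 350) (nat_lit 334)) (XT.nd (nat_lit 78) (nat_lit 76) (nat_lit 0) (XT.lf (nat_lit 76) (nat_lit 733241779739) (nat_lit 0) (nat_lit 159027466339) (nat_lit 152) (nat_lit 733241779739) (nat_lit 200) (nat_lit 1) (nat_lit 199) (nat_lit 1) (nat_lit 201) (nat_lit 1) (nat_lit 217) (nat_lit 350) (nat_lit 333)) (XT.lf (nat_lit 152) (nat_lit 979466789597) (nat_lit 0) (nat_lit 283307202205) (nat_lit 76) (nat_lit 283307202205) (nat_lit 200) (nat_lit 1) (nat_lit 198) (nat_lit 1) (nat_lit 199) (nat_lit 1) (nat_lit 218) (nat_lit 350) (nat_lit 332))))))) (XT.nd (nat_lit 858) (nat_lit 912) (nat_lit 0) (XT.nd (nat_lit 390) (nat_lit 456) (nat_lit 0) (XT.nd (nat_lit 156) (nat_lit 228) (nat_lit 0) (XT.nd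 (nat_lit 78) (nat_lit 76) (nat_lit 0) (XT.lf (nat_lit 0) (nat_lit 254666335263) (nat_lit 0) (nat_lit 961595459859) (nat_lit 152) (nat_lit 254666335263) (nat_lit 198) (nat_lit 3) (nat_lit 198) (nat_lit 1) (nat_lit 200) (nat_lit 1) (nat_lit 219) (nat_lit 350) (nat_lit 331)) (XT.lf (nat_lit 76) (nat_lit 56811508537) (nat_lit 0) (nat_lit 671532486446) (nat_lit 76) (nat_lit 671532486446) (nat_lit 198) (nat_lit 3) (nat_lit 197) (nat_lit 1) (nat_lit 198) (nat_lit 1) (nat_lit 220) (nat_lit 350) (nat_lit 330))) (XT.nd (nat_lit 78) (nat_lit 76) (nat_lit 0) (XT.lf (nat_lit 152) (nat_lit 1009449725305) (nat_lit 0) (nat_lit 161981812360) (nat_lit 76) (nat_lit 161981812360) (nat_lit 197) (nat_lit 1) (nat_lit 195) (nat_lit 1) (nat_lit 196) (nat_lit 1) (nat_lit 221) (nat_lit 350) (nat_lit 329)) (XT.nd (nat_lit 78) (nat_lit 76) (nat_lit 0) (XT.lf (nat_lit 0) (nat_lit 288284528937) (nat_lit 0) (nat_lit 692473550329)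 (nat_lit 152) (nat_lit 288284528937) (nat_lit 195) (nat_lit 3) (nat_lit 195) (nat_lit 1) (nat_lit 197) (nat_lit 1) (nat_lit 222) (nat_lit 350) (nat_lit 328)) (XT.lf (nat_lit 76) (nat_lit 168675015727) (nat_lit 0) (nat_lit 520143729981) (nat_lit 76) (nat_lit 520143729981) (nat_lit 195) (nat_lit 3) (nat_lit 194) (nat_lit 1) (nat_lit 195) (nat_lit 1) (nat_lit 223) (nat_lit 350) (nat_lit 327))))) (XT.nd (nat_lit 234) (nat_lit 228) (nat_lit 0) (XT.nd (nat_lit 78) (nat_lit 76) (nat_lit 0) (XT.lf (nat_lit 152) (nat_lit 967970425752) (nat_lit 0) (nat_lit 92613626944) (nat_lit 76) (nat_lit 92613626944) (nat_lit 194) (nat_lit 1) (nat_lit 192) (nat_lit 1) (nat_lit 193) (nat_lit 1) (nat_lit 224) (nat_lit 350) (nat_lit 326)) (XT.nd (nat_lit 78) (nat_lit 76) (nat_lit 0) (XT.lf (nat_lit 0) (nat_lit 288895636993) (nat_lit 0) (nat_lit 519992021807) (nat_lit 152) (nat_lit 288895636993) (nat_lit 192) (nat_lit 3)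 (nat_lit 192) (nat_lit 1) (nat_lit 194) (nat_lit 1) (nat_lit 225) (nat_lit 350) (nat_lit 325)) (XT.lf (nat_lit 76) (nat_lit 214869054070) (nat_lit 0) (nat_lit 415822432169) (nat_lit 76) (nat_lit 415822432169) (nat_lit 192) (nat_lit 3) (nat_lit 191) (nat_lit 1) (nat_lit 192) (nat_lit 1) (nat_lit 226) (nat_lit 350) (nat_lit 324)))) (XT.nd (nat_lit 78) (nat_lit 76) (nat_lit 0) (XT.lf (nat_lit 152) (nat_lit 893278727384) (nat_lit 0) (nat_lit 52952141791) (nat_lit 76) (nat_lit 52952141791) (nat_lit 191) (nat_lit 1) (nat_lit 189) (nat_lit 1) (nat_lit 190) (nat_lit 1) (nat_lit 227) (nat_lit 350) (nat_lit 323)) (XT.nd (nat_lit 78) (nat_lit 76) (nat_lit 0) (XT.lf (nat_lit 0) (nat_lit 273062254540) (nat_lit 0) (nat_lit 405192362602) (nat_lit 152) (nat_lit 273062254540) (nat_lit 189) (nat_lit 3) (nat_lit 189) (nat_lit 1) (nat_lit 191) (nat_lit 1) (nat_lit 228) (nat_lit 350) (nat_lit 322)) (XT.lf (nat_lit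 76) (nat_lit 225833441109) (nat_lit 0) (nat_lit 340729187250) (nat_lit 76) (nat_lit 340729187250) (nat_lit 189) (nat_lit 3) (nat_lit 188) (nat_lit 1) (nat_lit 189) (nat_lit 1) (nat_lit 229) (nat_lit 350) (nat_lit 321)))))) (XT.nd (nat_lit 468) (nat_lit 456) (nat_lit 0) (XT.nd (nat_lit 234) (nat_lit 228) (nat_lit 0) (XT.nd (nat_lit 78) (nat_lit 76) (nat_lit 0) (XT.lf (nat_lit 152) (nat_lit 806246746229) (nat_lit 0) (nat_lit 30275558930) (nat_lit 76) (nat_lit 30275558930) (nat_lit 188) (nat_lit 1) (nat_lit 186) (nat_lit 1) (nat_lit 187) (nat_lit 1) (nat_lit 230) (nat_lit 350) (nat_lit 320)) (XT.nd (nat_lit 78) (nat_lit 76) (nat_lit 0) (XT.lf (nat_lit 0) (nat_lit 249937479370) (nat_lit 0) (nat_lit 325483297495) (nat_lit 152) (nat_lit 249937479370) (nat_lit 186) (nat_lit 3) (nat_lit 186) (nat_lit 1) (nat_lit 188) (nat_lit 1) (nat_lit 231) (nat_lit 350) (nat_lit 319)) (XT.lf (nat_lit 76) (nat_lit 218670013411)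 (nat_lit 0) (nat_lit 284362029172) (nat_lit 76) (nat_lit 284362029172) (nat_lit 186) (nat_lit 3) (nat_lit 185) (nat_lit 1) (nat_lit 186) (nat_lit 1) (nat_lit 232) (nat_lit 350) (nat_lit 318)))) (XT.nd (nat_lit 78) (nat_lit 76) (nat_lit 0) (XT.lf (nat_lit 152) (nat_lit 717940919669) (nat_lit 0) (nat_lit 17310149080) (nat_lit 76) (nat_lit 17310149080) (nat_lit 185) (nat_lit 1) (nat_lit 183) (nat_lit 1) (nat_lit 184) (nat_lit 1) (nat_lit 233) (nat_lit 350) (nat_lit 317)) (XT.nd (nat_lit 78) (nat_lit 76) (nat_lit 0) (XT.lf (nat_lit 0) (nat_lit 224479303363) (nat_lit 0) (nat_lit 267672870067) (nat_lit 152) (nat_lit 224479303363) (nat_lit 183) (nat_lit 3) (nat_lit 183) (nat_lit 1) (nat_lit 185) (nat_lit 1) (nat_lit 234) (nat_lit 350) (nat_lit 316)) (XT.lf (nat_lit 76) (nat_lit 202893994658) (nat_lit 0) (nat_lit 240453617879) (nat_lit 76) (nat_lit 240453617879) (nat_lit 183) (nat_lit 3) (nat_lit 182)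 (nat_lit 1) (nat_lit 183) (nat_lit 1) (nat_lit 235) (nat_lit 350) (nat_lit 315))))) (XT.nd (nat_lit 234) (nat_lit 228) (nat_lit 0) (XT.nd (nat_lit 78) (nat_lit 76) (nat_lit 0) (XT.lf (nat_lit 152) (nat_lit 633934377715) (nat_lit 0) (nat_lit 9897133918) (nat_lit 76) (nat_lit 9897133918) (nat_lit 182) (nat_lit 1) (nat_lit 180) (nat_lit 1) (nat_lit 181) (nat_lit 1) (nat_lit 236) (nat_lit 350) (nat_lit 314)) (XT.nd (nat_lit 78) (nat_lit 76) (nat_lit 0) (XT.lf (nat_lit 0) (nat_lit 199283064473) (nat_lit 0) (nat_lit 223979126424) (nat_lit 152) (nat_lit 199283064473) (nat_lit 180) (nat_lit 3) (nat_lit 180) (nat_lit 1) (nat_lit 182) (nat_lit 1) (nat_lit 237) (nat_lit 350) (nat_lit 313)) (XT.lf (nat_lit 76) (nat_lit 183717217154) (nat_lit 0) (nat_lit 205192053634) (nat_lit 76) (nat_lit 205192053634) (nat_lit 180) (nat_lit 3) (nat_lit 179) (nat_lit 1) (nat_lit 180) (nat_lit 1) (nat_lit 238) (nat_lit 350)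 (nat_lit 312)))) (XT.nd (nat_lit 78) (nat_lit 76) (nat_lit 0) (XT.lf (nat_lit 152) (nat_lit 556757800344) (nat_lit 0) (nat_lit 5658718439) (nat_lit 76) (nat_lit 5658718439) (nat_lit 179) (nat_lit 1) (nat_lit 177) (nat_lit 1) (nat_lit 178) (nat_lit 1) (nat_lit 239) (nat_lit 350) (nat_lit 311)) (XT.nd (nat_lit 78) (nat_lit 76) (nat_lit 0) (XT.lf (nat_lit 0) (nat_lit 175624472996) (nat_lit 0) (nat_lit 189744526571) (nat_lit 152) (nat_lit 175624472996) (nat_lit 177) (nat_lit 3) (nat_lit 177) (nat_lit 1) (nat_lit 179) (nat_lit 1) (nat_lit 240) (nat_lit 350) (nat_lit 310)) (XT.lf (nat_lit 76) (nat_lit 163920843177) (nat_lit 0) (nat_lit 176199150633) (nat_lit 76) (nat_lit 176199150633) (nat_lit 177) (nat_lit 3) (nat_lit 176) (nat_lit 1) (nat_lit 177) (nat_lit 1) (nat_lit 241) (nat_lit 350) (nat_lit 309))))))))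
noncomputable def ec159 : XT := (XT.nd (nat_lit 1716) (nat_lit 1672) (nat_lit 0) (XT.nd (nat_lit 858) (nat_lit 912) (nat_lit 0) (XT.nd (nat_lit 390) (nat_lit 456) (nat_lit 0) (XT.nd (nat_lit 156) (nat_lit 228) (nat_lit 0) (XT.nd (nat_lit 78) (nat_lit 0) (nat_lit 0) (XT.lf (nat_lit 152) (nat_lit 487287872740) (nat_lit 0) (nat_lit 3235390633) (nat_lit 76) (nat_lit 3235390633) (nat_lit 176) (nat_lit 1) (nat_lit 174) (nat_lit 1) (nat_lit 175) (nat_lit 1) (nat_lit 242) (nat_lit 350) (nat_lit 308)) (XT.lf (nat_lit 0) (nat_lit 154051892087) (nat_lit 0) (nat_lit 162125078546) (nat_lit 152) (nat_lit 154051892087) (nat_lit 174) (nat_lit 3) (nat_lit 174) (nat_lit 1) (nat_lit 176) (nat_lit 1) (nat_lit 243) (nat_lit 350) (nat_lit 307))) (XT.nd (nat_lit 78) (nat_lit 152) (nat_lit 0) (XT.lf (nat_lit 76) (nat_lit 144922211496) (nat_lit 0) (nat_lit 151942373634) (nat_lit 76) (nat_lit 151942373634) (nat_lit 174)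 (nat_lit 3) (nat_lit 173) (nat_lit 1) (nat_lit 174) (nat_lit 1) (nat_lit 244) (nat_lit 350) (nat_lit 306)) (XT.nd (nat_lit 78) (nat_lit 0) (nat_lit 0) (XT.lf (nat_lit 152) (nat_lit 425529982242) (nat_lit 0) (nat_lit 1849845095) (nat_lit 76) (nat_lit 1849845095) (nat_lit 173) (nat_lit 1) (nat_lit 171) (nat_lit 1) (nat_lit 172) (nat_lit 1) (nat_lit 245) (nat_lit 350) (nat_lit 305)) (XT.lf (nat_lit 0) (nat_lit 134721434200) (nat_lit 0) (nat_lit 139337304760) (nat_lit 152) (nat_lit 134721434200) (nat_lit 171) (nat_lit 3) (nat_lit 171) (nat_lit 1) (nat_lit 173) (nat_lit 1) (nat_lit 246) (nat_lit 350) (nat_lit 304))))) (XT.nd (nat_lit 234) (nat_lit 228) (nat_lit 0) (XT.nd (nat_lit 78) (nat_lit 152) (nat_lit 0) (XT.lf (nat_lit 76) (nat_lit 127381429467) (nat_lit 0) (nat_lit 131395229954) (nat_lit 76) (nat_lit 131395229954) (nat_lit 171) (nat_lit 3) (nat_lit 170) (nat_lit 1) (nat_lit 171) (nat_lit 1) (nat_lit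 247) (nat_lit 350) (nat_lit 303)) (XT.nd (nat_lit 78) (nat_lit 0) (nat_lit 0) (XT.lf (nat_lit 152) (nat_lit 371056026239) (nat_lit 0) (nat_lit 1057654937) (nat_lit 76) (nat_lit 1057654937) (nat_lit 170) (nat_lit 1) (nat_lit 168) (nat_lit 1) (nat_lit 169) (nat_lit 1) (nat_lit 248) (nat_lit 350) (nat_lit 302)) (XT.lf (nat_lit 0) (nat_lit 117585473697) (nat_lit 0) (nat_lit 120224612671) (nat_lit 152) (nat_lit 117585473697) (nat_lit 168) (nat_lit 3) (nat_lit 168) (nat_lit 1) (nat_lit 170) (nat_lit 1) (nat_lit 249) (nat_lit 350) (nat_lit 301)))) (XT.nd (nat_lit 78) (nat_lit 152) (nat_lit 0) (XT.lf (nat_lit 76) (nat_lit 111545254149) (nat_lit 0) (nat_lit 113840157605) (nat_lit 76) (nat_lit 113840157605) (nat_lit 168) (nat_lit 3) (nat_lit 167) (nat_lit 1) (nat_lit 168) (nat_lit 1) (nat_lit 250) (nat_lit 350) (nat_lit 300)) (XT.nd (nat_lit 78) (nat_lit 0) (nat_lit 0) (XT.lf (nat_lit 152) (nat_lit 323246294078)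 (nat_lit 0) (nat_lit 604717643) (nat_lit 76) (nat_lit 604717643) (nat_lit 167) (nat_lit 1) (nat_lit 165) (nat_lit 1) (nat_lit 166) (nat_lit 1) (nat_lit 251) (nat_lit 350) (nat_lit 299)) (XT.lf (nat_lit 0) (nat_lit 102497751389) (nat_lit 0) (nat_lit 104006687663) (nat_lit 152) (nat_lit 102497751389) (nat_lit 165) (nat_lit 3) (nat_lit 165) (nat_lit 1) (nat_lit 167) (nat_lit 1) (nat_lit 252) (nat_lit 350) (nat_lit 298)))))) (XT.nd (nat_lit 390) (nat_lit 456) (nat_lit 0) (XT.nd (nat_lit 156) (nat_lit 228) (nat_lit 0) (XT.nd (nat_lit 78) (nat_lit 152) (nat_lit 0) (XT.lf (nat_lit 76) (nat_lit 97441151023) (nat_lit 0) (nat_lit 98753269522) (nat_lit 76) (nat_lit 98753269522) (nat_lit 165) (nat_lit 3) (nat_lit 164) (nat_lit 1) (nat_lit 165) (nat_lit 1) (nat_lit 253) (nat_lit 350) (nat_lit 297)) (XT.lf (nat_lit 152) (nat_lit 281420428007) (nat_lit 0) (nat_lit 345749275) (nat_lit 76) (nat_lit 345749275) (nat_lit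 164) (nat_lit 1) (nat_lit 162) (nat_lit 1) (nat_lit 163) (nat_lit 1) (nat_lit 254) (nat_lit 350) (nat_lit 296))) (XT.nd (nat_lit 78) (nat_lit 228) (nat_lit 0) (XT.lf (nat_lit 0) (nat_lit 89271139560) (nat_lit 0) (nat_lit 90133878772) (nat_lit 152) (nat_lit 89271139560) (nat_lit 162) (nat_lit 3) (nat_lit 162) (nat_lit 1) (nat_lit 164) (nat_lit 1) (nat_lit 255) (nat_lit 350) (nat_lit 295)) (XT.nd (nat_lit 78) (nat_lit 152) (nat_lit 0) (XT.lf (nat_lit 76) (nat_lit 84986024728) (nat_lit 0) (nat_lit 85736232738) (nat_lit 76) (nat_lit 85736232738) (nat_lit 162) (nat_lit 3) (nat_lit 161) (nat_lit 1) (nat_lit 162) (nat_lit 1) (nat_lit 256) (nat_lit 350) (nat_lit 294)) (XT.lf (nat_lit 152) (nat_lit 244905921560) (nat_lit 0) (nat_lit 197683270) (nat_lit 76) (nat_lit 197683270) (nat_lit 161) (nat_lit 1) (nat_lit 159) (nat_lit 1) (nat_lit 160) (nat_lit 1) (nat_lit 257) (nat_lit 350) (nat_lit 293))))) (XT.nd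 (nat_lit 234) (nat_lit 228) (nat_lit 0) (XT.nd (nat_lit 78) (nat_lit 228) (nat_lit 0) (XT.lf (nat_lit 0) (nat_lit 77708644248) (nat_lit 0) (nat_lit 78201918192) (nat_lit 152) (nat_lit 77708644248) (nat_lit 159) (nat_lit 3) (nat_lit 159) (nat_lit 1) (nat_lit 161) (nat_lit 1) (nat_lit 258) (nat_lit 350) (nat_lit 292)) (XT.nd (nat_lit 78) (nat_lit 152) (nat_lit 0) (XT.lf (nat_lit 76) (nat_lit 74046453187) (nat_lit 0) (nat_lit 74475387052) (nat_lit 76) (nat_lit 74475387052) (nat_lit 159) (nat_lit 3) (nat_lit 158) (nat_lit 1) (nat_lit 159) (nat_lit 1) (nat_lit 259) (nat_lit 350) (nat_lit 291)) (XT.lf (nat_lit 152) (nat_lit 213071736797) (nat_lit 0) (nat_lit 113026051) (nat_lit 76) (nat_lit 113026051) (nat_lit 158) (nat_lit 1) (nat_lit 156) (nat_lit 1) (nat_lit 157) (nat_lit 1) (nat_lit 260) (nat_lit 350) (nat_lit 290)))) (XT.nd (nat_lit 78) (nat_lit 228) (nat_lit 0) (XT.lf (nat_lit 0) (nat_lit 67619369965)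 (nat_lit 0) (nat_lit 67901400944) (nat_lit 152) (nat_lit 67619369965) (nat_lit 156) (nat_lit 3) (nat_lit 156) (nat_lit 1) (nat_lit 158) (nat_lit 1) (nat_lit 261) (nat_lit 350) (nat_lit 289)) (XT.nd (nat_lit 78) (nat_lit 152) (nat_lit 0) (XT.lf (nat_lit 76) (nat_lit 64471445776) (nat_lit 0) (nat_lit 64716690106) (nat_lit 76) (nat_lit 64716690106) (nat_lit 156) (nat_lit 3) (nat_lit 155) (nat_lit 1) (nat_lit 156) (nat_lit 1) (nat_lit 262) (nat_lit 350) (nat_lit 288)) (XT.lf (nat_lit 152) (nat_lit 185342701648) (nat_lit 0) (nat_lit 64623011) (nat_lit 76) (nat_lit 64623011) (nat_lit 155) (nat_lit 1) (nat_lit 153) (nat_lit 1) (nat_lit 154) (nat_lit 1) (nat_lit 263) (nat_lit 350) (nat_lit 287))))))) (XT.nd (nat_lit 858) (nat_lit 912) (nat_lit 0) (XT.nd (nat_lit 390) (nat_lit 456) (nat_lit 0) (XT.nd (nat_lit 156) (nat_lit 228) (nat_lit 0) (XT.nd (nat_lit 78) (nat_lit 76) (nat_lit 0) (XT.lf (nat_lit 0)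 (nat_lit 58826116335) (nat_lit 0) (nat_lit 58987368462) (nat_lit 152) (nat_lit 58826116335) (nat_lit 153) (nat_lit 3) (nat_lit 153) (nat_lit 1) (nat_lit 155) (nat_lit 1) (nat_lit 264) (nat_lit 350) (nat_lit 286)) (XT.lf (nat_lit 76) (nat_lit 56109711277) (nat_lit 0) (nat_lit 56249930518) (nat_lit 76) (nat_lit 56249930518) (nat_lit 153) (nat_lit 3) (nat_lit 152) (nat_lit 1) (nat_lit 153) (nat_lit 1) (nat_lit 265) (nat_lit 350) (nat_lit 285))) (XT.nd (nat_lit 78) (nat_lit 76) (nat_lit 0) (XT.lf (nat_lit 152) (nat_lit 161203547380) (nat_lit 0) (nat_lit 36948416) (nat_lit 76) (nat_lit 36948416) (nat_lit 152) (nat_lit 1) (nat_lit 150) (nat_lit 1) (nat_lit 151) (nat_lit 1) (nat_lit 266) (nat_lit 350) (nat_lit 284)) (XT.nd (nat_lit 78) (nat_lit 76) (nat_lit 0) (XT.lf (nat_lit 0) (nat_lit 51168389977) (nat_lit 0) (nat_lit 51260586404) (nat_lit 152) (nat_lit 51168389977) (nat_lit 150) (nat_lit 3) (nat_lit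 150) (nat_lit 1) (nat_lit 152) (nat_lit 1) (nat_lit 267) (nat_lit 350) (nat_lit 283)) (XT.lf (nat_lit 76) (nat_lit 48818259885) (nat_lit 0) (nat_lit 48898430691) (nat_lit 76) (nat_lit 48898430691) (nat_lit 150) (nat_lit 3) (nat_lit 149) (nat_lit 1) (nat_lit 150) (nat_lit 1) (nat_lit 268) (nat_lit 350) (nat_lit 282))))) (XT.nd (nat_lit 234) (nat_lit 228) (nat_lit 0) (XT.nd (nat_lit 78) (nat_lit 76) (nat_lit 0) (XT.lf (nat_lit 152) (nat_lit 140197569821) (nat_lit 0) (nat_lit 21125377) (nat_lit 76) (nat_lit 21125377) (nat_lit 149) (nat_lit 1) (nat_lit 147) (nat_lit 1) (nat_lit 148) (nat_lit 1) (nat_lit 269) (nat_lit 350) (nat_lit 281)) (XT.nd (nat_lit 78) (nat_lit 76) (nat_lit 0) (XT.lf (nat_lit 0) (nat_lit 44502968725) (nat_lit 0) (nat_lit 44555682331) (nat_lit 152) (nat_lit 44502968725) (nat_lit 147) (nat_lit 3) (nat_lit 147) (nat_lit 1) (nat_lit 149) (nat_lit 1) (nat_lit 270) (nat_lit 350) (nat_lit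 280)) (XT.lf (nat_lit 76) (nat_lit 42466216232) (nat_lit 0) (nat_lit 42512054150) (nat_lit 76) (nat_lit 42512054150) (nat_lit 147) (nat_lit 3) (nat_lit 146) (nat_lit 1) (nat_lit 147) (nat_lit 1) (nat_lit 271) (nat_lit 350) (nat_lit 279)))) (XT.nd (nat_lit 78) (nat_lit 76) (nat_lit 0) (XT.lf (nat_lit 152) (nat_lit 121922692443) (nat_lit 0) (nat_lit 12078502) (nat_lit 76) (nat_lit 12078502) (nat_lit 146) (nat_lit 1) (nat_lit 144) (nat_lit 1) (nat_lit 145) (nat_lit 1) (nat_lit 272) (nat_lit 350) (nat_lit 278)) (XT.nd (nat_lit 78) (nat_lit 76) (nat_lit 0) (XT.lf (nat_lit 0) (nat_lit 38703217402) (nat_lit 0) (nat_lit 38733356577) (nat_lit 152) (nat_lit 38703217402) (nat_lit 144) (nat_lit 3) (nat_lit 144) (nat_lit 1) (nat_lit 146) (nat_lit 1) (nat_lit 273) (nat_lit 350) (nat_lit 277)) (XT.lf (nat_lit 76) (nat_lit 36936038435) (nat_lit 0) (nat_lit 36962246414) (nat_lit 76) (nat_lit 36962246414) (nat_lit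 144) (nat_lit 3) (nat_lit 143) (nat_lit 1) (nat_lit 144) (nat_lit 1) (nat_lit 274) (nat_lit 350) (nat_lit 276)))))) (XT.nd (nat_lit 468) (nat_lit 456) (nat_lit 0) (XT.nd (nat_lit 234) (nat_lit 228) (nat_lit 0) (XT.nd (nat_lit 78) (nat_lit 76) (nat_lit 0) (XT.lf (nat_lit 152) (nat_lit 106026457615) (nat_lit 0) (nat_lit 6905923) (nat_lit 76) (nat_lit 6905923) (nat_lit 143) (nat_lit 1) (nat_lit 141) (nat_lit 1) (nat_lit 142) (nat_lit 1) (nat_lit 275) (nat_lit 350) (nat_lit 275)) (XT.nd (nat_lit 78) (nat_lit 76) (nat_lit 0) (XT.lf (nat_lit 0) (nat_lit 33657821116) (nat_lit 0) (nat_lit 33675053288) (nat_lit 152) (nat_lit 33657821116) (nat_lit 141) (nat_lit 3) (nat_lit 141) (nat_lit 1) (nat_lit 143) (nat_lit 1) (nat_lit 276) (nat_lit 350) (nat_lit 274)) (XT.lf (nat_lit 76) (nat_lit 32123379400) (nat_lit 0) (nat_lit 32138363897) (nat_lit 76) (nat_lit 32138363897) (nat_lit 141) (nat_lit 3) (nat_lit 140)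 (nat_lit 1) (nat_lit 141) (nat_lit 1) (nat_lit 277) (nat_lit 350) (nat_lit 273)))) (XT.nd (nat_lit 78) (nat_lit 76) (nat_lit 0) (XT.lf (nat_lit 152) (nat_lit 92200764737) (nat_lit 0) (nat_lit 3948484) (nat_lit 76) (nat_lit 3948484) (nat_lit 140) (nat_lit 1) (nat_lit 138) (nat_lit 1) (nat_lit 139) (nat_lit 1) (nat_lit 278) (nat_lit 350) (nat_lit 272)) (XT.nd (nat_lit 78) (nat_lit 76) (nat_lit 0) (XT.lf (nat_lit 0) (nat_lit 29269299725) (nat_lit 0) (nat_lit 29279152275) (nat_lit 152) (nat_lit 29269299725) (nat_lit 138) (nat_lit 3) (nat_lit 138) (nat_lit 1) (nat_lit 140) (nat_lit 1) (nat_lit 279) (nat_lit 350) (nat_lit 271)) (XT.lf (nat_lit 76) (nat_lit 27936280818) (nat_lit 0) (nat_lit 27944848253) (nat_lit 76) (nat_lit 27944848253) (nat_lit 138) (nat_lit 3) (nat_lit 137) (nat_lit 1) (nat_lit 138) (nat_lit 1) (nat_lit 280) (nat_lit 350) (nat_lit 270))))) (XT.nd (nat_lit 234) (nat_lit 228) (nat_lit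 0) (XT.nd (nat_lit 78) (nat_lit 76) (nat_lit 0) (XT.lf (nat_lit 152) (nat_lit 80176776465) (nat_lit 0) (nat_lit 2257558) (nat_lit 76) (nat_lit 2257558) (nat_lit 137) (nat_lit 1) (nat_lit 135) (nat_lit 1) (nat_lit 136) (nat_lit 1) (nat_lit 281) (nat_lit 350) (nat_lit 269)) (XT.nd (nat_lit 78) (nat_lit 76) (nat_lit 0) (XT.lf (nat_lit 0) (nat_lit 25452496473) (nat_lit 0) (nat_lit 25458129700) (nat_lit 152) (nat_lit 25452496473) (nat_lit 135) (nat_lit 3) (nat_lit 135) (nat_lit 1) (nat_lit 137) (nat_lit 1) (nat_lit 282) (nat_lit 350) (nat_lit 268)) (XT.lf (nat_lit 76) (nat_lit 24294080434) (nat_lit 0) (nat_lit 24298978892) (nat_lit 76) (nat_lit 24298978892) (nat_lit 135) (nat_lit 3) (nat_lit 134) (nat_lit 1) (nat_lit 135) (nat_lit 1) (nat_lit 283) (nat_lit 350) (nat_lit 267)))) (XT.nd (nat_lit 78) (nat_lit 76) (nat_lit 0) (XT.lf (nat_lit 152) (nat_lit 69720193018) (nat_lit 0) (nat_lit 1290766) (nat_lit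 76) (nat_lit 1290766) (nat_lit 134) (nat_lit 1) (nat_lit 132) (nat_lit 1) (nat_lit 133) (nat_lit 1) (nat_lit 284) (nat_lit 350) (nat_lit 266)) (XT.nd (nat_lit 78) (nat_lit 76) (nat_lit 0) (XT.lf (nat_lit 0) (nat_lit 22133138213) (nat_lit 0) (nat_lit 22136359030) (nat_lit 152) (nat_lit 22133138213) (nat_lit 132) (nat_lit 3) (nat_lit 132) (nat_lit 1) (nat_lit 134) (nat_lit 1) (nat_lit 285) (nat_lit 350) (nat_lit 265)) (XT.lf (nat_lit 76) (nat_lit 21126237777) (nat_lit 0) (nat_lit 21129038486) (nat_lit 76) (nat_lit 21129038486) (nat_lit 132) (nat_lit 3) (nat_lit 131) (nat_lit 1) (nat_lit 132) (nat_lit 1) (nat_lit 286) (nat_lit 350) (nat_lit 264))))))))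
noncomputable def ec160 : XT := (XT.nd (nat_lit 1716) (nat_lit 1596) (nat_lit 0) (XT.nd (nat_lit 858) (nat_lit 912) (nat_lit 0) (XT.nd (nat_lit 390) (nat_lit 456) (nat_lit 0) (XT.nd (nat_lit 156) (nat_lit 228) (nat_lit 0) (XT.nd (nat_lit 78) (nat_lit 0) (nat_lit 0) (XT.lf (nat_lit 152) (nat_lit 60626973469) (nat_lit 0) (nat_lit 737999) (nat_lit 76) (nat_lit 737999) (nat_lit 131) (nat_lit 1) (nat_lit 129) (nat_lit 1) (nat_lit 130) (nat_lit 1) (nat_lit 287) (nat_lit 350) (nat_lit 263)) (XT.lf (nat_lit 0) (nat_lit 19246511649) (nat_lit 0) (nat_lit 19248353161) (nat_lit 152) (nat_lit 19246511649) (nat_lit 129) (nat_lit 3) (nat_lit 129) (nat_lit 1) (nat_lit 131) (nat_lit 1) (nat_lit 288) (nat_lit 350) (nat_lit 262))) (XT.nd (nat_lit 78) (nat_lit 152) (nat_lit 0) (XT.lf (nat_lit 76) (nat_lit 18371184964) (nat_lit 0) (nat_lit 18372786279) (nat_lit 76) (nat_lit 18372786279) (nat_lit 129) (nat_lit 3) (nat_lit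 128) (nat_lit 1) (nat_lit 129) (nat_lit 1) (nat_lit 289) (nat_lit 350) (nat_lit 261)) (XT.nd (nat_lit 78) (nat_lit 0) (nat_lit 0) (XT.lf (nat_lit 152) (nat_lit 52719518267) (nat_lit 0) (nat_lit 421953) (nat_lit 76) (nat_lit 421953) (nat_lit 128) (nat_lit 1) (nat_lit 126) (nat_lit 1) (nat_lit 127) (nat_lit 1) (nat_lit 290) (nat_lit 350) (nat_lit 260)) (XT.lf (nat_lit 0) (nat_lit 16736271189) (nat_lit 0) (nat_lit 16737324080) (nat_lit 152) (nat_lit 16736271189) (nat_lit 126) (nat_lit 3) (nat_lit 126) (nat_lit 1) (nat_lit 128) (nat_lit 1) (nat_lit 291) (nat_lit 350) (nat_lit 259))))) (XT.nd (nat_lit 234) (nat_lit 228) (nat_lit 0) (XT.nd (nat_lit 78) (nat_lit 152) (nat_lit 0) (XT.lf (nat_lit 76) (nat_lit 15975254148) (nat_lit 0) (nat_lit 15976169705) (nat_lit 76) (nat_lit 15976169705) (nat_lit 126) (nat_lit 3) (nat_lit 125) (nat_lit 1) (nat_lit 126) (nat_lit 1) (nat_lit 292) (nat_lit 350) (nat_lit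 258)) (XT.nd (nat_lit 78) (nat_lit 0) (nat_lit 0) (XT.lf (nat_lit 152) (nat_lit 45843294298) (nat_lit 0) (nat_lit 241253) (nat_lit 76) (nat_lit 241253) (nat_lit 125) (nat_lit 1) (nat_lit 123) (nat_lit 1) (nat_lit 124) (nat_lit 1) (nat_lit 293) (nat_lit 350) (nat_lit 257)) (XT.lf (nat_lit 0) (nat_lit 14553378839) (nat_lit 0) (nat_lit 14553980832) (nat_lit 152) (nat_lit 14553378839) (nat_lit 123) (nat_lit 3) (nat_lit 123) (nat_lit 1) (nat_lit 125) (nat_lit 1) (nat_lit 294) (nat_lit 350) (nat_lit 256)))) (XT.nd (nat_lit 78) (nat_lit 152) (nat_lit 0) (XT.lf (nat_lit 76) (nat_lit 13891702991) (nat_lit 0) (nat_lit 13892226463) (nat_lit 76) (nat_lit 13892226463) (nat_lit 123) (nat_lit 3) (nat_lit 122) (nat_lit 1) (nat_lit 123) (nat_lit 1) (nat_lit 295) (nat_lit 350) (nat_lit 255)) (XT.nd (nat_lit 78) (nat_lit 0) (nat_lit 0) (XT.lf (nat_lit 152) (nat_lit 39863868497) (nat_lit 0) (nat_lit 137937) (nat_lit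 76) (nat_lit 137937) (nat_lit 122) (nat_lit 1) (nat_lit 120) (nat_lit 1) (nat_lit 121) (nat_lit 1) (nat_lit 296) (nat_lit 350) (nat_lit 254)) (XT.lf (nat_lit 0) (nat_lit 12655168948) (nat_lit 0) (nat_lit 12655513140) (nat_lit 152) (nat_lit 12655168948) (nat_lit 120) (nat_lit 3) (nat_lit 120) (nat_lit 1) (nat_lit 122) (nat_lit 1) (nat_lit 297) (nat_lit 350) (nat_lit 253)))))) (XT.nd (nat_lit 390) (nat_lit 456) (nat_lit 0) (XT.nd (nat_lit 156) (nat_lit 228) (nat_lit 0) (XT.nd (nat_lit 78) (nat_lit 152) (nat_lit 0) (XT.lf (nat_lit 76) (nat_lit 12079843300) (nat_lit 0) (nat_lit 12080142597) (nat_lit 76) (nat_lit 12080142597) (nat_lit 120) (nat_lit 3) (nat_lit 119) (nat_lit 1) (nat_lit 120) (nat_lit 1) (nat_lit 298) (nat_lit 350) (nat_lit 252)) (XT.lf (nat_lit 152) (nat_lit 34664310276) (nat_lit 0) (nat_lit 78866) (nat_lit 76) (nat_lit 78866) (nat_lit 119) (nat_lit 1) (nat_lit 117) (nat_lit 1) (nat_lit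 118) (nat_lit 1) (nat_lit 299) (nat_lit 350) (nat_lit 251))) (XT.nd (nat_lit 78) (nat_lit 228) (nat_lit 0) (XT.lf (nat_lit 0) (nat_lit 11004527279) (nat_lit 0) (nat_lit 11004724071) (nat_lit 152) (nat_lit 11004527279) (nat_lit 117) (nat_lit 3) (nat_lit 117) (nat_lit 1) (nat_lit 119) (nat_lit 1) (nat_lit 300) (nat_lit 350) (nat_lit 250)) (XT.nd (nat_lit 78) (nat_lit 152) (nat_lit 0) (XT.lf (nat_lit 76) (nat_lit 10504269637) (nat_lit 0) (nat_lit 10504440762) (nat_lit 76) (nat_lit 10504440762) (nat_lit 117) (nat_lit 3) (nat_lit 116) (nat_lit 1) (nat_lit 117) (nat_lit 1) (nat_lit 301) (nat_lit 350) (nat_lit 249)) (XT.lf (nat_lit 152) (nat_lit 30142922412) (nat_lit 0) (nat_lit 45091) (nat_lit 76) (nat_lit 45091) (nat_lit 116) (nat_lit 1) (nat_lit 114) (nat_lit 1) (nat_lit 115) (nat_lit 1) (nat_lit 302) (nat_lit 350) (nat_lit 248))))) (XT.nd (nat_lit 234) (nat_lit 228) (nat_lit 0) (XT.nd (nat_lit 78)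 (nat_lit 228) (nat_lit 0) (XT.lf (nat_lit 0) (nat_lit 9569172761) (nat_lit 0) (nat_lit 9569285278) (nat_lit 152) (nat_lit 9569172761) (nat_lit 114) (nat_lit 3) (nat_lit 114) (nat_lit 1) (nat_lit 116) (nat_lit 1) (nat_lit 303) (nat_lit 350) (nat_lit 247)) (XT.nd (nat_lit 78) (nat_lit 152) (nat_lit 0) (XT.lf (nat_lit 76) (nat_lit 9134180714) (nat_lit 0) (nat_lit 9134278555) (nat_lit 76) (nat_lit 9134278555) (nat_lit 114) (nat_lit 3) (nat_lit 113) (nat_lit 1) (nat_lit 114) (nat_lit 1) (nat_lit 304) (nat_lit 350) (nat_lit 246)) (XT.lf (nat_lit 152) (nat_lit 26211261986) (nat_lit 0) (nat_lit 25781) (nat_lit 76) (nat_lit 25781) (nat_lit 113) (nat_lit 1) (nat_lit 111) (nat_lit 1) (nat_lit 112) (nat_lit 1) (nat_lit 305) (nat_lit 350) (nat_lit 245)))) (XT.nd (nat_lit 78) (nat_lit 228) (nat_lit 0) (XT.lf (nat_lit 0) (nat_lit 8321030430) (nat_lit 0) (nat_lit 8321094762) (nat_lit 152) (nat_lit 8321030430)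 (nat_lit 111) (nat_lit 3) (nat_lit 111) (nat_lit 1) (nat_lit 113) (nat_lit 1) (nat_lit 306) (nat_lit 350) (nat_lit 244)) (XT.nd (nat_lit 78) (nat_lit 152) (nat_lit 0) (XT.lf (nat_lit 76) (nat_lit 7942784822) (nat_lit 0) (nat_lit 7942840763) (nat_lit 76) (nat_lit 7942840763) (nat_lit 111) (nat_lit 3) (nat_lit 110) (nat_lit 1) (nat_lit 111) (nat_lit 1) (nat_lit 307) (nat_lit 350) (nat_lit 243)) (XT.lf (nat_lit 152) (nat_lit 22792416082) (nat_lit 0) (nat_lit 14740) (nat_lit 76) (nat_lit 14740) (nat_lit 110) (nat_lit 1) (nat_lit 108) (nat_lit 1) (nat_lit 109) (nat_lit 1) (nat_lit 308) (nat_lit 350) (nat_lit 242))))))) (XT.nd (nat_lit 858) (nat_lit 836) (nat_lit 0) (XT.nd (nat_lit 390) (nat_lit 456) (nat_lit 0) (XT.nd (nat_lit 156) (nat_lit 228) (nat_lit 0) (XT.nd (nat_lit 78) (nat_lit 76) (nat_lit 0) (XT.lf (nat_lit 0) (nat_lit 7235684717) (nat_lit 0) (nat_lit 7235721499) (nat_lit 152) (nat_lit 7235684717)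 (nat_lit 108) (nat_lit 3) (nat_lit 108) (nat_lit 1) (nat_lit 110) (nat_lit 1) (nat_lit 309) (nat_lit 350) (nat_lit 241)) (XT.lf (nat_lit 76) (nat_lit 6906780264) (nat_lit 0) (nat_lit 6906812249) (nat_lit 76) (nat_lit 6906812249) (nat_lit 108) (nat_lit 3) (nat_lit 107) (nat_lit 1) (nat_lit 108) (nat_lit 1) (nat_lit 310) (nat_lit 350) (nat_lit 240))) (XT.nd (nat_lit 78) (nat_lit 76) (nat_lit 0) (XT.lf (nat_lit 152) (nat_lit 19819500452) (nat_lit 0) (nat_lit 8428) (nat_lit 76) (nat_lit 8428) (nat_lit 107) (nat_lit 1) (nat_lit 105) (nat_lit 1) (nat_lit 106) (nat_lit 1) (nat_lit 311) (nat_lit 350) (nat_lit 239)) (XT.nd (nat_lit 78) (nat_lit 76) (nat_lit 0) (XT.lf (nat_lit 0) (nat_lit 6291903231) (nat_lit 0) (nat_lit 6291924261) (nat_lit 152) (nat_lit 6291903231) (nat_lit 105) (nat_lit 3) (nat_lit 105) (nat_lit 1) (nat_lit 107) (nat_lit 1) (nat_lit 312) (nat_lit 350) (nat_lit 238)) (XT.lf (nat_lit 76)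 (nat_lit 6005902088) (nat_lit 0) (nat_lit 6005920375) (nat_lit 76) (nat_lit 6005920375) (nat_lit 105) (nat_lit 3) (nat_lit 104) (nat_lit 1) (nat_lit 105) (nat_lit 1) (nat_lit 313) (nat_lit 350) (nat_lit 237))))) (XT.nd (nat_lit 234) (nat_lit 228) (nat_lit 0) (XT.nd (nat_lit 78) (nat_lit 76) (nat_lit 0) (XT.lf (nat_lit 152) (nat_lit 17234352912) (nat_lit 0) (nat_lit 4818) (nat_lit 76) (nat_lit 4818) (nat_lit 104) (nat_lit 1) (nat_lit 102) (nat_lit 1) (nat_lit 103) (nat_lit 1) (nat_lit 314) (nat_lit 350) (nat_lit 236)) (XT.nd (nat_lit 78) (nat_lit 76) (nat_lit 0) (XT.lf (nat_lit 0) (nat_lit 5471222189) (nat_lit 0) (nat_lit 5471234213) (nat_lit 152) (nat_lit 5471222189) (nat_lit 102) (nat_lit 3) (nat_lit 102) (nat_lit 1) (nat_lit 104) (nat_lit 1) (nat_lit 315) (nat_lit 350) (nat_lit 235)) (XT.lf (nat_lit 76) (nat_lit 5222527103) (nat_lit 0) (nat_lit 5222537559) (nat_lit 76) (nat_lit 5222537559) (nat_lit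 102) (nat_lit 3) (nat_lit 101) (nat_lit 1) (nat_lit 102) (nat_lit 1) (nat_lit 316) (nat_lit 350) (nat_lit 234)))) (XT.nd (nat_lit 78) (nat_lit 76) (nat_lit 0) (XT.lf (nat_lit 152) (nat_lit 14986396519) (nat_lit 0) (nat_lit 2755) (nat_lit 76) (nat_lit 2755) (nat_lit 101) (nat_lit 1) (nat_lit 99) (nat_lit 1) (nat_lit 100) (nat_lit 1) (nat_lit 317) (nat_lit 350) (nat_lit 233)) (XT.nd (nat_lit 78) (nat_lit 76) (nat_lit 0) (XT.lf (nat_lit 0) (nat_lit 4757585649) (nat_lit 0) (nat_lit 4757592524) (nat_lit 152) (nat_lit 4757585649) (nat_lit 99) (nat_lit 3) (nat_lit 99) (nat_lit 1) (nat_lit 101) (nat_lit 1) (nat_lit 318) (nat_lit 350) (nat_lit 232)) (XT.lf (nat_lit 76) (nat_lit 4541329944) (nat_lit 0) (nat_lit 4541335922) (nat_lit 76) (nat_lit 4541335922) (nat_lit 99) (nat_lit 3) (nat_lit 98) (nat_lit 1) (nat_lit 99) (nat_lit 1) (nat_lit 319) (nat_lit 350) (nat_lit 231)))))) (XT.nd (nat_lit 390) (nat_lit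 456) (nat_lit 0) (XT.nd (nat_lit 156) (nat_lit 228) (nat_lit 0) (XT.nd (nat_lit 78) (nat_lit 0) (nat_lit 0) (XT.lf (nat_lit 152) (nat_lit 13031650681) (nat_lit 0) (nat_lit 1575) (nat_lit 76) (nat_lit 1575) (nat_lit 98) (nat_lit 1) (nat_lit 96) (nat_lit 1) (nat_lit 97) (nat_lit 1) (nat_lit 320) (nat_lit 350) (nat_lit 230)) (XT.lf (nat_lit 0) (nat_lit 4137031649) (nat_lit 0) (nat_lit 4137035580) (nat_lit 152) (nat_lit 4137031649) (nat_lit 96) (nat_lit 3) (nat_lit 96) (nat_lit 1) (nat_lit 98) (nat_lit 1) (nat_lit 321) (nat_lit 350) (nat_lit 229))) (XT.nd (nat_lit 78) (nat_lit 152) (nat_lit 0) (XT.lf (nat_lit 76) (nat_lit 3948983720) (nat_lit 0) (nat_lit 3948987138) (nat_lit 76) (nat_lit 3948987138) (nat_lit 96) (nat_lit 3) (nat_lit 95) (nat_lit 1) (nat_lit 96) (nat_lit 1) (nat_lit 322) (nat_lit 350) (nat_lit 228)) (XT.nd (nat_lit 78) (nat_lit 0) (nat_lit 0) (XT.lf (nat_lit 152) (nat_lit 11331871034)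 (nat_lit 0) (nat_lit 900) (nat_lit 76) (nat_lit 900) (nat_lit 95) (nat_lit 1) (nat_lit 93) (nat_lit 1) (nat_lit 94) (nat_lit 1) (nat_lit 323) (nat_lit 350) (nat_lit 227)) (XT.lf (nat_lit 0) (nat_lit 3597419197) (nat_lit 0) (nat_lit 3597421444) (nat_lit 152) (nat_lit 3597419197) (nat_lit 93) (nat_lit 3) (nat_lit 93) (nat_lit 1) (nat_lit 95) (nat_lit 1) (nat_lit 324) (nat_lit 350) (nat_lit 226))))) (XT.nd (nat_lit 234) (nat_lit 228) (nat_lit 0) (XT.nd (nat_lit 78) (nat_lit 152) (nat_lit 0) (XT.lf (nat_lit 76) (nat_lit 3433899550) (nat_lit 0) (nat_lit 3433901504) (nat_lit 76) (nat_lit 3433901504) (nat_lit 93) (nat_lit 3) (nat_lit 92) (nat_lit 1) (nat_lit 93) (nat_lit 1) (nat_lit 325) (nat_lit 350) (nat_lit 225)) (XT.nd (nat_lit 78) (nat_lit 0) (nat_lit 0) (XT.lf (nat_lit 152) (nat_lit 9853801401) (nat_lit 0) (nat_lit 514) (nat_lit 76) (nat_lit 514) (nat_lit 92) (nat_lit 1) (nat_lit 90) (nat_lit 1)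 (nat_lit 91) (nat_lit 1) (nat_lit 326) (nat_lit 350) (nat_lit 224)) (XT.lf (nat_lit 0) (nat_lit 3128190818) (nat_lit 0) (nat_lit 3128192103) (nat_lit 152) (nat_lit 3128190818) (nat_lit 90) (nat_lit 3) (nat_lit 90) (nat_lit 1) (nat_lit 92) (nat_lit 1) (nat_lit 327) (nat_lit 350) (nat_lit 223)))) (XT.nd (nat_lit 78) (nat_lit 152) (nat_lit 0) (XT.lf (nat_lit 76) (nat_lit 2985999988) (nat_lit 0) (nat_lit 2986001105) (nat_lit 76) (nat_lit 2986001105) (nat_lit 90) (nat_lit 3) (nat_lit 89) (nat_lit 1) (nat_lit 90) (nat_lit 1) (nat_lit 328) (nat_lit 350) (nat_lit 222)) (XT.nd (nat_lit 78) (nat_lit 0) (nat_lit 0) (XT.lf (nat_lit 152) (nat_lit 8568523244) (nat_lit 0) (nat_lit 294) (nat_lit 76) (nat_lit 294) (nat_lit 89) (nat_lit 1) (nat_lit 87) (nat_lit 1) (nat_lit 88) (nat_lit 1) (nat_lit 329) (nat_lit 350) (nat_lit 221)) (XT.lf (nat_lit 0) (nat_lit 2720166050) (nat_lit 0) (nat_lit 2720166785) (nat_lit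 152) (nat_lit 2720166050) (nat_lit 87) (nat_lit 3) (nat_lit 87) (nat_lit 1) (nat_lit 89) (nat_lit 1) (nat_lit 330) (nat_lit 350) (nat_lit 220))))))))
noncomputable def ec161 : XT := (XT.nd (nat_lit 1716) (nat_lit 1368) (nat_lit 0) (XT.nd (nat_lit 858) (nat_lit 760) (nat_lit 0) (XT.nd (nat_lit 390) (nat_lit 456) (nat_lit 0) (XT.nd (nat_lit 156) (nat_lit 228) (nat_lit 0) (XT.nd (nat_lit 78) (nat_lit 152) (nat_lit 0) (XT.lf (nat_lit 76) (nat_lit 2596521945) (nat_lit 0) (nat_lit 2596522584) (nat_lit 76) (nat_lit 2596522584) (nat_lit 87) (nat_lit 3) (nat_lit 86) (nat_lit 1) (nat_lit 87) (nat_lit 1) (nat_lit 331) (nat_lit 350) (nat_lit 219)) (XT.lf (nat_lit 152) (nat_lit 7450889941) (nat_lit 0) (nat_lit 168) (nat_lit 76) (nat_lit 168) (nat_lit 86) (nat_lit 1) (nat_lit 84) (nat_lit 1) (nat_lit 85) (nat_lit 1) (nat_lit 332) (nat_lit 350) (nat_lit 218))) (XT.nd (nat_lit 78) (nat_lit 228) (nat_lit 0) (XT.lf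 (nat_lit 0) (nat_lit 2365361852) (nat_lit 0) (nat_lit 2365362272) (nat_lit 152) (nat_lit 2365361852) (nat_lit 84) (nat_lit 3) (nat_lit 84) (nat_lit 1) (nat_lit 86) (nat_lit 1) (nat_lit 333) (nat_lit 350) (nat_lit 217)) (XT.nd (nat_lit 78) (nat_lit 152) (nat_lit 0) (XT.lf (nat_lit 76) (nat_lit 2257845294) (nat_lit 0) (nat_lit 2257845659) (nat_lit 76) (nat_lit 2257845659) (nat_lit 84) (nat_lit 3) (nat_lit 83) (nat_lit 1) (nat_lit 84) (nat_lit 1) (nat_lit 334) (nat_lit 350) (nat_lit 216)) (XT.lf (nat_lit 152) (nat_lit 6479034825) (nat_lit 0) (nat_lit 96) (nat_lit 76) (nat_lit 96) (nat_lit 83) (nat_lit 1) (nat_lit 81) (nat_lit 1) (nat_lit 82) (nat_lit 1) (nat_lit 335) (nat_lit 350) (nat_lit 215))))) (XT.nd (nat_lit 234) (nat_lit 228) (nat_lit 0) (XT.nd (nat_lit 78) (nat_lit 228) (nat_lit 0) (XT.lf (nat_lit 0) (nat_lit 2056836433) (nat_lit 0) (nat_lit 2056836673) (nat_lit 152) (nat_lit 2056836433) (nat_lit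 81) (nat_lit 3) (nat_lit 81) (nat_lit 1) (nat_lit 83) (nat_lit 1) (nat_lit 336) (nat_lit 350) (nat_lit 214)) (XT.nd (nat_lit 78) (nat_lit 152) (nat_lit 0) (XT.lf (nat_lit 76) (nat_lit 1963343805) (nat_lit 0) (nat_lit 1963344013) (nat_lit 76) (nat_lit 1963344013) (nat_lit 81) (nat_lit 3) (nat_lit 80) (nat_lit 1) (nat_lit 81) (nat_lit 1) (nat_lit 337) (nat_lit 350) (nat_lit 213)) (XT.lf (nat_lit 152) (nat_lit 5633943380) (nat_lit 0) (nat_lit 55) (nat_lit 76) (nat_lit 55) (nat_lit 80) (nat_lit 1) (nat_lit 78) (nat_lit 1) (nat_lit 79) (nat_lit 1) (nat_lit 338) (nat_lit 350) (nat_lit 212)))) (XT.nd (nat_lit 78) (nat_lit 228) (nat_lit 0) (XT.lf (nat_lit 0) (nat_lit 1788553443) (nat_lit 0) (nat_lit 1788553580) (nat_lit 152) (nat_lit 1788553443) (nat_lit 78) (nat_lit 3) (nat_lit 78) (nat_lit 1) (nat_lit 80) (nat_lit 1) (nat_lit 339) (nat_lit 350) (nat_lit 211)) (XT.nd (nat_lit 78) (nat_lit 152) (nat_lit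 0) (XT.lf (nat_lit 76) (nat_lit 1707255523) (nat_lit 0) (nat_lit 1707255642) (nat_lit 76) (nat_lit 1707255642) (nat_lit 78) (nat_lit 3) (nat_lit 77) (nat_lit 1) (nat_lit 78) (nat_lit 1) (nat_lit 340) (nat_lit 350) (nat_lit 210)) (XT.lf (nat_lit 152) (nat_lit 4899081230) (nat_lit 0) (nat_lit 31) (nat_lit 76) (nat_lit 31) (nat_lit 77) (nat_lit 1) (nat_lit 75) (nat_lit 1) (nat_lit 76) (nat_lit 1) (nat_lit 341) (nat_lit 350) (nat_lit 209)))))) (XT.nd (nat_lit 390) (nat_lit 456) (nat_lit 0) (XT.nd (nat_lit 156) (nat_lit 228) (nat_lit 0) (XT.nd (nat_lit 78) (nat_lit 76) (nat_lit 0) (XT.lf (nat_lit 0) (nat_lit 1555263876) (nat_lit 0) (nat_lit 1555263955) (nat_lit 152) (nat_lit 1555263876) (nat_lit 75) (nat_lit 3) (nat_lit 75) (nat_lit 1) (nat_lit 77) (nat_lit 1) (nat_lit 342) (nat_lit 350) (nat_lit 208)) (XT.lf (nat_lit 76) (nat_lit 1484570043) (nat_lit 0) (nat_lit 1484570111) (nat_lit 76) (nat_lit 1484570111)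 (nat_lit 75) (nat_lit 3) (nat_lit 74) (nat_lit 1) (nat_lit 75) (nat_lit 1) (nat_lit 343) (nat_lit 350) (nat_lit 207))) (XT.nd (nat_lit 78) (nat_lit 76) (nat_lit 0) (XT.lf (nat_lit 152) (nat_lit 4260070653) (nat_lit 0) (nat_lit 17) (nat_lit 76) (nat_lit 17) (nat_lit 74) (nat_lit 1) (nat_lit 72) (nat_lit 1) (nat_lit 73) (nat_lit 1) (nat_lit 344) (nat_lit 350) (nat_lit 206)) (XT.nd (nat_lit 78) (nat_lit 76) (nat_lit 0) (XT.lf (nat_lit 0) (nat_lit 1352403378) (nat_lit 0) (nat_lit 1352403423) (nat_lit 152) (nat_lit 1352403378) (nat_lit 72) (nat_lit 3) (nat_lit 72) (nat_lit 1) (nat_lit 74) (nat_lit 1) (nat_lit 345) (nat_lit 350) (nat_lit 205)) (XT.lf (nat_lit 76) (nat_lit 1290930485) (nat_lit 0) (nat_lit 1290930524) (nat_lit 76) (nat_lit 1290930524) (nat_lit 72) (nat_lit 3) (nat_lit 71) (nat_lit 1) (nat_lit 72) (nat_lit 1) (nat_lit 346) (nat_lit 350) (nat_lit 204))))) (XT.nd (nat_lit 234) (nat_lit 228)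 (nat_lit 0) (XT.nd (nat_lit 78) (nat_lit 76) (nat_lit 0) (XT.lf (nat_lit 152) (nat_lit 3704409273) (nat_lit 0) (nat_lit 10) (nat_lit 76) (nat_lit 10) (nat_lit 71) (nat_lit 1) (nat_lit 69) (nat_lit 1) (nat_lit 70) (nat_lit 1) (nat_lit 347) (nat_lit 350) (nat_lit 203)) (XT.nd (nat_lit 78) (nat_lit 76) (nat_lit 0) (XT.lf (nat_lit 0) (nat_lit 1176002941) (nat_lit 0) (nat_lit 1176002967) (nat_lit 152) (nat_lit 1176002941) (nat_lit 69) (nat_lit 3) (nat_lit 69) (nat_lit 1) (nat_lit 71) (nat_lit 1) (nat_lit 348) (nat_lit 350) (nat_lit 202)) (XT.lf (nat_lit 76) (nat_lit 1122548255) (nat_lit 0) (nat_lit 1122548278) (nat_lit 76) (nat_lit 1122548278) (nat_lit 69) (nat_lit 3) (nat_lit 68) (nat_lit 1) (nat_lit 69) (nat_lit 1) (nat_lit 349) (nat_lit 350) (nat_lit 201)))) (XT.nd (nat_lit 78) (nat_lit 76) (nat_lit 0) (XT.lf (nat_lit 152) (nat_lit 3221225460) (nat_lit 0) (nat_lit 5) (nat_lit 76) (nat_lit 5) (nat_lit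 68) (nat_lit 1) (nat_lit 66) (nat_lit 1) (nat_lit 67) (nat_lit 1) (nat_lit 350) (nat_lit 350) (nat_lit 200)) (XT.nd (nat_lit 78) (nat_lit 76) (nat_lit 0) (XT.lf (nat_lit 0) (nat_lit 1022611256) (nat_lit 0) (nat_lit 1022611270) (nat_lit 152) (nat_lit 1022611256) (nat_lit 66) (nat_lit 3) (nat_lit 66) (nat_lit 1) (nat_lit 68) (nat_lit 1) (nat_lit 351) (nat_lit 350) (nat_lit 199)) (XT.lf (nat_lit 76) (nat_lit 976128922) (nat_lit 0) (nat_lit 976128935) (nat_lit 76) (nat_lit 976128935) (nat_lit 66) (nat_lit 3) (nat_lit 65) (nat_lit 1) (nat_lit 66) (nat_lit 1) (nat_lit 352) (nat_lit 350) (nat_lit 198))))))) (XT.nd (nat_lit 858) (nat_lit 532) (nat_lit 0) (XT.nd (nat_lit 390) (nat_lit 456) (nat_lit 0) (XT.nd (nat_lit 156) (nat_lit 228) (nat_lit 0) (XT.nd (nat_lit 78) (nat_lit 0) (nat_lit 0) (XT.lf (nat_lit 152) (nat_lit 2801065621) (nat_lit 0) (nat_lit 3) (nat_lit 76) (nat_lit 3) (nat_lit 65) (nat_lit 1)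 (nat_lit 63) (nat_lit 1) (nat_lit 64) (nat_lit 1) (nat_lit 353) (nat_lit 350) (nat_lit 197)) (XT.lf (nat_lit 0) (nat_lit 889227180) (nat_lit 0) (nat_lit 889227189) (nat_lit 152) (nat_lit 889227180) (nat_lit 63) (nat_lit 3) (nat_lit 63) (nat_lit 1) (nat_lit 65) (nat_lit 1) (nat_lit 354) (nat_lit 350) (nat_lit 196))) (XT.nd (nat_lit 78) (nat_lit 152) (nat_lit 0) (XT.lf (nat_lit 76) (nat_lit 848807761) (nat_lit 0) (nat_lit 848807768) (nat_lit 76) (nat_lit 848807768) (nat_lit 63) (nat_lit 3) (nat_lit 62) (nat_lit 1) (nat_lit 63) (nat_lit 1) (nat_lit 355) (nat_lit 350) (nat_lit 195)) (XT.nd (nat_lit 78) (nat_lit 0) (nat_lit 0) (XT.lf (nat_lit 152) (nat_lit 2435709237) (nat_lit 0) (nat_lit 1) (nat_lit 76) (nat_lit 1) (nat_lit 62) (nat_lit 1) (nat_lit 60) (nat_lit 1) (nat_lit 61) (nat_lit 1) (nat_lit 356) (nat_lit 350) (nat_lit 194)) (XT.lf (nat_lit 0) (nat_lit 773241027) (nat_lit 0) (nat_lit 773241032)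 (nat_lit 152) (nat_lit 773241027) (nat_lit 60) (nat_lit 3) (nat_lit 60) (nat_lit 1) (nat_lit 62) (nat_lit 1) (nat_lit 357) (nat_lit 350) (nat_lit 193))))) (XT.nd (nat_lit 234) (nat_lit 228) (nat_lit 0) (XT.nd (nat_lit 78) (nat_lit 152) (nat_lit 0) (XT.lf (nat_lit 76) (nat_lit 738093706) (nat_lit 0) (nat_lit 738093711) (nat_lit 76) (nat_lit 738093711) (nat_lit 60) (nat_lit 3) (nat_lit 59) (nat_lit 1) (nat_lit 60) (nat_lit 1) (nat_lit 358) (nat_lit 350) (nat_lit 192)) (XT.nd (nat_lit 78) (nat_lit 0) (nat_lit 0) (XT.lf (nat_lit 152) (nat_lit 2118008034) (nat_lit 0) (nat_lit 1) (nat_lit 76) (nat_lit 1) (nat_lit 59) (nat_lit 1) (nat_lit 57) (nat_lit 1) (nat_lit 58) (nat_lit 1) (nat_lit 359) (nat_lit 350) (nat_lit 191)) (XT.lf (nat_lit 0) (nat_lit 672383502) (nat_lit 0) (nat_lit 672383505) (nat_lit 152) (nat_lit 672383502) (nat_lit 57) (nat_lit 3) (nat_lit 57) (nat_lit 1) (nat_lit 59) (nat_lit 1) (nat_lit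 360) (nat_lit 350) (nat_lit 190)))) (XT.nd (nat_lit 78) (nat_lit 152) (nat_lit 0) (XT.lf (nat_lit 76) (nat_lit 641820615) (nat_lit 0) (nat_lit 641820617) (nat_lit 76) (nat_lit 641820617) (nat_lit 57) (nat_lit 3) (nat_lit 56) (nat_lit 1) (nat_lit 57) (nat_lit 1) (nat_lit 361) (nat_lit 350) (nat_lit 189)) (XT.nd (nat_lit 78) (nat_lit 152) (nat_lit 0) (XT.lf (nat_lit 0) (nat_lit 1841746117) (nat_lit 0) (nat_lit 0) (nat_lit 0) (nat_lit 0) (nat_lit 56) (nat_lit 1) (nat_lit 1) (nat_lit 0) (nat_lit 1) (nat_lit 0) (nat_lit 362) (nat_lit 350) (nat_lit 188)) (XT.lf (nat_lit 0) (nat_lit 584681306) (nat_lit 0) (nat_lit 584681308) (nat_lit 152) (nat_lit 584681306) (nat_lit 54) (nat_lit 3) (nat_lit 54) (nat_lit 1) (nat_lit 56) (nat_lit 1) (nat_lit 363) (nat_lit 350) (nat_lit 187)))))) (XT.nd (nat_lit 468) (nat_lit 76) (nat_lit 0) (XT.nd (nat_lit 234) (nat_lit 228) (nat_lit 0) (XT.nd (nat_lit 78) (nat_lit 152)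 (nat_lit 0) (XT.lf (nat_lit 76) (nat_lit 558104883) (nat_lit 0) (nat_lit 558104884) (nat_lit 76) (nat_lit 558104884) (nat_lit 54) (nat_lit 3) (nat_lit 53) (nat_lit 1) (nat_lit 54) (nat_lit 1) (nat_lit 364) (nat_lit 350) (nat_lit 186)) (XT.nd (nat_lit 78) (nat_lit 152) (nat_lit 0) (XT.lf (nat_lit 0) (nat_lit 1601518363) (nat_lit 0) (nat_lit 0) (nat_lit 0) (nat_lit 0) (nat_lit 53) (nat_lit 1) (nat_lit 1) (nat_lit 0) (nat_lit 1) (nat_lit 0) (nat_lit 365) (nat_lit 350) (nat_lit 185)) (XT.lf (nat_lit 0) (nat_lit 508418527) (nat_lit 0) (nat_lit 508418528) (nat_lit 152) (nat_lit 508418527) (nat_lit 51) (nat_lit 3) (nat_lit 51) (nat_lit 1) (nat_lit 53) (nat_lit 1) (nat_lit 366) (nat_lit 350) (nat_lit 184)))) (XT.nd (nat_lit 78) (nat_lit 152) (nat_lit 0) (XT.lf (nat_lit 76) (nat_lit 485308594) (nat_lit 0) (nat_lit 485308595) (nat_lit 76) (nat_lit 485308595) (nat_lit 51) (nat_lit 3) (nat_lit 50) (nat_lit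 1) (nat_lit 51) (nat_lit 1) (nat_lit 367) (nat_lit 350) (nat_lit 183)) (XT.nd (nat_lit 78) (nat_lit 152) (nat_lit 0) (XT.lf (nat_lit 0) (nat_lit 1392624663) (nat_lit 0) (nat_lit 0) (nat_lit 0) (nat_lit 0) (nat_lit 50) (nat_lit 1) (nat_lit 1) (nat_lit 0) (nat_lit 1) (nat_lit 0) (nat_lit 368) (nat_lit 350) (nat_lit 182)) (XT.lf (nat_lit 0) (nat_lit 442103067) (nat_lit 0) (nat_lit 442103068) (nat_lit 152) (nat_lit 442103067) (nat_lit 48) (nat_lit 3) (nat_lit 48) (nat_lit 1) (nat_lit 50) (nat_lit 1) (nat_lit 369) (nat_lit 350) (nat_lit 181))))) (XT.nd (nat_lit 33540) (nat_lit 0) (nat_lit 12768) (XT.nd (nat_lit 78) (nat_lit 0) (nat_lit 0) (XT.lf (nat_lit 76) (nat_lit 422007473) (nat_lit 0) (nat_lit 422007474) (nat_lit 76) (nat_lit 422007474) (nat_lit 48) (nat_lit 3) (nat_lit 47) (nat_lit 1) (nat_lit 48) (nat_lit 1) (nat_lit 370) (nat_lit 350) (nat_lit 180)) (XT.nd (nat_lit 33384) (nat_lit 0) (nat_lit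 12768) (XT.lf (nat_lit 0) (nat_lit 1210977968) (nat_lit 0) (nat_lit 0) (nat_lit 0) (nat_lit 0) (nat_lit 47) (nat_lit 1) (nat_lit 1) (nat_lit 0) (nat_lit 1) (nat_lit 0) (nat_lit 371) (nat_lit 350) (nat_lit 179)) (XT.lf (nat_lit 380) (nat_lit 874408349891) (nat_lit 0) (nat_lit 774484995975) (nat_lit 380) (nat_lit 874408349891) (nat_lit 220) (nat_lit 1) (nat_lit 215) (nat_lit 0) (nat_lit 220) (nat_lit 0) (nat_lit 198) (nat_lit 351) (nat_lit 351)))) (XT.nd (nat_lit 78) (nat_lit 0) (nat_lit 76) (XT.lf (nat_lit 380) (nat_lit 3234323010055) (nat_lit 76) (nat_lit 739281132521) (nat_lit 0) (nat_lit 739281132521) (nat_lit 220) (nat_lit 1) (nat_lit 216) (nat_lit 1) (nat_lit 215) (nat_lit 0) (nat_lit 199) (nat_lit 351) (nat_lit 350)) (XT.nd (nat_lit 78) (nat_lit 0) (nat_lit 0) (XT.lf (nat_lit 380) (nat_lit 1425671036263) (nat_lit 0) (nat_lit 1551264573325) (nat_lit 304) (nat_lit 1425671036263) (nat_lit 221)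 (nat_lit 1) (nat_lit 216) (nat_lit 1) (nat_lit 220) (nat_lit 1) (nat_lit 200) (nat_lit 351) (nat_lit 349)) (XT.lf (nat_lit 380) (nat_lit 2447803144267) (nat_lit 76) (nat_lit 837899388550) (nat_lit 0) (nat_lit 837899388550) (nat_lit 221) (nat_lit 1) (nat_lit 217) (nat_lit 1) (nat_lit 216) (nat_lit 1) (nat_lit 201) (nat_lit 351) (nat_lit 348))))))))
noncomputable def ec162 : XT := (XT.nd (nat_lit 1716) (nat_lit 1672) (nat_lit 0) (XT.nd (nat_lit 858) (nat_lit 760) (nat_lit 0) (XT.nd (nat_lit 390) (nat_lit 456) (nat_lit 0) (XT.nd (nat_lit 156) (nat_lit 380) (nat_lit 0) (XT.nd (nat_lit 78) (nat_lit 304) (nat_lit 0) (XT.lf (nat_lit 76) (nat_lit 990168836950) (nat_lit 0) (nat_lit 1885447697331) (nat_lit 304) (nat_lit 990168836950) (nat_lit 218) (nat_lit 1) (nat_lit 217) (nat_lit 1) (nat_lit 221) (nat_lit 1) (nat_lit 202) (nat_lit 351) (nat_lit 347)) (XT.lf (nat_lit 380) (nat_lit 1488143792478) (nat_lit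 0) (nat_lit 1071137365313) (nat_lit 304) (nat_lit 1071137365313) (nat_lit 218) (nat_lit 1) (nat_lit 213) (nat_lit 1) (nat_lit 217) (nat_lit 1) (nat_lit 203) (nat_lit 351) (nat_lit 346))) (XT.nd (nat_lit 78) (nat_lit 380) (nat_lit 0) (XT.lf (nat_lit 76) (nat_lit 494642561431) (nat_lit 0) (nat_lit 2427223446640) (nat_lit 380) (nat_lit 494642561431) (nat_lit 214) (nat_lit 1) (nat_lit 213) (nat_lit 1) (nat_lit 218) (nat_lit 1) (nat_lit 204) (nat_lit 351) (nat_lit 345)) (XT.nd (nat_lit 78) (nat_lit 228) (nat_lit 0) (XT.lf (nat_lit 228) (nat_lit 445166636886) (nat_lit 0) (nat_lit 1385471312231) (nat_lit 152) (nat_lit 1385471312231) (nat_lit 214) (nat_lit 1) (nat_lit 211) (nat_lit 1) (nat_lit 213) (nat_lit 1) (nat_lit 205) (nat_lit 351) (nat_lit 344)) (XT.lf (nat_lit 228) (nat_lit 2991514198493) (nat_lit 0) (nat_lit 23471453697) (nat_lit 152) (nat_lit 23471453697) (nat_lit 211) (nat_lit 1) (nat_lit 208)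 (nat_lit 1) (nat_lit 210) (nat_lit 1) (nat_lit 206) (nat_lit 351) (nat_lit 343))))) (XT.nd (nat_lit 234) (nat_lit 304) (nat_lit 0) (XT.nd (nat_lit 78) (nat_lit 152) (nat_lit 0) (XT.lf (nat_lit 76) (nat_lit 1149358876139) (nat_lit 0) (nat_lit 564274028229) (nat_lit 228) (nat_lit 1149358876139) (nat_lit 209) (nat_lit 1) (nat_lit 208) (nat_lit 1) (nat_lit 211) (nat_lit 1) (nat_lit 207) (nat_lit 351) (nat_lit 342)) (XT.nd (nat_lit 78) (nat_lit 0) (nat_lit 0) (XT.lf (nat_lit 228) (nat_lit 1670637240451) (nat_lit 0) (nat_lit 518215249027) (nat_lit 152) (nat_lit 518215249027) (nat_lit 209) (nat_lit 1) (nat_lit 206) (nat_lit 1) (nat_lit 208) (nat_lit 1) (nat_lit 208) (nat_lit 351) (nat_lit 341)) (XT.lf (nat_lit 76) (nat_lit 522463059669) (nat_lit 0) (nat_lit 1516178866865) (nat_lit 228) (nat_lit 522463059669) (nat_lit 207) (nat_lit 1) (nat_lit 206) (nat_lit 1) (nat_lit 209) (nat_lit 1) (nat_lit 209) (nat_lit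 351) (nat_lit 340)))) (XT.nd (nat_lit 78) (nat_lit 228) (nat_lit 0) (XT.lf (nat_lit 152) (nat_lit 431912271063) (nat_lit 0) (nat_lit 996639689968) (nat_lit 76) (nat_lit 996639689968) (nat_lit 207) (nat_lit 1) (nat_lit 205) (nat_lit 1) (nat_lit 206) (nat_lit 1) (nat_lit 210) (nat_lit 351) (nat_lit 339)) (XT.nd (nat_lit 78) (nat_lit 0) (nat_lit 0) (XT.lf (nat_lit 228) (nat_lit 2186593804421) (nat_lit 0) (nat_lit 58089102358) (nat_lit 152) (nat_lit 58089102358) (nat_lit 205) (nat_lit 1) (nat_lit 202) (nat_lit 1) (nat_lit 204) (nat_lit 1) (nat_lit 211) (nat_lit 351) (nat_lit 338)) (XT.lf (nat_lit 76) (nat_lit 765260803456) (nat_lit 0) (nat_lit 649884442268) (nat_lit 228) (nat_lit 765260803456) (nat_lit 203) (nat_lit 1) (nat_lit 202) (nat_lit 1) (nat_lit 205) (nat_lit 1) (nat_lit 212) (nat_lit 351) (nat_lit 337)))))) (XT.nd (nat_lit 390) (nat_lit 456) (nat_lit 0) (XT.nd (nat_lit 156) (nat_lit 228) (nat_lit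 0) (XT.nd (nat_lit 78) (nat_lit 0) (nat_lit 0) (XT.lf (nat_lit 152) (nat_lit 930483841942) (nat_lit 0) (nat_lit 569831977426) (nat_lit 76) (nat_lit 569831977426) (nat_lit 203) (nat_lit 1) (nat_lit 201) (nat_lit 1) (nat_lit 202) (nat_lit 1) (nat_lit 213) (nat_lit 351) (nat_lit 336)) (XT.lf (nat_lit 0) (nat_lit 182201559011) (nat_lit 0) (nat_lit 1604088534820) (nat_lit 152) (nat_lit 182201559011) (nat_lit 201) (nat_lit 3) (nat_lit 201) (nat_lit 1) (nat_lit 203) (nat_lit 1) (nat_lit 214) (nat_lit 351) (nat_lit 335))) (XT.nd (nat_lit 78) (nat_lit 76) (nat_lit 0) (XT.lf (nat_lit 76) (nat_lit 843228046700) (nat_lit 0) (nat_lit 182881586290) (nat_lit 152) (nat_lit 843228046700) (nat_lit 200) (nat_lit 1) (nat_lit 199) (nat_lit 1) (nat_lit 201) (nat_lit 1) (nat_lit 215) (nat_lit 351) (nat_lit 334)) (XT.nd (nat_lit 78) (nat_lit 0) (nat_lit 0) (XT.lf (nat_lit 152) (nat_lit 1126386808037) (nat_lit 0) (nat_lit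 325803282536) (nat_lit 76) (nat_lit 325803282536) (nat_lit 200) (nat_lit 1) (nat_lit 198) (nat_lit 1) (nat_lit 199) (nat_lit 1) (nat_lit 216) (nat_lit 351) (nat_lit 333)) (XT.lf (nat_lit 0) (nat_lit 292866285553) (nat_lit 0) (nat_lit 1105834778838) (nat_lit 152) (nat_lit 292866285553) (nat_lit 198) (nat_lit 3) (nat_lit 198) (nat_lit 1) (nat_lit 200) (nat_lit 1) (nat_lit 217) (nat_lit 351) (nat_lit 332))))) (XT.nd (nat_lit 234) (nat_lit 228) (nat_lit 0) (XT.nd (nat_lit 78) (nat_lit 152) (nat_lit 0) (XT.lf (nat_lit 76) (nat_lit 65333234817) (nat_lit 0) (nat_lit 772262359413) (nat_lit 76) (nat_lit 772262359413) (nat_lit 198) (nat_lit 3) (nat_lit 197) (nat_lit 1) (nat_lit 198) (nat_lit 1) (nat_lit 218) (nat_lit 351) (nat_lit 331)) (XT.nd (nat_lit 78) (nat_lit 0) (nat_lit 0) (XT.lf (nat_lit 152) (nat_lit 1160867184101) (nat_lit 0) (nat_lit 186279084214) (nat_lit 76) (nat_lit 186279084214) (nat_lit 197)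 (nat_lit 1) (nat_lit 195) (nat_lit 1) (nat_lit 196) (nat_lit 1) (nat_lit 219) (nat_lit 351) (nat_lit 330)) (XT.lf (nat_lit 0) (nat_lit 331527208278) (nat_lit 0) (nat_lit 796344582878) (nat_lit 152) (nat_lit 331527208278) (nat_lit 195) (nat_lit 3) (nat_lit 195) (nat_lit 1) (nat_lit 197) (nat_lit 1) (nat_lit 220) (nat_lit 351) (nat_lit 329)))) (XT.nd (nat_lit 78) (nat_lit 152) (nat_lit 0) (XT.lf (nat_lit 76) (nat_lit 193976268086) (nat_lit 0) (nat_lit 598165289478) (nat_lit 76) (nat_lit 598165289478) (nat_lit 195) (nat_lit 3) (nat_lit 194) (nat_lit 1) (nat_lit 195) (nat_lit 1) (nat_lit 221) (nat_lit 351) (nat_lit 328)) (XT.nd (nat_lit 78) (nat_lit 0) (nat_lit 0) (XT.lf (nat_lit 152) (nat_lit 1113165989615) (nat_lit 0) (nat_lit 106505670986) (nat_lit 76) (nat_lit 106505670986) (nat_lit 194) (nat_lit 1) (nat_lit 192) (nat_lit 1) (nat_lit 193) (nat_lit 1) (nat_lit 222) (nat_lit 351) (nat_lit 327)) (XT.lf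 (nat_lit 0) (nat_lit 332229982542) (nat_lit 0) (nat_lit 597990825078) (nat_lit 152) (nat_lit 332229982542) (nat_lit 192) (nat_lit 3) (nat_lit 192) (nat_lit 1) (nat_lit 194) (nat_lit 1) (nat_lit 223) (nat_lit 351) (nat_lit 326))))))) (XT.nd (nat_lit 858) (nat_lit 760) (nat_lit 0) (XT.nd (nat_lit 390) (nat_lit 456) (nat_lit 0) (XT.nd (nat_lit 156) (nat_lit 228) (nat_lit 0) (XT.nd (nat_lit 78) (nat_lit 152) (nat_lit 0) (XT.lf (nat_lit 76) (nat_lit 247099412180) (nat_lit 0) (nat_lit 478195796994) (nat_lit 76) (nat_lit 478195796994) (nat_lit 192) (nat_lit 3) (nat_lit 191) (nat_lit 1) (nat_lit 192) (nat_lit 1) (nat_lit 224) (nat_lit 351) (nat_lit 325)) (XT.lf (nat_lit 152) (nat_lit 1027270536492) (nat_lit 0) (nat_lit 60894963060) (nat_lit 76) (nat_lit 60894963060) (nat_lit 191) (nat_lit 1) (nat_lit 189) (nat_lit 1) (nat_lit 190) (nat_lit 1) (nat_lit 225) (nat_lit 351) (nat_lit 324))) (XT.nd (nat_lit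 78) (nat_lit 228) (nat_lit 0) (XT.lf (nat_lit 0) (nat_lit 314021592721) (nat_lit 0) (nat_lit 465971216992) (nat_lit 152) (nat_lit 314021592721) (nat_lit 189) (nat_lit 3) (nat_lit 189) (nat_lit 1) (nat_lit 191) (nat_lit 1) (nat_lit 226) (nat_lit 351) (nat_lit 323)) (XT.nd (nat_lit 78) (nat_lit 152) (nat_lit 0) (XT.lf (nat_lit 76) (nat_lit 259708457275) (nat_lit 0) (nat_lit 391838565337) (nat_lit 76) (nat_lit 391838565337) (nat_lit 189) (nat_lit 3) (nat_lit 188) (nat_lit 1) (nat_lit 189) (nat_lit 1) (nat_lit 227) (nat_lit 351) (nat_lit 322)) (XT.lf (nat_lit 152) (nat_lit 927183758163) (nat_lit 0) (nat_lit 34816892770) (nat_lit 76) (nat_lit 34816892770) (nat_lit 188) (nat_lit 1) (nat_lit 186) (nat_lit 1) (nat_lit 187) (nat_lit 1) (nat_lit 228) (nat_lit 351) (nat_lit 321))))) (XT.nd (nat_lit 234) (nat_lit 228) (nat_lit 0) (XT.nd (nat_lit 78) (nat_lit 228) (nat_lit 0) (XT.lf (nat_lit 0) (nat_lit 287428101276)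 (nat_lit 0) (nat_lit 374305792120) (nat_lit 152) (nat_lit 287428101276) (nat_lit 186) (nat_lit 3) (nat_lit 186) (nat_lit 1) (nat_lit 188) (nat_lit 1) (nat_lit 229) (nat_lit 351) (nat_lit 320)) (XT.nd (nat_lit 78) (nat_lit 152) (nat_lit 0) (XT.lf (nat_lit 76) (nat_lit 251470515422) (nat_lit 0) (nat_lit 327016333547) (nat_lit 76) (nat_lit 327016333547) (nat_lit 186) (nat_lit 3) (nat_lit 185) (nat_lit 1) (nat_lit 186) (nat_lit 1) (nat_lit 230) (nat_lit 351) (nat_lit 319)) (XT.lf (nat_lit 152) (nat_lit 825632057619) (nat_lit 0) (nat_lit 19906671442) (nat_lit 76) (nat_lit 19906671442) (nat_lit 185) (nat_lit 1) (nat_lit 183) (nat_lit 1) (nat_lit 184) (nat_lit 1) (nat_lit 231) (nat_lit 351) (nat_lit 318)))) (XT.nd (nat_lit 78) (nat_lit 228) (nat_lit 0) (XT.lf (nat_lit 0) (nat_lit 258151198867) (nat_lit 0) (nat_lit 307823800577) (nat_lit 152) (nat_lit 258151198867) (nat_lit 183) (nat_lit 3) (nat_lit 183)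 (nat_lit 1) (nat_lit 185) (nat_lit 1) (nat_lit 232) (nat_lit 351) (nat_lit 317)) (XT.nd (nat_lit 78) (nat_lit 152) (nat_lit 0) (XT.lf (nat_lit 76) (nat_lit 233328093857) (nat_lit 0) (nat_lit 276521660561) (nat_lit 76) (nat_lit 276521660561) (nat_lit 183) (nat_lit 3) (nat_lit 182) (nat_lit 1) (nat_lit 183) (nat_lit 1) (nat_lit 233) (nat_lit 351) (nat_lit 316)) (XT.lf (nat_lit 152) (nat_lit 729024534373) (nat_lit 0) (nat_lit 11381704006) (nat_lit 76) (nat_lit 11381704006) (nat_lit 182) (nat_lit 1) (nat_lit 180) (nat_lit 1) (nat_lit 181) (nat_lit 1) (nat_lit 234) (nat_lit 351) (nat_lit 315)))))) (XT.nd (nat_lit 390) (nat_lit 456) (nat_lit 0) (XT.nd (nat_lit 156) (nat_lit 228) (nat_lit 0) (XT.nd (nat_lit 78) (nat_lit 76) (nat_lit 0) (XT.lf (nat_lit 0) (nat_lit 229175524144) (nat_lit 0) (nat_lit 257575995388) (nat_lit 152) (nat_lit 229175524144) (nat_lit 180) (nat_lit 3) (nat_lit 180) (nat_lit 1) (nat_lit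 182) (nat_lit 1) (nat_lit 235) (nat_lit 351) (nat_lit 314)) (XT.lf (nat_lit 76) (nat_lit 211274799727) (nat_lit 0) (nat_lit 235970861679) (nat_lit 76) (nat_lit 235970861679) (nat_lit 180) (nat_lit 3) (nat_lit 179) (nat_lit 1) (nat_lit 180) (nat_lit 1) (nat_lit 236) (nat_lit 351) (nat_lit 313))) (XT.nd (nat_lit 78) (nat_lit 76) (nat_lit 0) (XT.lf (nat_lit 152) (nat_lit 640271470395) (nat_lit 0) (nat_lit 6507526205) (nat_lit 76) (nat_lit 6507526205) (nat_lit 179) (nat_lit 1) (nat_lit 177) (nat_lit 1) (nat_lit 178) (nat_lit 1) (nat_lit 237) (nat_lit 351) (nat_lit 312)) (XT.nd (nat_lit 78) (nat_lit 76) (nat_lit 0) (XT.lf (nat_lit 0) (nat_lit 201968143946) (nat_lit 0) (nat_lit 218206205556) (nat_lit 152) (nat_lit 201968143946) (nat_lit 177) (nat_lit 3) (nat_lit 177) (nat_lit 1) (nat_lit 179) (nat_lit 1) (nat_lit 238) (nat_lit 351) (nat_lit 311)) (XT.lf (nat_lit 76) (nat_lit 188508969653) (nat_lit 0)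 (nat_lit 202629023227) (nat_lit 76) (nat_lit 202629023227) (nat_lit 177) (nat_lit 3) (nat_lit 176) (nat_lit 1) (nat_lit 177) (nat_lit 1) (nat_lit 239) (nat_lit 351) (nat_lit 310))))) (XT.nd (nat_lit 234) (nat_lit 228) (nat_lit 0) (XT.nd (nat_lit 78) (nat_lit 76) (nat_lit 0) (XT.lf (nat_lit 152) (nat_lit 560381053651) (nat_lit 0) (nat_lit 3720699229) (nat_lit 76) (nat_lit 3720699229) (nat_lit 176) (nat_lit 1) (nat_lit 174) (nat_lit 1) (nat_lit 175) (nat_lit 1) (nat_lit 240) (nat_lit 351) (nat_lit 309)) (XT.nd (nat_lit 78) (nat_lit 76) (nat_lit 0) (XT.lf (nat_lit 0) (nat_lit 177159675900) (nat_lit 0) (nat_lit 186443840328) (nat_lit 152) (nat_lit 177159675900) (nat_lit 174) (nat_lit 3) (nat_lit 174) (nat_lit 1) (nat_lit 176) (nat_lit 1) (nat_lit 241) (nat_lit 351) (nat_lit 308)) (XT.lf (nat_lit 76) (nat_lit 166660543220) (nat_lit 0) (nat_lit 174733729679) (nat_lit 76) (nat_lit 174733729679) (nat_lit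 174) (nat_lit 3) (nat_lit 173) (nat_lit 1) (nat_lit 174) (nat_lit 1) (nat_lit 242) (nat_lit 351) (nat_lit 307)))) (XT.nd (nat_lit 78) (nat_lit 76) (nat_lit 0) (XT.lf (nat_lit 152) (nat_lit 489359479578) (nat_lit 0) (nat_lit 2127321860) (nat_lit 76) (nat_lit 2127321860) (nat_lit 173) (nat_lit 1) (nat_lit 171) (nat_lit 1) (nat_lit 172) (nat_lit 1) (nat_lit 243) (nat_lit 351) (nat_lit 306)) (XT.nd (nat_lit 78) (nat_lit 76) (nat_lit 0) (XT.lf (nat_lit 0) (nat_lit 154929649330) (nat_lit 0) (nat_lit 160237900474) (nat_lit 152) (nat_lit 154929649330) (nat_lit 171) (nat_lit 3) (nat_lit 171) (nat_lit 1) (nat_lit 173) (nat_lit 1) (nat_lit 244) (nat_lit 351) (nat_lit 305)) (XT.lf (nat_lit 76) (nat_lit 146488643887) (nat_lit 0) (nat_lit 151104514448) (nat_lit 76) (nat_lit 151104514448) (nat_lit 171) (nat_lit 3) (nat_lit 170) (nat_lit 1) (nat_lit 171) (nat_lit 1) (nat_lit 245) (nat_lit 351) (nat_lit 304))))))))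
noncomputable def ec163 : XT := (XT.nd (nat_lit 1716) (nat_lit 1672) (nat_lit 0) (XT.nd (nat_lit 858) (nat_lit 912) (nat_lit 0) (XT.nd (nat_lit 390) (nat_lit 456) (nat_lit 0) (XT.nd (nat_lit 156) (nat_lit 228) (nat_lit 0) (XT.nd (nat_lit 78) (nat_lit 0) (nat_lit 0) (XT.lf (nat_lit 152) (nat_lit 426714430175) (nat_lit 0) (nat_lit 1216303177) (nat_lit 76) (nat_lit 1216303177) (nat_lit 170) (nat_lit 1) (nat_lit 168) (nat_lit 1) (nat_lit 169) (nat_lit 1) (nat_lit 246) (nat_lit 351) (nat_lit 303)) (XT.lf (nat_lit 0) (nat_lit 135223294752) (nat_lit 0) (nat_lit 138258304572) (nat_lit 152) (nat_lit 135223294752) (nat_lit 168) (nat_lit 3) (nat_lit 168) (nat_lit 1) (nat_lit 170) (nat_lit 1) (nat_lit 247) (nat_lit 351) (nat_lit 302))) (XT.nd (nat_lit 78) (nat_lit 152) (nat_lit 0) (XT.lf (nat_lit 76) (nat_lit 128277042271) (nat_lit 0) (nat_lit 130916181245) (nat_lit 76) (nat_lit 130916181245) (nat_lit 168)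 (nat_lit 3) (nat_lit 167) (nat_lit 1) (nat_lit 168) (nat_lit 1) (nat_lit 248) (nat_lit 351) (nat_lit 301)) (XT.nd (nat_lit 78) (nat_lit 0) (nat_lit 0) (XT.lf (nat_lit 152) (nat_lit 371733238189) (nat_lit 0) (nat_lit 695425289) (nat_lit 76) (nat_lit 695425289) (nat_lit 167) (nat_lit 1) (nat_lit 165) (nat_lit 1) (nat_lit 166) (nat_lit 1) (nat_lit 249) (nat_lit 351) (nat_lit 300)) (XT.lf (nat_lit 0) (nat_lit 117872414097) (nat_lit 0) (nat_lit 119607690812) (nat_lit 152) (nat_lit 117872414097) (nat_lit 165) (nat_lit 3) (nat_lit 165) (nat_lit 1) (nat_lit 167) (nat_lit 1) (nat_lit 250) (nat_lit 351) (nat_lit 299))))) (XT.nd (nat_lit 234) (nat_lit 228) (nat_lit 0) (XT.nd (nat_lit 78) (nat_lit 152) (nat_lit 0) (XT.lf (nat_lit 76) (nat_lit 112057323676) (nat_lit 0) (nat_lit 113566259950) (nat_lit 76) (nat_lit 113566259950) (nat_lit 165) (nat_lit 3) (nat_lit 164) (nat_lit 1) (nat_lit 165) (nat_lit 1) (nat_lit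 251) (nat_lit 351) (nat_lit 298)) (XT.nd (nat_lit 78) (nat_lit 0) (nat_lit 0) (XT.lf (nat_lit 152) (nat_lit 323633492208) (nat_lit 0) (nat_lit 397611666) (nat_lit 76) (nat_lit 397611666) (nat_lit 164) (nat_lit 1) (nat_lit 162) (nat_lit 1) (nat_lit 163) (nat_lit 1) (nat_lit 252) (nat_lit 351) (nat_lit 297)) (XT.lf (nat_lit 0) (nat_lit 102661810494) (nat_lit 0) (nat_lit 103653960587) (nat_lit 152) (nat_lit 102661810494) (nat_lit 162) (nat_lit 3) (nat_lit 162) (nat_lit 1) (nat_lit 164) (nat_lit 1) (nat_lit 253) (nat_lit 351) (nat_lit 296)))) (XT.nd (nat_lit 78) (nat_lit 152) (nat_lit 0) (XT.lf (nat_lit 76) (nat_lit 97733928437) (nat_lit 0) (nat_lit 98596667649) (nat_lit 76) (nat_lit 98596667649) (nat_lit 162) (nat_lit 3) (nat_lit 161) (nat_lit 1) (nat_lit 162) (nat_lit 1) (nat_lit 254) (nat_lit 351) (nat_lit 295)) (XT.nd (nat_lit 78) (nat_lit 0) (nat_lit 0) (XT.lf (nat_lit 152) (nat_lit 281641809795)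 (nat_lit 0) (nat_lit 227335760) (nat_lit 76) (nat_lit 227335760) (nat_lit 161) (nat_lit 1) (nat_lit 159) (nat_lit 1) (nat_lit 160) (nat_lit 1) (nat_lit 255) (nat_lit 351) (nat_lit 294)) (XT.lf (nat_lit 0) (nat_lit 89364940885) (nat_lit 0) (nat_lit 89932205921) (nat_lit 152) (nat_lit 89364940885) (nat_lit 159) (nat_lit 3) (nat_lit 159) (nat_lit 1) (nat_lit 161) (nat_lit 1) (nat_lit 256) (nat_lit 351) (nat_lit 293)))))) (XT.nd (nat_lit 390) (nat_lit 456) (nat_lit 0) (XT.nd (nat_lit 156) (nat_lit 228) (nat_lit 0) (XT.nd (nat_lit 78) (nat_lit 152) (nat_lit 0) (XT.lf (nat_lit 76) (nat_lit 85153421165) (nat_lit 0) (nat_lit 85646695109) (nat_lit 76) (nat_lit 85646695109) (nat_lit 159) (nat_lit 3) (nat_lit 158) (nat_lit 1) (nat_lit 159) (nat_lit 1) (nat_lit 257) (nat_lit 351) (nat_lit 292)) (XT.lf (nat_lit 152) (nat_lit 245032497316) (nat_lit 0) (nat_lit 129979959) (nat_lit 76) (nat_lit 129979959) (nat_lit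 158) (nat_lit 1) (nat_lit 156) (nat_lit 1) (nat_lit 157) (nat_lit 1) (nat_lit 258) (nat_lit 351) (nat_lit 291))) (XT.nd (nat_lit 78) (nat_lit 228) (nat_lit 0) (XT.lf (nat_lit 0) (nat_lit 77762275460) (nat_lit 0) (nat_lit 78086611086) (nat_lit 152) (nat_lit 77762275460) (nat_lit 156) (nat_lit 3) (nat_lit 156) (nat_lit 1) (nat_lit 158) (nat_lit 1) (nat_lit 259) (nat_lit 351) (nat_lit 290)) (XT.nd (nat_lit 78) (nat_lit 152) (nat_lit 0) (XT.lf (nat_lit 76) (nat_lit 74142162643) (nat_lit 0) (nat_lit 74424193622) (nat_lit 76) (nat_lit 74424193622) (nat_lit 156) (nat_lit 3) (nat_lit 155) (nat_lit 1) (nat_lit 156) (nat_lit 1) (nat_lit 260) (nat_lit 351) (nat_lit 289)) (XT.lf (nat_lit 152) (nat_lit 213144106896) (nat_lit 0) (nat_lit 74316463) (nat_lit 76) (nat_lit 74316463) (nat_lit 155) (nat_lit 1) (nat_lit 153) (nat_lit 1) (nat_lit 154) (nat_lit 1) (nat_lit 261) (nat_lit 351) (nat_lit 288))))) (XT.nd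 (nat_lit 234) (nat_lit 228) (nat_lit 0) (XT.nd (nat_lit 78) (nat_lit 228) (nat_lit 0) (XT.lf (nat_lit 0) (nat_lit 67650033785) (nat_lit 0) (nat_lit 67835473732) (nat_lit 152) (nat_lit 67650033785) (nat_lit 153) (nat_lit 3) (nat_lit 153) (nat_lit 1) (nat_lit 155) (nat_lit 1) (nat_lit 262) (nat_lit 351) (nat_lit 287)) (XT.nd (nat_lit 78) (nat_lit 152) (nat_lit 0) (XT.lf (nat_lit 76) (nat_lit 64526167968) (nat_lit 0) (nat_lit 64687420096) (nat_lit 76) (nat_lit 64687420096) (nat_lit 153) (nat_lit 3) (nat_lit 152) (nat_lit 1) (nat_lit 153) (nat_lit 1) (nat_lit 263) (nat_lit 351) (nat_lit 286)) (XT.lf (nat_lit 152) (nat_lit 185384079487) (nat_lit 0) (nat_lit 42490679) (nat_lit 76) (nat_lit 42490679) (nat_lit 152) (nat_lit 1) (nat_lit 150) (nat_lit 1) (nat_lit 151) (nat_lit 1) (nat_lit 264) (nat_lit 351) (nat_lit 285)))) (XT.nd (nat_lit 78) (nat_lit 228) (nat_lit 0) (XT.lf (nat_lit 0) (nat_lit 58843648473)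 (nat_lit 0) (nat_lit 58949674365) (nat_lit 152) (nat_lit 58843648473) (nat_lit 150) (nat_lit 3) (nat_lit 150) (nat_lit 1) (nat_lit 152) (nat_lit 1) (nat_lit 265) (nat_lit 351) (nat_lit 284)) (XT.nd (nat_lit 78) (nat_lit 152) (nat_lit 0) (XT.lf (nat_lit 76) (nat_lit 56140998868) (nat_lit 0) (nat_lit 56233195295) (nat_lit 76) (nat_lit 56233195295) (nat_lit 150) (nat_lit 3) (nat_lit 149) (nat_lit 1) (nat_lit 150) (nat_lit 1) (nat_lit 266) (nat_lit 351) (nat_lit 283)) (XT.lf (nat_lit 152) (nat_lit 161227205294) (nat_lit 0) (nat_lit 24294183) (nat_lit 76) (nat_lit 24294183) (nat_lit 149) (nat_lit 1) (nat_lit 147) (nat_lit 1) (nat_lit 148) (nat_lit 1) (nat_lit 267) (nat_lit 351) (nat_lit 282))))))) (XT.nd (nat_lit 858) (nat_lit 912) (nat_lit 0) (XT.nd (nat_lit 390) (nat_lit 456) (nat_lit 0) (XT.nd (nat_lit 156) (nat_lit 228) (nat_lit 0) (XT.nd (nat_lit 78) (nat_lit 76) (nat_lit 0) (XT.lf (nat_lit 0)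 (nat_lit 51178414034) (nat_lit 0) (nat_lit 51239034681) (nat_lit 152) (nat_lit 51178414034) (nat_lit 147) (nat_lit 3) (nat_lit 147) (nat_lit 1) (nat_lit 149) (nat_lit 1) (nat_lit 268) (nat_lit 351) (nat_lit 281)) (XT.lf (nat_lit 76) (nat_lit 48836148667) (nat_lit 0) (nat_lit 48888862273) (nat_lit 76) (nat_lit 48888862273) (nat_lit 147) (nat_lit 3) (nat_lit 146) (nat_lit 1) (nat_lit 147) (nat_lit 1) (nat_lit 269) (nat_lit 351) (nat_lit 280))) (XT.nd (nat_lit 78) (nat_lit 76) (nat_lit 0) (XT.lf (nat_lit 152) (nat_lit 140211096310) (nat_lit 0) (nat_lit 13890278) (nat_lit 76) (nat_lit 13890278) (nat_lit 146) (nat_lit 1) (nat_lit 144) (nat_lit 1) (nat_lit 145) (nat_lit 1) (nat_lit 270) (nat_lit 351) (nat_lit 279)) (XT.nd (nat_lit 78) (nat_lit 76) (nat_lit 0) (XT.lf (nat_lit 0) (nat_lit 44508700012) (nat_lit 0) (nat_lit 44543360064) (nat_lit 152) (nat_lit 44508700012) (nat_lit 144) (nat_lit 3) (nat_lit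 144) (nat_lit 1) (nat_lit 146) (nat_lit 1) (nat_lit 271) (nat_lit 351) (nat_lit 278)) (XT.lf (nat_lit 76) (nat_lit 42476444201) (nat_lit 0) (nat_lit 42506583376) (nat_lit 76) (nat_lit 42506583376) (nat_lit 144) (nat_lit 3) (nat_lit 143) (nat_lit 1) (nat_lit 144) (nat_lit 1) (nat_lit 272) (nat_lit 351) (nat_lit 277))))) (XT.nd (nat_lit 234) (nat_lit 228) (nat_lit 0) (XT.nd (nat_lit 78) (nat_lit 76) (nat_lit 0) (XT.lf (nat_lit 152) (nat_lit 121930426257) (nat_lit 0) (nat_lit 7941811) (nat_lit 76) (nat_lit 7941811) (nat_lit 143) (nat_lit 1) (nat_lit 141) (nat_lit 1) (nat_lit 142) (nat_lit 1) (nat_lit 273) (nat_lit 351) (nat_lit 276)) (XT.nd (nat_lit 78) (nat_lit 76) (nat_lit 0) (XT.lf (nat_lit 0) (nat_lit 38706494284) (nat_lit 0) (nat_lit 38726311281) (nat_lit 152) (nat_lit 38706494284) (nat_lit 141) (nat_lit 3) (nat_lit 141) (nat_lit 1) (nat_lit 143) (nat_lit 1) (nat_lit 274) (nat_lit 351) (nat_lit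 275)) (XT.lf (nat_lit 76) (nat_lit 36941886310) (nat_lit 0) (nat_lit 36959118481) (nat_lit 76) (nat_lit 36959118481) (nat_lit 141) (nat_lit 3) (nat_lit 140) (nat_lit 1) (nat_lit 141) (nat_lit 1) (nat_lit 275) (nat_lit 351) (nat_lit 274)))) (XT.nd (nat_lit 78) (nat_lit 76) (nat_lit 0) (XT.lf (nat_lit 152) (nat_lit 106030879448) (nat_lit 0) (nat_lit 4540756) (nat_lit 76) (nat_lit 4540756) (nat_lit 140) (nat_lit 1) (nat_lit 138) (nat_lit 1) (nat_lit 139) (nat_lit 1) (nat_lit 276) (nat_lit 351) (nat_lit 273)) (XT.nd (nat_lit 78) (nat_lit 76) (nat_lit 0) (XT.lf (nat_lit 0) (nat_lit 33659694684) (nat_lit 0) (nat_lit 33671025117) (nat_lit 152) (nat_lit 33659694684) (nat_lit 138) (nat_lit 3) (nat_lit 138) (nat_lit 1) (nat_lit 140) (nat_lit 1) (nat_lit 277) (nat_lit 351) (nat_lit 272)) (XT.lf (nat_lit 76) (nat_lit 32126722941) (nat_lit 0) (nat_lit 32136575491) (nat_lit 76) (nat_lit 32136575491) (nat_lit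 138) (nat_lit 3) (nat_lit 137) (nat_lit 1) (nat_lit 138) (nat_lit 1) (nat_lit 278) (nat_lit 351) (nat_lit 271)))))) (XT.nd (nat_lit 468) (nat_lit 456) (nat_lit 0) (XT.nd (nat_lit 234) (nat_lit 228) (nat_lit 0) (XT.nd (nat_lit 78) (nat_lit 76) (nat_lit 0) (XT.lf (nat_lit 152) (nat_lit 92203292935) (nat_lit 0) (nat_lit 2596192) (nat_lit 76) (nat_lit 2596192) (nat_lit 137) (nat_lit 1) (nat_lit 135) (nat_lit 1) (nat_lit 136) (nat_lit 1) (nat_lit 279) (nat_lit 351) (nat_lit 270)) (XT.nd (nat_lit 78) (nat_lit 76) (nat_lit 0) (XT.lf (nat_lit 0) (nat_lit 29270370944) (nat_lit 0) (nat_lit 29276849155) (nat_lit 152) (nat_lit 29270370944) (nat_lit 135) (nat_lit 3) (nat_lit 135) (nat_lit 1) (nat_lit 137) (nat_lit 1) (nat_lit 280) (nat_lit 351) (nat_lit 269)) (XT.lf (nat_lit 76) (nat_lit 27938192499) (nat_lit 0) (nat_lit 27943825726) (nat_lit 76) (nat_lit 27943825726) (nat_lit 135) (nat_lit 3) (nat_lit 134)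 (nat_lit 1) (nat_lit 135) (nat_lit 1) (nat_lit 281) (nat_lit 351) (nat_lit 268)))) (XT.nd (nat_lit 78) (nat_lit 76) (nat_lit 0) (XT.lf (nat_lit 152) (nat_lit 80178221970) (nat_lit 0) (nat_lit 1484381) (nat_lit 76) (nat_lit 1484381) (nat_lit 134) (nat_lit 1) (nat_lit 132) (nat_lit 1) (nat_lit 133) (nat_lit 1) (nat_lit 282) (nat_lit 351) (nat_lit 267)) (XT.nd (nat_lit 78) (nat_lit 76) (nat_lit 0) (XT.lf (nat_lit 0) (nat_lit 25453108946) (nat_lit 0) (nat_lit 25456812884) (nat_lit 152) (nat_lit 25453108946) (nat_lit 132) (nat_lit 3) (nat_lit 132) (nat_lit 1) (nat_lit 134) (nat_lit 1) (nat_lit 283) (nat_lit 351) (nat_lit 266)) (XT.lf (nat_lit 76) (nat_lit 24295173443) (nat_lit 0) (nat_lit 24298394259) (nat_lit 76) (nat_lit 24298394259) (nat_lit 132) (nat_lit 3) (nat_lit 131) (nat_lit 1) (nat_lit 132) (nat_lit 1) (nat_lit 284) (nat_lit 351) (nat_lit 265))))) (XT.nd (nat_lit 234) (nat_lit 228) (nat_lit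 0) (XT.nd (nat_lit 78) (nat_lit 76) (nat_lit 0) (XT.lf (nat_lit 152) (nat_lit 69721019490) (nat_lit 0) (nat_lit 848699) (nat_lit 76) (nat_lit 848699) (nat_lit 131) (nat_lit 1) (nat_lit 129) (nat_lit 1) (nat_lit 130) (nat_lit 1) (nat_lit 285) (nat_lit 351) (nat_lit 264)) (XT.nd (nat_lit 78) (nat_lit 76) (nat_lit 0) (XT.lf (nat_lit 0) (nat_lit 22133488397) (nat_lit 0) (nat_lit 22135606136) (nat_lit 152) (nat_lit 22133488397) (nat_lit 129) (nat_lit 3) (nat_lit 129) (nat_lit 1) (nat_lit 131) (nat_lit 1) (nat_lit 286) (nat_lit 351) (nat_lit 263)) (XT.lf (nat_lit 76) (nat_lit 21126862708) (nat_lit 0) (nat_lit 21128704220) (nat_lit 76) (nat_lit 21128704220) (nat_lit 129) (nat_lit 3) (nat_lit 128) (nat_lit 1) (nat_lit 129) (nat_lit 1) (nat_lit 287) (nat_lit 351) (nat_lit 262)))) (XT.nd (nat_lit 78) (nat_lit 76) (nat_lit 0) (XT.lf (nat_lit 152) (nat_lit 60627446008) (nat_lit 0) (nat_lit 485246) (nat_lit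 76) (nat_lit 485246) (nat_lit 128) (nat_lit 1) (nat_lit 126) (nat_lit 1) (nat_lit 127) (nat_lit 1) (nat_lit 288) (nat_lit 351) (nat_lit 261)) (XT.nd (nat_lit 78) (nat_lit 76) (nat_lit 0) (XT.lf (nat_lit 0) (nat_lit 19246711868) (nat_lit 0) (nat_lit 19247922692) (nat_lit 152) (nat_lit 19246711868) (nat_lit 126) (nat_lit 3) (nat_lit 126) (nat_lit 1) (nat_lit 128) (nat_lit 1) (nat_lit 289) (nat_lit 351) (nat_lit 260)) (XT.lf (nat_lit 76) (nat_lit 18371542270) (nat_lit 0) (nat_lit 18372595161) (nat_lit 76) (nat_lit 18372595161) (nat_lit 126) (nat_lit 3) (nat_lit 125) (nat_lit 1) (nat_lit 126) (nat_lit 1) (nat_lit 290) (nat_lit 351) (nat_lit 259))))))))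
noncomputable def ec164 : XT := (XT.nd (nat_lit 1716) (nat_lit 1596) (nat_lit 0) (XT.nd (nat_lit 858) (nat_lit 912) (nat_lit 0) (XT.nd (nat_lit 390) (nat_lit 456) (nat_lit 0) (XT.nd (nat_lit 156) (nat_lit 228) (nat_lit 0) (XT.nd (nat_lit 78) (nat_lit 0) (nat_lit 0) (XT.lf (nat_lit 152) (nat_lit 52719788443) (nat_lit 0) (nat_lit 277441) (nat_lit 76) (nat_lit 277441) (nat_lit 125) (nat_lit 1) (nat_lit 123) (nat_lit 1) (nat_lit 124) (nat_lit 1) (nat_lit 291) (nat_lit 351) (nat_lit 258)) (XT.lf (nat_lit 0) (nat_lit 16736385665) (nat_lit 0) (nat_lit 16737077957) (nat_lit 152) (nat_lit 16736385665) (nat_lit 123) (nat_lit 3) (nat_lit 123) (nat_lit 1) (nat_lit 125) (nat_lit 1) (nat_lit 292) (nat_lit 351) (nat_lit 257))) (XT.nd (nat_lit 78) (nat_lit 152) (nat_lit 0) (XT.lf (nat_lit 76) (nat_lit 15975458439) (nat_lit 0) (nat_lit 15976060433) (nat_lit 76) (nat_lit 15976060433) (nat_lit 123) (nat_lit 3) (nat_lit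 122) (nat_lit 1) (nat_lit 123) (nat_lit 1) (nat_lit 293) (nat_lit 351) (nat_lit 256)) (XT.nd (nat_lit 78) (nat_lit 0) (nat_lit 0) (XT.lf (nat_lit 152) (nat_lit 45843448771) (nat_lit 0) (nat_lit 158628) (nat_lit 76) (nat_lit 158628) (nat_lit 122) (nat_lit 1) (nat_lit 120) (nat_lit 1) (nat_lit 121) (nat_lit 1) (nat_lit 294) (nat_lit 351) (nat_lit 255)) (XT.lf (nat_lit 0) (nat_lit 14553444291) (nat_lit 0) (nat_lit 14553840111) (nat_lit 152) (nat_lit 14553444291) (nat_lit 120) (nat_lit 3) (nat_lit 120) (nat_lit 1) (nat_lit 122) (nat_lit 1) (nat_lit 295) (nat_lit 351) (nat_lit 254))))) (XT.nd (nat_lit 234) (nat_lit 228) (nat_lit 0) (XT.nd (nat_lit 78) (nat_lit 152) (nat_lit 0) (XT.lf (nat_lit 76) (nat_lit 13891819795) (nat_lit 0) (nat_lit 13892163987) (nat_lit 76) (nat_lit 13892163987) (nat_lit 120) (nat_lit 3) (nat_lit 119) (nat_lit 1) (nat_lit 120) (nat_lit 1) (nat_lit 296) (nat_lit 351) (nat_lit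 253)) (XT.nd (nat_lit 78) (nat_lit 0) (nat_lit 0) (XT.lf (nat_lit 152) (nat_lit 39863956818) (nat_lit 0) (nat_lit 90696) (nat_lit 76) (nat_lit 90696) (nat_lit 119) (nat_lit 1) (nat_lit 117) (nat_lit 1) (nat_lit 118) (nat_lit 1) (nat_lit 297) (nat_lit 351) (nat_lit 252)) (XT.lf (nat_lit 0) (nat_lit 12655206371) (nat_lit 0) (nat_lit 12655432682) (nat_lit 152) (nat_lit 12655206371) (nat_lit 117) (nat_lit 3) (nat_lit 117) (nat_lit 1) (nat_lit 119) (nat_lit 1) (nat_lit 298) (nat_lit 351) (nat_lit 251)))) (XT.nd (nat_lit 78) (nat_lit 152) (nat_lit 0) (XT.lf (nat_lit 76) (nat_lit 12079910083) (nat_lit 0) (nat_lit 12080106876) (nat_lit 76) (nat_lit 12080106876) (nat_lit 117) (nat_lit 3) (nat_lit 116) (nat_lit 1) (nat_lit 117) (nat_lit 1) (nat_lit 299) (nat_lit 351) (nat_lit 250)) (XT.nd (nat_lit 78) (nat_lit 0) (nat_lit 0) (XT.lf (nat_lit 152) (nat_lit 34664360774) (nat_lit 0) (nat_lit 51855) (nat_lit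 76) (nat_lit 51855) (nat_lit 116) (nat_lit 1) (nat_lit 114) (nat_lit 1) (nat_lit 115) (nat_lit 1) (nat_lit 300) (nat_lit 351) (nat_lit 249)) (XT.lf (nat_lit 0) (nat_lit 11004548675) (nat_lit 0) (nat_lit 11004678069) (nat_lit 152) (nat_lit 11004548675) (nat_lit 114) (nat_lit 3) (nat_lit 114) (nat_lit 1) (nat_lit 116) (nat_lit 1) (nat_lit 301) (nat_lit 351) (nat_lit 248)))))) (XT.nd (nat_lit 390) (nat_lit 456) (nat_lit 0) (XT.nd (nat_lit 156) (nat_lit 228) (nat_lit 0) (XT.nd (nat_lit 78) (nat_lit 152) (nat_lit 0) (XT.lf (nat_lit 76) (nat_lit 10504307821) (nat_lit 0) (nat_lit 10504420338) (nat_lit 76) (nat_lit 10504420338) (nat_lit 114) (nat_lit 3) (nat_lit 113) (nat_lit 1) (nat_lit 114) (nat_lit 1) (nat_lit 302) (nat_lit 351) (nat_lit 247)) (XT.lf (nat_lit 152) (nat_lit 30142951284) (nat_lit 0) (nat_lit 29648) (nat_lit 76) (nat_lit 29648) (nat_lit 113) (nat_lit 1) (nat_lit 111) (nat_lit 1) (nat_lit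 112) (nat_lit 1) (nat_lit 303) (nat_lit 351) (nat_lit 246))) (XT.nd (nat_lit 78) (nat_lit 228) (nat_lit 0) (XT.lf (nat_lit 0) (nat_lit 9569184994) (nat_lit 0) (nat_lit 9569258976) (nat_lit 152) (nat_lit 9569184994) (nat_lit 111) (nat_lit 3) (nat_lit 111) (nat_lit 1) (nat_lit 113) (nat_lit 1) (nat_lit 304) (nat_lit 351) (nat_lit 245)) (XT.nd (nat_lit 78) (nat_lit 152) (nat_lit 0) (XT.lf (nat_lit 76) (nat_lit 9134202545) (nat_lit 0) (nat_lit 9134266877) (nat_lit 76) (nat_lit 9134266877) (nat_lit 111) (nat_lit 3) (nat_lit 110) (nat_lit 1) (nat_lit 111) (nat_lit 1) (nat_lit 305) (nat_lit 351) (nat_lit 244)) (XT.lf (nat_lit 152) (nat_lit 26211278494) (nat_lit 0) (nat_lit 16951) (nat_lit 76) (nat_lit 16951) (nat_lit 110) (nat_lit 1) (nat_lit 108) (nat_lit 1) (nat_lit 109) (nat_lit 1) (nat_lit 306) (nat_lit 351) (nat_lit 243))))) (XT.nd (nat_lit 234) (nat_lit 228) (nat_lit 0) (XT.nd (nat_lit 78) (nat_lit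 228) (nat_lit 0) (XT.lf (nat_lit 0) (nat_lit 8321037424) (nat_lit 0) (nat_lit 8321079723) (nat_lit 152) (nat_lit 8321037424) (nat_lit 108) (nat_lit 3) (nat_lit 108) (nat_lit 1) (nat_lit 110) (nat_lit 1) (nat_lit 307) (nat_lit 351) (nat_lit 242)) (XT.nd (nat_lit 78) (nat_lit 152) (nat_lit 0) (XT.lf (nat_lit 76) (nat_lit 7942797304) (nat_lit 0) (nat_lit 7942834086) (nat_lit 76) (nat_lit 7942834086) (nat_lit 108) (nat_lit 3) (nat_lit 107) (nat_lit 1) (nat_lit 108) (nat_lit 1) (nat_lit 308) (nat_lit 351) (nat_lit 241)) (XT.lf (nat_lit 152) (nat_lit 22792425520) (nat_lit 0) (nat_lit 9692) (nat_lit 76) (nat_lit 9692) (nat_lit 107) (nat_lit 1) (nat_lit 105) (nat_lit 1) (nat_lit 106) (nat_lit 1) (nat_lit 309) (nat_lit 351) (nat_lit 240)))) (XT.nd (nat_lit 78) (nat_lit 228) (nat_lit 0) (XT.lf (nat_lit 0) (nat_lit 7235688716) (nat_lit 0) (nat_lit 7235712900) (nat_lit 152) (nat_lit 7235688716) (nat_lit 105)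 (nat_lit 3) (nat_lit 105) (nat_lit 1) (nat_lit 107) (nat_lit 1) (nat_lit 310) (nat_lit 351) (nat_lit 239)) (XT.nd (nat_lit 78) (nat_lit 152) (nat_lit 0) (XT.lf (nat_lit 76) (nat_lit 6906787401) (nat_lit 0) (nat_lit 6906808431) (nat_lit 76) (nat_lit 6906808431) (nat_lit 105) (nat_lit 3) (nat_lit 104) (nat_lit 1) (nat_lit 105) (nat_lit 1) (nat_lit 311) (nat_lit 351) (nat_lit 238)) (XT.lf (nat_lit 152) (nat_lit 19819505849) (nat_lit 0) (nat_lit 5541) (nat_lit 76) (nat_lit 5541) (nat_lit 104) (nat_lit 1) (nat_lit 102) (nat_lit 1) (nat_lit 103) (nat_lit 1) (nat_lit 312) (nat_lit 351) (nat_lit 237))))))) (XT.nd (nat_lit 858) (nat_lit 836) (nat_lit 0) (XT.nd (nat_lit 390) (nat_lit 456) (nat_lit 0) (XT.nd (nat_lit 156) (nat_lit 228) (nat_lit 0) (XT.nd (nat_lit 78) (nat_lit 76) (nat_lit 0) (XT.lf (nat_lit 0) (nat_lit 6291905517) (nat_lit 0) (nat_lit 6291919345) (nat_lit 152) (nat_lit 6291905517) (nat_lit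 102) (nat_lit 3) (nat_lit 102) (nat_lit 1) (nat_lit 104) (nat_lit 1) (nat_lit 313) (nat_lit 351) (nat_lit 236)) (XT.lf (nat_lit 76) (nat_lit 6005906168) (nat_lit 0) (nat_lit 6005918193) (nat_lit 76) (nat_lit 6005918193) (nat_lit 102) (nat_lit 3) (nat_lit 101) (nat_lit 1) (nat_lit 102) (nat_lit 1) (nat_lit 314) (nat_lit 351) (nat_lit 235))) (XT.nd (nat_lit 78) (nat_lit 76) (nat_lit 0) (XT.lf (nat_lit 152) (nat_lit 17234355997) (nat_lit 0) (nat_lit 3168) (nat_lit 76) (nat_lit 3168) (nat_lit 101) (nat_lit 1) (nat_lit 99) (nat_lit 1) (nat_lit 100) (nat_lit 1) (nat_lit 315) (nat_lit 351) (nat_lit 234)) (XT.nd (nat_lit 78) (nat_lit 76) (nat_lit 0) (XT.lf (nat_lit 0) (nat_lit 5471223496) (nat_lit 0) (nat_lit 5471231402) (nat_lit 152) (nat_lit 5471223496) (nat_lit 99) (nat_lit 3) (nat_lit 99) (nat_lit 1) (nat_lit 101) (nat_lit 1) (nat_lit 316) (nat_lit 351) (nat_lit 233)) (XT.lf (nat_lit 76) (nat_lit 5222529436)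 (nat_lit 0) (nat_lit 5222536311) (nat_lit 76) (nat_lit 5222536311) (nat_lit 99) (nat_lit 3) (nat_lit 98) (nat_lit 1) (nat_lit 99) (nat_lit 1) (nat_lit 317) (nat_lit 351) (nat_lit 232))))) (XT.nd (nat_lit 234) (nat_lit 228) (nat_lit 0) (XT.nd (nat_lit 78) (nat_lit 76) (nat_lit 0) (XT.lf (nat_lit 152) (nat_lit 14986398283) (nat_lit 0) (nat_lit 1811) (nat_lit 76) (nat_lit 1811) (nat_lit 98) (nat_lit 1) (nat_lit 96) (nat_lit 1) (nat_lit 97) (nat_lit 1) (nat_lit 318) (nat_lit 351) (nat_lit 231)) (XT.nd (nat_lit 78) (nat_lit 76) (nat_lit 0) (XT.lf (nat_lit 0) (nat_lit 4757586396) (nat_lit 0) (nat_lit 4757590917) (nat_lit 152) (nat_lit 4757586396) (nat_lit 96) (nat_lit 3) (nat_lit 96) (nat_lit 1) (nat_lit 98) (nat_lit 1) (nat_lit 319) (nat_lit 351) (nat_lit 230)) (XT.lf (nat_lit 76) (nat_lit 4541331278) (nat_lit 0) (nat_lit 4541335209) (nat_lit 76) (nat_lit 4541335209) (nat_lit 96) (nat_lit 3) (nat_lit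 95) (nat_lit 1) (nat_lit 96) (nat_lit 1) (nat_lit 320) (nat_lit 351) (nat_lit 229)))) (XT.nd (nat_lit 78) (nat_lit 76) (nat_lit 0) (XT.lf (nat_lit 152) (nat_lit 13031651690) (nat_lit 0) (nat_lit 1035) (nat_lit 76) (nat_lit 1035) (nat_lit 95) (nat_lit 1) (nat_lit 93) (nat_lit 1) (nat_lit 94) (nat_lit 1) (nat_lit 321) (nat_lit 351) (nat_lit 228)) (XT.nd (nat_lit 78) (nat_lit 76) (nat_lit 0) (XT.lf (nat_lit 0) (nat_lit 4137032076) (nat_lit 0) (nat_lit 4137034661) (nat_lit 152) (nat_lit 4137032076) (nat_lit 93) (nat_lit 3) (nat_lit 93) (nat_lit 1) (nat_lit 95) (nat_lit 1) (nat_lit 322) (nat_lit 351) (nat_lit 227)) (XT.lf (nat_lit 76) (nat_lit 3948984483) (nat_lit 0) (nat_lit 3948986730) (nat_lit 76) (nat_lit 3948986730) (nat_lit 93) (nat_lit 3) (nat_lit 92) (nat_lit 1) (nat_lit 93) (nat_lit 1) (nat_lit 323) (nat_lit 351) (nat_lit 226)))))) (XT.nd (nat_lit 390) (nat_lit 456) (nat_lit 0) (XT.nd (nat_lit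 156) (nat_lit 228) (nat_lit 0) (XT.nd (nat_lit 78) (nat_lit 0) (nat_lit 0) (XT.lf (nat_lit 152) (nat_lit 11331871611) (nat_lit 0) (nat_lit 592) (nat_lit 76) (nat_lit 592) (nat_lit 92) (nat_lit 1) (nat_lit 90) (nat_lit 1) (nat_lit 91) (nat_lit 1) (nat_lit 324) (nat_lit 351) (nat_lit 225)) (XT.lf (nat_lit 0) (nat_lit 3597419441) (nat_lit 0) (nat_lit 3597420919) (nat_lit 152) (nat_lit 3597419441) (nat_lit 90) (nat_lit 3) (nat_lit 90) (nat_lit 1) (nat_lit 92) (nat_lit 1) (nat_lit 325) (nat_lit 351) (nat_lit 224))) (XT.nd (nat_lit 78) (nat_lit 152) (nat_lit 0) (XT.lf (nat_lit 76) (nat_lit 3433899986) (nat_lit 0) (nat_lit 3433901271) (nat_lit 76) (nat_lit 3433901271) (nat_lit 90) (nat_lit 3) (nat_lit 89) (nat_lit 1) (nat_lit 90) (nat_lit 1) (nat_lit 326) (nat_lit 351) (nat_lit 223)) (XT.nd (nat_lit 78) (nat_lit 0) (nat_lit 0) (XT.lf (nat_lit 152) (nat_lit 9853801731) (nat_lit 0) (nat_lit 338) (nat_lit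 76) (nat_lit 338) (nat_lit 89) (nat_lit 1) (nat_lit 87) (nat_lit 1) (nat_lit 88) (nat_lit 1) (nat_lit 327) (nat_lit 351) (nat_lit 222)) (XT.lf (nat_lit 0) (nat_lit 3128190958) (nat_lit 0) (nat_lit 3128191803) (nat_lit 152) (nat_lit 3128190958) (nat_lit 87) (nat_lit 3) (nat_lit 87) (nat_lit 1) (nat_lit 89) (nat_lit 1) (nat_lit 328) (nat_lit 351) (nat_lit 221))))) (XT.nd (nat_lit 234) (nat_lit 228) (nat_lit 0) (XT.nd (nat_lit 78) (nat_lit 152) (nat_lit 0) (XT.lf (nat_lit 76) (nat_lit 2986000237) (nat_lit 0) (nat_lit 2986000972) (nat_lit 76) (nat_lit 2986000972) (nat_lit 87) (nat_lit 3) (nat_lit 86) (nat_lit 1) (nat_lit 87) (nat_lit 1) (nat_lit 329) (nat_lit 351) (nat_lit 220)) (XT.nd (nat_lit 78) (nat_lit 0) (nat_lit 0) (XT.lf (nat_lit 152) (nat_lit 8568523432) (nat_lit 0) (nat_lit 193) (nat_lit 76) (nat_lit 193) (nat_lit 86) (nat_lit 1) (nat_lit 84) (nat_lit 1) (nat_lit 85) (nat_lit 1) (nat_lit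 330) (nat_lit 351) (nat_lit 219)) (XT.lf (nat_lit 0) (nat_lit 2720166130) (nat_lit 0) (nat_lit 2720166613) (nat_lit 152) (nat_lit 2720166130) (nat_lit 84) (nat_lit 3) (nat_lit 84) (nat_lit 1) (nat_lit 86) (nat_lit 1) (nat_lit 331) (nat_lit 351) (nat_lit 218)))) (XT.nd (nat_lit 78) (nat_lit 152) (nat_lit 0) (XT.lf (nat_lit 76) (nat_lit 2596522088) (nat_lit 0) (nat_lit 2596522508) (nat_lit 76) (nat_lit 2596522508) (nat_lit 84) (nat_lit 3) (nat_lit 83) (nat_lit 1) (nat_lit 84) (nat_lit 1) (nat_lit 332) (nat_lit 351) (nat_lit 217)) (XT.nd (nat_lit 78) (nat_lit 0) (nat_lit 0) (XT.lf (nat_lit 152) (nat_lit 7450890049) (nat_lit 0) (nat_lit 110) (nat_lit 76) (nat_lit 110) (nat_lit 83) (nat_lit 1) (nat_lit 81) (nat_lit 1) (nat_lit 82) (nat_lit 1) (nat_lit 333) (nat_lit 351) (nat_lit 216)) (XT.lf (nat_lit 0) (nat_lit 2365361898) (nat_lit 0) (nat_lit 2365362174) (nat_lit 152) (nat_lit 2365361898) (nat_lit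 81) (nat_lit 3) (nat_lit 81) (nat_lit 1) (nat_lit 83) (nat_lit 1) (nat_lit 334) (nat_lit 351) (nat_lit 215))))))))
noncomputable def ec165 : XT := (XT.nd (nat_lit 1716) (nat_lit 1140) (nat_lit 0) (XT.nd (nat_lit 858) (nat_lit 760) (nat_lit 0) (XT.nd (nat_lit 390) (nat_lit 456) (nat_lit 0) (XT.nd (nat_lit 156) (nat_lit 228) (nat_lit 0) (XT.nd (nat_lit 78) (nat_lit 152) (nat_lit 0) (XT.lf (nat_lit 76) (nat_lit 2257845375) (nat_lit 0) (nat_lit 2257845615) (nat_lit 76) (nat_lit 2257845615) (nat_lit 81) (nat_lit 3) (nat_lit 80) (nat_lit 1) (nat_lit 81) (nat_lit 1) (nat_lit 335) (nat_lit 351) (nat_lit 214)) (XT.lf (nat_lit 152) (nat_lit 6479034887) (nat_lit 0) (nat_lit 63) (nat_lit 76) (nat_lit 63) (nat_lit 80) (nat_lit 1) (nat_lit 78) (nat_lit 1) (nat_lit 79) (nat_lit 1) (nat_lit 336) (nat_lit 351) (nat_lit 213))) (XT.nd (nat_lit 78) (nat_lit 228) (nat_lit 0) (XT.lf (nat_lit 0) (nat_lit 2056836459)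 (nat_lit 0) (nat_lit 2056836617) (nat_lit 152) (nat_lit 2056836459) (nat_lit 78) (nat_lit 3) (nat_lit 78) (nat_lit 1) (nat_lit 80) (nat_lit 1) (nat_lit 337) (nat_lit 351) (nat_lit 212)) (XT.nd (nat_lit 78) (nat_lit 152) (nat_lit 0) (XT.lf (nat_lit 76) (nat_lit 1963343851) (nat_lit 0) (nat_lit 1963343988) (nat_lit 76) (nat_lit 1963343988) (nat_lit 78) (nat_lit 3) (nat_lit 77) (nat_lit 1) (nat_lit 78) (nat_lit 1) (nat_lit 338) (nat_lit 351) (nat_lit 211)) (XT.lf (nat_lit 152) (nat_lit 5633943415) (nat_lit 0) (nat_lit 36) (nat_lit 76) (nat_lit 36) (nat_lit 77) (nat_lit 1) (nat_lit 75) (nat_lit 1) (nat_lit 76) (nat_lit 1) (nat_lit 339) (nat_lit 351) (nat_lit 210))))) (XT.nd (nat_lit 234) (nat_lit 228) (nat_lit 0) (XT.nd (nat_lit 78) (nat_lit 228) (nat_lit 0) (XT.lf (nat_lit 0) (nat_lit 1788553458) (nat_lit 0) (nat_lit 1788553548) (nat_lit 152) (nat_lit 1788553458) (nat_lit 75) (nat_lit 3) (nat_lit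 75) (nat_lit 1) (nat_lit 77) (nat_lit 1) (nat_lit 340) (nat_lit 351) (nat_lit 209)) (XT.nd (nat_lit 78) (nat_lit 152) (nat_lit 0) (XT.lf (nat_lit 76) (nat_lit 1707255549) (nat_lit 0) (nat_lit 1707255628) (nat_lit 76) (nat_lit 1707255628) (nat_lit 75) (nat_lit 3) (nat_lit 74) (nat_lit 1) (nat_lit 75) (nat_lit 1) (nat_lit 341) (nat_lit 351) (nat_lit 208)) (XT.lf (nat_lit 152) (nat_lit 4899081251) (nat_lit 0) (nat_lit 20) (nat_lit 76) (nat_lit 20) (nat_lit 74) (nat_lit 1) (nat_lit 72) (nat_lit 1) (nat_lit 73) (nat_lit 1) (nat_lit 342) (nat_lit 351) (nat_lit 207)))) (XT.nd (nat_lit 78) (nat_lit 228) (nat_lit 0) (XT.lf (nat_lit 0) (nat_lit 1555263885) (nat_lit 0) (nat_lit 1555263936) (nat_lit 152) (nat_lit 1555263885) (nat_lit 72) (nat_lit 3) (nat_lit 72) (nat_lit 1) (nat_lit 74) (nat_lit 1) (nat_lit 343) (nat_lit 351) (nat_lit 206)) (XT.nd (nat_lit 78) (nat_lit 152) (nat_lit 0) (XT.lf (nat_lit 76)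 (nat_lit 1484570058) (nat_lit 0) (nat_lit 1484570103) (nat_lit 76) (nat_lit 1484570103) (nat_lit 72) (nat_lit 3) (nat_lit 71) (nat_lit 1) (nat_lit 72) (nat_lit 1) (nat_lit 344) (nat_lit 351) (nat_lit 205)) (XT.lf (nat_lit 152) (nat_lit 4260070664) (nat_lit 0) (nat_lit 11) (nat_lit 76) (nat_lit 11) (nat_lit 71) (nat_lit 1) (nat_lit 69) (nat_lit 1) (nat_lit 70) (nat_lit 1) (nat_lit 345) (nat_lit 351) (nat_lit 204)))))) (XT.nd (nat_lit 390) (nat_lit 456) (nat_lit 0) (XT.nd (nat_lit 156) (nat_lit 228) (nat_lit 0) (XT.nd (nat_lit 78) (nat_lit 76) (nat_lit 0) (XT.lf (nat_lit 0) (nat_lit 1352403383) (nat_lit 0) (nat_lit 1352403412) (nat_lit 152) (nat_lit 1352403383) (nat_lit 69) (nat_lit 3) (nat_lit 69) (nat_lit 1) (nat_lit 71) (nat_lit 1) (nat_lit 346) (nat_lit 351) (nat_lit 203)) (XT.lf (nat_lit 76) (nat_lit 1290930494) (nat_lit 0) (nat_lit 1290930520) (nat_lit 76) (nat_lit 1290930520) (nat_lit 69)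 (nat_lit 3) (nat_lit 68) (nat_lit 1) (nat_lit 69) (nat_lit 1) (nat_lit 347) (nat_lit 351) (nat_lit 202))) (XT.nd (nat_lit 78) (nat_lit 76) (nat_lit 0) (XT.lf (nat_lit 152) (nat_lit 3704409280) (nat_lit 0) (nat_lit 6) (nat_lit 76) (nat_lit 6) (nat_lit 68) (nat_lit 1) (nat_lit 66) (nat_lit 1) (nat_lit 67) (nat_lit 1) (nat_lit 348) (nat_lit 351) (nat_lit 201)) (XT.nd (nat_lit 78) (nat_lit 76) (nat_lit 0) (XT.lf (nat_lit 0) (nat_lit 1176002944) (nat_lit 0) (nat_lit 1176002961) (nat_lit 152) (nat_lit 1176002944) (nat_lit 66) (nat_lit 3) (nat_lit 66) (nat_lit 1) (nat_lit 68) (nat_lit 1) (nat_lit 349) (nat_lit 351) (nat_lit 200)) (XT.lf (nat_lit 76) (nat_lit 1122548260) (nat_lit 0) (nat_lit 1122548275) (nat_lit 76) (nat_lit 1122548275) (nat_lit 66) (nat_lit 3) (nat_lit 65) (nat_lit 1) (nat_lit 66) (nat_lit 1) (nat_lit 350) (nat_lit 351) (nat_lit 199))))) (XT.nd (nat_lit 234) (nat_lit 228) (nat_lit 0)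 (XT.nd (nat_lit 78) (nat_lit 76) (nat_lit 0) (XT.lf (nat_lit 152) (nat_lit 3221225464) (nat_lit 0) (nat_lit 3) (nat_lit 76) (nat_lit 3) (nat_lit 65) (nat_lit 1) (nat_lit 63) (nat_lit 1) (nat_lit 64) (nat_lit 1) (nat_lit 351) (nat_lit 351) (nat_lit 198)) (XT.nd (nat_lit 78) (nat_lit 76) (nat_lit 0) (XT.lf (nat_lit 0) (nat_lit 1022611257) (nat_lit 0) (nat_lit 1022611267) (nat_lit 152) (nat_lit 1022611257) (nat_lit 63) (nat_lit 3) (nat_lit 63) (nat_lit 1) (nat_lit 65) (nat_lit 1) (nat_lit 352) (nat_lit 351) (nat_lit 197)) (XT.lf (nat_lit 76) (nat_lit 976128925) (nat_lit 0) (nat_lit 976128933) (nat_lit 76) (nat_lit 976128933) (nat_lit 63) (nat_lit 3) (nat_lit 62) (nat_lit 1) (nat_lit 63) (nat_lit 1) (nat_lit 353) (nat_lit 351) (nat_lit 196)))) (XT.nd (nat_lit 78) (nat_lit 76) (nat_lit 0) (XT.lf (nat_lit 152) (nat_lit 2801065623) (nat_lit 0) (nat_lit 2) (nat_lit 76) (nat_lit 2) (nat_lit 62) (nat_lit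 1) (nat_lit 60) (nat_lit 1) (nat_lit 61) (nat_lit 1) (nat_lit 354) (nat_lit 351) (nat_lit 195)) (XT.nd (nat_lit 78) (nat_lit 76) (nat_lit 0) (XT.lf (nat_lit 0) (nat_lit 889227181) (nat_lit 0) (nat_lit 889227187) (nat_lit 152) (nat_lit 889227181) (nat_lit 60) (nat_lit 3) (nat_lit 60) (nat_lit 1) (nat_lit 62) (nat_lit 1) (nat_lit 355) (nat_lit 351) (nat_lit 194)) (XT.lf (nat_lit 76) (nat_lit 848807762) (nat_lit 0) (nat_lit 848807767) (nat_lit 76) (nat_lit 848807767) (nat_lit 60) (nat_lit 3) (nat_lit 59) (nat_lit 1) (nat_lit 60) (nat_lit 1) (nat_lit 356) (nat_lit 351) (nat_lit 193))))))) (XT.nd (nat_lit 858) (nat_lit 304) (nat_lit 0) (XT.nd (nat_lit 390) (nat_lit 456) (nat_lit 0) (XT.nd (nat_lit 156) (nat_lit 228) (nat_lit 0) (XT.nd (nat_lit 78) (nat_lit 0) (nat_lit 0) (XT.lf (nat_lit 152) (nat_lit 2435709239) (nat_lit 0) (nat_lit 1) (nat_lit 76) (nat_lit 1) (nat_lit 59) (nat_lit 1) (nat_lit 57) (nat_lit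 1) (nat_lit 58) (nat_lit 1) (nat_lit 357) (nat_lit 351) (nat_lit 192)) (XT.lf (nat_lit 0) (nat_lit 773241028) (nat_lit 0) (nat_lit 773241031) (nat_lit 152) (nat_lit 773241028) (nat_lit 57) (nat_lit 3) (nat_lit 57) (nat_lit 1) (nat_lit 59) (nat_lit 1) (nat_lit 358) (nat_lit 351) (nat_lit 191))) (XT.nd (nat_lit 78) (nat_lit 152) (nat_lit 0) (XT.lf (nat_lit 76) (nat_lit 738093707) (nat_lit 0) (nat_lit 738093710) (nat_lit 76) (nat_lit 738093710) (nat_lit 57) (nat_lit 3) (nat_lit 56) (nat_lit 1) (nat_lit 57) (nat_lit 1) (nat_lit 359) (nat_lit 351) (nat_lit 190)) (XT.nd (nat_lit 78) (nat_lit 152) (nat_lit 0) (XT.lf (nat_lit 0) (nat_lit 2118008034) (nat_lit 0) (nat_lit 0) (nat_lit 0) (nat_lit 0) (nat_lit 56) (nat_lit 1) (nat_lit 1) (nat_lit 0) (nat_lit 1) (nat_lit 0) (nat_lit 360) (nat_lit 351) (nat_lit 189)) (XT.lf (nat_lit 0) (nat_lit 672383502) (nat_lit 0) (nat_lit 672383504) (nat_lit 152) (nat_lit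 672383502) (nat_lit 54) (nat_lit 3) (nat_lit 54) (nat_lit 1) (nat_lit 56) (nat_lit 1) (nat_lit 361) (nat_lit 351) (nat_lit 188))))) (XT.nd (nat_lit 234) (nat_lit 228) (nat_lit 0) (XT.nd (nat_lit 78) (nat_lit 152) (nat_lit 0) (XT.lf (nat_lit 76) (nat_lit 641820615) (nat_lit 0) (nat_lit 641820617) (nat_lit 76) (nat_lit 641820617) (nat_lit 54) (nat_lit 3) (nat_lit 53) (nat_lit 1) (nat_lit 54) (nat_lit 1) (nat_lit 362) (nat_lit 351) (nat_lit 187)) (XT.nd (nat_lit 78) (nat_lit 152) (nat_lit 0) (XT.lf (nat_lit 0) (nat_lit 1841746117) (nat_lit 0) (nat_lit 0) (nat_lit 0) (nat_lit 0) (nat_lit 53) (nat_lit 1) (nat_lit 1) (nat_lit 0) (nat_lit 1) (nat_lit 0) (nat_lit 363) (nat_lit 351) (nat_lit 186)) (XT.lf (nat_lit 0) (nat_lit 584681307) (nat_lit 0) (nat_lit 584681308) (nat_lit 152) (nat_lit 584681307) (nat_lit 51) (nat_lit 3) (nat_lit 51) (nat_lit 1) (nat_lit 53) (nat_lit 1) (nat_lit 364) (nat_lit 351) (nat_lit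 185)))) (XT.nd (nat_lit 78) (nat_lit 152) (nat_lit 0) (XT.lf (nat_lit 76) (nat_lit 558104883) (nat_lit 0) (nat_lit 558104884) (nat_lit 76) (nat_lit 558104884) (nat_lit 51) (nat_lit 3) (nat_lit 50) (nat_lit 1) (nat_lit 51) (nat_lit 1) (nat_lit 365) (nat_lit 351) (nat_lit 184)) (XT.nd (nat_lit 78) (nat_lit 152) (nat_lit 0) (XT.lf (nat_lit 0) (nat_lit 1601518363) (nat_lit 0) (nat_lit 0) (nat_lit 0) (nat_lit 0) (nat_lit 50) (nat_lit 1) (nat_lit 1) (nat_lit 0) (nat_lit 1) (nat_lit 0) (nat_lit 366) (nat_lit 351) (nat_lit 183)) (XT.lf (nat_lit 0) (nat_lit 508418528) (nat_lit 0) (nat_lit 508418528) (nat_lit 152) (nat_lit 508418528) (nat_lit 48) (nat_lit 3) (nat_lit 48) (nat_lit 1) (nat_lit 50) (nat_lit 1) (nat_lit 367) (nat_lit 351) (nat_lit 182)))))) (XT.nd (nat_lit 33618) (nat_lit 0) (nat_lit 12692) (XT.nd (nat_lit 234) (nat_lit 76) (nat_lit 0) (XT.nd (nat_lit 78) (nat_lit 152) (nat_lit 0) (XT.lf (nat_lit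 76) (nat_lit 485308594) (nat_lit 0) (nat_lit 485308595) (nat_lit 76) (nat_lit 485308595) (nat_lit 48) (nat_lit 3) (nat_lit 47) (nat_lit 1) (nat_lit 48) (nat_lit 1) (nat_lit 368) (nat_lit 351) (nat_lit 181)) (XT.nd (nat_lit 78) (nat_lit 152) (nat_lit 0) (XT.lf (nat_lit 0) (nat_lit 1392624663) (nat_lit 0) (nat_lit 0) (nat_lit 0) (nat_lit 0) (nat_lit 47) (nat_lit 1) (nat_lit 1) (nat_lit 0) (nat_lit 1) (nat_lit 0) (nat_lit 369) (nat_lit 351) (nat_lit 180)) (XT.lf (nat_lit 0) (nat_lit 442103067) (nat_lit 0) (nat_lit 442103068) (nat_lit 152) (nat_lit 442103067) (nat_lit 45) (nat_lit 3) (nat_lit 45) (nat_lit 1) (nat_lit 47) (nat_lit 1) (nat_lit 370) (nat_lit 351) (nat_lit 179)))) (XT.nd (nat_lit 33228) (nat_lit 0) (nat_lit 12996) (XT.lf (nat_lit 76) (nat_lit 422007473) (nat_lit 0) (nat_lit 422007474) (nat_lit 76) (nat_lit 422007474) (nat_lit 45) (nat_lit 3) (nat_lit 44) (nat_lit 1) (nat_lit 45) (nat_lit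 1) (nat_lit 371) (nat_lit 351) (nat_lit 178)) (XT.nd (nat_lit 78) (nat_lit 0) (nat_lit 0) (XT.lf (nat_lit 380) (nat_lit 1005569602375) (nat_lit 0) (nat_lit 890657745371) (nat_lit 380) (nat_lit 1005569602375) (nat_lit 220) (nat_lit 1) (nat_lit 215) (nat_lit 0) (nat_lit 220) (nat_lit 0) (nat_lit 196) (nat_lit 352) (nat_lit 352)) (XT.lf (nat_lit 380) (nat_lit 3719471461563) (nat_lit 76) (nat_lit 850173302399) (nat_lit 0) (nat_lit 850173302399) (nat_lit 220) (nat_lit 1) (nat_lit 216) (nat_lit 1) (nat_lit 215) (nat_lit 0) (nat_lit 197) (nat_lit 352) (nat_lit 351))))) (XT.nd (nat_lit 234) (nat_lit 380) (nat_lit 0) (XT.nd (nat_lit 78) (nat_lit 0) (nat_lit 0) (XT.lf (nat_lit 380) (nat_lit 1639521691702) (nat_lit 0) (nat_lit 1783954259324) (nat_lit 304) (nat_lit 1639521691702) (nat_lit 221) (nat_lit 1) (nat_lit 216) (nat_lit 1) (nat_lit 220) (nat_lit 1) (nat_lit 198) (nat_lit 352) (nat_lit 350)) (XT.nd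 (nat_lit 78) (nat_lit 0) (nat_lit 76) (XT.lf (nat_lit 380) (nat_lit 2814973615907) (nat_lit 76) (nat_lit 963584296833) (nat_lit 0) (nat_lit 963584296833) (nat_lit 221) (nat_lit 1) (nat_lit 217) (nat_lit 1) (nat_lit 216) (nat_lit 1) (nat_lit 199) (nat_lit 352) (nat_lit 349)) (XT.lf (nat_lit 76) (nat_lit 1138694162493) (nat_lit 0) (nat_lit 2168264851931) (nat_lit 304) (nat_lit 1138694162493) (nat_lit 218) (nat_lit 1) (nat_lit 217) (nat_lit 1) (nat_lit 221) (nat_lit 1) (nat_lit 200) (nat_lit 352) (nat_lit 348)))) (XT.nd (nat_lit 78) (nat_lit 152) (nat_lit 0) (XT.lf (nat_lit 380) (nat_lit 1711365361350) (nat_lit 0) (nat_lit 1231807970111) (nat_lit 304) (nat_lit 1231807970111) (nat_lit 218) (nat_lit 1) (nat_lit 213) (nat_lit 1) (nat_lit 217) (nat_lit 1) (nat_lit 201) (nat_lit 352) (nat_lit 347)) (XT.nd (nat_lit 78) (nat_lit 152) (nat_lit 0) (XT.lf (nat_lit 76) (nat_lit 568838945645) (nat_lit 0) (nat_lit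 2791306963636) (nat_lit 380) (nat_lit 568838945645) (nat_lit 214) (nat_lit 1) (nat_lit 213) (nat_lit 1) (nat_lit 218) (nat_lit 1) (nat_lit 202) (nat_lit 352) (nat_lit 346)) (XT.lf (nat_lit 228) (nat_lit 511941632419) (nat_lit 0) (nat_lit 1593292009066) (nat_lit 152) (nat_lit 1593292009066) (nat_lit 214) (nat_lit 1) (nat_lit 211) (nat_lit 1) (nat_lit 213) (nat_lit 1) (nat_lit 203) (nat_lit 352) (nat_lit 345))))))))
noncomputable def ec166 : XT := (XT.nd (nat_lit 1716) (nat_lit 1748) (nat_lit 0) (XT.nd (nat_lit 858) (nat_lit 760) (nat_lit 0) (XT.nd (nat_lit 390) (nat_lit 532) (nat_lit 0) (XT.nd (nat_lit 156) (nat_lit 228) (nat_lit 0) (XT.nd (nat_lit 78) (nat_lit 0) (nat_lit 0) (XT.lf (nat_lit 228) (nat_lit 3440241328267) (nat_lit 0) (nat_lit 26992171752) (nat_lit 152) (nat_lit 26992171752) (nat_lit 211) (nat_lit 1) (nat_lit 208) (nat_lit 1) (nat_lit 210) (nat_lit 1) (nat_lit 204) (nat_lit 352) (nat_lit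 344)) (XT.lf (nat_lit 76) (nat_lit 1321762707559) (nat_lit 0) (nat_lit 648915132463) (nat_lit 228) (nat_lit 1321762707559) (nat_lit 209) (nat_lit 1) (nat_lit 208) (nat_lit 1) (nat_lit 211) (nat_lit 1) (nat_lit 205) (nat_lit 352) (nat_lit 343))) (XT.nd (nat_lit 78) (nat_lit 76) (nat_lit 0) (XT.lf (nat_lit 228) (nat_lit 1921232826519) (nat_lit 0) (nat_lit 595947536381) (nat_lit 152) (nat_lit 595947536381) (nat_lit 209) (nat_lit 1) (nat_lit 206) (nat_lit 1) (nat_lit 208) (nat_lit 1) (nat_lit 206) (nat_lit 352) (nat_lit 342)) (XT.nd (nat_lit 78) (nat_lit 76) (nat_lit 0) (XT.lf (nat_lit 76) (nat_lit 600832518619) (nat_lit 0) (nat_lit 1743605696895) (nat_lit 228) (nat_lit 600832518619) (nat_lit 207) (nat_lit 1) (nat_lit 206) (nat_lit 1) (nat_lit 209) (nat_lit 1) (nat_lit 207) (nat_lit 352) (nat_lit 341)) (XT.lf (nat_lit 152) (nat_lit 496699111722) (nat_lit 0) (nat_lit 1146135643463) (nat_lit 76) (nat_lit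 1146135643463) (nat_lit 207) (nat_lit 1) (nat_lit 205) (nat_lit 1) (nat_lit 206) (nat_lit 1) (nat_lit 208) (nat_lit 352) (nat_lit 340))))) (XT.nd (nat_lit 234) (nat_lit 228) (nat_lit 0) (XT.nd (nat_lit 78) (nat_lit 76) (nat_lit 0) (XT.lf (nat_lit 228) (nat_lit 2514582875084) (nat_lit 0) (nat_lit 66802467712) (nat_lit 152) (nat_lit 66802467712) (nat_lit 205) (nat_lit 1) (nat_lit 202) (nat_lit 1) (nat_lit 204) (nat_lit 1) (nat_lit 209) (nat_lit 352) (nat_lit 339)) (XT.nd (nat_lit 78) (nat_lit 76) (nat_lit 0) (XT.lf (nat_lit 76) (nat_lit 880049923975) (nat_lit 0) (nat_lit 747367108608) (nat_lit 228) (nat_lit 880049923975) (nat_lit 203) (nat_lit 1) (nat_lit 202) (nat_lit 1) (nat_lit 205) (nat_lit 1) (nat_lit 210) (nat_lit 352) (nat_lit 338)) (XT.lf (nat_lit 152) (nat_lit 1070056418233) (nat_lit 0) (nat_lit 655306774040) (nat_lit 76) (nat_lit 655306774040) (nat_lit 203) (nat_lit 1) (nat_lit 201) (nat_lit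 1) (nat_lit 202) (nat_lit 1) (nat_lit 211) (nat_lit 352) (nat_lit 337)))) (XT.nd (nat_lit 78) (nat_lit 228) (nat_lit 0) (XT.lf (nat_lit 0) (nat_lit 209531792863) (nat_lit 0) (nat_lit 1844701815043) (nat_lit 152) (nat_lit 209531792863) (nat_lit 201) (nat_lit 3) (nat_lit 201) (nat_lit 1) (nat_lit 203) (nat_lit 1) (nat_lit 212) (nat_lit 352) (nat_lit 336)) (XT.nd (nat_lit 78) (nat_lit 76) (nat_lit 0) (XT.lf (nat_lit 76) (nat_lit 969712253705) (nat_lit 0) (nat_lit 210313824234) (nat_lit 152) (nat_lit 969712253705) (nat_lit 200) (nat_lit 1) (nat_lit 199) (nat_lit 1) (nat_lit 201) (nat_lit 1) (nat_lit 213) (nat_lit 352) (nat_lit 335)) (XT.lf (nat_lit 152) (nat_lit 1295344829242) (nat_lit 0) (nat_lit 374673774916) (nat_lit 76) (nat_lit 374673774916) (nat_lit 200) (nat_lit 1) (nat_lit 198) (nat_lit 1) (nat_lit 199) (nat_lit 1) (nat_lit 214) (nat_lit 352) (nat_lit 334)))))) (XT.nd (nat_lit 390) (nat_lit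 456) (nat_lit 0) (XT.nd (nat_lit 156) (nat_lit 228) (nat_lit 0) (XT.nd (nat_lit 78) (nat_lit 76) (nat_lit 0) (XT.lf (nat_lit 0) (nat_lit 336796228386) (nat_lit 0) (nat_lit 1271709995664) (nat_lit 152) (nat_lit 336796228386) (nat_lit 198) (nat_lit 3) (nat_lit 198) (nat_lit 1) (nat_lit 200) (nat_lit 1) (nat_lit 215) (nat_lit 352) (nat_lit 333)) (XT.lf (nat_lit 76) (nat_lit 75133220040) (nat_lit 0) (nat_lit 888101713325) (nat_lit 76) (nat_lit 888101713325) (nat_lit 198) (nat_lit 3) (nat_lit 197) (nat_lit 1) (nat_lit 198) (nat_lit 1) (nat_lit 216) (nat_lit 352) (nat_lit 332))) (XT.nd (nat_lit 78) (nat_lit 76) (nat_lit 0) (XT.lf (nat_lit 152) (nat_lit 1334997261716) (nat_lit 0) (nat_lit 214220946847) (nat_lit 76) (nat_lit 214220946847) (nat_lit 197) (nat_lit 1) (nat_lit 195) (nat_lit 1) (nat_lit 196) (nat_lit 1) (nat_lit 217) (nat_lit 352) (nat_lit 331)) (XT.nd (nat_lit 78) (nat_lit 76) (nat_lit 0)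 (XT.lf (nat_lit 0) (nat_lit 381256289520) (nat_lit 0) (nat_lit 915796270310) (nat_lit 152) (nat_lit 381256289520) (nat_lit 195) (nat_lit 3) (nat_lit 195) (nat_lit 1) (nat_lit 197) (nat_lit 1) (nat_lit 218) (nat_lit 352) (nat_lit 330)) (XT.lf (nat_lit 76) (nat_lit 223072708299) (nat_lit 0) (nat_lit 687890082899) (nat_lit 76) (nat_lit 687890082899) (nat_lit 195) (nat_lit 3) (nat_lit 194) (nat_lit 1) (nat_lit 195) (nat_lit 1) (nat_lit 219) (nat_lit 352) (nat_lit 329))))) (XT.nd (nat_lit 234) (nat_lit 228) (nat_lit 0) (XT.nd (nat_lit 78) (nat_lit 76) (nat_lit 0) (XT.lf (nat_lit 152) (nat_lit 1280140888057) (nat_lit 0) (nat_lit 122481521633) (nat_lit 76) (nat_lit 122481521633) (nat_lit 194) (nat_lit 1) (nat_lit 192) (nat_lit 1) (nat_lit 193) (nat_lit 1) (nat_lit 220) (nat_lit 352) (nat_lit 328)) (XT.nd (nat_lit 78) (nat_lit 76) (nat_lit 0) (XT.lf (nat_lit 0) (nat_lit 382064479924) (nat_lit 0) (nat_lit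 687689448840) (nat_lit 152) (nat_lit 382064479924) (nat_lit 192) (nat_lit 3) (nat_lit 192) (nat_lit 1) (nat_lit 194) (nat_lit 1) (nat_lit 221) (nat_lit 352) (nat_lit 327)) (XT.lf (nat_lit 76) (nat_lit 284164324007) (nat_lit 0) (nat_lit 549925166543) (nat_lit 76) (nat_lit 549925166543) (nat_lit 192) (nat_lit 3) (nat_lit 191) (nat_lit 1) (nat_lit 192) (nat_lit 1) (nat_lit 222) (nat_lit 352) (nat_lit 326)))) (XT.nd (nat_lit 78) (nat_lit 76) (nat_lit 0) (XT.lf (nat_lit 152) (nat_lit 1181361116965) (nat_lit 0) (nat_lit 70029207519) (nat_lit 76) (nat_lit 70029207519) (nat_lit 191) (nat_lit 1) (nat_lit 189) (nat_lit 1) (nat_lit 190) (nat_lit 1) (nat_lit 223) (nat_lit 352) (nat_lit 325)) (XT.nd (nat_lit 78) (nat_lit 76) (nat_lit 0) (XT.lf (nat_lit 0) (nat_lit 361124831629) (nat_lit 0) (nat_lit 535866899541) (nat_lit 152) (nat_lit 361124831629) (nat_lit 189) (nat_lit 3) (nat_lit 189) (nat_lit 1) (nat_lit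 191) (nat_lit 1) (nat_lit 224) (nat_lit 352) (nat_lit 324)) (XT.lf (nat_lit 76) (nat_lit 298664725867) (nat_lit 0) (nat_lit 450614350138) (nat_lit 76) (nat_lit 450614350138) (nat_lit 189) (nat_lit 3) (nat_lit 188) (nat_lit 1) (nat_lit 189) (nat_lit 1) (nat_lit 225) (nat_lit 352) (nat_lit 323))))))) (XT.nd (nat_lit 858) (nat_lit 912) (nat_lit 0) (XT.nd (nat_lit 390) (nat_lit 456) (nat_lit 0) (XT.nd (nat_lit 156) (nat_lit 228) (nat_lit 0) (XT.nd (nat_lit 78) (nat_lit 0) (nat_lit 0) (XT.lf (nat_lit 152) (nat_lit 1066261321888) (nat_lit 0) (nat_lit 40039426685) (nat_lit 76) (nat_lit 40039426685) (nat_lit 188) (nat_lit 1) (nat_lit 186) (nat_lit 1) (nat_lit 187) (nat_lit 1) (nat_lit 226) (nat_lit 352) (nat_lit 322)) (XT.lf (nat_lit 0) (nat_lit 330542316467) (nat_lit 0) (nat_lit 430451660938) (nat_lit 152) (nat_lit 330542316467) (nat_lit 186) (nat_lit 3) (nat_lit 186) (nat_lit 1) (nat_lit 188) (nat_lit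 1) (nat_lit 227) (nat_lit 352) (nat_lit 321))) (XT.nd (nat_lit 78) (nat_lit 152) (nat_lit 0) (XT.lf (nat_lit 76) (nat_lit 289191092736) (nat_lit 0) (nat_lit 376068783580) (nat_lit 76) (nat_lit 376068783580) (nat_lit 186) (nat_lit 3) (nat_lit 185) (nat_lit 1) (nat_lit 186) (nat_lit 1) (nat_lit 228) (nat_lit 352) (nat_lit 320)) (XT.nd (nat_lit 78) (nat_lit 0) (nat_lit 0) (XT.lf (nat_lit 152) (nat_lit 949476866262) (nat_lit 0) (nat_lit 22892672159) (nat_lit 76) (nat_lit 22892672159) (nat_lit 185) (nat_lit 1) (nat_lit 183) (nat_lit 1) (nat_lit 184) (nat_lit 1) (nat_lit 229) (nat_lit 352) (nat_lit 319)) (XT.lf (nat_lit 0) (nat_lit 296873878697) (nat_lit 0) (nat_lit 353997370663) (nat_lit 152) (nat_lit 296873878697) (nat_lit 183) (nat_lit 3) (nat_lit 183) (nat_lit 1) (nat_lit 185) (nat_lit 1) (nat_lit 230) (nat_lit 352) (nat_lit 318))))) (XT.nd (nat_lit 234) (nat_lit 228) (nat_lit 0) (XT.nd (nat_lit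 78) (nat_lit 152) (nat_lit 0) (XT.lf (nat_lit 76) (nat_lit 268327307935) (nat_lit 0) (nat_lit 317999909645) (nat_lit 76) (nat_lit 317999909645) (nat_lit 183) (nat_lit 3) (nat_lit 182) (nat_lit 1) (nat_lit 183) (nat_lit 1) (nat_lit 231) (nat_lit 352) (nat_lit 317)) (XT.nd (nat_lit 78) (nat_lit 0) (nat_lit 0) (XT.lf (nat_lit 152) (nat_lit 838378214529) (nat_lit 0) (nat_lit 13088959607) (nat_lit 76) (nat_lit 13088959607) (nat_lit 182) (nat_lit 1) (nat_lit 180) (nat_lit 1) (nat_lit 181) (nat_lit 1) (nat_lit 232) (nat_lit 352) (nat_lit 316)) (XT.lf (nat_lit 0) (nat_lit 263551852765) (nat_lit 0) (nat_lit 296212394696) (nat_lit 152) (nat_lit 263551852765) (nat_lit 180) (nat_lit 3) (nat_lit 180) (nat_lit 1) (nat_lit 182) (nat_lit 1) (nat_lit 233) (nat_lit 352) (nat_lit 315)))) (XT.nd (nat_lit 78) (nat_lit 152) (nat_lit 0) (XT.lf (nat_lit 76) (nat_lit 242966019687) (nat_lit 0) (nat_lit 271366490931) (nat_lit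 76) (nat_lit 271366490931) (nat_lit 180) (nat_lit 3) (nat_lit 179) (nat_lit 1) (nat_lit 180) (nat_lit 1) (nat_lit 234) (nat_lit 352) (nat_lit 314)) (XT.nd (nat_lit 78) (nat_lit 0) (nat_lit 0) (XT.lf (nat_lit 152) (nat_lit 736312190955) (nat_lit 0) (nat_lit 7483655136) (nat_lit 76) (nat_lit 7483655136) (nat_lit 179) (nat_lit 1) (nat_lit 177) (nat_lit 1) (nat_lit 178) (nat_lit 1) (nat_lit 235) (nat_lit 352) (nat_lit 313)) (XT.lf (nat_lit 0) (nat_lit 232263365538) (nat_lit 0) (nat_lit 250937136390) (nat_lit 152) (nat_lit 232263365538) (nat_lit 177) (nat_lit 3) (nat_lit 177) (nat_lit 1) (nat_lit 179) (nat_lit 1) (nat_lit 236) (nat_lit 352) (nat_lit 312)))))) (XT.nd (nat_lit 390) (nat_lit 456) (nat_lit 0) (XT.nd (nat_lit 156) (nat_lit 228) (nat_lit 0) (XT.nd (nat_lit 78) (nat_lit 152) (nat_lit 0) (XT.lf (nat_lit 76) (nat_lit 216785315101) (nat_lit 0) (nat_lit 233023376712) (nat_lit 76) (nat_lit 233023376712)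 (nat_lit 177) (nat_lit 3) (nat_lit 176) (nat_lit 1) (nat_lit 177) (nat_lit 1) (nat_lit 237) (nat_lit 352) (nat_lit 311)) (XT.lf (nat_lit 152) (nat_lit 644438211699) (nat_lit 0) (nat_lit 4278804113) (nat_lit 76) (nat_lit 4278804113) (nat_lit 176) (nat_lit 1) (nat_lit 174) (nat_lit 1) (nat_lit 175) (nat_lit 1) (nat_lit 238) (nat_lit 352) (nat_lit 310))) (XT.nd (nat_lit 78) (nat_lit 228) (nat_lit 0) (XT.lf (nat_lit 0) (nat_lit 203733627285) (nat_lit 0) (nat_lit 214410416377) (nat_lit 152) (nat_lit 203733627285) (nat_lit 174) (nat_lit 3) (nat_lit 174) (nat_lit 1) (nat_lit 176) (nat_lit 1) (nat_lit 239) (nat_lit 352) (nat_lit 309)) (XT.nd (nat_lit 78) (nat_lit 152) (nat_lit 0) (XT.lf (nat_lit 76) (nat_lit 191659624703) (nat_lit 0) (nat_lit 200943789131) (nat_lit 76) (nat_lit 200943789131) (nat_lit 174) (nat_lit 3) (nat_lit 173) (nat_lit 1) (nat_lit 174) (nat_lit 1) (nat_lit 240) (nat_lit 352) (nat_lit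 308)) (XT.lf (nat_lit 152) (nat_lit 562763401515) (nat_lit 0) (nat_lit 2446420139) (nat_lit 76) (nat_lit 2446420139) (nat_lit 173) (nat_lit 1) (nat_lit 171) (nat_lit 1) (nat_lit 172) (nat_lit 1) (nat_lit 241) (nat_lit 352) (nat_lit 307))))) (XT.nd (nat_lit 234) (nat_lit 228) (nat_lit 0) (XT.nd (nat_lit 78) (nat_lit 228) (nat_lit 0) (XT.lf (nat_lit 0) (nat_lit 178169096729) (nat_lit 0) (nat_lit 184273585545) (nat_lit 152) (nat_lit 178169096729) (nat_lit 171) (nat_lit 3) (nat_lit 171) (nat_lit 1) (nat_lit 173) (nat_lit 1) (nat_lit 242) (nat_lit 352) (nat_lit 306)) (XT.nd (nat_lit 78) (nat_lit 152) (nat_lit 0) (XT.lf (nat_lit 76) (nat_lit 168461940471) (nat_lit 0) (nat_lit 173770191615) (nat_lit 76) (nat_lit 173770191615) (nat_lit 171) (nat_lit 3) (nat_lit 170) (nat_lit 1) (nat_lit 171) (nat_lit 1) (nat_lit 243) (nat_lit 352) (nat_lit 305)) (XT.lf (nat_lit 152) (nat_lit 490721594701) (nat_lit 0) (nat_lit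 1398748654) (nat_lit 76) (nat_lit 1398748654) (nat_lit 170) (nat_lit 1) (nat_lit 168) (nat_lit 1) (nat_lit 169) (nat_lit 1) (nat_lit 244) (nat_lit 352) (nat_lit 304)))) (XT.nd (nat_lit 78) (nat_lit 228) (nat_lit 0) (XT.lf (nat_lit 0) (nat_lit 155506788965) (nat_lit 0) (nat_lit 158997050258) (nat_lit 152) (nat_lit 155506788965) (nat_lit 168) (nat_lit 3) (nat_lit 168) (nat_lit 1) (nat_lit 170) (nat_lit 1) (nat_lit 245) (nat_lit 352) (nat_lit 303)) (XT.nd (nat_lit 78) (nat_lit 152) (nat_lit 0) (XT.lf (nat_lit 76) (nat_lit 147518598612) (nat_lit 0) (nat_lit 150553608432) (nat_lit 76) (nat_lit 150553608432) (nat_lit 168) (nat_lit 3) (nat_lit 167) (nat_lit 1) (nat_lit 168) (nat_lit 1) (nat_lit 246) (nat_lit 352) (nat_lit 302)) (XT.lf (nat_lit 152) (nat_lit 427493223918) (nat_lit 0) (nat_lit 799739083) (nat_lit 76) (nat_lit 799739083) (nat_lit 167) (nat_lit 1) (nat_lit 165) (nat_lit 1) (nat_lit 166) (nat_lit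 1) (nat_lit 247) (nat_lit 352) (nat_lit 301))))))))
noncomputable def ec167 : XT := (XT.nd (nat_lit 1716) (nat_lit 1824) (nat_lit 0) (XT.nd (nat_lit 858) (nat_lit 836) (nat_lit 0) (XT.nd (nat_lit 390) (nat_lit 456) (nat_lit 0) (XT.nd (nat_lit 156) (nat_lit 228) (nat_lit 0) (XT.nd (nat_lit 78) (nat_lit 76) (nat_lit 0) (XT.lf (nat_lit 0) (nat_lit 135553276212) (nat_lit 0) (nat_lit 137548844434) (nat_lit 152) (nat_lit 135553276212) (nat_lit 165) (nat_lit 3) (nat_lit 165) (nat_lit 1) (nat_lit 167) (nat_lit 1) (nat_lit 248) (nat_lit 352) (nat_lit 300)) (XT.lf (nat_lit 76) (nat_lit 128865922228) (nat_lit 0) (nat_lit 130601198943) (nat_lit 76) (nat_lit 130601198943) (nat_lit 165) (nat_lit 3) (nat_lit 164) (nat_lit 1) (nat_lit 165) (nat_lit 1) (nat_lit 249) (nat_lit 352) (nat_lit 299))) (XT.nd (nat_lit 78) (nat_lit 76) (nat_lit 0) (XT.lf (nat_lit 152) (nat_lit 372178516039) (nat_lit 0) (nat_lit 457253416)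 (nat_lit 76) (nat_lit 457253416) (nat_lit 164) (nat_lit 1) (nat_lit 162) (nat_lit 1) (nat_lit 163) (nat_lit 1) (nat_lit 250) (nat_lit 352) (nat_lit 298)) (XT.nd (nat_lit 78) (nat_lit 76) (nat_lit 0) (XT.lf (nat_lit 0) (nat_lit 118061082068) (nat_lit 0) (nat_lit 119202054676) (nat_lit 152) (nat_lit 118061082068) (nat_lit 162) (nat_lit 3) (nat_lit 162) (nat_lit 1) (nat_lit 164) (nat_lit 1) (nat_lit 251) (nat_lit 352) (nat_lit 297)) (XT.lf (nat_lit 76) (nat_lit 112394017703) (nat_lit 0) (nat_lit 113386167797) (nat_lit 76) (nat_lit 113386167797) (nat_lit 162) (nat_lit 3) (nat_lit 161) (nat_lit 1) (nat_lit 162) (nat_lit 1) (nat_lit 252) (nat_lit 352) (nat_lit 296))))) (XT.nd (nat_lit 234) (nat_lit 228) (nat_lit 0) (XT.nd (nat_lit 78) (nat_lit 76) (nat_lit 0) (XT.lf (nat_lit 152) (nat_lit 323888081264) (nat_lit 0) (nat_lit 261436124) (nat_lit 76) (nat_lit 261436124) (nat_lit 161) (nat_lit 1) (nat_lit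 159) (nat_lit 1) (nat_lit 160) (nat_lit 1) (nat_lit 253) (nat_lit 352) (nat_lit 295)) (XT.nd (nat_lit 78) (nat_lit 76) (nat_lit 0) (XT.lf (nat_lit 0) (nat_lit 102769682018) (nat_lit 0) (nat_lit 103422036810) (nat_lit 152) (nat_lit 102769682018) (nat_lit 159) (nat_lit 3) (nat_lit 159) (nat_lit 1) (nat_lit 161) (nat_lit 1) (nat_lit 254) (nat_lit 352) (nat_lit 294)) (XT.lf (nat_lit 76) (nat_lit 97926434339) (nat_lit 0) (nat_lit 98493699376) (nat_lit 76) (nat_lit 98493699376) (nat_lit 159) (nat_lit 3) (nat_lit 158) (nat_lit 1) (nat_lit 159) (nat_lit 1) (nat_lit 255) (nat_lit 352) (nat_lit 293)))) (XT.nd (nat_lit 78) (nat_lit 76) (nat_lit 0) (XT.lf (nat_lit 152) (nat_lit 281787371914) (nat_lit 0) (nat_lit 149476952) (nat_lit 76) (nat_lit 149476952) (nat_lit 158) (nat_lit 1) (nat_lit 156) (nat_lit 1) (nat_lit 157) (nat_lit 1) (nat_lit 256) (nat_lit 352) (nat_lit 292)) (XT.nd (nat_lit 78) (nat_lit 76)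 (nat_lit 0) (XT.lf (nat_lit 0) (nat_lit 89426616779) (nat_lit 0) (nat_lit 89799602749) (nat_lit 152) (nat_lit 89426616779) (nat_lit 156) (nat_lit 3) (nat_lit 156) (nat_lit 1) (nat_lit 158) (nat_lit 1) (nat_lit 257) (nat_lit 352) (nat_lit 291)) (XT.lf (nat_lit 76) (nat_lit 85263487039) (nat_lit 0) (nat_lit 85587822665) (nat_lit 76) (nat_lit 85587822665) (nat_lit 156) (nat_lit 3) (nat_lit 155) (nat_lit 1) (nat_lit 156) (nat_lit 1) (nat_lit 258) (nat_lit 352) (nat_lit 290)))))) (XT.nd (nat_lit 390) (nat_lit 456) (nat_lit 0) (XT.nd (nat_lit 156) (nat_lit 228) (nat_lit 0) (XT.nd (nat_lit 78) (nat_lit 0) (nat_lit 0) (XT.lf (nat_lit 152) (nat_lit 245115722930) (nat_lit 0) (nat_lit 85463932) (nat_lit 76) (nat_lit 85463932) (nat_lit 155) (nat_lit 1) (nat_lit 153) (nat_lit 1) (nat_lit 154) (nat_lit 1) (nat_lit 259) (nat_lit 352) (nat_lit 289)) (XT.lf (nat_lit 0) (nat_lit 77797538853) (nat_lit 0) (nat_lit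 78010794792) (nat_lit 152) (nat_lit 77797538853) (nat_lit 153) (nat_lit 3) (nat_lit 153) (nat_lit 1) (nat_lit 155) (nat_lit 1) (nat_lit 260) (nat_lit 352) (nat_lit 288))) (XT.nd (nat_lit 78) (nat_lit 152) (nat_lit 0) (XT.lf (nat_lit 76) (nat_lit 74205093164) (nat_lit 0) (nat_lit 74390533110) (nat_lit 76) (nat_lit 74390533110) (nat_lit 153) (nat_lit 3) (nat_lit 152) (nat_lit 1) (nat_lit 153) (nat_lit 1) (nat_lit 261) (nat_lit 352) (nat_lit 287)) (XT.nd (nat_lit 78) (nat_lit 0) (nat_lit 0) (XT.lf (nat_lit 152) (nat_lit 213191691411) (nat_lit 0) (nat_lit 48864281) (nat_lit 76) (nat_lit 48864281) (nat_lit 152) (nat_lit 1) (nat_lit 150) (nat_lit 1) (nat_lit 151) (nat_lit 1) (nat_lit 262) (nat_lit 352) (nat_lit 286)) (XT.lf (nat_lit 0) (nat_lit 67670195744) (nat_lit 0) (nat_lit 67792125519) (nat_lit 152) (nat_lit 67670195744) (nat_lit 150) (nat_lit 3) (nat_lit 150) (nat_lit 1) (nat_lit 152) (nat_lit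 1) (nat_lit 263) (nat_lit 352) (nat_lit 285))))) (XT.nd (nat_lit 234) (nat_lit 228) (nat_lit 0) (XT.nd (nat_lit 78) (nat_lit 152) (nat_lit 0) (XT.lf (nat_lit 76) (nat_lit 64562148698) (nat_lit 0) (nat_lit 64668174589) (nat_lit 76) (nat_lit 64668174589) (nat_lit 150) (nat_lit 3) (nat_lit 149) (nat_lit 1) (nat_lit 150) (nat_lit 1) (nat_lit 264) (nat_lit 352) (nat_lit 284)) (XT.nd (nat_lit 78) (nat_lit 0) (nat_lit 0) (XT.lf (nat_lit 152) (nat_lit 185411286088) (nat_lit 0) (nat_lit 27938311) (nat_lit 76) (nat_lit 27938311) (nat_lit 149) (nat_lit 1) (nat_lit 147) (nat_lit 1) (nat_lit 148) (nat_lit 1) (nat_lit 265) (nat_lit 352) (nat_lit 283)) (XT.lf (nat_lit 0) (nat_lit 58855176139) (nat_lit 0) (nat_lit 58924889884) (nat_lit 152) (nat_lit 58855176139) (nat_lit 147) (nat_lit 3) (nat_lit 147) (nat_lit 1) (nat_lit 149) (nat_lit 1) (nat_lit 266) (nat_lit 352) (nat_lit 282)))) (XT.nd (nat_lit 78) (nat_lit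 152) (nat_lit 0) (XT.lf (nat_lit 76) (nat_lit 56161570967) (nat_lit 0) (nat_lit 56222191614) (nat_lit 76) (nat_lit 56222191614) (nat_lit 147) (nat_lit 3) (nat_lit 146) (nat_lit 1) (nat_lit 147) (nat_lit 1) (nat_lit 267) (nat_lit 352) (nat_lit 281)) (XT.nd (nat_lit 78) (nat_lit 0) (nat_lit 0) (XT.lf (nat_lit 152) (nat_lit 161242760756) (nat_lit 0) (nat_lit 15973820) (nat_lit 76) (nat_lit 15973820) (nat_lit 146) (nat_lit 1) (nat_lit 144) (nat_lit 1) (nat_lit 145) (nat_lit 1) (nat_lit 268) (nat_lit 352) (nat_lit 280)) (XT.lf (nat_lit 0) (nat_lit 51185005014) (nat_lit 0) (nat_lit 51224864074) (nat_lit 152) (nat_lit 51185005014) (nat_lit 144) (nat_lit 3) (nat_lit 144) (nat_lit 1) (nat_lit 146) (nat_lit 1) (nat_lit 269) (nat_lit 352) (nat_lit 279))))))) (XT.nd (nat_lit 858) (nat_lit 912) (nat_lit 0) (XT.nd (nat_lit 390) (nat_lit 456) (nat_lit 0) (XT.nd (nat_lit 156) (nat_lit 228) (nat_lit 0) (XT.nd (nat_lit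 78) (nat_lit 152) (nat_lit 0) (XT.lf (nat_lit 76) (nat_lit 48847910831) (nat_lit 0) (nat_lit 48882570883) (nat_lit 76) (nat_lit 48882570883) (nat_lit 144) (nat_lit 3) (nat_lit 143) (nat_lit 1) (nat_lit 144) (nat_lit 1) (nat_lit 270) (nat_lit 352) (nat_lit 278)) (XT.lf (nat_lit 152) (nat_lit 140219990196) (nat_lit 0) (nat_lit 9133083) (nat_lit 76) (nat_lit 9133083) (nat_lit 143) (nat_lit 1) (nat_lit 141) (nat_lit 1) (nat_lit 142) (nat_lit 1) (nat_lit 271) (nat_lit 352) (nat_lit 277))) (XT.nd (nat_lit 78) (nat_lit 228) (nat_lit 0) (XT.lf (nat_lit 0) (nat_lit 44512468426) (nat_lit 0) (nat_lit 44535257973) (nat_lit 152) (nat_lit 44512468426) (nat_lit 141) (nat_lit 3) (nat_lit 141) (nat_lit 1) (nat_lit 143) (nat_lit 1) (nat_lit 272) (nat_lit 352) (nat_lit 276)) (XT.nd (nat_lit 78) (nat_lit 152) (nat_lit 0) (XT.lf (nat_lit 76) (nat_lit 42483169256) (nat_lit 0) (nat_lit 42502986254) (nat_lit 76) (nat_lit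 42502986254) (nat_lit 141) (nat_lit 3) (nat_lit 140) (nat_lit 1) (nat_lit 141) (nat_lit 1) (nat_lit 273) (nat_lit 352) (nat_lit 275)) (XT.lf (nat_lit 152) (nat_lit 121935511365) (nat_lit 0) (nat_lit 5221870) (nat_lit 76) (nat_lit 5221870) (nat_lit 140) (nat_lit 1) (nat_lit 138) (nat_lit 1) (nat_lit 139) (nat_lit 1) (nat_lit 274) (nat_lit 352) (nat_lit 274))))) (XT.nd (nat_lit 234) (nat_lit 228) (nat_lit 0) (XT.nd (nat_lit 78) (nat_lit 228) (nat_lit 0) (XT.lf (nat_lit 0) (nat_lit 38708648887) (nat_lit 0) (nat_lit 38721678884) (nat_lit 152) (nat_lit 38708648887) (nat_lit 138) (nat_lit 3) (nat_lit 138) (nat_lit 1) (nat_lit 140) (nat_lit 1) (nat_lit 275) (nat_lit 352) (nat_lit 273)) (XT.nd (nat_lit 78) (nat_lit 152) (nat_lit 0) (XT.lf (nat_lit 76) (nat_lit 36945731382) (nat_lit 0) (nat_lit 36957061815) (nat_lit 76) (nat_lit 36957061815) (nat_lit 138) (nat_lit 3) (nat_lit 137) (nat_lit 1) (nat_lit 138)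 (nat_lit 1) (nat_lit 276) (nat_lit 352) (nat_lit 272)) (XT.lf (nat_lit 152) (nat_lit 106033786875) (nat_lit 0) (nat_lit 2985621) (nat_lit 76) (nat_lit 2985621) (nat_lit 137) (nat_lit 1) (nat_lit 135) (nat_lit 1) (nat_lit 136) (nat_lit 1) (nat_lit 277) (nat_lit 352) (nat_lit 271)))) (XT.nd (nat_lit 78) (nat_lit 228) (nat_lit 0) (XT.lf (nat_lit 0) (nat_lit 33660926586) (nat_lit 0) (nat_lit 33668376529) (nat_lit 152) (nat_lit 33660926586) (nat_lit 135) (nat_lit 3) (nat_lit 135) (nat_lit 1) (nat_lit 137) (nat_lit 1) (nat_lit 278) (nat_lit 352) (nat_lit 270)) (XT.nd (nat_lit 78) (nat_lit 152) (nat_lit 0) (XT.lf (nat_lit 76) (nat_lit 32128921374) (nat_lit 0) (nat_lit 32135399585) (nat_lit 76) (nat_lit 32135399585) (nat_lit 135) (nat_lit 3) (nat_lit 134) (nat_lit 1) (nat_lit 135) (nat_lit 1) (nat_lit 279) (nat_lit 352) (nat_lit 269)) (XT.lf (nat_lit 152) (nat_lit 92204955266) (nat_lit 0) (nat_lit 1707038)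 (nat_lit 76) (nat_lit 1707038) (nat_lit 134) (nat_lit 1) (nat_lit 132) (nat_lit 1) (nat_lit 133) (nat_lit 1) (nat_lit 280) (nat_lit 352) (nat_lit 268)))))) (XT.nd (nat_lit 468) (nat_lit 456) (nat_lit 0) (XT.nd (nat_lit 234) (nat_lit 228) (nat_lit 0) (XT.nd (nat_lit 78) (nat_lit 228) (nat_lit 0) (XT.lf (nat_lit 0) (nat_lit 29271075287) (nat_lit 0) (nat_lit 29275334817) (nat_lit 152) (nat_lit 29271075287) (nat_lit 132) (nat_lit 3) (nat_lit 132) (nat_lit 1) (nat_lit 134) (nat_lit 1) (nat_lit 281) (nat_lit 352) (nat_lit 267)) (XT.nd (nat_lit 78) (nat_lit 152) (nat_lit 0) (XT.lf (nat_lit 76) (nat_lit 27939449460) (nat_lit 0) (nat_lit 27943153398) (nat_lit 76) (nat_lit 27943153398) (nat_lit 132) (nat_lit 3) (nat_lit 131) (nat_lit 1) (nat_lit 132) (nat_lit 1) (nat_lit 282) (nat_lit 352) (nat_lit 266)) (XT.lf (nat_lit 152) (nat_lit 80179172413) (nat_lit 0) (nat_lit 976004) (nat_lit 76) (nat_lit 976004)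 (nat_lit 131) (nat_lit 1) (nat_lit 129) (nat_lit 1) (nat_lit 130) (nat_lit 1) (nat_lit 283) (nat_lit 352) (nat_lit 265)))) (XT.nd (nat_lit 78) (nat_lit 228) (nat_lit 0) (XT.lf (nat_lit 0) (nat_lit 25453511656) (nat_lit 0) (nat_lit 25455947056) (nat_lit 152) (nat_lit 25453511656) (nat_lit 129) (nat_lit 3) (nat_lit 129) (nat_lit 1) (nat_lit 131) (nat_lit 1) (nat_lit 284) (nat_lit 352) (nat_lit 264)) (XT.nd (nat_lit 78) (nat_lit 152) (nat_lit 0) (XT.lf (nat_lit 76) (nat_lit 24295892115) (nat_lit 0) (nat_lit 24298009854) (nat_lit 76) (nat_lit 24298009854) (nat_lit 129) (nat_lit 3) (nat_lit 128) (nat_lit 1) (nat_lit 129) (nat_lit 1) (nat_lit 285) (nat_lit 352) (nat_lit 263)) (XT.lf (nat_lit 152) (nat_lit 69721562909) (nat_lit 0) (nat_lit 558033) (nat_lit 76) (nat_lit 558033) (nat_lit 128) (nat_lit 1) (nat_lit 126) (nat_lit 1) (nat_lit 127) (nat_lit 1) (nat_lit 286) (nat_lit 352) (nat_lit 262))))) (XT.nd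 (nat_lit 234) (nat_lit 228) (nat_lit 0) (XT.nd (nat_lit 78) (nat_lit 228) (nat_lit 0) (XT.lf (nat_lit 0) (nat_lit 22133718648) (nat_lit 0) (nat_lit 22135111096) (nat_lit 152) (nat_lit 22133718648) (nat_lit 126) (nat_lit 3) (nat_lit 126) (nat_lit 1) (nat_lit 128) (nat_lit 1) (nat_lit 287) (nat_lit 352) (nat_lit 261)) (XT.nd (nat_lit 78) (nat_lit 152) (nat_lit 0) (XT.lf (nat_lit 76) (nat_lit 21127273611) (nat_lit 0) (nat_lit 21128484435) (nat_lit 76) (nat_lit 21128484435) (nat_lit 126) (nat_lit 3) (nat_lit 125) (nat_lit 1) (nat_lit 126) (nat_lit 1) (nat_lit 288) (nat_lit 352) (nat_lit 260)) (XT.lf (nat_lit 152) (nat_lit 60627756709) (nat_lit 0) (nat_lit 319057) (nat_lit 76) (nat_lit 319057) (nat_lit 125) (nat_lit 1) (nat_lit 123) (nat_lit 1) (nat_lit 124) (nat_lit 1) (nat_lit 289) (nat_lit 352) (nat_lit 259)))) (XT.nd (nat_lit 78) (nat_lit 228) (nat_lit 0) (XT.lf (nat_lit 0) (nat_lit 19246843515)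 (nat_lit 0) (nat_lit 19247639651) (nat_lit 152) (nat_lit 19246843515) (nat_lit 123) (nat_lit 3) (nat_lit 123) (nat_lit 1) (nat_lit 125) (nat_lit 1) (nat_lit 290) (nat_lit 352) (nat_lit 258)) (XT.nd (nat_lit 78) (nat_lit 152) (nat_lit 0) (XT.lf (nat_lit 76) (nat_lit 18371777205) (nat_lit 0) (nat_lit 18372469498) (nat_lit 76) (nat_lit 18372469498) (nat_lit 123) (nat_lit 3) (nat_lit 122) (nat_lit 1) (nat_lit 123) (nat_lit 1) (nat_lit 291) (nat_lit 352) (nat_lit 257)) (XT.lf (nat_lit 152) (nat_lit 52719966087) (nat_lit 0) (nat_lit 182422) (nat_lit 76) (nat_lit 182422) (nat_lit 122) (nat_lit 1) (nat_lit 120) (nat_lit 1) (nat_lit 121) (nat_lit 1) (nat_lit 292) (nat_lit 352) (nat_lit 256))))))))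
noncomputable def ec168 : XT := (XT.nd (nat_lit 1716) (nat_lit 1672) (nat_lit 0) (XT.nd (nat_lit 858) (nat_lit 836) (nat_lit 0) (XT.nd (nat_lit 390) (nat_lit 456) (nat_lit 0) (XT.nd (nat_lit 156) (nat_lit 228) (nat_lit 0) (XT.nd (nat_lit 78) (nat_lit 76) (nat_lit 0) (XT.lf (nat_lit 0) (nat_lit 16736460934) (nat_lit 0) (nat_lit 16736916128) (nat_lit 152) (nat_lit 16736460934) (nat_lit 120) (nat_lit 3) (nat_lit 120) (nat_lit 1) (nat_lit 122) (nat_lit 1) (nat_lit 293) (nat_lit 352) (nat_lit 255)) (XT.lf (nat_lit 76) (nat_lit 15975592764) (nat_lit 0) (nat_lit 15975988585) (nat_lit 76) (nat_lit 15975988585) (nat_lit 120) (nat_lit 3) (nat_lit 119) (nat_lit 1) (nat_lit 120) (nat_lit 1) (nat_lit 294) (nat_lit 352) (nat_lit 254))) (XT.nd (nat_lit 78) (nat_lit 76) (nat_lit 0) (XT.lf (nat_lit 152) (nat_lit 45843550340) (nat_lit 0) (nat_lit 104300) (nat_lit 76) (nat_lit 104300) (nat_lit 119) (nat_lit 1) (nat_lit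 117) (nat_lit 1) (nat_lit 118) (nat_lit 1) (nat_lit 295) (nat_lit 352) (nat_lit 253)) (XT.nd (nat_lit 78) (nat_lit 76) (nat_lit 0) (XT.lf (nat_lit 0) (nat_lit 14553487326) (nat_lit 0) (nat_lit 14553747585) (nat_lit 152) (nat_lit 14553487326) (nat_lit 117) (nat_lit 3) (nat_lit 117) (nat_lit 1) (nat_lit 119) (nat_lit 1) (nat_lit 296) (nat_lit 352) (nat_lit 252)) (XT.lf (nat_lit 76) (nat_lit 13891896596) (nat_lit 0) (nat_lit 13892122907) (nat_lit 76) (nat_lit 13892122907) (nat_lit 117) (nat_lit 3) (nat_lit 116) (nat_lit 1) (nat_lit 117) (nat_lit 1) (nat_lit 297) (nat_lit 352) (nat_lit 251))))) (XT.nd (nat_lit 234) (nat_lit 228) (nat_lit 0) (XT.nd (nat_lit 78) (nat_lit 76) (nat_lit 0) (XT.lf (nat_lit 152) (nat_lit 39864014890) (nat_lit 0) (nat_lit 59634) (nat_lit 76) (nat_lit 59634) (nat_lit 116) (nat_lit 1) (nat_lit 114) (nat_lit 1) (nat_lit 115) (nat_lit 1) (nat_lit 298) (nat_lit 352) (nat_lit 250))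 (XT.nd (nat_lit 78) (nat_lit 76) (nat_lit 0) (XT.lf (nat_lit 0) (nat_lit 12655230976) (nat_lit 0) (nat_lit 12655379780) (nat_lit 152) (nat_lit 12655230976) (nat_lit 114) (nat_lit 3) (nat_lit 114) (nat_lit 1) (nat_lit 116) (nat_lit 1) (nat_lit 299) (nat_lit 352) (nat_lit 249)) (XT.lf (nat_lit 76) (nat_lit 12079953994) (nat_lit 0) (nat_lit 12080083389) (nat_lit 76) (nat_lit 12080083389) (nat_lit 114) (nat_lit 3) (nat_lit 113) (nat_lit 1) (nat_lit 114) (nat_lit 1) (nat_lit 300) (nat_lit 352) (nat_lit 248)))) (XT.nd (nat_lit 78) (nat_lit 76) (nat_lit 0) (XT.lf (nat_lit 152) (nat_lit 34664393977) (nat_lit 0) (nat_lit 34096) (nat_lit 76) (nat_lit 34096) (nat_lit 113) (nat_lit 1) (nat_lit 111) (nat_lit 1) (nat_lit 112) (nat_lit 1) (nat_lit 301) (nat_lit 352) (nat_lit 247)) (XT.nd (nat_lit 78) (nat_lit 76) (nat_lit 0) (XT.lf (nat_lit 0) (nat_lit 11004562743) (nat_lit 0) (nat_lit 11004647822) (nat_lit 152)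 (nat_lit 11004562743) (nat_lit 111) (nat_lit 3) (nat_lit 111) (nat_lit 1) (nat_lit 113) (nat_lit 1) (nat_lit 302) (nat_lit 352) (nat_lit 246)) (XT.lf (nat_lit 76) (nat_lit 10504332927) (nat_lit 0) (nat_lit 10504406909) (nat_lit 76) (nat_lit 10504406909) (nat_lit 111) (nat_lit 3) (nat_lit 110) (nat_lit 1) (nat_lit 111) (nat_lit 1) (nat_lit 303) (nat_lit 352) (nat_lit 245)))))) (XT.nd (nat_lit 390) (nat_lit 456) (nat_lit 0) (XT.nd (nat_lit 156) (nat_lit 228) (nat_lit 0) (XT.nd (nat_lit 78) (nat_lit 0) (nat_lit 0) (XT.lf (nat_lit 152) (nat_lit 30142970268) (nat_lit 0) (nat_lit 19494) (nat_lit 76) (nat_lit 19494) (nat_lit 110) (nat_lit 1) (nat_lit 108) (nat_lit 1) (nat_lit 109) (nat_lit 1) (nat_lit 304) (nat_lit 352) (nat_lit 244)) (XT.lf (nat_lit 0) (nat_lit 9569193038) (nat_lit 0) (nat_lit 9569241682) (nat_lit 152) (nat_lit 9569193038) (nat_lit 108) (nat_lit 3) (nat_lit 108) (nat_lit 1) (nat_lit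 110) (nat_lit 1) (nat_lit 305) (nat_lit 352) (nat_lit 243))) (XT.nd (nat_lit 78) (nat_lit 152) (nat_lit 0) (XT.lf (nat_lit 76) (nat_lit 9134216900) (nat_lit 0) (nat_lit 9134259199) (nat_lit 76) (nat_lit 9134259199) (nat_lit 108) (nat_lit 3) (nat_lit 107) (nat_lit 1) (nat_lit 108) (nat_lit 1) (nat_lit 306) (nat_lit 352) (nat_lit 242)) (XT.nd (nat_lit 78) (nat_lit 0) (nat_lit 0) (XT.lf (nat_lit 152) (nat_lit 26211289348) (nat_lit 0) (nat_lit 11146) (nat_lit 76) (nat_lit 11146) (nat_lit 107) (nat_lit 1) (nat_lit 105) (nat_lit 1) (nat_lit 106) (nat_lit 1) (nat_lit 307) (nat_lit 352) (nat_lit 241)) (XT.lf (nat_lit 0) (nat_lit 8321042023) (nat_lit 0) (nat_lit 8321069836) (nat_lit 152) (nat_lit 8321042023) (nat_lit 105) (nat_lit 3) (nat_lit 105) (nat_lit 1) (nat_lit 107) (nat_lit 1) (nat_lit 308) (nat_lit 352) (nat_lit 240))))) (XT.nd (nat_lit 234) (nat_lit 228) (nat_lit 0) (XT.nd (nat_lit 78) (nat_lit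 152) (nat_lit 0) (XT.lf (nat_lit 76) (nat_lit 7942805512) (nat_lit 0) (nat_lit 7942829696) (nat_lit 76) (nat_lit 7942829696) (nat_lit 105) (nat_lit 3) (nat_lit 104) (nat_lit 1) (nat_lit 105) (nat_lit 1) (nat_lit 309) (nat_lit 352) (nat_lit 239)) (XT.nd (nat_lit 78) (nat_lit 0) (nat_lit 0) (XT.lf (nat_lit 152) (nat_lit 22792431726) (nat_lit 0) (nat_lit 6372) (nat_lit 76) (nat_lit 6372) (nat_lit 104) (nat_lit 1) (nat_lit 102) (nat_lit 1) (nat_lit 103) (nat_lit 1) (nat_lit 310) (nat_lit 352) (nat_lit 238)) (XT.lf (nat_lit 0) (nat_lit 7235691345) (nat_lit 0) (nat_lit 7235707247) (nat_lit 152) (nat_lit 7235691345) (nat_lit 102) (nat_lit 3) (nat_lit 102) (nat_lit 1) (nat_lit 104) (nat_lit 1) (nat_lit 311) (nat_lit 352) (nat_lit 237)))) (XT.nd (nat_lit 78) (nat_lit 152) (nat_lit 0) (XT.lf (nat_lit 76) (nat_lit 6906792094) (nat_lit 0) (nat_lit 6906805921) (nat_lit 76) (nat_lit 6906805921) (nat_lit 102)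 (nat_lit 3) (nat_lit 101) (nat_lit 1) (nat_lit 102) (nat_lit 1) (nat_lit 312) (nat_lit 352) (nat_lit 236)) (XT.nd (nat_lit 78) (nat_lit 0) (nat_lit 0) (XT.lf (nat_lit 152) (nat_lit 19819509397) (nat_lit 0) (nat_lit 3643) (nat_lit 76) (nat_lit 3643) (nat_lit 101) (nat_lit 1) (nat_lit 99) (nat_lit 1) (nat_lit 100) (nat_lit 1) (nat_lit 313) (nat_lit 352) (nat_lit 235)) (XT.lf (nat_lit 0) (nat_lit 6291907021) (nat_lit 0) (nat_lit 6291916113) (nat_lit 152) (nat_lit 6291907021) (nat_lit 99) (nat_lit 3) (nat_lit 99) (nat_lit 1) (nat_lit 101) (nat_lit 1) (nat_lit 314) (nat_lit 352) (nat_lit 234))))))) (XT.nd (nat_lit 858) (nat_lit 760) (nat_lit 0) (XT.nd (nat_lit 390) (nat_lit 456) (nat_lit 0) (XT.nd (nat_lit 156) (nat_lit 228) (nat_lit 0) (XT.nd (nat_lit 78) (nat_lit 152) (nat_lit 0) (XT.lf (nat_lit 76) (nat_lit 6005908851) (nat_lit 0) (nat_lit 6005916757) (nat_lit 76) (nat_lit 6005916757) (nat_lit 99)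 (nat_lit 3) (nat_lit 98) (nat_lit 1) (nat_lit 99) (nat_lit 1) (nat_lit 315) (nat_lit 352) (nat_lit 233)) (XT.lf (nat_lit 152) (nat_lit 17234358026) (nat_lit 0) (nat_lit 2083) (nat_lit 76) (nat_lit 2083) (nat_lit 98) (nat_lit 1) (nat_lit 96) (nat_lit 1) (nat_lit 97) (nat_lit 1) (nat_lit 316) (nat_lit 352) (nat_lit 232))) (XT.nd (nat_lit 78) (nat_lit 228) (nat_lit 0) (XT.lf (nat_lit 0) (nat_lit 5471224356) (nat_lit 0) (nat_lit 5471229554) (nat_lit 152) (nat_lit 5471224356) (nat_lit 96) (nat_lit 3) (nat_lit 96) (nat_lit 1) (nat_lit 98) (nat_lit 1) (nat_lit 317) (nat_lit 352) (nat_lit 231)) (XT.nd (nat_lit 78) (nat_lit 152) (nat_lit 0) (XT.lf (nat_lit 76) (nat_lit 5222530970) (nat_lit 0) (nat_lit 5222535490) (nat_lit 76) (nat_lit 5222535490) (nat_lit 96) (nat_lit 3) (nat_lit 95) (nat_lit 1) (nat_lit 96) (nat_lit 1) (nat_lit 318) (nat_lit 352) (nat_lit 230)) (XT.lf (nat_lit 152) (nat_lit 14986399443)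 (nat_lit 0) (nat_lit 1191) (nat_lit 76) (nat_lit 1191) (nat_lit 95) (nat_lit 1) (nat_lit 93) (nat_lit 1) (nat_lit 94) (nat_lit 1) (nat_lit 319) (nat_lit 352) (nat_lit 229))))) (XT.nd (nat_lit 234) (nat_lit 228) (nat_lit 0) (XT.nd (nat_lit 78) (nat_lit 228) (nat_lit 0) (XT.lf (nat_lit 0) (nat_lit 4757586888) (nat_lit 0) (nat_lit 4757589860) (nat_lit 152) (nat_lit 4757586888) (nat_lit 93) (nat_lit 3) (nat_lit 93) (nat_lit 1) (nat_lit 95) (nat_lit 1) (nat_lit 320) (nat_lit 352) (nat_lit 228)) (XT.nd (nat_lit 78) (nat_lit 152) (nat_lit 0) (XT.lf (nat_lit 76) (nat_lit 4541332155) (nat_lit 0) (nat_lit 4541334740) (nat_lit 76) (nat_lit 4541334740) (nat_lit 93) (nat_lit 3) (nat_lit 92) (nat_lit 1) (nat_lit 93) (nat_lit 1) (nat_lit 321) (nat_lit 352) (nat_lit 227)) (XT.lf (nat_lit 152) (nat_lit 13031652353) (nat_lit 0) (nat_lit 681) (nat_lit 76) (nat_lit 681) (nat_lit 92) (nat_lit 1) (nat_lit 90) (nat_lit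 1) (nat_lit 91) (nat_lit 1) (nat_lit 322) (nat_lit 352) (nat_lit 226)))) (XT.nd (nat_lit 78) (nat_lit 228) (nat_lit 0) (XT.lf (nat_lit 0) (nat_lit 4137032357) (nat_lit 0) (nat_lit 4137034057) (nat_lit 152) (nat_lit 4137032357) (nat_lit 90) (nat_lit 3) (nat_lit 90) (nat_lit 1) (nat_lit 92) (nat_lit 1) (nat_lit 323) (nat_lit 352) (nat_lit 225)) (XT.nd (nat_lit 78) (nat_lit 152) (nat_lit 0) (XT.lf (nat_lit 76) (nat_lit 3948984984) (nat_lit 0) (nat_lit 3948986462) (nat_lit 76) (nat_lit 3948986462) (nat_lit 90) (nat_lit 3) (nat_lit 89) (nat_lit 1) (nat_lit 90) (nat_lit 1) (nat_lit 324) (nat_lit 352) (nat_lit 224)) (XT.lf (nat_lit 152) (nat_lit 11331871990) (nat_lit 0) (nat_lit 389) (nat_lit 76) (nat_lit 389) (nat_lit 89) (nat_lit 1) (nat_lit 87) (nat_lit 1) (nat_lit 88) (nat_lit 1) (nat_lit 325) (nat_lit 352) (nat_lit 223)))))) (XT.nd (nat_lit 390) (nat_lit 456) (nat_lit 0) (XT.nd (nat_lit 156) (nat_lit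 228) (nat_lit 0) (XT.nd (nat_lit 78) (nat_lit 76) (nat_lit 0) (XT.lf (nat_lit 0) (nat_lit 3597419602) (nat_lit 0) (nat_lit 3597420573) (nat_lit 152) (nat_lit 3597419602) (nat_lit 87) (nat_lit 3) (nat_lit 87) (nat_lit 1) (nat_lit 89) (nat_lit 1) (nat_lit 326) (nat_lit 352) (nat_lit 222)) (XT.lf (nat_lit 76) (nat_lit 3433900273) (nat_lit 0) (nat_lit 3433901118) (nat_lit 76) (nat_lit 3433901118) (nat_lit 87) (nat_lit 3) (nat_lit 86) (nat_lit 1) (nat_lit 87) (nat_lit 1) (nat_lit 327) (nat_lit 352) (nat_lit 221))) (XT.nd (nat_lit 78) (nat_lit 76) (nat_lit 0) (XT.lf (nat_lit 152) (nat_lit 9853801947) (nat_lit 0) (nat_lit 222) (nat_lit 76) (nat_lit 222) (nat_lit 86) (nat_lit 1) (nat_lit 84) (nat_lit 1) (nat_lit 85) (nat_lit 1) (nat_lit 328) (nat_lit 352) (nat_lit 220)) (XT.nd (nat_lit 78) (nat_lit 76) (nat_lit 0) (XT.lf (nat_lit 0) (nat_lit 3128191050) (nat_lit 0) (nat_lit 3128191605) (nat_lit 152) (nat_lit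 3128191050) (nat_lit 84) (nat_lit 3) (nat_lit 84) (nat_lit 1) (nat_lit 86) (nat_lit 1) (nat_lit 329) (nat_lit 352) (nat_lit 219)) (XT.lf (nat_lit 76) (nat_lit 2986000401) (nat_lit 0) (nat_lit 2986000884) (nat_lit 76) (nat_lit 2986000884) (nat_lit 84) (nat_lit 3) (nat_lit 83) (nat_lit 1) (nat_lit 84) (nat_lit 1) (nat_lit 330) (nat_lit 352) (nat_lit 218))))) (XT.nd (nat_lit 234) (nat_lit 228) (nat_lit 0) (XT.nd (nat_lit 78) (nat_lit 76) (nat_lit 0) (XT.lf (nat_lit 152) (nat_lit 8568523556) (nat_lit 0) (nat_lit 127) (nat_lit 76) (nat_lit 127) (nat_lit 83) (nat_lit 1) (nat_lit 81) (nat_lit 1) (nat_lit 82) (nat_lit 1) (nat_lit 331) (nat_lit 352) (nat_lit 217)) (XT.nd (nat_lit 78) (nat_lit 76) (nat_lit 0) (XT.lf (nat_lit 0) (nat_lit 2720166183) (nat_lit 0) (nat_lit 2720166500) (nat_lit 152) (nat_lit 2720166183) (nat_lit 81) (nat_lit 3) (nat_lit 81) (nat_lit 1) (nat_lit 83) (nat_lit 1) (nat_lit 332) (nat_lit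 352) (nat_lit 216)) (XT.lf (nat_lit 76) (nat_lit 2596522182) (nat_lit 0) (nat_lit 2596522458) (nat_lit 76) (nat_lit 2596522458) (nat_lit 81) (nat_lit 3) (nat_lit 80) (nat_lit 1) (nat_lit 81) (nat_lit 1) (nat_lit 333) (nat_lit 352) (nat_lit 215)))) (XT.nd (nat_lit 78) (nat_lit 76) (nat_lit 0) (XT.lf (nat_lit 152) (nat_lit 7450890120) (nat_lit 0) (nat_lit 72) (nat_lit 76) (nat_lit 72) (nat_lit 80) (nat_lit 1) (nat_lit 78) (nat_lit 1) (nat_lit 79) (nat_lit 1) (nat_lit 334) (nat_lit 352) (nat_lit 214)) (XT.nd (nat_lit 78) (nat_lit 76) (nat_lit 0) (XT.lf (nat_lit 0) (nat_lit 2365361928) (nat_lit 0) (nat_lit 2365362110) (nat_lit 152) (nat_lit 2365361928) (nat_lit 78) (nat_lit 3) (nat_lit 78) (nat_lit 1) (nat_lit 80) (nat_lit 1) (nat_lit 335) (nat_lit 352) (nat_lit 213)) (XT.lf (nat_lit 76) (nat_lit 2257845429) (nat_lit 0) (nat_lit 2257845587) (nat_lit 76) (nat_lit 2257845587) (nat_lit 78) (nat_lit 3)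 (nat_lit 77) (nat_lit 1) (nat_lit 78) (nat_lit 1) (nat_lit 336) (nat_lit 352) (nat_lit 212))))))))
noncomputable def ec169 : XT := (XT.nd (nat_lit 1716) (nat_lit 1064) (nat_lit 0) (XT.nd (nat_lit 858) (nat_lit 760) (nat_lit 0) (XT.nd (nat_lit 390) (nat_lit 456) (nat_lit 0) (XT.nd (nat_lit 156) (nat_lit 228) (nat_lit 0) (XT.nd (nat_lit 78) (nat_lit 0) (nat_lit 0) (XT.lf (nat_lit 152) (nat_lit 6479034927) (nat_lit 0) (nat_lit 41) (nat_lit 76) (nat_lit 41) (nat_lit 77) (nat_lit 1) (nat_lit 75) (nat_lit 1) (nat_lit 76) (nat_lit 1) (nat_lit 337) (nat_lit 352) (nat_lit 211)) (XT.lf (nat_lit 0) (nat_lit 2056836476) (nat_lit 0) (nat_lit 2056836580) (nat_lit 152) (nat_lit 2056836476) (nat_lit 75) (nat_lit 3) (nat_lit 75) (nat_lit 1) (nat_lit 77) (nat_lit 1) (nat_lit 338) (nat_lit 352) (nat_lit 210))) (XT.nd (nat_lit 78) (nat_lit 152) (nat_lit 0) (XT.lf (nat_lit 76) (nat_lit 1963343882) (nat_lit 0) (nat_lit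 1963343972) (nat_lit 76) (nat_lit 1963343972) (nat_lit 75) (nat_lit 3) (nat_lit 74) (nat_lit 1) (nat_lit 75) (nat_lit 1) (nat_lit 339) (nat_lit 352) (nat_lit 209)) (XT.nd (nat_lit 78) (nat_lit 0) (nat_lit 0) (XT.lf (nat_lit 152) (nat_lit 5633943438) (nat_lit 0) (nat_lit 23) (nat_lit 76) (nat_lit 23) (nat_lit 74) (nat_lit 1) (nat_lit 72) (nat_lit 1) (nat_lit 73) (nat_lit 1) (nat_lit 340) (nat_lit 352) (nat_lit 208)) (XT.lf (nat_lit 0) (nat_lit 1788553467) (nat_lit 0) (nat_lit 1788553527) (nat_lit 152) (nat_lit 1788553467) (nat_lit 72) (nat_lit 3) (nat_lit 72) (nat_lit 1) (nat_lit 74) (nat_lit 1) (nat_lit 341) (nat_lit 352) (nat_lit 207))))) (XT.nd (nat_lit 234) (nat_lit 228) (nat_lit 0) (XT.nd (nat_lit 78) (nat_lit 152) (nat_lit 0) (XT.lf (nat_lit 76) (nat_lit 1707255567) (nat_lit 0) (nat_lit 1707255618) (nat_lit 76) (nat_lit 1707255618) (nat_lit 72) (nat_lit 3) (nat_lit 71) (nat_lit 1) (nat_lit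 72) (nat_lit 1) (nat_lit 342) (nat_lit 352) (nat_lit 206)) (XT.nd (nat_lit 78) (nat_lit 0) (nat_lit 0) (XT.lf (nat_lit 152) (nat_lit 4899081264) (nat_lit 0) (nat_lit 13) (nat_lit 76) (nat_lit 13) (nat_lit 71) (nat_lit 1) (nat_lit 69) (nat_lit 1) (nat_lit 70) (nat_lit 1) (nat_lit 343) (nat_lit 352) (nat_lit 205)) (XT.lf (nat_lit 0) (nat_lit 1555263890) (nat_lit 0) (nat_lit 1555263924) (nat_lit 152) (nat_lit 1555263890) (nat_lit 69) (nat_lit 3) (nat_lit 69) (nat_lit 1) (nat_lit 71) (nat_lit 1) (nat_lit 344) (nat_lit 352) (nat_lit 204)))) (XT.nd (nat_lit 78) (nat_lit 152) (nat_lit 0) (XT.lf (nat_lit 76) (nat_lit 1484570068) (nat_lit 0) (nat_lit 1484570098) (nat_lit 76) (nat_lit 1484570098) (nat_lit 69) (nat_lit 3) (nat_lit 68) (nat_lit 1) (nat_lit 69) (nat_lit 1) (nat_lit 345) (nat_lit 352) (nat_lit 203)) (XT.nd (nat_lit 78) (nat_lit 0) (nat_lit 0) (XT.lf (nat_lit 152) (nat_lit 4260070672) (nat_lit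 0) (nat_lit 7) (nat_lit 76) (nat_lit 7) (nat_lit 68) (nat_lit 1) (nat_lit 66) (nat_lit 1) (nat_lit 67) (nat_lit 1) (nat_lit 346) (nat_lit 352) (nat_lit 202)) (XT.lf (nat_lit 0) (nat_lit 1352403386) (nat_lit 0) (nat_lit 1352403405) (nat_lit 152) (nat_lit 1352403386) (nat_lit 66) (nat_lit 3) (nat_lit 66) (nat_lit 1) (nat_lit 68) (nat_lit 1) (nat_lit 347) (nat_lit 352) (nat_lit 201)))))) (XT.nd (nat_lit 390) (nat_lit 304) (nat_lit 0) (XT.nd (nat_lit 156) (nat_lit 228) (nat_lit 0) (XT.nd (nat_lit 78) (nat_lit 152) (nat_lit 0) (XT.lf (nat_lit 76) (nat_lit 1290930500) (nat_lit 0) (nat_lit 1290930516) (nat_lit 76) (nat_lit 1290930516) (nat_lit 66) (nat_lit 3) (nat_lit 65) (nat_lit 1) (nat_lit 66) (nat_lit 1) (nat_lit 348) (nat_lit 352) (nat_lit 200)) (XT.lf (nat_lit 152) (nat_lit 3704409284) (nat_lit 0) (nat_lit 4) (nat_lit 76) (nat_lit 4) (nat_lit 65) (nat_lit 1) (nat_lit 63) (nat_lit 1) (nat_lit 64)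 (nat_lit 1) (nat_lit 349) (nat_lit 352) (nat_lit 199))) (XT.nd (nat_lit 78) (nat_lit 228) (nat_lit 0) (XT.lf (nat_lit 0) (nat_lit 1176002946) (nat_lit 0) (nat_lit 1176002957) (nat_lit 152) (nat_lit 1176002946) (nat_lit 63) (nat_lit 3) (nat_lit 63) (nat_lit 1) (nat_lit 65) (nat_lit 1) (nat_lit 350) (nat_lit 352) (nat_lit 198)) (XT.nd (nat_lit 78) (nat_lit 152) (nat_lit 0) (XT.lf (nat_lit 76) (nat_lit 1122548264) (nat_lit 0) (nat_lit 1122548273) (nat_lit 76) (nat_lit 1122548273) (nat_lit 63) (nat_lit 3) (nat_lit 62) (nat_lit 1) (nat_lit 63) (nat_lit 1) (nat_lit 351) (nat_lit 352) (nat_lit 197)) (XT.lf (nat_lit 152) (nat_lit 3221225467) (nat_lit 0) (nat_lit 2) (nat_lit 76) (nat_lit 2) (nat_lit 62) (nat_lit 1) (nat_lit 60) (nat_lit 1) (nat_lit 61) (nat_lit 1) (nat_lit 352) (nat_lit 352) (nat_lit 196))))) (XT.nd (nat_lit 234) (nat_lit 76) (nat_lit 0) (XT.nd (nat_lit 78) (nat_lit 228) (nat_lit 0) (XT.lf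 (nat_lit 0) (nat_lit 1022611258) (nat_lit 0) (nat_lit 1022611265) (nat_lit 152) (nat_lit 1022611258) (nat_lit 60) (nat_lit 3) (nat_lit 60) (nat_lit 1) (nat_lit 62) (nat_lit 1) (nat_lit 353) (nat_lit 352) (nat_lit 195)) (XT.nd (nat_lit 78) (nat_lit 152) (nat_lit 0) (XT.lf (nat_lit 76) (nat_lit 976128927) (nat_lit 0) (nat_lit 976128932) (nat_lit 76) (nat_lit 976128932) (nat_lit 60) (nat_lit 3) (nat_lit 59) (nat_lit 1) (nat_lit 60) (nat_lit 1) (nat_lit 354) (nat_lit 352) (nat_lit 194)) (XT.lf (nat_lit 152) (nat_lit 2801065625) (nat_lit 0) (nat_lit 1) (nat_lit 76) (nat_lit 1) (nat_lit 59) (nat_lit 1) (nat_lit 57) (nat_lit 1) (nat_lit 58) (nat_lit 1) (nat_lit 355) (nat_lit 352) (nat_lit 193)))) (XT.nd (nat_lit 78) (nat_lit 76) (nat_lit 0) (XT.lf (nat_lit 0) (nat_lit 889227182) (nat_lit 0) (nat_lit 889227185) (nat_lit 152) (nat_lit 889227182) (nat_lit 57) (nat_lit 3) (nat_lit 57) (nat_lit 1) (nat_lit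 59) (nat_lit 1) (nat_lit 356) (nat_lit 352) (nat_lit 192)) (XT.nd (nat_lit 78) (nat_lit 0) (nat_lit 0) (XT.lf (nat_lit 76) (nat_lit 848807763) (nat_lit 0) (nat_lit 848807767) (nat_lit 76) (nat_lit 848807767) (nat_lit 57) (nat_lit 3) (nat_lit 56) (nat_lit 1) (nat_lit 57) (nat_lit 1) (nat_lit 357) (nat_lit 352) (nat_lit 191)) (XT.lf (nat_lit 0) (nat_lit 2435709240) (nat_lit 0) (nat_lit 0) (nat_lit 0) (nat_lit 0) (nat_lit 56) (nat_lit 1) (nat_lit 1) (nat_lit 0) (nat_lit 1) (nat_lit 0) (nat_lit 358) (nat_lit 352) (nat_lit 190))))))) (XT.nd (nat_lit 858) (nat_lit 152) (nat_lit 0) (XT.nd (nat_lit 390) (nat_lit 456) (nat_lit 0) (XT.nd (nat_lit 156) (nat_lit 228) (nat_lit 0) (XT.nd (nat_lit 78) (nat_lit 76) (nat_lit 0) (XT.lf (nat_lit 0) (nat_lit 773241028) (nat_lit 0) (nat_lit 773241030) (nat_lit 152) (nat_lit 773241028) (nat_lit 54) (nat_lit 3) (nat_lit 54) (nat_lit 1) (nat_lit 56) (nat_lit 1) (nat_lit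 359) (nat_lit 352) (nat_lit 189)) (XT.lf (nat_lit 76) (nat_lit 738093708) (nat_lit 0) (nat_lit 738093710) (nat_lit 76) (nat_lit 738093710) (nat_lit 54) (nat_lit 3) (nat_lit 53) (nat_lit 1) (nat_lit 54) (nat_lit 1) (nat_lit 360) (nat_lit 352) (nat_lit 188))) (XT.nd (nat_lit 78) (nat_lit 228) (nat_lit 0) (XT.lf (nat_lit 0) (nat_lit 2118008035) (nat_lit 0) (nat_lit 0) (nat_lit 0) (nat_lit 0) (nat_lit 53) (nat_lit 1) (nat_lit 1) (nat_lit 0) (nat_lit 1) (nat_lit 0) (nat_lit 361) (nat_lit 352) (nat_lit 187)) (XT.nd (nat_lit 78) (nat_lit 76) (nat_lit 0) (XT.lf (nat_lit 0) (nat_lit 672383503) (nat_lit 0) (nat_lit 672383504) (nat_lit 152) (nat_lit 672383503) (nat_lit 51) (nat_lit 3) (nat_lit 51) (nat_lit 1) (nat_lit 53) (nat_lit 1) (nat_lit 362) (nat_lit 352) (nat_lit 186)) (XT.lf (nat_lit 76) (nat_lit 641820616) (nat_lit 0) (nat_lit 641820617) (nat_lit 76) (nat_lit 641820617) (nat_lit 51) (nat_lit 3) (nat_lit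 50) (nat_lit 1) (nat_lit 51) (nat_lit 1) (nat_lit 363) (nat_lit 352) (nat_lit 185))))) (XT.nd (nat_lit 234) (nat_lit 228) (nat_lit 0) (XT.nd (nat_lit 78) (nat_lit 228) (nat_lit 0) (XT.lf (nat_lit 0) (nat_lit 1841746117) (nat_lit 0) (nat_lit 0) (nat_lit 0) (nat_lit 0) (nat_lit 50) (nat_lit 1) (nat_lit 1) (nat_lit 0) (nat_lit 1) (nat_lit 0) (nat_lit 364) (nat_lit 352) (nat_lit 184)) (XT.nd (nat_lit 78) (nat_lit 76) (nat_lit 0) (XT.lf (nat_lit 0) (nat_lit 584681307) (nat_lit 0) (nat_lit 584681307) (nat_lit 152) (nat_lit 584681307) (nat_lit 48) (nat_lit 3) (nat_lit 48) (nat_lit 1) (nat_lit 50) (nat_lit 1) (nat_lit 365) (nat_lit 352) (nat_lit 183)) (XT.lf (nat_lit 76) (nat_lit 558104883) (nat_lit 0) (nat_lit 558104884) (nat_lit 76) (nat_lit 558104884) (nat_lit 48) (nat_lit 3) (nat_lit 47) (nat_lit 1) (nat_lit 48) (nat_lit 1) (nat_lit 366) (nat_lit 352) (nat_lit 182)))) (XT.nd (nat_lit 78) (nat_lit 228)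 (nat_lit 0) (XT.lf (nat_lit 0) (nat_lit 1601518363) (nat_lit 0) (nat_lit 0) (nat_lit 0) (nat_lit 0) (nat_lit 47) (nat_lit 1) (nat_lit 1) (nat_lit 0) (nat_lit 1) (nat_lit 0) (nat_lit 367) (nat_lit 352) (nat_lit 181)) (XT.nd (nat_lit 78) (nat_lit 76) (nat_lit 0) (XT.lf (nat_lit 0) (nat_lit 508418528) (nat_lit 0) (nat_lit 508418528) (nat_lit 152) (nat_lit 508418528) (nat_lit 45) (nat_lit 3) (nat_lit 45) (nat_lit 1) (nat_lit 47) (nat_lit 1) (nat_lit 368) (nat_lit 352) (nat_lit 180)) (XT.lf (nat_lit 76) (nat_lit 485308594) (nat_lit 0) (nat_lit 485308595) (nat_lit 76) (nat_lit 485308595) (nat_lit 45) (nat_lit 3) (nat_lit 44) (nat_lit 1) (nat_lit 45) (nat_lit 1) (nat_lit 369) (nat_lit 352) (nat_lit 179)))))) (XT.nd (nat_lit 33462) (nat_lit 0) (nat_lit 12616) (XT.nd (nat_lit 33228) (nat_lit 0) (nat_lit 13148) (XT.nd (nat_lit 78) (nat_lit 152) (nat_lit 0) (XT.lf (nat_lit 0) (nat_lit 1392624664) (nat_lit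 0) (nat_lit 0) (nat_lit 0) (nat_lit 0) (nat_lit 44) (nat_lit 1) (nat_lit 1) (nat_lit 0) (nat_lit 1) (nat_lit 0) (nat_lit 370) (nat_lit 352) (nat_lit 178)) (XT.nd (nat_lit 33072) (nat_lit 0) (nat_lit 13148) (XT.lf (nat_lit 0) (nat_lit 442103067) (nat_lit 0) (nat_lit 442103068) (nat_lit 152) (nat_lit 442103067) (nat_lit 42) (nat_lit 3) (nat_lit 42) (nat_lit 1) (nat_lit 44) (nat_lit 1) (nat_lit 371) (nat_lit 352) (nat_lit 177)) (XT.lf (nat_lit 380) (nat_lit 1156405042732) (nat_lit 0) (nat_lit 1024256407176) (nat_lit 380) (nat_lit 1156405042732) (nat_lit 220) (nat_lit 1) (nat_lit 215) (nat_lit 0) (nat_lit 220) (nat_lit 0) (nat_lit 194) (nat_lit 353) (nat_lit 353)))) (XT.nd (nat_lit 78) (nat_lit 0) (nat_lit 76) (XT.lf (nat_lit 380) (nat_lit 4277392180798) (nat_lit 76) (nat_lit 977699297759) (nat_lit 0) (nat_lit 977699297759) (nat_lit 220) (nat_lit 1) (nat_lit 216) (nat_lit 1) (nat_lit 215) (nat_lit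 0) (nat_lit 195) (nat_lit 353) (nat_lit 352)) (XT.nd (nat_lit 78) (nat_lit 0) (nat_lit 0) (XT.lf (nat_lit 380) (nat_lit 1885449945458) (nat_lit 0) (nat_lit 2051547398222) (nat_lit 304) (nat_lit 1885449945458) (nat_lit 221) (nat_lit 1) (nat_lit 216) (nat_lit 1) (nat_lit 220) (nat_lit 1) (nat_lit 196) (nat_lit 353) (nat_lit 351)) (XT.lf (nat_lit 380) (nat_lit 3237219658294) (nat_lit 76) (nat_lit 1108121941358) (nat_lit 0) (nat_lit 1108121941358) (nat_lit 221) (nat_lit 1) (nat_lit 217) (nat_lit 1) (nat_lit 216) (nat_lit 1) (nat_lit 197) (nat_lit 353) (nat_lit 350))))) (XT.nd (nat_lit 234) (nat_lit 380) (nat_lit 0) (XT.nd (nat_lit 78) (nat_lit 304) (nat_lit 0) (XT.lf (nat_lit 76) (nat_lit 1309498286867) (nat_lit 0) (nat_lit 2493504579720) (nat_lit 304) (nat_lit 1309498286867) (nat_lit 218) (nat_lit 1) (nat_lit 217) (nat_lit 1) (nat_lit 221) (nat_lit 1) (nat_lit 198) (nat_lit 353) (nat_lit 349)) (XT.nd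 (nat_lit 78) (nat_lit 0) (nat_lit 0) (XT.lf (nat_lit 380) (nat_lit 1968070165552) (nat_lit 0) (nat_lit 1416579165627) (nat_lit 304) (nat_lit 1416579165627) (nat_lit 218) (nat_lit 1) (nat_lit 213) (nat_lit 1) (nat_lit 217) (nat_lit 1) (nat_lit 199) (nat_lit 353) (nat_lit 348)) (XT.lf (nat_lit 76) (nat_lit 654164787492) (nat_lit 0) (nat_lit 3210003008182) (nat_lit 380) (nat_lit 654164787492) (nat_lit 214) (nat_lit 1) (nat_lit 213) (nat_lit 1) (nat_lit 218) (nat_lit 1) (nat_lit 200) (nat_lit 353) (nat_lit 347)))) (XT.nd (nat_lit 78) (nat_lit 228) (nat_lit 0) (XT.lf (nat_lit 228) (nat_lit 588732877282) (nat_lit 0) (nat_lit 1832285810426) (nat_lit 152) (nat_lit 1832285810426) (nat_lit 214) (nat_lit 1) (nat_lit 211) (nat_lit 1) (nat_lit 213) (nat_lit 1) (nat_lit 201) (nat_lit 353) (nat_lit 346)) (XT.nd (nat_lit 78) (nat_lit 0) (nat_lit 0) (XT.lf (nat_lit 228) (nat_lit 3956277527508) (nat_lit 0) (nat_lit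 31040997515) (nat_lit 152) (nat_lit 31040997515) (nat_lit 211) (nat_lit 1) (nat_lit 208) (nat_lit 1) (nat_lit 210) (nat_lit 1) (nat_lit 202) (nat_lit 353) (nat_lit 345)) (XT.lf (nat_lit 76) (nat_lit 1520027113693) (nat_lit 0) (nat_lit 746252402333) (nat_lit 228) (nat_lit 1520027113693) (nat_lit 209) (nat_lit 1) (nat_lit 208) (nat_lit 1) (nat_lit 211) (nat_lit 1) (nat_lit 203) (nat_lit 353) (nat_lit 344))))))))
noncomputable def ec170 : XT := (XT.nd (nat_lit 1716) (nat_lit 1672) (nat_lit 0) (XT.nd (nat_lit 858) (nat_lit 836) (nat_lit 0) (XT.nd (nat_lit 390) (nat_lit 380) (nat_lit 0) (XT.nd (nat_lit 156) (nat_lit 304) (nat_lit 0) (XT.nd (nat_lit 78) (nat_lit 0) (nat_lit 0) (XT.lf (nat_lit 228) (nat_lit 2209417750497) (nat_lit 0) (nat_lit 685339666838) (nat_lit 152) (nat_lit 685339666838) (nat_lit 209) (nat_lit 1) (nat_lit 206) (nat_lit 1) (nat_lit 208) (nat_lit 1) (nat_lit 204) (nat_lit 353) (nat_lit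 343)) (XT.lf (nat_lit 76) (nat_lit 690957396412) (nat_lit 0) (nat_lit 2005146551430) (nat_lit 228) (nat_lit 690957396412) (nat_lit 207) (nat_lit 1) (nat_lit 206) (nat_lit 1) (nat_lit 209) (nat_lit 1) (nat_lit 205) (nat_lit 353) (nat_lit 342))) (XT.nd (nat_lit 78) (nat_lit 228) (nat_lit 0) (XT.lf (nat_lit 152) (nat_lit 571203978480) (nat_lit 0) (nat_lit 1318055989983) (nat_lit 76) (nat_lit 1318055989983) (nat_lit 207) (nat_lit 1) (nat_lit 205) (nat_lit 1) (nat_lit 206) (nat_lit 1) (nat_lit 206) (nat_lit 353) (nat_lit 341)) (XT.nd (nat_lit 78) (nat_lit 0) (nat_lit 0) (XT.lf (nat_lit 228) (nat_lit 2891770306347) (nat_lit 0) (nat_lit 76822837869) (nat_lit 152) (nat_lit 76822837869) (nat_lit 205) (nat_lit 1) (nat_lit 202) (nat_lit 1) (nat_lit 204) (nat_lit 1) (nat_lit 207) (nat_lit 353) (nat_lit 340)) (XT.lf (nat_lit 76) (nat_lit 1012057412571) (nat_lit 0) (nat_lit 859472174899) (nat_lit 228) (nat_lit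 1012057412571) (nat_lit 203) (nat_lit 1) (nat_lit 202) (nat_lit 1) (nat_lit 205) (nat_lit 1) (nat_lit 208) (nat_lit 353) (nat_lit 339))))) (XT.nd (nat_lit 234) (nat_lit 152) (nat_lit 0) (XT.nd (nat_lit 78) (nat_lit 152) (nat_lit 0) (XT.lf (nat_lit 152) (nat_lit 1230564880968) (nat_lit 0) (nat_lit 753602790146) (nat_lit 76) (nat_lit 753602790146) (nat_lit 203) (nat_lit 1) (nat_lit 201) (nat_lit 1) (nat_lit 202) (nat_lit 1) (nat_lit 209) (nat_lit 353) (nat_lit 338)) (XT.nd (nat_lit 78) (nat_lit 152) (nat_lit 0) (XT.lf (nat_lit 0) (nat_lit 240961561793) (nat_lit 0) (nat_lit 2121407087300) (nat_lit 152) (nat_lit 240961561793) (nat_lit 201) (nat_lit 3) (nat_lit 201) (nat_lit 1) (nat_lit 203) (nat_lit 1) (nat_lit 210) (nat_lit 353) (nat_lit 337)) (XT.lf (nat_lit 76) (nat_lit 1115169091760) (nat_lit 0) (nat_lit 241860897869) (nat_lit 152) (nat_lit 1115169091760) (nat_lit 200) (nat_lit 1) (nat_lit 199)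 (nat_lit 1) (nat_lit 201) (nat_lit 1) (nat_lit 211) (nat_lit 353) (nat_lit 336)))) (XT.nd (nat_lit 78) (nat_lit 76) (nat_lit 0) (XT.lf (nat_lit 152) (nat_lit 1489646553629) (nat_lit 0) (nat_lit 430874841154) (nat_lit 76) (nat_lit 430874841154) (nat_lit 200) (nat_lit 1) (nat_lit 198) (nat_lit 1) (nat_lit 199) (nat_lit 1) (nat_lit 212) (nat_lit 353) (nat_lit 335)) (XT.nd (nat_lit 78) (nat_lit 76) (nat_lit 0) (XT.lf (nat_lit 0) (nat_lit 387315662644) (nat_lit 0) (nat_lit 1462466495014) (nat_lit 152) (nat_lit 387315662644) (nat_lit 198) (nat_lit 3) (nat_lit 198) (nat_lit 1) (nat_lit 200) (nat_lit 1) (nat_lit 213) (nat_lit 353) (nat_lit 334)) (XT.lf (nat_lit 76) (nat_lit 86403203046) (nat_lit 0) (nat_lit 1021316970324) (nat_lit 76) (nat_lit 1021316970324) (nat_lit 198) (nat_lit 3) (nat_lit 197) (nat_lit 1) (nat_lit 198) (nat_lit 1) (nat_lit 214) (nat_lit 353) (nat_lit 333)))))) (XT.nd (nat_lit 390)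 (nat_lit 456) (nat_lit 0) (XT.nd (nat_lit 156) (nat_lit 228) (nat_lit 0) (XT.nd (nat_lit 78) (nat_lit 0) (nat_lit 0) (XT.lf (nat_lit 152) (nat_lit 1535246850974) (nat_lit 0) (nat_lit 246354088874) (nat_lit 76) (nat_lit 246354088874) (nat_lit 197) (nat_lit 1) (nat_lit 195) (nat_lit 1) (nat_lit 196) (nat_lit 1) (nat_lit 215) (nat_lit 353) (nat_lit 332)) (XT.lf (nat_lit 0) (nat_lit 438444732948) (nat_lit 0) (nat_lit 1053165710857) (nat_lit 152) (nat_lit 438444732948) (nat_lit 195) (nat_lit 3) (nat_lit 195) (nat_lit 1) (nat_lit 197) (nat_lit 1) (nat_lit 216) (nat_lit 353) (nat_lit 331))) (XT.nd (nat_lit 78) (nat_lit 152) (nat_lit 0) (XT.lf (nat_lit 76) (nat_lit 256533614544) (nat_lit 0) (nat_lit 791073595334) (nat_lit 76) (nat_lit 791073595334) (nat_lit 195) (nat_lit 3) (nat_lit 194) (nat_lit 1) (nat_lit 195) (nat_lit 1) (nat_lit 217) (nat_lit 353) (nat_lit 330)) (XT.nd (nat_lit 78) (nat_lit 0) (nat_lit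 0) (XT.lf (nat_lit 152) (nat_lit 1472162021266) (nat_lit 0) (nat_lit 140853749878) (nat_lit 76) (nat_lit 140853749878) (nat_lit 194) (nat_lit 1) (nat_lit 192) (nat_lit 1) (nat_lit 193) (nat_lit 1) (nat_lit 218) (nat_lit 353) (nat_lit 329)) (XT.lf (nat_lit 0) (nat_lit 439374151912) (nat_lit 0) (nat_lit 790842866166) (nat_lit 152) (nat_lit 439374151912) (nat_lit 192) (nat_lit 3) (nat_lit 192) (nat_lit 1) (nat_lit 194) (nat_lit 1) (nat_lit 219) (nat_lit 353) (nat_lit 328))))) (XT.nd (nat_lit 234) (nat_lit 228) (nat_lit 0) (XT.nd (nat_lit 78) (nat_lit 152) (nat_lit 0) (XT.lf (nat_lit 76) (nat_lit 326788972608) (nat_lit 0) (nat_lit 632413941525) (nat_lit 76) (nat_lit 632413941525) (nat_lit 192) (nat_lit 3) (nat_lit 191) (nat_lit 1) (nat_lit 192) (nat_lit 1) (nat_lit 220) (nat_lit 353) (nat_lit 327)) (XT.nd (nat_lit 78) (nat_lit 0) (nat_lit 0) (XT.lf (nat_lit 152) (nat_lit 1358565284510) (nat_lit 0)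 (nat_lit 80533588647) (nat_lit 76) (nat_lit 80533588647) (nat_lit 191) (nat_lit 1) (nat_lit 189) (nat_lit 1) (nat_lit 190) (nat_lit 1) (nat_lit 221) (nat_lit 353) (nat_lit 326)) (XT.lf (nat_lit 0) (nat_lit 415293556374) (nat_lit 0) (nat_lit 616246934473) (nat_lit 152) (nat_lit 415293556374) (nat_lit 189) (nat_lit 3) (nat_lit 189) (nat_lit 1) (nat_lit 191) (nat_lit 1) (nat_lit 222) (nat_lit 353) (nat_lit 325)))) (XT.nd (nat_lit 78) (nat_lit 152) (nat_lit 0) (XT.lf (nat_lit 76) (nat_lit 343464434747) (nat_lit 0) (nat_lit 518206502659) (nat_lit 76) (nat_lit 518206502659) (nat_lit 189) (nat_lit 3) (nat_lit 188) (nat_lit 1) (nat_lit 189) (nat_lit 1) (nat_lit 223) (nat_lit 353) (nat_lit 324)) (XT.nd (nat_lit 78) (nat_lit 0) (nat_lit 0) (XT.lf (nat_lit 152) (nat_lit 1226200520171) (nat_lit 0) (nat_lit 46045340688) (nat_lit 76) (nat_lit 46045340688) (nat_lit 188) (nat_lit 1) (nat_lit 186) (nat_lit 1) (nat_lit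 187) (nat_lit 1) (nat_lit 224) (nat_lit 353) (nat_lit 323)) (XT.lf (nat_lit 0) (nat_lit 380123663937) (nat_lit 0) (nat_lit 495019410078) (nat_lit 152) (nat_lit 380123663937) (nat_lit 186) (nat_lit 3) (nat_lit 186) (nat_lit 1) (nat_lit 188) (nat_lit 1) (nat_lit 225) (nat_lit 353) (nat_lit 322))))))) (XT.nd (nat_lit 858) (nat_lit 760) (nat_lit 0) (XT.nd (nat_lit 390) (nat_lit 456) (nat_lit 0) (XT.nd (nat_lit 156) (nat_lit 228) (nat_lit 0) (XT.nd (nat_lit 78) (nat_lit 152) (nat_lit 0) (XT.lf (nat_lit 76) (nat_lit 332569756646) (nat_lit 0) (nat_lit 432479101117) (nat_lit 76) (nat_lit 432479101117) (nat_lit 186) (nat_lit 3) (nat_lit 185) (nat_lit 1) (nat_lit 186) (nat_lit 1) (nat_lit 226) (nat_lit 353) (nat_lit 321)) (XT.lf (nat_lit 152) (nat_lit 1091898396201) (nat_lit 0) (nat_lit 26326572982) (nat_lit 76) (nat_lit 26326572982) (nat_lit 185) (nat_lit 1) (nat_lit 183) (nat_lit 1) (nat_lit 184) (nat_lit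 1) (nat_lit 227) (nat_lit 353) (nat_lit 320))) (XT.nd (nat_lit 78) (nat_lit 228) (nat_lit 0) (XT.lf (nat_lit 0) (nat_lit 341404960502) (nat_lit 0) (nat_lit 407096976263) (nat_lit 152) (nat_lit 341404960502) (nat_lit 183) (nat_lit 3) (nat_lit 183) (nat_lit 1) (nat_lit 185) (nat_lit 1) (nat_lit 228) (nat_lit 353) (nat_lit 319)) (XT.nd (nat_lit 78) (nat_lit 152) (nat_lit 0) (XT.lf (nat_lit 76) (nat_lit 308576404126) (nat_lit 0) (nat_lit 365699896092) (nat_lit 76) (nat_lit 365699896092) (nat_lit 183) (nat_lit 3) (nat_lit 182) (nat_lit 1) (nat_lit 183) (nat_lit 1) (nat_lit 229) (nat_lit 353) (nat_lit 318)) (XT.lf (nat_lit 152) (nat_lit 964134946708) (nat_lit 0) (nat_lit 15052303548) (nat_lit 76) (nat_lit 15052303548) (nat_lit 182) (nat_lit 1) (nat_lit 180) (nat_lit 1) (nat_lit 181) (nat_lit 1) (nat_lit 230) (nat_lit 353) (nat_lit 317))))) (XT.nd (nat_lit 234) (nat_lit 228) (nat_lit 0) (XT.nd (nat_lit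 78) (nat_lit 228) (nat_lit 0) (XT.lf (nat_lit 0) (nat_lit 303084630680) (nat_lit 0) (nat_lit 340644253901) (nat_lit 152) (nat_lit 303084630680) (nat_lit 180) (nat_lit 3) (nat_lit 180) (nat_lit 1) (nat_lit 182) (nat_lit 1) (nat_lit 231) (nat_lit 353) (nat_lit 316)) (XT.nd (nat_lit 78) (nat_lit 152) (nat_lit 0) (XT.lf (nat_lit 76) (nat_lit 279410922640) (nat_lit 0) (nat_lit 312071464571) (nat_lit 76) (nat_lit 312071464571) (nat_lit 180) (nat_lit 3) (nat_lit 179) (nat_lit 1) (nat_lit 180) (nat_lit 1) (nat_lit 232) (nat_lit 353) (nat_lit 315)) (XT.lf (nat_lit 152) (nat_lit 846759019598) (nat_lit 0) (nat_lit 8606203407) (nat_lit 76) (nat_lit 8606203407) (nat_lit 179) (nat_lit 1) (nat_lit 177) (nat_lit 1) (nat_lit 178) (nat_lit 1) (nat_lit 233) (nat_lit 353) (nat_lit 314)))) (XT.nd (nat_lit 78) (nat_lit 228) (nat_lit 0) (XT.lf (nat_lit 0) (nat_lit 267102870369) (nat_lit 0) (nat_lit 288577706849) (nat_lit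 152) (nat_lit 267102870369) (nat_lit 177) (nat_lit 3) (nat_lit 177) (nat_lit 1) (nat_lit 179) (nat_lit 1) (nat_lit 234) (nat_lit 353) (nat_lit 313)) (XT.nd (nat_lit 78) (nat_lit 152) (nat_lit 0) (XT.lf (nat_lit 76) (nat_lit 249303112366) (nat_lit 0) (nat_lit 267976883218) (nat_lit 76) (nat_lit 267976883218) (nat_lit 177) (nat_lit 3) (nat_lit 176) (nat_lit 1) (nat_lit 177) (nat_lit 1) (nat_lit 235) (nat_lit 353) (nat_lit 312)) (XT.lf (nat_lit 152) (nat_lit 741103943454) (nat_lit 0) (nat_lit 4920624730) (nat_lit 76) (nat_lit 4920624730) (nat_lit 176) (nat_lit 1) (nat_lit 174) (nat_lit 1) (nat_lit 175) (nat_lit 1) (nat_lit 236) (nat_lit 353) (nat_lit 311)))))) (XT.nd (nat_lit 390) (nat_lit 456) (nat_lit 0) (XT.nd (nat_lit 156) (nat_lit 228) (nat_lit 0) (XT.nd (nat_lit 78) (nat_lit 76) (nat_lit 0) (XT.lf (nat_lit 0) (nat_lit 234293671378) (nat_lit 0) (nat_lit 246571978834) (nat_lit 152) (nat_lit 234293671378)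 (nat_lit 174) (nat_lit 3) (nat_lit 174) (nat_lit 1) (nat_lit 176) (nat_lit 1) (nat_lit 237) (nat_lit 353) (nat_lit 310)) (XT.lf (nat_lit 76) (nat_lit 220408568409) (nat_lit 0) (nat_lit 231085357501) (nat_lit 76) (nat_lit 231085357501) (nat_lit 174) (nat_lit 3) (nat_lit 173) (nat_lit 1) (nat_lit 174) (nat_lit 1) (nat_lit 238) (nat_lit 353) (nat_lit 309))) (XT.nd (nat_lit 78) (nat_lit 76) (nat_lit 0) (XT.lf (nat_lit 152) (nat_lit 647177911742) (nat_lit 0) (nat_lit 2813383159) (nat_lit 76) (nat_lit 2813383159) (nat_lit 173) (nat_lit 1) (nat_lit 171) (nat_lit 1) (nat_lit 172) (nat_lit 1) (nat_lit 239) (nat_lit 353) (nat_lit 308)) (XT.nd (nat_lit 78) (nat_lit 76) (nat_lit 0) (XT.lf (nat_lit 0) (nat_lit 204894461239) (nat_lit 0) (nat_lit 211914623377) (nat_lit 152) (nat_lit 204894461239) (nat_lit 171) (nat_lit 3) (nat_lit 171) (nat_lit 1) (nat_lit 173) (nat_lit 1) (nat_lit 240) (nat_lit 353) (nat_lit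 307)) (XT.lf (nat_lit 76) (nat_lit 193731231541) (nat_lit 0) (nat_lit 199835720357) (nat_lit 76) (nat_lit 199835720357) (nat_lit 171) (nat_lit 3) (nat_lit 170) (nat_lit 1) (nat_lit 171) (nat_lit 1) (nat_lit 241) (nat_lit 353) (nat_lit 306))))) (XT.nd (nat_lit 234) (nat_lit 228) (nat_lit 0) (XT.nd (nat_lit 78) (nat_lit 76) (nat_lit 0) (XT.lf (nat_lit 152) (nat_lit 564329833907) (nat_lit 0) (nat_lit 1608560952) (nat_lit 76) (nat_lit 1608560952) (nat_lit 170) (nat_lit 1) (nat_lit 168) (nat_lit 1) (nat_lit 169) (nat_lit 1) (nat_lit 242) (nat_lit 353) (nat_lit 305)) (XT.nd (nat_lit 78) (nat_lit 76) (nat_lit 0) (XT.lf (nat_lit 0) (nat_lit 178832807310) (nat_lit 0) (nat_lit 182846607797) (nat_lit 152) (nat_lit 178832807310) (nat_lit 168) (nat_lit 3) (nat_lit 168) (nat_lit 1) (nat_lit 170) (nat_lit 1) (nat_lit 243) (nat_lit 353) (nat_lit 304)) (XT.lf (nat_lit 76) (nat_lit 169646388404) (nat_lit 0) (nat_lit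 173136649697) (nat_lit 76) (nat_lit 173136649697) (nat_lit 168) (nat_lit 3) (nat_lit 167) (nat_lit 1) (nat_lit 168) (nat_lit 1) (nat_lit 244) (nat_lit 353) (nat_lit 303)))) (XT.nd (nat_lit 78) (nat_lit 76) (nat_lit 0) (XT.lf (nat_lit 152) (nat_lit 491617207505) (nat_lit 0) (nat_lit 919699945) (nat_lit 76) (nat_lit 919699945) (nat_lit 167) (nat_lit 1) (nat_lit 165) (nat_lit 1) (nat_lit 166) (nat_lit 1) (nat_lit 245) (nat_lit 353) (nat_lit 302)) (XT.nd (nat_lit 78) (nat_lit 76) (nat_lit 0) (XT.lf (nat_lit 0) (nat_lit 155886267644) (nat_lit 0) (nat_lit 158181171099) (nat_lit 152) (nat_lit 155886267644) (nat_lit 165) (nat_lit 3) (nat_lit 165) (nat_lit 1) (nat_lit 167) (nat_lit 1) (nat_lit 246) (nat_lit 353) (nat_lit 301)) (XT.lf (nat_lit 76) (nat_lit 148195810562) (nat_lit 0) (nat_lit 150191378784) (nat_lit 76) (nat_lit 150191378784) (nat_lit 165) (nat_lit 3) (nat_lit 164) (nat_lit 1) (nat_lit 165)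 (nat_lit 1) (nat_lit 247) (nat_lit 353) (nat_lit 300))))))))
noncomputable def ec171 : XT := (XT.nd (nat_lit 1716) (nat_lit 1672) (nat_lit 0) (XT.nd (nat_lit 858) (nat_lit 912) (nat_lit 0) (XT.nd (nat_lit 390) (nat_lit 456) (nat_lit 0) (XT.nd (nat_lit 156) (nat_lit 228) (nat_lit 0) (XT.nd (nat_lit 78) (nat_lit 0) (nat_lit 0) (XT.lf (nat_lit 152) (nat_lit 428005293445) (nat_lit 0) (nat_lit 525841428) (nat_lit 76) (nat_lit 525841428) (nat_lit 164) (nat_lit 1) (nat_lit 162) (nat_lit 1) (nat_lit 163) (nat_lit 1) (nat_lit 248) (nat_lit 353) (nat_lit 299)) (XT.lf (nat_lit 0) (nat_lit 135770244378) (nat_lit 0) (nat_lit 137082362877) (nat_lit 152) (nat_lit 135770244378) (nat_lit 162) (nat_lit 3) (nat_lit 162) (nat_lit 1) (nat_lit 164) (nat_lit 1) (nat_lit 249) (nat_lit 353) (nat_lit 298))) (XT.nd (nat_lit 78) (nat_lit 152) (nat_lit 0) (XT.lf (nat_lit 76) (nat_lit 129253120358) (nat_lit 0) (nat_lit 130394092966)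 (nat_lit 76) (nat_lit 130394092966) (nat_lit 162) (nat_lit 3) (nat_lit 161) (nat_lit 1) (nat_lit 162) (nat_lit 1) (nat_lit 250) (nat_lit 353) (nat_lit 297)) (XT.nd (nat_lit 78) (nat_lit 0) (nat_lit 0) (XT.lf (nat_lit 152) (nat_lit 372471293454) (nat_lit 0) (nat_lit 300651543) (nat_lit 76) (nat_lit 300651543) (nat_lit 161) (nat_lit 1) (nat_lit 159) (nat_lit 1) (nat_lit 160) (nat_lit 1) (nat_lit 251) (nat_lit 353) (nat_lit 296)) (XT.lf (nat_lit 0) (nat_lit 118185134321) (nat_lit 0) (nat_lit 118935342331) (nat_lit 152) (nat_lit 118185134321) (nat_lit 159) (nat_lit 3) (nat_lit 159) (nat_lit 1) (nat_lit 161) (nat_lit 1) (nat_lit 252) (nat_lit 353) (nat_lit 295))))) (XT.nd (nat_lit 234) (nat_lit 228) (nat_lit 0) (XT.nd (nat_lit 78) (nat_lit 152) (nat_lit 0) (XT.lf (nat_lit 76) (nat_lit 112615399490) (nat_lit 0) (nat_lit 113267754282) (nat_lit 76) (nat_lit 113267754282) (nat_lit 159) (nat_lit 3) (nat_lit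 158) (nat_lit 1) (nat_lit 159) (nat_lit 1) (nat_lit 253) (nat_lit 353) (nat_lit 294)) (XT.nd (nat_lit 78) (nat_lit 0) (nat_lit 0) (XT.lf (nat_lit 152) (nat_lit 324055477701) (nat_lit 0) (nat_lit 171898495) (nat_lit 76) (nat_lit 171898495) (nat_lit 158) (nat_lit 1) (nat_lit 156) (nat_lit 1) (nat_lit 157) (nat_lit 1) (nat_lit 254) (nat_lit 353) (nat_lit 293)) (XT.lf (nat_lit 0) (nat_lit 102840609296) (nat_lit 0) (nat_lit 103269543161) (nat_lit 152) (nat_lit 102840609296) (nat_lit 156) (nat_lit 3) (nat_lit 156) (nat_lit 1) (nat_lit 158) (nat_lit 1) (nat_lit 255) (nat_lit 353) (nat_lit 292)))) (XT.nd (nat_lit 78) (nat_lit 152) (nat_lit 0) (XT.lf (nat_lit 76) (nat_lit 98053010095) (nat_lit 0) (nat_lit 98425996065) (nat_lit 76) (nat_lit 98425996065) (nat_lit 156) (nat_lit 3) (nat_lit 155) (nat_lit 1) (nat_lit 156) (nat_lit 1) (nat_lit 256) (nat_lit 353) (nat_lit 291)) (XT.nd (nat_lit 78) (nat_lit 0)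 (nat_lit 0) (XT.lf (nat_lit 152) (nat_lit 281883081370) (nat_lit 0) (nat_lit 98283522) (nat_lit 76) (nat_lit 98283522) (nat_lit 155) (nat_lit 1) (nat_lit 153) (nat_lit 1) (nat_lit 154) (nat_lit 1) (nat_lit 257) (nat_lit 353) (nat_lit 290)) (XT.lf (nat_lit 0) (nat_lit 89467169681) (nat_lit 0) (nat_lit 89712414010) (nat_lit 152) (nat_lit 89467169681) (nat_lit 153) (nat_lit 3) (nat_lit 153) (nat_lit 1) (nat_lit 155) (nat_lit 1) (nat_lit 258) (nat_lit 353) (nat_lit 289)))))) (XT.nd (nat_lit 390) (nat_lit 456) (nat_lit 0) (XT.nd (nat_lit 156) (nat_lit 228) (nat_lit 0) (XT.nd (nat_lit 78) (nat_lit 152) (nat_lit 0) (XT.lf (nat_lit 76) (nat_lit 85335857138) (nat_lit 0) (nat_lit 85549113077) (nat_lit 76) (nat_lit 85549113077) (nat_lit 153) (nat_lit 3) (nat_lit 152) (nat_lit 1) (nat_lit 153) (nat_lit 1) (nat_lit 259) (nat_lit 353) (nat_lit 288)) (XT.lf (nat_lit 152) (nat_lit 245170445122) (nat_lit 0) (nat_lit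 56193923) (nat_lit 76) (nat_lit 56193923) (nat_lit 152) (nat_lit 1) (nat_lit 150) (nat_lit 1) (nat_lit 151) (nat_lit 1) (nat_lit 260) (nat_lit 353) (nat_lit 287))) (XT.nd (nat_lit 78) (nat_lit 228) (nat_lit 0) (XT.lf (nat_lit 0) (nat_lit 77820725106) (nat_lit 0) (nat_lit 77960944347) (nat_lit 152) (nat_lit 77820725106) (nat_lit 150) (nat_lit 3) (nat_lit 150) (nat_lit 1) (nat_lit 152) (nat_lit 1) (nat_lit 261) (nat_lit 353) (nat_lit 286)) (XT.nd (nat_lit 78) (nat_lit 152) (nat_lit 0) (XT.lf (nat_lit 76) (nat_lit 74246471003) (nat_lit 0) (nat_lit 74368400778) (nat_lit 76) (nat_lit 74368400778) (nat_lit 150) (nat_lit 3) (nat_lit 149) (nat_lit 1) (nat_lit 150) (nat_lit 1) (nat_lit 262) (nat_lit 353) (nat_lit 285)) (XT.lf (nat_lit 152) (nat_lit 213222979002) (nat_lit 0) (nat_lit 32129057) (nat_lit 76) (nat_lit 32129057) (nat_lit 149) (nat_lit 1) (nat_lit 147) (nat_lit 1) (nat_lit 148) (nat_lit 1) (nat_lit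 263) (nat_lit 353) (nat_lit 284))))) (XT.nd (nat_lit 234) (nat_lit 228) (nat_lit 0) (XT.nd (nat_lit 78) (nat_lit 228) (nat_lit 0) (XT.lf (nat_lit 0) (nat_lit 67683452560) (nat_lit 0) (nat_lit 67763623366) (nat_lit 152) (nat_lit 67683452560) (nat_lit 147) (nat_lit 3) (nat_lit 147) (nat_lit 1) (nat_lit 149) (nat_lit 1) (nat_lit 264) (nat_lit 353) (nat_lit 283)) (XT.nd (nat_lit 78) (nat_lit 152) (nat_lit 0) (XT.lf (nat_lit 76) (nat_lit 64585806612) (nat_lit 0) (nat_lit 64655520356) (nat_lit 76) (nat_lit 64655520356) (nat_lit 147) (nat_lit 3) (nat_lit 146) (nat_lit 1) (nat_lit 147) (nat_lit 1) (nat_lit 265) (nat_lit 353) (nat_lit 282)) (XT.lf (nat_lit 152) (nat_lit 185429174870) (nat_lit 0) (nat_lit 18369893) (nat_lit 76) (nat_lit 18369893) (nat_lit 146) (nat_lit 1) (nat_lit 144) (nat_lit 1) (nat_lit 145) (nat_lit 1) (nat_lit 266) (nat_lit 353) (nat_lit 281)))) (XT.nd (nat_lit 78) (nat_lit 228) (nat_lit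 0) (XT.lf (nat_lit 0) (nat_lit 58862755766) (nat_lit 0) (nat_lit 58908593685) (nat_lit 152) (nat_lit 58862755766) (nat_lit 144) (nat_lit 3) (nat_lit 144) (nat_lit 1) (nat_lit 146) (nat_lit 1) (nat_lit 267) (nat_lit 353) (nat_lit 280)) (XT.nd (nat_lit 78) (nat_lit 152) (nat_lit 0) (XT.lf (nat_lit 76) (nat_lit 56175097456) (nat_lit 0) (nat_lit 56214956515) (nat_lit 76) (nat_lit 56214956515) (nat_lit 144) (nat_lit 3) (nat_lit 143) (nat_lit 1) (nat_lit 144) (nat_lit 1) (nat_lit 268) (nat_lit 353) (nat_lit 279)) (XT.lf (nat_lit 152) (nat_lit 161252988725) (nat_lit 0) (nat_lit 10503046) (nat_lit 76) (nat_lit 10503046) (nat_lit 143) (nat_lit 1) (nat_lit 141) (nat_lit 1) (nat_lit 142) (nat_lit 1) (nat_lit 269) (nat_lit 353) (nat_lit 278))))))) (XT.nd (nat_lit 858) (nat_lit 912) (nat_lit 0) (XT.nd (nat_lit 390) (nat_lit 456) (nat_lit 0) (XT.nd (nat_lit 156) (nat_lit 228) (nat_lit 0) (XT.nd (nat_lit 78)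 (nat_lit 76) (nat_lit 0) (XT.lf (nat_lit 0) (nat_lit 51189338691) (nat_lit 0) (nat_lit 51215546669) (nat_lit 152) (nat_lit 51189338691) (nat_lit 141) (nat_lit 3) (nat_lit 141) (nat_lit 1) (nat_lit 143) (nat_lit 1) (nat_lit 270) (nat_lit 353) (nat_lit 277)) (XT.lf (nat_lit 76) (nat_lit 48855644645) (nat_lit 0) (nat_lit 48878434192) (nat_lit 76) (nat_lit 48878434192) (nat_lit 141) (nat_lit 3) (nat_lit 140) (nat_lit 1) (nat_lit 141) (nat_lit 1) (nat_lit 271) (nat_lit 353) (nat_lit 276))) (XT.nd (nat_lit 78) (nat_lit 76) (nat_lit 0) (XT.lf (nat_lit 152) (nat_lit 140225838070) (nat_lit 0) (nat_lit 6005150) (nat_lit 76) (nat_lit 6005150) (nat_lit 140) (nat_lit 1) (nat_lit 138) (nat_lit 1) (nat_lit 139) (nat_lit 1) (nat_lit 272) (nat_lit 353) (nat_lit 275)) (XT.nd (nat_lit 78) (nat_lit 76) (nat_lit 0) (XT.lf (nat_lit 0) (nat_lit 44514946220) (nat_lit 0) (nat_lit 44529930717) (nat_lit 152) (nat_lit 44514946220)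 (nat_lit 138) (nat_lit 3) (nat_lit 138) (nat_lit 1) (nat_lit 140) (nat_lit 1) (nat_lit 273) (nat_lit 353) (nat_lit 274)) (XT.lf (nat_lit 76) (nat_lit 42487591090) (nat_lit 0) (nat_lit 42500621087) (nat_lit 76) (nat_lit 42500621087) (nat_lit 138) (nat_lit 3) (nat_lit 137) (nat_lit 1) (nat_lit 138) (nat_lit 1) (nat_lit 274) (nat_lit 353) (nat_lit 273))))) (XT.nd (nat_lit 234) (nat_lit 228) (nat_lit 0) (XT.nd (nat_lit 78) (nat_lit 76) (nat_lit 0) (XT.lf (nat_lit 152) (nat_lit 121938854907) (nat_lit 0) (nat_lit 3433464) (nat_lit 76) (nat_lit 3433464) (nat_lit 137) (nat_lit 1) (nat_lit 135) (nat_lit 1) (nat_lit 136) (nat_lit 1) (nat_lit 275) (nat_lit 353) (nat_lit 272)) (XT.nd (nat_lit 78) (nat_lit 76) (nat_lit 0) (XT.lf (nat_lit 0) (nat_lit 38710065573) (nat_lit 0) (nat_lit 38718633008) (nat_lit 152) (nat_lit 38710065573) (nat_lit 135) (nat_lit 3) (nat_lit 135) (nat_lit 1) (nat_lit 137) (nat_lit 1)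 (nat_lit 276) (nat_lit 353) (nat_lit 271)) (XT.lf (nat_lit 76) (nat_lit 36948259580) (nat_lit 0) (nat_lit 36955709523) (nat_lit 76) (nat_lit 36955709523) (nat_lit 135) (nat_lit 3) (nat_lit 134) (nat_lit 1) (nat_lit 135) (nat_lit 1) (nat_lit 277) (nat_lit 353) (nat_lit 270)))) (XT.nd (nat_lit 78) (nat_lit 76) (nat_lit 0) (XT.lf (nat_lit 152) (nat_lit 106035698556) (nat_lit 0) (nat_lit 1963094) (nat_lit 76) (nat_lit 1963094) (nat_lit 134) (nat_lit 1) (nat_lit 132) (nat_lit 1) (nat_lit 133) (nat_lit 1) (nat_lit 278) (nat_lit 353) (nat_lit 269)) (XT.nd (nat_lit 78) (nat_lit 76) (nat_lit 0) (XT.lf (nat_lit 0) (nat_lit 33661736581) (nat_lit 0) (nat_lit 33666635039) (nat_lit 152) (nat_lit 33661736581) (nat_lit 132) (nat_lit 3) (nat_lit 132) (nat_lit 1) (nat_lit 134) (nat_lit 1) (nat_lit 279) (nat_lit 353) (nat_lit 268)) (XT.lf (nat_lit 76) (nat_lit 32130366879) (nat_lit 0) (nat_lit 32134626408) (nat_lit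 76) (nat_lit 32134626408) (nat_lit 132) (nat_lit 3) (nat_lit 131) (nat_lit 1) (nat_lit 132) (nat_lit 1) (nat_lit 280) (nat_lit 353) (nat_lit 267)))))) (XT.nd (nat_lit 468) (nat_lit 456) (nat_lit 0) (XT.nd (nat_lit 234) (nat_lit 228) (nat_lit 0) (XT.nd (nat_lit 78) (nat_lit 76) (nat_lit 0) (XT.lf (nat_lit 152) (nat_lit 92206048275) (nat_lit 0) (nat_lit 1122405) (nat_lit 76) (nat_lit 1122405) (nat_lit 131) (nat_lit 1) (nat_lit 129) (nat_lit 1) (nat_lit 130) (nat_lit 1) (nat_lit 281) (nat_lit 353) (nat_lit 266)) (XT.nd (nat_lit 78) (nat_lit 76) (nat_lit 0) (XT.lf (nat_lit 0) (nat_lit 29271538405) (nat_lit 0) (nat_lit 29274339114) (nat_lit 152) (nat_lit 29271538405) (nat_lit 129) (nat_lit 3) (nat_lit 129) (nat_lit 1) (nat_lit 131) (nat_lit 1) (nat_lit 282) (nat_lit 353) (nat_lit 265)) (XT.lf (nat_lit 76) (nat_lit 27940275932) (nat_lit 0) (nat_lit 27942711332) (nat_lit 76) (nat_lit 27942711332) (nat_lit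 129) (nat_lit 3) (nat_lit 128) (nat_lit 1) (nat_lit 129) (nat_lit 1) (nat_lit 283) (nat_lit 353) (nat_lit 264)))) (XT.nd (nat_lit 78) (nat_lit 76) (nat_lit 0) (XT.lf (nat_lit 152) (nat_lit 80179797345) (nat_lit 0) (nat_lit 641739) (nat_lit 76) (nat_lit 641739) (nat_lit 128) (nat_lit 1) (nat_lit 126) (nat_lit 1) (nat_lit 127) (nat_lit 1) (nat_lit 284) (nat_lit 353) (nat_lit 263)) (XT.nd (nat_lit 78) (nat_lit 76) (nat_lit 0) (XT.lf (nat_lit 0) (nat_lit 25453776445) (nat_lit 0) (nat_lit 25455377760) (nat_lit 152) (nat_lit 25453776445) (nat_lit 126) (nat_lit 3) (nat_lit 126) (nat_lit 1) (nat_lit 128) (nat_lit 1) (nat_lit 285) (nat_lit 353) (nat_lit 262)) (XT.lf (nat_lit 76) (nat_lit 24296364653) (nat_lit 0) (nat_lit 24297757101) (nat_lit 76) (nat_lit 24297757101) (nat_lit 126) (nat_lit 3) (nat_lit 125) (nat_lit 1) (nat_lit 126) (nat_lit 1) (nat_lit 286) (nat_lit 353) (nat_lit 261))))) (XT.nd (nat_lit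 234) (nat_lit 228) (nat_lit 0) (XT.nd (nat_lit 78) (nat_lit 76) (nat_lit 0) (XT.lf (nat_lit 152) (nat_lit 69721920215) (nat_lit 0) (nat_lit 366916) (nat_lit 76) (nat_lit 366916) (nat_lit 125) (nat_lit 1) (nat_lit 123) (nat_lit 1) (nat_lit 124) (nat_lit 1) (nat_lit 287) (nat_lit 353) (nat_lit 260)) (XT.nd (nat_lit 78) (nat_lit 76) (nat_lit 0) (XT.lf (nat_lit 0) (nat_lit 22133870042) (nat_lit 0) (nat_lit 22134785599) (nat_lit 152) (nat_lit 22133870042) (nat_lit 123) (nat_lit 3) (nat_lit 123) (nat_lit 1) (nat_lit 125) (nat_lit 1) (nat_lit 288) (nat_lit 353) (nat_lit 259)) (XT.lf (nat_lit 76) (nat_lit 21127543786) (nat_lit 0) (nat_lit 21128339923) (nat_lit 76) (nat_lit 21128339923) (nat_lit 123) (nat_lit 3) (nat_lit 122) (nat_lit 1) (nat_lit 123) (nat_lit 1) (nat_lit 289) (nat_lit 353) (nat_lit 258)))) (XT.nd (nat_lit 78) (nat_lit 76) (nat_lit 0) (XT.lf (nat_lit 152) (nat_lit 60627961000) (nat_lit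 0) (nat_lit 209785) (nat_lit 76) (nat_lit 209785) (nat_lit 122) (nat_lit 1) (nat_lit 120) (nat_lit 1) (nat_lit 121) (nat_lit 1) (nat_lit 290) (nat_lit 353) (nat_lit 257)) (XT.nd (nat_lit 78) (nat_lit 76) (nat_lit 0) (XT.lf (nat_lit 0) (nat_lit 19246930074) (nat_lit 0) (nat_lit 19247453547) (nat_lit 152) (nat_lit 19246930074) (nat_lit 120) (nat_lit 3) (nat_lit 120) (nat_lit 1) (nat_lit 122) (nat_lit 1) (nat_lit 291) (nat_lit 353) (nat_lit 256)) (XT.lf (nat_lit 76) (nat_lit 18371931679) (nat_lit 0) (nat_lit 18372386873) (nat_lit 76) (nat_lit 18372386873) (nat_lit 120) (nat_lit 3) (nat_lit 119) (nat_lit 1) (nat_lit 120) (nat_lit 1) (nat_lit 292) (nat_lit 353) (nat_lit 255))))))))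
noncomputable def ec172 : XT := (XT.nd (nat_lit 1716) (nat_lit 1596) (nat_lit 0) (XT.nd (nat_lit 858) (nat_lit 912) (nat_lit 0) (XT.nd (nat_lit 390) (nat_lit 456) (nat_lit 0) (XT.nd (nat_lit 156) (nat_lit 228) (nat_lit 0) (XT.nd (nat_lit 78) (nat_lit 0) (nat_lit 0) (XT.lf (nat_lit 152) (nat_lit 52720082891) (nat_lit 0) (nat_lit 119945) (nat_lit 76) (nat_lit 119945) (nat_lit 119) (nat_lit 1) (nat_lit 117) (nat_lit 1) (nat_lit 118) (nat_lit 1) (nat_lit 293) (nat_lit 353) (nat_lit 254)) (XT.lf (nat_lit 0) (nat_lit 16736510425) (nat_lit 0) (nat_lit 16736809722) (nat_lit 152) (nat_lit 16736510425) (nat_lit 117) (nat_lit 3) (nat_lit 117) (nat_lit 1) (nat_lit 119) (nat_lit 1) (nat_lit 294) (nat_lit 353) (nat_lit 253))) (XT.nd (nat_lit 78) (nat_lit 152) (nat_lit 0) (XT.lf (nat_lit 76) (nat_lit 15975681085) (nat_lit 0) (nat_lit 15975941344) (nat_lit 76) (nat_lit 15975941344) (nat_lit 117) (nat_lit 3) (nat_lit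 116) (nat_lit 1) (nat_lit 117) (nat_lit 1) (nat_lit 295) (nat_lit 353) (nat_lit 252)) (XT.nd (nat_lit 78) (nat_lit 0) (nat_lit 0) (XT.lf (nat_lit 152) (nat_lit 45843617123) (nat_lit 0) (nat_lit 68579) (nat_lit 76) (nat_lit 68579) (nat_lit 116) (nat_lit 1) (nat_lit 114) (nat_lit 1) (nat_lit 115) (nat_lit 1) (nat_lit 296) (nat_lit 353) (nat_lit 251)) (XT.lf (nat_lit 0) (nat_lit 14553515623) (nat_lit 0) (nat_lit 14553686747) (nat_lit 152) (nat_lit 14553515623) (nat_lit 114) (nat_lit 3) (nat_lit 114) (nat_lit 1) (nat_lit 116) (nat_lit 1) (nat_lit 297) (nat_lit 353) (nat_lit 250))))) (XT.nd (nat_lit 234) (nat_lit 228) (nat_lit 0) (XT.nd (nat_lit 78) (nat_lit 152) (nat_lit 0) (XT.lf (nat_lit 76) (nat_lit 13891947093) (nat_lit 0) (nat_lit 13892095897) (nat_lit 76) (nat_lit 13892095897) (nat_lit 114) (nat_lit 3) (nat_lit 113) (nat_lit 1) (nat_lit 114) (nat_lit 1) (nat_lit 298) (nat_lit 353) (nat_lit 249))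 (XT.nd (nat_lit 78) (nat_lit 0) (nat_lit 0) (XT.lf (nat_lit 152) (nat_lit 39864053073) (nat_lit 0) (nat_lit 39210) (nat_lit 76) (nat_lit 39210) (nat_lit 113) (nat_lit 1) (nat_lit 111) (nat_lit 1) (nat_lit 112) (nat_lit 1) (nat_lit 299) (nat_lit 353) (nat_lit 248)) (XT.lf (nat_lit 0) (nat_lit 12655247155) (nat_lit 0) (nat_lit 12655344996) (nat_lit 152) (nat_lit 12655247155) (nat_lit 111) (nat_lit 3) (nat_lit 111) (nat_lit 1) (nat_lit 113) (nat_lit 1) (nat_lit 300) (nat_lit 353) (nat_lit 247)))) (XT.nd (nat_lit 78) (nat_lit 152) (nat_lit 0) (XT.lf (nat_lit 76) (nat_lit 12079982866) (nat_lit 0) (nat_lit 12080067945) (nat_lit 76) (nat_lit 12080067945) (nat_lit 111) (nat_lit 3) (nat_lit 110) (nat_lit 1) (nat_lit 111) (nat_lit 1) (nat_lit 301) (nat_lit 353) (nat_lit 246)) (XT.nd (nat_lit 78) (nat_lit 0) (nat_lit 0) (XT.lf (nat_lit 152) (nat_lit 34664415808) (nat_lit 0) (nat_lit 22418) (nat_lit 76) (nat_lit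 22418) (nat_lit 110) (nat_lit 1) (nat_lit 108) (nat_lit 1) (nat_lit 109) (nat_lit 1) (nat_lit 302) (nat_lit 353) (nat_lit 245)) (XT.lf (nat_lit 0) (nat_lit 11004571994) (nat_lit 0) (nat_lit 11004627934) (nat_lit 152) (nat_lit 11004571994) (nat_lit 108) (nat_lit 3) (nat_lit 108) (nat_lit 1) (nat_lit 110) (nat_lit 1) (nat_lit 303) (nat_lit 353) (nat_lit 244)))))) (XT.nd (nat_lit 390) (nat_lit 456) (nat_lit 0) (XT.nd (nat_lit 156) (nat_lit 228) (nat_lit 0) (XT.nd (nat_lit 78) (nat_lit 152) (nat_lit 0) (XT.lf (nat_lit 76) (nat_lit 10504349435) (nat_lit 0) (nat_lit 10504398079) (nat_lit 76) (nat_lit 10504398079) (nat_lit 108) (nat_lit 3) (nat_lit 107) (nat_lit 1) (nat_lit 108) (nat_lit 1) (nat_lit 304) (nat_lit 353) (nat_lit 243)) (XT.lf (nat_lit 152) (nat_lit 30142982750) (nat_lit 0) (nat_lit 12817) (nat_lit 76) (nat_lit 12817) (nat_lit 107) (nat_lit 1) (nat_lit 105) (nat_lit 1) (nat_lit 106) (nat_lit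 1) (nat_lit 305) (nat_lit 353) (nat_lit 242))) (XT.nd (nat_lit 78) (nat_lit 228) (nat_lit 0) (XT.lf (nat_lit 0) (nat_lit 9569198327) (nat_lit 0) (nat_lit 9569230311) (nat_lit 152) (nat_lit 9569198327) (nat_lit 105) (nat_lit 3) (nat_lit 105) (nat_lit 1) (nat_lit 107) (nat_lit 1) (nat_lit 306) (nat_lit 353) (nat_lit 241)) (XT.nd (nat_lit 78) (nat_lit 152) (nat_lit 0) (XT.lf (nat_lit 76) (nat_lit 9134226338) (nat_lit 0) (nat_lit 9134254151) (nat_lit 76) (nat_lit 9134254151) (nat_lit 105) (nat_lit 3) (nat_lit 104) (nat_lit 1) (nat_lit 105) (nat_lit 1) (nat_lit 307) (nat_lit 353) (nat_lit 240)) (XT.lf (nat_lit 152) (nat_lit 26211296485) (nat_lit 0) (nat_lit 7328) (nat_lit 76) (nat_lit 7328) (nat_lit 104) (nat_lit 1) (nat_lit 102) (nat_lit 1) (nat_lit 103) (nat_lit 1) (nat_lit 308) (nat_lit 353) (nat_lit 239))))) (XT.nd (nat_lit 234) (nat_lit 228) (nat_lit 0) (XT.nd (nat_lit 78) (nat_lit 228) (nat_lit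 0) (XT.lf (nat_lit 0) (nat_lit 8321045047) (nat_lit 0) (nat_lit 8321063334) (nat_lit 152) (nat_lit 8321045047) (nat_lit 102) (nat_lit 3) (nat_lit 102) (nat_lit 1) (nat_lit 104) (nat_lit 1) (nat_lit 309) (nat_lit 353) (nat_lit 238)) (XT.nd (nat_lit 78) (nat_lit 152) (nat_lit 0) (XT.lf (nat_lit 76) (nat_lit 7942810908) (nat_lit 0) (nat_lit 7942826810) (nat_lit 76) (nat_lit 7942826810) (nat_lit 102) (nat_lit 3) (nat_lit 101) (nat_lit 1) (nat_lit 102) (nat_lit 1) (nat_lit 310) (nat_lit 353) (nat_lit 237)) (XT.lf (nat_lit 152) (nat_lit 22792435806) (nat_lit 0) (nat_lit 4190) (nat_lit 76) (nat_lit 4190) (nat_lit 101) (nat_lit 1) (nat_lit 99) (nat_lit 1) (nat_lit 100) (nat_lit 1) (nat_lit 311) (nat_lit 353) (nat_lit 236)))) (XT.nd (nat_lit 78) (nat_lit 228) (nat_lit 0) (XT.lf (nat_lit 0) (nat_lit 7235693074) (nat_lit 0) (nat_lit 7235703530) (nat_lit 152) (nat_lit 7235693074) (nat_lit 99) (nat_lit 3) (nat_lit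 99) (nat_lit 1) (nat_lit 101) (nat_lit 1) (nat_lit 312) (nat_lit 353) (nat_lit 235)) (XT.nd (nat_lit 78) (nat_lit 152) (nat_lit 0) (XT.lf (nat_lit 76) (nat_lit 6906795179) (nat_lit 0) (nat_lit 6906804271) (nat_lit 76) (nat_lit 6906804271) (nat_lit 99) (nat_lit 3) (nat_lit 98) (nat_lit 1) (nat_lit 99) (nat_lit 1) (nat_lit 313) (nat_lit 353) (nat_lit 234)) (XT.lf (nat_lit 152) (nat_lit 19819511730) (nat_lit 0) (nat_lit 2395) (nat_lit 76) (nat_lit 2395) (nat_lit 98) (nat_lit 1) (nat_lit 96) (nat_lit 1) (nat_lit 97) (nat_lit 1) (nat_lit 314) (nat_lit 353) (nat_lit 233))))))) (XT.nd (nat_lit 858) (nat_lit 836) (nat_lit 0) (XT.nd (nat_lit 390) (nat_lit 456) (nat_lit 0) (XT.nd (nat_lit 156) (nat_lit 228) (nat_lit 0) (XT.nd (nat_lit 78) (nat_lit 76) (nat_lit 0) (XT.lf (nat_lit 0) (nat_lit 6291908009) (nat_lit 0) (nat_lit 6291913988) (nat_lit 152) (nat_lit 6291908009) (nat_lit 96) (nat_lit 3) (nat_lit 96)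 (nat_lit 1) (nat_lit 98) (nat_lit 1) (nat_lit 315) (nat_lit 353) (nat_lit 232)) (XT.lf (nat_lit 76) (nat_lit 6005910616) (nat_lit 0) (nat_lit 6005915814) (nat_lit 76) (nat_lit 6005915814) (nat_lit 96) (nat_lit 3) (nat_lit 95) (nat_lit 1) (nat_lit 96) (nat_lit 1) (nat_lit 316) (nat_lit 353) (nat_lit 231))) (XT.nd (nat_lit 78) (nat_lit 76) (nat_lit 0) (XT.lf (nat_lit 152) (nat_lit 17234359360) (nat_lit 0) (nat_lit 1369) (nat_lit 76) (nat_lit 1369) (nat_lit 95) (nat_lit 1) (nat_lit 93) (nat_lit 1) (nat_lit 94) (nat_lit 1) (nat_lit 317) (nat_lit 353) (nat_lit 230)) (XT.nd (nat_lit 78) (nat_lit 76) (nat_lit 0) (XT.lf (nat_lit 0) (nat_lit 5471224921) (nat_lit 0) (nat_lit 5471228339) (nat_lit 152) (nat_lit 5471224921) (nat_lit 93) (nat_lit 3) (nat_lit 93) (nat_lit 1) (nat_lit 95) (nat_lit 1) (nat_lit 318) (nat_lit 353) (nat_lit 229)) (XT.lf (nat_lit 76) (nat_lit 5222531979) (nat_lit 0) (nat_lit 5222534951)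 (nat_lit 76) (nat_lit 5222534951) (nat_lit 93) (nat_lit 3) (nat_lit 92) (nat_lit 1) (nat_lit 93) (nat_lit 1) (nat_lit 319) (nat_lit 353) (nat_lit 228))))) (XT.nd (nat_lit 234) (nat_lit 228) (nat_lit 0) (XT.nd (nat_lit 78) (nat_lit 76) (nat_lit 0) (XT.lf (nat_lit 152) (nat_lit 14986400206) (nat_lit 0) (nat_lit 783) (nat_lit 76) (nat_lit 783) (nat_lit 92) (nat_lit 1) (nat_lit 90) (nat_lit 1) (nat_lit 91) (nat_lit 1) (nat_lit 320) (nat_lit 353) (nat_lit 227)) (XT.nd (nat_lit 78) (nat_lit 76) (nat_lit 0) (XT.lf (nat_lit 0) (nat_lit 4757587211) (nat_lit 0) (nat_lit 4757589165) (nat_lit 152) (nat_lit 4757587211) (nat_lit 90) (nat_lit 3) (nat_lit 90) (nat_lit 1) (nat_lit 92) (nat_lit 1) (nat_lit 321) (nat_lit 353) (nat_lit 226)) (XT.lf (nat_lit 76) (nat_lit 4541332732) (nat_lit 0) (nat_lit 4541334431) (nat_lit 76) (nat_lit 4541334431) (nat_lit 90) (nat_lit 3) (nat_lit 89) (nat_lit 1) (nat_lit 90) (nat_lit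 1) (nat_lit 322) (nat_lit 353) (nat_lit 225)))) (XT.nd (nat_lit 78) (nat_lit 76) (nat_lit 0) (XT.lf (nat_lit 152) (nat_lit 13031652789) (nat_lit 0) (nat_lit 447) (nat_lit 76) (nat_lit 447) (nat_lit 89) (nat_lit 1) (nat_lit 87) (nat_lit 1) (nat_lit 88) (nat_lit 1) (nat_lit 323) (nat_lit 353) (nat_lit 224)) (XT.nd (nat_lit 78) (nat_lit 76) (nat_lit 0) (XT.lf (nat_lit 0) (nat_lit 4137032542) (nat_lit 0) (nat_lit 4137033659) (nat_lit 152) (nat_lit 4137032542) (nat_lit 87) (nat_lit 3) (nat_lit 87) (nat_lit 1) (nat_lit 89) (nat_lit 1) (nat_lit 324) (nat_lit 353) (nat_lit 223)) (XT.lf (nat_lit 76) (nat_lit 3948985314) (nat_lit 0) (nat_lit 3948986286) (nat_lit 76) (nat_lit 3948986286) (nat_lit 87) (nat_lit 3) (nat_lit 86) (nat_lit 1) (nat_lit 87) (nat_lit 1) (nat_lit 325) (nat_lit 353) (nat_lit 222)))))) (XT.nd (nat_lit 390) (nat_lit 456) (nat_lit 0) (XT.nd (nat_lit 156) (nat_lit 228) (nat_lit 0) (XT.nd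 (nat_lit 78) (nat_lit 0) (nat_lit 0) (XT.lf (nat_lit 152) (nat_lit 11331872240) (nat_lit 0) (nat_lit 256) (nat_lit 76) (nat_lit 256) (nat_lit 86) (nat_lit 1) (nat_lit 84) (nat_lit 1) (nat_lit 85) (nat_lit 1) (nat_lit 326) (nat_lit 353) (nat_lit 221)) (XT.lf (nat_lit 0) (nat_lit 3597419707) (nat_lit 0) (nat_lit 3597420346) (nat_lit 152) (nat_lit 3597419707) (nat_lit 84) (nat_lit 3) (nat_lit 84) (nat_lit 1) (nat_lit 86) (nat_lit 1) (nat_lit 327) (nat_lit 353) (nat_lit 220))) (XT.nd (nat_lit 78) (nat_lit 152) (nat_lit 0) (XT.lf (nat_lit 76) (nat_lit 3433900461) (nat_lit 0) (nat_lit 3433901017) (nat_lit 76) (nat_lit 3433901017) (nat_lit 84) (nat_lit 3) (nat_lit 83) (nat_lit 1) (nat_lit 84) (nat_lit 1) (nat_lit 328) (nat_lit 353) (nat_lit 219)) (XT.nd (nat_lit 78) (nat_lit 0) (nat_lit 0) (XT.lf (nat_lit 152) (nat_lit 9853802090) (nat_lit 0) (nat_lit 146) (nat_lit 76) (nat_lit 146) (nat_lit 83) (nat_lit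 1) (nat_lit 81) (nat_lit 1) (nat_lit 82) (nat_lit 1) (nat_lit 329) (nat_lit 353) (nat_lit 218)) (XT.lf (nat_lit 0) (nat_lit 3128191110) (nat_lit 0) (nat_lit 3128191476) (nat_lit 152) (nat_lit 3128191110) (nat_lit 81) (nat_lit 3) (nat_lit 81) (nat_lit 1) (nat_lit 83) (nat_lit 1) (nat_lit 330) (nat_lit 353) (nat_lit 217))))) (XT.nd (nat_lit 234) (nat_lit 228) (nat_lit 0) (XT.nd (nat_lit 78) (nat_lit 152) (nat_lit 0) (XT.lf (nat_lit 76) (nat_lit 2986000509) (nat_lit 0) (nat_lit 2986000827) (nat_lit 76) (nat_lit 2986000827) (nat_lit 81) (nat_lit 3) (nat_lit 80) (nat_lit 1) (nat_lit 81) (nat_lit 1) (nat_lit 331) (nat_lit 353) (nat_lit 216)) (XT.nd (nat_lit 78) (nat_lit 0) (nat_lit 0) (XT.lf (nat_lit 152) (nat_lit 8568523638) (nat_lit 0) (nat_lit 83) (nat_lit 76) (nat_lit 83) (nat_lit 80) (nat_lit 1) (nat_lit 78) (nat_lit 1) (nat_lit 79) (nat_lit 1) (nat_lit 332) (nat_lit 353) (nat_lit 215)) (XT.lf (nat_lit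 0) (nat_lit 2720166217) (nat_lit 0) (nat_lit 2720166426) (nat_lit 152) (nat_lit 2720166217) (nat_lit 78) (nat_lit 3) (nat_lit 78) (nat_lit 1) (nat_lit 80) (nat_lit 1) (nat_lit 333) (nat_lit 353) (nat_lit 214)))) (XT.nd (nat_lit 78) (nat_lit 152) (nat_lit 0) (XT.lf (nat_lit 76) (nat_lit 2596522243) (nat_lit 0) (nat_lit 2596522425) (nat_lit 76) (nat_lit 2596522425) (nat_lit 78) (nat_lit 3) (nat_lit 77) (nat_lit 1) (nat_lit 78) (nat_lit 1) (nat_lit 334) (nat_lit 353) (nat_lit 213)) (XT.nd (nat_lit 78) (nat_lit 0) (nat_lit 0) (XT.lf (nat_lit 152) (nat_lit 7450890166) (nat_lit 0) (nat_lit 47) (nat_lit 76) (nat_lit 47) (nat_lit 77) (nat_lit 1) (nat_lit 75) (nat_lit 1) (nat_lit 76) (nat_lit 1) (nat_lit 335) (nat_lit 353) (nat_lit 212)) (XT.lf (nat_lit 0) (nat_lit 2365361948) (nat_lit 0) (nat_lit 2365362067) (nat_lit 152) (nat_lit 2365361948) (nat_lit 75) (nat_lit 3) (nat_lit 75) (nat_lit 1) (nat_lit 77)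 (nat_lit 1) (nat_lit 336) (nat_lit 353) (nat_lit 211))))))))
noncomputable def ec173 : XT := (XT.nd (nat_lit 1716) (nat_lit 912) (nat_lit 0) (XT.nd (nat_lit 858) (nat_lit 760) (nat_lit 0) (XT.nd (nat_lit 390) (nat_lit 456) (nat_lit 0) (XT.nd (nat_lit 156) (nat_lit 228) (nat_lit 0) (XT.nd (nat_lit 78) (nat_lit 152) (nat_lit 0) (XT.lf (nat_lit 76) (nat_lit 2257845464) (nat_lit 0) (nat_lit 2257845568) (nat_lit 76) (nat_lit 2257845568) (nat_lit 75) (nat_lit 3) (nat_lit 74) (nat_lit 1) (nat_lit 75) (nat_lit 1) (nat_lit 337) (nat_lit 353) (nat_lit 210)) (XT.lf (nat_lit 152) (nat_lit 6479034954) (nat_lit 0) (nat_lit 27) (nat_lit 76) (nat_lit 27) (nat_lit 74) (nat_lit 1) (nat_lit 72) (nat_lit 1) (nat_lit 73) (nat_lit 1) (nat_lit 338) (nat_lit 353) (nat_lit 209))) (XT.nd (nat_lit 78) (nat_lit 228) (nat_lit 0) (XT.lf (nat_lit 0) (nat_lit 2056836488) (nat_lit 0) (nat_lit 2056836556) (nat_lit 152) (nat_lit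 2056836488) (nat_lit 72) (nat_lit 3) (nat_lit 72) (nat_lit 1) (nat_lit 74) (nat_lit 1) (nat_lit 339) (nat_lit 353) (nat_lit 208)) (XT.nd (nat_lit 78) (nat_lit 152) (nat_lit 0) (XT.lf (nat_lit 76) (nat_lit 1963343902) (nat_lit 0) (nat_lit 1963343961) (nat_lit 76) (nat_lit 1963343961) (nat_lit 72) (nat_lit 3) (nat_lit 71) (nat_lit 1) (nat_lit 72) (nat_lit 1) (nat_lit 340) (nat_lit 353) (nat_lit 207)) (XT.lf (nat_lit 152) (nat_lit 5633943453) (nat_lit 0) (nat_lit 15) (nat_lit 76) (nat_lit 15) (nat_lit 71) (nat_lit 1) (nat_lit 69) (nat_lit 1) (nat_lit 70) (nat_lit 1) (nat_lit 341) (nat_lit 353) (nat_lit 206))))) (XT.nd (nat_lit 234) (nat_lit 228) (nat_lit 0) (XT.nd (nat_lit 78) (nat_lit 228) (nat_lit 0) (XT.lf (nat_lit 0) (nat_lit 1788553474) (nat_lit 0) (nat_lit 1788553513) (nat_lit 152) (nat_lit 1788553474) (nat_lit 69) (nat_lit 3) (nat_lit 69) (nat_lit 1) (nat_lit 71) (nat_lit 1) (nat_lit 342) (nat_lit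 353) (nat_lit 205)) (XT.nd (nat_lit 78) (nat_lit 152) (nat_lit 0) (XT.lf (nat_lit 76) (nat_lit 1707255578) (nat_lit 0) (nat_lit 1707255612) (nat_lit 76) (nat_lit 1707255612) (nat_lit 69) (nat_lit 3) (nat_lit 68) (nat_lit 1) (nat_lit 69) (nat_lit 1) (nat_lit 343) (nat_lit 353) (nat_lit 204)) (XT.lf (nat_lit 152) (nat_lit 4899081272) (nat_lit 0) (nat_lit 8) (nat_lit 76) (nat_lit 8) (nat_lit 68) (nat_lit 1) (nat_lit 66) (nat_lit 1) (nat_lit 67) (nat_lit 1) (nat_lit 344) (nat_lit 353) (nat_lit 203)))) (XT.nd (nat_lit 78) (nat_lit 228) (nat_lit 0) (XT.lf (nat_lit 0) (nat_lit 1555263894) (nat_lit 0) (nat_lit 1555263916) (nat_lit 152) (nat_lit 1555263894) (nat_lit 66) (nat_lit 3) (nat_lit 66) (nat_lit 1) (nat_lit 68) (nat_lit 1) (nat_lit 345) (nat_lit 353) (nat_lit 202)) (XT.nd (nat_lit 78) (nat_lit 152) (nat_lit 0) (XT.lf (nat_lit 76) (nat_lit 1484570075) (nat_lit 0) (nat_lit 1484570094) (nat_lit 76)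 (nat_lit 1484570094) (nat_lit 66) (nat_lit 3) (nat_lit 65) (nat_lit 1) (nat_lit 66) (nat_lit 1) (nat_lit 346) (nat_lit 353) (nat_lit 201)) (XT.lf (nat_lit 152) (nat_lit 4260070677) (nat_lit 0) (nat_lit 5) (nat_lit 76) (nat_lit 5) (nat_lit 65) (nat_lit 1) (nat_lit 63) (nat_lit 1) (nat_lit 64) (nat_lit 1) (nat_lit 347) (nat_lit 353) (nat_lit 200)))))) (XT.nd (nat_lit 390) (nat_lit 456) (nat_lit 0) (XT.nd (nat_lit 156) (nat_lit 228) (nat_lit 0) (XT.nd (nat_lit 78) (nat_lit 76) (nat_lit 0) (XT.lf (nat_lit 0) (nat_lit 1352403388) (nat_lit 0) (nat_lit 1352403401) (nat_lit 152) (nat_lit 1352403388) (nat_lit 63) (nat_lit 3) (nat_lit 63) (nat_lit 1) (nat_lit 65) (nat_lit 1) (nat_lit 348) (nat_lit 353) (nat_lit 199)) (XT.lf (nat_lit 76) (nat_lit 1290930503) (nat_lit 0) (nat_lit 1290930514) (nat_lit 76) (nat_lit 1290930514) (nat_lit 63) (nat_lit 3) (nat_lit 62) (nat_lit 1) (nat_lit 63) (nat_lit 1) (nat_lit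 349) (nat_lit 353) (nat_lit 198))) (XT.nd (nat_lit 78) (nat_lit 76) (nat_lit 0) (XT.lf (nat_lit 152) (nat_lit 3704409287) (nat_lit 0) (nat_lit 2) (nat_lit 76) (nat_lit 2) (nat_lit 62) (nat_lit 1) (nat_lit 60) (nat_lit 1) (nat_lit 61) (nat_lit 1) (nat_lit 350) (nat_lit 353) (nat_lit 197)) (XT.nd (nat_lit 78) (nat_lit 76) (nat_lit 0) (XT.lf (nat_lit 0) (nat_lit 1176002947) (nat_lit 0) (nat_lit 1176002955) (nat_lit 152) (nat_lit 1176002947) (nat_lit 60) (nat_lit 3) (nat_lit 60) (nat_lit 1) (nat_lit 62) (nat_lit 1) (nat_lit 351) (nat_lit 353) (nat_lit 196)) (XT.lf (nat_lit 76) (nat_lit 1122548266) (nat_lit 0) (nat_lit 1122548272) (nat_lit 76) (nat_lit 1122548272) (nat_lit 60) (nat_lit 3) (nat_lit 59) (nat_lit 1) (nat_lit 60) (nat_lit 1) (nat_lit 352) (nat_lit 353) (nat_lit 195))))) (XT.nd (nat_lit 234) (nat_lit 228) (nat_lit 0) (XT.nd (nat_lit 78) (nat_lit 76) (nat_lit 0) (XT.lf (nat_lit 152) (nat_lit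 3221225468) (nat_lit 0) (nat_lit 1) (nat_lit 76) (nat_lit 1) (nat_lit 59) (nat_lit 1) (nat_lit 57) (nat_lit 1) (nat_lit 58) (nat_lit 1) (nat_lit 353) (nat_lit 353) (nat_lit 194)) (XT.nd (nat_lit 78) (nat_lit 76) (nat_lit 0) (XT.lf (nat_lit 0) (nat_lit 1022611259) (nat_lit 0) (nat_lit 1022611263) (nat_lit 152) (nat_lit 1022611259) (nat_lit 57) (nat_lit 3) (nat_lit 57) (nat_lit 1) (nat_lit 59) (nat_lit 1) (nat_lit 354) (nat_lit 353) (nat_lit 193)) (XT.lf (nat_lit 76) (nat_lit 976128928) (nat_lit 0) (nat_lit 976128932) (nat_lit 76) (nat_lit 976128932) (nat_lit 57) (nat_lit 3) (nat_lit 56) (nat_lit 1) (nat_lit 57) (nat_lit 1) (nat_lit 355) (nat_lit 353) (nat_lit 192)))) (XT.nd (nat_lit 78) (nat_lit 228) (nat_lit 0) (XT.lf (nat_lit 0) (nat_lit 2801065626) (nat_lit 0) (nat_lit 0) (nat_lit 0) (nat_lit 0) (nat_lit 56) (nat_lit 1) (nat_lit 1) (nat_lit 0) (nat_lit 1) (nat_lit 0) (nat_lit 356) (nat_lit 353)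 (nat_lit 191)) (XT.nd (nat_lit 78) (nat_lit 76) (nat_lit 0) (XT.lf (nat_lit 0) (nat_lit 889227182) (nat_lit 0) (nat_lit 889227185) (nat_lit 152) (nat_lit 889227182) (nat_lit 54) (nat_lit 3) (nat_lit 54) (nat_lit 1) (nat_lit 56) (nat_lit 1) (nat_lit 357) (nat_lit 353) (nat_lit 190)) (XT.lf (nat_lit 76) (nat_lit 848807764) (nat_lit 0) (nat_lit 848807766) (nat_lit 76) (nat_lit 848807766) (nat_lit 54) (nat_lit 3) (nat_lit 53) (nat_lit 1) (nat_lit 54) (nat_lit 1) (nat_lit 358) (nat_lit 353) (nat_lit 189))))))) (XT.nd (nat_lit 858) (nat_lit 76) (nat_lit 0) (XT.nd (nat_lit 390) (nat_lit 456) (nat_lit 0) (XT.nd (nat_lit 156) (nat_lit 228) (nat_lit 0) (XT.nd (nat_lit 78) (nat_lit 152) (nat_lit 0) (XT.lf (nat_lit 0) (nat_lit 2435709240) (nat_lit 0) (nat_lit 0) (nat_lit 0) (nat_lit 0) (nat_lit 53) (nat_lit 1) (nat_lit 1) (nat_lit 0) (nat_lit 1) (nat_lit 0) (nat_lit 359) (nat_lit 353) (nat_lit 188)) (XT.lf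 (nat_lit 0) (nat_lit 773241028) (nat_lit 0) (nat_lit 773241029) (nat_lit 152) (nat_lit 773241028) (nat_lit 51) (nat_lit 3) (nat_lit 51) (nat_lit 1) (nat_lit 53) (nat_lit 1) (nat_lit 360) (nat_lit 353) (nat_lit 187))) (XT.nd (nat_lit 78) (nat_lit 152) (nat_lit 0) (XT.lf (nat_lit 76) (nat_lit 738093708) (nat_lit 0) (nat_lit 738093709) (nat_lit 76) (nat_lit 738093709) (nat_lit 51) (nat_lit 3) (nat_lit 50) (nat_lit 1) (nat_lit 51) (nat_lit 1) (nat_lit 361) (nat_lit 353) (nat_lit 186)) (XT.nd (nat_lit 78) (nat_lit 152) (nat_lit 0) (XT.lf (nat_lit 0) (nat_lit 2118008035) (nat_lit 0) (nat_lit 0) (nat_lit 0) (nat_lit 0) (nat_lit 50) (nat_lit 1) (nat_lit 1) (nat_lit 0) (nat_lit 1) (nat_lit 0) (nat_lit 362) (nat_lit 353) (nat_lit 185)) (XT.lf (nat_lit 0) (nat_lit 672383503) (nat_lit 0) (nat_lit 672383504) (nat_lit 152) (nat_lit 672383503) (nat_lit 48) (nat_lit 3) (nat_lit 48) (nat_lit 1) (nat_lit 50) (nat_lit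 1) (nat_lit 363) (nat_lit 353) (nat_lit 184))))) (XT.nd (nat_lit 234) (nat_lit 228) (nat_lit 0) (XT.nd (nat_lit 78) (nat_lit 152) (nat_lit 0) (XT.lf (nat_lit 76) (nat_lit 641820616) (nat_lit 0) (nat_lit 641820617) (nat_lit 76) (nat_lit 641820617) (nat_lit 48) (nat_lit 3) (nat_lit 47) (nat_lit 1) (nat_lit 48) (nat_lit 1) (nat_lit 364) (nat_lit 353) (nat_lit 183)) (XT.nd (nat_lit 78) (nat_lit 152) (nat_lit 0) (XT.lf (nat_lit 0) (nat_lit 1841746118) (nat_lit 0) (nat_lit 0) (nat_lit 0) (nat_lit 0) (nat_lit 47) (nat_lit 1) (nat_lit 1) (nat_lit 0) (nat_lit 1) (nat_lit 0) (nat_lit 365) (nat_lit 353) (nat_lit 182)) (XT.lf (nat_lit 0) (nat_lit 584681307) (nat_lit 0) (nat_lit 584681307) (nat_lit 152) (nat_lit 584681307) (nat_lit 45) (nat_lit 3) (nat_lit 45) (nat_lit 1) (nat_lit 47) (nat_lit 1) (nat_lit 366) (nat_lit 353) (nat_lit 181)))) (XT.nd (nat_lit 78) (nat_lit 152) (nat_lit 0) (XT.lf (nat_lit 76) (nat_lit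 558104884) (nat_lit 0) (nat_lit 558104884) (nat_lit 76) (nat_lit 558104884) (nat_lit 45) (nat_lit 3) (nat_lit 44) (nat_lit 1) (nat_lit 45) (nat_lit 1) (nat_lit 367) (nat_lit 353) (nat_lit 180)) (XT.nd (nat_lit 78) (nat_lit 152) (nat_lit 0) (XT.lf (nat_lit 0) (nat_lit 1601518363) (nat_lit 0) (nat_lit 0) (nat_lit 0) (nat_lit 0) (nat_lit 44) (nat_lit 1) (nat_lit 1) (nat_lit 0) (nat_lit 1) (nat_lit 0) (nat_lit 368) (nat_lit 353) (nat_lit 179)) (XT.lf (nat_lit 0) (nat_lit 508418528) (nat_lit 0) (nat_lit 508418528) (nat_lit 152) (nat_lit 508418528) (nat_lit 42) (nat_lit 3) (nat_lit 42) (nat_lit 1) (nat_lit 44) (nat_lit 1) (nat_lit 369) (nat_lit 353) (nat_lit 178)))))) (XT.nd (nat_lit 33306) (nat_lit 0) (nat_lit 12692) (XT.nd (nat_lit 33072) (nat_lit 0) (nat_lit 13224) (XT.nd (nat_lit 78) (nat_lit 0) (nat_lit 0) (XT.lf (nat_lit 76) (nat_lit 485308594) (nat_lit 0) (nat_lit 485308595) (nat_lit 76) (nat_lit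 485308595) (nat_lit 42) (nat_lit 3) (nat_lit 41) (nat_lit 1) (nat_lit 42) (nat_lit 1) (nat_lit 370) (nat_lit 353) (nat_lit 177)) (XT.nd (nat_lit 32916) (nat_lit 0) (nat_lit 13224) (XT.lf (nat_lit 0) (nat_lit 1392624664) (nat_lit 0) (nat_lit 0) (nat_lit 0) (nat_lit 0) (nat_lit 41) (nat_lit 1) (nat_lit 1) (nat_lit 0) (nat_lit 1) (nat_lit 0) (nat_lit 371) (nat_lit 353) (nat_lit 176)) (XT.lf (nat_lit 380) (nat_lit 1329865799141) (nat_lit 0) (nat_lit 1177894868253) (nat_lit 380) (nat_lit 1329865799141) (nat_lit 220) (nat_lit 1) (nat_lit 215) (nat_lit 0) (nat_lit 220) (nat_lit 0) (nat_lit 192) (nat_lit 354) (nat_lit 354)))) (XT.nd (nat_lit 78) (nat_lit 0) (nat_lit 76) (XT.lf (nat_lit 380) (nat_lit 4919001007918) (nat_lit 76) (nat_lit 1124354192423) (nat_lit 0) (nat_lit 1124354192423) (nat_lit 220) (nat_lit 1) (nat_lit 216) (nat_lit 1) (nat_lit 215) (nat_lit 0) (nat_lit 193) (nat_lit 354) (nat_lit 353))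 (XT.nd (nat_lit 78) (nat_lit 0) (nat_lit 0) (XT.lf (nat_lit 380) (nat_lit 2168267437277) (nat_lit 0) (nat_lit 2359279507956) (nat_lit 304) (nat_lit 2168267437277) (nat_lit 221) (nat_lit 1) (nat_lit 216) (nat_lit 1) (nat_lit 220) (nat_lit 1) (nat_lit 194) (nat_lit 354) (nat_lit 352)) (XT.lf (nat_lit 380) (nat_lit 3722802607038) (nat_lit 76) (nat_lit 1274340232561) (nat_lit 0) (nat_lit 1274340232561) (nat_lit 221) (nat_lit 1) (nat_lit 217) (nat_lit 1) (nat_lit 216) (nat_lit 1) (nat_lit 195) (nat_lit 354) (nat_lit 351))))) (XT.nd (nat_lit 234) (nat_lit 380) (nat_lit 0) (XT.nd (nat_lit 78) (nat_lit 304) (nat_lit 0) (XT.lf (nat_lit 76) (nat_lit 1505923029897) (nat_lit 0) (nat_lit 2867530266679) (nat_lit 304) (nat_lit 1505923029897) (nat_lit 218) (nat_lit 1) (nat_lit 217) (nat_lit 1) (nat_lit 221) (nat_lit 1) (nat_lit 196) (nat_lit 354) (nat_lit 350)) (XT.nd (nat_lit 78) (nat_lit 0) (nat_lit 0) (XT.lf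 (nat_lit 380) (nat_lit 2263280690385) (nat_lit 0) (nat_lit 1629066040471) (nat_lit 304) (nat_lit 1629066040471) (nat_lit 218) (nat_lit 1) (nat_lit 213) (nat_lit 1) (nat_lit 217) (nat_lit 1) (nat_lit 197) (nat_lit 354) (nat_lit 349)) (XT.lf (nat_lit 76) (nat_lit 752289505616) (nat_lit 0) (nat_lit 3691503459409) (nat_lit 380) (nat_lit 752289505616) (nat_lit 214) (nat_lit 1) (nat_lit 213) (nat_lit 1) (nat_lit 218) (nat_lit 1) (nat_lit 198) (nat_lit 354) (nat_lit 348)))) (XT.nd (nat_lit 78) (nat_lit 228) (nat_lit 0) (XT.lf (nat_lit 228) (nat_lit 677042808875) (nat_lit 0) (nat_lit 2107128681990) (nat_lit 152) (nat_lit 2107128681990) (nat_lit 214) (nat_lit 1) (nat_lit 211) (nat_lit 1) (nat_lit 213) (nat_lit 1) (nat_lit 199) (nat_lit 354) (nat_lit 347)) (XT.nd (nat_lit 78) (nat_lit 0) (nat_lit 0) (XT.lf (nat_lit 228) (nat_lit 4549719156634) (nat_lit 0) (nat_lit 35697147142) (nat_lit 152) (nat_lit 35697147142)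 (nat_lit 211) (nat_lit 1) (nat_lit 208) (nat_lit 1) (nat_lit 210) (nat_lit 1) (nat_lit 200) (nat_lit 354) (nat_lit 346)) (XT.lf (nat_lit 76) (nat_lit 1748031180747) (nat_lit 0) (nat_lit 858190262683) (nat_lit 228) (nat_lit 1748031180747) (nat_lit 209) (nat_lit 1) (nat_lit 208) (nat_lit 1) (nat_lit 211) (nat_lit 1) (nat_lit 201) (nat_lit 354) (nat_lit 345))))))))
noncomputable def ec174 : XT := (XT.nd (nat_lit 1716) (nat_lit 1672) (nat_lit 0) (XT.nd (nat_lit 858) (nat_lit 836) (nat_lit 0) (XT.nd (nat_lit 390) (nat_lit 380) (nat_lit 0) (XT.nd (nat_lit 156) (nat_lit 304) (nat_lit 0) (XT.nd (nat_lit 78) (nat_lit 0) (nat_lit 0) (XT.lf (nat_lit 228) (nat_lit 2540830413071) (nat_lit 0) (nat_lit 788140616864) (nat_lit 152) (nat_lit 788140616864) (nat_lit 209) (nat_lit 1) (nat_lit 206) (nat_lit 1) (nat_lit 208) (nat_lit 1) (nat_lit 202) (nat_lit 354) (nat_lit 344)) (XT.lf (nat_lit 76) (nat_lit 794601005874)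 (nat_lit 0) (nat_lit 2305918534144) (nat_lit 228) (nat_lit 794601005874) (nat_lit 207) (nat_lit 1) (nat_lit 206) (nat_lit 1) (nat_lit 209) (nat_lit 1) (nat_lit 203) (nat_lit 354) (nat_lit 343))) (XT.nd (nat_lit 78) (nat_lit 228) (nat_lit 0) (XT.lf (nat_lit 152) (nat_lit 656884575253) (nat_lit 0) (nat_lit 1515764388481) (nat_lit 76) (nat_lit 1515764388481) (nat_lit 207) (nat_lit 1) (nat_lit 205) (nat_lit 1) (nat_lit 206) (nat_lit 1) (nat_lit 204) (nat_lit 354) (nat_lit 342)) (XT.nd (nat_lit 78) (nat_lit 0) (nat_lit 0) (XT.lf (nat_lit 228) (nat_lit 3325535852299) (nat_lit 0) (nat_lit 88346263549) (nat_lit 152) (nat_lit 88346263549) (nat_lit 205) (nat_lit 1) (nat_lit 202) (nat_lit 1) (nat_lit 204) (nat_lit 1) (nat_lit 205) (nat_lit 354) (nat_lit 341)) (XT.lf (nat_lit 76) (nat_lit 1163866024457) (nat_lit 0) (nat_lit 988393001134) (nat_lit 228) (nat_lit 1163866024457) (nat_lit 203) (nat_lit 1) (nat_lit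 202) (nat_lit 1) (nat_lit 205) (nat_lit 1) (nat_lit 206) (nat_lit 354) (nat_lit 340))))) (XT.nd (nat_lit 234) (nat_lit 152) (nat_lit 0) (XT.nd (nat_lit 78) (nat_lit 152) (nat_lit 0) (XT.lf (nat_lit 152) (nat_lit 1415149613113) (nat_lit 0) (nat_lit 866643208668) (nat_lit 76) (nat_lit 866643208668) (nat_lit 203) (nat_lit 1) (nat_lit 201) (nat_lit 1) (nat_lit 202) (nat_lit 1) (nat_lit 207) (nat_lit 354) (nat_lit 339)) (XT.nd (nat_lit 78) (nat_lit 152) (nat_lit 0) (XT.lf (nat_lit 0) (nat_lit 277105796061) (nat_lit 0) (nat_lit 2439618150395) (nat_lit 152) (nat_lit 277105796061) (nat_lit 201) (nat_lit 3) (nat_lit 201) (nat_lit 1) (nat_lit 203) (nat_lit 1) (nat_lit 208) (nat_lit 354) (nat_lit 338)) (XT.lf (nat_lit 76) (nat_lit 1282444455524) (nat_lit 0) (nat_lit 278140032549) (nat_lit 152) (nat_lit 1282444455524) (nat_lit 200) (nat_lit 1) (nat_lit 199) (nat_lit 1) (nat_lit 201) (nat_lit 1) (nat_lit 209)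 (nat_lit 354) (nat_lit 337)))) (XT.nd (nat_lit 78) (nat_lit 76) (nat_lit 0) (XT.lf (nat_lit 152) (nat_lit 1713093536673) (nat_lit 0) (nat_lit 495506067327) (nat_lit 76) (nat_lit 495506067327) (nat_lit 200) (nat_lit 1) (nat_lit 198) (nat_lit 1) (nat_lit 199) (nat_lit 1) (nat_lit 210) (nat_lit 354) (nat_lit 336)) (XT.nd (nat_lit 78) (nat_lit 76) (nat_lit 0) (XT.lf (nat_lit 0) (nat_lit 445413012041) (nat_lit 0) (nat_lit 1681836469266) (nat_lit 152) (nat_lit 445413012041) (nat_lit 198) (nat_lit 3) (nat_lit 198) (nat_lit 1) (nat_lit 200) (nat_lit 1) (nat_lit 211) (nat_lit 354) (nat_lit 335)) (XT.lf (nat_lit 76) (nat_lit 99363683503) (nat_lit 0) (nat_lit 1174514515872) (nat_lit 76) (nat_lit 1174514515872) (nat_lit 198) (nat_lit 3) (nat_lit 197) (nat_lit 1) (nat_lit 198) (nat_lit 1) (nat_lit 212) (nat_lit 354) (nat_lit 334)))))) (XT.nd (nat_lit 390) (nat_lit 456) (nat_lit 0) (XT.nd (nat_lit 156) (nat_lit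 228) (nat_lit 0) (XT.nd (nat_lit 78) (nat_lit 0) (nat_lit 0) (XT.lf (nat_lit 152) (nat_lit 1765533878620) (nat_lit 0) (nat_lit 283307202205) (nat_lit 76) (nat_lit 283307202205) (nat_lit 197) (nat_lit 1) (nat_lit 195) (nat_lit 1) (nat_lit 196) (nat_lit 1) (nat_lit 213) (nat_lit 354) (nat_lit 333)) (XT.lf (nat_lit 0) (nat_lit 504211442890) (nat_lit 0) (nat_lit 1211140567486) (nat_lit 152) (nat_lit 504211442890) (nat_lit 195) (nat_lit 3) (nat_lit 195) (nat_lit 1) (nat_lit 197) (nat_lit 1) (nat_lit 214) (nat_lit 354) (nat_lit 332))) (XT.nd (nat_lit 78) (nat_lit 152) (nat_lit 0) (XT.lf (nat_lit 76) (nat_lit 295013656725) (nat_lit 0) (nat_lit 909734634635) (nat_lit 76) (nat_lit 909734634635) (nat_lit 195) (nat_lit 3) (nat_lit 194) (nat_lit 1) (nat_lit 195) (nat_lit 1) (nat_lit 215) (nat_lit 354) (nat_lit 331)) (XT.nd (nat_lit 78) (nat_lit 0) (nat_lit 0) (XT.lf (nat_lit 152) (nat_lit 1692986324455) (nat_lit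 0) (nat_lit 161981812360) (nat_lit 76) (nat_lit 161981812360) (nat_lit 194) (nat_lit 1) (nat_lit 192) (nat_lit 1) (nat_lit 193) (nat_lit 1) (nat_lit 216) (nat_lit 354) (nat_lit 330)) (XT.lf (nat_lit 0) (nat_lit 505280274699) (nat_lit 0) (nat_lit 909469296091) (nat_lit 152) (nat_lit 505280274699) (nat_lit 192) (nat_lit 3) (nat_lit 192) (nat_lit 1) (nat_lit 194) (nat_lit 1) (nat_lit 217) (nat_lit 354) (nat_lit 329))))) (XT.nd (nat_lit 234) (nat_lit 228) (nat_lit 0) (XT.nd (nat_lit 78) (nat_lit 152) (nat_lit 0) (XT.lf (nat_lit 76) (nat_lit 375807318500) (nat_lit 0) (nat_lit 727276032753) (nat_lit 76) (nat_lit 727276032753) (nat_lit 192) (nat_lit 3) (nat_lit 191) (nat_lit 1) (nat_lit 192) (nat_lit 1) (nat_lit 218) (nat_lit 354) (nat_lit 328)) (XT.nd (nat_lit 78) (nat_lit 0) (nat_lit 0) (XT.lf (nat_lit 152) (nat_lit 1562350077187) (nat_lit 0) (nat_lit 92613626944) (nat_lit 76) (nat_lit 92613626944)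 (nat_lit 191) (nat_lit 1) (nat_lit 189) (nat_lit 1) (nat_lit 190) (nat_lit 1) (nat_lit 219) (nat_lit 354) (nat_lit 327)) (XT.lf (nat_lit 0) (nat_lit 477587589830) (nat_lit 0) (nat_lit 708683974644) (nat_lit 152) (nat_lit 477587589830) (nat_lit 189) (nat_lit 3) (nat_lit 189) (nat_lit 1) (nat_lit 191) (nat_lit 1) (nat_lit 220) (nat_lit 354) (nat_lit 326)))) (XT.nd (nat_lit 78) (nat_lit 152) (nat_lit 0) (XT.lf (nat_lit 76) (nat_lit 394984099959) (nat_lit 0) (nat_lit 595937478058) (nat_lit 76) (nat_lit 595937478058) (nat_lit 189) (nat_lit 3) (nat_lit 188) (nat_lit 1) (nat_lit 189) (nat_lit 1) (nat_lit 221) (nat_lit 354) (nat_lit 325)) (XT.nd (nat_lit 78) (nat_lit 0) (nat_lit 0) (XT.lf (nat_lit 152) (nat_lit 1410130598197) (nat_lit 0) (nat_lit 52952141791) (nat_lit 76) (nat_lit 52952141791) (nat_lit 188) (nat_lit 1) (nat_lit 186) (nat_lit 1) (nat_lit 187) (nat_lit 1) (nat_lit 222) (nat_lit 354) (nat_lit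 324)) (XT.lf (nat_lit 0) (nat_lit 437142213528) (nat_lit 0) (nat_lit 569272321590) (nat_lit 152) (nat_lit 437142213528) (nat_lit 186) (nat_lit 3) (nat_lit 186) (nat_lit 1) (nat_lit 188) (nat_lit 1) (nat_lit 223) (nat_lit 354) (nat_lit 323))))))) (XT.nd (nat_lit 858) (nat_lit 760) (nat_lit 0) (XT.nd (nat_lit 390) (nat_lit 456) (nat_lit 0) (XT.nd (nat_lit 156) (nat_lit 228) (nat_lit 0) (XT.nd (nat_lit 78) (nat_lit 152) (nat_lit 0) (XT.lf (nat_lit 76) (nat_lit 382455220143) (nat_lit 0) (nat_lit 497350966284) (nat_lit 76) (nat_lit 497350966284) (nat_lit 186) (nat_lit 3) (nat_lit 185) (nat_lit 1) (nat_lit 186) (nat_lit 1) (nat_lit 224) (nat_lit 354) (nat_lit 322)) (XT.lf (nat_lit 152) (nat_lit 1255683155632) (nat_lit 0) (nat_lit 30275558930) (nat_lit 76) (nat_lit 30275558930) (nat_lit 185) (nat_lit 1) (nat_lit 183) (nat_lit 1) (nat_lit 184) (nat_lit 1) (nat_lit 225) (nat_lit 354) (nat_lit 321))) (XT.nd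 (nat_lit 78) (nat_lit 228) (nat_lit 0) (XT.lf (nat_lit 0) (nat_lit 392615704577) (nat_lit 0) (nat_lit 468161522703) (nat_lit 152) (nat_lit 392615704577) (nat_lit 183) (nat_lit 3) (nat_lit 183) (nat_lit 1) (nat_lit 185) (nat_lit 1) (nat_lit 226) (nat_lit 354) (nat_lit 320)) (XT.nd (nat_lit 78) (nat_lit 152) (nat_lit 0) (XT.lf (nat_lit 76) (nat_lit 354862864745) (nat_lit 0) (nat_lit 420554880506) (nat_lit 76) (nat_lit 420554880506) (nat_lit 183) (nat_lit 3) (nat_lit 182) (nat_lit 1) (nat_lit 183) (nat_lit 1) (nat_lit 227) (nat_lit 354) (nat_lit 319)) (XT.lf (nat_lit 152) (nat_lit 1108755188714) (nat_lit 0) (nat_lit 17310149080) (nat_lit 76) (nat_lit 17310149080) (nat_lit 182) (nat_lit 1) (nat_lit 180) (nat_lit 1) (nat_lit 181) (nat_lit 1) (nat_lit 228) (nat_lit 354) (nat_lit 318))))) (XT.nd (nat_lit 234) (nat_lit 228) (nat_lit 0) (XT.nd (nat_lit 78) (nat_lit 228) (nat_lit 0) (XT.lf (nat_lit 0) (nat_lit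 348547325282) (nat_lit 0) (nat_lit 391740891986) (nat_lit 152) (nat_lit 348547325282) (nat_lit 180) (nat_lit 3) (nat_lit 180) (nat_lit 1) (nat_lit 182) (nat_lit 1) (nat_lit 229) (nat_lit 354) (nat_lit 317)) (XT.nd (nat_lit 78) (nat_lit 152) (nat_lit 0) (XT.lf (nat_lit 76) (nat_lit 321322561036) (nat_lit 0) (nat_lit 358882184256) (nat_lit 76) (nat_lit 358882184256) (nat_lit 180) (nat_lit 3) (nat_lit 179) (nat_lit 1) (nat_lit 180) (nat_lit 1) (nat_lit 230) (nat_lit 354) (nat_lit 316)) (XT.lf (nat_lit 152) (nat_lit 973772872538) (nat_lit 0) (nat_lit 9897133918) (nat_lit 76) (nat_lit 9897133918) (nat_lit 179) (nat_lit 1) (nat_lit 177) (nat_lit 1) (nat_lit 178) (nat_lit 1) (nat_lit 231) (nat_lit 354) (nat_lit 315)))) (XT.nd (nat_lit 78) (nat_lit 228) (nat_lit 0) (XT.lf (nat_lit 0) (nat_lit 307168300924) (nat_lit 0) (nat_lit 331864362876) (nat_lit 152) (nat_lit 307168300924) (nat_lit 177) (nat_lit 3)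 (nat_lit 177) (nat_lit 1) (nat_lit 179) (nat_lit 1) (nat_lit 232) (nat_lit 354) (nat_lit 314)) (XT.nd (nat_lit 78) (nat_lit 152) (nat_lit 0) (XT.lf (nat_lit 76) (nat_lit 286698579222) (nat_lit 0) (nat_lit 308173415701) (nat_lit 76) (nat_lit 308173415701) (nat_lit 177) (nat_lit 3) (nat_lit 176) (nat_lit 1) (nat_lit 177) (nat_lit 1) (nat_lit 233) (nat_lit 354) (nat_lit 313)) (XT.lf (nat_lit 152) (nat_lit 852269534972) (nat_lit 0) (nat_lit 5658718439) (nat_lit 76) (nat_lit 5658718439) (nat_lit 176) (nat_lit 1) (nat_lit 174) (nat_lit 1) (nat_lit 175) (nat_lit 1) (nat_lit 234) (nat_lit 354) (nat_lit 312)))))) (XT.nd (nat_lit 390) (nat_lit 456) (nat_lit 0) (XT.nd (nat_lit 156) (nat_lit 228) (nat_lit 0) (XT.nd (nat_lit 78) (nat_lit 76) (nat_lit 0) (XT.lf (nat_lit 0) (nat_lit 269437722085) (nat_lit 0) (nat_lit 283557775659) (nat_lit 152) (nat_lit 269437722085) (nat_lit 174) (nat_lit 3) (nat_lit 174) (nat_lit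 1) (nat_lit 176) (nat_lit 1) (nat_lit 235) (nat_lit 354) (nat_lit 311)) (XT.lf (nat_lit 76) (nat_lit 253469853670) (nat_lit 0) (nat_lit 265748161126) (nat_lit 76) (nat_lit 265748161126) (nat_lit 174) (nat_lit 3) (nat_lit 173) (nat_lit 1) (nat_lit 174) (nat_lit 1) (nat_lit 236) (nat_lit 354) (nat_lit 310))) (XT.nd (nat_lit 78) (nat_lit 76) (nat_lit 0) (XT.lf (nat_lit 152) (nat_lit 744254598504) (nat_lit 0) (nat_lit 3235390633) (nat_lit 76) (nat_lit 3235390633) (nat_lit 173) (nat_lit 1) (nat_lit 171) (nat_lit 1) (nat_lit 172) (nat_lit 1) (nat_lit 237) (nat_lit 354) (nat_lit 309)) (XT.nd (nat_lit 78) (nat_lit 76) (nat_lit 0) (XT.lf (nat_lit 0) (nat_lit 235628630425) (nat_lit 0) (nat_lit 243701816884) (nat_lit 152) (nat_lit 235628630425) (nat_lit 171) (nat_lit 3) (nat_lit 171) (nat_lit 1) (nat_lit 173) (nat_lit 1) (nat_lit 238) (nat_lit 354) (nat_lit 308)) (XT.lf (nat_lit 76) (nat_lit 222790916272)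 (nat_lit 0) (nat_lit 229811078411) (nat_lit 76) (nat_lit 229811078411) (nat_lit 171) (nat_lit 3) (nat_lit 170) (nat_lit 1) (nat_lit 171) (nat_lit 1) (nat_lit 239) (nat_lit 354) (nat_lit 307))))) (XT.nd (nat_lit 234) (nat_lit 228) (nat_lit 0) (XT.nd (nat_lit 78) (nat_lit 76) (nat_lit 0) (XT.lf (nat_lit 152) (nat_lit 648979308993) (nat_lit 0) (nat_lit 1849845095) (nat_lit 76) (nat_lit 1849845095) (nat_lit 170) (nat_lit 1) (nat_lit 168) (nat_lit 1) (nat_lit 169) (nat_lit 1) (nat_lit 240) (nat_lit 354) (nat_lit 306)) (XT.nd (nat_lit 78) (nat_lit 76) (nat_lit 0) (XT.lf (nat_lit 0) (nat_lit 205657728406) (nat_lit 0) (nat_lit 210273598967) (nat_lit 152) (nat_lit 205657728406) (nat_lit 168) (nat_lit 3) (nat_lit 168) (nat_lit 1) (nat_lit 170) (nat_lit 1) (nat_lit 241) (nat_lit 354) (nat_lit 305)) (XT.lf (nat_lit 76) (nat_lit 195093346664) (nat_lit 0) (nat_lit 199107147152) (nat_lit 76) (nat_lit 199107147152)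 (nat_lit 168) (nat_lit 3) (nat_lit 167) (nat_lit 1) (nat_lit 168) (nat_lit 1) (nat_lit 242) (nat_lit 354) (nat_lit 304)))) (XT.nd (nat_lit 78) (nat_lit 76) (nat_lit 0) (XT.lf (nat_lit 152) (nat_lit 565359788631) (nat_lit 0) (nat_lit 1057654937) (nat_lit 76) (nat_lit 1057654937) (nat_lit 167) (nat_lit 1) (nat_lit 165) (nat_lit 1) (nat_lit 166) (nat_lit 1) (nat_lit 243) (nat_lit 354) (nat_lit 303)) (XT.nd (nat_lit 78) (nat_lit 76) (nat_lit 0) (XT.lf (nat_lit 0) (nat_lit 179269207790) (nat_lit 0) (nat_lit 181908346764) (nat_lit 152) (nat_lit 179269207790) (nat_lit 165) (nat_lit 3) (nat_lit 165) (nat_lit 1) (nat_lit 167) (nat_lit 1) (nat_lit 244) (nat_lit 354) (nat_lit 302)) (XT.lf (nat_lit 76) (nat_lit 170425182146) (nat_lit 0) (nat_lit 172720085602) (nat_lit 76) (nat_lit 172720085602) (nat_lit 165) (nat_lit 3) (nat_lit 164) (nat_lit 1) (nat_lit 165) (nat_lit 1) (nat_lit 245) (nat_lit 354) (nat_lit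 301))))))))
noncomputable def ec175 : XT := (XT.nd (nat_lit 1716) (nat_lit 1672) (nat_lit 0) (XT.nd (nat_lit 858) (nat_lit 912) (nat_lit 0) (XT.nd (nat_lit 390) (nat_lit 456) (nat_lit 0) (XT.nd (nat_lit 156) (nat_lit 228) (nat_lit 0) (XT.nd (nat_lit 78) (nat_lit 0) (nat_lit 0) (XT.lf (nat_lit 152) (nat_lit 492206087462) (nat_lit 0) (nat_lit 604717643) (nat_lit 76) (nat_lit 604717643) (nat_lit 164) (nat_lit 1) (nat_lit 162) (nat_lit 1) (nat_lit 163) (nat_lit 1) (nat_lit 246) (nat_lit 354) (nat_lit 300)) (XT.lf (nat_lit 0) (nat_lit 156135781035) (nat_lit 0) (nat_lit 157644717309) (nat_lit 152) (nat_lit 156135781035) (nat_lit 162) (nat_lit 3) (nat_lit 162) (nat_lit 1) (nat_lit 164) (nat_lit 1) (nat_lit 247) (nat_lit 354) (nat_lit 299))) (XT.nd (nat_lit 78) (nat_lit 152) (nat_lit 0) (XT.lf (nat_lit 76) (nat_lit 148641088412) (nat_lit 0) (nat_lit 149953206911) (nat_lit 76) (nat_lit 149953206911) (nat_lit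 162) (nat_lit 3) (nat_lit 161) (nat_lit 1) (nat_lit 162) (nat_lit 1) (nat_lit 248) (nat_lit 354) (nat_lit 298)) (XT.nd (nat_lit 78) (nat_lit 0) (nat_lit 0) (XT.lf (nat_lit 152) (nat_lit 428341987472) (nat_lit 0) (nat_lit 345749275) (nat_lit 76) (nat_lit 345749275) (nat_lit 161) (nat_lit 1) (nat_lit 159) (nat_lit 1) (nat_lit 160) (nat_lit 1) (nat_lit 249) (nat_lit 354) (nat_lit 297)) (XT.lf (nat_lit 0) (nat_lit 135912904469) (nat_lit 0) (nat_lit 136775643681) (nat_lit 152) (nat_lit 135912904469) (nat_lit 159) (nat_lit 3) (nat_lit 159) (nat_lit 1) (nat_lit 161) (nat_lit 1) (nat_lit 250) (nat_lit 354) (nat_lit 296))))) (XT.nd (nat_lit 234) (nat_lit 228) (nat_lit 0) (XT.nd (nat_lit 78) (nat_lit 152) (nat_lit 0) (XT.lf (nat_lit 76) (nat_lit 129507709414) (nat_lit 0) (nat_lit 130257917425) (nat_lit 76) (nat_lit 130257917425) (nat_lit 159) (nat_lit 3) (nat_lit 158) (nat_lit 1) (nat_lit 159) (nat_lit 1)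 (nat_lit 251) (nat_lit 354) (nat_lit 295)) (XT.nd (nat_lit 78) (nat_lit 0) (nat_lit 0) (XT.lf (nat_lit 152) (nat_lit 372663799356) (nat_lit 0) (nat_lit 197683270) (nat_lit 76) (nat_lit 197683270) (nat_lit 158) (nat_lit 1) (nat_lit 156) (nat_lit 1) (nat_lit 157) (nat_lit 1) (nat_lit 252) (nat_lit 354) (nat_lit 294)) (XT.lf (nat_lit 0) (nat_lit 118266700691) (nat_lit 0) (nat_lit 118759974635) (nat_lit 152) (nat_lit 118266700691) (nat_lit 156) (nat_lit 3) (nat_lit 156) (nat_lit 1) (nat_lit 158) (nat_lit 1) (nat_lit 253) (nat_lit 354) (nat_lit 293)))) (XT.nd (nat_lit 78) (nat_lit 152) (nat_lit 0) (XT.lf (nat_lit 76) (nat_lit 112760961610) (nat_lit 0) (nat_lit 113189895474) (nat_lit 76) (nat_lit 113189895474) (nat_lit 156) (nat_lit 3) (nat_lit 155) (nat_lit 1) (nat_lit 156) (nat_lit 1) (nat_lit 254) (nat_lit 354) (nat_lit 292)) (XT.nd (nat_lit 78) (nat_lit 0) (nat_lit 0) (XT.lf (nat_lit 152) (nat_lit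 324165543575) (nat_lit 0) (nat_lit 113026051) (nat_lit 76) (nat_lit 113026051) (nat_lit 155) (nat_lit 1) (nat_lit 153) (nat_lit 1) (nat_lit 154) (nat_lit 1) (nat_lit 255) (nat_lit 354) (nat_lit 291)) (XT.lf (nat_lit 0) (nat_lit 102887245133) (nat_lit 0) (nat_lit 103169276112) (nat_lit 152) (nat_lit 102887245133) (nat_lit 153) (nat_lit 3) (nat_lit 153) (nat_lit 1) (nat_lit 155) (nat_lit 1) (nat_lit 256) (nat_lit 354) (nat_lit 290)))))) (XT.nd (nat_lit 390) (nat_lit 456) (nat_lit 0) (XT.nd (nat_lit 156) (nat_lit 228) (nat_lit 0) (XT.nd (nat_lit 78) (nat_lit 152) (nat_lit 0) (XT.lf (nat_lit 76) (nat_lit 98136235709) (nat_lit 0) (nat_lit 98381480039) (nat_lit 76) (nat_lit 98381480039) (nat_lit 153) (nat_lit 3) (nat_lit 152) (nat_lit 1) (nat_lit 153) (nat_lit 1) (nat_lit 257) (nat_lit 354) (nat_lit 289)) (XT.lf (nat_lit 152) (nat_lit 281946011891) (nat_lit 0) (nat_lit 64623011) (nat_lit 76) (nat_lit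 64623011) (nat_lit 152) (nat_lit 1) (nat_lit 150) (nat_lit 1) (nat_lit 151) (nat_lit 1) (nat_lit 258) (nat_lit 354) (nat_lit 288))) (XT.nd (nat_lit 78) (nat_lit 228) (nat_lit 0) (XT.lf (nat_lit 0) (nat_lit 89493833872) (nat_lit 0) (nat_lit 89655086000) (nat_lit 152) (nat_lit 89493833872) (nat_lit 150) (nat_lit 3) (nat_lit 150) (nat_lit 1) (nat_lit 152) (nat_lit 1) (nat_lit 259) (nat_lit 354) (nat_lit 287)) (XT.nd (nat_lit 78) (nat_lit 152) (nat_lit 0) (XT.lf (nat_lit 76) (nat_lit 85383441653) (nat_lit 0) (nat_lit 85523660895) (nat_lit 76) (nat_lit 85523660895) (nat_lit 150) (nat_lit 3) (nat_lit 149) (nat_lit 1) (nat_lit 150) (nat_lit 1) (nat_lit 260) (nat_lit 354) (nat_lit 286)) (XT.lf (nat_lit 152) (nat_lit 245206425852) (nat_lit 0) (nat_lit 36948416) (nat_lit 76) (nat_lit 36948416) (nat_lit 149) (nat_lit 1) (nat_lit 147) (nat_lit 1) (nat_lit 148) (nat_lit 1) (nat_lit 261) (nat_lit 354) (nat_lit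 285))))) (XT.nd (nat_lit 234) (nat_lit 228) (nat_lit 0) (XT.nd (nat_lit 78) (nat_lit 228) (nat_lit 0) (XT.lf (nat_lit 0) (nat_lit 77835970444) (nat_lit 0) (nat_lit 77928166871) (nat_lit 152) (nat_lit 77835970444) (nat_lit 147) (nat_lit 3) (nat_lit 147) (nat_lit 1) (nat_lit 149) (nat_lit 1) (nat_lit 262) (nat_lit 354) (nat_lit 284)) (XT.nd (nat_lit 78) (nat_lit 152) (nat_lit 0) (XT.lf (nat_lit 76) (nat_lit 74273677604) (nat_lit 0) (nat_lit 74353848410) (nat_lit 76) (nat_lit 74353848410) (nat_lit 147) (nat_lit 3) (nat_lit 146) (nat_lit 1) (nat_lit 147) (nat_lit 1) (nat_lit 263) (nat_lit 354) (nat_lit 283)) (XT.lf (nat_lit 152) (nat_lit 213243551100) (nat_lit 0) (nat_lit 21125377) (nat_lit 76) (nat_lit 21125377) (nat_lit 146) (nat_lit 1) (nat_lit 144) (nat_lit 1) (nat_lit 145) (nat_lit 1) (nat_lit 264) (nat_lit 354) (nat_lit 282)))) (XT.nd (nat_lit 78) (nat_lit 228) (nat_lit 0) (XT.lf (nat_lit 0)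 (nat_lit 67692169131) (nat_lit 0) (nat_lit 67744882738) (nat_lit 152) (nat_lit 67692169131) (nat_lit 144) (nat_lit 3) (nat_lit 144) (nat_lit 1) (nat_lit 146) (nat_lit 1) (nat_lit 265) (nat_lit 354) (nat_lit 281)) (XT.nd (nat_lit 78) (nat_lit 152) (nat_lit 0) (XT.lf (nat_lit 76) (nat_lit 64601362074) (nat_lit 0) (nat_lit 64647199993) (nat_lit 76) (nat_lit 64647199993) (nat_lit 144) (nat_lit 3) (nat_lit 143) (nat_lit 1) (nat_lit 144) (nat_lit 1) (nat_lit 266) (nat_lit 354) (nat_lit 280)) (XT.lf (nat_lit 152) (nat_lit 185440937034) (nat_lit 0) (nat_lit 12078502) (nat_lit 76) (nat_lit 12078502) (nat_lit 143) (nat_lit 1) (nat_lit 141) (nat_lit 1) (nat_lit 142) (nat_lit 1) (nat_lit 267) (nat_lit 354) (nat_lit 279))))))) (XT.nd (nat_lit 858) (nat_lit 912) (nat_lit 0) (XT.nd (nat_lit 390) (nat_lit 456) (nat_lit 0) (XT.nd (nat_lit 156) (nat_lit 228) (nat_lit 0) (XT.nd (nat_lit 78) (nat_lit 76) (nat_lit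 0) (XT.lf (nat_lit 0) (nat_lit 58867739494) (nat_lit 0) (nat_lit 58897878670) (nat_lit 152) (nat_lit 58867739494) (nat_lit 141) (nat_lit 3) (nat_lit 141) (nat_lit 1) (nat_lit 143) (nat_lit 1) (nat_lit 268) (nat_lit 354) (nat_lit 278)) (XT.lf (nat_lit 76) (nat_lit 56183991342) (nat_lit 0) (nat_lit 56210199321) (nat_lit 76) (nat_lit 56210199321) (nat_lit 141) (nat_lit 3) (nat_lit 140) (nat_lit 1) (nat_lit 141) (nat_lit 1) (nat_lit 269) (nat_lit 354) (nat_lit 277))) (XT.nd (nat_lit 78) (nat_lit 76) (nat_lit 0) (XT.lf (nat_lit 152) (nat_lit 161259713781) (nat_lit 0) (nat_lit 6905923) (nat_lit 76) (nat_lit 6905923) (nat_lit 140) (nat_lit 1) (nat_lit 138) (nat_lit 1) (nat_lit 139) (nat_lit 1) (nat_lit 270) (nat_lit 354) (nat_lit 276)) (XT.nd (nat_lit 78) (nat_lit 76) (nat_lit 0) (XT.lf (nat_lit 0) (nat_lit 51192188153) (nat_lit 0) (nat_lit 51209420325) (nat_lit 152) (nat_lit 51192188153) (nat_lit 138)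 (nat_lit 3) (nat_lit 138) (nat_lit 1) (nat_lit 140) (nat_lit 1) (nat_lit 271) (nat_lit 354) (nat_lit 275)) (XT.lf (nat_lit 76) (nat_lit 48860729753) (nat_lit 0) (nat_lit 48875714250) (nat_lit 76) (nat_lit 48875714250) (nat_lit 138) (nat_lit 3) (nat_lit 137) (nat_lit 1) (nat_lit 138) (nat_lit 1) (nat_lit 272) (nat_lit 354) (nat_lit 274))))) (XT.nd (nat_lit 234) (nat_lit 228) (nat_lit 0) (XT.nd (nat_lit 78) (nat_lit 76) (nat_lit 0) (XT.lf (nat_lit 152) (nat_lit 140229683143) (nat_lit 0) (nat_lit 3948484) (nat_lit 76) (nat_lit 3948484) (nat_lit 137) (nat_lit 1) (nat_lit 135) (nat_lit 1) (nat_lit 136) (nat_lit 1) (nat_lit 273) (nat_lit 354) (nat_lit 273)) (XT.nd (nat_lit 78) (nat_lit 76) (nat_lit 0) (XT.lf (nat_lit 0) (nat_lit 44516575410) (nat_lit 0) (nat_lit 44526427960) (nat_lit 152) (nat_lit 44516575410) (nat_lit 135) (nat_lit 3) (nat_lit 135) (nat_lit 1) (nat_lit 137) (nat_lit 1) (nat_lit 274)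 (nat_lit 354) (nat_lit 272)) (XT.lf (nat_lit 76) (nat_lit 42490498517) (nat_lit 0) (nat_lit 42499065952) (nat_lit 76) (nat_lit 42499065952) (nat_lit 135) (nat_lit 3) (nat_lit 134) (nat_lit 1) (nat_lit 135) (nat_lit 1) (nat_lit 275) (nat_lit 354) (nat_lit 271)))) (XT.nd (nat_lit 78) (nat_lit 76) (nat_lit 0) (XT.lf (nat_lit 152) (nat_lit 121941053339) (nat_lit 0) (nat_lit 2257558) (nat_lit 76) (nat_lit 2257558) (nat_lit 134) (nat_lit 1) (nat_lit 132) (nat_lit 1) (nat_lit 133) (nat_lit 1) (nat_lit 276) (nat_lit 354) (nat_lit 270)) (XT.nd (nat_lit 78) (nat_lit 76) (nat_lit 0) (XT.lf (nat_lit 0) (nat_lit 38710997068) (nat_lit 0) (nat_lit 38716630295) (nat_lit 152) (nat_lit 38710997068) (nat_lit 132) (nat_lit 3) (nat_lit 132) (nat_lit 1) (nat_lit 134) (nat_lit 1) (nat_lit 277) (nat_lit 354) (nat_lit 269)) (XT.lf (nat_lit 76) (nat_lit 36949921911) (nat_lit 0) (nat_lit 36954820369) (nat_lit 76) (nat_lit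 36954820369) (nat_lit 132) (nat_lit 3) (nat_lit 131) (nat_lit 1) (nat_lit 132) (nat_lit 1) (nat_lit 278) (nat_lit 354) (nat_lit 268)))))) (XT.nd (nat_lit 468) (nat_lit 456) (nat_lit 0) (XT.nd (nat_lit 234) (nat_lit 228) (nat_lit 0) (XT.nd (nat_lit 78) (nat_lit 76) (nat_lit 0) (XT.lf (nat_lit 152) (nat_lit 106036955517) (nat_lit 0) (nat_lit 1290766) (nat_lit 76) (nat_lit 1290766) (nat_lit 131) (nat_lit 1) (nat_lit 129) (nat_lit 1) (nat_lit 130) (nat_lit 1) (nat_lit 279) (nat_lit 354) (nat_lit 267)) (XT.nd (nat_lit 78) (nat_lit 76) (nat_lit 0) (XT.lf (nat_lit 0) (nat_lit 33662269166) (nat_lit 0) (nat_lit 33665489982) (nat_lit 152) (nat_lit 33662269166) (nat_lit 129) (nat_lit 3) (nat_lit 129) (nat_lit 1) (nat_lit 131) (nat_lit 1) (nat_lit 280) (nat_lit 354) (nat_lit 266)) (XT.lf (nat_lit 76) (nat_lit 32131317322) (nat_lit 0) (nat_lit 32134118031) (nat_lit 76) (nat_lit 32134118031) (nat_lit 129) (nat_lit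 3) (nat_lit 128) (nat_lit 1) (nat_lit 129) (nat_lit 1) (nat_lit 281) (nat_lit 354) (nat_lit 265)))) (XT.nd (nat_lit 78) (nat_lit 76) (nat_lit 0) (XT.lf (nat_lit 152) (nat_lit 92206766947) (nat_lit 0) (nat_lit 737999) (nat_lit 76) (nat_lit 737999) (nat_lit 128) (nat_lit 1) (nat_lit 126) (nat_lit 1) (nat_lit 127) (nat_lit 1) (nat_lit 282) (nat_lit 354) (nat_lit 264)) (XT.nd (nat_lit 78) (nat_lit 76) (nat_lit 0) (XT.lf (nat_lit 0) (nat_lit 29271842912) (nat_lit 0) (nat_lit 29273684424) (nat_lit 152) (nat_lit 29271842912) (nat_lit 126) (nat_lit 3) (nat_lit 126) (nat_lit 1) (nat_lit 128) (nat_lit 1) (nat_lit 283) (nat_lit 354) (nat_lit 263)) (XT.lf (nat_lit 76) (nat_lit 27940819351) (nat_lit 0) (nat_lit 27942420666) (nat_lit 76) (nat_lit 27942420666) (nat_lit 126) (nat_lit 3) (nat_lit 125) (nat_lit 1) (nat_lit 126) (nat_lit 1) (nat_lit 284) (nat_lit 354) (nat_lit 262))))) (XT.nd (nat_lit 234) (nat_lit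 228) (nat_lit 0) (XT.nd (nat_lit 78) (nat_lit 76) (nat_lit 0) (XT.lf (nat_lit 152) (nat_lit 80180208248) (nat_lit 0) (nat_lit 421953) (nat_lit 76) (nat_lit 421953) (nat_lit 125) (nat_lit 1) (nat_lit 123) (nat_lit 1) (nat_lit 124) (nat_lit 1) (nat_lit 285) (nat_lit 354) (nat_lit 261)) (XT.nd (nat_lit 78) (nat_lit 76) (nat_lit 0) (XT.lf (nat_lit 0) (nat_lit 25453950548) (nat_lit 0) (nat_lit 25455003439) (nat_lit 152) (nat_lit 25453950548) (nat_lit 123) (nat_lit 3) (nat_lit 123) (nat_lit 1) (nat_lit 125) (nat_lit 1) (nat_lit 286) (nat_lit 354) (nat_lit 260)) (XT.lf (nat_lit 76) (nat_lit 24296675354) (nat_lit 0) (nat_lit 24297590911) (nat_lit 76) (nat_lit 24297590911) (nat_lit 123) (nat_lit 3) (nat_lit 122) (nat_lit 1) (nat_lit 123) (nat_lit 1) (nat_lit 287) (nat_lit 354) (nat_lit 259)))) (XT.nd (nat_lit 78) (nat_lit 76) (nat_lit 0) (XT.lf (nat_lit 152) (nat_lit 69722155150) (nat_lit 0) (nat_lit 241253)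 (nat_lit 76) (nat_lit 241253) (nat_lit 122) (nat_lit 1) (nat_lit 120) (nat_lit 1) (nat_lit 121) (nat_lit 1) (nat_lit 288) (nat_lit 354) (nat_lit 258)) (XT.nd (nat_lit 78) (nat_lit 76) (nat_lit 0) (XT.lf (nat_lit 0) (nat_lit 22133969586) (nat_lit 0) (nat_lit 22134571579) (nat_lit 152) (nat_lit 22133969586) (nat_lit 120) (nat_lit 3) (nat_lit 120) (nat_lit 1) (nat_lit 122) (nat_lit 1) (nat_lit 289) (nat_lit 354) (nat_lit 257)) (XT.lf (nat_lit 76) (nat_lit 21127721431) (nat_lit 0) (nat_lit 21128244904) (nat_lit 76) (nat_lit 21128244904) (nat_lit 120) (nat_lit 3) (nat_lit 119) (nat_lit 1) (nat_lit 120) (nat_lit 1) (nat_lit 290) (nat_lit 354) (nat_lit 256))))))))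
noncomputable def ec176 : XT := (XT.nd (nat_lit 1716) (nat_lit 1596) (nat_lit 0) (XT.nd (nat_lit 858) (nat_lit 912) (nat_lit 0) (XT.nd (nat_lit 390) (nat_lit 456) (nat_lit 0) (XT.nd (nat_lit 156) (nat_lit 228) (nat_lit 0) (XT.nd (nat_lit 78) (nat_lit 0) (nat_lit 0) (XT.lf (nat_lit 152) (nat_lit 60628095325) (nat_lit 0) (nat_lit 137937) (nat_lit 76) (nat_lit 137937) (nat_lit 119) (nat_lit 1) (nat_lit 117) (nat_lit 1) (nat_lit 118) (nat_lit 1) (nat_lit 291) (nat_lit 354) (nat_lit 255)) (XT.lf (nat_lit 0) (nat_lit 19246986989) (nat_lit 0) (nat_lit 19247331181) (nat_lit 152) (nat_lit 19246986989) (nat_lit 117) (nat_lit 3) (nat_lit 117) (nat_lit 1) (nat_lit 119) (nat_lit 1) (nat_lit 292) (nat_lit 354) (nat_lit 254))) (XT.nd (nat_lit 78) (nat_lit 152) (nat_lit 0) (XT.lf (nat_lit 76) (nat_lit 18372033248) (nat_lit 0) (nat_lit 18372332545) (nat_lit 76) (nat_lit 18372332545) (nat_lit 117) (nat_lit 3) (nat_lit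 116) (nat_lit 1) (nat_lit 117) (nat_lit 1) (nat_lit 293) (nat_lit 354) (nat_lit 253)) (XT.nd (nat_lit 78) (nat_lit 0) (nat_lit 0) (XT.lf (nat_lit 152) (nat_lit 52720159692) (nat_lit 0) (nat_lit 78866) (nat_lit 76) (nat_lit 78866) (nat_lit 116) (nat_lit 1) (nat_lit 114) (nat_lit 1) (nat_lit 115) (nat_lit 1) (nat_lit 294) (nat_lit 354) (nat_lit 252)) (XT.lf (nat_lit 0) (nat_lit 16736542966) (nat_lit 0) (nat_lit 16736739759) (nat_lit 152) (nat_lit 16736542966) (nat_lit 114) (nat_lit 3) (nat_lit 114) (nat_lit 1) (nat_lit 116) (nat_lit 1) (nat_lit 295) (nat_lit 354) (nat_lit 251))))) (XT.nd (nat_lit 234) (nat_lit 228) (nat_lit 0) (XT.nd (nat_lit 78) (nat_lit 152) (nat_lit 0) (XT.lf (nat_lit 76) (nat_lit 15975739157) (nat_lit 0) (nat_lit 15975910282) (nat_lit 76) (nat_lit 15975910282) (nat_lit 114) (nat_lit 3) (nat_lit 113) (nat_lit 1) (nat_lit 114) (nat_lit 1) (nat_lit 296) (nat_lit 354) (nat_lit 250))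 (XT.nd (nat_lit 78) (nat_lit 0) (nat_lit 0) (XT.lf (nat_lit 152) (nat_lit 45843661035) (nat_lit 0) (nat_lit 45091) (nat_lit 76) (nat_lit 45091) (nat_lit 113) (nat_lit 1) (nat_lit 111) (nat_lit 1) (nat_lit 112) (nat_lit 1) (nat_lit 297) (nat_lit 354) (nat_lit 249)) (XT.lf (nat_lit 0) (nat_lit 14553534228) (nat_lit 0) (nat_lit 14553646745) (nat_lit 152) (nat_lit 14553534228) (nat_lit 111) (nat_lit 3) (nat_lit 111) (nat_lit 1) (nat_lit 113) (nat_lit 1) (nat_lit 298) (nat_lit 354) (nat_lit 248)))) (XT.nd (nat_lit 78) (nat_lit 152) (nat_lit 0) (XT.lf (nat_lit 76) (nat_lit 13891980296) (nat_lit 0) (nat_lit 13892078137) (nat_lit 76) (nat_lit 13892078137) (nat_lit 111) (nat_lit 3) (nat_lit 110) (nat_lit 1) (nat_lit 111) (nat_lit 1) (nat_lit 299) (nat_lit 354) (nat_lit 247)) (XT.nd (nat_lit 78) (nat_lit 0) (nat_lit 0) (XT.lf (nat_lit 152) (nat_lit 39864078180) (nat_lit 0) (nat_lit 25781) (nat_lit 76) (nat_lit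 25781) (nat_lit 110) (nat_lit 1) (nat_lit 108) (nat_lit 1) (nat_lit 109) (nat_lit 1) (nat_lit 300) (nat_lit 354) (nat_lit 246)) (XT.lf (nat_lit 0) (nat_lit 12655257793) (nat_lit 0) (nat_lit 12655322125) (nat_lit 152) (nat_lit 12655257793) (nat_lit 108) (nat_lit 3) (nat_lit 108) (nat_lit 1) (nat_lit 110) (nat_lit 1) (nat_lit 301) (nat_lit 354) (nat_lit 245)))))) (XT.nd (nat_lit 390) (nat_lit 456) (nat_lit 0) (XT.nd (nat_lit 156) (nat_lit 228) (nat_lit 0) (XT.nd (nat_lit 78) (nat_lit 152) (nat_lit 0) (XT.lf (nat_lit 76) (nat_lit 12080001850) (nat_lit 0) (nat_lit 12080057791) (nat_lit 76) (nat_lit 12080057791) (nat_lit 108) (nat_lit 3) (nat_lit 107) (nat_lit 1) (nat_lit 108) (nat_lit 1) (nat_lit 302) (nat_lit 354) (nat_lit 244)) (XT.lf (nat_lit 152) (nat_lit 34664430163) (nat_lit 0) (nat_lit 14740) (nat_lit 76) (nat_lit 14740) (nat_lit 107) (nat_lit 1) (nat_lit 105) (nat_lit 1) (nat_lit 106) (nat_lit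 1) (nat_lit 303) (nat_lit 354) (nat_lit 243))) (XT.nd (nat_lit 78) (nat_lit 228) (nat_lit 0) (XT.lf (nat_lit 0) (nat_lit 11004578076) (nat_lit 0) (nat_lit 11004614858) (nat_lit 152) (nat_lit 11004578076) (nat_lit 105) (nat_lit 3) (nat_lit 105) (nat_lit 1) (nat_lit 107) (nat_lit 1) (nat_lit 304) (nat_lit 354) (nat_lit 242)) (XT.nd (nat_lit 78) (nat_lit 152) (nat_lit 0) (XT.lf (nat_lit 76) (nat_lit 10504360289) (nat_lit 0) (nat_lit 10504392273) (nat_lit 76) (nat_lit 10504392273) (nat_lit 105) (nat_lit 3) (nat_lit 104) (nat_lit 1) (nat_lit 105) (nat_lit 1) (nat_lit 305) (nat_lit 354) (nat_lit 241)) (XT.lf (nat_lit 152) (nat_lit 30142990958) (nat_lit 0) (nat_lit 8428) (nat_lit 76) (nat_lit 8428) (nat_lit 104) (nat_lit 1) (nat_lit 102) (nat_lit 1) (nat_lit 103) (nat_lit 1) (nat_lit 306) (nat_lit 354) (nat_lit 240))))) (XT.nd (nat_lit 234) (nat_lit 228) (nat_lit 0) (XT.nd (nat_lit 78) (nat_lit 228) (nat_lit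 0) (XT.lf (nat_lit 0) (nat_lit 9569201804) (nat_lit 0) (nat_lit 9569222834) (nat_lit 152) (nat_lit 9569201804) (nat_lit 102) (nat_lit 3) (nat_lit 102) (nat_lit 1) (nat_lit 104) (nat_lit 1) (nat_lit 307) (nat_lit 354) (nat_lit 239)) (XT.nd (nat_lit 78) (nat_lit 152) (nat_lit 0) (XT.lf (nat_lit 76) (nat_lit 9134232544) (nat_lit 0) (nat_lit 9134250831) (nat_lit 76) (nat_lit 9134250831) (nat_lit 102) (nat_lit 3) (nat_lit 101) (nat_lit 1) (nat_lit 102) (nat_lit 1) (nat_lit 308) (nat_lit 354) (nat_lit 238)) (XT.lf (nat_lit 152) (nat_lit 26211301177) (nat_lit 0) (nat_lit 4818) (nat_lit 76) (nat_lit 4818) (nat_lit 101) (nat_lit 1) (nat_lit 99) (nat_lit 1) (nat_lit 100) (nat_lit 1) (nat_lit 309) (nat_lit 354) (nat_lit 237)))) (XT.nd (nat_lit 78) (nat_lit 228) (nat_lit 0) (XT.lf (nat_lit 0) (nat_lit 8321047035) (nat_lit 0) (nat_lit 8321059059) (nat_lit 152) (nat_lit 8321047035) (nat_lit 99) (nat_lit 3) (nat_lit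 99) (nat_lit 1) (nat_lit 101) (nat_lit 1) (nat_lit 310) (nat_lit 354) (nat_lit 236)) (XT.nd (nat_lit 78) (nat_lit 152) (nat_lit 0) (XT.lf (nat_lit 76) (nat_lit 7942814456) (nat_lit 0) (nat_lit 7942824912) (nat_lit 76) (nat_lit 7942824912) (nat_lit 99) (nat_lit 3) (nat_lit 98) (nat_lit 1) (nat_lit 99) (nat_lit 1) (nat_lit 311) (nat_lit 354) (nat_lit 235)) (XT.lf (nat_lit 152) (nat_lit 22792438489) (nat_lit 0) (nat_lit 2755) (nat_lit 76) (nat_lit 2755) (nat_lit 98) (nat_lit 1) (nat_lit 96) (nat_lit 1) (nat_lit 97) (nat_lit 1) (nat_lit 312) (nat_lit 354) (nat_lit 234))))))) (XT.nd (nat_lit 858) (nat_lit 836) (nat_lit 0) (XT.nd (nat_lit 390) (nat_lit 456) (nat_lit 0) (XT.nd (nat_lit 156) (nat_lit 228) (nat_lit 0) (XT.nd (nat_lit 78) (nat_lit 76) (nat_lit 0) (XT.lf (nat_lit 0) (nat_lit 7235694211) (nat_lit 0) (nat_lit 7235701086) (nat_lit 152) (nat_lit 7235694211) (nat_lit 96) (nat_lit 3) (nat_lit 96)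 (nat_lit 1) (nat_lit 98) (nat_lit 1) (nat_lit 313) (nat_lit 354) (nat_lit 233)) (XT.lf (nat_lit 76) (nat_lit 6906797208) (nat_lit 0) (nat_lit 6906803186) (nat_lit 76) (nat_lit 6906803186) (nat_lit 96) (nat_lit 3) (nat_lit 95) (nat_lit 1) (nat_lit 96) (nat_lit 1) (nat_lit 314) (nat_lit 354) (nat_lit 232))) (XT.nd (nat_lit 78) (nat_lit 76) (nat_lit 0) (XT.lf (nat_lit 152) (nat_lit 19819513264) (nat_lit 0) (nat_lit 1575) (nat_lit 76) (nat_lit 1575) (nat_lit 95) (nat_lit 1) (nat_lit 93) (nat_lit 1) (nat_lit 94) (nat_lit 1) (nat_lit 315) (nat_lit 354) (nat_lit 231)) (XT.nd (nat_lit 78) (nat_lit 76) (nat_lit 0) (XT.lf (nat_lit 0) (nat_lit 6291908659) (nat_lit 0) (nat_lit 6291912590) (nat_lit 152) (nat_lit 6291908659) (nat_lit 93) (nat_lit 3) (nat_lit 93) (nat_lit 1) (nat_lit 95) (nat_lit 1) (nat_lit 316) (nat_lit 354) (nat_lit 230)) (XT.lf (nat_lit 76) (nat_lit 6005911775) (nat_lit 0) (nat_lit 6005915193)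 (nat_lit 76) (nat_lit 6005915193) (nat_lit 93) (nat_lit 3) (nat_lit 92) (nat_lit 1) (nat_lit 93) (nat_lit 1) (nat_lit 317) (nat_lit 354) (nat_lit 229))))) (XT.nd (nat_lit 234) (nat_lit 228) (nat_lit 0) (XT.nd (nat_lit 78) (nat_lit 76) (nat_lit 0) (XT.lf (nat_lit 152) (nat_lit 17234360237) (nat_lit 0) (nat_lit 900) (nat_lit 76) (nat_lit 900) (nat_lit 92) (nat_lit 1) (nat_lit 90) (nat_lit 1) (nat_lit 91) (nat_lit 1) (nat_lit 318) (nat_lit 354) (nat_lit 228)) (XT.nd (nat_lit 78) (nat_lit 76) (nat_lit 0) (XT.lf (nat_lit 0) (nat_lit 5471225293) (nat_lit 0) (nat_lit 5471227540) (nat_lit 152) (nat_lit 5471225293) (nat_lit 90) (nat_lit 3) (nat_lit 90) (nat_lit 1) (nat_lit 92) (nat_lit 1) (nat_lit 319) (nat_lit 354) (nat_lit 227)) (XT.lf (nat_lit 76) (nat_lit 5222532642) (nat_lit 0) (nat_lit 5222534596) (nat_lit 76) (nat_lit 5222534596) (nat_lit 90) (nat_lit 3) (nat_lit 89) (nat_lit 1) (nat_lit 90) (nat_lit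 1) (nat_lit 320) (nat_lit 354) (nat_lit 226)))) (XT.nd (nat_lit 78) (nat_lit 76) (nat_lit 0) (XT.lf (nat_lit 152) (nat_lit 14986400707) (nat_lit 0) (nat_lit 514) (nat_lit 76) (nat_lit 514) (nat_lit 89) (nat_lit 1) (nat_lit 87) (nat_lit 1) (nat_lit 88) (nat_lit 1) (nat_lit 321) (nat_lit 354) (nat_lit 225)) (XT.nd (nat_lit 78) (nat_lit 76) (nat_lit 0) (XT.lf (nat_lit 0) (nat_lit 4757587424) (nat_lit 0) (nat_lit 4757588708) (nat_lit 152) (nat_lit 4757587424) (nat_lit 87) (nat_lit 3) (nat_lit 87) (nat_lit 1) (nat_lit 89) (nat_lit 1) (nat_lit 322) (nat_lit 354) (nat_lit 224)) (XT.lf (nat_lit 76) (nat_lit 4541333111) (nat_lit 0) (nat_lit 4541334228) (nat_lit 76) (nat_lit 4541334228) (nat_lit 87) (nat_lit 3) (nat_lit 86) (nat_lit 1) (nat_lit 87) (nat_lit 1) (nat_lit 323) (nat_lit 354) (nat_lit 223)))))) (XT.nd (nat_lit 390) (nat_lit 456) (nat_lit 0) (XT.nd (nat_lit 156) (nat_lit 228) (nat_lit 0) (XT.nd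 (nat_lit 78) (nat_lit 0) (nat_lit 0) (XT.lf (nat_lit 152) (nat_lit 13031653076) (nat_lit 0) (nat_lit 294) (nat_lit 76) (nat_lit 294) (nat_lit 86) (nat_lit 1) (nat_lit 84) (nat_lit 1) (nat_lit 85) (nat_lit 1) (nat_lit 324) (nat_lit 354) (nat_lit 222)) (XT.lf (nat_lit 0) (nat_lit 4137032664) (nat_lit 0) (nat_lit 4137033398) (nat_lit 152) (nat_lit 4137032664) (nat_lit 84) (nat_lit 3) (nat_lit 84) (nat_lit 1) (nat_lit 86) (nat_lit 1) (nat_lit 325) (nat_lit 354) (nat_lit 221))) (XT.nd (nat_lit 78) (nat_lit 152) (nat_lit 0) (XT.lf (nat_lit 76) (nat_lit 3948985531) (nat_lit 0) (nat_lit 3948986170) (nat_lit 76) (nat_lit 3948986170) (nat_lit 84) (nat_lit 3) (nat_lit 83) (nat_lit 1) (nat_lit 84) (nat_lit 1) (nat_lit 326) (nat_lit 354) (nat_lit 220)) (XT.nd (nat_lit 78) (nat_lit 0) (nat_lit 0) (XT.lf (nat_lit 152) (nat_lit 11331872404) (nat_lit 0) (nat_lit 168) (nat_lit 76) (nat_lit 168) (nat_lit 83) (nat_lit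 1) (nat_lit 81) (nat_lit 1) (nat_lit 82) (nat_lit 1) (nat_lit 327) (nat_lit 354) (nat_lit 219)) (XT.lf (nat_lit 0) (nat_lit 3597419777) (nat_lit 0) (nat_lit 3597420197) (nat_lit 152) (nat_lit 3597419777) (nat_lit 81) (nat_lit 3) (nat_lit 81) (nat_lit 1) (nat_lit 83) (nat_lit 1) (nat_lit 328) (nat_lit 354) (nat_lit 218))))) (XT.nd (nat_lit 234) (nat_lit 228) (nat_lit 0) (XT.nd (nat_lit 78) (nat_lit 152) (nat_lit 0) (XT.lf (nat_lit 76) (nat_lit 3433900585) (nat_lit 0) (nat_lit 3433900951) (nat_lit 76) (nat_lit 3433900951) (nat_lit 81) (nat_lit 3) (nat_lit 80) (nat_lit 1) (nat_lit 81) (nat_lit 1) (nat_lit 329) (nat_lit 354) (nat_lit 217)) (XT.nd (nat_lit 78) (nat_lit 0) (nat_lit 0) (XT.lf (nat_lit 152) (nat_lit 9853802184) (nat_lit 0) (nat_lit 96) (nat_lit 76) (nat_lit 96) (nat_lit 80) (nat_lit 1) (nat_lit 78) (nat_lit 1) (nat_lit 79) (nat_lit 1) (nat_lit 330) (nat_lit 354) (nat_lit 216)) (XT.lf (nat_lit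 0) (nat_lit 3128191150) (nat_lit 0) (nat_lit 3128191390) (nat_lit 152) (nat_lit 3128191150) (nat_lit 78) (nat_lit 3) (nat_lit 78) (nat_lit 1) (nat_lit 80) (nat_lit 1) (nat_lit 331) (nat_lit 354) (nat_lit 215)))) (XT.nd (nat_lit 78) (nat_lit 152) (nat_lit 0) (XT.lf (nat_lit 76) (nat_lit 2986000580) (nat_lit 0) (nat_lit 2986000789) (nat_lit 76) (nat_lit 2986000789) (nat_lit 78) (nat_lit 3) (nat_lit 77) (nat_lit 1) (nat_lit 78) (nat_lit 1) (nat_lit 332) (nat_lit 354) (nat_lit 214)) (XT.nd (nat_lit 78) (nat_lit 0) (nat_lit 0) (XT.lf (nat_lit 152) (nat_lit 8568523692) (nat_lit 0) (nat_lit 55) (nat_lit 76) (nat_lit 55) (nat_lit 77) (nat_lit 1) (nat_lit 75) (nat_lit 1) (nat_lit 76) (nat_lit 1) (nat_lit 333) (nat_lit 354) (nat_lit 213)) (XT.lf (nat_lit 0) (nat_lit 2720166240) (nat_lit 0) (nat_lit 2720166377) (nat_lit 152) (nat_lit 2720166240) (nat_lit 75) (nat_lit 3) (nat_lit 75) (nat_lit 1) (nat_lit 77)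 (nat_lit 1) (nat_lit 334) (nat_lit 354) (nat_lit 212))))))))
noncomputable def ec177 : XT := (XT.nd (nat_lit 1716) (nat_lit 1140) (nat_lit 0) (XT.nd (nat_lit 858) (nat_lit 760) (nat_lit 0) (XT.nd (nat_lit 390) (nat_lit 456) (nat_lit 0) (XT.nd (nat_lit 156) (nat_lit 228) (nat_lit 0) (XT.nd (nat_lit 78) (nat_lit 152) (nat_lit 0) (XT.lf (nat_lit 76) (nat_lit 2596522284) (nat_lit 0) (nat_lit 2596522403) (nat_lit 76) (nat_lit 2596522403) (nat_lit 75) (nat_lit 3) (nat_lit 74) (nat_lit 1) (nat_lit 75) (nat_lit 1) (nat_lit 335) (nat_lit 354) (nat_lit 211)) (XT.lf (nat_lit 152) (nat_lit 7450890197) (nat_lit 0) (nat_lit 31) (nat_lit 76) (nat_lit 31) (nat_lit 74) (nat_lit 1) (nat_lit 72) (nat_lit 1) (nat_lit 73) (nat_lit 1) (nat_lit 336) (nat_lit 354) (nat_lit 210))) (XT.nd (nat_lit 78) (nat_lit 228) (nat_lit 0) (XT.lf (nat_lit 0) (nat_lit 2365361961) (nat_lit 0) (nat_lit 2365362039) (nat_lit 152) (nat_lit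 2365361961) (nat_lit 72) (nat_lit 3) (nat_lit 72) (nat_lit 1) (nat_lit 74) (nat_lit 1) (nat_lit 337) (nat_lit 354) (nat_lit 209)) (XT.nd (nat_lit 78) (nat_lit 152) (nat_lit 0) (XT.lf (nat_lit 76) (nat_lit 2257845487) (nat_lit 0) (nat_lit 2257845556) (nat_lit 76) (nat_lit 2257845556) (nat_lit 72) (nat_lit 3) (nat_lit 71) (nat_lit 1) (nat_lit 72) (nat_lit 1) (nat_lit 338) (nat_lit 354) (nat_lit 208)) (XT.lf (nat_lit 152) (nat_lit 6479034971) (nat_lit 0) (nat_lit 17) (nat_lit 76) (nat_lit 17) (nat_lit 71) (nat_lit 1) (nat_lit 69) (nat_lit 1) (nat_lit 70) (nat_lit 1) (nat_lit 339) (nat_lit 354) (nat_lit 207))))) (XT.nd (nat_lit 234) (nat_lit 228) (nat_lit 0) (XT.nd (nat_lit 78) (nat_lit 228) (nat_lit 0) (XT.lf (nat_lit 0) (nat_lit 2056836495) (nat_lit 0) (nat_lit 2056836540) (nat_lit 152) (nat_lit 2056836495) (nat_lit 69) (nat_lit 3) (nat_lit 69) (nat_lit 1) (nat_lit 71) (nat_lit 1) (nat_lit 340) (nat_lit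 354) (nat_lit 206)) (XT.nd (nat_lit 78) (nat_lit 152) (nat_lit 0) (XT.lf (nat_lit 76) (nat_lit 1963343915) (nat_lit 0) (nat_lit 1963343954) (nat_lit 76) (nat_lit 1963343954) (nat_lit 69) (nat_lit 3) (nat_lit 68) (nat_lit 1) (nat_lit 69) (nat_lit 1) (nat_lit 341) (nat_lit 354) (nat_lit 205)) (XT.lf (nat_lit 152) (nat_lit 5633943463) (nat_lit 0) (nat_lit 10) (nat_lit 76) (nat_lit 10) (nat_lit 68) (nat_lit 1) (nat_lit 66) (nat_lit 1) (nat_lit 67) (nat_lit 1) (nat_lit 342) (nat_lit 354) (nat_lit 204)))) (XT.nd (nat_lit 78) (nat_lit 228) (nat_lit 0) (XT.lf (nat_lit 0) (nat_lit 1788553478) (nat_lit 0) (nat_lit 1788553504) (nat_lit 152) (nat_lit 1788553478) (nat_lit 66) (nat_lit 3) (nat_lit 66) (nat_lit 1) (nat_lit 68) (nat_lit 1) (nat_lit 343) (nat_lit 354) (nat_lit 203)) (XT.nd (nat_lit 78) (nat_lit 152) (nat_lit 0) (XT.lf (nat_lit 76) (nat_lit 1707255586) (nat_lit 0) (nat_lit 1707255608) (nat_lit 76)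 (nat_lit 1707255608) (nat_lit 66) (nat_lit 3) (nat_lit 65) (nat_lit 1) (nat_lit 66) (nat_lit 1) (nat_lit 344) (nat_lit 354) (nat_lit 202)) (XT.lf (nat_lit 152) (nat_lit 4899081278) (nat_lit 0) (nat_lit 5) (nat_lit 76) (nat_lit 5) (nat_lit 65) (nat_lit 1) (nat_lit 63) (nat_lit 1) (nat_lit 64) (nat_lit 1) (nat_lit 345) (nat_lit 354) (nat_lit 201)))))) (XT.nd (nat_lit 390) (nat_lit 456) (nat_lit 0) (XT.nd (nat_lit 156) (nat_lit 228) (nat_lit 0) (XT.nd (nat_lit 78) (nat_lit 76) (nat_lit 0) (XT.lf (nat_lit 0) (nat_lit 1555263896) (nat_lit 0) (nat_lit 1555263911) (nat_lit 152) (nat_lit 1555263896) (nat_lit 63) (nat_lit 3) (nat_lit 63) (nat_lit 1) (nat_lit 65) (nat_lit 1) (nat_lit 346) (nat_lit 354) (nat_lit 200)) (XT.lf (nat_lit 76) (nat_lit 1484570079) (nat_lit 0) (nat_lit 1484570092) (nat_lit 76) (nat_lit 1484570092) (nat_lit 63) (nat_lit 3) (nat_lit 62) (nat_lit 1) (nat_lit 63) (nat_lit 1) (nat_lit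 347) (nat_lit 354) (nat_lit 199))) (XT.nd (nat_lit 78) (nat_lit 76) (nat_lit 0) (XT.lf (nat_lit 152) (nat_lit 4260070680) (nat_lit 0) (nat_lit 3) (nat_lit 76) (nat_lit 3) (nat_lit 62) (nat_lit 1) (nat_lit 60) (nat_lit 1) (nat_lit 61) (nat_lit 1) (nat_lit 348) (nat_lit 354) (nat_lit 198)) (XT.nd (nat_lit 78) (nat_lit 76) (nat_lit 0) (XT.lf (nat_lit 0) (nat_lit 1352403389) (nat_lit 0) (nat_lit 1352403398) (nat_lit 152) (nat_lit 1352403389) (nat_lit 60) (nat_lit 3) (nat_lit 60) (nat_lit 1) (nat_lit 62) (nat_lit 1) (nat_lit 349) (nat_lit 354) (nat_lit 197)) (XT.lf (nat_lit 76) (nat_lit 1290930506) (nat_lit 0) (nat_lit 1290930513) (nat_lit 76) (nat_lit 1290930513) (nat_lit 60) (nat_lit 3) (nat_lit 59) (nat_lit 1) (nat_lit 60) (nat_lit 1) (nat_lit 350) (nat_lit 354) (nat_lit 196))))) (XT.nd (nat_lit 234) (nat_lit 228) (nat_lit 0) (XT.nd (nat_lit 78) (nat_lit 76) (nat_lit 0) (XT.lf (nat_lit 152) (nat_lit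 3704409289) (nat_lit 0) (nat_lit 1) (nat_lit 76) (nat_lit 1) (nat_lit 59) (nat_lit 1) (nat_lit 57) (nat_lit 1) (nat_lit 58) (nat_lit 1) (nat_lit 351) (nat_lit 354) (nat_lit 195)) (XT.nd (nat_lit 78) (nat_lit 76) (nat_lit 0) (XT.lf (nat_lit 0) (nat_lit 1176002948) (nat_lit 0) (nat_lit 1176002953) (nat_lit 152) (nat_lit 1176002948) (nat_lit 57) (nat_lit 3) (nat_lit 57) (nat_lit 1) (nat_lit 59) (nat_lit 1) (nat_lit 352) (nat_lit 354) (nat_lit 194)) (XT.lf (nat_lit 76) (nat_lit 1122548267) (nat_lit 0) (nat_lit 1122548271) (nat_lit 76) (nat_lit 1122548271) (nat_lit 57) (nat_lit 3) (nat_lit 56) (nat_lit 1) (nat_lit 57) (nat_lit 1) (nat_lit 353) (nat_lit 354) (nat_lit 193)))) (XT.nd (nat_lit 78) (nat_lit 76) (nat_lit 0) (XT.lf (nat_lit 152) (nat_lit 3221225469) (nat_lit 0) (nat_lit 1) (nat_lit 76) (nat_lit 1) (nat_lit 56) (nat_lit 1) (nat_lit 54) (nat_lit 1) (nat_lit 55) (nat_lit 1) (nat_lit 354) (nat_lit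 354) (nat_lit 192)) (XT.nd (nat_lit 78) (nat_lit 76) (nat_lit 0) (XT.lf (nat_lit 0) (nat_lit 1022611260) (nat_lit 0) (nat_lit 1022611262) (nat_lit 152) (nat_lit 1022611260) (nat_lit 54) (nat_lit 3) (nat_lit 54) (nat_lit 1) (nat_lit 56) (nat_lit 1) (nat_lit 355) (nat_lit 354) (nat_lit 191)) (XT.lf (nat_lit 76) (nat_lit 976128929) (nat_lit 0) (nat_lit 976128931) (nat_lit 76) (nat_lit 976128931) (nat_lit 54) (nat_lit 3) (nat_lit 53) (nat_lit 1) (nat_lit 54) (nat_lit 1) (nat_lit 356) (nat_lit 354) (nat_lit 190))))))) (XT.nd (nat_lit 858) (nat_lit 304) (nat_lit 0) (XT.nd (nat_lit 390) (nat_lit 456) (nat_lit 0) (XT.nd (nat_lit 156) (nat_lit 228) (nat_lit 0) (XT.nd (nat_lit 78) (nat_lit 152) (nat_lit 0) (XT.lf (nat_lit 0) (nat_lit 2801065626) (nat_lit 0) (nat_lit 0) (nat_lit 0) (nat_lit 0) (nat_lit 53) (nat_lit 1) (nat_lit 1) (nat_lit 0) (nat_lit 1) (nat_lit 0) (nat_lit 357) (nat_lit 354) (nat_lit 189))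 (XT.lf (nat_lit 0) (nat_lit 889227182) (nat_lit 0) (nat_lit 889227184) (nat_lit 152) (nat_lit 889227182) (nat_lit 51) (nat_lit 3) (nat_lit 51) (nat_lit 1) (nat_lit 53) (nat_lit 1) (nat_lit 358) (nat_lit 354) (nat_lit 188))) (XT.nd (nat_lit 78) (nat_lit 152) (nat_lit 0) (XT.lf (nat_lit 76) (nat_lit 848807765) (nat_lit 0) (nat_lit 848807766) (nat_lit 76) (nat_lit 848807766) (nat_lit 51) (nat_lit 3) (nat_lit 50) (nat_lit 1) (nat_lit 51) (nat_lit 1) (nat_lit 359) (nat_lit 354) (nat_lit 187)) (XT.nd (nat_lit 78) (nat_lit 152) (nat_lit 0) (XT.lf (nat_lit 0) (nat_lit 2435709240) (nat_lit 0) (nat_lit 0) (nat_lit 0) (nat_lit 0) (nat_lit 50) (nat_lit 1) (nat_lit 1) (nat_lit 0) (nat_lit 1) (nat_lit 0) (nat_lit 360) (nat_lit 354) (nat_lit 186)) (XT.lf (nat_lit 0) (nat_lit 773241028) (nat_lit 0) (nat_lit 773241029) (nat_lit 152) (nat_lit 773241028) (nat_lit 48) (nat_lit 3) (nat_lit 48) (nat_lit 1) (nat_lit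 50) (nat_lit 1) (nat_lit 361) (nat_lit 354) (nat_lit 185))))) (XT.nd (nat_lit 234) (nat_lit 228) (nat_lit 0) (XT.nd (nat_lit 78) (nat_lit 152) (nat_lit 0) (XT.lf (nat_lit 76) (nat_lit 738093709) (nat_lit 0) (nat_lit 738093709) (nat_lit 76) (nat_lit 738093709) (nat_lit 48) (nat_lit 3) (nat_lit 47) (nat_lit 1) (nat_lit 48) (nat_lit 1) (nat_lit 362) (nat_lit 354) (nat_lit 184)) (XT.nd (nat_lit 78) (nat_lit 152) (nat_lit 0) (XT.lf (nat_lit 0) (nat_lit 2118008035) (nat_lit 0) (nat_lit 0) (nat_lit 0) (nat_lit 0) (nat_lit 47) (nat_lit 1) (nat_lit 1) (nat_lit 0) (nat_lit 1) (nat_lit 0) (nat_lit 363) (nat_lit 354) (nat_lit 183)) (XT.lf (nat_lit 0) (nat_lit 672383503) (nat_lit 0) (nat_lit 672383503) (nat_lit 152) (nat_lit 672383503) (nat_lit 45) (nat_lit 3) (nat_lit 45) (nat_lit 1) (nat_lit 47) (nat_lit 1) (nat_lit 364) (nat_lit 354) (nat_lit 182)))) (XT.nd (nat_lit 78) (nat_lit 152) (nat_lit 0) (XT.lf (nat_lit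 76) (nat_lit 641820616) (nat_lit 0) (nat_lit 641820617) (nat_lit 76) (nat_lit 641820617) (nat_lit 45) (nat_lit 3) (nat_lit 44) (nat_lit 1) (nat_lit 45) (nat_lit 1) (nat_lit 365) (nat_lit 354) (nat_lit 181)) (XT.nd (nat_lit 78) (nat_lit 152) (nat_lit 0) (XT.lf (nat_lit 0) (nat_lit 1841746118) (nat_lit 0) (nat_lit 0) (nat_lit 0) (nat_lit 0) (nat_lit 44) (nat_lit 1) (nat_lit 1) (nat_lit 0) (nat_lit 1) (nat_lit 0) (nat_lit 366) (nat_lit 354) (nat_lit 180)) (XT.lf (nat_lit 0) (nat_lit 584681307) (nat_lit 0) (nat_lit 584681307) (nat_lit 152) (nat_lit 584681307) (nat_lit 42) (nat_lit 3) (nat_lit 42) (nat_lit 1) (nat_lit 44) (nat_lit 1) (nat_lit 367) (nat_lit 354) (nat_lit 179)))))) (XT.nd (nat_lit 33150) (nat_lit 0) (nat_lit 13148) (XT.nd (nat_lit 234) (nat_lit 76) (nat_lit 0) (XT.nd (nat_lit 78) (nat_lit 152) (nat_lit 0) (XT.lf (nat_lit 76) (nat_lit 558104884) (nat_lit 0) (nat_lit 558104884) (nat_lit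 76) (nat_lit 558104884) (nat_lit 42) (nat_lit 3) (nat_lit 41) (nat_lit 1) (nat_lit 42) (nat_lit 1) (nat_lit 368) (nat_lit 354) (nat_lit 178)) (XT.nd (nat_lit 78) (nat_lit 152) (nat_lit 0) (XT.lf (nat_lit 0) (nat_lit 1601518363) (nat_lit 0) (nat_lit 0) (nat_lit 0) (nat_lit 0) (nat_lit 41) (nat_lit 1) (nat_lit 1) (nat_lit 0) (nat_lit 1) (nat_lit 0) (nat_lit 369) (nat_lit 354) (nat_lit 177)) (XT.lf (nat_lit 0) (nat_lit 508418528) (nat_lit 0) (nat_lit 508418528) (nat_lit 152) (nat_lit 508418528) (nat_lit 39) (nat_lit 3) (nat_lit 39) (nat_lit 1) (nat_lit 41) (nat_lit 1) (nat_lit 370) (nat_lit 354) (nat_lit 176)))) (XT.nd (nat_lit 32760) (nat_lit 0) (nat_lit 13452) (XT.lf (nat_lit 76) (nat_lit 485308594) (nat_lit 0) (nat_lit 485308595) (nat_lit 76) (nat_lit 485308595) (nat_lit 39) (nat_lit 3) (nat_lit 38) (nat_lit 1) (nat_lit 39) (nat_lit 1) (nat_lit 371) (nat_lit 354) (nat_lit 175)) (XT.nd (nat_lit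 78) (nat_lit 0) (nat_lit 0) (XT.lf (nat_lit 380) (nat_lit 1529345669013) (nat_lit 0) (nat_lit 1354579098491) (nat_lit 380) (nat_lit 1529345669013) (nat_lit 220) (nat_lit 1) (nat_lit 215) (nat_lit 0) (nat_lit 220) (nat_lit 0) (nat_lit 190) (nat_lit 355) (nat_lit 355)) (XT.lf (nat_lit 380) (nat_lit 5656851159106) (nat_lit 76) (nat_lit 1293007321287) (nat_lit 0) (nat_lit 1293007321287) (nat_lit 220) (nat_lit 1) (nat_lit 216) (nat_lit 1) (nat_lit 215) (nat_lit 0) (nat_lit 191) (nat_lit 355) (nat_lit 354))))) (XT.nd (nat_lit 234) (nat_lit 380) (nat_lit 0) (XT.nd (nat_lit 78) (nat_lit 0) (nat_lit 0) (XT.lf (nat_lit 380) (nat_lit 2493507552868) (nat_lit 0) (nat_lit 2713171434149) (nat_lit 304) (nat_lit 2493507552868) (nat_lit 221) (nat_lit 1) (nat_lit 216) (nat_lit 1) (nat_lit 220) (nat_lit 1) (nat_lit 192) (nat_lit 355) (nat_lit 353)) (XT.nd (nat_lit 78) (nat_lit 0) (nat_lit 76) (XT.lf (nat_lit 380)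 (nat_lit 4281222998093) (nat_lit 76) (nat_lit 1465491267446) (nat_lit 0) (nat_lit 1465491267446) (nat_lit 221) (nat_lit 1) (nat_lit 217) (nat_lit 1) (nat_lit 216) (nat_lit 1) (nat_lit 193) (nat_lit 355) (nat_lit 352)) (XT.lf (nat_lit 76) (nat_lit 1731811484381) (nat_lit 0) (nat_lit 3297659806680) (nat_lit 304) (nat_lit 1731811484381) (nat_lit 218) (nat_lit 1) (nat_lit 217) (nat_lit 1) (nat_lit 221) (nat_lit 1) (nat_lit 194) (nat_lit 355) (nat_lit 351)))) (XT.nd (nat_lit 78) (nat_lit 152) (nat_lit 0) (XT.lf (nat_lit 380) (nat_lit 2602772793943) (nat_lit 0) (nat_lit 1873425946542) (nat_lit 304) (nat_lit 1873425946542) (nat_lit 218) (nat_lit 1) (nat_lit 213) (nat_lit 1) (nat_lit 217) (nat_lit 1) (nat_lit 195) (nat_lit 355) (nat_lit 350)) (XT.nd (nat_lit 78) (nat_lit 152) (nat_lit 0) (XT.lf (nat_lit 76) (nat_lit 865132931459) (nat_lit 0) (nat_lit 4245228978320) (nat_lit 380) (nat_lit 865132931459)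 (nat_lit 214) (nat_lit 1) (nat_lit 213) (nat_lit 1) (nat_lit 218) (nat_lit 1) (nat_lit 196) (nat_lit 355) (nat_lit 349)) (XT.lf (nat_lit 228) (nat_lit 778599230206) (nat_lit 0) (nat_lit 2423197984288) (nat_lit 152) (nat_lit 2423197984288) (nat_lit 214) (nat_lit 1) (nat_lit 211) (nat_lit 1) (nat_lit 213) (nat_lit 1) (nat_lit 197) (nat_lit 355) (nat_lit 348))))))))
noncomputable def ec178 : XT := (XT.nd (nat_lit 1716) (nat_lit 1748) (nat_lit 0) (XT.nd (nat_lit 858) (nat_lit 760) (nat_lit 0) (XT.nd (nat_lit 390) (nat_lit 532) (nat_lit 0) (XT.nd (nat_lit 156) (nat_lit 228) (nat_lit 0) (XT.nd (nat_lit 78) (nat_lit 0) (nat_lit 0) (XT.lf (nat_lit 228) (nat_lit 5232177030129) (nat_lit 0) (nat_lit 41051719213) (nat_lit 152) (nat_lit 41051719213) (nat_lit 211) (nat_lit 1) (nat_lit 208) (nat_lit 1) (nat_lit 210) (nat_lit 1) (nat_lit 198) (nat_lit 355) (nat_lit 347)) (XT.lf (nat_lit 76) (nat_lit 2010235857860)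 (nat_lit 0) (nat_lit 986918802085) (nat_lit 228) (nat_lit 2010235857860) (nat_lit 209) (nat_lit 1) (nat_lit 208) (nat_lit 1) (nat_lit 211) (nat_lit 1) (nat_lit 199) (nat_lit 355) (nat_lit 346))) (XT.nd (nat_lit 78) (nat_lit 76) (nat_lit 0) (XT.lf (nat_lit 228) (nat_lit 2921954975032) (nat_lit 0) (nat_lit 906361709394) (nat_lit 152) (nat_lit 906361709394) (nat_lit 209) (nat_lit 1) (nat_lit 206) (nat_lit 1) (nat_lit 208) (nat_lit 1) (nat_lit 200) (nat_lit 355) (nat_lit 345)) (XT.nd (nat_lit 78) (nat_lit 76) (nat_lit 0) (XT.lf (nat_lit 76) (nat_lit 913791156755) (nat_lit 0) (nat_lit 2651806314266) (nat_lit 228) (nat_lit 913791156755) (nat_lit 207) (nat_lit 1) (nat_lit 206) (nat_lit 1) (nat_lit 209) (nat_lit 1) (nat_lit 201) (nat_lit 355) (nat_lit 344)) (XT.lf (nat_lit 152) (nat_lit 755417261541) (nat_lit 0) (nat_lit 1743129046753) (nat_lit 76) (nat_lit 1743129046753) (nat_lit 207) (nat_lit 1) (nat_lit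 205) (nat_lit 1) (nat_lit 206) (nat_lit 1) (nat_lit 202) (nat_lit 355) (nat_lit 343))))) (XT.nd (nat_lit 234) (nat_lit 228) (nat_lit 0) (XT.nd (nat_lit 78) (nat_lit 76) (nat_lit 0) (XT.lf (nat_lit 228) (nat_lit 3824366230143) (nat_lit 0) (nat_lit 101598203081) (nat_lit 152) (nat_lit 101598203081) (nat_lit 205) (nat_lit 1) (nat_lit 202) (nat_lit 1) (nat_lit 204) (nat_lit 1) (nat_lit 203) (nat_lit 355) (nat_lit 342)) (XT.nd (nat_lit 78) (nat_lit 76) (nat_lit 0) (XT.lf (nat_lit 76) (nat_lit 1338445928125) (nat_lit 0) (nat_lit 1136651951304) (nat_lit 228) (nat_lit 1338445928125) (nat_lit 203) (nat_lit 1) (nat_lit 202) (nat_lit 1) (nat_lit 205) (nat_lit 1) (nat_lit 204) (nat_lit 355) (nat_lit 341)) (XT.lf (nat_lit 152) (nat_lit 1627422055080) (nat_lit 0) (nat_lit 996639689968) (nat_lit 76) (nat_lit 996639689968) (nat_lit 203) (nat_lit 1) (nat_lit 201) (nat_lit 1) (nat_lit 202) (nat_lit 1) (nat_lit 205)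 (nat_lit 355) (nat_lit 340)))) (XT.nd (nat_lit 78) (nat_lit 228) (nat_lit 0) (XT.lf (nat_lit 0) (nat_lit 318671665471) (nat_lit 0) (nat_lit 2805560872954) (nat_lit 152) (nat_lit 318671665471) (nat_lit 201) (nat_lit 3) (nat_lit 201) (nat_lit 1) (nat_lit 203) (nat_lit 1) (nat_lit 206) (nat_lit 355) (nat_lit 339)) (XT.nd (nat_lit 78) (nat_lit 76) (nat_lit 0) (XT.lf (nat_lit 76) (nat_lit 1474811123853) (nat_lit 0) (nat_lit 319861037432) (nat_lit 152) (nat_lit 1474811123853) (nat_lit 200) (nat_lit 1) (nat_lit 199) (nat_lit 1) (nat_lit 201) (nat_lit 1) (nat_lit 207) (nat_lit 355) (nat_lit 338)) (XT.lf (nat_lit 152) (nat_lit 1970057567174) (nat_lit 0) (nat_lit 569831977426) (nat_lit 76) (nat_lit 569831977426) (nat_lit 200) (nat_lit 1) (nat_lit 198) (nat_lit 1) (nat_lit 199) (nat_lit 1) (nat_lit 208) (nat_lit 355) (nat_lit 337)))))) (XT.nd (nat_lit 390) (nat_lit 456) (nat_lit 0) (XT.nd (nat_lit 156) (nat_lit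 228) (nat_lit 0) (XT.nd (nat_lit 78) (nat_lit 76) (nat_lit 0) (XT.lf (nat_lit 0) (nat_lit 512224963847) (nat_lit 0) (nat_lit 1934111939656) (nat_lit 152) (nat_lit 512224963847) (nat_lit 198) (nat_lit 3) (nat_lit 198) (nat_lit 1) (nat_lit 200) (nat_lit 1) (nat_lit 209) (nat_lit 355) (nat_lit 336)) (XT.lf (nat_lit 76) (nat_lit 114268236028) (nat_lit 0) (nat_lit 1350691693253) (nat_lit 76) (nat_lit 1350691693253) (nat_lit 198) (nat_lit 3) (nat_lit 197) (nat_lit 1) (nat_lit 198) (nat_lit 1) (nat_lit 210) (nat_lit 355) (nat_lit 335))) (XT.nd (nat_lit 78) (nat_lit 76) (nat_lit 0) (XT.lf (nat_lit 152) (nat_lit 2030363960413) (nat_lit 0) (nat_lit 325803282536) (nat_lit 76) (nat_lit 325803282536) (nat_lit 197) (nat_lit 1) (nat_lit 195) (nat_lit 1) (nat_lit 196) (nat_lit 1) (nat_lit 211) (nat_lit 355) (nat_lit 334)) (XT.nd (nat_lit 78) (nat_lit 76) (nat_lit 0) (XT.lf (nat_lit 0) (nat_lit 579843159323) (nat_lit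 0) (nat_lit 1392811652608) (nat_lit 152) (nat_lit 579843159323) (nat_lit 195) (nat_lit 3) (nat_lit 195) (nat_lit 1) (nat_lit 197) (nat_lit 1) (nat_lit 212) (nat_lit 355) (nat_lit 333)) (XT.lf (nat_lit 76) (nat_lit 339265705234) (nat_lit 0) (nat_lit 1046194829830) (nat_lit 76) (nat_lit 1046194829830) (nat_lit 195) (nat_lit 3) (nat_lit 194) (nat_lit 1) (nat_lit 195) (nat_lit 1) (nat_lit 213) (nat_lit 355) (nat_lit 332))))) (XT.nd (nat_lit 234) (nat_lit 228) (nat_lit 0) (XT.nd (nat_lit 78) (nat_lit 76) (nat_lit 0) (XT.lf (nat_lit 152) (nat_lit 1946934273124) (nat_lit 0) (nat_lit 186279084214) (nat_lit 76) (nat_lit 186279084214) (nat_lit 194) (nat_lit 1) (nat_lit 192) (nat_lit 1) (nat_lit 193) (nat_lit 1) (nat_lit 214) (nat_lit 355) (nat_lit 331)) (XT.nd (nat_lit 78) (nat_lit 76) (nat_lit 0) (XT.lf (nat_lit 0) (nat_lit 581072315904) (nat_lit 0) (nat_lit 1045889690505) (nat_lit 152) (nat_lit 581072315904)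 (nat_lit 192) (nat_lit 3) (nat_lit 192) (nat_lit 1) (nat_lit 194) (nat_lit 1) (nat_lit 215) (nat_lit 355) (nat_lit 330)) (XT.lf (nat_lit 76) (nat_lit 432178416275) (nat_lit 0) (nat_lit 836367437666) (nat_lit 76) (nat_lit 836367437666) (nat_lit 192) (nat_lit 3) (nat_lit 191) (nat_lit 1) (nat_lit 192) (nat_lit 1) (nat_lit 216) (nat_lit 355) (nat_lit 329)))) (XT.nd (nat_lit 78) (nat_lit 76) (nat_lit 0) (XT.lf (nat_lit 152) (nat_lit 1796702588765) (nat_lit 0) (nat_lit 106505670985) (nat_lit 76) (nat_lit 106505670986) (nat_lit 191) (nat_lit 1) (nat_lit 189) (nat_lit 1) (nat_lit 190) (nat_lit 1) (nat_lit 217) (nat_lit 355) (nat_lit 328)) (XT.nd (nat_lit 78) (nat_lit 76) (nat_lit 0) (XT.lf (nat_lit 0) (nat_lit 549225728304) (nat_lit 0) (nat_lit 814986570840) (nat_lit 152) (nat_lit 549225728304) (nat_lit 189) (nat_lit 3) (nat_lit 189) (nat_lit 1) (nat_lit 191) (nat_lit 1) (nat_lit 218) (nat_lit 355) (nat_lit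 327)) (XT.lf (nat_lit 76) (nat_lit 454231714953) (nat_lit 0) (nat_lit 685328099767) (nat_lit 76) (nat_lit 685328099767) (nat_lit 189) (nat_lit 3) (nat_lit 188) (nat_lit 1) (nat_lit 189) (nat_lit 1) (nat_lit 219) (nat_lit 355) (nat_lit 326))))))) (XT.nd (nat_lit 858) (nat_lit 912) (nat_lit 0) (XT.nd (nat_lit 390) (nat_lit 456) (nat_lit 0) (XT.nd (nat_lit 156) (nat_lit 228) (nat_lit 0) (XT.nd (nat_lit 78) (nat_lit 0) (nat_lit 0) (XT.lf (nat_lit 152) (nat_lit 1621650187927) (nat_lit 0) (nat_lit 60894963060) (nat_lit 76) (nat_lit 60894963060) (nat_lit 188) (nat_lit 1) (nat_lit 186) (nat_lit 1) (nat_lit 187) (nat_lit 1) (nat_lit 220) (nat_lit 355) (nat_lit 325)) (XT.lf (nat_lit 0) (nat_lit 502713545557) (nat_lit 0) (nat_lit 654663169829) (nat_lit 152) (nat_lit 502713545557) (nat_lit 186) (nat_lit 3) (nat_lit 186) (nat_lit 1) (nat_lit 188) (nat_lit 1) (nat_lit 221) (nat_lit 355) (nat_lit 324))) (XT.nd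 (nat_lit 78) (nat_lit 152) (nat_lit 0) (XT.lf (nat_lit 76) (nat_lit 439823503165) (nat_lit 0) (nat_lit 571953611227) (nat_lit 76) (nat_lit 571953611227) (nat_lit 186) (nat_lit 3) (nat_lit 185) (nat_lit 1) (nat_lit 186) (nat_lit 1) (nat_lit 222) (nat_lit 355) (nat_lit 323)) (XT.nd (nat_lit 78) (nat_lit 0) (nat_lit 0) (XT.lf (nat_lit 152) (nat_lit 1444035628976) (nat_lit 0) (nat_lit 34816892770) (nat_lit 76) (nat_lit 34816892769) (nat_lit 185) (nat_lit 1) (nat_lit 183) (nat_lit 1) (nat_lit 184) (nat_lit 1) (nat_lit 223) (nat_lit 355) (nat_lit 322)) (XT.lf (nat_lit 0) (nat_lit 451508060264) (nat_lit 0) (nat_lit 538385751108) (nat_lit 152) (nat_lit 451508060264) (nat_lit 183) (nat_lit 3) (nat_lit 183) (nat_lit 1) (nat_lit 185) (nat_lit 1) (nat_lit 224) (nat_lit 355) (nat_lit 321))))) (XT.nd (nat_lit 234) (nat_lit 228) (nat_lit 0) (XT.nd (nat_lit 78) (nat_lit 152) (nat_lit 0) (XT.lf (nat_lit 76) (nat_lit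 408092294457) (nat_lit 0) (nat_lit 483638112582) (nat_lit 76) (nat_lit 483638112582) (nat_lit 183) (nat_lit 3) (nat_lit 182) (nat_lit 1) (nat_lit 183) (nat_lit 1) (nat_lit 225) (nat_lit 355) (nat_lit 320)) (XT.nd (nat_lit 78) (nat_lit 0) (nat_lit 0) (XT.lf (nat_lit 152) (nat_lit 1275068467022) (nat_lit 0) (nat_lit 19906671442) (nat_lit 76) (nat_lit 19906671442) (nat_lit 182) (nat_lit 1) (nat_lit 180) (nat_lit 1) (nat_lit 181) (nat_lit 1) (nat_lit 226) (nat_lit 355) (nat_lit 319)) (XT.lf (nat_lit 0) (nat_lit 400829424074) (nat_lit 0) (nat_lit 450502025784) (nat_lit 152) (nat_lit 400829424074) (nat_lit 180) (nat_lit 3) (nat_lit 180) (nat_lit 1) (nat_lit 182) (nat_lit 1) (nat_lit 227) (nat_lit 355) (nat_lit 318)))) (XT.nd (nat_lit 78) (nat_lit 152) (nat_lit 0) (XT.lf (nat_lit 76) (nat_lit 369520945191) (nat_lit 0) (nat_lit 412714511895) (nat_lit 76) (nat_lit 412714511895) (nat_lit 180) (nat_lit 3)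 (nat_lit 179) (nat_lit 1) (nat_lit 180) (nat_lit 1) (nat_lit 228) (nat_lit 355) (nat_lit 317)) (XT.nd (nat_lit 78) (nat_lit 0) (nat_lit 0) (XT.lf (nat_lit 152) (nat_lit 1119838803419) (nat_lit 0) (nat_lit 11381704006) (nat_lit 76) (nat_lit 11381704006) (nat_lit 179) (nat_lit 1) (nat_lit 177) (nat_lit 1) (nat_lit 178) (nat_lit 1) (nat_lit 229) (nat_lit 355) (nat_lit 316)) (XT.lf (nat_lit 0) (nat_lit 353243546063) (nat_lit 0) (nat_lit 381644017307) (nat_lit 152) (nat_lit 353243546063) (nat_lit 177) (nat_lit 3) (nat_lit 177) (nat_lit 1) (nat_lit 179) (nat_lit 1) (nat_lit 230) (nat_lit 355) (nat_lit 315)))))) (XT.nd (nat_lit 390) (nat_lit 456) (nat_lit 0) (XT.nd (nat_lit 156) (nat_lit 228) (nat_lit 0) (XT.nd (nat_lit 78) (nat_lit 152) (nat_lit 0) (XT.lf (nat_lit 76) (nat_lit 329703366105) (nat_lit 0) (nat_lit 354399428057) (nat_lit 76) (nat_lit 354399428057) (nat_lit 177) (nat_lit 3) (nat_lit 176)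 (nat_lit 1) (nat_lit 177) (nat_lit 1) (nat_lit 231) (nat_lit 355) (nat_lit 314)) (XT.lf (nat_lit 152) (nat_lit 980109965218) (nat_lit 0) (nat_lit 6507526205) (nat_lit 76) (nat_lit 6507526205) (nat_lit 176) (nat_lit 1) (nat_lit 174) (nat_lit 1) (nat_lit 175) (nat_lit 1) (nat_lit 232) (nat_lit 355) (nat_lit 313))) (XT.nd (nat_lit 78) (nat_lit 228) (nat_lit 0) (XT.lf (nat_lit 0) (nat_lit 309853380398) (nat_lit 0) (nat_lit 326091442008) (nat_lit 152) (nat_lit 309853380398) (nat_lit 174) (nat_lit 3) (nat_lit 174) (nat_lit 1) (nat_lit 176) (nat_lit 1) (nat_lit 233) (nat_lit 355) (nat_lit 312)) (XT.nd (nat_lit 78) (nat_lit 152) (nat_lit 0) (XT.lf (nat_lit 76) (nat_lit 291490331721) (nat_lit 0) (nat_lit 305610385295) (nat_lit 76) (nat_lit 305610385295) (nat_lit 174) (nat_lit 3) (nat_lit 173) (nat_lit 1) (nat_lit 174) (nat_lit 1) (nat_lit 234) (nat_lit 355) (nat_lit 311)) (XT.lf (nat_lit 152) (nat_lit 855892788279)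 (nat_lit 0) (nat_lit 3720699229) (nat_lit 76) (nat_lit 3720699229) (nat_lit 173) (nat_lit 1) (nat_lit 171) (nat_lit 1) (nat_lit 172) (nat_lit 1) (nat_lit 235) (nat_lit 355) (nat_lit 310))))) (XT.nd (nat_lit 234) (nat_lit 228) (nat_lit 0) (XT.nd (nat_lit 78) (nat_lit 228) (nat_lit 0) (XT.lf (nat_lit 0) (nat_lit 270972924988) (nat_lit 0) (nat_lit 280257089416) (nat_lit 152) (nat_lit 270972924988) (nat_lit 171) (nat_lit 3) (nat_lit 171) (nat_lit 1) (nat_lit 173) (nat_lit 1) (nat_lit 236) (nat_lit 355) (nat_lit 309)) (XT.nd (nat_lit 78) (nat_lit 152) (nat_lit 0) (XT.lf (nat_lit 76) (nat_lit 256209553713) (nat_lit 0) (nat_lit 264282740172) (nat_lit 76) (nat_lit 264282740172) (nat_lit 171) (nat_lit 3) (nat_lit 170) (nat_lit 1) (nat_lit 171) (nat_lit 1) (nat_lit 237) (nat_lit 355) (nat_lit 308)) (XT.lf (nat_lit 152) (nat_lit 746326205342) (nat_lit 0) (nat_lit 2127321860) (nat_lit 76) (nat_lit 2127321860)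 (nat_lit 170) (nat_lit 1) (nat_lit 168) (nat_lit 1) (nat_lit 169) (nat_lit 1) (nat_lit 238) (nat_lit 355) (nat_lit 307)))) (XT.nd (nat_lit 78) (nat_lit 228) (nat_lit 0) (XT.lf (nat_lit 0) (nat_lit 236506387667) (nat_lit 0) (nat_lit 241814638812) (nat_lit 152) (nat_lit 236506387667) (nat_lit 168) (nat_lit 3) (nat_lit 168) (nat_lit 1) (nat_lit 170) (nat_lit 1) (nat_lit 239) (nat_lit 355) (nat_lit 306)) (XT.nd (nat_lit 78) (nat_lit 152) (nat_lit 0) (XT.lf (nat_lit 76) (nat_lit 224357348664) (nat_lit 0) (nat_lit 228973219224) (nat_lit 76) (nat_lit 228973219224) (nat_lit 168) (nat_lit 3) (nat_lit 167) (nat_lit 1) (nat_lit 168) (nat_lit 1) (nat_lit 240) (nat_lit 355) (nat_lit 305)) (XT.lf (nat_lit 152) (nat_lit 650163756926) (nat_lit 0) (nat_lit 1216303177) (nat_lit 76) (nat_lit 1216303177) (nat_lit 167) (nat_lit 1) (nat_lit 165) (nat_lit 1) (nat_lit 166) (nat_lit 1) (nat_lit 241) (nat_lit 355) (nat_lit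 304))))))))
noncomputable def ec179 : XT := (XT.nd (nat_lit 1716) (nat_lit 1824) (nat_lit 0) (XT.nd (nat_lit 858) (nat_lit 836) (nat_lit 0) (XT.nd (nat_lit 390) (nat_lit 456) (nat_lit 0) (XT.nd (nat_lit 156) (nat_lit 228) (nat_lit 0) (XT.nd (nat_lit 78) (nat_lit 76) (nat_lit 0) (XT.lf (nat_lit 0) (nat_lit 206159588959) (nat_lit 0) (nat_lit 209194598779) (nat_lit 152) (nat_lit 206159588959) (nat_lit 165) (nat_lit 3) (nat_lit 165) (nat_lit 1) (nat_lit 167) (nat_lit 1) (nat_lit 242) (nat_lit 355) (nat_lit 303)) (XT.lf (nat_lit 76) (nat_lit 195988959468) (nat_lit 0) (nat_lit 198628098443) (nat_lit 76) (nat_lit 198628098443) (nat_lit 165) (nat_lit 3) (nat_lit 164) (nat_lit 1) (nat_lit 165) (nat_lit 1) (nat_lit 243) (nat_lit 355) (nat_lit 302))) (XT.nd (nat_lit 78) (nat_lit 76) (nat_lit 0) (XT.lf (nat_lit 152) (nat_lit 566037000581) (nat_lit 0) (nat_lit 695425289) (nat_lit 76) (nat_lit 695425289) (nat_lit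 164) (nat_lit 1) (nat_lit 162) (nat_lit 1) (nat_lit 163) (nat_lit 1) (nat_lit 244) (nat_lit 355) (nat_lit 301)) (XT.nd (nat_lit 78) (nat_lit 76) (nat_lit 0) (XT.lf (nat_lit 0) (nat_lit 179556148190) (nat_lit 0) (nat_lit 181291424905) (nat_lit 152) (nat_lit 179556148190) (nat_lit 162) (nat_lit 3) (nat_lit 162) (nat_lit 1) (nat_lit 164) (nat_lit 1) (nat_lit 245) (nat_lit 355) (nat_lit 300)) (XT.lf (nat_lit 76) (nat_lit 170937251674) (nat_lit 0) (nat_lit 172446187948) (nat_lit 76) (nat_lit 172446187948) (nat_lit 162) (nat_lit 3) (nat_lit 161) (nat_lit 1) (nat_lit 162) (nat_lit 1) (nat_lit 246) (nat_lit 355) (nat_lit 299))))) (XT.nd (nat_lit 234) (nat_lit 228) (nat_lit 0) (XT.nd (nat_lit 78) (nat_lit 76) (nat_lit 0) (XT.lf (nat_lit 152) (nat_lit 492593285592) (nat_lit 0) (nat_lit 397611666) (nat_lit 76) (nat_lit 397611666) (nat_lit 161) (nat_lit 1) (nat_lit 159) (nat_lit 1) (nat_lit 160) (nat_lit 1)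 (nat_lit 247) (nat_lit 355) (nat_lit 298)) (XT.nd (nat_lit 78) (nat_lit 76) (nat_lit 0) (XT.lf (nat_lit 0) (nat_lit 156299840139) (nat_lit 0) (nat_lit 157291990233) (nat_lit 152) (nat_lit 156299840139) (nat_lit 159) (nat_lit 3) (nat_lit 159) (nat_lit 1) (nat_lit 161) (nat_lit 1) (nat_lit 248) (nat_lit 355) (nat_lit 297)) (XT.lf (nat_lit 76) (nat_lit 148933865826) (nat_lit 0) (nat_lit 149796605038) (nat_lit 76) (nat_lit 149796605038) (nat_lit 159) (nat_lit 3) (nat_lit 158) (nat_lit 1) (nat_lit 159) (nat_lit 1) (nat_lit 249) (nat_lit 355) (nat_lit 296)))) (XT.nd (nat_lit 78) (nat_lit 76) (nat_lit 0) (XT.lf (nat_lit 152) (nat_lit 428563369259) (nat_lit 0) (nat_lit 227335760) (nat_lit 76) (nat_lit 227335760) (nat_lit 158) (nat_lit 1) (nat_lit 156) (nat_lit 1) (nat_lit 157) (nat_lit 1) (nat_lit 250) (nat_lit 355) (nat_lit 295)) (XT.nd (nat_lit 78) (nat_lit 76) (nat_lit 0) (XT.lf (nat_lit 0) (nat_lit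 136006705795) (nat_lit 0) (nat_lit 136573970831) (nat_lit 152) (nat_lit 136006705795) (nat_lit 156) (nat_lit 3) (nat_lit 156) (nat_lit 1) (nat_lit 158) (nat_lit 1) (nat_lit 251) (nat_lit 355) (nat_lit 294)) (XT.lf (nat_lit 76) (nat_lit 129675105851) (nat_lit 0) (nat_lit 130168379796) (nat_lit 76) (nat_lit 130168379796) (nat_lit 156) (nat_lit 3) (nat_lit 155) (nat_lit 1) (nat_lit 156) (nat_lit 1) (nat_lit 252) (nat_lit 355) (nat_lit 293)))))) (XT.nd (nat_lit 390) (nat_lit 456) (nat_lit 0) (XT.nd (nat_lit 156) (nat_lit 228) (nat_lit 0) (XT.nd (nat_lit 78) (nat_lit 0) (nat_lit 0) (XT.lf (nat_lit 152) (nat_lit 372790375112) (nat_lit 0) (nat_lit 129979959) (nat_lit 76) (nat_lit 129979959) (nat_lit 155) (nat_lit 1) (nat_lit 153) (nat_lit 1) (nat_lit 154) (nat_lit 1) (nat_lit 253) (nat_lit 355) (nat_lit 292)) (XT.lf (nat_lit 0) (nat_lit 118320331903) (nat_lit 0) (nat_lit 118644667529) (nat_lit 152) (nat_lit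 118320331903) (nat_lit 153) (nat_lit 3) (nat_lit 153) (nat_lit 1) (nat_lit 155) (nat_lit 1) (nat_lit 254) (nat_lit 355) (nat_lit 291))) (XT.nd (nat_lit 78) (nat_lit 152) (nat_lit 0) (XT.lf (nat_lit 76) (nat_lit 112856671066) (nat_lit 0) (nat_lit 113138702044) (nat_lit 76) (nat_lit 113138702044) (nat_lit 153) (nat_lit 3) (nat_lit 152) (nat_lit 1) (nat_lit 153) (nat_lit 1) (nat_lit 255) (nat_lit 355) (nat_lit 290)) (XT.nd (nat_lit 78) (nat_lit 0) (nat_lit 0) (XT.lf (nat_lit 152) (nat_lit 324237913674) (nat_lit 0) (nat_lit 74316463) (nat_lit 76) (nat_lit 74316463) (nat_lit 152) (nat_lit 1) (nat_lit 150) (nat_lit 1) (nat_lit 151) (nat_lit 1) (nat_lit 256) (nat_lit 355) (nat_lit 289)) (XT.lf (nat_lit 0) (nat_lit 102917908953) (nat_lit 0) (nat_lit 103103348900) (nat_lit 152) (nat_lit 102917908953) (nat_lit 150) (nat_lit 3) (nat_lit 150) (nat_lit 1) (nat_lit 152) (nat_lit 1) (nat_lit 257) (nat_lit 355)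 (nat_lit 288))))) (XT.nd (nat_lit 234) (nat_lit 228) (nat_lit 0) (XT.nd (nat_lit 78) (nat_lit 152) (nat_lit 0) (XT.lf (nat_lit 76) (nat_lit 98190957901) (nat_lit 0) (nat_lit 98352210029) (nat_lit 76) (nat_lit 98352210029) (nat_lit 150) (nat_lit 3) (nat_lit 149) (nat_lit 1) (nat_lit 150) (nat_lit 1) (nat_lit 258) (nat_lit 355) (nat_lit 287)) (XT.nd (nat_lit 78) (nat_lit 0) (nat_lit 0) (XT.lf (nat_lit 152) (nat_lit 281987389730) (nat_lit 0) (nat_lit 42490679) (nat_lit 76) (nat_lit 42490679) (nat_lit 149) (nat_lit 1) (nat_lit 147) (nat_lit 1) (nat_lit 148) (nat_lit 1) (nat_lit 259) (nat_lit 355) (nat_lit 286)) (XT.lf (nat_lit 0) (nat_lit 89511366011) (nat_lit 0) (nat_lit 89617391902) (nat_lit 152) (nat_lit 89511366011) (nat_lit 147) (nat_lit 3) (nat_lit 147) (nat_lit 1) (nat_lit 149) (nat_lit 1) (nat_lit 260) (nat_lit 355) (nat_lit 285)))) (XT.nd (nat_lit 78) (nat_lit 152) (nat_lit 0) (XT.lf (nat_lit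 76) (nat_lit 85414729244) (nat_lit 0) (nat_lit 85506925671) (nat_lit 76) (nat_lit 85506925671) (nat_lit 147) (nat_lit 3) (nat_lit 146) (nat_lit 1) (nat_lit 147) (nat_lit 1) (nat_lit 261) (nat_lit 355) (nat_lit 284)) (XT.nd (nat_lit 78) (nat_lit 0) (nat_lit 0) (XT.lf (nat_lit 152) (nat_lit 245230083766) (nat_lit 0) (nat_lit 24294183) (nat_lit 76) (nat_lit 24294183) (nat_lit 146) (nat_lit 1) (nat_lit 144) (nat_lit 1) (nat_lit 145) (nat_lit 1) (nat_lit 262) (nat_lit 355) (nat_lit 283)) (XT.lf (nat_lit 0) (nat_lit 77845994501) (nat_lit 0) (nat_lit 77906615148) (nat_lit 152) (nat_lit 77845994501) (nat_lit 144) (nat_lit 3) (nat_lit 144) (nat_lit 1) (nat_lit 146) (nat_lit 1) (nat_lit 263) (nat_lit 355) (nat_lit 282))))))) (XT.nd (nat_lit 858) (nat_lit 912) (nat_lit 0) (XT.nd (nat_lit 390) (nat_lit 456) (nat_lit 0) (XT.nd (nat_lit 156) (nat_lit 228) (nat_lit 0) (XT.nd (nat_lit 78) (nat_lit 152) (nat_lit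 0) (XT.lf (nat_lit 76) (nat_lit 74291566385) (nat_lit 0) (nat_lit 74344279992) (nat_lit 76) (nat_lit 74344279992) (nat_lit 144) (nat_lit 3) (nat_lit 143) (nat_lit 1) (nat_lit 144) (nat_lit 1) (nat_lit 264) (nat_lit 355) (nat_lit 281)) (XT.lf (nat_lit 152) (nat_lit 213257077589) (nat_lit 0) (nat_lit 13890278) (nat_lit 76) (nat_lit 13890278) (nat_lit 143) (nat_lit 1) (nat_lit 141) (nat_lit 1) (nat_lit 142) (nat_lit 1) (nat_lit 265) (nat_lit 355) (nat_lit 280))) (XT.nd (nat_lit 78) (nat_lit 228) (nat_lit 0) (XT.lf (nat_lit 0) (nat_lit 67697900418) (nat_lit 0) (nat_lit 67732560470) (nat_lit 152) (nat_lit 67697900418) (nat_lit 141) (nat_lit 3) (nat_lit 141) (nat_lit 1) (nat_lit 143) (nat_lit 1) (nat_lit 266) (nat_lit 355) (nat_lit 279)) (XT.nd (nat_lit 78) (nat_lit 152) (nat_lit 0) (XT.lf (nat_lit 76) (nat_lit 64611590043) (nat_lit 0) (nat_lit 64641729219) (nat_lit 76) (nat_lit 64641729219) (nat_lit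 141) (nat_lit 3) (nat_lit 140) (nat_lit 1) (nat_lit 141) (nat_lit 1) (nat_lit 267) (nat_lit 355) (nat_lit 278)) (XT.lf (nat_lit 152) (nat_lit 185448670848) (nat_lit 0) (nat_lit 7941811) (nat_lit 76) (nat_lit 7941811) (nat_lit 140) (nat_lit 1) (nat_lit 138) (nat_lit 1) (nat_lit 139) (nat_lit 1) (nat_lit 268) (nat_lit 355) (nat_lit 277))))) (XT.nd (nat_lit 234) (nat_lit 228) (nat_lit 0) (XT.nd (nat_lit 78) (nat_lit 228) (nat_lit 0) (XT.lf (nat_lit 0) (nat_lit 58871016376) (nat_lit 0) (nat_lit 58890833373) (nat_lit 152) (nat_lit 58871016376) (nat_lit 138) (nat_lit 3) (nat_lit 138) (nat_lit 1) (nat_lit 140) (nat_lit 1) (nat_lit 269) (nat_lit 355) (nat_lit 276)) (XT.nd (nat_lit 78) (nat_lit 152) (nat_lit 0) (XT.lf (nat_lit 76) (nat_lit 56189839216) (nat_lit 0) (nat_lit 56207071388) (nat_lit 76) (nat_lit 56207071388) (nat_lit 138) (nat_lit 3) (nat_lit 137) (nat_lit 1) (nat_lit 138) (nat_lit 1) (nat_lit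 270) (nat_lit 355) (nat_lit 275)) (XT.lf (nat_lit 152) (nat_lit 161264135614) (nat_lit 0) (nat_lit 4540756) (nat_lit 76) (nat_lit 4540756) (nat_lit 137) (nat_lit 1) (nat_lit 135) (nat_lit 1) (nat_lit 136) (nat_lit 1) (nat_lit 271) (nat_lit 355) (nat_lit 274)))) (XT.nd (nat_lit 78) (nat_lit 228) (nat_lit 0) (XT.lf (nat_lit 0) (nat_lit 51194061721) (nat_lit 0) (nat_lit 51205392154) (nat_lit 152) (nat_lit 51194061721) (nat_lit 135) (nat_lit 3) (nat_lit 135) (nat_lit 1) (nat_lit 137) (nat_lit 1) (nat_lit 272) (nat_lit 355) (nat_lit 273)) (XT.nd (nat_lit 78) (nat_lit 152) (nat_lit 0) (XT.lf (nat_lit 76) (nat_lit 48864073294) (nat_lit 0) (nat_lit 48873925844) (nat_lit 76) (nat_lit 48873925844) (nat_lit 135) (nat_lit 3) (nat_lit 134) (nat_lit 1) (nat_lit 135) (nat_lit 1) (nat_lit 273) (nat_lit 355) (nat_lit 272)) (XT.lf (nat_lit 152) (nat_lit 140232211340) (nat_lit 0) (nat_lit 2596192) (nat_lit 76) (nat_lit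 2596192) (nat_lit 134) (nat_lit 1) (nat_lit 132) (nat_lit 1) (nat_lit 133) (nat_lit 1) (nat_lit 274) (nat_lit 355) (nat_lit 271)))))) (XT.nd (nat_lit 468) (nat_lit 456) (nat_lit 0) (XT.nd (nat_lit 234) (nat_lit 228) (nat_lit 0) (XT.nd (nat_lit 78) (nat_lit 228) (nat_lit 0) (XT.lf (nat_lit 0) (nat_lit 44517646628) (nat_lit 0) (nat_lit 44524124840) (nat_lit 152) (nat_lit 44517646628) (nat_lit 132) (nat_lit 3) (nat_lit 132) (nat_lit 1) (nat_lit 134) (nat_lit 1) (nat_lit 275) (nat_lit 355) (nat_lit 270)) (XT.nd (nat_lit 78) (nat_lit 152) (nat_lit 0) (XT.lf (nat_lit 76) (nat_lit 42492410197) (nat_lit 0) (nat_lit 42498043425) (nat_lit 76) (nat_lit 42498043425) (nat_lit 132) (nat_lit 3) (nat_lit 131) (nat_lit 1) (nat_lit 132) (nat_lit 1) (nat_lit 276) (nat_lit 355) (nat_lit 269)) (XT.lf (nat_lit 152) (nat_lit 121942498844) (nat_lit 0) (nat_lit 1484381) (nat_lit 76) (nat_lit 1484381) (nat_lit 131) (nat_lit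 1) (nat_lit 129) (nat_lit 1) (nat_lit 130) (nat_lit 1) (nat_lit 277) (nat_lit 355) (nat_lit 268)))) (XT.nd (nat_lit 78) (nat_lit 228) (nat_lit 0) (XT.lf (nat_lit 0) (nat_lit 38711609541) (nat_lit 0) (nat_lit 38715313479) (nat_lit 152) (nat_lit 38711609541) (nat_lit 129) (nat_lit 3) (nat_lit 129) (nat_lit 1) (nat_lit 131) (nat_lit 1) (nat_lit 278) (nat_lit 355) (nat_lit 267)) (XT.nd (nat_lit 78) (nat_lit 152) (nat_lit 0) (XT.lf (nat_lit 76) (nat_lit 36951014920) (nat_lit 0) (nat_lit 36954235736) (nat_lit 76) (nat_lit 36954235736) (nat_lit 129) (nat_lit 3) (nat_lit 128) (nat_lit 1) (nat_lit 129) (nat_lit 1) (nat_lit 279) (nat_lit 355) (nat_lit 266)) (XT.lf (nat_lit 152) (nat_lit 106037781989) (nat_lit 0) (nat_lit 848699) (nat_lit 76) (nat_lit 848699) (nat_lit 128) (nat_lit 1) (nat_lit 126) (nat_lit 1) (nat_lit 127) (nat_lit 1) (nat_lit 280) (nat_lit 355) (nat_lit 265))))) (XT.nd (nat_lit 234) (nat_lit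 228) (nat_lit 0) (XT.nd (nat_lit 78) (nat_lit 228) (nat_lit 0) (XT.lf (nat_lit 0) (nat_lit 33662619349) (nat_lit 0) (nat_lit 33664737088) (nat_lit 152) (nat_lit 33662619349) (nat_lit 126) (nat_lit 3) (nat_lit 126) (nat_lit 1) (nat_lit 128) (nat_lit 1) (nat_lit 281) (nat_lit 355) (nat_lit 264)) (XT.nd (nat_lit 78) (nat_lit 152) (nat_lit 0) (XT.lf (nat_lit 76) (nat_lit 32131942254) (nat_lit 0) (nat_lit 32133783766) (nat_lit 76) (nat_lit 32133783766) (nat_lit 126) (nat_lit 3) (nat_lit 125) (nat_lit 1) (nat_lit 126) (nat_lit 1) (nat_lit 282) (nat_lit 355) (nat_lit 263)) (XT.lf (nat_lit 152) (nat_lit 92207239485) (nat_lit 0) (nat_lit 485246) (nat_lit 76) (nat_lit 485246) (nat_lit 125) (nat_lit 1) (nat_lit 123) (nat_lit 1) (nat_lit 124) (nat_lit 1) (nat_lit 283) (nat_lit 355) (nat_lit 262)))) (XT.nd (nat_lit 78) (nat_lit 228) (nat_lit 0) (XT.lf (nat_lit 0) (nat_lit 29272043130) (nat_lit 0) (nat_lit 29273253954)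 (nat_lit 152) (nat_lit 29272043130) (nat_lit 123) (nat_lit 3) (nat_lit 123) (nat_lit 1) (nat_lit 125) (nat_lit 1) (nat_lit 284) (nat_lit 355) (nat_lit 261)) (XT.nd (nat_lit 78) (nat_lit 152) (nat_lit 0) (XT.lf (nat_lit 76) (nat_lit 27941176658) (nat_lit 0) (nat_lit 27942229548) (nat_lit 76) (nat_lit 27942229548) (nat_lit 123) (nat_lit 3) (nat_lit 122) (nat_lit 1) (nat_lit 123) (nat_lit 1) (nat_lit 285) (nat_lit 355) (nat_lit 260)) (XT.lf (nat_lit 152) (nat_lit 80180478423) (nat_lit 0) (nat_lit 277441) (nat_lit 76) (nat_lit 277441) (nat_lit 122) (nat_lit 1) (nat_lit 120) (nat_lit 1) (nat_lit 121) (nat_lit 1) (nat_lit 286) (nat_lit 355) (nat_lit 259))))))))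
noncomputable def ec180 : XT := (XT.nd (nat_lit 1716) (nat_lit 1672) (nat_lit 0) (XT.nd (nat_lit 858) (nat_lit 836) (nat_lit 0) (XT.nd (nat_lit 390) (nat_lit 456) (nat_lit 0) (XT.nd (nat_lit 156) (nat_lit 228) (nat_lit 0) (XT.nd (nat_lit 78) (nat_lit 76) (nat_lit 0) (XT.lf (nat_lit 0) (nat_lit 25454065024) (nat_lit 0) (nat_lit 25454757316) (nat_lit 152) (nat_lit 25454065024) (nat_lit 120) (nat_lit 3) (nat_lit 120) (nat_lit 1) (nat_lit 122) (nat_lit 1) (nat_lit 287) (nat_lit 355) (nat_lit 258)) (XT.lf (nat_lit 76) (nat_lit 24296879646) (nat_lit 0) (nat_lit 24297481639) (nat_lit 76) (nat_lit 24297481639) (nat_lit 120) (nat_lit 3) (nat_lit 119) (nat_lit 1) (nat_lit 120) (nat_lit 1) (nat_lit 288) (nat_lit 355) (nat_lit 257))) (XT.nd (nat_lit 78) (nat_lit 76) (nat_lit 0) (XT.lf (nat_lit 152) (nat_lit 69722309624) (nat_lit 0) (nat_lit 158628) (nat_lit 76) (nat_lit 158628) (nat_lit 119) (nat_lit 1) (nat_lit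 117) (nat_lit 1) (nat_lit 118) (nat_lit 1) (nat_lit 289) (nat_lit 355) (nat_lit 256)) (XT.nd (nat_lit 78) (nat_lit 76) (nat_lit 0) (XT.lf (nat_lit 0) (nat_lit 22134035037) (nat_lit 0) (nat_lit 22134430858) (nat_lit 152) (nat_lit 22134035037) (nat_lit 117) (nat_lit 3) (nat_lit 117) (nat_lit 1) (nat_lit 119) (nat_lit 1) (nat_lit 290) (nat_lit 355) (nat_lit 255)) (XT.lf (nat_lit 76) (nat_lit 21127838235) (nat_lit 0) (nat_lit 21128182427) (nat_lit 76) (nat_lit 21128182427) (nat_lit 117) (nat_lit 3) (nat_lit 116) (nat_lit 1) (nat_lit 117) (nat_lit 1) (nat_lit 291) (nat_lit 355) (nat_lit 254))))) (XT.nd (nat_lit 234) (nat_lit 228) (nat_lit 0) (XT.nd (nat_lit 78) (nat_lit 76) (nat_lit 0) (XT.lf (nat_lit 152) (nat_lit 60628183646) (nat_lit 0) (nat_lit 90696) (nat_lit 76) (nat_lit 90696) (nat_lit 116) (nat_lit 1) (nat_lit 114) (nat_lit 1) (nat_lit 115) (nat_lit 1) (nat_lit 292) (nat_lit 355) (nat_lit 253))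 (XT.nd (nat_lit 78) (nat_lit 76) (nat_lit 0) (XT.lf (nat_lit 0) (nat_lit 19247024411) (nat_lit 0) (nat_lit 19247250723) (nat_lit 152) (nat_lit 19247024411) (nat_lit 114) (nat_lit 3) (nat_lit 114) (nat_lit 1) (nat_lit 116) (nat_lit 1) (nat_lit 293) (nat_lit 355) (nat_lit 252)) (XT.lf (nat_lit 76) (nat_lit 18372100031) (nat_lit 0) (nat_lit 18372296824) (nat_lit 76) (nat_lit 18372296824) (nat_lit 114) (nat_lit 3) (nat_lit 113) (nat_lit 1) (nat_lit 114) (nat_lit 1) (nat_lit 294) (nat_lit 355) (nat_lit 251)))) (XT.nd (nat_lit 78) (nat_lit 76) (nat_lit 0) (XT.lf (nat_lit 152) (nat_lit 52720210190) (nat_lit 0) (nat_lit 51855) (nat_lit 76) (nat_lit 51855) (nat_lit 113) (nat_lit 1) (nat_lit 111) (nat_lit 1) (nat_lit 112) (nat_lit 1) (nat_lit 295) (nat_lit 355) (nat_lit 250)) (XT.nd (nat_lit 78) (nat_lit 76) (nat_lit 0) (XT.lf (nat_lit 0) (nat_lit 16736564363) (nat_lit 0) (nat_lit 16736693757) (nat_lit 152)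 (nat_lit 16736564363) (nat_lit 111) (nat_lit 3) (nat_lit 111) (nat_lit 1) (nat_lit 113) (nat_lit 1) (nat_lit 296) (nat_lit 355) (nat_lit 249)) (XT.lf (nat_lit 76) (nat_lit 15975777341) (nat_lit 0) (nat_lit 15975889858) (nat_lit 76) (nat_lit 15975889858) (nat_lit 111) (nat_lit 3) (nat_lit 110) (nat_lit 1) (nat_lit 111) (nat_lit 1) (nat_lit 297) (nat_lit 355) (nat_lit 248)))))) (XT.nd (nat_lit 390) (nat_lit 456) (nat_lit 0) (XT.nd (nat_lit 156) (nat_lit 228) (nat_lit 0) (XT.nd (nat_lit 78) (nat_lit 0) (nat_lit 0) (XT.lf (nat_lit 152) (nat_lit 45843689907) (nat_lit 0) (nat_lit 29648) (nat_lit 76) (nat_lit 29648) (nat_lit 110) (nat_lit 1) (nat_lit 108) (nat_lit 1) (nat_lit 109) (nat_lit 1) (nat_lit 298) (nat_lit 355) (nat_lit 247)) (XT.lf (nat_lit 0) (nat_lit 14553546462) (nat_lit 0) (nat_lit 14553620443) (nat_lit 152) (nat_lit 14553546462) (nat_lit 108) (nat_lit 3) (nat_lit 108) (nat_lit 1) (nat_lit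 110) (nat_lit 1) (nat_lit 299) (nat_lit 355) (nat_lit 246))) (XT.nd (nat_lit 78) (nat_lit 152) (nat_lit 0) (XT.lf (nat_lit 76) (nat_lit 13892002128) (nat_lit 0) (nat_lit 13892066460) (nat_lit 76) (nat_lit 13892066460) (nat_lit 108) (nat_lit 3) (nat_lit 107) (nat_lit 1) (nat_lit 108) (nat_lit 1) (nat_lit 300) (nat_lit 355) (nat_lit 245)) (XT.nd (nat_lit 78) (nat_lit 0) (nat_lit 0) (XT.lf (nat_lit 152) (nat_lit 39864094687) (nat_lit 0) (nat_lit 16951) (nat_lit 76) (nat_lit 16951) (nat_lit 107) (nat_lit 1) (nat_lit 105) (nat_lit 1) (nat_lit 106) (nat_lit 1) (nat_lit 301) (nat_lit 355) (nat_lit 244)) (XT.lf (nat_lit 0) (nat_lit 12655264787) (nat_lit 0) (nat_lit 12655307086) (nat_lit 152) (nat_lit 12655264787) (nat_lit 105) (nat_lit 3) (nat_lit 105) (nat_lit 1) (nat_lit 107) (nat_lit 1) (nat_lit 302) (nat_lit 355) (nat_lit 243))))) (XT.nd (nat_lit 234) (nat_lit 228) (nat_lit 0) (XT.nd (nat_lit 78) (nat_lit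 152) (nat_lit 0) (XT.lf (nat_lit 76) (nat_lit 12080014333) (nat_lit 0) (nat_lit 12080051115) (nat_lit 76) (nat_lit 12080051115) (nat_lit 105) (nat_lit 3) (nat_lit 104) (nat_lit 1) (nat_lit 105) (nat_lit 1) (nat_lit 303) (nat_lit 355) (nat_lit 242)) (XT.nd (nat_lit 78) (nat_lit 0) (nat_lit 0) (XT.lf (nat_lit 152) (nat_lit 34664439601) (nat_lit 0) (nat_lit 9692) (nat_lit 76) (nat_lit 9692) (nat_lit 104) (nat_lit 1) (nat_lit 102) (nat_lit 1) (nat_lit 103) (nat_lit 1) (nat_lit 304) (nat_lit 355) (nat_lit 241)) (XT.lf (nat_lit 0) (nat_lit 11004582075) (nat_lit 0) (nat_lit 11004606260) (nat_lit 152) (nat_lit 11004582075) (nat_lit 102) (nat_lit 3) (nat_lit 102) (nat_lit 1) (nat_lit 104) (nat_lit 1) (nat_lit 305) (nat_lit 355) (nat_lit 240)))) (XT.nd (nat_lit 78) (nat_lit 152) (nat_lit 0) (XT.lf (nat_lit 76) (nat_lit 10504367426) (nat_lit 0) (nat_lit 10504388456) (nat_lit 76) (nat_lit 10504388456) (nat_lit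 102) (nat_lit 3) (nat_lit 101) (nat_lit 1) (nat_lit 102) (nat_lit 1) (nat_lit 306) (nat_lit 355) (nat_lit 239)) (XT.nd (nat_lit 78) (nat_lit 0) (nat_lit 0) (XT.lf (nat_lit 152) (nat_lit 30142996354) (nat_lit 0) (nat_lit 5541) (nat_lit 76) (nat_lit 5541) (nat_lit 101) (nat_lit 1) (nat_lit 99) (nat_lit 1) (nat_lit 100) (nat_lit 1) (nat_lit 307) (nat_lit 355) (nat_lit 238)) (XT.lf (nat_lit 0) (nat_lit 9569204091) (nat_lit 0) (nat_lit 9569217918) (nat_lit 152) (nat_lit 9569204091) (nat_lit 99) (nat_lit 3) (nat_lit 99) (nat_lit 1) (nat_lit 101) (nat_lit 1) (nat_lit 308) (nat_lit 355) (nat_lit 237))))))) (XT.nd (nat_lit 858) (nat_lit 760) (nat_lit 0) (XT.nd (nat_lit 390) (nat_lit 456) (nat_lit 0) (XT.nd (nat_lit 156) (nat_lit 228) (nat_lit 0) (XT.nd (nat_lit 78) (nat_lit 152) (nat_lit 0) (XT.lf (nat_lit 76) (nat_lit 9134236625) (nat_lit 0) (nat_lit 9134248649) (nat_lit 76) (nat_lit 9134248649) (nat_lit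 99) (nat_lit 3) (nat_lit 98) (nat_lit 1) (nat_lit 99) (nat_lit 1) (nat_lit 309) (nat_lit 355) (nat_lit 236)) (XT.lf (nat_lit 152) (nat_lit 26211304263) (nat_lit 0) (nat_lit 3168) (nat_lit 76) (nat_lit 3168) (nat_lit 98) (nat_lit 1) (nat_lit 96) (nat_lit 1) (nat_lit 97) (nat_lit 1) (nat_lit 310) (nat_lit 355) (nat_lit 235))) (XT.nd (nat_lit 78) (nat_lit 228) (nat_lit 0) (XT.lf (nat_lit 0) (nat_lit 8321048343) (nat_lit 0) (nat_lit 8321056249) (nat_lit 152) (nat_lit 8321048343) (nat_lit 96) (nat_lit 3) (nat_lit 96) (nat_lit 1) (nat_lit 98) (nat_lit 1) (nat_lit 311) (nat_lit 355) (nat_lit 234)) (XT.nd (nat_lit 78) (nat_lit 152) (nat_lit 0) (XT.lf (nat_lit 76) (nat_lit 7942816789) (nat_lit 0) (nat_lit 7942823664) (nat_lit 76) (nat_lit 7942823664) (nat_lit 96) (nat_lit 3) (nat_lit 95) (nat_lit 1) (nat_lit 96) (nat_lit 1) (nat_lit 312) (nat_lit 355) (nat_lit 233)) (XT.lf (nat_lit 152) (nat_lit 22792440253)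 (nat_lit 0) (nat_lit 1811) (nat_lit 76) (nat_lit 1811) (nat_lit 95) (nat_lit 1) (nat_lit 93) (nat_lit 1) (nat_lit 94) (nat_lit 1) (nat_lit 313) (nat_lit 355) (nat_lit 232))))) (XT.nd (nat_lit 234) (nat_lit 228) (nat_lit 0) (XT.nd (nat_lit 78) (nat_lit 228) (nat_lit 0) (XT.lf (nat_lit 0) (nat_lit 7235694958) (nat_lit 0) (nat_lit 7235699479) (nat_lit 152) (nat_lit 7235694958) (nat_lit 93) (nat_lit 3) (nat_lit 93) (nat_lit 1) (nat_lit 95) (nat_lit 1) (nat_lit 314) (nat_lit 355) (nat_lit 231)) (XT.nd (nat_lit 78) (nat_lit 152) (nat_lit 0) (XT.lf (nat_lit 76) (nat_lit 6906798542) (nat_lit 0) (nat_lit 6906802473) (nat_lit 76) (nat_lit 6906802473) (nat_lit 93) (nat_lit 3) (nat_lit 92) (nat_lit 1) (nat_lit 93) (nat_lit 1) (nat_lit 315) (nat_lit 355) (nat_lit 230)) (XT.lf (nat_lit 152) (nat_lit 19819514272) (nat_lit 0) (nat_lit 1035) (nat_lit 76) (nat_lit 1035) (nat_lit 92) (nat_lit 1) (nat_lit 90) (nat_lit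 1) (nat_lit 91) (nat_lit 1) (nat_lit 316) (nat_lit 355) (nat_lit 229)))) (XT.nd (nat_lit 78) (nat_lit 228) (nat_lit 0) (XT.lf (nat_lit 0) (nat_lit 6291909087) (nat_lit 0) (nat_lit 6291911671) (nat_lit 152) (nat_lit 6291909087) (nat_lit 90) (nat_lit 3) (nat_lit 90) (nat_lit 1) (nat_lit 92) (nat_lit 1) (nat_lit 317) (nat_lit 355) (nat_lit 228)) (XT.nd (nat_lit 78) (nat_lit 152) (nat_lit 0) (XT.lf (nat_lit 76) (nat_lit 6005912538) (nat_lit 0) (nat_lit 6005914786) (nat_lit 76) (nat_lit 6005914786) (nat_lit 90) (nat_lit 3) (nat_lit 89) (nat_lit 1) (nat_lit 90) (nat_lit 1) (nat_lit 318) (nat_lit 355) (nat_lit 227)) (XT.lf (nat_lit 152) (nat_lit 17234360813) (nat_lit 0) (nat_lit 592) (nat_lit 76) (nat_lit 592) (nat_lit 89) (nat_lit 1) (nat_lit 87) (nat_lit 1) (nat_lit 88) (nat_lit 1) (nat_lit 319) (nat_lit 355) (nat_lit 226)))))) (XT.nd (nat_lit 390) (nat_lit 456) (nat_lit 0) (XT.nd (nat_lit 156) (nat_lit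 228) (nat_lit 0) (XT.nd (nat_lit 78) (nat_lit 76) (nat_lit 0) (XT.lf (nat_lit 0) (nat_lit 5471225537) (nat_lit 0) (nat_lit 5471227015) (nat_lit 152) (nat_lit 5471225537) (nat_lit 87) (nat_lit 3) (nat_lit 87) (nat_lit 1) (nat_lit 89) (nat_lit 1) (nat_lit 320) (nat_lit 355) (nat_lit 225)) (XT.lf (nat_lit 76) (nat_lit 5222533078) (nat_lit 0) (nat_lit 5222534363) (nat_lit 76) (nat_lit 5222534363) (nat_lit 87) (nat_lit 3) (nat_lit 86) (nat_lit 1) (nat_lit 87) (nat_lit 1) (nat_lit 321) (nat_lit 355) (nat_lit 224))) (XT.nd (nat_lit 78) (nat_lit 76) (nat_lit 0) (XT.lf (nat_lit 152) (nat_lit 14986401037) (nat_lit 0) (nat_lit 338) (nat_lit 76) (nat_lit 338) (nat_lit 86) (nat_lit 1) (nat_lit 84) (nat_lit 1) (nat_lit 85) (nat_lit 1) (nat_lit 322) (nat_lit 355) (nat_lit 223)) (XT.nd (nat_lit 78) (nat_lit 76) (nat_lit 0) (XT.lf (nat_lit 0) (nat_lit 4757587563) (nat_lit 0) (nat_lit 4757588408) (nat_lit 152) (nat_lit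 4757587563) (nat_lit 84) (nat_lit 3) (nat_lit 84) (nat_lit 1) (nat_lit 86) (nat_lit 1) (nat_lit 323) (nat_lit 355) (nat_lit 222)) (XT.lf (nat_lit 76) (nat_lit 4541333360) (nat_lit 0) (nat_lit 4541334095) (nat_lit 76) (nat_lit 4541334095) (nat_lit 84) (nat_lit 3) (nat_lit 83) (nat_lit 1) (nat_lit 84) (nat_lit 1) (nat_lit 324) (nat_lit 355) (nat_lit 221))))) (XT.nd (nat_lit 234) (nat_lit 228) (nat_lit 0) (XT.nd (nat_lit 78) (nat_lit 76) (nat_lit 0) (XT.lf (nat_lit 152) (nat_lit 13031653264) (nat_lit 0) (nat_lit 193) (nat_lit 76) (nat_lit 193) (nat_lit 83) (nat_lit 1) (nat_lit 81) (nat_lit 1) (nat_lit 82) (nat_lit 1) (nat_lit 325) (nat_lit 355) (nat_lit 220)) (XT.nd (nat_lit 78) (nat_lit 76) (nat_lit 0) (XT.lf (nat_lit 0) (nat_lit 4137032743) (nat_lit 0) (nat_lit 4137033227) (nat_lit 152) (nat_lit 4137032743) (nat_lit 81) (nat_lit 3) (nat_lit 81) (nat_lit 1) (nat_lit 83) (nat_lit 1) (nat_lit 326)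 (nat_lit 355) (nat_lit 219)) (XT.lf (nat_lit 76) (nat_lit 3948985673) (nat_lit 0) (nat_lit 3948986093) (nat_lit 76) (nat_lit 3948986093) (nat_lit 81) (nat_lit 3) (nat_lit 80) (nat_lit 1) (nat_lit 81) (nat_lit 1) (nat_lit 327) (nat_lit 355) (nat_lit 218)))) (XT.nd (nat_lit 78) (nat_lit 76) (nat_lit 0) (XT.lf (nat_lit 152) (nat_lit 11331872511) (nat_lit 0) (nat_lit 110) (nat_lit 76) (nat_lit 110) (nat_lit 80) (nat_lit 1) (nat_lit 78) (nat_lit 1) (nat_lit 79) (nat_lit 1) (nat_lit 328) (nat_lit 355) (nat_lit 217)) (XT.nd (nat_lit 78) (nat_lit 76) (nat_lit 0) (XT.lf (nat_lit 0) (nat_lit 3597419823) (nat_lit 0) (nat_lit 3597420099) (nat_lit 152) (nat_lit 3597419823) (nat_lit 78) (nat_lit 3) (nat_lit 78) (nat_lit 1) (nat_lit 80) (nat_lit 1) (nat_lit 329) (nat_lit 355) (nat_lit 216)) (XT.lf (nat_lit 76) (nat_lit 3433900667) (nat_lit 0) (nat_lit 3433900907) (nat_lit 76) (nat_lit 3433900907) (nat_lit 78)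 (nat_lit 3) (nat_lit 77) (nat_lit 1) (nat_lit 78) (nat_lit 1) (nat_lit 330) (nat_lit 355) (nat_lit 215))))))))
noncomputable def ec181 : XT := (XT.nd (nat_lit 1716) (nat_lit 1368) (nat_lit 0) (XT.nd (nat_lit 858) (nat_lit 912) (nat_lit 0) (XT.nd (nat_lit 390) (nat_lit 456) (nat_lit 0) (XT.nd (nat_lit 156) (nat_lit 228) (nat_lit 0) (XT.nd (nat_lit 78) (nat_lit 0) (nat_lit 0) (XT.lf (nat_lit 152) (nat_lit 9853802245) (nat_lit 0) (nat_lit 63) (nat_lit 76) (nat_lit 63) (nat_lit 77) (nat_lit 1) (nat_lit 75) (nat_lit 1) (nat_lit 76) (nat_lit 1) (nat_lit 331) (nat_lit 355) (nat_lit 214)) (XT.lf (nat_lit 0) (nat_lit 3128191176) (nat_lit 0) (nat_lit 3128191334) (nat_lit 152) (nat_lit 3128191176) (nat_lit 75) (nat_lit 3) (nat_lit 75) (nat_lit 1) (nat_lit 77) (nat_lit 1) (nat_lit 332) (nat_lit 355) (nat_lit 213))) (XT.nd (nat_lit 78) (nat_lit 152) (nat_lit 0) (XT.lf (nat_lit 76) (nat_lit 2986000626) (nat_lit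 0) (nat_lit 2986000764) (nat_lit 76) (nat_lit 2986000764) (nat_lit 75) (nat_lit 3) (nat_lit 74) (nat_lit 1) (nat_lit 75) (nat_lit 1) (nat_lit 333) (nat_lit 355) (nat_lit 212)) (XT.nd (nat_lit 78) (nat_lit 0) (nat_lit 0) (XT.lf (nat_lit 152) (nat_lit 8568523727) (nat_lit 0) (nat_lit 36) (nat_lit 76) (nat_lit 36) (nat_lit 74) (nat_lit 1) (nat_lit 72) (nat_lit 1) (nat_lit 73) (nat_lit 1) (nat_lit 334) (nat_lit 355) (nat_lit 211)) (XT.lf (nat_lit 0) (nat_lit 2720166255) (nat_lit 0) (nat_lit 2720166345) (nat_lit 152) (nat_lit 2720166255) (nat_lit 72) (nat_lit 3) (nat_lit 72) (nat_lit 1) (nat_lit 74) (nat_lit 1) (nat_lit 335) (nat_lit 355) (nat_lit 210))))) (XT.nd (nat_lit 234) (nat_lit 228) (nat_lit 0) (XT.nd (nat_lit 78) (nat_lit 152) (nat_lit 0) (XT.lf (nat_lit 76) (nat_lit 2596522310) (nat_lit 0) (nat_lit 2596522389) (nat_lit 76) (nat_lit 2596522389) (nat_lit 72) (nat_lit 3) (nat_lit 71) (nat_lit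 1) (nat_lit 72) (nat_lit 1) (nat_lit 336) (nat_lit 355) (nat_lit 209)) (XT.nd (nat_lit 78) (nat_lit 0) (nat_lit 0) (XT.lf (nat_lit 152) (nat_lit 7450890217) (nat_lit 0) (nat_lit 20) (nat_lit 76) (nat_lit 20) (nat_lit 71) (nat_lit 1) (nat_lit 69) (nat_lit 1) (nat_lit 70) (nat_lit 1) (nat_lit 337) (nat_lit 355) (nat_lit 208)) (XT.lf (nat_lit 0) (nat_lit 2365361969) (nat_lit 0) (nat_lit 2365362021) (nat_lit 152) (nat_lit 2365361969) (nat_lit 69) (nat_lit 3) (nat_lit 69) (nat_lit 1) (nat_lit 71) (nat_lit 1) (nat_lit 338) (nat_lit 355) (nat_lit 207)))) (XT.nd (nat_lit 78) (nat_lit 152) (nat_lit 0) (XT.lf (nat_lit 76) (nat_lit 2257845503) (nat_lit 0) (nat_lit 2257845547) (nat_lit 76) (nat_lit 2257845547) (nat_lit 69) (nat_lit 3) (nat_lit 68) (nat_lit 1) (nat_lit 69) (nat_lit 1) (nat_lit 339) (nat_lit 355) (nat_lit 206)) (XT.nd (nat_lit 78) (nat_lit 0) (nat_lit 0) (XT.lf (nat_lit 152) (nat_lit 6479034983)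 (nat_lit 0) (nat_lit 11) (nat_lit 76) (nat_lit 11) (nat_lit 68) (nat_lit 1) (nat_lit 66) (nat_lit 1) (nat_lit 67) (nat_lit 1) (nat_lit 340) (nat_lit 355) (nat_lit 205)) (XT.lf (nat_lit 0) (nat_lit 2056836500) (nat_lit 0) (nat_lit 2056836529) (nat_lit 152) (nat_lit 2056836500) (nat_lit 66) (nat_lit 3) (nat_lit 66) (nat_lit 1) (nat_lit 68) (nat_lit 1) (nat_lit 341) (nat_lit 355) (nat_lit 204)))))) (XT.nd (nat_lit 390) (nat_lit 456) (nat_lit 0) (XT.nd (nat_lit 156) (nat_lit 228) (nat_lit 0) (XT.nd (nat_lit 78) (nat_lit 152) (nat_lit 0) (XT.lf (nat_lit 76) (nat_lit 1963343924) (nat_lit 0) (nat_lit 1963343950) (nat_lit 76) (nat_lit 1963343950) (nat_lit 66) (nat_lit 3) (nat_lit 65) (nat_lit 1) (nat_lit 66) (nat_lit 1) (nat_lit 342) (nat_lit 355) (nat_lit 203)) (XT.lf (nat_lit 152) (nat_lit 5633943470) (nat_lit 0) (nat_lit 6) (nat_lit 76) (nat_lit 6) (nat_lit 65) (nat_lit 1) (nat_lit 63) (nat_lit 1) (nat_lit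 64) (nat_lit 1) (nat_lit 343) (nat_lit 355) (nat_lit 202))) (XT.nd (nat_lit 78) (nat_lit 228) (nat_lit 0) (XT.lf (nat_lit 0) (nat_lit 1788553481) (nat_lit 0) (nat_lit 1788553498) (nat_lit 152) (nat_lit 1788553481) (nat_lit 63) (nat_lit 3) (nat_lit 63) (nat_lit 1) (nat_lit 65) (nat_lit 1) (nat_lit 344) (nat_lit 355) (nat_lit 201)) (XT.nd (nat_lit 78) (nat_lit 152) (nat_lit 0) (XT.lf (nat_lit 76) (nat_lit 1707255591) (nat_lit 0) (nat_lit 1707255606) (nat_lit 76) (nat_lit 1707255606) (nat_lit 63) (nat_lit 3) (nat_lit 62) (nat_lit 1) (nat_lit 63) (nat_lit 1) (nat_lit 345) (nat_lit 355) (nat_lit 200)) (XT.lf (nat_lit 152) (nat_lit 4899081282) (nat_lit 0) (nat_lit 3) (nat_lit 76) (nat_lit 3) (nat_lit 62) (nat_lit 1) (nat_lit 60) (nat_lit 1) (nat_lit 61) (nat_lit 1) (nat_lit 346) (nat_lit 355) (nat_lit 199))))) (XT.nd (nat_lit 234) (nat_lit 228) (nat_lit 0) (XT.nd (nat_lit 78) (nat_lit 228) (nat_lit 0)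 (XT.lf (nat_lit 0) (nat_lit 1555263898) (nat_lit 0) (nat_lit 1555263908) (nat_lit 152) (nat_lit 1555263898) (nat_lit 60) (nat_lit 3) (nat_lit 60) (nat_lit 1) (nat_lit 62) (nat_lit 1) (nat_lit 347) (nat_lit 355) (nat_lit 198)) (XT.nd (nat_lit 78) (nat_lit 152) (nat_lit 0) (XT.lf (nat_lit 76) (nat_lit 1484570082) (nat_lit 0) (nat_lit 1484570090) (nat_lit 76) (nat_lit 1484570090) (nat_lit 60) (nat_lit 3) (nat_lit 59) (nat_lit 1) (nat_lit 60) (nat_lit 1) (nat_lit 348) (nat_lit 355) (nat_lit 197)) (XT.lf (nat_lit 152) (nat_lit 4260070682) (nat_lit 0) (nat_lit 2) (nat_lit 76) (nat_lit 2) (nat_lit 59) (nat_lit 1) (nat_lit 57) (nat_lit 1) (nat_lit 58) (nat_lit 1) (nat_lit 349) (nat_lit 355) (nat_lit 196)))) (XT.nd (nat_lit 78) (nat_lit 228) (nat_lit 0) (XT.lf (nat_lit 0) (nat_lit 1352403390) (nat_lit 0) (nat_lit 1352403396) (nat_lit 152) (nat_lit 1352403390) (nat_lit 57) (nat_lit 3) (nat_lit 57) (nat_lit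 1) (nat_lit 59) (nat_lit 1) (nat_lit 350) (nat_lit 355) (nat_lit 195)) (XT.nd (nat_lit 78) (nat_lit 152) (nat_lit 0) (XT.lf (nat_lit 76) (nat_lit 1290930507) (nat_lit 0) (nat_lit 1290930512) (nat_lit 76) (nat_lit 1290930512) (nat_lit 57) (nat_lit 3) (nat_lit 56) (nat_lit 1) (nat_lit 57) (nat_lit 1) (nat_lit 351) (nat_lit 355) (nat_lit 194)) (XT.lf (nat_lit 152) (nat_lit 3704409290) (nat_lit 0) (nat_lit 1) (nat_lit 76) (nat_lit 1) (nat_lit 56) (nat_lit 1) (nat_lit 54) (nat_lit 1) (nat_lit 55) (nat_lit 1) (nat_lit 352) (nat_lit 355) (nat_lit 193))))))) (XT.nd (nat_lit 858) (nat_lit 608) (nat_lit 0) (XT.nd (nat_lit 390) (nat_lit 456) (nat_lit 0) (XT.nd (nat_lit 156) (nat_lit 228) (nat_lit 0) (XT.nd (nat_lit 78) (nat_lit 76) (nat_lit 0) (XT.lf (nat_lit 0) (nat_lit 1176002949) (nat_lit 0) (nat_lit 1176002952) (nat_lit 152) (nat_lit 1176002949) (nat_lit 54) (nat_lit 3) (nat_lit 54) (nat_lit 1) (nat_lit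 56) (nat_lit 1) (nat_lit 353) (nat_lit 355) (nat_lit 192)) (XT.lf (nat_lit 76) (nat_lit 1122548268) (nat_lit 0) (nat_lit 1122548271) (nat_lit 76) (nat_lit 1122548271) (nat_lit 54) (nat_lit 3) (nat_lit 53) (nat_lit 1) (nat_lit 54) (nat_lit 1) (nat_lit 354) (nat_lit 355) (nat_lit 191))) (XT.nd (nat_lit 78) (nat_lit 228) (nat_lit 0) (XT.lf (nat_lit 0) (nat_lit 3221225470) (nat_lit 0) (nat_lit 0) (nat_lit 0) (nat_lit 0) (nat_lit 53) (nat_lit 1) (nat_lit 1) (nat_lit 0) (nat_lit 1) (nat_lit 0) (nat_lit 355) (nat_lit 355) (nat_lit 190)) (XT.nd (nat_lit 78) (nat_lit 76) (nat_lit 0) (XT.lf (nat_lit 0) (nat_lit 1022611260) (nat_lit 0) (nat_lit 1022611262) (nat_lit 152) (nat_lit 1022611260) (nat_lit 51) (nat_lit 3) (nat_lit 51) (nat_lit 1) (nat_lit 53) (nat_lit 1) (nat_lit 356) (nat_lit 355) (nat_lit 189)) (XT.lf (nat_lit 76) (nat_lit 976128929) (nat_lit 0) (nat_lit 976128931) (nat_lit 76) (nat_lit 976128931)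 (nat_lit 51) (nat_lit 3) (nat_lit 50) (nat_lit 1) (nat_lit 51) (nat_lit 1) (nat_lit 357) (nat_lit 355) (nat_lit 188))))) (XT.nd (nat_lit 234) (nat_lit 228) (nat_lit 0) (XT.nd (nat_lit 78) (nat_lit 228) (nat_lit 0) (XT.lf (nat_lit 0) (nat_lit 2801065627) (nat_lit 0) (nat_lit 0) (nat_lit 0) (nat_lit 0) (nat_lit 50) (nat_lit 1) (nat_lit 1) (nat_lit 0) (nat_lit 1) (nat_lit 0) (nat_lit 358) (nat_lit 355) (nat_lit 187)) (XT.nd (nat_lit 78) (nat_lit 76) (nat_lit 0) (XT.lf (nat_lit 0) (nat_lit 889227183) (nat_lit 0) (nat_lit 889227184) (nat_lit 152) (nat_lit 889227183) (nat_lit 48) (nat_lit 3) (nat_lit 48) (nat_lit 1) (nat_lit 50) (nat_lit 1) (nat_lit 359) (nat_lit 355) (nat_lit 186)) (XT.lf (nat_lit 76) (nat_lit 848807765) (nat_lit 0) (nat_lit 848807766) (nat_lit 76) (nat_lit 848807766) (nat_lit 48) (nat_lit 3) (nat_lit 47) (nat_lit 1) (nat_lit 48) (nat_lit 1) (nat_lit 360) (nat_lit 355) (nat_lit 185))))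 (XT.nd (nat_lit 78) (nat_lit 228) (nat_lit 0) (XT.lf (nat_lit 0) (nat_lit 2435709241) (nat_lit 0) (nat_lit 0) (nat_lit 0) (nat_lit 0) (nat_lit 47) (nat_lit 1) (nat_lit 1) (nat_lit 0) (nat_lit 1) (nat_lit 0) (nat_lit 361) (nat_lit 355) (nat_lit 184)) (XT.nd (nat_lit 78) (nat_lit 76) (nat_lit 0) (XT.lf (nat_lit 0) (nat_lit 773241028) (nat_lit 0) (nat_lit 773241029) (nat_lit 152) (nat_lit 773241028) (nat_lit 45) (nat_lit 3) (nat_lit 45) (nat_lit 1) (nat_lit 47) (nat_lit 1) (nat_lit 362) (nat_lit 355) (nat_lit 183)) (XT.lf (nat_lit 76) (nat_lit 738093709) (nat_lit 0) (nat_lit 738093709) (nat_lit 76) (nat_lit 738093709) (nat_lit 45) (nat_lit 3) (nat_lit 44) (nat_lit 1) (nat_lit 45) (nat_lit 1) (nat_lit 363) (nat_lit 355) (nat_lit 182)))))) (XT.nd (nat_lit 468) (nat_lit 152) (nat_lit 0) (XT.nd (nat_lit 234) (nat_lit 228) (nat_lit 0) (XT.nd (nat_lit 78) (nat_lit 228) (nat_lit 0) (XT.lf (nat_lit 0) (nat_lit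 2118008035) (nat_lit 0) (nat_lit 0) (nat_lit 0) (nat_lit 0) (nat_lit 44) (nat_lit 1) (nat_lit 1) (nat_lit 0) (nat_lit 1) (nat_lit 0) (nat_lit 364) (nat_lit 355) (nat_lit 181)) (XT.nd (nat_lit 78) (nat_lit 76) (nat_lit 0) (XT.lf (nat_lit 0) (nat_lit 672383503) (nat_lit 0) (nat_lit 672383503) (nat_lit 152) (nat_lit 672383503) (nat_lit 42) (nat_lit 3) (nat_lit 42) (nat_lit 1) (nat_lit 44) (nat_lit 1) (nat_lit 365) (nat_lit 355) (nat_lit 180)) (XT.lf (nat_lit 76) (nat_lit 641820616) (nat_lit 0) (nat_lit 641820617) (nat_lit 76) (nat_lit 641820617) (nat_lit 42) (nat_lit 3) (nat_lit 41) (nat_lit 1) (nat_lit 42) (nat_lit 1) (nat_lit 366) (nat_lit 355) (nat_lit 179)))) (XT.nd (nat_lit 78) (nat_lit 228) (nat_lit 0) (XT.lf (nat_lit 0) (nat_lit 1841746118) (nat_lit 0) (nat_lit 0) (nat_lit 0) (nat_lit 0) (nat_lit 41) (nat_lit 1) (nat_lit 1) (nat_lit 0) (nat_lit 1) (nat_lit 0) (nat_lit 367) (nat_lit 355) (nat_lit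 178)) (XT.nd (nat_lit 78) (nat_lit 76) (nat_lit 0) (XT.lf (nat_lit 0) (nat_lit 584681307) (nat_lit 0) (nat_lit 584681307) (nat_lit 152) (nat_lit 584681307) (nat_lit 39) (nat_lit 3) (nat_lit 39) (nat_lit 1) (nat_lit 41) (nat_lit 1) (nat_lit 368) (nat_lit 355) (nat_lit 177)) (XT.lf (nat_lit 76) (nat_lit 558104884) (nat_lit 0) (nat_lit 558104884) (nat_lit 76) (nat_lit 558104884) (nat_lit 39) (nat_lit 3) (nat_lit 38) (nat_lit 1) (nat_lit 39) (nat_lit 1) (nat_lit 369) (nat_lit 355) (nat_lit 176))))) (XT.nd (nat_lit 32760) (nat_lit 0) (nat_lit 13604) (XT.nd (nat_lit 78) (nat_lit 152) (nat_lit 0) (XT.lf (nat_lit 0) (nat_lit 1601518363) (nat_lit 0) (nat_lit 0) (nat_lit 0) (nat_lit 0) (nat_lit 38) (nat_lit 1) (nat_lit 1) (nat_lit 0) (nat_lit 1) (nat_lit 0) (nat_lit 370) (nat_lit 355) (nat_lit 175)) (XT.nd (nat_lit 32604) (nat_lit 0) (nat_lit 13604) (XT.lf (nat_lit 0) (nat_lit 508418528) (nat_lit 0) (nat_lit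 508418528) (nat_lit 152) (nat_lit 508418528) (nat_lit 36) (nat_lit 3) (nat_lit 36) (nat_lit 1) (nat_lit 38) (nat_lit 1) (nat_lit 371) (nat_lit 355) (nat_lit 174)) (XT.lf (nat_lit 380) (nat_lit 1758747519365) (nat_lit 0) (nat_lit 1557765963265) (nat_lit 380) (nat_lit 1758747519365) (nat_lit 220) (nat_lit 1) (nat_lit 215) (nat_lit 0) (nat_lit 220) (nat_lit 0) (nat_lit 188) (nat_lit 356) (nat_lit 356)))) (XT.nd (nat_lit 78) (nat_lit 0) (nat_lit 76) (XT.lf (nat_lit 380) (nat_lit 6505378832971) (nat_lit 76) (nat_lit 1486958419480) (nat_lit 0) (nat_lit 1486958419480) (nat_lit 220) (nat_lit 1) (nat_lit 216) (nat_lit 1) (nat_lit 215) (nat_lit 0) (nat_lit 189) (nat_lit 356) (nat_lit 355)) (XT.nd (nat_lit 78) (nat_lit 0) (nat_lit 0) (XT.lf (nat_lit 380) (nat_lit 2867533685799) (nat_lit 0) (nat_lit 3120147149271) (nat_lit 304) (nat_lit 2867533685798) (nat_lit 221) (nat_lit 1) (nat_lit 216) (nat_lit 1) (nat_lit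 220) (nat_lit 1) (nat_lit 190) (nat_lit 356) (nat_lit 354)) (XT.lf (nat_lit 380) (nat_lit 4923406447807) (nat_lit 76) (nat_lit 1685314957563) (nat_lit 0) (nat_lit 1685314957563) (nat_lit 221) (nat_lit 1) (nat_lit 217) (nat_lit 1) (nat_lit 216) (nat_lit 1) (nat_lit 191) (nat_lit 356) (nat_lit 353))))))))
noncomputable def ec182 : XT := (XT.nd (nat_lit 1716) (nat_lit 1672) (nat_lit 0) (XT.nd (nat_lit 858) (nat_lit 760) (nat_lit 0) (XT.nd (nat_lit 390) (nat_lit 456) (nat_lit 0) (XT.nd (nat_lit 156) (nat_lit 380) (nat_lit 0) (XT.nd (nat_lit 78) (nat_lit 304) (nat_lit 0) (XT.lf (nat_lit 76) (nat_lit 1991583207039) (nat_lit 0) (nat_lit 3792308777683) (nat_lit 304) (nat_lit 1991583207039) (nat_lit 218) (nat_lit 1) (nat_lit 217) (nat_lit 1) (nat_lit 221) (nat_lit 1) (nat_lit 192) (nat_lit 356) (nat_lit 352)) (XT.lf (nat_lit 380) (nat_lit 2993188713035) (nat_lit 0) (nat_lit 2154439838524) (nat_lit 304)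 (nat_lit 2154439838524) (nat_lit 218) (nat_lit 1) (nat_lit 213) (nat_lit 1) (nat_lit 217) (nat_lit 1) (nat_lit 193) (nat_lit 356) (nat_lit 351))) (XT.nd (nat_lit 78) (nat_lit 380) (nat_lit 0) (XT.lf (nat_lit 76) (nat_lit 994902871178) (nat_lit 0) (nat_lit 4882013325068) (nat_lit 380) (nat_lit 994902871178) (nat_lit 214) (nat_lit 1) (nat_lit 213) (nat_lit 1) (nat_lit 218) (nat_lit 1) (nat_lit 194) (nat_lit 356) (nat_lit 350)) (XT.nd (nat_lit 78) (nat_lit 228) (nat_lit 0) (XT.lf (nat_lit 228) (nat_lit 895389114737) (nat_lit 0) (nat_lit 2786677681932) (nat_lit 152) (nat_lit 2786677681932) (nat_lit 214) (nat_lit 1) (nat_lit 211) (nat_lit 1) (nat_lit 213) (nat_lit 1) (nat_lit 195) (nat_lit 356) (nat_lit 349)) (XT.lf (nat_lit 228) (nat_lit 6017003584648) (nat_lit 0) (nat_lit 47209477095) (nat_lit 152) (nat_lit 47209477095) (nat_lit 211) (nat_lit 1) (nat_lit 208) (nat_lit 1) (nat_lit 210) (nat_lit 1)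 (nat_lit 196) (nat_lit 356) (nat_lit 348))))) (XT.nd (nat_lit 234) (nat_lit 304) (nat_lit 0) (XT.nd (nat_lit 78) (nat_lit 152) (nat_lit 0) (XT.lf (nat_lit 76) (nat_lit 2311771236539) (nat_lit 0) (nat_lit 1134956622398) (nat_lit 228) (nat_lit 2311771236539) (nat_lit 209) (nat_lit 1) (nat_lit 208) (nat_lit 1) (nat_lit 211) (nat_lit 1) (nat_lit 197) (nat_lit 356) (nat_lit 347)) (XT.nd (nat_lit 78) (nat_lit 0) (nat_lit 0) (XT.lf (nat_lit 228) (nat_lit 3360248221287) (nat_lit 0) (nat_lit 1042315965803) (nat_lit 152) (nat_lit 1042315965803) (nat_lit 209) (nat_lit 1) (nat_lit 206) (nat_lit 1) (nat_lit 208) (nat_lit 1) (nat_lit 198) (nat_lit 356) (nat_lit 346)) (XT.lf (nat_lit 76) (nat_lit 1050859830269) (nat_lit 0) (nat_lit 3049577261406) (nat_lit 228) (nat_lit 1050859830269) (nat_lit 207) (nat_lit 1) (nat_lit 206) (nat_lit 1) (nat_lit 209) (nat_lit 1) (nat_lit 199) (nat_lit 356) (nat_lit 345)))) (XT.nd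 (nat_lit 78) (nat_lit 228) (nat_lit 0) (XT.lf (nat_lit 152) (nat_lit 868729850772) (nat_lit 0) (nat_lit 2004598403766) (nat_lit 76) (nat_lit 2004598403766) (nat_lit 207) (nat_lit 1) (nat_lit 205) (nat_lit 1) (nat_lit 206) (nat_lit 1) (nat_lit 200) (nat_lit 356) (nat_lit 344)) (XT.nd (nat_lit 78) (nat_lit 0) (nat_lit 0) (XT.lf (nat_lit 228) (nat_lit 4398021164665) (nat_lit 0) (nat_lit 116837933544) (nat_lit 152) (nat_lit 116837933544) (nat_lit 205) (nat_lit 1) (nat_lit 202) (nat_lit 1) (nat_lit 204) (nat_lit 1) (nat_lit 201) (nat_lit 356) (nat_lit 343)) (XT.lf (nat_lit 76) (nat_lit 1539212817344) (nat_lit 0) (nat_lit 1307149744000) (nat_lit 228) (nat_lit 1539212817344) (nat_lit 203) (nat_lit 1) (nat_lit 202) (nat_lit 1) (nat_lit 205) (nat_lit 1) (nat_lit 202) (nat_lit 356) (nat_lit 342)))))) (XT.nd (nat_lit 390) (nat_lit 456) (nat_lit 0) (XT.nd (nat_lit 156) (nat_lit 228) (nat_lit 0) (XT.nd (nat_lit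 78) (nat_lit 0) (nat_lit 0) (XT.lf (nat_lit 152) (nat_lit 1871535363342) (nat_lit 0) (nat_lit 1146135643463) (nat_lit 76) (nat_lit 1146135643463) (nat_lit 203) (nat_lit 1) (nat_lit 201) (nat_lit 1) (nat_lit 202) (nat_lit 1) (nat_lit 203) (nat_lit 356) (nat_lit 341)) (XT.lf (nat_lit 0) (nat_lit 366472415291) (nat_lit 0) (nat_lit 3226395003897) (nat_lit 152) (nat_lit 366472415291) (nat_lit 201) (nat_lit 3) (nat_lit 201) (nat_lit 1) (nat_lit 203) (nat_lit 1) (nat_lit 204) (nat_lit 356) (nat_lit 340))) (XT.nd (nat_lit 78) (nat_lit 76) (nat_lit 0) (XT.lf (nat_lit 76) (nat_lit 1696032792431) (nat_lit 0) (nat_lit 367840193047) (nat_lit 152) (nat_lit 1696032792431) (nat_lit 200) (nat_lit 1) (nat_lit 199) (nat_lit 1) (nat_lit 201) (nat_lit 1) (nat_lit 205) (nat_lit 356) (nat_lit 339)) (XT.nd (nat_lit 78) (nat_lit 0) (nat_lit 0) (XT.lf (nat_lit 152) (nat_lit 2265566202250) (nat_lit 0) (nat_lit 655306774040)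 (nat_lit 76) (nat_lit 655306774040) (nat_lit 200) (nat_lit 1) (nat_lit 198) (nat_lit 1) (nat_lit 199) (nat_lit 1) (nat_lit 206) (nat_lit 356) (nat_lit 338)) (XT.lf (nat_lit 0) (nat_lit 589058708424) (nat_lit 0) (nat_lit 2224228730604) (nat_lit 152) (nat_lit 589058708424) (nat_lit 198) (nat_lit 3) (nat_lit 198) (nat_lit 1) (nat_lit 200) (nat_lit 1) (nat_lit 207) (nat_lit 356) (nat_lit 337))))) (XT.nd (nat_lit 234) (nat_lit 228) (nat_lit 0) (XT.nd (nat_lit 78) (nat_lit 152) (nat_lit 0) (XT.lf (nat_lit 76) (nat_lit 131408471432) (nat_lit 0) (nat_lit 1553295447241) (nat_lit 76) (nat_lit 1553295447241) (nat_lit 198) (nat_lit 3) (nat_lit 197) (nat_lit 1) (nat_lit 198) (nat_lit 1) (nat_lit 208) (nat_lit 356) (nat_lit 336)) (XT.nd (nat_lit 78) (nat_lit 0) (nat_lit 0) (XT.lf (nat_lit 152) (nat_lit 2334918554475) (nat_lit 0) (nat_lit 374673774916) (nat_lit 76) (nat_lit 374673774916) (nat_lit 197) (nat_lit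 1) (nat_lit 195) (nat_lit 1) (nat_lit 196) (nat_lit 1) (nat_lit 209) (nat_lit 356) (nat_lit 335)) (XT.lf (nat_lit 0) (nat_lit 666819633222) (nat_lit 0) (nat_lit 1601733400500) (nat_lit 152) (nat_lit 666819633222) (nat_lit 195) (nat_lit 3) (nat_lit 195) (nat_lit 1) (nat_lit 197) (nat_lit 1) (nat_lit 210) (nat_lit 356) (nat_lit 334)))) (XT.nd (nat_lit 78) (nat_lit 152) (nat_lit 0) (XT.lf (nat_lit 76) (nat_lit 390155561019) (nat_lit 0) (nat_lit 1203124054304) (nat_lit 76) (nat_lit 1203124054304) (nat_lit 195) (nat_lit 3) (nat_lit 194) (nat_lit 1) (nat_lit 195) (nat_lit 1) (nat_lit 211) (nat_lit 356) (nat_lit 333)) (XT.nd (nat_lit 78) (nat_lit 0) (nat_lit 0) (XT.lf (nat_lit 152) (nat_lit 2238974414092) (nat_lit 0) (nat_lit 214220946847) (nat_lit 76) (nat_lit 214220946847) (nat_lit 194) (nat_lit 1) (nat_lit 192) (nat_lit 1) (nat_lit 193) (nat_lit 1) (nat_lit 212) (nat_lit 356) (nat_lit 332)) (XT.lf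 (nat_lit 0) (nat_lit 668233163290) (nat_lit 0) (nat_lit 1202773144081) (nat_lit 152) (nat_lit 668233163290) (nat_lit 192) (nat_lit 3) (nat_lit 192) (nat_lit 1) (nat_lit 194) (nat_lit 1) (nat_lit 213) (nat_lit 356) (nat_lit 331))))))) (XT.nd (nat_lit 858) (nat_lit 760) (nat_lit 0) (XT.nd (nat_lit 390) (nat_lit 456) (nat_lit 0) (XT.nd (nat_lit 156) (nat_lit 228) (nat_lit 0) (XT.nd (nat_lit 78) (nat_lit 152) (nat_lit 0) (XT.lf (nat_lit 76) (nat_lit 497005178716) (nat_lit 0) (nat_lit 961822553316) (nat_lit 76) (nat_lit 961822553316) (nat_lit 192) (nat_lit 3) (nat_lit 191) (nat_lit 1) (nat_lit 192) (nat_lit 1) (nat_lit 214) (nat_lit 356) (nat_lit 330)) (XT.lf (nat_lit 152) (nat_lit 2066207977080) (nat_lit 0) (nat_lit 122481521633) (nat_lit 76) (nat_lit 122481521633) (nat_lit 191) (nat_lit 1) (nat_lit 189) (nat_lit 1) (nat_lit 190) (nat_lit 1) (nat_lit 215) (nat_lit 356) (nat_lit 329))) (XT.nd (nat_lit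 78) (nat_lit 228) (nat_lit 0) (XT.lf (nat_lit 0) (nat_lit 631609587550) (nat_lit 0) (nat_lit 937234556466) (nat_lit 152) (nat_lit 631609587550) (nat_lit 189) (nat_lit 3) (nat_lit 189) (nat_lit 1) (nat_lit 191) (nat_lit 1) (nat_lit 216) (nat_lit 356) (nat_lit 328)) (XT.nd (nat_lit 78) (nat_lit 152) (nat_lit 0) (XT.lf (nat_lit 76) (nat_lit 522366472196) (nat_lit 0) (nat_lit 788127314732) (nat_lit 76) (nat_lit 788127314732) (nat_lit 189) (nat_lit 3) (nat_lit 188) (nat_lit 1) (nat_lit 189) (nat_lit 1) (nat_lit 217) (nat_lit 356) (nat_lit 327)) (XT.lf (nat_lit 152) (nat_lit 1864897716116) (nat_lit 0) (nat_lit 70029207519) (nat_lit 76) (nat_lit 70029207519) (nat_lit 188) (nat_lit 1) (nat_lit 186) (nat_lit 1) (nat_lit 187) (nat_lit 1) (nat_lit 218) (nat_lit 356) (nat_lit 326))))) (XT.nd (nat_lit 234) (nat_lit 228) (nat_lit 0) (XT.nd (nat_lit 78) (nat_lit 228) (nat_lit 0) (XT.lf (nat_lit 0) (nat_lit 578120577391)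 (nat_lit 0) (nat_lit 752862645303) (nat_lit 152) (nat_lit 578120577391) (nat_lit 186) (nat_lit 3) (nat_lit 186) (nat_lit 1) (nat_lit 188) (nat_lit 1) (nat_lit 219) (nat_lit 356) (nat_lit 325)) (XT.nd (nat_lit 78) (nat_lit 152) (nat_lit 0) (XT.lf (nat_lit 76) (nat_lit 505797028640) (nat_lit 0) (nat_lit 657746652911) (nat_lit 76) (nat_lit 657746652911) (nat_lit 186) (nat_lit 3) (nat_lit 185) (nat_lit 1) (nat_lit 186) (nat_lit 1) (nat_lit 220) (nat_lit 356) (nat_lit 324)) (XT.lf (nat_lit 152) (nat_lit 1660640973323) (nat_lit 0) (nat_lit 40039426685) (nat_lit 76) (nat_lit 40039426685) (nat_lit 185) (nat_lit 1) (nat_lit 183) (nat_lit 1) (nat_lit 184) (nat_lit 1) (nat_lit 221) (nat_lit 356) (nat_lit 323)))) (XT.nd (nat_lit 78) (nat_lit 228) (nat_lit 0) (XT.lf (nat_lit 0) (nat_lit 519234269304) (nat_lit 0) (nat_lit 619143613774) (nat_lit 152) (nat_lit 519234269304) (nat_lit 183) (nat_lit 3) (nat_lit 183)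 (nat_lit 1) (nat_lit 185) (nat_lit 1) (nat_lit 222) (nat_lit 356) (nat_lit 322)) (XT.nd (nat_lit 78) (nat_lit 152) (nat_lit 0) (XT.lf (nat_lit 76) (nat_lit 469306138625) (nat_lit 0) (nat_lit 556183829469) (nat_lit 76) (nat_lit 556183829469) (nat_lit 183) (nat_lit 3) (nat_lit 182) (nat_lit 1) (nat_lit 183) (nat_lit 1) (nat_lit 223) (nat_lit 356) (nat_lit 321)) (XT.lf (nat_lit 152) (nat_lit 1466328737075) (nat_lit 0) (nat_lit 22892672159) (nat_lit 76) (nat_lit 22892672159) (nat_lit 182) (nat_lit 1) (nat_lit 180) (nat_lit 1) (nat_lit 181) (nat_lit 1) (nat_lit 224) (nat_lit 356) (nat_lit 320)))))) (XT.nd (nat_lit 390) (nat_lit 456) (nat_lit 0) (XT.nd (nat_lit 156) (nat_lit 228) (nat_lit 0) (XT.nd (nat_lit 78) (nat_lit 76) (nat_lit 0) (XT.lf (nat_lit 0) (nat_lit 460953837686) (nat_lit 0) (nat_lit 518077329652) (nat_lit 152) (nat_lit 460953837686) (nat_lit 180) (nat_lit 3) (nat_lit 180) (nat_lit 1) (nat_lit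 182) (nat_lit 1) (nat_lit 225) (nat_lit 356) (nat_lit 319)) (XT.lf (nat_lit 76) (nat_lit 424949086970) (nat_lit 0) (nat_lit 474621688679) (nat_lit 76) (nat_lit 474621688679) (nat_lit 180) (nat_lit 3) (nat_lit 179) (nat_lit 1) (nat_lit 180) (nat_lit 1) (nat_lit 226) (nat_lit 356) (nat_lit 318))) (XT.nd (nat_lit 78) (nat_lit 76) (nat_lit 0) (XT.lf (nat_lit 152) (nat_lit 1287814623931) (nat_lit 0) (nat_lit 13088959607) (nat_lit 76) (nat_lit 13088959607) (nat_lit 179) (nat_lit 1) (nat_lit 177) (nat_lit 1) (nat_lit 178) (nat_lit 1) (nat_lit 227) (nat_lit 356) (nat_lit 317)) (XT.nd (nat_lit 78) (nat_lit 76) (nat_lit 0) (XT.lf (nat_lit 0) (nat_lit 406230077972) (nat_lit 0) (nat_lit 438890619903) (nat_lit 152) (nat_lit 406230077972) (nat_lit 177) (nat_lit 3) (nat_lit 177) (nat_lit 1) (nat_lit 179) (nat_lit 1) (nat_lit 228) (nat_lit 356) (nat_lit 316)) (XT.lf (nat_lit 76) (nat_lit 379158871021) (nat_lit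 0) (nat_lit 407559342265) (nat_lit 76) (nat_lit 407559342265) (nat_lit 177) (nat_lit 3) (nat_lit 176) (nat_lit 1) (nat_lit 177) (nat_lit 1) (nat_lit 229) (nat_lit 356) (nat_lit 315))))) (XT.nd (nat_lit 234) (nat_lit 228) (nat_lit 0) (XT.nd (nat_lit 78) (nat_lit 76) (nat_lit 0) (XT.lf (nat_lit 152) (nat_lit 1127126460001) (nat_lit 0) (nat_lit 7483655136) (nat_lit 76) (nat_lit 7483655136) (nat_lit 176) (nat_lit 1) (nat_lit 174) (nat_lit 1) (nat_lit 175) (nat_lit 1) (nat_lit 230) (nat_lit 356) (nat_lit 314)) (XT.nd (nat_lit 78) (nat_lit 76) (nat_lit 0) (XT.lf (nat_lit 0) (nat_lit 356331387457) (nat_lit 0) (nat_lit 375005158309) (nat_lit 152) (nat_lit 356331387457) (nat_lit 174) (nat_lit 3) (nat_lit 174) (nat_lit 1) (nat_lit 176) (nat_lit 1) (nat_lit 231) (nat_lit 356) (nat_lit 313)) (XT.lf (nat_lit 76) (nat_lit 335213881479) (nat_lit 0) (nat_lit 351451943089) (nat_lit 76) (nat_lit 351451943089) (nat_lit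 174) (nat_lit 3) (nat_lit 173) (nat_lit 1) (nat_lit 174) (nat_lit 1) (nat_lit 232) (nat_lit 356) (nat_lit 312)))) (XT.nd (nat_lit 78) (nat_lit 76) (nat_lit 0) (XT.lf (nat_lit 152) (nat_lit 984276706521) (nat_lit 0) (nat_lit 4278804113) (nat_lit 76) (nat_lit 4278804113) (nat_lit 173) (nat_lit 1) (nat_lit 171) (nat_lit 1) (nat_lit 172) (nat_lit 1) (nat_lit 233) (nat_lit 356) (nat_lit 311)) (XT.nd (nat_lit 78) (nat_lit 76) (nat_lit 0) (XT.lf (nat_lit 0) (nat_lit 311618863737) (nat_lit 0) (nat_lit 322295652829) (nat_lit 152) (nat_lit 311618863737) (nat_lit 171) (nat_lit 3) (nat_lit 171) (nat_lit 1) (nat_lit 173) (nat_lit 1) (nat_lit 234) (nat_lit 356) (nat_lit 310)) (XT.lf (nat_lit 76) (nat_lit 294640986770) (nat_lit 0) (nat_lit 303925151198) (nat_lit 76) (nat_lit 303925151198) (nat_lit 171) (nat_lit 3) (nat_lit 170) (nat_lit 1) (nat_lit 171) (nat_lit 1) (nat_lit 235) (nat_lit 356) (nat_lit 309))))))))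
noncomputable def ec183 : XT := (XT.nd (nat_lit 1716) (nat_lit 1672) (nat_lit 0) (XT.nd (nat_lit 858) (nat_lit 912) (nat_lit 0) (XT.nd (nat_lit 390) (nat_lit 456) (nat_lit 0) (XT.nd (nat_lit 156) (nat_lit 228) (nat_lit 0) (XT.nd (nat_lit 78) (nat_lit 0) (nat_lit 0) (XT.lf (nat_lit 152) (nat_lit 858275136143) (nat_lit 0) (nat_lit 2446420139) (nat_lit 76) (nat_lit 2446420139) (nat_lit 170) (nat_lit 1) (nat_lit 168) (nat_lit 1) (nat_lit 169) (nat_lit 1) (nat_lit 236) (nat_lit 356) (nat_lit 308)) (XT.lf (nat_lit 0) (nat_lit 271982345818) (nat_lit 0) (nat_lit 278086834633) (nat_lit 152) (nat_lit 271982345818) (nat_lit 168) (nat_lit 3) (nat_lit 168) (nat_lit 1) (nat_lit 170) (nat_lit 1) (nat_lit 237) (nat_lit 356) (nat_lit 307))) (XT.nd (nat_lit 78) (nat_lit 152) (nat_lit 0) (XT.lf (nat_lit 76) (nat_lit 258010950964) (nat_lit 0) (nat_lit 263319202108) (nat_lit 76) (nat_lit 263319202108) (nat_lit 168)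 (nat_lit 3) (nat_lit 167) (nat_lit 1) (nat_lit 168) (nat_lit 1) (nat_lit 238) (nat_lit 356) (nat_lit 306)) (XT.nd (nat_lit 78) (nat_lit 0) (nat_lit 0) (XT.lf (nat_lit 152) (nat_lit 747688320465) (nat_lit 0) (nat_lit 1398748654) (nat_lit 76) (nat_lit 1398748654) (nat_lit 167) (nat_lit 1) (nat_lit 165) (nat_lit 1) (nat_lit 166) (nat_lit 1) (nat_lit 239) (nat_lit 356) (nat_lit 305)) (XT.lf (nat_lit 0) (nat_lit 237083527303) (nat_lit 0) (nat_lit 240573788596) (nat_lit 152) (nat_lit 237083527303) (nat_lit 165) (nat_lit 3) (nat_lit 165) (nat_lit 1) (nat_lit 167) (nat_lit 1) (nat_lit 240) (nat_lit 356) (nat_lit 304))))) (XT.nd (nat_lit 234) (nat_lit 228) (nat_lit 0) (XT.nd (nat_lit 78) (nat_lit 152) (nat_lit 0) (XT.lf (nat_lit 76) (nat_lit 225387303389) (nat_lit 0) (nat_lit 228422313209) (nat_lit 76) (nat_lit 228422313209) (nat_lit 165) (nat_lit 3) (nat_lit 164) (nat_lit 1) (nat_lit 165) (nat_lit 1) (nat_lit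 241) (nat_lit 356) (nat_lit 303)) (XT.nd (nat_lit 78) (nat_lit 0) (nat_lit 0) (XT.lf (nat_lit 152) (nat_lit 650942550669) (nat_lit 0) (nat_lit 799739083) (nat_lit 76) (nat_lit 799739083) (nat_lit 164) (nat_lit 1) (nat_lit 162) (nat_lit 1) (nat_lit 163) (nat_lit 1) (nat_lit 242) (nat_lit 356) (nat_lit 302)) (XT.lf (nat_lit 0) (nat_lit 206489570418) (nat_lit 0) (nat_lit 208485138641) (nat_lit 152) (nat_lit 206489570418) (nat_lit 162) (nat_lit 3) (nat_lit 162) (nat_lit 1) (nat_lit 164) (nat_lit 1) (nat_lit 243) (nat_lit 356) (nat_lit 301)))) (XT.nd (nat_lit 78) (nat_lit 152) (nat_lit 0) (XT.lf (nat_lit 76) (nat_lit 196577839425) (nat_lit 0) (nat_lit 198313116140) (nat_lit 76) (nat_lit 198313116140) (nat_lit 162) (nat_lit 3) (nat_lit 161) (nat_lit 1) (nat_lit 162) (nat_lit 1) (nat_lit 244) (nat_lit 356) (nat_lit 300)) (XT.nd (nat_lit 78) (nat_lit 0) (nat_lit 0) (XT.lf (nat_lit 152) (nat_lit 566482278431)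 (nat_lit 0) (nat_lit 457253416) (nat_lit 76) (nat_lit 457253416) (nat_lit 161) (nat_lit 1) (nat_lit 159) (nat_lit 1) (nat_lit 160) (nat_lit 1) (nat_lit 245) (nat_lit 356) (nat_lit 299)) (XT.lf (nat_lit 0) (nat_lit 179744816160) (nat_lit 0) (nat_lit 180885788768) (nat_lit 152) (nat_lit 179744816160) (nat_lit 159) (nat_lit 3) (nat_lit 159) (nat_lit 1) (nat_lit 161) (nat_lit 1) (nat_lit 246) (nat_lit 356) (nat_lit 298)))))) (XT.nd (nat_lit 390) (nat_lit 456) (nat_lit 0) (XT.nd (nat_lit 156) (nat_lit 228) (nat_lit 0) (XT.nd (nat_lit 78) (nat_lit 152) (nat_lit 0) (XT.lf (nat_lit 76) (nat_lit 171273945700) (nat_lit 0) (nat_lit 172266095794) (nat_lit 76) (nat_lit 172266095794) (nat_lit 159) (nat_lit 3) (nat_lit 158) (nat_lit 1) (nat_lit 159) (nat_lit 1) (nat_lit 247) (nat_lit 356) (nat_lit 297)) (XT.lf (nat_lit 152) (nat_lit 492847874648) (nat_lit 0) (nat_lit 261436124) (nat_lit 76) (nat_lit 261436124)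 (nat_lit 158) (nat_lit 1) (nat_lit 156) (nat_lit 1) (nat_lit 157) (nat_lit 1) (nat_lit 248) (nat_lit 356) (nat_lit 296))) (XT.nd (nat_lit 78) (nat_lit 228) (nat_lit 0) (XT.lf (nat_lit 0) (nat_lit 156407711664) (nat_lit 0) (nat_lit 157060066456) (nat_lit 152) (nat_lit 156407711664) (nat_lit 156) (nat_lit 3) (nat_lit 156) (nat_lit 1) (nat_lit 158) (nat_lit 1) (nat_lit 249) (nat_lit 356) (nat_lit 295)) (XT.nd (nat_lit 78) (nat_lit 152) (nat_lit 0) (XT.lf (nat_lit 76) (nat_lit 149126371729) (nat_lit 0) (nat_lit 149693636765) (nat_lit 76) (nat_lit 149693636765) (nat_lit 156) (nat_lit 3) (nat_lit 155) (nat_lit 1) (nat_lit 156) (nat_lit 1) (nat_lit 250) (nat_lit 356) (nat_lit 294)) (XT.lf (nat_lit 152) (nat_lit 428708931378) (nat_lit 0) (nat_lit 149476952) (nat_lit 76) (nat_lit 149476952) (nat_lit 155) (nat_lit 1) (nat_lit 153) (nat_lit 1) (nat_lit 154) (nat_lit 1) (nat_lit 251) (nat_lit 356) (nat_lit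 293))))) (XT.nd (nat_lit 234) (nat_lit 228) (nat_lit 0) (XT.nd (nat_lit 78) (nat_lit 228) (nat_lit 0) (XT.lf (nat_lit 0) (nat_lit 136068381689) (nat_lit 0) (nat_lit 136441367658) (nat_lit 152) (nat_lit 136068381689) (nat_lit 153) (nat_lit 3) (nat_lit 153) (nat_lit 1) (nat_lit 155) (nat_lit 1) (nat_lit 252) (nat_lit 356) (nat_lit 292)) (XT.nd (nat_lit 78) (nat_lit 152) (nat_lit 0) (XT.lf (nat_lit 76) (nat_lit 129785171726) (nat_lit 0) (nat_lit 130109507351) (nat_lit 76) (nat_lit 130109507351) (nat_lit 153) (nat_lit 3) (nat_lit 152) (nat_lit 1) (nat_lit 153) (nat_lit 1) (nat_lit 253) (nat_lit 356) (nat_lit 291)) (XT.lf (nat_lit 152) (nat_lit 372873600726) (nat_lit 0) (nat_lit 85463932) (nat_lit 76) (nat_lit 85463932) (nat_lit 152) (nat_lit 1) (nat_lit 150) (nat_lit 1) (nat_lit 151) (nat_lit 1) (nat_lit 254) (nat_lit 356) (nat_lit 290)))) (XT.nd (nat_lit 78) (nat_lit 228) (nat_lit 0) (XT.lf (nat_lit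 0) (nat_lit 118355595296) (nat_lit 0) (nat_lit 118568851235) (nat_lit 152) (nat_lit 118355595296) (nat_lit 150) (nat_lit 3) (nat_lit 150) (nat_lit 1) (nat_lit 152) (nat_lit 1) (nat_lit 255) (nat_lit 356) (nat_lit 289)) (XT.nd (nat_lit 78) (nat_lit 152) (nat_lit 0) (XT.lf (nat_lit 76) (nat_lit 112919601587) (nat_lit 0) (nat_lit 113105041533) (nat_lit 76) (nat_lit 113105041533) (nat_lit 150) (nat_lit 3) (nat_lit 149) (nat_lit 1) (nat_lit 150) (nat_lit 1) (nat_lit 256) (nat_lit 356) (nat_lit 288)) (XT.lf (nat_lit 152) (nat_lit 324285498189) (nat_lit 0) (nat_lit 48864281) (nat_lit 76) (nat_lit 48864281) (nat_lit 149) (nat_lit 1) (nat_lit 147) (nat_lit 1) (nat_lit 148) (nat_lit 1) (nat_lit 257) (nat_lit 356) (nat_lit 287))))))) (XT.nd (nat_lit 858) (nat_lit 912) (nat_lit 0) (XT.nd (nat_lit 390) (nat_lit 456) (nat_lit 0) (XT.nd (nat_lit 156) (nat_lit 228) (nat_lit 0) (XT.nd (nat_lit 78) (nat_lit 76)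 (nat_lit 0) (XT.lf (nat_lit 0) (nat_lit 102938070912) (nat_lit 0) (nat_lit 103060000687) (nat_lit 152) (nat_lit 102938070912) (nat_lit 147) (nat_lit 3) (nat_lit 147) (nat_lit 1) (nat_lit 149) (nat_lit 1) (nat_lit 258) (nat_lit 356) (nat_lit 286)) (XT.lf (nat_lit 76) (nat_lit 98226938631) (nat_lit 0) (nat_lit 98332964522) (nat_lit 76) (nat_lit 98332964522) (nat_lit 147) (nat_lit 3) (nat_lit 146) (nat_lit 1) (nat_lit 147) (nat_lit 1) (nat_lit 259) (nat_lit 356) (nat_lit 285))) (XT.nd (nat_lit 78) (nat_lit 76) (nat_lit 0) (XT.lf (nat_lit 152) (nat_lit 282014596331) (nat_lit 0) (nat_lit 27938311) (nat_lit 76) (nat_lit 27938311) (nat_lit 146) (nat_lit 1) (nat_lit 144) (nat_lit 1) (nat_lit 145) (nat_lit 1) (nat_lit 260) (nat_lit 356) (nat_lit 284)) (XT.nd (nat_lit 78) (nat_lit 76) (nat_lit 0) (XT.lf (nat_lit 0) (nat_lit 89522893676) (nat_lit 0) (nat_lit 89592607421) (nat_lit 152) (nat_lit 89522893676)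 (nat_lit 144) (nat_lit 3) (nat_lit 144) (nat_lit 1) (nat_lit 146) (nat_lit 1) (nat_lit 261) (nat_lit 356) (nat_lit 283)) (XT.lf (nat_lit 76) (nat_lit 85435301343) (nat_lit 0) (nat_lit 85495921991) (nat_lit 76) (nat_lit 85495921991) (nat_lit 144) (nat_lit 3) (nat_lit 143) (nat_lit 1) (nat_lit 144) (nat_lit 1) (nat_lit 262) (nat_lit 356) (nat_lit 282))))) (XT.nd (nat_lit 234) (nat_lit 228) (nat_lit 0) (XT.nd (nat_lit 78) (nat_lit 76) (nat_lit 0) (XT.lf (nat_lit 152) (nat_lit 245245639228) (nat_lit 0) (nat_lit 15973820) (nat_lit 76) (nat_lit 15973820) (nat_lit 143) (nat_lit 1) (nat_lit 141) (nat_lit 1) (nat_lit 142) (nat_lit 1) (nat_lit 263) (nat_lit 356) (nat_lit 281)) (XT.nd (nat_lit 78) (nat_lit 76) (nat_lit 0) (XT.lf (nat_lit 0) (nat_lit 77852585481) (nat_lit 0) (nat_lit 77892444541) (nat_lit 152) (nat_lit 77852585481) (nat_lit 141) (nat_lit 3) (nat_lit 141) (nat_lit 1) (nat_lit 143) (nat_lit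 1) (nat_lit 264) (nat_lit 356) (nat_lit 280)) (XT.lf (nat_lit 76) (nat_lit 74303328550) (nat_lit 0) (nat_lit 74337988602) (nat_lit 76) (nat_lit 74337988602) (nat_lit 141) (nat_lit 3) (nat_lit 140) (nat_lit 1) (nat_lit 141) (nat_lit 1) (nat_lit 265) (nat_lit 356) (nat_lit 279)))) (XT.nd (nat_lit 78) (nat_lit 76) (nat_lit 0) (XT.lf (nat_lit 152) (nat_lit 213265971476) (nat_lit 0) (nat_lit 9133083) (nat_lit 76) (nat_lit 9133083) (nat_lit 140) (nat_lit 1) (nat_lit 138) (nat_lit 1) (nat_lit 139) (nat_lit 1) (nat_lit 266) (nat_lit 356) (nat_lit 278)) (XT.nd (nat_lit 78) (nat_lit 76) (nat_lit 0) (XT.lf (nat_lit 0) (nat_lit 67701668833) (nat_lit 0) (nat_lit 67724458379) (nat_lit 152) (nat_lit 67701668833) (nat_lit 138) (nat_lit 3) (nat_lit 138) (nat_lit 1) (nat_lit 140) (nat_lit 1) (nat_lit 267) (nat_lit 356) (nat_lit 277)) (XT.lf (nat_lit 76) (nat_lit 64618315099) (nat_lit 0) (nat_lit 64638132096) (nat_lit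 76) (nat_lit 64638132096) (nat_lit 138) (nat_lit 3) (nat_lit 137) (nat_lit 1) (nat_lit 138) (nat_lit 1) (nat_lit 268) (nat_lit 356) (nat_lit 276)))))) (XT.nd (nat_lit 468) (nat_lit 456) (nat_lit 0) (XT.nd (nat_lit 234) (nat_lit 228) (nat_lit 0) (XT.nd (nat_lit 78) (nat_lit 76) (nat_lit 0) (XT.lf (nat_lit 152) (nat_lit 185453755956) (nat_lit 0) (nat_lit 5221870) (nat_lit 76) (nat_lit 5221870) (nat_lit 137) (nat_lit 1) (nat_lit 135) (nat_lit 1) (nat_lit 136) (nat_lit 1) (nat_lit 269) (nat_lit 356) (nat_lit 275)) (XT.nd (nat_lit 78) (nat_lit 76) (nat_lit 0) (XT.lf (nat_lit 0) (nat_lit 58873170979) (nat_lit 0) (nat_lit 58886200977) (nat_lit 152) (nat_lit 58873170979) (nat_lit 135) (nat_lit 3) (nat_lit 135) (nat_lit 1) (nat_lit 137) (nat_lit 1) (nat_lit 270) (nat_lit 356) (nat_lit 274)) (XT.lf (nat_lit 76) (nat_lit 56193684289) (nat_lit 0) (nat_lit 56205014721) (nat_lit 76) (nat_lit 56205014721) (nat_lit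 135) (nat_lit 3) (nat_lit 134) (nat_lit 1) (nat_lit 135) (nat_lit 1) (nat_lit 271) (nat_lit 356) (nat_lit 273)))) (XT.nd (nat_lit 78) (nat_lit 76) (nat_lit 0) (XT.lf (nat_lit 152) (nat_lit 161267043041) (nat_lit 0) (nat_lit 2985621) (nat_lit 76) (nat_lit 2985621) (nat_lit 134) (nat_lit 1) (nat_lit 132) (nat_lit 1) (nat_lit 133) (nat_lit 1) (nat_lit 272) (nat_lit 356) (nat_lit 272)) (XT.nd (nat_lit 78) (nat_lit 76) (nat_lit 0) (XT.lf (nat_lit 0) (nat_lit 51195293622) (nat_lit 0) (nat_lit 51202743566) (nat_lit 152) (nat_lit 51195293622) (nat_lit 132) (nat_lit 3) (nat_lit 132) (nat_lit 1) (nat_lit 134) (nat_lit 1) (nat_lit 273) (nat_lit 356) (nat_lit 271)) (XT.lf (nat_lit 76) (nat_lit 48866271727) (nat_lit 0) (nat_lit 48872749939) (nat_lit 76) (nat_lit 48872749939) (nat_lit 132) (nat_lit 3) (nat_lit 131) (nat_lit 1) (nat_lit 132) (nat_lit 1) (nat_lit 274) (nat_lit 356) (nat_lit 270))))) (XT.nd (nat_lit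 234) (nat_lit 228) (nat_lit 0) (XT.nd (nat_lit 78) (nat_lit 76) (nat_lit 0) (XT.lf (nat_lit 152) (nat_lit 140233873671) (nat_lit 0) (nat_lit 1707038) (nat_lit 76) (nat_lit 1707038) (nat_lit 131) (nat_lit 1) (nat_lit 129) (nat_lit 1) (nat_lit 130) (nat_lit 1) (nat_lit 275) (nat_lit 356) (nat_lit 269)) (XT.nd (nat_lit 78) (nat_lit 76) (nat_lit 0) (XT.lf (nat_lit 0) (nat_lit 44518350972) (nat_lit 0) (nat_lit 44522610501) (nat_lit 152) (nat_lit 44518350972) (nat_lit 129) (nat_lit 3) (nat_lit 129) (nat_lit 1) (nat_lit 131) (nat_lit 1) (nat_lit 276) (nat_lit 356) (nat_lit 268)) (XT.lf (nat_lit 76) (nat_lit 42493667158) (nat_lit 0) (nat_lit 42497371097) (nat_lit 76) (nat_lit 42497371097) (nat_lit 129) (nat_lit 3) (nat_lit 128) (nat_lit 1) (nat_lit 129) (nat_lit 1) (nat_lit 277) (nat_lit 356) (nat_lit 267)))) (XT.nd (nat_lit 78) (nat_lit 76) (nat_lit 0) (XT.lf (nat_lit 152) (nat_lit 121943449288) (nat_lit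 0) (nat_lit 976004) (nat_lit 76) (nat_lit 976004) (nat_lit 128) (nat_lit 1) (nat_lit 126) (nat_lit 1) (nat_lit 127) (nat_lit 1) (nat_lit 278) (nat_lit 356) (nat_lit 266)) (XT.nd (nat_lit 78) (nat_lit 76) (nat_lit 0) (XT.lf (nat_lit 0) (nat_lit 38712012251) (nat_lit 0) (nat_lit 38714447651) (nat_lit 152) (nat_lit 38712012251) (nat_lit 126) (nat_lit 3) (nat_lit 126) (nat_lit 1) (nat_lit 128) (nat_lit 1) (nat_lit 279) (nat_lit 356) (nat_lit 265)) (XT.lf (nat_lit 76) (nat_lit 36951733592) (nat_lit 0) (nat_lit 36953851331) (nat_lit 76) (nat_lit 36953851331) (nat_lit 126) (nat_lit 3) (nat_lit 125) (nat_lit 1) (nat_lit 126) (nat_lit 1) (nat_lit 280) (nat_lit 356) (nat_lit 264))))))))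
noncomputable def ec184 : XT := (XT.nd (nat_lit 1716) (nat_lit 1596) (nat_lit 0) (XT.nd (nat_lit 858) (nat_lit 912) (nat_lit 0) (XT.nd (nat_lit 390) (nat_lit 456) (nat_lit 0) (XT.nd (nat_lit 156) (nat_lit 228) (nat_lit 0) (XT.nd (nat_lit 78) (nat_lit 0) (nat_lit 0) (XT.lf (nat_lit 152) (nat_lit 106038325408) (nat_lit 0) (nat_lit 558033) (nat_lit 76) (nat_lit 558033) (nat_lit 125) (nat_lit 1) (nat_lit 123) (nat_lit 1) (nat_lit 124) (nat_lit 1) (nat_lit 281) (nat_lit 356) (nat_lit 263)) (XT.lf (nat_lit 0) (nat_lit 33662849600) (nat_lit 0) (nat_lit 33664242048) (nat_lit 152) (nat_lit 33662849600) (nat_lit 123) (nat_lit 3) (nat_lit 123) (nat_lit 1) (nat_lit 125) (nat_lit 1) (nat_lit 282) (nat_lit 356) (nat_lit 262))) (XT.nd (nat_lit 78) (nat_lit 152) (nat_lit 0) (XT.lf (nat_lit 76) (nat_lit 32132353156) (nat_lit 0) (nat_lit 32133563980) (nat_lit 76) (nat_lit 32133563980) (nat_lit 123) (nat_lit 3) (nat_lit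 122) (nat_lit 1) (nat_lit 123) (nat_lit 1) (nat_lit 283) (nat_lit 356) (nat_lit 261)) (XT.nd (nat_lit 78) (nat_lit 0) (nat_lit 0) (XT.lf (nat_lit 152) (nat_lit 92207550187) (nat_lit 0) (nat_lit 319057) (nat_lit 76) (nat_lit 319057) (nat_lit 122) (nat_lit 1) (nat_lit 120) (nat_lit 1) (nat_lit 121) (nat_lit 1) (nat_lit 284) (nat_lit 356) (nat_lit 260)) (XT.lf (nat_lit 0) (nat_lit 29272174777) (nat_lit 0) (nat_lit 29272970914) (nat_lit 152) (nat_lit 29272174777) (nat_lit 120) (nat_lit 3) (nat_lit 120) (nat_lit 1) (nat_lit 122) (nat_lit 1) (nat_lit 285) (nat_lit 356) (nat_lit 259))))) (XT.nd (nat_lit 234) (nat_lit 228) (nat_lit 0) (XT.nd (nat_lit 78) (nat_lit 152) (nat_lit 0) (XT.lf (nat_lit 76) (nat_lit 27941411593) (nat_lit 0) (nat_lit 27942103885) (nat_lit 76) (nat_lit 27942103885) (nat_lit 120) (nat_lit 3) (nat_lit 119) (nat_lit 1) (nat_lit 120) (nat_lit 1) (nat_lit 286) (nat_lit 356) (nat_lit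 258)) (XT.nd (nat_lit 78) (nat_lit 0) (nat_lit 0) (XT.lf (nat_lit 152) (nat_lit 80180656068) (nat_lit 0) (nat_lit 182422) (nat_lit 76) (nat_lit 182422) (nat_lit 119) (nat_lit 1) (nat_lit 117) (nat_lit 1) (nat_lit 118) (nat_lit 1) (nat_lit 287) (nat_lit 356) (nat_lit 257)) (XT.lf (nat_lit 0) (nat_lit 25454140293) (nat_lit 0) (nat_lit 25454595487) (nat_lit 152) (nat_lit 25454140293) (nat_lit 117) (nat_lit 3) (nat_lit 117) (nat_lit 1) (nat_lit 119) (nat_lit 1) (nat_lit 288) (nat_lit 356) (nat_lit 256)))) (XT.nd (nat_lit 78) (nat_lit 152) (nat_lit 0) (XT.lf (nat_lit 76) (nat_lit 24297013971) (nat_lit 0) (nat_lit 24297409791) (nat_lit 76) (nat_lit 24297409791) (nat_lit 117) (nat_lit 3) (nat_lit 116) (nat_lit 1) (nat_lit 117) (nat_lit 1) (nat_lit 289) (nat_lit 356) (nat_lit 255)) (XT.nd (nat_lit 78) (nat_lit 0) (nat_lit 0) (XT.lf (nat_lit 152) (nat_lit 69722411193) (nat_lit 0) (nat_lit 104300) (nat_lit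 76) (nat_lit 104300) (nat_lit 116) (nat_lit 1) (nat_lit 114) (nat_lit 1) (nat_lit 115) (nat_lit 1) (nat_lit 290) (nat_lit 356) (nat_lit 254)) (XT.lf (nat_lit 0) (nat_lit 22134078073) (nat_lit 0) (nat_lit 22134338331) (nat_lit 152) (nat_lit 22134078073) (nat_lit 114) (nat_lit 3) (nat_lit 114) (nat_lit 1) (nat_lit 116) (nat_lit 1) (nat_lit 291) (nat_lit 356) (nat_lit 253)))))) (XT.nd (nat_lit 390) (nat_lit 456) (nat_lit 0) (XT.nd (nat_lit 156) (nat_lit 228) (nat_lit 0) (XT.nd (nat_lit 78) (nat_lit 152) (nat_lit 0) (XT.lf (nat_lit 76) (nat_lit 21127915036) (nat_lit 0) (nat_lit 21128141348) (nat_lit 76) (nat_lit 21128141348) (nat_lit 114) (nat_lit 3) (nat_lit 113) (nat_lit 1) (nat_lit 114) (nat_lit 1) (nat_lit 292) (nat_lit 356) (nat_lit 252)) (XT.lf (nat_lit 152) (nat_lit 60628241718) (nat_lit 0) (nat_lit 59634) (nat_lit 76) (nat_lit 59634) (nat_lit 113) (nat_lit 1) (nat_lit 111) (nat_lit 1) (nat_lit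 112) (nat_lit 1) (nat_lit 293) (nat_lit 356) (nat_lit 251))) (XT.nd (nat_lit 78) (nat_lit 228) (nat_lit 0) (XT.lf (nat_lit 0) (nat_lit 19247049017) (nat_lit 0) (nat_lit 19247197821) (nat_lit 152) (nat_lit 19247049017) (nat_lit 111) (nat_lit 3) (nat_lit 111) (nat_lit 1) (nat_lit 113) (nat_lit 1) (nat_lit 294) (nat_lit 356) (nat_lit 250)) (XT.nd (nat_lit 78) (nat_lit 152) (nat_lit 0) (XT.lf (nat_lit 76) (nat_lit 18372143942) (nat_lit 0) (nat_lit 18372273337) (nat_lit 76) (nat_lit 18372273337) (nat_lit 111) (nat_lit 3) (nat_lit 110) (nat_lit 1) (nat_lit 111) (nat_lit 1) (nat_lit 295) (nat_lit 356) (nat_lit 249)) (XT.lf (nat_lit 152) (nat_lit 52720243393) (nat_lit 0) (nat_lit 34096) (nat_lit 76) (nat_lit 34096) (nat_lit 110) (nat_lit 1) (nat_lit 108) (nat_lit 1) (nat_lit 109) (nat_lit 1) (nat_lit 296) (nat_lit 356) (nat_lit 248))))) (XT.nd (nat_lit 234) (nat_lit 228) (nat_lit 0) (XT.nd (nat_lit 78)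 (nat_lit 228) (nat_lit 0) (XT.lf (nat_lit 0) (nat_lit 16736578431) (nat_lit 0) (nat_lit 16736663510) (nat_lit 152) (nat_lit 16736578431) (nat_lit 108) (nat_lit 3) (nat_lit 108) (nat_lit 1) (nat_lit 110) (nat_lit 1) (nat_lit 297) (nat_lit 356) (nat_lit 247)) (XT.nd (nat_lit 78) (nat_lit 152) (nat_lit 0) (XT.lf (nat_lit 76) (nat_lit 15975802447) (nat_lit 0) (nat_lit 15975876429) (nat_lit 76) (nat_lit 15975876429) (nat_lit 108) (nat_lit 3) (nat_lit 107) (nat_lit 1) (nat_lit 108) (nat_lit 1) (nat_lit 298) (nat_lit 356) (nat_lit 246)) (XT.lf (nat_lit 152) (nat_lit 45843708891) (nat_lit 0) (nat_lit 19494) (nat_lit 76) (nat_lit 19494) (nat_lit 107) (nat_lit 1) (nat_lit 105) (nat_lit 1) (nat_lit 106) (nat_lit 1) (nat_lit 299) (nat_lit 356) (nat_lit 245)))) (XT.nd (nat_lit 78) (nat_lit 228) (nat_lit 0) (XT.lf (nat_lit 0) (nat_lit 14553554505) (nat_lit 0) (nat_lit 14553603149) (nat_lit 152) (nat_lit 14553554505)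 (nat_lit 105) (nat_lit 3) (nat_lit 105) (nat_lit 1) (nat_lit 107) (nat_lit 1) (nat_lit 300) (nat_lit 356) (nat_lit 244)) (XT.nd (nat_lit 78) (nat_lit 152) (nat_lit 0) (XT.lf (nat_lit 76) (nat_lit 13892016483) (nat_lit 0) (nat_lit 13892058782) (nat_lit 76) (nat_lit 13892058782) (nat_lit 105) (nat_lit 3) (nat_lit 104) (nat_lit 1) (nat_lit 105) (nat_lit 1) (nat_lit 301) (nat_lit 356) (nat_lit 243)) (XT.lf (nat_lit 152) (nat_lit 39864105542) (nat_lit 0) (nat_lit 11146) (nat_lit 76) (nat_lit 11146) (nat_lit 104) (nat_lit 1) (nat_lit 102) (nat_lit 1) (nat_lit 103) (nat_lit 1) (nat_lit 302) (nat_lit 356) (nat_lit 242))))))) (XT.nd (nat_lit 858) (nat_lit 836) (nat_lit 0) (XT.nd (nat_lit 390) (nat_lit 456) (nat_lit 0) (XT.nd (nat_lit 156) (nat_lit 228) (nat_lit 0) (XT.nd (nat_lit 78) (nat_lit 76) (nat_lit 0) (XT.lf (nat_lit 0) (nat_lit 12655269386) (nat_lit 0) (nat_lit 12655297199) (nat_lit 152) (nat_lit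 12655269386) (nat_lit 102) (nat_lit 3) (nat_lit 102) (nat_lit 1) (nat_lit 104) (nat_lit 1) (nat_lit 303) (nat_lit 356) (nat_lit 241)) (XT.lf (nat_lit 76) (nat_lit 12080022540) (nat_lit 0) (nat_lit 12080046725) (nat_lit 76) (nat_lit 12080046725) (nat_lit 102) (nat_lit 3) (nat_lit 101) (nat_lit 1) (nat_lit 102) (nat_lit 1) (nat_lit 304) (nat_lit 356) (nat_lit 240))) (XT.nd (nat_lit 78) (nat_lit 76) (nat_lit 0) (XT.lf (nat_lit 152) (nat_lit 34664445807) (nat_lit 0) (nat_lit 6372) (nat_lit 76) (nat_lit 6372) (nat_lit 101) (nat_lit 1) (nat_lit 99) (nat_lit 1) (nat_lit 100) (nat_lit 1) (nat_lit 305) (nat_lit 356) (nat_lit 239)) (XT.nd (nat_lit 78) (nat_lit 76) (nat_lit 0) (XT.lf (nat_lit 0) (nat_lit 11004584704) (nat_lit 0) (nat_lit 11004600606) (nat_lit 152) (nat_lit 11004584704) (nat_lit 99) (nat_lit 3) (nat_lit 99) (nat_lit 1) (nat_lit 101) (nat_lit 1) (nat_lit 306) (nat_lit 356) (nat_lit 238)) (XT.lf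 (nat_lit 76) (nat_lit 10504372118) (nat_lit 0) (nat_lit 10504385946) (nat_lit 76) (nat_lit 10504385946) (nat_lit 99) (nat_lit 3) (nat_lit 98) (nat_lit 1) (nat_lit 99) (nat_lit 1) (nat_lit 307) (nat_lit 356) (nat_lit 237))))) (XT.nd (nat_lit 234) (nat_lit 228) (nat_lit 0) (XT.nd (nat_lit 78) (nat_lit 76) (nat_lit 0) (XT.lf (nat_lit 152) (nat_lit 30142999902) (nat_lit 0) (nat_lit 3643) (nat_lit 76) (nat_lit 3643) (nat_lit 98) (nat_lit 1) (nat_lit 96) (nat_lit 1) (nat_lit 97) (nat_lit 1) (nat_lit 308) (nat_lit 356) (nat_lit 236)) (XT.nd (nat_lit 78) (nat_lit 76) (nat_lit 0) (XT.lf (nat_lit 0) (nat_lit 9569205594) (nat_lit 0) (nat_lit 9569214686) (nat_lit 152) (nat_lit 9569205594) (nat_lit 96) (nat_lit 3) (nat_lit 96) (nat_lit 1) (nat_lit 98) (nat_lit 1) (nat_lit 309) (nat_lit 356) (nat_lit 235)) (XT.lf (nat_lit 76) (nat_lit 9134239308) (nat_lit 0) (nat_lit 9134247214) (nat_lit 76) (nat_lit 9134247214)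 (nat_lit 96) (nat_lit 3) (nat_lit 95) (nat_lit 1) (nat_lit 96) (nat_lit 1) (nat_lit 310) (nat_lit 356) (nat_lit 234)))) (XT.nd (nat_lit 78) (nat_lit 76) (nat_lit 0) (XT.lf (nat_lit 152) (nat_lit 26211306292) (nat_lit 0) (nat_lit 2083) (nat_lit 76) (nat_lit 2083) (nat_lit 95) (nat_lit 1) (nat_lit 93) (nat_lit 1) (nat_lit 94) (nat_lit 1) (nat_lit 311) (nat_lit 356) (nat_lit 233)) (XT.nd (nat_lit 78) (nat_lit 76) (nat_lit 0) (XT.lf (nat_lit 0) (nat_lit 8321049202) (nat_lit 0) (nat_lit 8321054401) (nat_lit 152) (nat_lit 8321049202) (nat_lit 93) (nat_lit 3) (nat_lit 93) (nat_lit 1) (nat_lit 95) (nat_lit 1) (nat_lit 312) (nat_lit 356) (nat_lit 232)) (XT.lf (nat_lit 76) (nat_lit 7942818323) (nat_lit 0) (nat_lit 7942822843) (nat_lit 76) (nat_lit 7942822843) (nat_lit 93) (nat_lit 3) (nat_lit 92) (nat_lit 1) (nat_lit 93) (nat_lit 1) (nat_lit 313) (nat_lit 356) (nat_lit 231)))))) (XT.nd (nat_lit 390) (nat_lit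 456) (nat_lit 0) (XT.nd (nat_lit 156) (nat_lit 228) (nat_lit 0) (XT.nd (nat_lit 78) (nat_lit 0) (nat_lit 0) (XT.lf (nat_lit 152) (nat_lit 22792441413) (nat_lit 0) (nat_lit 1191) (nat_lit 76) (nat_lit 1191) (nat_lit 92) (nat_lit 1) (nat_lit 90) (nat_lit 1) (nat_lit 91) (nat_lit 1) (nat_lit 314) (nat_lit 356) (nat_lit 230)) (XT.lf (nat_lit 0) (nat_lit 7235695450) (nat_lit 0) (nat_lit 7235698422) (nat_lit 152) (nat_lit 7235695450) (nat_lit 90) (nat_lit 3) (nat_lit 90) (nat_lit 1) (nat_lit 92) (nat_lit 1) (nat_lit 315) (nat_lit 356) (nat_lit 229))) (XT.nd (nat_lit 78) (nat_lit 152) (nat_lit 0) (XT.lf (nat_lit 76) (nat_lit 6906799419) (nat_lit 0) (nat_lit 6906802003) (nat_lit 76) (nat_lit 6906802003) (nat_lit 90) (nat_lit 3) (nat_lit 89) (nat_lit 1) (nat_lit 90) (nat_lit 1) (nat_lit 316) (nat_lit 356) (nat_lit 228)) (XT.nd (nat_lit 78) (nat_lit 0) (nat_lit 0) (XT.lf (nat_lit 152) (nat_lit 19819514936)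 (nat_lit 0) (nat_lit 681) (nat_lit 76) (nat_lit 681) (nat_lit 89) (nat_lit 1) (nat_lit 87) (nat_lit 1) (nat_lit 88) (nat_lit 1) (nat_lit 317) (nat_lit 356) (nat_lit 227)) (XT.lf (nat_lit 0) (nat_lit 6291909368) (nat_lit 0) (nat_lit 6291911067) (nat_lit 152) (nat_lit 6291909368) (nat_lit 87) (nat_lit 3) (nat_lit 87) (nat_lit 1) (nat_lit 89) (nat_lit 1) (nat_lit 318) (nat_lit 356) (nat_lit 226))))) (XT.nd (nat_lit 234) (nat_lit 228) (nat_lit 0) (XT.nd (nat_lit 78) (nat_lit 152) (nat_lit 0) (XT.lf (nat_lit 76) (nat_lit 6005913040) (nat_lit 0) (nat_lit 6005914517) (nat_lit 76) (nat_lit 6005914517) (nat_lit 87) (nat_lit 3) (nat_lit 86) (nat_lit 1) (nat_lit 87) (nat_lit 1) (nat_lit 319) (nat_lit 356) (nat_lit 225)) (XT.nd (nat_lit 78) (nat_lit 0) (nat_lit 0) (XT.lf (nat_lit 152) (nat_lit 17234361193) (nat_lit 0) (nat_lit 389) (nat_lit 76) (nat_lit 389) (nat_lit 86) (nat_lit 1) (nat_lit 84) (nat_lit 1)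 (nat_lit 85) (nat_lit 1) (nat_lit 320) (nat_lit 356) (nat_lit 224)) (XT.lf (nat_lit 0) (nat_lit 5471225698) (nat_lit 0) (nat_lit 5471226669) (nat_lit 152) (nat_lit 5471225698) (nat_lit 84) (nat_lit 3) (nat_lit 84) (nat_lit 1) (nat_lit 86) (nat_lit 1) (nat_lit 321) (nat_lit 356) (nat_lit 223)))) (XT.nd (nat_lit 78) (nat_lit 152) (nat_lit 0) (XT.lf (nat_lit 76) (nat_lit 5222533365) (nat_lit 0) (nat_lit 5222534209) (nat_lit 76) (nat_lit 5222534209) (nat_lit 84) (nat_lit 3) (nat_lit 83) (nat_lit 1) (nat_lit 84) (nat_lit 1) (nat_lit 322) (nat_lit 356) (nat_lit 222)) (XT.nd (nat_lit 78) (nat_lit 0) (nat_lit 0) (XT.lf (nat_lit 152) (nat_lit 14986401254) (nat_lit 0) (nat_lit 222) (nat_lit 76) (nat_lit 222) (nat_lit 83) (nat_lit 1) (nat_lit 81) (nat_lit 1) (nat_lit 82) (nat_lit 1) (nat_lit 323) (nat_lit 356) (nat_lit 221)) (XT.lf (nat_lit 0) (nat_lit 4757587655) (nat_lit 0) (nat_lit 4757588211) (nat_lit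 152) (nat_lit 4757587655) (nat_lit 81) (nat_lit 3) (nat_lit 81) (nat_lit 1) (nat_lit 83) (nat_lit 1) (nat_lit 324) (nat_lit 356) (nat_lit 220))))))))
noncomputable def ec185 : XT := (XT.nd (nat_lit 1716) (nat_lit 1748) (nat_lit 0) (XT.nd (nat_lit 858) (nat_lit 760) (nat_lit 0) (XT.nd (nat_lit 390) (nat_lit 456) (nat_lit 0) (XT.nd (nat_lit 156) (nat_lit 228) (nat_lit 0) (XT.nd (nat_lit 78) (nat_lit 152) (nat_lit 0) (XT.lf (nat_lit 76) (nat_lit 4541333524) (nat_lit 0) (nat_lit 4541334007) (nat_lit 76) (nat_lit 4541334007) (nat_lit 81) (nat_lit 3) (nat_lit 80) (nat_lit 1) (nat_lit 81) (nat_lit 1) (nat_lit 325) (nat_lit 356) (nat_lit 219)) (XT.lf (nat_lit 152) (nat_lit 13031653388) (nat_lit 0) (nat_lit 127) (nat_lit 76) (nat_lit 127) (nat_lit 80) (nat_lit 1) (nat_lit 78) (nat_lit 1) (nat_lit 79) (nat_lit 1) (nat_lit 326) (nat_lit 356) (nat_lit 218))) (XT.nd (nat_lit 78) (nat_lit 228) (nat_lit 0) (XT.lf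 (nat_lit 0) (nat_lit 4137032796) (nat_lit 0) (nat_lit 4137033114) (nat_lit 152) (nat_lit 4137032796) (nat_lit 78) (nat_lit 3) (nat_lit 78) (nat_lit 1) (nat_lit 80) (nat_lit 1) (nat_lit 327) (nat_lit 356) (nat_lit 217)) (XT.nd (nat_lit 78) (nat_lit 152) (nat_lit 0) (XT.lf (nat_lit 76) (nat_lit 3948985767) (nat_lit 0) (nat_lit 3948986043) (nat_lit 76) (nat_lit 3948986043) (nat_lit 78) (nat_lit 3) (nat_lit 77) (nat_lit 1) (nat_lit 78) (nat_lit 1) (nat_lit 328) (nat_lit 356) (nat_lit 216)) (XT.lf (nat_lit 152) (nat_lit 11331872582) (nat_lit 0) (nat_lit 72) (nat_lit 76) (nat_lit 72) (nat_lit 77) (nat_lit 1) (nat_lit 75) (nat_lit 1) (nat_lit 76) (nat_lit 1) (nat_lit 329) (nat_lit 356) (nat_lit 215))))) (XT.nd (nat_lit 234) (nat_lit 228) (nat_lit 0) (XT.nd (nat_lit 78) (nat_lit 228) (nat_lit 0) (XT.lf (nat_lit 0) (nat_lit 3597419853) (nat_lit 0) (nat_lit 3597420034) (nat_lit 152) (nat_lit 3597419853)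 (nat_lit 75) (nat_lit 3) (nat_lit 75) (nat_lit 1) (nat_lit 77) (nat_lit 1) (nat_lit 330) (nat_lit 356) (nat_lit 214)) (XT.nd (nat_lit 78) (nat_lit 152) (nat_lit 0) (XT.lf (nat_lit 76) (nat_lit 3433900720) (nat_lit 0) (nat_lit 3433900878) (nat_lit 76) (nat_lit 3433900878) (nat_lit 75) (nat_lit 3) (nat_lit 74) (nat_lit 1) (nat_lit 75) (nat_lit 1) (nat_lit 331) (nat_lit 356) (nat_lit 213)) (XT.lf (nat_lit 152) (nat_lit 9853802286) (nat_lit 0) (nat_lit 41) (nat_lit 76) (nat_lit 41) (nat_lit 74) (nat_lit 1) (nat_lit 72) (nat_lit 1) (nat_lit 73) (nat_lit 1) (nat_lit 332) (nat_lit 356) (nat_lit 212)))) (XT.nd (nat_lit 78) (nat_lit 228) (nat_lit 0) (XT.lf (nat_lit 0) (nat_lit 3128191193) (nat_lit 0) (nat_lit 3128191297) (nat_lit 152) (nat_lit 3128191193) (nat_lit 72) (nat_lit 3) (nat_lit 72) (nat_lit 1) (nat_lit 74) (nat_lit 1) (nat_lit 333) (nat_lit 356) (nat_lit 211)) (XT.nd (nat_lit 78) (nat_lit 152)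 (nat_lit 0) (XT.lf (nat_lit 76) (nat_lit 2986000657) (nat_lit 0) (nat_lit 2986000747) (nat_lit 76) (nat_lit 2986000747) (nat_lit 72) (nat_lit 3) (nat_lit 71) (nat_lit 1) (nat_lit 72) (nat_lit 1) (nat_lit 334) (nat_lit 356) (nat_lit 210)) (XT.lf (nat_lit 152) (nat_lit 8568523750) (nat_lit 0) (nat_lit 23) (nat_lit 76) (nat_lit 23) (nat_lit 71) (nat_lit 1) (nat_lit 69) (nat_lit 1) (nat_lit 70) (nat_lit 1) (nat_lit 335) (nat_lit 356) (nat_lit 209)))))) (XT.nd (nat_lit 390) (nat_lit 456) (nat_lit 0) (XT.nd (nat_lit 156) (nat_lit 228) (nat_lit 0) (XT.nd (nat_lit 78) (nat_lit 76) (nat_lit 0) (XT.lf (nat_lit 0) (nat_lit 2720166265) (nat_lit 0) (nat_lit 2720166324) (nat_lit 152) (nat_lit 2720166265) (nat_lit 69) (nat_lit 3) (nat_lit 69) (nat_lit 1) (nat_lit 71) (nat_lit 1) (nat_lit 336) (nat_lit 356) (nat_lit 208)) (XT.lf (nat_lit 76) (nat_lit 2596522328) (nat_lit 0) (nat_lit 2596522380) (nat_lit 76) (nat_lit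 2596522380) (nat_lit 69) (nat_lit 3) (nat_lit 68) (nat_lit 1) (nat_lit 69) (nat_lit 1) (nat_lit 337) (nat_lit 356) (nat_lit 207))) (XT.nd (nat_lit 78) (nat_lit 76) (nat_lit 0) (XT.lf (nat_lit 152) (nat_lit 7450890231) (nat_lit 0) (nat_lit 13) (nat_lit 76) (nat_lit 13) (nat_lit 68) (nat_lit 1) (nat_lit 66) (nat_lit 1) (nat_lit 67) (nat_lit 1) (nat_lit 338) (nat_lit 356) (nat_lit 206)) (XT.nd (nat_lit 78) (nat_lit 76) (nat_lit 0) (XT.lf (nat_lit 0) (nat_lit 2365361975) (nat_lit 0) (nat_lit 2365362009) (nat_lit 152) (nat_lit 2365361975) (nat_lit 66) (nat_lit 3) (nat_lit 66) (nat_lit 1) (nat_lit 68) (nat_lit 1) (nat_lit 339) (nat_lit 356) (nat_lit 205)) (XT.lf (nat_lit 76) (nat_lit 2257845513) (nat_lit 0) (nat_lit 2257845542) (nat_lit 76) (nat_lit 2257845542) (nat_lit 66) (nat_lit 3) (nat_lit 65) (nat_lit 1) (nat_lit 66) (nat_lit 1) (nat_lit 340) (nat_lit 356) (nat_lit 204))))) (XT.nd (nat_lit 234)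 (nat_lit 228) (nat_lit 0) (XT.nd (nat_lit 78) (nat_lit 76) (nat_lit 0) (XT.lf (nat_lit 152) (nat_lit 6479034991) (nat_lit 0) (nat_lit 7) (nat_lit 76) (nat_lit 7) (nat_lit 65) (nat_lit 1) (nat_lit 63) (nat_lit 1) (nat_lit 64) (nat_lit 1) (nat_lit 341) (nat_lit 356) (nat_lit 203)) (XT.nd (nat_lit 78) (nat_lit 76) (nat_lit 0) (XT.lf (nat_lit 0) (nat_lit 2056836503) (nat_lit 0) (nat_lit 2056836522) (nat_lit 152) (nat_lit 2056836503) (nat_lit 63) (nat_lit 3) (nat_lit 63) (nat_lit 1) (nat_lit 65) (nat_lit 1) (nat_lit 342) (nat_lit 356) (nat_lit 202)) (XT.lf (nat_lit 76) (nat_lit 1963343930) (nat_lit 0) (nat_lit 1963343946) (nat_lit 76) (nat_lit 1963343946) (nat_lit 63) (nat_lit 3) (nat_lit 62) (nat_lit 1) (nat_lit 63) (nat_lit 1) (nat_lit 343) (nat_lit 356) (nat_lit 201)))) (XT.nd (nat_lit 78) (nat_lit 76) (nat_lit 0) (XT.lf (nat_lit 152) (nat_lit 5633943474) (nat_lit 0) (nat_lit 4) (nat_lit 76) (nat_lit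 4) (nat_lit 62) (nat_lit 1) (nat_lit 60) (nat_lit 1) (nat_lit 61) (nat_lit 1) (nat_lit 344) (nat_lit 356) (nat_lit 200)) (XT.nd (nat_lit 78) (nat_lit 76) (nat_lit 0) (XT.lf (nat_lit 0) (nat_lit 1788553483) (nat_lit 0) (nat_lit 1788553494) (nat_lit 152) (nat_lit 1788553483) (nat_lit 60) (nat_lit 3) (nat_lit 60) (nat_lit 1) (nat_lit 62) (nat_lit 1) (nat_lit 345) (nat_lit 356) (nat_lit 199)) (XT.lf (nat_lit 76) (nat_lit 1707255594) (nat_lit 0) (nat_lit 1707255604) (nat_lit 76) (nat_lit 1707255604) (nat_lit 60) (nat_lit 3) (nat_lit 59) (nat_lit 1) (nat_lit 60) (nat_lit 1) (nat_lit 346) (nat_lit 356) (nat_lit 198))))))) (XT.nd (nat_lit 858) (nat_lit 912) (nat_lit 0) (XT.nd (nat_lit 390) (nat_lit 456) (nat_lit 0) (XT.nd (nat_lit 156) (nat_lit 228) (nat_lit 0) (XT.nd (nat_lit 78) (nat_lit 0) (nat_lit 0) (XT.lf (nat_lit 152) (nat_lit 4899081284) (nat_lit 0) (nat_lit 2) (nat_lit 76) (nat_lit 2) (nat_lit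 59) (nat_lit 1) (nat_lit 57) (nat_lit 1) (nat_lit 58) (nat_lit 1) (nat_lit 347) (nat_lit 356) (nat_lit 197)) (XT.lf (nat_lit 0) (nat_lit 1555263899) (nat_lit 0) (nat_lit 1555263905) (nat_lit 152) (nat_lit 1555263899) (nat_lit 57) (nat_lit 3) (nat_lit 57) (nat_lit 1) (nat_lit 59) (nat_lit 1) (nat_lit 348) (nat_lit 356) (nat_lit 196))) (XT.nd (nat_lit 78) (nat_lit 152) (nat_lit 0) (XT.lf (nat_lit 76) (nat_lit 1484570084) (nat_lit 0) (nat_lit 1484570089) (nat_lit 76) (nat_lit 1484570089) (nat_lit 57) (nat_lit 3) (nat_lit 56) (nat_lit 1) (nat_lit 57) (nat_lit 1) (nat_lit 349) (nat_lit 356) (nat_lit 195)) (XT.nd (nat_lit 78) (nat_lit 0) (nat_lit 0) (XT.lf (nat_lit 152) (nat_lit 4260070683) (nat_lit 0) (nat_lit 1) (nat_lit 76) (nat_lit 1) (nat_lit 56) (nat_lit 1) (nat_lit 54) (nat_lit 1) (nat_lit 55) (nat_lit 1) (nat_lit 350) (nat_lit 356) (nat_lit 194)) (XT.lf (nat_lit 0) (nat_lit 1352403391) (nat_lit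 0) (nat_lit 1352403395) (nat_lit 152) (nat_lit 1352403391) (nat_lit 54) (nat_lit 3) (nat_lit 54) (nat_lit 1) (nat_lit 56) (nat_lit 1) (nat_lit 351) (nat_lit 356) (nat_lit 193))))) (XT.nd (nat_lit 234) (nat_lit 228) (nat_lit 0) (XT.nd (nat_lit 78) (nat_lit 152) (nat_lit 0) (XT.lf (nat_lit 76) (nat_lit 1290930509) (nat_lit 0) (nat_lit 1290930512) (nat_lit 76) (nat_lit 1290930512) (nat_lit 54) (nat_lit 3) (nat_lit 53) (nat_lit 1) (nat_lit 54) (nat_lit 1) (nat_lit 352) (nat_lit 356) (nat_lit 192)) (XT.nd (nat_lit 78) (nat_lit 152) (nat_lit 0) (XT.lf (nat_lit 0) (nat_lit 3704409291) (nat_lit 0) (nat_lit 0) (nat_lit 0) (nat_lit 0) (nat_lit 53) (nat_lit 1) (nat_lit 1) (nat_lit 0) (nat_lit 1) (nat_lit 0) (nat_lit 353) (nat_lit 356) (nat_lit 191)) (XT.lf (nat_lit 0) (nat_lit 1176002949) (nat_lit 0) (nat_lit 1176002951) (nat_lit 152) (nat_lit 1176002949) (nat_lit 51) (nat_lit 3) (nat_lit 51) (nat_lit 1)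 (nat_lit 53) (nat_lit 1) (nat_lit 354) (nat_lit 356) (nat_lit 190)))) (XT.nd (nat_lit 78) (nat_lit 152) (nat_lit 0) (XT.lf (nat_lit 76) (nat_lit 1122548269) (nat_lit 0) (nat_lit 1122548271) (nat_lit 76) (nat_lit 1122548271) (nat_lit 51) (nat_lit 3) (nat_lit 50) (nat_lit 1) (nat_lit 51) (nat_lit 1) (nat_lit 355) (nat_lit 356) (nat_lit 189)) (XT.nd (nat_lit 78) (nat_lit 152) (nat_lit 0) (XT.lf (nat_lit 0) (nat_lit 3221225471) (nat_lit 0) (nat_lit 0) (nat_lit 0) (nat_lit 0) (nat_lit 50) (nat_lit 1) (nat_lit 1) (nat_lit 0) (nat_lit 1) (nat_lit 0) (nat_lit 356) (nat_lit 356) (nat_lit 188)) (XT.lf (nat_lit 0) (nat_lit 1022611260) (nat_lit 0) (nat_lit 1022611261) (nat_lit 152) (nat_lit 1022611260) (nat_lit 48) (nat_lit 3) (nat_lit 48) (nat_lit 1) (nat_lit 50) (nat_lit 1) (nat_lit 357) (nat_lit 356) (nat_lit 187)))))) (XT.nd (nat_lit 468) (nat_lit 456) (nat_lit 0) (XT.nd (nat_lit 234) (nat_lit 228) (nat_lit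 0) (XT.nd (nat_lit 78) (nat_lit 152) (nat_lit 0) (XT.lf (nat_lit 76) (nat_lit 976128930) (nat_lit 0) (nat_lit 976128931) (nat_lit 76) (nat_lit 976128931) (nat_lit 48) (nat_lit 3) (nat_lit 47) (nat_lit 1) (nat_lit 48) (nat_lit 1) (nat_lit 358) (nat_lit 356) (nat_lit 186)) (XT.nd (nat_lit 78) (nat_lit 152) (nat_lit 0) (XT.lf (nat_lit 0) (nat_lit 2801065627) (nat_lit 0) (nat_lit 0) (nat_lit 0) (nat_lit 0) (nat_lit 47) (nat_lit 1) (nat_lit 1) (nat_lit 0) (nat_lit 1) (nat_lit 0) (nat_lit 359) (nat_lit 356) (nat_lit 185)) (XT.lf (nat_lit 0) (nat_lit 889227183) (nat_lit 0) (nat_lit 889227183) (nat_lit 152) (nat_lit 889227183) (nat_lit 45) (nat_lit 3) (nat_lit 45) (nat_lit 1) (nat_lit 47) (nat_lit 1) (nat_lit 360) (nat_lit 356) (nat_lit 184)))) (XT.nd (nat_lit 78) (nat_lit 152) (nat_lit 0) (XT.lf (nat_lit 76) (nat_lit 848807765) (nat_lit 0) (nat_lit 848807766) (nat_lit 76) (nat_lit 848807766) (nat_lit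 45) (nat_lit 3) (nat_lit 44) (nat_lit 1) (nat_lit 45) (nat_lit 1) (nat_lit 361) (nat_lit 356) (nat_lit 183)) (XT.nd (nat_lit 78) (nat_lit 152) (nat_lit 0) (XT.lf (nat_lit 0) (nat_lit 2435709241) (nat_lit 0) (nat_lit 0) (nat_lit 0) (nat_lit 0) (nat_lit 44) (nat_lit 1) (nat_lit 1) (nat_lit 0) (nat_lit 1) (nat_lit 0) (nat_lit 362) (nat_lit 356) (nat_lit 182)) (XT.lf (nat_lit 0) (nat_lit 773241028) (nat_lit 0) (nat_lit 773241029) (nat_lit 152) (nat_lit 773241028) (nat_lit 42) (nat_lit 3) (nat_lit 42) (nat_lit 1) (nat_lit 44) (nat_lit 1) (nat_lit 363) (nat_lit 356) (nat_lit 181))))) (XT.nd (nat_lit 234) (nat_lit 228) (nat_lit 0) (XT.nd (nat_lit 78) (nat_lit 152) (nat_lit 0) (XT.lf (nat_lit 76) (nat_lit 738093709) (nat_lit 0) (nat_lit 738093709) (nat_lit 76) (nat_lit 738093709) (nat_lit 42) (nat_lit 3) (nat_lit 41) (nat_lit 1) (nat_lit 42) (nat_lit 1) (nat_lit 364) (nat_lit 356) (nat_lit 180)) (XT.nd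 (nat_lit 78) (nat_lit 152) (nat_lit 0) (XT.lf (nat_lit 0) (nat_lit 2118008035) (nat_lit 0) (nat_lit 0) (nat_lit 0) (nat_lit 0) (nat_lit 41) (nat_lit 1) (nat_lit 1) (nat_lit 0) (nat_lit 1) (nat_lit 0) (nat_lit 365) (nat_lit 356) (nat_lit 179)) (XT.lf (nat_lit 0) (nat_lit 672383503) (nat_lit 0) (nat_lit 672383503) (nat_lit 152) (nat_lit 672383503) (nat_lit 39) (nat_lit 3) (nat_lit 39) (nat_lit 1) (nat_lit 41) (nat_lit 1) (nat_lit 366) (nat_lit 356) (nat_lit 178)))) (XT.nd (nat_lit 78) (nat_lit 152) (nat_lit 0) (XT.lf (nat_lit 76) (nat_lit 641820616) (nat_lit 0) (nat_lit 641820617) (nat_lit 76) (nat_lit 641820617) (nat_lit 39) (nat_lit 3) (nat_lit 38) (nat_lit 1) (nat_lit 39) (nat_lit 1) (nat_lit 367) (nat_lit 356) (nat_lit 177)) (XT.nd (nat_lit 78) (nat_lit 152) (nat_lit 0) (XT.lf (nat_lit 0) (nat_lit 1841746118) (nat_lit 0) (nat_lit 0) (nat_lit 0) (nat_lit 0) (nat_lit 38) (nat_lit 1) (nat_lit 1)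 (nat_lit 0) (nat_lit 1) (nat_lit 0) (nat_lit 368) (nat_lit 356) (nat_lit 176)) (XT.lf (nat_lit 0) (nat_lit 584681307) (nat_lit 0) (nat_lit 584681307) (nat_lit 152) (nat_lit 584681307) (nat_lit 36) (nat_lit 3) (nat_lit 36) (nat_lit 1) (nat_lit 38) (nat_lit 1) (nat_lit 369) (nat_lit 356) (nat_lit 175))))))))
noncomputable def ec186 : XT := (XT.nd (nat_lit 34086) (nat_lit 0) (nat_lit 10716) (XT.nd (nat_lit 33228) (nat_lit 0) (nat_lit 12388) (XT.nd (nat_lit 32760) (nat_lit 0) (nat_lit 13148) (XT.nd (nat_lit 32526) (nat_lit 0) (nat_lit 13680) (XT.nd (nat_lit 78) (nat_lit 0) (nat_lit 0) (XT.lf (nat_lit 76) (nat_lit 558104884) (nat_lit 0) (nat_lit 558104884) (nat_lit 76) (nat_lit 558104884) (nat_lit 36) (nat_lit 3) (nat_lit 35) (nat_lit 1) (nat_lit 36) (nat_lit 1) (nat_lit 370) (nat_lit 356) (nat_lit 174)) (XT.lf (nat_lit 0) (nat_lit 1601518363) (nat_lit 0) (nat_lit 0) (nat_lit 0) (nat_lit 0) (nat_lit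 35) (nat_lit 1) (nat_lit 1) (nat_lit 0) (nat_lit 1) (nat_lit 0) (nat_lit 371) (nat_lit 356) (nat_lit 173))) (XT.nd (nat_lit 78) (nat_lit 0) (nat_lit 0) (XT.lf (nat_lit 380) (nat_lit 2022559647269) (nat_lit 0) (nat_lit 1791430857755) (nat_lit 380) (nat_lit 2022559647269) (nat_lit 220) (nat_lit 1) (nat_lit 215) (nat_lit 0) (nat_lit 220) (nat_lit 0) (nat_lit 186) (nat_lit 357) (nat_lit 357)) (XT.nd (nat_lit 78) (nat_lit 0) (nat_lit 76) (XT.lf (nat_lit 380) (nat_lit 7481185657917) (nat_lit 76) (nat_lit 1710002182402) (nat_lit 0) (nat_lit 1710002182402) (nat_lit 220) (nat_lit 1) (nat_lit 216) (nat_lit 1) (nat_lit 215) (nat_lit 0) (nat_lit 187) (nat_lit 357) (nat_lit 356)) (XT.lf (nat_lit 380) (nat_lit 3297663738668) (nat_lit 0) (nat_lit 3588169221662) (nat_lit 304) (nat_lit 3297663738668) (nat_lit 221) (nat_lit 1) (nat_lit 216) (nat_lit 1) (nat_lit 220) (nat_lit 1) (nat_lit 188) (nat_lit 357) (nat_lit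 355))))) (XT.nd (nat_lit 234) (nat_lit 380) (nat_lit 0) (XT.nd (nat_lit 78) (nat_lit 228) (nat_lit 0) (XT.lf (nat_lit 380) (nat_lit 5661917414979) (nat_lit 76) (nat_lit 1938112201197) (nat_lit 0) (nat_lit 1938112201197) (nat_lit 221) (nat_lit 1) (nat_lit 217) (nat_lit 1) (nat_lit 216) (nat_lit 1) (nat_lit 189) (nat_lit 357) (nat_lit 354)) (XT.nd (nat_lit 78) (nat_lit 304) (nat_lit 0) (XT.lf (nat_lit 76) (nat_lit 2290320688094) (nat_lit 0) (nat_lit 4361155094335) (nat_lit 304) (nat_lit 2290320688094) (nat_lit 218) (nat_lit 1) (nat_lit 217) (nat_lit 1) (nat_lit 221) (nat_lit 1) (nat_lit 190) (nat_lit 357) (nat_lit 353)) (XT.lf (nat_lit 380) (nat_lit 3442167019990) (nat_lit 0) (nat_lit 2477605814302) (nat_lit 304) (nat_lit 2477605814302) (nat_lit 218) (nat_lit 1) (nat_lit 213) (nat_lit 1) (nat_lit 217) (nat_lit 1) (nat_lit 191) (nat_lit 357) (nat_lit 352)))) (XT.nd (nat_lit 78) (nat_lit 380) (nat_lit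 0) (XT.lf (nat_lit 76) (nat_lit 1144138301854) (nat_lit 0) (nat_lit 5614315323829) (nat_lit 380) (nat_lit 1144138301854) (nat_lit 214) (nat_lit 1) (nat_lit 213) (nat_lit 1) (nat_lit 218) (nat_lit 1) (nat_lit 192) (nat_lit 357) (nat_lit 351)) (XT.nd (nat_lit 78) (nat_lit 228) (nat_lit 0) (XT.lf (nat_lit 228) (nat_lit 1029697481947) (nat_lit 0) (nat_lit 3204679334221) (nat_lit 152) (nat_lit 3204679334221) (nat_lit 214) (nat_lit 1) (nat_lit 211) (nat_lit 1) (nat_lit 213) (nat_lit 1) (nat_lit 193) (nat_lit 357) (nat_lit 350)) (XT.lf (nat_lit 228) (nat_lit 6919554122346) (nat_lit 0) (nat_lit 54290898660) (nat_lit 152) (nat_lit 54290898660) (nat_lit 211) (nat_lit 1) (nat_lit 208) (nat_lit 1) (nat_lit 210) (nat_lit 1) (nat_lit 194) (nat_lit 357) (nat_lit 349)))))) (XT.nd (nat_lit 390) (nat_lit 304) (nat_lit 0) (XT.nd (nat_lit 156) (nat_lit 304) (nat_lit 0) (XT.nd (nat_lit 78) (nat_lit 152) (nat_lit 0)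 (XT.lf (nat_lit 76) (nat_lit 2658536922020) (nat_lit 0) (nat_lit 1305200115758) (nat_lit 228) (nat_lit 2658536922020) (nat_lit 209) (nat_lit 1) (nat_lit 208) (nat_lit 1) (nat_lit 211) (nat_lit 1) (nat_lit 195) (nat_lit 357) (nat_lit 348)) (XT.lf (nat_lit 228) (nat_lit 3864285454480) (nat_lit 0) (nat_lit 1198663360673) (nat_lit 152) (nat_lit 1198663360673) (nat_lit 209) (nat_lit 1) (nat_lit 206) (nat_lit 1) (nat_lit 208) (nat_lit 1) (nat_lit 196) (nat_lit 357) (nat_lit 347))) (XT.nd (nat_lit 78) (nat_lit 304) (nat_lit 0) (XT.lf (nat_lit 76) (nat_lit 1208488804809) (nat_lit 0) (nat_lit 3507013850617) (nat_lit 228) (nat_lit 1208488804809) (nat_lit 207) (nat_lit 1) (nat_lit 206) (nat_lit 1) (nat_lit 209) (nat_lit 1) (nat_lit 197) (nat_lit 357) (nat_lit 346)) (XT.nd (nat_lit 78) (nat_lit 228) (nat_lit 0) (XT.lf (nat_lit 152) (nat_lit 999039328388) (nat_lit 0) (nat_lit 2305288164331) (nat_lit 76) (nat_lit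 2305288164331) (nat_lit 207) (nat_lit 1) (nat_lit 205) (nat_lit 1) (nat_lit 206) (nat_lit 1) (nat_lit 198) (nat_lit 357) (nat_lit 345)) (XT.lf (nat_lit 228) (nat_lit 5057724339365) (nat_lit 0) (nat_lit 134363623575) (nat_lit 152) (nat_lit 134363623575) (nat_lit 205) (nat_lit 1) (nat_lit 202) (nat_lit 1) (nat_lit 204) (nat_lit 1) (nat_lit 199) (nat_lit 357) (nat_lit 344))))) (XT.nd (nat_lit 234) (nat_lit 228) (nat_lit 0) (XT.nd (nat_lit 78) (nat_lit 76) (nat_lit 0) (XT.lf (nat_lit 76) (nat_lit 1770094739946) (nat_lit 0) (nat_lit 1503222205600) (nat_lit 228) (nat_lit 1770094739946) (nat_lit 203) (nat_lit 1) (nat_lit 202) (nat_lit 1) (nat_lit 205) (nat_lit 1) (nat_lit 200) (nat_lit 357) (nat_lit 343)) (XT.nd (nat_lit 78) (nat_lit 0) (nat_lit 0) (XT.lf (nat_lit 152) (nat_lit 2152265667844) (nat_lit 0) (nat_lit 1318055989983) (nat_lit 76) (nat_lit 1318055989983) (nat_lit 203) (nat_lit 1) (nat_lit 201)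 (nat_lit 1) (nat_lit 202) (nat_lit 1) (nat_lit 201) (nat_lit 357) (nat_lit 342)) (XT.lf (nat_lit 0) (nat_lit 421443277585) (nat_lit 0) (nat_lit 3710354254482) (nat_lit 152) (nat_lit 421443277585) (nat_lit 201) (nat_lit 3) (nat_lit 201) (nat_lit 1) (nat_lit 203) (nat_lit 1) (nat_lit 202) (nat_lit 357) (nat_lit 341)))) (XT.nd (nat_lit 78) (nat_lit 76) (nat_lit 0) (XT.lf (nat_lit 76) (nat_lit 1950437711296) (nat_lit 0) (nat_lit 423016222004) (nat_lit 152) (nat_lit 1950437711296) (nat_lit 200) (nat_lit 1) (nat_lit 199) (nat_lit 1) (nat_lit 201) (nat_lit 1) (nat_lit 203) (nat_lit 357) (nat_lit 340)) (XT.nd (nat_lit 78) (nat_lit 0) (nat_lit 0) (XT.lf (nat_lit 152) (nat_lit 2605401132588) (nat_lit 0) (nat_lit 753602790146) (nat_lit 76) (nat_lit 753602790146) (nat_lit 200) (nat_lit 1) (nat_lit 198) (nat_lit 1) (nat_lit 199) (nat_lit 1) (nat_lit 204) (nat_lit 357) (nat_lit 339)) (XT.lf (nat_lit 0) (nat_lit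 677417514688) (nat_lit 0) (nat_lit 2557863040195) (nat_lit 152) (nat_lit 677417514688) (nat_lit 198) (nat_lit 3) (nat_lit 198) (nat_lit 1) (nat_lit 200) (nat_lit 1) (nat_lit 205) (nat_lit 357) (nat_lit 338))))))) (XT.nd (nat_lit 858) (nat_lit 760) (nat_lit 0) (XT.nd (nat_lit 390) (nat_lit 456) (nat_lit 0) (XT.nd (nat_lit 156) (nat_lit 228) (nat_lit 0) (XT.nd (nat_lit 78) (nat_lit 152) (nat_lit 0) (XT.lf (nat_lit 76) (nat_lit 151119742147) (nat_lit 0) (nat_lit 1786289764328) (nat_lit 76) (nat_lit 1786289764328) (nat_lit 198) (nat_lit 3) (nat_lit 197) (nat_lit 1) (nat_lit 198) (nat_lit 1) (nat_lit 206) (nat_lit 357) (nat_lit 337)) (XT.lf (nat_lit 152) (nat_lit 2685156337646) (nat_lit 0) (nat_lit 430874841154) (nat_lit 76) (nat_lit 430874841154) (nat_lit 197) (nat_lit 1) (nat_lit 195) (nat_lit 1) (nat_lit 196) (nat_lit 1) (nat_lit 207) (nat_lit 357) (nat_lit 336))) (XT.nd (nat_lit 78) (nat_lit 228)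 (nat_lit 0) (XT.lf (nat_lit 0) (nat_lit 766842578205) (nat_lit 0) (nat_lit 1841993410575) (nat_lit 152) (nat_lit 766842578205) (nat_lit 195) (nat_lit 3) (nat_lit 195) (nat_lit 1) (nat_lit 197) (nat_lit 1) (nat_lit 208) (nat_lit 357) (nat_lit 335)) (XT.nd (nat_lit 78) (nat_lit 152) (nat_lit 0) (XT.lf (nat_lit 76) (nat_lit 448678895172) (nat_lit 0) (nat_lit 1383592662450) (nat_lit 76) (nat_lit 1383592662450) (nat_lit 195) (nat_lit 3) (nat_lit 194) (nat_lit 1) (nat_lit 195) (nat_lit 1) (nat_lit 209) (nat_lit 357) (nat_lit 334)) (XT.lf (nat_lit 152) (nat_lit 2574820576206) (nat_lit 0) (nat_lit 246354088874) (nat_lit 76) (nat_lit 246354088874) (nat_lit 194) (nat_lit 1) (nat_lit 192) (nat_lit 1) (nat_lit 193) (nat_lit 1) (nat_lit 210) (nat_lit 357) (nat_lit 333))))) (XT.nd (nat_lit 234) (nat_lit 228) (nat_lit 0) (XT.nd (nat_lit 78) (nat_lit 228) (nat_lit 0) (XT.lf (nat_lit 0) (nat_lit 768468137783) (nat_lit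 0) (nat_lit 1383189115693) (nat_lit 152) (nat_lit 768468137783) (nat_lit 192) (nat_lit 3) (nat_lit 192) (nat_lit 1) (nat_lit 194) (nat_lit 1) (nat_lit 211) (nat_lit 357) (nat_lit 332)) (XT.nd (nat_lit 78) (nat_lit 152) (nat_lit 0) (XT.lf (nat_lit 76) (nat_lit 571555955523) (nat_lit 0) (nat_lit 1106095936314) (nat_lit 76) (nat_lit 1106095936314) (nat_lit 192) (nat_lit 3) (nat_lit 191) (nat_lit 1) (nat_lit 192) (nat_lit 1) (nat_lit 212) (nat_lit 357) (nat_lit 331)) (XT.lf (nat_lit 152) (nat_lit 2376139173642) (nat_lit 0) (nat_lit 140853749878) (nat_lit 76) (nat_lit 140853749878) (nat_lit 191) (nat_lit 1) (nat_lit 189) (nat_lit 1) (nat_lit 190) (nat_lit 1) (nat_lit 213) (nat_lit 357) (nat_lit 330)))) (XT.nd (nat_lit 78) (nat_lit 228) (nat_lit 0) (XT.lf (nat_lit 0) (nat_lit 726351025682) (nat_lit 0) (nat_lit 1077819739936) (nat_lit 152) (nat_lit 726351025682) (nat_lit 189) (nat_lit 3) (nat_lit 189)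 (nat_lit 1) (nat_lit 191) (nat_lit 1) (nat_lit 214) (nat_lit 357) (nat_lit 329)) (XT.nd (nat_lit 78) (nat_lit 152) (nat_lit 0) (XT.lf (nat_lit 76) (nat_lit 600721443025) (nat_lit 0) (nat_lit 906346411942) (nat_lit 76) (nat_lit 906346411942) (nat_lit 189) (nat_lit 3) (nat_lit 188) (nat_lit 1) (nat_lit 189) (nat_lit 1) (nat_lit 215) (nat_lit 357) (nat_lit 328)) (XT.lf (nat_lit 152) (nat_lit 2144632373533) (nat_lit 0) (nat_lit 80533588647) (nat_lit 76) (nat_lit 80533588647) (nat_lit 188) (nat_lit 1) (nat_lit 186) (nat_lit 1) (nat_lit 187) (nat_lit 1) (nat_lit 216) (nat_lit 357) (nat_lit 327)))))) (XT.nd (nat_lit 390) (nat_lit 456) (nat_lit 0) (XT.nd (nat_lit 156) (nat_lit 228) (nat_lit 0) (XT.nd (nat_lit 78) (nat_lit 76) (nat_lit 0) (XT.lf (nat_lit 0) (nat_lit 664838664000) (nat_lit 0) (nat_lit 865792042099) (nat_lit 152) (nat_lit 664838664000) (nat_lit 186) (nat_lit 3) (nat_lit 186) (nat_lit 1) (nat_lit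 188) (nat_lit 1) (nat_lit 217) (nat_lit 357) (nat_lit 326)) (XT.lf (nat_lit 76) (nat_lit 581666582936) (nat_lit 0) (nat_lit 756408650848) (nat_lit 76) (nat_lit 756408650848) (nat_lit 186) (nat_lit 3) (nat_lit 185) (nat_lit 1) (nat_lit 186) (nat_lit 1) (nat_lit 218) (nat_lit 357) (nat_lit 325))) (XT.nd (nat_lit 78) (nat_lit 76) (nat_lit 0) (XT.lf (nat_lit 152) (nat_lit 1909737119321) (nat_lit 0) (nat_lit 46045340688) (nat_lit 76) (nat_lit 46045340688) (nat_lit 185) (nat_lit 1) (nat_lit 183) (nat_lit 1) (nat_lit 184) (nat_lit 1) (nat_lit 219) (nat_lit 357) (nat_lit 324)) (XT.nd (nat_lit 78) (nat_lit 76) (nat_lit 0) (XT.lf (nat_lit 0) (nat_lit 597119409699) (nat_lit 0) (nat_lit 712015155840) (nat_lit 152) (nat_lit 597119409699) (nat_lit 183) (nat_lit 3) (nat_lit 183) (nat_lit 1) (nat_lit 185) (nat_lit 1) (nat_lit 220) (nat_lit 357) (nat_lit 323)) (XT.lf (nat_lit 76) (nat_lit 539702059419) (nat_lit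 0) (nat_lit 639611403889) (nat_lit 76) (nat_lit 639611403889) (nat_lit 183) (nat_lit 3) (nat_lit 182) (nat_lit 1) (nat_lit 183) (nat_lit 1) (nat_lit 221) (nat_lit 357) (nat_lit 322))))) (XT.nd (nat_lit 234) (nat_lit 228) (nat_lit 0) (XT.nd (nat_lit 78) (nat_lit 76) (nat_lit 0) (XT.lf (nat_lit 152) (nat_lit 1686278047636) (nat_lit 0) (nat_lit 26326572982) (nat_lit 76) (nat_lit 26326572982) (nat_lit 182) (nat_lit 1) (nat_lit 180) (nat_lit 1) (nat_lit 181) (nat_lit 1) (nat_lit 222) (nat_lit 357) (nat_lit 321)) (XT.nd (nat_lit 78) (nat_lit 76) (nat_lit 0) (XT.lf (nat_lit 0) (nat_lit 530096913339) (nat_lit 0) (nat_lit 595788929099) (nat_lit 152) (nat_lit 530096913339) (nat_lit 180) (nat_lit 3) (nat_lit 180) (nat_lit 1) (nat_lit 182) (nat_lit 1) (nat_lit 223) (nat_lit 357) (nat_lit 320)) (XT.lf (nat_lit 76) (nat_lit 488691450015) (nat_lit 0) (nat_lit 545814941981) (nat_lit 76) (nat_lit 545814941981)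 (nat_lit 180) (nat_lit 3) (nat_lit 179) (nat_lit 1) (nat_lit 180) (nat_lit 1) (nat_lit 224) (nat_lit 357) (nat_lit 319)))) (XT.nd (nat_lit 78) (nat_lit 76) (nat_lit 0) (XT.lf (nat_lit 152) (nat_lit 1480986817521) (nat_lit 0) (nat_lit 15052303548) (nat_lit 76) (nat_lit 15052303548) (nat_lit 179) (nat_lit 1) (nat_lit 177) (nat_lit 1) (nat_lit 178) (nat_lit 1) (nat_lit 225) (nat_lit 357) (nat_lit 318)) (XT.nd (nat_lit 78) (nat_lit 76) (nat_lit 0) (XT.lf (nat_lit 0) (nat_lit 467164589668) (nat_lit 0) (nat_lit 504724212889) (nat_lit 152) (nat_lit 467164589668) (nat_lit 177) (nat_lit 3) (nat_lit 177) (nat_lit 1) (nat_lit 179) (nat_lit 1) (nat_lit 226) (nat_lit 357) (nat_lit 317)) (XT.lf (nat_lit 76) (nat_lit 436032701674) (nat_lit 0) (nat_lit 468693243605) (nat_lit 76) (nat_lit 468693243605) (nat_lit 177) (nat_lit 3) (nat_lit 176) (nat_lit 1) (nat_lit 177) (nat_lit 1) (nat_lit 227) (nat_lit 357) (nat_lit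 316))))))))
noncomputable def ec187 : XT := (XT.nd (nat_lit 1716) (nat_lit 1672) (nat_lit 0) (XT.nd (nat_lit 858) (nat_lit 912) (nat_lit 0) (XT.nd (nat_lit 390) (nat_lit 456) (nat_lit 0) (XT.nd (nat_lit 156) (nat_lit 228) (nat_lit 0) (XT.nd (nat_lit 78) (nat_lit 0) (nat_lit 0) (XT.lf (nat_lit 152) (nat_lit 1296195429001) (nat_lit 0) (nat_lit 8606203407) (nat_lit 76) (nat_lit 8606203407) (nat_lit 176) (nat_lit 1) (nat_lit 174) (nat_lit 1) (nat_lit 175) (nat_lit 1) (nat_lit 228) (nat_lit 357) (nat_lit 315)) (XT.lf (nat_lit 0) (nat_lit 409781095576) (nat_lit 0) (nat_lit 431255932056) (nat_lit 152) (nat_lit 409781095576) (nat_lit 174) (nat_lit 3) (nat_lit 174) (nat_lit 1) (nat_lit 176) (nat_lit 1) (nat_lit 229) (nat_lit 357) (nat_lit 314))) (XT.nd (nat_lit 78) (nat_lit 152) (nat_lit 0) (XT.lf (nat_lit 76) (nat_lit 385495963701) (nat_lit 0) (nat_lit 404169734553) (nat_lit 76) (nat_lit 404169734553)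 (nat_lit 174) (nat_lit 3) (nat_lit 173) (nat_lit 1) (nat_lit 174) (nat_lit 1) (nat_lit 230) (nat_lit 357) (nat_lit 313)) (XT.nd (nat_lit 78) (nat_lit 0) (nat_lit 0) (XT.lf (nat_lit 152) (nat_lit 1131918212500) (nat_lit 0) (nat_lit 4920624730) (nat_lit 76) (nat_lit 4920624730) (nat_lit 173) (nat_lit 1) (nat_lit 171) (nat_lit 1) (nat_lit 172) (nat_lit 1) (nat_lit 231) (nat_lit 357) (nat_lit 312)) (XT.lf (nat_lit 0) (nat_lit 358361693297) (nat_lit 0) (nat_lit 370640000753) (nat_lit 152) (nat_lit 358361693297) (nat_lit 171) (nat_lit 3) (nat_lit 171) (nat_lit 1) (nat_lit 173) (nat_lit 1) (nat_lit 232) (nat_lit 357) (nat_lit 311))))) (XT.nd (nat_lit 234) (nat_lit 228) (nat_lit 0) (XT.nd (nat_lit 78) (nat_lit 152) (nat_lit 0) (XT.lf (nat_lit 76) (nat_lit 338837134786) (nat_lit 0) (nat_lit 349513923878) (nat_lit 76) (nat_lit 349513923878) (nat_lit 171) (nat_lit 3) (nat_lit 170) (nat_lit 1) (nat_lit 171)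 (nat_lit 1) (nat_lit 233) (nat_lit 357) (nat_lit 310)) (XT.nd (nat_lit 78) (nat_lit 0) (nat_lit 0) (XT.lf (nat_lit 152) (nat_lit 987016406565) (nat_lit 0) (nat_lit 2813383159) (nat_lit 76) (nat_lit 2813383159) (nat_lit 170) (nat_lit 1) (nat_lit 168) (nat_lit 1) (nat_lit 169) (nat_lit 1) (nat_lit 234) (nat_lit 357) (nat_lit 309)) (XT.lf (nat_lit 0) (nat_lit 312779697690) (nat_lit 0) (nat_lit 319799859829) (nat_lit 152) (nat_lit 312779697690) (nat_lit 168) (nat_lit 3) (nat_lit 168) (nat_lit 1) (nat_lit 170) (nat_lit 1) (nat_lit 235) (nat_lit 357) (nat_lit 308)))) (XT.nd (nat_lit 78) (nat_lit 152) (nat_lit 0) (XT.lf (nat_lit 76) (nat_lit 296712593609) (nat_lit 0) (nat_lit 302817082425) (nat_lit 76) (nat_lit 302817082425) (nat_lit 168) (nat_lit 3) (nat_lit 167) (nat_lit 1) (nat_lit 168) (nat_lit 1) (nat_lit 236) (nat_lit 357) (nat_lit 307)) (XT.nd (nat_lit 78) (nat_lit 0) (nat_lit 0) (XT.lf (nat_lit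 152) (nat_lit 859841568535) (nat_lit 0) (nat_lit 1608560952) (nat_lit 76) (nat_lit 1608560952) (nat_lit 167) (nat_lit 1) (nat_lit 165) (nat_lit 1) (nat_lit 166) (nat_lit 1) (nat_lit 237) (nat_lit 357) (nat_lit 306)) (XT.lf (nat_lit 0) (nat_lit 272646056398) (nat_lit 0) (nat_lit 276659856885) (nat_lit 152) (nat_lit 272646056398) (nat_lit 165) (nat_lit 3) (nat_lit 165) (nat_lit 1) (nat_lit 167) (nat_lit 1) (nat_lit 238) (nat_lit 357) (nat_lit 305)))))) (XT.nd (nat_lit 390) (nat_lit 456) (nat_lit 0) (XT.nd (nat_lit 156) (nat_lit 228) (nat_lit 0) (XT.nd (nat_lit 78) (nat_lit 152) (nat_lit 0) (XT.lf (nat_lit 76) (nat_lit 259195398897) (nat_lit 0) (nat_lit 262685660190) (nat_lit 76) (nat_lit 262685660190) (nat_lit 165) (nat_lit 3) (nat_lit 164) (nat_lit 1) (nat_lit 165) (nat_lit 1) (nat_lit 239) (nat_lit 357) (nat_lit 304)) (XT.lf (nat_lit 152) (nat_lit 748583933269) (nat_lit 0) (nat_lit 919699945) (nat_lit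 76) (nat_lit 919699945) (nat_lit 164) (nat_lit 1) (nat_lit 162) (nat_lit 1) (nat_lit 163) (nat_lit 1) (nat_lit 240) (nat_lit 357) (nat_lit 303))) (XT.nd (nat_lit 78) (nat_lit 228) (nat_lit 0) (XT.lf (nat_lit 0) (nat_lit 237463005981) (nat_lit 0) (nat_lit 239757909437) (nat_lit 152) (nat_lit 237463005981) (nat_lit 162) (nat_lit 3) (nat_lit 162) (nat_lit 1) (nat_lit 164) (nat_lit 1) (nat_lit 241) (nat_lit 357) (nat_lit 302)) (XT.nd (nat_lit 78) (nat_lit 152) (nat_lit 0) (XT.lf (nat_lit 76) (nat_lit 226064515339) (nat_lit 0) (nat_lit 228060083561) (nat_lit 76) (nat_lit 228060083561) (nat_lit 162) (nat_lit 3) (nat_lit 161) (nat_lit 1) (nat_lit 162) (nat_lit 1) (nat_lit 242) (nat_lit 357) (nat_lit 301)) (XT.lf (nat_lit 152) (nat_lit 651454620196) (nat_lit 0) (nat_lit 525841428) (nat_lit 76) (nat_lit 525841428) (nat_lit 161) (nat_lit 1) (nat_lit 159) (nat_lit 1) (nat_lit 160) (nat_lit 1) (nat_lit 243)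 (nat_lit 357) (nat_lit 300))))) (XT.nd (nat_lit 234) (nat_lit 228) (nat_lit 0) (XT.nd (nat_lit 78) (nat_lit 228) (nat_lit 0) (XT.lf (nat_lit 0) (nat_lit 206706538584) (nat_lit 0) (nat_lit 208018657084) (nat_lit 152) (nat_lit 206706538584) (nat_lit 159) (nat_lit 3) (nat_lit 159) (nat_lit 1) (nat_lit 161) (nat_lit 1) (nat_lit 244) (nat_lit 357) (nat_lit 299)) (XT.nd (nat_lit 78) (nat_lit 152) (nat_lit 0) (XT.lf (nat_lit 76) (nat_lit 196965037556) (nat_lit 0) (nat_lit 198106010163) (nat_lit 76) (nat_lit 198106010163) (nat_lit 159) (nat_lit 3) (nat_lit 158) (nat_lit 1) (nat_lit 159) (nat_lit 1) (nat_lit 245) (nat_lit 357) (nat_lit 298)) (XT.lf (nat_lit 152) (nat_lit 566775055846) (nat_lit 0) (nat_lit 300651543) (nat_lit 76) (nat_lit 300651543) (nat_lit 158) (nat_lit 1) (nat_lit 156) (nat_lit 1) (nat_lit 157) (nat_lit 1) (nat_lit 246) (nat_lit 357) (nat_lit 297)))) (XT.nd (nat_lit 78) (nat_lit 228)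 (nat_lit 0) (XT.lf (nat_lit 0) (nat_lit 179868868414) (nat_lit 0) (nat_lit 180619076424) (nat_lit 152) (nat_lit 179868868414) (nat_lit 156) (nat_lit 3) (nat_lit 156) (nat_lit 1) (nat_lit 158) (nat_lit 1) (nat_lit 247) (nat_lit 357) (nat_lit 296)) (XT.nd (nat_lit 78) (nat_lit 152) (nat_lit 0) (XT.lf (nat_lit 76) (nat_lit 171495327488) (nat_lit 0) (nat_lit 172147682280) (nat_lit 76) (nat_lit 172147682280) (nat_lit 156) (nat_lit 3) (nat_lit 155) (nat_lit 1) (nat_lit 156) (nat_lit 1) (nat_lit 248) (nat_lit 357) (nat_lit 295)) (XT.lf (nat_lit 152) (nat_lit 493015271085) (nat_lit 0) (nat_lit 171898495) (nat_lit 76) (nat_lit 171898495) (nat_lit 155) (nat_lit 1) (nat_lit 153) (nat_lit 1) (nat_lit 154) (nat_lit 1) (nat_lit 249) (nat_lit 357) (nat_lit 294))))))) (XT.nd (nat_lit 858) (nat_lit 912) (nat_lit 0) (XT.nd (nat_lit 390) (nat_lit 456) (nat_lit 0) (XT.nd (nat_lit 156) (nat_lit 228) (nat_lit 0) (XT.nd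 (nat_lit 78) (nat_lit 76) (nat_lit 0) (XT.lf (nat_lit 0) (nat_lit 156478638942) (nat_lit 0) (nat_lit 156907572807) (nat_lit 152) (nat_lit 156478638942) (nat_lit 153) (nat_lit 3) (nat_lit 153) (nat_lit 1) (nat_lit 155) (nat_lit 1) (nat_lit 250) (nat_lit 357) (nat_lit 293)) (XT.lf (nat_lit 76) (nat_lit 149252947484) (nat_lit 0) (nat_lit 149625933454) (nat_lit 76) (nat_lit 149625933454) (nat_lit 153) (nat_lit 3) (nat_lit 152) (nat_lit 1) (nat_lit 153) (nat_lit 1) (nat_lit 251) (nat_lit 357) (nat_lit 292))) (XT.nd (nat_lit 78) (nat_lit 76) (nat_lit 0) (XT.lf (nat_lit 152) (nat_lit 428804640834) (nat_lit 0) (nat_lit 98283522) (nat_lit 76) (nat_lit 98283522) (nat_lit 152) (nat_lit 1) (nat_lit 150) (nat_lit 1) (nat_lit 151) (nat_lit 1) (nat_lit 252) (nat_lit 357) (nat_lit 291)) (XT.nd (nat_lit 78) (nat_lit 76) (nat_lit 0) (XT.lf (nat_lit 0) (nat_lit 136108934590) (nat_lit 0) (nat_lit 136354178920) (nat_lit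 152) (nat_lit 136108934590) (nat_lit 150) (nat_lit 3) (nat_lit 150) (nat_lit 1) (nat_lit 152) (nat_lit 1) (nat_lit 253) (nat_lit 357) (nat_lit 290)) (XT.lf (nat_lit 76) (nat_lit 129857541825) (nat_lit 0) (nat_lit 130070797763) (nat_lit 76) (nat_lit 130070797763) (nat_lit 150) (nat_lit 3) (nat_lit 149) (nat_lit 1) (nat_lit 150) (nat_lit 1) (nat_lit 254) (nat_lit 357) (nat_lit 289))))) (XT.nd (nat_lit 234) (nat_lit 228) (nat_lit 0) (XT.nd (nat_lit 78) (nat_lit 76) (nat_lit 0) (XT.lf (nat_lit 152) (nat_lit 372928322918) (nat_lit 0) (nat_lit 56193923) (nat_lit 76) (nat_lit 56193923) (nat_lit 149) (nat_lit 1) (nat_lit 147) (nat_lit 1) (nat_lit 148) (nat_lit 1) (nat_lit 255) (nat_lit 357) (nat_lit 288)) (XT.nd (nat_lit 78) (nat_lit 76) (nat_lit 0) (XT.lf (nat_lit 0) (nat_lit 118378781549) (nat_lit 0) (nat_lit 118519000790) (nat_lit 152) (nat_lit 118378781549) (nat_lit 147) (nat_lit 3) (nat_lit 147) (nat_lit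 1) (nat_lit 149) (nat_lit 1) (nat_lit 256) (nat_lit 357) (nat_lit 287)) (XT.lf (nat_lit 76) (nat_lit 112960979426) (nat_lit 0) (nat_lit 113082909201) (nat_lit 76) (nat_lit 113082909201) (nat_lit 147) (nat_lit 3) (nat_lit 146) (nat_lit 1) (nat_lit 147) (nat_lit 1) (nat_lit 257) (nat_lit 357) (nat_lit 286)))) (XT.nd (nat_lit 78) (nat_lit 76) (nat_lit 0) (XT.lf (nat_lit 152) (nat_lit 324316785780) (nat_lit 0) (nat_lit 32129057) (nat_lit 76) (nat_lit 32129057) (nat_lit 146) (nat_lit 1) (nat_lit 144) (nat_lit 1) (nat_lit 145) (nat_lit 1) (nat_lit 258) (nat_lit 357) (nat_lit 285)) (XT.nd (nat_lit 78) (nat_lit 76) (nat_lit 0) (XT.lf (nat_lit 0) (nat_lit 102951327728) (nat_lit 0) (nat_lit 103031498534) (nat_lit 152) (nat_lit 102951327728) (nat_lit 144) (nat_lit 3) (nat_lit 144) (nat_lit 1) (nat_lit 146) (nat_lit 1) (nat_lit 259) (nat_lit 357) (nat_lit 284)) (XT.lf (nat_lit 76) (nat_lit 98250596545) (nat_lit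 0) (nat_lit 98320310289) (nat_lit 76) (nat_lit 98320310289) (nat_lit 144) (nat_lit 3) (nat_lit 143) (nat_lit 1) (nat_lit 144) (nat_lit 1) (nat_lit 260) (nat_lit 357) (nat_lit 283)))))) (XT.nd (nat_lit 468) (nat_lit 456) (nat_lit 0) (XT.nd (nat_lit 234) (nat_lit 228) (nat_lit 0) (XT.nd (nat_lit 78) (nat_lit 76) (nat_lit 0) (XT.lf (nat_lit 152) (nat_lit 282032485112) (nat_lit 0) (nat_lit 18369893) (nat_lit 76) (nat_lit 18369893) (nat_lit 143) (nat_lit 1) (nat_lit 141) (nat_lit 1) (nat_lit 142) (nat_lit 1) (nat_lit 261) (nat_lit 357) (nat_lit 282)) (XT.nd (nat_lit 78) (nat_lit 76) (nat_lit 0) (XT.lf (nat_lit 0) (nat_lit 89530473303) (nat_lit 0) (nat_lit 89576311222) (nat_lit 152) (nat_lit 89530473303) (nat_lit 141) (nat_lit 3) (nat_lit 141) (nat_lit 1) (nat_lit 143) (nat_lit 1) (nat_lit 262) (nat_lit 357) (nat_lit 281)) (XT.lf (nat_lit 76) (nat_lit 85448827832) (nat_lit 0) (nat_lit 85488686892) (nat_lit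 76) (nat_lit 85488686892) (nat_lit 141) (nat_lit 3) (nat_lit 140) (nat_lit 1) (nat_lit 141) (nat_lit 1) (nat_lit 263) (nat_lit 357) (nat_lit 280)))) (XT.nd (nat_lit 78) (nat_lit 76) (nat_lit 0) (XT.lf (nat_lit 152) (nat_lit 245255867197) (nat_lit 0) (nat_lit 10503046) (nat_lit 76) (nat_lit 10503046) (nat_lit 140) (nat_lit 1) (nat_lit 138) (nat_lit 1) (nat_lit 139) (nat_lit 1) (nat_lit 264) (nat_lit 357) (nat_lit 279)) (XT.nd (nat_lit 78) (nat_lit 76) (nat_lit 0) (XT.lf (nat_lit 0) (nat_lit 77856919158) (nat_lit 0) (nat_lit 77883127136) (nat_lit 152) (nat_lit 77856919158) (nat_lit 138) (nat_lit 3) (nat_lit 138) (nat_lit 1) (nat_lit 140) (nat_lit 1) (nat_lit 265) (nat_lit 357) (nat_lit 278)) (XT.lf (nat_lit 76) (nat_lit 74311062364) (nat_lit 0) (nat_lit 74333851910) (nat_lit 76) (nat_lit 74333851910) (nat_lit 138) (nat_lit 3) (nat_lit 137) (nat_lit 1) (nat_lit 138) (nat_lit 1) (nat_lit 266) (nat_lit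 357) (nat_lit 277))))) (XT.nd (nat_lit 234) (nat_lit 228) (nat_lit 0) (XT.nd (nat_lit 78) (nat_lit 76) (nat_lit 0) (XT.lf (nat_lit 152) (nat_lit 213271819350) (nat_lit 0) (nat_lit 6005150) (nat_lit 76) (nat_lit 6005150) (nat_lit 137) (nat_lit 1) (nat_lit 135) (nat_lit 1) (nat_lit 136) (nat_lit 1) (nat_lit 267) (nat_lit 357) (nat_lit 276)) (XT.nd (nat_lit 78) (nat_lit 76) (nat_lit 0) (XT.lf (nat_lit 0) (nat_lit 67704146626) (nat_lit 0) (nat_lit 67719131123) (nat_lit 152) (nat_lit 67704146626) (nat_lit 135) (nat_lit 3) (nat_lit 135) (nat_lit 1) (nat_lit 137) (nat_lit 1) (nat_lit 268) (nat_lit 357) (nat_lit 275)) (XT.lf (nat_lit 76) (nat_lit 64622736932) (nat_lit 0) (nat_lit 64635766929) (nat_lit 76) (nat_lit 64635766929) (nat_lit 135) (nat_lit 3) (nat_lit 134) (nat_lit 1) (nat_lit 135) (nat_lit 1) (nat_lit 269) (nat_lit 357) (nat_lit 274)))) (XT.nd (nat_lit 78) (nat_lit 76) (nat_lit 0) (XT.lf (nat_lit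 152) (nat_lit 185457099498) (nat_lit 0) (nat_lit 3433464) (nat_lit 76) (nat_lit 3433464) (nat_lit 134) (nat_lit 1) (nat_lit 132) (nat_lit 1) (nat_lit 133) (nat_lit 1) (nat_lit 270) (nat_lit 357) (nat_lit 273)) (XT.nd (nat_lit 78) (nat_lit 76) (nat_lit 0) (XT.lf (nat_lit 0) (nat_lit 58874587666) (nat_lit 0) (nat_lit 58883155101) (nat_lit 152) (nat_lit 58874587666) (nat_lit 132) (nat_lit 3) (nat_lit 132) (nat_lit 1) (nat_lit 134) (nat_lit 1) (nat_lit 271) (nat_lit 357) (nat_lit 272)) (XT.lf (nat_lit 76) (nat_lit 56196212486) (nat_lit 0) (nat_lit 56203662429) (nat_lit 76) (nat_lit 56203662429) (nat_lit 132) (nat_lit 3) (nat_lit 131) (nat_lit 1) (nat_lit 132) (nat_lit 1) (nat_lit 272) (nat_lit 357) (nat_lit 271))))))))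
noncomputable def ec188 : XT := (XT.nd (nat_lit 1716) (nat_lit 1596) (nat_lit 0) (XT.nd (nat_lit 858) (nat_lit 912) (nat_lit 0) (XT.nd (nat_lit 390) (nat_lit 456) (nat_lit 0) (XT.nd (nat_lit 156) (nat_lit 228) (nat_lit 0) (XT.nd (nat_lit 78) (nat_lit 0) (nat_lit 0) (XT.lf (nat_lit 152) (nat_lit 161268954722) (nat_lit 0) (nat_lit 1963094) (nat_lit 76) (nat_lit 1963094) (nat_lit 131) (nat_lit 1) (nat_lit 129) (nat_lit 1) (nat_lit 130) (nat_lit 1) (nat_lit 273) (nat_lit 357) (nat_lit 270)) (XT.lf (nat_lit 0) (nat_lit 51196103618) (nat_lit 0) (nat_lit 51201002076) (nat_lit 152) (nat_lit 51196103618) (nat_lit 129) (nat_lit 3) (nat_lit 129) (nat_lit 1) (nat_lit 131) (nat_lit 1) (nat_lit 274) (nat_lit 357) (nat_lit 269))) (XT.nd (nat_lit 78) (nat_lit 152) (nat_lit 0) (XT.lf (nat_lit 76) (nat_lit 48867717232) (nat_lit 0) (nat_lit 48871976761) (nat_lit 76) (nat_lit 48871976761) (nat_lit 129) (nat_lit 3)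 (nat_lit 128) (nat_lit 1) (nat_lit 129) (nat_lit 1) (nat_lit 275) (nat_lit 357) (nat_lit 268)) (XT.nd (nat_lit 78) (nat_lit 0) (nat_lit 0) (XT.lf (nat_lit 152) (nat_lit 140234966681) (nat_lit 0) (nat_lit 1122405) (nat_lit 76) (nat_lit 1122405) (nat_lit 128) (nat_lit 1) (nat_lit 126) (nat_lit 1) (nat_lit 127) (nat_lit 1) (nat_lit 276) (nat_lit 357) (nat_lit 267)) (XT.lf (nat_lit 0) (nat_lit 44518814089) (nat_lit 0) (nat_lit 44521614799) (nat_lit 152) (nat_lit 44518814089) (nat_lit 126) (nat_lit 3) (nat_lit 126) (nat_lit 1) (nat_lit 128) (nat_lit 1) (nat_lit 277) (nat_lit 357) (nat_lit 266))))) (XT.nd (nat_lit 234) (nat_lit 228) (nat_lit 0) (XT.nd (nat_lit 78) (nat_lit 152) (nat_lit 0) (XT.lf (nat_lit 76) (nat_lit 42494493631) (nat_lit 0) (nat_lit 42496929030) (nat_lit 76) (nat_lit 42496929030) (nat_lit 126) (nat_lit 3) (nat_lit 125) (nat_lit 1) (nat_lit 126) (nat_lit 1) (nat_lit 278) (nat_lit 357)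 (nat_lit 265)) (XT.nd (nat_lit 78) (nat_lit 0) (nat_lit 0) (XT.lf (nat_lit 152) (nat_lit 121944074219) (nat_lit 0) (nat_lit 641739) (nat_lit 76) (nat_lit 641739) (nat_lit 125) (nat_lit 1) (nat_lit 123) (nat_lit 1) (nat_lit 124) (nat_lit 1) (nat_lit 279) (nat_lit 357) (nat_lit 264)) (XT.lf (nat_lit 0) (nat_lit 38712277040) (nat_lit 0) (nat_lit 38713878355) (nat_lit 152) (nat_lit 38712277040) (nat_lit 123) (nat_lit 3) (nat_lit 123) (nat_lit 1) (nat_lit 125) (nat_lit 1) (nat_lit 280) (nat_lit 357) (nat_lit 263)))) (XT.nd (nat_lit 78) (nat_lit 152) (nat_lit 0) (XT.lf (nat_lit 76) (nat_lit 36952206130) (nat_lit 0) (nat_lit 36953598578) (nat_lit 76) (nat_lit 36953598578) (nat_lit 123) (nat_lit 3) (nat_lit 122) (nat_lit 1) (nat_lit 123) (nat_lit 1) (nat_lit 281) (nat_lit 357) (nat_lit 262)) (XT.nd (nat_lit 78) (nat_lit 0) (nat_lit 0) (XT.lf (nat_lit 152) (nat_lit 106038682715) (nat_lit 0) (nat_lit 366916)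 (nat_lit 76) (nat_lit 366916) (nat_lit 122) (nat_lit 1) (nat_lit 120) (nat_lit 1) (nat_lit 121) (nat_lit 1) (nat_lit 282) (nat_lit 357) (nat_lit 261)) (XT.lf (nat_lit 0) (nat_lit 33663000994) (nat_lit 0) (nat_lit 33663916551) (nat_lit 152) (nat_lit 33663000994) (nat_lit 120) (nat_lit 3) (nat_lit 120) (nat_lit 1) (nat_lit 122) (nat_lit 1) (nat_lit 283) (nat_lit 357) (nat_lit 260)))))) (XT.nd (nat_lit 390) (nat_lit 456) (nat_lit 0) (XT.nd (nat_lit 156) (nat_lit 228) (nat_lit 0) (XT.nd (nat_lit 78) (nat_lit 152) (nat_lit 0) (XT.lf (nat_lit 76) (nat_lit 32132623332) (nat_lit 0) (nat_lit 32133419468) (nat_lit 76) (nat_lit 32133419468) (nat_lit 120) (nat_lit 3) (nat_lit 119) (nat_lit 1) (nat_lit 120) (nat_lit 1) (nat_lit 284) (nat_lit 357) (nat_lit 259)) (XT.lf (nat_lit 152) (nat_lit 92207754478) (nat_lit 0) (nat_lit 209785) (nat_lit 76) (nat_lit 209785) (nat_lit 119) (nat_lit 1) (nat_lit 117) (nat_lit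 1) (nat_lit 118) (nat_lit 1) (nat_lit 285) (nat_lit 357) (nat_lit 258))) (XT.nd (nat_lit 78) (nat_lit 228) (nat_lit 0) (XT.lf (nat_lit 0) (nat_lit 29272261337) (nat_lit 0) (nat_lit 29272784810) (nat_lit 152) (nat_lit 29272261337) (nat_lit 117) (nat_lit 3) (nat_lit 117) (nat_lit 1) (nat_lit 119) (nat_lit 1) (nat_lit 286) (nat_lit 357) (nat_lit 257)) (XT.nd (nat_lit 78) (nat_lit 152) (nat_lit 0) (XT.lf (nat_lit 76) (nat_lit 27941566066) (nat_lit 0) (nat_lit 27942021260) (nat_lit 76) (nat_lit 27942021260) (nat_lit 117) (nat_lit 3) (nat_lit 116) (nat_lit 1) (nat_lit 117) (nat_lit 1) (nat_lit 287) (nat_lit 357) (nat_lit 256)) (XT.lf (nat_lit 152) (nat_lit 80180772872) (nat_lit 0) (nat_lit 119945) (nat_lit 76) (nat_lit 119945) (nat_lit 116) (nat_lit 1) (nat_lit 114) (nat_lit 1) (nat_lit 115) (nat_lit 1) (nat_lit 288) (nat_lit 357) (nat_lit 255))))) (XT.nd (nat_lit 234) (nat_lit 228) (nat_lit 0) (XT.nd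 (nat_lit 78) (nat_lit 228) (nat_lit 0) (XT.lf (nat_lit 0) (nat_lit 25454189784) (nat_lit 0) (nat_lit 25454489081) (nat_lit 152) (nat_lit 25454189784) (nat_lit 114) (nat_lit 3) (nat_lit 114) (nat_lit 1) (nat_lit 116) (nat_lit 1) (nat_lit 289) (nat_lit 357) (nat_lit 254)) (XT.nd (nat_lit 78) (nat_lit 152) (nat_lit 0) (XT.lf (nat_lit 76) (nat_lit 24297102291) (nat_lit 0) (nat_lit 24297362550) (nat_lit 76) (nat_lit 24297362550) (nat_lit 114) (nat_lit 3) (nat_lit 113) (nat_lit 1) (nat_lit 114) (nat_lit 1) (nat_lit 290) (nat_lit 357) (nat_lit 253)) (XT.lf (nat_lit 152) (nat_lit 69722477976) (nat_lit 0) (nat_lit 68579) (nat_lit 76) (nat_lit 68579) (nat_lit 113) (nat_lit 1) (nat_lit 111) (nat_lit 1) (nat_lit 112) (nat_lit 1) (nat_lit 291) (nat_lit 357) (nat_lit 252)))) (XT.nd (nat_lit 78) (nat_lit 228) (nat_lit 0) (XT.lf (nat_lit 0) (nat_lit 22134106370) (nat_lit 0) (nat_lit 22134277494) (nat_lit 152)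 (nat_lit 22134106370) (nat_lit 111) (nat_lit 3) (nat_lit 111) (nat_lit 1) (nat_lit 113) (nat_lit 1) (nat_lit 292) (nat_lit 357) (nat_lit 251)) (XT.nd (nat_lit 78) (nat_lit 152) (nat_lit 0) (XT.lf (nat_lit 76) (nat_lit 21127965534) (nat_lit 0) (nat_lit 21128114337) (nat_lit 76) (nat_lit 21128114337) (nat_lit 111) (nat_lit 3) (nat_lit 110) (nat_lit 1) (nat_lit 111) (nat_lit 1) (nat_lit 293) (nat_lit 357) (nat_lit 250)) (XT.lf (nat_lit 152) (nat_lit 60628279902) (nat_lit 0) (nat_lit 39210) (nat_lit 76) (nat_lit 39210) (nat_lit 110) (nat_lit 1) (nat_lit 108) (nat_lit 1) (nat_lit 109) (nat_lit 1) (nat_lit 294) (nat_lit 357) (nat_lit 249))))))) (XT.nd (nat_lit 858) (nat_lit 836) (nat_lit 0) (XT.nd (nat_lit 390) (nat_lit 456) (nat_lit 0) (XT.nd (nat_lit 156) (nat_lit 228) (nat_lit 0) (XT.nd (nat_lit 78) (nat_lit 76) (nat_lit 0) (XT.lf (nat_lit 0) (nat_lit 19247065196) (nat_lit 0) (nat_lit 19247163036)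 (nat_lit 152) (nat_lit 19247065196) (nat_lit 108) (nat_lit 3) (nat_lit 108) (nat_lit 1) (nat_lit 110) (nat_lit 1) (nat_lit 295) (nat_lit 357) (nat_lit 248)) (XT.lf (nat_lit 76) (nat_lit 18372172814) (nat_lit 0) (nat_lit 18372257893) (nat_lit 76) (nat_lit 18372257893) (nat_lit 108) (nat_lit 3) (nat_lit 107) (nat_lit 1) (nat_lit 108) (nat_lit 1) (nat_lit 296) (nat_lit 357) (nat_lit 247))) (XT.nd (nat_lit 78) (nat_lit 76) (nat_lit 0) (XT.lf (nat_lit 152) (nat_lit 52720265224) (nat_lit 0) (nat_lit 22418) (nat_lit 76) (nat_lit 22418) (nat_lit 107) (nat_lit 1) (nat_lit 105) (nat_lit 1) (nat_lit 106) (nat_lit 1) (nat_lit 297) (nat_lit 357) (nat_lit 246)) (XT.nd (nat_lit 78) (nat_lit 76) (nat_lit 0) (XT.lf (nat_lit 0) (nat_lit 16736587681) (nat_lit 0) (nat_lit 16736643622) (nat_lit 152) (nat_lit 16736587681) (nat_lit 105) (nat_lit 3) (nat_lit 105) (nat_lit 1) (nat_lit 107) (nat_lit 1) (nat_lit 298) (nat_lit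 357) (nat_lit 245)) (XT.lf (nat_lit 76) (nat_lit 15975818955) (nat_lit 0) (nat_lit 15975867599) (nat_lit 76) (nat_lit 15975867599) (nat_lit 105) (nat_lit 3) (nat_lit 104) (nat_lit 1) (nat_lit 105) (nat_lit 1) (nat_lit 299) (nat_lit 357) (nat_lit 244))))) (XT.nd (nat_lit 234) (nat_lit 228) (nat_lit 0) (XT.nd (nat_lit 78) (nat_lit 76) (nat_lit 0) (XT.lf (nat_lit 152) (nat_lit 45843721373) (nat_lit 0) (nat_lit 12817) (nat_lit 76) (nat_lit 12817) (nat_lit 104) (nat_lit 1) (nat_lit 102) (nat_lit 1) (nat_lit 103) (nat_lit 1) (nat_lit 300) (nat_lit 357) (nat_lit 243)) (XT.nd (nat_lit 78) (nat_lit 76) (nat_lit 0) (XT.lf (nat_lit 0) (nat_lit 14553559794) (nat_lit 0) (nat_lit 14553591778) (nat_lit 152) (nat_lit 14553559794) (nat_lit 102) (nat_lit 3) (nat_lit 102) (nat_lit 1) (nat_lit 104) (nat_lit 1) (nat_lit 301) (nat_lit 357) (nat_lit 242)) (XT.lf (nat_lit 76) (nat_lit 13892025921) (nat_lit 0) (nat_lit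 13892053733) (nat_lit 76) (nat_lit 13892053733) (nat_lit 102) (nat_lit 3) (nat_lit 101) (nat_lit 1) (nat_lit 102) (nat_lit 1) (nat_lit 302) (nat_lit 357) (nat_lit 241)))) (XT.nd (nat_lit 78) (nat_lit 76) (nat_lit 0) (XT.lf (nat_lit 152) (nat_lit 39864112678) (nat_lit 0) (nat_lit 7328) (nat_lit 76) (nat_lit 7328) (nat_lit 101) (nat_lit 1) (nat_lit 99) (nat_lit 1) (nat_lit 100) (nat_lit 1) (nat_lit 303) (nat_lit 357) (nat_lit 240)) (XT.nd (nat_lit 78) (nat_lit 76) (nat_lit 0) (XT.lf (nat_lit 0) (nat_lit 12655272410) (nat_lit 0) (nat_lit 12655290697) (nat_lit 152) (nat_lit 12655272410) (nat_lit 99) (nat_lit 3) (nat_lit 99) (nat_lit 1) (nat_lit 101) (nat_lit 1) (nat_lit 304) (nat_lit 357) (nat_lit 239)) (XT.lf (nat_lit 76) (nat_lit 12080027936) (nat_lit 0) (nat_lit 12080043838) (nat_lit 76) (nat_lit 12080043838) (nat_lit 99) (nat_lit 3) (nat_lit 98) (nat_lit 1) (nat_lit 99) (nat_lit 1) (nat_lit 305)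 (nat_lit 357) (nat_lit 238)))))) (XT.nd (nat_lit 390) (nat_lit 456) (nat_lit 0) (XT.nd (nat_lit 156) (nat_lit 228) (nat_lit 0) (XT.nd (nat_lit 78) (nat_lit 0) (nat_lit 0) (XT.lf (nat_lit 152) (nat_lit 34664449888) (nat_lit 0) (nat_lit 4190) (nat_lit 76) (nat_lit 4190) (nat_lit 98) (nat_lit 1) (nat_lit 96) (nat_lit 1) (nat_lit 97) (nat_lit 1) (nat_lit 306) (nat_lit 357) (nat_lit 237)) (XT.lf (nat_lit 0) (nat_lit 11004586433) (nat_lit 0) (nat_lit 11004596889) (nat_lit 152) (nat_lit 11004586433) (nat_lit 96) (nat_lit 3) (nat_lit 96) (nat_lit 1) (nat_lit 98) (nat_lit 1) (nat_lit 307) (nat_lit 357) (nat_lit 236))) (XT.nd (nat_lit 78) (nat_lit 152) (nat_lit 0) (XT.lf (nat_lit 76) (nat_lit 10504375204) (nat_lit 0) (nat_lit 10504384296) (nat_lit 76) (nat_lit 10504384296) (nat_lit 96) (nat_lit 3) (nat_lit 95) (nat_lit 1) (nat_lit 96) (nat_lit 1) (nat_lit 308) (nat_lit 357) (nat_lit 235)) (XT.nd (nat_lit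 78) (nat_lit 0) (nat_lit 0) (XT.lf (nat_lit 152) (nat_lit 30143002235) (nat_lit 0) (nat_lit 2395) (nat_lit 76) (nat_lit 2395) (nat_lit 95) (nat_lit 1) (nat_lit 93) (nat_lit 1) (nat_lit 94) (nat_lit 1) (nat_lit 309) (nat_lit 357) (nat_lit 234)) (XT.lf (nat_lit 0) (nat_lit 9569206583) (nat_lit 0) (nat_lit 9569212561) (nat_lit 152) (nat_lit 9569206583) (nat_lit 93) (nat_lit 3) (nat_lit 93) (nat_lit 1) (nat_lit 95) (nat_lit 1) (nat_lit 310) (nat_lit 357) (nat_lit 233))))) (XT.nd (nat_lit 234) (nat_lit 228) (nat_lit 0) (XT.nd (nat_lit 78) (nat_lit 152) (nat_lit 0) (XT.lf (nat_lit 76) (nat_lit 9134241072) (nat_lit 0) (nat_lit 9134246270) (nat_lit 76) (nat_lit 9134246270) (nat_lit 93) (nat_lit 3) (nat_lit 92) (nat_lit 1) (nat_lit 93) (nat_lit 1) (nat_lit 311) (nat_lit 357) (nat_lit 232)) (XT.nd (nat_lit 78) (nat_lit 0) (nat_lit 0) (XT.lf (nat_lit 152) (nat_lit 26211307625) (nat_lit 0) (nat_lit 1369) (nat_lit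 76) (nat_lit 1369) (nat_lit 92) (nat_lit 1) (nat_lit 90) (nat_lit 1) (nat_lit 91) (nat_lit 1) (nat_lit 312) (nat_lit 357) (nat_lit 231)) (XT.lf (nat_lit 0) (nat_lit 8321049767) (nat_lit 0) (nat_lit 8321053185) (nat_lit 152) (nat_lit 8321049767) (nat_lit 90) (nat_lit 3) (nat_lit 90) (nat_lit 1) (nat_lit 92) (nat_lit 1) (nat_lit 313) (nat_lit 357) (nat_lit 230)))) (XT.nd (nat_lit 78) (nat_lit 152) (nat_lit 0) (XT.lf (nat_lit 76) (nat_lit 7942819332) (nat_lit 0) (nat_lit 7942822304) (nat_lit 76) (nat_lit 7942822304) (nat_lit 90) (nat_lit 3) (nat_lit 89) (nat_lit 1) (nat_lit 90) (nat_lit 1) (nat_lit 314) (nat_lit 357) (nat_lit 229)) (XT.nd (nat_lit 78) (nat_lit 0) (nat_lit 0) (XT.lf (nat_lit 152) (nat_lit 22792442176) (nat_lit 0) (nat_lit 783) (nat_lit 76) (nat_lit 783) (nat_lit 89) (nat_lit 1) (nat_lit 87) (nat_lit 1) (nat_lit 88) (nat_lit 1) (nat_lit 315) (nat_lit 357) (nat_lit 228)) (XT.lf (nat_lit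 0) (nat_lit 7235695773) (nat_lit 0) (nat_lit 7235697727) (nat_lit 152) (nat_lit 7235695773) (nat_lit 87) (nat_lit 3) (nat_lit 87) (nat_lit 1) (nat_lit 89) (nat_lit 1) (nat_lit 316) (nat_lit 357) (nat_lit 227))))))))
noncomputable def ec189 : XT := (XT.nd (nat_lit 1716) (nat_lit 1748) (nat_lit 0) (XT.nd (nat_lit 858) (nat_lit 760) (nat_lit 0) (XT.nd (nat_lit 390) (nat_lit 456) (nat_lit 0) (XT.nd (nat_lit 156) (nat_lit 228) (nat_lit 0) (XT.nd (nat_lit 78) (nat_lit 152) (nat_lit 0) (XT.lf (nat_lit 76) (nat_lit 6906799996) (nat_lit 0) (nat_lit 6906801695) (nat_lit 76) (nat_lit 6906801695) (nat_lit 87) (nat_lit 3) (nat_lit 86) (nat_lit 1) (nat_lit 87) (nat_lit 1) (nat_lit 317) (nat_lit 357) (nat_lit 226)) (XT.lf (nat_lit 152) (nat_lit 19819515372) (nat_lit 0) (nat_lit 447) (nat_lit 76) (nat_lit 447) (nat_lit 86) (nat_lit 1) (nat_lit 84) (nat_lit 1) (nat_lit 85) (nat_lit 1) (nat_lit 318) (nat_lit 357)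 (nat_lit 225))) (XT.nd (nat_lit 78) (nat_lit 228) (nat_lit 0) (XT.lf (nat_lit 0) (nat_lit 6291909553) (nat_lit 0) (nat_lit 6291910670) (nat_lit 152) (nat_lit 6291909553) (nat_lit 84) (nat_lit 3) (nat_lit 84) (nat_lit 1) (nat_lit 86) (nat_lit 1) (nat_lit 319) (nat_lit 357) (nat_lit 224)) (XT.nd (nat_lit 78) (nat_lit 152) (nat_lit 0) (XT.lf (nat_lit 76) (nat_lit 6005913369) (nat_lit 0) (nat_lit 6005914341) (nat_lit 76) (nat_lit 6005914341) (nat_lit 84) (nat_lit 3) (nat_lit 83) (nat_lit 1) (nat_lit 84) (nat_lit 1) (nat_lit 320) (nat_lit 357) (nat_lit 223)) (XT.lf (nat_lit 152) (nat_lit 17234361442) (nat_lit 0) (nat_lit 256) (nat_lit 76) (nat_lit 256) (nat_lit 83) (nat_lit 1) (nat_lit 81) (nat_lit 1) (nat_lit 82) (nat_lit 1) (nat_lit 321) (nat_lit 357) (nat_lit 222))))) (XT.nd (nat_lit 234) (nat_lit 228) (nat_lit 0) (XT.nd (nat_lit 78) (nat_lit 228) (nat_lit 0) (XT.lf (nat_lit 0) (nat_lit 5471225803)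 (nat_lit 0) (nat_lit 5471226442) (nat_lit 152) (nat_lit 5471225803) (nat_lit 81) (nat_lit 3) (nat_lit 81) (nat_lit 1) (nat_lit 83) (nat_lit 1) (nat_lit 322) (nat_lit 357) (nat_lit 221)) (XT.nd (nat_lit 78) (nat_lit 152) (nat_lit 0) (XT.lf (nat_lit 76) (nat_lit 5222533553) (nat_lit 0) (nat_lit 5222534109) (nat_lit 76) (nat_lit 5222534109) (nat_lit 81) (nat_lit 3) (nat_lit 80) (nat_lit 1) (nat_lit 81) (nat_lit 1) (nat_lit 323) (nat_lit 357) (nat_lit 220)) (XT.lf (nat_lit 152) (nat_lit 14986401396) (nat_lit 0) (nat_lit 146) (nat_lit 76) (nat_lit 146) (nat_lit 80) (nat_lit 1) (nat_lit 78) (nat_lit 1) (nat_lit 79) (nat_lit 1) (nat_lit 324) (nat_lit 357) (nat_lit 219)))) (XT.nd (nat_lit 78) (nat_lit 228) (nat_lit 0) (XT.lf (nat_lit 0) (nat_lit 4757587715) (nat_lit 0) (nat_lit 4757588081) (nat_lit 152) (nat_lit 4757587715) (nat_lit 78) (nat_lit 3) (nat_lit 78) (nat_lit 1) (nat_lit 80) (nat_lit 1) (nat_lit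 325) (nat_lit 357) (nat_lit 218)) (XT.nd (nat_lit 78) (nat_lit 152) (nat_lit 0) (XT.lf (nat_lit 76) (nat_lit 4541333632) (nat_lit 0) (nat_lit 4541333950) (nat_lit 76) (nat_lit 4541333950) (nat_lit 78) (nat_lit 3) (nat_lit 77) (nat_lit 1) (nat_lit 78) (nat_lit 1) (nat_lit 326) (nat_lit 357) (nat_lit 217)) (XT.lf (nat_lit 152) (nat_lit 13031653470) (nat_lit 0) (nat_lit 83) (nat_lit 76) (nat_lit 83) (nat_lit 77) (nat_lit 1) (nat_lit 75) (nat_lit 1) (nat_lit 76) (nat_lit 1) (nat_lit 327) (nat_lit 357) (nat_lit 216)))))) (XT.nd (nat_lit 390) (nat_lit 456) (nat_lit 0) (XT.nd (nat_lit 156) (nat_lit 228) (nat_lit 0) (XT.nd (nat_lit 78) (nat_lit 76) (nat_lit 0) (XT.lf (nat_lit 0) (nat_lit 4137032831) (nat_lit 0) (nat_lit 4137033039) (nat_lit 152) (nat_lit 4137032831) (nat_lit 75) (nat_lit 3) (nat_lit 75) (nat_lit 1) (nat_lit 77) (nat_lit 1) (nat_lit 328) (nat_lit 357) (nat_lit 215)) (XT.lf (nat_lit 76)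 (nat_lit 3948985829) (nat_lit 0) (nat_lit 3948986010) (nat_lit 76) (nat_lit 3948986010) (nat_lit 75) (nat_lit 3) (nat_lit 74) (nat_lit 1) (nat_lit 75) (nat_lit 1) (nat_lit 329) (nat_lit 357) (nat_lit 214))) (XT.nd (nat_lit 78) (nat_lit 76) (nat_lit 0) (XT.lf (nat_lit 152) (nat_lit 11331872629) (nat_lit 0) (nat_lit 47) (nat_lit 76) (nat_lit 47) (nat_lit 74) (nat_lit 1) (nat_lit 72) (nat_lit 1) (nat_lit 73) (nat_lit 1) (nat_lit 330) (nat_lit 357) (nat_lit 213)) (XT.nd (nat_lit 78) (nat_lit 76) (nat_lit 0) (XT.lf (nat_lit 0) (nat_lit 3597419872) (nat_lit 0) (nat_lit 3597419992) (nat_lit 152) (nat_lit 3597419872) (nat_lit 72) (nat_lit 3) (nat_lit 72) (nat_lit 1) (nat_lit 74) (nat_lit 1) (nat_lit 331) (nat_lit 357) (nat_lit 212)) (XT.lf (nat_lit 76) (nat_lit 3433900756) (nat_lit 0) (nat_lit 3433900860) (nat_lit 76) (nat_lit 3433900860) (nat_lit 72) (nat_lit 3) (nat_lit 71) (nat_lit 1) (nat_lit 72) (nat_lit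 1) (nat_lit 332) (nat_lit 357) (nat_lit 211))))) (XT.nd (nat_lit 234) (nat_lit 228) (nat_lit 0) (XT.nd (nat_lit 78) (nat_lit 76) (nat_lit 0) (XT.lf (nat_lit 152) (nat_lit 9853802312) (nat_lit 0) (nat_lit 27) (nat_lit 76) (nat_lit 27) (nat_lit 71) (nat_lit 1) (nat_lit 69) (nat_lit 1) (nat_lit 70) (nat_lit 1) (nat_lit 333) (nat_lit 357) (nat_lit 210)) (XT.nd (nat_lit 78) (nat_lit 76) (nat_lit 0) (XT.lf (nat_lit 0) (nat_lit 3128191205) (nat_lit 0) (nat_lit 3128191273) (nat_lit 152) (nat_lit 3128191205) (nat_lit 69) (nat_lit 3) (nat_lit 69) (nat_lit 1) (nat_lit 71) (nat_lit 1) (nat_lit 334) (nat_lit 357) (nat_lit 209)) (XT.lf (nat_lit 76) (nat_lit 2986000677) (nat_lit 0) (nat_lit 2986000737) (nat_lit 76) (nat_lit 2986000737) (nat_lit 69) (nat_lit 3) (nat_lit 68) (nat_lit 1) (nat_lit 69) (nat_lit 1) (nat_lit 335) (nat_lit 357) (nat_lit 208)))) (XT.nd (nat_lit 78) (nat_lit 76) (nat_lit 0) (XT.lf (nat_lit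 152) (nat_lit 8568523765) (nat_lit 0) (nat_lit 15) (nat_lit 76) (nat_lit 15) (nat_lit 68) (nat_lit 1) (nat_lit 66) (nat_lit 1) (nat_lit 67) (nat_lit 1) (nat_lit 336) (nat_lit 357) (nat_lit 207)) (XT.nd (nat_lit 78) (nat_lit 76) (nat_lit 0) (XT.lf (nat_lit 0) (nat_lit 2720166271) (nat_lit 0) (nat_lit 2720166310) (nat_lit 152) (nat_lit 2720166271) (nat_lit 66) (nat_lit 3) (nat_lit 66) (nat_lit 1) (nat_lit 68) (nat_lit 1) (nat_lit 337) (nat_lit 357) (nat_lit 206)) (XT.lf (nat_lit 76) (nat_lit 2596522339) (nat_lit 0) (nat_lit 2596522373) (nat_lit 76) (nat_lit 2596522373) (nat_lit 66) (nat_lit 3) (nat_lit 65) (nat_lit 1) (nat_lit 66) (nat_lit 1) (nat_lit 338) (nat_lit 357) (nat_lit 205))))))) (XT.nd (nat_lit 858) (nat_lit 912) (nat_lit 0) (XT.nd (nat_lit 390) (nat_lit 456) (nat_lit 0) (XT.nd (nat_lit 156) (nat_lit 228) (nat_lit 0) (XT.nd (nat_lit 78) (nat_lit 0) (nat_lit 0) (XT.lf (nat_lit 152) (nat_lit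 7450890239) (nat_lit 0) (nat_lit 8) (nat_lit 76) (nat_lit 8) (nat_lit 65) (nat_lit 1) (nat_lit 63) (nat_lit 1) (nat_lit 64) (nat_lit 1) (nat_lit 339) (nat_lit 357) (nat_lit 204)) (XT.lf (nat_lit 0) (nat_lit 2365361979) (nat_lit 0) (nat_lit 2365362001) (nat_lit 152) (nat_lit 2365361979) (nat_lit 63) (nat_lit 3) (nat_lit 63) (nat_lit 1) (nat_lit 65) (nat_lit 1) (nat_lit 340) (nat_lit 357) (nat_lit 203))) (XT.nd (nat_lit 78) (nat_lit 152) (nat_lit 0) (XT.lf (nat_lit 76) (nat_lit 2257845519) (nat_lit 0) (nat_lit 2257845539) (nat_lit 76) (nat_lit 2257845539) (nat_lit 63) (nat_lit 3) (nat_lit 62) (nat_lit 1) (nat_lit 63) (nat_lit 1) (nat_lit 341) (nat_lit 357) (nat_lit 202)) (XT.nd (nat_lit 78) (nat_lit 0) (nat_lit 0) (XT.lf (nat_lit 152) (nat_lit 6479034996) (nat_lit 0) (nat_lit 5) (nat_lit 76) (nat_lit 5) (nat_lit 62) (nat_lit 1) (nat_lit 60) (nat_lit 1) (nat_lit 61) (nat_lit 1) (nat_lit 342) (nat_lit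 357) (nat_lit 201)) (XT.lf (nat_lit 0) (nat_lit 2056836505) (nat_lit 0) (nat_lit 2056836518) (nat_lit 152) (nat_lit 2056836505) (nat_lit 60) (nat_lit 3) (nat_lit 60) (nat_lit 1) (nat_lit 62) (nat_lit 1) (nat_lit 343) (nat_lit 357) (nat_lit 200))))) (XT.nd (nat_lit 234) (nat_lit 228) (nat_lit 0) (XT.nd (nat_lit 78) (nat_lit 152) (nat_lit 0) (XT.lf (nat_lit 76) (nat_lit 1963343933) (nat_lit 0) (nat_lit 1963343944) (nat_lit 76) (nat_lit 1963343944) (nat_lit 60) (nat_lit 3) (nat_lit 59) (nat_lit 1) (nat_lit 60) (nat_lit 1) (nat_lit 344) (nat_lit 357) (nat_lit 199)) (XT.nd (nat_lit 78) (nat_lit 0) (nat_lit 0) (XT.lf (nat_lit 152) (nat_lit 5633943477) (nat_lit 0) (nat_lit 2) (nat_lit 76) (nat_lit 2) (nat_lit 59) (nat_lit 1) (nat_lit 57) (nat_lit 1) (nat_lit 58) (nat_lit 1) (nat_lit 345) (nat_lit 357) (nat_lit 198)) (XT.lf (nat_lit 0) (nat_lit 1788553484) (nat_lit 0) (nat_lit 1788553491) (nat_lit 152)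 (nat_lit 1788553484) (nat_lit 57) (nat_lit 3) (nat_lit 57) (nat_lit 1) (nat_lit 59) (nat_lit 1) (nat_lit 346) (nat_lit 357) (nat_lit 197)))) (XT.nd (nat_lit 78) (nat_lit 152) (nat_lit 0) (XT.lf (nat_lit 76) (nat_lit 1707255596) (nat_lit 0) (nat_lit 1707255603) (nat_lit 76) (nat_lit 1707255603) (nat_lit 57) (nat_lit 3) (nat_lit 56) (nat_lit 1) (nat_lit 57) (nat_lit 1) (nat_lit 347) (nat_lit 357) (nat_lit 196)) (XT.nd (nat_lit 78) (nat_lit 0) (nat_lit 0) (XT.lf (nat_lit 152) (nat_lit 4899081286) (nat_lit 0) (nat_lit 1) (nat_lit 76) (nat_lit 1) (nat_lit 56) (nat_lit 1) (nat_lit 54) (nat_lit 1) (nat_lit 55) (nat_lit 1) (nat_lit 348) (nat_lit 357) (nat_lit 195)) (XT.lf (nat_lit 0) (nat_lit 1555263900) (nat_lit 0) (nat_lit 1555263904) (nat_lit 152) (nat_lit 1555263900) (nat_lit 54) (nat_lit 3) (nat_lit 54) (nat_lit 1) (nat_lit 56) (nat_lit 1) (nat_lit 349) (nat_lit 357) (nat_lit 194)))))) (XT.nd (nat_lit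 468) (nat_lit 456) (nat_lit 0) (XT.nd (nat_lit 234) (nat_lit 228) (nat_lit 0) (XT.nd (nat_lit 78) (nat_lit 152) (nat_lit 0) (XT.lf (nat_lit 76) (nat_lit 1484570085) (nat_lit 0) (nat_lit 1484570089) (nat_lit 76) (nat_lit 1484570089) (nat_lit 54) (nat_lit 3) (nat_lit 53) (nat_lit 1) (nat_lit 54) (nat_lit 1) (nat_lit 350) (nat_lit 357) (nat_lit 193)) (XT.nd (nat_lit 78) (nat_lit 152) (nat_lit 0) (XT.lf (nat_lit 0) (nat_lit 4260070684) (nat_lit 0) (nat_lit 0) (nat_lit 0) (nat_lit 0) (nat_lit 53) (nat_lit 1) (nat_lit 1) (nat_lit 0) (nat_lit 1) (nat_lit 0) (nat_lit 351) (nat_lit 357) (nat_lit 192)) (XT.lf (nat_lit 0) (nat_lit 1352403391) (nat_lit 0) (nat_lit 1352403394) (nat_lit 152) (nat_lit 1352403391) (nat_lit 51) (nat_lit 3) (nat_lit 51) (nat_lit 1) (nat_lit 53) (nat_lit 1) (nat_lit 352) (nat_lit 357) (nat_lit 191)))) (XT.nd (nat_lit 78) (nat_lit 152) (nat_lit 0) (XT.lf (nat_lit 76) (nat_lit 1290930509)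 (nat_lit 0) (nat_lit 1290930511) (nat_lit 76) (nat_lit 1290930511) (nat_lit 51) (nat_lit 3) (nat_lit 50) (nat_lit 1) (nat_lit 51) (nat_lit 1) (nat_lit 353) (nat_lit 357) (nat_lit 190)) (XT.nd (nat_lit 78) (nat_lit 152) (nat_lit 0) (XT.lf (nat_lit 0) (nat_lit 3704409291) (nat_lit 0) (nat_lit 0) (nat_lit 0) (nat_lit 0) (nat_lit 50) (nat_lit 1) (nat_lit 1) (nat_lit 0) (nat_lit 1) (nat_lit 0) (nat_lit 354) (nat_lit 357) (nat_lit 189)) (XT.lf (nat_lit 0) (nat_lit 1176002949) (nat_lit 0) (nat_lit 1176002951) (nat_lit 152) (nat_lit 1176002949) (nat_lit 48) (nat_lit 3) (nat_lit 48) (nat_lit 1) (nat_lit 50) (nat_lit 1) (nat_lit 355) (nat_lit 357) (nat_lit 188))))) (XT.nd (nat_lit 234) (nat_lit 228) (nat_lit 0) (XT.nd (nat_lit 78) (nat_lit 152) (nat_lit 0) (XT.lf (nat_lit 76) (nat_lit 1122548269) (nat_lit 0) (nat_lit 1122548270) (nat_lit 76) (nat_lit 1122548270) (nat_lit 48) (nat_lit 3) (nat_lit 47) (nat_lit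 1) (nat_lit 48) (nat_lit 1) (nat_lit 356) (nat_lit 357) (nat_lit 187)) (XT.nd (nat_lit 78) (nat_lit 152) (nat_lit 0) (XT.lf (nat_lit 0) (nat_lit 3221225471) (nat_lit 0) (nat_lit 0) (nat_lit 0) (nat_lit 0) (nat_lit 47) (nat_lit 1) (nat_lit 1) (nat_lit 0) (nat_lit 1) (nat_lit 0) (nat_lit 357) (nat_lit 357) (nat_lit 186)) (XT.lf (nat_lit 0) (nat_lit 1022611260) (nat_lit 0) (nat_lit 1022611261) (nat_lit 152) (nat_lit 1022611260) (nat_lit 45) (nat_lit 3) (nat_lit 45) (nat_lit 1) (nat_lit 47) (nat_lit 1) (nat_lit 358) (nat_lit 357) (nat_lit 185)))) (XT.nd (nat_lit 78) (nat_lit 152) (nat_lit 0) (XT.lf (nat_lit 76) (nat_lit 976128930) (nat_lit 0) (nat_lit 976128931) (nat_lit 76) (nat_lit 976128931) (nat_lit 45) (nat_lit 3) (nat_lit 44) (nat_lit 1) (nat_lit 45) (nat_lit 1) (nat_lit 359) (nat_lit 357) (nat_lit 184)) (XT.nd (nat_lit 78) (nat_lit 152) (nat_lit 0) (XT.lf (nat_lit 0) (nat_lit 2801065627) (nat_lit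 0) (nat_lit 0) (nat_lit 0) (nat_lit 0) (nat_lit 44) (nat_lit 1) (nat_lit 1) (nat_lit 0) (nat_lit 1) (nat_lit 0) (nat_lit 360) (nat_lit 357) (nat_lit 183)) (XT.lf (nat_lit 0) (nat_lit 889227183) (nat_lit 0) (nat_lit 889227183) (nat_lit 152) (nat_lit 889227183) (nat_lit 42) (nat_lit 3) (nat_lit 42) (nat_lit 1) (nat_lit 44) (nat_lit 1) (nat_lit 361) (nat_lit 357) (nat_lit 182))))))))
noncomputable def ec190 : XT := (XT.nd (nat_lit 33930) (nat_lit 0) (nat_lit 11476) (XT.nd (nat_lit 33072) (nat_lit 0) (nat_lit 13224) (XT.nd (nat_lit 390) (nat_lit 456) (nat_lit 0) (XT.nd (nat_lit 156) (nat_lit 228) (nat_lit 0) (XT.nd (nat_lit 78) (nat_lit 0) (nat_lit 0) (XT.lf (nat_lit 76) (nat_lit 848807765) (nat_lit 0) (nat_lit 848807766) (nat_lit 76) (nat_lit 848807766) (nat_lit 42) (nat_lit 3) (nat_lit 41) (nat_lit 1) (nat_lit 42) (nat_lit 1) (nat_lit 362) (nat_lit 357) (nat_lit 181)) (XT.lf (nat_lit 0) (nat_lit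 2435709241) (nat_lit 0) (nat_lit 0) (nat_lit 0) (nat_lit 0) (nat_lit 41) (nat_lit 1) (nat_lit 1) (nat_lit 0) (nat_lit 1) (nat_lit 0) (nat_lit 363) (nat_lit 357) (nat_lit 180))) (XT.nd (nat_lit 78) (nat_lit 76) (nat_lit 0) (XT.lf (nat_lit 0) (nat_lit 773241028) (nat_lit 0) (nat_lit 773241029) (nat_lit 152) (nat_lit 773241028) (nat_lit 39) (nat_lit 3) (nat_lit 39) (nat_lit 1) (nat_lit 41) (nat_lit 1) (nat_lit 364) (nat_lit 357) (nat_lit 179)) (XT.nd (nat_lit 78) (nat_lit 0) (nat_lit 0) (XT.lf (nat_lit 76) (nat_lit 738093709) (nat_lit 0) (nat_lit 738093709) (nat_lit 76) (nat_lit 738093709) (nat_lit 39) (nat_lit 3) (nat_lit 38) (nat_lit 1) (nat_lit 39) (nat_lit 1) (nat_lit 365) (nat_lit 357) (nat_lit 178)) (XT.lf (nat_lit 0) (nat_lit 2118008036) (nat_lit 0) (nat_lit 0) (nat_lit 0) (nat_lit 0) (nat_lit 38) (nat_lit 1) (nat_lit 1) (nat_lit 0) (nat_lit 1) (nat_lit 0) (nat_lit 366) (nat_lit 357) (nat_lit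 177))))) (XT.nd (nat_lit 234) (nat_lit 228) (nat_lit 0) (XT.nd (nat_lit 78) (nat_lit 76) (nat_lit 0) (XT.lf (nat_lit 0) (nat_lit 672383503) (nat_lit 0) (nat_lit 672383503) (nat_lit 152) (nat_lit 672383503) (nat_lit 36) (nat_lit 3) (nat_lit 36) (nat_lit 1) (nat_lit 38) (nat_lit 1) (nat_lit 367) (nat_lit 357) (nat_lit 176)) (XT.nd (nat_lit 78) (nat_lit 0) (nat_lit 0) (XT.lf (nat_lit 76) (nat_lit 641820616) (nat_lit 0) (nat_lit 641820617) (nat_lit 76) (nat_lit 641820617) (nat_lit 36) (nat_lit 3) (nat_lit 35) (nat_lit 1) (nat_lit 36) (nat_lit 1) (nat_lit 368) (nat_lit 357) (nat_lit 175)) (XT.lf (nat_lit 0) (nat_lit 1841746118) (nat_lit 0) (nat_lit 0) (nat_lit 0) (nat_lit 0) (nat_lit 35) (nat_lit 1) (nat_lit 1) (nat_lit 0) (nat_lit 1) (nat_lit 0) (nat_lit 369) (nat_lit 357) (nat_lit 174)))) (XT.nd (nat_lit 78) (nat_lit 76) (nat_lit 0) (XT.lf (nat_lit 0) (nat_lit 584681307) (nat_lit 0) (nat_lit 584681307)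 (nat_lit 152) (nat_lit 584681307) (nat_lit 33) (nat_lit 3) (nat_lit 33) (nat_lit 1) (nat_lit 35) (nat_lit 1) (nat_lit 370) (nat_lit 357) (nat_lit 173)) (XT.nd (nat_lit 32292) (nat_lit 0) (nat_lit 13908) (XT.lf (nat_lit 76) (nat_lit 558104884) (nat_lit 0) (nat_lit 558104884) (nat_lit 76) (nat_lit 558104884) (nat_lit 33) (nat_lit 3) (nat_lit 32) (nat_lit 1) (nat_lit 33) (nat_lit 1) (nat_lit 371) (nat_lit 357) (nat_lit 172)) (XT.lf (nat_lit 380) (nat_lit 2325943594360) (nat_lit 0) (nat_lit 2060145486418) (nat_lit 380) (nat_lit 2325943594360) (nat_lit 220) (nat_lit 1) (nat_lit 215) (nat_lit 0) (nat_lit 220) (nat_lit 0) (nat_lit 184) (nat_lit 358) (nat_lit 358)))))) (XT.nd (nat_lit 390) (nat_lit 532) (nat_lit 0) (XT.nd (nat_lit 156) (nat_lit 152) (nat_lit 0) (XT.nd (nat_lit 78) (nat_lit 0) (nat_lit 76) (XT.lf (nat_lit 380) (nat_lit 8603363506605) (nat_lit 76) (nat_lit 1966502509762) (nat_lit 0) (nat_lit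 1966502509762) (nat_lit 220) (nat_lit 1) (nat_lit 216) (nat_lit 1) (nat_lit 215) (nat_lit 0) (nat_lit 185) (nat_lit 358) (nat_lit 357)) (XT.lf (nat_lit 380) (nat_lit 3792313299469) (nat_lit 0) (nat_lit 4126394604912) (nat_lit 304) (nat_lit 3792313299469) (nat_lit 221) (nat_lit 1) (nat_lit 216) (nat_lit 1) (nat_lit 220) (nat_lit 1) (nat_lit 186) (nat_lit 358) (nat_lit 356))) (XT.nd (nat_lit 78) (nat_lit 228) (nat_lit 0) (XT.lf (nat_lit 380) (nat_lit 6511205027225) (nat_lit 76) (nat_lit 2228829031377) (nat_lit 0) (nat_lit 2228829031377) (nat_lit 221) (nat_lit 1) (nat_lit 217) (nat_lit 1) (nat_lit 216) (nat_lit 1) (nat_lit 187) (nat_lit 358) (nat_lit 355)) (XT.nd (nat_lit 78) (nat_lit 304) (nat_lit 0) (XT.lf (nat_lit 76) (nat_lit 2633868791309) (nat_lit 0) (nat_lit 5015328358485) (nat_lit 304) (nat_lit 2633868791309) (nat_lit 218) (nat_lit 1) (nat_lit 217) (nat_lit 1) (nat_lit 221) (nat_lit 1) (nat_lit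 188) (nat_lit 358) (nat_lit 354)) (XT.lf (nat_lit 380) (nat_lit 3958492072989) (nat_lit 0) (nat_lit 2849246686448) (nat_lit 304) (nat_lit 2849246686448) (nat_lit 218) (nat_lit 1) (nat_lit 213) (nat_lit 1) (nat_lit 217) (nat_lit 1) (nat_lit 189) (nat_lit 358) (nat_lit 353))))) (XT.nd (nat_lit 234) (nat_lit 152) (nat_lit 0) (XT.nd (nat_lit 78) (nat_lit 380) (nat_lit 0) (XT.lf (nat_lit 76) (nat_lit 1315759047133) (nat_lit 0) (nat_lit 6456462622403) (nat_lit 380) (nat_lit 1315759047133) (nat_lit 214) (nat_lit 1) (nat_lit 213) (nat_lit 1) (nat_lit 218) (nat_lit 1) (nat_lit 190) (nat_lit 358) (nat_lit 352)) (XT.nd (nat_lit 78) (nat_lit 228) (nat_lit 0) (XT.lf (nat_lit 228) (nat_lit 1184152104240) (nat_lit 0) (nat_lit 3685381234355) (nat_lit 152) (nat_lit 3685381234355) (nat_lit 214) (nat_lit 1) (nat_lit 211) (nat_lit 1) (nat_lit 213) (nat_lit 1) (nat_lit 191) (nat_lit 358) (nat_lit 351)) (XT.lf (nat_lit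 228) (nat_lit 7957487240697) (nat_lit 0) (nat_lit 62434533459) (nat_lit 152) (nat_lit 62434533459) (nat_lit 211) (nat_lit 1) (nat_lit 208) (nat_lit 1) (nat_lit 210) (nat_lit 1) (nat_lit 192) (nat_lit 358) (nat_lit 350)))) (XT.nd (nat_lit 78) (nat_lit 152) (nat_lit 0) (XT.lf (nat_lit 76) (nat_lit 3057317460323) (nat_lit 0) (nat_lit 1500980133122) (nat_lit 228) (nat_lit 3057317460323) (nat_lit 209) (nat_lit 1) (nat_lit 208) (nat_lit 1) (nat_lit 211) (nat_lit 1) (nat_lit 193) (nat_lit 358) (nat_lit 349)) (XT.nd (nat_lit 78) (nat_lit 0) (nat_lit 0) (XT.lf (nat_lit 228) (nat_lit 4443928272652) (nat_lit 0) (nat_lit 1378462864774) (nat_lit 152) (nat_lit 1378462864775) (nat_lit 209) (nat_lit 1) (nat_lit 206) (nat_lit 1) (nat_lit 208) (nat_lit 1) (nat_lit 194) (nat_lit 358) (nat_lit 348)) (XT.lf (nat_lit 76) (nat_lit 1389762125531) (nat_lit 0) (nat_lit 4033065928209) (nat_lit 228) (nat_lit 1389762125531)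 (nat_lit 207) (nat_lit 1) (nat_lit 206) (nat_lit 1) (nat_lit 209) (nat_lit 1) (nat_lit 195) (nat_lit 358) (nat_lit 347))))))) (XT.nd (nat_lit 858) (nat_lit 912) (nat_lit 0) (XT.nd (nat_lit 390) (nat_lit 456) (nat_lit 0) (XT.nd (nat_lit 156) (nat_lit 76) (nat_lit 0) (XT.nd (nat_lit 78) (nat_lit 228) (nat_lit 0) (XT.lf (nat_lit 152) (nat_lit 1148895227646) (nat_lit 0) (nat_lit 2651081388980) (nat_lit 76) (nat_lit 2651081388980) (nat_lit 207) (nat_lit 1) (nat_lit 205) (nat_lit 1) (nat_lit 206) (nat_lit 1) (nat_lit 196) (nat_lit 358) (nat_lit 346)) (XT.lf (nat_lit 228) (nat_lit 5816382990270) (nat_lit 0) (nat_lit 154518167112) (nat_lit 152) (nat_lit 154518167112) (nat_lit 205) (nat_lit 1) (nat_lit 202) (nat_lit 1) (nat_lit 204) (nat_lit 1) (nat_lit 197) (nat_lit 358) (nat_lit 345))) (XT.nd (nat_lit 78) (nat_lit 76) (nat_lit 0) (XT.lf (nat_lit 76) (nat_lit 2035608950938) (nat_lit 0) (nat_lit 1728705536440)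 (nat_lit 228) (nat_lit 2035608950938) (nat_lit 203) (nat_lit 1) (nat_lit 202) (nat_lit 1) (nat_lit 205) (nat_lit 1) (nat_lit 198) (nat_lit 358) (nat_lit 344)) (XT.nd (nat_lit 78) (nat_lit 0) (nat_lit 0) (XT.lf (nat_lit 152) (nat_lit 2475105518020) (nat_lit 0) (nat_lit 1515764388481) (nat_lit 76) (nat_lit 1515764388481) (nat_lit 203) (nat_lit 1) (nat_lit 201) (nat_lit 1) (nat_lit 202) (nat_lit 1) (nat_lit 199) (nat_lit 358) (nat_lit 343)) (XT.lf (nat_lit 0) (nat_lit 484659769223) (nat_lit 0) (nat_lit 4266907392654) (nat_lit 152) (nat_lit 484659769223) (nat_lit 201) (nat_lit 3) (nat_lit 201) (nat_lit 1) (nat_lit 203) (nat_lit 1) (nat_lit 200) (nat_lit 358) (nat_lit 342))))) (XT.nd (nat_lit 234) (nat_lit 228) (nat_lit 0) (XT.nd (nat_lit 78) (nat_lit 76) (nat_lit 0) (XT.lf (nat_lit 76) (nat_lit 2243003367990) (nat_lit 0) (nat_lit 486468655304) (nat_lit 152) (nat_lit 2243003367990) (nat_lit 200) (nat_lit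 1) (nat_lit 199) (nat_lit 1) (nat_lit 201) (nat_lit 1) (nat_lit 201) (nat_lit 358) (nat_lit 341)) (XT.nd (nat_lit 78) (nat_lit 0) (nat_lit 0) (XT.lf (nat_lit 152) (nat_lit 2996211302476) (nat_lit 0) (nat_lit 866643208668) (nat_lit 76) (nat_lit 866643208668) (nat_lit 200) (nat_lit 1) (nat_lit 198) (nat_lit 1) (nat_lit 199) (nat_lit 1) (nat_lit 202) (nat_lit 358) (nat_lit 340)) (XT.lf (nat_lit 0) (nat_lit 779030141891) (nat_lit 0) (nat_lit 2941542496224) (nat_lit 152) (nat_lit 779030141891) (nat_lit 198) (nat_lit 3) (nat_lit 198) (nat_lit 1) (nat_lit 200) (nat_lit 1) (nat_lit 203) (nat_lit 358) (nat_lit 339)))) (XT.nd (nat_lit 78) (nat_lit 152) (nat_lit 0) (XT.lf (nat_lit 76) (nat_lit 173787703470) (nat_lit 0) (nat_lit 2054233228977) (nat_lit 76) (nat_lit 2054233228977) (nat_lit 198) (nat_lit 3) (nat_lit 197) (nat_lit 1) (nat_lit 198) (nat_lit 1) (nat_lit 204) (nat_lit 358) (nat_lit 338)) (XT.nd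 (nat_lit 78) (nat_lit 0) (nat_lit 0) (XT.lf (nat_lit 152) (nat_lit 3087929788293) (nat_lit 0) (nat_lit 495506067327) (nat_lit 76) (nat_lit 495506067327) (nat_lit 197) (nat_lit 1) (nat_lit 195) (nat_lit 1) (nat_lit 196) (nat_lit 1) (nat_lit 205) (nat_lit 358) (nat_lit 337)) (XT.lf (nat_lit 0) (nat_lit 881868964936) (nat_lit 0) (nat_lit 2118292422161) (nat_lit 152) (nat_lit 881868964936) (nat_lit 195) (nat_lit 3) (nat_lit 195) (nat_lit 1) (nat_lit 197) (nat_lit 1) (nat_lit 206) (nat_lit 358) (nat_lit 336)))))) (XT.nd (nat_lit 468) (nat_lit 456) (nat_lit 0) (XT.nd (nat_lit 234) (nat_lit 228) (nat_lit 0) (XT.nd (nat_lit 78) (nat_lit 152) (nat_lit 0) (XT.lf (nat_lit 76) (nat_lit 515980729448) (nat_lit 0) (nat_lit 1591131561818) (nat_lit 76) (nat_lit 1591131561818) (nat_lit 195) (nat_lit 3) (nat_lit 194) (nat_lit 1) (nat_lit 195) (nat_lit 1) (nat_lit 207) (nat_lit 358) (nat_lit 335)) (XT.nd (nat_lit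 78) (nat_lit 0) (nat_lit 0) (XT.lf (nat_lit 152) (nat_lit 2961043662637) (nat_lit 0) (nat_lit 283307202205) (nat_lit 76) (nat_lit 283307202205) (nat_lit 194) (nat_lit 1) (nat_lit 192) (nat_lit 1) (nat_lit 193) (nat_lit 1) (nat_lit 208) (nat_lit 358) (nat_lit 334)) (XT.lf (nat_lit 0) (nat_lit 883738358451) (nat_lit 0) (nat_lit 1590667483047) (nat_lit 152) (nat_lit 883738358451) (nat_lit 192) (nat_lit 3) (nat_lit 192) (nat_lit 1) (nat_lit 194) (nat_lit 1) (nat_lit 209) (nat_lit 358) (nat_lit 333)))) (XT.nd (nat_lit 78) (nat_lit 152) (nat_lit 0) (XT.lf (nat_lit 76) (nat_lit 657289348852) (nat_lit 0) (nat_lit 1272010326761) (nat_lit 76) (nat_lit 1272010326761) (nat_lit 192) (nat_lit 3) (nat_lit 191) (nat_lit 1) (nat_lit 192) (nat_lit 1) (nat_lit 210) (nat_lit 358) (nat_lit 332)) (XT.nd (nat_lit 78) (nat_lit 0) (nat_lit 0) (XT.lf (nat_lit 152) (nat_lit 2732560049688) (nat_lit 0) (nat_lit 161981812360)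 (nat_lit 76) (nat_lit 161981812360) (nat_lit 191) (nat_lit 1) (nat_lit 189) (nat_lit 1) (nat_lit 190) (nat_lit 1) (nat_lit 211) (nat_lit 358) (nat_lit 331)) (XT.lf (nat_lit 0) (nat_lit 835303679535) (nat_lit 0) (nat_lit 1239492700927) (nat_lit 152) (nat_lit 835303679535) (nat_lit 189) (nat_lit 3) (nat_lit 189) (nat_lit 1) (nat_lit 191) (nat_lit 1) (nat_lit 212) (nat_lit 358) (nat_lit 330))))) (XT.nd (nat_lit 234) (nat_lit 228) (nat_lit 0) (XT.nd (nat_lit 78) (nat_lit 152) (nat_lit 0) (XT.lf (nat_lit 76) (nat_lit 690829659479) (nat_lit 0) (nat_lit 1042298373733) (nat_lit 76) (nat_lit 1042298373733) (nat_lit 189) (nat_lit 3) (nat_lit 188) (nat_lit 1) (nat_lit 189) (nat_lit 1) (nat_lit 213) (nat_lit 358) (nat_lit 329)) (XT.nd (nat_lit 78) (nat_lit 0) (nat_lit 0) (XT.lf (nat_lit 152) (nat_lit 2466327229563) (nat_lit 0) (nat_lit 92613626944) (nat_lit 76) (nat_lit 92613626944) (nat_lit 188) (nat_lit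 1) (nat_lit 186) (nat_lit 1) (nat_lit 187) (nat_lit 1) (nat_lit 214) (nat_lit 358) (nat_lit 328)) (XT.lf (nat_lit 0) (nat_lit 764564463600) (nat_lit 0) (nat_lit 995660848414) (nat_lit 152) (nat_lit 764564463600) (nat_lit 186) (nat_lit 3) (nat_lit 186) (nat_lit 1) (nat_lit 188) (nat_lit 1) (nat_lit 215) (nat_lit 358) (nat_lit 327)))) (XT.nd (nat_lit 78) (nat_lit 152) (nat_lit 0) (XT.lf (nat_lit 76) (nat_lit 668916570376) (nat_lit 0) (nat_lit 869869948475) (nat_lit 76) (nat_lit 869869948475) (nat_lit 186) (nat_lit 3) (nat_lit 185) (nat_lit 1) (nat_lit 186) (nat_lit 1) (nat_lit 216) (nat_lit 358) (nat_lit 326)) (XT.nd (nat_lit 78) (nat_lit 0) (nat_lit 0) (XT.lf (nat_lit 152) (nat_lit 2196197687220) (nat_lit 0) (nat_lit 52952141791) (nat_lit 76) (nat_lit 52952141791) (nat_lit 185) (nat_lit 1) (nat_lit 183) (nat_lit 1) (nat_lit 184) (nat_lit 1) (nat_lit 217) (nat_lit 358) (nat_lit 325)) (XT.lf (nat_lit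 0) (nat_lit 686687321154) (nat_lit 0) (nat_lit 818817429217) (nat_lit 152) (nat_lit 686687321154) (nat_lit 183) (nat_lit 3) (nat_lit 183) (nat_lit 1) (nat_lit 185) (nat_lit 1) (nat_lit 218) (nat_lit 358) (nat_lit 324))))))))
noncomputable def ec191 : XT := (XT.nd (nat_lit 1716) (nat_lit 1748) (nat_lit 0) (XT.nd (nat_lit 858) (nat_lit 760) (nat_lit 0) (XT.nd (nat_lit 390) (nat_lit 456) (nat_lit 0) (XT.nd (nat_lit 156) (nat_lit 228) (nat_lit 0) (XT.nd (nat_lit 78) (nat_lit 152) (nat_lit 0) (XT.lf (nat_lit 76) (nat_lit 620657368332) (nat_lit 0) (nat_lit 735553114473) (nat_lit 76) (nat_lit 735553114473) (nat_lit 183) (nat_lit 3) (nat_lit 182) (nat_lit 1) (nat_lit 183) (nat_lit 1) (nat_lit 219) (nat_lit 358) (nat_lit 323)) (XT.lf (nat_lit 152) (nat_lit 1939219754782) (nat_lit 0) (nat_lit 30275558930) (nat_lit 76) (nat_lit 30275558930) (nat_lit 182) (nat_lit 1) (nat_lit 180) (nat_lit 1) (nat_lit 181)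 (nat_lit 1) (nat_lit 220) (nat_lit 358) (nat_lit 322))) (XT.nd (nat_lit 78) (nat_lit 228) (nat_lit 0) (XT.lf (nat_lit 0) (nat_lit 609611450339) (nat_lit 0) (nat_lit 685157268464) (nat_lit 152) (nat_lit 609611450339) (nat_lit 180) (nat_lit 3) (nat_lit 180) (nat_lit 1) (nat_lit 182) (nat_lit 1) (nat_lit 221) (nat_lit 358) (nat_lit 321)) (XT.nd (nat_lit 78) (nat_lit 152) (nat_lit 0) (XT.lf (nat_lit 76) (nat_lit 561995167518) (nat_lit 0) (nat_lit 627687183279) (nat_lit 76) (nat_lit 627687183279) (nat_lit 180) (nat_lit 3) (nat_lit 179) (nat_lit 1) (nat_lit 180) (nat_lit 1) (nat_lit 222) (nat_lit 358) (nat_lit 320)) (XT.lf (nat_lit 152) (nat_lit 1703134840149) (nat_lit 0) (nat_lit 17310149080) (nat_lit 76) (nat_lit 17310149080) (nat_lit 179) (nat_lit 1) (nat_lit 177) (nat_lit 1) (nat_lit 178) (nat_lit 1) (nat_lit 223) (nat_lit 358) (nat_lit 319))))) (XT.nd (nat_lit 234) (nat_lit 228) (nat_lit 0) (XT.nd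 (nat_lit 78) (nat_lit 228) (nat_lit 0) (XT.lf (nat_lit 0) (nat_lit 537239278119) (nat_lit 0) (nat_lit 580432844823) (nat_lit 152) (nat_lit 537239278119) (nat_lit 177) (nat_lit 3) (nat_lit 177) (nat_lit 1) (nat_lit 179) (nat_lit 1) (nat_lit 224) (nat_lit 358) (nat_lit 318)) (XT.nd (nat_lit 78) (nat_lit 152) (nat_lit 0) (XT.lf (nat_lit 76) (nat_lit 501437606925) (nat_lit 0) (nat_lit 538997230146) (nat_lit 76) (nat_lit 538997230146) (nat_lit 177) (nat_lit 3) (nat_lit 176) (nat_lit 1) (nat_lit 177) (nat_lit 1) (nat_lit 225) (nat_lit 358) (nat_lit 317)) (XT.lf (nat_lit 152) (nat_lit 1490624743351) (nat_lit 0) (nat_lit 9897133918) (nat_lit 76) (nat_lit 9897133918) (nat_lit 176) (nat_lit 1) (nat_lit 174) (nat_lit 1) (nat_lit 175) (nat_lit 1) (nat_lit 226) (nat_lit 358) (nat_lit 316)))) (XT.nd (nat_lit 78) (nat_lit 228) (nat_lit 0) (XT.lf (nat_lit 0) (nat_lit 471248259912) (nat_lit 0) (nat_lit 495944321864)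 (nat_lit 152) (nat_lit 471248259912) (nat_lit 174) (nat_lit 3) (nat_lit 174) (nat_lit 1) (nat_lit 176) (nat_lit 1) (nat_lit 227) (nat_lit 358) (nat_lit 315)) (XT.nd (nat_lit 78) (nat_lit 152) (nat_lit 0) (XT.lf (nat_lit 76) (nat_lit 443320358256) (nat_lit 0) (nat_lit 464795194736) (nat_lit 76) (nat_lit 464795194736) (nat_lit 174) (nat_lit 3) (nat_lit 173) (nat_lit 1) (nat_lit 174) (nat_lit 1) (nat_lit 228) (nat_lit 358) (nat_lit 314)) (XT.lf (nat_lit 152) (nat_lit 1301705944375) (nat_lit 0) (nat_lit 5658718439) (nat_lit 76) (nat_lit 5658718439) (nat_lit 173) (nat_lit 1) (nat_lit 171) (nat_lit 1) (nat_lit 172) (nat_lit 1) (nat_lit 229) (nat_lit 358) (nat_lit 313)))))) (XT.nd (nat_lit 390) (nat_lit 456) (nat_lit 0) (XT.nd (nat_lit 156) (nat_lit 228) (nat_lit 0) (XT.nd (nat_lit 78) (nat_lit 76) (nat_lit 0) (XT.lf (nat_lit 0) (nat_lit 412115947292) (nat_lit 0) (nat_lit 426236000866) (nat_lit 152) (nat_lit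 412115947292) (nat_lit 171) (nat_lit 3) (nat_lit 171) (nat_lit 1) (nat_lit 173) (nat_lit 1) (nat_lit 230) (nat_lit 358) (nat_lit 312)) (XT.lf (nat_lit 76) (nat_lit 389662705004) (nat_lit 0) (nat_lit 401941012460) (nat_lit 76) (nat_lit 401941012460) (nat_lit 171) (nat_lit 3) (nat_lit 170) (nat_lit 1) (nat_lit 171) (nat_lit 1) (nat_lit 231) (nat_lit 358) (nat_lit 311))) (XT.nd (nat_lit 78) (nat_lit 76) (nat_lit 0) (XT.lf (nat_lit 152) (nat_lit 1135068867549) (nat_lit 0) (nat_lit 3235390633) (nat_lit 76) (nat_lit 3235390633) (nat_lit 170) (nat_lit 1) (nat_lit 168) (nat_lit 1) (nat_lit 169) (nat_lit 1) (nat_lit 232) (nat_lit 358) (nat_lit 310)) (XT.nd (nat_lit 78) (nat_lit 76) (nat_lit 0) (XT.lf (nat_lit 0) (nat_lit 359696652344) (nat_lit 0) (nat_lit 367769838803) (nat_lit 152) (nat_lit 359696652344) (nat_lit 168) (nat_lit 3) (nat_lit 168) (nat_lit 1) (nat_lit 170) (nat_lit 1) (nat_lit 233) (nat_lit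 358) (nat_lit 309)) (XT.lf (nat_lit 76) (nat_lit 341219482650) (nat_lit 0) (nat_lit 348239644788) (nat_lit 76) (nat_lit 348239644788) (nat_lit 168) (nat_lit 3) (nat_lit 167) (nat_lit 1) (nat_lit 168) (nat_lit 1) (nat_lit 234) (nat_lit 358) (nat_lit 308))))) (XT.nd (nat_lit 234) (nat_lit 228) (nat_lit 0) (XT.nd (nat_lit 78) (nat_lit 76) (nat_lit 0) (XT.lf (nat_lit 152) (nat_lit 988817803815) (nat_lit 0) (nat_lit 1849845095) (nat_lit 76) (nat_lit 1849845095) (nat_lit 167) (nat_lit 1) (nat_lit 165) (nat_lit 1) (nat_lit 166) (nat_lit 1) (nat_lit 235) (nat_lit 358) (nat_lit 307)) (XT.nd (nat_lit 78) (nat_lit 76) (nat_lit 0) (XT.lf (nat_lit 0) (nat_lit 313542964858) (nat_lit 0) (nat_lit 318158835418) (nat_lit 152) (nat_lit 313542964858) (nat_lit 165) (nat_lit 3) (nat_lit 165) (nat_lit 1) (nat_lit 167) (nat_lit 1) (nat_lit 236) (nat_lit 358) (nat_lit 306)) (XT.lf (nat_lit 76) (nat_lit 298074708732) (nat_lit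 0) (nat_lit 302088509219) (nat_lit 76) (nat_lit 302088509219) (nat_lit 165) (nat_lit 3) (nat_lit 164) (nat_lit 1) (nat_lit 165) (nat_lit 1) (nat_lit 237) (nat_lit 358) (nat_lit 305)))) (XT.nd (nat_lit 78) (nat_lit 76) (nat_lit 0) (XT.lf (nat_lit 152) (nat_lit 860871523260) (nat_lit 0) (nat_lit 1057654937) (nat_lit 76) (nat_lit 1057654937) (nat_lit 164) (nat_lit 1) (nat_lit 162) (nat_lit 1) (nat_lit 163) (nat_lit 1) (nat_lit 238) (nat_lit 358) (nat_lit 304)) (XT.nd (nat_lit 78) (nat_lit 76) (nat_lit 0) (XT.lf (nat_lit 0) (nat_lit 273082456878) (nat_lit 0) (nat_lit 275721595853) (nat_lit 152) (nat_lit 273082456878) (nat_lit 162) (nat_lit 3) (nat_lit 162) (nat_lit 1) (nat_lit 164) (nat_lit 1) (nat_lit 239) (nat_lit 358) (nat_lit 303)) (XT.lf (nat_lit 76) (nat_lit 259974192640) (nat_lit 0) (nat_lit 262269096096) (nat_lit 76) (nat_lit 262269096096) (nat_lit 162) (nat_lit 3) (nat_lit 161) (nat_lit 1)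 (nat_lit 162) (nat_lit 1) (nat_lit 240) (nat_lit 358) (nat_lit 302))))))) (XT.nd (nat_lit 858) (nat_lit 912) (nat_lit 0) (XT.nd (nat_lit 390) (nat_lit 456) (nat_lit 0) (XT.nd (nat_lit 156) (nat_lit 228) (nat_lit 0) (XT.nd (nat_lit 78) (nat_lit 0) (nat_lit 0) (XT.lf (nat_lit 152) (nat_lit 749172813226) (nat_lit 0) (nat_lit 604717643) (nat_lit 76) (nat_lit 604717643) (nat_lit 161) (nat_lit 1) (nat_lit 159) (nat_lit 1) (nat_lit 160) (nat_lit 1) (nat_lit 241) (nat_lit 358) (nat_lit 301)) (XT.lf (nat_lit 0) (nat_lit 237712519372) (nat_lit 0) (nat_lit 239221455646) (nat_lit 152) (nat_lit 237712519372) (nat_lit 159) (nat_lit 3) (nat_lit 159) (nat_lit 1) (nat_lit 161) (nat_lit 1) (nat_lit 242) (nat_lit 358) (nat_lit 300))) (XT.nd (nat_lit 78) (nat_lit 152) (nat_lit 0) (XT.lf (nat_lit 76) (nat_lit 226509793189) (nat_lit 0) (nat_lit 227821911688) (nat_lit 76) (nat_lit 227821911688) (nat_lit 159) (nat_lit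 3) (nat_lit 158) (nat_lit 1) (nat_lit 159) (nat_lit 1) (nat_lit 243) (nat_lit 358) (nat_lit 299)) (XT.nd (nat_lit 78) (nat_lit 0) (nat_lit 0) (XT.lf (nat_lit 152) (nat_lit 651791314223) (nat_lit 0) (nat_lit 345749275) (nat_lit 76) (nat_lit 345749275) (nat_lit 158) (nat_lit 1) (nat_lit 156) (nat_lit 1) (nat_lit 157) (nat_lit 1) (nat_lit 244) (nat_lit 358) (nat_lit 298)) (XT.lf (nat_lit 0) (nat_lit 206849198676) (nat_lit 0) (nat_lit 207711937888) (nat_lit 152) (nat_lit 206849198676) (nat_lit 156) (nat_lit 3) (nat_lit 156) (nat_lit 1) (nat_lit 158) (nat_lit 1) (nat_lit 245) (nat_lit 358) (nat_lit 297))))) (XT.nd (nat_lit 234) (nat_lit 228) (nat_lit 0) (XT.nd (nat_lit 78) (nat_lit 152) (nat_lit 0) (XT.lf (nat_lit 76) (nat_lit 197219626611) (nat_lit 0) (nat_lit 197969834622) (nat_lit 76) (nat_lit 197969834622) (nat_lit 156) (nat_lit 3) (nat_lit 155) (nat_lit 1) (nat_lit 156) (nat_lit 1) (nat_lit 246)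 (nat_lit 358) (nat_lit 296)) (XT.nd (nat_lit 78) (nat_lit 0) (nat_lit 0) (XT.lf (nat_lit 152) (nat_lit 566967561748) (nat_lit 0) (nat_lit 197683270) (nat_lit 76) (nat_lit 197683270) (nat_lit 155) (nat_lit 1) (nat_lit 153) (nat_lit 1) (nat_lit 154) (nat_lit 1) (nat_lit 247) (nat_lit 358) (nat_lit 295)) (XT.lf (nat_lit 0) (nat_lit 179950434784) (nat_lit 0) (nat_lit 180443708728) (nat_lit 152) (nat_lit 179950434784) (nat_lit 153) (nat_lit 3) (nat_lit 153) (nat_lit 1) (nat_lit 155) (nat_lit 1) (nat_lit 248) (nat_lit 358) (nat_lit 294)))) (XT.nd (nat_lit 78) (nat_lit 152) (nat_lit 0) (XT.lf (nat_lit 76) (nat_lit 171640889607) (nat_lit 0) (nat_lit 172069823472) (nat_lit 76) (nat_lit 172069823472) (nat_lit 153) (nat_lit 3) (nat_lit 152) (nat_lit 1) (nat_lit 153) (nat_lit 1) (nat_lit 249) (nat_lit 358) (nat_lit 293)) (XT.nd (nat_lit 78) (nat_lit 0) (nat_lit 0) (XT.lf (nat_lit 152) (nat_lit 493125336960)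 (nat_lit 0) (nat_lit 113026051) (nat_lit 76) (nat_lit 113026051) (nat_lit 152) (nat_lit 1) (nat_lit 150) (nat_lit 1) (nat_lit 151) (nat_lit 1) (nat_lit 250) (nat_lit 358) (nat_lit 292)) (XT.lf (nat_lit 0) (nat_lit 156525274779) (nat_lit 0) (nat_lit 156807305758) (nat_lit 152) (nat_lit 156525274779) (nat_lit 150) (nat_lit 3) (nat_lit 150) (nat_lit 1) (nat_lit 152) (nat_lit 1) (nat_lit 251) (nat_lit 358) (nat_lit 291)))))) (XT.nd (nat_lit 468) (nat_lit 456) (nat_lit 0) (XT.nd (nat_lit 234) (nat_lit 228) (nat_lit 0) (XT.nd (nat_lit 78) (nat_lit 152) (nat_lit 0) (XT.lf (nat_lit 76) (nat_lit 149336173098) (nat_lit 0) (nat_lit 149581417428) (nat_lit 76) (nat_lit 149581417428) (nat_lit 150) (nat_lit 3) (nat_lit 149) (nat_lit 1) (nat_lit 150) (nat_lit 1) (nat_lit 252) (nat_lit 358) (nat_lit 290)) (XT.nd (nat_lit 78) (nat_lit 0) (nat_lit 0) (XT.lf (nat_lit 152) (nat_lit 428867571355) (nat_lit 0) (nat_lit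 64623011) (nat_lit 76) (nat_lit 64623011) (nat_lit 149) (nat_lit 1) (nat_lit 147) (nat_lit 1) (nat_lit 148) (nat_lit 1) (nat_lit 253) (nat_lit 358) (nat_lit 289)) (XT.lf (nat_lit 0) (nat_lit 136135598782) (nat_lit 0) (nat_lit 136296850909) (nat_lit 152) (nat_lit 136135598782) (nat_lit 147) (nat_lit 3) (nat_lit 147) (nat_lit 1) (nat_lit 149) (nat_lit 1) (nat_lit 254) (nat_lit 358) (nat_lit 288)))) (XT.nd (nat_lit 78) (nat_lit 152) (nat_lit 0) (XT.lf (nat_lit 76) (nat_lit 129905126340) (nat_lit 0) (nat_lit 130045345581) (nat_lit 76) (nat_lit 130045345581) (nat_lit 147) (nat_lit 3) (nat_lit 146) (nat_lit 1) (nat_lit 147) (nat_lit 1) (nat_lit 255) (nat_lit 358) (nat_lit 287)) (XT.nd (nat_lit 78) (nat_lit 0) (nat_lit 0) (XT.lf (nat_lit 152) (nat_lit 372964303647) (nat_lit 0) (nat_lit 36948416) (nat_lit 76) (nat_lit 36948416) (nat_lit 146) (nat_lit 1) (nat_lit 144) (nat_lit 1) (nat_lit 145) (nat_lit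 1) (nat_lit 256) (nat_lit 358) (nat_lit 286)) (XT.lf (nat_lit 0) (nat_lit 118394026887) (nat_lit 0) (nat_lit 118486223314) (nat_lit 152) (nat_lit 118394026887) (nat_lit 144) (nat_lit 3) (nat_lit 144) (nat_lit 1) (nat_lit 146) (nat_lit 1) (nat_lit 257) (nat_lit 358) (nat_lit 285))))) (XT.nd (nat_lit 234) (nat_lit 228) (nat_lit 0) (XT.nd (nat_lit 78) (nat_lit 152) (nat_lit 0) (XT.lf (nat_lit 76) (nat_lit 112988186026) (nat_lit 0) (nat_lit 113068356833) (nat_lit 76) (nat_lit 113068356833) (nat_lit 144) (nat_lit 3) (nat_lit 143) (nat_lit 1) (nat_lit 144) (nat_lit 1) (nat_lit 258) (nat_lit 358) (nat_lit 284)) (XT.nd (nat_lit 78) (nat_lit 0) (nat_lit 0) (XT.lf (nat_lit 152) (nat_lit 324337357879) (nat_lit 0) (nat_lit 21125377) (nat_lit 76) (nat_lit 21125377) (nat_lit 143) (nat_lit 1) (nat_lit 141) (nat_lit 1) (nat_lit 142) (nat_lit 1) (nat_lit 259) (nat_lit 358) (nat_lit 283)) (XT.lf (nat_lit 0) (nat_lit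 102960044299) (nat_lit 0) (nat_lit 103012757906) (nat_lit 152) (nat_lit 102960044299) (nat_lit 141) (nat_lit 3) (nat_lit 141) (nat_lit 1) (nat_lit 143) (nat_lit 1) (nat_lit 260) (nat_lit 358) (nat_lit 282)))) (XT.nd (nat_lit 78) (nat_lit 152) (nat_lit 0) (XT.lf (nat_lit 76) (nat_lit 98266152007) (nat_lit 0) (nat_lit 98311989926) (nat_lit 76) (nat_lit 98311989926) (nat_lit 141) (nat_lit 3) (nat_lit 140) (nat_lit 1) (nat_lit 141) (nat_lit 1) (nat_lit 261) (nat_lit 358) (nat_lit 281)) (XT.nd (nat_lit 78) (nat_lit 0) (nat_lit 0) (XT.lf (nat_lit 152) (nat_lit 282044247277) (nat_lit 0) (nat_lit 12078502) (nat_lit 76) (nat_lit 12078502) (nat_lit 140) (nat_lit 1) (nat_lit 138) (nat_lit 1) (nat_lit 139) (nat_lit 1) (nat_lit 262) (nat_lit 358) (nat_lit 280)) (XT.lf (nat_lit 0) (nat_lit 89535457031) (nat_lit 0) (nat_lit 89565596207) (nat_lit 152) (nat_lit 89535457031) (nat_lit 138) (nat_lit 3) (nat_lit 138)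 (nat_lit 1) (nat_lit 140) (nat_lit 1) (nat_lit 263) (nat_lit 358) (nat_lit 279))))))))
noncomputable def ec192 : XT := (XT.nd (nat_lit 1716) (nat_lit 1748) (nat_lit 0) (XT.nd (nat_lit 858) (nat_lit 760) (nat_lit 0) (XT.nd (nat_lit 390) (nat_lit 456) (nat_lit 0) (XT.nd (nat_lit 156) (nat_lit 228) (nat_lit 0) (XT.nd (nat_lit 78) (nat_lit 152) (nat_lit 0) (XT.lf (nat_lit 76) (nat_lit 85457721718) (nat_lit 0) (nat_lit 85483929697) (nat_lit 76) (nat_lit 85483929697) (nat_lit 138) (nat_lit 3) (nat_lit 137) (nat_lit 1) (nat_lit 138) (nat_lit 1) (nat_lit 264) (nat_lit 358) (nat_lit 278)) (XT.lf (nat_lit 152) (nat_lit 245262592253) (nat_lit 0) (nat_lit 6905923) (nat_lit 76) (nat_lit 6905923) (nat_lit 137) (nat_lit 1) (nat_lit 135) (nat_lit 1) (nat_lit 136) (nat_lit 1) (nat_lit 265) (nat_lit 358) (nat_lit 277))) (XT.nd (nat_lit 78) (nat_lit 228) (nat_lit 0) (XT.lf (nat_lit 0) (nat_lit 77859768620) (nat_lit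 0) (nat_lit 77877000792) (nat_lit 152) (nat_lit 77859768620) (nat_lit 135) (nat_lit 3) (nat_lit 135) (nat_lit 1) (nat_lit 137) (nat_lit 1) (nat_lit 266) (nat_lit 358) (nat_lit 276)) (XT.nd (nat_lit 78) (nat_lit 152) (nat_lit 0) (XT.lf (nat_lit 76) (nat_lit 74316147472) (nat_lit 0) (nat_lit 74331131969) (nat_lit 76) (nat_lit 74331131969) (nat_lit 135) (nat_lit 3) (nat_lit 134) (nat_lit 1) (nat_lit 135) (nat_lit 1) (nat_lit 267) (nat_lit 358) (nat_lit 275)) (XT.lf (nat_lit 152) (nat_lit 213275664422) (nat_lit 0) (nat_lit 3948484) (nat_lit 76) (nat_lit 3948484) (nat_lit 134) (nat_lit 1) (nat_lit 132) (nat_lit 1) (nat_lit 133) (nat_lit 1) (nat_lit 268) (nat_lit 358) (nat_lit 274))))) (XT.nd (nat_lit 234) (nat_lit 228) (nat_lit 0) (XT.nd (nat_lit 78) (nat_lit 228) (nat_lit 0) (XT.lf (nat_lit 0) (nat_lit 67705775816) (nat_lit 0) (nat_lit 67715628366) (nat_lit 152) (nat_lit 67705775816) (nat_lit 132)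 (nat_lit 3) (nat_lit 132) (nat_lit 1) (nat_lit 134) (nat_lit 1) (nat_lit 269) (nat_lit 358) (nat_lit 273)) (XT.nd (nat_lit 78) (nat_lit 152) (nat_lit 0) (XT.lf (nat_lit 76) (nat_lit 64625644359) (nat_lit 0) (nat_lit 64634211794) (nat_lit 76) (nat_lit 64634211794) (nat_lit 132) (nat_lit 3) (nat_lit 131) (nat_lit 1) (nat_lit 132) (nat_lit 1) (nat_lit 270) (nat_lit 358) (nat_lit 272)) (XT.lf (nat_lit 152) (nat_lit 185459297930) (nat_lit 0) (nat_lit 2257558) (nat_lit 76) (nat_lit 2257558) (nat_lit 131) (nat_lit 1) (nat_lit 129) (nat_lit 1) (nat_lit 130) (nat_lit 1) (nat_lit 271) (nat_lit 358) (nat_lit 271)))) (XT.nd (nat_lit 78) (nat_lit 228) (nat_lit 0) (XT.lf (nat_lit 0) (nat_lit 58875519160) (nat_lit 0) (nat_lit 58881152388) (nat_lit 152) (nat_lit 58875519160) (nat_lit 129) (nat_lit 3) (nat_lit 129) (nat_lit 1) (nat_lit 131) (nat_lit 1) (nat_lit 272) (nat_lit 358) (nat_lit 270)) (XT.nd (nat_lit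 78) (nat_lit 152) (nat_lit 0) (XT.lf (nat_lit 76) (nat_lit 56197874817) (nat_lit 0) (nat_lit 56202773276) (nat_lit 76) (nat_lit 56202773276) (nat_lit 129) (nat_lit 3) (nat_lit 128) (nat_lit 1) (nat_lit 129) (nat_lit 1) (nat_lit 273) (nat_lit 358) (nat_lit 269)) (XT.lf (nat_lit 152) (nat_lit 161270211683) (nat_lit 0) (nat_lit 1290766) (nat_lit 76) (nat_lit 1290766) (nat_lit 128) (nat_lit 1) (nat_lit 126) (nat_lit 1) (nat_lit 127) (nat_lit 1) (nat_lit 274) (nat_lit 358) (nat_lit 268)))))) (XT.nd (nat_lit 390) (nat_lit 456) (nat_lit 0) (XT.nd (nat_lit 156) (nat_lit 228) (nat_lit 0) (XT.nd (nat_lit 78) (nat_lit 76) (nat_lit 0) (XT.lf (nat_lit 0) (nat_lit 51196636202) (nat_lit 0) (nat_lit 51199857019) (nat_lit 152) (nat_lit 51196636202) (nat_lit 126) (nat_lit 3) (nat_lit 126) (nat_lit 1) (nat_lit 128) (nat_lit 1) (nat_lit 275) (nat_lit 358) (nat_lit 267)) (XT.lf (nat_lit 76) (nat_lit 48868667675) (nat_lit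 0) (nat_lit 48871468385) (nat_lit 76) (nat_lit 48871468385) (nat_lit 126) (nat_lit 3) (nat_lit 125) (nat_lit 1) (nat_lit 126) (nat_lit 1) (nat_lit 276) (nat_lit 358) (nat_lit 266))) (XT.nd (nat_lit 78) (nat_lit 76) (nat_lit 0) (XT.lf (nat_lit 152) (nat_lit 140235685352) (nat_lit 0) (nat_lit 737999) (nat_lit 76) (nat_lit 737999) (nat_lit 125) (nat_lit 1) (nat_lit 123) (nat_lit 1) (nat_lit 124) (nat_lit 1) (nat_lit 277) (nat_lit 358) (nat_lit 265)) (XT.nd (nat_lit 78) (nat_lit 76) (nat_lit 0) (XT.lf (nat_lit 0) (nat_lit 44519118596) (nat_lit 0) (nat_lit 44520960108) (nat_lit 152) (nat_lit 44519118596) (nat_lit 123) (nat_lit 3) (nat_lit 123) (nat_lit 1) (nat_lit 125) (nat_lit 1) (nat_lit 278) (nat_lit 358) (nat_lit 264)) (XT.lf (nat_lit 76) (nat_lit 42495037049) (nat_lit 0) (nat_lit 42496638364) (nat_lit 76) (nat_lit 42496638364) (nat_lit 123) (nat_lit 3) (nat_lit 122) (nat_lit 1) (nat_lit 123) (nat_lit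 1) (nat_lit 279) (nat_lit 358) (nat_lit 263))))) (XT.nd (nat_lit 234) (nat_lit 228) (nat_lit 0) (XT.nd (nat_lit 78) (nat_lit 76) (nat_lit 0) (XT.lf (nat_lit 152) (nat_lit 121944485122) (nat_lit 0) (nat_lit 421953) (nat_lit 76) (nat_lit 421953) (nat_lit 122) (nat_lit 1) (nat_lit 120) (nat_lit 1) (nat_lit 121) (nat_lit 1) (nat_lit 280) (nat_lit 358) (nat_lit 262)) (XT.nd (nat_lit 78) (nat_lit 76) (nat_lit 0) (XT.lf (nat_lit 0) (nat_lit 38712451143) (nat_lit 0) (nat_lit 38713504034) (nat_lit 152) (nat_lit 38712451143) (nat_lit 120) (nat_lit 3) (nat_lit 120) (nat_lit 1) (nat_lit 122) (nat_lit 1) (nat_lit 281) (nat_lit 358) (nat_lit 261)) (XT.lf (nat_lit 76) (nat_lit 36952516831) (nat_lit 0) (nat_lit 36953432388) (nat_lit 76) (nat_lit 36953432388) (nat_lit 120) (nat_lit 3) (nat_lit 119) (nat_lit 1) (nat_lit 120) (nat_lit 1) (nat_lit 282) (nat_lit 358) (nat_lit 260)))) (XT.nd (nat_lit 78) (nat_lit 76)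 (nat_lit 0) (XT.lf (nat_lit 152) (nat_lit 106038917650) (nat_lit 0) (nat_lit 241253) (nat_lit 76) (nat_lit 241253) (nat_lit 119) (nat_lit 1) (nat_lit 117) (nat_lit 1) (nat_lit 118) (nat_lit 1) (nat_lit 283) (nat_lit 358) (nat_lit 259)) (XT.nd (nat_lit 78) (nat_lit 76) (nat_lit 0) (XT.lf (nat_lit 0) (nat_lit 33663100538) (nat_lit 0) (nat_lit 33663702531) (nat_lit 152) (nat_lit 33663100538) (nat_lit 117) (nat_lit 3) (nat_lit 117) (nat_lit 1) (nat_lit 119) (nat_lit 1) (nat_lit 284) (nat_lit 358) (nat_lit 258)) (XT.lf (nat_lit 76) (nat_lit 32132800976) (nat_lit 0) (nat_lit 32133324449) (nat_lit 76) (nat_lit 32133324449) (nat_lit 117) (nat_lit 3) (nat_lit 116) (nat_lit 1) (nat_lit 117) (nat_lit 1) (nat_lit 285) (nat_lit 358) (nat_lit 257))))))) (XT.nd (nat_lit 858) (nat_lit 912) (nat_lit 0) (XT.nd (nat_lit 390) (nat_lit 456) (nat_lit 0) (XT.nd (nat_lit 156) (nat_lit 228) (nat_lit 0) (XT.nd (nat_lit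 78) (nat_lit 0) (nat_lit 0) (XT.lf (nat_lit 152) (nat_lit 92207888803) (nat_lit 0) (nat_lit 137937) (nat_lit 76) (nat_lit 137937) (nat_lit 116) (nat_lit 1) (nat_lit 114) (nat_lit 1) (nat_lit 115) (nat_lit 1) (nat_lit 286) (nat_lit 358) (nat_lit 256)) (XT.lf (nat_lit 0) (nat_lit 29272318252) (nat_lit 0) (nat_lit 29272662444) (nat_lit 152) (nat_lit 29272318252) (nat_lit 114) (nat_lit 3) (nat_lit 114) (nat_lit 1) (nat_lit 116) (nat_lit 1) (nat_lit 287) (nat_lit 358) (nat_lit 255))) (XT.nd (nat_lit 78) (nat_lit 152) (nat_lit 0) (XT.lf (nat_lit 76) (nat_lit 27941667635) (nat_lit 0) (nat_lit 27941966932) (nat_lit 76) (nat_lit 27941966932) (nat_lit 114) (nat_lit 3) (nat_lit 113) (nat_lit 1) (nat_lit 114) (nat_lit 1) (nat_lit 288) (nat_lit 358) (nat_lit 254)) (XT.nd (nat_lit 78) (nat_lit 0) (nat_lit 0) (XT.lf (nat_lit 152) (nat_lit 80180849673) (nat_lit 0) (nat_lit 78866) (nat_lit 76) (nat_lit 78866) (nat_lit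 113) (nat_lit 1) (nat_lit 111) (nat_lit 1) (nat_lit 112) (nat_lit 1) (nat_lit 289) (nat_lit 358) (nat_lit 253)) (XT.lf (nat_lit 0) (nat_lit 25454222325) (nat_lit 0) (nat_lit 25454419118) (nat_lit 152) (nat_lit 25454222325) (nat_lit 111) (nat_lit 3) (nat_lit 111) (nat_lit 1) (nat_lit 113) (nat_lit 1) (nat_lit 290) (nat_lit 358) (nat_lit 252))))) (XT.nd (nat_lit 234) (nat_lit 228) (nat_lit 0) (XT.nd (nat_lit 78) (nat_lit 152) (nat_lit 0) (XT.lf (nat_lit 76) (nat_lit 24297160364) (nat_lit 0) (nat_lit 24297331488) (nat_lit 76) (nat_lit 24297331488) (nat_lit 111) (nat_lit 3) (nat_lit 110) (nat_lit 1) (nat_lit 111) (nat_lit 1) (nat_lit 291) (nat_lit 358) (nat_lit 251)) (XT.nd (nat_lit 78) (nat_lit 0) (nat_lit 0) (XT.lf (nat_lit 152) (nat_lit 69722521887) (nat_lit 0) (nat_lit 45091) (nat_lit 76) (nat_lit 45091) (nat_lit 110) (nat_lit 1) (nat_lit 108) (nat_lit 1) (nat_lit 109) (nat_lit 1) (nat_lit 292)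 (nat_lit 358) (nat_lit 250)) (XT.lf (nat_lit 0) (nat_lit 22134124975) (nat_lit 0) (nat_lit 22134237492) (nat_lit 152) (nat_lit 22134124975) (nat_lit 108) (nat_lit 3) (nat_lit 108) (nat_lit 1) (nat_lit 110) (nat_lit 1) (nat_lit 293) (nat_lit 358) (nat_lit 249)))) (XT.nd (nat_lit 78) (nat_lit 152) (nat_lit 0) (XT.lf (nat_lit 76) (nat_lit 21127998737) (nat_lit 0) (nat_lit 21128096577) (nat_lit 76) (nat_lit 21128096577) (nat_lit 108) (nat_lit 3) (nat_lit 107) (nat_lit 1) (nat_lit 108) (nat_lit 1) (nat_lit 294) (nat_lit 358) (nat_lit 248)) (XT.nd (nat_lit 78) (nat_lit 0) (nat_lit 0) (XT.lf (nat_lit 152) (nat_lit 60628305008) (nat_lit 0) (nat_lit 25781) (nat_lit 76) (nat_lit 25781) (nat_lit 107) (nat_lit 1) (nat_lit 105) (nat_lit 1) (nat_lit 106) (nat_lit 1) (nat_lit 295) (nat_lit 358) (nat_lit 247)) (XT.lf (nat_lit 0) (nat_lit 19247075833) (nat_lit 0) (nat_lit 19247140165) (nat_lit 152) (nat_lit 19247075833)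 (nat_lit 105) (nat_lit 3) (nat_lit 105) (nat_lit 1) (nat_lit 107) (nat_lit 1) (nat_lit 296) (nat_lit 358) (nat_lit 246)))))) (XT.nd (nat_lit 390) (nat_lit 456) (nat_lit 0) (XT.nd (nat_lit 156) (nat_lit 228) (nat_lit 0) (XT.nd (nat_lit 78) (nat_lit 152) (nat_lit 0) (XT.lf (nat_lit 76) (nat_lit 18372191798) (nat_lit 0) (nat_lit 18372247739) (nat_lit 76) (nat_lit 18372247739) (nat_lit 105) (nat_lit 3) (nat_lit 104) (nat_lit 1) (nat_lit 105) (nat_lit 1) (nat_lit 297) (nat_lit 358) (nat_lit 245)) (XT.lf (nat_lit 152) (nat_lit 52720279579) (nat_lit 0) (nat_lit 14740) (nat_lit 76) (nat_lit 14740) (nat_lit 104) (nat_lit 1) (nat_lit 102) (nat_lit 1) (nat_lit 103) (nat_lit 1) (nat_lit 298) (nat_lit 358) (nat_lit 244))) (XT.nd (nat_lit 78) (nat_lit 228) (nat_lit 0) (XT.lf (nat_lit 0) (nat_lit 16736593763) (nat_lit 0) (nat_lit 16736630545) (nat_lit 152) (nat_lit 16736593763) (nat_lit 102) (nat_lit 3) (nat_lit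 102) (nat_lit 1) (nat_lit 104) (nat_lit 1) (nat_lit 299) (nat_lit 358) (nat_lit 243)) (XT.nd (nat_lit 78) (nat_lit 152) (nat_lit 0) (XT.lf (nat_lit 76) (nat_lit 15975829809) (nat_lit 0) (nat_lit 15975861793) (nat_lit 76) (nat_lit 15975861793) (nat_lit 102) (nat_lit 3) (nat_lit 101) (nat_lit 1) (nat_lit 102) (nat_lit 1) (nat_lit 300) (nat_lit 358) (nat_lit 242)) (XT.lf (nat_lit 152) (nat_lit 45843729580) (nat_lit 0) (nat_lit 8428) (nat_lit 76) (nat_lit 8428) (nat_lit 101) (nat_lit 1) (nat_lit 99) (nat_lit 1) (nat_lit 100) (nat_lit 1) (nat_lit 301) (nat_lit 358) (nat_lit 241))))) (XT.nd (nat_lit 234) (nat_lit 228) (nat_lit 0) (XT.nd (nat_lit 78) (nat_lit 228) (nat_lit 0) (XT.lf (nat_lit 0) (nat_lit 14553563272) (nat_lit 0) (nat_lit 14553584302) (nat_lit 152) (nat_lit 14553563272) (nat_lit 99) (nat_lit 3) (nat_lit 99) (nat_lit 1) (nat_lit 101) (nat_lit 1) (nat_lit 302) (nat_lit 358) (nat_lit 240))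 (XT.nd (nat_lit 78) (nat_lit 152) (nat_lit 0) (XT.lf (nat_lit 76) (nat_lit 13892032127) (nat_lit 0) (nat_lit 13892050414) (nat_lit 76) (nat_lit 13892050414) (nat_lit 99) (nat_lit 3) (nat_lit 98) (nat_lit 1) (nat_lit 99) (nat_lit 1) (nat_lit 303) (nat_lit 358) (nat_lit 239)) (XT.lf (nat_lit 152) (nat_lit 39864117371) (nat_lit 0) (nat_lit 4818) (nat_lit 76) (nat_lit 4818) (nat_lit 98) (nat_lit 1) (nat_lit 96) (nat_lit 1) (nat_lit 97) (nat_lit 1) (nat_lit 304) (nat_lit 358) (nat_lit 238)))) (XT.nd (nat_lit 78) (nat_lit 228) (nat_lit 0) (XT.lf (nat_lit 0) (nat_lit 12655274398) (nat_lit 0) (nat_lit 12655286422) (nat_lit 152) (nat_lit 12655274398) (nat_lit 96) (nat_lit 3) (nat_lit 96) (nat_lit 1) (nat_lit 98) (nat_lit 1) (nat_lit 305) (nat_lit 358) (nat_lit 237)) (XT.nd (nat_lit 78) (nat_lit 152) (nat_lit 0) (XT.lf (nat_lit 76) (nat_lit 12080031485) (nat_lit 0) (nat_lit 12080041940) (nat_lit 76) (nat_lit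 12080041940) (nat_lit 96) (nat_lit 3) (nat_lit 95) (nat_lit 1) (nat_lit 96) (nat_lit 1) (nat_lit 306) (nat_lit 358) (nat_lit 236)) (XT.lf (nat_lit 152) (nat_lit 34664452571) (nat_lit 0) (nat_lit 2755) (nat_lit 76) (nat_lit 2755) (nat_lit 95) (nat_lit 1) (nat_lit 93) (nat_lit 1) (nat_lit 94) (nat_lit 1) (nat_lit 307) (nat_lit 358) (nat_lit 235))))))))
noncomputable def ec193 : XT := (XT.nd (nat_lit 1716) (nat_lit 1672) (nat_lit 0) (XT.nd (nat_lit 858) (nat_lit 836) (nat_lit 0) (XT.nd (nat_lit 390) (nat_lit 456) (nat_lit 0) (XT.nd (nat_lit 156) (nat_lit 228) (nat_lit 0) (XT.nd (nat_lit 78) (nat_lit 76) (nat_lit 0) (XT.lf (nat_lit 0) (nat_lit 11004587570) (nat_lit 0) (nat_lit 11004594445) (nat_lit 152) (nat_lit 11004587570) (nat_lit 93) (nat_lit 3) (nat_lit 93) (nat_lit 1) (nat_lit 95) (nat_lit 1) (nat_lit 308) (nat_lit 358) (nat_lit 234)) (XT.lf (nat_lit 76) (nat_lit 10504377233) (nat_lit 0) (nat_lit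 10504383211) (nat_lit 76) (nat_lit 10504383211) (nat_lit 93) (nat_lit 3) (nat_lit 92) (nat_lit 1) (nat_lit 93) (nat_lit 1) (nat_lit 309) (nat_lit 358) (nat_lit 233))) (XT.nd (nat_lit 78) (nat_lit 76) (nat_lit 0) (XT.lf (nat_lit 152) (nat_lit 30143003769) (nat_lit 0) (nat_lit 1575) (nat_lit 76) (nat_lit 1575) (nat_lit 92) (nat_lit 1) (nat_lit 90) (nat_lit 1) (nat_lit 91) (nat_lit 1) (nat_lit 310) (nat_lit 358) (nat_lit 232)) (XT.nd (nat_lit 78) (nat_lit 76) (nat_lit 0) (XT.lf (nat_lit 0) (nat_lit 9569207233) (nat_lit 0) (nat_lit 9569211163) (nat_lit 152) (nat_lit 9569207233) (nat_lit 90) (nat_lit 3) (nat_lit 90) (nat_lit 1) (nat_lit 92) (nat_lit 1) (nat_lit 311) (nat_lit 358) (nat_lit 231)) (XT.lf (nat_lit 76) (nat_lit 9134242232) (nat_lit 0) (nat_lit 9134245650) (nat_lit 76) (nat_lit 9134245650) (nat_lit 90) (nat_lit 3) (nat_lit 89) (nat_lit 1) (nat_lit 90) (nat_lit 1) (nat_lit 312) (nat_lit 358)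 (nat_lit 230))))) (XT.nd (nat_lit 234) (nat_lit 228) (nat_lit 0) (XT.nd (nat_lit 78) (nat_lit 76) (nat_lit 0) (XT.lf (nat_lit 152) (nat_lit 26211308502) (nat_lit 0) (nat_lit 900) (nat_lit 76) (nat_lit 900) (nat_lit 89) (nat_lit 1) (nat_lit 87) (nat_lit 1) (nat_lit 88) (nat_lit 1) (nat_lit 313) (nat_lit 358) (nat_lit 229)) (XT.nd (nat_lit 78) (nat_lit 76) (nat_lit 0) (XT.lf (nat_lit 0) (nat_lit 8321050139) (nat_lit 0) (nat_lit 8321052386) (nat_lit 152) (nat_lit 8321050139) (nat_lit 87) (nat_lit 3) (nat_lit 87) (nat_lit 1) (nat_lit 89) (nat_lit 1) (nat_lit 314) (nat_lit 358) (nat_lit 228)) (XT.lf (nat_lit 76) (nat_lit 7942819995) (nat_lit 0) (nat_lit 7942821949) (nat_lit 76) (nat_lit 7942821949) (nat_lit 87) (nat_lit 3) (nat_lit 86) (nat_lit 1) (nat_lit 87) (nat_lit 1) (nat_lit 315) (nat_lit 358) (nat_lit 227)))) (XT.nd (nat_lit 78) (nat_lit 76) (nat_lit 0) (XT.lf (nat_lit 152) (nat_lit 22792442677)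 (nat_lit 0) (nat_lit 514) (nat_lit 76) (nat_lit 514) (nat_lit 86) (nat_lit 1) (nat_lit 84) (nat_lit 1) (nat_lit 85) (nat_lit 1) (nat_lit 316) (nat_lit 358) (nat_lit 226)) (XT.nd (nat_lit 78) (nat_lit 76) (nat_lit 0) (XT.lf (nat_lit 0) (nat_lit 7235695985) (nat_lit 0) (nat_lit 7235697270) (nat_lit 152) (nat_lit 7235695985) (nat_lit 84) (nat_lit 3) (nat_lit 84) (nat_lit 1) (nat_lit 86) (nat_lit 1) (nat_lit 317) (nat_lit 358) (nat_lit 225)) (XT.lf (nat_lit 76) (nat_lit 6906800375) (nat_lit 0) (nat_lit 6906801492) (nat_lit 76) (nat_lit 6906801492) (nat_lit 84) (nat_lit 3) (nat_lit 83) (nat_lit 1) (nat_lit 84) (nat_lit 1) (nat_lit 318) (nat_lit 358) (nat_lit 224)))))) (XT.nd (nat_lit 390) (nat_lit 456) (nat_lit 0) (XT.nd (nat_lit 156) (nat_lit 228) (nat_lit 0) (XT.nd (nat_lit 78) (nat_lit 0) (nat_lit 0) (XT.lf (nat_lit 152) (nat_lit 19819515658) (nat_lit 0) (nat_lit 294) (nat_lit 76) (nat_lit 294) (nat_lit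 83) (nat_lit 1) (nat_lit 81) (nat_lit 1) (nat_lit 82) (nat_lit 1) (nat_lit 319) (nat_lit 358) (nat_lit 223)) (XT.lf (nat_lit 0) (nat_lit 6291909674) (nat_lit 0) (nat_lit 6291910409) (nat_lit 152) (nat_lit 6291909674) (nat_lit 81) (nat_lit 3) (nat_lit 81) (nat_lit 1) (nat_lit 83) (nat_lit 1) (nat_lit 320) (nat_lit 358) (nat_lit 222))) (XT.nd (nat_lit 78) (nat_lit 152) (nat_lit 0) (XT.lf (nat_lit 76) (nat_lit 6005913586) (nat_lit 0) (nat_lit 6005914225) (nat_lit 76) (nat_lit 6005914225) (nat_lit 81) (nat_lit 3) (nat_lit 80) (nat_lit 1) (nat_lit 81) (nat_lit 1) (nat_lit 321) (nat_lit 358) (nat_lit 221)) (XT.nd (nat_lit 78) (nat_lit 0) (nat_lit 0) (XT.lf (nat_lit 152) (nat_lit 17234361606) (nat_lit 0) (nat_lit 168) (nat_lit 76) (nat_lit 168) (nat_lit 80) (nat_lit 1) (nat_lit 78) (nat_lit 1) (nat_lit 79) (nat_lit 1) (nat_lit 322) (nat_lit 358) (nat_lit 220)) (XT.lf (nat_lit 0) (nat_lit 5471225873) (nat_lit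 0) (nat_lit 5471226293) (nat_lit 152) (nat_lit 5471225873) (nat_lit 78) (nat_lit 3) (nat_lit 78) (nat_lit 1) (nat_lit 80) (nat_lit 1) (nat_lit 323) (nat_lit 358) (nat_lit 219))))) (XT.nd (nat_lit 234) (nat_lit 228) (nat_lit 0) (XT.nd (nat_lit 78) (nat_lit 152) (nat_lit 0) (XT.lf (nat_lit 76) (nat_lit 5222533677) (nat_lit 0) (nat_lit 5222534042) (nat_lit 76) (nat_lit 5222534042) (nat_lit 78) (nat_lit 3) (nat_lit 77) (nat_lit 1) (nat_lit 78) (nat_lit 1) (nat_lit 324) (nat_lit 358) (nat_lit 218)) (XT.nd (nat_lit 78) (nat_lit 0) (nat_lit 0) (XT.lf (nat_lit 152) (nat_lit 14986401490) (nat_lit 0) (nat_lit 96) (nat_lit 76) (nat_lit 96) (nat_lit 77) (nat_lit 1) (nat_lit 75) (nat_lit 1) (nat_lit 76) (nat_lit 1) (nat_lit 325) (nat_lit 358) (nat_lit 217)) (XT.lf (nat_lit 0) (nat_lit 4757587755) (nat_lit 0) (nat_lit 4757587995) (nat_lit 152) (nat_lit 4757587755) (nat_lit 75) (nat_lit 3) (nat_lit 75) (nat_lit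 1) (nat_lit 77) (nat_lit 1) (nat_lit 326) (nat_lit 358) (nat_lit 216)))) (XT.nd (nat_lit 78) (nat_lit 152) (nat_lit 0) (XT.lf (nat_lit 76) (nat_lit 4541333703) (nat_lit 0) (nat_lit 4541333912) (nat_lit 76) (nat_lit 4541333912) (nat_lit 75) (nat_lit 3) (nat_lit 74) (nat_lit 1) (nat_lit 75) (nat_lit 1) (nat_lit 327) (nat_lit 358) (nat_lit 215)) (XT.nd (nat_lit 78) (nat_lit 0) (nat_lit 0) (XT.lf (nat_lit 152) (nat_lit 13031653523) (nat_lit 0) (nat_lit 55) (nat_lit 76) (nat_lit 55) (nat_lit 74) (nat_lit 1) (nat_lit 72) (nat_lit 1) (nat_lit 73) (nat_lit 1) (nat_lit 328) (nat_lit 358) (nat_lit 214)) (XT.lf (nat_lit 0) (nat_lit 4137032853) (nat_lit 0) (nat_lit 4137032991) (nat_lit 152) (nat_lit 4137032853) (nat_lit 72) (nat_lit 3) (nat_lit 72) (nat_lit 1) (nat_lit 74) (nat_lit 1) (nat_lit 329) (nat_lit 358) (nat_lit 213))))))) (XT.nd (nat_lit 858) (nat_lit 760) (nat_lit 0) (XT.nd (nat_lit 390) (nat_lit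 456) (nat_lit 0) (XT.nd (nat_lit 156) (nat_lit 228) (nat_lit 0) (XT.nd (nat_lit 78) (nat_lit 152) (nat_lit 0) (XT.lf (nat_lit 76) (nat_lit 3948985869) (nat_lit 0) (nat_lit 3948985989) (nat_lit 76) (nat_lit 3948985989) (nat_lit 72) (nat_lit 3) (nat_lit 71) (nat_lit 1) (nat_lit 72) (nat_lit 1) (nat_lit 330) (nat_lit 358) (nat_lit 212)) (XT.lf (nat_lit 152) (nat_lit 11331872659) (nat_lit 0) (nat_lit 31) (nat_lit 76) (nat_lit 31) (nat_lit 71) (nat_lit 1) (nat_lit 69) (nat_lit 1) (nat_lit 70) (nat_lit 1) (nat_lit 331) (nat_lit 358) (nat_lit 211))) (XT.nd (nat_lit 78) (nat_lit 228) (nat_lit 0) (XT.lf (nat_lit 0) (nat_lit 3597419885) (nat_lit 0) (nat_lit 3597419964) (nat_lit 152) (nat_lit 3597419885) (nat_lit 69) (nat_lit 3) (nat_lit 69) (nat_lit 1) (nat_lit 71) (nat_lit 1) (nat_lit 332) (nat_lit 358) (nat_lit 210)) (XT.nd (nat_lit 78) (nat_lit 152) (nat_lit 0) (XT.lf (nat_lit 76) (nat_lit 3433900779)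 (nat_lit 0) (nat_lit 3433900847) (nat_lit 76) (nat_lit 3433900847) (nat_lit 69) (nat_lit 3) (nat_lit 68) (nat_lit 1) (nat_lit 69) (nat_lit 1) (nat_lit 333) (nat_lit 358) (nat_lit 209)) (XT.lf (nat_lit 152) (nat_lit 9853802330) (nat_lit 0) (nat_lit 17) (nat_lit 76) (nat_lit 17) (nat_lit 68) (nat_lit 1) (nat_lit 66) (nat_lit 1) (nat_lit 67) (nat_lit 1) (nat_lit 334) (nat_lit 358) (nat_lit 208))))) (XT.nd (nat_lit 234) (nat_lit 228) (nat_lit 0) (XT.nd (nat_lit 78) (nat_lit 228) (nat_lit 0) (XT.lf (nat_lit 0) (nat_lit 3128191212) (nat_lit 0) (nat_lit 3128191257) (nat_lit 152) (nat_lit 3128191212) (nat_lit 66) (nat_lit 3) (nat_lit 66) (nat_lit 1) (nat_lit 68) (nat_lit 1) (nat_lit 335) (nat_lit 358) (nat_lit 207)) (XT.nd (nat_lit 78) (nat_lit 152) (nat_lit 0) (XT.lf (nat_lit 76) (nat_lit 2986000690) (nat_lit 0) (nat_lit 2986000730) (nat_lit 76) (nat_lit 2986000730) (nat_lit 66) (nat_lit 3) (nat_lit 65)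 (nat_lit 1) (nat_lit 66) (nat_lit 1) (nat_lit 336) (nat_lit 358) (nat_lit 206)) (XT.lf (nat_lit 152) (nat_lit 8568523775) (nat_lit 0) (nat_lit 10) (nat_lit 76) (nat_lit 10) (nat_lit 65) (nat_lit 1) (nat_lit 63) (nat_lit 1) (nat_lit 64) (nat_lit 1) (nat_lit 337) (nat_lit 358) (nat_lit 205)))) (XT.nd (nat_lit 78) (nat_lit 228) (nat_lit 0) (XT.lf (nat_lit 0) (nat_lit 2720166275) (nat_lit 0) (nat_lit 2720166301) (nat_lit 152) (nat_lit 2720166275) (nat_lit 63) (nat_lit 3) (nat_lit 63) (nat_lit 1) (nat_lit 65) (nat_lit 1) (nat_lit 338) (nat_lit 358) (nat_lit 204)) (XT.nd (nat_lit 78) (nat_lit 152) (nat_lit 0) (XT.lf (nat_lit 76) (nat_lit 2596522347) (nat_lit 0) (nat_lit 2596522369) (nat_lit 76) (nat_lit 2596522369) (nat_lit 63) (nat_lit 3) (nat_lit 62) (nat_lit 1) (nat_lit 63) (nat_lit 1) (nat_lit 339) (nat_lit 358) (nat_lit 203)) (XT.lf (nat_lit 152) (nat_lit 7450890245) (nat_lit 0) (nat_lit 5) (nat_lit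 76) (nat_lit 5) (nat_lit 62) (nat_lit 1) (nat_lit 60) (nat_lit 1) (nat_lit 61) (nat_lit 1) (nat_lit 340) (nat_lit 358) (nat_lit 202)))))) (XT.nd (nat_lit 468) (nat_lit 304) (nat_lit 0) (XT.nd (nat_lit 234) (nat_lit 228) (nat_lit 0) (XT.nd (nat_lit 78) (nat_lit 228) (nat_lit 0) (XT.lf (nat_lit 0) (nat_lit 2365361981) (nat_lit 0) (nat_lit 2365361996) (nat_lit 152) (nat_lit 2365361981) (nat_lit 60) (nat_lit 3) (nat_lit 60) (nat_lit 1) (nat_lit 62) (nat_lit 1) (nat_lit 341) (nat_lit 358) (nat_lit 201)) (XT.nd (nat_lit 78) (nat_lit 152) (nat_lit 0) (XT.lf (nat_lit 76) (nat_lit 2257845523) (nat_lit 0) (nat_lit 2257845536) (nat_lit 76) (nat_lit 2257845536) (nat_lit 60) (nat_lit 3) (nat_lit 59) (nat_lit 1) (nat_lit 60) (nat_lit 1) (nat_lit 342) (nat_lit 358) (nat_lit 200)) (XT.lf (nat_lit 152) (nat_lit 6479034999) (nat_lit 0) (nat_lit 3) (nat_lit 76) (nat_lit 3) (nat_lit 59) (nat_lit 1) (nat_lit 57) (nat_lit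 1) (nat_lit 58) (nat_lit 1) (nat_lit 343) (nat_lit 358) (nat_lit 199)))) (XT.nd (nat_lit 78) (nat_lit 228) (nat_lit 0) (XT.lf (nat_lit 0) (nat_lit 2056836507) (nat_lit 0) (nat_lit 2056836515) (nat_lit 152) (nat_lit 2056836507) (nat_lit 57) (nat_lit 3) (nat_lit 57) (nat_lit 1) (nat_lit 59) (nat_lit 1) (nat_lit 344) (nat_lit 358) (nat_lit 198)) (XT.nd (nat_lit 78) (nat_lit 152) (nat_lit 0) (XT.lf (nat_lit 76) (nat_lit 1963343936) (nat_lit 0) (nat_lit 1963343943) (nat_lit 76) (nat_lit 1963343943) (nat_lit 57) (nat_lit 3) (nat_lit 56) (nat_lit 1) (nat_lit 57) (nat_lit 1) (nat_lit 345) (nat_lit 358) (nat_lit 197)) (XT.lf (nat_lit 152) (nat_lit 5633943479) (nat_lit 0) (nat_lit 1) (nat_lit 76) (nat_lit 1) (nat_lit 56) (nat_lit 1) (nat_lit 54) (nat_lit 1) (nat_lit 55) (nat_lit 1) (nat_lit 346) (nat_lit 358) (nat_lit 196))))) (XT.nd (nat_lit 234) (nat_lit 76) (nat_lit 0) (XT.nd (nat_lit 78) (nat_lit 228)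 (nat_lit 0) (XT.lf (nat_lit 0) (nat_lit 1788553485) (nat_lit 0) (nat_lit 1788553489) (nat_lit 152) (nat_lit 1788553485) (nat_lit 54) (nat_lit 3) (nat_lit 54) (nat_lit 1) (nat_lit 56) (nat_lit 1) (nat_lit 347) (nat_lit 358) (nat_lit 195)) (XT.nd (nat_lit 78) (nat_lit 152) (nat_lit 0) (XT.lf (nat_lit 76) (nat_lit 1707255598) (nat_lit 0) (nat_lit 1707255602) (nat_lit 76) (nat_lit 1707255602) (nat_lit 54) (nat_lit 3) (nat_lit 53) (nat_lit 1) (nat_lit 54) (nat_lit 1) (nat_lit 348) (nat_lit 358) (nat_lit 194)) (XT.lf (nat_lit 152) (nat_lit 4899081287) (nat_lit 0) (nat_lit 1) (nat_lit 76) (nat_lit 1) (nat_lit 53) (nat_lit 1) (nat_lit 51) (nat_lit 1) (nat_lit 52) (nat_lit 1) (nat_lit 349) (nat_lit 358) (nat_lit 193)))) (XT.nd (nat_lit 78) (nat_lit 76) (nat_lit 0) (XT.lf (nat_lit 0) (nat_lit 1555263900) (nat_lit 0) (nat_lit 1555263903) (nat_lit 152) (nat_lit 1555263900) (nat_lit 51) (nat_lit 3) (nat_lit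 51) (nat_lit 1) (nat_lit 53) (nat_lit 1) (nat_lit 350) (nat_lit 358) (nat_lit 192)) (XT.nd (nat_lit 78) (nat_lit 0) (nat_lit 0) (XT.lf (nat_lit 76) (nat_lit 1484570086) (nat_lit 0) (nat_lit 1484570088) (nat_lit 76) (nat_lit 1484570088) (nat_lit 51) (nat_lit 3) (nat_lit 50) (nat_lit 1) (nat_lit 51) (nat_lit 1) (nat_lit 351) (nat_lit 358) (nat_lit 191)) (XT.lf (nat_lit 0) (nat_lit 4260070685) (nat_lit 0) (nat_lit 0) (nat_lit 0) (nat_lit 0) (nat_lit 50) (nat_lit 1) (nat_lit 1) (nat_lit 0) (nat_lit 1) (nat_lit 0) (nat_lit 352) (nat_lit 358) (nat_lit 190))))))))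
noncomputable def ec194 : XT := (XT.nd (nat_lit 33774) (nat_lit 0) (nat_lit 12312) (XT.nd (nat_lit 858) (nat_lit 608) (nat_lit 0) (XT.nd (nat_lit 390) (nat_lit 456) (nat_lit 0) (XT.nd (nat_lit 156) (nat_lit 228) (nat_lit 0) (XT.nd (nat_lit 78) (nat_lit 76) (nat_lit 0) (XT.lf (nat_lit 0) (nat_lit 1352403392) (nat_lit 0) (nat_lit 1352403393) (nat_lit 152) (nat_lit 1352403392) (nat_lit 48) (nat_lit 3) (nat_lit 48) (nat_lit 1) (nat_lit 50) (nat_lit 1) (nat_lit 353) (nat_lit 358) (nat_lit 189)) (XT.lf (nat_lit 76) (nat_lit 1290930510) (nat_lit 0) (nat_lit 1290930511) (nat_lit 76) (nat_lit 1290930511) (nat_lit 48) (nat_lit 3) (nat_lit 47) (nat_lit 1) (nat_lit 48) (nat_lit 1) (nat_lit 354) (nat_lit 358) (nat_lit 188))) (XT.nd (nat_lit 78) (nat_lit 228) (nat_lit 0) (XT.lf (nat_lit 0) (nat_lit 3704409292) (nat_lit 0) (nat_lit 0) (nat_lit 0) (nat_lit 0) (nat_lit 47) (nat_lit 1) (nat_lit 1) (nat_lit 0) (nat_lit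 1) (nat_lit 0) (nat_lit 355) (nat_lit 358) (nat_lit 187)) (XT.nd (nat_lit 78) (nat_lit 76) (nat_lit 0) (XT.lf (nat_lit 0) (nat_lit 1176002949) (nat_lit 0) (nat_lit 1176002950) (nat_lit 152) (nat_lit 1176002949) (nat_lit 45) (nat_lit 3) (nat_lit 45) (nat_lit 1) (nat_lit 47) (nat_lit 1) (nat_lit 356) (nat_lit 358) (nat_lit 186)) (XT.lf (nat_lit 76) (nat_lit 1122548270) (nat_lit 0) (nat_lit 1122548270) (nat_lit 76) (nat_lit 1122548270) (nat_lit 45) (nat_lit 3) (nat_lit 44) (nat_lit 1) (nat_lit 45) (nat_lit 1) (nat_lit 357) (nat_lit 358) (nat_lit 185))))) (XT.nd (nat_lit 234) (nat_lit 228) (nat_lit 0) (XT.nd (nat_lit 78) (nat_lit 228) (nat_lit 0) (XT.lf (nat_lit 0) (nat_lit 3221225471) (nat_lit 0) (nat_lit 0) (nat_lit 0) (nat_lit 0) (nat_lit 44) (nat_lit 1) (nat_lit 1) (nat_lit 0) (nat_lit 1) (nat_lit 0) (nat_lit 358) (nat_lit 358) (nat_lit 184)) (XT.nd (nat_lit 78) (nat_lit 76) (nat_lit 0) (XT.lf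 (nat_lit 0) (nat_lit 1022611260) (nat_lit 0) (nat_lit 1022611261) (nat_lit 152) (nat_lit 1022611260) (nat_lit 42) (nat_lit 3) (nat_lit 42) (nat_lit 1) (nat_lit 44) (nat_lit 1) (nat_lit 359) (nat_lit 358) (nat_lit 183)) (XT.lf (nat_lit 76) (nat_lit 976128930) (nat_lit 0) (nat_lit 976128931) (nat_lit 76) (nat_lit 976128931) (nat_lit 42) (nat_lit 3) (nat_lit 41) (nat_lit 1) (nat_lit 42) (nat_lit 1) (nat_lit 360) (nat_lit 358) (nat_lit 182)))) (XT.nd (nat_lit 78) (nat_lit 228) (nat_lit 0) (XT.lf (nat_lit 0) (nat_lit 2801065627) (nat_lit 0) (nat_lit 0) (nat_lit 0) (nat_lit 0) (nat_lit 41) (nat_lit 1) (nat_lit 1) (nat_lit 0) (nat_lit 1) (nat_lit 0) (nat_lit 361) (nat_lit 358) (nat_lit 181)) (XT.nd (nat_lit 78) (nat_lit 76) (nat_lit 0) (XT.lf (nat_lit 0) (nat_lit 889227183) (nat_lit 0) (nat_lit 889227183) (nat_lit 152) (nat_lit 889227183) (nat_lit 39) (nat_lit 3) (nat_lit 39) (nat_lit 1) (nat_lit 41)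 (nat_lit 1) (nat_lit 362) (nat_lit 358) (nat_lit 180)) (XT.lf (nat_lit 76) (nat_lit 848807765) (nat_lit 0) (nat_lit 848807766) (nat_lit 76) (nat_lit 848807766) (nat_lit 39) (nat_lit 3) (nat_lit 38) (nat_lit 1) (nat_lit 39) (nat_lit 1) (nat_lit 363) (nat_lit 358) (nat_lit 179)))))) (XT.nd (nat_lit 390) (nat_lit 228) (nat_lit 0) (XT.nd (nat_lit 156) (nat_lit 228) (nat_lit 0) (XT.nd (nat_lit 78) (nat_lit 152) (nat_lit 0) (XT.lf (nat_lit 0) (nat_lit 2435709241) (nat_lit 0) (nat_lit 0) (nat_lit 0) (nat_lit 0) (nat_lit 38) (nat_lit 1) (nat_lit 1) (nat_lit 0) (nat_lit 1) (nat_lit 0) (nat_lit 364) (nat_lit 358) (nat_lit 178)) (XT.lf (nat_lit 0) (nat_lit 773241029) (nat_lit 0) (nat_lit 773241029) (nat_lit 152) (nat_lit 773241029) (nat_lit 36) (nat_lit 3) (nat_lit 36) (nat_lit 1) (nat_lit 38) (nat_lit 1) (nat_lit 365) (nat_lit 358) (nat_lit 177))) (XT.nd (nat_lit 78) (nat_lit 152) (nat_lit 0) (XT.lf (nat_lit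 76) (nat_lit 738093709) (nat_lit 0) (nat_lit 738093709) (nat_lit 76) (nat_lit 738093709) (nat_lit 36) (nat_lit 3) (nat_lit 35) (nat_lit 1) (nat_lit 36) (nat_lit 1) (nat_lit 366) (nat_lit 358) (nat_lit 176)) (XT.nd (nat_lit 78) (nat_lit 152) (nat_lit 0) (XT.lf (nat_lit 0) (nat_lit 2118008036) (nat_lit 0) (nat_lit 0) (nat_lit 0) (nat_lit 0) (nat_lit 35) (nat_lit 1) (nat_lit 1) (nat_lit 0) (nat_lit 1) (nat_lit 0) (nat_lit 367) (nat_lit 358) (nat_lit 175)) (XT.lf (nat_lit 0) (nat_lit 672383503) (nat_lit 0) (nat_lit 672383503) (nat_lit 152) (nat_lit 672383503) (nat_lit 33) (nat_lit 3) (nat_lit 33) (nat_lit 1) (nat_lit 35) (nat_lit 1) (nat_lit 368) (nat_lit 358) (nat_lit 174))))) (XT.nd (nat_lit 32292) (nat_lit 0) (nat_lit 14060) (XT.nd (nat_lit 78) (nat_lit 152) (nat_lit 0) (XT.lf (nat_lit 76) (nat_lit 641820616) (nat_lit 0) (nat_lit 641820617) (nat_lit 76) (nat_lit 641820617) (nat_lit 33) (nat_lit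 3) (nat_lit 32) (nat_lit 1) (nat_lit 33) (nat_lit 1) (nat_lit 369) (nat_lit 358) (nat_lit 173)) (XT.nd (nat_lit 78) (nat_lit 152) (nat_lit 0) (XT.lf (nat_lit 0) (nat_lit 1841746118) (nat_lit 0) (nat_lit 0) (nat_lit 0) (nat_lit 0) (nat_lit 32) (nat_lit 1) (nat_lit 1) (nat_lit 0) (nat_lit 1) (nat_lit 0) (nat_lit 370) (nat_lit 358) (nat_lit 172)) (XT.lf (nat_lit 0) (nat_lit 584681307) (nat_lit 0) (nat_lit 584681307) (nat_lit 152) (nat_lit 584681307) (nat_lit 30) (nat_lit 3) (nat_lit 30) (nat_lit 1) (nat_lit 32) (nat_lit 1) (nat_lit 371) (nat_lit 358) (nat_lit 171)))) (XT.nd (nat_lit 78) (nat_lit 0) (nat_lit 0) (XT.lf (nat_lit 380) (nat_lit 2674835133514) (nat_lit 0) (nat_lit 2369167309381) (nat_lit 380) (nat_lit 2674835133514) (nat_lit 220) (nat_lit 1) (nat_lit 215) (nat_lit 0) (nat_lit 220) (nat_lit 0) (nat_lit 182) (nat_lit 359) (nat_lit 359)) (XT.nd (nat_lit 78) (nat_lit 0) (nat_lit 76) (XT.lf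 (nat_lit 380) (nat_lit 9893868032596) (nat_lit 76) (nat_lit 2261477886227) (nat_lit 0) (nat_lit 2261477886227) (nat_lit 220) (nat_lit 1) (nat_lit 216) (nat_lit 1) (nat_lit 215) (nat_lit 0) (nat_lit 183) (nat_lit 359) (nat_lit 358)) (XT.lf (nat_lit 380) (nat_lit 4361160294389) (nat_lit 0) (nat_lit 4745353795648) (nat_lit 304) (nat_lit 4361160294389) (nat_lit 221) (nat_lit 1) (nat_lit 216) (nat_lit 1) (nat_lit 220) (nat_lit 1) (nat_lit 184) (nat_lit 359) (nat_lit 357))))))) (XT.nd (nat_lit 858) (nat_lit 760) (nat_lit 0) (XT.nd (nat_lit 390) (nat_lit 684) (nat_lit 0) (XT.nd (nat_lit 156) (nat_lit 380) (nat_lit 0) (XT.nd (nat_lit 78) (nat_lit 0) (nat_lit 76) (XT.lf (nat_lit 380) (nat_lit 7487885781309) (nat_lit 76) (nat_lit 2563153386083) (nat_lit 0) (nat_lit 2563153386083) (nat_lit 221) (nat_lit 1) (nat_lit 217) (nat_lit 1) (nat_lit 216) (nat_lit 1) (nat_lit 185) (nat_lit 359) (nat_lit 356)) (XT.lf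 (nat_lit 76) (nat_lit 3028949110005) (nat_lit 0) (nat_lit 5767627612258) (nat_lit 304) (nat_lit 3028949110005) (nat_lit 218) (nat_lit 1) (nat_lit 217) (nat_lit 1) (nat_lit 221) (nat_lit 1) (nat_lit 186) (nat_lit 359) (nat_lit 355))) (XT.nd (nat_lit 78) (nat_lit 152) (nat_lit 0) (XT.lf (nat_lit 380) (nat_lit 4552265883937) (nat_lit 0) (nat_lit 3276633689415) (nat_lit 304) (nat_lit 3276633689415) (nat_lit 218) (nat_lit 1) (nat_lit 213) (nat_lit 1) (nat_lit 217) (nat_lit 1) (nat_lit 187) (nat_lit 359) (nat_lit 354)) (XT.nd (nat_lit 78) (nat_lit 152) (nat_lit 0) (XT.lf (nat_lit 76) (nat_lit 1513122904203) (nat_lit 0) (nat_lit 7424932015764) (nat_lit 380) (nat_lit 1513122904203) (nat_lit 214) (nat_lit 1) (nat_lit 213) (nat_lit 1) (nat_lit 218) (nat_lit 1) (nat_lit 188) (nat_lit 359) (nat_lit 353)) (XT.lf (nat_lit 228) (nat_lit 1361774919876) (nat_lit 0) (nat_lit 4238188419508) (nat_lit 152) (nat_lit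 4238188419508) (nat_lit 214) (nat_lit 1) (nat_lit 211) (nat_lit 1) (nat_lit 213) (nat_lit 1) (nat_lit 189) (nat_lit 359) (nat_lit 352))))) (XT.nd (nat_lit 234) (nat_lit 304) (nat_lit 0) (XT.nd (nat_lit 78) (nat_lit 152) (nat_lit 0) (XT.lf (nat_lit 228) (nat_lit 9151110326802) (nat_lit 0) (nat_lit 71799713478) (nat_lit 152) (nat_lit 71799713477) (nat_lit 211) (nat_lit 1) (nat_lit 208) (nat_lit 1) (nat_lit 210) (nat_lit 1) (nat_lit 190) (nat_lit 359) (nat_lit 351)) (XT.nd (nat_lit 78) (nat_lit 152) (nat_lit 0) (XT.lf (nat_lit 76) (nat_lit 3515915079371) (nat_lit 0) (nat_lit 1726127153090) (nat_lit 228) (nat_lit 3515915079371) (nat_lit 209) (nat_lit 1) (nat_lit 208) (nat_lit 1) (nat_lit 211) (nat_lit 1) (nat_lit 191) (nat_lit 359) (nat_lit 350)) (XT.lf (nat_lit 228) (nat_lit 5110517513550) (nat_lit 0) (nat_lit 1585232294491) (nat_lit 152) (nat_lit 1585232294491) (nat_lit 209) (nat_lit 1) (nat_lit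 206) (nat_lit 1) (nat_lit 208) (nat_lit 1) (nat_lit 192) (nat_lit 359) (nat_lit 349)))) (XT.nd (nat_lit 78) (nat_lit 304) (nat_lit 0) (XT.lf (nat_lit 76) (nat_lit 1598226444360) (nat_lit 0) (nat_lit 4638025817441) (nat_lit 228) (nat_lit 1598226444360) (nat_lit 207) (nat_lit 1) (nat_lit 206) (nat_lit 1) (nat_lit 209) (nat_lit 1) (nat_lit 193) (nat_lit 359) (nat_lit 348)) (XT.nd (nat_lit 78) (nat_lit 228) (nat_lit 0) (XT.lf (nat_lit 152) (nat_lit 1321229511793) (nat_lit 0) (nat_lit 3048743597327) (nat_lit 76) (nat_lit 3048743597327) (nat_lit 207) (nat_lit 1) (nat_lit 205) (nat_lit 1) (nat_lit 206) (nat_lit 1) (nat_lit 194) (nat_lit 359) (nat_lit 347)) (XT.lf (nat_lit 228) (nat_lit 6688840438810) (nat_lit 0) (nat_lit 177695892179) (nat_lit 152) (nat_lit 177695892179) (nat_lit 205) (nat_lit 1) (nat_lit 202) (nat_lit 1) (nat_lit 204) (nat_lit 1) (nat_lit 195) (nat_lit 359) (nat_lit 346)))))) (XT.nd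 (nat_lit 390) (nat_lit 456) (nat_lit 0) (XT.nd (nat_lit 156) (nat_lit 228) (nat_lit 0) (XT.nd (nat_lit 78) (nat_lit 76) (nat_lit 0) (XT.lf (nat_lit 76) (nat_lit 2340950293579) (nat_lit 0) (nat_lit 1988011366906) (nat_lit 228) (nat_lit 2340950293579) (nat_lit 203) (nat_lit 1) (nat_lit 202) (nat_lit 1) (nat_lit 205) (nat_lit 1) (nat_lit 196) (nat_lit 359) (nat_lit 345)) (XT.lf (nat_lit 152) (nat_lit 2846371345723) (nat_lit 0) (nat_lit 1743129046753) (nat_lit 76) (nat_lit 1743129046753) (nat_lit 203) (nat_lit 1) (nat_lit 201) (nat_lit 1) (nat_lit 202) (nat_lit 1) (nat_lit 197) (nat_lit 359) (nat_lit 344))) (XT.nd (nat_lit 78) (nat_lit 228) (nat_lit 0) (XT.lf (nat_lit 0) (nat_lit 557358734607) (nat_lit 0) (nat_lit 4906943501552) (nat_lit 152) (nat_lit 557358734607) (nat_lit 201) (nat_lit 3) (nat_lit 201) (nat_lit 1) (nat_lit 203) (nat_lit 1) (nat_lit 198) (nat_lit 359) (nat_lit 343)) (XT.nd (nat_lit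 78) (nat_lit 76) (nat_lit 0) (XT.lf (nat_lit 76) (nat_lit 2579453873189) (nat_lit 0) (nat_lit 559438953600) (nat_lit 152) (nat_lit 2579453873189) (nat_lit 200) (nat_lit 1) (nat_lit 199) (nat_lit 1) (nat_lit 201) (nat_lit 1) (nat_lit 199) (nat_lit 359) (nat_lit 342)) (XT.lf (nat_lit 152) (nat_lit 3445642997848) (nat_lit 0) (nat_lit 996639689968) (nat_lit 76) (nat_lit 996639689968) (nat_lit 200) (nat_lit 1) (nat_lit 198) (nat_lit 1) (nat_lit 199) (nat_lit 1) (nat_lit 200) (nat_lit 359) (nat_lit 341))))) (XT.nd (nat_lit 234) (nat_lit 228) (nat_lit 0) (XT.nd (nat_lit 78) (nat_lit 228) (nat_lit 0) (XT.lf (nat_lit 0) (nat_lit 895884663175) (nat_lit 0) (nat_lit 3382773870658) (nat_lit 152) (nat_lit 895884663175) (nat_lit 198) (nat_lit 3) (nat_lit 198) (nat_lit 1) (nat_lit 200) (nat_lit 1) (nat_lit 201) (nat_lit 359) (nat_lit 340)) (XT.nd (nat_lit 78) (nat_lit 152) (nat_lit 0) (XT.lf (nat_lit 76) (nat_lit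 199855858990) (nat_lit 0) (nat_lit 2362368213323) (nat_lit 76) (nat_lit 2362368213323) (nat_lit 198) (nat_lit 3) (nat_lit 197) (nat_lit 1) (nat_lit 198) (nat_lit 1) (nat_lit 202) (nat_lit 359) (nat_lit 339)) (XT.lf (nat_lit 152) (nat_lit 3551119256537) (nat_lit 0) (nat_lit 569831977426) (nat_lit 76) (nat_lit 569831977426) (nat_lit 197) (nat_lit 1) (nat_lit 195) (nat_lit 1) (nat_lit 196) (nat_lit 1) (nat_lit 203) (nat_lit 359) (nat_lit 338)))) (XT.nd (nat_lit 78) (nat_lit 228) (nat_lit 0) (XT.lf (nat_lit 0) (nat_lit 1014149309677) (nat_lit 0) (nat_lit 2436036285485) (nat_lit 152) (nat_lit 1014149309677) (nat_lit 195) (nat_lit 3) (nat_lit 195) (nat_lit 1) (nat_lit 197) (nat_lit 1) (nat_lit 204) (nat_lit 359) (nat_lit 337)) (XT.nd (nat_lit 78) (nat_lit 152) (nat_lit 0) (XT.lf (nat_lit 76) (nat_lit 593377838865) (nat_lit 0) (nat_lit 1829801296091) (nat_lit 76) (nat_lit 1829801296091) (nat_lit 195)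 (nat_lit 3) (nat_lit 194) (nat_lit 1) (nat_lit 195) (nat_lit 1) (nat_lit 205) (nat_lit 359) (nat_lit 336)) (XT.lf (nat_lit 152) (nat_lit 3405200212033) (nat_lit 0) (nat_lit 325803282536) (nat_lit 76) (nat_lit 325803282536) (nat_lit 194) (nat_lit 1) (nat_lit 192) (nat_lit 1) (nat_lit 193) (nat_lit 1) (nat_lit 206) (nat_lit 359) (nat_lit 335))))))))
noncomputable def ec195 : XT := (XT.nd (nat_lit 1716) (nat_lit 1824) (nat_lit 0) (XT.nd (nat_lit 858) (nat_lit 836) (nat_lit 0) (XT.nd (nat_lit 390) (nat_lit 456) (nat_lit 0) (XT.nd (nat_lit 156) (nat_lit 228) (nat_lit 0) (XT.nd (nat_lit 78) (nat_lit 76) (nat_lit 0) (XT.lf (nat_lit 0) (nat_lit 1016299112219) (nat_lit 0) (nat_lit 1829267605504) (nat_lit 152) (nat_lit 1016299112219) (nat_lit 192) (nat_lit 3) (nat_lit 192) (nat_lit 1) (nat_lit 194) (nat_lit 1) (nat_lit 207) (nat_lit 359) (nat_lit 334)) (XT.lf (nat_lit 76) (nat_lit 755882751180) (nat_lit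 0) (nat_lit 1462811875775) (nat_lit 76) (nat_lit 1462811875775) (nat_lit 192) (nat_lit 3) (nat_lit 191) (nat_lit 1) (nat_lit 192) (nat_lit 1) (nat_lit 208) (nat_lit 359) (nat_lit 333))) (XT.nd (nat_lit 78) (nat_lit 76) (nat_lit 0) (XT.lf (nat_lit 152) (nat_lit 3142444057141) (nat_lit 0) (nat_lit 186279084214) (nat_lit 76) (nat_lit 186279084214) (nat_lit 191) (nat_lit 1) (nat_lit 189) (nat_lit 1) (nat_lit 190) (nat_lit 1) (nat_lit 209) (nat_lit 359) (nat_lit 332)) (XT.nd (nat_lit 78) (nat_lit 76) (nat_lit 0) (XT.lf (nat_lit 0) (nat_lit 960599231465) (nat_lit 0) (nat_lit 1425416606066) (nat_lit 152) (nat_lit 960599231465) (nat_lit 189) (nat_lit 3) (nat_lit 189) (nat_lit 1) (nat_lit 191) (nat_lit 1) (nat_lit 210) (nat_lit 359) (nat_lit 331)) (XT.lf (nat_lit 76) (nat_lit 794454108401) (nat_lit 0) (nat_lit 1198643129793) (nat_lit 76) (nat_lit 1198643129793) (nat_lit 189) (nat_lit 3) (nat_lit 188) (nat_lit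 1) (nat_lit 189) (nat_lit 1) (nat_lit 211) (nat_lit 359) (nat_lit 330))))) (XT.nd (nat_lit 234) (nat_lit 228) (nat_lit 0) (XT.nd (nat_lit 78) (nat_lit 76) (nat_lit 0) (XT.lf (nat_lit 152) (nat_lit 2836276313998) (nat_lit 0) (nat_lit 106505670986) (nat_lit 76) (nat_lit 106505670985) (nat_lit 188) (nat_lit 1) (nat_lit 186) (nat_lit 1) (nat_lit 187) (nat_lit 1) (nat_lit 212) (nat_lit 359) (nat_lit 329)) (XT.nd (nat_lit 78) (nat_lit 76) (nat_lit 0) (XT.lf (nat_lit 0) (nat_lit 879249133140) (nat_lit 0) (nat_lit 1145009975676) (nat_lit 152) (nat_lit 879249133140) (nat_lit 186) (nat_lit 3) (nat_lit 186) (nat_lit 1) (nat_lit 188) (nat_lit 1) (nat_lit 213) (nat_lit 359) (nat_lit 328)) (XT.lf (nat_lit 76) (nat_lit 769254055932) (nat_lit 0) (nat_lit 1000350440746) (nat_lit 76) (nat_lit 1000350440746) (nat_lit 186) (nat_lit 3) (nat_lit 185) (nat_lit 1) (nat_lit 186) (nat_lit 1) (nat_lit 214) (nat_lit 359)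 (nat_lit 327)))) (XT.nd (nat_lit 78) (nat_lit 76) (nat_lit 0) (XT.lf (nat_lit 152) (nat_lit 2525627340303) (nat_lit 0) (nat_lit 60894963060) (nat_lit 76) (nat_lit 60894963060) (nat_lit 185) (nat_lit 1) (nat_lit 183) (nat_lit 1) (nat_lit 184) (nat_lit 1) (nat_lit 215) (nat_lit 359) (nat_lit 326)) (XT.nd (nat_lit 78) (nat_lit 76) (nat_lit 0) (XT.lf (nat_lit 0) (nat_lit 789690419328) (nat_lit 0) (nat_lit 941640043599) (nat_lit 152) (nat_lit 789690419328) (nat_lit 183) (nat_lit 3) (nat_lit 183) (nat_lit 1) (nat_lit 185) (nat_lit 1) (nat_lit 216) (nat_lit 359) (nat_lit 325)) (XT.lf (nat_lit 76) (nat_lit 713755973582) (nat_lit 0) (nat_lit 845886081644) (nat_lit 76) (nat_lit 845886081644) (nat_lit 183) (nat_lit 3) (nat_lit 182) (nat_lit 1) (nat_lit 183) (nat_lit 1) (nat_lit 217) (nat_lit 359) (nat_lit 324)))))) (XT.nd (nat_lit 390) (nat_lit 456) (nat_lit 0) (XT.nd (nat_lit 156) (nat_lit 228) (nat_lit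 0) (XT.nd (nat_lit 78) (nat_lit 0) (nat_lit 0) (XT.lf (nat_lit 152) (nat_lit 2230102717999) (nat_lit 0) (nat_lit 34816892769) (nat_lit 76) (nat_lit 34816892769) (nat_lit 182) (nat_lit 1) (nat_lit 180) (nat_lit 1) (nat_lit 181) (nat_lit 1) (nat_lit 218) (nat_lit 359) (nat_lit 323)) (XT.lf (nat_lit 0) (nat_lit 701053167890) (nat_lit 0) (nat_lit 787930858734) (nat_lit 152) (nat_lit 701053167890) (nat_lit 180) (nat_lit 3) (nat_lit 180) (nat_lit 1) (nat_lit 182) (nat_lit 1) (nat_lit 219) (nat_lit 359) (nat_lit 322))) (XT.nd (nat_lit 78) (nat_lit 152) (nat_lit 0) (XT.lf (nat_lit 76) (nat_lit 646294442645) (nat_lit 0) (nat_lit 721840260770) (nat_lit 76) (nat_lit 721840260770) (nat_lit 180) (nat_lit 3) (nat_lit 179) (nat_lit 1) (nat_lit 180) (nat_lit 1) (nat_lit 220) (nat_lit 359) (nat_lit 321)) (XT.nd (nat_lit 78) (nat_lit 0) (nat_lit 0) (XT.lf (nat_lit 152) (nat_lit 1958605066172) (nat_lit 0) (nat_lit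 19906671442) (nat_lit 76) (nat_lit 19906671442) (nat_lit 179) (nat_lit 1) (nat_lit 177) (nat_lit 1) (nat_lit 178) (nat_lit 1) (nat_lit 221) (nat_lit 359) (nat_lit 320)) (XT.lf (nat_lit 0) (nat_lit 617825169836) (nat_lit 0) (nat_lit 667497771546) (nat_lit 152) (nat_lit 617825169836) (nat_lit 177) (nat_lit 3) (nat_lit 177) (nat_lit 1) (nat_lit 179) (nat_lit 1) (nat_lit 222) (nat_lit 359) (nat_lit 319))))) (XT.nd (nat_lit 234) (nat_lit 228) (nat_lit 0) (XT.nd (nat_lit 78) (nat_lit 152) (nat_lit 0) (XT.lf (nat_lit 76) (nat_lit 576653247964) (nat_lit 0) (nat_lit 619846814668) (nat_lit 76) (nat_lit 619846814668) (nat_lit 177) (nat_lit 3) (nat_lit 176) (nat_lit 1) (nat_lit 177) (nat_lit 1) (nat_lit 223) (nat_lit 359) (nat_lit 318)) (XT.nd (nat_lit 78) (nat_lit 0) (nat_lit 0) (XT.lf (nat_lit 152) (nat_lit 1714218454854) (nat_lit 0) (nat_lit 11381704006) (nat_lit 76) (nat_lit 11381704006) (nat_lit 176)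 (nat_lit 1) (nat_lit 174) (nat_lit 1) (nat_lit 175) (nat_lit 1) (nat_lit 224) (nat_lit 359) (nat_lit 317)) (XT.lf (nat_lit 0) (nat_lit 541935498899) (nat_lit 0) (nat_lit 570335970144) (nat_lit 152) (nat_lit 541935498899) (nat_lit 174) (nat_lit 3) (nat_lit 174) (nat_lit 1) (nat_lit 176) (nat_lit 1) (nat_lit 225) (nat_lit 359) (nat_lit 316)))) (XT.nd (nat_lit 78) (nat_lit 152) (nat_lit 0) (XT.lf (nat_lit 76) (nat_lit 509818411994) (nat_lit 0) (nat_lit 534514473946) (nat_lit 76) (nat_lit 534514473946) (nat_lit 174) (nat_lit 3) (nat_lit 173) (nat_lit 1) (nat_lit 174) (nat_lit 1) (nat_lit 226) (nat_lit 359) (nat_lit 315)) (XT.nd (nat_lit 78) (nat_lit 0) (nat_lit 0) (XT.lf (nat_lit 152) (nat_lit 1496961836031) (nat_lit 0) (nat_lit 6507526206) (nat_lit 76) (nat_lit 6507526205) (nat_lit 173) (nat_lit 1) (nat_lit 171) (nat_lit 1) (nat_lit 172) (nat_lit 1) (nat_lit 227) (nat_lit 359) (nat_lit 314)) (XT.lf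 (nat_lit 0) (nat_lit 473933339386) (nat_lit 0) (nat_lit 490171400996) (nat_lit 152) (nat_lit 473933339386) (nat_lit 171) (nat_lit 3) (nat_lit 171) (nat_lit 1) (nat_lit 173) (nat_lit 1) (nat_lit 228) (nat_lit 359) (nat_lit 313))))))) (XT.nd (nat_lit 858) (nat_lit 912) (nat_lit 0) (XT.nd (nat_lit 390) (nat_lit 456) (nat_lit 0) (XT.nd (nat_lit 156) (nat_lit 228) (nat_lit 0) (XT.nd (nat_lit 78) (nat_lit 152) (nat_lit 0) (XT.lf (nat_lit 76) (nat_lit 448112110755) (nat_lit 0) (nat_lit 462232164329) (nat_lit 76) (nat_lit 462232164329) (nat_lit 171) (nat_lit 3) (nat_lit 170) (nat_lit 1) (nat_lit 171) (nat_lit 1) (nat_lit 229) (nat_lit 359) (nat_lit 312)) (XT.lf (nat_lit 152) (nat_lit 1305329197682) (nat_lit 0) (nat_lit 3720699229) (nat_lit 76) (nat_lit 3720699229) (nat_lit 170) (nat_lit 1) (nat_lit 168) (nat_lit 1) (nat_lit 169) (nat_lit 1) (nat_lit 230) (nat_lit 359) (nat_lit 311))) (XT.nd (nat_lit 78)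 (nat_lit 228) (nat_lit 0) (XT.lf (nat_lit 0) (nat_lit 413651150196) (nat_lit 0) (nat_lit 422935314623) (nat_lit 152) (nat_lit 413651150196) (nat_lit 168) (nat_lit 3) (nat_lit 168) (nat_lit 1) (nat_lit 170) (nat_lit 1) (nat_lit 231) (nat_lit 359) (nat_lit 310)) (XT.nd (nat_lit 78) (nat_lit 152) (nat_lit 0) (XT.lf (nat_lit 76) (nat_lit 392402405048) (nat_lit 0) (nat_lit 400475591507) (nat_lit 76) (nat_lit 400475591507) (nat_lit 168) (nat_lit 3) (nat_lit 167) (nat_lit 1) (nat_lit 168) (nat_lit 1) (nat_lit 232) (nat_lit 359) (nat_lit 309)) (XT.lf (nat_lit 152) (nat_lit 1137140474388) (nat_lit 0) (nat_lit 2127321860) (nat_lit 76) (nat_lit 2127321860) (nat_lit 167) (nat_lit 1) (nat_lit 165) (nat_lit 1) (nat_lit 166) (nat_lit 1) (nat_lit 233) (nat_lit 359) (nat_lit 308))))) (XT.nd (nat_lit 234) (nat_lit 228) (nat_lit 0) (XT.nd (nat_lit 78) (nat_lit 228) (nat_lit 0) (XT.lf (nat_lit 0) (nat_lit 360574409587)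 (nat_lit 0) (nat_lit 365882660731) (nat_lit 152) (nat_lit 360574409587) (nat_lit 165) (nat_lit 3) (nat_lit 165) (nat_lit 1) (nat_lit 167) (nat_lit 1) (nat_lit 234) (nat_lit 359) (nat_lit 307)) (XT.nd (nat_lit 78) (nat_lit 152) (nat_lit 0) (XT.lf (nat_lit 76) (nat_lit 342785915042) (nat_lit 0) (nat_lit 347401785602) (nat_lit 76) (nat_lit 347401785602) (nat_lit 165) (nat_lit 3) (nat_lit 164) (nat_lit 1) (nat_lit 165) (nat_lit 1) (nat_lit 235) (nat_lit 359) (nat_lit 306)) (XT.lf (nat_lit 152) (nat_lit 990002251749) (nat_lit 0) (nat_lit 1216303177) (nat_lit 76) (nat_lit 1216303177) (nat_lit 164) (nat_lit 1) (nat_lit 162) (nat_lit 1) (nat_lit 163) (nat_lit 1) (nat_lit 236) (nat_lit 359) (nat_lit 305)))) (XT.nd (nat_lit 78) (nat_lit 228) (nat_lit 0) (XT.lf (nat_lit 0) (nat_lit 314044825410) (nat_lit 0) (nat_lit 317079835230) (nat_lit 152) (nat_lit 314044825410) (nat_lit 162) (nat_lit 3) (nat_lit 162)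 (nat_lit 1) (nat_lit 164) (nat_lit 1) (nat_lit 237) (nat_lit 359) (nat_lit 304)) (XT.nd (nat_lit 78) (nat_lit 152) (nat_lit 0) (XT.lf (nat_lit 76) (nat_lit 298970321536) (nat_lit 0) (nat_lit 301609460510) (nat_lit 76) (nat_lit 301609460510) (nat_lit 162) (nat_lit 3) (nat_lit 161) (nat_lit 1) (nat_lit 162) (nat_lit 1) (nat_lit 238) (nat_lit 359) (nat_lit 303)) (XT.lf (nat_lit 152) (nat_lit 861548735210) (nat_lit 0) (nat_lit 695425289) (nat_lit 76) (nat_lit 695425289) (nat_lit 161) (nat_lit 1) (nat_lit 159) (nat_lit 1) (nat_lit 160) (nat_lit 1) (nat_lit 239) (nat_lit 359) (nat_lit 302)))))) (XT.nd (nat_lit 468) (nat_lit 456) (nat_lit 0) (XT.nd (nat_lit 234) (nat_lit 228) (nat_lit 0) (XT.nd (nat_lit 78) (nat_lit 228) (nat_lit 0) (XT.lf (nat_lit 0) (nat_lit 273369397278) (nat_lit 0) (nat_lit 275104673993) (nat_lit 152) (nat_lit 273369397278) (nat_lit 159) (nat_lit 3) (nat_lit 159) (nat_lit 1) (nat_lit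 161) (nat_lit 1) (nat_lit 240) (nat_lit 359) (nat_lit 301)) (XT.nd (nat_lit 78) (nat_lit 152) (nat_lit 0) (XT.lf (nat_lit 76) (nat_lit 260486262167) (nat_lit 0) (nat_lit 261995198441) (nat_lit 76) (nat_lit 261995198441) (nat_lit 159) (nat_lit 3) (nat_lit 158) (nat_lit 1) (nat_lit 159) (nat_lit 1) (nat_lit 241) (nat_lit 359) (nat_lit 300)) (XT.lf (nat_lit 152) (nat_lit 749560011356) (nat_lit 0) (nat_lit 397611666) (nat_lit 76) (nat_lit 397611666) (nat_lit 158) (nat_lit 1) (nat_lit 156) (nat_lit 1) (nat_lit 157) (nat_lit 1) (nat_lit 242) (nat_lit 359) (nat_lit 299)))) (XT.nd (nat_lit 78) (nat_lit 228) (nat_lit 0) (XT.lf (nat_lit 0) (nat_lit 237876578477) (nat_lit 0) (nat_lit 238868728571) (nat_lit 152) (nat_lit 237876578477) (nat_lit 156) (nat_lit 3) (nat_lit 156) (nat_lit 1) (nat_lit 158) (nat_lit 1) (nat_lit 243) (nat_lit 359) (nat_lit 298)) (XT.nd (nat_lit 78) (nat_lit 152) (nat_lit 0) (XT.lf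 (nat_lit 76) (nat_lit 226802570603) (nat_lit 0) (nat_lit 227665309815) (nat_lit 76) (nat_lit 227665309815) (nat_lit 156) (nat_lit 3) (nat_lit 155) (nat_lit 1) (nat_lit 156) (nat_lit 1) (nat_lit 244) (nat_lit 359) (nat_lit 297)) (XT.lf (nat_lit 152) (nat_lit 652012696010) (nat_lit 0) (nat_lit 227335760) (nat_lit 76) (nat_lit 227335760) (nat_lit 155) (nat_lit 1) (nat_lit 153) (nat_lit 1) (nat_lit 154) (nat_lit 1) (nat_lit 245) (nat_lit 359) (nat_lit 296))))) (XT.nd (nat_lit 234) (nat_lit 228) (nat_lit 0) (XT.nd (nat_lit 78) (nat_lit 228) (nat_lit 0) (XT.lf (nat_lit 0) (nat_lit 206943000001) (nat_lit 0) (nat_lit 207510265038) (nat_lit 152) (nat_lit 206943000001) (nat_lit 153) (nat_lit 3) (nat_lit 153) (nat_lit 1) (nat_lit 155) (nat_lit 1) (nat_lit 246) (nat_lit 359) (nat_lit 295)) (XT.nd (nat_lit 78) (nat_lit 152) (nat_lit 0) (XT.lf (nat_lit 76) (nat_lit 197387023048) (nat_lit 0) (nat_lit 197880296993)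 (nat_lit 76) (nat_lit 197880296993) (nat_lit 153) (nat_lit 3) (nat_lit 152) (nat_lit 1) (nat_lit 153) (nat_lit 1) (nat_lit 247) (nat_lit 359) (nat_lit 294)) (XT.lf (nat_lit 152) (nat_lit 567094137504) (nat_lit 0) (nat_lit 129979959) (nat_lit 76) (nat_lit 129979959) (nat_lit 152) (nat_lit 1) (nat_lit 150) (nat_lit 1) (nat_lit 151) (nat_lit 1) (nat_lit 248) (nat_lit 359) (nat_lit 293)))) (XT.nd (nat_lit 78) (nat_lit 228) (nat_lit 0) (XT.lf (nat_lit 0) (nat_lit 180004065996) (nat_lit 0) (nat_lit 180328401622) (nat_lit 152) (nat_lit 180004065996) (nat_lit 150) (nat_lit 3) (nat_lit 150) (nat_lit 1) (nat_lit 152) (nat_lit 1) (nat_lit 249) (nat_lit 359) (nat_lit 292)) (XT.nd (nat_lit 78) (nat_lit 152) (nat_lit 0) (XT.lf (nat_lit 76) (nat_lit 171736599063) (nat_lit 0) (nat_lit 172018630042) (nat_lit 76) (nat_lit 172018630042) (nat_lit 150) (nat_lit 3) (nat_lit 149) (nat_lit 1) (nat_lit 150) (nat_lit 1)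 (nat_lit 250) (nat_lit 359) (nat_lit 291)) (XT.lf (nat_lit 152) (nat_lit 493197707059) (nat_lit 0) (nat_lit 74316463) (nat_lit 76) (nat_lit 74316463) (nat_lit 149) (nat_lit 1) (nat_lit 147) (nat_lit 1) (nat_lit 148) (nat_lit 1) (nat_lit 251) (nat_lit 359) (nat_lit 290))))))))
noncomputable def ec196 : XT := (XT.nd (nat_lit 1716) (nat_lit 1672) (nat_lit 0) (XT.nd (nat_lit 858) (nat_lit 836) (nat_lit 0) (XT.nd (nat_lit 390) (nat_lit 456) (nat_lit 0) (XT.nd (nat_lit 156) (nat_lit 228) (nat_lit 0) (XT.nd (nat_lit 78) (nat_lit 76) (nat_lit 0) (XT.lf (nat_lit 0) (nat_lit 156555938599) (nat_lit 0) (nat_lit 156741378545) (nat_lit 152) (nat_lit 156555938599) (nat_lit 147) (nat_lit 3) (nat_lit 147) (nat_lit 1) (nat_lit 149) (nat_lit 1) (nat_lit 252) (nat_lit 359) (nat_lit 289)) (XT.lf (nat_lit 76) (nat_lit 149390895291) (nat_lit 0) (nat_lit 149552147418) (nat_lit 76) (nat_lit 149552147418) (nat_lit 147)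 (nat_lit 3) (nat_lit 146) (nat_lit 1) (nat_lit 147) (nat_lit 1) (nat_lit 253) (nat_lit 359) (nat_lit 288))) (XT.nd (nat_lit 78) (nat_lit 76) (nat_lit 0) (XT.lf (nat_lit 152) (nat_lit 428908949194) (nat_lit 0) (nat_lit 42490679) (nat_lit 76) (nat_lit 42490679) (nat_lit 146) (nat_lit 1) (nat_lit 144) (nat_lit 1) (nat_lit 145) (nat_lit 1) (nat_lit 254) (nat_lit 359) (nat_lit 287)) (XT.nd (nat_lit 78) (nat_lit 76) (nat_lit 0) (XT.lf (nat_lit 0) (nat_lit 136153130920) (nat_lit 0) (nat_lit 136259156811) (nat_lit 152) (nat_lit 136153130920) (nat_lit 144) (nat_lit 3) (nat_lit 144) (nat_lit 1) (nat_lit 146) (nat_lit 1) (nat_lit 255) (nat_lit 359) (nat_lit 286)) (XT.lf (nat_lit 76) (nat_lit 129936413930) (nat_lit 0) (nat_lit 130028610358) (nat_lit 76) (nat_lit 130028610358) (nat_lit 144) (nat_lit 3) (nat_lit 143) (nat_lit 1) (nat_lit 144) (nat_lit 1) (nat_lit 256) (nat_lit 359) (nat_lit 285))))) (XT.nd (nat_lit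 234) (nat_lit 228) (nat_lit 0) (XT.nd (nat_lit 78) (nat_lit 76) (nat_lit 0) (XT.lf (nat_lit 152) (nat_lit 372987961561) (nat_lit 0) (nat_lit 24294183) (nat_lit 76) (nat_lit 24294183) (nat_lit 143) (nat_lit 1) (nat_lit 141) (nat_lit 1) (nat_lit 142) (nat_lit 1) (nat_lit 257) (nat_lit 359) (nat_lit 284)) (XT.nd (nat_lit 78) (nat_lit 76) (nat_lit 0) (XT.lf (nat_lit 0) (nat_lit 118404050944) (nat_lit 0) (nat_lit 118464671591) (nat_lit 152) (nat_lit 118404050944) (nat_lit 141) (nat_lit 3) (nat_lit 141) (nat_lit 1) (nat_lit 143) (nat_lit 1) (nat_lit 258) (nat_lit 359) (nat_lit 283)) (XT.lf (nat_lit 76) (nat_lit 113006074808) (nat_lit 0) (nat_lit 113058788415) (nat_lit 76) (nat_lit 113058788415) (nat_lit 141) (nat_lit 3) (nat_lit 140) (nat_lit 1) (nat_lit 141) (nat_lit 1) (nat_lit 259) (nat_lit 359) (nat_lit 282)))) (XT.nd (nat_lit 78) (nat_lit 76) (nat_lit 0) (XT.lf (nat_lit 152) (nat_lit 324350884368)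 (nat_lit 0) (nat_lit 13890278) (nat_lit 76) (nat_lit 13890278) (nat_lit 140) (nat_lit 1) (nat_lit 138) (nat_lit 1) (nat_lit 139) (nat_lit 1) (nat_lit 260) (nat_lit 359) (nat_lit 281)) (XT.nd (nat_lit 78) (nat_lit 76) (nat_lit 0) (XT.lf (nat_lit 0) (nat_lit 102965775586) (nat_lit 0) (nat_lit 103000435638) (nat_lit 152) (nat_lit 102965775586) (nat_lit 138) (nat_lit 3) (nat_lit 138) (nat_lit 1) (nat_lit 140) (nat_lit 1) (nat_lit 261) (nat_lit 359) (nat_lit 280)) (XT.lf (nat_lit 76) (nat_lit 98276379976) (nat_lit 0) (nat_lit 98306519152) (nat_lit 76) (nat_lit 98306519152) (nat_lit 138) (nat_lit 3) (nat_lit 137) (nat_lit 1) (nat_lit 138) (nat_lit 1) (nat_lit 262) (nat_lit 359) (nat_lit 279)))))) (XT.nd (nat_lit 390) (nat_lit 456) (nat_lit 0) (XT.nd (nat_lit 156) (nat_lit 228) (nat_lit 0) (XT.nd (nat_lit 78) (nat_lit 0) (nat_lit 0) (XT.lf (nat_lit 152) (nat_lit 282051981091) (nat_lit 0) (nat_lit 7941811)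 (nat_lit 76) (nat_lit 7941811) (nat_lit 137) (nat_lit 1) (nat_lit 135) (nat_lit 1) (nat_lit 136) (nat_lit 1) (nat_lit 263) (nat_lit 359) (nat_lit 278)) (XT.lf (nat_lit 0) (nat_lit 89538733913) (nat_lit 0) (nat_lit 89558550911) (nat_lit 152) (nat_lit 89538733913) (nat_lit 135) (nat_lit 3) (nat_lit 135) (nat_lit 1) (nat_lit 137) (nat_lit 1) (nat_lit 264) (nat_lit 359) (nat_lit 277))) (XT.nd (nat_lit 78) (nat_lit 152) (nat_lit 0) (XT.lf (nat_lit 76) (nat_lit 85463569593) (nat_lit 0) (nat_lit 85480801764) (nat_lit 76) (nat_lit 85480801764) (nat_lit 135) (nat_lit 3) (nat_lit 134) (nat_lit 1) (nat_lit 135) (nat_lit 1) (nat_lit 265) (nat_lit 359) (nat_lit 276)) (XT.nd (nat_lit 78) (nat_lit 0) (nat_lit 0) (XT.lf (nat_lit 152) (nat_lit 245267014086) (nat_lit 0) (nat_lit 4540756) (nat_lit 76) (nat_lit 4540756) (nat_lit 134) (nat_lit 1) (nat_lit 132) (nat_lit 1) (nat_lit 133) (nat_lit 1) (nat_lit 266) (nat_lit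 359) (nat_lit 275)) (XT.lf (nat_lit 0) (nat_lit 77861642188) (nat_lit 0) (nat_lit 77872972621) (nat_lit 152) (nat_lit 77861642188) (nat_lit 132) (nat_lit 3) (nat_lit 132) (nat_lit 1) (nat_lit 134) (nat_lit 1) (nat_lit 267) (nat_lit 359) (nat_lit 274))))) (XT.nd (nat_lit 234) (nat_lit 228) (nat_lit 0) (XT.nd (nat_lit 78) (nat_lit 152) (nat_lit 0) (XT.lf (nat_lit 76) (nat_lit 74319491013) (nat_lit 0) (nat_lit 74329343563) (nat_lit 76) (nat_lit 74329343563) (nat_lit 132) (nat_lit 3) (nat_lit 131) (nat_lit 1) (nat_lit 132) (nat_lit 1) (nat_lit 268) (nat_lit 359) (nat_lit 273)) (XT.nd (nat_lit 78) (nat_lit 0) (nat_lit 0) (XT.lf (nat_lit 152) (nat_lit 213278192620) (nat_lit 0) (nat_lit 2596192) (nat_lit 76) (nat_lit 2596192) (nat_lit 131) (nat_lit 1) (nat_lit 129) (nat_lit 1) (nat_lit 130) (nat_lit 1) (nat_lit 269) (nat_lit 359) (nat_lit 272)) (XT.lf (nat_lit 0) (nat_lit 67706847034) (nat_lit 0) (nat_lit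 67713325246) (nat_lit 152) (nat_lit 67706847034) (nat_lit 129) (nat_lit 3) (nat_lit 129) (nat_lit 1) (nat_lit 131) (nat_lit 1) (nat_lit 270) (nat_lit 359) (nat_lit 271)))) (XT.nd (nat_lit 78) (nat_lit 152) (nat_lit 0) (XT.lf (nat_lit 76) (nat_lit 64627556040) (nat_lit 0) (nat_lit 64633189267) (nat_lit 76) (nat_lit 64633189267) (nat_lit 129) (nat_lit 3) (nat_lit 128) (nat_lit 1) (nat_lit 129) (nat_lit 1) (nat_lit 271) (nat_lit 359) (nat_lit 270)) (XT.nd (nat_lit 78) (nat_lit 0) (nat_lit 0) (XT.lf (nat_lit 152) (nat_lit 185460743435) (nat_lit 0) (nat_lit 1484381) (nat_lit 76) (nat_lit 1484381) (nat_lit 128) (nat_lit 1) (nat_lit 126) (nat_lit 1) (nat_lit 127) (nat_lit 1) (nat_lit 272) (nat_lit 359) (nat_lit 269)) (XT.lf (nat_lit 0) (nat_lit 58876131633) (nat_lit 0) (nat_lit 58879835571) (nat_lit 152) (nat_lit 58876131633) (nat_lit 126) (nat_lit 3) (nat_lit 126) (nat_lit 1) (nat_lit 128) (nat_lit 1)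 (nat_lit 273) (nat_lit 359) (nat_lit 268))))))) (XT.nd (nat_lit 858) (nat_lit 760) (nat_lit 0) (XT.nd (nat_lit 390) (nat_lit 456) (nat_lit 0) (XT.nd (nat_lit 156) (nat_lit 228) (nat_lit 0) (XT.nd (nat_lit 78) (nat_lit 152) (nat_lit 0) (XT.lf (nat_lit 76) (nat_lit 56198967827) (nat_lit 0) (nat_lit 56202188643) (nat_lit 76) (nat_lit 56202188643) (nat_lit 126) (nat_lit 3) (nat_lit 125) (nat_lit 1) (nat_lit 126) (nat_lit 1) (nat_lit 274) (nat_lit 359) (nat_lit 267)) (XT.lf (nat_lit 152) (nat_lit 161271038155) (nat_lit 0) (nat_lit 848699) (nat_lit 76) (nat_lit 848699) (nat_lit 125) (nat_lit 1) (nat_lit 123) (nat_lit 1) (nat_lit 124) (nat_lit 1) (nat_lit 275) (nat_lit 359) (nat_lit 266))) (XT.nd (nat_lit 78) (nat_lit 228) (nat_lit 0) (XT.lf (nat_lit 0) (nat_lit 51196986386) (nat_lit 0) (nat_lit 51199104125) (nat_lit 152) (nat_lit 51196986386) (nat_lit 123) (nat_lit 3) (nat_lit 123) (nat_lit 1) (nat_lit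 125) (nat_lit 1) (nat_lit 276) (nat_lit 359) (nat_lit 265)) (XT.nd (nat_lit 78) (nat_lit 152) (nat_lit 0) (XT.lf (nat_lit 76) (nat_lit 48869292607) (nat_lit 0) (nat_lit 48871134119) (nat_lit 76) (nat_lit 48871134119) (nat_lit 123) (nat_lit 3) (nat_lit 122) (nat_lit 1) (nat_lit 123) (nat_lit 1) (nat_lit 277) (nat_lit 359) (nat_lit 264)) (XT.lf (nat_lit 152) (nat_lit 140236157890) (nat_lit 0) (nat_lit 485246) (nat_lit 76) (nat_lit 485246) (nat_lit 122) (nat_lit 1) (nat_lit 120) (nat_lit 1) (nat_lit 121) (nat_lit 1) (nat_lit 278) (nat_lit 359) (nat_lit 263))))) (XT.nd (nat_lit 234) (nat_lit 228) (nat_lit 0) (XT.nd (nat_lit 78) (nat_lit 228) (nat_lit 0) (XT.lf (nat_lit 0) (nat_lit 44519318815) (nat_lit 0) (nat_lit 44520529639) (nat_lit 152) (nat_lit 44519318815) (nat_lit 120) (nat_lit 3) (nat_lit 120) (nat_lit 1) (nat_lit 122) (nat_lit 1) (nat_lit 279) (nat_lit 359) (nat_lit 262)) (XT.nd (nat_lit 78)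 (nat_lit 152) (nat_lit 0) (XT.lf (nat_lit 76) (nat_lit 42495394356) (nat_lit 0) (nat_lit 42496447247) (nat_lit 76) (nat_lit 42496447247) (nat_lit 120) (nat_lit 3) (nat_lit 119) (nat_lit 1) (nat_lit 120) (nat_lit 1) (nat_lit 280) (nat_lit 359) (nat_lit 261)) (XT.lf (nat_lit 152) (nat_lit 121944755297) (nat_lit 0) (nat_lit 277441) (nat_lit 76) (nat_lit 277441) (nat_lit 119) (nat_lit 1) (nat_lit 117) (nat_lit 1) (nat_lit 118) (nat_lit 1) (nat_lit 281) (nat_lit 359) (nat_lit 260)))) (XT.nd (nat_lit 78) (nat_lit 228) (nat_lit 0) (XT.lf (nat_lit 0) (nat_lit 38712565619) (nat_lit 0) (nat_lit 38713257911) (nat_lit 152) (nat_lit 38712565619) (nat_lit 117) (nat_lit 3) (nat_lit 117) (nat_lit 1) (nat_lit 119) (nat_lit 1) (nat_lit 282) (nat_lit 359) (nat_lit 259)) (XT.nd (nat_lit 78) (nat_lit 152) (nat_lit 0) (XT.lf (nat_lit 76) (nat_lit 36952721123) (nat_lit 0) (nat_lit 36953323116) (nat_lit 76) (nat_lit 36953323116)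 (nat_lit 117) (nat_lit 3) (nat_lit 116) (nat_lit 1) (nat_lit 117) (nat_lit 1) (nat_lit 283) (nat_lit 359) (nat_lit 258)) (XT.lf (nat_lit 152) (nat_lit 106039072123) (nat_lit 0) (nat_lit 158628) (nat_lit 76) (nat_lit 158628) (nat_lit 116) (nat_lit 1) (nat_lit 114) (nat_lit 1) (nat_lit 115) (nat_lit 1) (nat_lit 284) (nat_lit 359) (nat_lit 257)))))) (XT.nd (nat_lit 390) (nat_lit 456) (nat_lit 0) (XT.nd (nat_lit 156) (nat_lit 228) (nat_lit 0) (XT.nd (nat_lit 78) (nat_lit 76) (nat_lit 0) (XT.lf (nat_lit 0) (nat_lit 33663165990) (nat_lit 0) (nat_lit 33663561810) (nat_lit 152) (nat_lit 33663165990) (nat_lit 114) (nat_lit 3) (nat_lit 114) (nat_lit 1) (nat_lit 116) (nat_lit 1) (nat_lit 285) (nat_lit 359) (nat_lit 256)) (XT.lf (nat_lit 76) (nat_lit 32132917780) (nat_lit 0) (nat_lit 32133261972) (nat_lit 76) (nat_lit 32133261972) (nat_lit 114) (nat_lit 3) (nat_lit 113) (nat_lit 1) (nat_lit 114) (nat_lit 1)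 (nat_lit 286) (nat_lit 359) (nat_lit 255))) (XT.nd (nat_lit 78) (nat_lit 76) (nat_lit 0) (XT.lf (nat_lit 152) (nat_lit 92207977124) (nat_lit 0) (nat_lit 90696) (nat_lit 76) (nat_lit 90696) (nat_lit 113) (nat_lit 1) (nat_lit 111) (nat_lit 1) (nat_lit 112) (nat_lit 1) (nat_lit 287) (nat_lit 359) (nat_lit 254)) (XT.nd (nat_lit 78) (nat_lit 76) (nat_lit 0) (XT.lf (nat_lit 0) (nat_lit 29272355674) (nat_lit 0) (nat_lit 29272581986) (nat_lit 152) (nat_lit 29272355674) (nat_lit 111) (nat_lit 3) (nat_lit 111) (nat_lit 1) (nat_lit 113) (nat_lit 1) (nat_lit 288) (nat_lit 359) (nat_lit 253)) (XT.lf (nat_lit 76) (nat_lit 27941734418) (nat_lit 0) (nat_lit 27941931211) (nat_lit 76) (nat_lit 27941931211) (nat_lit 111) (nat_lit 3) (nat_lit 110) (nat_lit 1) (nat_lit 111) (nat_lit 1) (nat_lit 289) (nat_lit 359) (nat_lit 252))))) (XT.nd (nat_lit 234) (nat_lit 228) (nat_lit 0) (XT.nd (nat_lit 78) (nat_lit 76) (nat_lit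 0) (XT.lf (nat_lit 152) (nat_lit 80180900170) (nat_lit 0) (nat_lit 51855) (nat_lit 76) (nat_lit 51855) (nat_lit 110) (nat_lit 1) (nat_lit 108) (nat_lit 1) (nat_lit 109) (nat_lit 1) (nat_lit 290) (nat_lit 359) (nat_lit 251)) (XT.nd (nat_lit 78) (nat_lit 76) (nat_lit 0) (XT.lf (nat_lit 0) (nat_lit 25454243721) (nat_lit 0) (nat_lit 25454373116) (nat_lit 152) (nat_lit 25454243721) (nat_lit 108) (nat_lit 3) (nat_lit 108) (nat_lit 1) (nat_lit 110) (nat_lit 1) (nat_lit 291) (nat_lit 359) (nat_lit 250)) (XT.lf (nat_lit 76) (nat_lit 24297198547) (nat_lit 0) (nat_lit 24297311064) (nat_lit 76) (nat_lit 24297311064) (nat_lit 108) (nat_lit 3) (nat_lit 107) (nat_lit 1) (nat_lit 108) (nat_lit 1) (nat_lit 292) (nat_lit 359) (nat_lit 249)))) (XT.nd (nat_lit 78) (nat_lit 76) (nat_lit 0) (XT.lf (nat_lit 152) (nat_lit 69722550759) (nat_lit 0) (nat_lit 29648) (nat_lit 76) (nat_lit 29648) (nat_lit 107) (nat_lit 1) (nat_lit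 105) (nat_lit 1) (nat_lit 106) (nat_lit 1) (nat_lit 293) (nat_lit 359) (nat_lit 248)) (XT.nd (nat_lit 78) (nat_lit 76) (nat_lit 0) (XT.lf (nat_lit 0) (nat_lit 22134137209) (nat_lit 0) (nat_lit 22134211190) (nat_lit 152) (nat_lit 22134137209) (nat_lit 105) (nat_lit 3) (nat_lit 105) (nat_lit 1) (nat_lit 107) (nat_lit 1) (nat_lit 294) (nat_lit 359) (nat_lit 247)) (XT.lf (nat_lit 76) (nat_lit 21128020568) (nat_lit 0) (nat_lit 21128084900) (nat_lit 76) (nat_lit 21128084900) (nat_lit 105) (nat_lit 3) (nat_lit 104) (nat_lit 1) (nat_lit 105) (nat_lit 1) (nat_lit 295) (nat_lit 359) (nat_lit 246))))))))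
noncomputable def ec197 : XT := (XT.nd (nat_lit 1716) (nat_lit 1672) (nat_lit 0) (XT.nd (nat_lit 858) (nat_lit 912) (nat_lit 0) (XT.nd (nat_lit 390) (nat_lit 456) (nat_lit 0) (XT.nd (nat_lit 156) (nat_lit 228) (nat_lit 0) (XT.nd (nat_lit 78) (nat_lit 0) (nat_lit 0) (XT.lf (nat_lit 152) (nat_lit 60628321516) (nat_lit 0) (nat_lit 16951) (nat_lit 76) (nat_lit 16951) (nat_lit 104) (nat_lit 1) (nat_lit 102) (nat_lit 1) (nat_lit 103) (nat_lit 1) (nat_lit 296) (nat_lit 359) (nat_lit 245)) (XT.lf (nat_lit 0) (nat_lit 19247082828) (nat_lit 0) (nat_lit 19247125127) (nat_lit 152) (nat_lit 19247082828) (nat_lit 102) (nat_lit 3) (nat_lit 102) (nat_lit 1) (nat_lit 104) (nat_lit 1) (nat_lit 297) (nat_lit 359) (nat_lit 244))) (XT.nd (nat_lit 78) (nat_lit 152) (nat_lit 0) (XT.lf (nat_lit 76) (nat_lit 18372204281) (nat_lit 0) (nat_lit 18372241063) (nat_lit 76) (nat_lit 18372241063) (nat_lit 102) (nat_lit 3) (nat_lit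 101) (nat_lit 1) (nat_lit 102) (nat_lit 1) (nat_lit 298) (nat_lit 359) (nat_lit 243)) (XT.nd (nat_lit 78) (nat_lit 0) (nat_lit 0) (XT.lf (nat_lit 152) (nat_lit 52720289017) (nat_lit 0) (nat_lit 9692) (nat_lit 76) (nat_lit 9692) (nat_lit 101) (nat_lit 1) (nat_lit 99) (nat_lit 1) (nat_lit 100) (nat_lit 1) (nat_lit 299) (nat_lit 359) (nat_lit 242)) (XT.lf (nat_lit 0) (nat_lit 16736597762) (nat_lit 0) (nat_lit 16736621947) (nat_lit 152) (nat_lit 16736597762) (nat_lit 99) (nat_lit 3) (nat_lit 99) (nat_lit 1) (nat_lit 101) (nat_lit 1) (nat_lit 300) (nat_lit 359) (nat_lit 241))))) (XT.nd (nat_lit 234) (nat_lit 228) (nat_lit 0) (XT.nd (nat_lit 78) (nat_lit 152) (nat_lit 0) (XT.lf (nat_lit 76) (nat_lit 15975836946) (nat_lit 0) (nat_lit 15975857976) (nat_lit 76) (nat_lit 15975857976) (nat_lit 99) (nat_lit 3) (nat_lit 98) (nat_lit 1) (nat_lit 99) (nat_lit 1) (nat_lit 301) (nat_lit 359) (nat_lit 240)) (XT.nd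 (nat_lit 78) (nat_lit 0) (nat_lit 0) (XT.lf (nat_lit 152) (nat_lit 45843734977) (nat_lit 0) (nat_lit 5541) (nat_lit 76) (nat_lit 5541) (nat_lit 98) (nat_lit 1) (nat_lit 96) (nat_lit 1) (nat_lit 97) (nat_lit 1) (nat_lit 302) (nat_lit 359) (nat_lit 239)) (XT.lf (nat_lit 0) (nat_lit 14553565558) (nat_lit 0) (nat_lit 14553579386) (nat_lit 152) (nat_lit 14553565558) (nat_lit 96) (nat_lit 3) (nat_lit 96) (nat_lit 1) (nat_lit 98) (nat_lit 1) (nat_lit 303) (nat_lit 359) (nat_lit 238)))) (XT.nd (nat_lit 78) (nat_lit 152) (nat_lit 0) (XT.lf (nat_lit 76) (nat_lit 13892036207) (nat_lit 0) (nat_lit 13892048231) (nat_lit 76) (nat_lit 13892048231) (nat_lit 96) (nat_lit 3) (nat_lit 95) (nat_lit 1) (nat_lit 96) (nat_lit 1) (nat_lit 304) (nat_lit 359) (nat_lit 237)) (XT.nd (nat_lit 78) (nat_lit 0) (nat_lit 0) (XT.lf (nat_lit 152) (nat_lit 39864120456) (nat_lit 0) (nat_lit 3168) (nat_lit 76) (nat_lit 3168) (nat_lit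 95) (nat_lit 1) (nat_lit 93) (nat_lit 1) (nat_lit 94) (nat_lit 1) (nat_lit 305) (nat_lit 359) (nat_lit 236)) (XT.lf (nat_lit 0) (nat_lit 12655275706) (nat_lit 0) (nat_lit 12655283612) (nat_lit 152) (nat_lit 12655275706) (nat_lit 93) (nat_lit 3) (nat_lit 93) (nat_lit 1) (nat_lit 95) (nat_lit 1) (nat_lit 306) (nat_lit 359) (nat_lit 235)))))) (XT.nd (nat_lit 390) (nat_lit 456) (nat_lit 0) (XT.nd (nat_lit 156) (nat_lit 228) (nat_lit 0) (XT.nd (nat_lit 78) (nat_lit 152) (nat_lit 0) (XT.lf (nat_lit 76) (nat_lit 12080033818) (nat_lit 0) (nat_lit 12080040692) (nat_lit 76) (nat_lit 12080040692) (nat_lit 93) (nat_lit 3) (nat_lit 92) (nat_lit 1) (nat_lit 93) (nat_lit 1) (nat_lit 307) (nat_lit 359) (nat_lit 234)) (XT.lf (nat_lit 152) (nat_lit 34664454335) (nat_lit 0) (nat_lit 1811) (nat_lit 76) (nat_lit 1811) (nat_lit 92) (nat_lit 1) (nat_lit 90) (nat_lit 1) (nat_lit 91) (nat_lit 1) (nat_lit 308) (nat_lit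 359) (nat_lit 233))) (XT.nd (nat_lit 78) (nat_lit 228) (nat_lit 0) (XT.lf (nat_lit 0) (nat_lit 11004588318) (nat_lit 0) (nat_lit 11004592838) (nat_lit 152) (nat_lit 11004588318) (nat_lit 90) (nat_lit 3) (nat_lit 90) (nat_lit 1) (nat_lit 92) (nat_lit 1) (nat_lit 309) (nat_lit 359) (nat_lit 232)) (XT.nd (nat_lit 78) (nat_lit 152) (nat_lit 0) (XT.lf (nat_lit 76) (nat_lit 10504378566) (nat_lit 0) (nat_lit 10504382497) (nat_lit 76) (nat_lit 10504382497) (nat_lit 90) (nat_lit 3) (nat_lit 89) (nat_lit 1) (nat_lit 90) (nat_lit 1) (nat_lit 310) (nat_lit 359) (nat_lit 231)) (XT.lf (nat_lit 152) (nat_lit 30143004778) (nat_lit 0) (nat_lit 1035) (nat_lit 76) (nat_lit 1035) (nat_lit 89) (nat_lit 1) (nat_lit 87) (nat_lit 1) (nat_lit 88) (nat_lit 1) (nat_lit 311) (nat_lit 359) (nat_lit 230))))) (XT.nd (nat_lit 234) (nat_lit 228) (nat_lit 0) (XT.nd (nat_lit 78) (nat_lit 228) (nat_lit 0) (XT.lf (nat_lit 0) (nat_lit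 9569207660) (nat_lit 0) (nat_lit 9569210244) (nat_lit 152) (nat_lit 9569207660) (nat_lit 87) (nat_lit 3) (nat_lit 87) (nat_lit 1) (nat_lit 89) (nat_lit 1) (nat_lit 312) (nat_lit 359) (nat_lit 229)) (XT.nd (nat_lit 78) (nat_lit 152) (nat_lit 0) (XT.lf (nat_lit 76) (nat_lit 9134242994) (nat_lit 0) (nat_lit 9134245242) (nat_lit 76) (nat_lit 9134245242) (nat_lit 87) (nat_lit 3) (nat_lit 86) (nat_lit 1) (nat_lit 87) (nat_lit 1) (nat_lit 313) (nat_lit 359) (nat_lit 228)) (XT.lf (nat_lit 152) (nat_lit 26211309079) (nat_lit 0) (nat_lit 592) (nat_lit 76) (nat_lit 592) (nat_lit 86) (nat_lit 1) (nat_lit 84) (nat_lit 1) (nat_lit 85) (nat_lit 1) (nat_lit 314) (nat_lit 359) (nat_lit 227)))) (XT.nd (nat_lit 78) (nat_lit 228) (nat_lit 0) (XT.lf (nat_lit 0) (nat_lit 8321050383) (nat_lit 0) (nat_lit 8321051861) (nat_lit 152) (nat_lit 8321050383) (nat_lit 84) (nat_lit 3) (nat_lit 84) (nat_lit 1) (nat_lit 86) (nat_lit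 1) (nat_lit 315) (nat_lit 359) (nat_lit 226)) (XT.nd (nat_lit 78) (nat_lit 152) (nat_lit 0) (XT.lf (nat_lit 76) (nat_lit 7942820431) (nat_lit 0) (nat_lit 7942821716) (nat_lit 76) (nat_lit 7942821716) (nat_lit 84) (nat_lit 3) (nat_lit 83) (nat_lit 1) (nat_lit 84) (nat_lit 1) (nat_lit 316) (nat_lit 359) (nat_lit 225)) (XT.lf (nat_lit 152) (nat_lit 22792443007) (nat_lit 0) (nat_lit 338) (nat_lit 76) (nat_lit 338) (nat_lit 83) (nat_lit 1) (nat_lit 81) (nat_lit 1) (nat_lit 82) (nat_lit 1) (nat_lit 317) (nat_lit 359) (nat_lit 224))))))) (XT.nd (nat_lit 858) (nat_lit 912) (nat_lit 0) (XT.nd (nat_lit 390) (nat_lit 456) (nat_lit 0) (XT.nd (nat_lit 156) (nat_lit 228) (nat_lit 0) (XT.nd (nat_lit 78) (nat_lit 76) (nat_lit 0) (XT.lf (nat_lit 0) (nat_lit 7235696125) (nat_lit 0) (nat_lit 7235696970) (nat_lit 152) (nat_lit 7235696125) (nat_lit 81) (nat_lit 3) (nat_lit 81) (nat_lit 1) (nat_lit 83) (nat_lit 1) (nat_lit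 318) (nat_lit 359) (nat_lit 223)) (XT.lf (nat_lit 76) (nat_lit 6906800624) (nat_lit 0) (nat_lit 6906801359) (nat_lit 76) (nat_lit 6906801359) (nat_lit 81) (nat_lit 3) (nat_lit 80) (nat_lit 1) (nat_lit 81) (nat_lit 1) (nat_lit 319) (nat_lit 359) (nat_lit 222))) (XT.nd (nat_lit 78) (nat_lit 76) (nat_lit 0) (XT.lf (nat_lit 152) (nat_lit 19819515847) (nat_lit 0) (nat_lit 193) (nat_lit 76) (nat_lit 193) (nat_lit 80) (nat_lit 1) (nat_lit 78) (nat_lit 1) (nat_lit 79) (nat_lit 1) (nat_lit 320) (nat_lit 359) (nat_lit 221)) (XT.nd (nat_lit 78) (nat_lit 76) (nat_lit 0) (XT.lf (nat_lit 0) (nat_lit 6291909754) (nat_lit 0) (nat_lit 6291910237) (nat_lit 152) (nat_lit 6291909754) (nat_lit 78) (nat_lit 3) (nat_lit 78) (nat_lit 1) (nat_lit 80) (nat_lit 1) (nat_lit 321) (nat_lit 359) (nat_lit 220)) (XT.lf (nat_lit 76) (nat_lit 6005913729) (nat_lit 0) (nat_lit 6005914149) (nat_lit 76) (nat_lit 6005914149) (nat_lit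 78) (nat_lit 3) (nat_lit 77) (nat_lit 1) (nat_lit 78) (nat_lit 1) (nat_lit 322) (nat_lit 359) (nat_lit 219))))) (XT.nd (nat_lit 234) (nat_lit 228) (nat_lit 0) (XT.nd (nat_lit 78) (nat_lit 76) (nat_lit 0) (XT.lf (nat_lit 152) (nat_lit 17234361714) (nat_lit 0) (nat_lit 110) (nat_lit 76) (nat_lit 110) (nat_lit 77) (nat_lit 1) (nat_lit 75) (nat_lit 1) (nat_lit 76) (nat_lit 1) (nat_lit 323) (nat_lit 359) (nat_lit 218)) (XT.nd (nat_lit 78) (nat_lit 76) (nat_lit 0) (XT.lf (nat_lit 0) (nat_lit 5471225919) (nat_lit 0) (nat_lit 5471226195) (nat_lit 152) (nat_lit 5471225919) (nat_lit 75) (nat_lit 3) (nat_lit 75) (nat_lit 1) (nat_lit 77) (nat_lit 1) (nat_lit 324) (nat_lit 359) (nat_lit 217)) (XT.lf (nat_lit 76) (nat_lit 5222533759) (nat_lit 0) (nat_lit 5222533999) (nat_lit 76) (nat_lit 5222533999) (nat_lit 75) (nat_lit 3) (nat_lit 74) (nat_lit 1) (nat_lit 75) (nat_lit 1) (nat_lit 325) (nat_lit 359) (nat_lit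 216)))) (XT.nd (nat_lit 78) (nat_lit 76) (nat_lit 0) (XT.lf (nat_lit 152) (nat_lit 14986401552) (nat_lit 0) (nat_lit 63) (nat_lit 76) (nat_lit 63) (nat_lit 74) (nat_lit 1) (nat_lit 72) (nat_lit 1) (nat_lit 73) (nat_lit 1) (nat_lit 326) (nat_lit 359) (nat_lit 215)) (XT.nd (nat_lit 78) (nat_lit 76) (nat_lit 0) (XT.lf (nat_lit 0) (nat_lit 4757587781) (nat_lit 0) (nat_lit 4757587939) (nat_lit 152) (nat_lit 4757587781) (nat_lit 72) (nat_lit 3) (nat_lit 72) (nat_lit 1) (nat_lit 74) (nat_lit 1) (nat_lit 327) (nat_lit 359) (nat_lit 214)) (XT.lf (nat_lit 76) (nat_lit 4541333750) (nat_lit 0) (nat_lit 4541333887) (nat_lit 76) (nat_lit 4541333887) (nat_lit 72) (nat_lit 3) (nat_lit 71) (nat_lit 1) (nat_lit 72) (nat_lit 1) (nat_lit 328) (nat_lit 359) (nat_lit 213)))))) (XT.nd (nat_lit 468) (nat_lit 456) (nat_lit 0) (XT.nd (nat_lit 234) (nat_lit 228) (nat_lit 0) (XT.nd (nat_lit 78) (nat_lit 76) (nat_lit 0) (XT.lf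 (nat_lit 152) (nat_lit 13031653558) (nat_lit 0) (nat_lit 36) (nat_lit 76) (nat_lit 36) (nat_lit 71) (nat_lit 1) (nat_lit 69) (nat_lit 1) (nat_lit 70) (nat_lit 1) (nat_lit 329) (nat_lit 359) (nat_lit 212)) (XT.nd (nat_lit 78) (nat_lit 76) (nat_lit 0) (XT.lf (nat_lit 0) (nat_lit 4137032868) (nat_lit 0) (nat_lit 4137032958) (nat_lit 152) (nat_lit 4137032868) (nat_lit 69) (nat_lit 3) (nat_lit 69) (nat_lit 1) (nat_lit 71) (nat_lit 1) (nat_lit 330) (nat_lit 359) (nat_lit 211)) (XT.lf (nat_lit 76) (nat_lit 3948985896) (nat_lit 0) (nat_lit 3948985974) (nat_lit 76) (nat_lit 3948985974) (nat_lit 69) (nat_lit 3) (nat_lit 68) (nat_lit 1) (nat_lit 69) (nat_lit 1) (nat_lit 331) (nat_lit 359) (nat_lit 210)))) (XT.nd (nat_lit 78) (nat_lit 76) (nat_lit 0) (XT.lf (nat_lit 152) (nat_lit 11331872680) (nat_lit 0) (nat_lit 20) (nat_lit 76) (nat_lit 20) (nat_lit 68) (nat_lit 1) (nat_lit 66) (nat_lit 1) (nat_lit 67) (nat_lit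 1) (nat_lit 332) (nat_lit 359) (nat_lit 209)) (XT.nd (nat_lit 78) (nat_lit 76) (nat_lit 0) (XT.lf (nat_lit 0) (nat_lit 3597419894) (nat_lit 0) (nat_lit 3597419945) (nat_lit 152) (nat_lit 3597419894) (nat_lit 66) (nat_lit 3) (nat_lit 66) (nat_lit 1) (nat_lit 68) (nat_lit 1) (nat_lit 333) (nat_lit 359) (nat_lit 208)) (XT.lf (nat_lit 76) (nat_lit 3433900794) (nat_lit 0) (nat_lit 3433900839) (nat_lit 76) (nat_lit 3433900839) (nat_lit 66) (nat_lit 3) (nat_lit 65) (nat_lit 1) (nat_lit 66) (nat_lit 1) (nat_lit 334) (nat_lit 359) (nat_lit 207))))) (XT.nd (nat_lit 234) (nat_lit 228) (nat_lit 0) (XT.nd (nat_lit 78) (nat_lit 76) (nat_lit 0) (XT.lf (nat_lit 152) (nat_lit 9853802342) (nat_lit 0) (nat_lit 11) (nat_lit 76) (nat_lit 11) (nat_lit 65) (nat_lit 1) (nat_lit 63) (nat_lit 1) (nat_lit 64) (nat_lit 1) (nat_lit 335) (nat_lit 359) (nat_lit 206)) (XT.nd (nat_lit 78) (nat_lit 76) (nat_lit 0) (XT.lf (nat_lit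 0) (nat_lit 3128191217) (nat_lit 0) (nat_lit 3128191246) (nat_lit 152) (nat_lit 3128191217) (nat_lit 63) (nat_lit 3) (nat_lit 63) (nat_lit 1) (nat_lit 65) (nat_lit 1) (nat_lit 336) (nat_lit 359) (nat_lit 205)) (XT.lf (nat_lit 76) (nat_lit 2986000699) (nat_lit 0) (nat_lit 2986000725) (nat_lit 76) (nat_lit 2986000725) (nat_lit 63) (nat_lit 3) (nat_lit 62) (nat_lit 1) (nat_lit 63) (nat_lit 1) (nat_lit 337) (nat_lit 359) (nat_lit 204)))) (XT.nd (nat_lit 78) (nat_lit 76) (nat_lit 0) (XT.lf (nat_lit 152) (nat_lit 8568523782) (nat_lit 0) (nat_lit 6) (nat_lit 76) (nat_lit 6) (nat_lit 62) (nat_lit 1) (nat_lit 60) (nat_lit 1) (nat_lit 61) (nat_lit 1) (nat_lit 338) (nat_lit 359) (nat_lit 203)) (XT.nd (nat_lit 78) (nat_lit 76) (nat_lit 0) (XT.lf (nat_lit 0) (nat_lit 2720166278) (nat_lit 0) (nat_lit 2720166295) (nat_lit 152) (nat_lit 2720166278) (nat_lit 60) (nat_lit 3) (nat_lit 60) (nat_lit 1) (nat_lit 62)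 (nat_lit 1) (nat_lit 339) (nat_lit 359) (nat_lit 202)) (XT.lf (nat_lit 76) (nat_lit 2596522352) (nat_lit 0) (nat_lit 2596522367) (nat_lit 76) (nat_lit 2596522367) (nat_lit 60) (nat_lit 3) (nat_lit 59) (nat_lit 1) (nat_lit 60) (nat_lit 1) (nat_lit 340) (nat_lit 359) (nat_lit 201))))))))
noncomputable def ec198 : XT := (XT.nd (nat_lit 1716) (nat_lit 684) (nat_lit 0) (XT.nd (nat_lit 858) (nat_lit 760) (nat_lit 0) (XT.nd (nat_lit 390) (nat_lit 456) (nat_lit 0) (XT.nd (nat_lit 156) (nat_lit 228) (nat_lit 0) (XT.nd (nat_lit 78) (nat_lit 0) (nat_lit 0) (XT.lf (nat_lit 152) (nat_lit 7450890249) (nat_lit 0) (nat_lit 3) (nat_lit 76) (nat_lit 3) (nat_lit 59) (nat_lit 1) (nat_lit 57) (nat_lit 1) (nat_lit 58) (nat_lit 1) (nat_lit 341) (nat_lit 359) (nat_lit 200)) (XT.lf (nat_lit 0) (nat_lit 2365361983) (nat_lit 0) (nat_lit 2365361992) (nat_lit 152) (nat_lit 2365361983) (nat_lit 57) (nat_lit 3) (nat_lit 57)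 (nat_lit 1) (nat_lit 59) (nat_lit 1) (nat_lit 342) (nat_lit 359) (nat_lit 199))) (XT.nd (nat_lit 78) (nat_lit 152) (nat_lit 0) (XT.lf (nat_lit 76) (nat_lit 2257845526) (nat_lit 0) (nat_lit 2257845535) (nat_lit 76) (nat_lit 2257845535) (nat_lit 57) (nat_lit 3) (nat_lit 56) (nat_lit 1) (nat_lit 57) (nat_lit 1) (nat_lit 343) (nat_lit 359) (nat_lit 198)) (XT.nd (nat_lit 78) (nat_lit 0) (nat_lit 0) (XT.lf (nat_lit 152) (nat_lit 6479035001) (nat_lit 0) (nat_lit 2) (nat_lit 76) (nat_lit 2) (nat_lit 56) (nat_lit 1) (nat_lit 54) (nat_lit 1) (nat_lit 55) (nat_lit 1) (nat_lit 344) (nat_lit 359) (nat_lit 197)) (XT.lf (nat_lit 0) (nat_lit 2056836507) (nat_lit 0) (nat_lit 2056836513) (nat_lit 152) (nat_lit 2056836507) (nat_lit 54) (nat_lit 3) (nat_lit 54) (nat_lit 1) (nat_lit 56) (nat_lit 1) (nat_lit 345) (nat_lit 359) (nat_lit 196))))) (XT.nd (nat_lit 234) (nat_lit 228) (nat_lit 0) (XT.nd (nat_lit 78) (nat_lit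 152) (nat_lit 0) (XT.lf (nat_lit 76) (nat_lit 1963343937) (nat_lit 0) (nat_lit 1963343942) (nat_lit 76) (nat_lit 1963343942) (nat_lit 54) (nat_lit 3) (nat_lit 53) (nat_lit 1) (nat_lit 54) (nat_lit 1) (nat_lit 346) (nat_lit 359) (nat_lit 195)) (XT.nd (nat_lit 78) (nat_lit 0) (nat_lit 0) (XT.lf (nat_lit 152) (nat_lit 5633943480) (nat_lit 0) (nat_lit 1) (nat_lit 76) (nat_lit 1) (nat_lit 53) (nat_lit 1) (nat_lit 51) (nat_lit 1) (nat_lit 52) (nat_lit 1) (nat_lit 347) (nat_lit 359) (nat_lit 194)) (XT.lf (nat_lit 0) (nat_lit 1788553485) (nat_lit 0) (nat_lit 1788553488) (nat_lit 152) (nat_lit 1788553485) (nat_lit 51) (nat_lit 3) (nat_lit 51) (nat_lit 1) (nat_lit 53) (nat_lit 1) (nat_lit 348) (nat_lit 359) (nat_lit 193)))) (XT.nd (nat_lit 78) (nat_lit 152) (nat_lit 0) (XT.lf (nat_lit 76) (nat_lit 1707255599) (nat_lit 0) (nat_lit 1707255601) (nat_lit 76) (nat_lit 1707255601) (nat_lit 51) (nat_lit 3) (nat_lit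 50) (nat_lit 1) (nat_lit 51) (nat_lit 1) (nat_lit 349) (nat_lit 359) (nat_lit 192)) (XT.nd (nat_lit 78) (nat_lit 152) (nat_lit 0) (XT.lf (nat_lit 0) (nat_lit 4899081288) (nat_lit 0) (nat_lit 0) (nat_lit 0) (nat_lit 0) (nat_lit 50) (nat_lit 1) (nat_lit 1) (nat_lit 0) (nat_lit 1) (nat_lit 0) (nat_lit 350) (nat_lit 359) (nat_lit 191)) (XT.lf (nat_lit 0) (nat_lit 1555263900) (nat_lit 0) (nat_lit 1555263902) (nat_lit 152) (nat_lit 1555263900) (nat_lit 48) (nat_lit 3) (nat_lit 48) (nat_lit 1) (nat_lit 50) (nat_lit 1) (nat_lit 351) (nat_lit 359) (nat_lit 190)))))) (XT.nd (nat_lit 390) (nat_lit 456) (nat_lit 0) (XT.nd (nat_lit 156) (nat_lit 228) (nat_lit 0) (XT.nd (nat_lit 78) (nat_lit 0) (nat_lit 0) (XT.lf (nat_lit 76) (nat_lit 1484570086) (nat_lit 0) (nat_lit 1484570088) (nat_lit 76) (nat_lit 1484570088) (nat_lit 48) (nat_lit 3) (nat_lit 47) (nat_lit 1) (nat_lit 48) (nat_lit 1) (nat_lit 352) (nat_lit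 359) (nat_lit 189)) (XT.lf (nat_lit 0) (nat_lit 4260070685) (nat_lit 0) (nat_lit 0) (nat_lit 0) (nat_lit 0) (nat_lit 47) (nat_lit 1) (nat_lit 1) (nat_lit 0) (nat_lit 1) (nat_lit 0) (nat_lit 353) (nat_lit 359) (nat_lit 188))) (XT.nd (nat_lit 78) (nat_lit 76) (nat_lit 0) (XT.lf (nat_lit 0) (nat_lit 1352403392) (nat_lit 0) (nat_lit 1352403393) (nat_lit 152) (nat_lit 1352403392) (nat_lit 45) (nat_lit 3) (nat_lit 45) (nat_lit 1) (nat_lit 47) (nat_lit 1) (nat_lit 354) (nat_lit 359) (nat_lit 187)) (XT.nd (nat_lit 78) (nat_lit 0) (nat_lit 0) (XT.lf (nat_lit 76) (nat_lit 1290930510) (nat_lit 0) (nat_lit 1290930511) (nat_lit 76) (nat_lit 1290930511) (nat_lit 45) (nat_lit 3) (nat_lit 44) (nat_lit 1) (nat_lit 45) (nat_lit 1) (nat_lit 355) (nat_lit 359) (nat_lit 186)) (XT.lf (nat_lit 0) (nat_lit 3704409292) (nat_lit 0) (nat_lit 0) (nat_lit 0) (nat_lit 0) (nat_lit 44) (nat_lit 1) (nat_lit 1) (nat_lit 0) (nat_lit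 1) (nat_lit 0) (nat_lit 356) (nat_lit 359) (nat_lit 185))))) (XT.nd (nat_lit 234) (nat_lit 228) (nat_lit 0) (XT.nd (nat_lit 78) (nat_lit 76) (nat_lit 0) (XT.lf (nat_lit 0) (nat_lit 1176002949) (nat_lit 0) (nat_lit 1176002950) (nat_lit 152) (nat_lit 1176002949) (nat_lit 42) (nat_lit 3) (nat_lit 42) (nat_lit 1) (nat_lit 44) (nat_lit 1) (nat_lit 357) (nat_lit 359) (nat_lit 184)) (XT.nd (nat_lit 78) (nat_lit 0) (nat_lit 0) (XT.lf (nat_lit 76) (nat_lit 1122548270) (nat_lit 0) (nat_lit 1122548270) (nat_lit 76) (nat_lit 1122548270) (nat_lit 42) (nat_lit 3) (nat_lit 41) (nat_lit 1) (nat_lit 42) (nat_lit 1) (nat_lit 358) (nat_lit 359) (nat_lit 183)) (XT.lf (nat_lit 0) (nat_lit 3221225471) (nat_lit 0) (nat_lit 0) (nat_lit 0) (nat_lit 0) (nat_lit 41) (nat_lit 1) (nat_lit 1) (nat_lit 0) (nat_lit 1) (nat_lit 0) (nat_lit 359) (nat_lit 359) (nat_lit 182)))) (XT.nd (nat_lit 78) (nat_lit 76) (nat_lit 0) (XT.lf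 (nat_lit 0) (nat_lit 1022611260) (nat_lit 0) (nat_lit 1022611261) (nat_lit 152) (nat_lit 1022611260) (nat_lit 39) (nat_lit 3) (nat_lit 39) (nat_lit 1) (nat_lit 41) (nat_lit 1) (nat_lit 360) (nat_lit 359) (nat_lit 181)) (XT.nd (nat_lit 78) (nat_lit 0) (nat_lit 0) (XT.lf (nat_lit 76) (nat_lit 976128930) (nat_lit 0) (nat_lit 976128931) (nat_lit 76) (nat_lit 976128931) (nat_lit 39) (nat_lit 3) (nat_lit 38) (nat_lit 1) (nat_lit 39) (nat_lit 1) (nat_lit 361) (nat_lit 359) (nat_lit 180)) (XT.lf (nat_lit 0) (nat_lit 2801065627) (nat_lit 0) (nat_lit 0) (nat_lit 0) (nat_lit 0) (nat_lit 38) (nat_lit 1) (nat_lit 1) (nat_lit 0) (nat_lit 1) (nat_lit 0) (nat_lit 362) (nat_lit 359) (nat_lit 179))))))) (XT.nd (nat_lit 32760) (nat_lit 0) (nat_lit 13376) (XT.nd (nat_lit 390) (nat_lit 228) (nat_lit 0) (XT.nd (nat_lit 156) (nat_lit 228) (nat_lit 0) (XT.nd (nat_lit 78) (nat_lit 76) (nat_lit 0) (XT.lf (nat_lit 0) (nat_lit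 889227183) (nat_lit 0) (nat_lit 889227183) (nat_lit 152) (nat_lit 889227183) (nat_lit 36) (nat_lit 3) (nat_lit 36) (nat_lit 1) (nat_lit 38) (nat_lit 1) (nat_lit 363) (nat_lit 359) (nat_lit 178)) (XT.lf (nat_lit 76) (nat_lit 848807765) (nat_lit 0) (nat_lit 848807766) (nat_lit 76) (nat_lit 848807766) (nat_lit 36) (nat_lit 3) (nat_lit 35) (nat_lit 1) (nat_lit 36) (nat_lit 1) (nat_lit 364) (nat_lit 359) (nat_lit 177))) (XT.nd (nat_lit 78) (nat_lit 228) (nat_lit 0) (XT.lf (nat_lit 0) (nat_lit 2435709241) (nat_lit 0) (nat_lit 0) (nat_lit 0) (nat_lit 0) (nat_lit 35) (nat_lit 1) (nat_lit 1) (nat_lit 0) (nat_lit 1) (nat_lit 0) (nat_lit 365) (nat_lit 359) (nat_lit 176)) (XT.nd (nat_lit 78) (nat_lit 76) (nat_lit 0) (XT.lf (nat_lit 0) (nat_lit 773241029) (nat_lit 0) (nat_lit 773241029) (nat_lit 152) (nat_lit 773241029) (nat_lit 33) (nat_lit 3) (nat_lit 33) (nat_lit 1) (nat_lit 35) (nat_lit 1) (nat_lit 366)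 (nat_lit 359) (nat_lit 175)) (XT.lf (nat_lit 76) (nat_lit 738093709) (nat_lit 0) (nat_lit 738093709) (nat_lit 76) (nat_lit 738093709) (nat_lit 33) (nat_lit 3) (nat_lit 32) (nat_lit 1) (nat_lit 33) (nat_lit 1) (nat_lit 367) (nat_lit 359) (nat_lit 174))))) (XT.nd (nat_lit 234) (nat_lit 0) (nat_lit 0) (XT.nd (nat_lit 78) (nat_lit 228) (nat_lit 0) (XT.lf (nat_lit 0) (nat_lit 2118008036) (nat_lit 0) (nat_lit 0) (nat_lit 0) (nat_lit 0) (nat_lit 32) (nat_lit 1) (nat_lit 1) (nat_lit 0) (nat_lit 1) (nat_lit 0) (nat_lit 368) (nat_lit 359) (nat_lit 173)) (XT.nd (nat_lit 78) (nat_lit 76) (nat_lit 0) (XT.lf (nat_lit 0) (nat_lit 672383503) (nat_lit 0) (nat_lit 672383503) (nat_lit 152) (nat_lit 672383503) (nat_lit 30) (nat_lit 3) (nat_lit 30) (nat_lit 1) (nat_lit 32) (nat_lit 1) (nat_lit 369) (nat_lit 359) (nat_lit 172)) (XT.lf (nat_lit 76) (nat_lit 641820616) (nat_lit 0) (nat_lit 641820617) (nat_lit 76) (nat_lit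 641820617) (nat_lit 30) (nat_lit 3) (nat_lit 29) (nat_lit 1) (nat_lit 30) (nat_lit 1) (nat_lit 370) (nat_lit 359) (nat_lit 171)))) (XT.nd (nat_lit 31980) (nat_lit 0) (nat_lit 14136) (XT.lf (nat_lit 0) (nat_lit 1841746118) (nat_lit 0) (nat_lit 0) (nat_lit 0) (nat_lit 0) (nat_lit 29) (nat_lit 1) (nat_lit 1) (nat_lit 0) (nat_lit 1) (nat_lit 0) (nat_lit 371) (nat_lit 359) (nat_lit 170)) (XT.nd (nat_lit 78) (nat_lit 0) (nat_lit 0) (XT.lf (nat_lit 380) (nat_lit 3076060403541) (nat_lit 0) (nat_lit 2724542405788) (nat_lit 380) (nat_lit 3076060403541) (nat_lit 220) (nat_lit 1) (nat_lit 215) (nat_lit 0) (nat_lit 220) (nat_lit 0) (nat_lit 180) (nat_lit 360) (nat_lit 360)) (XT.lf (nat_lit 380) (nat_lit 11377948237485) (nat_lit 76) (nat_lit 2600699569161) (nat_lit 0) (nat_lit 2600699569161) (nat_lit 220) (nat_lit 1) (nat_lit 216) (nat_lit 1) (nat_lit 215) (nat_lit 0) (nat_lit 181) (nat_lit 360) (nat_lit 359))))))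 (XT.nd (nat_lit 390) (nat_lit 608) (nat_lit 0) (XT.nd (nat_lit 156) (nat_lit 228) (nat_lit 0) (XT.nd (nat_lit 78) (nat_lit 0) (nat_lit 0) (XT.lf (nat_lit 380) (nat_lit 5015334338547) (nat_lit 0) (nat_lit 5457156864996) (nat_lit 304) (nat_lit 5015334338548) (nat_lit 221) (nat_lit 1) (nat_lit 216) (nat_lit 1) (nat_lit 220) (nat_lit 1) (nat_lit 182) (nat_lit 360) (nat_lit 358)) (XT.lf (nat_lit 380) (nat_lit 8611068648506) (nat_lit 76) (nat_lit 2947626393996) (nat_lit 0) (nat_lit 2947626393996) (nat_lit 221) (nat_lit 1) (nat_lit 217) (nat_lit 1) (nat_lit 216) (nat_lit 1) (nat_lit 183) (nat_lit 360) (nat_lit 357))) (XT.nd (nat_lit 78) (nat_lit 304) (nat_lit 0) (XT.lf (nat_lit 76) (nat_lit 3483291476506) (nat_lit 0) (nat_lit 6632771754097) (nat_lit 304) (nat_lit 3483291476506) (nat_lit 218) (nat_lit 1) (nat_lit 217) (nat_lit 1) (nat_lit 221) (nat_lit 1) (nat_lit 184) (nat_lit 360) (nat_lit 356)) (XT.nd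 (nat_lit 78) (nat_lit 0) (nat_lit 0) (XT.lf (nat_lit 380) (nat_lit 5235105766528) (nat_lit 0) (nat_lit 3768128742827) (nat_lit 304) (nat_lit 3768128742827) (nat_lit 218) (nat_lit 1) (nat_lit 213) (nat_lit 1) (nat_lit 217) (nat_lit 1) (nat_lit 185) (nat_lit 360) (nat_lit 355)) (XT.lf (nat_lit 76) (nat_lit 1740091339833) (nat_lit 0) (nat_lit 8538671818128) (nat_lit 380) (nat_lit 1740091339833) (nat_lit 214) (nat_lit 1) (nat_lit 213) (nat_lit 1) (nat_lit 218) (nat_lit 1) (nat_lit 186) (nat_lit 360) (nat_lit 354))))) (XT.nd (nat_lit 234) (nat_lit 228) (nat_lit 0) (XT.nd (nat_lit 78) (nat_lit 228) (nat_lit 0) (XT.lf (nat_lit 228) (nat_lit 1566041157857) (nat_lit 0) (nat_lit 4873916682434) (nat_lit 152) (nat_lit 4873916682434) (nat_lit 214) (nat_lit 1) (nat_lit 211) (nat_lit 1) (nat_lit 213) (nat_lit 1) (nat_lit 187) (nat_lit 360) (nat_lit 353)) (XT.nd (nat_lit 78) (nat_lit 0) (nat_lit 0) (XT.lf (nat_lit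 228) (nat_lit 10523776875823) (nat_lit 0) (nat_lit 82569670499) (nat_lit 152) (nat_lit 82569670499) (nat_lit 211) (nat_lit 1) (nat_lit 208) (nat_lit 1) (nat_lit 210) (nat_lit 1) (nat_lit 188) (nat_lit 360) (nat_lit 352)) (XT.lf (nat_lit 76) (nat_lit 4043302341277) (nat_lit 0) (nat_lit 1985046226054) (nat_lit 228) (nat_lit 4043302341277) (nat_lit 209) (nat_lit 1) (nat_lit 208) (nat_lit 1) (nat_lit 211) (nat_lit 1) (nat_lit 189) (nat_lit 360) (nat_lit 351)))) (XT.nd (nat_lit 78) (nat_lit 76) (nat_lit 0) (XT.lf (nat_lit 228) (nat_lit 5877095140583) (nat_lit 0) (nat_lit 1823017138664) (nat_lit 152) (nat_lit 1823017138664) (nat_lit 209) (nat_lit 1) (nat_lit 206) (nat_lit 1) (nat_lit 208) (nat_lit 1) (nat_lit 190) (nat_lit 360) (nat_lit 350)) (XT.nd (nat_lit 78) (nat_lit 76) (nat_lit 0) (XT.lf (nat_lit 76) (nat_lit 1837960411015) (nat_lit 0) (nat_lit 5333729690057) (nat_lit 228) (nat_lit 1837960411015)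 (nat_lit 207) (nat_lit 1) (nat_lit 206) (nat_lit 1) (nat_lit 209) (nat_lit 1) (nat_lit 191) (nat_lit 360) (nat_lit 349)) (XT.lf (nat_lit 152) (nat_lit 1519413938562) (nat_lit 0) (nat_lit 3506055136927) (nat_lit 76) (nat_lit 3506055136927) (nat_lit 207) (nat_lit 1) (nat_lit 205) (nat_lit 1) (nat_lit 206) (nat_lit 1) (nat_lit 192) (nat_lit 360) (nat_lit 348))))))))
noncomputable def ec199 : XT := (XT.nd (nat_lit 1716) (nat_lit 1824) (nat_lit 0) (XT.nd (nat_lit 858) (nat_lit 836) (nat_lit 0) (XT.nd (nat_lit 390) (nat_lit 380) (nat_lit 0) (XT.nd (nat_lit 156) (nat_lit 228) (nat_lit 0) (XT.nd (nat_lit 78) (nat_lit 0) (nat_lit 0) (XT.lf (nat_lit 228) (nat_lit 7692166504632) (nat_lit 0) (nat_lit 204350276005) (nat_lit 152) (nat_lit 204350276005) (nat_lit 205) (nat_lit 1) (nat_lit 202) (nat_lit 1) (nat_lit 204) (nat_lit 1) (nat_lit 193) (nat_lit 360) (nat_lit 347)) (XT.lf (nat_lit 76) (nat_lit 2692092837616)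 (nat_lit 0) (nat_lit 2286213071942) (nat_lit 228) (nat_lit 2692092837616) (nat_lit 203) (nat_lit 1) (nat_lit 202) (nat_lit 1) (nat_lit 205) (nat_lit 1) (nat_lit 194) (nat_lit 360) (nat_lit 346))) (XT.nd (nat_lit 78) (nat_lit 152) (nat_lit 0) (XT.lf (nat_lit 152) (nat_lit 3273327047582) (nat_lit 0) (nat_lit 2004598403766) (nat_lit 76) (nat_lit 2004598403766) (nat_lit 203) (nat_lit 1) (nat_lit 201) (nat_lit 1) (nat_lit 202) (nat_lit 1) (nat_lit 195) (nat_lit 360) (nat_lit 345)) (XT.nd (nat_lit 78) (nat_lit 152) (nat_lit 0) (XT.lf (nat_lit 0) (nat_lit 640962544798) (nat_lit 0) (nat_lit 5642985026785) (nat_lit 152) (nat_lit 640962544798) (nat_lit 201) (nat_lit 3) (nat_lit 201) (nat_lit 1) (nat_lit 203) (nat_lit 1) (nat_lit 196) (nat_lit 360) (nat_lit 344)) (XT.lf (nat_lit 76) (nat_lit 2966371954167) (nat_lit 0) (nat_lit 643354796640) (nat_lit 152) (nat_lit 2966371954167) (nat_lit 200) (nat_lit 1) (nat_lit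 199) (nat_lit 1) (nat_lit 201) (nat_lit 1) (nat_lit 197) (nat_lit 360) (nat_lit 343))))) (XT.nd (nat_lit 234) (nat_lit 228) (nat_lit 0) (XT.nd (nat_lit 78) (nat_lit 76) (nat_lit 0) (XT.lf (nat_lit 152) (nat_lit 3962489447525) (nat_lit 0) (nat_lit 1146135643463) (nat_lit 76) (nat_lit 1146135643463) (nat_lit 200) (nat_lit 1) (nat_lit 198) (nat_lit 1) (nat_lit 199) (nat_lit 1) (nat_lit 198) (nat_lit 360) (nat_lit 342)) (XT.nd (nat_lit 78) (nat_lit 76) (nat_lit 0) (XT.lf (nat_lit 0) (nat_lit 1030267362651) (nat_lit 0) (nat_lit 3890189951257) (nat_lit 152) (nat_lit 1030267362651) (nat_lit 198) (nat_lit 3) (nat_lit 198) (nat_lit 1) (nat_lit 200) (nat_lit 1) (nat_lit 199) (nat_lit 360) (nat_lit 341)) (XT.lf (nat_lit 76) (nat_lit 229834237839) (nat_lit 0) (nat_lit 2716723445322) (nat_lit 76) (nat_lit 2716723445322) (nat_lit 198) (nat_lit 3) (nat_lit 197) (nat_lit 1) (nat_lit 198) (nat_lit 1) (nat_lit 200)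 (nat_lit 360) (nat_lit 340)))) (XT.nd (nat_lit 78) (nat_lit 76) (nat_lit 0) (XT.lf (nat_lit 152) (nat_lit 4083787145018) (nat_lit 0) (nat_lit 655306774040) (nat_lit 76) (nat_lit 655306774040) (nat_lit 197) (nat_lit 1) (nat_lit 195) (nat_lit 1) (nat_lit 196) (nat_lit 1) (nat_lit 201) (nat_lit 360) (nat_lit 339)) (XT.nd (nat_lit 78) (nat_lit 76) (nat_lit 0) (XT.lf (nat_lit 0) (nat_lit 1166271706128) (nat_lit 0) (nat_lit 2801441728308) (nat_lit 152) (nat_lit 1166271706128) (nat_lit 195) (nat_lit 3) (nat_lit 195) (nat_lit 1) (nat_lit 197) (nat_lit 1) (nat_lit 202) (nat_lit 360) (nat_lit 338)) (XT.lf (nat_lit 76) (nat_lit 682384514695) (nat_lit 0) (nat_lit 2104271490504) (nat_lit 76) (nat_lit 2104271490504) (nat_lit 195) (nat_lit 3) (nat_lit 194) (nat_lit 1) (nat_lit 195) (nat_lit 1) (nat_lit 203) (nat_lit 360) (nat_lit 337)))))) (XT.nd (nat_lit 390) (nat_lit 456) (nat_lit 0) (XT.nd (nat_lit 156) (nat_lit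 228) (nat_lit 0) (XT.nd (nat_lit 78) (nat_lit 0) (nat_lit 0) (XT.lf (nat_lit 152) (nat_lit 3915980243838) (nat_lit 0) (nat_lit 374673774916) (nat_lit 76) (nat_lit 374673774916) (nat_lit 194) (nat_lit 1) (nat_lit 192) (nat_lit 1) (nat_lit 193) (nat_lit 1) (nat_lit 204) (nat_lit 360) (nat_lit 336)) (XT.lf (nat_lit 0) (nat_lit 1168743979051) (nat_lit 0) (nat_lit 2103657746329) (nat_lit 152) (nat_lit 1168743979051) (nat_lit 192) (nat_lit 3) (nat_lit 192) (nat_lit 1) (nat_lit 194) (nat_lit 1) (nat_lit 205) (nat_lit 360) (nat_lit 335))) (XT.nd (nat_lit 78) (nat_lit 152) (nat_lit 0) (XT.lf (nat_lit 76) (nat_lit 869265163857) (nat_lit 0) (nat_lit 1682233657142) (nat_lit 76) (nat_lit 1682233657142) (nat_lit 192) (nat_lit 3) (nat_lit 191) (nat_lit 1) (nat_lit 192) (nat_lit 1) (nat_lit 206) (nat_lit 360) (nat_lit 334)) (XT.nd (nat_lit 78) (nat_lit 0) (nat_lit 0) (XT.lf (nat_lit 152) (nat_lit 3613810665713)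 (nat_lit 0) (nat_lit 214220946847) (nat_lit 76) (nat_lit 214220946847) (nat_lit 191) (nat_lit 1) (nat_lit 189) (nat_lit 1) (nat_lit 190) (nat_lit 1) (nat_lit 207) (nat_lit 360) (nat_lit 333)) (XT.lf (nat_lit 0) (nat_lit 1104689116185) (nat_lit 0) (nat_lit 1639229096976) (nat_lit 152) (nat_lit 1104689116185) (nat_lit 189) (nat_lit 3) (nat_lit 189) (nat_lit 1) (nat_lit 191) (nat_lit 1) (nat_lit 208) (nat_lit 360) (nat_lit 332))))) (XT.nd (nat_lit 234) (nat_lit 228) (nat_lit 0) (XT.nd (nat_lit 78) (nat_lit 152) (nat_lit 0) (XT.lf (nat_lit 76) (nat_lit 913622224661) (nat_lit 0) (nat_lit 1378439599262) (nat_lit 76) (nat_lit 1378439599262) (nat_lit 189) (nat_lit 3) (nat_lit 188) (nat_lit 1) (nat_lit 189) (nat_lit 1) (nat_lit 209) (nat_lit 360) (nat_lit 331)) (XT.nd (nat_lit 78) (nat_lit 0) (nat_lit 0) (XT.lf (nat_lit 152) (nat_lit 3261717761097) (nat_lit 0) (nat_lit 122481521633) (nat_lit 76) (nat_lit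 122481521633) (nat_lit 188) (nat_lit 1) (nat_lit 186) (nat_lit 1) (nat_lit 187) (nat_lit 1) (nat_lit 210) (nat_lit 360) (nat_lit 330)) (XT.lf (nat_lit 0) (nat_lit 1011136503111) (nat_lit 0) (nat_lit 1316761472027) (nat_lit 152) (nat_lit 1011136503111) (nat_lit 186) (nat_lit 3) (nat_lit 186) (nat_lit 1) (nat_lit 188) (nat_lit 1) (nat_lit 211) (nat_lit 360) (nat_lit 329)))) (XT.nd (nat_lit 78) (nat_lit 152) (nat_lit 0) (XT.lf (nat_lit 76) (nat_lit 884642164322) (nat_lit 0) (nat_lit 1150403006858) (nat_lit 76) (nat_lit 1150403006858) (nat_lit 186) (nat_lit 3) (nat_lit 185) (nat_lit 1) (nat_lit 186) (nat_lit 1) (nat_lit 212) (nat_lit 360) (nat_lit 328)) (XT.nd (nat_lit 78) (nat_lit 0) (nat_lit 0) (XT.lf (nat_lit 152) (nat_lit 2904471441348) (nat_lit 0) (nat_lit 70029207519) (nat_lit 76) (nat_lit 70029207519) (nat_lit 185) (nat_lit 1) (nat_lit 183) (nat_lit 1) (nat_lit 184) (nat_lit 1) (nat_lit 213)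 (nat_lit 360) (nat_lit 327)) (XT.lf (nat_lit 0) (nat_lit 908143982227) (nat_lit 0) (nat_lit 1082886050139) (nat_lit 152) (nat_lit 908143982227) (nat_lit 183) (nat_lit 3) (nat_lit 183) (nat_lit 1) (nat_lit 185) (nat_lit 1) (nat_lit 214) (nat_lit 360) (nat_lit 326))))))) (XT.nd (nat_lit 858) (nat_lit 912) (nat_lit 0) (XT.nd (nat_lit 390) (nat_lit 456) (nat_lit 0) (XT.nd (nat_lit 156) (nat_lit 228) (nat_lit 0) (XT.nd (nat_lit 78) (nat_lit 152) (nat_lit 0) (XT.lf (nat_lit 76) (nat_lit 820819369619) (nat_lit 0) (nat_lit 972768993891) (nat_lit 76) (nat_lit 972768993891) (nat_lit 183) (nat_lit 3) (nat_lit 182) (nat_lit 1) (nat_lit 183) (nat_lit 1) (nat_lit 215) (nat_lit 360) (nat_lit 325)) (XT.lf (nat_lit 152) (nat_lit 2564618125699) (nat_lit 0) (nat_lit 40039426685) (nat_lit 76) (nat_lit 40039426685) (nat_lit 182) (nat_lit 1) (nat_lit 180) (nat_lit 1) (nat_lit 181) (nat_lit 1) (nat_lit 216) (nat_lit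 360) (nat_lit 324))) (XT.nd (nat_lit 78) (nat_lit 228) (nat_lit 0) (XT.lf (nat_lit 0) (nat_lit 806211143074) (nat_lit 0) (nat_lit 906120487544) (nat_lit 152) (nat_lit 806211143074) (nat_lit 180) (nat_lit 3) (nat_lit 180) (nat_lit 1) (nat_lit 182) (nat_lit 1) (nat_lit 217) (nat_lit 360) (nat_lit 323)) (XT.nd (nat_lit 78) (nat_lit 152) (nat_lit 0) (XT.lf (nat_lit 76) (nat_lit 743238609042) (nat_lit 0) (nat_lit 830116299886) (nat_lit 76) (nat_lit 830116299886) (nat_lit 180) (nat_lit 3) (nat_lit 179) (nat_lit 1) (nat_lit 180) (nat_lit 1) (nat_lit 218) (nat_lit 360) (nat_lit 322)) (XT.lf (nat_lit 152) (nat_lit 2252395826098) (nat_lit 0) (nat_lit 22892672159) (nat_lit 76) (nat_lit 22892672159) (nat_lit 179) (nat_lit 1) (nat_lit 177) (nat_lit 1) (nat_lit 178) (nat_lit 1) (nat_lit 219) (nat_lit 360) (nat_lit 321))))) (XT.nd (nat_lit 234) (nat_lit 228) (nat_lit 0) (XT.nd (nat_lit 78) (nat_lit 228) (nat_lit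 0) (XT.lf (nat_lit 0) (nat_lit 710498945312) (nat_lit 0) (nat_lit 767622437278) (nat_lit 152) (nat_lit 710498945312) (nat_lit 177) (nat_lit 3) (nat_lit 177) (nat_lit 1) (nat_lit 179) (nat_lit 1) (nat_lit 220) (nat_lit 360) (nat_lit 320)) (XT.nd (nat_lit 78) (nat_lit 152) (nat_lit 0) (XT.lf (nat_lit 76) (nat_lit 663151235158) (nat_lit 0) (nat_lit 712823836868) (nat_lit 76) (nat_lit 712823836868) (nat_lit 177) (nat_lit 3) (nat_lit 176) (nat_lit 1) (nat_lit 177) (nat_lit 1) (nat_lit 221) (nat_lit 360) (nat_lit 319)) (XT.lf (nat_lit 152) (nat_lit 1971351223082) (nat_lit 0) (nat_lit 13088959607) (nat_lit 76) (nat_lit 13088959607) (nat_lit 176) (nat_lit 1) (nat_lit 174) (nat_lit 1) (nat_lit 175) (nat_lit 1) (nat_lit 222) (nat_lit 360) (nat_lit 318)))) (XT.nd (nat_lit 78) (nat_lit 228) (nat_lit 0) (XT.lf (nat_lit 0) (nat_lit 623225823734) (nat_lit 0) (nat_lit 655886365665) (nat_lit 152) (nat_lit 623225823734)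 (nat_lit 174) (nat_lit 3) (nat_lit 174) (nat_lit 1) (nat_lit 176) (nat_lit 1) (nat_lit 223) (nat_lit 360) (nat_lit 317)) (XT.nd (nat_lit 78) (nat_lit 152) (nat_lit 0) (XT.lf (nat_lit 76) (nat_lit 586291173793) (nat_lit 0) (nat_lit 614691645038) (nat_lit 76) (nat_lit 614691645038) (nat_lit 174) (nat_lit 3) (nat_lit 173) (nat_lit 1) (nat_lit 174) (nat_lit 1) (nat_lit 224) (nat_lit 360) (nat_lit 316)) (XT.lf (nat_lit 152) (nat_lit 1721506111436) (nat_lit 0) (nat_lit 7483655136) (nat_lit 76) (nat_lit 7483655136) (nat_lit 173) (nat_lit 1) (nat_lit 171) (nat_lit 1) (nat_lit 172) (nat_lit 1) (nat_lit 225) (nat_lit 360) (nat_lit 315)))))) (XT.nd (nat_lit 468) (nat_lit 456) (nat_lit 0) (XT.nd (nat_lit 234) (nat_lit 228) (nat_lit 0) (XT.nd (nat_lit 78) (nat_lit 228) (nat_lit 0) (XT.lf (nat_lit 0) (nat_lit 545023340294) (nat_lit 0) (nat_lit 563697111146) (nat_lit 152) (nat_lit 545023340294) (nat_lit 171)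 (nat_lit 3) (nat_lit 171) (nat_lit 1) (nat_lit 173) (nat_lit 1) (nat_lit 226) (nat_lit 360) (nat_lit 314)) (XT.nd (nat_lit 78) (nat_lit 152) (nat_lit 0) (XT.lf (nat_lit 76) (nat_lit 515328927368) (nat_lit 0) (nat_lit 531566988979) (nat_lit 76) (nat_lit 531566988979) (nat_lit 171) (nat_lit 3) (nat_lit 170) (nat_lit 1) (nat_lit 171) (nat_lit 1) (nat_lit 227) (nat_lit 360) (nat_lit 313)) (XT.lf (nat_lit 152) (nat_lit 1501128577334) (nat_lit 0) (nat_lit 4278804113) (nat_lit 76) (nat_lit 4278804113) (nat_lit 170) (nat_lit 1) (nat_lit 168) (nat_lit 1) (nat_lit 169) (nat_lit 1) (nat_lit 228) (nat_lit 360) (nat_lit 312)))) (XT.nd (nat_lit 78) (nat_lit 228) (nat_lit 0) (XT.lf (nat_lit 0) (nat_lit 475698822725) (nat_lit 0) (nat_lit 486375611817) (nat_lit 152) (nat_lit 475698822725) (nat_lit 168) (nat_lit 3) (nat_lit 168) (nat_lit 1) (nat_lit 170) (nat_lit 1) (nat_lit 229) (nat_lit 360) (nat_lit 311)) (XT.nd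 (nat_lit 78) (nat_lit 152) (nat_lit 0) (XT.lf (nat_lit 76) (nat_lit 451262765805) (nat_lit 0) (nat_lit 460546930233) (nat_lit 76) (nat_lit 460546930233) (nat_lit 168) (nat_lit 3) (nat_lit 167) (nat_lit 1) (nat_lit 168) (nat_lit 1) (nat_lit 230) (nat_lit 360) (nat_lit 310)) (XT.lf (nat_lit 152) (nat_lit 1307711545546) (nat_lit 0) (nat_lit 2446420139) (nat_lit 76) (nat_lit 2446420139) (nat_lit 167) (nat_lit 1) (nat_lit 165) (nat_lit 1) (nat_lit 166) (nat_lit 1) (nat_lit 231) (nat_lit 360) (nat_lit 309))))) (XT.nd (nat_lit 234) (nat_lit 228) (nat_lit 0) (XT.nd (nat_lit 78) (nat_lit 228) (nat_lit 0) (XT.lf (nat_lit 0) (nat_lit 414660571025) (nat_lit 0) (nat_lit 420765059841) (nat_lit 152) (nat_lit 414660571025) (nat_lit 165) (nat_lit 3) (nat_lit 165) (nat_lit 1) (nat_lit 167) (nat_lit 1) (nat_lit 232) (nat_lit 360) (nat_lit 308)) (XT.nd (nat_lit 78) (nat_lit 152) (nat_lit 0) (XT.lf (nat_lit 76) (nat_lit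 394203802298) (nat_lit 0) (nat_lit 399512053442) (nat_lit 76) (nat_lit 399512053442) (nat_lit 165) (nat_lit 3) (nat_lit 164) (nat_lit 1) (nat_lit 165) (nat_lit 1) (nat_lit 233) (nat_lit 360) (nat_lit 307)) (XT.lf (nat_lit 152) (nat_lit 1138502589511) (nat_lit 0) (nat_lit 1398748654) (nat_lit 76) (nat_lit 1398748654) (nat_lit 164) (nat_lit 1) (nat_lit 162) (nat_lit 1) (nat_lit 163) (nat_lit 1) (nat_lit 234) (nat_lit 360) (nat_lit 306)))) (XT.nd (nat_lit 78) (nat_lit 228) (nat_lit 0) (XT.lf (nat_lit 0) (nat_lit 361151549222) (nat_lit 0) (nat_lit 364641810515) (nat_lit 152) (nat_lit 361151549222) (nat_lit 162) (nat_lit 3) (nat_lit 162) (nat_lit 1) (nat_lit 164) (nat_lit 1) (nat_lit 235) (nat_lit 360) (nat_lit 305)) (XT.nd (nat_lit 78) (nat_lit 152) (nat_lit 0) (XT.lf (nat_lit 76) (nat_lit 343815869766) (nat_lit 0) (nat_lit 346850879586) (nat_lit 76) (nat_lit 346850879587) (nat_lit 162) (nat_lit 3)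 (nat_lit 161) (nat_lit 1) (nat_lit 162) (nat_lit 1) (nat_lit 236) (nat_lit 360) (nat_lit 304)) (XT.lf (nat_lit 152) (nat_lit 990781045491) (nat_lit 0) (nat_lit 799739083) (nat_lit 76) (nat_lit 799739083) (nat_lit 161) (nat_lit 1) (nat_lit 159) (nat_lit 1) (nat_lit 160) (nat_lit 1) (nat_lit 237) (nat_lit 360) (nat_lit 303))))))))
noncomputable def ec200 : XT := (XT.nd (nat_lit 1716) (nat_lit 1672) (nat_lit 0) (XT.nd (nat_lit 858) (nat_lit 836) (nat_lit 0) (XT.nd (nat_lit 390) (nat_lit 456) (nat_lit 0) (XT.nd (nat_lit 156) (nat_lit 228) (nat_lit 0) (XT.nd (nat_lit 78) (nat_lit 76) (nat_lit 0) (XT.lf (nat_lit 0) (nat_lit 314374806870) (nat_lit 0) (nat_lit 316370375092) (nat_lit 152) (nat_lit 314374806870) (nat_lit 159) (nat_lit 3) (nat_lit 159) (nat_lit 1) (nat_lit 161) (nat_lit 1) (nat_lit 238) (nat_lit 360) (nat_lit 302)) (XT.lf (nat_lit 76) (nat_lit 299559201492) (nat_lit 0) (nat_lit 301294478208)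 (nat_lit 76) (nat_lit 301294478208) (nat_lit 159) (nat_lit 3) (nat_lit 158) (nat_lit 1) (nat_lit 159) (nat_lit 1) (nat_lit 239) (nat_lit 360) (nat_lit 301))) (XT.nd (nat_lit 78) (nat_lit 76) (nat_lit 0) (XT.lf (nat_lit 152) (nat_lit 861994013060) (nat_lit 0) (nat_lit 457253416) (nat_lit 76) (nat_lit 457253416) (nat_lit 158) (nat_lit 1) (nat_lit 156) (nat_lit 1) (nat_lit 157) (nat_lit 1) (nat_lit 240) (nat_lit 360) (nat_lit 300)) (XT.nd (nat_lit 78) (nat_lit 76) (nat_lit 0) (XT.lf (nat_lit 0) (nat_lit 273558065249) (nat_lit 0) (nat_lit 274699037857) (nat_lit 152) (nat_lit 273558065249) (nat_lit 156) (nat_lit 3) (nat_lit 156) (nat_lit 1) (nat_lit 158) (nat_lit 1) (nat_lit 241) (nat_lit 360) (nat_lit 299)) (XT.lf (nat_lit 76) (nat_lit 260822956194) (nat_lit 0) (nat_lit 261815106288) (nat_lit 76) (nat_lit 261815106288) (nat_lit 156) (nat_lit 3) (nat_lit 155) (nat_lit 1) (nat_lit 156) (nat_lit 1) (nat_lit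 242) (nat_lit 360) (nat_lit 298))))) (XT.nd (nat_lit 234) (nat_lit 228) (nat_lit 0) (XT.nd (nat_lit 78) (nat_lit 76) (nat_lit 0) (XT.lf (nat_lit 152) (nat_lit 749814600412) (nat_lit 0) (nat_lit 261436124) (nat_lit 76) (nat_lit 261436124) (nat_lit 155) (nat_lit 1) (nat_lit 153) (nat_lit 1) (nat_lit 154) (nat_lit 1) (nat_lit 243) (nat_lit 360) (nat_lit 297)) (XT.nd (nat_lit 78) (nat_lit 76) (nat_lit 0) (XT.lf (nat_lit 0) (nat_lit 237984450002) (nat_lit 0) (nat_lit 238636804793) (nat_lit 152) (nat_lit 237984450002) (nat_lit 153) (nat_lit 3) (nat_lit 153) (nat_lit 1) (nat_lit 155) (nat_lit 1) (nat_lit 244) (nat_lit 360) (nat_lit 296)) (XT.lf (nat_lit 76) (nat_lit 226995076506) (nat_lit 0) (nat_lit 227562341542) (nat_lit 76) (nat_lit 227562341542) (nat_lit 153) (nat_lit 3) (nat_lit 152) (nat_lit 1) (nat_lit 153) (nat_lit 1) (nat_lit 245) (nat_lit 360) (nat_lit 295)))) (XT.nd (nat_lit 78) (nat_lit 76)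 (nat_lit 0) (XT.lf (nat_lit 152) (nat_lit 652158258129) (nat_lit 0) (nat_lit 149476952) (nat_lit 76) (nat_lit 149476952) (nat_lit 152) (nat_lit 1) (nat_lit 150) (nat_lit 1) (nat_lit 151) (nat_lit 1) (nat_lit 246) (nat_lit 360) (nat_lit 294)) (XT.nd (nat_lit 78) (nat_lit 76) (nat_lit 0) (XT.lf (nat_lit 0) (nat_lit 207004675896) (nat_lit 0) (nat_lit 207377661865) (nat_lit 152) (nat_lit 207004675896) (nat_lit 150) (nat_lit 3) (nat_lit 150) (nat_lit 1) (nat_lit 152) (nat_lit 1) (nat_lit 247) (nat_lit 360) (nat_lit 293)) (XT.lf (nat_lit 76) (nat_lit 197497088923) (nat_lit 0) (nat_lit 197821424548) (nat_lit 76) (nat_lit 197821424548) (nat_lit 150) (nat_lit 3) (nat_lit 149) (nat_lit 1) (nat_lit 150) (nat_lit 1) (nat_lit 248) (nat_lit 360) (nat_lit 292)))))) (XT.nd (nat_lit 390) (nat_lit 456) (nat_lit 0) (XT.nd (nat_lit 156) (nat_lit 228) (nat_lit 0) (XT.nd (nat_lit 78) (nat_lit 0) (nat_lit 0) (XT.lf (nat_lit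 152) (nat_lit 567177363118) (nat_lit 0) (nat_lit 85463932) (nat_lit 76) (nat_lit 85463932) (nat_lit 149) (nat_lit 1) (nat_lit 147) (nat_lit 1) (nat_lit 148) (nat_lit 1) (nat_lit 249) (nat_lit 360) (nat_lit 291)) (XT.lf (nat_lit 0) (nat_lit 180039329389) (nat_lit 0) (nat_lit 180252585327) (nat_lit 152) (nat_lit 180039329389) (nat_lit 147) (nat_lit 3) (nat_lit 147) (nat_lit 1) (nat_lit 149) (nat_lit 1) (nat_lit 250) (nat_lit 360) (nat_lit 290))) (XT.nd (nat_lit 78) (nat_lit 152) (nat_lit 0) (XT.lf (nat_lit 76) (nat_lit 171799529584) (nat_lit 0) (nat_lit 171984969531) (nat_lit 76) (nat_lit 171984969531) (nat_lit 147) (nat_lit 3) (nat_lit 146) (nat_lit 1) (nat_lit 147) (nat_lit 1) (nat_lit 251) (nat_lit 360) (nat_lit 289)) (XT.nd (nat_lit 78) (nat_lit 0) (nat_lit 0) (XT.lf (nat_lit 152) (nat_lit 493245291574) (nat_lit 0) (nat_lit 48864281) (nat_lit 76) (nat_lit 48864281) (nat_lit 146) (nat_lit 1) (nat_lit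 144) (nat_lit 1) (nat_lit 145) (nat_lit 1) (nat_lit 252) (nat_lit 360) (nat_lit 288)) (XT.lf (nat_lit 0) (nat_lit 156576100558) (nat_lit 0) (nat_lit 156698030333) (nat_lit 152) (nat_lit 156576100558) (nat_lit 144) (nat_lit 3) (nat_lit 144) (nat_lit 1) (nat_lit 146) (nat_lit 1) (nat_lit 253) (nat_lit 360) (nat_lit 287))))) (XT.nd (nat_lit 234) (nat_lit 228) (nat_lit 0) (XT.nd (nat_lit 78) (nat_lit 152) (nat_lit 0) (XT.lf (nat_lit 76) (nat_lit 149426876020) (nat_lit 0) (nat_lit 149532901911) (nat_lit 76) (nat_lit 149532901911) (nat_lit 144) (nat_lit 3) (nat_lit 143) (nat_lit 1) (nat_lit 144) (nat_lit 1) (nat_lit 254) (nat_lit 360) (nat_lit 286)) (XT.nd (nat_lit 78) (nat_lit 0) (nat_lit 0) (XT.lf (nat_lit 152) (nat_lit 428936155795) (nat_lit 0) (nat_lit 27938311) (nat_lit 76) (nat_lit 27938311) (nat_lit 143) (nat_lit 1) (nat_lit 141) (nat_lit 1) (nat_lit 142) (nat_lit 1) (nat_lit 255) (nat_lit 360)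 (nat_lit 285)) (XT.lf (nat_lit 0) (nat_lit 136164658586) (nat_lit 0) (nat_lit 136234372330) (nat_lit 152) (nat_lit 136164658586) (nat_lit 141) (nat_lit 3) (nat_lit 141) (nat_lit 1) (nat_lit 143) (nat_lit 1) (nat_lit 256) (nat_lit 360) (nat_lit 284)))) (XT.nd (nat_lit 78) (nat_lit 152) (nat_lit 0) (XT.lf (nat_lit 76) (nat_lit 129956986029) (nat_lit 0) (nat_lit 130017606677) (nat_lit 76) (nat_lit 130017606677) (nat_lit 141) (nat_lit 3) (nat_lit 140) (nat_lit 1) (nat_lit 141) (nat_lit 1) (nat_lit 257) (nat_lit 360) (nat_lit 283)) (XT.nd (nat_lit 78) (nat_lit 0) (nat_lit 0) (XT.lf (nat_lit 152) (nat_lit 373003517023) (nat_lit 0) (nat_lit 15973820) (nat_lit 76) (nat_lit 15973820) (nat_lit 140) (nat_lit 1) (nat_lit 138) (nat_lit 1) (nat_lit 139) (nat_lit 1) (nat_lit 258) (nat_lit 360) (nat_lit 282)) (XT.lf (nat_lit 0) (nat_lit 118410641924) (nat_lit 0) (nat_lit 118450500984) (nat_lit 152) (nat_lit 118410641924)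 (nat_lit 138) (nat_lit 3) (nat_lit 138) (nat_lit 1) (nat_lit 140) (nat_lit 1) (nat_lit 259) (nat_lit 360) (nat_lit 281))))))) (XT.nd (nat_lit 858) (nat_lit 760) (nat_lit 0) (XT.nd (nat_lit 390) (nat_lit 456) (nat_lit 0) (XT.nd (nat_lit 156) (nat_lit 228) (nat_lit 0) (XT.nd (nat_lit 78) (nat_lit 152) (nat_lit 0) (XT.lf (nat_lit 76) (nat_lit 113017836972) (nat_lit 0) (nat_lit 113052497024) (nat_lit 76) (nat_lit 113052497024) (nat_lit 138) (nat_lit 3) (nat_lit 137) (nat_lit 1) (nat_lit 138) (nat_lit 1) (nat_lit 260) (nat_lit 360) (nat_lit 280)) (XT.lf (nat_lit 152) (nat_lit 324359778254) (nat_lit 0) (nat_lit 9133083) (nat_lit 76) (nat_lit 9133083) (nat_lit 137) (nat_lit 1) (nat_lit 135) (nat_lit 1) (nat_lit 136) (nat_lit 1) (nat_lit 261) (nat_lit 360) (nat_lit 279))) (XT.nd (nat_lit 78) (nat_lit 228) (nat_lit 0) (XT.lf (nat_lit 0) (nat_lit 102969544001) (nat_lit 0) (nat_lit 102992333547) (nat_lit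 152) (nat_lit 102969544001) (nat_lit 135) (nat_lit 3) (nat_lit 135) (nat_lit 1) (nat_lit 137) (nat_lit 1) (nat_lit 262) (nat_lit 360) (nat_lit 278)) (XT.nd (nat_lit 78) (nat_lit 152) (nat_lit 0) (XT.lf (nat_lit 76) (nat_lit 98283105032) (nat_lit 0) (nat_lit 98302922029) (nat_lit 76) (nat_lit 98302922029) (nat_lit 135) (nat_lit 3) (nat_lit 134) (nat_lit 1) (nat_lit 135) (nat_lit 1) (nat_lit 263) (nat_lit 360) (nat_lit 277)) (XT.lf (nat_lit 152) (nat_lit 282057066199) (nat_lit 0) (nat_lit 5221870) (nat_lit 76) (nat_lit 5221870) (nat_lit 134) (nat_lit 1) (nat_lit 132) (nat_lit 1) (nat_lit 133) (nat_lit 1) (nat_lit 264) (nat_lit 360) (nat_lit 276))))) (XT.nd (nat_lit 234) (nat_lit 228) (nat_lit 0) (XT.nd (nat_lit 78) (nat_lit 228) (nat_lit 0) (XT.lf (nat_lit 0) (nat_lit 89540888517) (nat_lit 0) (nat_lit 89553918514) (nat_lit 152) (nat_lit 89540888517) (nat_lit 132) (nat_lit 3) (nat_lit 132) (nat_lit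 1) (nat_lit 134) (nat_lit 1) (nat_lit 265) (nat_lit 360) (nat_lit 275)) (XT.nd (nat_lit 78) (nat_lit 152) (nat_lit 0) (XT.lf (nat_lit 76) (nat_lit 85467414665) (nat_lit 0) (nat_lit 85478745098) (nat_lit 76) (nat_lit 85478745098) (nat_lit 132) (nat_lit 3) (nat_lit 131) (nat_lit 1) (nat_lit 132) (nat_lit 1) (nat_lit 266) (nat_lit 360) (nat_lit 274)) (XT.lf (nat_lit 152) (nat_lit 245269921513) (nat_lit 0) (nat_lit 2985621) (nat_lit 76) (nat_lit 2985621) (nat_lit 131) (nat_lit 1) (nat_lit 129) (nat_lit 1) (nat_lit 130) (nat_lit 1) (nat_lit 267) (nat_lit 360) (nat_lit 273)))) (XT.nd (nat_lit 78) (nat_lit 228) (nat_lit 0) (XT.lf (nat_lit 0) (nat_lit 77862874090) (nat_lit 0) (nat_lit 77870324033) (nat_lit 152) (nat_lit 77862874090) (nat_lit 129) (nat_lit 3) (nat_lit 129) (nat_lit 1) (nat_lit 131) (nat_lit 1) (nat_lit 268) (nat_lit 360) (nat_lit 272)) (XT.nd (nat_lit 78) (nat_lit 152) (nat_lit 0) (XT.lf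 (nat_lit 76) (nat_lit 74321689446) (nat_lit 0) (nat_lit 74328167657) (nat_lit 76) (nat_lit 74328167657) (nat_lit 129) (nat_lit 3) (nat_lit 128) (nat_lit 1) (nat_lit 129) (nat_lit 1) (nat_lit 269) (nat_lit 360) (nat_lit 271)) (XT.lf (nat_lit 152) (nat_lit 213279854951) (nat_lit 0) (nat_lit 1707038) (nat_lit 76) (nat_lit 1707038) (nat_lit 128) (nat_lit 1) (nat_lit 126) (nat_lit 1) (nat_lit 127) (nat_lit 1) (nat_lit 270) (nat_lit 360) (nat_lit 270)))))) (XT.nd (nat_lit 390) (nat_lit 456) (nat_lit 0) (XT.nd (nat_lit 156) (nat_lit 228) (nat_lit 0) (XT.nd (nat_lit 78) (nat_lit 76) (nat_lit 0) (XT.lf (nat_lit 0) (nat_lit 67707551378) (nat_lit 0) (nat_lit 67711810907) (nat_lit 152) (nat_lit 67707551378) (nat_lit 126) (nat_lit 3) (nat_lit 126) (nat_lit 1) (nat_lit 128) (nat_lit 1) (nat_lit 271) (nat_lit 360) (nat_lit 269)) (XT.lf (nat_lit 76) (nat_lit 64628813001) (nat_lit 0) (nat_lit 64632516939) (nat_lit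 76) (nat_lit 64632516939) (nat_lit 126) (nat_lit 3) (nat_lit 125) (nat_lit 1) (nat_lit 126) (nat_lit 1) (nat_lit 272) (nat_lit 360) (nat_lit 268))) (XT.nd (nat_lit 78) (nat_lit 76) (nat_lit 0) (XT.lf (nat_lit 152) (nat_lit 185461693879) (nat_lit 0) (nat_lit 976004) (nat_lit 76) (nat_lit 976004) (nat_lit 125) (nat_lit 1) (nat_lit 123) (nat_lit 1) (nat_lit 124) (nat_lit 1) (nat_lit 273) (nat_lit 360) (nat_lit 267)) (XT.nd (nat_lit 78) (nat_lit 76) (nat_lit 0) (XT.lf (nat_lit 0) (nat_lit 58876534344) (nat_lit 0) (nat_lit 58878969743) (nat_lit 152) (nat_lit 58876534344) (nat_lit 123) (nat_lit 3) (nat_lit 123) (nat_lit 1) (nat_lit 125) (nat_lit 1) (nat_lit 274) (nat_lit 360) (nat_lit 266)) (XT.lf (nat_lit 76) (nat_lit 56199686498) (nat_lit 0) (nat_lit 56201804237) (nat_lit 76) (nat_lit 56201804237) (nat_lit 123) (nat_lit 3) (nat_lit 122) (nat_lit 1) (nat_lit 123) (nat_lit 1) (nat_lit 275) (nat_lit 360)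 (nat_lit 265))))) (XT.nd (nat_lit 234) (nat_lit 228) (nat_lit 0) (XT.nd (nat_lit 78) (nat_lit 76) (nat_lit 0) (XT.lf (nat_lit 152) (nat_lit 161271581574) (nat_lit 0) (nat_lit 558033) (nat_lit 76) (nat_lit 558033) (nat_lit 122) (nat_lit 1) (nat_lit 120) (nat_lit 1) (nat_lit 121) (nat_lit 1) (nat_lit 276) (nat_lit 360) (nat_lit 264)) (XT.nd (nat_lit 78) (nat_lit 76) (nat_lit 0) (XT.lf (nat_lit 0) (nat_lit 51197216637) (nat_lit 0) (nat_lit 51198609085) (nat_lit 152) (nat_lit 51197216637) (nat_lit 120) (nat_lit 3) (nat_lit 120) (nat_lit 1) (nat_lit 122) (nat_lit 1) (nat_lit 277) (nat_lit 360) (nat_lit 263)) (XT.lf (nat_lit 76) (nat_lit 48869703510) (nat_lit 0) (nat_lit 48870914334) (nat_lit 76) (nat_lit 48870914334) (nat_lit 120) (nat_lit 3) (nat_lit 119) (nat_lit 1) (nat_lit 120) (nat_lit 1) (nat_lit 278) (nat_lit 360) (nat_lit 262)))) (XT.nd (nat_lit 78) (nat_lit 76) (nat_lit 0) (XT.lf (nat_lit 152)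 (nat_lit 140236468592) (nat_lit 0) (nat_lit 319057) (nat_lit 76) (nat_lit 319057) (nat_lit 119) (nat_lit 1) (nat_lit 117) (nat_lit 1) (nat_lit 118) (nat_lit 1) (nat_lit 279) (nat_lit 360) (nat_lit 261)) (XT.nd (nat_lit 78) (nat_lit 76) (nat_lit 0) (XT.lf (nat_lit 0) (nat_lit 44519450461) (nat_lit 0) (nat_lit 44520246598) (nat_lit 152) (nat_lit 44519450461) (nat_lit 117) (nat_lit 3) (nat_lit 117) (nat_lit 1) (nat_lit 119) (nat_lit 1) (nat_lit 280) (nat_lit 360) (nat_lit 260)) (XT.lf (nat_lit 76) (nat_lit 42495629291) (nat_lit 0) (nat_lit 42496321584) (nat_lit 76) (nat_lit 42496321584) (nat_lit 117) (nat_lit 3) (nat_lit 116) (nat_lit 1) (nat_lit 117) (nat_lit 1) (nat_lit 281) (nat_lit 360) (nat_lit 259))))))))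
noncomputable def ec201 : XT := (XT.nd (nat_lit 1716) (nat_lit 1672) (nat_lit 0) (XT.nd (nat_lit 858) (nat_lit 912) (nat_lit 0) (XT.nd (nat_lit 390) (nat_lit 456) (nat_lit 0) (XT.nd (nat_lit 156) (nat_lit 228) (nat_lit 0) (XT.nd (nat_lit 78) (nat_lit 0) (nat_lit 0) (XT.lf (nat_lit 152) (nat_lit 121944932942) (nat_lit 0) (nat_lit 182422) (nat_lit 76) (nat_lit 182422) (nat_lit 116) (nat_lit 1) (nat_lit 114) (nat_lit 1) (nat_lit 115) (nat_lit 1) (nat_lit 282) (nat_lit 360) (nat_lit 258)) (XT.lf (nat_lit 0) (nat_lit 38712640888) (nat_lit 0) (nat_lit 38713096082) (nat_lit 152) (nat_lit 38712640888) (nat_lit 114) (nat_lit 3) (nat_lit 114) (nat_lit 1) (nat_lit 116) (nat_lit 1) (nat_lit 283) (nat_lit 360) (nat_lit 257))) (XT.nd (nat_lit 78) (nat_lit 152) (nat_lit 0) (XT.lf (nat_lit 76) (nat_lit 36952855448) (nat_lit 0) (nat_lit 36953251268) (nat_lit 76) (nat_lit 36953251268) (nat_lit 114) (nat_lit 3) (nat_lit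 113) (nat_lit 1) (nat_lit 114) (nat_lit 1) (nat_lit 284) (nat_lit 360) (nat_lit 256)) (XT.nd (nat_lit 78) (nat_lit 0) (nat_lit 0) (XT.lf (nat_lit 152) (nat_lit 106039173692) (nat_lit 0) (nat_lit 104300) (nat_lit 76) (nat_lit 104300) (nat_lit 113) (nat_lit 1) (nat_lit 111) (nat_lit 1) (nat_lit 112) (nat_lit 1) (nat_lit 285) (nat_lit 360) (nat_lit 255)) (XT.lf (nat_lit 0) (nat_lit 33663209025) (nat_lit 0) (nat_lit 33663469284) (nat_lit 152) (nat_lit 33663209025) (nat_lit 111) (nat_lit 3) (nat_lit 111) (nat_lit 1) (nat_lit 113) (nat_lit 1) (nat_lit 286) (nat_lit 360) (nat_lit 254))))) (XT.nd (nat_lit 234) (nat_lit 228) (nat_lit 0) (XT.nd (nat_lit 78) (nat_lit 152) (nat_lit 0) (XT.lf (nat_lit 76) (nat_lit 32132994581) (nat_lit 0) (nat_lit 32133220893) (nat_lit 76) (nat_lit 32133220893) (nat_lit 111) (nat_lit 3) (nat_lit 110) (nat_lit 1) (nat_lit 111) (nat_lit 1) (nat_lit 287) (nat_lit 360) (nat_lit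 253)) (XT.nd (nat_lit 78) (nat_lit 0) (nat_lit 0) (XT.lf (nat_lit 152) (nat_lit 92208035196) (nat_lit 0) (nat_lit 59634) (nat_lit 76) (nat_lit 59634) (nat_lit 110) (nat_lit 1) (nat_lit 108) (nat_lit 1) (nat_lit 109) (nat_lit 1) (nat_lit 288) (nat_lit 360) (nat_lit 252)) (XT.lf (nat_lit 0) (nat_lit 29272380280) (nat_lit 0) (nat_lit 29272529083) (nat_lit 152) (nat_lit 29272380280) (nat_lit 108) (nat_lit 3) (nat_lit 108) (nat_lit 1) (nat_lit 110) (nat_lit 1) (nat_lit 289) (nat_lit 360) (nat_lit 251)))) (XT.nd (nat_lit 78) (nat_lit 152) (nat_lit 0) (XT.lf (nat_lit 76) (nat_lit 27941778329) (nat_lit 0) (nat_lit 27941907724) (nat_lit 76) (nat_lit 27941907724) (nat_lit 108) (nat_lit 3) (nat_lit 107) (nat_lit 1) (nat_lit 108) (nat_lit 1) (nat_lit 290) (nat_lit 360) (nat_lit 250)) (XT.nd (nat_lit 78) (nat_lit 0) (nat_lit 0) (XT.lf (nat_lit 152) (nat_lit 80180933373) (nat_lit 0) (nat_lit 34096) (nat_lit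 76) (nat_lit 34096) (nat_lit 107) (nat_lit 1) (nat_lit 105) (nat_lit 1) (nat_lit 106) (nat_lit 1) (nat_lit 291) (nat_lit 360) (nat_lit 249)) (XT.lf (nat_lit 0) (nat_lit 25454257790) (nat_lit 0) (nat_lit 25454342869) (nat_lit 152) (nat_lit 25454257790) (nat_lit 105) (nat_lit 3) (nat_lit 105) (nat_lit 1) (nat_lit 107) (nat_lit 1) (nat_lit 292) (nat_lit 360) (nat_lit 248)))))) (XT.nd (nat_lit 390) (nat_lit 456) (nat_lit 0) (XT.nd (nat_lit 156) (nat_lit 228) (nat_lit 0) (XT.nd (nat_lit 78) (nat_lit 152) (nat_lit 0) (XT.lf (nat_lit 76) (nat_lit 24297223653) (nat_lit 0) (nat_lit 24297297635) (nat_lit 76) (nat_lit 24297297635) (nat_lit 105) (nat_lit 3) (nat_lit 104) (nat_lit 1) (nat_lit 105) (nat_lit 1) (nat_lit 293) (nat_lit 360) (nat_lit 247)) (XT.lf (nat_lit 152) (nat_lit 69722569743) (nat_lit 0) (nat_lit 19494) (nat_lit 76) (nat_lit 19494) (nat_lit 104) (nat_lit 1) (nat_lit 102) (nat_lit 1) (nat_lit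 103) (nat_lit 1) (nat_lit 294) (nat_lit 360) (nat_lit 246))) (XT.nd (nat_lit 78) (nat_lit 228) (nat_lit 0) (XT.lf (nat_lit 0) (nat_lit 22134145252) (nat_lit 0) (nat_lit 22134193896) (nat_lit 152) (nat_lit 22134145252) (nat_lit 102) (nat_lit 3) (nat_lit 102) (nat_lit 1) (nat_lit 104) (nat_lit 1) (nat_lit 295) (nat_lit 360) (nat_lit 245)) (XT.nd (nat_lit 78) (nat_lit 152) (nat_lit 0) (XT.lf (nat_lit 76) (nat_lit 21128034923) (nat_lit 0) (nat_lit 21128077222) (nat_lit 76) (nat_lit 21128077222) (nat_lit 102) (nat_lit 3) (nat_lit 101) (nat_lit 1) (nat_lit 102) (nat_lit 1) (nat_lit 296) (nat_lit 360) (nat_lit 244)) (XT.lf (nat_lit 152) (nat_lit 60628332370) (nat_lit 0) (nat_lit 11146) (nat_lit 76) (nat_lit 11146) (nat_lit 101) (nat_lit 1) (nat_lit 99) (nat_lit 1) (nat_lit 100) (nat_lit 1) (nat_lit 297) (nat_lit 360) (nat_lit 243))))) (XT.nd (nat_lit 234) (nat_lit 228) (nat_lit 0) (XT.nd (nat_lit 78)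 (nat_lit 228) (nat_lit 0) (XT.lf (nat_lit 0) (nat_lit 19247087427) (nat_lit 0) (nat_lit 19247115239) (nat_lit 152) (nat_lit 19247087427) (nat_lit 99) (nat_lit 3) (nat_lit 99) (nat_lit 1) (nat_lit 101) (nat_lit 1) (nat_lit 298) (nat_lit 360) (nat_lit 242)) (XT.nd (nat_lit 78) (nat_lit 152) (nat_lit 0) (XT.lf (nat_lit 76) (nat_lit 18372212488) (nat_lit 0) (nat_lit 18372236673) (nat_lit 76) (nat_lit 18372236673) (nat_lit 99) (nat_lit 3) (nat_lit 98) (nat_lit 1) (nat_lit 99) (nat_lit 1) (nat_lit 299) (nat_lit 360) (nat_lit 241)) (XT.lf (nat_lit 152) (nat_lit 52720295223) (nat_lit 0) (nat_lit 6372) (nat_lit 76) (nat_lit 6372) (nat_lit 98) (nat_lit 1) (nat_lit 96) (nat_lit 1) (nat_lit 97) (nat_lit 1) (nat_lit 300) (nat_lit 360) (nat_lit 240)))) (XT.nd (nat_lit 78) (nat_lit 228) (nat_lit 0) (XT.lf (nat_lit 0) (nat_lit 16736600392) (nat_lit 0) (nat_lit 16736616294) (nat_lit 152) (nat_lit 16736600392) (nat_lit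 96) (nat_lit 3) (nat_lit 96) (nat_lit 1) (nat_lit 98) (nat_lit 1) (nat_lit 301) (nat_lit 360) (nat_lit 239)) (XT.nd (nat_lit 78) (nat_lit 152) (nat_lit 0) (XT.lf (nat_lit 76) (nat_lit 15975841638) (nat_lit 0) (nat_lit 15975855466) (nat_lit 76) (nat_lit 15975855466) (nat_lit 96) (nat_lit 3) (nat_lit 95) (nat_lit 1) (nat_lit 96) (nat_lit 1) (nat_lit 302) (nat_lit 360) (nat_lit 238)) (XT.lf (nat_lit 152) (nat_lit 45843738525) (nat_lit 0) (nat_lit 3643) (nat_lit 76) (nat_lit 3643) (nat_lit 95) (nat_lit 1) (nat_lit 93) (nat_lit 1) (nat_lit 94) (nat_lit 1) (nat_lit 303) (nat_lit 360) (nat_lit 237))))))) (XT.nd (nat_lit 858) (nat_lit 912) (nat_lit 0) (XT.nd (nat_lit 390) (nat_lit 456) (nat_lit 0) (XT.nd (nat_lit 156) (nat_lit 228) (nat_lit 0) (XT.nd (nat_lit 78) (nat_lit 76) (nat_lit 0) (XT.lf (nat_lit 0) (nat_lit 14553567062) (nat_lit 0) (nat_lit 14553576154) (nat_lit 152) (nat_lit 14553567062) (nat_lit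 93) (nat_lit 3) (nat_lit 93) (nat_lit 1) (nat_lit 95) (nat_lit 1) (nat_lit 304) (nat_lit 360) (nat_lit 236)) (XT.lf (nat_lit 76) (nat_lit 13892038890) (nat_lit 0) (nat_lit 13892046796) (nat_lit 76) (nat_lit 13892046796) (nat_lit 93) (nat_lit 3) (nat_lit 92) (nat_lit 1) (nat_lit 93) (nat_lit 1) (nat_lit 305) (nat_lit 360) (nat_lit 235))) (XT.nd (nat_lit 78) (nat_lit 76) (nat_lit 0) (XT.lf (nat_lit 152) (nat_lit 39864122485) (nat_lit 0) (nat_lit 2083) (nat_lit 76) (nat_lit 2083) (nat_lit 92) (nat_lit 1) (nat_lit 90) (nat_lit 1) (nat_lit 91) (nat_lit 1) (nat_lit 306) (nat_lit 360) (nat_lit 234)) (XT.nd (nat_lit 78) (nat_lit 76) (nat_lit 0) (XT.lf (nat_lit 0) (nat_lit 12655276565) (nat_lit 0) (nat_lit 12655281764) (nat_lit 152) (nat_lit 12655276565) (nat_lit 90) (nat_lit 3) (nat_lit 90) (nat_lit 1) (nat_lit 92) (nat_lit 1) (nat_lit 307) (nat_lit 360) (nat_lit 233)) (XT.lf (nat_lit 76) (nat_lit 12080035352)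 (nat_lit 0) (nat_lit 12080039872) (nat_lit 76) (nat_lit 12080039872) (nat_lit 90) (nat_lit 3) (nat_lit 89) (nat_lit 1) (nat_lit 90) (nat_lit 1) (nat_lit 308) (nat_lit 360) (nat_lit 232))))) (XT.nd (nat_lit 234) (nat_lit 228) (nat_lit 0) (XT.nd (nat_lit 78) (nat_lit 76) (nat_lit 0) (XT.lf (nat_lit 152) (nat_lit 34664455495) (nat_lit 0) (nat_lit 1191) (nat_lit 76) (nat_lit 1191) (nat_lit 89) (nat_lit 1) (nat_lit 87) (nat_lit 1) (nat_lit 88) (nat_lit 1) (nat_lit 309) (nat_lit 360) (nat_lit 231)) (XT.nd (nat_lit 78) (nat_lit 76) (nat_lit 0) (XT.lf (nat_lit 0) (nat_lit 11004588809) (nat_lit 0) (nat_lit 11004591781) (nat_lit 152) (nat_lit 11004588809) (nat_lit 87) (nat_lit 3) (nat_lit 87) (nat_lit 1) (nat_lit 89) (nat_lit 1) (nat_lit 310) (nat_lit 360) (nat_lit 230)) (XT.lf (nat_lit 76) (nat_lit 10504379444) (nat_lit 0) (nat_lit 10504382028) (nat_lit 76) (nat_lit 10504382028) (nat_lit 87) (nat_lit 3)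 (nat_lit 86) (nat_lit 1) (nat_lit 87) (nat_lit 1) (nat_lit 311) (nat_lit 360) (nat_lit 229)))) (XT.nd (nat_lit 78) (nat_lit 76) (nat_lit 0) (XT.lf (nat_lit 152) (nat_lit 30143005441) (nat_lit 0) (nat_lit 681) (nat_lit 76) (nat_lit 681) (nat_lit 86) (nat_lit 1) (nat_lit 84) (nat_lit 1) (nat_lit 85) (nat_lit 1) (nat_lit 312) (nat_lit 360) (nat_lit 228)) (XT.nd (nat_lit 78) (nat_lit 76) (nat_lit 0) (XT.lf (nat_lit 0) (nat_lit 9569207941) (nat_lit 0) (nat_lit 9569209640) (nat_lit 152) (nat_lit 9569207941) (nat_lit 84) (nat_lit 3) (nat_lit 84) (nat_lit 1) (nat_lit 86) (nat_lit 1) (nat_lit 313) (nat_lit 360) (nat_lit 227)) (XT.lf (nat_lit 76) (nat_lit 9134243496) (nat_lit 0) (nat_lit 9134244974) (nat_lit 76) (nat_lit 9134244974) (nat_lit 84) (nat_lit 3) (nat_lit 83) (nat_lit 1) (nat_lit 84) (nat_lit 1) (nat_lit 314) (nat_lit 360) (nat_lit 226)))))) (XT.nd (nat_lit 468) (nat_lit 456) (nat_lit 0) (XT.nd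 (nat_lit 234) (nat_lit 228) (nat_lit 0) (XT.nd (nat_lit 78) (nat_lit 76) (nat_lit 0) (XT.lf (nat_lit 152) (nat_lit 26211309458) (nat_lit 0) (nat_lit 389) (nat_lit 76) (nat_lit 389) (nat_lit 83) (nat_lit 1) (nat_lit 81) (nat_lit 1) (nat_lit 82) (nat_lit 1) (nat_lit 315) (nat_lit 360) (nat_lit 225)) (XT.nd (nat_lit 78) (nat_lit 76) (nat_lit 0) (XT.lf (nat_lit 0) (nat_lit 8321050544) (nat_lit 0) (nat_lit 8321051516) (nat_lit 152) (nat_lit 8321050544) (nat_lit 81) (nat_lit 3) (nat_lit 81) (nat_lit 1) (nat_lit 83) (nat_lit 1) (nat_lit 316) (nat_lit 360) (nat_lit 224)) (XT.lf (nat_lit 76) (nat_lit 7942820718) (nat_lit 0) (nat_lit 7942821563) (nat_lit 76) (nat_lit 7942821563) (nat_lit 81) (nat_lit 3) (nat_lit 80) (nat_lit 1) (nat_lit 81) (nat_lit 1) (nat_lit 317) (nat_lit 360) (nat_lit 223)))) (XT.nd (nat_lit 78) (nat_lit 76) (nat_lit 0) (XT.lf (nat_lit 152) (nat_lit 22792443224) (nat_lit 0) (nat_lit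 222) (nat_lit 76) (nat_lit 222) (nat_lit 80) (nat_lit 1) (nat_lit 78) (nat_lit 1) (nat_lit 79) (nat_lit 1) (nat_lit 318) (nat_lit 360) (nat_lit 222)) (XT.nd (nat_lit 78) (nat_lit 76) (nat_lit 0) (XT.lf (nat_lit 0) (nat_lit 7235696217) (nat_lit 0) (nat_lit 7235696773) (nat_lit 152) (nat_lit 7235696217) (nat_lit 78) (nat_lit 3) (nat_lit 78) (nat_lit 1) (nat_lit 80) (nat_lit 1) (nat_lit 319) (nat_lit 360) (nat_lit 221)) (XT.lf (nat_lit 76) (nat_lit 6906800788) (nat_lit 0) (nat_lit 6906801271) (nat_lit 76) (nat_lit 6906801271) (nat_lit 78) (nat_lit 3) (nat_lit 77) (nat_lit 1) (nat_lit 78) (nat_lit 1) (nat_lit 320) (nat_lit 360) (nat_lit 220))))) (XT.nd (nat_lit 234) (nat_lit 228) (nat_lit 0) (XT.nd (nat_lit 78) (nat_lit 76) (nat_lit 0) (XT.lf (nat_lit 152) (nat_lit 19819515971) (nat_lit 0) (nat_lit 127) (nat_lit 76) (nat_lit 127) (nat_lit 77) (nat_lit 1) (nat_lit 75) (nat_lit 1) (nat_lit 76) (nat_lit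 1) (nat_lit 321) (nat_lit 360) (nat_lit 219)) (XT.nd (nat_lit 78) (nat_lit 76) (nat_lit 0) (XT.lf (nat_lit 0) (nat_lit 6291909806) (nat_lit 0) (nat_lit 6291910124) (nat_lit 152) (nat_lit 6291909806) (nat_lit 75) (nat_lit 3) (nat_lit 75) (nat_lit 1) (nat_lit 77) (nat_lit 1) (nat_lit 322) (nat_lit 360) (nat_lit 218)) (XT.lf (nat_lit 76) (nat_lit 6005913822) (nat_lit 0) (nat_lit 6005914099) (nat_lit 76) (nat_lit 6005914099) (nat_lit 75) (nat_lit 3) (nat_lit 74) (nat_lit 1) (nat_lit 75) (nat_lit 1) (nat_lit 323) (nat_lit 360) (nat_lit 217)))) (XT.nd (nat_lit 78) (nat_lit 76) (nat_lit 0) (XT.lf (nat_lit 152) (nat_lit 17234361785) (nat_lit 0) (nat_lit 72) (nat_lit 76) (nat_lit 72) (nat_lit 74) (nat_lit 1) (nat_lit 72) (nat_lit 1) (nat_lit 73) (nat_lit 1) (nat_lit 324) (nat_lit 360) (nat_lit 216)) (XT.nd (nat_lit 78) (nat_lit 76) (nat_lit 0) (XT.lf (nat_lit 0) (nat_lit 5471225949) (nat_lit 0) (nat_lit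 5471226130) (nat_lit 152) (nat_lit 5471225949) (nat_lit 72) (nat_lit 3) (nat_lit 72) (nat_lit 1) (nat_lit 74) (nat_lit 1) (nat_lit 325) (nat_lit 360) (nat_lit 215)) (XT.lf (nat_lit 76) (nat_lit 5222533812) (nat_lit 0) (nat_lit 5222533970) (nat_lit 76) (nat_lit 5222533970) (nat_lit 72) (nat_lit 3) (nat_lit 71) (nat_lit 1) (nat_lit 72) (nat_lit 1) (nat_lit 326) (nat_lit 360) (nat_lit 214))))))))
noncomputable def ec202 : XT := (XT.nd (nat_lit 1716) (nat_lit 1748) (nat_lit 0) (XT.nd (nat_lit 858) (nat_lit 760) (nat_lit 0) (XT.nd (nat_lit 390) (nat_lit 456) (nat_lit 0) (XT.nd (nat_lit 156) (nat_lit 228) (nat_lit 0) (XT.nd (nat_lit 78) (nat_lit 0) (nat_lit 0) (XT.lf (nat_lit 152) (nat_lit 14986401592) (nat_lit 0) (nat_lit 41) (nat_lit 76) (nat_lit 41) (nat_lit 71) (nat_lit 1) (nat_lit 69) (nat_lit 1) (nat_lit 70) (nat_lit 1) (nat_lit 327) (nat_lit 360) (nat_lit 213)) (XT.lf (nat_lit 0) (nat_lit 4757587798)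 (nat_lit 0) (nat_lit 4757587902) (nat_lit 152) (nat_lit 4757587798) (nat_lit 69) (nat_lit 3) (nat_lit 69) (nat_lit 1) (nat_lit 71) (nat_lit 1) (nat_lit 328) (nat_lit 360) (nat_lit 212))) (XT.nd (nat_lit 78) (nat_lit 152) (nat_lit 0) (XT.lf (nat_lit 76) (nat_lit 4541333780) (nat_lit 0) (nat_lit 4541333871) (nat_lit 76) (nat_lit 4541333871) (nat_lit 69) (nat_lit 3) (nat_lit 68) (nat_lit 1) (nat_lit 69) (nat_lit 1) (nat_lit 329) (nat_lit 360) (nat_lit 211)) (XT.nd (nat_lit 78) (nat_lit 0) (nat_lit 0) (XT.lf (nat_lit 152) (nat_lit 13031653582) (nat_lit 0) (nat_lit 23) (nat_lit 76) (nat_lit 23) (nat_lit 68) (nat_lit 1) (nat_lit 66) (nat_lit 1) (nat_lit 67) (nat_lit 1) (nat_lit 330) (nat_lit 360) (nat_lit 210)) (XT.lf (nat_lit 0) (nat_lit 4137032878) (nat_lit 0) (nat_lit 4137032937) (nat_lit 152) (nat_lit 4137032878) (nat_lit 66) (nat_lit 3) (nat_lit 66) (nat_lit 1) (nat_lit 68) (nat_lit 1) (nat_lit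 331) (nat_lit 360) (nat_lit 209))))) (XT.nd (nat_lit 234) (nat_lit 228) (nat_lit 0) (XT.nd (nat_lit 78) (nat_lit 152) (nat_lit 0) (XT.lf (nat_lit 76) (nat_lit 3948985913) (nat_lit 0) (nat_lit 3948985965) (nat_lit 76) (nat_lit 3948985965) (nat_lit 66) (nat_lit 3) (nat_lit 65) (nat_lit 1) (nat_lit 66) (nat_lit 1) (nat_lit 332) (nat_lit 360) (nat_lit 208)) (XT.nd (nat_lit 78) (nat_lit 0) (nat_lit 0) (XT.lf (nat_lit 152) (nat_lit 11331872693) (nat_lit 0) (nat_lit 13) (nat_lit 76) (nat_lit 13) (nat_lit 65) (nat_lit 1) (nat_lit 63) (nat_lit 1) (nat_lit 64) (nat_lit 1) (nat_lit 333) (nat_lit 360) (nat_lit 207)) (XT.lf (nat_lit 0) (nat_lit 3597419899) (nat_lit 0) (nat_lit 3597419933) (nat_lit 152) (nat_lit 3597419899) (nat_lit 63) (nat_lit 3) (nat_lit 63) (nat_lit 1) (nat_lit 65) (nat_lit 1) (nat_lit 334) (nat_lit 360) (nat_lit 206)))) (XT.nd (nat_lit 78) (nat_lit 152) (nat_lit 0) (XT.lf (nat_lit 76) (nat_lit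 3433900804) (nat_lit 0) (nat_lit 3433900834) (nat_lit 76) (nat_lit 3433900834) (nat_lit 63) (nat_lit 3) (nat_lit 62) (nat_lit 1) (nat_lit 63) (nat_lit 1) (nat_lit 335) (nat_lit 360) (nat_lit 205)) (XT.nd (nat_lit 78) (nat_lit 0) (nat_lit 0) (XT.lf (nat_lit 152) (nat_lit 9853802349) (nat_lit 0) (nat_lit 7) (nat_lit 76) (nat_lit 7) (nat_lit 62) (nat_lit 1) (nat_lit 60) (nat_lit 1) (nat_lit 61) (nat_lit 1) (nat_lit 336) (nat_lit 360) (nat_lit 204)) (XT.lf (nat_lit 0) (nat_lit 3128191220) (nat_lit 0) (nat_lit 3128191239) (nat_lit 152) (nat_lit 3128191220) (nat_lit 60) (nat_lit 3) (nat_lit 60) (nat_lit 1) (nat_lit 62) (nat_lit 1) (nat_lit 337) (nat_lit 360) (nat_lit 203)))))) (XT.nd (nat_lit 390) (nat_lit 304) (nat_lit 0) (XT.nd (nat_lit 156) (nat_lit 228) (nat_lit 0) (XT.nd (nat_lit 78) (nat_lit 152) (nat_lit 0) (XT.lf (nat_lit 76) (nat_lit 2986000705) (nat_lit 0) (nat_lit 2986000722) (nat_lit 76)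 (nat_lit 2986000722) (nat_lit 60) (nat_lit 3) (nat_lit 59) (nat_lit 1) (nat_lit 60) (nat_lit 1) (nat_lit 338) (nat_lit 360) (nat_lit 202)) (XT.lf (nat_lit 152) (nat_lit 8568523786) (nat_lit 0) (nat_lit 4) (nat_lit 76) (nat_lit 4) (nat_lit 59) (nat_lit 1) (nat_lit 57) (nat_lit 1) (nat_lit 58) (nat_lit 1) (nat_lit 339) (nat_lit 360) (nat_lit 201))) (XT.nd (nat_lit 78) (nat_lit 228) (nat_lit 0) (XT.lf (nat_lit 0) (nat_lit 2720166280) (nat_lit 0) (nat_lit 2720166291) (nat_lit 152) (nat_lit 2720166280) (nat_lit 57) (nat_lit 3) (nat_lit 57) (nat_lit 1) (nat_lit 59) (nat_lit 1) (nat_lit 340) (nat_lit 360) (nat_lit 200)) (XT.nd (nat_lit 78) (nat_lit 152) (nat_lit 0) (XT.lf (nat_lit 76) (nat_lit 2596522355) (nat_lit 0) (nat_lit 2596522365) (nat_lit 76) (nat_lit 2596522365) (nat_lit 57) (nat_lit 3) (nat_lit 56) (nat_lit 1) (nat_lit 57) (nat_lit 1) (nat_lit 341) (nat_lit 360) (nat_lit 199)) (XT.lf (nat_lit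 152) (nat_lit 7450890251) (nat_lit 0) (nat_lit 2) (nat_lit 76) (nat_lit 2) (nat_lit 56) (nat_lit 1) (nat_lit 54) (nat_lit 1) (nat_lit 55) (nat_lit 1) (nat_lit 342) (nat_lit 360) (nat_lit 198))))) (XT.nd (nat_lit 234) (nat_lit 76) (nat_lit 0) (XT.nd (nat_lit 78) (nat_lit 228) (nat_lit 0) (XT.lf (nat_lit 0) (nat_lit 2365361984) (nat_lit 0) (nat_lit 2365361990) (nat_lit 152) (nat_lit 2365361984) (nat_lit 54) (nat_lit 3) (nat_lit 54) (nat_lit 1) (nat_lit 56) (nat_lit 1) (nat_lit 343) (nat_lit 360) (nat_lit 197)) (XT.nd (nat_lit 78) (nat_lit 152) (nat_lit 0) (XT.lf (nat_lit 76) (nat_lit 2257845528) (nat_lit 0) (nat_lit 2257845534) (nat_lit 76) (nat_lit 2257845534) (nat_lit 54) (nat_lit 3) (nat_lit 53) (nat_lit 1) (nat_lit 54) (nat_lit 1) (nat_lit 344) (nat_lit 360) (nat_lit 196)) (XT.lf (nat_lit 152) (nat_lit 6479035002) (nat_lit 0) (nat_lit 1) (nat_lit 76) (nat_lit 1) (nat_lit 53) (nat_lit 1) (nat_lit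 51) (nat_lit 1) (nat_lit 52) (nat_lit 1) (nat_lit 345) (nat_lit 360) (nat_lit 195)))) (XT.nd (nat_lit 78) (nat_lit 76) (nat_lit 0) (XT.lf (nat_lit 0) (nat_lit 2056836508) (nat_lit 0) (nat_lit 2056836512) (nat_lit 152) (nat_lit 2056836508) (nat_lit 51) (nat_lit 3) (nat_lit 51) (nat_lit 1) (nat_lit 53) (nat_lit 1) (nat_lit 346) (nat_lit 360) (nat_lit 194)) (XT.nd (nat_lit 78) (nat_lit 0) (nat_lit 0) (XT.lf (nat_lit 76) (nat_lit 1963343939) (nat_lit 0) (nat_lit 1963343942) (nat_lit 76) (nat_lit 1963343942) (nat_lit 51) (nat_lit 3) (nat_lit 50) (nat_lit 1) (nat_lit 51) (nat_lit 1) (nat_lit 347) (nat_lit 360) (nat_lit 193)) (XT.lf (nat_lit 0) (nat_lit 5633943481) (nat_lit 0) (nat_lit 0) (nat_lit 0) (nat_lit 0) (nat_lit 50) (nat_lit 1) (nat_lit 1) (nat_lit 0) (nat_lit 1) (nat_lit 0) (nat_lit 348) (nat_lit 360) (nat_lit 192))))))) (XT.nd (nat_lit 858) (nat_lit 836) (nat_lit 0) (XT.nd (nat_lit 390) (nat_lit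 456) (nat_lit 0) (XT.nd (nat_lit 156) (nat_lit 228) (nat_lit 0) (XT.nd (nat_lit 78) (nat_lit 76) (nat_lit 0) (XT.lf (nat_lit 0) (nat_lit 1788553486) (nat_lit 0) (nat_lit 1788553488) (nat_lit 152) (nat_lit 1788553486) (nat_lit 48) (nat_lit 3) (nat_lit 48) (nat_lit 1) (nat_lit 50) (nat_lit 1) (nat_lit 349) (nat_lit 360) (nat_lit 191)) (XT.lf (nat_lit 76) (nat_lit 1707255599) (nat_lit 0) (nat_lit 1707255601) (nat_lit 76) (nat_lit 1707255601) (nat_lit 48) (nat_lit 3) (nat_lit 47) (nat_lit 1) (nat_lit 48) (nat_lit 1) (nat_lit 350) (nat_lit 360) (nat_lit 190))) (XT.nd (nat_lit 78) (nat_lit 228) (nat_lit 0) (XT.lf (nat_lit 0) (nat_lit 4899081288) (nat_lit 0) (nat_lit 0) (nat_lit 0) (nat_lit 0) (nat_lit 47) (nat_lit 1) (nat_lit 1) (nat_lit 0) (nat_lit 1) (nat_lit 0) (nat_lit 351) (nat_lit 360) (nat_lit 189)) (XT.nd (nat_lit 78) (nat_lit 76) (nat_lit 0) (XT.lf (nat_lit 0) (nat_lit 1555263901) (nat_lit 0)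 (nat_lit 1555263902) (nat_lit 152) (nat_lit 1555263901) (nat_lit 45) (nat_lit 3) (nat_lit 45) (nat_lit 1) (nat_lit 47) (nat_lit 1) (nat_lit 352) (nat_lit 360) (nat_lit 188)) (XT.lf (nat_lit 76) (nat_lit 1484570087) (nat_lit 0) (nat_lit 1484570088) (nat_lit 76) (nat_lit 1484570088) (nat_lit 45) (nat_lit 3) (nat_lit 44) (nat_lit 1) (nat_lit 45) (nat_lit 1) (nat_lit 353) (nat_lit 360) (nat_lit 187))))) (XT.nd (nat_lit 234) (nat_lit 228) (nat_lit 0) (XT.nd (nat_lit 78) (nat_lit 228) (nat_lit 0) (XT.lf (nat_lit 0) (nat_lit 4260070686) (nat_lit 0) (nat_lit 0) (nat_lit 0) (nat_lit 0) (nat_lit 44) (nat_lit 1) (nat_lit 1) (nat_lit 0) (nat_lit 1) (nat_lit 0) (nat_lit 354) (nat_lit 360) (nat_lit 186)) (XT.nd (nat_lit 78) (nat_lit 76) (nat_lit 0) (XT.lf (nat_lit 0) (nat_lit 1352403392) (nat_lit 0) (nat_lit 1352403393) (nat_lit 152) (nat_lit 1352403392) (nat_lit 42) (nat_lit 3) (nat_lit 42) (nat_lit 1) (nat_lit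 44) (nat_lit 1) (nat_lit 355) (nat_lit 360) (nat_lit 185)) (XT.lf (nat_lit 76) (nat_lit 1290930510) (nat_lit 0) (nat_lit 1290930511) (nat_lit 76) (nat_lit 1290930511) (nat_lit 42) (nat_lit 3) (nat_lit 41) (nat_lit 1) (nat_lit 42) (nat_lit 1) (nat_lit 356) (nat_lit 360) (nat_lit 184)))) (XT.nd (nat_lit 78) (nat_lit 228) (nat_lit 0) (XT.lf (nat_lit 0) (nat_lit 3704409292) (nat_lit 0) (nat_lit 0) (nat_lit 0) (nat_lit 0) (nat_lit 41) (nat_lit 1) (nat_lit 1) (nat_lit 0) (nat_lit 1) (nat_lit 0) (nat_lit 357) (nat_lit 360) (nat_lit 183)) (XT.nd (nat_lit 78) (nat_lit 76) (nat_lit 0) (XT.lf (nat_lit 0) (nat_lit 1176002949) (nat_lit 0) (nat_lit 1176002950) (nat_lit 152) (nat_lit 1176002949) (nat_lit 39) (nat_lit 3) (nat_lit 39) (nat_lit 1) (nat_lit 41) (nat_lit 1) (nat_lit 358) (nat_lit 360) (nat_lit 182)) (XT.lf (nat_lit 76) (nat_lit 1122548270) (nat_lit 0) (nat_lit 1122548270) (nat_lit 76) (nat_lit 1122548270)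 (nat_lit 39) (nat_lit 3) (nat_lit 38) (nat_lit 1) (nat_lit 39) (nat_lit 1) (nat_lit 359) (nat_lit 360) (nat_lit 181)))))) (XT.nd (nat_lit 390) (nat_lit 456) (nat_lit 0) (XT.nd (nat_lit 156) (nat_lit 228) (nat_lit 0) (XT.nd (nat_lit 78) (nat_lit 152) (nat_lit 0) (XT.lf (nat_lit 0) (nat_lit 3221225471) (nat_lit 0) (nat_lit 0) (nat_lit 0) (nat_lit 0) (nat_lit 38) (nat_lit 1) (nat_lit 1) (nat_lit 0) (nat_lit 1) (nat_lit 0) (nat_lit 360) (nat_lit 360) (nat_lit 180)) (XT.lf (nat_lit 0) (nat_lit 1022611260) (nat_lit 0) (nat_lit 1022611261) (nat_lit 152) (nat_lit 1022611260) (nat_lit 36) (nat_lit 3) (nat_lit 36) (nat_lit 1) (nat_lit 38) (nat_lit 1) (nat_lit 361) (nat_lit 360) (nat_lit 179))) (XT.nd (nat_lit 78) (nat_lit 152) (nat_lit 0) (XT.lf (nat_lit 76) (nat_lit 976128930) (nat_lit 0) (nat_lit 976128930) (nat_lit 76) (nat_lit 976128930) (nat_lit 36) (nat_lit 3) (nat_lit 35) (nat_lit 1) (nat_lit 36)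 (nat_lit 1) (nat_lit 362) (nat_lit 360) (nat_lit 178)) (XT.nd (nat_lit 78) (nat_lit 152) (nat_lit 0) (XT.lf (nat_lit 0) (nat_lit 2801065627) (nat_lit 0) (nat_lit 0) (nat_lit 0) (nat_lit 0) (nat_lit 35) (nat_lit 1) (nat_lit 1) (nat_lit 0) (nat_lit 1) (nat_lit 0) (nat_lit 363) (nat_lit 360) (nat_lit 177)) (XT.lf (nat_lit 0) (nat_lit 889227183) (nat_lit 0) (nat_lit 889227183) (nat_lit 152) (nat_lit 889227183) (nat_lit 33) (nat_lit 3) (nat_lit 33) (nat_lit 1) (nat_lit 35) (nat_lit 1) (nat_lit 364) (nat_lit 360) (nat_lit 176))))) (XT.nd (nat_lit 234) (nat_lit 228) (nat_lit 0) (XT.nd (nat_lit 78) (nat_lit 152) (nat_lit 0) (XT.lf (nat_lit 76) (nat_lit 848807765) (nat_lit 0) (nat_lit 848807766) (nat_lit 76) (nat_lit 848807766) (nat_lit 33) (nat_lit 3) (nat_lit 32) (nat_lit 1) (nat_lit 33) (nat_lit 1) (nat_lit 365) (nat_lit 360) (nat_lit 175)) (XT.nd (nat_lit 78) (nat_lit 152) (nat_lit 0) (XT.lf (nat_lit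 0) (nat_lit 2435709241) (nat_lit 0) (nat_lit 0) (nat_lit 0) (nat_lit 0) (nat_lit 32) (nat_lit 1) (nat_lit 1) (nat_lit 0) (nat_lit 1) (nat_lit 0) (nat_lit 366) (nat_lit 360) (nat_lit 174)) (XT.lf (nat_lit 0) (nat_lit 773241029) (nat_lit 0) (nat_lit 773241029) (nat_lit 152) (nat_lit 773241029) (nat_lit 30) (nat_lit 3) (nat_lit 30) (nat_lit 1) (nat_lit 32) (nat_lit 1) (nat_lit 367) (nat_lit 360) (nat_lit 173)))) (XT.nd (nat_lit 78) (nat_lit 152) (nat_lit 0) (XT.lf (nat_lit 76) (nat_lit 738093709) (nat_lit 0) (nat_lit 738093709) (nat_lit 76) (nat_lit 738093709) (nat_lit 30) (nat_lit 3) (nat_lit 29) (nat_lit 1) (nat_lit 30) (nat_lit 1) (nat_lit 368) (nat_lit 360) (nat_lit 172)) (XT.nd (nat_lit 78) (nat_lit 152) (nat_lit 0) (XT.lf (nat_lit 0) (nat_lit 2118008036) (nat_lit 0) (nat_lit 0) (nat_lit 0) (nat_lit 0) (nat_lit 29) (nat_lit 1) (nat_lit 1) (nat_lit 0) (nat_lit 1) (nat_lit 0) (nat_lit 369) (nat_lit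 360) (nat_lit 171)) (XT.lf (nat_lit 0) (nat_lit 672383503) (nat_lit 0) (nat_lit 672383503) (nat_lit 152) (nat_lit 672383503) (nat_lit 27) (nat_lit 3) (nat_lit 27) (nat_lit 1) (nat_lit 29) (nat_lit 1) (nat_lit 370) (nat_lit 360) (nat_lit 170))))))))
noncomputable def ec203 : XT := (XT.nd (nat_lit 33462) (nat_lit 0) (nat_lit 11248) (XT.nd (nat_lit 32604) (nat_lit 0) (nat_lit 12996) (XT.nd (nat_lit 32136) (nat_lit 0) (nat_lit 13832) (XT.nd (nat_lit 31902) (nat_lit 0) (nat_lit 14364) (XT.nd (nat_lit 31824) (nat_lit 0) (nat_lit 14364) (XT.lf (nat_lit 76) (nat_lit 641820616) (nat_lit 0) (nat_lit 641820617) (nat_lit 76) (nat_lit 641820617) (nat_lit 27) (nat_lit 3) (nat_lit 26) (nat_lit 1) (nat_lit 27) (nat_lit 1) (nat_lit 371) (nat_lit 360) (nat_lit 169)) (XT.lf (nat_lit 380) (nat_lit 3537469464072) (nat_lit 0) (nat_lit 3133223766656) (nat_lit 380) (nat_lit 3537469464072) (nat_lit 220) (nat_lit 1) (nat_lit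 215) (nat_lit 0) (nat_lit 220) (nat_lit 0) (nat_lit 178) (nat_lit 361) (nat_lit 361))) (XT.nd (nat_lit 78) (nat_lit 0) (nat_lit 76) (XT.lf (nat_lit 380) (nat_lit 13084640473108) (nat_lit 76) (nat_lit 2990804504535) (nat_lit 0) (nat_lit 2990804504535) (nat_lit 220) (nat_lit 1) (nat_lit 216) (nat_lit 1) (nat_lit 215) (nat_lit 0) (nat_lit 179) (nat_lit 361) (nat_lit 360)) (XT.nd (nat_lit 78) (nat_lit 0) (nat_lit 0) (XT.lf (nat_lit 380) (nat_lit 5767634489330) (nat_lit 0) (nat_lit 6275730394745) (nat_lit 304) (nat_lit 5767634489330) (nat_lit 221) (nat_lit 1) (nat_lit 216) (nat_lit 1) (nat_lit 220) (nat_lit 1) (nat_lit 180) (nat_lit 361) (nat_lit 359)) (XT.lf (nat_lit 380) (nat_lit 9902728945782) (nat_lit 76) (nat_lit 3389770353095) (nat_lit 0) (nat_lit 3389770353095) (nat_lit 221) (nat_lit 1) (nat_lit 217) (nat_lit 1) (nat_lit 216) (nat_lit 1) (nat_lit 181) (nat_lit 361) (nat_lit 358))))) (XT.nd (nat_lit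 234) (nat_lit 380) (nat_lit 0) (XT.nd (nat_lit 78) (nat_lit 304) (nat_lit 0) (XT.lf (nat_lit 76) (nat_lit 4005785197982) (nat_lit 0) (nat_lit 7627687517212) (nat_lit 304) (nat_lit 4005785197982) (nat_lit 218) (nat_lit 1) (nat_lit 217) (nat_lit 1) (nat_lit 221) (nat_lit 1) (nat_lit 182) (nat_lit 361) (nat_lit 357)) (XT.nd (nat_lit 78) (nat_lit 0) (nat_lit 0) (XT.lf (nat_lit 380) (nat_lit 6020371631507) (nat_lit 0) (nat_lit 4333348054251) (nat_lit 304) (nat_lit 4333348054251) (nat_lit 218) (nat_lit 1) (nat_lit 213) (nat_lit 1) (nat_lit 217) (nat_lit 1) (nat_lit 183) (nat_lit 361) (nat_lit 356)) (XT.lf (nat_lit 76) (nat_lit 2001105040808) (nat_lit 0) (nat_lit 9819472590847) (nat_lit 380) (nat_lit 2001105040808) (nat_lit 214) (nat_lit 1) (nat_lit 213) (nat_lit 1) (nat_lit 218) (nat_lit 1) (nat_lit 184) (nat_lit 361) (nat_lit 355)))) (XT.nd (nat_lit 78) (nat_lit 228) (nat_lit 0) (XT.lf (nat_lit 228)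 (nat_lit 1800947331536) (nat_lit 0) (nat_lit 5605004184800) (nat_lit 152) (nat_lit 5605004184800) (nat_lit 214) (nat_lit 1) (nat_lit 211) (nat_lit 1) (nat_lit 213) (nat_lit 1) (nat_lit 185) (nat_lit 361) (nat_lit 354)) (XT.nd (nat_lit 78) (nat_lit 0) (nat_lit 0) (XT.lf (nat_lit 228) (nat_lit 12102343407196) (nat_lit 0) (nat_lit 94955121074) (nat_lit 152) (nat_lit 94955121074) (nat_lit 211) (nat_lit 1) (nat_lit 208) (nat_lit 1) (nat_lit 210) (nat_lit 1) (nat_lit 186) (nat_lit 361) (nat_lit 353)) (XT.lf (nat_lit 76) (nat_lit 4649797692468) (nat_lit 0) (nat_lit 2282803159962) (nat_lit 228) (nat_lit 4649797692468) (nat_lit 209) (nat_lit 1) (nat_lit 208) (nat_lit 1) (nat_lit 211) (nat_lit 1) (nat_lit 187) (nat_lit 361) (nat_lit 352)))))) (XT.nd (nat_lit 390) (nat_lit 380) (nat_lit 0) (XT.nd (nat_lit 156) (nat_lit 304) (nat_lit 0) (XT.nd (nat_lit 78) (nat_lit 0) (nat_lit 0) (XT.lf (nat_lit 228) (nat_lit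 6758659411671) (nat_lit 0) (nat_lit 2096469709464) (nat_lit 152) (nat_lit 2096469709464) (nat_lit 209) (nat_lit 1) (nat_lit 206) (nat_lit 1) (nat_lit 208) (nat_lit 1) (nat_lit 188) (nat_lit 361) (nat_lit 351)) (XT.lf (nat_lit 76) (nat_lit 2113654472667) (nat_lit 0) (nat_lit 6133789143565) (nat_lit 228) (nat_lit 2113654472667) (nat_lit 207) (nat_lit 1) (nat_lit 206) (nat_lit 1) (nat_lit 209) (nat_lit 1) (nat_lit 189) (nat_lit 361) (nat_lit 350))) (XT.nd (nat_lit 78) (nat_lit 228) (nat_lit 0) (XT.lf (nat_lit 152) (nat_lit 1747326029346) (nat_lit 0) (nat_lit 4031963407466) (nat_lit 76) (nat_lit 4031963407466) (nat_lit 207) (nat_lit 1) (nat_lit 205) (nat_lit 1) (nat_lit 206) (nat_lit 1) (nat_lit 190) (nat_lit 361) (nat_lit 349)) (XT.nd (nat_lit 78) (nat_lit 0) (nat_lit 0) (XT.lf (nat_lit 228) (nat_lit 8845991480327) (nat_lit 0) (nat_lit 235002817406) (nat_lit 152) (nat_lit 235002817406) (nat_lit 205)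 (nat_lit 1) (nat_lit 202) (nat_lit 1) (nat_lit 204) (nat_lit 1) (nat_lit 191) (nat_lit 361) (nat_lit 348)) (XT.lf (nat_lit 76) (nat_lit 3095906763258) (nat_lit 0) (nat_lit 2629145032734) (nat_lit 228) (nat_lit 3095906763258) (nat_lit 203) (nat_lit 1) (nat_lit 202) (nat_lit 1) (nat_lit 205) (nat_lit 1) (nat_lit 192) (nat_lit 361) (nat_lit 347))))) (XT.nd (nat_lit 234) (nat_lit 152) (nat_lit 0) (XT.nd (nat_lit 78) (nat_lit 152) (nat_lit 0) (XT.lf (nat_lit 152) (nat_lit 3764326104719) (nat_lit 0) (nat_lit 2305288164331) (nat_lit 76) (nat_lit 2305288164331) (nat_lit 203) (nat_lit 1) (nat_lit 201) (nat_lit 1) (nat_lit 202) (nat_lit 1) (nat_lit 193) (nat_lit 361) (nat_lit 346)) (XT.nd (nat_lit 78) (nat_lit 152) (nat_lit 0) (XT.lf (nat_lit 0) (nat_lit 737106926517) (nat_lit 0) (nat_lit 6489432780803) (nat_lit 152) (nat_lit 737106926517) (nat_lit 201) (nat_lit 3) (nat_lit 201) (nat_lit 1) (nat_lit 203)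 (nat_lit 1) (nat_lit 194) (nat_lit 361) (nat_lit 345)) (XT.lf (nat_lit 76) (nat_lit 3411327747293) (nat_lit 0) (nat_lit 739858016136) (nat_lit 152) (nat_lit 3411327747293) (nat_lit 200) (nat_lit 1) (nat_lit 199) (nat_lit 1) (nat_lit 201) (nat_lit 1) (nat_lit 195) (nat_lit 361) (nat_lit 344)))) (XT.nd (nat_lit 78) (nat_lit 76) (nat_lit 0) (XT.lf (nat_lit 152) (nat_lit 4556862864654) (nat_lit 0) (nat_lit 1318055989983) (nat_lit 76) (nat_lit 1318055989983) (nat_lit 200) (nat_lit 1) (nat_lit 198) (nat_lit 1) (nat_lit 199) (nat_lit 1) (nat_lit 196) (nat_lit 361) (nat_lit 343)) (XT.nd (nat_lit 78) (nat_lit 76) (nat_lit 0) (XT.lf (nat_lit 0) (nat_lit 1184807467049) (nat_lit 0) (nat_lit 4473718443945) (nat_lit 152) (nat_lit 1184807467049) (nat_lit 198) (nat_lit 3) (nat_lit 198) (nat_lit 1) (nat_lit 200) (nat_lit 1) (nat_lit 197) (nat_lit 361) (nat_lit 342)) (XT.lf (nat_lit 76) (nat_lit 264309373515) (nat_lit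 0) (nat_lit 3124231962120) (nat_lit 76) (nat_lit 3124231962120) (nat_lit 198) (nat_lit 3) (nat_lit 197) (nat_lit 1) (nat_lit 198) (nat_lit 1) (nat_lit 198) (nat_lit 361) (nat_lit 341))))))) (XT.nd (nat_lit 858) (nat_lit 912) (nat_lit 0) (XT.nd (nat_lit 390) (nat_lit 456) (nat_lit 0) (XT.nd (nat_lit 156) (nat_lit 228) (nat_lit 0) (XT.nd (nat_lit 78) (nat_lit 0) (nat_lit 0) (XT.lf (nat_lit 152) (nat_lit 4696355216771) (nat_lit 0) (nat_lit 753602790146) (nat_lit 76) (nat_lit 753602790146) (nat_lit 197) (nat_lit 1) (nat_lit 195) (nat_lit 1) (nat_lit 196) (nat_lit 1) (nat_lit 199) (nat_lit 361) (nat_lit 340)) (XT.lf (nat_lit 0) (nat_lit 1341212462047) (nat_lit 0) (nat_lit 3221657987555) (nat_lit 152) (nat_lit 1341212462047) (nat_lit 195) (nat_lit 3) (nat_lit 195) (nat_lit 1) (nat_lit 197) (nat_lit 1) (nat_lit 200) (nat_lit 361) (nat_lit 339))) (XT.nd (nat_lit 78) (nat_lit 152) (nat_lit 0) (XT.lf (nat_lit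 76) (nat_lit 784742191900) (nat_lit 0) (nat_lit 2419912214080) (nat_lit 76) (nat_lit 2419912214080) (nat_lit 195) (nat_lit 3) (nat_lit 194) (nat_lit 1) (nat_lit 195) (nat_lit 1) (nat_lit 201) (nat_lit 361) (nat_lit 338)) (XT.nd (nat_lit 78) (nat_lit 0) (nat_lit 0) (XT.lf (nat_lit 152) (nat_lit 4503377280414) (nat_lit 0) (nat_lit 430874841154) (nat_lit 76) (nat_lit 430874841154) (nat_lit 194) (nat_lit 1) (nat_lit 192) (nat_lit 1) (nat_lit 193) (nat_lit 1) (nat_lit 202) (nat_lit 361) (nat_lit 337)) (XT.lf (nat_lit 0) (nat_lit 1344055575909) (nat_lit 0) (nat_lit 2419206408279) (nat_lit 152) (nat_lit 1344055575909) (nat_lit 192) (nat_lit 3) (nat_lit 192) (nat_lit 1) (nat_lit 194) (nat_lit 1) (nat_lit 203) (nat_lit 361) (nat_lit 336))))) (XT.nd (nat_lit 234) (nat_lit 228) (nat_lit 0) (XT.nd (nat_lit 78) (nat_lit 152) (nat_lit 0) (XT.lf (nat_lit 76) (nat_lit 999654938435) (nat_lit 0) (nat_lit 1934568705713)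 (nat_lit 76) (nat_lit 1934568705713) (nat_lit 192) (nat_lit 3) (nat_lit 191) (nat_lit 1) (nat_lit 192) (nat_lit 1) (nat_lit 204) (nat_lit 361) (nat_lit 335)) (XT.nd (nat_lit 78) (nat_lit 0) (nat_lit 0) (XT.lf (nat_lit 152) (nat_lit 4155882265570) (nat_lit 0) (nat_lit 246354088874) (nat_lit 76) (nat_lit 246354088874) (nat_lit 191) (nat_lit 1) (nat_lit 189) (nat_lit 1) (nat_lit 190) (nat_lit 1) (nat_lit 205) (nat_lit 361) (nat_lit 334)) (XT.lf (nat_lit 0) (nat_lit 1270392483613) (nat_lit 0) (nat_lit 1885113461522) (nat_lit 152) (nat_lit 1270392483613) (nat_lit 189) (nat_lit 3) (nat_lit 189) (nat_lit 1) (nat_lit 191) (nat_lit 1) (nat_lit 206) (nat_lit 361) (nat_lit 333)))) (XT.nd (nat_lit 78) (nat_lit 152) (nat_lit 0) (XT.lf (nat_lit 76) (nat_lit 1050665558361) (nat_lit 0) (nat_lit 1585205539151) (nat_lit 76) (nat_lit 1585205539151) (nat_lit 189) (nat_lit 3) (nat_lit 188) (nat_lit 1) (nat_lit 189)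 (nat_lit 1) (nat_lit 207) (nat_lit 361) (nat_lit 332)) (XT.nd (nat_lit 78) (nat_lit 0) (nat_lit 0) (XT.lf (nat_lit 152) (nat_lit 3750975425262) (nat_lit 0) (nat_lit 140853749878) (nat_lit 76) (nat_lit 140853749878) (nat_lit 188) (nat_lit 1) (nat_lit 186) (nat_lit 1) (nat_lit 187) (nat_lit 1) (nat_lit 208) (nat_lit 361) (nat_lit 331)) (XT.lf (nat_lit 0) (nat_lit 1162806978578) (nat_lit 0) (nat_lit 1514275692832) (nat_lit 152) (nat_lit 1162806978578) (nat_lit 186) (nat_lit 3) (nat_lit 186) (nat_lit 1) (nat_lit 188) (nat_lit 1) (nat_lit 209) (nat_lit 361) (nat_lit 330)))))) (XT.nd (nat_lit 468) (nat_lit 456) (nat_lit 0) (XT.nd (nat_lit 234) (nat_lit 228) (nat_lit 0) (XT.nd (nat_lit 78) (nat_lit 152) (nat_lit 0) (XT.lf (nat_lit 76) (nat_lit 1017338488971) (nat_lit 0) (nat_lit 1322963457887) (nat_lit 76) (nat_lit 1322963457887) (nat_lit 186) (nat_lit 3) (nat_lit 185) (nat_lit 1) (nat_lit 186) (nat_lit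 1) (nat_lit 210) (nat_lit 361) (nat_lit 329)) (XT.nd (nat_lit 78) (nat_lit 0) (nat_lit 0) (XT.lf (nat_lit 152) (nat_lit 3340142157551) (nat_lit 0) (nat_lit 80533588647) (nat_lit 76) (nat_lit 80533588647) (nat_lit 185) (nat_lit 1) (nat_lit 183) (nat_lit 1) (nat_lit 184) (nat_lit 1) (nat_lit 211) (nat_lit 361) (nat_lit 328)) (XT.lf (nat_lit 0) (nat_lit 1044365579561) (nat_lit 0) (nat_lit 1245318957660) (nat_lit 152) (nat_lit 1044365579561) (nat_lit 183) (nat_lit 3) (nat_lit 183) (nat_lit 1) (nat_lit 185) (nat_lit 1) (nat_lit 212) (nat_lit 361) (nat_lit 327)))) (XT.nd (nat_lit 78) (nat_lit 152) (nat_lit 0) (XT.lf (nat_lit 76) (nat_lit 943942275062) (nat_lit 0) (nat_lit 1118684342974) (nat_lit 76) (nat_lit 1118684342974) (nat_lit 183) (nat_lit 3) (nat_lit 182) (nat_lit 1) (nat_lit 183) (nat_lit 1) (nat_lit 213) (nat_lit 361) (nat_lit 326)) (XT.nd (nat_lit 78) (nat_lit 0) (nat_lit 0) (XT.lf (nat_lit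 152) (nat_lit 2949310844554) (nat_lit 0) (nat_lit 46045340688) (nat_lit 76) (nat_lit 46045340688) (nat_lit 182) (nat_lit 1) (nat_lit 180) (nat_lit 1) (nat_lit 181) (nat_lit 1) (nat_lit 214) (nat_lit 361) (nat_lit 325)) (XT.lf (nat_lit 0) (nat_lit 927142814535) (nat_lit 0) (nat_lit 1042038560676) (nat_lit 152) (nat_lit 927142814535) (nat_lit 180) (nat_lit 3) (nat_lit 180) (nat_lit 1) (nat_lit 182) (nat_lit 1) (nat_lit 215) (nat_lit 361) (nat_lit 324))))) (XT.nd (nat_lit 234) (nat_lit 228) (nat_lit 0) (XT.nd (nat_lit 78) (nat_lit 152) (nat_lit 0) (XT.lf (nat_lit 76) (nat_lit 854724400399) (nat_lit 0) (nat_lit 954633744869) (nat_lit 76) (nat_lit 954633744869) (nat_lit 180) (nat_lit 3) (nat_lit 179) (nat_lit 1) (nat_lit 180) (nat_lit 1) (nat_lit 216) (nat_lit 361) (nat_lit 323)) (XT.nd (nat_lit 78) (nat_lit 0) (nat_lit 0) (XT.lf (nat_lit 152) (nat_lit 2590255200013) (nat_lit 0) (nat_lit 26326572982)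 (nat_lit 76) (nat_lit 26326572982) (nat_lit 179) (nat_lit 1) (nat_lit 177) (nat_lit 1) (nat_lit 178) (nat_lit 1) (nat_lit 217) (nat_lit 361) (nat_lit 322)) (XT.lf (nat_lit 0) (nat_lit 817073787109) (nat_lit 0) (nat_lit 882765802870) (nat_lit 152) (nat_lit 817073787109) (nat_lit 177) (nat_lit 3) (nat_lit 177) (nat_lit 1) (nat_lit 179) (nat_lit 1) (nat_lit 218) (nat_lit 361) (nat_lit 321)))) (XT.nd (nat_lit 78) (nat_lit 152) (nat_lit 0) (XT.lf (nat_lit 76) (nat_lit 762623920432) (nat_lit 0) (nat_lit 819747412398) (nat_lit 76) (nat_lit 819747412398) (nat_lit 177) (nat_lit 3) (nat_lit 176) (nat_lit 1) (nat_lit 177) (nat_lit 1) (nat_lit 219) (nat_lit 361) (nat_lit 320)) (XT.nd (nat_lit 78) (nat_lit 0) (nat_lit 0) (XT.lf (nat_lit 152) (nat_lit 2267053906544) (nat_lit 0) (nat_lit 15052303548) (nat_lit 76) (nat_lit 15052303548) (nat_lit 176) (nat_lit 1) (nat_lit 174) (nat_lit 1) (nat_lit 175) (nat_lit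 1) (nat_lit 220) (nat_lit 361) (nat_lit 319)) (XT.lf (nat_lit 0) (nat_lit 716709697295) (nat_lit 0) (nat_lit 754269320515) (nat_lit 152) (nat_lit 716709697295) (nat_lit 174) (nat_lit 3) (nat_lit 174) (nat_lit 1) (nat_lit 176) (nat_lit 1) (nat_lit 221) (nat_lit 361) (nat_lit 318))))))))
noncomputable def ec204 : XT := (XT.nd (nat_lit 1716) (nat_lit 1748) (nat_lit 0) (XT.nd (nat_lit 858) (nat_lit 760) (nat_lit 0) (XT.nd (nat_lit 390) (nat_lit 456) (nat_lit 0) (XT.nd (nat_lit 156) (nat_lit 228) (nat_lit 0) (XT.nd (nat_lit 78) (nat_lit 152) (nat_lit 0) (XT.lf (nat_lit 76) (nat_lit 674234849863) (nat_lit 0) (nat_lit 706895391794) (nat_lit 76) (nat_lit 706895391794) (nat_lit 174) (nat_lit 3) (nat_lit 173) (nat_lit 1) (nat_lit 174) (nat_lit 1) (nat_lit 222) (nat_lit 361) (nat_lit 317)) (XT.lf (nat_lit 152) (nat_lit 1979732028151) (nat_lit 0) (nat_lit 8606203407) (nat_lit 76) (nat_lit 8606203407) (nat_lit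 173) (nat_lit 1) (nat_lit 171) (nat_lit 1) (nat_lit 172) (nat_lit 1) (nat_lit 223) (nat_lit 361) (nat_lit 316))) (XT.nd (nat_lit 78) (nat_lit 228) (nat_lit 0) (XT.lf (nat_lit 0) (nat_lit 626776841338) (nat_lit 0) (nat_lit 648251677818) (nat_lit 152) (nat_lit 626776841338) (nat_lit 171) (nat_lit 3) (nat_lit 171) (nat_lit 1) (nat_lit 173) (nat_lit 1) (nat_lit 224) (nat_lit 361) (nat_lit 315)) (XT.nd (nat_lit 78) (nat_lit 152) (nat_lit 0) (XT.lf (nat_lit 76) (nat_lit 592628266473) (nat_lit 0) (nat_lit 611302037325) (nat_lit 76) (nat_lit 611302037325) (nat_lit 171) (nat_lit 3) (nat_lit 170) (nat_lit 1) (nat_lit 171) (nat_lit 1) (nat_lit 225) (nat_lit 361) (nat_lit 314)) (XT.lf (nat_lit 152) (nat_lit 1726297863935) (nat_lit 0) (nat_lit 4920624730) (nat_lit 76) (nat_lit 4920624730) (nat_lit 170) (nat_lit 1) (nat_lit 168) (nat_lit 1) (nat_lit 169) (nat_lit 1) (nat_lit 226) (nat_lit 361) (nat_lit 313)))))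 (XT.nd (nat_lit 234) (nat_lit 228) (nat_lit 0) (XT.nd (nat_lit 78) (nat_lit 228) (nat_lit 0) (XT.lf (nat_lit 0) (nat_lit 547053646134) (nat_lit 0) (nat_lit 559331953590) (nat_lit 152) (nat_lit 547053646134) (nat_lit 168) (nat_lit 3) (nat_lit 168) (nat_lit 1) (nat_lit 170) (nat_lit 1) (nat_lit 227) (nat_lit 361) (nat_lit 312)) (XT.nd (nat_lit 78) (nat_lit 152) (nat_lit 0) (XT.lf (nat_lit 76) (nat_lit 518952180676) (nat_lit 0) (nat_lit 529628969768) (nat_lit 76) (nat_lit 529628969768) (nat_lit 168) (nat_lit 3) (nat_lit 167) (nat_lit 1) (nat_lit 168) (nat_lit 1) (nat_lit 228) (nat_lit 361) (nat_lit 311)) (XT.lf (nat_lit 152) (nat_lit 1503868277378) (nat_lit 0) (nat_lit 2813383159) (nat_lit 76) (nat_lit 2813383159) (nat_lit 167) (nat_lit 1) (nat_lit 165) (nat_lit 1) (nat_lit 166) (nat_lit 1) (nat_lit 229) (nat_lit 361) (nat_lit 310)))) (XT.nd (nat_lit 78) (nat_lit 228) (nat_lit 0) (XT.lf (nat_lit 0)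 (nat_lit 476859656679) (nat_lit 0) (nat_lit 483879818817) (nat_lit 152) (nat_lit 476859656679) (nat_lit 165) (nat_lit 3) (nat_lit 165) (nat_lit 1) (nat_lit 167) (nat_lit 1) (nat_lit 230) (nat_lit 361) (nat_lit 309)) (XT.nd (nat_lit 78) (nat_lit 152) (nat_lit 0) (XT.lf (nat_lit 76) (nat_lit 453334372643) (nat_lit 0) (nat_lit 459438861459) (nat_lit 76) (nat_lit 459438861459) (nat_lit 165) (nat_lit 3) (nat_lit 164) (nat_lit 1) (nat_lit 165) (nat_lit 1) (nat_lit 231) (nat_lit 361) (nat_lit 308)) (XT.lf (nat_lit 152) (nat_lit 1309277977938) (nat_lit 0) (nat_lit 1608560952) (nat_lit 76) (nat_lit 1608560952) (nat_lit 164) (nat_lit 1) (nat_lit 162) (nat_lit 1) (nat_lit 163) (nat_lit 1) (nat_lit 232) (nat_lit 361) (nat_lit 307)))))) (XT.nd (nat_lit 390) (nat_lit 456) (nat_lit 0) (XT.nd (nat_lit 156) (nat_lit 228) (nat_lit 0) (XT.nd (nat_lit 78) (nat_lit 76) (nat_lit 0) (XT.lf (nat_lit 0) (nat_lit 415324281605)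 (nat_lit 0) (nat_lit 419338082092) (nat_lit 152) (nat_lit 415324281605) (nat_lit 162) (nat_lit 3) (nat_lit 162) (nat_lit 1) (nat_lit 164) (nat_lit 1) (nat_lit 233) (nat_lit 361) (nat_lit 306)) (XT.lf (nat_lit 76) (nat_lit 395388250231) (nat_lit 0) (nat_lit 398878511525) (nat_lit 76) (nat_lit 398878511525) (nat_lit 162) (nat_lit 3) (nat_lit 161) (nat_lit 1) (nat_lit 162) (nat_lit 1) (nat_lit 234) (nat_lit 361) (nat_lit 305))) (XT.nd (nat_lit 78) (nat_lit 76) (nat_lit 0) (XT.lf (nat_lit 152) (nat_lit 1139398202315) (nat_lit 0) (nat_lit 919699945) (nat_lit 76) (nat_lit 919699945) (nat_lit 161) (nat_lit 1) (nat_lit 159) (nat_lit 1) (nat_lit 160) (nat_lit 1) (nat_lit 235) (nat_lit 361) (nat_lit 304)) (XT.nd (nat_lit 78) (nat_lit 76) (nat_lit 0) (XT.lf (nat_lit 0) (nat_lit 361531027901) (nat_lit 0) (nat_lit 363825931356) (nat_lit 152) (nat_lit 361531027901) (nat_lit 159) (nat_lit 3) (nat_lit 159) (nat_lit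 1) (nat_lit 161) (nat_lit 1) (nat_lit 236) (nat_lit 361) (nat_lit 303)) (XT.lf (nat_lit 76) (nat_lit 344493081716) (nat_lit 0) (nat_lit 346488649939) (nat_lit 76) (nat_lit 346488649939) (nat_lit 159) (nat_lit 3) (nat_lit 158) (nat_lit 1) (nat_lit 159) (nat_lit 1) (nat_lit 237) (nat_lit 361) (nat_lit 302))))) (XT.nd (nat_lit 234) (nat_lit 228) (nat_lit 0) (XT.nd (nat_lit 78) (nat_lit 76) (nat_lit 0) (XT.lf (nat_lit 152) (nat_lit 991293115019) (nat_lit 0) (nat_lit 525841428) (nat_lit 76) (nat_lit 525841428) (nat_lit 158) (nat_lit 1) (nat_lit 156) (nat_lit 1) (nat_lit 157) (nat_lit 1) (nat_lit 238) (nat_lit 361) (nat_lit 301)) (XT.nd (nat_lit 78) (nat_lit 76) (nat_lit 0) (XT.lf (nat_lit 0) (nat_lit 314591775036) (nat_lit 0) (nat_lit 315903893535) (nat_lit 152) (nat_lit 314591775036) (nat_lit 156) (nat_lit 3) (nat_lit 156) (nat_lit 1) (nat_lit 158) (nat_lit 1) (nat_lit 239) (nat_lit 361) (nat_lit 300))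 (XT.lf (nat_lit 76) (nat_lit 299946399623) (nat_lit 0) (nat_lit 301087372231) (nat_lit 76) (nat_lit 301087372231) (nat_lit 156) (nat_lit 3) (nat_lit 155) (nat_lit 1) (nat_lit 156) (nat_lit 1) (nat_lit 240) (nat_lit 361) (nat_lit 299)))) (XT.nd (nat_lit 78) (nat_lit 76) (nat_lit 0) (XT.lf (nat_lit 152) (nat_lit 862286790474) (nat_lit 0) (nat_lit 300651543) (nat_lit 76) (nat_lit 300651543) (nat_lit 155) (nat_lit 1) (nat_lit 153) (nat_lit 1) (nat_lit 154) (nat_lit 1) (nat_lit 241) (nat_lit 361) (nat_lit 298)) (XT.nd (nat_lit 78) (nat_lit 76) (nat_lit 0) (XT.lf (nat_lit 0) (nat_lit 273682117502) (nat_lit 0) (nat_lit 274432325512) (nat_lit 152) (nat_lit 273682117502) (nat_lit 153) (nat_lit 3) (nat_lit 153) (nat_lit 1) (nat_lit 155) (nat_lit 1) (nat_lit 242) (nat_lit 361) (nat_lit 297)) (XT.lf (nat_lit 76) (nat_lit 261044337982) (nat_lit 0) (nat_lit 261696692773) (nat_lit 76) (nat_lit 261696692773) (nat_lit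 153) (nat_lit 3) (nat_lit 152) (nat_lit 1) (nat_lit 153) (nat_lit 1) (nat_lit 243) (nat_lit 361) (nat_lit 296))))))) (XT.nd (nat_lit 858) (nat_lit 912) (nat_lit 0) (XT.nd (nat_lit 390) (nat_lit 456) (nat_lit 0) (XT.nd (nat_lit 156) (nat_lit 228) (nat_lit 0) (XT.nd (nat_lit 78) (nat_lit 0) (nat_lit 0) (XT.lf (nat_lit 152) (nat_lit 749981996849) (nat_lit 0) (nat_lit 171898495) (nat_lit 76) (nat_lit 171898495) (nat_lit 152) (nat_lit 1) (nat_lit 150) (nat_lit 1) (nat_lit 151) (nat_lit 1) (nat_lit 244) (nat_lit 361) (nat_lit 295)) (XT.lf (nat_lit 0) (nat_lit 238055377280) (nat_lit 0) (nat_lit 238484311145) (nat_lit 152) (nat_lit 238055377280) (nat_lit 150) (nat_lit 3) (nat_lit 150) (nat_lit 1) (nat_lit 152) (nat_lit 1) (nat_lit 245) (nat_lit 361) (nat_lit 294))) (XT.nd (nat_lit 78) (nat_lit 152) (nat_lit 0) (XT.lf (nat_lit 76) (nat_lit 227121652261) (nat_lit 0) (nat_lit 227494638231) (nat_lit 76) (nat_lit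 227494638231) (nat_lit 150) (nat_lit 3) (nat_lit 149) (nat_lit 1) (nat_lit 150) (nat_lit 1) (nat_lit 246) (nat_lit 361) (nat_lit 293)) (XT.nd (nat_lit 78) (nat_lit 0) (nat_lit 0) (XT.lf (nat_lit 152) (nat_lit 652253967585) (nat_lit 0) (nat_lit 98283522) (nat_lit 76) (nat_lit 98283522) (nat_lit 149) (nat_lit 1) (nat_lit 147) (nat_lit 1) (nat_lit 148) (nat_lit 1) (nat_lit 247) (nat_lit 361) (nat_lit 292)) (XT.lf (nat_lit 0) (nat_lit 207045228797) (nat_lit 0) (nat_lit 207290473126) (nat_lit 152) (nat_lit 207045228797) (nat_lit 147) (nat_lit 3) (nat_lit 147) (nat_lit 1) (nat_lit 149) (nat_lit 1) (nat_lit 248) (nat_lit 361) (nat_lit 291))))) (XT.nd (nat_lit 234) (nat_lit 228) (nat_lit 0) (XT.nd (nat_lit 78) (nat_lit 152) (nat_lit 0) (XT.lf (nat_lit 76) (nat_lit 197569459022) (nat_lit 0) (nat_lit 197782714960) (nat_lit 76) (nat_lit 197782714960) (nat_lit 147) (nat_lit 3) (nat_lit 146) (nat_lit 1) (nat_lit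 147) (nat_lit 1) (nat_lit 249) (nat_lit 361) (nat_lit 290)) (XT.nd (nat_lit 78) (nat_lit 0) (nat_lit 0) (XT.lf (nat_lit 152) (nat_lit 567232085310) (nat_lit 0) (nat_lit 56193923) (nat_lit 76) (nat_lit 56193923) (nat_lit 146) (nat_lit 1) (nat_lit 144) (nat_lit 1) (nat_lit 145) (nat_lit 1) (nat_lit 250) (nat_lit 361) (nat_lit 289)) (XT.lf (nat_lit 0) (nat_lit 180062515642) (nat_lit 0) (nat_lit 180202734883) (nat_lit 152) (nat_lit 180062515642) (nat_lit 144) (nat_lit 3) (nat_lit 144) (nat_lit 1) (nat_lit 146) (nat_lit 1) (nat_lit 251) (nat_lit 361) (nat_lit 288)))) (XT.nd (nat_lit 78) (nat_lit 152) (nat_lit 0) (XT.lf (nat_lit 76) (nat_lit 171840907423) (nat_lit 0) (nat_lit 171962837198) (nat_lit 76) (nat_lit 171962837198) (nat_lit 144) (nat_lit 3) (nat_lit 143) (nat_lit 1) (nat_lit 144) (nat_lit 1) (nat_lit 252) (nat_lit 361) (nat_lit 287)) (XT.nd (nat_lit 78) (nat_lit 0) (nat_lit 0) (XT.lf (nat_lit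 152) (nat_lit 493276579165) (nat_lit 0) (nat_lit 32129057) (nat_lit 76) (nat_lit 32129057) (nat_lit 143) (nat_lit 1) (nat_lit 141) (nat_lit 1) (nat_lit 142) (nat_lit 1) (nat_lit 253) (nat_lit 361) (nat_lit 286)) (XT.lf (nat_lit 0) (nat_lit 156589357374) (nat_lit 0) (nat_lit 156669528180) (nat_lit 152) (nat_lit 156589357374) (nat_lit 141) (nat_lit 3) (nat_lit 141) (nat_lit 1) (nat_lit 143) (nat_lit 1) (nat_lit 254) (nat_lit 361) (nat_lit 285)))))) (XT.nd (nat_lit 390) (nat_lit 456) (nat_lit 0) (XT.nd (nat_lit 156) (nat_lit 228) (nat_lit 0) (XT.nd (nat_lit 78) (nat_lit 152) (nat_lit 0) (XT.lf (nat_lit 76) (nat_lit 149450533934) (nat_lit 0) (nat_lit 149520247679) (nat_lit 76) (nat_lit 149520247679) (nat_lit 141) (nat_lit 3) (nat_lit 140) (nat_lit 1) (nat_lit 141) (nat_lit 1) (nat_lit 255) (nat_lit 361) (nat_lit 284)) (XT.lf (nat_lit 152) (nat_lit 428954044577) (nat_lit 0) (nat_lit 18369893) (nat_lit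 76) (nat_lit 18369893) (nat_lit 140) (nat_lit 1) (nat_lit 138) (nat_lit 1) (nat_lit 139) (nat_lit 1) (nat_lit 256) (nat_lit 361) (nat_lit 283))) (XT.nd (nat_lit 78) (nat_lit 228) (nat_lit 0) (XT.lf (nat_lit 0) (nat_lit 136172238213) (nat_lit 0) (nat_lit 136218076132) (nat_lit 152) (nat_lit 136172238213) (nat_lit 138) (nat_lit 3) (nat_lit 138) (nat_lit 1) (nat_lit 140) (nat_lit 1) (nat_lit 257) (nat_lit 361) (nat_lit 282)) (XT.nd (nat_lit 78) (nat_lit 152) (nat_lit 0) (XT.lf (nat_lit 76) (nat_lit 129970512518) (nat_lit 0) (nat_lit 130010371578) (nat_lit 76) (nat_lit 130010371578) (nat_lit 138) (nat_lit 3) (nat_lit 137) (nat_lit 1) (nat_lit 138) (nat_lit 1) (nat_lit 258) (nat_lit 361) (nat_lit 281)) (XT.lf (nat_lit 152) (nat_lit 373013744992) (nat_lit 0) (nat_lit 10503046) (nat_lit 76) (nat_lit 10503046) (nat_lit 137) (nat_lit 1) (nat_lit 135) (nat_lit 1) (nat_lit 136) (nat_lit 1) (nat_lit 259) (nat_lit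 361) (nat_lit 280))))) (XT.nd (nat_lit 234) (nat_lit 228) (nat_lit 0) (XT.nd (nat_lit 78) (nat_lit 228) (nat_lit 0) (XT.lf (nat_lit 0) (nat_lit 118414975601) (nat_lit 0) (nat_lit 118441183579) (nat_lit 152) (nat_lit 118414975601) (nat_lit 135) (nat_lit 3) (nat_lit 135) (nat_lit 1) (nat_lit 137) (nat_lit 1) (nat_lit 260) (nat_lit 361) (nat_lit 279)) (XT.nd (nat_lit 78) (nat_lit 152) (nat_lit 0) (XT.lf (nat_lit 76) (nat_lit 113025570786) (nat_lit 0) (nat_lit 113048360333) (nat_lit 76) (nat_lit 113048360333) (nat_lit 135) (nat_lit 3) (nat_lit 134) (nat_lit 1) (nat_lit 135) (nat_lit 1) (nat_lit 261) (nat_lit 361) (nat_lit 278)) (XT.lf (nat_lit 152) (nat_lit 324365626129) (nat_lit 0) (nat_lit 6005150) (nat_lit 76) (nat_lit 6005150) (nat_lit 134) (nat_lit 1) (nat_lit 132) (nat_lit 1) (nat_lit 133) (nat_lit 1) (nat_lit 262) (nat_lit 361) (nat_lit 277)))) (XT.nd (nat_lit 78) (nat_lit 228) (nat_lit 0) (XT.lf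 (nat_lit 0) (nat_lit 102972021794) (nat_lit 0) (nat_lit 102987006291) (nat_lit 152) (nat_lit 102972021794) (nat_lit 132) (nat_lit 3) (nat_lit 132) (nat_lit 1) (nat_lit 134) (nat_lit 1) (nat_lit 263) (nat_lit 361) (nat_lit 276)) (XT.nd (nat_lit 78) (nat_lit 152) (nat_lit 0) (XT.lf (nat_lit 76) (nat_lit 98287526865) (nat_lit 0) (nat_lit 98300556862) (nat_lit 76) (nat_lit 98300556862) (nat_lit 132) (nat_lit 3) (nat_lit 131) (nat_lit 1) (nat_lit 132) (nat_lit 1) (nat_lit 264) (nat_lit 361) (nat_lit 275)) (XT.lf (nat_lit 152) (nat_lit 282060409740) (nat_lit 0) (nat_lit 3433464) (nat_lit 76) (nat_lit 3433464) (nat_lit 131) (nat_lit 1) (nat_lit 129) (nat_lit 1) (nat_lit 130) (nat_lit 1) (nat_lit 265) (nat_lit 361) (nat_lit 274))))))))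
noncomputable def ec205 : XT := (XT.nd (nat_lit 1716) (nat_lit 1824) (nat_lit 0) (XT.nd (nat_lit 858) (nat_lit 836) (nat_lit 0) (XT.nd (nat_lit 390) (nat_lit 456) (nat_lit 0) (XT.nd (nat_lit 156) (nat_lit 228) (nat_lit 0) (XT.nd (nat_lit 78) (nat_lit 76) (nat_lit 0) (XT.lf (nat_lit 0) (nat_lit 89542305203) (nat_lit 0) (nat_lit 89550872638) (nat_lit 152) (nat_lit 89542305203) (nat_lit 129) (nat_lit 3) (nat_lit 129) (nat_lit 1) (nat_lit 131) (nat_lit 1) (nat_lit 266) (nat_lit 361) (nat_lit 273)) (XT.lf (nat_lit 76) (nat_lit 85469942863) (nat_lit 0) (nat_lit 85477392806) (nat_lit 76) (nat_lit 85477392806) (nat_lit 129) (nat_lit 3) (nat_lit 128) (nat_lit 1) (nat_lit 129) (nat_lit 1) (nat_lit 267) (nat_lit 361) (nat_lit 272))) (XT.nd (nat_lit 78) (nat_lit 76) (nat_lit 0) (XT.lf (nat_lit 152) (nat_lit 245271833194) (nat_lit 0) (nat_lit 1963094) (nat_lit 76) (nat_lit 1963094) (nat_lit 128) (nat_lit 1)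 (nat_lit 126) (nat_lit 1) (nat_lit 127) (nat_lit 1) (nat_lit 268) (nat_lit 361) (nat_lit 271)) (XT.nd (nat_lit 78) (nat_lit 76) (nat_lit 0) (XT.lf (nat_lit 0) (nat_lit 77863684085) (nat_lit 0) (nat_lit 77868582543) (nat_lit 152) (nat_lit 77863684085) (nat_lit 126) (nat_lit 3) (nat_lit 126) (nat_lit 1) (nat_lit 128) (nat_lit 1) (nat_lit 269) (nat_lit 361) (nat_lit 270)) (XT.lf (nat_lit 76) (nat_lit 74323134951) (nat_lit 0) (nat_lit 74327394480) (nat_lit 76) (nat_lit 74327394480) (nat_lit 126) (nat_lit 3) (nat_lit 125) (nat_lit 1) (nat_lit 126) (nat_lit 1) (nat_lit 270) (nat_lit 361) (nat_lit 269))))) (XT.nd (nat_lit 234) (nat_lit 228) (nat_lit 0) (XT.nd (nat_lit 78) (nat_lit 76) (nat_lit 0) (XT.lf (nat_lit 152) (nat_lit 213280947960) (nat_lit 0) (nat_lit 1122405) (nat_lit 76) (nat_lit 1122405) (nat_lit 125) (nat_lit 1) (nat_lit 123) (nat_lit 1) (nat_lit 124) (nat_lit 1) (nat_lit 271) (nat_lit 361)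 (nat_lit 268)) (XT.nd (nat_lit 78) (nat_lit 76) (nat_lit 0) (XT.lf (nat_lit 0) (nat_lit 67708014495) (nat_lit 0) (nat_lit 67710815205) (nat_lit 152) (nat_lit 67708014495) (nat_lit 123) (nat_lit 3) (nat_lit 123) (nat_lit 1) (nat_lit 125) (nat_lit 1) (nat_lit 272) (nat_lit 361) (nat_lit 267)) (XT.lf (nat_lit 76) (nat_lit 64629639473) (nat_lit 0) (nat_lit 64632074873) (nat_lit 76) (nat_lit 64632074873) (nat_lit 123) (nat_lit 3) (nat_lit 122) (nat_lit 1) (nat_lit 123) (nat_lit 1) (nat_lit 273) (nat_lit 361) (nat_lit 266)))) (XT.nd (nat_lit 78) (nat_lit 76) (nat_lit 0) (XT.lf (nat_lit 152) (nat_lit 185462318810) (nat_lit 0) (nat_lit 641739) (nat_lit 76) (nat_lit 641739) (nat_lit 122) (nat_lit 1) (nat_lit 120) (nat_lit 1) (nat_lit 121) (nat_lit 1) (nat_lit 274) (nat_lit 361) (nat_lit 265)) (XT.nd (nat_lit 78) (nat_lit 76) (nat_lit 0) (XT.lf (nat_lit 0) (nat_lit 58876799132) (nat_lit 0) (nat_lit 58878400447)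 (nat_lit 152) (nat_lit 58876799132) (nat_lit 120) (nat_lit 3) (nat_lit 120) (nat_lit 1) (nat_lit 122) (nat_lit 1) (nat_lit 275) (nat_lit 361) (nat_lit 264)) (XT.lf (nat_lit 76) (nat_lit 56200159036) (nat_lit 0) (nat_lit 56201551484) (nat_lit 76) (nat_lit 56201551484) (nat_lit 120) (nat_lit 3) (nat_lit 119) (nat_lit 1) (nat_lit 120) (nat_lit 1) (nat_lit 276) (nat_lit 361) (nat_lit 263)))))) (XT.nd (nat_lit 390) (nat_lit 456) (nat_lit 0) (XT.nd (nat_lit 156) (nat_lit 228) (nat_lit 0) (XT.nd (nat_lit 78) (nat_lit 0) (nat_lit 0) (XT.lf (nat_lit 152) (nat_lit 161271938881) (nat_lit 0) (nat_lit 366916) (nat_lit 76) (nat_lit 366916) (nat_lit 119) (nat_lit 1) (nat_lit 117) (nat_lit 1) (nat_lit 118) (nat_lit 1) (nat_lit 277) (nat_lit 361) (nat_lit 262)) (XT.lf (nat_lit 0) (nat_lit 51197368031) (nat_lit 0) (nat_lit 51198283588) (nat_lit 152) (nat_lit 51197368031) (nat_lit 117) (nat_lit 3) (nat_lit 117) (nat_lit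 1) (nat_lit 119) (nat_lit 1) (nat_lit 278) (nat_lit 361) (nat_lit 261))) (XT.nd (nat_lit 78) (nat_lit 152) (nat_lit 0) (XT.lf (nat_lit 76) (nat_lit 48869973685) (nat_lit 0) (nat_lit 48870769821) (nat_lit 76) (nat_lit 48870769821) (nat_lit 117) (nat_lit 3) (nat_lit 116) (nat_lit 1) (nat_lit 117) (nat_lit 1) (nat_lit 279) (nat_lit 361) (nat_lit 260)) (XT.nd (nat_lit 78) (nat_lit 0) (nat_lit 0) (XT.lf (nat_lit 152) (nat_lit 140236672883) (nat_lit 0) (nat_lit 209785) (nat_lit 76) (nat_lit 209785) (nat_lit 116) (nat_lit 1) (nat_lit 114) (nat_lit 1) (nat_lit 115) (nat_lit 1) (nat_lit 280) (nat_lit 361) (nat_lit 259)) (XT.lf (nat_lit 0) (nat_lit 44519537021) (nat_lit 0) (nat_lit 44520060494) (nat_lit 152) (nat_lit 44519537021) (nat_lit 114) (nat_lit 3) (nat_lit 114) (nat_lit 1) (nat_lit 116) (nat_lit 1) (nat_lit 281) (nat_lit 361) (nat_lit 258))))) (XT.nd (nat_lit 234) (nat_lit 228) (nat_lit 0) (XT.nd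 (nat_lit 78) (nat_lit 152) (nat_lit 0) (XT.lf (nat_lit 76) (nat_lit 42495783765) (nat_lit 0) (nat_lit 42496238958) (nat_lit 76) (nat_lit 42496238958) (nat_lit 114) (nat_lit 3) (nat_lit 113) (nat_lit 1) (nat_lit 114) (nat_lit 1) (nat_lit 282) (nat_lit 361) (nat_lit 257)) (XT.nd (nat_lit 78) (nat_lit 0) (nat_lit 0) (XT.lf (nat_lit 152) (nat_lit 121945049746) (nat_lit 0) (nat_lit 119945) (nat_lit 76) (nat_lit 119945) (nat_lit 113) (nat_lit 1) (nat_lit 111) (nat_lit 1) (nat_lit 112) (nat_lit 1) (nat_lit 283) (nat_lit 361) (nat_lit 256)) (XT.lf (nat_lit 0) (nat_lit 38712690379) (nat_lit 0) (nat_lit 38712989676) (nat_lit 152) (nat_lit 38712690379) (nat_lit 111) (nat_lit 3) (nat_lit 111) (nat_lit 1) (nat_lit 113) (nat_lit 1) (nat_lit 284) (nat_lit 361) (nat_lit 255)))) (XT.nd (nat_lit 78) (nat_lit 152) (nat_lit 0) (XT.lf (nat_lit 76) (nat_lit 36952943768) (nat_lit 0) (nat_lit 36953204027) (nat_lit 76)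 (nat_lit 36953204027) (nat_lit 111) (nat_lit 3) (nat_lit 110) (nat_lit 1) (nat_lit 111) (nat_lit 1) (nat_lit 285) (nat_lit 361) (nat_lit 254)) (XT.nd (nat_lit 78) (nat_lit 0) (nat_lit 0) (XT.lf (nat_lit 152) (nat_lit 106039240475) (nat_lit 0) (nat_lit 68579) (nat_lit 76) (nat_lit 68579) (nat_lit 110) (nat_lit 1) (nat_lit 108) (nat_lit 1) (nat_lit 109) (nat_lit 1) (nat_lit 286) (nat_lit 361) (nat_lit 253)) (XT.lf (nat_lit 0) (nat_lit 33663237322) (nat_lit 0) (nat_lit 33663408446) (nat_lit 152) (nat_lit 33663237322) (nat_lit 108) (nat_lit 3) (nat_lit 108) (nat_lit 1) (nat_lit 110) (nat_lit 1) (nat_lit 287) (nat_lit 361) (nat_lit 252))))))) (XT.nd (nat_lit 858) (nat_lit 912) (nat_lit 0) (XT.nd (nat_lit 390) (nat_lit 456) (nat_lit 0) (XT.nd (nat_lit 156) (nat_lit 228) (nat_lit 0) (XT.nd (nat_lit 78) (nat_lit 152) (nat_lit 0) (XT.lf (nat_lit 76) (nat_lit 32133045079) (nat_lit 0) (nat_lit 32133193882)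 (nat_lit 76) (nat_lit 32133193882) (nat_lit 108) (nat_lit 3) (nat_lit 107) (nat_lit 1) (nat_lit 108) (nat_lit 1) (nat_lit 288) (nat_lit 361) (nat_lit 251)) (XT.lf (nat_lit 152) (nat_lit 92208073379) (nat_lit 0) (nat_lit 39210) (nat_lit 76) (nat_lit 39210) (nat_lit 107) (nat_lit 1) (nat_lit 105) (nat_lit 1) (nat_lit 106) (nat_lit 1) (nat_lit 289) (nat_lit 361) (nat_lit 250))) (XT.nd (nat_lit 78) (nat_lit 228) (nat_lit 0) (XT.lf (nat_lit 0) (nat_lit 29272396458) (nat_lit 0) (nat_lit 29272494299) (nat_lit 152) (nat_lit 29272396458) (nat_lit 105) (nat_lit 3) (nat_lit 105) (nat_lit 1) (nat_lit 107) (nat_lit 1) (nat_lit 290) (nat_lit 361) (nat_lit 249)) (XT.nd (nat_lit 78) (nat_lit 152) (nat_lit 0) (XT.lf (nat_lit 76) (nat_lit 27941807202) (nat_lit 0) (nat_lit 27941892280) (nat_lit 76) (nat_lit 27941892280) (nat_lit 105) (nat_lit 3) (nat_lit 104) (nat_lit 1) (nat_lit 105) (nat_lit 1) (nat_lit 291) (nat_lit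 361) (nat_lit 248)) (XT.lf (nat_lit 152) (nat_lit 80180955205) (nat_lit 0) (nat_lit 22418) (nat_lit 76) (nat_lit 22418) (nat_lit 104) (nat_lit 1) (nat_lit 102) (nat_lit 1) (nat_lit 103) (nat_lit 1) (nat_lit 292) (nat_lit 361) (nat_lit 247))))) (XT.nd (nat_lit 234) (nat_lit 228) (nat_lit 0) (XT.nd (nat_lit 78) (nat_lit 228) (nat_lit 0) (XT.lf (nat_lit 0) (nat_lit 25454267040) (nat_lit 0) (nat_lit 25454322981) (nat_lit 152) (nat_lit 25454267040) (nat_lit 102) (nat_lit 3) (nat_lit 102) (nat_lit 1) (nat_lit 104) (nat_lit 1) (nat_lit 293) (nat_lit 361) (nat_lit 246)) (XT.nd (nat_lit 78) (nat_lit 152) (nat_lit 0) (XT.lf (nat_lit 76) (nat_lit 24297240161) (nat_lit 0) (nat_lit 24297288805) (nat_lit 76) (nat_lit 24297288805) (nat_lit 102) (nat_lit 3) (nat_lit 101) (nat_lit 1) (nat_lit 102) (nat_lit 1) (nat_lit 294) (nat_lit 361) (nat_lit 245)) (XT.lf (nat_lit 152) (nat_lit 69722582226) (nat_lit 0) (nat_lit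 12817) (nat_lit 76) (nat_lit 12817) (nat_lit 101) (nat_lit 1) (nat_lit 99) (nat_lit 1) (nat_lit 100) (nat_lit 1) (nat_lit 295) (nat_lit 361) (nat_lit 244)))) (XT.nd (nat_lit 78) (nat_lit 228) (nat_lit 0) (XT.lf (nat_lit 0) (nat_lit 22134150541) (nat_lit 0) (nat_lit 22134182525) (nat_lit 152) (nat_lit 22134150541) (nat_lit 99) (nat_lit 3) (nat_lit 99) (nat_lit 1) (nat_lit 101) (nat_lit 1) (nat_lit 296) (nat_lit 361) (nat_lit 243)) (XT.nd (nat_lit 78) (nat_lit 152) (nat_lit 0) (XT.lf (nat_lit 76) (nat_lit 21128044361) (nat_lit 0) (nat_lit 21128072174) (nat_lit 76) (nat_lit 21128072174) (nat_lit 99) (nat_lit 3) (nat_lit 98) (nat_lit 1) (nat_lit 99) (nat_lit 1) (nat_lit 297) (nat_lit 361) (nat_lit 242)) (XT.lf (nat_lit 152) (nat_lit 60628339507) (nat_lit 0) (nat_lit 7328) (nat_lit 76) (nat_lit 7328) (nat_lit 98) (nat_lit 1) (nat_lit 96) (nat_lit 1) (nat_lit 97) (nat_lit 1) (nat_lit 298) (nat_lit 361)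 (nat_lit 241)))))) (XT.nd (nat_lit 468) (nat_lit 456) (nat_lit 0) (XT.nd (nat_lit 234) (nat_lit 228) (nat_lit 0) (XT.nd (nat_lit 78) (nat_lit 228) (nat_lit 0) (XT.lf (nat_lit 0) (nat_lit 19247090451) (nat_lit 0) (nat_lit 19247108738) (nat_lit 152) (nat_lit 19247090451) (nat_lit 96) (nat_lit 3) (nat_lit 96) (nat_lit 1) (nat_lit 98) (nat_lit 1) (nat_lit 299) (nat_lit 361) (nat_lit 240)) (XT.nd (nat_lit 78) (nat_lit 152) (nat_lit 0) (XT.lf (nat_lit 76) (nat_lit 18372217884) (nat_lit 0) (nat_lit 18372233786) (nat_lit 76) (nat_lit 18372233786) (nat_lit 96) (nat_lit 3) (nat_lit 95) (nat_lit 1) (nat_lit 96) (nat_lit 1) (nat_lit 300) (nat_lit 361) (nat_lit 239)) (XT.lf (nat_lit 152) (nat_lit 52720299304) (nat_lit 0) (nat_lit 4190) (nat_lit 76) (nat_lit 4190) (nat_lit 95) (nat_lit 1) (nat_lit 93) (nat_lit 1) (nat_lit 94) (nat_lit 1) (nat_lit 301) (nat_lit 361) (nat_lit 238)))) (XT.nd (nat_lit 78) (nat_lit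 228) (nat_lit 0) (XT.lf (nat_lit 0) (nat_lit 16736602121) (nat_lit 0) (nat_lit 16736612577) (nat_lit 152) (nat_lit 16736602121) (nat_lit 93) (nat_lit 3) (nat_lit 93) (nat_lit 1) (nat_lit 95) (nat_lit 1) (nat_lit 302) (nat_lit 361) (nat_lit 237)) (XT.nd (nat_lit 78) (nat_lit 152) (nat_lit 0) (XT.lf (nat_lit 76) (nat_lit 15975844724) (nat_lit 0) (nat_lit 15975853816) (nat_lit 76) (nat_lit 15975853816) (nat_lit 93) (nat_lit 3) (nat_lit 92) (nat_lit 1) (nat_lit 93) (nat_lit 1) (nat_lit 303) (nat_lit 361) (nat_lit 236)) (XT.lf (nat_lit 152) (nat_lit 45843740858) (nat_lit 0) (nat_lit 2395) (nat_lit 76) (nat_lit 2395) (nat_lit 92) (nat_lit 1) (nat_lit 90) (nat_lit 1) (nat_lit 91) (nat_lit 1) (nat_lit 304) (nat_lit 361) (nat_lit 235))))) (XT.nd (nat_lit 234) (nat_lit 228) (nat_lit 0) (XT.nd (nat_lit 78) (nat_lit 228) (nat_lit 0) (XT.lf (nat_lit 0) (nat_lit 14553568050) (nat_lit 0) (nat_lit 14553574028)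 (nat_lit 152) (nat_lit 14553568050) (nat_lit 90) (nat_lit 3) (nat_lit 90) (nat_lit 1) (nat_lit 92) (nat_lit 1) (nat_lit 305) (nat_lit 361) (nat_lit 234)) (XT.nd (nat_lit 78) (nat_lit 152) (nat_lit 0) (XT.lf (nat_lit 76) (nat_lit 13892040654) (nat_lit 0) (nat_lit 13892045853) (nat_lit 76) (nat_lit 13892045853) (nat_lit 90) (nat_lit 3) (nat_lit 89) (nat_lit 1) (nat_lit 90) (nat_lit 1) (nat_lit 306) (nat_lit 361) (nat_lit 233)) (XT.lf (nat_lit 152) (nat_lit 39864123819) (nat_lit 0) (nat_lit 1369) (nat_lit 76) (nat_lit 1369) (nat_lit 89) (nat_lit 1) (nat_lit 87) (nat_lit 1) (nat_lit 88) (nat_lit 1) (nat_lit 307) (nat_lit 361) (nat_lit 232)))) (XT.nd (nat_lit 78) (nat_lit 228) (nat_lit 0) (XT.lf (nat_lit 0) (nat_lit 12655277130) (nat_lit 0) (nat_lit 12655280548) (nat_lit 152) (nat_lit 12655277130) (nat_lit 87) (nat_lit 3) (nat_lit 87) (nat_lit 1) (nat_lit 89) (nat_lit 1) (nat_lit 308) (nat_lit 361)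 (nat_lit 231)) (XT.nd (nat_lit 78) (nat_lit 152) (nat_lit 0) (XT.lf (nat_lit 76) (nat_lit 12080036360) (nat_lit 0) (nat_lit 12080039332) (nat_lit 76) (nat_lit 12080039332) (nat_lit 87) (nat_lit 3) (nat_lit 86) (nat_lit 1) (nat_lit 87) (nat_lit 1) (nat_lit 309) (nat_lit 361) (nat_lit 230)) (XT.lf (nat_lit 152) (nat_lit 34664456257) (nat_lit 0) (nat_lit 783) (nat_lit 76) (nat_lit 783) (nat_lit 86) (nat_lit 1) (nat_lit 84) (nat_lit 1) (nat_lit 85) (nat_lit 1) (nat_lit 310) (nat_lit 361) (nat_lit 229))))))))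
noncomputable def ec206 : XT := (XT.nd (nat_lit 1716) (nat_lit 1672) (nat_lit 0) (XT.nd (nat_lit 858) (nat_lit 836) (nat_lit 0) (XT.nd (nat_lit 390) (nat_lit 456) (nat_lit 0) (XT.nd (nat_lit 156) (nat_lit 228) (nat_lit 0) (XT.nd (nat_lit 78) (nat_lit 76) (nat_lit 0) (XT.lf (nat_lit 0) (nat_lit 11004589132) (nat_lit 0) (nat_lit 11004591086) (nat_lit 152) (nat_lit 11004589132) (nat_lit 84) (nat_lit 3) (nat_lit 84) (nat_lit 1) (nat_lit 86) (nat_lit 1) (nat_lit 311) (nat_lit 361) (nat_lit 228)) (XT.lf (nat_lit 76) (nat_lit 10504380020) (nat_lit 0) (nat_lit 10504381720) (nat_lit 76) (nat_lit 10504381720) (nat_lit 84) (nat_lit 3) (nat_lit 83) (nat_lit 1) (nat_lit 84) (nat_lit 1) (nat_lit 312) (nat_lit 361) (nat_lit 227))) (XT.nd (nat_lit 78) (nat_lit 76) (nat_lit 0) (XT.lf (nat_lit 152) (nat_lit 30143005877) (nat_lit 0) (nat_lit 447) (nat_lit 76) (nat_lit 447) (nat_lit 83) (nat_lit 1) (nat_lit 81) (nat_lit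 1) (nat_lit 82) (nat_lit 1) (nat_lit 313) (nat_lit 361) (nat_lit 226)) (XT.nd (nat_lit 78) (nat_lit 76) (nat_lit 0) (XT.lf (nat_lit 0) (nat_lit 9569208126) (nat_lit 0) (nat_lit 9569209243) (nat_lit 152) (nat_lit 9569208126) (nat_lit 81) (nat_lit 3) (nat_lit 81) (nat_lit 1) (nat_lit 83) (nat_lit 1) (nat_lit 314) (nat_lit 361) (nat_lit 225)) (XT.lf (nat_lit 76) (nat_lit 9134243826) (nat_lit 0) (nat_lit 9134244797) (nat_lit 76) (nat_lit 9134244797) (nat_lit 81) (nat_lit 3) (nat_lit 80) (nat_lit 1) (nat_lit 81) (nat_lit 1) (nat_lit 315) (nat_lit 361) (nat_lit 224))))) (XT.nd (nat_lit 234) (nat_lit 228) (nat_lit 0) (XT.nd (nat_lit 78) (nat_lit 76) (nat_lit 0) (XT.lf (nat_lit 152) (nat_lit 26211309708) (nat_lit 0) (nat_lit 256) (nat_lit 76) (nat_lit 256) (nat_lit 80) (nat_lit 1) (nat_lit 78) (nat_lit 1) (nat_lit 79) (nat_lit 1) (nat_lit 316) (nat_lit 361) (nat_lit 223)) (XT.nd (nat_lit 78) (nat_lit 76)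 (nat_lit 0) (XT.lf (nat_lit 0) (nat_lit 8321050650) (nat_lit 0) (nat_lit 8321051289) (nat_lit 152) (nat_lit 8321050650) (nat_lit 78) (nat_lit 3) (nat_lit 78) (nat_lit 1) (nat_lit 80) (nat_lit 1) (nat_lit 317) (nat_lit 361) (nat_lit 222)) (XT.lf (nat_lit 76) (nat_lit 7942820906) (nat_lit 0) (nat_lit 7942821462) (nat_lit 76) (nat_lit 7942821462) (nat_lit 78) (nat_lit 3) (nat_lit 77) (nat_lit 1) (nat_lit 78) (nat_lit 1) (nat_lit 318) (nat_lit 361) (nat_lit 221)))) (XT.nd (nat_lit 78) (nat_lit 76) (nat_lit 0) (XT.lf (nat_lit 152) (nat_lit 22792443367) (nat_lit 0) (nat_lit 146) (nat_lit 76) (nat_lit 146) (nat_lit 77) (nat_lit 1) (nat_lit 75) (nat_lit 1) (nat_lit 76) (nat_lit 1) (nat_lit 319) (nat_lit 361) (nat_lit 220)) (XT.nd (nat_lit 78) (nat_lit 76) (nat_lit 0) (XT.lf (nat_lit 0) (nat_lit 7235696277) (nat_lit 0) (nat_lit 7235696643) (nat_lit 152) (nat_lit 7235696277) (nat_lit 75) (nat_lit 3) (nat_lit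 75) (nat_lit 1) (nat_lit 77) (nat_lit 1) (nat_lit 320) (nat_lit 361) (nat_lit 219)) (XT.lf (nat_lit 76) (nat_lit 6906800896) (nat_lit 0) (nat_lit 6906801213) (nat_lit 76) (nat_lit 6906801213) (nat_lit 75) (nat_lit 3) (nat_lit 74) (nat_lit 1) (nat_lit 75) (nat_lit 1) (nat_lit 321) (nat_lit 361) (nat_lit 218)))))) (XT.nd (nat_lit 390) (nat_lit 456) (nat_lit 0) (XT.nd (nat_lit 156) (nat_lit 228) (nat_lit 0) (XT.nd (nat_lit 78) (nat_lit 0) (nat_lit 0) (XT.lf (nat_lit 152) (nat_lit 19819516052) (nat_lit 0) (nat_lit 83) (nat_lit 76) (nat_lit 83) (nat_lit 74) (nat_lit 1) (nat_lit 72) (nat_lit 1) (nat_lit 73) (nat_lit 1) (nat_lit 322) (nat_lit 361) (nat_lit 217)) (XT.lf (nat_lit 0) (nat_lit 6291909841) (nat_lit 0) (nat_lit 6291910050) (nat_lit 152) (nat_lit 6291909841) (nat_lit 72) (nat_lit 3) (nat_lit 72) (nat_lit 1) (nat_lit 74) (nat_lit 1) (nat_lit 323) (nat_lit 361) (nat_lit 216))) (XT.nd (nat_lit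 78) (nat_lit 152) (nat_lit 0) (XT.lf (nat_lit 76) (nat_lit 6005913884) (nat_lit 0) (nat_lit 6005914066) (nat_lit 76) (nat_lit 6005914066) (nat_lit 72) (nat_lit 3) (nat_lit 71) (nat_lit 1) (nat_lit 72) (nat_lit 1) (nat_lit 324) (nat_lit 361) (nat_lit 215)) (XT.nd (nat_lit 78) (nat_lit 0) (nat_lit 0) (XT.lf (nat_lit 152) (nat_lit 17234361831) (nat_lit 0) (nat_lit 47) (nat_lit 76) (nat_lit 47) (nat_lit 71) (nat_lit 1) (nat_lit 69) (nat_lit 1) (nat_lit 70) (nat_lit 1) (nat_lit 325) (nat_lit 361) (nat_lit 214)) (XT.lf (nat_lit 0) (nat_lit 5471225968) (nat_lit 0) (nat_lit 5471226088) (nat_lit 152) (nat_lit 5471225968) (nat_lit 69) (nat_lit 3) (nat_lit 69) (nat_lit 1) (nat_lit 71) (nat_lit 1) (nat_lit 326) (nat_lit 361) (nat_lit 213))))) (XT.nd (nat_lit 234) (nat_lit 228) (nat_lit 0) (XT.nd (nat_lit 78) (nat_lit 152) (nat_lit 0) (XT.lf (nat_lit 76) (nat_lit 5222533847) (nat_lit 0) (nat_lit 5222533951)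 (nat_lit 76) (nat_lit 5222533951) (nat_lit 69) (nat_lit 3) (nat_lit 68) (nat_lit 1) (nat_lit 69) (nat_lit 1) (nat_lit 327) (nat_lit 361) (nat_lit 212)) (XT.nd (nat_lit 78) (nat_lit 0) (nat_lit 0) (XT.lf (nat_lit 152) (nat_lit 14986401619) (nat_lit 0) (nat_lit 27) (nat_lit 76) (nat_lit 27) (nat_lit 68) (nat_lit 1) (nat_lit 66) (nat_lit 1) (nat_lit 67) (nat_lit 1) (nat_lit 328) (nat_lit 361) (nat_lit 211)) (XT.lf (nat_lit 0) (nat_lit 4757587810) (nat_lit 0) (nat_lit 4757587878) (nat_lit 152) (nat_lit 4757587810) (nat_lit 66) (nat_lit 3) (nat_lit 66) (nat_lit 1) (nat_lit 68) (nat_lit 1) (nat_lit 329) (nat_lit 361) (nat_lit 210)))) (XT.nd (nat_lit 78) (nat_lit 152) (nat_lit 0) (XT.lf (nat_lit 76) (nat_lit 4541333800) (nat_lit 0) (nat_lit 4541333860) (nat_lit 76) (nat_lit 4541333860) (nat_lit 66) (nat_lit 3) (nat_lit 65) (nat_lit 1) (nat_lit 66) (nat_lit 1) (nat_lit 330) (nat_lit 361) (nat_lit 209))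 (XT.nd (nat_lit 78) (nat_lit 0) (nat_lit 0) (XT.lf (nat_lit 152) (nat_lit 13031653597) (nat_lit 0) (nat_lit 15) (nat_lit 76) (nat_lit 15) (nat_lit 65) (nat_lit 1) (nat_lit 63) (nat_lit 1) (nat_lit 64) (nat_lit 1) (nat_lit 331) (nat_lit 361) (nat_lit 208)) (XT.lf (nat_lit 0) (nat_lit 4137032884) (nat_lit 0) (nat_lit 4137032923) (nat_lit 152) (nat_lit 4137032884) (nat_lit 63) (nat_lit 3) (nat_lit 63) (nat_lit 1) (nat_lit 65) (nat_lit 1) (nat_lit 332) (nat_lit 361) (nat_lit 207))))))) (XT.nd (nat_lit 858) (nat_lit 760) (nat_lit 0) (XT.nd (nat_lit 390) (nat_lit 456) (nat_lit 0) (XT.nd (nat_lit 156) (nat_lit 228) (nat_lit 0) (XT.nd (nat_lit 78) (nat_lit 152) (nat_lit 0) (XT.lf (nat_lit 76) (nat_lit 3948985925) (nat_lit 0) (nat_lit 3948985959) (nat_lit 76) (nat_lit 3948985959) (nat_lit 63) (nat_lit 3) (nat_lit 62) (nat_lit 1) (nat_lit 63) (nat_lit 1) (nat_lit 333) (nat_lit 361) (nat_lit 206)) (XT.lf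 (nat_lit 152) (nat_lit 11331872702) (nat_lit 0) (nat_lit 8) (nat_lit 76) (nat_lit 8) (nat_lit 62) (nat_lit 1) (nat_lit 60) (nat_lit 1) (nat_lit 61) (nat_lit 1) (nat_lit 334) (nat_lit 361) (nat_lit 205))) (XT.nd (nat_lit 78) (nat_lit 228) (nat_lit 0) (XT.lf (nat_lit 0) (nat_lit 3597419903) (nat_lit 0) (nat_lit 3597419925) (nat_lit 152) (nat_lit 3597419903) (nat_lit 60) (nat_lit 3) (nat_lit 60) (nat_lit 1) (nat_lit 62) (nat_lit 1) (nat_lit 335) (nat_lit 361) (nat_lit 204)) (XT.nd (nat_lit 78) (nat_lit 152) (nat_lit 0) (XT.lf (nat_lit 76) (nat_lit 3433900811) (nat_lit 0) (nat_lit 3433900830) (nat_lit 76) (nat_lit 3433900830) (nat_lit 60) (nat_lit 3) (nat_lit 59) (nat_lit 1) (nat_lit 60) (nat_lit 1) (nat_lit 336) (nat_lit 361) (nat_lit 203)) (XT.lf (nat_lit 152) (nat_lit 9853802354) (nat_lit 0) (nat_lit 5) (nat_lit 76) (nat_lit 5) (nat_lit 59) (nat_lit 1) (nat_lit 57) (nat_lit 1) (nat_lit 58) (nat_lit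 1) (nat_lit 337) (nat_lit 361) (nat_lit 202))))) (XT.nd (nat_lit 234) (nat_lit 228) (nat_lit 0) (XT.nd (nat_lit 78) (nat_lit 228) (nat_lit 0) (XT.lf (nat_lit 0) (nat_lit 3128191222) (nat_lit 0) (nat_lit 3128191235) (nat_lit 152) (nat_lit 3128191222) (nat_lit 57) (nat_lit 3) (nat_lit 57) (nat_lit 1) (nat_lit 59) (nat_lit 1) (nat_lit 338) (nat_lit 361) (nat_lit 201)) (XT.nd (nat_lit 78) (nat_lit 152) (nat_lit 0) (XT.lf (nat_lit 76) (nat_lit 2986000709) (nat_lit 0) (nat_lit 2986000720) (nat_lit 76) (nat_lit 2986000720) (nat_lit 57) (nat_lit 3) (nat_lit 56) (nat_lit 1) (nat_lit 57) (nat_lit 1) (nat_lit 339) (nat_lit 361) (nat_lit 200)) (XT.lf (nat_lit 152) (nat_lit 8568523789) (nat_lit 0) (nat_lit 2) (nat_lit 76) (nat_lit 2) (nat_lit 56) (nat_lit 1) (nat_lit 54) (nat_lit 1) (nat_lit 55) (nat_lit 1) (nat_lit 340) (nat_lit 361) (nat_lit 199)))) (XT.nd (nat_lit 78) (nat_lit 228) (nat_lit 0) (XT.lf (nat_lit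 0) (nat_lit 2720166281) (nat_lit 0) (nat_lit 2720166289) (nat_lit 152) (nat_lit 2720166281) (nat_lit 54) (nat_lit 3) (nat_lit 54) (nat_lit 1) (nat_lit 56) (nat_lit 1) (nat_lit 341) (nat_lit 361) (nat_lit 198)) (XT.nd (nat_lit 78) (nat_lit 152) (nat_lit 0) (XT.lf (nat_lit 76) (nat_lit 2596522357) (nat_lit 0) (nat_lit 2596522364) (nat_lit 76) (nat_lit 2596522364) (nat_lit 54) (nat_lit 3) (nat_lit 53) (nat_lit 1) (nat_lit 54) (nat_lit 1) (nat_lit 342) (nat_lit 361) (nat_lit 197)) (XT.lf (nat_lit 152) (nat_lit 7450890253) (nat_lit 0) (nat_lit 1) (nat_lit 76) (nat_lit 1) (nat_lit 53) (nat_lit 1) (nat_lit 51) (nat_lit 1) (nat_lit 52) (nat_lit 1) (nat_lit 343) (nat_lit 361) (nat_lit 196)))))) (XT.nd (nat_lit 390) (nat_lit 456) (nat_lit 0) (XT.nd (nat_lit 156) (nat_lit 228) (nat_lit 0) (XT.nd (nat_lit 78) (nat_lit 76) (nat_lit 0) (XT.lf (nat_lit 0) (nat_lit 2365361984) (nat_lit 0) (nat_lit 2365361989)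 (nat_lit 152) (nat_lit 2365361984) (nat_lit 51) (nat_lit 3) (nat_lit 51) (nat_lit 1) (nat_lit 53) (nat_lit 1) (nat_lit 344) (nat_lit 361) (nat_lit 195)) (XT.lf (nat_lit 76) (nat_lit 2257845529) (nat_lit 0) (nat_lit 2257845533) (nat_lit 76) (nat_lit 2257845533) (nat_lit 51) (nat_lit 3) (nat_lit 50) (nat_lit 1) (nat_lit 51) (nat_lit 1) (nat_lit 345) (nat_lit 361) (nat_lit 194))) (XT.nd (nat_lit 78) (nat_lit 228) (nat_lit 0) (XT.lf (nat_lit 0) (nat_lit 6479035003) (nat_lit 0) (nat_lit 0) (nat_lit 0) (nat_lit 0) (nat_lit 50) (nat_lit 1) (nat_lit 1) (nat_lit 0) (nat_lit 1) (nat_lit 0) (nat_lit 346) (nat_lit 361) (nat_lit 193)) (XT.nd (nat_lit 78) (nat_lit 76) (nat_lit 0) (XT.lf (nat_lit 0) (nat_lit 2056836508) (nat_lit 0) (nat_lit 2056836511) (nat_lit 152) (nat_lit 2056836508) (nat_lit 48) (nat_lit 3) (nat_lit 48) (nat_lit 1) (nat_lit 50) (nat_lit 1) (nat_lit 347) (nat_lit 361) (nat_lit 192)) (XT.lf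 (nat_lit 76) (nat_lit 1963343939) (nat_lit 0) (nat_lit 1963343941) (nat_lit 76) (nat_lit 1963343941) (nat_lit 48) (nat_lit 3) (nat_lit 47) (nat_lit 1) (nat_lit 48) (nat_lit 1) (nat_lit 348) (nat_lit 361) (nat_lit 191))))) (XT.nd (nat_lit 234) (nat_lit 228) (nat_lit 0) (XT.nd (nat_lit 78) (nat_lit 228) (nat_lit 0) (XT.lf (nat_lit 0) (nat_lit 5633943482) (nat_lit 0) (nat_lit 0) (nat_lit 0) (nat_lit 0) (nat_lit 47) (nat_lit 1) (nat_lit 1) (nat_lit 0) (nat_lit 1) (nat_lit 0) (nat_lit 349) (nat_lit 361) (nat_lit 190)) (XT.nd (nat_lit 78) (nat_lit 76) (nat_lit 0) (XT.lf (nat_lit 0) (nat_lit 1788553486) (nat_lit 0) (nat_lit 1788553487) (nat_lit 152) (nat_lit 1788553486) (nat_lit 45) (nat_lit 3) (nat_lit 45) (nat_lit 1) (nat_lit 47) (nat_lit 1) (nat_lit 350) (nat_lit 361) (nat_lit 189)) (XT.lf (nat_lit 76) (nat_lit 1707255600) (nat_lit 0) (nat_lit 1707255601) (nat_lit 76) (nat_lit 1707255601) (nat_lit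 45) (nat_lit 3) (nat_lit 44) (nat_lit 1) (nat_lit 45) (nat_lit 1) (nat_lit 351) (nat_lit 361) (nat_lit 188)))) (XT.nd (nat_lit 78) (nat_lit 228) (nat_lit 0) (XT.lf (nat_lit 0) (nat_lit 4899081289) (nat_lit 0) (nat_lit 0) (nat_lit 0) (nat_lit 0) (nat_lit 44) (nat_lit 1) (nat_lit 1) (nat_lit 0) (nat_lit 1) (nat_lit 0) (nat_lit 352) (nat_lit 361) (nat_lit 187)) (XT.nd (nat_lit 78) (nat_lit 76) (nat_lit 0) (XT.lf (nat_lit 0) (nat_lit 1555263901) (nat_lit 0) (nat_lit 1555263902) (nat_lit 152) (nat_lit 1555263901) (nat_lit 42) (nat_lit 3) (nat_lit 42) (nat_lit 1) (nat_lit 44) (nat_lit 1) (nat_lit 353) (nat_lit 361) (nat_lit 186)) (XT.lf (nat_lit 76) (nat_lit 1484570087) (nat_lit 0) (nat_lit 1484570088) (nat_lit 76) (nat_lit 1484570088) (nat_lit 42) (nat_lit 3) (nat_lit 41) (nat_lit 1) (nat_lit 42) (nat_lit 1) (nat_lit 354) (nat_lit 361) (nat_lit 185))))))))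
noncomputable def ec207 : XT := (XT.nd (nat_lit 33306) (nat_lit 0) (nat_lit 12540) (XT.nd (nat_lit 858) (nat_lit 456) (nat_lit 0) (XT.nd (nat_lit 390) (nat_lit 456) (nat_lit 0) (XT.nd (nat_lit 156) (nat_lit 228) (nat_lit 0) (XT.nd (nat_lit 78) (nat_lit 152) (nat_lit 0) (XT.lf (nat_lit 0) (nat_lit 4260070686) (nat_lit 0) (nat_lit 0) (nat_lit 0) (nat_lit 0) (nat_lit 41) (nat_lit 1) (nat_lit 1) (nat_lit 0) (nat_lit 1) (nat_lit 0) (nat_lit 355) (nat_lit 361) (nat_lit 184)) (XT.lf (nat_lit 0) (nat_lit 1352403392) (nat_lit 0) (nat_lit 1352403392) (nat_lit 152) (nat_lit 1352403392) (nat_lit 39) (nat_lit 3) (nat_lit 39) (nat_lit 1) (nat_lit 41) (nat_lit 1) (nat_lit 356) (nat_lit 361) (nat_lit 183))) (XT.nd (nat_lit 78) (nat_lit 152) (nat_lit 0) (XT.lf (nat_lit 76) (nat_lit 1290930510) (nat_lit 0) (nat_lit 1290930511) (nat_lit 76) (nat_lit 1290930511) (nat_lit 39) (nat_lit 3) (nat_lit 38) (nat_lit 1) (nat_lit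 39) (nat_lit 1) (nat_lit 357) (nat_lit 361) (nat_lit 182)) (XT.nd (nat_lit 78) (nat_lit 152) (nat_lit 0) (XT.lf (nat_lit 0) (nat_lit 3704409292) (nat_lit 0) (nat_lit 0) (nat_lit 0) (nat_lit 0) (nat_lit 38) (nat_lit 1) (nat_lit 1) (nat_lit 0) (nat_lit 1) (nat_lit 0) (nat_lit 358) (nat_lit 361) (nat_lit 181)) (XT.lf (nat_lit 0) (nat_lit 1176002950) (nat_lit 0) (nat_lit 1176002950) (nat_lit 152) (nat_lit 1176002950) (nat_lit 36) (nat_lit 3) (nat_lit 36) (nat_lit 1) (nat_lit 38) (nat_lit 1) (nat_lit 359) (nat_lit 361) (nat_lit 180))))) (XT.nd (nat_lit 234) (nat_lit 228) (nat_lit 0) (XT.nd (nat_lit 78) (nat_lit 152) (nat_lit 0) (XT.lf (nat_lit 76) (nat_lit 1122548270) (nat_lit 0) (nat_lit 1122548270) (nat_lit 76) (nat_lit 1122548270) (nat_lit 36) (nat_lit 3) (nat_lit 35) (nat_lit 1) (nat_lit 36) (nat_lit 1) (nat_lit 360) (nat_lit 361) (nat_lit 179)) (XT.nd (nat_lit 78) (nat_lit 152) (nat_lit 0) (XT.lf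 (nat_lit 0) (nat_lit 3221225471) (nat_lit 0) (nat_lit 0) (nat_lit 0) (nat_lit 0) (nat_lit 35) (nat_lit 1) (nat_lit 1) (nat_lit 0) (nat_lit 1) (nat_lit 0) (nat_lit 361) (nat_lit 361) (nat_lit 178)) (XT.lf (nat_lit 0) (nat_lit 1022611260) (nat_lit 0) (nat_lit 1022611261) (nat_lit 152) (nat_lit 1022611260) (nat_lit 33) (nat_lit 3) (nat_lit 33) (nat_lit 1) (nat_lit 35) (nat_lit 1) (nat_lit 362) (nat_lit 361) (nat_lit 177)))) (XT.nd (nat_lit 78) (nat_lit 152) (nat_lit 0) (XT.lf (nat_lit 76) (nat_lit 976128930) (nat_lit 0) (nat_lit 976128930) (nat_lit 76) (nat_lit 976128930) (nat_lit 33) (nat_lit 3) (nat_lit 32) (nat_lit 1) (nat_lit 33) (nat_lit 1) (nat_lit 363) (nat_lit 361) (nat_lit 176)) (XT.nd (nat_lit 78) (nat_lit 152) (nat_lit 0) (XT.lf (nat_lit 0) (nat_lit 2801065627) (nat_lit 0) (nat_lit 0) (nat_lit 0) (nat_lit 0) (nat_lit 32) (nat_lit 1) (nat_lit 1) (nat_lit 0) (nat_lit 1) (nat_lit 0) (nat_lit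 364) (nat_lit 361) (nat_lit 175)) (XT.lf (nat_lit 0) (nat_lit 889227183) (nat_lit 0) (nat_lit 889227183) (nat_lit 152) (nat_lit 889227183) (nat_lit 30) (nat_lit 3) (nat_lit 30) (nat_lit 1) (nat_lit 32) (nat_lit 1) (nat_lit 365) (nat_lit 361) (nat_lit 174)))))) (XT.nd (nat_lit 390) (nat_lit 152) (nat_lit 0) (XT.nd (nat_lit 156) (nat_lit 228) (nat_lit 0) (XT.nd (nat_lit 78) (nat_lit 0) (nat_lit 0) (XT.lf (nat_lit 76) (nat_lit 848807765) (nat_lit 0) (nat_lit 848807766) (nat_lit 76) (nat_lit 848807766) (nat_lit 30) (nat_lit 3) (nat_lit 29) (nat_lit 1) (nat_lit 30) (nat_lit 1) (nat_lit 366) (nat_lit 361) (nat_lit 173)) (XT.lf (nat_lit 0) (nat_lit 2435709241) (nat_lit 0) (nat_lit 0) (nat_lit 0) (nat_lit 0) (nat_lit 29) (nat_lit 1) (nat_lit 1) (nat_lit 0) (nat_lit 1) (nat_lit 0) (nat_lit 367) (nat_lit 361) (nat_lit 172))) (XT.nd (nat_lit 78) (nat_lit 76) (nat_lit 0) (XT.lf (nat_lit 0) (nat_lit 773241029)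 (nat_lit 0) (nat_lit 773241029) (nat_lit 152) (nat_lit 773241029) (nat_lit 27) (nat_lit 3) (nat_lit 27) (nat_lit 1) (nat_lit 29) (nat_lit 1) (nat_lit 368) (nat_lit 361) (nat_lit 171)) (XT.nd (nat_lit 78) (nat_lit 0) (nat_lit 0) (XT.lf (nat_lit 76) (nat_lit 738093709) (nat_lit 0) (nat_lit 738093709) (nat_lit 76) (nat_lit 738093709) (nat_lit 27) (nat_lit 3) (nat_lit 26) (nat_lit 1) (nat_lit 27) (nat_lit 1) (nat_lit 369) (nat_lit 361) (nat_lit 170)) (XT.lf (nat_lit 0) (nat_lit 2118008036) (nat_lit 0) (nat_lit 0) (nat_lit 0) (nat_lit 0) (nat_lit 26) (nat_lit 1) (nat_lit 1) (nat_lit 0) (nat_lit 1) (nat_lit 0) (nat_lit 370) (nat_lit 361) (nat_lit 169))))) (XT.nd (nat_lit 31824) (nat_lit 0) (nat_lit 14592) (XT.nd (nat_lit 31668) (nat_lit 0) (nat_lit 14516) (XT.lf (nat_lit 0) (nat_lit 672383503) (nat_lit 0) (nat_lit 672383503) (nat_lit 152) (nat_lit 672383503) (nat_lit 24) (nat_lit 3) (nat_lit 24) (nat_lit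 1) (nat_lit 26) (nat_lit 1) (nat_lit 371) (nat_lit 361) (nat_lit 168)) (XT.nd (nat_lit 78) (nat_lit 0) (nat_lit 0) (XT.lf (nat_lit 380) (nat_lit 4068089883683) (nat_lit 0) (nat_lit 3603207331654) (nat_lit 380) (nat_lit 4068089883683) (nat_lit 220) (nat_lit 1) (nat_lit 215) (nat_lit 0) (nat_lit 220) (nat_lit 0) (nat_lit 176) (nat_lit 362) (nat_lit 362)) (XT.lf (nat_lit 380) (nat_lit 15047336544074) (nat_lit 76) (nat_lit 3439425180216) (nat_lit 0) (nat_lit 3439425180215) (nat_lit 220) (nat_lit 1) (nat_lit 216) (nat_lit 1) (nat_lit 215) (nat_lit 0) (nat_lit 177) (nat_lit 362) (nat_lit 361)))) (XT.nd (nat_lit 78) (nat_lit 0) (nat_lit 0) (XT.lf (nat_lit 380) (nat_lit 6632779662729) (nat_lit 0) (nat_lit 7217089953957) (nat_lit 304) (nat_lit 6632779662729) (nat_lit 221) (nat_lit 1) (nat_lit 216) (nat_lit 1) (nat_lit 220) (nat_lit 1) (nat_lit 178) (nat_lit 362) (nat_lit 360)) (XT.nd (nat_lit 78) (nat_lit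 0) (nat_lit 76) (XT.lf (nat_lit 380) (nat_lit 11388138287649) (nat_lit 76) (nat_lit 3898235906060) (nat_lit 0) (nat_lit 3898235906060) (nat_lit 221) (nat_lit 1) (nat_lit 217) (nat_lit 1) (nat_lit 216) (nat_lit 1) (nat_lit 179) (nat_lit 362) (nat_lit 359)) (XT.lf (nat_lit 76) (nat_lit 4606652977679) (nat_lit 0) (nat_lit 8771840644794) (nat_lit 304) (nat_lit 4606652977679) (nat_lit 218) (nat_lit 1) (nat_lit 217) (nat_lit 1) (nat_lit 221) (nat_lit 1) (nat_lit 180) (nat_lit 362) (nat_lit 358))))))) (XT.nd (nat_lit 858) (nat_lit 912) (nat_lit 0) (XT.nd (nat_lit 390) (nat_lit 532) (nat_lit 0) (XT.nd (nat_lit 156) (nat_lit 380) (nat_lit 0) (XT.nd (nat_lit 78) (nat_lit 0) (nat_lit 0) (XT.lf (nat_lit 380) (nat_lit 6923427376233) (nat_lit 0) (nat_lit 4983350262389) (nat_lit 304) (nat_lit 4983350262389) (nat_lit 218) (nat_lit 1) (nat_lit 213) (nat_lit 1) (nat_lit 217) (nat_lit 1) (nat_lit 181) (nat_lit 362)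 (nat_lit 357)) (XT.lf (nat_lit 76) (nat_lit 2301270796929) (nat_lit 0) (nat_lit 11292393479475) (nat_lit 380) (nat_lit 2301270796929) (nat_lit 214) (nat_lit 1) (nat_lit 213) (nat_lit 1) (nat_lit 218) (nat_lit 1) (nat_lit 182) (nat_lit 362) (nat_lit 356))) (XT.nd (nat_lit 78) (nat_lit 228) (nat_lit 0) (XT.lf (nat_lit 228) (nat_lit 2071089431266) (nat_lit 0) (nat_lit 6445754812520) (nat_lit 152) (nat_lit 6445754812519) (nat_lit 214) (nat_lit 1) (nat_lit 211) (nat_lit 1) (nat_lit 213) (nat_lit 1) (nat_lit 183) (nat_lit 362) (nat_lit 355)) (XT.nd (nat_lit 78) (nat_lit 0) (nat_lit 0) (XT.lf (nat_lit 228) (nat_lit 13917694918275) (nat_lit 0) (nat_lit 109198389235) (nat_lit 152) (nat_lit 109198389235) (nat_lit 211) (nat_lit 1) (nat_lit 208) (nat_lit 1) (nat_lit 210) (nat_lit 1) (nat_lit 184) (nat_lit 362) (nat_lit 354)) (XT.lf (nat_lit 76) (nat_lit 5347267346339) (nat_lit 0) (nat_lit 2625223633957) (nat_lit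 228) (nat_lit 5347267346339) (nat_lit 209) (nat_lit 1) (nat_lit 208) (nat_lit 1) (nat_lit 211) (nat_lit 1) (nat_lit 185) (nat_lit 362) (nat_lit 353))))) (XT.nd (nat_lit 234) (nat_lit 304) (nat_lit 0) (XT.nd (nat_lit 78) (nat_lit 76) (nat_lit 0) (XT.lf (nat_lit 228) (nat_lit 7772458323421) (nat_lit 0) (nat_lit 2410940165884) (nat_lit 152) (nat_lit 2410940165884) (nat_lit 209) (nat_lit 1) (nat_lit 206) (nat_lit 1) (nat_lit 208) (nat_lit 1) (nat_lit 186) (nat_lit 362) (nat_lit 352)) (XT.nd (nat_lit 78) (nat_lit 76) (nat_lit 0) (XT.lf (nat_lit 76) (nat_lit 2430702643567) (nat_lit 0) (nat_lit 7053857515100) (nat_lit 228) (nat_lit 2430702643567) (nat_lit 207) (nat_lit 1) (nat_lit 206) (nat_lit 1) (nat_lit 209) (nat_lit 1) (nat_lit 187) (nat_lit 362) (nat_lit 351)) (XT.lf (nat_lit 152) (nat_lit 2009424933748) (nat_lit 0) (nat_lit 4636757918586) (nat_lit 76) (nat_lit 4636757918586) (nat_lit 207) (nat_lit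 1) (nat_lit 205) (nat_lit 1) (nat_lit 206) (nat_lit 1) (nat_lit 188) (nat_lit 362) (nat_lit 350)))) (XT.nd (nat_lit 78) (nat_lit 76) (nat_lit 0) (XT.lf (nat_lit 228) (nat_lit 10172890202376) (nat_lit 0) (nat_lit 270253240017) (nat_lit 152) (nat_lit 270253240017) (nat_lit 205) (nat_lit 1) (nat_lit 202) (nat_lit 1) (nat_lit 204) (nat_lit 1) (nat_lit 189) (nat_lit 362) (nat_lit 349)) (XT.nd (nat_lit 78) (nat_lit 76) (nat_lit 0) (XT.lf (nat_lit 76) (nat_lit 3560292777747) (nat_lit 0) (nat_lit 3023516787644) (nat_lit 228) (nat_lit 3560292777747) (nat_lit 203) (nat_lit 1) (nat_lit 202) (nat_lit 1) (nat_lit 205) (nat_lit 1) (nat_lit 190) (nat_lit 362) (nat_lit 348)) (XT.lf (nat_lit 152) (nat_lit 4328975020427) (nat_lit 0) (nat_lit 2651081388980) (nat_lit 76) (nat_lit 2651081388980) (nat_lit 203) (nat_lit 1) (nat_lit 201) (nat_lit 1) (nat_lit 202) (nat_lit 1) (nat_lit 191) (nat_lit 362) (nat_lit 347))))))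 (XT.nd (nat_lit 468) (nat_lit 456) (nat_lit 0) (XT.nd (nat_lit 234) (nat_lit 228) (nat_lit 0) (XT.nd (nat_lit 78) (nat_lit 228) (nat_lit 0) (XT.lf (nat_lit 0) (nat_lit 847672965495) (nat_lit 0) (nat_lit 7462847697924) (nat_lit 152) (nat_lit 847672965495) (nat_lit 201) (nat_lit 3) (nat_lit 201) (nat_lit 1) (nat_lit 203) (nat_lit 1) (nat_lit 192) (nat_lit 362) (nat_lit 346)) (XT.nd (nat_lit 78) (nat_lit 76) (nat_lit 0) (XT.lf (nat_lit 76) (nat_lit 3923026909387) (nat_lit 0) (nat_lit 850836718557) (nat_lit 152) (nat_lit 3923026909387) (nat_lit 200) (nat_lit 1) (nat_lit 199) (nat_lit 1) (nat_lit 201) (nat_lit 1) (nat_lit 193) (nat_lit 362) (nat_lit 345)) (XT.lf (nat_lit 152) (nat_lit 5240392294352) (nat_lit 0) (nat_lit 1515764388481) (nat_lit 76) (nat_lit 1515764388481) (nat_lit 200) (nat_lit 1) (nat_lit 198) (nat_lit 1) (nat_lit 199) (nat_lit 1) (nat_lit 194) (nat_lit 362) (nat_lit 344)))) (XT.nd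 (nat_lit 78) (nat_lit 228) (nat_lit 0) (XT.lf (nat_lit 0) (nat_lit 1362528587106) (nat_lit 0) (nat_lit 5144776210537) (nat_lit 152) (nat_lit 1362528587106) (nat_lit 198) (nat_lit 3) (nat_lit 198) (nat_lit 1) (nat_lit 200) (nat_lit 1) (nat_lit 195) (nat_lit 362) (nat_lit 343)) (XT.nd (nat_lit 78) (nat_lit 152) (nat_lit 0) (XT.lf (nat_lit 76) (nat_lit 303955779542) (nat_lit 0) (nat_lit 3592866756438) (nat_lit 76) (nat_lit 3592866756438) (nat_lit 198) (nat_lit 3) (nat_lit 197) (nat_lit 1) (nat_lit 198) (nat_lit 1) (nat_lit 196) (nat_lit 362) (nat_lit 342)) (XT.lf (nat_lit 152) (nat_lit 5400808499287) (nat_lit 0) (nat_lit 866643208668) (nat_lit 76) (nat_lit 866643208668) (nat_lit 197) (nat_lit 1) (nat_lit 195) (nat_lit 1) (nat_lit 196) (nat_lit 1) (nat_lit 197) (nat_lit 362) (nat_lit 341))))) (XT.nd (nat_lit 234) (nat_lit 228) (nat_lit 0) (XT.nd (nat_lit 78) (nat_lit 228) (nat_lit 0) (XT.lf (nat_lit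 0) (nat_lit 1542394331355) (nat_lit 0) (nat_lit 3704906685688) (nat_lit 152) (nat_lit 1542394331355) (nat_lit 195) (nat_lit 3) (nat_lit 195) (nat_lit 1) (nat_lit 197) (nat_lit 1) (nat_lit 198) (nat_lit 362) (nat_lit 340)) (XT.nd (nat_lit 78) (nat_lit 152) (nat_lit 0) (XT.lf (nat_lit 76) (nat_lit 902453520685) (nat_lit 0) (nat_lit 2782899046192) (nat_lit 76) (nat_lit 2782899046192) (nat_lit 195) (nat_lit 3) (nat_lit 194) (nat_lit 1) (nat_lit 195) (nat_lit 1) (nat_lit 199) (nat_lit 362) (nat_lit 339)) (XT.lf (nat_lit 152) (nat_lit 5178883872476) (nat_lit 0) (nat_lit 495506067327) (nat_lit 76) (nat_lit 495506067327) (nat_lit 194) (nat_lit 1) (nat_lit 192) (nat_lit 1) (nat_lit 193) (nat_lit 1) (nat_lit 200) (nat_lit 362) (nat_lit 338)))) (XT.nd (nat_lit 78) (nat_lit 228) (nat_lit 0) (XT.lf (nat_lit 0) (nat_lit 1545663912296) (nat_lit 0) (nat_lit 2782087369521) (nat_lit 152) (nat_lit 1545663912296)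 (nat_lit 192) (nat_lit 3) (nat_lit 192) (nat_lit 1) (nat_lit 194) (nat_lit 1) (nat_lit 201) (nat_lit 362) (nat_lit 337)) (XT.nd (nat_lit 78) (nat_lit 152) (nat_lit 0) (XT.lf (nat_lit 76) (nat_lit 1149603179201) (nat_lit 0) (nat_lit 2224754011570) (nat_lit 76) (nat_lit 2224754011570) (nat_lit 192) (nat_lit 3) (nat_lit 191) (nat_lit 1) (nat_lit 192) (nat_lit 1) (nat_lit 202) (nat_lit 362) (nat_lit 336)) (XT.lf (nat_lit 152) (nat_lit 4779264605405) (nat_lit 0) (nat_lit 283307202205) (nat_lit 76) (nat_lit 283307202205) (nat_lit 191) (nat_lit 1) (nat_lit 189) (nat_lit 1) (nat_lit 190) (nat_lit 1) (nat_lit 203) (nat_lit 362) (nat_lit 335))))))))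
noncomputable def ec208 : XT := (XT.nd (nat_lit 1716) (nat_lit 1672) (nat_lit 0) (XT.nd (nat_lit 858) (nat_lit 836) (nat_lit 0) (XT.nd (nat_lit 390) (nat_lit 456) (nat_lit 0) (XT.nd (nat_lit 156) (nat_lit 228) (nat_lit 0) (XT.nd (nat_lit 78) (nat_lit 76) (nat_lit 0) (XT.lf (nat_lit 0) (nat_lit 1460951356155) (nat_lit 0) (nat_lit 2167880480751) (nat_lit 152) (nat_lit 1460951356155) (nat_lit 189) (nat_lit 3) (nat_lit 189) (nat_lit 1) (nat_lit 191) (nat_lit 1) (nat_lit 204) (nat_lit 362) (nat_lit 334)) (XT.lf (nat_lit 76) (nat_lit 1208265392115) (nat_lit 0) (nat_lit 1822986370024) (nat_lit 76) (nat_lit 1822986370024) (nat_lit 189) (nat_lit 3) (nat_lit 188) (nat_lit 1) (nat_lit 189) (nat_lit 1) (nat_lit 205) (nat_lit 362) (nat_lit 333))) (XT.nd (nat_lit 78) (nat_lit 76) (nat_lit 0) (XT.lf (nat_lit 152) (nat_lit 4313621739051) (nat_lit 0) (nat_lit 161981812360) (nat_lit 76) (nat_lit 161981812360) (nat_lit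 188) (nat_lit 1) (nat_lit 186) (nat_lit 1) (nat_lit 187) (nat_lit 1) (nat_lit 206) (nat_lit 362) (nat_lit 332)) (XT.nd (nat_lit 78) (nat_lit 76) (nat_lit 0) (XT.lf (nat_lit 0) (nat_lit 1337228025365) (nat_lit 0) (nat_lit 1741417046756) (nat_lit 152) (nat_lit 1337228025364) (nat_lit 186) (nat_lit 3) (nat_lit 186) (nat_lit 1) (nat_lit 188) (nat_lit 1) (nat_lit 207) (nat_lit 362) (nat_lit 331)) (XT.lf (nat_lit 76) (nat_lit 1169939262316) (nat_lit 0) (nat_lit 1521407976570) (nat_lit 76) (nat_lit 1521407976570) (nat_lit 186) (nat_lit 3) (nat_lit 185) (nat_lit 1) (nat_lit 186) (nat_lit 1) (nat_lit 208) (nat_lit 362) (nat_lit 330))))) (XT.nd (nat_lit 234) (nat_lit 228) (nat_lit 0) (XT.nd (nat_lit 78) (nat_lit 76) (nat_lit 0) (XT.lf (nat_lit 152) (nat_lit 3841163481183) (nat_lit 0) (nat_lit 92613626944) (nat_lit 76) (nat_lit 92613626944) (nat_lit 185) (nat_lit 1) (nat_lit 183) (nat_lit 1) (nat_lit 184)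 (nat_lit 1) (nat_lit 209) (nat_lit 362) (nat_lit 329)) (XT.nd (nat_lit 78) (nat_lit 76) (nat_lit 0) (XT.lf (nat_lit 0) (nat_lit 1201020416495) (nat_lit 0) (nat_lit 1432116801309) (nat_lit 152) (nat_lit 1201020416495) (nat_lit 183) (nat_lit 3) (nat_lit 183) (nat_lit 1) (nat_lit 185) (nat_lit 1) (nat_lit 210) (nat_lit 362) (nat_lit 328)) (XT.lf (nat_lit 76) (nat_lit 1085533616321) (nat_lit 0) (nat_lit 1286486994420) (nat_lit 76) (nat_lit 1286486994420) (nat_lit 183) (nat_lit 3) (nat_lit 182) (nat_lit 1) (nat_lit 183) (nat_lit 1) (nat_lit 211) (nat_lit 362) (nat_lit 327)))) (XT.nd (nat_lit 78) (nat_lit 76) (nat_lit 0) (XT.lf (nat_lit 152) (nat_lit 3391707471237) (nat_lit 0) (nat_lit 52952141791) (nat_lit 76) (nat_lit 52952141791) (nat_lit 182) (nat_lit 1) (nat_lit 180) (nat_lit 1) (nat_lit 181) (nat_lit 1) (nat_lit 212) (nat_lit 362) (nat_lit 326)) (XT.nd (nat_lit 78) (nat_lit 76) (nat_lit 0) (XT.lf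 (nat_lit 0) (nat_lit 1066214236716) (nat_lit 0) (nat_lit 1198344344778) (nat_lit 152) (nat_lit 1066214236716) (nat_lit 180) (nat_lit 3) (nat_lit 180) (nat_lit 1) (nat_lit 182) (nat_lit 1) (nat_lit 213) (nat_lit 362) (nat_lit 325)) (XT.lf (nat_lit 76) (nat_lit 982933060458) (nat_lit 0) (nat_lit 1097828806599) (nat_lit 76) (nat_lit 1097828806599) (nat_lit 180) (nat_lit 3) (nat_lit 179) (nat_lit 1) (nat_lit 180) (nat_lit 1) (nat_lit 214) (nat_lit 362) (nat_lit 324)))))) (XT.nd (nat_lit 390) (nat_lit 456) (nat_lit 0) (XT.nd (nat_lit 156) (nat_lit 228) (nat_lit 0) (XT.nd (nat_lit 78) (nat_lit 0) (nat_lit 0) (XT.lf (nat_lit 152) (nat_lit 2978793480014) (nat_lit 0) (nat_lit 30275558930) (nat_lit 76) (nat_lit 30275558930) (nat_lit 179) (nat_lit 1) (nat_lit 177) (nat_lit 1) (nat_lit 178) (nat_lit 1) (nat_lit 215) (nat_lit 362) (nat_lit 323)) (XT.lf (nat_lit 0) (nat_lit 939634855175) (nat_lit 0) (nat_lit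 1015180673300) (nat_lit 152) (nat_lit 939634855175) (nat_lit 177) (nat_lit 3) (nat_lit 177) (nat_lit 1) (nat_lit 179) (nat_lit 1) (nat_lit 216) (nat_lit 362) (nat_lit 322))) (XT.nd (nat_lit 78) (nat_lit 152) (nat_lit 0) (XT.lf (nat_lit 76) (nat_lit 877017508497) (nat_lit 0) (nat_lit 942709524258) (nat_lit 76) (nat_lit 942709524258) (nat_lit 177) (nat_lit 3) (nat_lit 176) (nat_lit 1) (nat_lit 177) (nat_lit 1) (nat_lit 217) (nat_lit 362) (nat_lit 321)) (XT.nd (nat_lit 78) (nat_lit 0) (nat_lit 0) (XT.lf (nat_lit 152) (nat_lit 2607111992526) (nat_lit 0) (nat_lit 17310149080) (nat_lit 76) (nat_lit 17310149080) (nat_lit 176) (nat_lit 1) (nat_lit 174) (nat_lit 1) (nat_lit 175) (nat_lit 1) (nat_lit 218) (nat_lit 362) (nat_lit 320)) (XT.lf (nat_lit 0) (nat_lit 824216151889) (nat_lit 0) (nat_lit 867409718593) (nat_lit 152) (nat_lit 824216151889) (nat_lit 174) (nat_lit 3) (nat_lit 174) (nat_lit 1) (nat_lit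 176) (nat_lit 1) (nat_lit 219) (nat_lit 362) (nat_lit 319))))) (XT.nd (nat_lit 234) (nat_lit 228) (nat_lit 0) (XT.nd (nat_lit 78) (nat_lit 152) (nat_lit 0) (XT.lf (nat_lit 76) (nat_lit 775370077342) (nat_lit 0) (nat_lit 812929700563) (nat_lit 76) (nat_lit 812929700563) (nat_lit 174) (nat_lit 3) (nat_lit 173) (nat_lit 1) (nat_lit 174) (nat_lit 1) (nat_lit 220) (nat_lit 362) (nat_lit 318)) (XT.nd (nat_lit 78) (nat_lit 0) (nat_lit 0) (XT.lf (nat_lit 152) (nat_lit 2276691832374) (nat_lit 0) (nat_lit 9897133918) (nat_lit 76) (nat_lit 9897133918) (nat_lit 173) (nat_lit 1) (nat_lit 171) (nat_lit 1) (nat_lit 172) (nat_lit 1) (nat_lit 221) (nat_lit 362) (nat_lit 317)) (XT.lf (nat_lit 0) (nat_lit 720793367539) (nat_lit 0) (nat_lit 745489429490) (nat_lit 152) (nat_lit 720793367539) (nat_lit 171) (nat_lit 3) (nat_lit 171) (nat_lit 1) (nat_lit 173) (nat_lit 1) (nat_lit 222) (nat_lit 362) (nat_lit 316)))) (XT.nd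 (nat_lit 78) (nat_lit 152) (nat_lit 0) (XT.lf (nat_lit 76) (nat_lit 681522506445) (nat_lit 0) (nat_lit 702997342924) (nat_lit 76) (nat_lit 702997342924) (nat_lit 171) (nat_lit 3) (nat_lit 170) (nat_lit 1) (nat_lit 171) (nat_lit 1) (nat_lit 223) (nat_lit 362) (nat_lit 315)) (XT.nd (nat_lit 78) (nat_lit 0) (nat_lit 0) (XT.lf (nat_lit 152) (nat_lit 1985242543525) (nat_lit 0) (nat_lit 5658718440) (nat_lit 76) (nat_lit 5658718439) (nat_lit 170) (nat_lit 1) (nat_lit 168) (nat_lit 1) (nat_lit 169) (nat_lit 1) (nat_lit 224) (nat_lit 362) (nat_lit 314)) (XT.lf (nat_lit 0) (nat_lit 629111693054) (nat_lit 0) (nat_lit 643231746628) (nat_lit 152) (nat_lit 629111693054) (nat_lit 168) (nat_lit 3) (nat_lit 168) (nat_lit 1) (nat_lit 170) (nat_lit 1) (nat_lit 225) (nat_lit 362) (nat_lit 313))))))) (XT.nd (nat_lit 858) (nat_lit 760) (nat_lit 0) (XT.nd (nat_lit 390) (nat_lit 456) (nat_lit 0) (XT.nd (nat_lit 156) (nat_lit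 228) (nat_lit 0) (XT.nd (nat_lit 78) (nat_lit 152) (nat_lit 0) (XT.lf (nat_lit 76) (nat_lit 596795007777) (nat_lit 0) (nat_lit 609073315233) (nat_lit 76) (nat_lit 609073315233) (nat_lit 168) (nat_lit 3) (nat_lit 167) (nat_lit 1) (nat_lit 168) (nat_lit 1) (nat_lit 226) (nat_lit 362) (nat_lit 312)) (XT.lf (nat_lit 152) (nat_lit 1729448518984) (nat_lit 0) (nat_lit 3235390633) (nat_lit 76) (nat_lit 3235390633) (nat_lit 167) (nat_lit 1) (nat_lit 165) (nat_lit 1) (nat_lit 166) (nat_lit 1) (nat_lit 227) (nat_lit 362) (nat_lit 311))) (XT.nd (nat_lit 78) (nat_lit 228) (nat_lit 0) (XT.lf (nat_lit 0) (nat_lit 548388605180) (nat_lit 0) (nat_lit 556461791639) (nat_lit 152) (nat_lit 548388605180) (nat_lit 165) (nat_lit 3) (nat_lit 165) (nat_lit 1) (nat_lit 167) (nat_lit 1) (nat_lit 228) (nat_lit 362) (nat_lit 310)) (XT.nd (nat_lit 78) (nat_lit 152) (nat_lit 0) (XT.lf (nat_lit 76) (nat_lit 521334528539) (nat_lit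 0) (nat_lit 528354690678) (nat_lit 76) (nat_lit 528354690678) (nat_lit 165) (nat_lit 3) (nat_lit 164) (nat_lit 1) (nat_lit 165) (nat_lit 1) (nat_lit 229) (nat_lit 362) (nat_lit 309)) (XT.lf (nat_lit 152) (nat_lit 1505669674628) (nat_lit 0) (nat_lit 1849845095) (nat_lit 76) (nat_lit 1849845095) (nat_lit 164) (nat_lit 1) (nat_lit 162) (nat_lit 1) (nat_lit 163) (nat_lit 1) (nat_lit 230) (nat_lit 362) (nat_lit 308))))) (XT.nd (nat_lit 234) (nat_lit 228) (nat_lit 0) (XT.nd (nat_lit 78) (nat_lit 228) (nat_lit 0) (XT.lf (nat_lit 0) (nat_lit 477622923846) (nat_lit 0) (nat_lit 482238794406) (nat_lit 152) (nat_lit 477622923846) (nat_lit 162) (nat_lit 3) (nat_lit 162) (nat_lit 1) (nat_lit 164) (nat_lit 1) (nat_lit 231) (nat_lit 362) (nat_lit 307)) (XT.nd (nat_lit 78) (nat_lit 152) (nat_lit 0) (XT.lf (nat_lit 76) (nat_lit 454696487766) (nat_lit 0) (nat_lit 458710288253) (nat_lit 76) (nat_lit 458710288253)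 (nat_lit 162) (nat_lit 3) (nat_lit 161) (nat_lit 1) (nat_lit 162) (nat_lit 1) (nat_lit 232) (nat_lit 362) (nat_lit 306)) (XT.lf (nat_lit 152) (nat_lit 1310307932662) (nat_lit 0) (nat_lit 1057654937) (nat_lit 76) (nat_lit 1057654937) (nat_lit 161) (nat_lit 1) (nat_lit 159) (nat_lit 1) (nat_lit 160) (nat_lit 1) (nat_lit 233) (nat_lit 362) (nat_lit 305)))) (XT.nd (nat_lit 78) (nat_lit 228) (nat_lit 0) (XT.lf (nat_lit 0) (nat_lit 415760682086) (nat_lit 0) (nat_lit 418399821060) (nat_lit 152) (nat_lit 415760682086) (nat_lit 159) (nat_lit 3) (nat_lit 159) (nat_lit 1) (nat_lit 161) (nat_lit 1) (nat_lit 234) (nat_lit 362) (nat_lit 304)) (XT.nd (nat_lit 78) (nat_lit 152) (nat_lit 0) (XT.lf (nat_lit 76) (nat_lit 396167043974) (nat_lit 0) (nat_lit 398461947430) (nat_lit 76) (nat_lit 398461947430) (nat_lit 159) (nat_lit 3) (nat_lit 158) (nat_lit 1) (nat_lit 159) (nat_lit 1) (nat_lit 235) (nat_lit 362) (nat_lit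 303)) (XT.lf (nat_lit 152) (nat_lit 1139987082271) (nat_lit 0) (nat_lit 604717643) (nat_lit 76) (nat_lit 604717643) (nat_lit 158) (nat_lit 1) (nat_lit 156) (nat_lit 1) (nat_lit 157) (nat_lit 1) (nat_lit 236) (nat_lit 362) (nat_lit 302)))))) (XT.nd (nat_lit 390) (nat_lit 456) (nat_lit 0) (XT.nd (nat_lit 156) (nat_lit 228) (nat_lit 0) (XT.nd (nat_lit 78) (nat_lit 76) (nat_lit 0) (XT.lf (nat_lit 0) (nat_lit 361780541292) (nat_lit 0) (nat_lit 363289477566) (nat_lit 152) (nat_lit 361780541292) (nat_lit 156) (nat_lit 3) (nat_lit 156) (nat_lit 1) (nat_lit 158) (nat_lit 1) (nat_lit 237) (nat_lit 362) (nat_lit 301)) (XT.lf (nat_lit 76) (nat_lit 344938359566) (nat_lit 0) (nat_lit 346250478066) (nat_lit 76) (nat_lit 346250478066) (nat_lit 156) (nat_lit 3) (nat_lit 155) (nat_lit 1) (nat_lit 156) (nat_lit 1) (nat_lit 238) (nat_lit 362) (nat_lit 300))) (XT.nd (nat_lit 78) (nat_lit 76) (nat_lit 0) (XT.lf (nat_lit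 152) (nat_lit 991629809045) (nat_lit 0) (nat_lit 345749275) (nat_lit 76) (nat_lit 345749275) (nat_lit 155) (nat_lit 1) (nat_lit 153) (nat_lit 1) (nat_lit 154) (nat_lit 1) (nat_lit 239) (nat_lit 362) (nat_lit 299)) (XT.nd (nat_lit 78) (nat_lit 76) (nat_lit 0) (XT.lf (nat_lit 0) (nat_lit 314734435127) (nat_lit 0) (nat_lit 315597174339) (nat_lit 152) (nat_lit 314734435127) (nat_lit 153) (nat_lit 3) (nat_lit 153) (nat_lit 1) (nat_lit 155) (nat_lit 1) (nat_lit 240) (nat_lit 362) (nat_lit 298)) (XT.lf (nat_lit 76) (nat_lit 300200988679) (nat_lit 0) (nat_lit 300951196689) (nat_lit 76) (nat_lit 300951196689) (nat_lit 153) (nat_lit 3) (nat_lit 152) (nat_lit 1) (nat_lit 153) (nat_lit 1) (nat_lit 241) (nat_lit 362) (nat_lit 297))))) (XT.nd (nat_lit 234) (nat_lit 228) (nat_lit 0) (XT.nd (nat_lit 78) (nat_lit 76) (nat_lit 0) (XT.lf (nat_lit 152) (nat_lit 862479296376) (nat_lit 0) (nat_lit 197683270) (nat_lit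 76) (nat_lit 197683270) (nat_lit 152) (nat_lit 1) (nat_lit 150) (nat_lit 1) (nat_lit 151) (nat_lit 1) (nat_lit 242) (nat_lit 362) (nat_lit 296)) (XT.nd (nat_lit 78) (nat_lit 76) (nat_lit 0) (XT.lf (nat_lit 0) (nat_lit 273763683872) (nat_lit 0) (nat_lit 274256957817) (nat_lit 152) (nat_lit 273763683872) (nat_lit 150) (nat_lit 3) (nat_lit 150) (nat_lit 1) (nat_lit 152) (nat_lit 1) (nat_lit 243) (nat_lit 362) (nat_lit 295)) (XT.lf (nat_lit 76) (nat_lit 261189900101) (nat_lit 0) (nat_lit 261618833965) (nat_lit 76) (nat_lit 261618833965) (nat_lit 150) (nat_lit 3) (nat_lit 149) (nat_lit 1) (nat_lit 150) (nat_lit 1) (nat_lit 244) (nat_lit 362) (nat_lit 294)))) (XT.nd (nat_lit 78) (nat_lit 76) (nat_lit 0) (XT.lf (nat_lit 152) (nat_lit 750092062723) (nat_lit 0) (nat_lit 113026051) (nat_lit 76) (nat_lit 113026051) (nat_lit 149) (nat_lit 1) (nat_lit 147) (nat_lit 1) (nat_lit 148) (nat_lit 1) (nat_lit 245)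 (nat_lit 362) (nat_lit 293)) (XT.nd (nat_lit 78) (nat_lit 76) (nat_lit 0) (XT.lf (nat_lit 0) (nat_lit 238102013117) (nat_lit 0) (nat_lit 238384044096) (nat_lit 152) (nat_lit 238102013117) (nat_lit 147) (nat_lit 3) (nat_lit 147) (nat_lit 1) (nat_lit 149) (nat_lit 1) (nat_lit 246) (nat_lit 362) (nat_lit 292)) (XT.lf (nat_lit 76) (nat_lit 227204877875) (nat_lit 0) (nat_lit 227450122205) (nat_lit 76) (nat_lit 227450122205) (nat_lit 147) (nat_lit 3) (nat_lit 146) (nat_lit 1) (nat_lit 147) (nat_lit 1) (nat_lit 247) (nat_lit 362) (nat_lit 291))))))))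
noncomputable def ec209 : XT := (XT.nd (nat_lit 1716) (nat_lit 1672) (nat_lit 0) (XT.nd (nat_lit 858) (nat_lit 912) (nat_lit 0) (XT.nd (nat_lit 390) (nat_lit 456) (nat_lit 0) (XT.nd (nat_lit 156) (nat_lit 228) (nat_lit 0) (XT.nd (nat_lit 78) (nat_lit 0) (nat_lit 0) (XT.lf (nat_lit 152) (nat_lit 652316898106) (nat_lit 0) (nat_lit 64623011) (nat_lit 76) (nat_lit 64623011) (nat_lit 146) (nat_lit 1) (nat_lit 144) (nat_lit 1) (nat_lit 145) (nat_lit 1) (nat_lit 248) (nat_lit 362) (nat_lit 290)) (XT.lf (nat_lit 0) (nat_lit 207071892988) (nat_lit 0) (nat_lit 207233145116) (nat_lit 152) (nat_lit 207071892988) (nat_lit 144) (nat_lit 3) (nat_lit 144) (nat_lit 1) (nat_lit 146) (nat_lit 1) (nat_lit 249) (nat_lit 362) (nat_lit 289))) (XT.nd (nat_lit 78) (nat_lit 152) (nat_lit 0) (XT.lf (nat_lit 76) (nat_lit 197617043537) (nat_lit 0) (nat_lit 197757262778) (nat_lit 76) (nat_lit 197757262778) (nat_lit 144) (nat_lit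 3) (nat_lit 143) (nat_lit 1) (nat_lit 144) (nat_lit 1) (nat_lit 250) (nat_lit 362) (nat_lit 288)) (XT.nd (nat_lit 78) (nat_lit 0) (nat_lit 0) (XT.lf (nat_lit 152) (nat_lit 567268066039) (nat_lit 0) (nat_lit 36948416) (nat_lit 76) (nat_lit 36948416) (nat_lit 143) (nat_lit 1) (nat_lit 141) (nat_lit 1) (nat_lit 142) (nat_lit 1) (nat_lit 251) (nat_lit 362) (nat_lit 287)) (XT.lf (nat_lit 0) (nat_lit 180077760980) (nat_lit 0) (nat_lit 180169957407) (nat_lit 152) (nat_lit 180077760980) (nat_lit 141) (nat_lit 3) (nat_lit 141) (nat_lit 1) (nat_lit 143) (nat_lit 1) (nat_lit 252) (nat_lit 362) (nat_lit 286))))) (XT.nd (nat_lit 234) (nat_lit 228) (nat_lit 0) (XT.nd (nat_lit 78) (nat_lit 152) (nat_lit 0) (XT.lf (nat_lit 76) (nat_lit 171868114024) (nat_lit 0) (nat_lit 171948284830) (nat_lit 76) (nat_lit 171948284830) (nat_lit 141) (nat_lit 3) (nat_lit 140) (nat_lit 1) (nat_lit 141) (nat_lit 1) (nat_lit 253)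 (nat_lit 362) (nat_lit 285)) (XT.nd (nat_lit 78) (nat_lit 0) (nat_lit 0) (XT.lf (nat_lit 152) (nat_lit 493297151264) (nat_lit 0) (nat_lit 21125377) (nat_lit 76) (nat_lit 21125377) (nat_lit 140) (nat_lit 1) (nat_lit 138) (nat_lit 1) (nat_lit 139) (nat_lit 1) (nat_lit 254) (nat_lit 362) (nat_lit 284)) (XT.lf (nat_lit 0) (nat_lit 156598073945) (nat_lit 0) (nat_lit 156650787551) (nat_lit 152) (nat_lit 156598073945) (nat_lit 138) (nat_lit 3) (nat_lit 138) (nat_lit 1) (nat_lit 140) (nat_lit 1) (nat_lit 255) (nat_lit 362) (nat_lit 283)))) (XT.nd (nat_lit 78) (nat_lit 152) (nat_lit 0) (XT.lf (nat_lit 76) (nat_lit 149466089396) (nat_lit 0) (nat_lit 149511927315) (nat_lit 76) (nat_lit 149511927315) (nat_lit 138) (nat_lit 3) (nat_lit 137) (nat_lit 1) (nat_lit 138) (nat_lit 1) (nat_lit 256) (nat_lit 362) (nat_lit 282)) (XT.nd (nat_lit 78) (nat_lit 0) (nat_lit 0) (XT.lf (nat_lit 152) (nat_lit 428965806741)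 (nat_lit 0) (nat_lit 12078502) (nat_lit 76) (nat_lit 12078502) (nat_lit 137) (nat_lit 1) (nat_lit 135) (nat_lit 1) (nat_lit 136) (nat_lit 1) (nat_lit 257) (nat_lit 362) (nat_lit 281)) (XT.lf (nat_lit 0) (nat_lit 136177221941) (nat_lit 0) (nat_lit 136207361116) (nat_lit 152) (nat_lit 136177221941) (nat_lit 135) (nat_lit 3) (nat_lit 135) (nat_lit 1) (nat_lit 137) (nat_lit 1) (nat_lit 258) (nat_lit 362) (nat_lit 280)))))) (XT.nd (nat_lit 390) (nat_lit 456) (nat_lit 0) (XT.nd (nat_lit 156) (nat_lit 228) (nat_lit 0) (XT.nd (nat_lit 78) (nat_lit 152) (nat_lit 0) (XT.lf (nat_lit 76) (nat_lit 129979406404) (nat_lit 0) (nat_lit 130005614383) (nat_lit 76) (nat_lit 130005614383) (nat_lit 135) (nat_lit 3) (nat_lit 134) (nat_lit 1) (nat_lit 135) (nat_lit 1) (nat_lit 259) (nat_lit 362) (nat_lit 279)) (XT.lf (nat_lit 152) (nat_lit 373020470048) (nat_lit 0) (nat_lit 6905923) (nat_lit 76) (nat_lit 6905923) (nat_lit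 134) (nat_lit 1) (nat_lit 132) (nat_lit 1) (nat_lit 133) (nat_lit 1) (nat_lit 260) (nat_lit 362) (nat_lit 278))) (XT.nd (nat_lit 78) (nat_lit 228) (nat_lit 0) (XT.lf (nat_lit 0) (nat_lit 118417825063) (nat_lit 0) (nat_lit 118435057235) (nat_lit 152) (nat_lit 118417825063) (nat_lit 132) (nat_lit 3) (nat_lit 132) (nat_lit 1) (nat_lit 134) (nat_lit 1) (nat_lit 261) (nat_lit 362) (nat_lit 277)) (XT.nd (nat_lit 78) (nat_lit 152) (nat_lit 0) (XT.lf (nat_lit 76) (nat_lit 113030655895) (nat_lit 0) (nat_lit 113045640392) (nat_lit 76) (nat_lit 113045640392) (nat_lit 132) (nat_lit 3) (nat_lit 131) (nat_lit 1) (nat_lit 132) (nat_lit 1) (nat_lit 262) (nat_lit 362) (nat_lit 276)) (XT.lf (nat_lit 152) (nat_lit 324369471201) (nat_lit 0) (nat_lit 3948484) (nat_lit 76) (nat_lit 3948484) (nat_lit 131) (nat_lit 1) (nat_lit 129) (nat_lit 1) (nat_lit 130) (nat_lit 1) (nat_lit 263) (nat_lit 362) (nat_lit 275))))) (XT.nd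 (nat_lit 234) (nat_lit 228) (nat_lit 0) (XT.nd (nat_lit 78) (nat_lit 228) (nat_lit 0) (XT.lf (nat_lit 0) (nat_lit 102973650984) (nat_lit 0) (nat_lit 102983503534) (nat_lit 152) (nat_lit 102973650984) (nat_lit 129) (nat_lit 3) (nat_lit 129) (nat_lit 1) (nat_lit 131) (nat_lit 1) (nat_lit 264) (nat_lit 362) (nat_lit 274)) (XT.nd (nat_lit 78) (nat_lit 152) (nat_lit 0) (XT.lf (nat_lit 76) (nat_lit 98290434292) (nat_lit 0) (nat_lit 98299001727) (nat_lit 76) (nat_lit 98299001727) (nat_lit 129) (nat_lit 3) (nat_lit 128) (nat_lit 1) (nat_lit 129) (nat_lit 1) (nat_lit 265) (nat_lit 362) (nat_lit 273)) (XT.lf (nat_lit 152) (nat_lit 282062608173) (nat_lit 0) (nat_lit 2257558) (nat_lit 76) (nat_lit 2257558) (nat_lit 128) (nat_lit 1) (nat_lit 126) (nat_lit 1) (nat_lit 127) (nat_lit 1) (nat_lit 266) (nat_lit 362) (nat_lit 272)))) (XT.nd (nat_lit 78) (nat_lit 228) (nat_lit 0) (XT.lf (nat_lit 0) (nat_lit 89543236697)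 (nat_lit 0) (nat_lit 89548869925) (nat_lit 152) (nat_lit 89543236697) (nat_lit 126) (nat_lit 3) (nat_lit 126) (nat_lit 1) (nat_lit 128) (nat_lit 1) (nat_lit 267) (nat_lit 362) (nat_lit 271)) (XT.nd (nat_lit 78) (nat_lit 152) (nat_lit 0) (XT.lf (nat_lit 76) (nat_lit 85471605193) (nat_lit 0) (nat_lit 85476503652) (nat_lit 76) (nat_lit 85476503652) (nat_lit 126) (nat_lit 3) (nat_lit 125) (nat_lit 1) (nat_lit 126) (nat_lit 1) (nat_lit 268) (nat_lit 362) (nat_lit 270)) (XT.lf (nat_lit 152) (nat_lit 245273090154) (nat_lit 0) (nat_lit 1290766) (nat_lit 76) (nat_lit 1290766) (nat_lit 125) (nat_lit 1) (nat_lit 123) (nat_lit 1) (nat_lit 124) (nat_lit 1) (nat_lit 269) (nat_lit 362) (nat_lit 269))))))) (XT.nd (nat_lit 858) (nat_lit 912) (nat_lit 0) (XT.nd (nat_lit 390) (nat_lit 456) (nat_lit 0) (XT.nd (nat_lit 156) (nat_lit 228) (nat_lit 0) (XT.nd (nat_lit 78) (nat_lit 76) (nat_lit 0) (XT.lf (nat_lit 0) (nat_lit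 77864216670) (nat_lit 0) (nat_lit 77867437486) (nat_lit 152) (nat_lit 77864216670) (nat_lit 123) (nat_lit 3) (nat_lit 123) (nat_lit 1) (nat_lit 125) (nat_lit 1) (nat_lit 270) (nat_lit 362) (nat_lit 268)) (XT.lf (nat_lit 76) (nat_lit 74324085394) (nat_lit 0) (nat_lit 74326886103) (nat_lit 76) (nat_lit 74326886103) (nat_lit 123) (nat_lit 3) (nat_lit 122) (nat_lit 1) (nat_lit 123) (nat_lit 1) (nat_lit 271) (nat_lit 362) (nat_lit 267))) (XT.nd (nat_lit 78) (nat_lit 76) (nat_lit 0) (XT.lf (nat_lit 152) (nat_lit 213281666632) (nat_lit 0) (nat_lit 737999) (nat_lit 76) (nat_lit 737999) (nat_lit 122) (nat_lit 1) (nat_lit 120) (nat_lit 1) (nat_lit 121) (nat_lit 1) (nat_lit 272) (nat_lit 362) (nat_lit 266)) (XT.nd (nat_lit 78) (nat_lit 76) (nat_lit 0) (XT.lf (nat_lit 0) (nat_lit 67708319002) (nat_lit 0) (nat_lit 67710160514) (nat_lit 152) (nat_lit 67708319002) (nat_lit 120) (nat_lit 3) (nat_lit 120) (nat_lit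 1) (nat_lit 122) (nat_lit 1) (nat_lit 273) (nat_lit 362) (nat_lit 265)) (XT.lf (nat_lit 76) (nat_lit 64630182892) (nat_lit 0) (nat_lit 64631784207) (nat_lit 76) (nat_lit 64631784207) (nat_lit 120) (nat_lit 3) (nat_lit 119) (nat_lit 1) (nat_lit 120) (nat_lit 1) (nat_lit 274) (nat_lit 362) (nat_lit 264))))) (XT.nd (nat_lit 234) (nat_lit 228) (nat_lit 0) (XT.nd (nat_lit 78) (nat_lit 76) (nat_lit 0) (XT.lf (nat_lit 152) (nat_lit 185462729713) (nat_lit 0) (nat_lit 421953) (nat_lit 76) (nat_lit 421953) (nat_lit 119) (nat_lit 1) (nat_lit 117) (nat_lit 1) (nat_lit 118) (nat_lit 1) (nat_lit 275) (nat_lit 362) (nat_lit 263)) (XT.nd (nat_lit 78) (nat_lit 76) (nat_lit 0) (XT.lf (nat_lit 0) (nat_lit 58876973235) (nat_lit 0) (nat_lit 58878026126) (nat_lit 152) (nat_lit 58876973235) (nat_lit 117) (nat_lit 3) (nat_lit 117) (nat_lit 1) (nat_lit 119) (nat_lit 1) (nat_lit 276) (nat_lit 362) (nat_lit 262)) (XT.lf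 (nat_lit 76) (nat_lit 56200469738) (nat_lit 0) (nat_lit 56201385295) (nat_lit 76) (nat_lit 56201385295) (nat_lit 117) (nat_lit 3) (nat_lit 116) (nat_lit 1) (nat_lit 117) (nat_lit 1) (nat_lit 277) (nat_lit 362) (nat_lit 261)))) (XT.nd (nat_lit 78) (nat_lit 76) (nat_lit 0) (XT.lf (nat_lit 152) (nat_lit 161272173816) (nat_lit 0) (nat_lit 241253) (nat_lit 76) (nat_lit 241253) (nat_lit 116) (nat_lit 1) (nat_lit 114) (nat_lit 1) (nat_lit 115) (nat_lit 1) (nat_lit 278) (nat_lit 362) (nat_lit 260)) (XT.nd (nat_lit 78) (nat_lit 76) (nat_lit 0) (XT.lf (nat_lit 0) (nat_lit 51197467575) (nat_lit 0) (nat_lit 51198069568) (nat_lit 152) (nat_lit 51197467575) (nat_lit 114) (nat_lit 3) (nat_lit 114) (nat_lit 1) (nat_lit 116) (nat_lit 1) (nat_lit 279) (nat_lit 362) (nat_lit 259)) (XT.lf (nat_lit 76) (nat_lit 48870151330) (nat_lit 0) (nat_lit 48870674802) (nat_lit 76) (nat_lit 48870674802) (nat_lit 114) (nat_lit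 3) (nat_lit 113) (nat_lit 1) (nat_lit 114) (nat_lit 1) (nat_lit 280) (nat_lit 362) (nat_lit 258)))))) (XT.nd (nat_lit 468) (nat_lit 456) (nat_lit 0) (XT.nd (nat_lit 234) (nat_lit 228) (nat_lit 0) (XT.nd (nat_lit 78) (nat_lit 76) (nat_lit 0) (XT.lf (nat_lit 152) (nat_lit 140236807208) (nat_lit 0) (nat_lit 137937) (nat_lit 76) (nat_lit 137937) (nat_lit 113) (nat_lit 1) (nat_lit 111) (nat_lit 1) (nat_lit 112) (nat_lit 1) (nat_lit 281) (nat_lit 362) (nat_lit 257)) (XT.nd (nat_lit 78) (nat_lit 76) (nat_lit 0) (XT.lf (nat_lit 0) (nat_lit 44519593936) (nat_lit 0) (nat_lit 44519938128) (nat_lit 152) (nat_lit 44519593936) (nat_lit 111) (nat_lit 3) (nat_lit 111) (nat_lit 1) (nat_lit 113) (nat_lit 1) (nat_lit 282) (nat_lit 362) (nat_lit 256)) (XT.lf (nat_lit 76) (nat_lit 42495885334) (nat_lit 0) (nat_lit 42496184631) (nat_lit 76) (nat_lit 42496184631) (nat_lit 111) (nat_lit 3) (nat_lit 110) (nat_lit 1) (nat_lit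 111) (nat_lit 1) (nat_lit 283) (nat_lit 362) (nat_lit 255)))) (XT.nd (nat_lit 78) (nat_lit 76) (nat_lit 0) (XT.lf (nat_lit 152) (nat_lit 121945126547) (nat_lit 0) (nat_lit 78866) (nat_lit 76) (nat_lit 78866) (nat_lit 110) (nat_lit 1) (nat_lit 108) (nat_lit 1) (nat_lit 109) (nat_lit 1) (nat_lit 284) (nat_lit 362) (nat_lit 254)) (XT.nd (nat_lit 78) (nat_lit 76) (nat_lit 0) (XT.lf (nat_lit 0) (nat_lit 38712722920) (nat_lit 0) (nat_lit 38712919713) (nat_lit 152) (nat_lit 38712722920) (nat_lit 108) (nat_lit 3) (nat_lit 108) (nat_lit 1) (nat_lit 110) (nat_lit 1) (nat_lit 285) (nat_lit 362) (nat_lit 253)) (XT.lf (nat_lit 76) (nat_lit 36953001841) (nat_lit 0) (nat_lit 36953172965) (nat_lit 76) (nat_lit 36953172965) (nat_lit 108) (nat_lit 3) (nat_lit 107) (nat_lit 1) (nat_lit 108) (nat_lit 1) (nat_lit 286) (nat_lit 362) (nat_lit 252))))) (XT.nd (nat_lit 234) (nat_lit 228) (nat_lit 0) (XT.nd (nat_lit 78)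 (nat_lit 76) (nat_lit 0) (XT.lf (nat_lit 152) (nat_lit 106039284386) (nat_lit 0) (nat_lit 45092) (nat_lit 76) (nat_lit 45091) (nat_lit 107) (nat_lit 1) (nat_lit 105) (nat_lit 1) (nat_lit 106) (nat_lit 1) (nat_lit 287) (nat_lit 362) (nat_lit 251)) (XT.nd (nat_lit 78) (nat_lit 76) (nat_lit 0) (XT.lf (nat_lit 0) (nat_lit 33663255927) (nat_lit 0) (nat_lit 33663368444) (nat_lit 152) (nat_lit 33663255927) (nat_lit 105) (nat_lit 3) (nat_lit 105) (nat_lit 1) (nat_lit 107) (nat_lit 1) (nat_lit 288) (nat_lit 362) (nat_lit 250)) (XT.lf (nat_lit 76) (nat_lit 32133078282) (nat_lit 0) (nat_lit 32133176123) (nat_lit 76) (nat_lit 32133176123) (nat_lit 105) (nat_lit 3) (nat_lit 104) (nat_lit 1) (nat_lit 105) (nat_lit 1) (nat_lit 289) (nat_lit 362) (nat_lit 249)))) (XT.nd (nat_lit 78) (nat_lit 76) (nat_lit 0) (XT.lf (nat_lit 152) (nat_lit 92208098486) (nat_lit 0) (nat_lit 25781) (nat_lit 76) (nat_lit 25781) (nat_lit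 104) (nat_lit 1) (nat_lit 102) (nat_lit 1) (nat_lit 103) (nat_lit 1) (nat_lit 290) (nat_lit 362) (nat_lit 248)) (XT.nd (nat_lit 78) (nat_lit 76) (nat_lit 0) (XT.lf (nat_lit 0) (nat_lit 29272407096) (nat_lit 0) (nat_lit 29272471428) (nat_lit 152) (nat_lit 29272407096) (nat_lit 102) (nat_lit 3) (nat_lit 102) (nat_lit 1) (nat_lit 104) (nat_lit 1) (nat_lit 291) (nat_lit 362) (nat_lit 247)) (XT.lf (nat_lit 76) (nat_lit 27941826185) (nat_lit 0) (nat_lit 27941882126) (nat_lit 76) (nat_lit 27941882126) (nat_lit 102) (nat_lit 3) (nat_lit 101) (nat_lit 1) (nat_lit 102) (nat_lit 1) (nat_lit 292) (nat_lit 362) (nat_lit 246))))))))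
noncomputable def ec210 : XT := (XT.nd (nat_lit 1716) (nat_lit 1596) (nat_lit 0) (XT.nd (nat_lit 858) (nat_lit 912) (nat_lit 0) (XT.nd (nat_lit 390) (nat_lit 456) (nat_lit 0) (XT.nd (nat_lit 156) (nat_lit 228) (nat_lit 0) (XT.nd (nat_lit 78) (nat_lit 0) (nat_lit 0) (XT.lf (nat_lit 152) (nat_lit 80180969559) (nat_lit 0) (nat_lit 14740) (nat_lit 76) (nat_lit 14740) (nat_lit 101) (nat_lit 1) (nat_lit 99) (nat_lit 1) (nat_lit 100) (nat_lit 1) (nat_lit 293) (nat_lit 362) (nat_lit 245)) (XT.lf (nat_lit 0) (nat_lit 25454273122) (nat_lit 0) (nat_lit 25454309904) (nat_lit 152) (nat_lit 25454273122) (nat_lit 99) (nat_lit 3) (nat_lit 99) (nat_lit 1) (nat_lit 101) (nat_lit 1) (nat_lit 294) (nat_lit 362) (nat_lit 244))) (XT.nd (nat_lit 78) (nat_lit 152) (nat_lit 0) (XT.lf (nat_lit 76) (nat_lit 24297251015) (nat_lit 0) (nat_lit 24297283000) (nat_lit 76) (nat_lit 24297283000) (nat_lit 99) (nat_lit 3) (nat_lit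 98) (nat_lit 1) (nat_lit 99) (nat_lit 1) (nat_lit 295) (nat_lit 362) (nat_lit 243)) (XT.nd (nat_lit 78) (nat_lit 0) (nat_lit 0) (XT.lf (nat_lit 152) (nat_lit 69722590433) (nat_lit 0) (nat_lit 8428) (nat_lit 76) (nat_lit 8428) (nat_lit 98) (nat_lit 1) (nat_lit 96) (nat_lit 1) (nat_lit 97) (nat_lit 1) (nat_lit 296) (nat_lit 362) (nat_lit 242)) (XT.lf (nat_lit 0) (nat_lit 22134154019) (nat_lit 0) (nat_lit 22134175049) (nat_lit 152) (nat_lit 22134154019) (nat_lit 96) (nat_lit 3) (nat_lit 96) (nat_lit 1) (nat_lit 98) (nat_lit 1) (nat_lit 297) (nat_lit 362) (nat_lit 241))))) (XT.nd (nat_lit 234) (nat_lit 228) (nat_lit 0) (XT.nd (nat_lit 78) (nat_lit 152) (nat_lit 0) (XT.lf (nat_lit 76) (nat_lit 21128050567) (nat_lit 0) (nat_lit 21128068854) (nat_lit 76) (nat_lit 21128068854) (nat_lit 96) (nat_lit 3) (nat_lit 95) (nat_lit 1) (nat_lit 96) (nat_lit 1) (nat_lit 298) (nat_lit 362) (nat_lit 240)) (XT.nd (nat_lit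 78) (nat_lit 0) (nat_lit 0) (XT.lf (nat_lit 152) (nat_lit 60628344199) (nat_lit 0) (nat_lit 4818) (nat_lit 76) (nat_lit 4818) (nat_lit 95) (nat_lit 1) (nat_lit 93) (nat_lit 1) (nat_lit 94) (nat_lit 1) (nat_lit 299) (nat_lit 362) (nat_lit 239)) (XT.lf (nat_lit 0) (nat_lit 19247092439) (nat_lit 0) (nat_lit 19247104463) (nat_lit 152) (nat_lit 19247092439) (nat_lit 93) (nat_lit 3) (nat_lit 93) (nat_lit 1) (nat_lit 95) (nat_lit 1) (nat_lit 300) (nat_lit 362) (nat_lit 238)))) (XT.nd (nat_lit 78) (nat_lit 152) (nat_lit 0) (XT.lf (nat_lit 76) (nat_lit 18372221433) (nat_lit 0) (nat_lit 18372231888) (nat_lit 76) (nat_lit 18372231888) (nat_lit 93) (nat_lit 3) (nat_lit 92) (nat_lit 1) (nat_lit 93) (nat_lit 1) (nat_lit 301) (nat_lit 362) (nat_lit 237)) (XT.nd (nat_lit 78) (nat_lit 0) (nat_lit 0) (XT.lf (nat_lit 152) (nat_lit 52720301987) (nat_lit 0) (nat_lit 2755) (nat_lit 76) (nat_lit 2755) (nat_lit 92) (nat_lit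 1) (nat_lit 90) (nat_lit 1) (nat_lit 91) (nat_lit 1) (nat_lit 302) (nat_lit 362) (nat_lit 236)) (XT.lf (nat_lit 0) (nat_lit 16736603258) (nat_lit 0) (nat_lit 16736610132) (nat_lit 152) (nat_lit 16736603258) (nat_lit 90) (nat_lit 3) (nat_lit 90) (nat_lit 1) (nat_lit 92) (nat_lit 1) (nat_lit 303) (nat_lit 362) (nat_lit 235)))))) (XT.nd (nat_lit 390) (nat_lit 456) (nat_lit 0) (XT.nd (nat_lit 156) (nat_lit 228) (nat_lit 0) (XT.nd (nat_lit 78) (nat_lit 152) (nat_lit 0) (XT.lf (nat_lit 76) (nat_lit 15975846753) (nat_lit 0) (nat_lit 15975852731) (nat_lit 76) (nat_lit 15975852731) (nat_lit 90) (nat_lit 3) (nat_lit 89) (nat_lit 1) (nat_lit 90) (nat_lit 1) (nat_lit 304) (nat_lit 362) (nat_lit 234)) (XT.lf (nat_lit 152) (nat_lit 45843742392) (nat_lit 0) (nat_lit 1575) (nat_lit 76) (nat_lit 1575) (nat_lit 89) (nat_lit 1) (nat_lit 87) (nat_lit 1) (nat_lit 88) (nat_lit 1) (nat_lit 305) (nat_lit 362) (nat_lit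 233))) (XT.nd (nat_lit 78) (nat_lit 228) (nat_lit 0) (XT.lf (nat_lit 0) (nat_lit 14553568700) (nat_lit 0) (nat_lit 14553572631) (nat_lit 152) (nat_lit 14553568700) (nat_lit 87) (nat_lit 3) (nat_lit 87) (nat_lit 1) (nat_lit 89) (nat_lit 1) (nat_lit 306) (nat_lit 362) (nat_lit 232)) (XT.nd (nat_lit 78) (nat_lit 152) (nat_lit 0) (XT.lf (nat_lit 76) (nat_lit 13892041814) (nat_lit 0) (nat_lit 13892045232) (nat_lit 76) (nat_lit 13892045232) (nat_lit 87) (nat_lit 3) (nat_lit 86) (nat_lit 1) (nat_lit 87) (nat_lit 1) (nat_lit 307) (nat_lit 362) (nat_lit 231)) (XT.lf (nat_lit 152) (nat_lit 39864124696) (nat_lit 0) (nat_lit 900) (nat_lit 76) (nat_lit 900) (nat_lit 86) (nat_lit 1) (nat_lit 84) (nat_lit 1) (nat_lit 85) (nat_lit 1) (nat_lit 308) (nat_lit 362) (nat_lit 230))))) (XT.nd (nat_lit 234) (nat_lit 228) (nat_lit 0) (XT.nd (nat_lit 78) (nat_lit 228) (nat_lit 0) (XT.lf (nat_lit 0) (nat_lit 12655277502)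 (nat_lit 0) (nat_lit 12655279749) (nat_lit 152) (nat_lit 12655277502) (nat_lit 84) (nat_lit 3) (nat_lit 84) (nat_lit 1) (nat_lit 86) (nat_lit 1) (nat_lit 309) (nat_lit 362) (nat_lit 229)) (XT.nd (nat_lit 78) (nat_lit 152) (nat_lit 0) (XT.lf (nat_lit 76) (nat_lit 12080037023) (nat_lit 0) (nat_lit 12080038978) (nat_lit 76) (nat_lit 12080038978) (nat_lit 84) (nat_lit 3) (nat_lit 83) (nat_lit 1) (nat_lit 84) (nat_lit 1) (nat_lit 310) (nat_lit 362) (nat_lit 228)) (XT.lf (nat_lit 152) (nat_lit 34664456759) (nat_lit 0) (nat_lit 514) (nat_lit 76) (nat_lit 514) (nat_lit 83) (nat_lit 1) (nat_lit 81) (nat_lit 1) (nat_lit 82) (nat_lit 1) (nat_lit 311) (nat_lit 362) (nat_lit 227)))) (XT.nd (nat_lit 78) (nat_lit 228) (nat_lit 0) (XT.lf (nat_lit 0) (nat_lit 11004589345) (nat_lit 0) (nat_lit 11004590630) (nat_lit 152) (nat_lit 11004589345) (nat_lit 81) (nat_lit 3) (nat_lit 81) (nat_lit 1) (nat_lit 83) (nat_lit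 1) (nat_lit 312) (nat_lit 362) (nat_lit 226)) (XT.nd (nat_lit 78) (nat_lit 152) (nat_lit 0) (XT.lf (nat_lit 76) (nat_lit 10504380399) (nat_lit 0) (nat_lit 10504381517) (nat_lit 76) (nat_lit 10504381517) (nat_lit 81) (nat_lit 3) (nat_lit 80) (nat_lit 1) (nat_lit 81) (nat_lit 1) (nat_lit 313) (nat_lit 362) (nat_lit 225)) (XT.lf (nat_lit 152) (nat_lit 30143006164) (nat_lit 0) (nat_lit 294) (nat_lit 76) (nat_lit 294) (nat_lit 80) (nat_lit 1) (nat_lit 78) (nat_lit 1) (nat_lit 79) (nat_lit 1) (nat_lit 314) (nat_lit 362) (nat_lit 224))))))) (XT.nd (nat_lit 858) (nat_lit 836) (nat_lit 0) (XT.nd (nat_lit 390) (nat_lit 456) (nat_lit 0) (XT.nd (nat_lit 156) (nat_lit 228) (nat_lit 0) (XT.nd (nat_lit 78) (nat_lit 76) (nat_lit 0) (XT.lf (nat_lit 0) (nat_lit 9569208247) (nat_lit 0) (nat_lit 9569208982) (nat_lit 152) (nat_lit 9569208247) (nat_lit 78) (nat_lit 3) (nat_lit 78) (nat_lit 1) (nat_lit 80) (nat_lit 1)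 (nat_lit 315) (nat_lit 362) (nat_lit 223)) (XT.lf (nat_lit 76) (nat_lit 9134244042) (nat_lit 0) (nat_lit 9134244681) (nat_lit 76) (nat_lit 9134244681) (nat_lit 78) (nat_lit 3) (nat_lit 77) (nat_lit 1) (nat_lit 78) (nat_lit 1) (nat_lit 316) (nat_lit 362) (nat_lit 222))) (XT.nd (nat_lit 78) (nat_lit 76) (nat_lit 0) (XT.lf (nat_lit 152) (nat_lit 26211309872) (nat_lit 0) (nat_lit 168) (nat_lit 76) (nat_lit 168) (nat_lit 77) (nat_lit 1) (nat_lit 75) (nat_lit 1) (nat_lit 76) (nat_lit 1) (nat_lit 317) (nat_lit 362) (nat_lit 221)) (XT.nd (nat_lit 78) (nat_lit 76) (nat_lit 0) (XT.lf (nat_lit 0) (nat_lit 8321050719) (nat_lit 0) (nat_lit 8321051139) (nat_lit 152) (nat_lit 8321050719) (nat_lit 75) (nat_lit 3) (nat_lit 75) (nat_lit 1) (nat_lit 77) (nat_lit 1) (nat_lit 318) (nat_lit 362) (nat_lit 220)) (XT.lf (nat_lit 76) (nat_lit 7942821030) (nat_lit 0) (nat_lit 7942821396) (nat_lit 76) (nat_lit 7942821396)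 (nat_lit 75) (nat_lit 3) (nat_lit 74) (nat_lit 1) (nat_lit 75) (nat_lit 1) (nat_lit 319) (nat_lit 362) (nat_lit 219))))) (XT.nd (nat_lit 234) (nat_lit 228) (nat_lit 0) (XT.nd (nat_lit 78) (nat_lit 76) (nat_lit 0) (XT.lf (nat_lit 152) (nat_lit 22792443460) (nat_lit 0) (nat_lit 96) (nat_lit 76) (nat_lit 96) (nat_lit 74) (nat_lit 1) (nat_lit 72) (nat_lit 1) (nat_lit 73) (nat_lit 1) (nat_lit 320) (nat_lit 362) (nat_lit 218)) (XT.nd (nat_lit 78) (nat_lit 76) (nat_lit 0) (XT.lf (nat_lit 0) (nat_lit 7235696317) (nat_lit 0) (nat_lit 7235696557) (nat_lit 152) (nat_lit 7235696317) (nat_lit 72) (nat_lit 3) (nat_lit 72) (nat_lit 1) (nat_lit 74) (nat_lit 1) (nat_lit 321) (nat_lit 362) (nat_lit 217)) (XT.lf (nat_lit 76) (nat_lit 6906800967) (nat_lit 0) (nat_lit 6906801176) (nat_lit 76) (nat_lit 6906801176) (nat_lit 72) (nat_lit 3) (nat_lit 71) (nat_lit 1) (nat_lit 72) (nat_lit 1) (nat_lit 322) (nat_lit 362)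 (nat_lit 216)))) (XT.nd (nat_lit 78) (nat_lit 76) (nat_lit 0) (XT.lf (nat_lit 152) (nat_lit 19819516106) (nat_lit 0) (nat_lit 55) (nat_lit 76) (nat_lit 55) (nat_lit 71) (nat_lit 1) (nat_lit 69) (nat_lit 1) (nat_lit 70) (nat_lit 1) (nat_lit 323) (nat_lit 362) (nat_lit 215)) (XT.nd (nat_lit 78) (nat_lit 76) (nat_lit 0) (XT.lf (nat_lit 0) (nat_lit 6291909864) (nat_lit 0) (nat_lit 6291910001) (nat_lit 152) (nat_lit 6291909864) (nat_lit 69) (nat_lit 3) (nat_lit 69) (nat_lit 1) (nat_lit 71) (nat_lit 1) (nat_lit 324) (nat_lit 362) (nat_lit 214)) (XT.lf (nat_lit 76) (nat_lit 6005913925) (nat_lit 0) (nat_lit 6005914044) (nat_lit 76) (nat_lit 6005914044) (nat_lit 69) (nat_lit 3) (nat_lit 68) (nat_lit 1) (nat_lit 69) (nat_lit 1) (nat_lit 325) (nat_lit 362) (nat_lit 213)))))) (XT.nd (nat_lit 390) (nat_lit 456) (nat_lit 0) (XT.nd (nat_lit 156) (nat_lit 228) (nat_lit 0) (XT.nd (nat_lit 78) (nat_lit 0) (nat_lit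 0) (XT.lf (nat_lit 152) (nat_lit 17234361862) (nat_lit 0) (nat_lit 31) (nat_lit 76) (nat_lit 31) (nat_lit 68) (nat_lit 1) (nat_lit 66) (nat_lit 1) (nat_lit 67) (nat_lit 1) (nat_lit 326) (nat_lit 362) (nat_lit 212)) (XT.lf (nat_lit 0) (nat_lit 5471225981) (nat_lit 0) (nat_lit 5471226060) (nat_lit 152) (nat_lit 5471225981) (nat_lit 66) (nat_lit 3) (nat_lit 66) (nat_lit 1) (nat_lit 68) (nat_lit 1) (nat_lit 327) (nat_lit 362) (nat_lit 211))) (XT.nd (nat_lit 78) (nat_lit 152) (nat_lit 0) (XT.lf (nat_lit 76) (nat_lit 5222533871) (nat_lit 0) (nat_lit 5222533939) (nat_lit 76) (nat_lit 5222533939) (nat_lit 66) (nat_lit 3) (nat_lit 65) (nat_lit 1) (nat_lit 66) (nat_lit 1) (nat_lit 328) (nat_lit 362) (nat_lit 210)) (XT.nd (nat_lit 78) (nat_lit 0) (nat_lit 0) (XT.lf (nat_lit 152) (nat_lit 14986401636) (nat_lit 0) (nat_lit 17) (nat_lit 76) (nat_lit 17) (nat_lit 65) (nat_lit 1) (nat_lit 63) (nat_lit 1) (nat_lit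 64) (nat_lit 1) (nat_lit 329) (nat_lit 362) (nat_lit 209)) (XT.lf (nat_lit 0) (nat_lit 4757587817) (nat_lit 0) (nat_lit 4757587862) (nat_lit 152) (nat_lit 4757587817) (nat_lit 63) (nat_lit 3) (nat_lit 63) (nat_lit 1) (nat_lit 65) (nat_lit 1) (nat_lit 330) (nat_lit 362) (nat_lit 208))))) (XT.nd (nat_lit 234) (nat_lit 228) (nat_lit 0) (XT.nd (nat_lit 78) (nat_lit 152) (nat_lit 0) (XT.lf (nat_lit 76) (nat_lit 4541333814) (nat_lit 0) (nat_lit 4541333853) (nat_lit 76) (nat_lit 4541333853) (nat_lit 63) (nat_lit 3) (nat_lit 62) (nat_lit 1) (nat_lit 63) (nat_lit 1) (nat_lit 331) (nat_lit 362) (nat_lit 207)) (XT.nd (nat_lit 78) (nat_lit 0) (nat_lit 0) (XT.lf (nat_lit 152) (nat_lit 13031653607) (nat_lit 0) (nat_lit 10) (nat_lit 76) (nat_lit 10) (nat_lit 62) (nat_lit 1) (nat_lit 60) (nat_lit 1) (nat_lit 61) (nat_lit 1) (nat_lit 332) (nat_lit 362) (nat_lit 206)) (XT.lf (nat_lit 0) (nat_lit 4137032889) (nat_lit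 0) (nat_lit 4137032914) (nat_lit 152) (nat_lit 4137032889) (nat_lit 60) (nat_lit 3) (nat_lit 60) (nat_lit 1) (nat_lit 62) (nat_lit 1) (nat_lit 333) (nat_lit 362) (nat_lit 205)))) (XT.nd (nat_lit 78) (nat_lit 152) (nat_lit 0) (XT.lf (nat_lit 76) (nat_lit 3948985932) (nat_lit 0) (nat_lit 3948985955) (nat_lit 76) (nat_lit 3948985955) (nat_lit 60) (nat_lit 3) (nat_lit 59) (nat_lit 1) (nat_lit 60) (nat_lit 1) (nat_lit 334) (nat_lit 362) (nat_lit 204)) (XT.nd (nat_lit 78) (nat_lit 0) (nat_lit 0) (XT.lf (nat_lit 152) (nat_lit 11331872707) (nat_lit 0) (nat_lit 5) (nat_lit 76) (nat_lit 5) (nat_lit 59) (nat_lit 1) (nat_lit 57) (nat_lit 1) (nat_lit 58) (nat_lit 1) (nat_lit 335) (nat_lit 362) (nat_lit 203)) (XT.lf (nat_lit 0) (nat_lit 3597419906) (nat_lit 0) (nat_lit 3597419920) (nat_lit 152) (nat_lit 3597419906) (nat_lit 57) (nat_lit 3) (nat_lit 57) (nat_lit 1) (nat_lit 59) (nat_lit 1) (nat_lit 336) (nat_lit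 362) (nat_lit 202))))))))
noncomputable def ec211 : XT := (XT.nd (nat_lit 1716) (nat_lit 912) (nat_lit 0) (XT.nd (nat_lit 858) (nat_lit 912) (nat_lit 0) (XT.nd (nat_lit 390) (nat_lit 304) (nat_lit 0) (XT.nd (nat_lit 156) (nat_lit 228) (nat_lit 0) (XT.nd (nat_lit 78) (nat_lit 152) (nat_lit 0) (XT.lf (nat_lit 76) (nat_lit 3433900815) (nat_lit 0) (nat_lit 3433900828) (nat_lit 76) (nat_lit 3433900828) (nat_lit 57) (nat_lit 3) (nat_lit 56) (nat_lit 1) (nat_lit 57) (nat_lit 1) (nat_lit 337) (nat_lit 362) (nat_lit 201)) (XT.lf (nat_lit 152) (nat_lit 9853802357) (nat_lit 0) (nat_lit 3) (nat_lit 76) (nat_lit 3) (nat_lit 56) (nat_lit 1) (nat_lit 54) (nat_lit 1) (nat_lit 55) (nat_lit 1) (nat_lit 338) (nat_lit 362) (nat_lit 200))) (XT.nd (nat_lit 78) (nat_lit 228) (nat_lit 0) (XT.lf (nat_lit 0) (nat_lit 3128191224) (nat_lit 0) (nat_lit 3128191232) (nat_lit 152) (nat_lit 3128191224) (nat_lit 54) (nat_lit 3)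 (nat_lit 54) (nat_lit 1) (nat_lit 56) (nat_lit 1) (nat_lit 339) (nat_lit 362) (nat_lit 199)) (XT.nd (nat_lit 78) (nat_lit 152) (nat_lit 0) (XT.lf (nat_lit 76) (nat_lit 2986000711) (nat_lit 0) (nat_lit 2986000718) (nat_lit 76) (nat_lit 2986000718) (nat_lit 54) (nat_lit 3) (nat_lit 53) (nat_lit 1) (nat_lit 54) (nat_lit 1) (nat_lit 340) (nat_lit 362) (nat_lit 198)) (XT.lf (nat_lit 152) (nat_lit 8568523791) (nat_lit 0) (nat_lit 1) (nat_lit 76) (nat_lit 1) (nat_lit 53) (nat_lit 1) (nat_lit 51) (nat_lit 1) (nat_lit 52) (nat_lit 1) (nat_lit 341) (nat_lit 362) (nat_lit 197))))) (XT.nd (nat_lit 234) (nat_lit 76) (nat_lit 0) (XT.nd (nat_lit 78) (nat_lit 228) (nat_lit 0) (XT.lf (nat_lit 0) (nat_lit 2720166282) (nat_lit 0) (nat_lit 2720166287) (nat_lit 152) (nat_lit 2720166282) (nat_lit 51) (nat_lit 3) (nat_lit 51) (nat_lit 1) (nat_lit 53) (nat_lit 1) (nat_lit 342) (nat_lit 362) (nat_lit 196)) (XT.nd (nat_lit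 78) (nat_lit 152) (nat_lit 0) (XT.lf (nat_lit 76) (nat_lit 2596522359) (nat_lit 0) (nat_lit 2596522363) (nat_lit 76) (nat_lit 2596522363) (nat_lit 51) (nat_lit 3) (nat_lit 50) (nat_lit 1) (nat_lit 51) (nat_lit 1) (nat_lit 343) (nat_lit 362) (nat_lit 195)) (XT.lf (nat_lit 152) (nat_lit 7450890254) (nat_lit 0) (nat_lit 1) (nat_lit 76) (nat_lit 1) (nat_lit 50) (nat_lit 1) (nat_lit 48) (nat_lit 1) (nat_lit 49) (nat_lit 1) (nat_lit 344) (nat_lit 362) (nat_lit 194)))) (XT.nd (nat_lit 78) (nat_lit 76) (nat_lit 0) (XT.lf (nat_lit 0) (nat_lit 2365361985) (nat_lit 0) (nat_lit 2365361988) (nat_lit 152) (nat_lit 2365361985) (nat_lit 48) (nat_lit 3) (nat_lit 48) (nat_lit 1) (nat_lit 50) (nat_lit 1) (nat_lit 345) (nat_lit 362) (nat_lit 193)) (XT.nd (nat_lit 78) (nat_lit 0) (nat_lit 0) (XT.lf (nat_lit 76) (nat_lit 2257845530) (nat_lit 0) (nat_lit 2257845533) (nat_lit 76) (nat_lit 2257845533) (nat_lit 48) (nat_lit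 3) (nat_lit 47) (nat_lit 1) (nat_lit 48) (nat_lit 1) (nat_lit 346) (nat_lit 362) (nat_lit 192)) (XT.lf (nat_lit 0) (nat_lit 6479035004) (nat_lit 0) (nat_lit 0) (nat_lit 0) (nat_lit 0) (nat_lit 47) (nat_lit 1) (nat_lit 1) (nat_lit 0) (nat_lit 1) (nat_lit 0) (nat_lit 347) (nat_lit 362) (nat_lit 191)))))) (XT.nd (nat_lit 390) (nat_lit 456) (nat_lit 0) (XT.nd (nat_lit 156) (nat_lit 228) (nat_lit 0) (XT.nd (nat_lit 78) (nat_lit 76) (nat_lit 0) (XT.lf (nat_lit 0) (nat_lit 2056836509) (nat_lit 0) (nat_lit 2056836510) (nat_lit 152) (nat_lit 2056836509) (nat_lit 45) (nat_lit 3) (nat_lit 45) (nat_lit 1) (nat_lit 47) (nat_lit 1) (nat_lit 348) (nat_lit 362) (nat_lit 190)) (XT.lf (nat_lit 76) (nat_lit 1963343940) (nat_lit 0) (nat_lit 1963343941) (nat_lit 76) (nat_lit 1963343941) (nat_lit 45) (nat_lit 3) (nat_lit 44) (nat_lit 1) (nat_lit 45) (nat_lit 1) (nat_lit 349) (nat_lit 362) (nat_lit 189))) (XT.nd (nat_lit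 78) (nat_lit 228) (nat_lit 0) (XT.lf (nat_lit 0) (nat_lit 5633943482) (nat_lit 0) (nat_lit 0) (nat_lit 0) (nat_lit 0) (nat_lit 44) (nat_lit 1) (nat_lit 1) (nat_lit 0) (nat_lit 1) (nat_lit 0) (nat_lit 350) (nat_lit 362) (nat_lit 188)) (XT.nd (nat_lit 78) (nat_lit 76) (nat_lit 0) (XT.lf (nat_lit 0) (nat_lit 1788553486) (nat_lit 0) (nat_lit 1788553487) (nat_lit 152) (nat_lit 1788553486) (nat_lit 42) (nat_lit 3) (nat_lit 42) (nat_lit 1) (nat_lit 44) (nat_lit 1) (nat_lit 351) (nat_lit 362) (nat_lit 187)) (XT.lf (nat_lit 76) (nat_lit 1707255600) (nat_lit 0) (nat_lit 1707255601) (nat_lit 76) (nat_lit 1707255601) (nat_lit 42) (nat_lit 3) (nat_lit 41) (nat_lit 1) (nat_lit 42) (nat_lit 1) (nat_lit 352) (nat_lit 362) (nat_lit 186))))) (XT.nd (nat_lit 234) (nat_lit 228) (nat_lit 0) (XT.nd (nat_lit 78) (nat_lit 228) (nat_lit 0) (XT.lf (nat_lit 0) (nat_lit 4899081289) (nat_lit 0) (nat_lit 0) (nat_lit 0) (nat_lit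 0) (nat_lit 41) (nat_lit 1) (nat_lit 1) (nat_lit 0) (nat_lit 1) (nat_lit 0) (nat_lit 353) (nat_lit 362) (nat_lit 185)) (XT.nd (nat_lit 78) (nat_lit 76) (nat_lit 0) (XT.lf (nat_lit 0) (nat_lit 1555263901) (nat_lit 0) (nat_lit 1555263901) (nat_lit 152) (nat_lit 1555263901) (nat_lit 39) (nat_lit 3) (nat_lit 39) (nat_lit 1) (nat_lit 41) (nat_lit 1) (nat_lit 354) (nat_lit 362) (nat_lit 184)) (XT.lf (nat_lit 76) (nat_lit 1484570087) (nat_lit 0) (nat_lit 1484570087) (nat_lit 76) (nat_lit 1484570087) (nat_lit 39) (nat_lit 3) (nat_lit 38) (nat_lit 1) (nat_lit 39) (nat_lit 1) (nat_lit 355) (nat_lit 362) (nat_lit 183)))) (XT.nd (nat_lit 78) (nat_lit 228) (nat_lit 0) (XT.lf (nat_lit 0) (nat_lit 4260070686) (nat_lit 0) (nat_lit 0) (nat_lit 0) (nat_lit 0) (nat_lit 38) (nat_lit 1) (nat_lit 1) (nat_lit 0) (nat_lit 1) (nat_lit 0) (nat_lit 356) (nat_lit 362) (nat_lit 182)) (XT.nd (nat_lit 78) (nat_lit 76) (nat_lit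 0) (XT.lf (nat_lit 0) (nat_lit 1352403392) (nat_lit 0) (nat_lit 1352403392) (nat_lit 152) (nat_lit 1352403392) (nat_lit 36) (nat_lit 3) (nat_lit 36) (nat_lit 1) (nat_lit 38) (nat_lit 1) (nat_lit 357) (nat_lit 362) (nat_lit 181)) (XT.lf (nat_lit 76) (nat_lit 1290930510) (nat_lit 0) (nat_lit 1290930511) (nat_lit 76) (nat_lit 1290930511) (nat_lit 36) (nat_lit 3) (nat_lit 35) (nat_lit 1) (nat_lit 36) (nat_lit 1) (nat_lit 358) (nat_lit 362) (nat_lit 180))))))) (XT.nd (nat_lit 858) (nat_lit 76) (nat_lit 0) (XT.nd (nat_lit 390) (nat_lit 456) (nat_lit 0) (XT.nd (nat_lit 156) (nat_lit 228) (nat_lit 0) (XT.nd (nat_lit 78) (nat_lit 152) (nat_lit 0) (XT.lf (nat_lit 0) (nat_lit 3704409292) (nat_lit 0) (nat_lit 0) (nat_lit 0) (nat_lit 0) (nat_lit 35) (nat_lit 1) (nat_lit 1) (nat_lit 0) (nat_lit 1) (nat_lit 0) (nat_lit 359) (nat_lit 362) (nat_lit 179)) (XT.lf (nat_lit 0) (nat_lit 1176002950) (nat_lit 0) (nat_lit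 1176002950) (nat_lit 152) (nat_lit 1176002950) (nat_lit 33) (nat_lit 3) (nat_lit 33) (nat_lit 1) (nat_lit 35) (nat_lit 1) (nat_lit 360) (nat_lit 362) (nat_lit 178))) (XT.nd (nat_lit 78) (nat_lit 152) (nat_lit 0) (XT.lf (nat_lit 76) (nat_lit 1122548270) (nat_lit 0) (nat_lit 1122548270) (nat_lit 76) (nat_lit 1122548270) (nat_lit 33) (nat_lit 3) (nat_lit 32) (nat_lit 1) (nat_lit 33) (nat_lit 1) (nat_lit 361) (nat_lit 362) (nat_lit 177)) (XT.nd (nat_lit 78) (nat_lit 152) (nat_lit 0) (XT.lf (nat_lit 0) (nat_lit 3221225471) (nat_lit 0) (nat_lit 0) (nat_lit 0) (nat_lit 0) (nat_lit 32) (nat_lit 1) (nat_lit 1) (nat_lit 0) (nat_lit 1) (nat_lit 0) (nat_lit 362) (nat_lit 362) (nat_lit 176)) (XT.lf (nat_lit 0) (nat_lit 1022611260) (nat_lit 0) (nat_lit 1022611261) (nat_lit 152) (nat_lit 1022611260) (nat_lit 30) (nat_lit 3) (nat_lit 30) (nat_lit 1) (nat_lit 32) (nat_lit 1) (nat_lit 363) (nat_lit 362) (nat_lit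 175))))) (XT.nd (nat_lit 234) (nat_lit 228) (nat_lit 0) (XT.nd (nat_lit 78) (nat_lit 152) (nat_lit 0) (XT.lf (nat_lit 76) (nat_lit 976128930) (nat_lit 0) (nat_lit 976128930) (nat_lit 76) (nat_lit 976128930) (nat_lit 30) (nat_lit 3) (nat_lit 29) (nat_lit 1) (nat_lit 30) (nat_lit 1) (nat_lit 364) (nat_lit 362) (nat_lit 174)) (XT.nd (nat_lit 78) (nat_lit 152) (nat_lit 0) (XT.lf (nat_lit 0) (nat_lit 2801065627) (nat_lit 0) (nat_lit 0) (nat_lit 0) (nat_lit 0) (nat_lit 29) (nat_lit 1) (nat_lit 1) (nat_lit 0) (nat_lit 1) (nat_lit 0) (nat_lit 365) (nat_lit 362) (nat_lit 173)) (XT.lf (nat_lit 0) (nat_lit 889227183) (nat_lit 0) (nat_lit 889227183) (nat_lit 152) (nat_lit 889227183) (nat_lit 27) (nat_lit 3) (nat_lit 27) (nat_lit 1) (nat_lit 29) (nat_lit 1) (nat_lit 366) (nat_lit 362) (nat_lit 172)))) (XT.nd (nat_lit 78) (nat_lit 152) (nat_lit 0) (XT.lf (nat_lit 76) (nat_lit 848807765) (nat_lit 0) (nat_lit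 848807766) (nat_lit 76) (nat_lit 848807766) (nat_lit 27) (nat_lit 3) (nat_lit 26) (nat_lit 1) (nat_lit 27) (nat_lit 1) (nat_lit 367) (nat_lit 362) (nat_lit 171)) (XT.nd (nat_lit 78) (nat_lit 152) (nat_lit 0) (XT.lf (nat_lit 0) (nat_lit 2435709241) (nat_lit 0) (nat_lit 0) (nat_lit 0) (nat_lit 0) (nat_lit 26) (nat_lit 1) (nat_lit 1) (nat_lit 0) (nat_lit 1) (nat_lit 0) (nat_lit 368) (nat_lit 362) (nat_lit 170)) (XT.lf (nat_lit 0) (nat_lit 773241029) (nat_lit 0) (nat_lit 773241029) (nat_lit 152) (nat_lit 773241029) (nat_lit 24) (nat_lit 3) (nat_lit 24) (nat_lit 1) (nat_lit 26) (nat_lit 1) (nat_lit 369) (nat_lit 362) (nat_lit 169)))))) (XT.nd (nat_lit 31902) (nat_lit 0) (nat_lit 14060) (XT.nd (nat_lit 31668) (nat_lit 0) (nat_lit 14592) (XT.nd (nat_lit 78) (nat_lit 0) (nat_lit 0) (XT.lf (nat_lit 76) (nat_lit 738093709) (nat_lit 0) (nat_lit 738093709) (nat_lit 76) (nat_lit 738093709) (nat_lit 24) (nat_lit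 3) (nat_lit 23) (nat_lit 1) (nat_lit 24) (nat_lit 1) (nat_lit 370) (nat_lit 362) (nat_lit 168)) (XT.nd (nat_lit 31512) (nat_lit 0) (nat_lit 14592) (XT.lf (nat_lit 0) (nat_lit 2118008036) (nat_lit 0) (nat_lit 0) (nat_lit 0) (nat_lit 0) (nat_lit 23) (nat_lit 1) (nat_lit 1) (nat_lit 0) (nat_lit 1) (nat_lit 0) (nat_lit 371) (nat_lit 362) (nat_lit 167)) (XT.lf (nat_lit 380) (nat_lit 4678303366236) (nat_lit 0) (nat_lit 4143688431403) (nat_lit 380) (nat_lit 4678303366236) (nat_lit 220) (nat_lit 1) (nat_lit 215) (nat_lit 0) (nat_lit 220) (nat_lit 0) (nat_lit 174) (nat_lit 363) (nat_lit 363)))) (XT.nd (nat_lit 78) (nat_lit 0) (nat_lit 76) (XT.lf (nat_lit 380) (nat_lit 17304437025686) (nat_lit 76) (nat_lit 3955338957248) (nat_lit 0) (nat_lit 3955338957248) (nat_lit 220) (nat_lit 1) (nat_lit 216) (nat_lit 1) (nat_lit 215) (nat_lit 0) (nat_lit 175) (nat_lit 363) (nat_lit 362)) (XT.nd (nat_lit 78) (nat_lit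 0) (nat_lit 0) (XT.lf (nat_lit 380) (nat_lit 7627696612139) (nat_lit 0) (nat_lit 8299653447051) (nat_lit 304) (nat_lit 7627696612139) (nat_lit 221) (nat_lit 1) (nat_lit 216) (nat_lit 1) (nat_lit 220) (nat_lit 1) (nat_lit 176) (nat_lit 363) (nat_lit 361)) (XT.lf (nat_lit 380) (nat_lit 13096359030797) (nat_lit 76) (nat_lit 4482971291969) (nat_lit 0) (nat_lit 4482971291969) (nat_lit 221) (nat_lit 1) (nat_lit 217) (nat_lit 1) (nat_lit 216) (nat_lit 1) (nat_lit 177) (nat_lit 363) (nat_lit 360))))) (XT.nd (nat_lit 234) (nat_lit 380) (nat_lit 0) (XT.nd (nat_lit 78) (nat_lit 304) (nat_lit 0) (XT.lf (nat_lit 76) (nat_lit 5297650924331) (nat_lit 0) (nat_lit 10087616741513) (nat_lit 304) (nat_lit 5297650924331) (nat_lit 218) (nat_lit 1) (nat_lit 217) (nat_lit 1) (nat_lit 221) (nat_lit 1) (nat_lit 178) (nat_lit 363) (nat_lit 359)) (XT.nd (nat_lit 78) (nat_lit 0) (nat_lit 0) (XT.lf (nat_lit 380) (nat_lit 7961941482668)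 (nat_lit 0) (nat_lit 5730852801747) (nat_lit 304) (nat_lit 5730852801747) (nat_lit 218) (nat_lit 1) (nat_lit 213) (nat_lit 1) (nat_lit 217) (nat_lit 1) (nat_lit 179) (nat_lit 363) (nat_lit 358)) (XT.lf (nat_lit 76) (nat_lit 2646461416469) (nat_lit 0) (nat_lit 12986252501396) (nat_lit 380) (nat_lit 2646461416469) (nat_lit 214) (nat_lit 1) (nat_lit 213) (nat_lit 1) (nat_lit 218) (nat_lit 1) (nat_lit 180) (nat_lit 363) (nat_lit 357)))) (XT.nd (nat_lit 78) (nat_lit 228) (nat_lit 0) (XT.lf (nat_lit 228) (nat_lit 2381752845956) (nat_lit 0) (nat_lit 7412618034397) (nat_lit 152) (nat_lit 7412618034398) (nat_lit 214) (nat_lit 1) (nat_lit 211) (nat_lit 1) (nat_lit 213) (nat_lit 1) (nat_lit 181) (nat_lit 363) (nat_lit 356)) (XT.nd (nat_lit 78) (nat_lit 0) (nat_lit 0) (XT.lf (nat_lit 228) (nat_lit 16005349156017) (nat_lit 0) (nat_lit 125578147621) (nat_lit 152) (nat_lit 125578147621) (nat_lit 211) (nat_lit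 1) (nat_lit 208) (nat_lit 1) (nat_lit 210) (nat_lit 1) (nat_lit 182) (nat_lit 363) (nat_lit 355)) (XT.lf (nat_lit 76) (nat_lit 6149357448290) (nat_lit 0) (nat_lit 3019007179050) (nat_lit 228) (nat_lit 6149357448290) (nat_lit 209) (nat_lit 1) (nat_lit 208) (nat_lit 1) (nat_lit 211) (nat_lit 1) (nat_lit 183) (nat_lit 363) (nat_lit 354))))))))
noncomputable def ec212 : XT := (XT.nd (nat_lit 1716) (nat_lit 1672) (nat_lit 0) (XT.nd (nat_lit 858) (nat_lit 836) (nat_lit 0) (XT.nd (nat_lit 390) (nat_lit 380) (nat_lit 0) (XT.nd (nat_lit 156) (nat_lit 304) (nat_lit 0) (XT.nd (nat_lit 78) (nat_lit 0) (nat_lit 0) (XT.lf (nat_lit 228) (nat_lit 8938327071934) (nat_lit 0) (nat_lit 2772581190767) (nat_lit 152) (nat_lit 2772581190767) (nat_lit 209) (nat_lit 1) (nat_lit 206) (nat_lit 1) (nat_lit 208) (nat_lit 1) (nat_lit 184) (nat_lit 363) (nat_lit 353)) (XT.lf (nat_lit 76) (nat_lit 2795308040102) (nat_lit 0) (nat_lit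 8111936142365) (nat_lit 228) (nat_lit 2795308040102) (nat_lit 207) (nat_lit 1) (nat_lit 206) (nat_lit 1) (nat_lit 209) (nat_lit 1) (nat_lit 185) (nat_lit 363) (nat_lit 352))) (XT.nd (nat_lit 78) (nat_lit 228) (nat_lit 0) (XT.lf (nat_lit 152) (nat_lit 2310838673810) (nat_lit 0) (nat_lit 5332271606374) (nat_lit 76) (nat_lit 5332271606374) (nat_lit 207) (nat_lit 1) (nat_lit 205) (nat_lit 1) (nat_lit 206) (nat_lit 1) (nat_lit 186) (nat_lit 363) (nat_lit 351)) (XT.nd (nat_lit 78) (nat_lit 0) (nat_lit 0) (XT.lf (nat_lit 228) (nat_lit 11698823732732) (nat_lit 0) (nat_lit 310791226020) (nat_lit 152) (nat_lit 310791226020) (nat_lit 205) (nat_lit 1) (nat_lit 202) (nat_lit 1) (nat_lit 204) (nat_lit 1) (nat_lit 187) (nat_lit 363) (nat_lit 350)) (XT.lf (nat_lit 76) (nat_lit 4094336694409) (nat_lit 0) (nat_lit 3477044305790) (nat_lit 228) (nat_lit 4094336694409) (nat_lit 203) (nat_lit 1) (nat_lit 202) (nat_lit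 1) (nat_lit 205) (nat_lit 1) (nat_lit 188) (nat_lit 363) (nat_lit 349))))) (XT.nd (nat_lit 234) (nat_lit 152) (nat_lit 0) (XT.nd (nat_lit 78) (nat_lit 152) (nat_lit 0) (XT.lf (nat_lit 152) (nat_lit 4978321273492) (nat_lit 0) (nat_lit 3048743597327) (nat_lit 76) (nat_lit 3048743597327) (nat_lit 203) (nat_lit 1) (nat_lit 201) (nat_lit 1) (nat_lit 202) (nat_lit 1) (nat_lit 189) (nat_lit 363) (nat_lit 348)) (XT.nd (nat_lit 78) (nat_lit 152) (nat_lit 0) (XT.lf (nat_lit 0) (nat_lit 974823910319) (nat_lit 0) (nat_lit 8582274852612) (nat_lit 152) (nat_lit 974823910320) (nat_lit 201) (nat_lit 3) (nat_lit 201) (nat_lit 1) (nat_lit 203) (nat_lit 1) (nat_lit 190) (nat_lit 363) (nat_lit 347)) (XT.lf (nat_lit 76) (nat_lit 4511480945795) (nat_lit 0) (nat_lit 978462226341) (nat_lit 152) (nat_lit 4511480945795) (nat_lit 200) (nat_lit 1) (nat_lit 199) (nat_lit 1) (nat_lit 201) (nat_lit 1) (nat_lit 191) (nat_lit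 363) (nat_lit 346)))) (XT.nd (nat_lit 78) (nat_lit 76) (nat_lit 0) (XT.lf (nat_lit 152) (nat_lit 6026451138505) (nat_lit 0) (nat_lit 1743129046753) (nat_lit 76) (nat_lit 1743129046753) (nat_lit 200) (nat_lit 1) (nat_lit 198) (nat_lit 1) (nat_lit 199) (nat_lit 1) (nat_lit 192) (nat_lit 363) (nat_lit 345)) (XT.nd (nat_lit 78) (nat_lit 76) (nat_lit 0) (XT.lf (nat_lit 0) (nat_lit 1566907875172) (nat_lit 0) (nat_lit 5916492642118) (nat_lit 152) (nat_lit 1566907875172) (nat_lit 198) (nat_lit 3) (nat_lit 198) (nat_lit 1) (nat_lit 200) (nat_lit 1) (nat_lit 193) (nat_lit 363) (nat_lit 344)) (XT.lf (nat_lit 76) (nat_lit 349549146473) (nat_lit 0) (nat_lit 4131796769904) (nat_lit 76) (nat_lit 4131796769904) (nat_lit 198) (nat_lit 3) (nat_lit 197) (nat_lit 1) (nat_lit 198) (nat_lit 1) (nat_lit 194) (nat_lit 363) (nat_lit 343)))))) (XT.nd (nat_lit 390) (nat_lit 456) (nat_lit 0) (XT.nd (nat_lit 156) (nat_lit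 228) (nat_lit 0) (XT.nd (nat_lit 78) (nat_lit 0) (nat_lit 0) (XT.lf (nat_lit 152) (nat_lit 6210929774180) (nat_lit 0) (nat_lit 996639689968) (nat_lit 76) (nat_lit 996639689968) (nat_lit 197) (nat_lit 1) (nat_lit 195) (nat_lit 1) (nat_lit 196) (nat_lit 1) (nat_lit 195) (nat_lit 363) (nat_lit 342)) (XT.lf (nat_lit 0) (nat_lit 1773753481058) (nat_lit 0) (nat_lit 4260642688541) (nat_lit 152) (nat_lit 1773753481058) (nat_lit 195) (nat_lit 3) (nat_lit 195) (nat_lit 1) (nat_lit 197) (nat_lit 1) (nat_lit 196) (nat_lit 363) (nat_lit 341))) (XT.nd (nat_lit 78) (nat_lit 152) (nat_lit 0) (XT.lf (nat_lit 76) (nat_lit 1037821548788) (nat_lit 0) (nat_lit 3200333903121) (nat_lit 76) (nat_lit 3200333903121) (nat_lit 195) (nat_lit 3) (nat_lit 194) (nat_lit 1) (nat_lit 195) (nat_lit 1) (nat_lit 197) (nat_lit 363) (nat_lit 340)) (XT.nd (nat_lit 78) (nat_lit 0) (nat_lit 0) (XT.lf (nat_lit 152) (nat_lit 5955716453348)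 (nat_lit 0) (nat_lit 569831977426) (nat_lit 76) (nat_lit 569831977426) (nat_lit 194) (nat_lit 1) (nat_lit 192) (nat_lit 1) (nat_lit 193) (nat_lit 1) (nat_lit 198) (nat_lit 363) (nat_lit 339)) (XT.lf (nat_lit 0) (nat_lit 1777513499140) (nat_lit 0) (nat_lit 3199400474949) (nat_lit 152) (nat_lit 1777513499140) (nat_lit 192) (nat_lit 3) (nat_lit 192) (nat_lit 1) (nat_lit 194) (nat_lit 1) (nat_lit 199) (nat_lit 363) (nat_lit 338))))) (XT.nd (nat_lit 234) (nat_lit 228) (nat_lit 0) (XT.nd (nat_lit 78) (nat_lit 152) (nat_lit 0) (XT.lf (nat_lit 76) (nat_lit 1322043656081) (nat_lit 0) (nat_lit 2558467113306) (nat_lit 76) (nat_lit 2558467113306) (nat_lit 192) (nat_lit 3) (nat_lit 191) (nat_lit 1) (nat_lit 192) (nat_lit 1) (nat_lit 200) (nat_lit 363) (nat_lit 337)) (XT.nd (nat_lit 78) (nat_lit 0) (nat_lit 0) (XT.lf (nat_lit 152) (nat_lit 5496154296216) (nat_lit 0) (nat_lit 325803282536) (nat_lit 76) (nat_lit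 325803282536) (nat_lit 191) (nat_lit 1) (nat_lit 189) (nat_lit 1) (nat_lit 190) (nat_lit 1) (nat_lit 201) (nat_lit 363) (nat_lit 336)) (XT.lf (nat_lit 0) (nat_lit 1680094059578) (nat_lit 0) (nat_lit 2493062552863) (nat_lit 152) (nat_lit 1680094059578) (nat_lit 189) (nat_lit 3) (nat_lit 189) (nat_lit 1) (nat_lit 191) (nat_lit 1) (nat_lit 202) (nat_lit 363) (nat_lit 335)))) (XT.nd (nat_lit 78) (nat_lit 152) (nat_lit 0) (XT.lf (nat_lit 76) (nat_lit 1389505200932) (nat_lit 0) (nat_lit 2096434325528) (nat_lit 76) (nat_lit 2096434325528) (nat_lit 189) (nat_lit 3) (nat_lit 188) (nat_lit 1) (nat_lit 189) (nat_lit 1) (nat_lit 203) (nat_lit 363) (nat_lit 334)) (XT.nd (nat_lit 78) (nat_lit 0) (nat_lit 0) (XT.lf (nat_lit 152) (nat_lit 4960664999909) (nat_lit 0) (nat_lit 186279084214) (nat_lit 76) (nat_lit 186279084214) (nat_lit 188) (nat_lit 1) (nat_lit 186) (nat_lit 1) (nat_lit 187) (nat_lit 1) (nat_lit 204)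 (nat_lit 363) (nat_lit 333)) (XT.lf (nat_lit 0) (nat_lit 1537812229169) (nat_lit 0) (nat_lit 2002629603770) (nat_lit 152) (nat_lit 1537812229169) (nat_lit 186) (nat_lit 3) (nat_lit 186) (nat_lit 1) (nat_lit 188) (nat_lit 1) (nat_lit 205) (nat_lit 363) (nat_lit 332))))))) (XT.nd (nat_lit 858) (nat_lit 760) (nat_lit 0) (XT.nd (nat_lit 390) (nat_lit 456) (nat_lit 0) (XT.nd (nat_lit 156) (nat_lit 228) (nat_lit 0) (XT.nd (nat_lit 78) (nat_lit 152) (nat_lit 0) (XT.lf (nat_lit 76) (nat_lit 1345430151664) (nat_lit 0) (nat_lit 1749619173056) (nat_lit 76) (nat_lit 1749619173056) (nat_lit 186) (nat_lit 3) (nat_lit 185) (nat_lit 1) (nat_lit 186) (nat_lit 1) (nat_lit 206) (nat_lit 363) (nat_lit 331)) (XT.lf (nat_lit 152) (nat_lit 4417338003361) (nat_lit 0) (nat_lit 106505670986) (nat_lit 76) (nat_lit 106505670986) (nat_lit 185) (nat_lit 1) (nat_lit 183) (nat_lit 1) (nat_lit 184) (nat_lit 1) (nat_lit 207) (nat_lit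 363) (nat_lit 330))) (XT.nd (nat_lit 78) (nat_lit 228) (nat_lit 0) (XT.lf (nat_lit 0) (nat_lit 1381173478970) (nat_lit 0) (nat_lit 1646934321506) (nat_lit 152) (nat_lit 1381173478970) (nat_lit 183) (nat_lit 3) (nat_lit 183) (nat_lit 1) (nat_lit 185) (nat_lit 1) (nat_lit 208) (nat_lit 363) (nat_lit 329)) (XT.nd (nat_lit 78) (nat_lit 152) (nat_lit 0) (XT.lf (nat_lit 76) (nat_lit 1248363658770) (nat_lit 0) (nat_lit 1479460043584) (nat_lit 76) (nat_lit 1479460043584) (nat_lit 183) (nat_lit 3) (nat_lit 182) (nat_lit 1) (nat_lit 183) (nat_lit 1) (nat_lit 209) (nat_lit 363) (nat_lit 328)) (XT.lf (nat_lit 152) (nat_lit 3900463591923) (nat_lit 0) (nat_lit 60894963060) (nat_lit 76) (nat_lit 60894963060) (nat_lit 182) (nat_lit 1) (nat_lit 180) (nat_lit 1) (nat_lit 181) (nat_lit 1) (nat_lit 210) (nat_lit 363) (nat_lit 327))))) (XT.nd (nat_lit 234) (nat_lit 228) (nat_lit 0) (XT.nd (nat_lit 78) (nat_lit 228)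 (nat_lit 0) (XT.lf (nat_lit 0) (nat_lit 1226146372223) (nat_lit 0) (nat_lit 1378095996494) (nat_lit 152) (nat_lit 1226146372223) (nat_lit 180) (nat_lit 3) (nat_lit 180) (nat_lit 1) (nat_lit 182) (nat_lit 1) (nat_lit 211) (nat_lit 363) (nat_lit 326)) (XT.nd (nat_lit 78) (nat_lit 152) (nat_lit 0) (XT.lf (nat_lit 76) (nat_lit 1130373019527) (nat_lit 0) (nat_lit 1262503127589) (nat_lit 76) (nat_lit 1262503127589) (nat_lit 180) (nat_lit 3) (nat_lit 179) (nat_lit 1) (nat_lit 180) (nat_lit 1) (nat_lit 212) (nat_lit 363) (nat_lit 325)) (XT.lf (nat_lit 152) (nat_lit 3425612502017) (nat_lit 0) (nat_lit 34816892769) (nat_lit 76) (nat_lit 34816892770) (nat_lit 179) (nat_lit 1) (nat_lit 177) (nat_lit 1) (nat_lit 178) (nat_lit 1) (nat_lit 213) (nat_lit 363) (nat_lit 324)))) (XT.nd (nat_lit 78) (nat_lit 228) (nat_lit 0) (XT.lf (nat_lit 0) (nat_lit 1080580083451) (nat_lit 0) (nat_lit 1167457774295) (nat_lit 152)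 (nat_lit 1080580083452) (nat_lit 177) (nat_lit 3) (nat_lit 177) (nat_lit 1) (nat_lit 179) (nat_lit 1) (nat_lit 214) (nat_lit 363) (nat_lit 323)) (XT.nd (nat_lit 78) (nat_lit 152) (nat_lit 0) (XT.lf (nat_lit 76) (nat_lit 1008570134772) (nat_lit 0) (nat_lit 1084115952897) (nat_lit 76) (nat_lit 1084115952897) (nat_lit 177) (nat_lit 3) (nat_lit 176) (nat_lit 1) (nat_lit 177) (nat_lit 1) (nat_lit 215) (nat_lit 363) (nat_lit 322)) (XT.lf (nat_lit 152) (nat_lit 2998178791405) (nat_lit 0) (nat_lit 19906671442) (nat_lit 76) (nat_lit 19906671442) (nat_lit 176) (nat_lit 1) (nat_lit 174) (nat_lit 1) (nat_lit 175) (nat_lit 1) (nat_lit 216) (nat_lit 363) (nat_lit 321)))))) (XT.nd (nat_lit 390) (nat_lit 456) (nat_lit 0) (XT.nd (nat_lit 156) (nat_lit 228) (nat_lit 0) (XT.nd (nat_lit 78) (nat_lit 76) (nat_lit 0) (XT.lf (nat_lit 0) (nat_lit 947848574672) (nat_lit 0) (nat_lit 997521176382) (nat_lit 152) (nat_lit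 947848574672) (nat_lit 174) (nat_lit 3) (nat_lit 174) (nat_lit 1) (nat_lit 176) (nat_lit 1) (nat_lit 217) (nat_lit 363) (nat_lit 320)) (XT.lf (nat_lit 76) (nat_lit 891675588943) (nat_lit 0) (nat_lit 934869155647) (nat_lit 76) (nat_lit 934869155647) (nat_lit 174) (nat_lit 3) (nat_lit 173) (nat_lit 1) (nat_lit 174) (nat_lit 1) (nat_lit 218) (nat_lit 363) (nat_lit 319))) (XT.nd (nat_lit 78) (nat_lit 76) (nat_lit 0) (XT.lf (nat_lit 152) (nat_lit 2618195607230) (nat_lit 0) (nat_lit 11381704006) (nat_lit 76) (nat_lit 11381704006) (nat_lit 173) (nat_lit 1) (nat_lit 171) (nat_lit 1) (nat_lit 172) (nat_lit 1) (nat_lit 219) (nat_lit 363) (nat_lit 318)) (XT.nd (nat_lit 78) (nat_lit 76) (nat_lit 0) (XT.lf (nat_lit 0) (nat_lit 828912372670) (nat_lit 0) (nat_lit 857312843914) (nat_lit 152) (nat_lit 828912372670) (nat_lit 171) (nat_lit 3) (nat_lit 171) (nat_lit 1) (nat_lit 173) (nat_lit 1) (nat_lit 220) (nat_lit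 363) (nat_lit 317)) (XT.lf (nat_lit 76) (nat_lit 783750882411) (nat_lit 0) (nat_lit 808446944363) (nat_lit 76) (nat_lit 808446944363) (nat_lit 171) (nat_lit 3) (nat_lit 170) (nat_lit 1) (nat_lit 171) (nat_lit 1) (nat_lit 221) (nat_lit 363) (nat_lit 316))))) (XT.nd (nat_lit 234) (nat_lit 228) (nat_lit 0) (XT.nd (nat_lit 78) (nat_lit 76) (nat_lit 0) (XT.lf (nat_lit 152) (nat_lit 2283028925054) (nat_lit 0) (nat_lit 6507526205) (nat_lit 76) (nat_lit 6507526206) (nat_lit 170) (nat_lit 1) (nat_lit 168) (nat_lit 1) (nat_lit 169) (nat_lit 1) (nat_lit 222) (nat_lit 363) (nat_lit 315)) (XT.nd (nat_lit 78) (nat_lit 76) (nat_lit 0) (XT.lf (nat_lit 0) (nat_lit 723478447012) (nat_lit 0) (nat_lit 739716508623) (nat_lit 152) (nat_lit 723478447012) (nat_lit 168) (nat_lit 3) (nat_lit 168) (nat_lit 1) (nat_lit 170) (nat_lit 1) (nat_lit 223) (nat_lit 363) (nat_lit 314)) (XT.lf (nat_lit 76) (nat_lit 686314258944) (nat_lit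 0) (nat_lit 700434312518) (nat_lit 76) (nat_lit 700434312518) (nat_lit 168) (nat_lit 3) (nat_lit 167) (nat_lit 1) (nat_lit 168) (nat_lit 1) (nat_lit 224) (nat_lit 363) (nat_lit 313)))) (XT.nd (nat_lit 78) (nat_lit 76) (nat_lit 0) (XT.lf (nat_lit 152) (nat_lit 1988865796832) (nat_lit 0) (nat_lit 3720699229) (nat_lit 76) (nat_lit 3720699229) (nat_lit 167) (nat_lit 1) (nat_lit 165) (nat_lit 1) (nat_lit 166) (nat_lit 1) (nat_lit 225) (nat_lit 363) (nat_lit 312)) (XT.nd (nat_lit 78) (nat_lit 76) (nat_lit 0) (XT.lf (nat_lit 0) (nat_lit 630646895958) (nat_lit 0) (nat_lit 639931060385) (nat_lit 152) (nat_lit 630646895958) (nat_lit 165) (nat_lit 3) (nat_lit 165) (nat_lit 1) (nat_lit 167) (nat_lit 1) (nat_lit 226) (nat_lit 363) (nat_lit 311)) (XT.lf (nat_lit 76) (nat_lit 599534707820) (nat_lit 0) (nat_lit 607607894279) (nat_lit 76) (nat_lit 607607894279) (nat_lit 165) (nat_lit 3) (nat_lit 164) (nat_lit 1)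 (nat_lit 165) (nat_lit 1) (nat_lit 227) (nat_lit 363) (nat_lit 310))))))))
noncomputable def ec213 : XT := (XT.nd (nat_lit 1716) (nat_lit 1672) (nat_lit 0) (XT.nd (nat_lit 858) (nat_lit 912) (nat_lit 0) (XT.nd (nat_lit 390) (nat_lit 456) (nat_lit 0) (XT.nd (nat_lit 156) (nat_lit 228) (nat_lit 0) (XT.nd (nat_lit 78) (nat_lit 0) (nat_lit 0) (XT.lf (nat_lit 152) (nat_lit 1731520125823) (nat_lit 0) (nat_lit 2127321860) (nat_lit 76) (nat_lit 2127321860) (nat_lit 164) (nat_lit 1) (nat_lit 162) (nat_lit 1) (nat_lit 163) (nat_lit 1) (nat_lit 228) (nat_lit 363) (nat_lit 309)) (XT.lf (nat_lit 0) (nat_lit 549266362423) (nat_lit 0) (nat_lit 554574613567) (nat_lit 152) (nat_lit 549266362423) (nat_lit 162) (nat_lit 3) (nat_lit 162) (nat_lit 1) (nat_lit 164) (nat_lit 1) (nat_lit 229) (nat_lit 363) (nat_lit 308))) (XT.nd (nat_lit 78) (nat_lit 152) (nat_lit 0) (XT.lf (nat_lit 76) (nat_lit 522900960931) (nat_lit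 0) (nat_lit 527516831491) (nat_lit 76) (nat_lit 527516831491) (nat_lit 162) (nat_lit 3) (nat_lit 161) (nat_lit 1) (nat_lit 162) (nat_lit 1) (nat_lit 230) (nat_lit 363) (nat_lit 307)) (XT.nd (nat_lit 78) (nat_lit 0) (nat_lit 0) (XT.lf (nat_lit 152) (nat_lit 1506854122562) (nat_lit 0) (nat_lit 1216303177) (nat_lit 76) (nat_lit 1216303177) (nat_lit 161) (nat_lit 1) (nat_lit 159) (nat_lit 1) (nat_lit 160) (nat_lit 1) (nat_lit 231) (nat_lit 363) (nat_lit 306)) (XT.lf (nat_lit 0) (nat_lit 478124784399) (nat_lit 0) (nat_lit 481159794219) (nat_lit 152) (nat_lit 478124784399) (nat_lit 159) (nat_lit 3) (nat_lit 159) (nat_lit 1) (nat_lit 161) (nat_lit 1) (nat_lit 232) (nat_lit 363) (nat_lit 305))))) (XT.nd (nat_lit 234) (nat_lit 228) (nat_lit 0) (XT.nd (nat_lit 78) (nat_lit 152) (nat_lit 0) (XT.lf (nat_lit 76) (nat_lit 455592100570) (nat_lit 0) (nat_lit 458231239544) (nat_lit 76) (nat_lit 458231239544) (nat_lit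 159) (nat_lit 3) (nat_lit 158) (nat_lit 1) (nat_lit 159) (nat_lit 1) (nat_lit 233) (nat_lit 363) (nat_lit 304)) (XT.nd (nat_lit 78) (nat_lit 0) (nat_lit 0) (XT.lf (nat_lit 152) (nat_lit 1310985144612) (nat_lit 0) (nat_lit 695425289) (nat_lit 76) (nat_lit 695425289) (nat_lit 158) (nat_lit 1) (nat_lit 156) (nat_lit 1) (nat_lit 157) (nat_lit 1) (nat_lit 234) (nat_lit 363) (nat_lit 303)) (XT.lf (nat_lit 0) (nat_lit 416047622485) (nat_lit 0) (nat_lit 417782899200) (nat_lit 152) (nat_lit 416047622485) (nat_lit 156) (nat_lit 3) (nat_lit 156) (nat_lit 1) (nat_lit 158) (nat_lit 1) (nat_lit 235) (nat_lit 363) (nat_lit 302)))) (XT.nd (nat_lit 78) (nat_lit 152) (nat_lit 0) (XT.lf (nat_lit 76) (nat_lit 396679113501) (nat_lit 0) (nat_lit 398188049775) (nat_lit 76) (nat_lit 398188049775) (nat_lit 156) (nat_lit 3) (nat_lit 155) (nat_lit 1) (nat_lit 156) (nat_lit 1) (nat_lit 236) (nat_lit 363) (nat_lit 301)) (XT.nd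 (nat_lit 78) (nat_lit 0) (nat_lit 0) (XT.lf (nat_lit 152) (nat_lit 1140374280402) (nat_lit 0) (nat_lit 397611666) (nat_lit 76) (nat_lit 397611666) (nat_lit 155) (nat_lit 1) (nat_lit 153) (nat_lit 1) (nat_lit 154) (nat_lit 1) (nat_lit 237) (nat_lit 363) (nat_lit 300)) (XT.lf (nat_lit 0) (nat_lit 361944600396) (nat_lit 0) (nat_lit 362936750490) (nat_lit 152) (nat_lit 361944600396) (nat_lit 153) (nat_lit 3) (nat_lit 153) (nat_lit 1) (nat_lit 155) (nat_lit 1) (nat_lit 238) (nat_lit 363) (nat_lit 299)))))) (XT.nd (nat_lit 390) (nat_lit 456) (nat_lit 0) (XT.nd (nat_lit 156) (nat_lit 228) (nat_lit 0) (XT.nd (nat_lit 78) (nat_lit 152) (nat_lit 0) (XT.lf (nat_lit 76) (nat_lit 345231136981) (nat_lit 0) (nat_lit 346093876193) (nat_lit 76) (nat_lit 346093876193) (nat_lit 153) (nat_lit 3) (nat_lit 152) (nat_lit 1) (nat_lit 153) (nat_lit 1) (nat_lit 239) (nat_lit 363) (nat_lit 298)) (XT.lf (nat_lit 152) (nat_lit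 991851190833) (nat_lit 0) (nat_lit 227335760) (nat_lit 76) (nat_lit 227335760) (nat_lit 152) (nat_lit 1) (nat_lit 150) (nat_lit 1) (nat_lit 151) (nat_lit 1) (nat_lit 240) (nat_lit 363) (nat_lit 297))) (XT.nd (nat_lit 78) (nat_lit 228) (nat_lit 0) (XT.lf (nat_lit 0) (nat_lit 314828236453) (nat_lit 0) (nat_lit 315395501489) (nat_lit 152) (nat_lit 314828236453) (nat_lit 150) (nat_lit 3) (nat_lit 150) (nat_lit 1) (nat_lit 152) (nat_lit 1) (nat_lit 241) (nat_lit 363) (nat_lit 296)) (XT.nd (nat_lit 78) (nat_lit 152) (nat_lit 0) (XT.lf (nat_lit 76) (nat_lit 300368385116) (nat_lit 0) (nat_lit 300861659060) (nat_lit 76) (nat_lit 300861659060) (nat_lit 150) (nat_lit 3) (nat_lit 149) (nat_lit 1) (nat_lit 150) (nat_lit 1) (nat_lit 242) (nat_lit 363) (nat_lit 295)) (XT.lf (nat_lit 152) (nat_lit 862605872132) (nat_lit 0) (nat_lit 129979959) (nat_lit 76) (nat_lit 129979959) (nat_lit 149) (nat_lit 1) (nat_lit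 147) (nat_lit 1) (nat_lit 148) (nat_lit 1) (nat_lit 243) (nat_lit 363) (nat_lit 294))))) (XT.nd (nat_lit 234) (nat_lit 228) (nat_lit 0) (XT.nd (nat_lit 78) (nat_lit 228) (nat_lit 0) (XT.lf (nat_lit 0) (nat_lit 273817315084) (nat_lit 0) (nat_lit 274141650710) (nat_lit 152) (nat_lit 273817315084) (nat_lit 147) (nat_lit 3) (nat_lit 147) (nat_lit 1) (nat_lit 149) (nat_lit 1) (nat_lit 244) (nat_lit 363) (nat_lit 293)) (XT.nd (nat_lit 78) (nat_lit 152) (nat_lit 0) (XT.lf (nat_lit 76) (nat_lit 261285609557) (nat_lit 0) (nat_lit 261567640535) (nat_lit 76) (nat_lit 261567640535) (nat_lit 147) (nat_lit 3) (nat_lit 146) (nat_lit 1) (nat_lit 147) (nat_lit 1) (nat_lit 245) (nat_lit 363) (nat_lit 292)) (XT.lf (nat_lit 152) (nat_lit 750164432822) (nat_lit 0) (nat_lit 74316463) (nat_lit 76) (nat_lit 74316463) (nat_lit 146) (nat_lit 1) (nat_lit 144) (nat_lit 1) (nat_lit 145) (nat_lit 1) (nat_lit 246) (nat_lit 363)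 (nat_lit 291)))) (XT.nd (nat_lit 78) (nat_lit 228) (nat_lit 0) (XT.lf (nat_lit 0) (nat_lit 238132676936) (nat_lit 0) (nat_lit 238318116883) (nat_lit 152) (nat_lit 238132676936) (nat_lit 144) (nat_lit 3) (nat_lit 144) (nat_lit 1) (nat_lit 146) (nat_lit 1) (nat_lit 247) (nat_lit 363) (nat_lit 290)) (XT.nd (nat_lit 78) (nat_lit 152) (nat_lit 0) (XT.lf (nat_lit 76) (nat_lit 227259600067) (nat_lit 0) (nat_lit 227420852195) (nat_lit 76) (nat_lit 227420852195) (nat_lit 144) (nat_lit 3) (nat_lit 143) (nat_lit 1) (nat_lit 144) (nat_lit 1) (nat_lit 248) (nat_lit 363) (nat_lit 289)) (XT.lf (nat_lit 152) (nat_lit 652358275945) (nat_lit 0) (nat_lit 42490679) (nat_lit 76) (nat_lit 42490679) (nat_lit 143) (nat_lit 1) (nat_lit 141) (nat_lit 1) (nat_lit 142) (nat_lit 1) (nat_lit 249) (nat_lit 363) (nat_lit 288))))))) (XT.nd (nat_lit 858) (nat_lit 912) (nat_lit 0) (XT.nd (nat_lit 390) (nat_lit 456) (nat_lit 0) (XT.nd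 (nat_lit 156) (nat_lit 228) (nat_lit 0) (XT.nd (nat_lit 78) (nat_lit 76) (nat_lit 0) (XT.lf (nat_lit 0) (nat_lit 207089425127) (nat_lit 0) (nat_lit 207195451018) (nat_lit 152) (nat_lit 207089425127) (nat_lit 141) (nat_lit 3) (nat_lit 141) (nat_lit 1) (nat_lit 143) (nat_lit 1) (nat_lit 250) (nat_lit 363) (nat_lit 287)) (XT.lf (nat_lit 76) (nat_lit 197648331128) (nat_lit 0) (nat_lit 197740527555) (nat_lit 76) (nat_lit 197740527555) (nat_lit 141) (nat_lit 3) (nat_lit 140) (nat_lit 1) (nat_lit 141) (nat_lit 1) (nat_lit 251) (nat_lit 363) (nat_lit 286))) (XT.nd (nat_lit 78) (nat_lit 76) (nat_lit 0) (XT.lf (nat_lit 152) (nat_lit 567291723953) (nat_lit 0) (nat_lit 24294183) (nat_lit 76) (nat_lit 24294183) (nat_lit 140) (nat_lit 1) (nat_lit 138) (nat_lit 1) (nat_lit 139) (nat_lit 1) (nat_lit 252) (nat_lit 363) (nat_lit 285)) (XT.nd (nat_lit 78) (nat_lit 76) (nat_lit 0) (XT.lf (nat_lit 0) (nat_lit 180087785037)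 (nat_lit 0) (nat_lit 180148405684) (nat_lit 152) (nat_lit 180087785037) (nat_lit 138) (nat_lit 3) (nat_lit 138) (nat_lit 1) (nat_lit 140) (nat_lit 1) (nat_lit 253) (nat_lit 363) (nat_lit 284)) (XT.lf (nat_lit 76) (nat_lit 171886002806) (nat_lit 0) (nat_lit 171938716412) (nat_lit 76) (nat_lit 171938716412) (nat_lit 138) (nat_lit 3) (nat_lit 137) (nat_lit 1) (nat_lit 138) (nat_lit 1) (nat_lit 254) (nat_lit 363) (nat_lit 283))))) (XT.nd (nat_lit 234) (nat_lit 228) (nat_lit 0) (XT.nd (nat_lit 78) (nat_lit 76) (nat_lit 0) (XT.lf (nat_lit 152) (nat_lit 493310677753) (nat_lit 0) (nat_lit 13890278) (nat_lit 76) (nat_lit 13890278) (nat_lit 137) (nat_lit 1) (nat_lit 135) (nat_lit 1) (nat_lit 136) (nat_lit 1) (nat_lit 255) (nat_lit 363) (nat_lit 282)) (XT.nd (nat_lit 78) (nat_lit 76) (nat_lit 0) (XT.lf (nat_lit 0) (nat_lit 156603805232) (nat_lit 0) (nat_lit 156638465284) (nat_lit 152) (nat_lit 156603805232)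 (nat_lit 135) (nat_lit 3) (nat_lit 135) (nat_lit 1) (nat_lit 137) (nat_lit 1) (nat_lit 256) (nat_lit 363) (nat_lit 281)) (XT.lf (nat_lit 76) (nat_lit 149476317365) (nat_lit 0) (nat_lit 149506456541) (nat_lit 76) (nat_lit 149506456541) (nat_lit 135) (nat_lit 3) (nat_lit 134) (nat_lit 1) (nat_lit 135) (nat_lit 1) (nat_lit 257) (nat_lit 363) (nat_lit 280)))) (XT.nd (nat_lit 78) (nat_lit 76) (nat_lit 0) (XT.lf (nat_lit 152) (nat_lit 428973540555) (nat_lit 0) (nat_lit 7941811) (nat_lit 76) (nat_lit 7941811) (nat_lit 134) (nat_lit 1) (nat_lit 132) (nat_lit 1) (nat_lit 133) (nat_lit 1) (nat_lit 258) (nat_lit 363) (nat_lit 279)) (XT.nd (nat_lit 78) (nat_lit 76) (nat_lit 0) (XT.lf (nat_lit 0) (nat_lit 136180498823) (nat_lit 0) (nat_lit 136200315820) (nat_lit 152) (nat_lit 136180498823) (nat_lit 132) (nat_lit 3) (nat_lit 132) (nat_lit 1) (nat_lit 134) (nat_lit 1) (nat_lit 259) (nat_lit 363) (nat_lit 278))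 (XT.lf (nat_lit 76) (nat_lit 129985254279) (nat_lit 0) (nat_lit 130002486450) (nat_lit 76) (nat_lit 130002486450) (nat_lit 132) (nat_lit 3) (nat_lit 131) (nat_lit 1) (nat_lit 132) (nat_lit 1) (nat_lit 260) (nat_lit 363) (nat_lit 277)))))) (XT.nd (nat_lit 468) (nat_lit 456) (nat_lit 0) (XT.nd (nat_lit 234) (nat_lit 228) (nat_lit 0) (XT.nd (nat_lit 78) (nat_lit 76) (nat_lit 0) (XT.lf (nat_lit 152) (nat_lit 373024891881) (nat_lit 0) (nat_lit 4540756) (nat_lit 76) (nat_lit 4540756) (nat_lit 131) (nat_lit 1) (nat_lit 129) (nat_lit 1) (nat_lit 130) (nat_lit 1) (nat_lit 261) (nat_lit 363) (nat_lit 276)) (XT.nd (nat_lit 78) (nat_lit 76) (nat_lit 0) (XT.lf (nat_lit 0) (nat_lit 118419698631) (nat_lit 0) (nat_lit 118431029064) (nat_lit 152) (nat_lit 118419698631) (nat_lit 129) (nat_lit 3) (nat_lit 129) (nat_lit 1) (nat_lit 131) (nat_lit 1) (nat_lit 262) (nat_lit 363) (nat_lit 275)) (XT.lf (nat_lit 76) (nat_lit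 113033999436) (nat_lit 0) (nat_lit 113043851986) (nat_lit 76) (nat_lit 113043851986) (nat_lit 129) (nat_lit 3) (nat_lit 128) (nat_lit 1) (nat_lit 129) (nat_lit 1) (nat_lit 263) (nat_lit 363) (nat_lit 274)))) (XT.nd (nat_lit 78) (nat_lit 76) (nat_lit 0) (XT.lf (nat_lit 152) (nat_lit 324371999399) (nat_lit 0) (nat_lit 2596192) (nat_lit 76) (nat_lit 2596192) (nat_lit 128) (nat_lit 1) (nat_lit 126) (nat_lit 1) (nat_lit 127) (nat_lit 1) (nat_lit 264) (nat_lit 363) (nat_lit 273)) (XT.nd (nat_lit 78) (nat_lit 76) (nat_lit 0) (XT.lf (nat_lit 0) (nat_lit 102974722202) (nat_lit 0) (nat_lit 102981200414) (nat_lit 152) (nat_lit 102974722202) (nat_lit 126) (nat_lit 3) (nat_lit 126) (nat_lit 1) (nat_lit 128) (nat_lit 1) (nat_lit 265) (nat_lit 363) (nat_lit 272)) (XT.lf (nat_lit 76) (nat_lit 98292345973) (nat_lit 0) (nat_lit 98297979200) (nat_lit 76) (nat_lit 98297979200) (nat_lit 126) (nat_lit 3) (nat_lit 125)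 (nat_lit 1) (nat_lit 126) (nat_lit 1) (nat_lit 266) (nat_lit 363) (nat_lit 271))))) (XT.nd (nat_lit 234) (nat_lit 228) (nat_lit 0) (XT.nd (nat_lit 78) (nat_lit 76) (nat_lit 0) (XT.lf (nat_lit 152) (nat_lit 282064053678) (nat_lit 0) (nat_lit 1484381) (nat_lit 76) (nat_lit 1484381) (nat_lit 125) (nat_lit 1) (nat_lit 123) (nat_lit 1) (nat_lit 124) (nat_lit 1) (nat_lit 267) (nat_lit 363) (nat_lit 270)) (XT.nd (nat_lit 78) (nat_lit 76) (nat_lit 0) (XT.lf (nat_lit 0) (nat_lit 89543849170) (nat_lit 0) (nat_lit 89547553109) (nat_lit 152) (nat_lit 89543849170) (nat_lit 123) (nat_lit 3) (nat_lit 123) (nat_lit 1) (nat_lit 125) (nat_lit 1) (nat_lit 268) (nat_lit 363) (nat_lit 269)) (XT.lf (nat_lit 76) (nat_lit 85472698203) (nat_lit 0) (nat_lit 85475919019) (nat_lit 76) (nat_lit 85475919019) (nat_lit 123) (nat_lit 3) (nat_lit 122) (nat_lit 1) (nat_lit 123) (nat_lit 1) (nat_lit 269) (nat_lit 363) (nat_lit 268))))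 (XT.nd (nat_lit 78) (nat_lit 76) (nat_lit 0) (XT.lf (nat_lit 152) (nat_lit 245273916627) (nat_lit 0) (nat_lit 848699) (nat_lit 76) (nat_lit 848699) (nat_lit 122) (nat_lit 1) (nat_lit 120) (nat_lit 1) (nat_lit 121) (nat_lit 1) (nat_lit 270) (nat_lit 363) (nat_lit 267)) (XT.nd (nat_lit 78) (nat_lit 76) (nat_lit 0) (XT.lf (nat_lit 0) (nat_lit 77864566853) (nat_lit 0) (nat_lit 77866684592) (nat_lit 152) (nat_lit 77864566853) (nat_lit 120) (nat_lit 3) (nat_lit 120) (nat_lit 1) (nat_lit 122) (nat_lit 1) (nat_lit 271) (nat_lit 363) (nat_lit 266)) (XT.lf (nat_lit 76) (nat_lit 74324710326) (nat_lit 0) (nat_lit 74326551838) (nat_lit 76) (nat_lit 74326551838) (nat_lit 120) (nat_lit 3) (nat_lit 119) (nat_lit 1) (nat_lit 120) (nat_lit 1) (nat_lit 272) (nat_lit 363) (nat_lit 265))))))))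
noncomputable def ec214 : XT := (XT.nd (nat_lit 1716) (nat_lit 1596) (nat_lit 0) (XT.nd (nat_lit 858) (nat_lit 912) (nat_lit 0) (XT.nd (nat_lit 390) (nat_lit 456) (nat_lit 0) (XT.nd (nat_lit 156) (nat_lit 228) (nat_lit 0) (XT.nd (nat_lit 78) (nat_lit 0) (nat_lit 0) (XT.lf (nat_lit 152) (nat_lit 213282139170) (nat_lit 0) (nat_lit 485246) (nat_lit 76) (nat_lit 485246) (nat_lit 119) (nat_lit 1) (nat_lit 117) (nat_lit 1) (nat_lit 118) (nat_lit 1) (nat_lit 273) (nat_lit 363) (nat_lit 264)) (XT.lf (nat_lit 0) (nat_lit 67708519221) (nat_lit 0) (nat_lit 67709730045) (nat_lit 152) (nat_lit 67708519221) (nat_lit 117) (nat_lit 3) (nat_lit 117) (nat_lit 1) (nat_lit 119) (nat_lit 1) (nat_lit 274) (nat_lit 363) (nat_lit 263))) (XT.nd (nat_lit 78) (nat_lit 152) (nat_lit 0) (XT.lf (nat_lit 76) (nat_lit 64630540199) (nat_lit 0) (nat_lit 64631593089) (nat_lit 76) (nat_lit 64631593089) (nat_lit 117) (nat_lit 3) (nat_lit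 116) (nat_lit 1) (nat_lit 117) (nat_lit 1) (nat_lit 275) (nat_lit 363) (nat_lit 262)) (XT.nd (nat_lit 78) (nat_lit 0) (nat_lit 0) (XT.lf (nat_lit 152) (nat_lit 185462999888) (nat_lit 0) (nat_lit 277441) (nat_lit 76) (nat_lit 277441) (nat_lit 116) (nat_lit 1) (nat_lit 114) (nat_lit 1) (nat_lit 115) (nat_lit 1) (nat_lit 276) (nat_lit 363) (nat_lit 261)) (XT.lf (nat_lit 0) (nat_lit 58877087711) (nat_lit 0) (nat_lit 58877780004) (nat_lit 152) (nat_lit 58877087711) (nat_lit 114) (nat_lit 3) (nat_lit 114) (nat_lit 1) (nat_lit 116) (nat_lit 1) (nat_lit 277) (nat_lit 363) (nat_lit 260))))) (XT.nd (nat_lit 234) (nat_lit 228) (nat_lit 0) (XT.nd (nat_lit 78) (nat_lit 152) (nat_lit 0) (XT.lf (nat_lit 76) (nat_lit 56200674029) (nat_lit 0) (nat_lit 56201276023) (nat_lit 76) (nat_lit 56201276023) (nat_lit 114) (nat_lit 3) (nat_lit 113) (nat_lit 1) (nat_lit 114) (nat_lit 1) (nat_lit 278) (nat_lit 363) (nat_lit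 259)) (XT.nd (nat_lit 78) (nat_lit 0) (nat_lit 0) (XT.lf (nat_lit 152) (nat_lit 161272328289) (nat_lit 0) (nat_lit 158628) (nat_lit 76) (nat_lit 158628) (nat_lit 113) (nat_lit 1) (nat_lit 111) (nat_lit 1) (nat_lit 112) (nat_lit 1) (nat_lit 279) (nat_lit 363) (nat_lit 258)) (XT.lf (nat_lit 0) (nat_lit 51197533026) (nat_lit 0) (nat_lit 51197928847) (nat_lit 152) (nat_lit 51197533026) (nat_lit 111) (nat_lit 3) (nat_lit 111) (nat_lit 1) (nat_lit 113) (nat_lit 1) (nat_lit 280) (nat_lit 363) (nat_lit 257)))) (XT.nd (nat_lit 78) (nat_lit 152) (nat_lit 0) (XT.lf (nat_lit 76) (nat_lit 48870268134) (nat_lit 0) (nat_lit 48870612326) (nat_lit 76) (nat_lit 48870612326) (nat_lit 111) (nat_lit 3) (nat_lit 110) (nat_lit 1) (nat_lit 111) (nat_lit 1) (nat_lit 281) (nat_lit 363) (nat_lit 256)) (XT.nd (nat_lit 78) (nat_lit 0) (nat_lit 0) (XT.lf (nat_lit 152) (nat_lit 140236895529) (nat_lit 0) (nat_lit 90696) (nat_lit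 76) (nat_lit 90696) (nat_lit 110) (nat_lit 1) (nat_lit 108) (nat_lit 1) (nat_lit 109) (nat_lit 1) (nat_lit 282) (nat_lit 363) (nat_lit 255)) (XT.lf (nat_lit 0) (nat_lit 44519631358) (nat_lit 0) (nat_lit 44519857670) (nat_lit 152) (nat_lit 44519631358) (nat_lit 108) (nat_lit 3) (nat_lit 108) (nat_lit 1) (nat_lit 110) (nat_lit 1) (nat_lit 283) (nat_lit 363) (nat_lit 254)))))) (XT.nd (nat_lit 390) (nat_lit 456) (nat_lit 0) (XT.nd (nat_lit 156) (nat_lit 228) (nat_lit 0) (XT.nd (nat_lit 78) (nat_lit 152) (nat_lit 0) (XT.lf (nat_lit 76) (nat_lit 42495952117) (nat_lit 0) (nat_lit 42496148910) (nat_lit 76) (nat_lit 42496148910) (nat_lit 108) (nat_lit 3) (nat_lit 107) (nat_lit 1) (nat_lit 108) (nat_lit 1) (nat_lit 284) (nat_lit 363) (nat_lit 253)) (XT.lf (nat_lit 152) (nat_lit 121945177044) (nat_lit 0) (nat_lit 51855) (nat_lit 76) (nat_lit 51855) (nat_lit 107) (nat_lit 1) (nat_lit 105) (nat_lit 1) (nat_lit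 106) (nat_lit 1) (nat_lit 285) (nat_lit 363) (nat_lit 252))) (XT.nd (nat_lit 78) (nat_lit 228) (nat_lit 0) (XT.lf (nat_lit 0) (nat_lit 38712744316) (nat_lit 0) (nat_lit 38712873711) (nat_lit 152) (nat_lit 38712744316) (nat_lit 105) (nat_lit 3) (nat_lit 105) (nat_lit 1) (nat_lit 107) (nat_lit 1) (nat_lit 286) (nat_lit 363) (nat_lit 251)) (XT.nd (nat_lit 78) (nat_lit 152) (nat_lit 0) (XT.lf (nat_lit 76) (nat_lit 36953040024) (nat_lit 0) (nat_lit 36953152541) (nat_lit 76) (nat_lit 36953152541) (nat_lit 105) (nat_lit 3) (nat_lit 104) (nat_lit 1) (nat_lit 105) (nat_lit 1) (nat_lit 287) (nat_lit 363) (nat_lit 250)) (XT.lf (nat_lit 152) (nat_lit 106039313259) (nat_lit 0) (nat_lit 29648) (nat_lit 76) (nat_lit 29648) (nat_lit 104) (nat_lit 1) (nat_lit 102) (nat_lit 1) (nat_lit 103) (nat_lit 1) (nat_lit 288) (nat_lit 363) (nat_lit 249))))) (XT.nd (nat_lit 234) (nat_lit 228) (nat_lit 0) (XT.nd (nat_lit 78)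 (nat_lit 228) (nat_lit 0) (XT.lf (nat_lit 0) (nat_lit 33663268161) (nat_lit 0) (nat_lit 33663342142) (nat_lit 152) (nat_lit 33663268161) (nat_lit 102) (nat_lit 3) (nat_lit 102) (nat_lit 1) (nat_lit 104) (nat_lit 1) (nat_lit 289) (nat_lit 363) (nat_lit 248)) (XT.nd (nat_lit 78) (nat_lit 152) (nat_lit 0) (XT.lf (nat_lit 76) (nat_lit 32133100113) (nat_lit 0) (nat_lit 32133164445) (nat_lit 76) (nat_lit 32133164445) (nat_lit 102) (nat_lit 3) (nat_lit 101) (nat_lit 1) (nat_lit 102) (nat_lit 1) (nat_lit 290) (nat_lit 363) (nat_lit 247)) (XT.lf (nat_lit 152) (nat_lit 92208114993) (nat_lit 0) (nat_lit 16951) (nat_lit 76) (nat_lit 16951) (nat_lit 101) (nat_lit 1) (nat_lit 99) (nat_lit 1) (nat_lit 100) (nat_lit 1) (nat_lit 291) (nat_lit 363) (nat_lit 246)))) (XT.nd (nat_lit 78) (nat_lit 228) (nat_lit 0) (XT.lf (nat_lit 0) (nat_lit 29272414091) (nat_lit 0) (nat_lit 29272456390) (nat_lit 152) (nat_lit 29272414091)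 (nat_lit 99) (nat_lit 3) (nat_lit 99) (nat_lit 1) (nat_lit 101) (nat_lit 1) (nat_lit 292) (nat_lit 363) (nat_lit 245)) (XT.nd (nat_lit 78) (nat_lit 152) (nat_lit 0) (XT.lf (nat_lit 76) (nat_lit 27941838668) (nat_lit 0) (nat_lit 27941875450) (nat_lit 76) (nat_lit 27941875450) (nat_lit 99) (nat_lit 3) (nat_lit 98) (nat_lit 1) (nat_lit 99) (nat_lit 1) (nat_lit 293) (nat_lit 363) (nat_lit 244)) (XT.lf (nat_lit 152) (nat_lit 80180978998) (nat_lit 0) (nat_lit 9692) (nat_lit 76) (nat_lit 9692) (nat_lit 98) (nat_lit 1) (nat_lit 96) (nat_lit 1) (nat_lit 97) (nat_lit 1) (nat_lit 294) (nat_lit 363) (nat_lit 243))))))) (XT.nd (nat_lit 858) (nat_lit 836) (nat_lit 0) (XT.nd (nat_lit 390) (nat_lit 456) (nat_lit 0) (XT.nd (nat_lit 156) (nat_lit 228) (nat_lit 0) (XT.nd (nat_lit 78) (nat_lit 76) (nat_lit 0) (XT.lf (nat_lit 0) (nat_lit 25454277121) (nat_lit 0) (nat_lit 25454301306) (nat_lit 152) (nat_lit 25454277121)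 (nat_lit 96) (nat_lit 3) (nat_lit 96) (nat_lit 1) (nat_lit 98) (nat_lit 1) (nat_lit 295) (nat_lit 363) (nat_lit 242)) (XT.lf (nat_lit 76) (nat_lit 24297258152) (nat_lit 0) (nat_lit 24297279182) (nat_lit 76) (nat_lit 24297279182) (nat_lit 96) (nat_lit 3) (nat_lit 95) (nat_lit 1) (nat_lit 96) (nat_lit 1) (nat_lit 296) (nat_lit 363) (nat_lit 241))) (XT.nd (nat_lit 78) (nat_lit 76) (nat_lit 0) (XT.lf (nat_lit 152) (nat_lit 69722595829) (nat_lit 0) (nat_lit 5541) (nat_lit 76) (nat_lit 5541) (nat_lit 95) (nat_lit 1) (nat_lit 93) (nat_lit 1) (nat_lit 94) (nat_lit 1) (nat_lit 297) (nat_lit 363) (nat_lit 240)) (XT.nd (nat_lit 78) (nat_lit 76) (nat_lit 0) (XT.lf (nat_lit 0) (nat_lit 22134156305) (nat_lit 0) (nat_lit 22134170133) (nat_lit 152) (nat_lit 22134156305) (nat_lit 93) (nat_lit 3) (nat_lit 93) (nat_lit 1) (nat_lit 95) (nat_lit 1) (nat_lit 298) (nat_lit 363) (nat_lit 239)) (XT.lf (nat_lit 76) (nat_lit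 21128054647) (nat_lit 0) (nat_lit 21128066672) (nat_lit 76) (nat_lit 21128066672) (nat_lit 93) (nat_lit 3) (nat_lit 92) (nat_lit 1) (nat_lit 93) (nat_lit 1) (nat_lit 299) (nat_lit 363) (nat_lit 238))))) (XT.nd (nat_lit 234) (nat_lit 228) (nat_lit 0) (XT.nd (nat_lit 78) (nat_lit 76) (nat_lit 0) (XT.lf (nat_lit 152) (nat_lit 60628347285) (nat_lit 0) (nat_lit 3168) (nat_lit 76) (nat_lit 3168) (nat_lit 92) (nat_lit 1) (nat_lit 90) (nat_lit 1) (nat_lit 91) (nat_lit 1) (nat_lit 300) (nat_lit 363) (nat_lit 237)) (XT.nd (nat_lit 78) (nat_lit 76) (nat_lit 0) (XT.lf (nat_lit 0) (nat_lit 19247093746) (nat_lit 0) (nat_lit 19247101652) (nat_lit 152) (nat_lit 19247093746) (nat_lit 90) (nat_lit 3) (nat_lit 90) (nat_lit 1) (nat_lit 92) (nat_lit 1) (nat_lit 301) (nat_lit 363) (nat_lit 236)) (XT.lf (nat_lit 76) (nat_lit 18372223766) (nat_lit 0) (nat_lit 18372230640) (nat_lit 76) (nat_lit 18372230640) (nat_lit 90)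 (nat_lit 3) (nat_lit 89) (nat_lit 1) (nat_lit 90) (nat_lit 1) (nat_lit 302) (nat_lit 363) (nat_lit 235)))) (XT.nd (nat_lit 78) (nat_lit 76) (nat_lit 0) (XT.lf (nat_lit 152) (nat_lit 52720303751) (nat_lit 0) (nat_lit 1811) (nat_lit 76) (nat_lit 1811) (nat_lit 89) (nat_lit 1) (nat_lit 87) (nat_lit 1) (nat_lit 88) (nat_lit 1) (nat_lit 303) (nat_lit 363) (nat_lit 234)) (XT.nd (nat_lit 78) (nat_lit 76) (nat_lit 0) (XT.lf (nat_lit 0) (nat_lit 16736604005) (nat_lit 0) (nat_lit 16736608525) (nat_lit 152) (nat_lit 16736604005) (nat_lit 87) (nat_lit 3) (nat_lit 87) (nat_lit 1) (nat_lit 89) (nat_lit 1) (nat_lit 304) (nat_lit 363) (nat_lit 233)) (XT.lf (nat_lit 76) (nat_lit 15975848086) (nat_lit 0) (nat_lit 15975852017) (nat_lit 76) (nat_lit 15975852017) (nat_lit 87) (nat_lit 3) (nat_lit 86) (nat_lit 1) (nat_lit 87) (nat_lit 1) (nat_lit 305) (nat_lit 363) (nat_lit 232)))))) (XT.nd (nat_lit 390) (nat_lit 456)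 (nat_lit 0) (XT.nd (nat_lit 156) (nat_lit 228) (nat_lit 0) (XT.nd (nat_lit 78) (nat_lit 0) (nat_lit 0) (XT.lf (nat_lit 152) (nat_lit 45843743401) (nat_lit 0) (nat_lit 1035) (nat_lit 76) (nat_lit 1035) (nat_lit 86) (nat_lit 1) (nat_lit 84) (nat_lit 1) (nat_lit 85) (nat_lit 1) (nat_lit 306) (nat_lit 363) (nat_lit 231)) (XT.lf (nat_lit 0) (nat_lit 14553569127) (nat_lit 0) (nat_lit 14553571712) (nat_lit 152) (nat_lit 14553569127) (nat_lit 84) (nat_lit 3) (nat_lit 84) (nat_lit 1) (nat_lit 86) (nat_lit 1) (nat_lit 307) (nat_lit 363) (nat_lit 230))) (XT.nd (nat_lit 78) (nat_lit 152) (nat_lit 0) (XT.lf (nat_lit 76) (nat_lit 13892042577) (nat_lit 0) (nat_lit 13892044824) (nat_lit 76) (nat_lit 13892044824) (nat_lit 84) (nat_lit 3) (nat_lit 83) (nat_lit 1) (nat_lit 84) (nat_lit 1) (nat_lit 308) (nat_lit 363) (nat_lit 229)) (XT.nd (nat_lit 78) (nat_lit 0) (nat_lit 0) (XT.lf (nat_lit 152) (nat_lit 39864125273)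 (nat_lit 0) (nat_lit 592) (nat_lit 76) (nat_lit 592) (nat_lit 83) (nat_lit 1) (nat_lit 81) (nat_lit 1) (nat_lit 82) (nat_lit 1) (nat_lit 309) (nat_lit 363) (nat_lit 228)) (XT.lf (nat_lit 0) (nat_lit 12655277746) (nat_lit 0) (nat_lit 12655279224) (nat_lit 152) (nat_lit 12655277746) (nat_lit 81) (nat_lit 3) (nat_lit 81) (nat_lit 1) (nat_lit 83) (nat_lit 1) (nat_lit 310) (nat_lit 363) (nat_lit 227))))) (XT.nd (nat_lit 234) (nat_lit 228) (nat_lit 0) (XT.nd (nat_lit 78) (nat_lit 152) (nat_lit 0) (XT.lf (nat_lit 76) (nat_lit 12080037459) (nat_lit 0) (nat_lit 12080038744) (nat_lit 76) (nat_lit 12080038744) (nat_lit 81) (nat_lit 3) (nat_lit 80) (nat_lit 1) (nat_lit 81) (nat_lit 1) (nat_lit 311) (nat_lit 363) (nat_lit 226)) (XT.nd (nat_lit 78) (nat_lit 0) (nat_lit 0) (XT.lf (nat_lit 152) (nat_lit 34664457089) (nat_lit 0) (nat_lit 338) (nat_lit 76) (nat_lit 338) (nat_lit 80) (nat_lit 1) (nat_lit 78) (nat_lit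 1) (nat_lit 79) (nat_lit 1) (nat_lit 312) (nat_lit 363) (nat_lit 225)) (XT.lf (nat_lit 0) (nat_lit 11004589484) (nat_lit 0) (nat_lit 11004590329) (nat_lit 152) (nat_lit 11004589484) (nat_lit 78) (nat_lit 3) (nat_lit 78) (nat_lit 1) (nat_lit 80) (nat_lit 1) (nat_lit 313) (nat_lit 363) (nat_lit 224)))) (XT.nd (nat_lit 78) (nat_lit 152) (nat_lit 0) (XT.lf (nat_lit 76) (nat_lit 10504380649) (nat_lit 0) (nat_lit 10504381383) (nat_lit 76) (nat_lit 10504381383) (nat_lit 78) (nat_lit 3) (nat_lit 77) (nat_lit 1) (nat_lit 78) (nat_lit 1) (nat_lit 314) (nat_lit 363) (nat_lit 223)) (XT.nd (nat_lit 78) (nat_lit 0) (nat_lit 0) (XT.lf (nat_lit 152) (nat_lit 30143006352) (nat_lit 0) (nat_lit 193) (nat_lit 76) (nat_lit 193) (nat_lit 77) (nat_lit 1) (nat_lit 75) (nat_lit 1) (nat_lit 76) (nat_lit 1) (nat_lit 315) (nat_lit 363) (nat_lit 222)) (XT.lf (nat_lit 0) (nat_lit 9569208327) (nat_lit 0) (nat_lit 9569208810)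 (nat_lit 152) (nat_lit 9569208327) (nat_lit 75) (nat_lit 3) (nat_lit 75) (nat_lit 1) (nat_lit 77) (nat_lit 1) (nat_lit 316) (nat_lit 363) (nat_lit 221))))))))
noncomputable def ec215 : XT := (XT.nd (nat_lit 1716) (nat_lit 1748) (nat_lit 0) (XT.nd (nat_lit 858) (nat_lit 760) (nat_lit 0) (XT.nd (nat_lit 390) (nat_lit 456) (nat_lit 0) (XT.nd (nat_lit 156) (nat_lit 228) (nat_lit 0) (XT.nd (nat_lit 78) (nat_lit 152) (nat_lit 0) (XT.lf (nat_lit 76) (nat_lit 9134244185) (nat_lit 0) (nat_lit 9134244605) (nat_lit 76) (nat_lit 9134244605) (nat_lit 75) (nat_lit 3) (nat_lit 74) (nat_lit 1) (nat_lit 75) (nat_lit 1) (nat_lit 317) (nat_lit 363) (nat_lit 220)) (XT.lf (nat_lit 152) (nat_lit 26211309979) (nat_lit 0) (nat_lit 110) (nat_lit 76) (nat_lit 110) (nat_lit 74) (nat_lit 1) (nat_lit 72) (nat_lit 1) (nat_lit 73) (nat_lit 1) (nat_lit 318) (nat_lit 363) (nat_lit 219))) (XT.nd (nat_lit 78) (nat_lit 228) (nat_lit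 0) (XT.lf (nat_lit 0) (nat_lit 8321050765) (nat_lit 0) (nat_lit 8321051041) (nat_lit 152) (nat_lit 8321050765) (nat_lit 72) (nat_lit 3) (nat_lit 72) (nat_lit 1) (nat_lit 74) (nat_lit 1) (nat_lit 319) (nat_lit 363) (nat_lit 218)) (XT.nd (nat_lit 78) (nat_lit 152) (nat_lit 0) (XT.lf (nat_lit 76) (nat_lit 7942821112) (nat_lit 0) (nat_lit 7942821352) (nat_lit 76) (nat_lit 7942821352) (nat_lit 72) (nat_lit 3) (nat_lit 71) (nat_lit 1) (nat_lit 72) (nat_lit 1) (nat_lit 320) (nat_lit 363) (nat_lit 217)) (XT.lf (nat_lit 152) (nat_lit 22792443522) (nat_lit 0) (nat_lit 63) (nat_lit 76) (nat_lit 63) (nat_lit 71) (nat_lit 1) (nat_lit 69) (nat_lit 1) (nat_lit 70) (nat_lit 1) (nat_lit 321) (nat_lit 363) (nat_lit 216))))) (XT.nd (nat_lit 234) (nat_lit 228) (nat_lit 0) (XT.nd (nat_lit 78) (nat_lit 228) (nat_lit 0) (XT.lf (nat_lit 0) (nat_lit 7235696343) (nat_lit 0) (nat_lit 7235696501) (nat_lit 152) (nat_lit 7235696343)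 (nat_lit 69) (nat_lit 3) (nat_lit 69) (nat_lit 1) (nat_lit 71) (nat_lit 1) (nat_lit 322) (nat_lit 363) (nat_lit 215)) (XT.nd (nat_lit 78) (nat_lit 152) (nat_lit 0) (XT.lf (nat_lit 76) (nat_lit 6906801013) (nat_lit 0) (nat_lit 6906801151) (nat_lit 76) (nat_lit 6906801151) (nat_lit 69) (nat_lit 3) (nat_lit 68) (nat_lit 1) (nat_lit 69) (nat_lit 1) (nat_lit 323) (nat_lit 363) (nat_lit 214)) (XT.lf (nat_lit 152) (nat_lit 19819516141) (nat_lit 0) (nat_lit 36) (nat_lit 76) (nat_lit 36) (nat_lit 68) (nat_lit 1) (nat_lit 66) (nat_lit 1) (nat_lit 67) (nat_lit 1) (nat_lit 324) (nat_lit 363) (nat_lit 213)))) (XT.nd (nat_lit 78) (nat_lit 228) (nat_lit 0) (XT.lf (nat_lit 0) (nat_lit 6291909879) (nat_lit 0) (nat_lit 6291909969) (nat_lit 152) (nat_lit 6291909879) (nat_lit 66) (nat_lit 3) (nat_lit 66) (nat_lit 1) (nat_lit 68) (nat_lit 1) (nat_lit 325) (nat_lit 363) (nat_lit 212)) (XT.nd (nat_lit 78) (nat_lit 152)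 (nat_lit 0) (XT.lf (nat_lit 76) (nat_lit 6005913951) (nat_lit 0) (nat_lit 6005914030) (nat_lit 76) (nat_lit 6005914030) (nat_lit 66) (nat_lit 3) (nat_lit 65) (nat_lit 1) (nat_lit 66) (nat_lit 1) (nat_lit 326) (nat_lit 363) (nat_lit 211)) (XT.lf (nat_lit 152) (nat_lit 17234361882) (nat_lit 0) (nat_lit 20) (nat_lit 76) (nat_lit 20) (nat_lit 65) (nat_lit 1) (nat_lit 63) (nat_lit 1) (nat_lit 64) (nat_lit 1) (nat_lit 327) (nat_lit 363) (nat_lit 210)))))) (XT.nd (nat_lit 390) (nat_lit 456) (nat_lit 0) (XT.nd (nat_lit 156) (nat_lit 228) (nat_lit 0) (XT.nd (nat_lit 78) (nat_lit 76) (nat_lit 0) (XT.lf (nat_lit 0) (nat_lit 5471225990) (nat_lit 0) (nat_lit 5471226041) (nat_lit 152) (nat_lit 5471225990) (nat_lit 63) (nat_lit 3) (nat_lit 63) (nat_lit 1) (nat_lit 65) (nat_lit 1) (nat_lit 328) (nat_lit 363) (nat_lit 209)) (XT.lf (nat_lit 76) (nat_lit 5222533886) (nat_lit 0) (nat_lit 5222533931) (nat_lit 76) (nat_lit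 5222533931) (nat_lit 63) (nat_lit 3) (nat_lit 62) (nat_lit 1) (nat_lit 63) (nat_lit 1) (nat_lit 329) (nat_lit 363) (nat_lit 208))) (XT.nd (nat_lit 78) (nat_lit 76) (nat_lit 0) (XT.lf (nat_lit 152) (nat_lit 14986401648) (nat_lit 0) (nat_lit 11) (nat_lit 76) (nat_lit 11) (nat_lit 62) (nat_lit 1) (nat_lit 60) (nat_lit 1) (nat_lit 61) (nat_lit 1) (nat_lit 330) (nat_lit 363) (nat_lit 207)) (XT.nd (nat_lit 78) (nat_lit 76) (nat_lit 0) (XT.lf (nat_lit 0) (nat_lit 4757587822) (nat_lit 0) (nat_lit 4757587852) (nat_lit 152) (nat_lit 4757587822) (nat_lit 60) (nat_lit 3) (nat_lit 60) (nat_lit 1) (nat_lit 62) (nat_lit 1) (nat_lit 331) (nat_lit 363) (nat_lit 206)) (XT.lf (nat_lit 76) (nat_lit 4541333822) (nat_lit 0) (nat_lit 4541333848) (nat_lit 76) (nat_lit 4541333848) (nat_lit 60) (nat_lit 3) (nat_lit 59) (nat_lit 1) (nat_lit 60) (nat_lit 1) (nat_lit 332) (nat_lit 363) (nat_lit 205))))) (XT.nd (nat_lit 234)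 (nat_lit 228) (nat_lit 0) (XT.nd (nat_lit 78) (nat_lit 76) (nat_lit 0) (XT.lf (nat_lit 152) (nat_lit 13031653613) (nat_lit 0) (nat_lit 6) (nat_lit 76) (nat_lit 6) (nat_lit 59) (nat_lit 1) (nat_lit 57) (nat_lit 1) (nat_lit 58) (nat_lit 1) (nat_lit 333) (nat_lit 363) (nat_lit 204)) (XT.nd (nat_lit 78) (nat_lit 76) (nat_lit 0) (XT.lf (nat_lit 0) (nat_lit 4137032891) (nat_lit 0) (nat_lit 4137032908) (nat_lit 152) (nat_lit 4137032891) (nat_lit 57) (nat_lit 3) (nat_lit 57) (nat_lit 1) (nat_lit 59) (nat_lit 1) (nat_lit 334) (nat_lit 363) (nat_lit 203)) (XT.lf (nat_lit 76) (nat_lit 3948985937) (nat_lit 0) (nat_lit 3948985952) (nat_lit 76) (nat_lit 3948985952) (nat_lit 57) (nat_lit 3) (nat_lit 56) (nat_lit 1) (nat_lit 57) (nat_lit 1) (nat_lit 335) (nat_lit 363) (nat_lit 202)))) (XT.nd (nat_lit 78) (nat_lit 76) (nat_lit 0) (XT.lf (nat_lit 152) (nat_lit 11331872711) (nat_lit 0) (nat_lit 3) (nat_lit 76) (nat_lit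 3) (nat_lit 56) (nat_lit 1) (nat_lit 54) (nat_lit 1) (nat_lit 55) (nat_lit 1) (nat_lit 336) (nat_lit 363) (nat_lit 201)) (XT.nd (nat_lit 78) (nat_lit 76) (nat_lit 0) (XT.lf (nat_lit 0) (nat_lit 3597419907) (nat_lit 0) (nat_lit 3597419917) (nat_lit 152) (nat_lit 3597419907) (nat_lit 54) (nat_lit 3) (nat_lit 54) (nat_lit 1) (nat_lit 56) (nat_lit 1) (nat_lit 337) (nat_lit 363) (nat_lit 200)) (XT.lf (nat_lit 76) (nat_lit 3433900818) (nat_lit 0) (nat_lit 3433900826) (nat_lit 76) (nat_lit 3433900826) (nat_lit 54) (nat_lit 3) (nat_lit 53) (nat_lit 1) (nat_lit 54) (nat_lit 1) (nat_lit 338) (nat_lit 363) (nat_lit 199))))))) (XT.nd (nat_lit 858) (nat_lit 912) (nat_lit 0) (XT.nd (nat_lit 390) (nat_lit 456) (nat_lit 0) (XT.nd (nat_lit 156) (nat_lit 228) (nat_lit 0) (XT.nd (nat_lit 78) (nat_lit 0) (nat_lit 0) (XT.lf (nat_lit 152) (nat_lit 9853802360) (nat_lit 0) (nat_lit 2) (nat_lit 76) (nat_lit 2) (nat_lit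 53) (nat_lit 1) (nat_lit 51) (nat_lit 1) (nat_lit 52) (nat_lit 1) (nat_lit 339) (nat_lit 363) (nat_lit 198)) (XT.lf (nat_lit 0) (nat_lit 3128191224) (nat_lit 0) (nat_lit 3128191230) (nat_lit 152) (nat_lit 3128191224) (nat_lit 51) (nat_lit 3) (nat_lit 51) (nat_lit 1) (nat_lit 53) (nat_lit 1) (nat_lit 340) (nat_lit 363) (nat_lit 197))) (XT.nd (nat_lit 78) (nat_lit 152) (nat_lit 0) (XT.lf (nat_lit 76) (nat_lit 2986000713) (nat_lit 0) (nat_lit 2986000718) (nat_lit 76) (nat_lit 2986000718) (nat_lit 51) (nat_lit 3) (nat_lit 50) (nat_lit 1) (nat_lit 51) (nat_lit 1) (nat_lit 341) (nat_lit 363) (nat_lit 196)) (XT.nd (nat_lit 78) (nat_lit 0) (nat_lit 0) (XT.lf (nat_lit 152) (nat_lit 8568523792) (nat_lit 0) (nat_lit 1) (nat_lit 76) (nat_lit 1) (nat_lit 50) (nat_lit 1) (nat_lit 48) (nat_lit 1) (nat_lit 49) (nat_lit 1) (nat_lit 342) (nat_lit 363) (nat_lit 195)) (XT.lf (nat_lit 0) (nat_lit 2720166283) (nat_lit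 0) (nat_lit 2720166286) (nat_lit 152) (nat_lit 2720166283) (nat_lit 48) (nat_lit 3) (nat_lit 48) (nat_lit 1) (nat_lit 50) (nat_lit 1) (nat_lit 343) (nat_lit 363) (nat_lit 194))))) (XT.nd (nat_lit 234) (nat_lit 228) (nat_lit 0) (XT.nd (nat_lit 78) (nat_lit 152) (nat_lit 0) (XT.lf (nat_lit 76) (nat_lit 2596522360) (nat_lit 0) (nat_lit 2596522363) (nat_lit 76) (nat_lit 2596522363) (nat_lit 48) (nat_lit 3) (nat_lit 47) (nat_lit 1) (nat_lit 48) (nat_lit 1) (nat_lit 344) (nat_lit 363) (nat_lit 193)) (XT.nd (nat_lit 78) (nat_lit 152) (nat_lit 0) (XT.lf (nat_lit 0) (nat_lit 7450890255) (nat_lit 0) (nat_lit 0) (nat_lit 0) (nat_lit 0) (nat_lit 47) (nat_lit 1) (nat_lit 1) (nat_lit 0) (nat_lit 1) (nat_lit 0) (nat_lit 345) (nat_lit 363) (nat_lit 192)) (XT.lf (nat_lit 0) (nat_lit 2365361985) (nat_lit 0) (nat_lit 2365361987) (nat_lit 152) (nat_lit 2365361985) (nat_lit 45) (nat_lit 3) (nat_lit 45) (nat_lit 1)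 (nat_lit 47) (nat_lit 1) (nat_lit 346) (nat_lit 363) (nat_lit 191)))) (XT.nd (nat_lit 78) (nat_lit 152) (nat_lit 0) (XT.lf (nat_lit 76) (nat_lit 2257845531) (nat_lit 0) (nat_lit 2257845532) (nat_lit 76) (nat_lit 2257845532) (nat_lit 45) (nat_lit 3) (nat_lit 44) (nat_lit 1) (nat_lit 45) (nat_lit 1) (nat_lit 347) (nat_lit 363) (nat_lit 190)) (XT.nd (nat_lit 78) (nat_lit 152) (nat_lit 0) (XT.lf (nat_lit 0) (nat_lit 6479035004) (nat_lit 0) (nat_lit 0) (nat_lit 0) (nat_lit 0) (nat_lit 44) (nat_lit 1) (nat_lit 1) (nat_lit 0) (nat_lit 1) (nat_lit 0) (nat_lit 348) (nat_lit 363) (nat_lit 189)) (XT.lf (nat_lit 0) (nat_lit 2056836509) (nat_lit 0) (nat_lit 2056836510) (nat_lit 152) (nat_lit 2056836509) (nat_lit 42) (nat_lit 3) (nat_lit 42) (nat_lit 1) (nat_lit 44) (nat_lit 1) (nat_lit 349) (nat_lit 363) (nat_lit 188)))))) (XT.nd (nat_lit 468) (nat_lit 456) (nat_lit 0) (XT.nd (nat_lit 234) (nat_lit 228) (nat_lit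 0) (XT.nd (nat_lit 78) (nat_lit 152) (nat_lit 0) (XT.lf (nat_lit 76) (nat_lit 1963343940) (nat_lit 0) (nat_lit 1963343941) (nat_lit 76) (nat_lit 1963343941) (nat_lit 42) (nat_lit 3) (nat_lit 41) (nat_lit 1) (nat_lit 42) (nat_lit 1) (nat_lit 350) (nat_lit 363) (nat_lit 187)) (XT.nd (nat_lit 78) (nat_lit 152) (nat_lit 0) (XT.lf (nat_lit 0) (nat_lit 5633943482) (nat_lit 0) (nat_lit 0) (nat_lit 0) (nat_lit 0) (nat_lit 41) (nat_lit 1) (nat_lit 1) (nat_lit 0) (nat_lit 1) (nat_lit 0) (nat_lit 351) (nat_lit 363) (nat_lit 186)) (XT.lf (nat_lit 0) (nat_lit 1788553486) (nat_lit 0) (nat_lit 1788553487) (nat_lit 152) (nat_lit 1788553486) (nat_lit 39) (nat_lit 3) (nat_lit 39) (nat_lit 1) (nat_lit 41) (nat_lit 1) (nat_lit 352) (nat_lit 363) (nat_lit 185)))) (XT.nd (nat_lit 78) (nat_lit 152) (nat_lit 0) (XT.lf (nat_lit 76) (nat_lit 1707255600) (nat_lit 0) (nat_lit 1707255601) (nat_lit 76) (nat_lit 1707255601)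 (nat_lit 39) (nat_lit 3) (nat_lit 38) (nat_lit 1) (nat_lit 39) (nat_lit 1) (nat_lit 353) (nat_lit 363) (nat_lit 184)) (XT.nd (nat_lit 78) (nat_lit 152) (nat_lit 0) (XT.lf (nat_lit 0) (nat_lit 4899081289) (nat_lit 0) (nat_lit 0) (nat_lit 0) (nat_lit 0) (nat_lit 38) (nat_lit 1) (nat_lit 1) (nat_lit 0) (nat_lit 1) (nat_lit 0) (nat_lit 354) (nat_lit 363) (nat_lit 183)) (XT.lf (nat_lit 0) (nat_lit 1555263901) (nat_lit 0) (nat_lit 1555263901) (nat_lit 152) (nat_lit 1555263901) (nat_lit 36) (nat_lit 3) (nat_lit 36) (nat_lit 1) (nat_lit 38) (nat_lit 1) (nat_lit 355) (nat_lit 363) (nat_lit 182))))) (XT.nd (nat_lit 234) (nat_lit 228) (nat_lit 0) (XT.nd (nat_lit 78) (nat_lit 152) (nat_lit 0) (XT.lf (nat_lit 76) (nat_lit 1484570087) (nat_lit 0) (nat_lit 1484570087) (nat_lit 76) (nat_lit 1484570087) (nat_lit 36) (nat_lit 3) (nat_lit 35) (nat_lit 1) (nat_lit 36) (nat_lit 1) (nat_lit 356) (nat_lit 363) (nat_lit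 181)) (XT.nd (nat_lit 78) (nat_lit 152) (nat_lit 0) (XT.lf (nat_lit 0) (nat_lit 4260070686) (nat_lit 0) (nat_lit 0) (nat_lit 0) (nat_lit 0) (nat_lit 35) (nat_lit 1) (nat_lit 1) (nat_lit 0) (nat_lit 1) (nat_lit 0) (nat_lit 357) (nat_lit 363) (nat_lit 180)) (XT.lf (nat_lit 0) (nat_lit 1352403392) (nat_lit 0) (nat_lit 1352403392) (nat_lit 152) (nat_lit 1352403392) (nat_lit 33) (nat_lit 3) (nat_lit 33) (nat_lit 1) (nat_lit 35) (nat_lit 1) (nat_lit 358) (nat_lit 363) (nat_lit 179)))) (XT.nd (nat_lit 78) (nat_lit 152) (nat_lit 0) (XT.lf (nat_lit 76) (nat_lit 1290930511) (nat_lit 0) (nat_lit 1290930511) (nat_lit 76) (nat_lit 1290930511) (nat_lit 33) (nat_lit 3) (nat_lit 32) (nat_lit 1) (nat_lit 33) (nat_lit 1) (nat_lit 359) (nat_lit 363) (nat_lit 178)) (XT.nd (nat_lit 78) (nat_lit 152) (nat_lit 0) (XT.lf (nat_lit 0) (nat_lit 3704409292) (nat_lit 0) (nat_lit 0) (nat_lit 0) (nat_lit 0) (nat_lit 32) (nat_lit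 1) (nat_lit 1) (nat_lit 0) (nat_lit 1) (nat_lit 0) (nat_lit 360) (nat_lit 363) (nat_lit 177)) (XT.lf (nat_lit 0) (nat_lit 1176002950) (nat_lit 0) (nat_lit 1176002950) (nat_lit 152) (nat_lit 1176002950) (nat_lit 30) (nat_lit 3) (nat_lit 30) (nat_lit 1) (nat_lit 32) (nat_lit 1) (nat_lit 361) (nat_lit 363) (nat_lit 176))))))))
noncomputable def ec216 : XT := (XT.nd (nat_lit 32994) (nat_lit 0) (nat_lit 12388) (XT.nd (nat_lit 32136) (nat_lit 0) (nat_lit 14136) (XT.nd (nat_lit 390) (nat_lit 456) (nat_lit 0) (XT.nd (nat_lit 156) (nat_lit 228) (nat_lit 0) (XT.nd (nat_lit 78) (nat_lit 0) (nat_lit 0) (XT.lf (nat_lit 76) (nat_lit 1122548270) (nat_lit 0) (nat_lit 1122548270) (nat_lit 76) (nat_lit 1122548270) (nat_lit 30) (nat_lit 3) (nat_lit 29) (nat_lit 1) (nat_lit 30) (nat_lit 1) (nat_lit 362) (nat_lit 363) (nat_lit 175)) (XT.lf (nat_lit 0) (nat_lit 3221225471) (nat_lit 0) (nat_lit 0) (nat_lit 0) (nat_lit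 0) (nat_lit 29) (nat_lit 1) (nat_lit 1) (nat_lit 0) (nat_lit 1) (nat_lit 0) (nat_lit 363) (nat_lit 363) (nat_lit 174))) (XT.nd (nat_lit 78) (nat_lit 76) (nat_lit 0) (XT.lf (nat_lit 0) (nat_lit 1022611260) (nat_lit 0) (nat_lit 1022611260) (nat_lit 152) (nat_lit 1022611260) (nat_lit 27) (nat_lit 3) (nat_lit 27) (nat_lit 1) (nat_lit 29) (nat_lit 1) (nat_lit 364) (nat_lit 363) (nat_lit 173)) (XT.nd (nat_lit 78) (nat_lit 0) (nat_lit 0) (XT.lf (nat_lit 76) (nat_lit 976128930) (nat_lit 0) (nat_lit 976128930) (nat_lit 76) (nat_lit 976128930) (nat_lit 27) (nat_lit 3) (nat_lit 26) (nat_lit 1) (nat_lit 27) (nat_lit 1) (nat_lit 365) (nat_lit 363) (nat_lit 172)) (XT.lf (nat_lit 0) (nat_lit 2801065627) (nat_lit 0) (nat_lit 0) (nat_lit 0) (nat_lit 0) (nat_lit 26) (nat_lit 1) (nat_lit 1) (nat_lit 0) (nat_lit 1) (nat_lit 0) (nat_lit 366) (nat_lit 363) (nat_lit 171))))) (XT.nd (nat_lit 234) (nat_lit 228) (nat_lit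 0) (XT.nd (nat_lit 78) (nat_lit 76) (nat_lit 0) (XT.lf (nat_lit 0) (nat_lit 889227183) (nat_lit 0) (nat_lit 889227183) (nat_lit 152) (nat_lit 889227183) (nat_lit 24) (nat_lit 3) (nat_lit 24) (nat_lit 1) (nat_lit 26) (nat_lit 1) (nat_lit 367) (nat_lit 363) (nat_lit 170)) (XT.nd (nat_lit 78) (nat_lit 0) (nat_lit 0) (XT.lf (nat_lit 76) (nat_lit 848807765) (nat_lit 0) (nat_lit 848807766) (nat_lit 76) (nat_lit 848807766) (nat_lit 24) (nat_lit 3) (nat_lit 23) (nat_lit 1) (nat_lit 24) (nat_lit 1) (nat_lit 368) (nat_lit 363) (nat_lit 169)) (XT.lf (nat_lit 0) (nat_lit 2435709241) (nat_lit 0) (nat_lit 0) (nat_lit 0) (nat_lit 0) (nat_lit 23) (nat_lit 1) (nat_lit 1) (nat_lit 0) (nat_lit 1) (nat_lit 0) (nat_lit 369) (nat_lit 363) (nat_lit 168)))) (XT.nd (nat_lit 78) (nat_lit 76) (nat_lit 0) (XT.lf (nat_lit 0) (nat_lit 773241029) (nat_lit 0) (nat_lit 773241029) (nat_lit 152) (nat_lit 773241029) (nat_lit 21)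 (nat_lit 3) (nat_lit 21) (nat_lit 1) (nat_lit 23) (nat_lit 1) (nat_lit 370) (nat_lit 363) (nat_lit 167)) (XT.nd (nat_lit 31356) (nat_lit 0) (nat_lit 14820) (XT.lf (nat_lit 76) (nat_lit 738093709) (nat_lit 0) (nat_lit 738093709) (nat_lit 76) (nat_lit 738093709) (nat_lit 21) (nat_lit 3) (nat_lit 20) (nat_lit 1) (nat_lit 21) (nat_lit 1) (nat_lit 371) (nat_lit 363) (nat_lit 166)) (XT.lf (nat_lit 380) (nat_lit 5380048871171) (nat_lit 0) (nat_lit 4765241696113) (nat_lit 380) (nat_lit 5380048871171) (nat_lit 220) (nat_lit 1) (nat_lit 215) (nat_lit 0) (nat_lit 220) (nat_lit 0) (nat_lit 172) (nat_lit 364) (nat_lit 364)))))) (XT.nd (nat_lit 390) (nat_lit 532) (nat_lit 0) (XT.nd (nat_lit 156) (nat_lit 152) (nat_lit 0) (XT.nd (nat_lit 78) (nat_lit 0) (nat_lit 76) (XT.lf (nat_lit 380) (nat_lit 19900102579538) (nat_lit 76) (nat_lit 4548639800835) (nat_lit 0) (nat_lit 4548639800835) (nat_lit 220) (nat_lit 1)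 (nat_lit 216) (nat_lit 1) (nat_lit 215) (nat_lit 0) (nat_lit 173) (nat_lit 364) (nat_lit 363)) (XT.lf (nat_lit 380) (nat_lit 8771851103960) (nat_lit 0) (nat_lit 9544601464108) (nat_lit 304) (nat_lit 8771851103960) (nat_lit 221) (nat_lit 1) (nat_lit 216) (nat_lit 1) (nat_lit 220) (nat_lit 1) (nat_lit 174) (nat_lit 364) (nat_lit 362))) (XT.nd (nat_lit 78) (nat_lit 228) (nat_lit 0) (XT.lf (nat_lit 380) (nat_lit 15060812885416) (nat_lit 76) (nat_lit 5155416985764) (nat_lit 0) (nat_lit 5155416985764) (nat_lit 221) (nat_lit 1) (nat_lit 217) (nat_lit 1) (nat_lit 216) (nat_lit 1) (nat_lit 175) (nat_lit 364) (nat_lit 361)) (XT.nd (nat_lit 78) (nat_lit 304) (nat_lit 0) (XT.lf (nat_lit 76) (nat_lit 6092298562981) (nat_lit 0) (nat_lit 11600759252740) (nat_lit 304) (nat_lit 6092298562981) (nat_lit 218) (nat_lit 1) (nat_lit 217) (nat_lit 1) (nat_lit 221) (nat_lit 1) (nat_lit 176) (nat_lit 364) (nat_lit 360))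 (XT.lf (nat_lit 380) (nat_lit 9156232705068) (nat_lit 0) (nat_lit 6590480722010) (nat_lit 304) (nat_lit 6590480722010) (nat_lit 218) (nat_lit 1) (nat_lit 213) (nat_lit 1) (nat_lit 217) (nat_lit 1) (nat_lit 177) (nat_lit 364) (nat_lit 359))))) (XT.nd (nat_lit 234) (nat_lit 152) (nat_lit 0) (XT.nd (nat_lit 78) (nat_lit 380) (nat_lit 0) (XT.lf (nat_lit 76) (nat_lit 3043430628939) (nat_lit 0) (nat_lit 14934190376605) (nat_lit 380) (nat_lit 3043430628939) (nat_lit 214) (nat_lit 1) (nat_lit 213) (nat_lit 1) (nat_lit 218) (nat_lit 1) (nat_lit 178) (nat_lit 364) (nat_lit 358)) (XT.nd (nat_lit 78) (nat_lit 228) (nat_lit 0) (XT.lf (nat_lit 228) (nat_lit 2739015772849) (nat_lit 0) (nat_lit 8524510739557) (nat_lit 152) (nat_lit 8524510739557) (nat_lit 214) (nat_lit 1) (nat_lit 211) (nat_lit 1) (nat_lit 213) (nat_lit 1) (nat_lit 179) (nat_lit 364) (nat_lit 357)) (XT.lf (nat_lit 228) (nat_lit 18406151529420)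 (nat_lit 0) (nat_lit 144414869764) (nat_lit 152) (nat_lit 144414869764) (nat_lit 211) (nat_lit 1) (nat_lit 208) (nat_lit 1) (nat_lit 210) (nat_lit 1) (nat_lit 180) (nat_lit 364) (nat_lit 356)))) (XT.nd (nat_lit 78) (nat_lit 152) (nat_lit 0) (XT.lf (nat_lit 76) (nat_lit 7071761065533) (nat_lit 0) (nat_lit 3471858255908) (nat_lit 228) (nat_lit 7071761065533) (nat_lit 209) (nat_lit 1) (nat_lit 208) (nat_lit 1) (nat_lit 211) (nat_lit 1) (nat_lit 181) (nat_lit 364) (nat_lit 355)) (XT.nd (nat_lit 78) (nat_lit 0) (nat_lit 0) (XT.lf (nat_lit 228) (nat_lit 10279076132725) (nat_lit 0) (nat_lit 3188468369382) (nat_lit 152) (nat_lit 3188468369382) (nat_lit 209) (nat_lit 1) (nat_lit 206) (nat_lit 1) (nat_lit 208) (nat_lit 1) (nat_lit 182) (nat_lit 364) (nat_lit 354)) (XT.lf (nat_lit 76) (nat_lit 3214604246117) (nat_lit 0) (nat_lit 9328726563720) (nat_lit 228) (nat_lit 3214604246117) (nat_lit 207) (nat_lit 1)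 (nat_lit 206) (nat_lit 1) (nat_lit 209) (nat_lit 1) (nat_lit 183) (nat_lit 364) (nat_lit 353))))))) (XT.nd (nat_lit 858) (nat_lit 912) (nat_lit 0) (XT.nd (nat_lit 390) (nat_lit 456) (nat_lit 0) (XT.nd (nat_lit 156) (nat_lit 76) (nat_lit 0) (XT.nd (nat_lit 78) (nat_lit 228) (nat_lit 0) (XT.lf (nat_lit 152) (nat_lit 2657464474882) (nat_lit 0) (nat_lit 6132112347330) (nat_lit 76) (nat_lit 6132112347330) (nat_lit 207) (nat_lit 1) (nat_lit 205) (nat_lit 1) (nat_lit 206) (nat_lit 1) (nat_lit 184) (nat_lit 364) (nat_lit 352)) (XT.lf (nat_lit 228) (nat_lit 13453647292642) (nat_lit 0) (nat_lit 357409909923) (nat_lit 152) (nat_lit 357409909923) (nat_lit 205) (nat_lit 1) (nat_lit 202) (nat_lit 1) (nat_lit 204) (nat_lit 1) (nat_lit 185) (nat_lit 364) (nat_lit 351))) (XT.nd (nat_lit 78) (nat_lit 76) (nat_lit 0) (XT.lf (nat_lit 76) (nat_lit 4708487198570) (nat_lit 0) (nat_lit 3998600951659) (nat_lit 228) (nat_lit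 4708487198570) (nat_lit 203) (nat_lit 1) (nat_lit 202) (nat_lit 1) (nat_lit 205) (nat_lit 1) (nat_lit 186) (nat_lit 364) (nat_lit 350)) (XT.nd (nat_lit 78) (nat_lit 0) (nat_lit 0) (XT.lf (nat_lit 152) (nat_lit 5725069464515) (nat_lit 0) (nat_lit 3506055136927) (nat_lit 76) (nat_lit 3506055136927) (nat_lit 203) (nat_lit 1) (nat_lit 201) (nat_lit 1) (nat_lit 202) (nat_lit 1) (nat_lit 187) (nat_lit 364) (nat_lit 349)) (XT.lf (nat_lit 0) (nat_lit 1121047496867) (nat_lit 0) (nat_lit 9869616080504) (nat_lit 152) (nat_lit 1121047496868) (nat_lit 201) (nat_lit 3) (nat_lit 201) (nat_lit 1) (nat_lit 203) (nat_lit 1) (nat_lit 188) (nat_lit 364) (nat_lit 348))))) (XT.nd (nat_lit 234) (nat_lit 228) (nat_lit 0) (XT.nd (nat_lit 78) (nat_lit 76) (nat_lit 0) (XT.lf (nat_lit 76) (nat_lit 5188203087664) (nat_lit 0) (nat_lit 1125231560292) (nat_lit 152) (nat_lit 5188203087664) (nat_lit 200) (nat_lit 1) (nat_lit 199)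 (nat_lit 1) (nat_lit 201) (nat_lit 1) (nat_lit 189) (nat_lit 364) (nat_lit 347)) (XT.nd (nat_lit 78) (nat_lit 0) (nat_lit 0) (XT.lf (nat_lit 152) (nat_lit 6930418809281) (nat_lit 0) (nat_lit 2004598403766) (nat_lit 76) (nat_lit 2004598403766) (nat_lit 200) (nat_lit 1) (nat_lit 198) (nat_lit 1) (nat_lit 199) (nat_lit 1) (nat_lit 190) (nat_lit 364) (nat_lit 346)) (XT.lf (nat_lit 0) (nat_lit 1801944056448) (nat_lit 0) (nat_lit 6803966538436) (nat_lit 152) (nat_lit 1801944056448) (nat_lit 198) (nat_lit 3) (nat_lit 198) (nat_lit 1) (nat_lit 200) (nat_lit 1) (nat_lit 191) (nat_lit 364) (nat_lit 345)))) (XT.nd (nat_lit 78) (nat_lit 152) (nat_lit 0) (XT.lf (nat_lit 76) (nat_lit 401981518444) (nat_lit 0) (nat_lit 4751566285390) (nat_lit 76) (nat_lit 4751566285390) (nat_lit 198) (nat_lit 3) (nat_lit 197) (nat_lit 1) (nat_lit 198) (nat_lit 1) (nat_lit 192) (nat_lit 364) (nat_lit 344)) (XT.nd (nat_lit 78)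 (nat_lit 0) (nat_lit 0) (XT.lf (nat_lit 152) (nat_lit 7142569240307) (nat_lit 0) (nat_lit 1146135643463) (nat_lit 76) (nat_lit 1146135643463) (nat_lit 197) (nat_lit 1) (nat_lit 195) (nat_lit 1) (nat_lit 196) (nat_lit 1) (nat_lit 193) (nat_lit 364) (nat_lit 343)) (XT.lf (nat_lit 0) (nat_lit 2039816503217) (nat_lit 0) (nat_lit 4899739091822) (nat_lit 152) (nat_lit 2039816503217) (nat_lit 195) (nat_lit 3) (nat_lit 195) (nat_lit 1) (nat_lit 197) (nat_lit 1) (nat_lit 194) (nat_lit 364) (nat_lit 342)))))) (XT.nd (nat_lit 390) (nat_lit 456) (nat_lit 0) (XT.nd (nat_lit 156) (nat_lit 228) (nat_lit 0) (XT.nd (nat_lit 78) (nat_lit 152) (nat_lit 0) (XT.lf (nat_lit 76) (nat_lit 1193494781106) (nat_lit 0) (nat_lit 3680383988589) (nat_lit 76) (nat_lit 3680383988589) (nat_lit 195) (nat_lit 3) (nat_lit 194) (nat_lit 1) (nat_lit 195) (nat_lit 1) (nat_lit 195) (nat_lit 364) (nat_lit 341)) (XT.lf (nat_lit 152) (nat_lit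 6849073921350) (nat_lit 0) (nat_lit 655306774040) (nat_lit 76) (nat_lit 655306774040) (nat_lit 194) (nat_lit 1) (nat_lit 192) (nat_lit 1) (nat_lit 193) (nat_lit 1) (nat_lit 196) (nat_lit 364) (nat_lit 340))) (XT.nd (nat_lit 78) (nat_lit 228) (nat_lit 0) (XT.lf (nat_lit 0) (nat_lit 2044140524011) (nat_lit 0) (nat_lit 3679310546191) (nat_lit 152) (nat_lit 2044140524011) (nat_lit 192) (nat_lit 3) (nat_lit 192) (nat_lit 1) (nat_lit 194) (nat_lit 1) (nat_lit 197) (nat_lit 364) (nat_lit 339)) (XT.nd (nat_lit 78) (nat_lit 152) (nat_lit 0) (XT.lf (nat_lit 76) (nat_lit 1520350204493) (nat_lit 0) (nat_lit 2942237180302) (nat_lit 76) (nat_lit 2942237180302) (nat_lit 192) (nat_lit 3) (nat_lit 191) (nat_lit 1) (nat_lit 192) (nat_lit 1) (nat_lit 198) (nat_lit 364) (nat_lit 338)) (XT.lf (nat_lit 152) (nat_lit 6320577440648) (nat_lit 0) (nat_lit 374673774916) (nat_lit 76) (nat_lit 374673774916) (nat_lit 191) (nat_lit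 1) (nat_lit 189) (nat_lit 1) (nat_lit 190) (nat_lit 1) (nat_lit 199) (nat_lit 364) (nat_lit 337))))) (XT.nd (nat_lit 234) (nat_lit 228) (nat_lit 0) (XT.nd (nat_lit 78) (nat_lit 228) (nat_lit 0) (XT.lf (nat_lit 0) (nat_lit 1932108168515) (nat_lit 0) (nat_lit 2867021935793) (nat_lit 152) (nat_lit 1932108168515) (nat_lit 189) (nat_lit 3) (nat_lit 189) (nat_lit 1) (nat_lit 191) (nat_lit 1) (nat_lit 200) (nat_lit 364) (nat_lit 336)) (XT.nd (nat_lit 78) (nat_lit 152) (nat_lit 0) (XT.lf (nat_lit 76) (nat_lit 1597930981072) (nat_lit 0) (nat_lit 2410899474357) (nat_lit 76) (nat_lit 2410899474357) (nat_lit 189) (nat_lit 3) (nat_lit 188) (nat_lit 1) (nat_lit 189) (nat_lit 1) (nat_lit 201) (nat_lit 364) (nat_lit 335)) (XT.lf (nat_lit 152) (nat_lit 5704764749896) (nat_lit 0) (nat_lit 214220946847) (nat_lit 76) (nat_lit 214220946847) (nat_lit 188) (nat_lit 1) (nat_lit 186) (nat_lit 1) (nat_lit 187) (nat_lit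 1) (nat_lit 202) (nat_lit 364) (nat_lit 334)))) (XT.nd (nat_lit 78) (nat_lit 228) (nat_lit 0) (XT.lf (nat_lit 0) (nat_lit 1768484063545) (nat_lit 0) (nat_lit 2303024044335) (nat_lit 152) (nat_lit 1768484063545) (nat_lit 186) (nat_lit 3) (nat_lit 186) (nat_lit 1) (nat_lit 188) (nat_lit 1) (nat_lit 203) (nat_lit 364) (nat_lit 333)) (XT.nd (nat_lit 78) (nat_lit 152) (nat_lit 0) (XT.lf (nat_lit 76) (nat_lit 1547244674414) (nat_lit 0) (nat_lit 2012062049014) (nat_lit 76) (nat_lit 2012062049014) (nat_lit 186) (nat_lit 3) (nat_lit 185) (nat_lit 1) (nat_lit 186) (nat_lit 1) (nat_lit 204) (nat_lit 364) (nat_lit 332)) (XT.lf (nat_lit 152) (nat_lit 5079938703865) (nat_lit 0) (nat_lit 122481521633) (nat_lit 76) (nat_lit 122481521633) (nat_lit 185) (nat_lit 1) (nat_lit 183) (nat_lit 1) (nat_lit 184) (nat_lit 1) (nat_lit 205) (nat_lit 364) (nat_lit 331))))))))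
noncomputable def ec217 : XT := (XT.nd (nat_lit 1716) (nat_lit 1824) (nat_lit 0) (XT.nd (nat_lit 858) (nat_lit 836) (nat_lit 0) (XT.nd (nat_lit 390) (nat_lit 456) (nat_lit 0) (XT.nd (nat_lit 156) (nat_lit 228) (nat_lit 0) (XT.nd (nat_lit 78) (nat_lit 76) (nat_lit 0) (XT.lf (nat_lit 0) (nat_lit 1588349500815) (nat_lit 0) (nat_lit 1893974469731) (nat_lit 152) (nat_lit 1588349500815) (nat_lit 183) (nat_lit 3) (nat_lit 183) (nat_lit 1) (nat_lit 185) (nat_lit 1) (nat_lit 206) (nat_lit 364) (nat_lit 330)) (XT.lf (nat_lit 76) (nat_lit 1435618207585) (nat_lit 0) (nat_lit 1701379050121) (nat_lit 76) (nat_lit 1701379050121) (nat_lit 183) (nat_lit 3) (nat_lit 182) (nat_lit 1) (nat_lit 183) (nat_lit 1) (nat_lit 207) (nat_lit 364) (nat_lit 329))) (XT.nd (nat_lit 78) (nat_lit 76) (nat_lit 0) (XT.lf (nat_lit 152) (nat_lit 4485533130711) (nat_lit 0) (nat_lit 70029207519) (nat_lit 76) (nat_lit 70029207519) (nat_lit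 182) (nat_lit 1) (nat_lit 180) (nat_lit 1) (nat_lit 181) (nat_lit 1) (nat_lit 208) (nat_lit 364) (nat_lit 328)) (XT.nd (nat_lit 78) (nat_lit 76) (nat_lit 0) (XT.lf (nat_lit 0) (nat_lit 1410068328056) (nat_lit 0) (nat_lit 1584810395969) (nat_lit 152) (nat_lit 1410068328056) (nat_lit 180) (nat_lit 3) (nat_lit 180) (nat_lit 1) (nat_lit 182) (nat_lit 1) (nat_lit 209) (nat_lit 364) (nat_lit 327)) (XT.lf (nat_lit 76) (nat_lit 1299928972456) (nat_lit 0) (nat_lit 1451878596728) (nat_lit 76) (nat_lit 1451878596728) (nat_lit 180) (nat_lit 3) (nat_lit 179) (nat_lit 1) (nat_lit 180) (nat_lit 1) (nat_lit 210) (nat_lit 364) (nat_lit 326))))) (XT.nd (nat_lit 234) (nat_lit 228) (nat_lit 0) (XT.nd (nat_lit 78) (nat_lit 76) (nat_lit 0) (XT.lf (nat_lit 152) (nat_lit 3939454377319) (nat_lit 0) (nat_lit 40039426685) (nat_lit 76) (nat_lit 40039426685) (nat_lit 179) (nat_lit 1) (nat_lit 177) (nat_lit 1) (nat_lit 178)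 (nat_lit 1) (nat_lit 211) (nat_lit 364) (nat_lit 325)) (XT.nd (nat_lit 78) (nat_lit 76) (nat_lit 0) (XT.lf (nat_lit 0) (nat_lit 1242667095969) (nat_lit 0) (nat_lit 1342576440440) (nat_lit 152) (nat_lit 1242667095969) (nat_lit 177) (nat_lit 3) (nat_lit 177) (nat_lit 1) (nat_lit 179) (nat_lit 1) (nat_lit 212) (nat_lit 364) (nat_lit 324)) (XT.lf (nat_lit 76) (nat_lit 1159855654988) (nat_lit 0) (nat_lit 1246733345832) (nat_lit 76) (nat_lit 1246733345832) (nat_lit 177) (nat_lit 3) (nat_lit 176) (nat_lit 1) (nat_lit 177) (nat_lit 1) (nat_lit 213) (nat_lit 364) (nat_lit 323)))) (XT.nd (nat_lit 78) (nat_lit 76) (nat_lit 0) (XT.lf (nat_lit 152) (nat_lit 3447905610115) (nat_lit 0) (nat_lit 22892672159) (nat_lit 76) (nat_lit 22892672159) (nat_lit 176) (nat_lit 1) (nat_lit 174) (nat_lit 1) (nat_lit 175) (nat_lit 1) (nat_lit 214) (nat_lit 364) (nat_lit 322)) (XT.nd (nat_lit 78) (nat_lit 76) (nat_lit 0) (XT.lf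 (nat_lit 0) (nat_lit 1090025860873) (nat_lit 0) (nat_lit 1147149352839) (nat_lit 152) (nat_lit 1090025860873) (nat_lit 174) (nat_lit 3) (nat_lit 174) (nat_lit 1) (nat_lit 176) (nat_lit 1) (nat_lit 215) (nat_lit 364) (nat_lit 321)) (XT.lf (nat_lit 76) (nat_lit 1025426927285) (nat_lit 0) (nat_lit 1075099528995) (nat_lit 76) (nat_lit 1075099528995) (nat_lit 174) (nat_lit 3) (nat_lit 173) (nat_lit 1) (nat_lit 174) (nat_lit 1) (nat_lit 216) (nat_lit 364) (nat_lit 320)))))) (XT.nd (nat_lit 390) (nat_lit 456) (nat_lit 0) (XT.nd (nat_lit 156) (nat_lit 228) (nat_lit 0) (XT.nd (nat_lit 78) (nat_lit 0) (nat_lit 0) (XT.lf (nat_lit 152) (nat_lit 3010924948314) (nat_lit 0) (nat_lit 13088959607) (nat_lit 76) (nat_lit 13088959607) (nat_lit 173) (nat_lit 1) (nat_lit 171) (nat_lit 1) (nat_lit 172) (nat_lit 1) (nat_lit 217) (nat_lit 364) (nat_lit 319)) (XT.lf (nat_lit 0) (nat_lit 953249228570) (nat_lit 0) (nat_lit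 985909770501) (nat_lit 152) (nat_lit 953249228570) (nat_lit 171) (nat_lit 3) (nat_lit 171) (nat_lit 1) (nat_lit 173) (nat_lit 1) (nat_lit 218) (nat_lit 364) (nat_lit 318))) (XT.nd (nat_lit 78) (nat_lit 152) (nat_lit 0) (XT.lf (nat_lit 76) (nat_lit 901313514773) (nat_lit 0) (nat_lit 929713986018) (nat_lit 76) (nat_lit 929713986018) (nat_lit 171) (nat_lit 3) (nat_lit 170) (nat_lit 1) (nat_lit 171) (nat_lit 1) (nat_lit 219) (nat_lit 364) (nat_lit 317)) (XT.nd (nat_lit 78) (nat_lit 0) (nat_lit 0) (XT.lf (nat_lit 152) (nat_lit 2625483263812) (nat_lit 0) (nat_lit 7483655136) (nat_lit 76) (nat_lit 7483655136) (nat_lit 170) (nat_lit 1) (nat_lit 168) (nat_lit 1) (nat_lit 169) (nat_lit 1) (nat_lit 220) (nat_lit 364) (nat_lit 316)) (XT.lf (nat_lit 0) (nat_lit 832000214064) (nat_lit 0) (nat_lit 850673984916) (nat_lit 152) (nat_lit 832000214064) (nat_lit 168) (nat_lit 3) (nat_lit 168) (nat_lit 1) (nat_lit 170)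 (nat_lit 1) (nat_lit 221) (nat_lit 364) (nat_lit 315))))) (XT.nd (nat_lit 234) (nat_lit 228) (nat_lit 0) (XT.nd (nat_lit 78) (nat_lit 152) (nat_lit 0) (XT.lf (nat_lit 76) (nat_lit 789261397785) (nat_lit 0) (nat_lit 805499459396) (nat_lit 76) (nat_lit 805499459396) (nat_lit 168) (nat_lit 3) (nat_lit 167) (nat_lit 1) (nat_lit 168) (nat_lit 1) (nat_lit 222) (nat_lit 364) (nat_lit 314)) (XT.nd (nat_lit 78) (nat_lit 0) (nat_lit 0) (XT.lf (nat_lit 152) (nat_lit 2287195666357) (nat_lit 0) (nat_lit 4278804113) (nat_lit 76) (nat_lit 4278804113) (nat_lit 167) (nat_lit 1) (nat_lit 165) (nat_lit 1) (nat_lit 166) (nat_lit 1) (nat_lit 223) (nat_lit 364) (nat_lit 313)) (XT.lf (nat_lit 0) (nat_lit 725243930351) (nat_lit 0) (nat_lit 735920719443) (nat_lit 152) (nat_lit 725243930351) (nat_lit 165) (nat_lit 3) (nat_lit 165) (nat_lit 1) (nat_lit 167) (nat_lit 1) (nat_lit 224) (nat_lit 364) (nat_lit 312)))) (XT.nd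 (nat_lit 78) (nat_lit 152) (nat_lit 0) (XT.lf (nat_lit 76) (nat_lit 689464913993) (nat_lit 0) (nat_lit 698749078421) (nat_lit 76) (nat_lit 698749078421) (nat_lit 165) (nat_lit 3) (nat_lit 164) (nat_lit 1) (nat_lit 165) (nat_lit 1) (nat_lit 225) (nat_lit 364) (nat_lit 311)) (XT.nd (nat_lit 78) (nat_lit 0) (nat_lit 0) (XT.lf (nat_lit 152) (nat_lit 1991248144696) (nat_lit 0) (nat_lit 2446420139) (nat_lit 76) (nat_lit 2446420139) (nat_lit 164) (nat_lit 1) (nat_lit 162) (nat_lit 1) (nat_lit 163) (nat_lit 1) (nat_lit 226) (nat_lit 364) (nat_lit 310)) (XT.lf (nat_lit 0) (nat_lit 631656316787) (nat_lit 0) (nat_lit 637760805603) (nat_lit 152) (nat_lit 631656316787) (nat_lit 162) (nat_lit 3) (nat_lit 162) (nat_lit 1) (nat_lit 164) (nat_lit 1) (nat_lit 227) (nat_lit 364) (nat_lit 309))))))) (XT.nd (nat_lit 858) (nat_lit 912) (nat_lit 0) (XT.nd (nat_lit 390) (nat_lit 456) (nat_lit 0) (XT.nd (nat_lit 156) (nat_lit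 228) (nat_lit 0) (XT.nd (nat_lit 78) (nat_lit 152) (nat_lit 0) (XT.lf (nat_lit 76) (nat_lit 601336105071) (nat_lit 0) (nat_lit 606644356215) (nat_lit 76) (nat_lit 606644356215) (nat_lit 162) (nat_lit 3) (nat_lit 161) (nat_lit 1) (nat_lit 162) (nat_lit 1) (nat_lit 228) (nat_lit 364) (nat_lit 308)) (XT.lf (nat_lit 152) (nat_lit 1732882240946) (nat_lit 0) (nat_lit 1398748654) (nat_lit 76) (nat_lit 1398748654) (nat_lit 161) (nat_lit 1) (nat_lit 159) (nat_lit 1) (nat_lit 160) (nat_lit 1) (nat_lit 229) (nat_lit 364) (nat_lit 307))) (XT.nd (nat_lit 78) (nat_lit 228) (nat_lit 0) (XT.lf (nat_lit 0) (nat_lit 549843502058) (nat_lit 0) (nat_lit 553333763352) (nat_lit 152) (nat_lit 549843502058) (nat_lit 159) (nat_lit 3) (nat_lit 159) (nat_lit 1) (nat_lit 161) (nat_lit 1) (nat_lit 230) (nat_lit 364) (nat_lit 306)) (XT.nd (nat_lit 78) (nat_lit 152) (nat_lit 0) (XT.lf (nat_lit 76) (nat_lit 523930915656) (nat_lit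 0) (nat_lit 526965925476) (nat_lit 76) (nat_lit 526965925476) (nat_lit 159) (nat_lit 3) (nat_lit 158) (nat_lit 1) (nat_lit 159) (nat_lit 1) (nat_lit 231) (nat_lit 364) (nat_lit 305)) (XT.lf (nat_lit 152) (nat_lit 1507632916304) (nat_lit 0) (nat_lit 799739083) (nat_lit 76) (nat_lit 799739083) (nat_lit 158) (nat_lit 1) (nat_lit 156) (nat_lit 1) (nat_lit 157) (nat_lit 1) (nat_lit 232) (nat_lit 364) (nat_lit 304))))) (XT.nd (nat_lit 234) (nat_lit 228) (nat_lit 0) (XT.nd (nat_lit 78) (nat_lit 228) (nat_lit 0) (XT.lf (nat_lit 0) (nat_lit 478454765858) (nat_lit 0) (nat_lit 480450334081) (nat_lit 152) (nat_lit 478454765858) (nat_lit 156) (nat_lit 3) (nat_lit 156) (nat_lit 1) (nat_lit 158) (nat_lit 1) (nat_lit 233) (nat_lit 364) (nat_lit 303)) (XT.nd (nat_lit 78) (nat_lit 152) (nat_lit 0) (XT.lf (nat_lit 76) (nat_lit 456180980527) (nat_lit 0) (nat_lit 457916257242) (nat_lit 76) (nat_lit 457916257242) (nat_lit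 156) (nat_lit 3) (nat_lit 155) (nat_lit 1) (nat_lit 156) (nat_lit 1) (nat_lit 234) (nat_lit 364) (nat_lit 302)) (XT.lf (nat_lit 152) (nat_lit 1311430422462) (nat_lit 0) (nat_lit 457253416) (nat_lit 76) (nat_lit 457253416) (nat_lit 155) (nat_lit 1) (nat_lit 153) (nat_lit 1) (nat_lit 154) (nat_lit 1) (nat_lit 235) (nat_lit 364) (nat_lit 301)))) (XT.nd (nat_lit 78) (nat_lit 228) (nat_lit 0) (XT.lf (nat_lit 0) (nat_lit 416236290456) (nat_lit 0) (nat_lit 417377263064) (nat_lit 152) (nat_lit 416236290456) (nat_lit 153) (nat_lit 3) (nat_lit 153) (nat_lit 1) (nat_lit 155) (nat_lit 1) (nat_lit 236) (nat_lit 364) (nat_lit 300)) (XT.nd (nat_lit 78) (nat_lit 152) (nat_lit 0) (XT.lf (nat_lit 76) (nat_lit 397015807528) (nat_lit 0) (nat_lit 398007957622) (nat_lit 76) (nat_lit 398007957622) (nat_lit 153) (nat_lit 3) (nat_lit 152) (nat_lit 1) (nat_lit 153) (nat_lit 1) (nat_lit 237) (nat_lit 364) (nat_lit 299))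 (XT.lf (nat_lit 152) (nat_lit 1140628869458) (nat_lit 0) (nat_lit 261436124) (nat_lit 76) (nat_lit 261436124) (nat_lit 152) (nat_lit 1) (nat_lit 150) (nat_lit 1) (nat_lit 151) (nat_lit 1) (nat_lit 238) (nat_lit 364) (nat_lit 298)))))) (XT.nd (nat_lit 468) (nat_lit 456) (nat_lit 0) (XT.nd (nat_lit 234) (nat_lit 228) (nat_lit 0) (XT.nd (nat_lit 78) (nat_lit 228) (nat_lit 0) (XT.lf (nat_lit 0) (nat_lit 362052471921) (nat_lit 0) (nat_lit 362704826713) (nat_lit 152) (nat_lit 362052471921) (nat_lit 150) (nat_lit 3) (nat_lit 150) (nat_lit 1) (nat_lit 152) (nat_lit 1) (nat_lit 239) (nat_lit 364) (nat_lit 297)) (XT.nd (nat_lit 78) (nat_lit 152) (nat_lit 0) (XT.lf (nat_lit 76) (nat_lit 345423642883) (nat_lit 0) (nat_lit 345990907919) (nat_lit 76) (nat_lit 345990907919) (nat_lit 150) (nat_lit 3) (nat_lit 149) (nat_lit 1) (nat_lit 150) (nat_lit 1) (nat_lit 240) (nat_lit 364) (nat_lit 296)) (XT.lf (nat_lit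 152) (nat_lit 991996752952) (nat_lit 0) (nat_lit 149476952) (nat_lit 76) (nat_lit 149476952) (nat_lit 149) (nat_lit 1) (nat_lit 147) (nat_lit 1) (nat_lit 148) (nat_lit 1) (nat_lit 241) (nat_lit 364) (nat_lit 295)))) (XT.nd (nat_lit 78) (nat_lit 228) (nat_lit 0) (XT.lf (nat_lit 0) (nat_lit 314889912347) (nat_lit 0) (nat_lit 315262898317) (nat_lit 152) (nat_lit 314889912347) (nat_lit 147) (nat_lit 3) (nat_lit 147) (nat_lit 1) (nat_lit 149) (nat_lit 1) (nat_lit 242) (nat_lit 364) (nat_lit 294)) (XT.nd (nat_lit 78) (nat_lit 152) (nat_lit 0) (XT.lf (nat_lit 76) (nat_lit 300478450990) (nat_lit 0) (nat_lit 300802786616) (nat_lit 76) (nat_lit 300802786616) (nat_lit 147) (nat_lit 3) (nat_lit 146) (nat_lit 1) (nat_lit 147) (nat_lit 1) (nat_lit 243) (nat_lit 364) (nat_lit 293)) (XT.lf (nat_lit 152) (nat_lit 862689097746) (nat_lit 0) (nat_lit 85463932) (nat_lit 76) (nat_lit 85463932) (nat_lit 146) (nat_lit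 1) (nat_lit 144) (nat_lit 1) (nat_lit 145) (nat_lit 1) (nat_lit 244) (nat_lit 364) (nat_lit 292))))) (XT.nd (nat_lit 234) (nat_lit 228) (nat_lit 0) (XT.nd (nat_lit 78) (nat_lit 228) (nat_lit 0) (XT.lf (nat_lit 0) (nat_lit 273852578477) (nat_lit 0) (nat_lit 274065834416) (nat_lit 152) (nat_lit 273852578477) (nat_lit 144) (nat_lit 3) (nat_lit 144) (nat_lit 1) (nat_lit 146) (nat_lit 1) (nat_lit 245) (nat_lit 364) (nat_lit 291)) (XT.nd (nat_lit 78) (nat_lit 152) (nat_lit 0) (XT.lf (nat_lit 76) (nat_lit 261348540078) (nat_lit 0) (nat_lit 261533980024) (nat_lit 76) (nat_lit 261533980024) (nat_lit 144) (nat_lit 3) (nat_lit 143) (nat_lit 1) (nat_lit 144) (nat_lit 1) (nat_lit 246) (nat_lit 364) (nat_lit 290)) (XT.lf (nat_lit 152) (nat_lit 750212017337) (nat_lit 0) (nat_lit 48864281) (nat_lit 76) (nat_lit 48864281) (nat_lit 143) (nat_lit 1) (nat_lit 141) (nat_lit 1) (nat_lit 142) (nat_lit 1) (nat_lit 247)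 (nat_lit 364) (nat_lit 289)))) (XT.nd (nat_lit 78) (nat_lit 228) (nat_lit 0) (XT.lf (nat_lit 0) (nat_lit 238152838896) (nat_lit 0) (nat_lit 238274768671) (nat_lit 152) (nat_lit 238152838896) (nat_lit 141) (nat_lit 3) (nat_lit 141) (nat_lit 1) (nat_lit 143) (nat_lit 1) (nat_lit 248) (nat_lit 364) (nat_lit 288)) (XT.nd (nat_lit 78) (nat_lit 152) (nat_lit 0) (XT.lf (nat_lit 76) (nat_lit 227295580797) (nat_lit 0) (nat_lit 227401606688) (nat_lit 76) (nat_lit 227401606688) (nat_lit 141) (nat_lit 3) (nat_lit 140) (nat_lit 1) (nat_lit 141) (nat_lit 1) (nat_lit 249) (nat_lit 364) (nat_lit 287)) (XT.lf (nat_lit 152) (nat_lit 652385482546) (nat_lit 0) (nat_lit 27938311) (nat_lit 76) (nat_lit 27938311) (nat_lit 140) (nat_lit 1) (nat_lit 138) (nat_lit 1) (nat_lit 139) (nat_lit 1) (nat_lit 250) (nat_lit 364) (nat_lit 286))))))))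
noncomputable def ec218 : XT := (XT.nd (nat_lit 1716) (nat_lit 1672) (nat_lit 0) (XT.nd (nat_lit 858) (nat_lit 836) (nat_lit 0) (XT.nd (nat_lit 390) (nat_lit 456) (nat_lit 0) (XT.nd (nat_lit 156) (nat_lit 228) (nat_lit 0) (XT.nd (nat_lit 78) (nat_lit 76) (nat_lit 0) (XT.lf (nat_lit 0) (nat_lit 207100952792) (nat_lit 0) (nat_lit 207170666537) (nat_lit 152) (nat_lit 207100952792) (nat_lit 138) (nat_lit 3) (nat_lit 138) (nat_lit 1) (nat_lit 140) (nat_lit 1) (nat_lit 251) (nat_lit 364) (nat_lit 285)) (XT.lf (nat_lit 76) (nat_lit 197668903227) (nat_lit 0) (nat_lit 197729523874) (nat_lit 76) (nat_lit 197729523874) (nat_lit 138) (nat_lit 3) (nat_lit 137) (nat_lit 1) (nat_lit 138) (nat_lit 1) (nat_lit 252) (nat_lit 364) (nat_lit 284))) (XT.nd (nat_lit 78) (nat_lit 76) (nat_lit 0) (XT.lf (nat_lit 152) (nat_lit 567307279416) (nat_lit 0) (nat_lit 15973820) (nat_lit 76) (nat_lit 15973820) (nat_lit 137) (nat_lit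 1) (nat_lit 135) (nat_lit 1) (nat_lit 136) (nat_lit 1) (nat_lit 253) (nat_lit 364) (nat_lit 283)) (XT.nd (nat_lit 78) (nat_lit 76) (nat_lit 0) (XT.lf (nat_lit 0) (nat_lit 180094376017) (nat_lit 0) (nat_lit 180134235077) (nat_lit 152) (nat_lit 180094376017) (nat_lit 135) (nat_lit 3) (nat_lit 135) (nat_lit 1) (nat_lit 137) (nat_lit 1) (nat_lit 254) (nat_lit 364) (nat_lit 282)) (XT.lf (nat_lit 76) (nat_lit 171897764970) (nat_lit 0) (nat_lit 171932425022) (nat_lit 76) (nat_lit 171932425022) (nat_lit 135) (nat_lit 3) (nat_lit 134) (nat_lit 1) (nat_lit 135) (nat_lit 1) (nat_lit 255) (nat_lit 364) (nat_lit 281))))) (XT.nd (nat_lit 234) (nat_lit 228) (nat_lit 0) (XT.nd (nat_lit 78) (nat_lit 76) (nat_lit 0) (XT.lf (nat_lit 152) (nat_lit 493319571639) (nat_lit 0) (nat_lit 9133083) (nat_lit 76) (nat_lit 9133083) (nat_lit 134) (nat_lit 1) (nat_lit 132) (nat_lit 1) (nat_lit 133) (nat_lit 1) (nat_lit 256) (nat_lit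 364) (nat_lit 280)) (XT.nd (nat_lit 78) (nat_lit 76) (nat_lit 0) (XT.lf (nat_lit 0) (nat_lit 156607573646) (nat_lit 0) (nat_lit 156630363193) (nat_lit 152) (nat_lit 156607573646) (nat_lit 132) (nat_lit 3) (nat_lit 132) (nat_lit 1) (nat_lit 134) (nat_lit 1) (nat_lit 257) (nat_lit 364) (nat_lit 279)) (XT.lf (nat_lit 76) (nat_lit 149483042421) (nat_lit 0) (nat_lit 149502859418) (nat_lit 76) (nat_lit 149502859418) (nat_lit 132) (nat_lit 3) (nat_lit 131) (nat_lit 1) (nat_lit 132) (nat_lit 1) (nat_lit 258) (nat_lit 364) (nat_lit 278)))) (XT.nd (nat_lit 78) (nat_lit 76) (nat_lit 0) (XT.lf (nat_lit 152) (nat_lit 428978625664) (nat_lit 0) (nat_lit 5221870) (nat_lit 76) (nat_lit 5221870) (nat_lit 131) (nat_lit 1) (nat_lit 129) (nat_lit 1) (nat_lit 130) (nat_lit 1) (nat_lit 259) (nat_lit 364) (nat_lit 277)) (XT.nd (nat_lit 78) (nat_lit 76) (nat_lit 0) (XT.lf (nat_lit 0) (nat_lit 136182653426) (nat_lit 0)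 (nat_lit 136195683423) (nat_lit 152) (nat_lit 136182653426) (nat_lit 129) (nat_lit 3) (nat_lit 129) (nat_lit 1) (nat_lit 131) (nat_lit 1) (nat_lit 260) (nat_lit 364) (nat_lit 276)) (XT.lf (nat_lit 76) (nat_lit 129989099351) (nat_lit 0) (nat_lit 130000429784) (nat_lit 76) (nat_lit 130000429784) (nat_lit 129) (nat_lit 3) (nat_lit 128) (nat_lit 1) (nat_lit 129) (nat_lit 1) (nat_lit 261) (nat_lit 364) (nat_lit 275)))))) (XT.nd (nat_lit 390) (nat_lit 456) (nat_lit 0) (XT.nd (nat_lit 156) (nat_lit 228) (nat_lit 0) (XT.nd (nat_lit 78) (nat_lit 0) (nat_lit 0) (XT.lf (nat_lit 152) (nat_lit 373027799308) (nat_lit 0) (nat_lit 2985621) (nat_lit 76) (nat_lit 2985621) (nat_lit 128) (nat_lit 1) (nat_lit 126) (nat_lit 1) (nat_lit 127) (nat_lit 1) (nat_lit 262) (nat_lit 364) (nat_lit 274)) (XT.lf (nat_lit 0) (nat_lit 118420930533) (nat_lit 0) (nat_lit 118428380476) (nat_lit 152) (nat_lit 118420930533) (nat_lit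 126) (nat_lit 3) (nat_lit 126) (nat_lit 1) (nat_lit 128) (nat_lit 1) (nat_lit 263) (nat_lit 364) (nat_lit 273))) (XT.nd (nat_lit 78) (nat_lit 152) (nat_lit 0) (XT.lf (nat_lit 76) (nat_lit 113036197868) (nat_lit 0) (nat_lit 113042676080) (nat_lit 76) (nat_lit 113042676080) (nat_lit 126) (nat_lit 3) (nat_lit 125) (nat_lit 1) (nat_lit 126) (nat_lit 1) (nat_lit 264) (nat_lit 364) (nat_lit 272)) (XT.nd (nat_lit 78) (nat_lit 0) (nat_lit 0) (XT.lf (nat_lit 152) (nat_lit 324373661729) (nat_lit 0) (nat_lit 1707038) (nat_lit 76) (nat_lit 1707038) (nat_lit 125) (nat_lit 1) (nat_lit 123) (nat_lit 1) (nat_lit 124) (nat_lit 1) (nat_lit 265) (nat_lit 364) (nat_lit 271)) (XT.lf (nat_lit 0) (nat_lit 102975426546) (nat_lit 0) (nat_lit 102979686075) (nat_lit 152) (nat_lit 102975426546) (nat_lit 123) (nat_lit 3) (nat_lit 123) (nat_lit 1) (nat_lit 125) (nat_lit 1) (nat_lit 266) (nat_lit 364) (nat_lit 270))))) (XT.nd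 (nat_lit 234) (nat_lit 228) (nat_lit 0) (XT.nd (nat_lit 78) (nat_lit 152) (nat_lit 0) (XT.lf (nat_lit 76) (nat_lit 98293602934) (nat_lit 0) (nat_lit 98297306872) (nat_lit 76) (nat_lit 98297306872) (nat_lit 123) (nat_lit 3) (nat_lit 122) (nat_lit 1) (nat_lit 123) (nat_lit 1) (nat_lit 267) (nat_lit 364) (nat_lit 269)) (XT.nd (nat_lit 78) (nat_lit 0) (nat_lit 0) (XT.lf (nat_lit 152) (nat_lit 282065004121) (nat_lit 0) (nat_lit 976004) (nat_lit 76) (nat_lit 976004) (nat_lit 122) (nat_lit 1) (nat_lit 120) (nat_lit 1) (nat_lit 121) (nat_lit 1) (nat_lit 268) (nat_lit 364) (nat_lit 268)) (XT.lf (nat_lit 0) (nat_lit 89544251881) (nat_lit 0) (nat_lit 89546687281) (nat_lit 152) (nat_lit 89544251881) (nat_lit 120) (nat_lit 3) (nat_lit 120) (nat_lit 1) (nat_lit 122) (nat_lit 1) (nat_lit 269) (nat_lit 364) (nat_lit 267)))) (XT.nd (nat_lit 78) (nat_lit 152) (nat_lit 0) (XT.lf (nat_lit 76) (nat_lit 85473416875)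 (nat_lit 0) (nat_lit 85475534613) (nat_lit 76) (nat_lit 85475534613) (nat_lit 120) (nat_lit 3) (nat_lit 119) (nat_lit 1) (nat_lit 120) (nat_lit 1) (nat_lit 270) (nat_lit 364) (nat_lit 266)) (XT.nd (nat_lit 78) (nat_lit 0) (nat_lit 0) (XT.lf (nat_lit 152) (nat_lit 245274460046) (nat_lit 0) (nat_lit 558033) (nat_lit 76) (nat_lit 558033) (nat_lit 119) (nat_lit 1) (nat_lit 117) (nat_lit 1) (nat_lit 118) (nat_lit 1) (nat_lit 271) (nat_lit 364) (nat_lit 265)) (XT.lf (nat_lit 0) (nat_lit 77864797104) (nat_lit 0) (nat_lit 77866189552) (nat_lit 152) (nat_lit 77864797104) (nat_lit 117) (nat_lit 3) (nat_lit 117) (nat_lit 1) (nat_lit 119) (nat_lit 1) (nat_lit 272) (nat_lit 364) (nat_lit 264))))))) (XT.nd (nat_lit 858) (nat_lit 760) (nat_lit 0) (XT.nd (nat_lit 390) (nat_lit 456) (nat_lit 0) (XT.nd (nat_lit 156) (nat_lit 228) (nat_lit 0) (XT.nd (nat_lit 78) (nat_lit 152) (nat_lit 0) (XT.lf (nat_lit 76) (nat_lit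 74325121228) (nat_lit 0) (nat_lit 74326332052) (nat_lit 76) (nat_lit 74326332052) (nat_lit 117) (nat_lit 3) (nat_lit 116) (nat_lit 1) (nat_lit 117) (nat_lit 1) (nat_lit 273) (nat_lit 364) (nat_lit 263)) (XT.lf (nat_lit 152) (nat_lit 213282449872) (nat_lit 0) (nat_lit 319057) (nat_lit 76) (nat_lit 319057) (nat_lit 116) (nat_lit 1) (nat_lit 114) (nat_lit 1) (nat_lit 115) (nat_lit 1) (nat_lit 274) (nat_lit 364) (nat_lit 262))) (XT.nd (nat_lit 78) (nat_lit 228) (nat_lit 0) (XT.lf (nat_lit 0) (nat_lit 67708650868) (nat_lit 0) (nat_lit 67709447004) (nat_lit 152) (nat_lit 67708650868) (nat_lit 114) (nat_lit 3) (nat_lit 114) (nat_lit 1) (nat_lit 116) (nat_lit 1) (nat_lit 275) (nat_lit 364) (nat_lit 261)) (XT.nd (nat_lit 78) (nat_lit 152) (nat_lit 0) (XT.lf (nat_lit 76) (nat_lit 64630775134) (nat_lit 0) (nat_lit 64631467426) (nat_lit 76) (nat_lit 64631467426) (nat_lit 114) (nat_lit 3) (nat_lit 113) (nat_lit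 1) (nat_lit 114) (nat_lit 1) (nat_lit 276) (nat_lit 364) (nat_lit 260)) (XT.lf (nat_lit 152) (nat_lit 185463177533) (nat_lit 0) (nat_lit 182422) (nat_lit 76) (nat_lit 182422) (nat_lit 113) (nat_lit 1) (nat_lit 111) (nat_lit 1) (nat_lit 112) (nat_lit 1) (nat_lit 277) (nat_lit 364) (nat_lit 259))))) (XT.nd (nat_lit 234) (nat_lit 228) (nat_lit 0) (XT.nd (nat_lit 78) (nat_lit 228) (nat_lit 0) (XT.lf (nat_lit 0) (nat_lit 58877162980) (nat_lit 0) (nat_lit 58877618174) (nat_lit 152) (nat_lit 58877162980) (nat_lit 111) (nat_lit 3) (nat_lit 111) (nat_lit 1) (nat_lit 113) (nat_lit 1) (nat_lit 278) (nat_lit 364) (nat_lit 258)) (XT.nd (nat_lit 78) (nat_lit 152) (nat_lit 0) (XT.lf (nat_lit 76) (nat_lit 56200808354) (nat_lit 0) (nat_lit 56201204174) (nat_lit 76) (nat_lit 56201204174) (nat_lit 111) (nat_lit 3) (nat_lit 110) (nat_lit 1) (nat_lit 111) (nat_lit 1) (nat_lit 279) (nat_lit 364) (nat_lit 257)) (XT.lf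 (nat_lit 152) (nat_lit 161272429858) (nat_lit 0) (nat_lit 104300) (nat_lit 76) (nat_lit 104300) (nat_lit 110) (nat_lit 1) (nat_lit 108) (nat_lit 1) (nat_lit 109) (nat_lit 1) (nat_lit 280) (nat_lit 364) (nat_lit 256)))) (XT.nd (nat_lit 78) (nat_lit 228) (nat_lit 0) (XT.lf (nat_lit 0) (nat_lit 51197576062) (nat_lit 0) (nat_lit 51197836320) (nat_lit 152) (nat_lit 51197576062) (nat_lit 108) (nat_lit 3) (nat_lit 108) (nat_lit 1) (nat_lit 110) (nat_lit 1) (nat_lit 281) (nat_lit 364) (nat_lit 255)) (XT.nd (nat_lit 78) (nat_lit 152) (nat_lit 0) (XT.lf (nat_lit 76) (nat_lit 48870344934) (nat_lit 0) (nat_lit 48870571246) (nat_lit 76) (nat_lit 48870571246) (nat_lit 108) (nat_lit 3) (nat_lit 107) (nat_lit 1) (nat_lit 108) (nat_lit 1) (nat_lit 282) (nat_lit 364) (nat_lit 254)) (XT.lf (nat_lit 152) (nat_lit 140236953601) (nat_lit 0) (nat_lit 59634) (nat_lit 76) (nat_lit 59634) (nat_lit 107) (nat_lit 1) (nat_lit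 105) (nat_lit 1) (nat_lit 106) (nat_lit 1) (nat_lit 283) (nat_lit 364) (nat_lit 253)))))) (XT.nd (nat_lit 390) (nat_lit 456) (nat_lit 0) (XT.nd (nat_lit 156) (nat_lit 228) (nat_lit 0) (XT.nd (nat_lit 78) (nat_lit 76) (nat_lit 0) (XT.lf (nat_lit 0) (nat_lit 44519655964) (nat_lit 0) (nat_lit 44519804768) (nat_lit 152) (nat_lit 44519655964) (nat_lit 105) (nat_lit 3) (nat_lit 105) (nat_lit 1) (nat_lit 107) (nat_lit 1) (nat_lit 284) (nat_lit 364) (nat_lit 252)) (XT.lf (nat_lit 76) (nat_lit 42495996028) (nat_lit 0) (nat_lit 42496125422) (nat_lit 76) (nat_lit 42496125422) (nat_lit 105) (nat_lit 3) (nat_lit 104) (nat_lit 1) (nat_lit 105) (nat_lit 1) (nat_lit 285) (nat_lit 364) (nat_lit 251))) (XT.nd (nat_lit 78) (nat_lit 76) (nat_lit 0) (XT.lf (nat_lit 152) (nat_lit 121945210248) (nat_lit 0) (nat_lit 34096) (nat_lit 76) (nat_lit 34096) (nat_lit 104) (nat_lit 1) (nat_lit 102) (nat_lit 1) (nat_lit 103) (nat_lit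 1) (nat_lit 286) (nat_lit 364) (nat_lit 250)) (XT.nd (nat_lit 78) (nat_lit 76) (nat_lit 0) (XT.lf (nat_lit 0) (nat_lit 38712758385) (nat_lit 0) (nat_lit 38712843464) (nat_lit 152) (nat_lit 38712758385) (nat_lit 102) (nat_lit 3) (nat_lit 102) (nat_lit 1) (nat_lit 104) (nat_lit 1) (nat_lit 287) (nat_lit 364) (nat_lit 249)) (XT.lf (nat_lit 76) (nat_lit 36953065130) (nat_lit 0) (nat_lit 36953139112) (nat_lit 76) (nat_lit 36953139112) (nat_lit 102) (nat_lit 3) (nat_lit 101) (nat_lit 1) (nat_lit 102) (nat_lit 1) (nat_lit 288) (nat_lit 364) (nat_lit 248))))) (XT.nd (nat_lit 234) (nat_lit 228) (nat_lit 0) (XT.nd (nat_lit 78) (nat_lit 76) (nat_lit 0) (XT.lf (nat_lit 152) (nat_lit 106039332243) (nat_lit 0) (nat_lit 19494) (nat_lit 76) (nat_lit 19494) (nat_lit 101) (nat_lit 1) (nat_lit 99) (nat_lit 1) (nat_lit 100) (nat_lit 1) (nat_lit 289) (nat_lit 364) (nat_lit 247)) (XT.nd (nat_lit 78) (nat_lit 76) (nat_lit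 0) (XT.lf (nat_lit 0) (nat_lit 33663276204) (nat_lit 0) (nat_lit 33663324848) (nat_lit 152) (nat_lit 33663276204) (nat_lit 99) (nat_lit 3) (nat_lit 99) (nat_lit 1) (nat_lit 101) (nat_lit 1) (nat_lit 290) (nat_lit 364) (nat_lit 246)) (XT.lf (nat_lit 76) (nat_lit 32133114468) (nat_lit 0) (nat_lit 32133156767) (nat_lit 76) (nat_lit 32133156767) (nat_lit 99) (nat_lit 3) (nat_lit 98) (nat_lit 1) (nat_lit 99) (nat_lit 1) (nat_lit 291) (nat_lit 364) (nat_lit 245)))) (XT.nd (nat_lit 78) (nat_lit 76) (nat_lit 0) (XT.lf (nat_lit 152) (nat_lit 92208125848) (nat_lit 0) (nat_lit 11146) (nat_lit 76) (nat_lit 11146) (nat_lit 98) (nat_lit 1) (nat_lit 96) (nat_lit 1) (nat_lit 97) (nat_lit 1) (nat_lit 292) (nat_lit 364) (nat_lit 244)) (XT.nd (nat_lit 78) (nat_lit 76) (nat_lit 0) (XT.lf (nat_lit 0) (nat_lit 29272418690) (nat_lit 0) (nat_lit 29272446502) (nat_lit 152) (nat_lit 29272418690) (nat_lit 96) (nat_lit 3)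 (nat_lit 96) (nat_lit 1) (nat_lit 98) (nat_lit 1) (nat_lit 293) (nat_lit 364) (nat_lit 243)) (XT.lf (nat_lit 76) (nat_lit 27941846875) (nat_lit 0) (nat_lit 27941871060) (nat_lit 76) (nat_lit 27941871060) (nat_lit 96) (nat_lit 3) (nat_lit 95) (nat_lit 1) (nat_lit 96) (nat_lit 1) (nat_lit 294) (nat_lit 364) (nat_lit 242))))))))
noncomputable def ec219 : XT := (XT.nd (nat_lit 1716) (nat_lit 1672) (nat_lit 0) (XT.nd (nat_lit 858) (nat_lit 912) (nat_lit 0) (XT.nd (nat_lit 390) (nat_lit 456) (nat_lit 0) (XT.nd (nat_lit 156) (nat_lit 228) (nat_lit 0) (XT.nd (nat_lit 78) (nat_lit 0) (nat_lit 0) (XT.lf (nat_lit 152) (nat_lit 80180985204) (nat_lit 0) (nat_lit 6372) (nat_lit 76) (nat_lit 6372) (nat_lit 95) (nat_lit 1) (nat_lit 93) (nat_lit 1) (nat_lit 94) (nat_lit 1) (nat_lit 295) (nat_lit 364) (nat_lit 241)) (XT.lf (nat_lit 0) (nat_lit 25454279751) (nat_lit 0) (nat_lit 25454295653) (nat_lit 152) (nat_lit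 25454279751) (nat_lit 93) (nat_lit 3) (nat_lit 93) (nat_lit 1) (nat_lit 95) (nat_lit 1) (nat_lit 296) (nat_lit 364) (nat_lit 240))) (XT.nd (nat_lit 78) (nat_lit 152) (nat_lit 0) (XT.lf (nat_lit 76) (nat_lit 24297262845) (nat_lit 0) (nat_lit 24297276672) (nat_lit 76) (nat_lit 24297276672) (nat_lit 93) (nat_lit 3) (nat_lit 92) (nat_lit 1) (nat_lit 93) (nat_lit 1) (nat_lit 297) (nat_lit 364) (nat_lit 239)) (XT.nd (nat_lit 78) (nat_lit 0) (nat_lit 0) (XT.lf (nat_lit 152) (nat_lit 69722599378) (nat_lit 0) (nat_lit 3643) (nat_lit 76) (nat_lit 3643) (nat_lit 92) (nat_lit 1) (nat_lit 90) (nat_lit 1) (nat_lit 91) (nat_lit 1) (nat_lit 298) (nat_lit 364) (nat_lit 238)) (XT.lf (nat_lit 0) (nat_lit 22134157808) (nat_lit 0) (nat_lit 22134166900) (nat_lit 152) (nat_lit 22134157808) (nat_lit 90) (nat_lit 3) (nat_lit 90) (nat_lit 1) (nat_lit 92) (nat_lit 1) (nat_lit 299) (nat_lit 364) (nat_lit 237))))) (XT.nd (nat_lit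 234) (nat_lit 228) (nat_lit 0) (XT.nd (nat_lit 78) (nat_lit 152) (nat_lit 0) (XT.lf (nat_lit 76) (nat_lit 21128057330) (nat_lit 0) (nat_lit 21128065236) (nat_lit 76) (nat_lit 21128065236) (nat_lit 90) (nat_lit 3) (nat_lit 89) (nat_lit 1) (nat_lit 90) (nat_lit 1) (nat_lit 300) (nat_lit 364) (nat_lit 236)) (XT.nd (nat_lit 78) (nat_lit 0) (nat_lit 0) (XT.lf (nat_lit 152) (nat_lit 60628349313) (nat_lit 0) (nat_lit 2083) (nat_lit 76) (nat_lit 2083) (nat_lit 89) (nat_lit 1) (nat_lit 87) (nat_lit 1) (nat_lit 88) (nat_lit 1) (nat_lit 301) (nat_lit 364) (nat_lit 235)) (XT.lf (nat_lit 0) (nat_lit 19247094606) (nat_lit 0) (nat_lit 19247099804) (nat_lit 152) (nat_lit 19247094606) (nat_lit 87) (nat_lit 3) (nat_lit 87) (nat_lit 1) (nat_lit 89) (nat_lit 1) (nat_lit 302) (nat_lit 364) (nat_lit 234)))) (XT.nd (nat_lit 78) (nat_lit 152) (nat_lit 0) (XT.lf (nat_lit 76) (nat_lit 18372225300) (nat_lit 0) (nat_lit 18372229820)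 (nat_lit 76) (nat_lit 18372229820) (nat_lit 87) (nat_lit 3) (nat_lit 86) (nat_lit 1) (nat_lit 87) (nat_lit 1) (nat_lit 303) (nat_lit 364) (nat_lit 233)) (XT.nd (nat_lit 78) (nat_lit 0) (nat_lit 0) (XT.lf (nat_lit 152) (nat_lit 52720304911) (nat_lit 0) (nat_lit 1191) (nat_lit 76) (nat_lit 1191) (nat_lit 86) (nat_lit 1) (nat_lit 84) (nat_lit 1) (nat_lit 85) (nat_lit 1) (nat_lit 304) (nat_lit 364) (nat_lit 232)) (XT.lf (nat_lit 0) (nat_lit 16736604497) (nat_lit 0) (nat_lit 16736607469) (nat_lit 152) (nat_lit 16736604497) (nat_lit 84) (nat_lit 3) (nat_lit 84) (nat_lit 1) (nat_lit 86) (nat_lit 1) (nat_lit 305) (nat_lit 364) (nat_lit 231)))))) (XT.nd (nat_lit 390) (nat_lit 456) (nat_lit 0) (XT.nd (nat_lit 156) (nat_lit 228) (nat_lit 0) (XT.nd (nat_lit 78) (nat_lit 152) (nat_lit 0) (XT.lf (nat_lit 76) (nat_lit 15975848964) (nat_lit 0) (nat_lit 15975851548) (nat_lit 76) (nat_lit 15975851548) (nat_lit 84)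 (nat_lit 3) (nat_lit 83) (nat_lit 1) (nat_lit 84) (nat_lit 1) (nat_lit 306) (nat_lit 364) (nat_lit 230)) (XT.lf (nat_lit 152) (nat_lit 45843744064) (nat_lit 0) (nat_lit 681) (nat_lit 76) (nat_lit 681) (nat_lit 83) (nat_lit 1) (nat_lit 81) (nat_lit 1) (nat_lit 82) (nat_lit 1) (nat_lit 307) (nat_lit 364) (nat_lit 229))) (XT.nd (nat_lit 78) (nat_lit 228) (nat_lit 0) (XT.lf (nat_lit 0) (nat_lit 14553569408) (nat_lit 0) (nat_lit 14553571108) (nat_lit 152) (nat_lit 14553569408) (nat_lit 81) (nat_lit 3) (nat_lit 81) (nat_lit 1) (nat_lit 83) (nat_lit 1) (nat_lit 308) (nat_lit 364) (nat_lit 228)) (XT.nd (nat_lit 78) (nat_lit 152) (nat_lit 0) (XT.lf (nat_lit 76) (nat_lit 13892043078) (nat_lit 0) (nat_lit 13892044556) (nat_lit 76) (nat_lit 13892044556) (nat_lit 81) (nat_lit 3) (nat_lit 80) (nat_lit 1) (nat_lit 81) (nat_lit 1) (nat_lit 309) (nat_lit 364) (nat_lit 227)) (XT.lf (nat_lit 152) (nat_lit 39864125652)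 (nat_lit 0) (nat_lit 389) (nat_lit 76) (nat_lit 389) (nat_lit 80) (nat_lit 1) (nat_lit 78) (nat_lit 1) (nat_lit 79) (nat_lit 1) (nat_lit 310) (nat_lit 364) (nat_lit 226))))) (XT.nd (nat_lit 234) (nat_lit 228) (nat_lit 0) (XT.nd (nat_lit 78) (nat_lit 228) (nat_lit 0) (XT.lf (nat_lit 0) (nat_lit 12655277907) (nat_lit 0) (nat_lit 12655278879) (nat_lit 152) (nat_lit 12655277907) (nat_lit 78) (nat_lit 3) (nat_lit 78) (nat_lit 1) (nat_lit 80) (nat_lit 1) (nat_lit 311) (nat_lit 364) (nat_lit 225)) (XT.nd (nat_lit 78) (nat_lit 152) (nat_lit 0) (XT.lf (nat_lit 76) (nat_lit 12080037746) (nat_lit 0) (nat_lit 12080038591) (nat_lit 76) (nat_lit 12080038591) (nat_lit 78) (nat_lit 3) (nat_lit 77) (nat_lit 1) (nat_lit 78) (nat_lit 1) (nat_lit 312) (nat_lit 364) (nat_lit 224)) (XT.lf (nat_lit 152) (nat_lit 34664457305) (nat_lit 0) (nat_lit 222) (nat_lit 76) (nat_lit 222) (nat_lit 77) (nat_lit 1) (nat_lit 75) (nat_lit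 1) (nat_lit 76) (nat_lit 1) (nat_lit 313) (nat_lit 364) (nat_lit 223)))) (XT.nd (nat_lit 78) (nat_lit 228) (nat_lit 0) (XT.lf (nat_lit 0) (nat_lit 11004589576) (nat_lit 0) (nat_lit 11004590132) (nat_lit 152) (nat_lit 11004589576) (nat_lit 75) (nat_lit 3) (nat_lit 75) (nat_lit 1) (nat_lit 77) (nat_lit 1) (nat_lit 314) (nat_lit 364) (nat_lit 222)) (XT.nd (nat_lit 78) (nat_lit 152) (nat_lit 0) (XT.lf (nat_lit 76) (nat_lit 10504380813) (nat_lit 0) (nat_lit 10504381296) (nat_lit 76) (nat_lit 10504381296) (nat_lit 75) (nat_lit 3) (nat_lit 74) (nat_lit 1) (nat_lit 75) (nat_lit 1) (nat_lit 315) (nat_lit 364) (nat_lit 221)) (XT.lf (nat_lit 152) (nat_lit 30143006476) (nat_lit 0) (nat_lit 127) (nat_lit 76) (nat_lit 127) (nat_lit 74) (nat_lit 1) (nat_lit 72) (nat_lit 1) (nat_lit 73) (nat_lit 1) (nat_lit 316) (nat_lit 364) (nat_lit 220))))))) (XT.nd (nat_lit 858) (nat_lit 912) (nat_lit 0) (XT.nd (nat_lit 390)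 (nat_lit 456) (nat_lit 0) (XT.nd (nat_lit 156) (nat_lit 228) (nat_lit 0) (XT.nd (nat_lit 78) (nat_lit 76) (nat_lit 0) (XT.lf (nat_lit 0) (nat_lit 9569208380) (nat_lit 0) (nat_lit 9569208697) (nat_lit 152) (nat_lit 9569208380) (nat_lit 72) (nat_lit 3) (nat_lit 72) (nat_lit 1) (nat_lit 74) (nat_lit 1) (nat_lit 317) (nat_lit 364) (nat_lit 219)) (XT.lf (nat_lit 76) (nat_lit 9134244279) (nat_lit 0) (nat_lit 9134244555) (nat_lit 76) (nat_lit 9134244555) (nat_lit 72) (nat_lit 3) (nat_lit 71) (nat_lit 1) (nat_lit 72) (nat_lit 1) (nat_lit 318) (nat_lit 364) (nat_lit 218))) (XT.nd (nat_lit 78) (nat_lit 76) (nat_lit 0) (XT.lf (nat_lit 152) (nat_lit 26211310050) (nat_lit 0) (nat_lit 72) (nat_lit 76) (nat_lit 72) (nat_lit 71) (nat_lit 1) (nat_lit 69) (nat_lit 1) (nat_lit 70) (nat_lit 1) (nat_lit 319) (nat_lit 364) (nat_lit 217)) (XT.nd (nat_lit 78) (nat_lit 76) (nat_lit 0) (XT.lf (nat_lit 0) (nat_lit 8321050795)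 (nat_lit 0) (nat_lit 8321050976) (nat_lit 152) (nat_lit 8321050795) (nat_lit 69) (nat_lit 3) (nat_lit 69) (nat_lit 1) (nat_lit 71) (nat_lit 1) (nat_lit 320) (nat_lit 364) (nat_lit 216)) (XT.lf (nat_lit 76) (nat_lit 7942821165) (nat_lit 0) (nat_lit 7942821323) (nat_lit 76) (nat_lit 7942821323) (nat_lit 69) (nat_lit 3) (nat_lit 68) (nat_lit 1) (nat_lit 69) (nat_lit 1) (nat_lit 321) (nat_lit 364) (nat_lit 215))))) (XT.nd (nat_lit 234) (nat_lit 228) (nat_lit 0) (XT.nd (nat_lit 78) (nat_lit 76) (nat_lit 0) (XT.lf (nat_lit 152) (nat_lit 22792443562) (nat_lit 0) (nat_lit 41) (nat_lit 76) (nat_lit 41) (nat_lit 68) (nat_lit 1) (nat_lit 66) (nat_lit 1) (nat_lit 67) (nat_lit 1) (nat_lit 322) (nat_lit 364) (nat_lit 214)) (XT.nd (nat_lit 78) (nat_lit 76) (nat_lit 0) (XT.lf (nat_lit 0) (nat_lit 7235696360) (nat_lit 0) (nat_lit 7235696464) (nat_lit 152) (nat_lit 7235696360) (nat_lit 66) (nat_lit 3) (nat_lit 66)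 (nat_lit 1) (nat_lit 68) (nat_lit 1) (nat_lit 323) (nat_lit 364) (nat_lit 213)) (XT.lf (nat_lit 76) (nat_lit 6906801044) (nat_lit 0) (nat_lit 6906801134) (nat_lit 76) (nat_lit 6906801134) (nat_lit 66) (nat_lit 3) (nat_lit 65) (nat_lit 1) (nat_lit 66) (nat_lit 1) (nat_lit 324) (nat_lit 364) (nat_lit 212)))) (XT.nd (nat_lit 78) (nat_lit 76) (nat_lit 0) (XT.lf (nat_lit 152) (nat_lit 19819516164) (nat_lit 0) (nat_lit 23) (nat_lit 76) (nat_lit 23) (nat_lit 65) (nat_lit 1) (nat_lit 63) (nat_lit 1) (nat_lit 64) (nat_lit 1) (nat_lit 325) (nat_lit 364) (nat_lit 211)) (XT.nd (nat_lit 78) (nat_lit 76) (nat_lit 0) (XT.lf (nat_lit 0) (nat_lit 6291909888) (nat_lit 0) (nat_lit 6291909948) (nat_lit 152) (nat_lit 6291909888) (nat_lit 63) (nat_lit 3) (nat_lit 63) (nat_lit 1) (nat_lit 65) (nat_lit 1) (nat_lit 326) (nat_lit 364) (nat_lit 210)) (XT.lf (nat_lit 76) (nat_lit 6005913969) (nat_lit 0) (nat_lit 6005914020)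 (nat_lit 76) (nat_lit 6005914020) (nat_lit 63) (nat_lit 3) (nat_lit 62) (nat_lit 1) (nat_lit 63) (nat_lit 1) (nat_lit 327) (nat_lit 364) (nat_lit 209)))))) (XT.nd (nat_lit 468) (nat_lit 456) (nat_lit 0) (XT.nd (nat_lit 234) (nat_lit 228) (nat_lit 0) (XT.nd (nat_lit 78) (nat_lit 76) (nat_lit 0) (XT.lf (nat_lit 152) (nat_lit 17234361895) (nat_lit 0) (nat_lit 13) (nat_lit 76) (nat_lit 13) (nat_lit 62) (nat_lit 1) (nat_lit 60) (nat_lit 1) (nat_lit 61) (nat_lit 1) (nat_lit 328) (nat_lit 364) (nat_lit 208)) (XT.nd (nat_lit 78) (nat_lit 76) (nat_lit 0) (XT.lf (nat_lit 0) (nat_lit 5471225995) (nat_lit 0) (nat_lit 5471226029) (nat_lit 152) (nat_lit 5471225995) (nat_lit 60) (nat_lit 3) (nat_lit 60) (nat_lit 1) (nat_lit 62) (nat_lit 1) (nat_lit 329) (nat_lit 364) (nat_lit 207)) (XT.lf (nat_lit 76) (nat_lit 5222533896) (nat_lit 0) (nat_lit 5222533925) (nat_lit 76) (nat_lit 5222533925) (nat_lit 60) (nat_lit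 3) (nat_lit 59) (nat_lit 1) (nat_lit 60) (nat_lit 1) (nat_lit 330) (nat_lit 364) (nat_lit 206)))) (XT.nd (nat_lit 78) (nat_lit 76) (nat_lit 0) (XT.lf (nat_lit 152) (nat_lit 14986401656) (nat_lit 0) (nat_lit 7) (nat_lit 76) (nat_lit 7) (nat_lit 59) (nat_lit 1) (nat_lit 57) (nat_lit 1) (nat_lit 58) (nat_lit 1) (nat_lit 331) (nat_lit 364) (nat_lit 205)) (XT.nd (nat_lit 78) (nat_lit 76) (nat_lit 0) (XT.lf (nat_lit 0) (nat_lit 4757587825) (nat_lit 0) (nat_lit 4757587845) (nat_lit 152) (nat_lit 4757587825) (nat_lit 57) (nat_lit 3) (nat_lit 57) (nat_lit 1) (nat_lit 59) (nat_lit 1) (nat_lit 332) (nat_lit 364) (nat_lit 204)) (XT.lf (nat_lit 76) (nat_lit 4541333828) (nat_lit 0) (nat_lit 4541333845) (nat_lit 76) (nat_lit 4541333845) (nat_lit 57) (nat_lit 3) (nat_lit 56) (nat_lit 1) (nat_lit 57) (nat_lit 1) (nat_lit 333) (nat_lit 364) (nat_lit 203))))) (XT.nd (nat_lit 234) (nat_lit 228) (nat_lit 0) (XT.nd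 (nat_lit 78) (nat_lit 76) (nat_lit 0) (XT.lf (nat_lit 152) (nat_lit 13031653618) (nat_lit 0) (nat_lit 4) (nat_lit 76) (nat_lit 4) (nat_lit 56) (nat_lit 1) (nat_lit 54) (nat_lit 1) (nat_lit 55) (nat_lit 1) (nat_lit 334) (nat_lit 364) (nat_lit 202)) (XT.nd (nat_lit 78) (nat_lit 76) (nat_lit 0) (XT.lf (nat_lit 0) (nat_lit 4137032893) (nat_lit 0) (nat_lit 4137032904) (nat_lit 152) (nat_lit 4137032893) (nat_lit 54) (nat_lit 3) (nat_lit 54) (nat_lit 1) (nat_lit 56) (nat_lit 1) (nat_lit 335) (nat_lit 364) (nat_lit 201)) (XT.lf (nat_lit 76) (nat_lit 3948985941) (nat_lit 0) (nat_lit 3948985950) (nat_lit 76) (nat_lit 3948985950) (nat_lit 54) (nat_lit 3) (nat_lit 53) (nat_lit 1) (nat_lit 54) (nat_lit 1) (nat_lit 336) (nat_lit 364) (nat_lit 200)))) (XT.nd (nat_lit 78) (nat_lit 76) (nat_lit 0) (XT.lf (nat_lit 152) (nat_lit 11331872714) (nat_lit 0) (nat_lit 2) (nat_lit 76) (nat_lit 2) (nat_lit 53) (nat_lit 1)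 (nat_lit 51) (nat_lit 1) (nat_lit 52) (nat_lit 1) (nat_lit 337) (nat_lit 364) (nat_lit 199)) (XT.nd (nat_lit 78) (nat_lit 76) (nat_lit 0) (XT.lf (nat_lit 0) (nat_lit 3597419908) (nat_lit 0) (nat_lit 3597419915) (nat_lit 152) (nat_lit 3597419908) (nat_lit 51) (nat_lit 3) (nat_lit 51) (nat_lit 1) (nat_lit 53) (nat_lit 1) (nat_lit 338) (nat_lit 364) (nat_lit 198)) (XT.lf (nat_lit 76) (nat_lit 3433900820) (nat_lit 0) (nat_lit 3433900825) (nat_lit 76) (nat_lit 3433900825) (nat_lit 51) (nat_lit 3) (nat_lit 50) (nat_lit 1) (nat_lit 51) (nat_lit 1) (nat_lit 339) (nat_lit 364) (nat_lit 197))))))))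
noncomputable def ec220 : XT := (XT.nd (nat_lit 1716) (nat_lit 836) (nat_lit 0) (XT.nd (nat_lit 858) (nat_lit 760) (nat_lit 0) (XT.nd (nat_lit 390) (nat_lit 456) (nat_lit 0) (XT.nd (nat_lit 156) (nat_lit 228) (nat_lit 0) (XT.nd (nat_lit 78) (nat_lit 0) (nat_lit 0) (XT.lf (nat_lit 152) (nat_lit 9853802361) (nat_lit 0) (nat_lit 1) (nat_lit 76) (nat_lit 1) (nat_lit 50) (nat_lit 1) (nat_lit 48) (nat_lit 1) (nat_lit 49) (nat_lit 1) (nat_lit 340) (nat_lit 364) (nat_lit 196)) (XT.lf (nat_lit 0) (nat_lit 3128191225) (nat_lit 0) (nat_lit 3128191229) (nat_lit 152) (nat_lit 3128191225) (nat_lit 48) (nat_lit 3) (nat_lit 48) (nat_lit 1) (nat_lit 50) (nat_lit 1) (nat_lit 341) (nat_lit 364) (nat_lit 195))) (XT.nd (nat_lit 78) (nat_lit 152) (nat_lit 0) (XT.lf (nat_lit 76) (nat_lit 2986000714) (nat_lit 0) (nat_lit 2986000717) (nat_lit 76) (nat_lit 2986000717) (nat_lit 48) (nat_lit 3) (nat_lit 47) (nat_lit 1) (nat_lit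 48) (nat_lit 1) (nat_lit 342) (nat_lit 364) (nat_lit 194)) (XT.nd (nat_lit 78) (nat_lit 152) (nat_lit 0) (XT.lf (nat_lit 0) (nat_lit 8568523793) (nat_lit 0) (nat_lit 0) (nat_lit 0) (nat_lit 0) (nat_lit 47) (nat_lit 1) (nat_lit 1) (nat_lit 0) (nat_lit 1) (nat_lit 0) (nat_lit 343) (nat_lit 364) (nat_lit 193)) (XT.lf (nat_lit 0) (nat_lit 2720166283) (nat_lit 0) (nat_lit 2720166285) (nat_lit 152) (nat_lit 2720166283) (nat_lit 45) (nat_lit 3) (nat_lit 45) (nat_lit 1) (nat_lit 47) (nat_lit 1) (nat_lit 344) (nat_lit 364) (nat_lit 192))))) (XT.nd (nat_lit 234) (nat_lit 228) (nat_lit 0) (XT.nd (nat_lit 78) (nat_lit 152) (nat_lit 0) (XT.lf (nat_lit 76) (nat_lit 2596522360) (nat_lit 0) (nat_lit 2596522362) (nat_lit 76) (nat_lit 2596522362) (nat_lit 45) (nat_lit 3) (nat_lit 44) (nat_lit 1) (nat_lit 45) (nat_lit 1) (nat_lit 345) (nat_lit 364) (nat_lit 191)) (XT.nd (nat_lit 78) (nat_lit 152) (nat_lit 0) (XT.lf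 (nat_lit 0) (nat_lit 7450890255) (nat_lit 0) (nat_lit 0) (nat_lit 0) (nat_lit 0) (nat_lit 44) (nat_lit 1) (nat_lit 1) (nat_lit 0) (nat_lit 1) (nat_lit 0) (nat_lit 346) (nat_lit 364) (nat_lit 190)) (XT.lf (nat_lit 0) (nat_lit 2365361985) (nat_lit 0) (nat_lit 2365361986) (nat_lit 152) (nat_lit 2365361985) (nat_lit 42) (nat_lit 3) (nat_lit 42) (nat_lit 1) (nat_lit 44) (nat_lit 1) (nat_lit 347) (nat_lit 364) (nat_lit 189)))) (XT.nd (nat_lit 78) (nat_lit 152) (nat_lit 0) (XT.lf (nat_lit 76) (nat_lit 2257845531) (nat_lit 0) (nat_lit 2257845532) (nat_lit 76) (nat_lit 2257845532) (nat_lit 42) (nat_lit 3) (nat_lit 41) (nat_lit 1) (nat_lit 42) (nat_lit 1) (nat_lit 348) (nat_lit 364) (nat_lit 188)) (XT.nd (nat_lit 78) (nat_lit 152) (nat_lit 0) (XT.lf (nat_lit 0) (nat_lit 6479035005) (nat_lit 0) (nat_lit 0) (nat_lit 0) (nat_lit 0) (nat_lit 41) (nat_lit 1) (nat_lit 1) (nat_lit 0) (nat_lit 1) (nat_lit 0) (nat_lit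 349) (nat_lit 364) (nat_lit 187)) (XT.lf (nat_lit 0) (nat_lit 2056836509) (nat_lit 0) (nat_lit 2056836510) (nat_lit 152) (nat_lit 2056836509) (nat_lit 39) (nat_lit 3) (nat_lit 39) (nat_lit 1) (nat_lit 41) (nat_lit 1) (nat_lit 350) (nat_lit 364) (nat_lit 186)))))) (XT.nd (nat_lit 390) (nat_lit 456) (nat_lit 0) (XT.nd (nat_lit 156) (nat_lit 228) (nat_lit 0) (XT.nd (nat_lit 78) (nat_lit 0) (nat_lit 0) (XT.lf (nat_lit 76) (nat_lit 1963343940) (nat_lit 0) (nat_lit 1963343941) (nat_lit 76) (nat_lit 1963343941) (nat_lit 39) (nat_lit 3) (nat_lit 38) (nat_lit 1) (nat_lit 39) (nat_lit 1) (nat_lit 351) (nat_lit 364) (nat_lit 185)) (XT.lf (nat_lit 0) (nat_lit 5633943482) (nat_lit 0) (nat_lit 0) (nat_lit 0) (nat_lit 0) (nat_lit 38) (nat_lit 1) (nat_lit 1) (nat_lit 0) (nat_lit 1) (nat_lit 0) (nat_lit 352) (nat_lit 364) (nat_lit 184))) (XT.nd (nat_lit 78) (nat_lit 76) (nat_lit 0) (XT.lf (nat_lit 0) (nat_lit 1788553486)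 (nat_lit 0) (nat_lit 1788553486) (nat_lit 152) (nat_lit 1788553486) (nat_lit 36) (nat_lit 3) (nat_lit 36) (nat_lit 1) (nat_lit 38) (nat_lit 1) (nat_lit 353) (nat_lit 364) (nat_lit 183)) (XT.nd (nat_lit 78) (nat_lit 0) (nat_lit 0) (XT.lf (nat_lit 76) (nat_lit 1707255600) (nat_lit 0) (nat_lit 1707255601) (nat_lit 76) (nat_lit 1707255601) (nat_lit 36) (nat_lit 3) (nat_lit 35) (nat_lit 1) (nat_lit 36) (nat_lit 1) (nat_lit 354) (nat_lit 364) (nat_lit 182)) (XT.lf (nat_lit 0) (nat_lit 4899081289) (nat_lit 0) (nat_lit 0) (nat_lit 0) (nat_lit 0) (nat_lit 35) (nat_lit 1) (nat_lit 1) (nat_lit 0) (nat_lit 1) (nat_lit 0) (nat_lit 355) (nat_lit 364) (nat_lit 181))))) (XT.nd (nat_lit 234) (nat_lit 228) (nat_lit 0) (XT.nd (nat_lit 78) (nat_lit 76) (nat_lit 0) (XT.lf (nat_lit 0) (nat_lit 1555263901) (nat_lit 0) (nat_lit 1555263901) (nat_lit 152) (nat_lit 1555263901) (nat_lit 33) (nat_lit 3) (nat_lit 33) (nat_lit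 1) (nat_lit 35) (nat_lit 1) (nat_lit 356) (nat_lit 364) (nat_lit 180)) (XT.nd (nat_lit 78) (nat_lit 0) (nat_lit 0) (XT.lf (nat_lit 76) (nat_lit 1484570087) (nat_lit 0) (nat_lit 1484570087) (nat_lit 76) (nat_lit 1484570087) (nat_lit 33) (nat_lit 3) (nat_lit 32) (nat_lit 1) (nat_lit 33) (nat_lit 1) (nat_lit 357) (nat_lit 364) (nat_lit 179)) (XT.lf (nat_lit 0) (nat_lit 4260070686) (nat_lit 0) (nat_lit 0) (nat_lit 0) (nat_lit 0) (nat_lit 32) (nat_lit 1) (nat_lit 1) (nat_lit 0) (nat_lit 1) (nat_lit 0) (nat_lit 358) (nat_lit 364) (nat_lit 178)))) (XT.nd (nat_lit 78) (nat_lit 76) (nat_lit 0) (XT.lf (nat_lit 0) (nat_lit 1352403392) (nat_lit 0) (nat_lit 1352403392) (nat_lit 152) (nat_lit 1352403392) (nat_lit 30) (nat_lit 3) (nat_lit 30) (nat_lit 1) (nat_lit 32) (nat_lit 1) (nat_lit 359) (nat_lit 364) (nat_lit 177)) (XT.nd (nat_lit 78) (nat_lit 0) (nat_lit 0) (XT.lf (nat_lit 76) (nat_lit 1290930511) (nat_lit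 0) (nat_lit 1290930511) (nat_lit 76) (nat_lit 1290930511) (nat_lit 30) (nat_lit 3) (nat_lit 29) (nat_lit 1) (nat_lit 30) (nat_lit 1) (nat_lit 360) (nat_lit 364) (nat_lit 176)) (XT.lf (nat_lit 0) (nat_lit 3704409292) (nat_lit 0) (nat_lit 0) (nat_lit 0) (nat_lit 0) (nat_lit 29) (nat_lit 1) (nat_lit 1) (nat_lit 0) (nat_lit 1) (nat_lit 0) (nat_lit 361) (nat_lit 364) (nat_lit 175))))))) (XT.nd (nat_lit 31980) (nat_lit 0) (nat_lit 14288) (XT.nd (nat_lit 390) (nat_lit 380) (nat_lit 0) (XT.nd (nat_lit 156) (nat_lit 228) (nat_lit 0) (XT.nd (nat_lit 78) (nat_lit 76) (nat_lit 0) (XT.lf (nat_lit 0) (nat_lit 1176002950) (nat_lit 0) (nat_lit 1176002950) (nat_lit 152) (nat_lit 1176002950) (nat_lit 27) (nat_lit 3) (nat_lit 27) (nat_lit 1) (nat_lit 29) (nat_lit 1) (nat_lit 362) (nat_lit 364) (nat_lit 174)) (XT.lf (nat_lit 76) (nat_lit 1122548270) (nat_lit 0) (nat_lit 1122548270) (nat_lit 76) (nat_lit 1122548270)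 (nat_lit 27) (nat_lit 3) (nat_lit 26) (nat_lit 1) (nat_lit 27) (nat_lit 1) (nat_lit 363) (nat_lit 364) (nat_lit 173))) (XT.nd (nat_lit 78) (nat_lit 228) (nat_lit 0) (XT.lf (nat_lit 0) (nat_lit 3221225471) (nat_lit 0) (nat_lit 0) (nat_lit 0) (nat_lit 0) (nat_lit 26) (nat_lit 1) (nat_lit 1) (nat_lit 0) (nat_lit 1) (nat_lit 0) (nat_lit 364) (nat_lit 364) (nat_lit 172)) (XT.nd (nat_lit 78) (nat_lit 76) (nat_lit 0) (XT.lf (nat_lit 0) (nat_lit 1022611260) (nat_lit 0) (nat_lit 1022611260) (nat_lit 152) (nat_lit 1022611260) (nat_lit 24) (nat_lit 3) (nat_lit 24) (nat_lit 1) (nat_lit 26) (nat_lit 1) (nat_lit 365) (nat_lit 364) (nat_lit 171)) (XT.lf (nat_lit 76) (nat_lit 976128930) (nat_lit 0) (nat_lit 976128930) (nat_lit 76) (nat_lit 976128930) (nat_lit 24) (nat_lit 3) (nat_lit 23) (nat_lit 1) (nat_lit 24) (nat_lit 1) (nat_lit 366) (nat_lit 364) (nat_lit 170))))) (XT.nd (nat_lit 234) (nat_lit 152) (nat_lit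 0) (XT.nd (nat_lit 78) (nat_lit 228) (nat_lit 0) (XT.lf (nat_lit 0) (nat_lit 2801065627) (nat_lit 0) (nat_lit 0) (nat_lit 0) (nat_lit 0) (nat_lit 23) (nat_lit 1) (nat_lit 1) (nat_lit 0) (nat_lit 1) (nat_lit 0) (nat_lit 367) (nat_lit 364) (nat_lit 169)) (XT.nd (nat_lit 78) (nat_lit 76) (nat_lit 0) (XT.lf (nat_lit 0) (nat_lit 889227183) (nat_lit 0) (nat_lit 889227183) (nat_lit 152) (nat_lit 889227183) (nat_lit 21) (nat_lit 3) (nat_lit 21) (nat_lit 1) (nat_lit 23) (nat_lit 1) (nat_lit 368) (nat_lit 364) (nat_lit 168)) (XT.lf (nat_lit 76) (nat_lit 848807765) (nat_lit 0) (nat_lit 848807766) (nat_lit 76) (nat_lit 848807766) (nat_lit 21) (nat_lit 3) (nat_lit 20) (nat_lit 1) (nat_lit 21) (nat_lit 1) (nat_lit 369) (nat_lit 364) (nat_lit 167)))) (XT.nd (nat_lit 78) (nat_lit 152) (nat_lit 0) (XT.lf (nat_lit 0) (nat_lit 2435709241) (nat_lit 0) (nat_lit 0) (nat_lit 0) (nat_lit 0) (nat_lit 20) (nat_lit 1) (nat_lit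 1) (nat_lit 0) (nat_lit 1) (nat_lit 0) (nat_lit 370) (nat_lit 364) (nat_lit 166)) (XT.nd (nat_lit 31200) (nat_lit 0) (nat_lit 14972) (XT.lf (nat_lit 0) (nat_lit 773241029) (nat_lit 0) (nat_lit 773241029) (nat_lit 152) (nat_lit 773241029) (nat_lit 18) (nat_lit 3) (nat_lit 18) (nat_lit 1) (nat_lit 20) (nat_lit 1) (nat_lit 371) (nat_lit 364) (nat_lit 165)) (XT.lf (nat_lit 380) (nat_lit 6187056201847) (nat_lit 0) (nat_lit 5480027950530) (nat_lit 380) (nat_lit 6187056201847) (nat_lit 220) (nat_lit 1) (nat_lit 215) (nat_lit 0) (nat_lit 220) (nat_lit 0) (nat_lit 170) (nat_lit 365) (nat_lit 365)))))) (XT.nd (nat_lit 390) (nat_lit 532) (nat_lit 0) (XT.nd (nat_lit 156) (nat_lit 152) (nat_lit 0) (XT.nd (nat_lit 78) (nat_lit 0) (nat_lit 76) (XT.lf (nat_lit 380) (nat_lit 22885117966469) (nat_lit 76) (nat_lit 5230935770961) (nat_lit 0) (nat_lit 5230935770960) (nat_lit 220) (nat_lit 1) (nat_lit 216) (nat_lit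 1) (nat_lit 215) (nat_lit 0) (nat_lit 171) (nat_lit 365) (nat_lit 364)) (XT.lf (nat_lit 380) (nat_lit 10087628769554) (nat_lit 0) (nat_lit 10976291683725) (nat_lit 304) (nat_lit 10087628769553) (nat_lit 221) (nat_lit 1) (nat_lit 216) (nat_lit 1) (nat_lit 220) (nat_lit 1) (nat_lit 172) (nat_lit 365) (nat_lit 363))) (XT.nd (nat_lit 78) (nat_lit 228) (nat_lit 0) (XT.lf (nat_lit 380) (nat_lit 17319934818229) (nat_lit 76) (nat_lit 5928729533629) (nat_lit 0) (nat_lit 5928729533629) (nat_lit 221) (nat_lit 1) (nat_lit 217) (nat_lit 1) (nat_lit 216) (nat_lit 1) (nat_lit 173) (nat_lit 365) (nat_lit 362)) (XT.nd (nat_lit 78) (nat_lit 304) (nat_lit 0) (XT.lf (nat_lit 76) (nat_lit 7006143347428) (nat_lit 0) (nat_lit 13340873140651) (nat_lit 304) (nat_lit 7006143347428) (nat_lit 218) (nat_lit 1) (nat_lit 217) (nat_lit 1) (nat_lit 221) (nat_lit 1) (nat_lit 174) (nat_lit 365) (nat_lit 361)) (XT.lf (nat_lit 380)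 (nat_lit 10529667610828) (nat_lit 0) (nat_lit 7579052830311) (nat_lit 304) (nat_lit 7579052830311) (nat_lit 218) (nat_lit 1) (nat_lit 213) (nat_lit 1) (nat_lit 217) (nat_lit 1) (nat_lit 175) (nat_lit 365) (nat_lit 360))))) (XT.nd (nat_lit 234) (nat_lit 152) (nat_lit 0) (XT.nd (nat_lit 78) (nat_lit 380) (nat_lit 0) (XT.lf (nat_lit 76) (nat_lit 3499945223280) (nat_lit 0) (nat_lit 17174318933096) (nat_lit 380) (nat_lit 3499945223280) (nat_lit 214) (nat_lit 1) (nat_lit 213) (nat_lit 1) (nat_lit 218) (nat_lit 1) (nat_lit 176) (nat_lit 365) (nat_lit 359)) (XT.nd (nat_lit 78) (nat_lit 228) (nat_lit 0) (XT.lf (nat_lit 228) (nat_lit 3149868138777) (nat_lit 0) (nat_lit 9803187350491) (nat_lit 152) (nat_lit 9803187350491) (nat_lit 214) (nat_lit 1) (nat_lit 211) (nat_lit 1) (nat_lit 213) (nat_lit 1) (nat_lit 177) (nat_lit 365) (nat_lit 358)) (XT.lf (nat_lit 228) (nat_lit 21167074258832) (nat_lit 0) (nat_lit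 166077100229) (nat_lit 152) (nat_lit 166077100229) (nat_lit 211) (nat_lit 1) (nat_lit 208) (nat_lit 1) (nat_lit 210) (nat_lit 1) (nat_lit 178) (nat_lit 365) (nat_lit 357)))) (XT.nd (nat_lit 78) (nat_lit 152) (nat_lit 0) (XT.lf (nat_lit 76) (nat_lit 8132525225363) (nat_lit 0) (nat_lit 3992636994294) (nat_lit 228) (nat_lit 8132525225363) (nat_lit 209) (nat_lit 1) (nat_lit 208) (nat_lit 1) (nat_lit 211) (nat_lit 1) (nat_lit 179) (nat_lit 365) (nat_lit 356)) (XT.nd (nat_lit 78) (nat_lit 0) (nat_lit 0) (XT.lf (nat_lit 228) (nat_lit 11820937552633) (nat_lit 0) (nat_lit 3666738624789) (nat_lit 152) (nat_lit 3666738624789) (nat_lit 209) (nat_lit 1) (nat_lit 206) (nat_lit 1) (nat_lit 208) (nat_lit 1) (nat_lit 180) (nat_lit 365) (nat_lit 355)) (XT.lf (nat_lit 76) (nat_lit 3696794883035) (nat_lit 0) (nat_lit 10728035548279) (nat_lit 228) (nat_lit 3696794883035) (nat_lit 207) (nat_lit 1) (nat_lit 206) (nat_lit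 1) (nat_lit 209) (nat_lit 1) (nat_lit 181) (nat_lit 365) (nat_lit 354))))))))
noncomputable def ec221 : XT := (XT.nd (nat_lit 1716) (nat_lit 1672) (nat_lit 0) (XT.nd (nat_lit 858) (nat_lit 912) (nat_lit 0) (XT.nd (nat_lit 390) (nat_lit 456) (nat_lit 0) (XT.nd (nat_lit 156) (nat_lit 76) (nat_lit 0) (XT.nd (nat_lit 78) (nat_lit 228) (nat_lit 0) (XT.lf (nat_lit 152) (nat_lit 3056084146114) (nat_lit 0) (nat_lit 7051929199429) (nat_lit 76) (nat_lit 7051929199429) (nat_lit 207) (nat_lit 1) (nat_lit 205) (nat_lit 1) (nat_lit 206) (nat_lit 1) (nat_lit 182) (nat_lit 365) (nat_lit 353)) (XT.lf (nat_lit 228) (nat_lit 15471694386538) (nat_lit 0) (nat_lit 411021396412) (nat_lit 152) (nat_lit 411021396412) (nat_lit 205) (nat_lit 1) (nat_lit 202) (nat_lit 1) (nat_lit 204) (nat_lit 1) (nat_lit 183) (nat_lit 365) (nat_lit 352))) (XT.nd (nat_lit 78) (nat_lit 76) (nat_lit 0) (XT.lf (nat_lit 76) (nat_lit 5414760278356)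 (nat_lit 0) (nat_lit 4598391094408) (nat_lit 228) (nat_lit 5414760278356) (nat_lit 203) (nat_lit 1) (nat_lit 202) (nat_lit 1) (nat_lit 205) (nat_lit 1) (nat_lit 184) (nat_lit 365) (nat_lit 351)) (XT.nd (nat_lit 78) (nat_lit 0) (nat_lit 0) (XT.lf (nat_lit 152) (nat_lit 6583829884193) (nat_lit 0) (nat_lit 4031963407466) (nat_lit 76) (nat_lit 4031963407466) (nat_lit 203) (nat_lit 1) (nat_lit 201) (nat_lit 1) (nat_lit 202) (nat_lit 1) (nat_lit 185) (nat_lit 365) (nat_lit 350)) (XT.lf (nat_lit 0) (nat_lit 1289204621398) (nat_lit 0) (nat_lit 11350058492580) (nat_lit 152) (nat_lit 1289204621398) (nat_lit 201) (nat_lit 3) (nat_lit 201) (nat_lit 1) (nat_lit 203) (nat_lit 1) (nat_lit 186) (nat_lit 365) (nat_lit 349))))) (XT.nd (nat_lit 234) (nat_lit 228) (nat_lit 0) (XT.nd (nat_lit 78) (nat_lit 76) (nat_lit 0) (XT.lf (nat_lit 76) (nat_lit 5966433550814) (nat_lit 0) (nat_lit 1294016294336) (nat_lit 152) (nat_lit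 5966433550814) (nat_lit 200) (nat_lit 1) (nat_lit 199) (nat_lit 1) (nat_lit 201) (nat_lit 1) (nat_lit 187) (nat_lit 365) (nat_lit 348)) (XT.nd (nat_lit 78) (nat_lit 0) (nat_lit 0) (XT.lf (nat_lit 152) (nat_lit 7969981630673) (nat_lit 0) (nat_lit 2305288164331) (nat_lit 76) (nat_lit 2305288164331) (nat_lit 200) (nat_lit 1) (nat_lit 198) (nat_lit 1) (nat_lit 199) (nat_lit 1) (nat_lit 188) (nat_lit 365) (nat_lit 347)) (XT.lf (nat_lit 0) (nat_lit 2072235664915) (nat_lit 0) (nat_lit 7824561519201) (nat_lit 152) (nat_lit 2072235664915) (nat_lit 198) (nat_lit 3) (nat_lit 198) (nat_lit 1) (nat_lit 200) (nat_lit 1) (nat_lit 189) (nat_lit 365) (nat_lit 346)))) (XT.nd (nat_lit 78) (nat_lit 152) (nat_lit 0) (XT.lf (nat_lit 76) (nat_lit 462278746211) (nat_lit 0) (nat_lit 5464301228198) (nat_lit 76) (nat_lit 5464301228198) (nat_lit 198) (nat_lit 3) (nat_lit 197) (nat_lit 1) (nat_lit 198) (nat_lit 1) (nat_lit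 190) (nat_lit 365) (nat_lit 345)) (XT.nd (nat_lit 78) (nat_lit 0) (nat_lit 0) (XT.lf (nat_lit 152) (nat_lit 8213954626353) (nat_lit 0) (nat_lit 1318055989983) (nat_lit 76) (nat_lit 1318055989983) (nat_lit 197) (nat_lit 1) (nat_lit 195) (nat_lit 1) (nat_lit 196) (nat_lit 1) (nat_lit 191) (nat_lit 365) (nat_lit 344)) (XT.lf (nat_lit 0) (nat_lit 2345788978699) (nat_lit 0) (nat_lit 5634699955596) (nat_lit 152) (nat_lit 2345788978699) (nat_lit 195) (nat_lit 3) (nat_lit 195) (nat_lit 1) (nat_lit 197) (nat_lit 1) (nat_lit 192) (nat_lit 365) (nat_lit 343)))))) (XT.nd (nat_lit 390) (nat_lit 456) (nat_lit 0) (XT.nd (nat_lit 156) (nat_lit 228) (nat_lit 0) (XT.nd (nat_lit 78) (nat_lit 152) (nat_lit 0) (XT.lf (nat_lit 76) (nat_lit 1372518998272) (nat_lit 0) (nat_lit 4232441586877) (nat_lit 76) (nat_lit 4232441586877) (nat_lit 195) (nat_lit 3) (nat_lit 194) (nat_lit 1) (nat_lit 195) (nat_lit 1) (nat_lit 193)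 (nat_lit 365) (nat_lit 342)) (XT.lf (nat_lit 152) (nat_lit 7876435009552) (nat_lit 0) (nat_lit 753602790146) (nat_lit 76) (nat_lit 753602790146) (nat_lit 194) (nat_lit 1) (nat_lit 192) (nat_lit 1) (nat_lit 193) (nat_lit 1) (nat_lit 194) (nat_lit 365) (nat_lit 341))) (XT.nd (nat_lit 78) (nat_lit 228) (nat_lit 0) (XT.lf (nat_lit 0) (nat_lit 2350761602613) (nat_lit 0) (nat_lit 4231207128120) (nat_lit 152) (nat_lit 2350761602613) (nat_lit 192) (nat_lit 3) (nat_lit 192) (nat_lit 1) (nat_lit 194) (nat_lit 1) (nat_lit 195) (nat_lit 365) (nat_lit 340)) (XT.nd (nat_lit 78) (nat_lit 152) (nat_lit 0) (XT.lf (nat_lit 76) (nat_lit 1748402735167) (nat_lit 0) (nat_lit 3383572757347) (nat_lit 76) (nat_lit 3383572757347) (nat_lit 192) (nat_lit 3) (nat_lit 191) (nat_lit 1) (nat_lit 192) (nat_lit 1) (nat_lit 196) (nat_lit 365) (nat_lit 339)) (XT.lf (nat_lit 152) (nat_lit 7268664056746) (nat_lit 0) (nat_lit 430874841154)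 (nat_lit 76) (nat_lit 430874841154) (nat_lit 191) (nat_lit 1) (nat_lit 189) (nat_lit 1) (nat_lit 190) (nat_lit 1) (nat_lit 197) (nat_lit 365) (nat_lit 338))))) (XT.nd (nat_lit 234) (nat_lit 228) (nat_lit 0) (XT.nd (nat_lit 78) (nat_lit 228) (nat_lit 0) (XT.lf (nat_lit 0) (nat_lit 2221924393792) (nat_lit 0) (nat_lit 3297075226162) (nat_lit 152) (nat_lit 2221924393792) (nat_lit 189) (nat_lit 3) (nat_lit 189) (nat_lit 1) (nat_lit 191) (nat_lit 1) (nat_lit 198) (nat_lit 365) (nat_lit 337)) (XT.nd (nat_lit 78) (nat_lit 152) (nat_lit 0) (XT.lf (nat_lit 76) (nat_lit 1837620628233) (nat_lit 0) (nat_lit 2772534395511) (nat_lit 76) (nat_lit 2772534395511) (nat_lit 189) (nat_lit 3) (nat_lit 188) (nat_lit 1) (nat_lit 189) (nat_lit 1) (nat_lit 199) (nat_lit 365) (nat_lit 336)) (XT.lf (nat_lit 152) (nat_lit 6560479462380) (nat_lit 0) (nat_lit 246354088874) (nat_lit 76) (nat_lit 246354088874) (nat_lit 188) (nat_lit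 1) (nat_lit 186) (nat_lit 1) (nat_lit 187) (nat_lit 1) (nat_lit 200) (nat_lit 365) (nat_lit 335)))) (XT.nd (nat_lit 78) (nat_lit 228) (nat_lit 0) (XT.lf (nat_lit 0) (nat_lit 2033756673076) (nat_lit 0) (nat_lit 2648477650986) (nat_lit 152) (nat_lit 2033756673076) (nat_lit 186) (nat_lit 3) (nat_lit 186) (nat_lit 1) (nat_lit 188) (nat_lit 1) (nat_lit 201) (nat_lit 365) (nat_lit 334)) (XT.nd (nat_lit 78) (nat_lit 152) (nat_lit 0) (XT.lf (nat_lit 76) (nat_lit 1779331375576) (nat_lit 0) (nat_lit 2313871356367) (nat_lit 76) (nat_lit 2313871356367) (nat_lit 186) (nat_lit 3) (nat_lit 185) (nat_lit 1) (nat_lit 186) (nat_lit 1) (nat_lit 202) (nat_lit 365) (nat_lit 333)) (XT.lf (nat_lit 152) (nat_lit 5841929509445) (nat_lit 0) (nat_lit 140853749879) (nat_lit 76) (nat_lit 140853749878) (nat_lit 185) (nat_lit 1) (nat_lit 183) (nat_lit 1) (nat_lit 184) (nat_lit 1) (nat_lit 203) (nat_lit 365) (nat_lit 332)))))))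 (XT.nd (nat_lit 858) (nat_lit 912) (nat_lit 0) (XT.nd (nat_lit 390) (nat_lit 456) (nat_lit 0) (XT.nd (nat_lit 156) (nat_lit 228) (nat_lit 0) (XT.nd (nat_lit 78) (nat_lit 76) (nat_lit 0) (XT.lf (nat_lit 0) (nat_lit 1826601925937) (nat_lit 0) (nat_lit 2178070640191) (nat_lit 152) (nat_lit 1826601925937) (nat_lit 183) (nat_lit 3) (nat_lit 183) (nat_lit 1) (nat_lit 185) (nat_lit 1) (nat_lit 204) (nat_lit 365) (nat_lit 331)) (XT.lf (nat_lit 76) (nat_lit 1650960938723) (nat_lit 0) (nat_lit 1956585907640) (nat_lit 76) (nat_lit 1956585907639) (nat_lit 183) (nat_lit 3) (nat_lit 182) (nat_lit 1) (nat_lit 183) (nat_lit 1) (nat_lit 205) (nat_lit 365) (nat_lit 330))) (XT.nd (nat_lit 78) (nat_lit 76) (nat_lit 0) (XT.lf (nat_lit 152) (nat_lit 5158363100318) (nat_lit 0) (nat_lit 80533588647) (nat_lit 76) (nat_lit 80533588647) (nat_lit 182) (nat_lit 1) (nat_lit 180) (nat_lit 1) (nat_lit 181) (nat_lit 1) (nat_lit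 206) (nat_lit 365) (nat_lit 329)) (XT.nd (nat_lit 78) (nat_lit 76) (nat_lit 0) (XT.lf (nat_lit 0) (nat_lit 1621578577265) (nat_lit 0) (nat_lit 1822531955364) (nat_lit 152) (nat_lit 1621578577265) (nat_lit 180) (nat_lit 3) (nat_lit 180) (nat_lit 1) (nat_lit 182) (nat_lit 1) (nat_lit 207) (nat_lit 365) (nat_lit 328)) (XT.lf (nat_lit 76) (nat_lit 1494918318325) (nat_lit 0) (nat_lit 1669660386237) (nat_lit 76) (nat_lit 1669660386237) (nat_lit 180) (nat_lit 3) (nat_lit 179) (nat_lit 1) (nat_lit 180) (nat_lit 1) (nat_lit 208) (nat_lit 365) (nat_lit 327))))) (XT.nd (nat_lit 234) (nat_lit 228) (nat_lit 0) (XT.nd (nat_lit 78) (nat_lit 76) (nat_lit 0) (XT.lf (nat_lit 152) (nat_lit 4530372533917) (nat_lit 0) (nat_lit 46045340688) (nat_lit 76) (nat_lit 46045340688) (nat_lit 179) (nat_lit 1) (nat_lit 177) (nat_lit 1) (nat_lit 178) (nat_lit 1) (nat_lit 209) (nat_lit 365) (nat_lit 326)) (XT.nd (nat_lit 78) (nat_lit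 76) (nat_lit 0) (XT.lf (nat_lit 0) (nat_lit 1429067160365) (nat_lit 0) (nat_lit 1543962906506) (nat_lit 152) (nat_lit 1429067160365) (nat_lit 177) (nat_lit 3) (nat_lit 177) (nat_lit 1) (nat_lit 179) (nat_lit 1) (nat_lit 210) (nat_lit 365) (nat_lit 325)) (XT.lf (nat_lit 76) (nat_lit 1333834003236) (nat_lit 0) (nat_lit 1433743347706) (nat_lit 76) (nat_lit 1433743347706) (nat_lit 177) (nat_lit 3) (nat_lit 176) (nat_lit 1) (nat_lit 177) (nat_lit 1) (nat_lit 211) (nat_lit 365) (nat_lit 324)))) (XT.nd (nat_lit 78) (nat_lit 76) (nat_lit 0) (XT.lf (nat_lit 152) (nat_lit 3965091451633) (nat_lit 0) (nat_lit 26326572982) (nat_lit 76) (nat_lit 26326572982) (nat_lit 176) (nat_lit 1) (nat_lit 174) (nat_lit 1) (nat_lit 175) (nat_lit 1) (nat_lit 212) (nat_lit 365) (nat_lit 323)) (XT.nd (nat_lit 78) (nat_lit 76) (nat_lit 0) (XT.lf (nat_lit 0) (nat_lit 1253529740004) (nat_lit 0) (nat_lit 1319221755765) (nat_lit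 152) (nat_lit 1253529740004) (nat_lit 174) (nat_lit 3) (nat_lit 174) (nat_lit 1) (nat_lit 176) (nat_lit 1) (nat_lit 213) (nat_lit 365) (nat_lit 322)) (XT.lf (nat_lit 76) (nat_lit 1179240966378) (nat_lit 0) (nat_lit 1236364458344) (nat_lit 76) (nat_lit 1236364458344) (nat_lit 174) (nat_lit 3) (nat_lit 173) (nat_lit 1) (nat_lit 174) (nat_lit 1) (nat_lit 214) (nat_lit 365) (nat_lit 321)))))) (XT.nd (nat_lit 468) (nat_lit 456) (nat_lit 0) (XT.nd (nat_lit 234) (nat_lit 228) (nat_lit 0) (XT.nd (nat_lit 78) (nat_lit 76) (nat_lit 0) (XT.lf (nat_lit 152) (nat_lit 3462563690562) (nat_lit 0) (nat_lit 15052303548) (nat_lit 76) (nat_lit 15052303548) (nat_lit 173) (nat_lit 1) (nat_lit 171) (nat_lit 1) (nat_lit 172) (nat_lit 1) (nat_lit 215) (nat_lit 365) (nat_lit 320)) (XT.nd (nat_lit 78) (nat_lit 76) (nat_lit 0) (XT.lf (nat_lit 0) (nat_lit 1096236612856) (nat_lit 0) (nat_lit 1133796236077) (nat_lit 152) (nat_lit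 1096236612856) (nat_lit 171) (nat_lit 3) (nat_lit 171) (nat_lit 1) (nat_lit 173) (nat_lit 1) (nat_lit 216) (nat_lit 365) (nat_lit 319)) (XT.lf (nat_lit 76) (nat_lit 1036510541989) (nat_lit 0) (nat_lit 1069171083920) (nat_lit 76) (nat_lit 1069171083920) (nat_lit 171) (nat_lit 3) (nat_lit 170) (nat_lit 1) (nat_lit 171) (nat_lit 1) (nat_lit 217) (nat_lit 365) (nat_lit 318)))) (XT.nd (nat_lit 78) (nat_lit 76) (nat_lit 0) (XT.lf (nat_lit 152) (nat_lit 3019305753384) (nat_lit 0) (nat_lit 8606203407) (nat_lit 76) (nat_lit 8606203407) (nat_lit 170) (nat_lit 1) (nat_lit 168) (nat_lit 1) (nat_lit 169) (nat_lit 1) (nat_lit 218) (nat_lit 365) (nat_lit 317)) (XT.nd (nat_lit 78) (nat_lit 76) (nat_lit 0) (XT.lf (nat_lit 0) (nat_lit 956800246174) (nat_lit 0) (nat_lit 978275082653) (nat_lit 152) (nat_lit 956800246174) (nat_lit 168) (nat_lit 3) (nat_lit 168) (nat_lit 1) (nat_lit 170) (nat_lit 1) (nat_lit 219) (nat_lit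 365) (nat_lit 316)) (XT.lf (nat_lit 76) (nat_lit 907650607453) (nat_lit 0) (nat_lit 926324378305) (nat_lit 76) (nat_lit 926324378305) (nat_lit 168) (nat_lit 3) (nat_lit 167) (nat_lit 1) (nat_lit 168) (nat_lit 1) (nat_lit 220) (nat_lit 365) (nat_lit 315))))) (XT.nd (nat_lit 234) (nat_lit 228) (nat_lit 0) (XT.nd (nat_lit 78) (nat_lit 76) (nat_lit 0) (XT.lf (nat_lit 152) (nat_lit 2630275016311) (nat_lit 0) (nat_lit 4920624730) (nat_lit 76) (nat_lit 4920624730) (nat_lit 167) (nat_lit 1) (nat_lit 165) (nat_lit 1) (nat_lit 166) (nat_lit 1) (nat_lit 221) (nat_lit 365) (nat_lit 314)) (XT.nd (nat_lit 78) (nat_lit 76) (nat_lit 0) (XT.lf (nat_lit 0) (nat_lit 834030519904) (nat_lit 0) (nat_lit 846308827360) (nat_lit 152) (nat_lit 834030519904) (nat_lit 165) (nat_lit 3) (nat_lit 165) (nat_lit 1) (nat_lit 167) (nat_lit 1) (nat_lit 222) (nat_lit 365) (nat_lit 313)) (XT.lf (nat_lit 76) (nat_lit 792884651093) (nat_lit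 0) (nat_lit 803561440185) (nat_lit 76) (nat_lit 803561440185) (nat_lit 165) (nat_lit 3) (nat_lit 164) (nat_lit 1) (nat_lit 165) (nat_lit 1) (nat_lit 223) (nat_lit 365) (nat_lit 312)))) (XT.nd (nat_lit 78) (nat_lit 76) (nat_lit 0) (XT.lf (nat_lit 152) (nat_lit 2289935366401) (nat_lit 0) (nat_lit 2813383159) (nat_lit 76) (nat_lit 2813383159) (nat_lit 164) (nat_lit 1) (nat_lit 162) (nat_lit 1) (nat_lit 163) (nat_lit 1) (nat_lit 224) (nat_lit 365) (nat_lit 311)) (XT.nd (nat_lit 78) (nat_lit 76) (nat_lit 0) (XT.lf (nat_lit 0) (nat_lit 726404764305) (nat_lit 0) (nat_lit 733424926443) (nat_lit 152) (nat_lit 726404764305) (nat_lit 162) (nat_lit 3) (nat_lit 162) (nat_lit 1) (nat_lit 164) (nat_lit 1) (nat_lit 225) (nat_lit 365) (nat_lit 310)) (XT.lf (nat_lit 76) (nat_lit 691536520832) (nat_lit 0) (nat_lit 697641009648) (nat_lit 76) (nat_lit 697641009648) (nat_lit 162) (nat_lit 3) (nat_lit 161) (nat_lit 1)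 (nat_lit 162) (nat_lit 1) (nat_lit 226) (nat_lit 365) (nat_lit 309))))))))
noncomputable def ec222 : XT := (XT.nd (nat_lit 1716) (nat_lit 1672) (nat_lit 0) (XT.nd (nat_lit 858) (nat_lit 912) (nat_lit 0) (XT.nd (nat_lit 390) (nat_lit 456) (nat_lit 0) (XT.nd (nat_lit 156) (nat_lit 228) (nat_lit 0) (XT.nd (nat_lit 78) (nat_lit 0) (nat_lit 0) (XT.lf (nat_lit 152) (nat_lit 1992814577088) (nat_lit 0) (nat_lit 1608560952) (nat_lit 76) (nat_lit 1608560952) (nat_lit 161) (nat_lit 1) (nat_lit 159) (nat_lit 1) (nat_lit 160) (nat_lit 1) (nat_lit 227) (nat_lit 365) (nat_lit 308)) (XT.lf (nat_lit 0) (nat_lit 632320027367) (nat_lit 0) (nat_lit 636333827854) (nat_lit 152) (nat_lit 632320027367) (nat_lit 159) (nat_lit 3) (nat_lit 159) (nat_lit 1) (nat_lit 161) (nat_lit 1) (nat_lit 228) (nat_lit 365) (nat_lit 307))) (XT.nd (nat_lit 78) (nat_lit 152) (nat_lit 0) (XT.lf (nat_lit 76) (nat_lit 602520553004) (nat_lit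 0) (nat_lit 606010814297) (nat_lit 76) (nat_lit 606010814297) (nat_lit 159) (nat_lit 3) (nat_lit 158) (nat_lit 1) (nat_lit 159) (nat_lit 1) (nat_lit 229) (nat_lit 365) (nat_lit 306)) (XT.nd (nat_lit 78) (nat_lit 0) (nat_lit 0) (XT.lf (nat_lit 152) (nat_lit 1733777853750) (nat_lit 0) (nat_lit 919699945) (nat_lit 76) (nat_lit 919699945) (nat_lit 158) (nat_lit 1) (nat_lit 156) (nat_lit 1) (nat_lit 157) (nat_lit 1) (nat_lit 230) (nat_lit 365) (nat_lit 305)) (XT.lf (nat_lit 0) (nat_lit 550222980737) (nat_lit 0) (nat_lit 552517884193) (nat_lit 152) (nat_lit 550222980737) (nat_lit 156) (nat_lit 3) (nat_lit 156) (nat_lit 1) (nat_lit 158) (nat_lit 1) (nat_lit 231) (nat_lit 365) (nat_lit 304))))) (XT.nd (nat_lit 234) (nat_lit 228) (nat_lit 0) (XT.nd (nat_lit 78) (nat_lit 152) (nat_lit 0) (XT.lf (nat_lit 76) (nat_lit 524608127606) (nat_lit 0) (nat_lit 526603695828) (nat_lit 76) (nat_lit 526603695828) (nat_lit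 156) (nat_lit 3) (nat_lit 155) (nat_lit 1) (nat_lit 156) (nat_lit 1) (nat_lit 232) (nat_lit 365) (nat_lit 303)) (XT.nd (nat_lit 78) (nat_lit 0) (nat_lit 0) (XT.lf (nat_lit 152) (nat_lit 1508144985832) (nat_lit 0) (nat_lit 525841428) (nat_lit 76) (nat_lit 525841428) (nat_lit 155) (nat_lit 1) (nat_lit 153) (nat_lit 1) (nat_lit 154) (nat_lit 1) (nat_lit 233) (nat_lit 365) (nat_lit 302)) (XT.lf (nat_lit 0) (nat_lit 478671734024) (nat_lit 0) (nat_lit 479983852523) (nat_lit 152) (nat_lit 478671734024) (nat_lit 153) (nat_lit 3) (nat_lit 153) (nat_lit 1) (nat_lit 155) (nat_lit 1) (nat_lit 234) (nat_lit 365) (nat_lit 301)))) (XT.nd (nat_lit 78) (nat_lit 152) (nat_lit 0) (XT.lf (nat_lit 76) (nat_lit 456568178657) (nat_lit 0) (nat_lit 457709151265) (nat_lit 76) (nat_lit 457709151265) (nat_lit 153) (nat_lit 3) (nat_lit 152) (nat_lit 1) (nat_lit 153) (nat_lit 1) (nat_lit 235) (nat_lit 365) (nat_lit 300)) (XT.nd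 (nat_lit 78) (nat_lit 0) (nat_lit 0) (XT.lf (nat_lit 152) (nat_lit 1311723199877) (nat_lit 0) (nat_lit 300651543) (nat_lit 76) (nat_lit 300651543) (nat_lit 152) (nat_lit 1) (nat_lit 150) (nat_lit 1) (nat_lit 151) (nat_lit 1) (nat_lit 236) (nat_lit 365) (nat_lit 299)) (XT.lf (nat_lit 0) (nat_lit 416360342709) (nat_lit 0) (nat_lit 417110550720) (nat_lit 152) (nat_lit 416360342709) (nat_lit 150) (nat_lit 3) (nat_lit 150) (nat_lit 1) (nat_lit 152) (nat_lit 1) (nat_lit 237) (nat_lit 365) (nat_lit 298)))))) (XT.nd (nat_lit 390) (nat_lit 456) (nat_lit 0) (XT.nd (nat_lit 156) (nat_lit 228) (nat_lit 0) (XT.nd (nat_lit 78) (nat_lit 152) (nat_lit 0) (XT.lf (nat_lit 76) (nat_lit 397237189316) (nat_lit 0) (nat_lit 397889544107) (nat_lit 76) (nat_lit 397889544107) (nat_lit 150) (nat_lit 3) (nat_lit 149) (nat_lit 1) (nat_lit 150) (nat_lit 1) (nat_lit 238) (nat_lit 365) (nat_lit 297)) (XT.lf (nat_lit 152) (nat_lit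 1140796265895) (nat_lit 0) (nat_lit 171898495) (nat_lit 76) (nat_lit 171898495) (nat_lit 149) (nat_lit 1) (nat_lit 147) (nat_lit 1) (nat_lit 148) (nat_lit 1) (nat_lit 239) (nat_lit 365) (nat_lit 296))) (XT.nd (nat_lit 78) (nat_lit 228) (nat_lit 0) (XT.lf (nat_lit 0) (nat_lit 362123399199) (nat_lit 0) (nat_lit 362552333064) (nat_lit 152) (nat_lit 362123399199) (nat_lit 147) (nat_lit 3) (nat_lit 147) (nat_lit 1) (nat_lit 149) (nat_lit 1) (nat_lit 240) (nat_lit 365) (nat_lit 295)) (XT.nd (nat_lit 78) (nat_lit 152) (nat_lit 0) (XT.lf (nat_lit 76) (nat_lit 345550218639) (nat_lit 0) (nat_lit 345923204608) (nat_lit 76) (nat_lit 345923204608) (nat_lit 147) (nat_lit 3) (nat_lit 146) (nat_lit 1) (nat_lit 147) (nat_lit 1) (nat_lit 241) (nat_lit 365) (nat_lit 294)) (XT.lf (nat_lit 152) (nat_lit 992092462408) (nat_lit 0) (nat_lit 98283522) (nat_lit 76) (nat_lit 98283522) (nat_lit 146) (nat_lit 1) (nat_lit 144)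 (nat_lit 1) (nat_lit 145) (nat_lit 1) (nat_lit 242) (nat_lit 365) (nat_lit 293))))) (XT.nd (nat_lit 234) (nat_lit 228) (nat_lit 0) (XT.nd (nat_lit 78) (nat_lit 228) (nat_lit 0) (XT.lf (nat_lit 0) (nat_lit 314930465249) (nat_lit 0) (nat_lit 315175709578) (nat_lit 152) (nat_lit 314930465249) (nat_lit 144) (nat_lit 3) (nat_lit 144) (nat_lit 1) (nat_lit 146) (nat_lit 1) (nat_lit 243) (nat_lit 365) (nat_lit 292)) (XT.nd (nat_lit 78) (nat_lit 152) (nat_lit 0) (XT.lf (nat_lit 76) (nat_lit 300550821089) (nat_lit 0) (nat_lit 300764077028) (nat_lit 76) (nat_lit 300764077028) (nat_lit 144) (nat_lit 3) (nat_lit 143) (nat_lit 1) (nat_lit 144) (nat_lit 1) (nat_lit 244) (nat_lit 365) (nat_lit 291)) (XT.lf (nat_lit 152) (nat_lit 862743819938) (nat_lit 0) (nat_lit 56193923) (nat_lit 76) (nat_lit 56193923) (nat_lit 143) (nat_lit 1) (nat_lit 141) (nat_lit 1) (nat_lit 142) (nat_lit 1) (nat_lit 245) (nat_lit 365) (nat_lit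 290)))) (XT.nd (nat_lit 78) (nat_lit 228) (nat_lit 0) (XT.lf (nat_lit 0) (nat_lit 273875764730) (nat_lit 0) (nat_lit 274015983971) (nat_lit 152) (nat_lit 273875764730) (nat_lit 141) (nat_lit 3) (nat_lit 141) (nat_lit 1) (nat_lit 143) (nat_lit 1) (nat_lit 246) (nat_lit 365) (nat_lit 289)) (XT.nd (nat_lit 78) (nat_lit 152) (nat_lit 0) (XT.lf (nat_lit 76) (nat_lit 261389917917) (nat_lit 0) (nat_lit 261511847692) (nat_lit 76) (nat_lit 261511847692) (nat_lit 141) (nat_lit 3) (nat_lit 140) (nat_lit 1) (nat_lit 141) (nat_lit 1) (nat_lit 247) (nat_lit 365) (nat_lit 288)) (XT.lf (nat_lit 152) (nat_lit 750243304928) (nat_lit 0) (nat_lit 32129057) (nat_lit 76) (nat_lit 32129057) (nat_lit 140) (nat_lit 1) (nat_lit 138) (nat_lit 1) (nat_lit 139) (nat_lit 1) (nat_lit 248) (nat_lit 365) (nat_lit 287))))))) (XT.nd (nat_lit 858) (nat_lit 912) (nat_lit 0) (XT.nd (nat_lit 390) (nat_lit 456) (nat_lit 0) (XT.nd (nat_lit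 156) (nat_lit 228) (nat_lit 0) (XT.nd (nat_lit 78) (nat_lit 76) (nat_lit 0) (XT.lf (nat_lit 0) (nat_lit 238166095711) (nat_lit 0) (nat_lit 238246266517) (nat_lit 152) (nat_lit 238166095711) (nat_lit 138) (nat_lit 3) (nat_lit 138) (nat_lit 1) (nat_lit 140) (nat_lit 1) (nat_lit 249) (nat_lit 365) (nat_lit 286)) (XT.lf (nat_lit 76) (nat_lit 227319238711) (nat_lit 0) (nat_lit 227388952455) (nat_lit 76) (nat_lit 227388952455) (nat_lit 138) (nat_lit 3) (nat_lit 137) (nat_lit 1) (nat_lit 138) (nat_lit 1) (nat_lit 250) (nat_lit 365) (nat_lit 285))) (XT.nd (nat_lit 78) (nat_lit 76) (nat_lit 0) (XT.lf (nat_lit 152) (nat_lit 652403371328) (nat_lit 0) (nat_lit 18369893) (nat_lit 76) (nat_lit 18369893) (nat_lit 137) (nat_lit 1) (nat_lit 135) (nat_lit 1) (nat_lit 136) (nat_lit 1) (nat_lit 251) (nat_lit 365) (nat_lit 284)) (XT.nd (nat_lit 78) (nat_lit 76) (nat_lit 0) (XT.lf (nat_lit 0) (nat_lit 207108532420)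 (nat_lit 0) (nat_lit 207154370338) (nat_lit 152) (nat_lit 207108532420) (nat_lit 135) (nat_lit 3) (nat_lit 135) (nat_lit 1) (nat_lit 137) (nat_lit 1) (nat_lit 252) (nat_lit 365) (nat_lit 283)) (XT.lf (nat_lit 76) (nat_lit 197682429716) (nat_lit 0) (nat_lit 197722288775) (nat_lit 76) (nat_lit 197722288775) (nat_lit 135) (nat_lit 3) (nat_lit 134) (nat_lit 1) (nat_lit 135) (nat_lit 1) (nat_lit 253) (nat_lit 365) (nat_lit 282))))) (XT.nd (nat_lit 234) (nat_lit 228) (nat_lit 0) (XT.nd (nat_lit 78) (nat_lit 76) (nat_lit 0) (XT.lf (nat_lit 152) (nat_lit 567317507385) (nat_lit 0) (nat_lit 10503046) (nat_lit 76) (nat_lit 10503046) (nat_lit 134) (nat_lit 1) (nat_lit 132) (nat_lit 1) (nat_lit 133) (nat_lit 1) (nat_lit 254) (nat_lit 365) (nat_lit 281)) (XT.nd (nat_lit 78) (nat_lit 76) (nat_lit 0) (XT.lf (nat_lit 0) (nat_lit 180098709693) (nat_lit 0) (nat_lit 180124917672) (nat_lit 152) (nat_lit 180098709693)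 (nat_lit 132) (nat_lit 3) (nat_lit 132) (nat_lit 1) (nat_lit 134) (nat_lit 1) (nat_lit 255) (nat_lit 365) (nat_lit 280)) (XT.lf (nat_lit 76) (nat_lit 171905498784) (nat_lit 0) (nat_lit 171928288331) (nat_lit 76) (nat_lit 171928288331) (nat_lit 132) (nat_lit 3) (nat_lit 131) (nat_lit 1) (nat_lit 132) (nat_lit 1) (nat_lit 256) (nat_lit 365) (nat_lit 279)))) (XT.nd (nat_lit 78) (nat_lit 76) (nat_lit 0) (XT.lf (nat_lit 152) (nat_lit 493325419513) (nat_lit 0) (nat_lit 6005150) (nat_lit 76) (nat_lit 6005150) (nat_lit 131) (nat_lit 1) (nat_lit 129) (nat_lit 1) (nat_lit 130) (nat_lit 1) (nat_lit 257) (nat_lit 365) (nat_lit 278)) (XT.nd (nat_lit 78) (nat_lit 76) (nat_lit 0) (XT.lf (nat_lit 0) (nat_lit 156610051440) (nat_lit 0) (nat_lit 156625035937) (nat_lit 152) (nat_lit 156610051440) (nat_lit 129) (nat_lit 3) (nat_lit 129) (nat_lit 1) (nat_lit 131) (nat_lit 1) (nat_lit 258) (nat_lit 365) (nat_lit 277))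 (XT.lf (nat_lit 76) (nat_lit 149487464254) (nat_lit 0) (nat_lit 149500494251) (nat_lit 76) (nat_lit 149500494251) (nat_lit 129) (nat_lit 3) (nat_lit 128) (nat_lit 1) (nat_lit 129) (nat_lit 1) (nat_lit 259) (nat_lit 365) (nat_lit 276)))))) (XT.nd (nat_lit 468) (nat_lit 456) (nat_lit 0) (XT.nd (nat_lit 234) (nat_lit 228) (nat_lit 0) (XT.nd (nat_lit 78) (nat_lit 76) (nat_lit 0) (XT.lf (nat_lit 152) (nat_lit 428981969205) (nat_lit 0) (nat_lit 3433464) (nat_lit 76) (nat_lit 3433464) (nat_lit 128) (nat_lit 1) (nat_lit 126) (nat_lit 1) (nat_lit 127) (nat_lit 1) (nat_lit 260) (nat_lit 365) (nat_lit 275)) (XT.nd (nat_lit 78) (nat_lit 76) (nat_lit 0) (XT.lf (nat_lit 0) (nat_lit 136184070113) (nat_lit 0) (nat_lit 136192637547) (nat_lit 152) (nat_lit 136184070113) (nat_lit 126) (nat_lit 3) (nat_lit 126) (nat_lit 1) (nat_lit 128) (nat_lit 1) (nat_lit 261) (nat_lit 365) (nat_lit 274)) (XT.lf (nat_lit 76) (nat_lit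 129991627549) (nat_lit 0) (nat_lit 129999077492) (nat_lit 76) (nat_lit 129999077492) (nat_lit 126) (nat_lit 3) (nat_lit 125) (nat_lit 1) (nat_lit 126) (nat_lit 1) (nat_lit 262) (nat_lit 365) (nat_lit 273)))) (XT.nd (nat_lit 78) (nat_lit 76) (nat_lit 0) (XT.lf (nat_lit 152) (nat_lit 373029710989) (nat_lit 0) (nat_lit 1963094) (nat_lit 76) (nat_lit 1963094) (nat_lit 125) (nat_lit 1) (nat_lit 123) (nat_lit 1) (nat_lit 124) (nat_lit 1) (nat_lit 263) (nat_lit 365) (nat_lit 272)) (XT.nd (nat_lit 78) (nat_lit 76) (nat_lit 0) (XT.lf (nat_lit 0) (nat_lit 118421740528) (nat_lit 0) (nat_lit 118426638986) (nat_lit 152) (nat_lit 118421740528) (nat_lit 123) (nat_lit 3) (nat_lit 123) (nat_lit 1) (nat_lit 125) (nat_lit 1) (nat_lit 264) (nat_lit 365) (nat_lit 271)) (XT.lf (nat_lit 76) (nat_lit 113037643374) (nat_lit 0) (nat_lit 113041902903) (nat_lit 76) (nat_lit 113041902903) (nat_lit 123) (nat_lit 3) (nat_lit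 122) (nat_lit 1) (nat_lit 123) (nat_lit 1) (nat_lit 265) (nat_lit 365) (nat_lit 270))))) (XT.nd (nat_lit 234) (nat_lit 228) (nat_lit 0) (XT.nd (nat_lit 78) (nat_lit 76) (nat_lit 0) (XT.lf (nat_lit 152) (nat_lit 324374754739) (nat_lit 0) (nat_lit 1122405) (nat_lit 76) (nat_lit 1122405) (nat_lit 122) (nat_lit 1) (nat_lit 120) (nat_lit 1) (nat_lit 121) (nat_lit 1) (nat_lit 266) (nat_lit 365) (nat_lit 269)) (XT.nd (nat_lit 78) (nat_lit 76) (nat_lit 0) (XT.lf (nat_lit 0) (nat_lit 102975889663) (nat_lit 0) (nat_lit 102978690373) (nat_lit 152) (nat_lit 102975889663) (nat_lit 120) (nat_lit 3) (nat_lit 120) (nat_lit 1) (nat_lit 122) (nat_lit 1) (nat_lit 267) (nat_lit 365) (nat_lit 268)) (XT.lf (nat_lit 76) (nat_lit 98294429406) (nat_lit 0) (nat_lit 98296864805) (nat_lit 76) (nat_lit 98296864805) (nat_lit 120) (nat_lit 3) (nat_lit 119) (nat_lit 1) (nat_lit 120) (nat_lit 1) (nat_lit 268) (nat_lit 365) (nat_lit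 267)))) (XT.nd (nat_lit 78) (nat_lit 76) (nat_lit 0) (XT.lf (nat_lit 152) (nat_lit 282065629053) (nat_lit 0) (nat_lit 641739) (nat_lit 76) (nat_lit 641739) (nat_lit 119) (nat_lit 1) (nat_lit 117) (nat_lit 1) (nat_lit 118) (nat_lit 1) (nat_lit 269) (nat_lit 365) (nat_lit 266)) (XT.nd (nat_lit 78) (nat_lit 76) (nat_lit 0) (XT.lf (nat_lit 0) (nat_lit 89544516670) (nat_lit 0) (nat_lit 89546117985) (nat_lit 152) (nat_lit 89544516670) (nat_lit 117) (nat_lit 3) (nat_lit 117) (nat_lit 1) (nat_lit 119) (nat_lit 1) (nat_lit 270) (nat_lit 365) (nat_lit 265)) (XT.lf (nat_lit 76) (nat_lit 85473889413) (nat_lit 0) (nat_lit 85475281860) (nat_lit 76) (nat_lit 85475281860) (nat_lit 117) (nat_lit 3) (nat_lit 116) (nat_lit 1) (nat_lit 117) (nat_lit 1) (nat_lit 271) (nat_lit 365) (nat_lit 264))))))))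
noncomputable def ec223 : XT := (XT.nd (nat_lit 1716) (nat_lit 1672) (nat_lit 0) (XT.nd (nat_lit 858) (nat_lit 912) (nat_lit 0) (XT.nd (nat_lit 390) (nat_lit 456) (nat_lit 0) (XT.nd (nat_lit 156) (nat_lit 228) (nat_lit 0) (XT.nd (nat_lit 78) (nat_lit 0) (nat_lit 0) (XT.lf (nat_lit 152) (nat_lit 245274817352) (nat_lit 0) (nat_lit 366916) (nat_lit 76) (nat_lit 366916) (nat_lit 116) (nat_lit 1) (nat_lit 114) (nat_lit 1) (nat_lit 115) (nat_lit 1) (nat_lit 272) (nat_lit 365) (nat_lit 263)) (XT.lf (nat_lit 0) (nat_lit 77864948498) (nat_lit 0) (nat_lit 77865864055) (nat_lit 152) (nat_lit 77864948498) (nat_lit 114) (nat_lit 3) (nat_lit 114) (nat_lit 1) (nat_lit 116) (nat_lit 1) (nat_lit 273) (nat_lit 365) (nat_lit 262))) (XT.nd (nat_lit 78) (nat_lit 152) (nat_lit 0) (XT.lf (nat_lit 76) (nat_lit 74325391404) (nat_lit 0) (nat_lit 74326187540) (nat_lit 76) (nat_lit 74326187540) (nat_lit 114) (nat_lit 3) (nat_lit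 113) (nat_lit 1) (nat_lit 114) (nat_lit 1) (nat_lit 274) (nat_lit 365) (nat_lit 261)) (XT.nd (nat_lit 78) (nat_lit 0) (nat_lit 0) (XT.lf (nat_lit 152) (nat_lit 213282654163) (nat_lit 0) (nat_lit 209785) (nat_lit 76) (nat_lit 209785) (nat_lit 113) (nat_lit 1) (nat_lit 111) (nat_lit 1) (nat_lit 112) (nat_lit 1) (nat_lit 275) (nat_lit 365) (nat_lit 260)) (XT.lf (nat_lit 0) (nat_lit 67708737428) (nat_lit 0) (nat_lit 67709260900) (nat_lit 152) (nat_lit 67708737428) (nat_lit 111) (nat_lit 3) (nat_lit 111) (nat_lit 1) (nat_lit 113) (nat_lit 1) (nat_lit 276) (nat_lit 365) (nat_lit 259))))) (XT.nd (nat_lit 234) (nat_lit 228) (nat_lit 0) (XT.nd (nat_lit 78) (nat_lit 152) (nat_lit 0) (XT.lf (nat_lit 76) (nat_lit 64630929607) (nat_lit 0) (nat_lit 64631384801) (nat_lit 76) (nat_lit 64631384801) (nat_lit 111) (nat_lit 3) (nat_lit 110) (nat_lit 1) (nat_lit 111) (nat_lit 1) (nat_lit 277) (nat_lit 365) (nat_lit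 258)) (XT.nd (nat_lit 78) (nat_lit 0) (nat_lit 0) (XT.lf (nat_lit 152) (nat_lit 185463294337) (nat_lit 0) (nat_lit 119945) (nat_lit 76) (nat_lit 119945) (nat_lit 110) (nat_lit 1) (nat_lit 108) (nat_lit 1) (nat_lit 109) (nat_lit 1) (nat_lit 278) (nat_lit 365) (nat_lit 257)) (XT.lf (nat_lit 0) (nat_lit 58877212471) (nat_lit 0) (nat_lit 58877511769) (nat_lit 152) (nat_lit 58877212471) (nat_lit 108) (nat_lit 3) (nat_lit 108) (nat_lit 1) (nat_lit 110) (nat_lit 1) (nat_lit 279) (nat_lit 365) (nat_lit 256)))) (XT.nd (nat_lit 78) (nat_lit 152) (nat_lit 0) (XT.lf (nat_lit 76) (nat_lit 56200896675) (nat_lit 0) (nat_lit 56201156933) (nat_lit 76) (nat_lit 56201156933) (nat_lit 108) (nat_lit 3) (nat_lit 107) (nat_lit 1) (nat_lit 108) (nat_lit 1) (nat_lit 280) (nat_lit 365) (nat_lit 255)) (XT.nd (nat_lit 78) (nat_lit 0) (nat_lit 0) (XT.lf (nat_lit 152) (nat_lit 161272496641) (nat_lit 0) (nat_lit 68579) (nat_lit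 76) (nat_lit 68579) (nat_lit 107) (nat_lit 1) (nat_lit 105) (nat_lit 1) (nat_lit 106) (nat_lit 1) (nat_lit 281) (nat_lit 365) (nat_lit 254)) (XT.lf (nat_lit 0) (nat_lit 51197604359) (nat_lit 0) (nat_lit 51197775483) (nat_lit 152) (nat_lit 51197604359) (nat_lit 105) (nat_lit 3) (nat_lit 105) (nat_lit 1) (nat_lit 107) (nat_lit 1) (nat_lit 282) (nat_lit 365) (nat_lit 253)))))) (XT.nd (nat_lit 390) (nat_lit 456) (nat_lit 0) (XT.nd (nat_lit 156) (nat_lit 228) (nat_lit 0) (XT.nd (nat_lit 78) (nat_lit 152) (nat_lit 0) (XT.lf (nat_lit 76) (nat_lit 48870395432) (nat_lit 0) (nat_lit 48870544236) (nat_lit 76) (nat_lit 48870544236) (nat_lit 105) (nat_lit 3) (nat_lit 104) (nat_lit 1) (nat_lit 105) (nat_lit 1) (nat_lit 283) (nat_lit 365) (nat_lit 252)) (XT.lf (nat_lit 152) (nat_lit 140236991785) (nat_lit 0) (nat_lit 39210) (nat_lit 76) (nat_lit 39210) (nat_lit 104) (nat_lit 1) (nat_lit 102) (nat_lit 1) (nat_lit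 103) (nat_lit 1) (nat_lit 284) (nat_lit 365) (nat_lit 251))) (XT.nd (nat_lit 78) (nat_lit 228) (nat_lit 0) (XT.lf (nat_lit 0) (nat_lit 44519672143) (nat_lit 0) (nat_lit 44519769983) (nat_lit 152) (nat_lit 44519672143) (nat_lit 102) (nat_lit 3) (nat_lit 102) (nat_lit 1) (nat_lit 104) (nat_lit 1) (nat_lit 285) (nat_lit 365) (nat_lit 250)) (XT.nd (nat_lit 78) (nat_lit 152) (nat_lit 0) (XT.lf (nat_lit 76) (nat_lit 42496024900) (nat_lit 0) (nat_lit 42496109979) (nat_lit 76) (nat_lit 42496109979) (nat_lit 102) (nat_lit 3) (nat_lit 101) (nat_lit 1) (nat_lit 102) (nat_lit 1) (nat_lit 286) (nat_lit 365) (nat_lit 249)) (XT.lf (nat_lit 152) (nat_lit 121945232079) (nat_lit 0) (nat_lit 22418) (nat_lit 76) (nat_lit 22418) (nat_lit 101) (nat_lit 1) (nat_lit 99) (nat_lit 1) (nat_lit 100) (nat_lit 1) (nat_lit 287) (nat_lit 365) (nat_lit 248))))) (XT.nd (nat_lit 234) (nat_lit 228) (nat_lit 0) (XT.nd (nat_lit 78)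 (nat_lit 228) (nat_lit 0) (XT.lf (nat_lit 0) (nat_lit 38712767635) (nat_lit 0) (nat_lit 38712823576) (nat_lit 152) (nat_lit 38712767635) (nat_lit 99) (nat_lit 3) (nat_lit 99) (nat_lit 1) (nat_lit 101) (nat_lit 1) (nat_lit 288) (nat_lit 365) (nat_lit 247)) (XT.nd (nat_lit 78) (nat_lit 152) (nat_lit 0) (XT.lf (nat_lit 76) (nat_lit 36953081638) (nat_lit 0) (nat_lit 36953130282) (nat_lit 76) (nat_lit 36953130282) (nat_lit 99) (nat_lit 3) (nat_lit 98) (nat_lit 1) (nat_lit 99) (nat_lit 1) (nat_lit 289) (nat_lit 365) (nat_lit 246)) (XT.lf (nat_lit 152) (nat_lit 106039344725) (nat_lit 0) (nat_lit 12817) (nat_lit 76) (nat_lit 12817) (nat_lit 98) (nat_lit 1) (nat_lit 96) (nat_lit 1) (nat_lit 97) (nat_lit 1) (nat_lit 290) (nat_lit 365) (nat_lit 245)))) (XT.nd (nat_lit 78) (nat_lit 228) (nat_lit 0) (XT.lf (nat_lit 0) (nat_lit 33663281493) (nat_lit 0) (nat_lit 33663313477) (nat_lit 152) (nat_lit 33663281493)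 (nat_lit 96) (nat_lit 3) (nat_lit 96) (nat_lit 1) (nat_lit 98) (nat_lit 1) (nat_lit 291) (nat_lit 365) (nat_lit 244)) (XT.nd (nat_lit 78) (nat_lit 152) (nat_lit 0) (XT.lf (nat_lit 76) (nat_lit 32133123906) (nat_lit 0) (nat_lit 32133151719) (nat_lit 76) (nat_lit 32133151719) (nat_lit 96) (nat_lit 3) (nat_lit 95) (nat_lit 1) (nat_lit 96) (nat_lit 1) (nat_lit 292) (nat_lit 365) (nat_lit 243)) (XT.lf (nat_lit 152) (nat_lit 92208132984) (nat_lit 0) (nat_lit 7328) (nat_lit 76) (nat_lit 7328) (nat_lit 95) (nat_lit 1) (nat_lit 93) (nat_lit 1) (nat_lit 94) (nat_lit 1) (nat_lit 293) (nat_lit 365) (nat_lit 242))))))) (XT.nd (nat_lit 858) (nat_lit 912) (nat_lit 0) (XT.nd (nat_lit 390) (nat_lit 456) (nat_lit 0) (XT.nd (nat_lit 156) (nat_lit 228) (nat_lit 0) (XT.nd (nat_lit 78) (nat_lit 76) (nat_lit 0) (XT.lf (nat_lit 0) (nat_lit 29272421714) (nat_lit 0) (nat_lit 29272440001) (nat_lit 152) (nat_lit 29272421714)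 (nat_lit 93) (nat_lit 3) (nat_lit 93) (nat_lit 1) (nat_lit 95) (nat_lit 1) (nat_lit 294) (nat_lit 365) (nat_lit 241)) (XT.lf (nat_lit 76) (nat_lit 27941852271) (nat_lit 0) (nat_lit 27941868173) (nat_lit 76) (nat_lit 27941868173) (nat_lit 93) (nat_lit 3) (nat_lit 92) (nat_lit 1) (nat_lit 93) (nat_lit 1) (nat_lit 295) (nat_lit 365) (nat_lit 240))) (XT.nd (nat_lit 78) (nat_lit 76) (nat_lit 0) (XT.lf (nat_lit 152) (nat_lit 80180989284) (nat_lit 0) (nat_lit 4190) (nat_lit 76) (nat_lit 4190) (nat_lit 92) (nat_lit 1) (nat_lit 90) (nat_lit 1) (nat_lit 91) (nat_lit 1) (nat_lit 296) (nat_lit 365) (nat_lit 239)) (XT.nd (nat_lit 78) (nat_lit 76) (nat_lit 0) (XT.lf (nat_lit 0) (nat_lit 25454281480) (nat_lit 0) (nat_lit 25454291936) (nat_lit 152) (nat_lit 25454281480) (nat_lit 90) (nat_lit 3) (nat_lit 90) (nat_lit 1) (nat_lit 92) (nat_lit 1) (nat_lit 297) (nat_lit 365) (nat_lit 238)) (XT.lf (nat_lit 76) (nat_lit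 24297265930) (nat_lit 0) (nat_lit 24297275022) (nat_lit 76) (nat_lit 24297275022) (nat_lit 90) (nat_lit 3) (nat_lit 89) (nat_lit 1) (nat_lit 90) (nat_lit 1) (nat_lit 298) (nat_lit 365) (nat_lit 237))))) (XT.nd (nat_lit 234) (nat_lit 228) (nat_lit 0) (XT.nd (nat_lit 78) (nat_lit 76) (nat_lit 0) (XT.lf (nat_lit 152) (nat_lit 69722601711) (nat_lit 0) (nat_lit 2395) (nat_lit 76) (nat_lit 2395) (nat_lit 89) (nat_lit 1) (nat_lit 87) (nat_lit 1) (nat_lit 88) (nat_lit 1) (nat_lit 299) (nat_lit 365) (nat_lit 236)) (XT.nd (nat_lit 78) (nat_lit 76) (nat_lit 0) (XT.lf (nat_lit 0) (nat_lit 22134158797) (nat_lit 0) (nat_lit 22134164775) (nat_lit 152) (nat_lit 22134158797) (nat_lit 87) (nat_lit 3) (nat_lit 87) (nat_lit 1) (nat_lit 89) (nat_lit 1) (nat_lit 300) (nat_lit 365) (nat_lit 235)) (XT.lf (nat_lit 76) (nat_lit 21128059095) (nat_lit 0) (nat_lit 21128064293) (nat_lit 76) (nat_lit 21128064293) (nat_lit 87)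 (nat_lit 3) (nat_lit 86) (nat_lit 1) (nat_lit 87) (nat_lit 1) (nat_lit 301) (nat_lit 365) (nat_lit 234)))) (XT.nd (nat_lit 78) (nat_lit 76) (nat_lit 0) (XT.lf (nat_lit 152) (nat_lit 60628350647) (nat_lit 0) (nat_lit 1369) (nat_lit 76) (nat_lit 1369) (nat_lit 86) (nat_lit 1) (nat_lit 84) (nat_lit 1) (nat_lit 85) (nat_lit 1) (nat_lit 302) (nat_lit 365) (nat_lit 233)) (XT.nd (nat_lit 78) (nat_lit 76) (nat_lit 0) (XT.lf (nat_lit 0) (nat_lit 19247095171) (nat_lit 0) (nat_lit 19247098589) (nat_lit 152) (nat_lit 19247095171) (nat_lit 84) (nat_lit 3) (nat_lit 84) (nat_lit 1) (nat_lit 86) (nat_lit 1) (nat_lit 303) (nat_lit 365) (nat_lit 232)) (XT.lf (nat_lit 76) (nat_lit 18372226308) (nat_lit 0) (nat_lit 18372229280) (nat_lit 76) (nat_lit 18372229280) (nat_lit 84) (nat_lit 3) (nat_lit 83) (nat_lit 1) (nat_lit 84) (nat_lit 1) (nat_lit 304) (nat_lit 365) (nat_lit 231)))))) (XT.nd (nat_lit 468) (nat_lit 456)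 (nat_lit 0) (XT.nd (nat_lit 234) (nat_lit 228) (nat_lit 0) (XT.nd (nat_lit 78) (nat_lit 76) (nat_lit 0) (XT.lf (nat_lit 152) (nat_lit 52720305673) (nat_lit 0) (nat_lit 783) (nat_lit 76) (nat_lit 783) (nat_lit 83) (nat_lit 1) (nat_lit 81) (nat_lit 1) (nat_lit 82) (nat_lit 1) (nat_lit 305) (nat_lit 365) (nat_lit 230)) (XT.nd (nat_lit 78) (nat_lit 76) (nat_lit 0) (XT.lf (nat_lit 0) (nat_lit 16736604820) (nat_lit 0) (nat_lit 16736606774) (nat_lit 152) (nat_lit 16736604820) (nat_lit 81) (nat_lit 3) (nat_lit 81) (nat_lit 1) (nat_lit 83) (nat_lit 1) (nat_lit 306) (nat_lit 365) (nat_lit 229)) (XT.lf (nat_lit 76) (nat_lit 15975849540) (nat_lit 0) (nat_lit 15975851240) (nat_lit 76) (nat_lit 15975851240) (nat_lit 81) (nat_lit 3) (nat_lit 80) (nat_lit 1) (nat_lit 81) (nat_lit 1) (nat_lit 307) (nat_lit 365) (nat_lit 228)))) (XT.nd (nat_lit 78) (nat_lit 76) (nat_lit 0) (XT.lf (nat_lit 152) (nat_lit 45843744500)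 (nat_lit 0) (nat_lit 447) (nat_lit 76) (nat_lit 447) (nat_lit 80) (nat_lit 1) (nat_lit 78) (nat_lit 1) (nat_lit 79) (nat_lit 1) (nat_lit 308) (nat_lit 365) (nat_lit 227)) (XT.nd (nat_lit 78) (nat_lit 76) (nat_lit 0) (XT.lf (nat_lit 0) (nat_lit 14553569593) (nat_lit 0) (nat_lit 14553570711) (nat_lit 152) (nat_lit 14553569593) (nat_lit 78) (nat_lit 3) (nat_lit 78) (nat_lit 1) (nat_lit 80) (nat_lit 1) (nat_lit 309) (nat_lit 365) (nat_lit 226)) (XT.lf (nat_lit 76) (nat_lit 13892043408) (nat_lit 0) (nat_lit 13892044380) (nat_lit 76) (nat_lit 13892044380) (nat_lit 78) (nat_lit 3) (nat_lit 77) (nat_lit 1) (nat_lit 78) (nat_lit 1) (nat_lit 310) (nat_lit 365) (nat_lit 225))))) (XT.nd (nat_lit 234) (nat_lit 228) (nat_lit 0) (XT.nd (nat_lit 78) (nat_lit 76) (nat_lit 0) (XT.lf (nat_lit 152) (nat_lit 39864125901) (nat_lit 0) (nat_lit 256) (nat_lit 76) (nat_lit 256) (nat_lit 77) (nat_lit 1) (nat_lit 75) (nat_lit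 1) (nat_lit 76) (nat_lit 1) (nat_lit 311) (nat_lit 365) (nat_lit 224)) (XT.nd (nat_lit 78) (nat_lit 76) (nat_lit 0) (XT.lf (nat_lit 0) (nat_lit 12655278013) (nat_lit 0) (nat_lit 12655278652) (nat_lit 152) (nat_lit 12655278013) (nat_lit 75) (nat_lit 3) (nat_lit 75) (nat_lit 1) (nat_lit 77) (nat_lit 1) (nat_lit 312) (nat_lit 365) (nat_lit 223)) (XT.lf (nat_lit 76) (nat_lit 12080037935) (nat_lit 0) (nat_lit 12080038490) (nat_lit 76) (nat_lit 12080038490) (nat_lit 75) (nat_lit 3) (nat_lit 74) (nat_lit 1) (nat_lit 75) (nat_lit 1) (nat_lit 313) (nat_lit 365) (nat_lit 222)))) (XT.nd (nat_lit 78) (nat_lit 76) (nat_lit 0) (XT.lf (nat_lit 152) (nat_lit 34664457448) (nat_lit 0) (nat_lit 146) (nat_lit 76) (nat_lit 146) (nat_lit 74) (nat_lit 1) (nat_lit 72) (nat_lit 1) (nat_lit 73) (nat_lit 1) (nat_lit 314) (nat_lit 365) (nat_lit 221)) (XT.nd (nat_lit 78) (nat_lit 76) (nat_lit 0) (XT.lf (nat_lit 0) (nat_lit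 11004589637) (nat_lit 0) (nat_lit 11004590002) (nat_lit 152) (nat_lit 11004589637) (nat_lit 72) (nat_lit 3) (nat_lit 72) (nat_lit 1) (nat_lit 74) (nat_lit 1) (nat_lit 315) (nat_lit 365) (nat_lit 220)) (XT.lf (nat_lit 76) (nat_lit 10504380920) (nat_lit 0) (nat_lit 10504381238) (nat_lit 76) (nat_lit 10504381238) (nat_lit 72) (nat_lit 3) (nat_lit 71) (nat_lit 1) (nat_lit 72) (nat_lit 1) (nat_lit 316) (nat_lit 365) (nat_lit 219))))))))
noncomputable def ec224 : XT := (XT.nd (nat_lit 1716) (nat_lit 1596) (nat_lit 0) (XT.nd (nat_lit 858) (nat_lit 912) (nat_lit 0) (XT.nd (nat_lit 390) (nat_lit 456) (nat_lit 0) (XT.nd (nat_lit 156) (nat_lit 228) (nat_lit 0) (XT.nd (nat_lit 78) (nat_lit 0) (nat_lit 0) (XT.lf (nat_lit 152) (nat_lit 30143006558) (nat_lit 0) (nat_lit 83) (nat_lit 76) (nat_lit 83) (nat_lit 71) (nat_lit 1) (nat_lit 69) (nat_lit 1) (nat_lit 70) (nat_lit 1) (nat_lit 317) (nat_lit 365) (nat_lit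 218)) (XT.lf (nat_lit 0) (nat_lit 9569208414) (nat_lit 0) (nat_lit 9569208623) (nat_lit 152) (nat_lit 9569208414) (nat_lit 69) (nat_lit 3) (nat_lit 69) (nat_lit 1) (nat_lit 71) (nat_lit 1) (nat_lit 318) (nat_lit 365) (nat_lit 217))) (XT.nd (nat_lit 78) (nat_lit 152) (nat_lit 0) (XT.lf (nat_lit 76) (nat_lit 9134244340) (nat_lit 0) (nat_lit 9134244522) (nat_lit 76) (nat_lit 9134244522) (nat_lit 69) (nat_lit 3) (nat_lit 68) (nat_lit 1) (nat_lit 69) (nat_lit 1) (nat_lit 319) (nat_lit 365) (nat_lit 216)) (XT.nd (nat_lit 78) (nat_lit 0) (nat_lit 0) (XT.lf (nat_lit 152) (nat_lit 26211310097) (nat_lit 0) (nat_lit 47) (nat_lit 76) (nat_lit 47) (nat_lit 68) (nat_lit 1) (nat_lit 66) (nat_lit 1) (nat_lit 67) (nat_lit 1) (nat_lit 320) (nat_lit 365) (nat_lit 215)) (XT.lf (nat_lit 0) (nat_lit 8321050815) (nat_lit 0) (nat_lit 8321050934) (nat_lit 152) (nat_lit 8321050815) (nat_lit 66) (nat_lit 3) (nat_lit 66)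 (nat_lit 1) (nat_lit 68) (nat_lit 1) (nat_lit 321) (nat_lit 365) (nat_lit 214))))) (XT.nd (nat_lit 234) (nat_lit 228) (nat_lit 0) (XT.nd (nat_lit 78) (nat_lit 152) (nat_lit 0) (XT.lf (nat_lit 76) (nat_lit 7942821201) (nat_lit 0) (nat_lit 7942821304) (nat_lit 76) (nat_lit 7942821304) (nat_lit 66) (nat_lit 3) (nat_lit 65) (nat_lit 1) (nat_lit 66) (nat_lit 1) (nat_lit 322) (nat_lit 365) (nat_lit 213)) (XT.nd (nat_lit 78) (nat_lit 0) (nat_lit 0) (XT.lf (nat_lit 152) (nat_lit 22792443589) (nat_lit 0) (nat_lit 27) (nat_lit 76) (nat_lit 27) (nat_lit 65) (nat_lit 1) (nat_lit 63) (nat_lit 1) (nat_lit 64) (nat_lit 1) (nat_lit 323) (nat_lit 365) (nat_lit 212)) (XT.lf (nat_lit 0) (nat_lit 7235696372) (nat_lit 0) (nat_lit 7235696440) (nat_lit 152) (nat_lit 7235696372) (nat_lit 63) (nat_lit 3) (nat_lit 63) (nat_lit 1) (nat_lit 65) (nat_lit 1) (nat_lit 324) (nat_lit 365) (nat_lit 211)))) (XT.nd (nat_lit 78) (nat_lit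 152) (nat_lit 0) (XT.lf (nat_lit 76) (nat_lit 6906801064) (nat_lit 0) (nat_lit 6906801123) (nat_lit 76) (nat_lit 6906801123) (nat_lit 63) (nat_lit 3) (nat_lit 62) (nat_lit 1) (nat_lit 63) (nat_lit 1) (nat_lit 325) (nat_lit 365) (nat_lit 210)) (XT.nd (nat_lit 78) (nat_lit 0) (nat_lit 0) (XT.lf (nat_lit 152) (nat_lit 19819516180) (nat_lit 0) (nat_lit 15) (nat_lit 76) (nat_lit 15) (nat_lit 62) (nat_lit 1) (nat_lit 60) (nat_lit 1) (nat_lit 61) (nat_lit 1) (nat_lit 326) (nat_lit 365) (nat_lit 209)) (XT.lf (nat_lit 0) (nat_lit 6291909895) (nat_lit 0) (nat_lit 6291909934) (nat_lit 152) (nat_lit 6291909895) (nat_lit 60) (nat_lit 3) (nat_lit 60) (nat_lit 1) (nat_lit 62) (nat_lit 1) (nat_lit 327) (nat_lit 365) (nat_lit 208)))))) (XT.nd (nat_lit 390) (nat_lit 456) (nat_lit 0) (XT.nd (nat_lit 156) (nat_lit 228) (nat_lit 0) (XT.nd (nat_lit 78) (nat_lit 152) (nat_lit 0) (XT.lf (nat_lit 76) (nat_lit 6005913980)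 (nat_lit 0) (nat_lit 6005914014) (nat_lit 76) (nat_lit 6005914014) (nat_lit 60) (nat_lit 3) (nat_lit 59) (nat_lit 1) (nat_lit 60) (nat_lit 1) (nat_lit 328) (nat_lit 365) (nat_lit 207)) (XT.lf (nat_lit 152) (nat_lit 17234361904) (nat_lit 0) (nat_lit 8) (nat_lit 76) (nat_lit 8) (nat_lit 59) (nat_lit 1) (nat_lit 57) (nat_lit 1) (nat_lit 58) (nat_lit 1) (nat_lit 329) (nat_lit 365) (nat_lit 206))) (XT.nd (nat_lit 78) (nat_lit 228) (nat_lit 0) (XT.lf (nat_lit 0) (nat_lit 5471225999) (nat_lit 0) (nat_lit 5471226021) (nat_lit 152) (nat_lit 5471225999) (nat_lit 57) (nat_lit 3) (nat_lit 57) (nat_lit 1) (nat_lit 59) (nat_lit 1) (nat_lit 330) (nat_lit 365) (nat_lit 205)) (XT.nd (nat_lit 78) (nat_lit 152) (nat_lit 0) (XT.lf (nat_lit 76) (nat_lit 5222533902) (nat_lit 0) (nat_lit 5222533922) (nat_lit 76) (nat_lit 5222533922) (nat_lit 57) (nat_lit 3) (nat_lit 56) (nat_lit 1) (nat_lit 57) (nat_lit 1) (nat_lit 331)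 (nat_lit 365) (nat_lit 204)) (XT.lf (nat_lit 152) (nat_lit 14986401661) (nat_lit 0) (nat_lit 5) (nat_lit 76) (nat_lit 5) (nat_lit 56) (nat_lit 1) (nat_lit 54) (nat_lit 1) (nat_lit 55) (nat_lit 1) (nat_lit 332) (nat_lit 365) (nat_lit 203))))) (XT.nd (nat_lit 234) (nat_lit 228) (nat_lit 0) (XT.nd (nat_lit 78) (nat_lit 228) (nat_lit 0) (XT.lf (nat_lit 0) (nat_lit 4757587827) (nat_lit 0) (nat_lit 4757587840) (nat_lit 152) (nat_lit 4757587827) (nat_lit 54) (nat_lit 3) (nat_lit 54) (nat_lit 1) (nat_lit 56) (nat_lit 1) (nat_lit 333) (nat_lit 365) (nat_lit 202)) (XT.nd (nat_lit 78) (nat_lit 152) (nat_lit 0) (XT.lf (nat_lit 76) (nat_lit 4541333832) (nat_lit 0) (nat_lit 4541333843) (nat_lit 76) (nat_lit 4541333843) (nat_lit 54) (nat_lit 3) (nat_lit 53) (nat_lit 1) (nat_lit 54) (nat_lit 1) (nat_lit 334) (nat_lit 365) (nat_lit 201)) (XT.lf (nat_lit 152) (nat_lit 13031653621) (nat_lit 0) (nat_lit 2) (nat_lit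 76) (nat_lit 2) (nat_lit 53) (nat_lit 1) (nat_lit 51) (nat_lit 1) (nat_lit 52) (nat_lit 1) (nat_lit 335) (nat_lit 365) (nat_lit 200)))) (XT.nd (nat_lit 78) (nat_lit 228) (nat_lit 0) (XT.lf (nat_lit 0) (nat_lit 4137032895) (nat_lit 0) (nat_lit 4137032902) (nat_lit 152) (nat_lit 4137032895) (nat_lit 51) (nat_lit 3) (nat_lit 51) (nat_lit 1) (nat_lit 53) (nat_lit 1) (nat_lit 336) (nat_lit 365) (nat_lit 199)) (XT.nd (nat_lit 78) (nat_lit 152) (nat_lit 0) (XT.lf (nat_lit 76) (nat_lit 3948985943) (nat_lit 0) (nat_lit 3948985949) (nat_lit 76) (nat_lit 3948985949) (nat_lit 51) (nat_lit 3) (nat_lit 50) (nat_lit 1) (nat_lit 51) (nat_lit 1) (nat_lit 337) (nat_lit 365) (nat_lit 198)) (XT.lf (nat_lit 152) (nat_lit 11331872715) (nat_lit 0) (nat_lit 1) (nat_lit 76) (nat_lit 1) (nat_lit 50) (nat_lit 1) (nat_lit 48) (nat_lit 1) (nat_lit 49) (nat_lit 1) (nat_lit 338) (nat_lit 365) (nat_lit 197))))))) (XT.nd (nat_lit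 858) (nat_lit 836) (nat_lit 0) (XT.nd (nat_lit 390) (nat_lit 456) (nat_lit 0) (XT.nd (nat_lit 156) (nat_lit 228) (nat_lit 0) (XT.nd (nat_lit 78) (nat_lit 76) (nat_lit 0) (XT.lf (nat_lit 0) (nat_lit 3597419909) (nat_lit 0) (nat_lit 3597419913) (nat_lit 152) (nat_lit 3597419909) (nat_lit 48) (nat_lit 3) (nat_lit 48) (nat_lit 1) (nat_lit 50) (nat_lit 1) (nat_lit 339) (nat_lit 365) (nat_lit 196)) (XT.lf (nat_lit 76) (nat_lit 3433900821) (nat_lit 0) (nat_lit 3433900825) (nat_lit 76) (nat_lit 3433900825) (nat_lit 48) (nat_lit 3) (nat_lit 47) (nat_lit 1) (nat_lit 48) (nat_lit 1) (nat_lit 340) (nat_lit 365) (nat_lit 195))) (XT.nd (nat_lit 78) (nat_lit 228) (nat_lit 0) (XT.lf (nat_lit 0) (nat_lit 9853802362) (nat_lit 0) (nat_lit 0) (nat_lit 0) (nat_lit 0) (nat_lit 47) (nat_lit 1) (nat_lit 1) (nat_lit 0) (nat_lit 1) (nat_lit 0) (nat_lit 341) (nat_lit 365) (nat_lit 194)) (XT.nd (nat_lit 78) (nat_lit 76) (nat_lit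 0) (XT.lf (nat_lit 0) (nat_lit 3128191225) (nat_lit 0) (nat_lit 3128191228) (nat_lit 152) (nat_lit 3128191225) (nat_lit 45) (nat_lit 3) (nat_lit 45) (nat_lit 1) (nat_lit 47) (nat_lit 1) (nat_lit 342) (nat_lit 365) (nat_lit 193)) (XT.lf (nat_lit 76) (nat_lit 2986000715) (nat_lit 0) (nat_lit 2986000717) (nat_lit 76) (nat_lit 2986000717) (nat_lit 45) (nat_lit 3) (nat_lit 44) (nat_lit 1) (nat_lit 45) (nat_lit 1) (nat_lit 343) (nat_lit 365) (nat_lit 192))))) (XT.nd (nat_lit 234) (nat_lit 228) (nat_lit 0) (XT.nd (nat_lit 78) (nat_lit 228) (nat_lit 0) (XT.lf (nat_lit 0) (nat_lit 8568523793) (nat_lit 0) (nat_lit 0) (nat_lit 0) (nat_lit 0) (nat_lit 44) (nat_lit 1) (nat_lit 1) (nat_lit 0) (nat_lit 1) (nat_lit 0) (nat_lit 344) (nat_lit 365) (nat_lit 191)) (XT.nd (nat_lit 78) (nat_lit 76) (nat_lit 0) (XT.lf (nat_lit 0) (nat_lit 2720166283) (nat_lit 0) (nat_lit 2720166285) (nat_lit 152) (nat_lit 2720166283)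 (nat_lit 42) (nat_lit 3) (nat_lit 42) (nat_lit 1) (nat_lit 44) (nat_lit 1) (nat_lit 345) (nat_lit 365) (nat_lit 190)) (XT.lf (nat_lit 76) (nat_lit 2596522361) (nat_lit 0) (nat_lit 2596522362) (nat_lit 76) (nat_lit 2596522362) (nat_lit 42) (nat_lit 3) (nat_lit 41) (nat_lit 1) (nat_lit 42) (nat_lit 1) (nat_lit 346) (nat_lit 365) (nat_lit 189)))) (XT.nd (nat_lit 78) (nat_lit 228) (nat_lit 0) (XT.lf (nat_lit 0) (nat_lit 7450890255) (nat_lit 0) (nat_lit 0) (nat_lit 0) (nat_lit 0) (nat_lit 41) (nat_lit 1) (nat_lit 1) (nat_lit 0) (nat_lit 1) (nat_lit 0) (nat_lit 347) (nat_lit 365) (nat_lit 188)) (XT.nd (nat_lit 78) (nat_lit 76) (nat_lit 0) (XT.lf (nat_lit 0) (nat_lit 2365361985) (nat_lit 0) (nat_lit 2365361986) (nat_lit 152) (nat_lit 2365361985) (nat_lit 39) (nat_lit 3) (nat_lit 39) (nat_lit 1) (nat_lit 41) (nat_lit 1) (nat_lit 348) (nat_lit 365) (nat_lit 187)) (XT.lf (nat_lit 76) (nat_lit 2257845531)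 (nat_lit 0) (nat_lit 2257845532) (nat_lit 76) (nat_lit 2257845532) (nat_lit 39) (nat_lit 3) (nat_lit 38) (nat_lit 1) (nat_lit 39) (nat_lit 1) (nat_lit 349) (nat_lit 365) (nat_lit 186)))))) (XT.nd (nat_lit 390) (nat_lit 456) (nat_lit 0) (XT.nd (nat_lit 156) (nat_lit 228) (nat_lit 0) (XT.nd (nat_lit 78) (nat_lit 152) (nat_lit 0) (XT.lf (nat_lit 0) (nat_lit 6479035005) (nat_lit 0) (nat_lit 0) (nat_lit 0) (nat_lit 0) (nat_lit 38) (nat_lit 1) (nat_lit 1) (nat_lit 0) (nat_lit 1) (nat_lit 0) (nat_lit 350) (nat_lit 365) (nat_lit 185)) (XT.lf (nat_lit 0) (nat_lit 2056836509) (nat_lit 0) (nat_lit 2056836510) (nat_lit 152) (nat_lit 2056836509) (nat_lit 36) (nat_lit 3) (nat_lit 36) (nat_lit 1) (nat_lit 38) (nat_lit 1) (nat_lit 351) (nat_lit 365) (nat_lit 184))) (XT.nd (nat_lit 78) (nat_lit 152) (nat_lit 0) (XT.lf (nat_lit 76) (nat_lit 1963343940) (nat_lit 0) (nat_lit 1963343941) (nat_lit 76) (nat_lit 1963343941)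 (nat_lit 36) (nat_lit 3) (nat_lit 35) (nat_lit 1) (nat_lit 36) (nat_lit 1) (nat_lit 352) (nat_lit 365) (nat_lit 183)) (XT.nd (nat_lit 78) (nat_lit 152) (nat_lit 0) (XT.lf (nat_lit 0) (nat_lit 5633943482) (nat_lit 0) (nat_lit 0) (nat_lit 0) (nat_lit 0) (nat_lit 35) (nat_lit 1) (nat_lit 1) (nat_lit 0) (nat_lit 1) (nat_lit 0) (nat_lit 353) (nat_lit 365) (nat_lit 182)) (XT.lf (nat_lit 0) (nat_lit 1788553486) (nat_lit 0) (nat_lit 1788553486) (nat_lit 152) (nat_lit 1788553486) (nat_lit 33) (nat_lit 3) (nat_lit 33) (nat_lit 1) (nat_lit 35) (nat_lit 1) (nat_lit 354) (nat_lit 365) (nat_lit 181))))) (XT.nd (nat_lit 234) (nat_lit 228) (nat_lit 0) (XT.nd (nat_lit 78) (nat_lit 152) (nat_lit 0) (XT.lf (nat_lit 76) (nat_lit 1707255600) (nat_lit 0) (nat_lit 1707255601) (nat_lit 76) (nat_lit 1707255601) (nat_lit 33) (nat_lit 3) (nat_lit 32) (nat_lit 1) (nat_lit 33) (nat_lit 1) (nat_lit 355) (nat_lit 365) (nat_lit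 180)) (XT.nd (nat_lit 78) (nat_lit 152) (nat_lit 0) (XT.lf (nat_lit 0) (nat_lit 4899081289) (nat_lit 0) (nat_lit 0) (nat_lit 0) (nat_lit 0) (nat_lit 32) (nat_lit 1) (nat_lit 1) (nat_lit 0) (nat_lit 1) (nat_lit 0) (nat_lit 356) (nat_lit 365) (nat_lit 179)) (XT.lf (nat_lit 0) (nat_lit 1555263901) (nat_lit 0) (nat_lit 1555263901) (nat_lit 152) (nat_lit 1555263901) (nat_lit 30) (nat_lit 3) (nat_lit 30) (nat_lit 1) (nat_lit 32) (nat_lit 1) (nat_lit 357) (nat_lit 365) (nat_lit 178)))) (XT.nd (nat_lit 78) (nat_lit 152) (nat_lit 0) (XT.lf (nat_lit 76) (nat_lit 1484570087) (nat_lit 0) (nat_lit 1484570087) (nat_lit 76) (nat_lit 1484570087) (nat_lit 30) (nat_lit 3) (nat_lit 29) (nat_lit 1) (nat_lit 30) (nat_lit 1) (nat_lit 358) (nat_lit 365) (nat_lit 177)) (XT.nd (nat_lit 78) (nat_lit 152) (nat_lit 0) (XT.lf (nat_lit 0) (nat_lit 4260070686) (nat_lit 0) (nat_lit 0) (nat_lit 0) (nat_lit 0) (nat_lit 29) (nat_lit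 1) (nat_lit 1) (nat_lit 0) (nat_lit 1) (nat_lit 0) (nat_lit 359) (nat_lit 365) (nat_lit 176)) (XT.lf (nat_lit 0) (nat_lit 1352403392) (nat_lit 0) (nat_lit 1352403392) (nat_lit 152) (nat_lit 1352403392) (nat_lit 27) (nat_lit 3) (nat_lit 27) (nat_lit 1) (nat_lit 29) (nat_lit 1) (nat_lit 360) (nat_lit 365) (nat_lit 175))))))))
noncomputable def ec225 : XT := (XT.nd (nat_lit 32604) (nat_lit 0) (nat_lit 12920) (XT.nd (nat_lit 858) (nat_lit 152) (nat_lit 0) (XT.nd (nat_lit 390) (nat_lit 456) (nat_lit 0) (XT.nd (nat_lit 156) (nat_lit 228) (nat_lit 0) (XT.nd (nat_lit 78) (nat_lit 0) (nat_lit 0) (XT.lf (nat_lit 76) (nat_lit 1290930511) (nat_lit 0) (nat_lit 1290930511) (nat_lit 76) (nat_lit 1290930511) (nat_lit 27) (nat_lit 3) (nat_lit 26) (nat_lit 1) (nat_lit 27) (nat_lit 1) (nat_lit 361) (nat_lit 365) (nat_lit 174)) (XT.lf (nat_lit 0) (nat_lit 3704409292) (nat_lit 0) (nat_lit 0) (nat_lit 0) (nat_lit 0)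 (nat_lit 26) (nat_lit 1) (nat_lit 1) (nat_lit 0) (nat_lit 1) (nat_lit 0) (nat_lit 362) (nat_lit 365) (nat_lit 173))) (XT.nd (nat_lit 78) (nat_lit 76) (nat_lit 0) (XT.lf (nat_lit 0) (nat_lit 1176002950) (nat_lit 0) (nat_lit 1176002950) (nat_lit 152) (nat_lit 1176002950) (nat_lit 24) (nat_lit 3) (nat_lit 24) (nat_lit 1) (nat_lit 26) (nat_lit 1) (nat_lit 363) (nat_lit 365) (nat_lit 172)) (XT.nd (nat_lit 78) (nat_lit 0) (nat_lit 0) (XT.lf (nat_lit 76) (nat_lit 1122548270) (nat_lit 0) (nat_lit 1122548270) (nat_lit 76) (nat_lit 1122548270) (nat_lit 24) (nat_lit 3) (nat_lit 23) (nat_lit 1) (nat_lit 24) (nat_lit 1) (nat_lit 364) (nat_lit 365) (nat_lit 171)) (XT.lf (nat_lit 0) (nat_lit 3221225471) (nat_lit 0) (nat_lit 0) (nat_lit 0) (nat_lit 0) (nat_lit 23) (nat_lit 1) (nat_lit 1) (nat_lit 0) (nat_lit 1) (nat_lit 0) (nat_lit 365) (nat_lit 365) (nat_lit 170))))) (XT.nd (nat_lit 234) (nat_lit 228) (nat_lit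 0) (XT.nd (nat_lit 78) (nat_lit 76) (nat_lit 0) (XT.lf (nat_lit 0) (nat_lit 1022611260) (nat_lit 0) (nat_lit 1022611260) (nat_lit 152) (nat_lit 1022611260) (nat_lit 21) (nat_lit 3) (nat_lit 21) (nat_lit 1) (nat_lit 23) (nat_lit 1) (nat_lit 366) (nat_lit 365) (nat_lit 169)) (XT.nd (nat_lit 78) (nat_lit 0) (nat_lit 0) (XT.lf (nat_lit 76) (nat_lit 976128930) (nat_lit 0) (nat_lit 976128930) (nat_lit 76) (nat_lit 976128930) (nat_lit 21) (nat_lit 3) (nat_lit 20) (nat_lit 1) (nat_lit 21) (nat_lit 1) (nat_lit 367) (nat_lit 365) (nat_lit 168)) (XT.lf (nat_lit 0) (nat_lit 2801065627) (nat_lit 0) (nat_lit 0) (nat_lit 0) (nat_lit 0) (nat_lit 20) (nat_lit 1) (nat_lit 1) (nat_lit 0) (nat_lit 1) (nat_lit 0) (nat_lit 368) (nat_lit 365) (nat_lit 167)))) (XT.nd (nat_lit 78) (nat_lit 76) (nat_lit 0) (XT.lf (nat_lit 0) (nat_lit 889227183) (nat_lit 0) (nat_lit 889227183) (nat_lit 152) (nat_lit 889227183) (nat_lit 18)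 (nat_lit 3) (nat_lit 18) (nat_lit 1) (nat_lit 20) (nat_lit 1) (nat_lit 369) (nat_lit 365) (nat_lit 166)) (XT.nd (nat_lit 78) (nat_lit 0) (nat_lit 0) (XT.lf (nat_lit 76) (nat_lit 848807765) (nat_lit 0) (nat_lit 848807766) (nat_lit 76) (nat_lit 848807766) (nat_lit 18) (nat_lit 3) (nat_lit 17) (nat_lit 1) (nat_lit 18) (nat_lit 1) (nat_lit 370) (nat_lit 365) (nat_lit 165)) (XT.lf (nat_lit 0) (nat_lit 2435709241) (nat_lit 0) (nat_lit 0) (nat_lit 0) (nat_lit 0) (nat_lit 17) (nat_lit 1) (nat_lit 1) (nat_lit 0) (nat_lit 1) (nat_lit 0) (nat_lit 371) (nat_lit 365) (nat_lit 164)))))) (XT.nd (nat_lit 31278) (nat_lit 0) (nat_lit 14668) (XT.nd (nat_lit 31044) (nat_lit 0) (nat_lit 15200) (XT.nd (nat_lit 30966) (nat_lit 0) (nat_lit 15200) (XT.lf (nat_lit 0) (nat_lit 773241029) (nat_lit 0) (nat_lit 773241029) (nat_lit 152) (nat_lit 773241029) (nat_lit 15) (nat_lit 3) (nat_lit 15) (nat_lit 1) (nat_lit 17) (nat_lit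 1) (nat_lit 372) (nat_lit 365) (nat_lit 163)) (XT.lf (nat_lit 380) (nat_lit 7115114632124) (nat_lit 0) (nat_lit 6302032143110) (nat_lit 380) (nat_lit 7115114632124) (nat_lit 220) (nat_lit 1) (nat_lit 215) (nat_lit 0) (nat_lit 220) (nat_lit 0) (nat_lit 168) (nat_lit 366) (nat_lit 366))) (XT.nd (nat_lit 78) (nat_lit 0) (nat_lit 76) (XT.lf (nat_lit 380) (nat_lit 26317885661440) (nat_lit 76) (nat_lit 6015576136604) (nat_lit 0) (nat_lit 6015576136605) (nat_lit 220) (nat_lit 1) (nat_lit 216) (nat_lit 1) (nat_lit 215) (nat_lit 0) (nat_lit 169) (nat_lit 366) (nat_lit 365)) (XT.nd (nat_lit 78) (nat_lit 0) (nat_lit 0) (XT.lf (nat_lit 380) (nat_lit 11600773084987) (nat_lit 0) (nat_lit 12622735436283) (nat_lit 304) (nat_lit 11600773084987) (nat_lit 221) (nat_lit 1) (nat_lit 216) (nat_lit 1) (nat_lit 220) (nat_lit 1) (nat_lit 170) (nat_lit 366) (nat_lit 364)) (XT.lf (nat_lit 380) (nat_lit 19917925040963) (nat_lit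 76) (nat_lit 6818038963673) (nat_lit 0) (nat_lit 6818038963673) (nat_lit 221) (nat_lit 1) (nat_lit 217) (nat_lit 1) (nat_lit 216) (nat_lit 1) (nat_lit 171) (nat_lit 366) (nat_lit 363))))) (XT.nd (nat_lit 234) (nat_lit 380) (nat_lit 0) (XT.nd (nat_lit 78) (nat_lit 304) (nat_lit 0) (XT.lf (nat_lit 76) (nat_lit 8057064849542) (nat_lit 0) (nat_lit 15342004111748) (nat_lit 304) (nat_lit 8057064849543) (nat_lit 218) (nat_lit 1) (nat_lit 217) (nat_lit 1) (nat_lit 221) (nat_lit 1) (nat_lit 172) (nat_lit 366) (nat_lit 362)) (XT.nd (nat_lit 78) (nat_lit 0) (nat_lit 0) (XT.lf (nat_lit 380) (nat_lit 12109117752453) (nat_lit 0) (nat_lit 8715910754858) (nat_lit 304) (nat_lit 8715910754858) (nat_lit 218) (nat_lit 1) (nat_lit 213) (nat_lit 1) (nat_lit 217) (nat_lit 1) (nat_lit 173) (nat_lit 366) (nat_lit 361)) (XT.lf (nat_lit 76) (nat_lit 4024937006772) (nat_lit 0) (nat_lit 19750466773061) (nat_lit 380) (nat_lit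 4024937006772) (nat_lit 214) (nat_lit 1) (nat_lit 213) (nat_lit 1) (nat_lit 218) (nat_lit 1) (nat_lit 174) (nat_lit 366) (nat_lit 360)))) (XT.nd (nat_lit 78) (nat_lit 228) (nat_lit 0) (XT.lf (nat_lit 228) (nat_lit 3622348359593) (nat_lit 0) (nat_lit 11273665453064) (nat_lit 152) (nat_lit 11273665453065) (nat_lit 214) (nat_lit 1) (nat_lit 211) (nat_lit 1) (nat_lit 213) (nat_lit 1) (nat_lit 175) (nat_lit 366) (nat_lit 359)) (XT.nd (nat_lit 78) (nat_lit 0) (nat_lit 0) (XT.lf (nat_lit 228) (nat_lit 24342135397657) (nat_lit 0) (nat_lit 190988665263) (nat_lit 152) (nat_lit 190988665263) (nat_lit 211) (nat_lit 1) (nat_lit 208) (nat_lit 1) (nat_lit 210) (nat_lit 1) (nat_lit 176) (nat_lit 366) (nat_lit 358)) (XT.lf (nat_lit 76) (nat_lit 9352404009168) (nat_lit 0) (nat_lit 4591532543438) (nat_lit 228) (nat_lit 9352404009168) (nat_lit 209) (nat_lit 1) (nat_lit 208) (nat_lit 1) (nat_lit 211) (nat_lit 1) (nat_lit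 177) (nat_lit 366) (nat_lit 357))))))) (XT.nd (nat_lit 858) (nat_lit 912) (nat_lit 0) (XT.nd (nat_lit 390) (nat_lit 380) (nat_lit 0) (XT.nd (nat_lit 156) (nat_lit 304) (nat_lit 0) (XT.nd (nat_lit 78) (nat_lit 0) (nat_lit 0) (XT.lf (nat_lit 228) (nat_lit 13594078185529) (nat_lit 0) (nat_lit 4216749418507) (nat_lit 152) (nat_lit 4216749418507) (nat_lit 209) (nat_lit 1) (nat_lit 206) (nat_lit 1) (nat_lit 208) (nat_lit 1) (nat_lit 178) (nat_lit 366) (nat_lit 356)) (XT.lf (nat_lit 76) (nat_lit 4251314115490) (nat_lit 0) (nat_lit 12337240880520) (nat_lit 228) (nat_lit 4251314115490) (nat_lit 207) (nat_lit 1) (nat_lit 206) (nat_lit 1) (nat_lit 209) (nat_lit 1) (nat_lit 179) (nat_lit 366) (nat_lit 355))) (XT.nd (nat_lit 78) (nat_lit 228) (nat_lit 0) (XT.lf (nat_lit 152) (nat_lit 3514496768031) (nat_lit 0) (nat_lit 8109718579344) (nat_lit 76) (nat_lit 8109718579344) (nat_lit 207) (nat_lit 1) (nat_lit 205)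 (nat_lit 1) (nat_lit 206) (nat_lit 1) (nat_lit 180) (nat_lit 366) (nat_lit 354)) (XT.nd (nat_lit 78) (nat_lit 0) (nat_lit 0) (XT.lf (nat_lit 228) (nat_lit 17792448544519) (nat_lit 0) (nat_lit 472674605873) (nat_lit 152) (nat_lit 472674605873) (nat_lit 205) (nat_lit 1) (nat_lit 202) (nat_lit 1) (nat_lit 204) (nat_lit 1) (nat_lit 181) (nat_lit 366) (nat_lit 353)) (XT.lf (nat_lit 76) (nat_lit 6226974320109) (nat_lit 0) (nat_lit 5288149758569) (nat_lit 228) (nat_lit 6226974320109) (nat_lit 203) (nat_lit 1) (nat_lit 202) (nat_lit 1) (nat_lit 205) (nat_lit 1) (nat_lit 182) (nat_lit 366) (nat_lit 352))))) (XT.nd (nat_lit 234) (nat_lit 152) (nat_lit 0) (XT.nd (nat_lit 78) (nat_lit 152) (nat_lit 0) (XT.lf (nat_lit 152) (nat_lit 7571404366822) (nat_lit 0) (nat_lit 4636757918586) (nat_lit 76) (nat_lit 4636757918586) (nat_lit 203) (nat_lit 1) (nat_lit 201) (nat_lit 1) (nat_lit 202) (nat_lit 1) (nat_lit 183)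 (nat_lit 366) (nat_lit 351)) (XT.nd (nat_lit 78) (nat_lit 152) (nat_lit 0) (XT.lf (nat_lit 0) (nat_lit 1482585314607) (nat_lit 0) (nat_lit 13052567266467) (nat_lit 152) (nat_lit 1482585314607) (nat_lit 201) (nat_lit 3) (nat_lit 201) (nat_lit 1) (nat_lit 203) (nat_lit 1) (nat_lit 184) (nat_lit 366) (nat_lit 350)) (XT.lf (nat_lit 76) (nat_lit 6861398583436) (nat_lit 0) (nat_lit 1488118738486) (nat_lit 152) (nat_lit 6861398583436) (nat_lit 200) (nat_lit 1) (nat_lit 199) (nat_lit 1) (nat_lit 201) (nat_lit 1) (nat_lit 185) (nat_lit 366) (nat_lit 349)))) (XT.nd (nat_lit 78) (nat_lit 76) (nat_lit 0) (XT.lf (nat_lit 152) (nat_lit 9165478875274) (nat_lit 0) (nat_lit 2651081388980) (nat_lit 76) (nat_lit 2651081388980) (nat_lit 200) (nat_lit 1) (nat_lit 198) (nat_lit 1) (nat_lit 199) (nat_lit 1) (nat_lit 186) (nat_lit 366) (nat_lit 348)) (XT.nd (nat_lit 78) (nat_lit 76) (nat_lit 0) (XT.lf (nat_lit 0) (nat_lit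 2383071014653) (nat_lit 0) (nat_lit 8998245747081) (nat_lit 152) (nat_lit 2383071014653) (nat_lit 198) (nat_lit 3) (nat_lit 198) (nat_lit 1) (nat_lit 200) (nat_lit 1) (nat_lit 187) (nat_lit 366) (nat_lit 347)) (XT.lf (nat_lit 76) (nat_lit 531620558143) (nat_lit 0) (nat_lit 6283946412428) (nat_lit 76) (nat_lit 6283946412428) (nat_lit 198) (nat_lit 3) (nat_lit 197) (nat_lit 1) (nat_lit 198) (nat_lit 1) (nat_lit 188) (nat_lit 366) (nat_lit 346)))))) (XT.nd (nat_lit 468) (nat_lit 456) (nat_lit 0) (XT.nd (nat_lit 234) (nat_lit 228) (nat_lit 0) (XT.nd (nat_lit 78) (nat_lit 76) (nat_lit 0) (XT.lf (nat_lit 152) (nat_lit 9446047820306) (nat_lit 0) (nat_lit 1515764388481) (nat_lit 76) (nat_lit 1515764388481) (nat_lit 197) (nat_lit 1) (nat_lit 195) (nat_lit 1) (nat_lit 196) (nat_lit 1) (nat_lit 189) (nat_lit 366) (nat_lit 345)) (XT.nd (nat_lit 78) (nat_lit 76) (nat_lit 0) (XT.lf (nat_lit 0) (nat_lit 2697657325504)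 (nat_lit 0) (nat_lit 6479904948935) (nat_lit 152) (nat_lit 2697657325504) (nat_lit 195) (nat_lit 3) (nat_lit 195) (nat_lit 1) (nat_lit 197) (nat_lit 1) (nat_lit 190) (nat_lit 366) (nat_lit 344)) (XT.lf (nat_lit 76) (nat_lit 1578396848013) (nat_lit 0) (nat_lit 4867307824909) (nat_lit 76) (nat_lit 4867307824909) (nat_lit 195) (nat_lit 3) (nat_lit 194) (nat_lit 1) (nat_lit 195) (nat_lit 1) (nat_lit 191) (nat_lit 366) (nat_lit 343)))) (XT.nd (nat_lit 78) (nat_lit 76) (nat_lit 0) (XT.lf (nat_lit 152) (nat_lit 9057900260985) (nat_lit 0) (nat_lit 866643208668) (nat_lit 76) (nat_lit 866643208668) (nat_lit 194) (nat_lit 1) (nat_lit 192) (nat_lit 1) (nat_lit 193) (nat_lit 1) (nat_lit 192) (nat_lit 366) (nat_lit 342)) (XT.nd (nat_lit 78) (nat_lit 76) (nat_lit 0) (XT.lf (nat_lit 0) (nat_lit 2703375843005) (nat_lit 0) (nat_lit 4865888197338) (nat_lit 152) (nat_lit 2703375843005) (nat_lit 192) (nat_lit 3) (nat_lit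 192) (nat_lit 1) (nat_lit 194) (nat_lit 1) (nat_lit 193) (nat_lit 366) (nat_lit 341)) (XT.lf (nat_lit 76) (nat_lit 2010663145442) (nat_lit 0) (nat_lit 3891108670949) (nat_lit 76) (nat_lit 3891108670949) (nat_lit 192) (nat_lit 3) (nat_lit 191) (nat_lit 1) (nat_lit 192) (nat_lit 1) (nat_lit 194) (nat_lit 366) (nat_lit 340))))) (XT.nd (nat_lit 234) (nat_lit 228) (nat_lit 0) (XT.nd (nat_lit 78) (nat_lit 76) (nat_lit 0) (XT.lf (nat_lit 152) (nat_lit 8358963665258) (nat_lit 0) (nat_lit 495506067327) (nat_lit 76) (nat_lit 495506067327) (nat_lit 191) (nat_lit 1) (nat_lit 189) (nat_lit 1) (nat_lit 190) (nat_lit 1) (nat_lit 195) (nat_lit 366) (nat_lit 339)) (XT.nd (nat_lit 78) (nat_lit 76) (nat_lit 0) (XT.lf (nat_lit 0) (nat_lit 2555213052861) (nat_lit 0) (nat_lit 3791636510086) (nat_lit 152) (nat_lit 2555213052861) (nat_lit 189) (nat_lit 3) (nat_lit 189) (nat_lit 1) (nat_lit 191) (nat_lit 1) (nat_lit 196)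 (nat_lit 366) (nat_lit 338)) (XT.lf (nat_lit 76) (nat_lit 2113263722468) (nat_lit 0) (nat_lit 3188414554837) (nat_lit 76) (nat_lit 3188414554837) (nat_lit 189) (nat_lit 3) (nat_lit 188) (nat_lit 1) (nat_lit 189) (nat_lit 1) (nat_lit 197) (nat_lit 366) (nat_lit 337)))) (XT.nd (nat_lit 78) (nat_lit 76) (nat_lit 0) (XT.lf (nat_lit 152) (nat_lit 7544551381737) (nat_lit 0) (nat_lit 283307202205) (nat_lit 76) (nat_lit 283307202205) (nat_lit 188) (nat_lit 1) (nat_lit 186) (nat_lit 1) (nat_lit 187) (nat_lit 1) (nat_lit 198) (nat_lit 366) (nat_lit 336)) (XT.nd (nat_lit 78) (nat_lit 76) (nat_lit 0) (XT.lf (nat_lit 0) (nat_lit 2338820174038) (nat_lit 0) (nat_lit 3045749298634) (nat_lit 152) (nat_lit 2338820174038) (nat_lit 186) (nat_lit 3) (nat_lit 186) (nat_lit 1) (nat_lit 188) (nat_lit 1) (nat_lit 199) (nat_lit 366) (nat_lit 335)) (XT.lf (nat_lit 76) (nat_lit 2046231081912) (nat_lit 0) (nat_lit 2660952059822)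 (nat_lit 76) (nat_lit 2660952059822) (nat_lit 186) (nat_lit 3) (nat_lit 185) (nat_lit 1) (nat_lit 186) (nat_lit 1) (nat_lit 200) (nat_lit 366) (nat_lit 334))))))))
noncomputable def ec226 : XT := (XT.nd (nat_lit 1716) (nat_lit 1596) (nat_lit 0) (XT.nd (nat_lit 858) (nat_lit 912) (nat_lit 0) (XT.nd (nat_lit 390) (nat_lit 456) (nat_lit 0) (XT.nd (nat_lit 156) (nat_lit 228) (nat_lit 0) (XT.nd (nat_lit 78) (nat_lit 0) (nat_lit 0) (XT.lf (nat_lit 152) (nat_lit 6718218935862) (nat_lit 0) (nat_lit 161981812360) (nat_lit 76) (nat_lit 161981812360) (nat_lit 185) (nat_lit 1) (nat_lit 183) (nat_lit 1) (nat_lit 184) (nat_lit 1) (nat_lit 201) (nat_lit 366) (nat_lit 333)) (XT.lf (nat_lit 0) (nat_lit 2100592214828) (nat_lit 0) (nat_lit 2504781236220) (nat_lit 152) (nat_lit 2100592214828) (nat_lit 183) (nat_lit 3) (nat_lit 183) (nat_lit 1) (nat_lit 185) (nat_lit 1) (nat_lit 202) (nat_lit 366) (nat_lit 332))) (XT.nd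 (nat_lit 78) (nat_lit 152) (nat_lit 0) (XT.lf (nat_lit 76) (nat_lit 1898605079532) (nat_lit 0) (nat_lit 2250073793785) (nat_lit 76) (nat_lit 2250073793786) (nat_lit 183) (nat_lit 3) (nat_lit 182) (nat_lit 1) (nat_lit 183) (nat_lit 1) (nat_lit 203) (nat_lit 366) (nat_lit 331)) (XT.nd (nat_lit 78) (nat_lit 0) (nat_lit 0) (XT.lf (nat_lit 152) (nat_lit 5932117565366) (nat_lit 0) (nat_lit 92613626944) (nat_lit 76) (nat_lit 92613626944) (nat_lit 182) (nat_lit 1) (nat_lit 180) (nat_lit 1) (nat_lit 181) (nat_lit 1) (nat_lit 204) (nat_lit 366) (nat_lit 330)) (XT.lf (nat_lit 0) (nat_lit 1864815363855) (nat_lit 0) (nat_lit 2095911748669) (nat_lit 152) (nat_lit 1864815363855) (nat_lit 180) (nat_lit 3) (nat_lit 180) (nat_lit 1) (nat_lit 182) (nat_lit 1) (nat_lit 205) (nat_lit 366) (nat_lit 329))))) (XT.nd (nat_lit 234) (nat_lit 228) (nat_lit 0) (XT.nd (nat_lit 78) (nat_lit 152) (nat_lit 0) (XT.lf (nat_lit 76)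 (nat_lit 1719156066074) (nat_lit 0) (nat_lit 1920109444173) (nat_lit 76) (nat_lit 1920109444173) (nat_lit 180) (nat_lit 3) (nat_lit 179) (nat_lit 1) (nat_lit 180) (nat_lit 1) (nat_lit 206) (nat_lit 366) (nat_lit 328)) (XT.nd (nat_lit 78) (nat_lit 0) (nat_lit 0) (XT.lf (nat_lit 152) (nat_lit 5209928414005) (nat_lit 0) (nat_lit 52952141791) (nat_lit 76) (nat_lit 52952141791) (nat_lit 179) (nat_lit 1) (nat_lit 177) (nat_lit 1) (nat_lit 178) (nat_lit 1) (nat_lit 207) (nat_lit 366) (nat_lit 327)) (XT.lf (nat_lit 0) (nat_lit 1643427234420) (nat_lit 0) (nat_lit 1775557342482) (nat_lit 152) (nat_lit 1643427234420) (nat_lit 177) (nat_lit 3) (nat_lit 177) (nat_lit 1) (nat_lit 179) (nat_lit 1) (nat_lit 208) (nat_lit 366) (nat_lit 326)))) (XT.nd (nat_lit 78) (nat_lit 152) (nat_lit 0) (XT.lf (nat_lit 76) (nat_lit 1533909103721) (nat_lit 0) (nat_lit 1648804849862) (nat_lit 76) (nat_lit 1648804849862) (nat_lit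 177) (nat_lit 3) (nat_lit 176) (nat_lit 1) (nat_lit 177) (nat_lit 1) (nat_lit 209) (nat_lit 366) (nat_lit 325)) (XT.nd (nat_lit 78) (nat_lit 0) (nat_lit 0) (XT.lf (nat_lit 152) (nat_lit 4559855169378) (nat_lit 0) (nat_lit 30275558930) (nat_lit 76) (nat_lit 30275558930) (nat_lit 176) (nat_lit 1) (nat_lit 174) (nat_lit 1) (nat_lit 175) (nat_lit 1) (nat_lit 210) (nat_lit 366) (nat_lit 324)) (XT.lf (nat_lit 0) (nat_lit 1441559201005) (nat_lit 0) (nat_lit 1517105019130) (nat_lit 152) (nat_lit 1441559201005) (nat_lit 174) (nat_lit 3) (nat_lit 174) (nat_lit 1) (nat_lit 176) (nat_lit 1) (nat_lit 211) (nat_lit 366) (nat_lit 323)))))) (XT.nd (nat_lit 390) (nat_lit 456) (nat_lit 0) (XT.nd (nat_lit 156) (nat_lit 228) (nat_lit 0) (XT.nd (nat_lit 78) (nat_lit 152) (nat_lit 0) (XT.lf (nat_lit 76) (nat_lit 1356127111335) (nat_lit 0) (nat_lit 1421819127095) (nat_lit 76) (nat_lit 1421819127095) (nat_lit 174) (nat_lit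 3) (nat_lit 173) (nat_lit 1) (nat_lit 174) (nat_lit 1) (nat_lit 212) (nat_lit 366) (nat_lit 322)) (XT.lf (nat_lit 152) (nat_lit 3981948244146) (nat_lit 0) (nat_lit 17310149080) (nat_lit 76) (nat_lit 17310149080) (nat_lit 173) (nat_lit 1) (nat_lit 171) (nat_lit 1) (nat_lit 172) (nat_lit 1) (nat_lit 213) (nat_lit 366) (nat_lit 321))) (XT.nd (nat_lit 78) (nat_lit 228) (nat_lit 0) (XT.lf (nat_lit 0) (nat_lit 1260672104784) (nat_lit 0) (nat_lit 1303865671488) (nat_lit 152) (nat_lit 1260672104784) (nat_lit 171) (nat_lit 3) (nat_lit 171) (nat_lit 1) (nat_lit 173) (nat_lit 1) (nat_lit 214) (nat_lit 366) (nat_lit 320)) (XT.nd (nat_lit 78) (nat_lit 152) (nat_lit 0) (XT.lf (nat_lit 76) (nat_lit 1191987123288) (nat_lit 0) (nat_lit 1229546746508) (nat_lit 76) (nat_lit 1229546746508) (nat_lit 171) (nat_lit 3) (nat_lit 170) (nat_lit 1) (nat_lit 171) (nat_lit 1) (nat_lit 215) (nat_lit 366) (nat_lit 319)) (XT.lf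 (nat_lit 152) (nat_lit 3472201616391) (nat_lit 0) (nat_lit 9897133918) (nat_lit 76) (nat_lit 9897133918) (nat_lit 170) (nat_lit 1) (nat_lit 168) (nat_lit 1) (nat_lit 169) (nat_lit 1) (nat_lit 216) (nat_lit 366) (nat_lit 318))))) (XT.nd (nat_lit 234) (nat_lit 228) (nat_lit 0) (XT.nd (nat_lit 78) (nat_lit 228) (nat_lit 0) (XT.lf (nat_lit 0) (nat_lit 1100320283100) (nat_lit 0) (nat_lit 1125016345052) (nat_lit 152) (nat_lit 1100320283100) (nat_lit 168) (nat_lit 3) (nat_lit 168) (nat_lit 1) (nat_lit 170) (nat_lit 1) (nat_lit 217) (nat_lit 366) (nat_lit 317)) (XT.nd (nat_lit 78) (nat_lit 152) (nat_lit 0) (XT.lf (nat_lit 76) (nat_lit 1043798198571) (nat_lit 0) (nat_lit 1065273035051) (nat_lit 76) (nat_lit 1065273035051) (nat_lit 168) (nat_lit 3) (nat_lit 167) (nat_lit 1) (nat_lit 168) (nat_lit 1) (nat_lit 218) (nat_lit 366) (nat_lit 316)) (XT.lf (nat_lit 152) (nat_lit 3024816268757) (nat_lit 0) (nat_lit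 5658718439) (nat_lit 76) (nat_lit 5658718440) (nat_lit 167) (nat_lit 1) (nat_lit 165) (nat_lit 1) (nat_lit 166) (nat_lit 1) (nat_lit 219) (nat_lit 366) (nat_lit 315)))) (XT.nd (nat_lit 78) (nat_lit 228) (nat_lit 0) (XT.lf (nat_lit 0) (nat_lit 959135097890) (nat_lit 0) (nat_lit 973255151464) (nat_lit 152) (nat_lit 959135097890) (nat_lit 165) (nat_lit 3) (nat_lit 165) (nat_lit 1) (nat_lit 167) (nat_lit 1) (nat_lit 220) (nat_lit 366) (nat_lit 314)) (XT.nd (nat_lit 78) (nat_lit 152) (nat_lit 0) (XT.lf (nat_lit 76) (nat_lit 911817348757) (nat_lit 0) (nat_lit 924095656212) (nat_lit 76) (nat_lit 924095656212) (nat_lit 165) (nat_lit 3) (nat_lit 164) (nat_lit 1) (nat_lit 165) (nat_lit 1) (nat_lit 221) (nat_lit 366) (nat_lit 313)) (XT.lf (nat_lit 152) (nat_lit 2633425671361) (nat_lit 0) (nat_lit 3235390633) (nat_lit 76) (nat_lit 3235390633) (nat_lit 164) (nat_lit 1) (nat_lit 162) (nat_lit 1) (nat_lit 163)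 (nat_lit 1) (nat_lit 222) (nat_lit 366) (nat_lit 312))))))) (XT.nd (nat_lit 858) (nat_lit 836) (nat_lit 0) (XT.nd (nat_lit 390) (nat_lit 456) (nat_lit 0) (XT.nd (nat_lit 156) (nat_lit 228) (nat_lit 0) (XT.nd (nat_lit 78) (nat_lit 76) (nat_lit 0) (XT.lf (nat_lit 0) (nat_lit 835365478951) (nat_lit 0) (nat_lit 843438665410) (nat_lit 152) (nat_lit 835365478951) (nat_lit 162) (nat_lit 3) (nat_lit 162) (nat_lit 1) (nat_lit 164) (nat_lit 1) (nat_lit 223) (nat_lit 366) (nat_lit 311)) (XT.lf (nat_lit 76) (nat_lit 795266998956) (nat_lit 0) (nat_lit 802287161095) (nat_lit 76) (nat_lit 802287161095) (nat_lit 162) (nat_lit 3) (nat_lit 161) (nat_lit 1) (nat_lit 162) (nat_lit 1) (nat_lit 224) (nat_lit 366) (nat_lit 310))) (XT.nd (nat_lit 78) (nat_lit 76) (nat_lit 0) (XT.lf (nat_lit 152) (nat_lit 2291736763651) (nat_lit 0) (nat_lit 1849845095) (nat_lit 76) (nat_lit 1849845095) (nat_lit 161) (nat_lit 1) (nat_lit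 159) (nat_lit 1) (nat_lit 160) (nat_lit 1) (nat_lit 225) (nat_lit 366) (nat_lit 309)) (XT.nd (nat_lit 78) (nat_lit 76) (nat_lit 0) (XT.lf (nat_lit 0) (nat_lit 727168031472) (nat_lit 0) (nat_lit 731783902033) (nat_lit 152) (nat_lit 727168031472) (nat_lit 159) (nat_lit 3) (nat_lit 159) (nat_lit 1) (nat_lit 161) (nat_lit 1) (nat_lit 226) (nat_lit 366) (nat_lit 308)) (XT.lf (nat_lit 76) (nat_lit 692898635955) (nat_lit 0) (nat_lit 696912436442) (nat_lit 76) (nat_lit 696912436442) (nat_lit 159) (nat_lit 3) (nat_lit 158) (nat_lit 1) (nat_lit 159) (nat_lit 1) (nat_lit 227) (nat_lit 366) (nat_lit 307))))) (XT.nd (nat_lit 234) (nat_lit 228) (nat_lit 0) (XT.nd (nat_lit 78) (nat_lit 76) (nat_lit 0) (XT.lf (nat_lit 152) (nat_lit 1993844531812) (nat_lit 0) (nat_lit 1057654937) (nat_lit 76) (nat_lit 1057654937) (nat_lit 158) (nat_lit 1) (nat_lit 156) (nat_lit 1) (nat_lit 157) (nat_lit 1) (nat_lit 228) (nat_lit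 366) (nat_lit 306)) (XT.nd (nat_lit 78) (nat_lit 76) (nat_lit 0) (XT.lf (nat_lit 0) (nat_lit 632756427848) (nat_lit 0) (nat_lit 635395566822) (nat_lit 152) (nat_lit 632756427848) (nat_lit 156) (nat_lit 3) (nat_lit 156) (nat_lit 1) (nat_lit 158) (nat_lit 1) (nat_lit 229) (nat_lit 366) (nat_lit 305)) (XT.lf (nat_lit 76) (nat_lit 603299346747) (nat_lit 0) (nat_lit 605594250202) (nat_lit 76) (nat_lit 605594250202) (nat_lit 156) (nat_lit 3) (nat_lit 155) (nat_lit 1) (nat_lit 156) (nat_lit 1) (nat_lit 230) (nat_lit 366) (nat_lit 304)))) (XT.nd (nat_lit 78) (nat_lit 76) (nat_lit 0) (XT.lf (nat_lit 152) (nat_lit 1734366733706) (nat_lit 0) (nat_lit 604717643) (nat_lit 76) (nat_lit 604717643) (nat_lit 155) (nat_lit 1) (nat_lit 153) (nat_lit 1) (nat_lit 154) (nat_lit 1) (nat_lit 231) (nat_lit 366) (nat_lit 303)) (XT.nd (nat_lit 78) (nat_lit 76) (nat_lit 0) (XT.lf (nat_lit 0) (nat_lit 550472494128) (nat_lit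 0) (nat_lit 551981430402) (nat_lit 152) (nat_lit 550472494128) (nat_lit 153) (nat_lit 3) (nat_lit 153) (nat_lit 1) (nat_lit 155) (nat_lit 1) (nat_lit 232) (nat_lit 366) (nat_lit 302)) (XT.lf (nat_lit 76) (nat_lit 525053405456) (nat_lit 0) (nat_lit 526365523955) (nat_lit 76) (nat_lit 526365523955) (nat_lit 153) (nat_lit 3) (nat_lit 152) (nat_lit 1) (nat_lit 153) (nat_lit 1) (nat_lit 233) (nat_lit 366) (nat_lit 301)))))) (XT.nd (nat_lit 390) (nat_lit 456) (nat_lit 0) (XT.nd (nat_lit 156) (nat_lit 228) (nat_lit 0) (XT.nd (nat_lit 78) (nat_lit 0) (nat_lit 0) (XT.lf (nat_lit 152) (nat_lit 1508481679858) (nat_lit 0) (nat_lit 345749275) (nat_lit 76) (nat_lit 345749275) (nat_lit 152) (nat_lit 1) (nat_lit 150) (nat_lit 1) (nat_lit 151) (nat_lit 1) (nat_lit 234) (nat_lit 366) (nat_lit 300)) (XT.lf (nat_lit 0) (nat_lit 478814394115) (nat_lit 0) (nat_lit 479677133328) (nat_lit 152) (nat_lit 478814394115) (nat_lit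 150) (nat_lit 3) (nat_lit 150) (nat_lit 1) (nat_lit 152) (nat_lit 1) (nat_lit 235) (nat_lit 366) (nat_lit 299))) (XT.nd (nat_lit 78) (nat_lit 152) (nat_lit 0) (XT.lf (nat_lit 76) (nat_lit 456822767713) (nat_lit 0) (nat_lit 457572975724) (nat_lit 76) (nat_lit 457572975724) (nat_lit 150) (nat_lit 3) (nat_lit 149) (nat_lit 1) (nat_lit 150) (nat_lit 1) (nat_lit 236) (nat_lit 366) (nat_lit 298)) (XT.nd (nat_lit 78) (nat_lit 0) (nat_lit 0) (XT.lf (nat_lit 152) (nat_lit 1311915705779) (nat_lit 0) (nat_lit 197683270) (nat_lit 76) (nat_lit 197683270) (nat_lit 149) (nat_lit 1) (nat_lit 147) (nat_lit 1) (nat_lit 148) (nat_lit 1) (nat_lit 237) (nat_lit 366) (nat_lit 297)) (XT.lf (nat_lit 0) (nat_lit 416441909079) (nat_lit 0) (nat_lit 416935183024) (nat_lit 152) (nat_lit 416441909079) (nat_lit 147) (nat_lit 3) (nat_lit 147) (nat_lit 1) (nat_lit 149) (nat_lit 1) (nat_lit 238) (nat_lit 366) (nat_lit 296)))))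 (XT.nd (nat_lit 234) (nat_lit 228) (nat_lit 0) (XT.nd (nat_lit 78) (nat_lit 152) (nat_lit 0) (XT.lf (nat_lit 76) (nat_lit 397382751435) (nat_lit 0) (nat_lit 397811685300) (nat_lit 76) (nat_lit 397811685300) (nat_lit 147) (nat_lit 3) (nat_lit 146) (nat_lit 1) (nat_lit 147) (nat_lit 1) (nat_lit 239) (nat_lit 366) (nat_lit 295)) (XT.nd (nat_lit 78) (nat_lit 0) (nat_lit 0) (XT.lf (nat_lit 152) (nat_lit 1140906331769) (nat_lit 0) (nat_lit 113026051) (nat_lit 76) (nat_lit 113026051) (nat_lit 146) (nat_lit 1) (nat_lit 144) (nat_lit 1) (nat_lit 145) (nat_lit 1) (nat_lit 240) (nat_lit 366) (nat_lit 294)) (XT.lf (nat_lit 0) (nat_lit 362170035036) (nat_lit 0) (nat_lit 362452066015) (nat_lit 152) (nat_lit 362170035036) (nat_lit 144) (nat_lit 3) (nat_lit 144) (nat_lit 1) (nat_lit 146) (nat_lit 1) (nat_lit 241) (nat_lit 366) (nat_lit 293)))) (XT.nd (nat_lit 78) (nat_lit 152) (nat_lit 0) (XT.lf (nat_lit 76) (nat_lit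 345633444253) (nat_lit 0) (nat_lit 345878688582) (nat_lit 76) (nat_lit 345878688582) (nat_lit 144) (nat_lit 3) (nat_lit 143) (nat_lit 1) (nat_lit 144) (nat_lit 1) (nat_lit 242) (nat_lit 366) (nat_lit 292)) (XT.nd (nat_lit 78) (nat_lit 0) (nat_lit 0) (XT.lf (nat_lit 152) (nat_lit 992155392929) (nat_lit 0) (nat_lit 64623011) (nat_lit 76) (nat_lit 64623011) (nat_lit 143) (nat_lit 1) (nat_lit 141) (nat_lit 1) (nat_lit 142) (nat_lit 1) (nat_lit 243) (nat_lit 366) (nat_lit 291)) (XT.lf (nat_lit 0) (nat_lit 314957129440) (nat_lit 0) (nat_lit 315118381567) (nat_lit 152) (nat_lit 314957129440) (nat_lit 141) (nat_lit 3) (nat_lit 141) (nat_lit 1) (nat_lit 143) (nat_lit 1) (nat_lit 244) (nat_lit 366) (nat_lit 290))))))))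
noncomputable def ec227 : XT := (XT.nd (nat_lit 1716) (nat_lit 1748) (nat_lit 0) (XT.nd (nat_lit 858) (nat_lit 760) (nat_lit 0) (XT.nd (nat_lit 390) (nat_lit 456) (nat_lit 0) (XT.nd (nat_lit 156) (nat_lit 228) (nat_lit 0) (XT.nd (nat_lit 78) (nat_lit 152) (nat_lit 0) (XT.lf (nat_lit 76) (nat_lit 300598405604) (nat_lit 0) (nat_lit 300738624845) (nat_lit 76) (nat_lit 300738624845) (nat_lit 141) (nat_lit 3) (nat_lit 140) (nat_lit 1) (nat_lit 141) (nat_lit 1) (nat_lit 245) (nat_lit 366) (nat_lit 289)) (XT.lf (nat_lit 152) (nat_lit 862779800668) (nat_lit 0) (nat_lit 36948416) (nat_lit 76) (nat_lit 36948416) (nat_lit 140) (nat_lit 1) (nat_lit 138) (nat_lit 1) (nat_lit 139) (nat_lit 1) (nat_lit 246) (nat_lit 366) (nat_lit 288))) (XT.nd (nat_lit 78) (nat_lit 228) (nat_lit 0) (XT.lf (nat_lit 0) (nat_lit 273891010068) (nat_lit 0) (nat_lit 273983206495) (nat_lit 152) (nat_lit 273891010068) (nat_lit 138) (nat_lit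 3) (nat_lit 138) (nat_lit 1) (nat_lit 140) (nat_lit 1) (nat_lit 247) (nat_lit 366) (nat_lit 287)) (XT.nd (nat_lit 78) (nat_lit 152) (nat_lit 0) (XT.lf (nat_lit 76) (nat_lit 261417124517) (nat_lit 0) (nat_lit 261497295324) (nat_lit 76) (nat_lit 261497295324) (nat_lit 138) (nat_lit 3) (nat_lit 137) (nat_lit 1) (nat_lit 138) (nat_lit 1) (nat_lit 248) (nat_lit 366) (nat_lit 286)) (XT.lf (nat_lit 152) (nat_lit 750263877027) (nat_lit 0) (nat_lit 21125377) (nat_lit 76) (nat_lit 21125377) (nat_lit 137) (nat_lit 1) (nat_lit 135) (nat_lit 1) (nat_lit 136) (nat_lit 1) (nat_lit 249) (nat_lit 366) (nat_lit 285))))) (XT.nd (nat_lit 234) (nat_lit 228) (nat_lit 0) (XT.nd (nat_lit 78) (nat_lit 228) (nat_lit 0) (XT.lf (nat_lit 0) (nat_lit 238174812283) (nat_lit 0) (nat_lit 238227525889) (nat_lit 152) (nat_lit 238174812283) (nat_lit 135) (nat_lit 3) (nat_lit 135) (nat_lit 1) (nat_lit 137) (nat_lit 1) (nat_lit 250)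 (nat_lit 366) (nat_lit 284)) (XT.nd (nat_lit 78) (nat_lit 152) (nat_lit 0) (XT.lf (nat_lit 76) (nat_lit 227334794173) (nat_lit 0) (nat_lit 227380632092) (nat_lit 76) (nat_lit 227380632092) (nat_lit 135) (nat_lit 3) (nat_lit 134) (nat_lit 1) (nat_lit 135) (nat_lit 1) (nat_lit 251) (nat_lit 366) (nat_lit 283)) (XT.lf (nat_lit 152) (nat_lit 652415133492) (nat_lit 0) (nat_lit 12078502) (nat_lit 76) (nat_lit 12078502) (nat_lit 134) (nat_lit 1) (nat_lit 132) (nat_lit 1) (nat_lit 133) (nat_lit 1) (nat_lit 252) (nat_lit 366) (nat_lit 282)))) (XT.nd (nat_lit 78) (nat_lit 228) (nat_lit 0) (XT.lf (nat_lit 0) (nat_lit 207113516148) (nat_lit 0) (nat_lit 207143655323) (nat_lit 152) (nat_lit 207113516148) (nat_lit 132) (nat_lit 3) (nat_lit 132) (nat_lit 1) (nat_lit 134) (nat_lit 1) (nat_lit 253) (nat_lit 366) (nat_lit 281)) (XT.nd (nat_lit 78) (nat_lit 152) (nat_lit 0) (XT.lf (nat_lit 76) (nat_lit 197691323602)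 (nat_lit 0) (nat_lit 197717531581) (nat_lit 76) (nat_lit 197717531581) (nat_lit 132) (nat_lit 3) (nat_lit 131) (nat_lit 1) (nat_lit 132) (nat_lit 1) (nat_lit 254) (nat_lit 366) (nat_lit 280)) (XT.lf (nat_lit 152) (nat_lit 567324232440) (nat_lit 0) (nat_lit 6905923) (nat_lit 76) (nat_lit 6905923) (nat_lit 131) (nat_lit 1) (nat_lit 129) (nat_lit 1) (nat_lit 130) (nat_lit 1) (nat_lit 255) (nat_lit 366) (nat_lit 279)))))) (XT.nd (nat_lit 390) (nat_lit 456) (nat_lit 0) (XT.nd (nat_lit 156) (nat_lit 228) (nat_lit 0) (XT.nd (nat_lit 78) (nat_lit 76) (nat_lit 0) (XT.lf (nat_lit 0) (nat_lit 180101559156) (nat_lit 0) (nat_lit 180118791328) (nat_lit 152) (nat_lit 180101559156) (nat_lit 129) (nat_lit 3) (nat_lit 129) (nat_lit 1) (nat_lit 131) (nat_lit 1) (nat_lit 256) (nat_lit 366) (nat_lit 278)) (XT.lf (nat_lit 76) (nat_lit 171910583892) (nat_lit 0) (nat_lit 171925568389) (nat_lit 76) (nat_lit 171925568389)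 (nat_lit 129) (nat_lit 3) (nat_lit 128) (nat_lit 1) (nat_lit 129) (nat_lit 1) (nat_lit 257) (nat_lit 366) (nat_lit 277))) (XT.nd (nat_lit 78) (nat_lit 76) (nat_lit 0) (XT.lf (nat_lit 152) (nat_lit 493329264586) (nat_lit 0) (nat_lit 3948484) (nat_lit 76) (nat_lit 3948484) (nat_lit 128) (nat_lit 1) (nat_lit 126) (nat_lit 1) (nat_lit 127) (nat_lit 1) (nat_lit 258) (nat_lit 366) (nat_lit 276)) (XT.nd (nat_lit 78) (nat_lit 76) (nat_lit 0) (XT.lf (nat_lit 0) (nat_lit 156611680630) (nat_lit 0) (nat_lit 156621533179) (nat_lit 152) (nat_lit 156611680630) (nat_lit 126) (nat_lit 3) (nat_lit 126) (nat_lit 1) (nat_lit 128) (nat_lit 1) (nat_lit 259) (nat_lit 366) (nat_lit 275)) (XT.lf (nat_lit 76) (nat_lit 149490371681) (nat_lit 0) (nat_lit 149498939116) (nat_lit 76) (nat_lit 149498939116) (nat_lit 126) (nat_lit 3) (nat_lit 125) (nat_lit 1) (nat_lit 126) (nat_lit 1) (nat_lit 260) (nat_lit 366) (nat_lit 274)))))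 (XT.nd (nat_lit 234) (nat_lit 228) (nat_lit 0) (XT.nd (nat_lit 78) (nat_lit 76) (nat_lit 0) (XT.lf (nat_lit 152) (nat_lit 428984167637) (nat_lit 0) (nat_lit 2257558) (nat_lit 76) (nat_lit 2257558) (nat_lit 125) (nat_lit 1) (nat_lit 123) (nat_lit 1) (nat_lit 124) (nat_lit 1) (nat_lit 261) (nat_lit 366) (nat_lit 273)) (XT.nd (nat_lit 78) (nat_lit 76) (nat_lit 0) (XT.lf (nat_lit 0) (nat_lit 136185001607) (nat_lit 0) (nat_lit 136190634834) (nat_lit 152) (nat_lit 136185001607) (nat_lit 123) (nat_lit 3) (nat_lit 123) (nat_lit 1) (nat_lit 125) (nat_lit 1) (nat_lit 262) (nat_lit 366) (nat_lit 272)) (XT.lf (nat_lit 76) (nat_lit 129993289880) (nat_lit 0) (nat_lit 129998188338) (nat_lit 76) (nat_lit 129998188338) (nat_lit 123) (nat_lit 3) (nat_lit 122) (nat_lit 1) (nat_lit 123) (nat_lit 1) (nat_lit 263) (nat_lit 366) (nat_lit 271)))) (XT.nd (nat_lit 78) (nat_lit 76) (nat_lit 0) (XT.lf (nat_lit 152) (nat_lit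 373030967950) (nat_lit 0) (nat_lit 1290766) (nat_lit 76) (nat_lit 1290766) (nat_lit 122) (nat_lit 1) (nat_lit 120) (nat_lit 1) (nat_lit 121) (nat_lit 1) (nat_lit 264) (nat_lit 366) (nat_lit 270)) (XT.nd (nat_lit 78) (nat_lit 76) (nat_lit 0) (XT.lf (nat_lit 0) (nat_lit 118422273113) (nat_lit 0) (nat_lit 118425493929) (nat_lit 152) (nat_lit 118422273113) (nat_lit 120) (nat_lit 3) (nat_lit 120) (nat_lit 1) (nat_lit 122) (nat_lit 1) (nat_lit 265) (nat_lit 366) (nat_lit 269)) (XT.lf (nat_lit 76) (nat_lit 113038593817) (nat_lit 0) (nat_lit 113041394526) (nat_lit 76) (nat_lit 113041394526) (nat_lit 120) (nat_lit 3) (nat_lit 119) (nat_lit 1) (nat_lit 120) (nat_lit 1) (nat_lit 266) (nat_lit 366) (nat_lit 268))))))) (XT.nd (nat_lit 858) (nat_lit 912) (nat_lit 0) (XT.nd (nat_lit 390) (nat_lit 456) (nat_lit 0) (XT.nd (nat_lit 156) (nat_lit 228) (nat_lit 0) (XT.nd (nat_lit 78) (nat_lit 0) (nat_lit 0) (XT.lf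 (nat_lit 152) (nat_lit 324375473411) (nat_lit 0) (nat_lit 737999) (nat_lit 76) (nat_lit 737999) (nat_lit 119) (nat_lit 1) (nat_lit 117) (nat_lit 1) (nat_lit 118) (nat_lit 1) (nat_lit 267) (nat_lit 366) (nat_lit 267)) (XT.lf (nat_lit 0) (nat_lit 102976194170) (nat_lit 0) (nat_lit 102978035682) (nat_lit 152) (nat_lit 102976194170) (nat_lit 117) (nat_lit 3) (nat_lit 117) (nat_lit 1) (nat_lit 119) (nat_lit 1) (nat_lit 268) (nat_lit 366) (nat_lit 266))) (XT.nd (nat_lit 78) (nat_lit 152) (nat_lit 0) (XT.lf (nat_lit 76) (nat_lit 98294972825) (nat_lit 0) (nat_lit 98296574140) (nat_lit 76) (nat_lit 98296574140) (nat_lit 117) (nat_lit 3) (nat_lit 116) (nat_lit 1) (nat_lit 117) (nat_lit 1) (nat_lit 269) (nat_lit 366) (nat_lit 265)) (XT.nd (nat_lit 78) (nat_lit 0) (nat_lit 0) (XT.lf (nat_lit 152) (nat_lit 282066039955) (nat_lit 0) (nat_lit 421953) (nat_lit 76) (nat_lit 421953) (nat_lit 116) (nat_lit 1) (nat_lit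 114) (nat_lit 1) (nat_lit 115) (nat_lit 1) (nat_lit 270) (nat_lit 366) (nat_lit 264)) (XT.lf (nat_lit 0) (nat_lit 89544690773) (nat_lit 0) (nat_lit 89545743663) (nat_lit 152) (nat_lit 89544690773) (nat_lit 114) (nat_lit 3) (nat_lit 114) (nat_lit 1) (nat_lit 116) (nat_lit 1) (nat_lit 271) (nat_lit 366) (nat_lit 263))))) (XT.nd (nat_lit 234) (nat_lit 228) (nat_lit 0) (XT.nd (nat_lit 78) (nat_lit 152) (nat_lit 0) (XT.lf (nat_lit 76) (nat_lit 85474200114) (nat_lit 0) (nat_lit 85475115671) (nat_lit 76) (nat_lit 85475115671) (nat_lit 114) (nat_lit 3) (nat_lit 113) (nat_lit 1) (nat_lit 114) (nat_lit 1) (nat_lit 272) (nat_lit 366) (nat_lit 262)) (XT.nd (nat_lit 78) (nat_lit 0) (nat_lit 0) (XT.lf (nat_lit 152) (nat_lit 245275052287) (nat_lit 0) (nat_lit 241253) (nat_lit 76) (nat_lit 241253) (nat_lit 113) (nat_lit 1) (nat_lit 111) (nat_lit 1) (nat_lit 112) (nat_lit 1) (nat_lit 273) (nat_lit 366) (nat_lit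 261)) (XT.lf (nat_lit 0) (nat_lit 77865048042) (nat_lit 0) (nat_lit 77865650035) (nat_lit 152) (nat_lit 77865048042) (nat_lit 111) (nat_lit 3) (nat_lit 111) (nat_lit 1) (nat_lit 113) (nat_lit 1) (nat_lit 274) (nat_lit 366) (nat_lit 260)))) (XT.nd (nat_lit 78) (nat_lit 152) (nat_lit 0) (XT.lf (nat_lit 76) (nat_lit 74325569048) (nat_lit 0) (nat_lit 74326092521) (nat_lit 76) (nat_lit 74326092521) (nat_lit 111) (nat_lit 3) (nat_lit 110) (nat_lit 1) (nat_lit 111) (nat_lit 1) (nat_lit 275) (nat_lit 366) (nat_lit 259)) (XT.nd (nat_lit 78) (nat_lit 0) (nat_lit 0) (XT.lf (nat_lit 152) (nat_lit 213282788488) (nat_lit 0) (nat_lit 137937) (nat_lit 76) (nat_lit 137937) (nat_lit 110) (nat_lit 1) (nat_lit 108) (nat_lit 1) (nat_lit 109) (nat_lit 1) (nat_lit 276) (nat_lit 366) (nat_lit 258)) (XT.lf (nat_lit 0) (nat_lit 67708794342) (nat_lit 0) (nat_lit 67709138534) (nat_lit 152) (nat_lit 67708794342) (nat_lit 108)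 (nat_lit 3) (nat_lit 108) (nat_lit 1) (nat_lit 110) (nat_lit 1) (nat_lit 277) (nat_lit 366) (nat_lit 257)))))) (XT.nd (nat_lit 468) (nat_lit 456) (nat_lit 0) (XT.nd (nat_lit 234) (nat_lit 228) (nat_lit 0) (XT.nd (nat_lit 78) (nat_lit 152) (nat_lit 0) (XT.lf (nat_lit 76) (nat_lit 64631031176) (nat_lit 0) (nat_lit 64631330473) (nat_lit 76) (nat_lit 64631330473) (nat_lit 108) (nat_lit 3) (nat_lit 107) (nat_lit 1) (nat_lit 108) (nat_lit 1) (nat_lit 278) (nat_lit 366) (nat_lit 256)) (XT.nd (nat_lit 78) (nat_lit 0) (nat_lit 0) (XT.lf (nat_lit 152) (nat_lit 185463371138) (nat_lit 0) (nat_lit 78866) (nat_lit 76) (nat_lit 78866) (nat_lit 107) (nat_lit 1) (nat_lit 105) (nat_lit 1) (nat_lit 106) (nat_lit 1) (nat_lit 279) (nat_lit 366) (nat_lit 255)) (XT.lf (nat_lit 0) (nat_lit 58877245013) (nat_lit 0) (nat_lit 58877441805) (nat_lit 152) (nat_lit 58877245013) (nat_lit 105) (nat_lit 3) (nat_lit 105) (nat_lit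 1) (nat_lit 107) (nat_lit 1) (nat_lit 280) (nat_lit 366) (nat_lit 254)))) (XT.nd (nat_lit 78) (nat_lit 152) (nat_lit 0) (XT.lf (nat_lit 76) (nat_lit 56200954747) (nat_lit 0) (nat_lit 56201125871) (nat_lit 76) (nat_lit 56201125871) (nat_lit 105) (nat_lit 3) (nat_lit 104) (nat_lit 1) (nat_lit 105) (nat_lit 1) (nat_lit 281) (nat_lit 366) (nat_lit 253)) (XT.nd (nat_lit 78) (nat_lit 0) (nat_lit 0) (XT.lf (nat_lit 152) (nat_lit 161272540553) (nat_lit 0) (nat_lit 45091) (nat_lit 76) (nat_lit 45092) (nat_lit 104) (nat_lit 1) (nat_lit 102) (nat_lit 1) (nat_lit 103) (nat_lit 1) (nat_lit 282) (nat_lit 366) (nat_lit 252)) (XT.lf (nat_lit 0) (nat_lit 51197622964) (nat_lit 0) (nat_lit 51197735481) (nat_lit 152) (nat_lit 51197622964) (nat_lit 102) (nat_lit 3) (nat_lit 102) (nat_lit 1) (nat_lit 104) (nat_lit 1) (nat_lit 283) (nat_lit 366) (nat_lit 251))))) (XT.nd (nat_lit 234) (nat_lit 228) (nat_lit 0) (XT.nd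 (nat_lit 78) (nat_lit 152) (nat_lit 0) (XT.lf (nat_lit 76) (nat_lit 48870428635) (nat_lit 0) (nat_lit 48870526476) (nat_lit 76) (nat_lit 48870526476) (nat_lit 102) (nat_lit 3) (nat_lit 101) (nat_lit 1) (nat_lit 102) (nat_lit 1) (nat_lit 284) (nat_lit 366) (nat_lit 250)) (XT.nd (nat_lit 78) (nat_lit 0) (nat_lit 0) (XT.lf (nat_lit 152) (nat_lit 140237016891) (nat_lit 0) (nat_lit 25781) (nat_lit 76) (nat_lit 25781) (nat_lit 101) (nat_lit 1) (nat_lit 99) (nat_lit 1) (nat_lit 100) (nat_lit 1) (nat_lit 285) (nat_lit 366) (nat_lit 249)) (XT.lf (nat_lit 0) (nat_lit 44519682780) (nat_lit 0) (nat_lit 44519747112) (nat_lit 152) (nat_lit 44519682780) (nat_lit 99) (nat_lit 3) (nat_lit 99) (nat_lit 1) (nat_lit 101) (nat_lit 1) (nat_lit 286) (nat_lit 366) (nat_lit 248)))) (XT.nd (nat_lit 78) (nat_lit 152) (nat_lit 0) (XT.lf (nat_lit 76) (nat_lit 42496043884) (nat_lit 0) (nat_lit 42496099825) (nat_lit 76) (nat_lit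 42496099825) (nat_lit 99) (nat_lit 3) (nat_lit 98) (nat_lit 1) (nat_lit 99) (nat_lit 1) (nat_lit 287) (nat_lit 366) (nat_lit 247)) (XT.nd (nat_lit 78) (nat_lit 0) (nat_lit 0) (XT.lf (nat_lit 152) (nat_lit 121945246434) (nat_lit 0) (nat_lit 14740) (nat_lit 76) (nat_lit 14740) (nat_lit 98) (nat_lit 1) (nat_lit 96) (nat_lit 1) (nat_lit 97) (nat_lit 1) (nat_lit 288) (nat_lit 366) (nat_lit 246)) (XT.lf (nat_lit 0) (nat_lit 38712773717) (nat_lit 0) (nat_lit 38712810499) (nat_lit 152) (nat_lit 38712773717) (nat_lit 96) (nat_lit 3) (nat_lit 96) (nat_lit 1) (nat_lit 98) (nat_lit 1) (nat_lit 289) (nat_lit 366) (nat_lit 245))))))))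
noncomputable def ec228 : XT := (XT.nd (nat_lit 1716) (nat_lit 1748) (nat_lit 0) (XT.nd (nat_lit 858) (nat_lit 760) (nat_lit 0) (XT.nd (nat_lit 390) (nat_lit 456) (nat_lit 0) (XT.nd (nat_lit 156) (nat_lit 228) (nat_lit 0) (XT.nd (nat_lit 78) (nat_lit 152) (nat_lit 0) (XT.lf (nat_lit 76) (nat_lit 36953092492) (nat_lit 0) (nat_lit 36953124477) (nat_lit 76) (nat_lit 36953124477) (nat_lit 96) (nat_lit 3) (nat_lit 95) (nat_lit 1) (nat_lit 96) (nat_lit 1) (nat_lit 290) (nat_lit 366) (nat_lit 244)) (XT.lf (nat_lit 152) (nat_lit 106039352932) (nat_lit 0) (nat_lit 8428) (nat_lit 76) (nat_lit 8428) (nat_lit 95) (nat_lit 1) (nat_lit 93) (nat_lit 1) (nat_lit 94) (nat_lit 1) (nat_lit 291) (nat_lit 366) (nat_lit 243))) (XT.nd (nat_lit 78) (nat_lit 228) (nat_lit 0) (XT.lf (nat_lit 0) (nat_lit 33663284971) (nat_lit 0) (nat_lit 33663306001) (nat_lit 152) (nat_lit 33663284971) (nat_lit 93) (nat_lit 3) (nat_lit 93)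 (nat_lit 1) (nat_lit 95) (nat_lit 1) (nat_lit 292) (nat_lit 366) (nat_lit 242)) (XT.nd (nat_lit 78) (nat_lit 152) (nat_lit 0) (XT.lf (nat_lit 76) (nat_lit 32133130112) (nat_lit 0) (nat_lit 32133148399) (nat_lit 76) (nat_lit 32133148399) (nat_lit 93) (nat_lit 3) (nat_lit 92) (nat_lit 1) (nat_lit 93) (nat_lit 1) (nat_lit 293) (nat_lit 366) (nat_lit 241)) (XT.lf (nat_lit 152) (nat_lit 92208137677) (nat_lit 0) (nat_lit 4818) (nat_lit 76) (nat_lit 4818) (nat_lit 92) (nat_lit 1) (nat_lit 90) (nat_lit 1) (nat_lit 91) (nat_lit 1) (nat_lit 294) (nat_lit 366) (nat_lit 240))))) (XT.nd (nat_lit 234) (nat_lit 228) (nat_lit 0) (XT.nd (nat_lit 78) (nat_lit 228) (nat_lit 0) (XT.lf (nat_lit 0) (nat_lit 29272423702) (nat_lit 0) (nat_lit 29272435726) (nat_lit 152) (nat_lit 29272423702) (nat_lit 90) (nat_lit 3) (nat_lit 90) (nat_lit 1) (nat_lit 92) (nat_lit 1) (nat_lit 295) (nat_lit 366) (nat_lit 239)) (XT.nd (nat_lit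 78) (nat_lit 152) (nat_lit 0) (XT.lf (nat_lit 76) (nat_lit 27941855820) (nat_lit 0) (nat_lit 27941866275) (nat_lit 76) (nat_lit 27941866275) (nat_lit 90) (nat_lit 3) (nat_lit 89) (nat_lit 1) (nat_lit 90) (nat_lit 1) (nat_lit 296) (nat_lit 366) (nat_lit 238)) (XT.lf (nat_lit 152) (nat_lit 80180991967) (nat_lit 0) (nat_lit 2755) (nat_lit 76) (nat_lit 2755) (nat_lit 89) (nat_lit 1) (nat_lit 87) (nat_lit 1) (nat_lit 88) (nat_lit 1) (nat_lit 297) (nat_lit 366) (nat_lit 237)))) (XT.nd (nat_lit 78) (nat_lit 228) (nat_lit 0) (XT.lf (nat_lit 0) (nat_lit 25454282617) (nat_lit 0) (nat_lit 25454289491) (nat_lit 152) (nat_lit 25454282617) (nat_lit 87) (nat_lit 3) (nat_lit 87) (nat_lit 1) (nat_lit 89) (nat_lit 1) (nat_lit 298) (nat_lit 366) (nat_lit 236)) (XT.nd (nat_lit 78) (nat_lit 152) (nat_lit 0) (XT.lf (nat_lit 76) (nat_lit 24297267959) (nat_lit 0) (nat_lit 24297273937) (nat_lit 76) (nat_lit 24297273937)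 (nat_lit 87) (nat_lit 3) (nat_lit 86) (nat_lit 1) (nat_lit 87) (nat_lit 1) (nat_lit 299) (nat_lit 366) (nat_lit 235)) (XT.lf (nat_lit 152) (nat_lit 69722603245) (nat_lit 0) (nat_lit 1575) (nat_lit 76) (nat_lit 1575) (nat_lit 86) (nat_lit 1) (nat_lit 84) (nat_lit 1) (nat_lit 85) (nat_lit 1) (nat_lit 300) (nat_lit 366) (nat_lit 234)))))) (XT.nd (nat_lit 390) (nat_lit 456) (nat_lit 0) (XT.nd (nat_lit 156) (nat_lit 228) (nat_lit 0) (XT.nd (nat_lit 78) (nat_lit 76) (nat_lit 0) (XT.lf (nat_lit 0) (nat_lit 22134159447) (nat_lit 0) (nat_lit 22134163378) (nat_lit 152) (nat_lit 22134159447) (nat_lit 84) (nat_lit 3) (nat_lit 84) (nat_lit 1) (nat_lit 86) (nat_lit 1) (nat_lit 301) (nat_lit 366) (nat_lit 233)) (XT.lf (nat_lit 76) (nat_lit 21128060254) (nat_lit 0) (nat_lit 21128063672) (nat_lit 76) (nat_lit 21128063672) (nat_lit 84) (nat_lit 3) (nat_lit 83) (nat_lit 1) (nat_lit 84) (nat_lit 1) (nat_lit 302) (nat_lit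 366) (nat_lit 232))) (XT.nd (nat_lit 78) (nat_lit 76) (nat_lit 0) (XT.lf (nat_lit 152) (nat_lit 60628351524) (nat_lit 0) (nat_lit 900) (nat_lit 76) (nat_lit 900) (nat_lit 83) (nat_lit 1) (nat_lit 81) (nat_lit 1) (nat_lit 82) (nat_lit 1) (nat_lit 303) (nat_lit 366) (nat_lit 231)) (XT.nd (nat_lit 78) (nat_lit 76) (nat_lit 0) (XT.lf (nat_lit 0) (nat_lit 19247095543) (nat_lit 0) (nat_lit 19247097790) (nat_lit 152) (nat_lit 19247095543) (nat_lit 81) (nat_lit 3) (nat_lit 81) (nat_lit 1) (nat_lit 83) (nat_lit 1) (nat_lit 304) (nat_lit 366) (nat_lit 230)) (XT.lf (nat_lit 76) (nat_lit 18372226971) (nat_lit 0) (nat_lit 18372228926) (nat_lit 76) (nat_lit 18372228926) (nat_lit 81) (nat_lit 3) (nat_lit 80) (nat_lit 1) (nat_lit 81) (nat_lit 1) (nat_lit 305) (nat_lit 366) (nat_lit 229))))) (XT.nd (nat_lit 234) (nat_lit 228) (nat_lit 0) (XT.nd (nat_lit 78) (nat_lit 76) (nat_lit 0) (XT.lf (nat_lit 152) (nat_lit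 52720306175) (nat_lit 0) (nat_lit 514) (nat_lit 76) (nat_lit 514) (nat_lit 80) (nat_lit 1) (nat_lit 78) (nat_lit 1) (nat_lit 79) (nat_lit 1) (nat_lit 306) (nat_lit 366) (nat_lit 228)) (XT.nd (nat_lit 78) (nat_lit 76) (nat_lit 0) (XT.lf (nat_lit 0) (nat_lit 16736605032) (nat_lit 0) (nat_lit 16736606317) (nat_lit 152) (nat_lit 16736605032) (nat_lit 78) (nat_lit 3) (nat_lit 78) (nat_lit 1) (nat_lit 80) (nat_lit 1) (nat_lit 307) (nat_lit 366) (nat_lit 227)) (XT.lf (nat_lit 76) (nat_lit 15975849919) (nat_lit 0) (nat_lit 15975851037) (nat_lit 76) (nat_lit 15975851037) (nat_lit 78) (nat_lit 3) (nat_lit 77) (nat_lit 1) (nat_lit 78) (nat_lit 1) (nat_lit 308) (nat_lit 366) (nat_lit 226)))) (XT.nd (nat_lit 78) (nat_lit 76) (nat_lit 0) (XT.lf (nat_lit 152) (nat_lit 45843744787) (nat_lit 0) (nat_lit 294) (nat_lit 76) (nat_lit 294) (nat_lit 77) (nat_lit 1) (nat_lit 75) (nat_lit 1) (nat_lit 76) (nat_lit 1) (nat_lit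 309) (nat_lit 366) (nat_lit 225)) (XT.nd (nat_lit 78) (nat_lit 76) (nat_lit 0) (XT.lf (nat_lit 0) (nat_lit 14553569715) (nat_lit 0) (nat_lit 14553570449) (nat_lit 152) (nat_lit 14553569715) (nat_lit 75) (nat_lit 3) (nat_lit 75) (nat_lit 1) (nat_lit 77) (nat_lit 1) (nat_lit 310) (nat_lit 366) (nat_lit 224)) (XT.lf (nat_lit 76) (nat_lit 13892043625) (nat_lit 0) (nat_lit 13892044264) (nat_lit 76) (nat_lit 13892044264) (nat_lit 75) (nat_lit 3) (nat_lit 74) (nat_lit 1) (nat_lit 75) (nat_lit 1) (nat_lit 311) (nat_lit 366) (nat_lit 223))))))) (XT.nd (nat_lit 858) (nat_lit 912) (nat_lit 0) (XT.nd (nat_lit 390) (nat_lit 456) (nat_lit 0) (XT.nd (nat_lit 156) (nat_lit 228) (nat_lit 0) (XT.nd (nat_lit 78) (nat_lit 0) (nat_lit 0) (XT.lf (nat_lit 152) (nat_lit 39864126065) (nat_lit 0) (nat_lit 168) (nat_lit 76) (nat_lit 168) (nat_lit 74) (nat_lit 1) (nat_lit 72) (nat_lit 1) (nat_lit 73) (nat_lit 1) (nat_lit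 312) (nat_lit 366) (nat_lit 222)) (XT.lf (nat_lit 0) (nat_lit 12655278082) (nat_lit 0) (nat_lit 12655278502) (nat_lit 152) (nat_lit 12655278082) (nat_lit 72) (nat_lit 3) (nat_lit 72) (nat_lit 1) (nat_lit 74) (nat_lit 1) (nat_lit 313) (nat_lit 366) (nat_lit 221))) (XT.nd (nat_lit 78) (nat_lit 152) (nat_lit 0) (XT.lf (nat_lit 76) (nat_lit 12080038059) (nat_lit 0) (nat_lit 12080038424) (nat_lit 76) (nat_lit 12080038424) (nat_lit 72) (nat_lit 3) (nat_lit 71) (nat_lit 1) (nat_lit 72) (nat_lit 1) (nat_lit 314) (nat_lit 366) (nat_lit 220)) (XT.nd (nat_lit 78) (nat_lit 0) (nat_lit 0) (XT.lf (nat_lit 152) (nat_lit 34664457542) (nat_lit 0) (nat_lit 96) (nat_lit 76) (nat_lit 96) (nat_lit 71) (nat_lit 1) (nat_lit 69) (nat_lit 1) (nat_lit 70) (nat_lit 1) (nat_lit 315) (nat_lit 366) (nat_lit 219)) (XT.lf (nat_lit 0) (nat_lit 11004589676) (nat_lit 0) (nat_lit 11004589916) (nat_lit 152) (nat_lit 11004589676) (nat_lit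 69) (nat_lit 3) (nat_lit 69) (nat_lit 1) (nat_lit 71) (nat_lit 1) (nat_lit 316) (nat_lit 366) (nat_lit 218))))) (XT.nd (nat_lit 234) (nat_lit 228) (nat_lit 0) (XT.nd (nat_lit 78) (nat_lit 152) (nat_lit 0) (XT.lf (nat_lit 76) (nat_lit 10504380991) (nat_lit 0) (nat_lit 10504381200) (nat_lit 76) (nat_lit 10504381200) (nat_lit 69) (nat_lit 3) (nat_lit 68) (nat_lit 1) (nat_lit 69) (nat_lit 1) (nat_lit 317) (nat_lit 366) (nat_lit 217)) (XT.nd (nat_lit 78) (nat_lit 0) (nat_lit 0) (XT.lf (nat_lit 152) (nat_lit 30143006611) (nat_lit 0) (nat_lit 55) (nat_lit 76) (nat_lit 55) (nat_lit 68) (nat_lit 1) (nat_lit 66) (nat_lit 1) (nat_lit 67) (nat_lit 1) (nat_lit 318) (nat_lit 366) (nat_lit 216)) (XT.lf (nat_lit 0) (nat_lit 9569208437) (nat_lit 0) (nat_lit 9569208574) (nat_lit 152) (nat_lit 9569208437) (nat_lit 66) (nat_lit 3) (nat_lit 66) (nat_lit 1) (nat_lit 68) (nat_lit 1) (nat_lit 319) (nat_lit 366) (nat_lit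 215)))) (XT.nd (nat_lit 78) (nat_lit 152) (nat_lit 0) (XT.lf (nat_lit 76) (nat_lit 9134244381) (nat_lit 0) (nat_lit 9134244500) (nat_lit 76) (nat_lit 9134244500) (nat_lit 66) (nat_lit 3) (nat_lit 65) (nat_lit 1) (nat_lit 66) (nat_lit 1) (nat_lit 320) (nat_lit 366) (nat_lit 214)) (XT.nd (nat_lit 78) (nat_lit 0) (nat_lit 0) (XT.lf (nat_lit 152) (nat_lit 26211310128) (nat_lit 0) (nat_lit 31) (nat_lit 76) (nat_lit 31) (nat_lit 65) (nat_lit 1) (nat_lit 63) (nat_lit 1) (nat_lit 64) (nat_lit 1) (nat_lit 321) (nat_lit 366) (nat_lit 213)) (XT.lf (nat_lit 0) (nat_lit 8321050828) (nat_lit 0) (nat_lit 8321050906) (nat_lit 152) (nat_lit 8321050828) (nat_lit 63) (nat_lit 3) (nat_lit 63) (nat_lit 1) (nat_lit 65) (nat_lit 1) (nat_lit 322) (nat_lit 366) (nat_lit 212)))))) (XT.nd (nat_lit 390) (nat_lit 456) (nat_lit 0) (XT.nd (nat_lit 156) (nat_lit 228) (nat_lit 0) (XT.nd (nat_lit 78) (nat_lit 152) (nat_lit 0) (XT.lf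 (nat_lit 76) (nat_lit 7942821224) (nat_lit 0) (nat_lit 7942821292) (nat_lit 76) (nat_lit 7942821292) (nat_lit 63) (nat_lit 3) (nat_lit 62) (nat_lit 1) (nat_lit 63) (nat_lit 1) (nat_lit 323) (nat_lit 366) (nat_lit 211)) (XT.lf (nat_lit 152) (nat_lit 22792443607) (nat_lit 0) (nat_lit 17) (nat_lit 76) (nat_lit 17) (nat_lit 62) (nat_lit 1) (nat_lit 60) (nat_lit 1) (nat_lit 61) (nat_lit 1) (nat_lit 324) (nat_lit 366) (nat_lit 210))) (XT.nd (nat_lit 78) (nat_lit 228) (nat_lit 0) (XT.lf (nat_lit 0) (nat_lit 7235696379) (nat_lit 0) (nat_lit 7235696424) (nat_lit 152) (nat_lit 7235696379) (nat_lit 60) (nat_lit 3) (nat_lit 60) (nat_lit 1) (nat_lit 62) (nat_lit 1) (nat_lit 325) (nat_lit 366) (nat_lit 209)) (XT.nd (nat_lit 78) (nat_lit 152) (nat_lit 0) (XT.lf (nat_lit 76) (nat_lit 6906801077) (nat_lit 0) (nat_lit 6906801116) (nat_lit 76) (nat_lit 6906801116) (nat_lit 60) (nat_lit 3) (nat_lit 59) (nat_lit 1)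 (nat_lit 60) (nat_lit 1) (nat_lit 326) (nat_lit 366) (nat_lit 208)) (XT.lf (nat_lit 152) (nat_lit 19819516190) (nat_lit 0) (nat_lit 10) (nat_lit 76) (nat_lit 10) (nat_lit 59) (nat_lit 1) (nat_lit 57) (nat_lit 1) (nat_lit 58) (nat_lit 1) (nat_lit 327) (nat_lit 366) (nat_lit 207))))) (XT.nd (nat_lit 234) (nat_lit 228) (nat_lit 0) (XT.nd (nat_lit 78) (nat_lit 228) (nat_lit 0) (XT.lf (nat_lit 0) (nat_lit 6291909899) (nat_lit 0) (nat_lit 6291909925) (nat_lit 152) (nat_lit 6291909899) (nat_lit 57) (nat_lit 3) (nat_lit 57) (nat_lit 1) (nat_lit 59) (nat_lit 1) (nat_lit 328) (nat_lit 366) (nat_lit 206)) (XT.nd (nat_lit 78) (nat_lit 152) (nat_lit 0) (XT.lf (nat_lit 76) (nat_lit 6005913988) (nat_lit 0) (nat_lit 6005914010) (nat_lit 76) (nat_lit 6005914010) (nat_lit 57) (nat_lit 3) (nat_lit 56) (nat_lit 1) (nat_lit 57) (nat_lit 1) (nat_lit 329) (nat_lit 366) (nat_lit 205)) (XT.lf (nat_lit 152) (nat_lit 17234361910)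 (nat_lit 0) (nat_lit 5) (nat_lit 76) (nat_lit 5) (nat_lit 56) (nat_lit 1) (nat_lit 54) (nat_lit 1) (nat_lit 55) (nat_lit 1) (nat_lit 330) (nat_lit 366) (nat_lit 204)))) (XT.nd (nat_lit 78) (nat_lit 228) (nat_lit 0) (XT.lf (nat_lit 0) (nat_lit 5471226002) (nat_lit 0) (nat_lit 5471226016) (nat_lit 152) (nat_lit 5471226002) (nat_lit 54) (nat_lit 3) (nat_lit 54) (nat_lit 1) (nat_lit 56) (nat_lit 1) (nat_lit 331) (nat_lit 366) (nat_lit 203)) (XT.nd (nat_lit 78) (nat_lit 152) (nat_lit 0) (XT.lf (nat_lit 76) (nat_lit 5222533907) (nat_lit 0) (nat_lit 5222533919) (nat_lit 76) (nat_lit 5222533919) (nat_lit 54) (nat_lit 3) (nat_lit 53) (nat_lit 1) (nat_lit 54) (nat_lit 1) (nat_lit 332) (nat_lit 366) (nat_lit 202)) (XT.lf (nat_lit 152) (nat_lit 14986401664) (nat_lit 0) (nat_lit 3) (nat_lit 76) (nat_lit 3) (nat_lit 53) (nat_lit 1) (nat_lit 51) (nat_lit 1) (nat_lit 52) (nat_lit 1) (nat_lit 333) (nat_lit 366)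 (nat_lit 201))))))))
noncomputable def ec229 : XT := (XT.nd (nat_lit 1716) (nat_lit 1216) (nat_lit 0) (XT.nd (nat_lit 858) (nat_lit 836) (nat_lit 0) (XT.nd (nat_lit 390) (nat_lit 456) (nat_lit 0) (XT.nd (nat_lit 156) (nat_lit 228) (nat_lit 0) (XT.nd (nat_lit 78) (nat_lit 76) (nat_lit 0) (XT.lf (nat_lit 0) (nat_lit 4757587829) (nat_lit 0) (nat_lit 4757587837) (nat_lit 152) (nat_lit 4757587829) (nat_lit 51) (nat_lit 3) (nat_lit 51) (nat_lit 1) (nat_lit 53) (nat_lit 1) (nat_lit 334) (nat_lit 366) (nat_lit 200)) (XT.lf (nat_lit 76) (nat_lit 4541333834) (nat_lit 0) (nat_lit 4541333842) (nat_lit 76) (nat_lit 4541333842) (nat_lit 51) (nat_lit 3) (nat_lit 50) (nat_lit 1) (nat_lit 51) (nat_lit 1) (nat_lit 335) (nat_lit 366) (nat_lit 199))) (XT.nd (nat_lit 78) (nat_lit 76) (nat_lit 0) (XT.lf (nat_lit 152) (nat_lit 13031653622) (nat_lit 0) (nat_lit 1) (nat_lit 76) (nat_lit 1) (nat_lit 50) (nat_lit 1) (nat_lit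 48) (nat_lit 1) (nat_lit 49) (nat_lit 1) (nat_lit 336) (nat_lit 366) (nat_lit 198)) (XT.nd (nat_lit 78) (nat_lit 76) (nat_lit 0) (XT.lf (nat_lit 0) (nat_lit 4137032895) (nat_lit 0) (nat_lit 4137032900) (nat_lit 152) (nat_lit 4137032895) (nat_lit 48) (nat_lit 3) (nat_lit 48) (nat_lit 1) (nat_lit 50) (nat_lit 1) (nat_lit 337) (nat_lit 366) (nat_lit 197)) (XT.lf (nat_lit 76) (nat_lit 3948985944) (nat_lit 0) (nat_lit 3948985948) (nat_lit 76) (nat_lit 3948985948) (nat_lit 48) (nat_lit 3) (nat_lit 47) (nat_lit 1) (nat_lit 48) (nat_lit 1) (nat_lit 338) (nat_lit 366) (nat_lit 196))))) (XT.nd (nat_lit 234) (nat_lit 228) (nat_lit 0) (XT.nd (nat_lit 78) (nat_lit 76) (nat_lit 0) (XT.lf (nat_lit 152) (nat_lit 11331872716) (nat_lit 0) (nat_lit 1) (nat_lit 76) (nat_lit 1) (nat_lit 47) (nat_lit 1) (nat_lit 45) (nat_lit 1) (nat_lit 46) (nat_lit 1) (nat_lit 339) (nat_lit 366) (nat_lit 195)) (XT.nd (nat_lit 78) (nat_lit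 76) (nat_lit 0) (XT.lf (nat_lit 0) (nat_lit 3597419909) (nat_lit 0) (nat_lit 3597419912) (nat_lit 152) (nat_lit 3597419909) (nat_lit 45) (nat_lit 3) (nat_lit 45) (nat_lit 1) (nat_lit 47) (nat_lit 1) (nat_lit 340) (nat_lit 366) (nat_lit 194)) (XT.lf (nat_lit 76) (nat_lit 3433900822) (nat_lit 0) (nat_lit 3433900824) (nat_lit 76) (nat_lit 3433900824) (nat_lit 45) (nat_lit 3) (nat_lit 44) (nat_lit 1) (nat_lit 45) (nat_lit 1) (nat_lit 341) (nat_lit 366) (nat_lit 193)))) (XT.nd (nat_lit 78) (nat_lit 228) (nat_lit 0) (XT.lf (nat_lit 0) (nat_lit 9853802362) (nat_lit 0) (nat_lit 0) (nat_lit 0) (nat_lit 0) (nat_lit 44) (nat_lit 1) (nat_lit 1) (nat_lit 0) (nat_lit 1) (nat_lit 0) (nat_lit 342) (nat_lit 366) (nat_lit 192)) (XT.nd (nat_lit 78) (nat_lit 76) (nat_lit 0) (XT.lf (nat_lit 0) (nat_lit 3128191226) (nat_lit 0) (nat_lit 3128191227) (nat_lit 152) (nat_lit 3128191226) (nat_lit 42) (nat_lit 3) (nat_lit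 42) (nat_lit 1) (nat_lit 44) (nat_lit 1) (nat_lit 343) (nat_lit 366) (nat_lit 191)) (XT.lf (nat_lit 76) (nat_lit 2986000715) (nat_lit 0) (nat_lit 2986000716) (nat_lit 76) (nat_lit 2986000716) (nat_lit 42) (nat_lit 3) (nat_lit 41) (nat_lit 1) (nat_lit 42) (nat_lit 1) (nat_lit 344) (nat_lit 366) (nat_lit 190)))))) (XT.nd (nat_lit 390) (nat_lit 456) (nat_lit 0) (XT.nd (nat_lit 156) (nat_lit 228) (nat_lit 0) (XT.nd (nat_lit 78) (nat_lit 152) (nat_lit 0) (XT.lf (nat_lit 0) (nat_lit 8568523794) (nat_lit 0) (nat_lit 0) (nat_lit 0) (nat_lit 0) (nat_lit 41) (nat_lit 1) (nat_lit 1) (nat_lit 0) (nat_lit 1) (nat_lit 0) (nat_lit 345) (nat_lit 366) (nat_lit 189)) (XT.lf (nat_lit 0) (nat_lit 2720166283) (nat_lit 0) (nat_lit 2720166284) (nat_lit 152) (nat_lit 2720166283) (nat_lit 39) (nat_lit 3) (nat_lit 39) (nat_lit 1) (nat_lit 41) (nat_lit 1) (nat_lit 346) (nat_lit 366) (nat_lit 188))) (XT.nd (nat_lit 78) (nat_lit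 152) (nat_lit 0) (XT.lf (nat_lit 76) (nat_lit 2596522361) (nat_lit 0) (nat_lit 2596522362) (nat_lit 76) (nat_lit 2596522362) (nat_lit 39) (nat_lit 3) (nat_lit 38) (nat_lit 1) (nat_lit 39) (nat_lit 1) (nat_lit 347) (nat_lit 366) (nat_lit 187)) (XT.nd (nat_lit 78) (nat_lit 152) (nat_lit 0) (XT.lf (nat_lit 0) (nat_lit 7450890256) (nat_lit 0) (nat_lit 0) (nat_lit 0) (nat_lit 0) (nat_lit 38) (nat_lit 1) (nat_lit 1) (nat_lit 0) (nat_lit 1) (nat_lit 0) (nat_lit 348) (nat_lit 366) (nat_lit 186)) (XT.lf (nat_lit 0) (nat_lit 2365361986) (nat_lit 0) (nat_lit 2365361986) (nat_lit 152) (nat_lit 2365361986) (nat_lit 36) (nat_lit 3) (nat_lit 36) (nat_lit 1) (nat_lit 38) (nat_lit 1) (nat_lit 349) (nat_lit 366) (nat_lit 185))))) (XT.nd (nat_lit 234) (nat_lit 228) (nat_lit 0) (XT.nd (nat_lit 78) (nat_lit 152) (nat_lit 0) (XT.lf (nat_lit 76) (nat_lit 2257845531) (nat_lit 0) (nat_lit 2257845532) (nat_lit 76) (nat_lit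 2257845532) (nat_lit 36) (nat_lit 3) (nat_lit 35) (nat_lit 1) (nat_lit 36) (nat_lit 1) (nat_lit 350) (nat_lit 366) (nat_lit 184)) (XT.nd (nat_lit 78) (nat_lit 152) (nat_lit 0) (XT.lf (nat_lit 0) (nat_lit 6479035005) (nat_lit 0) (nat_lit 0) (nat_lit 0) (nat_lit 0) (nat_lit 35) (nat_lit 1) (nat_lit 1) (nat_lit 0) (nat_lit 1) (nat_lit 0) (nat_lit 351) (nat_lit 366) (nat_lit 183)) (XT.lf (nat_lit 0) (nat_lit 2056836509) (nat_lit 0) (nat_lit 2056836509) (nat_lit 152) (nat_lit 2056836509) (nat_lit 33) (nat_lit 3) (nat_lit 33) (nat_lit 1) (nat_lit 35) (nat_lit 1) (nat_lit 352) (nat_lit 366) (nat_lit 182)))) (XT.nd (nat_lit 78) (nat_lit 152) (nat_lit 0) (XT.lf (nat_lit 76) (nat_lit 1963343940) (nat_lit 0) (nat_lit 1963343941) (nat_lit 76) (nat_lit 1963343941) (nat_lit 33) (nat_lit 3) (nat_lit 32) (nat_lit 1) (nat_lit 33) (nat_lit 1) (nat_lit 353) (nat_lit 366) (nat_lit 181)) (XT.nd (nat_lit 78) (nat_lit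 152) (nat_lit 0) (XT.lf (nat_lit 0) (nat_lit 5633943483) (nat_lit 0) (nat_lit 0) (nat_lit 0) (nat_lit 0) (nat_lit 32) (nat_lit 1) (nat_lit 1) (nat_lit 0) (nat_lit 1) (nat_lit 0) (nat_lit 354) (nat_lit 366) (nat_lit 180)) (XT.lf (nat_lit 0) (nat_lit 1788553486) (nat_lit 0) (nat_lit 1788553486) (nat_lit 152) (nat_lit 1788553486) (nat_lit 30) (nat_lit 3) (nat_lit 30) (nat_lit 1) (nat_lit 32) (nat_lit 1) (nat_lit 355) (nat_lit 366) (nat_lit 179))))))) (XT.nd (nat_lit 858) (nat_lit 456) (nat_lit 0) (XT.nd (nat_lit 390) (nat_lit 456) (nat_lit 0) (XT.nd (nat_lit 156) (nat_lit 228) (nat_lit 0) (XT.nd (nat_lit 78) (nat_lit 0) (nat_lit 0) (XT.lf (nat_lit 76) (nat_lit 1707255600) (nat_lit 0) (nat_lit 1707255600) (nat_lit 76) (nat_lit 1707255600) (nat_lit 30) (nat_lit 3) (nat_lit 29) (nat_lit 1) (nat_lit 30) (nat_lit 1) (nat_lit 356) (nat_lit 366) (nat_lit 178)) (XT.lf (nat_lit 0) (nat_lit 4899081289) (nat_lit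 0) (nat_lit 0) (nat_lit 0) (nat_lit 0) (nat_lit 29) (nat_lit 1) (nat_lit 1) (nat_lit 0) (nat_lit 1) (nat_lit 0) (nat_lit 357) (nat_lit 366) (nat_lit 177))) (XT.nd (nat_lit 78) (nat_lit 76) (nat_lit 0) (XT.lf (nat_lit 0) (nat_lit 1555263901) (nat_lit 0) (nat_lit 1555263901) (nat_lit 152) (nat_lit 1555263901) (nat_lit 27) (nat_lit 3) (nat_lit 27) (nat_lit 1) (nat_lit 29) (nat_lit 1) (nat_lit 358) (nat_lit 366) (nat_lit 176)) (XT.nd (nat_lit 78) (nat_lit 0) (nat_lit 0) (XT.lf (nat_lit 76) (nat_lit 1484570087) (nat_lit 0) (nat_lit 1484570087) (nat_lit 76) (nat_lit 1484570087) (nat_lit 27) (nat_lit 3) (nat_lit 26) (nat_lit 1) (nat_lit 27) (nat_lit 1) (nat_lit 359) (nat_lit 366) (nat_lit 175)) (XT.lf (nat_lit 0) (nat_lit 4260070686) (nat_lit 0) (nat_lit 0) (nat_lit 0) (nat_lit 0) (nat_lit 26) (nat_lit 1) (nat_lit 1) (nat_lit 0) (nat_lit 1) (nat_lit 0) (nat_lit 360) (nat_lit 366) (nat_lit 174))))) (XT.nd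 (nat_lit 234) (nat_lit 228) (nat_lit 0) (XT.nd (nat_lit 78) (nat_lit 76) (nat_lit 0) (XT.lf (nat_lit 0) (nat_lit 1352403392) (nat_lit 0) (nat_lit 1352403392) (nat_lit 152) (nat_lit 1352403392) (nat_lit 24) (nat_lit 3) (nat_lit 24) (nat_lit 1) (nat_lit 26) (nat_lit 1) (nat_lit 361) (nat_lit 366) (nat_lit 173)) (XT.nd (nat_lit 78) (nat_lit 0) (nat_lit 0) (XT.lf (nat_lit 76) (nat_lit 1290930511) (nat_lit 0) (nat_lit 1290930511) (nat_lit 76) (nat_lit 1290930511) (nat_lit 24) (nat_lit 3) (nat_lit 23) (nat_lit 1) (nat_lit 24) (nat_lit 1) (nat_lit 362) (nat_lit 366) (nat_lit 172)) (XT.lf (nat_lit 0) (nat_lit 3704409292) (nat_lit 0) (nat_lit 0) (nat_lit 0) (nat_lit 0) (nat_lit 23) (nat_lit 1) (nat_lit 1) (nat_lit 0) (nat_lit 1) (nat_lit 0) (nat_lit 363) (nat_lit 366) (nat_lit 171)))) (XT.nd (nat_lit 78) (nat_lit 76) (nat_lit 0) (XT.lf (nat_lit 0) (nat_lit 1176002950) (nat_lit 0) (nat_lit 1176002950) (nat_lit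 152) (nat_lit 1176002950) (nat_lit 21) (nat_lit 3) (nat_lit 21) (nat_lit 1) (nat_lit 23) (nat_lit 1) (nat_lit 364) (nat_lit 366) (nat_lit 170)) (XT.nd (nat_lit 78) (nat_lit 0) (nat_lit 0) (XT.lf (nat_lit 76) (nat_lit 1122548270) (nat_lit 0) (nat_lit 1122548270) (nat_lit 76) (nat_lit 1122548270) (nat_lit 21) (nat_lit 3) (nat_lit 20) (nat_lit 1) (nat_lit 21) (nat_lit 1) (nat_lit 365) (nat_lit 366) (nat_lit 169)) (XT.lf (nat_lit 0) (nat_lit 3221225471) (nat_lit 0) (nat_lit 0) (nat_lit 0) (nat_lit 0) (nat_lit 20) (nat_lit 1) (nat_lit 1) (nat_lit 0) (nat_lit 1) (nat_lit 0) (nat_lit 366) (nat_lit 366) (nat_lit 168)))))) (XT.nd (nat_lit 31200) (nat_lit 0) (nat_lit 15124) (XT.nd (nat_lit 234) (nat_lit 228) (nat_lit 0) (XT.nd (nat_lit 78) (nat_lit 76) (nat_lit 0) (XT.lf (nat_lit 0) (nat_lit 1022611260) (nat_lit 0) (nat_lit 1022611260) (nat_lit 152) (nat_lit 1022611260) (nat_lit 18) (nat_lit 3) (nat_lit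 18) (nat_lit 1) (nat_lit 20) (nat_lit 1) (nat_lit 367) (nat_lit 366) (nat_lit 167)) (XT.nd (nat_lit 78) (nat_lit 0) (nat_lit 0) (XT.lf (nat_lit 76) (nat_lit 976128930) (nat_lit 0) (nat_lit 976128930) (nat_lit 76) (nat_lit 976128930) (nat_lit 18) (nat_lit 3) (nat_lit 17) (nat_lit 1) (nat_lit 18) (nat_lit 1) (nat_lit 368) (nat_lit 366) (nat_lit 166)) (XT.lf (nat_lit 0) (nat_lit 2801065627) (nat_lit 0) (nat_lit 0) (nat_lit 0) (nat_lit 0) (nat_lit 17) (nat_lit 1) (nat_lit 1) (nat_lit 0) (nat_lit 1) (nat_lit 0) (nat_lit 369) (nat_lit 366) (nat_lit 165)))) (XT.nd (nat_lit 78) (nat_lit 76) (nat_lit 0) (XT.lf (nat_lit 0) (nat_lit 889227183) (nat_lit 0) (nat_lit 889227183) (nat_lit 152) (nat_lit 889227183) (nat_lit 15) (nat_lit 3) (nat_lit 15) (nat_lit 1) (nat_lit 17) (nat_lit 1) (nat_lit 370) (nat_lit 366) (nat_lit 164)) (XT.nd (nat_lit 78) (nat_lit 0) (nat_lit 0) (XT.lf (nat_lit 76) (nat_lit 848807765)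 (nat_lit 0) (nat_lit 848807766) (nat_lit 76) (nat_lit 848807766) (nat_lit 15) (nat_lit 3) (nat_lit 14) (nat_lit 1) (nat_lit 15) (nat_lit 1) (nat_lit 371) (nat_lit 366) (nat_lit 163)) (XT.lf (nat_lit 0) (nat_lit 2435709241) (nat_lit 0) (nat_lit 0) (nat_lit 0) (nat_lit 0) (nat_lit 14) (nat_lit 1) (nat_lit 1) (nat_lit 0) (nat_lit 1) (nat_lit 0) (nat_lit 372) (nat_lit 366) (nat_lit 162))))) (XT.nd (nat_lit 234) (nat_lit 152) (nat_lit 0) (XT.nd (nat_lit 78) (nat_lit 0) (nat_lit 0) (XT.lf (nat_lit 380) (nat_lit 8182381826943) (nat_lit 0) (nat_lit 7247336964576) (nat_lit 380) (nat_lit 8182381826943) (nat_lit 220) (nat_lit 1) (nat_lit 215) (nat_lit 0) (nat_lit 220) (nat_lit 0) (nat_lit 166) (nat_lit 367) (nat_lit 367)) (XT.nd (nat_lit 78) (nat_lit 0) (nat_lit 76) (XT.lf (nat_lit 380) (nat_lit 30265568510656) (nat_lit 76) (nat_lit 6917912557096) (nat_lit 0) (nat_lit 6917912557095) (nat_lit 220) (nat_lit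 1) (nat_lit 216) (nat_lit 1) (nat_lit 215) (nat_lit 0) (nat_lit 167) (nat_lit 367) (nat_lit 366)) (XT.lf (nat_lit 380) (nat_lit 13340889047735) (nat_lit 0) (nat_lit 14516145751726) (nat_lit 304) (nat_lit 13340889047735) (nat_lit 221) (nat_lit 1) (nat_lit 216) (nat_lit 1) (nat_lit 220) (nat_lit 1) (nat_lit 168) (nat_lit 367) (nat_lit 365)))) (XT.nd (nat_lit 78) (nat_lit 228) (nat_lit 0) (XT.lf (nat_lit 380) (nat_lit 22905613797107) (nat_lit 76) (nat_lit 7840744808224) (nat_lit 0) (nat_lit 7840744808224) (nat_lit 221) (nat_lit 1) (nat_lit 217) (nat_lit 1) (nat_lit 216) (nat_lit 1) (nat_lit 169) (nat_lit 367) (nat_lit 364)) (XT.nd (nat_lit 78) (nat_lit 304) (nat_lit 0) (XT.lf (nat_lit 76) (nat_lit 9265624576974) (nat_lit 0) (nat_lit 17643304728511) (nat_lit 304) (nat_lit 9265624576974) (nat_lit 218) (nat_lit 1) (nat_lit 217) (nat_lit 1) (nat_lit 221) (nat_lit 1) (nat_lit 170) (nat_lit 367) (nat_lit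 363)) (XT.lf (nat_lit 380) (nat_lit 13925485415321) (nat_lit 0) (nat_lit 10023297368086) (nat_lit 304) (nat_lit 10023297368087) (nat_lit 218) (nat_lit 1) (nat_lit 213) (nat_lit 1) (nat_lit 217) (nat_lit 1) (nat_lit 171) (nat_lit 367) (nat_lit 362))))))))
noncomputable def ec230 : XT := (XT.nd (nat_lit 1716) (nat_lit 1596) (nat_lit 0) (XT.nd (nat_lit 858) (nat_lit 912) (nat_lit 0) (XT.nd (nat_lit 390) (nat_lit 380) (nat_lit 0) (XT.nd (nat_lit 156) (nat_lit 380) (nat_lit 0) (XT.nd (nat_lit 78) (nat_lit 152) (nat_lit 0) (XT.lf (nat_lit 76) (nat_lit 4628677557788) (nat_lit 0) (nat_lit 22713036789020) (nat_lit 380) (nat_lit 4628677557788) (nat_lit 214) (nat_lit 1) (nat_lit 213) (nat_lit 1) (nat_lit 218) (nat_lit 1) (nat_lit 172) (nat_lit 367) (nat_lit 361)) (XT.lf (nat_lit 228) (nat_lit 4165700613532) (nat_lit 0) (nat_lit 12964715271024) (nat_lit 152) (nat_lit 12964715271024) (nat_lit 214) (nat_lit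 1) (nat_lit 211) (nat_lit 1) (nat_lit 213) (nat_lit 1) (nat_lit 173) (nat_lit 367) (nat_lit 360))) (XT.nd (nat_lit 78) (nat_lit 152) (nat_lit 0) (XT.lf (nat_lit 228) (nat_lit 27993455707306) (nat_lit 0) (nat_lit 219636965052) (nat_lit 152) (nat_lit 219636965052) (nat_lit 211) (nat_lit 1) (nat_lit 208) (nat_lit 1) (nat_lit 210) (nat_lit 1) (nat_lit 174) (nat_lit 367) (nat_lit 359)) (XT.nd (nat_lit 78) (nat_lit 152) (nat_lit 0) (XT.lf (nat_lit 76) (nat_lit 10755264610543) (nat_lit 0) (nat_lit 5280262424954) (nat_lit 228) (nat_lit 10755264610543) (nat_lit 209) (nat_lit 1) (nat_lit 208) (nat_lit 1) (nat_lit 211) (nat_lit 1) (nat_lit 175) (nat_lit 367) (nat_lit 358)) (XT.lf (nat_lit 228) (nat_lit 15633189913358) (nat_lit 0) (nat_lit 4849261831284) (nat_lit 152) (nat_lit 4849261831284) (nat_lit 209) (nat_lit 1) (nat_lit 206) (nat_lit 1) (nat_lit 208) (nat_lit 1) (nat_lit 176) (nat_lit 367) (nat_lit 357)))))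 (XT.nd (nat_lit 234) (nat_lit 76) (nat_lit 0) (XT.nd (nat_lit 78) (nat_lit 304) (nat_lit 0) (XT.lf (nat_lit 76) (nat_lit 4889011232814) (nat_lit 0) (nat_lit 14187827012599) (nat_lit 228) (nat_lit 4889011232814) (nat_lit 207) (nat_lit 1) (nat_lit 206) (nat_lit 1) (nat_lit 209) (nat_lit 1) (nat_lit 177) (nat_lit 367) (nat_lit 356)) (XT.nd (nat_lit 78) (nat_lit 228) (nat_lit 0) (XT.lf (nat_lit 152) (nat_lit 4041671283236) (nat_lit 0) (nat_lit 9326176366245) (nat_lit 76) (nat_lit 9326176366245) (nat_lit 207) (nat_lit 1) (nat_lit 205) (nat_lit 1) (nat_lit 206) (nat_lit 1) (nat_lit 178) (nat_lit 367) (nat_lit 355)) (XT.lf (nat_lit 228) (nat_lit 20461315826197) (nat_lit 0) (nat_lit 543575796755) (nat_lit 152) (nat_lit 543575796754) (nat_lit 205) (nat_lit 1) (nat_lit 202) (nat_lit 1) (nat_lit 204) (nat_lit 1) (nat_lit 179) (nat_lit 367) (nat_lit 354)))) (XT.nd (nat_lit 78) (nat_lit 76) (nat_lit 0) (XT.lf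 (nat_lit 76) (nat_lit 7161020468126) (nat_lit 0) (nat_lit 6081372222354) (nat_lit 228) (nat_lit 7161020468126) (nat_lit 203) (nat_lit 1) (nat_lit 202) (nat_lit 1) (nat_lit 205) (nat_lit 1) (nat_lit 180) (nat_lit 367) (nat_lit 353)) (XT.nd (nat_lit 78) (nat_lit 0) (nat_lit 0) (XT.lf (nat_lit 152) (nat_lit 8707115021845) (nat_lit 0) (nat_lit 5332271606374) (nat_lit 76) (nat_lit 5332271606374) (nat_lit 203) (nat_lit 1) (nat_lit 201) (nat_lit 1) (nat_lit 202) (nat_lit 1) (nat_lit 181) (nat_lit 367) (nat_lit 352)) (XT.lf (nat_lit 0) (nat_lit 1704973111799) (nat_lit 0) (nat_lit 15010452356437) (nat_lit 152) (nat_lit 1704973111799) (nat_lit 201) (nat_lit 3) (nat_lit 201) (nat_lit 1) (nat_lit 203) (nat_lit 1) (nat_lit 182) (nat_lit 367) (nat_lit 351)))))) (XT.nd (nat_lit 390) (nat_lit 456) (nat_lit 0) (XT.nd (nat_lit 156) (nat_lit 228) (nat_lit 0) (XT.nd (nat_lit 78) (nat_lit 76) (nat_lit 0) (XT.lf (nat_lit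 76) (nat_lit 7890608370951) (nat_lit 0) (nat_lit 1711336549259) (nat_lit 152) (nat_lit 7890608370951) (nat_lit 200) (nat_lit 1) (nat_lit 199) (nat_lit 1) (nat_lit 201) (nat_lit 1) (nat_lit 183) (nat_lit 367) (nat_lit 350)) (XT.lf (nat_lit 152) (nat_lit 10540300706565) (nat_lit 0) (nat_lit 3048743597327) (nat_lit 76) (nat_lit 3048743597327) (nat_lit 200) (nat_lit 1) (nat_lit 198) (nat_lit 1) (nat_lit 199) (nat_lit 1) (nat_lit 184) (nat_lit 367) (nat_lit 349))) (XT.nd (nat_lit 78) (nat_lit 228) (nat_lit 0) (XT.lf (nat_lit 0) (nat_lit 2740531666851) (nat_lit 0) (nat_lit 10347982609144) (nat_lit 152) (nat_lit 2740531666851) (nat_lit 198) (nat_lit 3) (nat_lit 198) (nat_lit 1) (nat_lit 200) (nat_lit 1) (nat_lit 185) (nat_lit 367) (nat_lit 348)) (XT.nd (nat_lit 78) (nat_lit 152) (nat_lit 0) (XT.lf (nat_lit 76) (nat_lit 611363641864) (nat_lit 0) (nat_lit 7226538374293) (nat_lit 76) (nat_lit 7226538374293)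 (nat_lit 198) (nat_lit 3) (nat_lit 197) (nat_lit 1) (nat_lit 198) (nat_lit 1) (nat_lit 186) (nat_lit 367) (nat_lit 347)) (XT.lf (nat_lit 152) (nat_lit 10862954993352) (nat_lit 0) (nat_lit 1743129046753) (nat_lit 76) (nat_lit 1743129046753) (nat_lit 197) (nat_lit 1) (nat_lit 195) (nat_lit 1) (nat_lit 196) (nat_lit 1) (nat_lit 187) (nat_lit 367) (nat_lit 346))))) (XT.nd (nat_lit 234) (nat_lit 228) (nat_lit 0) (XT.nd (nat_lit 78) (nat_lit 228) (nat_lit 0) (XT.lf (nat_lit 0) (nat_lit 3102305924330) (nat_lit 0) (nat_lit 7451890691276) (nat_lit 152) (nat_lit 3102305924330) (nat_lit 195) (nat_lit 3) (nat_lit 195) (nat_lit 1) (nat_lit 197) (nat_lit 1) (nat_lit 188) (nat_lit 367) (nat_lit 345)) (XT.nd (nat_lit 78) (nat_lit 152) (nat_lit 0) (XT.lf (nat_lit 76) (nat_lit 1815156375215) (nat_lit 0) (nat_lit 5597403998646) (nat_lit 76) (nat_lit 5597403998646) (nat_lit 195) (nat_lit 3) (nat_lit 194) (nat_lit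 1) (nat_lit 195) (nat_lit 1) (nat_lit 189) (nat_lit 367) (nat_lit 344)) (XT.lf (nat_lit 152) (nat_lit 10416585300133) (nat_lit 0) (nat_lit 996639689968) (nat_lit 76) (nat_lit 996639689968) (nat_lit 194) (nat_lit 1) (nat_lit 192) (nat_lit 1) (nat_lit 193) (nat_lit 1) (nat_lit 190) (nat_lit 367) (nat_lit 343)))) (XT.nd (nat_lit 78) (nat_lit 228) (nat_lit 0) (XT.lf (nat_lit 0) (nat_lit 3108882219456) (nat_lit 0) (nat_lit 5595771426939) (nat_lit 152) (nat_lit 3108882219456) (nat_lit 192) (nat_lit 3) (nat_lit 192) (nat_lit 1) (nat_lit 194) (nat_lit 1) (nat_lit 191) (nat_lit 367) (nat_lit 342)) (XT.nd (nat_lit 78) (nat_lit 152) (nat_lit 0) (XT.lf (nat_lit 76) (nat_lit 2312262617258) (nat_lit 0) (nat_lit 4474774971592) (nat_lit 76) (nat_lit 4474774971592) (nat_lit 192) (nat_lit 3) (nat_lit 191) (nat_lit 1) (nat_lit 192) (nat_lit 1) (nat_lit 192) (nat_lit 367) (nat_lit 341)) (XT.lf (nat_lit 152) (nat_lit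 9612808215046) (nat_lit 0) (nat_lit 569831977426) (nat_lit 76) (nat_lit 569831977426) (nat_lit 191) (nat_lit 1) (nat_lit 189) (nat_lit 1) (nat_lit 190) (nat_lit 1) (nat_lit 193) (nat_lit 367) (nat_lit 340))))))) (XT.nd (nat_lit 858) (nat_lit 836) (nat_lit 0) (XT.nd (nat_lit 390) (nat_lit 456) (nat_lit 0) (XT.nd (nat_lit 156) (nat_lit 228) (nat_lit 0) (XT.nd (nat_lit 78) (nat_lit 76) (nat_lit 0) (XT.lf (nat_lit 0) (nat_lit 2938495010791) (nat_lit 0) (nat_lit 4360381986599) (nat_lit 152) (nat_lit 2938495010791) (nat_lit 189) (nat_lit 3) (nat_lit 189) (nat_lit 1) (nat_lit 191) (nat_lit 1) (nat_lit 194) (nat_lit 367) (nat_lit 339)) (XT.lf (nat_lit 76) (nat_lit 2430253280838) (nat_lit 0) (nat_lit 3666676738063) (nat_lit 76) (nat_lit 3666676738063) (nat_lit 189) (nat_lit 3) (nat_lit 188) (nat_lit 1) (nat_lit 189) (nat_lit 1) (nat_lit 195) (nat_lit 367) (nat_lit 338))) (XT.nd (nat_lit 78) (nat_lit 76)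 (nat_lit 0) (XT.lf (nat_lit 152) (nat_lit 8676234088998) (nat_lit 0) (nat_lit 325803282536) (nat_lit 76) (nat_lit 325803282536) (nat_lit 188) (nat_lit 1) (nat_lit 186) (nat_lit 1) (nat_lit 187) (nat_lit 1) (nat_lit 196) (nat_lit 367) (nat_lit 337)) (XT.nd (nat_lit 78) (nat_lit 76) (nat_lit 0) (XT.lf (nat_lit 0) (nat_lit 2689643200144) (nat_lit 0) (nat_lit 3502611693429) (nat_lit 152) (nat_lit 2689643200144) (nat_lit 186) (nat_lit 3) (nat_lit 186) (nat_lit 1) (nat_lit 188) (nat_lit 1) (nat_lit 197) (nat_lit 367) (nat_lit 336)) (XT.lf (nat_lit 76) (nat_lit 2353165744199) (nat_lit 0) (nat_lit 3060094868795) (nat_lit 76) (nat_lit 3060094868795) (nat_lit 186) (nat_lit 3) (nat_lit 185) (nat_lit 1) (nat_lit 186) (nat_lit 1) (nat_lit 198) (nat_lit 367) (nat_lit 335))))) (XT.nd (nat_lit 234) (nat_lit 228) (nat_lit 0) (XT.nd (nat_lit 78) (nat_lit 76) (nat_lit 0) (XT.lf (nat_lit 152) (nat_lit 7725951776241)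 (nat_lit 0) (nat_lit 186279084214) (nat_lit 76) (nat_lit 186279084214) (nat_lit 185) (nat_lit 1) (nat_lit 183) (nat_lit 1) (nat_lit 184) (nat_lit 1) (nat_lit 199) (nat_lit 367) (nat_lit 334)) (XT.nd (nat_lit 78) (nat_lit 76) (nat_lit 0) (XT.lf (nat_lit 0) (nat_lit 2415681047052) (nat_lit 0) (nat_lit 2880498421653) (nat_lit 152) (nat_lit 2415681047052) (nat_lit 183) (nat_lit 3) (nat_lit 183) (nat_lit 1) (nat_lit 185) (nat_lit 1) (nat_lit 200) (nat_lit 367) (nat_lit 333)) (XT.lf (nat_lit 76) (nat_lit 2183395841462) (nat_lit 0) (nat_lit 2587584862853) (nat_lit 76) (nat_lit 2587584862853) (nat_lit 183) (nat_lit 3) (nat_lit 182) (nat_lit 1) (nat_lit 183) (nat_lit 1) (nat_lit 201) (nat_lit 367) (nat_lit 332)))) (XT.nd (nat_lit 78) (nat_lit 76) (nat_lit 0) (XT.lf (nat_lit 152) (nat_lit 6821935200171) (nat_lit 0) (nat_lit 106505670985) (nat_lit 76) (nat_lit 106505670986) (nat_lit 182) (nat_lit 1) (nat_lit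 180) (nat_lit 1) (nat_lit 181) (nat_lit 1) (nat_lit 202) (nat_lit 367) (nat_lit 331)) (XT.nd (nat_lit 78) (nat_lit 76) (nat_lit 0) (XT.lf (nat_lit 0) (nat_lit 2144537668433) (nat_lit 0) (nat_lit 2410298510969) (nat_lit 152) (nat_lit 2144537668433) (nat_lit 180) (nat_lit 3) (nat_lit 180) (nat_lit 1) (nat_lit 182) (nat_lit 1) (nat_lit 203) (nat_lit 367) (nat_lit 330)) (XT.lf (nat_lit 76) (nat_lit 1977029475985) (nat_lit 0) (nat_lit 2208125860799) (nat_lit 76) (nat_lit 2208125860799) (nat_lit 180) (nat_lit 3) (nat_lit 179) (nat_lit 1) (nat_lit 180) (nat_lit 1) (nat_lit 204) (nat_lit 367) (nat_lit 329)))))) (XT.nd (nat_lit 390) (nat_lit 456) (nat_lit 0) (XT.nd (nat_lit 156) (nat_lit 228) (nat_lit 0) (XT.nd (nat_lit 78) (nat_lit 0) (nat_lit 0) (XT.lf (nat_lit 152) (nat_lit 5991417676106) (nat_lit 0) (nat_lit 60894963060) (nat_lit 76) (nat_lit 60894963060) (nat_lit 179) (nat_lit 1) (nat_lit 177) (nat_lit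 1) (nat_lit 178) (nat_lit 1) (nat_lit 205) (nat_lit 367) (nat_lit 328)) (XT.lf (nat_lit 0) (nat_lit 1889941319583) (nat_lit 0) (nat_lit 2041890943854) (nat_lit 152) (nat_lit 1889941319583) (nat_lit 177) (nat_lit 3) (nat_lit 177) (nat_lit 1) (nat_lit 179) (nat_lit 1) (nat_lit 206) (nat_lit 367) (nat_lit 327))) (XT.nd (nat_lit 78) (nat_lit 152) (nat_lit 0) (XT.lf (nat_lit 76) (nat_lit 1763995469280) (nat_lit 0) (nat_lit 1896125577342) (nat_lit 76) (nat_lit 1896125577342) (nat_lit 177) (nat_lit 3) (nat_lit 176) (nat_lit 1) (nat_lit 177) (nat_lit 1) (nat_lit 207) (nat_lit 367) (nat_lit 326)) (XT.nd (nat_lit 78) (nat_lit 0) (nat_lit 0) (XT.lf (nat_lit 152) (nat_lit 5243833444784) (nat_lit 0) (nat_lit 34816892770) (nat_lit 76) (nat_lit 34816892769) (nat_lit 176) (nat_lit 1) (nat_lit 174) (nat_lit 1) (nat_lit 175) (nat_lit 1) (nat_lit 208) (nat_lit 367) (nat_lit 325)) (XT.lf (nat_lit 0) (nat_lit 1657793081156)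 (nat_lit 0) (nat_lit 1744670771999) (nat_lit 152) (nat_lit 1657793081156) (nat_lit 174) (nat_lit 3) (nat_lit 174) (nat_lit 1) (nat_lit 176) (nat_lit 1) (nat_lit 209) (nat_lit 367) (nat_lit 324))))) (XT.nd (nat_lit 234) (nat_lit 228) (nat_lit 0) (XT.nd (nat_lit 78) (nat_lit 152) (nat_lit 0) (XT.lf (nat_lit 76) (nat_lit 1559546178035) (nat_lit 0) (nat_lit 1635091996160) (nat_lit 76) (nat_lit 1635091996160) (nat_lit 174) (nat_lit 3) (nat_lit 173) (nat_lit 1) (nat_lit 174) (nat_lit 1) (nat_lit 210) (nat_lit 367) (nat_lit 323)) (XT.nd (nat_lit 78) (nat_lit 0) (nat_lit 0) (XT.lf (nat_lit 152) (nat_lit 4579240480768) (nat_lit 0) (nat_lit 19906671442) (nat_lit 76) (nat_lit 19906671442) (nat_lit 173) (nat_lit 1) (nat_lit 171) (nat_lit 1) (nat_lit 172) (nat_lit 1) (nat_lit 211) (nat_lit 367) (nat_lit 322)) (XT.lf (nat_lit 0) (nat_lit 1449772920502) (nat_lit 0) (nat_lit 1499445522211) (nat_lit 152) (nat_lit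 1449772920502) (nat_lit 171) (nat_lit 3) (nat_lit 171) (nat_lit 1) (nat_lit 173) (nat_lit 1) (nat_lit 212) (nat_lit 367) (nat_lit 321)))) (XT.nd (nat_lit 78) (nat_lit 152) (nat_lit 0) (XT.lf (nat_lit 76) (nat_lit 1370785191781) (nat_lit 0) (nat_lit 1413978758485) (nat_lit 76) (nat_lit 1413978758485) (nat_lit 171) (nat_lit 3) (nat_lit 170) (nat_lit 1) (nat_lit 171) (nat_lit 1) (nat_lit 213) (nat_lit 367) (nat_lit 320)) (XT.nd (nat_lit 78) (nat_lit 0) (nat_lit 0) (XT.lf (nat_lit 152) (nat_lit 3993031858850) (nat_lit 0) (nat_lit 11381704006) (nat_lit 76) (nat_lit 11381704006) (nat_lit 170) (nat_lit 1) (nat_lit 168) (nat_lit 1) (nat_lit 169) (nat_lit 1) (nat_lit 214) (nat_lit 367) (nat_lit 319)) (XT.lf (nat_lit 0) (nat_lit 1265368325565) (nat_lit 0) (nat_lit 1293768796809) (nat_lit 152) (nat_lit 1265368325565) (nat_lit 168) (nat_lit 3) (nat_lit 168) (nat_lit 1) (nat_lit 170) (nat_lit 1) (nat_lit 215)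 (nat_lit 367) (nat_lit 318))))))))
noncomputable def ec231 : XT := (XT.nd (nat_lit 1716) (nat_lit 1748) (nat_lit 0) (XT.nd (nat_lit 858) (nat_lit 760) (nat_lit 0) (XT.nd (nat_lit 390) (nat_lit 456) (nat_lit 0) (XT.nd (nat_lit 156) (nat_lit 228) (nat_lit 0) (XT.nd (nat_lit 78) (nat_lit 152) (nat_lit 0) (XT.lf (nat_lit 76) (nat_lit 1200367928357) (nat_lit 0) (nat_lit 1225063990309) (nat_lit 76) (nat_lit 1225063990309) (nat_lit 168) (nat_lit 3) (nat_lit 167) (nat_lit 1) (nat_lit 168) (nat_lit 1) (nat_lit 216) (nat_lit 367) (nat_lit 317)) (XT.lf (nat_lit 152) (nat_lit 3478538709071) (nat_lit 0) (nat_lit 6507526205) (nat_lit 76) (nat_lit 6507526205) (nat_lit 167) (nat_lit 1) (nat_lit 165) (nat_lit 1) (nat_lit 166) (nat_lit 1) (nat_lit 217) (nat_lit 367) (nat_lit 316))) (XT.nd (nat_lit 78) (nat_lit 228) (nat_lit 0) (XT.lf (nat_lit 0) (nat_lit 1103005362573) (nat_lit 0) (nat_lit 1119243424184) (nat_lit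 152) (nat_lit 1103005362573) (nat_lit 165) (nat_lit 3) (nat_lit 165) (nat_lit 1) (nat_lit 167) (nat_lit 1) (nat_lit 218) (nat_lit 367) (nat_lit 315)) (XT.nd (nat_lit 78) (nat_lit 152) (nat_lit 0) (XT.lf (nat_lit 76) (nat_lit 1048589951070) (nat_lit 0) (nat_lit 1062710004644) (nat_lit 76) (nat_lit 1062710004644) (nat_lit 165) (nat_lit 3) (nat_lit 164) (nat_lit 1) (nat_lit 165) (nat_lit 1) (nat_lit 219) (nat_lit 367) (nat_lit 314)) (XT.lf (nat_lit 152) (nat_lit 3028439522065) (nat_lit 0) (nat_lit 3720699229) (nat_lit 76) (nat_lit 3720699229) (nat_lit 164) (nat_lit 1) (nat_lit 162) (nat_lit 1) (nat_lit 163) (nat_lit 1) (nat_lit 220) (nat_lit 367) (nat_lit 313))))) (XT.nd (nat_lit 234) (nat_lit 228) (nat_lit 0) (XT.nd (nat_lit 78) (nat_lit 228) (nat_lit 0) (XT.lf (nat_lit 0) (nat_lit 960670300793) (nat_lit 0) (nat_lit 969954465221) (nat_lit 152) (nat_lit 960670300793) (nat_lit 162) (nat_lit 3) (nat_lit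 162) (nat_lit 1) (nat_lit 164) (nat_lit 1) (nat_lit 221) (nat_lit 367) (nat_lit 312)) (XT.nd (nat_lit 78) (nat_lit 152) (nat_lit 0) (XT.lf (nat_lit 76) (nat_lit 914557048800) (nat_lit 0) (nat_lit 922630235259) (nat_lit 76) (nat_lit 922630235259) (nat_lit 162) (nat_lit 3) (nat_lit 161) (nat_lit 1) (nat_lit 162) (nat_lit 1) (nat_lit 222) (nat_lit 367) (nat_lit 311)) (XT.lf (nat_lit 152) (nat_lit 2635497278199) (nat_lit 0) (nat_lit 2127321860) (nat_lit 76) (nat_lit 2127321860) (nat_lit 161) (nat_lit 1) (nat_lit 159) (nat_lit 1) (nat_lit 160) (nat_lit 1) (nat_lit 223) (nat_lit 367) (nat_lit 310)))) (XT.nd (nat_lit 78) (nat_lit 228) (nat_lit 0) (XT.lf (nat_lit 0) (nat_lit 836243236193) (nat_lit 0) (nat_lit 841551487338) (nat_lit 152) (nat_lit 836243236193) (nat_lit 159) (nat_lit 3) (nat_lit 159) (nat_lit 1) (nat_lit 161) (nat_lit 1) (nat_lit 224) (nat_lit 367) (nat_lit 309)) (XT.nd (nat_lit 78) (nat_lit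 152) (nat_lit 0) (XT.lf (nat_lit 76) (nat_lit 796833431348) (nat_lit 0) (nat_lit 801449301908) (nat_lit 76) (nat_lit 801449301908) (nat_lit 159) (nat_lit 3) (nat_lit 158) (nat_lit 1) (nat_lit 159) (nat_lit 1) (nat_lit 225) (nat_lit 367) (nat_lit 308)) (XT.lf (nat_lit 152) (nat_lit 2292921211584) (nat_lit 0) (nat_lit 1216303177) (nat_lit 76) (nat_lit 1216303177) (nat_lit 158) (nat_lit 1) (nat_lit 156) (nat_lit 1) (nat_lit 157) (nat_lit 1) (nat_lit 226) (nat_lit 367) (nat_lit 307)))))) (XT.nd (nat_lit 390) (nat_lit 456) (nat_lit 0) (XT.nd (nat_lit 156) (nat_lit 228) (nat_lit 0) (XT.nd (nat_lit 78) (nat_lit 76) (nat_lit 0) (XT.lf (nat_lit 0) (nat_lit 727669892025) (nat_lit 0) (nat_lit 730704901845) (nat_lit 152) (nat_lit 727669892025) (nat_lit 156) (nat_lit 3) (nat_lit 156) (nat_lit 1) (nat_lit 158) (nat_lit 1) (nat_lit 227) (nat_lit 367) (nat_lit 306)) (XT.lf (nat_lit 76) (nat_lit 693794248759) (nat_lit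 0) (nat_lit 696433387733) (nat_lit 76) (nat_lit 696433387733) (nat_lit 156) (nat_lit 3) (nat_lit 155) (nat_lit 1) (nat_lit 156) (nat_lit 1) (nat_lit 228) (nat_lit 367) (nat_lit 305))) (XT.nd (nat_lit 78) (nat_lit 76) (nat_lit 0) (XT.lf (nat_lit 152) (nat_lit 1994521743763) (nat_lit 0) (nat_lit 695425289) (nat_lit 76) (nat_lit 695425289) (nat_lit 155) (nat_lit 1) (nat_lit 153) (nat_lit 1) (nat_lit 154) (nat_lit 1) (nat_lit 229) (nat_lit 367) (nat_lit 304)) (XT.nd (nat_lit 78) (nat_lit 76) (nat_lit 0) (XT.lf (nat_lit 0) (nat_lit 633043368247) (nat_lit 0) (nat_lit 634778644962) (nat_lit 152) (nat_lit 633043368247) (nat_lit 153) (nat_lit 3) (nat_lit 153) (nat_lit 1) (nat_lit 155) (nat_lit 1) (nat_lit 230) (nat_lit 367) (nat_lit 303)) (XT.lf (nat_lit 76) (nat_lit 603811416274) (nat_lit 0) (nat_lit 605320352548) (nat_lit 76) (nat_lit 605320352548) (nat_lit 153) (nat_lit 3) (nat_lit 152) (nat_lit 1) (nat_lit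 153) (nat_lit 1) (nat_lit 231) (nat_lit 367) (nat_lit 302))))) (XT.nd (nat_lit 234) (nat_lit 228) (nat_lit 0) (XT.nd (nat_lit 78) (nat_lit 76) (nat_lit 0) (XT.lf (nat_lit 152) (nat_lit 1734753931837) (nat_lit 0) (nat_lit 397611666) (nat_lit 76) (nat_lit 397611666) (nat_lit 152) (nat_lit 1) (nat_lit 150) (nat_lit 1) (nat_lit 151) (nat_lit 1) (nat_lit 232) (nat_lit 367) (nat_lit 301)) (XT.nd (nat_lit 78) (nat_lit 76) (nat_lit 0) (XT.lf (nat_lit 0) (nat_lit 550636553233) (nat_lit 0) (nat_lit 551628703327) (nat_lit 152) (nat_lit 550636553233) (nat_lit 150) (nat_lit 3) (nat_lit 150) (nat_lit 1) (nat_lit 152) (nat_lit 1) (nat_lit 233) (nat_lit 367) (nat_lit 300)) (XT.lf (nat_lit 76) (nat_lit 525346182870) (nat_lit 0) (nat_lit 526208922082) (nat_lit 76) (nat_lit 526208922082) (nat_lit 150) (nat_lit 3) (nat_lit 149) (nat_lit 1) (nat_lit 150) (nat_lit 1) (nat_lit 234) (nat_lit 367) (nat_lit 299)))) (XT.nd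 (nat_lit 78) (nat_lit 76) (nat_lit 0) (XT.lf (nat_lit 152) (nat_lit 1508703061646) (nat_lit 0) (nat_lit 227335760) (nat_lit 76) (nat_lit 227335760) (nat_lit 149) (nat_lit 1) (nat_lit 147) (nat_lit 1) (nat_lit 148) (nat_lit 1) (nat_lit 235) (nat_lit 367) (nat_lit 298)) (XT.nd (nat_lit 78) (nat_lit 76) (nat_lit 0) (XT.lf (nat_lit 0) (nat_lit 478908195441) (nat_lit 0) (nat_lit 479475460477) (nat_lit 152) (nat_lit 478908195441) (nat_lit 147) (nat_lit 3) (nat_lit 147) (nat_lit 1) (nat_lit 149) (nat_lit 1) (nat_lit 236) (nat_lit 367) (nat_lit 297)) (XT.lf (nat_lit 76) (nat_lit 456990164150) (nat_lit 0) (nat_lit 457483438095) (nat_lit 76) (nat_lit 457483438095) (nat_lit 147) (nat_lit 3) (nat_lit 146) (nat_lit 1) (nat_lit 147) (nat_lit 1) (nat_lit 237) (nat_lit 367) (nat_lit 296))))))) (XT.nd (nat_lit 858) (nat_lit 912) (nat_lit 0) (XT.nd (nat_lit 390) (nat_lit 456) (nat_lit 0) (XT.nd (nat_lit 156) (nat_lit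 228) (nat_lit 0) (XT.nd (nat_lit 78) (nat_lit 0) (nat_lit 0) (XT.lf (nat_lit 152) (nat_lit 1312042281535) (nat_lit 0) (nat_lit 129979959) (nat_lit 76) (nat_lit 129979959) (nat_lit 146) (nat_lit 1) (nat_lit 144) (nat_lit 1) (nat_lit 145) (nat_lit 1) (nat_lit 238) (nat_lit 367) (nat_lit 295)) (XT.lf (nat_lit 0) (nat_lit 416495540292) (nat_lit 0) (nat_lit 416819875917) (nat_lit 152) (nat_lit 416495540292) (nat_lit 144) (nat_lit 3) (nat_lit 144) (nat_lit 1) (nat_lit 146) (nat_lit 1) (nat_lit 239) (nat_lit 367) (nat_lit 294))) (XT.nd (nat_lit 78) (nat_lit 152) (nat_lit 0) (XT.lf (nat_lit 76) (nat_lit 397478460891) (nat_lit 0) (nat_lit 397760491870) (nat_lit 76) (nat_lit 397760491870) (nat_lit 144) (nat_lit 3) (nat_lit 143) (nat_lit 1) (nat_lit 144) (nat_lit 1) (nat_lit 240) (nat_lit 367) (nat_lit 293)) (XT.nd (nat_lit 78) (nat_lit 0) (nat_lit 0) (XT.lf (nat_lit 152) (nat_lit 1140978701868) (nat_lit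 0) (nat_lit 74316463) (nat_lit 76) (nat_lit 74316463) (nat_lit 143) (nat_lit 1) (nat_lit 141) (nat_lit 1) (nat_lit 142) (nat_lit 1) (nat_lit 241) (nat_lit 367) (nat_lit 292)) (XT.lf (nat_lit 0) (nat_lit 362200698856) (nat_lit 0) (nat_lit 362386138802) (nat_lit 152) (nat_lit 362200698856) (nat_lit 141) (nat_lit 3) (nat_lit 141) (nat_lit 1) (nat_lit 143) (nat_lit 1) (nat_lit 242) (nat_lit 367) (nat_lit 291))))) (XT.nd (nat_lit 234) (nat_lit 228) (nat_lit 0) (XT.nd (nat_lit 78) (nat_lit 152) (nat_lit 0) (XT.lf (nat_lit 76) (nat_lit 345688166445) (nat_lit 0) (nat_lit 345849418572) (nat_lit 76) (nat_lit 345849418572) (nat_lit 141) (nat_lit 3) (nat_lit 140) (nat_lit 1) (nat_lit 141) (nat_lit 1) (nat_lit 243) (nat_lit 367) (nat_lit 290)) (XT.nd (nat_lit 78) (nat_lit 0) (nat_lit 0) (XT.lf (nat_lit 152) (nat_lit 992196770768) (nat_lit 0) (nat_lit 42490679) (nat_lit 76) (nat_lit 42490679) (nat_lit 140) (nat_lit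 1) (nat_lit 138) (nat_lit 1) (nat_lit 139) (nat_lit 1) (nat_lit 244) (nat_lit 367) (nat_lit 289)) (XT.lf (nat_lit 0) (nat_lit 314974661578) (nat_lit 0) (nat_lit 315080687470) (nat_lit 152) (nat_lit 314974661578) (nat_lit 138) (nat_lit 3) (nat_lit 138) (nat_lit 1) (nat_lit 140) (nat_lit 1) (nat_lit 245) (nat_lit 367) (nat_lit 288)))) (XT.nd (nat_lit 78) (nat_lit 152) (nat_lit 0) (XT.lf (nat_lit 76) (nat_lit 300629693195) (nat_lit 0) (nat_lit 300721889622) (nat_lit 76) (nat_lit 300721889622) (nat_lit 138) (nat_lit 3) (nat_lit 137) (nat_lit 1) (nat_lit 138) (nat_lit 1) (nat_lit 246) (nat_lit 367) (nat_lit 287)) (XT.nd (nat_lit 78) (nat_lit 0) (nat_lit 0) (XT.lf (nat_lit 152) (nat_lit 862803458581) (nat_lit 0) (nat_lit 24294183) (nat_lit 76) (nat_lit 24294183) (nat_lit 137) (nat_lit 1) (nat_lit 135) (nat_lit 1) (nat_lit 136) (nat_lit 1) (nat_lit 247) (nat_lit 367) (nat_lit 286)) (XT.lf (nat_lit 0)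 (nat_lit 273901034125) (nat_lit 0) (nat_lit 273961654772) (nat_lit 152) (nat_lit 273901034125) (nat_lit 135) (nat_lit 3) (nat_lit 135) (nat_lit 1) (nat_lit 137) (nat_lit 1) (nat_lit 248) (nat_lit 367) (nat_lit 285)))))) (XT.nd (nat_lit 468) (nat_lit 456) (nat_lit 0) (XT.nd (nat_lit 234) (nat_lit 228) (nat_lit 0) (XT.nd (nat_lit 78) (nat_lit 152) (nat_lit 0) (XT.lf (nat_lit 76) (nat_lit 261435013299) (nat_lit 0) (nat_lit 261487726906) (nat_lit 76) (nat_lit 261487726906) (nat_lit 135) (nat_lit 3) (nat_lit 134) (nat_lit 1) (nat_lit 135) (nat_lit 1) (nat_lit 249) (nat_lit 367) (nat_lit 284)) (XT.nd (nat_lit 78) (nat_lit 0) (nat_lit 0) (XT.lf (nat_lit 152) (nat_lit 750277403516) (nat_lit 0) (nat_lit 13890278) (nat_lit 76) (nat_lit 13890278) (nat_lit 134) (nat_lit 1) (nat_lit 132) (nat_lit 1) (nat_lit 133) (nat_lit 1) (nat_lit 250) (nat_lit 367) (nat_lit 283)) (XT.lf (nat_lit 0) (nat_lit 238180543570)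 (nat_lit 0) (nat_lit 238215203622) (nat_lit 152) (nat_lit 238180543570) (nat_lit 132) (nat_lit 3) (nat_lit 132) (nat_lit 1) (nat_lit 134) (nat_lit 1) (nat_lit 251) (nat_lit 367) (nat_lit 282)))) (XT.nd (nat_lit 78) (nat_lit 152) (nat_lit 0) (XT.lf (nat_lit 76) (nat_lit 227345022142) (nat_lit 0) (nat_lit 227375161318) (nat_lit 76) (nat_lit 227375161318) (nat_lit 132) (nat_lit 3) (nat_lit 131) (nat_lit 1) (nat_lit 132) (nat_lit 1) (nat_lit 252) (nat_lit 367) (nat_lit 281)) (XT.nd (nat_lit 78) (nat_lit 0) (nat_lit 0) (XT.lf (nat_lit 152) (nat_lit 652422867306) (nat_lit 0) (nat_lit 7941811) (nat_lit 76) (nat_lit 7941811) (nat_lit 131) (nat_lit 1) (nat_lit 129) (nat_lit 1) (nat_lit 130) (nat_lit 1) (nat_lit 253) (nat_lit 367) (nat_lit 280)) (XT.lf (nat_lit 0) (nat_lit 207116793030) (nat_lit 0) (nat_lit 207136610027) (nat_lit 152) (nat_lit 207116793030) (nat_lit 129) (nat_lit 3) (nat_lit 129) (nat_lit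 1) (nat_lit 131) (nat_lit 1) (nat_lit 254) (nat_lit 367) (nat_lit 279))))) (XT.nd (nat_lit 234) (nat_lit 228) (nat_lit 0) (XT.nd (nat_lit 78) (nat_lit 152) (nat_lit 0) (XT.lf (nat_lit 76) (nat_lit 197697171476) (nat_lit 0) (nat_lit 197714403648) (nat_lit 76) (nat_lit 197714403648) (nat_lit 129) (nat_lit 3) (nat_lit 128) (nat_lit 1) (nat_lit 129) (nat_lit 1) (nat_lit 255) (nat_lit 367) (nat_lit 278)) (XT.nd (nat_lit 78) (nat_lit 0) (nat_lit 0) (XT.lf (nat_lit 152) (nat_lit 567328654273) (nat_lit 0) (nat_lit 4540756) (nat_lit 76) (nat_lit 4540756) (nat_lit 128) (nat_lit 1) (nat_lit 126) (nat_lit 1) (nat_lit 127) (nat_lit 1) (nat_lit 256) (nat_lit 367) (nat_lit 277)) (XT.lf (nat_lit 0) (nat_lit 180103432724) (nat_lit 0) (nat_lit 180114763156) (nat_lit 152) (nat_lit 180103432724) (nat_lit 126) (nat_lit 3) (nat_lit 126) (nat_lit 1) (nat_lit 128) (nat_lit 1) (nat_lit 257) (nat_lit 367) (nat_lit 276))))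 (XT.nd (nat_lit 78) (nat_lit 152) (nat_lit 0) (XT.lf (nat_lit 76) (nat_lit 171913927434) (nat_lit 0) (nat_lit 171923779983) (nat_lit 76) (nat_lit 171923779983) (nat_lit 126) (nat_lit 3) (nat_lit 125) (nat_lit 1) (nat_lit 126) (nat_lit 1) (nat_lit 258) (nat_lit 367) (nat_lit 275)) (XT.nd (nat_lit 78) (nat_lit 0) (nat_lit 0) (XT.lf (nat_lit 152) (nat_lit 493331792783) (nat_lit 0) (nat_lit 2596192) (nat_lit 76) (nat_lit 2596192) (nat_lit 125) (nat_lit 1) (nat_lit 123) (nat_lit 1) (nat_lit 124) (nat_lit 1) (nat_lit 259) (nat_lit 367) (nat_lit 274)) (XT.lf (nat_lit 0) (nat_lit 156612751848) (nat_lit 0) (nat_lit 156619230060) (nat_lit 152) (nat_lit 156612751848) (nat_lit 123) (nat_lit 3) (nat_lit 123) (nat_lit 1) (nat_lit 125) (nat_lit 1) (nat_lit 260) (nat_lit 367) (nat_lit 273))))))))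
noncomputable def ec232 : XT := (XT.nd (nat_lit 1716) (nat_lit 1748) (nat_lit 0) (XT.nd (nat_lit 858) (nat_lit 760) (nat_lit 0) (XT.nd (nat_lit 390) (nat_lit 456) (nat_lit 0) (XT.nd (nat_lit 156) (nat_lit 228) (nat_lit 0) (XT.nd (nat_lit 78) (nat_lit 152) (nat_lit 0) (XT.lf (nat_lit 76) (nat_lit 149492283362) (nat_lit 0) (nat_lit 149497916589) (nat_lit 76) (nat_lit 149497916589) (nat_lit 123) (nat_lit 3) (nat_lit 122) (nat_lit 1) (nat_lit 123) (nat_lit 1) (nat_lit 261) (nat_lit 367) (nat_lit 272)) (XT.lf (nat_lit 152) (nat_lit 428985613143) (nat_lit 0) (nat_lit 1484381) (nat_lit 76) (nat_lit 1484381) (nat_lit 122) (nat_lit 1) (nat_lit 120) (nat_lit 1) (nat_lit 121) (nat_lit 1) (nat_lit 262) (nat_lit 367) (nat_lit 271))) (XT.nd (nat_lit 78) (nat_lit 228) (nat_lit 0) (XT.lf (nat_lit 0) (nat_lit 136185614080) (nat_lit 0) (nat_lit 136189318018) (nat_lit 152) (nat_lit 136185614080) (nat_lit 120) (nat_lit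 3) (nat_lit 120) (nat_lit 1) (nat_lit 122) (nat_lit 1) (nat_lit 263) (nat_lit 367) (nat_lit 270)) (XT.nd (nat_lit 78) (nat_lit 152) (nat_lit 0) (XT.lf (nat_lit 76) (nat_lit 129994382889) (nat_lit 0) (nat_lit 129997603705) (nat_lit 76) (nat_lit 129997603705) (nat_lit 120) (nat_lit 3) (nat_lit 119) (nat_lit 1) (nat_lit 120) (nat_lit 1) (nat_lit 264) (nat_lit 367) (nat_lit 269)) (XT.lf (nat_lit 152) (nat_lit 373031794422) (nat_lit 0) (nat_lit 848699) (nat_lit 76) (nat_lit 848699) (nat_lit 119) (nat_lit 1) (nat_lit 117) (nat_lit 1) (nat_lit 118) (nat_lit 1) (nat_lit 265) (nat_lit 367) (nat_lit 268))))) (XT.nd (nat_lit 234) (nat_lit 228) (nat_lit 0) (XT.nd (nat_lit 78) (nat_lit 228) (nat_lit 0) (XT.lf (nat_lit 0) (nat_lit 118422623296) (nat_lit 0) (nat_lit 118424741035) (nat_lit 152) (nat_lit 118422623296) (nat_lit 117) (nat_lit 3) (nat_lit 117) (nat_lit 1) (nat_lit 119) (nat_lit 1) (nat_lit 266) (nat_lit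 367) (nat_lit 267)) (XT.nd (nat_lit 78) (nat_lit 152) (nat_lit 0) (XT.lf (nat_lit 76) (nat_lit 113039218748) (nat_lit 0) (nat_lit 113041060261) (nat_lit 76) (nat_lit 113041060261) (nat_lit 117) (nat_lit 3) (nat_lit 116) (nat_lit 1) (nat_lit 117) (nat_lit 1) (nat_lit 267) (nat_lit 367) (nat_lit 266)) (XT.lf (nat_lit 152) (nat_lit 324375945949) (nat_lit 0) (nat_lit 485246) (nat_lit 76) (nat_lit 485246) (nat_lit 116) (nat_lit 1) (nat_lit 114) (nat_lit 1) (nat_lit 115) (nat_lit 1) (nat_lit 268) (nat_lit 367) (nat_lit 265)))) (XT.nd (nat_lit 78) (nat_lit 228) (nat_lit 0) (XT.lf (nat_lit 0) (nat_lit 102976394389) (nat_lit 0) (nat_lit 102977605213) (nat_lit 152) (nat_lit 102976394389) (nat_lit 114) (nat_lit 3) (nat_lit 114) (nat_lit 1) (nat_lit 116) (nat_lit 1) (nat_lit 269) (nat_lit 367) (nat_lit 264)) (XT.nd (nat_lit 78) (nat_lit 152) (nat_lit 0) (XT.lf (nat_lit 76) (nat_lit 98295330131) (nat_lit 0)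 (nat_lit 98296383022) (nat_lit 76) (nat_lit 98296383022) (nat_lit 114) (nat_lit 3) (nat_lit 113) (nat_lit 1) (nat_lit 114) (nat_lit 1) (nat_lit 270) (nat_lit 367) (nat_lit 263)) (XT.lf (nat_lit 152) (nat_lit 282066310131) (nat_lit 0) (nat_lit 277441) (nat_lit 76) (nat_lit 277441) (nat_lit 113) (nat_lit 1) (nat_lit 111) (nat_lit 1) (nat_lit 112) (nat_lit 1) (nat_lit 271) (nat_lit 367) (nat_lit 262)))))) (XT.nd (nat_lit 390) (nat_lit 456) (nat_lit 0) (XT.nd (nat_lit 156) (nat_lit 228) (nat_lit 0) (XT.nd (nat_lit 78) (nat_lit 76) (nat_lit 0) (XT.lf (nat_lit 0) (nat_lit 89544805248) (nat_lit 0) (nat_lit 89545497541) (nat_lit 152) (nat_lit 89544805248) (nat_lit 111) (nat_lit 3) (nat_lit 111) (nat_lit 1) (nat_lit 113) (nat_lit 1) (nat_lit 272) (nat_lit 367) (nat_lit 261)) (XT.lf (nat_lit 76) (nat_lit 85474404406) (nat_lit 0) (nat_lit 85475006399) (nat_lit 76) (nat_lit 85475006399) (nat_lit 111) (nat_lit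 3) (nat_lit 110) (nat_lit 1) (nat_lit 111) (nat_lit 1) (nat_lit 273) (nat_lit 367) (nat_lit 260))) (XT.nd (nat_lit 78) (nat_lit 76) (nat_lit 0) (XT.lf (nat_lit 152) (nat_lit 245275206761) (nat_lit 0) (nat_lit 158628) (nat_lit 76) (nat_lit 158628) (nat_lit 110) (nat_lit 1) (nat_lit 108) (nat_lit 1) (nat_lit 109) (nat_lit 1) (nat_lit 274) (nat_lit 367) (nat_lit 259)) (XT.nd (nat_lit 78) (nat_lit 76) (nat_lit 0) (XT.lf (nat_lit 0) (nat_lit 77865113494) (nat_lit 0) (nat_lit 77865509314) (nat_lit 152) (nat_lit 77865113494) (nat_lit 108) (nat_lit 3) (nat_lit 108) (nat_lit 1) (nat_lit 110) (nat_lit 1) (nat_lit 275) (nat_lit 367) (nat_lit 258)) (XT.lf (nat_lit 76) (nat_lit 74325685852) (nat_lit 0) (nat_lit 74326030044) (nat_lit 76) (nat_lit 74326030044) (nat_lit 108) (nat_lit 3) (nat_lit 107) (nat_lit 1) (nat_lit 108) (nat_lit 1) (nat_lit 276) (nat_lit 367) (nat_lit 257))))) (XT.nd (nat_lit 234) (nat_lit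 228) (nat_lit 0) (XT.nd (nat_lit 78) (nat_lit 76) (nat_lit 0) (XT.lf (nat_lit 152) (nat_lit 213282876809) (nat_lit 0) (nat_lit 90696) (nat_lit 76) (nat_lit 90696) (nat_lit 107) (nat_lit 1) (nat_lit 105) (nat_lit 1) (nat_lit 106) (nat_lit 1) (nat_lit 277) (nat_lit 367) (nat_lit 256)) (XT.nd (nat_lit 78) (nat_lit 76) (nat_lit 0) (XT.lf (nat_lit 0) (nat_lit 67708831764) (nat_lit 0) (nat_lit 67709058076) (nat_lit 152) (nat_lit 67708831764) (nat_lit 105) (nat_lit 3) (nat_lit 105) (nat_lit 1) (nat_lit 107) (nat_lit 1) (nat_lit 278) (nat_lit 367) (nat_lit 255)) (XT.lf (nat_lit 76) (nat_lit 64631097959) (nat_lit 0) (nat_lit 64631294752) (nat_lit 76) (nat_lit 64631294752) (nat_lit 105) (nat_lit 3) (nat_lit 104) (nat_lit 1) (nat_lit 105) (nat_lit 1) (nat_lit 279) (nat_lit 367) (nat_lit 254)))) (XT.nd (nat_lit 78) (nat_lit 76) (nat_lit 0) (XT.lf (nat_lit 152) (nat_lit 185463421635) (nat_lit 0) (nat_lit 51855)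 (nat_lit 76) (nat_lit 51855) (nat_lit 104) (nat_lit 1) (nat_lit 102) (nat_lit 1) (nat_lit 103) (nat_lit 1) (nat_lit 280) (nat_lit 367) (nat_lit 253)) (XT.nd (nat_lit 78) (nat_lit 76) (nat_lit 0) (XT.lf (nat_lit 0) (nat_lit 58877266409) (nat_lit 0) (nat_lit 58877395803) (nat_lit 152) (nat_lit 58877266409) (nat_lit 102) (nat_lit 3) (nat_lit 102) (nat_lit 1) (nat_lit 104) (nat_lit 1) (nat_lit 281) (nat_lit 367) (nat_lit 252)) (XT.lf (nat_lit 76) (nat_lit 56200992931) (nat_lit 0) (nat_lit 56201105447) (nat_lit 76) (nat_lit 56201105447) (nat_lit 102) (nat_lit 3) (nat_lit 101) (nat_lit 1) (nat_lit 102) (nat_lit 1) (nat_lit 282) (nat_lit 367) (nat_lit 251))))))) (XT.nd (nat_lit 858) (nat_lit 912) (nat_lit 0) (XT.nd (nat_lit 390) (nat_lit 456) (nat_lit 0) (XT.nd (nat_lit 156) (nat_lit 228) (nat_lit 0) (XT.nd (nat_lit 78) (nat_lit 0) (nat_lit 0) (XT.lf (nat_lit 152) (nat_lit 161272569425) (nat_lit 0) (nat_lit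 29648) (nat_lit 76) (nat_lit 29648) (nat_lit 101) (nat_lit 1) (nat_lit 99) (nat_lit 1) (nat_lit 100) (nat_lit 1) (nat_lit 283) (nat_lit 367) (nat_lit 250)) (XT.lf (nat_lit 0) (nat_lit 51197635198) (nat_lit 0) (nat_lit 51197709179) (nat_lit 152) (nat_lit 51197635198) (nat_lit 99) (nat_lit 3) (nat_lit 99) (nat_lit 1) (nat_lit 101) (nat_lit 1) (nat_lit 284) (nat_lit 367) (nat_lit 249))) (XT.nd (nat_lit 78) (nat_lit 152) (nat_lit 0) (XT.lf (nat_lit 76) (nat_lit 48870450467) (nat_lit 0) (nat_lit 48870514799) (nat_lit 76) (nat_lit 48870514799) (nat_lit 99) (nat_lit 3) (nat_lit 98) (nat_lit 1) (nat_lit 99) (nat_lit 1) (nat_lit 285) (nat_lit 367) (nat_lit 248)) (XT.nd (nat_lit 78) (nat_lit 0) (nat_lit 0) (XT.lf (nat_lit 152) (nat_lit 140237033399) (nat_lit 0) (nat_lit 16951) (nat_lit 76) (nat_lit 16951) (nat_lit 98) (nat_lit 1) (nat_lit 96) (nat_lit 1) (nat_lit 97) (nat_lit 1) (nat_lit 286) (nat_lit 367)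 (nat_lit 247)) (XT.lf (nat_lit 0) (nat_lit 44519689775) (nat_lit 0) (nat_lit 44519732074) (nat_lit 152) (nat_lit 44519689775) (nat_lit 96) (nat_lit 3) (nat_lit 96) (nat_lit 1) (nat_lit 98) (nat_lit 1) (nat_lit 287) (nat_lit 367) (nat_lit 246))))) (XT.nd (nat_lit 234) (nat_lit 228) (nat_lit 0) (XT.nd (nat_lit 78) (nat_lit 152) (nat_lit 0) (XT.lf (nat_lit 76) (nat_lit 42496056366) (nat_lit 0) (nat_lit 42496093148) (nat_lit 76) (nat_lit 42496093148) (nat_lit 96) (nat_lit 3) (nat_lit 95) (nat_lit 1) (nat_lit 96) (nat_lit 1) (nat_lit 288) (nat_lit 367) (nat_lit 245)) (XT.nd (nat_lit 78) (nat_lit 0) (nat_lit 0) (XT.lf (nat_lit 152) (nat_lit 121945255872) (nat_lit 0) (nat_lit 9692) (nat_lit 76) (nat_lit 9692) (nat_lit 95) (nat_lit 1) (nat_lit 93) (nat_lit 1) (nat_lit 94) (nat_lit 1) (nat_lit 289) (nat_lit 367) (nat_lit 244)) (XT.lf (nat_lit 0) (nat_lit 38712777716) (nat_lit 0) (nat_lit 38712801901) (nat_lit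 152) (nat_lit 38712777716) (nat_lit 93) (nat_lit 3) (nat_lit 93) (nat_lit 1) (nat_lit 95) (nat_lit 1) (nat_lit 290) (nat_lit 367) (nat_lit 243)))) (XT.nd (nat_lit 78) (nat_lit 152) (nat_lit 0) (XT.lf (nat_lit 76) (nat_lit 36953099629) (nat_lit 0) (nat_lit 36953120659) (nat_lit 76) (nat_lit 36953120659) (nat_lit 93) (nat_lit 3) (nat_lit 92) (nat_lit 1) (nat_lit 93) (nat_lit 1) (nat_lit 291) (nat_lit 367) (nat_lit 242)) (XT.nd (nat_lit 78) (nat_lit 0) (nat_lit 0) (XT.lf (nat_lit 152) (nat_lit 106039358329) (nat_lit 0) (nat_lit 5541) (nat_lit 76) (nat_lit 5541) (nat_lit 92) (nat_lit 1) (nat_lit 90) (nat_lit 1) (nat_lit 91) (nat_lit 1) (nat_lit 292) (nat_lit 367) (nat_lit 241)) (XT.lf (nat_lit 0) (nat_lit 33663287257) (nat_lit 0) (nat_lit 33663301085) (nat_lit 152) (nat_lit 33663287257) (nat_lit 90) (nat_lit 3) (nat_lit 90) (nat_lit 1) (nat_lit 92) (nat_lit 1) (nat_lit 293) (nat_lit 367) (nat_lit 240))))))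 (XT.nd (nat_lit 390) (nat_lit 456) (nat_lit 0) (XT.nd (nat_lit 156) (nat_lit 228) (nat_lit 0) (XT.nd (nat_lit 78) (nat_lit 152) (nat_lit 0) (XT.lf (nat_lit 76) (nat_lit 32133134193) (nat_lit 0) (nat_lit 32133146217) (nat_lit 76) (nat_lit 32133146217) (nat_lit 90) (nat_lit 3) (nat_lit 89) (nat_lit 1) (nat_lit 90) (nat_lit 1) (nat_lit 294) (nat_lit 367) (nat_lit 239)) (XT.lf (nat_lit 152) (nat_lit 92208140762) (nat_lit 0) (nat_lit 3168) (nat_lit 76) (nat_lit 3168) (nat_lit 89) (nat_lit 1) (nat_lit 87) (nat_lit 1) (nat_lit 88) (nat_lit 1) (nat_lit 295) (nat_lit 367) (nat_lit 238))) (XT.nd (nat_lit 78) (nat_lit 228) (nat_lit 0) (XT.lf (nat_lit 0) (nat_lit 29272425009) (nat_lit 0) (nat_lit 29272432915) (nat_lit 152) (nat_lit 29272425009) (nat_lit 87) (nat_lit 3) (nat_lit 87) (nat_lit 1) (nat_lit 89) (nat_lit 1) (nat_lit 296) (nat_lit 367) (nat_lit 237)) (XT.nd (nat_lit 78) (nat_lit 152) (nat_lit 0)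 (XT.lf (nat_lit 76) (nat_lit 27941858153) (nat_lit 0) (nat_lit 27941865028) (nat_lit 76) (nat_lit 27941865028) (nat_lit 87) (nat_lit 3) (nat_lit 86) (nat_lit 1) (nat_lit 87) (nat_lit 1) (nat_lit 297) (nat_lit 367) (nat_lit 236)) (XT.lf (nat_lit 152) (nat_lit 80180993731) (nat_lit 0) (nat_lit 1811) (nat_lit 76) (nat_lit 1811) (nat_lit 86) (nat_lit 1) (nat_lit 84) (nat_lit 1) (nat_lit 85) (nat_lit 1) (nat_lit 298) (nat_lit 367) (nat_lit 235))))) (XT.nd (nat_lit 234) (nat_lit 228) (nat_lit 0) (XT.nd (nat_lit 78) (nat_lit 228) (nat_lit 0) (XT.lf (nat_lit 0) (nat_lit 25454283364) (nat_lit 0) (nat_lit 25454287884) (nat_lit 152) (nat_lit 25454283364) (nat_lit 84) (nat_lit 3) (nat_lit 84) (nat_lit 1) (nat_lit 86) (nat_lit 1) (nat_lit 299) (nat_lit 367) (nat_lit 234)) (XT.nd (nat_lit 78) (nat_lit 152) (nat_lit 0) (XT.lf (nat_lit 76) (nat_lit 24297269293) (nat_lit 0) (nat_lit 24297273223) (nat_lit 76) (nat_lit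 24297273223) (nat_lit 84) (nat_lit 3) (nat_lit 83) (nat_lit 1) (nat_lit 84) (nat_lit 1) (nat_lit 300) (nat_lit 367) (nat_lit 233)) (XT.lf (nat_lit 152) (nat_lit 69722604253) (nat_lit 0) (nat_lit 1035) (nat_lit 76) (nat_lit 1035) (nat_lit 83) (nat_lit 1) (nat_lit 81) (nat_lit 1) (nat_lit 82) (nat_lit 1) (nat_lit 301) (nat_lit 367) (nat_lit 232)))) (XT.nd (nat_lit 78) (nat_lit 228) (nat_lit 0) (XT.lf (nat_lit 0) (nat_lit 22134159874) (nat_lit 0) (nat_lit 22134162459) (nat_lit 152) (nat_lit 22134159874) (nat_lit 81) (nat_lit 3) (nat_lit 81) (nat_lit 1) (nat_lit 83) (nat_lit 1) (nat_lit 302) (nat_lit 367) (nat_lit 231)) (XT.nd (nat_lit 78) (nat_lit 152) (nat_lit 0) (XT.lf (nat_lit 76) (nat_lit 21128061017) (nat_lit 0) (nat_lit 21128063265) (nat_lit 76) (nat_lit 21128063265) (nat_lit 81) (nat_lit 3) (nat_lit 80) (nat_lit 1) (nat_lit 81) (nat_lit 1) (nat_lit 303) (nat_lit 367) (nat_lit 230)) (XT.lf (nat_lit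 152) (nat_lit 60628352101) (nat_lit 0) (nat_lit 592) (nat_lit 76) (nat_lit 592) (nat_lit 80) (nat_lit 1) (nat_lit 78) (nat_lit 1) (nat_lit 79) (nat_lit 1) (nat_lit 304) (nat_lit 367) (nat_lit 229))))))))
noncomputable def ec233 : XT := (XT.nd (nat_lit 1716) (nat_lit 1672) (nat_lit 0) (XT.nd (nat_lit 858) (nat_lit 836) (nat_lit 0) (XT.nd (nat_lit 390) (nat_lit 456) (nat_lit 0) (XT.nd (nat_lit 156) (nat_lit 228) (nat_lit 0) (XT.nd (nat_lit 78) (nat_lit 76) (nat_lit 0) (XT.lf (nat_lit 0) (nat_lit 19247095787) (nat_lit 0) (nat_lit 19247097265) (nat_lit 152) (nat_lit 19247095787) (nat_lit 78) (nat_lit 3) (nat_lit 78) (nat_lit 1) (nat_lit 80) (nat_lit 1) (nat_lit 305) (nat_lit 367) (nat_lit 228)) (XT.lf (nat_lit 76) (nat_lit 18372227407) (nat_lit 0) (nat_lit 18372228692) (nat_lit 76) (nat_lit 18372228692) (nat_lit 78) (nat_lit 3) (nat_lit 77) (nat_lit 1) (nat_lit 78) (nat_lit 1) (nat_lit 306) (nat_lit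 367) (nat_lit 227))) (XT.nd (nat_lit 78) (nat_lit 76) (nat_lit 0) (XT.lf (nat_lit 152) (nat_lit 52720306505) (nat_lit 0) (nat_lit 338) (nat_lit 76) (nat_lit 338) (nat_lit 77) (nat_lit 1) (nat_lit 75) (nat_lit 1) (nat_lit 76) (nat_lit 1) (nat_lit 307) (nat_lit 367) (nat_lit 226)) (XT.nd (nat_lit 78) (nat_lit 76) (nat_lit 0) (XT.lf (nat_lit 0) (nat_lit 16736605172) (nat_lit 0) (nat_lit 16736606017) (nat_lit 152) (nat_lit 16736605172) (nat_lit 75) (nat_lit 3) (nat_lit 75) (nat_lit 1) (nat_lit 77) (nat_lit 1) (nat_lit 308) (nat_lit 367) (nat_lit 225)) (XT.lf (nat_lit 76) (nat_lit 15975850169) (nat_lit 0) (nat_lit 15975850903) (nat_lit 76) (nat_lit 15975850903) (nat_lit 75) (nat_lit 3) (nat_lit 74) (nat_lit 1) (nat_lit 75) (nat_lit 1) (nat_lit 309) (nat_lit 367) (nat_lit 224))))) (XT.nd (nat_lit 234) (nat_lit 228) (nat_lit 0) (XT.nd (nat_lit 78) (nat_lit 76) (nat_lit 0) (XT.lf (nat_lit 152) (nat_lit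 45843744975) (nat_lit 0) (nat_lit 193) (nat_lit 76) (nat_lit 193) (nat_lit 74) (nat_lit 1) (nat_lit 72) (nat_lit 1) (nat_lit 73) (nat_lit 1) (nat_lit 310) (nat_lit 367) (nat_lit 223)) (XT.nd (nat_lit 78) (nat_lit 76) (nat_lit 0) (XT.lf (nat_lit 0) (nat_lit 14553569795) (nat_lit 0) (nat_lit 14553570278) (nat_lit 152) (nat_lit 14553569795) (nat_lit 72) (nat_lit 3) (nat_lit 72) (nat_lit 1) (nat_lit 74) (nat_lit 1) (nat_lit 311) (nat_lit 367) (nat_lit 222)) (XT.lf (nat_lit 76) (nat_lit 13892043767) (nat_lit 0) (nat_lit 13892044188) (nat_lit 76) (nat_lit 13892044188) (nat_lit 72) (nat_lit 3) (nat_lit 71) (nat_lit 1) (nat_lit 72) (nat_lit 1) (nat_lit 312) (nat_lit 367) (nat_lit 221)))) (XT.nd (nat_lit 78) (nat_lit 76) (nat_lit 0) (XT.lf (nat_lit 152) (nat_lit 39864126173) (nat_lit 0) (nat_lit 110) (nat_lit 76) (nat_lit 110) (nat_lit 71) (nat_lit 1) (nat_lit 69) (nat_lit 1) (nat_lit 70) (nat_lit 1) (nat_lit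 313) (nat_lit 367) (nat_lit 220)) (XT.nd (nat_lit 78) (nat_lit 76) (nat_lit 0) (XT.lf (nat_lit 0) (nat_lit 12655278128) (nat_lit 0) (nat_lit 12655278404) (nat_lit 152) (nat_lit 12655278128) (nat_lit 69) (nat_lit 3) (nat_lit 69) (nat_lit 1) (nat_lit 71) (nat_lit 1) (nat_lit 314) (nat_lit 367) (nat_lit 219)) (XT.lf (nat_lit 76) (nat_lit 12080038140) (nat_lit 0) (nat_lit 12080038380) (nat_lit 76) (nat_lit 12080038380) (nat_lit 69) (nat_lit 3) (nat_lit 68) (nat_lit 1) (nat_lit 69) (nat_lit 1) (nat_lit 315) (nat_lit 367) (nat_lit 218)))))) (XT.nd (nat_lit 390) (nat_lit 456) (nat_lit 0) (XT.nd (nat_lit 156) (nat_lit 228) (nat_lit 0) (XT.nd (nat_lit 78) (nat_lit 0) (nat_lit 0) (XT.lf (nat_lit 152) (nat_lit 34664457603) (nat_lit 0) (nat_lit 63) (nat_lit 76) (nat_lit 63) (nat_lit 68) (nat_lit 1) (nat_lit 66) (nat_lit 1) (nat_lit 67) (nat_lit 1) (nat_lit 316) (nat_lit 367) (nat_lit 217)) (XT.lf (nat_lit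 0) (nat_lit 11004589702) (nat_lit 0) (nat_lit 11004589860) (nat_lit 152) (nat_lit 11004589702) (nat_lit 66) (nat_lit 3) (nat_lit 66) (nat_lit 1) (nat_lit 68) (nat_lit 1) (nat_lit 317) (nat_lit 367) (nat_lit 216))) (XT.nd (nat_lit 78) (nat_lit 152) (nat_lit 0) (XT.lf (nat_lit 76) (nat_lit 10504381038) (nat_lit 0) (nat_lit 10504381175) (nat_lit 76) (nat_lit 10504381175) (nat_lit 66) (nat_lit 3) (nat_lit 65) (nat_lit 1) (nat_lit 66) (nat_lit 1) (nat_lit 318) (nat_lit 367) (nat_lit 215)) (XT.nd (nat_lit 78) (nat_lit 0) (nat_lit 0) (XT.lf (nat_lit 152) (nat_lit 30143006647) (nat_lit 0) (nat_lit 36) (nat_lit 76) (nat_lit 36) (nat_lit 65) (nat_lit 1) (nat_lit 63) (nat_lit 1) (nat_lit 64) (nat_lit 1) (nat_lit 319) (nat_lit 367) (nat_lit 214)) (XT.lf (nat_lit 0) (nat_lit 9569208452) (nat_lit 0) (nat_lit 9569208542) (nat_lit 152) (nat_lit 9569208452) (nat_lit 63) (nat_lit 3) (nat_lit 63) (nat_lit 1) (nat_lit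 65) (nat_lit 1) (nat_lit 320) (nat_lit 367) (nat_lit 213))))) (XT.nd (nat_lit 234) (nat_lit 228) (nat_lit 0) (XT.nd (nat_lit 78) (nat_lit 152) (nat_lit 0) (XT.lf (nat_lit 76) (nat_lit 9134244407) (nat_lit 0) (nat_lit 9134244486) (nat_lit 76) (nat_lit 9134244486) (nat_lit 63) (nat_lit 3) (nat_lit 62) (nat_lit 1) (nat_lit 63) (nat_lit 1) (nat_lit 321) (nat_lit 367) (nat_lit 212)) (XT.nd (nat_lit 78) (nat_lit 0) (nat_lit 0) (XT.lf (nat_lit 152) (nat_lit 26211310148) (nat_lit 0) (nat_lit 20) (nat_lit 76) (nat_lit 20) (nat_lit 62) (nat_lit 1) (nat_lit 60) (nat_lit 1) (nat_lit 61) (nat_lit 1) (nat_lit 322) (nat_lit 367) (nat_lit 211)) (XT.lf (nat_lit 0) (nat_lit 8321050836) (nat_lit 0) (nat_lit 8321050888) (nat_lit 152) (nat_lit 8321050836) (nat_lit 60) (nat_lit 3) (nat_lit 60) (nat_lit 1) (nat_lit 62) (nat_lit 1) (nat_lit 323) (nat_lit 367) (nat_lit 210)))) (XT.nd (nat_lit 78) (nat_lit 152) (nat_lit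 0) (XT.lf (nat_lit 76) (nat_lit 7942821239) (nat_lit 0) (nat_lit 7942821284) (nat_lit 76) (nat_lit 7942821284) (nat_lit 60) (nat_lit 3) (nat_lit 59) (nat_lit 1) (nat_lit 60) (nat_lit 1) (nat_lit 324) (nat_lit 367) (nat_lit 209)) (XT.nd (nat_lit 78) (nat_lit 0) (nat_lit 0) (XT.lf (nat_lit 152) (nat_lit 22792443618) (nat_lit 0) (nat_lit 11) (nat_lit 76) (nat_lit 11) (nat_lit 59) (nat_lit 1) (nat_lit 57) (nat_lit 1) (nat_lit 58) (nat_lit 1) (nat_lit 325) (nat_lit 367) (nat_lit 208)) (XT.lf (nat_lit 0) (nat_lit 7235696384) (nat_lit 0) (nat_lit 7235696414) (nat_lit 152) (nat_lit 7235696384) (nat_lit 57) (nat_lit 3) (nat_lit 57) (nat_lit 1) (nat_lit 59) (nat_lit 1) (nat_lit 326) (nat_lit 367) (nat_lit 207))))))) (XT.nd (nat_lit 858) (nat_lit 760) (nat_lit 0) (XT.nd (nat_lit 390) (nat_lit 456) (nat_lit 0) (XT.nd (nat_lit 156) (nat_lit 228) (nat_lit 0) (XT.nd (nat_lit 78) (nat_lit 152) (nat_lit 0) (XT.lf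 (nat_lit 76) (nat_lit 6906801086) (nat_lit 0) (nat_lit 6906801112) (nat_lit 76) (nat_lit 6906801112) (nat_lit 57) (nat_lit 3) (nat_lit 56) (nat_lit 1) (nat_lit 57) (nat_lit 1) (nat_lit 327) (nat_lit 367) (nat_lit 206)) (XT.lf (nat_lit 152) (nat_lit 19819516196) (nat_lit 0) (nat_lit 6) (nat_lit 76) (nat_lit 6) (nat_lit 56) (nat_lit 1) (nat_lit 54) (nat_lit 1) (nat_lit 55) (nat_lit 1) (nat_lit 328) (nat_lit 367) (nat_lit 205))) (XT.nd (nat_lit 78) (nat_lit 228) (nat_lit 0) (XT.lf (nat_lit 0) (nat_lit 6291909902) (nat_lit 0) (nat_lit 6291909919) (nat_lit 152) (nat_lit 6291909902) (nat_lit 54) (nat_lit 3) (nat_lit 54) (nat_lit 1) (nat_lit 56) (nat_lit 1) (nat_lit 329) (nat_lit 367) (nat_lit 204)) (XT.nd (nat_lit 78) (nat_lit 152) (nat_lit 0) (XT.lf (nat_lit 76) (nat_lit 6005913993) (nat_lit 0) (nat_lit 6005914007) (nat_lit 76) (nat_lit 6005914007) (nat_lit 54) (nat_lit 3) (nat_lit 53) (nat_lit 1) (nat_lit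 54) (nat_lit 1) (nat_lit 330) (nat_lit 367) (nat_lit 203)) (XT.lf (nat_lit 152) (nat_lit 17234361913) (nat_lit 0) (nat_lit 3) (nat_lit 76) (nat_lit 3) (nat_lit 53) (nat_lit 1) (nat_lit 51) (nat_lit 1) (nat_lit 52) (nat_lit 1) (nat_lit 331) (nat_lit 367) (nat_lit 202))))) (XT.nd (nat_lit 234) (nat_lit 228) (nat_lit 0) (XT.nd (nat_lit 78) (nat_lit 228) (nat_lit 0) (XT.lf (nat_lit 0) (nat_lit 5471226003) (nat_lit 0) (nat_lit 5471226013) (nat_lit 152) (nat_lit 5471226003) (nat_lit 51) (nat_lit 3) (nat_lit 51) (nat_lit 1) (nat_lit 53) (nat_lit 1) (nat_lit 332) (nat_lit 367) (nat_lit 201)) (XT.nd (nat_lit 78) (nat_lit 152) (nat_lit 0) (XT.lf (nat_lit 76) (nat_lit 5222533910) (nat_lit 0) (nat_lit 5222533918) (nat_lit 76) (nat_lit 5222533918) (nat_lit 51) (nat_lit 3) (nat_lit 50) (nat_lit 1) (nat_lit 51) (nat_lit 1) (nat_lit 333) (nat_lit 367) (nat_lit 200)) (XT.lf (nat_lit 152) (nat_lit 14986401666) (nat_lit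 0) (nat_lit 2) (nat_lit 76) (nat_lit 2) (nat_lit 50) (nat_lit 1) (nat_lit 48) (nat_lit 1) (nat_lit 49) (nat_lit 1) (nat_lit 334) (nat_lit 367) (nat_lit 199)))) (XT.nd (nat_lit 78) (nat_lit 228) (nat_lit 0) (XT.lf (nat_lit 0) (nat_lit 4757587830) (nat_lit 0) (nat_lit 4757587835) (nat_lit 152) (nat_lit 4757587830) (nat_lit 48) (nat_lit 3) (nat_lit 48) (nat_lit 1) (nat_lit 50) (nat_lit 1) (nat_lit 335) (nat_lit 367) (nat_lit 198)) (XT.nd (nat_lit 78) (nat_lit 152) (nat_lit 0) (XT.lf (nat_lit 76) (nat_lit 4541333836) (nat_lit 0) (nat_lit 4541333841) (nat_lit 76) (nat_lit 4541333841) (nat_lit 48) (nat_lit 3) (nat_lit 47) (nat_lit 1) (nat_lit 48) (nat_lit 1) (nat_lit 336) (nat_lit 367) (nat_lit 197)) (XT.lf (nat_lit 152) (nat_lit 13031653624) (nat_lit 0) (nat_lit 1) (nat_lit 76) (nat_lit 1) (nat_lit 47) (nat_lit 1) (nat_lit 45) (nat_lit 1) (nat_lit 46) (nat_lit 1) (nat_lit 337) (nat_lit 367) (nat_lit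 196)))))) (XT.nd (nat_lit 468) (nat_lit 456) (nat_lit 0) (XT.nd (nat_lit 234) (nat_lit 228) (nat_lit 0) (XT.nd (nat_lit 78) (nat_lit 76) (nat_lit 0) (XT.lf (nat_lit 0) (nat_lit 4137032896) (nat_lit 0) (nat_lit 4137032899) (nat_lit 152) (nat_lit 4137032896) (nat_lit 45) (nat_lit 3) (nat_lit 45) (nat_lit 1) (nat_lit 47) (nat_lit 1) (nat_lit 338) (nat_lit 367) (nat_lit 195)) (XT.nd (nat_lit 78) (nat_lit 0) (nat_lit 0) (XT.lf (nat_lit 76) (nat_lit 3948985945) (nat_lit 0) (nat_lit 3948985948) (nat_lit 76) (nat_lit 3948985948) (nat_lit 45) (nat_lit 3) (nat_lit 44) (nat_lit 1) (nat_lit 45) (nat_lit 1) (nat_lit 339) (nat_lit 367) (nat_lit 194)) (XT.lf (nat_lit 0) (nat_lit 11331872717) (nat_lit 0) (nat_lit 0) (nat_lit 0) (nat_lit 0) (nat_lit 44) (nat_lit 1) (nat_lit 1) (nat_lit 0) (nat_lit 1) (nat_lit 0) (nat_lit 340) (nat_lit 367) (nat_lit 193)))) (XT.nd (nat_lit 78) (nat_lit 76) (nat_lit 0) (XT.lf (nat_lit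 0) (nat_lit 3597419910) (nat_lit 0) (nat_lit 3597419911) (nat_lit 152) (nat_lit 3597419910) (nat_lit 42) (nat_lit 3) (nat_lit 42) (nat_lit 1) (nat_lit 44) (nat_lit 1) (nat_lit 341) (nat_lit 367) (nat_lit 192)) (XT.nd (nat_lit 78) (nat_lit 0) (nat_lit 0) (XT.lf (nat_lit 76) (nat_lit 3433900822) (nat_lit 0) (nat_lit 3433900824) (nat_lit 76) (nat_lit 3433900824) (nat_lit 42) (nat_lit 3) (nat_lit 41) (nat_lit 1) (nat_lit 42) (nat_lit 1) (nat_lit 342) (nat_lit 367) (nat_lit 191)) (XT.lf (nat_lit 0) (nat_lit 9853802363) (nat_lit 0) (nat_lit 0) (nat_lit 0) (nat_lit 0) (nat_lit 41) (nat_lit 1) (nat_lit 1) (nat_lit 0) (nat_lit 1) (nat_lit 0) (nat_lit 343) (nat_lit 367) (nat_lit 190))))) (XT.nd (nat_lit 234) (nat_lit 228) (nat_lit 0) (XT.nd (nat_lit 78) (nat_lit 76) (nat_lit 0) (XT.lf (nat_lit 0) (nat_lit 3128191226) (nat_lit 0) (nat_lit 3128191227) (nat_lit 152) (nat_lit 3128191226) (nat_lit 39) (nat_lit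 3) (nat_lit 39) (nat_lit 1) (nat_lit 41) (nat_lit 1) (nat_lit 344) (nat_lit 367) (nat_lit 189)) (XT.nd (nat_lit 78) (nat_lit 0) (nat_lit 0) (XT.lf (nat_lit 76) (nat_lit 2986000715) (nat_lit 0) (nat_lit 2986000716) (nat_lit 76) (nat_lit 2986000716) (nat_lit 39) (nat_lit 3) (nat_lit 38) (nat_lit 1) (nat_lit 39) (nat_lit 1) (nat_lit 345) (nat_lit 367) (nat_lit 188)) (XT.lf (nat_lit 0) (nat_lit 8568523794) (nat_lit 0) (nat_lit 0) (nat_lit 0) (nat_lit 0) (nat_lit 38) (nat_lit 1) (nat_lit 1) (nat_lit 0) (nat_lit 1) (nat_lit 0) (nat_lit 346) (nat_lit 367) (nat_lit 187)))) (XT.nd (nat_lit 78) (nat_lit 76) (nat_lit 0) (XT.lf (nat_lit 0) (nat_lit 2720166283) (nat_lit 0) (nat_lit 2720166284) (nat_lit 152) (nat_lit 2720166283) (nat_lit 36) (nat_lit 3) (nat_lit 36) (nat_lit 1) (nat_lit 38) (nat_lit 1) (nat_lit 347) (nat_lit 367) (nat_lit 186)) (XT.nd (nat_lit 78) (nat_lit 0) (nat_lit 0) (XT.lf (nat_lit 76)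 (nat_lit 2596522361) (nat_lit 0) (nat_lit 2596522362) (nat_lit 76) (nat_lit 2596522362) (nat_lit 36) (nat_lit 3) (nat_lit 35) (nat_lit 1) (nat_lit 36) (nat_lit 1) (nat_lit 348) (nat_lit 367) (nat_lit 185)) (XT.lf (nat_lit 0) (nat_lit 7450890256) (nat_lit 0) (nat_lit 0) (nat_lit 0) (nat_lit 0) (nat_lit 35) (nat_lit 1) (nat_lit 1) (nat_lit 0) (nat_lit 1) (nat_lit 0) (nat_lit 349) (nat_lit 367) (nat_lit 184))))))))
noncomputable def ec234 : XT := (XT.nd (nat_lit 1716) (nat_lit 76) (nat_lit 0) (XT.nd (nat_lit 858) (nat_lit 836) (nat_lit 0) (XT.nd (nat_lit 390) (nat_lit 456) (nat_lit 0) (XT.nd (nat_lit 156) (nat_lit 228) (nat_lit 0) (XT.nd (nat_lit 78) (nat_lit 76) (nat_lit 0) (XT.lf (nat_lit 0) (nat_lit 2365361986) (nat_lit 0) (nat_lit 2365361986) (nat_lit 152) (nat_lit 2365361986) (nat_lit 33) (nat_lit 3) (nat_lit 33) (nat_lit 1) (nat_lit 35) (nat_lit 1) (nat_lit 350) (nat_lit 367) (nat_lit 183))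 (XT.lf (nat_lit 76) (nat_lit 2257845532) (nat_lit 0) (nat_lit 2257845532) (nat_lit 76) (nat_lit 2257845532) (nat_lit 33) (nat_lit 3) (nat_lit 32) (nat_lit 1) (nat_lit 33) (nat_lit 1) (nat_lit 351) (nat_lit 367) (nat_lit 182))) (XT.nd (nat_lit 78) (nat_lit 228) (nat_lit 0) (XT.lf (nat_lit 0) (nat_lit 6479035005) (nat_lit 0) (nat_lit 0) (nat_lit 0) (nat_lit 0) (nat_lit 32) (nat_lit 1) (nat_lit 1) (nat_lit 0) (nat_lit 1) (nat_lit 0) (nat_lit 352) (nat_lit 367) (nat_lit 181)) (XT.nd (nat_lit 78) (nat_lit 76) (nat_lit 0) (XT.lf (nat_lit 0) (nat_lit 2056836509) (nat_lit 0) (nat_lit 2056836509) (nat_lit 152) (nat_lit 2056836509) (nat_lit 30) (nat_lit 3) (nat_lit 30) (nat_lit 1) (nat_lit 32) (nat_lit 1) (nat_lit 353) (nat_lit 367) (nat_lit 180)) (XT.lf (nat_lit 76) (nat_lit 1963343940) (nat_lit 0) (nat_lit 1963343941) (nat_lit 76) (nat_lit 1963343941) (nat_lit 30) (nat_lit 3) (nat_lit 29) (nat_lit 1) (nat_lit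 30) (nat_lit 1) (nat_lit 354) (nat_lit 367) (nat_lit 179))))) (XT.nd (nat_lit 234) (nat_lit 228) (nat_lit 0) (XT.nd (nat_lit 78) (nat_lit 228) (nat_lit 0) (XT.lf (nat_lit 0) (nat_lit 5633943483) (nat_lit 0) (nat_lit 0) (nat_lit 0) (nat_lit 0) (nat_lit 29) (nat_lit 1) (nat_lit 1) (nat_lit 0) (nat_lit 1) (nat_lit 0) (nat_lit 355) (nat_lit 367) (nat_lit 178)) (XT.nd (nat_lit 78) (nat_lit 76) (nat_lit 0) (XT.lf (nat_lit 0) (nat_lit 1788553486) (nat_lit 0) (nat_lit 1788553486) (nat_lit 152) (nat_lit 1788553486) (nat_lit 27) (nat_lit 3) (nat_lit 27) (nat_lit 1) (nat_lit 29) (nat_lit 1) (nat_lit 356) (nat_lit 367) (nat_lit 177)) (XT.lf (nat_lit 76) (nat_lit 1707255600) (nat_lit 0) (nat_lit 1707255600) (nat_lit 76) (nat_lit 1707255600) (nat_lit 27) (nat_lit 3) (nat_lit 26) (nat_lit 1) (nat_lit 27) (nat_lit 1) (nat_lit 357) (nat_lit 367) (nat_lit 176)))) (XT.nd (nat_lit 78) (nat_lit 228) (nat_lit 0) (XT.lf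 (nat_lit 0) (nat_lit 4899081289) (nat_lit 0) (nat_lit 0) (nat_lit 0) (nat_lit 0) (nat_lit 26) (nat_lit 1) (nat_lit 1) (nat_lit 0) (nat_lit 1) (nat_lit 0) (nat_lit 358) (nat_lit 367) (nat_lit 175)) (XT.nd (nat_lit 78) (nat_lit 76) (nat_lit 0) (XT.lf (nat_lit 0) (nat_lit 1555263901) (nat_lit 0) (nat_lit 1555263901) (nat_lit 152) (nat_lit 1555263901) (nat_lit 24) (nat_lit 3) (nat_lit 24) (nat_lit 1) (nat_lit 26) (nat_lit 1) (nat_lit 359) (nat_lit 367) (nat_lit 174)) (XT.lf (nat_lit 76) (nat_lit 1484570087) (nat_lit 0) (nat_lit 1484570087) (nat_lit 76) (nat_lit 1484570087) (nat_lit 24) (nat_lit 3) (nat_lit 23) (nat_lit 1) (nat_lit 24) (nat_lit 1) (nat_lit 360) (nat_lit 367) (nat_lit 173)))))) (XT.nd (nat_lit 390) (nat_lit 456) (nat_lit 0) (XT.nd (nat_lit 156) (nat_lit 228) (nat_lit 0) (XT.nd (nat_lit 78) (nat_lit 152) (nat_lit 0) (XT.lf (nat_lit 0) (nat_lit 4260070686) (nat_lit 0) (nat_lit 0) (nat_lit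 0) (nat_lit 0) (nat_lit 23) (nat_lit 1) (nat_lit 1) (nat_lit 0) (nat_lit 1) (nat_lit 0) (nat_lit 361) (nat_lit 367) (nat_lit 172)) (XT.lf (nat_lit 0) (nat_lit 1352403392) (nat_lit 0) (nat_lit 1352403392) (nat_lit 152) (nat_lit 1352403392) (nat_lit 21) (nat_lit 3) (nat_lit 21) (nat_lit 1) (nat_lit 23) (nat_lit 1) (nat_lit 362) (nat_lit 367) (nat_lit 171))) (XT.nd (nat_lit 78) (nat_lit 152) (nat_lit 0) (XT.lf (nat_lit 76) (nat_lit 1290930511) (nat_lit 0) (nat_lit 1290930511) (nat_lit 76) (nat_lit 1290930511) (nat_lit 21) (nat_lit 3) (nat_lit 20) (nat_lit 1) (nat_lit 21) (nat_lit 1) (nat_lit 363) (nat_lit 367) (nat_lit 170)) (XT.nd (nat_lit 78) (nat_lit 152) (nat_lit 0) (XT.lf (nat_lit 0) (nat_lit 3704409292) (nat_lit 0) (nat_lit 0) (nat_lit 0) (nat_lit 0) (nat_lit 20) (nat_lit 1) (nat_lit 1) (nat_lit 0) (nat_lit 1) (nat_lit 0) (nat_lit 364) (nat_lit 367) (nat_lit 169)) (XT.lf (nat_lit 0) (nat_lit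 1176002950) (nat_lit 0) (nat_lit 1176002950) (nat_lit 152) (nat_lit 1176002950) (nat_lit 18) (nat_lit 3) (nat_lit 18) (nat_lit 1) (nat_lit 20) (nat_lit 1) (nat_lit 365) (nat_lit 367) (nat_lit 168))))) (XT.nd (nat_lit 234) (nat_lit 228) (nat_lit 0) (XT.nd (nat_lit 78) (nat_lit 152) (nat_lit 0) (XT.lf (nat_lit 76) (nat_lit 1122548270) (nat_lit 0) (nat_lit 1122548270) (nat_lit 76) (nat_lit 1122548270) (nat_lit 18) (nat_lit 3) (nat_lit 17) (nat_lit 1) (nat_lit 18) (nat_lit 1) (nat_lit 366) (nat_lit 367) (nat_lit 167)) (XT.nd (nat_lit 78) (nat_lit 152) (nat_lit 0) (XT.lf (nat_lit 0) (nat_lit 3221225471) (nat_lit 0) (nat_lit 0) (nat_lit 0) (nat_lit 0) (nat_lit 17) (nat_lit 1) (nat_lit 1) (nat_lit 0) (nat_lit 1) (nat_lit 0) (nat_lit 367) (nat_lit 367) (nat_lit 166)) (XT.lf (nat_lit 0) (nat_lit 1022611260) (nat_lit 0) (nat_lit 1022611260) (nat_lit 152) (nat_lit 1022611260) (nat_lit 15) (nat_lit 3) (nat_lit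 15) (nat_lit 1) (nat_lit 17) (nat_lit 1) (nat_lit 368) (nat_lit 367) (nat_lit 165)))) (XT.nd (nat_lit 78) (nat_lit 152) (nat_lit 0) (XT.lf (nat_lit 76) (nat_lit 976128930) (nat_lit 0) (nat_lit 976128930) (nat_lit 76) (nat_lit 976128930) (nat_lit 15) (nat_lit 3) (nat_lit 14) (nat_lit 1) (nat_lit 15) (nat_lit 1) (nat_lit 369) (nat_lit 367) (nat_lit 164)) (XT.nd (nat_lit 78) (nat_lit 152) (nat_lit 0) (XT.lf (nat_lit 0) (nat_lit 2801065627) (nat_lit 0) (nat_lit 0) (nat_lit 0) (nat_lit 0) (nat_lit 14) (nat_lit 1) (nat_lit 1) (nat_lit 0) (nat_lit 1) (nat_lit 0) (nat_lit 370) (nat_lit 367) (nat_lit 163)) (XT.lf (nat_lit 0) (nat_lit 889227183) (nat_lit 0) (nat_lit 889227183) (nat_lit 152) (nat_lit 889227183) (nat_lit 12) (nat_lit 3) (nat_lit 12) (nat_lit 1) (nat_lit 14) (nat_lit 1) (nat_lit 371) (nat_lit 367) (nat_lit 162))))))) (XT.nd (nat_lit 31434) (nat_lit 0) (nat_lit 14136) (XT.nd (nat_lit 30966)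 (nat_lit 0) (nat_lit 14972) (XT.nd (nat_lit 30732) (nat_lit 0) (nat_lit 15504) (XT.nd (nat_lit 30654) (nat_lit 0) (nat_lit 15504) (XT.lf (nat_lit 76) (nat_lit 848807765) (nat_lit 0) (nat_lit 848807766) (nat_lit 76) (nat_lit 848807766) (nat_lit 12) (nat_lit 3) (nat_lit 11) (nat_lit 1) (nat_lit 12) (nat_lit 1) (nat_lit 372) (nat_lit 367) (nat_lit 161)) (XT.lf (nat_lit 380) (nat_lit 9409739100985) (nat_lit 0) (nat_lit 8334437509263) (nat_lit 380) (nat_lit 9409739100985) (nat_lit 220) (nat_lit 1) (nat_lit 215) (nat_lit 0) (nat_lit 220) (nat_lit 0) (nat_lit 164) (nat_lit 368) (nat_lit 368))) (XT.nd (nat_lit 78) (nat_lit 0) (nat_lit 76) (XT.lf (nat_lit 380) (nat_lit 34805403787254) (nat_lit 76) (nat_lit 7955599440660) (nat_lit 0) (nat_lit 7955599440660) (nat_lit 220) (nat_lit 1) (nat_lit 216) (nat_lit 1) (nat_lit 215) (nat_lit 0) (nat_lit 165) (nat_lit 368) (nat_lit 367)) (XT.nd (nat_lit 78) (nat_lit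 0) (nat_lit 0) (XT.lf (nat_lit 380) (nat_lit 15342022404895) (nat_lit 0) (nat_lit 16693567614485) (nat_lit 304) (nat_lit 15342022404895) (nat_lit 221) (nat_lit 1) (nat_lit 216) (nat_lit 1) (nat_lit 220) (nat_lit 1) (nat_lit 166) (nat_lit 368) (nat_lit 366)) (XT.lf (nat_lit 380) (nat_lit 26341455866674) (nat_lit 76) (nat_lit 9016856529458) (nat_lit 0) (nat_lit 9016856529458) (nat_lit 221) (nat_lit 1) (nat_lit 217) (nat_lit 1) (nat_lit 216) (nat_lit 1) (nat_lit 167) (nat_lit 368) (nat_lit 365))))) (XT.nd (nat_lit 234) (nat_lit 380) (nat_lit 0) (XT.nd (nat_lit 78) (nat_lit 304) (nat_lit 0) (XT.lf (nat_lit 76) (nat_lit 10655468263520) (nat_lit 0) (nat_lit 20289800437787) (nat_lit 304) (nat_lit 10655468263520) (nat_lit 218) (nat_lit 1) (nat_lit 217) (nat_lit 1) (nat_lit 221) (nat_lit 1) (nat_lit 168) (nat_lit 368) (nat_lit 364)) (XT.nd (nat_lit 78) (nat_lit 0) (nat_lit 0) (XT.lf (nat_lit 380) (nat_lit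 16014308227619) (nat_lit 0) (nat_lit 11526791973300) (nat_lit 304) (nat_lit 11526791973299) (nat_lit 218) (nat_lit 1) (nat_lit 213) (nat_lit 1) (nat_lit 217) (nat_lit 1) (nat_lit 169) (nat_lit 368) (nat_lit 363)) (XT.lf (nat_lit 76) (nat_lit 5322979191457) (nat_lit 0) (nat_lit 26119992307373) (nat_lit 380) (nat_lit 5322979191457) (nat_lit 214) (nat_lit 1) (nat_lit 213) (nat_lit 1) (nat_lit 218) (nat_lit 1) (nat_lit 170) (nat_lit 368) (nat_lit 362)))) (XT.nd (nat_lit 78) (nat_lit 228) (nat_lit 0) (XT.lf (nat_lit 228) (nat_lit 4790555705562) (nat_lit 0) (nat_lit 14909422561678) (nat_lit 152) (nat_lit 14909422561678) (nat_lit 214) (nat_lit 1) (nat_lit 211) (nat_lit 1) (nat_lit 213) (nat_lit 1) (nat_lit 171) (nat_lit 368) (nat_lit 361)) (XT.nd (nat_lit 78) (nat_lit 0) (nat_lit 0) (XT.lf (nat_lit 228) (nat_lit 32192474063402) (nat_lit 0) (nat_lit 252582509811) (nat_lit 152) (nat_lit 252582509810) (nat_lit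 211) (nat_lit 1) (nat_lit 208) (nat_lit 1) (nat_lit 210) (nat_lit 1) (nat_lit 172) (nat_lit 368) (nat_lit 360)) (XT.lf (nat_lit 76) (nat_lit 12368554302125) (nat_lit 0) (nat_lit 6072301788697) (nat_lit 228) (nat_lit 12368554302124) (nat_lit 209) (nat_lit 1) (nat_lit 208) (nat_lit 1) (nat_lit 211) (nat_lit 1) (nat_lit 173) (nat_lit 368) (nat_lit 359)))))) (XT.nd (nat_lit 390) (nat_lit 380) (nat_lit 0) (XT.nd (nat_lit 156) (nat_lit 304) (nat_lit 0) (XT.nd (nat_lit 78) (nat_lit 0) (nat_lit 0) (XT.lf (nat_lit 228) (nat_lit 17978168400362) (nat_lit 0) (nat_lit 5576651105976) (nat_lit 152) (nat_lit 5576651105976) (nat_lit 209) (nat_lit 1) (nat_lit 206) (nat_lit 1) (nat_lit 208) (nat_lit 1) (nat_lit 174) (nat_lit 368) (nat_lit 358)) (XT.lf (nat_lit 76) (nat_lit 5622362917736) (nat_lit 0) (nat_lit 16316001064488) (nat_lit 228) (nat_lit 5622362917736) (nat_lit 207) (nat_lit 1) (nat_lit 206) (nat_lit 1)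 (nat_lit 209) (nat_lit 1) (nat_lit 175) (nat_lit 368) (nat_lit 357))) (XT.nd (nat_lit 78) (nat_lit 228) (nat_lit 0) (XT.lf (nat_lit 152) (nat_lit 4647921975722) (nat_lit 0) (nat_lit 10725102821182) (nat_lit 76) (nat_lit 10725102821182) (nat_lit 207) (nat_lit 1) (nat_lit 205) (nat_lit 1) (nat_lit 206) (nat_lit 1) (nat_lit 176) (nat_lit 368) (nat_lit 356)) (XT.nd (nat_lit 78) (nat_lit 0) (nat_lit 0) (XT.lf (nat_lit 228) (nat_lit 23530513200127) (nat_lit 0) (nat_lit 625112166268) (nat_lit 152) (nat_lit 625112166268) (nat_lit 205) (nat_lit 1) (nat_lit 202) (nat_lit 1) (nat_lit 204) (nat_lit 1) (nat_lit 177) (nat_lit 368) (nat_lit 355)) (XT.lf (nat_lit 76) (nat_lit 8235173538345) (nat_lit 0) (nat_lit 6993578055708) (nat_lit 228) (nat_lit 8235173538345) (nat_lit 203) (nat_lit 1) (nat_lit 202) (nat_lit 1) (nat_lit 205) (nat_lit 1) (nat_lit 178) (nat_lit 368) (nat_lit 354))))) (XT.nd (nat_lit 234) (nat_lit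 152) (nat_lit 0) (XT.nd (nat_lit 78) (nat_lit 152) (nat_lit 0) (XT.lf (nat_lit 152) (nat_lit 10013182275122) (nat_lit 0) (nat_lit 6132112347330) (nat_lit 76) (nat_lit 6132112347330) (nat_lit 203) (nat_lit 1) (nat_lit 201) (nat_lit 1) (nat_lit 202) (nat_lit 1) (nat_lit 179) (nat_lit 368) (nat_lit 353)) (XT.nd (nat_lit 78) (nat_lit 152) (nat_lit 0) (XT.lf (nat_lit 0) (nat_lit 1960719078569) (nat_lit 0) (nat_lit 17262020209903) (nat_lit 152) (nat_lit 1960719078568) (nat_lit 201) (nat_lit 3) (nat_lit 201) (nat_lit 1) (nat_lit 203) (nat_lit 1) (nat_lit 180) (nat_lit 368) (nat_lit 352)) (XT.lf (nat_lit 76) (nat_lit 9074199626594) (nat_lit 0) (nat_lit 1968037031648) (nat_lit 152) (nat_lit 9074199626594) (nat_lit 200) (nat_lit 1) (nat_lit 199) (nat_lit 1) (nat_lit 201) (nat_lit 1) (nat_lit 181) (nat_lit 368) (nat_lit 351)))) (XT.nd (nat_lit 78) (nat_lit 76) (nat_lit 0) (XT.lf (nat_lit 152) (nat_lit 12121345812550)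 (nat_lit 0) (nat_lit 3506055136927) (nat_lit 76) (nat_lit 3506055136927) (nat_lit 200) (nat_lit 1) (nat_lit 198) (nat_lit 1) (nat_lit 199) (nat_lit 1) (nat_lit 182) (nat_lit 368) (nat_lit 350)) (XT.nd (nat_lit 78) (nat_lit 76) (nat_lit 0) (XT.lf (nat_lit 0) (nat_lit 3151611416879) (nat_lit 0) (nat_lit 11900180000515) (nat_lit 152) (nat_lit 3151611416878) (nat_lit 198) (nat_lit 3) (nat_lit 198) (nat_lit 1) (nat_lit 200) (nat_lit 1) (nat_lit 183) (nat_lit 368) (nat_lit 349)) (XT.lf (nat_lit 76) (nat_lit 703068188144) (nat_lit 0) (nat_lit 8310519130437) (nat_lit 76) (nat_lit 8310519130437) (nat_lit 198) (nat_lit 3) (nat_lit 197) (nat_lit 1) (nat_lit 198) (nat_lit 1) (nat_lit 184) (nat_lit 368) (nat_lit 348))))))))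
noncomputable def ec235 : XT := (XT.nd (nat_lit 1716) (nat_lit 1672) (nat_lit 0) (XT.nd (nat_lit 858) (nat_lit 912) (nat_lit 0) (XT.nd (nat_lit 390) (nat_lit 456) (nat_lit 0) (XT.nd (nat_lit 156) (nat_lit 228) (nat_lit 0) (XT.nd (nat_lit 78) (nat_lit 0) (nat_lit 0) (XT.lf (nat_lit 152) (nat_lit 12492398242354) (nat_lit 0) (nat_lit 2004598403766) (nat_lit 76) (nat_lit 2004598403766) (nat_lit 197) (nat_lit 1) (nat_lit 195) (nat_lit 1) (nat_lit 196) (nat_lit 1) (nat_lit 185) (nat_lit 368) (nat_lit 347)) (XT.lf (nat_lit 0) (nat_lit 3567651812980) (nat_lit 0) (nat_lit 8569674294967) (nat_lit 152) (nat_lit 3567651812979) (nat_lit 195) (nat_lit 3) (nat_lit 195) (nat_lit 1) (nat_lit 197) (nat_lit 1) (nat_lit 186) (nat_lit 368) (nat_lit 346))) (XT.nd (nat_lit 78) (nat_lit 152) (nat_lit 0) (XT.lf (nat_lit 76) (nat_lit 2087429831497) (nat_lit 0) (nat_lit 6437014598443) (nat_lit 76) (nat_lit 6437014598442)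 (nat_lit 195) (nat_lit 3) (nat_lit 194) (nat_lit 1) (nat_lit 195) (nat_lit 1) (nat_lit 187) (nat_lit 368) (nat_lit 345)) (XT.nd (nat_lit 78) (nat_lit 0) (nat_lit 0) (XT.lf (nat_lit 152) (nat_lit 11979073095153) (nat_lit 0) (nat_lit 1146135643464) (nat_lit 76) (nat_lit 1146135643463) (nat_lit 194) (nat_lit 1) (nat_lit 192) (nat_lit 1) (nat_lit 193) (nat_lit 1) (nat_lit 188) (nat_lit 368) (nat_lit 344)) (XT.lf (nat_lit 0) (nat_lit 3575214552374) (nat_lit 0) (nat_lit 6435137140980) (nat_lit 152) (nat_lit 3575214552374) (nat_lit 192) (nat_lit 3) (nat_lit 192) (nat_lit 1) (nat_lit 194) (nat_lit 1) (nat_lit 189) (nat_lit 368) (nat_lit 343))))) (XT.nd (nat_lit 234) (nat_lit 228) (nat_lit 0) (XT.nd (nat_lit 78) (nat_lit 152) (nat_lit 0) (XT.lf (nat_lit 76) (nat_lit 2659102009847) (nat_lit 0) (nat_lit 5145991217330) (nat_lit 76) (nat_lit 5145991217330) (nat_lit 192) (nat_lit 3) (nat_lit 191) (nat_lit 1)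 (nat_lit 192) (nat_lit 1) (nat_lit 190) (nat_lit 368) (nat_lit 342)) (XT.nd (nat_lit 78) (nat_lit 0) (nat_lit 0) (XT.lf (nat_lit 152) (nat_lit 11054729447304) (nat_lit 0) (nat_lit 655306774040) (nat_lit 76) (nat_lit 655306774040) (nat_lit 191) (nat_lit 1) (nat_lit 189) (nat_lit 1) (nat_lit 190) (nat_lit 1) (nat_lit 191) (nat_lit 368) (nat_lit 341)) (XT.lf (nat_lit 0) (nat_lit 3379269262409) (nat_lit 0) (nat_lit 5014439284589) (nat_lit 152) (nat_lit 3379269262409) (nat_lit 189) (nat_lit 3) (nat_lit 189) (nat_lit 1) (nat_lit 191) (nat_lit 1) (nat_lit 192) (nat_lit 368) (nat_lit 340)))) (XT.nd (nat_lit 78) (nat_lit 152) (nat_lit 0) (XT.lf (nat_lit 76) (nat_lit 2794791272964) (nat_lit 0) (nat_lit 4216678248773) (nat_lit 76) (nat_lit 4216678248773) (nat_lit 189) (nat_lit 3) (nat_lit 188) (nat_lit 1) (nat_lit 189) (nat_lit 1) (nat_lit 193) (nat_lit 368) (nat_lit 339)) (XT.nd (nat_lit 78) (nat_lit 0)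 (nat_lit 0) (XT.lf (nat_lit 152) (nat_lit 9977669202347) (nat_lit 0) (nat_lit 374673774916) (nat_lit 76) (nat_lit 374673774916) (nat_lit 188) (nat_lit 1) (nat_lit 186) (nat_lit 1) (nat_lit 187) (nat_lit 1) (nat_lit 194) (nat_lit 368) (nat_lit 338)) (XT.lf (nat_lit 0) (nat_lit 3093089680166) (nat_lit 0) (nat_lit 4028003447443) (nat_lit 152) (nat_lit 3093089680165) (nat_lit 186) (nat_lit 3) (nat_lit 186) (nat_lit 1) (nat_lit 188) (nat_lit 1) (nat_lit 195) (nat_lit 368) (nat_lit 337)))))) (XT.nd (nat_lit 390) (nat_lit 456) (nat_lit 0) (XT.nd (nat_lit 156) (nat_lit 228) (nat_lit 0) (XT.nd (nat_lit 78) (nat_lit 152) (nat_lit 0) (XT.lf (nat_lit 76) (nat_lit 2706140605829) (nat_lit 0) (nat_lit 3519109099114) (nat_lit 76) (nat_lit 3519109099114) (nat_lit 186) (nat_lit 3) (nat_lit 185) (nat_lit 1) (nat_lit 186) (nat_lit 1) (nat_lit 196) (nat_lit 368) (nat_lit 336)) (XT.lf (nat_lit 152) (nat_lit 8884844542677)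 (nat_lit 0) (nat_lit 214220946847) (nat_lit 76) (nat_lit 214220946847) (nat_lit 185) (nat_lit 1) (nat_lit 183) (nat_lit 1) (nat_lit 184) (nat_lit 1) (nat_lit 197) (nat_lit 368) (nat_lit 335))) (XT.nd (nat_lit 78) (nat_lit 228) (nat_lit 0) (XT.lf (nat_lit 0) (nat_lit 2778033204110) (nat_lit 0) (nat_lit 3312573184901) (nat_lit 152) (nat_lit 2778033204110) (nat_lit 183) (nat_lit 3) (nat_lit 183) (nat_lit 1) (nat_lit 185) (nat_lit 1) (nat_lit 198) (nat_lit 368) (nat_lit 334)) (XT.nd (nat_lit 78) (nat_lit 152) (nat_lit 0) (XT.lf (nat_lit 76) (nat_lit 2510905217681) (nat_lit 0) (nat_lit 2975722592282) (nat_lit 76) (nat_lit 2975722592281) (nat_lit 183) (nat_lit 3) (nat_lit 182) (nat_lit 1) (nat_lit 183) (nat_lit 1) (nat_lit 199) (nat_lit 368) (nat_lit 333)) (XT.lf (nat_lit 152) (nat_lit 7845225480197) (nat_lit 0) (nat_lit 122481521633) (nat_lit 76) (nat_lit 122481521633) (nat_lit 182) (nat_lit 1) (nat_lit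 180) (nat_lit 1) (nat_lit 181) (nat_lit 1) (nat_lit 200) (nat_lit 368) (nat_lit 332))))) (XT.nd (nat_lit 234) (nat_lit 228) (nat_lit 0) (XT.nd (nat_lit 78) (nat_lit 228) (nat_lit 0) (XT.lf (nat_lit 0) (nat_lit 2466218318698) (nat_lit 0) (nat_lit 2771843287615) (nat_lit 152) (nat_lit 2466218318698) (nat_lit 180) (nat_lit 3) (nat_lit 180) (nat_lit 1) (nat_lit 182) (nat_lit 1) (nat_lit 201) (nat_lit 368) (nat_lit 331)) (XT.nd (nat_lit 78) (nat_lit 152) (nat_lit 0) (XT.lf (nat_lit 76) (nat_lit 2273583897383) (nat_lit 0) (nat_lit 2539344739919) (nat_lit 76) (nat_lit 2539344739919) (nat_lit 180) (nat_lit 3) (nat_lit 179) (nat_lit 1) (nat_lit 180) (nat_lit 1) (nat_lit 202) (nat_lit 368) (nat_lit 330)) (XT.lf (nat_lit 152) (nat_lit 6890130327522) (nat_lit 0) (nat_lit 70029207519) (nat_lit 76) (nat_lit 70029207519) (nat_lit 179) (nat_lit 1) (nat_lit 177) (nat_lit 1) (nat_lit 178) (nat_lit 1) (nat_lit 203)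 (nat_lit 368) (nat_lit 329)))) (XT.nd (nat_lit 78) (nat_lit 228) (nat_lit 0) (XT.lf (nat_lit 0) (nat_lit 2173432517520) (nat_lit 0) (nat_lit 2348174585432) (nat_lit 152) (nat_lit 2173432517520) (nat_lit 177) (nat_lit 3) (nat_lit 177) (nat_lit 1) (nat_lit 179) (nat_lit 1) (nat_lit 204) (nat_lit 368) (nat_lit 328)) (XT.nd (nat_lit 78) (nat_lit 152) (nat_lit 0) (XT.lf (nat_lit 76) (nat_lit 2028594789672) (nat_lit 0) (nat_lit 2180544413943) (nat_lit 76) (nat_lit 2180544413943) (nat_lit 177) (nat_lit 3) (nat_lit 176) (nat_lit 1) (nat_lit 177) (nat_lit 1) (nat_lit 205) (nat_lit 368) (nat_lit 327)) (XT.lf (nat_lit 152) (nat_lit 6030408461502) (nat_lit 0) (nat_lit 40039426685) (nat_lit 76) (nat_lit 40039426685) (nat_lit 176) (nat_lit 1) (nat_lit 174) (nat_lit 1) (nat_lit 175) (nat_lit 1) (nat_lit 206) (nat_lit 368) (nat_lit 326))))))) (XT.nd (nat_lit 858) (nat_lit 912) (nat_lit 0) (XT.nd (nat_lit 390)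 (nat_lit 456) (nat_lit 0) (XT.nd (nat_lit 156) (nat_lit 228) (nat_lit 0) (XT.nd (nat_lit 78) (nat_lit 76) (nat_lit 0) (XT.lf (nat_lit 0) (nat_lit 1906462043329) (nat_lit 0) (nat_lit 2006371387799) (nat_lit 152) (nat_lit 1906462043329) (nat_lit 174) (nat_lit 3) (nat_lit 174) (nat_lit 1) (nat_lit 176) (nat_lit 1) (nat_lit 207) (nat_lit 368) (nat_lit 325)) (XT.lf (nat_lit 76) (nat_lit 1793478104740) (nat_lit 0) (nat_lit 1880355795584) (nat_lit 76) (nat_lit 1880355795584) (nat_lit 174) (nat_lit 3) (nat_lit 173) (nat_lit 1) (nat_lit 174) (nat_lit 1) (nat_lit 208) (nat_lit 368) (nat_lit 324))) (XT.nd (nat_lit 78) (nat_lit 76) (nat_lit 0) (XT.lf (nat_lit 152) (nat_lit 5266126552883) (nat_lit 0) (nat_lit 22892672159) (nat_lit 76) (nat_lit 22892672159) (nat_lit 173) (nat_lit 1) (nat_lit 171) (nat_lit 1) (nat_lit 172) (nat_lit 1) (nat_lit 209) (nat_lit 368) (nat_lit 323)) (XT.nd (nat_lit 78) (nat_lit 76)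 (nat_lit 0) (XT.lf (nat_lit 0) (nat_lit 1667238858577) (nat_lit 0) (nat_lit 1724362350543) (nat_lit 152) (nat_lit 1667238858577) (nat_lit 171) (nat_lit 3) (nat_lit 171) (nat_lit 1) (nat_lit 173) (nat_lit 1) (nat_lit 210) (nat_lit 368) (nat_lit 322)) (XT.lf (nat_lit 76) (nat_lit 1576402970548) (nat_lit 0) (nat_lit 1626075572258) (nat_lit 76) (nat_lit 1626075572257) (nat_lit 171) (nat_lit 3) (nat_lit 170) (nat_lit 1) (nat_lit 171) (nat_lit 1) (nat_lit 211) (nat_lit 368) (nat_lit 321))))) (XT.nd (nat_lit 234) (nat_lit 228) (nat_lit 0) (XT.nd (nat_lit 78) (nat_lit 76) (nat_lit 0) (XT.lf (nat_lit 152) (nat_lit 4591986637678) (nat_lit 0) (nat_lit 13088959607) (nat_lit 76) (nat_lit 13088959607) (nat_lit 170) (nat_lit 1) (nat_lit 168) (nat_lit 1) (nat_lit 169) (nat_lit 1) (nat_lit 212) (nat_lit 368) (nat_lit 320)) (XT.nd (nat_lit 78) (nat_lit 76) (nat_lit 0) (XT.lf (nat_lit 0) (nat_lit 1455173574400) (nat_lit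 0) (nat_lit 1487834116331) (nat_lit 152) (nat_lit 1455173574400) (nat_lit 168) (nat_lit 3) (nat_lit 168) (nat_lit 1) (nat_lit 170) (nat_lit 1) (nat_lit 213) (nat_lit 368) (nat_lit 319)) (XT.lf (nat_lit 76) (nat_lit 1380423117610) (nat_lit 0) (nat_lit 1408823588855) (nat_lit 76) (nat_lit 1408823588855) (nat_lit 168) (nat_lit 3) (nat_lit 167) (nat_lit 1) (nat_lit 168) (nat_lit 1) (nat_lit 214) (nat_lit 368) (nat_lit 318)))) (XT.nd (nat_lit 78) (nat_lit 76) (nat_lit 0) (XT.lf (nat_lit 152) (nat_lit 4000319515432) (nat_lit 0) (nat_lit 7483655136) (nat_lit 76) (nat_lit 7483655136) (nat_lit 167) (nat_lit 1) (nat_lit 165) (nat_lit 1) (nat_lit 166) (nat_lit 1) (nat_lit 215) (nat_lit 368) (nat_lit 317)) (XT.nd (nat_lit 78) (nat_lit 76) (nat_lit 0) (XT.lf (nat_lit 0) (nat_lit 1268456166959) (nat_lit 0) (nat_lit 1287129937811) (nat_lit 152) (nat_lit 1268456166959) (nat_lit 165) (nat_lit 3) (nat_lit 165) (nat_lit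 1) (nat_lit 167) (nat_lit 1) (nat_lit 216) (nat_lit 368) (nat_lit 316)) (XT.lf (nat_lit 76) (nat_lit 1205878443731) (nat_lit 0) (nat_lit 1222116505341) (nat_lit 76) (nat_lit 1222116505341) (nat_lit 165) (nat_lit 3) (nat_lit 164) (nat_lit 1) (nat_lit 165) (nat_lit 1) (nat_lit 217) (nat_lit 368) (nat_lit 315)))))) (XT.nd (nat_lit 468) (nat_lit 456) (nat_lit 0) (XT.nd (nat_lit 234) (nat_lit 228) (nat_lit 0) (XT.nd (nat_lit 78) (nat_lit 76) (nat_lit 0) (XT.lf (nat_lit 152) (nat_lit 3482705450375) (nat_lit 0) (nat_lit 4278804113) (nat_lit 76) (nat_lit 4278804113) (nat_lit 164) (nat_lit 1) (nat_lit 162) (nat_lit 1) (nat_lit 163) (nat_lit 1) (nat_lit 218) (nat_lit 368) (nat_lit 314)) (XT.nd (nat_lit 78) (nat_lit 76) (nat_lit 0) (XT.lf (nat_lit 0) (nat_lit 1104770845912) (nat_lit 0) (nat_lit 1115447635004) (nat_lit 152) (nat_lit 1104770845912) (nat_lit 162) (nat_lit 3) (nat_lit 162) (nat_lit 1) (nat_lit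 164) (nat_lit 1) (nat_lit 219) (nat_lit 368) (nat_lit 313)) (XT.lf (nat_lit 76) (nat_lit 1051740606120) (nat_lit 0) (nat_lit 1061024770548) (nat_lit 76) (nat_lit 1061024770548) (nat_lit 162) (nat_lit 3) (nat_lit 161) (nat_lit 1) (nat_lit 162) (nat_lit 1) (nat_lit 220) (nat_lit 368) (nat_lit 312)))) (XT.nd (nat_lit 78) (nat_lit 76) (nat_lit 0) (XT.lf (nat_lit 152) (nat_lit 3030821869929) (nat_lit 0) (nat_lit 2446420139) (nat_lit 76) (nat_lit 2446420139) (nat_lit 161) (nat_lit 1) (nat_lit 159) (nat_lit 1) (nat_lit 160) (nat_lit 1) (nat_lit 221) (nat_lit 368) (nat_lit 311)) (XT.nd (nat_lit 78) (nat_lit 76) (nat_lit 0) (XT.lf (nat_lit 0) (nat_lit 961679721623) (nat_lit 0) (nat_lit 967784210438) (nat_lit 152) (nat_lit 961679721623) (nat_lit 159) (nat_lit 3) (nat_lit 159) (nat_lit 1) (nat_lit 161) (nat_lit 1) (nat_lit 222) (nat_lit 368) (nat_lit 310)) (XT.lf (nat_lit 76) (nat_lit 916358446050) (nat_lit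 0) (nat_lit 921666697195) (nat_lit 76) (nat_lit 921666697195) (nat_lit 159) (nat_lit 3) (nat_lit 158) (nat_lit 1) (nat_lit 159) (nat_lit 1) (nat_lit 223) (nat_lit 368) (nat_lit 309))))) (XT.nd (nat_lit 234) (nat_lit 228) (nat_lit 0) (XT.nd (nat_lit 78) (nat_lit 76) (nat_lit 0) (XT.lf (nat_lit 152) (nat_lit 2636859393322) (nat_lit 0) (nat_lit 1398748654) (nat_lit 76) (nat_lit 1398748654) (nat_lit 158) (nat_lit 1) (nat_lit 156) (nat_lit 1) (nat_lit 157) (nat_lit 1) (nat_lit 224) (nat_lit 368) (nat_lit 308)) (XT.nd (nat_lit 78) (nat_lit 76) (nat_lit 0) (XT.lf (nat_lit 0) (nat_lit 836820375829) (nat_lit 0) (nat_lit 840310637122) (nat_lit 152) (nat_lit 836820375829) (nat_lit 156) (nat_lit 3) (nat_lit 156) (nat_lit 1) (nat_lit 158) (nat_lit 1) (nat_lit 225) (nat_lit 368) (nat_lit 307)) (XT.lf (nat_lit 76) (nat_lit 797863386073) (nat_lit 0) (nat_lit 800898395893) (nat_lit 76) (nat_lit 800898395893) (nat_lit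 156) (nat_lit 3) (nat_lit 155) (nat_lit 1) (nat_lit 156) (nat_lit 1) (nat_lit 226) (nat_lit 368) (nat_lit 306)))) (XT.nd (nat_lit 78) (nat_lit 76) (nat_lit 0) (XT.lf (nat_lit 152) (nat_lit 2293700005327) (nat_lit 0) (nat_lit 799739083) (nat_lit 76) (nat_lit 799739083) (nat_lit 155) (nat_lit 1) (nat_lit 153) (nat_lit 1) (nat_lit 154) (nat_lit 1) (nat_lit 227) (nat_lit 368) (nat_lit 305)) (XT.nd (nat_lit 78) (nat_lit 76) (nat_lit 0) (XT.lf (nat_lit 0) (nat_lit 727999873485) (nat_lit 0) (nat_lit 729995441707) (nat_lit 152) (nat_lit 727999873485) (nat_lit 153) (nat_lit 3) (nat_lit 153) (nat_lit 1) (nat_lit 155) (nat_lit 1) (nat_lit 228) (nat_lit 368) (nat_lit 304)) (XT.lf (nat_lit 76) (nat_lit 694383128715) (nat_lit 0) (nat_lit 696118405431) (nat_lit 76) (nat_lit 696118405431) (nat_lit 153) (nat_lit 3) (nat_lit 152) (nat_lit 1) (nat_lit 153) (nat_lit 1) (nat_lit 229) (nat_lit 368) (nat_lit 303))))))))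
noncomputable def ec236 : XT := (XT.nd (nat_lit 1716) (nat_lit 1596) (nat_lit 0) (XT.nd (nat_lit 858) (nat_lit 912) (nat_lit 0) (XT.nd (nat_lit 390) (nat_lit 456) (nat_lit 0) (XT.nd (nat_lit 156) (nat_lit 228) (nat_lit 0) (XT.nd (nat_lit 78) (nat_lit 0) (nat_lit 0) (XT.lf (nat_lit 152) (nat_lit 1994967021612) (nat_lit 0) (nat_lit 457253416) (nat_lit 76) (nat_lit 457253416) (nat_lit 152) (nat_lit 1) (nat_lit 150) (nat_lit 1) (nat_lit 151) (nat_lit 1) (nat_lit 230) (nat_lit 368) (nat_lit 302)) (XT.lf (nat_lit 0) (nat_lit 633232036218) (nat_lit 0) (nat_lit 634373008826) (nat_lit 152) (nat_lit 633232036218) (nat_lit 150) (nat_lit 3) (nat_lit 150) (nat_lit 1) (nat_lit 152) (nat_lit 1) (nat_lit 231) (nat_lit 368) (nat_lit 301))) (XT.nd (nat_lit 78) (nat_lit 152) (nat_lit 0) (XT.lf (nat_lit 76) (nat_lit 604148110301) (nat_lit 0) (nat_lit 605140260395) (nat_lit 76) (nat_lit 605140260395) (nat_lit 150)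 (nat_lit 3) (nat_lit 149) (nat_lit 1) (nat_lit 150) (nat_lit 1) (nat_lit 232) (nat_lit 368) (nat_lit 300)) (XT.nd (nat_lit 78) (nat_lit 0) (nat_lit 0) (XT.lf (nat_lit 152) (nat_lit 1735008520893) (nat_lit 0) (nat_lit 261436124) (nat_lit 76) (nat_lit 261436124) (nat_lit 149) (nat_lit 1) (nat_lit 147) (nat_lit 1) (nat_lit 148) (nat_lit 1) (nat_lit 233) (nat_lit 368) (nat_lit 299)) (XT.lf (nat_lit 0) (nat_lit 550744424757) (nat_lit 0) (nat_lit 551396779549) (nat_lit 152) (nat_lit 550744424757) (nat_lit 147) (nat_lit 3) (nat_lit 147) (nat_lit 1) (nat_lit 149) (nat_lit 1) (nat_lit 234) (nat_lit 368) (nat_lit 298))))) (XT.nd (nat_lit 234) (nat_lit 228) (nat_lit 0) (XT.nd (nat_lit 78) (nat_lit 152) (nat_lit 0) (XT.lf (nat_lit 76) (nat_lit 525538688773) (nat_lit 0) (nat_lit 526105953809) (nat_lit 76) (nat_lit 526105953809) (nat_lit 147) (nat_lit 3) (nat_lit 146) (nat_lit 1) (nat_lit 147) (nat_lit 1) (nat_lit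 235) (nat_lit 368) (nat_lit 297)) (XT.nd (nat_lit 78) (nat_lit 0) (nat_lit 0) (XT.lf (nat_lit 152) (nat_lit 1508848623765) (nat_lit 0) (nat_lit 149476952) (nat_lit 76) (nat_lit 149476952) (nat_lit 146) (nat_lit 1) (nat_lit 144) (nat_lit 1) (nat_lit 145) (nat_lit 1) (nat_lit 236) (nat_lit 368) (nat_lit 296)) (XT.lf (nat_lit 0) (nat_lit 478969871335) (nat_lit 0) (nat_lit 479342857305) (nat_lit 152) (nat_lit 478969871335) (nat_lit 144) (nat_lit 3) (nat_lit 144) (nat_lit 1) (nat_lit 146) (nat_lit 1) (nat_lit 237) (nat_lit 368) (nat_lit 295)))) (XT.nd (nat_lit 78) (nat_lit 152) (nat_lit 0) (XT.lf (nat_lit 76) (nat_lit 457100230024) (nat_lit 0) (nat_lit 457424565650) (nat_lit 76) (nat_lit 457424565650) (nat_lit 144) (nat_lit 3) (nat_lit 143) (nat_lit 1) (nat_lit 144) (nat_lit 1) (nat_lit 238) (nat_lit 368) (nat_lit 294)) (XT.nd (nat_lit 78) (nat_lit 0) (nat_lit 0) (XT.lf (nat_lit 152) (nat_lit 1312125507149)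 (nat_lit 0) (nat_lit 85463932) (nat_lit 76) (nat_lit 85463932) (nat_lit 143) (nat_lit 1) (nat_lit 141) (nat_lit 1) (nat_lit 142) (nat_lit 1) (nat_lit 239) (nat_lit 368) (nat_lit 293)) (XT.lf (nat_lit 0) (nat_lit 416530803684) (nat_lit 0) (nat_lit 416744059623) (nat_lit 152) (nat_lit 416530803684) (nat_lit 141) (nat_lit 3) (nat_lit 141) (nat_lit 1) (nat_lit 143) (nat_lit 1) (nat_lit 240) (nat_lit 368) (nat_lit 292)))))) (XT.nd (nat_lit 390) (nat_lit 456) (nat_lit 0) (XT.nd (nat_lit 156) (nat_lit 228) (nat_lit 0) (XT.nd (nat_lit 78) (nat_lit 152) (nat_lit 0) (XT.lf (nat_lit 76) (nat_lit 397541391412) (nat_lit 0) (nat_lit 397726831358) (nat_lit 76) (nat_lit 397726831358) (nat_lit 141) (nat_lit 3) (nat_lit 140) (nat_lit 1) (nat_lit 141) (nat_lit 1) (nat_lit 241) (nat_lit 368) (nat_lit 291)) (XT.lf (nat_lit 152) (nat_lit 1141026286383) (nat_lit 0) (nat_lit 48864281) (nat_lit 76) (nat_lit 48864281) (nat_lit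 140) (nat_lit 1) (nat_lit 138) (nat_lit 1) (nat_lit 139) (nat_lit 1) (nat_lit 242) (nat_lit 368) (nat_lit 290))) (XT.nd (nat_lit 78) (nat_lit 228) (nat_lit 0) (XT.lf (nat_lit 0) (nat_lit 362220860815) (nat_lit 0) (nat_lit 362342790590) (nat_lit 152) (nat_lit 362220860815) (nat_lit 138) (nat_lit 3) (nat_lit 138) (nat_lit 1) (nat_lit 140) (nat_lit 1) (nat_lit 243) (nat_lit 368) (nat_lit 289)) (XT.nd (nat_lit 78) (nat_lit 152) (nat_lit 0) (XT.lf (nat_lit 76) (nat_lit 345724147175) (nat_lit 0) (nat_lit 345830173066) (nat_lit 76) (nat_lit 345830173066) (nat_lit 138) (nat_lit 3) (nat_lit 137) (nat_lit 1) (nat_lit 138) (nat_lit 1) (nat_lit 244) (nat_lit 368) (nat_lit 288)) (XT.lf (nat_lit 152) (nat_lit 992223977369) (nat_lit 0) (nat_lit 27938311) (nat_lit 76) (nat_lit 27938311) (nat_lit 137) (nat_lit 1) (nat_lit 135) (nat_lit 1) (nat_lit 136) (nat_lit 1) (nat_lit 245) (nat_lit 368) (nat_lit 287))))) (XT.nd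 (nat_lit 234) (nat_lit 228) (nat_lit 0) (XT.nd (nat_lit 78) (nat_lit 228) (nat_lit 0) (XT.lf (nat_lit 0) (nat_lit 314986189244) (nat_lit 0) (nat_lit 315055902988) (nat_lit 152) (nat_lit 314986189244) (nat_lit 135) (nat_lit 3) (nat_lit 135) (nat_lit 1) (nat_lit 137) (nat_lit 1) (nat_lit 246) (nat_lit 368) (nat_lit 286)) (XT.nd (nat_lit 78) (nat_lit 152) (nat_lit 0) (XT.lf (nat_lit 76) (nat_lit 300650265294) (nat_lit 0) (nat_lit 300710885942) (nat_lit 76) (nat_lit 300710885942) (nat_lit 135) (nat_lit 3) (nat_lit 134) (nat_lit 1) (nat_lit 135) (nat_lit 1) (nat_lit 247) (nat_lit 368) (nat_lit 285)) (XT.lf (nat_lit 152) (nat_lit 862819014044) (nat_lit 0) (nat_lit 15973820) (nat_lit 76) (nat_lit 15973820) (nat_lit 134) (nat_lit 1) (nat_lit 132) (nat_lit 1) (nat_lit 133) (nat_lit 1) (nat_lit 248) (nat_lit 368) (nat_lit 284)))) (XT.nd (nat_lit 78) (nat_lit 228) (nat_lit 0) (XT.lf (nat_lit 0) (nat_lit 273907625105)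 (nat_lit 0) (nat_lit 273947484165) (nat_lit 152) (nat_lit 273907625105) (nat_lit 132) (nat_lit 3) (nat_lit 132) (nat_lit 1) (nat_lit 134) (nat_lit 1) (nat_lit 249) (nat_lit 368) (nat_lit 283)) (XT.nd (nat_lit 78) (nat_lit 152) (nat_lit 0) (XT.lf (nat_lit 76) (nat_lit 261446775463) (nat_lit 0) (nat_lit 261481435515) (nat_lit 76) (nat_lit 261481435515) (nat_lit 132) (nat_lit 3) (nat_lit 131) (nat_lit 1) (nat_lit 132) (nat_lit 1) (nat_lit 250) (nat_lit 368) (nat_lit 282)) (XT.lf (nat_lit 152) (nat_lit 750286297402) (nat_lit 0) (nat_lit 9133083) (nat_lit 76) (nat_lit 9133083) (nat_lit 131) (nat_lit 1) (nat_lit 129) (nat_lit 1) (nat_lit 130) (nat_lit 1) (nat_lit 251) (nat_lit 368) (nat_lit 281))))))) (XT.nd (nat_lit 858) (nat_lit 836) (nat_lit 0) (XT.nd (nat_lit 390) (nat_lit 456) (nat_lit 0) (XT.nd (nat_lit 156) (nat_lit 228) (nat_lit 0) (XT.nd (nat_lit 78) (nat_lit 76) (nat_lit 0) (XT.lf (nat_lit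 0) (nat_lit 238184311984) (nat_lit 0) (nat_lit 238207101531) (nat_lit 152) (nat_lit 238184311984) (nat_lit 129) (nat_lit 3) (nat_lit 129) (nat_lit 1) (nat_lit 131) (nat_lit 1) (nat_lit 252) (nat_lit 368) (nat_lit 280)) (XT.lf (nat_lit 76) (nat_lit 227351747198) (nat_lit 0) (nat_lit 227371564195) (nat_lit 76) (nat_lit 227371564195) (nat_lit 129) (nat_lit 3) (nat_lit 128) (nat_lit 1) (nat_lit 129) (nat_lit 1) (nat_lit 253) (nat_lit 368) (nat_lit 279))) (XT.nd (nat_lit 78) (nat_lit 76) (nat_lit 0) (XT.lf (nat_lit 152) (nat_lit 652427952415) (nat_lit 0) (nat_lit 5221870) (nat_lit 76) (nat_lit 5221870) (nat_lit 128) (nat_lit 1) (nat_lit 126) (nat_lit 1) (nat_lit 127) (nat_lit 1) (nat_lit 254) (nat_lit 368) (nat_lit 278)) (XT.nd (nat_lit 78) (nat_lit 76) (nat_lit 0) (XT.lf (nat_lit 0) (nat_lit 207118947633) (nat_lit 0) (nat_lit 207131977630) (nat_lit 152) (nat_lit 207118947633) (nat_lit 126) (nat_lit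 3) (nat_lit 126) (nat_lit 1) (nat_lit 128) (nat_lit 1) (nat_lit 255) (nat_lit 368) (nat_lit 277)) (XT.lf (nat_lit 76) (nat_lit 197701016549) (nat_lit 0) (nat_lit 197712346981) (nat_lit 76) (nat_lit 197712346981) (nat_lit 126) (nat_lit 3) (nat_lit 125) (nat_lit 1) (nat_lit 126) (nat_lit 1) (nat_lit 256) (nat_lit 368) (nat_lit 276))))) (XT.nd (nat_lit 234) (nat_lit 228) (nat_lit 0) (XT.nd (nat_lit 78) (nat_lit 76) (nat_lit 0) (XT.lf (nat_lit 152) (nat_lit 567331561701) (nat_lit 0) (nat_lit 2985621) (nat_lit 76) (nat_lit 2985621) (nat_lit 125) (nat_lit 1) (nat_lit 123) (nat_lit 1) (nat_lit 124) (nat_lit 1) (nat_lit 257) (nat_lit 368) (nat_lit 275)) (XT.nd (nat_lit 78) (nat_lit 76) (nat_lit 0) (XT.lf (nat_lit 0) (nat_lit 180104664625) (nat_lit 0) (nat_lit 180112114569) (nat_lit 152) (nat_lit 180104664625) (nat_lit 123) (nat_lit 3) (nat_lit 123) (nat_lit 1) (nat_lit 125) (nat_lit 1) (nat_lit 258) (nat_lit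 368) (nat_lit 274)) (XT.lf (nat_lit 76) (nat_lit 171916125866) (nat_lit 0) (nat_lit 171922604078) (nat_lit 76) (nat_lit 171922604078) (nat_lit 123) (nat_lit 3) (nat_lit 122) (nat_lit 1) (nat_lit 123) (nat_lit 1) (nat_lit 259) (nat_lit 368) (nat_lit 273)))) (XT.nd (nat_lit 78) (nat_lit 76) (nat_lit 0) (XT.lf (nat_lit 152) (nat_lit 493333455114) (nat_lit 0) (nat_lit 1707038) (nat_lit 76) (nat_lit 1707038) (nat_lit 122) (nat_lit 1) (nat_lit 120) (nat_lit 1) (nat_lit 121) (nat_lit 1) (nat_lit 260) (nat_lit 368) (nat_lit 272)) (XT.nd (nat_lit 78) (nat_lit 76) (nat_lit 0) (XT.lf (nat_lit 0) (nat_lit 156613456192) (nat_lit 0) (nat_lit 156617715721) (nat_lit 152) (nat_lit 156613456192) (nat_lit 120) (nat_lit 3) (nat_lit 120) (nat_lit 1) (nat_lit 122) (nat_lit 1) (nat_lit 261) (nat_lit 368) (nat_lit 271)) (XT.lf (nat_lit 76) (nat_lit 149493540323) (nat_lit 0) (nat_lit 149497244261) (nat_lit 76) (nat_lit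 149497244261) (nat_lit 120) (nat_lit 3) (nat_lit 119) (nat_lit 1) (nat_lit 120) (nat_lit 1) (nat_lit 262) (nat_lit 368) (nat_lit 270)))))) (XT.nd (nat_lit 390) (nat_lit 456) (nat_lit 0) (XT.nd (nat_lit 156) (nat_lit 228) (nat_lit 0) (XT.nd (nat_lit 78) (nat_lit 0) (nat_lit 0) (XT.lf (nat_lit 152) (nat_lit 428986563586) (nat_lit 0) (nat_lit 976004) (nat_lit 76) (nat_lit 976004) (nat_lit 119) (nat_lit 1) (nat_lit 117) (nat_lit 1) (nat_lit 118) (nat_lit 1) (nat_lit 263) (nat_lit 368) (nat_lit 269)) (XT.lf (nat_lit 0) (nat_lit 136186016790) (nat_lit 0) (nat_lit 136188452190) (nat_lit 152) (nat_lit 136186016790) (nat_lit 117) (nat_lit 3) (nat_lit 117) (nat_lit 1) (nat_lit 119) (nat_lit 1) (nat_lit 264) (nat_lit 368) (nat_lit 268))) (XT.nd (nat_lit 78) (nat_lit 152) (nat_lit 0) (XT.lf (nat_lit 76) (nat_lit 129995101561) (nat_lit 0) (nat_lit 129997219300) (nat_lit 76) (nat_lit 129997219300) (nat_lit 117)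 (nat_lit 3) (nat_lit 116) (nat_lit 1) (nat_lit 117) (nat_lit 1) (nat_lit 265) (nat_lit 368) (nat_lit 267)) (XT.nd (nat_lit 78) (nat_lit 0) (nat_lit 0) (XT.lf (nat_lit 152) (nat_lit 373032337841) (nat_lit 0) (nat_lit 558033) (nat_lit 76) (nat_lit 558033) (nat_lit 116) (nat_lit 1) (nat_lit 114) (nat_lit 1) (nat_lit 115) (nat_lit 1) (nat_lit 266) (nat_lit 368) (nat_lit 266)) (XT.lf (nat_lit 0) (nat_lit 118422853547) (nat_lit 0) (nat_lit 118424245995) (nat_lit 152) (nat_lit 118422853547) (nat_lit 114) (nat_lit 3) (nat_lit 114) (nat_lit 1) (nat_lit 116) (nat_lit 1) (nat_lit 267) (nat_lit 368) (nat_lit 265))))) (XT.nd (nat_lit 234) (nat_lit 228) (nat_lit 0) (XT.nd (nat_lit 78) (nat_lit 152) (nat_lit 0) (XT.lf (nat_lit 76) (nat_lit 113039629651) (nat_lit 0) (nat_lit 113040840475) (nat_lit 76) (nat_lit 113040840475) (nat_lit 114) (nat_lit 3) (nat_lit 113) (nat_lit 1) (nat_lit 114) (nat_lit 1) (nat_lit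 268) (nat_lit 368) (nat_lit 264)) (XT.nd (nat_lit 78) (nat_lit 0) (nat_lit 0) (XT.lf (nat_lit 152) (nat_lit 324376256650) (nat_lit 0) (nat_lit 319057) (nat_lit 76) (nat_lit 319057) (nat_lit 113) (nat_lit 1) (nat_lit 111) (nat_lit 1) (nat_lit 112) (nat_lit 1) (nat_lit 269) (nat_lit 368) (nat_lit 263)) (XT.lf (nat_lit 0) (nat_lit 102976526036) (nat_lit 0) (nat_lit 102977322172) (nat_lit 152) (nat_lit 102976526036) (nat_lit 111) (nat_lit 3) (nat_lit 111) (nat_lit 1) (nat_lit 113) (nat_lit 1) (nat_lit 270) (nat_lit 368) (nat_lit 262)))) (XT.nd (nat_lit 78) (nat_lit 152) (nat_lit 0) (XT.lf (nat_lit 76) (nat_lit 98295565066) (nat_lit 0) (nat_lit 98296257359) (nat_lit 76) (nat_lit 98296257359) (nat_lit 111) (nat_lit 3) (nat_lit 110) (nat_lit 1) (nat_lit 111) (nat_lit 1) (nat_lit 271) (nat_lit 368) (nat_lit 261)) (XT.nd (nat_lit 78) (nat_lit 0) (nat_lit 0) (XT.lf (nat_lit 152) (nat_lit 282066487775) (nat_lit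 0) (nat_lit 182422) (nat_lit 76) (nat_lit 182422) (nat_lit 110) (nat_lit 1) (nat_lit 108) (nat_lit 1) (nat_lit 109) (nat_lit 1) (nat_lit 272) (nat_lit 368) (nat_lit 260)) (XT.lf (nat_lit 0) (nat_lit 89544880518) (nat_lit 0) (nat_lit 89545335711) (nat_lit 152) (nat_lit 89544880518) (nat_lit 108) (nat_lit 3) (nat_lit 108) (nat_lit 1) (nat_lit 110) (nat_lit 1) (nat_lit 273) (nat_lit 368) (nat_lit 259))))))))
noncomputable def ec237 : XT := (XT.nd (nat_lit 1716) (nat_lit 1748) (nat_lit 0) (XT.nd (nat_lit 858) (nat_lit 760) (nat_lit 0) (XT.nd (nat_lit 390) (nat_lit 456) (nat_lit 0) (XT.nd (nat_lit 156) (nat_lit 228) (nat_lit 0) (XT.nd (nat_lit 78) (nat_lit 152) (nat_lit 0) (XT.lf (nat_lit 76) (nat_lit 85474538730) (nat_lit 0) (nat_lit 85474934551) (nat_lit 76) (nat_lit 85474934551) (nat_lit 108) (nat_lit 3) (nat_lit 107) (nat_lit 1) (nat_lit 108) (nat_lit 1) (nat_lit 274) (nat_lit 368) (nat_lit 258))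 (XT.lf (nat_lit 152) (nat_lit 245275308330) (nat_lit 0) (nat_lit 104300) (nat_lit 76) (nat_lit 104300) (nat_lit 107) (nat_lit 1) (nat_lit 105) (nat_lit 1) (nat_lit 106) (nat_lit 1) (nat_lit 275) (nat_lit 368) (nat_lit 257))) (XT.nd (nat_lit 78) (nat_lit 228) (nat_lit 0) (XT.lf (nat_lit 0) (nat_lit 77865156529) (nat_lit 0) (nat_lit 77865416788) (nat_lit 152) (nat_lit 77865156529) (nat_lit 105) (nat_lit 3) (nat_lit 105) (nat_lit 1) (nat_lit 107) (nat_lit 1) (nat_lit 276) (nat_lit 368) (nat_lit 256)) (XT.nd (nat_lit 78) (nat_lit 152) (nat_lit 0) (XT.lf (nat_lit 76) (nat_lit 74325762653) (nat_lit 0) (nat_lit 74325988965) (nat_lit 76) (nat_lit 74325988965) (nat_lit 105) (nat_lit 3) (nat_lit 104) (nat_lit 1) (nat_lit 105) (nat_lit 1) (nat_lit 277) (nat_lit 368) (nat_lit 255)) (XT.lf (nat_lit 152) (nat_lit 213282934881) (nat_lit 0) (nat_lit 59634) (nat_lit 76) (nat_lit 59634) (nat_lit 104) (nat_lit 1)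 (nat_lit 102) (nat_lit 1) (nat_lit 103) (nat_lit 1) (nat_lit 278) (nat_lit 368) (nat_lit 254))))) (XT.nd (nat_lit 234) (nat_lit 228) (nat_lit 0) (XT.nd (nat_lit 78) (nat_lit 228) (nat_lit 0) (XT.lf (nat_lit 0) (nat_lit 67708856370) (nat_lit 0) (nat_lit 67709005174) (nat_lit 152) (nat_lit 67708856370) (nat_lit 102) (nat_lit 3) (nat_lit 102) (nat_lit 1) (nat_lit 104) (nat_lit 1) (nat_lit 279) (nat_lit 368) (nat_lit 253)) (XT.nd (nat_lit 78) (nat_lit 152) (nat_lit 0) (XT.lf (nat_lit 76) (nat_lit 64631141870) (nat_lit 0) (nat_lit 64631271265) (nat_lit 76) (nat_lit 64631271265) (nat_lit 102) (nat_lit 3) (nat_lit 101) (nat_lit 1) (nat_lit 102) (nat_lit 1) (nat_lit 280) (nat_lit 368) (nat_lit 252)) (XT.lf (nat_lit 152) (nat_lit 185463454839) (nat_lit 0) (nat_lit 34096) (nat_lit 76) (nat_lit 34096) (nat_lit 101) (nat_lit 1) (nat_lit 99) (nat_lit 1) (nat_lit 100) (nat_lit 1) (nat_lit 281) (nat_lit 368)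 (nat_lit 251)))) (XT.nd (nat_lit 78) (nat_lit 228) (nat_lit 0) (XT.lf (nat_lit 0) (nat_lit 58877280477) (nat_lit 0) (nat_lit 58877365556) (nat_lit 152) (nat_lit 58877280477) (nat_lit 99) (nat_lit 3) (nat_lit 99) (nat_lit 1) (nat_lit 101) (nat_lit 1) (nat_lit 282) (nat_lit 368) (nat_lit 250)) (XT.nd (nat_lit 78) (nat_lit 152) (nat_lit 0) (XT.lf (nat_lit 76) (nat_lit 56201018037) (nat_lit 0) (nat_lit 56201092018) (nat_lit 76) (nat_lit 56201092018) (nat_lit 99) (nat_lit 3) (nat_lit 98) (nat_lit 1) (nat_lit 99) (nat_lit 1) (nat_lit 283) (nat_lit 368) (nat_lit 249)) (XT.lf (nat_lit 152) (nat_lit 161272588409) (nat_lit 0) (nat_lit 19494) (nat_lit 76) (nat_lit 19494) (nat_lit 98) (nat_lit 1) (nat_lit 96) (nat_lit 1) (nat_lit 97) (nat_lit 1) (nat_lit 284) (nat_lit 368) (nat_lit 248)))))) (XT.nd (nat_lit 390) (nat_lit 456) (nat_lit 0) (XT.nd (nat_lit 156) (nat_lit 228) (nat_lit 0) (XT.nd (nat_lit 78) (nat_lit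 76) (nat_lit 0) (XT.lf (nat_lit 0) (nat_lit 51197643241) (nat_lit 0) (nat_lit 51197691885) (nat_lit 152) (nat_lit 51197643241) (nat_lit 96) (nat_lit 3) (nat_lit 96) (nat_lit 1) (nat_lit 98) (nat_lit 1) (nat_lit 285) (nat_lit 368) (nat_lit 247)) (XT.lf (nat_lit 76) (nat_lit 48870464821) (nat_lit 0) (nat_lit 48870507121) (nat_lit 76) (nat_lit 48870507121) (nat_lit 96) (nat_lit 3) (nat_lit 95) (nat_lit 1) (nat_lit 96) (nat_lit 1) (nat_lit 286) (nat_lit 368) (nat_lit 246))) (XT.nd (nat_lit 78) (nat_lit 76) (nat_lit 0) (XT.lf (nat_lit 152) (nat_lit 140237044253) (nat_lit 0) (nat_lit 11146) (nat_lit 76) (nat_lit 11146) (nat_lit 95) (nat_lit 1) (nat_lit 93) (nat_lit 1) (nat_lit 94) (nat_lit 1) (nat_lit 287) (nat_lit 368) (nat_lit 245)) (XT.nd (nat_lit 78) (nat_lit 76) (nat_lit 0) (XT.lf (nat_lit 0) (nat_lit 44519694374) (nat_lit 0) (nat_lit 44519722186) (nat_lit 152) (nat_lit 44519694374) (nat_lit 93)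 (nat_lit 3) (nat_lit 93) (nat_lit 1) (nat_lit 95) (nat_lit 1) (nat_lit 288) (nat_lit 368) (nat_lit 244)) (XT.lf (nat_lit 76) (nat_lit 42496064574) (nat_lit 0) (nat_lit 42496088758) (nat_lit 76) (nat_lit 42496088758) (nat_lit 93) (nat_lit 3) (nat_lit 92) (nat_lit 1) (nat_lit 93) (nat_lit 1) (nat_lit 289) (nat_lit 368) (nat_lit 243))))) (XT.nd (nat_lit 234) (nat_lit 228) (nat_lit 0) (XT.nd (nat_lit 78) (nat_lit 76) (nat_lit 0) (XT.lf (nat_lit 152) (nat_lit 121945262078) (nat_lit 0) (nat_lit 6372) (nat_lit 76) (nat_lit 6372) (nat_lit 92) (nat_lit 1) (nat_lit 90) (nat_lit 1) (nat_lit 91) (nat_lit 1) (nat_lit 290) (nat_lit 368) (nat_lit 242)) (XT.nd (nat_lit 78) (nat_lit 76) (nat_lit 0) (XT.lf (nat_lit 0) (nat_lit 38712780346) (nat_lit 0) (nat_lit 38712796248) (nat_lit 152) (nat_lit 38712780346) (nat_lit 90) (nat_lit 3) (nat_lit 90) (nat_lit 1) (nat_lit 92) (nat_lit 1) (nat_lit 291) (nat_lit 368) (nat_lit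 241)) (XT.lf (nat_lit 76) (nat_lit 36953104322) (nat_lit 0) (nat_lit 36953118149) (nat_lit 76) (nat_lit 36953118149) (nat_lit 90) (nat_lit 3) (nat_lit 89) (nat_lit 1) (nat_lit 90) (nat_lit 1) (nat_lit 292) (nat_lit 368) (nat_lit 240)))) (XT.nd (nat_lit 78) (nat_lit 76) (nat_lit 0) (XT.lf (nat_lit 152) (nat_lit 106039361877) (nat_lit 0) (nat_lit 3643) (nat_lit 76) (nat_lit 3643) (nat_lit 89) (nat_lit 1) (nat_lit 87) (nat_lit 1) (nat_lit 88) (nat_lit 1) (nat_lit 293) (nat_lit 368) (nat_lit 239)) (XT.nd (nat_lit 78) (nat_lit 76) (nat_lit 0) (XT.lf (nat_lit 0) (nat_lit 33663288761) (nat_lit 0) (nat_lit 33663297853) (nat_lit 152) (nat_lit 33663288761) (nat_lit 87) (nat_lit 3) (nat_lit 87) (nat_lit 1) (nat_lit 89) (nat_lit 1) (nat_lit 294) (nat_lit 368) (nat_lit 238)) (XT.lf (nat_lit 76) (nat_lit 32133136876) (nat_lit 0) (nat_lit 32133144782) (nat_lit 76) (nat_lit 32133144782) (nat_lit 87) (nat_lit 3)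 (nat_lit 86) (nat_lit 1) (nat_lit 87) (nat_lit 1) (nat_lit 295) (nat_lit 368) (nat_lit 237))))))) (XT.nd (nat_lit 858) (nat_lit 912) (nat_lit 0) (XT.nd (nat_lit 390) (nat_lit 456) (nat_lit 0) (XT.nd (nat_lit 156) (nat_lit 228) (nat_lit 0) (XT.nd (nat_lit 78) (nat_lit 0) (nat_lit 0) (XT.lf (nat_lit 152) (nat_lit 92208142791) (nat_lit 0) (nat_lit 2083) (nat_lit 76) (nat_lit 2083) (nat_lit 86) (nat_lit 1) (nat_lit 84) (nat_lit 1) (nat_lit 85) (nat_lit 1) (nat_lit 296) (nat_lit 368) (nat_lit 236)) (XT.lf (nat_lit 0) (nat_lit 29272425869) (nat_lit 0) (nat_lit 29272431067) (nat_lit 152) (nat_lit 29272425869) (nat_lit 84) (nat_lit 3) (nat_lit 84) (nat_lit 1) (nat_lit 86) (nat_lit 1) (nat_lit 297) (nat_lit 368) (nat_lit 235))) (XT.nd (nat_lit 78) (nat_lit 152) (nat_lit 0) (XT.lf (nat_lit 76) (nat_lit 27941859687) (nat_lit 0) (nat_lit 27941864207) (nat_lit 76) (nat_lit 27941864207) (nat_lit 84) (nat_lit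 3) (nat_lit 83) (nat_lit 1) (nat_lit 84) (nat_lit 1) (nat_lit 298) (nat_lit 368) (nat_lit 234)) (XT.nd (nat_lit 78) (nat_lit 0) (nat_lit 0) (XT.lf (nat_lit 152) (nat_lit 80180994891) (nat_lit 0) (nat_lit 1191) (nat_lit 76) (nat_lit 1191) (nat_lit 83) (nat_lit 1) (nat_lit 81) (nat_lit 1) (nat_lit 82) (nat_lit 1) (nat_lit 299) (nat_lit 368) (nat_lit 233)) (XT.lf (nat_lit 0) (nat_lit 25454283856) (nat_lit 0) (nat_lit 25454286828) (nat_lit 152) (nat_lit 25454283856) (nat_lit 81) (nat_lit 3) (nat_lit 81) (nat_lit 1) (nat_lit 83) (nat_lit 1) (nat_lit 300) (nat_lit 368) (nat_lit 232))))) (XT.nd (nat_lit 234) (nat_lit 228) (nat_lit 0) (XT.nd (nat_lit 78) (nat_lit 152) (nat_lit 0) (XT.lf (nat_lit 76) (nat_lit 24297270170) (nat_lit 0) (nat_lit 24297272754) (nat_lit 76) (nat_lit 24297272754) (nat_lit 81) (nat_lit 3) (nat_lit 80) (nat_lit 1) (nat_lit 81) (nat_lit 1) (nat_lit 301) (nat_lit 368) (nat_lit 231))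 (XT.nd (nat_lit 78) (nat_lit 0) (nat_lit 0) (XT.lf (nat_lit 152) (nat_lit 69722604916) (nat_lit 0) (nat_lit 681) (nat_lit 76) (nat_lit 681) (nat_lit 80) (nat_lit 1) (nat_lit 78) (nat_lit 1) (nat_lit 79) (nat_lit 1) (nat_lit 302) (nat_lit 368) (nat_lit 230)) (XT.lf (nat_lit 0) (nat_lit 22134160155) (nat_lit 0) (nat_lit 22134161855) (nat_lit 152) (nat_lit 22134160155) (nat_lit 78) (nat_lit 3) (nat_lit 78) (nat_lit 1) (nat_lit 80) (nat_lit 1) (nat_lit 303) (nat_lit 368) (nat_lit 229)))) (XT.nd (nat_lit 78) (nat_lit 152) (nat_lit 0) (XT.lf (nat_lit 76) (nat_lit 21128061519) (nat_lit 0) (nat_lit 21128062996) (nat_lit 76) (nat_lit 21128062996) (nat_lit 78) (nat_lit 3) (nat_lit 77) (nat_lit 1) (nat_lit 78) (nat_lit 1) (nat_lit 304) (nat_lit 368) (nat_lit 228)) (XT.nd (nat_lit 78) (nat_lit 0) (nat_lit 0) (XT.lf (nat_lit 152) (nat_lit 60628352480) (nat_lit 0) (nat_lit 389) (nat_lit 76) (nat_lit 389) (nat_lit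 77) (nat_lit 1) (nat_lit 75) (nat_lit 1) (nat_lit 76) (nat_lit 1) (nat_lit 305) (nat_lit 368) (nat_lit 227)) (XT.lf (nat_lit 0) (nat_lit 19247095948) (nat_lit 0) (nat_lit 19247096919) (nat_lit 152) (nat_lit 19247095948) (nat_lit 75) (nat_lit 3) (nat_lit 75) (nat_lit 1) (nat_lit 77) (nat_lit 1) (nat_lit 306) (nat_lit 368) (nat_lit 226)))))) (XT.nd (nat_lit 468) (nat_lit 456) (nat_lit 0) (XT.nd (nat_lit 234) (nat_lit 228) (nat_lit 0) (XT.nd (nat_lit 78) (nat_lit 152) (nat_lit 0) (XT.lf (nat_lit 76) (nat_lit 18372227694) (nat_lit 0) (nat_lit 18372228539) (nat_lit 76) (nat_lit 18372228539) (nat_lit 75) (nat_lit 3) (nat_lit 74) (nat_lit 1) (nat_lit 75) (nat_lit 1) (nat_lit 307) (nat_lit 368) (nat_lit 225)) (XT.nd (nat_lit 78) (nat_lit 0) (nat_lit 0) (XT.lf (nat_lit 152) (nat_lit 52720306721) (nat_lit 0) (nat_lit 222) (nat_lit 76) (nat_lit 222) (nat_lit 74) (nat_lit 1) (nat_lit 72) (nat_lit 1) (nat_lit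 73) (nat_lit 1) (nat_lit 308) (nat_lit 368) (nat_lit 224)) (XT.lf (nat_lit 0) (nat_lit 16736605264) (nat_lit 0) (nat_lit 16736605819) (nat_lit 152) (nat_lit 16736605264) (nat_lit 72) (nat_lit 3) (nat_lit 72) (nat_lit 1) (nat_lit 74) (nat_lit 1) (nat_lit 309) (nat_lit 368) (nat_lit 223)))) (XT.nd (nat_lit 78) (nat_lit 152) (nat_lit 0) (XT.lf (nat_lit 76) (nat_lit 15975850333) (nat_lit 0) (nat_lit 15975850816) (nat_lit 76) (nat_lit 15975850816) (nat_lit 72) (nat_lit 3) (nat_lit 71) (nat_lit 1) (nat_lit 72) (nat_lit 1) (nat_lit 310) (nat_lit 368) (nat_lit 222)) (XT.nd (nat_lit 78) (nat_lit 0) (nat_lit 0) (XT.lf (nat_lit 152) (nat_lit 45843745099) (nat_lit 0) (nat_lit 127) (nat_lit 76) (nat_lit 127) (nat_lit 71) (nat_lit 1) (nat_lit 69) (nat_lit 1) (nat_lit 70) (nat_lit 1) (nat_lit 311) (nat_lit 368) (nat_lit 221)) (XT.lf (nat_lit 0) (nat_lit 14553569847) (nat_lit 0) (nat_lit 14553570165) (nat_lit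 152) (nat_lit 14553569847) (nat_lit 69) (nat_lit 3) (nat_lit 69) (nat_lit 1) (nat_lit 71) (nat_lit 1) (nat_lit 312) (nat_lit 368) (nat_lit 220))))) (XT.nd (nat_lit 234) (nat_lit 228) (nat_lit 0) (XT.nd (nat_lit 78) (nat_lit 152) (nat_lit 0) (XT.lf (nat_lit 76) (nat_lit 13892043861) (nat_lit 0) (nat_lit 13892044137) (nat_lit 76) (nat_lit 13892044137) (nat_lit 69) (nat_lit 3) (nat_lit 68) (nat_lit 1) (nat_lit 69) (nat_lit 1) (nat_lit 313) (nat_lit 368) (nat_lit 219)) (XT.nd (nat_lit 78) (nat_lit 0) (nat_lit 0) (XT.lf (nat_lit 152) (nat_lit 39864126244) (nat_lit 0) (nat_lit 72) (nat_lit 76) (nat_lit 72) (nat_lit 68) (nat_lit 1) (nat_lit 66) (nat_lit 1) (nat_lit 67) (nat_lit 1) (nat_lit 314) (nat_lit 368) (nat_lit 218)) (XT.lf (nat_lit 0) (nat_lit 12655278158) (nat_lit 0) (nat_lit 12655278339) (nat_lit 152) (nat_lit 12655278158) (nat_lit 66) (nat_lit 3) (nat_lit 66) (nat_lit 1) (nat_lit 68) (nat_lit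 1) (nat_lit 315) (nat_lit 368) (nat_lit 217)))) (XT.nd (nat_lit 78) (nat_lit 152) (nat_lit 0) (XT.lf (nat_lit 76) (nat_lit 12080038194) (nat_lit 0) (nat_lit 12080038352) (nat_lit 76) (nat_lit 12080038352) (nat_lit 66) (nat_lit 3) (nat_lit 65) (nat_lit 1) (nat_lit 66) (nat_lit 1) (nat_lit 316) (nat_lit 368) (nat_lit 216)) (XT.nd (nat_lit 78) (nat_lit 0) (nat_lit 0) (XT.lf (nat_lit 152) (nat_lit 34664457644) (nat_lit 0) (nat_lit 41) (nat_lit 76) (nat_lit 41) (nat_lit 65) (nat_lit 1) (nat_lit 63) (nat_lit 1) (nat_lit 64) (nat_lit 1) (nat_lit 317) (nat_lit 368) (nat_lit 215)) (XT.lf (nat_lit 0) (nat_lit 11004589720) (nat_lit 0) (nat_lit 11004589823) (nat_lit 152) (nat_lit 11004589720) (nat_lit 63) (nat_lit 3) (nat_lit 63) (nat_lit 1) (nat_lit 65) (nat_lit 1) (nat_lit 318) (nat_lit 368) (nat_lit 214))))))))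
noncomputable def ec238 : XT := (XT.nd (nat_lit 1716) (nat_lit 1596) (nat_lit 0) (XT.nd (nat_lit 858) (nat_lit 760) (nat_lit 0) (XT.nd (nat_lit 390) (nat_lit 456) (nat_lit 0) (XT.nd (nat_lit 156) (nat_lit 228) (nat_lit 0) (XT.nd (nat_lit 78) (nat_lit 152) (nat_lit 0) (XT.lf (nat_lit 76) (nat_lit 10504381069) (nat_lit 0) (nat_lit 10504381159) (nat_lit 76) (nat_lit 10504381159) (nat_lit 63) (nat_lit 3) (nat_lit 62) (nat_lit 1) (nat_lit 63) (nat_lit 1) (nat_lit 319) (nat_lit 368) (nat_lit 213)) (XT.lf (nat_lit 152) (nat_lit 30143006670) (nat_lit 0) (nat_lit 23) (nat_lit 76) (nat_lit 23) (nat_lit 62) (nat_lit 1) (nat_lit 60) (nat_lit 1) (nat_lit 61) (nat_lit 1) (nat_lit 320) (nat_lit 368) (nat_lit 212))) (XT.nd (nat_lit 78) (nat_lit 228) (nat_lit 0) (XT.lf (nat_lit 0) (nat_lit 9569208462) (nat_lit 0) (nat_lit 9569208521) (nat_lit 152) (nat_lit 9569208462) (nat_lit 60) (nat_lit 3) (nat_lit 60) (nat_lit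 1) (nat_lit 62) (nat_lit 1) (nat_lit 321) (nat_lit 368) (nat_lit 211)) (XT.nd (nat_lit 78) (nat_lit 152) (nat_lit 0) (XT.lf (nat_lit 76) (nat_lit 9134244425) (nat_lit 0) (nat_lit 9134244477) (nat_lit 76) (nat_lit 9134244477) (nat_lit 60) (nat_lit 3) (nat_lit 59) (nat_lit 1) (nat_lit 60) (nat_lit 1) (nat_lit 322) (nat_lit 368) (nat_lit 210)) (XT.lf (nat_lit 152) (nat_lit 26211310161) (nat_lit 0) (nat_lit 13) (nat_lit 76) (nat_lit 13) (nat_lit 59) (nat_lit 1) (nat_lit 57) (nat_lit 1) (nat_lit 58) (nat_lit 1) (nat_lit 323) (nat_lit 368) (nat_lit 209))))) (XT.nd (nat_lit 234) (nat_lit 228) (nat_lit 0) (XT.nd (nat_lit 78) (nat_lit 228) (nat_lit 0) (XT.lf (nat_lit 0) (nat_lit 8321050842) (nat_lit 0) (nat_lit 8321050876) (nat_lit 152) (nat_lit 8321050842) (nat_lit 57) (nat_lit 3) (nat_lit 57) (nat_lit 1) (nat_lit 59) (nat_lit 1) (nat_lit 324) (nat_lit 368) (nat_lit 208)) (XT.nd (nat_lit 78) (nat_lit 152)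 (nat_lit 0) (XT.lf (nat_lit 76) (nat_lit 7942821249) (nat_lit 0) (nat_lit 7942821279) (nat_lit 76) (nat_lit 7942821279) (nat_lit 57) (nat_lit 3) (nat_lit 56) (nat_lit 1) (nat_lit 57) (nat_lit 1) (nat_lit 325) (nat_lit 368) (nat_lit 207)) (XT.lf (nat_lit 152) (nat_lit 22792443626) (nat_lit 0) (nat_lit 7) (nat_lit 76) (nat_lit 7) (nat_lit 56) (nat_lit 1) (nat_lit 54) (nat_lit 1) (nat_lit 55) (nat_lit 1) (nat_lit 326) (nat_lit 368) (nat_lit 206)))) (XT.nd (nat_lit 78) (nat_lit 228) (nat_lit 0) (XT.lf (nat_lit 0) (nat_lit 7235696387) (nat_lit 0) (nat_lit 7235696407) (nat_lit 152) (nat_lit 7235696387) (nat_lit 54) (nat_lit 3) (nat_lit 54) (nat_lit 1) (nat_lit 56) (nat_lit 1) (nat_lit 327) (nat_lit 368) (nat_lit 205)) (XT.nd (nat_lit 78) (nat_lit 152) (nat_lit 0) (XT.lf (nat_lit 76) (nat_lit 6906801092) (nat_lit 0) (nat_lit 6906801109) (nat_lit 76) (nat_lit 6906801109) (nat_lit 54) (nat_lit 3) (nat_lit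 53) (nat_lit 1) (nat_lit 54) (nat_lit 1) (nat_lit 328) (nat_lit 368) (nat_lit 204)) (XT.lf (nat_lit 152) (nat_lit 19819516201) (nat_lit 0) (nat_lit 4) (nat_lit 76) (nat_lit 4) (nat_lit 53) (nat_lit 1) (nat_lit 51) (nat_lit 1) (nat_lit 52) (nat_lit 1) (nat_lit 329) (nat_lit 368) (nat_lit 203)))))) (XT.nd (nat_lit 390) (nat_lit 456) (nat_lit 0) (XT.nd (nat_lit 156) (nat_lit 228) (nat_lit 0) (XT.nd (nat_lit 78) (nat_lit 76) (nat_lit 0) (XT.lf (nat_lit 0) (nat_lit 6291909904) (nat_lit 0) (nat_lit 6291909915) (nat_lit 152) (nat_lit 6291909904) (nat_lit 51) (nat_lit 3) (nat_lit 51) (nat_lit 1) (nat_lit 53) (nat_lit 1) (nat_lit 330) (nat_lit 368) (nat_lit 202)) (XT.lf (nat_lit 76) (nat_lit 6005913996) (nat_lit 0) (nat_lit 6005914006) (nat_lit 76) (nat_lit 6005914006) (nat_lit 51) (nat_lit 3) (nat_lit 50) (nat_lit 1) (nat_lit 51) (nat_lit 1) (nat_lit 331) (nat_lit 368) (nat_lit 201))) (XT.nd (nat_lit 78)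 (nat_lit 76) (nat_lit 0) (XT.lf (nat_lit 152) (nat_lit 17234361916) (nat_lit 0) (nat_lit 2) (nat_lit 76) (nat_lit 2) (nat_lit 50) (nat_lit 1) (nat_lit 48) (nat_lit 1) (nat_lit 49) (nat_lit 1) (nat_lit 332) (nat_lit 368) (nat_lit 200)) (XT.nd (nat_lit 78) (nat_lit 76) (nat_lit 0) (XT.lf (nat_lit 0) (nat_lit 5471226004) (nat_lit 0) (nat_lit 5471226011) (nat_lit 152) (nat_lit 5471226004) (nat_lit 48) (nat_lit 3) (nat_lit 48) (nat_lit 1) (nat_lit 50) (nat_lit 1) (nat_lit 333) (nat_lit 368) (nat_lit 199)) (XT.lf (nat_lit 76) (nat_lit 5222533911) (nat_lit 0) (nat_lit 5222533917) (nat_lit 76) (nat_lit 5222533917) (nat_lit 48) (nat_lit 3) (nat_lit 47) (nat_lit 1) (nat_lit 48) (nat_lit 1) (nat_lit 334) (nat_lit 368) (nat_lit 198))))) (XT.nd (nat_lit 234) (nat_lit 228) (nat_lit 0) (XT.nd (nat_lit 78) (nat_lit 76) (nat_lit 0) (XT.lf (nat_lit 152) (nat_lit 14986401667) (nat_lit 0) (nat_lit 1) (nat_lit 76)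 (nat_lit 1) (nat_lit 47) (nat_lit 1) (nat_lit 45) (nat_lit 1) (nat_lit 46) (nat_lit 1) (nat_lit 335) (nat_lit 368) (nat_lit 197)) (XT.nd (nat_lit 78) (nat_lit 76) (nat_lit 0) (XT.lf (nat_lit 0) (nat_lit 4757587830) (nat_lit 0) (nat_lit 4757587834) (nat_lit 152) (nat_lit 4757587830) (nat_lit 45) (nat_lit 3) (nat_lit 45) (nat_lit 1) (nat_lit 47) (nat_lit 1) (nat_lit 336) (nat_lit 368) (nat_lit 196)) (XT.lf (nat_lit 76) (nat_lit 4541333837) (nat_lit 0) (nat_lit 4541333840) (nat_lit 76) (nat_lit 4541333840) (nat_lit 45) (nat_lit 3) (nat_lit 44) (nat_lit 1) (nat_lit 45) (nat_lit 1) (nat_lit 337) (nat_lit 368) (nat_lit 195)))) (XT.nd (nat_lit 78) (nat_lit 228) (nat_lit 0) (XT.lf (nat_lit 0) (nat_lit 13031653625) (nat_lit 0) (nat_lit 0) (nat_lit 0) (nat_lit 0) (nat_lit 44) (nat_lit 1) (nat_lit 1) (nat_lit 0) (nat_lit 1) (nat_lit 0) (nat_lit 338) (nat_lit 368) (nat_lit 194)) (XT.nd (nat_lit 78) (nat_lit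 76) (nat_lit 0) (XT.lf (nat_lit 0) (nat_lit 4137032896) (nat_lit 0) (nat_lit 4137032898) (nat_lit 152) (nat_lit 4137032896) (nat_lit 42) (nat_lit 3) (nat_lit 42) (nat_lit 1) (nat_lit 44) (nat_lit 1) (nat_lit 339) (nat_lit 368) (nat_lit 193)) (XT.lf (nat_lit 76) (nat_lit 3948985946) (nat_lit 0) (nat_lit 3948985948) (nat_lit 76) (nat_lit 3948985948) (nat_lit 42) (nat_lit 3) (nat_lit 41) (nat_lit 1) (nat_lit 42) (nat_lit 1) (nat_lit 340) (nat_lit 368) (nat_lit 192))))))) (XT.nd (nat_lit 858) (nat_lit 760) (nat_lit 0) (XT.nd (nat_lit 390) (nat_lit 456) (nat_lit 0) (XT.nd (nat_lit 156) (nat_lit 228) (nat_lit 0) (XT.nd (nat_lit 78) (nat_lit 152) (nat_lit 0) (XT.lf (nat_lit 0) (nat_lit 11331872717) (nat_lit 0) (nat_lit 0) (nat_lit 0) (nat_lit 0) (nat_lit 41) (nat_lit 1) (nat_lit 1) (nat_lit 0) (nat_lit 1) (nat_lit 0) (nat_lit 341) (nat_lit 368) (nat_lit 191)) (XT.lf (nat_lit 0) (nat_lit 3597419910) (nat_lit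 0) (nat_lit 3597419911) (nat_lit 152) (nat_lit 3597419910) (nat_lit 39) (nat_lit 3) (nat_lit 39) (nat_lit 1) (nat_lit 41) (nat_lit 1) (nat_lit 342) (nat_lit 368) (nat_lit 190))) (XT.nd (nat_lit 78) (nat_lit 152) (nat_lit 0) (XT.lf (nat_lit 76) (nat_lit 3433900823) (nat_lit 0) (nat_lit 3433900824) (nat_lit 76) (nat_lit 3433900824) (nat_lit 39) (nat_lit 3) (nat_lit 38) (nat_lit 1) (nat_lit 39) (nat_lit 1) (nat_lit 343) (nat_lit 368) (nat_lit 189)) (XT.nd (nat_lit 78) (nat_lit 152) (nat_lit 0) (XT.lf (nat_lit 0) (nat_lit 9853802363) (nat_lit 0) (nat_lit 0) (nat_lit 0) (nat_lit 0) (nat_lit 38) (nat_lit 1) (nat_lit 1) (nat_lit 0) (nat_lit 1) (nat_lit 0) (nat_lit 344) (nat_lit 368) (nat_lit 188)) (XT.lf (nat_lit 0) (nat_lit 3128191226) (nat_lit 0) (nat_lit 3128191227) (nat_lit 152) (nat_lit 3128191226) (nat_lit 36) (nat_lit 3) (nat_lit 36) (nat_lit 1) (nat_lit 38) (nat_lit 1) (nat_lit 345) (nat_lit 368)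 (nat_lit 187))))) (XT.nd (nat_lit 234) (nat_lit 228) (nat_lit 0) (XT.nd (nat_lit 78) (nat_lit 152) (nat_lit 0) (XT.lf (nat_lit 76) (nat_lit 2986000716) (nat_lit 0) (nat_lit 2986000716) (nat_lit 76) (nat_lit 2986000716) (nat_lit 36) (nat_lit 3) (nat_lit 35) (nat_lit 1) (nat_lit 36) (nat_lit 1) (nat_lit 346) (nat_lit 368) (nat_lit 186)) (XT.nd (nat_lit 78) (nat_lit 152) (nat_lit 0) (XT.lf (nat_lit 0) (nat_lit 8568523794) (nat_lit 0) (nat_lit 0) (nat_lit 0) (nat_lit 0) (nat_lit 35) (nat_lit 1) (nat_lit 1) (nat_lit 0) (nat_lit 1) (nat_lit 0) (nat_lit 347) (nat_lit 368) (nat_lit 185)) (XT.lf (nat_lit 0) (nat_lit 2720166283) (nat_lit 0) (nat_lit 2720166284) (nat_lit 152) (nat_lit 2720166283) (nat_lit 33) (nat_lit 3) (nat_lit 33) (nat_lit 1) (nat_lit 35) (nat_lit 1) (nat_lit 348) (nat_lit 368) (nat_lit 184)))) (XT.nd (nat_lit 78) (nat_lit 152) (nat_lit 0) (XT.lf (nat_lit 76) (nat_lit 2596522361) (nat_lit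 0) (nat_lit 2596522362) (nat_lit 76) (nat_lit 2596522362) (nat_lit 33) (nat_lit 3) (nat_lit 32) (nat_lit 1) (nat_lit 33) (nat_lit 1) (nat_lit 349) (nat_lit 368) (nat_lit 183)) (XT.nd (nat_lit 78) (nat_lit 152) (nat_lit 0) (XT.lf (nat_lit 0) (nat_lit 7450890256) (nat_lit 0) (nat_lit 0) (nat_lit 0) (nat_lit 0) (nat_lit 32) (nat_lit 1) (nat_lit 1) (nat_lit 0) (nat_lit 1) (nat_lit 0) (nat_lit 350) (nat_lit 368) (nat_lit 182)) (XT.lf (nat_lit 0) (nat_lit 2365361986) (nat_lit 0) (nat_lit 2365361986) (nat_lit 152) (nat_lit 2365361986) (nat_lit 30) (nat_lit 3) (nat_lit 30) (nat_lit 1) (nat_lit 32) (nat_lit 1) (nat_lit 351) (nat_lit 368) (nat_lit 181)))))) (XT.nd (nat_lit 390) (nat_lit 456) (nat_lit 0) (XT.nd (nat_lit 156) (nat_lit 228) (nat_lit 0) (XT.nd (nat_lit 78) (nat_lit 0) (nat_lit 0) (XT.lf (nat_lit 76) (nat_lit 2257845532) (nat_lit 0) (nat_lit 2257845532) (nat_lit 76) (nat_lit 2257845532) (nat_lit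 30) (nat_lit 3) (nat_lit 29) (nat_lit 1) (nat_lit 30) (nat_lit 1) (nat_lit 352) (nat_lit 368) (nat_lit 180)) (XT.lf (nat_lit 0) (nat_lit 6479035005) (nat_lit 0) (nat_lit 0) (nat_lit 0) (nat_lit 0) (nat_lit 29) (nat_lit 1) (nat_lit 1) (nat_lit 0) (nat_lit 1) (nat_lit 0) (nat_lit 353) (nat_lit 368) (nat_lit 179))) (XT.nd (nat_lit 78) (nat_lit 76) (nat_lit 0) (XT.lf (nat_lit 0) (nat_lit 2056836509) (nat_lit 0) (nat_lit 2056836509) (nat_lit 152) (nat_lit 2056836509) (nat_lit 27) (nat_lit 3) (nat_lit 27) (nat_lit 1) (nat_lit 29) (nat_lit 1) (nat_lit 354) (nat_lit 368) (nat_lit 178)) (XT.nd (nat_lit 78) (nat_lit 0) (nat_lit 0) (XT.lf (nat_lit 76) (nat_lit 1963343941) (nat_lit 0) (nat_lit 1963343941) (nat_lit 76) (nat_lit 1963343941) (nat_lit 27) (nat_lit 3) (nat_lit 26) (nat_lit 1) (nat_lit 27) (nat_lit 1) (nat_lit 355) (nat_lit 368) (nat_lit 177)) (XT.lf (nat_lit 0) (nat_lit 5633943483) (nat_lit 0)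 (nat_lit 0) (nat_lit 0) (nat_lit 0) (nat_lit 26) (nat_lit 1) (nat_lit 1) (nat_lit 0) (nat_lit 1) (nat_lit 0) (nat_lit 356) (nat_lit 368) (nat_lit 176))))) (XT.nd (nat_lit 234) (nat_lit 228) (nat_lit 0) (XT.nd (nat_lit 78) (nat_lit 76) (nat_lit 0) (XT.lf (nat_lit 0) (nat_lit 1788553486) (nat_lit 0) (nat_lit 1788553486) (nat_lit 152) (nat_lit 1788553486) (nat_lit 24) (nat_lit 3) (nat_lit 24) (nat_lit 1) (nat_lit 26) (nat_lit 1) (nat_lit 357) (nat_lit 368) (nat_lit 175)) (XT.nd (nat_lit 78) (nat_lit 0) (nat_lit 0) (XT.lf (nat_lit 76) (nat_lit 1707255600) (nat_lit 0) (nat_lit 1707255600) (nat_lit 76) (nat_lit 1707255600) (nat_lit 24) (nat_lit 3) (nat_lit 23) (nat_lit 1) (nat_lit 24) (nat_lit 1) (nat_lit 358) (nat_lit 368) (nat_lit 174)) (XT.lf (nat_lit 0) (nat_lit 4899081289) (nat_lit 0) (nat_lit 0) (nat_lit 0) (nat_lit 0) (nat_lit 23) (nat_lit 1) (nat_lit 1) (nat_lit 0) (nat_lit 1) (nat_lit 0) (nat_lit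 359) (nat_lit 368) (nat_lit 173)))) (XT.nd (nat_lit 78) (nat_lit 76) (nat_lit 0) (XT.lf (nat_lit 0) (nat_lit 1555263901) (nat_lit 0) (nat_lit 1555263901) (nat_lit 152) (nat_lit 1555263901) (nat_lit 21) (nat_lit 3) (nat_lit 21) (nat_lit 1) (nat_lit 23) (nat_lit 1) (nat_lit 360) (nat_lit 368) (nat_lit 172)) (XT.nd (nat_lit 78) (nat_lit 0) (nat_lit 0) (XT.lf (nat_lit 76) (nat_lit 1484570087) (nat_lit 0) (nat_lit 1484570087) (nat_lit 76) (nat_lit 1484570087) (nat_lit 21) (nat_lit 3) (nat_lit 20) (nat_lit 1) (nat_lit 21) (nat_lit 1) (nat_lit 361) (nat_lit 368) (nat_lit 171)) (XT.lf (nat_lit 0) (nat_lit 4260070686) (nat_lit 0) (nat_lit 0) (nat_lit 0) (nat_lit 0) (nat_lit 20) (nat_lit 1) (nat_lit 1) (nat_lit 0) (nat_lit 1) (nat_lit 0) (nat_lit 362) (nat_lit 368) (nat_lit 170))))))))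
noncomputable def ec239 : XT := (XT.nd (nat_lit 32136) (nat_lit 0) (nat_lit 13224) (XT.nd (nat_lit 31278) (nat_lit 0) (nat_lit 14972) (XT.nd (nat_lit 390) (nat_lit 380) (nat_lit 0) (XT.nd (nat_lit 156) (nat_lit 228) (nat_lit 0) (XT.nd (nat_lit 78) (nat_lit 76) (nat_lit 0) (XT.lf (nat_lit 0) (nat_lit 1352403392) (nat_lit 0) (nat_lit 1352403392) (nat_lit 152) (nat_lit 1352403392) (nat_lit 18) (nat_lit 3) (nat_lit 18) (nat_lit 1) (nat_lit 20) (nat_lit 1) (nat_lit 363) (nat_lit 368) (nat_lit 169)) (XT.lf (nat_lit 76) (nat_lit 1290930511) (nat_lit 0) (nat_lit 1290930511) (nat_lit 76) (nat_lit 1290930511) (nat_lit 18) (nat_lit 3) (nat_lit 17) (nat_lit 1) (nat_lit 18) (nat_lit 1) (nat_lit 364) (nat_lit 368) (nat_lit 168))) (XT.nd (nat_lit 78) (nat_lit 228) (nat_lit 0) (XT.lf (nat_lit 0) (nat_lit 3704409292) (nat_lit 0) (nat_lit 0) (nat_lit 0) (nat_lit 0) (nat_lit 17) (nat_lit 1) (nat_lit 1) (nat_lit 0)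 (nat_lit 1) (nat_lit 0) (nat_lit 365) (nat_lit 368) (nat_lit 167)) (XT.nd (nat_lit 78) (nat_lit 76) (nat_lit 0) (XT.lf (nat_lit 0) (nat_lit 1176002950) (nat_lit 0) (nat_lit 1176002950) (nat_lit 152) (nat_lit 1176002950) (nat_lit 15) (nat_lit 3) (nat_lit 15) (nat_lit 1) (nat_lit 17) (nat_lit 1) (nat_lit 366) (nat_lit 368) (nat_lit 166)) (XT.lf (nat_lit 76) (nat_lit 1122548270) (nat_lit 0) (nat_lit 1122548270) (nat_lit 76) (nat_lit 1122548270) (nat_lit 15) (nat_lit 3) (nat_lit 14) (nat_lit 1) (nat_lit 15) (nat_lit 1) (nat_lit 367) (nat_lit 368) (nat_lit 165))))) (XT.nd (nat_lit 234) (nat_lit 152) (nat_lit 0) (XT.nd (nat_lit 78) (nat_lit 228) (nat_lit 0) (XT.lf (nat_lit 0) (nat_lit 3221225471) (nat_lit 0) (nat_lit 0) (nat_lit 0) (nat_lit 0) (nat_lit 14) (nat_lit 1) (nat_lit 1) (nat_lit 0) (nat_lit 1) (nat_lit 0) (nat_lit 368) (nat_lit 368) (nat_lit 164)) (XT.nd (nat_lit 78) (nat_lit 76) (nat_lit 0)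 (XT.lf (nat_lit 0) (nat_lit 1022611260) (nat_lit 0) (nat_lit 1022611260) (nat_lit 152) (nat_lit 1022611260) (nat_lit 12) (nat_lit 3) (nat_lit 12) (nat_lit 1) (nat_lit 14) (nat_lit 1) (nat_lit 369) (nat_lit 368) (nat_lit 163)) (XT.lf (nat_lit 76) (nat_lit 976128930) (nat_lit 0) (nat_lit 976128930) (nat_lit 76) (nat_lit 976128930) (nat_lit 12) (nat_lit 3) (nat_lit 11) (nat_lit 1) (nat_lit 12) (nat_lit 1) (nat_lit 370) (nat_lit 368) (nat_lit 162)))) (XT.nd (nat_lit 78) (nat_lit 152) (nat_lit 0) (XT.lf (nat_lit 0) (nat_lit 2801065627) (nat_lit 0) (nat_lit 0) (nat_lit 0) (nat_lit 0) (nat_lit 11) (nat_lit 1) (nat_lit 1) (nat_lit 0) (nat_lit 1) (nat_lit 0) (nat_lit 371) (nat_lit 368) (nat_lit 161)) (XT.nd (nat_lit 30498) (nat_lit 0) (nat_lit 15656) (XT.lf (nat_lit 0) (nat_lit 889227183) (nat_lit 0) (nat_lit 889227183) (nat_lit 152) (nat_lit 889227183) (nat_lit 9) (nat_lit 3) (nat_lit 9) (nat_lit 1) (nat_lit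 11) (nat_lit 1) (nat_lit 372) (nat_lit 368) (nat_lit 160)) (XT.lf (nat_lit 380) (nat_lit 10821199966132) (nat_lit 0) (nat_lit 9584603135652) (nat_lit 380) (nat_lit 10821199966132) (nat_lit 220) (nat_lit 1) (nat_lit 215) (nat_lit 0) (nat_lit 220) (nat_lit 0) (nat_lit 162) (nat_lit 369) (nat_lit 369)))))) (XT.nd (nat_lit 390) (nat_lit 532) (nat_lit 0) (XT.nd (nat_lit 156) (nat_lit 152) (nat_lit 0) (XT.nd (nat_lit 78) (nat_lit 0) (nat_lit 76) (XT.lf (nat_lit 380) (nat_lit 40026214355343) (nat_lit 76) (nat_lit 9148939356759) (nat_lit 0) (nat_lit 9148939356759) (nat_lit 220) (nat_lit 1) (nat_lit 216) (nat_lit 1) (nat_lit 215) (nat_lit 0) (nat_lit 163) (nat_lit 369) (nat_lit 368)) (XT.lf (nat_lit 380) (nat_lit 17643325765629) (nat_lit 0) (nat_lit 19197602756658) (nat_lit 304) (nat_lit 17643325765629) (nat_lit 221) (nat_lit 1) (nat_lit 216) (nat_lit 1) (nat_lit 220) (nat_lit 1) (nat_lit 164) (nat_lit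 369) (nat_lit 367))) (XT.nd (nat_lit 78) (nat_lit 228) (nat_lit 0) (XT.lf (nat_lit 380) (nat_lit 30292674246675) (nat_lit 76) (nat_lit 10369385008877) (nat_lit 0) (nat_lit 10369385008877) (nat_lit 221) (nat_lit 1) (nat_lit 217) (nat_lit 1) (nat_lit 216) (nat_lit 1) (nat_lit 165) (nat_lit 369) (nat_lit 366)) (XT.nd (nat_lit 78) (nat_lit 304) (nat_lit 0) (XT.lf (nat_lit 76) (nat_lit 12253788503048) (nat_lit 0) (nat_lit 23333270503456) (nat_lit 304) (nat_lit 12253788503048) (nat_lit 218) (nat_lit 1) (nat_lit 217) (nat_lit 1) (nat_lit 221) (nat_lit 1) (nat_lit 166) (nat_lit 369) (nat_lit 365)) (XT.lf (nat_lit 380) (nat_lit 18416454461762) (nat_lit 0) (nat_lit 13255810769295) (nat_lit 304) (nat_lit 13255810769295) (nat_lit 218) (nat_lit 1) (nat_lit 213) (nat_lit 1) (nat_lit 217) (nat_lit 1) (nat_lit 167) (nat_lit 369) (nat_lit 364))))) (XT.nd (nat_lit 234) (nat_lit 152) (nat_lit 0) (XT.nd (nat_lit 78)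 (nat_lit 380) (nat_lit 0) (XT.lf (nat_lit 76) (nat_lit 6121426070175) (nat_lit 0) (nat_lit 30037991153479) (nat_lit 380) (nat_lit 6121426070175) (nat_lit 214) (nat_lit 1) (nat_lit 213) (nat_lit 1) (nat_lit 218) (nat_lit 1) (nat_lit 168) (nat_lit 369) (nat_lit 363)) (XT.nd (nat_lit 78) (nat_lit 228) (nat_lit 0) (XT.lf (nat_lit 228) (nat_lit 5509139061397) (nat_lit 0) (nat_lit 17145835945930) (nat_lit 152) (nat_lit 17145835945930) (nat_lit 214) (nat_lit 1) (nat_lit 211) (nat_lit 1) (nat_lit 213) (nat_lit 1) (nat_lit 169) (nat_lit 369) (nat_lit 362)) (XT.lf (nat_lit 228) (nat_lit 37021345172913) (nat_lit 0) (nat_lit 290469886282) (nat_lit 152) (nat_lit 290469886282) (nat_lit 211) (nat_lit 1) (nat_lit 208) (nat_lit 1) (nat_lit 210) (nat_lit 1) (nat_lit 170) (nat_lit 369) (nat_lit 361)))) (XT.nd (nat_lit 78) (nat_lit 152) (nat_lit 0) (XT.lf (nat_lit 76) (nat_lit 14223837447443) (nat_lit 0) (nat_lit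 6983147057002) (nat_lit 228) (nat_lit 14223837447443) (nat_lit 209) (nat_lit 1) (nat_lit 208) (nat_lit 1) (nat_lit 211) (nat_lit 1) (nat_lit 171) (nat_lit 369) (nat_lit 360)) (XT.nd (nat_lit 78) (nat_lit 0) (nat_lit 0) (XT.lf (nat_lit 228) (nat_lit 20674893660416) (nat_lit 0) (nat_lit 6413148771873) (nat_lit 152) (nat_lit 6413148771873) (nat_lit 209) (nat_lit 1) (nat_lit 206) (nat_lit 1) (nat_lit 208) (nat_lit 1) (nat_lit 172) (nat_lit 369) (nat_lit 359)) (XT.lf (nat_lit 76) (nat_lit 6465717355397) (nat_lit 0) (nat_lit 18763401224162) (nat_lit 228) (nat_lit 6465717355397) (nat_lit 207) (nat_lit 1) (nat_lit 206) (nat_lit 1) (nat_lit 209) (nat_lit 1) (nat_lit 173) (nat_lit 369) (nat_lit 358))))))) (XT.nd (nat_lit 858) (nat_lit 912) (nat_lit 0) (XT.nd (nat_lit 390) (nat_lit 456) (nat_lit 0) (XT.nd (nat_lit 156) (nat_lit 76) (nat_lit 0) (XT.nd (nat_lit 78) (nat_lit 228) (nat_lit 0) (XT.lf (nat_lit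 152) (nat_lit 5345110272080) (nat_lit 0) (nat_lit 12333868244359) (nat_lit 76) (nat_lit 12333868244359) (nat_lit 207) (nat_lit 1) (nat_lit 205) (nat_lit 1) (nat_lit 206) (nat_lit 1) (nat_lit 174) (nat_lit 369) (nat_lit 357)) (XT.lf (nat_lit 228) (nat_lit 27060090180146) (nat_lit 0) (nat_lit 718878991208) (nat_lit 152) (nat_lit 718878991208) (nat_lit 205) (nat_lit 1) (nat_lit 202) (nat_lit 1) (nat_lit 204) (nat_lit 1) (nat_lit 175) (nat_lit 369) (nat_lit 356))) (XT.nd (nat_lit 78) (nat_lit 76) (nat_lit 0) (XT.lf (nat_lit 76) (nat_lit 9470449569096) (nat_lit 0) (nat_lit 8042614764064) (nat_lit 228) (nat_lit 9470449569096) (nat_lit 203) (nat_lit 1) (nat_lit 202) (nat_lit 1) (nat_lit 205) (nat_lit 1) (nat_lit 176) (nat_lit 369) (nat_lit 355)) (XT.nd (nat_lit 78) (nat_lit 0) (nat_lit 0) (XT.lf (nat_lit 152) (nat_lit 11515159616390) (nat_lit 0) (nat_lit 7051929199429) (nat_lit 76) (nat_lit 7051929199429)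 (nat_lit 203) (nat_lit 1) (nat_lit 201) (nat_lit 1) (nat_lit 202) (nat_lit 1) (nat_lit 177) (nat_lit 369) (nat_lit 354)) (XT.lf (nat_lit 0) (nat_lit 2254826940354) (nat_lit 0) (nat_lit 19851323241388) (nat_lit 152) (nat_lit 2254826940354) (nat_lit 201) (nat_lit 3) (nat_lit 201) (nat_lit 1) (nat_lit 203) (nat_lit 1) (nat_lit 178) (nat_lit 369) (nat_lit 353))))) (XT.nd (nat_lit 234) (nat_lit 228) (nat_lit 0) (XT.nd (nat_lit 78) (nat_lit 76) (nat_lit 0) (XT.lf (nat_lit 76) (nat_lit 10435329570583) (nat_lit 0) (nat_lit 2263242586395) (nat_lit 152) (nat_lit 10435329570583) (nat_lit 200) (nat_lit 1) (nat_lit 199) (nat_lit 1) (nat_lit 201) (nat_lit 1) (nat_lit 179) (nat_lit 369) (nat_lit 352)) (XT.nd (nat_lit 78) (nat_lit 0) (nat_lit 0) (XT.lf (nat_lit 152) (nat_lit 13939547684433) (nat_lit 0) (nat_lit 4031963407466) (nat_lit 76) (nat_lit 4031963407466) (nat_lit 200) (nat_lit 1) (nat_lit 198) (nat_lit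 1) (nat_lit 199) (nat_lit 1) (nat_lit 180) (nat_lit 369) (nat_lit 351)) (XT.lf (nat_lit 0) (nat_lit 3624353129410) (nat_lit 0) (nat_lit 13685207000593) (nat_lit 152) (nat_lit 3624353129410) (nat_lit 198) (nat_lit 3) (nat_lit 198) (nat_lit 1) (nat_lit 200) (nat_lit 1) (nat_lit 181) (nat_lit 369) (nat_lit 350)))) (XT.nd (nat_lit 78) (nat_lit 152) (nat_lit 0) (XT.lf (nat_lit 76) (nat_lit 808528416365) (nat_lit 0) (nat_lit 9557097000002) (nat_lit 76) (nat_lit 9557097000002) (nat_lit 198) (nat_lit 3) (nat_lit 197) (nat_lit 1) (nat_lit 198) (nat_lit 1) (nat_lit 182) (nat_lit 369) (nat_lit 349)) (XT.nd (nat_lit 78) (nat_lit 0) (nat_lit 0) (XT.lf (nat_lit 152) (nat_lit 14366257978708) (nat_lit 0) (nat_lit 2305288164331) (nat_lit 76) (nat_lit 2305288164331) (nat_lit 197) (nat_lit 1) (nat_lit 195) (nat_lit 1) (nat_lit 196) (nat_lit 1) (nat_lit 183) (nat_lit 369) (nat_lit 348)) (XT.lf (nat_lit 0) (nat_lit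 4102799584926) (nat_lit 0) (nat_lit 9855125439212) (nat_lit 152) (nat_lit 4102799584926) (nat_lit 195) (nat_lit 3) (nat_lit 195) (nat_lit 1) (nat_lit 197) (nat_lit 1) (nat_lit 184) (nat_lit 369) (nat_lit 347)))))) (XT.nd (nat_lit 468) (nat_lit 456) (nat_lit 0) (XT.nd (nat_lit 234) (nat_lit 228) (nat_lit 0) (XT.nd (nat_lit 78) (nat_lit 152) (nat_lit 0) (XT.lf (nat_lit 76) (nat_lit 2400544306221) (nat_lit 0) (nat_lit 7402566788209) (nat_lit 76) (nat_lit 7402566788209) (nat_lit 195) (nat_lit 3) (nat_lit 194) (nat_lit 1) (nat_lit 195) (nat_lit 1) (nat_lit 185) (nat_lit 369) (nat_lit 346)) (XT.nd (nat_lit 78) (nat_lit 0) (nat_lit 0) (XT.lf (nat_lit 152) (nat_lit 13775934059426) (nat_lit 0) (nat_lit 1318055989983) (nat_lit 76) (nat_lit 1318055989983) (nat_lit 194) (nat_lit 1) (nat_lit 192) (nat_lit 1) (nat_lit 193) (nat_lit 1) (nat_lit 186) (nat_lit 369) (nat_lit 345)) (XT.lf (nat_lit 0) (nat_lit 4111496735231)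 (nat_lit 0) (nat_lit 7400407712127) (nat_lit 152) (nat_lit 4111496735231) (nat_lit 192) (nat_lit 3) (nat_lit 192) (nat_lit 1) (nat_lit 194) (nat_lit 1) (nat_lit 187) (nat_lit 369) (nat_lit 344)))) (XT.nd (nat_lit 78) (nat_lit 152) (nat_lit 0) (XT.lf (nat_lit 76) (nat_lit 3057967311324) (nat_lit 0) (nat_lit 5917889899930) (nat_lit 76) (nat_lit 5917889899930) (nat_lit 192) (nat_lit 3) (nat_lit 191) (nat_lit 1) (nat_lit 192) (nat_lit 1) (nat_lit 188) (nat_lit 369) (nat_lit 343)) (XT.nd (nat_lit 78) (nat_lit 0) (nat_lit 0) (XT.lf (nat_lit 152) (nat_lit 12712938864399) (nat_lit 0) (nat_lit 753602790146) (nat_lit 76) (nat_lit 753602790146) (nat_lit 191) (nat_lit 1) (nat_lit 189) (nat_lit 1) (nat_lit 190) (nat_lit 1) (nat_lit 189) (nat_lit 369) (nat_lit 342)) (XT.lf (nat_lit 0) (nat_lit 3886159651771) (nat_lit 0) (nat_lit 5766605177278) (nat_lit 152) (nat_lit 3886159651771) (nat_lit 189) (nat_lit 3) (nat_lit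 189) (nat_lit 1) (nat_lit 191) (nat_lit 1) (nat_lit 190) (nat_lit 369) (nat_lit 341))))) (XT.nd (nat_lit 234) (nat_lit 228) (nat_lit 0) (XT.nd (nat_lit 78) (nat_lit 152) (nat_lit 0) (XT.lf (nat_lit 76) (nat_lit 3214009963908) (nat_lit 0) (nat_lit 4849179986088) (nat_lit 76) (nat_lit 4849179986088) (nat_lit 189) (nat_lit 3) (nat_lit 188) (nat_lit 1) (nat_lit 189) (nat_lit 1) (nat_lit 191) (nat_lit 369) (nat_lit 340)) (XT.nd (nat_lit 78) (nat_lit 0) (nat_lit 0) (XT.lf (nat_lit 152) (nat_lit 11474319582699) (nat_lit 0) (nat_lit 430874841154) (nat_lit 76) (nat_lit 430874841154) (nat_lit 188) (nat_lit 1) (nat_lit 186) (nat_lit 1) (nat_lit 187) (nat_lit 1) (nat_lit 192) (nat_lit 369) (nat_lit 339)) (XT.lf (nat_lit 0) (nat_lit 3557053132190) (nat_lit 0) (nat_lit 4632203964560) (nat_lit 152) (nat_lit 3557053132190) (nat_lit 186) (nat_lit 3) (nat_lit 186) (nat_lit 1) (nat_lit 188) (nat_lit 1) (nat_lit 193)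 (nat_lit 369) (nat_lit 338)))) (XT.nd (nat_lit 78) (nat_lit 152) (nat_lit 0) (XT.lf (nat_lit 76) (nat_lit 3112061696704) (nat_lit 0) (nat_lit 4046975463981) (nat_lit 76) (nat_lit 4046975463981) (nat_lit 186) (nat_lit 3) (nat_lit 185) (nat_lit 1) (nat_lit 186) (nat_lit 1) (nat_lit 194) (nat_lit 369) (nat_lit 337)) (XT.nd (nat_lit 78) (nat_lit 0) (nat_lit 0) (XT.lf (nat_lit 152) (nat_lit 10217571224079) (nat_lit 0) (nat_lit 246354088874) (nat_lit 76) (nat_lit 246354088874) (nat_lit 185) (nat_lit 1) (nat_lit 183) (nat_lit 1) (nat_lit 184) (nat_lit 1) (nat_lit 195) (nat_lit 369) (nat_lit 336)) (XT.lf (nat_lit 0) (nat_lit 3194738184727) (nat_lit 0) (nat_lit 3809459162636) (nat_lit 152) (nat_lit 3194738184727) (nat_lit 183) (nat_lit 3) (nat_lit 183) (nat_lit 1) (nat_lit 185) (nat_lit 1) (nat_lit 196) (nat_lit 369) (nat_lit 335))))))))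
noncomputable def ec240 : XT := (XT.nd (nat_lit 1716) (nat_lit 1748) (nat_lit 0) (XT.nd (nat_lit 858) (nat_lit 760) (nat_lit 0) (XT.nd (nat_lit 390) (nat_lit 456) (nat_lit 0) (XT.nd (nat_lit 156) (nat_lit 228) (nat_lit 0) (XT.nd (nat_lit 78) (nat_lit 152) (nat_lit 0) (XT.lf (nat_lit 76) (nat_lit 2887541000333) (nat_lit 0) (nat_lit 3422080981124) (nat_lit 76) (nat_lit 3422080981124) (nat_lit 183) (nat_lit 3) (nat_lit 182) (nat_lit 1) (nat_lit 183) (nat_lit 1) (nat_lit 197) (nat_lit 369) (nat_lit 334)) (XT.lf (nat_lit 152) (nat_lit 9022009302226) (nat_lit 0) (nat_lit 140853749878) (nat_lit 76) (nat_lit 140853749879) (nat_lit 182) (nat_lit 1) (nat_lit 180) (nat_lit 1) (nat_lit 181) (nat_lit 1) (nat_lit 198) (nat_lit 369) (nat_lit 333))) (XT.nd (nat_lit 78) (nat_lit 228) (nat_lit 0) (XT.lf (nat_lit 0) (nat_lit 2836151066503) (nat_lit 0) (nat_lit 3187619780757) (nat_lit 152) (nat_lit 2836151066503)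 (nat_lit 180) (nat_lit 3) (nat_lit 180) (nat_lit 1) (nat_lit 182) (nat_lit 1) (nat_lit 199) (nat_lit 369) (nat_lit 332)) (XT.nd (nat_lit 78) (nat_lit 152) (nat_lit 0) (XT.lf (nat_lit 76) (nat_lit 2614621481990) (nat_lit 0) (nat_lit 2920246450907) (nat_lit 76) (nat_lit 2920246450907) (nat_lit 180) (nat_lit 3) (nat_lit 179) (nat_lit 1) (nat_lit 180) (nat_lit 1) (nat_lit 200) (nat_lit 369) (nat_lit 331)) (XT.lf (nat_lit 152) (nat_lit 7923649876650) (nat_lit 0) (nat_lit 80533588647) (nat_lit 76) (nat_lit 80533588647) (nat_lit 179) (nat_lit 1) (nat_lit 177) (nat_lit 1) (nat_lit 178) (nat_lit 1) (nat_lit 201) (nat_lit 369) (nat_lit 330))))) (XT.nd (nat_lit 234) (nat_lit 228) (nat_lit 0) (XT.nd (nat_lit 78) (nat_lit 228) (nat_lit 0) (XT.lf (nat_lit 0) (nat_lit 2499447395148) (nat_lit 0) (nat_lit 2700400773247) (nat_lit 152) (nat_lit 2499447395148) (nat_lit 177) (nat_lit 3) (nat_lit 177) (nat_lit 1) (nat_lit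 179) (nat_lit 1) (nat_lit 202) (nat_lit 369) (nat_lit 329)) (XT.nd (nat_lit 78) (nat_lit 152) (nat_lit 0) (XT.lf (nat_lit 76) (nat_lit 2332884008123) (nat_lit 0) (nat_lit 2507626076035) (nat_lit 76) (nat_lit 2507626076035) (nat_lit 177) (nat_lit 3) (nat_lit 176) (nat_lit 1) (nat_lit 177) (nat_lit 1) (nat_lit 203) (nat_lit 369) (nat_lit 328)) (XT.lf (nat_lit 152) (nat_lit 6934969730728) (nat_lit 0) (nat_lit 46045340688) (nat_lit 76) (nat_lit 46045340688) (nat_lit 176) (nat_lit 1) (nat_lit 174) (nat_lit 1) (nat_lit 175) (nat_lit 1) (nat_lit 204) (nat_lit 369) (nat_lit 327)))) (XT.nd (nat_lit 78) (nat_lit 228) (nat_lit 0) (XT.lf (nat_lit 0) (nat_lit 2192431349828) (nat_lit 0) (nat_lit 2307327095969) (nat_lit 152) (nat_lit 2192431349828) (nat_lit 174) (nat_lit 3) (nat_lit 174) (nat_lit 1) (nat_lit 176) (nat_lit 1) (nat_lit 205) (nat_lit 369) (nat_lit 326)) (XT.nd (nat_lit 78) (nat_lit 152) (nat_lit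 0) (XT.lf (nat_lit 76) (nat_lit 2062499820451) (nat_lit 0) (nat_lit 2162409164922) (nat_lit 76) (nat_lit 2162409164922) (nat_lit 174) (nat_lit 3) (nat_lit 173) (nat_lit 1) (nat_lit 174) (nat_lit 1) (nat_lit 206) (nat_lit 369) (nat_lit 325)) (XT.lf (nat_lit 152) (nat_lit 6056045535816) (nat_lit 0) (nat_lit 26326572982) (nat_lit 76) (nat_lit 26326572982) (nat_lit 173) (nat_lit 1) (nat_lit 171) (nat_lit 1) (nat_lit 172) (nat_lit 1) (nat_lit 207) (nat_lit 369) (nat_lit 324)))))) (XT.nd (nat_lit 390) (nat_lit 456) (nat_lit 0) (XT.nd (nat_lit 156) (nat_lit 228) (nat_lit 0) (XT.nd (nat_lit 78) (nat_lit 76) (nat_lit 0) (XT.lf (nat_lit 0) (nat_lit 1917324687364) (nat_lit 0) (nat_lit 1983016703125) (nat_lit 152) (nat_lit 1917324687364) (nat_lit 171) (nat_lit 3) (nat_lit 171) (nat_lit 1) (nat_lit 173) (nat_lit 1) (nat_lit 208) (nat_lit 369) (nat_lit 323)) (XT.lf (nat_lit 76) (nat_lit 1812863416130) (nat_lit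 0) (nat_lit 1869986908096) (nat_lit 76) (nat_lit 1869986908096) (nat_lit 171) (nat_lit 3) (nat_lit 170) (nat_lit 1) (nat_lit 171) (nat_lit 1) (nat_lit 209) (nat_lit 369) (nat_lit 322))) (XT.nd (nat_lit 78) (nat_lit 76) (nat_lit 0) (XT.lf (nat_lit 152) (nat_lit 5280784633329) (nat_lit 0) (nat_lit 15052303548) (nat_lit 76) (nat_lit 15052303548) (nat_lit 170) (nat_lit 1) (nat_lit 168) (nat_lit 1) (nat_lit 169) (nat_lit 1) (nat_lit 210) (nat_lit 369) (nat_lit 321)) (XT.nd (nat_lit 78) (nat_lit 76) (nat_lit 0) (XT.lf (nat_lit 0) (nat_lit 1673449610560) (nat_lit 0) (nat_lit 1711009233781) (nat_lit 152) (nat_lit 1673449610560) (nat_lit 168) (nat_lit 3) (nat_lit 168) (nat_lit 1) (nat_lit 170) (nat_lit 1) (nat_lit 211) (nat_lit 369) (nat_lit 320)) (XT.lf (nat_lit 76) (nat_lit 1587486585252) (nat_lit 0) (nat_lit 1620147127183) (nat_lit 76) (nat_lit 1620147127183) (nat_lit 168) (nat_lit 3) (nat_lit 167) (nat_lit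 1) (nat_lit 168) (nat_lit 1) (nat_lit 212) (nat_lit 369) (nat_lit 319))))) (XT.nd (nat_lit 234) (nat_lit 228) (nat_lit 0) (XT.nd (nat_lit 78) (nat_lit 76) (nat_lit 0) (XT.lf (nat_lit 152) (nat_lit 4600367442747) (nat_lit 0) (nat_lit 8606203407) (nat_lit 76) (nat_lit 8606203407) (nat_lit 167) (nat_lit 1) (nat_lit 165) (nat_lit 1) (nat_lit 166) (nat_lit 1) (nat_lit 213) (nat_lit 369) (nat_lit 318)) (XT.nd (nat_lit 78) (nat_lit 76) (nat_lit 0) (XT.lf (nat_lit 0) (nat_lit 1458724592003) (nat_lit 0) (nat_lit 1480199428483) (nat_lit 152) (nat_lit 1458724592003) (nat_lit 165) (nat_lit 3) (nat_lit 165) (nat_lit 1) (nat_lit 167) (nat_lit 1) (nat_lit 214) (nat_lit 369) (nat_lit 317)) (XT.lf (nat_lit 76) (nat_lit 1386760210290) (nat_lit 0) (nat_lit 1405433981142) (nat_lit 76) (nat_lit 1405433981142) (nat_lit 165) (nat_lit 3) (nat_lit 164) (nat_lit 1) (nat_lit 165) (nat_lit 1) (nat_lit 215) (nat_lit 369) (nat_lit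 316)))) (XT.nd (nat_lit 78) (nat_lit 76) (nat_lit 0) (XT.lf (nat_lit 152) (nat_lit 4005111267931) (nat_lit 0) (nat_lit 4920624730) (nat_lit 76) (nat_lit 4920624730) (nat_lit 164) (nat_lit 1) (nat_lit 162) (nat_lit 1) (nat_lit 163) (nat_lit 1) (nat_lit 216) (nat_lit 369) (nat_lit 315)) (XT.nd (nat_lit 78) (nat_lit 76) (nat_lit 0) (XT.lf (nat_lit 0) (nat_lit 1270486472799) (nat_lit 0) (nat_lit 1282764780255) (nat_lit 152) (nat_lit 1270486472799) (nat_lit 162) (nat_lit 3) (nat_lit 162) (nat_lit 1) (nat_lit 164) (nat_lit 1) (nat_lit 217) (nat_lit 369) (nat_lit 314)) (XT.lf (nat_lit 76) (nat_lit 1209501697038) (nat_lit 0) (nat_lit 1220178486130) (nat_lit 76) (nat_lit 1220178486130) (nat_lit 162) (nat_lit 3) (nat_lit 161) (nat_lit 1) (nat_lit 162) (nat_lit 1) (nat_lit 218) (nat_lit 369) (nat_lit 313))))))) (XT.nd (nat_lit 858) (nat_lit 912) (nat_lit 0) (XT.nd (nat_lit 390) (nat_lit 456) (nat_lit 0) (XT.nd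 (nat_lit 156) (nat_lit 228) (nat_lit 0) (XT.nd (nat_lit 78) (nat_lit 0) (nat_lit 0) (XT.lf (nat_lit 152) (nat_lit 3485445150418) (nat_lit 0) (nat_lit 2813383159) (nat_lit 76) (nat_lit 2813383159) (nat_lit 161) (nat_lit 1) (nat_lit 159) (nat_lit 1) (nat_lit 160) (nat_lit 1) (nat_lit 219) (nat_lit 369) (nat_lit 312)) (XT.lf (nat_lit 0) (nat_lit 1105931679866) (nat_lit 0) (nat_lit 1112951842004) (nat_lit 152) (nat_lit 1105931679866) (nat_lit 159) (nat_lit 3) (nat_lit 159) (nat_lit 1) (nat_lit 161) (nat_lit 1) (nat_lit 220) (nat_lit 369) (nat_lit 311))) (XT.nd (nat_lit 78) (nat_lit 152) (nat_lit 0) (XT.lf (nat_lit 76) (nat_lit 1053812212958) (nat_lit 0) (nat_lit 1059916701774) (nat_lit 76) (nat_lit 1059916701774) (nat_lit 159) (nat_lit 3) (nat_lit 158) (nat_lit 1) (nat_lit 159) (nat_lit 1) (nat_lit 221) (nat_lit 369) (nat_lit 310)) (XT.nd (nat_lit 78) (nat_lit 0) (nat_lit 0) (XT.lf (nat_lit 152) (nat_lit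 3032388302320) (nat_lit 0) (nat_lit 1608560952) (nat_lit 76) (nat_lit 1608560952) (nat_lit 158) (nat_lit 1) (nat_lit 156) (nat_lit 1) (nat_lit 157) (nat_lit 1) (nat_lit 222) (nat_lit 369) (nat_lit 309)) (XT.lf (nat_lit 0) (nat_lit 962343432203) (nat_lit 0) (nat_lit 966357232690) (nat_lit 152) (nat_lit 962343432203) (nat_lit 156) (nat_lit 3) (nat_lit 156) (nat_lit 1) (nat_lit 158) (nat_lit 1) (nat_lit 223) (nat_lit 369) (nat_lit 308))))) (XT.nd (nat_lit 234) (nat_lit 228) (nat_lit 0) (XT.nd (nat_lit 78) (nat_lit 152) (nat_lit 0) (XT.lf (nat_lit 76) (nat_lit 917542893984) (nat_lit 0) (nat_lit 921033155277) (nat_lit 76) (nat_lit 921033155277) (nat_lit 156) (nat_lit 3) (nat_lit 155) (nat_lit 1) (nat_lit 156) (nat_lit 1) (nat_lit 224) (nat_lit 369) (nat_lit 307)) (XT.nd (nat_lit 78) (nat_lit 0) (nat_lit 0) (XT.lf (nat_lit 152) (nat_lit 2637755006126) (nat_lit 0) (nat_lit 919699945) (nat_lit 76) (nat_lit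 919699945) (nat_lit 155) (nat_lit 1) (nat_lit 153) (nat_lit 1) (nat_lit 154) (nat_lit 1) (nat_lit 225) (nat_lit 369) (nat_lit 306)) (XT.lf (nat_lit 0) (nat_lit 837199854507) (nat_lit 0) (nat_lit 839494757963) (nat_lit 152) (nat_lit 837199854507) (nat_lit 153) (nat_lit 3) (nat_lit 153) (nat_lit 1) (nat_lit 155) (nat_lit 1) (nat_lit 226) (nat_lit 369) (nat_lit 305)))) (XT.nd (nat_lit 78) (nat_lit 152) (nat_lit 0) (XT.lf (nat_lit 76) (nat_lit 798540598023) (nat_lit 0) (nat_lit 800536166245) (nat_lit 76) (nat_lit 800536166245) (nat_lit 153) (nat_lit 3) (nat_lit 152) (nat_lit 1) (nat_lit 153) (nat_lit 1) (nat_lit 227) (nat_lit 369) (nat_lit 304)) (XT.nd (nat_lit 78) (nat_lit 0) (nat_lit 0) (XT.lf (nat_lit 152) (nat_lit 2294212074854) (nat_lit 0) (nat_lit 525841428) (nat_lit 76) (nat_lit 525841428) (nat_lit 152) (nat_lit 1) (nat_lit 150) (nat_lit 1) (nat_lit 151) (nat_lit 1) (nat_lit 228) (nat_lit 369)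 (nat_lit 303)) (XT.lf (nat_lit 0) (nat_lit 728216841651) (nat_lit 0) (nat_lit 729528960150) (nat_lit 152) (nat_lit 728216841651) (nat_lit 150) (nat_lit 3) (nat_lit 150) (nat_lit 1) (nat_lit 152) (nat_lit 1) (nat_lit 229) (nat_lit 369) (nat_lit 302)))))) (XT.nd (nat_lit 390) (nat_lit 456) (nat_lit 0) (XT.nd (nat_lit 156) (nat_lit 228) (nat_lit 0) (XT.nd (nat_lit 78) (nat_lit 152) (nat_lit 0) (XT.lf (nat_lit 76) (nat_lit 694770326846) (nat_lit 0) (nat_lit 695911299454) (nat_lit 76) (nat_lit 695911299454) (nat_lit 150) (nat_lit 3) (nat_lit 149) (nat_lit 1) (nat_lit 150) (nat_lit 1) (nat_lit 230) (nat_lit 369) (nat_lit 301)) (XT.lf (nat_lit 152) (nat_lit 1995259799027) (nat_lit 0) (nat_lit 300651543) (nat_lit 76) (nat_lit 300651543) (nat_lit 149) (nat_lit 1) (nat_lit 147) (nat_lit 1) (nat_lit 148) (nat_lit 1) (nat_lit 231) (nat_lit 369) (nat_lit 300))) (XT.nd (nat_lit 78) (nat_lit 228) (nat_lit 0)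 (XT.lf (nat_lit 0) (nat_lit 633356088471) (nat_lit 0) (nat_lit 634106296481) (nat_lit 152) (nat_lit 633356088471) (nat_lit 147) (nat_lit 3) (nat_lit 147) (nat_lit 1) (nat_lit 149) (nat_lit 1) (nat_lit 232) (nat_lit 369) (nat_lit 299)) (XT.nd (nat_lit 78) (nat_lit 152) (nat_lit 0) (XT.lf (nat_lit 76) (nat_lit 604369492088) (nat_lit 0) (nat_lit 605021846880) (nat_lit 76) (nat_lit 605021846880) (nat_lit 147) (nat_lit 3) (nat_lit 146) (nat_lit 1) (nat_lit 147) (nat_lit 1) (nat_lit 233) (nat_lit 369) (nat_lit 298)) (XT.lf (nat_lit 152) (nat_lit 1735175917330) (nat_lit 0) (nat_lit 171898495) (nat_lit 76) (nat_lit 171898495) (nat_lit 146) (nat_lit 1) (nat_lit 144) (nat_lit 1) (nat_lit 145) (nat_lit 1) (nat_lit 234) (nat_lit 369) (nat_lit 297))))) (XT.nd (nat_lit 234) (nat_lit 228) (nat_lit 0) (XT.nd (nat_lit 78) (nat_lit 228) (nat_lit 0) (XT.lf (nat_lit 0) (nat_lit 550815352036) (nat_lit 0) (nat_lit 551244285901)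 (nat_lit 152) (nat_lit 550815352036) (nat_lit 144) (nat_lit 3) (nat_lit 144) (nat_lit 1) (nat_lit 146) (nat_lit 1) (nat_lit 235) (nat_lit 369) (nat_lit 296)) (XT.nd (nat_lit 78) (nat_lit 152) (nat_lit 0) (XT.lf (nat_lit 76) (nat_lit 525665264528) (nat_lit 0) (nat_lit 526038250498) (nat_lit 76) (nat_lit 526038250498) (nat_lit 144) (nat_lit 3) (nat_lit 143) (nat_lit 1) (nat_lit 144) (nat_lit 1) (nat_lit 236) (nat_lit 369) (nat_lit 295)) (XT.lf (nat_lit 152) (nat_lit 1508944333221) (nat_lit 0) (nat_lit 98283522) (nat_lit 76) (nat_lit 98283522) (nat_lit 143) (nat_lit 1) (nat_lit 141) (nat_lit 1) (nat_lit 142) (nat_lit 1) (nat_lit 237) (nat_lit 369) (nat_lit 294)))) (XT.nd (nat_lit 78) (nat_lit 228) (nat_lit 0) (XT.lf (nat_lit 0) (nat_lit 479010424237) (nat_lit 0) (nat_lit 479255668566) (nat_lit 152) (nat_lit 479010424237) (nat_lit 141) (nat_lit 3) (nat_lit 141) (nat_lit 1) (nat_lit 143) (nat_lit 1)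 (nat_lit 238) (nat_lit 369) (nat_lit 293)) (XT.nd (nat_lit 78) (nat_lit 152) (nat_lit 0) (XT.lf (nat_lit 76) (nat_lit 457172600124) (nat_lit 0) (nat_lit 457385856062) (nat_lit 76) (nat_lit 457385856062) (nat_lit 141) (nat_lit 3) (nat_lit 140) (nat_lit 1) (nat_lit 141) (nat_lit 1) (nat_lit 239) (nat_lit 369) (nat_lit 292)) (XT.lf (nat_lit 152) (nat_lit 1312180229341) (nat_lit 0) (nat_lit 56193923) (nat_lit 76) (nat_lit 56193923) (nat_lit 140) (nat_lit 1) (nat_lit 138) (nat_lit 1) (nat_lit 139) (nat_lit 1) (nat_lit 240) (nat_lit 369) (nat_lit 291))))))))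
noncomputable def ec241 : XT := (XT.nd (nat_lit 1716) (nat_lit 1824) (nat_lit 0) (XT.nd (nat_lit 858) (nat_lit 836) (nat_lit 0) (XT.nd (nat_lit 390) (nat_lit 456) (nat_lit 0) (XT.nd (nat_lit 156) (nat_lit 228) (nat_lit 0) (XT.nd (nat_lit 78) (nat_lit 76) (nat_lit 0) (XT.lf (nat_lit 0) (nat_lit 416553989937) (nat_lit 0) (nat_lit 416694209179) (nat_lit 152) (nat_lit 416553989937) (nat_lit 138) (nat_lit 3) (nat_lit 138) (nat_lit 1) (nat_lit 140) (nat_lit 1) (nat_lit 241) (nat_lit 369) (nat_lit 290)) (XT.lf (nat_lit 76) (nat_lit 397582769251) (nat_lit 0) (nat_lit 397704699026) (nat_lit 76) (nat_lit 397704699026) (nat_lit 138) (nat_lit 3) (nat_lit 137) (nat_lit 1) (nat_lit 138) (nat_lit 1) (nat_lit 242) (nat_lit 369) (nat_lit 289))) (XT.nd (nat_lit 78) (nat_lit 76) (nat_lit 0) (XT.lf (nat_lit 152) (nat_lit 1141057573974) (nat_lit 0) (nat_lit 32129057) (nat_lit 76) (nat_lit 32129057) (nat_lit 137) (nat_lit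 1) (nat_lit 135) (nat_lit 1) (nat_lit 136) (nat_lit 1) (nat_lit 243) (nat_lit 369) (nat_lit 288)) (XT.nd (nat_lit 78) (nat_lit 76) (nat_lit 0) (XT.lf (nat_lit 0) (nat_lit 362234117630) (nat_lit 0) (nat_lit 362314288437) (nat_lit 152) (nat_lit 362234117630) (nat_lit 135) (nat_lit 3) (nat_lit 135) (nat_lit 1) (nat_lit 137) (nat_lit 1) (nat_lit 244) (nat_lit 369) (nat_lit 287)) (XT.lf (nat_lit 76) (nat_lit 345747805088) (nat_lit 0) (nat_lit 345817518833) (nat_lit 76) (nat_lit 345817518833) (nat_lit 135) (nat_lit 3) (nat_lit 134) (nat_lit 1) (nat_lit 135) (nat_lit 1) (nat_lit 245) (nat_lit 369) (nat_lit 286))))) (XT.nd (nat_lit 234) (nat_lit 228) (nat_lit 0) (XT.nd (nat_lit 78) (nat_lit 76) (nat_lit 0) (XT.lf (nat_lit 152) (nat_lit 992241866150) (nat_lit 0) (nat_lit 18369893) (nat_lit 76) (nat_lit 18369893) (nat_lit 134) (nat_lit 1) (nat_lit 132) (nat_lit 1) (nat_lit 133) (nat_lit 1) (nat_lit 246)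 (nat_lit 369) (nat_lit 285)) (XT.nd (nat_lit 78) (nat_lit 76) (nat_lit 0) (XT.lf (nat_lit 0) (nat_lit 314993768871) (nat_lit 0) (nat_lit 315039606790) (nat_lit 152) (nat_lit 314993768871) (nat_lit 132) (nat_lit 3) (nat_lit 132) (nat_lit 1) (nat_lit 134) (nat_lit 1) (nat_lit 247) (nat_lit 369) (nat_lit 284)) (XT.lf (nat_lit 76) (nat_lit 300663791783) (nat_lit 0) (nat_lit 300703650843) (nat_lit 76) (nat_lit 300703650843) (nat_lit 132) (nat_lit 3) (nat_lit 131) (nat_lit 1) (nat_lit 132) (nat_lit 1) (nat_lit 248) (nat_lit 369) (nat_lit 283)))) (XT.nd (nat_lit 78) (nat_lit 76) (nat_lit 0) (XT.lf (nat_lit 152) (nat_lit 862829242013) (nat_lit 0) (nat_lit 10503046) (nat_lit 76) (nat_lit 10503046) (nat_lit 131) (nat_lit 1) (nat_lit 129) (nat_lit 1) (nat_lit 130) (nat_lit 1) (nat_lit 249) (nat_lit 369) (nat_lit 282)) (XT.nd (nat_lit 78) (nat_lit 76) (nat_lit 0) (XT.lf (nat_lit 0) (nat_lit 273911958782) (nat_lit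 0) (nat_lit 273938166761) (nat_lit 152) (nat_lit 273911958782) (nat_lit 129) (nat_lit 3) (nat_lit 129) (nat_lit 1) (nat_lit 131) (nat_lit 1) (nat_lit 250) (nat_lit 369) (nat_lit 281)) (XT.lf (nat_lit 76) (nat_lit 261454509277) (nat_lit 0) (nat_lit 261477298824) (nat_lit 76) (nat_lit 261477298824) (nat_lit 129) (nat_lit 3) (nat_lit 128) (nat_lit 1) (nat_lit 129) (nat_lit 1) (nat_lit 251) (nat_lit 369) (nat_lit 280)))))) (XT.nd (nat_lit 390) (nat_lit 456) (nat_lit 0) (XT.nd (nat_lit 156) (nat_lit 228) (nat_lit 0) (XT.nd (nat_lit 78) (nat_lit 0) (nat_lit 0) (XT.lf (nat_lit 152) (nat_lit 750292145277) (nat_lit 0) (nat_lit 6005150) (nat_lit 76) (nat_lit 6005150) (nat_lit 128) (nat_lit 1) (nat_lit 126) (nat_lit 1) (nat_lit 127) (nat_lit 1) (nat_lit 252) (nat_lit 369) (nat_lit 279)) (XT.lf (nat_lit 0) (nat_lit 238186789778) (nat_lit 0) (nat_lit 238201774275) (nat_lit 152) (nat_lit 238186789778) (nat_lit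 126) (nat_lit 3) (nat_lit 126) (nat_lit 1) (nat_lit 128) (nat_lit 1) (nat_lit 253) (nat_lit 369) (nat_lit 278))) (XT.nd (nat_lit 78) (nat_lit 152) (nat_lit 0) (XT.lf (nat_lit 76) (nat_lit 227356169031) (nat_lit 0) (nat_lit 227369199028) (nat_lit 76) (nat_lit 227369199028) (nat_lit 126) (nat_lit 3) (nat_lit 125) (nat_lit 1) (nat_lit 126) (nat_lit 1) (nat_lit 254) (nat_lit 369) (nat_lit 277)) (XT.nd (nat_lit 78) (nat_lit 0) (nat_lit 0) (XT.lf (nat_lit 152) (nat_lit 652431295956) (nat_lit 0) (nat_lit 3433464) (nat_lit 76) (nat_lit 3433464) (nat_lit 125) (nat_lit 1) (nat_lit 123) (nat_lit 1) (nat_lit 124) (nat_lit 1) (nat_lit 255) (nat_lit 369) (nat_lit 276)) (XT.lf (nat_lit 0) (nat_lit 207120364319) (nat_lit 0) (nat_lit 207128931754) (nat_lit 152) (nat_lit 207120364319) (nat_lit 123) (nat_lit 3) (nat_lit 123) (nat_lit 1) (nat_lit 125) (nat_lit 1) (nat_lit 256) (nat_lit 369) (nat_lit 275))))) (XT.nd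 (nat_lit 234) (nat_lit 228) (nat_lit 0) (XT.nd (nat_lit 78) (nat_lit 152) (nat_lit 0) (XT.lf (nat_lit 76) (nat_lit 197703544746) (nat_lit 0) (nat_lit 197710994689) (nat_lit 76) (nat_lit 197710994689) (nat_lit 123) (nat_lit 3) (nat_lit 122) (nat_lit 1) (nat_lit 123) (nat_lit 1) (nat_lit 257) (nat_lit 369) (nat_lit 274)) (XT.nd (nat_lit 78) (nat_lit 0) (nat_lit 0) (XT.lf (nat_lit 152) (nat_lit 567333473381) (nat_lit 0) (nat_lit 1963094) (nat_lit 76) (nat_lit 1963094) (nat_lit 122) (nat_lit 1) (nat_lit 120) (nat_lit 1) (nat_lit 121) (nat_lit 1) (nat_lit 258) (nat_lit 369) (nat_lit 273)) (XT.lf (nat_lit 0) (nat_lit 180105474620) (nat_lit 0) (nat_lit 180110373079) (nat_lit 152) (nat_lit 180105474620) (nat_lit 120) (nat_lit 3) (nat_lit 120) (nat_lit 1) (nat_lit 122) (nat_lit 1) (nat_lit 259) (nat_lit 369) (nat_lit 272)))) (XT.nd (nat_lit 78) (nat_lit 152) (nat_lit 0) (XT.lf (nat_lit 76) (nat_lit 171917571371)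 (nat_lit 0) (nat_lit 171921830900) (nat_lit 76) (nat_lit 171921830900) (nat_lit 120) (nat_lit 3) (nat_lit 119) (nat_lit 1) (nat_lit 120) (nat_lit 1) (nat_lit 260) (nat_lit 369) (nat_lit 271)) (XT.nd (nat_lit 78) (nat_lit 0) (nat_lit 0) (XT.lf (nat_lit 152) (nat_lit 493334548124) (nat_lit 0) (nat_lit 1122405) (nat_lit 76) (nat_lit 1122405) (nat_lit 119) (nat_lit 1) (nat_lit 117) (nat_lit 1) (nat_lit 118) (nat_lit 1) (nat_lit 261) (nat_lit 369) (nat_lit 270)) (XT.lf (nat_lit 0) (nat_lit 156613919309) (nat_lit 0) (nat_lit 156616720019) (nat_lit 152) (nat_lit 156613919309) (nat_lit 117) (nat_lit 3) (nat_lit 117) (nat_lit 1) (nat_lit 119) (nat_lit 1) (nat_lit 262) (nat_lit 369) (nat_lit 269))))))) (XT.nd (nat_lit 858) (nat_lit 912) (nat_lit 0) (XT.nd (nat_lit 390) (nat_lit 456) (nat_lit 0) (XT.nd (nat_lit 156) (nat_lit 228) (nat_lit 0) (XT.nd (nat_lit 78) (nat_lit 152) (nat_lit 0) (XT.lf (nat_lit 76)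 (nat_lit 149494366795) (nat_lit 0) (nat_lit 149496802195) (nat_lit 76) (nat_lit 149496802195) (nat_lit 117) (nat_lit 3) (nat_lit 116) (nat_lit 1) (nat_lit 117) (nat_lit 1) (nat_lit 263) (nat_lit 369) (nat_lit 268)) (XT.lf (nat_lit 152) (nat_lit 428987188517) (nat_lit 0) (nat_lit 641739) (nat_lit 76) (nat_lit 641739) (nat_lit 116) (nat_lit 1) (nat_lit 114) (nat_lit 1) (nat_lit 115) (nat_lit 1) (nat_lit 264) (nat_lit 369) (nat_lit 267))) (XT.nd (nat_lit 78) (nat_lit 228) (nat_lit 0) (XT.lf (nat_lit 0) (nat_lit 136186281579) (nat_lit 0) (nat_lit 136187882894) (nat_lit 152) (nat_lit 136186281579) (nat_lit 114) (nat_lit 3) (nat_lit 114) (nat_lit 1) (nat_lit 116) (nat_lit 1) (nat_lit 265) (nat_lit 369) (nat_lit 266)) (XT.nd (nat_lit 78) (nat_lit 152) (nat_lit 0) (XT.lf (nat_lit 76) (nat_lit 129995574099) (nat_lit 0) (nat_lit 129996966547) (nat_lit 76) (nat_lit 129996966547) (nat_lit 114) (nat_lit 3)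 (nat_lit 113) (nat_lit 1) (nat_lit 114) (nat_lit 1) (nat_lit 266) (nat_lit 369) (nat_lit 265)) (XT.lf (nat_lit 152) (nat_lit 373032695148) (nat_lit 0) (nat_lit 366916) (nat_lit 76) (nat_lit 366916) (nat_lit 113) (nat_lit 1) (nat_lit 111) (nat_lit 1) (nat_lit 112) (nat_lit 1) (nat_lit 267) (nat_lit 369) (nat_lit 264))))) (XT.nd (nat_lit 234) (nat_lit 228) (nat_lit 0) (XT.nd (nat_lit 78) (nat_lit 228) (nat_lit 0) (XT.lf (nat_lit 0) (nat_lit 118423004941) (nat_lit 0) (nat_lit 118423920498) (nat_lit 152) (nat_lit 118423004941) (nat_lit 111) (nat_lit 3) (nat_lit 111) (nat_lit 1) (nat_lit 113) (nat_lit 1) (nat_lit 268) (nat_lit 369) (nat_lit 263)) (XT.nd (nat_lit 78) (nat_lit 152) (nat_lit 0) (XT.lf (nat_lit 76) (nat_lit 113039899826) (nat_lit 0) (nat_lit 113040695963) (nat_lit 76) (nat_lit 113040695963) (nat_lit 111) (nat_lit 3) (nat_lit 110) (nat_lit 1) (nat_lit 111) (nat_lit 1) (nat_lit 269) (nat_lit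 369) (nat_lit 262)) (XT.lf (nat_lit 152) (nat_lit 324376460942) (nat_lit 0) (nat_lit 209785) (nat_lit 76) (nat_lit 209785) (nat_lit 110) (nat_lit 1) (nat_lit 108) (nat_lit 1) (nat_lit 109) (nat_lit 1) (nat_lit 270) (nat_lit 369) (nat_lit 261)))) (XT.nd (nat_lit 78) (nat_lit 228) (nat_lit 0) (XT.lf (nat_lit 0) (nat_lit 102976612595) (nat_lit 0) (nat_lit 102977136068) (nat_lit 152) (nat_lit 102976612595) (nat_lit 108) (nat_lit 3) (nat_lit 108) (nat_lit 1) (nat_lit 110) (nat_lit 1) (nat_lit 271) (nat_lit 369) (nat_lit 260)) (XT.nd (nat_lit 78) (nat_lit 152) (nat_lit 0) (XT.lf (nat_lit 76) (nat_lit 98295719540) (nat_lit 0) (nat_lit 98296174734) (nat_lit 76) (nat_lit 98296174734) (nat_lit 108) (nat_lit 3) (nat_lit 107) (nat_lit 1) (nat_lit 108) (nat_lit 1) (nat_lit 272) (nat_lit 369) (nat_lit 259)) (XT.lf (nat_lit 152) (nat_lit 282066604579) (nat_lit 0) (nat_lit 119945) (nat_lit 76) (nat_lit 119945)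 (nat_lit 107) (nat_lit 1) (nat_lit 105) (nat_lit 1) (nat_lit 106) (nat_lit 1) (nat_lit 273) (nat_lit 369) (nat_lit 258)))))) (XT.nd (nat_lit 468) (nat_lit 456) (nat_lit 0) (XT.nd (nat_lit 234) (nat_lit 228) (nat_lit 0) (XT.nd (nat_lit 78) (nat_lit 228) (nat_lit 0) (XT.lf (nat_lit 0) (nat_lit 89544930009) (nat_lit 0) (nat_lit 89545229306) (nat_lit 152) (nat_lit 89544930009) (nat_lit 105) (nat_lit 3) (nat_lit 105) (nat_lit 1) (nat_lit 107) (nat_lit 1) (nat_lit 274) (nat_lit 369) (nat_lit 257)) (XT.nd (nat_lit 78) (nat_lit 152) (nat_lit 0) (XT.lf (nat_lit 76) (nat_lit 85474627051) (nat_lit 0) (nat_lit 85474887310) (nat_lit 76) (nat_lit 85474887310) (nat_lit 105) (nat_lit 3) (nat_lit 104) (nat_lit 1) (nat_lit 105) (nat_lit 1) (nat_lit 275) (nat_lit 369) (nat_lit 256)) (XT.lf (nat_lit 152) (nat_lit 245275375113) (nat_lit 0) (nat_lit 68579) (nat_lit 76) (nat_lit 68579) (nat_lit 104) (nat_lit 1) (nat_lit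 102) (nat_lit 1) (nat_lit 103) (nat_lit 1) (nat_lit 276) (nat_lit 369) (nat_lit 255)))) (XT.nd (nat_lit 78) (nat_lit 228) (nat_lit 0) (XT.lf (nat_lit 0) (nat_lit 77865184826) (nat_lit 0) (nat_lit 77865355950) (nat_lit 152) (nat_lit 77865184826) (nat_lit 102) (nat_lit 3) (nat_lit 102) (nat_lit 1) (nat_lit 104) (nat_lit 1) (nat_lit 277) (nat_lit 369) (nat_lit 254)) (XT.nd (nat_lit 78) (nat_lit 152) (nat_lit 0) (XT.lf (nat_lit 76) (nat_lit 74325813151) (nat_lit 0) (nat_lit 74325961954) (nat_lit 76) (nat_lit 74325961954) (nat_lit 102) (nat_lit 3) (nat_lit 101) (nat_lit 1) (nat_lit 102) (nat_lit 1) (nat_lit 278) (nat_lit 369) (nat_lit 253)) (XT.lf (nat_lit 152) (nat_lit 213282973064) (nat_lit 0) (nat_lit 39210) (nat_lit 76) (nat_lit 39210) (nat_lit 101) (nat_lit 1) (nat_lit 99) (nat_lit 1) (nat_lit 100) (nat_lit 1) (nat_lit 279) (nat_lit 369) (nat_lit 252))))) (XT.nd (nat_lit 234) (nat_lit 228) (nat_lit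 0) (XT.nd (nat_lit 78) (nat_lit 228) (nat_lit 0) (XT.lf (nat_lit 0) (nat_lit 67708872549) (nat_lit 0) (nat_lit 67708970390) (nat_lit 152) (nat_lit 67708872549) (nat_lit 99) (nat_lit 3) (nat_lit 99) (nat_lit 1) (nat_lit 101) (nat_lit 1) (nat_lit 280) (nat_lit 369) (nat_lit 251)) (XT.nd (nat_lit 78) (nat_lit 152) (nat_lit 0) (XT.lf (nat_lit 76) (nat_lit 64631170742) (nat_lit 0) (nat_lit 64631255821) (nat_lit 76) (nat_lit 64631255821) (nat_lit 99) (nat_lit 3) (nat_lit 98) (nat_lit 1) (nat_lit 99) (nat_lit 1) (nat_lit 281) (nat_lit 369) (nat_lit 250)) (XT.lf (nat_lit 152) (nat_lit 185463476670) (nat_lit 0) (nat_lit 22418) (nat_lit 76) (nat_lit 22418) (nat_lit 98) (nat_lit 1) (nat_lit 96) (nat_lit 1) (nat_lit 97) (nat_lit 1) (nat_lit 282) (nat_lit 369) (nat_lit 249)))) (XT.nd (nat_lit 78) (nat_lit 228) (nat_lit 0) (XT.lf (nat_lit 0) (nat_lit 58877289727) (nat_lit 0) (nat_lit 58877345668) (nat_lit 152)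 (nat_lit 58877289727) (nat_lit 96) (nat_lit 3) (nat_lit 96) (nat_lit 1) (nat_lit 98) (nat_lit 1) (nat_lit 283) (nat_lit 369) (nat_lit 248)) (XT.nd (nat_lit 78) (nat_lit 152) (nat_lit 0) (XT.lf (nat_lit 76) (nat_lit 56201034545) (nat_lit 0) (nat_lit 56201083189) (nat_lit 76) (nat_lit 56201083189) (nat_lit 96) (nat_lit 3) (nat_lit 95) (nat_lit 1) (nat_lit 96) (nat_lit 1) (nat_lit 284) (nat_lit 369) (nat_lit 247)) (XT.lf (nat_lit 152) (nat_lit 161272600891) (nat_lit 0) (nat_lit 12817) (nat_lit 76) (nat_lit 12817) (nat_lit 95) (nat_lit 1) (nat_lit 93) (nat_lit 1) (nat_lit 94) (nat_lit 1) (nat_lit 285) (nat_lit 369) (nat_lit 246))))))))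
noncomputable def ec242 : XT := (XT.nd (nat_lit 1716) (nat_lit 1672) (nat_lit 0) (XT.nd (nat_lit 858) (nat_lit 836) (nat_lit 0) (XT.nd (nat_lit 390) (nat_lit 456) (nat_lit 0) (XT.nd (nat_lit 156) (nat_lit 228) (nat_lit 0) (XT.nd (nat_lit 78) (nat_lit 76) (nat_lit 0) (XT.lf (nat_lit 0) (nat_lit 51197648530) (nat_lit 0) (nat_lit 51197680514) (nat_lit 152) (nat_lit 51197648530) (nat_lit 93) (nat_lit 3) (nat_lit 93) (nat_lit 1) (nat_lit 95) (nat_lit 1) (nat_lit 286) (nat_lit 369) (nat_lit 245)) (XT.lf (nat_lit 76) (nat_lit 48870474260) (nat_lit 0) (nat_lit 48870502072) (nat_lit 76) (nat_lit 48870502072) (nat_lit 93) (nat_lit 3) (nat_lit 92) (nat_lit 1) (nat_lit 93) (nat_lit 1) (nat_lit 287) (nat_lit 369) (nat_lit 244))) (XT.nd (nat_lit 78) (nat_lit 76) (nat_lit 0) (XT.lf (nat_lit 152) (nat_lit 140237051390) (nat_lit 0) (nat_lit 7328) (nat_lit 76) (nat_lit 7328) (nat_lit 92) (nat_lit 1) (nat_lit 90)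 (nat_lit 1) (nat_lit 91) (nat_lit 1) (nat_lit 288) (nat_lit 369) (nat_lit 243)) (XT.nd (nat_lit 78) (nat_lit 76) (nat_lit 0) (XT.lf (nat_lit 0) (nat_lit 44519697398) (nat_lit 0) (nat_lit 44519715685) (nat_lit 152) (nat_lit 44519697398) (nat_lit 90) (nat_lit 3) (nat_lit 90) (nat_lit 1) (nat_lit 92) (nat_lit 1) (nat_lit 289) (nat_lit 369) (nat_lit 242)) (XT.lf (nat_lit 76) (nat_lit 42496069970) (nat_lit 0) (nat_lit 42496085872) (nat_lit 76) (nat_lit 42496085872) (nat_lit 90) (nat_lit 3) (nat_lit 89) (nat_lit 1) (nat_lit 90) (nat_lit 1) (nat_lit 290) (nat_lit 369) (nat_lit 241))))) (XT.nd (nat_lit 234) (nat_lit 228) (nat_lit 0) (XT.nd (nat_lit 78) (nat_lit 76) (nat_lit 0) (XT.lf (nat_lit 152) (nat_lit 121945266158) (nat_lit 0) (nat_lit 4190) (nat_lit 76) (nat_lit 4190) (nat_lit 89) (nat_lit 1) (nat_lit 87) (nat_lit 1) (nat_lit 88) (nat_lit 1) (nat_lit 291) (nat_lit 369) (nat_lit 240)) (XT.nd (nat_lit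 78) (nat_lit 76) (nat_lit 0) (XT.lf (nat_lit 0) (nat_lit 38712782075) (nat_lit 0) (nat_lit 38712792530) (nat_lit 152) (nat_lit 38712782075) (nat_lit 87) (nat_lit 3) (nat_lit 87) (nat_lit 1) (nat_lit 89) (nat_lit 1) (nat_lit 292) (nat_lit 369) (nat_lit 239)) (XT.lf (nat_lit 76) (nat_lit 36953107407) (nat_lit 0) (nat_lit 36953116499) (nat_lit 76) (nat_lit 36953116499) (nat_lit 87) (nat_lit 3) (nat_lit 86) (nat_lit 1) (nat_lit 87) (nat_lit 1) (nat_lit 293) (nat_lit 369) (nat_lit 238)))) (XT.nd (nat_lit 78) (nat_lit 76) (nat_lit 0) (XT.lf (nat_lit 152) (nat_lit 106039364210) (nat_lit 0) (nat_lit 2395) (nat_lit 76) (nat_lit 2395) (nat_lit 86) (nat_lit 1) (nat_lit 84) (nat_lit 1) (nat_lit 85) (nat_lit 1) (nat_lit 294) (nat_lit 369) (nat_lit 237)) (XT.nd (nat_lit 78) (nat_lit 76) (nat_lit 0) (XT.lf (nat_lit 0) (nat_lit 33663289749) (nat_lit 0) (nat_lit 33663295727) (nat_lit 152) (nat_lit 33663289749)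 (nat_lit 84) (nat_lit 3) (nat_lit 84) (nat_lit 1) (nat_lit 86) (nat_lit 1) (nat_lit 295) (nat_lit 369) (nat_lit 236)) (XT.lf (nat_lit 76) (nat_lit 32133138640) (nat_lit 0) (nat_lit 32133143838) (nat_lit 76) (nat_lit 32133143838) (nat_lit 84) (nat_lit 3) (nat_lit 83) (nat_lit 1) (nat_lit 84) (nat_lit 1) (nat_lit 296) (nat_lit 369) (nat_lit 235)))))) (XT.nd (nat_lit 390) (nat_lit 456) (nat_lit 0) (XT.nd (nat_lit 156) (nat_lit 228) (nat_lit 0) (XT.nd (nat_lit 78) (nat_lit 0) (nat_lit 0) (XT.lf (nat_lit 152) (nat_lit 92208144125) (nat_lit 0) (nat_lit 1369) (nat_lit 76) (nat_lit 1369) (nat_lit 83) (nat_lit 1) (nat_lit 81) (nat_lit 1) (nat_lit 82) (nat_lit 1) (nat_lit 297) (nat_lit 369) (nat_lit 234)) (XT.lf (nat_lit 0) (nat_lit 29272426434) (nat_lit 0) (nat_lit 29272429852) (nat_lit 152) (nat_lit 29272426434) (nat_lit 81) (nat_lit 3) (nat_lit 81) (nat_lit 1) (nat_lit 83) (nat_lit 1) (nat_lit 298) (nat_lit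 369) (nat_lit 233))) (XT.nd (nat_lit 78) (nat_lit 152) (nat_lit 0) (XT.lf (nat_lit 76) (nat_lit 27941860695) (nat_lit 0) (nat_lit 27941863668) (nat_lit 76) (nat_lit 27941863668) (nat_lit 81) (nat_lit 3) (nat_lit 80) (nat_lit 1) (nat_lit 81) (nat_lit 1) (nat_lit 299) (nat_lit 369) (nat_lit 232)) (XT.nd (nat_lit 78) (nat_lit 0) (nat_lit 0) (XT.lf (nat_lit 152) (nat_lit 80180995654) (nat_lit 0) (nat_lit 783) (nat_lit 76) (nat_lit 783) (nat_lit 80) (nat_lit 1) (nat_lit 78) (nat_lit 1) (nat_lit 79) (nat_lit 1) (nat_lit 300) (nat_lit 369) (nat_lit 231)) (XT.lf (nat_lit 0) (nat_lit 25454284179) (nat_lit 0) (nat_lit 25454286133) (nat_lit 152) (nat_lit 25454284179) (nat_lit 78) (nat_lit 3) (nat_lit 78) (nat_lit 1) (nat_lit 80) (nat_lit 1) (nat_lit 301) (nat_lit 369) (nat_lit 230))))) (XT.nd (nat_lit 234) (nat_lit 228) (nat_lit 0) (XT.nd (nat_lit 78) (nat_lit 152) (nat_lit 0) (XT.lf (nat_lit 76) (nat_lit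 24297270746) (nat_lit 0) (nat_lit 24297272446) (nat_lit 76) (nat_lit 24297272446) (nat_lit 78) (nat_lit 3) (nat_lit 77) (nat_lit 1) (nat_lit 78) (nat_lit 1) (nat_lit 302) (nat_lit 369) (nat_lit 229)) (XT.nd (nat_lit 78) (nat_lit 0) (nat_lit 0) (XT.lf (nat_lit 152) (nat_lit 69722605352) (nat_lit 0) (nat_lit 447) (nat_lit 76) (nat_lit 447) (nat_lit 77) (nat_lit 1) (nat_lit 75) (nat_lit 1) (nat_lit 76) (nat_lit 1) (nat_lit 303) (nat_lit 369) (nat_lit 228)) (XT.lf (nat_lit 0) (nat_lit 22134160340) (nat_lit 0) (nat_lit 22134161457) (nat_lit 152) (nat_lit 22134160340) (nat_lit 75) (nat_lit 3) (nat_lit 75) (nat_lit 1) (nat_lit 77) (nat_lit 1) (nat_lit 304) (nat_lit 369) (nat_lit 227)))) (XT.nd (nat_lit 78) (nat_lit 152) (nat_lit 0) (XT.lf (nat_lit 76) (nat_lit 21128061848) (nat_lit 0) (nat_lit 21128062820) (nat_lit 76) (nat_lit 21128062820) (nat_lit 75) (nat_lit 3) (nat_lit 74) (nat_lit 1) (nat_lit 75)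 (nat_lit 1) (nat_lit 305) (nat_lit 369) (nat_lit 226)) (XT.nd (nat_lit 78) (nat_lit 0) (nat_lit 0) (XT.lf (nat_lit 152) (nat_lit 60628352730) (nat_lit 0) (nat_lit 256) (nat_lit 76) (nat_lit 256) (nat_lit 74) (nat_lit 1) (nat_lit 72) (nat_lit 1) (nat_lit 73) (nat_lit 1) (nat_lit 306) (nat_lit 369) (nat_lit 225)) (XT.lf (nat_lit 0) (nat_lit 19247096053) (nat_lit 0) (nat_lit 19247096692) (nat_lit 152) (nat_lit 19247096053) (nat_lit 72) (nat_lit 3) (nat_lit 72) (nat_lit 1) (nat_lit 74) (nat_lit 1) (nat_lit 307) (nat_lit 369) (nat_lit 224))))))) (XT.nd (nat_lit 858) (nat_lit 760) (nat_lit 0) (XT.nd (nat_lit 390) (nat_lit 456) (nat_lit 0) (XT.nd (nat_lit 156) (nat_lit 228) (nat_lit 0) (XT.nd (nat_lit 78) (nat_lit 152) (nat_lit 0) (XT.lf (nat_lit 76) (nat_lit 18372227883) (nat_lit 0) (nat_lit 18372228438) (nat_lit 76) (nat_lit 18372228438) (nat_lit 72) (nat_lit 3) (nat_lit 71) (nat_lit 1) (nat_lit 72)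 (nat_lit 1) (nat_lit 308) (nat_lit 369) (nat_lit 223)) (XT.lf (nat_lit 152) (nat_lit 52720306864) (nat_lit 0) (nat_lit 146) (nat_lit 76) (nat_lit 146) (nat_lit 71) (nat_lit 1) (nat_lit 69) (nat_lit 1) (nat_lit 70) (nat_lit 1) (nat_lit 309) (nat_lit 369) (nat_lit 222))) (XT.nd (nat_lit 78) (nat_lit 228) (nat_lit 0) (XT.lf (nat_lit 0) (nat_lit 16736605324) (nat_lit 0) (nat_lit 16736605689) (nat_lit 152) (nat_lit 16736605324) (nat_lit 69) (nat_lit 3) (nat_lit 69) (nat_lit 1) (nat_lit 71) (nat_lit 1) (nat_lit 310) (nat_lit 369) (nat_lit 221)) (XT.nd (nat_lit 78) (nat_lit 152) (nat_lit 0) (XT.lf (nat_lit 76) (nat_lit 15975850440) (nat_lit 0) (nat_lit 15975850758) (nat_lit 76) (nat_lit 15975850758) (nat_lit 69) (nat_lit 3) (nat_lit 68) (nat_lit 1) (nat_lit 69) (nat_lit 1) (nat_lit 311) (nat_lit 369) (nat_lit 220)) (XT.lf (nat_lit 152) (nat_lit 45843745180) (nat_lit 0) (nat_lit 83) (nat_lit 76) (nat_lit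 83) (nat_lit 68) (nat_lit 1) (nat_lit 66) (nat_lit 1) (nat_lit 67) (nat_lit 1) (nat_lit 312) (nat_lit 369) (nat_lit 219))))) (XT.nd (nat_lit 234) (nat_lit 228) (nat_lit 0) (XT.nd (nat_lit 78) (nat_lit 228) (nat_lit 0) (XT.lf (nat_lit 0) (nat_lit 14553569882) (nat_lit 0) (nat_lit 14553570090) (nat_lit 152) (nat_lit 14553569882) (nat_lit 66) (nat_lit 3) (nat_lit 66) (nat_lit 1) (nat_lit 68) (nat_lit 1) (nat_lit 313) (nat_lit 369) (nat_lit 218)) (XT.nd (nat_lit 78) (nat_lit 152) (nat_lit 0) (XT.lf (nat_lit 76) (nat_lit 13892043923) (nat_lit 0) (nat_lit 13892044104) (nat_lit 76) (nat_lit 13892044104) (nat_lit 66) (nat_lit 3) (nat_lit 65) (nat_lit 1) (nat_lit 66) (nat_lit 1) (nat_lit 314) (nat_lit 369) (nat_lit 217)) (XT.lf (nat_lit 152) (nat_lit 39864126290) (nat_lit 0) (nat_lit 47) (nat_lit 76) (nat_lit 47) (nat_lit 65) (nat_lit 1) (nat_lit 63) (nat_lit 1) (nat_lit 64) (nat_lit 1) (nat_lit 315) (nat_lit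 369) (nat_lit 216)))) (XT.nd (nat_lit 78) (nat_lit 228) (nat_lit 0) (XT.lf (nat_lit 0) (nat_lit 12655278178) (nat_lit 0) (nat_lit 12655278297) (nat_lit 152) (nat_lit 12655278178) (nat_lit 63) (nat_lit 3) (nat_lit 63) (nat_lit 1) (nat_lit 65) (nat_lit 1) (nat_lit 316) (nat_lit 369) (nat_lit 215)) (XT.nd (nat_lit 78) (nat_lit 152) (nat_lit 0) (XT.lf (nat_lit 76) (nat_lit 12080038229) (nat_lit 0) (nat_lit 12080038333) (nat_lit 76) (nat_lit 12080038333) (nat_lit 63) (nat_lit 3) (nat_lit 62) (nat_lit 1) (nat_lit 63) (nat_lit 1) (nat_lit 317) (nat_lit 369) (nat_lit 214)) (XT.lf (nat_lit 152) (nat_lit 34664457670) (nat_lit 0) (nat_lit 27) (nat_lit 76) (nat_lit 27) (nat_lit 62) (nat_lit 1) (nat_lit 60) (nat_lit 1) (nat_lit 61) (nat_lit 1) (nat_lit 318) (nat_lit 369) (nat_lit 213)))))) (XT.nd (nat_lit 390) (nat_lit 456) (nat_lit 0) (XT.nd (nat_lit 156) (nat_lit 228) (nat_lit 0) (XT.nd (nat_lit 78) (nat_lit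 76) (nat_lit 0) (XT.lf (nat_lit 0) (nat_lit 11004589731) (nat_lit 0) (nat_lit 11004589799) (nat_lit 152) (nat_lit 11004589731) (nat_lit 60) (nat_lit 3) (nat_lit 60) (nat_lit 1) (nat_lit 62) (nat_lit 1) (nat_lit 319) (nat_lit 369) (nat_lit 212)) (XT.lf (nat_lit 76) (nat_lit 10504381089) (nat_lit 0) (nat_lit 10504381148) (nat_lit 76) (nat_lit 10504381148) (nat_lit 60) (nat_lit 3) (nat_lit 59) (nat_lit 1) (nat_lit 60) (nat_lit 1) (nat_lit 320) (nat_lit 369) (nat_lit 211))) (XT.nd (nat_lit 78) (nat_lit 76) (nat_lit 0) (XT.lf (nat_lit 152) (nat_lit 30143006685) (nat_lit 0) (nat_lit 15) (nat_lit 76) (nat_lit 15) (nat_lit 59) (nat_lit 1) (nat_lit 57) (nat_lit 1) (nat_lit 58) (nat_lit 1) (nat_lit 321) (nat_lit 369) (nat_lit 210)) (XT.nd (nat_lit 78) (nat_lit 76) (nat_lit 0) (XT.lf (nat_lit 0) (nat_lit 9569208468) (nat_lit 0) (nat_lit 9569208507) (nat_lit 152) (nat_lit 9569208468) (nat_lit 57) (nat_lit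 3) (nat_lit 57) (nat_lit 1) (nat_lit 59) (nat_lit 1) (nat_lit 322) (nat_lit 369) (nat_lit 209)) (XT.lf (nat_lit 76) (nat_lit 9134244436) (nat_lit 0) (nat_lit 9134244470) (nat_lit 76) (nat_lit 9134244470) (nat_lit 57) (nat_lit 3) (nat_lit 56) (nat_lit 1) (nat_lit 57) (nat_lit 1) (nat_lit 323) (nat_lit 369) (nat_lit 208))))) (XT.nd (nat_lit 234) (nat_lit 228) (nat_lit 0) (XT.nd (nat_lit 78) (nat_lit 76) (nat_lit 0) (XT.lf (nat_lit 152) (nat_lit 26211310170) (nat_lit 0) (nat_lit 8) (nat_lit 76) (nat_lit 8) (nat_lit 56) (nat_lit 1) (nat_lit 54) (nat_lit 1) (nat_lit 55) (nat_lit 1) (nat_lit 324) (nat_lit 369) (nat_lit 207)) (XT.nd (nat_lit 78) (nat_lit 76) (nat_lit 0) (XT.lf (nat_lit 0) (nat_lit 8321050845) (nat_lit 0) (nat_lit 8321050868) (nat_lit 152) (nat_lit 8321050845) (nat_lit 54) (nat_lit 3) (nat_lit 54) (nat_lit 1) (nat_lit 56) (nat_lit 1) (nat_lit 325) (nat_lit 369) (nat_lit 206)) (XT.lf (nat_lit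 76) (nat_lit 7942821256) (nat_lit 0) (nat_lit 7942821275) (nat_lit 76) (nat_lit 7942821275) (nat_lit 54) (nat_lit 3) (nat_lit 53) (nat_lit 1) (nat_lit 54) (nat_lit 1) (nat_lit 326) (nat_lit 369) (nat_lit 205)))) (XT.nd (nat_lit 78) (nat_lit 76) (nat_lit 0) (XT.lf (nat_lit 152) (nat_lit 22792443631) (nat_lit 0) (nat_lit 5) (nat_lit 76) (nat_lit 5) (nat_lit 53) (nat_lit 1) (nat_lit 51) (nat_lit 1) (nat_lit 52) (nat_lit 1) (nat_lit 327) (nat_lit 369) (nat_lit 204)) (XT.nd (nat_lit 78) (nat_lit 76) (nat_lit 0) (XT.lf (nat_lit 0) (nat_lit 7235696389) (nat_lit 0) (nat_lit 7235696402) (nat_lit 152) (nat_lit 7235696389) (nat_lit 51) (nat_lit 3) (nat_lit 51) (nat_lit 1) (nat_lit 53) (nat_lit 1) (nat_lit 328) (nat_lit 369) (nat_lit 203)) (XT.lf (nat_lit 76) (nat_lit 6906801096) (nat_lit 0) (nat_lit 6906801107) (nat_lit 76) (nat_lit 6906801107) (nat_lit 51) (nat_lit 3) (nat_lit 50) (nat_lit 1) (nat_lit 51)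 (nat_lit 1) (nat_lit 329) (nat_lit 369) (nat_lit 202))))))))
noncomputable def ec243 : XT := (XT.nd (nat_lit 1716) (nat_lit 1596) (nat_lit 0) (XT.nd (nat_lit 858) (nat_lit 760) (nat_lit 0) (XT.nd (nat_lit 390) (nat_lit 456) (nat_lit 0) (XT.nd (nat_lit 156) (nat_lit 228) (nat_lit 0) (XT.nd (nat_lit 78) (nat_lit 0) (nat_lit 0) (XT.lf (nat_lit 152) (nat_lit 19819516203) (nat_lit 0) (nat_lit 2) (nat_lit 76) (nat_lit 2) (nat_lit 50) (nat_lit 1) (nat_lit 48) (nat_lit 1) (nat_lit 49) (nat_lit 1) (nat_lit 330) (nat_lit 369) (nat_lit 201)) (XT.lf (nat_lit 0) (nat_lit 6291909905) (nat_lit 0) (nat_lit 6291909912) (nat_lit 152) (nat_lit 6291909905) (nat_lit 48) (nat_lit 3) (nat_lit 48) (nat_lit 1) (nat_lit 50) (nat_lit 1) (nat_lit 331) (nat_lit 369) (nat_lit 200))) (XT.nd (nat_lit 78) (nat_lit 152) (nat_lit 0) (XT.lf (nat_lit 76) (nat_lit 6005913998) (nat_lit 0) (nat_lit 6005914005) (nat_lit 76) (nat_lit 6005914005)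 (nat_lit 48) (nat_lit 3) (nat_lit 47) (nat_lit 1) (nat_lit 48) (nat_lit 1) (nat_lit 332) (nat_lit 369) (nat_lit 199)) (XT.nd (nat_lit 78) (nat_lit 0) (nat_lit 0) (XT.lf (nat_lit 152) (nat_lit 17234361918) (nat_lit 0) (nat_lit 1) (nat_lit 76) (nat_lit 1) (nat_lit 47) (nat_lit 1) (nat_lit 45) (nat_lit 1) (nat_lit 46) (nat_lit 1) (nat_lit 333) (nat_lit 369) (nat_lit 198)) (XT.lf (nat_lit 0) (nat_lit 5471226005) (nat_lit 0) (nat_lit 5471226009) (nat_lit 152) (nat_lit 5471226005) (nat_lit 45) (nat_lit 3) (nat_lit 45) (nat_lit 1) (nat_lit 47) (nat_lit 1) (nat_lit 334) (nat_lit 369) (nat_lit 197))))) (XT.nd (nat_lit 234) (nat_lit 228) (nat_lit 0) (XT.nd (nat_lit 78) (nat_lit 152) (nat_lit 0) (XT.lf (nat_lit 76) (nat_lit 5222533913) (nat_lit 0) (nat_lit 5222533916) (nat_lit 76) (nat_lit 5222533916) (nat_lit 45) (nat_lit 3) (nat_lit 44) (nat_lit 1) (nat_lit 45) (nat_lit 1) (nat_lit 335) (nat_lit 369) (nat_lit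 196)) (XT.nd (nat_lit 78) (nat_lit 152) (nat_lit 0) (XT.lf (nat_lit 0) (nat_lit 14986401668) (nat_lit 0) (nat_lit 0) (nat_lit 0) (nat_lit 0) (nat_lit 44) (nat_lit 1) (nat_lit 1) (nat_lit 0) (nat_lit 1) (nat_lit 0) (nat_lit 336) (nat_lit 369) (nat_lit 195)) (XT.lf (nat_lit 0) (nat_lit 4757587831) (nat_lit 0) (nat_lit 4757587833) (nat_lit 152) (nat_lit 4757587831) (nat_lit 42) (nat_lit 3) (nat_lit 42) (nat_lit 1) (nat_lit 44) (nat_lit 1) (nat_lit 337) (nat_lit 369) (nat_lit 194)))) (XT.nd (nat_lit 78) (nat_lit 152) (nat_lit 0) (XT.lf (nat_lit 76) (nat_lit 4541333838) (nat_lit 0) (nat_lit 4541333840) (nat_lit 76) (nat_lit 4541333840) (nat_lit 42) (nat_lit 3) (nat_lit 41) (nat_lit 1) (nat_lit 42) (nat_lit 1) (nat_lit 338) (nat_lit 369) (nat_lit 193)) (XT.nd (nat_lit 78) (nat_lit 152) (nat_lit 0) (XT.lf (nat_lit 0) (nat_lit 13031653625) (nat_lit 0) (nat_lit 0) (nat_lit 0) (nat_lit 0) (nat_lit 41) (nat_lit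 1) (nat_lit 1) (nat_lit 0) (nat_lit 1) (nat_lit 0) (nat_lit 339) (nat_lit 369) (nat_lit 192)) (XT.lf (nat_lit 0) (nat_lit 4137032896) (nat_lit 0) (nat_lit 4137032898) (nat_lit 152) (nat_lit 4137032896) (nat_lit 39) (nat_lit 3) (nat_lit 39) (nat_lit 1) (nat_lit 41) (nat_lit 1) (nat_lit 340) (nat_lit 369) (nat_lit 191)))))) (XT.nd (nat_lit 390) (nat_lit 456) (nat_lit 0) (XT.nd (nat_lit 156) (nat_lit 228) (nat_lit 0) (XT.nd (nat_lit 78) (nat_lit 0) (nat_lit 0) (XT.lf (nat_lit 76) (nat_lit 3948985946) (nat_lit 0) (nat_lit 3948985947) (nat_lit 76) (nat_lit 3948985947) (nat_lit 39) (nat_lit 3) (nat_lit 38) (nat_lit 1) (nat_lit 39) (nat_lit 1) (nat_lit 341) (nat_lit 369) (nat_lit 190)) (XT.lf (nat_lit 0) (nat_lit 11331872718) (nat_lit 0) (nat_lit 0) (nat_lit 0) (nat_lit 0) (nat_lit 38) (nat_lit 1) (nat_lit 1) (nat_lit 0) (nat_lit 1) (nat_lit 0) (nat_lit 342) (nat_lit 369) (nat_lit 189))) (XT.nd (nat_lit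 78) (nat_lit 76) (nat_lit 0) (XT.lf (nat_lit 0) (nat_lit 3597419910) (nat_lit 0) (nat_lit 3597419911) (nat_lit 152) (nat_lit 3597419910) (nat_lit 36) (nat_lit 3) (nat_lit 36) (nat_lit 1) (nat_lit 38) (nat_lit 1) (nat_lit 343) (nat_lit 369) (nat_lit 188)) (XT.nd (nat_lit 78) (nat_lit 0) (nat_lit 0) (XT.lf (nat_lit 76) (nat_lit 3433900823) (nat_lit 0) (nat_lit 3433900824) (nat_lit 76) (nat_lit 3433900824) (nat_lit 36) (nat_lit 3) (nat_lit 35) (nat_lit 1) (nat_lit 36) (nat_lit 1) (nat_lit 344) (nat_lit 369) (nat_lit 187)) (XT.lf (nat_lit 0) (nat_lit 9853802363) (nat_lit 0) (nat_lit 0) (nat_lit 0) (nat_lit 0) (nat_lit 35) (nat_lit 1) (nat_lit 1) (nat_lit 0) (nat_lit 1) (nat_lit 0) (nat_lit 345) (nat_lit 369) (nat_lit 186))))) (XT.nd (nat_lit 234) (nat_lit 228) (nat_lit 0) (XT.nd (nat_lit 78) (nat_lit 76) (nat_lit 0) (XT.lf (nat_lit 0) (nat_lit 3128191226) (nat_lit 0) (nat_lit 3128191227) (nat_lit 152)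 (nat_lit 3128191226) (nat_lit 33) (nat_lit 3) (nat_lit 33) (nat_lit 1) (nat_lit 35) (nat_lit 1) (nat_lit 346) (nat_lit 369) (nat_lit 185)) (XT.nd (nat_lit 78) (nat_lit 0) (nat_lit 0) (XT.lf (nat_lit 76) (nat_lit 2986000716) (nat_lit 0) (nat_lit 2986000716) (nat_lit 76) (nat_lit 2986000716) (nat_lit 33) (nat_lit 3) (nat_lit 32) (nat_lit 1) (nat_lit 33) (nat_lit 1) (nat_lit 347) (nat_lit 369) (nat_lit 184)) (XT.lf (nat_lit 0) (nat_lit 8568523794) (nat_lit 0) (nat_lit 0) (nat_lit 0) (nat_lit 0) (nat_lit 32) (nat_lit 1) (nat_lit 1) (nat_lit 0) (nat_lit 1) (nat_lit 0) (nat_lit 348) (nat_lit 369) (nat_lit 183)))) (XT.nd (nat_lit 78) (nat_lit 76) (nat_lit 0) (XT.lf (nat_lit 0) (nat_lit 2720166284) (nat_lit 0) (nat_lit 2720166284) (nat_lit 152) (nat_lit 2720166284) (nat_lit 30) (nat_lit 3) (nat_lit 30) (nat_lit 1) (nat_lit 32) (nat_lit 1) (nat_lit 349) (nat_lit 369) (nat_lit 182)) (XT.nd (nat_lit 78) (nat_lit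 0) (nat_lit 0) (XT.lf (nat_lit 76) (nat_lit 2596522361) (nat_lit 0) (nat_lit 2596522362) (nat_lit 76) (nat_lit 2596522362) (nat_lit 30) (nat_lit 3) (nat_lit 29) (nat_lit 1) (nat_lit 30) (nat_lit 1) (nat_lit 350) (nat_lit 369) (nat_lit 181)) (XT.lf (nat_lit 0) (nat_lit 7450890256) (nat_lit 0) (nat_lit 0) (nat_lit 0) (nat_lit 0) (nat_lit 29) (nat_lit 1) (nat_lit 1) (nat_lit 0) (nat_lit 1) (nat_lit 0) (nat_lit 351) (nat_lit 369) (nat_lit 180))))))) (XT.nd (nat_lit 858) (nat_lit 684) (nat_lit 0) (XT.nd (nat_lit 390) (nat_lit 456) (nat_lit 0) (XT.nd (nat_lit 156) (nat_lit 228) (nat_lit 0) (XT.nd (nat_lit 78) (nat_lit 76) (nat_lit 0) (XT.lf (nat_lit 0) (nat_lit 2365361986) (nat_lit 0) (nat_lit 2365361986) (nat_lit 152) (nat_lit 2365361986) (nat_lit 27) (nat_lit 3) (nat_lit 27) (nat_lit 1) (nat_lit 29) (nat_lit 1) (nat_lit 352) (nat_lit 369) (nat_lit 179)) (XT.lf (nat_lit 76) (nat_lit 2257845532) (nat_lit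 0) (nat_lit 2257845532) (nat_lit 76) (nat_lit 2257845532) (nat_lit 27) (nat_lit 3) (nat_lit 26) (nat_lit 1) (nat_lit 27) (nat_lit 1) (nat_lit 353) (nat_lit 369) (nat_lit 178))) (XT.nd (nat_lit 78) (nat_lit 228) (nat_lit 0) (XT.lf (nat_lit 0) (nat_lit 6479035005) (nat_lit 0) (nat_lit 0) (nat_lit 0) (nat_lit 0) (nat_lit 26) (nat_lit 1) (nat_lit 1) (nat_lit 0) (nat_lit 1) (nat_lit 0) (nat_lit 354) (nat_lit 369) (nat_lit 177)) (XT.nd (nat_lit 78) (nat_lit 76) (nat_lit 0) (XT.lf (nat_lit 0) (nat_lit 2056836509) (nat_lit 0) (nat_lit 2056836509) (nat_lit 152) (nat_lit 2056836509) (nat_lit 24) (nat_lit 3) (nat_lit 24) (nat_lit 1) (nat_lit 26) (nat_lit 1) (nat_lit 355) (nat_lit 369) (nat_lit 176)) (XT.lf (nat_lit 76) (nat_lit 1963343941) (nat_lit 0) (nat_lit 1963343941) (nat_lit 76) (nat_lit 1963343941) (nat_lit 24) (nat_lit 3) (nat_lit 23) (nat_lit 1) (nat_lit 24) (nat_lit 1) (nat_lit 356) (nat_lit 369)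 (nat_lit 175))))) (XT.nd (nat_lit 234) (nat_lit 228) (nat_lit 0) (XT.nd (nat_lit 78) (nat_lit 228) (nat_lit 0) (XT.lf (nat_lit 0) (nat_lit 5633943483) (nat_lit 0) (nat_lit 0) (nat_lit 0) (nat_lit 0) (nat_lit 23) (nat_lit 1) (nat_lit 1) (nat_lit 0) (nat_lit 1) (nat_lit 0) (nat_lit 357) (nat_lit 369) (nat_lit 174)) (XT.nd (nat_lit 78) (nat_lit 76) (nat_lit 0) (XT.lf (nat_lit 0) (nat_lit 1788553486) (nat_lit 0) (nat_lit 1788553486) (nat_lit 152) (nat_lit 1788553486) (nat_lit 21) (nat_lit 3) (nat_lit 21) (nat_lit 1) (nat_lit 23) (nat_lit 1) (nat_lit 358) (nat_lit 369) (nat_lit 173)) (XT.lf (nat_lit 76) (nat_lit 1707255600) (nat_lit 0) (nat_lit 1707255600) (nat_lit 76) (nat_lit 1707255600) (nat_lit 21) (nat_lit 3) (nat_lit 20) (nat_lit 1) (nat_lit 21) (nat_lit 1) (nat_lit 359) (nat_lit 369) (nat_lit 172)))) (XT.nd (nat_lit 78) (nat_lit 228) (nat_lit 0) (XT.lf (nat_lit 0) (nat_lit 4899081289) (nat_lit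 0) (nat_lit 0) (nat_lit 0) (nat_lit 0) (nat_lit 20) (nat_lit 1) (nat_lit 1) (nat_lit 0) (nat_lit 1) (nat_lit 0) (nat_lit 360) (nat_lit 369) (nat_lit 171)) (XT.nd (nat_lit 78) (nat_lit 76) (nat_lit 0) (XT.lf (nat_lit 0) (nat_lit 1555263901) (nat_lit 0) (nat_lit 1555263901) (nat_lit 152) (nat_lit 1555263901) (nat_lit 18) (nat_lit 3) (nat_lit 18) (nat_lit 1) (nat_lit 20) (nat_lit 1) (nat_lit 361) (nat_lit 369) (nat_lit 170)) (XT.lf (nat_lit 76) (nat_lit 1484570087) (nat_lit 0) (nat_lit 1484570087) (nat_lit 76) (nat_lit 1484570087) (nat_lit 18) (nat_lit 3) (nat_lit 17) (nat_lit 1) (nat_lit 18) (nat_lit 1) (nat_lit 362) (nat_lit 369) (nat_lit 169)))))) (XT.nd (nat_lit 468) (nat_lit 228) (nat_lit 0) (XT.nd (nat_lit 234) (nat_lit 228) (nat_lit 0) (XT.nd (nat_lit 78) (nat_lit 228) (nat_lit 0) (XT.lf (nat_lit 0) (nat_lit 4260070686) (nat_lit 0) (nat_lit 0) (nat_lit 0) (nat_lit 0) (nat_lit 17) (nat_lit 1)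 (nat_lit 1) (nat_lit 0) (nat_lit 1) (nat_lit 0) (nat_lit 363) (nat_lit 369) (nat_lit 168)) (XT.nd (nat_lit 78) (nat_lit 76) (nat_lit 0) (XT.lf (nat_lit 0) (nat_lit 1352403392) (nat_lit 0) (nat_lit 1352403392) (nat_lit 152) (nat_lit 1352403392) (nat_lit 15) (nat_lit 3) (nat_lit 15) (nat_lit 1) (nat_lit 17) (nat_lit 1) (nat_lit 364) (nat_lit 369) (nat_lit 167)) (XT.lf (nat_lit 76) (nat_lit 1290930511) (nat_lit 0) (nat_lit 1290930511) (nat_lit 76) (nat_lit 1290930511) (nat_lit 15) (nat_lit 3) (nat_lit 14) (nat_lit 1) (nat_lit 15) (nat_lit 1) (nat_lit 365) (nat_lit 369) (nat_lit 166)))) (XT.nd (nat_lit 78) (nat_lit 228) (nat_lit 0) (XT.lf (nat_lit 0) (nat_lit 3704409292) (nat_lit 0) (nat_lit 0) (nat_lit 0) (nat_lit 0) (nat_lit 14) (nat_lit 1) (nat_lit 1) (nat_lit 0) (nat_lit 1) (nat_lit 0) (nat_lit 366) (nat_lit 369) (nat_lit 165)) (XT.nd (nat_lit 78) (nat_lit 76) (nat_lit 0) (XT.lf (nat_lit 0) (nat_lit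 1176002950) (nat_lit 0) (nat_lit 1176002950) (nat_lit 152) (nat_lit 1176002950) (nat_lit 12) (nat_lit 3) (nat_lit 12) (nat_lit 1) (nat_lit 14) (nat_lit 1) (nat_lit 367) (nat_lit 369) (nat_lit 164)) (XT.lf (nat_lit 76) (nat_lit 1122548270) (nat_lit 0) (nat_lit 1122548270) (nat_lit 76) (nat_lit 1122548270) (nat_lit 12) (nat_lit 3) (nat_lit 11) (nat_lit 1) (nat_lit 12) (nat_lit 1) (nat_lit 368) (nat_lit 369) (nat_lit 163))))) (XT.nd (nat_lit 234) (nat_lit 0) (nat_lit 0) (XT.nd (nat_lit 78) (nat_lit 228) (nat_lit 0) (XT.lf (nat_lit 0) (nat_lit 3221225471) (nat_lit 0) (nat_lit 0) (nat_lit 0) (nat_lit 0) (nat_lit 11) (nat_lit 1) (nat_lit 1) (nat_lit 0) (nat_lit 1) (nat_lit 0) (nat_lit 369) (nat_lit 369) (nat_lit 162)) (XT.nd (nat_lit 78) (nat_lit 76) (nat_lit 0) (XT.lf (nat_lit 0) (nat_lit 1022611260) (nat_lit 0) (nat_lit 1022611260) (nat_lit 152) (nat_lit 1022611260) (nat_lit 9) (nat_lit 3) (nat_lit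 9) (nat_lit 1) (nat_lit 11) (nat_lit 1) (nat_lit 370) (nat_lit 369) (nat_lit 161)) (XT.lf (nat_lit 76) (nat_lit 976128930) (nat_lit 0) (nat_lit 976128930) (nat_lit 76) (nat_lit 976128930) (nat_lit 9) (nat_lit 3) (nat_lit 8) (nat_lit 1) (nat_lit 9) (nat_lit 1) (nat_lit 371) (nat_lit 369) (nat_lit 160)))) (XT.nd (nat_lit 30342) (nat_lit 0) (nat_lit 15732) (XT.lf (nat_lit 0) (nat_lit 2801065627) (nat_lit 0) (nat_lit 0) (nat_lit 0) (nat_lit 0) (nat_lit 8) (nat_lit 1) (nat_lit 1) (nat_lit 0) (nat_lit 1) (nat_lit 0) (nat_lit 372) (nat_lit 369) (nat_lit 159)) (XT.nd (nat_lit 78) (nat_lit 0) (nat_lit 0) (XT.lf (nat_lit 380) (nat_lit 12444379961052) (nat_lit 0) (nat_lit 11022293606000) (nat_lit 380) (nat_lit 12444379961052) (nat_lit 220) (nat_lit 1) (nat_lit 215) (nat_lit 0) (nat_lit 220) (nat_lit 0) (nat_lit 160) (nat_lit 370) (nat_lit 370)) (XT.lf (nat_lit 380) (nat_lit 46030146508644) (nat_lit 76) (nat_lit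 10521280260273) (nat_lit 0) (nat_lit 10521280260273) (nat_lit 220) (nat_lit 1) (nat_lit 216) (nat_lit 1) (nat_lit 215) (nat_lit 0) (nat_lit 161) (nat_lit 370) (nat_lit 369))))))))
noncomputable def ec244 : XT := (XT.nd (nat_lit 1716) (nat_lit 1748) (nat_lit 0) (XT.nd (nat_lit 858) (nat_lit 836) (nat_lit 0) (XT.nd (nat_lit 390) (nat_lit 608) (nat_lit 0) (XT.nd (nat_lit 156) (nat_lit 228) (nat_lit 0) (XT.nd (nat_lit 78) (nat_lit 0) (nat_lit 0) (XT.lf (nat_lit 380) (nat_lit 20289824630474) (nat_lit 0) (nat_lit 22077243170157) (nat_lit 304) (nat_lit 20289824630474) (nat_lit 221) (nat_lit 1) (nat_lit 216) (nat_lit 1) (nat_lit 220) (nat_lit 1) (nat_lit 162) (nat_lit 370) (nat_lit 368)) (XT.lf (nat_lit 380) (nat_lit 34836575383676) (nat_lit 76) (nat_lit 11924792760208) (nat_lit 0) (nat_lit 11924792760208) (nat_lit 221) (nat_lit 1) (nat_lit 217) (nat_lit 1) (nat_lit 216) (nat_lit 1) (nat_lit 163) (nat_lit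 370) (nat_lit 367))) (XT.nd (nat_lit 78) (nat_lit 304) (nat_lit 0) (XT.lf (nat_lit 76) (nat_lit 14091856778506) (nat_lit 0) (nat_lit 26833261078974) (nat_lit 304) (nat_lit 14091856778505) (nat_lit 218) (nat_lit 1) (nat_lit 217) (nat_lit 1) (nat_lit 221) (nat_lit 1) (nat_lit 164) (nat_lit 370) (nat_lit 366)) (XT.nd (nat_lit 78) (nat_lit 0) (nat_lit 0) (XT.lf (nat_lit 380) (nat_lit 21178922631026) (nat_lit 0) (nat_lit 15244182384689) (nat_lit 304) (nat_lit 15244182384689) (nat_lit 218) (nat_lit 1) (nat_lit 213) (nat_lit 1) (nat_lit 217) (nat_lit 1) (nat_lit 165) (nat_lit 370) (nat_lit 365)) (XT.lf (nat_lit 76) (nat_lit 7039639980702) (nat_lit 0) (nat_lit 34543689826501) (nat_lit 380) (nat_lit 7039639980702) (nat_lit 214) (nat_lit 1) (nat_lit 213) (nat_lit 1) (nat_lit 218) (nat_lit 1) (nat_lit 166) (nat_lit 370) (nat_lit 364))))) (XT.nd (nat_lit 234) (nat_lit 228) (nat_lit 0) (XT.nd (nat_lit 78) (nat_lit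 228) (nat_lit 0) (XT.lf (nat_lit 228) (nat_lit 6335509920606) (nat_lit 0) (nat_lit 19717711337820) (nat_lit 152) (nat_lit 19717711337819) (nat_lit 214) (nat_lit 1) (nat_lit 211) (nat_lit 1) (nat_lit 213) (nat_lit 1) (nat_lit 167) (nat_lit 370) (nat_lit 363)) (XT.nd (nat_lit 78) (nat_lit 0) (nat_lit 0) (XT.lf (nat_lit 228) (nat_lit 42574546948849) (nat_lit 0) (nat_lit 334040369224) (nat_lit 152) (nat_lit 334040369224) (nat_lit 211) (nat_lit 1) (nat_lit 208) (nat_lit 1) (nat_lit 210) (nat_lit 1) (nat_lit 168) (nat_lit 370) (nat_lit 362)) (XT.lf (nat_lit 76) (nat_lit 16357413064560) (nat_lit 0) (nat_lit 8030619115552) (nat_lit 228) (nat_lit 16357413064560) (nat_lit 209) (nat_lit 1) (nat_lit 208) (nat_lit 1) (nat_lit 211) (nat_lit 1) (nat_lit 169) (nat_lit 370) (nat_lit 361)))) (XT.nd (nat_lit 78) (nat_lit 76) (nat_lit 0) (XT.lf (nat_lit 228) (nat_lit 23776127709478) (nat_lit 0) (nat_lit 7375121087654)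 (nat_lit 152) (nat_lit 7375121087654) (nat_lit 209) (nat_lit 1) (nat_lit 206) (nat_lit 1) (nat_lit 208) (nat_lit 1) (nat_lit 170) (nat_lit 370) (nat_lit 360)) (XT.nd (nat_lit 78) (nat_lit 76) (nat_lit 0) (XT.lf (nat_lit 76) (nat_lit 7435574958706) (nat_lit 0) (nat_lit 21577911407786) (nat_lit 228) (nat_lit 7435574958706) (nat_lit 207) (nat_lit 1) (nat_lit 206) (nat_lit 1) (nat_lit 209) (nat_lit 1) (nat_lit 171) (nat_lit 370) (nat_lit 359)) (XT.lf (nat_lit 152) (nat_lit 6146876812892) (nat_lit 0) (nat_lit 14183948481014) (nat_lit 76) (nat_lit 14183948481013) (nat_lit 207) (nat_lit 1) (nat_lit 205) (nat_lit 1) (nat_lit 206) (nat_lit 1) (nat_lit 172) (nat_lit 370) (nat_lit 358)))))) (XT.nd (nat_lit 390) (nat_lit 380) (nat_lit 0) (XT.nd (nat_lit 156) (nat_lit 228) (nat_lit 0) (XT.nd (nat_lit 78) (nat_lit 0) (nat_lit 0) (XT.lf (nat_lit 228) (nat_lit 31119103707168) (nat_lit 0) (nat_lit 826710839889)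 (nat_lit 152) (nat_lit 826710839889) (nat_lit 205) (nat_lit 1) (nat_lit 202) (nat_lit 1) (nat_lit 204) (nat_lit 1) (nat_lit 173) (nat_lit 370) (nat_lit 357)) (XT.lf (nat_lit 76) (nat_lit 10891017004461) (nat_lit 0) (nat_lit 9249006978674) (nat_lit 228) (nat_lit 10891017004461) (nat_lit 203) (nat_lit 1) (nat_lit 202) (nat_lit 1) (nat_lit 205) (nat_lit 1) (nat_lit 174) (nat_lit 370) (nat_lit 356))) (XT.nd (nat_lit 78) (nat_lit 152) (nat_lit 0) (XT.lf (nat_lit 152) (nat_lit 13242433558849) (nat_lit 0) (nat_lit 8109718579344) (nat_lit 76) (nat_lit 8109718579344) (nat_lit 203) (nat_lit 1) (nat_lit 201) (nat_lit 1) (nat_lit 202) (nat_lit 1) (nat_lit 175) (nat_lit 370) (nat_lit 355)) (XT.nd (nat_lit 78) (nat_lit 152) (nat_lit 0) (XT.lf (nat_lit 0) (nat_lit 2593050981407) (nat_lit 0) (nat_lit 22829021727596) (nat_lit 152) (nat_lit 2593050981407) (nat_lit 201) (nat_lit 3) (nat_lit 201) (nat_lit 1) (nat_lit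 203) (nat_lit 1) (nat_lit 176) (nat_lit 370) (nat_lit 354)) (XT.lf (nat_lit 76) (nat_lit 12000629006171) (nat_lit 0) (nat_lit 2602728974354) (nat_lit 152) (nat_lit 12000629006171) (nat_lit 200) (nat_lit 1) (nat_lit 199) (nat_lit 1) (nat_lit 201) (nat_lit 1) (nat_lit 177) (nat_lit 370) (nat_lit 353))))) (XT.nd (nat_lit 234) (nat_lit 228) (nat_lit 0) (XT.nd (nat_lit 78) (nat_lit 76) (nat_lit 0) (XT.lf (nat_lit 152) (nat_lit 16030479837098) (nat_lit 0) (nat_lit 4636757918586) (nat_lit 76) (nat_lit 4636757918586) (nat_lit 200) (nat_lit 1) (nat_lit 198) (nat_lit 1) (nat_lit 199) (nat_lit 1) (nat_lit 178) (nat_lit 370) (nat_lit 352)) (XT.nd (nat_lit 78) (nat_lit 76) (nat_lit 0) (XT.lf (nat_lit 0) (nat_lit 4168006098822) (nat_lit 0) (nat_lit 15737988050682) (nat_lit 152) (nat_lit 4168006098822) (nat_lit 198) (nat_lit 3) (nat_lit 198) (nat_lit 1) (nat_lit 200) (nat_lit 1) (nat_lit 179) (nat_lit 370) (nat_lit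 351)) (XT.lf (nat_lit 76) (nat_lit 929807678820) (nat_lit 0) (nat_lit 10990661550003) (nat_lit 76) (nat_lit 10990661550002) (nat_lit 198) (nat_lit 3) (nat_lit 197) (nat_lit 1) (nat_lit 198) (nat_lit 1) (nat_lit 180) (nat_lit 370) (nat_lit 350)))) (XT.nd (nat_lit 78) (nat_lit 76) (nat_lit 0) (XT.lf (nat_lit 152) (nat_lit 16521196675514) (nat_lit 0) (nat_lit 2651081388980) (nat_lit 76) (nat_lit 2651081388980) (nat_lit 197) (nat_lit 1) (nat_lit 195) (nat_lit 1) (nat_lit 196) (nat_lit 1) (nat_lit 181) (nat_lit 370) (nat_lit 349)) (XT.nd (nat_lit 78) (nat_lit 76) (nat_lit 0) (XT.lf (nat_lit 0) (nat_lit 4718219522666) (nat_lit 0) (nat_lit 11333394255094) (nat_lit 152) (nat_lit 4718219522666) (nat_lit 195) (nat_lit 3) (nat_lit 195) (nat_lit 1) (nat_lit 197) (nat_lit 1) (nat_lit 182) (nat_lit 370) (nat_lit 348)) (XT.lf (nat_lit 76) (nat_lit 2760625952155) (nat_lit 0) (nat_lit 8512951806440) (nat_lit 76)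 (nat_lit 8512951806440) (nat_lit 195) (nat_lit 3) (nat_lit 194) (nat_lit 1) (nat_lit 195) (nat_lit 1) (nat_lit 183) (nat_lit 370) (nat_lit 347))))))) (XT.nd (nat_lit 858) (nat_lit 912) (nat_lit 0) (XT.nd (nat_lit 390) (nat_lit 456) (nat_lit 0) (XT.nd (nat_lit 156) (nat_lit 228) (nat_lit 0) (XT.nd (nat_lit 78) (nat_lit 0) (nat_lit 0) (XT.lf (nat_lit 152) (nat_lit 15842324168340) (nat_lit 0) (nat_lit 1515764388481) (nat_lit 76) (nat_lit 1515764388481) (nat_lit 194) (nat_lit 1) (nat_lit 192) (nat_lit 1) (nat_lit 193) (nat_lit 1) (nat_lit 184) (nat_lit 370) (nat_lit 346)) (XT.lf (nat_lit 0) (nat_lit 4728221245515) (nat_lit 0) (nat_lit 8510468868946) (nat_lit 152) (nat_lit 4728221245515) (nat_lit 192) (nat_lit 3) (nat_lit 192) (nat_lit 1) (nat_lit 194) (nat_lit 1) (nat_lit 185) (nat_lit 370) (nat_lit 345))) (XT.nd (nat_lit 78) (nat_lit 152) (nat_lit 0) (XT.lf (nat_lit 76) (nat_lit 3516662408023) (nat_lit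 0) (nat_lit 6805573384920) (nat_lit 76) (nat_lit 6805573384920) (nat_lit 192) (nat_lit 3) (nat_lit 191) (nat_lit 1) (nat_lit 192) (nat_lit 1) (nat_lit 186) (nat_lit 370) (nat_lit 344)) (XT.nd (nat_lit 78) (nat_lit 0) (nat_lit 0) (XT.lf (nat_lit 152) (nat_lit 14619879694059) (nat_lit 0) (nat_lit 866643208668) (nat_lit 76) (nat_lit 866643208668) (nat_lit 191) (nat_lit 1) (nat_lit 189) (nat_lit 1) (nat_lit 190) (nat_lit 1) (nat_lit 187) (nat_lit 370) (nat_lit 343)) (XT.lf (nat_lit 0) (nat_lit 4469083599536) (nat_lit 0) (nat_lit 6631595953870) (nat_lit 152) (nat_lit 4469083599536) (nat_lit 189) (nat_lit 3) (nat_lit 189) (nat_lit 1) (nat_lit 191) (nat_lit 1) (nat_lit 188) (nat_lit 370) (nat_lit 342))))) (XT.nd (nat_lit 234) (nat_lit 228) (nat_lit 0) (XT.nd (nat_lit 78) (nat_lit 152) (nat_lit 0) (XT.lf (nat_lit 76) (nat_lit 3696111458495) (nat_lit 0) (nat_lit 5576556984002) (nat_lit 76) (nat_lit 5576556984002)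 (nat_lit 189) (nat_lit 3) (nat_lit 188) (nat_lit 1) (nat_lit 189) (nat_lit 1) (nat_lit 189) (nat_lit 370) (nat_lit 341)) (XT.nd (nat_lit 78) (nat_lit 0) (nat_lit 0) (XT.lf (nat_lit 152) (nat_lit 13195467520104) (nat_lit 0) (nat_lit 495506067327) (nat_lit 76) (nat_lit 495506067327) (nat_lit 188) (nat_lit 1) (nat_lit 186) (nat_lit 1) (nat_lit 187) (nat_lit 1) (nat_lit 190) (nat_lit 370) (nat_lit 340)) (XT.lf (nat_lit 0) (nat_lit 4090611102019) (nat_lit 0) (nat_lit 5327034559244) (nat_lit 152) (nat_lit 4090611102019) (nat_lit 186) (nat_lit 3) (nat_lit 186) (nat_lit 1) (nat_lit 188) (nat_lit 1) (nat_lit 191) (nat_lit 370) (nat_lit 339)))) (XT.nd (nat_lit 78) (nat_lit 152) (nat_lit 0) (XT.lf (nat_lit 76) (nat_lit 3578870951209) (nat_lit 0) (nat_lit 4654021783579) (nat_lit 76) (nat_lit 4654021783579) (nat_lit 186) (nat_lit 3) (nat_lit 185) (nat_lit 1) (nat_lit 186) (nat_lit 1) (nat_lit 192) (nat_lit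 370) (nat_lit 338)) (XT.nd (nat_lit 78) (nat_lit 0) (nat_lit 0) (XT.lf (nat_lit 152) (nat_lit 11750206907691) (nat_lit 0) (nat_lit 283307202205) (nat_lit 76) (nat_lit 283307202205) (nat_lit 185) (nat_lit 1) (nat_lit 183) (nat_lit 1) (nat_lit 184) (nat_lit 1) (nat_lit 193) (nat_lit 370) (nat_lit 337)) (XT.lf (nat_lit 0) (nat_lit 3673948912436) (nat_lit 0) (nat_lit 4380878037032) (nat_lit 152) (nat_lit 3673948912436) (nat_lit 183) (nat_lit 3) (nat_lit 183) (nat_lit 1) (nat_lit 185) (nat_lit 1) (nat_lit 194) (nat_lit 370) (nat_lit 336)))))) (XT.nd (nat_lit 390) (nat_lit 456) (nat_lit 0) (XT.nd (nat_lit 156) (nat_lit 228) (nat_lit 0) (XT.nd (nat_lit 78) (nat_lit 152) (nat_lit 0) (XT.lf (nat_lit 76) (nat_lit 3320672150383) (nat_lit 0) (nat_lit 3935393128292) (nat_lit 76) (nat_lit 3935393128292) (nat_lit 183) (nat_lit 3) (nat_lit 182) (nat_lit 1) (nat_lit 183) (nat_lit 1) (nat_lit 195) (nat_lit 370)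 (nat_lit 335)) (XT.lf (nat_lit 152) (nat_lit 10375310697560) (nat_lit 0) (nat_lit 161981812360) (nat_lit 76) (nat_lit 161981812360) (nat_lit 182) (nat_lit 1) (nat_lit 180) (nat_lit 1) (nat_lit 181) (nat_lit 1) (nat_lit 196) (nat_lit 370) (nat_lit 334))) (XT.nd (nat_lit 78) (nat_lit 228) (nat_lit 0) (XT.lf (nat_lit 0) (nat_lit 3261573726479) (nat_lit 0) (nat_lit 3665762747870) (nat_lit 152) (nat_lit 3261573726478) (nat_lit 180) (nat_lit 3) (nat_lit 180) (nat_lit 1) (nat_lit 182) (nat_lit 1) (nat_lit 197) (nat_lit 370) (nat_lit 333)) (XT.nd (nat_lit 78) (nat_lit 152) (nat_lit 0) (XT.lf (nat_lit 76) (nat_lit 3006814704289) (nat_lit 0) (nat_lit 3358283418543) (nat_lit 76) (nat_lit 3358283418543) (nat_lit 180) (nat_lit 3) (nat_lit 179) (nat_lit 1) (nat_lit 180) (nat_lit 1) (nat_lit 198) (nat_lit 370) (nat_lit 332)) (XT.lf (nat_lit 152) (nat_lit 9112197358148) (nat_lit 0) (nat_lit 92613626944) (nat_lit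 76) (nat_lit 92613626944) (nat_lit 179) (nat_lit 1) (nat_lit 177) (nat_lit 1) (nat_lit 178) (nat_lit 1) (nat_lit 199) (nat_lit 370) (nat_lit 331))))) (XT.nd (nat_lit 234) (nat_lit 228) (nat_lit 0) (XT.nd (nat_lit 78) (nat_lit 228) (nat_lit 0) (XT.lf (nat_lit 0) (nat_lit 2874364504420) (nat_lit 0) (nat_lit 3105460889234) (nat_lit 152) (nat_lit 2874364504420) (nat_lit 177) (nat_lit 3) (nat_lit 177) (nat_lit 1) (nat_lit 179) (nat_lit 1) (nat_lit 200) (nat_lit 370) (nat_lit 330)) (XT.nd (nat_lit 78) (nat_lit 152) (nat_lit 0) (XT.lf (nat_lit 76) (nat_lit 2682816609341) (nat_lit 0) (nat_lit 2883769987440) (nat_lit 76) (nat_lit 2883769987440) (nat_lit 177) (nat_lit 3) (nat_lit 176) (nat_lit 1) (nat_lit 177) (nat_lit 1) (nat_lit 201) (nat_lit 370) (nat_lit 329)) (XT.lf (nat_lit 152) (nat_lit 7975215190337) (nat_lit 0) (nat_lit 52952141791) (nat_lit 76) (nat_lit 52952141791) (nat_lit 176) (nat_lit 1) (nat_lit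 174) (nat_lit 1) (nat_lit 175) (nat_lit 1) (nat_lit 202) (nat_lit 370) (nat_lit 328)))) (XT.nd (nat_lit 78) (nat_lit 228) (nat_lit 0) (XT.lf (nat_lit 0) (nat_lit 2521296052303) (nat_lit 0) (nat_lit 2653426160365) (nat_lit 152) (nat_lit 2521296052303) (nat_lit 174) (nat_lit 3) (nat_lit 174) (nat_lit 1) (nat_lit 176) (nat_lit 1) (nat_lit 203) (nat_lit 370) (nat_lit 327)) (XT.nd (nat_lit 78) (nat_lit 152) (nat_lit 0) (XT.lf (nat_lit 76) (nat_lit 2371874793519) (nat_lit 0) (nat_lit 2486770539660) (nat_lit 76) (nat_lit 2486770539660) (nat_lit 174) (nat_lit 3) (nat_lit 173) (nat_lit 1) (nat_lit 174) (nat_lit 1) (nat_lit 204) (nat_lit 370) (nat_lit 326)) (XT.lf (nat_lit 152) (nat_lit 6964452366188) (nat_lit 0) (nat_lit 30275558930) (nat_lit 76) (nat_lit 30275558930) (nat_lit 173) (nat_lit 1) (nat_lit 171) (nat_lit 1) (nat_lit 172) (nat_lit 1) (nat_lit 205) (nat_lit 370) (nat_lit 325))))))))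
noncomputable def ec245 : XT := (XT.nd (nat_lit 1716) (nat_lit 1824) (nat_lit 0) (XT.nd (nat_lit 858) (nat_lit 836) (nat_lit 0) (XT.nd (nat_lit 390) (nat_lit 456) (nat_lit 0) (XT.nd (nat_lit 156) (nat_lit 228) (nat_lit 0) (XT.nd (nat_lit 78) (nat_lit 76) (nat_lit 0) (XT.lf (nat_lit 0) (nat_lit 2204923390468) (nat_lit 0) (nat_lit 2280469208593) (nat_lit 152) (nat_lit 2204923390468) (nat_lit 171) (nat_lit 3) (nat_lit 171) (nat_lit 1) (nat_lit 173) (nat_lit 1) (nat_lit 206) (nat_lit 370) (nat_lit 324)) (XT.lf (nat_lit 76) (nat_lit 2084792928550) (nat_lit 0) (nat_lit 2150484944311) (nat_lit 76) (nat_lit 2150484944311) (nat_lit 171) (nat_lit 3) (nat_lit 170) (nat_lit 1) (nat_lit 171) (nat_lit 1) (nat_lit 207) (nat_lit 370) (nat_lit 323))) (XT.nd (nat_lit 78) (nat_lit 76) (nat_lit 0) (XT.lf (nat_lit 152) (nat_lit 6072902328329) (nat_lit 0) (nat_lit 17310149080) (nat_lit 76) (nat_lit 17310149080) (nat_lit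 170) (nat_lit 1) (nat_lit 168) (nat_lit 1) (nat_lit 169) (nat_lit 1) (nat_lit 208) (nat_lit 370) (nat_lit 322)) (XT.nd (nat_lit 78) (nat_lit 76) (nat_lit 0) (XT.lf (nat_lit 0) (nat_lit 1924467052144) (nat_lit 0) (nat_lit 1967660618848) (nat_lit 152) (nat_lit 1924467052144) (nat_lit 168) (nat_lit 3) (nat_lit 168) (nat_lit 1) (nat_lit 170) (nat_lit 1) (nat_lit 209) (nat_lit 370) (nat_lit 321)) (XT.lf (nat_lit 76) (nat_lit 1825609573040) (nat_lit 0) (nat_lit 1863169196261) (nat_lit 76) (nat_lit 1863169196261) (nat_lit 168) (nat_lit 3) (nat_lit 167) (nat_lit 1) (nat_lit 168) (nat_lit 1) (nat_lit 210) (nat_lit 370) (nat_lit 320))))) (XT.nd (nat_lit 234) (nat_lit 228) (nat_lit 0) (XT.nd (nat_lit 78) (nat_lit 76) (nat_lit 0) (XT.lf (nat_lit 152) (nat_lit 5290422559159) (nat_lit 0) (nat_lit 9897133918) (nat_lit 76) (nat_lit 9897133918) (nat_lit 167) (nat_lit 1) (nat_lit 165) (nat_lit 1) (nat_lit 166) (nat_lit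 1) (nat_lit 211) (nat_lit 370) (nat_lit 319)) (XT.nd (nat_lit 78) (nat_lit 76) (nat_lit 0) (XT.lf (nat_lit 0) (nat_lit 1677533280804) (nat_lit 0) (nat_lit 1702229342756) (nat_lit 152) (nat_lit 1677533280804) (nat_lit 165) (nat_lit 3) (nat_lit 165) (nat_lit 1) (nat_lit 167) (nat_lit 1) (nat_lit 212) (nat_lit 370) (nat_lit 318)) (XT.lf (nat_lit 76) (nat_lit 1594774241834) (nat_lit 0) (nat_lit 1616249078314) (nat_lit 76) (nat_lit 1616249078314) (nat_lit 165) (nat_lit 3) (nat_lit 164) (nat_lit 1) (nat_lit 165) (nat_lit 1) (nat_lit 213) (nat_lit 370) (nat_lit 317)))) (XT.nd (nat_lit 78) (nat_lit 76) (nat_lit 0) (XT.lf (nat_lit 152) (nat_lit 4605877958121) (nat_lit 0) (nat_lit 5658718440) (nat_lit 76) (nat_lit 5658718439) (nat_lit 164) (nat_lit 1) (nat_lit 162) (nat_lit 1) (nat_lit 163) (nat_lit 1) (nat_lit 214) (nat_lit 370) (nat_lit 316)) (XT.nd (nat_lit 78) (nat_lit 76) (nat_lit 0) (XT.lf (nat_lit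 0) (nat_lit 1461059443719) (nat_lit 0) (nat_lit 1475179497294) (nat_lit 152) (nat_lit 1461059443719) (nat_lit 162) (nat_lit 3) (nat_lit 162) (nat_lit 1) (nat_lit 164) (nat_lit 1) (nat_lit 215) (nat_lit 370) (nat_lit 315)) (XT.lf (nat_lit 76) (nat_lit 1390926951594) (nat_lit 0) (nat_lit 1403205259050) (nat_lit 76) (nat_lit 1403205259050) (nat_lit 162) (nat_lit 3) (nat_lit 161) (nat_lit 1) (nat_lit 162) (nat_lit 1) (nat_lit 216) (nat_lit 370) (nat_lit 314)))))) (XT.nd (nat_lit 390) (nat_lit 456) (nat_lit 0) (XT.nd (nat_lit 156) (nat_lit 228) (nat_lit 0) (XT.nd (nat_lit 78) (nat_lit 0) (nat_lit 0) (XT.lf (nat_lit 152) (nat_lit 4008261922981) (nat_lit 0) (nat_lit 3235390633) (nat_lit 76) (nat_lit 3235390633) (nat_lit 161) (nat_lit 1) (nat_lit 159) (nat_lit 1) (nat_lit 160) (nat_lit 1) (nat_lit 217) (nat_lit 370) (nat_lit 313)) (XT.lf (nat_lit 0) (nat_lit 1271821431846) (nat_lit 0) (nat_lit 1279894618305)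 (nat_lit 152) (nat_lit 1271821431846) (nat_lit 159) (nat_lit 3) (nat_lit 159) (nat_lit 1) (nat_lit 161) (nat_lit 1) (nat_lit 218) (nat_lit 370) (nat_lit 312))) (XT.nd (nat_lit 78) (nat_lit 152) (nat_lit 0) (XT.lf (nat_lit 76) (nat_lit 1211884044902) (nat_lit 0) (nat_lit 1218904207040) (nat_lit 76) (nat_lit 1218904207040) (nat_lit 159) (nat_lit 3) (nat_lit 158) (nat_lit 1) (nat_lit 159) (nat_lit 1) (nat_lit 219) (nat_lit 370) (nat_lit 311)) (XT.nd (nat_lit 78) (nat_lit 0) (nat_lit 0) (XT.lf (nat_lit 152) (nat_lit 3487246547669) (nat_lit 0) (nat_lit 1849845095) (nat_lit 76) (nat_lit 1849845095) (nat_lit 158) (nat_lit 1) (nat_lit 156) (nat_lit 1) (nat_lit 157) (nat_lit 1) (nat_lit 220) (nat_lit 370) (nat_lit 310)) (XT.lf (nat_lit 0) (nat_lit 1106694947034) (nat_lit 0) (nat_lit 1111310817594) (nat_lit 152) (nat_lit 1106694947034) (nat_lit 156) (nat_lit 3) (nat_lit 156) (nat_lit 1) (nat_lit 158) (nat_lit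 1) (nat_lit 221) (nat_lit 370) (nat_lit 309))))) (XT.nd (nat_lit 234) (nat_lit 228) (nat_lit 0) (XT.nd (nat_lit 78) (nat_lit 152) (nat_lit 0) (XT.lf (nat_lit 76) (nat_lit 1055174328081) (nat_lit 0) (nat_lit 1059188128569) (nat_lit 76) (nat_lit 1059188128569) (nat_lit 156) (nat_lit 3) (nat_lit 155) (nat_lit 1) (nat_lit 156) (nat_lit 1) (nat_lit 222) (nat_lit 370) (nat_lit 308)) (XT.nd (nat_lit 78) (nat_lit 0) (nat_lit 0) (XT.lf (nat_lit 152) (nat_lit 3033418257045) (nat_lit 0) (nat_lit 1057654937) (nat_lit 76) (nat_lit 1057654937) (nat_lit 155) (nat_lit 1) (nat_lit 153) (nat_lit 1) (nat_lit 154) (nat_lit 1) (nat_lit 223) (nat_lit 370) (nat_lit 307)) (XT.lf (nat_lit 0) (nat_lit 962779832683) (nat_lit 0) (nat_lit 965418971657) (nat_lit 152) (nat_lit 962779832683) (nat_lit 153) (nat_lit 3) (nat_lit 153) (nat_lit 1) (nat_lit 155) (nat_lit 1) (nat_lit 224) (nat_lit 370) (nat_lit 306)))) (XT.nd (nat_lit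 78) (nat_lit 152) (nat_lit 0) (XT.lf (nat_lit 76) (nat_lit 918321687726) (nat_lit 0) (nat_lit 920616591182) (nat_lit 76) (nat_lit 920616591182) (nat_lit 153) (nat_lit 3) (nat_lit 152) (nat_lit 1) (nat_lit 153) (nat_lit 1) (nat_lit 225) (nat_lit 370) (nat_lit 305)) (XT.nd (nat_lit 78) (nat_lit 0) (nat_lit 0) (XT.lf (nat_lit 152) (nat_lit 2638343886083) (nat_lit 0) (nat_lit 604717643) (nat_lit 76) (nat_lit 604717643) (nat_lit 152) (nat_lit 1) (nat_lit 150) (nat_lit 1) (nat_lit 151) (nat_lit 1) (nat_lit 226) (nat_lit 370) (nat_lit 304)) (XT.lf (nat_lit 0) (nat_lit 837449367898) (nat_lit 0) (nat_lit 838958304172) (nat_lit 152) (nat_lit 837449367898) (nat_lit 150) (nat_lit 3) (nat_lit 150) (nat_lit 1) (nat_lit 152) (nat_lit 1) (nat_lit 227) (nat_lit 370) (nat_lit 303))))))) (XT.nd (nat_lit 858) (nat_lit 912) (nat_lit 0) (XT.nd (nat_lit 390) (nat_lit 456) (nat_lit 0) (XT.nd (nat_lit 156) (nat_lit 228)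 (nat_lit 0) (XT.nd (nat_lit 78) (nat_lit 152) (nat_lit 0) (XT.lf (nat_lit 76) (nat_lit 798985875873) (nat_lit 0) (nat_lit 800297994372) (nat_lit 76) (nat_lit 800297994372) (nat_lit 150) (nat_lit 3) (nat_lit 149) (nat_lit 1) (nat_lit 150) (nat_lit 1) (nat_lit 228) (nat_lit 370) (nat_lit 302)) (XT.lf (nat_lit 152) (nat_lit 2294548768881) (nat_lit 0) (nat_lit 345749275) (nat_lit 76) (nat_lit 345749275) (nat_lit 149) (nat_lit 1) (nat_lit 147) (nat_lit 1) (nat_lit 148) (nat_lit 1) (nat_lit 229) (nat_lit 370) (nat_lit 301))) (XT.nd (nat_lit 78) (nat_lit 228) (nat_lit 0) (XT.lf (nat_lit 0) (nat_lit 728359501742) (nat_lit 0) (nat_lit 729222240954) (nat_lit 152) (nat_lit 728359501742) (nat_lit 147) (nat_lit 3) (nat_lit 147) (nat_lit 1) (nat_lit 149) (nat_lit 1) (nat_lit 230) (nat_lit 370) (nat_lit 300)) (XT.nd (nat_lit 78) (nat_lit 152) (nat_lit 0) (XT.lf (nat_lit 76) (nat_lit 695024915902) (nat_lit 0)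 (nat_lit 695775123912) (nat_lit 76) (nat_lit 695775123912) (nat_lit 147) (nat_lit 3) (nat_lit 146) (nat_lit 1) (nat_lit 147) (nat_lit 1) (nat_lit 231) (nat_lit 370) (nat_lit 299)) (XT.lf (nat_lit 152) (nat_lit 1995452304929) (nat_lit 0) (nat_lit 197683270) (nat_lit 76) (nat_lit 197683270) (nat_lit 146) (nat_lit 1) (nat_lit 144) (nat_lit 1) (nat_lit 145) (nat_lit 1) (nat_lit 232) (nat_lit 370) (nat_lit 298))))) (XT.nd (nat_lit 234) (nat_lit 228) (nat_lit 0) (XT.nd (nat_lit 78) (nat_lit 228) (nat_lit 0) (XT.lf (nat_lit 0) (nat_lit 633437654841) (nat_lit 0) (nat_lit 633930928786) (nat_lit 152) (nat_lit 633437654841) (nat_lit 144) (nat_lit 3) (nat_lit 144) (nat_lit 1) (nat_lit 146) (nat_lit 1) (nat_lit 233) (nat_lit 370) (nat_lit 297)) (XT.nd (nat_lit 78) (nat_lit 152) (nat_lit 0) (XT.lf (nat_lit 76) (nat_lit 604515054207) (nat_lit 0) (nat_lit 604943988072) (nat_lit 76) (nat_lit 604943988072) (nat_lit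 144) (nat_lit 3) (nat_lit 143) (nat_lit 1) (nat_lit 144) (nat_lit 1) (nat_lit 234) (nat_lit 370) (nat_lit 296)) (XT.lf (nat_lit 152) (nat_lit 1735285983204) (nat_lit 0) (nat_lit 113026051) (nat_lit 76) (nat_lit 113026051) (nat_lit 143) (nat_lit 1) (nat_lit 141) (nat_lit 1) (nat_lit 142) (nat_lit 1) (nat_lit 235) (nat_lit 370) (nat_lit 295)))) (XT.nd (nat_lit 78) (nat_lit 228) (nat_lit 0) (XT.lf (nat_lit 0) (nat_lit 550861987873) (nat_lit 0) (nat_lit 551144018851) (nat_lit 152) (nat_lit 550861987873) (nat_lit 141) (nat_lit 3) (nat_lit 141) (nat_lit 1) (nat_lit 143) (nat_lit 1) (nat_lit 236) (nat_lit 370) (nat_lit 294)) (XT.nd (nat_lit 78) (nat_lit 152) (nat_lit 0) (XT.lf (nat_lit 76) (nat_lit 525748490142) (nat_lit 0) (nat_lit 525993734472) (nat_lit 76) (nat_lit 525993734472) (nat_lit 141) (nat_lit 3) (nat_lit 140) (nat_lit 1) (nat_lit 141) (nat_lit 1) (nat_lit 237) (nat_lit 370) (nat_lit 293))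 (XT.lf (nat_lit 152) (nat_lit 1509007263742) (nat_lit 0) (nat_lit 64623011) (nat_lit 76) (nat_lit 64623011) (nat_lit 140) (nat_lit 1) (nat_lit 138) (nat_lit 1) (nat_lit 139) (nat_lit 1) (nat_lit 238) (nat_lit 370) (nat_lit 292)))))) (XT.nd (nat_lit 468) (nat_lit 456) (nat_lit 0) (XT.nd (nat_lit 234) (nat_lit 228) (nat_lit 0) (XT.nd (nat_lit 78) (nat_lit 228) (nat_lit 0) (XT.lf (nat_lit 0) (nat_lit 479037088428) (nat_lit 0) (nat_lit 479198340555) (nat_lit 152) (nat_lit 479037088428) (nat_lit 138) (nat_lit 3) (nat_lit 138) (nat_lit 1) (nat_lit 140) (nat_lit 1) (nat_lit 239) (nat_lit 370) (nat_lit 291)) (XT.nd (nat_lit 78) (nat_lit 152) (nat_lit 0) (XT.lf (nat_lit 76) (nat_lit 457220184638) (nat_lit 0) (nat_lit 457360403880) (nat_lit 76) (nat_lit 457360403880) (nat_lit 138) (nat_lit 3) (nat_lit 137) (nat_lit 1) (nat_lit 138) (nat_lit 1) (nat_lit 240) (nat_lit 370) (nat_lit 290)) (XT.lf (nat_lit 152)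 (nat_lit 1312216210070) (nat_lit 0) (nat_lit 36948416) (nat_lit 76) (nat_lit 36948416) (nat_lit 137) (nat_lit 1) (nat_lit 135) (nat_lit 1) (nat_lit 136) (nat_lit 1) (nat_lit 241) (nat_lit 370) (nat_lit 289)))) (XT.nd (nat_lit 78) (nat_lit 228) (nat_lit 0) (XT.lf (nat_lit 0) (nat_lit 416569235275) (nat_lit 0) (nat_lit 416661431702) (nat_lit 152) (nat_lit 416569235275) (nat_lit 135) (nat_lit 3) (nat_lit 135) (nat_lit 1) (nat_lit 137) (nat_lit 1) (nat_lit 242) (nat_lit 370) (nat_lit 288)) (XT.nd (nat_lit 78) (nat_lit 152) (nat_lit 0) (XT.lf (nat_lit 76) (nat_lit 397609975852) (nat_lit 0) (nat_lit 397690146658) (nat_lit 76) (nat_lit 397690146658) (nat_lit 135) (nat_lit 3) (nat_lit 134) (nat_lit 1) (nat_lit 135) (nat_lit 1) (nat_lit 243) (nat_lit 370) (nat_lit 287)) (XT.lf (nat_lit 152) (nat_lit 1141078146073) (nat_lit 0) (nat_lit 21125377) (nat_lit 76) (nat_lit 21125377) (nat_lit 134) (nat_lit 1) (nat_lit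 132) (nat_lit 1) (nat_lit 133) (nat_lit 1) (nat_lit 244) (nat_lit 370) (nat_lit 286))))) (XT.nd (nat_lit 234) (nat_lit 228) (nat_lit 0) (XT.nd (nat_lit 78) (nat_lit 228) (nat_lit 0) (XT.lf (nat_lit 0) (nat_lit 362242834202) (nat_lit 0) (nat_lit 362295547808) (nat_lit 152) (nat_lit 362242834202) (nat_lit 132) (nat_lit 3) (nat_lit 132) (nat_lit 1) (nat_lit 134) (nat_lit 1) (nat_lit 245) (nat_lit 370) (nat_lit 285)) (XT.nd (nat_lit 78) (nat_lit 152) (nat_lit 0) (XT.lf (nat_lit 76) (nat_lit 345763360551) (nat_lit 0) (nat_lit 345809198469) (nat_lit 76) (nat_lit 345809198469) (nat_lit 132) (nat_lit 3) (nat_lit 131) (nat_lit 1) (nat_lit 132) (nat_lit 1) (nat_lit 246) (nat_lit 370) (nat_lit 284)) (XT.lf (nat_lit 152) (nat_lit 992253628315) (nat_lit 0) (nat_lit 12078502) (nat_lit 76) (nat_lit 12078502) (nat_lit 131) (nat_lit 1) (nat_lit 129) (nat_lit 1) (nat_lit 130) (nat_lit 1) (nat_lit 247) (nat_lit 370)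 (nat_lit 283)))) (XT.nd (nat_lit 78) (nat_lit 228) (nat_lit 0) (XT.lf (nat_lit 0) (nat_lit 314998752599) (nat_lit 0) (nat_lit 315028891775) (nat_lit 152) (nat_lit 314998752599) (nat_lit 129) (nat_lit 3) (nat_lit 129) (nat_lit 1) (nat_lit 131) (nat_lit 1) (nat_lit 248) (nat_lit 370) (nat_lit 282)) (XT.nd (nat_lit 78) (nat_lit 152) (nat_lit 0) (XT.lf (nat_lit 76) (nat_lit 300672685669) (nat_lit 0) (nat_lit 300698893648) (nat_lit 76) (nat_lit 300698893648) (nat_lit 129) (nat_lit 3) (nat_lit 128) (nat_lit 1) (nat_lit 129) (nat_lit 1) (nat_lit 249) (nat_lit 370) (nat_lit 281)) (XT.lf (nat_lit 152) (nat_lit 862835967068) (nat_lit 0) (nat_lit 6905923) (nat_lit 76) (nat_lit 6905923) (nat_lit 128) (nat_lit 1) (nat_lit 126) (nat_lit 1) (nat_lit 127) (nat_lit 1) (nat_lit 250) (nat_lit 370) (nat_lit 280))))))))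
noncomputable def ec246 : XT := (XT.nd (nat_lit 1716) (nat_lit 1672) (nat_lit 0) (XT.nd (nat_lit 858) (nat_lit 836) (nat_lit 0) (XT.nd (nat_lit 390) (nat_lit 456) (nat_lit 0) (XT.nd (nat_lit 156) (nat_lit 228) (nat_lit 0) (XT.nd (nat_lit 78) (nat_lit 76) (nat_lit 0) (XT.lf (nat_lit 0) (nat_lit 273914808244) (nat_lit 0) (nat_lit 273932040416) (nat_lit 152) (nat_lit 273914808244) (nat_lit 126) (nat_lit 3) (nat_lit 126) (nat_lit 1) (nat_lit 128) (nat_lit 1) (nat_lit 251) (nat_lit 370) (nat_lit 279)) (XT.lf (nat_lit 76) (nat_lit 261459594386) (nat_lit 0) (nat_lit 261474578883) (nat_lit 76) (nat_lit 261474578883) (nat_lit 126) (nat_lit 3) (nat_lit 125) (nat_lit 1) (nat_lit 126) (nat_lit 1) (nat_lit 252) (nat_lit 370) (nat_lit 278))) (XT.nd (nat_lit 78) (nat_lit 76) (nat_lit 0) (XT.lf (nat_lit 152) (nat_lit 750295990349) (nat_lit 0) (nat_lit 3948484) (nat_lit 76) (nat_lit 3948484) (nat_lit 125) (nat_lit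 1) (nat_lit 123) (nat_lit 1) (nat_lit 124) (nat_lit 1) (nat_lit 253) (nat_lit 370) (nat_lit 277)) (XT.nd (nat_lit 78) (nat_lit 76) (nat_lit 0) (XT.lf (nat_lit 0) (nat_lit 238188418967) (nat_lit 0) (nat_lit 238198271517) (nat_lit 152) (nat_lit 238188418967) (nat_lit 123) (nat_lit 3) (nat_lit 123) (nat_lit 1) (nat_lit 125) (nat_lit 1) (nat_lit 254) (nat_lit 370) (nat_lit 276)) (XT.lf (nat_lit 76) (nat_lit 227359076458) (nat_lit 0) (nat_lit 227367643893) (nat_lit 76) (nat_lit 227367643893) (nat_lit 123) (nat_lit 3) (nat_lit 122) (nat_lit 1) (nat_lit 123) (nat_lit 1) (nat_lit 255) (nat_lit 370) (nat_lit 275))))) (XT.nd (nat_lit 234) (nat_lit 228) (nat_lit 0) (XT.nd (nat_lit 78) (nat_lit 76) (nat_lit 0) (XT.lf (nat_lit 152) (nat_lit 652433494388) (nat_lit 0) (nat_lit 2257558) (nat_lit 76) (nat_lit 2257558) (nat_lit 122) (nat_lit 1) (nat_lit 120) (nat_lit 1) (nat_lit 121) (nat_lit 1) (nat_lit 256) (nat_lit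 370) (nat_lit 274)) (XT.nd (nat_lit 78) (nat_lit 76) (nat_lit 0) (XT.lf (nat_lit 0) (nat_lit 207121295814) (nat_lit 0) (nat_lit 207126929041) (nat_lit 152) (nat_lit 207121295814) (nat_lit 120) (nat_lit 3) (nat_lit 120) (nat_lit 1) (nat_lit 122) (nat_lit 1) (nat_lit 257) (nat_lit 370) (nat_lit 273)) (XT.lf (nat_lit 76) (nat_lit 197705207077) (nat_lit 0) (nat_lit 197710105536) (nat_lit 76) (nat_lit 197710105536) (nat_lit 120) (nat_lit 3) (nat_lit 119) (nat_lit 1) (nat_lit 120) (nat_lit 1) (nat_lit 258) (nat_lit 370) (nat_lit 272)))) (XT.nd (nat_lit 78) (nat_lit 76) (nat_lit 0) (XT.lf (nat_lit 152) (nat_lit 567334730342) (nat_lit 0) (nat_lit 1290766) (nat_lit 76) (nat_lit 1290766) (nat_lit 119) (nat_lit 1) (nat_lit 117) (nat_lit 1) (nat_lit 118) (nat_lit 1) (nat_lit 259) (nat_lit 370) (nat_lit 271)) (XT.nd (nat_lit 78) (nat_lit 76) (nat_lit 0) (XT.lf (nat_lit 0) (nat_lit 180106007205) (nat_lit 0)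 (nat_lit 180109228021) (nat_lit 152) (nat_lit 180106007205) (nat_lit 117) (nat_lit 3) (nat_lit 117) (nat_lit 1) (nat_lit 119) (nat_lit 1) (nat_lit 260) (nat_lit 370) (nat_lit 270)) (XT.lf (nat_lit 76) (nat_lit 171918521814) (nat_lit 0) (nat_lit 171921322524) (nat_lit 76) (nat_lit 171921322524) (nat_lit 117) (nat_lit 3) (nat_lit 116) (nat_lit 1) (nat_lit 117) (nat_lit 1) (nat_lit 261) (nat_lit 370) (nat_lit 269)))))) (XT.nd (nat_lit 390) (nat_lit 456) (nat_lit 0) (XT.nd (nat_lit 156) (nat_lit 228) (nat_lit 0) (XT.nd (nat_lit 78) (nat_lit 0) (nat_lit 0) (XT.lf (nat_lit 152) (nat_lit 493335266795) (nat_lit 0) (nat_lit 737999) (nat_lit 76) (nat_lit 737999) (nat_lit 116) (nat_lit 1) (nat_lit 114) (nat_lit 1) (nat_lit 115) (nat_lit 1) (nat_lit 262) (nat_lit 370) (nat_lit 268)) (XT.lf (nat_lit 0) (nat_lit 156614223816) (nat_lit 0) (nat_lit 156616065328) (nat_lit 152) (nat_lit 156614223816) (nat_lit 114)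 (nat_lit 3) (nat_lit 114) (nat_lit 1) (nat_lit 116) (nat_lit 1) (nat_lit 263) (nat_lit 370) (nat_lit 267))) (XT.nd (nat_lit 78) (nat_lit 152) (nat_lit 0) (XT.lf (nat_lit 76) (nat_lit 149494910214) (nat_lit 0) (nat_lit 149496511529) (nat_lit 76) (nat_lit 149496511529) (nat_lit 114) (nat_lit 3) (nat_lit 113) (nat_lit 1) (nat_lit 114) (nat_lit 1) (nat_lit 264) (nat_lit 370) (nat_lit 266)) (XT.nd (nat_lit 78) (nat_lit 0) (nat_lit 0) (XT.lf (nat_lit 152) (nat_lit 428987599420) (nat_lit 0) (nat_lit 421953) (nat_lit 76) (nat_lit 421953) (nat_lit 113) (nat_lit 1) (nat_lit 111) (nat_lit 1) (nat_lit 112) (nat_lit 1) (nat_lit 265) (nat_lit 370) (nat_lit 265)) (XT.lf (nat_lit 0) (nat_lit 136186455682) (nat_lit 0) (nat_lit 136187508573) (nat_lit 152) (nat_lit 136186455682) (nat_lit 111) (nat_lit 3) (nat_lit 111) (nat_lit 1) (nat_lit 113) (nat_lit 1) (nat_lit 266) (nat_lit 370) (nat_lit 264))))) (XT.nd (nat_lit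 234) (nat_lit 228) (nat_lit 0) (XT.nd (nat_lit 78) (nat_lit 152) (nat_lit 0) (XT.lf (nat_lit 76) (nat_lit 129995884801) (nat_lit 0) (nat_lit 129996800357) (nat_lit 76) (nat_lit 129996800357) (nat_lit 111) (nat_lit 3) (nat_lit 110) (nat_lit 1) (nat_lit 111) (nat_lit 1) (nat_lit 267) (nat_lit 370) (nat_lit 263)) (XT.nd (nat_lit 78) (nat_lit 0) (nat_lit 0) (XT.lf (nat_lit 152) (nat_lit 373032930083) (nat_lit 0) (nat_lit 241253) (nat_lit 76) (nat_lit 241253) (nat_lit 110) (nat_lit 1) (nat_lit 108) (nat_lit 1) (nat_lit 109) (nat_lit 1) (nat_lit 268) (nat_lit 370) (nat_lit 262)) (XT.lf (nat_lit 0) (nat_lit 118423104485) (nat_lit 0) (nat_lit 118423706478) (nat_lit 152) (nat_lit 118423104485) (nat_lit 108) (nat_lit 3) (nat_lit 108) (nat_lit 1) (nat_lit 110) (nat_lit 1) (nat_lit 269) (nat_lit 370) (nat_lit 261)))) (XT.nd (nat_lit 78) (nat_lit 152) (nat_lit 0) (XT.lf (nat_lit 76) (nat_lit 113040077471) (nat_lit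 0) (nat_lit 113040600944) (nat_lit 76) (nat_lit 113040600944) (nat_lit 108) (nat_lit 3) (nat_lit 107) (nat_lit 1) (nat_lit 108) (nat_lit 1) (nat_lit 270) (nat_lit 370) (nat_lit 260)) (XT.nd (nat_lit 78) (nat_lit 0) (nat_lit 0) (XT.lf (nat_lit 152) (nat_lit 324376595266) (nat_lit 0) (nat_lit 137937) (nat_lit 76) (nat_lit 137937) (nat_lit 107) (nat_lit 1) (nat_lit 105) (nat_lit 1) (nat_lit 106) (nat_lit 1) (nat_lit 271) (nat_lit 370) (nat_lit 259)) (XT.lf (nat_lit 0) (nat_lit 102976669510) (nat_lit 0) (nat_lit 102977013702) (nat_lit 152) (nat_lit 102976669510) (nat_lit 105) (nat_lit 3) (nat_lit 105) (nat_lit 1) (nat_lit 107) (nat_lit 1) (nat_lit 272) (nat_lit 370) (nat_lit 258))))))) (XT.nd (nat_lit 858) (nat_lit 760) (nat_lit 0) (XT.nd (nat_lit 390) (nat_lit 456) (nat_lit 0) (XT.nd (nat_lit 156) (nat_lit 228) (nat_lit 0) (XT.nd (nat_lit 78) (nat_lit 152) (nat_lit 0) (XT.lf (nat_lit 76) (nat_lit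 98295821109) (nat_lit 0) (nat_lit 98296120406) (nat_lit 76) (nat_lit 98296120406) (nat_lit 105) (nat_lit 3) (nat_lit 104) (nat_lit 1) (nat_lit 105) (nat_lit 1) (nat_lit 273) (nat_lit 370) (nat_lit 257)) (XT.lf (nat_lit 152) (nat_lit 282066681380) (nat_lit 0) (nat_lit 78866) (nat_lit 76) (nat_lit 78866) (nat_lit 104) (nat_lit 1) (nat_lit 102) (nat_lit 1) (nat_lit 103) (nat_lit 1) (nat_lit 274) (nat_lit 370) (nat_lit 256))) (XT.nd (nat_lit 78) (nat_lit 228) (nat_lit 0) (XT.lf (nat_lit 0) (nat_lit 89544962550) (nat_lit 0) (nat_lit 89545159343) (nat_lit 152) (nat_lit 89544962550) (nat_lit 102) (nat_lit 3) (nat_lit 102) (nat_lit 1) (nat_lit 104) (nat_lit 1) (nat_lit 275) (nat_lit 370) (nat_lit 255)) (XT.nd (nat_lit 78) (nat_lit 152) (nat_lit 0) (XT.lf (nat_lit 76) (nat_lit 85474685123) (nat_lit 0) (nat_lit 85474856248) (nat_lit 76) (nat_lit 85474856248) (nat_lit 102) (nat_lit 3) (nat_lit 101) (nat_lit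 1) (nat_lit 102) (nat_lit 1) (nat_lit 276) (nat_lit 370) (nat_lit 254)) (XT.lf (nat_lit 152) (nat_lit 245275419024) (nat_lit 0) (nat_lit 45091) (nat_lit 76) (nat_lit 45091) (nat_lit 101) (nat_lit 1) (nat_lit 99) (nat_lit 1) (nat_lit 100) (nat_lit 1) (nat_lit 277) (nat_lit 370) (nat_lit 253))))) (XT.nd (nat_lit 234) (nat_lit 228) (nat_lit 0) (XT.nd (nat_lit 78) (nat_lit 228) (nat_lit 0) (XT.lf (nat_lit 0) (nat_lit 77865203431) (nat_lit 0) (nat_lit 77865315948) (nat_lit 152) (nat_lit 77865203431) (nat_lit 99) (nat_lit 3) (nat_lit 99) (nat_lit 1) (nat_lit 101) (nat_lit 1) (nat_lit 278) (nat_lit 370) (nat_lit 252)) (XT.nd (nat_lit 78) (nat_lit 152) (nat_lit 0) (XT.lf (nat_lit 76) (nat_lit 74325846354) (nat_lit 0) (nat_lit 74325944195) (nat_lit 76) (nat_lit 74325944195) (nat_lit 99) (nat_lit 3) (nat_lit 98) (nat_lit 1) (nat_lit 99) (nat_lit 1) (nat_lit 279) (nat_lit 370) (nat_lit 251)) (XT.lf (nat_lit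 152) (nat_lit 213282998171) (nat_lit 0) (nat_lit 25781) (nat_lit 76) (nat_lit 25781) (nat_lit 98) (nat_lit 1) (nat_lit 96) (nat_lit 1) (nat_lit 97) (nat_lit 1) (nat_lit 280) (nat_lit 370) (nat_lit 250)))) (XT.nd (nat_lit 78) (nat_lit 228) (nat_lit 0) (XT.lf (nat_lit 0) (nat_lit 67708883187) (nat_lit 0) (nat_lit 67708947519) (nat_lit 152) (nat_lit 67708883187) (nat_lit 96) (nat_lit 3) (nat_lit 96) (nat_lit 1) (nat_lit 98) (nat_lit 1) (nat_lit 281) (nat_lit 370) (nat_lit 249)) (XT.nd (nat_lit 78) (nat_lit 152) (nat_lit 0) (XT.lf (nat_lit 76) (nat_lit 64631189726) (nat_lit 0) (nat_lit 64631245667) (nat_lit 76) (nat_lit 64631245667) (nat_lit 96) (nat_lit 3) (nat_lit 95) (nat_lit 1) (nat_lit 96) (nat_lit 1) (nat_lit 282) (nat_lit 370) (nat_lit 248)) (XT.lf (nat_lit 152) (nat_lit 185463491025) (nat_lit 0) (nat_lit 14740) (nat_lit 76) (nat_lit 14740) (nat_lit 95) (nat_lit 1) (nat_lit 93) (nat_lit 1) (nat_lit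 94) (nat_lit 1) (nat_lit 283) (nat_lit 370) (nat_lit 247)))))) (XT.nd (nat_lit 390) (nat_lit 456) (nat_lit 0) (XT.nd (nat_lit 156) (nat_lit 228) (nat_lit 0) (XT.nd (nat_lit 78) (nat_lit 76) (nat_lit 0) (XT.lf (nat_lit 0) (nat_lit 58877295810) (nat_lit 0) (nat_lit 58877332592) (nat_lit 152) (nat_lit 58877295810) (nat_lit 93) (nat_lit 3) (nat_lit 93) (nat_lit 1) (nat_lit 95) (nat_lit 1) (nat_lit 284) (nat_lit 370) (nat_lit 246)) (XT.lf (nat_lit 76) (nat_lit 56201045399) (nat_lit 0) (nat_lit 56201077383) (nat_lit 76) (nat_lit 56201077383) (nat_lit 93) (nat_lit 3) (nat_lit 92) (nat_lit 1) (nat_lit 93) (nat_lit 1) (nat_lit 285) (nat_lit 370) (nat_lit 245))) (XT.nd (nat_lit 78) (nat_lit 76) (nat_lit 0) (XT.lf (nat_lit 152) (nat_lit 161272609098) (nat_lit 0) (nat_lit 8428) (nat_lit 76) (nat_lit 8428) (nat_lit 92) (nat_lit 1) (nat_lit 90) (nat_lit 1) (nat_lit 91) (nat_lit 1) (nat_lit 286) (nat_lit 370)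 (nat_lit 244)) (XT.nd (nat_lit 78) (nat_lit 76) (nat_lit 0) (XT.lf (nat_lit 0) (nat_lit 51197652008) (nat_lit 0) (nat_lit 51197673038) (nat_lit 152) (nat_lit 51197652008) (nat_lit 90) (nat_lit 3) (nat_lit 90) (nat_lit 1) (nat_lit 92) (nat_lit 1) (nat_lit 287) (nat_lit 370) (nat_lit 243)) (XT.lf (nat_lit 76) (nat_lit 48870480466) (nat_lit 0) (nat_lit 48870498753) (nat_lit 76) (nat_lit 48870498753) (nat_lit 90) (nat_lit 3) (nat_lit 89) (nat_lit 1) (nat_lit 90) (nat_lit 1) (nat_lit 288) (nat_lit 370) (nat_lit 242))))) (XT.nd (nat_lit 234) (nat_lit 228) (nat_lit 0) (XT.nd (nat_lit 78) (nat_lit 76) (nat_lit 0) (XT.lf (nat_lit 152) (nat_lit 140237056082) (nat_lit 0) (nat_lit 4818) (nat_lit 76) (nat_lit 4818) (nat_lit 89) (nat_lit 1) (nat_lit 87) (nat_lit 1) (nat_lit 88) (nat_lit 1) (nat_lit 289) (nat_lit 370) (nat_lit 241)) (XT.nd (nat_lit 78) (nat_lit 76) (nat_lit 0) (XT.lf (nat_lit 0) (nat_lit 44519699386)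 (nat_lit 0) (nat_lit 44519711410) (nat_lit 152) (nat_lit 44519699386) (nat_lit 87) (nat_lit 3) (nat_lit 87) (nat_lit 1) (nat_lit 89) (nat_lit 1) (nat_lit 290) (nat_lit 370) (nat_lit 240)) (XT.lf (nat_lit 76) (nat_lit 42496073518) (nat_lit 0) (nat_lit 42496083974) (nat_lit 76) (nat_lit 42496083974) (nat_lit 87) (nat_lit 3) (nat_lit 86) (nat_lit 1) (nat_lit 87) (nat_lit 1) (nat_lit 291) (nat_lit 370) (nat_lit 239)))) (XT.nd (nat_lit 78) (nat_lit 76) (nat_lit 0) (XT.lf (nat_lit 152) (nat_lit 121945268841) (nat_lit 0) (nat_lit 2755) (nat_lit 76) (nat_lit 2755) (nat_lit 86) (nat_lit 1) (nat_lit 84) (nat_lit 1) (nat_lit 85) (nat_lit 1) (nat_lit 292) (nat_lit 370) (nat_lit 238)) (XT.nd (nat_lit 78) (nat_lit 76) (nat_lit 0) (XT.lf (nat_lit 0) (nat_lit 38712783212) (nat_lit 0) (nat_lit 38712790086) (nat_lit 152) (nat_lit 38712783212) (nat_lit 84) (nat_lit 3) (nat_lit 84) (nat_lit 1) (nat_lit 86) (nat_lit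 1) (nat_lit 293) (nat_lit 370) (nat_lit 237)) (XT.lf (nat_lit 76) (nat_lit 36953109436) (nat_lit 0) (nat_lit 36953115414) (nat_lit 76) (nat_lit 36953115414) (nat_lit 84) (nat_lit 3) (nat_lit 83) (nat_lit 1) (nat_lit 84) (nat_lit 1) (nat_lit 294) (nat_lit 370) (nat_lit 236))))))))
noncomputable def ec247 : XT := (XT.nd (nat_lit 1716) (nat_lit 1672) (nat_lit 0) (XT.nd (nat_lit 858) (nat_lit 912) (nat_lit 0) (XT.nd (nat_lit 390) (nat_lit 456) (nat_lit 0) (XT.nd (nat_lit 156) (nat_lit 228) (nat_lit 0) (XT.nd (nat_lit 78) (nat_lit 0) (nat_lit 0) (XT.lf (nat_lit 152) (nat_lit 106039365744) (nat_lit 0) (nat_lit 1575) (nat_lit 76) (nat_lit 1575) (nat_lit 83) (nat_lit 1) (nat_lit 81) (nat_lit 1) (nat_lit 82) (nat_lit 1) (nat_lit 295) (nat_lit 370) (nat_lit 235)) (XT.lf (nat_lit 0) (nat_lit 33663290399) (nat_lit 0) (nat_lit 33663294330) (nat_lit 152) (nat_lit 33663290399) (nat_lit 81) (nat_lit 3) (nat_lit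 81) (nat_lit 1) (nat_lit 83) (nat_lit 1) (nat_lit 296) (nat_lit 370) (nat_lit 234))) (XT.nd (nat_lit 78) (nat_lit 152) (nat_lit 0) (XT.lf (nat_lit 76) (nat_lit 32133139800) (nat_lit 0) (nat_lit 32133143218) (nat_lit 76) (nat_lit 32133143218) (nat_lit 81) (nat_lit 3) (nat_lit 80) (nat_lit 1) (nat_lit 81) (nat_lit 1) (nat_lit 297) (nat_lit 370) (nat_lit 233)) (XT.nd (nat_lit 78) (nat_lit 0) (nat_lit 0) (XT.lf (nat_lit 152) (nat_lit 92208145002) (nat_lit 0) (nat_lit 900) (nat_lit 76) (nat_lit 900) (nat_lit 80) (nat_lit 1) (nat_lit 78) (nat_lit 1) (nat_lit 79) (nat_lit 1) (nat_lit 298) (nat_lit 370) (nat_lit 232)) (XT.lf (nat_lit 0) (nat_lit 29272426806) (nat_lit 0) (nat_lit 29272429053) (nat_lit 152) (nat_lit 29272426806) (nat_lit 78) (nat_lit 3) (nat_lit 78) (nat_lit 1) (nat_lit 80) (nat_lit 1) (nat_lit 299) (nat_lit 370) (nat_lit 231))))) (XT.nd (nat_lit 234) (nat_lit 228) (nat_lit 0) (XT.nd (nat_lit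 78) (nat_lit 152) (nat_lit 0) (XT.lf (nat_lit 76) (nat_lit 27941861359) (nat_lit 0) (nat_lit 27941863313) (nat_lit 76) (nat_lit 27941863313) (nat_lit 78) (nat_lit 3) (nat_lit 77) (nat_lit 1) (nat_lit 78) (nat_lit 1) (nat_lit 300) (nat_lit 370) (nat_lit 230)) (XT.nd (nat_lit 78) (nat_lit 0) (nat_lit 0) (XT.lf (nat_lit 152) (nat_lit 80180996155) (nat_lit 0) (nat_lit 514) (nat_lit 76) (nat_lit 514) (nat_lit 77) (nat_lit 1) (nat_lit 75) (nat_lit 1) (nat_lit 76) (nat_lit 1) (nat_lit 301) (nat_lit 370) (nat_lit 229)) (XT.lf (nat_lit 0) (nat_lit 25454284391) (nat_lit 0) (nat_lit 25454285676) (nat_lit 152) (nat_lit 25454284391) (nat_lit 75) (nat_lit 3) (nat_lit 75) (nat_lit 1) (nat_lit 77) (nat_lit 1) (nat_lit 302) (nat_lit 370) (nat_lit 228)))) (XT.nd (nat_lit 78) (nat_lit 152) (nat_lit 0) (XT.lf (nat_lit 76) (nat_lit 24297271126) (nat_lit 0) (nat_lit 24297272243) (nat_lit 76) (nat_lit 24297272243) (nat_lit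 75) (nat_lit 3) (nat_lit 74) (nat_lit 1) (nat_lit 75) (nat_lit 1) (nat_lit 303) (nat_lit 370) (nat_lit 227)) (XT.nd (nat_lit 78) (nat_lit 0) (nat_lit 0) (XT.lf (nat_lit 152) (nat_lit 69722605639) (nat_lit 0) (nat_lit 294) (nat_lit 76) (nat_lit 294) (nat_lit 74) (nat_lit 1) (nat_lit 72) (nat_lit 1) (nat_lit 73) (nat_lit 1) (nat_lit 304) (nat_lit 370) (nat_lit 226)) (XT.lf (nat_lit 0) (nat_lit 22134160462) (nat_lit 0) (nat_lit 22134161196) (nat_lit 152) (nat_lit 22134160462) (nat_lit 72) (nat_lit 3) (nat_lit 72) (nat_lit 1) (nat_lit 74) (nat_lit 1) (nat_lit 305) (nat_lit 370) (nat_lit 225)))))) (XT.nd (nat_lit 390) (nat_lit 456) (nat_lit 0) (XT.nd (nat_lit 156) (nat_lit 228) (nat_lit 0) (XT.nd (nat_lit 78) (nat_lit 152) (nat_lit 0) (XT.lf (nat_lit 76) (nat_lit 21128062065) (nat_lit 0) (nat_lit 21128062704) (nat_lit 76) (nat_lit 21128062704) (nat_lit 72) (nat_lit 3) (nat_lit 71) (nat_lit 1) (nat_lit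 72) (nat_lit 1) (nat_lit 306) (nat_lit 370) (nat_lit 224)) (XT.lf (nat_lit 152) (nat_lit 60628352894) (nat_lit 0) (nat_lit 168) (nat_lit 76) (nat_lit 168) (nat_lit 71) (nat_lit 1) (nat_lit 69) (nat_lit 1) (nat_lit 70) (nat_lit 1) (nat_lit 307) (nat_lit 370) (nat_lit 223))) (XT.nd (nat_lit 78) (nat_lit 228) (nat_lit 0) (XT.lf (nat_lit 0) (nat_lit 19247096123) (nat_lit 0) (nat_lit 19247096543) (nat_lit 152) (nat_lit 19247096123) (nat_lit 69) (nat_lit 3) (nat_lit 69) (nat_lit 1) (nat_lit 71) (nat_lit 1) (nat_lit 308) (nat_lit 370) (nat_lit 222)) (XT.nd (nat_lit 78) (nat_lit 152) (nat_lit 0) (XT.lf (nat_lit 76) (nat_lit 18372228007) (nat_lit 0) (nat_lit 18372228372) (nat_lit 76) (nat_lit 18372228372) (nat_lit 69) (nat_lit 3) (nat_lit 68) (nat_lit 1) (nat_lit 69) (nat_lit 1) (nat_lit 309) (nat_lit 370) (nat_lit 221)) (XT.lf (nat_lit 152) (nat_lit 52720306958) (nat_lit 0) (nat_lit 96) (nat_lit 76) (nat_lit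 96) (nat_lit 68) (nat_lit 1) (nat_lit 66) (nat_lit 1) (nat_lit 67) (nat_lit 1) (nat_lit 310) (nat_lit 370) (nat_lit 220))))) (XT.nd (nat_lit 234) (nat_lit 228) (nat_lit 0) (XT.nd (nat_lit 78) (nat_lit 228) (nat_lit 0) (XT.lf (nat_lit 0) (nat_lit 16736605364) (nat_lit 0) (nat_lit 16736605604) (nat_lit 152) (nat_lit 16736605364) (nat_lit 66) (nat_lit 3) (nat_lit 66) (nat_lit 1) (nat_lit 68) (nat_lit 1) (nat_lit 311) (nat_lit 370) (nat_lit 219)) (XT.nd (nat_lit 78) (nat_lit 152) (nat_lit 0) (XT.lf (nat_lit 76) (nat_lit 15975850511) (nat_lit 0) (nat_lit 15975850720) (nat_lit 76) (nat_lit 15975850720) (nat_lit 66) (nat_lit 3) (nat_lit 65) (nat_lit 1) (nat_lit 66) (nat_lit 1) (nat_lit 312) (nat_lit 370) (nat_lit 218)) (XT.lf (nat_lit 152) (nat_lit 45843745234) (nat_lit 0) (nat_lit 55) (nat_lit 76) (nat_lit 55) (nat_lit 65) (nat_lit 1) (nat_lit 63) (nat_lit 1) (nat_lit 64) (nat_lit 1) (nat_lit 313) (nat_lit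 370) (nat_lit 217)))) (XT.nd (nat_lit 78) (nat_lit 228) (nat_lit 0) (XT.lf (nat_lit 0) (nat_lit 14553569904) (nat_lit 0) (nat_lit 14553570042) (nat_lit 152) (nat_lit 14553569904) (nat_lit 63) (nat_lit 3) (nat_lit 63) (nat_lit 1) (nat_lit 65) (nat_lit 1) (nat_lit 314) (nat_lit 370) (nat_lit 216)) (XT.nd (nat_lit 78) (nat_lit 152) (nat_lit 0) (XT.lf (nat_lit 76) (nat_lit 13892043963) (nat_lit 0) (nat_lit 13892044083) (nat_lit 76) (nat_lit 13892044083) (nat_lit 63) (nat_lit 3) (nat_lit 62) (nat_lit 1) (nat_lit 63) (nat_lit 1) (nat_lit 315) (nat_lit 370) (nat_lit 215)) (XT.lf (nat_lit 152) (nat_lit 39864126321) (nat_lit 0) (nat_lit 31) (nat_lit 76) (nat_lit 31) (nat_lit 62) (nat_lit 1) (nat_lit 60) (nat_lit 1) (nat_lit 61) (nat_lit 1) (nat_lit 316) (nat_lit 370) (nat_lit 214))))))) (XT.nd (nat_lit 858) (nat_lit 912) (nat_lit 0) (XT.nd (nat_lit 390) (nat_lit 456) (nat_lit 0) (XT.nd (nat_lit 156) (nat_lit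 228) (nat_lit 0) (XT.nd (nat_lit 78) (nat_lit 76) (nat_lit 0) (XT.lf (nat_lit 0) (nat_lit 12655278191) (nat_lit 0) (nat_lit 12655278269) (nat_lit 152) (nat_lit 12655278191) (nat_lit 60) (nat_lit 3) (nat_lit 60) (nat_lit 1) (nat_lit 62) (nat_lit 1) (nat_lit 317) (nat_lit 370) (nat_lit 213)) (XT.lf (nat_lit 76) (nat_lit 12080038252) (nat_lit 0) (nat_lit 12080038320) (nat_lit 76) (nat_lit 12080038320) (nat_lit 60) (nat_lit 3) (nat_lit 59) (nat_lit 1) (nat_lit 60) (nat_lit 1) (nat_lit 318) (nat_lit 370) (nat_lit 212))) (XT.nd (nat_lit 78) (nat_lit 76) (nat_lit 0) (XT.lf (nat_lit 152) (nat_lit 34664457688) (nat_lit 0) (nat_lit 17) (nat_lit 76) (nat_lit 17) (nat_lit 59) (nat_lit 1) (nat_lit 57) (nat_lit 1) (nat_lit 58) (nat_lit 1) (nat_lit 319) (nat_lit 370) (nat_lit 211)) (XT.nd (nat_lit 78) (nat_lit 76) (nat_lit 0) (XT.lf (nat_lit 0) (nat_lit 11004589738) (nat_lit 0) (nat_lit 11004589783) (nat_lit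 152) (nat_lit 11004589738) (nat_lit 57) (nat_lit 3) (nat_lit 57) (nat_lit 1) (nat_lit 59) (nat_lit 1) (nat_lit 320) (nat_lit 370) (nat_lit 210)) (XT.lf (nat_lit 76) (nat_lit 10504381102) (nat_lit 0) (nat_lit 10504381141) (nat_lit 76) (nat_lit 10504381141) (nat_lit 57) (nat_lit 3) (nat_lit 56) (nat_lit 1) (nat_lit 57) (nat_lit 1) (nat_lit 321) (nat_lit 370) (nat_lit 209))))) (XT.nd (nat_lit 234) (nat_lit 228) (nat_lit 0) (XT.nd (nat_lit 78) (nat_lit 76) (nat_lit 0) (XT.lf (nat_lit 152) (nat_lit 30143006695) (nat_lit 0) (nat_lit 10) (nat_lit 76) (nat_lit 10) (nat_lit 56) (nat_lit 1) (nat_lit 54) (nat_lit 1) (nat_lit 55) (nat_lit 1) (nat_lit 322) (nat_lit 370) (nat_lit 208)) (XT.nd (nat_lit 78) (nat_lit 76) (nat_lit 0) (XT.lf (nat_lit 0) (nat_lit 9569208472) (nat_lit 0) (nat_lit 9569208498) (nat_lit 152) (nat_lit 9569208472) (nat_lit 54) (nat_lit 3) (nat_lit 54) (nat_lit 1) (nat_lit 56) (nat_lit 1)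 (nat_lit 323) (nat_lit 370) (nat_lit 207)) (XT.lf (nat_lit 76) (nat_lit 9134244444) (nat_lit 0) (nat_lit 9134244466) (nat_lit 76) (nat_lit 9134244466) (nat_lit 54) (nat_lit 3) (nat_lit 53) (nat_lit 1) (nat_lit 54) (nat_lit 1) (nat_lit 324) (nat_lit 370) (nat_lit 206)))) (XT.nd (nat_lit 78) (nat_lit 76) (nat_lit 0) (XT.lf (nat_lit 152) (nat_lit 26211310175) (nat_lit 0) (nat_lit 5) (nat_lit 76) (nat_lit 5) (nat_lit 53) (nat_lit 1) (nat_lit 51) (nat_lit 1) (nat_lit 52) (nat_lit 1) (nat_lit 325) (nat_lit 370) (nat_lit 205)) (XT.nd (nat_lit 78) (nat_lit 76) (nat_lit 0) (XT.lf (nat_lit 0) (nat_lit 8321050848) (nat_lit 0) (nat_lit 8321050862) (nat_lit 152) (nat_lit 8321050848) (nat_lit 51) (nat_lit 3) (nat_lit 51) (nat_lit 1) (nat_lit 53) (nat_lit 1) (nat_lit 326) (nat_lit 370) (nat_lit 204)) (XT.lf (nat_lit 76) (nat_lit 7942821260) (nat_lit 0) (nat_lit 7942821273) (nat_lit 76) (nat_lit 7942821273) (nat_lit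 51) (nat_lit 3) (nat_lit 50) (nat_lit 1) (nat_lit 51) (nat_lit 1) (nat_lit 327) (nat_lit 370) (nat_lit 203)))))) (XT.nd (nat_lit 468) (nat_lit 456) (nat_lit 0) (XT.nd (nat_lit 234) (nat_lit 228) (nat_lit 0) (XT.nd (nat_lit 78) (nat_lit 76) (nat_lit 0) (XT.lf (nat_lit 152) (nat_lit 22792443634) (nat_lit 0) (nat_lit 3) (nat_lit 76) (nat_lit 3) (nat_lit 50) (nat_lit 1) (nat_lit 48) (nat_lit 1) (nat_lit 49) (nat_lit 1) (nat_lit 328) (nat_lit 370) (nat_lit 202)) (XT.nd (nat_lit 78) (nat_lit 76) (nat_lit 0) (XT.lf (nat_lit 0) (nat_lit 7235696391) (nat_lit 0) (nat_lit 7235696399) (nat_lit 152) (nat_lit 7235696391) (nat_lit 48) (nat_lit 3) (nat_lit 48) (nat_lit 1) (nat_lit 50) (nat_lit 1) (nat_lit 329) (nat_lit 370) (nat_lit 201)) (XT.lf (nat_lit 76) (nat_lit 6906801098) (nat_lit 0) (nat_lit 6906801105) (nat_lit 76) (nat_lit 6906801105) (nat_lit 48) (nat_lit 3) (nat_lit 47) (nat_lit 1) (nat_lit 48) (nat_lit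 1) (nat_lit 330) (nat_lit 370) (nat_lit 200)))) (XT.nd (nat_lit 78) (nat_lit 76) (nat_lit 0) (XT.lf (nat_lit 152) (nat_lit 19819516205) (nat_lit 0) (nat_lit 1) (nat_lit 76) (nat_lit 1) (nat_lit 47) (nat_lit 1) (nat_lit 45) (nat_lit 1) (nat_lit 46) (nat_lit 1) (nat_lit 331) (nat_lit 370) (nat_lit 199)) (XT.nd (nat_lit 78) (nat_lit 76) (nat_lit 0) (XT.lf (nat_lit 0) (nat_lit 6291909906) (nat_lit 0) (nat_lit 6291909910) (nat_lit 152) (nat_lit 6291909906) (nat_lit 45) (nat_lit 3) (nat_lit 45) (nat_lit 1) (nat_lit 47) (nat_lit 1) (nat_lit 332) (nat_lit 370) (nat_lit 198)) (XT.lf (nat_lit 76) (nat_lit 6005914000) (nat_lit 0) (nat_lit 6005914004) (nat_lit 76) (nat_lit 6005914004) (nat_lit 45) (nat_lit 3) (nat_lit 44) (nat_lit 1) (nat_lit 45) (nat_lit 1) (nat_lit 333) (nat_lit 370) (nat_lit 197))))) (XT.nd (nat_lit 234) (nat_lit 228) (nat_lit 0) (XT.nd (nat_lit 78) (nat_lit 76) (nat_lit 0) (XT.lf (nat_lit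 152) (nat_lit 17234361919) (nat_lit 0) (nat_lit 1) (nat_lit 76) (nat_lit 1) (nat_lit 44) (nat_lit 1) (nat_lit 42) (nat_lit 1) (nat_lit 43) (nat_lit 1) (nat_lit 334) (nat_lit 370) (nat_lit 196)) (XT.nd (nat_lit 78) (nat_lit 76) (nat_lit 0) (XT.lf (nat_lit 0) (nat_lit 5471226005) (nat_lit 0) (nat_lit 5471226008) (nat_lit 152) (nat_lit 5471226005) (nat_lit 42) (nat_lit 3) (nat_lit 42) (nat_lit 1) (nat_lit 44) (nat_lit 1) (nat_lit 335) (nat_lit 370) (nat_lit 195)) (XT.lf (nat_lit 76) (nat_lit 5222533913) (nat_lit 0) (nat_lit 5222533916) (nat_lit 76) (nat_lit 5222533916) (nat_lit 42) (nat_lit 3) (nat_lit 41) (nat_lit 1) (nat_lit 42) (nat_lit 1) (nat_lit 336) (nat_lit 370) (nat_lit 194)))) (XT.nd (nat_lit 78) (nat_lit 228) (nat_lit 0) (XT.lf (nat_lit 0) (nat_lit 14986401669) (nat_lit 0) (nat_lit 0) (nat_lit 0) (nat_lit 0) (nat_lit 41) (nat_lit 1) (nat_lit 1) (nat_lit 0) (nat_lit 1) (nat_lit 0) (nat_lit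 337) (nat_lit 370) (nat_lit 193)) (XT.nd (nat_lit 78) (nat_lit 76) (nat_lit 0) (XT.lf (nat_lit 0) (nat_lit 4757587831) (nat_lit 0) (nat_lit 4757587832) (nat_lit 152) (nat_lit 4757587831) (nat_lit 39) (nat_lit 3) (nat_lit 39) (nat_lit 1) (nat_lit 41) (nat_lit 1) (nat_lit 338) (nat_lit 370) (nat_lit 192)) (XT.lf (nat_lit 76) (nat_lit 4541333838) (nat_lit 0) (nat_lit 4541333840) (nat_lit 76) (nat_lit 4541333840) (nat_lit 39) (nat_lit 3) (nat_lit 38) (nat_lit 1) (nat_lit 39) (nat_lit 1) (nat_lit 339) (nat_lit 370) (nat_lit 191))))))))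
noncomputable def ec248 : XT := (XT.nd (nat_lit 1716) (nat_lit 912) (nat_lit 0) (XT.nd (nat_lit 858) (nat_lit 760) (nat_lit 0) (XT.nd (nat_lit 390) (nat_lit 456) (nat_lit 0) (XT.nd (nat_lit 156) (nat_lit 228) (nat_lit 0) (XT.nd (nat_lit 78) (nat_lit 152) (nat_lit 0) (XT.lf (nat_lit 0) (nat_lit 13031653625) (nat_lit 0) (nat_lit 0) (nat_lit 0) (nat_lit 0) (nat_lit 38) (nat_lit 1) (nat_lit 1) (nat_lit 0) (nat_lit 1) (nat_lit 0) (nat_lit 340) (nat_lit 370) (nat_lit 190)) (XT.lf (nat_lit 0) (nat_lit 4137032897) (nat_lit 0) (nat_lit 4137032897) (nat_lit 152) (nat_lit 4137032897) (nat_lit 36) (nat_lit 3) (nat_lit 36) (nat_lit 1) (nat_lit 38) (nat_lit 1) (nat_lit 341) (nat_lit 370) (nat_lit 189))) (XT.nd (nat_lit 78) (nat_lit 152) (nat_lit 0) (XT.lf (nat_lit 76) (nat_lit 3948985946) (nat_lit 0) (nat_lit 3948985947) (nat_lit 76) (nat_lit 3948985947) (nat_lit 36) (nat_lit 3) (nat_lit 35) (nat_lit 1) (nat_lit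 36) (nat_lit 1) (nat_lit 342) (nat_lit 370) (nat_lit 188)) (XT.nd (nat_lit 78) (nat_lit 152) (nat_lit 0) (XT.lf (nat_lit 0) (nat_lit 11331872718) (nat_lit 0) (nat_lit 0) (nat_lit 0) (nat_lit 0) (nat_lit 35) (nat_lit 1) (nat_lit 1) (nat_lit 0) (nat_lit 1) (nat_lit 0) (nat_lit 343) (nat_lit 370) (nat_lit 187)) (XT.lf (nat_lit 0) (nat_lit 3597419910) (nat_lit 0) (nat_lit 3597419911) (nat_lit 152) (nat_lit 3597419910) (nat_lit 33) (nat_lit 3) (nat_lit 33) (nat_lit 1) (nat_lit 35) (nat_lit 1) (nat_lit 344) (nat_lit 370) (nat_lit 186))))) (XT.nd (nat_lit 234) (nat_lit 228) (nat_lit 0) (XT.nd (nat_lit 78) (nat_lit 152) (nat_lit 0) (XT.lf (nat_lit 76) (nat_lit 3433900823) (nat_lit 0) (nat_lit 3433900824) (nat_lit 76) (nat_lit 3433900824) (nat_lit 33) (nat_lit 3) (nat_lit 32) (nat_lit 1) (nat_lit 33) (nat_lit 1) (nat_lit 345) (nat_lit 370) (nat_lit 185)) (XT.nd (nat_lit 78) (nat_lit 152) (nat_lit 0) (XT.lf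 (nat_lit 0) (nat_lit 9853802363) (nat_lit 0) (nat_lit 0) (nat_lit 0) (nat_lit 0) (nat_lit 32) (nat_lit 1) (nat_lit 1) (nat_lit 0) (nat_lit 1) (nat_lit 0) (nat_lit 346) (nat_lit 370) (nat_lit 184)) (XT.lf (nat_lit 0) (nat_lit 3128191226) (nat_lit 0) (nat_lit 3128191226) (nat_lit 152) (nat_lit 3128191226) (nat_lit 30) (nat_lit 3) (nat_lit 30) (nat_lit 1) (nat_lit 32) (nat_lit 1) (nat_lit 347) (nat_lit 370) (nat_lit 183)))) (XT.nd (nat_lit 78) (nat_lit 152) (nat_lit 0) (XT.lf (nat_lit 76) (nat_lit 2986000716) (nat_lit 0) (nat_lit 2986000716) (nat_lit 76) (nat_lit 2986000716) (nat_lit 30) (nat_lit 3) (nat_lit 29) (nat_lit 1) (nat_lit 30) (nat_lit 1) (nat_lit 348) (nat_lit 370) (nat_lit 182)) (XT.nd (nat_lit 78) (nat_lit 152) (nat_lit 0) (XT.lf (nat_lit 0) (nat_lit 8568523794) (nat_lit 0) (nat_lit 0) (nat_lit 0) (nat_lit 0) (nat_lit 29) (nat_lit 1) (nat_lit 1) (nat_lit 0) (nat_lit 1) (nat_lit 0) (nat_lit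 349) (nat_lit 370) (nat_lit 181)) (XT.lf (nat_lit 0) (nat_lit 2720166284) (nat_lit 0) (nat_lit 2720166284) (nat_lit 152) (nat_lit 2720166284) (nat_lit 27) (nat_lit 3) (nat_lit 27) (nat_lit 1) (nat_lit 29) (nat_lit 1) (nat_lit 350) (nat_lit 370) (nat_lit 180)))))) (XT.nd (nat_lit 390) (nat_lit 456) (nat_lit 0) (XT.nd (nat_lit 156) (nat_lit 228) (nat_lit 0) (XT.nd (nat_lit 78) (nat_lit 0) (nat_lit 0) (XT.lf (nat_lit 76) (nat_lit 2596522361) (nat_lit 0) (nat_lit 2596522362) (nat_lit 76) (nat_lit 2596522362) (nat_lit 27) (nat_lit 3) (nat_lit 26) (nat_lit 1) (nat_lit 27) (nat_lit 1) (nat_lit 351) (nat_lit 370) (nat_lit 179)) (XT.lf (nat_lit 0) (nat_lit 7450890256) (nat_lit 0) (nat_lit 0) (nat_lit 0) (nat_lit 0) (nat_lit 26) (nat_lit 1) (nat_lit 1) (nat_lit 0) (nat_lit 1) (nat_lit 0) (nat_lit 352) (nat_lit 370) (nat_lit 178))) (XT.nd (nat_lit 78) (nat_lit 76) (nat_lit 0) (XT.lf (nat_lit 0) (nat_lit 2365361986)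 (nat_lit 0) (nat_lit 2365361986) (nat_lit 152) (nat_lit 2365361986) (nat_lit 24) (nat_lit 3) (nat_lit 24) (nat_lit 1) (nat_lit 26) (nat_lit 1) (nat_lit 353) (nat_lit 370) (nat_lit 177)) (XT.nd (nat_lit 78) (nat_lit 0) (nat_lit 0) (XT.lf (nat_lit 76) (nat_lit 2257845532) (nat_lit 0) (nat_lit 2257845532) (nat_lit 76) (nat_lit 2257845532) (nat_lit 24) (nat_lit 3) (nat_lit 23) (nat_lit 1) (nat_lit 24) (nat_lit 1) (nat_lit 354) (nat_lit 370) (nat_lit 176)) (XT.lf (nat_lit 0) (nat_lit 6479035005) (nat_lit 0) (nat_lit 0) (nat_lit 0) (nat_lit 0) (nat_lit 23) (nat_lit 1) (nat_lit 1) (nat_lit 0) (nat_lit 1) (nat_lit 0) (nat_lit 355) (nat_lit 370) (nat_lit 175))))) (XT.nd (nat_lit 234) (nat_lit 228) (nat_lit 0) (XT.nd (nat_lit 78) (nat_lit 76) (nat_lit 0) (XT.lf (nat_lit 0) (nat_lit 2056836509) (nat_lit 0) (nat_lit 2056836509) (nat_lit 152) (nat_lit 2056836509) (nat_lit 21) (nat_lit 3) (nat_lit 21) (nat_lit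 1) (nat_lit 23) (nat_lit 1) (nat_lit 356) (nat_lit 370) (nat_lit 174)) (XT.nd (nat_lit 78) (nat_lit 0) (nat_lit 0) (XT.lf (nat_lit 76) (nat_lit 1963343941) (nat_lit 0) (nat_lit 1963343941) (nat_lit 76) (nat_lit 1963343941) (nat_lit 21) (nat_lit 3) (nat_lit 20) (nat_lit 1) (nat_lit 21) (nat_lit 1) (nat_lit 357) (nat_lit 370) (nat_lit 173)) (XT.lf (nat_lit 0) (nat_lit 5633943483) (nat_lit 0) (nat_lit 0) (nat_lit 0) (nat_lit 0) (nat_lit 20) (nat_lit 1) (nat_lit 1) (nat_lit 0) (nat_lit 1) (nat_lit 0) (nat_lit 358) (nat_lit 370) (nat_lit 172)))) (XT.nd (nat_lit 78) (nat_lit 76) (nat_lit 0) (XT.lf (nat_lit 0) (nat_lit 1788553486) (nat_lit 0) (nat_lit 1788553486) (nat_lit 152) (nat_lit 1788553486) (nat_lit 18) (nat_lit 3) (nat_lit 18) (nat_lit 1) (nat_lit 20) (nat_lit 1) (nat_lit 359) (nat_lit 370) (nat_lit 171)) (XT.nd (nat_lit 78) (nat_lit 0) (nat_lit 0) (XT.lf (nat_lit 76) (nat_lit 1707255600) (nat_lit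 0) (nat_lit 1707255600) (nat_lit 76) (nat_lit 1707255600) (nat_lit 18) (nat_lit 3) (nat_lit 17) (nat_lit 1) (nat_lit 18) (nat_lit 1) (nat_lit 360) (nat_lit 370) (nat_lit 170)) (XT.lf (nat_lit 0) (nat_lit 4899081289) (nat_lit 0) (nat_lit 0) (nat_lit 0) (nat_lit 0) (nat_lit 17) (nat_lit 1) (nat_lit 1) (nat_lit 0) (nat_lit 1) (nat_lit 0) (nat_lit 361) (nat_lit 370) (nat_lit 169))))))) (XT.nd (nat_lit 30966) (nat_lit 0) (nat_lit 15276) (XT.nd (nat_lit 390) (nat_lit 456) (nat_lit 0) (XT.nd (nat_lit 156) (nat_lit 228) (nat_lit 0) (XT.nd (nat_lit 78) (nat_lit 76) (nat_lit 0) (XT.lf (nat_lit 0) (nat_lit 1555263901) (nat_lit 0) (nat_lit 1555263901) (nat_lit 152) (nat_lit 1555263901) (nat_lit 15) (nat_lit 3) (nat_lit 15) (nat_lit 1) (nat_lit 17) (nat_lit 1) (nat_lit 362) (nat_lit 370) (nat_lit 168)) (XT.lf (nat_lit 76) (nat_lit 1484570087) (nat_lit 0) (nat_lit 1484570087) (nat_lit 76) (nat_lit 1484570087)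 (nat_lit 15) (nat_lit 3) (nat_lit 14) (nat_lit 1) (nat_lit 15) (nat_lit 1) (nat_lit 363) (nat_lit 370) (nat_lit 167))) (XT.nd (nat_lit 78) (nat_lit 228) (nat_lit 0) (XT.lf (nat_lit 0) (nat_lit 4260070686) (nat_lit 0) (nat_lit 0) (nat_lit 0) (nat_lit 0) (nat_lit 14) (nat_lit 1) (nat_lit 1) (nat_lit 0) (nat_lit 1) (nat_lit 0) (nat_lit 364) (nat_lit 370) (nat_lit 166)) (XT.nd (nat_lit 78) (nat_lit 76) (nat_lit 0) (XT.lf (nat_lit 0) (nat_lit 1352403392) (nat_lit 0) (nat_lit 1352403392) (nat_lit 152) (nat_lit 1352403392) (nat_lit 12) (nat_lit 3) (nat_lit 12) (nat_lit 1) (nat_lit 14) (nat_lit 1) (nat_lit 365) (nat_lit 370) (nat_lit 165)) (XT.lf (nat_lit 76) (nat_lit 1290930511) (nat_lit 0) (nat_lit 1290930511) (nat_lit 76) (nat_lit 1290930511) (nat_lit 12) (nat_lit 3) (nat_lit 11) (nat_lit 1) (nat_lit 12) (nat_lit 1) (nat_lit 366) (nat_lit 370) (nat_lit 164))))) (XT.nd (nat_lit 234) (nat_lit 228) (nat_lit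 0) (XT.nd (nat_lit 78) (nat_lit 228) (nat_lit 0) (XT.lf (nat_lit 0) (nat_lit 3704409292) (nat_lit 0) (nat_lit 0) (nat_lit 0) (nat_lit 0) (nat_lit 11) (nat_lit 1) (nat_lit 1) (nat_lit 0) (nat_lit 1) (nat_lit 0) (nat_lit 367) (nat_lit 370) (nat_lit 163)) (XT.nd (nat_lit 78) (nat_lit 76) (nat_lit 0) (XT.lf (nat_lit 0) (nat_lit 1176002950) (nat_lit 0) (nat_lit 1176002950) (nat_lit 152) (nat_lit 1176002950) (nat_lit 9) (nat_lit 3) (nat_lit 9) (nat_lit 1) (nat_lit 11) (nat_lit 1) (nat_lit 368) (nat_lit 370) (nat_lit 162)) (XT.lf (nat_lit 76) (nat_lit 1122548270) (nat_lit 0) (nat_lit 1122548270) (nat_lit 76) (nat_lit 1122548270) (nat_lit 9) (nat_lit 3) (nat_lit 8) (nat_lit 1) (nat_lit 9) (nat_lit 1) (nat_lit 369) (nat_lit 370) (nat_lit 161)))) (XT.nd (nat_lit 78) (nat_lit 228) (nat_lit 0) (XT.lf (nat_lit 0) (nat_lit 3221225471) (nat_lit 0) (nat_lit 0) (nat_lit 0) (nat_lit 0) (nat_lit 8) (nat_lit 1) (nat_lit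 1) (nat_lit 0) (nat_lit 1) (nat_lit 0) (nat_lit 370) (nat_lit 370) (nat_lit 160)) (XT.nd (nat_lit 78) (nat_lit 76) (nat_lit 0) (XT.lf (nat_lit 0) (nat_lit 1022611260) (nat_lit 0) (nat_lit 1022611260) (nat_lit 152) (nat_lit 1022611260) (nat_lit 6) (nat_lit 3) (nat_lit 6) (nat_lit 1) (nat_lit 8) (nat_lit 1) (nat_lit 371) (nat_lit 370) (nat_lit 159)) (XT.lf (nat_lit 76) (nat_lit 976128930) (nat_lit 0) (nat_lit 976128930) (nat_lit 76) (nat_lit 976128930) (nat_lit 6) (nat_lit 3) (nat_lit 5) (nat_lit 1) (nat_lit 6) (nat_lit 1) (nat_lit 372) (nat_lit 370) (nat_lit 158)))))) (XT.nd (nat_lit 390) (nat_lit 684) (nat_lit 0) (XT.nd (nat_lit 156) (nat_lit 0) (nat_lit 76) (XT.nd (nat_lit 78) (nat_lit 0) (nat_lit 0) (XT.lf (nat_lit 380) (nat_lit 14311036955210) (nat_lit 0) (nat_lit 12675637646900) (nat_lit 380) (nat_lit 14311036955210) (nat_lit 220) (nat_lit 1) (nat_lit 215) (nat_lit 0) (nat_lit 220) (nat_lit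 0) (nat_lit 158) (nat_lit 371) (nat_lit 371)) (XT.lf (nat_lit 380) (nat_lit 52934668484941) (nat_lit 76) (nat_lit 12099472299313) (nat_lit 0) (nat_lit 12099472299314) (nat_lit 220) (nat_lit 1) (nat_lit 216) (nat_lit 1) (nat_lit 215) (nat_lit 0) (nat_lit 159) (nat_lit 371) (nat_lit 370))) (XT.nd (nat_lit 78) (nat_lit 0) (nat_lit 0) (XT.lf (nat_lit 380) (nat_lit 23333298325045) (nat_lit 0) (nat_lit 25388829645680) (nat_lit 304) (nat_lit 23333298325045) (nat_lit 221) (nat_lit 1) (nat_lit 216) (nat_lit 1) (nat_lit 220) (nat_lit 1) (nat_lit 160) (nat_lit 371) (nat_lit 369)) (XT.nd (nat_lit 78) (nat_lit 0) (nat_lit 76) (XT.lf (nat_lit 380) (nat_lit 40062061691227) (nat_lit 76) (nat_lit 13713511674239) (nat_lit 0) (nat_lit 13713511674240) (nat_lit 221) (nat_lit 1) (nat_lit 217) (nat_lit 1) (nat_lit 216) (nat_lit 1) (nat_lit 161) (nat_lit 371) (nat_lit 368)) (XT.lf (nat_lit 76) (nat_lit 16205635295281)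 (nat_lit 0) (nat_lit 30858250240820) (nat_lit 304) (nat_lit 16205635295282) (nat_lit 218) (nat_lit 1) (nat_lit 217) (nat_lit 1) (nat_lit 221) (nat_lit 1) (nat_lit 162) (nat_lit 371) (nat_lit 367))))) (XT.nd (nat_lit 234) (nat_lit 380) (nat_lit 0) (XT.nd (nat_lit 78) (nat_lit 152) (nat_lit 0) (XT.lf (nat_lit 380) (nat_lit 24355761025680) (nat_lit 0) (nat_lit 17530809742392) (nat_lit 304) (nat_lit 17530809742392) (nat_lit 218) (nat_lit 1) (nat_lit 213) (nat_lit 1) (nat_lit 217) (nat_lit 1) (nat_lit 163) (nat_lit 371) (nat_lit 366)) (XT.nd (nat_lit 78) (nat_lit 152) (nat_lit 0) (XT.lf (nat_lit 76) (nat_lit 8095585977807) (nat_lit 0) (nat_lit 39725243300476) (nat_lit 380) (nat_lit 8095585977807) (nat_lit 214) (nat_lit 1) (nat_lit 213) (nat_lit 1) (nat_lit 218) (nat_lit 1) (nat_lit 164) (nat_lit 371) (nat_lit 365)) (XT.lf (nat_lit 228) (nat_lit 7285836408698) (nat_lit 0) (nat_lit 22675368038492) (nat_lit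 152) (nat_lit 22675368038492) (nat_lit 214) (nat_lit 1) (nat_lit 211) (nat_lit 1) (nat_lit 213) (nat_lit 1) (nat_lit 165) (nat_lit 371) (nat_lit 364)))) (XT.nd (nat_lit 78) (nat_lit 152) (nat_lit 0) (XT.lf (nat_lit 228) (nat_lit 48960728991177) (nat_lit 0) (nat_lit 384146424608) (nat_lit 152) (nat_lit 384146424608) (nat_lit 211) (nat_lit 1) (nat_lit 208) (nat_lit 1) (nat_lit 210) (nat_lit 1) (nat_lit 166) (nat_lit 371) (nat_lit 363)) (XT.nd (nat_lit 78) (nat_lit 152) (nat_lit 0) (XT.lf (nat_lit 76) (nat_lit 18811025024244) (nat_lit 0) (nat_lit 9235211982885) (nat_lit 228) (nat_lit 18811025024244) (nat_lit 209) (nat_lit 1) (nat_lit 208) (nat_lit 1) (nat_lit 211) (nat_lit 1) (nat_lit 167) (nat_lit 371) (nat_lit 362)) (XT.lf (nat_lit 228) (nat_lit 27342546865900) (nat_lit 0) (nat_lit 8481389250802) (nat_lit 152) (nat_lit 8481389250802) (nat_lit 209) (nat_lit 1) (nat_lit 206) (nat_lit 1) (nat_lit 208)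 (nat_lit 1) (nat_lit 168) (nat_lit 371) (nat_lit 361))))))))
noncomputable def ec249 : XT := (XT.nd (nat_lit 1716) (nat_lit 1748) (nat_lit 0) (XT.nd (nat_lit 858) (nat_lit 760) (nat_lit 0) (XT.nd (nat_lit 390) (nat_lit 456) (nat_lit 0) (XT.nd (nat_lit 156) (nat_lit 304) (nat_lit 0) (XT.nd (nat_lit 78) (nat_lit 76) (nat_lit 0) (XT.lf (nat_lit 76) (nat_lit 8550911202512) (nat_lit 0) (nat_lit 24814598118954) (nat_lit 228) (nat_lit 8550911202512) (nat_lit 207) (nat_lit 1) (nat_lit 206) (nat_lit 1) (nat_lit 209) (nat_lit 1) (nat_lit 169) (nat_lit 371) (nat_lit 360)) (XT.lf (nat_lit 152) (nat_lit 7068908334826) (nat_lit 0) (nat_lit 16311540753165) (nat_lit 76) (nat_lit 16311540753166) (nat_lit 207) (nat_lit 1) (nat_lit 205) (nat_lit 1) (nat_lit 206) (nat_lit 1) (nat_lit 170) (nat_lit 371) (nat_lit 359))) (XT.nd (nat_lit 78) (nat_lit 76) (nat_lit 0) (XT.lf (nat_lit 228) (nat_lit 35786969263243) (nat_lit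 0) (nat_lit 950717465873) (nat_lit 152) (nat_lit 950717465873) (nat_lit 205) (nat_lit 1) (nat_lit 202) (nat_lit 1) (nat_lit 204) (nat_lit 1) (nat_lit 171) (nat_lit 371) (nat_lit 358)) (XT.nd (nat_lit 78) (nat_lit 76) (nat_lit 0) (XT.lf (nat_lit 76) (nat_lit 12524669555130) (nat_lit 0) (nat_lit 10636358025475) (nat_lit 228) (nat_lit 12524669555130) (nat_lit 203) (nat_lit 1) (nat_lit 202) (nat_lit 1) (nat_lit 205) (nat_lit 1) (nat_lit 172) (nat_lit 371) (nat_lit 357)) (XT.lf (nat_lit 152) (nat_lit 15228798592676) (nat_lit 0) (nat_lit 9326176366245) (nat_lit 76) (nat_lit 9326176366245) (nat_lit 203) (nat_lit 1) (nat_lit 201) (nat_lit 1) (nat_lit 202) (nat_lit 1) (nat_lit 173) (nat_lit 371) (nat_lit 356))))) (XT.nd (nat_lit 234) (nat_lit 228) (nat_lit 0) (XT.nd (nat_lit 78) (nat_lit 228) (nat_lit 0) (XT.lf (nat_lit 0) (nat_lit 2982008628618) (nat_lit 0) (nat_lit 26253374986736) (nat_lit 152) (nat_lit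 2982008628618) (nat_lit 201) (nat_lit 3) (nat_lit 201) (nat_lit 1) (nat_lit 203) (nat_lit 1) (nat_lit 174) (nat_lit 371) (nat_lit 355)) (XT.nd (nat_lit 78) (nat_lit 76) (nat_lit 0) (XT.lf (nat_lit 76) (nat_lit 13800723357096) (nat_lit 0) (nat_lit 2993138320508) (nat_lit 152) (nat_lit 13800723357096) (nat_lit 200) (nat_lit 1) (nat_lit 199) (nat_lit 1) (nat_lit 201) (nat_lit 1) (nat_lit 175) (nat_lit 371) (nat_lit 354)) (XT.lf (nat_lit 152) (nat_lit 18435051812662) (nat_lit 0) (nat_lit 5332271606373) (nat_lit 76) (nat_lit 5332271606374) (nat_lit 200) (nat_lit 1) (nat_lit 198) (nat_lit 1) (nat_lit 199) (nat_lit 1) (nat_lit 176) (nat_lit 371) (nat_lit 353)))) (XT.nd (nat_lit 78) (nat_lit 228) (nat_lit 0) (XT.lf (nat_lit 0) (nat_lit 4793207013645) (nat_lit 0) (nat_lit 18098686258284) (nat_lit 152) (nat_lit 4793207013646) (nat_lit 198) (nat_lit 3) (nat_lit 198) (nat_lit 1) (nat_lit 200) (nat_lit 1) (nat_lit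 177) (nat_lit 371) (nat_lit 352)) (XT.nd (nat_lit 78) (nat_lit 152) (nat_lit 0) (XT.lf (nat_lit 76) (nat_lit 1069278830644) (nat_lit 0) (nat_lit 12639260782503) (nat_lit 76) (nat_lit 12639260782503) (nat_lit 198) (nat_lit 3) (nat_lit 197) (nat_lit 1) (nat_lit 198) (nat_lit 1) (nat_lit 178) (nat_lit 371) (nat_lit 351)) (XT.lf (nat_lit 152) (nat_lit 18999376176841) (nat_lit 0) (nat_lit 3048743597327) (nat_lit 76) (nat_lit 3048743597327) (nat_lit 197) (nat_lit 1) (nat_lit 195) (nat_lit 1) (nat_lit 196) (nat_lit 1) (nat_lit 179) (nat_lit 371) (nat_lit 350)))))) (XT.nd (nat_lit 390) (nat_lit 456) (nat_lit 0) (XT.nd (nat_lit 156) (nat_lit 228) (nat_lit 0) (XT.nd (nat_lit 78) (nat_lit 76) (nat_lit 0) (XT.lf (nat_lit 0) (nat_lit 5425952451065) (nat_lit 0) (nat_lit 13033403393358) (nat_lit 152) (nat_lit 5425952451066) (nat_lit 195) (nat_lit 3) (nat_lit 195) (nat_lit 1) (nat_lit 197) (nat_lit 1) (nat_lit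 180) (nat_lit 371) (nat_lit 349)) (XT.lf (nat_lit 76) (nat_lit 3174719844978) (nat_lit 0) (nat_lit 9789894577406) (nat_lit 76) (nat_lit 9789894577407) (nat_lit 195) (nat_lit 3) (nat_lit 194) (nat_lit 1) (nat_lit 195) (nat_lit 1) (nat_lit 181) (nat_lit 371) (nat_lit 348))) (XT.nd (nat_lit 78) (nat_lit 76) (nat_lit 0) (XT.lf (nat_lit 152) (nat_lit 18218672793592) (nat_lit 0) (nat_lit 1743129046753) (nat_lit 76) (nat_lit 1743129046753) (nat_lit 194) (nat_lit 1) (nat_lit 192) (nat_lit 1) (nat_lit 193) (nat_lit 1) (nat_lit 182) (nat_lit 371) (nat_lit 347)) (XT.nd (nat_lit 78) (nat_lit 76) (nat_lit 0) (XT.lf (nat_lit 0) (nat_lit 5437454432343) (nat_lit 0) (nat_lit 9787039199288) (nat_lit 152) (nat_lit 5437454432343) (nat_lit 192) (nat_lit 3) (nat_lit 192) (nat_lit 1) (nat_lit 194) (nat_lit 1) (nat_lit 183) (nat_lit 371) (nat_lit 346)) (XT.lf (nat_lit 76) (nat_lit 4044161769227) (nat_lit 0) (nat_lit 7826409392658)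 (nat_lit 76) (nat_lit 7826409392658) (nat_lit 192) (nat_lit 3) (nat_lit 191) (nat_lit 1) (nat_lit 192) (nat_lit 1) (nat_lit 184) (nat_lit 371) (nat_lit 345))))) (XT.nd (nat_lit 234) (nat_lit 228) (nat_lit 0) (XT.nd (nat_lit 78) (nat_lit 76) (nat_lit 0) (XT.lf (nat_lit 152) (nat_lit 16812861648168) (nat_lit 0) (nat_lit 996639689968) (nat_lit 76) (nat_lit 996639689968) (nat_lit 191) (nat_lit 1) (nat_lit 189) (nat_lit 1) (nat_lit 190) (nat_lit 1) (nat_lit 185) (nat_lit 371) (nat_lit 344)) (XT.nd (nat_lit 78) (nat_lit 76) (nat_lit 0) (XT.lf (nat_lit 0) (nat_lit 5139446139467) (nat_lit 0) (nat_lit 7626335346950) (nat_lit 152) (nat_lit 5139446139467) (nat_lit 189) (nat_lit 3) (nat_lit 189) (nat_lit 1) (nat_lit 191) (nat_lit 1) (nat_lit 186) (nat_lit 371) (nat_lit 343)) (XT.lf (nat_lit 76) (nat_lit 4250528177269) (nat_lit 0) (nat_lit 6413040531602) (nat_lit 76) (nat_lit 6413040531602) (nat_lit 189) (nat_lit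 3) (nat_lit 188) (nat_lit 1) (nat_lit 189) (nat_lit 1) (nat_lit 187) (nat_lit 371) (nat_lit 342)))) (XT.nd (nat_lit 78) (nat_lit 76) (nat_lit 0) (XT.lf (nat_lit 152) (nat_lit 15174787648120) (nat_lit 0) (nat_lit 569831977426) (nat_lit 76) (nat_lit 569831977426) (nat_lit 188) (nat_lit 1) (nat_lit 186) (nat_lit 1) (nat_lit 187) (nat_lit 1) (nat_lit 188) (nat_lit 371) (nat_lit 341)) (XT.nd (nat_lit 78) (nat_lit 76) (nat_lit 0) (XT.lf (nat_lit 0) (nat_lit 4704202767322) (nat_lit 0) (nat_lit 6126089743131) (nat_lit 152) (nat_lit 4704202767322) (nat_lit 186) (nat_lit 3) (nat_lit 186) (nat_lit 1) (nat_lit 188) (nat_lit 1) (nat_lit 189) (nat_lit 371) (nat_lit 340)) (XT.lf (nat_lit 76) (nat_lit 4115701593891) (nat_lit 0) (nat_lit 5352125051116) (nat_lit 76) (nat_lit 5352125051116) (nat_lit 186) (nat_lit 3) (nat_lit 185) (nat_lit 1) (nat_lit 186) (nat_lit 1) (nat_lit 190) (nat_lit 371) (nat_lit 339)))))))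 (XT.nd (nat_lit 858) (nat_lit 912) (nat_lit 0) (XT.nd (nat_lit 390) (nat_lit 456) (nat_lit 0) (XT.nd (nat_lit 156) (nat_lit 228) (nat_lit 0) (XT.nd (nat_lit 78) (nat_lit 0) (nat_lit 0) (XT.lf (nat_lit 152) (nat_lit 13512737943844) (nat_lit 0) (nat_lit 325803282536) (nat_lit 76) (nat_lit 325803282536) (nat_lit 185) (nat_lit 1) (nat_lit 183) (nat_lit 1) (nat_lit 184) (nat_lit 1) (nat_lit 191) (nat_lit 371) (nat_lit 338)) (XT.lf (nat_lit 0) (nat_lit 4225041249301) (nat_lit 0) (nat_lit 5038009742587) (nat_lit 152) (nat_lit 4225041249302) (nat_lit 183) (nat_lit 3) (nat_lit 183) (nat_lit 1) (nat_lit 185) (nat_lit 1) (nat_lit 192) (nat_lit 371) (nat_lit 337))) (XT.nd (nat_lit 78) (nat_lit 152) (nat_lit 0) (XT.lf (nat_lit 76) (nat_lit 3818772972941) (nat_lit 0) (nat_lit 4525702097536) (nat_lit 76) (nat_lit 4525702097536) (nat_lit 183) (nat_lit 3) (nat_lit 182) (nat_lit 1) (nat_lit 183) (nat_lit 1) (nat_lit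 193) (nat_lit 371) (nat_lit 336)) (XT.nd (nat_lit 78) (nat_lit 0) (nat_lit 0) (XT.lf (nat_lit 152) (nat_lit 11931607302195) (nat_lit 0) (nat_lit 186279084214) (nat_lit 76) (nat_lit 186279084215) (nat_lit 182) (nat_lit 1) (nat_lit 180) (nat_lit 1) (nat_lit 181) (nat_lit 1) (nat_lit 194) (nat_lit 371) (nat_lit 335)) (XT.lf (nat_lit 0) (nat_lit 3750809785450) (nat_lit 0) (nat_lit 4215627160051) (nat_lit 152) (nat_lit 3750809785450) (nat_lit 180) (nat_lit 3) (nat_lit 180) (nat_lit 1) (nat_lit 182) (nat_lit 1) (nat_lit 195) (nat_lit 371) (nat_lit 334))))) (XT.nd (nat_lit 234) (nat_lit 228) (nat_lit 0) (XT.nd (nat_lit 78) (nat_lit 152) (nat_lit 0) (XT.lf (nat_lit 76) (nat_lit 3457836909932) (nat_lit 0) (nat_lit 3862025931324) (nat_lit 76) (nat_lit 3862025931324) (nat_lit 180) (nat_lit 3) (nat_lit 179) (nat_lit 1) (nat_lit 180) (nat_lit 1) (nat_lit 196) (nat_lit 371) (nat_lit 333)) (XT.nd (nat_lit 78)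 (nat_lit 0) (nat_lit 0) (XT.lf (nat_lit 152) (nat_lit 10479026961870) (nat_lit 0) (nat_lit 106505670985) (nat_lit 76) (nat_lit 106505670986) (nat_lit 179) (nat_lit 1) (nat_lit 177) (nat_lit 1) (nat_lit 178) (nat_lit 1) (nat_lit 197) (nat_lit 371) (nat_lit 332)) (XT.lf (nat_lit 0) (nat_lit 3305519180084) (nat_lit 0) (nat_lit 3571280022619) (nat_lit 152) (nat_lit 3305519180084) (nat_lit 177) (nat_lit 3) (nat_lit 177) (nat_lit 1) (nat_lit 179) (nat_lit 1) (nat_lit 198) (nat_lit 371) (nat_lit 331)))) (XT.nd (nat_lit 78) (nat_lit 152) (nat_lit 0) (XT.lf (nat_lit 76) (nat_lit 3085239100742) (nat_lit 0) (nat_lit 3316335485556) (nat_lit 76) (nat_lit 3316335485556) (nat_lit 177) (nat_lit 3) (nat_lit 176) (nat_lit 1) (nat_lit 177) (nat_lit 1) (nat_lit 199) (nat_lit 371) (nat_lit 330)) (XT.nd (nat_lit 78) (nat_lit 0) (nat_lit 0) (XT.lf (nat_lit 152) (nat_lit 9171497468887) (nat_lit 0) (nat_lit 60894963060)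 (nat_lit 76) (nat_lit 60894963060) (nat_lit 176) (nat_lit 1) (nat_lit 174) (nat_lit 1) (nat_lit 175) (nat_lit 1) (nat_lit 200) (nat_lit 371) (nat_lit 329)) (XT.lf (nat_lit 0) (nat_lit 2899490460148) (nat_lit 0) (nat_lit 3051440084420) (nat_lit 152) (nat_lit 2899490460148) (nat_lit 174) (nat_lit 3) (nat_lit 174) (nat_lit 1) (nat_lit 176) (nat_lit 1) (nat_lit 201) (nat_lit 371) (nat_lit 328)))))) (XT.nd (nat_lit 468) (nat_lit 456) (nat_lit 0) (XT.nd (nat_lit 234) (nat_lit 228) (nat_lit 0) (XT.nd (nat_lit 78) (nat_lit 152) (nat_lit 0) (XT.lf (nat_lit 76) (nat_lit 2727656012547) (nat_lit 0) (nat_lit 2859786120609) (nat_lit 76) (nat_lit 2859786120609) (nat_lit 174) (nat_lit 3) (nat_lit 173) (nat_lit 1) (nat_lit 174) (nat_lit 1) (nat_lit 202) (nat_lit 371) (nat_lit 327)) (XT.nd (nat_lit 78) (nat_lit 0) (nat_lit 0) (XT.lf (nat_lit 152) (nat_lit 8009120221116) (nat_lit 0) (nat_lit 34816892769) (nat_lit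 76) (nat_lit 34816892770) (nat_lit 173) (nat_lit 1) (nat_lit 171) (nat_lit 1) (nat_lit 172) (nat_lit 1) (nat_lit 203) (nat_lit 371) (nat_lit 326)) (XT.lf (nat_lit 0) (nat_lit 2535661899039) (nat_lit 0) (nat_lit 2622539589882) (nat_lit 152) (nat_lit 2535661899039) (nat_lit 171) (nat_lit 3) (nat_lit 171) (nat_lit 1) (nat_lit 173) (nat_lit 1) (nat_lit 204) (nat_lit 371) (nat_lit 325)))) (XT.nd (nat_lit 78) (nat_lit 152) (nat_lit 0) (XT.lf (nat_lit 76) (nat_lit 2397511867832) (nat_lit 0) (nat_lit 2473057685957) (nat_lit 76) (nat_lit 2473057685957) (nat_lit 171) (nat_lit 3) (nat_lit 170) (nat_lit 1) (nat_lit 171) (nat_lit 1) (nat_lit 205) (nat_lit 371) (nat_lit 324)) (XT.nd (nat_lit 78) (nat_lit 0) (nat_lit 0) (XT.lf (nat_lit 152) (nat_lit 6983837677578) (nat_lit 0) (nat_lit 19906671442) (nat_lit 76) (nat_lit 19906671442) (nat_lit 170) (nat_lit 1) (nat_lit 168) (nat_lit 1) (nat_lit 169) (nat_lit 1)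 (nat_lit 206) (nat_lit 371) (nat_lit 323)) (XT.lf (nat_lit 0) (nat_lit 2213137109965) (nat_lit 0) (nat_lit 2262809711675) (nat_lit 152) (nat_lit 2213137109965) (nat_lit 168) (nat_lit 3) (nat_lit 168) (nat_lit 1) (nat_lit 170) (nat_lit 1) (nat_lit 207) (nat_lit 371) (nat_lit 322))))) (XT.nd (nat_lit 234) (nat_lit 228) (nat_lit 0) (XT.nd (nat_lit 78) (nat_lit 152) (nat_lit 0) (XT.lf (nat_lit 76) (nat_lit 2099451008996) (nat_lit 0) (nat_lit 2142644575700) (nat_lit 76) (nat_lit 2142644575700) (nat_lit 168) (nat_lit 3) (nat_lit 167) (nat_lit 1) (nat_lit 168) (nat_lit 1) (nat_lit 208) (nat_lit 371) (nat_lit 321)) (XT.nd (nat_lit 78) (nat_lit 0) (nat_lit 0) (XT.lf (nat_lit 152) (nat_lit 6083985943033) (nat_lit 0) (nat_lit 11381704006) (nat_lit 76) (nat_lit 11381704006) (nat_lit 167) (nat_lit 1) (nat_lit 165) (nat_lit 1) (nat_lit 166) (nat_lit 1) (nat_lit 209) (nat_lit 371) (nat_lit 320)) (XT.lf (nat_lit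 0) (nat_lit 1929163272924) (nat_lit 0) (nat_lit 1957563744169) (nat_lit 152) (nat_lit 1929163272925) (nat_lit 165) (nat_lit 3) (nat_lit 165) (nat_lit 1) (nat_lit 167) (nat_lit 1) (nat_lit 210) (nat_lit 371) (nat_lit 319)))) (XT.nd (nat_lit 78) (nat_lit 152) (nat_lit 0) (XT.lf (nat_lit 76) (nat_lit 1833990378109) (nat_lit 0) (nat_lit 1858686440061) (nat_lit 76) (nat_lit 1858686440061) (nat_lit 165) (nat_lit 3) (nat_lit 164) (nat_lit 1) (nat_lit 165) (nat_lit 1) (nat_lit 211) (nat_lit 371) (nat_lit 318)) (XT.nd (nat_lit 78) (nat_lit 0) (nat_lit 0) (XT.lf (nat_lit 152) (nat_lit 5296759651839) (nat_lit 0) (nat_lit 6507526205) (nat_lit 76) (nat_lit 6507526206) (nat_lit 164) (nat_lit 1) (nat_lit 162) (nat_lit 1) (nat_lit 163) (nat_lit 1) (nat_lit 212) (nat_lit 371) (nat_lit 317)) (XT.lf (nat_lit 0) (nat_lit 1680218360277) (nat_lit 0) (nat_lit 1696456421888) (nat_lit 152) (nat_lit 1680218360277) (nat_lit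 162) (nat_lit 3) (nat_lit 162) (nat_lit 1) (nat_lit 164) (nat_lit 1) (nat_lit 213) (nat_lit 371) (nat_lit 316))))))))
noncomputable def ec250 : XT := (XT.nd (nat_lit 1716) (nat_lit 1748) (nat_lit 0) (XT.nd (nat_lit 858) (nat_lit 760) (nat_lit 0) (XT.nd (nat_lit 390) (nat_lit 456) (nat_lit 0) (XT.nd (nat_lit 156) (nat_lit 228) (nat_lit 0) (XT.nd (nat_lit 78) (nat_lit 152) (nat_lit 0) (XT.lf (nat_lit 76) (nat_lit 1599565994333) (nat_lit 0) (nat_lit 1613686047907) (nat_lit 76) (nat_lit 1613686047907) (nat_lit 162) (nat_lit 3) (nat_lit 161) (nat_lit 1) (nat_lit 162) (nat_lit 1) (nat_lit 214) (nat_lit 371) (nat_lit 315)) (XT.lf (nat_lit 152) (nat_lit 4609501211428) (nat_lit 0) (nat_lit 3720699229) (nat_lit 76) (nat_lit 3720699229) (nat_lit 161) (nat_lit 1) (nat_lit 159) (nat_lit 1) (nat_lit 160) (nat_lit 1) (nat_lit 215) (nat_lit 371) (nat_lit 314))) (XT.nd (nat_lit 78) (nat_lit 228) (nat_lit 0) (XT.lf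 (nat_lit 0) (nat_lit 1462594646623) (nat_lit 0) (nat_lit 1471878811051) (nat_lit 152) (nat_lit 1462594646623) (nat_lit 159) (nat_lit 3) (nat_lit 159) (nat_lit 1) (nat_lit 161) (nat_lit 1) (nat_lit 216) (nat_lit 371) (nat_lit 313)) (XT.nd (nat_lit 78) (nat_lit 152) (nat_lit 0) (XT.lf (nat_lit 76) (nat_lit 1393666651637) (nat_lit 0) (nat_lit 1401739838096) (nat_lit 76) (nat_lit 1401739838096) (nat_lit 159) (nat_lit 3) (nat_lit 158) (nat_lit 1) (nat_lit 159) (nat_lit 1) (nat_lit 217) (nat_lit 371) (nat_lit 312)) (XT.lf (nat_lit 152) (nat_lit 4010333529819) (nat_lit 0) (nat_lit 2127321860) (nat_lit 76) (nat_lit 2127321860) (nat_lit 158) (nat_lit 1) (nat_lit 156) (nat_lit 1) (nat_lit 157) (nat_lit 1) (nat_lit 218) (nat_lit 371) (nat_lit 311))))) (XT.nd (nat_lit 234) (nat_lit 228) (nat_lit 0) (XT.nd (nat_lit 78) (nat_lit 228) (nat_lit 0) (XT.lf (nat_lit 0) (nat_lit 1272699189089) (nat_lit 0) (nat_lit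 1278007440233) (nat_lit 152) (nat_lit 1272699189089) (nat_lit 156) (nat_lit 3) (nat_lit 156) (nat_lit 1) (nat_lit 158) (nat_lit 1) (nat_lit 219) (nat_lit 371) (nat_lit 310)) (XT.nd (nat_lit 78) (nat_lit 152) (nat_lit 0) (XT.lf (nat_lit 76) (nat_lit 1213450477294) (nat_lit 0) (nat_lit 1218066347854) (nat_lit 76) (nat_lit 1218066347854) (nat_lit 156) (nat_lit 3) (nat_lit 155) (nat_lit 1) (nat_lit 156) (nat_lit 1) (nat_lit 220) (nat_lit 371) (nat_lit 309)) (XT.lf (nat_lit 152) (nat_lit 3488430995602) (nat_lit 0) (nat_lit 1216303177) (nat_lit 76) (nat_lit 1216303177) (nat_lit 155) (nat_lit 1) (nat_lit 153) (nat_lit 1) (nat_lit 154) (nat_lit 1) (nat_lit 221) (nat_lit 371) (nat_lit 308)))) (XT.nd (nat_lit 78) (nat_lit 228) (nat_lit 0) (XT.lf (nat_lit 0) (nat_lit 1107196807586) (nat_lit 0) (nat_lit 1110231817406) (nat_lit 152) (nat_lit 1107196807586) (nat_lit 153) (nat_lit 3) (nat_lit 153) (nat_lit 1)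 (nat_lit 155) (nat_lit 1) (nat_lit 222) (nat_lit 371) (nat_lit 307)) (XT.nd (nat_lit 78) (nat_lit 152) (nat_lit 0) (XT.lf (nat_lit 76) (nat_lit 1056069940885) (nat_lit 0) (nat_lit 1058709079859) (nat_lit 76) (nat_lit 1058709079859) (nat_lit 153) (nat_lit 3) (nat_lit 152) (nat_lit 1) (nat_lit 153) (nat_lit 1) (nat_lit 223) (nat_lit 371) (nat_lit 306)) (XT.lf (nat_lit 152) (nat_lit 3034095468995) (nat_lit 0) (nat_lit 695425289) (nat_lit 76) (nat_lit 695425289) (nat_lit 152) (nat_lit 1) (nat_lit 150) (nat_lit 1) (nat_lit 151) (nat_lit 1) (nat_lit 224) (nat_lit 371) (nat_lit 305)))))) (XT.nd (nat_lit 390) (nat_lit 456) (nat_lit 0) (XT.nd (nat_lit 156) (nat_lit 228) (nat_lit 0) (XT.nd (nat_lit 78) (nat_lit 76) (nat_lit 0) (XT.lf (nat_lit 0) (nat_lit 963066773083) (nat_lit 0) (nat_lit 964802049798) (nat_lit 152) (nat_lit 963066773083) (nat_lit 150) (nat_lit 3) (nat_lit 150) (nat_lit 1) (nat_lit 152)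 (nat_lit 1) (nat_lit 225) (nat_lit 371) (nat_lit 304)) (XT.lf (nat_lit 76) (nat_lit 918833757254) (nat_lit 0) (nat_lit 920342693528) (nat_lit 76) (nat_lit 920342693528) (nat_lit 150) (nat_lit 3) (nat_lit 149) (nat_lit 1) (nat_lit 150) (nat_lit 1) (nat_lit 226) (nat_lit 371) (nat_lit 303))) (XT.nd (nat_lit 78) (nat_lit 76) (nat_lit 0) (XT.lf (nat_lit 152) (nat_lit 2638731084213) (nat_lit 0) (nat_lit 397611666) (nat_lit 76) (nat_lit 397611666) (nat_lit 149) (nat_lit 1) (nat_lit 147) (nat_lit 1) (nat_lit 148) (nat_lit 1) (nat_lit 227) (nat_lit 371) (nat_lit 302)) (XT.nd (nat_lit 78) (nat_lit 76) (nat_lit 0) (XT.lf (nat_lit 0) (nat_lit 837613427003) (nat_lit 0) (nat_lit 838605577097) (nat_lit 152) (nat_lit 837613427003) (nat_lit 147) (nat_lit 3) (nat_lit 147) (nat_lit 1) (nat_lit 149) (nat_lit 1) (nat_lit 228) (nat_lit 371) (nat_lit 301)) (XT.lf (nat_lit 76) (nat_lit 799278653287) (nat_lit 0) (nat_lit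 800141392499) (nat_lit 76) (nat_lit 800141392499) (nat_lit 147) (nat_lit 3) (nat_lit 146) (nat_lit 1) (nat_lit 147) (nat_lit 1) (nat_lit 229) (nat_lit 371) (nat_lit 300))))) (XT.nd (nat_lit 234) (nat_lit 228) (nat_lit 0) (XT.nd (nat_lit 78) (nat_lit 76) (nat_lit 0) (XT.lf (nat_lit 152) (nat_lit 2294770150669) (nat_lit 0) (nat_lit 227335760) (nat_lit 76) (nat_lit 227335760) (nat_lit 146) (nat_lit 1) (nat_lit 144) (nat_lit 1) (nat_lit 145) (nat_lit 1) (nat_lit 230) (nat_lit 371) (nat_lit 299)) (XT.nd (nat_lit 78) (nat_lit 76) (nat_lit 0) (XT.lf (nat_lit 0) (nat_lit 728453303067) (nat_lit 0) (nat_lit 729020568104) (nat_lit 152) (nat_lit 728453303067) (nat_lit 144) (nat_lit 3) (nat_lit 144) (nat_lit 1) (nat_lit 146) (nat_lit 1) (nat_lit 231) (nat_lit 371) (nat_lit 298)) (XT.lf (nat_lit 76) (nat_lit 695192312339) (nat_lit 0) (nat_lit 695685586283) (nat_lit 76) (nat_lit 695685586283) (nat_lit 144) (nat_lit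 3) (nat_lit 143) (nat_lit 1) (nat_lit 144) (nat_lit 1) (nat_lit 232) (nat_lit 371) (nat_lit 297)))) (XT.nd (nat_lit 78) (nat_lit 76) (nat_lit 0) (XT.lf (nat_lit 152) (nat_lit 1995578880685) (nat_lit 0) (nat_lit 129979959) (nat_lit 76) (nat_lit 129979959) (nat_lit 143) (nat_lit 1) (nat_lit 141) (nat_lit 1) (nat_lit 142) (nat_lit 1) (nat_lit 233) (nat_lit 371) (nat_lit 296)) (XT.nd (nat_lit 78) (nat_lit 76) (nat_lit 0) (XT.lf (nat_lit 0) (nat_lit 633491286054) (nat_lit 0) (nat_lit 633815621679) (nat_lit 152) (nat_lit 633491286054) (nat_lit 141) (nat_lit 3) (nat_lit 141) (nat_lit 1) (nat_lit 143) (nat_lit 1) (nat_lit 234) (nat_lit 371) (nat_lit 295)) (XT.lf (nat_lit 76) (nat_lit 604610763664) (nat_lit 0) (nat_lit 604892794642) (nat_lit 76) (nat_lit 604892794642) (nat_lit 141) (nat_lit 3) (nat_lit 140) (nat_lit 1) (nat_lit 141) (nat_lit 1) (nat_lit 235) (nat_lit 371) (nat_lit 294))))))) (XT.nd (nat_lit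 858) (nat_lit 912) (nat_lit 0) (XT.nd (nat_lit 390) (nat_lit 456) (nat_lit 0) (XT.nd (nat_lit 156) (nat_lit 228) (nat_lit 0) (XT.nd (nat_lit 78) (nat_lit 0) (nat_lit 0) (XT.lf (nat_lit 152) (nat_lit 1735358353303) (nat_lit 0) (nat_lit 74316463) (nat_lit 76) (nat_lit 74316463) (nat_lit 140) (nat_lit 1) (nat_lit 138) (nat_lit 1) (nat_lit 139) (nat_lit 1) (nat_lit 236) (nat_lit 371) (nat_lit 293)) (XT.lf (nat_lit 0) (nat_lit 550892651692) (nat_lit 0) (nat_lit 551078091639) (nat_lit 152) (nat_lit 550892651692) (nat_lit 138) (nat_lit 3) (nat_lit 138) (nat_lit 1) (nat_lit 140) (nat_lit 1) (nat_lit 237) (nat_lit 371) (nat_lit 292))) (XT.nd (nat_lit 78) (nat_lit 152) (nat_lit 0) (XT.lf (nat_lit 76) (nat_lit 525803212334) (nat_lit 0) (nat_lit 525964464462) (nat_lit 76) (nat_lit 525964464462) (nat_lit 138) (nat_lit 3) (nat_lit 137) (nat_lit 1) (nat_lit 138) (nat_lit 1) (nat_lit 238) (nat_lit 371) (nat_lit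 291)) (XT.nd (nat_lit 78) (nat_lit 0) (nat_lit 0) (XT.lf (nat_lit 152) (nat_lit 1509048641581) (nat_lit 0) (nat_lit 42490679) (nat_lit 76) (nat_lit 42490679) (nat_lit 137) (nat_lit 1) (nat_lit 135) (nat_lit 1) (nat_lit 136) (nat_lit 1) (nat_lit 239) (nat_lit 371) (nat_lit 290)) (XT.lf (nat_lit 0) (nat_lit 479054620566) (nat_lit 0) (nat_lit 479160646458) (nat_lit 152) (nat_lit 479054620566) (nat_lit 135) (nat_lit 3) (nat_lit 135) (nat_lit 1) (nat_lit 137) (nat_lit 1) (nat_lit 240) (nat_lit 371) (nat_lit 289))))) (XT.nd (nat_lit 234) (nat_lit 228) (nat_lit 0) (XT.nd (nat_lit 78) (nat_lit 152) (nat_lit 0) (XT.lf (nat_lit 76) (nat_lit 457251472229) (nat_lit 0) (nat_lit 457343668657) (nat_lit 76) (nat_lit 457343668657) (nat_lit 135) (nat_lit 3) (nat_lit 134) (nat_lit 1) (nat_lit 135) (nat_lit 1) (nat_lit 241) (nat_lit 371) (nat_lit 288)) (XT.nd (nat_lit 78) (nat_lit 0) (nat_lit 0) (XT.lf (nat_lit 152)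 (nat_lit 1312239867984) (nat_lit 0) (nat_lit 24294183) (nat_lit 76) (nat_lit 24294183) (nat_lit 134) (nat_lit 1) (nat_lit 132) (nat_lit 1) (nat_lit 133) (nat_lit 1) (nat_lit 242) (nat_lit 371) (nat_lit 287)) (XT.lf (nat_lit 0) (nat_lit 416579259332) (nat_lit 0) (nat_lit 416639879980) (nat_lit 152) (nat_lit 416579259332) (nat_lit 132) (nat_lit 3) (nat_lit 132) (nat_lit 1) (nat_lit 134) (nat_lit 1) (nat_lit 243) (nat_lit 371) (nat_lit 286)))) (XT.nd (nat_lit 78) (nat_lit 152) (nat_lit 0) (XT.lf (nat_lit 76) (nat_lit 397627864633) (nat_lit 0) (nat_lit 397680578240) (nat_lit 76) (nat_lit 397680578240) (nat_lit 132) (nat_lit 3) (nat_lit 131) (nat_lit 1) (nat_lit 132) (nat_lit 1) (nat_lit 244) (nat_lit 371) (nat_lit 285)) (XT.nd (nat_lit 78) (nat_lit 0) (nat_lit 0) (XT.lf (nat_lit 152) (nat_lit 1141091672562) (nat_lit 0) (nat_lit 13890278) (nat_lit 76) (nat_lit 13890278) (nat_lit 131) (nat_lit 1) (nat_lit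 129) (nat_lit 1) (nat_lit 130) (nat_lit 1) (nat_lit 245) (nat_lit 371) (nat_lit 284)) (XT.lf (nat_lit 0) (nat_lit 362248565489) (nat_lit 0) (nat_lit 362283225541) (nat_lit 152) (nat_lit 362248565489) (nat_lit 129) (nat_lit 3) (nat_lit 129) (nat_lit 1) (nat_lit 131) (nat_lit 1) (nat_lit 246) (nat_lit 371) (nat_lit 283)))))) (XT.nd (nat_lit 390) (nat_lit 456) (nat_lit 0) (XT.nd (nat_lit 156) (nat_lit 228) (nat_lit 0) (XT.nd (nat_lit 78) (nat_lit 152) (nat_lit 0) (XT.lf (nat_lit 76) (nat_lit 345773588520) (nat_lit 0) (nat_lit 345803727695) (nat_lit 76) (nat_lit 345803727695) (nat_lit 129) (nat_lit 3) (nat_lit 128) (nat_lit 1) (nat_lit 129) (nat_lit 1) (nat_lit 247) (nat_lit 371) (nat_lit 282)) (XT.lf (nat_lit 152) (nat_lit 992261362129) (nat_lit 0) (nat_lit 7941811) (nat_lit 76) (nat_lit 7941811) (nat_lit 128) (nat_lit 1) (nat_lit 126) (nat_lit 1) (nat_lit 127) (nat_lit 1) (nat_lit 248) (nat_lit 371)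 (nat_lit 281))) (XT.nd (nat_lit 78) (nat_lit 228) (nat_lit 0) (XT.lf (nat_lit 0) (nat_lit 315002029481) (nat_lit 0) (nat_lit 315021846478) (nat_lit 152) (nat_lit 315002029481) (nat_lit 126) (nat_lit 3) (nat_lit 126) (nat_lit 1) (nat_lit 128) (nat_lit 1) (nat_lit 249) (nat_lit 371) (nat_lit 280)) (XT.nd (nat_lit 78) (nat_lit 152) (nat_lit 0) (XT.lf (nat_lit 76) (nat_lit 300678533544) (nat_lit 0) (nat_lit 300695765715) (nat_lit 76) (nat_lit 300695765715) (nat_lit 126) (nat_lit 3) (nat_lit 125) (nat_lit 1) (nat_lit 126) (nat_lit 1) (nat_lit 250) (nat_lit 371) (nat_lit 279)) (XT.lf (nat_lit 152) (nat_lit 862840388902) (nat_lit 0) (nat_lit 4540756) (nat_lit 76) (nat_lit 4540756) (nat_lit 125) (nat_lit 1) (nat_lit 123) (nat_lit 1) (nat_lit 124) (nat_lit 1) (nat_lit 251) (nat_lit 371) (nat_lit 278))))) (XT.nd (nat_lit 234) (nat_lit 228) (nat_lit 0) (XT.nd (nat_lit 78) (nat_lit 228) (nat_lit 0) (XT.lf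 (nat_lit 0) (nat_lit 273916681812) (nat_lit 0) (nat_lit 273928012245) (nat_lit 152) (nat_lit 273916681812) (nat_lit 123) (nat_lit 3) (nat_lit 123) (nat_lit 1) (nat_lit 125) (nat_lit 1) (nat_lit 252) (nat_lit 371) (nat_lit 277)) (XT.nd (nat_lit 78) (nat_lit 152) (nat_lit 0) (XT.lf (nat_lit 76) (nat_lit 261462937927) (nat_lit 0) (nat_lit 261472790477) (nat_lit 76) (nat_lit 261472790477) (nat_lit 123) (nat_lit 3) (nat_lit 122) (nat_lit 1) (nat_lit 123) (nat_lit 1) (nat_lit 253) (nat_lit 371) (nat_lit 276)) (XT.lf (nat_lit 152) (nat_lit 750298518547) (nat_lit 0) (nat_lit 2596192) (nat_lit 76) (nat_lit 2596192) (nat_lit 122) (nat_lit 1) (nat_lit 120) (nat_lit 1) (nat_lit 121) (nat_lit 1) (nat_lit 254) (nat_lit 371) (nat_lit 275)))) (XT.nd (nat_lit 78) (nat_lit 228) (nat_lit 0) (XT.lf (nat_lit 0) (nat_lit 238189490186) (nat_lit 0) (nat_lit 238195968397) (nat_lit 152) (nat_lit 238189490186) (nat_lit 120)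 (nat_lit 3) (nat_lit 120) (nat_lit 1) (nat_lit 122) (nat_lit 1) (nat_lit 255) (nat_lit 371) (nat_lit 274)) (XT.nd (nat_lit 78) (nat_lit 152) (nat_lit 0) (XT.lf (nat_lit 76) (nat_lit 227360988139) (nat_lit 0) (nat_lit 227366621366) (nat_lit 76) (nat_lit 227366621366) (nat_lit 120) (nat_lit 3) (nat_lit 119) (nat_lit 1) (nat_lit 120) (nat_lit 1) (nat_lit 256) (nat_lit 371) (nat_lit 273)) (XT.lf (nat_lit 152) (nat_lit 652434939894) (nat_lit 0) (nat_lit 1484381) (nat_lit 76) (nat_lit 1484381) (nat_lit 119) (nat_lit 1) (nat_lit 117) (nat_lit 1) (nat_lit 118) (nat_lit 1) (nat_lit 257) (nat_lit 371) (nat_lit 272))))))))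
noncomputable def ec251 : XT := (XT.nd (nat_lit 1716) (nat_lit 1824) (nat_lit 0) (XT.nd (nat_lit 858) (nat_lit 836) (nat_lit 0) (XT.nd (nat_lit 390) (nat_lit 456) (nat_lit 0) (XT.nd (nat_lit 156) (nat_lit 228) (nat_lit 0) (XT.nd (nat_lit 78) (nat_lit 76) (nat_lit 0) (XT.lf (nat_lit 0) (nat_lit 207121908286) (nat_lit 0) (nat_lit 207125612225) (nat_lit 152) (nat_lit 207121908286) (nat_lit 117) (nat_lit 3) (nat_lit 117) (nat_lit 1) (nat_lit 119) (nat_lit 1) (nat_lit 258) (nat_lit 371) (nat_lit 271)) (XT.lf (nat_lit 76) (nat_lit 197706300087) (nat_lit 0) (nat_lit 197709520903) (nat_lit 76) (nat_lit 197709520903) (nat_lit 117) (nat_lit 3) (nat_lit 116) (nat_lit 1) (nat_lit 117) (nat_lit 1) (nat_lit 259) (nat_lit 371) (nat_lit 270))) (XT.nd (nat_lit 78) (nat_lit 76) (nat_lit 0) (XT.lf (nat_lit 152) (nat_lit 567335556814) (nat_lit 0) (nat_lit 848699) (nat_lit 76) (nat_lit 848699) (nat_lit 116) (nat_lit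 1) (nat_lit 114) (nat_lit 1) (nat_lit 115) (nat_lit 1) (nat_lit 260) (nat_lit 371) (nat_lit 269)) (XT.nd (nat_lit 78) (nat_lit 76) (nat_lit 0) (XT.lf (nat_lit 0) (nat_lit 180106357389) (nat_lit 0) (nat_lit 180108475127) (nat_lit 152) (nat_lit 180106357389) (nat_lit 114) (nat_lit 3) (nat_lit 114) (nat_lit 1) (nat_lit 116) (nat_lit 1) (nat_lit 261) (nat_lit 371) (nat_lit 268)) (XT.lf (nat_lit 76) (nat_lit 171919146746) (nat_lit 0) (nat_lit 171920988258) (nat_lit 76) (nat_lit 171920988258) (nat_lit 114) (nat_lit 3) (nat_lit 113) (nat_lit 1) (nat_lit 114) (nat_lit 1) (nat_lit 262) (nat_lit 371) (nat_lit 267))))) (XT.nd (nat_lit 234) (nat_lit 228) (nat_lit 0) (XT.nd (nat_lit 78) (nat_lit 76) (nat_lit 0) (XT.lf (nat_lit 152) (nat_lit 493335739333) (nat_lit 0) (nat_lit 485246) (nat_lit 76) (nat_lit 485246) (nat_lit 113) (nat_lit 1) (nat_lit 111) (nat_lit 1) (nat_lit 112) (nat_lit 1) (nat_lit 263) (nat_lit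 371) (nat_lit 266)) (XT.nd (nat_lit 78) (nat_lit 76) (nat_lit 0) (XT.lf (nat_lit 0) (nat_lit 156614424035) (nat_lit 0) (nat_lit 156615634859) (nat_lit 152) (nat_lit 156614424035) (nat_lit 111) (nat_lit 3) (nat_lit 111) (nat_lit 1) (nat_lit 113) (nat_lit 1) (nat_lit 264) (nat_lit 371) (nat_lit 265)) (XT.lf (nat_lit 76) (nat_lit 149495267521) (nat_lit 0) (nat_lit 149496320411) (nat_lit 76) (nat_lit 149496320411) (nat_lit 111) (nat_lit 3) (nat_lit 110) (nat_lit 1) (nat_lit 111) (nat_lit 1) (nat_lit 265) (nat_lit 371) (nat_lit 264)))) (XT.nd (nat_lit 78) (nat_lit 76) (nat_lit 0) (XT.lf (nat_lit 152) (nat_lit 428987869595) (nat_lit 0) (nat_lit 277441) (nat_lit 76) (nat_lit 277441) (nat_lit 110) (nat_lit 1) (nat_lit 108) (nat_lit 1) (nat_lit 109) (nat_lit 1) (nat_lit 266) (nat_lit 371) (nat_lit 263)) (XT.nd (nat_lit 78) (nat_lit 76) (nat_lit 0) (XT.lf (nat_lit 0) (nat_lit 136186570158) (nat_lit 0) (nat_lit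 136187262450) (nat_lit 152) (nat_lit 136186570158) (nat_lit 108) (nat_lit 3) (nat_lit 108) (nat_lit 1) (nat_lit 110) (nat_lit 1) (nat_lit 267) (nat_lit 371) (nat_lit 262)) (XT.lf (nat_lit 76) (nat_lit 129996089092) (nat_lit 0) (nat_lit 129996691085) (nat_lit 76) (nat_lit 129996691085) (nat_lit 108) (nat_lit 3) (nat_lit 107) (nat_lit 1) (nat_lit 108) (nat_lit 1) (nat_lit 268) (nat_lit 371) (nat_lit 261)))))) (XT.nd (nat_lit 390) (nat_lit 456) (nat_lit 0) (XT.nd (nat_lit 156) (nat_lit 228) (nat_lit 0) (XT.nd (nat_lit 78) (nat_lit 0) (nat_lit 0) (XT.lf (nat_lit 152) (nat_lit 373033084556) (nat_lit 0) (nat_lit 158628) (nat_lit 76) (nat_lit 158628) (nat_lit 107) (nat_lit 1) (nat_lit 105) (nat_lit 1) (nat_lit 106) (nat_lit 1) (nat_lit 269) (nat_lit 371) (nat_lit 260)) (XT.lf (nat_lit 0) (nat_lit 118423169937) (nat_lit 0) (nat_lit 118423565757) (nat_lit 152) (nat_lit 118423169937) (nat_lit 105) (nat_lit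 3) (nat_lit 105) (nat_lit 1) (nat_lit 107) (nat_lit 1) (nat_lit 270) (nat_lit 371) (nat_lit 259))) (XT.nd (nat_lit 78) (nat_lit 152) (nat_lit 0) (XT.lf (nat_lit 76) (nat_lit 113040194275) (nat_lit 0) (nat_lit 113040538467) (nat_lit 76) (nat_lit 113040538467) (nat_lit 105) (nat_lit 3) (nat_lit 104) (nat_lit 1) (nat_lit 105) (nat_lit 1) (nat_lit 271) (nat_lit 371) (nat_lit 258)) (XT.nd (nat_lit 78) (nat_lit 0) (nat_lit 0) (XT.lf (nat_lit 152) (nat_lit 324376683587) (nat_lit 0) (nat_lit 90696) (nat_lit 76) (nat_lit 90696) (nat_lit 104) (nat_lit 1) (nat_lit 102) (nat_lit 1) (nat_lit 103) (nat_lit 1) (nat_lit 272) (nat_lit 371) (nat_lit 257)) (XT.lf (nat_lit 0) (nat_lit 102976706932) (nat_lit 0) (nat_lit 102976933244) (nat_lit 152) (nat_lit 102976706932) (nat_lit 102) (nat_lit 3) (nat_lit 102) (nat_lit 1) (nat_lit 104) (nat_lit 1) (nat_lit 273) (nat_lit 371) (nat_lit 256))))) (XT.nd (nat_lit 234) (nat_lit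 228) (nat_lit 0) (XT.nd (nat_lit 78) (nat_lit 152) (nat_lit 0) (XT.lf (nat_lit 76) (nat_lit 98295887892) (nat_lit 0) (nat_lit 98296084685) (nat_lit 76) (nat_lit 98296084685) (nat_lit 102) (nat_lit 3) (nat_lit 101) (nat_lit 1) (nat_lit 102) (nat_lit 1) (nat_lit 274) (nat_lit 371) (nat_lit 255)) (XT.nd (nat_lit 78) (nat_lit 0) (nat_lit 0) (XT.lf (nat_lit 152) (nat_lit 282066731878) (nat_lit 0) (nat_lit 51855) (nat_lit 76) (nat_lit 51855) (nat_lit 101) (nat_lit 1) (nat_lit 99) (nat_lit 1) (nat_lit 100) (nat_lit 1) (nat_lit 275) (nat_lit 371) (nat_lit 254)) (XT.lf (nat_lit 0) (nat_lit 89544983946) (nat_lit 0) (nat_lit 89545113340) (nat_lit 152) (nat_lit 89544983946) (nat_lit 99) (nat_lit 3) (nat_lit 99) (nat_lit 1) (nat_lit 101) (nat_lit 1) (nat_lit 276) (nat_lit 371) (nat_lit 253)))) (XT.nd (nat_lit 78) (nat_lit 152) (nat_lit 0) (XT.lf (nat_lit 76) (nat_lit 85474723307) (nat_lit 0) (nat_lit 85474835824)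 (nat_lit 76) (nat_lit 85474835824) (nat_lit 99) (nat_lit 3) (nat_lit 98) (nat_lit 1) (nat_lit 99) (nat_lit 1) (nat_lit 277) (nat_lit 371) (nat_lit 252)) (XT.nd (nat_lit 78) (nat_lit 0) (nat_lit 0) (XT.lf (nat_lit 152) (nat_lit 245275447896) (nat_lit 0) (nat_lit 29648) (nat_lit 76) (nat_lit 29648) (nat_lit 98) (nat_lit 1) (nat_lit 96) (nat_lit 1) (nat_lit 97) (nat_lit 1) (nat_lit 278) (nat_lit 371) (nat_lit 251)) (XT.lf (nat_lit 0) (nat_lit 77865215665) (nat_lit 0) (nat_lit 77865289646) (nat_lit 152) (nat_lit 77865215665) (nat_lit 96) (nat_lit 3) (nat_lit 96) (nat_lit 1) (nat_lit 98) (nat_lit 1) (nat_lit 279) (nat_lit 371) (nat_lit 250))))))) (XT.nd (nat_lit 858) (nat_lit 912) (nat_lit 0) (XT.nd (nat_lit 390) (nat_lit 456) (nat_lit 0) (XT.nd (nat_lit 156) (nat_lit 228) (nat_lit 0) (XT.nd (nat_lit 78) (nat_lit 152) (nat_lit 0) (XT.lf (nat_lit 76) (nat_lit 74325868185) (nat_lit 0) (nat_lit 74325932517)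 (nat_lit 76) (nat_lit 74325932517) (nat_lit 96) (nat_lit 3) (nat_lit 95) (nat_lit 1) (nat_lit 96) (nat_lit 1) (nat_lit 280) (nat_lit 371) (nat_lit 249)) (XT.lf (nat_lit 152) (nat_lit 213283014678) (nat_lit 0) (nat_lit 16951) (nat_lit 76) (nat_lit 16951) (nat_lit 95) (nat_lit 1) (nat_lit 93) (nat_lit 1) (nat_lit 94) (nat_lit 1) (nat_lit 281) (nat_lit 371) (nat_lit 248))) (XT.nd (nat_lit 78) (nat_lit 228) (nat_lit 0) (XT.lf (nat_lit 0) (nat_lit 67708890181) (nat_lit 0) (nat_lit 67708932480) (nat_lit 152) (nat_lit 67708890181) (nat_lit 93) (nat_lit 3) (nat_lit 93) (nat_lit 1) (nat_lit 95) (nat_lit 1) (nat_lit 282) (nat_lit 371) (nat_lit 247)) (XT.nd (nat_lit 78) (nat_lit 152) (nat_lit 0) (XT.lf (nat_lit 76) (nat_lit 64631202209) (nat_lit 0) (nat_lit 64631238991) (nat_lit 76) (nat_lit 64631238991) (nat_lit 93) (nat_lit 3) (nat_lit 92) (nat_lit 1) (nat_lit 93) (nat_lit 1) (nat_lit 283) (nat_lit 371)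 (nat_lit 246)) (XT.lf (nat_lit 152) (nat_lit 185463500463) (nat_lit 0) (nat_lit 9692) (nat_lit 76) (nat_lit 9692) (nat_lit 92) (nat_lit 1) (nat_lit 90) (nat_lit 1) (nat_lit 91) (nat_lit 1) (nat_lit 284) (nat_lit 371) (nat_lit 245))))) (XT.nd (nat_lit 234) (nat_lit 228) (nat_lit 0) (XT.nd (nat_lit 78) (nat_lit 228) (nat_lit 0) (XT.lf (nat_lit 0) (nat_lit 58877299809) (nat_lit 0) (nat_lit 58877323993) (nat_lit 152) (nat_lit 58877299809) (nat_lit 90) (nat_lit 3) (nat_lit 90) (nat_lit 1) (nat_lit 92) (nat_lit 1) (nat_lit 285) (nat_lit 371) (nat_lit 244)) (XT.nd (nat_lit 78) (nat_lit 152) (nat_lit 0) (XT.lf (nat_lit 76) (nat_lit 56201052535) (nat_lit 0) (nat_lit 56201073566) (nat_lit 76) (nat_lit 56201073566) (nat_lit 90) (nat_lit 3) (nat_lit 89) (nat_lit 1) (nat_lit 90) (nat_lit 1) (nat_lit 286) (nat_lit 371) (nat_lit 243)) (XT.lf (nat_lit 152) (nat_lit 161272614495) (nat_lit 0) (nat_lit 5541) (nat_lit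 76) (nat_lit 5541) (nat_lit 89) (nat_lit 1) (nat_lit 87) (nat_lit 1) (nat_lit 88) (nat_lit 1) (nat_lit 287) (nat_lit 371) (nat_lit 242)))) (XT.nd (nat_lit 78) (nat_lit 228) (nat_lit 0) (XT.lf (nat_lit 0) (nat_lit 51197654294) (nat_lit 0) (nat_lit 51197668122) (nat_lit 152) (nat_lit 51197654294) (nat_lit 87) (nat_lit 3) (nat_lit 87) (nat_lit 1) (nat_lit 89) (nat_lit 1) (nat_lit 288) (nat_lit 371) (nat_lit 241)) (XT.nd (nat_lit 78) (nat_lit 152) (nat_lit 0) (XT.lf (nat_lit 76) (nat_lit 48870484546) (nat_lit 0) (nat_lit 48870496570) (nat_lit 76) (nat_lit 48870496570) (nat_lit 87) (nat_lit 3) (nat_lit 86) (nat_lit 1) (nat_lit 87) (nat_lit 1) (nat_lit 289) (nat_lit 371) (nat_lit 240)) (XT.lf (nat_lit 152) (nat_lit 140237059168) (nat_lit 0) (nat_lit 3168) (nat_lit 76) (nat_lit 3168) (nat_lit 86) (nat_lit 1) (nat_lit 84) (nat_lit 1) (nat_lit 85) (nat_lit 1) (nat_lit 290) (nat_lit 371) (nat_lit 239))))))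 (XT.nd (nat_lit 468) (nat_lit 456) (nat_lit 0) (XT.nd (nat_lit 234) (nat_lit 228) (nat_lit 0) (XT.nd (nat_lit 78) (nat_lit 228) (nat_lit 0) (XT.lf (nat_lit 0) (nat_lit 44519700693) (nat_lit 0) (nat_lit 44519708599) (nat_lit 152) (nat_lit 44519700693) (nat_lit 84) (nat_lit 3) (nat_lit 84) (nat_lit 1) (nat_lit 86) (nat_lit 1) (nat_lit 291) (nat_lit 371) (nat_lit 238)) (XT.nd (nat_lit 78) (nat_lit 152) (nat_lit 0) (XT.lf (nat_lit 76) (nat_lit 42496075851) (nat_lit 0) (nat_lit 42496082726) (nat_lit 76) (nat_lit 42496082726) (nat_lit 84) (nat_lit 3) (nat_lit 83) (nat_lit 1) (nat_lit 84) (nat_lit 1) (nat_lit 292) (nat_lit 371) (nat_lit 237)) (XT.lf (nat_lit 152) (nat_lit 121945270605) (nat_lit 0) (nat_lit 1811) (nat_lit 76) (nat_lit 1811) (nat_lit 83) (nat_lit 1) (nat_lit 81) (nat_lit 1) (nat_lit 82) (nat_lit 1) (nat_lit 293) (nat_lit 371) (nat_lit 236)))) (XT.nd (nat_lit 78) (nat_lit 228) (nat_lit 0)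 (XT.lf (nat_lit 0) (nat_lit 38712783959) (nat_lit 0) (nat_lit 38712788479) (nat_lit 152) (nat_lit 38712783959) (nat_lit 81) (nat_lit 3) (nat_lit 81) (nat_lit 1) (nat_lit 83) (nat_lit 1) (nat_lit 294) (nat_lit 371) (nat_lit 235)) (XT.nd (nat_lit 78) (nat_lit 152) (nat_lit 0) (XT.lf (nat_lit 76) (nat_lit 36953110770) (nat_lit 0) (nat_lit 36953114700) (nat_lit 76) (nat_lit 36953114700) (nat_lit 81) (nat_lit 3) (nat_lit 80) (nat_lit 1) (nat_lit 81) (nat_lit 1) (nat_lit 295) (nat_lit 371) (nat_lit 234)) (XT.lf (nat_lit 152) (nat_lit 106039366752) (nat_lit 0) (nat_lit 1035) (nat_lit 76) (nat_lit 1035) (nat_lit 80) (nat_lit 1) (nat_lit 78) (nat_lit 1) (nat_lit 79) (nat_lit 1) (nat_lit 296) (nat_lit 371) (nat_lit 233))))) (XT.nd (nat_lit 234) (nat_lit 228) (nat_lit 0) (XT.nd (nat_lit 78) (nat_lit 228) (nat_lit 0) (XT.lf (nat_lit 0) (nat_lit 33663290826) (nat_lit 0) (nat_lit 33663293411) (nat_lit 152) (nat_lit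 33663290826) (nat_lit 78) (nat_lit 3) (nat_lit 78) (nat_lit 1) (nat_lit 80) (nat_lit 1) (nat_lit 297) (nat_lit 371) (nat_lit 232)) (XT.nd (nat_lit 78) (nat_lit 152) (nat_lit 0) (XT.lf (nat_lit 76) (nat_lit 32133140562) (nat_lit 0) (nat_lit 32133142810) (nat_lit 76) (nat_lit 32133142810) (nat_lit 78) (nat_lit 3) (nat_lit 77) (nat_lit 1) (nat_lit 78) (nat_lit 1) (nat_lit 298) (nat_lit 371) (nat_lit 231)) (XT.lf (nat_lit 152) (nat_lit 92208145579) (nat_lit 0) (nat_lit 592) (nat_lit 76) (nat_lit 592) (nat_lit 77) (nat_lit 1) (nat_lit 75) (nat_lit 1) (nat_lit 76) (nat_lit 1) (nat_lit 299) (nat_lit 371) (nat_lit 230)))) (XT.nd (nat_lit 78) (nat_lit 228) (nat_lit 0) (XT.lf (nat_lit 0) (nat_lit 29272427050) (nat_lit 0) (nat_lit 29272428528) (nat_lit 152) (nat_lit 29272427050) (nat_lit 75) (nat_lit 3) (nat_lit 75) (nat_lit 1) (nat_lit 77) (nat_lit 1) (nat_lit 300) (nat_lit 371) (nat_lit 229)) (XT.nd (nat_lit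 78) (nat_lit 152) (nat_lit 0) (XT.lf (nat_lit 76) (nat_lit 27941861795) (nat_lit 0) (nat_lit 27941863080) (nat_lit 76) (nat_lit 27941863080) (nat_lit 75) (nat_lit 3) (nat_lit 74) (nat_lit 1) (nat_lit 75) (nat_lit 1) (nat_lit 301) (nat_lit 371) (nat_lit 228)) (XT.lf (nat_lit 152) (nat_lit 80180996485) (nat_lit 0) (nat_lit 338) (nat_lit 76) (nat_lit 338) (nat_lit 74) (nat_lit 1) (nat_lit 72) (nat_lit 1) (nat_lit 73) (nat_lit 1) (nat_lit 302) (nat_lit 371) (nat_lit 227))))))))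
noncomputable def ec252 : XT := (XT.nd (nat_lit 1716) (nat_lit 1672) (nat_lit 0) (XT.nd (nat_lit 858) (nat_lit 836) (nat_lit 0) (XT.nd (nat_lit 390) (nat_lit 456) (nat_lit 0) (XT.nd (nat_lit 156) (nat_lit 228) (nat_lit 0) (XT.nd (nat_lit 78) (nat_lit 76) (nat_lit 0) (XT.lf (nat_lit 0) (nat_lit 25454284531) (nat_lit 0) (nat_lit 25454285376) (nat_lit 152) (nat_lit 25454284531) (nat_lit 72) (nat_lit 3) (nat_lit 72) (nat_lit 1) (nat_lit 74) (nat_lit 1) (nat_lit 303) (nat_lit 371) (nat_lit 226)) (XT.lf (nat_lit 76) (nat_lit 24297271375) (nat_lit 0) (nat_lit 24297272110) (nat_lit 76) (nat_lit 24297272110) (nat_lit 72) (nat_lit 3) (nat_lit 71) (nat_lit 1) (nat_lit 72) (nat_lit 1) (nat_lit 304) (nat_lit 371) (nat_lit 225))) (XT.nd (nat_lit 78) (nat_lit 76) (nat_lit 0) (XT.lf (nat_lit 152) (nat_lit 69722605828) (nat_lit 0) (nat_lit 193) (nat_lit 76) (nat_lit 193) (nat_lit 71) (nat_lit 1) (nat_lit 69) (nat_lit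 1) (nat_lit 70) (nat_lit 1) (nat_lit 305) (nat_lit 371) (nat_lit 224)) (XT.nd (nat_lit 78) (nat_lit 76) (nat_lit 0) (XT.lf (nat_lit 0) (nat_lit 22134160541) (nat_lit 0) (nat_lit 22134161024) (nat_lit 152) (nat_lit 22134160541) (nat_lit 69) (nat_lit 3) (nat_lit 69) (nat_lit 1) (nat_lit 71) (nat_lit 1) (nat_lit 306) (nat_lit 371) (nat_lit 223)) (XT.lf (nat_lit 76) (nat_lit 21128062208) (nat_lit 0) (nat_lit 21128062628) (nat_lit 76) (nat_lit 21128062628) (nat_lit 69) (nat_lit 3) (nat_lit 68) (nat_lit 1) (nat_lit 69) (nat_lit 1) (nat_lit 307) (nat_lit 371) (nat_lit 222))))) (XT.nd (nat_lit 234) (nat_lit 228) (nat_lit 0) (XT.nd (nat_lit 78) (nat_lit 76) (nat_lit 0) (XT.lf (nat_lit 152) (nat_lit 60628353001) (nat_lit 0) (nat_lit 110) (nat_lit 76) (nat_lit 110) (nat_lit 68) (nat_lit 1) (nat_lit 66) (nat_lit 1) (nat_lit 67) (nat_lit 1) (nat_lit 308) (nat_lit 371) (nat_lit 221)) (XT.nd (nat_lit 78) (nat_lit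 76) (nat_lit 0) (XT.lf (nat_lit 0) (nat_lit 19247096169) (nat_lit 0) (nat_lit 19247096445) (nat_lit 152) (nat_lit 19247096169) (nat_lit 66) (nat_lit 3) (nat_lit 66) (nat_lit 1) (nat_lit 68) (nat_lit 1) (nat_lit 309) (nat_lit 371) (nat_lit 220)) (XT.lf (nat_lit 76) (nat_lit 18372228088) (nat_lit 0) (nat_lit 18372228328) (nat_lit 76) (nat_lit 18372228328) (nat_lit 66) (nat_lit 3) (nat_lit 65) (nat_lit 1) (nat_lit 66) (nat_lit 1) (nat_lit 310) (nat_lit 371) (nat_lit 219)))) (XT.nd (nat_lit 78) (nat_lit 76) (nat_lit 0) (XT.lf (nat_lit 152) (nat_lit 52720307019) (nat_lit 0) (nat_lit 63) (nat_lit 76) (nat_lit 63) (nat_lit 65) (nat_lit 1) (nat_lit 63) (nat_lit 1) (nat_lit 64) (nat_lit 1) (nat_lit 311) (nat_lit 371) (nat_lit 218)) (XT.nd (nat_lit 78) (nat_lit 76) (nat_lit 0) (XT.lf (nat_lit 0) (nat_lit 16736605390) (nat_lit 0) (nat_lit 16736605548) (nat_lit 152) (nat_lit 16736605390) (nat_lit 63) (nat_lit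 3) (nat_lit 63) (nat_lit 1) (nat_lit 65) (nat_lit 1) (nat_lit 312) (nat_lit 371) (nat_lit 217)) (XT.lf (nat_lit 76) (nat_lit 15975850558) (nat_lit 0) (nat_lit 15975850695) (nat_lit 76) (nat_lit 15975850695) (nat_lit 63) (nat_lit 3) (nat_lit 62) (nat_lit 1) (nat_lit 63) (nat_lit 1) (nat_lit 313) (nat_lit 371) (nat_lit 216)))))) (XT.nd (nat_lit 390) (nat_lit 456) (nat_lit 0) (XT.nd (nat_lit 156) (nat_lit 228) (nat_lit 0) (XT.nd (nat_lit 78) (nat_lit 0) (nat_lit 0) (XT.lf (nat_lit 152) (nat_lit 45843745269) (nat_lit 0) (nat_lit 36) (nat_lit 76) (nat_lit 36) (nat_lit 62) (nat_lit 1) (nat_lit 60) (nat_lit 1) (nat_lit 61) (nat_lit 1) (nat_lit 314) (nat_lit 371) (nat_lit 215)) (XT.lf (nat_lit 0) (nat_lit 14553569919) (nat_lit 0) (nat_lit 14553570010) (nat_lit 152) (nat_lit 14553569919) (nat_lit 60) (nat_lit 3) (nat_lit 60) (nat_lit 1) (nat_lit 62) (nat_lit 1) (nat_lit 315) (nat_lit 371) (nat_lit 214)))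 (XT.nd (nat_lit 78) (nat_lit 152) (nat_lit 0) (XT.lf (nat_lit 76) (nat_lit 13892043990) (nat_lit 0) (nat_lit 13892044069) (nat_lit 76) (nat_lit 13892044069) (nat_lit 60) (nat_lit 3) (nat_lit 59) (nat_lit 1) (nat_lit 60) (nat_lit 1) (nat_lit 316) (nat_lit 371) (nat_lit 213)) (XT.nd (nat_lit 78) (nat_lit 0) (nat_lit 0) (XT.lf (nat_lit 152) (nat_lit 39864126341) (nat_lit 0) (nat_lit 20) (nat_lit 76) (nat_lit 20) (nat_lit 59) (nat_lit 1) (nat_lit 57) (nat_lit 1) (nat_lit 58) (nat_lit 1) (nat_lit 317) (nat_lit 371) (nat_lit 212)) (XT.lf (nat_lit 0) (nat_lit 12655278199) (nat_lit 0) (nat_lit 12655278251) (nat_lit 152) (nat_lit 12655278199) (nat_lit 57) (nat_lit 3) (nat_lit 57) (nat_lit 1) (nat_lit 59) (nat_lit 1) (nat_lit 318) (nat_lit 371) (nat_lit 211))))) (XT.nd (nat_lit 234) (nat_lit 228) (nat_lit 0) (XT.nd (nat_lit 78) (nat_lit 152) (nat_lit 0) (XT.lf (nat_lit 76) (nat_lit 12080038267) (nat_lit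 0) (nat_lit 12080038312) (nat_lit 76) (nat_lit 12080038312) (nat_lit 57) (nat_lit 3) (nat_lit 56) (nat_lit 1) (nat_lit 57) (nat_lit 1) (nat_lit 319) (nat_lit 371) (nat_lit 210)) (XT.nd (nat_lit 78) (nat_lit 0) (nat_lit 0) (XT.lf (nat_lit 152) (nat_lit 34664457699) (nat_lit 0) (nat_lit 11) (nat_lit 76) (nat_lit 11) (nat_lit 56) (nat_lit 1) (nat_lit 54) (nat_lit 1) (nat_lit 55) (nat_lit 1) (nat_lit 320) (nat_lit 371) (nat_lit 209)) (XT.lf (nat_lit 0) (nat_lit 11004589743) (nat_lit 0) (nat_lit 11004589773) (nat_lit 152) (nat_lit 11004589743) (nat_lit 54) (nat_lit 3) (nat_lit 54) (nat_lit 1) (nat_lit 56) (nat_lit 1) (nat_lit 321) (nat_lit 371) (nat_lit 208)))) (XT.nd (nat_lit 78) (nat_lit 152) (nat_lit 0) (XT.lf (nat_lit 76) (nat_lit 10504381111) (nat_lit 0) (nat_lit 10504381136) (nat_lit 76) (nat_lit 10504381136) (nat_lit 54) (nat_lit 3) (nat_lit 53) (nat_lit 1) (nat_lit 54) (nat_lit 1) (nat_lit 322)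 (nat_lit 371) (nat_lit 207)) (XT.nd (nat_lit 78) (nat_lit 0) (nat_lit 0) (XT.lf (nat_lit 152) (nat_lit 30143006702) (nat_lit 0) (nat_lit 6) (nat_lit 76) (nat_lit 6) (nat_lit 53) (nat_lit 1) (nat_lit 51) (nat_lit 1) (nat_lit 52) (nat_lit 1) (nat_lit 323) (nat_lit 371) (nat_lit 206)) (XT.lf (nat_lit 0) (nat_lit 9569208475) (nat_lit 0) (nat_lit 9569208492) (nat_lit 152) (nat_lit 9569208475) (nat_lit 51) (nat_lit 3) (nat_lit 51) (nat_lit 1) (nat_lit 53) (nat_lit 1) (nat_lit 324) (nat_lit 371) (nat_lit 205))))))) (XT.nd (nat_lit 858) (nat_lit 912) (nat_lit 0) (XT.nd (nat_lit 390) (nat_lit 304) (nat_lit 0) (XT.nd (nat_lit 156) (nat_lit 228) (nat_lit 0) (XT.nd (nat_lit 78) (nat_lit 152) (nat_lit 0) (XT.lf (nat_lit 76) (nat_lit 9134244449) (nat_lit 0) (nat_lit 9134244464) (nat_lit 76) (nat_lit 9134244464) (nat_lit 51) (nat_lit 3) (nat_lit 50) (nat_lit 1) (nat_lit 51) (nat_lit 1) (nat_lit 325) (nat_lit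 371) (nat_lit 204)) (XT.lf (nat_lit 152) (nat_lit 26211310179) (nat_lit 0) (nat_lit 3) (nat_lit 76) (nat_lit 3) (nat_lit 50) (nat_lit 1) (nat_lit 48) (nat_lit 1) (nat_lit 49) (nat_lit 1) (nat_lit 326) (nat_lit 371) (nat_lit 203))) (XT.nd (nat_lit 78) (nat_lit 228) (nat_lit 0) (XT.lf (nat_lit 0) (nat_lit 8321050849) (nat_lit 0) (nat_lit 8321050859) (nat_lit 152) (nat_lit 8321050849) (nat_lit 48) (nat_lit 3) (nat_lit 48) (nat_lit 1) (nat_lit 50) (nat_lit 1) (nat_lit 327) (nat_lit 371) (nat_lit 202)) (XT.nd (nat_lit 78) (nat_lit 152) (nat_lit 0) (XT.lf (nat_lit 76) (nat_lit 7942821263) (nat_lit 0) (nat_lit 7942821271) (nat_lit 76) (nat_lit 7942821271) (nat_lit 48) (nat_lit 3) (nat_lit 47) (nat_lit 1) (nat_lit 48) (nat_lit 1) (nat_lit 328) (nat_lit 371) (nat_lit 201)) (XT.lf (nat_lit 152) (nat_lit 22792443636) (nat_lit 0) (nat_lit 2) (nat_lit 76) (nat_lit 2) (nat_lit 47) (nat_lit 1) (nat_lit 45) (nat_lit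 1) (nat_lit 46) (nat_lit 1) (nat_lit 329) (nat_lit 371) (nat_lit 200))))) (XT.nd (nat_lit 234) (nat_lit 76) (nat_lit 0) (XT.nd (nat_lit 78) (nat_lit 228) (nat_lit 0) (XT.lf (nat_lit 0) (nat_lit 7235696392) (nat_lit 0) (nat_lit 7235696397) (nat_lit 152) (nat_lit 7235696392) (nat_lit 45) (nat_lit 3) (nat_lit 45) (nat_lit 1) (nat_lit 47) (nat_lit 1) (nat_lit 330) (nat_lit 371) (nat_lit 199)) (XT.nd (nat_lit 78) (nat_lit 152) (nat_lit 0) (XT.lf (nat_lit 76) (nat_lit 6906801100) (nat_lit 0) (nat_lit 6906801104) (nat_lit 76) (nat_lit 6906801104) (nat_lit 45) (nat_lit 3) (nat_lit 44) (nat_lit 1) (nat_lit 45) (nat_lit 1) (nat_lit 331) (nat_lit 371) (nat_lit 198)) (XT.lf (nat_lit 152) (nat_lit 19819516206) (nat_lit 0) (nat_lit 1) (nat_lit 76) (nat_lit 1) (nat_lit 44) (nat_lit 1) (nat_lit 42) (nat_lit 1) (nat_lit 43) (nat_lit 1) (nat_lit 332) (nat_lit 371) (nat_lit 197)))) (XT.nd (nat_lit 78) (nat_lit 76)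 (nat_lit 0) (XT.lf (nat_lit 0) (nat_lit 6291909906) (nat_lit 0) (nat_lit 6291909909) (nat_lit 152) (nat_lit 6291909906) (nat_lit 42) (nat_lit 3) (nat_lit 42) (nat_lit 1) (nat_lit 44) (nat_lit 1) (nat_lit 333) (nat_lit 371) (nat_lit 196)) (XT.nd (nat_lit 78) (nat_lit 0) (nat_lit 0) (XT.lf (nat_lit 76) (nat_lit 6005914001) (nat_lit 0) (nat_lit 6005914003) (nat_lit 76) (nat_lit 6005914003) (nat_lit 42) (nat_lit 3) (nat_lit 41) (nat_lit 1) (nat_lit 42) (nat_lit 1) (nat_lit 334) (nat_lit 371) (nat_lit 195)) (XT.lf (nat_lit 0) (nat_lit 17234361919) (nat_lit 0) (nat_lit 0) (nat_lit 0) (nat_lit 0) (nat_lit 41) (nat_lit 1) (nat_lit 1) (nat_lit 0) (nat_lit 1) (nat_lit 0) (nat_lit 335) (nat_lit 371) (nat_lit 194)))))) (XT.nd (nat_lit 390) (nat_lit 456) (nat_lit 0) (XT.nd (nat_lit 156) (nat_lit 228) (nat_lit 0) (XT.nd (nat_lit 78) (nat_lit 76) (nat_lit 0) (XT.lf (nat_lit 0) (nat_lit 5471226006) (nat_lit 0)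 (nat_lit 5471226007) (nat_lit 152) (nat_lit 5471226006) (nat_lit 39) (nat_lit 3) (nat_lit 39) (nat_lit 1) (nat_lit 41) (nat_lit 1) (nat_lit 336) (nat_lit 371) (nat_lit 193)) (XT.lf (nat_lit 76) (nat_lit 5222533914) (nat_lit 0) (nat_lit 5222533916) (nat_lit 76) (nat_lit 5222533916) (nat_lit 39) (nat_lit 3) (nat_lit 38) (nat_lit 1) (nat_lit 39) (nat_lit 1) (nat_lit 337) (nat_lit 371) (nat_lit 192))) (XT.nd (nat_lit 78) (nat_lit 228) (nat_lit 0) (XT.lf (nat_lit 0) (nat_lit 14986401669) (nat_lit 0) (nat_lit 0) (nat_lit 0) (nat_lit 0) (nat_lit 38) (nat_lit 1) (nat_lit 1) (nat_lit 0) (nat_lit 1) (nat_lit 0) (nat_lit 338) (nat_lit 371) (nat_lit 191)) (XT.nd (nat_lit 78) (nat_lit 76) (nat_lit 0) (XT.lf (nat_lit 0) (nat_lit 4757587831) (nat_lit 0) (nat_lit 4757587832) (nat_lit 152) (nat_lit 4757587831) (nat_lit 36) (nat_lit 3) (nat_lit 36) (nat_lit 1) (nat_lit 38) (nat_lit 1) (nat_lit 339) (nat_lit 371)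 (nat_lit 190)) (XT.lf (nat_lit 76) (nat_lit 4541333838) (nat_lit 0) (nat_lit 4541333839) (nat_lit 76) (nat_lit 4541333839) (nat_lit 36) (nat_lit 3) (nat_lit 35) (nat_lit 1) (nat_lit 36) (nat_lit 1) (nat_lit 340) (nat_lit 371) (nat_lit 189))))) (XT.nd (nat_lit 234) (nat_lit 228) (nat_lit 0) (XT.nd (nat_lit 78) (nat_lit 228) (nat_lit 0) (XT.lf (nat_lit 0) (nat_lit 13031653626) (nat_lit 0) (nat_lit 0) (nat_lit 0) (nat_lit 0) (nat_lit 35) (nat_lit 1) (nat_lit 1) (nat_lit 0) (nat_lit 1) (nat_lit 0) (nat_lit 341) (nat_lit 371) (nat_lit 188)) (XT.nd (nat_lit 78) (nat_lit 76) (nat_lit 0) (XT.lf (nat_lit 0) (nat_lit 4137032897) (nat_lit 0) (nat_lit 4137032897) (nat_lit 152) (nat_lit 4137032897) (nat_lit 33) (nat_lit 3) (nat_lit 33) (nat_lit 1) (nat_lit 35) (nat_lit 1) (nat_lit 342) (nat_lit 371) (nat_lit 187)) (XT.lf (nat_lit 76) (nat_lit 3948985947) (nat_lit 0) (nat_lit 3948985947) (nat_lit 76) (nat_lit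 3948985947) (nat_lit 33) (nat_lit 3) (nat_lit 32) (nat_lit 1) (nat_lit 33) (nat_lit 1) (nat_lit 343) (nat_lit 371) (nat_lit 186)))) (XT.nd (nat_lit 78) (nat_lit 228) (nat_lit 0) (XT.lf (nat_lit 0) (nat_lit 11331872718) (nat_lit 0) (nat_lit 0) (nat_lit 0) (nat_lit 0) (nat_lit 32) (nat_lit 1) (nat_lit 1) (nat_lit 0) (nat_lit 1) (nat_lit 0) (nat_lit 344) (nat_lit 371) (nat_lit 185)) (XT.nd (nat_lit 78) (nat_lit 76) (nat_lit 0) (XT.lf (nat_lit 0) (nat_lit 3597419910) (nat_lit 0) (nat_lit 3597419910) (nat_lit 152) (nat_lit 3597419910) (nat_lit 30) (nat_lit 3) (nat_lit 30) (nat_lit 1) (nat_lit 32) (nat_lit 1) (nat_lit 345) (nat_lit 371) (nat_lit 184)) (XT.lf (nat_lit 76) (nat_lit 3433900823) (nat_lit 0) (nat_lit 3433900823) (nat_lit 76) (nat_lit 3433900823) (nat_lit 30) (nat_lit 3) (nat_lit 29) (nat_lit 1) (nat_lit 30) (nat_lit 1) (nat_lit 346) (nat_lit 371) (nat_lit 183))))))))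
noncomputable def ec253 : XT := (XT.nd (nat_lit 1716) (nat_lit 380) (nat_lit 0) (XT.nd (nat_lit 858) (nat_lit 760) (nat_lit 0) (XT.nd (nat_lit 390) (nat_lit 456) (nat_lit 0) (XT.nd (nat_lit 156) (nat_lit 228) (nat_lit 0) (XT.nd (nat_lit 78) (nat_lit 152) (nat_lit 0) (XT.lf (nat_lit 0) (nat_lit 9853802363) (nat_lit 0) (nat_lit 0) (nat_lit 0) (nat_lit 0) (nat_lit 29) (nat_lit 1) (nat_lit 1) (nat_lit 0) (nat_lit 1) (nat_lit 0) (nat_lit 347) (nat_lit 371) (nat_lit 182)) (XT.lf (nat_lit 0) (nat_lit 3128191226) (nat_lit 0) (nat_lit 3128191226) (nat_lit 152) (nat_lit 3128191226) (nat_lit 27) (nat_lit 3) (nat_lit 27) (nat_lit 1) (nat_lit 29) (nat_lit 1) (nat_lit 348) (nat_lit 371) (nat_lit 181))) (XT.nd (nat_lit 78) (nat_lit 152) (nat_lit 0) (XT.lf (nat_lit 76) (nat_lit 2986000716) (nat_lit 0) (nat_lit 2986000716) (nat_lit 76) (nat_lit 2986000716) (nat_lit 27) (nat_lit 3) (nat_lit 26) (nat_lit 1) (nat_lit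 27) (nat_lit 1) (nat_lit 349) (nat_lit 371) (nat_lit 180)) (XT.nd (nat_lit 78) (nat_lit 152) (nat_lit 0) (XT.lf (nat_lit 0) (nat_lit 8568523794) (nat_lit 0) (nat_lit 0) (nat_lit 0) (nat_lit 0) (nat_lit 26) (nat_lit 1) (nat_lit 1) (nat_lit 0) (nat_lit 1) (nat_lit 0) (nat_lit 350) (nat_lit 371) (nat_lit 179)) (XT.lf (nat_lit 0) (nat_lit 2720166284) (nat_lit 0) (nat_lit 2720166284) (nat_lit 152) (nat_lit 2720166284) (nat_lit 24) (nat_lit 3) (nat_lit 24) (nat_lit 1) (nat_lit 26) (nat_lit 1) (nat_lit 351) (nat_lit 371) (nat_lit 178))))) (XT.nd (nat_lit 234) (nat_lit 228) (nat_lit 0) (XT.nd (nat_lit 78) (nat_lit 152) (nat_lit 0) (XT.lf (nat_lit 76) (nat_lit 2596522362) (nat_lit 0) (nat_lit 2596522362) (nat_lit 76) (nat_lit 2596522362) (nat_lit 24) (nat_lit 3) (nat_lit 23) (nat_lit 1) (nat_lit 24) (nat_lit 1) (nat_lit 352) (nat_lit 371) (nat_lit 177)) (XT.nd (nat_lit 78) (nat_lit 152) (nat_lit 0) (XT.lf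 (nat_lit 0) (nat_lit 7450890256) (nat_lit 0) (nat_lit 0) (nat_lit 0) (nat_lit 0) (nat_lit 23) (nat_lit 1) (nat_lit 1) (nat_lit 0) (nat_lit 1) (nat_lit 0) (nat_lit 353) (nat_lit 371) (nat_lit 176)) (XT.lf (nat_lit 0) (nat_lit 2365361986) (nat_lit 0) (nat_lit 2365361986) (nat_lit 152) (nat_lit 2365361986) (nat_lit 21) (nat_lit 3) (nat_lit 21) (nat_lit 1) (nat_lit 23) (nat_lit 1) (nat_lit 354) (nat_lit 371) (nat_lit 175)))) (XT.nd (nat_lit 78) (nat_lit 152) (nat_lit 0) (XT.lf (nat_lit 76) (nat_lit 2257845532) (nat_lit 0) (nat_lit 2257845532) (nat_lit 76) (nat_lit 2257845532) (nat_lit 21) (nat_lit 3) (nat_lit 20) (nat_lit 1) (nat_lit 21) (nat_lit 1) (nat_lit 355) (nat_lit 371) (nat_lit 174)) (XT.nd (nat_lit 78) (nat_lit 152) (nat_lit 0) (XT.lf (nat_lit 0) (nat_lit 6479035005) (nat_lit 0) (nat_lit 0) (nat_lit 0) (nat_lit 0) (nat_lit 20) (nat_lit 1) (nat_lit 1) (nat_lit 0) (nat_lit 1) (nat_lit 0) (nat_lit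 356) (nat_lit 371) (nat_lit 173)) (XT.lf (nat_lit 0) (nat_lit 2056836509) (nat_lit 0) (nat_lit 2056836509) (nat_lit 152) (nat_lit 2056836509) (nat_lit 18) (nat_lit 3) (nat_lit 18) (nat_lit 1) (nat_lit 20) (nat_lit 1) (nat_lit 357) (nat_lit 371) (nat_lit 172)))))) (XT.nd (nat_lit 390) (nat_lit 456) (nat_lit 0) (XT.nd (nat_lit 156) (nat_lit 228) (nat_lit 0) (XT.nd (nat_lit 78) (nat_lit 0) (nat_lit 0) (XT.lf (nat_lit 76) (nat_lit 1963343941) (nat_lit 0) (nat_lit 1963343941) (nat_lit 76) (nat_lit 1963343941) (nat_lit 18) (nat_lit 3) (nat_lit 17) (nat_lit 1) (nat_lit 18) (nat_lit 1) (nat_lit 358) (nat_lit 371) (nat_lit 171)) (XT.lf (nat_lit 0) (nat_lit 5633943483) (nat_lit 0) (nat_lit 0) (nat_lit 0) (nat_lit 0) (nat_lit 17) (nat_lit 1) (nat_lit 1) (nat_lit 0) (nat_lit 1) (nat_lit 0) (nat_lit 359) (nat_lit 371) (nat_lit 170))) (XT.nd (nat_lit 78) (nat_lit 76) (nat_lit 0) (XT.lf (nat_lit 0) (nat_lit 1788553486)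 (nat_lit 0) (nat_lit 1788553486) (nat_lit 152) (nat_lit 1788553486) (nat_lit 15) (nat_lit 3) (nat_lit 15) (nat_lit 1) (nat_lit 17) (nat_lit 1) (nat_lit 360) (nat_lit 371) (nat_lit 169)) (XT.nd (nat_lit 78) (nat_lit 0) (nat_lit 0) (XT.lf (nat_lit 76) (nat_lit 1707255600) (nat_lit 0) (nat_lit 1707255600) (nat_lit 76) (nat_lit 1707255600) (nat_lit 15) (nat_lit 3) (nat_lit 14) (nat_lit 1) (nat_lit 15) (nat_lit 1) (nat_lit 361) (nat_lit 371) (nat_lit 168)) (XT.lf (nat_lit 0) (nat_lit 4899081289) (nat_lit 0) (nat_lit 0) (nat_lit 0) (nat_lit 0) (nat_lit 14) (nat_lit 1) (nat_lit 1) (nat_lit 0) (nat_lit 1) (nat_lit 0) (nat_lit 362) (nat_lit 371) (nat_lit 167))))) (XT.nd (nat_lit 234) (nat_lit 228) (nat_lit 0) (XT.nd (nat_lit 78) (nat_lit 76) (nat_lit 0) (XT.lf (nat_lit 0) (nat_lit 1555263901) (nat_lit 0) (nat_lit 1555263901) (nat_lit 152) (nat_lit 1555263901) (nat_lit 12) (nat_lit 3) (nat_lit 12) (nat_lit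 1) (nat_lit 14) (nat_lit 1) (nat_lit 363) (nat_lit 371) (nat_lit 166)) (XT.nd (nat_lit 78) (nat_lit 0) (nat_lit 0) (XT.lf (nat_lit 76) (nat_lit 1484570087) (nat_lit 0) (nat_lit 1484570087) (nat_lit 76) (nat_lit 1484570087) (nat_lit 12) (nat_lit 3) (nat_lit 11) (nat_lit 1) (nat_lit 12) (nat_lit 1) (nat_lit 364) (nat_lit 371) (nat_lit 165)) (XT.lf (nat_lit 0) (nat_lit 4260070686) (nat_lit 0) (nat_lit 0) (nat_lit 0) (nat_lit 0) (nat_lit 11) (nat_lit 1) (nat_lit 1) (nat_lit 0) (nat_lit 1) (nat_lit 0) (nat_lit 365) (nat_lit 371) (nat_lit 164)))) (XT.nd (nat_lit 78) (nat_lit 76) (nat_lit 0) (XT.lf (nat_lit 0) (nat_lit 1352403392) (nat_lit 0) (nat_lit 1352403392) (nat_lit 152) (nat_lit 1352403392) (nat_lit 9) (nat_lit 3) (nat_lit 9) (nat_lit 1) (nat_lit 11) (nat_lit 1) (nat_lit 366) (nat_lit 371) (nat_lit 163)) (XT.nd (nat_lit 78) (nat_lit 0) (nat_lit 0) (XT.lf (nat_lit 76) (nat_lit 1290930511) (nat_lit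 0) (nat_lit 1290930511) (nat_lit 76) (nat_lit 1290930511) (nat_lit 9) (nat_lit 3) (nat_lit 8) (nat_lit 1) (nat_lit 9) (nat_lit 1) (nat_lit 367) (nat_lit 371) (nat_lit 162)) (XT.lf (nat_lit 0) (nat_lit 3704409292) (nat_lit 0) (nat_lit 0) (nat_lit 0) (nat_lit 0) (nat_lit 8) (nat_lit 1) (nat_lit 1) (nat_lit 0) (nat_lit 1) (nat_lit 0) (nat_lit 368) (nat_lit 371) (nat_lit 161))))))) (XT.nd (nat_lit 30810) (nat_lit 0) (nat_lit 10716) (XT.nd (nat_lit 30342) (nat_lit 0) (nat_lit 15960) (XT.nd (nat_lit 156) (nat_lit 152) (nat_lit 0) (XT.nd (nat_lit 78) (nat_lit 76) (nat_lit 0) (XT.lf (nat_lit 0) (nat_lit 1176002950) (nat_lit 0) (nat_lit 1176002950) (nat_lit 152) (nat_lit 1176002950) (nat_lit 6) (nat_lit 3) (nat_lit 6) (nat_lit 1) (nat_lit 8) (nat_lit 1) (nat_lit 369) (nat_lit 371) (nat_lit 160)) (XT.lf (nat_lit 76) (nat_lit 1122548270) (nat_lit 0) (nat_lit 1122548270) (nat_lit 76) (nat_lit 1122548270) (nat_lit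 6) (nat_lit 3) (nat_lit 5) (nat_lit 1) (nat_lit 6) (nat_lit 1) (nat_lit 370) (nat_lit 371) (nat_lit 159))) (XT.nd (nat_lit 78) (nat_lit 152) (nat_lit 0) (XT.lf (nat_lit 0) (nat_lit 3221225471) (nat_lit 0) (nat_lit 0) (nat_lit 0) (nat_lit 0) (nat_lit 5) (nat_lit 1) (nat_lit 1) (nat_lit 0) (nat_lit 1) (nat_lit 0) (nat_lit 371) (nat_lit 371) (nat_lit 158)) (XT.nd (nat_lit 30030) (nat_lit 0) (nat_lit 16112) (XT.lf (nat_lit 0) (nat_lit 1022611260) (nat_lit 0) (nat_lit 1022611260) (nat_lit 152) (nat_lit 1022611260) (nat_lit 3) (nat_lit 3) (nat_lit 3) (nat_lit 1) (nat_lit 5) (nat_lit 1) (nat_lit 372) (nat_lit 371) (nat_lit 157)) (XT.lf (nat_lit 380) (nat_lit 16457692498492) (nat_lit 0) (nat_lit 14576983293935) (nat_lit 380) (nat_lit 16457692498492) (nat_lit 220) (nat_lit 1) (nat_lit 215) (nat_lit 0) (nat_lit 220) (nat_lit 0) (nat_lit 156) (nat_lit 372) (nat_lit 372))))) (XT.nd (nat_lit 234) (nat_lit 152)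 (nat_lit 0) (XT.nd (nat_lit 78) (nat_lit 0) (nat_lit 76) (XT.lf (nat_lit 380) (nat_lit 60874868757682) (nat_lit 76) (nat_lit 13914393144211) (nat_lit 0) (nat_lit 13914393144211) (nat_lit 220) (nat_lit 1) (nat_lit 216) (nat_lit 1) (nat_lit 215) (nat_lit 0) (nat_lit 157) (nat_lit 372) (nat_lit 371)) (XT.nd (nat_lit 78) (nat_lit 0) (nat_lit 0) (XT.lf (nat_lit 380) (nat_lit 26833293073802) (nat_lit 0) (nat_lit 29197154092532) (nat_lit 304) (nat_lit 26833293073802) (nat_lit 221) (nat_lit 1) (nat_lit 216) (nat_lit 1) (nat_lit 220) (nat_lit 1) (nat_lit 158) (nat_lit 372) (nat_lit 370)) (XT.lf (nat_lit 380) (nat_lit 46071370944912) (nat_lit 76) (nat_lit 15770538425376) (nat_lit 0) (nat_lit 15770538425376) (nat_lit 221) (nat_lit 1) (nat_lit 217) (nat_lit 1) (nat_lit 216) (nat_lit 1) (nat_lit 159) (nat_lit 372) (nat_lit 369)))) (XT.nd (nat_lit 78) (nat_lit 304) (nat_lit 0) (XT.lf (nat_lit 76) (nat_lit 18636480589574)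 (nat_lit 0) (nat_lit 35486987776943) (nat_lit 304) (nat_lit 18636480589574) (nat_lit 218) (nat_lit 1) (nat_lit 217) (nat_lit 1) (nat_lit 221) (nat_lit 1) (nat_lit 160) (nat_lit 372) (nat_lit 368)) (XT.nd (nat_lit 78) (nat_lit 0) (nat_lit 0) (XT.lf (nat_lit 380) (nat_lit 28009125179532) (nat_lit 0) (nat_lit 20160431203751) (nat_lit 304) (nat_lit 20160431203751) (nat_lit 218) (nat_lit 1) (nat_lit 213) (nat_lit 1) (nat_lit 217) (nat_lit 1) (nat_lit 161) (nat_lit 372) (nat_lit 367)) (XT.lf (nat_lit 76) (nat_lit 9309923874478) (nat_lit 0) (nat_lit 45684029795548) (nat_lit 380) (nat_lit 9309923874478) (nat_lit 214) (nat_lit 1) (nat_lit 213) (nat_lit 1) (nat_lit 218) (nat_lit 1) (nat_lit 162) (nat_lit 372) (nat_lit 366)))))) (XT.nd (nat_lit 4680) (nat_lit 456) (nat_lit 0) (XT.nd (nat_lit 4446) (nat_lit 228) (nat_lit 0) (XT.nd (nat_lit 4290) (nat_lit 4408) (nat_lit 0) (XT.lf (nat_lit 228) (nat_lit 8378711870002)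 (nat_lit 0) (nat_lit 26076673244266) (nat_lit 152) (nat_lit 26076673244266) (nat_lit 214) (nat_lit 1) (nat_lit 211) (nat_lit 1) (nat_lit 213) (nat_lit 1) (nat_lit 163) (nat_lit 372) (nat_lit 365)) (XT.nd (nat_lit 78) (nat_lit 152) (nat_lit 0) (XT.lf (nat_lit 76) (nat_lit 1395468048888) (nat_lit 0) (nat_lit 1400776300032) (nat_lit 76) (nat_lit 1400776300032) (nat_lit 156) (nat_lit 3) (nat_lit 155) (nat_lit 1) (nat_lit 156) (nat_lit 1) (nat_lit 218) (nat_lit 372) (nat_lit 310)) (XT.lf (nat_lit 152) (nat_lit 4011695644942) (nat_lit 0) (nat_lit 1398748654) (nat_lit 76) (nat_lit 1398748654) (nat_lit 155) (nat_lit 1) (nat_lit 153) (nat_lit 1) (nat_lit 154) (nat_lit 1) (nat_lit 219) (nat_lit 372) (nat_lit 309)))) (XT.nd (nat_lit 78) (nat_lit 228) (nat_lit 0) (XT.lf (nat_lit 0) (nat_lit 1273276328724) (nat_lit 0) (nat_lit 1276766590017) (nat_lit 152) (nat_lit 1273276328724) (nat_lit 153) (nat_lit 3) (nat_lit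 153) (nat_lit 1) (nat_lit 155) (nat_lit 1) (nat_lit 220) (nat_lit 372) (nat_lit 308)) (XT.nd (nat_lit 78) (nat_lit 152) (nat_lit 0) (XT.lf (nat_lit 76) (nat_lit 1214480432018) (nat_lit 0) (nat_lit 1217515441838) (nat_lit 76) (nat_lit 1217515441838) (nat_lit 153) (nat_lit 3) (nat_lit 152) (nat_lit 1) (nat_lit 153) (nat_lit 1) (nat_lit 221) (nat_lit 372) (nat_lit 307)) (XT.lf (nat_lit 152) (nat_lit 3489209789345) (nat_lit 0) (nat_lit 799739083) (nat_lit 76) (nat_lit 799739083) (nat_lit 152) (nat_lit 1) (nat_lit 150) (nat_lit 1) (nat_lit 151) (nat_lit 1) (nat_lit 222) (nat_lit 372) (nat_lit 306))))) (XT.nd (nat_lit 234) (nat_lit 228) (nat_lit 0) (XT.nd (nat_lit 78) (nat_lit 228) (nat_lit 0) (XT.lf (nat_lit 0) (nat_lit 1107526789046) (nat_lit 0) (nat_lit 1109522357268) (nat_lit 152) (nat_lit 1107526789046) (nat_lit 150) (nat_lit 3) (nat_lit 150) (nat_lit 1) (nat_lit 152) (nat_lit 1) (nat_lit 223) (nat_lit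 372) (nat_lit 305)) (XT.nd (nat_lit 78) (nat_lit 152) (nat_lit 0) (XT.lf (nat_lit 76) (nat_lit 1056658820842) (nat_lit 0) (nat_lit 1058394097557) (nat_lit 76) (nat_lit 1058394097557) (nat_lit 150) (nat_lit 3) (nat_lit 149) (nat_lit 1) (nat_lit 150) (nat_lit 1) (nat_lit 224) (nat_lit 372) (nat_lit 304)) (XT.lf (nat_lit 152) (nat_lit 3034540746845) (nat_lit 0) (nat_lit 457253416) (nat_lit 76) (nat_lit 457253416) (nat_lit 149) (nat_lit 1) (nat_lit 147) (nat_lit 1) (nat_lit 148) (nat_lit 1) (nat_lit 225) (nat_lit 372) (nat_lit 303)))) (XT.nd (nat_lit 78) (nat_lit 228) (nat_lit 0) (XT.lf (nat_lit 0) (nat_lit 963255441054) (nat_lit 0) (nat_lit 964396413662) (nat_lit 152) (nat_lit 963255441054) (nat_lit 147) (nat_lit 3) (nat_lit 147) (nat_lit 1) (nat_lit 149) (nat_lit 1) (nat_lit 226) (nat_lit 372) (nat_lit 302)) (XT.nd (nat_lit 78) (nat_lit 152) (nat_lit 0) (XT.lf (nat_lit 76) (nat_lit 919170451280)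 (nat_lit 0) (nat_lit 920162601374) (nat_lit 76) (nat_lit 920162601374) (nat_lit 147) (nat_lit 3) (nat_lit 146) (nat_lit 1) (nat_lit 147) (nat_lit 1) (nat_lit 227) (nat_lit 372) (nat_lit 301)) (XT.lf (nat_lit 152) (nat_lit 2638985673269) (nat_lit 0) (nat_lit 261436124) (nat_lit 76) (nat_lit 261436124) (nat_lit 146) (nat_lit 1) (nat_lit 144) (nat_lit 1) (nat_lit 145) (nat_lit 1) (nat_lit 228) (nat_lit 372) (nat_lit 300))))))))
noncomputable def ec254 : XT := (XT.nd (nat_lit 1716) (nat_lit 1824) (nat_lit 0) (XT.nd (nat_lit 858) (nat_lit 836) (nat_lit 0) (XT.nd (nat_lit 390) (nat_lit 456) (nat_lit 0) (XT.nd (nat_lit 156) (nat_lit 228) (nat_lit 0) (XT.nd (nat_lit 78) (nat_lit 76) (nat_lit 0) (XT.lf (nat_lit 0) (nat_lit 837721298528) (nat_lit 0) (nat_lit 838373653319) (nat_lit 152) (nat_lit 837721298528) (nat_lit 144) (nat_lit 3) (nat_lit 144) (nat_lit 1) (nat_lit 146) (nat_lit 1) (nat_lit 229) (nat_lit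 372) (nat_lit 299)) (XT.lf (nat_lit 76) (nat_lit 799471159190) (nat_lit 0) (nat_lit 800038424226) (nat_lit 76) (nat_lit 800038424226) (nat_lit 144) (nat_lit 3) (nat_lit 143) (nat_lit 1) (nat_lit 144) (nat_lit 1) (nat_lit 230) (nat_lit 372) (nat_lit 298))) (XT.nd (nat_lit 78) (nat_lit 76) (nat_lit 0) (XT.lf (nat_lit 152) (nat_lit 2294915712788) (nat_lit 0) (nat_lit 149476952) (nat_lit 76) (nat_lit 149476952) (nat_lit 143) (nat_lit 1) (nat_lit 141) (nat_lit 1) (nat_lit 142) (nat_lit 1) (nat_lit 231) (nat_lit 372) (nat_lit 297)) (XT.nd (nat_lit 78) (nat_lit 76) (nat_lit 0) (XT.lf (nat_lit 0) (nat_lit 728514978962) (nat_lit 0) (nat_lit 728887964931) (nat_lit 152) (nat_lit 728514978962) (nat_lit 141) (nat_lit 3) (nat_lit 141) (nat_lit 1) (nat_lit 143) (nat_lit 1) (nat_lit 232) (nat_lit 372) (nat_lit 296)) (XT.lf (nat_lit 76) (nat_lit 695302378213) (nat_lit 0) (nat_lit 695626713839) (nat_lit 76) (nat_lit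 695626713839) (nat_lit 141) (nat_lit 3) (nat_lit 140) (nat_lit 1) (nat_lit 141) (nat_lit 1) (nat_lit 233) (nat_lit 372) (nat_lit 295))))) (XT.nd (nat_lit 234) (nat_lit 228) (nat_lit 0) (XT.nd (nat_lit 78) (nat_lit 76) (nat_lit 0) (XT.lf (nat_lit 152) (nat_lit 1995662106299) (nat_lit 0) (nat_lit 85463932) (nat_lit 76) (nat_lit 85463932) (nat_lit 140) (nat_lit 1) (nat_lit 138) (nat_lit 1) (nat_lit 139) (nat_lit 1) (nat_lit 234) (nat_lit 372) (nat_lit 294)) (XT.nd (nat_lit 78) (nat_lit 76) (nat_lit 0) (XT.lf (nat_lit 0) (nat_lit 633526549446) (nat_lit 0) (nat_lit 633739805385) (nat_lit 152) (nat_lit 633526549446) (nat_lit 138) (nat_lit 3) (nat_lit 138) (nat_lit 1) (nat_lit 140) (nat_lit 1) (nat_lit 235) (nat_lit 372) (nat_lit 293)) (XT.lf (nat_lit 76) (nat_lit 604673694185) (nat_lit 0) (nat_lit 604859134131) (nat_lit 76) (nat_lit 604859134131) (nat_lit 138) (nat_lit 3) (nat_lit 137) (nat_lit 1) (nat_lit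 138) (nat_lit 1) (nat_lit 236) (nat_lit 372) (nat_lit 292)))) (XT.nd (nat_lit 78) (nat_lit 76) (nat_lit 0) (XT.lf (nat_lit 152) (nat_lit 1735405937818) (nat_lit 0) (nat_lit 48864281) (nat_lit 76) (nat_lit 48864281) (nat_lit 137) (nat_lit 1) (nat_lit 135) (nat_lit 1) (nat_lit 136) (nat_lit 1) (nat_lit 237) (nat_lit 372) (nat_lit 291)) (XT.nd (nat_lit 78) (nat_lit 76) (nat_lit 0) (XT.lf (nat_lit 0) (nat_lit 550912813652) (nat_lit 0) (nat_lit 551034743427) (nat_lit 152) (nat_lit 550912813652) (nat_lit 135) (nat_lit 3) (nat_lit 135) (nat_lit 1) (nat_lit 137) (nat_lit 1) (nat_lit 238) (nat_lit 372) (nat_lit 290)) (XT.lf (nat_lit 76) (nat_lit 525839193064) (nat_lit 0) (nat_lit 525945218955) (nat_lit 76) (nat_lit 525945218955) (nat_lit 135) (nat_lit 3) (nat_lit 134) (nat_lit 1) (nat_lit 135) (nat_lit 1) (nat_lit 239) (nat_lit 372) (nat_lit 289)))))) (XT.nd (nat_lit 390) (nat_lit 456) (nat_lit 0) (XT.nd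 (nat_lit 156) (nat_lit 228) (nat_lit 0) (XT.nd (nat_lit 78) (nat_lit 0) (nat_lit 0) (XT.lf (nat_lit 152) (nat_lit 1509075848182) (nat_lit 0) (nat_lit 27938311) (nat_lit 76) (nat_lit 27938311) (nat_lit 134) (nat_lit 1) (nat_lit 132) (nat_lit 1) (nat_lit 133) (nat_lit 1) (nat_lit 240) (nat_lit 372) (nat_lit 288)) (XT.lf (nat_lit 0) (nat_lit 479066148232) (nat_lit 0) (nat_lit 479135861977) (nat_lit 152) (nat_lit 479066148232) (nat_lit 132) (nat_lit 3) (nat_lit 132) (nat_lit 1) (nat_lit 134) (nat_lit 1) (nat_lit 241) (nat_lit 372) (nat_lit 287))) (XT.nd (nat_lit 78) (nat_lit 152) (nat_lit 0) (XT.lf (nat_lit 76) (nat_lit 457272044328) (nat_lit 0) (nat_lit 457332664976) (nat_lit 76) (nat_lit 457332664976) (nat_lit 132) (nat_lit 3) (nat_lit 131) (nat_lit 1) (nat_lit 132) (nat_lit 1) (nat_lit 242) (nat_lit 372) (nat_lit 286)) (XT.nd (nat_lit 78) (nat_lit 0) (nat_lit 0) (XT.lf (nat_lit 152) (nat_lit 1312255423446)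 (nat_lit 0) (nat_lit 15973820) (nat_lit 76) (nat_lit 15973820) (nat_lit 131) (nat_lit 1) (nat_lit 129) (nat_lit 1) (nat_lit 130) (nat_lit 1) (nat_lit 243) (nat_lit 372) (nat_lit 285)) (XT.lf (nat_lit 0) (nat_lit 416585850312) (nat_lit 0) (nat_lit 416625709372) (nat_lit 152) (nat_lit 416585850312) (nat_lit 129) (nat_lit 3) (nat_lit 129) (nat_lit 1) (nat_lit 131) (nat_lit 1) (nat_lit 244) (nat_lit 372) (nat_lit 284))))) (XT.nd (nat_lit 234) (nat_lit 228) (nat_lit 0) (XT.nd (nat_lit 78) (nat_lit 152) (nat_lit 0) (XT.lf (nat_lit 76) (nat_lit 397639626798) (nat_lit 0) (nat_lit 397674286850) (nat_lit 76) (nat_lit 397674286850) (nat_lit 129) (nat_lit 3) (nat_lit 128) (nat_lit 1) (nat_lit 129) (nat_lit 1) (nat_lit 245) (nat_lit 372) (nat_lit 283)) (XT.nd (nat_lit 78) (nat_lit 0) (nat_lit 0) (XT.lf (nat_lit 152) (nat_lit 1141100566448) (nat_lit 0) (nat_lit 9133083) (nat_lit 76) (nat_lit 9133083) (nat_lit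 128) (nat_lit 1) (nat_lit 126) (nat_lit 1) (nat_lit 127) (nat_lit 1) (nat_lit 246) (nat_lit 372) (nat_lit 282)) (XT.lf (nat_lit 0) (nat_lit 362252333903) (nat_lit 0) (nat_lit 362275123450) (nat_lit 152) (nat_lit 362252333903) (nat_lit 126) (nat_lit 3) (nat_lit 126) (nat_lit 1) (nat_lit 128) (nat_lit 1) (nat_lit 247) (nat_lit 372) (nat_lit 281)))) (XT.nd (nat_lit 78) (nat_lit 152) (nat_lit 0) (XT.lf (nat_lit 76) (nat_lit 345780313575) (nat_lit 0) (nat_lit 345800130572) (nat_lit 76) (nat_lit 345800130572) (nat_lit 126) (nat_lit 3) (nat_lit 125) (nat_lit 1) (nat_lit 126) (nat_lit 1) (nat_lit 248) (nat_lit 372) (nat_lit 280)) (XT.nd (nat_lit 78) (nat_lit 0) (nat_lit 0) (XT.lf (nat_lit 152) (nat_lit 992266447237) (nat_lit 0) (nat_lit 5221870) (nat_lit 76) (nat_lit 5221870) (nat_lit 125) (nat_lit 1) (nat_lit 123) (nat_lit 1) (nat_lit 124) (nat_lit 1) (nat_lit 249) (nat_lit 372) (nat_lit 279)) (XT.lf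 (nat_lit 0) (nat_lit 315004184084) (nat_lit 0) (nat_lit 315017214082) (nat_lit 152) (nat_lit 315004184084) (nat_lit 123) (nat_lit 3) (nat_lit 123) (nat_lit 1) (nat_lit 125) (nat_lit 1) (nat_lit 250) (nat_lit 372) (nat_lit 278))))))) (XT.nd (nat_lit 858) (nat_lit 912) (nat_lit 0) (XT.nd (nat_lit 390) (nat_lit 456) (nat_lit 0) (XT.nd (nat_lit 156) (nat_lit 228) (nat_lit 0) (XT.nd (nat_lit 78) (nat_lit 152) (nat_lit 0) (XT.lf (nat_lit 76) (nat_lit 300682378616) (nat_lit 0) (nat_lit 300693709048) (nat_lit 76) (nat_lit 300693709048) (nat_lit 123) (nat_lit 3) (nat_lit 122) (nat_lit 1) (nat_lit 123) (nat_lit 1) (nat_lit 251) (nat_lit 372) (nat_lit 277)) (XT.lf (nat_lit 152) (nat_lit 862843296329) (nat_lit 0) (nat_lit 2985621) (nat_lit 76) (nat_lit 2985621) (nat_lit 122) (nat_lit 1) (nat_lit 120) (nat_lit 1) (nat_lit 121) (nat_lit 1) (nat_lit 252) (nat_lit 372) (nat_lit 276))) (XT.nd (nat_lit 78) (nat_lit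 228) (nat_lit 0) (XT.lf (nat_lit 0) (nat_lit 273917913714) (nat_lit 0) (nat_lit 273925363657) (nat_lit 152) (nat_lit 273917913714) (nat_lit 120) (nat_lit 3) (nat_lit 120) (nat_lit 1) (nat_lit 122) (nat_lit 1) (nat_lit 253) (nat_lit 372) (nat_lit 275)) (XT.nd (nat_lit 78) (nat_lit 152) (nat_lit 0) (XT.lf (nat_lit 76) (nat_lit 261465136360) (nat_lit 0) (nat_lit 261471614571) (nat_lit 76) (nat_lit 261471614571) (nat_lit 120) (nat_lit 3) (nat_lit 119) (nat_lit 1) (nat_lit 120) (nat_lit 1) (nat_lit 254) (nat_lit 372) (nat_lit 274)) (XT.lf (nat_lit 152) (nat_lit 750300180878) (nat_lit 0) (nat_lit 1707038) (nat_lit 76) (nat_lit 1707038) (nat_lit 119) (nat_lit 1) (nat_lit 117) (nat_lit 1) (nat_lit 118) (nat_lit 1) (nat_lit 255) (nat_lit 372) (nat_lit 273))))) (XT.nd (nat_lit 234) (nat_lit 228) (nat_lit 0) (XT.nd (nat_lit 78) (nat_lit 228) (nat_lit 0) (XT.lf (nat_lit 0) (nat_lit 238190194529) (nat_lit 0)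 (nat_lit 238194454059) (nat_lit 152) (nat_lit 238190194529) (nat_lit 117) (nat_lit 3) (nat_lit 117) (nat_lit 1) (nat_lit 119) (nat_lit 1) (nat_lit 256) (nat_lit 372) (nat_lit 272)) (XT.nd (nat_lit 78) (nat_lit 152) (nat_lit 0) (XT.lf (nat_lit 76) (nat_lit 227362245100) (nat_lit 0) (nat_lit 227365949038) (nat_lit 76) (nat_lit 227365949038) (nat_lit 117) (nat_lit 3) (nat_lit 116) (nat_lit 1) (nat_lit 117) (nat_lit 1) (nat_lit 257) (nat_lit 372) (nat_lit 271)) (XT.lf (nat_lit 152) (nat_lit 652435890337) (nat_lit 0) (nat_lit 976004) (nat_lit 76) (nat_lit 976004) (nat_lit 116) (nat_lit 1) (nat_lit 114) (nat_lit 1) (nat_lit 115) (nat_lit 1) (nat_lit 258) (nat_lit 372) (nat_lit 270)))) (XT.nd (nat_lit 78) (nat_lit 228) (nat_lit 0) (XT.lf (nat_lit 0) (nat_lit 207122310997) (nat_lit 0) (nat_lit 207124746397) (nat_lit 152) (nat_lit 207122310997) (nat_lit 114) (nat_lit 3) (nat_lit 114) (nat_lit 1) (nat_lit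 116) (nat_lit 1) (nat_lit 259) (nat_lit 372) (nat_lit 269)) (XT.nd (nat_lit 78) (nat_lit 152) (nat_lit 0) (XT.lf (nat_lit 76) (nat_lit 197707018758) (nat_lit 0) (nat_lit 197709136497) (nat_lit 76) (nat_lit 197709136497) (nat_lit 114) (nat_lit 3) (nat_lit 113) (nat_lit 1) (nat_lit 114) (nat_lit 1) (nat_lit 260) (nat_lit 372) (nat_lit 268)) (XT.lf (nat_lit 152) (nat_lit 567336100233) (nat_lit 0) (nat_lit 558033) (nat_lit 76) (nat_lit 558033) (nat_lit 113) (nat_lit 1) (nat_lit 111) (nat_lit 1) (nat_lit 112) (nat_lit 1) (nat_lit 261) (nat_lit 372) (nat_lit 267)))))) (XT.nd (nat_lit 468) (nat_lit 456) (nat_lit 0) (XT.nd (nat_lit 234) (nat_lit 228) (nat_lit 0) (XT.nd (nat_lit 78) (nat_lit 228) (nat_lit 0) (XT.lf (nat_lit 0) (nat_lit 180106587640) (nat_lit 0) (nat_lit 180107980087) (nat_lit 152) (nat_lit 180106587640) (nat_lit 111) (nat_lit 3) (nat_lit 111) (nat_lit 1) (nat_lit 113) (nat_lit 1) (nat_lit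 262) (nat_lit 372) (nat_lit 266)) (XT.nd (nat_lit 78) (nat_lit 152) (nat_lit 0) (XT.lf (nat_lit 76) (nat_lit 171919557649) (nat_lit 0) (nat_lit 171920768473) (nat_lit 76) (nat_lit 171920768473) (nat_lit 111) (nat_lit 3) (nat_lit 110) (nat_lit 1) (nat_lit 111) (nat_lit 1) (nat_lit 263) (nat_lit 372) (nat_lit 265)) (XT.lf (nat_lit 152) (nat_lit 493336050035) (nat_lit 0) (nat_lit 319057) (nat_lit 76) (nat_lit 319057) (nat_lit 110) (nat_lit 1) (nat_lit 108) (nat_lit 1) (nat_lit 109) (nat_lit 1) (nat_lit 264) (nat_lit 372) (nat_lit 264)))) (XT.nd (nat_lit 78) (nat_lit 228) (nat_lit 0) (XT.lf (nat_lit 0) (nat_lit 156614555681) (nat_lit 0) (nat_lit 156615351818) (nat_lit 152) (nat_lit 156614555681) (nat_lit 108) (nat_lit 3) (nat_lit 108) (nat_lit 1) (nat_lit 110) (nat_lit 1) (nat_lit 265) (nat_lit 372) (nat_lit 263)) (XT.nd (nat_lit 78) (nat_lit 152) (nat_lit 0) (XT.lf (nat_lit 76) (nat_lit 149495502456)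 (nat_lit 0) (nat_lit 149496194748) (nat_lit 76) (nat_lit 149496194748) (nat_lit 108) (nat_lit 3) (nat_lit 107) (nat_lit 1) (nat_lit 108) (nat_lit 1) (nat_lit 266) (nat_lit 372) (nat_lit 262)) (XT.lf (nat_lit 152) (nat_lit 428988047240) (nat_lit 0) (nat_lit 182422) (nat_lit 76) (nat_lit 182422) (nat_lit 107) (nat_lit 1) (nat_lit 105) (nat_lit 1) (nat_lit 106) (nat_lit 1) (nat_lit 267) (nat_lit 372) (nat_lit 261))))) (XT.nd (nat_lit 234) (nat_lit 228) (nat_lit 0) (XT.nd (nat_lit 78) (nat_lit 228) (nat_lit 0) (XT.lf (nat_lit 0) (nat_lit 136186645427) (nat_lit 0) (nat_lit 136187100621) (nat_lit 152) (nat_lit 136186645427) (nat_lit 105) (nat_lit 3) (nat_lit 105) (nat_lit 1) (nat_lit 107) (nat_lit 1) (nat_lit 268) (nat_lit 372) (nat_lit 260)) (XT.nd (nat_lit 78) (nat_lit 152) (nat_lit 0) (XT.lf (nat_lit 76) (nat_lit 129996223417) (nat_lit 0) (nat_lit 129996619237) (nat_lit 76) (nat_lit 129996619237)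 (nat_lit 105) (nat_lit 3) (nat_lit 104) (nat_lit 1) (nat_lit 105) (nat_lit 1) (nat_lit 269) (nat_lit 372) (nat_lit 259)) (XT.lf (nat_lit 152) (nat_lit 373033186125) (nat_lit 0) (nat_lit 104300) (nat_lit 76) (nat_lit 104300) (nat_lit 104) (nat_lit 1) (nat_lit 102) (nat_lit 1) (nat_lit 103) (nat_lit 1) (nat_lit 270) (nat_lit 372) (nat_lit 258)))) (XT.nd (nat_lit 78) (nat_lit 228) (nat_lit 0) (XT.lf (nat_lit 0) (nat_lit 118423212972) (nat_lit 0) (nat_lit 118423473231) (nat_lit 152) (nat_lit 118423212972) (nat_lit 102) (nat_lit 3) (nat_lit 102) (nat_lit 1) (nat_lit 104) (nat_lit 1) (nat_lit 271) (nat_lit 372) (nat_lit 257)) (XT.nd (nat_lit 78) (nat_lit 152) (nat_lit 0) (XT.lf (nat_lit 76) (nat_lit 113040271076) (nat_lit 0) (nat_lit 113040497388) (nat_lit 76) (nat_lit 113040497388) (nat_lit 102) (nat_lit 3) (nat_lit 101) (nat_lit 1) (nat_lit 102) (nat_lit 1) (nat_lit 272) (nat_lit 372) (nat_lit 256))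 (XT.lf (nat_lit 152) (nat_lit 324376741660) (nat_lit 0) (nat_lit 59634) (nat_lit 76) (nat_lit 59634) (nat_lit 101) (nat_lit 1) (nat_lit 99) (nat_lit 1) (nat_lit 100) (nat_lit 1) (nat_lit 273) (nat_lit 372) (nat_lit 255))))))))
noncomputable def ec255 : XT := (XT.nd (nat_lit 1716) (nat_lit 5776) (nat_lit 0) (XT.nd (nat_lit 858) (nat_lit 836) (nat_lit 0) (XT.nd (nat_lit 390) (nat_lit 456) (nat_lit 0) (XT.nd (nat_lit 156) (nat_lit 228) (nat_lit 0) (XT.nd (nat_lit 78) (nat_lit 76) (nat_lit 0) (XT.lf (nat_lit 0) (nat_lit 102976731538) (nat_lit 0) (nat_lit 102976880342) (nat_lit 152) (nat_lit 102976731538) (nat_lit 99) (nat_lit 3) (nat_lit 99) (nat_lit 1) (nat_lit 101) (nat_lit 1) (nat_lit 274) (nat_lit 372) (nat_lit 254)) (XT.lf (nat_lit 76) (nat_lit 98295931803) (nat_lit 0) (nat_lit 98296061198) (nat_lit 76) (nat_lit 98296061198) (nat_lit 99) (nat_lit 3) (nat_lit 98) (nat_lit 1) (nat_lit 99) (nat_lit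 1) (nat_lit 275) (nat_lit 372) (nat_lit 253))) (XT.nd (nat_lit 78) (nat_lit 76) (nat_lit 0) (XT.lf (nat_lit 152) (nat_lit 282066765081) (nat_lit 0) (nat_lit 34096) (nat_lit 76) (nat_lit 34096) (nat_lit 98) (nat_lit 1) (nat_lit 96) (nat_lit 1) (nat_lit 97) (nat_lit 1) (nat_lit 276) (nat_lit 372) (nat_lit 252)) (XT.nd (nat_lit 78) (nat_lit 76) (nat_lit 0) (XT.lf (nat_lit 0) (nat_lit 89544998014) (nat_lit 0) (nat_lit 89545083093) (nat_lit 152) (nat_lit 89544998014) (nat_lit 96) (nat_lit 3) (nat_lit 96) (nat_lit 1) (nat_lit 98) (nat_lit 1) (nat_lit 277) (nat_lit 372) (nat_lit 251)) (XT.lf (nat_lit 76) (nat_lit 85474748413) (nat_lit 0) (nat_lit 85474822395) (nat_lit 76) (nat_lit 85474822395) (nat_lit 96) (nat_lit 3) (nat_lit 95) (nat_lit 1) (nat_lit 96) (nat_lit 1) (nat_lit 278) (nat_lit 372) (nat_lit 250))))) (XT.nd (nat_lit 234) (nat_lit 228) (nat_lit 0) (XT.nd (nat_lit 78) (nat_lit 76) (nat_lit 0)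 (XT.lf (nat_lit 152) (nat_lit 245275466880) (nat_lit 0) (nat_lit 19494) (nat_lit 76) (nat_lit 19494) (nat_lit 95) (nat_lit 1) (nat_lit 93) (nat_lit 1) (nat_lit 94) (nat_lit 1) (nat_lit 279) (nat_lit 372) (nat_lit 249)) (XT.nd (nat_lit 78) (nat_lit 76) (nat_lit 0) (XT.lf (nat_lit 0) (nat_lit 77865223708) (nat_lit 0) (nat_lit 77865272353) (nat_lit 152) (nat_lit 77865223708) (nat_lit 93) (nat_lit 3) (nat_lit 93) (nat_lit 1) (nat_lit 95) (nat_lit 1) (nat_lit 280) (nat_lit 372) (nat_lit 248)) (XT.lf (nat_lit 76) (nat_lit 74325882540) (nat_lit 0) (nat_lit 74325924839) (nat_lit 76) (nat_lit 74325924839) (nat_lit 93) (nat_lit 3) (nat_lit 92) (nat_lit 1) (nat_lit 93) (nat_lit 1) (nat_lit 281) (nat_lit 372) (nat_lit 247)))) (XT.nd (nat_lit 78) (nat_lit 76) (nat_lit 0) (XT.lf (nat_lit 152) (nat_lit 213283025533) (nat_lit 0) (nat_lit 11146) (nat_lit 76) (nat_lit 11146) (nat_lit 92) (nat_lit 1) (nat_lit 90)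 (nat_lit 1) (nat_lit 91) (nat_lit 1) (nat_lit 282) (nat_lit 372) (nat_lit 246)) (XT.nd (nat_lit 78) (nat_lit 76) (nat_lit 0) (XT.lf (nat_lit 0) (nat_lit 67708894780) (nat_lit 0) (nat_lit 67708922593) (nat_lit 152) (nat_lit 67708894780) (nat_lit 90) (nat_lit 3) (nat_lit 90) (nat_lit 1) (nat_lit 92) (nat_lit 1) (nat_lit 283) (nat_lit 372) (nat_lit 245)) (XT.lf (nat_lit 76) (nat_lit 64631210416) (nat_lit 0) (nat_lit 64631234601) (nat_lit 76) (nat_lit 64631234601) (nat_lit 90) (nat_lit 3) (nat_lit 89) (nat_lit 1) (nat_lit 90) (nat_lit 1) (nat_lit 284) (nat_lit 372) (nat_lit 244)))))) (XT.nd (nat_lit 390) (nat_lit 456) (nat_lit 0) (XT.nd (nat_lit 156) (nat_lit 228) (nat_lit 0) (XT.nd (nat_lit 78) (nat_lit 0) (nat_lit 0) (XT.lf (nat_lit 152) (nat_lit 185463506669) (nat_lit 0) (nat_lit 6372) (nat_lit 76) (nat_lit 6372) (nat_lit 89) (nat_lit 1) (nat_lit 87) (nat_lit 1) (nat_lit 88) (nat_lit 1) (nat_lit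 285) (nat_lit 372) (nat_lit 243)) (XT.lf (nat_lit 0) (nat_lit 58877302438) (nat_lit 0) (nat_lit 58877318340) (nat_lit 152) (nat_lit 58877302438) (nat_lit 87) (nat_lit 3) (nat_lit 87) (nat_lit 1) (nat_lit 89) (nat_lit 1) (nat_lit 286) (nat_lit 372) (nat_lit 242))) (XT.nd (nat_lit 78) (nat_lit 152) (nat_lit 0) (XT.lf (nat_lit 76) (nat_lit 56201057228) (nat_lit 0) (nat_lit 56201071056) (nat_lit 76) (nat_lit 56201071056) (nat_lit 87) (nat_lit 3) (nat_lit 86) (nat_lit 1) (nat_lit 87) (nat_lit 1) (nat_lit 287) (nat_lit 372) (nat_lit 241)) (XT.nd (nat_lit 78) (nat_lit 0) (nat_lit 0) (XT.lf (nat_lit 152) (nat_lit 161272618043) (nat_lit 0) (nat_lit 3643) (nat_lit 76) (nat_lit 3643) (nat_lit 86) (nat_lit 1) (nat_lit 84) (nat_lit 1) (nat_lit 85) (nat_lit 1) (nat_lit 288) (nat_lit 372) (nat_lit 240)) (XT.lf (nat_lit 0) (nat_lit 51197655797) (nat_lit 0) (nat_lit 51197664889) (nat_lit 152) (nat_lit 51197655797)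 (nat_lit 84) (nat_lit 3) (nat_lit 84) (nat_lit 1) (nat_lit 86) (nat_lit 1) (nat_lit 289) (nat_lit 372) (nat_lit 239))))) (XT.nd (nat_lit 234) (nat_lit 228) (nat_lit 0) (XT.nd (nat_lit 78) (nat_lit 152) (nat_lit 0) (XT.lf (nat_lit 76) (nat_lit 48870487229) (nat_lit 0) (nat_lit 48870495135) (nat_lit 76) (nat_lit 48870495135) (nat_lit 84) (nat_lit 3) (nat_lit 83) (nat_lit 1) (nat_lit 84) (nat_lit 1) (nat_lit 290) (nat_lit 372) (nat_lit 238)) (XT.nd (nat_lit 78) (nat_lit 0) (nat_lit 0) (XT.lf (nat_lit 152) (nat_lit 140237061196) (nat_lit 0) (nat_lit 2083) (nat_lit 76) (nat_lit 2083) (nat_lit 83) (nat_lit 1) (nat_lit 81) (nat_lit 1) (nat_lit 82) (nat_lit 1) (nat_lit 291) (nat_lit 372) (nat_lit 237)) (XT.lf (nat_lit 0) (nat_lit 44519701553) (nat_lit 0) (nat_lit 44519706751) (nat_lit 152) (nat_lit 44519701553) (nat_lit 81) (nat_lit 3) (nat_lit 81) (nat_lit 1) (nat_lit 83) (nat_lit 1) (nat_lit 292) (nat_lit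 372) (nat_lit 236)))) (XT.nd (nat_lit 78) (nat_lit 152) (nat_lit 0) (XT.lf (nat_lit 76) (nat_lit 42496077385) (nat_lit 0) (nat_lit 42496081906) (nat_lit 76) (nat_lit 42496081906) (nat_lit 81) (nat_lit 3) (nat_lit 80) (nat_lit 1) (nat_lit 81) (nat_lit 1) (nat_lit 293) (nat_lit 372) (nat_lit 235)) (XT.nd (nat_lit 78) (nat_lit 0) (nat_lit 0) (XT.lf (nat_lit 152) (nat_lit 121945271765) (nat_lit 0) (nat_lit 1191) (nat_lit 76) (nat_lit 1191) (nat_lit 80) (nat_lit 1) (nat_lit 78) (nat_lit 1) (nat_lit 79) (nat_lit 1) (nat_lit 294) (nat_lit 372) (nat_lit 234)) (XT.lf (nat_lit 0) (nat_lit 38712784450) (nat_lit 0) (nat_lit 38712787423) (nat_lit 152) (nat_lit 38712784450) (nat_lit 78) (nat_lit 3) (nat_lit 78) (nat_lit 1) (nat_lit 80) (nat_lit 1) (nat_lit 295) (nat_lit 372) (nat_lit 233))))))) (XT.nd (nat_lit 858) (nat_lit 4864) (nat_lit 0) (XT.nd (nat_lit 390) (nat_lit 456) (nat_lit 0) (XT.nd (nat_lit 156)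 (nat_lit 228) (nat_lit 0) (XT.nd (nat_lit 78) (nat_lit 152) (nat_lit 0) (XT.lf (nat_lit 76) (nat_lit 36953111647) (nat_lit 0) (nat_lit 36953114231) (nat_lit 76) (nat_lit 36953114231) (nat_lit 78) (nat_lit 3) (nat_lit 77) (nat_lit 1) (nat_lit 78) (nat_lit 1) (nat_lit 296) (nat_lit 372) (nat_lit 232)) (XT.lf (nat_lit 152) (nat_lit 106039367416) (nat_lit 0) (nat_lit 681) (nat_lit 76) (nat_lit 681) (nat_lit 77) (nat_lit 1) (nat_lit 75) (nat_lit 1) (nat_lit 76) (nat_lit 1) (nat_lit 297) (nat_lit 372) (nat_lit 231))) (XT.nd (nat_lit 78) (nat_lit 228) (nat_lit 0) (XT.lf (nat_lit 0) (nat_lit 33663291107) (nat_lit 0) (nat_lit 33663292807) (nat_lit 152) (nat_lit 33663291107) (nat_lit 75) (nat_lit 3) (nat_lit 75) (nat_lit 1) (nat_lit 77) (nat_lit 1) (nat_lit 298) (nat_lit 372) (nat_lit 230)) (XT.nd (nat_lit 78) (nat_lit 152) (nat_lit 0) (XT.lf (nat_lit 76) (nat_lit 32133141064) (nat_lit 0) (nat_lit 32133142542)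 (nat_lit 76) (nat_lit 32133142542) (nat_lit 75) (nat_lit 3) (nat_lit 74) (nat_lit 1) (nat_lit 75) (nat_lit 1) (nat_lit 299) (nat_lit 372) (nat_lit 229)) (XT.lf (nat_lit 152) (nat_lit 92208145958) (nat_lit 0) (nat_lit 389) (nat_lit 76) (nat_lit 389) (nat_lit 74) (nat_lit 1) (nat_lit 72) (nat_lit 1) (nat_lit 73) (nat_lit 1) (nat_lit 300) (nat_lit 372) (nat_lit 228))))) (XT.nd (nat_lit 234) (nat_lit 228) (nat_lit 0) (XT.nd (nat_lit 78) (nat_lit 228) (nat_lit 0) (XT.lf (nat_lit 0) (nat_lit 29272427211) (nat_lit 0) (nat_lit 29272428182) (nat_lit 152) (nat_lit 29272427211) (nat_lit 72) (nat_lit 3) (nat_lit 72) (nat_lit 1) (nat_lit 74) (nat_lit 1) (nat_lit 301) (nat_lit 372) (nat_lit 227)) (XT.nd (nat_lit 78) (nat_lit 152) (nat_lit 0) (XT.lf (nat_lit 76) (nat_lit 27941862081) (nat_lit 0) (nat_lit 27941862926) (nat_lit 76) (nat_lit 27941862926) (nat_lit 72) (nat_lit 3) (nat_lit 71) (nat_lit 1) (nat_lit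 72) (nat_lit 1) (nat_lit 302) (nat_lit 372) (nat_lit 226)) (XT.lf (nat_lit 152) (nat_lit 80180996702) (nat_lit 0) (nat_lit 222) (nat_lit 76) (nat_lit 222) (nat_lit 71) (nat_lit 1) (nat_lit 69) (nat_lit 1) (nat_lit 70) (nat_lit 1) (nat_lit 303) (nat_lit 372) (nat_lit 225)))) (XT.nd (nat_lit 78) (nat_lit 228) (nat_lit 0) (XT.lf (nat_lit 0) (nat_lit 25454284623) (nat_lit 0) (nat_lit 25454285178) (nat_lit 152) (nat_lit 25454284623) (nat_lit 69) (nat_lit 3) (nat_lit 69) (nat_lit 1) (nat_lit 71) (nat_lit 1) (nat_lit 304) (nat_lit 372) (nat_lit 224)) (XT.nd (nat_lit 78) (nat_lit 152) (nat_lit 0) (XT.lf (nat_lit 76) (nat_lit 24297271539) (nat_lit 0) (nat_lit 24297272022) (nat_lit 76) (nat_lit 24297272022) (nat_lit 69) (nat_lit 3) (nat_lit 68) (nat_lit 1) (nat_lit 69) (nat_lit 1) (nat_lit 305) (nat_lit 372) (nat_lit 223)) (XT.lf (nat_lit 152) (nat_lit 69722605952) (nat_lit 0) (nat_lit 127) (nat_lit 76)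 (nat_lit 127) (nat_lit 68) (nat_lit 1) (nat_lit 66) (nat_lit 1) (nat_lit 67) (nat_lit 1) (nat_lit 306) (nat_lit 372) (nat_lit 222)))))) (XT.nd (nat_lit 4680) (nat_lit 456) (nat_lit 0) (XT.nd (nat_lit 234) (nat_lit 4180) (nat_lit 0) (XT.nd (nat_lit 78) (nat_lit 228) (nat_lit 0) (XT.lf (nat_lit 0) (nat_lit 22134160594) (nat_lit 0) (nat_lit 22134160912) (nat_lit 152) (nat_lit 22134160594) (nat_lit 66) (nat_lit 3) (nat_lit 66) (nat_lit 1) (nat_lit 68) (nat_lit 1) (nat_lit 307) (nat_lit 372) (nat_lit 221)) (XT.nd (nat_lit 78) (nat_lit 152) (nat_lit 0) (XT.lf (nat_lit 76) (nat_lit 21128062301) (nat_lit 0) (nat_lit 21128062578) (nat_lit 76) (nat_lit 21128062578) (nat_lit 66) (nat_lit 3) (nat_lit 65) (nat_lit 1) (nat_lit 66) (nat_lit 1) (nat_lit 308) (nat_lit 372) (nat_lit 220)) (XT.lf (nat_lit 152) (nat_lit 60628353072) (nat_lit 0) (nat_lit 72) (nat_lit 76) (nat_lit 72) (nat_lit 65) (nat_lit 1) (nat_lit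 63) (nat_lit 1) (nat_lit 64) (nat_lit 1) (nat_lit 309) (nat_lit 372) (nat_lit 219)))) (XT.nd (nat_lit 4290) (nat_lit 4180) (nat_lit 0) (XT.lf (nat_lit 0) (nat_lit 19247096199) (nat_lit 0) (nat_lit 19247096380) (nat_lit 152) (nat_lit 19247096199) (nat_lit 63) (nat_lit 3) (nat_lit 63) (nat_lit 1) (nat_lit 65) (nat_lit 1) (nat_lit 310) (nat_lit 372) (nat_lit 218)) (XT.nd (nat_lit 78) (nat_lit 0) (nat_lit 0) (XT.lf (nat_lit 76) (nat_lit 1484570087) (nat_lit 0) (nat_lit 1484570087) (nat_lit 76) (nat_lit 1484570087) (nat_lit 9) (nat_lit 3) (nat_lit 8) (nat_lit 1) (nat_lit 9) (nat_lit 1) (nat_lit 365) (nat_lit 372) (nat_lit 163)) (XT.lf (nat_lit 0) (nat_lit 4260070686) (nat_lit 0) (nat_lit 0) (nat_lit 0) (nat_lit 0) (nat_lit 8) (nat_lit 1) (nat_lit 1) (nat_lit 0) (nat_lit 1) (nat_lit 0) (nat_lit 366) (nat_lit 372) (nat_lit 162))))) (XT.nd (nat_lit 234) (nat_lit 228) (nat_lit 0) (XT.nd (nat_lit 78) (nat_lit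 76) (nat_lit 0) (XT.lf (nat_lit 0) (nat_lit 1352403392) (nat_lit 0) (nat_lit 1352403392) (nat_lit 152) (nat_lit 1352403392) (nat_lit 6) (nat_lit 3) (nat_lit 6) (nat_lit 1) (nat_lit 8) (nat_lit 1) (nat_lit 367) (nat_lit 372) (nat_lit 161)) (XT.nd (nat_lit 78) (nat_lit 0) (nat_lit 0) (XT.lf (nat_lit 76) (nat_lit 1290930511) (nat_lit 0) (nat_lit 1290930511) (nat_lit 76) (nat_lit 1290930511) (nat_lit 6) (nat_lit 3) (nat_lit 5) (nat_lit 1) (nat_lit 6) (nat_lit 1) (nat_lit 368) (nat_lit 372) (nat_lit 160)) (XT.lf (nat_lit 0) (nat_lit 3704409292) (nat_lit 0) (nat_lit 0) (nat_lit 0) (nat_lit 0) (nat_lit 5) (nat_lit 1) (nat_lit 1) (nat_lit 0) (nat_lit 1) (nat_lit 0) (nat_lit 369) (nat_lit 372) (nat_lit 159)))) (XT.nd (nat_lit 78) (nat_lit 76) (nat_lit 0) (XT.lf (nat_lit 0) (nat_lit 1176002950) (nat_lit 0) (nat_lit 1176002950) (nat_lit 152) (nat_lit 1176002950) (nat_lit 3) (nat_lit 3) (nat_lit 3) (nat_lit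 1) (nat_lit 5) (nat_lit 1) (nat_lit 370) (nat_lit 372) (nat_lit 158)) (XT.nd (nat_lit 78) (nat_lit 0) (nat_lit 0) (XT.lf (nat_lit 76) (nat_lit 1122548270) (nat_lit 0) (nat_lit 1122548270) (nat_lit 76) (nat_lit 1122548270) (nat_lit 3) (nat_lit 3) (nat_lit 2) (nat_lit 1) (nat_lit 3) (nat_lit 1) (nat_lit 371) (nat_lit 372) (nat_lit 157)) (XT.lf (nat_lit 0) (nat_lit 0) (nat_lit 0) (nat_lit 0) (nat_lit 0) (nat_lit 3221225471) (nat_lit 1) (nat_lit 0) (nat_lit 1) (nat_lit 0) (nat_lit 2) (nat_lit 1) (nat_lit 372) (nat_lit 372) (nat_lit 156))))))))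

set_option maxRecDepth 10000000 in
noncomputable def Tp : PT := (PT.nd (nat_lit 7559760) (PT.nd (nat_lit 6012942) (PT.nd (nat_lit 3905226) (PT.nd (nat_lit 2219022) pc0 pc1) (PT.nd (nat_lit 1077336) pc2 pc3)) (PT.nd (nat_lit 1124370) (PT.nd (nat_lit 843102) pc4 pc5) (PT.nd (nat_lit 186498) pc6 pc7))) (PT.nd (nat_lit 1033188) (PT.nd (nat_lit 511524) (PT.nd (nat_lit 235014) pc8 pc9) (PT.nd (nat_lit 239850) pc10 pc11)) (PT.nd (nat_lit 845208) (PT.nd (nat_lit 422604) pc12 pc13) (PT.nd (nat_lit 422604) pc14 pc15))))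

set_option maxRecDepth 10000000 in
noncomputable def Tx : XT := (XT.nd (nat_lit 12171198) (nat_lit 0) (nat_lit 7524) XT.nil (XT.nd (nat_lit 5719116) (nat_lit 0) (nat_lit 0) (XT.nd (nat_lit 2433600) (nat_lit 0) (nat_lit 3572) (XT.nd (nat_lit 1639482) (nat_lit 0) (nat_lit 2280) (XT.nd (nat_lit 1169142) (nat_lit 0) (nat_lit 1520) (XT.nd (nat_lit 796614) (nat_lit 0) (nat_lit 912) (XT.nd (nat_lit 561834) (nat_lit 0) (nat_lit 608) (XT.nd (nat_lit 374946) (nat_lit 0) (nat_lit 228) (XT.nd (nat_lit 280566) (nat_lit 0) (nat_lit 152) xc0 xc1) (XT.nd (nat_lit 93756) (nat_lit 0) (nat_lit 152) xc2 xc3)) (XT.nd (nat_lit 140088) (nat_lit 0) (nat_lit 228) (XT.nd (nat_lit 92508) (nat_lit 0) (nat_lit 76) xc4 xc5) (XT.nd (nat_lit 47424) (nat_lit 0) (nat_lit 0) xc6 xc7))) (XT.nd (nat_lit 187512) (nat_lit 0) (nat_lit 380) (XT.nd (nat_lit 94068) (nat_lit 0) (nat_lit 152) (XT.nd (nat_lit 47112) (nat_lit 0) (nat_lit 152)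 xc8 xc9) (XT.nd (nat_lit 46800) (nat_lit 0) (nat_lit 76) xc10 xc11)) (XT.nd (nat_lit 92820) (nat_lit 0) (nat_lit 76) (XT.nd (nat_lit 46488) (nat_lit 0) (nat_lit 0) xc12 xc13) (XT.nd (nat_lit 46176) (nat_lit 0) (nat_lit 152) xc14 xc15)))) (XT.nd (nat_lit 237120) (nat_lit 0) (nat_lit 456) (XT.nd (nat_lit 140244) (nat_lit 0) (nat_lit 228) (XT.nd (nat_lit 48984) (nat_lit 0) (nat_lit 76) (XT.nd (nat_lit 45864) (nat_lit 0) (nat_lit 912) xc16 xc17) (XT.nd (nat_lit 45708) (nat_lit 0) (nat_lit 152) xc18 xc19)) (XT.nd (nat_lit 48516) (nat_lit 0) (nat_lit 76) (XT.nd (nat_lit 3120) (nat_lit 228) (nat_lit 0) xc20 xc21) (XT.nd (nat_lit 45240) (nat_lit 0) (nat_lit 228) xc22 xc23))) (XT.nd (nat_lit 137904) (nat_lit 0) (nat_lit 228) (XT.nd (nat_lit 90012) (nat_lit 0) (nat_lit 76) (XT.nd (nat_lit 45084) (nat_lit 0) (nat_lit 0) xc24 xc25) (XT.nd (nat_lit 3120) (nat_lit 836) (nat_lit 0) xc26 xc27)) (XT.nd (nat_lit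 47736) (nat_lit 0) (nat_lit 0) (XT.nd (nat_lit 44616) (nat_lit 0) (nat_lit 2052) xc28 xc29) (XT.nd (nat_lit 44460) (nat_lit 0) (nat_lit 1368) xc30 xc31))))) (XT.nd (nat_lit 375648) (nat_lit 0) (nat_lit 608) (XT.nd (nat_lit 188682) (nat_lit 0) (nat_lit 380) (XT.nd (nat_lit 94614) (nat_lit 0) (nat_lit 152) (XT.nd (nat_lit 47346) (nat_lit 0) (nat_lit 152) (XT.nd (nat_lit 44226) (nat_lit 0) (nat_lit 912) xc32 xc33) (XT.nd (nat_lit 44148) (nat_lit 0) (nat_lit 456) xc34 xc35)) (XT.nd (nat_lit 47112) (nat_lit 0) (nat_lit 76) (XT.nd (nat_lit 43992) (nat_lit 0) (nat_lit 304) xc36 xc37) (XT.nd (nat_lit 43836) (nat_lit 0) (nat_lit 228) xc38 xc39))) (XT.nd (nat_lit 93444) (nat_lit 0) (nat_lit 76) (XT.nd (nat_lit 46800) (nat_lit 0) (nat_lit 0) (XT.nd (nat_lit 43680) (nat_lit 0) (nat_lit 228) xc40 xc41) (XT.nd (nat_lit 43524) (nat_lit 0) (nat_lit 532) xc42 xc43)) (XT.nd (nat_lit 46722) (nat_lit 0) (nat_lit 76)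 (XT.nd (nat_lit 43602) (nat_lit 0) (nat_lit 684) xc44 xc45) (XT.nd (nat_lit 43680) (nat_lit 0) (nat_lit 760) xc46 xc47)))) (XT.nd (nat_lit 187980) (nat_lit 0) (nat_lit 304) (XT.nd (nat_lit 93834) (nat_lit 0) (nat_lit 76) (XT.nd (nat_lit 46878) (nat_lit 0) (nat_lit 76) (XT.nd (nat_lit 43758) (nat_lit 0) (nat_lit 760) xc48 xc49) (XT.nd (nat_lit 43836) (nat_lit 0) (nat_lit 684) xc50 xc51)) (XT.nd (nat_lit 47034) (nat_lit 0) (nat_lit 152) (XT.nd (nat_lit 43914) (nat_lit 0) (nat_lit 608) xc52 xc53) (XT.nd (nat_lit 43992) (nat_lit 0) (nat_lit 304) xc54 xc55))) (XT.nd (nat_lit 135564) (nat_lit 0) (nat_lit 228) (XT.nd (nat_lit 88218) (nat_lit 0) (nat_lit 152) (XT.nd (nat_lit 44070) (nat_lit 0) (nat_lit 0) xc56 xc57) (XT.nd (nat_lit 3120) (nat_lit 2584) (nat_lit 0) xc58 xc59)) (XT.nd (nat_lit 47424) (nat_lit 0) (nat_lit 0) (XT.nd (nat_lit 3120) (nat_lit 2052) (nat_lit 0) xc60 xc61) (XT.nd (nat_lit 3120)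 (nat_lit 1596) (nat_lit 0) xc62 xc63)))))) (XT.nd (nat_lit 941382) (nat_lit 0) (nat_lit 1444) (XT.nd (nat_lit 424710) (nat_lit 0) (nat_lit 684) (XT.nd (nat_lit 190710) (nat_lit 0) (nat_lit 304) (XT.nd (nat_lit 95160) (nat_lit 0) (nat_lit 76) (XT.nd (nat_lit 47502) (nat_lit 0) (nat_lit 76) (XT.nd (nat_lit 3042) (nat_lit 988) (nat_lit 0) xc64 xc65) (XT.nd (nat_lit 3120) (nat_lit 380) (nat_lit 0) xc66 xc67)) (XT.nd (nat_lit 47736) (nat_lit 0) (nat_lit 152) (XT.nd (nat_lit 44616) (nat_lit 0) (nat_lit 1976) xc68 xc69) (XT.nd (nat_lit 44694) (nat_lit 0) (nat_lit 988) xc70 xc71))) (XT.nd (nat_lit 137670) (nat_lit 0) (nat_lit 228) (XT.nd (nat_lit 89622) (nat_lit 0) (nat_lit 152) (XT.nd (nat_lit 44772) (nat_lit 0) (nat_lit 0) xc72 xc73) (XT.nd (nat_lit 3120) (nat_lit 1900) (nat_lit 0) xc74 xc75)) (XT.nd (nat_lit 48126) (nat_lit 0) (nat_lit 0) (XT.nd (nat_lit 3120) (nat_lit 684) (nat_lit 0) xc76 xc77) (XT.nd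 (nat_lit 45084) (nat_lit 0) (nat_lit 1368) xc78 xc79)))) (XT.nd (nat_lit 278382) (nat_lit 0) (nat_lit 456) (XT.nd (nat_lit 138840) (nat_lit 0) (nat_lit 228) (XT.nd (nat_lit 90402) (nat_lit 0) (nat_lit 76) (XT.nd (nat_lit 45162) (nat_lit 0) (nat_lit 76) xc80 xc81) (XT.nd (nat_lit 3120) (nat_lit 1596) (nat_lit 0) xc82 xc83)) (XT.nd (nat_lit 48516) (nat_lit 0) (nat_lit 76) (XT.nd (nat_lit 45396) (nat_lit 0) (nat_lit 1444) xc84 xc85) (XT.nd (nat_lit 45474) (nat_lit 0) (nat_lit 0) xc86 xc87))) (XT.nd (nat_lit 97578) (nat_lit 0) (nat_lit 76) (XT.nd (nat_lit 48750) (nat_lit 0) (nat_lit 76) (XT.nd (nat_lit 3120) (nat_lit 988) (nat_lit 0) xc88 xc89) (XT.nd (nat_lit 45708) (nat_lit 0) (nat_lit 456) xc90 xc91)) (XT.nd (nat_lit 91650) (nat_lit 0) (nat_lit 228) (XT.nd (nat_lit 45786) (nat_lit 0) (nat_lit 152) xc92 xc93) (XT.nd (nat_lit 45942) (nat_lit 0) (nat_lit 380) xc94 xc95))))) (XT.nd (nat_lit 702624)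 (nat_lit 0) (nat_lit 1292) (XT.nd (nat_lit 327288) (nat_lit 0) (nat_lit 684) (XT.nd (nat_lit 184704) (nat_lit 0) (nat_lit 456) (XT.nd (nat_lit 92118) (nat_lit 0) (nat_lit 228) (XT.nd (nat_lit 45942) (nat_lit 0) (nat_lit 228) xc96 xc97) (XT.nd (nat_lit 46254) (nat_lit 0) (nat_lit 152) xc98 xc99)) (XT.nd (nat_lit 49530) (nat_lit 0) (nat_lit 0) (XT.nd (nat_lit 46410) (nat_lit 0) (nat_lit 456) xc100 xc101) (XT.nd (nat_lit 46488) (nat_lit 0) (nat_lit 152) xc102 xc103))) (XT.nd (nat_lit 187044) (nat_lit 0) (nat_lit 228) (XT.nd (nat_lit 93366) (nat_lit 0) (nat_lit 152) (XT.nd (nat_lit 46644) (nat_lit 0) (nat_lit 0) xc104 xc105) (XT.nd (nat_lit 46800) (nat_lit 0) (nat_lit 76) xc106 xc107)) (XT.nd (nat_lit 93990) (nat_lit 0) (nat_lit 228) (XT.nd (nat_lit 46956) (nat_lit 0) (nat_lit 152) xc108 xc109) (XT.nd (nat_lit 47112) (nat_lit 0) (nat_lit 0) xc110 xc111)))) (XT.nd (nat_lit 514878) (nat_lit 0) (nat_lit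 760) (XT.nd (nat_lit 234000) (nat_lit 0) (nat_lit 304) (XT.nd (nat_lit 138918) (nat_lit 0) (nat_lit 228) (XT.nd (nat_lit 47268) (nat_lit 0) (nat_lit 76) xc112 xc113) (XT.nd (nat_lit 47502) (nat_lit 0) (nat_lit 76) xc114 xc115)) (XT.nd (nat_lit 140088) (nat_lit 0) (nat_lit 228) (XT.nd (nat_lit 47658) (nat_lit 0) (nat_lit 152) xc116 xc117) (XT.nd (nat_lit 47892) (nat_lit 0) (nat_lit 152) xc118 xc119))) (XT.nd (nat_lit 329160) (nat_lit 0) (nat_lit 532) (XT.nd (nat_lit 141492) (nat_lit 0) (nat_lit 228) (XT.nd (nat_lit 48126) (nat_lit 0) (nat_lit 152) xc120 xc121) (XT.nd (nat_lit 93678) (nat_lit 0) (nat_lit 228) xc122 xc123)) (XT.nd (nat_lit 234780) (nat_lit 0) (nat_lit 456) (XT.nd (nat_lit 140010) (nat_lit 0) (nat_lit 228) xc124 xc125) (XT.nd (nat_lit 187356) (nat_lit 0) (nat_lit 228) xc126 xc127))))))) XT.nil))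

set_option maxRecDepth 10000000 in
noncomputable def Te : XT := (XT.nd (nat_lit 12778584) (nat_lit 0) (nat_lit 152) XT.nil (XT.nd (nat_lit 4689126) (nat_lit 0) (nat_lit 0) (XT.nd (nat_lit 3233178) (nat_lit 4864) (nat_lit 0) (XT.nd (nat_lit 2245932) (nat_lit 3192) (nat_lit 0) (XT.nd (nat_lit 1546740) (nat_lit 2204) (nat_lit 0) (XT.nd (nat_lit 1077960) (nat_lit 1900) (nat_lit 0) (XT.nd (nat_lit 749892) (nat_lit 1292) (nat_lit 0) (XT.nd (nat_lit 515580) (nat_lit 988) (nat_lit 0) (XT.nd (nat_lit 374010) (nat_lit 456) (nat_lit 0) (XT.nd (nat_lit 234234) (nat_lit 608) (nat_lit 0) ec0 ec1) (XT.nd (nat_lit 93366) (nat_lit 152) (nat_lit 0) ec2 ec3)) (XT.nd (nat_lit 139776) (nat_lit 304) (nat_lit 0) (XT.nd (nat_lit 92196) (nat_lit 228) (nat_lit 0) ec4 ec5) (XT.nd (nat_lit 47346) (nat_lit 228) (nat_lit 0) ec6 ec7))) (XT.nd (nat_lit 186576) (nat_lit 456) (nat_lit 0) (XT.nd (nat_lit 93678) (nat_lit 456) (nat_lit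 0) (XT.nd (nat_lit 46878) (nat_lit 152) (nat_lit 0) ec8 ec9) (XT.nd (nat_lit 46488) (nat_lit 228) (nat_lit 0) ec10 ec11)) (XT.nd (nat_lit 92196) (nat_lit 152) (nat_lit 0) (XT.nd (nat_lit 46176) (nat_lit 228) (nat_lit 0) ec12 ec13) (XT.nd (nat_lit 3432) (nat_lit 152) (nat_lit 0) ec14 ec15)))) (XT.nd (nat_lit 277914) (nat_lit 760) (nat_lit 0) (XT.nd (nat_lit 139776) (nat_lit 608) (nat_lit 0) (XT.nd (nat_lit 91026) (nat_lit 76) (nat_lit 0) (XT.nd (nat_lit 45552) (nat_lit 228) (nat_lit 0) ec16 ec17) (XT.nd (nat_lit 3432) (nat_lit 532) (nat_lit 0) ec18 ec19)) (XT.nd (nat_lit 48516) (nat_lit 380) (nat_lit 0) (XT.nd (nat_lit 45006) (nat_lit 0) (nat_lit 304) ec20 ec21) (XT.nd (nat_lit 44850) (nat_lit 228) (nat_lit 0) ec22 ec23))) (XT.nd (nat_lit 95940) (nat_lit 532) (nat_lit 0) (XT.nd (nat_lit 48048) (nat_lit 152) (nat_lit 0) (XT.nd (nat_lit 3432) (nat_lit 1216) (nat_lit 0) ec24 ec25) (XT.nd (nat_lit 3432)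 (nat_lit 0) (nat_lit 0) ec26 ec27)) (XT.nd (nat_lit 47502) (nat_lit 76) (nat_lit 0) (XT.nd (nat_lit 43992) (nat_lit 0) (nat_lit 1976) ec28 ec29) (XT.nd (nat_lit 43914) (nat_lit 0) (nat_lit 1368) ec30 ec31))))) (XT.nd (nat_lit 373308) (nat_lit 1064) (nat_lit 0) (XT.nd (nat_lit 187824) (nat_lit 532) (nat_lit 0) (XT.nd (nat_lit 94224) (nat_lit 228) (nat_lit 0) (XT.nd (nat_lit 47190) (nat_lit 228) (nat_lit 0) (XT.nd (nat_lit 43680) (nat_lit 0) (nat_lit 1064) ec32 ec33) (XT.nd (nat_lit 43524) (nat_lit 0) (nat_lit 912) ec34 ec35)) (XT.nd (nat_lit 46878) (nat_lit 152) (nat_lit 0) (XT.nd (nat_lit 43368) (nat_lit 0) (nat_lit 912) ec36 ec37) (XT.nd (nat_lit 43212) (nat_lit 0) (nat_lit 1064) ec38 ec39))) (XT.nd (nat_lit 92976) (nat_lit 228) (nat_lit 0) (XT.nd (nat_lit 46566) (nat_lit 76) (nat_lit 0) (XT.nd (nat_lit 43056) (nat_lit 0) (nat_lit 1368) ec40 ec41) (XT.nd (nat_lit 42900) (nat_lit 0) (nat_lit 1824)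 ec42 ec43)) (XT.nd (nat_lit 46332) (nat_lit 76) (nat_lit 0) (XT.nd (nat_lit 42822) (nat_lit 0) (nat_lit 2280) ec44 ec45) (XT.nd (nat_lit 42666) (nat_lit 0) (nat_lit 2964) ec46 ec47)))) (XT.nd (nat_lit 183144) (nat_lit 456) (nat_lit 0) (XT.nd (nat_lit 91884) (nat_lit 228) (nat_lit 0) (XT.nd (nat_lit 46020) (nat_lit 228) (nat_lit 0) (XT.nd (nat_lit 42510) (nat_lit 0) (nat_lit 3800) ec48 ec49) (XT.nd (nat_lit 3432) (nat_lit 684) (nat_lit 0) ec50 ec51)) (XT.nd (nat_lit 45708) (nat_lit 152) (nat_lit 0) (XT.nd (nat_lit 3432) (nat_lit 1596) (nat_lit 0) ec52 ec53) (XT.nd (nat_lit 3432) (nat_lit 2736) (nat_lit 0) ec54 ec55))) (XT.nd (nat_lit 52338) (nat_lit 228) (nat_lit 0) (XT.nd (nat_lit 6942) (nat_lit 684) (nat_lit 0) (XT.nd (nat_lit 3432) (nat_lit 3420) (nat_lit 0) ec56 ec57) (XT.nd (nat_lit 41886) (nat_lit 0) (nat_lit 1976) ec58 ec59)) (XT.nd (nat_lit 45240) (nat_lit 152) (nat_lit 0) (XT.nd (nat_lit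 41730) (nat_lit 0) (nat_lit 3496) ec60 ec61) (XT.nd (nat_lit 3510) (nat_lit 228) (nat_lit 0) ec62 ec63)))))) (XT.nd (nat_lit 520416) (nat_lit 1520) (nat_lit 0) (XT.nd (nat_lit 281112) (nat_lit 760) (nat_lit 0) (XT.nd (nat_lit 141258) (nat_lit 456) (nat_lit 0) (XT.nd (nat_lit 51870) (nat_lit 228) (nat_lit 0) (XT.nd (nat_lit 44928) (nat_lit 0) (nat_lit 380) (XT.nd (nat_lit 3432) (nat_lit 2052) (nat_lit 0) ec64 ec65) (XT.nd (nat_lit 3432) (nat_lit 3420) (nat_lit 0) ec66 ec67)) (XT.nd (nat_lit 44772) (nat_lit 152) (nat_lit 0) (XT.nd (nat_lit 41262) (nat_lit 0) (nat_lit 2356) ec68 ec69) (XT.nd (nat_lit 41106) (nat_lit 0) (nat_lit 4560) ec70 ec71))) (XT.nd (nat_lit 51402) (nat_lit 228) (nat_lit 0) (XT.nd (nat_lit 44460) (nat_lit 0) (nat_lit 228) (XT.nd (nat_lit 3432) (nat_lit 1368) (nat_lit 0) ec72 ec73) (XT.nd (nat_lit 3432) (nat_lit 3420) (nat_lit 0) ec74 ec75)) (XT.nd (nat_lit 44304) (nat_lit 152)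 (nat_lit 0) (XT.nd (nat_lit 40794) (nat_lit 0) (nat_lit 2584) ec76 ec77) (XT.nd (nat_lit 40638) (nat_lit 0) (nat_lit 5244) ec78 ec79)))) (XT.nd (nat_lit 138450) (nat_lit 304) (nat_lit 0) (XT.nd (nat_lit 50934) (nat_lit 228) (nat_lit 0) (XT.nd (nat_lit 43992) (nat_lit 0) (nat_lit 1368) (XT.nd (nat_lit 3432) (nat_lit 2204) (nat_lit 0) ec80 ec81) (XT.nd (nat_lit 3432) (nat_lit 3420) (nat_lit 0) ec82 ec83)) (XT.nd (nat_lit 43836) (nat_lit 152) (nat_lit 0) (XT.nd (nat_lit 40326) (nat_lit 0) (nat_lit 4332) ec84 ec85) (XT.nd (nat_lit 3432) (nat_lit 1140) (nat_lit 0) ec86 ec87))) (XT.nd (nat_lit 50466) (nat_lit 76) (nat_lit 0) (XT.nd (nat_lit 6942) (nat_lit 912) (nat_lit 0) (XT.nd (nat_lit 3432) (nat_lit 3420) (nat_lit 0) ec88 ec89) (XT.nd (nat_lit 40014) (nat_lit 0) (nat_lit 4028) ec90 ec91)) (XT.nd (nat_lit 43368) (nat_lit 0) (nat_lit 532) (XT.nd (nat_lit 3432) (nat_lit 760) (nat_lit 0) ec92 ec93) (XT.nd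 (nat_lit 3510) (nat_lit 3420) (nat_lit 0) ec94 ec95))))) (XT.nd (nat_lit 270816) (nat_lit 608) (nat_lit 0) (XT.nd (nat_lit 136110) (nat_lit 456) (nat_lit 0) (XT.nd (nat_lit 86268) (nat_lit 76) (nat_lit 0) (XT.nd (nat_lit 43212) (nat_lit 228) (nat_lit 0) (XT.nd (nat_lit 39702) (nat_lit 0) (nat_lit 4104) ec96 ec97) (XT.nd (nat_lit 3432) (nat_lit 912) (nat_lit 0) ec98 ec99)) (XT.nd (nat_lit 6942) (nat_lit 1216) (nat_lit 0) (XT.nd (nat_lit 3432) (nat_lit 3420) (nat_lit 0) ec100 ec101) (XT.nd (nat_lit 39390) (nat_lit 0) (nat_lit 4864) ec102 ec103))) (XT.nd (nat_lit 49686) (nat_lit 304) (nat_lit 0) (XT.nd (nat_lit 42744) (nat_lit 0) (nat_lit 2204) (XT.nd (nat_lit 3432) (nat_lit 1748) (nat_lit 0) ec104 ec105) (XT.nd (nat_lit 3432) (nat_lit 3420) (nat_lit 0) ec106 ec107)) (XT.nd (nat_lit 42588) (nat_lit 76) (nat_lit 0) (XT.nd (nat_lit 39078) (nat_lit 0) (nat_lit 6384) ec108 ec109) (XT.nd (nat_lit 3432)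 (nat_lit 3192) (nat_lit 0) ec110 ec111)))) (XT.nd (nat_lit 98280) (nat_lit 228) (nat_lit 0) (XT.nd (nat_lit 49218) (nat_lit 228) (nat_lit 0) (XT.nd (nat_lit 6942) (nat_lit 4104) (nat_lit 0) (XT.nd (nat_lit 3432) (nat_lit 3420) (nat_lit 0) ec112 ec113) (XT.nd (nat_lit 3432) (nat_lit 684) (nat_lit 0) ec114 ec115)) (XT.nd (nat_lit 6942) (nat_lit 1824) (nat_lit 0) (XT.nd (nat_lit 3432) (nat_lit 3420) (nat_lit 0) ec116 ec117) (XT.nd (nat_lit 38610) (nat_lit 0) (nat_lit 6384) ec118 ec119))) (XT.nd (nat_lit 48906) (nat_lit 152) (nat_lit 0) (XT.nd (nat_lit 41964) (nat_lit 0) (nat_lit 4332) (XT.nd (nat_lit 3432) (nat_lit 3040) (nat_lit 0) ec120 ec121) (XT.nd (nat_lit 3432) (nat_lit 3420) (nat_lit 0) ec122 ec123)) (XT.nd (nat_lit 41808) (nat_lit 0) (nat_lit 2432) (XT.nd (nat_lit 3432) (nat_lit 1140) (nat_lit 0) ec124 ec125) (XT.nd (nat_lit 3510) (nat_lit 3420) (nat_lit 0) ec126 ec127))))))) (XT.nd (nat_lit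 791154) (nat_lit 2280) (nat_lit 0) (XT.nd (nat_lit 417924) (nat_lit 1216) (nat_lit 0) (XT.nd (nat_lit 227526) (nat_lit 608) (nat_lit 0) (XT.nd (nat_lit 131430) (nat_lit 304) (nat_lit 0) (XT.nd (nat_lit 48594) (nat_lit 380) (nat_lit 0) (XT.nd (nat_lit 41652) (nat_lit 0) (nat_lit 684) (XT.nd (nat_lit 38142) (nat_lit 0) (nat_lit 7372) ec128 ec129) (XT.nd (nat_lit 3432) (nat_lit 3420) (nat_lit 0) ec130 ec131)) (XT.nd (nat_lit 41496) (nat_lit 152) (nat_lit 0) (XT.nd (nat_lit 37986) (nat_lit 0) (nat_lit 6004) ec132 ec133) (XT.nd (nat_lit 3432) (nat_lit 2736) (nat_lit 0) ec134 ec135))) (XT.nd (nat_lit 48126) (nat_lit 228) (nat_lit 0) (XT.nd (nat_lit 6942) (nat_lit 4636) (nat_lit 0) (XT.nd (nat_lit 3432) (nat_lit 3420) (nat_lit 0) ec136 ec137) (XT.nd (nat_lit 3432) (nat_lit 1368) (nat_lit 0) ec138 ec139)) (XT.nd (nat_lit 6942) (nat_lit 3496) (nat_lit 0) (XT.nd (nat_lit 3432) (nat_lit 3420) (nat_lit 0)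 ec140 ec141) (XT.nd (nat_lit 3432) (nat_lit 228) (nat_lit 0) ec142 ec143)))) (XT.nd (nat_lit 95472) (nat_lit 380) (nat_lit 0) (XT.nd (nat_lit 47814) (nat_lit 76) (nat_lit 0) (XT.nd (nat_lit 6942) (nat_lit 2508) (nat_lit 0) (XT.nd (nat_lit 3432) (nat_lit 3420) (nat_lit 0) ec144 ec145) (XT.nd (nat_lit 37362) (nat_lit 0) (nat_lit 8208) ec146 ec147)) (XT.nd (nat_lit 6942) (nat_lit 1444) (nat_lit 0) (XT.nd (nat_lit 3432) (nat_lit 3420) (nat_lit 0) ec148 ec149) (XT.nd (nat_lit 37206) (nat_lit 0) (nat_lit 7372) ec150 ec151))) (XT.nd (nat_lit 47502) (nat_lit 152) (nat_lit 0) (XT.nd (nat_lit 6942) (nat_lit 760) (nat_lit 0) (XT.nd (nat_lit 3432) (nat_lit 3420) (nat_lit 0) ec152 ec153) (XT.nd (nat_lit 37050) (nat_lit 0) (nat_lit 6840) ec154 ec155)) (XT.nd (nat_lit 6942) (nat_lit 228) (nat_lit 0) (XT.nd (nat_lit 3432) (nat_lit 3420) (nat_lit 0) ec156 ec157) (XT.nd (nat_lit 36972) (nat_lit 0) (nat_lit 6308)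 ec158 ec159))))) (XT.nd (nat_lit 187824) (nat_lit 684) (nat_lit 0) (XT.nd (nat_lit 94224) (nat_lit 228) (nat_lit 0) (XT.nd (nat_lit 47190) (nat_lit 228) (nat_lit 0) (XT.nd (nat_lit 40248) (nat_lit 0) (nat_lit 5928) (XT.nd (nat_lit 3432) (nat_lit 3040) (nat_lit 0) ec160 ec161) (XT.nd (nat_lit 3432) (nat_lit 3420) (nat_lit 0) ec162 ec163)) (XT.nd (nat_lit 40092) (nat_lit 0) (nat_lit 5776) (XT.nd (nat_lit 3432) (nat_lit 2812) (nat_lit 0) ec164 ec165) (XT.nd (nat_lit 3432) (nat_lit 3420) (nat_lit 0) ec166 ec167))) (XT.nd (nat_lit 46878) (nat_lit 76) (nat_lit 0) (XT.nd (nat_lit 39936) (nat_lit 0) (nat_lit 5852) (XT.nd (nat_lit 3432) (nat_lit 2660) (nat_lit 0) ec168 ec169) (XT.nd (nat_lit 3432) (nat_lit 3420) (nat_lit 0) ec170 ec171)) (XT.nd (nat_lit 39780) (nat_lit 0) (nat_lit 5928) (XT.nd (nat_lit 3432) (nat_lit 2584) (nat_lit 0) ec172 ec173) (XT.nd (nat_lit 3432) (nat_lit 3420) (nat_lit 0) ec174 ec175))))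 (XT.nd (nat_lit 92976) (nat_lit 304) (nat_lit 0) (XT.nd (nat_lit 46566) (nat_lit 152) (nat_lit 0) (XT.nd (nat_lit 39624) (nat_lit 0) (nat_lit 6232) (XT.nd (nat_lit 3432) (nat_lit 2812) (nat_lit 0) ec176 ec177) (XT.nd (nat_lit 3432) (nat_lit 3420) (nat_lit 0) ec178 ec179)) (XT.nd (nat_lit 39468) (nat_lit 0) (nat_lit 6764) (XT.nd (nat_lit 3432) (nat_lit 3116) (nat_lit 0) ec180 ec181) (XT.nd (nat_lit 3432) (nat_lit 3420) (nat_lit 0) ec182 ec183))) (XT.nd (nat_lit 46254) (nat_lit 228) (nat_lit 0) (XT.nd (nat_lit 6942) (nat_lit 76) (nat_lit 0) (XT.nd (nat_lit 3432) (nat_lit 3420) (nat_lit 0) ec184 ec185) (XT.nd (nat_lit 35802) (nat_lit 0) (nat_lit 7296) ec186 ec187)) (XT.nd (nat_lit 6942) (nat_lit 760) (nat_lit 0) (XT.nd (nat_lit 3432) (nat_lit 3420) (nat_lit 0) ec188 ec189) (XT.nd (nat_lit 35724) (nat_lit 0) (nat_lit 8056) ec190 ec191)))))) (XT.nd (nat_lit 332280) (nat_lit 1216) (nat_lit 0) (XT.nd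 (nat_lit 182832) (nat_lit 456) (nat_lit 0) (XT.nd (nat_lit 91728) (nat_lit 380) (nat_lit 0) (XT.nd (nat_lit 45942) (nat_lit 76) (nat_lit 0) (XT.nd (nat_lit 6942) (nat_lit 1520) (nat_lit 0) (XT.nd (nat_lit 3432) (nat_lit 3268) (nat_lit 0) ec192 ec193) (XT.nd (nat_lit 35490) (nat_lit 0) (nat_lit 8892) ec194 ec195)) (XT.nd (nat_lit 6942) (nat_lit 2280) (nat_lit 0) (XT.nd (nat_lit 3432) (nat_lit 3420) (nat_lit 0) ec196 ec197) (XT.nd (nat_lit 35334) (nat_lit 0) (nat_lit 9880) ec198 ec199))) (XT.nd (nat_lit 45630) (nat_lit 152) (nat_lit 0) (XT.nd (nat_lit 6942) (nat_lit 3420) (nat_lit 0) (XT.nd (nat_lit 3432) (nat_lit 3420) (nat_lit 0) ec200 ec201) (XT.nd (nat_lit 3432) (nat_lit 76) (nat_lit 0) ec202 ec203)) (XT.nd (nat_lit 6942) (nat_lit 4560) (nat_lit 0) (XT.nd (nat_lit 3432) (nat_lit 3420) (nat_lit 0) ec204 ec205) (XT.nd (nat_lit 3432) (nat_lit 1292) (nat_lit 0) ec206 ec207)))) (XT.nd (nat_lit 59202)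 (nat_lit 380) (nat_lit 0) (XT.nd (nat_lit 45318) (nat_lit 0) (nat_lit 532) (XT.nd (nat_lit 6942) (nat_lit 5928) (nat_lit 0) (XT.nd (nat_lit 3432) (nat_lit 3420) (nat_lit 0) ec208 ec209) (XT.nd (nat_lit 3432) (nat_lit 2584) (nat_lit 0) ec210 ec211)) (XT.nd (nat_lit 6942) (nat_lit 6764) (nat_lit 0) (XT.nd (nat_lit 3432) (nat_lit 3420) (nat_lit 0) ec212 ec213) (XT.nd (nat_lit 3432) (nat_lit 3420) (nat_lit 0) ec214 ec215))) (XT.nd (nat_lit 45162) (nat_lit 152) (nat_lit 0) (XT.nd (nat_lit 38220) (nat_lit 0) (nat_lit 2280) (XT.nd (nat_lit 34710) (nat_lit 0) (nat_lit 8968) ec216 ec217) (XT.nd (nat_lit 3432) (nat_lit 3420) (nat_lit 0) ec218 ec219)) (XT.nd (nat_lit 38064) (nat_lit 0) (nat_lit 4028) (XT.nd (nat_lit 34554) (nat_lit 0) (nat_lit 10868) ec220 ec221) (XT.nd (nat_lit 3510) (nat_lit 3420) (nat_lit 0) ec222 ec223))))) (XT.nd (nat_lit 178152) (nat_lit 532) (nat_lit 0) (XT.nd (nat_lit 89388) (nat_lit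 380) (nat_lit 0) (XT.nd (nat_lit 44772) (nat_lit 76) (nat_lit 0) (XT.nd (nat_lit 37830) (nat_lit 0) (nat_lit 6156) (XT.nd (nat_lit 3432) (nat_lit 912) (nat_lit 0) ec224 ec225) (XT.nd (nat_lit 3432) (nat_lit 3420) (nat_lit 0) ec226 ec227)) (XT.nd (nat_lit 37674) (nat_lit 0) (nat_lit 8284) (XT.nd (nat_lit 3432) (nat_lit 2812) (nat_lit 0) ec228 ec229) (XT.nd (nat_lit 3432) (nat_lit 3420) (nat_lit 0) ec230 ec231))) (XT.nd (nat_lit 44460) (nat_lit 152) (nat_lit 0) (XT.nd (nat_lit 6942) (nat_lit 1824) (nat_lit 0) (XT.nd (nat_lit 3432) (nat_lit 3268) (nat_lit 0) ec232 ec233) (XT.nd (nat_lit 34008) (nat_lit 0) (nat_lit 10716) ec234 ec235)) (XT.nd (nat_lit 6942) (nat_lit 4104) (nat_lit 0) (XT.nd (nat_lit 3432) (nat_lit 3420) (nat_lit 0) ec236 ec237) (XT.nd (nat_lit 3432) (nat_lit 836) (nat_lit 0) ec238 ec239)))) (XT.nd (nat_lit 58032) (nat_lit 456) (nat_lit 0) (XT.nd (nat_lit 44148) (nat_lit 0) (nat_lit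 2280) (XT.nd (nat_lit 6942) (nat_lit 6460) (nat_lit 0) (XT.nd (nat_lit 3432) (nat_lit 3420) (nat_lit 0) ec240 ec241) (XT.nd (nat_lit 3432) (nat_lit 3192) (nat_lit 0) ec242 ec243)) (XT.nd (nat_lit 6942) (nat_lit 6688) (nat_lit 0) (XT.nd (nat_lit 3432) (nat_lit 3420) (nat_lit 0) ec244 ec245) (XT.nd (nat_lit 3432) (nat_lit 3420) (nat_lit 0) ec246 ec247))) (XT.nd (nat_lit 43992) (nat_lit 228) (nat_lit 0) (XT.nd (nat_lit 37050) (nat_lit 0) (nat_lit 5092) (XT.nd (nat_lit 33540) (nat_lit 0) (nat_lit 11932) ec248 ec249) (XT.nd (nat_lit 3432) (nat_lit 3420) (nat_lit 0) ec250 ec251)) (XT.nd (nat_lit 41106) (nat_lit 76) (nat_lit 0) (XT.nd (nat_lit 3432) (nat_lit 1976) (nat_lit 0) ec252 ec253) (XT.nd (nat_lit 3510) (nat_lit 7372) (nat_lit 0) ec254 ec255)))))))) XT.nil))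

set_option maxRecDepth 10000000 in
noncomputable def Tz : ZL := (ZL.cons (nat_lit 836) (nat_lit 3) (nat_lit 568984849598729904379351) (ZL.cons (nat_lit 912) (nat_lit 6) (nat_lit 1063754284032441465081296) (ZL.cons (nat_lit 1064) (nat_lit 3) (nat_lit 494769434433713305721394) (ZL.cons (nat_lit 1140) (nat_lit 6) (nat_lit 925003725245682068384240) (ZL.cons (nat_lit 1292) (nat_lit 3) (nat_lit 430234290811971070451069) (ZL.cons (nat_lit 1368) (nat_lit 6) (nat_lit 804351065431134736146182) (ZL.cons (nat_lit 1520) (nat_lit 3) (nat_lit 374116774619166717745037) (ZL.cons (nat_lit 1596) (nat_lit 6) (nat_lit 699435709070693254386390) (ZL.cons (nat_lit 1748) (nat_lit 3) (nat_lit 325318934451530572977376) (ZL.cons (nat_lit 1824) (nat_lit 6) (nat_lit 608204964409485364433010) (ZL.cons (nat_lit 1976) (nat_lit 3) (nat_lit 282886029957960129510025) (ZL.cons (nat_lit 2052) (nat_lit 6) (nat_lit 528873882095451816642664)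 (ZL.cons (nat_lit 2204) (nat_lit 3) (nat_lit 245987852137498746709571) (ZL.cons (nat_lit 2280) (nat_lit 6) (nat_lit 459890332257241481579496) (ZL.cons (nat_lit 2432) (nat_lit 3) (nat_lit 213902480119752071160418) (ZL.cons (nat_lit 2508) (nat_lit 6) (nat_lit 399904636745859645536340) (ZL.cons (nat_lit 2660) (nat_lit 3) (nat_lit 186002156626119921620099) (ZL.cons (nat_lit 2736) (nat_lit 6) (nat_lit 347743162388275717002206) (ZL.cons (nat_lit 2888) (nat_lit 3) (nat_lit 161741005762172124612531) (ZL.cons (nat_lit 2964) (nat_lit 6) (nat_lit 302385358599256666848806) (ZL.cons (nat_lit 3116) (nat_lit 3) (nat_lit 140644352837106137643510) (ZL.cons (nat_lit 3192) (nat_lit 6) (nat_lit 262943790087310012440926) (ZL.cons (nat_lit 3344) (nat_lit 3) (nat_lit 122299437250232434723485) (ZL.cons (nat_lit 3420) (nat_lit 6) (nat_lit 228646773990287552786498) (ZL.cons (nat_lit 3572) (nat_lit 3) (nat_lit 106347336740092888565239)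 (ZL.cons (nat_lit 3648) (nat_lit 6) (nat_lit 198823281732433602763078) (ZL.cons (nat_lit 3800) (nat_lit 3) (nat_lit 92475944992390665687033) (ZL.cons (nat_lit 3876) (nat_lit 6) (nat_lit 172889810204428930265418) (ZL.cons (nat_lit 4028) (nat_lit 3) (nat_lit 80413865212104325422845) (ZL.cons (nat_lit 4104) (nat_lit 6) (nat_lit 150338965398214208633620) (ZL.cons (nat_lit 4256) (nat_lit 3) (nat_lit 69925100186197248677574) (ZL.cons (nat_lit 4332) (nat_lit 6) (nat_lit 130729535132926941663708) (ZL.cons (nat_lit 4484) (nat_lit 3) (nat_lit 60804434946845233815973) (ZL.cons (nat_lit 4560) (nat_lit 6) (nat_lit 113677856642677315781334) (ZL.cons (nat_lit 4712) (nat_lit 3) (nat_lit 52873421695984884712824) (ZL.cons (nat_lit 4788) (nat_lit 6) (nat_lit 98850310131141998321754) (ZL.cons (nat_lit 4940) (nat_lit 3) (nat_lit 45976888435359195242450) (ZL.cons (nat_lit 5016) (nat_lit 6) (nat_lit 85956791427740725998728)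 (ZL.cons (nat_lit 5168) (nat_lit 3) (nat_lit 39979902992648783716609) (ZL.cons (nat_lit 5244) (nat_lit 6) (nat_lit 74745036036496182496978) (ZL.cons (nat_lit 5396) (nat_lit 3) (nat_lit 34765133044200840820407) (ZL.cons (nat_lit 5472) (nat_lit 6) (nat_lit 64995683526361046885872) (ZL.cons (nat_lit 5624) (nat_lit 3) (nat_lit 30230550482627633163415) (ZL.cons (nat_lit 5700) (nat_lit 6) (nat_lit 56517985696738437144494) (ZL.cons (nat_lit 5852) (nat_lit 3) (nat_lit 26287435214728976318116) (ZL.cons (nat_lit 5928) (nat_lit 6) (nat_lit 49146074547524368026136) (ZL.cons (nat_lit 6080) (nat_lit 3) (nat_lit 22858639333612924623753) (ZL.cons (nat_lit 6156) (nat_lit 6) (nat_lit 42735717035699050542868) (ZL.cons (nat_lit 6308) (nat_lit 3) (nat_lit 19877077703167313200170) (ZL.cons (nat_lit 6384) (nat_lit 6) (nat_lit 37161493124579884628422) (ZL.cons (nat_lit 6536) (nat_lit 3) (nat_lit 17284415422842441607448)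 (ZL.cons (nat_lit 6612) (nat_lit 6) (nat_lit 32314341913663758538894) (ZL.cons (nat_lit 6764) (nat_lit 3) (nat_lit 15029926492712320243434) (ZL.cons (nat_lit 6840) (nat_lit 6) (nat_lit 28099427838565417291868) (ZL.cons (nat_lit 6992) (nat_lit 3) (nat_lit 13069501348353948928537) (ZL.cons (nat_lit 7068) (nat_lit 6) (nat_lit 24434285192802848389520) (ZL.cons (nat_lit 7220) (nat_lit 3) (nat_lit 11364783847756276072420) (ZL.cons (nat_lit 7296) (nat_lit 6) (nat_lit 21247204668612274839512) (ZL.cons (nat_lit 7448) (nat_lit 3) (nat_lit 9882420825230004335716) (ZL.cons (nat_lit 7524) (nat_lit 6) (nat_lit 18475830349135827252968) (ZL.cons (nat_lit 7676) (nat_lit 3) (nat_lit 8593409529690445281758) (ZL.cons (nat_lit 7752) (nat_lit 6) (nat_lit 16065939701859169609628) (ZL.cons (nat_lit 7904) (nat_lit 3) (nat_lit 7472530179818887404928) (ZL.cons (nat_lit 7980) (nat_lit 6) (nat_lit 13970382703645306650102)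 (ZL.cons (nat_lit 8132) (nat_lit 3) (nat_lit 6497852533943759914585) (ZL.cons (nat_lit 8208) (nat_lit 6) (nat_lit 12148159341167922254648) (ZL.cons (nat_lit 8360) (nat_lit 3) (nat_lit 5650306820604345375359) (ZL.cons (nat_lit 8436) (nat_lit 6) (nat_lit 10563617437909363451240) (ZL.cons (nat_lit 8588) (nat_lit 3) (nat_lit 4913310635000310140059) (ZL.cons (nat_lit 8664) (nat_lit 6) (nat_lit 9185755113126251659454) (ZL.cons (nat_lit 8816) (nat_lit 3) (nat_lit 4272444501527965274270) (ZL.cons (nat_lit 8892) (nat_lit 6) (nat_lit 7987614225362614337184) (ZL.cons (nat_lit 9044) (nat_lit 3) (nat_lit 3715169754783825478735) (ZL.cons (nat_lit 9120) (nat_lit 6) (nat_lit 6945752933262184867494) (ZL.cons (nat_lit 9272) (nat_lit 3) (nat_lit 3230583219408645198683) (ZL.cons (nat_lit 9348) (nat_lit 6) (nat_lit 6039787054430654623410) (ZL.cons (nat_lit 9424) (nat_lit 6) (nat_lit 5673370400842539019610) (ZL.cons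 (nat_lit 9500) (nat_lit 3) (nat_lit 2809203889152312408351) (ZL.cons (nat_lit 9576) (nat_lit 6) (nat_lit 5251991249216206075240) (ZL.cons (nat_lit 9652) (nat_lit 6) (nat_lit 4933368448118016293212) (ZL.cons (nat_lit 9728) (nat_lit 3) (nat_lit 2442787431651219362734) (ZL.cons (nat_lit 9804) (nat_lit 6) (nat_lit 4566952226855098043880) (ZL.cons (nat_lit 9880) (nat_lit 6) (nat_lit 4289889418726301278016) (ZL.cons (nat_lit 9956) (nat_lit 3) (nat_lit 2124164889878116913900) (ZL.cons (nat_lit 10032) (nat_lit 6) (nat_lit 3971267189378184997270) (ZL.cons (nat_lit 10108) (nat_lit 6) (nat_lit 3730343665909207118642) (ZL.cons (nat_lit 10184) (nat_lit 3) (nat_lit 1847102424706748146186) (ZL.cons (nat_lit 10260) (nat_lit 6) (nat_lit 3453281613919882558226) (ZL.cons (nat_lit 10336) (nat_lit 6) (nat_lit 3243783767420294830470) (ZL.cons (nat_lit 10412) (nat_lit 3) (nat_lit 1606179354798968795115) (ZL.cons (nat_lit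 10488) (nat_lit 6) (nat_lit 3002861243945768943546) (ZL.cons (nat_lit 10564) (nat_lit 6) (nat_lit 2820690353504964622912) (ZL.cons (nat_lit 10640) (nat_lit 3) (nat_lit 1396682108134066120049) (ZL.cons (nat_lit 10716) (nat_lit 6) (nat_lit 2611193829498039654184) (ZL.cons (nat_lit 10792) (nat_lit 6) (nat_lit 2452785880416076330862) (ZL.cons (nat_lit 10868) (nat_lit 3) (nat_lit 1214512010974632781599) (ZL.cons (nat_lit 10944) (nat_lit 6) (nat_lit 2270616738971818509042) (ZL.cons (nat_lit 11020) (nat_lit 6) (nat_lit 2132872707637878875442) (ZL.cons (nat_lit 11096) (nat_lit 3) (nat_lit 1056105111007282582214) (ZL.cons (nat_lit 11172) (nat_lit 6) (nat_lit 1974467071603848296802) (ZL.cons (nat_lit 11248) (nat_lit 6) (nat_lit 1854692313057719097882) (ZL.cons (nat_lit 11324) (nat_lit 3) (nat_lit 918362467127418805022) (ZL.cons (nat_lit 11400) (nat_lit 6) (nat_lit 1716951340729670519124) (ZL.cons (nat_lit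 11476) (nat_lit 6) (nat_lit 1612802894633289407044) (ZL.cons (nat_lit 11552) (nat_lit 3) (nat_lit 798589543489304926202) (ZL.cons (nat_lit 11628) (nat_lit 6) (nat_lit 1493032181622451128154) (ZL.cons (nat_lit 11704) (nat_lit 6) (nat_lit 1402472967817269501770) (ZL.cons (nat_lit 11780) (nat_lit 3) (nat_lit 694443524058774074953) (ZL.cons (nat_lit 11856) (nat_lit 6) (nat_lit 1298329871941310631428) (ZL.cons (nat_lit 11932) (nat_lit 6) (nat_lit 1219588882255507838658) (ZL.cons (nat_lit 12008) (nat_lit 3) (nat_lit 603887519519179418520) (ZL.cons (nat_lit 12084) (nat_lit 6) (nat_lit 1129036744116834626974) (ZL.cons (nat_lit 12160) (nat_lit 6) (nat_lit 1060574455319577744946) (ZL.cons (nat_lit 12236) (nat_lit 3) (nat_lit 525150774087115393508) (ZL.cons (nat_lit 12312) (nat_lit 6) (nat_lit 981842823202732330614) (ZL.cons (nat_lit 12388) (nat_lit 6) (nat_lit 922321159365940374924) (ZL.cons (nat_lit 12464)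 (nat_lit 3) (nat_lit 456694098315428031841) (ZL.cons (nat_lit 12540) (nat_lit 6) (nat_lit 853871245953629625882) (ZL.cons (nat_lit 12616) (nat_lit 6) (nat_lit 802127509092585543432) (ZL.cons (nat_lit 12692) (nat_lit 3) (nat_lit 397179857704951766827) (ZL.cons (nat_lit 12768) (nat_lit 6) (nat_lit 742622211702384848614) (ZL.cons (nat_lit 12844) (nat_lit 6) (nat_lit 697646479323752553012) (ZL.cons (nat_lit 12920) (nat_lit 3) (nat_lit 345445938060710185298) (ZL.cons (nat_lit 12996) (nat_lit 6) (nat_lit 645924387088325413066) (ZL.cons (nat_lit 13072) (nat_lit 6) (nat_lit 606839945904626379028) (ZL.cons (nat_lit 13148) (nat_lit 3) (nat_lit 300483188951299197161) (ZL.cons (nat_lit 13224) (nat_lit 6) (nat_lit 561892838543372489886) (ZL.cons (nat_lit 13300) (nat_lit 6) (nat_lit 527939286718836758154) (ZL.cons (nat_lit 13376) (nat_lit 3) (nat_lit 261415918141145342247) (ZL.cons (nat_lit 13452) (nat_lit 6)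 (nat_lit 488892702120620666660) (ZL.cons (nat_lit 13528) (nat_lit 6) (nat_lit 459411409520416718646) (ZL.cons (nat_lit 13604) (nat_lit 3) (nat_lit 227485074135623109906) (ZL.cons (nat_lit 13680) (nat_lit 6) (nat_lit 425507923030182178428) (ZL.cons (nat_lit 13756) (nat_lit 6) (nat_lit 399929591555755550400) (ZL.cons (nat_lit 13832) (nat_lit 3) (nat_lit 198033812626064514837) (ZL.cons (nat_lit 13908) (nat_lit 6) (nat_lit 370514510360164928164) (ZL.cons (nat_lit 13984) (nat_lit 6) (nat_lit 348348626106403619742) (ZL.cons (nat_lit 14060) (nat_lit 3) (nat_lit 172495197269016366077) (ZL.cons (nat_lit 14136) (nat_lit 6) (nat_lit 322857859214578115058) (ZL.cons (nat_lit 14212) (nat_lit 6) (nat_lit 303683876524776964796) (ZL.cons (nat_lit 14288) (nat_lit 3) (nat_lit 150381837580488096491) (ZL.cons (nat_lit 14364) (nat_lit 6) (nat_lit 281633796431505641996) (ZL.cons (nat_lit 14440) (nat_lit 6) (nat_lit 265093942790155081756)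 (ZL.cons (nat_lit 14516) (nat_lit 3) (nat_lit 131277318628207640089) (ZL.cons (nat_lit 14592) (nat_lit 6) (nat_lit 246073111102601937482) (ZL.cons (nat_lit 14668) (nat_lit 6) (nat_lit 231866753327925787634) (ZL.cons (nat_lit 14744) (nat_lit 3) (nat_lit 114829330779728197479) (ZL.cons (nat_lit 14820) (nat_lit 6) (nat_lit 215529441887048215310) (ZL.cons (nat_lit 14896) (nat_lit 6) (nat_lit 203409010830917238504) (ZL.cons (nat_lit 14972) (nat_lit 3) (nat_lit 100744465516124100696) (ZL.cons (nat_lit 15048) (nat_lit 6) (nat_lit 189470515116366615174) (ZL.cons (nat_lit 15124) (nat_lit 6) (nat_lit 179239051219310121276) (ZL.cons (nat_lit 15200) (nat_lit 3) (nat_lit 88784708305885914068) (ZL.cons (nat_lit 15276) (nat_lit 6) (nat_lit 167472867737695153290) (ZL.cons (nat_lit 15352) (nat_lit 6) (nat_lit 158983327320513351348) (ZL.cons (nat_lit 15428) (nat_lit 3) (nat_lit 78765735570022635179) (ZL.cons (nat_lit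 15504) (nat_lit 6) (nat_lit 151934695656411995748) (ZL.cons (nat_lit 15580) (nat_lit 6) (nat_lit 149220355840754279116) (ZL.cons (nat_lit 15656) (nat_lit 6) (nat_lit 142376913062227355818) (ZL.cons (nat_lit 15732) (nat_lit 3) (nat_lit 70557214713518860088) (ZL.cons (nat_lit 15808) (nat_lit 6) (nat_lit 136867249358797669366) (ZL.cons (nat_lit 15884) (nat_lit 6) (nat_lit 134506953866921394030) (ZL.cons (nat_lit 15960) (nat_lit 6) (nat_lit 132583566962354638928) (ZL.cons (nat_lit 16036) (nat_lit 6) (nat_lit 129268652464663894298) (ZL.cons (nat_lit 16112) (nat_lit 3) (nat_lit 64085420303988627302) (ZL.cons (nat_lit 16188) (nat_lit 6) (nat_lit 125297036714568878594) (ZL.cons (nat_lit 16264) (nat_lit 6) (nat_lit 123244605852067769606) (ZL.cons (nat_lit 16340) (nat_lit 3) (nat_lit 60160248104228468906) (ZL.cons (nat_lit 16416) (nat_lit 6) (nat_lit 120866302723336155254) (ZL.cons (nat_lit 16492) (nat_lit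 6) (nat_lit 122514401091091009652) (ZL.cons (nat_lit 16568) (nat_lit 6) (nat_lit 119631866745272970840) (ZL.cons (nat_lit 16644) (nat_lit 3) (nat_lit 59338623869729250773) (ZL.cons (nat_lit 16720) (nat_lit 6) (nat_lit 116088455254600033884) (ZL.cons (nat_lit 16796) (nat_lit 6) (nat_lit 117261939261590351380) (ZL.cons (nat_lit 16872) (nat_lit 6) (nat_lit 115477216772458952262) (ZL.cons (nat_lit 16948) (nat_lit 3) (nat_lit 56477113078714884825) (ZL.cons (nat_lit 17024) (nat_lit 6) (nat_lit 113581903649540869704) (ZL.cons (nat_lit 17100) (nat_lit 3) (nat_lit 56375900083111969940) (ZL.cons (nat_lit 17176) (nat_lit 6) (nat_lit 111402293558185074764) (ZL.cons (nat_lit 17252) (nat_lit 1) (nat_lit 18446744073709551617) ZL.nil))))))))))))))))))))))))))))))))))))))))))))))))))))))))))))))))))))))))))))))))))))))))))))))))))))))))))))))))))))))))))))))))))))))))))))))))))))))))))))))))))))))))))))))))))))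

noncomputable def vl : XL := ⟨(nat_lit 0), (nat_lit 0), (nat_lit 536870912), (nat_lit 0), (nat_lit 0), (nat_lit 0), (nat_lit 0), (nat_lit 0), (nat_lit 0), (nat_lit 1), (nat_lit 0), (nat_lit 1), (nat_lit 0), (nat_lit 0), (nat_lit 0), (nat_lit 0)⟩

noncomputable def cp0 : Nat := (nat_lit 147573952589676412928)

noncomputable def cp1 : Nat := (nat_lit 16905010136151339306531187387625037531151437054200445171453462707984249754339556893370442136718662658960522475123925327360270061395658043556728346520494794447271629152018651228130556321259709098069237954544250988145417969733912088706017048995423787368005223291424721946341454048489321779723499457169912811949846592324391381295201159325375100687383991082906243192472265430529074858642880081263387931617217324569986451124890179339388981367232691929842356835962013316204289388141479683378333020803199732321239170188138377074477780480510642671222038033774006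9729453792216403889338727732920317432746118281245007574720328722957251513519715254306030298676404475143243761370456188815564921057658012389838326285138376183881405301778357554126904146875015909774384564494206569980244436481990965834828490155024279646961266163567490022278681965305901880715955118096957759415631806944564641088450497733996987136389608121938695694879354119999503123517693895863896389063878366453423344658589635094630479635582808365236199148259654647798262527398645492130153832303696682946441440892229282645509832404165975810808882095754622553869359485673407182775794704073832996763118762243240645117433793348206312681960504638724669101191327866535480764719583717184975413370721011323840845962720921498003655893039021185985232069135875408215097790518948683426813911387599231210629506483814098234139402243247372235653027660958589327204430853062952391698287427843249789970155732308206046133904929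7752412254516797585792053377194746692614858165919597666403794073590035389557655993458245272063345045702497704784896829929638862084789773742288382303709821289802855332836175000371172080299888678791568609387497061927314413873032935602333235915399674557728476835088625438250461187810497502919674480859788288431698797575260939881586078645858214020739288189523697906366248103980777645342286735861157271533003763520707947134106118045333498283109390120424308751162950305250543559922942578736890334264680802227691217834947045640672444928449707214511412544558937484366770672776609944221455494899889462666258661823296310808299210527913786405425858996784048285253667224454574286642671701701541284361627873438525680146998322674838423283811749096728267136900250637942875992665474540206333558985418074194650237528077146413144034738902942307797629409141144357222573365424334644340955267967914817901867013159961104362414979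6049227613205309709689838533717701274646154194338077627507166054526258102072855047880741199518302803261637546591382711337331248026351198182855259799643227066066627893610245720090172494891379892192885899215113744400861898370448933831536533437005931943141473718044803450672085314324593068725154722326809710288607515189396902055931385763582953519833925280170042764780263090236264352478511915189465390387805592348184196476497979844332256492716901083135904038411286456181720003079657573672437500834137631745179645580559033002800011281110571937604247861083818385752921850465382034589605567227318621147222114214103649247476804850586372294171052168129922511590371079997519951273069299427451818209069091303190940141817089681343129806588094502625062101236928823983689723052203945721263670564225994321538564645999750101576818992840241897124514673672867717900647050566012630416350991679826924520616501706728350862892676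2085607544646973414339958723071212834184803664751311939999321998197683718499374035235187299693393402986660768360356499980032972155691847490395889586587606617809998937340281806444059451596260720935152150386067290851163670750893448049990990037663657739414354404037412955073420701432150549134809887304065237590325771620078204301557495522319973579951426719895501024943514367325620115620203192850429570183852005974744749440212110619224865014284479997500027845695720709819620815629688026762826628263953517184768270305534129540556078857351800055998236363587833502182844952295022180244709457286849146947460999812466838701568160358602600418874513300441853047785429712440039932918935793889690121617241345097002550817534115563651759721365672034631197222609467372917583714603666502434993759934437111250568471517041721296730000347594704560436365493122152228887370243484491295279852233895702898748890080519092507420570967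52437103781872768930723625946256376940548209119540140471340679317116607377467643174587673365688184748616351645286560301130356727348058404892012467916992697506486156708786590032272209284691720609557564901544889017262493340138830099226942741245644440242326698351774429672209490735328720485188363340086106568518676798252856812438812293697538652286232966101279996757808614861518199259030509720186402445054942866297789008232157867195823725828233355748922241427636711370824083656232765814788233114141033839300794925373968345058165137221744969287917645124189840317813394034451782464102345436021007160010192579020003350265069560708013288844123154051744511156110772843250621525971201754235973122871320393323643223059231117963878453578070378389918598736045716224199546765600985191605987796348287812808853574020015571412699236441933800682754228432492046424404803151968208448905452616470130559218543706077392903752527519222989092126598910115652072533548513191932497597007285310841135948472912689472309099868872447923357864312960408598974824448)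

noncomputable def rc0 : Nat := (nat_lit 1440353154086385756692912821081028884294425631717693288001158708048717026875695262492070454547150728977504005025109390776985006499269217605069694001489184886459272662905600368385019213851023176601370250489760355069392167208873799473401770491439334323870360110188290933242792049361666635293113632610251136814873068741623257880715518059132141574755170436883889491210111752969598202168378670837816710550580607259185689742046355215835438252043799269638003884789110354490196616773475811751291011215521485176349813226781807121408340252365715284287459733700674154673116097002467790126309870621098013780174517049723677924700055251749447675483125850607860945550566122672319051074683252709942475951898870338299230268001436807840839368215051679809147422442875626577044972153343509624745187991062118704658914440709211149594849644748801051535465590844155187999342806541328572707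3295294805953400849590743942430872775373008234567441911112372982384594890780506838199980190333560650450886695510300441295660749076921215292606762448773261684258041724329681637465460255465859037458796994552652983723400434402887343305613169323842887732411201327992332823026728968054112937488647486275252613820544549222163497124617002683215817170349384194461428634842324611955365227310248621561927397349734462938387859844629642951682537177436748050890290453440980306724754481070429269197317187935234324866660279237316165395028124815675679892549566153206943861518413588466841179030885165571851259631604265014433691964950784528695254270743446709568595683433156313834039490828395023310690952242896426714998336961143070049481340328437251981938931030612057159044564439888038825012995057759460085237737345568282612751310285376704169874010165503290218471460381446515546375210228736199166557172249966329151781486224034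4548586506038128017238424714612693305456545931601445786542997650714054157004132660065649482042669037925382347731640156087617614561937663969461206162252185208024932123770470879309950718039530362620946057632447961932777782264675961707194268043960844410732911925955379711706201149744896889815675495594909674152643614933964385288943850028144511318072543876991799495538382515435814765257786063048763318172944482502816670150361204272240662238378890745022021642285362370388036340783534763600704663693415926388134981500135582183372109313714694523475528487802777195991535102237990478683568451968218211067936931853255735002118172671431421270099798099606339150104636614092944526375468933672100500348734184933087555490458227808797677182708887976290235747420888805454725747234608428679493082677718884905795365111453596131188039098017749585330801368560161797383155916111043695310798438326034283060811567485964709020218209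0565116991620584514059253101424587578878549189303622967583243198663840990902056685320958279402468683007806834937732832720610352409714789562326188808271362031535005588533917660692409564235008410154165108913579785221428506849225501070385584756192124204763948618197084354314091235591910773768569993692251749996934967210346286997813706892374621936904595655373141849824158279777113414422950477180855341559835189281325153132458465319462647590528690715905463164221092226904521225678916020765514938566451210838787321905508062177892333003322265378273227488125562327789178565838351444043299789998935803410986768565364895971284619224309678018709726581572213202181012815672703228191351350568892264753669166754919655390429099204039912316598358784118560083594929671810887713028745071524206527831814564934474950165833796350858704446432444142849700706350859278917596474150046850830943531067967314731518369720598249921478617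0824528904495122642110660908004884530257139611316308959374389290343108173010882312093908903582509196465265405150039682652624003973498904151237894946011718282399944338918327687941274513052543693163063576017956939786763517759556246264764555864959743306084796252755356896301510178386853294807491819113950991347264237331952439235740458712744370791555367785270428048675091900830850291115476596749571134357317477216461258548561497198564442867919189509238701549762880391827221210354500362435237188358322944992035193262327644004175564870539779021256101852366648817080591115835531669946833035633511119815278755665578742469269552066997429328515825093114124044779580892414993676523801892440535332677933799917752589851992820101485159255876236625264148387458073260620351487653965375666034567497068284057883803333806079546451164861487662524761107653915101704500373236354648829656534481147651989414396451157359030233461969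178921202883804990729937197410227168564527263384345873356671824180965797526970008879513503941582751987363335161010463938342981230931708344252937355164804341612842218238395756619118915337842565932710328569723670319804889741341321264009104767304578800743951769161864139090941457787793099284740656581806424223307594998950282568891294706951232209211243772513902781677434245761439883478561386235514021590138411571920761838083392803211767676618792031863063981151594563415990393867834172897973271721226014292482251168214556252866495098471311858012509523396790890133221022473464435631109686177371757624978712064229955137528427198884230762236374244730153816538300406319085372586721203297640687837369060888960167317246175512363008)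

noncomputable def rc1 : Nat := (nat_lit 1533977490422665936855065899046364926434331625653984377014837629977572002861112823819511783662735818196788669827883367473146339951420663748773776626064641985748722348947200675134522499088752846793250452417238760811417157998678417941179782711672545147719011789922597757419060465256894161724342387425785842806601966012953666317767117653058269401387797036616636375419272845661040079250726139979547875251635016050158091811733515638228189223417971190289077895269879781960898896768323963213069698596823873809392562113786817780700435903268859207201223959185217805703333073671752611585766982940703411247274587628273607411014982361388800016877462116329417459970327331935575641433579155188639974354116328966141913448414561086773649384347218875439658207520211921723173776992656488009159934508507177212660275788985310780036312768330857991082027803078861832597089548915834446116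3628308176746115983009841816375112868370236523348030241384535135604023888279595276497254476306597124319083198974482188496819987293271107567608298471428985684212025193265242033443257960286372943308144168972237526701398776325668385235603311025239420315884536511041168157197168781924303689418815274425220789236990689792223712430191395190713312701260320436136917940263883335345343405641545416948117720064633549113650625108430762923173514926827455894151093125910690976860660974590744478163074390778914375521634543823416926212665244458398560160186787237086057147253046856922751480973071530982155800169694811640748029137561675650275208532529813372439470096560029231602089023617633420253693648070809637443489163860099313284615643999960568066488205668816845801788938586339755993005324735046899980535165741643028843173746764475242546148952079225032841935071859047287643298103714705565147646030755671110936350419386125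5683988717383253530723739150514149269956048246562967452809804904384844030200779653821848586796811051922764162578201740635343067087065108560458000611909682580633704525633144092909764838331194920700241953708002263198538530472549185260534444808886250709628390339303534407782526765881453075105606111852290780054911301371500050527785845237141540728271622982298551676267018333039948012692556614994711385311000727018488350098790438491340430042150077168805891615300959288122527819602202161845699099502799399271457801916422717773962117541469702940358248460056703288908455921717455240614900037529364072925118200248516052643082634969951622719023509691296603780659251173865884851357949637599166013487581026849455899611062040414334429742515981337117388476888026623494414552681466808971741215178636901694286748627553370208036416282134508852797246280737104658332848303970627515975823103878865469866406602743174641022510414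5111511544800607982819753565262900851777956773104500896506659114742598051109183965472319575393833796966157431424334422414337328911973185717131371521025107012313865682011653160294252523022797218585594039408499970035384394382157921276154372465059372731113066270513325074294878579344646881414285285669394780061151679851048938364914590310958371915957453853200620276199326943958654472852644473919522936204925447738296783795183817892132592229945416808085419989861885488508453635292740967558028895535606782160375936479323557738972834955497078987704626010045044787658059272608103012352108580782948165009828809615408926615691095667884347602794977111367234203910188383277445911259893855561300211396538903143606824672812769286608592124632847373125800598614534268257363221378113055037017867343796392355611979254137999183491415516268367600532810844858320325055259969166990653045882844121900766697963444201715813836045969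7840231290526566244413818595189192772061729872915099010030615203424457814541871280321010688881702431882499173760001054394270431887307192784124005310171896722160360761460106322890508739414268836651740413335684142390618427985406634993570329206463637604116884588715271616138739282813549083834064832058336246947906160457697107090876832421219527412619878504175132620280615690254565774003685189193768937825231938976948061513754344259235475305910583956507970672194741273067701641629840566514876449325637865704292539636838196662205890494658444277312613334247509843818174458569167315527273473332174912200036138706626901093258581538259845478365279004287612725367933599802306121745296179788823274400888479284994696131786240751858711888327508474683938415175864662764118456436730665788632933136326185733146647886971408559948140063324545846307083498454910834533300247718270971208186824133185437283406522129953602896785559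786903883776549139356772988419939823950086124767030520041012964556381921168439070010138069951506759758933241460132792416891786726781535508836061145050549496964662525856428307005280187049185280125469101574750281848465369904870364597211415650774134883673154159586101898574416437501114470336588234852882101446533134557020544015955138171331209650152532815594942004057577293831155672503161256127287517173925143599079073373180826660087042074700671915794593999249472690095896070751679907520766708611262051544181889509273282118227922982184195144068770247549481797819835063647196442087494131928537645878049667672118237246194531749713086899324249058932962027902200731282634315676760090079941314943174872538931184419576490464641024)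

noncomputable def rc2 : Nat := (nat_lit 1610724212528072926931706532470956732205125711413144109527512734698824551987337472686584349849668178756151832330365271327222059675738572702622432261232982348298568350092486242218448451621281127303635075494813097482754374038844725992207377104884608256925178119745637295490173719953258105592570176601069124247972593463940633900618325882966725059270151263282938097349107003141065608373242901475385273842903257421943513703726039091018631851256612758639503930623767715751904410445566438135871528954639364015388220178120906550872719761386462247432695672409395517521558271757529912977831352949605909461389910455466184865563087456049766478262131401140191590477270830008333456620378803066448237239357320494379241098524959330175539269712361453605245588497066025262003995158093721309724370233285084831830963062801491624848128504940180111403441912656657843381998518951660348787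2373984691559978217657641097982461585827802518898221817447806415808061314379423413268966741327164771400104840268348153624778215888072160349234213766626393933797402247086219288181477326283426807167077888438013853522972449648399883529043199893055907887151558457647324918918714802225460714929375001537148578013512345264710848427182113676500069701044331556127187022563869368988533184574611392678549544328095473894267368346689608310727250483738297577506161976768721949802212896479003942494504794579213029410811622221774176807679148593232878825956270056892048013609950043492067688529413959549226434605705353573537785259033108483242014822719365150243811903714769201846733238571644034382867435141833896151046392975929662201203623875337510601379374565628185708698123663679868067925495561090303188545567982243513522513898091171322926266641001961277155333463633029827990682587934341041508337740425742734562137846159319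1757099917018432673124526615481456480940313365765534925651450435479543697569088995279806508005580675957427390799016918038806489875010465275168562173858170700626726268626717159996078831044831635398850836169534515250631166089320734272012661313057710844428057956824802920014214076903301600611135660188966773535530993873658327174703113569264649451059138954698528210982894411993888451466464901083268101766045676270355612150808423678491421193049144383878133592870888548787588964842430597443970383788919674258023640939382245394368293929715378587888229945485334042921306438246423512725437735121352931997573816106748784334074095029955191027977178256628834849922764329188048307544349937143405448188224631256183162504210752727775642217801557704757546034953530199454874427491043566829903042914475552626188271779529211368515308039179555689169914744892893353142416828940206262828356135577418015624669193842602001295460530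0881074031544211070605556598825609775628678909477168289076216856207953142340174876894295149509479978542955723263187785320861381634788750754068374575592111951282650839187242056616242252495827797317396185858381781242809023145025598704440297772321954697956073844814007658907145147001121754042722812019882157587760152690532242618445226554422036835373263619706858455053131189683195872996102011121262946009072607644409862185017705423501467675751105685834280711000301326786518802492158169677625869848811868248047070077612229962189031758125594342679840273790733410278991244032733377505305202557706439797888935205220746340826809654490923175718638344561877795492727734445991147536242338271621011758109361688269715384112167926671870947447940566115284227945439260231407751592889929582132638136686838535353578909678812502084189846430627571935661381380152272532939388277701567945087022664665050895821984039178636696290618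1828460238264826903460298951188739784261207147979846868065918512201979764716767336274120921211836793484219228378757405395675626231639682425837147257397073179040030589640276306664799388747828153912411554105320888618978638490642799575604014204048199809699127202866601199936754857663413897469547027135807740767308551017551107511558496734542698608344578530316138207602719184997604747567899125160980521137857651699649856011363966512027209802911186628929327336450683979063929830567631393676122219112733323890136607461300104587283599462143539228233504142127688942203618117426401507849859403589145751365885490787105110603508033161866125689259491976623365505974591216174258434515911999227837933803599449673029843437412519748559908082718771148660219130978246657419650155782521618911924693074463114705684102803506364524336718787879560493068813386524929727608268808987068377843751836746681096492453342002234050080582543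334081940018268944035813246234335967118575549078897658277096717263902097609903941689830725555609128503530418908160318167415465891775887357464805181601949840334710067059938313061726578724023240773002554603560772465326526999001011284258482841921062659842916744497404844396024032473322311701377463641666334314490574264197700632160915413317790340456246412347833875136905916624403179361967949511104547001614424475297840296510164546249154384512121640233175242602505075002176154930674120463400610604060840606087765948009883326157544358494180365730115037421406770883439255271009436623027126344502064807632889788393776568418248931693040457394883437403005155319918051592652078780791329238262337216154348183344026961922216261844992)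

noncomputable def rc3 : Nat := (nat_lit 1690501013615133930653118738762503753115143705420044517145346270798424975433955689337044213671866265896052247512392532736027006139565804355672834652049479444727162915201865122813055632125970909806923795454425098814541796973391208870601704899542378736800522329142472194634145404848932177972349945716991281194984659232439138129520115932537510068738399108290624319247226543052907485864288008126338793161721732456998645112489017933938898136723269192984235683596201331620428938814147968337833302080319973232123917018813837707447778048051064267122203803377400697294537922164038893387277329203174327461182812450075747203287229572515135197152543060302986764044751432437613704561888155649210576580123898383262851383761838814053017783575541269041468750159097743845644942065699802444364819909658348284901550242796469612661635674900222786819653059018807159551180969577594156318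0694456464108845049773399698713638960812193869569487935411999950312351769389586389638906387836645342334465858963509463047963558280836523619914825965464779826252739864549213015383230369668294644144089222928264550983240416597581080888209575462255386935948567340718277579470407383299676311876224324064511743379334820631268196050463872466910119132786653548076471958371718497541337072101132384084596272092149800365589303902118598523206913587540821509779051894868342681391138759923121062950648381409823413940224324737223565302766095858932720443085306295239169828742784324978997015573230820604613390492977524122545167975857920533771947466926148581659195976664037940735900353895576559934582452720633450457024977047848968299296388620847897737422883823037098212898028553328361750003711720802998886787915686093874970619273144138730329356023332359153996745577284768350886254382504611878104975029196744808597882884316987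9757526093988158607864585821402073928818952369790636624810398077764534228673586115727153300376352070794713410611804533349828310939012042430875116295030525054355992294257873689033426468080222769121783494704564067244492844970721451141254455893748436677067277660994422145549489988946266625866182329631080829921052791378640542585899678404828525366722445457428664267170170154128436162787343852568014699832267483842328381174909672826713690025063794287599266547454020633355898541807419465023752807714641314403473890294230779762940914114435722257336542433464434095526796791481790186701315996110436241497960492276132053097096898385337177012746461541943380776275071660545262581020728550478807411995183028032616375465913827113373312480263511981828552597996432270660666278936102457200901724948913798921928858992151137444008618983704489338315365334370059319431414737180448034506720853143245930687251547223268097102886075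1518939690205593138576358295351983392528017004276478026309023626435247851191518946539038780559234818419647649797984433225649271690108313590403841128645618172000307965757367243750083413763174517964558055903300280001128111057193760424786108381838575292185046538203458960556722731862114722211421410364924747680485058637229417105216812992251159037107999751995127306929942745181820906909130319094014181708968134312980658809450262506210123692882398368972305220394572126367056422599432153856464599975010157681899284024189712451467367286771790064705056601263041635099167982692452061650170672835086289267620856075446469734143399587230712128341848036647513119399993219981976837184993740352351872996933934029866607683603564999800329721556918474903958895865876066178099989373402818064440594515962607209351521503860672908511636707508934480499909900376636577394143544040374129550734207014321505491348098873040652375903257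7162007820430155749552231997357995142671989550102494351436732562011562020319285042957018385200597474474944021211061922486501428447999750002784569572070981962081562968802676282662826395351718476827030553412954055607885735180005599823636358783350218284495229502218024470945728684914694746099981246683870156816035860260041887451330044185304778542971244003993291893579388969012161724134509700255081753411556365175972136567203463119722260946737291758371460366650243499375993443711125056847151704172129673000034759470456043636549312215222888737024348449129527985223389570289874889008051909250742057096752437103781872768930723625946256376940548209119540140471340679317116607377467643174587673365688184748616351645286560301130356727348058404892012467916992697506486156708786590032272209284691720609557564901544889017262493340138830099226942741245644440242326698351774429672209490735328720485188363340086106568518676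798252856812438812293697538652286232966101279996757808614861518199259030509720186402445054942866297789008232157867195823725828233355748922241427636711370824083656232765814788233114141033839300794925373968345058165137221744969287917645124189840317813394034451782464102345436021007160010192579020003350265069560708013288844123154051744511156110772843250621525971201754235973122871320393323643223059231117963878453578070378389918598736045716224199546765600985191605987796348287812808853574020015571412699236441933800682754228432492046424404803151968208448905452616470130559218543706077392903752527519222989092126598910115652072533548513191932497597007285310841135948472912689472309099868872447923357864312960408598974824448)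

end Vale.Agent.Lib.P154.PChain.BA.S0
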