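import Vale.Agent.Lib.P154.PChain.BA.R9_4

set_option linter.all false

namespace Vale.Agent.Lib.P154.PChain.BA.S10

open Vale.Agent.Lib.P154.Chain

noncomputable def pc0 : PT := (PT.nd (nat_lit 6487806) (PT.nd (nat_lit 6369402) (PT.nd (nat_lit 6310122) (PT.nd (nat_lit 6309966) (PT.nd (nat_lit 6250764) (PT.nd (nat_lit 6250686) PT.nil (PT.lf (nat_lit 6004) (nat_lit 6) (nat_lit 79) (nat_lit 3) (nat_lit 232) (nat_lit 105) (nat_lit 233))) (PT.lf (nat_lit 6004) (nat_lit 6) (nat_lit 79) (nat_lit 1) (nat_lit 233) (nat_lit 105) (nat_lit 232))) (PT.nd (nat_lit 78) (PT.lf (nat_lit 6232) (nat_lit 6) (nat_lit 82) (nat_lit 3) (nat_lit 231) (nat_lit 106) (nat_lit 233)) (PT.lf (nat_lit 6308) (nat_lit 3) (nat_lit 83) (nat_lit 1) (nat_lit 232) (nat_lit 106) (nat_lit 232)))) (PT.nd (nat_lit 59124) (PT.nd (nat_lit 59046) (PT.lf (nat_lit 6232) (nat_lit 6) (nat_lit 82) (nat_lit 1) (nat_lit 233) (nat_lit 106) (nat_lit 231)) (PT.lf (nat_lit 6384) (nat_lit 6)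 (nat_lit 84) (nat_lit 3) (nat_lit 229) (nat_lit 107) (nat_lit 234))) (PT.nd (nat_lit 78) (PT.lf (nat_lit 6460) (nat_lit 6) (nat_lit 85) (nat_lit 3) (nat_lit 230) (nat_lit 107) (nat_lit 233)) (PT.lf (nat_lit 6536) (nat_lit 6) (nat_lit 86) (nat_lit 3) (nat_lit 231) (nat_lit 107) (nat_lit 232))))) (PT.nd (nat_lit 59202) (PT.nd (nat_lit 156) (PT.nd (nat_lit 78) (PT.lf (nat_lit 6536) (nat_lit 6) (nat_lit 86) (nat_lit 1) (nat_lit 232) (nat_lit 107) (nat_lit 231)) (PT.lf (nat_lit 6460) (nat_lit 6) (nat_lit 85) (nat_lit 1) (nat_lit 233) (nat_lit 107) (nat_lit 230))) (PT.nd (nat_lit 58968) (PT.lf (nat_lit 6384) (nat_lit 6) (nat_lit 84) (nat_lit 1) (nat_lit 234) (nat_lit 107) (nat_lit 229)) (PT.lf (nat_lit 6688) (nat_lit 6) (nat_lit 88) (nat_lit 3) (nat_lit 229) (nat_lit 108) (nat_lit 233)))) (PT.nd (nat_lit 156) (PT.nd (nat_lit 78) (PT.lf (nat_lit 6764) (nat_lit 6) (nat_lit 89) (nat_lit 3) (nat_lit 230) (nat_lit 108) (nat_lit 232)) (PT.lf (nat_lit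 6840) (nat_lit 3) (nat_lit 90) (nat_lit 1) (nat_lit 231) (nat_lit 108) (nat_lit 231))) (PT.nd (nat_lit 78) (PT.lf (nat_lit 6764) (nat_lit 6) (nat_lit 89) (nat_lit 1) (nat_lit 232) (nat_lit 108) (nat_lit 230)) (PT.lf (nat_lit 6688) (nat_lit 6) (nat_lit 88) (nat_lit 1) (nat_lit 233) (nat_lit 108) (nat_lit 229)))))) (PT.nd (nat_lit 59436) (PT.nd (nat_lit 312) (PT.nd (nat_lit 156) (PT.nd (nat_lit 78) (PT.lf (nat_lit 6916) (nat_lit 6) (nat_lit 91) (nat_lit 3) (nat_lit 228) (nat_lit 109) (nat_lit 233)) (PT.lf (nat_lit 6992) (nat_lit 6) (nat_lit 92) (nat_lit 3) (nat_lit 229) (nat_lit 109) (nat_lit 232))) (PT.nd (nat_lit 78) (PT.lf (nat_lit 7068) (nat_lit 6) (nat_lit 93) (nat_lit 3) (nat_lit 230) (nat_lit 109) (nat_lit 231)) (PT.lf (nat_lit 7068) (nat_lit 6) (nat_lit 93) (nat_lit 1) (nat_lit 231) (nat_lit 109) (nat_lit 230)))) (PT.nd (nat_lit 58968) (PT.nd (nat_lit 78) (PT.lf (nat_lit 6992) (nat_lit 6) (nat_lit 92) (nat_lit 1) (nat_lit 232) (nat_lit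 109) (nat_lit 229)) (PT.lf (nat_lit 6916) (nat_lit 6) (nat_lit 91) (nat_lit 1) (nat_lit 233) (nat_lit 109) (nat_lit 228))) (PT.nd (nat_lit 78) (PT.lf (nat_lit 7144) (nat_lit 6) (nat_lit 94) (nat_lit 3) (nat_lit 227) (nat_lit 110) (nat_lit 233)) (PT.lf (nat_lit 7220) (nat_lit 6) (nat_lit 95) (nat_lit 3) (nat_lit 228) (nat_lit 110) (nat_lit 232))))) (PT.nd (nat_lit 312) (PT.nd (nat_lit 156) (PT.nd (nat_lit 78) (PT.lf (nat_lit 7296) (nat_lit 6) (nat_lit 96) (nat_lit 3) (nat_lit 229) (nat_lit 110) (nat_lit 231)) (PT.lf (nat_lit 7372) (nat_lit 3) (nat_lit 97) (nat_lit 1) (nat_lit 230) (nat_lit 110) (nat_lit 230))) (PT.nd (nat_lit 78) (PT.lf (nat_lit 7296) (nat_lit 6) (nat_lit 96) (nat_lit 1) (nat_lit 231) (nat_lit 110) (nat_lit 229)) (PT.lf (nat_lit 7220) (nat_lit 6) (nat_lit 95) (nat_lit 1) (nat_lit 232) (nat_lit 110) (nat_lit 228)))) (PT.nd (nat_lit 58968) (PT.nd (nat_lit 58890) (PT.lf (nat_lit 7144) (nat_lit 6) (nat_lit 94) (nat_lit 1)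 (nat_lit 233) (nat_lit 110) (nat_lit 227)) (PT.lf (nat_lit 7448) (nat_lit 6) (nat_lit 98) (nat_lit 3) (nat_lit 227) (nat_lit 111) (nat_lit 232))) (PT.nd (nat_lit 78) (PT.lf (nat_lit 7524) (nat_lit 6) (nat_lit 99) (nat_lit 3) (nat_lit 228) (nat_lit 111) (nat_lit 231)) (PT.lf (nat_lit 7600) (nat_lit 6) (nat_lit 100) (nat_lit 3) (nat_lit 229) (nat_lit 111) (nat_lit 230)))))))
noncomputable def pc1 : PT := (PT.nd (nat_lit 118794) (PT.nd (nat_lit 59436) (PT.nd (nat_lit 59124) (PT.nd (nat_lit 156) (PT.nd (nat_lit 78) (PT.lf (nat_lit 7600) (nat_lit 6) (nat_lit 100) (nat_lit 1) (nat_lit 230) (nat_lit 111) (nat_lit 229)) (PT.lf (nat_lit 7524) (nat_lit 6) (nat_lit 99) (nat_lit 1) (nat_lit 231) (nat_lit 111) (nat_lit 228))) (PT.nd (nat_lit 58890) (PT.lf (nat_lit 7448) (nat_lit 6) (nat_lit 98) (nat_lit 1) (nat_lit 232) (nat_lit 111) (nat_lit 227)) (PT.lf (nat_lit 7676) (nat_lit 6) (nat_lit 101) (nat_lit 3) (nat_lit 226) (nat_lit 112) (nat_lit 232))))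 (PT.nd (nat_lit 156) (PT.nd (nat_lit 78) (PT.lf (nat_lit 7752) (nat_lit 6) (nat_lit 102) (nat_lit 3) (nat_lit 227) (nat_lit 112) (nat_lit 231)) (PT.lf (nat_lit 7828) (nat_lit 6) (nat_lit 103) (nat_lit 3) (nat_lit 228) (nat_lit 112) (nat_lit 230))) (PT.nd (nat_lit 78) (PT.lf (nat_lit 7904) (nat_lit 3) (nat_lit 104) (nat_lit 1) (nat_lit 229) (nat_lit 112) (nat_lit 229)) (PT.lf (nat_lit 7828) (nat_lit 6) (nat_lit 103) (nat_lit 1) (nat_lit 230) (nat_lit 112) (nat_lit 228))))) (PT.nd (nat_lit 59046) (PT.nd (nat_lit 58890) (PT.nd (nat_lit 78) (PT.lf (nat_lit 7752) (nat_lit 6) (nat_lit 102) (nat_lit 1) (nat_lit 231) (nat_lit 112) (nat_lit 227)) (PT.lf (nat_lit 7676) (nat_lit 6) (nat_lit 101) (nat_lit 1) (nat_lit 232) (nat_lit 112) (nat_lit 226))) (PT.nd (nat_lit 78) (PT.lf (nat_lit 7980) (nat_lit 6) (nat_lit 105) (nat_lit 3) (nat_lit 225) (nat_lit 113) (nat_lit 232)) (PT.lf (nat_lit 8056) (nat_lit 6) (nat_lit 106) (nat_lit 3) (nat_lit 226) (nat_lit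 113) (nat_lit 231)))) (PT.nd (nat_lit 156) (PT.nd (nat_lit 78) (PT.lf (nat_lit 8132) (nat_lit 6) (nat_lit 107) (nat_lit 3) (nat_lit 227) (nat_lit 113) (nat_lit 230)) (PT.lf (nat_lit 8208) (nat_lit 6) (nat_lit 108) (nat_lit 3) (nat_lit 228) (nat_lit 113) (nat_lit 229))) (PT.nd (nat_lit 78) (PT.lf (nat_lit 8208) (nat_lit 6) (nat_lit 108) (nat_lit 1) (nat_lit 229) (nat_lit 113) (nat_lit 228)) (PT.lf (nat_lit 8132) (nat_lit 6) (nat_lit 107) (nat_lit 1) (nat_lit 230) (nat_lit 113) (nat_lit 227)))))) (PT.nd (nat_lit 59358) (PT.nd (nat_lit 59046) (PT.nd (nat_lit 58890) (PT.nd (nat_lit 78) (PT.lf (nat_lit 8056) (nat_lit 6) (nat_lit 106) (nat_lit 1) (nat_lit 231) (nat_lit 113) (nat_lit 226)) (PT.lf (nat_lit 7980) (nat_lit 6) (nat_lit 105) (nat_lit 1) (nat_lit 232) (nat_lit 113) (nat_lit 225))) (PT.nd (nat_lit 78) (PT.lf (nat_lit 8284) (nat_lit 6) (nat_lit 109) (nat_lit 3) (nat_lit 225) (nat_lit 114) (nat_lit 231)) (PT.lf (nat_lit 8360) (nat_lit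 6) (nat_lit 110) (nat_lit 3) (nat_lit 226) (nat_lit 114) (nat_lit 230)))) (PT.nd (nat_lit 156) (PT.nd (nat_lit 78) (PT.lf (nat_lit 8436) (nat_lit 6) (nat_lit 111) (nat_lit 3) (nat_lit 227) (nat_lit 114) (nat_lit 229)) (PT.lf (nat_lit 8512) (nat_lit 3) (nat_lit 112) (nat_lit 1) (nat_lit 228) (nat_lit 114) (nat_lit 228))) (PT.nd (nat_lit 78) (PT.lf (nat_lit 8436) (nat_lit 6) (nat_lit 111) (nat_lit 1) (nat_lit 229) (nat_lit 114) (nat_lit 227)) (PT.lf (nat_lit 8360) (nat_lit 6) (nat_lit 110) (nat_lit 1) (nat_lit 230) (nat_lit 114) (nat_lit 226))))) (PT.nd (nat_lit 59046) (PT.nd (nat_lit 58890) (PT.nd (nat_lit 58812) (PT.lf (nat_lit 8284) (nat_lit 6) (nat_lit 109) (nat_lit 1) (nat_lit 231) (nat_lit 114) (nat_lit 225)) (PT.lf (nat_lit 8588) (nat_lit 6) (nat_lit 113) (nat_lit 3) (nat_lit 224) (nat_lit 115) (nat_lit 231))) (PT.nd (nat_lit 78) (PT.lf (nat_lit 8664) (nat_lit 6) (nat_lit 114) (nat_lit 3) (nat_lit 225) (nat_lit 115) (nat_lit 230))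 (PT.lf (nat_lit 8740) (nat_lit 6) (nat_lit 115) (nat_lit 3) (nat_lit 226) (nat_lit 115) (nat_lit 229)))) (PT.nd (nat_lit 156) (PT.nd (nat_lit 78) (PT.lf (nat_lit 8816) (nat_lit 6) (nat_lit 116) (nat_lit 3) (nat_lit 227) (nat_lit 115) (nat_lit 228)) (PT.lf (nat_lit 8816) (nat_lit 6) (nat_lit 116) (nat_lit 1) (nat_lit 228) (nat_lit 115) (nat_lit 227))) (PT.nd (nat_lit 78) (PT.lf (nat_lit 8740) (nat_lit 6) (nat_lit 115) (nat_lit 1) (nat_lit 229) (nat_lit 115) (nat_lit 226)) (PT.nd (nat_lit 78) (PT.lf (nat_lit 8664) (nat_lit 6) (nat_lit 114) (nat_lit 1) (nat_lit 230) (nat_lit 115) (nat_lit 225)) (PT.lf (nat_lit 8588) (nat_lit 6) (nat_lit 113) (nat_lit 1) (nat_lit 231) (nat_lit 115) (nat_lit 224))))))))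
noncomputable def pc2 : PT := (PT.nd (nat_lit 118716) (PT.nd (nat_lit 59358) (PT.nd (nat_lit 312) (PT.nd (nat_lit 156) (PT.nd (nat_lit 78) (PT.lf (nat_lit 8892) (nat_lit 6) (nat_lit 117) (nat_lit 3) (nat_lit 224) (nat_lit 116) (nat_lit 230)) (PT.lf (nat_lit 8968) (nat_lit 6) (nat_lit 118) (nat_lit 3) (nat_lit 225) (nat_lit 116) (nat_lit 229))) (PT.nd (nat_lit 78) (PT.lf (nat_lit 9044) (nat_lit 6) (nat_lit 119) (nat_lit 3) (nat_lit 226) (nat_lit 116) (nat_lit 228)) (PT.lf (nat_lit 9120) (nat_lit 3) (nat_lit 120) (nat_lit 1) (nat_lit 227) (nat_lit 116) (nat_lit 227)))) (PT.nd (nat_lit 156) (PT.nd (nat_lit 78) (PT.lf (nat_lit 9044) (nat_lit 6) (nat_lit 119) (nat_lit 1) (nat_lit 228) (nat_lit 116) (nat_lit 226)) (PT.lf (nat_lit 8968) (nat_lit 6) (nat_lit 118) (nat_lit 1) (nat_lit 229) (nat_lit 116) (nat_lit 225))) (PT.nd (nat_lit 58812) (PT.lf (nat_lit 8892) (nat_lit 6) (nat_lit 117) (nat_lit 1) (nat_lit 230) (nat_lit 116) (nat_lit 224))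 (PT.lf (nat_lit 9196) (nat_lit 6) (nat_lit 121) (nat_lit 3) (nat_lit 223) (nat_lit 117) (nat_lit 230))))) (PT.nd (nat_lit 312) (PT.nd (nat_lit 156) (PT.nd (nat_lit 78) (PT.lf (nat_lit 9272) (nat_lit 6) (nat_lit 122) (nat_lit 3) (nat_lit 224) (nat_lit 117) (nat_lit 229)) (PT.lf (nat_lit 9348) (nat_lit 6) (nat_lit 123) (nat_lit 3) (nat_lit 225) (nat_lit 117) (nat_lit 228))) (PT.nd (nat_lit 78) (PT.lf (nat_lit 9424) (nat_lit 6) (nat_lit 124) (nat_lit 3) (nat_lit 226) (nat_lit 117) (nat_lit 227)) (PT.lf (nat_lit 9424) (nat_lit 6) (nat_lit 124) (nat_lit 1) (nat_lit 227) (nat_lit 117) (nat_lit 226)))) (PT.nd (nat_lit 156) (PT.nd (nat_lit 78) (PT.lf (nat_lit 9348) (nat_lit 6) (nat_lit 123) (nat_lit 1) (nat_lit 228) (nat_lit 117) (nat_lit 225)) (PT.lf (nat_lit 9272) (nat_lit 6) (nat_lit 122) (nat_lit 1) (nat_lit 229) (nat_lit 117) (nat_lit 224))) (PT.nd (nat_lit 58812) (PT.lf (nat_lit 9196) (nat_lit 6) (nat_lit 121) (nat_lit 1) (nat_lit 230)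 (nat_lit 117) (nat_lit 223)) (PT.lf (nat_lit 9500) (nat_lit 6) (nat_lit 125) (nat_lit 3) (nat_lit 223) (nat_lit 118) (nat_lit 229)))))) (PT.nd (nat_lit 59358) (PT.nd (nat_lit 312) (PT.nd (nat_lit 156) (PT.nd (nat_lit 78) (PT.lf (nat_lit 9576) (nat_lit 6) (nat_lit 126) (nat_lit 3) (nat_lit 224) (nat_lit 118) (nat_lit 228)) (PT.lf (nat_lit 9652) (nat_lit 6) (nat_lit 127) (nat_lit 3) (nat_lit 225) (nat_lit 118) (nat_lit 227))) (PT.nd (nat_lit 78) (PT.lf (nat_lit 9728) (nat_lit 3) (nat_lit 128) (nat_lit 1) (nat_lit 226) (nat_lit 118) (nat_lit 226)) (PT.lf (nat_lit 9652) (nat_lit 6) (nat_lit 127) (nat_lit 1) (nat_lit 227) (nat_lit 118) (nat_lit 225)))) (PT.nd (nat_lit 58890) (PT.nd (nat_lit 78) (PT.lf (nat_lit 9576) (nat_lit 6) (nat_lit 126) (nat_lit 1) (nat_lit 228) (nat_lit 118) (nat_lit 224)) (PT.lf (nat_lit 9500) (nat_lit 6) (nat_lit 125) (nat_lit 1) (nat_lit 229) (nat_lit 118) (nat_lit 223))) (PT.nd (nat_lit 78) (PT.lf (nat_lit 9804)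 (nat_lit 6) (nat_lit 129) (nat_lit 3) (nat_lit 222) (nat_lit 119) (nat_lit 229)) (PT.lf (nat_lit 9880) (nat_lit 6) (nat_lit 130) (nat_lit 3) (nat_lit 223) (nat_lit 119) (nat_lit 228))))) (PT.nd (nat_lit 312) (PT.nd (nat_lit 156) (PT.nd (nat_lit 78) (PT.lf (nat_lit 9956) (nat_lit 6) (nat_lit 131) (nat_lit 3) (nat_lit 224) (nat_lit 119) (nat_lit 227)) (PT.lf (nat_lit 10032) (nat_lit 6) (nat_lit 132) (nat_lit 3) (nat_lit 225) (nat_lit 119) (nat_lit 226))) (PT.nd (nat_lit 78) (PT.lf (nat_lit 10032) (nat_lit 6) (nat_lit 132) (nat_lit 1) (nat_lit 226) (nat_lit 119) (nat_lit 225)) (PT.lf (nat_lit 9956) (nat_lit 6) (nat_lit 131) (nat_lit 1) (nat_lit 227) (nat_lit 119) (nat_lit 224)))) (PT.nd (nat_lit 58812) (PT.nd (nat_lit 78) (PT.lf (nat_lit 9880) (nat_lit 6) (nat_lit 130) (nat_lit 1) (nat_lit 228) (nat_lit 119) (nat_lit 223)) (PT.lf (nat_lit 9804) (nat_lit 6) (nat_lit 129) (nat_lit 1) (nat_lit 229) (nat_lit 119) (nat_lit 222))) (PT.nd (nat_lit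 78) (PT.lf (nat_lit 10108) (nat_lit 6) (nat_lit 133) (nat_lit 3) (nat_lit 221) (nat_lit 120) (nat_lit 229)) (PT.nd (nat_lit 78) (PT.lf (nat_lit 10184) (nat_lit 6) (nat_lit 134) (nat_lit 3) (nat_lit 222) (nat_lit 120) (nat_lit 228)) (PT.lf (nat_lit 10260) (nat_lit 6) (nat_lit 135) (nat_lit 3) (nat_lit 223) (nat_lit 120) (nat_lit 227))))))))
noncomputable def pc3 : PT := (PT.nd (nat_lit 118560) (PT.nd (nat_lit 59280) (PT.nd (nat_lit 312) (PT.nd (nat_lit 156) (PT.nd (nat_lit 78) (PT.lf (nat_lit 10336) (nat_lit 6) (nat_lit 136) (nat_lit 3) (nat_lit 224) (nat_lit 120) (nat_lit 226)) (PT.lf (nat_lit 10412) (nat_lit 3) (nat_lit 137) (nat_lit 1) (nat_lit 225) (nat_lit 120) (nat_lit 225))) (PT.nd (nat_lit 78) (PT.lf (nat_lit 10336) (nat_lit 6) (nat_lit 136) (nat_lit 1) (nat_lit 226) (nat_lit 120) (nat_lit 224)) (PT.lf (nat_lit 10260) (nat_lit 6) (nat_lit 135) (nat_lit 1) (nat_lit 227) (nat_lit 120) (nat_lit 223)))) (PT.nd (nat_lit 58812) (PT.nd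 (nat_lit 78) (PT.lf (nat_lit 10184) (nat_lit 6) (nat_lit 134) (nat_lit 1) (nat_lit 228) (nat_lit 120) (nat_lit 222)) (PT.lf (nat_lit 10108) (nat_lit 6) (nat_lit 133) (nat_lit 1) (nat_lit 229) (nat_lit 120) (nat_lit 221))) (PT.nd (nat_lit 78) (PT.lf (nat_lit 10488) (nat_lit 6) (nat_lit 138) (nat_lit 3) (nat_lit 221) (nat_lit 121) (nat_lit 228)) (PT.lf (nat_lit 10564) (nat_lit 6) (nat_lit 139) (nat_lit 3) (nat_lit 222) (nat_lit 121) (nat_lit 227))))) (PT.nd (nat_lit 312) (PT.nd (nat_lit 156) (PT.nd (nat_lit 78) (PT.lf (nat_lit 10640) (nat_lit 6) (nat_lit 140) (nat_lit 3) (nat_lit 223) (nat_lit 121) (nat_lit 226)) (PT.lf (nat_lit 10716) (nat_lit 6) (nat_lit 141) (nat_lit 3) (nat_lit 224) (nat_lit 121) (nat_lit 225))) (PT.nd (nat_lit 78) (PT.lf (nat_lit 10716) (nat_lit 6) (nat_lit 141) (nat_lit 1) (nat_lit 225) (nat_lit 121) (nat_lit 224)) (PT.lf (nat_lit 10640) (nat_lit 6) (nat_lit 140) (nat_lit 1) (nat_lit 226) (nat_lit 121) (nat_lit 223))))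 (PT.nd (nat_lit 58812) (PT.nd (nat_lit 78) (PT.lf (nat_lit 10564) (nat_lit 6) (nat_lit 139) (nat_lit 1) (nat_lit 227) (nat_lit 121) (nat_lit 222)) (PT.lf (nat_lit 10488) (nat_lit 6) (nat_lit 138) (nat_lit 1) (nat_lit 228) (nat_lit 121) (nat_lit 221))) (PT.nd (nat_lit 78) (PT.lf (nat_lit 10792) (nat_lit 6) (nat_lit 142) (nat_lit 3) (nat_lit 220) (nat_lit 122) (nat_lit 228)) (PT.lf (nat_lit 10868) (nat_lit 6) (nat_lit 143) (nat_lit 3) (nat_lit 221) (nat_lit 122) (nat_lit 227)))))) (PT.nd (nat_lit 59280) (PT.nd (nat_lit 312) (PT.nd (nat_lit 156) (PT.nd (nat_lit 78) (PT.lf (nat_lit 10944) (nat_lit 6) (nat_lit 144) (nat_lit 3) (nat_lit 222) (nat_lit 122) (nat_lit 226)) (PT.lf (nat_lit 11020) (nat_lit 6) (nat_lit 145) (nat_lit 3) (nat_lit 223) (nat_lit 122) (nat_lit 225))) (PT.nd (nat_lit 78) (PT.lf (nat_lit 11096) (nat_lit 3) (nat_lit 146) (nat_lit 1) (nat_lit 224) (nat_lit 122) (nat_lit 224)) (PT.lf (nat_lit 11020) (nat_lit 6) (nat_lit 145)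 (nat_lit 1) (nat_lit 225) (nat_lit 122) (nat_lit 223)))) (PT.nd (nat_lit 156) (PT.nd (nat_lit 78) (PT.lf (nat_lit 10944) (nat_lit 6) (nat_lit 144) (nat_lit 1) (nat_lit 226) (nat_lit 122) (nat_lit 222)) (PT.lf (nat_lit 10868) (nat_lit 6) (nat_lit 143) (nat_lit 1) (nat_lit 227) (nat_lit 122) (nat_lit 221))) (PT.nd (nat_lit 58734) (PT.lf (nat_lit 10792) (nat_lit 6) (nat_lit 142) (nat_lit 1) (nat_lit 228) (nat_lit 122) (nat_lit 220)) (PT.lf (nat_lit 11172) (nat_lit 6) (nat_lit 147) (nat_lit 3) (nat_lit 220) (nat_lit 123) (nat_lit 227))))) (PT.nd (nat_lit 312) (PT.nd (nat_lit 156) (PT.nd (nat_lit 78) (PT.lf (nat_lit 11248) (nat_lit 6) (nat_lit 148) (nat_lit 3) (nat_lit 221) (nat_lit 123) (nat_lit 226)) (PT.lf (nat_lit 11324) (nat_lit 6) (nat_lit 149) (nat_lit 3) (nat_lit 222) (nat_lit 123) (nat_lit 225))) (PT.nd (nat_lit 78) (PT.lf (nat_lit 11400) (nat_lit 6) (nat_lit 150) (nat_lit 3) (nat_lit 223) (nat_lit 123) (nat_lit 224)) (PT.lf (nat_lit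 11400) (nat_lit 6) (nat_lit 150) (nat_lit 1) (nat_lit 224) (nat_lit 123) (nat_lit 223)))) (PT.nd (nat_lit 156) (PT.nd (nat_lit 78) (PT.lf (nat_lit 11324) (nat_lit 6) (nat_lit 149) (nat_lit 1) (nat_lit 225) (nat_lit 123) (nat_lit 222)) (PT.lf (nat_lit 11248) (nat_lit 6) (nat_lit 148) (nat_lit 1) (nat_lit 226) (nat_lit 123) (nat_lit 221))) (PT.nd (nat_lit 58734) (PT.lf (nat_lit 11172) (nat_lit 6) (nat_lit 147) (nat_lit 1) (nat_lit 227) (nat_lit 123) (nat_lit 220)) (PT.nd (nat_lit 78) (PT.lf (nat_lit 11476) (nat_lit 6) (nat_lit 151) (nat_lit 3) (nat_lit 219) (nat_lit 124) (nat_lit 227)) (PT.lf (nat_lit 11552) (nat_lit 6) (nat_lit 152) (nat_lit 3) (nat_lit 220) (nat_lit 124) (nat_lit 226))))))))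
noncomputable def pc4 : PT := (PT.nd (nat_lit 59826) (PT.nd (nat_lit 59202) (PT.nd (nat_lit 312) (PT.nd (nat_lit 156) (PT.nd (nat_lit 78) (PT.lf (nat_lit 11628) (nat_lit 6) (nat_lit 153) (nat_lit 3) (nat_lit 221) (nat_lit 124) (nat_lit 225)) (PT.lf (nat_lit 11704) (nat_lit 6) (nat_lit 154) (nat_lit 3) (nat_lit 222) (nat_lit 124) (nat_lit 224))) (PT.nd (nat_lit 78) (PT.lf (nat_lit 11780) (nat_lit 3) (nat_lit 155) (nat_lit 1) (nat_lit 223) (nat_lit 124) (nat_lit 223)) (PT.lf (nat_lit 11704) (nat_lit 6) (nat_lit 154) (nat_lit 1) (nat_lit 224) (nat_lit 124) (nat_lit 222)))) (PT.nd (nat_lit 156) (PT.nd (nat_lit 78) (PT.lf (nat_lit 11628) (nat_lit 6) (nat_lit 153) (nat_lit 1) (nat_lit 225) (nat_lit 124) (nat_lit 221)) (PT.lf (nat_lit 11552) (nat_lit 6) (nat_lit 152) (nat_lit 1) (nat_lit 226) (nat_lit 124) (nat_lit 220))) (PT.nd (nat_lit 58656) (PT.lf (nat_lit 11476) (nat_lit 6) (nat_lit 151) (nat_lit 1) (nat_lit 227) (nat_lit 124) (nat_lit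 219)) (PT.lf (nat_lit 11856) (nat_lit 6) (nat_lit 156) (nat_lit 3) (nat_lit 218) (nat_lit 125) (nat_lit 227))))) (PT.nd (nat_lit 312) (PT.nd (nat_lit 156) (PT.nd (nat_lit 78) (PT.lf (nat_lit 11932) (nat_lit 6) (nat_lit 157) (nat_lit 3) (nat_lit 219) (nat_lit 125) (nat_lit 226)) (PT.lf (nat_lit 12008) (nat_lit 6) (nat_lit 158) (nat_lit 3) (nat_lit 220) (nat_lit 125) (nat_lit 225))) (PT.nd (nat_lit 78) (PT.lf (nat_lit 12084) (nat_lit 6) (nat_lit 159) (nat_lit 3) (nat_lit 221) (nat_lit 125) (nat_lit 224)) (PT.lf (nat_lit 12160) (nat_lit 6) (nat_lit 160) (nat_lit 3) (nat_lit 222) (nat_lit 125) (nat_lit 223)))) (PT.nd (nat_lit 156) (PT.nd (nat_lit 78) (PT.lf (nat_lit 12160) (nat_lit 6) (nat_lit 160) (nat_lit 1) (nat_lit 223) (nat_lit 125) (nat_lit 222)) (PT.lf (nat_lit 12084) (nat_lit 6) (nat_lit 159) (nat_lit 1) (nat_lit 224) (nat_lit 125) (nat_lit 221))) (PT.nd (nat_lit 78) (PT.lf (nat_lit 12008) (nat_lit 6) (nat_lit 158) (nat_lit 1) (nat_lit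 225) (nat_lit 125) (nat_lit 220)) (PT.lf (nat_lit 11932) (nat_lit 6) (nat_lit 157) (nat_lit 1) (nat_lit 226) (nat_lit 125) (nat_lit 219)))))) (PT.nd (nat_lit 59202) (PT.nd (nat_lit 58890) (PT.nd (nat_lit 58734) (PT.nd (nat_lit 58656) (PT.lf (nat_lit 11856) (nat_lit 6) (nat_lit 156) (nat_lit 1) (nat_lit 227) (nat_lit 125) (nat_lit 218)) (PT.lf (nat_lit 12236) (nat_lit 6) (nat_lit 161) (nat_lit 3) (nat_lit 218) (nat_lit 126) (nat_lit 226))) (PT.nd (nat_lit 78) (PT.lf (nat_lit 12312) (nat_lit 6) (nat_lit 162) (nat_lit 3) (nat_lit 219) (nat_lit 126) (nat_lit 225)) (PT.lf (nat_lit 12388) (nat_lit 6) (nat_lit 163) (nat_lit 3) (nat_lit 220) (nat_lit 126) (nat_lit 224)))) (PT.nd (nat_lit 156) (PT.nd (nat_lit 78) (PT.lf (nat_lit 12464) (nat_lit 6) (nat_lit 164) (nat_lit 3) (nat_lit 221) (nat_lit 126) (nat_lit 223)) (PT.lf (nat_lit 12540) (nat_lit 3) (nat_lit 165) (nat_lit 1) (nat_lit 222) (nat_lit 126) (nat_lit 222))) (PT.nd (nat_lit 78) (PT.lf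 (nat_lit 12464) (nat_lit 6) (nat_lit 164) (nat_lit 1) (nat_lit 223) (nat_lit 126) (nat_lit 221)) (PT.lf (nat_lit 12388) (nat_lit 6) (nat_lit 163) (nat_lit 1) (nat_lit 224) (nat_lit 126) (nat_lit 220))))) (PT.nd (nat_lit 58890) (PT.nd (nat_lit 58734) (PT.nd (nat_lit 78) (PT.lf (nat_lit 12312) (nat_lit 6) (nat_lit 162) (nat_lit 1) (nat_lit 225) (nat_lit 126) (nat_lit 219)) (PT.lf (nat_lit 12236) (nat_lit 6) (nat_lit 161) (nat_lit 1) (nat_lit 226) (nat_lit 126) (nat_lit 218))) (PT.nd (nat_lit 78) (PT.lf (nat_lit 12616) (nat_lit 6) (nat_lit 166) (nat_lit 3) (nat_lit 217) (nat_lit 127) (nat_lit 226)) (PT.lf (nat_lit 12692) (nat_lit 6) (nat_lit 167) (nat_lit 3) (nat_lit 218) (nat_lit 127) (nat_lit 225)))) (PT.nd (nat_lit 156) (PT.nd (nat_lit 78) (PT.lf (nat_lit 12768) (nat_lit 6) (nat_lit 168) (nat_lit 3) (nat_lit 219) (nat_lit 127) (nat_lit 224)) (PT.lf (nat_lit 12844) (nat_lit 6) (nat_lit 169) (nat_lit 3) (nat_lit 220) (nat_lit 127) (nat_lit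 223))) (PT.nd (nat_lit 78) (PT.lf (nat_lit 12920) (nat_lit 6) (nat_lit 170) (nat_lit 3) (nat_lit 221) (nat_lit 127) (nat_lit 222)) (PT.lf (nat_lit 12920) (nat_lit 6) (nat_lit 170) (nat_lit 1) (nat_lit 222) (nat_lit 127) (nat_lit 221)))))))
noncomputable def pc5 : PT := (PT.nd (nat_lit 118404) (PT.nd (nat_lit 59202) (PT.nd (nat_lit 58890) (PT.nd (nat_lit 156) (PT.nd (nat_lit 78) (PT.lf (nat_lit 12844) (nat_lit 6) (nat_lit 169) (nat_lit 1) (nat_lit 223) (nat_lit 127) (nat_lit 220)) (PT.lf (nat_lit 12768) (nat_lit 6) (nat_lit 168) (nat_lit 1) (nat_lit 224) (nat_lit 127) (nat_lit 219))) (PT.nd (nat_lit 78) (PT.lf (nat_lit 12692) (nat_lit 6) (nat_lit 167) (nat_lit 1) (nat_lit 225) (nat_lit 127) (nat_lit 218)) (PT.lf (nat_lit 12616) (nat_lit 6) (nat_lit 166) (nat_lit 1) (nat_lit 226) (nat_lit 127) (nat_lit 217)))) (PT.nd (nat_lit 156) (PT.nd (nat_lit 78) (PT.lf (nat_lit 12996) (nat_lit 6) (nat_lit 171) (nat_lit 3) (nat_lit 217) (nat_lit 128)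 (nat_lit 225)) (PT.lf (nat_lit 13072) (nat_lit 6) (nat_lit 172) (nat_lit 3) (nat_lit 218) (nat_lit 128) (nat_lit 224))) (PT.nd (nat_lit 78) (PT.lf (nat_lit 13148) (nat_lit 6) (nat_lit 173) (nat_lit 3) (nat_lit 219) (nat_lit 128) (nat_lit 223)) (PT.lf (nat_lit 13224) (nat_lit 6) (nat_lit 174) (nat_lit 3) (nat_lit 220) (nat_lit 128) (nat_lit 222))))) (PT.nd (nat_lit 312) (PT.nd (nat_lit 156) (PT.nd (nat_lit 78) (PT.lf (nat_lit 13300) (nat_lit 3) (nat_lit 175) (nat_lit 1) (nat_lit 221) (nat_lit 128) (nat_lit 221)) (PT.lf (nat_lit 13224) (nat_lit 6) (nat_lit 174) (nat_lit 1) (nat_lit 222) (nat_lit 128) (nat_lit 220))) (PT.nd (nat_lit 78) (PT.lf (nat_lit 13148) (nat_lit 6) (nat_lit 173) (nat_lit 1) (nat_lit 223) (nat_lit 128) (nat_lit 219)) (PT.lf (nat_lit 13072) (nat_lit 6) (nat_lit 172) (nat_lit 1) (nat_lit 224) (nat_lit 128) (nat_lit 218)))) (PT.nd (nat_lit 58734) (PT.nd (nat_lit 58656) (PT.lf (nat_lit 12996) (nat_lit 6) (nat_lit 171) (nat_lit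 1) (nat_lit 225) (nat_lit 128) (nat_lit 217)) (PT.lf (nat_lit 13376) (nat_lit 6) (nat_lit 176) (nat_lit 3) (nat_lit 216) (nat_lit 129) (nat_lit 225))) (PT.nd (nat_lit 78) (PT.lf (nat_lit 13452) (nat_lit 6) (nat_lit 177) (nat_lit 3) (nat_lit 217) (nat_lit 129) (nat_lit 224)) (PT.lf (nat_lit 13528) (nat_lit 6) (nat_lit 178) (nat_lit 3) (nat_lit 218) (nat_lit 129) (nat_lit 223)))))) (PT.nd (nat_lit 59124) (PT.nd (nat_lit 312) (PT.nd (nat_lit 156) (PT.nd (nat_lit 78) (PT.lf (nat_lit 13604) (nat_lit 6) (nat_lit 179) (nat_lit 3) (nat_lit 219) (nat_lit 129) (nat_lit 222)) (PT.lf (nat_lit 13680) (nat_lit 6) (nat_lit 180) (nat_lit 3) (nat_lit 220) (nat_lit 129) (nat_lit 221))) (PT.nd (nat_lit 78) (PT.lf (nat_lit 13680) (nat_lit 6) (nat_lit 180) (nat_lit 1) (nat_lit 221) (nat_lit 129) (nat_lit 220)) (PT.lf (nat_lit 13604) (nat_lit 6) (nat_lit 179) (nat_lit 1) (nat_lit 222) (nat_lit 129) (nat_lit 219)))) (PT.nd (nat_lit 156) (PT.nd (nat_lit 78)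 (PT.lf (nat_lit 13528) (nat_lit 6) (nat_lit 178) (nat_lit 1) (nat_lit 223) (nat_lit 129) (nat_lit 218)) (PT.lf (nat_lit 13452) (nat_lit 6) (nat_lit 177) (nat_lit 1) (nat_lit 224) (nat_lit 129) (nat_lit 217))) (PT.nd (nat_lit 58578) (PT.lf (nat_lit 13376) (nat_lit 6) (nat_lit 176) (nat_lit 1) (nat_lit 225) (nat_lit 129) (nat_lit 216)) (PT.lf (nat_lit 13756) (nat_lit 6) (nat_lit 181) (nat_lit 3) (nat_lit 215) (nat_lit 130) (nat_lit 225))))) (PT.nd (nat_lit 312) (PT.nd (nat_lit 156) (PT.nd (nat_lit 78) (PT.lf (nat_lit 13832) (nat_lit 6) (nat_lit 182) (nat_lit 3) (nat_lit 216) (nat_lit 130) (nat_lit 224)) (PT.lf (nat_lit 13908) (nat_lit 6) (nat_lit 183) (nat_lit 3) (nat_lit 217) (nat_lit 130) (nat_lit 223))) (PT.nd (nat_lit 78) (PT.lf (nat_lit 13984) (nat_lit 6) (nat_lit 184) (nat_lit 3) (nat_lit 218) (nat_lit 130) (nat_lit 222)) (PT.lf (nat_lit 14060) (nat_lit 6) (nat_lit 185) (nat_lit 3) (nat_lit 219) (nat_lit 130) (nat_lit 221)))) (PT.nd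 (nat_lit 156) (PT.nd (nat_lit 78) (PT.lf (nat_lit 14136) (nat_lit 3) (nat_lit 186) (nat_lit 1) (nat_lit 220) (nat_lit 130) (nat_lit 220)) (PT.lf (nat_lit 14060) (nat_lit 6) (nat_lit 185) (nat_lit 1) (nat_lit 221) (nat_lit 130) (nat_lit 219))) (PT.nd (nat_lit 78) (PT.lf (nat_lit 13984) (nat_lit 6) (nat_lit 184) (nat_lit 1) (nat_lit 222) (nat_lit 130) (nat_lit 218)) (PT.nd (nat_lit 78) (PT.lf (nat_lit 13908) (nat_lit 6) (nat_lit 183) (nat_lit 1) (nat_lit 223) (nat_lit 130) (nat_lit 217)) (PT.lf (nat_lit 13832) (nat_lit 6) (nat_lit 182) (nat_lit 1) (nat_lit 224) (nat_lit 130) (nat_lit 216))))))))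
noncomputable def pc6 : PT := (PT.nd (nat_lit 118248) (PT.nd (nat_lit 59124) (PT.nd (nat_lit 58812) (PT.nd (nat_lit 58656) (PT.nd (nat_lit 58578) (PT.lf (nat_lit 13756) (nat_lit 6) (nat_lit 181) (nat_lit 1) (nat_lit 225) (nat_lit 130) (nat_lit 215)) (PT.lf (nat_lit 14212) (nat_lit 6) (nat_lit 187) (nat_lit 3) (nat_lit 215) (nat_lit 131) (nat_lit 224))) (PT.nd (nat_lit 78) (PT.lf (nat_lit 14288) (nat_lit 6) (nat_lit 188) (nat_lit 3) (nat_lit 216) (nat_lit 131) (nat_lit 223)) (PT.lf (nat_lit 14364) (nat_lit 6) (nat_lit 189) (nat_lit 3) (nat_lit 217) (nat_lit 131) (nat_lit 222)))) (PT.nd (nat_lit 156) (PT.nd (nat_lit 78) (PT.lf (nat_lit 14440) (nat_lit 6) (nat_lit 190) (nat_lit 3) (nat_lit 218) (nat_lit 131) (nat_lit 221)) (PT.lf (nat_lit 14516) (nat_lit 6) (nat_lit 191) (nat_lit 3) (nat_lit 219) (nat_lit 131) (nat_lit 220))) (PT.nd (nat_lit 78) (PT.lf (nat_lit 14516) (nat_lit 6) (nat_lit 191) (nat_lit 1) (nat_lit 220) (nat_lit 131) (nat_lit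 219)) (PT.lf (nat_lit 14440) (nat_lit 6) (nat_lit 190) (nat_lit 1) (nat_lit 221) (nat_lit 131) (nat_lit 218))))) (PT.nd (nat_lit 58812) (PT.nd (nat_lit 156) (PT.nd (nat_lit 78) (PT.lf (nat_lit 14364) (nat_lit 6) (nat_lit 189) (nat_lit 1) (nat_lit 222) (nat_lit 131) (nat_lit 217)) (PT.lf (nat_lit 14288) (nat_lit 6) (nat_lit 188) (nat_lit 1) (nat_lit 223) (nat_lit 131) (nat_lit 216))) (PT.nd (nat_lit 58578) (PT.lf (nat_lit 14212) (nat_lit 6) (nat_lit 187) (nat_lit 1) (nat_lit 224) (nat_lit 131) (nat_lit 215)) (PT.lf (nat_lit 14592) (nat_lit 6) (nat_lit 192) (nat_lit 3) (nat_lit 214) (nat_lit 132) (nat_lit 224)))) (PT.nd (nat_lit 156) (PT.nd (nat_lit 78) (PT.lf (nat_lit 14668) (nat_lit 6) (nat_lit 193) (nat_lit 3) (nat_lit 215) (nat_lit 132) (nat_lit 223)) (PT.lf (nat_lit 14744) (nat_lit 6) (nat_lit 194) (nat_lit 3) (nat_lit 216) (nat_lit 132) (nat_lit 222))) (PT.nd (nat_lit 78) (PT.lf (nat_lit 14820) (nat_lit 6) (nat_lit 195) (nat_lit 3)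 (nat_lit 217) (nat_lit 132) (nat_lit 221)) (PT.lf (nat_lit 14896) (nat_lit 6) (nat_lit 196) (nat_lit 3) (nat_lit 218) (nat_lit 132) (nat_lit 220)))))) (PT.nd (nat_lit 59046) (PT.nd (nat_lit 312) (PT.nd (nat_lit 156) (PT.nd (nat_lit 78) (PT.lf (nat_lit 14972) (nat_lit 3) (nat_lit 197) (nat_lit 1) (nat_lit 219) (nat_lit 132) (nat_lit 219)) (PT.lf (nat_lit 14896) (nat_lit 6) (nat_lit 196) (nat_lit 1) (nat_lit 220) (nat_lit 132) (nat_lit 218))) (PT.nd (nat_lit 78) (PT.lf (nat_lit 14820) (nat_lit 6) (nat_lit 195) (nat_lit 1) (nat_lit 221) (nat_lit 132) (nat_lit 217)) (PT.lf (nat_lit 14744) (nat_lit 6) (nat_lit 194) (nat_lit 1) (nat_lit 222) (nat_lit 132) (nat_lit 216)))) (PT.nd (nat_lit 58578) (PT.nd (nat_lit 78) (PT.lf (nat_lit 14668) (nat_lit 6) (nat_lit 193) (nat_lit 1) (nat_lit 223) (nat_lit 132) (nat_lit 215)) (PT.lf (nat_lit 14592) (nat_lit 6) (nat_lit 192) (nat_lit 1) (nat_lit 224) (nat_lit 132) (nat_lit 214))) (PT.nd (nat_lit 78) (PT.lf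 (nat_lit 15048) (nat_lit 6) (nat_lit 198) (nat_lit 3) (nat_lit 213) (nat_lit 133) (nat_lit 224)) (PT.lf (nat_lit 15124) (nat_lit 6) (nat_lit 199) (nat_lit 3) (nat_lit 214) (nat_lit 133) (nat_lit 223))))) (PT.nd (nat_lit 312) (PT.nd (nat_lit 156) (PT.nd (nat_lit 78) (PT.lf (nat_lit 15200) (nat_lit 6) (nat_lit 200) (nat_lit 3) (nat_lit 215) (nat_lit 133) (nat_lit 222)) (PT.lf (nat_lit 15276) (nat_lit 6) (nat_lit 201) (nat_lit 3) (nat_lit 216) (nat_lit 133) (nat_lit 221))) (PT.nd (nat_lit 78) (PT.lf (nat_lit 15352) (nat_lit 6) (nat_lit 202) (nat_lit 3) (nat_lit 217) (nat_lit 133) (nat_lit 220)) (PT.lf (nat_lit 15428) (nat_lit 6) (nat_lit 203) (nat_lit 3) (nat_lit 218) (nat_lit 133) (nat_lit 219)))) (PT.nd (nat_lit 156) (PT.nd (nat_lit 78) (PT.lf (nat_lit 15428) (nat_lit 6) (nat_lit 203) (nat_lit 1) (nat_lit 219) (nat_lit 133) (nat_lit 218)) (PT.lf (nat_lit 15352) (nat_lit 6) (nat_lit 202) (nat_lit 1) (nat_lit 220) (nat_lit 133) (nat_lit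 217))) (PT.nd (nat_lit 78) (PT.lf (nat_lit 15276) (nat_lit 6) (nat_lit 201) (nat_lit 1) (nat_lit 221) (nat_lit 133) (nat_lit 216)) (PT.nd (nat_lit 78) (PT.lf (nat_lit 15200) (nat_lit 6) (nat_lit 200) (nat_lit 1) (nat_lit 222) (nat_lit 133) (nat_lit 215)) (PT.lf (nat_lit 15124) (nat_lit 6) (nat_lit 199) (nat_lit 1) (nat_lit 223) (nat_lit 133) (nat_lit 214))))))))
noncomputable def pc7 : PT := (PT.nd (nat_lit 118092) (PT.nd (nat_lit 59046) (PT.nd (nat_lit 58734) (PT.nd (nat_lit 58578) (PT.nd (nat_lit 58500) (PT.lf (nat_lit 15048) (nat_lit 6) (nat_lit 198) (nat_lit 1) (nat_lit 224) (nat_lit 133) (nat_lit 213)) (PT.lf (nat_lit 15504) (nat_lit 6) (nat_lit 204) (nat_lit 3) (nat_lit 213) (nat_lit 134) (nat_lit 223))) (PT.nd (nat_lit 78) (PT.lf (nat_lit 15580) (nat_lit 6) (nat_lit 205) (nat_lit 3) (nat_lit 214) (nat_lit 134) (nat_lit 222)) (PT.lf (nat_lit 15656) (nat_lit 6) (nat_lit 206) (nat_lit 3) (nat_lit 215) (nat_lit 134) (nat_lit 221))))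 (PT.nd (nat_lit 156) (PT.nd (nat_lit 78) (PT.lf (nat_lit 15732) (nat_lit 6) (nat_lit 207) (nat_lit 3) (nat_lit 216) (nat_lit 134) (nat_lit 220)) (PT.lf (nat_lit 15808) (nat_lit 6) (nat_lit 208) (nat_lit 3) (nat_lit 217) (nat_lit 134) (nat_lit 219))) (PT.nd (nat_lit 78) (PT.lf (nat_lit 15884) (nat_lit 3) (nat_lit 209) (nat_lit 1) (nat_lit 218) (nat_lit 134) (nat_lit 218)) (PT.lf (nat_lit 15808) (nat_lit 6) (nat_lit 208) (nat_lit 1) (nat_lit 219) (nat_lit 134) (nat_lit 217))))) (PT.nd (nat_lit 58734) (PT.nd (nat_lit 156) (PT.nd (nat_lit 78) (PT.lf (nat_lit 15732) (nat_lit 6) (nat_lit 207) (nat_lit 1) (nat_lit 220) (nat_lit 134) (nat_lit 216)) (PT.lf (nat_lit 15656) (nat_lit 6) (nat_lit 206) (nat_lit 1) (nat_lit 221) (nat_lit 134) (nat_lit 215))) (PT.nd (nat_lit 78) (PT.lf (nat_lit 15580) (nat_lit 6) (nat_lit 205) (nat_lit 1) (nat_lit 222) (nat_lit 134) (nat_lit 214)) (PT.lf (nat_lit 15504) (nat_lit 6) (nat_lit 204) (nat_lit 1) (nat_lit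 223) (nat_lit 134) (nat_lit 213)))) (PT.nd (nat_lit 156) (PT.nd (nat_lit 78) (PT.lf (nat_lit 15960) (nat_lit 6) (nat_lit 210) (nat_lit 3) (nat_lit 212) (nat_lit 135) (nat_lit 223)) (PT.lf (nat_lit 16036) (nat_lit 6) (nat_lit 211) (nat_lit 3) (nat_lit 213) (nat_lit 135) (nat_lit 222))) (PT.nd (nat_lit 78) (PT.lf (nat_lit 16112) (nat_lit 6) (nat_lit 212) (nat_lit 3) (nat_lit 214) (nat_lit 135) (nat_lit 221)) (PT.lf (nat_lit 16188) (nat_lit 6) (nat_lit 213) (nat_lit 3) (nat_lit 215) (nat_lit 135) (nat_lit 220)))))) (PT.nd (nat_lit 58968) (PT.nd (nat_lit 312) (PT.nd (nat_lit 156) (PT.nd (nat_lit 78) (PT.lf (nat_lit 16264) (nat_lit 6) (nat_lit 214) (nat_lit 3) (nat_lit 216) (nat_lit 135) (nat_lit 219)) (PT.lf (nat_lit 16340) (nat_lit 6) (nat_lit 215) (nat_lit 3) (nat_lit 217) (nat_lit 135) (nat_lit 218))) (PT.nd (nat_lit 78) (PT.lf (nat_lit 16340) (nat_lit 6) (nat_lit 215) (nat_lit 1) (nat_lit 218) (nat_lit 135) (nat_lit 217)) (PT.lf (nat_lit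 16264) (nat_lit 6) (nat_lit 214) (nat_lit 1) (nat_lit 219) (nat_lit 135) (nat_lit 216)))) (PT.nd (nat_lit 156) (PT.nd (nat_lit 78) (PT.lf (nat_lit 16188) (nat_lit 6) (nat_lit 213) (nat_lit 1) (nat_lit 220) (nat_lit 135) (nat_lit 215)) (PT.lf (nat_lit 16112) (nat_lit 6) (nat_lit 212) (nat_lit 1) (nat_lit 221) (nat_lit 135) (nat_lit 214))) (PT.nd (nat_lit 78) (PT.lf (nat_lit 16036) (nat_lit 6) (nat_lit 211) (nat_lit 1) (nat_lit 222) (nat_lit 135) (nat_lit 213)) (PT.lf (nat_lit 15960) (nat_lit 6) (nat_lit 210) (nat_lit 1) (nat_lit 223) (nat_lit 135) (nat_lit 212))))) (PT.nd (nat_lit 312) (PT.nd (nat_lit 156) (PT.nd (nat_lit 78) (PT.lf (nat_lit 16416) (nat_lit 6) (nat_lit 216) (nat_lit 3) (nat_lit 211) (nat_lit 136) (nat_lit 223)) (PT.lf (nat_lit 16492) (nat_lit 6) (nat_lit 217) (nat_lit 3) (nat_lit 212) (nat_lit 136) (nat_lit 222))) (PT.nd (nat_lit 78) (PT.lf (nat_lit 16568) (nat_lit 6) (nat_lit 218) (nat_lit 3) (nat_lit 213) (nat_lit 136)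 (nat_lit 221)) (PT.lf (nat_lit 16644) (nat_lit 6) (nat_lit 219) (nat_lit 3) (nat_lit 214) (nat_lit 136) (nat_lit 220)))) (PT.nd (nat_lit 156) (PT.nd (nat_lit 78) (PT.lf (nat_lit 16720) (nat_lit 6) (nat_lit 220) (nat_lit 3) (nat_lit 215) (nat_lit 136) (nat_lit 219)) (PT.lf (nat_lit 16796) (nat_lit 6) (nat_lit 221) (nat_lit 3) (nat_lit 216) (nat_lit 136) (nat_lit 218))) (PT.nd (nat_lit 78) (PT.lf (nat_lit 16872) (nat_lit 3) (nat_lit 222) (nat_lit 1) (nat_lit 217) (nat_lit 136) (nat_lit 217)) (PT.nd (nat_lit 78) (PT.lf (nat_lit 16796) (nat_lit 6) (nat_lit 221) (nat_lit 1) (nat_lit 218) (nat_lit 136) (nat_lit 216)) (PT.lf (nat_lit 16720) (nat_lit 6) (nat_lit 220) (nat_lit 1) (nat_lit 219) (nat_lit 136) (nat_lit 215))))))))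
noncomputable def pc8 : PT := (PT.nd (nat_lit 117936) (PT.nd (nat_lit 58968) (PT.nd (nat_lit 58656) (PT.nd (nat_lit 156) (PT.nd (nat_lit 78) (PT.lf (nat_lit 16644) (nat_lit 6) (nat_lit 219) (nat_lit 1) (nat_lit 220) (nat_lit 136) (nat_lit 214)) (PT.lf (nat_lit 16568) (nat_lit 6) (nat_lit 218) (nat_lit 1) (nat_lit 221) (nat_lit 136) (nat_lit 213))) (PT.nd (nat_lit 78) (PT.lf (nat_lit 16492) (nat_lit 6) (nat_lit 217) (nat_lit 1) (nat_lit 222) (nat_lit 136) (nat_lit 212)) (PT.lf (nat_lit 16416) (nat_lit 6) (nat_lit 216) (nat_lit 1) (nat_lit 223) (nat_lit 136) (nat_lit 211)))) (PT.nd (nat_lit 156) (PT.nd (nat_lit 78) (PT.lf (nat_lit 16948) (nat_lit 6) (nat_lit 223) (nat_lit 3) (nat_lit 211) (nat_lit 137) (nat_lit 222)) (PT.lf (nat_lit 17024) (nat_lit 6) (nat_lit 224) (nat_lit 3) (nat_lit 212) (nat_lit 137) (nat_lit 221))) (PT.nd (nat_lit 78) (PT.lf (nat_lit 17100) (nat_lit 6) (nat_lit 225) (nat_lit 3) (nat_lit 213) (nat_lit 137) (nat_lit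 220)) (PT.lf (nat_lit 17176) (nat_lit 6) (nat_lit 226) (nat_lit 3) (nat_lit 214) (nat_lit 137) (nat_lit 219))))) (PT.nd (nat_lit 312) (PT.nd (nat_lit 156) (PT.nd (nat_lit 78) (PT.lf (nat_lit 17252) (nat_lit 6) (nat_lit 227) (nat_lit 3) (nat_lit 215) (nat_lit 137) (nat_lit 218)) (PT.lf (nat_lit 17328) (nat_lit 6) (nat_lit 228) (nat_lit 3) (nat_lit 216) (nat_lit 137) (nat_lit 217))) (PT.nd (nat_lit 78) (PT.lf (nat_lit 17328) (nat_lit 6) (nat_lit 228) (nat_lit 1) (nat_lit 217) (nat_lit 137) (nat_lit 216)) (PT.lf (nat_lit 17252) (nat_lit 6) (nat_lit 227) (nat_lit 1) (nat_lit 218) (nat_lit 137) (nat_lit 215)))) (PT.nd (nat_lit 156) (PT.nd (nat_lit 78) (PT.lf (nat_lit 17176) (nat_lit 6) (nat_lit 226) (nat_lit 1) (nat_lit 219) (nat_lit 137) (nat_lit 214)) (PT.lf (nat_lit 17100) (nat_lit 6) (nat_lit 225) (nat_lit 1) (nat_lit 220) (nat_lit 137) (nat_lit 213))) (PT.nd (nat_lit 78) (PT.lf (nat_lit 17024) (nat_lit 6) (nat_lit 224) (nat_lit 1) (nat_lit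 221) (nat_lit 137) (nat_lit 212)) (PT.lf (nat_lit 16948) (nat_lit 6) (nat_lit 223) (nat_lit 1) (nat_lit 222) (nat_lit 137) (nat_lit 211)))))) (PT.nd (nat_lit 624) (PT.nd (nat_lit 312) (PT.nd (nat_lit 156) (PT.nd (nat_lit 78) (PT.lf (nat_lit 17404) (nat_lit 6) (nat_lit 229) (nat_lit 3) (nat_lit 210) (nat_lit 138) (nat_lit 222)) (PT.lf (nat_lit 17480) (nat_lit 6) (nat_lit 230) (nat_lit 3) (nat_lit 211) (nat_lit 138) (nat_lit 221))) (PT.nd (nat_lit 78) (PT.lf (nat_lit 17556) (nat_lit 6) (nat_lit 231) (nat_lit 3) (nat_lit 212) (nat_lit 138) (nat_lit 220)) (PT.lf (nat_lit 17632) (nat_lit 6) (nat_lit 232) (nat_lit 3) (nat_lit 213) (nat_lit 138) (nat_lit 219)))) (PT.nd (nat_lit 156) (PT.nd (nat_lit 78) (PT.lf (nat_lit 17708) (nat_lit 6) (nat_lit 233) (nat_lit 3) (nat_lit 214) (nat_lit 138) (nat_lit 218)) (PT.lf (nat_lit 17784) (nat_lit 6) (nat_lit 234) (nat_lit 3) (nat_lit 215) (nat_lit 138) (nat_lit 217))) (PT.nd (nat_lit 78) (PT.lf (nat_lit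 17860) (nat_lit 3) (nat_lit 235) (nat_lit 1) (nat_lit 216) (nat_lit 138) (nat_lit 216)) (PT.lf (nat_lit 17784) (nat_lit 6) (nat_lit 234) (nat_lit 1) (nat_lit 217) (nat_lit 138) (nat_lit 215))))) (PT.nd (nat_lit 312) (PT.nd (nat_lit 156) (PT.nd (nat_lit 78) (PT.lf (nat_lit 17708) (nat_lit 6) (nat_lit 233) (nat_lit 1) (nat_lit 218) (nat_lit 138) (nat_lit 214)) (PT.lf (nat_lit 17632) (nat_lit 6) (nat_lit 232) (nat_lit 1) (nat_lit 219) (nat_lit 138) (nat_lit 213))) (PT.nd (nat_lit 78) (PT.lf (nat_lit 17556) (nat_lit 6) (nat_lit 231) (nat_lit 1) (nat_lit 220) (nat_lit 138) (nat_lit 212)) (PT.lf (nat_lit 17480) (nat_lit 6) (nat_lit 230) (nat_lit 1) (nat_lit 221) (nat_lit 138) (nat_lit 211)))) (PT.nd (nat_lit 58422) (PT.nd (nat_lit 58344) (PT.lf (nat_lit 17404) (nat_lit 6) (nat_lit 229) (nat_lit 1) (nat_lit 222) (nat_lit 138) (nat_lit 210)) (PT.lf (nat_lit 17936) (nat_lit 6) (nat_lit 236) (nat_lit 3) (nat_lit 209) (nat_lit 139) (nat_lit 222)))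 (PT.nd (nat_lit 78) (PT.lf (nat_lit 18012) (nat_lit 6) (nat_lit 237) (nat_lit 3) (nat_lit 210) (nat_lit 139) (nat_lit 221)) (PT.lf (nat_lit 18088) (nat_lit 6) (nat_lit 238) (nat_lit 3) (nat_lit 211) (nat_lit 139) (nat_lit 220)))))))
noncomputable def pc9 : PT := (PT.nd (nat_lit 59514) (PT.nd (nat_lit 624) (PT.nd (nat_lit 312) (PT.nd (nat_lit 156) (PT.nd (nat_lit 78) (PT.lf (nat_lit 18164) (nat_lit 6) (nat_lit 239) (nat_lit 3) (nat_lit 212) (nat_lit 139) (nat_lit 219)) (PT.lf (nat_lit 18240) (nat_lit 6) (nat_lit 240) (nat_lit 3) (nat_lit 213) (nat_lit 139) (nat_lit 218))) (PT.nd (nat_lit 78) (PT.lf (nat_lit 18316) (nat_lit 6) (nat_lit 241) (nat_lit 3) (nat_lit 214) (nat_lit 139) (nat_lit 217)) (PT.lf (nat_lit 18392) (nat_lit 6) (nat_lit 242) (nat_lit 3) (nat_lit 215) (nat_lit 139) (nat_lit 216)))) (PT.nd (nat_lit 156) (PT.nd (nat_lit 78) (PT.lf (nat_lit 18392) (nat_lit 6) (nat_lit 242) (nat_lit 1) (nat_lit 216) (nat_lit 139) (nat_lit 215))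 (PT.lf (nat_lit 18316) (nat_lit 6) (nat_lit 241) (nat_lit 1) (nat_lit 217) (nat_lit 139) (nat_lit 214))) (PT.nd (nat_lit 78) (PT.lf (nat_lit 18240) (nat_lit 6) (nat_lit 240) (nat_lit 1) (nat_lit 218) (nat_lit 139) (nat_lit 213)) (PT.lf (nat_lit 18164) (nat_lit 6) (nat_lit 239) (nat_lit 1) (nat_lit 219) (nat_lit 139) (nat_lit 212))))) (PT.nd (nat_lit 58578) (PT.nd (nat_lit 156) (PT.nd (nat_lit 78) (PT.lf (nat_lit 18088) (nat_lit 6) (nat_lit 238) (nat_lit 1) (nat_lit 220) (nat_lit 139) (nat_lit 211)) (PT.lf (nat_lit 18012) (nat_lit 6) (nat_lit 237) (nat_lit 1) (nat_lit 221) (nat_lit 139) (nat_lit 210))) (PT.nd (nat_lit 58344) (PT.lf (nat_lit 17936) (nat_lit 6) (nat_lit 236) (nat_lit 1) (nat_lit 222) (nat_lit 139) (nat_lit 209)) (PT.lf (nat_lit 18468) (nat_lit 6) (nat_lit 243) (nat_lit 3) (nat_lit 209) (nat_lit 140) (nat_lit 221)))) (PT.nd (nat_lit 156) (PT.nd (nat_lit 78) (PT.lf (nat_lit 18544) (nat_lit 6) (nat_lit 244) (nat_lit 3) (nat_lit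 210) (nat_lit 140) (nat_lit 220)) (PT.lf (nat_lit 18620) (nat_lit 6) (nat_lit 245) (nat_lit 3) (nat_lit 211) (nat_lit 140) (nat_lit 219))) (PT.nd (nat_lit 78) (PT.lf (nat_lit 18696) (nat_lit 6) (nat_lit 246) (nat_lit 3) (nat_lit 212) (nat_lit 140) (nat_lit 218)) (PT.lf (nat_lit 18772) (nat_lit 6) (nat_lit 247) (nat_lit 3) (nat_lit 213) (nat_lit 140) (nat_lit 217)))))) (PT.nd (nat_lit 58890) (PT.nd (nat_lit 312) (PT.nd (nat_lit 156) (PT.nd (nat_lit 78) (PT.lf (nat_lit 18848) (nat_lit 6) (nat_lit 248) (nat_lit 3) (nat_lit 214) (nat_lit 140) (nat_lit 216)) (PT.lf (nat_lit 18924) (nat_lit 3) (nat_lit 249) (nat_lit 1) (nat_lit 215) (nat_lit 140) (nat_lit 215))) (PT.nd (nat_lit 78) (PT.lf (nat_lit 18848) (nat_lit 6) (nat_lit 248) (nat_lit 1) (nat_lit 216) (nat_lit 140) (nat_lit 214)) (PT.lf (nat_lit 18772) (nat_lit 6) (nat_lit 247) (nat_lit 1) (nat_lit 217) (nat_lit 140) (nat_lit 213)))) (PT.nd (nat_lit 156) (PT.nd (nat_lit 78) (PT.lf (nat_lit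 18696) (nat_lit 6) (nat_lit 246) (nat_lit 1) (nat_lit 218) (nat_lit 140) (nat_lit 212)) (PT.lf (nat_lit 18620) (nat_lit 6) (nat_lit 245) (nat_lit 1) (nat_lit 219) (nat_lit 140) (nat_lit 211))) (PT.nd (nat_lit 78) (PT.lf (nat_lit 18544) (nat_lit 6) (nat_lit 244) (nat_lit 1) (nat_lit 220) (nat_lit 140) (nat_lit 210)) (PT.lf (nat_lit 18468) (nat_lit 6) (nat_lit 243) (nat_lit 1) (nat_lit 221) (nat_lit 140) (nat_lit 209))))) (PT.nd (nat_lit 312) (PT.nd (nat_lit 156) (PT.nd (nat_lit 78) (PT.lf (nat_lit 19000) (nat_lit 6) (nat_lit 250) (nat_lit 3) (nat_lit 208) (nat_lit 141) (nat_lit 221)) (PT.lf (nat_lit 19076) (nat_lit 6) (nat_lit 251) (nat_lit 3) (nat_lit 209) (nat_lit 141) (nat_lit 220))) (PT.nd (nat_lit 78) (PT.lf (nat_lit 19152) (nat_lit 6) (nat_lit 252) (nat_lit 3) (nat_lit 210) (nat_lit 141) (nat_lit 219)) (PT.lf (nat_lit 19228) (nat_lit 6) (nat_lit 253) (nat_lit 3) (nat_lit 211) (nat_lit 141) (nat_lit 218)))) (PT.nd (nat_lit 156) (PT.nd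 (nat_lit 78) (PT.lf (nat_lit 19304) (nat_lit 6) (nat_lit 254) (nat_lit 3) (nat_lit 212) (nat_lit 141) (nat_lit 217)) (PT.lf (nat_lit 19380) (nat_lit 6) (nat_lit 255) (nat_lit 3) (nat_lit 213) (nat_lit 141) (nat_lit 216))) (PT.nd (nat_lit 78) (PT.lf (nat_lit 19456) (nat_lit 6) (nat_lit 256) (nat_lit 3) (nat_lit 214) (nat_lit 141) (nat_lit 215)) (PT.nd (nat_lit 78) (PT.lf (nat_lit 19456) (nat_lit 6) (nat_lit 256) (nat_lit 1) (nat_lit 215) (nat_lit 141) (nat_lit 214)) (PT.lf (nat_lit 19380) (nat_lit 6) (nat_lit 255) (nat_lit 1) (nat_lit 216) (nat_lit 141) (nat_lit 213))))))))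
noncomputable def pc10 : PT := (PT.nd (nat_lit 59436) (PT.nd (nat_lit 58812) (PT.nd (nat_lit 312) (PT.nd (nat_lit 156) (PT.nd (nat_lit 78) (PT.lf (nat_lit 19304) (nat_lit 6) (nat_lit 254) (nat_lit 1) (nat_lit 217) (nat_lit 141) (nat_lit 212)) (PT.lf (nat_lit 19228) (nat_lit 6) (nat_lit 253) (nat_lit 1) (nat_lit 218) (nat_lit 141) (nat_lit 211))) (PT.nd (nat_lit 78) (PT.lf (nat_lit 19152) (nat_lit 6) (nat_lit 252) (nat_lit 1) (nat_lit 219) (nat_lit 141) (nat_lit 210)) (PT.lf (nat_lit 19076) (nat_lit 6) (nat_lit 251) (nat_lit 1) (nat_lit 220) (nat_lit 141) (nat_lit 209)))) (PT.nd (nat_lit 58344) (PT.nd (nat_lit 58266) (PT.lf (nat_lit 19000) (nat_lit 6) (nat_lit 250) (nat_lit 1) (nat_lit 221) (nat_lit 141) (nat_lit 208)) (PT.lf (nat_lit 19532) (nat_lit 6) (nat_lit 257) (nat_lit 3) (nat_lit 207) (nat_lit 142) (nat_lit 221))) (PT.nd (nat_lit 78) (PT.lf (nat_lit 19608) (nat_lit 6) (nat_lit 258) (nat_lit 3) (nat_lit 208) (nat_lit 142) (nat_lit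 220)) (PT.lf (nat_lit 19684) (nat_lit 6) (nat_lit 259) (nat_lit 3) (nat_lit 209) (nat_lit 142) (nat_lit 219))))) (PT.nd (nat_lit 312) (PT.nd (nat_lit 156) (PT.nd (nat_lit 78) (PT.lf (nat_lit 19760) (nat_lit 6) (nat_lit 260) (nat_lit 3) (nat_lit 210) (nat_lit 142) (nat_lit 218)) (PT.lf (nat_lit 19836) (nat_lit 6) (nat_lit 261) (nat_lit 3) (nat_lit 211) (nat_lit 142) (nat_lit 217))) (PT.nd (nat_lit 78) (PT.lf (nat_lit 19912) (nat_lit 6) (nat_lit 262) (nat_lit 3) (nat_lit 212) (nat_lit 142) (nat_lit 216)) (PT.lf (nat_lit 19988) (nat_lit 6) (nat_lit 263) (nat_lit 3) (nat_lit 213) (nat_lit 142) (nat_lit 215)))) (PT.nd (nat_lit 156) (PT.nd (nat_lit 78) (PT.lf (nat_lit 20064) (nat_lit 3) (nat_lit 264) (nat_lit 1) (nat_lit 214) (nat_lit 142) (nat_lit 214)) (PT.lf (nat_lit 19988) (nat_lit 6) (nat_lit 263) (nat_lit 1) (nat_lit 215) (nat_lit 142) (nat_lit 213))) (PT.nd (nat_lit 78) (PT.lf (nat_lit 19912) (nat_lit 6) (nat_lit 262) (nat_lit 1) (nat_lit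 216) (nat_lit 142) (nat_lit 212)) (PT.lf (nat_lit 19836) (nat_lit 6) (nat_lit 261) (nat_lit 1) (nat_lit 217) (nat_lit 142) (nat_lit 211)))))) (PT.nd (nat_lit 58812) (PT.nd (nat_lit 58500) (PT.nd (nat_lit 156) (PT.nd (nat_lit 78) (PT.lf (nat_lit 19760) (nat_lit 6) (nat_lit 260) (nat_lit 1) (nat_lit 218) (nat_lit 142) (nat_lit 210)) (PT.lf (nat_lit 19684) (nat_lit 6) (nat_lit 259) (nat_lit 1) (nat_lit 219) (nat_lit 142) (nat_lit 209))) (PT.nd (nat_lit 78) (PT.lf (nat_lit 19608) (nat_lit 6) (nat_lit 258) (nat_lit 1) (nat_lit 220) (nat_lit 142) (nat_lit 208)) (PT.lf (nat_lit 19532) (nat_lit 6) (nat_lit 257) (nat_lit 1) (nat_lit 221) (nat_lit 142) (nat_lit 207)))) (PT.nd (nat_lit 156) (PT.nd (nat_lit 78) (PT.lf (nat_lit 20140) (nat_lit 6) (nat_lit 265) (nat_lit 3) (nat_lit 207) (nat_lit 143) (nat_lit 220)) (PT.lf (nat_lit 20216) (nat_lit 6) (nat_lit 266) (nat_lit 3) (nat_lit 208) (nat_lit 143) (nat_lit 219))) (PT.nd (nat_lit 78) (PT.lf (nat_lit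 20292) (nat_lit 6) (nat_lit 267) (nat_lit 3) (nat_lit 209) (nat_lit 143) (nat_lit 218)) (PT.lf (nat_lit 20368) (nat_lit 6) (nat_lit 268) (nat_lit 3) (nat_lit 210) (nat_lit 143) (nat_lit 217))))) (PT.nd (nat_lit 312) (PT.nd (nat_lit 156) (PT.nd (nat_lit 78) (PT.lf (nat_lit 20444) (nat_lit 6) (nat_lit 269) (nat_lit 3) (nat_lit 211) (nat_lit 143) (nat_lit 216)) (PT.lf (nat_lit 20520) (nat_lit 6) (nat_lit 270) (nat_lit 3) (nat_lit 212) (nat_lit 143) (nat_lit 215))) (PT.nd (nat_lit 78) (PT.lf (nat_lit 20596) (nat_lit 6) (nat_lit 271) (nat_lit 3) (nat_lit 213) (nat_lit 143) (nat_lit 214)) (PT.lf (nat_lit 20596) (nat_lit 6) (nat_lit 271) (nat_lit 1) (nat_lit 214) (nat_lit 143) (nat_lit 213)))) (PT.nd (nat_lit 156) (PT.nd (nat_lit 78) (PT.lf (nat_lit 20520) (nat_lit 6) (nat_lit 270) (nat_lit 1) (nat_lit 215) (nat_lit 143) (nat_lit 212)) (PT.lf (nat_lit 20444) (nat_lit 6) (nat_lit 269) (nat_lit 1) (nat_lit 216) (nat_lit 143) (nat_lit 211))) (PT.nd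 (nat_lit 78) (PT.lf (nat_lit 20368) (nat_lit 6) (nat_lit 268) (nat_lit 1) (nat_lit 217) (nat_lit 143) (nat_lit 210)) (PT.nd (nat_lit 78) (PT.lf (nat_lit 20292) (nat_lit 6) (nat_lit 267) (nat_lit 1) (nat_lit 218) (nat_lit 143) (nat_lit 209)) (PT.lf (nat_lit 20216) (nat_lit 6) (nat_lit 266) (nat_lit 1) (nat_lit 219) (nat_lit 143) (nat_lit 208))))))))
noncomputable def pc11 : PT := (PT.nd (nat_lit 117546) (PT.nd (nat_lit 58812) (PT.nd (nat_lit 58500) (PT.nd (nat_lit 58344) (PT.nd (nat_lit 58266) (PT.lf (nat_lit 20140) (nat_lit 6) (nat_lit 265) (nat_lit 1) (nat_lit 220) (nat_lit 143) (nat_lit 207)) (PT.lf (nat_lit 20672) (nat_lit 6) (nat_lit 272) (nat_lit 3) (nat_lit 206) (nat_lit 144) (nat_lit 220))) (PT.nd (nat_lit 78) (PT.lf (nat_lit 20748) (nat_lit 6) (nat_lit 273) (nat_lit 3) (nat_lit 207) (nat_lit 144) (nat_lit 219)) (PT.lf (nat_lit 20824) (nat_lit 6) (nat_lit 274) (nat_lit 3) (nat_lit 208) (nat_lit 144) (nat_lit 218)))) (PT.nd (nat_lit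 156) (PT.nd (nat_lit 78) (PT.lf (nat_lit 20900) (nat_lit 6) (nat_lit 275) (nat_lit 3) (nat_lit 209) (nat_lit 144) (nat_lit 217)) (PT.lf (nat_lit 20976) (nat_lit 6) (nat_lit 276) (nat_lit 3) (nat_lit 210) (nat_lit 144) (nat_lit 216))) (PT.nd (nat_lit 78) (PT.lf (nat_lit 21052) (nat_lit 6) (nat_lit 277) (nat_lit 3) (nat_lit 211) (nat_lit 144) (nat_lit 215)) (PT.lf (nat_lit 21128) (nat_lit 6) (nat_lit 278) (nat_lit 3) (nat_lit 212) (nat_lit 144) (nat_lit 214))))) (PT.nd (nat_lit 312) (PT.nd (nat_lit 156) (PT.nd (nat_lit 78) (PT.lf (nat_lit 21204) (nat_lit 3) (nat_lit 279) (nat_lit 1) (nat_lit 213) (nat_lit 144) (nat_lit 213)) (PT.lf (nat_lit 21128) (nat_lit 6) (nat_lit 278) (nat_lit 1) (nat_lit 214) (nat_lit 144) (nat_lit 212))) (PT.nd (nat_lit 78) (PT.lf (nat_lit 21052) (nat_lit 6) (nat_lit 277) (nat_lit 1) (nat_lit 215) (nat_lit 144) (nat_lit 211)) (PT.lf (nat_lit 20976) (nat_lit 6) (nat_lit 276) (nat_lit 1) (nat_lit 216) (nat_lit 144)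 (nat_lit 210)))) (PT.nd (nat_lit 156) (PT.nd (nat_lit 78) (PT.lf (nat_lit 20900) (nat_lit 6) (nat_lit 275) (nat_lit 1) (nat_lit 217) (nat_lit 144) (nat_lit 209)) (PT.lf (nat_lit 20824) (nat_lit 6) (nat_lit 274) (nat_lit 1) (nat_lit 218) (nat_lit 144) (nat_lit 208))) (PT.nd (nat_lit 78) (PT.lf (nat_lit 20748) (nat_lit 6) (nat_lit 273) (nat_lit 1) (nat_lit 219) (nat_lit 144) (nat_lit 207)) (PT.lf (nat_lit 20672) (nat_lit 6) (nat_lit 272) (nat_lit 1) (nat_lit 220) (nat_lit 144) (nat_lit 206)))))) (PT.nd (nat_lit 624) (PT.nd (nat_lit 312) (PT.nd (nat_lit 156) (PT.nd (nat_lit 78) (PT.lf (nat_lit 21280) (nat_lit 6) (nat_lit 280) (nat_lit 3) (nat_lit 205) (nat_lit 145) (nat_lit 220)) (PT.lf (nat_lit 21356) (nat_lit 6) (nat_lit 281) (nat_lit 3) (nat_lit 206) (nat_lit 145) (nat_lit 219))) (PT.nd (nat_lit 78) (PT.lf (nat_lit 21432) (nat_lit 6) (nat_lit 282) (nat_lit 3) (nat_lit 207) (nat_lit 145) (nat_lit 218)) (PT.lf (nat_lit 21508) (nat_lit 6)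 (nat_lit 283) (nat_lit 3) (nat_lit 208) (nat_lit 145) (nat_lit 217)))) (PT.nd (nat_lit 156) (PT.nd (nat_lit 78) (PT.lf (nat_lit 21584) (nat_lit 6) (nat_lit 284) (nat_lit 3) (nat_lit 209) (nat_lit 145) (nat_lit 216)) (PT.lf (nat_lit 21660) (nat_lit 6) (nat_lit 285) (nat_lit 3) (nat_lit 210) (nat_lit 145) (nat_lit 215))) (PT.nd (nat_lit 78) (PT.lf (nat_lit 21736) (nat_lit 6) (nat_lit 286) (nat_lit 3) (nat_lit 211) (nat_lit 145) (nat_lit 214)) (PT.lf (nat_lit 21812) (nat_lit 6) (nat_lit 287) (nat_lit 3) (nat_lit 212) (nat_lit 145) (nat_lit 213))))) (PT.nd (nat_lit 312) (PT.nd (nat_lit 156) (PT.nd (nat_lit 78) (PT.lf (nat_lit 21812) (nat_lit 6) (nat_lit 287) (nat_lit 1) (nat_lit 213) (nat_lit 145) (nat_lit 212)) (PT.lf (nat_lit 21736) (nat_lit 6) (nat_lit 286) (nat_lit 1) (nat_lit 214) (nat_lit 145) (nat_lit 211))) (PT.nd (nat_lit 78) (PT.lf (nat_lit 21660) (nat_lit 6) (nat_lit 285) (nat_lit 1) (nat_lit 215) (nat_lit 145) (nat_lit 210)) (PT.lf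 (nat_lit 21584) (nat_lit 6) (nat_lit 284) (nat_lit 1) (nat_lit 216) (nat_lit 145) (nat_lit 209)))) (PT.nd (nat_lit 156) (PT.nd (nat_lit 78) (PT.lf (nat_lit 21508) (nat_lit 6) (nat_lit 283) (nat_lit 1) (nat_lit 217) (nat_lit 145) (nat_lit 208)) (PT.lf (nat_lit 21432) (nat_lit 6) (nat_lit 282) (nat_lit 1) (nat_lit 218) (nat_lit 145) (nat_lit 207))) (PT.nd (nat_lit 78) (PT.lf (nat_lit 21356) (nat_lit 6) (nat_lit 281) (nat_lit 1) (nat_lit 219) (nat_lit 145) (nat_lit 206)) (PT.nd (nat_lit 58188) (PT.lf (nat_lit 21280) (nat_lit 6) (nat_lit 280) (nat_lit 1) (nat_lit 220) (nat_lit 145) (nat_lit 205)) (PT.lf (nat_lit 21888) (nat_lit 6) (nat_lit 288) (nat_lit 3) (nat_lit 205) (nat_lit 146) (nat_lit 219))))))))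
noncomputable def pc12 : PT := (PT.nd (nat_lit 59358) (PT.nd (nat_lit 624) (PT.nd (nat_lit 312) (PT.nd (nat_lit 156) (PT.nd (nat_lit 78) (PT.lf (nat_lit 21964) (nat_lit 6) (nat_lit 289) (nat_lit 3) (nat_lit 206) (nat_lit 146) (nat_lit 218)) (PT.lf (nat_lit 22040) (nat_lit 6) (nat_lit 290) (nat_lit 3) (nat_lit 207) (nat_lit 146) (nat_lit 217))) (PT.nd (nat_lit 78) (PT.lf (nat_lit 22116) (nat_lit 6) (nat_lit 291) (nat_lit 3) (nat_lit 208) (nat_lit 146) (nat_lit 216)) (PT.lf (nat_lit 22192) (nat_lit 6) (nat_lit 292) (nat_lit 3) (nat_lit 209) (nat_lit 146) (nat_lit 215)))) (PT.nd (nat_lit 156) (PT.nd (nat_lit 78) (PT.lf (nat_lit 22268) (nat_lit 6) (nat_lit 293) (nat_lit 3) (nat_lit 210) (nat_lit 146) (nat_lit 214)) (PT.lf (nat_lit 22344) (nat_lit 6) (nat_lit 294) (nat_lit 3) (nat_lit 211) (nat_lit 146) (nat_lit 213))) (PT.nd (nat_lit 78) (PT.lf (nat_lit 22420) (nat_lit 3) (nat_lit 295) (nat_lit 1) (nat_lit 212) (nat_lit 146) (nat_lit 212))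 (PT.lf (nat_lit 22344) (nat_lit 6) (nat_lit 294) (nat_lit 1) (nat_lit 213) (nat_lit 146) (nat_lit 211))))) (PT.nd (nat_lit 312) (PT.nd (nat_lit 156) (PT.nd (nat_lit 78) (PT.lf (nat_lit 22268) (nat_lit 6) (nat_lit 293) (nat_lit 1) (nat_lit 214) (nat_lit 146) (nat_lit 210)) (PT.lf (nat_lit 22192) (nat_lit 6) (nat_lit 292) (nat_lit 1) (nat_lit 215) (nat_lit 146) (nat_lit 209))) (PT.nd (nat_lit 78) (PT.lf (nat_lit 22116) (nat_lit 6) (nat_lit 291) (nat_lit 1) (nat_lit 216) (nat_lit 146) (nat_lit 208)) (PT.lf (nat_lit 22040) (nat_lit 6) (nat_lit 290) (nat_lit 1) (nat_lit 217) (nat_lit 146) (nat_lit 207)))) (PT.nd (nat_lit 58266) (PT.nd (nat_lit 78) (PT.lf (nat_lit 21964) (nat_lit 6) (nat_lit 289) (nat_lit 1) (nat_lit 218) (nat_lit 146) (nat_lit 206)) (PT.lf (nat_lit 21888) (nat_lit 6) (nat_lit 288) (nat_lit 1) (nat_lit 219) (nat_lit 146) (nat_lit 205))) (PT.nd (nat_lit 78) (PT.lf (nat_lit 22496) (nat_lit 6) (nat_lit 296) (nat_lit 3) (nat_lit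 204) (nat_lit 147) (nat_lit 219)) (PT.lf (nat_lit 22572) (nat_lit 6) (nat_lit 297) (nat_lit 3) (nat_lit 205) (nat_lit 147) (nat_lit 218)))))) (PT.nd (nat_lit 624) (PT.nd (nat_lit 312) (PT.nd (nat_lit 156) (PT.nd (nat_lit 78) (PT.lf (nat_lit 22648) (nat_lit 6) (nat_lit 298) (nat_lit 3) (nat_lit 206) (nat_lit 147) (nat_lit 217)) (PT.lf (nat_lit 22724) (nat_lit 6) (nat_lit 299) (nat_lit 3) (nat_lit 207) (nat_lit 147) (nat_lit 216))) (PT.nd (nat_lit 78) (PT.lf (nat_lit 22800) (nat_lit 6) (nat_lit 300) (nat_lit 3) (nat_lit 208) (nat_lit 147) (nat_lit 215)) (PT.lf (nat_lit 22876) (nat_lit 6) (nat_lit 301) (nat_lit 3) (nat_lit 209) (nat_lit 147) (nat_lit 214)))) (PT.nd (nat_lit 156) (PT.nd (nat_lit 78) (PT.lf (nat_lit 22952) (nat_lit 6) (nat_lit 302) (nat_lit 3) (nat_lit 210) (nat_lit 147) (nat_lit 213)) (PT.lf (nat_lit 23028) (nat_lit 6) (nat_lit 303) (nat_lit 3) (nat_lit 211) (nat_lit 147) (nat_lit 212))) (PT.nd (nat_lit 78) (PT.lf (nat_lit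 23028) (nat_lit 6) (nat_lit 303) (nat_lit 1) (nat_lit 212) (nat_lit 147) (nat_lit 211)) (PT.lf (nat_lit 22952) (nat_lit 6) (nat_lit 302) (nat_lit 1) (nat_lit 213) (nat_lit 147) (nat_lit 210))))) (PT.nd (nat_lit 312) (PT.nd (nat_lit 156) (PT.nd (nat_lit 78) (PT.lf (nat_lit 22876) (nat_lit 6) (nat_lit 301) (nat_lit 1) (nat_lit 214) (nat_lit 147) (nat_lit 209)) (PT.lf (nat_lit 22800) (nat_lit 6) (nat_lit 300) (nat_lit 1) (nat_lit 215) (nat_lit 147) (nat_lit 208))) (PT.nd (nat_lit 78) (PT.lf (nat_lit 22724) (nat_lit 6) (nat_lit 299) (nat_lit 1) (nat_lit 216) (nat_lit 147) (nat_lit 207)) (PT.lf (nat_lit 22648) (nat_lit 6) (nat_lit 298) (nat_lit 1) (nat_lit 217) (nat_lit 147) (nat_lit 206)))) (PT.nd (nat_lit 58188) (PT.nd (nat_lit 78) (PT.lf (nat_lit 22572) (nat_lit 6) (nat_lit 297) (nat_lit 1) (nat_lit 218) (nat_lit 147) (nat_lit 205)) (PT.lf (nat_lit 22496) (nat_lit 6) (nat_lit 296) (nat_lit 1) (nat_lit 219) (nat_lit 147) (nat_lit 204)))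 (PT.nd (nat_lit 78) (PT.lf (nat_lit 23104) (nat_lit 6) (nat_lit 304) (nat_lit 3) (nat_lit 203) (nat_lit 148) (nat_lit 219)) (PT.nd (nat_lit 78) (PT.lf (nat_lit 23180) (nat_lit 6) (nat_lit 305) (nat_lit 3) (nat_lit 204) (nat_lit 148) (nat_lit 218)) (PT.lf (nat_lit 23256) (nat_lit 6) (nat_lit 306) (nat_lit 3) (nat_lit 205) (nat_lit 148) (nat_lit 217))))))))
noncomputable def pc13 : PT := (PT.nd (nat_lit 59280) (PT.nd (nat_lit 624) (PT.nd (nat_lit 312) (PT.nd (nat_lit 156) (PT.nd (nat_lit 78) (PT.lf (nat_lit 23332) (nat_lit 6) (nat_lit 307) (nat_lit 3) (nat_lit 206) (nat_lit 148) (nat_lit 216)) (PT.lf (nat_lit 23408) (nat_lit 6) (nat_lit 308) (nat_lit 3) (nat_lit 207) (nat_lit 148) (nat_lit 215))) (PT.nd (nat_lit 78) (PT.lf (nat_lit 23484) (nat_lit 6) (nat_lit 309) (nat_lit 3) (nat_lit 208) (nat_lit 148) (nat_lit 214)) (PT.lf (nat_lit 23560) (nat_lit 6) (nat_lit 310) (nat_lit 3) (nat_lit 209) (nat_lit 148) (nat_lit 213)))) (PT.nd (nat_lit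 156) (PT.nd (nat_lit 78) (PT.lf (nat_lit 23636) (nat_lit 6) (nat_lit 311) (nat_lit 3) (nat_lit 210) (nat_lit 148) (nat_lit 212)) (PT.lf (nat_lit 23712) (nat_lit 3) (nat_lit 312) (nat_lit 1) (nat_lit 211) (nat_lit 148) (nat_lit 211))) (PT.nd (nat_lit 78) (PT.lf (nat_lit 23636) (nat_lit 6) (nat_lit 311) (nat_lit 1) (nat_lit 212) (nat_lit 148) (nat_lit 210)) (PT.lf (nat_lit 23560) (nat_lit 6) (nat_lit 310) (nat_lit 1) (nat_lit 213) (nat_lit 148) (nat_lit 209))))) (PT.nd (nat_lit 312) (PT.nd (nat_lit 156) (PT.nd (nat_lit 78) (PT.lf (nat_lit 23484) (nat_lit 6) (nat_lit 309) (nat_lit 1) (nat_lit 214) (nat_lit 148) (nat_lit 208)) (PT.lf (nat_lit 23408) (nat_lit 6) (nat_lit 308) (nat_lit 1) (nat_lit 215) (nat_lit 148) (nat_lit 207))) (PT.nd (nat_lit 78) (PT.lf (nat_lit 23332) (nat_lit 6) (nat_lit 307) (nat_lit 1) (nat_lit 216) (nat_lit 148) (nat_lit 206)) (PT.lf (nat_lit 23256) (nat_lit 6) (nat_lit 306) (nat_lit 1) (nat_lit 217) (nat_lit 148)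 (nat_lit 205)))) (PT.nd (nat_lit 58188) (PT.nd (nat_lit 78) (PT.lf (nat_lit 23180) (nat_lit 6) (nat_lit 305) (nat_lit 1) (nat_lit 218) (nat_lit 148) (nat_lit 204)) (PT.lf (nat_lit 23104) (nat_lit 6) (nat_lit 304) (nat_lit 1) (nat_lit 219) (nat_lit 148) (nat_lit 203))) (PT.nd (nat_lit 78) (PT.lf (nat_lit 23788) (nat_lit 6) (nat_lit 313) (nat_lit 3) (nat_lit 203) (nat_lit 149) (nat_lit 218)) (PT.lf (nat_lit 23864) (nat_lit 6) (nat_lit 314) (nat_lit 3) (nat_lit 204) (nat_lit 149) (nat_lit 217)))))) (PT.nd (nat_lit 624) (PT.nd (nat_lit 312) (PT.nd (nat_lit 156) (PT.nd (nat_lit 78) (PT.lf (nat_lit 23940) (nat_lit 6) (nat_lit 315) (nat_lit 3) (nat_lit 205) (nat_lit 149) (nat_lit 216)) (PT.lf (nat_lit 24016) (nat_lit 6) (nat_lit 316) (nat_lit 3) (nat_lit 206) (nat_lit 149) (nat_lit 215))) (PT.nd (nat_lit 78) (PT.lf (nat_lit 24092) (nat_lit 6) (nat_lit 317) (nat_lit 3) (nat_lit 207) (nat_lit 149) (nat_lit 214)) (PT.lf (nat_lit 24168) (nat_lit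 6) (nat_lit 318) (nat_lit 3) (nat_lit 208) (nat_lit 149) (nat_lit 213)))) (PT.nd (nat_lit 156) (PT.nd (nat_lit 78) (PT.lf (nat_lit 24244) (nat_lit 6) (nat_lit 319) (nat_lit 3) (nat_lit 209) (nat_lit 149) (nat_lit 212)) (PT.lf (nat_lit 24320) (nat_lit 6) (nat_lit 320) (nat_lit 3) (nat_lit 210) (nat_lit 149) (nat_lit 211))) (PT.nd (nat_lit 78) (PT.lf (nat_lit 24320) (nat_lit 6) (nat_lit 320) (nat_lit 1) (nat_lit 211) (nat_lit 149) (nat_lit 210)) (PT.lf (nat_lit 24244) (nat_lit 6) (nat_lit 319) (nat_lit 1) (nat_lit 212) (nat_lit 149) (nat_lit 209))))) (PT.nd (nat_lit 312) (PT.nd (nat_lit 156) (PT.nd (nat_lit 78) (PT.lf (nat_lit 24168) (nat_lit 6) (nat_lit 318) (nat_lit 1) (nat_lit 213) (nat_lit 149) (nat_lit 208)) (PT.lf (nat_lit 24092) (nat_lit 6) (nat_lit 317) (nat_lit 1) (nat_lit 214) (nat_lit 149) (nat_lit 207))) (PT.nd (nat_lit 78) (PT.lf (nat_lit 24016) (nat_lit 6) (nat_lit 316) (nat_lit 1) (nat_lit 215) (nat_lit 149) (nat_lit 206))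 (PT.lf (nat_lit 23940) (nat_lit 6) (nat_lit 315) (nat_lit 1) (nat_lit 216) (nat_lit 149) (nat_lit 205)))) (PT.nd (nat_lit 58188) (PT.nd (nat_lit 78) (PT.lf (nat_lit 23864) (nat_lit 6) (nat_lit 314) (nat_lit 1) (nat_lit 217) (nat_lit 149) (nat_lit 204)) (PT.lf (nat_lit 23788) (nat_lit 6) (nat_lit 313) (nat_lit 1) (nat_lit 218) (nat_lit 149) (nat_lit 203))) (PT.nd (nat_lit 78) (PT.lf (nat_lit 24396) (nat_lit 6) (nat_lit 321) (nat_lit 3) (nat_lit 202) (nat_lit 150) (nat_lit 218)) (PT.nd (nat_lit 78) (PT.lf (nat_lit 24472) (nat_lit 6) (nat_lit 322) (nat_lit 3) (nat_lit 203) (nat_lit 150) (nat_lit 217)) (PT.lf (nat_lit 24548) (nat_lit 6) (nat_lit 323) (nat_lit 3) (nat_lit 204) (nat_lit 150) (nat_lit 216))))))))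
noncomputable def pc14 : PT := (PT.nd (nat_lit 59202) (PT.nd (nat_lit 624) (PT.nd (nat_lit 312) (PT.nd (nat_lit 156) (PT.nd (nat_lit 78) (PT.lf (nat_lit 24624) (nat_lit 6) (nat_lit 324) (nat_lit 3) (nat_lit 205) (nat_lit 150) (nat_lit 215)) (PT.lf (nat_lit 24700) (nat_lit 6) (nat_lit 325) (nat_lit 3) (nat_lit 206) (nat_lit 150) (nat_lit 214))) (PT.nd (nat_lit 78) (PT.lf (nat_lit 24776) (nat_lit 6) (nat_lit 326) (nat_lit 3) (nat_lit 207) (nat_lit 150) (nat_lit 213)) (PT.lf (nat_lit 24852) (nat_lit 6) (nat_lit 327) (nat_lit 3) (nat_lit 208) (nat_lit 150) (nat_lit 212)))) (PT.nd (nat_lit 156) (PT.nd (nat_lit 78) (PT.lf (nat_lit 24928) (nat_lit 6) (nat_lit 328) (nat_lit 3) (nat_lit 209) (nat_lit 150) (nat_lit 211)) (PT.lf (nat_lit 25004) (nat_lit 3) (nat_lit 329) (nat_lit 1) (nat_lit 210) (nat_lit 150) (nat_lit 210))) (PT.nd (nat_lit 78) (PT.lf (nat_lit 24928) (nat_lit 6) (nat_lit 328) (nat_lit 1) (nat_lit 211) (nat_lit 150) (nat_lit 209))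 (PT.lf (nat_lit 24852) (nat_lit 6) (nat_lit 327) (nat_lit 1) (nat_lit 212) (nat_lit 150) (nat_lit 208))))) (PT.nd (nat_lit 312) (PT.nd (nat_lit 156) (PT.nd (nat_lit 78) (PT.lf (nat_lit 24776) (nat_lit 6) (nat_lit 326) (nat_lit 1) (nat_lit 213) (nat_lit 150) (nat_lit 207)) (PT.lf (nat_lit 24700) (nat_lit 6) (nat_lit 325) (nat_lit 1) (nat_lit 214) (nat_lit 150) (nat_lit 206))) (PT.nd (nat_lit 78) (PT.lf (nat_lit 24624) (nat_lit 6) (nat_lit 324) (nat_lit 1) (nat_lit 215) (nat_lit 150) (nat_lit 205)) (PT.lf (nat_lit 24548) (nat_lit 6) (nat_lit 323) (nat_lit 1) (nat_lit 216) (nat_lit 150) (nat_lit 204)))) (PT.nd (nat_lit 58110) (PT.nd (nat_lit 78) (PT.lf (nat_lit 24472) (nat_lit 6) (nat_lit 322) (nat_lit 1) (nat_lit 217) (nat_lit 150) (nat_lit 203)) (PT.lf (nat_lit 24396) (nat_lit 6) (nat_lit 321) (nat_lit 1) (nat_lit 218) (nat_lit 150) (nat_lit 202))) (PT.nd (nat_lit 78) (PT.lf (nat_lit 25080) (nat_lit 6) (nat_lit 330) (nat_lit 3) (nat_lit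 201) (nat_lit 151) (nat_lit 218)) (PT.lf (nat_lit 25156) (nat_lit 6) (nat_lit 331) (nat_lit 3) (nat_lit 202) (nat_lit 151) (nat_lit 217)))))) (PT.nd (nat_lit 624) (PT.nd (nat_lit 312) (PT.nd (nat_lit 156) (PT.nd (nat_lit 78) (PT.lf (nat_lit 25232) (nat_lit 6) (nat_lit 332) (nat_lit 3) (nat_lit 203) (nat_lit 151) (nat_lit 216)) (PT.lf (nat_lit 25308) (nat_lit 6) (nat_lit 333) (nat_lit 3) (nat_lit 204) (nat_lit 151) (nat_lit 215))) (PT.nd (nat_lit 78) (PT.lf (nat_lit 25384) (nat_lit 6) (nat_lit 334) (nat_lit 3) (nat_lit 205) (nat_lit 151) (nat_lit 214)) (PT.lf (nat_lit 25460) (nat_lit 6) (nat_lit 335) (nat_lit 3) (nat_lit 206) (nat_lit 151) (nat_lit 213)))) (PT.nd (nat_lit 156) (PT.nd (nat_lit 78) (PT.lf (nat_lit 25536) (nat_lit 6) (nat_lit 336) (nat_lit 3) (nat_lit 207) (nat_lit 151) (nat_lit 212)) (PT.lf (nat_lit 25612) (nat_lit 6) (nat_lit 337) (nat_lit 3) (nat_lit 208) (nat_lit 151) (nat_lit 211))) (PT.nd (nat_lit 78) (PT.lf (nat_lit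 25688) (nat_lit 6) (nat_lit 338) (nat_lit 3) (nat_lit 209) (nat_lit 151) (nat_lit 210)) (PT.lf (nat_lit 25688) (nat_lit 6) (nat_lit 338) (nat_lit 1) (nat_lit 210) (nat_lit 151) (nat_lit 209))))) (PT.nd (nat_lit 312) (PT.nd (nat_lit 156) (PT.nd (nat_lit 78) (PT.lf (nat_lit 25612) (nat_lit 6) (nat_lit 337) (nat_lit 1) (nat_lit 211) (nat_lit 151) (nat_lit 208)) (PT.lf (nat_lit 25536) (nat_lit 6) (nat_lit 336) (nat_lit 1) (nat_lit 212) (nat_lit 151) (nat_lit 207))) (PT.nd (nat_lit 78) (PT.lf (nat_lit 25460) (nat_lit 6) (nat_lit 335) (nat_lit 1) (nat_lit 213) (nat_lit 151) (nat_lit 206)) (PT.lf (nat_lit 25384) (nat_lit 6) (nat_lit 334) (nat_lit 1) (nat_lit 214) (nat_lit 151) (nat_lit 205)))) (PT.nd (nat_lit 156) (PT.nd (nat_lit 78) (PT.lf (nat_lit 25308) (nat_lit 6) (nat_lit 333) (nat_lit 1) (nat_lit 215) (nat_lit 151) (nat_lit 204)) (PT.lf (nat_lit 25232) (nat_lit 6) (nat_lit 332) (nat_lit 1) (nat_lit 216) (nat_lit 151) (nat_lit 203))) (PT.nd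 (nat_lit 78) (PT.lf (nat_lit 25156) (nat_lit 6) (nat_lit 331) (nat_lit 1) (nat_lit 217) (nat_lit 151) (nat_lit 202)) (PT.nd (nat_lit 57954) (PT.lf (nat_lit 25080) (nat_lit 6) (nat_lit 330) (nat_lit 1) (nat_lit 218) (nat_lit 151) (nat_lit 201)) (PT.lf (nat_lit 25764) (nat_lit 6) (nat_lit 339) (nat_lit 3) (nat_lit 200) (nat_lit 152) (nat_lit 218))))))))
noncomputable def pc15 : PT := (PT.nd (nat_lit 1248) (PT.nd (nat_lit 624) (PT.nd (nat_lit 312) (PT.nd (nat_lit 156) (PT.nd (nat_lit 78) (PT.lf (nat_lit 25840) (nat_lit 6) (nat_lit 340) (nat_lit 3) (nat_lit 201) (nat_lit 152) (nat_lit 217)) (PT.lf (nat_lit 25916) (nat_lit 6) (nat_lit 341) (nat_lit 3) (nat_lit 202) (nat_lit 152) (nat_lit 216))) (PT.nd (nat_lit 78) (PT.lf (nat_lit 25992) (nat_lit 6) (nat_lit 342) (nat_lit 3) (nat_lit 203) (nat_lit 152) (nat_lit 215)) (PT.lf (nat_lit 26068) (nat_lit 6) (nat_lit 343) (nat_lit 3) (nat_lit 204) (nat_lit 152) (nat_lit 214)))) (PT.nd (nat_lit 156)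 (PT.nd (nat_lit 78) (PT.lf (nat_lit 26144) (nat_lit 6) (nat_lit 344) (nat_lit 3) (nat_lit 205) (nat_lit 152) (nat_lit 213)) (PT.lf (nat_lit 26220) (nat_lit 6) (nat_lit 345) (nat_lit 3) (nat_lit 206) (nat_lit 152) (nat_lit 212))) (PT.nd (nat_lit 78) (PT.lf (nat_lit 26296) (nat_lit 6) (nat_lit 346) (nat_lit 3) (nat_lit 207) (nat_lit 152) (nat_lit 211)) (PT.lf (nat_lit 26372) (nat_lit 6) (nat_lit 347) (nat_lit 3) (nat_lit 208) (nat_lit 152) (nat_lit 210))))) (PT.nd (nat_lit 312) (PT.nd (nat_lit 156) (PT.nd (nat_lit 78) (PT.lf (nat_lit 26448) (nat_lit 3) (nat_lit 348) (nat_lit 1) (nat_lit 209) (nat_lit 152) (nat_lit 209)) (PT.lf (nat_lit 26372) (nat_lit 6) (nat_lit 347) (nat_lit 1) (nat_lit 210) (nat_lit 152) (nat_lit 208))) (PT.nd (nat_lit 78) (PT.lf (nat_lit 26296) (nat_lit 6) (nat_lit 346) (nat_lit 1) (nat_lit 211) (nat_lit 152) (nat_lit 207)) (PT.lf (nat_lit 26220) (nat_lit 6) (nat_lit 345) (nat_lit 1) (nat_lit 212) (nat_lit 152) (nat_lit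 206)))) (PT.nd (nat_lit 156) (PT.nd (nat_lit 78) (PT.lf (nat_lit 26144) (nat_lit 6) (nat_lit 344) (nat_lit 1) (nat_lit 213) (nat_lit 152) (nat_lit 205)) (PT.lf (nat_lit 26068) (nat_lit 6) (nat_lit 343) (nat_lit 1) (nat_lit 214) (nat_lit 152) (nat_lit 204))) (PT.nd (nat_lit 78) (PT.lf (nat_lit 25992) (nat_lit 6) (nat_lit 342) (nat_lit 1) (nat_lit 215) (nat_lit 152) (nat_lit 203)) (PT.lf (nat_lit 25916) (nat_lit 6) (nat_lit 341) (nat_lit 1) (nat_lit 216) (nat_lit 152) (nat_lit 202)))))) (PT.nd (nat_lit 58500) (PT.nd (nat_lit 58188) (PT.nd (nat_lit 58032) (PT.nd (nat_lit 78) (PT.lf (nat_lit 25840) (nat_lit 6) (nat_lit 340) (nat_lit 1) (nat_lit 217) (nat_lit 152) (nat_lit 201)) (PT.lf (nat_lit 25764) (nat_lit 6) (nat_lit 339) (nat_lit 1) (nat_lit 218) (nat_lit 152) (nat_lit 200))) (PT.nd (nat_lit 78) (PT.lf (nat_lit 26524) (nat_lit 6) (nat_lit 349) (nat_lit 3) (nat_lit 200) (nat_lit 153) (nat_lit 217)) (PT.lf (nat_lit 26600) (nat_lit 6) (nat_lit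 350) (nat_lit 3) (nat_lit 201) (nat_lit 153) (nat_lit 216)))) (PT.nd (nat_lit 156) (PT.nd (nat_lit 78) (PT.lf (nat_lit 26676) (nat_lit 6) (nat_lit 351) (nat_lit 3) (nat_lit 202) (nat_lit 153) (nat_lit 215)) (PT.lf (nat_lit 26752) (nat_lit 6) (nat_lit 352) (nat_lit 3) (nat_lit 203) (nat_lit 153) (nat_lit 214))) (PT.nd (nat_lit 78) (PT.lf (nat_lit 26828) (nat_lit 6) (nat_lit 353) (nat_lit 3) (nat_lit 204) (nat_lit 153) (nat_lit 213)) (PT.lf (nat_lit 26904) (nat_lit 6) (nat_lit 354) (nat_lit 3) (nat_lit 205) (nat_lit 153) (nat_lit 212))))) (PT.nd (nat_lit 312) (PT.nd (nat_lit 156) (PT.nd (nat_lit 78) (PT.lf (nat_lit 26980) (nat_lit 6) (nat_lit 355) (nat_lit 3) (nat_lit 206) (nat_lit 153) (nat_lit 211)) (PT.lf (nat_lit 27056) (nat_lit 6) (nat_lit 356) (nat_lit 3) (nat_lit 207) (nat_lit 153) (nat_lit 210))) (PT.nd (nat_lit 78) (PT.lf (nat_lit 27132) (nat_lit 6) (nat_lit 357) (nat_lit 3) (nat_lit 208) (nat_lit 153) (nat_lit 209)) (PT.lf (nat_lit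 27132) (nat_lit 6) (nat_lit 357) (nat_lit 1) (nat_lit 209) (nat_lit 153) (nat_lit 208)))) (PT.nd (nat_lit 156) (PT.nd (nat_lit 78) (PT.lf (nat_lit 27056) (nat_lit 6) (nat_lit 356) (nat_lit 1) (nat_lit 210) (nat_lit 153) (nat_lit 207)) (PT.lf (nat_lit 26980) (nat_lit 6) (nat_lit 355) (nat_lit 1) (nat_lit 211) (nat_lit 153) (nat_lit 206))) (PT.nd (nat_lit 78) (PT.lf (nat_lit 26904) (nat_lit 6) (nat_lit 354) (nat_lit 1) (nat_lit 212) (nat_lit 153) (nat_lit 205)) (PT.nd (nat_lit 78) (PT.lf (nat_lit 26828) (nat_lit 6) (nat_lit 353) (nat_lit 1) (nat_lit 213) (nat_lit 153) (nat_lit 204)) (PT.lf (nat_lit 26752) (nat_lit 6) (nat_lit 352) (nat_lit 1) (nat_lit 214) (nat_lit 153) (nat_lit 203))))))))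
noncomputable def pc16 : PT := (PT.nd (nat_lit 59124) (PT.nd (nat_lit 58500) (PT.nd (nat_lit 58188) (PT.nd (nat_lit 156) (PT.nd (nat_lit 78) (PT.lf (nat_lit 26676) (nat_lit 6) (nat_lit 351) (nat_lit 1) (nat_lit 215) (nat_lit 153) (nat_lit 202)) (PT.lf (nat_lit 26600) (nat_lit 6) (nat_lit 350) (nat_lit 1) (nat_lit 216) (nat_lit 153) (nat_lit 201))) (PT.nd (nat_lit 57954) (PT.lf (nat_lit 26524) (nat_lit 6) (nat_lit 349) (nat_lit 1) (nat_lit 217) (nat_lit 153) (nat_lit 200)) (PT.lf (nat_lit 27208) (nat_lit 6) (nat_lit 358) (nat_lit 3) (nat_lit 199) (nat_lit 154) (nat_lit 217)))) (PT.nd (nat_lit 156) (PT.nd (nat_lit 78) (PT.lf (nat_lit 27284) (nat_lit 6) (nat_lit 359) (nat_lit 3) (nat_lit 200) (nat_lit 154) (nat_lit 216)) (PT.lf (nat_lit 27360) (nat_lit 6) (nat_lit 360) (nat_lit 3) (nat_lit 201) (nat_lit 154) (nat_lit 215))) (PT.nd (nat_lit 78) (PT.lf (nat_lit 27436) (nat_lit 6) (nat_lit 361) (nat_lit 3) (nat_lit 202) (nat_lit 154) (nat_lit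 214)) (PT.lf (nat_lit 27512) (nat_lit 6) (nat_lit 362) (nat_lit 3) (nat_lit 203) (nat_lit 154) (nat_lit 213))))) (PT.nd (nat_lit 312) (PT.nd (nat_lit 156) (PT.nd (nat_lit 78) (PT.lf (nat_lit 27588) (nat_lit 6) (nat_lit 363) (nat_lit 3) (nat_lit 204) (nat_lit 154) (nat_lit 212)) (PT.lf (nat_lit 27664) (nat_lit 6) (nat_lit 364) (nat_lit 3) (nat_lit 205) (nat_lit 154) (nat_lit 211))) (PT.nd (nat_lit 78) (PT.lf (nat_lit 27740) (nat_lit 6) (nat_lit 365) (nat_lit 3) (nat_lit 206) (nat_lit 154) (nat_lit 210)) (PT.lf (nat_lit 27816) (nat_lit 6) (nat_lit 366) (nat_lit 3) (nat_lit 207) (nat_lit 154) (nat_lit 209)))) (PT.nd (nat_lit 156) (PT.nd (nat_lit 78) (PT.lf (nat_lit 27892) (nat_lit 3) (nat_lit 367) (nat_lit 1) (nat_lit 208) (nat_lit 154) (nat_lit 208)) (PT.lf (nat_lit 27816) (nat_lit 6) (nat_lit 366) (nat_lit 1) (nat_lit 209) (nat_lit 154) (nat_lit 207))) (PT.nd (nat_lit 78) (PT.lf (nat_lit 27740) (nat_lit 6) (nat_lit 365) (nat_lit 1) (nat_lit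 210) (nat_lit 154) (nat_lit 206)) (PT.lf (nat_lit 27664) (nat_lit 6) (nat_lit 364) (nat_lit 1) (nat_lit 211) (nat_lit 154) (nat_lit 205)))))) (PT.nd (nat_lit 58422) (PT.nd (nat_lit 312) (PT.nd (nat_lit 156) (PT.nd (nat_lit 78) (PT.lf (nat_lit 27588) (nat_lit 6) (nat_lit 363) (nat_lit 1) (nat_lit 212) (nat_lit 154) (nat_lit 204)) (PT.lf (nat_lit 27512) (nat_lit 6) (nat_lit 362) (nat_lit 1) (nat_lit 213) (nat_lit 154) (nat_lit 203))) (PT.nd (nat_lit 78) (PT.lf (nat_lit 27436) (nat_lit 6) (nat_lit 361) (nat_lit 1) (nat_lit 214) (nat_lit 154) (nat_lit 202)) (PT.lf (nat_lit 27360) (nat_lit 6) (nat_lit 360) (nat_lit 1) (nat_lit 215) (nat_lit 154) (nat_lit 201)))) (PT.nd (nat_lit 57954) (PT.nd (nat_lit 78) (PT.lf (nat_lit 27284) (nat_lit 6) (nat_lit 359) (nat_lit 1) (nat_lit 216) (nat_lit 154) (nat_lit 200)) (PT.lf (nat_lit 27208) (nat_lit 6) (nat_lit 358) (nat_lit 1) (nat_lit 217) (nat_lit 154) (nat_lit 199))) (PT.nd (nat_lit 78) (PT.lf (nat_lit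 27968) (nat_lit 6) (nat_lit 368) (nat_lit 3) (nat_lit 198) (nat_lit 155) (nat_lit 217)) (PT.lf (nat_lit 28044) (nat_lit 6) (nat_lit 369) (nat_lit 3) (nat_lit 199) (nat_lit 155) (nat_lit 216))))) (PT.nd (nat_lit 312) (PT.nd (nat_lit 156) (PT.nd (nat_lit 78) (PT.lf (nat_lit 28120) (nat_lit 6) (nat_lit 370) (nat_lit 3) (nat_lit 200) (nat_lit 155) (nat_lit 215)) (PT.lf (nat_lit 28196) (nat_lit 6) (nat_lit 371) (nat_lit 3) (nat_lit 201) (nat_lit 155) (nat_lit 214))) (PT.nd (nat_lit 78) (PT.lf (nat_lit 28272) (nat_lit 6) (nat_lit 372) (nat_lit 3) (nat_lit 202) (nat_lit 155) (nat_lit 213)) (PT.lf (nat_lit 28348) (nat_lit 6) (nat_lit 373) (nat_lit 3) (nat_lit 203) (nat_lit 155) (nat_lit 212)))) (PT.nd (nat_lit 156) (PT.nd (nat_lit 78) (PT.lf (nat_lit 28424) (nat_lit 6) (nat_lit 374) (nat_lit 3) (nat_lit 204) (nat_lit 155) (nat_lit 211)) (PT.lf (nat_lit 28500) (nat_lit 6) (nat_lit 375) (nat_lit 3) (nat_lit 205) (nat_lit 155) (nat_lit 210))) (PT.nd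 (nat_lit 78) (PT.lf (nat_lit 28576) (nat_lit 6) (nat_lit 376) (nat_lit 3) (nat_lit 206) (nat_lit 155) (nat_lit 209)) (PT.lf (nat_lit 28652) (nat_lit 6) (nat_lit 377) (nat_lit 3) (nat_lit 207) (nat_lit 155) (nat_lit 208)))))))
noncomputable def pc17 : PT := (PT.nd (nat_lit 58968) (PT.nd (nat_lit 624) (PT.nd (nat_lit 312) (PT.nd (nat_lit 156) (PT.nd (nat_lit 78) (PT.lf (nat_lit 28652) (nat_lit 6) (nat_lit 377) (nat_lit 1) (nat_lit 208) (nat_lit 155) (nat_lit 207)) (PT.lf (nat_lit 28576) (nat_lit 6) (nat_lit 376) (nat_lit 1) (nat_lit 209) (nat_lit 155) (nat_lit 206))) (PT.nd (nat_lit 78) (PT.lf (nat_lit 28500) (nat_lit 6) (nat_lit 375) (nat_lit 1) (nat_lit 210) (nat_lit 155) (nat_lit 205)) (PT.lf (nat_lit 28424) (nat_lit 6) (nat_lit 374) (nat_lit 1) (nat_lit 211) (nat_lit 155) (nat_lit 204)))) (PT.nd (nat_lit 156) (PT.nd (nat_lit 78) (PT.lf (nat_lit 28348) (nat_lit 6) (nat_lit 373) (nat_lit 1) (nat_lit 212) (nat_lit 155) (nat_lit 203)) (PT.lf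 (nat_lit 28272) (nat_lit 6) (nat_lit 372) (nat_lit 1) (nat_lit 213) (nat_lit 155) (nat_lit 202))) (PT.nd (nat_lit 78) (PT.lf (nat_lit 28196) (nat_lit 6) (nat_lit 371) (nat_lit 1) (nat_lit 214) (nat_lit 155) (nat_lit 201)) (PT.lf (nat_lit 28120) (nat_lit 6) (nat_lit 370) (nat_lit 1) (nat_lit 215) (nat_lit 155) (nat_lit 200))))) (PT.nd (nat_lit 58032) (PT.nd (nat_lit 57876) (PT.nd (nat_lit 78) (PT.lf (nat_lit 28044) (nat_lit 6) (nat_lit 369) (nat_lit 1) (nat_lit 216) (nat_lit 155) (nat_lit 199)) (PT.lf (nat_lit 27968) (nat_lit 6) (nat_lit 368) (nat_lit 1) (nat_lit 217) (nat_lit 155) (nat_lit 198))) (PT.nd (nat_lit 78) (PT.lf (nat_lit 28728) (nat_lit 6) (nat_lit 378) (nat_lit 3) (nat_lit 197) (nat_lit 156) (nat_lit 217)) (PT.lf (nat_lit 28804) (nat_lit 6) (nat_lit 379) (nat_lit 3) (nat_lit 198) (nat_lit 156) (nat_lit 216)))) (PT.nd (nat_lit 156) (PT.nd (nat_lit 78) (PT.lf (nat_lit 28880) (nat_lit 6) (nat_lit 380) (nat_lit 3) (nat_lit 199)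 (nat_lit 156) (nat_lit 215)) (PT.lf (nat_lit 28956) (nat_lit 6) (nat_lit 381) (nat_lit 3) (nat_lit 200) (nat_lit 156) (nat_lit 214))) (PT.nd (nat_lit 78) (PT.lf (nat_lit 29032) (nat_lit 6) (nat_lit 382) (nat_lit 3) (nat_lit 201) (nat_lit 156) (nat_lit 213)) (PT.lf (nat_lit 29108) (nat_lit 6) (nat_lit 383) (nat_lit 3) (nat_lit 202) (nat_lit 156) (nat_lit 212)))))) (PT.nd (nat_lit 624) (PT.nd (nat_lit 312) (PT.nd (nat_lit 156) (PT.nd (nat_lit 78) (PT.lf (nat_lit 29184) (nat_lit 6) (nat_lit 384) (nat_lit 3) (nat_lit 203) (nat_lit 156) (nat_lit 211)) (PT.lf (nat_lit 29260) (nat_lit 6) (nat_lit 385) (nat_lit 3) (nat_lit 204) (nat_lit 156) (nat_lit 210))) (PT.nd (nat_lit 78) (PT.lf (nat_lit 29336) (nat_lit 6) (nat_lit 386) (nat_lit 3) (nat_lit 205) (nat_lit 156) (nat_lit 209)) (PT.lf (nat_lit 29412) (nat_lit 6) (nat_lit 387) (nat_lit 3) (nat_lit 206) (nat_lit 156) (nat_lit 208)))) (PT.nd (nat_lit 156) (PT.nd (nat_lit 78) (PT.lf (nat_lit 29488)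 (nat_lit 3) (nat_lit 388) (nat_lit 1) (nat_lit 207) (nat_lit 156) (nat_lit 207)) (PT.lf (nat_lit 29412) (nat_lit 6) (nat_lit 387) (nat_lit 1) (nat_lit 208) (nat_lit 156) (nat_lit 206))) (PT.nd (nat_lit 78) (PT.lf (nat_lit 29336) (nat_lit 6) (nat_lit 386) (nat_lit 1) (nat_lit 209) (nat_lit 156) (nat_lit 205)) (PT.lf (nat_lit 29260) (nat_lit 6) (nat_lit 385) (nat_lit 1) (nat_lit 210) (nat_lit 156) (nat_lit 204))))) (PT.nd (nat_lit 312) (PT.nd (nat_lit 156) (PT.nd (nat_lit 78) (PT.lf (nat_lit 29184) (nat_lit 6) (nat_lit 384) (nat_lit 1) (nat_lit 211) (nat_lit 156) (nat_lit 203)) (PT.lf (nat_lit 29108) (nat_lit 6) (nat_lit 383) (nat_lit 1) (nat_lit 212) (nat_lit 156) (nat_lit 202))) (PT.nd (nat_lit 78) (PT.lf (nat_lit 29032) (nat_lit 6) (nat_lit 382) (nat_lit 1) (nat_lit 213) (nat_lit 156) (nat_lit 201)) (PT.lf (nat_lit 28956) (nat_lit 6) (nat_lit 381) (nat_lit 1) (nat_lit 214) (nat_lit 156) (nat_lit 200)))) (PT.nd (nat_lit 156) (PT.nd (nat_lit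 78) (PT.lf (nat_lit 28880) (nat_lit 6) (nat_lit 380) (nat_lit 1) (nat_lit 215) (nat_lit 156) (nat_lit 199)) (PT.lf (nat_lit 28804) (nat_lit 6) (nat_lit 379) (nat_lit 1) (nat_lit 216) (nat_lit 156) (nat_lit 198))) (PT.nd (nat_lit 57798) (PT.lf (nat_lit 28728) (nat_lit 6) (nat_lit 378) (nat_lit 1) (nat_lit 217) (nat_lit 156) (nat_lit 197)) (PT.nd (nat_lit 78) (PT.lf (nat_lit 29564) (nat_lit 6) (nat_lit 389) (nat_lit 3) (nat_lit 197) (nat_lit 157) (nat_lit 216)) (PT.lf (nat_lit 29640) (nat_lit 6) (nat_lit 390) (nat_lit 3) (nat_lit 198) (nat_lit 157) (nat_lit 215))))))))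
noncomputable def pc18 : PT := (PT.nd (nat_lit 1248) (PT.nd (nat_lit 624) (PT.nd (nat_lit 312) (PT.nd (nat_lit 156) (PT.nd (nat_lit 78) (PT.lf (nat_lit 29716) (nat_lit 6) (nat_lit 391) (nat_lit 3) (nat_lit 199) (nat_lit 157) (nat_lit 214)) (PT.lf (nat_lit 29792) (nat_lit 6) (nat_lit 392) (nat_lit 3) (nat_lit 200) (nat_lit 157) (nat_lit 213))) (PT.nd (nat_lit 78) (PT.lf (nat_lit 29868) (nat_lit 6) (nat_lit 393) (nat_lit 3) (nat_lit 201) (nat_lit 157) (nat_lit 212)) (PT.lf (nat_lit 29944) (nat_lit 6) (nat_lit 394) (nat_lit 3) (nat_lit 202) (nat_lit 157) (nat_lit 211)))) (PT.nd (nat_lit 156) (PT.nd (nat_lit 78) (PT.lf (nat_lit 30020) (nat_lit 6) (nat_lit 395) (nat_lit 3) (nat_lit 203) (nat_lit 157) (nat_lit 210)) (PT.lf (nat_lit 30096) (nat_lit 6) (nat_lit 396) (nat_lit 3) (nat_lit 204) (nat_lit 157) (nat_lit 209))) (PT.nd (nat_lit 78) (PT.lf (nat_lit 30172) (nat_lit 6) (nat_lit 397) (nat_lit 3) (nat_lit 205) (nat_lit 157) (nat_lit 208))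 (PT.lf (nat_lit 30248) (nat_lit 6) (nat_lit 398) (nat_lit 3) (nat_lit 206) (nat_lit 157) (nat_lit 207))))) (PT.nd (nat_lit 312) (PT.nd (nat_lit 156) (PT.nd (nat_lit 78) (PT.lf (nat_lit 30248) (nat_lit 6) (nat_lit 398) (nat_lit 1) (nat_lit 207) (nat_lit 157) (nat_lit 206)) (PT.lf (nat_lit 30172) (nat_lit 6) (nat_lit 397) (nat_lit 1) (nat_lit 208) (nat_lit 157) (nat_lit 205))) (PT.nd (nat_lit 78) (PT.lf (nat_lit 30096) (nat_lit 6) (nat_lit 396) (nat_lit 1) (nat_lit 209) (nat_lit 157) (nat_lit 204)) (PT.lf (nat_lit 30020) (nat_lit 6) (nat_lit 395) (nat_lit 1) (nat_lit 210) (nat_lit 157) (nat_lit 203)))) (PT.nd (nat_lit 156) (PT.nd (nat_lit 78) (PT.lf (nat_lit 29944) (nat_lit 6) (nat_lit 394) (nat_lit 1) (nat_lit 211) (nat_lit 157) (nat_lit 202)) (PT.lf (nat_lit 29868) (nat_lit 6) (nat_lit 393) (nat_lit 1) (nat_lit 212) (nat_lit 157) (nat_lit 201))) (PT.nd (nat_lit 78) (PT.lf (nat_lit 29792) (nat_lit 6) (nat_lit 392) (nat_lit 1) (nat_lit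 213) (nat_lit 157) (nat_lit 200)) (PT.lf (nat_lit 29716) (nat_lit 6) (nat_lit 391) (nat_lit 1) (nat_lit 214) (nat_lit 157) (nat_lit 199)))))) (PT.nd (nat_lit 58344) (PT.nd (nat_lit 58032) (PT.nd (nat_lit 57876) (PT.nd (nat_lit 78) (PT.lf (nat_lit 29640) (nat_lit 6) (nat_lit 390) (nat_lit 1) (nat_lit 215) (nat_lit 157) (nat_lit 198)) (PT.lf (nat_lit 29564) (nat_lit 6) (nat_lit 389) (nat_lit 1) (nat_lit 216) (nat_lit 157) (nat_lit 197))) (PT.nd (nat_lit 78) (PT.lf (nat_lit 30324) (nat_lit 6) (nat_lit 399) (nat_lit 3) (nat_lit 196) (nat_lit 158) (nat_lit 216)) (PT.lf (nat_lit 30400) (nat_lit 6) (nat_lit 400) (nat_lit 3) (nat_lit 197) (nat_lit 158) (nat_lit 215)))) (PT.nd (nat_lit 156) (PT.nd (nat_lit 78) (PT.lf (nat_lit 30476) (nat_lit 6) (nat_lit 401) (nat_lit 3) (nat_lit 198) (nat_lit 158) (nat_lit 214)) (PT.lf (nat_lit 30552) (nat_lit 6) (nat_lit 402) (nat_lit 3) (nat_lit 199) (nat_lit 158) (nat_lit 213))) (PT.nd (nat_lit 78) (PT.lf (nat_lit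 30628) (nat_lit 6) (nat_lit 403) (nat_lit 3) (nat_lit 200) (nat_lit 158) (nat_lit 212)) (PT.lf (nat_lit 30704) (nat_lit 6) (nat_lit 404) (nat_lit 3) (nat_lit 201) (nat_lit 158) (nat_lit 211))))) (PT.nd (nat_lit 312) (PT.nd (nat_lit 156) (PT.nd (nat_lit 78) (PT.lf (nat_lit 30780) (nat_lit 6) (nat_lit 405) (nat_lit 3) (nat_lit 202) (nat_lit 158) (nat_lit 210)) (PT.lf (nat_lit 30856) (nat_lit 6) (nat_lit 406) (nat_lit 3) (nat_lit 203) (nat_lit 158) (nat_lit 209))) (PT.nd (nat_lit 78) (PT.lf (nat_lit 30932) (nat_lit 6) (nat_lit 407) (nat_lit 3) (nat_lit 204) (nat_lit 158) (nat_lit 208)) (PT.lf (nat_lit 31008) (nat_lit 6) (nat_lit 408) (nat_lit 3) (nat_lit 205) (nat_lit 158) (nat_lit 207)))) (PT.nd (nat_lit 156) (PT.nd (nat_lit 78) (PT.lf (nat_lit 31084) (nat_lit 3) (nat_lit 409) (nat_lit 1) (nat_lit 206) (nat_lit 158) (nat_lit 206)) (PT.lf (nat_lit 31008) (nat_lit 6) (nat_lit 408) (nat_lit 1) (nat_lit 207) (nat_lit 158) (nat_lit 205))) (PT.nd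 (nat_lit 78) (PT.lf (nat_lit 30932) (nat_lit 6) (nat_lit 407) (nat_lit 1) (nat_lit 208) (nat_lit 158) (nat_lit 204)) (PT.nd (nat_lit 78) (PT.lf (nat_lit 30856) (nat_lit 6) (nat_lit 406) (nat_lit 1) (nat_lit 209) (nat_lit 158) (nat_lit 203)) (PT.lf (nat_lit 30780) (nat_lit 6) (nat_lit 405) (nat_lit 1) (nat_lit 210) (nat_lit 158) (nat_lit 202))))))))
noncomputable def pc19 : PT := (PT.nd (nat_lit 58890) (PT.nd (nat_lit 58266) (PT.nd (nat_lit 312) (PT.nd (nat_lit 156) (PT.nd (nat_lit 78) (PT.lf (nat_lit 30704) (nat_lit 6) (nat_lit 404) (nat_lit 1) (nat_lit 211) (nat_lit 158) (nat_lit 201)) (PT.lf (nat_lit 30628) (nat_lit 6) (nat_lit 403) (nat_lit 1) (nat_lit 212) (nat_lit 158) (nat_lit 200))) (PT.nd (nat_lit 78) (PT.lf (nat_lit 30552) (nat_lit 6) (nat_lit 402) (nat_lit 1) (nat_lit 213) (nat_lit 158) (nat_lit 199)) (PT.lf (nat_lit 30476) (nat_lit 6) (nat_lit 401) (nat_lit 1) (nat_lit 214) (nat_lit 158) (nat_lit 198)))) (PT.nd (nat_lit 57798)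 (PT.nd (nat_lit 78) (PT.lf (nat_lit 30400) (nat_lit 6) (nat_lit 400) (nat_lit 1) (nat_lit 215) (nat_lit 158) (nat_lit 197)) (PT.lf (nat_lit 30324) (nat_lit 6) (nat_lit 399) (nat_lit 1) (nat_lit 216) (nat_lit 158) (nat_lit 196))) (PT.nd (nat_lit 78) (PT.lf (nat_lit 31160) (nat_lit 6) (nat_lit 410) (nat_lit 3) (nat_lit 195) (nat_lit 159) (nat_lit 216)) (PT.lf (nat_lit 31236) (nat_lit 6) (nat_lit 411) (nat_lit 3) (nat_lit 196) (nat_lit 159) (nat_lit 215))))) (PT.nd (nat_lit 312) (PT.nd (nat_lit 156) (PT.nd (nat_lit 78) (PT.lf (nat_lit 31312) (nat_lit 6) (nat_lit 412) (nat_lit 3) (nat_lit 197) (nat_lit 159) (nat_lit 214)) (PT.lf (nat_lit 31388) (nat_lit 6) (nat_lit 413) (nat_lit 3) (nat_lit 198) (nat_lit 159) (nat_lit 213))) (PT.nd (nat_lit 78) (PT.lf (nat_lit 31464) (nat_lit 6) (nat_lit 414) (nat_lit 3) (nat_lit 199) (nat_lit 159) (nat_lit 212)) (PT.lf (nat_lit 31540) (nat_lit 6) (nat_lit 415) (nat_lit 3) (nat_lit 200) (nat_lit 159) (nat_lit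 211)))) (PT.nd (nat_lit 156) (PT.nd (nat_lit 78) (PT.lf (nat_lit 31616) (nat_lit 6) (nat_lit 416) (nat_lit 3) (nat_lit 201) (nat_lit 159) (nat_lit 210)) (PT.lf (nat_lit 31692) (nat_lit 6) (nat_lit 417) (nat_lit 3) (nat_lit 202) (nat_lit 159) (nat_lit 209))) (PT.nd (nat_lit 78) (PT.lf (nat_lit 31768) (nat_lit 6) (nat_lit 418) (nat_lit 3) (nat_lit 203) (nat_lit 159) (nat_lit 208)) (PT.lf (nat_lit 31844) (nat_lit 6) (nat_lit 419) (nat_lit 3) (nat_lit 204) (nat_lit 159) (nat_lit 207)))))) (PT.nd (nat_lit 624) (PT.nd (nat_lit 312) (PT.nd (nat_lit 156) (PT.nd (nat_lit 78) (PT.lf (nat_lit 31920) (nat_lit 6) (nat_lit 420) (nat_lit 3) (nat_lit 205) (nat_lit 159) (nat_lit 206)) (PT.lf (nat_lit 31920) (nat_lit 6) (nat_lit 420) (nat_lit 1) (nat_lit 206) (nat_lit 159) (nat_lit 205))) (PT.nd (nat_lit 78) (PT.lf (nat_lit 31844) (nat_lit 6) (nat_lit 419) (nat_lit 1) (nat_lit 207) (nat_lit 159) (nat_lit 204)) (PT.lf (nat_lit 31768) (nat_lit 6) (nat_lit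 418) (nat_lit 1) (nat_lit 208) (nat_lit 159) (nat_lit 203)))) (PT.nd (nat_lit 156) (PT.nd (nat_lit 78) (PT.lf (nat_lit 31692) (nat_lit 6) (nat_lit 417) (nat_lit 1) (nat_lit 209) (nat_lit 159) (nat_lit 202)) (PT.lf (nat_lit 31616) (nat_lit 6) (nat_lit 416) (nat_lit 1) (nat_lit 210) (nat_lit 159) (nat_lit 201))) (PT.nd (nat_lit 78) (PT.lf (nat_lit 31540) (nat_lit 6) (nat_lit 415) (nat_lit 1) (nat_lit 211) (nat_lit 159) (nat_lit 200)) (PT.lf (nat_lit 31464) (nat_lit 6) (nat_lit 414) (nat_lit 1) (nat_lit 212) (nat_lit 159) (nat_lit 199))))) (PT.nd (nat_lit 57876) (PT.nd (nat_lit 156) (PT.nd (nat_lit 78) (PT.lf (nat_lit 31388) (nat_lit 6) (nat_lit 413) (nat_lit 1) (nat_lit 213) (nat_lit 159) (nat_lit 198)) (PT.lf (nat_lit 31312) (nat_lit 6) (nat_lit 412) (nat_lit 1) (nat_lit 214) (nat_lit 159) (nat_lit 197))) (PT.nd (nat_lit 78) (PT.lf (nat_lit 31236) (nat_lit 6) (nat_lit 411) (nat_lit 1) (nat_lit 215) (nat_lit 159) (nat_lit 196)) (PT.lf (nat_lit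 31160) (nat_lit 6) (nat_lit 410) (nat_lit 1) (nat_lit 216) (nat_lit 159) (nat_lit 195)))) (PT.nd (nat_lit 156) (PT.nd (nat_lit 78) (PT.lf (nat_lit 31996) (nat_lit 6) (nat_lit 421) (nat_lit 3) (nat_lit 194) (nat_lit 160) (nat_lit 216)) (PT.lf (nat_lit 32072) (nat_lit 6) (nat_lit 422) (nat_lit 3) (nat_lit 195) (nat_lit 160) (nat_lit 215))) (PT.nd (nat_lit 78) (PT.lf (nat_lit 32148) (nat_lit 6) (nat_lit 423) (nat_lit 3) (nat_lit 196) (nat_lit 160) (nat_lit 214)) (PT.nd (nat_lit 78) (PT.lf (nat_lit 32224) (nat_lit 6) (nat_lit 424) (nat_lit 3) (nat_lit 197) (nat_lit 160) (nat_lit 213)) (PT.lf (nat_lit 32300) (nat_lit 6) (nat_lit 425) (nat_lit 3) (nat_lit 198) (nat_lit 160) (nat_lit 212))))))))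
noncomputable def pc20 : PT := (PT.nd (nat_lit 1248) (PT.nd (nat_lit 624) (PT.nd (nat_lit 312) (PT.nd (nat_lit 156) (PT.nd (nat_lit 78) (PT.lf (nat_lit 32376) (nat_lit 6) (nat_lit 426) (nat_lit 3) (nat_lit 199) (nat_lit 160) (nat_lit 211)) (PT.lf (nat_lit 32452) (nat_lit 6) (nat_lit 427) (nat_lit 3) (nat_lit 200) (nat_lit 160) (nat_lit 210))) (PT.nd (nat_lit 78) (PT.lf (nat_lit 32528) (nat_lit 6) (nat_lit 428) (nat_lit 3) (nat_lit 201) (nat_lit 160) (nat_lit 209)) (PT.lf (nat_lit 32604) (nat_lit 6) (nat_lit 429) (nat_lit 3) (nat_lit 202) (nat_lit 160) (nat_lit 208)))) (PT.nd (nat_lit 156) (PT.nd (nat_lit 78) (PT.lf (nat_lit 32680) (nat_lit 6) (nat_lit 430) (nat_lit 3) (nat_lit 203) (nat_lit 160) (nat_lit 207)) (PT.lf (nat_lit 32756) (nat_lit 6) (nat_lit 431) (nat_lit 3) (nat_lit 204) (nat_lit 160) (nat_lit 206))) (PT.nd (nat_lit 78) (PT.lf (nat_lit 32832) (nat_lit 3) (nat_lit 432) (nat_lit 1) (nat_lit 205) (nat_lit 160) (nat_lit 205))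 (PT.lf (nat_lit 32756) (nat_lit 6) (nat_lit 431) (nat_lit 1) (nat_lit 206) (nat_lit 160) (nat_lit 204))))) (PT.nd (nat_lit 312) (PT.nd (nat_lit 156) (PT.nd (nat_lit 78) (PT.lf (nat_lit 32680) (nat_lit 6) (nat_lit 430) (nat_lit 1) (nat_lit 207) (nat_lit 160) (nat_lit 203)) (PT.lf (nat_lit 32604) (nat_lit 6) (nat_lit 429) (nat_lit 1) (nat_lit 208) (nat_lit 160) (nat_lit 202))) (PT.nd (nat_lit 78) (PT.lf (nat_lit 32528) (nat_lit 6) (nat_lit 428) (nat_lit 1) (nat_lit 209) (nat_lit 160) (nat_lit 201)) (PT.lf (nat_lit 32452) (nat_lit 6) (nat_lit 427) (nat_lit 1) (nat_lit 210) (nat_lit 160) (nat_lit 200)))) (PT.nd (nat_lit 156) (PT.nd (nat_lit 78) (PT.lf (nat_lit 32376) (nat_lit 6) (nat_lit 426) (nat_lit 1) (nat_lit 211) (nat_lit 160) (nat_lit 199)) (PT.lf (nat_lit 32300) (nat_lit 6) (nat_lit 425) (nat_lit 1) (nat_lit 212) (nat_lit 160) (nat_lit 198))) (PT.nd (nat_lit 78) (PT.lf (nat_lit 32224) (nat_lit 6) (nat_lit 424) (nat_lit 1) (nat_lit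 213) (nat_lit 160) (nat_lit 197)) (PT.lf (nat_lit 32148) (nat_lit 6) (nat_lit 423) (nat_lit 1) (nat_lit 214) (nat_lit 160) (nat_lit 196)))))) (PT.nd (nat_lit 58110) (PT.nd (nat_lit 57798) (PT.nd (nat_lit 57642) (PT.nd (nat_lit 78) (PT.lf (nat_lit 32072) (nat_lit 6) (nat_lit 422) (nat_lit 1) (nat_lit 215) (nat_lit 160) (nat_lit 195)) (PT.lf (nat_lit 31996) (nat_lit 6) (nat_lit 421) (nat_lit 1) (nat_lit 216) (nat_lit 160) (nat_lit 194))) (PT.nd (nat_lit 78) (PT.lf (nat_lit 32908) (nat_lit 6) (nat_lit 433) (nat_lit 3) (nat_lit 193) (nat_lit 161) (nat_lit 216)) (PT.lf (nat_lit 32984) (nat_lit 6) (nat_lit 434) (nat_lit 3) (nat_lit 194) (nat_lit 161) (nat_lit 215)))) (PT.nd (nat_lit 156) (PT.nd (nat_lit 78) (PT.lf (nat_lit 33060) (nat_lit 6) (nat_lit 435) (nat_lit 3) (nat_lit 195) (nat_lit 161) (nat_lit 214)) (PT.lf (nat_lit 33136) (nat_lit 6) (nat_lit 436) (nat_lit 3) (nat_lit 196) (nat_lit 161) (nat_lit 213))) (PT.nd (nat_lit 78) (PT.lf (nat_lit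 33212) (nat_lit 6) (nat_lit 437) (nat_lit 3) (nat_lit 197) (nat_lit 161) (nat_lit 212)) (PT.lf (nat_lit 33288) (nat_lit 6) (nat_lit 438) (nat_lit 3) (nat_lit 198) (nat_lit 161) (nat_lit 211))))) (PT.nd (nat_lit 312) (PT.nd (nat_lit 156) (PT.nd (nat_lit 78) (PT.lf (nat_lit 33364) (nat_lit 6) (nat_lit 439) (nat_lit 3) (nat_lit 199) (nat_lit 161) (nat_lit 210)) (PT.lf (nat_lit 33440) (nat_lit 6) (nat_lit 440) (nat_lit 3) (nat_lit 200) (nat_lit 161) (nat_lit 209))) (PT.nd (nat_lit 78) (PT.lf (nat_lit 33516) (nat_lit 6) (nat_lit 441) (nat_lit 3) (nat_lit 201) (nat_lit 161) (nat_lit 208)) (PT.lf (nat_lit 33592) (nat_lit 6) (nat_lit 442) (nat_lit 3) (nat_lit 202) (nat_lit 161) (nat_lit 207)))) (PT.nd (nat_lit 156) (PT.nd (nat_lit 78) (PT.lf (nat_lit 33668) (nat_lit 6) (nat_lit 443) (nat_lit 3) (nat_lit 203) (nat_lit 161) (nat_lit 206)) (PT.lf (nat_lit 33744) (nat_lit 6) (nat_lit 444) (nat_lit 3) (nat_lit 204) (nat_lit 161) (nat_lit 205))) (PT.nd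 (nat_lit 78) (PT.lf (nat_lit 33744) (nat_lit 6) (nat_lit 444) (nat_lit 1) (nat_lit 205) (nat_lit 161) (nat_lit 204)) (PT.lf (nat_lit 33668) (nat_lit 6) (nat_lit 443) (nat_lit 1) (nat_lit 206) (nat_lit 161) (nat_lit 203)))))))
noncomputable def pc21 : PT := (PT.nd (nat_lit 58734) (PT.nd (nat_lit 624) (PT.nd (nat_lit 312) (PT.nd (nat_lit 156) (PT.nd (nat_lit 78) (PT.lf (nat_lit 33592) (nat_lit 6) (nat_lit 442) (nat_lit 1) (nat_lit 207) (nat_lit 161) (nat_lit 202)) (PT.lf (nat_lit 33516) (nat_lit 6) (nat_lit 441) (nat_lit 1) (nat_lit 208) (nat_lit 161) (nat_lit 201))) (PT.nd (nat_lit 78) (PT.lf (nat_lit 33440) (nat_lit 6) (nat_lit 440) (nat_lit 1) (nat_lit 209) (nat_lit 161) (nat_lit 200)) (PT.lf (nat_lit 33364) (nat_lit 6) (nat_lit 439) (nat_lit 1) (nat_lit 210) (nat_lit 161) (nat_lit 199)))) (PT.nd (nat_lit 156) (PT.nd (nat_lit 78) (PT.lf (nat_lit 33288) (nat_lit 6) (nat_lit 438) (nat_lit 1) (nat_lit 211) (nat_lit 161) (nat_lit 198)) (PT.lf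 (nat_lit 33212) (nat_lit 6) (nat_lit 437) (nat_lit 1) (nat_lit 212) (nat_lit 161) (nat_lit 197))) (PT.nd (nat_lit 78) (PT.lf (nat_lit 33136) (nat_lit 6) (nat_lit 436) (nat_lit 1) (nat_lit 213) (nat_lit 161) (nat_lit 196)) (PT.lf (nat_lit 33060) (nat_lit 6) (nat_lit 435) (nat_lit 1) (nat_lit 214) (nat_lit 161) (nat_lit 195))))) (PT.nd (nat_lit 57798) (PT.nd (nat_lit 57642) (PT.nd (nat_lit 78) (PT.lf (nat_lit 32984) (nat_lit 6) (nat_lit 434) (nat_lit 1) (nat_lit 215) (nat_lit 161) (nat_lit 194)) (PT.lf (nat_lit 32908) (nat_lit 6) (nat_lit 433) (nat_lit 1) (nat_lit 216) (nat_lit 161) (nat_lit 193))) (PT.nd (nat_lit 78) (PT.lf (nat_lit 33820) (nat_lit 6) (nat_lit 445) (nat_lit 3) (nat_lit 193) (nat_lit 162) (nat_lit 215)) (PT.lf (nat_lit 33896) (nat_lit 6) (nat_lit 446) (nat_lit 3) (nat_lit 194) (nat_lit 162) (nat_lit 214)))) (PT.nd (nat_lit 156) (PT.nd (nat_lit 78) (PT.lf (nat_lit 33972) (nat_lit 6) (nat_lit 447) (nat_lit 3) (nat_lit 195)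 (nat_lit 162) (nat_lit 213)) (PT.lf (nat_lit 34048) (nat_lit 6) (nat_lit 448) (nat_lit 3) (nat_lit 196) (nat_lit 162) (nat_lit 212))) (PT.nd (nat_lit 78) (PT.lf (nat_lit 34124) (nat_lit 6) (nat_lit 449) (nat_lit 3) (nat_lit 197) (nat_lit 162) (nat_lit 211)) (PT.lf (nat_lit 34200) (nat_lit 6) (nat_lit 450) (nat_lit 3) (nat_lit 198) (nat_lit 162) (nat_lit 210)))))) (PT.nd (nat_lit 624) (PT.nd (nat_lit 312) (PT.nd (nat_lit 156) (PT.nd (nat_lit 78) (PT.lf (nat_lit 34276) (nat_lit 6) (nat_lit 451) (nat_lit 3) (nat_lit 199) (nat_lit 162) (nat_lit 209)) (PT.lf (nat_lit 34352) (nat_lit 6) (nat_lit 452) (nat_lit 3) (nat_lit 200) (nat_lit 162) (nat_lit 208))) (PT.nd (nat_lit 78) (PT.lf (nat_lit 34428) (nat_lit 6) (nat_lit 453) (nat_lit 3) (nat_lit 201) (nat_lit 162) (nat_lit 207)) (PT.lf (nat_lit 34504) (nat_lit 6) (nat_lit 454) (nat_lit 3) (nat_lit 202) (nat_lit 162) (nat_lit 206)))) (PT.nd (nat_lit 156) (PT.nd (nat_lit 78) (PT.lf (nat_lit 34580)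 (nat_lit 6) (nat_lit 455) (nat_lit 3) (nat_lit 203) (nat_lit 162) (nat_lit 205)) (PT.lf (nat_lit 34656) (nat_lit 3) (nat_lit 456) (nat_lit 1) (nat_lit 204) (nat_lit 162) (nat_lit 204))) (PT.nd (nat_lit 78) (PT.lf (nat_lit 34580) (nat_lit 6) (nat_lit 455) (nat_lit 1) (nat_lit 205) (nat_lit 162) (nat_lit 203)) (PT.lf (nat_lit 34504) (nat_lit 6) (nat_lit 454) (nat_lit 1) (nat_lit 206) (nat_lit 162) (nat_lit 202))))) (PT.nd (nat_lit 312) (PT.nd (nat_lit 156) (PT.nd (nat_lit 78) (PT.lf (nat_lit 34428) (nat_lit 6) (nat_lit 453) (nat_lit 1) (nat_lit 207) (nat_lit 162) (nat_lit 201)) (PT.lf (nat_lit 34352) (nat_lit 6) (nat_lit 452) (nat_lit 1) (nat_lit 208) (nat_lit 162) (nat_lit 200))) (PT.nd (nat_lit 78) (PT.lf (nat_lit 34276) (nat_lit 6) (nat_lit 451) (nat_lit 1) (nat_lit 209) (nat_lit 162) (nat_lit 199)) (PT.lf (nat_lit 34200) (nat_lit 6) (nat_lit 450) (nat_lit 1) (nat_lit 210) (nat_lit 162) (nat_lit 198)))) (PT.nd (nat_lit 156) (PT.nd (nat_lit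 78) (PT.lf (nat_lit 34124) (nat_lit 6) (nat_lit 449) (nat_lit 1) (nat_lit 211) (nat_lit 162) (nat_lit 197)) (PT.lf (nat_lit 34048) (nat_lit 6) (nat_lit 448) (nat_lit 1) (nat_lit 212) (nat_lit 162) (nat_lit 196))) (PT.nd (nat_lit 78) (PT.lf (nat_lit 33972) (nat_lit 6) (nat_lit 447) (nat_lit 1) (nat_lit 213) (nat_lit 162) (nat_lit 195)) (PT.nd (nat_lit 78) (PT.lf (nat_lit 33896) (nat_lit 6) (nat_lit 446) (nat_lit 1) (nat_lit 214) (nat_lit 162) (nat_lit 194)) (PT.lf (nat_lit 33820) (nat_lit 6) (nat_lit 445) (nat_lit 1) (nat_lit 215) (nat_lit 162) (nat_lit 193))))))))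
noncomputable def pc22 : PT := (PT.nd (nat_lit 1248) (PT.nd (nat_lit 624) (PT.nd (nat_lit 312) (PT.nd (nat_lit 156) (PT.nd (nat_lit 78) (PT.lf (nat_lit 34732) (nat_lit 6) (nat_lit 457) (nat_lit 3) (nat_lit 192) (nat_lit 163) (nat_lit 215)) (PT.lf (nat_lit 34808) (nat_lit 6) (nat_lit 458) (nat_lit 3) (nat_lit 193) (nat_lit 163) (nat_lit 214))) (PT.nd (nat_lit 78) (PT.lf (nat_lit 34884) (nat_lit 6) (nat_lit 459) (nat_lit 3) (nat_lit 194) (nat_lit 163) (nat_lit 213)) (PT.lf (nat_lit 34960) (nat_lit 6) (nat_lit 460) (nat_lit 3) (nat_lit 195) (nat_lit 163) (nat_lit 212)))) (PT.nd (nat_lit 156) (PT.nd (nat_lit 78) (PT.lf (nat_lit 35036) (nat_lit 6) (nat_lit 461) (nat_lit 3) (nat_lit 196) (nat_lit 163) (nat_lit 211)) (PT.lf (nat_lit 35112) (nat_lit 6) (nat_lit 462) (nat_lit 3) (nat_lit 197) (nat_lit 163) (nat_lit 210))) (PT.nd (nat_lit 78) (PT.lf (nat_lit 35188) (nat_lit 6) (nat_lit 463) (nat_lit 3) (nat_lit 198) (nat_lit 163) (nat_lit 209))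 (PT.lf (nat_lit 35264) (nat_lit 6) (nat_lit 464) (nat_lit 3) (nat_lit 199) (nat_lit 163) (nat_lit 208))))) (PT.nd (nat_lit 312) (PT.nd (nat_lit 156) (PT.nd (nat_lit 78) (PT.lf (nat_lit 35340) (nat_lit 6) (nat_lit 465) (nat_lit 3) (nat_lit 200) (nat_lit 163) (nat_lit 207)) (PT.lf (nat_lit 35416) (nat_lit 6) (nat_lit 466) (nat_lit 3) (nat_lit 201) (nat_lit 163) (nat_lit 206))) (PT.nd (nat_lit 78) (PT.lf (nat_lit 35492) (nat_lit 6) (nat_lit 467) (nat_lit 3) (nat_lit 202) (nat_lit 163) (nat_lit 205)) (PT.lf (nat_lit 35568) (nat_lit 6) (nat_lit 468) (nat_lit 3) (nat_lit 203) (nat_lit 163) (nat_lit 204)))) (PT.nd (nat_lit 156) (PT.nd (nat_lit 78) (PT.lf (nat_lit 35568) (nat_lit 6) (nat_lit 468) (nat_lit 1) (nat_lit 204) (nat_lit 163) (nat_lit 203)) (PT.lf (nat_lit 35492) (nat_lit 6) (nat_lit 467) (nat_lit 1) (nat_lit 205) (nat_lit 163) (nat_lit 202))) (PT.nd (nat_lit 78) (PT.lf (nat_lit 35416) (nat_lit 6) (nat_lit 466) (nat_lit 1) (nat_lit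 206) (nat_lit 163) (nat_lit 201)) (PT.lf (nat_lit 35340) (nat_lit 6) (nat_lit 465) (nat_lit 1) (nat_lit 207) (nat_lit 163) (nat_lit 200)))))) (PT.nd (nat_lit 58032) (PT.nd (nat_lit 312) (PT.nd (nat_lit 156) (PT.nd (nat_lit 78) (PT.lf (nat_lit 35264) (nat_lit 6) (nat_lit 464) (nat_lit 1) (nat_lit 208) (nat_lit 163) (nat_lit 199)) (PT.lf (nat_lit 35188) (nat_lit 6) (nat_lit 463) (nat_lit 1) (nat_lit 209) (nat_lit 163) (nat_lit 198))) (PT.nd (nat_lit 78) (PT.lf (nat_lit 35112) (nat_lit 6) (nat_lit 462) (nat_lit 1) (nat_lit 210) (nat_lit 163) (nat_lit 197)) (PT.lf (nat_lit 35036) (nat_lit 6) (nat_lit 461) (nat_lit 1) (nat_lit 211) (nat_lit 163) (nat_lit 196)))) (PT.nd (nat_lit 156) (PT.nd (nat_lit 78) (PT.lf (nat_lit 34960) (nat_lit 6) (nat_lit 460) (nat_lit 1) (nat_lit 212) (nat_lit 163) (nat_lit 195)) (PT.lf (nat_lit 34884) (nat_lit 6) (nat_lit 459) (nat_lit 1) (nat_lit 213) (nat_lit 163) (nat_lit 194))) (PT.nd (nat_lit 78) (PT.lf (nat_lit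 34808) (nat_lit 6) (nat_lit 458) (nat_lit 1) (nat_lit 214) (nat_lit 163) (nat_lit 193)) (PT.lf (nat_lit 34732) (nat_lit 6) (nat_lit 457) (nat_lit 1) (nat_lit 215) (nat_lit 163) (nat_lit 192))))) (PT.nd (nat_lit 312) (PT.nd (nat_lit 156) (PT.nd (nat_lit 78) (PT.lf (nat_lit 35644) (nat_lit 6) (nat_lit 469) (nat_lit 3) (nat_lit 191) (nat_lit 164) (nat_lit 215)) (PT.lf (nat_lit 35720) (nat_lit 6) (nat_lit 470) (nat_lit 3) (nat_lit 192) (nat_lit 164) (nat_lit 214))) (PT.nd (nat_lit 78) (PT.lf (nat_lit 35796) (nat_lit 6) (nat_lit 471) (nat_lit 3) (nat_lit 193) (nat_lit 164) (nat_lit 213)) (PT.lf (nat_lit 35872) (nat_lit 6) (nat_lit 472) (nat_lit 3) (nat_lit 194) (nat_lit 164) (nat_lit 212)))) (PT.nd (nat_lit 156) (PT.nd (nat_lit 78) (PT.lf (nat_lit 35948) (nat_lit 6) (nat_lit 473) (nat_lit 3) (nat_lit 195) (nat_lit 164) (nat_lit 211)) (PT.lf (nat_lit 36024) (nat_lit 6) (nat_lit 474) (nat_lit 3) (nat_lit 196) (nat_lit 164) (nat_lit 210))) (PT.nd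 (nat_lit 78) (PT.lf (nat_lit 36100) (nat_lit 6) (nat_lit 475) (nat_lit 3) (nat_lit 197) (nat_lit 164) (nat_lit 209)) (PT.nd (nat_lit 78) (PT.lf (nat_lit 36176) (nat_lit 6) (nat_lit 476) (nat_lit 3) (nat_lit 198) (nat_lit 164) (nat_lit 208)) (PT.lf (nat_lit 36252) (nat_lit 6) (nat_lit 477) (nat_lit 3) (nat_lit 199) (nat_lit 164) (nat_lit 207))))))))
noncomputable def pc23 : PT := (PT.nd (nat_lit 58578) (PT.nd (nat_lit 624) (PT.nd (nat_lit 312) (PT.nd (nat_lit 156) (PT.nd (nat_lit 78) (PT.lf (nat_lit 36328) (nat_lit 6) (nat_lit 478) (nat_lit 3) (nat_lit 200) (nat_lit 164) (nat_lit 206)) (PT.lf (nat_lit 36404) (nat_lit 6) (nat_lit 479) (nat_lit 3) (nat_lit 201) (nat_lit 164) (nat_lit 205))) (PT.nd (nat_lit 78) (PT.lf (nat_lit 36480) (nat_lit 6) (nat_lit 480) (nat_lit 3) (nat_lit 202) (nat_lit 164) (nat_lit 204)) (PT.lf (nat_lit 36556) (nat_lit 3) (nat_lit 481) (nat_lit 1) (nat_lit 203) (nat_lit 164) (nat_lit 203)))) (PT.nd (nat_lit 156)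 (PT.nd (nat_lit 78) (PT.lf (nat_lit 36480) (nat_lit 6) (nat_lit 480) (nat_lit 1) (nat_lit 204) (nat_lit 164) (nat_lit 202)) (PT.lf (nat_lit 36404) (nat_lit 6) (nat_lit 479) (nat_lit 1) (nat_lit 205) (nat_lit 164) (nat_lit 201))) (PT.nd (nat_lit 78) (PT.lf (nat_lit 36328) (nat_lit 6) (nat_lit 478) (nat_lit 1) (nat_lit 206) (nat_lit 164) (nat_lit 200)) (PT.lf (nat_lit 36252) (nat_lit 6) (nat_lit 477) (nat_lit 1) (nat_lit 207) (nat_lit 164) (nat_lit 199))))) (PT.nd (nat_lit 312) (PT.nd (nat_lit 156) (PT.nd (nat_lit 78) (PT.lf (nat_lit 36176) (nat_lit 6) (nat_lit 476) (nat_lit 1) (nat_lit 208) (nat_lit 164) (nat_lit 198)) (PT.lf (nat_lit 36100) (nat_lit 6) (nat_lit 475) (nat_lit 1) (nat_lit 209) (nat_lit 164) (nat_lit 197))) (PT.nd (nat_lit 78) (PT.lf (nat_lit 36024) (nat_lit 6) (nat_lit 474) (nat_lit 1) (nat_lit 210) (nat_lit 164) (nat_lit 196)) (PT.lf (nat_lit 35948) (nat_lit 6) (nat_lit 473) (nat_lit 1) (nat_lit 211) (nat_lit 164) (nat_lit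 195)))) (PT.nd (nat_lit 156) (PT.nd (nat_lit 78) (PT.lf (nat_lit 35872) (nat_lit 6) (nat_lit 472) (nat_lit 1) (nat_lit 212) (nat_lit 164) (nat_lit 194)) (PT.lf (nat_lit 35796) (nat_lit 6) (nat_lit 471) (nat_lit 1) (nat_lit 213) (nat_lit 164) (nat_lit 193))) (PT.nd (nat_lit 78) (PT.lf (nat_lit 35720) (nat_lit 6) (nat_lit 470) (nat_lit 1) (nat_lit 214) (nat_lit 164) (nat_lit 192)) (PT.lf (nat_lit 35644) (nat_lit 6) (nat_lit 469) (nat_lit 1) (nat_lit 215) (nat_lit 164) (nat_lit 191)))))) (PT.nd (nat_lit 624) (PT.nd (nat_lit 312) (PT.nd (nat_lit 156) (PT.nd (nat_lit 78) (PT.lf (nat_lit 36784) (nat_lit 6) (nat_lit 484) (nat_lit 3) (nat_lit 190) (nat_lit 165) (nat_lit 215)) (PT.lf (nat_lit 36860) (nat_lit 6) (nat_lit 485) (nat_lit 3) (nat_lit 191) (nat_lit 165) (nat_lit 214))) (PT.nd (nat_lit 78) (PT.lf (nat_lit 36936) (nat_lit 6) (nat_lit 486) (nat_lit 3) (nat_lit 192) (nat_lit 165) (nat_lit 213)) (PT.lf (nat_lit 37012) (nat_lit 6) (nat_lit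 487) (nat_lit 3) (nat_lit 193) (nat_lit 165) (nat_lit 212)))) (PT.nd (nat_lit 156) (PT.nd (nat_lit 78) (PT.lf (nat_lit 37088) (nat_lit 6) (nat_lit 488) (nat_lit 3) (nat_lit 194) (nat_lit 165) (nat_lit 211)) (PT.lf (nat_lit 37164) (nat_lit 6) (nat_lit 489) (nat_lit 3) (nat_lit 195) (nat_lit 165) (nat_lit 210))) (PT.nd (nat_lit 78) (PT.lf (nat_lit 37240) (nat_lit 6) (nat_lit 490) (nat_lit 3) (nat_lit 196) (nat_lit 165) (nat_lit 209)) (PT.lf (nat_lit 37316) (nat_lit 6) (nat_lit 491) (nat_lit 3) (nat_lit 197) (nat_lit 165) (nat_lit 208))))) (PT.nd (nat_lit 312) (PT.nd (nat_lit 156) (PT.nd (nat_lit 78) (PT.lf (nat_lit 37392) (nat_lit 6) (nat_lit 492) (nat_lit 3) (nat_lit 198) (nat_lit 165) (nat_lit 207)) (PT.lf (nat_lit 37468) (nat_lit 6) (nat_lit 493) (nat_lit 3) (nat_lit 199) (nat_lit 165) (nat_lit 206))) (PT.nd (nat_lit 78) (PT.lf (nat_lit 37544) (nat_lit 6) (nat_lit 494) (nat_lit 3) (nat_lit 200) (nat_lit 165) (nat_lit 205)) (PT.lf (nat_lit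 37620) (nat_lit 6) (nat_lit 495) (nat_lit 3) (nat_lit 201) (nat_lit 165) (nat_lit 204)))) (PT.nd (nat_lit 156) (PT.nd (nat_lit 78) (PT.lf (nat_lit 37696) (nat_lit 6) (nat_lit 496) (nat_lit 3) (nat_lit 202) (nat_lit 165) (nat_lit 203)) (PT.lf (nat_lit 37696) (nat_lit 6) (nat_lit 496) (nat_lit 1) (nat_lit 203) (nat_lit 165) (nat_lit 202))) (PT.nd (nat_lit 78) (PT.lf (nat_lit 37620) (nat_lit 6) (nat_lit 495) (nat_lit 1) (nat_lit 204) (nat_lit 165) (nat_lit 201)) (PT.nd (nat_lit 78) (PT.lf (nat_lit 37544) (nat_lit 6) (nat_lit 494) (nat_lit 1) (nat_lit 205) (nat_lit 165) (nat_lit 200)) (PT.lf (nat_lit 37468) (nat_lit 6) (nat_lit 493) (nat_lit 1) (nat_lit 206) (nat_lit 165) (nat_lit 199))))))))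
noncomputable def pc24 : PT := (PT.nd (nat_lit 58500) (PT.nd (nat_lit 624) (PT.nd (nat_lit 312) (PT.nd (nat_lit 156) (PT.nd (nat_lit 78) (PT.lf (nat_lit 37392) (nat_lit 6) (nat_lit 492) (nat_lit 1) (nat_lit 207) (nat_lit 165) (nat_lit 198)) (PT.lf (nat_lit 37316) (nat_lit 6) (nat_lit 491) (nat_lit 1) (nat_lit 208) (nat_lit 165) (nat_lit 197))) (PT.nd (nat_lit 78) (PT.lf (nat_lit 37240) (nat_lit 6) (nat_lit 490) (nat_lit 1) (nat_lit 209) (nat_lit 165) (nat_lit 196)) (PT.lf (nat_lit 37164) (nat_lit 6) (nat_lit 489) (nat_lit 1) (nat_lit 210) (nat_lit 165) (nat_lit 195)))) (PT.nd (nat_lit 156) (PT.nd (nat_lit 78) (PT.lf (nat_lit 37088) (nat_lit 6) (nat_lit 488) (nat_lit 1) (nat_lit 211) (nat_lit 165) (nat_lit 194)) (PT.lf (nat_lit 37012) (nat_lit 6) (nat_lit 487) (nat_lit 1) (nat_lit 212) (nat_lit 165) (nat_lit 193))) (PT.nd (nat_lit 78) (PT.lf (nat_lit 36936) (nat_lit 6) (nat_lit 486) (nat_lit 1) (nat_lit 213) (nat_lit 165) (nat_lit 192))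 (PT.lf (nat_lit 36860) (nat_lit 6) (nat_lit 485) (nat_lit 1) (nat_lit 214) (nat_lit 165) (nat_lit 191))))) (PT.nd (nat_lit 57564) (PT.nd (nat_lit 57408) (PT.nd (nat_lit 57330) (PT.lf (nat_lit 36784) (nat_lit 6) (nat_lit 484) (nat_lit 1) (nat_lit 215) (nat_lit 165) (nat_lit 190)) (PT.lf (nat_lit 36708) (nat_lit 6) (nat_lit 483) (nat_lit 3) (nat_lit 189) (nat_lit 166) (nat_lit 215))) (PT.nd (nat_lit 78) (PT.lf (nat_lit 38684) (nat_lit 6) (nat_lit 509) (nat_lit 3) (nat_lit 190) (nat_lit 166) (nat_lit 214)) (PT.lf (nat_lit 38760) (nat_lit 6) (nat_lit 510) (nat_lit 3) (nat_lit 191) (nat_lit 166) (nat_lit 213)))) (PT.nd (nat_lit 156) (PT.nd (nat_lit 78) (PT.lf (nat_lit 38836) (nat_lit 6) (nat_lit 511) (nat_lit 3) (nat_lit 192) (nat_lit 166) (nat_lit 212)) (PT.lf (nat_lit 38912) (nat_lit 6) (nat_lit 512) (nat_lit 3) (nat_lit 193) (nat_lit 166) (nat_lit 211))) (PT.nd (nat_lit 78) (PT.lf (nat_lit 38988) (nat_lit 6) (nat_lit 513) (nat_lit 3) (nat_lit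 194) (nat_lit 166) (nat_lit 210)) (PT.lf (nat_lit 39064) (nat_lit 6) (nat_lit 514) (nat_lit 3) (nat_lit 195) (nat_lit 166) (nat_lit 209)))))) (PT.nd (nat_lit 624) (PT.nd (nat_lit 312) (PT.nd (nat_lit 156) (PT.nd (nat_lit 78) (PT.lf (nat_lit 39140) (nat_lit 6) (nat_lit 515) (nat_lit 3) (nat_lit 196) (nat_lit 166) (nat_lit 208)) (PT.lf (nat_lit 39216) (nat_lit 6) (nat_lit 516) (nat_lit 3) (nat_lit 197) (nat_lit 166) (nat_lit 207))) (PT.nd (nat_lit 78) (PT.lf (nat_lit 39292) (nat_lit 6) (nat_lit 517) (nat_lit 3) (nat_lit 198) (nat_lit 166) (nat_lit 206)) (PT.lf (nat_lit 39368) (nat_lit 6) (nat_lit 518) (nat_lit 3) (nat_lit 199) (nat_lit 166) (nat_lit 205)))) (PT.nd (nat_lit 156) (PT.nd (nat_lit 78) (PT.lf (nat_lit 39444) (nat_lit 6) (nat_lit 519) (nat_lit 3) (nat_lit 200) (nat_lit 166) (nat_lit 204)) (PT.lf (nat_lit 39520) (nat_lit 6) (nat_lit 520) (nat_lit 3) (nat_lit 201) (nat_lit 166) (nat_lit 203))) (PT.nd (nat_lit 78) (PT.lf (nat_lit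 39596) (nat_lit 3) (nat_lit 521) (nat_lit 1) (nat_lit 202) (nat_lit 166) (nat_lit 202)) (PT.lf (nat_lit 39520) (nat_lit 6) (nat_lit 520) (nat_lit 1) (nat_lit 203) (nat_lit 166) (nat_lit 201))))) (PT.nd (nat_lit 312) (PT.nd (nat_lit 156) (PT.nd (nat_lit 78) (PT.lf (nat_lit 39444) (nat_lit 6) (nat_lit 519) (nat_lit 1) (nat_lit 204) (nat_lit 166) (nat_lit 200)) (PT.lf (nat_lit 39368) (nat_lit 6) (nat_lit 518) (nat_lit 1) (nat_lit 205) (nat_lit 166) (nat_lit 199))) (PT.nd (nat_lit 78) (PT.lf (nat_lit 39292) (nat_lit 6) (nat_lit 517) (nat_lit 1) (nat_lit 206) (nat_lit 166) (nat_lit 198)) (PT.lf (nat_lit 39216) (nat_lit 6) (nat_lit 516) (nat_lit 1) (nat_lit 207) (nat_lit 166) (nat_lit 197)))) (PT.nd (nat_lit 156) (PT.nd (nat_lit 78) (PT.lf (nat_lit 39140) (nat_lit 6) (nat_lit 515) (nat_lit 1) (nat_lit 208) (nat_lit 166) (nat_lit 196)) (PT.lf (nat_lit 39064) (nat_lit 6) (nat_lit 514) (nat_lit 1) (nat_lit 209) (nat_lit 166) (nat_lit 195))) (PT.nd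 (nat_lit 78) (PT.lf (nat_lit 38988) (nat_lit 6) (nat_lit 513) (nat_lit 1) (nat_lit 210) (nat_lit 166) (nat_lit 194)) (PT.lf (nat_lit 38912) (nat_lit 6) (nat_lit 512) (nat_lit 1) (nat_lit 211) (nat_lit 166) (nat_lit 193)))))))
noncomputable def pc25 : PT := (PT.nd (nat_lit 58422) (PT.nd (nat_lit 57798) (PT.nd (nat_lit 57486) (PT.nd (nat_lit 156) (PT.nd (nat_lit 78) (PT.lf (nat_lit 38836) (nat_lit 6) (nat_lit 511) (nat_lit 1) (nat_lit 212) (nat_lit 166) (nat_lit 192)) (PT.lf (nat_lit 38760) (nat_lit 6) (nat_lit 510) (nat_lit 1) (nat_lit 213) (nat_lit 166) (nat_lit 191))) (PT.nd (nat_lit 78) (PT.lf (nat_lit 38684) (nat_lit 6) (nat_lit 509) (nat_lit 1) (nat_lit 214) (nat_lit 166) (nat_lit 190)) (PT.lf (nat_lit 36708) (nat_lit 6) (nat_lit 483) (nat_lit 1) (nat_lit 215) (nat_lit 166) (nat_lit 189)))) (PT.nd (nat_lit 156) (PT.nd (nat_lit 78) (PT.lf (nat_lit 36632) (nat_lit 6) (nat_lit 482) (nat_lit 3) (nat_lit 188) (nat_lit 167) (nat_lit 215))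 (PT.lf (nat_lit 38608) (nat_lit 6) (nat_lit 508) (nat_lit 3) (nat_lit 189) (nat_lit 167) (nat_lit 214))) (PT.nd (nat_lit 78) (PT.lf (nat_lit 40508) (nat_lit 6) (nat_lit 533) (nat_lit 3) (nat_lit 190) (nat_lit 167) (nat_lit 213)) (PT.lf (nat_lit 40584) (nat_lit 6) (nat_lit 534) (nat_lit 3) (nat_lit 191) (nat_lit 167) (nat_lit 212))))) (PT.nd (nat_lit 312) (PT.nd (nat_lit 156) (PT.nd (nat_lit 78) (PT.lf (nat_lit 40660) (nat_lit 6) (nat_lit 535) (nat_lit 3) (nat_lit 192) (nat_lit 167) (nat_lit 211)) (PT.lf (nat_lit 40736) (nat_lit 6) (nat_lit 536) (nat_lit 3) (nat_lit 193) (nat_lit 167) (nat_lit 210))) (PT.nd (nat_lit 78) (PT.lf (nat_lit 40812) (nat_lit 6) (nat_lit 537) (nat_lit 3) (nat_lit 194) (nat_lit 167) (nat_lit 209)) (PT.lf (nat_lit 40888) (nat_lit 6) (nat_lit 538) (nat_lit 3) (nat_lit 195) (nat_lit 167) (nat_lit 208)))) (PT.nd (nat_lit 156) (PT.nd (nat_lit 78) (PT.lf (nat_lit 40964) (nat_lit 6) (nat_lit 539) (nat_lit 3) (nat_lit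 196) (nat_lit 167) (nat_lit 207)) (PT.lf (nat_lit 41040) (nat_lit 6) (nat_lit 540) (nat_lit 3) (nat_lit 197) (nat_lit 167) (nat_lit 206))) (PT.nd (nat_lit 78) (PT.lf (nat_lit 41116) (nat_lit 6) (nat_lit 541) (nat_lit 3) (nat_lit 198) (nat_lit 167) (nat_lit 205)) (PT.lf (nat_lit 41192) (nat_lit 6) (nat_lit 542) (nat_lit 3) (nat_lit 199) (nat_lit 167) (nat_lit 204)))))) (PT.nd (nat_lit 624) (PT.nd (nat_lit 312) (PT.nd (nat_lit 156) (PT.nd (nat_lit 78) (PT.lf (nat_lit 41268) (nat_lit 6) (nat_lit 543) (nat_lit 3) (nat_lit 200) (nat_lit 167) (nat_lit 203)) (PT.lf (nat_lit 41344) (nat_lit 6) (nat_lit 544) (nat_lit 3) (nat_lit 201) (nat_lit 167) (nat_lit 202))) (PT.nd (nat_lit 78) (PT.lf (nat_lit 41344) (nat_lit 6) (nat_lit 544) (nat_lit 1) (nat_lit 202) (nat_lit 167) (nat_lit 201)) (PT.lf (nat_lit 41268) (nat_lit 6) (nat_lit 543) (nat_lit 1) (nat_lit 203) (nat_lit 167) (nat_lit 200)))) (PT.nd (nat_lit 156) (PT.nd (nat_lit 78) (PT.lf (nat_lit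 41192) (nat_lit 6) (nat_lit 542) (nat_lit 1) (nat_lit 204) (nat_lit 167) (nat_lit 199)) (PT.lf (nat_lit 41116) (nat_lit 6) (nat_lit 541) (nat_lit 1) (nat_lit 205) (nat_lit 167) (nat_lit 198))) (PT.nd (nat_lit 78) (PT.lf (nat_lit 41040) (nat_lit 6) (nat_lit 540) (nat_lit 1) (nat_lit 206) (nat_lit 167) (nat_lit 197)) (PT.lf (nat_lit 40964) (nat_lit 6) (nat_lit 539) (nat_lit 1) (nat_lit 207) (nat_lit 167) (nat_lit 196))))) (PT.nd (nat_lit 312) (PT.nd (nat_lit 156) (PT.nd (nat_lit 78) (PT.lf (nat_lit 40888) (nat_lit 6) (nat_lit 538) (nat_lit 1) (nat_lit 208) (nat_lit 167) (nat_lit 195)) (PT.lf (nat_lit 40812) (nat_lit 6) (nat_lit 537) (nat_lit 1) (nat_lit 209) (nat_lit 167) (nat_lit 194))) (PT.nd (nat_lit 78) (PT.lf (nat_lit 40736) (nat_lit 6) (nat_lit 536) (nat_lit 1) (nat_lit 210) (nat_lit 167) (nat_lit 193)) (PT.lf (nat_lit 40660) (nat_lit 6) (nat_lit 535) (nat_lit 1) (nat_lit 211) (nat_lit 167) (nat_lit 192)))) (PT.nd (nat_lit 156) (PT.nd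 (nat_lit 78) (PT.lf (nat_lit 40584) (nat_lit 6) (nat_lit 534) (nat_lit 1) (nat_lit 212) (nat_lit 167) (nat_lit 191)) (PT.lf (nat_lit 40508) (nat_lit 6) (nat_lit 533) (nat_lit 1) (nat_lit 213) (nat_lit 167) (nat_lit 190))) (PT.nd (nat_lit 78) (PT.lf (nat_lit 38608) (nat_lit 6) (nat_lit 508) (nat_lit 1) (nat_lit 214) (nat_lit 167) (nat_lit 189)) (PT.nd (nat_lit 57252) (PT.lf (nat_lit 36632) (nat_lit 6) (nat_lit 482) (nat_lit 1) (nat_lit 215) (nat_lit 167) (nat_lit 188)) (PT.lf (nat_lit 38532) (nat_lit 6) (nat_lit 507) (nat_lit 3) (nat_lit 188) (nat_lit 168) (nat_lit 214))))))))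
noncomputable def pc26 : PT := (PT.nd (nat_lit 1248) (PT.nd (nat_lit 624) (PT.nd (nat_lit 312) (PT.nd (nat_lit 156) (PT.nd (nat_lit 78) (PT.lf (nat_lit 40432) (nat_lit 6) (nat_lit 532) (nat_lit 3) (nat_lit 189) (nat_lit 168) (nat_lit 213)) (PT.lf (nat_lit 42256) (nat_lit 6) (nat_lit 556) (nat_lit 3) (nat_lit 190) (nat_lit 168) (nat_lit 212))) (PT.nd (nat_lit 78) (PT.lf (nat_lit 42332) (nat_lit 6) (nat_lit 557) (nat_lit 3) (nat_lit 191) (nat_lit 168) (nat_lit 211)) (PT.lf (nat_lit 42408) (nat_lit 6) (nat_lit 558) (nat_lit 3) (nat_lit 192) (nat_lit 168) (nat_lit 210)))) (PT.nd (nat_lit 156) (PT.nd (nat_lit 78) (PT.lf (nat_lit 42484) (nat_lit 6) (nat_lit 559) (nat_lit 3) (nat_lit 193) (nat_lit 168) (nat_lit 209)) (PT.lf (nat_lit 42560) (nat_lit 6) (nat_lit 560) (nat_lit 3) (nat_lit 194) (nat_lit 168) (nat_lit 208))) (PT.nd (nat_lit 78) (PT.lf (nat_lit 42636) (nat_lit 6) (nat_lit 561) (nat_lit 3) (nat_lit 195) (nat_lit 168) (nat_lit 207))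 (PT.lf (nat_lit 42712) (nat_lit 6) (nat_lit 562) (nat_lit 3) (nat_lit 196) (nat_lit 168) (nat_lit 206))))) (PT.nd (nat_lit 312) (PT.nd (nat_lit 156) (PT.nd (nat_lit 78) (PT.lf (nat_lit 42788) (nat_lit 6) (nat_lit 563) (nat_lit 3) (nat_lit 197) (nat_lit 168) (nat_lit 205)) (PT.lf (nat_lit 42864) (nat_lit 6) (nat_lit 564) (nat_lit 3) (nat_lit 198) (nat_lit 168) (nat_lit 204))) (PT.nd (nat_lit 78) (PT.lf (nat_lit 42940) (nat_lit 6) (nat_lit 565) (nat_lit 3) (nat_lit 199) (nat_lit 168) (nat_lit 203)) (PT.lf (nat_lit 43016) (nat_lit 6) (nat_lit 566) (nat_lit 3) (nat_lit 200) (nat_lit 168) (nat_lit 202)))) (PT.nd (nat_lit 156) (PT.nd (nat_lit 78) (PT.lf (nat_lit 43092) (nat_lit 3) (nat_lit 567) (nat_lit 1) (nat_lit 201) (nat_lit 168) (nat_lit 201)) (PT.lf (nat_lit 43016) (nat_lit 6) (nat_lit 566) (nat_lit 1) (nat_lit 202) (nat_lit 168) (nat_lit 200))) (PT.nd (nat_lit 78) (PT.lf (nat_lit 42940) (nat_lit 6) (nat_lit 565) (nat_lit 1) (nat_lit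 203) (nat_lit 168) (nat_lit 199)) (PT.lf (nat_lit 42864) (nat_lit 6) (nat_lit 564) (nat_lit 1) (nat_lit 204) (nat_lit 168) (nat_lit 198)))))) (PT.nd (nat_lit 624) (PT.nd (nat_lit 312) (PT.nd (nat_lit 156) (PT.nd (nat_lit 78) (PT.lf (nat_lit 42788) (nat_lit 6) (nat_lit 563) (nat_lit 1) (nat_lit 205) (nat_lit 168) (nat_lit 197)) (PT.lf (nat_lit 42712) (nat_lit 6) (nat_lit 562) (nat_lit 1) (nat_lit 206) (nat_lit 168) (nat_lit 196))) (PT.nd (nat_lit 78) (PT.lf (nat_lit 42636) (nat_lit 6) (nat_lit 561) (nat_lit 1) (nat_lit 207) (nat_lit 168) (nat_lit 195)) (PT.lf (nat_lit 42560) (nat_lit 6) (nat_lit 560) (nat_lit 1) (nat_lit 208) (nat_lit 168) (nat_lit 194)))) (PT.nd (nat_lit 156) (PT.nd (nat_lit 78) (PT.lf (nat_lit 42484) (nat_lit 6) (nat_lit 559) (nat_lit 1) (nat_lit 209) (nat_lit 168) (nat_lit 193)) (PT.lf (nat_lit 42408) (nat_lit 6) (nat_lit 558) (nat_lit 1) (nat_lit 210) (nat_lit 168) (nat_lit 192))) (PT.nd (nat_lit 78) (PT.lf (nat_lit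 42332) (nat_lit 6) (nat_lit 557) (nat_lit 1) (nat_lit 211) (nat_lit 168) (nat_lit 191)) (PT.lf (nat_lit 42256) (nat_lit 6) (nat_lit 556) (nat_lit 1) (nat_lit 212) (nat_lit 168) (nat_lit 190))))) (PT.nd (nat_lit 57486) (PT.nd (nat_lit 57330) (PT.nd (nat_lit 78) (PT.lf (nat_lit 40432) (nat_lit 6) (nat_lit 532) (nat_lit 1) (nat_lit 213) (nat_lit 168) (nat_lit 189)) (PT.lf (nat_lit 38532) (nat_lit 6) (nat_lit 507) (nat_lit 1) (nat_lit 214) (nat_lit 168) (nat_lit 188))) (PT.nd (nat_lit 78) (PT.lf (nat_lit 38456) (nat_lit 6) (nat_lit 506) (nat_lit 3) (nat_lit 187) (nat_lit 169) (nat_lit 214)) (PT.lf (nat_lit 40356) (nat_lit 6) (nat_lit 531) (nat_lit 3) (nat_lit 188) (nat_lit 169) (nat_lit 213)))) (PT.nd (nat_lit 156) (PT.nd (nat_lit 78) (PT.lf (nat_lit 42180) (nat_lit 6) (nat_lit 555) (nat_lit 3) (nat_lit 189) (nat_lit 169) (nat_lit 212)) (PT.lf (nat_lit 43928) (nat_lit 6) (nat_lit 578) (nat_lit 3) (nat_lit 190) (nat_lit 169) (nat_lit 211)))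 (PT.nd (nat_lit 78) (PT.lf (nat_lit 44004) (nat_lit 6) (nat_lit 579) (nat_lit 3) (nat_lit 191) (nat_lit 169) (nat_lit 210)) (PT.nd (nat_lit 78) (PT.lf (nat_lit 44080) (nat_lit 6) (nat_lit 580) (nat_lit 3) (nat_lit 192) (nat_lit 169) (nat_lit 209)) (PT.lf (nat_lit 44156) (nat_lit 6) (nat_lit 581) (nat_lit 3) (nat_lit 193) (nat_lit 169) (nat_lit 208))))))))
noncomputable def pc27 : PT := (PT.nd (nat_lit 1248) (PT.nd (nat_lit 624) (PT.nd (nat_lit 312) (PT.nd (nat_lit 156) (PT.nd (nat_lit 78) (PT.lf (nat_lit 44232) (nat_lit 6) (nat_lit 582) (nat_lit 3) (nat_lit 194) (nat_lit 169) (nat_lit 207)) (PT.lf (nat_lit 44308) (nat_lit 6) (nat_lit 583) (nat_lit 3) (nat_lit 195) (nat_lit 169) (nat_lit 206))) (PT.nd (nat_lit 78) (PT.lf (nat_lit 44384) (nat_lit 6) (nat_lit 584) (nat_lit 3) (nat_lit 196) (nat_lit 169) (nat_lit 205)) (PT.lf (nat_lit 44460) (nat_lit 6) (nat_lit 585) (nat_lit 3) (nat_lit 197) (nat_lit 169) (nat_lit 204)))) (PT.nd (nat_lit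 156) (PT.nd (nat_lit 78) (PT.lf (nat_lit 44536) (nat_lit 6) (nat_lit 586) (nat_lit 3) (nat_lit 198) (nat_lit 169) (nat_lit 203)) (PT.lf (nat_lit 44612) (nat_lit 6) (nat_lit 587) (nat_lit 3) (nat_lit 199) (nat_lit 169) (nat_lit 202))) (PT.nd (nat_lit 78) (PT.lf (nat_lit 44688) (nat_lit 6) (nat_lit 588) (nat_lit 3) (nat_lit 200) (nat_lit 169) (nat_lit 201)) (PT.lf (nat_lit 44688) (nat_lit 6) (nat_lit 588) (nat_lit 1) (nat_lit 201) (nat_lit 169) (nat_lit 200))))) (PT.nd (nat_lit 312) (PT.nd (nat_lit 156) (PT.nd (nat_lit 78) (PT.lf (nat_lit 44612) (nat_lit 6) (nat_lit 587) (nat_lit 1) (nat_lit 202) (nat_lit 169) (nat_lit 199)) (PT.lf (nat_lit 44536) (nat_lit 6) (nat_lit 586) (nat_lit 1) (nat_lit 203) (nat_lit 169) (nat_lit 198))) (PT.nd (nat_lit 78) (PT.lf (nat_lit 44460) (nat_lit 6) (nat_lit 585) (nat_lit 1) (nat_lit 204) (nat_lit 169) (nat_lit 197)) (PT.lf (nat_lit 44384) (nat_lit 6) (nat_lit 584) (nat_lit 1) (nat_lit 205) (nat_lit 169)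 (nat_lit 196)))) (PT.nd (nat_lit 156) (PT.nd (nat_lit 78) (PT.lf (nat_lit 44308) (nat_lit 6) (nat_lit 583) (nat_lit 1) (nat_lit 206) (nat_lit 169) (nat_lit 195)) (PT.lf (nat_lit 44232) (nat_lit 6) (nat_lit 582) (nat_lit 1) (nat_lit 207) (nat_lit 169) (nat_lit 194))) (PT.nd (nat_lit 78) (PT.lf (nat_lit 44156) (nat_lit 6) (nat_lit 581) (nat_lit 1) (nat_lit 208) (nat_lit 169) (nat_lit 193)) (PT.lf (nat_lit 44080) (nat_lit 6) (nat_lit 580) (nat_lit 1) (nat_lit 209) (nat_lit 169) (nat_lit 192)))))) (PT.nd (nat_lit 57720) (PT.nd (nat_lit 312) (PT.nd (nat_lit 156) (PT.nd (nat_lit 78) (PT.lf (nat_lit 44004) (nat_lit 6) (nat_lit 579) (nat_lit 1) (nat_lit 210) (nat_lit 169) (nat_lit 191)) (PT.lf (nat_lit 43928) (nat_lit 6) (nat_lit 578) (nat_lit 1) (nat_lit 211) (nat_lit 169) (nat_lit 190))) (PT.nd (nat_lit 78) (PT.lf (nat_lit 42180) (nat_lit 6) (nat_lit 555) (nat_lit 1) (nat_lit 212) (nat_lit 169) (nat_lit 189)) (PT.lf (nat_lit 40356) (nat_lit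 6) (nat_lit 531) (nat_lit 1) (nat_lit 213) (nat_lit 169) (nat_lit 188)))) (PT.nd (nat_lit 57252) (PT.nd (nat_lit 57174) (PT.lf (nat_lit 38456) (nat_lit 6) (nat_lit 506) (nat_lit 1) (nat_lit 214) (nat_lit 169) (nat_lit 187)) (PT.lf (nat_lit 38380) (nat_lit 6) (nat_lit 505) (nat_lit 3) (nat_lit 186) (nat_lit 170) (nat_lit 214))) (PT.nd (nat_lit 78) (PT.lf (nat_lit 40280) (nat_lit 6) (nat_lit 530) (nat_lit 3) (nat_lit 187) (nat_lit 170) (nat_lit 213)) (PT.lf (nat_lit 42104) (nat_lit 6) (nat_lit 554) (nat_lit 3) (nat_lit 188) (nat_lit 170) (nat_lit 212))))) (PT.nd (nat_lit 312) (PT.nd (nat_lit 156) (PT.nd (nat_lit 78) (PT.lf (nat_lit 43852) (nat_lit 6) (nat_lit 577) (nat_lit 3) (nat_lit 189) (nat_lit 170) (nat_lit 211)) (PT.lf (nat_lit 45524) (nat_lit 6) (nat_lit 599) (nat_lit 3) (nat_lit 190) (nat_lit 170) (nat_lit 210))) (PT.nd (nat_lit 78) (PT.lf (nat_lit 45600) (nat_lit 6) (nat_lit 600) (nat_lit 3) (nat_lit 191) (nat_lit 170) (nat_lit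 209)) (PT.lf (nat_lit 45676) (nat_lit 6) (nat_lit 601) (nat_lit 3) (nat_lit 192) (nat_lit 170) (nat_lit 208)))) (PT.nd (nat_lit 156) (PT.nd (nat_lit 78) (PT.lf (nat_lit 45752) (nat_lit 6) (nat_lit 602) (nat_lit 3) (nat_lit 193) (nat_lit 170) (nat_lit 207)) (PT.lf (nat_lit 45828) (nat_lit 6) (nat_lit 603) (nat_lit 3) (nat_lit 194) (nat_lit 170) (nat_lit 206))) (PT.nd (nat_lit 78) (PT.lf (nat_lit 45904) (nat_lit 6) (nat_lit 604) (nat_lit 3) (nat_lit 195) (nat_lit 170) (nat_lit 205)) (PT.nd (nat_lit 78) (PT.lf (nat_lit 45980) (nat_lit 6) (nat_lit 605) (nat_lit 3) (nat_lit 196) (nat_lit 170) (nat_lit 204)) (PT.lf (nat_lit 46056) (nat_lit 6) (nat_lit 606) (nat_lit 3) (nat_lit 197) (nat_lit 170) (nat_lit 203))))))))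
noncomputable def pc28 : PT := (PT.nd (nat_lit 1248) (PT.nd (nat_lit 624) (PT.nd (nat_lit 312) (PT.nd (nat_lit 156) (PT.nd (nat_lit 78) (PT.lf (nat_lit 46132) (nat_lit 6) (nat_lit 607) (nat_lit 3) (nat_lit 198) (nat_lit 170) (nat_lit 202)) (PT.lf (nat_lit 46208) (nat_lit 6) (nat_lit 608) (nat_lit 3) (nat_lit 199) (nat_lit 170) (nat_lit 201))) (PT.nd (nat_lit 78) (PT.lf (nat_lit 46284) (nat_lit 3) (nat_lit 609) (nat_lit 1) (nat_lit 200) (nat_lit 170) (nat_lit 200)) (PT.lf (nat_lit 46208) (nat_lit 6) (nat_lit 608) (nat_lit 1) (nat_lit 201) (nat_lit 170) (nat_lit 199)))) (PT.nd (nat_lit 156) (PT.nd (nat_lit 78) (PT.lf (nat_lit 46132) (nat_lit 6) (nat_lit 607) (nat_lit 1) (nat_lit 202) (nat_lit 170) (nat_lit 198)) (PT.lf (nat_lit 46056) (nat_lit 6) (nat_lit 606) (nat_lit 1) (nat_lit 203) (nat_lit 170) (nat_lit 197))) (PT.nd (nat_lit 78) (PT.lf (nat_lit 45980) (nat_lit 6) (nat_lit 605) (nat_lit 1) (nat_lit 204) (nat_lit 170) (nat_lit 196))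 (PT.lf (nat_lit 45904) (nat_lit 6) (nat_lit 604) (nat_lit 1) (nat_lit 205) (nat_lit 170) (nat_lit 195))))) (PT.nd (nat_lit 312) (PT.nd (nat_lit 156) (PT.nd (nat_lit 78) (PT.lf (nat_lit 45828) (nat_lit 6) (nat_lit 603) (nat_lit 1) (nat_lit 206) (nat_lit 170) (nat_lit 194)) (PT.lf (nat_lit 45752) (nat_lit 6) (nat_lit 602) (nat_lit 1) (nat_lit 207) (nat_lit 170) (nat_lit 193))) (PT.nd (nat_lit 78) (PT.lf (nat_lit 45676) (nat_lit 6) (nat_lit 601) (nat_lit 1) (nat_lit 208) (nat_lit 170) (nat_lit 192)) (PT.lf (nat_lit 45600) (nat_lit 6) (nat_lit 600) (nat_lit 1) (nat_lit 209) (nat_lit 170) (nat_lit 191)))) (PT.nd (nat_lit 156) (PT.nd (nat_lit 78) (PT.lf (nat_lit 45524) (nat_lit 6) (nat_lit 599) (nat_lit 1) (nat_lit 210) (nat_lit 170) (nat_lit 190)) (PT.lf (nat_lit 43852) (nat_lit 6) (nat_lit 577) (nat_lit 1) (nat_lit 211) (nat_lit 170) (nat_lit 189))) (PT.nd (nat_lit 78) (PT.lf (nat_lit 42104) (nat_lit 6) (nat_lit 554) (nat_lit 1) (nat_lit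 212) (nat_lit 170) (nat_lit 188)) (PT.lf (nat_lit 40280) (nat_lit 6) (nat_lit 530) (nat_lit 1) (nat_lit 213) (nat_lit 170) (nat_lit 187)))))) (PT.nd (nat_lit 57642) (PT.nd (nat_lit 57330) (PT.nd (nat_lit 57174) (PT.nd (nat_lit 57096) (PT.lf (nat_lit 38380) (nat_lit 6) (nat_lit 505) (nat_lit 1) (nat_lit 214) (nat_lit 170) (nat_lit 186)) (PT.lf (nat_lit 38304) (nat_lit 6) (nat_lit 504) (nat_lit 3) (nat_lit 185) (nat_lit 171) (nat_lit 214))) (PT.nd (nat_lit 78) (PT.lf (nat_lit 40204) (nat_lit 6) (nat_lit 529) (nat_lit 3) (nat_lit 186) (nat_lit 171) (nat_lit 213)) (PT.lf (nat_lit 42028) (nat_lit 6) (nat_lit 553) (nat_lit 3) (nat_lit 187) (nat_lit 171) (nat_lit 212)))) (PT.nd (nat_lit 156) (PT.nd (nat_lit 78) (PT.lf (nat_lit 43776) (nat_lit 6) (nat_lit 576) (nat_lit 3) (nat_lit 188) (nat_lit 171) (nat_lit 211)) (PT.lf (nat_lit 45448) (nat_lit 6) (nat_lit 598) (nat_lit 3) (nat_lit 189) (nat_lit 171) (nat_lit 210))) (PT.nd (nat_lit 78) (PT.lf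 (nat_lit 47044) (nat_lit 6) (nat_lit 619) (nat_lit 3) (nat_lit 190) (nat_lit 171) (nat_lit 209)) (PT.lf (nat_lit 47120) (nat_lit 6) (nat_lit 620) (nat_lit 3) (nat_lit 191) (nat_lit 171) (nat_lit 208))))) (PT.nd (nat_lit 312) (PT.nd (nat_lit 156) (PT.nd (nat_lit 78) (PT.lf (nat_lit 47196) (nat_lit 6) (nat_lit 621) (nat_lit 3) (nat_lit 192) (nat_lit 171) (nat_lit 207)) (PT.lf (nat_lit 47272) (nat_lit 6) (nat_lit 622) (nat_lit 3) (nat_lit 193) (nat_lit 171) (nat_lit 206))) (PT.nd (nat_lit 78) (PT.lf (nat_lit 47348) (nat_lit 6) (nat_lit 623) (nat_lit 3) (nat_lit 194) (nat_lit 171) (nat_lit 205)) (PT.lf (nat_lit 47424) (nat_lit 6) (nat_lit 624) (nat_lit 3) (nat_lit 195) (nat_lit 171) (nat_lit 204)))) (PT.nd (nat_lit 156) (PT.nd (nat_lit 78) (PT.lf (nat_lit 47500) (nat_lit 6) (nat_lit 625) (nat_lit 3) (nat_lit 196) (nat_lit 171) (nat_lit 203)) (PT.lf (nat_lit 47576) (nat_lit 6) (nat_lit 626) (nat_lit 3) (nat_lit 197) (nat_lit 171) (nat_lit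 202))) (PT.nd (nat_lit 78) (PT.lf (nat_lit 47652) (nat_lit 6) (nat_lit 627) (nat_lit 3) (nat_lit 198) (nat_lit 171) (nat_lit 201)) (PT.nd (nat_lit 78) (PT.lf (nat_lit 47728) (nat_lit 6) (nat_lit 628) (nat_lit 3) (nat_lit 199) (nat_lit 171) (nat_lit 200)) (PT.lf (nat_lit 47728) (nat_lit 6) (nat_lit 628) (nat_lit 1) (nat_lit 200) (nat_lit 171) (nat_lit 199))))))))
noncomputable def pc29 : PT := (PT.nd (nat_lit 58188) (PT.nd (nat_lit 624) (PT.nd (nat_lit 312) (PT.nd (nat_lit 156) (PT.nd (nat_lit 78) (PT.lf (nat_lit 47652) (nat_lit 6) (nat_lit 627) (nat_lit 1) (nat_lit 201) (nat_lit 171) (nat_lit 198)) (PT.lf (nat_lit 47576) (nat_lit 6) (nat_lit 626) (nat_lit 1) (nat_lit 202) (nat_lit 171) (nat_lit 197))) (PT.nd (nat_lit 78) (PT.lf (nat_lit 47500) (nat_lit 6) (nat_lit 625) (nat_lit 1) (nat_lit 203) (nat_lit 171) (nat_lit 196)) (PT.lf (nat_lit 47424) (nat_lit 6) (nat_lit 624) (nat_lit 1) (nat_lit 204) (nat_lit 171) (nat_lit 195)))) (PT.nd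 (nat_lit 156) (PT.nd (nat_lit 78) (PT.lf (nat_lit 47348) (nat_lit 6) (nat_lit 623) (nat_lit 1) (nat_lit 205) (nat_lit 171) (nat_lit 194)) (PT.lf (nat_lit 47272) (nat_lit 6) (nat_lit 622) (nat_lit 1) (nat_lit 206) (nat_lit 171) (nat_lit 193))) (PT.nd (nat_lit 78) (PT.lf (nat_lit 47196) (nat_lit 6) (nat_lit 621) (nat_lit 1) (nat_lit 207) (nat_lit 171) (nat_lit 192)) (PT.lf (nat_lit 47120) (nat_lit 6) (nat_lit 620) (nat_lit 1) (nat_lit 208) (nat_lit 171) (nat_lit 191))))) (PT.nd (nat_lit 312) (PT.nd (nat_lit 156) (PT.nd (nat_lit 78) (PT.lf (nat_lit 47044) (nat_lit 6) (nat_lit 619) (nat_lit 1) (nat_lit 209) (nat_lit 171) (nat_lit 190)) (PT.lf (nat_lit 45448) (nat_lit 6) (nat_lit 598) (nat_lit 1) (nat_lit 210) (nat_lit 171) (nat_lit 189))) (PT.nd (nat_lit 78) (PT.lf (nat_lit 43776) (nat_lit 6) (nat_lit 576) (nat_lit 1) (nat_lit 211) (nat_lit 171) (nat_lit 188)) (PT.lf (nat_lit 42028) (nat_lit 6) (nat_lit 553) (nat_lit 1) (nat_lit 212) (nat_lit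 171) (nat_lit 187)))) (PT.nd (nat_lit 57096) (PT.nd (nat_lit 78) (PT.lf (nat_lit 40204) (nat_lit 6) (nat_lit 529) (nat_lit 1) (nat_lit 213) (nat_lit 171) (nat_lit 186)) (PT.lf (nat_lit 38304) (nat_lit 6) (nat_lit 504) (nat_lit 1) (nat_lit 214) (nat_lit 171) (nat_lit 185))) (PT.nd (nat_lit 78) (PT.lf (nat_lit 38228) (nat_lit 6) (nat_lit 503) (nat_lit 3) (nat_lit 184) (nat_lit 172) (nat_lit 214)) (PT.lf (nat_lit 40128) (nat_lit 6) (nat_lit 528) (nat_lit 3) (nat_lit 185) (nat_lit 172) (nat_lit 213)))))) (PT.nd (nat_lit 624) (PT.nd (nat_lit 312) (PT.nd (nat_lit 156) (PT.nd (nat_lit 78) (PT.lf (nat_lit 41952) (nat_lit 6) (nat_lit 552) (nat_lit 3) (nat_lit 186) (nat_lit 172) (nat_lit 212)) (PT.lf (nat_lit 43700) (nat_lit 6) (nat_lit 575) (nat_lit 3) (nat_lit 187) (nat_lit 172) (nat_lit 211))) (PT.nd (nat_lit 78) (PT.lf (nat_lit 45372) (nat_lit 6) (nat_lit 597) (nat_lit 3) (nat_lit 188) (nat_lit 172) (nat_lit 210)) (PT.lf (nat_lit 46968) (nat_lit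 6) (nat_lit 618) (nat_lit 3) (nat_lit 189) (nat_lit 172) (nat_lit 209)))) (PT.nd (nat_lit 156) (PT.nd (nat_lit 78) (PT.lf (nat_lit 48488) (nat_lit 6) (nat_lit 638) (nat_lit 3) (nat_lit 190) (nat_lit 172) (nat_lit 208)) (PT.lf (nat_lit 48564) (nat_lit 6) (nat_lit 639) (nat_lit 3) (nat_lit 191) (nat_lit 172) (nat_lit 207))) (PT.nd (nat_lit 78) (PT.lf (nat_lit 48640) (nat_lit 6) (nat_lit 640) (nat_lit 3) (nat_lit 192) (nat_lit 172) (nat_lit 206)) (PT.lf (nat_lit 48716) (nat_lit 6) (nat_lit 641) (nat_lit 3) (nat_lit 193) (nat_lit 172) (nat_lit 205))))) (PT.nd (nat_lit 312) (PT.nd (nat_lit 156) (PT.nd (nat_lit 78) (PT.lf (nat_lit 48792) (nat_lit 6) (nat_lit 642) (nat_lit 3) (nat_lit 194) (nat_lit 172) (nat_lit 204)) (PT.lf (nat_lit 48868) (nat_lit 6) (nat_lit 643) (nat_lit 3) (nat_lit 195) (nat_lit 172) (nat_lit 203))) (PT.nd (nat_lit 78) (PT.lf (nat_lit 48944) (nat_lit 6) (nat_lit 644) (nat_lit 3) (nat_lit 196) (nat_lit 172) (nat_lit 202))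 (PT.lf (nat_lit 49020) (nat_lit 6) (nat_lit 645) (nat_lit 3) (nat_lit 197) (nat_lit 172) (nat_lit 201)))) (PT.nd (nat_lit 156) (PT.nd (nat_lit 78) (PT.lf (nat_lit 49096) (nat_lit 6) (nat_lit 646) (nat_lit 3) (nat_lit 198) (nat_lit 172) (nat_lit 200)) (PT.lf (nat_lit 49172) (nat_lit 3) (nat_lit 647) (nat_lit 1) (nat_lit 199) (nat_lit 172) (nat_lit 199))) (PT.nd (nat_lit 78) (PT.lf (nat_lit 49096) (nat_lit 6) (nat_lit 646) (nat_lit 1) (nat_lit 200) (nat_lit 172) (nat_lit 198)) (PT.nd (nat_lit 78) (PT.lf (nat_lit 49020) (nat_lit 6) (nat_lit 645) (nat_lit 1) (nat_lit 201) (nat_lit 172) (nat_lit 197)) (PT.lf (nat_lit 48944) (nat_lit 6) (nat_lit 644) (nat_lit 1) (nat_lit 202) (nat_lit 172) (nat_lit 196))))))))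
noncomputable def pc30 : PT := (PT.nd (nat_lit 58110) (PT.nd (nat_lit 624) (PT.nd (nat_lit 312) (PT.nd (nat_lit 156) (PT.nd (nat_lit 78) (PT.lf (nat_lit 48868) (nat_lit 6) (nat_lit 643) (nat_lit 1) (nat_lit 203) (nat_lit 172) (nat_lit 195)) (PT.lf (nat_lit 48792) (nat_lit 6) (nat_lit 642) (nat_lit 1) (nat_lit 204) (nat_lit 172) (nat_lit 194))) (PT.nd (nat_lit 78) (PT.lf (nat_lit 48716) (nat_lit 6) (nat_lit 641) (nat_lit 1) (nat_lit 205) (nat_lit 172) (nat_lit 193)) (PT.lf (nat_lit 48640) (nat_lit 6) (nat_lit 640) (nat_lit 1) (nat_lit 206) (nat_lit 172) (nat_lit 192)))) (PT.nd (nat_lit 156) (PT.nd (nat_lit 78) (PT.lf (nat_lit 48564) (nat_lit 6) (nat_lit 639) (nat_lit 1) (nat_lit 207) (nat_lit 172) (nat_lit 191)) (PT.lf (nat_lit 48488) (nat_lit 6) (nat_lit 638) (nat_lit 1) (nat_lit 208) (nat_lit 172) (nat_lit 190))) (PT.nd (nat_lit 78) (PT.lf (nat_lit 46968) (nat_lit 6) (nat_lit 618) (nat_lit 1) (nat_lit 209) (nat_lit 172) (nat_lit 189))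 (PT.lf (nat_lit 45372) (nat_lit 6) (nat_lit 597) (nat_lit 1) (nat_lit 210) (nat_lit 172) (nat_lit 188))))) (PT.nd (nat_lit 57174) (PT.nd (nat_lit 156) (PT.nd (nat_lit 78) (PT.lf (nat_lit 43700) (nat_lit 6) (nat_lit 575) (nat_lit 1) (nat_lit 211) (nat_lit 172) (nat_lit 187)) (PT.lf (nat_lit 41952) (nat_lit 6) (nat_lit 552) (nat_lit 1) (nat_lit 212) (nat_lit 172) (nat_lit 186))) (PT.nd (nat_lit 78) (PT.lf (nat_lit 40128) (nat_lit 6) (nat_lit 528) (nat_lit 1) (nat_lit 213) (nat_lit 172) (nat_lit 185)) (PT.lf (nat_lit 38228) (nat_lit 6) (nat_lit 503) (nat_lit 1) (nat_lit 214) (nat_lit 172) (nat_lit 184)))) (PT.nd (nat_lit 156) (PT.nd (nat_lit 78) (PT.lf (nat_lit 38152) (nat_lit 6) (nat_lit 502) (nat_lit 3) (nat_lit 183) (nat_lit 173) (nat_lit 214)) (PT.lf (nat_lit 40052) (nat_lit 6) (nat_lit 527) (nat_lit 3) (nat_lit 184) (nat_lit 173) (nat_lit 213))) (PT.nd (nat_lit 78) (PT.lf (nat_lit 41876) (nat_lit 6) (nat_lit 551) (nat_lit 3) (nat_lit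 185) (nat_lit 173) (nat_lit 212)) (PT.lf (nat_lit 43624) (nat_lit 6) (nat_lit 574) (nat_lit 3) (nat_lit 186) (nat_lit 173) (nat_lit 211)))))) (PT.nd (nat_lit 624) (PT.nd (nat_lit 312) (PT.nd (nat_lit 156) (PT.nd (nat_lit 78) (PT.lf (nat_lit 45296) (nat_lit 6) (nat_lit 596) (nat_lit 3) (nat_lit 187) (nat_lit 173) (nat_lit 210)) (PT.lf (nat_lit 46892) (nat_lit 6) (nat_lit 617) (nat_lit 3) (nat_lit 188) (nat_lit 173) (nat_lit 209))) (PT.nd (nat_lit 78) (PT.lf (nat_lit 48412) (nat_lit 6) (nat_lit 637) (nat_lit 3) (nat_lit 189) (nat_lit 173) (nat_lit 208)) (PT.lf (nat_lit 49856) (nat_lit 6) (nat_lit 656) (nat_lit 3) (nat_lit 190) (nat_lit 173) (nat_lit 207)))) (PT.nd (nat_lit 156) (PT.nd (nat_lit 78) (PT.lf (nat_lit 49932) (nat_lit 6) (nat_lit 657) (nat_lit 3) (nat_lit 191) (nat_lit 173) (nat_lit 206)) (PT.lf (nat_lit 50008) (nat_lit 6) (nat_lit 658) (nat_lit 3) (nat_lit 192) (nat_lit 173) (nat_lit 205))) (PT.nd (nat_lit 78) (PT.lf (nat_lit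 50084) (nat_lit 6) (nat_lit 659) (nat_lit 3) (nat_lit 193) (nat_lit 173) (nat_lit 204)) (PT.lf (nat_lit 50160) (nat_lit 6) (nat_lit 660) (nat_lit 3) (nat_lit 194) (nat_lit 173) (nat_lit 203))))) (PT.nd (nat_lit 312) (PT.nd (nat_lit 156) (PT.nd (nat_lit 78) (PT.lf (nat_lit 50236) (nat_lit 6) (nat_lit 661) (nat_lit 3) (nat_lit 195) (nat_lit 173) (nat_lit 202)) (PT.lf (nat_lit 50312) (nat_lit 6) (nat_lit 662) (nat_lit 3) (nat_lit 196) (nat_lit 173) (nat_lit 201))) (PT.nd (nat_lit 78) (PT.lf (nat_lit 50388) (nat_lit 6) (nat_lit 663) (nat_lit 3) (nat_lit 197) (nat_lit 173) (nat_lit 200)) (PT.lf (nat_lit 50464) (nat_lit 6) (nat_lit 664) (nat_lit 3) (nat_lit 198) (nat_lit 173) (nat_lit 199)))) (PT.nd (nat_lit 156) (PT.nd (nat_lit 78) (PT.lf (nat_lit 50464) (nat_lit 6) (nat_lit 664) (nat_lit 1) (nat_lit 199) (nat_lit 173) (nat_lit 198)) (PT.lf (nat_lit 50388) (nat_lit 6) (nat_lit 663) (nat_lit 1) (nat_lit 200) (nat_lit 173) (nat_lit 197))) (PT.nd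 (nat_lit 78) (PT.lf (nat_lit 50312) (nat_lit 6) (nat_lit 662) (nat_lit 1) (nat_lit 201) (nat_lit 173) (nat_lit 196)) (PT.nd (nat_lit 78) (PT.lf (nat_lit 50236) (nat_lit 6) (nat_lit 661) (nat_lit 1) (nat_lit 202) (nat_lit 173) (nat_lit 195)) (PT.lf (nat_lit 50160) (nat_lit 6) (nat_lit 660) (nat_lit 1) (nat_lit 203) (nat_lit 173) (nat_lit 194))))))))
noncomputable def pc31 : PT := (PT.nd (nat_lit 58032) (PT.nd (nat_lit 624) (PT.nd (nat_lit 312) (PT.nd (nat_lit 156) (PT.nd (nat_lit 78) (PT.lf (nat_lit 50084) (nat_lit 6) (nat_lit 659) (nat_lit 1) (nat_lit 204) (nat_lit 173) (nat_lit 193)) (PT.lf (nat_lit 50008) (nat_lit 6) (nat_lit 658) (nat_lit 1) (nat_lit 205) (nat_lit 173) (nat_lit 192))) (PT.nd (nat_lit 78) (PT.lf (nat_lit 49932) (nat_lit 6) (nat_lit 657) (nat_lit 1) (nat_lit 206) (nat_lit 173) (nat_lit 191)) (PT.lf (nat_lit 49856) (nat_lit 6) (nat_lit 656) (nat_lit 1) (nat_lit 207) (nat_lit 173) (nat_lit 190)))) (PT.nd (nat_lit 156)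 (PT.nd (nat_lit 78) (PT.lf (nat_lit 48412) (nat_lit 6) (nat_lit 637) (nat_lit 1) (nat_lit 208) (nat_lit 173) (nat_lit 189)) (PT.lf (nat_lit 46892) (nat_lit 6) (nat_lit 617) (nat_lit 1) (nat_lit 209) (nat_lit 173) (nat_lit 188))) (PT.nd (nat_lit 78) (PT.lf (nat_lit 45296) (nat_lit 6) (nat_lit 596) (nat_lit 1) (nat_lit 210) (nat_lit 173) (nat_lit 187)) (PT.lf (nat_lit 43624) (nat_lit 6) (nat_lit 574) (nat_lit 1) (nat_lit 211) (nat_lit 173) (nat_lit 186))))) (PT.nd (nat_lit 57096) (PT.nd (nat_lit 156) (PT.nd (nat_lit 78) (PT.lf (nat_lit 41876) (nat_lit 6) (nat_lit 551) (nat_lit 1) (nat_lit 212) (nat_lit 173) (nat_lit 185)) (PT.lf (nat_lit 40052) (nat_lit 6) (nat_lit 527) (nat_lit 1) (nat_lit 213) (nat_lit 173) (nat_lit 184))) (PT.nd (nat_lit 56862) (PT.lf (nat_lit 38152) (nat_lit 6) (nat_lit 502) (nat_lit 1) (nat_lit 214) (nat_lit 173) (nat_lit 183)) (PT.lf (nat_lit 38076) (nat_lit 6) (nat_lit 501) (nat_lit 3) (nat_lit 182) (nat_lit 174)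 (nat_lit 214)))) (PT.nd (nat_lit 156) (PT.nd (nat_lit 78) (PT.lf (nat_lit 39976) (nat_lit 6) (nat_lit 526) (nat_lit 3) (nat_lit 183) (nat_lit 174) (nat_lit 213)) (PT.lf (nat_lit 41800) (nat_lit 6) (nat_lit 550) (nat_lit 3) (nat_lit 184) (nat_lit 174) (nat_lit 212))) (PT.nd (nat_lit 78) (PT.lf (nat_lit 43548) (nat_lit 6) (nat_lit 573) (nat_lit 3) (nat_lit 185) (nat_lit 174) (nat_lit 211)) (PT.lf (nat_lit 45220) (nat_lit 6) (nat_lit 595) (nat_lit 3) (nat_lit 186) (nat_lit 174) (nat_lit 210)))))) (PT.nd (nat_lit 624) (PT.nd (nat_lit 312) (PT.nd (nat_lit 156) (PT.nd (nat_lit 78) (PT.lf (nat_lit 46816) (nat_lit 6) (nat_lit 616) (nat_lit 3) (nat_lit 187) (nat_lit 174) (nat_lit 209)) (PT.lf (nat_lit 48336) (nat_lit 6) (nat_lit 636) (nat_lit 3) (nat_lit 188) (nat_lit 174) (nat_lit 208))) (PT.nd (nat_lit 78) (PT.lf (nat_lit 49780) (nat_lit 6) (nat_lit 655) (nat_lit 3) (nat_lit 189) (nat_lit 174) (nat_lit 207)) (PT.lf (nat_lit 51148) (nat_lit 6)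 (nat_lit 673) (nat_lit 3) (nat_lit 190) (nat_lit 174) (nat_lit 206)))) (PT.nd (nat_lit 156) (PT.nd (nat_lit 78) (PT.lf (nat_lit 51224) (nat_lit 6) (nat_lit 674) (nat_lit 3) (nat_lit 191) (nat_lit 174) (nat_lit 205)) (PT.lf (nat_lit 51300) (nat_lit 6) (nat_lit 675) (nat_lit 3) (nat_lit 192) (nat_lit 174) (nat_lit 204))) (PT.nd (nat_lit 78) (PT.lf (nat_lit 51376) (nat_lit 6) (nat_lit 676) (nat_lit 3) (nat_lit 193) (nat_lit 174) (nat_lit 203)) (PT.lf (nat_lit 51452) (nat_lit 6) (nat_lit 677) (nat_lit 3) (nat_lit 194) (nat_lit 174) (nat_lit 202))))) (PT.nd (nat_lit 312) (PT.nd (nat_lit 156) (PT.nd (nat_lit 78) (PT.lf (nat_lit 51528) (nat_lit 6) (nat_lit 678) (nat_lit 3) (nat_lit 195) (nat_lit 174) (nat_lit 201)) (PT.lf (nat_lit 51604) (nat_lit 6) (nat_lit 679) (nat_lit 3) (nat_lit 196) (nat_lit 174) (nat_lit 200))) (PT.nd (nat_lit 78) (PT.lf (nat_lit 51680) (nat_lit 6) (nat_lit 680) (nat_lit 3) (nat_lit 197) (nat_lit 174) (nat_lit 199)) (PT.lf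 (nat_lit 51756) (nat_lit 3) (nat_lit 681) (nat_lit 1) (nat_lit 198) (nat_lit 174) (nat_lit 198)))) (PT.nd (nat_lit 156) (PT.nd (nat_lit 78) (PT.lf (nat_lit 51680) (nat_lit 6) (nat_lit 680) (nat_lit 1) (nat_lit 199) (nat_lit 174) (nat_lit 197)) (PT.lf (nat_lit 51604) (nat_lit 6) (nat_lit 679) (nat_lit 1) (nat_lit 200) (nat_lit 174) (nat_lit 196))) (PT.nd (nat_lit 78) (PT.lf (nat_lit 51528) (nat_lit 6) (nat_lit 678) (nat_lit 1) (nat_lit 201) (nat_lit 174) (nat_lit 195)) (PT.nd (nat_lit 78) (PT.lf (nat_lit 51452) (nat_lit 6) (nat_lit 677) (nat_lit 1) (nat_lit 202) (nat_lit 174) (nat_lit 194)) (PT.lf (nat_lit 51376) (nat_lit 6) (nat_lit 676) (nat_lit 1) (nat_lit 203) (nat_lit 174) (nat_lit 193))))))))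
noncomputable def pc32 : PT := (PT.nd (nat_lit 57954) (PT.nd (nat_lit 624) (PT.nd (nat_lit 312) (PT.nd (nat_lit 156) (PT.nd (nat_lit 78) (PT.lf (nat_lit 51300) (nat_lit 6) (nat_lit 675) (nat_lit 1) (nat_lit 204) (nat_lit 174) (nat_lit 192)) (PT.lf (nat_lit 51224) (nat_lit 6) (nat_lit 674) (nat_lit 1) (nat_lit 205) (nat_lit 174) (nat_lit 191))) (PT.nd (nat_lit 78) (PT.lf (nat_lit 51148) (nat_lit 6) (nat_lit 673) (nat_lit 1) (nat_lit 206) (nat_lit 174) (nat_lit 190)) (PT.lf (nat_lit 49780) (nat_lit 6) (nat_lit 655) (nat_lit 1) (nat_lit 207) (nat_lit 174) (nat_lit 189)))) (PT.nd (nat_lit 156) (PT.nd (nat_lit 78) (PT.lf (nat_lit 48336) (nat_lit 6) (nat_lit 636) (nat_lit 1) (nat_lit 208) (nat_lit 174) (nat_lit 188)) (PT.lf (nat_lit 46816) (nat_lit 6) (nat_lit 616) (nat_lit 1) (nat_lit 209) (nat_lit 174) (nat_lit 187))) (PT.nd (nat_lit 78) (PT.lf (nat_lit 45220) (nat_lit 6) (nat_lit 595) (nat_lit 1) (nat_lit 210) (nat_lit 174) (nat_lit 186))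 (PT.lf (nat_lit 43548) (nat_lit 6) (nat_lit 573) (nat_lit 1) (nat_lit 211) (nat_lit 174) (nat_lit 185))))) (PT.nd (nat_lit 57018) (PT.nd (nat_lit 156) (PT.nd (nat_lit 78) (PT.lf (nat_lit 41800) (nat_lit 6) (nat_lit 550) (nat_lit 1) (nat_lit 212) (nat_lit 174) (nat_lit 184)) (PT.lf (nat_lit 39976) (nat_lit 6) (nat_lit 526) (nat_lit 1) (nat_lit 213) (nat_lit 174) (nat_lit 183))) (PT.nd (nat_lit 56784) (PT.lf (nat_lit 38076) (nat_lit 6) (nat_lit 501) (nat_lit 1) (nat_lit 214) (nat_lit 174) (nat_lit 182)) (PT.lf (nat_lit 38000) (nat_lit 6) (nat_lit 500) (nat_lit 3) (nat_lit 181) (nat_lit 175) (nat_lit 214)))) (PT.nd (nat_lit 156) (PT.nd (nat_lit 78) (PT.lf (nat_lit 39900) (nat_lit 6) (nat_lit 525) (nat_lit 3) (nat_lit 182) (nat_lit 175) (nat_lit 213)) (PT.lf (nat_lit 41724) (nat_lit 6) (nat_lit 549) (nat_lit 3) (nat_lit 183) (nat_lit 175) (nat_lit 212))) (PT.nd (nat_lit 78) (PT.lf (nat_lit 43472) (nat_lit 6) (nat_lit 572) (nat_lit 3) (nat_lit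 184) (nat_lit 175) (nat_lit 211)) (PT.lf (nat_lit 45144) (nat_lit 6) (nat_lit 594) (nat_lit 3) (nat_lit 185) (nat_lit 175) (nat_lit 210)))))) (PT.nd (nat_lit 624) (PT.nd (nat_lit 312) (PT.nd (nat_lit 156) (PT.nd (nat_lit 78) (PT.lf (nat_lit 46740) (nat_lit 6) (nat_lit 615) (nat_lit 3) (nat_lit 186) (nat_lit 175) (nat_lit 209)) (PT.lf (nat_lit 48260) (nat_lit 6) (nat_lit 635) (nat_lit 3) (nat_lit 187) (nat_lit 175) (nat_lit 208))) (PT.nd (nat_lit 78) (PT.lf (nat_lit 49704) (nat_lit 6) (nat_lit 654) (nat_lit 3) (nat_lit 188) (nat_lit 175) (nat_lit 207)) (PT.lf (nat_lit 51072) (nat_lit 6) (nat_lit 672) (nat_lit 3) (nat_lit 189) (nat_lit 175) (nat_lit 206)))) (PT.nd (nat_lit 156) (PT.nd (nat_lit 78) (PT.lf (nat_lit 52364) (nat_lit 6) (nat_lit 689) (nat_lit 3) (nat_lit 190) (nat_lit 175) (nat_lit 205)) (PT.lf (nat_lit 52440) (nat_lit 6) (nat_lit 690) (nat_lit 3) (nat_lit 191) (nat_lit 175) (nat_lit 204))) (PT.nd (nat_lit 78) (PT.lf (nat_lit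 52516) (nat_lit 6) (nat_lit 691) (nat_lit 3) (nat_lit 192) (nat_lit 175) (nat_lit 203)) (PT.lf (nat_lit 52592) (nat_lit 6) (nat_lit 692) (nat_lit 3) (nat_lit 193) (nat_lit 175) (nat_lit 202))))) (PT.nd (nat_lit 312) (PT.nd (nat_lit 156) (PT.nd (nat_lit 78) (PT.lf (nat_lit 52668) (nat_lit 6) (nat_lit 693) (nat_lit 3) (nat_lit 194) (nat_lit 175) (nat_lit 201)) (PT.lf (nat_lit 52744) (nat_lit 6) (nat_lit 694) (nat_lit 3) (nat_lit 195) (nat_lit 175) (nat_lit 200))) (PT.nd (nat_lit 78) (PT.lf (nat_lit 52820) (nat_lit 6) (nat_lit 695) (nat_lit 3) (nat_lit 196) (nat_lit 175) (nat_lit 199)) (PT.lf (nat_lit 52896) (nat_lit 6) (nat_lit 696) (nat_lit 3) (nat_lit 197) (nat_lit 175) (nat_lit 198)))) (PT.nd (nat_lit 156) (PT.nd (nat_lit 78) (PT.lf (nat_lit 52896) (nat_lit 6) (nat_lit 696) (nat_lit 1) (nat_lit 198) (nat_lit 175) (nat_lit 197)) (PT.lf (nat_lit 52820) (nat_lit 6) (nat_lit 695) (nat_lit 1) (nat_lit 199) (nat_lit 175) (nat_lit 196))) (PT.nd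 (nat_lit 78) (PT.lf (nat_lit 52744) (nat_lit 6) (nat_lit 694) (nat_lit 1) (nat_lit 200) (nat_lit 175) (nat_lit 195)) (PT.lf (nat_lit 52668) (nat_lit 6) (nat_lit 693) (nat_lit 1) (nat_lit 201) (nat_lit 175) (nat_lit 194)))))))
noncomputable def pc33 : PT := (PT.nd (nat_lit 57876) (PT.nd (nat_lit 624) (PT.nd (nat_lit 312) (PT.nd (nat_lit 156) (PT.nd (nat_lit 78) (PT.lf (nat_lit 52592) (nat_lit 6) (nat_lit 692) (nat_lit 1) (nat_lit 202) (nat_lit 175) (nat_lit 193)) (PT.lf (nat_lit 52516) (nat_lit 6) (nat_lit 691) (nat_lit 1) (nat_lit 203) (nat_lit 175) (nat_lit 192))) (PT.nd (nat_lit 78) (PT.lf (nat_lit 52440) (nat_lit 6) (nat_lit 690) (nat_lit 1) (nat_lit 204) (nat_lit 175) (nat_lit 191)) (PT.lf (nat_lit 52364) (nat_lit 6) (nat_lit 689) (nat_lit 1) (nat_lit 205) (nat_lit 175) (nat_lit 190)))) (PT.nd (nat_lit 156) (PT.nd (nat_lit 78) (PT.lf (nat_lit 51072) (nat_lit 6) (nat_lit 672) (nat_lit 1) (nat_lit 206) (nat_lit 175) (nat_lit 189)) (PT.lf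 (nat_lit 49704) (nat_lit 6) (nat_lit 654) (nat_lit 1) (nat_lit 207) (nat_lit 175) (nat_lit 188))) (PT.nd (nat_lit 78) (PT.lf (nat_lit 48260) (nat_lit 6) (nat_lit 635) (nat_lit 1) (nat_lit 208) (nat_lit 175) (nat_lit 187)) (PT.lf (nat_lit 46740) (nat_lit 6) (nat_lit 615) (nat_lit 1) (nat_lit 209) (nat_lit 175) (nat_lit 186))))) (PT.nd (nat_lit 312) (PT.nd (nat_lit 156) (PT.nd (nat_lit 78) (PT.lf (nat_lit 45144) (nat_lit 6) (nat_lit 594) (nat_lit 1) (nat_lit 210) (nat_lit 175) (nat_lit 185)) (PT.lf (nat_lit 43472) (nat_lit 6) (nat_lit 572) (nat_lit 1) (nat_lit 211) (nat_lit 175) (nat_lit 184))) (PT.nd (nat_lit 78) (PT.lf (nat_lit 41724) (nat_lit 6) (nat_lit 549) (nat_lit 1) (nat_lit 212) (nat_lit 175) (nat_lit 183)) (PT.lf (nat_lit 39900) (nat_lit 6) (nat_lit 525) (nat_lit 1) (nat_lit 213) (nat_lit 175) (nat_lit 182)))) (PT.nd (nat_lit 56784) (PT.nd (nat_lit 56706) (PT.lf (nat_lit 38000) (nat_lit 6) (nat_lit 500) (nat_lit 1) (nat_lit 214)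 (nat_lit 175) (nat_lit 181)) (PT.lf (nat_lit 37924) (nat_lit 6) (nat_lit 499) (nat_lit 3) (nat_lit 180) (nat_lit 176) (nat_lit 214))) (PT.nd (nat_lit 78) (PT.lf (nat_lit 39824) (nat_lit 6) (nat_lit 524) (nat_lit 3) (nat_lit 181) (nat_lit 176) (nat_lit 213)) (PT.lf (nat_lit 41648) (nat_lit 6) (nat_lit 548) (nat_lit 3) (nat_lit 182) (nat_lit 176) (nat_lit 212)))))) (PT.nd (nat_lit 624) (PT.nd (nat_lit 312) (PT.nd (nat_lit 156) (PT.nd (nat_lit 78) (PT.lf (nat_lit 43396) (nat_lit 6) (nat_lit 571) (nat_lit 3) (nat_lit 183) (nat_lit 176) (nat_lit 211)) (PT.lf (nat_lit 45068) (nat_lit 6) (nat_lit 593) (nat_lit 3) (nat_lit 184) (nat_lit 176) (nat_lit 210))) (PT.nd (nat_lit 78) (PT.lf (nat_lit 46664) (nat_lit 6) (nat_lit 614) (nat_lit 3) (nat_lit 185) (nat_lit 176) (nat_lit 209)) (PT.lf (nat_lit 48184) (nat_lit 6) (nat_lit 634) (nat_lit 3) (nat_lit 186) (nat_lit 176) (nat_lit 208)))) (PT.nd (nat_lit 156) (PT.nd (nat_lit 78) (PT.lf (nat_lit 49628)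 (nat_lit 6) (nat_lit 653) (nat_lit 3) (nat_lit 187) (nat_lit 176) (nat_lit 207)) (PT.lf (nat_lit 50996) (nat_lit 6) (nat_lit 671) (nat_lit 3) (nat_lit 188) (nat_lit 176) (nat_lit 206))) (PT.nd (nat_lit 78) (PT.lf (nat_lit 52288) (nat_lit 6) (nat_lit 688) (nat_lit 3) (nat_lit 189) (nat_lit 176) (nat_lit 205)) (PT.lf (nat_lit 53504) (nat_lit 6) (nat_lit 704) (nat_lit 3) (nat_lit 190) (nat_lit 176) (nat_lit 204))))) (PT.nd (nat_lit 312) (PT.nd (nat_lit 156) (PT.nd (nat_lit 78) (PT.lf (nat_lit 53580) (nat_lit 6) (nat_lit 705) (nat_lit 3) (nat_lit 191) (nat_lit 176) (nat_lit 203)) (PT.lf (nat_lit 53656) (nat_lit 6) (nat_lit 706) (nat_lit 3) (nat_lit 192) (nat_lit 176) (nat_lit 202))) (PT.nd (nat_lit 78) (PT.lf (nat_lit 53732) (nat_lit 6) (nat_lit 707) (nat_lit 3) (nat_lit 193) (nat_lit 176) (nat_lit 201)) (PT.lf (nat_lit 53808) (nat_lit 6) (nat_lit 708) (nat_lit 3) (nat_lit 194) (nat_lit 176) (nat_lit 200)))) (PT.nd (nat_lit 156) (PT.nd (nat_lit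 78) (PT.lf (nat_lit 53884) (nat_lit 6) (nat_lit 709) (nat_lit 3) (nat_lit 195) (nat_lit 176) (nat_lit 199)) (PT.lf (nat_lit 53960) (nat_lit 6) (nat_lit 710) (nat_lit 3) (nat_lit 196) (nat_lit 176) (nat_lit 198))) (PT.nd (nat_lit 78) (PT.lf (nat_lit 54036) (nat_lit 3) (nat_lit 711) (nat_lit 1) (nat_lit 197) (nat_lit 176) (nat_lit 197)) (PT.nd (nat_lit 78) (PT.lf (nat_lit 53960) (nat_lit 6) (nat_lit 710) (nat_lit 1) (nat_lit 198) (nat_lit 176) (nat_lit 196)) (PT.lf (nat_lit 53884) (nat_lit 6) (nat_lit 709) (nat_lit 1) (nat_lit 199) (nat_lit 176) (nat_lit 195))))))))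
noncomputable def pc34 : PT := (PT.nd (nat_lit 57798) (PT.nd (nat_lit 624) (PT.nd (nat_lit 312) (PT.nd (nat_lit 156) (PT.nd (nat_lit 78) (PT.lf (nat_lit 53808) (nat_lit 6) (nat_lit 708) (nat_lit 1) (nat_lit 200) (nat_lit 176) (nat_lit 194)) (PT.lf (nat_lit 53732) (nat_lit 6) (nat_lit 707) (nat_lit 1) (nat_lit 201) (nat_lit 176) (nat_lit 193))) (PT.nd (nat_lit 78) (PT.lf (nat_lit 53656) (nat_lit 6) (nat_lit 706) (nat_lit 1) (nat_lit 202) (nat_lit 176) (nat_lit 192)) (PT.lf (nat_lit 53580) (nat_lit 6) (nat_lit 705) (nat_lit 1) (nat_lit 203) (nat_lit 176) (nat_lit 191)))) (PT.nd (nat_lit 156) (PT.nd (nat_lit 78) (PT.lf (nat_lit 53504) (nat_lit 6) (nat_lit 704) (nat_lit 1) (nat_lit 204) (nat_lit 176) (nat_lit 190)) (PT.lf (nat_lit 52288) (nat_lit 6) (nat_lit 688) (nat_lit 1) (nat_lit 205) (nat_lit 176) (nat_lit 189))) (PT.nd (nat_lit 78) (PT.lf (nat_lit 50996) (nat_lit 6) (nat_lit 671) (nat_lit 1) (nat_lit 206) (nat_lit 176) (nat_lit 188))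 (PT.lf (nat_lit 49628) (nat_lit 6) (nat_lit 653) (nat_lit 1) (nat_lit 207) (nat_lit 176) (nat_lit 187))))) (PT.nd (nat_lit 312) (PT.nd (nat_lit 156) (PT.nd (nat_lit 78) (PT.lf (nat_lit 48184) (nat_lit 6) (nat_lit 634) (nat_lit 1) (nat_lit 208) (nat_lit 176) (nat_lit 186)) (PT.lf (nat_lit 46664) (nat_lit 6) (nat_lit 614) (nat_lit 1) (nat_lit 209) (nat_lit 176) (nat_lit 185))) (PT.nd (nat_lit 78) (PT.lf (nat_lit 45068) (nat_lit 6) (nat_lit 593) (nat_lit 1) (nat_lit 210) (nat_lit 176) (nat_lit 184)) (PT.lf (nat_lit 43396) (nat_lit 6) (nat_lit 571) (nat_lit 1) (nat_lit 211) (nat_lit 176) (nat_lit 183)))) (PT.nd (nat_lit 156) (PT.nd (nat_lit 78) (PT.lf (nat_lit 41648) (nat_lit 6) (nat_lit 548) (nat_lit 1) (nat_lit 212) (nat_lit 176) (nat_lit 182)) (PT.lf (nat_lit 39824) (nat_lit 6) (nat_lit 524) (nat_lit 1) (nat_lit 213) (nat_lit 176) (nat_lit 181))) (PT.nd (nat_lit 56628) (PT.lf (nat_lit 37924) (nat_lit 6) (nat_lit 499) (nat_lit 1) (nat_lit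 214) (nat_lit 176) (nat_lit 180)) (PT.lf (nat_lit 37848) (nat_lit 6) (nat_lit 498) (nat_lit 3) (nat_lit 179) (nat_lit 177) (nat_lit 214)))))) (PT.nd (nat_lit 624) (PT.nd (nat_lit 312) (PT.nd (nat_lit 156) (PT.nd (nat_lit 78) (PT.lf (nat_lit 39748) (nat_lit 6) (nat_lit 523) (nat_lit 3) (nat_lit 180) (nat_lit 177) (nat_lit 213)) (PT.lf (nat_lit 41572) (nat_lit 6) (nat_lit 547) (nat_lit 3) (nat_lit 181) (nat_lit 177) (nat_lit 212))) (PT.nd (nat_lit 78) (PT.lf (nat_lit 43320) (nat_lit 6) (nat_lit 570) (nat_lit 3) (nat_lit 182) (nat_lit 177) (nat_lit 211)) (PT.lf (nat_lit 44992) (nat_lit 6) (nat_lit 592) (nat_lit 3) (nat_lit 183) (nat_lit 177) (nat_lit 210)))) (PT.nd (nat_lit 156) (PT.nd (nat_lit 78) (PT.lf (nat_lit 46588) (nat_lit 6) (nat_lit 613) (nat_lit 3) (nat_lit 184) (nat_lit 177) (nat_lit 209)) (PT.lf (nat_lit 48108) (nat_lit 6) (nat_lit 633) (nat_lit 3) (nat_lit 185) (nat_lit 177) (nat_lit 208))) (PT.nd (nat_lit 78) (PT.lf (nat_lit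 49552) (nat_lit 6) (nat_lit 652) (nat_lit 3) (nat_lit 186) (nat_lit 177) (nat_lit 207)) (PT.lf (nat_lit 50920) (nat_lit 6) (nat_lit 670) (nat_lit 3) (nat_lit 187) (nat_lit 177) (nat_lit 206))))) (PT.nd (nat_lit 312) (PT.nd (nat_lit 156) (PT.nd (nat_lit 78) (PT.lf (nat_lit 52212) (nat_lit 6) (nat_lit 687) (nat_lit 3) (nat_lit 188) (nat_lit 177) (nat_lit 205)) (PT.lf (nat_lit 53428) (nat_lit 6) (nat_lit 703) (nat_lit 3) (nat_lit 189) (nat_lit 177) (nat_lit 204))) (PT.nd (nat_lit 78) (PT.lf (nat_lit 54568) (nat_lit 6) (nat_lit 718) (nat_lit 3) (nat_lit 190) (nat_lit 177) (nat_lit 203)) (PT.lf (nat_lit 54644) (nat_lit 6) (nat_lit 719) (nat_lit 3) (nat_lit 191) (nat_lit 177) (nat_lit 202)))) (PT.nd (nat_lit 156) (PT.nd (nat_lit 78) (PT.lf (nat_lit 54720) (nat_lit 6) (nat_lit 720) (nat_lit 3) (nat_lit 192) (nat_lit 177) (nat_lit 201)) (PT.lf (nat_lit 54796) (nat_lit 6) (nat_lit 721) (nat_lit 3) (nat_lit 193) (nat_lit 177) (nat_lit 200))) (PT.nd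 (nat_lit 78) (PT.lf (nat_lit 54872) (nat_lit 6) (nat_lit 722) (nat_lit 3) (nat_lit 194) (nat_lit 177) (nat_lit 199)) (PT.nd (nat_lit 78) (PT.lf (nat_lit 54948) (nat_lit 6) (nat_lit 723) (nat_lit 3) (nat_lit 195) (nat_lit 177) (nat_lit 198)) (PT.lf (nat_lit 55024) (nat_lit 6) (nat_lit 724) (nat_lit 3) (nat_lit 196) (nat_lit 177) (nat_lit 197))))))))
noncomputable def pc35 : PT := (PT.nd (nat_lit 1248) (PT.nd (nat_lit 624) (PT.nd (nat_lit 312) (PT.nd (nat_lit 156) (PT.nd (nat_lit 78) (PT.lf (nat_lit 55024) (nat_lit 6) (nat_lit 724) (nat_lit 1) (nat_lit 197) (nat_lit 177) (nat_lit 196)) (PT.lf (nat_lit 54948) (nat_lit 6) (nat_lit 723) (nat_lit 1) (nat_lit 198) (nat_lit 177) (nat_lit 195))) (PT.nd (nat_lit 78) (PT.lf (nat_lit 54872) (nat_lit 6) (nat_lit 722) (nat_lit 1) (nat_lit 199) (nat_lit 177) (nat_lit 194)) (PT.lf (nat_lit 54796) (nat_lit 6) (nat_lit 721) (nat_lit 1) (nat_lit 200) (nat_lit 177) (nat_lit 193)))) (PT.nd (nat_lit 156) (PT.nd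 (nat_lit 78) (PT.lf (nat_lit 54720) (nat_lit 6) (nat_lit 720) (nat_lit 1) (nat_lit 201) (nat_lit 177) (nat_lit 192)) (PT.lf (nat_lit 54644) (nat_lit 6) (nat_lit 719) (nat_lit 1) (nat_lit 202) (nat_lit 177) (nat_lit 191))) (PT.nd (nat_lit 78) (PT.lf (nat_lit 54568) (nat_lit 6) (nat_lit 718) (nat_lit 1) (nat_lit 203) (nat_lit 177) (nat_lit 190)) (PT.lf (nat_lit 53428) (nat_lit 6) (nat_lit 703) (nat_lit 1) (nat_lit 204) (nat_lit 177) (nat_lit 189))))) (PT.nd (nat_lit 312) (PT.nd (nat_lit 156) (PT.nd (nat_lit 78) (PT.lf (nat_lit 52212) (nat_lit 6) (nat_lit 687) (nat_lit 1) (nat_lit 205) (nat_lit 177) (nat_lit 188)) (PT.lf (nat_lit 50920) (nat_lit 6) (nat_lit 670) (nat_lit 1) (nat_lit 206) (nat_lit 177) (nat_lit 187))) (PT.nd (nat_lit 78) (PT.lf (nat_lit 49552) (nat_lit 6) (nat_lit 652) (nat_lit 1) (nat_lit 207) (nat_lit 177) (nat_lit 186)) (PT.lf (nat_lit 48108) (nat_lit 6) (nat_lit 633) (nat_lit 1) (nat_lit 208) (nat_lit 177) (nat_lit 185))))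 (PT.nd (nat_lit 156) (PT.nd (nat_lit 78) (PT.lf (nat_lit 46588) (nat_lit 6) (nat_lit 613) (nat_lit 1) (nat_lit 209) (nat_lit 177) (nat_lit 184)) (PT.lf (nat_lit 44992) (nat_lit 6) (nat_lit 592) (nat_lit 1) (nat_lit 210) (nat_lit 177) (nat_lit 183))) (PT.nd (nat_lit 78) (PT.lf (nat_lit 43320) (nat_lit 6) (nat_lit 570) (nat_lit 1) (nat_lit 211) (nat_lit 177) (nat_lit 182)) (PT.lf (nat_lit 41572) (nat_lit 6) (nat_lit 547) (nat_lit 1) (nat_lit 212) (nat_lit 177) (nat_lit 181)))))) (PT.nd (nat_lit 57096) (PT.nd (nat_lit 56784) (PT.nd (nat_lit 56628) (PT.nd (nat_lit 78) (PT.lf (nat_lit 39748) (nat_lit 6) (nat_lit 523) (nat_lit 1) (nat_lit 213) (nat_lit 177) (nat_lit 180)) (PT.lf (nat_lit 37848) (nat_lit 6) (nat_lit 498) (nat_lit 1) (nat_lit 214) (nat_lit 177) (nat_lit 179))) (PT.nd (nat_lit 78) (PT.lf (nat_lit 37772) (nat_lit 3) (nat_lit 497) (nat_lit 3) (nat_lit 178) (nat_lit 178) (nat_lit 214)) (PT.lf (nat_lit 39672) (nat_lit 6) (nat_lit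 522) (nat_lit 3) (nat_lit 179) (nat_lit 178) (nat_lit 213)))) (PT.nd (nat_lit 156) (PT.nd (nat_lit 78) (PT.lf (nat_lit 41496) (nat_lit 6) (nat_lit 546) (nat_lit 3) (nat_lit 180) (nat_lit 178) (nat_lit 212)) (PT.lf (nat_lit 43244) (nat_lit 6) (nat_lit 569) (nat_lit 3) (nat_lit 181) (nat_lit 178) (nat_lit 211))) (PT.nd (nat_lit 78) (PT.lf (nat_lit 44916) (nat_lit 6) (nat_lit 591) (nat_lit 3) (nat_lit 182) (nat_lit 178) (nat_lit 210)) (PT.lf (nat_lit 46512) (nat_lit 6) (nat_lit 612) (nat_lit 3) (nat_lit 183) (nat_lit 178) (nat_lit 209))))) (PT.nd (nat_lit 312) (PT.nd (nat_lit 156) (PT.nd (nat_lit 78) (PT.lf (nat_lit 48032) (nat_lit 6) (nat_lit 632) (nat_lit 3) (nat_lit 184) (nat_lit 178) (nat_lit 208)) (PT.lf (nat_lit 49476) (nat_lit 6) (nat_lit 651) (nat_lit 3) (nat_lit 185) (nat_lit 178) (nat_lit 207))) (PT.nd (nat_lit 78) (PT.lf (nat_lit 50844) (nat_lit 6) (nat_lit 669) (nat_lit 3) (nat_lit 186) (nat_lit 178) (nat_lit 206)) (PT.lf (nat_lit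 52136) (nat_lit 6) (nat_lit 686) (nat_lit 3) (nat_lit 187) (nat_lit 178) (nat_lit 205)))) (PT.nd (nat_lit 156) (PT.nd (nat_lit 78) (PT.lf (nat_lit 53352) (nat_lit 6) (nat_lit 702) (nat_lit 3) (nat_lit 188) (nat_lit 178) (nat_lit 204)) (PT.lf (nat_lit 54492) (nat_lit 6) (nat_lit 717) (nat_lit 3) (nat_lit 189) (nat_lit 178) (nat_lit 203))) (PT.nd (nat_lit 78) (PT.lf (nat_lit 55556) (nat_lit 6) (nat_lit 731) (nat_lit 3) (nat_lit 190) (nat_lit 178) (nat_lit 202)) (PT.nd (nat_lit 78) (PT.lf (nat_lit 55632) (nat_lit 6) (nat_lit 732) (nat_lit 3) (nat_lit 191) (nat_lit 178) (nat_lit 201)) (PT.lf (nat_lit 55708) (nat_lit 6) (nat_lit 733) (nat_lit 3) (nat_lit 192) (nat_lit 178) (nat_lit 200))))))))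
noncomputable def pc36 : PT := (PT.nd (nat_lit 1248) (PT.nd (nat_lit 624) (PT.nd (nat_lit 312) (PT.nd (nat_lit 156) (PT.nd (nat_lit 78) (PT.lf (nat_lit 55784) (nat_lit 6) (nat_lit 734) (nat_lit 3) (nat_lit 193) (nat_lit 178) (nat_lit 199)) (PT.lf (nat_lit 55860) (nat_lit 6) (nat_lit 735) (nat_lit 3) (nat_lit 194) (nat_lit 178) (nat_lit 198))) (PT.nd (nat_lit 78) (PT.lf (nat_lit 55936) (nat_lit 6) (nat_lit 736) (nat_lit 3) (nat_lit 195) (nat_lit 178) (nat_lit 197)) (PT.lf (nat_lit 56012) (nat_lit 3) (nat_lit 737) (nat_lit 1) (nat_lit 196) (nat_lit 178) (nat_lit 196)))) (PT.nd (nat_lit 156) (PT.nd (nat_lit 78) (PT.lf (nat_lit 55936) (nat_lit 6) (nat_lit 736) (nat_lit 1) (nat_lit 197) (nat_lit 178) (nat_lit 195)) (PT.lf (nat_lit 55860) (nat_lit 6) (nat_lit 735) (nat_lit 1) (nat_lit 198) (nat_lit 178) (nat_lit 194))) (PT.nd (nat_lit 78) (PT.lf (nat_lit 55784) (nat_lit 6) (nat_lit 734) (nat_lit 1) (nat_lit 199) (nat_lit 178) (nat_lit 193))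 (PT.lf (nat_lit 55708) (nat_lit 6) (nat_lit 733) (nat_lit 1) (nat_lit 200) (nat_lit 178) (nat_lit 192))))) (PT.nd (nat_lit 312) (PT.nd (nat_lit 156) (PT.nd (nat_lit 78) (PT.lf (nat_lit 55632) (nat_lit 6) (nat_lit 732) (nat_lit 1) (nat_lit 201) (nat_lit 178) (nat_lit 191)) (PT.lf (nat_lit 55556) (nat_lit 6) (nat_lit 731) (nat_lit 1) (nat_lit 202) (nat_lit 178) (nat_lit 190))) (PT.nd (nat_lit 78) (PT.lf (nat_lit 54492) (nat_lit 6) (nat_lit 717) (nat_lit 1) (nat_lit 203) (nat_lit 178) (nat_lit 189)) (PT.lf (nat_lit 53352) (nat_lit 6) (nat_lit 702) (nat_lit 1) (nat_lit 204) (nat_lit 178) (nat_lit 188)))) (PT.nd (nat_lit 156) (PT.nd (nat_lit 78) (PT.lf (nat_lit 52136) (nat_lit 6) (nat_lit 686) (nat_lit 1) (nat_lit 205) (nat_lit 178) (nat_lit 187)) (PT.lf (nat_lit 50844) (nat_lit 6) (nat_lit 669) (nat_lit 1) (nat_lit 206) (nat_lit 178) (nat_lit 186))) (PT.nd (nat_lit 78) (PT.lf (nat_lit 49476) (nat_lit 6) (nat_lit 651) (nat_lit 1) (nat_lit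 207) (nat_lit 178) (nat_lit 185)) (PT.lf (nat_lit 48032) (nat_lit 6) (nat_lit 632) (nat_lit 1) (nat_lit 208) (nat_lit 178) (nat_lit 184)))))) (PT.nd (nat_lit 57018) (PT.nd (nat_lit 312) (PT.nd (nat_lit 156) (PT.nd (nat_lit 78) (PT.lf (nat_lit 46512) (nat_lit 6) (nat_lit 612) (nat_lit 1) (nat_lit 209) (nat_lit 178) (nat_lit 183)) (PT.lf (nat_lit 44916) (nat_lit 6) (nat_lit 591) (nat_lit 1) (nat_lit 210) (nat_lit 178) (nat_lit 182))) (PT.nd (nat_lit 78) (PT.lf (nat_lit 43244) (nat_lit 6) (nat_lit 569) (nat_lit 1) (nat_lit 211) (nat_lit 178) (nat_lit 181)) (PT.lf (nat_lit 41496) (nat_lit 6) (nat_lit 546) (nat_lit 1) (nat_lit 212) (nat_lit 178) (nat_lit 180)))) (PT.nd (nat_lit 56550) (PT.nd (nat_lit 78) (PT.lf (nat_lit 39672) (nat_lit 6) (nat_lit 522) (nat_lit 1) (nat_lit 213) (nat_lit 178) (nat_lit 179)) (PT.lf (nat_lit 37772) (nat_lit 3) (nat_lit 497) (nat_lit 0) (nat_lit 214) (nat_lit 178) (nat_lit 178))) (PT.nd (nat_lit 78) (PT.lf (nat_lit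 37848) (nat_lit 6) (nat_lit 498) (nat_lit 5) (nat_lit 177) (nat_lit 179) (nat_lit 214)) (PT.lf (nat_lit 39672) (nat_lit 6) (nat_lit 522) (nat_lit 5) (nat_lit 178) (nat_lit 179) (nat_lit 213))))) (PT.nd (nat_lit 312) (PT.nd (nat_lit 156) (PT.nd (nat_lit 78) (PT.lf (nat_lit 41420) (nat_lit 3) (nat_lit 545) (nat_lit 3) (nat_lit 179) (nat_lit 179) (nat_lit 212)) (PT.lf (nat_lit 43168) (nat_lit 6) (nat_lit 568) (nat_lit 3) (nat_lit 180) (nat_lit 179) (nat_lit 211))) (PT.nd (nat_lit 78) (PT.lf (nat_lit 44840) (nat_lit 6) (nat_lit 590) (nat_lit 3) (nat_lit 181) (nat_lit 179) (nat_lit 210)) (PT.lf (nat_lit 46436) (nat_lit 6) (nat_lit 611) (nat_lit 3) (nat_lit 182) (nat_lit 179) (nat_lit 209)))) (PT.nd (nat_lit 156) (PT.nd (nat_lit 78) (PT.lf (nat_lit 47956) (nat_lit 6) (nat_lit 631) (nat_lit 3) (nat_lit 183) (nat_lit 179) (nat_lit 208)) (PT.lf (nat_lit 49400) (nat_lit 6) (nat_lit 650) (nat_lit 3) (nat_lit 184) (nat_lit 179) (nat_lit 207))) (PT.nd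 (nat_lit 78) (PT.lf (nat_lit 50768) (nat_lit 6) (nat_lit 668) (nat_lit 3) (nat_lit 185) (nat_lit 179) (nat_lit 206)) (PT.lf (nat_lit 52060) (nat_lit 6) (nat_lit 685) (nat_lit 3) (nat_lit 186) (nat_lit 179) (nat_lit 205)))))))
noncomputable def pc37 : PT := (PT.nd (nat_lit 1248) (PT.nd (nat_lit 624) (PT.nd (nat_lit 312) (PT.nd (nat_lit 156) (PT.nd (nat_lit 78) (PT.lf (nat_lit 53276) (nat_lit 6) (nat_lit 701) (nat_lit 3) (nat_lit 187) (nat_lit 179) (nat_lit 204)) (PT.lf (nat_lit 54416) (nat_lit 6) (nat_lit 716) (nat_lit 3) (nat_lit 188) (nat_lit 179) (nat_lit 203))) (PT.nd (nat_lit 78) (PT.lf (nat_lit 55480) (nat_lit 6) (nat_lit 730) (nat_lit 3) (nat_lit 189) (nat_lit 179) (nat_lit 202)) (PT.lf (nat_lit 56468) (nat_lit 6) (nat_lit 743) (nat_lit 3) (nat_lit 190) (nat_lit 179) (nat_lit 201)))) (PT.nd (nat_lit 156) (PT.nd (nat_lit 78) (PT.lf (nat_lit 56544) (nat_lit 6) (nat_lit 744) (nat_lit 3) (nat_lit 191) (nat_lit 179) (nat_lit 200)) (PT.lf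 (nat_lit 56620) (nat_lit 6) (nat_lit 745) (nat_lit 3) (nat_lit 192) (nat_lit 179) (nat_lit 199))) (PT.nd (nat_lit 78) (PT.lf (nat_lit 56696) (nat_lit 6) (nat_lit 746) (nat_lit 3) (nat_lit 193) (nat_lit 179) (nat_lit 198)) (PT.lf (nat_lit 56772) (nat_lit 6) (nat_lit 747) (nat_lit 3) (nat_lit 194) (nat_lit 179) (nat_lit 197))))) (PT.nd (nat_lit 312) (PT.nd (nat_lit 156) (PT.nd (nat_lit 78) (PT.lf (nat_lit 56848) (nat_lit 6) (nat_lit 748) (nat_lit 3) (nat_lit 195) (nat_lit 179) (nat_lit 196)) (PT.lf (nat_lit 56848) (nat_lit 6) (nat_lit 748) (nat_lit 1) (nat_lit 196) (nat_lit 179) (nat_lit 195))) (PT.nd (nat_lit 78) (PT.lf (nat_lit 56772) (nat_lit 6) (nat_lit 747) (nat_lit 1) (nat_lit 197) (nat_lit 179) (nat_lit 194)) (PT.lf (nat_lit 56696) (nat_lit 6) (nat_lit 746) (nat_lit 1) (nat_lit 198) (nat_lit 179) (nat_lit 193)))) (PT.nd (nat_lit 156) (PT.nd (nat_lit 78) (PT.lf (nat_lit 56620) (nat_lit 6) (nat_lit 745) (nat_lit 1) (nat_lit 199) (nat_lit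 179) (nat_lit 192)) (PT.lf (nat_lit 56544) (nat_lit 6) (nat_lit 744) (nat_lit 1) (nat_lit 200) (nat_lit 179) (nat_lit 191))) (PT.nd (nat_lit 78) (PT.lf (nat_lit 56468) (nat_lit 6) (nat_lit 743) (nat_lit 1) (nat_lit 201) (nat_lit 179) (nat_lit 190)) (PT.lf (nat_lit 55480) (nat_lit 6) (nat_lit 730) (nat_lit 1) (nat_lit 202) (nat_lit 179) (nat_lit 189)))))) (PT.nd (nat_lit 624) (PT.nd (nat_lit 312) (PT.nd (nat_lit 156) (PT.nd (nat_lit 78) (PT.lf (nat_lit 54416) (nat_lit 6) (nat_lit 716) (nat_lit 1) (nat_lit 203) (nat_lit 179) (nat_lit 188)) (PT.lf (nat_lit 53276) (nat_lit 6) (nat_lit 701) (nat_lit 1) (nat_lit 204) (nat_lit 179) (nat_lit 187))) (PT.nd (nat_lit 78) (PT.lf (nat_lit 52060) (nat_lit 6) (nat_lit 685) (nat_lit 1) (nat_lit 205) (nat_lit 179) (nat_lit 186)) (PT.lf (nat_lit 50768) (nat_lit 6) (nat_lit 668) (nat_lit 1) (nat_lit 206) (nat_lit 179) (nat_lit 185)))) (PT.nd (nat_lit 156) (PT.nd (nat_lit 78) (PT.lf (nat_lit 49400) (nat_lit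 6) (nat_lit 650) (nat_lit 1) (nat_lit 207) (nat_lit 179) (nat_lit 184)) (PT.lf (nat_lit 47956) (nat_lit 6) (nat_lit 631) (nat_lit 1) (nat_lit 208) (nat_lit 179) (nat_lit 183))) (PT.nd (nat_lit 78) (PT.lf (nat_lit 46436) (nat_lit 6) (nat_lit 611) (nat_lit 1) (nat_lit 209) (nat_lit 179) (nat_lit 182)) (PT.lf (nat_lit 44840) (nat_lit 6) (nat_lit 590) (nat_lit 1) (nat_lit 210) (nat_lit 179) (nat_lit 181))))) (PT.nd (nat_lit 56628) (PT.nd (nat_lit 156) (PT.nd (nat_lit 78) (PT.lf (nat_lit 43168) (nat_lit 6) (nat_lit 568) (nat_lit 1) (nat_lit 211) (nat_lit 179) (nat_lit 180)) (PT.lf (nat_lit 41420) (nat_lit 3) (nat_lit 545) (nat_lit 0) (nat_lit 212) (nat_lit 179) (nat_lit 179))) (PT.nd (nat_lit 78) (PT.lf (nat_lit 39672) (nat_lit 6) (nat_lit 522) (nat_lit 0) (nat_lit 213) (nat_lit 179) (nat_lit 178)) (PT.lf (nat_lit 37848) (nat_lit 6) (nat_lit 498) (nat_lit 0) (nat_lit 214) (nat_lit 179) (nat_lit 177)))) (PT.nd (nat_lit 156) (PT.nd (nat_lit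 78) (PT.lf (nat_lit 37924) (nat_lit 6) (nat_lit 499) (nat_lit 5) (nat_lit 176) (nat_lit 180) (nat_lit 214)) (PT.lf (nat_lit 39748) (nat_lit 6) (nat_lit 523) (nat_lit 5) (nat_lit 177) (nat_lit 180) (nat_lit 213))) (PT.nd (nat_lit 78) (PT.lf (nat_lit 41496) (nat_lit 6) (nat_lit 546) (nat_lit 5) (nat_lit 178) (nat_lit 180) (nat_lit 212)) (PT.nd (nat_lit 78) (PT.lf (nat_lit 43168) (nat_lit 6) (nat_lit 568) (nat_lit 5) (nat_lit 179) (nat_lit 180) (nat_lit 211)) (PT.lf (nat_lit 44764) (nat_lit 3) (nat_lit 589) (nat_lit 3) (nat_lit 180) (nat_lit 180) (nat_lit 210))))))))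
noncomputable def pc38 : PT := (PT.nd (nat_lit 1248) (PT.nd (nat_lit 624) (PT.nd (nat_lit 312) (PT.nd (nat_lit 156) (PT.nd (nat_lit 78) (PT.lf (nat_lit 46360) (nat_lit 6) (nat_lit 610) (nat_lit 3) (nat_lit 181) (nat_lit 180) (nat_lit 209)) (PT.lf (nat_lit 47880) (nat_lit 6) (nat_lit 630) (nat_lit 3) (nat_lit 182) (nat_lit 180) (nat_lit 208))) (PT.nd (nat_lit 78) (PT.lf (nat_lit 49324) (nat_lit 6) (nat_lit 649) (nat_lit 3) (nat_lit 183) (nat_lit 180) (nat_lit 207)) (PT.lf (nat_lit 50692) (nat_lit 6) (nat_lit 667) (nat_lit 3) (nat_lit 184) (nat_lit 180) (nat_lit 206)))) (PT.nd (nat_lit 156) (PT.nd (nat_lit 78) (PT.lf (nat_lit 51984) (nat_lit 6) (nat_lit 684) (nat_lit 3) (nat_lit 185) (nat_lit 180) (nat_lit 205)) (PT.lf (nat_lit 53200) (nat_lit 6) (nat_lit 700) (nat_lit 3) (nat_lit 186) (nat_lit 180) (nat_lit 204))) (PT.nd (nat_lit 78) (PT.lf (nat_lit 54340) (nat_lit 6) (nat_lit 715) (nat_lit 3) (nat_lit 187) (nat_lit 180) (nat_lit 203))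 (PT.lf (nat_lit 55404) (nat_lit 6) (nat_lit 729) (nat_lit 3) (nat_lit 188) (nat_lit 180) (nat_lit 202))))) (PT.nd (nat_lit 312) (PT.nd (nat_lit 156) (PT.nd (nat_lit 78) (PT.lf (nat_lit 56392) (nat_lit 6) (nat_lit 742) (nat_lit 3) (nat_lit 189) (nat_lit 180) (nat_lit 201)) (PT.lf (nat_lit 57304) (nat_lit 6) (nat_lit 754) (nat_lit 3) (nat_lit 190) (nat_lit 180) (nat_lit 200))) (PT.nd (nat_lit 78) (PT.lf (nat_lit 57380) (nat_lit 6) (nat_lit 755) (nat_lit 3) (nat_lit 191) (nat_lit 180) (nat_lit 199)) (PT.lf (nat_lit 57456) (nat_lit 6) (nat_lit 756) (nat_lit 3) (nat_lit 192) (nat_lit 180) (nat_lit 198)))) (PT.nd (nat_lit 156) (PT.nd (nat_lit 78) (PT.lf (nat_lit 57532) (nat_lit 6) (nat_lit 757) (nat_lit 3) (nat_lit 193) (nat_lit 180) (nat_lit 197)) (PT.lf (nat_lit 57608) (nat_lit 6) (nat_lit 758) (nat_lit 3) (nat_lit 194) (nat_lit 180) (nat_lit 196))) (PT.nd (nat_lit 78) (PT.lf (nat_lit 57684) (nat_lit 3) (nat_lit 759) (nat_lit 1) (nat_lit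 195) (nat_lit 180) (nat_lit 195)) (PT.lf (nat_lit 57608) (nat_lit 6) (nat_lit 758) (nat_lit 1) (nat_lit 196) (nat_lit 180) (nat_lit 194)))))) (PT.nd (nat_lit 624) (PT.nd (nat_lit 312) (PT.nd (nat_lit 156) (PT.nd (nat_lit 78) (PT.lf (nat_lit 57532) (nat_lit 6) (nat_lit 757) (nat_lit 1) (nat_lit 197) (nat_lit 180) (nat_lit 193)) (PT.lf (nat_lit 57456) (nat_lit 6) (nat_lit 756) (nat_lit 1) (nat_lit 198) (nat_lit 180) (nat_lit 192))) (PT.nd (nat_lit 78) (PT.lf (nat_lit 57380) (nat_lit 6) (nat_lit 755) (nat_lit 1) (nat_lit 199) (nat_lit 180) (nat_lit 191)) (PT.lf (nat_lit 57304) (nat_lit 6) (nat_lit 754) (nat_lit 1) (nat_lit 200) (nat_lit 180) (nat_lit 190)))) (PT.nd (nat_lit 156) (PT.nd (nat_lit 78) (PT.lf (nat_lit 56392) (nat_lit 6) (nat_lit 742) (nat_lit 1) (nat_lit 201) (nat_lit 180) (nat_lit 189)) (PT.lf (nat_lit 55404) (nat_lit 6) (nat_lit 729) (nat_lit 1) (nat_lit 202) (nat_lit 180) (nat_lit 188))) (PT.nd (nat_lit 78) (PT.lf (nat_lit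 54340) (nat_lit 6) (nat_lit 715) (nat_lit 1) (nat_lit 203) (nat_lit 180) (nat_lit 187)) (PT.lf (nat_lit 53200) (nat_lit 6) (nat_lit 700) (nat_lit 1) (nat_lit 204) (nat_lit 180) (nat_lit 186))))) (PT.nd (nat_lit 312) (PT.nd (nat_lit 156) (PT.nd (nat_lit 78) (PT.lf (nat_lit 51984) (nat_lit 6) (nat_lit 684) (nat_lit 1) (nat_lit 205) (nat_lit 180) (nat_lit 185)) (PT.lf (nat_lit 50692) (nat_lit 6) (nat_lit 667) (nat_lit 1) (nat_lit 206) (nat_lit 180) (nat_lit 184))) (PT.nd (nat_lit 78) (PT.lf (nat_lit 49324) (nat_lit 6) (nat_lit 649) (nat_lit 1) (nat_lit 207) (nat_lit 180) (nat_lit 183)) (PT.lf (nat_lit 47880) (nat_lit 6) (nat_lit 630) (nat_lit 1) (nat_lit 208) (nat_lit 180) (nat_lit 182)))) (PT.nd (nat_lit 156) (PT.nd (nat_lit 78) (PT.lf (nat_lit 46360) (nat_lit 6) (nat_lit 610) (nat_lit 1) (nat_lit 209) (nat_lit 180) (nat_lit 181)) (PT.lf (nat_lit 44764) (nat_lit 3) (nat_lit 589) (nat_lit 0) (nat_lit 210) (nat_lit 180) (nat_lit 180))) (PT.nd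 (nat_lit 78) (PT.lf (nat_lit 43168) (nat_lit 6) (nat_lit 568) (nat_lit 0) (nat_lit 211) (nat_lit 180) (nat_lit 179)) (PT.nd (nat_lit 78) (PT.lf (nat_lit 41496) (nat_lit 6) (nat_lit 546) (nat_lit 0) (nat_lit 212) (nat_lit 180) (nat_lit 178)) (PT.lf (nat_lit 39748) (nat_lit 6) (nat_lit 523) (nat_lit 0) (nat_lit 213) (nat_lit 180) (nat_lit 177))))))))
noncomputable def pc39 : PT := (PT.nd (nat_lit 57486) (PT.nd (nat_lit 56862) (PT.nd (nat_lit 56550) (PT.nd (nat_lit 56394) (PT.nd (nat_lit 56316) (PT.lf (nat_lit 37924) (nat_lit 6) (nat_lit 499) (nat_lit 0) (nat_lit 214) (nat_lit 180) (nat_lit 176)) (PT.lf (nat_lit 38000) (nat_lit 6) (nat_lit 500) (nat_lit 5) (nat_lit 175) (nat_lit 181) (nat_lit 214))) (PT.nd (nat_lit 78) (PT.lf (nat_lit 39824) (nat_lit 6) (nat_lit 524) (nat_lit 5) (nat_lit 176) (nat_lit 181) (nat_lit 213)) (PT.lf (nat_lit 41572) (nat_lit 6) (nat_lit 547) (nat_lit 5) (nat_lit 177) (nat_lit 181) (nat_lit 212)))) (PT.nd (nat_lit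 156) (PT.nd (nat_lit 78) (PT.lf (nat_lit 43244) (nat_lit 6) (nat_lit 569) (nat_lit 5) (nat_lit 178) (nat_lit 181) (nat_lit 211)) (PT.lf (nat_lit 44840) (nat_lit 6) (nat_lit 590) (nat_lit 5) (nat_lit 179) (nat_lit 181) (nat_lit 210))) (PT.nd (nat_lit 78) (PT.lf (nat_lit 46360) (nat_lit 6) (nat_lit 610) (nat_lit 5) (nat_lit 180) (nat_lit 181) (nat_lit 209)) (PT.lf (nat_lit 47804) (nat_lit 3) (nat_lit 629) (nat_lit 3) (nat_lit 181) (nat_lit 181) (nat_lit 208))))) (PT.nd (nat_lit 312) (PT.nd (nat_lit 156) (PT.nd (nat_lit 78) (PT.lf (nat_lit 49248) (nat_lit 6) (nat_lit 648) (nat_lit 3) (nat_lit 182) (nat_lit 181) (nat_lit 207)) (PT.lf (nat_lit 50616) (nat_lit 6) (nat_lit 666) (nat_lit 3) (nat_lit 183) (nat_lit 181) (nat_lit 206))) (PT.nd (nat_lit 78) (PT.lf (nat_lit 51908) (nat_lit 6) (nat_lit 683) (nat_lit 3) (nat_lit 184) (nat_lit 181) (nat_lit 205)) (PT.lf (nat_lit 53124) (nat_lit 6) (nat_lit 699) (nat_lit 3) (nat_lit 185) (nat_lit 181)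 (nat_lit 204)))) (PT.nd (nat_lit 156) (PT.nd (nat_lit 78) (PT.lf (nat_lit 54264) (nat_lit 6) (nat_lit 714) (nat_lit 3) (nat_lit 186) (nat_lit 181) (nat_lit 203)) (PT.lf (nat_lit 55328) (nat_lit 6) (nat_lit 728) (nat_lit 3) (nat_lit 187) (nat_lit 181) (nat_lit 202))) (PT.nd (nat_lit 78) (PT.lf (nat_lit 56316) (nat_lit 6) (nat_lit 741) (nat_lit 3) (nat_lit 188) (nat_lit 181) (nat_lit 201)) (PT.lf (nat_lit 57228) (nat_lit 6) (nat_lit 753) (nat_lit 3) (nat_lit 189) (nat_lit 181) (nat_lit 200)))))) (PT.nd (nat_lit 624) (PT.nd (nat_lit 312) (PT.nd (nat_lit 156) (PT.nd (nat_lit 78) (PT.lf (nat_lit 58064) (nat_lit 6) (nat_lit 764) (nat_lit 3) (nat_lit 190) (nat_lit 181) (nat_lit 199)) (PT.lf (nat_lit 58140) (nat_lit 6) (nat_lit 765) (nat_lit 3) (nat_lit 191) (nat_lit 181) (nat_lit 198))) (PT.nd (nat_lit 78) (PT.lf (nat_lit 58216) (nat_lit 6) (nat_lit 766) (nat_lit 3) (nat_lit 192) (nat_lit 181) (nat_lit 197)) (PT.lf (nat_lit 58292) (nat_lit 6)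 (nat_lit 767) (nat_lit 3) (nat_lit 193) (nat_lit 181) (nat_lit 196)))) (PT.nd (nat_lit 156) (PT.nd (nat_lit 78) (PT.lf (nat_lit 58368) (nat_lit 6) (nat_lit 768) (nat_lit 3) (nat_lit 194) (nat_lit 181) (nat_lit 195)) (PT.lf (nat_lit 58368) (nat_lit 6) (nat_lit 768) (nat_lit 1) (nat_lit 195) (nat_lit 181) (nat_lit 194))) (PT.nd (nat_lit 78) (PT.lf (nat_lit 58292) (nat_lit 6) (nat_lit 767) (nat_lit 1) (nat_lit 196) (nat_lit 181) (nat_lit 193)) (PT.lf (nat_lit 58216) (nat_lit 6) (nat_lit 766) (nat_lit 1) (nat_lit 197) (nat_lit 181) (nat_lit 192))))) (PT.nd (nat_lit 312) (PT.nd (nat_lit 156) (PT.nd (nat_lit 78) (PT.lf (nat_lit 58140) (nat_lit 6) (nat_lit 765) (nat_lit 1) (nat_lit 198) (nat_lit 181) (nat_lit 191)) (PT.lf (nat_lit 58064) (nat_lit 6) (nat_lit 764) (nat_lit 1) (nat_lit 199) (nat_lit 181) (nat_lit 190))) (PT.nd (nat_lit 78) (PT.lf (nat_lit 57228) (nat_lit 6) (nat_lit 753) (nat_lit 1) (nat_lit 200) (nat_lit 181) (nat_lit 189)) (PT.lf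 (nat_lit 56316) (nat_lit 6) (nat_lit 741) (nat_lit 1) (nat_lit 201) (nat_lit 181) (nat_lit 188)))) (PT.nd (nat_lit 156) (PT.nd (nat_lit 78) (PT.lf (nat_lit 55328) (nat_lit 6) (nat_lit 728) (nat_lit 1) (nat_lit 202) (nat_lit 181) (nat_lit 187)) (PT.lf (nat_lit 54264) (nat_lit 6) (nat_lit 714) (nat_lit 1) (nat_lit 203) (nat_lit 181) (nat_lit 186))) (PT.nd (nat_lit 78) (PT.lf (nat_lit 53124) (nat_lit 6) (nat_lit 699) (nat_lit 1) (nat_lit 204) (nat_lit 181) (nat_lit 185)) (PT.nd (nat_lit 78) (PT.lf (nat_lit 51908) (nat_lit 6) (nat_lit 683) (nat_lit 1) (nat_lit 205) (nat_lit 181) (nat_lit 184)) (PT.lf (nat_lit 50616) (nat_lit 6) (nat_lit 666) (nat_lit 1) (nat_lit 206) (nat_lit 181) (nat_lit 183))))))))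
noncomputable def pc40 : PT := (PT.nd (nat_lit 57408) (PT.nd (nat_lit 56784) (PT.nd (nat_lit 312) (PT.nd (nat_lit 156) (PT.nd (nat_lit 78) (PT.lf (nat_lit 49248) (nat_lit 6) (nat_lit 648) (nat_lit 1) (nat_lit 207) (nat_lit 181) (nat_lit 182)) (PT.lf (nat_lit 47804) (nat_lit 3) (nat_lit 629) (nat_lit 0) (nat_lit 208) (nat_lit 181) (nat_lit 181))) (PT.nd (nat_lit 78) (PT.lf (nat_lit 46360) (nat_lit 6) (nat_lit 610) (nat_lit 0) (nat_lit 209) (nat_lit 181) (nat_lit 180)) (PT.lf (nat_lit 44840) (nat_lit 6) (nat_lit 590) (nat_lit 0) (nat_lit 210) (nat_lit 181) (nat_lit 179)))) (PT.nd (nat_lit 156) (PT.nd (nat_lit 78) (PT.lf (nat_lit 43244) (nat_lit 6) (nat_lit 569) (nat_lit 0) (nat_lit 211) (nat_lit 181) (nat_lit 178)) (PT.lf (nat_lit 41572) (nat_lit 6) (nat_lit 547) (nat_lit 0) (nat_lit 212) (nat_lit 181) (nat_lit 177))) (PT.nd (nat_lit 78) (PT.lf (nat_lit 39824) (nat_lit 6) (nat_lit 524) (nat_lit 0) (nat_lit 213) (nat_lit 181) (nat_lit 176))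 (PT.lf (nat_lit 38000) (nat_lit 6) (nat_lit 500) (nat_lit 0) (nat_lit 214) (nat_lit 181) (nat_lit 175))))) (PT.nd (nat_lit 312) (PT.nd (nat_lit 156) (PT.nd (nat_lit 78) (PT.lf (nat_lit 38076) (nat_lit 6) (nat_lit 501) (nat_lit 5) (nat_lit 174) (nat_lit 182) (nat_lit 214)) (PT.lf (nat_lit 39900) (nat_lit 6) (nat_lit 525) (nat_lit 5) (nat_lit 175) (nat_lit 182) (nat_lit 213))) (PT.nd (nat_lit 78) (PT.lf (nat_lit 41648) (nat_lit 6) (nat_lit 548) (nat_lit 5) (nat_lit 176) (nat_lit 182) (nat_lit 212)) (PT.lf (nat_lit 43320) (nat_lit 6) (nat_lit 570) (nat_lit 5) (nat_lit 177) (nat_lit 182) (nat_lit 211)))) (PT.nd (nat_lit 156) (PT.nd (nat_lit 78) (PT.lf (nat_lit 44916) (nat_lit 6) (nat_lit 591) (nat_lit 5) (nat_lit 178) (nat_lit 182) (nat_lit 210)) (PT.lf (nat_lit 46436) (nat_lit 6) (nat_lit 611) (nat_lit 5) (nat_lit 179) (nat_lit 182) (nat_lit 209))) (PT.nd (nat_lit 78) (PT.lf (nat_lit 47880) (nat_lit 6) (nat_lit 630) (nat_lit 5) (nat_lit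 180) (nat_lit 182) (nat_lit 208)) (PT.lf (nat_lit 49248) (nat_lit 6) (nat_lit 648) (nat_lit 5) (nat_lit 181) (nat_lit 182) (nat_lit 207)))))) (PT.nd (nat_lit 624) (PT.nd (nat_lit 312) (PT.nd (nat_lit 156) (PT.nd (nat_lit 78) (PT.lf (nat_lit 50540) (nat_lit 3) (nat_lit 665) (nat_lit 3) (nat_lit 182) (nat_lit 182) (nat_lit 206)) (PT.lf (nat_lit 51832) (nat_lit 6) (nat_lit 682) (nat_lit 3) (nat_lit 183) (nat_lit 182) (nat_lit 205))) (PT.nd (nat_lit 78) (PT.lf (nat_lit 53048) (nat_lit 6) (nat_lit 698) (nat_lit 3) (nat_lit 184) (nat_lit 182) (nat_lit 204)) (PT.lf (nat_lit 54188) (nat_lit 6) (nat_lit 713) (nat_lit 3) (nat_lit 185) (nat_lit 182) (nat_lit 203)))) (PT.nd (nat_lit 156) (PT.nd (nat_lit 78) (PT.lf (nat_lit 55252) (nat_lit 6) (nat_lit 727) (nat_lit 3) (nat_lit 186) (nat_lit 182) (nat_lit 202)) (PT.lf (nat_lit 56240) (nat_lit 6) (nat_lit 740) (nat_lit 3) (nat_lit 187) (nat_lit 182) (nat_lit 201))) (PT.nd (nat_lit 78) (PT.lf (nat_lit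 57152) (nat_lit 6) (nat_lit 752) (nat_lit 3) (nat_lit 188) (nat_lit 182) (nat_lit 200)) (PT.lf (nat_lit 57988) (nat_lit 6) (nat_lit 763) (nat_lit 3) (nat_lit 189) (nat_lit 182) (nat_lit 199))))) (PT.nd (nat_lit 312) (PT.nd (nat_lit 156) (PT.nd (nat_lit 78) (PT.lf (nat_lit 58748) (nat_lit 6) (nat_lit 773) (nat_lit 3) (nat_lit 190) (nat_lit 182) (nat_lit 198)) (PT.lf (nat_lit 58824) (nat_lit 6) (nat_lit 774) (nat_lit 3) (nat_lit 191) (nat_lit 182) (nat_lit 197))) (PT.nd (nat_lit 78) (PT.lf (nat_lit 58900) (nat_lit 6) (nat_lit 775) (nat_lit 3) (nat_lit 192) (nat_lit 182) (nat_lit 196)) (PT.lf (nat_lit 58976) (nat_lit 6) (nat_lit 776) (nat_lit 3) (nat_lit 193) (nat_lit 182) (nat_lit 195)))) (PT.nd (nat_lit 156) (PT.nd (nat_lit 78) (PT.lf (nat_lit 59052) (nat_lit 3) (nat_lit 777) (nat_lit 1) (nat_lit 194) (nat_lit 182) (nat_lit 194)) (PT.lf (nat_lit 58976) (nat_lit 6) (nat_lit 776) (nat_lit 1) (nat_lit 195) (nat_lit 182) (nat_lit 193))) (PT.nd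 (nat_lit 78) (PT.lf (nat_lit 58900) (nat_lit 6) (nat_lit 775) (nat_lit 1) (nat_lit 196) (nat_lit 182) (nat_lit 192)) (PT.lf (nat_lit 58824) (nat_lit 6) (nat_lit 774) (nat_lit 1) (nat_lit 197) (nat_lit 182) (nat_lit 191)))))))
noncomputable def pc41 : PT := (PT.nd (nat_lit 1248) (PT.nd (nat_lit 624) (PT.nd (nat_lit 312) (PT.nd (nat_lit 156) (PT.nd (nat_lit 78) (PT.lf (nat_lit 58748) (nat_lit 6) (nat_lit 773) (nat_lit 1) (nat_lit 198) (nat_lit 182) (nat_lit 190)) (PT.lf (nat_lit 57988) (nat_lit 6) (nat_lit 763) (nat_lit 1) (nat_lit 199) (nat_lit 182) (nat_lit 189))) (PT.nd (nat_lit 78) (PT.lf (nat_lit 57152) (nat_lit 6) (nat_lit 752) (nat_lit 1) (nat_lit 200) (nat_lit 182) (nat_lit 188)) (PT.lf (nat_lit 56240) (nat_lit 6) (nat_lit 740) (nat_lit 1) (nat_lit 201) (nat_lit 182) (nat_lit 187)))) (PT.nd (nat_lit 156) (PT.nd (nat_lit 78) (PT.lf (nat_lit 55252) (nat_lit 6) (nat_lit 727) (nat_lit 1) (nat_lit 202) (nat_lit 182) (nat_lit 186)) (PT.lf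 (nat_lit 54188) (nat_lit 6) (nat_lit 713) (nat_lit 1) (nat_lit 203) (nat_lit 182) (nat_lit 185))) (PT.nd (nat_lit 78) (PT.lf (nat_lit 53048) (nat_lit 6) (nat_lit 698) (nat_lit 1) (nat_lit 204) (nat_lit 182) (nat_lit 184)) (PT.lf (nat_lit 51832) (nat_lit 6) (nat_lit 682) (nat_lit 1) (nat_lit 205) (nat_lit 182) (nat_lit 183))))) (PT.nd (nat_lit 312) (PT.nd (nat_lit 156) (PT.nd (nat_lit 78) (PT.lf (nat_lit 50540) (nat_lit 3) (nat_lit 665) (nat_lit 0) (nat_lit 206) (nat_lit 182) (nat_lit 182)) (PT.lf (nat_lit 49248) (nat_lit 6) (nat_lit 648) (nat_lit 0) (nat_lit 207) (nat_lit 182) (nat_lit 181))) (PT.nd (nat_lit 78) (PT.lf (nat_lit 47880) (nat_lit 6) (nat_lit 630) (nat_lit 0) (nat_lit 208) (nat_lit 182) (nat_lit 180)) (PT.lf (nat_lit 46436) (nat_lit 6) (nat_lit 611) (nat_lit 0) (nat_lit 209) (nat_lit 182) (nat_lit 179)))) (PT.nd (nat_lit 156) (PT.nd (nat_lit 78) (PT.lf (nat_lit 44916) (nat_lit 6) (nat_lit 591) (nat_lit 0) (nat_lit 210) (nat_lit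 182) (nat_lit 178)) (PT.lf (nat_lit 43320) (nat_lit 6) (nat_lit 570) (nat_lit 0) (nat_lit 211) (nat_lit 182) (nat_lit 177))) (PT.nd (nat_lit 78) (PT.lf (nat_lit 41648) (nat_lit 6) (nat_lit 548) (nat_lit 0) (nat_lit 212) (nat_lit 182) (nat_lit 176)) (PT.lf (nat_lit 39900) (nat_lit 6) (nat_lit 525) (nat_lit 0) (nat_lit 213) (nat_lit 182) (nat_lit 175)))))) (PT.nd (nat_lit 56706) (PT.nd (nat_lit 56394) (PT.nd (nat_lit 56238) (PT.nd (nat_lit 56160) (PT.lf (nat_lit 38076) (nat_lit 6) (nat_lit 501) (nat_lit 0) (nat_lit 214) (nat_lit 182) (nat_lit 174)) (PT.lf (nat_lit 38152) (nat_lit 6) (nat_lit 502) (nat_lit 5) (nat_lit 173) (nat_lit 183) (nat_lit 214))) (PT.nd (nat_lit 78) (PT.lf (nat_lit 39976) (nat_lit 6) (nat_lit 526) (nat_lit 5) (nat_lit 174) (nat_lit 183) (nat_lit 213)) (PT.lf (nat_lit 41724) (nat_lit 6) (nat_lit 549) (nat_lit 5) (nat_lit 175) (nat_lit 183) (nat_lit 212)))) (PT.nd (nat_lit 156) (PT.nd (nat_lit 78) (PT.lf (nat_lit 43396)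 (nat_lit 6) (nat_lit 571) (nat_lit 5) (nat_lit 176) (nat_lit 183) (nat_lit 211)) (PT.lf (nat_lit 44992) (nat_lit 6) (nat_lit 592) (nat_lit 5) (nat_lit 177) (nat_lit 183) (nat_lit 210))) (PT.nd (nat_lit 78) (PT.lf (nat_lit 46512) (nat_lit 6) (nat_lit 612) (nat_lit 5) (nat_lit 178) (nat_lit 183) (nat_lit 209)) (PT.lf (nat_lit 47956) (nat_lit 6) (nat_lit 631) (nat_lit 5) (nat_lit 179) (nat_lit 183) (nat_lit 208))))) (PT.nd (nat_lit 312) (PT.nd (nat_lit 156) (PT.nd (nat_lit 78) (PT.lf (nat_lit 49324) (nat_lit 6) (nat_lit 649) (nat_lit 5) (nat_lit 180) (nat_lit 183) (nat_lit 207)) (PT.lf (nat_lit 50616) (nat_lit 6) (nat_lit 666) (nat_lit 5) (nat_lit 181) (nat_lit 183) (nat_lit 206))) (PT.nd (nat_lit 78) (PT.lf (nat_lit 51832) (nat_lit 6) (nat_lit 682) (nat_lit 5) (nat_lit 182) (nat_lit 183) (nat_lit 205)) (PT.lf (nat_lit 52972) (nat_lit 3) (nat_lit 697) (nat_lit 3) (nat_lit 183) (nat_lit 183) (nat_lit 204)))) (PT.nd (nat_lit 156) (PT.nd (nat_lit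 78) (PT.lf (nat_lit 54112) (nat_lit 6) (nat_lit 712) (nat_lit 3) (nat_lit 184) (nat_lit 183) (nat_lit 203)) (PT.lf (nat_lit 55176) (nat_lit 6) (nat_lit 726) (nat_lit 3) (nat_lit 185) (nat_lit 183) (nat_lit 202))) (PT.nd (nat_lit 78) (PT.lf (nat_lit 56164) (nat_lit 6) (nat_lit 739) (nat_lit 3) (nat_lit 186) (nat_lit 183) (nat_lit 201)) (PT.nd (nat_lit 78) (PT.lf (nat_lit 57076) (nat_lit 6) (nat_lit 751) (nat_lit 3) (nat_lit 187) (nat_lit 183) (nat_lit 200)) (PT.lf (nat_lit 57912) (nat_lit 6) (nat_lit 762) (nat_lit 3) (nat_lit 188) (nat_lit 183) (nat_lit 199))))))))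
noncomputable def pc42 : PT := (PT.nd (nat_lit 1248) (PT.nd (nat_lit 624) (PT.nd (nat_lit 312) (PT.nd (nat_lit 156) (PT.nd (nat_lit 78) (PT.lf (nat_lit 58672) (nat_lit 6) (nat_lit 772) (nat_lit 3) (nat_lit 189) (nat_lit 183) (nat_lit 198)) (PT.lf (nat_lit 59356) (nat_lit 6) (nat_lit 781) (nat_lit 3) (nat_lit 190) (nat_lit 183) (nat_lit 197))) (PT.nd (nat_lit 78) (PT.lf (nat_lit 59432) (nat_lit 6) (nat_lit 782) (nat_lit 3) (nat_lit 191) (nat_lit 183) (nat_lit 196)) (PT.lf (nat_lit 59508) (nat_lit 6) (nat_lit 783) (nat_lit 3) (nat_lit 192) (nat_lit 183) (nat_lit 195)))) (PT.nd (nat_lit 156) (PT.nd (nat_lit 78) (PT.lf (nat_lit 59584) (nat_lit 6) (nat_lit 784) (nat_lit 3) (nat_lit 193) (nat_lit 183) (nat_lit 194)) (PT.lf (nat_lit 59584) (nat_lit 6) (nat_lit 784) (nat_lit 1) (nat_lit 194) (nat_lit 183) (nat_lit 193))) (PT.nd (nat_lit 78) (PT.lf (nat_lit 59508) (nat_lit 6) (nat_lit 783) (nat_lit 1) (nat_lit 195) (nat_lit 183) (nat_lit 192))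 (PT.lf (nat_lit 59432) (nat_lit 6) (nat_lit 782) (nat_lit 1) (nat_lit 196) (nat_lit 183) (nat_lit 191))))) (PT.nd (nat_lit 312) (PT.nd (nat_lit 156) (PT.nd (nat_lit 78) (PT.lf (nat_lit 59356) (nat_lit 6) (nat_lit 781) (nat_lit 1) (nat_lit 197) (nat_lit 183) (nat_lit 190)) (PT.lf (nat_lit 58672) (nat_lit 6) (nat_lit 772) (nat_lit 1) (nat_lit 198) (nat_lit 183) (nat_lit 189))) (PT.nd (nat_lit 78) (PT.lf (nat_lit 57912) (nat_lit 6) (nat_lit 762) (nat_lit 1) (nat_lit 199) (nat_lit 183) (nat_lit 188)) (PT.lf (nat_lit 57076) (nat_lit 6) (nat_lit 751) (nat_lit 1) (nat_lit 200) (nat_lit 183) (nat_lit 187)))) (PT.nd (nat_lit 156) (PT.nd (nat_lit 78) (PT.lf (nat_lit 56164) (nat_lit 6) (nat_lit 739) (nat_lit 1) (nat_lit 201) (nat_lit 183) (nat_lit 186)) (PT.lf (nat_lit 55176) (nat_lit 6) (nat_lit 726) (nat_lit 1) (nat_lit 202) (nat_lit 183) (nat_lit 185))) (PT.nd (nat_lit 78) (PT.lf (nat_lit 54112) (nat_lit 6) (nat_lit 712) (nat_lit 1) (nat_lit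 203) (nat_lit 183) (nat_lit 184)) (PT.lf (nat_lit 52972) (nat_lit 3) (nat_lit 697) (nat_lit 0) (nat_lit 204) (nat_lit 183) (nat_lit 183)))))) (PT.nd (nat_lit 624) (PT.nd (nat_lit 312) (PT.nd (nat_lit 156) (PT.nd (nat_lit 78) (PT.lf (nat_lit 51832) (nat_lit 6) (nat_lit 682) (nat_lit 0) (nat_lit 205) (nat_lit 183) (nat_lit 182)) (PT.lf (nat_lit 50616) (nat_lit 6) (nat_lit 666) (nat_lit 0) (nat_lit 206) (nat_lit 183) (nat_lit 181))) (PT.nd (nat_lit 78) (PT.lf (nat_lit 49324) (nat_lit 6) (nat_lit 649) (nat_lit 0) (nat_lit 207) (nat_lit 183) (nat_lit 180)) (PT.lf (nat_lit 47956) (nat_lit 6) (nat_lit 631) (nat_lit 0) (nat_lit 208) (nat_lit 183) (nat_lit 179)))) (PT.nd (nat_lit 156) (PT.nd (nat_lit 78) (PT.lf (nat_lit 46512) (nat_lit 6) (nat_lit 612) (nat_lit 0) (nat_lit 209) (nat_lit 183) (nat_lit 178)) (PT.lf (nat_lit 44992) (nat_lit 6) (nat_lit 592) (nat_lit 0) (nat_lit 210) (nat_lit 183) (nat_lit 177))) (PT.nd (nat_lit 78) (PT.lf (nat_lit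 43396) (nat_lit 6) (nat_lit 571) (nat_lit 0) (nat_lit 211) (nat_lit 183) (nat_lit 176)) (PT.lf (nat_lit 41724) (nat_lit 6) (nat_lit 549) (nat_lit 0) (nat_lit 212) (nat_lit 183) (nat_lit 175))))) (PT.nd (nat_lit 56316) (PT.nd (nat_lit 56160) (PT.nd (nat_lit 78) (PT.lf (nat_lit 39976) (nat_lit 6) (nat_lit 526) (nat_lit 0) (nat_lit 213) (nat_lit 183) (nat_lit 174)) (PT.lf (nat_lit 38152) (nat_lit 6) (nat_lit 502) (nat_lit 0) (nat_lit 214) (nat_lit 183) (nat_lit 173))) (PT.nd (nat_lit 78) (PT.lf (nat_lit 38228) (nat_lit 6) (nat_lit 503) (nat_lit 5) (nat_lit 172) (nat_lit 184) (nat_lit 214)) (PT.lf (nat_lit 40052) (nat_lit 6) (nat_lit 527) (nat_lit 5) (nat_lit 173) (nat_lit 184) (nat_lit 213)))) (PT.nd (nat_lit 156) (PT.nd (nat_lit 78) (PT.lf (nat_lit 41800) (nat_lit 6) (nat_lit 550) (nat_lit 5) (nat_lit 174) (nat_lit 184) (nat_lit 212)) (PT.lf (nat_lit 43472) (nat_lit 6) (nat_lit 572) (nat_lit 5) (nat_lit 175) (nat_lit 184) (nat_lit 211)))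 (PT.nd (nat_lit 78) (PT.lf (nat_lit 45068) (nat_lit 6) (nat_lit 593) (nat_lit 5) (nat_lit 176) (nat_lit 184) (nat_lit 210)) (PT.nd (nat_lit 78) (PT.lf (nat_lit 46588) (nat_lit 6) (nat_lit 613) (nat_lit 5) (nat_lit 177) (nat_lit 184) (nat_lit 209)) (PT.lf (nat_lit 48032) (nat_lit 6) (nat_lit 632) (nat_lit 5) (nat_lit 178) (nat_lit 184) (nat_lit 208))))))))
noncomputable def pc43 : PT := (PT.nd (nat_lit 1248) (PT.nd (nat_lit 624) (PT.nd (nat_lit 312) (PT.nd (nat_lit 156) (PT.nd (nat_lit 78) (PT.lf (nat_lit 49400) (nat_lit 6) (nat_lit 650) (nat_lit 5) (nat_lit 179) (nat_lit 184) (nat_lit 207)) (PT.lf (nat_lit 50692) (nat_lit 6) (nat_lit 667) (nat_lit 5) (nat_lit 180) (nat_lit 184) (nat_lit 206))) (PT.nd (nat_lit 78) (PT.lf (nat_lit 51908) (nat_lit 6) (nat_lit 683) (nat_lit 5) (nat_lit 181) (nat_lit 184) (nat_lit 205)) (PT.lf (nat_lit 53048) (nat_lit 6) (nat_lit 698) (nat_lit 5) (nat_lit 182) (nat_lit 184) (nat_lit 204)))) (PT.nd (nat_lit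 156) (PT.nd (nat_lit 78) (PT.lf (nat_lit 54112) (nat_lit 6) (nat_lit 712) (nat_lit 5) (nat_lit 183) (nat_lit 184) (nat_lit 203)) (PT.lf (nat_lit 55100) (nat_lit 3) (nat_lit 725) (nat_lit 3) (nat_lit 184) (nat_lit 184) (nat_lit 202))) (PT.nd (nat_lit 78) (PT.lf (nat_lit 56088) (nat_lit 6) (nat_lit 738) (nat_lit 3) (nat_lit 185) (nat_lit 184) (nat_lit 201)) (PT.lf (nat_lit 57000) (nat_lit 6) (nat_lit 750) (nat_lit 3) (nat_lit 186) (nat_lit 184) (nat_lit 200))))) (PT.nd (nat_lit 312) (PT.nd (nat_lit 156) (PT.nd (nat_lit 78) (PT.lf (nat_lit 57836) (nat_lit 6) (nat_lit 761) (nat_lit 3) (nat_lit 187) (nat_lit 184) (nat_lit 199)) (PT.lf (nat_lit 58596) (nat_lit 6) (nat_lit 771) (nat_lit 3) (nat_lit 188) (nat_lit 184) (nat_lit 198))) (PT.nd (nat_lit 78) (PT.lf (nat_lit 59280) (nat_lit 6) (nat_lit 780) (nat_lit 3) (nat_lit 189) (nat_lit 184) (nat_lit 197)) (PT.lf (nat_lit 59888) (nat_lit 6) (nat_lit 788) (nat_lit 3) (nat_lit 190) (nat_lit 184)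 (nat_lit 196)))) (PT.nd (nat_lit 156) (PT.nd (nat_lit 78) (PT.lf (nat_lit 59964) (nat_lit 6) (nat_lit 789) (nat_lit 3) (nat_lit 191) (nat_lit 184) (nat_lit 195)) (PT.lf (nat_lit 60040) (nat_lit 6) (nat_lit 790) (nat_lit 3) (nat_lit 192) (nat_lit 184) (nat_lit 194))) (PT.nd (nat_lit 78) (PT.lf (nat_lit 60116) (nat_lit 3) (nat_lit 791) (nat_lit 1) (nat_lit 193) (nat_lit 184) (nat_lit 193)) (PT.lf (nat_lit 60040) (nat_lit 6) (nat_lit 790) (nat_lit 1) (nat_lit 194) (nat_lit 184) (nat_lit 192)))))) (PT.nd (nat_lit 624) (PT.nd (nat_lit 312) (PT.nd (nat_lit 156) (PT.nd (nat_lit 78) (PT.lf (nat_lit 59964) (nat_lit 6) (nat_lit 789) (nat_lit 1) (nat_lit 195) (nat_lit 184) (nat_lit 191)) (PT.lf (nat_lit 59888) (nat_lit 6) (nat_lit 788) (nat_lit 1) (nat_lit 196) (nat_lit 184) (nat_lit 190))) (PT.nd (nat_lit 78) (PT.lf (nat_lit 59280) (nat_lit 6) (nat_lit 780) (nat_lit 1) (nat_lit 197) (nat_lit 184) (nat_lit 189)) (PT.lf (nat_lit 58596) (nat_lit 6)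 (nat_lit 771) (nat_lit 1) (nat_lit 198) (nat_lit 184) (nat_lit 188)))) (PT.nd (nat_lit 156) (PT.nd (nat_lit 78) (PT.lf (nat_lit 57836) (nat_lit 6) (nat_lit 761) (nat_lit 1) (nat_lit 199) (nat_lit 184) (nat_lit 187)) (PT.lf (nat_lit 57000) (nat_lit 6) (nat_lit 750) (nat_lit 1) (nat_lit 200) (nat_lit 184) (nat_lit 186))) (PT.nd (nat_lit 78) (PT.lf (nat_lit 56088) (nat_lit 6) (nat_lit 738) (nat_lit 1) (nat_lit 201) (nat_lit 184) (nat_lit 185)) (PT.lf (nat_lit 55100) (nat_lit 3) (nat_lit 725) (nat_lit 0) (nat_lit 202) (nat_lit 184) (nat_lit 184))))) (PT.nd (nat_lit 312) (PT.nd (nat_lit 156) (PT.nd (nat_lit 78) (PT.lf (nat_lit 54112) (nat_lit 6) (nat_lit 712) (nat_lit 0) (nat_lit 203) (nat_lit 184) (nat_lit 183)) (PT.lf (nat_lit 53048) (nat_lit 6) (nat_lit 698) (nat_lit 0) (nat_lit 204) (nat_lit 184) (nat_lit 182))) (PT.nd (nat_lit 78) (PT.lf (nat_lit 51908) (nat_lit 6) (nat_lit 683) (nat_lit 0) (nat_lit 205) (nat_lit 184) (nat_lit 181)) (PT.lf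 (nat_lit 50692) (nat_lit 6) (nat_lit 667) (nat_lit 0) (nat_lit 206) (nat_lit 184) (nat_lit 180)))) (PT.nd (nat_lit 156) (PT.nd (nat_lit 78) (PT.lf (nat_lit 49400) (nat_lit 6) (nat_lit 650) (nat_lit 0) (nat_lit 207) (nat_lit 184) (nat_lit 179)) (PT.lf (nat_lit 48032) (nat_lit 6) (nat_lit 632) (nat_lit 0) (nat_lit 208) (nat_lit 184) (nat_lit 178))) (PT.nd (nat_lit 78) (PT.lf (nat_lit 46588) (nat_lit 6) (nat_lit 613) (nat_lit 0) (nat_lit 209) (nat_lit 184) (nat_lit 177)) (PT.nd (nat_lit 78) (PT.lf (nat_lit 45068) (nat_lit 6) (nat_lit 593) (nat_lit 0) (nat_lit 210) (nat_lit 184) (nat_lit 176)) (PT.lf (nat_lit 43472) (nat_lit 6) (nat_lit 572) (nat_lit 0) (nat_lit 211) (nat_lit 184) (nat_lit 175))))))))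
noncomputable def pc44 : PT := (PT.nd (nat_lit 57174) (PT.nd (nat_lit 56550) (PT.nd (nat_lit 56238) (PT.nd (nat_lit 156) (PT.nd (nat_lit 78) (PT.lf (nat_lit 41800) (nat_lit 6) (nat_lit 550) (nat_lit 0) (nat_lit 212) (nat_lit 184) (nat_lit 174)) (PT.lf (nat_lit 40052) (nat_lit 6) (nat_lit 527) (nat_lit 0) (nat_lit 213) (nat_lit 184) (nat_lit 173))) (PT.nd (nat_lit 56004) (PT.lf (nat_lit 38228) (nat_lit 6) (nat_lit 503) (nat_lit 0) (nat_lit 214) (nat_lit 184) (nat_lit 172)) (PT.lf (nat_lit 38304) (nat_lit 6) (nat_lit 504) (nat_lit 5) (nat_lit 171) (nat_lit 185) (nat_lit 214)))) (PT.nd (nat_lit 156) (PT.nd (nat_lit 78) (PT.lf (nat_lit 40128) (nat_lit 6) (nat_lit 528) (nat_lit 5) (nat_lit 172) (nat_lit 185) (nat_lit 213)) (PT.lf (nat_lit 41876) (nat_lit 6) (nat_lit 551) (nat_lit 5) (nat_lit 173) (nat_lit 185) (nat_lit 212))) (PT.nd (nat_lit 78) (PT.lf (nat_lit 43548) (nat_lit 6) (nat_lit 573) (nat_lit 5) (nat_lit 174) (nat_lit 185) (nat_lit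 211)) (PT.lf (nat_lit 45144) (nat_lit 6) (nat_lit 594) (nat_lit 5) (nat_lit 175) (nat_lit 185) (nat_lit 210))))) (PT.nd (nat_lit 312) (PT.nd (nat_lit 156) (PT.nd (nat_lit 78) (PT.lf (nat_lit 46664) (nat_lit 6) (nat_lit 614) (nat_lit 5) (nat_lit 176) (nat_lit 185) (nat_lit 209)) (PT.lf (nat_lit 48108) (nat_lit 6) (nat_lit 633) (nat_lit 5) (nat_lit 177) (nat_lit 185) (nat_lit 208))) (PT.nd (nat_lit 78) (PT.lf (nat_lit 49476) (nat_lit 6) (nat_lit 651) (nat_lit 5) (nat_lit 178) (nat_lit 185) (nat_lit 207)) (PT.lf (nat_lit 50768) (nat_lit 6) (nat_lit 668) (nat_lit 5) (nat_lit 179) (nat_lit 185) (nat_lit 206)))) (PT.nd (nat_lit 156) (PT.nd (nat_lit 78) (PT.lf (nat_lit 51984) (nat_lit 6) (nat_lit 684) (nat_lit 5) (nat_lit 180) (nat_lit 185) (nat_lit 205)) (PT.lf (nat_lit 53124) (nat_lit 6) (nat_lit 699) (nat_lit 5) (nat_lit 181) (nat_lit 185) (nat_lit 204))) (PT.nd (nat_lit 78) (PT.lf (nat_lit 54188) (nat_lit 6) (nat_lit 713) (nat_lit 5) (nat_lit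 182) (nat_lit 185) (nat_lit 203)) (PT.lf (nat_lit 55176) (nat_lit 6) (nat_lit 726) (nat_lit 5) (nat_lit 183) (nat_lit 185) (nat_lit 202)))))) (PT.nd (nat_lit 624) (PT.nd (nat_lit 312) (PT.nd (nat_lit 156) (PT.nd (nat_lit 78) (PT.lf (nat_lit 56088) (nat_lit 6) (nat_lit 738) (nat_lit 5) (nat_lit 184) (nat_lit 185) (nat_lit 201)) (PT.lf (nat_lit 56924) (nat_lit 3) (nat_lit 749) (nat_lit 3) (nat_lit 185) (nat_lit 185) (nat_lit 200))) (PT.nd (nat_lit 78) (PT.lf (nat_lit 57760) (nat_lit 6) (nat_lit 760) (nat_lit 3) (nat_lit 186) (nat_lit 185) (nat_lit 199)) (PT.lf (nat_lit 58520) (nat_lit 6) (nat_lit 770) (nat_lit 3) (nat_lit 187) (nat_lit 185) (nat_lit 198)))) (PT.nd (nat_lit 156) (PT.nd (nat_lit 78) (PT.lf (nat_lit 59204) (nat_lit 6) (nat_lit 779) (nat_lit 3) (nat_lit 188) (nat_lit 185) (nat_lit 197)) (PT.lf (nat_lit 59812) (nat_lit 6) (nat_lit 787) (nat_lit 3) (nat_lit 189) (nat_lit 185) (nat_lit 196))) (PT.nd (nat_lit 78) (PT.lf (nat_lit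 60344) (nat_lit 6) (nat_lit 794) (nat_lit 3) (nat_lit 190) (nat_lit 185) (nat_lit 195)) (PT.lf (nat_lit 60420) (nat_lit 6) (nat_lit 795) (nat_lit 3) (nat_lit 191) (nat_lit 185) (nat_lit 194))))) (PT.nd (nat_lit 312) (PT.nd (nat_lit 156) (PT.nd (nat_lit 78) (PT.lf (nat_lit 60496) (nat_lit 6) (nat_lit 796) (nat_lit 3) (nat_lit 192) (nat_lit 185) (nat_lit 193)) (PT.lf (nat_lit 60496) (nat_lit 6) (nat_lit 796) (nat_lit 1) (nat_lit 193) (nat_lit 185) (nat_lit 192))) (PT.nd (nat_lit 78) (PT.lf (nat_lit 60420) (nat_lit 6) (nat_lit 795) (nat_lit 1) (nat_lit 194) (nat_lit 185) (nat_lit 191)) (PT.lf (nat_lit 60344) (nat_lit 6) (nat_lit 794) (nat_lit 1) (nat_lit 195) (nat_lit 185) (nat_lit 190)))) (PT.nd (nat_lit 156) (PT.nd (nat_lit 78) (PT.lf (nat_lit 59812) (nat_lit 6) (nat_lit 787) (nat_lit 1) (nat_lit 196) (nat_lit 185) (nat_lit 189)) (PT.lf (nat_lit 59204) (nat_lit 6) (nat_lit 779) (nat_lit 1) (nat_lit 197) (nat_lit 185) (nat_lit 188))) (PT.nd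 (nat_lit 78) (PT.lf (nat_lit 58520) (nat_lit 6) (nat_lit 770) (nat_lit 1) (nat_lit 198) (nat_lit 185) (nat_lit 187)) (PT.nd (nat_lit 78) (PT.lf (nat_lit 57760) (nat_lit 6) (nat_lit 760) (nat_lit 1) (nat_lit 199) (nat_lit 185) (nat_lit 186)) (PT.lf (nat_lit 56924) (nat_lit 3) (nat_lit 749) (nat_lit 0) (nat_lit 200) (nat_lit 185) (nat_lit 185))))))))
noncomputable def pc45 : PT := (PT.nd (nat_lit 57096) (PT.nd (nat_lit 624) (PT.nd (nat_lit 312) (PT.nd (nat_lit 156) (PT.nd (nat_lit 78) (PT.lf (nat_lit 56088) (nat_lit 6) (nat_lit 738) (nat_lit 0) (nat_lit 201) (nat_lit 185) (nat_lit 184)) (PT.lf (nat_lit 55176) (nat_lit 6) (nat_lit 726) (nat_lit 0) (nat_lit 202) (nat_lit 185) (nat_lit 183))) (PT.nd (nat_lit 78) (PT.lf (nat_lit 54188) (nat_lit 6) (nat_lit 713) (nat_lit 0) (nat_lit 203) (nat_lit 185) (nat_lit 182)) (PT.lf (nat_lit 53124) (nat_lit 6) (nat_lit 699) (nat_lit 0) (nat_lit 204) (nat_lit 185) (nat_lit 181)))) (PT.nd (nat_lit 156)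 (PT.nd (nat_lit 78) (PT.lf (nat_lit 51984) (nat_lit 6) (nat_lit 684) (nat_lit 0) (nat_lit 205) (nat_lit 185) (nat_lit 180)) (PT.lf (nat_lit 50768) (nat_lit 6) (nat_lit 668) (nat_lit 0) (nat_lit 206) (nat_lit 185) (nat_lit 179))) (PT.nd (nat_lit 78) (PT.lf (nat_lit 49476) (nat_lit 6) (nat_lit 651) (nat_lit 0) (nat_lit 207) (nat_lit 185) (nat_lit 178)) (PT.lf (nat_lit 48108) (nat_lit 6) (nat_lit 633) (nat_lit 0) (nat_lit 208) (nat_lit 185) (nat_lit 177))))) (PT.nd (nat_lit 312) (PT.nd (nat_lit 156) (PT.nd (nat_lit 78) (PT.lf (nat_lit 46664) (nat_lit 6) (nat_lit 614) (nat_lit 0) (nat_lit 209) (nat_lit 185) (nat_lit 176)) (PT.lf (nat_lit 45144) (nat_lit 6) (nat_lit 594) (nat_lit 0) (nat_lit 210) (nat_lit 185) (nat_lit 175))) (PT.nd (nat_lit 78) (PT.lf (nat_lit 43548) (nat_lit 6) (nat_lit 573) (nat_lit 0) (nat_lit 211) (nat_lit 185) (nat_lit 174)) (PT.lf (nat_lit 41876) (nat_lit 6) (nat_lit 551) (nat_lit 0) (nat_lit 212) (nat_lit 185) (nat_lit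 173)))) (PT.nd (nat_lit 56004) (PT.nd (nat_lit 78) (PT.lf (nat_lit 40128) (nat_lit 6) (nat_lit 528) (nat_lit 0) (nat_lit 213) (nat_lit 185) (nat_lit 172)) (PT.lf (nat_lit 38304) (nat_lit 6) (nat_lit 504) (nat_lit 0) (nat_lit 214) (nat_lit 185) (nat_lit 171))) (PT.nd (nat_lit 78) (PT.lf (nat_lit 38380) (nat_lit 6) (nat_lit 505) (nat_lit 5) (nat_lit 170) (nat_lit 186) (nat_lit 214)) (PT.lf (nat_lit 40204) (nat_lit 6) (nat_lit 529) (nat_lit 5) (nat_lit 171) (nat_lit 186) (nat_lit 213)))))) (PT.nd (nat_lit 624) (PT.nd (nat_lit 312) (PT.nd (nat_lit 156) (PT.nd (nat_lit 78) (PT.lf (nat_lit 41952) (nat_lit 6) (nat_lit 552) (nat_lit 5) (nat_lit 172) (nat_lit 186) (nat_lit 212)) (PT.lf (nat_lit 43624) (nat_lit 6) (nat_lit 574) (nat_lit 5) (nat_lit 173) (nat_lit 186) (nat_lit 211))) (PT.nd (nat_lit 78) (PT.lf (nat_lit 45220) (nat_lit 6) (nat_lit 595) (nat_lit 5) (nat_lit 174) (nat_lit 186) (nat_lit 210)) (PT.lf (nat_lit 46740) (nat_lit 6) (nat_lit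 615) (nat_lit 5) (nat_lit 175) (nat_lit 186) (nat_lit 209)))) (PT.nd (nat_lit 156) (PT.nd (nat_lit 78) (PT.lf (nat_lit 48184) (nat_lit 6) (nat_lit 634) (nat_lit 5) (nat_lit 176) (nat_lit 186) (nat_lit 208)) (PT.lf (nat_lit 49552) (nat_lit 6) (nat_lit 652) (nat_lit 5) (nat_lit 177) (nat_lit 186) (nat_lit 207))) (PT.nd (nat_lit 78) (PT.lf (nat_lit 50844) (nat_lit 6) (nat_lit 669) (nat_lit 5) (nat_lit 178) (nat_lit 186) (nat_lit 206)) (PT.lf (nat_lit 52060) (nat_lit 6) (nat_lit 685) (nat_lit 5) (nat_lit 179) (nat_lit 186) (nat_lit 205))))) (PT.nd (nat_lit 312) (PT.nd (nat_lit 156) (PT.nd (nat_lit 78) (PT.lf (nat_lit 53200) (nat_lit 6) (nat_lit 700) (nat_lit 5) (nat_lit 180) (nat_lit 186) (nat_lit 204)) (PT.lf (nat_lit 54264) (nat_lit 6) (nat_lit 714) (nat_lit 5) (nat_lit 181) (nat_lit 186) (nat_lit 203))) (PT.nd (nat_lit 78) (PT.lf (nat_lit 55252) (nat_lit 6) (nat_lit 727) (nat_lit 5) (nat_lit 182) (nat_lit 186) (nat_lit 202)) (PT.lf (nat_lit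 56164) (nat_lit 6) (nat_lit 739) (nat_lit 5) (nat_lit 183) (nat_lit 186) (nat_lit 201)))) (PT.nd (nat_lit 156) (PT.nd (nat_lit 78) (PT.lf (nat_lit 57000) (nat_lit 6) (nat_lit 750) (nat_lit 5) (nat_lit 184) (nat_lit 186) (nat_lit 200)) (PT.lf (nat_lit 57760) (nat_lit 6) (nat_lit 760) (nat_lit 5) (nat_lit 185) (nat_lit 186) (nat_lit 199))) (PT.nd (nat_lit 78) (PT.lf (nat_lit 58444) (nat_lit 3) (nat_lit 769) (nat_lit 3) (nat_lit 186) (nat_lit 186) (nat_lit 198)) (PT.nd (nat_lit 78) (PT.lf (nat_lit 59128) (nat_lit 6) (nat_lit 778) (nat_lit 3) (nat_lit 187) (nat_lit 186) (nat_lit 197)) (PT.lf (nat_lit 59736) (nat_lit 6) (nat_lit 786) (nat_lit 3) (nat_lit 188) (nat_lit 186) (nat_lit 196))))))))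
noncomputable def pc46 : PT := (PT.nd (nat_lit 1248) (PT.nd (nat_lit 624) (PT.nd (nat_lit 312) (PT.nd (nat_lit 156) (PT.nd (nat_lit 78) (PT.lf (nat_lit 60268) (nat_lit 6) (nat_lit 793) (nat_lit 3) (nat_lit 189) (nat_lit 186) (nat_lit 195)) (PT.lf (nat_lit 60724) (nat_lit 6) (nat_lit 799) (nat_lit 3) (nat_lit 190) (nat_lit 186) (nat_lit 194))) (PT.nd (nat_lit 78) (PT.lf (nat_lit 60800) (nat_lit 6) (nat_lit 800) (nat_lit 3) (nat_lit 191) (nat_lit 186) (nat_lit 193)) (PT.lf (nat_lit 60876) (nat_lit 3) (nat_lit 801) (nat_lit 1) (nat_lit 192) (nat_lit 186) (nat_lit 192)))) (PT.nd (nat_lit 156) (PT.nd (nat_lit 78) (PT.lf (nat_lit 60800) (nat_lit 6) (nat_lit 800) (nat_lit 1) (nat_lit 193) (nat_lit 186) (nat_lit 191)) (PT.lf (nat_lit 60724) (nat_lit 6) (nat_lit 799) (nat_lit 1) (nat_lit 194) (nat_lit 186) (nat_lit 190))) (PT.nd (nat_lit 78) (PT.lf (nat_lit 60268) (nat_lit 6) (nat_lit 793) (nat_lit 1) (nat_lit 195) (nat_lit 186) (nat_lit 189))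 (PT.lf (nat_lit 59736) (nat_lit 6) (nat_lit 786) (nat_lit 1) (nat_lit 196) (nat_lit 186) (nat_lit 188))))) (PT.nd (nat_lit 312) (PT.nd (nat_lit 156) (PT.nd (nat_lit 78) (PT.lf (nat_lit 59128) (nat_lit 6) (nat_lit 778) (nat_lit 1) (nat_lit 197) (nat_lit 186) (nat_lit 187)) (PT.lf (nat_lit 58444) (nat_lit 3) (nat_lit 769) (nat_lit 0) (nat_lit 198) (nat_lit 186) (nat_lit 186))) (PT.nd (nat_lit 78) (PT.lf (nat_lit 57760) (nat_lit 6) (nat_lit 760) (nat_lit 0) (nat_lit 199) (nat_lit 186) (nat_lit 185)) (PT.lf (nat_lit 57000) (nat_lit 6) (nat_lit 750) (nat_lit 0) (nat_lit 200) (nat_lit 186) (nat_lit 184)))) (PT.nd (nat_lit 156) (PT.nd (nat_lit 78) (PT.lf (nat_lit 56164) (nat_lit 6) (nat_lit 739) (nat_lit 0) (nat_lit 201) (nat_lit 186) (nat_lit 183)) (PT.lf (nat_lit 55252) (nat_lit 6) (nat_lit 727) (nat_lit 0) (nat_lit 202) (nat_lit 186) (nat_lit 182))) (PT.nd (nat_lit 78) (PT.lf (nat_lit 54264) (nat_lit 6) (nat_lit 714) (nat_lit 0) (nat_lit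 203) (nat_lit 186) (nat_lit 181)) (PT.lf (nat_lit 53200) (nat_lit 6) (nat_lit 700) (nat_lit 0) (nat_lit 204) (nat_lit 186) (nat_lit 180)))))) (PT.nd (nat_lit 624) (PT.nd (nat_lit 312) (PT.nd (nat_lit 156) (PT.nd (nat_lit 78) (PT.lf (nat_lit 52060) (nat_lit 6) (nat_lit 685) (nat_lit 0) (nat_lit 205) (nat_lit 186) (nat_lit 179)) (PT.lf (nat_lit 50844) (nat_lit 6) (nat_lit 669) (nat_lit 0) (nat_lit 206) (nat_lit 186) (nat_lit 178))) (PT.nd (nat_lit 78) (PT.lf (nat_lit 49552) (nat_lit 6) (nat_lit 652) (nat_lit 0) (nat_lit 207) (nat_lit 186) (nat_lit 177)) (PT.lf (nat_lit 48184) (nat_lit 6) (nat_lit 634) (nat_lit 0) (nat_lit 208) (nat_lit 186) (nat_lit 176)))) (PT.nd (nat_lit 156) (PT.nd (nat_lit 78) (PT.lf (nat_lit 46740) (nat_lit 6) (nat_lit 615) (nat_lit 0) (nat_lit 209) (nat_lit 186) (nat_lit 175)) (PT.lf (nat_lit 45220) (nat_lit 6) (nat_lit 595) (nat_lit 0) (nat_lit 210) (nat_lit 186) (nat_lit 174))) (PT.nd (nat_lit 78) (PT.lf (nat_lit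 43624) (nat_lit 6) (nat_lit 574) (nat_lit 0) (nat_lit 211) (nat_lit 186) (nat_lit 173)) (PT.lf (nat_lit 41952) (nat_lit 6) (nat_lit 552) (nat_lit 0) (nat_lit 212) (nat_lit 186) (nat_lit 172))))) (PT.nd (nat_lit 56082) (PT.nd (nat_lit 55926) (PT.nd (nat_lit 78) (PT.lf (nat_lit 40204) (nat_lit 6) (nat_lit 529) (nat_lit 0) (nat_lit 213) (nat_lit 186) (nat_lit 171)) (PT.lf (nat_lit 38380) (nat_lit 6) (nat_lit 505) (nat_lit 0) (nat_lit 214) (nat_lit 186) (nat_lit 170))) (PT.nd (nat_lit 78) (PT.lf (nat_lit 38456) (nat_lit 6) (nat_lit 506) (nat_lit 5) (nat_lit 169) (nat_lit 187) (nat_lit 214)) (PT.lf (nat_lit 40280) (nat_lit 6) (nat_lit 530) (nat_lit 5) (nat_lit 170) (nat_lit 187) (nat_lit 213)))) (PT.nd (nat_lit 156) (PT.nd (nat_lit 78) (PT.lf (nat_lit 42028) (nat_lit 6) (nat_lit 553) (nat_lit 5) (nat_lit 171) (nat_lit 187) (nat_lit 212)) (PT.lf (nat_lit 43700) (nat_lit 6) (nat_lit 575) (nat_lit 5) (nat_lit 172) (nat_lit 187) (nat_lit 211)))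 (PT.nd (nat_lit 78) (PT.lf (nat_lit 45296) (nat_lit 6) (nat_lit 596) (nat_lit 5) (nat_lit 173) (nat_lit 187) (nat_lit 210)) (PT.nd (nat_lit 78) (PT.lf (nat_lit 46816) (nat_lit 6) (nat_lit 616) (nat_lit 5) (nat_lit 174) (nat_lit 187) (nat_lit 209)) (PT.lf (nat_lit 48260) (nat_lit 6) (nat_lit 635) (nat_lit 5) (nat_lit 175) (nat_lit 187) (nat_lit 208))))))))
noncomputable def pc47 : PT := (PT.nd (nat_lit 1248) (PT.nd (nat_lit 624) (PT.nd (nat_lit 312) (PT.nd (nat_lit 156) (PT.nd (nat_lit 78) (PT.lf (nat_lit 49628) (nat_lit 6) (nat_lit 653) (nat_lit 5) (nat_lit 176) (nat_lit 187) (nat_lit 207)) (PT.lf (nat_lit 50920) (nat_lit 6) (nat_lit 670) (nat_lit 5) (nat_lit 177) (nat_lit 187) (nat_lit 206))) (PT.nd (nat_lit 78) (PT.lf (nat_lit 52136) (nat_lit 6) (nat_lit 686) (nat_lit 5) (nat_lit 178) (nat_lit 187) (nat_lit 205)) (PT.lf (nat_lit 53276) (nat_lit 6) (nat_lit 701) (nat_lit 5) (nat_lit 179) (nat_lit 187) (nat_lit 204)))) (PT.nd (nat_lit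 156) (PT.nd (nat_lit 78) (PT.lf (nat_lit 54340) (nat_lit 6) (nat_lit 715) (nat_lit 5) (nat_lit 180) (nat_lit 187) (nat_lit 203)) (PT.lf (nat_lit 55328) (nat_lit 6) (nat_lit 728) (nat_lit 5) (nat_lit 181) (nat_lit 187) (nat_lit 202))) (PT.nd (nat_lit 78) (PT.lf (nat_lit 56240) (nat_lit 6) (nat_lit 740) (nat_lit 5) (nat_lit 182) (nat_lit 187) (nat_lit 201)) (PT.lf (nat_lit 57076) (nat_lit 6) (nat_lit 751) (nat_lit 5) (nat_lit 183) (nat_lit 187) (nat_lit 200))))) (PT.nd (nat_lit 312) (PT.nd (nat_lit 156) (PT.nd (nat_lit 78) (PT.lf (nat_lit 57836) (nat_lit 6) (nat_lit 761) (nat_lit 5) (nat_lit 184) (nat_lit 187) (nat_lit 199)) (PT.lf (nat_lit 58520) (nat_lit 6) (nat_lit 770) (nat_lit 5) (nat_lit 185) (nat_lit 187) (nat_lit 198))) (PT.nd (nat_lit 78) (PT.lf (nat_lit 59128) (nat_lit 6) (nat_lit 778) (nat_lit 5) (nat_lit 186) (nat_lit 187) (nat_lit 197)) (PT.lf (nat_lit 59660) (nat_lit 3) (nat_lit 785) (nat_lit 3) (nat_lit 187) (nat_lit 187)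 (nat_lit 196)))) (PT.nd (nat_lit 156) (PT.nd (nat_lit 78) (PT.lf (nat_lit 60192) (nat_lit 6) (nat_lit 792) (nat_lit 3) (nat_lit 188) (nat_lit 187) (nat_lit 195)) (PT.lf (nat_lit 60648) (nat_lit 6) (nat_lit 798) (nat_lit 3) (nat_lit 189) (nat_lit 187) (nat_lit 194))) (PT.nd (nat_lit 78) (PT.lf (nat_lit 61028) (nat_lit 6) (nat_lit 803) (nat_lit 3) (nat_lit 190) (nat_lit 187) (nat_lit 193)) (PT.lf (nat_lit 61104) (nat_lit 6) (nat_lit 804) (nat_lit 3) (nat_lit 191) (nat_lit 187) (nat_lit 192)))))) (PT.nd (nat_lit 624) (PT.nd (nat_lit 312) (PT.nd (nat_lit 156) (PT.nd (nat_lit 78) (PT.lf (nat_lit 61104) (nat_lit 6) (nat_lit 804) (nat_lit 1) (nat_lit 192) (nat_lit 187) (nat_lit 191)) (PT.lf (nat_lit 61028) (nat_lit 6) (nat_lit 803) (nat_lit 1) (nat_lit 193) (nat_lit 187) (nat_lit 190))) (PT.nd (nat_lit 78) (PT.lf (nat_lit 60648) (nat_lit 6) (nat_lit 798) (nat_lit 1) (nat_lit 194) (nat_lit 187) (nat_lit 189)) (PT.lf (nat_lit 60192) (nat_lit 6)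 (nat_lit 792) (nat_lit 1) (nat_lit 195) (nat_lit 187) (nat_lit 188)))) (PT.nd (nat_lit 156) (PT.nd (nat_lit 78) (PT.lf (nat_lit 59660) (nat_lit 3) (nat_lit 785) (nat_lit 0) (nat_lit 196) (nat_lit 187) (nat_lit 187)) (PT.lf (nat_lit 59128) (nat_lit 6) (nat_lit 778) (nat_lit 0) (nat_lit 197) (nat_lit 187) (nat_lit 186))) (PT.nd (nat_lit 78) (PT.lf (nat_lit 58520) (nat_lit 6) (nat_lit 770) (nat_lit 0) (nat_lit 198) (nat_lit 187) (nat_lit 185)) (PT.lf (nat_lit 57836) (nat_lit 6) (nat_lit 761) (nat_lit 0) (nat_lit 199) (nat_lit 187) (nat_lit 184))))) (PT.nd (nat_lit 312) (PT.nd (nat_lit 156) (PT.nd (nat_lit 78) (PT.lf (nat_lit 57076) (nat_lit 6) (nat_lit 751) (nat_lit 0) (nat_lit 200) (nat_lit 187) (nat_lit 183)) (PT.lf (nat_lit 56240) (nat_lit 6) (nat_lit 740) (nat_lit 0) (nat_lit 201) (nat_lit 187) (nat_lit 182))) (PT.nd (nat_lit 78) (PT.lf (nat_lit 55328) (nat_lit 6) (nat_lit 728) (nat_lit 0) (nat_lit 202) (nat_lit 187) (nat_lit 181)) (PT.lf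 (nat_lit 54340) (nat_lit 6) (nat_lit 715) (nat_lit 0) (nat_lit 203) (nat_lit 187) (nat_lit 180)))) (PT.nd (nat_lit 156) (PT.nd (nat_lit 78) (PT.lf (nat_lit 53276) (nat_lit 6) (nat_lit 701) (nat_lit 0) (nat_lit 204) (nat_lit 187) (nat_lit 179)) (PT.lf (nat_lit 52136) (nat_lit 6) (nat_lit 686) (nat_lit 0) (nat_lit 205) (nat_lit 187) (nat_lit 178))) (PT.nd (nat_lit 78) (PT.lf (nat_lit 50920) (nat_lit 6) (nat_lit 670) (nat_lit 0) (nat_lit 206) (nat_lit 187) (nat_lit 177)) (PT.nd (nat_lit 78) (PT.lf (nat_lit 49628) (nat_lit 6) (nat_lit 653) (nat_lit 0) (nat_lit 207) (nat_lit 187) (nat_lit 176)) (PT.lf (nat_lit 48260) (nat_lit 6) (nat_lit 635) (nat_lit 0) (nat_lit 208) (nat_lit 187) (nat_lit 175))))))))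
noncomputable def pc48 : PT := (PT.nd (nat_lit 56862) (PT.nd (nat_lit 56238) (PT.nd (nat_lit 312) (PT.nd (nat_lit 156) (PT.nd (nat_lit 78) (PT.lf (nat_lit 46816) (nat_lit 6) (nat_lit 616) (nat_lit 0) (nat_lit 209) (nat_lit 187) (nat_lit 174)) (PT.lf (nat_lit 45296) (nat_lit 6) (nat_lit 596) (nat_lit 0) (nat_lit 210) (nat_lit 187) (nat_lit 173))) (PT.nd (nat_lit 78) (PT.lf (nat_lit 43700) (nat_lit 6) (nat_lit 575) (nat_lit 0) (nat_lit 211) (nat_lit 187) (nat_lit 172)) (PT.lf (nat_lit 42028) (nat_lit 6) (nat_lit 553) (nat_lit 0) (nat_lit 212) (nat_lit 187) (nat_lit 171)))) (PT.nd (nat_lit 55770) (PT.nd (nat_lit 78) (PT.lf (nat_lit 40280) (nat_lit 6) (nat_lit 530) (nat_lit 0) (nat_lit 213) (nat_lit 187) (nat_lit 170)) (PT.lf (nat_lit 38456) (nat_lit 6) (nat_lit 506) (nat_lit 0) (nat_lit 214) (nat_lit 187) (nat_lit 169))) (PT.nd (nat_lit 78) (PT.lf (nat_lit 36632) (nat_lit 6) (nat_lit 482) (nat_lit 5) (nat_lit 167) (nat_lit 188) (nat_lit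 215)) (PT.lf (nat_lit 38532) (nat_lit 6) (nat_lit 507) (nat_lit 5) (nat_lit 168) (nat_lit 188) (nat_lit 214))))) (PT.nd (nat_lit 312) (PT.nd (nat_lit 156) (PT.nd (nat_lit 78) (PT.lf (nat_lit 40356) (nat_lit 6) (nat_lit 531) (nat_lit 5) (nat_lit 169) (nat_lit 188) (nat_lit 213)) (PT.lf (nat_lit 42104) (nat_lit 6) (nat_lit 554) (nat_lit 5) (nat_lit 170) (nat_lit 188) (nat_lit 212))) (PT.nd (nat_lit 78) (PT.lf (nat_lit 43776) (nat_lit 6) (nat_lit 576) (nat_lit 5) (nat_lit 171) (nat_lit 188) (nat_lit 211)) (PT.lf (nat_lit 45372) (nat_lit 6) (nat_lit 597) (nat_lit 5) (nat_lit 172) (nat_lit 188) (nat_lit 210)))) (PT.nd (nat_lit 156) (PT.nd (nat_lit 78) (PT.lf (nat_lit 46892) (nat_lit 6) (nat_lit 617) (nat_lit 5) (nat_lit 173) (nat_lit 188) (nat_lit 209)) (PT.lf (nat_lit 48336) (nat_lit 6) (nat_lit 636) (nat_lit 5) (nat_lit 174) (nat_lit 188) (nat_lit 208))) (PT.nd (nat_lit 78) (PT.lf (nat_lit 49704) (nat_lit 6) (nat_lit 654) (nat_lit 5) (nat_lit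 175) (nat_lit 188) (nat_lit 207)) (PT.lf (nat_lit 50996) (nat_lit 6) (nat_lit 671) (nat_lit 5) (nat_lit 176) (nat_lit 188) (nat_lit 206)))))) (PT.nd (nat_lit 624) (PT.nd (nat_lit 312) (PT.nd (nat_lit 156) (PT.nd (nat_lit 78) (PT.lf (nat_lit 52212) (nat_lit 6) (nat_lit 687) (nat_lit 5) (nat_lit 177) (nat_lit 188) (nat_lit 205)) (PT.lf (nat_lit 53352) (nat_lit 6) (nat_lit 702) (nat_lit 5) (nat_lit 178) (nat_lit 188) (nat_lit 204))) (PT.nd (nat_lit 78) (PT.lf (nat_lit 54416) (nat_lit 6) (nat_lit 716) (nat_lit 5) (nat_lit 179) (nat_lit 188) (nat_lit 203)) (PT.lf (nat_lit 55404) (nat_lit 6) (nat_lit 729) (nat_lit 5) (nat_lit 180) (nat_lit 188) (nat_lit 202)))) (PT.nd (nat_lit 156) (PT.nd (nat_lit 78) (PT.lf (nat_lit 56316) (nat_lit 6) (nat_lit 741) (nat_lit 5) (nat_lit 181) (nat_lit 188) (nat_lit 201)) (PT.lf (nat_lit 57152) (nat_lit 6) (nat_lit 752) (nat_lit 5) (nat_lit 182) (nat_lit 188) (nat_lit 200))) (PT.nd (nat_lit 78) (PT.lf (nat_lit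 57912) (nat_lit 6) (nat_lit 762) (nat_lit 5) (nat_lit 183) (nat_lit 188) (nat_lit 199)) (PT.lf (nat_lit 58596) (nat_lit 6) (nat_lit 771) (nat_lit 5) (nat_lit 184) (nat_lit 188) (nat_lit 198))))) (PT.nd (nat_lit 312) (PT.nd (nat_lit 156) (PT.nd (nat_lit 78) (PT.lf (nat_lit 59204) (nat_lit 6) (nat_lit 779) (nat_lit 5) (nat_lit 185) (nat_lit 188) (nat_lit 197)) (PT.lf (nat_lit 59736) (nat_lit 6) (nat_lit 786) (nat_lit 5) (nat_lit 186) (nat_lit 188) (nat_lit 196))) (PT.nd (nat_lit 78) (PT.lf (nat_lit 60192) (nat_lit 6) (nat_lit 792) (nat_lit 5) (nat_lit 187) (nat_lit 188) (nat_lit 195)) (PT.lf (nat_lit 60572) (nat_lit 3) (nat_lit 797) (nat_lit 3) (nat_lit 188) (nat_lit 188) (nat_lit 194)))) (PT.nd (nat_lit 156) (PT.nd (nat_lit 78) (PT.lf (nat_lit 60952) (nat_lit 6) (nat_lit 802) (nat_lit 3) (nat_lit 189) (nat_lit 188) (nat_lit 193)) (PT.lf (nat_lit 61256) (nat_lit 6) (nat_lit 806) (nat_lit 3) (nat_lit 190) (nat_lit 188) (nat_lit 192))) (PT.nd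 (nat_lit 78) (PT.lf (nat_lit 61332) (nat_lit 3) (nat_lit 807) (nat_lit 1) (nat_lit 191) (nat_lit 188) (nat_lit 191)) (PT.lf (nat_lit 61256) (nat_lit 6) (nat_lit 806) (nat_lit 1) (nat_lit 192) (nat_lit 188) (nat_lit 190)))))))
noncomputable def pc49 : PT := (PT.nd (nat_lit 1248) (PT.nd (nat_lit 624) (PT.nd (nat_lit 312) (PT.nd (nat_lit 156) (PT.nd (nat_lit 78) (PT.lf (nat_lit 60952) (nat_lit 6) (nat_lit 802) (nat_lit 1) (nat_lit 193) (nat_lit 188) (nat_lit 189)) (PT.lf (nat_lit 60572) (nat_lit 3) (nat_lit 797) (nat_lit 0) (nat_lit 194) (nat_lit 188) (nat_lit 188))) (PT.nd (nat_lit 78) (PT.lf (nat_lit 60192) (nat_lit 6) (nat_lit 792) (nat_lit 0) (nat_lit 195) (nat_lit 188) (nat_lit 187)) (PT.lf (nat_lit 59736) (nat_lit 6) (nat_lit 786) (nat_lit 0) (nat_lit 196) (nat_lit 188) (nat_lit 186)))) (PT.nd (nat_lit 156) (PT.nd (nat_lit 78) (PT.lf (nat_lit 59204) (nat_lit 6) (nat_lit 779) (nat_lit 0) (nat_lit 197) (nat_lit 188) (nat_lit 185)) (PT.lf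 (nat_lit 58596) (nat_lit 6) (nat_lit 771) (nat_lit 0) (nat_lit 198) (nat_lit 188) (nat_lit 184))) (PT.nd (nat_lit 78) (PT.lf (nat_lit 57912) (nat_lit 6) (nat_lit 762) (nat_lit 0) (nat_lit 199) (nat_lit 188) (nat_lit 183)) (PT.lf (nat_lit 57152) (nat_lit 6) (nat_lit 752) (nat_lit 0) (nat_lit 200) (nat_lit 188) (nat_lit 182))))) (PT.nd (nat_lit 312) (PT.nd (nat_lit 156) (PT.nd (nat_lit 78) (PT.lf (nat_lit 56316) (nat_lit 6) (nat_lit 741) (nat_lit 0) (nat_lit 201) (nat_lit 188) (nat_lit 181)) (PT.lf (nat_lit 55404) (nat_lit 6) (nat_lit 729) (nat_lit 0) (nat_lit 202) (nat_lit 188) (nat_lit 180))) (PT.nd (nat_lit 78) (PT.lf (nat_lit 54416) (nat_lit 6) (nat_lit 716) (nat_lit 0) (nat_lit 203) (nat_lit 188) (nat_lit 179)) (PT.lf (nat_lit 53352) (nat_lit 6) (nat_lit 702) (nat_lit 0) (nat_lit 204) (nat_lit 188) (nat_lit 178)))) (PT.nd (nat_lit 156) (PT.nd (nat_lit 78) (PT.lf (nat_lit 52212) (nat_lit 6) (nat_lit 687) (nat_lit 0) (nat_lit 205) (nat_lit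 188) (nat_lit 177)) (PT.lf (nat_lit 50996) (nat_lit 6) (nat_lit 671) (nat_lit 0) (nat_lit 206) (nat_lit 188) (nat_lit 176))) (PT.nd (nat_lit 78) (PT.lf (nat_lit 49704) (nat_lit 6) (nat_lit 654) (nat_lit 0) (nat_lit 207) (nat_lit 188) (nat_lit 175)) (PT.lf (nat_lit 48336) (nat_lit 6) (nat_lit 636) (nat_lit 0) (nat_lit 208) (nat_lit 188) (nat_lit 174)))))) (PT.nd (nat_lit 56082) (PT.nd (nat_lit 312) (PT.nd (nat_lit 156) (PT.nd (nat_lit 78) (PT.lf (nat_lit 46892) (nat_lit 6) (nat_lit 617) (nat_lit 0) (nat_lit 209) (nat_lit 188) (nat_lit 173)) (PT.lf (nat_lit 45372) (nat_lit 6) (nat_lit 597) (nat_lit 0) (nat_lit 210) (nat_lit 188) (nat_lit 172))) (PT.nd (nat_lit 78) (PT.lf (nat_lit 43776) (nat_lit 6) (nat_lit 576) (nat_lit 0) (nat_lit 211) (nat_lit 188) (nat_lit 171)) (PT.lf (nat_lit 42104) (nat_lit 6) (nat_lit 554) (nat_lit 0) (nat_lit 212) (nat_lit 188) (nat_lit 170)))) (PT.nd (nat_lit 156) (PT.nd (nat_lit 78) (PT.lf (nat_lit 40356) (nat_lit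 6) (nat_lit 531) (nat_lit 0) (nat_lit 213) (nat_lit 188) (nat_lit 169)) (PT.lf (nat_lit 38532) (nat_lit 6) (nat_lit 507) (nat_lit 0) (nat_lit 214) (nat_lit 188) (nat_lit 168))) (PT.nd (nat_lit 55536) (PT.lf (nat_lit 36632) (nat_lit 6) (nat_lit 482) (nat_lit 0) (nat_lit 215) (nat_lit 188) (nat_lit 167)) (PT.lf (nat_lit 36708) (nat_lit 6) (nat_lit 483) (nat_lit 5) (nat_lit 166) (nat_lit 189) (nat_lit 215))))) (PT.nd (nat_lit 312) (PT.nd (nat_lit 156) (PT.nd (nat_lit 78) (PT.lf (nat_lit 38608) (nat_lit 6) (nat_lit 508) (nat_lit 5) (nat_lit 167) (nat_lit 189) (nat_lit 214)) (PT.lf (nat_lit 40432) (nat_lit 6) (nat_lit 532) (nat_lit 5) (nat_lit 168) (nat_lit 189) (nat_lit 213))) (PT.nd (nat_lit 78) (PT.lf (nat_lit 42180) (nat_lit 6) (nat_lit 555) (nat_lit 5) (nat_lit 169) (nat_lit 189) (nat_lit 212)) (PT.lf (nat_lit 43852) (nat_lit 6) (nat_lit 577) (nat_lit 5) (nat_lit 170) (nat_lit 189) (nat_lit 211)))) (PT.nd (nat_lit 156) (PT.nd (nat_lit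 78) (PT.lf (nat_lit 45448) (nat_lit 6) (nat_lit 598) (nat_lit 5) (nat_lit 171) (nat_lit 189) (nat_lit 210)) (PT.lf (nat_lit 46968) (nat_lit 6) (nat_lit 618) (nat_lit 5) (nat_lit 172) (nat_lit 189) (nat_lit 209))) (PT.nd (nat_lit 78) (PT.lf (nat_lit 48412) (nat_lit 6) (nat_lit 637) (nat_lit 5) (nat_lit 173) (nat_lit 189) (nat_lit 208)) (PT.nd (nat_lit 78) (PT.lf (nat_lit 49780) (nat_lit 6) (nat_lit 655) (nat_lit 5) (nat_lit 174) (nat_lit 189) (nat_lit 207)) (PT.lf (nat_lit 51072) (nat_lit 6) (nat_lit 672) (nat_lit 5) (nat_lit 175) (nat_lit 189) (nat_lit 206))))))))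
noncomputable def pc50 : PT := (PT.nd (nat_lit 1248) (PT.nd (nat_lit 624) (PT.nd (nat_lit 312) (PT.nd (nat_lit 156) (PT.nd (nat_lit 78) (PT.lf (nat_lit 52288) (nat_lit 6) (nat_lit 688) (nat_lit 5) (nat_lit 176) (nat_lit 189) (nat_lit 205)) (PT.lf (nat_lit 53428) (nat_lit 6) (nat_lit 703) (nat_lit 5) (nat_lit 177) (nat_lit 189) (nat_lit 204))) (PT.nd (nat_lit 78) (PT.lf (nat_lit 54492) (nat_lit 6) (nat_lit 717) (nat_lit 5) (nat_lit 178) (nat_lit 189) (nat_lit 203)) (PT.lf (nat_lit 55480) (nat_lit 6) (nat_lit 730) (nat_lit 5) (nat_lit 179) (nat_lit 189) (nat_lit 202)))) (PT.nd (nat_lit 156) (PT.nd (nat_lit 78) (PT.lf (nat_lit 56392) (nat_lit 6) (nat_lit 742) (nat_lit 5) (nat_lit 180) (nat_lit 189) (nat_lit 201)) (PT.lf (nat_lit 57228) (nat_lit 6) (nat_lit 753) (nat_lit 5) (nat_lit 181) (nat_lit 189) (nat_lit 200))) (PT.nd (nat_lit 78) (PT.lf (nat_lit 57988) (nat_lit 6) (nat_lit 763) (nat_lit 5) (nat_lit 182) (nat_lit 189) (nat_lit 199))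 (PT.lf (nat_lit 58672) (nat_lit 6) (nat_lit 772) (nat_lit 5) (nat_lit 183) (nat_lit 189) (nat_lit 198))))) (PT.nd (nat_lit 312) (PT.nd (nat_lit 156) (PT.nd (nat_lit 78) (PT.lf (nat_lit 59280) (nat_lit 6) (nat_lit 780) (nat_lit 5) (nat_lit 184) (nat_lit 189) (nat_lit 197)) (PT.lf (nat_lit 59812) (nat_lit 6) (nat_lit 787) (nat_lit 5) (nat_lit 185) (nat_lit 189) (nat_lit 196))) (PT.nd (nat_lit 78) (PT.lf (nat_lit 60268) (nat_lit 6) (nat_lit 793) (nat_lit 5) (nat_lit 186) (nat_lit 189) (nat_lit 195)) (PT.lf (nat_lit 60648) (nat_lit 6) (nat_lit 798) (nat_lit 5) (nat_lit 187) (nat_lit 189) (nat_lit 194)))) (PT.nd (nat_lit 156) (PT.nd (nat_lit 78) (PT.lf (nat_lit 60952) (nat_lit 6) (nat_lit 802) (nat_lit 5) (nat_lit 188) (nat_lit 189) (nat_lit 193)) (PT.lf (nat_lit 61180) (nat_lit 3) (nat_lit 805) (nat_lit 3) (nat_lit 189) (nat_lit 189) (nat_lit 192))) (PT.nd (nat_lit 78) (PT.lf (nat_lit 61408) (nat_lit 6) (nat_lit 808) (nat_lit 3) (nat_lit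 190) (nat_lit 189) (nat_lit 191)) (PT.lf (nat_lit 61408) (nat_lit 6) (nat_lit 808) (nat_lit 1) (nat_lit 191) (nat_lit 189) (nat_lit 190)))))) (PT.nd (nat_lit 624) (PT.nd (nat_lit 312) (PT.nd (nat_lit 156) (PT.nd (nat_lit 78) (PT.lf (nat_lit 61180) (nat_lit 3) (nat_lit 805) (nat_lit 0) (nat_lit 192) (nat_lit 189) (nat_lit 189)) (PT.lf (nat_lit 60952) (nat_lit 6) (nat_lit 802) (nat_lit 0) (nat_lit 193) (nat_lit 189) (nat_lit 188))) (PT.nd (nat_lit 78) (PT.lf (nat_lit 60648) (nat_lit 6) (nat_lit 798) (nat_lit 0) (nat_lit 194) (nat_lit 189) (nat_lit 187)) (PT.lf (nat_lit 60268) (nat_lit 6) (nat_lit 793) (nat_lit 0) (nat_lit 195) (nat_lit 189) (nat_lit 186)))) (PT.nd (nat_lit 156) (PT.nd (nat_lit 78) (PT.lf (nat_lit 59812) (nat_lit 6) (nat_lit 787) (nat_lit 0) (nat_lit 196) (nat_lit 189) (nat_lit 185)) (PT.lf (nat_lit 59280) (nat_lit 6) (nat_lit 780) (nat_lit 0) (nat_lit 197) (nat_lit 189) (nat_lit 184))) (PT.nd (nat_lit 78) (PT.lf (nat_lit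 58672) (nat_lit 6) (nat_lit 772) (nat_lit 0) (nat_lit 198) (nat_lit 189) (nat_lit 183)) (PT.lf (nat_lit 57988) (nat_lit 6) (nat_lit 763) (nat_lit 0) (nat_lit 199) (nat_lit 189) (nat_lit 182))))) (PT.nd (nat_lit 312) (PT.nd (nat_lit 156) (PT.nd (nat_lit 78) (PT.lf (nat_lit 57228) (nat_lit 6) (nat_lit 753) (nat_lit 0) (nat_lit 200) (nat_lit 189) (nat_lit 181)) (PT.lf (nat_lit 56392) (nat_lit 6) (nat_lit 742) (nat_lit 0) (nat_lit 201) (nat_lit 189) (nat_lit 180))) (PT.nd (nat_lit 78) (PT.lf (nat_lit 55480) (nat_lit 6) (nat_lit 730) (nat_lit 0) (nat_lit 202) (nat_lit 189) (nat_lit 179)) (PT.lf (nat_lit 54492) (nat_lit 6) (nat_lit 717) (nat_lit 0) (nat_lit 203) (nat_lit 189) (nat_lit 178)))) (PT.nd (nat_lit 156) (PT.nd (nat_lit 78) (PT.lf (nat_lit 53428) (nat_lit 6) (nat_lit 703) (nat_lit 0) (nat_lit 204) (nat_lit 189) (nat_lit 177)) (PT.lf (nat_lit 52288) (nat_lit 6) (nat_lit 688) (nat_lit 0) (nat_lit 205) (nat_lit 189) (nat_lit 176))) (PT.nd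 (nat_lit 78) (PT.lf (nat_lit 51072) (nat_lit 6) (nat_lit 672) (nat_lit 0) (nat_lit 206) (nat_lit 189) (nat_lit 175)) (PT.nd (nat_lit 78) (PT.lf (nat_lit 49780) (nat_lit 6) (nat_lit 655) (nat_lit 0) (nat_lit 207) (nat_lit 189) (nat_lit 174)) (PT.lf (nat_lit 48412) (nat_lit 6) (nat_lit 637) (nat_lit 0) (nat_lit 208) (nat_lit 189) (nat_lit 173))))))))
noncomputable def pc51 : PT := (PT.nd (nat_lit 56628) (PT.nd (nat_lit 56004) (PT.nd (nat_lit 312) (PT.nd (nat_lit 156) (PT.nd (nat_lit 78) (PT.lf (nat_lit 46968) (nat_lit 6) (nat_lit 618) (nat_lit 0) (nat_lit 209) (nat_lit 189) (nat_lit 172)) (PT.lf (nat_lit 45448) (nat_lit 6) (nat_lit 598) (nat_lit 0) (nat_lit 210) (nat_lit 189) (nat_lit 171))) (PT.nd (nat_lit 78) (PT.lf (nat_lit 43852) (nat_lit 6) (nat_lit 577) (nat_lit 0) (nat_lit 211) (nat_lit 189) (nat_lit 170)) (PT.lf (nat_lit 42180) (nat_lit 6) (nat_lit 555) (nat_lit 0) (nat_lit 212) (nat_lit 189) (nat_lit 169)))) (PT.nd (nat_lit 156)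 (PT.nd (nat_lit 78) (PT.lf (nat_lit 40432) (nat_lit 6) (nat_lit 532) (nat_lit 0) (nat_lit 213) (nat_lit 189) (nat_lit 168)) (PT.lf (nat_lit 38608) (nat_lit 6) (nat_lit 508) (nat_lit 0) (nat_lit 214) (nat_lit 189) (nat_lit 167))) (PT.nd (nat_lit 55458) (PT.lf (nat_lit 36708) (nat_lit 6) (nat_lit 483) (nat_lit 0) (nat_lit 215) (nat_lit 189) (nat_lit 166)) (PT.lf (nat_lit 36784) (nat_lit 6) (nat_lit 484) (nat_lit 5) (nat_lit 165) (nat_lit 190) (nat_lit 215))))) (PT.nd (nat_lit 312) (PT.nd (nat_lit 156) (PT.nd (nat_lit 78) (PT.lf (nat_lit 38684) (nat_lit 6) (nat_lit 509) (nat_lit 5) (nat_lit 166) (nat_lit 190) (nat_lit 214)) (PT.lf (nat_lit 40508) (nat_lit 6) (nat_lit 533) (nat_lit 5) (nat_lit 167) (nat_lit 190) (nat_lit 213))) (PT.nd (nat_lit 78) (PT.lf (nat_lit 42256) (nat_lit 6) (nat_lit 556) (nat_lit 5) (nat_lit 168) (nat_lit 190) (nat_lit 212)) (PT.lf (nat_lit 43928) (nat_lit 6) (nat_lit 578) (nat_lit 5) (nat_lit 169) (nat_lit 190) (nat_lit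 211)))) (PT.nd (nat_lit 156) (PT.nd (nat_lit 78) (PT.lf (nat_lit 45524) (nat_lit 6) (nat_lit 599) (nat_lit 5) (nat_lit 170) (nat_lit 190) (nat_lit 210)) (PT.lf (nat_lit 47044) (nat_lit 6) (nat_lit 619) (nat_lit 5) (nat_lit 171) (nat_lit 190) (nat_lit 209))) (PT.nd (nat_lit 78) (PT.lf (nat_lit 48488) (nat_lit 6) (nat_lit 638) (nat_lit 5) (nat_lit 172) (nat_lit 190) (nat_lit 208)) (PT.lf (nat_lit 49856) (nat_lit 6) (nat_lit 656) (nat_lit 5) (nat_lit 173) (nat_lit 190) (nat_lit 207)))))) (PT.nd (nat_lit 624) (PT.nd (nat_lit 312) (PT.nd (nat_lit 156) (PT.nd (nat_lit 78) (PT.lf (nat_lit 51148) (nat_lit 6) (nat_lit 673) (nat_lit 5) (nat_lit 174) (nat_lit 190) (nat_lit 206)) (PT.lf (nat_lit 52364) (nat_lit 6) (nat_lit 689) (nat_lit 5) (nat_lit 175) (nat_lit 190) (nat_lit 205))) (PT.nd (nat_lit 78) (PT.lf (nat_lit 53504) (nat_lit 6) (nat_lit 704) (nat_lit 5) (nat_lit 176) (nat_lit 190) (nat_lit 204)) (PT.lf (nat_lit 54568) (nat_lit 6) (nat_lit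 718) (nat_lit 5) (nat_lit 177) (nat_lit 190) (nat_lit 203)))) (PT.nd (nat_lit 156) (PT.nd (nat_lit 78) (PT.lf (nat_lit 55556) (nat_lit 6) (nat_lit 731) (nat_lit 5) (nat_lit 178) (nat_lit 190) (nat_lit 202)) (PT.lf (nat_lit 56468) (nat_lit 6) (nat_lit 743) (nat_lit 5) (nat_lit 179) (nat_lit 190) (nat_lit 201))) (PT.nd (nat_lit 78) (PT.lf (nat_lit 57304) (nat_lit 6) (nat_lit 754) (nat_lit 5) (nat_lit 180) (nat_lit 190) (nat_lit 200)) (PT.lf (nat_lit 58064) (nat_lit 6) (nat_lit 764) (nat_lit 5) (nat_lit 181) (nat_lit 190) (nat_lit 199))))) (PT.nd (nat_lit 312) (PT.nd (nat_lit 156) (PT.nd (nat_lit 78) (PT.lf (nat_lit 58748) (nat_lit 6) (nat_lit 773) (nat_lit 5) (nat_lit 182) (nat_lit 190) (nat_lit 198)) (PT.lf (nat_lit 59356) (nat_lit 6) (nat_lit 781) (nat_lit 5) (nat_lit 183) (nat_lit 190) (nat_lit 197))) (PT.nd (nat_lit 78) (PT.lf (nat_lit 59888) (nat_lit 6) (nat_lit 788) (nat_lit 5) (nat_lit 184) (nat_lit 190) (nat_lit 196)) (PT.lf (nat_lit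 60344) (nat_lit 6) (nat_lit 794) (nat_lit 5) (nat_lit 185) (nat_lit 190) (nat_lit 195)))) (PT.nd (nat_lit 156) (PT.nd (nat_lit 78) (PT.lf (nat_lit 60724) (nat_lit 6) (nat_lit 799) (nat_lit 5) (nat_lit 186) (nat_lit 190) (nat_lit 194)) (PT.lf (nat_lit 61028) (nat_lit 6) (nat_lit 803) (nat_lit 5) (nat_lit 187) (nat_lit 190) (nat_lit 193))) (PT.nd (nat_lit 78) (PT.lf (nat_lit 61256) (nat_lit 6) (nat_lit 806) (nat_lit 5) (nat_lit 188) (nat_lit 190) (nat_lit 192)) (PT.nd (nat_lit 78) (PT.lf (nat_lit 61408) (nat_lit 6) (nat_lit 808) (nat_lit 5) (nat_lit 189) (nat_lit 190) (nat_lit 191)) (PT.lf (nat_lit 61484) (nat_lit 1) (nat_lit 809) (nat_lit 0) (nat_lit 190) (nat_lit 190) (nat_lit 190))))))))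
noncomputable def pc52 : PT := (PT.nd (nat_lit 1248) (PT.nd (nat_lit 624) (PT.nd (nat_lit 312) (PT.nd (nat_lit 156) (PT.nd (nat_lit 78) (PT.lf (nat_lit 61408) (nat_lit 6) (nat_lit 808) (nat_lit 0) (nat_lit 191) (nat_lit 190) (nat_lit 189)) (PT.lf (nat_lit 61256) (nat_lit 6) (nat_lit 806) (nat_lit 0) (nat_lit 192) (nat_lit 190) (nat_lit 188))) (PT.nd (nat_lit 78) (PT.lf (nat_lit 61028) (nat_lit 6) (nat_lit 803) (nat_lit 0) (nat_lit 193) (nat_lit 190) (nat_lit 187)) (PT.lf (nat_lit 60724) (nat_lit 6) (nat_lit 799) (nat_lit 0) (nat_lit 194) (nat_lit 190) (nat_lit 186)))) (PT.nd (nat_lit 156) (PT.nd (nat_lit 78) (PT.lf (nat_lit 60344) (nat_lit 6) (nat_lit 794) (nat_lit 0) (nat_lit 195) (nat_lit 190) (nat_lit 185)) (PT.lf (nat_lit 59888) (nat_lit 6) (nat_lit 788) (nat_lit 0) (nat_lit 196) (nat_lit 190) (nat_lit 184))) (PT.nd (nat_lit 78) (PT.lf (nat_lit 59356) (nat_lit 6) (nat_lit 781) (nat_lit 0) (nat_lit 197) (nat_lit 190) (nat_lit 183))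 (PT.lf (nat_lit 58748) (nat_lit 6) (nat_lit 773) (nat_lit 0) (nat_lit 198) (nat_lit 190) (nat_lit 182))))) (PT.nd (nat_lit 312) (PT.nd (nat_lit 156) (PT.nd (nat_lit 78) (PT.lf (nat_lit 58064) (nat_lit 6) (nat_lit 764) (nat_lit 0) (nat_lit 199) (nat_lit 190) (nat_lit 181)) (PT.lf (nat_lit 57304) (nat_lit 6) (nat_lit 754) (nat_lit 0) (nat_lit 200) (nat_lit 190) (nat_lit 180))) (PT.nd (nat_lit 78) (PT.lf (nat_lit 56468) (nat_lit 6) (nat_lit 743) (nat_lit 0) (nat_lit 201) (nat_lit 190) (nat_lit 179)) (PT.lf (nat_lit 55556) (nat_lit 6) (nat_lit 731) (nat_lit 0) (nat_lit 202) (nat_lit 190) (nat_lit 178)))) (PT.nd (nat_lit 156) (PT.nd (nat_lit 78) (PT.lf (nat_lit 54568) (nat_lit 6) (nat_lit 718) (nat_lit 0) (nat_lit 203) (nat_lit 190) (nat_lit 177)) (PT.lf (nat_lit 53504) (nat_lit 6) (nat_lit 704) (nat_lit 0) (nat_lit 204) (nat_lit 190) (nat_lit 176))) (PT.nd (nat_lit 78) (PT.lf (nat_lit 52364) (nat_lit 6) (nat_lit 689) (nat_lit 0) (nat_lit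 205) (nat_lit 190) (nat_lit 175)) (PT.lf (nat_lit 51148) (nat_lit 6) (nat_lit 673) (nat_lit 0) (nat_lit 206) (nat_lit 190) (nat_lit 174)))))) (PT.nd (nat_lit 624) (PT.nd (nat_lit 312) (PT.nd (nat_lit 156) (PT.nd (nat_lit 78) (PT.lf (nat_lit 49856) (nat_lit 6) (nat_lit 656) (nat_lit 0) (nat_lit 207) (nat_lit 190) (nat_lit 173)) (PT.lf (nat_lit 48488) (nat_lit 6) (nat_lit 638) (nat_lit 0) (nat_lit 208) (nat_lit 190) (nat_lit 172))) (PT.nd (nat_lit 78) (PT.lf (nat_lit 47044) (nat_lit 6) (nat_lit 619) (nat_lit 0) (nat_lit 209) (nat_lit 190) (nat_lit 171)) (PT.lf (nat_lit 45524) (nat_lit 6) (nat_lit 599) (nat_lit 0) (nat_lit 210) (nat_lit 190) (nat_lit 170)))) (PT.nd (nat_lit 156) (PT.nd (nat_lit 78) (PT.lf (nat_lit 43928) (nat_lit 6) (nat_lit 578) (nat_lit 0) (nat_lit 211) (nat_lit 190) (nat_lit 169)) (PT.lf (nat_lit 42256) (nat_lit 6) (nat_lit 556) (nat_lit 0) (nat_lit 212) (nat_lit 190) (nat_lit 168))) (PT.nd (nat_lit 78) (PT.lf (nat_lit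 40508) (nat_lit 6) (nat_lit 533) (nat_lit 0) (nat_lit 213) (nat_lit 190) (nat_lit 167)) (PT.lf (nat_lit 38684) (nat_lit 6) (nat_lit 509) (nat_lit 0) (nat_lit 214) (nat_lit 190) (nat_lit 166))))) (PT.nd (nat_lit 55614) (PT.nd (nat_lit 55458) (PT.nd (nat_lit 55380) (PT.lf (nat_lit 36784) (nat_lit 6) (nat_lit 484) (nat_lit 0) (nat_lit 215) (nat_lit 190) (nat_lit 165)) (PT.lf (nat_lit 35644) (nat_lit 6) (nat_lit 469) (nat_lit 5) (nat_lit 164) (nat_lit 191) (nat_lit 215))) (PT.nd (nat_lit 78) (PT.lf (nat_lit 36860) (nat_lit 6) (nat_lit 485) (nat_lit 5) (nat_lit 165) (nat_lit 191) (nat_lit 214)) (PT.lf (nat_lit 38760) (nat_lit 6) (nat_lit 510) (nat_lit 5) (nat_lit 166) (nat_lit 191) (nat_lit 213)))) (PT.nd (nat_lit 156) (PT.nd (nat_lit 78) (PT.lf (nat_lit 40584) (nat_lit 6) (nat_lit 534) (nat_lit 5) (nat_lit 167) (nat_lit 191) (nat_lit 212)) (PT.lf (nat_lit 42332) (nat_lit 6) (nat_lit 557) (nat_lit 5) (nat_lit 168) (nat_lit 191) (nat_lit 211)))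 (PT.nd (nat_lit 78) (PT.lf (nat_lit 44004) (nat_lit 6) (nat_lit 579) (nat_lit 5) (nat_lit 169) (nat_lit 191) (nat_lit 210)) (PT.lf (nat_lit 45600) (nat_lit 6) (nat_lit 600) (nat_lit 5) (nat_lit 170) (nat_lit 191) (nat_lit 209)))))))
noncomputable def pc53 : PT := (PT.nd (nat_lit 1248) (PT.nd (nat_lit 624) (PT.nd (nat_lit 312) (PT.nd (nat_lit 156) (PT.nd (nat_lit 78) (PT.lf (nat_lit 47120) (nat_lit 6) (nat_lit 620) (nat_lit 5) (nat_lit 171) (nat_lit 191) (nat_lit 208)) (PT.lf (nat_lit 48564) (nat_lit 6) (nat_lit 639) (nat_lit 5) (nat_lit 172) (nat_lit 191) (nat_lit 207))) (PT.nd (nat_lit 78) (PT.lf (nat_lit 49932) (nat_lit 6) (nat_lit 657) (nat_lit 5) (nat_lit 173) (nat_lit 191) (nat_lit 206)) (PT.lf (nat_lit 51224) (nat_lit 6) (nat_lit 674) (nat_lit 5) (nat_lit 174) (nat_lit 191) (nat_lit 205)))) (PT.nd (nat_lit 156) (PT.nd (nat_lit 78) (PT.lf (nat_lit 52440) (nat_lit 6) (nat_lit 690) (nat_lit 5) (nat_lit 175) (nat_lit 191) (nat_lit 204))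 (PT.lf (nat_lit 53580) (nat_lit 6) (nat_lit 705) (nat_lit 5) (nat_lit 176) (nat_lit 191) (nat_lit 203))) (PT.nd (nat_lit 78) (PT.lf (nat_lit 54644) (nat_lit 6) (nat_lit 719) (nat_lit 5) (nat_lit 177) (nat_lit 191) (nat_lit 202)) (PT.lf (nat_lit 55632) (nat_lit 6) (nat_lit 732) (nat_lit 5) (nat_lit 178) (nat_lit 191) (nat_lit 201))))) (PT.nd (nat_lit 312) (PT.nd (nat_lit 156) (PT.nd (nat_lit 78) (PT.lf (nat_lit 56544) (nat_lit 6) (nat_lit 744) (nat_lit 5) (nat_lit 179) (nat_lit 191) (nat_lit 200)) (PT.lf (nat_lit 57380) (nat_lit 6) (nat_lit 755) (nat_lit 5) (nat_lit 180) (nat_lit 191) (nat_lit 199))) (PT.nd (nat_lit 78) (PT.lf (nat_lit 58140) (nat_lit 6) (nat_lit 765) (nat_lit 5) (nat_lit 181) (nat_lit 191) (nat_lit 198)) (PT.lf (nat_lit 58824) (nat_lit 6) (nat_lit 774) (nat_lit 5) (nat_lit 182) (nat_lit 191) (nat_lit 197)))) (PT.nd (nat_lit 156) (PT.nd (nat_lit 78) (PT.lf (nat_lit 59432) (nat_lit 6) (nat_lit 782) (nat_lit 5) (nat_lit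 183) (nat_lit 191) (nat_lit 196)) (PT.lf (nat_lit 59964) (nat_lit 6) (nat_lit 789) (nat_lit 5) (nat_lit 184) (nat_lit 191) (nat_lit 195))) (PT.nd (nat_lit 78) (PT.lf (nat_lit 60420) (nat_lit 6) (nat_lit 795) (nat_lit 5) (nat_lit 185) (nat_lit 191) (nat_lit 194)) (PT.lf (nat_lit 60800) (nat_lit 6) (nat_lit 800) (nat_lit 5) (nat_lit 186) (nat_lit 191) (nat_lit 193)))))) (PT.nd (nat_lit 624) (PT.nd (nat_lit 312) (PT.nd (nat_lit 156) (PT.nd (nat_lit 78) (PT.lf (nat_lit 61104) (nat_lit 6) (nat_lit 804) (nat_lit 5) (nat_lit 187) (nat_lit 191) (nat_lit 192)) (PT.lf (nat_lit 61332) (nat_lit 3) (nat_lit 807) (nat_lit 4) (nat_lit 188) (nat_lit 191) (nat_lit 191))) (PT.nd (nat_lit 78) (PT.lf (nat_lit 61408) (nat_lit 6) (nat_lit 808) (nat_lit 4) (nat_lit 189) (nat_lit 191) (nat_lit 190)) (PT.lf (nat_lit 61408) (nat_lit 6) (nat_lit 808) (nat_lit 2) (nat_lit 190) (nat_lit 191) (nat_lit 189)))) (PT.nd (nat_lit 156) (PT.nd (nat_lit 78) (PT.lf (nat_lit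 61332) (nat_lit 3) (nat_lit 807) (nat_lit 0) (nat_lit 191) (nat_lit 191) (nat_lit 188)) (PT.lf (nat_lit 61104) (nat_lit 6) (nat_lit 804) (nat_lit 0) (nat_lit 192) (nat_lit 191) (nat_lit 187))) (PT.nd (nat_lit 78) (PT.lf (nat_lit 60800) (nat_lit 6) (nat_lit 800) (nat_lit 0) (nat_lit 193) (nat_lit 191) (nat_lit 186)) (PT.lf (nat_lit 60420) (nat_lit 6) (nat_lit 795) (nat_lit 0) (nat_lit 194) (nat_lit 191) (nat_lit 185))))) (PT.nd (nat_lit 312) (PT.nd (nat_lit 156) (PT.nd (nat_lit 78) (PT.lf (nat_lit 59964) (nat_lit 6) (nat_lit 789) (nat_lit 0) (nat_lit 195) (nat_lit 191) (nat_lit 184)) (PT.lf (nat_lit 59432) (nat_lit 6) (nat_lit 782) (nat_lit 0) (nat_lit 196) (nat_lit 191) (nat_lit 183))) (PT.nd (nat_lit 78) (PT.lf (nat_lit 58824) (nat_lit 6) (nat_lit 774) (nat_lit 0) (nat_lit 197) (nat_lit 191) (nat_lit 182)) (PT.lf (nat_lit 58140) (nat_lit 6) (nat_lit 765) (nat_lit 0) (nat_lit 198) (nat_lit 191) (nat_lit 181)))) (PT.nd (nat_lit 156) (PT.nd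 (nat_lit 78) (PT.lf (nat_lit 57380) (nat_lit 6) (nat_lit 755) (nat_lit 0) (nat_lit 199) (nat_lit 191) (nat_lit 180)) (PT.lf (nat_lit 56544) (nat_lit 6) (nat_lit 744) (nat_lit 0) (nat_lit 200) (nat_lit 191) (nat_lit 179))) (PT.nd (nat_lit 78) (PT.lf (nat_lit 55632) (nat_lit 6) (nat_lit 732) (nat_lit 0) (nat_lit 201) (nat_lit 191) (nat_lit 178)) (PT.nd (nat_lit 78) (PT.lf (nat_lit 54644) (nat_lit 6) (nat_lit 719) (nat_lit 0) (nat_lit 202) (nat_lit 191) (nat_lit 177)) (PT.lf (nat_lit 53580) (nat_lit 6) (nat_lit 705) (nat_lit 0) (nat_lit 203) (nat_lit 191) (nat_lit 176))))))))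
noncomputable def pc54 : PT := (PT.nd (nat_lit 56472) (PT.nd (nat_lit 624) (PT.nd (nat_lit 312) (PT.nd (nat_lit 156) (PT.nd (nat_lit 78) (PT.lf (nat_lit 52440) (nat_lit 6) (nat_lit 690) (nat_lit 0) (nat_lit 204) (nat_lit 191) (nat_lit 175)) (PT.lf (nat_lit 51224) (nat_lit 6) (nat_lit 674) (nat_lit 0) (nat_lit 205) (nat_lit 191) (nat_lit 174))) (PT.nd (nat_lit 78) (PT.lf (nat_lit 49932) (nat_lit 6) (nat_lit 657) (nat_lit 0) (nat_lit 206) (nat_lit 191) (nat_lit 173)) (PT.lf (nat_lit 48564) (nat_lit 6) (nat_lit 639) (nat_lit 0) (nat_lit 207) (nat_lit 191) (nat_lit 172)))) (PT.nd (nat_lit 156) (PT.nd (nat_lit 78) (PT.lf (nat_lit 47120) (nat_lit 6) (nat_lit 620) (nat_lit 0) (nat_lit 208) (nat_lit 191) (nat_lit 171)) (PT.lf (nat_lit 45600) (nat_lit 6) (nat_lit 600) (nat_lit 0) (nat_lit 209) (nat_lit 191) (nat_lit 170))) (PT.nd (nat_lit 78) (PT.lf (nat_lit 44004) (nat_lit 6) (nat_lit 579) (nat_lit 0) (nat_lit 210) (nat_lit 191) (nat_lit 169))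 (PT.lf (nat_lit 42332) (nat_lit 6) (nat_lit 557) (nat_lit 0) (nat_lit 211) (nat_lit 191) (nat_lit 168))))) (PT.nd (nat_lit 55536) (PT.nd (nat_lit 156) (PT.nd (nat_lit 78) (PT.lf (nat_lit 40584) (nat_lit 6) (nat_lit 534) (nat_lit 0) (nat_lit 212) (nat_lit 191) (nat_lit 167)) (PT.lf (nat_lit 38760) (nat_lit 6) (nat_lit 510) (nat_lit 0) (nat_lit 213) (nat_lit 191) (nat_lit 166))) (PT.nd (nat_lit 78) (PT.lf (nat_lit 36860) (nat_lit 6) (nat_lit 485) (nat_lit 0) (nat_lit 214) (nat_lit 191) (nat_lit 165)) (PT.lf (nat_lit 35644) (nat_lit 6) (nat_lit 469) (nat_lit 0) (nat_lit 215) (nat_lit 191) (nat_lit 164)))) (PT.nd (nat_lit 156) (PT.nd (nat_lit 78) (PT.lf (nat_lit 34732) (nat_lit 6) (nat_lit 457) (nat_lit 5) (nat_lit 163) (nat_lit 192) (nat_lit 215)) (PT.lf (nat_lit 35720) (nat_lit 6) (nat_lit 470) (nat_lit 5) (nat_lit 164) (nat_lit 192) (nat_lit 214))) (PT.nd (nat_lit 78) (PT.lf (nat_lit 36936) (nat_lit 6) (nat_lit 486) (nat_lit 5) (nat_lit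 165) (nat_lit 192) (nat_lit 213)) (PT.lf (nat_lit 38836) (nat_lit 6) (nat_lit 511) (nat_lit 5) (nat_lit 166) (nat_lit 192) (nat_lit 212)))))) (PT.nd (nat_lit 624) (PT.nd (nat_lit 312) (PT.nd (nat_lit 156) (PT.nd (nat_lit 78) (PT.lf (nat_lit 40660) (nat_lit 6) (nat_lit 535) (nat_lit 5) (nat_lit 167) (nat_lit 192) (nat_lit 211)) (PT.lf (nat_lit 42408) (nat_lit 6) (nat_lit 558) (nat_lit 5) (nat_lit 168) (nat_lit 192) (nat_lit 210))) (PT.nd (nat_lit 78) (PT.lf (nat_lit 44080) (nat_lit 6) (nat_lit 580) (nat_lit 5) (nat_lit 169) (nat_lit 192) (nat_lit 209)) (PT.lf (nat_lit 45676) (nat_lit 6) (nat_lit 601) (nat_lit 5) (nat_lit 170) (nat_lit 192) (nat_lit 208)))) (PT.nd (nat_lit 156) (PT.nd (nat_lit 78) (PT.lf (nat_lit 47196) (nat_lit 6) (nat_lit 621) (nat_lit 5) (nat_lit 171) (nat_lit 192) (nat_lit 207)) (PT.lf (nat_lit 48640) (nat_lit 6) (nat_lit 640) (nat_lit 5) (nat_lit 172) (nat_lit 192) (nat_lit 206))) (PT.nd (nat_lit 78) (PT.lf (nat_lit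 50008) (nat_lit 6) (nat_lit 658) (nat_lit 5) (nat_lit 173) (nat_lit 192) (nat_lit 205)) (PT.lf (nat_lit 51300) (nat_lit 6) (nat_lit 675) (nat_lit 5) (nat_lit 174) (nat_lit 192) (nat_lit 204))))) (PT.nd (nat_lit 312) (PT.nd (nat_lit 156) (PT.nd (nat_lit 78) (PT.lf (nat_lit 52516) (nat_lit 6) (nat_lit 691) (nat_lit 5) (nat_lit 175) (nat_lit 192) (nat_lit 203)) (PT.lf (nat_lit 53656) (nat_lit 6) (nat_lit 706) (nat_lit 5) (nat_lit 176) (nat_lit 192) (nat_lit 202))) (PT.nd (nat_lit 78) (PT.lf (nat_lit 54720) (nat_lit 6) (nat_lit 720) (nat_lit 5) (nat_lit 177) (nat_lit 192) (nat_lit 201)) (PT.lf (nat_lit 55708) (nat_lit 6) (nat_lit 733) (nat_lit 5) (nat_lit 178) (nat_lit 192) (nat_lit 200)))) (PT.nd (nat_lit 156) (PT.nd (nat_lit 78) (PT.lf (nat_lit 56620) (nat_lit 6) (nat_lit 745) (nat_lit 5) (nat_lit 179) (nat_lit 192) (nat_lit 199)) (PT.lf (nat_lit 57456) (nat_lit 6) (nat_lit 756) (nat_lit 5) (nat_lit 180) (nat_lit 192) (nat_lit 198))) (PT.nd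 (nat_lit 78) (PT.lf (nat_lit 58216) (nat_lit 6) (nat_lit 766) (nat_lit 5) (nat_lit 181) (nat_lit 192) (nat_lit 197)) (PT.nd (nat_lit 78) (PT.lf (nat_lit 58900) (nat_lit 6) (nat_lit 775) (nat_lit 5) (nat_lit 182) (nat_lit 192) (nat_lit 196)) (PT.lf (nat_lit 59508) (nat_lit 6) (nat_lit 783) (nat_lit 5) (nat_lit 183) (nat_lit 192) (nat_lit 195))))))))
noncomputable def pc55 : PT := (PT.nd (nat_lit 1248) (PT.nd (nat_lit 624) (PT.nd (nat_lit 312) (PT.nd (nat_lit 156) (PT.nd (nat_lit 78) (PT.lf (nat_lit 60040) (nat_lit 6) (nat_lit 790) (nat_lit 5) (nat_lit 184) (nat_lit 192) (nat_lit 194)) (PT.lf (nat_lit 60496) (nat_lit 6) (nat_lit 796) (nat_lit 5) (nat_lit 185) (nat_lit 192) (nat_lit 193))) (PT.nd (nat_lit 78) (PT.lf (nat_lit 60876) (nat_lit 3) (nat_lit 801) (nat_lit 4) (nat_lit 186) (nat_lit 192) (nat_lit 192)) (PT.lf (nat_lit 61104) (nat_lit 6) (nat_lit 804) (nat_lit 4) (nat_lit 187) (nat_lit 192) (nat_lit 191)))) (PT.nd (nat_lit 156) (PT.nd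 (nat_lit 78) (PT.lf (nat_lit 61256) (nat_lit 6) (nat_lit 806) (nat_lit 4) (nat_lit 188) (nat_lit 192) (nat_lit 190)) (PT.lf (nat_lit 61180) (nat_lit 3) (nat_lit 805) (nat_lit 2) (nat_lit 189) (nat_lit 192) (nat_lit 189))) (PT.nd (nat_lit 78) (PT.lf (nat_lit 61256) (nat_lit 6) (nat_lit 806) (nat_lit 2) (nat_lit 190) (nat_lit 192) (nat_lit 188)) (PT.lf (nat_lit 61104) (nat_lit 6) (nat_lit 804) (nat_lit 2) (nat_lit 191) (nat_lit 192) (nat_lit 187))))) (PT.nd (nat_lit 312) (PT.nd (nat_lit 156) (PT.nd (nat_lit 78) (PT.lf (nat_lit 60876) (nat_lit 3) (nat_lit 801) (nat_lit 0) (nat_lit 192) (nat_lit 192) (nat_lit 186)) (PT.lf (nat_lit 60496) (nat_lit 6) (nat_lit 796) (nat_lit 0) (nat_lit 193) (nat_lit 192) (nat_lit 185))) (PT.nd (nat_lit 78) (PT.lf (nat_lit 60040) (nat_lit 6) (nat_lit 790) (nat_lit 0) (nat_lit 194) (nat_lit 192) (nat_lit 184)) (PT.lf (nat_lit 59508) (nat_lit 6) (nat_lit 783) (nat_lit 0) (nat_lit 195) (nat_lit 192) (nat_lit 183))))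 (PT.nd (nat_lit 156) (PT.nd (nat_lit 78) (PT.lf (nat_lit 58900) (nat_lit 6) (nat_lit 775) (nat_lit 0) (nat_lit 196) (nat_lit 192) (nat_lit 182)) (PT.lf (nat_lit 58216) (nat_lit 6) (nat_lit 766) (nat_lit 0) (nat_lit 197) (nat_lit 192) (nat_lit 181))) (PT.nd (nat_lit 78) (PT.lf (nat_lit 57456) (nat_lit 6) (nat_lit 756) (nat_lit 0) (nat_lit 198) (nat_lit 192) (nat_lit 180)) (PT.lf (nat_lit 56620) (nat_lit 6) (nat_lit 745) (nat_lit 0) (nat_lit 199) (nat_lit 192) (nat_lit 179)))))) (PT.nd (nat_lit 624) (PT.nd (nat_lit 312) (PT.nd (nat_lit 156) (PT.nd (nat_lit 78) (PT.lf (nat_lit 55708) (nat_lit 6) (nat_lit 733) (nat_lit 0) (nat_lit 200) (nat_lit 192) (nat_lit 178)) (PT.lf (nat_lit 54720) (nat_lit 6) (nat_lit 720) (nat_lit 0) (nat_lit 201) (nat_lit 192) (nat_lit 177))) (PT.nd (nat_lit 78) (PT.lf (nat_lit 53656) (nat_lit 6) (nat_lit 706) (nat_lit 0) (nat_lit 202) (nat_lit 192) (nat_lit 176)) (PT.lf (nat_lit 52516) (nat_lit 6) (nat_lit 691) (nat_lit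 0) (nat_lit 203) (nat_lit 192) (nat_lit 175)))) (PT.nd (nat_lit 156) (PT.nd (nat_lit 78) (PT.lf (nat_lit 51300) (nat_lit 6) (nat_lit 675) (nat_lit 0) (nat_lit 204) (nat_lit 192) (nat_lit 174)) (PT.lf (nat_lit 50008) (nat_lit 6) (nat_lit 658) (nat_lit 0) (nat_lit 205) (nat_lit 192) (nat_lit 173))) (PT.nd (nat_lit 78) (PT.lf (nat_lit 48640) (nat_lit 6) (nat_lit 640) (nat_lit 0) (nat_lit 206) (nat_lit 192) (nat_lit 172)) (PT.lf (nat_lit 47196) (nat_lit 6) (nat_lit 621) (nat_lit 0) (nat_lit 207) (nat_lit 192) (nat_lit 171))))) (PT.nd (nat_lit 312) (PT.nd (nat_lit 156) (PT.nd (nat_lit 78) (PT.lf (nat_lit 45676) (nat_lit 6) (nat_lit 601) (nat_lit 0) (nat_lit 208) (nat_lit 192) (nat_lit 170)) (PT.lf (nat_lit 44080) (nat_lit 6) (nat_lit 580) (nat_lit 0) (nat_lit 209) (nat_lit 192) (nat_lit 169))) (PT.nd (nat_lit 78) (PT.lf (nat_lit 42408) (nat_lit 6) (nat_lit 558) (nat_lit 0) (nat_lit 210) (nat_lit 192) (nat_lit 168)) (PT.lf (nat_lit 40660) (nat_lit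 6) (nat_lit 535) (nat_lit 0) (nat_lit 211) (nat_lit 192) (nat_lit 167)))) (PT.nd (nat_lit 156) (PT.nd (nat_lit 78) (PT.lf (nat_lit 38836) (nat_lit 6) (nat_lit 511) (nat_lit 0) (nat_lit 212) (nat_lit 192) (nat_lit 166)) (PT.lf (nat_lit 36936) (nat_lit 6) (nat_lit 486) (nat_lit 0) (nat_lit 213) (nat_lit 192) (nat_lit 165))) (PT.nd (nat_lit 78) (PT.lf (nat_lit 35720) (nat_lit 6) (nat_lit 470) (nat_lit 0) (nat_lit 214) (nat_lit 192) (nat_lit 164)) (PT.nd (nat_lit 55146) (PT.lf (nat_lit 34732) (nat_lit 6) (nat_lit 457) (nat_lit 0) (nat_lit 215) (nat_lit 192) (nat_lit 163)) (PT.lf (nat_lit 32908) (nat_lit 6) (nat_lit 433) (nat_lit 5) (nat_lit 161) (nat_lit 193) (nat_lit 216))))))))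
noncomputable def pc56 : PT := (PT.nd (nat_lit 1248) (PT.nd (nat_lit 624) (PT.nd (nat_lit 312) (PT.nd (nat_lit 156) (PT.nd (nat_lit 78) (PT.lf (nat_lit 33820) (nat_lit 6) (nat_lit 445) (nat_lit 5) (nat_lit 162) (nat_lit 193) (nat_lit 215)) (PT.lf (nat_lit 34808) (nat_lit 6) (nat_lit 458) (nat_lit 5) (nat_lit 163) (nat_lit 193) (nat_lit 214))) (PT.nd (nat_lit 78) (PT.lf (nat_lit 35796) (nat_lit 6) (nat_lit 471) (nat_lit 5) (nat_lit 164) (nat_lit 193) (nat_lit 213)) (PT.lf (nat_lit 37012) (nat_lit 6) (nat_lit 487) (nat_lit 5) (nat_lit 165) (nat_lit 193) (nat_lit 212)))) (PT.nd (nat_lit 156) (PT.nd (nat_lit 78) (PT.lf (nat_lit 38912) (nat_lit 6) (nat_lit 512) (nat_lit 5) (nat_lit 166) (nat_lit 193) (nat_lit 211)) (PT.lf (nat_lit 40736) (nat_lit 6) (nat_lit 536) (nat_lit 5) (nat_lit 167) (nat_lit 193) (nat_lit 210))) (PT.nd (nat_lit 78) (PT.lf (nat_lit 42484) (nat_lit 6) (nat_lit 559) (nat_lit 5) (nat_lit 168) (nat_lit 193) (nat_lit 209))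 (PT.lf (nat_lit 44156) (nat_lit 6) (nat_lit 581) (nat_lit 5) (nat_lit 169) (nat_lit 193) (nat_lit 208))))) (PT.nd (nat_lit 312) (PT.nd (nat_lit 156) (PT.nd (nat_lit 78) (PT.lf (nat_lit 45752) (nat_lit 6) (nat_lit 602) (nat_lit 5) (nat_lit 170) (nat_lit 193) (nat_lit 207)) (PT.lf (nat_lit 47272) (nat_lit 6) (nat_lit 622) (nat_lit 5) (nat_lit 171) (nat_lit 193) (nat_lit 206))) (PT.nd (nat_lit 78) (PT.lf (nat_lit 48716) (nat_lit 6) (nat_lit 641) (nat_lit 5) (nat_lit 172) (nat_lit 193) (nat_lit 205)) (PT.lf (nat_lit 50084) (nat_lit 6) (nat_lit 659) (nat_lit 5) (nat_lit 173) (nat_lit 193) (nat_lit 204)))) (PT.nd (nat_lit 156) (PT.nd (nat_lit 78) (PT.lf (nat_lit 51376) (nat_lit 6) (nat_lit 676) (nat_lit 5) (nat_lit 174) (nat_lit 193) (nat_lit 203)) (PT.lf (nat_lit 52592) (nat_lit 6) (nat_lit 692) (nat_lit 5) (nat_lit 175) (nat_lit 193) (nat_lit 202))) (PT.nd (nat_lit 78) (PT.lf (nat_lit 53732) (nat_lit 6) (nat_lit 707) (nat_lit 5) (nat_lit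 176) (nat_lit 193) (nat_lit 201)) (PT.lf (nat_lit 54796) (nat_lit 6) (nat_lit 721) (nat_lit 5) (nat_lit 177) (nat_lit 193) (nat_lit 200)))))) (PT.nd (nat_lit 624) (PT.nd (nat_lit 312) (PT.nd (nat_lit 156) (PT.nd (nat_lit 78) (PT.lf (nat_lit 55784) (nat_lit 6) (nat_lit 734) (nat_lit 5) (nat_lit 178) (nat_lit 193) (nat_lit 199)) (PT.lf (nat_lit 56696) (nat_lit 6) (nat_lit 746) (nat_lit 5) (nat_lit 179) (nat_lit 193) (nat_lit 198))) (PT.nd (nat_lit 78) (PT.lf (nat_lit 57532) (nat_lit 6) (nat_lit 757) (nat_lit 5) (nat_lit 180) (nat_lit 193) (nat_lit 197)) (PT.lf (nat_lit 58292) (nat_lit 6) (nat_lit 767) (nat_lit 5) (nat_lit 181) (nat_lit 193) (nat_lit 196)))) (PT.nd (nat_lit 156) (PT.nd (nat_lit 78) (PT.lf (nat_lit 58976) (nat_lit 6) (nat_lit 776) (nat_lit 5) (nat_lit 182) (nat_lit 193) (nat_lit 195)) (PT.lf (nat_lit 59584) (nat_lit 6) (nat_lit 784) (nat_lit 5) (nat_lit 183) (nat_lit 193) (nat_lit 194))) (PT.nd (nat_lit 78) (PT.lf (nat_lit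 60116) (nat_lit 3) (nat_lit 791) (nat_lit 4) (nat_lit 184) (nat_lit 193) (nat_lit 193)) (PT.lf (nat_lit 60496) (nat_lit 6) (nat_lit 796) (nat_lit 4) (nat_lit 185) (nat_lit 193) (nat_lit 192))))) (PT.nd (nat_lit 312) (PT.nd (nat_lit 156) (PT.nd (nat_lit 78) (PT.lf (nat_lit 60800) (nat_lit 6) (nat_lit 800) (nat_lit 4) (nat_lit 186) (nat_lit 193) (nat_lit 191)) (PT.lf (nat_lit 61028) (nat_lit 6) (nat_lit 803) (nat_lit 4) (nat_lit 187) (nat_lit 193) (nat_lit 190))) (PT.nd (nat_lit 78) (PT.lf (nat_lit 60952) (nat_lit 6) (nat_lit 802) (nat_lit 4) (nat_lit 188) (nat_lit 193) (nat_lit 189)) (PT.lf (nat_lit 60952) (nat_lit 6) (nat_lit 802) (nat_lit 2) (nat_lit 189) (nat_lit 193) (nat_lit 188)))) (PT.nd (nat_lit 156) (PT.nd (nat_lit 78) (PT.lf (nat_lit 61028) (nat_lit 6) (nat_lit 803) (nat_lit 2) (nat_lit 190) (nat_lit 193) (nat_lit 187)) (PT.lf (nat_lit 60800) (nat_lit 6) (nat_lit 800) (nat_lit 2) (nat_lit 191) (nat_lit 193) (nat_lit 186))) (PT.nd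 (nat_lit 78) (PT.lf (nat_lit 60496) (nat_lit 6) (nat_lit 796) (nat_lit 2) (nat_lit 192) (nat_lit 193) (nat_lit 185)) (PT.lf (nat_lit 60116) (nat_lit 3) (nat_lit 791) (nat_lit 0) (nat_lit 193) (nat_lit 193) (nat_lit 184)))))))
noncomputable def pc57 : PT := (PT.nd (nat_lit 1248) (PT.nd (nat_lit 624) (PT.nd (nat_lit 312) (PT.nd (nat_lit 156) (PT.nd (nat_lit 78) (PT.lf (nat_lit 59584) (nat_lit 6) (nat_lit 784) (nat_lit 0) (nat_lit 194) (nat_lit 193) (nat_lit 183)) (PT.lf (nat_lit 58976) (nat_lit 6) (nat_lit 776) (nat_lit 0) (nat_lit 195) (nat_lit 193) (nat_lit 182))) (PT.nd (nat_lit 78) (PT.lf (nat_lit 58292) (nat_lit 6) (nat_lit 767) (nat_lit 0) (nat_lit 196) (nat_lit 193) (nat_lit 181)) (PT.lf (nat_lit 57532) (nat_lit 6) (nat_lit 757) (nat_lit 0) (nat_lit 197) (nat_lit 193) (nat_lit 180)))) (PT.nd (nat_lit 156) (PT.nd (nat_lit 78) (PT.lf (nat_lit 56696) (nat_lit 6) (nat_lit 746) (nat_lit 0) (nat_lit 198) (nat_lit 193) (nat_lit 179)) (PT.lf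 (nat_lit 55784) (nat_lit 6) (nat_lit 734) (nat_lit 0) (nat_lit 199) (nat_lit 193) (nat_lit 178))) (PT.nd (nat_lit 78) (PT.lf (nat_lit 54796) (nat_lit 6) (nat_lit 721) (nat_lit 0) (nat_lit 200) (nat_lit 193) (nat_lit 177)) (PT.lf (nat_lit 53732) (nat_lit 6) (nat_lit 707) (nat_lit 0) (nat_lit 201) (nat_lit 193) (nat_lit 176))))) (PT.nd (nat_lit 312) (PT.nd (nat_lit 156) (PT.nd (nat_lit 78) (PT.lf (nat_lit 52592) (nat_lit 6) (nat_lit 692) (nat_lit 0) (nat_lit 202) (nat_lit 193) (nat_lit 175)) (PT.lf (nat_lit 51376) (nat_lit 6) (nat_lit 676) (nat_lit 0) (nat_lit 203) (nat_lit 193) (nat_lit 174))) (PT.nd (nat_lit 78) (PT.lf (nat_lit 50084) (nat_lit 6) (nat_lit 659) (nat_lit 0) (nat_lit 204) (nat_lit 193) (nat_lit 173)) (PT.lf (nat_lit 48716) (nat_lit 6) (nat_lit 641) (nat_lit 0) (nat_lit 205) (nat_lit 193) (nat_lit 172)))) (PT.nd (nat_lit 156) (PT.nd (nat_lit 78) (PT.lf (nat_lit 47272) (nat_lit 6) (nat_lit 622) (nat_lit 0) (nat_lit 206) (nat_lit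 193) (nat_lit 171)) (PT.lf (nat_lit 45752) (nat_lit 6) (nat_lit 602) (nat_lit 0) (nat_lit 207) (nat_lit 193) (nat_lit 170))) (PT.nd (nat_lit 78) (PT.lf (nat_lit 44156) (nat_lit 6) (nat_lit 581) (nat_lit 0) (nat_lit 208) (nat_lit 193) (nat_lit 169)) (PT.lf (nat_lit 42484) (nat_lit 6) (nat_lit 559) (nat_lit 0) (nat_lit 209) (nat_lit 193) (nat_lit 168)))))) (PT.nd (nat_lit 55536) (PT.nd (nat_lit 312) (PT.nd (nat_lit 156) (PT.nd (nat_lit 78) (PT.lf (nat_lit 40736) (nat_lit 6) (nat_lit 536) (nat_lit 0) (nat_lit 210) (nat_lit 193) (nat_lit 167)) (PT.lf (nat_lit 38912) (nat_lit 6) (nat_lit 512) (nat_lit 0) (nat_lit 211) (nat_lit 193) (nat_lit 166))) (PT.nd (nat_lit 78) (PT.lf (nat_lit 37012) (nat_lit 6) (nat_lit 487) (nat_lit 0) (nat_lit 212) (nat_lit 193) (nat_lit 165)) (PT.lf (nat_lit 35796) (nat_lit 6) (nat_lit 471) (nat_lit 0) (nat_lit 213) (nat_lit 193) (nat_lit 164)))) (PT.nd (nat_lit 156) (PT.nd (nat_lit 78) (PT.lf (nat_lit 34808) (nat_lit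 6) (nat_lit 458) (nat_lit 0) (nat_lit 214) (nat_lit 193) (nat_lit 163)) (PT.lf (nat_lit 33820) (nat_lit 6) (nat_lit 445) (nat_lit 0) (nat_lit 215) (nat_lit 193) (nat_lit 162))) (PT.nd (nat_lit 54990) (PT.lf (nat_lit 32908) (nat_lit 6) (nat_lit 433) (nat_lit 0) (nat_lit 216) (nat_lit 193) (nat_lit 161)) (PT.lf (nat_lit 31996) (nat_lit 6) (nat_lit 421) (nat_lit 5) (nat_lit 160) (nat_lit 194) (nat_lit 216))))) (PT.nd (nat_lit 312) (PT.nd (nat_lit 156) (PT.nd (nat_lit 78) (PT.lf (nat_lit 32984) (nat_lit 6) (nat_lit 434) (nat_lit 5) (nat_lit 161) (nat_lit 194) (nat_lit 215)) (PT.lf (nat_lit 33896) (nat_lit 6) (nat_lit 446) (nat_lit 5) (nat_lit 162) (nat_lit 194) (nat_lit 214))) (PT.nd (nat_lit 78) (PT.lf (nat_lit 34884) (nat_lit 6) (nat_lit 459) (nat_lit 5) (nat_lit 163) (nat_lit 194) (nat_lit 213)) (PT.lf (nat_lit 35872) (nat_lit 6) (nat_lit 472) (nat_lit 5) (nat_lit 164) (nat_lit 194) (nat_lit 212)))) (PT.nd (nat_lit 156) (PT.nd (nat_lit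 78) (PT.lf (nat_lit 37088) (nat_lit 6) (nat_lit 488) (nat_lit 5) (nat_lit 165) (nat_lit 194) (nat_lit 211)) (PT.lf (nat_lit 38988) (nat_lit 6) (nat_lit 513) (nat_lit 5) (nat_lit 166) (nat_lit 194) (nat_lit 210))) (PT.nd (nat_lit 78) (PT.lf (nat_lit 40812) (nat_lit 6) (nat_lit 537) (nat_lit 5) (nat_lit 167) (nat_lit 194) (nat_lit 209)) (PT.nd (nat_lit 78) (PT.lf (nat_lit 42560) (nat_lit 6) (nat_lit 560) (nat_lit 5) (nat_lit 168) (nat_lit 194) (nat_lit 208)) (PT.lf (nat_lit 44232) (nat_lit 6) (nat_lit 582) (nat_lit 5) (nat_lit 169) (nat_lit 194) (nat_lit 207))))))))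
noncomputable def pc58 : PT := (PT.nd (nat_lit 1248) (PT.nd (nat_lit 624) (PT.nd (nat_lit 312) (PT.nd (nat_lit 156) (PT.nd (nat_lit 78) (PT.lf (nat_lit 45828) (nat_lit 6) (nat_lit 603) (nat_lit 5) (nat_lit 170) (nat_lit 194) (nat_lit 206)) (PT.lf (nat_lit 47348) (nat_lit 6) (nat_lit 623) (nat_lit 5) (nat_lit 171) (nat_lit 194) (nat_lit 205))) (PT.nd (nat_lit 78) (PT.lf (nat_lit 48792) (nat_lit 6) (nat_lit 642) (nat_lit 5) (nat_lit 172) (nat_lit 194) (nat_lit 204)) (PT.lf (nat_lit 50160) (nat_lit 6) (nat_lit 660) (nat_lit 5) (nat_lit 173) (nat_lit 194) (nat_lit 203)))) (PT.nd (nat_lit 156) (PT.nd (nat_lit 78) (PT.lf (nat_lit 51452) (nat_lit 6) (nat_lit 677) (nat_lit 5) (nat_lit 174) (nat_lit 194) (nat_lit 202)) (PT.lf (nat_lit 52668) (nat_lit 6) (nat_lit 693) (nat_lit 5) (nat_lit 175) (nat_lit 194) (nat_lit 201))) (PT.nd (nat_lit 78) (PT.lf (nat_lit 53808) (nat_lit 6) (nat_lit 708) (nat_lit 5) (nat_lit 176) (nat_lit 194) (nat_lit 200))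 (PT.lf (nat_lit 54872) (nat_lit 6) (nat_lit 722) (nat_lit 5) (nat_lit 177) (nat_lit 194) (nat_lit 199))))) (PT.nd (nat_lit 312) (PT.nd (nat_lit 156) (PT.nd (nat_lit 78) (PT.lf (nat_lit 55860) (nat_lit 6) (nat_lit 735) (nat_lit 5) (nat_lit 178) (nat_lit 194) (nat_lit 198)) (PT.lf (nat_lit 56772) (nat_lit 6) (nat_lit 747) (nat_lit 5) (nat_lit 179) (nat_lit 194) (nat_lit 197))) (PT.nd (nat_lit 78) (PT.lf (nat_lit 57608) (nat_lit 6) (nat_lit 758) (nat_lit 5) (nat_lit 180) (nat_lit 194) (nat_lit 196)) (PT.lf (nat_lit 58368) (nat_lit 6) (nat_lit 768) (nat_lit 5) (nat_lit 181) (nat_lit 194) (nat_lit 195)))) (PT.nd (nat_lit 156) (PT.nd (nat_lit 78) (PT.lf (nat_lit 59052) (nat_lit 3) (nat_lit 777) (nat_lit 4) (nat_lit 182) (nat_lit 194) (nat_lit 194)) (PT.lf (nat_lit 59584) (nat_lit 6) (nat_lit 784) (nat_lit 4) (nat_lit 183) (nat_lit 194) (nat_lit 193))) (PT.nd (nat_lit 78) (PT.lf (nat_lit 60040) (nat_lit 6) (nat_lit 790) (nat_lit 4) (nat_lit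 184) (nat_lit 194) (nat_lit 192)) (PT.lf (nat_lit 60420) (nat_lit 6) (nat_lit 795) (nat_lit 4) (nat_lit 185) (nat_lit 194) (nat_lit 191)))))) (PT.nd (nat_lit 624) (PT.nd (nat_lit 312) (PT.nd (nat_lit 156) (PT.nd (nat_lit 78) (PT.lf (nat_lit 60724) (nat_lit 6) (nat_lit 799) (nat_lit 4) (nat_lit 186) (nat_lit 194) (nat_lit 190)) (PT.lf (nat_lit 60648) (nat_lit 6) (nat_lit 798) (nat_lit 4) (nat_lit 187) (nat_lit 194) (nat_lit 189))) (PT.nd (nat_lit 78) (PT.lf (nat_lit 60572) (nat_lit 3) (nat_lit 797) (nat_lit 2) (nat_lit 188) (nat_lit 194) (nat_lit 188)) (PT.lf (nat_lit 60648) (nat_lit 6) (nat_lit 798) (nat_lit 2) (nat_lit 189) (nat_lit 194) (nat_lit 187)))) (PT.nd (nat_lit 156) (PT.nd (nat_lit 78) (PT.lf (nat_lit 60724) (nat_lit 6) (nat_lit 799) (nat_lit 2) (nat_lit 190) (nat_lit 194) (nat_lit 186)) (PT.lf (nat_lit 60420) (nat_lit 6) (nat_lit 795) (nat_lit 2) (nat_lit 191) (nat_lit 194) (nat_lit 185))) (PT.nd (nat_lit 78) (PT.lf (nat_lit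 60040) (nat_lit 6) (nat_lit 790) (nat_lit 2) (nat_lit 192) (nat_lit 194) (nat_lit 184)) (PT.lf (nat_lit 59584) (nat_lit 6) (nat_lit 784) (nat_lit 2) (nat_lit 193) (nat_lit 194) (nat_lit 183))))) (PT.nd (nat_lit 312) (PT.nd (nat_lit 156) (PT.nd (nat_lit 78) (PT.lf (nat_lit 59052) (nat_lit 3) (nat_lit 777) (nat_lit 0) (nat_lit 194) (nat_lit 194) (nat_lit 182)) (PT.lf (nat_lit 58368) (nat_lit 6) (nat_lit 768) (nat_lit 0) (nat_lit 195) (nat_lit 194) (nat_lit 181))) (PT.nd (nat_lit 78) (PT.lf (nat_lit 57608) (nat_lit 6) (nat_lit 758) (nat_lit 0) (nat_lit 196) (nat_lit 194) (nat_lit 180)) (PT.lf (nat_lit 56772) (nat_lit 6) (nat_lit 747) (nat_lit 0) (nat_lit 197) (nat_lit 194) (nat_lit 179)))) (PT.nd (nat_lit 156) (PT.nd (nat_lit 78) (PT.lf (nat_lit 55860) (nat_lit 6) (nat_lit 735) (nat_lit 0) (nat_lit 198) (nat_lit 194) (nat_lit 178)) (PT.lf (nat_lit 54872) (nat_lit 6) (nat_lit 722) (nat_lit 0) (nat_lit 199) (nat_lit 194) (nat_lit 177))) (PT.nd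 (nat_lit 78) (PT.lf (nat_lit 53808) (nat_lit 6) (nat_lit 708) (nat_lit 0) (nat_lit 200) (nat_lit 194) (nat_lit 176)) (PT.nd (nat_lit 78) (PT.lf (nat_lit 52668) (nat_lit 6) (nat_lit 693) (nat_lit 0) (nat_lit 201) (nat_lit 194) (nat_lit 175)) (PT.lf (nat_lit 51452) (nat_lit 6) (nat_lit 677) (nat_lit 0) (nat_lit 202) (nat_lit 194) (nat_lit 174))))))))
noncomputable def pc59 : PT := (PT.nd (nat_lit 56082) (PT.nd (nat_lit 624) (PT.nd (nat_lit 312) (PT.nd (nat_lit 156) (PT.nd (nat_lit 78) (PT.lf (nat_lit 50160) (nat_lit 6) (nat_lit 660) (nat_lit 0) (nat_lit 203) (nat_lit 194) (nat_lit 173)) (PT.lf (nat_lit 48792) (nat_lit 6) (nat_lit 642) (nat_lit 0) (nat_lit 204) (nat_lit 194) (nat_lit 172))) (PT.nd (nat_lit 78) (PT.lf (nat_lit 47348) (nat_lit 6) (nat_lit 623) (nat_lit 0) (nat_lit 205) (nat_lit 194) (nat_lit 171)) (PT.lf (nat_lit 45828) (nat_lit 6) (nat_lit 603) (nat_lit 0) (nat_lit 206) (nat_lit 194) (nat_lit 170)))) (PT.nd (nat_lit 156)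 (PT.nd (nat_lit 78) (PT.lf (nat_lit 44232) (nat_lit 6) (nat_lit 582) (nat_lit 0) (nat_lit 207) (nat_lit 194) (nat_lit 169)) (PT.lf (nat_lit 42560) (nat_lit 6) (nat_lit 560) (nat_lit 0) (nat_lit 208) (nat_lit 194) (nat_lit 168))) (PT.nd (nat_lit 78) (PT.lf (nat_lit 40812) (nat_lit 6) (nat_lit 537) (nat_lit 0) (nat_lit 209) (nat_lit 194) (nat_lit 167)) (PT.lf (nat_lit 38988) (nat_lit 6) (nat_lit 513) (nat_lit 0) (nat_lit 210) (nat_lit 194) (nat_lit 166))))) (PT.nd (nat_lit 312) (PT.nd (nat_lit 156) (PT.nd (nat_lit 78) (PT.lf (nat_lit 37088) (nat_lit 6) (nat_lit 488) (nat_lit 0) (nat_lit 211) (nat_lit 194) (nat_lit 165)) (PT.lf (nat_lit 35872) (nat_lit 6) (nat_lit 472) (nat_lit 0) (nat_lit 212) (nat_lit 194) (nat_lit 164))) (PT.nd (nat_lit 78) (PT.lf (nat_lit 34884) (nat_lit 6) (nat_lit 459) (nat_lit 0) (nat_lit 213) (nat_lit 194) (nat_lit 163)) (PT.lf (nat_lit 33896) (nat_lit 6) (nat_lit 446) (nat_lit 0) (nat_lit 214) (nat_lit 194) (nat_lit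 162)))) (PT.nd (nat_lit 54990) (PT.nd (nat_lit 78) (PT.lf (nat_lit 32984) (nat_lit 6) (nat_lit 434) (nat_lit 0) (nat_lit 215) (nat_lit 194) (nat_lit 161)) (PT.lf (nat_lit 31996) (nat_lit 6) (nat_lit 421) (nat_lit 0) (nat_lit 216) (nat_lit 194) (nat_lit 160))) (PT.nd (nat_lit 78) (PT.lf (nat_lit 31160) (nat_lit 6) (nat_lit 410) (nat_lit 5) (nat_lit 159) (nat_lit 195) (nat_lit 216)) (PT.lf (nat_lit 32072) (nat_lit 6) (nat_lit 422) (nat_lit 5) (nat_lit 160) (nat_lit 195) (nat_lit 215)))))) (PT.nd (nat_lit 624) (PT.nd (nat_lit 312) (PT.nd (nat_lit 156) (PT.nd (nat_lit 78) (PT.lf (nat_lit 33060) (nat_lit 6) (nat_lit 435) (nat_lit 5) (nat_lit 161) (nat_lit 195) (nat_lit 214)) (PT.lf (nat_lit 33972) (nat_lit 6) (nat_lit 447) (nat_lit 5) (nat_lit 162) (nat_lit 195) (nat_lit 213))) (PT.nd (nat_lit 78) (PT.lf (nat_lit 34960) (nat_lit 6) (nat_lit 460) (nat_lit 5) (nat_lit 163) (nat_lit 195) (nat_lit 212)) (PT.lf (nat_lit 35948) (nat_lit 6) (nat_lit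 473) (nat_lit 5) (nat_lit 164) (nat_lit 195) (nat_lit 211)))) (PT.nd (nat_lit 156) (PT.nd (nat_lit 78) (PT.lf (nat_lit 37164) (nat_lit 6) (nat_lit 489) (nat_lit 5) (nat_lit 165) (nat_lit 195) (nat_lit 210)) (PT.lf (nat_lit 39064) (nat_lit 6) (nat_lit 514) (nat_lit 5) (nat_lit 166) (nat_lit 195) (nat_lit 209))) (PT.nd (nat_lit 78) (PT.lf (nat_lit 40888) (nat_lit 6) (nat_lit 538) (nat_lit 5) (nat_lit 167) (nat_lit 195) (nat_lit 208)) (PT.lf (nat_lit 42636) (nat_lit 6) (nat_lit 561) (nat_lit 5) (nat_lit 168) (nat_lit 195) (nat_lit 207))))) (PT.nd (nat_lit 312) (PT.nd (nat_lit 156) (PT.nd (nat_lit 78) (PT.lf (nat_lit 44308) (nat_lit 6) (nat_lit 583) (nat_lit 5) (nat_lit 169) (nat_lit 195) (nat_lit 206)) (PT.lf (nat_lit 45904) (nat_lit 6) (nat_lit 604) (nat_lit 5) (nat_lit 170) (nat_lit 195) (nat_lit 205))) (PT.nd (nat_lit 78) (PT.lf (nat_lit 47424) (nat_lit 6) (nat_lit 624) (nat_lit 5) (nat_lit 171) (nat_lit 195) (nat_lit 204)) (PT.lf (nat_lit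 48868) (nat_lit 6) (nat_lit 643) (nat_lit 5) (nat_lit 172) (nat_lit 195) (nat_lit 203)))) (PT.nd (nat_lit 156) (PT.nd (nat_lit 78) (PT.lf (nat_lit 50236) (nat_lit 6) (nat_lit 661) (nat_lit 5) (nat_lit 173) (nat_lit 195) (nat_lit 202)) (PT.lf (nat_lit 51528) (nat_lit 6) (nat_lit 678) (nat_lit 5) (nat_lit 174) (nat_lit 195) (nat_lit 201))) (PT.nd (nat_lit 78) (PT.lf (nat_lit 52744) (nat_lit 6) (nat_lit 694) (nat_lit 5) (nat_lit 175) (nat_lit 195) (nat_lit 200)) (PT.nd (nat_lit 78) (PT.lf (nat_lit 53884) (nat_lit 6) (nat_lit 709) (nat_lit 5) (nat_lit 176) (nat_lit 195) (nat_lit 199)) (PT.lf (nat_lit 54948) (nat_lit 6) (nat_lit 723) (nat_lit 5) (nat_lit 177) (nat_lit 195) (nat_lit 198))))))))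
noncomputable def pc60 : PT := (PT.nd (nat_lit 1248) (PT.nd (nat_lit 624) (PT.nd (nat_lit 312) (PT.nd (nat_lit 156) (PT.nd (nat_lit 78) (PT.lf (nat_lit 55936) (nat_lit 6) (nat_lit 736) (nat_lit 5) (nat_lit 178) (nat_lit 195) (nat_lit 197)) (PT.lf (nat_lit 56848) (nat_lit 6) (nat_lit 748) (nat_lit 5) (nat_lit 179) (nat_lit 195) (nat_lit 196))) (PT.nd (nat_lit 78) (PT.lf (nat_lit 57684) (nat_lit 3) (nat_lit 759) (nat_lit 4) (nat_lit 180) (nat_lit 195) (nat_lit 195)) (PT.lf (nat_lit 58368) (nat_lit 6) (nat_lit 768) (nat_lit 4) (nat_lit 181) (nat_lit 195) (nat_lit 194)))) (PT.nd (nat_lit 156) (PT.nd (nat_lit 78) (PT.lf (nat_lit 58976) (nat_lit 6) (nat_lit 776) (nat_lit 4) (nat_lit 182) (nat_lit 195) (nat_lit 193)) (PT.lf (nat_lit 59508) (nat_lit 6) (nat_lit 783) (nat_lit 4) (nat_lit 183) (nat_lit 195) (nat_lit 192))) (PT.nd (nat_lit 78) (PT.lf (nat_lit 59964) (nat_lit 6) (nat_lit 789) (nat_lit 4) (nat_lit 184) (nat_lit 195) (nat_lit 191))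 (PT.lf (nat_lit 60344) (nat_lit 6) (nat_lit 794) (nat_lit 4) (nat_lit 185) (nat_lit 195) (nat_lit 190))))) (PT.nd (nat_lit 312) (PT.nd (nat_lit 156) (PT.nd (nat_lit 78) (PT.lf (nat_lit 60268) (nat_lit 6) (nat_lit 793) (nat_lit 4) (nat_lit 186) (nat_lit 195) (nat_lit 189)) (PT.lf (nat_lit 60192) (nat_lit 6) (nat_lit 792) (nat_lit 4) (nat_lit 187) (nat_lit 195) (nat_lit 188))) (PT.nd (nat_lit 78) (PT.lf (nat_lit 60192) (nat_lit 6) (nat_lit 792) (nat_lit 2) (nat_lit 188) (nat_lit 195) (nat_lit 187)) (PT.lf (nat_lit 60268) (nat_lit 6) (nat_lit 793) (nat_lit 2) (nat_lit 189) (nat_lit 195) (nat_lit 186)))) (PT.nd (nat_lit 156) (PT.nd (nat_lit 78) (PT.lf (nat_lit 60344) (nat_lit 6) (nat_lit 794) (nat_lit 2) (nat_lit 190) (nat_lit 195) (nat_lit 185)) (PT.lf (nat_lit 59964) (nat_lit 6) (nat_lit 789) (nat_lit 2) (nat_lit 191) (nat_lit 195) (nat_lit 184))) (PT.nd (nat_lit 78) (PT.lf (nat_lit 59508) (nat_lit 6) (nat_lit 783) (nat_lit 2) (nat_lit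 192) (nat_lit 195) (nat_lit 183)) (PT.lf (nat_lit 58976) (nat_lit 6) (nat_lit 776) (nat_lit 2) (nat_lit 193) (nat_lit 195) (nat_lit 182)))))) (PT.nd (nat_lit 624) (PT.nd (nat_lit 312) (PT.nd (nat_lit 156) (PT.nd (nat_lit 78) (PT.lf (nat_lit 58368) (nat_lit 6) (nat_lit 768) (nat_lit 2) (nat_lit 194) (nat_lit 195) (nat_lit 181)) (PT.lf (nat_lit 57684) (nat_lit 3) (nat_lit 759) (nat_lit 0) (nat_lit 195) (nat_lit 195) (nat_lit 180))) (PT.nd (nat_lit 78) (PT.lf (nat_lit 56848) (nat_lit 6) (nat_lit 748) (nat_lit 0) (nat_lit 196) (nat_lit 195) (nat_lit 179)) (PT.lf (nat_lit 55936) (nat_lit 6) (nat_lit 736) (nat_lit 0) (nat_lit 197) (nat_lit 195) (nat_lit 178)))) (PT.nd (nat_lit 156) (PT.nd (nat_lit 78) (PT.lf (nat_lit 54948) (nat_lit 6) (nat_lit 723) (nat_lit 0) (nat_lit 198) (nat_lit 195) (nat_lit 177)) (PT.lf (nat_lit 53884) (nat_lit 6) (nat_lit 709) (nat_lit 0) (nat_lit 199) (nat_lit 195) (nat_lit 176))) (PT.nd (nat_lit 78) (PT.lf (nat_lit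 52744) (nat_lit 6) (nat_lit 694) (nat_lit 0) (nat_lit 200) (nat_lit 195) (nat_lit 175)) (PT.lf (nat_lit 51528) (nat_lit 6) (nat_lit 678) (nat_lit 0) (nat_lit 201) (nat_lit 195) (nat_lit 174))))) (PT.nd (nat_lit 312) (PT.nd (nat_lit 156) (PT.nd (nat_lit 78) (PT.lf (nat_lit 50236) (nat_lit 6) (nat_lit 661) (nat_lit 0) (nat_lit 202) (nat_lit 195) (nat_lit 173)) (PT.lf (nat_lit 48868) (nat_lit 6) (nat_lit 643) (nat_lit 0) (nat_lit 203) (nat_lit 195) (nat_lit 172))) (PT.nd (nat_lit 78) (PT.lf (nat_lit 47424) (nat_lit 6) (nat_lit 624) (nat_lit 0) (nat_lit 204) (nat_lit 195) (nat_lit 171)) (PT.lf (nat_lit 45904) (nat_lit 6) (nat_lit 604) (nat_lit 0) (nat_lit 205) (nat_lit 195) (nat_lit 170)))) (PT.nd (nat_lit 156) (PT.nd (nat_lit 78) (PT.lf (nat_lit 44308) (nat_lit 6) (nat_lit 583) (nat_lit 0) (nat_lit 206) (nat_lit 195) (nat_lit 169)) (PT.lf (nat_lit 42636) (nat_lit 6) (nat_lit 561) (nat_lit 0) (nat_lit 207) (nat_lit 195) (nat_lit 168))) (PT.nd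 (nat_lit 78) (PT.lf (nat_lit 40888) (nat_lit 6) (nat_lit 538) (nat_lit 0) (nat_lit 208) (nat_lit 195) (nat_lit 167)) (PT.nd (nat_lit 78) (PT.lf (nat_lit 39064) (nat_lit 6) (nat_lit 514) (nat_lit 0) (nat_lit 209) (nat_lit 195) (nat_lit 166)) (PT.lf (nat_lit 37164) (nat_lit 6) (nat_lit 489) (nat_lit 0) (nat_lit 210) (nat_lit 195) (nat_lit 165))))))))
noncomputable def pc61 : PT := (PT.nd (nat_lit 56004) (PT.nd (nat_lit 55380) (PT.nd (nat_lit 312) (PT.nd (nat_lit 156) (PT.nd (nat_lit 78) (PT.lf (nat_lit 35948) (nat_lit 6) (nat_lit 473) (nat_lit 0) (nat_lit 211) (nat_lit 195) (nat_lit 164)) (PT.lf (nat_lit 34960) (nat_lit 6) (nat_lit 460) (nat_lit 0) (nat_lit 212) (nat_lit 195) (nat_lit 163))) (PT.nd (nat_lit 78) (PT.lf (nat_lit 33972) (nat_lit 6) (nat_lit 447) (nat_lit 0) (nat_lit 213) (nat_lit 195) (nat_lit 162)) (PT.lf (nat_lit 33060) (nat_lit 6) (nat_lit 435) (nat_lit 0) (nat_lit 214) (nat_lit 195) (nat_lit 161)))) (PT.nd (nat_lit 54912)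 (PT.nd (nat_lit 78) (PT.lf (nat_lit 32072) (nat_lit 6) (nat_lit 422) (nat_lit 0) (nat_lit 215) (nat_lit 195) (nat_lit 160)) (PT.lf (nat_lit 31160) (nat_lit 6) (nat_lit 410) (nat_lit 0) (nat_lit 216) (nat_lit 195) (nat_lit 159))) (PT.nd (nat_lit 78) (PT.lf (nat_lit 30324) (nat_lit 6) (nat_lit 399) (nat_lit 5) (nat_lit 158) (nat_lit 196) (nat_lit 216)) (PT.lf (nat_lit 31236) (nat_lit 6) (nat_lit 411) (nat_lit 5) (nat_lit 159) (nat_lit 196) (nat_lit 215))))) (PT.nd (nat_lit 312) (PT.nd (nat_lit 156) (PT.nd (nat_lit 78) (PT.lf (nat_lit 32148) (nat_lit 6) (nat_lit 423) (nat_lit 5) (nat_lit 160) (nat_lit 196) (nat_lit 214)) (PT.lf (nat_lit 33136) (nat_lit 6) (nat_lit 436) (nat_lit 5) (nat_lit 161) (nat_lit 196) (nat_lit 213))) (PT.nd (nat_lit 78) (PT.lf (nat_lit 34048) (nat_lit 6) (nat_lit 448) (nat_lit 5) (nat_lit 162) (nat_lit 196) (nat_lit 212)) (PT.lf (nat_lit 35036) (nat_lit 6) (nat_lit 461) (nat_lit 5) (nat_lit 163) (nat_lit 196) (nat_lit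 211)))) (PT.nd (nat_lit 156) (PT.nd (nat_lit 78) (PT.lf (nat_lit 36024) (nat_lit 6) (nat_lit 474) (nat_lit 5) (nat_lit 164) (nat_lit 196) (nat_lit 210)) (PT.lf (nat_lit 37240) (nat_lit 6) (nat_lit 490) (nat_lit 5) (nat_lit 165) (nat_lit 196) (nat_lit 209))) (PT.nd (nat_lit 78) (PT.lf (nat_lit 39140) (nat_lit 6) (nat_lit 515) (nat_lit 5) (nat_lit 166) (nat_lit 196) (nat_lit 208)) (PT.lf (nat_lit 40964) (nat_lit 6) (nat_lit 539) (nat_lit 5) (nat_lit 167) (nat_lit 196) (nat_lit 207)))))) (PT.nd (nat_lit 624) (PT.nd (nat_lit 312) (PT.nd (nat_lit 156) (PT.nd (nat_lit 78) (PT.lf (nat_lit 42712) (nat_lit 6) (nat_lit 562) (nat_lit 5) (nat_lit 168) (nat_lit 196) (nat_lit 206)) (PT.lf (nat_lit 44384) (nat_lit 6) (nat_lit 584) (nat_lit 5) (nat_lit 169) (nat_lit 196) (nat_lit 205))) (PT.nd (nat_lit 78) (PT.lf (nat_lit 45980) (nat_lit 6) (nat_lit 605) (nat_lit 5) (nat_lit 170) (nat_lit 196) (nat_lit 204)) (PT.lf (nat_lit 47500) (nat_lit 6) (nat_lit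 625) (nat_lit 5) (nat_lit 171) (nat_lit 196) (nat_lit 203)))) (PT.nd (nat_lit 156) (PT.nd (nat_lit 78) (PT.lf (nat_lit 48944) (nat_lit 6) (nat_lit 644) (nat_lit 5) (nat_lit 172) (nat_lit 196) (nat_lit 202)) (PT.lf (nat_lit 50312) (nat_lit 6) (nat_lit 662) (nat_lit 5) (nat_lit 173) (nat_lit 196) (nat_lit 201))) (PT.nd (nat_lit 78) (PT.lf (nat_lit 51604) (nat_lit 6) (nat_lit 679) (nat_lit 5) (nat_lit 174) (nat_lit 196) (nat_lit 200)) (PT.lf (nat_lit 52820) (nat_lit 6) (nat_lit 695) (nat_lit 5) (nat_lit 175) (nat_lit 196) (nat_lit 199))))) (PT.nd (nat_lit 312) (PT.nd (nat_lit 156) (PT.nd (nat_lit 78) (PT.lf (nat_lit 53960) (nat_lit 6) (nat_lit 710) (nat_lit 5) (nat_lit 176) (nat_lit 196) (nat_lit 198)) (PT.lf (nat_lit 55024) (nat_lit 6) (nat_lit 724) (nat_lit 5) (nat_lit 177) (nat_lit 196) (nat_lit 197))) (PT.nd (nat_lit 78) (PT.lf (nat_lit 56012) (nat_lit 3) (nat_lit 737) (nat_lit 4) (nat_lit 178) (nat_lit 196) (nat_lit 196)) (PT.lf (nat_lit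 56848) (nat_lit 6) (nat_lit 748) (nat_lit 4) (nat_lit 179) (nat_lit 196) (nat_lit 195)))) (PT.nd (nat_lit 156) (PT.nd (nat_lit 78) (PT.lf (nat_lit 57608) (nat_lit 6) (nat_lit 758) (nat_lit 4) (nat_lit 180) (nat_lit 196) (nat_lit 194)) (PT.lf (nat_lit 58292) (nat_lit 6) (nat_lit 767) (nat_lit 4) (nat_lit 181) (nat_lit 196) (nat_lit 193))) (PT.nd (nat_lit 78) (PT.lf (nat_lit 58900) (nat_lit 6) (nat_lit 775) (nat_lit 4) (nat_lit 182) (nat_lit 196) (nat_lit 192)) (PT.nd (nat_lit 78) (PT.lf (nat_lit 59432) (nat_lit 6) (nat_lit 782) (nat_lit 4) (nat_lit 183) (nat_lit 196) (nat_lit 191)) (PT.lf (nat_lit 59888) (nat_lit 6) (nat_lit 788) (nat_lit 4) (nat_lit 184) (nat_lit 196) (nat_lit 190))))))))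
noncomputable def pc62 : PT := (PT.nd (nat_lit 1248) (PT.nd (nat_lit 624) (PT.nd (nat_lit 312) (PT.nd (nat_lit 156) (PT.nd (nat_lit 78) (PT.lf (nat_lit 59812) (nat_lit 6) (nat_lit 787) (nat_lit 4) (nat_lit 185) (nat_lit 196) (nat_lit 189)) (PT.lf (nat_lit 59736) (nat_lit 6) (nat_lit 786) (nat_lit 4) (nat_lit 186) (nat_lit 196) (nat_lit 188))) (PT.nd (nat_lit 78) (PT.lf (nat_lit 59660) (nat_lit 3) (nat_lit 785) (nat_lit 2) (nat_lit 187) (nat_lit 196) (nat_lit 187)) (PT.lf (nat_lit 59736) (nat_lit 6) (nat_lit 786) (nat_lit 2) (nat_lit 188) (nat_lit 196) (nat_lit 186)))) (PT.nd (nat_lit 156) (PT.nd (nat_lit 78) (PT.lf (nat_lit 59812) (nat_lit 6) (nat_lit 787) (nat_lit 2) (nat_lit 189) (nat_lit 196) (nat_lit 185)) (PT.lf (nat_lit 59888) (nat_lit 6) (nat_lit 788) (nat_lit 2) (nat_lit 190) (nat_lit 196) (nat_lit 184))) (PT.nd (nat_lit 78) (PT.lf (nat_lit 59432) (nat_lit 6) (nat_lit 782) (nat_lit 2) (nat_lit 191) (nat_lit 196) (nat_lit 183))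 (PT.lf (nat_lit 58900) (nat_lit 6) (nat_lit 775) (nat_lit 2) (nat_lit 192) (nat_lit 196) (nat_lit 182))))) (PT.nd (nat_lit 312) (PT.nd (nat_lit 156) (PT.nd (nat_lit 78) (PT.lf (nat_lit 58292) (nat_lit 6) (nat_lit 767) (nat_lit 2) (nat_lit 193) (nat_lit 196) (nat_lit 181)) (PT.lf (nat_lit 57608) (nat_lit 6) (nat_lit 758) (nat_lit 2) (nat_lit 194) (nat_lit 196) (nat_lit 180))) (PT.nd (nat_lit 78) (PT.lf (nat_lit 56848) (nat_lit 6) (nat_lit 748) (nat_lit 2) (nat_lit 195) (nat_lit 196) (nat_lit 179)) (PT.lf (nat_lit 56012) (nat_lit 3) (nat_lit 737) (nat_lit 0) (nat_lit 196) (nat_lit 196) (nat_lit 178)))) (PT.nd (nat_lit 156) (PT.nd (nat_lit 78) (PT.lf (nat_lit 55024) (nat_lit 6) (nat_lit 724) (nat_lit 0) (nat_lit 197) (nat_lit 196) (nat_lit 177)) (PT.lf (nat_lit 53960) (nat_lit 6) (nat_lit 710) (nat_lit 0) (nat_lit 198) (nat_lit 196) (nat_lit 176))) (PT.nd (nat_lit 78) (PT.lf (nat_lit 52820) (nat_lit 6) (nat_lit 695) (nat_lit 0) (nat_lit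 199) (nat_lit 196) (nat_lit 175)) (PT.lf (nat_lit 51604) (nat_lit 6) (nat_lit 679) (nat_lit 0) (nat_lit 200) (nat_lit 196) (nat_lit 174)))))) (PT.nd (nat_lit 624) (PT.nd (nat_lit 312) (PT.nd (nat_lit 156) (PT.nd (nat_lit 78) (PT.lf (nat_lit 50312) (nat_lit 6) (nat_lit 662) (nat_lit 0) (nat_lit 201) (nat_lit 196) (nat_lit 173)) (PT.lf (nat_lit 48944) (nat_lit 6) (nat_lit 644) (nat_lit 0) (nat_lit 202) (nat_lit 196) (nat_lit 172))) (PT.nd (nat_lit 78) (PT.lf (nat_lit 47500) (nat_lit 6) (nat_lit 625) (nat_lit 0) (nat_lit 203) (nat_lit 196) (nat_lit 171)) (PT.lf (nat_lit 45980) (nat_lit 6) (nat_lit 605) (nat_lit 0) (nat_lit 204) (nat_lit 196) (nat_lit 170)))) (PT.nd (nat_lit 156) (PT.nd (nat_lit 78) (PT.lf (nat_lit 44384) (nat_lit 6) (nat_lit 584) (nat_lit 0) (nat_lit 205) (nat_lit 196) (nat_lit 169)) (PT.lf (nat_lit 42712) (nat_lit 6) (nat_lit 562) (nat_lit 0) (nat_lit 206) (nat_lit 196) (nat_lit 168))) (PT.nd (nat_lit 78) (PT.lf (nat_lit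 40964) (nat_lit 6) (nat_lit 539) (nat_lit 0) (nat_lit 207) (nat_lit 196) (nat_lit 167)) (PT.lf (nat_lit 39140) (nat_lit 6) (nat_lit 515) (nat_lit 0) (nat_lit 208) (nat_lit 196) (nat_lit 166))))) (PT.nd (nat_lit 312) (PT.nd (nat_lit 156) (PT.nd (nat_lit 78) (PT.lf (nat_lit 37240) (nat_lit 6) (nat_lit 490) (nat_lit 0) (nat_lit 209) (nat_lit 196) (nat_lit 165)) (PT.lf (nat_lit 36024) (nat_lit 6) (nat_lit 474) (nat_lit 0) (nat_lit 210) (nat_lit 196) (nat_lit 164))) (PT.nd (nat_lit 78) (PT.lf (nat_lit 35036) (nat_lit 6) (nat_lit 461) (nat_lit 0) (nat_lit 211) (nat_lit 196) (nat_lit 163)) (PT.lf (nat_lit 34048) (nat_lit 6) (nat_lit 448) (nat_lit 0) (nat_lit 212) (nat_lit 196) (nat_lit 162)))) (PT.nd (nat_lit 156) (PT.nd (nat_lit 78) (PT.lf (nat_lit 33136) (nat_lit 6) (nat_lit 436) (nat_lit 0) (nat_lit 213) (nat_lit 196) (nat_lit 161)) (PT.lf (nat_lit 32148) (nat_lit 6) (nat_lit 423) (nat_lit 0) (nat_lit 214) (nat_lit 196) (nat_lit 160))) (PT.nd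 (nat_lit 78) (PT.lf (nat_lit 31236) (nat_lit 6) (nat_lit 411) (nat_lit 0) (nat_lit 215) (nat_lit 196) (nat_lit 159)) (PT.nd (nat_lit 54678) (PT.lf (nat_lit 30324) (nat_lit 6) (nat_lit 399) (nat_lit 0) (nat_lit 216) (nat_lit 196) (nat_lit 158)) (PT.lf (nat_lit 28728) (nat_lit 6) (nat_lit 378) (nat_lit 5) (nat_lit 156) (nat_lit 197) (nat_lit 217))))))))
noncomputable def pc63 : PT := (PT.nd (nat_lit 1248) (PT.nd (nat_lit 624) (PT.nd (nat_lit 312) (PT.nd (nat_lit 156) (PT.nd (nat_lit 78) (PT.lf (nat_lit 29564) (nat_lit 6) (nat_lit 389) (nat_lit 5) (nat_lit 157) (nat_lit 197) (nat_lit 216)) (PT.lf (nat_lit 30400) (nat_lit 6) (nat_lit 400) (nat_lit 5) (nat_lit 158) (nat_lit 197) (nat_lit 215))) (PT.nd (nat_lit 78) (PT.lf (nat_lit 31312) (nat_lit 6) (nat_lit 412) (nat_lit 5) (nat_lit 159) (nat_lit 197) (nat_lit 214)) (PT.lf (nat_lit 32224) (nat_lit 6) (nat_lit 424) (nat_lit 5) (nat_lit 160) (nat_lit 197) (nat_lit 213)))) (PT.nd (nat_lit 156)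 (PT.nd (nat_lit 78) (PT.lf (nat_lit 33212) (nat_lit 6) (nat_lit 437) (nat_lit 5) (nat_lit 161) (nat_lit 197) (nat_lit 212)) (PT.lf (nat_lit 34124) (nat_lit 6) (nat_lit 449) (nat_lit 5) (nat_lit 162) (nat_lit 197) (nat_lit 211))) (PT.nd (nat_lit 78) (PT.lf (nat_lit 35112) (nat_lit 6) (nat_lit 462) (nat_lit 5) (nat_lit 163) (nat_lit 197) (nat_lit 210)) (PT.lf (nat_lit 36100) (nat_lit 6) (nat_lit 475) (nat_lit 5) (nat_lit 164) (nat_lit 197) (nat_lit 209))))) (PT.nd (nat_lit 312) (PT.nd (nat_lit 156) (PT.nd (nat_lit 78) (PT.lf (nat_lit 37316) (nat_lit 6) (nat_lit 491) (nat_lit 5) (nat_lit 165) (nat_lit 197) (nat_lit 208)) (PT.lf (nat_lit 39216) (nat_lit 6) (nat_lit 516) (nat_lit 5) (nat_lit 166) (nat_lit 197) (nat_lit 207))) (PT.nd (nat_lit 78) (PT.lf (nat_lit 41040) (nat_lit 6) (nat_lit 540) (nat_lit 5) (nat_lit 167) (nat_lit 197) (nat_lit 206)) (PT.lf (nat_lit 42788) (nat_lit 6) (nat_lit 563) (nat_lit 5) (nat_lit 168) (nat_lit 197) (nat_lit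 205)))) (PT.nd (nat_lit 156) (PT.nd (nat_lit 78) (PT.lf (nat_lit 44460) (nat_lit 6) (nat_lit 585) (nat_lit 5) (nat_lit 169) (nat_lit 197) (nat_lit 204)) (PT.lf (nat_lit 46056) (nat_lit 6) (nat_lit 606) (nat_lit 5) (nat_lit 170) (nat_lit 197) (nat_lit 203))) (PT.nd (nat_lit 78) (PT.lf (nat_lit 47576) (nat_lit 6) (nat_lit 626) (nat_lit 5) (nat_lit 171) (nat_lit 197) (nat_lit 202)) (PT.lf (nat_lit 49020) (nat_lit 6) (nat_lit 645) (nat_lit 5) (nat_lit 172) (nat_lit 197) (nat_lit 201)))))) (PT.nd (nat_lit 624) (PT.nd (nat_lit 312) (PT.nd (nat_lit 156) (PT.nd (nat_lit 78) (PT.lf (nat_lit 50388) (nat_lit 6) (nat_lit 663) (nat_lit 5) (nat_lit 173) (nat_lit 197) (nat_lit 200)) (PT.lf (nat_lit 51680) (nat_lit 6) (nat_lit 680) (nat_lit 5) (nat_lit 174) (nat_lit 197) (nat_lit 199))) (PT.nd (nat_lit 78) (PT.lf (nat_lit 52896) (nat_lit 6) (nat_lit 696) (nat_lit 5) (nat_lit 175) (nat_lit 197) (nat_lit 198)) (PT.lf (nat_lit 54036) (nat_lit 3) (nat_lit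 711) (nat_lit 4) (nat_lit 176) (nat_lit 197) (nat_lit 197)))) (PT.nd (nat_lit 156) (PT.nd (nat_lit 78) (PT.lf (nat_lit 55024) (nat_lit 6) (nat_lit 724) (nat_lit 4) (nat_lit 177) (nat_lit 197) (nat_lit 196)) (PT.lf (nat_lit 55936) (nat_lit 6) (nat_lit 736) (nat_lit 4) (nat_lit 178) (nat_lit 197) (nat_lit 195))) (PT.nd (nat_lit 78) (PT.lf (nat_lit 56772) (nat_lit 6) (nat_lit 747) (nat_lit 4) (nat_lit 179) (nat_lit 197) (nat_lit 194)) (PT.lf (nat_lit 57532) (nat_lit 6) (nat_lit 757) (nat_lit 4) (nat_lit 180) (nat_lit 197) (nat_lit 193))))) (PT.nd (nat_lit 312) (PT.nd (nat_lit 156) (PT.nd (nat_lit 78) (PT.lf (nat_lit 58216) (nat_lit 6) (nat_lit 766) (nat_lit 4) (nat_lit 181) (nat_lit 197) (nat_lit 192)) (PT.lf (nat_lit 58824) (nat_lit 6) (nat_lit 774) (nat_lit 4) (nat_lit 182) (nat_lit 197) (nat_lit 191))) (PT.nd (nat_lit 78) (PT.lf (nat_lit 59356) (nat_lit 6) (nat_lit 781) (nat_lit 4) (nat_lit 183) (nat_lit 197) (nat_lit 190)) (PT.lf (nat_lit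 59280) (nat_lit 6) (nat_lit 780) (nat_lit 4) (nat_lit 184) (nat_lit 197) (nat_lit 189)))) (PT.nd (nat_lit 156) (PT.nd (nat_lit 78) (PT.lf (nat_lit 59204) (nat_lit 6) (nat_lit 779) (nat_lit 4) (nat_lit 185) (nat_lit 197) (nat_lit 188)) (PT.lf (nat_lit 59128) (nat_lit 6) (nat_lit 778) (nat_lit 4) (nat_lit 186) (nat_lit 197) (nat_lit 187))) (PT.nd (nat_lit 78) (PT.lf (nat_lit 59128) (nat_lit 6) (nat_lit 778) (nat_lit 2) (nat_lit 187) (nat_lit 197) (nat_lit 186)) (PT.nd (nat_lit 78) (PT.lf (nat_lit 59204) (nat_lit 6) (nat_lit 779) (nat_lit 2) (nat_lit 188) (nat_lit 197) (nat_lit 185)) (PT.lf (nat_lit 59280) (nat_lit 6) (nat_lit 780) (nat_lit 2) (nat_lit 189) (nat_lit 197) (nat_lit 184))))))))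
noncomputable def pc64 : PT := (PT.nd (nat_lit 1248) (PT.nd (nat_lit 624) (PT.nd (nat_lit 312) (PT.nd (nat_lit 156) (PT.nd (nat_lit 78) (PT.lf (nat_lit 59356) (nat_lit 6) (nat_lit 781) (nat_lit 2) (nat_lit 190) (nat_lit 197) (nat_lit 183)) (PT.lf (nat_lit 58824) (nat_lit 6) (nat_lit 774) (nat_lit 2) (nat_lit 191) (nat_lit 197) (nat_lit 182))) (PT.nd (nat_lit 78) (PT.lf (nat_lit 58216) (nat_lit 6) (nat_lit 766) (nat_lit 2) (nat_lit 192) (nat_lit 197) (nat_lit 181)) (PT.lf (nat_lit 57532) (nat_lit 6) (nat_lit 757) (nat_lit 2) (nat_lit 193) (nat_lit 197) (nat_lit 180)))) (PT.nd (nat_lit 156) (PT.nd (nat_lit 78) (PT.lf (nat_lit 56772) (nat_lit 6) (nat_lit 747) (nat_lit 2) (nat_lit 194) (nat_lit 197) (nat_lit 179)) (PT.lf (nat_lit 55936) (nat_lit 6) (nat_lit 736) (nat_lit 2) (nat_lit 195) (nat_lit 197) (nat_lit 178))) (PT.nd (nat_lit 78) (PT.lf (nat_lit 55024) (nat_lit 6) (nat_lit 724) (nat_lit 2) (nat_lit 196) (nat_lit 197) (nat_lit 177))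 (PT.lf (nat_lit 54036) (nat_lit 3) (nat_lit 711) (nat_lit 0) (nat_lit 197) (nat_lit 197) (nat_lit 176))))) (PT.nd (nat_lit 312) (PT.nd (nat_lit 156) (PT.nd (nat_lit 78) (PT.lf (nat_lit 52896) (nat_lit 6) (nat_lit 696) (nat_lit 0) (nat_lit 198) (nat_lit 197) (nat_lit 175)) (PT.lf (nat_lit 51680) (nat_lit 6) (nat_lit 680) (nat_lit 0) (nat_lit 199) (nat_lit 197) (nat_lit 174))) (PT.nd (nat_lit 78) (PT.lf (nat_lit 50388) (nat_lit 6) (nat_lit 663) (nat_lit 0) (nat_lit 200) (nat_lit 197) (nat_lit 173)) (PT.lf (nat_lit 49020) (nat_lit 6) (nat_lit 645) (nat_lit 0) (nat_lit 201) (nat_lit 197) (nat_lit 172)))) (PT.nd (nat_lit 156) (PT.nd (nat_lit 78) (PT.lf (nat_lit 47576) (nat_lit 6) (nat_lit 626) (nat_lit 0) (nat_lit 202) (nat_lit 197) (nat_lit 171)) (PT.lf (nat_lit 46056) (nat_lit 6) (nat_lit 606) (nat_lit 0) (nat_lit 203) (nat_lit 197) (nat_lit 170))) (PT.nd (nat_lit 78) (PT.lf (nat_lit 44460) (nat_lit 6) (nat_lit 585) (nat_lit 0) (nat_lit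 204) (nat_lit 197) (nat_lit 169)) (PT.lf (nat_lit 42788) (nat_lit 6) (nat_lit 563) (nat_lit 0) (nat_lit 205) (nat_lit 197) (nat_lit 168)))))) (PT.nd (nat_lit 624) (PT.nd (nat_lit 312) (PT.nd (nat_lit 156) (PT.nd (nat_lit 78) (PT.lf (nat_lit 41040) (nat_lit 6) (nat_lit 540) (nat_lit 0) (nat_lit 206) (nat_lit 197) (nat_lit 167)) (PT.lf (nat_lit 39216) (nat_lit 6) (nat_lit 516) (nat_lit 0) (nat_lit 207) (nat_lit 197) (nat_lit 166))) (PT.nd (nat_lit 78) (PT.lf (nat_lit 37316) (nat_lit 6) (nat_lit 491) (nat_lit 0) (nat_lit 208) (nat_lit 197) (nat_lit 165)) (PT.lf (nat_lit 36100) (nat_lit 6) (nat_lit 475) (nat_lit 0) (nat_lit 209) (nat_lit 197) (nat_lit 164)))) (PT.nd (nat_lit 156) (PT.nd (nat_lit 78) (PT.lf (nat_lit 35112) (nat_lit 6) (nat_lit 462) (nat_lit 0) (nat_lit 210) (nat_lit 197) (nat_lit 163)) (PT.lf (nat_lit 34124) (nat_lit 6) (nat_lit 449) (nat_lit 0) (nat_lit 211) (nat_lit 197) (nat_lit 162))) (PT.nd (nat_lit 78) (PT.lf (nat_lit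 33212) (nat_lit 6) (nat_lit 437) (nat_lit 0) (nat_lit 212) (nat_lit 197) (nat_lit 161)) (PT.lf (nat_lit 32224) (nat_lit 6) (nat_lit 424) (nat_lit 0) (nat_lit 213) (nat_lit 197) (nat_lit 160))))) (PT.nd (nat_lit 54756) (PT.nd (nat_lit 156) (PT.nd (nat_lit 78) (PT.lf (nat_lit 31312) (nat_lit 6) (nat_lit 412) (nat_lit 0) (nat_lit 214) (nat_lit 197) (nat_lit 159)) (PT.lf (nat_lit 30400) (nat_lit 6) (nat_lit 400) (nat_lit 0) (nat_lit 215) (nat_lit 197) (nat_lit 158))) (PT.nd (nat_lit 78) (PT.lf (nat_lit 29564) (nat_lit 6) (nat_lit 389) (nat_lit 0) (nat_lit 216) (nat_lit 197) (nat_lit 157)) (PT.lf (nat_lit 28728) (nat_lit 6) (nat_lit 378) (nat_lit 0) (nat_lit 217) (nat_lit 197) (nat_lit 156)))) (PT.nd (nat_lit 156) (PT.nd (nat_lit 78) (PT.lf (nat_lit 27968) (nat_lit 6) (nat_lit 368) (nat_lit 5) (nat_lit 155) (nat_lit 198) (nat_lit 217)) (PT.lf (nat_lit 28804) (nat_lit 6) (nat_lit 379) (nat_lit 5) (nat_lit 156) (nat_lit 198) (nat_lit 216)))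 (PT.nd (nat_lit 78) (PT.lf (nat_lit 29640) (nat_lit 6) (nat_lit 390) (nat_lit 5) (nat_lit 157) (nat_lit 198) (nat_lit 215)) (PT.lf (nat_lit 30476) (nat_lit 6) (nat_lit 401) (nat_lit 5) (nat_lit 158) (nat_lit 198) (nat_lit 214)))))))
noncomputable def pc65 : PT := (PT.nd (nat_lit 1248) (PT.nd (nat_lit 624) (PT.nd (nat_lit 312) (PT.nd (nat_lit 156) (PT.nd (nat_lit 78) (PT.lf (nat_lit 31388) (nat_lit 6) (nat_lit 413) (nat_lit 5) (nat_lit 159) (nat_lit 198) (nat_lit 213)) (PT.lf (nat_lit 32300) (nat_lit 6) (nat_lit 425) (nat_lit 5) (nat_lit 160) (nat_lit 198) (nat_lit 212))) (PT.nd (nat_lit 78) (PT.lf (nat_lit 33288) (nat_lit 6) (nat_lit 438) (nat_lit 5) (nat_lit 161) (nat_lit 198) (nat_lit 211)) (PT.lf (nat_lit 34200) (nat_lit 6) (nat_lit 450) (nat_lit 5) (nat_lit 162) (nat_lit 198) (nat_lit 210)))) (PT.nd (nat_lit 156) (PT.nd (nat_lit 78) (PT.lf (nat_lit 35188) (nat_lit 6) (nat_lit 463) (nat_lit 5) (nat_lit 163) (nat_lit 198) (nat_lit 209))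 (PT.lf (nat_lit 36176) (nat_lit 6) (nat_lit 476) (nat_lit 5) (nat_lit 164) (nat_lit 198) (nat_lit 208))) (PT.nd (nat_lit 78) (PT.lf (nat_lit 37392) (nat_lit 6) (nat_lit 492) (nat_lit 5) (nat_lit 165) (nat_lit 198) (nat_lit 207)) (PT.lf (nat_lit 39292) (nat_lit 6) (nat_lit 517) (nat_lit 5) (nat_lit 166) (nat_lit 198) (nat_lit 206))))) (PT.nd (nat_lit 312) (PT.nd (nat_lit 156) (PT.nd (nat_lit 78) (PT.lf (nat_lit 41116) (nat_lit 6) (nat_lit 541) (nat_lit 5) (nat_lit 167) (nat_lit 198) (nat_lit 205)) (PT.lf (nat_lit 42864) (nat_lit 6) (nat_lit 564) (nat_lit 5) (nat_lit 168) (nat_lit 198) (nat_lit 204))) (PT.nd (nat_lit 78) (PT.lf (nat_lit 44536) (nat_lit 6) (nat_lit 586) (nat_lit 5) (nat_lit 169) (nat_lit 198) (nat_lit 203)) (PT.lf (nat_lit 46132) (nat_lit 6) (nat_lit 607) (nat_lit 5) (nat_lit 170) (nat_lit 198) (nat_lit 202)))) (PT.nd (nat_lit 156) (PT.nd (nat_lit 78) (PT.lf (nat_lit 47652) (nat_lit 6) (nat_lit 627) (nat_lit 5) (nat_lit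 171) (nat_lit 198) (nat_lit 201)) (PT.lf (nat_lit 49096) (nat_lit 6) (nat_lit 646) (nat_lit 5) (nat_lit 172) (nat_lit 198) (nat_lit 200))) (PT.nd (nat_lit 78) (PT.lf (nat_lit 50464) (nat_lit 6) (nat_lit 664) (nat_lit 5) (nat_lit 173) (nat_lit 198) (nat_lit 199)) (PT.lf (nat_lit 51756) (nat_lit 3) (nat_lit 681) (nat_lit 4) (nat_lit 174) (nat_lit 198) (nat_lit 198)))))) (PT.nd (nat_lit 624) (PT.nd (nat_lit 312) (PT.nd (nat_lit 156) (PT.nd (nat_lit 78) (PT.lf (nat_lit 52896) (nat_lit 6) (nat_lit 696) (nat_lit 4) (nat_lit 175) (nat_lit 198) (nat_lit 197)) (PT.lf (nat_lit 53960) (nat_lit 6) (nat_lit 710) (nat_lit 4) (nat_lit 176) (nat_lit 198) (nat_lit 196))) (PT.nd (nat_lit 78) (PT.lf (nat_lit 54948) (nat_lit 6) (nat_lit 723) (nat_lit 4) (nat_lit 177) (nat_lit 198) (nat_lit 195)) (PT.lf (nat_lit 55860) (nat_lit 6) (nat_lit 735) (nat_lit 4) (nat_lit 178) (nat_lit 198) (nat_lit 194)))) (PT.nd (nat_lit 156) (PT.nd (nat_lit 78) (PT.lf (nat_lit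 56696) (nat_lit 6) (nat_lit 746) (nat_lit 4) (nat_lit 179) (nat_lit 198) (nat_lit 193)) (PT.lf (nat_lit 57456) (nat_lit 6) (nat_lit 756) (nat_lit 4) (nat_lit 180) (nat_lit 198) (nat_lit 192))) (PT.nd (nat_lit 78) (PT.lf (nat_lit 58140) (nat_lit 6) (nat_lit 765) (nat_lit 4) (nat_lit 181) (nat_lit 198) (nat_lit 191)) (PT.lf (nat_lit 58748) (nat_lit 6) (nat_lit 773) (nat_lit 4) (nat_lit 182) (nat_lit 198) (nat_lit 190))))) (PT.nd (nat_lit 312) (PT.nd (nat_lit 156) (PT.nd (nat_lit 78) (PT.lf (nat_lit 58672) (nat_lit 6) (nat_lit 772) (nat_lit 4) (nat_lit 183) (nat_lit 198) (nat_lit 189)) (PT.lf (nat_lit 58596) (nat_lit 6) (nat_lit 771) (nat_lit 4) (nat_lit 184) (nat_lit 198) (nat_lit 188))) (PT.nd (nat_lit 78) (PT.lf (nat_lit 58520) (nat_lit 6) (nat_lit 770) (nat_lit 4) (nat_lit 185) (nat_lit 198) (nat_lit 187)) (PT.lf (nat_lit 58444) (nat_lit 3) (nat_lit 769) (nat_lit 2) (nat_lit 186) (nat_lit 198) (nat_lit 186)))) (PT.nd (nat_lit 156) (PT.nd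 (nat_lit 78) (PT.lf (nat_lit 58520) (nat_lit 6) (nat_lit 770) (nat_lit 2) (nat_lit 187) (nat_lit 198) (nat_lit 185)) (PT.lf (nat_lit 58596) (nat_lit 6) (nat_lit 771) (nat_lit 2) (nat_lit 188) (nat_lit 198) (nat_lit 184))) (PT.nd (nat_lit 78) (PT.lf (nat_lit 58672) (nat_lit 6) (nat_lit 772) (nat_lit 2) (nat_lit 189) (nat_lit 198) (nat_lit 183)) (PT.nd (nat_lit 78) (PT.lf (nat_lit 58748) (nat_lit 6) (nat_lit 773) (nat_lit 2) (nat_lit 190) (nat_lit 198) (nat_lit 182)) (PT.lf (nat_lit 58140) (nat_lit 6) (nat_lit 765) (nat_lit 2) (nat_lit 191) (nat_lit 198) (nat_lit 181))))))))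
noncomputable def pc66 : PT := (PT.nd (nat_lit 1248) (PT.nd (nat_lit 624) (PT.nd (nat_lit 312) (PT.nd (nat_lit 156) (PT.nd (nat_lit 78) (PT.lf (nat_lit 57456) (nat_lit 6) (nat_lit 756) (nat_lit 2) (nat_lit 192) (nat_lit 198) (nat_lit 180)) (PT.lf (nat_lit 56696) (nat_lit 6) (nat_lit 746) (nat_lit 2) (nat_lit 193) (nat_lit 198) (nat_lit 179))) (PT.nd (nat_lit 78) (PT.lf (nat_lit 55860) (nat_lit 6) (nat_lit 735) (nat_lit 2) (nat_lit 194) (nat_lit 198) (nat_lit 178)) (PT.lf (nat_lit 54948) (nat_lit 6) (nat_lit 723) (nat_lit 2) (nat_lit 195) (nat_lit 198) (nat_lit 177)))) (PT.nd (nat_lit 156) (PT.nd (nat_lit 78) (PT.lf (nat_lit 53960) (nat_lit 6) (nat_lit 710) (nat_lit 2) (nat_lit 196) (nat_lit 198) (nat_lit 176)) (PT.lf (nat_lit 52896) (nat_lit 6) (nat_lit 696) (nat_lit 2) (nat_lit 197) (nat_lit 198) (nat_lit 175))) (PT.nd (nat_lit 78) (PT.lf (nat_lit 51756) (nat_lit 3) (nat_lit 681) (nat_lit 0) (nat_lit 198) (nat_lit 198) (nat_lit 174))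 (PT.lf (nat_lit 50464) (nat_lit 6) (nat_lit 664) (nat_lit 0) (nat_lit 199) (nat_lit 198) (nat_lit 173))))) (PT.nd (nat_lit 312) (PT.nd (nat_lit 156) (PT.nd (nat_lit 78) (PT.lf (nat_lit 49096) (nat_lit 6) (nat_lit 646) (nat_lit 0) (nat_lit 200) (nat_lit 198) (nat_lit 172)) (PT.lf (nat_lit 47652) (nat_lit 6) (nat_lit 627) (nat_lit 0) (nat_lit 201) (nat_lit 198) (nat_lit 171))) (PT.nd (nat_lit 78) (PT.lf (nat_lit 46132) (nat_lit 6) (nat_lit 607) (nat_lit 0) (nat_lit 202) (nat_lit 198) (nat_lit 170)) (PT.lf (nat_lit 44536) (nat_lit 6) (nat_lit 586) (nat_lit 0) (nat_lit 203) (nat_lit 198) (nat_lit 169)))) (PT.nd (nat_lit 156) (PT.nd (nat_lit 78) (PT.lf (nat_lit 42864) (nat_lit 6) (nat_lit 564) (nat_lit 0) (nat_lit 204) (nat_lit 198) (nat_lit 168)) (PT.lf (nat_lit 41116) (nat_lit 6) (nat_lit 541) (nat_lit 0) (nat_lit 205) (nat_lit 198) (nat_lit 167))) (PT.nd (nat_lit 78) (PT.lf (nat_lit 39292) (nat_lit 6) (nat_lit 517) (nat_lit 0) (nat_lit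 206) (nat_lit 198) (nat_lit 166)) (PT.lf (nat_lit 37392) (nat_lit 6) (nat_lit 492) (nat_lit 0) (nat_lit 207) (nat_lit 198) (nat_lit 165)))))) (PT.nd (nat_lit 624) (PT.nd (nat_lit 312) (PT.nd (nat_lit 156) (PT.nd (nat_lit 78) (PT.lf (nat_lit 36176) (nat_lit 6) (nat_lit 476) (nat_lit 0) (nat_lit 208) (nat_lit 198) (nat_lit 164)) (PT.lf (nat_lit 35188) (nat_lit 6) (nat_lit 463) (nat_lit 0) (nat_lit 209) (nat_lit 198) (nat_lit 163))) (PT.nd (nat_lit 78) (PT.lf (nat_lit 34200) (nat_lit 6) (nat_lit 450) (nat_lit 0) (nat_lit 210) (nat_lit 198) (nat_lit 162)) (PT.lf (nat_lit 33288) (nat_lit 6) (nat_lit 438) (nat_lit 0) (nat_lit 211) (nat_lit 198) (nat_lit 161)))) (PT.nd (nat_lit 156) (PT.nd (nat_lit 78) (PT.lf (nat_lit 32300) (nat_lit 6) (nat_lit 425) (nat_lit 0) (nat_lit 212) (nat_lit 198) (nat_lit 160)) (PT.lf (nat_lit 31388) (nat_lit 6) (nat_lit 413) (nat_lit 0) (nat_lit 213) (nat_lit 198) (nat_lit 159))) (PT.nd (nat_lit 78) (PT.lf (nat_lit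 30476) (nat_lit 6) (nat_lit 401) (nat_lit 0) (nat_lit 214) (nat_lit 198) (nat_lit 158)) (PT.lf (nat_lit 29640) (nat_lit 6) (nat_lit 390) (nat_lit 0) (nat_lit 215) (nat_lit 198) (nat_lit 157))))) (PT.nd (nat_lit 54678) (PT.nd (nat_lit 54522) (PT.nd (nat_lit 78) (PT.lf (nat_lit 28804) (nat_lit 6) (nat_lit 379) (nat_lit 0) (nat_lit 216) (nat_lit 198) (nat_lit 156)) (PT.lf (nat_lit 27968) (nat_lit 6) (nat_lit 368) (nat_lit 0) (nat_lit 217) (nat_lit 198) (nat_lit 155))) (PT.nd (nat_lit 78) (PT.lf (nat_lit 27208) (nat_lit 6) (nat_lit 358) (nat_lit 5) (nat_lit 154) (nat_lit 199) (nat_lit 217)) (PT.lf (nat_lit 28044) (nat_lit 6) (nat_lit 369) (nat_lit 5) (nat_lit 155) (nat_lit 199) (nat_lit 216)))) (PT.nd (nat_lit 156) (PT.nd (nat_lit 78) (PT.lf (nat_lit 28880) (nat_lit 6) (nat_lit 380) (nat_lit 5) (nat_lit 156) (nat_lit 199) (nat_lit 215)) (PT.lf (nat_lit 29716) (nat_lit 6) (nat_lit 391) (nat_lit 5) (nat_lit 157) (nat_lit 199) (nat_lit 214)))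 (PT.nd (nat_lit 78) (PT.lf (nat_lit 30552) (nat_lit 6) (nat_lit 402) (nat_lit 5) (nat_lit 158) (nat_lit 199) (nat_lit 213)) (PT.nd (nat_lit 78) (PT.lf (nat_lit 31464) (nat_lit 6) (nat_lit 414) (nat_lit 5) (nat_lit 159) (nat_lit 199) (nat_lit 212)) (PT.lf (nat_lit 32376) (nat_lit 6) (nat_lit 426) (nat_lit 5) (nat_lit 160) (nat_lit 199) (nat_lit 211))))))))
noncomputable def pc67 : PT := (PT.nd (nat_lit 1248) (PT.nd (nat_lit 624) (PT.nd (nat_lit 312) (PT.nd (nat_lit 156) (PT.nd (nat_lit 78) (PT.lf (nat_lit 33364) (nat_lit 6) (nat_lit 439) (nat_lit 5) (nat_lit 161) (nat_lit 199) (nat_lit 210)) (PT.lf (nat_lit 34276) (nat_lit 6) (nat_lit 451) (nat_lit 5) (nat_lit 162) (nat_lit 199) (nat_lit 209))) (PT.nd (nat_lit 78) (PT.lf (nat_lit 35264) (nat_lit 6) (nat_lit 464) (nat_lit 5) (nat_lit 163) (nat_lit 199) (nat_lit 208)) (PT.lf (nat_lit 36252) (nat_lit 6) (nat_lit 477) (nat_lit 5) (nat_lit 164) (nat_lit 199) (nat_lit 207)))) (PT.nd (nat_lit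 156) (PT.nd (nat_lit 78) (PT.lf (nat_lit 37468) (nat_lit 6) (nat_lit 493) (nat_lit 5) (nat_lit 165) (nat_lit 199) (nat_lit 206)) (PT.lf (nat_lit 39368) (nat_lit 6) (nat_lit 518) (nat_lit 5) (nat_lit 166) (nat_lit 199) (nat_lit 205))) (PT.nd (nat_lit 78) (PT.lf (nat_lit 41192) (nat_lit 6) (nat_lit 542) (nat_lit 5) (nat_lit 167) (nat_lit 199) (nat_lit 204)) (PT.lf (nat_lit 42940) (nat_lit 6) (nat_lit 565) (nat_lit 5) (nat_lit 168) (nat_lit 199) (nat_lit 203))))) (PT.nd (nat_lit 312) (PT.nd (nat_lit 156) (PT.nd (nat_lit 78) (PT.lf (nat_lit 44612) (nat_lit 6) (nat_lit 587) (nat_lit 5) (nat_lit 169) (nat_lit 199) (nat_lit 202)) (PT.lf (nat_lit 46208) (nat_lit 6) (nat_lit 608) (nat_lit 5) (nat_lit 170) (nat_lit 199) (nat_lit 201))) (PT.nd (nat_lit 78) (PT.lf (nat_lit 47728) (nat_lit 6) (nat_lit 628) (nat_lit 5) (nat_lit 171) (nat_lit 199) (nat_lit 200)) (PT.lf (nat_lit 49172) (nat_lit 3) (nat_lit 647) (nat_lit 4) (nat_lit 172) (nat_lit 199)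 (nat_lit 199)))) (PT.nd (nat_lit 156) (PT.nd (nat_lit 78) (PT.lf (nat_lit 50464) (nat_lit 6) (nat_lit 664) (nat_lit 4) (nat_lit 173) (nat_lit 199) (nat_lit 198)) (PT.lf (nat_lit 51680) (nat_lit 6) (nat_lit 680) (nat_lit 4) (nat_lit 174) (nat_lit 199) (nat_lit 197))) (PT.nd (nat_lit 78) (PT.lf (nat_lit 52820) (nat_lit 6) (nat_lit 695) (nat_lit 4) (nat_lit 175) (nat_lit 199) (nat_lit 196)) (PT.lf (nat_lit 53884) (nat_lit 6) (nat_lit 709) (nat_lit 4) (nat_lit 176) (nat_lit 199) (nat_lit 195)))))) (PT.nd (nat_lit 624) (PT.nd (nat_lit 312) (PT.nd (nat_lit 156) (PT.nd (nat_lit 78) (PT.lf (nat_lit 54872) (nat_lit 6) (nat_lit 722) (nat_lit 4) (nat_lit 177) (nat_lit 199) (nat_lit 194)) (PT.lf (nat_lit 55784) (nat_lit 6) (nat_lit 734) (nat_lit 4) (nat_lit 178) (nat_lit 199) (nat_lit 193))) (PT.nd (nat_lit 78) (PT.lf (nat_lit 56620) (nat_lit 6) (nat_lit 745) (nat_lit 4) (nat_lit 179) (nat_lit 199) (nat_lit 192)) (PT.lf (nat_lit 57380) (nat_lit 6)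 (nat_lit 755) (nat_lit 4) (nat_lit 180) (nat_lit 199) (nat_lit 191)))) (PT.nd (nat_lit 156) (PT.nd (nat_lit 78) (PT.lf (nat_lit 58064) (nat_lit 6) (nat_lit 764) (nat_lit 4) (nat_lit 181) (nat_lit 199) (nat_lit 190)) (PT.lf (nat_lit 57988) (nat_lit 6) (nat_lit 763) (nat_lit 4) (nat_lit 182) (nat_lit 199) (nat_lit 189))) (PT.nd (nat_lit 78) (PT.lf (nat_lit 57912) (nat_lit 6) (nat_lit 762) (nat_lit 4) (nat_lit 183) (nat_lit 199) (nat_lit 188)) (PT.lf (nat_lit 57836) (nat_lit 6) (nat_lit 761) (nat_lit 4) (nat_lit 184) (nat_lit 199) (nat_lit 187))))) (PT.nd (nat_lit 312) (PT.nd (nat_lit 156) (PT.nd (nat_lit 78) (PT.lf (nat_lit 57760) (nat_lit 6) (nat_lit 760) (nat_lit 4) (nat_lit 185) (nat_lit 199) (nat_lit 186)) (PT.lf (nat_lit 57760) (nat_lit 6) (nat_lit 760) (nat_lit 2) (nat_lit 186) (nat_lit 199) (nat_lit 185))) (PT.nd (nat_lit 78) (PT.lf (nat_lit 57836) (nat_lit 6) (nat_lit 761) (nat_lit 2) (nat_lit 187) (nat_lit 199) (nat_lit 184)) (PT.lf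 (nat_lit 57912) (nat_lit 6) (nat_lit 762) (nat_lit 2) (nat_lit 188) (nat_lit 199) (nat_lit 183)))) (PT.nd (nat_lit 156) (PT.nd (nat_lit 78) (PT.lf (nat_lit 57988) (nat_lit 6) (nat_lit 763) (nat_lit 2) (nat_lit 189) (nat_lit 199) (nat_lit 182)) (PT.lf (nat_lit 58064) (nat_lit 6) (nat_lit 764) (nat_lit 2) (nat_lit 190) (nat_lit 199) (nat_lit 181))) (PT.nd (nat_lit 78) (PT.lf (nat_lit 57380) (nat_lit 6) (nat_lit 755) (nat_lit 2) (nat_lit 191) (nat_lit 199) (nat_lit 180)) (PT.nd (nat_lit 78) (PT.lf (nat_lit 56620) (nat_lit 6) (nat_lit 745) (nat_lit 2) (nat_lit 192) (nat_lit 199) (nat_lit 179)) (PT.lf (nat_lit 55784) (nat_lit 6) (nat_lit 734) (nat_lit 2) (nat_lit 193) (nat_lit 199) (nat_lit 178))))))))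
noncomputable def pc68 : PT := (PT.nd (nat_lit 1248) (PT.nd (nat_lit 624) (PT.nd (nat_lit 312) (PT.nd (nat_lit 156) (PT.nd (nat_lit 78) (PT.lf (nat_lit 54872) (nat_lit 6) (nat_lit 722) (nat_lit 2) (nat_lit 194) (nat_lit 199) (nat_lit 177)) (PT.lf (nat_lit 53884) (nat_lit 6) (nat_lit 709) (nat_lit 2) (nat_lit 195) (nat_lit 199) (nat_lit 176))) (PT.nd (nat_lit 78) (PT.lf (nat_lit 52820) (nat_lit 6) (nat_lit 695) (nat_lit 2) (nat_lit 196) (nat_lit 199) (nat_lit 175)) (PT.lf (nat_lit 51680) (nat_lit 6) (nat_lit 680) (nat_lit 2) (nat_lit 197) (nat_lit 199) (nat_lit 174)))) (PT.nd (nat_lit 156) (PT.nd (nat_lit 78) (PT.lf (nat_lit 50464) (nat_lit 6) (nat_lit 664) (nat_lit 2) (nat_lit 198) (nat_lit 199) (nat_lit 173)) (PT.lf (nat_lit 49172) (nat_lit 3) (nat_lit 647) (nat_lit 0) (nat_lit 199) (nat_lit 199) (nat_lit 172))) (PT.nd (nat_lit 78) (PT.lf (nat_lit 47728) (nat_lit 6) (nat_lit 628) (nat_lit 0) (nat_lit 200) (nat_lit 199) (nat_lit 171))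 (PT.lf (nat_lit 46208) (nat_lit 6) (nat_lit 608) (nat_lit 0) (nat_lit 201) (nat_lit 199) (nat_lit 170))))) (PT.nd (nat_lit 312) (PT.nd (nat_lit 156) (PT.nd (nat_lit 78) (PT.lf (nat_lit 44612) (nat_lit 6) (nat_lit 587) (nat_lit 0) (nat_lit 202) (nat_lit 199) (nat_lit 169)) (PT.lf (nat_lit 42940) (nat_lit 6) (nat_lit 565) (nat_lit 0) (nat_lit 203) (nat_lit 199) (nat_lit 168))) (PT.nd (nat_lit 78) (PT.lf (nat_lit 41192) (nat_lit 6) (nat_lit 542) (nat_lit 0) (nat_lit 204) (nat_lit 199) (nat_lit 167)) (PT.lf (nat_lit 39368) (nat_lit 6) (nat_lit 518) (nat_lit 0) (nat_lit 205) (nat_lit 199) (nat_lit 166)))) (PT.nd (nat_lit 156) (PT.nd (nat_lit 78) (PT.lf (nat_lit 37468) (nat_lit 6) (nat_lit 493) (nat_lit 0) (nat_lit 206) (nat_lit 199) (nat_lit 165)) (PT.lf (nat_lit 36252) (nat_lit 6) (nat_lit 477) (nat_lit 0) (nat_lit 207) (nat_lit 199) (nat_lit 164))) (PT.nd (nat_lit 78) (PT.lf (nat_lit 35264) (nat_lit 6) (nat_lit 464) (nat_lit 0) (nat_lit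 208) (nat_lit 199) (nat_lit 163)) (PT.lf (nat_lit 34276) (nat_lit 6) (nat_lit 451) (nat_lit 0) (nat_lit 209) (nat_lit 199) (nat_lit 162)))))) (PT.nd (nat_lit 54834) (PT.nd (nat_lit 312) (PT.nd (nat_lit 156) (PT.nd (nat_lit 78) (PT.lf (nat_lit 33364) (nat_lit 6) (nat_lit 439) (nat_lit 0) (nat_lit 210) (nat_lit 199) (nat_lit 161)) (PT.lf (nat_lit 32376) (nat_lit 6) (nat_lit 426) (nat_lit 0) (nat_lit 211) (nat_lit 199) (nat_lit 160))) (PT.nd (nat_lit 78) (PT.lf (nat_lit 31464) (nat_lit 6) (nat_lit 414) (nat_lit 0) (nat_lit 212) (nat_lit 199) (nat_lit 159)) (PT.lf (nat_lit 30552) (nat_lit 6) (nat_lit 402) (nat_lit 0) (nat_lit 213) (nat_lit 199) (nat_lit 158)))) (PT.nd (nat_lit 156) (PT.nd (nat_lit 78) (PT.lf (nat_lit 29716) (nat_lit 6) (nat_lit 391) (nat_lit 0) (nat_lit 214) (nat_lit 199) (nat_lit 157)) (PT.lf (nat_lit 28880) (nat_lit 6) (nat_lit 380) (nat_lit 0) (nat_lit 215) (nat_lit 199) (nat_lit 156))) (PT.nd (nat_lit 78) (PT.lf (nat_lit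 28044) (nat_lit 6) (nat_lit 369) (nat_lit 0) (nat_lit 216) (nat_lit 199) (nat_lit 155)) (PT.lf (nat_lit 27208) (nat_lit 6) (nat_lit 358) (nat_lit 0) (nat_lit 217) (nat_lit 199) (nat_lit 154))))) (PT.nd (nat_lit 312) (PT.nd (nat_lit 156) (PT.nd (nat_lit 78) (PT.lf (nat_lit 25764) (nat_lit 6) (nat_lit 339) (nat_lit 5) (nat_lit 152) (nat_lit 200) (nat_lit 218)) (PT.lf (nat_lit 26524) (nat_lit 6) (nat_lit 349) (nat_lit 5) (nat_lit 153) (nat_lit 200) (nat_lit 217))) (PT.nd (nat_lit 78) (PT.lf (nat_lit 27284) (nat_lit 6) (nat_lit 359) (nat_lit 5) (nat_lit 154) (nat_lit 200) (nat_lit 216)) (PT.lf (nat_lit 28120) (nat_lit 6) (nat_lit 370) (nat_lit 5) (nat_lit 155) (nat_lit 200) (nat_lit 215)))) (PT.nd (nat_lit 156) (PT.nd (nat_lit 78) (PT.lf (nat_lit 28956) (nat_lit 6) (nat_lit 381) (nat_lit 5) (nat_lit 156) (nat_lit 200) (nat_lit 214)) (PT.lf (nat_lit 29792) (nat_lit 6) (nat_lit 392) (nat_lit 5) (nat_lit 157) (nat_lit 200) (nat_lit 213))) (PT.nd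 (nat_lit 78) (PT.lf (nat_lit 30628) (nat_lit 6) (nat_lit 403) (nat_lit 5) (nat_lit 158) (nat_lit 200) (nat_lit 212)) (PT.lf (nat_lit 31540) (nat_lit 6) (nat_lit 415) (nat_lit 5) (nat_lit 159) (nat_lit 200) (nat_lit 211)))))))
noncomputable def pc69 : PT := (PT.nd (nat_lit 1248) (PT.nd (nat_lit 624) (PT.nd (nat_lit 312) (PT.nd (nat_lit 156) (PT.nd (nat_lit 78) (PT.lf (nat_lit 32452) (nat_lit 6) (nat_lit 427) (nat_lit 5) (nat_lit 160) (nat_lit 200) (nat_lit 210)) (PT.lf (nat_lit 33440) (nat_lit 6) (nat_lit 440) (nat_lit 5) (nat_lit 161) (nat_lit 200) (nat_lit 209))) (PT.nd (nat_lit 78) (PT.lf (nat_lit 34352) (nat_lit 6) (nat_lit 452) (nat_lit 5) (nat_lit 162) (nat_lit 200) (nat_lit 208)) (PT.lf (nat_lit 35340) (nat_lit 6) (nat_lit 465) (nat_lit 5) (nat_lit 163) (nat_lit 200) (nat_lit 207)))) (PT.nd (nat_lit 156) (PT.nd (nat_lit 78) (PT.lf (nat_lit 36328) (nat_lit 6) (nat_lit 478) (nat_lit 5) (nat_lit 164) (nat_lit 200) (nat_lit 206)) (PT.lf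 (nat_lit 37544) (nat_lit 6) (nat_lit 494) (nat_lit 5) (nat_lit 165) (nat_lit 200) (nat_lit 205))) (PT.nd (nat_lit 78) (PT.lf (nat_lit 39444) (nat_lit 6) (nat_lit 519) (nat_lit 5) (nat_lit 166) (nat_lit 200) (nat_lit 204)) (PT.lf (nat_lit 41268) (nat_lit 6) (nat_lit 543) (nat_lit 5) (nat_lit 167) (nat_lit 200) (nat_lit 203))))) (PT.nd (nat_lit 312) (PT.nd (nat_lit 156) (PT.nd (nat_lit 78) (PT.lf (nat_lit 43016) (nat_lit 6) (nat_lit 566) (nat_lit 5) (nat_lit 168) (nat_lit 200) (nat_lit 202)) (PT.lf (nat_lit 44688) (nat_lit 6) (nat_lit 588) (nat_lit 5) (nat_lit 169) (nat_lit 200) (nat_lit 201))) (PT.nd (nat_lit 78) (PT.lf (nat_lit 46284) (nat_lit 3) (nat_lit 609) (nat_lit 4) (nat_lit 170) (nat_lit 200) (nat_lit 200)) (PT.lf (nat_lit 47728) (nat_lit 6) (nat_lit 628) (nat_lit 4) (nat_lit 171) (nat_lit 200) (nat_lit 199)))) (PT.nd (nat_lit 156) (PT.nd (nat_lit 78) (PT.lf (nat_lit 49096) (nat_lit 6) (nat_lit 646) (nat_lit 4) (nat_lit 172) (nat_lit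 200) (nat_lit 198)) (PT.lf (nat_lit 50388) (nat_lit 6) (nat_lit 663) (nat_lit 4) (nat_lit 173) (nat_lit 200) (nat_lit 197))) (PT.nd (nat_lit 78) (PT.lf (nat_lit 51604) (nat_lit 6) (nat_lit 679) (nat_lit 4) (nat_lit 174) (nat_lit 200) (nat_lit 196)) (PT.lf (nat_lit 52744) (nat_lit 6) (nat_lit 694) (nat_lit 4) (nat_lit 175) (nat_lit 200) (nat_lit 195)))))) (PT.nd (nat_lit 624) (PT.nd (nat_lit 312) (PT.nd (nat_lit 156) (PT.nd (nat_lit 78) (PT.lf (nat_lit 53808) (nat_lit 6) (nat_lit 708) (nat_lit 4) (nat_lit 176) (nat_lit 200) (nat_lit 194)) (PT.lf (nat_lit 54796) (nat_lit 6) (nat_lit 721) (nat_lit 4) (nat_lit 177) (nat_lit 200) (nat_lit 193))) (PT.nd (nat_lit 78) (PT.lf (nat_lit 55708) (nat_lit 6) (nat_lit 733) (nat_lit 4) (nat_lit 178) (nat_lit 200) (nat_lit 192)) (PT.lf (nat_lit 56544) (nat_lit 6) (nat_lit 744) (nat_lit 4) (nat_lit 179) (nat_lit 200) (nat_lit 191)))) (PT.nd (nat_lit 156) (PT.nd (nat_lit 78) (PT.lf (nat_lit 57304) (nat_lit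 6) (nat_lit 754) (nat_lit 4) (nat_lit 180) (nat_lit 200) (nat_lit 190)) (PT.lf (nat_lit 57228) (nat_lit 6) (nat_lit 753) (nat_lit 4) (nat_lit 181) (nat_lit 200) (nat_lit 189))) (PT.nd (nat_lit 78) (PT.lf (nat_lit 57152) (nat_lit 6) (nat_lit 752) (nat_lit 4) (nat_lit 182) (nat_lit 200) (nat_lit 188)) (PT.lf (nat_lit 57076) (nat_lit 6) (nat_lit 751) (nat_lit 4) (nat_lit 183) (nat_lit 200) (nat_lit 187))))) (PT.nd (nat_lit 312) (PT.nd (nat_lit 156) (PT.nd (nat_lit 78) (PT.lf (nat_lit 57000) (nat_lit 6) (nat_lit 750) (nat_lit 4) (nat_lit 184) (nat_lit 200) (nat_lit 186)) (PT.lf (nat_lit 56924) (nat_lit 3) (nat_lit 749) (nat_lit 2) (nat_lit 185) (nat_lit 200) (nat_lit 185))) (PT.nd (nat_lit 78) (PT.lf (nat_lit 57000) (nat_lit 6) (nat_lit 750) (nat_lit 2) (nat_lit 186) (nat_lit 200) (nat_lit 184)) (PT.lf (nat_lit 57076) (nat_lit 6) (nat_lit 751) (nat_lit 2) (nat_lit 187) (nat_lit 200) (nat_lit 183)))) (PT.nd (nat_lit 156) (PT.nd (nat_lit 78)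 (PT.lf (nat_lit 57152) (nat_lit 6) (nat_lit 752) (nat_lit 2) (nat_lit 188) (nat_lit 200) (nat_lit 182)) (PT.lf (nat_lit 57228) (nat_lit 6) (nat_lit 753) (nat_lit 2) (nat_lit 189) (nat_lit 200) (nat_lit 181))) (PT.nd (nat_lit 78) (PT.lf (nat_lit 57304) (nat_lit 6) (nat_lit 754) (nat_lit 2) (nat_lit 190) (nat_lit 200) (nat_lit 180)) (PT.nd (nat_lit 78) (PT.lf (nat_lit 56544) (nat_lit 6) (nat_lit 744) (nat_lit 2) (nat_lit 191) (nat_lit 200) (nat_lit 179)) (PT.lf (nat_lit 55708) (nat_lit 6) (nat_lit 733) (nat_lit 2) (nat_lit 192) (nat_lit 200) (nat_lit 178))))))))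
noncomputable def pc70 : PT := (PT.nd (nat_lit 1248) (PT.nd (nat_lit 624) (PT.nd (nat_lit 312) (PT.nd (nat_lit 156) (PT.nd (nat_lit 78) (PT.lf (nat_lit 54796) (nat_lit 6) (nat_lit 721) (nat_lit 2) (nat_lit 193) (nat_lit 200) (nat_lit 177)) (PT.lf (nat_lit 53808) (nat_lit 6) (nat_lit 708) (nat_lit 2) (nat_lit 194) (nat_lit 200) (nat_lit 176))) (PT.nd (nat_lit 78) (PT.lf (nat_lit 52744) (nat_lit 6) (nat_lit 694) (nat_lit 2) (nat_lit 195) (nat_lit 200) (nat_lit 175)) (PT.lf (nat_lit 51604) (nat_lit 6) (nat_lit 679) (nat_lit 2) (nat_lit 196) (nat_lit 200) (nat_lit 174)))) (PT.nd (nat_lit 156) (PT.nd (nat_lit 78) (PT.lf (nat_lit 50388) (nat_lit 6) (nat_lit 663) (nat_lit 2) (nat_lit 197) (nat_lit 200) (nat_lit 173)) (PT.lf (nat_lit 49096) (nat_lit 6) (nat_lit 646) (nat_lit 2) (nat_lit 198) (nat_lit 200) (nat_lit 172))) (PT.nd (nat_lit 78) (PT.lf (nat_lit 47728) (nat_lit 6) (nat_lit 628) (nat_lit 2) (nat_lit 199) (nat_lit 200) (nat_lit 171))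 (PT.lf (nat_lit 46284) (nat_lit 3) (nat_lit 609) (nat_lit 0) (nat_lit 200) (nat_lit 200) (nat_lit 170))))) (PT.nd (nat_lit 312) (PT.nd (nat_lit 156) (PT.nd (nat_lit 78) (PT.lf (nat_lit 44688) (nat_lit 6) (nat_lit 588) (nat_lit 0) (nat_lit 201) (nat_lit 200) (nat_lit 169)) (PT.lf (nat_lit 43016) (nat_lit 6) (nat_lit 566) (nat_lit 0) (nat_lit 202) (nat_lit 200) (nat_lit 168))) (PT.nd (nat_lit 78) (PT.lf (nat_lit 41268) (nat_lit 6) (nat_lit 543) (nat_lit 0) (nat_lit 203) (nat_lit 200) (nat_lit 167)) (PT.lf (nat_lit 39444) (nat_lit 6) (nat_lit 519) (nat_lit 0) (nat_lit 204) (nat_lit 200) (nat_lit 166)))) (PT.nd (nat_lit 156) (PT.nd (nat_lit 78) (PT.lf (nat_lit 37544) (nat_lit 6) (nat_lit 494) (nat_lit 0) (nat_lit 205) (nat_lit 200) (nat_lit 165)) (PT.lf (nat_lit 36328) (nat_lit 6) (nat_lit 478) (nat_lit 0) (nat_lit 206) (nat_lit 200) (nat_lit 164))) (PT.nd (nat_lit 78) (PT.lf (nat_lit 35340) (nat_lit 6) (nat_lit 465) (nat_lit 0) (nat_lit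 207) (nat_lit 200) (nat_lit 163)) (PT.lf (nat_lit 34352) (nat_lit 6) (nat_lit 452) (nat_lit 0) (nat_lit 208) (nat_lit 200) (nat_lit 162)))))) (PT.nd (nat_lit 624) (PT.nd (nat_lit 312) (PT.nd (nat_lit 156) (PT.nd (nat_lit 78) (PT.lf (nat_lit 33440) (nat_lit 6) (nat_lit 440) (nat_lit 0) (nat_lit 209) (nat_lit 200) (nat_lit 161)) (PT.lf (nat_lit 32452) (nat_lit 6) (nat_lit 427) (nat_lit 0) (nat_lit 210) (nat_lit 200) (nat_lit 160))) (PT.nd (nat_lit 78) (PT.lf (nat_lit 31540) (nat_lit 6) (nat_lit 415) (nat_lit 0) (nat_lit 211) (nat_lit 200) (nat_lit 159)) (PT.lf (nat_lit 30628) (nat_lit 6) (nat_lit 403) (nat_lit 0) (nat_lit 212) (nat_lit 200) (nat_lit 158)))) (PT.nd (nat_lit 156) (PT.nd (nat_lit 78) (PT.lf (nat_lit 29792) (nat_lit 6) (nat_lit 392) (nat_lit 0) (nat_lit 213) (nat_lit 200) (nat_lit 157)) (PT.lf (nat_lit 28956) (nat_lit 6) (nat_lit 381) (nat_lit 0) (nat_lit 214) (nat_lit 200) (nat_lit 156))) (PT.nd (nat_lit 78) (PT.lf (nat_lit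 28120) (nat_lit 6) (nat_lit 370) (nat_lit 0) (nat_lit 215) (nat_lit 200) (nat_lit 155)) (PT.lf (nat_lit 27284) (nat_lit 6) (nat_lit 359) (nat_lit 0) (nat_lit 216) (nat_lit 200) (nat_lit 154))))) (PT.nd (nat_lit 54366) (PT.nd (nat_lit 54210) (PT.nd (nat_lit 78) (PT.lf (nat_lit 26524) (nat_lit 6) (nat_lit 349) (nat_lit 0) (nat_lit 217) (nat_lit 200) (nat_lit 153)) (PT.lf (nat_lit 25764) (nat_lit 6) (nat_lit 339) (nat_lit 0) (nat_lit 218) (nat_lit 200) (nat_lit 152))) (PT.nd (nat_lit 78) (PT.lf (nat_lit 25080) (nat_lit 6) (nat_lit 330) (nat_lit 5) (nat_lit 151) (nat_lit 201) (nat_lit 218)) (PT.lf (nat_lit 25840) (nat_lit 6) (nat_lit 340) (nat_lit 5) (nat_lit 152) (nat_lit 201) (nat_lit 217)))) (PT.nd (nat_lit 156) (PT.nd (nat_lit 78) (PT.lf (nat_lit 26600) (nat_lit 6) (nat_lit 350) (nat_lit 5) (nat_lit 153) (nat_lit 201) (nat_lit 216)) (PT.lf (nat_lit 27360) (nat_lit 6) (nat_lit 360) (nat_lit 5) (nat_lit 154) (nat_lit 201) (nat_lit 215)))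 (PT.nd (nat_lit 78) (PT.lf (nat_lit 28196) (nat_lit 6) (nat_lit 371) (nat_lit 5) (nat_lit 155) (nat_lit 201) (nat_lit 214)) (PT.nd (nat_lit 78) (PT.lf (nat_lit 29032) (nat_lit 6) (nat_lit 382) (nat_lit 5) (nat_lit 156) (nat_lit 201) (nat_lit 213)) (PT.lf (nat_lit 29868) (nat_lit 6) (nat_lit 393) (nat_lit 5) (nat_lit 157) (nat_lit 201) (nat_lit 212))))))))
noncomputable def pc71 : PT := (PT.nd (nat_lit 1248) (PT.nd (nat_lit 624) (PT.nd (nat_lit 312) (PT.nd (nat_lit 156) (PT.nd (nat_lit 78) (PT.lf (nat_lit 30704) (nat_lit 6) (nat_lit 404) (nat_lit 5) (nat_lit 158) (nat_lit 201) (nat_lit 211)) (PT.lf (nat_lit 31616) (nat_lit 6) (nat_lit 416) (nat_lit 5) (nat_lit 159) (nat_lit 201) (nat_lit 210))) (PT.nd (nat_lit 78) (PT.lf (nat_lit 32528) (nat_lit 6) (nat_lit 428) (nat_lit 5) (nat_lit 160) (nat_lit 201) (nat_lit 209)) (PT.lf (nat_lit 33516) (nat_lit 6) (nat_lit 441) (nat_lit 5) (nat_lit 161) (nat_lit 201) (nat_lit 208)))) (PT.nd (nat_lit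 156) (PT.nd (nat_lit 78) (PT.lf (nat_lit 34428) (nat_lit 6) (nat_lit 453) (nat_lit 5) (nat_lit 162) (nat_lit 201) (nat_lit 207)) (PT.lf (nat_lit 35416) (nat_lit 6) (nat_lit 466) (nat_lit 5) (nat_lit 163) (nat_lit 201) (nat_lit 206))) (PT.nd (nat_lit 78) (PT.lf (nat_lit 36404) (nat_lit 6) (nat_lit 479) (nat_lit 5) (nat_lit 164) (nat_lit 201) (nat_lit 205)) (PT.lf (nat_lit 37620) (nat_lit 6) (nat_lit 495) (nat_lit 5) (nat_lit 165) (nat_lit 201) (nat_lit 204))))) (PT.nd (nat_lit 312) (PT.nd (nat_lit 156) (PT.nd (nat_lit 78) (PT.lf (nat_lit 39520) (nat_lit 6) (nat_lit 520) (nat_lit 5) (nat_lit 166) (nat_lit 201) (nat_lit 203)) (PT.lf (nat_lit 41344) (nat_lit 6) (nat_lit 544) (nat_lit 5) (nat_lit 167) (nat_lit 201) (nat_lit 202))) (PT.nd (nat_lit 78) (PT.lf (nat_lit 43092) (nat_lit 3) (nat_lit 567) (nat_lit 4) (nat_lit 168) (nat_lit 201) (nat_lit 201)) (PT.lf (nat_lit 44688) (nat_lit 6) (nat_lit 588) (nat_lit 4) (nat_lit 169) (nat_lit 201)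 (nat_lit 200)))) (PT.nd (nat_lit 156) (PT.nd (nat_lit 78) (PT.lf (nat_lit 46208) (nat_lit 6) (nat_lit 608) (nat_lit 4) (nat_lit 170) (nat_lit 201) (nat_lit 199)) (PT.lf (nat_lit 47652) (nat_lit 6) (nat_lit 627) (nat_lit 4) (nat_lit 171) (nat_lit 201) (nat_lit 198))) (PT.nd (nat_lit 78) (PT.lf (nat_lit 49020) (nat_lit 6) (nat_lit 645) (nat_lit 4) (nat_lit 172) (nat_lit 201) (nat_lit 197)) (PT.lf (nat_lit 50312) (nat_lit 6) (nat_lit 662) (nat_lit 4) (nat_lit 173) (nat_lit 201) (nat_lit 196)))))) (PT.nd (nat_lit 624) (PT.nd (nat_lit 312) (PT.nd (nat_lit 156) (PT.nd (nat_lit 78) (PT.lf (nat_lit 51528) (nat_lit 6) (nat_lit 678) (nat_lit 4) (nat_lit 174) (nat_lit 201) (nat_lit 195)) (PT.lf (nat_lit 52668) (nat_lit 6) (nat_lit 693) (nat_lit 4) (nat_lit 175) (nat_lit 201) (nat_lit 194))) (PT.nd (nat_lit 78) (PT.lf (nat_lit 53732) (nat_lit 6) (nat_lit 707) (nat_lit 4) (nat_lit 176) (nat_lit 201) (nat_lit 193)) (PT.lf (nat_lit 54720) (nat_lit 6)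 (nat_lit 720) (nat_lit 4) (nat_lit 177) (nat_lit 201) (nat_lit 192)))) (PT.nd (nat_lit 156) (PT.nd (nat_lit 78) (PT.lf (nat_lit 55632) (nat_lit 6) (nat_lit 732) (nat_lit 4) (nat_lit 178) (nat_lit 201) (nat_lit 191)) (PT.lf (nat_lit 56468) (nat_lit 6) (nat_lit 743) (nat_lit 4) (nat_lit 179) (nat_lit 201) (nat_lit 190))) (PT.nd (nat_lit 78) (PT.lf (nat_lit 56392) (nat_lit 6) (nat_lit 742) (nat_lit 4) (nat_lit 180) (nat_lit 201) (nat_lit 189)) (PT.lf (nat_lit 56316) (nat_lit 6) (nat_lit 741) (nat_lit 4) (nat_lit 181) (nat_lit 201) (nat_lit 188))))) (PT.nd (nat_lit 312) (PT.nd (nat_lit 156) (PT.nd (nat_lit 78) (PT.lf (nat_lit 56240) (nat_lit 6) (nat_lit 740) (nat_lit 4) (nat_lit 182) (nat_lit 201) (nat_lit 187)) (PT.lf (nat_lit 56164) (nat_lit 6) (nat_lit 739) (nat_lit 4) (nat_lit 183) (nat_lit 201) (nat_lit 186))) (PT.nd (nat_lit 78) (PT.lf (nat_lit 56088) (nat_lit 6) (nat_lit 738) (nat_lit 4) (nat_lit 184) (nat_lit 201) (nat_lit 185)) (PT.lf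 (nat_lit 56088) (nat_lit 6) (nat_lit 738) (nat_lit 2) (nat_lit 185) (nat_lit 201) (nat_lit 184)))) (PT.nd (nat_lit 156) (PT.nd (nat_lit 78) (PT.lf (nat_lit 56164) (nat_lit 6) (nat_lit 739) (nat_lit 2) (nat_lit 186) (nat_lit 201) (nat_lit 183)) (PT.lf (nat_lit 56240) (nat_lit 6) (nat_lit 740) (nat_lit 2) (nat_lit 187) (nat_lit 201) (nat_lit 182))) (PT.nd (nat_lit 78) (PT.lf (nat_lit 56316) (nat_lit 6) (nat_lit 741) (nat_lit 2) (nat_lit 188) (nat_lit 201) (nat_lit 181)) (PT.nd (nat_lit 78) (PT.lf (nat_lit 56392) (nat_lit 6) (nat_lit 742) (nat_lit 2) (nat_lit 189) (nat_lit 201) (nat_lit 180)) (PT.lf (nat_lit 56468) (nat_lit 6) (nat_lit 743) (nat_lit 2) (nat_lit 190) (nat_lit 201) (nat_lit 179))))))))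
noncomputable def pc72 : PT := (PT.nd (nat_lit 1248) (PT.nd (nat_lit 624) (PT.nd (nat_lit 312) (PT.nd (nat_lit 156) (PT.nd (nat_lit 78) (PT.lf (nat_lit 55632) (nat_lit 6) (nat_lit 732) (nat_lit 2) (nat_lit 191) (nat_lit 201) (nat_lit 178)) (PT.lf (nat_lit 54720) (nat_lit 6) (nat_lit 720) (nat_lit 2) (nat_lit 192) (nat_lit 201) (nat_lit 177))) (PT.nd (nat_lit 78) (PT.lf (nat_lit 53732) (nat_lit 6) (nat_lit 707) (nat_lit 2) (nat_lit 193) (nat_lit 201) (nat_lit 176)) (PT.lf (nat_lit 52668) (nat_lit 6) (nat_lit 693) (nat_lit 2) (nat_lit 194) (nat_lit 201) (nat_lit 175)))) (PT.nd (nat_lit 156) (PT.nd (nat_lit 78) (PT.lf (nat_lit 51528) (nat_lit 6) (nat_lit 678) (nat_lit 2) (nat_lit 195) (nat_lit 201) (nat_lit 174)) (PT.lf (nat_lit 50312) (nat_lit 6) (nat_lit 662) (nat_lit 2) (nat_lit 196) (nat_lit 201) (nat_lit 173))) (PT.nd (nat_lit 78) (PT.lf (nat_lit 49020) (nat_lit 6) (nat_lit 645) (nat_lit 2) (nat_lit 197) (nat_lit 201) (nat_lit 172))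 (PT.lf (nat_lit 47652) (nat_lit 6) (nat_lit 627) (nat_lit 2) (nat_lit 198) (nat_lit 201) (nat_lit 171))))) (PT.nd (nat_lit 312) (PT.nd (nat_lit 156) (PT.nd (nat_lit 78) (PT.lf (nat_lit 46208) (nat_lit 6) (nat_lit 608) (nat_lit 2) (nat_lit 199) (nat_lit 201) (nat_lit 170)) (PT.lf (nat_lit 44688) (nat_lit 6) (nat_lit 588) (nat_lit 2) (nat_lit 200) (nat_lit 201) (nat_lit 169))) (PT.nd (nat_lit 78) (PT.lf (nat_lit 43092) (nat_lit 3) (nat_lit 567) (nat_lit 0) (nat_lit 201) (nat_lit 201) (nat_lit 168)) (PT.lf (nat_lit 41344) (nat_lit 6) (nat_lit 544) (nat_lit 0) (nat_lit 202) (nat_lit 201) (nat_lit 167)))) (PT.nd (nat_lit 156) (PT.nd (nat_lit 78) (PT.lf (nat_lit 39520) (nat_lit 6) (nat_lit 520) (nat_lit 0) (nat_lit 203) (nat_lit 201) (nat_lit 166)) (PT.lf (nat_lit 37620) (nat_lit 6) (nat_lit 495) (nat_lit 0) (nat_lit 204) (nat_lit 201) (nat_lit 165))) (PT.nd (nat_lit 78) (PT.lf (nat_lit 36404) (nat_lit 6) (nat_lit 479) (nat_lit 0) (nat_lit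 205) (nat_lit 201) (nat_lit 164)) (PT.lf (nat_lit 35416) (nat_lit 6) (nat_lit 466) (nat_lit 0) (nat_lit 206) (nat_lit 201) (nat_lit 163)))))) (PT.nd (nat_lit 624) (PT.nd (nat_lit 312) (PT.nd (nat_lit 156) (PT.nd (nat_lit 78) (PT.lf (nat_lit 34428) (nat_lit 6) (nat_lit 453) (nat_lit 0) (nat_lit 207) (nat_lit 201) (nat_lit 162)) (PT.lf (nat_lit 33516) (nat_lit 6) (nat_lit 441) (nat_lit 0) (nat_lit 208) (nat_lit 201) (nat_lit 161))) (PT.nd (nat_lit 78) (PT.lf (nat_lit 32528) (nat_lit 6) (nat_lit 428) (nat_lit 0) (nat_lit 209) (nat_lit 201) (nat_lit 160)) (PT.lf (nat_lit 31616) (nat_lit 6) (nat_lit 416) (nat_lit 0) (nat_lit 210) (nat_lit 201) (nat_lit 159)))) (PT.nd (nat_lit 156) (PT.nd (nat_lit 78) (PT.lf (nat_lit 30704) (nat_lit 6) (nat_lit 404) (nat_lit 0) (nat_lit 211) (nat_lit 201) (nat_lit 158)) (PT.lf (nat_lit 29868) (nat_lit 6) (nat_lit 393) (nat_lit 0) (nat_lit 212) (nat_lit 201) (nat_lit 157))) (PT.nd (nat_lit 78) (PT.lf (nat_lit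 29032) (nat_lit 6) (nat_lit 382) (nat_lit 0) (nat_lit 213) (nat_lit 201) (nat_lit 156)) (PT.lf (nat_lit 28196) (nat_lit 6) (nat_lit 371) (nat_lit 0) (nat_lit 214) (nat_lit 201) (nat_lit 155))))) (PT.nd (nat_lit 54288) (PT.nd (nat_lit 156) (PT.nd (nat_lit 78) (PT.lf (nat_lit 27360) (nat_lit 6) (nat_lit 360) (nat_lit 0) (nat_lit 215) (nat_lit 201) (nat_lit 154)) (PT.lf (nat_lit 26600) (nat_lit 6) (nat_lit 350) (nat_lit 0) (nat_lit 216) (nat_lit 201) (nat_lit 153))) (PT.nd (nat_lit 78) (PT.lf (nat_lit 25840) (nat_lit 6) (nat_lit 340) (nat_lit 0) (nat_lit 217) (nat_lit 201) (nat_lit 152)) (PT.lf (nat_lit 25080) (nat_lit 6) (nat_lit 330) (nat_lit 0) (nat_lit 218) (nat_lit 201) (nat_lit 151)))) (PT.nd (nat_lit 156) (PT.nd (nat_lit 78) (PT.lf (nat_lit 24396) (nat_lit 6) (nat_lit 321) (nat_lit 5) (nat_lit 150) (nat_lit 202) (nat_lit 218)) (PT.lf (nat_lit 25156) (nat_lit 6) (nat_lit 331) (nat_lit 5) (nat_lit 151) (nat_lit 202) (nat_lit 217)))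 (PT.nd (nat_lit 78) (PT.lf (nat_lit 25916) (nat_lit 6) (nat_lit 341) (nat_lit 5) (nat_lit 152) (nat_lit 202) (nat_lit 216)) (PT.lf (nat_lit 26676) (nat_lit 6) (nat_lit 351) (nat_lit 5) (nat_lit 153) (nat_lit 202) (nat_lit 215)))))))
noncomputable def pc73 : PT := (PT.nd (nat_lit 1248) (PT.nd (nat_lit 624) (PT.nd (nat_lit 312) (PT.nd (nat_lit 156) (PT.nd (nat_lit 78) (PT.lf (nat_lit 27436) (nat_lit 6) (nat_lit 361) (nat_lit 5) (nat_lit 154) (nat_lit 202) (nat_lit 214)) (PT.lf (nat_lit 28272) (nat_lit 6) (nat_lit 372) (nat_lit 5) (nat_lit 155) (nat_lit 202) (nat_lit 213))) (PT.nd (nat_lit 78) (PT.lf (nat_lit 29108) (nat_lit 6) (nat_lit 383) (nat_lit 5) (nat_lit 156) (nat_lit 202) (nat_lit 212)) (PT.lf (nat_lit 29944) (nat_lit 6) (nat_lit 394) (nat_lit 5) (nat_lit 157) (nat_lit 202) (nat_lit 211)))) (PT.nd (nat_lit 156) (PT.nd (nat_lit 78) (PT.lf (nat_lit 30780) (nat_lit 6) (nat_lit 405) (nat_lit 5) (nat_lit 158) (nat_lit 202) (nat_lit 210))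 (PT.lf (nat_lit 31692) (nat_lit 6) (nat_lit 417) (nat_lit 5) (nat_lit 159) (nat_lit 202) (nat_lit 209))) (PT.nd (nat_lit 78) (PT.lf (nat_lit 32604) (nat_lit 6) (nat_lit 429) (nat_lit 5) (nat_lit 160) (nat_lit 202) (nat_lit 208)) (PT.lf (nat_lit 33592) (nat_lit 6) (nat_lit 442) (nat_lit 5) (nat_lit 161) (nat_lit 202) (nat_lit 207))))) (PT.nd (nat_lit 312) (PT.nd (nat_lit 156) (PT.nd (nat_lit 78) (PT.lf (nat_lit 34504) (nat_lit 6) (nat_lit 454) (nat_lit 5) (nat_lit 162) (nat_lit 202) (nat_lit 206)) (PT.lf (nat_lit 35492) (nat_lit 6) (nat_lit 467) (nat_lit 5) (nat_lit 163) (nat_lit 202) (nat_lit 205))) (PT.nd (nat_lit 78) (PT.lf (nat_lit 36480) (nat_lit 6) (nat_lit 480) (nat_lit 5) (nat_lit 164) (nat_lit 202) (nat_lit 204)) (PT.lf (nat_lit 37696) (nat_lit 6) (nat_lit 496) (nat_lit 5) (nat_lit 165) (nat_lit 202) (nat_lit 203)))) (PT.nd (nat_lit 156) (PT.nd (nat_lit 78) (PT.lf (nat_lit 39596) (nat_lit 3) (nat_lit 521) (nat_lit 4) (nat_lit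 166) (nat_lit 202) (nat_lit 202)) (PT.lf (nat_lit 41344) (nat_lit 6) (nat_lit 544) (nat_lit 4) (nat_lit 167) (nat_lit 202) (nat_lit 201))) (PT.nd (nat_lit 78) (PT.lf (nat_lit 43016) (nat_lit 6) (nat_lit 566) (nat_lit 4) (nat_lit 168) (nat_lit 202) (nat_lit 200)) (PT.lf (nat_lit 44612) (nat_lit 6) (nat_lit 587) (nat_lit 4) (nat_lit 169) (nat_lit 202) (nat_lit 199)))))) (PT.nd (nat_lit 624) (PT.nd (nat_lit 312) (PT.nd (nat_lit 156) (PT.nd (nat_lit 78) (PT.lf (nat_lit 46132) (nat_lit 6) (nat_lit 607) (nat_lit 4) (nat_lit 170) (nat_lit 202) (nat_lit 198)) (PT.lf (nat_lit 47576) (nat_lit 6) (nat_lit 626) (nat_lit 4) (nat_lit 171) (nat_lit 202) (nat_lit 197))) (PT.nd (nat_lit 78) (PT.lf (nat_lit 48944) (nat_lit 6) (nat_lit 644) (nat_lit 4) (nat_lit 172) (nat_lit 202) (nat_lit 196)) (PT.lf (nat_lit 50236) (nat_lit 6) (nat_lit 661) (nat_lit 4) (nat_lit 173) (nat_lit 202) (nat_lit 195)))) (PT.nd (nat_lit 156) (PT.nd (nat_lit 78) (PT.lf (nat_lit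 51452) (nat_lit 6) (nat_lit 677) (nat_lit 4) (nat_lit 174) (nat_lit 202) (nat_lit 194)) (PT.lf (nat_lit 52592) (nat_lit 6) (nat_lit 692) (nat_lit 4) (nat_lit 175) (nat_lit 202) (nat_lit 193))) (PT.nd (nat_lit 78) (PT.lf (nat_lit 53656) (nat_lit 6) (nat_lit 706) (nat_lit 4) (nat_lit 176) (nat_lit 202) (nat_lit 192)) (PT.lf (nat_lit 54644) (nat_lit 6) (nat_lit 719) (nat_lit 4) (nat_lit 177) (nat_lit 202) (nat_lit 191))))) (PT.nd (nat_lit 312) (PT.nd (nat_lit 156) (PT.nd (nat_lit 78) (PT.lf (nat_lit 55556) (nat_lit 6) (nat_lit 731) (nat_lit 4) (nat_lit 178) (nat_lit 202) (nat_lit 190)) (PT.lf (nat_lit 55480) (nat_lit 6) (nat_lit 730) (nat_lit 4) (nat_lit 179) (nat_lit 202) (nat_lit 189))) (PT.nd (nat_lit 78) (PT.lf (nat_lit 55404) (nat_lit 6) (nat_lit 729) (nat_lit 4) (nat_lit 180) (nat_lit 202) (nat_lit 188)) (PT.lf (nat_lit 55328) (nat_lit 6) (nat_lit 728) (nat_lit 4) (nat_lit 181) (nat_lit 202) (nat_lit 187)))) (PT.nd (nat_lit 156) (PT.nd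 (nat_lit 78) (PT.lf (nat_lit 55252) (nat_lit 6) (nat_lit 727) (nat_lit 4) (nat_lit 182) (nat_lit 202) (nat_lit 186)) (PT.lf (nat_lit 55176) (nat_lit 6) (nat_lit 726) (nat_lit 4) (nat_lit 183) (nat_lit 202) (nat_lit 185))) (PT.nd (nat_lit 78) (PT.lf (nat_lit 55100) (nat_lit 3) (nat_lit 725) (nat_lit 2) (nat_lit 184) (nat_lit 202) (nat_lit 184)) (PT.nd (nat_lit 78) (PT.lf (nat_lit 55176) (nat_lit 6) (nat_lit 726) (nat_lit 2) (nat_lit 185) (nat_lit 202) (nat_lit 183)) (PT.lf (nat_lit 55252) (nat_lit 6) (nat_lit 727) (nat_lit 2) (nat_lit 186) (nat_lit 202) (nat_lit 182))))))))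
noncomputable def pc74 : PT := (PT.nd (nat_lit 1248) (PT.nd (nat_lit 624) (PT.nd (nat_lit 312) (PT.nd (nat_lit 156) (PT.nd (nat_lit 78) (PT.lf (nat_lit 55328) (nat_lit 6) (nat_lit 728) (nat_lit 2) (nat_lit 187) (nat_lit 202) (nat_lit 181)) (PT.lf (nat_lit 55404) (nat_lit 6) (nat_lit 729) (nat_lit 2) (nat_lit 188) (nat_lit 202) (nat_lit 180))) (PT.nd (nat_lit 78) (PT.lf (nat_lit 55480) (nat_lit 6) (nat_lit 730) (nat_lit 2) (nat_lit 189) (nat_lit 202) (nat_lit 179)) (PT.lf (nat_lit 55556) (nat_lit 6) (nat_lit 731) (nat_lit 2) (nat_lit 190) (nat_lit 202) (nat_lit 178)))) (PT.nd (nat_lit 156) (PT.nd (nat_lit 78) (PT.lf (nat_lit 54644) (nat_lit 6) (nat_lit 719) (nat_lit 2) (nat_lit 191) (nat_lit 202) (nat_lit 177)) (PT.lf (nat_lit 53656) (nat_lit 6) (nat_lit 706) (nat_lit 2) (nat_lit 192) (nat_lit 202) (nat_lit 176))) (PT.nd (nat_lit 78) (PT.lf (nat_lit 52592) (nat_lit 6) (nat_lit 692) (nat_lit 2) (nat_lit 193) (nat_lit 202) (nat_lit 175))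 (PT.lf (nat_lit 51452) (nat_lit 6) (nat_lit 677) (nat_lit 2) (nat_lit 194) (nat_lit 202) (nat_lit 174))))) (PT.nd (nat_lit 312) (PT.nd (nat_lit 156) (PT.nd (nat_lit 78) (PT.lf (nat_lit 50236) (nat_lit 6) (nat_lit 661) (nat_lit 2) (nat_lit 195) (nat_lit 202) (nat_lit 173)) (PT.lf (nat_lit 48944) (nat_lit 6) (nat_lit 644) (nat_lit 2) (nat_lit 196) (nat_lit 202) (nat_lit 172))) (PT.nd (nat_lit 78) (PT.lf (nat_lit 47576) (nat_lit 6) (nat_lit 626) (nat_lit 2) (nat_lit 197) (nat_lit 202) (nat_lit 171)) (PT.lf (nat_lit 46132) (nat_lit 6) (nat_lit 607) (nat_lit 2) (nat_lit 198) (nat_lit 202) (nat_lit 170)))) (PT.nd (nat_lit 156) (PT.nd (nat_lit 78) (PT.lf (nat_lit 44612) (nat_lit 6) (nat_lit 587) (nat_lit 2) (nat_lit 199) (nat_lit 202) (nat_lit 169)) (PT.lf (nat_lit 43016) (nat_lit 6) (nat_lit 566) (nat_lit 2) (nat_lit 200) (nat_lit 202) (nat_lit 168))) (PT.nd (nat_lit 78) (PT.lf (nat_lit 41344) (nat_lit 6) (nat_lit 544) (nat_lit 2) (nat_lit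 201) (nat_lit 202) (nat_lit 167)) (PT.lf (nat_lit 39596) (nat_lit 3) (nat_lit 521) (nat_lit 0) (nat_lit 202) (nat_lit 202) (nat_lit 166)))))) (PT.nd (nat_lit 624) (PT.nd (nat_lit 312) (PT.nd (nat_lit 156) (PT.nd (nat_lit 78) (PT.lf (nat_lit 37696) (nat_lit 6) (nat_lit 496) (nat_lit 0) (nat_lit 203) (nat_lit 202) (nat_lit 165)) (PT.lf (nat_lit 36480) (nat_lit 6) (nat_lit 480) (nat_lit 0) (nat_lit 204) (nat_lit 202) (nat_lit 164))) (PT.nd (nat_lit 78) (PT.lf (nat_lit 35492) (nat_lit 6) (nat_lit 467) (nat_lit 0) (nat_lit 205) (nat_lit 202) (nat_lit 163)) (PT.lf (nat_lit 34504) (nat_lit 6) (nat_lit 454) (nat_lit 0) (nat_lit 206) (nat_lit 202) (nat_lit 162)))) (PT.nd (nat_lit 156) (PT.nd (nat_lit 78) (PT.lf (nat_lit 33592) (nat_lit 6) (nat_lit 442) (nat_lit 0) (nat_lit 207) (nat_lit 202) (nat_lit 161)) (PT.lf (nat_lit 32604) (nat_lit 6) (nat_lit 429) (nat_lit 0) (nat_lit 208) (nat_lit 202) (nat_lit 160))) (PT.nd (nat_lit 78) (PT.lf (nat_lit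 31692) (nat_lit 6) (nat_lit 417) (nat_lit 0) (nat_lit 209) (nat_lit 202) (nat_lit 159)) (PT.lf (nat_lit 30780) (nat_lit 6) (nat_lit 405) (nat_lit 0) (nat_lit 210) (nat_lit 202) (nat_lit 158))))) (PT.nd (nat_lit 312) (PT.nd (nat_lit 156) (PT.nd (nat_lit 78) (PT.lf (nat_lit 29944) (nat_lit 6) (nat_lit 394) (nat_lit 0) (nat_lit 211) (nat_lit 202) (nat_lit 157)) (PT.lf (nat_lit 29108) (nat_lit 6) (nat_lit 383) (nat_lit 0) (nat_lit 212) (nat_lit 202) (nat_lit 156))) (PT.nd (nat_lit 78) (PT.lf (nat_lit 28272) (nat_lit 6) (nat_lit 372) (nat_lit 0) (nat_lit 213) (nat_lit 202) (nat_lit 155)) (PT.lf (nat_lit 27436) (nat_lit 6) (nat_lit 361) (nat_lit 0) (nat_lit 214) (nat_lit 202) (nat_lit 154)))) (PT.nd (nat_lit 156) (PT.nd (nat_lit 78) (PT.lf (nat_lit 26676) (nat_lit 6) (nat_lit 351) (nat_lit 0) (nat_lit 215) (nat_lit 202) (nat_lit 153)) (PT.lf (nat_lit 25916) (nat_lit 6) (nat_lit 341) (nat_lit 0) (nat_lit 216) (nat_lit 202) (nat_lit 152))) (PT.nd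 (nat_lit 78) (PT.lf (nat_lit 25156) (nat_lit 6) (nat_lit 331) (nat_lit 0) (nat_lit 217) (nat_lit 202) (nat_lit 151)) (PT.nd (nat_lit 53898) (PT.lf (nat_lit 24396) (nat_lit 6) (nat_lit 321) (nat_lit 0) (nat_lit 218) (nat_lit 202) (nat_lit 150)) (PT.lf (nat_lit 23104) (nat_lit 6) (nat_lit 304) (nat_lit 5) (nat_lit 148) (nat_lit 203) (nat_lit 219))))))))
noncomputable def pc75 : PT := (PT.nd (nat_lit 1248) (PT.nd (nat_lit 624) (PT.nd (nat_lit 312) (PT.nd (nat_lit 156) (PT.nd (nat_lit 78) (PT.lf (nat_lit 23788) (nat_lit 6) (nat_lit 313) (nat_lit 5) (nat_lit 149) (nat_lit 203) (nat_lit 218)) (PT.lf (nat_lit 24472) (nat_lit 6) (nat_lit 322) (nat_lit 5) (nat_lit 150) (nat_lit 203) (nat_lit 217))) (PT.nd (nat_lit 78) (PT.lf (nat_lit 25232) (nat_lit 6) (nat_lit 332) (nat_lit 5) (nat_lit 151) (nat_lit 203) (nat_lit 216)) (PT.lf (nat_lit 25992) (nat_lit 6) (nat_lit 342) (nat_lit 5) (nat_lit 152) (nat_lit 203) (nat_lit 215)))) (PT.nd (nat_lit 156)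 (PT.nd (nat_lit 78) (PT.lf (nat_lit 26752) (nat_lit 6) (nat_lit 352) (nat_lit 5) (nat_lit 153) (nat_lit 203) (nat_lit 214)) (PT.lf (nat_lit 27512) (nat_lit 6) (nat_lit 362) (nat_lit 5) (nat_lit 154) (nat_lit 203) (nat_lit 213))) (PT.nd (nat_lit 78) (PT.lf (nat_lit 28348) (nat_lit 6) (nat_lit 373) (nat_lit 5) (nat_lit 155) (nat_lit 203) (nat_lit 212)) (PT.lf (nat_lit 29184) (nat_lit 6) (nat_lit 384) (nat_lit 5) (nat_lit 156) (nat_lit 203) (nat_lit 211))))) (PT.nd (nat_lit 312) (PT.nd (nat_lit 156) (PT.nd (nat_lit 78) (PT.lf (nat_lit 30020) (nat_lit 6) (nat_lit 395) (nat_lit 5) (nat_lit 157) (nat_lit 203) (nat_lit 210)) (PT.lf (nat_lit 30856) (nat_lit 6) (nat_lit 406) (nat_lit 5) (nat_lit 158) (nat_lit 203) (nat_lit 209))) (PT.nd (nat_lit 78) (PT.lf (nat_lit 31768) (nat_lit 6) (nat_lit 418) (nat_lit 5) (nat_lit 159) (nat_lit 203) (nat_lit 208)) (PT.lf (nat_lit 32680) (nat_lit 6) (nat_lit 430) (nat_lit 5) (nat_lit 160) (nat_lit 203) (nat_lit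 207)))) (PT.nd (nat_lit 156) (PT.nd (nat_lit 78) (PT.lf (nat_lit 33668) (nat_lit 6) (nat_lit 443) (nat_lit 5) (nat_lit 161) (nat_lit 203) (nat_lit 206)) (PT.lf (nat_lit 34580) (nat_lit 6) (nat_lit 455) (nat_lit 5) (nat_lit 162) (nat_lit 203) (nat_lit 205))) (PT.nd (nat_lit 78) (PT.lf (nat_lit 35568) (nat_lit 6) (nat_lit 468) (nat_lit 5) (nat_lit 163) (nat_lit 203) (nat_lit 204)) (PT.lf (nat_lit 36556) (nat_lit 3) (nat_lit 481) (nat_lit 4) (nat_lit 164) (nat_lit 203) (nat_lit 203)))))) (PT.nd (nat_lit 624) (PT.nd (nat_lit 312) (PT.nd (nat_lit 156) (PT.nd (nat_lit 78) (PT.lf (nat_lit 37696) (nat_lit 6) (nat_lit 496) (nat_lit 4) (nat_lit 165) (nat_lit 203) (nat_lit 202)) (PT.lf (nat_lit 39520) (nat_lit 6) (nat_lit 520) (nat_lit 4) (nat_lit 166) (nat_lit 203) (nat_lit 201))) (PT.nd (nat_lit 78) (PT.lf (nat_lit 41268) (nat_lit 6) (nat_lit 543) (nat_lit 4) (nat_lit 167) (nat_lit 203) (nat_lit 200)) (PT.lf (nat_lit 42940) (nat_lit 6) (nat_lit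 565) (nat_lit 4) (nat_lit 168) (nat_lit 203) (nat_lit 199)))) (PT.nd (nat_lit 156) (PT.nd (nat_lit 78) (PT.lf (nat_lit 44536) (nat_lit 6) (nat_lit 586) (nat_lit 4) (nat_lit 169) (nat_lit 203) (nat_lit 198)) (PT.lf (nat_lit 46056) (nat_lit 6) (nat_lit 606) (nat_lit 4) (nat_lit 170) (nat_lit 203) (nat_lit 197))) (PT.nd (nat_lit 78) (PT.lf (nat_lit 47500) (nat_lit 6) (nat_lit 625) (nat_lit 4) (nat_lit 171) (nat_lit 203) (nat_lit 196)) (PT.lf (nat_lit 48868) (nat_lit 6) (nat_lit 643) (nat_lit 4) (nat_lit 172) (nat_lit 203) (nat_lit 195))))) (PT.nd (nat_lit 312) (PT.nd (nat_lit 156) (PT.nd (nat_lit 78) (PT.lf (nat_lit 50160) (nat_lit 6) (nat_lit 660) (nat_lit 4) (nat_lit 173) (nat_lit 203) (nat_lit 194)) (PT.lf (nat_lit 51376) (nat_lit 6) (nat_lit 676) (nat_lit 4) (nat_lit 174) (nat_lit 203) (nat_lit 193))) (PT.nd (nat_lit 78) (PT.lf (nat_lit 52516) (nat_lit 6) (nat_lit 691) (nat_lit 4) (nat_lit 175) (nat_lit 203) (nat_lit 192)) (PT.lf (nat_lit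 53580) (nat_lit 6) (nat_lit 705) (nat_lit 4) (nat_lit 176) (nat_lit 203) (nat_lit 191)))) (PT.nd (nat_lit 156) (PT.nd (nat_lit 78) (PT.lf (nat_lit 54568) (nat_lit 6) (nat_lit 718) (nat_lit 4) (nat_lit 177) (nat_lit 203) (nat_lit 190)) (PT.lf (nat_lit 54492) (nat_lit 6) (nat_lit 717) (nat_lit 4) (nat_lit 178) (nat_lit 203) (nat_lit 189))) (PT.nd (nat_lit 78) (PT.lf (nat_lit 54416) (nat_lit 6) (nat_lit 716) (nat_lit 4) (nat_lit 179) (nat_lit 203) (nat_lit 188)) (PT.nd (nat_lit 78) (PT.lf (nat_lit 54340) (nat_lit 6) (nat_lit 715) (nat_lit 4) (nat_lit 180) (nat_lit 203) (nat_lit 187)) (PT.lf (nat_lit 54264) (nat_lit 6) (nat_lit 714) (nat_lit 4) (nat_lit 181) (nat_lit 203) (nat_lit 186))))))))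
noncomputable def pc76 : PT := (PT.nd (nat_lit 1248) (PT.nd (nat_lit 624) (PT.nd (nat_lit 312) (PT.nd (nat_lit 156) (PT.nd (nat_lit 78) (PT.lf (nat_lit 54188) (nat_lit 6) (nat_lit 713) (nat_lit 4) (nat_lit 182) (nat_lit 203) (nat_lit 185)) (PT.lf (nat_lit 54112) (nat_lit 6) (nat_lit 712) (nat_lit 4) (nat_lit 183) (nat_lit 203) (nat_lit 184))) (PT.nd (nat_lit 78) (PT.lf (nat_lit 54112) (nat_lit 6) (nat_lit 712) (nat_lit 2) (nat_lit 184) (nat_lit 203) (nat_lit 183)) (PT.lf (nat_lit 54188) (nat_lit 6) (nat_lit 713) (nat_lit 2) (nat_lit 185) (nat_lit 203) (nat_lit 182)))) (PT.nd (nat_lit 156) (PT.nd (nat_lit 78) (PT.lf (nat_lit 54264) (nat_lit 6) (nat_lit 714) (nat_lit 2) (nat_lit 186) (nat_lit 203) (nat_lit 181)) (PT.lf (nat_lit 54340) (nat_lit 6) (nat_lit 715) (nat_lit 2) (nat_lit 187) (nat_lit 203) (nat_lit 180))) (PT.nd (nat_lit 78) (PT.lf (nat_lit 54416) (nat_lit 6) (nat_lit 716) (nat_lit 2) (nat_lit 188) (nat_lit 203) (nat_lit 179))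 (PT.lf (nat_lit 54492) (nat_lit 6) (nat_lit 717) (nat_lit 2) (nat_lit 189) (nat_lit 203) (nat_lit 178))))) (PT.nd (nat_lit 312) (PT.nd (nat_lit 156) (PT.nd (nat_lit 78) (PT.lf (nat_lit 54568) (nat_lit 6) (nat_lit 718) (nat_lit 2) (nat_lit 190) (nat_lit 203) (nat_lit 177)) (PT.lf (nat_lit 53580) (nat_lit 6) (nat_lit 705) (nat_lit 2) (nat_lit 191) (nat_lit 203) (nat_lit 176))) (PT.nd (nat_lit 78) (PT.lf (nat_lit 52516) (nat_lit 6) (nat_lit 691) (nat_lit 2) (nat_lit 192) (nat_lit 203) (nat_lit 175)) (PT.lf (nat_lit 51376) (nat_lit 6) (nat_lit 676) (nat_lit 2) (nat_lit 193) (nat_lit 203) (nat_lit 174)))) (PT.nd (nat_lit 156) (PT.nd (nat_lit 78) (PT.lf (nat_lit 50160) (nat_lit 6) (nat_lit 660) (nat_lit 2) (nat_lit 194) (nat_lit 203) (nat_lit 173)) (PT.lf (nat_lit 48868) (nat_lit 6) (nat_lit 643) (nat_lit 2) (nat_lit 195) (nat_lit 203) (nat_lit 172))) (PT.nd (nat_lit 78) (PT.lf (nat_lit 47500) (nat_lit 6) (nat_lit 625) (nat_lit 2) (nat_lit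 196) (nat_lit 203) (nat_lit 171)) (PT.lf (nat_lit 46056) (nat_lit 6) (nat_lit 606) (nat_lit 2) (nat_lit 197) (nat_lit 203) (nat_lit 170)))))) (PT.nd (nat_lit 624) (PT.nd (nat_lit 312) (PT.nd (nat_lit 156) (PT.nd (nat_lit 78) (PT.lf (nat_lit 44536) (nat_lit 6) (nat_lit 586) (nat_lit 2) (nat_lit 198) (nat_lit 203) (nat_lit 169)) (PT.lf (nat_lit 42940) (nat_lit 6) (nat_lit 565) (nat_lit 2) (nat_lit 199) (nat_lit 203) (nat_lit 168))) (PT.nd (nat_lit 78) (PT.lf (nat_lit 41268) (nat_lit 6) (nat_lit 543) (nat_lit 2) (nat_lit 200) (nat_lit 203) (nat_lit 167)) (PT.lf (nat_lit 39520) (nat_lit 6) (nat_lit 520) (nat_lit 2) (nat_lit 201) (nat_lit 203) (nat_lit 166)))) (PT.nd (nat_lit 156) (PT.nd (nat_lit 78) (PT.lf (nat_lit 37696) (nat_lit 6) (nat_lit 496) (nat_lit 2) (nat_lit 202) (nat_lit 203) (nat_lit 165)) (PT.lf (nat_lit 36556) (nat_lit 3) (nat_lit 481) (nat_lit 0) (nat_lit 203) (nat_lit 203) (nat_lit 164))) (PT.nd (nat_lit 78) (PT.lf (nat_lit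 35568) (nat_lit 6) (nat_lit 468) (nat_lit 0) (nat_lit 204) (nat_lit 203) (nat_lit 163)) (PT.lf (nat_lit 34580) (nat_lit 6) (nat_lit 455) (nat_lit 0) (nat_lit 205) (nat_lit 203) (nat_lit 162))))) (PT.nd (nat_lit 312) (PT.nd (nat_lit 156) (PT.nd (nat_lit 78) (PT.lf (nat_lit 33668) (nat_lit 6) (nat_lit 443) (nat_lit 0) (nat_lit 206) (nat_lit 203) (nat_lit 161)) (PT.lf (nat_lit 32680) (nat_lit 6) (nat_lit 430) (nat_lit 0) (nat_lit 207) (nat_lit 203) (nat_lit 160))) (PT.nd (nat_lit 78) (PT.lf (nat_lit 31768) (nat_lit 6) (nat_lit 418) (nat_lit 0) (nat_lit 208) (nat_lit 203) (nat_lit 159)) (PT.lf (nat_lit 30856) (nat_lit 6) (nat_lit 406) (nat_lit 0) (nat_lit 209) (nat_lit 203) (nat_lit 158)))) (PT.nd (nat_lit 156) (PT.nd (nat_lit 78) (PT.lf (nat_lit 30020) (nat_lit 6) (nat_lit 395) (nat_lit 0) (nat_lit 210) (nat_lit 203) (nat_lit 157)) (PT.lf (nat_lit 29184) (nat_lit 6) (nat_lit 384) (nat_lit 0) (nat_lit 211) (nat_lit 203) (nat_lit 156))) (PT.nd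 (nat_lit 78) (PT.lf (nat_lit 28348) (nat_lit 6) (nat_lit 373) (nat_lit 0) (nat_lit 212) (nat_lit 203) (nat_lit 155)) (PT.nd (nat_lit 78) (PT.lf (nat_lit 27512) (nat_lit 6) (nat_lit 362) (nat_lit 0) (nat_lit 213) (nat_lit 203) (nat_lit 154)) (PT.lf (nat_lit 26752) (nat_lit 6) (nat_lit 352) (nat_lit 0) (nat_lit 214) (nat_lit 203) (nat_lit 153))))))))
noncomputable def pc77 : PT := (PT.nd (nat_lit 54912) (PT.nd (nat_lit 54288) (PT.nd (nat_lit 312) (PT.nd (nat_lit 156) (PT.nd (nat_lit 78) (PT.lf (nat_lit 25992) (nat_lit 6) (nat_lit 342) (nat_lit 0) (nat_lit 215) (nat_lit 203) (nat_lit 152)) (PT.lf (nat_lit 25232) (nat_lit 6) (nat_lit 332) (nat_lit 0) (nat_lit 216) (nat_lit 203) (nat_lit 151))) (PT.nd (nat_lit 78) (PT.lf (nat_lit 24472) (nat_lit 6) (nat_lit 322) (nat_lit 0) (nat_lit 217) (nat_lit 203) (nat_lit 150)) (PT.lf (nat_lit 23788) (nat_lit 6) (nat_lit 313) (nat_lit 0) (nat_lit 218) (nat_lit 203) (nat_lit 149)))) (PT.nd (nat_lit 53820)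 (PT.nd (nat_lit 53742) (PT.lf (nat_lit 23104) (nat_lit 6) (nat_lit 304) (nat_lit 0) (nat_lit 219) (nat_lit 203) (nat_lit 148)) (PT.lf (nat_lit 22496) (nat_lit 6) (nat_lit 296) (nat_lit 5) (nat_lit 147) (nat_lit 204) (nat_lit 219))) (PT.nd (nat_lit 78) (PT.lf (nat_lit 23180) (nat_lit 6) (nat_lit 305) (nat_lit 5) (nat_lit 148) (nat_lit 204) (nat_lit 218)) (PT.lf (nat_lit 23864) (nat_lit 6) (nat_lit 314) (nat_lit 5) (nat_lit 149) (nat_lit 204) (nat_lit 217))))) (PT.nd (nat_lit 312) (PT.nd (nat_lit 156) (PT.nd (nat_lit 78) (PT.lf (nat_lit 24548) (nat_lit 6) (nat_lit 323) (nat_lit 5) (nat_lit 150) (nat_lit 204) (nat_lit 216)) (PT.lf (nat_lit 25308) (nat_lit 6) (nat_lit 333) (nat_lit 5) (nat_lit 151) (nat_lit 204) (nat_lit 215))) (PT.nd (nat_lit 78) (PT.lf (nat_lit 26068) (nat_lit 6) (nat_lit 343) (nat_lit 5) (nat_lit 152) (nat_lit 204) (nat_lit 214)) (PT.lf (nat_lit 26828) (nat_lit 6) (nat_lit 353) (nat_lit 5) (nat_lit 153) (nat_lit 204) (nat_lit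 213)))) (PT.nd (nat_lit 156) (PT.nd (nat_lit 78) (PT.lf (nat_lit 27588) (nat_lit 6) (nat_lit 363) (nat_lit 5) (nat_lit 154) (nat_lit 204) (nat_lit 212)) (PT.lf (nat_lit 28424) (nat_lit 6) (nat_lit 374) (nat_lit 5) (nat_lit 155) (nat_lit 204) (nat_lit 211))) (PT.nd (nat_lit 78) (PT.lf (nat_lit 29260) (nat_lit 6) (nat_lit 385) (nat_lit 5) (nat_lit 156) (nat_lit 204) (nat_lit 210)) (PT.lf (nat_lit 30096) (nat_lit 6) (nat_lit 396) (nat_lit 5) (nat_lit 157) (nat_lit 204) (nat_lit 209)))))) (PT.nd (nat_lit 624) (PT.nd (nat_lit 312) (PT.nd (nat_lit 156) (PT.nd (nat_lit 78) (PT.lf (nat_lit 30932) (nat_lit 6) (nat_lit 407) (nat_lit 5) (nat_lit 158) (nat_lit 204) (nat_lit 208)) (PT.lf (nat_lit 31844) (nat_lit 6) (nat_lit 419) (nat_lit 5) (nat_lit 159) (nat_lit 204) (nat_lit 207))) (PT.nd (nat_lit 78) (PT.lf (nat_lit 32756) (nat_lit 6) (nat_lit 431) (nat_lit 5) (nat_lit 160) (nat_lit 204) (nat_lit 206)) (PT.lf (nat_lit 33744) (nat_lit 6) (nat_lit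 444) (nat_lit 5) (nat_lit 161) (nat_lit 204) (nat_lit 205)))) (PT.nd (nat_lit 156) (PT.nd (nat_lit 78) (PT.lf (nat_lit 34656) (nat_lit 3) (nat_lit 456) (nat_lit 4) (nat_lit 162) (nat_lit 204) (nat_lit 204)) (PT.lf (nat_lit 35568) (nat_lit 6) (nat_lit 468) (nat_lit 4) (nat_lit 163) (nat_lit 204) (nat_lit 203))) (PT.nd (nat_lit 78) (PT.lf (nat_lit 36480) (nat_lit 6) (nat_lit 480) (nat_lit 4) (nat_lit 164) (nat_lit 204) (nat_lit 202)) (PT.lf (nat_lit 37620) (nat_lit 6) (nat_lit 495) (nat_lit 4) (nat_lit 165) (nat_lit 204) (nat_lit 201))))) (PT.nd (nat_lit 312) (PT.nd (nat_lit 156) (PT.nd (nat_lit 78) (PT.lf (nat_lit 39444) (nat_lit 6) (nat_lit 519) (nat_lit 4) (nat_lit 166) (nat_lit 204) (nat_lit 200)) (PT.lf (nat_lit 41192) (nat_lit 6) (nat_lit 542) (nat_lit 4) (nat_lit 167) (nat_lit 204) (nat_lit 199))) (PT.nd (nat_lit 78) (PT.lf (nat_lit 42864) (nat_lit 6) (nat_lit 564) (nat_lit 4) (nat_lit 168) (nat_lit 204) (nat_lit 198)) (PT.lf (nat_lit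 44460) (nat_lit 6) (nat_lit 585) (nat_lit 4) (nat_lit 169) (nat_lit 204) (nat_lit 197)))) (PT.nd (nat_lit 156) (PT.nd (nat_lit 78) (PT.lf (nat_lit 45980) (nat_lit 6) (nat_lit 605) (nat_lit 4) (nat_lit 170) (nat_lit 204) (nat_lit 196)) (PT.lf (nat_lit 47424) (nat_lit 6) (nat_lit 624) (nat_lit 4) (nat_lit 171) (nat_lit 204) (nat_lit 195))) (PT.nd (nat_lit 78) (PT.lf (nat_lit 48792) (nat_lit 6) (nat_lit 642) (nat_lit 4) (nat_lit 172) (nat_lit 204) (nat_lit 194)) (PT.nd (nat_lit 78) (PT.lf (nat_lit 50084) (nat_lit 6) (nat_lit 659) (nat_lit 4) (nat_lit 173) (nat_lit 204) (nat_lit 193)) (PT.lf (nat_lit 51300) (nat_lit 6) (nat_lit 675) (nat_lit 4) (nat_lit 174) (nat_lit 204) (nat_lit 192))))))))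
noncomputable def pc78 : PT := (PT.nd (nat_lit 1248) (PT.nd (nat_lit 624) (PT.nd (nat_lit 312) (PT.nd (nat_lit 156) (PT.nd (nat_lit 78) (PT.lf (nat_lit 52440) (nat_lit 6) (nat_lit 690) (nat_lit 4) (nat_lit 175) (nat_lit 204) (nat_lit 191)) (PT.lf (nat_lit 53504) (nat_lit 6) (nat_lit 704) (nat_lit 4) (nat_lit 176) (nat_lit 204) (nat_lit 190))) (PT.nd (nat_lit 78) (PT.lf (nat_lit 53428) (nat_lit 6) (nat_lit 703) (nat_lit 4) (nat_lit 177) (nat_lit 204) (nat_lit 189)) (PT.lf (nat_lit 53352) (nat_lit 6) (nat_lit 702) (nat_lit 4) (nat_lit 178) (nat_lit 204) (nat_lit 188)))) (PT.nd (nat_lit 156) (PT.nd (nat_lit 78) (PT.lf (nat_lit 53276) (nat_lit 6) (nat_lit 701) (nat_lit 4) (nat_lit 179) (nat_lit 204) (nat_lit 187)) (PT.lf (nat_lit 53200) (nat_lit 6) (nat_lit 700) (nat_lit 4) (nat_lit 180) (nat_lit 204) (nat_lit 186))) (PT.nd (nat_lit 78) (PT.lf (nat_lit 53124) (nat_lit 6) (nat_lit 699) (nat_lit 4) (nat_lit 181) (nat_lit 204) (nat_lit 185))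 (PT.lf (nat_lit 53048) (nat_lit 6) (nat_lit 698) (nat_lit 4) (nat_lit 182) (nat_lit 204) (nat_lit 184))))) (PT.nd (nat_lit 312) (PT.nd (nat_lit 156) (PT.nd (nat_lit 78) (PT.lf (nat_lit 52972) (nat_lit 3) (nat_lit 697) (nat_lit 2) (nat_lit 183) (nat_lit 204) (nat_lit 183)) (PT.lf (nat_lit 53048) (nat_lit 6) (nat_lit 698) (nat_lit 2) (nat_lit 184) (nat_lit 204) (nat_lit 182))) (PT.nd (nat_lit 78) (PT.lf (nat_lit 53124) (nat_lit 6) (nat_lit 699) (nat_lit 2) (nat_lit 185) (nat_lit 204) (nat_lit 181)) (PT.lf (nat_lit 53200) (nat_lit 6) (nat_lit 700) (nat_lit 2) (nat_lit 186) (nat_lit 204) (nat_lit 180)))) (PT.nd (nat_lit 156) (PT.nd (nat_lit 78) (PT.lf (nat_lit 53276) (nat_lit 6) (nat_lit 701) (nat_lit 2) (nat_lit 187) (nat_lit 204) (nat_lit 179)) (PT.lf (nat_lit 53352) (nat_lit 6) (nat_lit 702) (nat_lit 2) (nat_lit 188) (nat_lit 204) (nat_lit 178))) (PT.nd (nat_lit 78) (PT.lf (nat_lit 53428) (nat_lit 6) (nat_lit 703) (nat_lit 2) (nat_lit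 189) (nat_lit 204) (nat_lit 177)) (PT.lf (nat_lit 53504) (nat_lit 6) (nat_lit 704) (nat_lit 2) (nat_lit 190) (nat_lit 204) (nat_lit 176)))))) (PT.nd (nat_lit 624) (PT.nd (nat_lit 312) (PT.nd (nat_lit 156) (PT.nd (nat_lit 78) (PT.lf (nat_lit 52440) (nat_lit 6) (nat_lit 690) (nat_lit 2) (nat_lit 191) (nat_lit 204) (nat_lit 175)) (PT.lf (nat_lit 51300) (nat_lit 6) (nat_lit 675) (nat_lit 2) (nat_lit 192) (nat_lit 204) (nat_lit 174))) (PT.nd (nat_lit 78) (PT.lf (nat_lit 50084) (nat_lit 6) (nat_lit 659) (nat_lit 2) (nat_lit 193) (nat_lit 204) (nat_lit 173)) (PT.lf (nat_lit 48792) (nat_lit 6) (nat_lit 642) (nat_lit 2) (nat_lit 194) (nat_lit 204) (nat_lit 172)))) (PT.nd (nat_lit 156) (PT.nd (nat_lit 78) (PT.lf (nat_lit 47424) (nat_lit 6) (nat_lit 624) (nat_lit 2) (nat_lit 195) (nat_lit 204) (nat_lit 171)) (PT.lf (nat_lit 45980) (nat_lit 6) (nat_lit 605) (nat_lit 2) (nat_lit 196) (nat_lit 204) (nat_lit 170))) (PT.nd (nat_lit 78) (PT.lf (nat_lit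 44460) (nat_lit 6) (nat_lit 585) (nat_lit 2) (nat_lit 197) (nat_lit 204) (nat_lit 169)) (PT.lf (nat_lit 42864) (nat_lit 6) (nat_lit 564) (nat_lit 2) (nat_lit 198) (nat_lit 204) (nat_lit 168))))) (PT.nd (nat_lit 312) (PT.nd (nat_lit 156) (PT.nd (nat_lit 78) (PT.lf (nat_lit 41192) (nat_lit 6) (nat_lit 542) (nat_lit 2) (nat_lit 199) (nat_lit 204) (nat_lit 167)) (PT.lf (nat_lit 39444) (nat_lit 6) (nat_lit 519) (nat_lit 2) (nat_lit 200) (nat_lit 204) (nat_lit 166))) (PT.nd (nat_lit 78) (PT.lf (nat_lit 37620) (nat_lit 6) (nat_lit 495) (nat_lit 2) (nat_lit 201) (nat_lit 204) (nat_lit 165)) (PT.lf (nat_lit 36480) (nat_lit 6) (nat_lit 480) (nat_lit 2) (nat_lit 202) (nat_lit 204) (nat_lit 164)))) (PT.nd (nat_lit 156) (PT.nd (nat_lit 78) (PT.lf (nat_lit 35568) (nat_lit 6) (nat_lit 468) (nat_lit 2) (nat_lit 203) (nat_lit 204) (nat_lit 163)) (PT.lf (nat_lit 34656) (nat_lit 3) (nat_lit 456) (nat_lit 0) (nat_lit 204) (nat_lit 204) (nat_lit 162))) (PT.nd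 (nat_lit 78) (PT.lf (nat_lit 33744) (nat_lit 6) (nat_lit 444) (nat_lit 0) (nat_lit 205) (nat_lit 204) (nat_lit 161)) (PT.nd (nat_lit 78) (PT.lf (nat_lit 32756) (nat_lit 6) (nat_lit 431) (nat_lit 0) (nat_lit 206) (nat_lit 204) (nat_lit 160)) (PT.lf (nat_lit 31844) (nat_lit 6) (nat_lit 419) (nat_lit 0) (nat_lit 207) (nat_lit 204) (nat_lit 159))))))))
noncomputable def pc79 : PT := (PT.nd (nat_lit 54756) (PT.nd (nat_lit 624) (PT.nd (nat_lit 312) (PT.nd (nat_lit 156) (PT.nd (nat_lit 78) (PT.lf (nat_lit 30932) (nat_lit 6) (nat_lit 407) (nat_lit 0) (nat_lit 208) (nat_lit 204) (nat_lit 158)) (PT.lf (nat_lit 30096) (nat_lit 6) (nat_lit 396) (nat_lit 0) (nat_lit 209) (nat_lit 204) (nat_lit 157))) (PT.nd (nat_lit 78) (PT.lf (nat_lit 29260) (nat_lit 6) (nat_lit 385) (nat_lit 0) (nat_lit 210) (nat_lit 204) (nat_lit 156)) (PT.lf (nat_lit 28424) (nat_lit 6) (nat_lit 374) (nat_lit 0) (nat_lit 211) (nat_lit 204) (nat_lit 155)))) (PT.nd (nat_lit 156)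 (PT.nd (nat_lit 78) (PT.lf (nat_lit 27588) (nat_lit 6) (nat_lit 363) (nat_lit 0) (nat_lit 212) (nat_lit 204) (nat_lit 154)) (PT.lf (nat_lit 26828) (nat_lit 6) (nat_lit 353) (nat_lit 0) (nat_lit 213) (nat_lit 204) (nat_lit 153))) (PT.nd (nat_lit 78) (PT.lf (nat_lit 26068) (nat_lit 6) (nat_lit 343) (nat_lit 0) (nat_lit 214) (nat_lit 204) (nat_lit 152)) (PT.lf (nat_lit 25308) (nat_lit 6) (nat_lit 333) (nat_lit 0) (nat_lit 215) (nat_lit 204) (nat_lit 151))))) (PT.nd (nat_lit 53820) (PT.nd (nat_lit 156) (PT.nd (nat_lit 78) (PT.lf (nat_lit 24548) (nat_lit 6) (nat_lit 323) (nat_lit 0) (nat_lit 216) (nat_lit 204) (nat_lit 150)) (PT.lf (nat_lit 23864) (nat_lit 6) (nat_lit 314) (nat_lit 0) (nat_lit 217) (nat_lit 204) (nat_lit 149))) (PT.nd (nat_lit 78) (PT.lf (nat_lit 23180) (nat_lit 6) (nat_lit 305) (nat_lit 0) (nat_lit 218) (nat_lit 204) (nat_lit 148)) (PT.lf (nat_lit 22496) (nat_lit 6) (nat_lit 296) (nat_lit 0) (nat_lit 219) (nat_lit 204) (nat_lit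 147)))) (PT.nd (nat_lit 156) (PT.nd (nat_lit 78) (PT.lf (nat_lit 21280) (nat_lit 6) (nat_lit 280) (nat_lit 5) (nat_lit 145) (nat_lit 205) (nat_lit 220)) (PT.lf (nat_lit 21888) (nat_lit 6) (nat_lit 288) (nat_lit 5) (nat_lit 146) (nat_lit 205) (nat_lit 219))) (PT.nd (nat_lit 78) (PT.lf (nat_lit 22572) (nat_lit 6) (nat_lit 297) (nat_lit 5) (nat_lit 147) (nat_lit 205) (nat_lit 218)) (PT.lf (nat_lit 23256) (nat_lit 6) (nat_lit 306) (nat_lit 5) (nat_lit 148) (nat_lit 205) (nat_lit 217)))))) (PT.nd (nat_lit 624) (PT.nd (nat_lit 312) (PT.nd (nat_lit 156) (PT.nd (nat_lit 78) (PT.lf (nat_lit 23940) (nat_lit 6) (nat_lit 315) (nat_lit 5) (nat_lit 149) (nat_lit 205) (nat_lit 216)) (PT.lf (nat_lit 24624) (nat_lit 6) (nat_lit 324) (nat_lit 5) (nat_lit 150) (nat_lit 205) (nat_lit 215))) (PT.nd (nat_lit 78) (PT.lf (nat_lit 25384) (nat_lit 6) (nat_lit 334) (nat_lit 5) (nat_lit 151) (nat_lit 205) (nat_lit 214)) (PT.lf (nat_lit 26144) (nat_lit 6) (nat_lit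 344) (nat_lit 5) (nat_lit 152) (nat_lit 205) (nat_lit 213)))) (PT.nd (nat_lit 156) (PT.nd (nat_lit 78) (PT.lf (nat_lit 26904) (nat_lit 6) (nat_lit 354) (nat_lit 5) (nat_lit 153) (nat_lit 205) (nat_lit 212)) (PT.lf (nat_lit 27664) (nat_lit 6) (nat_lit 364) (nat_lit 5) (nat_lit 154) (nat_lit 205) (nat_lit 211))) (PT.nd (nat_lit 78) (PT.lf (nat_lit 28500) (nat_lit 6) (nat_lit 375) (nat_lit 5) (nat_lit 155) (nat_lit 205) (nat_lit 210)) (PT.lf (nat_lit 29336) (nat_lit 6) (nat_lit 386) (nat_lit 5) (nat_lit 156) (nat_lit 205) (nat_lit 209))))) (PT.nd (nat_lit 312) (PT.nd (nat_lit 156) (PT.nd (nat_lit 78) (PT.lf (nat_lit 30172) (nat_lit 6) (nat_lit 397) (nat_lit 5) (nat_lit 157) (nat_lit 205) (nat_lit 208)) (PT.lf (nat_lit 31008) (nat_lit 6) (nat_lit 408) (nat_lit 5) (nat_lit 158) (nat_lit 205) (nat_lit 207))) (PT.nd (nat_lit 78) (PT.lf (nat_lit 31920) (nat_lit 6) (nat_lit 420) (nat_lit 5) (nat_lit 159) (nat_lit 205) (nat_lit 206)) (PT.lf (nat_lit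 32832) (nat_lit 3) (nat_lit 432) (nat_lit 4) (nat_lit 160) (nat_lit 205) (nat_lit 205)))) (PT.nd (nat_lit 156) (PT.nd (nat_lit 78) (PT.lf (nat_lit 33744) (nat_lit 6) (nat_lit 444) (nat_lit 4) (nat_lit 161) (nat_lit 205) (nat_lit 204)) (PT.lf (nat_lit 34580) (nat_lit 6) (nat_lit 455) (nat_lit 4) (nat_lit 162) (nat_lit 205) (nat_lit 203))) (PT.nd (nat_lit 78) (PT.lf (nat_lit 35492) (nat_lit 6) (nat_lit 467) (nat_lit 4) (nat_lit 163) (nat_lit 205) (nat_lit 202)) (PT.nd (nat_lit 78) (PT.lf (nat_lit 36404) (nat_lit 6) (nat_lit 479) (nat_lit 4) (nat_lit 164) (nat_lit 205) (nat_lit 201)) (PT.lf (nat_lit 37544) (nat_lit 6) (nat_lit 494) (nat_lit 4) (nat_lit 165) (nat_lit 205) (nat_lit 200))))))))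
noncomputable def pc80 : PT := (PT.nd (nat_lit 1248) (PT.nd (nat_lit 624) (PT.nd (nat_lit 312) (PT.nd (nat_lit 156) (PT.nd (nat_lit 78) (PT.lf (nat_lit 39368) (nat_lit 6) (nat_lit 518) (nat_lit 4) (nat_lit 166) (nat_lit 205) (nat_lit 199)) (PT.lf (nat_lit 41116) (nat_lit 6) (nat_lit 541) (nat_lit 4) (nat_lit 167) (nat_lit 205) (nat_lit 198))) (PT.nd (nat_lit 78) (PT.lf (nat_lit 42788) (nat_lit 6) (nat_lit 563) (nat_lit 4) (nat_lit 168) (nat_lit 205) (nat_lit 197)) (PT.lf (nat_lit 44384) (nat_lit 6) (nat_lit 584) (nat_lit 4) (nat_lit 169) (nat_lit 205) (nat_lit 196)))) (PT.nd (nat_lit 156) (PT.nd (nat_lit 78) (PT.lf (nat_lit 45904) (nat_lit 6) (nat_lit 604) (nat_lit 4) (nat_lit 170) (nat_lit 205) (nat_lit 195)) (PT.lf (nat_lit 47348) (nat_lit 6) (nat_lit 623) (nat_lit 4) (nat_lit 171) (nat_lit 205) (nat_lit 194))) (PT.nd (nat_lit 78) (PT.lf (nat_lit 48716) (nat_lit 6) (nat_lit 641) (nat_lit 4) (nat_lit 172) (nat_lit 205) (nat_lit 193))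 (PT.lf (nat_lit 50008) (nat_lit 6) (nat_lit 658) (nat_lit 4) (nat_lit 173) (nat_lit 205) (nat_lit 192))))) (PT.nd (nat_lit 312) (PT.nd (nat_lit 156) (PT.nd (nat_lit 78) (PT.lf (nat_lit 51224) (nat_lit 6) (nat_lit 674) (nat_lit 4) (nat_lit 174) (nat_lit 205) (nat_lit 191)) (PT.lf (nat_lit 52364) (nat_lit 6) (nat_lit 689) (nat_lit 4) (nat_lit 175) (nat_lit 205) (nat_lit 190))) (PT.nd (nat_lit 78) (PT.lf (nat_lit 52288) (nat_lit 6) (nat_lit 688) (nat_lit 4) (nat_lit 176) (nat_lit 205) (nat_lit 189)) (PT.lf (nat_lit 52212) (nat_lit 6) (nat_lit 687) (nat_lit 4) (nat_lit 177) (nat_lit 205) (nat_lit 188)))) (PT.nd (nat_lit 156) (PT.nd (nat_lit 78) (PT.lf (nat_lit 52136) (nat_lit 6) (nat_lit 686) (nat_lit 4) (nat_lit 178) (nat_lit 205) (nat_lit 187)) (PT.lf (nat_lit 52060) (nat_lit 6) (nat_lit 685) (nat_lit 4) (nat_lit 179) (nat_lit 205) (nat_lit 186))) (PT.nd (nat_lit 78) (PT.lf (nat_lit 51984) (nat_lit 6) (nat_lit 684) (nat_lit 4) (nat_lit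 180) (nat_lit 205) (nat_lit 185)) (PT.lf (nat_lit 51908) (nat_lit 6) (nat_lit 683) (nat_lit 4) (nat_lit 181) (nat_lit 205) (nat_lit 184)))))) (PT.nd (nat_lit 624) (PT.nd (nat_lit 312) (PT.nd (nat_lit 156) (PT.nd (nat_lit 78) (PT.lf (nat_lit 51832) (nat_lit 6) (nat_lit 682) (nat_lit 4) (nat_lit 182) (nat_lit 205) (nat_lit 183)) (PT.lf (nat_lit 51832) (nat_lit 6) (nat_lit 682) (nat_lit 2) (nat_lit 183) (nat_lit 205) (nat_lit 182))) (PT.nd (nat_lit 78) (PT.lf (nat_lit 51908) (nat_lit 6) (nat_lit 683) (nat_lit 2) (nat_lit 184) (nat_lit 205) (nat_lit 181)) (PT.lf (nat_lit 51984) (nat_lit 6) (nat_lit 684) (nat_lit 2) (nat_lit 185) (nat_lit 205) (nat_lit 180)))) (PT.nd (nat_lit 156) (PT.nd (nat_lit 78) (PT.lf (nat_lit 52060) (nat_lit 6) (nat_lit 685) (nat_lit 2) (nat_lit 186) (nat_lit 205) (nat_lit 179)) (PT.lf (nat_lit 52136) (nat_lit 6) (nat_lit 686) (nat_lit 2) (nat_lit 187) (nat_lit 205) (nat_lit 178))) (PT.nd (nat_lit 78) (PT.lf (nat_lit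 52212) (nat_lit 6) (nat_lit 687) (nat_lit 2) (nat_lit 188) (nat_lit 205) (nat_lit 177)) (PT.lf (nat_lit 52288) (nat_lit 6) (nat_lit 688) (nat_lit 2) (nat_lit 189) (nat_lit 205) (nat_lit 176))))) (PT.nd (nat_lit 312) (PT.nd (nat_lit 156) (PT.nd (nat_lit 78) (PT.lf (nat_lit 52364) (nat_lit 6) (nat_lit 689) (nat_lit 2) (nat_lit 190) (nat_lit 205) (nat_lit 175)) (PT.lf (nat_lit 51224) (nat_lit 6) (nat_lit 674) (nat_lit 2) (nat_lit 191) (nat_lit 205) (nat_lit 174))) (PT.nd (nat_lit 78) (PT.lf (nat_lit 50008) (nat_lit 6) (nat_lit 658) (nat_lit 2) (nat_lit 192) (nat_lit 205) (nat_lit 173)) (PT.lf (nat_lit 48716) (nat_lit 6) (nat_lit 641) (nat_lit 2) (nat_lit 193) (nat_lit 205) (nat_lit 172)))) (PT.nd (nat_lit 156) (PT.nd (nat_lit 78) (PT.lf (nat_lit 47348) (nat_lit 6) (nat_lit 623) (nat_lit 2) (nat_lit 194) (nat_lit 205) (nat_lit 171)) (PT.lf (nat_lit 45904) (nat_lit 6) (nat_lit 604) (nat_lit 2) (nat_lit 195) (nat_lit 205) (nat_lit 170))) (PT.nd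 (nat_lit 78) (PT.lf (nat_lit 44384) (nat_lit 6) (nat_lit 584) (nat_lit 2) (nat_lit 196) (nat_lit 205) (nat_lit 169)) (PT.lf (nat_lit 42788) (nat_lit 6) (nat_lit 563) (nat_lit 2) (nat_lit 197) (nat_lit 205) (nat_lit 168)))))))
noncomputable def pc81 : PT := (PT.nd (nat_lit 1248) (PT.nd (nat_lit 624) (PT.nd (nat_lit 312) (PT.nd (nat_lit 156) (PT.nd (nat_lit 78) (PT.lf (nat_lit 41116) (nat_lit 6) (nat_lit 541) (nat_lit 2) (nat_lit 198) (nat_lit 205) (nat_lit 167)) (PT.lf (nat_lit 39368) (nat_lit 6) (nat_lit 518) (nat_lit 2) (nat_lit 199) (nat_lit 205) (nat_lit 166))) (PT.nd (nat_lit 78) (PT.lf (nat_lit 37544) (nat_lit 6) (nat_lit 494) (nat_lit 2) (nat_lit 200) (nat_lit 205) (nat_lit 165)) (PT.lf (nat_lit 36404) (nat_lit 6) (nat_lit 479) (nat_lit 2) (nat_lit 201) (nat_lit 205) (nat_lit 164)))) (PT.nd (nat_lit 156) (PT.nd (nat_lit 78) (PT.lf (nat_lit 35492) (nat_lit 6) (nat_lit 467) (nat_lit 2) (nat_lit 202) (nat_lit 205) (nat_lit 163)) (PT.lf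 (nat_lit 34580) (nat_lit 6) (nat_lit 455) (nat_lit 2) (nat_lit 203) (nat_lit 205) (nat_lit 162))) (PT.nd (nat_lit 78) (PT.lf (nat_lit 33744) (nat_lit 6) (nat_lit 444) (nat_lit 2) (nat_lit 204) (nat_lit 205) (nat_lit 161)) (PT.lf (nat_lit 32832) (nat_lit 3) (nat_lit 432) (nat_lit 0) (nat_lit 205) (nat_lit 205) (nat_lit 160))))) (PT.nd (nat_lit 312) (PT.nd (nat_lit 156) (PT.nd (nat_lit 78) (PT.lf (nat_lit 31920) (nat_lit 6) (nat_lit 420) (nat_lit 0) (nat_lit 206) (nat_lit 205) (nat_lit 159)) (PT.lf (nat_lit 31008) (nat_lit 6) (nat_lit 408) (nat_lit 0) (nat_lit 207) (nat_lit 205) (nat_lit 158))) (PT.nd (nat_lit 78) (PT.lf (nat_lit 30172) (nat_lit 6) (nat_lit 397) (nat_lit 0) (nat_lit 208) (nat_lit 205) (nat_lit 157)) (PT.lf (nat_lit 29336) (nat_lit 6) (nat_lit 386) (nat_lit 0) (nat_lit 209) (nat_lit 205) (nat_lit 156)))) (PT.nd (nat_lit 156) (PT.nd (nat_lit 78) (PT.lf (nat_lit 28500) (nat_lit 6) (nat_lit 375) (nat_lit 0) (nat_lit 210) (nat_lit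 205) (nat_lit 155)) (PT.lf (nat_lit 27664) (nat_lit 6) (nat_lit 364) (nat_lit 0) (nat_lit 211) (nat_lit 205) (nat_lit 154))) (PT.nd (nat_lit 78) (PT.lf (nat_lit 26904) (nat_lit 6) (nat_lit 354) (nat_lit 0) (nat_lit 212) (nat_lit 205) (nat_lit 153)) (PT.lf (nat_lit 26144) (nat_lit 6) (nat_lit 344) (nat_lit 0) (nat_lit 213) (nat_lit 205) (nat_lit 152)))))) (PT.nd (nat_lit 53976) (PT.nd (nat_lit 312) (PT.nd (nat_lit 156) (PT.nd (nat_lit 78) (PT.lf (nat_lit 25384) (nat_lit 6) (nat_lit 334) (nat_lit 0) (nat_lit 214) (nat_lit 205) (nat_lit 151)) (PT.lf (nat_lit 24624) (nat_lit 6) (nat_lit 324) (nat_lit 0) (nat_lit 215) (nat_lit 205) (nat_lit 150))) (PT.nd (nat_lit 78) (PT.lf (nat_lit 23940) (nat_lit 6) (nat_lit 315) (nat_lit 0) (nat_lit 216) (nat_lit 205) (nat_lit 149)) (PT.lf (nat_lit 23256) (nat_lit 6) (nat_lit 306) (nat_lit 0) (nat_lit 217) (nat_lit 205) (nat_lit 148)))) (PT.nd (nat_lit 156) (PT.nd (nat_lit 78) (PT.lf (nat_lit 22572) (nat_lit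 6) (nat_lit 297) (nat_lit 0) (nat_lit 218) (nat_lit 205) (nat_lit 147)) (PT.lf (nat_lit 21888) (nat_lit 6) (nat_lit 288) (nat_lit 0) (nat_lit 219) (nat_lit 205) (nat_lit 146))) (PT.nd (nat_lit 53430) (PT.lf (nat_lit 21280) (nat_lit 6) (nat_lit 280) (nat_lit 0) (nat_lit 220) (nat_lit 205) (nat_lit 145)) (PT.lf (nat_lit 20672) (nat_lit 6) (nat_lit 272) (nat_lit 5) (nat_lit 144) (nat_lit 206) (nat_lit 220))))) (PT.nd (nat_lit 312) (PT.nd (nat_lit 156) (PT.nd (nat_lit 78) (PT.lf (nat_lit 21356) (nat_lit 6) (nat_lit 281) (nat_lit 5) (nat_lit 145) (nat_lit 206) (nat_lit 219)) (PT.lf (nat_lit 21964) (nat_lit 6) (nat_lit 289) (nat_lit 5) (nat_lit 146) (nat_lit 206) (nat_lit 218))) (PT.nd (nat_lit 78) (PT.lf (nat_lit 22648) (nat_lit 6) (nat_lit 298) (nat_lit 5) (nat_lit 147) (nat_lit 206) (nat_lit 217)) (PT.lf (nat_lit 23332) (nat_lit 6) (nat_lit 307) (nat_lit 5) (nat_lit 148) (nat_lit 206) (nat_lit 216)))) (PT.nd (nat_lit 156) (PT.nd (nat_lit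 78) (PT.lf (nat_lit 24016) (nat_lit 6) (nat_lit 316) (nat_lit 5) (nat_lit 149) (nat_lit 206) (nat_lit 215)) (PT.lf (nat_lit 24700) (nat_lit 6) (nat_lit 325) (nat_lit 5) (nat_lit 150) (nat_lit 206) (nat_lit 214))) (PT.nd (nat_lit 78) (PT.lf (nat_lit 25460) (nat_lit 6) (nat_lit 335) (nat_lit 5) (nat_lit 151) (nat_lit 206) (nat_lit 213)) (PT.nd (nat_lit 78) (PT.lf (nat_lit 26220) (nat_lit 6) (nat_lit 345) (nat_lit 5) (nat_lit 152) (nat_lit 206) (nat_lit 212)) (PT.lf (nat_lit 26980) (nat_lit 6) (nat_lit 355) (nat_lit 5) (nat_lit 153) (nat_lit 206) (nat_lit 211))))))))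
noncomputable def pc82 : PT := (PT.nd (nat_lit 1248) (PT.nd (nat_lit 624) (PT.nd (nat_lit 312) (PT.nd (nat_lit 156) (PT.nd (nat_lit 78) (PT.lf (nat_lit 27740) (nat_lit 6) (nat_lit 365) (nat_lit 5) (nat_lit 154) (nat_lit 206) (nat_lit 210)) (PT.lf (nat_lit 28576) (nat_lit 6) (nat_lit 376) (nat_lit 5) (nat_lit 155) (nat_lit 206) (nat_lit 209))) (PT.nd (nat_lit 78) (PT.lf (nat_lit 29412) (nat_lit 6) (nat_lit 387) (nat_lit 5) (nat_lit 156) (nat_lit 206) (nat_lit 208)) (PT.lf (nat_lit 30248) (nat_lit 6) (nat_lit 398) (nat_lit 5) (nat_lit 157) (nat_lit 206) (nat_lit 207)))) (PT.nd (nat_lit 156) (PT.nd (nat_lit 78) (PT.lf (nat_lit 31084) (nat_lit 3) (nat_lit 409) (nat_lit 4) (nat_lit 158) (nat_lit 206) (nat_lit 206)) (PT.lf (nat_lit 31920) (nat_lit 6) (nat_lit 420) (nat_lit 4) (nat_lit 159) (nat_lit 206) (nat_lit 205))) (PT.nd (nat_lit 78) (PT.lf (nat_lit 32756) (nat_lit 6) (nat_lit 431) (nat_lit 4) (nat_lit 160) (nat_lit 206) (nat_lit 204))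 (PT.lf (nat_lit 33668) (nat_lit 6) (nat_lit 443) (nat_lit 4) (nat_lit 161) (nat_lit 206) (nat_lit 203))))) (PT.nd (nat_lit 312) (PT.nd (nat_lit 156) (PT.nd (nat_lit 78) (PT.lf (nat_lit 34504) (nat_lit 6) (nat_lit 454) (nat_lit 4) (nat_lit 162) (nat_lit 206) (nat_lit 202)) (PT.lf (nat_lit 35416) (nat_lit 6) (nat_lit 466) (nat_lit 4) (nat_lit 163) (nat_lit 206) (nat_lit 201))) (PT.nd (nat_lit 78) (PT.lf (nat_lit 36328) (nat_lit 6) (nat_lit 478) (nat_lit 4) (nat_lit 164) (nat_lit 206) (nat_lit 200)) (PT.lf (nat_lit 37468) (nat_lit 6) (nat_lit 493) (nat_lit 4) (nat_lit 165) (nat_lit 206) (nat_lit 199)))) (PT.nd (nat_lit 156) (PT.nd (nat_lit 78) (PT.lf (nat_lit 39292) (nat_lit 6) (nat_lit 517) (nat_lit 4) (nat_lit 166) (nat_lit 206) (nat_lit 198)) (PT.lf (nat_lit 41040) (nat_lit 6) (nat_lit 540) (nat_lit 4) (nat_lit 167) (nat_lit 206) (nat_lit 197))) (PT.nd (nat_lit 78) (PT.lf (nat_lit 42712) (nat_lit 6) (nat_lit 562) (nat_lit 4) (nat_lit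 168) (nat_lit 206) (nat_lit 196)) (PT.lf (nat_lit 44308) (nat_lit 6) (nat_lit 583) (nat_lit 4) (nat_lit 169) (nat_lit 206) (nat_lit 195)))))) (PT.nd (nat_lit 624) (PT.nd (nat_lit 312) (PT.nd (nat_lit 156) (PT.nd (nat_lit 78) (PT.lf (nat_lit 45828) (nat_lit 6) (nat_lit 603) (nat_lit 4) (nat_lit 170) (nat_lit 206) (nat_lit 194)) (PT.lf (nat_lit 47272) (nat_lit 6) (nat_lit 622) (nat_lit 4) (nat_lit 171) (nat_lit 206) (nat_lit 193))) (PT.nd (nat_lit 78) (PT.lf (nat_lit 48640) (nat_lit 6) (nat_lit 640) (nat_lit 4) (nat_lit 172) (nat_lit 206) (nat_lit 192)) (PT.lf (nat_lit 49932) (nat_lit 6) (nat_lit 657) (nat_lit 4) (nat_lit 173) (nat_lit 206) (nat_lit 191)))) (PT.nd (nat_lit 156) (PT.nd (nat_lit 78) (PT.lf (nat_lit 51148) (nat_lit 6) (nat_lit 673) (nat_lit 4) (nat_lit 174) (nat_lit 206) (nat_lit 190)) (PT.lf (nat_lit 51072) (nat_lit 6) (nat_lit 672) (nat_lit 4) (nat_lit 175) (nat_lit 206) (nat_lit 189))) (PT.nd (nat_lit 78) (PT.lf (nat_lit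 50996) (nat_lit 6) (nat_lit 671) (nat_lit 4) (nat_lit 176) (nat_lit 206) (nat_lit 188)) (PT.lf (nat_lit 50920) (nat_lit 6) (nat_lit 670) (nat_lit 4) (nat_lit 177) (nat_lit 206) (nat_lit 187))))) (PT.nd (nat_lit 312) (PT.nd (nat_lit 156) (PT.nd (nat_lit 78) (PT.lf (nat_lit 50844) (nat_lit 6) (nat_lit 669) (nat_lit 4) (nat_lit 178) (nat_lit 206) (nat_lit 186)) (PT.lf (nat_lit 50768) (nat_lit 6) (nat_lit 668) (nat_lit 4) (nat_lit 179) (nat_lit 206) (nat_lit 185))) (PT.nd (nat_lit 78) (PT.lf (nat_lit 50692) (nat_lit 6) (nat_lit 667) (nat_lit 4) (nat_lit 180) (nat_lit 206) (nat_lit 184)) (PT.lf (nat_lit 50616) (nat_lit 6) (nat_lit 666) (nat_lit 4) (nat_lit 181) (nat_lit 206) (nat_lit 183)))) (PT.nd (nat_lit 156) (PT.nd (nat_lit 78) (PT.lf (nat_lit 50540) (nat_lit 3) (nat_lit 665) (nat_lit 2) (nat_lit 182) (nat_lit 206) (nat_lit 182)) (PT.lf (nat_lit 50616) (nat_lit 6) (nat_lit 666) (nat_lit 2) (nat_lit 183) (nat_lit 206) (nat_lit 181))) (PT.nd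 (nat_lit 78) (PT.lf (nat_lit 50692) (nat_lit 6) (nat_lit 667) (nat_lit 2) (nat_lit 184) (nat_lit 206) (nat_lit 180)) (PT.nd (nat_lit 78) (PT.lf (nat_lit 50768) (nat_lit 6) (nat_lit 668) (nat_lit 2) (nat_lit 185) (nat_lit 206) (nat_lit 179)) (PT.lf (nat_lit 50844) (nat_lit 6) (nat_lit 669) (nat_lit 2) (nat_lit 186) (nat_lit 206) (nat_lit 178))))))))
noncomputable def pc83 : PT := (PT.nd (nat_lit 1248) (PT.nd (nat_lit 624) (PT.nd (nat_lit 312) (PT.nd (nat_lit 156) (PT.nd (nat_lit 78) (PT.lf (nat_lit 50920) (nat_lit 6) (nat_lit 670) (nat_lit 2) (nat_lit 187) (nat_lit 206) (nat_lit 177)) (PT.lf (nat_lit 50996) (nat_lit 6) (nat_lit 671) (nat_lit 2) (nat_lit 188) (nat_lit 206) (nat_lit 176))) (PT.nd (nat_lit 78) (PT.lf (nat_lit 51072) (nat_lit 6) (nat_lit 672) (nat_lit 2) (nat_lit 189) (nat_lit 206) (nat_lit 175)) (PT.lf (nat_lit 51148) (nat_lit 6) (nat_lit 673) (nat_lit 2) (nat_lit 190) (nat_lit 206) (nat_lit 174)))) (PT.nd (nat_lit 156) (PT.nd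 (nat_lit 78) (PT.lf (nat_lit 49932) (nat_lit 6) (nat_lit 657) (nat_lit 2) (nat_lit 191) (nat_lit 206) (nat_lit 173)) (PT.lf (nat_lit 48640) (nat_lit 6) (nat_lit 640) (nat_lit 2) (nat_lit 192) (nat_lit 206) (nat_lit 172))) (PT.nd (nat_lit 78) (PT.lf (nat_lit 47272) (nat_lit 6) (nat_lit 622) (nat_lit 2) (nat_lit 193) (nat_lit 206) (nat_lit 171)) (PT.lf (nat_lit 45828) (nat_lit 6) (nat_lit 603) (nat_lit 2) (nat_lit 194) (nat_lit 206) (nat_lit 170))))) (PT.nd (nat_lit 312) (PT.nd (nat_lit 156) (PT.nd (nat_lit 78) (PT.lf (nat_lit 44308) (nat_lit 6) (nat_lit 583) (nat_lit 2) (nat_lit 195) (nat_lit 206) (nat_lit 169)) (PT.lf (nat_lit 42712) (nat_lit 6) (nat_lit 562) (nat_lit 2) (nat_lit 196) (nat_lit 206) (nat_lit 168))) (PT.nd (nat_lit 78) (PT.lf (nat_lit 41040) (nat_lit 6) (nat_lit 540) (nat_lit 2) (nat_lit 197) (nat_lit 206) (nat_lit 167)) (PT.lf (nat_lit 39292) (nat_lit 6) (nat_lit 517) (nat_lit 2) (nat_lit 198) (nat_lit 206) (nat_lit 166))))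 (PT.nd (nat_lit 156) (PT.nd (nat_lit 78) (PT.lf (nat_lit 37468) (nat_lit 6) (nat_lit 493) (nat_lit 2) (nat_lit 199) (nat_lit 206) (nat_lit 165)) (PT.lf (nat_lit 36328) (nat_lit 6) (nat_lit 478) (nat_lit 2) (nat_lit 200) (nat_lit 206) (nat_lit 164))) (PT.nd (nat_lit 78) (PT.lf (nat_lit 35416) (nat_lit 6) (nat_lit 466) (nat_lit 2) (nat_lit 201) (nat_lit 206) (nat_lit 163)) (PT.lf (nat_lit 34504) (nat_lit 6) (nat_lit 454) (nat_lit 2) (nat_lit 202) (nat_lit 206) (nat_lit 162)))))) (PT.nd (nat_lit 624) (PT.nd (nat_lit 312) (PT.nd (nat_lit 156) (PT.nd (nat_lit 78) (PT.lf (nat_lit 33668) (nat_lit 6) (nat_lit 443) (nat_lit 2) (nat_lit 203) (nat_lit 206) (nat_lit 161)) (PT.lf (nat_lit 32756) (nat_lit 6) (nat_lit 431) (nat_lit 2) (nat_lit 204) (nat_lit 206) (nat_lit 160))) (PT.nd (nat_lit 78) (PT.lf (nat_lit 31920) (nat_lit 6) (nat_lit 420) (nat_lit 2) (nat_lit 205) (nat_lit 206) (nat_lit 159)) (PT.lf (nat_lit 31084) (nat_lit 3) (nat_lit 409) (nat_lit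 0) (nat_lit 206) (nat_lit 206) (nat_lit 158)))) (PT.nd (nat_lit 156) (PT.nd (nat_lit 78) (PT.lf (nat_lit 30248) (nat_lit 6) (nat_lit 398) (nat_lit 0) (nat_lit 207) (nat_lit 206) (nat_lit 157)) (PT.lf (nat_lit 29412) (nat_lit 6) (nat_lit 387) (nat_lit 0) (nat_lit 208) (nat_lit 206) (nat_lit 156))) (PT.nd (nat_lit 78) (PT.lf (nat_lit 28576) (nat_lit 6) (nat_lit 376) (nat_lit 0) (nat_lit 209) (nat_lit 206) (nat_lit 155)) (PT.lf (nat_lit 27740) (nat_lit 6) (nat_lit 365) (nat_lit 0) (nat_lit 210) (nat_lit 206) (nat_lit 154))))) (PT.nd (nat_lit 312) (PT.nd (nat_lit 156) (PT.nd (nat_lit 78) (PT.lf (nat_lit 26980) (nat_lit 6) (nat_lit 355) (nat_lit 0) (nat_lit 211) (nat_lit 206) (nat_lit 153)) (PT.lf (nat_lit 26220) (nat_lit 6) (nat_lit 345) (nat_lit 0) (nat_lit 212) (nat_lit 206) (nat_lit 152))) (PT.nd (nat_lit 78) (PT.lf (nat_lit 25460) (nat_lit 6) (nat_lit 335) (nat_lit 0) (nat_lit 213) (nat_lit 206) (nat_lit 151)) (PT.lf (nat_lit 24700) (nat_lit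 6) (nat_lit 325) (nat_lit 0) (nat_lit 214) (nat_lit 206) (nat_lit 150)))) (PT.nd (nat_lit 156) (PT.nd (nat_lit 78) (PT.lf (nat_lit 24016) (nat_lit 6) (nat_lit 316) (nat_lit 0) (nat_lit 215) (nat_lit 206) (nat_lit 149)) (PT.lf (nat_lit 23332) (nat_lit 6) (nat_lit 307) (nat_lit 0) (nat_lit 216) (nat_lit 206) (nat_lit 148))) (PT.nd (nat_lit 78) (PT.lf (nat_lit 22648) (nat_lit 6) (nat_lit 298) (nat_lit 0) (nat_lit 217) (nat_lit 206) (nat_lit 147)) (PT.nd (nat_lit 78) (PT.lf (nat_lit 21964) (nat_lit 6) (nat_lit 289) (nat_lit 0) (nat_lit 218) (nat_lit 206) (nat_lit 146)) (PT.lf (nat_lit 21356) (nat_lit 6) (nat_lit 281) (nat_lit 0) (nat_lit 219) (nat_lit 206) (nat_lit 145))))))))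
noncomputable def pc84 : PT := (PT.nd (nat_lit 54444) (PT.nd (nat_lit 53820) (PT.nd (nat_lit 53508) (PT.nd (nat_lit 53352) (PT.nd (nat_lit 53274) (PT.lf (nat_lit 20672) (nat_lit 6) (nat_lit 272) (nat_lit 0) (nat_lit 220) (nat_lit 206) (nat_lit 144)) (PT.lf (nat_lit 19532) (nat_lit 6) (nat_lit 257) (nat_lit 5) (nat_lit 142) (nat_lit 207) (nat_lit 221))) (PT.nd (nat_lit 78) (PT.lf (nat_lit 20140) (nat_lit 6) (nat_lit 265) (nat_lit 5) (nat_lit 143) (nat_lit 207) (nat_lit 220)) (PT.lf (nat_lit 20748) (nat_lit 6) (nat_lit 273) (nat_lit 5) (nat_lit 144) (nat_lit 207) (nat_lit 219)))) (PT.nd (nat_lit 156) (PT.nd (nat_lit 78) (PT.lf (nat_lit 21432) (nat_lit 6) (nat_lit 282) (nat_lit 5) (nat_lit 145) (nat_lit 207) (nat_lit 218)) (PT.lf (nat_lit 22040) (nat_lit 6) (nat_lit 290) (nat_lit 5) (nat_lit 146) (nat_lit 207) (nat_lit 217))) (PT.nd (nat_lit 78) (PT.lf (nat_lit 22724) (nat_lit 6) (nat_lit 299) (nat_lit 5) (nat_lit 147) (nat_lit 207) (nat_lit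 216)) (PT.lf (nat_lit 23408) (nat_lit 6) (nat_lit 308) (nat_lit 5) (nat_lit 148) (nat_lit 207) (nat_lit 215))))) (PT.nd (nat_lit 312) (PT.nd (nat_lit 156) (PT.nd (nat_lit 78) (PT.lf (nat_lit 24092) (nat_lit 6) (nat_lit 317) (nat_lit 5) (nat_lit 149) (nat_lit 207) (nat_lit 214)) (PT.lf (nat_lit 24776) (nat_lit 6) (nat_lit 326) (nat_lit 5) (nat_lit 150) (nat_lit 207) (nat_lit 213))) (PT.nd (nat_lit 78) (PT.lf (nat_lit 25536) (nat_lit 6) (nat_lit 336) (nat_lit 5) (nat_lit 151) (nat_lit 207) (nat_lit 212)) (PT.lf (nat_lit 26296) (nat_lit 6) (nat_lit 346) (nat_lit 5) (nat_lit 152) (nat_lit 207) (nat_lit 211)))) (PT.nd (nat_lit 156) (PT.nd (nat_lit 78) (PT.lf (nat_lit 27056) (nat_lit 6) (nat_lit 356) (nat_lit 5) (nat_lit 153) (nat_lit 207) (nat_lit 210)) (PT.lf (nat_lit 27816) (nat_lit 6) (nat_lit 366) (nat_lit 5) (nat_lit 154) (nat_lit 207) (nat_lit 209))) (PT.nd (nat_lit 78) (PT.lf (nat_lit 28652) (nat_lit 6) (nat_lit 377) (nat_lit 5) (nat_lit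 155) (nat_lit 207) (nat_lit 208)) (PT.lf (nat_lit 29488) (nat_lit 3) (nat_lit 388) (nat_lit 4) (nat_lit 156) (nat_lit 207) (nat_lit 207)))))) (PT.nd (nat_lit 624) (PT.nd (nat_lit 312) (PT.nd (nat_lit 156) (PT.nd (nat_lit 78) (PT.lf (nat_lit 30248) (nat_lit 6) (nat_lit 398) (nat_lit 4) (nat_lit 157) (nat_lit 207) (nat_lit 206)) (PT.lf (nat_lit 31008) (nat_lit 6) (nat_lit 408) (nat_lit 4) (nat_lit 158) (nat_lit 207) (nat_lit 205))) (PT.nd (nat_lit 78) (PT.lf (nat_lit 31844) (nat_lit 6) (nat_lit 419) (nat_lit 4) (nat_lit 159) (nat_lit 207) (nat_lit 204)) (PT.lf (nat_lit 32680) (nat_lit 6) (nat_lit 430) (nat_lit 4) (nat_lit 160) (nat_lit 207) (nat_lit 203)))) (PT.nd (nat_lit 156) (PT.nd (nat_lit 78) (PT.lf (nat_lit 33592) (nat_lit 6) (nat_lit 442) (nat_lit 4) (nat_lit 161) (nat_lit 207) (nat_lit 202)) (PT.lf (nat_lit 34428) (nat_lit 6) (nat_lit 453) (nat_lit 4) (nat_lit 162) (nat_lit 207) (nat_lit 201))) (PT.nd (nat_lit 78) (PT.lf (nat_lit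 35340) (nat_lit 6) (nat_lit 465) (nat_lit 4) (nat_lit 163) (nat_lit 207) (nat_lit 200)) (PT.lf (nat_lit 36252) (nat_lit 6) (nat_lit 477) (nat_lit 4) (nat_lit 164) (nat_lit 207) (nat_lit 199))))) (PT.nd (nat_lit 312) (PT.nd (nat_lit 156) (PT.nd (nat_lit 78) (PT.lf (nat_lit 37392) (nat_lit 6) (nat_lit 492) (nat_lit 4) (nat_lit 165) (nat_lit 207) (nat_lit 198)) (PT.lf (nat_lit 39216) (nat_lit 6) (nat_lit 516) (nat_lit 4) (nat_lit 166) (nat_lit 207) (nat_lit 197))) (PT.nd (nat_lit 78) (PT.lf (nat_lit 40964) (nat_lit 6) (nat_lit 539) (nat_lit 4) (nat_lit 167) (nat_lit 207) (nat_lit 196)) (PT.lf (nat_lit 42636) (nat_lit 6) (nat_lit 561) (nat_lit 4) (nat_lit 168) (nat_lit 207) (nat_lit 195)))) (PT.nd (nat_lit 156) (PT.nd (nat_lit 78) (PT.lf (nat_lit 44232) (nat_lit 6) (nat_lit 582) (nat_lit 4) (nat_lit 169) (nat_lit 207) (nat_lit 194)) (PT.lf (nat_lit 45752) (nat_lit 6) (nat_lit 602) (nat_lit 4) (nat_lit 170) (nat_lit 207) (nat_lit 193))) (PT.nd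 (nat_lit 78) (PT.lf (nat_lit 47196) (nat_lit 6) (nat_lit 621) (nat_lit 4) (nat_lit 171) (nat_lit 207) (nat_lit 192)) (PT.lf (nat_lit 48564) (nat_lit 6) (nat_lit 639) (nat_lit 4) (nat_lit 172) (nat_lit 207) (nat_lit 191)))))))
noncomputable def pc85 : PT := (PT.nd (nat_lit 1248) (PT.nd (nat_lit 624) (PT.nd (nat_lit 312) (PT.nd (nat_lit 156) (PT.nd (nat_lit 78) (PT.lf (nat_lit 49856) (nat_lit 6) (nat_lit 656) (nat_lit 4) (nat_lit 173) (nat_lit 207) (nat_lit 190)) (PT.lf (nat_lit 49780) (nat_lit 6) (nat_lit 655) (nat_lit 4) (nat_lit 174) (nat_lit 207) (nat_lit 189))) (PT.nd (nat_lit 78) (PT.lf (nat_lit 49704) (nat_lit 6) (nat_lit 654) (nat_lit 4) (nat_lit 175) (nat_lit 207) (nat_lit 188)) (PT.lf (nat_lit 49628) (nat_lit 6) (nat_lit 653) (nat_lit 4) (nat_lit 176) (nat_lit 207) (nat_lit 187)))) (PT.nd (nat_lit 156) (PT.nd (nat_lit 78) (PT.lf (nat_lit 49552) (nat_lit 6) (nat_lit 652) (nat_lit 4) (nat_lit 177) (nat_lit 207) (nat_lit 186)) (PT.lf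 (nat_lit 49476) (nat_lit 6) (nat_lit 651) (nat_lit 4) (nat_lit 178) (nat_lit 207) (nat_lit 185))) (PT.nd (nat_lit 78) (PT.lf (nat_lit 49400) (nat_lit 6) (nat_lit 650) (nat_lit 4) (nat_lit 179) (nat_lit 207) (nat_lit 184)) (PT.lf (nat_lit 49324) (nat_lit 6) (nat_lit 649) (nat_lit 4) (nat_lit 180) (nat_lit 207) (nat_lit 183))))) (PT.nd (nat_lit 312) (PT.nd (nat_lit 156) (PT.nd (nat_lit 78) (PT.lf (nat_lit 49248) (nat_lit 6) (nat_lit 648) (nat_lit 4) (nat_lit 181) (nat_lit 207) (nat_lit 182)) (PT.lf (nat_lit 49248) (nat_lit 6) (nat_lit 648) (nat_lit 2) (nat_lit 182) (nat_lit 207) (nat_lit 181))) (PT.nd (nat_lit 78) (PT.lf (nat_lit 49324) (nat_lit 6) (nat_lit 649) (nat_lit 2) (nat_lit 183) (nat_lit 207) (nat_lit 180)) (PT.lf (nat_lit 49400) (nat_lit 6) (nat_lit 650) (nat_lit 2) (nat_lit 184) (nat_lit 207) (nat_lit 179)))) (PT.nd (nat_lit 156) (PT.nd (nat_lit 78) (PT.lf (nat_lit 49476) (nat_lit 6) (nat_lit 651) (nat_lit 2) (nat_lit 185) (nat_lit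 207) (nat_lit 178)) (PT.lf (nat_lit 49552) (nat_lit 6) (nat_lit 652) (nat_lit 2) (nat_lit 186) (nat_lit 207) (nat_lit 177))) (PT.nd (nat_lit 78) (PT.lf (nat_lit 49628) (nat_lit 6) (nat_lit 653) (nat_lit 2) (nat_lit 187) (nat_lit 207) (nat_lit 176)) (PT.lf (nat_lit 49704) (nat_lit 6) (nat_lit 654) (nat_lit 2) (nat_lit 188) (nat_lit 207) (nat_lit 175)))))) (PT.nd (nat_lit 624) (PT.nd (nat_lit 312) (PT.nd (nat_lit 156) (PT.nd (nat_lit 78) (PT.lf (nat_lit 49780) (nat_lit 6) (nat_lit 655) (nat_lit 2) (nat_lit 189) (nat_lit 207) (nat_lit 174)) (PT.lf (nat_lit 49856) (nat_lit 6) (nat_lit 656) (nat_lit 2) (nat_lit 190) (nat_lit 207) (nat_lit 173))) (PT.nd (nat_lit 78) (PT.lf (nat_lit 48564) (nat_lit 6) (nat_lit 639) (nat_lit 2) (nat_lit 191) (nat_lit 207) (nat_lit 172)) (PT.lf (nat_lit 47196) (nat_lit 6) (nat_lit 621) (nat_lit 2) (nat_lit 192) (nat_lit 207) (nat_lit 171)))) (PT.nd (nat_lit 156) (PT.nd (nat_lit 78) (PT.lf (nat_lit 45752) (nat_lit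 6) (nat_lit 602) (nat_lit 2) (nat_lit 193) (nat_lit 207) (nat_lit 170)) (PT.lf (nat_lit 44232) (nat_lit 6) (nat_lit 582) (nat_lit 2) (nat_lit 194) (nat_lit 207) (nat_lit 169))) (PT.nd (nat_lit 78) (PT.lf (nat_lit 42636) (nat_lit 6) (nat_lit 561) (nat_lit 2) (nat_lit 195) (nat_lit 207) (nat_lit 168)) (PT.lf (nat_lit 40964) (nat_lit 6) (nat_lit 539) (nat_lit 2) (nat_lit 196) (nat_lit 207) (nat_lit 167))))) (PT.nd (nat_lit 312) (PT.nd (nat_lit 156) (PT.nd (nat_lit 78) (PT.lf (nat_lit 39216) (nat_lit 6) (nat_lit 516) (nat_lit 2) (nat_lit 197) (nat_lit 207) (nat_lit 166)) (PT.lf (nat_lit 37392) (nat_lit 6) (nat_lit 492) (nat_lit 2) (nat_lit 198) (nat_lit 207) (nat_lit 165))) (PT.nd (nat_lit 78) (PT.lf (nat_lit 36252) (nat_lit 6) (nat_lit 477) (nat_lit 2) (nat_lit 199) (nat_lit 207) (nat_lit 164)) (PT.lf (nat_lit 35340) (nat_lit 6) (nat_lit 465) (nat_lit 2) (nat_lit 200) (nat_lit 207) (nat_lit 163)))) (PT.nd (nat_lit 156) (PT.nd (nat_lit 78)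 (PT.lf (nat_lit 34428) (nat_lit 6) (nat_lit 453) (nat_lit 2) (nat_lit 201) (nat_lit 207) (nat_lit 162)) (PT.lf (nat_lit 33592) (nat_lit 6) (nat_lit 442) (nat_lit 2) (nat_lit 202) (nat_lit 207) (nat_lit 161))) (PT.nd (nat_lit 78) (PT.lf (nat_lit 32680) (nat_lit 6) (nat_lit 430) (nat_lit 2) (nat_lit 203) (nat_lit 207) (nat_lit 160)) (PT.nd (nat_lit 78) (PT.lf (nat_lit 31844) (nat_lit 6) (nat_lit 419) (nat_lit 2) (nat_lit 204) (nat_lit 207) (nat_lit 159)) (PT.lf (nat_lit 31008) (nat_lit 6) (nat_lit 408) (nat_lit 2) (nat_lit 205) (nat_lit 207) (nat_lit 158))))))))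
noncomputable def pc86 : PT := (PT.nd (nat_lit 54288) (PT.nd (nat_lit 624) (PT.nd (nat_lit 312) (PT.nd (nat_lit 156) (PT.nd (nat_lit 78) (PT.lf (nat_lit 30248) (nat_lit 6) (nat_lit 398) (nat_lit 2) (nat_lit 206) (nat_lit 207) (nat_lit 157)) (PT.lf (nat_lit 29488) (nat_lit 3) (nat_lit 388) (nat_lit 0) (nat_lit 207) (nat_lit 207) (nat_lit 156))) (PT.nd (nat_lit 78) (PT.lf (nat_lit 28652) (nat_lit 6) (nat_lit 377) (nat_lit 0) (nat_lit 208) (nat_lit 207) (nat_lit 155)) (PT.lf (nat_lit 27816) (nat_lit 6) (nat_lit 366) (nat_lit 0) (nat_lit 209) (nat_lit 207) (nat_lit 154)))) (PT.nd (nat_lit 156) (PT.nd (nat_lit 78) (PT.lf (nat_lit 27056) (nat_lit 6) (nat_lit 356) (nat_lit 0) (nat_lit 210) (nat_lit 207) (nat_lit 153)) (PT.lf (nat_lit 26296) (nat_lit 6) (nat_lit 346) (nat_lit 0) (nat_lit 211) (nat_lit 207) (nat_lit 152))) (PT.nd (nat_lit 78) (PT.lf (nat_lit 25536) (nat_lit 6) (nat_lit 336) (nat_lit 0) (nat_lit 212) (nat_lit 207) (nat_lit 151))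 (PT.lf (nat_lit 24776) (nat_lit 6) (nat_lit 326) (nat_lit 0) (nat_lit 213) (nat_lit 207) (nat_lit 150))))) (PT.nd (nat_lit 312) (PT.nd (nat_lit 156) (PT.nd (nat_lit 78) (PT.lf (nat_lit 24092) (nat_lit 6) (nat_lit 317) (nat_lit 0) (nat_lit 214) (nat_lit 207) (nat_lit 149)) (PT.lf (nat_lit 23408) (nat_lit 6) (nat_lit 308) (nat_lit 0) (nat_lit 215) (nat_lit 207) (nat_lit 148))) (PT.nd (nat_lit 78) (PT.lf (nat_lit 22724) (nat_lit 6) (nat_lit 299) (nat_lit 0) (nat_lit 216) (nat_lit 207) (nat_lit 147)) (PT.lf (nat_lit 22040) (nat_lit 6) (nat_lit 290) (nat_lit 0) (nat_lit 217) (nat_lit 207) (nat_lit 146)))) (PT.nd (nat_lit 156) (PT.nd (nat_lit 78) (PT.lf (nat_lit 21432) (nat_lit 6) (nat_lit 282) (nat_lit 0) (nat_lit 218) (nat_lit 207) (nat_lit 145)) (PT.lf (nat_lit 20748) (nat_lit 6) (nat_lit 273) (nat_lit 0) (nat_lit 219) (nat_lit 207) (nat_lit 144))) (PT.nd (nat_lit 78) (PT.lf (nat_lit 20140) (nat_lit 6) (nat_lit 265) (nat_lit 0) (nat_lit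 220) (nat_lit 207) (nat_lit 143)) (PT.lf (nat_lit 19532) (nat_lit 6) (nat_lit 257) (nat_lit 0) (nat_lit 221) (nat_lit 207) (nat_lit 142)))))) (PT.nd (nat_lit 624) (PT.nd (nat_lit 312) (PT.nd (nat_lit 156) (PT.nd (nat_lit 78) (PT.lf (nat_lit 19000) (nat_lit 6) (nat_lit 250) (nat_lit 5) (nat_lit 141) (nat_lit 208) (nat_lit 221)) (PT.lf (nat_lit 19608) (nat_lit 6) (nat_lit 258) (nat_lit 5) (nat_lit 142) (nat_lit 208) (nat_lit 220))) (PT.nd (nat_lit 78) (PT.lf (nat_lit 20216) (nat_lit 6) (nat_lit 266) (nat_lit 5) (nat_lit 143) (nat_lit 208) (nat_lit 219)) (PT.lf (nat_lit 20824) (nat_lit 6) (nat_lit 274) (nat_lit 5) (nat_lit 144) (nat_lit 208) (nat_lit 218)))) (PT.nd (nat_lit 156) (PT.nd (nat_lit 78) (PT.lf (nat_lit 21508) (nat_lit 6) (nat_lit 283) (nat_lit 5) (nat_lit 145) (nat_lit 208) (nat_lit 217)) (PT.lf (nat_lit 22116) (nat_lit 6) (nat_lit 291) (nat_lit 5) (nat_lit 146) (nat_lit 208) (nat_lit 216))) (PT.nd (nat_lit 78) (PT.lf (nat_lit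 22800) (nat_lit 6) (nat_lit 300) (nat_lit 5) (nat_lit 147) (nat_lit 208) (nat_lit 215)) (PT.lf (nat_lit 23484) (nat_lit 6) (nat_lit 309) (nat_lit 5) (nat_lit 148) (nat_lit 208) (nat_lit 214))))) (PT.nd (nat_lit 312) (PT.nd (nat_lit 156) (PT.nd (nat_lit 78) (PT.lf (nat_lit 24168) (nat_lit 6) (nat_lit 318) (nat_lit 5) (nat_lit 149) (nat_lit 208) (nat_lit 213)) (PT.lf (nat_lit 24852) (nat_lit 6) (nat_lit 327) (nat_lit 5) (nat_lit 150) (nat_lit 208) (nat_lit 212))) (PT.nd (nat_lit 78) (PT.lf (nat_lit 25612) (nat_lit 6) (nat_lit 337) (nat_lit 5) (nat_lit 151) (nat_lit 208) (nat_lit 211)) (PT.lf (nat_lit 26372) (nat_lit 6) (nat_lit 347) (nat_lit 5) (nat_lit 152) (nat_lit 208) (nat_lit 210)))) (PT.nd (nat_lit 156) (PT.nd (nat_lit 78) (PT.lf (nat_lit 27132) (nat_lit 6) (nat_lit 357) (nat_lit 5) (nat_lit 153) (nat_lit 208) (nat_lit 209)) (PT.lf (nat_lit 27892) (nat_lit 3) (nat_lit 367) (nat_lit 4) (nat_lit 154) (nat_lit 208) (nat_lit 208))) (PT.nd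 (nat_lit 78) (PT.lf (nat_lit 28652) (nat_lit 6) (nat_lit 377) (nat_lit 4) (nat_lit 155) (nat_lit 208) (nat_lit 207)) (PT.nd (nat_lit 78) (PT.lf (nat_lit 29412) (nat_lit 6) (nat_lit 387) (nat_lit 4) (nat_lit 156) (nat_lit 208) (nat_lit 206)) (PT.lf (nat_lit 30172) (nat_lit 6) (nat_lit 397) (nat_lit 4) (nat_lit 157) (nat_lit 208) (nat_lit 205))))))))
noncomputable def pc87 : PT := (PT.nd (nat_lit 1248) (PT.nd (nat_lit 624) (PT.nd (nat_lit 312) (PT.nd (nat_lit 156) (PT.nd (nat_lit 78) (PT.lf (nat_lit 30932) (nat_lit 6) (nat_lit 407) (nat_lit 4) (nat_lit 158) (nat_lit 208) (nat_lit 204)) (PT.lf (nat_lit 31768) (nat_lit 6) (nat_lit 418) (nat_lit 4) (nat_lit 159) (nat_lit 208) (nat_lit 203))) (PT.nd (nat_lit 78) (PT.lf (nat_lit 32604) (nat_lit 6) (nat_lit 429) (nat_lit 4) (nat_lit 160) (nat_lit 208) (nat_lit 202)) (PT.lf (nat_lit 33516) (nat_lit 6) (nat_lit 441) (nat_lit 4) (nat_lit 161) (nat_lit 208) (nat_lit 201)))) (PT.nd (nat_lit 156) (PT.nd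 (nat_lit 78) (PT.lf (nat_lit 34352) (nat_lit 6) (nat_lit 452) (nat_lit 4) (nat_lit 162) (nat_lit 208) (nat_lit 200)) (PT.lf (nat_lit 35264) (nat_lit 6) (nat_lit 464) (nat_lit 4) (nat_lit 163) (nat_lit 208) (nat_lit 199))) (PT.nd (nat_lit 78) (PT.lf (nat_lit 36176) (nat_lit 6) (nat_lit 476) (nat_lit 4) (nat_lit 164) (nat_lit 208) (nat_lit 198)) (PT.lf (nat_lit 37316) (nat_lit 6) (nat_lit 491) (nat_lit 4) (nat_lit 165) (nat_lit 208) (nat_lit 197))))) (PT.nd (nat_lit 312) (PT.nd (nat_lit 156) (PT.nd (nat_lit 78) (PT.lf (nat_lit 39140) (nat_lit 6) (nat_lit 515) (nat_lit 4) (nat_lit 166) (nat_lit 208) (nat_lit 196)) (PT.lf (nat_lit 40888) (nat_lit 6) (nat_lit 538) (nat_lit 4) (nat_lit 167) (nat_lit 208) (nat_lit 195))) (PT.nd (nat_lit 78) (PT.lf (nat_lit 42560) (nat_lit 6) (nat_lit 560) (nat_lit 4) (nat_lit 168) (nat_lit 208) (nat_lit 194)) (PT.lf (nat_lit 44156) (nat_lit 6) (nat_lit 581) (nat_lit 4) (nat_lit 169) (nat_lit 208) (nat_lit 193))))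 (PT.nd (nat_lit 156) (PT.nd (nat_lit 78) (PT.lf (nat_lit 45676) (nat_lit 6) (nat_lit 601) (nat_lit 4) (nat_lit 170) (nat_lit 208) (nat_lit 192)) (PT.lf (nat_lit 47120) (nat_lit 6) (nat_lit 620) (nat_lit 4) (nat_lit 171) (nat_lit 208) (nat_lit 191))) (PT.nd (nat_lit 78) (PT.lf (nat_lit 48488) (nat_lit 6) (nat_lit 638) (nat_lit 4) (nat_lit 172) (nat_lit 208) (nat_lit 190)) (PT.lf (nat_lit 48412) (nat_lit 6) (nat_lit 637) (nat_lit 4) (nat_lit 173) (nat_lit 208) (nat_lit 189)))))) (PT.nd (nat_lit 624) (PT.nd (nat_lit 312) (PT.nd (nat_lit 156) (PT.nd (nat_lit 78) (PT.lf (nat_lit 48336) (nat_lit 6) (nat_lit 636) (nat_lit 4) (nat_lit 174) (nat_lit 208) (nat_lit 188)) (PT.lf (nat_lit 48260) (nat_lit 6) (nat_lit 635) (nat_lit 4) (nat_lit 175) (nat_lit 208) (nat_lit 187))) (PT.nd (nat_lit 78) (PT.lf (nat_lit 48184) (nat_lit 6) (nat_lit 634) (nat_lit 4) (nat_lit 176) (nat_lit 208) (nat_lit 186)) (PT.lf (nat_lit 48108) (nat_lit 6) (nat_lit 633) (nat_lit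 4) (nat_lit 177) (nat_lit 208) (nat_lit 185)))) (PT.nd (nat_lit 156) (PT.nd (nat_lit 78) (PT.lf (nat_lit 48032) (nat_lit 6) (nat_lit 632) (nat_lit 4) (nat_lit 178) (nat_lit 208) (nat_lit 184)) (PT.lf (nat_lit 47956) (nat_lit 6) (nat_lit 631) (nat_lit 4) (nat_lit 179) (nat_lit 208) (nat_lit 183))) (PT.nd (nat_lit 78) (PT.lf (nat_lit 47880) (nat_lit 6) (nat_lit 630) (nat_lit 4) (nat_lit 180) (nat_lit 208) (nat_lit 182)) (PT.lf (nat_lit 47804) (nat_lit 3) (nat_lit 629) (nat_lit 2) (nat_lit 181) (nat_lit 208) (nat_lit 181))))) (PT.nd (nat_lit 312) (PT.nd (nat_lit 156) (PT.nd (nat_lit 78) (PT.lf (nat_lit 47880) (nat_lit 6) (nat_lit 630) (nat_lit 2) (nat_lit 182) (nat_lit 208) (nat_lit 180)) (PT.lf (nat_lit 47956) (nat_lit 6) (nat_lit 631) (nat_lit 2) (nat_lit 183) (nat_lit 208) (nat_lit 179))) (PT.nd (nat_lit 78) (PT.lf (nat_lit 48032) (nat_lit 6) (nat_lit 632) (nat_lit 2) (nat_lit 184) (nat_lit 208) (nat_lit 178)) (PT.lf (nat_lit 48108) (nat_lit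 6) (nat_lit 633) (nat_lit 2) (nat_lit 185) (nat_lit 208) (nat_lit 177)))) (PT.nd (nat_lit 156) (PT.nd (nat_lit 78) (PT.lf (nat_lit 48184) (nat_lit 6) (nat_lit 634) (nat_lit 2) (nat_lit 186) (nat_lit 208) (nat_lit 176)) (PT.lf (nat_lit 48260) (nat_lit 6) (nat_lit 635) (nat_lit 2) (nat_lit 187) (nat_lit 208) (nat_lit 175))) (PT.nd (nat_lit 78) (PT.lf (nat_lit 48336) (nat_lit 6) (nat_lit 636) (nat_lit 2) (nat_lit 188) (nat_lit 208) (nat_lit 174)) (PT.nd (nat_lit 78) (PT.lf (nat_lit 48412) (nat_lit 6) (nat_lit 637) (nat_lit 2) (nat_lit 189) (nat_lit 208) (nat_lit 173)) (PT.lf (nat_lit 48488) (nat_lit 6) (nat_lit 638) (nat_lit 2) (nat_lit 190) (nat_lit 208) (nat_lit 172))))))))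
noncomputable def pc88 : PT := (PT.nd (nat_lit 1248) (PT.nd (nat_lit 624) (PT.nd (nat_lit 312) (PT.nd (nat_lit 156) (PT.nd (nat_lit 78) (PT.lf (nat_lit 47120) (nat_lit 6) (nat_lit 620) (nat_lit 2) (nat_lit 191) (nat_lit 208) (nat_lit 171)) (PT.lf (nat_lit 45676) (nat_lit 6) (nat_lit 601) (nat_lit 2) (nat_lit 192) (nat_lit 208) (nat_lit 170))) (PT.nd (nat_lit 78) (PT.lf (nat_lit 44156) (nat_lit 6) (nat_lit 581) (nat_lit 2) (nat_lit 193) (nat_lit 208) (nat_lit 169)) (PT.lf (nat_lit 42560) (nat_lit 6) (nat_lit 560) (nat_lit 2) (nat_lit 194) (nat_lit 208) (nat_lit 168)))) (PT.nd (nat_lit 156) (PT.nd (nat_lit 78) (PT.lf (nat_lit 40888) (nat_lit 6) (nat_lit 538) (nat_lit 2) (nat_lit 195) (nat_lit 208) (nat_lit 167)) (PT.lf (nat_lit 39140) (nat_lit 6) (nat_lit 515) (nat_lit 2) (nat_lit 196) (nat_lit 208) (nat_lit 166))) (PT.nd (nat_lit 78) (PT.lf (nat_lit 37316) (nat_lit 6) (nat_lit 491) (nat_lit 2) (nat_lit 197) (nat_lit 208) (nat_lit 165))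 (PT.lf (nat_lit 36176) (nat_lit 6) (nat_lit 476) (nat_lit 2) (nat_lit 198) (nat_lit 208) (nat_lit 164))))) (PT.nd (nat_lit 312) (PT.nd (nat_lit 156) (PT.nd (nat_lit 78) (PT.lf (nat_lit 35264) (nat_lit 6) (nat_lit 464) (nat_lit 2) (nat_lit 199) (nat_lit 208) (nat_lit 163)) (PT.lf (nat_lit 34352) (nat_lit 6) (nat_lit 452) (nat_lit 2) (nat_lit 200) (nat_lit 208) (nat_lit 162))) (PT.nd (nat_lit 78) (PT.lf (nat_lit 33516) (nat_lit 6) (nat_lit 441) (nat_lit 2) (nat_lit 201) (nat_lit 208) (nat_lit 161)) (PT.lf (nat_lit 32604) (nat_lit 6) (nat_lit 429) (nat_lit 2) (nat_lit 202) (nat_lit 208) (nat_lit 160)))) (PT.nd (nat_lit 156) (PT.nd (nat_lit 78) (PT.lf (nat_lit 31768) (nat_lit 6) (nat_lit 418) (nat_lit 2) (nat_lit 203) (nat_lit 208) (nat_lit 159)) (PT.lf (nat_lit 30932) (nat_lit 6) (nat_lit 407) (nat_lit 2) (nat_lit 204) (nat_lit 208) (nat_lit 158))) (PT.nd (nat_lit 78) (PT.lf (nat_lit 30172) (nat_lit 6) (nat_lit 397) (nat_lit 2) (nat_lit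 205) (nat_lit 208) (nat_lit 157)) (PT.lf (nat_lit 29412) (nat_lit 6) (nat_lit 387) (nat_lit 2) (nat_lit 206) (nat_lit 208) (nat_lit 156)))))) (PT.nd (nat_lit 624) (PT.nd (nat_lit 312) (PT.nd (nat_lit 156) (PT.nd (nat_lit 78) (PT.lf (nat_lit 28652) (nat_lit 6) (nat_lit 377) (nat_lit 2) (nat_lit 207) (nat_lit 208) (nat_lit 155)) (PT.lf (nat_lit 27892) (nat_lit 3) (nat_lit 367) (nat_lit 0) (nat_lit 208) (nat_lit 208) (nat_lit 154))) (PT.nd (nat_lit 78) (PT.lf (nat_lit 27132) (nat_lit 6) (nat_lit 357) (nat_lit 0) (nat_lit 209) (nat_lit 208) (nat_lit 153)) (PT.lf (nat_lit 26372) (nat_lit 6) (nat_lit 347) (nat_lit 0) (nat_lit 210) (nat_lit 208) (nat_lit 152)))) (PT.nd (nat_lit 156) (PT.nd (nat_lit 78) (PT.lf (nat_lit 25612) (nat_lit 6) (nat_lit 337) (nat_lit 0) (nat_lit 211) (nat_lit 208) (nat_lit 151)) (PT.lf (nat_lit 24852) (nat_lit 6) (nat_lit 327) (nat_lit 0) (nat_lit 212) (nat_lit 208) (nat_lit 150))) (PT.nd (nat_lit 78) (PT.lf (nat_lit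 24168) (nat_lit 6) (nat_lit 318) (nat_lit 0) (nat_lit 213) (nat_lit 208) (nat_lit 149)) (PT.lf (nat_lit 23484) (nat_lit 6) (nat_lit 309) (nat_lit 0) (nat_lit 214) (nat_lit 208) (nat_lit 148))))) (PT.nd (nat_lit 312) (PT.nd (nat_lit 156) (PT.nd (nat_lit 78) (PT.lf (nat_lit 22800) (nat_lit 6) (nat_lit 300) (nat_lit 0) (nat_lit 215) (nat_lit 208) (nat_lit 147)) (PT.lf (nat_lit 22116) (nat_lit 6) (nat_lit 291) (nat_lit 0) (nat_lit 216) (nat_lit 208) (nat_lit 146))) (PT.nd (nat_lit 78) (PT.lf (nat_lit 21508) (nat_lit 6) (nat_lit 283) (nat_lit 0) (nat_lit 217) (nat_lit 208) (nat_lit 145)) (PT.lf (nat_lit 20824) (nat_lit 6) (nat_lit 274) (nat_lit 0) (nat_lit 218) (nat_lit 208) (nat_lit 144)))) (PT.nd (nat_lit 156) (PT.nd (nat_lit 78) (PT.lf (nat_lit 20216) (nat_lit 6) (nat_lit 266) (nat_lit 0) (nat_lit 219) (nat_lit 208) (nat_lit 143)) (PT.lf (nat_lit 19608) (nat_lit 6) (nat_lit 258) (nat_lit 0) (nat_lit 220) (nat_lit 208) (nat_lit 142))) (PT.nd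 (nat_lit 52962) (PT.lf (nat_lit 19000) (nat_lit 6) (nat_lit 250) (nat_lit 0) (nat_lit 221) (nat_lit 208) (nat_lit 141)) (PT.lf (nat_lit 17936) (nat_lit 6) (nat_lit 236) (nat_lit 5) (nat_lit 139) (nat_lit 209) (nat_lit 222)))))))
noncomputable def pc89 : PT := (PT.nd (nat_lit 1248) (PT.nd (nat_lit 624) (PT.nd (nat_lit 312) (PT.nd (nat_lit 156) (PT.nd (nat_lit 78) (PT.lf (nat_lit 18468) (nat_lit 6) (nat_lit 243) (nat_lit 5) (nat_lit 140) (nat_lit 209) (nat_lit 221)) (PT.lf (nat_lit 19076) (nat_lit 6) (nat_lit 251) (nat_lit 5) (nat_lit 141) (nat_lit 209) (nat_lit 220))) (PT.nd (nat_lit 78) (PT.lf (nat_lit 19684) (nat_lit 6) (nat_lit 259) (nat_lit 5) (nat_lit 142) (nat_lit 209) (nat_lit 219)) (PT.lf (nat_lit 20292) (nat_lit 6) (nat_lit 267) (nat_lit 5) (nat_lit 143) (nat_lit 209) (nat_lit 218)))) (PT.nd (nat_lit 156) (PT.nd (nat_lit 78) (PT.lf (nat_lit 20900) (nat_lit 6) (nat_lit 275) (nat_lit 5) (nat_lit 144) (nat_lit 209) (nat_lit 217))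 (PT.lf (nat_lit 21584) (nat_lit 6) (nat_lit 284) (nat_lit 5) (nat_lit 145) (nat_lit 209) (nat_lit 216))) (PT.nd (nat_lit 78) (PT.lf (nat_lit 22192) (nat_lit 6) (nat_lit 292) (nat_lit 5) (nat_lit 146) (nat_lit 209) (nat_lit 215)) (PT.lf (nat_lit 22876) (nat_lit 6) (nat_lit 301) (nat_lit 5) (nat_lit 147) (nat_lit 209) (nat_lit 214))))) (PT.nd (nat_lit 312) (PT.nd (nat_lit 156) (PT.nd (nat_lit 78) (PT.lf (nat_lit 23560) (nat_lit 6) (nat_lit 310) (nat_lit 5) (nat_lit 148) (nat_lit 209) (nat_lit 213)) (PT.lf (nat_lit 24244) (nat_lit 6) (nat_lit 319) (nat_lit 5) (nat_lit 149) (nat_lit 209) (nat_lit 212))) (PT.nd (nat_lit 78) (PT.lf (nat_lit 24928) (nat_lit 6) (nat_lit 328) (nat_lit 5) (nat_lit 150) (nat_lit 209) (nat_lit 211)) (PT.lf (nat_lit 25688) (nat_lit 6) (nat_lit 338) (nat_lit 5) (nat_lit 151) (nat_lit 209) (nat_lit 210)))) (PT.nd (nat_lit 156) (PT.nd (nat_lit 78) (PT.lf (nat_lit 26448) (nat_lit 3) (nat_lit 348) (nat_lit 4) (nat_lit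 152) (nat_lit 209) (nat_lit 209)) (PT.lf (nat_lit 27132) (nat_lit 6) (nat_lit 357) (nat_lit 4) (nat_lit 153) (nat_lit 209) (nat_lit 208))) (PT.nd (nat_lit 78) (PT.lf (nat_lit 27816) (nat_lit 6) (nat_lit 366) (nat_lit 4) (nat_lit 154) (nat_lit 209) (nat_lit 207)) (PT.lf (nat_lit 28576) (nat_lit 6) (nat_lit 376) (nat_lit 4) (nat_lit 155) (nat_lit 209) (nat_lit 206)))))) (PT.nd (nat_lit 624) (PT.nd (nat_lit 312) (PT.nd (nat_lit 156) (PT.nd (nat_lit 78) (PT.lf (nat_lit 29336) (nat_lit 6) (nat_lit 386) (nat_lit 4) (nat_lit 156) (nat_lit 209) (nat_lit 205)) (PT.lf (nat_lit 30096) (nat_lit 6) (nat_lit 396) (nat_lit 4) (nat_lit 157) (nat_lit 209) (nat_lit 204))) (PT.nd (nat_lit 78) (PT.lf (nat_lit 30856) (nat_lit 6) (nat_lit 406) (nat_lit 4) (nat_lit 158) (nat_lit 209) (nat_lit 203)) (PT.lf (nat_lit 31692) (nat_lit 6) (nat_lit 417) (nat_lit 4) (nat_lit 159) (nat_lit 209) (nat_lit 202)))) (PT.nd (nat_lit 156) (PT.nd (nat_lit 78) (PT.lf (nat_lit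 32528) (nat_lit 6) (nat_lit 428) (nat_lit 4) (nat_lit 160) (nat_lit 209) (nat_lit 201)) (PT.lf (nat_lit 33440) (nat_lit 6) (nat_lit 440) (nat_lit 4) (nat_lit 161) (nat_lit 209) (nat_lit 200))) (PT.nd (nat_lit 78) (PT.lf (nat_lit 34276) (nat_lit 6) (nat_lit 451) (nat_lit 4) (nat_lit 162) (nat_lit 209) (nat_lit 199)) (PT.lf (nat_lit 35188) (nat_lit 6) (nat_lit 463) (nat_lit 4) (nat_lit 163) (nat_lit 209) (nat_lit 198))))) (PT.nd (nat_lit 312) (PT.nd (nat_lit 156) (PT.nd (nat_lit 78) (PT.lf (nat_lit 36100) (nat_lit 6) (nat_lit 475) (nat_lit 4) (nat_lit 164) (nat_lit 209) (nat_lit 197)) (PT.lf (nat_lit 37240) (nat_lit 6) (nat_lit 490) (nat_lit 4) (nat_lit 165) (nat_lit 209) (nat_lit 196))) (PT.nd (nat_lit 78) (PT.lf (nat_lit 39064) (nat_lit 6) (nat_lit 514) (nat_lit 4) (nat_lit 166) (nat_lit 209) (nat_lit 195)) (PT.lf (nat_lit 40812) (nat_lit 6) (nat_lit 537) (nat_lit 4) (nat_lit 167) (nat_lit 209) (nat_lit 194)))) (PT.nd (nat_lit 156) (PT.nd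 (nat_lit 78) (PT.lf (nat_lit 42484) (nat_lit 6) (nat_lit 559) (nat_lit 4) (nat_lit 168) (nat_lit 209) (nat_lit 193)) (PT.lf (nat_lit 44080) (nat_lit 6) (nat_lit 580) (nat_lit 4) (nat_lit 169) (nat_lit 209) (nat_lit 192))) (PT.nd (nat_lit 78) (PT.lf (nat_lit 45600) (nat_lit 6) (nat_lit 600) (nat_lit 4) (nat_lit 170) (nat_lit 209) (nat_lit 191)) (PT.nd (nat_lit 78) (PT.lf (nat_lit 47044) (nat_lit 6) (nat_lit 619) (nat_lit 4) (nat_lit 171) (nat_lit 209) (nat_lit 190)) (PT.lf (nat_lit 46968) (nat_lit 6) (nat_lit 618) (nat_lit 4) (nat_lit 172) (nat_lit 209) (nat_lit 189))))))))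
noncomputable def pc90 : PT := (PT.nd (nat_lit 1248) (PT.nd (nat_lit 624) (PT.nd (nat_lit 312) (PT.nd (nat_lit 156) (PT.nd (nat_lit 78) (PT.lf (nat_lit 46892) (nat_lit 6) (nat_lit 617) (nat_lit 4) (nat_lit 173) (nat_lit 209) (nat_lit 188)) (PT.lf (nat_lit 46816) (nat_lit 6) (nat_lit 616) (nat_lit 4) (nat_lit 174) (nat_lit 209) (nat_lit 187))) (PT.nd (nat_lit 78) (PT.lf (nat_lit 46740) (nat_lit 6) (nat_lit 615) (nat_lit 4) (nat_lit 175) (nat_lit 209) (nat_lit 186)) (PT.lf (nat_lit 46664) (nat_lit 6) (nat_lit 614) (nat_lit 4) (nat_lit 176) (nat_lit 209) (nat_lit 185)))) (PT.nd (nat_lit 156) (PT.nd (nat_lit 78) (PT.lf (nat_lit 46588) (nat_lit 6) (nat_lit 613) (nat_lit 4) (nat_lit 177) (nat_lit 209) (nat_lit 184)) (PT.lf (nat_lit 46512) (nat_lit 6) (nat_lit 612) (nat_lit 4) (nat_lit 178) (nat_lit 209) (nat_lit 183))) (PT.nd (nat_lit 78) (PT.lf (nat_lit 46436) (nat_lit 6) (nat_lit 611) (nat_lit 4) (nat_lit 179) (nat_lit 209) (nat_lit 182))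 (PT.lf (nat_lit 46360) (nat_lit 6) (nat_lit 610) (nat_lit 4) (nat_lit 180) (nat_lit 209) (nat_lit 181))))) (PT.nd (nat_lit 312) (PT.nd (nat_lit 156) (PT.nd (nat_lit 78) (PT.lf (nat_lit 46360) (nat_lit 6) (nat_lit 610) (nat_lit 2) (nat_lit 181) (nat_lit 209) (nat_lit 180)) (PT.lf (nat_lit 46436) (nat_lit 6) (nat_lit 611) (nat_lit 2) (nat_lit 182) (nat_lit 209) (nat_lit 179))) (PT.nd (nat_lit 78) (PT.lf (nat_lit 46512) (nat_lit 6) (nat_lit 612) (nat_lit 2) (nat_lit 183) (nat_lit 209) (nat_lit 178)) (PT.lf (nat_lit 46588) (nat_lit 6) (nat_lit 613) (nat_lit 2) (nat_lit 184) (nat_lit 209) (nat_lit 177)))) (PT.nd (nat_lit 156) (PT.nd (nat_lit 78) (PT.lf (nat_lit 46664) (nat_lit 6) (nat_lit 614) (nat_lit 2) (nat_lit 185) (nat_lit 209) (nat_lit 176)) (PT.lf (nat_lit 46740) (nat_lit 6) (nat_lit 615) (nat_lit 2) (nat_lit 186) (nat_lit 209) (nat_lit 175))) (PT.nd (nat_lit 78) (PT.lf (nat_lit 46816) (nat_lit 6) (nat_lit 616) (nat_lit 2) (nat_lit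 187) (nat_lit 209) (nat_lit 174)) (PT.lf (nat_lit 46892) (nat_lit 6) (nat_lit 617) (nat_lit 2) (nat_lit 188) (nat_lit 209) (nat_lit 173)))))) (PT.nd (nat_lit 624) (PT.nd (nat_lit 312) (PT.nd (nat_lit 156) (PT.nd (nat_lit 78) (PT.lf (nat_lit 46968) (nat_lit 6) (nat_lit 618) (nat_lit 2) (nat_lit 189) (nat_lit 209) (nat_lit 172)) (PT.lf (nat_lit 47044) (nat_lit 6) (nat_lit 619) (nat_lit 2) (nat_lit 190) (nat_lit 209) (nat_lit 171))) (PT.nd (nat_lit 78) (PT.lf (nat_lit 45600) (nat_lit 6) (nat_lit 600) (nat_lit 2) (nat_lit 191) (nat_lit 209) (nat_lit 170)) (PT.lf (nat_lit 44080) (nat_lit 6) (nat_lit 580) (nat_lit 2) (nat_lit 192) (nat_lit 209) (nat_lit 169)))) (PT.nd (nat_lit 156) (PT.nd (nat_lit 78) (PT.lf (nat_lit 42484) (nat_lit 6) (nat_lit 559) (nat_lit 2) (nat_lit 193) (nat_lit 209) (nat_lit 168)) (PT.lf (nat_lit 40812) (nat_lit 6) (nat_lit 537) (nat_lit 2) (nat_lit 194) (nat_lit 209) (nat_lit 167))) (PT.nd (nat_lit 78) (PT.lf (nat_lit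 39064) (nat_lit 6) (nat_lit 514) (nat_lit 2) (nat_lit 195) (nat_lit 209) (nat_lit 166)) (PT.lf (nat_lit 37240) (nat_lit 6) (nat_lit 490) (nat_lit 2) (nat_lit 196) (nat_lit 209) (nat_lit 165))))) (PT.nd (nat_lit 312) (PT.nd (nat_lit 156) (PT.nd (nat_lit 78) (PT.lf (nat_lit 36100) (nat_lit 6) (nat_lit 475) (nat_lit 2) (nat_lit 197) (nat_lit 209) (nat_lit 164)) (PT.lf (nat_lit 35188) (nat_lit 6) (nat_lit 463) (nat_lit 2) (nat_lit 198) (nat_lit 209) (nat_lit 163))) (PT.nd (nat_lit 78) (PT.lf (nat_lit 34276) (nat_lit 6) (nat_lit 451) (nat_lit 2) (nat_lit 199) (nat_lit 209) (nat_lit 162)) (PT.lf (nat_lit 33440) (nat_lit 6) (nat_lit 440) (nat_lit 2) (nat_lit 200) (nat_lit 209) (nat_lit 161)))) (PT.nd (nat_lit 156) (PT.nd (nat_lit 78) (PT.lf (nat_lit 32528) (nat_lit 6) (nat_lit 428) (nat_lit 2) (nat_lit 201) (nat_lit 209) (nat_lit 160)) (PT.lf (nat_lit 31692) (nat_lit 6) (nat_lit 417) (nat_lit 2) (nat_lit 202) (nat_lit 209) (nat_lit 159))) (PT.nd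 (nat_lit 78) (PT.lf (nat_lit 30856) (nat_lit 6) (nat_lit 406) (nat_lit 2) (nat_lit 203) (nat_lit 209) (nat_lit 158)) (PT.nd (nat_lit 78) (PT.lf (nat_lit 30096) (nat_lit 6) (nat_lit 396) (nat_lit 2) (nat_lit 204) (nat_lit 209) (nat_lit 157)) (PT.lf (nat_lit 29336) (nat_lit 6) (nat_lit 386) (nat_lit 2) (nat_lit 205) (nat_lit 209) (nat_lit 156))))))))
noncomputable def pc91 : PT := (PT.nd (nat_lit 1248) (PT.nd (nat_lit 624) (PT.nd (nat_lit 312) (PT.nd (nat_lit 156) (PT.nd (nat_lit 78) (PT.lf (nat_lit 28576) (nat_lit 6) (nat_lit 376) (nat_lit 2) (nat_lit 206) (nat_lit 209) (nat_lit 155)) (PT.lf (nat_lit 27816) (nat_lit 6) (nat_lit 366) (nat_lit 2) (nat_lit 207) (nat_lit 209) (nat_lit 154))) (PT.nd (nat_lit 78) (PT.lf (nat_lit 27132) (nat_lit 6) (nat_lit 357) (nat_lit 2) (nat_lit 208) (nat_lit 209) (nat_lit 153)) (PT.lf (nat_lit 26448) (nat_lit 3) (nat_lit 348) (nat_lit 0) (nat_lit 209) (nat_lit 209) (nat_lit 152)))) (PT.nd (nat_lit 156) (PT.nd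 (nat_lit 78) (PT.lf (nat_lit 25688) (nat_lit 6) (nat_lit 338) (nat_lit 0) (nat_lit 210) (nat_lit 209) (nat_lit 151)) (PT.lf (nat_lit 24928) (nat_lit 6) (nat_lit 328) (nat_lit 0) (nat_lit 211) (nat_lit 209) (nat_lit 150))) (PT.nd (nat_lit 78) (PT.lf (nat_lit 24244) (nat_lit 6) (nat_lit 319) (nat_lit 0) (nat_lit 212) (nat_lit 209) (nat_lit 149)) (PT.lf (nat_lit 23560) (nat_lit 6) (nat_lit 310) (nat_lit 0) (nat_lit 213) (nat_lit 209) (nat_lit 148))))) (PT.nd (nat_lit 312) (PT.nd (nat_lit 156) (PT.nd (nat_lit 78) (PT.lf (nat_lit 22876) (nat_lit 6) (nat_lit 301) (nat_lit 0) (nat_lit 214) (nat_lit 209) (nat_lit 147)) (PT.lf (nat_lit 22192) (nat_lit 6) (nat_lit 292) (nat_lit 0) (nat_lit 215) (nat_lit 209) (nat_lit 146))) (PT.nd (nat_lit 78) (PT.lf (nat_lit 21584) (nat_lit 6) (nat_lit 284) (nat_lit 0) (nat_lit 216) (nat_lit 209) (nat_lit 145)) (PT.lf (nat_lit 20900) (nat_lit 6) (nat_lit 275) (nat_lit 0) (nat_lit 217) (nat_lit 209) (nat_lit 144))))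 (PT.nd (nat_lit 156) (PT.nd (nat_lit 78) (PT.lf (nat_lit 20292) (nat_lit 6) (nat_lit 267) (nat_lit 0) (nat_lit 218) (nat_lit 209) (nat_lit 143)) (PT.lf (nat_lit 19684) (nat_lit 6) (nat_lit 259) (nat_lit 0) (nat_lit 219) (nat_lit 209) (nat_lit 142))) (PT.nd (nat_lit 78) (PT.lf (nat_lit 19076) (nat_lit 6) (nat_lit 251) (nat_lit 0) (nat_lit 220) (nat_lit 209) (nat_lit 141)) (PT.lf (nat_lit 18468) (nat_lit 6) (nat_lit 243) (nat_lit 0) (nat_lit 221) (nat_lit 209) (nat_lit 140)))))) (PT.nd (nat_lit 53352) (PT.nd (nat_lit 53040) (PT.nd (nat_lit 52884) (PT.nd (nat_lit 52806) (PT.lf (nat_lit 17936) (nat_lit 6) (nat_lit 236) (nat_lit 0) (nat_lit 222) (nat_lit 209) (nat_lit 139)) (PT.lf (nat_lit 17404) (nat_lit 6) (nat_lit 229) (nat_lit 5) (nat_lit 138) (nat_lit 210) (nat_lit 222))) (PT.nd (nat_lit 78) (PT.lf (nat_lit 18012) (nat_lit 6) (nat_lit 237) (nat_lit 5) (nat_lit 139) (nat_lit 210) (nat_lit 221)) (PT.lf (nat_lit 18544) (nat_lit 6) (nat_lit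 244) (nat_lit 5) (nat_lit 140) (nat_lit 210) (nat_lit 220)))) (PT.nd (nat_lit 156) (PT.nd (nat_lit 78) (PT.lf (nat_lit 19152) (nat_lit 6) (nat_lit 252) (nat_lit 5) (nat_lit 141) (nat_lit 210) (nat_lit 219)) (PT.lf (nat_lit 19760) (nat_lit 6) (nat_lit 260) (nat_lit 5) (nat_lit 142) (nat_lit 210) (nat_lit 218))) (PT.nd (nat_lit 78) (PT.lf (nat_lit 20368) (nat_lit 6) (nat_lit 268) (nat_lit 5) (nat_lit 143) (nat_lit 210) (nat_lit 217)) (PT.lf (nat_lit 20976) (nat_lit 6) (nat_lit 276) (nat_lit 5) (nat_lit 144) (nat_lit 210) (nat_lit 216))))) (PT.nd (nat_lit 312) (PT.nd (nat_lit 156) (PT.nd (nat_lit 78) (PT.lf (nat_lit 21660) (nat_lit 6) (nat_lit 285) (nat_lit 5) (nat_lit 145) (nat_lit 210) (nat_lit 215)) (PT.lf (nat_lit 22268) (nat_lit 6) (nat_lit 293) (nat_lit 5) (nat_lit 146) (nat_lit 210) (nat_lit 214))) (PT.nd (nat_lit 78) (PT.lf (nat_lit 22952) (nat_lit 6) (nat_lit 302) (nat_lit 5) (nat_lit 147) (nat_lit 210) (nat_lit 213)) (PT.lf (nat_lit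 23636) (nat_lit 6) (nat_lit 311) (nat_lit 5) (nat_lit 148) (nat_lit 210) (nat_lit 212)))) (PT.nd (nat_lit 156) (PT.nd (nat_lit 78) (PT.lf (nat_lit 24320) (nat_lit 6) (nat_lit 320) (nat_lit 5) (nat_lit 149) (nat_lit 210) (nat_lit 211)) (PT.lf (nat_lit 25004) (nat_lit 3) (nat_lit 329) (nat_lit 4) (nat_lit 150) (nat_lit 210) (nat_lit 210))) (PT.nd (nat_lit 78) (PT.lf (nat_lit 25688) (nat_lit 6) (nat_lit 338) (nat_lit 4) (nat_lit 151) (nat_lit 210) (nat_lit 209)) (PT.nd (nat_lit 78) (PT.lf (nat_lit 26372) (nat_lit 6) (nat_lit 347) (nat_lit 4) (nat_lit 152) (nat_lit 210) (nat_lit 208)) (PT.lf (nat_lit 27056) (nat_lit 6) (nat_lit 356) (nat_lit 4) (nat_lit 153) (nat_lit 210) (nat_lit 207))))))))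
noncomputable def pc92 : PT := (PT.nd (nat_lit 1248) (PT.nd (nat_lit 624) (PT.nd (nat_lit 312) (PT.nd (nat_lit 156) (PT.nd (nat_lit 78) (PT.lf (nat_lit 27740) (nat_lit 6) (nat_lit 365) (nat_lit 4) (nat_lit 154) (nat_lit 210) (nat_lit 206)) (PT.lf (nat_lit 28500) (nat_lit 6) (nat_lit 375) (nat_lit 4) (nat_lit 155) (nat_lit 210) (nat_lit 205))) (PT.nd (nat_lit 78) (PT.lf (nat_lit 29260) (nat_lit 6) (nat_lit 385) (nat_lit 4) (nat_lit 156) (nat_lit 210) (nat_lit 204)) (PT.lf (nat_lit 30020) (nat_lit 6) (nat_lit 395) (nat_lit 4) (nat_lit 157) (nat_lit 210) (nat_lit 203)))) (PT.nd (nat_lit 156) (PT.nd (nat_lit 78) (PT.lf (nat_lit 30780) (nat_lit 6) (nat_lit 405) (nat_lit 4) (nat_lit 158) (nat_lit 210) (nat_lit 202)) (PT.lf (nat_lit 31616) (nat_lit 6) (nat_lit 416) (nat_lit 4) (nat_lit 159) (nat_lit 210) (nat_lit 201))) (PT.nd (nat_lit 78) (PT.lf (nat_lit 32452) (nat_lit 6) (nat_lit 427) (nat_lit 4) (nat_lit 160) (nat_lit 210) (nat_lit 200))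 (PT.lf (nat_lit 33364) (nat_lit 6) (nat_lit 439) (nat_lit 4) (nat_lit 161) (nat_lit 210) (nat_lit 199))))) (PT.nd (nat_lit 312) (PT.nd (nat_lit 156) (PT.nd (nat_lit 78) (PT.lf (nat_lit 34200) (nat_lit 6) (nat_lit 450) (nat_lit 4) (nat_lit 162) (nat_lit 210) (nat_lit 198)) (PT.lf (nat_lit 35112) (nat_lit 6) (nat_lit 462) (nat_lit 4) (nat_lit 163) (nat_lit 210) (nat_lit 197))) (PT.nd (nat_lit 78) (PT.lf (nat_lit 36024) (nat_lit 6) (nat_lit 474) (nat_lit 4) (nat_lit 164) (nat_lit 210) (nat_lit 196)) (PT.lf (nat_lit 37164) (nat_lit 6) (nat_lit 489) (nat_lit 4) (nat_lit 165) (nat_lit 210) (nat_lit 195)))) (PT.nd (nat_lit 156) (PT.nd (nat_lit 78) (PT.lf (nat_lit 38988) (nat_lit 6) (nat_lit 513) (nat_lit 4) (nat_lit 166) (nat_lit 210) (nat_lit 194)) (PT.lf (nat_lit 40736) (nat_lit 6) (nat_lit 536) (nat_lit 4) (nat_lit 167) (nat_lit 210) (nat_lit 193))) (PT.nd (nat_lit 78) (PT.lf (nat_lit 42408) (nat_lit 6) (nat_lit 558) (nat_lit 4) (nat_lit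 168) (nat_lit 210) (nat_lit 192)) (PT.lf (nat_lit 44004) (nat_lit 6) (nat_lit 579) (nat_lit 4) (nat_lit 169) (nat_lit 210) (nat_lit 191)))))) (PT.nd (nat_lit 624) (PT.nd (nat_lit 312) (PT.nd (nat_lit 156) (PT.nd (nat_lit 78) (PT.lf (nat_lit 45524) (nat_lit 6) (nat_lit 599) (nat_lit 4) (nat_lit 170) (nat_lit 210) (nat_lit 190)) (PT.lf (nat_lit 45448) (nat_lit 6) (nat_lit 598) (nat_lit 4) (nat_lit 171) (nat_lit 210) (nat_lit 189))) (PT.nd (nat_lit 78) (PT.lf (nat_lit 45372) (nat_lit 6) (nat_lit 597) (nat_lit 4) (nat_lit 172) (nat_lit 210) (nat_lit 188)) (PT.lf (nat_lit 45296) (nat_lit 6) (nat_lit 596) (nat_lit 4) (nat_lit 173) (nat_lit 210) (nat_lit 187)))) (PT.nd (nat_lit 156) (PT.nd (nat_lit 78) (PT.lf (nat_lit 45220) (nat_lit 6) (nat_lit 595) (nat_lit 4) (nat_lit 174) (nat_lit 210) (nat_lit 186)) (PT.lf (nat_lit 45144) (nat_lit 6) (nat_lit 594) (nat_lit 4) (nat_lit 175) (nat_lit 210) (nat_lit 185))) (PT.nd (nat_lit 78) (PT.lf (nat_lit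 45068) (nat_lit 6) (nat_lit 593) (nat_lit 4) (nat_lit 176) (nat_lit 210) (nat_lit 184)) (PT.lf (nat_lit 44992) (nat_lit 6) (nat_lit 592) (nat_lit 4) (nat_lit 177) (nat_lit 210) (nat_lit 183))))) (PT.nd (nat_lit 312) (PT.nd (nat_lit 156) (PT.nd (nat_lit 78) (PT.lf (nat_lit 44916) (nat_lit 6) (nat_lit 591) (nat_lit 4) (nat_lit 178) (nat_lit 210) (nat_lit 182)) (PT.lf (nat_lit 44840) (nat_lit 6) (nat_lit 590) (nat_lit 4) (nat_lit 179) (nat_lit 210) (nat_lit 181))) (PT.nd (nat_lit 78) (PT.lf (nat_lit 44764) (nat_lit 3) (nat_lit 589) (nat_lit 2) (nat_lit 180) (nat_lit 210) (nat_lit 180)) (PT.lf (nat_lit 44840) (nat_lit 6) (nat_lit 590) (nat_lit 2) (nat_lit 181) (nat_lit 210) (nat_lit 179)))) (PT.nd (nat_lit 156) (PT.nd (nat_lit 78) (PT.lf (nat_lit 44916) (nat_lit 6) (nat_lit 591) (nat_lit 2) (nat_lit 182) (nat_lit 210) (nat_lit 178)) (PT.lf (nat_lit 44992) (nat_lit 6) (nat_lit 592) (nat_lit 2) (nat_lit 183) (nat_lit 210) (nat_lit 177))) (PT.nd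 (nat_lit 78) (PT.lf (nat_lit 45068) (nat_lit 6) (nat_lit 593) (nat_lit 2) (nat_lit 184) (nat_lit 210) (nat_lit 176)) (PT.nd (nat_lit 78) (PT.lf (nat_lit 45144) (nat_lit 6) (nat_lit 594) (nat_lit 2) (nat_lit 185) (nat_lit 210) (nat_lit 175)) (PT.lf (nat_lit 45220) (nat_lit 6) (nat_lit 595) (nat_lit 2) (nat_lit 186) (nat_lit 210) (nat_lit 174))))))))
noncomputable def pc93 : PT := (PT.nd (nat_lit 1248) (PT.nd (nat_lit 624) (PT.nd (nat_lit 312) (PT.nd (nat_lit 156) (PT.nd (nat_lit 78) (PT.lf (nat_lit 45296) (nat_lit 6) (nat_lit 596) (nat_lit 2) (nat_lit 187) (nat_lit 210) (nat_lit 173)) (PT.lf (nat_lit 45372) (nat_lit 6) (nat_lit 597) (nat_lit 2) (nat_lit 188) (nat_lit 210) (nat_lit 172))) (PT.nd (nat_lit 78) (PT.lf (nat_lit 45448) (nat_lit 6) (nat_lit 598) (nat_lit 2) (nat_lit 189) (nat_lit 210) (nat_lit 171)) (PT.lf (nat_lit 45524) (nat_lit 6) (nat_lit 599) (nat_lit 2) (nat_lit 190) (nat_lit 210) (nat_lit 170)))) (PT.nd (nat_lit 156) (PT.nd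 (nat_lit 78) (PT.lf (nat_lit 44004) (nat_lit 6) (nat_lit 579) (nat_lit 2) (nat_lit 191) (nat_lit 210) (nat_lit 169)) (PT.lf (nat_lit 42408) (nat_lit 6) (nat_lit 558) (nat_lit 2) (nat_lit 192) (nat_lit 210) (nat_lit 168))) (PT.nd (nat_lit 78) (PT.lf (nat_lit 40736) (nat_lit 6) (nat_lit 536) (nat_lit 2) (nat_lit 193) (nat_lit 210) (nat_lit 167)) (PT.lf (nat_lit 38988) (nat_lit 6) (nat_lit 513) (nat_lit 2) (nat_lit 194) (nat_lit 210) (nat_lit 166))))) (PT.nd (nat_lit 312) (PT.nd (nat_lit 156) (PT.nd (nat_lit 78) (PT.lf (nat_lit 37164) (nat_lit 6) (nat_lit 489) (nat_lit 2) (nat_lit 195) (nat_lit 210) (nat_lit 165)) (PT.lf (nat_lit 36024) (nat_lit 6) (nat_lit 474) (nat_lit 2) (nat_lit 196) (nat_lit 210) (nat_lit 164))) (PT.nd (nat_lit 78) (PT.lf (nat_lit 35112) (nat_lit 6) (nat_lit 462) (nat_lit 2) (nat_lit 197) (nat_lit 210) (nat_lit 163)) (PT.lf (nat_lit 34200) (nat_lit 6) (nat_lit 450) (nat_lit 2) (nat_lit 198) (nat_lit 210) (nat_lit 162))))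 (PT.nd (nat_lit 156) (PT.nd (nat_lit 78) (PT.lf (nat_lit 33364) (nat_lit 6) (nat_lit 439) (nat_lit 2) (nat_lit 199) (nat_lit 210) (nat_lit 161)) (PT.lf (nat_lit 32452) (nat_lit 6) (nat_lit 427) (nat_lit 2) (nat_lit 200) (nat_lit 210) (nat_lit 160))) (PT.nd (nat_lit 78) (PT.lf (nat_lit 31616) (nat_lit 6) (nat_lit 416) (nat_lit 2) (nat_lit 201) (nat_lit 210) (nat_lit 159)) (PT.lf (nat_lit 30780) (nat_lit 6) (nat_lit 405) (nat_lit 2) (nat_lit 202) (nat_lit 210) (nat_lit 158)))))) (PT.nd (nat_lit 624) (PT.nd (nat_lit 312) (PT.nd (nat_lit 156) (PT.nd (nat_lit 78) (PT.lf (nat_lit 30020) (nat_lit 6) (nat_lit 395) (nat_lit 2) (nat_lit 203) (nat_lit 210) (nat_lit 157)) (PT.lf (nat_lit 29260) (nat_lit 6) (nat_lit 385) (nat_lit 2) (nat_lit 204) (nat_lit 210) (nat_lit 156))) (PT.nd (nat_lit 78) (PT.lf (nat_lit 28500) (nat_lit 6) (nat_lit 375) (nat_lit 2) (nat_lit 205) (nat_lit 210) (nat_lit 155)) (PT.lf (nat_lit 27740) (nat_lit 6) (nat_lit 365) (nat_lit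 2) (nat_lit 206) (nat_lit 210) (nat_lit 154)))) (PT.nd (nat_lit 156) (PT.nd (nat_lit 78) (PT.lf (nat_lit 27056) (nat_lit 6) (nat_lit 356) (nat_lit 2) (nat_lit 207) (nat_lit 210) (nat_lit 153)) (PT.lf (nat_lit 26372) (nat_lit 6) (nat_lit 347) (nat_lit 2) (nat_lit 208) (nat_lit 210) (nat_lit 152))) (PT.nd (nat_lit 78) (PT.lf (nat_lit 25688) (nat_lit 6) (nat_lit 338) (nat_lit 2) (nat_lit 209) (nat_lit 210) (nat_lit 151)) (PT.lf (nat_lit 25004) (nat_lit 3) (nat_lit 329) (nat_lit 0) (nat_lit 210) (nat_lit 210) (nat_lit 150))))) (PT.nd (nat_lit 312) (PT.nd (nat_lit 156) (PT.nd (nat_lit 78) (PT.lf (nat_lit 24320) (nat_lit 6) (nat_lit 320) (nat_lit 0) (nat_lit 211) (nat_lit 210) (nat_lit 149)) (PT.lf (nat_lit 23636) (nat_lit 6) (nat_lit 311) (nat_lit 0) (nat_lit 212) (nat_lit 210) (nat_lit 148))) (PT.nd (nat_lit 78) (PT.lf (nat_lit 22952) (nat_lit 6) (nat_lit 302) (nat_lit 0) (nat_lit 213) (nat_lit 210) (nat_lit 147)) (PT.lf (nat_lit 22268) (nat_lit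 6) (nat_lit 293) (nat_lit 0) (nat_lit 214) (nat_lit 210) (nat_lit 146)))) (PT.nd (nat_lit 156) (PT.nd (nat_lit 78) (PT.lf (nat_lit 21660) (nat_lit 6) (nat_lit 285) (nat_lit 0) (nat_lit 215) (nat_lit 210) (nat_lit 145)) (PT.lf (nat_lit 20976) (nat_lit 6) (nat_lit 276) (nat_lit 0) (nat_lit 216) (nat_lit 210) (nat_lit 144))) (PT.nd (nat_lit 78) (PT.lf (nat_lit 20368) (nat_lit 6) (nat_lit 268) (nat_lit 0) (nat_lit 217) (nat_lit 210) (nat_lit 143)) (PT.nd (nat_lit 78) (PT.lf (nat_lit 19760) (nat_lit 6) (nat_lit 260) (nat_lit 0) (nat_lit 218) (nat_lit 210) (nat_lit 142)) (PT.lf (nat_lit 19152) (nat_lit 6) (nat_lit 252) (nat_lit 0) (nat_lit 219) (nat_lit 210) (nat_lit 141))))))))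
noncomputable def pc94 : PT := (PT.nd (nat_lit 53820) (PT.nd (nat_lit 53196) (PT.nd (nat_lit 52884) (PT.nd (nat_lit 156) (PT.nd (nat_lit 78) (PT.lf (nat_lit 18544) (nat_lit 6) (nat_lit 244) (nat_lit 0) (nat_lit 220) (nat_lit 210) (nat_lit 140)) (PT.lf (nat_lit 18012) (nat_lit 6) (nat_lit 237) (nat_lit 0) (nat_lit 221) (nat_lit 210) (nat_lit 139))) (PT.nd (nat_lit 52650) (PT.lf (nat_lit 17404) (nat_lit 6) (nat_lit 229) (nat_lit 0) (nat_lit 222) (nat_lit 210) (nat_lit 138)) (PT.lf (nat_lit 16416) (nat_lit 6) (nat_lit 216) (nat_lit 5) (nat_lit 136) (nat_lit 211) (nat_lit 223)))) (PT.nd (nat_lit 156) (PT.nd (nat_lit 78) (PT.lf (nat_lit 16948) (nat_lit 6) (nat_lit 223) (nat_lit 5) (nat_lit 137) (nat_lit 211) (nat_lit 222)) (PT.lf (nat_lit 17480) (nat_lit 6) (nat_lit 230) (nat_lit 5) (nat_lit 138) (nat_lit 211) (nat_lit 221))) (PT.nd (nat_lit 78) (PT.lf (nat_lit 18088) (nat_lit 6) (nat_lit 238) (nat_lit 5) (nat_lit 139) (nat_lit 211) (nat_lit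 220)) (PT.lf (nat_lit 18620) (nat_lit 6) (nat_lit 245) (nat_lit 5) (nat_lit 140) (nat_lit 211) (nat_lit 219))))) (PT.nd (nat_lit 312) (PT.nd (nat_lit 156) (PT.nd (nat_lit 78) (PT.lf (nat_lit 19228) (nat_lit 6) (nat_lit 253) (nat_lit 5) (nat_lit 141) (nat_lit 211) (nat_lit 218)) (PT.lf (nat_lit 19836) (nat_lit 6) (nat_lit 261) (nat_lit 5) (nat_lit 142) (nat_lit 211) (nat_lit 217))) (PT.nd (nat_lit 78) (PT.lf (nat_lit 20444) (nat_lit 6) (nat_lit 269) (nat_lit 5) (nat_lit 143) (nat_lit 211) (nat_lit 216)) (PT.lf (nat_lit 21052) (nat_lit 6) (nat_lit 277) (nat_lit 5) (nat_lit 144) (nat_lit 211) (nat_lit 215)))) (PT.nd (nat_lit 156) (PT.nd (nat_lit 78) (PT.lf (nat_lit 21736) (nat_lit 6) (nat_lit 286) (nat_lit 5) (nat_lit 145) (nat_lit 211) (nat_lit 214)) (PT.lf (nat_lit 22344) (nat_lit 6) (nat_lit 294) (nat_lit 5) (nat_lit 146) (nat_lit 211) (nat_lit 213))) (PT.nd (nat_lit 78) (PT.lf (nat_lit 23028) (nat_lit 6) (nat_lit 303) (nat_lit 5) (nat_lit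 147) (nat_lit 211) (nat_lit 212)) (PT.lf (nat_lit 23712) (nat_lit 3) (nat_lit 312) (nat_lit 4) (nat_lit 148) (nat_lit 211) (nat_lit 211)))))) (PT.nd (nat_lit 624) (PT.nd (nat_lit 312) (PT.nd (nat_lit 156) (PT.nd (nat_lit 78) (PT.lf (nat_lit 24320) (nat_lit 6) (nat_lit 320) (nat_lit 4) (nat_lit 149) (nat_lit 211) (nat_lit 210)) (PT.lf (nat_lit 24928) (nat_lit 6) (nat_lit 328) (nat_lit 4) (nat_lit 150) (nat_lit 211) (nat_lit 209))) (PT.nd (nat_lit 78) (PT.lf (nat_lit 25612) (nat_lit 6) (nat_lit 337) (nat_lit 4) (nat_lit 151) (nat_lit 211) (nat_lit 208)) (PT.lf (nat_lit 26296) (nat_lit 6) (nat_lit 346) (nat_lit 4) (nat_lit 152) (nat_lit 211) (nat_lit 207)))) (PT.nd (nat_lit 156) (PT.nd (nat_lit 78) (PT.lf (nat_lit 26980) (nat_lit 6) (nat_lit 355) (nat_lit 4) (nat_lit 153) (nat_lit 211) (nat_lit 206)) (PT.lf (nat_lit 27664) (nat_lit 6) (nat_lit 364) (nat_lit 4) (nat_lit 154) (nat_lit 211) (nat_lit 205))) (PT.nd (nat_lit 78) (PT.lf (nat_lit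 28424) (nat_lit 6) (nat_lit 374) (nat_lit 4) (nat_lit 155) (nat_lit 211) (nat_lit 204)) (PT.lf (nat_lit 29184) (nat_lit 6) (nat_lit 384) (nat_lit 4) (nat_lit 156) (nat_lit 211) (nat_lit 203))))) (PT.nd (nat_lit 312) (PT.nd (nat_lit 156) (PT.nd (nat_lit 78) (PT.lf (nat_lit 29944) (nat_lit 6) (nat_lit 394) (nat_lit 4) (nat_lit 157) (nat_lit 211) (nat_lit 202)) (PT.lf (nat_lit 30704) (nat_lit 6) (nat_lit 404) (nat_lit 4) (nat_lit 158) (nat_lit 211) (nat_lit 201))) (PT.nd (nat_lit 78) (PT.lf (nat_lit 31540) (nat_lit 6) (nat_lit 415) (nat_lit 4) (nat_lit 159) (nat_lit 211) (nat_lit 200)) (PT.lf (nat_lit 32376) (nat_lit 6) (nat_lit 426) (nat_lit 4) (nat_lit 160) (nat_lit 211) (nat_lit 199)))) (PT.nd (nat_lit 156) (PT.nd (nat_lit 78) (PT.lf (nat_lit 33288) (nat_lit 6) (nat_lit 438) (nat_lit 4) (nat_lit 161) (nat_lit 211) (nat_lit 198)) (PT.lf (nat_lit 34124) (nat_lit 6) (nat_lit 449) (nat_lit 4) (nat_lit 162) (nat_lit 211) (nat_lit 197))) (PT.nd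 (nat_lit 78) (PT.lf (nat_lit 35036) (nat_lit 6) (nat_lit 461) (nat_lit 4) (nat_lit 163) (nat_lit 211) (nat_lit 196)) (PT.nd (nat_lit 78) (PT.lf (nat_lit 35948) (nat_lit 6) (nat_lit 473) (nat_lit 4) (nat_lit 164) (nat_lit 211) (nat_lit 195)) (PT.lf (nat_lit 37088) (nat_lit 6) (nat_lit 488) (nat_lit 4) (nat_lit 165) (nat_lit 211) (nat_lit 194))))))))
noncomputable def pc95 : PT := (PT.nd (nat_lit 1248) (PT.nd (nat_lit 624) (PT.nd (nat_lit 312) (PT.nd (nat_lit 156) (PT.nd (nat_lit 78) (PT.lf (nat_lit 38912) (nat_lit 6) (nat_lit 512) (nat_lit 4) (nat_lit 166) (nat_lit 211) (nat_lit 193)) (PT.lf (nat_lit 40660) (nat_lit 6) (nat_lit 535) (nat_lit 4) (nat_lit 167) (nat_lit 211) (nat_lit 192))) (PT.nd (nat_lit 78) (PT.lf (nat_lit 42332) (nat_lit 6) (nat_lit 557) (nat_lit 4) (nat_lit 168) (nat_lit 211) (nat_lit 191)) (PT.lf (nat_lit 43928) (nat_lit 6) (nat_lit 578) (nat_lit 4) (nat_lit 169) (nat_lit 211) (nat_lit 190)))) (PT.nd (nat_lit 156) (PT.nd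 (nat_lit 78) (PT.lf (nat_lit 43852) (nat_lit 6) (nat_lit 577) (nat_lit 4) (nat_lit 170) (nat_lit 211) (nat_lit 189)) (PT.lf (nat_lit 43776) (nat_lit 6) (nat_lit 576) (nat_lit 4) (nat_lit 171) (nat_lit 211) (nat_lit 188))) (PT.nd (nat_lit 78) (PT.lf (nat_lit 43700) (nat_lit 6) (nat_lit 575) (nat_lit 4) (nat_lit 172) (nat_lit 211) (nat_lit 187)) (PT.lf (nat_lit 43624) (nat_lit 6) (nat_lit 574) (nat_lit 4) (nat_lit 173) (nat_lit 211) (nat_lit 186))))) (PT.nd (nat_lit 312) (PT.nd (nat_lit 156) (PT.nd (nat_lit 78) (PT.lf (nat_lit 43548) (nat_lit 6) (nat_lit 573) (nat_lit 4) (nat_lit 174) (nat_lit 211) (nat_lit 185)) (PT.lf (nat_lit 43472) (nat_lit 6) (nat_lit 572) (nat_lit 4) (nat_lit 175) (nat_lit 211) (nat_lit 184))) (PT.nd (nat_lit 78) (PT.lf (nat_lit 43396) (nat_lit 6) (nat_lit 571) (nat_lit 4) (nat_lit 176) (nat_lit 211) (nat_lit 183)) (PT.lf (nat_lit 43320) (nat_lit 6) (nat_lit 570) (nat_lit 4) (nat_lit 177) (nat_lit 211) (nat_lit 182))))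 (PT.nd (nat_lit 156) (PT.nd (nat_lit 78) (PT.lf (nat_lit 43244) (nat_lit 6) (nat_lit 569) (nat_lit 4) (nat_lit 178) (nat_lit 211) (nat_lit 181)) (PT.lf (nat_lit 43168) (nat_lit 6) (nat_lit 568) (nat_lit 4) (nat_lit 179) (nat_lit 211) (nat_lit 180))) (PT.nd (nat_lit 78) (PT.lf (nat_lit 43168) (nat_lit 6) (nat_lit 568) (nat_lit 2) (nat_lit 180) (nat_lit 211) (nat_lit 179)) (PT.lf (nat_lit 43244) (nat_lit 6) (nat_lit 569) (nat_lit 2) (nat_lit 181) (nat_lit 211) (nat_lit 178)))))) (PT.nd (nat_lit 624) (PT.nd (nat_lit 312) (PT.nd (nat_lit 156) (PT.nd (nat_lit 78) (PT.lf (nat_lit 43320) (nat_lit 6) (nat_lit 570) (nat_lit 2) (nat_lit 182) (nat_lit 211) (nat_lit 177)) (PT.lf (nat_lit 43396) (nat_lit 6) (nat_lit 571) (nat_lit 2) (nat_lit 183) (nat_lit 211) (nat_lit 176))) (PT.nd (nat_lit 78) (PT.lf (nat_lit 43472) (nat_lit 6) (nat_lit 572) (nat_lit 2) (nat_lit 184) (nat_lit 211) (nat_lit 175)) (PT.lf (nat_lit 43548) (nat_lit 6) (nat_lit 573) (nat_lit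 2) (nat_lit 185) (nat_lit 211) (nat_lit 174)))) (PT.nd (nat_lit 156) (PT.nd (nat_lit 78) (PT.lf (nat_lit 43624) (nat_lit 6) (nat_lit 574) (nat_lit 2) (nat_lit 186) (nat_lit 211) (nat_lit 173)) (PT.lf (nat_lit 43700) (nat_lit 6) (nat_lit 575) (nat_lit 2) (nat_lit 187) (nat_lit 211) (nat_lit 172))) (PT.nd (nat_lit 78) (PT.lf (nat_lit 43776) (nat_lit 6) (nat_lit 576) (nat_lit 2) (nat_lit 188) (nat_lit 211) (nat_lit 171)) (PT.lf (nat_lit 43852) (nat_lit 6) (nat_lit 577) (nat_lit 2) (nat_lit 189) (nat_lit 211) (nat_lit 170))))) (PT.nd (nat_lit 312) (PT.nd (nat_lit 156) (PT.nd (nat_lit 78) (PT.lf (nat_lit 43928) (nat_lit 6) (nat_lit 578) (nat_lit 2) (nat_lit 190) (nat_lit 211) (nat_lit 169)) (PT.lf (nat_lit 42332) (nat_lit 6) (nat_lit 557) (nat_lit 2) (nat_lit 191) (nat_lit 211) (nat_lit 168))) (PT.nd (nat_lit 78) (PT.lf (nat_lit 40660) (nat_lit 6) (nat_lit 535) (nat_lit 2) (nat_lit 192) (nat_lit 211) (nat_lit 167)) (PT.lf (nat_lit 38912) (nat_lit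 6) (nat_lit 512) (nat_lit 2) (nat_lit 193) (nat_lit 211) (nat_lit 166)))) (PT.nd (nat_lit 156) (PT.nd (nat_lit 78) (PT.lf (nat_lit 37088) (nat_lit 6) (nat_lit 488) (nat_lit 2) (nat_lit 194) (nat_lit 211) (nat_lit 165)) (PT.lf (nat_lit 35948) (nat_lit 6) (nat_lit 473) (nat_lit 2) (nat_lit 195) (nat_lit 211) (nat_lit 164))) (PT.nd (nat_lit 78) (PT.lf (nat_lit 35036) (nat_lit 6) (nat_lit 461) (nat_lit 2) (nat_lit 196) (nat_lit 211) (nat_lit 163)) (PT.nd (nat_lit 78) (PT.lf (nat_lit 34124) (nat_lit 6) (nat_lit 449) (nat_lit 2) (nat_lit 197) (nat_lit 211) (nat_lit 162)) (PT.lf (nat_lit 33288) (nat_lit 6) (nat_lit 438) (nat_lit 2) (nat_lit 198) (nat_lit 211) (nat_lit 161))))))))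
noncomputable def pc96 : PT := (PT.nd (nat_lit 1248) (PT.nd (nat_lit 624) (PT.nd (nat_lit 312) (PT.nd (nat_lit 156) (PT.nd (nat_lit 78) (PT.lf (nat_lit 32376) (nat_lit 6) (nat_lit 426) (nat_lit 2) (nat_lit 199) (nat_lit 211) (nat_lit 160)) (PT.lf (nat_lit 31540) (nat_lit 6) (nat_lit 415) (nat_lit 2) (nat_lit 200) (nat_lit 211) (nat_lit 159))) (PT.nd (nat_lit 78) (PT.lf (nat_lit 30704) (nat_lit 6) (nat_lit 404) (nat_lit 2) (nat_lit 201) (nat_lit 211) (nat_lit 158)) (PT.lf (nat_lit 29944) (nat_lit 6) (nat_lit 394) (nat_lit 2) (nat_lit 202) (nat_lit 211) (nat_lit 157)))) (PT.nd (nat_lit 156) (PT.nd (nat_lit 78) (PT.lf (nat_lit 29184) (nat_lit 6) (nat_lit 384) (nat_lit 2) (nat_lit 203) (nat_lit 211) (nat_lit 156)) (PT.lf (nat_lit 28424) (nat_lit 6) (nat_lit 374) (nat_lit 2) (nat_lit 204) (nat_lit 211) (nat_lit 155))) (PT.nd (nat_lit 78) (PT.lf (nat_lit 27664) (nat_lit 6) (nat_lit 364) (nat_lit 2) (nat_lit 205) (nat_lit 211) (nat_lit 154))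 (PT.lf (nat_lit 26980) (nat_lit 6) (nat_lit 355) (nat_lit 2) (nat_lit 206) (nat_lit 211) (nat_lit 153))))) (PT.nd (nat_lit 312) (PT.nd (nat_lit 156) (PT.nd (nat_lit 78) (PT.lf (nat_lit 26296) (nat_lit 6) (nat_lit 346) (nat_lit 2) (nat_lit 207) (nat_lit 211) (nat_lit 152)) (PT.lf (nat_lit 25612) (nat_lit 6) (nat_lit 337) (nat_lit 2) (nat_lit 208) (nat_lit 211) (nat_lit 151))) (PT.nd (nat_lit 78) (PT.lf (nat_lit 24928) (nat_lit 6) (nat_lit 328) (nat_lit 2) (nat_lit 209) (nat_lit 211) (nat_lit 150)) (PT.lf (nat_lit 24320) (nat_lit 6) (nat_lit 320) (nat_lit 2) (nat_lit 210) (nat_lit 211) (nat_lit 149)))) (PT.nd (nat_lit 156) (PT.nd (nat_lit 78) (PT.lf (nat_lit 23712) (nat_lit 3) (nat_lit 312) (nat_lit 0) (nat_lit 211) (nat_lit 211) (nat_lit 148)) (PT.lf (nat_lit 23028) (nat_lit 6) (nat_lit 303) (nat_lit 0) (nat_lit 212) (nat_lit 211) (nat_lit 147))) (PT.nd (nat_lit 78) (PT.lf (nat_lit 22344) (nat_lit 6) (nat_lit 294) (nat_lit 0) (nat_lit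 213) (nat_lit 211) (nat_lit 146)) (PT.lf (nat_lit 21736) (nat_lit 6) (nat_lit 286) (nat_lit 0) (nat_lit 214) (nat_lit 211) (nat_lit 145)))))) (PT.nd (nat_lit 624) (PT.nd (nat_lit 312) (PT.nd (nat_lit 156) (PT.nd (nat_lit 78) (PT.lf (nat_lit 21052) (nat_lit 6) (nat_lit 277) (nat_lit 0) (nat_lit 215) (nat_lit 211) (nat_lit 144)) (PT.lf (nat_lit 20444) (nat_lit 6) (nat_lit 269) (nat_lit 0) (nat_lit 216) (nat_lit 211) (nat_lit 143))) (PT.nd (nat_lit 78) (PT.lf (nat_lit 19836) (nat_lit 6) (nat_lit 261) (nat_lit 0) (nat_lit 217) (nat_lit 211) (nat_lit 142)) (PT.lf (nat_lit 19228) (nat_lit 6) (nat_lit 253) (nat_lit 0) (nat_lit 218) (nat_lit 211) (nat_lit 141)))) (PT.nd (nat_lit 156) (PT.nd (nat_lit 78) (PT.lf (nat_lit 18620) (nat_lit 6) (nat_lit 245) (nat_lit 0) (nat_lit 219) (nat_lit 211) (nat_lit 140)) (PT.lf (nat_lit 18088) (nat_lit 6) (nat_lit 238) (nat_lit 0) (nat_lit 220) (nat_lit 211) (nat_lit 139))) (PT.nd (nat_lit 78) (PT.lf (nat_lit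 17480) (nat_lit 6) (nat_lit 230) (nat_lit 0) (nat_lit 221) (nat_lit 211) (nat_lit 138)) (PT.lf (nat_lit 16948) (nat_lit 6) (nat_lit 223) (nat_lit 0) (nat_lit 222) (nat_lit 211) (nat_lit 137))))) (PT.nd (nat_lit 52728) (PT.nd (nat_lit 52572) (PT.nd (nat_lit 52494) (PT.lf (nat_lit 16416) (nat_lit 6) (nat_lit 216) (nat_lit 0) (nat_lit 223) (nat_lit 211) (nat_lit 136)) (PT.lf (nat_lit 15960) (nat_lit 6) (nat_lit 210) (nat_lit 5) (nat_lit 135) (nat_lit 212) (nat_lit 223))) (PT.nd (nat_lit 78) (PT.lf (nat_lit 16492) (nat_lit 6) (nat_lit 217) (nat_lit 5) (nat_lit 136) (nat_lit 212) (nat_lit 222)) (PT.lf (nat_lit 17024) (nat_lit 6) (nat_lit 224) (nat_lit 5) (nat_lit 137) (nat_lit 212) (nat_lit 221)))) (PT.nd (nat_lit 156) (PT.nd (nat_lit 78) (PT.lf (nat_lit 17556) (nat_lit 6) (nat_lit 231) (nat_lit 5) (nat_lit 138) (nat_lit 212) (nat_lit 220)) (PT.lf (nat_lit 18164) (nat_lit 6) (nat_lit 239) (nat_lit 5) (nat_lit 139) (nat_lit 212) (nat_lit 219)))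 (PT.nd (nat_lit 78) (PT.lf (nat_lit 18696) (nat_lit 6) (nat_lit 246) (nat_lit 5) (nat_lit 140) (nat_lit 212) (nat_lit 218)) (PT.lf (nat_lit 19304) (nat_lit 6) (nat_lit 254) (nat_lit 5) (nat_lit 141) (nat_lit 212) (nat_lit 217)))))))
noncomputable def pc97 : PT := (PT.nd (nat_lit 1248) (PT.nd (nat_lit 624) (PT.nd (nat_lit 312) (PT.nd (nat_lit 156) (PT.nd (nat_lit 78) (PT.lf (nat_lit 19912) (nat_lit 6) (nat_lit 262) (nat_lit 5) (nat_lit 142) (nat_lit 212) (nat_lit 216)) (PT.lf (nat_lit 20520) (nat_lit 6) (nat_lit 270) (nat_lit 5) (nat_lit 143) (nat_lit 212) (nat_lit 215))) (PT.nd (nat_lit 78) (PT.lf (nat_lit 21128) (nat_lit 6) (nat_lit 278) (nat_lit 5) (nat_lit 144) (nat_lit 212) (nat_lit 214)) (PT.lf (nat_lit 21812) (nat_lit 6) (nat_lit 287) (nat_lit 5) (nat_lit 145) (nat_lit 212) (nat_lit 213)))) (PT.nd (nat_lit 156) (PT.nd (nat_lit 78) (PT.lf (nat_lit 22420) (nat_lit 3) (nat_lit 295) (nat_lit 4) (nat_lit 146) (nat_lit 212) (nat_lit 212))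 (PT.lf (nat_lit 23028) (nat_lit 6) (nat_lit 303) (nat_lit 4) (nat_lit 147) (nat_lit 212) (nat_lit 211))) (PT.nd (nat_lit 78) (PT.lf (nat_lit 23636) (nat_lit 6) (nat_lit 311) (nat_lit 4) (nat_lit 148) (nat_lit 212) (nat_lit 210)) (PT.lf (nat_lit 24244) (nat_lit 6) (nat_lit 319) (nat_lit 4) (nat_lit 149) (nat_lit 212) (nat_lit 209))))) (PT.nd (nat_lit 312) (PT.nd (nat_lit 156) (PT.nd (nat_lit 78) (PT.lf (nat_lit 24852) (nat_lit 6) (nat_lit 327) (nat_lit 4) (nat_lit 150) (nat_lit 212) (nat_lit 208)) (PT.lf (nat_lit 25536) (nat_lit 6) (nat_lit 336) (nat_lit 4) (nat_lit 151) (nat_lit 212) (nat_lit 207))) (PT.nd (nat_lit 78) (PT.lf (nat_lit 26220) (nat_lit 6) (nat_lit 345) (nat_lit 4) (nat_lit 152) (nat_lit 212) (nat_lit 206)) (PT.lf (nat_lit 26904) (nat_lit 6) (nat_lit 354) (nat_lit 4) (nat_lit 153) (nat_lit 212) (nat_lit 205)))) (PT.nd (nat_lit 156) (PT.nd (nat_lit 78) (PT.lf (nat_lit 27588) (nat_lit 6) (nat_lit 363) (nat_lit 4) (nat_lit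 154) (nat_lit 212) (nat_lit 204)) (PT.lf (nat_lit 28348) (nat_lit 6) (nat_lit 373) (nat_lit 4) (nat_lit 155) (nat_lit 212) (nat_lit 203))) (PT.nd (nat_lit 78) (PT.lf (nat_lit 29108) (nat_lit 6) (nat_lit 383) (nat_lit 4) (nat_lit 156) (nat_lit 212) (nat_lit 202)) (PT.lf (nat_lit 29868) (nat_lit 6) (nat_lit 393) (nat_lit 4) (nat_lit 157) (nat_lit 212) (nat_lit 201)))))) (PT.nd (nat_lit 624) (PT.nd (nat_lit 312) (PT.nd (nat_lit 156) (PT.nd (nat_lit 78) (PT.lf (nat_lit 30628) (nat_lit 6) (nat_lit 403) (nat_lit 4) (nat_lit 158) (nat_lit 212) (nat_lit 200)) (PT.lf (nat_lit 31464) (nat_lit 6) (nat_lit 414) (nat_lit 4) (nat_lit 159) (nat_lit 212) (nat_lit 199))) (PT.nd (nat_lit 78) (PT.lf (nat_lit 32300) (nat_lit 6) (nat_lit 425) (nat_lit 4) (nat_lit 160) (nat_lit 212) (nat_lit 198)) (PT.lf (nat_lit 33212) (nat_lit 6) (nat_lit 437) (nat_lit 4) (nat_lit 161) (nat_lit 212) (nat_lit 197)))) (PT.nd (nat_lit 156) (PT.nd (nat_lit 78) (PT.lf (nat_lit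 34048) (nat_lit 6) (nat_lit 448) (nat_lit 4) (nat_lit 162) (nat_lit 212) (nat_lit 196)) (PT.lf (nat_lit 34960) (nat_lit 6) (nat_lit 460) (nat_lit 4) (nat_lit 163) (nat_lit 212) (nat_lit 195))) (PT.nd (nat_lit 78) (PT.lf (nat_lit 35872) (nat_lit 6) (nat_lit 472) (nat_lit 4) (nat_lit 164) (nat_lit 212) (nat_lit 194)) (PT.lf (nat_lit 37012) (nat_lit 6) (nat_lit 487) (nat_lit 4) (nat_lit 165) (nat_lit 212) (nat_lit 193))))) (PT.nd (nat_lit 312) (PT.nd (nat_lit 156) (PT.nd (nat_lit 78) (PT.lf (nat_lit 38836) (nat_lit 6) (nat_lit 511) (nat_lit 4) (nat_lit 166) (nat_lit 212) (nat_lit 192)) (PT.lf (nat_lit 40584) (nat_lit 6) (nat_lit 534) (nat_lit 4) (nat_lit 167) (nat_lit 212) (nat_lit 191))) (PT.nd (nat_lit 78) (PT.lf (nat_lit 42256) (nat_lit 6) (nat_lit 556) (nat_lit 4) (nat_lit 168) (nat_lit 212) (nat_lit 190)) (PT.lf (nat_lit 42180) (nat_lit 6) (nat_lit 555) (nat_lit 4) (nat_lit 169) (nat_lit 212) (nat_lit 189)))) (PT.nd (nat_lit 156) (PT.nd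 (nat_lit 78) (PT.lf (nat_lit 42104) (nat_lit 6) (nat_lit 554) (nat_lit 4) (nat_lit 170) (nat_lit 212) (nat_lit 188)) (PT.lf (nat_lit 42028) (nat_lit 6) (nat_lit 553) (nat_lit 4) (nat_lit 171) (nat_lit 212) (nat_lit 187))) (PT.nd (nat_lit 78) (PT.lf (nat_lit 41952) (nat_lit 6) (nat_lit 552) (nat_lit 4) (nat_lit 172) (nat_lit 212) (nat_lit 186)) (PT.nd (nat_lit 78) (PT.lf (nat_lit 41876) (nat_lit 6) (nat_lit 551) (nat_lit 4) (nat_lit 173) (nat_lit 212) (nat_lit 185)) (PT.lf (nat_lit 41800) (nat_lit 6) (nat_lit 550) (nat_lit 4) (nat_lit 174) (nat_lit 212) (nat_lit 184))))))))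
noncomputable def pc98 : PT := (PT.nd (nat_lit 1248) (PT.nd (nat_lit 624) (PT.nd (nat_lit 312) (PT.nd (nat_lit 156) (PT.nd (nat_lit 78) (PT.lf (nat_lit 41724) (nat_lit 6) (nat_lit 549) (nat_lit 4) (nat_lit 175) (nat_lit 212) (nat_lit 183)) (PT.lf (nat_lit 41648) (nat_lit 6) (nat_lit 548) (nat_lit 4) (nat_lit 176) (nat_lit 212) (nat_lit 182))) (PT.nd (nat_lit 78) (PT.lf (nat_lit 41572) (nat_lit 6) (nat_lit 547) (nat_lit 4) (nat_lit 177) (nat_lit 212) (nat_lit 181)) (PT.lf (nat_lit 41496) (nat_lit 6) (nat_lit 546) (nat_lit 4) (nat_lit 178) (nat_lit 212) (nat_lit 180)))) (PT.nd (nat_lit 156) (PT.nd (nat_lit 78) (PT.lf (nat_lit 41420) (nat_lit 3) (nat_lit 545) (nat_lit 2) (nat_lit 179) (nat_lit 212) (nat_lit 179)) (PT.lf (nat_lit 41496) (nat_lit 6) (nat_lit 546) (nat_lit 2) (nat_lit 180) (nat_lit 212) (nat_lit 178))) (PT.nd (nat_lit 78) (PT.lf (nat_lit 41572) (nat_lit 6) (nat_lit 547) (nat_lit 2) (nat_lit 181) (nat_lit 212) (nat_lit 177))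 (PT.lf (nat_lit 41648) (nat_lit 6) (nat_lit 548) (nat_lit 2) (nat_lit 182) (nat_lit 212) (nat_lit 176))))) (PT.nd (nat_lit 312) (PT.nd (nat_lit 156) (PT.nd (nat_lit 78) (PT.lf (nat_lit 41724) (nat_lit 6) (nat_lit 549) (nat_lit 2) (nat_lit 183) (nat_lit 212) (nat_lit 175)) (PT.lf (nat_lit 41800) (nat_lit 6) (nat_lit 550) (nat_lit 2) (nat_lit 184) (nat_lit 212) (nat_lit 174))) (PT.nd (nat_lit 78) (PT.lf (nat_lit 41876) (nat_lit 6) (nat_lit 551) (nat_lit 2) (nat_lit 185) (nat_lit 212) (nat_lit 173)) (PT.lf (nat_lit 41952) (nat_lit 6) (nat_lit 552) (nat_lit 2) (nat_lit 186) (nat_lit 212) (nat_lit 172)))) (PT.nd (nat_lit 156) (PT.nd (nat_lit 78) (PT.lf (nat_lit 42028) (nat_lit 6) (nat_lit 553) (nat_lit 2) (nat_lit 187) (nat_lit 212) (nat_lit 171)) (PT.lf (nat_lit 42104) (nat_lit 6) (nat_lit 554) (nat_lit 2) (nat_lit 188) (nat_lit 212) (nat_lit 170))) (PT.nd (nat_lit 78) (PT.lf (nat_lit 42180) (nat_lit 6) (nat_lit 555) (nat_lit 2) (nat_lit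 189) (nat_lit 212) (nat_lit 169)) (PT.lf (nat_lit 42256) (nat_lit 6) (nat_lit 556) (nat_lit 2) (nat_lit 190) (nat_lit 212) (nat_lit 168)))))) (PT.nd (nat_lit 624) (PT.nd (nat_lit 312) (PT.nd (nat_lit 156) (PT.nd (nat_lit 78) (PT.lf (nat_lit 40584) (nat_lit 6) (nat_lit 534) (nat_lit 2) (nat_lit 191) (nat_lit 212) (nat_lit 167)) (PT.lf (nat_lit 38836) (nat_lit 6) (nat_lit 511) (nat_lit 2) (nat_lit 192) (nat_lit 212) (nat_lit 166))) (PT.nd (nat_lit 78) (PT.lf (nat_lit 37012) (nat_lit 6) (nat_lit 487) (nat_lit 2) (nat_lit 193) (nat_lit 212) (nat_lit 165)) (PT.lf (nat_lit 35872) (nat_lit 6) (nat_lit 472) (nat_lit 2) (nat_lit 194) (nat_lit 212) (nat_lit 164)))) (PT.nd (nat_lit 156) (PT.nd (nat_lit 78) (PT.lf (nat_lit 34960) (nat_lit 6) (nat_lit 460) (nat_lit 2) (nat_lit 195) (nat_lit 212) (nat_lit 163)) (PT.lf (nat_lit 34048) (nat_lit 6) (nat_lit 448) (nat_lit 2) (nat_lit 196) (nat_lit 212) (nat_lit 162))) (PT.nd (nat_lit 78) (PT.lf (nat_lit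 33212) (nat_lit 6) (nat_lit 437) (nat_lit 2) (nat_lit 197) (nat_lit 212) (nat_lit 161)) (PT.lf (nat_lit 32300) (nat_lit 6) (nat_lit 425) (nat_lit 2) (nat_lit 198) (nat_lit 212) (nat_lit 160))))) (PT.nd (nat_lit 312) (PT.nd (nat_lit 156) (PT.nd (nat_lit 78) (PT.lf (nat_lit 31464) (nat_lit 6) (nat_lit 414) (nat_lit 2) (nat_lit 199) (nat_lit 212) (nat_lit 159)) (PT.lf (nat_lit 30628) (nat_lit 6) (nat_lit 403) (nat_lit 2) (nat_lit 200) (nat_lit 212) (nat_lit 158))) (PT.nd (nat_lit 78) (PT.lf (nat_lit 29868) (nat_lit 6) (nat_lit 393) (nat_lit 2) (nat_lit 201) (nat_lit 212) (nat_lit 157)) (PT.lf (nat_lit 29108) (nat_lit 6) (nat_lit 383) (nat_lit 2) (nat_lit 202) (nat_lit 212) (nat_lit 156)))) (PT.nd (nat_lit 156) (PT.nd (nat_lit 78) (PT.lf (nat_lit 28348) (nat_lit 6) (nat_lit 373) (nat_lit 2) (nat_lit 203) (nat_lit 212) (nat_lit 155)) (PT.lf (nat_lit 27588) (nat_lit 6) (nat_lit 363) (nat_lit 2) (nat_lit 204) (nat_lit 212) (nat_lit 154))) (PT.nd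 (nat_lit 78) (PT.lf (nat_lit 26904) (nat_lit 6) (nat_lit 354) (nat_lit 2) (nat_lit 205) (nat_lit 212) (nat_lit 153)) (PT.nd (nat_lit 78) (PT.lf (nat_lit 26220) (nat_lit 6) (nat_lit 345) (nat_lit 2) (nat_lit 206) (nat_lit 212) (nat_lit 152)) (PT.lf (nat_lit 25536) (nat_lit 6) (nat_lit 336) (nat_lit 2) (nat_lit 207) (nat_lit 212) (nat_lit 151))))))))
noncomputable def pc99 : PT := (PT.nd (nat_lit 53508) (PT.nd (nat_lit 624) (PT.nd (nat_lit 312) (PT.nd (nat_lit 156) (PT.nd (nat_lit 78) (PT.lf (nat_lit 24852) (nat_lit 6) (nat_lit 327) (nat_lit 2) (nat_lit 208) (nat_lit 212) (nat_lit 150)) (PT.lf (nat_lit 24244) (nat_lit 6) (nat_lit 319) (nat_lit 2) (nat_lit 209) (nat_lit 212) (nat_lit 149))) (PT.nd (nat_lit 78) (PT.lf (nat_lit 23636) (nat_lit 6) (nat_lit 311) (nat_lit 2) (nat_lit 210) (nat_lit 212) (nat_lit 148)) (PT.lf (nat_lit 23028) (nat_lit 6) (nat_lit 303) (nat_lit 2) (nat_lit 211) (nat_lit 212) (nat_lit 147)))) (PT.nd (nat_lit 156)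 (PT.nd (nat_lit 78) (PT.lf (nat_lit 22420) (nat_lit 3) (nat_lit 295) (nat_lit 0) (nat_lit 212) (nat_lit 212) (nat_lit 146)) (PT.lf (nat_lit 21812) (nat_lit 6) (nat_lit 287) (nat_lit 0) (nat_lit 213) (nat_lit 212) (nat_lit 145))) (PT.nd (nat_lit 78) (PT.lf (nat_lit 21128) (nat_lit 6) (nat_lit 278) (nat_lit 0) (nat_lit 214) (nat_lit 212) (nat_lit 144)) (PT.lf (nat_lit 20520) (nat_lit 6) (nat_lit 270) (nat_lit 0) (nat_lit 215) (nat_lit 212) (nat_lit 143))))) (PT.nd (nat_lit 312) (PT.nd (nat_lit 156) (PT.nd (nat_lit 78) (PT.lf (nat_lit 19912) (nat_lit 6) (nat_lit 262) (nat_lit 0) (nat_lit 216) (nat_lit 212) (nat_lit 142)) (PT.lf (nat_lit 19304) (nat_lit 6) (nat_lit 254) (nat_lit 0) (nat_lit 217) (nat_lit 212) (nat_lit 141))) (PT.nd (nat_lit 78) (PT.lf (nat_lit 18696) (nat_lit 6) (nat_lit 246) (nat_lit 0) (nat_lit 218) (nat_lit 212) (nat_lit 140)) (PT.lf (nat_lit 18164) (nat_lit 6) (nat_lit 239) (nat_lit 0) (nat_lit 219) (nat_lit 212) (nat_lit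 139)))) (PT.nd (nat_lit 156) (PT.nd (nat_lit 78) (PT.lf (nat_lit 17556) (nat_lit 6) (nat_lit 231) (nat_lit 0) (nat_lit 220) (nat_lit 212) (nat_lit 138)) (PT.lf (nat_lit 17024) (nat_lit 6) (nat_lit 224) (nat_lit 0) (nat_lit 221) (nat_lit 212) (nat_lit 137))) (PT.nd (nat_lit 78) (PT.lf (nat_lit 16492) (nat_lit 6) (nat_lit 217) (nat_lit 0) (nat_lit 222) (nat_lit 212) (nat_lit 136)) (PT.lf (nat_lit 15960) (nat_lit 6) (nat_lit 210) (nat_lit 0) (nat_lit 223) (nat_lit 212) (nat_lit 135)))))) (PT.nd (nat_lit 624) (PT.nd (nat_lit 312) (PT.nd (nat_lit 156) (PT.nd (nat_lit 78) (PT.lf (nat_lit 15048) (nat_lit 6) (nat_lit 198) (nat_lit 5) (nat_lit 133) (nat_lit 213) (nat_lit 224)) (PT.lf (nat_lit 15504) (nat_lit 6) (nat_lit 204) (nat_lit 5) (nat_lit 134) (nat_lit 213) (nat_lit 223))) (PT.nd (nat_lit 78) (PT.lf (nat_lit 16036) (nat_lit 6) (nat_lit 211) (nat_lit 5) (nat_lit 135) (nat_lit 213) (nat_lit 222)) (PT.lf (nat_lit 16568) (nat_lit 6) (nat_lit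 218) (nat_lit 5) (nat_lit 136) (nat_lit 213) (nat_lit 221)))) (PT.nd (nat_lit 156) (PT.nd (nat_lit 78) (PT.lf (nat_lit 17100) (nat_lit 6) (nat_lit 225) (nat_lit 5) (nat_lit 137) (nat_lit 213) (nat_lit 220)) (PT.lf (nat_lit 17632) (nat_lit 6) (nat_lit 232) (nat_lit 5) (nat_lit 138) (nat_lit 213) (nat_lit 219))) (PT.nd (nat_lit 78) (PT.lf (nat_lit 18240) (nat_lit 6) (nat_lit 240) (nat_lit 5) (nat_lit 139) (nat_lit 213) (nat_lit 218)) (PT.lf (nat_lit 18772) (nat_lit 6) (nat_lit 247) (nat_lit 5) (nat_lit 140) (nat_lit 213) (nat_lit 217))))) (PT.nd (nat_lit 312) (PT.nd (nat_lit 156) (PT.nd (nat_lit 78) (PT.lf (nat_lit 19380) (nat_lit 6) (nat_lit 255) (nat_lit 5) (nat_lit 141) (nat_lit 213) (nat_lit 216)) (PT.lf (nat_lit 19988) (nat_lit 6) (nat_lit 263) (nat_lit 5) (nat_lit 142) (nat_lit 213) (nat_lit 215))) (PT.nd (nat_lit 78) (PT.lf (nat_lit 20596) (nat_lit 6) (nat_lit 271) (nat_lit 5) (nat_lit 143) (nat_lit 213) (nat_lit 214)) (PT.lf (nat_lit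 21204) (nat_lit 3) (nat_lit 279) (nat_lit 4) (nat_lit 144) (nat_lit 213) (nat_lit 213)))) (PT.nd (nat_lit 156) (PT.nd (nat_lit 78) (PT.lf (nat_lit 21812) (nat_lit 6) (nat_lit 287) (nat_lit 4) (nat_lit 145) (nat_lit 213) (nat_lit 212)) (PT.lf (nat_lit 22344) (nat_lit 6) (nat_lit 294) (nat_lit 4) (nat_lit 146) (nat_lit 213) (nat_lit 211))) (PT.nd (nat_lit 78) (PT.lf (nat_lit 22952) (nat_lit 6) (nat_lit 302) (nat_lit 4) (nat_lit 147) (nat_lit 213) (nat_lit 210)) (PT.nd (nat_lit 78) (PT.lf (nat_lit 23560) (nat_lit 6) (nat_lit 310) (nat_lit 4) (nat_lit 148) (nat_lit 213) (nat_lit 209)) (PT.lf (nat_lit 24168) (nat_lit 6) (nat_lit 318) (nat_lit 4) (nat_lit 149) (nat_lit 213) (nat_lit 208))))))))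
noncomputable def pc100 : PT := (PT.nd (nat_lit 1248) (PT.nd (nat_lit 624) (PT.nd (nat_lit 312) (PT.nd (nat_lit 156) (PT.nd (nat_lit 78) (PT.lf (nat_lit 24776) (nat_lit 6) (nat_lit 326) (nat_lit 4) (nat_lit 150) (nat_lit 213) (nat_lit 207)) (PT.lf (nat_lit 25460) (nat_lit 6) (nat_lit 335) (nat_lit 4) (nat_lit 151) (nat_lit 213) (nat_lit 206))) (PT.nd (nat_lit 78) (PT.lf (nat_lit 26144) (nat_lit 6) (nat_lit 344) (nat_lit 4) (nat_lit 152) (nat_lit 213) (nat_lit 205)) (PT.lf (nat_lit 26828) (nat_lit 6) (nat_lit 353) (nat_lit 4) (nat_lit 153) (nat_lit 213) (nat_lit 204)))) (PT.nd (nat_lit 156) (PT.nd (nat_lit 78) (PT.lf (nat_lit 27512) (nat_lit 6) (nat_lit 362) (nat_lit 4) (nat_lit 154) (nat_lit 213) (nat_lit 203)) (PT.lf (nat_lit 28272) (nat_lit 6) (nat_lit 372) (nat_lit 4) (nat_lit 155) (nat_lit 213) (nat_lit 202))) (PT.nd (nat_lit 78) (PT.lf (nat_lit 29032) (nat_lit 6) (nat_lit 382) (nat_lit 4) (nat_lit 156) (nat_lit 213) (nat_lit 201))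 (PT.lf (nat_lit 29792) (nat_lit 6) (nat_lit 392) (nat_lit 4) (nat_lit 157) (nat_lit 213) (nat_lit 200))))) (PT.nd (nat_lit 312) (PT.nd (nat_lit 156) (PT.nd (nat_lit 78) (PT.lf (nat_lit 30552) (nat_lit 6) (nat_lit 402) (nat_lit 4) (nat_lit 158) (nat_lit 213) (nat_lit 199)) (PT.lf (nat_lit 31388) (nat_lit 6) (nat_lit 413) (nat_lit 4) (nat_lit 159) (nat_lit 213) (nat_lit 198))) (PT.nd (nat_lit 78) (PT.lf (nat_lit 32224) (nat_lit 6) (nat_lit 424) (nat_lit 4) (nat_lit 160) (nat_lit 213) (nat_lit 197)) (PT.lf (nat_lit 33136) (nat_lit 6) (nat_lit 436) (nat_lit 4) (nat_lit 161) (nat_lit 213) (nat_lit 196)))) (PT.nd (nat_lit 156) (PT.nd (nat_lit 78) (PT.lf (nat_lit 33972) (nat_lit 6) (nat_lit 447) (nat_lit 4) (nat_lit 162) (nat_lit 213) (nat_lit 195)) (PT.lf (nat_lit 34884) (nat_lit 6) (nat_lit 459) (nat_lit 4) (nat_lit 163) (nat_lit 213) (nat_lit 194))) (PT.nd (nat_lit 78) (PT.lf (nat_lit 35796) (nat_lit 6) (nat_lit 471) (nat_lit 4) (nat_lit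 164) (nat_lit 213) (nat_lit 193)) (PT.lf (nat_lit 36936) (nat_lit 6) (nat_lit 486) (nat_lit 4) (nat_lit 165) (nat_lit 213) (nat_lit 192)))))) (PT.nd (nat_lit 624) (PT.nd (nat_lit 312) (PT.nd (nat_lit 156) (PT.nd (nat_lit 78) (PT.lf (nat_lit 38760) (nat_lit 6) (nat_lit 510) (nat_lit 4) (nat_lit 166) (nat_lit 213) (nat_lit 191)) (PT.lf (nat_lit 40508) (nat_lit 6) (nat_lit 533) (nat_lit 4) (nat_lit 167) (nat_lit 213) (nat_lit 190))) (PT.nd (nat_lit 78) (PT.lf (nat_lit 40432) (nat_lit 6) (nat_lit 532) (nat_lit 4) (nat_lit 168) (nat_lit 213) (nat_lit 189)) (PT.lf (nat_lit 40356) (nat_lit 6) (nat_lit 531) (nat_lit 4) (nat_lit 169) (nat_lit 213) (nat_lit 188)))) (PT.nd (nat_lit 156) (PT.nd (nat_lit 78) (PT.lf (nat_lit 40280) (nat_lit 6) (nat_lit 530) (nat_lit 4) (nat_lit 170) (nat_lit 213) (nat_lit 187)) (PT.lf (nat_lit 40204) (nat_lit 6) (nat_lit 529) (nat_lit 4) (nat_lit 171) (nat_lit 213) (nat_lit 186))) (PT.nd (nat_lit 78) (PT.lf (nat_lit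 40128) (nat_lit 6) (nat_lit 528) (nat_lit 4) (nat_lit 172) (nat_lit 213) (nat_lit 185)) (PT.lf (nat_lit 40052) (nat_lit 6) (nat_lit 527) (nat_lit 4) (nat_lit 173) (nat_lit 213) (nat_lit 184))))) (PT.nd (nat_lit 312) (PT.nd (nat_lit 156) (PT.nd (nat_lit 78) (PT.lf (nat_lit 39976) (nat_lit 6) (nat_lit 526) (nat_lit 4) (nat_lit 174) (nat_lit 213) (nat_lit 183)) (PT.lf (nat_lit 39900) (nat_lit 6) (nat_lit 525) (nat_lit 4) (nat_lit 175) (nat_lit 213) (nat_lit 182))) (PT.nd (nat_lit 78) (PT.lf (nat_lit 39824) (nat_lit 6) (nat_lit 524) (nat_lit 4) (nat_lit 176) (nat_lit 213) (nat_lit 181)) (PT.lf (nat_lit 39748) (nat_lit 6) (nat_lit 523) (nat_lit 4) (nat_lit 177) (nat_lit 213) (nat_lit 180)))) (PT.nd (nat_lit 156) (PT.nd (nat_lit 78) (PT.lf (nat_lit 39672) (nat_lit 6) (nat_lit 522) (nat_lit 4) (nat_lit 178) (nat_lit 213) (nat_lit 179)) (PT.lf (nat_lit 39672) (nat_lit 6) (nat_lit 522) (nat_lit 2) (nat_lit 179) (nat_lit 213) (nat_lit 178))) (PT.nd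 (nat_lit 78) (PT.lf (nat_lit 39748) (nat_lit 6) (nat_lit 523) (nat_lit 2) (nat_lit 180) (nat_lit 213) (nat_lit 177)) (PT.lf (nat_lit 39824) (nat_lit 6) (nat_lit 524) (nat_lit 2) (nat_lit 181) (nat_lit 213) (nat_lit 176)))))))
noncomputable def pc101 : PT := (PT.nd (nat_lit 1248) (PT.nd (nat_lit 624) (PT.nd (nat_lit 312) (PT.nd (nat_lit 156) (PT.nd (nat_lit 78) (PT.lf (nat_lit 39900) (nat_lit 6) (nat_lit 525) (nat_lit 2) (nat_lit 182) (nat_lit 213) (nat_lit 175)) (PT.lf (nat_lit 39976) (nat_lit 6) (nat_lit 526) (nat_lit 2) (nat_lit 183) (nat_lit 213) (nat_lit 174))) (PT.nd (nat_lit 78) (PT.lf (nat_lit 40052) (nat_lit 6) (nat_lit 527) (nat_lit 2) (nat_lit 184) (nat_lit 213) (nat_lit 173)) (PT.lf (nat_lit 40128) (nat_lit 6) (nat_lit 528) (nat_lit 2) (nat_lit 185) (nat_lit 213) (nat_lit 172)))) (PT.nd (nat_lit 156) (PT.nd (nat_lit 78) (PT.lf (nat_lit 40204) (nat_lit 6) (nat_lit 529) (nat_lit 2) (nat_lit 186) (nat_lit 213) (nat_lit 171)) (PT.lf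 (nat_lit 40280) (nat_lit 6) (nat_lit 530) (nat_lit 2) (nat_lit 187) (nat_lit 213) (nat_lit 170))) (PT.nd (nat_lit 78) (PT.lf (nat_lit 40356) (nat_lit 6) (nat_lit 531) (nat_lit 2) (nat_lit 188) (nat_lit 213) (nat_lit 169)) (PT.lf (nat_lit 40432) (nat_lit 6) (nat_lit 532) (nat_lit 2) (nat_lit 189) (nat_lit 213) (nat_lit 168))))) (PT.nd (nat_lit 312) (PT.nd (nat_lit 156) (PT.nd (nat_lit 78) (PT.lf (nat_lit 40508) (nat_lit 6) (nat_lit 533) (nat_lit 2) (nat_lit 190) (nat_lit 213) (nat_lit 167)) (PT.lf (nat_lit 38760) (nat_lit 6) (nat_lit 510) (nat_lit 2) (nat_lit 191) (nat_lit 213) (nat_lit 166))) (PT.nd (nat_lit 78) (PT.lf (nat_lit 36936) (nat_lit 6) (nat_lit 486) (nat_lit 2) (nat_lit 192) (nat_lit 213) (nat_lit 165)) (PT.lf (nat_lit 35796) (nat_lit 6) (nat_lit 471) (nat_lit 2) (nat_lit 193) (nat_lit 213) (nat_lit 164)))) (PT.nd (nat_lit 156) (PT.nd (nat_lit 78) (PT.lf (nat_lit 34884) (nat_lit 6) (nat_lit 459) (nat_lit 2) (nat_lit 194) (nat_lit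 213) (nat_lit 163)) (PT.lf (nat_lit 33972) (nat_lit 6) (nat_lit 447) (nat_lit 2) (nat_lit 195) (nat_lit 213) (nat_lit 162))) (PT.nd (nat_lit 78) (PT.lf (nat_lit 33136) (nat_lit 6) (nat_lit 436) (nat_lit 2) (nat_lit 196) (nat_lit 213) (nat_lit 161)) (PT.lf (nat_lit 32224) (nat_lit 6) (nat_lit 424) (nat_lit 2) (nat_lit 197) (nat_lit 213) (nat_lit 160)))))) (PT.nd (nat_lit 624) (PT.nd (nat_lit 312) (PT.nd (nat_lit 156) (PT.nd (nat_lit 78) (PT.lf (nat_lit 31388) (nat_lit 6) (nat_lit 413) (nat_lit 2) (nat_lit 198) (nat_lit 213) (nat_lit 159)) (PT.lf (nat_lit 30552) (nat_lit 6) (nat_lit 402) (nat_lit 2) (nat_lit 199) (nat_lit 213) (nat_lit 158))) (PT.nd (nat_lit 78) (PT.lf (nat_lit 29792) (nat_lit 6) (nat_lit 392) (nat_lit 2) (nat_lit 200) (nat_lit 213) (nat_lit 157)) (PT.lf (nat_lit 29032) (nat_lit 6) (nat_lit 382) (nat_lit 2) (nat_lit 201) (nat_lit 213) (nat_lit 156)))) (PT.nd (nat_lit 156) (PT.nd (nat_lit 78) (PT.lf (nat_lit 28272) (nat_lit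 6) (nat_lit 372) (nat_lit 2) (nat_lit 202) (nat_lit 213) (nat_lit 155)) (PT.lf (nat_lit 27512) (nat_lit 6) (nat_lit 362) (nat_lit 2) (nat_lit 203) (nat_lit 213) (nat_lit 154))) (PT.nd (nat_lit 78) (PT.lf (nat_lit 26828) (nat_lit 6) (nat_lit 353) (nat_lit 2) (nat_lit 204) (nat_lit 213) (nat_lit 153)) (PT.lf (nat_lit 26144) (nat_lit 6) (nat_lit 344) (nat_lit 2) (nat_lit 205) (nat_lit 213) (nat_lit 152))))) (PT.nd (nat_lit 312) (PT.nd (nat_lit 156) (PT.nd (nat_lit 78) (PT.lf (nat_lit 25460) (nat_lit 6) (nat_lit 335) (nat_lit 2) (nat_lit 206) (nat_lit 213) (nat_lit 151)) (PT.lf (nat_lit 24776) (nat_lit 6) (nat_lit 326) (nat_lit 2) (nat_lit 207) (nat_lit 213) (nat_lit 150))) (PT.nd (nat_lit 78) (PT.lf (nat_lit 24168) (nat_lit 6) (nat_lit 318) (nat_lit 2) (nat_lit 208) (nat_lit 213) (nat_lit 149)) (PT.lf (nat_lit 23560) (nat_lit 6) (nat_lit 310) (nat_lit 2) (nat_lit 209) (nat_lit 213) (nat_lit 148)))) (PT.nd (nat_lit 156) (PT.nd (nat_lit 78)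 (PT.lf (nat_lit 22952) (nat_lit 6) (nat_lit 302) (nat_lit 2) (nat_lit 210) (nat_lit 213) (nat_lit 147)) (PT.lf (nat_lit 22344) (nat_lit 6) (nat_lit 294) (nat_lit 2) (nat_lit 211) (nat_lit 213) (nat_lit 146))) (PT.nd (nat_lit 78) (PT.lf (nat_lit 21812) (nat_lit 6) (nat_lit 287) (nat_lit 2) (nat_lit 212) (nat_lit 213) (nat_lit 145)) (PT.nd (nat_lit 78) (PT.lf (nat_lit 21204) (nat_lit 3) (nat_lit 279) (nat_lit 0) (nat_lit 213) (nat_lit 213) (nat_lit 144)) (PT.lf (nat_lit 20596) (nat_lit 6) (nat_lit 271) (nat_lit 0) (nat_lit 214) (nat_lit 213) (nat_lit 143))))))))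
noncomputable def pc102 : PT := (PT.nd (nat_lit 53352) (PT.nd (nat_lit 624) (PT.nd (nat_lit 312) (PT.nd (nat_lit 156) (PT.nd (nat_lit 78) (PT.lf (nat_lit 19988) (nat_lit 6) (nat_lit 263) (nat_lit 0) (nat_lit 215) (nat_lit 213) (nat_lit 142)) (PT.lf (nat_lit 19380) (nat_lit 6) (nat_lit 255) (nat_lit 0) (nat_lit 216) (nat_lit 213) (nat_lit 141))) (PT.nd (nat_lit 78) (PT.lf (nat_lit 18772) (nat_lit 6) (nat_lit 247) (nat_lit 0) (nat_lit 217) (nat_lit 213) (nat_lit 140)) (PT.lf (nat_lit 18240) (nat_lit 6) (nat_lit 240) (nat_lit 0) (nat_lit 218) (nat_lit 213) (nat_lit 139)))) (PT.nd (nat_lit 156) (PT.nd (nat_lit 78) (PT.lf (nat_lit 17632) (nat_lit 6) (nat_lit 232) (nat_lit 0) (nat_lit 219) (nat_lit 213) (nat_lit 138)) (PT.lf (nat_lit 17100) (nat_lit 6) (nat_lit 225) (nat_lit 0) (nat_lit 220) (nat_lit 213) (nat_lit 137))) (PT.nd (nat_lit 78) (PT.lf (nat_lit 16568) (nat_lit 6) (nat_lit 218) (nat_lit 0) (nat_lit 221) (nat_lit 213) (nat_lit 136))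 (PT.lf (nat_lit 16036) (nat_lit 6) (nat_lit 211) (nat_lit 0) (nat_lit 222) (nat_lit 213) (nat_lit 135))))) (PT.nd (nat_lit 52416) (PT.nd (nat_lit 52260) (PT.nd (nat_lit 78) (PT.lf (nat_lit 15504) (nat_lit 6) (nat_lit 204) (nat_lit 0) (nat_lit 223) (nat_lit 213) (nat_lit 134)) (PT.lf (nat_lit 15048) (nat_lit 6) (nat_lit 198) (nat_lit 0) (nat_lit 224) (nat_lit 213) (nat_lit 133))) (PT.nd (nat_lit 78) (PT.lf (nat_lit 14592) (nat_lit 6) (nat_lit 192) (nat_lit 5) (nat_lit 132) (nat_lit 214) (nat_lit 224)) (PT.lf (nat_lit 15124) (nat_lit 6) (nat_lit 199) (nat_lit 5) (nat_lit 133) (nat_lit 214) (nat_lit 223)))) (PT.nd (nat_lit 156) (PT.nd (nat_lit 78) (PT.lf (nat_lit 15580) (nat_lit 6) (nat_lit 205) (nat_lit 5) (nat_lit 134) (nat_lit 214) (nat_lit 222)) (PT.lf (nat_lit 16112) (nat_lit 6) (nat_lit 212) (nat_lit 5) (nat_lit 135) (nat_lit 214) (nat_lit 221))) (PT.nd (nat_lit 78) (PT.lf (nat_lit 16644) (nat_lit 6) (nat_lit 219) (nat_lit 5) (nat_lit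 136) (nat_lit 214) (nat_lit 220)) (PT.lf (nat_lit 17176) (nat_lit 6) (nat_lit 226) (nat_lit 5) (nat_lit 137) (nat_lit 214) (nat_lit 219)))))) (PT.nd (nat_lit 624) (PT.nd (nat_lit 312) (PT.nd (nat_lit 156) (PT.nd (nat_lit 78) (PT.lf (nat_lit 17708) (nat_lit 6) (nat_lit 233) (nat_lit 5) (nat_lit 138) (nat_lit 214) (nat_lit 218)) (PT.lf (nat_lit 18316) (nat_lit 6) (nat_lit 241) (nat_lit 5) (nat_lit 139) (nat_lit 214) (nat_lit 217))) (PT.nd (nat_lit 78) (PT.lf (nat_lit 18848) (nat_lit 6) (nat_lit 248) (nat_lit 5) (nat_lit 140) (nat_lit 214) (nat_lit 216)) (PT.lf (nat_lit 19456) (nat_lit 6) (nat_lit 256) (nat_lit 5) (nat_lit 141) (nat_lit 214) (nat_lit 215)))) (PT.nd (nat_lit 156) (PT.nd (nat_lit 78) (PT.lf (nat_lit 20064) (nat_lit 3) (nat_lit 264) (nat_lit 4) (nat_lit 142) (nat_lit 214) (nat_lit 214)) (PT.lf (nat_lit 20596) (nat_lit 6) (nat_lit 271) (nat_lit 4) (nat_lit 143) (nat_lit 214) (nat_lit 213))) (PT.nd (nat_lit 78) (PT.lf (nat_lit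 21128) (nat_lit 6) (nat_lit 278) (nat_lit 4) (nat_lit 144) (nat_lit 214) (nat_lit 212)) (PT.lf (nat_lit 21736) (nat_lit 6) (nat_lit 286) (nat_lit 4) (nat_lit 145) (nat_lit 214) (nat_lit 211))))) (PT.nd (nat_lit 312) (PT.nd (nat_lit 156) (PT.nd (nat_lit 78) (PT.lf (nat_lit 22268) (nat_lit 6) (nat_lit 293) (nat_lit 4) (nat_lit 146) (nat_lit 214) (nat_lit 210)) (PT.lf (nat_lit 22876) (nat_lit 6) (nat_lit 301) (nat_lit 4) (nat_lit 147) (nat_lit 214) (nat_lit 209))) (PT.nd (nat_lit 78) (PT.lf (nat_lit 23484) (nat_lit 6) (nat_lit 309) (nat_lit 4) (nat_lit 148) (nat_lit 214) (nat_lit 208)) (PT.lf (nat_lit 24092) (nat_lit 6) (nat_lit 317) (nat_lit 4) (nat_lit 149) (nat_lit 214) (nat_lit 207)))) (PT.nd (nat_lit 156) (PT.nd (nat_lit 78) (PT.lf (nat_lit 24700) (nat_lit 6) (nat_lit 325) (nat_lit 4) (nat_lit 150) (nat_lit 214) (nat_lit 206)) (PT.lf (nat_lit 25384) (nat_lit 6) (nat_lit 334) (nat_lit 4) (nat_lit 151) (nat_lit 214) (nat_lit 205))) (PT.nd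 (nat_lit 78) (PT.lf (nat_lit 26068) (nat_lit 6) (nat_lit 343) (nat_lit 4) (nat_lit 152) (nat_lit 214) (nat_lit 204)) (PT.nd (nat_lit 78) (PT.lf (nat_lit 26752) (nat_lit 6) (nat_lit 352) (nat_lit 4) (nat_lit 153) (nat_lit 214) (nat_lit 203)) (PT.lf (nat_lit 27436) (nat_lit 6) (nat_lit 361) (nat_lit 4) (nat_lit 154) (nat_lit 214) (nat_lit 202))))))))
noncomputable def pc103 : PT := (PT.nd (nat_lit 1248) (PT.nd (nat_lit 624) (PT.nd (nat_lit 312) (PT.nd (nat_lit 156) (PT.nd (nat_lit 78) (PT.lf (nat_lit 28196) (nat_lit 6) (nat_lit 371) (nat_lit 4) (nat_lit 155) (nat_lit 214) (nat_lit 201)) (PT.lf (nat_lit 28956) (nat_lit 6) (nat_lit 381) (nat_lit 4) (nat_lit 156) (nat_lit 214) (nat_lit 200))) (PT.nd (nat_lit 78) (PT.lf (nat_lit 29716) (nat_lit 6) (nat_lit 391) (nat_lit 4) (nat_lit 157) (nat_lit 214) (nat_lit 199)) (PT.lf (nat_lit 30476) (nat_lit 6) (nat_lit 401) (nat_lit 4) (nat_lit 158) (nat_lit 214) (nat_lit 198)))) (PT.nd (nat_lit 156)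 (PT.nd (nat_lit 78) (PT.lf (nat_lit 31312) (nat_lit 6) (nat_lit 412) (nat_lit 4) (nat_lit 159) (nat_lit 214) (nat_lit 197)) (PT.lf (nat_lit 32148) (nat_lit 6) (nat_lit 423) (nat_lit 4) (nat_lit 160) (nat_lit 214) (nat_lit 196))) (PT.nd (nat_lit 78) (PT.lf (nat_lit 33060) (nat_lit 6) (nat_lit 435) (nat_lit 4) (nat_lit 161) (nat_lit 214) (nat_lit 195)) (PT.lf (nat_lit 33896) (nat_lit 6) (nat_lit 446) (nat_lit 4) (nat_lit 162) (nat_lit 214) (nat_lit 194))))) (PT.nd (nat_lit 312) (PT.nd (nat_lit 156) (PT.nd (nat_lit 78) (PT.lf (nat_lit 34808) (nat_lit 6) (nat_lit 458) (nat_lit 4) (nat_lit 163) (nat_lit 214) (nat_lit 193)) (PT.lf (nat_lit 35720) (nat_lit 6) (nat_lit 470) (nat_lit 4) (nat_lit 164) (nat_lit 214) (nat_lit 192))) (PT.nd (nat_lit 78) (PT.lf (nat_lit 36860) (nat_lit 6) (nat_lit 485) (nat_lit 4) (nat_lit 165) (nat_lit 214) (nat_lit 191)) (PT.lf (nat_lit 38684) (nat_lit 6) (nat_lit 509) (nat_lit 4) (nat_lit 166) (nat_lit 214) (nat_lit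 190)))) (PT.nd (nat_lit 156) (PT.nd (nat_lit 78) (PT.lf (nat_lit 38608) (nat_lit 6) (nat_lit 508) (nat_lit 4) (nat_lit 167) (nat_lit 214) (nat_lit 189)) (PT.lf (nat_lit 38532) (nat_lit 6) (nat_lit 507) (nat_lit 4) (nat_lit 168) (nat_lit 214) (nat_lit 188))) (PT.nd (nat_lit 78) (PT.lf (nat_lit 38456) (nat_lit 6) (nat_lit 506) (nat_lit 4) (nat_lit 169) (nat_lit 214) (nat_lit 187)) (PT.lf (nat_lit 38380) (nat_lit 6) (nat_lit 505) (nat_lit 4) (nat_lit 170) (nat_lit 214) (nat_lit 186)))))) (PT.nd (nat_lit 624) (PT.nd (nat_lit 312) (PT.nd (nat_lit 156) (PT.nd (nat_lit 78) (PT.lf (nat_lit 38304) (nat_lit 6) (nat_lit 504) (nat_lit 4) (nat_lit 171) (nat_lit 214) (nat_lit 185)) (PT.lf (nat_lit 38228) (nat_lit 6) (nat_lit 503) (nat_lit 4) (nat_lit 172) (nat_lit 214) (nat_lit 184))) (PT.nd (nat_lit 78) (PT.lf (nat_lit 38152) (nat_lit 6) (nat_lit 502) (nat_lit 4) (nat_lit 173) (nat_lit 214) (nat_lit 183)) (PT.lf (nat_lit 38076) (nat_lit 6) (nat_lit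 501) (nat_lit 4) (nat_lit 174) (nat_lit 214) (nat_lit 182)))) (PT.nd (nat_lit 156) (PT.nd (nat_lit 78) (PT.lf (nat_lit 38000) (nat_lit 6) (nat_lit 500) (nat_lit 4) (nat_lit 175) (nat_lit 214) (nat_lit 181)) (PT.lf (nat_lit 37924) (nat_lit 6) (nat_lit 499) (nat_lit 4) (nat_lit 176) (nat_lit 214) (nat_lit 180))) (PT.nd (nat_lit 78) (PT.lf (nat_lit 37848) (nat_lit 6) (nat_lit 498) (nat_lit 4) (nat_lit 177) (nat_lit 214) (nat_lit 179)) (PT.lf (nat_lit 37772) (nat_lit 3) (nat_lit 497) (nat_lit 2) (nat_lit 178) (nat_lit 214) (nat_lit 178))))) (PT.nd (nat_lit 312) (PT.nd (nat_lit 156) (PT.nd (nat_lit 78) (PT.lf (nat_lit 37848) (nat_lit 6) (nat_lit 498) (nat_lit 2) (nat_lit 179) (nat_lit 214) (nat_lit 177)) (PT.lf (nat_lit 37924) (nat_lit 6) (nat_lit 499) (nat_lit 2) (nat_lit 180) (nat_lit 214) (nat_lit 176))) (PT.nd (nat_lit 78) (PT.lf (nat_lit 38000) (nat_lit 6) (nat_lit 500) (nat_lit 2) (nat_lit 181) (nat_lit 214) (nat_lit 175)) (PT.lf (nat_lit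 38076) (nat_lit 6) (nat_lit 501) (nat_lit 2) (nat_lit 182) (nat_lit 214) (nat_lit 174)))) (PT.nd (nat_lit 156) (PT.nd (nat_lit 78) (PT.lf (nat_lit 38152) (nat_lit 6) (nat_lit 502) (nat_lit 2) (nat_lit 183) (nat_lit 214) (nat_lit 173)) (PT.lf (nat_lit 38228) (nat_lit 6) (nat_lit 503) (nat_lit 2) (nat_lit 184) (nat_lit 214) (nat_lit 172))) (PT.nd (nat_lit 78) (PT.lf (nat_lit 38304) (nat_lit 6) (nat_lit 504) (nat_lit 2) (nat_lit 185) (nat_lit 214) (nat_lit 171)) (PT.nd (nat_lit 78) (PT.lf (nat_lit 38380) (nat_lit 6) (nat_lit 505) (nat_lit 2) (nat_lit 186) (nat_lit 214) (nat_lit 170)) (PT.lf (nat_lit 38456) (nat_lit 6) (nat_lit 506) (nat_lit 2) (nat_lit 187) (nat_lit 214) (nat_lit 169))))))))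
noncomputable def pc104 : PT := (PT.nd (nat_lit 1248) (PT.nd (nat_lit 624) (PT.nd (nat_lit 312) (PT.nd (nat_lit 156) (PT.nd (nat_lit 78) (PT.lf (nat_lit 38532) (nat_lit 6) (nat_lit 507) (nat_lit 2) (nat_lit 188) (nat_lit 214) (nat_lit 168)) (PT.lf (nat_lit 38608) (nat_lit 6) (nat_lit 508) (nat_lit 2) (nat_lit 189) (nat_lit 214) (nat_lit 167))) (PT.nd (nat_lit 78) (PT.lf (nat_lit 38684) (nat_lit 6) (nat_lit 509) (nat_lit 2) (nat_lit 190) (nat_lit 214) (nat_lit 166)) (PT.lf (nat_lit 36860) (nat_lit 6) (nat_lit 485) (nat_lit 2) (nat_lit 191) (nat_lit 214) (nat_lit 165)))) (PT.nd (nat_lit 156) (PT.nd (nat_lit 78) (PT.lf (nat_lit 35720) (nat_lit 6) (nat_lit 470) (nat_lit 2) (nat_lit 192) (nat_lit 214) (nat_lit 164)) (PT.lf (nat_lit 34808) (nat_lit 6) (nat_lit 458) (nat_lit 2) (nat_lit 193) (nat_lit 214) (nat_lit 163))) (PT.nd (nat_lit 78) (PT.lf (nat_lit 33896) (nat_lit 6) (nat_lit 446) (nat_lit 2) (nat_lit 194) (nat_lit 214) (nat_lit 162))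 (PT.lf (nat_lit 33060) (nat_lit 6) (nat_lit 435) (nat_lit 2) (nat_lit 195) (nat_lit 214) (nat_lit 161))))) (PT.nd (nat_lit 312) (PT.nd (nat_lit 156) (PT.nd (nat_lit 78) (PT.lf (nat_lit 32148) (nat_lit 6) (nat_lit 423) (nat_lit 2) (nat_lit 196) (nat_lit 214) (nat_lit 160)) (PT.lf (nat_lit 31312) (nat_lit 6) (nat_lit 412) (nat_lit 2) (nat_lit 197) (nat_lit 214) (nat_lit 159))) (PT.nd (nat_lit 78) (PT.lf (nat_lit 30476) (nat_lit 6) (nat_lit 401) (nat_lit 2) (nat_lit 198) (nat_lit 214) (nat_lit 158)) (PT.lf (nat_lit 29716) (nat_lit 6) (nat_lit 391) (nat_lit 2) (nat_lit 199) (nat_lit 214) (nat_lit 157)))) (PT.nd (nat_lit 156) (PT.nd (nat_lit 78) (PT.lf (nat_lit 28956) (nat_lit 6) (nat_lit 381) (nat_lit 2) (nat_lit 200) (nat_lit 214) (nat_lit 156)) (PT.lf (nat_lit 28196) (nat_lit 6) (nat_lit 371) (nat_lit 2) (nat_lit 201) (nat_lit 214) (nat_lit 155))) (PT.nd (nat_lit 78) (PT.lf (nat_lit 27436) (nat_lit 6) (nat_lit 361) (nat_lit 2) (nat_lit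 202) (nat_lit 214) (nat_lit 154)) (PT.lf (nat_lit 26752) (nat_lit 6) (nat_lit 352) (nat_lit 2) (nat_lit 203) (nat_lit 214) (nat_lit 153)))))) (PT.nd (nat_lit 624) (PT.nd (nat_lit 312) (PT.nd (nat_lit 156) (PT.nd (nat_lit 78) (PT.lf (nat_lit 26068) (nat_lit 6) (nat_lit 343) (nat_lit 2) (nat_lit 204) (nat_lit 214) (nat_lit 152)) (PT.lf (nat_lit 25384) (nat_lit 6) (nat_lit 334) (nat_lit 2) (nat_lit 205) (nat_lit 214) (nat_lit 151))) (PT.nd (nat_lit 78) (PT.lf (nat_lit 24700) (nat_lit 6) (nat_lit 325) (nat_lit 2) (nat_lit 206) (nat_lit 214) (nat_lit 150)) (PT.lf (nat_lit 24092) (nat_lit 6) (nat_lit 317) (nat_lit 2) (nat_lit 207) (nat_lit 214) (nat_lit 149)))) (PT.nd (nat_lit 156) (PT.nd (nat_lit 78) (PT.lf (nat_lit 23484) (nat_lit 6) (nat_lit 309) (nat_lit 2) (nat_lit 208) (nat_lit 214) (nat_lit 148)) (PT.lf (nat_lit 22876) (nat_lit 6) (nat_lit 301) (nat_lit 2) (nat_lit 209) (nat_lit 214) (nat_lit 147))) (PT.nd (nat_lit 78) (PT.lf (nat_lit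 22268) (nat_lit 6) (nat_lit 293) (nat_lit 2) (nat_lit 210) (nat_lit 214) (nat_lit 146)) (PT.lf (nat_lit 21736) (nat_lit 6) (nat_lit 286) (nat_lit 2) (nat_lit 211) (nat_lit 214) (nat_lit 145))))) (PT.nd (nat_lit 312) (PT.nd (nat_lit 156) (PT.nd (nat_lit 78) (PT.lf (nat_lit 21128) (nat_lit 6) (nat_lit 278) (nat_lit 2) (nat_lit 212) (nat_lit 214) (nat_lit 144)) (PT.lf (nat_lit 20596) (nat_lit 6) (nat_lit 271) (nat_lit 2) (nat_lit 213) (nat_lit 214) (nat_lit 143))) (PT.nd (nat_lit 78) (PT.lf (nat_lit 20064) (nat_lit 3) (nat_lit 264) (nat_lit 0) (nat_lit 214) (nat_lit 214) (nat_lit 142)) (PT.lf (nat_lit 19456) (nat_lit 6) (nat_lit 256) (nat_lit 0) (nat_lit 215) (nat_lit 214) (nat_lit 141)))) (PT.nd (nat_lit 156) (PT.nd (nat_lit 78) (PT.lf (nat_lit 18848) (nat_lit 6) (nat_lit 248) (nat_lit 0) (nat_lit 216) (nat_lit 214) (nat_lit 140)) (PT.lf (nat_lit 18316) (nat_lit 6) (nat_lit 241) (nat_lit 0) (nat_lit 217) (nat_lit 214) (nat_lit 139))) (PT.nd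 (nat_lit 78) (PT.lf (nat_lit 17708) (nat_lit 6) (nat_lit 233) (nat_lit 0) (nat_lit 218) (nat_lit 214) (nat_lit 138)) (PT.lf (nat_lit 17176) (nat_lit 6) (nat_lit 226) (nat_lit 0) (nat_lit 219) (nat_lit 214) (nat_lit 137)))))))
noncomputable def pc105 : PT := (PT.nd (nat_lit 53196) (PT.nd (nat_lit 52572) (PT.nd (nat_lit 312) (PT.nd (nat_lit 156) (PT.nd (nat_lit 78) (PT.lf (nat_lit 16644) (nat_lit 6) (nat_lit 219) (nat_lit 0) (nat_lit 220) (nat_lit 214) (nat_lit 136)) (PT.lf (nat_lit 16112) (nat_lit 6) (nat_lit 212) (nat_lit 0) (nat_lit 221) (nat_lit 214) (nat_lit 135))) (PT.nd (nat_lit 78) (PT.lf (nat_lit 15580) (nat_lit 6) (nat_lit 205) (nat_lit 0) (nat_lit 222) (nat_lit 214) (nat_lit 134)) (PT.lf (nat_lit 15124) (nat_lit 6) (nat_lit 199) (nat_lit 0) (nat_lit 223) (nat_lit 214) (nat_lit 133)))) (PT.nd (nat_lit 52104) (PT.nd (nat_lit 52026) (PT.lf (nat_lit 14592) (nat_lit 6) (nat_lit 192) (nat_lit 0) (nat_lit 224) (nat_lit 214) (nat_lit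 132)) (PT.lf (nat_lit 13756) (nat_lit 6) (nat_lit 181) (nat_lit 5) (nat_lit 130) (nat_lit 215) (nat_lit 225))) (PT.nd (nat_lit 78) (PT.lf (nat_lit 14212) (nat_lit 6) (nat_lit 187) (nat_lit 5) (nat_lit 131) (nat_lit 215) (nat_lit 224)) (PT.lf (nat_lit 14668) (nat_lit 6) (nat_lit 193) (nat_lit 5) (nat_lit 132) (nat_lit 215) (nat_lit 223))))) (PT.nd (nat_lit 312) (PT.nd (nat_lit 156) (PT.nd (nat_lit 78) (PT.lf (nat_lit 15200) (nat_lit 6) (nat_lit 200) (nat_lit 5) (nat_lit 133) (nat_lit 215) (nat_lit 222)) (PT.lf (nat_lit 15656) (nat_lit 6) (nat_lit 206) (nat_lit 5) (nat_lit 134) (nat_lit 215) (nat_lit 221))) (PT.nd (nat_lit 78) (PT.lf (nat_lit 16188) (nat_lit 6) (nat_lit 213) (nat_lit 5) (nat_lit 135) (nat_lit 215) (nat_lit 220)) (PT.lf (nat_lit 16720) (nat_lit 6) (nat_lit 220) (nat_lit 5) (nat_lit 136) (nat_lit 215) (nat_lit 219)))) (PT.nd (nat_lit 156) (PT.nd (nat_lit 78) (PT.lf (nat_lit 17252) (nat_lit 6) (nat_lit 227) (nat_lit 5) (nat_lit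 137) (nat_lit 215) (nat_lit 218)) (PT.lf (nat_lit 17784) (nat_lit 6) (nat_lit 234) (nat_lit 5) (nat_lit 138) (nat_lit 215) (nat_lit 217))) (PT.nd (nat_lit 78) (PT.lf (nat_lit 18392) (nat_lit 6) (nat_lit 242) (nat_lit 5) (nat_lit 139) (nat_lit 215) (nat_lit 216)) (PT.lf (nat_lit 18924) (nat_lit 3) (nat_lit 249) (nat_lit 4) (nat_lit 140) (nat_lit 215) (nat_lit 215)))))) (PT.nd (nat_lit 624) (PT.nd (nat_lit 312) (PT.nd (nat_lit 156) (PT.nd (nat_lit 78) (PT.lf (nat_lit 19456) (nat_lit 6) (nat_lit 256) (nat_lit 4) (nat_lit 141) (nat_lit 215) (nat_lit 214)) (PT.lf (nat_lit 19988) (nat_lit 6) (nat_lit 263) (nat_lit 4) (nat_lit 142) (nat_lit 215) (nat_lit 213))) (PT.nd (nat_lit 78) (PT.lf (nat_lit 20520) (nat_lit 6) (nat_lit 270) (nat_lit 4) (nat_lit 143) (nat_lit 215) (nat_lit 212)) (PT.lf (nat_lit 21052) (nat_lit 6) (nat_lit 277) (nat_lit 4) (nat_lit 144) (nat_lit 215) (nat_lit 211)))) (PT.nd (nat_lit 156) (PT.nd (nat_lit 78) (PT.lf (nat_lit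 21660) (nat_lit 6) (nat_lit 285) (nat_lit 4) (nat_lit 145) (nat_lit 215) (nat_lit 210)) (PT.lf (nat_lit 22192) (nat_lit 6) (nat_lit 292) (nat_lit 4) (nat_lit 146) (nat_lit 215) (nat_lit 209))) (PT.nd (nat_lit 78) (PT.lf (nat_lit 22800) (nat_lit 6) (nat_lit 300) (nat_lit 4) (nat_lit 147) (nat_lit 215) (nat_lit 208)) (PT.lf (nat_lit 23408) (nat_lit 6) (nat_lit 308) (nat_lit 4) (nat_lit 148) (nat_lit 215) (nat_lit 207))))) (PT.nd (nat_lit 312) (PT.nd (nat_lit 156) (PT.nd (nat_lit 78) (PT.lf (nat_lit 24016) (nat_lit 6) (nat_lit 316) (nat_lit 4) (nat_lit 149) (nat_lit 215) (nat_lit 206)) (PT.lf (nat_lit 24624) (nat_lit 6) (nat_lit 324) (nat_lit 4) (nat_lit 150) (nat_lit 215) (nat_lit 205))) (PT.nd (nat_lit 78) (PT.lf (nat_lit 25308) (nat_lit 6) (nat_lit 333) (nat_lit 4) (nat_lit 151) (nat_lit 215) (nat_lit 204)) (PT.lf (nat_lit 25992) (nat_lit 6) (nat_lit 342) (nat_lit 4) (nat_lit 152) (nat_lit 215) (nat_lit 203)))) (PT.nd (nat_lit 156) (PT.nd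 (nat_lit 78) (PT.lf (nat_lit 26676) (nat_lit 6) (nat_lit 351) (nat_lit 4) (nat_lit 153) (nat_lit 215) (nat_lit 202)) (PT.lf (nat_lit 27360) (nat_lit 6) (nat_lit 360) (nat_lit 4) (nat_lit 154) (nat_lit 215) (nat_lit 201))) (PT.nd (nat_lit 78) (PT.lf (nat_lit 28120) (nat_lit 6) (nat_lit 370) (nat_lit 4) (nat_lit 155) (nat_lit 215) (nat_lit 200)) (PT.nd (nat_lit 78) (PT.lf (nat_lit 28880) (nat_lit 6) (nat_lit 380) (nat_lit 4) (nat_lit 156) (nat_lit 215) (nat_lit 199)) (PT.lf (nat_lit 29640) (nat_lit 6) (nat_lit 390) (nat_lit 4) (nat_lit 157) (nat_lit 215) (nat_lit 198))))))))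
noncomputable def pc106 : PT := (PT.nd (nat_lit 2808) (PT.nd (nat_lit 624) (PT.nd (nat_lit 312) (PT.nd (nat_lit 156) (PT.nd (nat_lit 78) (PT.lf (nat_lit 30400) (nat_lit 6) (nat_lit 400) (nat_lit 4) (nat_lit 158) (nat_lit 215) (nat_lit 197)) (PT.lf (nat_lit 31236) (nat_lit 6) (nat_lit 411) (nat_lit 4) (nat_lit 159) (nat_lit 215) (nat_lit 196))) (PT.nd (nat_lit 78) (PT.lf (nat_lit 32072) (nat_lit 6) (nat_lit 422) (nat_lit 4) (nat_lit 160) (nat_lit 215) (nat_lit 195)) (PT.lf (nat_lit 32984) (nat_lit 6) (nat_lit 434) (nat_lit 4) (nat_lit 161) (nat_lit 215) (nat_lit 194)))) (PT.nd (nat_lit 156) (PT.nd (nat_lit 78) (PT.lf (nat_lit 33820) (nat_lit 6) (nat_lit 445) (nat_lit 4) (nat_lit 162) (nat_lit 215) (nat_lit 193)) (PT.lf (nat_lit 34732) (nat_lit 6) (nat_lit 457) (nat_lit 4) (nat_lit 163) (nat_lit 215) (nat_lit 192))) (PT.nd (nat_lit 78) (PT.lf (nat_lit 35644) (nat_lit 6) (nat_lit 469) (nat_lit 4) (nat_lit 164) (nat_lit 215) (nat_lit 191))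 (PT.lf (nat_lit 36784) (nat_lit 6) (nat_lit 484) (nat_lit 4) (nat_lit 165) (nat_lit 215) (nat_lit 190))))) (PT.nd (nat_lit 1872) (PT.nd (nat_lit 1716) (PT.nd (nat_lit 78) (PT.lf (nat_lit 36708) (nat_lit 6) (nat_lit 483) (nat_lit 4) (nat_lit 166) (nat_lit 215) (nat_lit 189)) (PT.lf (nat_lit 36632) (nat_lit 6) (nat_lit 482) (nat_lit 4) (nat_lit 167) (nat_lit 215) (nat_lit 188))) (PT.nd (nat_lit 78) (PT.lf (nat_lit 36632) (nat_lit 6) (nat_lit 482) (nat_lit 2) (nat_lit 188) (nat_lit 215) (nat_lit 167)) (PT.lf (nat_lit 36708) (nat_lit 6) (nat_lit 483) (nat_lit 2) (nat_lit 189) (nat_lit 215) (nat_lit 166)))) (PT.nd (nat_lit 156) (PT.nd (nat_lit 78) (PT.lf (nat_lit 36784) (nat_lit 6) (nat_lit 484) (nat_lit 2) (nat_lit 190) (nat_lit 215) (nat_lit 165)) (PT.lf (nat_lit 35644) (nat_lit 6) (nat_lit 469) (nat_lit 2) (nat_lit 191) (nat_lit 215) (nat_lit 164))) (PT.nd (nat_lit 78) (PT.lf (nat_lit 34732) (nat_lit 6) (nat_lit 457) (nat_lit 2) (nat_lit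 192) (nat_lit 215) (nat_lit 163)) (PT.lf (nat_lit 33820) (nat_lit 6) (nat_lit 445) (nat_lit 2) (nat_lit 193) (nat_lit 215) (nat_lit 162)))))) (PT.nd (nat_lit 624) (PT.nd (nat_lit 312) (PT.nd (nat_lit 156) (PT.nd (nat_lit 78) (PT.lf (nat_lit 32984) (nat_lit 6) (nat_lit 434) (nat_lit 2) (nat_lit 194) (nat_lit 215) (nat_lit 161)) (PT.lf (nat_lit 32072) (nat_lit 6) (nat_lit 422) (nat_lit 2) (nat_lit 195) (nat_lit 215) (nat_lit 160))) (PT.nd (nat_lit 78) (PT.lf (nat_lit 31236) (nat_lit 6) (nat_lit 411) (nat_lit 2) (nat_lit 196) (nat_lit 215) (nat_lit 159)) (PT.lf (nat_lit 30400) (nat_lit 6) (nat_lit 400) (nat_lit 2) (nat_lit 197) (nat_lit 215) (nat_lit 158)))) (PT.nd (nat_lit 156) (PT.nd (nat_lit 78) (PT.lf (nat_lit 29640) (nat_lit 6) (nat_lit 390) (nat_lit 2) (nat_lit 198) (nat_lit 215) (nat_lit 157)) (PT.lf (nat_lit 28880) (nat_lit 6) (nat_lit 380) (nat_lit 2) (nat_lit 199) (nat_lit 215) (nat_lit 156))) (PT.nd (nat_lit 78) (PT.lf (nat_lit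 28120) (nat_lit 6) (nat_lit 370) (nat_lit 2) (nat_lit 200) (nat_lit 215) (nat_lit 155)) (PT.lf (nat_lit 27360) (nat_lit 6) (nat_lit 360) (nat_lit 2) (nat_lit 201) (nat_lit 215) (nat_lit 154))))) (PT.nd (nat_lit 312) (PT.nd (nat_lit 156) (PT.nd (nat_lit 78) (PT.lf (nat_lit 26676) (nat_lit 6) (nat_lit 351) (nat_lit 2) (nat_lit 202) (nat_lit 215) (nat_lit 153)) (PT.lf (nat_lit 25992) (nat_lit 6) (nat_lit 342) (nat_lit 2) (nat_lit 203) (nat_lit 215) (nat_lit 152))) (PT.nd (nat_lit 78) (PT.lf (nat_lit 25308) (nat_lit 6) (nat_lit 333) (nat_lit 2) (nat_lit 204) (nat_lit 215) (nat_lit 151)) (PT.lf (nat_lit 24624) (nat_lit 6) (nat_lit 324) (nat_lit 2) (nat_lit 205) (nat_lit 215) (nat_lit 150)))) (PT.nd (nat_lit 156) (PT.nd (nat_lit 78) (PT.lf (nat_lit 24016) (nat_lit 6) (nat_lit 316) (nat_lit 2) (nat_lit 206) (nat_lit 215) (nat_lit 149)) (PT.lf (nat_lit 23408) (nat_lit 6) (nat_lit 308) (nat_lit 2) (nat_lit 207) (nat_lit 215) (nat_lit 148))) (PT.nd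 (nat_lit 78) (PT.lf (nat_lit 22800) (nat_lit 6) (nat_lit 300) (nat_lit 2) (nat_lit 208) (nat_lit 215) (nat_lit 147)) (PT.nd (nat_lit 78) (PT.lf (nat_lit 22192) (nat_lit 6) (nat_lit 292) (nat_lit 2) (nat_lit 209) (nat_lit 215) (nat_lit 146)) (PT.lf (nat_lit 21660) (nat_lit 6) (nat_lit 285) (nat_lit 2) (nat_lit 210) (nat_lit 215) (nat_lit 145))))))))
noncomputable def pc107 : PT := (PT.nd (nat_lit 53040) (PT.nd (nat_lit 624) (PT.nd (nat_lit 312) (PT.nd (nat_lit 156) (PT.nd (nat_lit 78) (PT.lf (nat_lit 21052) (nat_lit 6) (nat_lit 277) (nat_lit 2) (nat_lit 211) (nat_lit 215) (nat_lit 144)) (PT.lf (nat_lit 20520) (nat_lit 6) (nat_lit 270) (nat_lit 2) (nat_lit 212) (nat_lit 215) (nat_lit 143))) (PT.nd (nat_lit 78) (PT.lf (nat_lit 19988) (nat_lit 6) (nat_lit 263) (nat_lit 2) (nat_lit 213) (nat_lit 215) (nat_lit 142)) (PT.lf (nat_lit 19456) (nat_lit 6) (nat_lit 256) (nat_lit 2) (nat_lit 214) (nat_lit 215) (nat_lit 141)))) (PT.nd (nat_lit 156)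 (PT.nd (nat_lit 78) (PT.lf (nat_lit 18924) (nat_lit 3) (nat_lit 249) (nat_lit 0) (nat_lit 215) (nat_lit 215) (nat_lit 140)) (PT.lf (nat_lit 18392) (nat_lit 6) (nat_lit 242) (nat_lit 0) (nat_lit 216) (nat_lit 215) (nat_lit 139))) (PT.nd (nat_lit 78) (PT.lf (nat_lit 17784) (nat_lit 6) (nat_lit 234) (nat_lit 0) (nat_lit 217) (nat_lit 215) (nat_lit 138)) (PT.lf (nat_lit 17252) (nat_lit 6) (nat_lit 227) (nat_lit 0) (nat_lit 218) (nat_lit 215) (nat_lit 137))))) (PT.nd (nat_lit 312) (PT.nd (nat_lit 156) (PT.nd (nat_lit 78) (PT.lf (nat_lit 16720) (nat_lit 6) (nat_lit 220) (nat_lit 0) (nat_lit 219) (nat_lit 215) (nat_lit 136)) (PT.lf (nat_lit 16188) (nat_lit 6) (nat_lit 213) (nat_lit 0) (nat_lit 220) (nat_lit 215) (nat_lit 135))) (PT.nd (nat_lit 78) (PT.lf (nat_lit 15656) (nat_lit 6) (nat_lit 206) (nat_lit 0) (nat_lit 221) (nat_lit 215) (nat_lit 134)) (PT.lf (nat_lit 15200) (nat_lit 6) (nat_lit 200) (nat_lit 0) (nat_lit 222) (nat_lit 215) (nat_lit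 133)))) (PT.nd (nat_lit 156) (PT.nd (nat_lit 78) (PT.lf (nat_lit 14668) (nat_lit 6) (nat_lit 193) (nat_lit 0) (nat_lit 223) (nat_lit 215) (nat_lit 132)) (PT.lf (nat_lit 14212) (nat_lit 6) (nat_lit 187) (nat_lit 0) (nat_lit 224) (nat_lit 215) (nat_lit 131))) (PT.nd (nat_lit 51870) (PT.lf (nat_lit 13756) (nat_lit 6) (nat_lit 181) (nat_lit 0) (nat_lit 225) (nat_lit 215) (nat_lit 130)) (PT.lf (nat_lit 13376) (nat_lit 6) (nat_lit 176) (nat_lit 5) (nat_lit 129) (nat_lit 216) (nat_lit 225)))))) (PT.nd (nat_lit 624) (PT.nd (nat_lit 312) (PT.nd (nat_lit 156) (PT.nd (nat_lit 78) (PT.lf (nat_lit 13832) (nat_lit 6) (nat_lit 182) (nat_lit 5) (nat_lit 130) (nat_lit 216) (nat_lit 224)) (PT.lf (nat_lit 14288) (nat_lit 6) (nat_lit 188) (nat_lit 5) (nat_lit 131) (nat_lit 216) (nat_lit 223))) (PT.nd (nat_lit 78) (PT.lf (nat_lit 14744) (nat_lit 6) (nat_lit 194) (nat_lit 5) (nat_lit 132) (nat_lit 216) (nat_lit 222)) (PT.lf (nat_lit 15276) (nat_lit 6) (nat_lit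 201) (nat_lit 5) (nat_lit 133) (nat_lit 216) (nat_lit 221)))) (PT.nd (nat_lit 156) (PT.nd (nat_lit 78) (PT.lf (nat_lit 15732) (nat_lit 6) (nat_lit 207) (nat_lit 5) (nat_lit 134) (nat_lit 216) (nat_lit 220)) (PT.lf (nat_lit 16264) (nat_lit 6) (nat_lit 214) (nat_lit 5) (nat_lit 135) (nat_lit 216) (nat_lit 219))) (PT.nd (nat_lit 78) (PT.lf (nat_lit 16796) (nat_lit 6) (nat_lit 221) (nat_lit 5) (nat_lit 136) (nat_lit 216) (nat_lit 218)) (PT.lf (nat_lit 17328) (nat_lit 6) (nat_lit 228) (nat_lit 5) (nat_lit 137) (nat_lit 216) (nat_lit 217))))) (PT.nd (nat_lit 312) (PT.nd (nat_lit 156) (PT.nd (nat_lit 78) (PT.lf (nat_lit 17860) (nat_lit 3) (nat_lit 235) (nat_lit 4) (nat_lit 138) (nat_lit 216) (nat_lit 216)) (PT.lf (nat_lit 18392) (nat_lit 6) (nat_lit 242) (nat_lit 4) (nat_lit 139) (nat_lit 216) (nat_lit 215))) (PT.nd (nat_lit 78) (PT.lf (nat_lit 18848) (nat_lit 6) (nat_lit 248) (nat_lit 4) (nat_lit 140) (nat_lit 216) (nat_lit 214)) (PT.lf (nat_lit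 19380) (nat_lit 6) (nat_lit 255) (nat_lit 4) (nat_lit 141) (nat_lit 216) (nat_lit 213)))) (PT.nd (nat_lit 156) (PT.nd (nat_lit 78) (PT.lf (nat_lit 19912) (nat_lit 6) (nat_lit 262) (nat_lit 4) (nat_lit 142) (nat_lit 216) (nat_lit 212)) (PT.lf (nat_lit 20444) (nat_lit 6) (nat_lit 269) (nat_lit 4) (nat_lit 143) (nat_lit 216) (nat_lit 211))) (PT.nd (nat_lit 78) (PT.lf (nat_lit 20976) (nat_lit 6) (nat_lit 276) (nat_lit 4) (nat_lit 144) (nat_lit 216) (nat_lit 210)) (PT.nd (nat_lit 78) (PT.lf (nat_lit 21584) (nat_lit 6) (nat_lit 284) (nat_lit 4) (nat_lit 145) (nat_lit 216) (nat_lit 209)) (PT.lf (nat_lit 22116) (nat_lit 6) (nat_lit 291) (nat_lit 4) (nat_lit 146) (nat_lit 216) (nat_lit 208))))))))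
noncomputable def pc108 : PT := (PT.nd (nat_lit 3666) (PT.nd (nat_lit 624) (PT.nd (nat_lit 312) (PT.nd (nat_lit 156) (PT.nd (nat_lit 78) (PT.lf (nat_lit 22724) (nat_lit 6) (nat_lit 299) (nat_lit 4) (nat_lit 147) (nat_lit 216) (nat_lit 207)) (PT.lf (nat_lit 23332) (nat_lit 6) (nat_lit 307) (nat_lit 4) (nat_lit 148) (nat_lit 216) (nat_lit 206))) (PT.nd (nat_lit 78) (PT.lf (nat_lit 23940) (nat_lit 6) (nat_lit 315) (nat_lit 4) (nat_lit 149) (nat_lit 216) (nat_lit 205)) (PT.lf (nat_lit 24548) (nat_lit 6) (nat_lit 323) (nat_lit 4) (nat_lit 150) (nat_lit 216) (nat_lit 204)))) (PT.nd (nat_lit 156) (PT.nd (nat_lit 78) (PT.lf (nat_lit 25232) (nat_lit 6) (nat_lit 332) (nat_lit 4) (nat_lit 151) (nat_lit 216) (nat_lit 203)) (PT.lf (nat_lit 25916) (nat_lit 6) (nat_lit 341) (nat_lit 4) (nat_lit 152) (nat_lit 216) (nat_lit 202))) (PT.nd (nat_lit 78) (PT.lf (nat_lit 26600) (nat_lit 6) (nat_lit 350) (nat_lit 4) (nat_lit 153) (nat_lit 216) (nat_lit 201))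 (PT.lf (nat_lit 27284) (nat_lit 6) (nat_lit 359) (nat_lit 4) (nat_lit 154) (nat_lit 216) (nat_lit 200))))) (PT.nd (nat_lit 312) (PT.nd (nat_lit 156) (PT.nd (nat_lit 78) (PT.lf (nat_lit 28044) (nat_lit 6) (nat_lit 369) (nat_lit 4) (nat_lit 155) (nat_lit 216) (nat_lit 199)) (PT.lf (nat_lit 28804) (nat_lit 6) (nat_lit 379) (nat_lit 4) (nat_lit 156) (nat_lit 216) (nat_lit 198))) (PT.nd (nat_lit 78) (PT.lf (nat_lit 29564) (nat_lit 6) (nat_lit 389) (nat_lit 4) (nat_lit 157) (nat_lit 216) (nat_lit 197)) (PT.lf (nat_lit 30324) (nat_lit 6) (nat_lit 399) (nat_lit 4) (nat_lit 158) (nat_lit 216) (nat_lit 196)))) (PT.nd (nat_lit 156) (PT.nd (nat_lit 78) (PT.lf (nat_lit 31160) (nat_lit 6) (nat_lit 410) (nat_lit 4) (nat_lit 159) (nat_lit 216) (nat_lit 195)) (PT.lf (nat_lit 31996) (nat_lit 6) (nat_lit 421) (nat_lit 4) (nat_lit 160) (nat_lit 216) (nat_lit 194))) (PT.nd (nat_lit 2496) (PT.lf (nat_lit 32908) (nat_lit 6) (nat_lit 433) (nat_lit 4) (nat_lit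 161) (nat_lit 216) (nat_lit 193)) (PT.lf (nat_lit 32908) (nat_lit 6) (nat_lit 433) (nat_lit 2) (nat_lit 193) (nat_lit 216) (nat_lit 161)))))) (PT.nd (nat_lit 624) (PT.nd (nat_lit 312) (PT.nd (nat_lit 156) (PT.nd (nat_lit 78) (PT.lf (nat_lit 31996) (nat_lit 6) (nat_lit 421) (nat_lit 2) (nat_lit 194) (nat_lit 216) (nat_lit 160)) (PT.lf (nat_lit 31160) (nat_lit 6) (nat_lit 410) (nat_lit 2) (nat_lit 195) (nat_lit 216) (nat_lit 159))) (PT.nd (nat_lit 78) (PT.lf (nat_lit 30324) (nat_lit 6) (nat_lit 399) (nat_lit 2) (nat_lit 196) (nat_lit 216) (nat_lit 158)) (PT.lf (nat_lit 29564) (nat_lit 6) (nat_lit 389) (nat_lit 2) (nat_lit 197) (nat_lit 216) (nat_lit 157)))) (PT.nd (nat_lit 156) (PT.nd (nat_lit 78) (PT.lf (nat_lit 28804) (nat_lit 6) (nat_lit 379) (nat_lit 2) (nat_lit 198) (nat_lit 216) (nat_lit 156)) (PT.lf (nat_lit 28044) (nat_lit 6) (nat_lit 369) (nat_lit 2) (nat_lit 199) (nat_lit 216) (nat_lit 155))) (PT.nd (nat_lit 78) (PT.lf (nat_lit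 27284) (nat_lit 6) (nat_lit 359) (nat_lit 2) (nat_lit 200) (nat_lit 216) (nat_lit 154)) (PT.lf (nat_lit 26600) (nat_lit 6) (nat_lit 350) (nat_lit 2) (nat_lit 201) (nat_lit 216) (nat_lit 153))))) (PT.nd (nat_lit 312) (PT.nd (nat_lit 156) (PT.nd (nat_lit 78) (PT.lf (nat_lit 25916) (nat_lit 6) (nat_lit 341) (nat_lit 2) (nat_lit 202) (nat_lit 216) (nat_lit 152)) (PT.lf (nat_lit 25232) (nat_lit 6) (nat_lit 332) (nat_lit 2) (nat_lit 203) (nat_lit 216) (nat_lit 151))) (PT.nd (nat_lit 78) (PT.lf (nat_lit 24548) (nat_lit 6) (nat_lit 323) (nat_lit 2) (nat_lit 204) (nat_lit 216) (nat_lit 150)) (PT.lf (nat_lit 23940) (nat_lit 6) (nat_lit 315) (nat_lit 2) (nat_lit 205) (nat_lit 216) (nat_lit 149)))) (PT.nd (nat_lit 156) (PT.nd (nat_lit 78) (PT.lf (nat_lit 23332) (nat_lit 6) (nat_lit 307) (nat_lit 2) (nat_lit 206) (nat_lit 216) (nat_lit 148)) (PT.lf (nat_lit 22724) (nat_lit 6) (nat_lit 299) (nat_lit 2) (nat_lit 207) (nat_lit 216) (nat_lit 147))) (PT.nd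 (nat_lit 78) (PT.lf (nat_lit 22116) (nat_lit 6) (nat_lit 291) (nat_lit 2) (nat_lit 208) (nat_lit 216) (nat_lit 146)) (PT.nd (nat_lit 78) (PT.lf (nat_lit 21584) (nat_lit 6) (nat_lit 284) (nat_lit 2) (nat_lit 209) (nat_lit 216) (nat_lit 145)) (PT.lf (nat_lit 20976) (nat_lit 6) (nat_lit 276) (nat_lit 2) (nat_lit 210) (nat_lit 216) (nat_lit 144))))))))
noncomputable def pc109 : PT := (PT.nd (nat_lit 52884) (PT.nd (nat_lit 624) (PT.nd (nat_lit 312) (PT.nd (nat_lit 156) (PT.nd (nat_lit 78) (PT.lf (nat_lit 20444) (nat_lit 6) (nat_lit 269) (nat_lit 2) (nat_lit 211) (nat_lit 216) (nat_lit 143)) (PT.lf (nat_lit 19912) (nat_lit 6) (nat_lit 262) (nat_lit 2) (nat_lit 212) (nat_lit 216) (nat_lit 142))) (PT.nd (nat_lit 78) (PT.lf (nat_lit 19380) (nat_lit 6) (nat_lit 255) (nat_lit 2) (nat_lit 213) (nat_lit 216) (nat_lit 141)) (PT.lf (nat_lit 18848) (nat_lit 6) (nat_lit 248) (nat_lit 2) (nat_lit 214) (nat_lit 216) (nat_lit 140)))) (PT.nd (nat_lit 156)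 (PT.nd (nat_lit 78) (PT.lf (nat_lit 18392) (nat_lit 6) (nat_lit 242) (nat_lit 2) (nat_lit 215) (nat_lit 216) (nat_lit 139)) (PT.lf (nat_lit 17860) (nat_lit 3) (nat_lit 235) (nat_lit 0) (nat_lit 216) (nat_lit 216) (nat_lit 138))) (PT.nd (nat_lit 78) (PT.lf (nat_lit 17328) (nat_lit 6) (nat_lit 228) (nat_lit 0) (nat_lit 217) (nat_lit 216) (nat_lit 137)) (PT.lf (nat_lit 16796) (nat_lit 6) (nat_lit 221) (nat_lit 0) (nat_lit 218) (nat_lit 216) (nat_lit 136))))) (PT.nd (nat_lit 312) (PT.nd (nat_lit 156) (PT.nd (nat_lit 78) (PT.lf (nat_lit 16264) (nat_lit 6) (nat_lit 214) (nat_lit 0) (nat_lit 219) (nat_lit 216) (nat_lit 135)) (PT.lf (nat_lit 15732) (nat_lit 6) (nat_lit 207) (nat_lit 0) (nat_lit 220) (nat_lit 216) (nat_lit 134))) (PT.nd (nat_lit 78) (PT.lf (nat_lit 15276) (nat_lit 6) (nat_lit 201) (nat_lit 0) (nat_lit 221) (nat_lit 216) (nat_lit 133)) (PT.lf (nat_lit 14744) (nat_lit 6) (nat_lit 194) (nat_lit 0) (nat_lit 222) (nat_lit 216) (nat_lit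 132)))) (PT.nd (nat_lit 156) (PT.nd (nat_lit 78) (PT.lf (nat_lit 14288) (nat_lit 6) (nat_lit 188) (nat_lit 0) (nat_lit 223) (nat_lit 216) (nat_lit 131)) (PT.lf (nat_lit 13832) (nat_lit 6) (nat_lit 182) (nat_lit 0) (nat_lit 224) (nat_lit 216) (nat_lit 130))) (PT.nd (nat_lit 51714) (PT.lf (nat_lit 13376) (nat_lit 6) (nat_lit 176) (nat_lit 0) (nat_lit 225) (nat_lit 216) (nat_lit 129)) (PT.lf (nat_lit 12616) (nat_lit 6) (nat_lit 166) (nat_lit 5) (nat_lit 127) (nat_lit 217) (nat_lit 226)))))) (PT.nd (nat_lit 624) (PT.nd (nat_lit 312) (PT.nd (nat_lit 156) (PT.nd (nat_lit 78) (PT.lf (nat_lit 12996) (nat_lit 6) (nat_lit 171) (nat_lit 5) (nat_lit 128) (nat_lit 217) (nat_lit 225)) (PT.lf (nat_lit 13452) (nat_lit 6) (nat_lit 177) (nat_lit 5) (nat_lit 129) (nat_lit 217) (nat_lit 224))) (PT.nd (nat_lit 78) (PT.lf (nat_lit 13908) (nat_lit 6) (nat_lit 183) (nat_lit 5) (nat_lit 130) (nat_lit 217) (nat_lit 223)) (PT.lf (nat_lit 14364) (nat_lit 6) (nat_lit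 189) (nat_lit 5) (nat_lit 131) (nat_lit 217) (nat_lit 222)))) (PT.nd (nat_lit 156) (PT.nd (nat_lit 78) (PT.lf (nat_lit 14820) (nat_lit 6) (nat_lit 195) (nat_lit 5) (nat_lit 132) (nat_lit 217) (nat_lit 221)) (PT.lf (nat_lit 15352) (nat_lit 6) (nat_lit 202) (nat_lit 5) (nat_lit 133) (nat_lit 217) (nat_lit 220))) (PT.nd (nat_lit 78) (PT.lf (nat_lit 15808) (nat_lit 6) (nat_lit 208) (nat_lit 5) (nat_lit 134) (nat_lit 217) (nat_lit 219)) (PT.lf (nat_lit 16340) (nat_lit 6) (nat_lit 215) (nat_lit 5) (nat_lit 135) (nat_lit 217) (nat_lit 218))))) (PT.nd (nat_lit 312) (PT.nd (nat_lit 156) (PT.nd (nat_lit 78) (PT.lf (nat_lit 16872) (nat_lit 3) (nat_lit 222) (nat_lit 4) (nat_lit 136) (nat_lit 217) (nat_lit 217)) (PT.lf (nat_lit 17328) (nat_lit 6) (nat_lit 228) (nat_lit 4) (nat_lit 137) (nat_lit 217) (nat_lit 216))) (PT.nd (nat_lit 78) (PT.lf (nat_lit 17784) (nat_lit 6) (nat_lit 234) (nat_lit 4) (nat_lit 138) (nat_lit 217) (nat_lit 215)) (PT.lf (nat_lit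 18316) (nat_lit 6) (nat_lit 241) (nat_lit 4) (nat_lit 139) (nat_lit 217) (nat_lit 214)))) (PT.nd (nat_lit 156) (PT.nd (nat_lit 78) (PT.lf (nat_lit 18772) (nat_lit 6) (nat_lit 247) (nat_lit 4) (nat_lit 140) (nat_lit 217) (nat_lit 213)) (PT.lf (nat_lit 19304) (nat_lit 6) (nat_lit 254) (nat_lit 4) (nat_lit 141) (nat_lit 217) (nat_lit 212))) (PT.nd (nat_lit 78) (PT.lf (nat_lit 19836) (nat_lit 6) (nat_lit 261) (nat_lit 4) (nat_lit 142) (nat_lit 217) (nat_lit 211)) (PT.nd (nat_lit 78) (PT.lf (nat_lit 20368) (nat_lit 6) (nat_lit 268) (nat_lit 4) (nat_lit 143) (nat_lit 217) (nat_lit 210)) (PT.lf (nat_lit 20900) (nat_lit 6) (nat_lit 275) (nat_lit 4) (nat_lit 144) (nat_lit 217) (nat_lit 209))))))))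
noncomputable def pc110 : PT := (PT.nd (nat_lit 4368) (PT.nd (nat_lit 624) (PT.nd (nat_lit 312) (PT.nd (nat_lit 156) (PT.nd (nat_lit 78) (PT.lf (nat_lit 21508) (nat_lit 6) (nat_lit 283) (nat_lit 4) (nat_lit 145) (nat_lit 217) (nat_lit 208)) (PT.lf (nat_lit 22040) (nat_lit 6) (nat_lit 290) (nat_lit 4) (nat_lit 146) (nat_lit 217) (nat_lit 207))) (PT.nd (nat_lit 78) (PT.lf (nat_lit 22648) (nat_lit 6) (nat_lit 298) (nat_lit 4) (nat_lit 147) (nat_lit 217) (nat_lit 206)) (PT.lf (nat_lit 23256) (nat_lit 6) (nat_lit 306) (nat_lit 4) (nat_lit 148) (nat_lit 217) (nat_lit 205)))) (PT.nd (nat_lit 156) (PT.nd (nat_lit 78) (PT.lf (nat_lit 23864) (nat_lit 6) (nat_lit 314) (nat_lit 4) (nat_lit 149) (nat_lit 217) (nat_lit 204)) (PT.lf (nat_lit 24472) (nat_lit 6) (nat_lit 322) (nat_lit 4) (nat_lit 150) (nat_lit 217) (nat_lit 203))) (PT.nd (nat_lit 78) (PT.lf (nat_lit 25156) (nat_lit 6) (nat_lit 331) (nat_lit 4) (nat_lit 151) (nat_lit 217) (nat_lit 202))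 (PT.lf (nat_lit 25840) (nat_lit 6) (nat_lit 340) (nat_lit 4) (nat_lit 152) (nat_lit 217) (nat_lit 201))))) (PT.nd (nat_lit 3432) (PT.nd (nat_lit 156) (PT.nd (nat_lit 78) (PT.lf (nat_lit 26524) (nat_lit 6) (nat_lit 349) (nat_lit 4) (nat_lit 153) (nat_lit 217) (nat_lit 200)) (PT.lf (nat_lit 27208) (nat_lit 6) (nat_lit 358) (nat_lit 4) (nat_lit 154) (nat_lit 217) (nat_lit 199))) (PT.nd (nat_lit 78) (PT.lf (nat_lit 27968) (nat_lit 6) (nat_lit 368) (nat_lit 4) (nat_lit 155) (nat_lit 217) (nat_lit 198)) (PT.lf (nat_lit 28728) (nat_lit 6) (nat_lit 378) (nat_lit 4) (nat_lit 156) (nat_lit 217) (nat_lit 197)))) (PT.nd (nat_lit 156) (PT.nd (nat_lit 78) (PT.lf (nat_lit 28728) (nat_lit 6) (nat_lit 378) (nat_lit 2) (nat_lit 197) (nat_lit 217) (nat_lit 156)) (PT.lf (nat_lit 27968) (nat_lit 6) (nat_lit 368) (nat_lit 2) (nat_lit 198) (nat_lit 217) (nat_lit 155))) (PT.nd (nat_lit 78) (PT.lf (nat_lit 27208) (nat_lit 6) (nat_lit 358) (nat_lit 2) (nat_lit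 199) (nat_lit 217) (nat_lit 154)) (PT.lf (nat_lit 26524) (nat_lit 6) (nat_lit 349) (nat_lit 2) (nat_lit 200) (nat_lit 217) (nat_lit 153)))))) (PT.nd (nat_lit 624) (PT.nd (nat_lit 312) (PT.nd (nat_lit 156) (PT.nd (nat_lit 78) (PT.lf (nat_lit 25840) (nat_lit 6) (nat_lit 340) (nat_lit 2) (nat_lit 201) (nat_lit 217) (nat_lit 152)) (PT.lf (nat_lit 25156) (nat_lit 6) (nat_lit 331) (nat_lit 2) (nat_lit 202) (nat_lit 217) (nat_lit 151))) (PT.nd (nat_lit 78) (PT.lf (nat_lit 24472) (nat_lit 6) (nat_lit 322) (nat_lit 2) (nat_lit 203) (nat_lit 217) (nat_lit 150)) (PT.lf (nat_lit 23864) (nat_lit 6) (nat_lit 314) (nat_lit 2) (nat_lit 204) (nat_lit 217) (nat_lit 149)))) (PT.nd (nat_lit 156) (PT.nd (nat_lit 78) (PT.lf (nat_lit 23256) (nat_lit 6) (nat_lit 306) (nat_lit 2) (nat_lit 205) (nat_lit 217) (nat_lit 148)) (PT.lf (nat_lit 22648) (nat_lit 6) (nat_lit 298) (nat_lit 2) (nat_lit 206) (nat_lit 217) (nat_lit 147))) (PT.nd (nat_lit 78) (PT.lf (nat_lit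 22040) (nat_lit 6) (nat_lit 290) (nat_lit 2) (nat_lit 207) (nat_lit 217) (nat_lit 146)) (PT.lf (nat_lit 21508) (nat_lit 6) (nat_lit 283) (nat_lit 2) (nat_lit 208) (nat_lit 217) (nat_lit 145))))) (PT.nd (nat_lit 312) (PT.nd (nat_lit 156) (PT.nd (nat_lit 78) (PT.lf (nat_lit 20900) (nat_lit 6) (nat_lit 275) (nat_lit 2) (nat_lit 209) (nat_lit 217) (nat_lit 144)) (PT.lf (nat_lit 20368) (nat_lit 6) (nat_lit 268) (nat_lit 2) (nat_lit 210) (nat_lit 217) (nat_lit 143))) (PT.nd (nat_lit 78) (PT.lf (nat_lit 19836) (nat_lit 6) (nat_lit 261) (nat_lit 2) (nat_lit 211) (nat_lit 217) (nat_lit 142)) (PT.lf (nat_lit 19304) (nat_lit 6) (nat_lit 254) (nat_lit 2) (nat_lit 212) (nat_lit 217) (nat_lit 141)))) (PT.nd (nat_lit 156) (PT.nd (nat_lit 78) (PT.lf (nat_lit 18772) (nat_lit 6) (nat_lit 247) (nat_lit 2) (nat_lit 213) (nat_lit 217) (nat_lit 140)) (PT.lf (nat_lit 18316) (nat_lit 6) (nat_lit 241) (nat_lit 2) (nat_lit 214) (nat_lit 217) (nat_lit 139))) (PT.nd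 (nat_lit 78) (PT.lf (nat_lit 17784) (nat_lit 6) (nat_lit 234) (nat_lit 2) (nat_lit 215) (nat_lit 217) (nat_lit 138)) (PT.nd (nat_lit 78) (PT.lf (nat_lit 17328) (nat_lit 6) (nat_lit 228) (nat_lit 2) (nat_lit 216) (nat_lit 217) (nat_lit 137)) (PT.lf (nat_lit 16872) (nat_lit 3) (nat_lit 222) (nat_lit 0) (nat_lit 217) (nat_lit 217) (nat_lit 136))))))))
noncomputable def pc111 : PT := (PT.nd (nat_lit 52650) (PT.nd (nat_lit 624) (PT.nd (nat_lit 312) (PT.nd (nat_lit 156) (PT.nd (nat_lit 78) (PT.lf (nat_lit 16340) (nat_lit 6) (nat_lit 215) (nat_lit 0) (nat_lit 218) (nat_lit 217) (nat_lit 135)) (PT.lf (nat_lit 15808) (nat_lit 6) (nat_lit 208) (nat_lit 0) (nat_lit 219) (nat_lit 217) (nat_lit 134))) (PT.nd (nat_lit 78) (PT.lf (nat_lit 15352) (nat_lit 6) (nat_lit 202) (nat_lit 0) (nat_lit 220) (nat_lit 217) (nat_lit 133)) (PT.lf (nat_lit 14820) (nat_lit 6) (nat_lit 195) (nat_lit 0) (nat_lit 221) (nat_lit 217) (nat_lit 132)))) (PT.nd (nat_lit 156)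 (PT.nd (nat_lit 78) (PT.lf (nat_lit 14364) (nat_lit 6) (nat_lit 189) (nat_lit 0) (nat_lit 222) (nat_lit 217) (nat_lit 131)) (PT.lf (nat_lit 13908) (nat_lit 6) (nat_lit 183) (nat_lit 0) (nat_lit 223) (nat_lit 217) (nat_lit 130))) (PT.nd (nat_lit 78) (PT.lf (nat_lit 13452) (nat_lit 6) (nat_lit 177) (nat_lit 0) (nat_lit 224) (nat_lit 217) (nat_lit 129)) (PT.lf (nat_lit 12996) (nat_lit 6) (nat_lit 171) (nat_lit 0) (nat_lit 225) (nat_lit 217) (nat_lit 128))))) (PT.nd (nat_lit 51714) (PT.nd (nat_lit 51558) (PT.nd (nat_lit 51480) (PT.lf (nat_lit 12616) (nat_lit 6) (nat_lit 166) (nat_lit 0) (nat_lit 226) (nat_lit 217) (nat_lit 127)) (PT.lf (nat_lit 11856) (nat_lit 6) (nat_lit 156) (nat_lit 5) (nat_lit 125) (nat_lit 218) (nat_lit 227))) (PT.nd (nat_lit 78) (PT.lf (nat_lit 12236) (nat_lit 6) (nat_lit 161) (nat_lit 5) (nat_lit 126) (nat_lit 218) (nat_lit 226)) (PT.lf (nat_lit 12692) (nat_lit 6) (nat_lit 167) (nat_lit 5) (nat_lit 127) (nat_lit 218)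 (nat_lit 225)))) (PT.nd (nat_lit 156) (PT.nd (nat_lit 78) (PT.lf (nat_lit 13072) (nat_lit 6) (nat_lit 172) (nat_lit 5) (nat_lit 128) (nat_lit 218) (nat_lit 224)) (PT.lf (nat_lit 13528) (nat_lit 6) (nat_lit 178) (nat_lit 5) (nat_lit 129) (nat_lit 218) (nat_lit 223))) (PT.nd (nat_lit 78) (PT.lf (nat_lit 13984) (nat_lit 6) (nat_lit 184) (nat_lit 5) (nat_lit 130) (nat_lit 218) (nat_lit 222)) (PT.lf (nat_lit 14440) (nat_lit 6) (nat_lit 190) (nat_lit 5) (nat_lit 131) (nat_lit 218) (nat_lit 221)))))) (PT.nd (nat_lit 624) (PT.nd (nat_lit 312) (PT.nd (nat_lit 156) (PT.nd (nat_lit 78) (PT.lf (nat_lit 14896) (nat_lit 6) (nat_lit 196) (nat_lit 5) (nat_lit 132) (nat_lit 218) (nat_lit 220)) (PT.lf (nat_lit 15428) (nat_lit 6) (nat_lit 203) (nat_lit 5) (nat_lit 133) (nat_lit 218) (nat_lit 219))) (PT.nd (nat_lit 78) (PT.lf (nat_lit 15884) (nat_lit 3) (nat_lit 209) (nat_lit 4) (nat_lit 134) (nat_lit 218) (nat_lit 218)) (PT.lf (nat_lit 16340) (nat_lit 6)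 (nat_lit 215) (nat_lit 4) (nat_lit 135) (nat_lit 218) (nat_lit 217)))) (PT.nd (nat_lit 156) (PT.nd (nat_lit 78) (PT.lf (nat_lit 16796) (nat_lit 6) (nat_lit 221) (nat_lit 4) (nat_lit 136) (nat_lit 218) (nat_lit 216)) (PT.lf (nat_lit 17252) (nat_lit 6) (nat_lit 227) (nat_lit 4) (nat_lit 137) (nat_lit 218) (nat_lit 215))) (PT.nd (nat_lit 78) (PT.lf (nat_lit 17708) (nat_lit 6) (nat_lit 233) (nat_lit 4) (nat_lit 138) (nat_lit 218) (nat_lit 214)) (PT.lf (nat_lit 18240) (nat_lit 6) (nat_lit 240) (nat_lit 4) (nat_lit 139) (nat_lit 218) (nat_lit 213))))) (PT.nd (nat_lit 312) (PT.nd (nat_lit 156) (PT.nd (nat_lit 78) (PT.lf (nat_lit 18696) (nat_lit 6) (nat_lit 246) (nat_lit 4) (nat_lit 140) (nat_lit 218) (nat_lit 212)) (PT.lf (nat_lit 19228) (nat_lit 6) (nat_lit 253) (nat_lit 4) (nat_lit 141) (nat_lit 218) (nat_lit 211))) (PT.nd (nat_lit 78) (PT.lf (nat_lit 19760) (nat_lit 6) (nat_lit 260) (nat_lit 4) (nat_lit 142) (nat_lit 218) (nat_lit 210)) (PT.lf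 (nat_lit 20292) (nat_lit 6) (nat_lit 267) (nat_lit 4) (nat_lit 143) (nat_lit 218) (nat_lit 209)))) (PT.nd (nat_lit 156) (PT.nd (nat_lit 78) (PT.lf (nat_lit 20824) (nat_lit 6) (nat_lit 274) (nat_lit 4) (nat_lit 144) (nat_lit 218) (nat_lit 208)) (PT.lf (nat_lit 21432) (nat_lit 6) (nat_lit 282) (nat_lit 4) (nat_lit 145) (nat_lit 218) (nat_lit 207))) (PT.nd (nat_lit 78) (PT.lf (nat_lit 21964) (nat_lit 6) (nat_lit 289) (nat_lit 4) (nat_lit 146) (nat_lit 218) (nat_lit 206)) (PT.nd (nat_lit 78) (PT.lf (nat_lit 22572) (nat_lit 6) (nat_lit 297) (nat_lit 4) (nat_lit 147) (nat_lit 218) (nat_lit 205)) (PT.lf (nat_lit 23180) (nat_lit 6) (nat_lit 305) (nat_lit 4) (nat_lit 148) (nat_lit 218) (nat_lit 204))))))))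
noncomputable def pc112 : PT := (PT.nd (nat_lit 4914) (PT.nd (nat_lit 4290) (PT.nd (nat_lit 3978) (PT.nd (nat_lit 156) (PT.nd (nat_lit 78) (PT.lf (nat_lit 23788) (nat_lit 6) (nat_lit 313) (nat_lit 4) (nat_lit 149) (nat_lit 218) (nat_lit 203)) (PT.lf (nat_lit 24396) (nat_lit 6) (nat_lit 321) (nat_lit 4) (nat_lit 150) (nat_lit 218) (nat_lit 202))) (PT.nd (nat_lit 78) (PT.lf (nat_lit 25080) (nat_lit 6) (nat_lit 330) (nat_lit 4) (nat_lit 151) (nat_lit 218) (nat_lit 201)) (PT.lf (nat_lit 25764) (nat_lit 6) (nat_lit 339) (nat_lit 4) (nat_lit 152) (nat_lit 218) (nat_lit 200)))) (PT.nd (nat_lit 156) (PT.nd (nat_lit 78) (PT.lf (nat_lit 25764) (nat_lit 6) (nat_lit 339) (nat_lit 2) (nat_lit 200) (nat_lit 218) (nat_lit 152)) (PT.lf (nat_lit 25080) (nat_lit 6) (nat_lit 330) (nat_lit 2) (nat_lit 201) (nat_lit 218) (nat_lit 151))) (PT.nd (nat_lit 78) (PT.lf (nat_lit 24396) (nat_lit 6) (nat_lit 321) (nat_lit 2) (nat_lit 202) (nat_lit 218) (nat_lit 150))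 (PT.lf (nat_lit 23788) (nat_lit 6) (nat_lit 313) (nat_lit 2) (nat_lit 203) (nat_lit 218) (nat_lit 149))))) (PT.nd (nat_lit 312) (PT.nd (nat_lit 156) (PT.nd (nat_lit 78) (PT.lf (nat_lit 23180) (nat_lit 6) (nat_lit 305) (nat_lit 2) (nat_lit 204) (nat_lit 218) (nat_lit 148)) (PT.lf (nat_lit 22572) (nat_lit 6) (nat_lit 297) (nat_lit 2) (nat_lit 205) (nat_lit 218) (nat_lit 147))) (PT.nd (nat_lit 78) (PT.lf (nat_lit 21964) (nat_lit 6) (nat_lit 289) (nat_lit 2) (nat_lit 206) (nat_lit 218) (nat_lit 146)) (PT.lf (nat_lit 21432) (nat_lit 6) (nat_lit 282) (nat_lit 2) (nat_lit 207) (nat_lit 218) (nat_lit 145)))) (PT.nd (nat_lit 156) (PT.nd (nat_lit 78) (PT.lf (nat_lit 20824) (nat_lit 6) (nat_lit 274) (nat_lit 2) (nat_lit 208) (nat_lit 218) (nat_lit 144)) (PT.lf (nat_lit 20292) (nat_lit 6) (nat_lit 267) (nat_lit 2) (nat_lit 209) (nat_lit 218) (nat_lit 143))) (PT.nd (nat_lit 78) (PT.lf (nat_lit 19760) (nat_lit 6) (nat_lit 260) (nat_lit 2) (nat_lit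 210) (nat_lit 218) (nat_lit 142)) (PT.lf (nat_lit 19228) (nat_lit 6) (nat_lit 253) (nat_lit 2) (nat_lit 211) (nat_lit 218) (nat_lit 141)))))) (PT.nd (nat_lit 624) (PT.nd (nat_lit 312) (PT.nd (nat_lit 156) (PT.nd (nat_lit 78) (PT.lf (nat_lit 18696) (nat_lit 6) (nat_lit 246) (nat_lit 2) (nat_lit 212) (nat_lit 218) (nat_lit 140)) (PT.lf (nat_lit 18240) (nat_lit 6) (nat_lit 240) (nat_lit 2) (nat_lit 213) (nat_lit 218) (nat_lit 139))) (PT.nd (nat_lit 78) (PT.lf (nat_lit 17708) (nat_lit 6) (nat_lit 233) (nat_lit 2) (nat_lit 214) (nat_lit 218) (nat_lit 138)) (PT.lf (nat_lit 17252) (nat_lit 6) (nat_lit 227) (nat_lit 2) (nat_lit 215) (nat_lit 218) (nat_lit 137)))) (PT.nd (nat_lit 156) (PT.nd (nat_lit 78) (PT.lf (nat_lit 16796) (nat_lit 6) (nat_lit 221) (nat_lit 2) (nat_lit 216) (nat_lit 218) (nat_lit 136)) (PT.lf (nat_lit 16340) (nat_lit 6) (nat_lit 215) (nat_lit 2) (nat_lit 217) (nat_lit 218) (nat_lit 135))) (PT.nd (nat_lit 78) (PT.lf (nat_lit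 15884) (nat_lit 3) (nat_lit 209) (nat_lit 0) (nat_lit 218) (nat_lit 218) (nat_lit 134)) (PT.lf (nat_lit 15428) (nat_lit 6) (nat_lit 203) (nat_lit 0) (nat_lit 219) (nat_lit 218) (nat_lit 133))))) (PT.nd (nat_lit 312) (PT.nd (nat_lit 156) (PT.nd (nat_lit 78) (PT.lf (nat_lit 14896) (nat_lit 6) (nat_lit 196) (nat_lit 0) (nat_lit 220) (nat_lit 218) (nat_lit 132)) (PT.lf (nat_lit 14440) (nat_lit 6) (nat_lit 190) (nat_lit 0) (nat_lit 221) (nat_lit 218) (nat_lit 131))) (PT.nd (nat_lit 78) (PT.lf (nat_lit 13984) (nat_lit 6) (nat_lit 184) (nat_lit 0) (nat_lit 222) (nat_lit 218) (nat_lit 130)) (PT.lf (nat_lit 13528) (nat_lit 6) (nat_lit 178) (nat_lit 0) (nat_lit 223) (nat_lit 218) (nat_lit 129)))) (PT.nd (nat_lit 156) (PT.nd (nat_lit 78) (PT.lf (nat_lit 13072) (nat_lit 6) (nat_lit 172) (nat_lit 0) (nat_lit 224) (nat_lit 218) (nat_lit 128)) (PT.lf (nat_lit 12692) (nat_lit 6) (nat_lit 167) (nat_lit 0) (nat_lit 225) (nat_lit 218) (nat_lit 127))) (PT.nd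 (nat_lit 78) (PT.lf (nat_lit 12236) (nat_lit 6) (nat_lit 161) (nat_lit 0) (nat_lit 226) (nat_lit 218) (nat_lit 126)) (PT.lf (nat_lit 11856) (nat_lit 6) (nat_lit 156) (nat_lit 0) (nat_lit 227) (nat_lit 218) (nat_lit 125)))))))
noncomputable def pc113 : PT := (PT.nd (nat_lit 1248) (PT.nd (nat_lit 624) (PT.nd (nat_lit 312) (PT.nd (nat_lit 156) (PT.nd (nat_lit 78) (PT.lf (nat_lit 11476) (nat_lit 6) (nat_lit 151) (nat_lit 5) (nat_lit 124) (nat_lit 219) (nat_lit 227)) (PT.lf (nat_lit 11932) (nat_lit 6) (nat_lit 157) (nat_lit 5) (nat_lit 125) (nat_lit 219) (nat_lit 226))) (PT.nd (nat_lit 78) (PT.lf (nat_lit 12312) (nat_lit 6) (nat_lit 162) (nat_lit 5) (nat_lit 126) (nat_lit 219) (nat_lit 225)) (PT.lf (nat_lit 12768) (nat_lit 6) (nat_lit 168) (nat_lit 5) (nat_lit 127) (nat_lit 219) (nat_lit 224)))) (PT.nd (nat_lit 156) (PT.nd (nat_lit 78) (PT.lf (nat_lit 13148) (nat_lit 6) (nat_lit 173) (nat_lit 5) (nat_lit 128) (nat_lit 219) (nat_lit 223)) (PT.lf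 (nat_lit 13604) (nat_lit 6) (nat_lit 179) (nat_lit 5) (nat_lit 129) (nat_lit 219) (nat_lit 222))) (PT.nd (nat_lit 78) (PT.lf (nat_lit 14060) (nat_lit 6) (nat_lit 185) (nat_lit 5) (nat_lit 130) (nat_lit 219) (nat_lit 221)) (PT.lf (nat_lit 14516) (nat_lit 6) (nat_lit 191) (nat_lit 5) (nat_lit 131) (nat_lit 219) (nat_lit 220))))) (PT.nd (nat_lit 312) (PT.nd (nat_lit 156) (PT.nd (nat_lit 78) (PT.lf (nat_lit 14972) (nat_lit 3) (nat_lit 197) (nat_lit 4) (nat_lit 132) (nat_lit 219) (nat_lit 219)) (PT.lf (nat_lit 15428) (nat_lit 6) (nat_lit 203) (nat_lit 4) (nat_lit 133) (nat_lit 219) (nat_lit 218))) (PT.nd (nat_lit 78) (PT.lf (nat_lit 15808) (nat_lit 6) (nat_lit 208) (nat_lit 4) (nat_lit 134) (nat_lit 219) (nat_lit 217)) (PT.lf (nat_lit 16264) (nat_lit 6) (nat_lit 214) (nat_lit 4) (nat_lit 135) (nat_lit 219) (nat_lit 216)))) (PT.nd (nat_lit 156) (PT.nd (nat_lit 78) (PT.lf (nat_lit 16720) (nat_lit 6) (nat_lit 220) (nat_lit 4) (nat_lit 136) (nat_lit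 219) (nat_lit 215)) (PT.lf (nat_lit 17176) (nat_lit 6) (nat_lit 226) (nat_lit 4) (nat_lit 137) (nat_lit 219) (nat_lit 214))) (PT.nd (nat_lit 78) (PT.lf (nat_lit 17632) (nat_lit 6) (nat_lit 232) (nat_lit 4) (nat_lit 138) (nat_lit 219) (nat_lit 213)) (PT.lf (nat_lit 18164) (nat_lit 6) (nat_lit 239) (nat_lit 4) (nat_lit 139) (nat_lit 219) (nat_lit 212)))))) (PT.nd (nat_lit 624) (PT.nd (nat_lit 312) (PT.nd (nat_lit 156) (PT.nd (nat_lit 78) (PT.lf (nat_lit 18620) (nat_lit 6) (nat_lit 245) (nat_lit 4) (nat_lit 140) (nat_lit 219) (nat_lit 211)) (PT.lf (nat_lit 19152) (nat_lit 6) (nat_lit 252) (nat_lit 4) (nat_lit 141) (nat_lit 219) (nat_lit 210))) (PT.nd (nat_lit 78) (PT.lf (nat_lit 19684) (nat_lit 6) (nat_lit 259) (nat_lit 4) (nat_lit 142) (nat_lit 219) (nat_lit 209)) (PT.lf (nat_lit 20216) (nat_lit 6) (nat_lit 266) (nat_lit 4) (nat_lit 143) (nat_lit 219) (nat_lit 208)))) (PT.nd (nat_lit 156) (PT.nd (nat_lit 78) (PT.lf (nat_lit 20748) (nat_lit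 6) (nat_lit 273) (nat_lit 4) (nat_lit 144) (nat_lit 219) (nat_lit 207)) (PT.lf (nat_lit 21356) (nat_lit 6) (nat_lit 281) (nat_lit 4) (nat_lit 145) (nat_lit 219) (nat_lit 206))) (PT.nd (nat_lit 78) (PT.lf (nat_lit 21888) (nat_lit 6) (nat_lit 288) (nat_lit 4) (nat_lit 146) (nat_lit 219) (nat_lit 205)) (PT.lf (nat_lit 22496) (nat_lit 6) (nat_lit 296) (nat_lit 4) (nat_lit 147) (nat_lit 219) (nat_lit 204))))) (PT.nd (nat_lit 4524) (PT.nd (nat_lit 4368) (PT.nd (nat_lit 4290) (PT.lf (nat_lit 23104) (nat_lit 6) (nat_lit 304) (nat_lit 4) (nat_lit 148) (nat_lit 219) (nat_lit 203)) (PT.lf (nat_lit 23104) (nat_lit 6) (nat_lit 304) (nat_lit 2) (nat_lit 203) (nat_lit 219) (nat_lit 148))) (PT.nd (nat_lit 78) (PT.lf (nat_lit 22496) (nat_lit 6) (nat_lit 296) (nat_lit 2) (nat_lit 204) (nat_lit 219) (nat_lit 147)) (PT.lf (nat_lit 21888) (nat_lit 6) (nat_lit 288) (nat_lit 2) (nat_lit 205) (nat_lit 219) (nat_lit 146)))) (PT.nd (nat_lit 156) (PT.nd (nat_lit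 78) (PT.lf (nat_lit 21356) (nat_lit 6) (nat_lit 281) (nat_lit 2) (nat_lit 206) (nat_lit 219) (nat_lit 145)) (PT.lf (nat_lit 20748) (nat_lit 6) (nat_lit 273) (nat_lit 2) (nat_lit 207) (nat_lit 219) (nat_lit 144))) (PT.nd (nat_lit 78) (PT.lf (nat_lit 20216) (nat_lit 6) (nat_lit 266) (nat_lit 2) (nat_lit 208) (nat_lit 219) (nat_lit 143)) (PT.nd (nat_lit 78) (PT.lf (nat_lit 19684) (nat_lit 6) (nat_lit 259) (nat_lit 2) (nat_lit 209) (nat_lit 219) (nat_lit 142)) (PT.lf (nat_lit 19152) (nat_lit 6) (nat_lit 252) (nat_lit 2) (nat_lit 210) (nat_lit 219) (nat_lit 141))))))))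
noncomputable def pc114 : PT := (PT.nd (nat_lit 1248) (PT.nd (nat_lit 624) (PT.nd (nat_lit 312) (PT.nd (nat_lit 156) (PT.nd (nat_lit 78) (PT.lf (nat_lit 18620) (nat_lit 6) (nat_lit 245) (nat_lit 2) (nat_lit 211) (nat_lit 219) (nat_lit 140)) (PT.lf (nat_lit 18164) (nat_lit 6) (nat_lit 239) (nat_lit 2) (nat_lit 212) (nat_lit 219) (nat_lit 139))) (PT.nd (nat_lit 78) (PT.lf (nat_lit 17632) (nat_lit 6) (nat_lit 232) (nat_lit 2) (nat_lit 213) (nat_lit 219) (nat_lit 138)) (PT.lf (nat_lit 17176) (nat_lit 6) (nat_lit 226) (nat_lit 2) (nat_lit 214) (nat_lit 219) (nat_lit 137)))) (PT.nd (nat_lit 156) (PT.nd (nat_lit 78) (PT.lf (nat_lit 16720) (nat_lit 6) (nat_lit 220) (nat_lit 2) (nat_lit 215) (nat_lit 219) (nat_lit 136)) (PT.lf (nat_lit 16264) (nat_lit 6) (nat_lit 214) (nat_lit 2) (nat_lit 216) (nat_lit 219) (nat_lit 135))) (PT.nd (nat_lit 78) (PT.lf (nat_lit 15808) (nat_lit 6) (nat_lit 208) (nat_lit 2) (nat_lit 217) (nat_lit 219) (nat_lit 134))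 (PT.lf (nat_lit 15428) (nat_lit 6) (nat_lit 203) (nat_lit 2) (nat_lit 218) (nat_lit 219) (nat_lit 133))))) (PT.nd (nat_lit 312) (PT.nd (nat_lit 156) (PT.nd (nat_lit 78) (PT.lf (nat_lit 14972) (nat_lit 3) (nat_lit 197) (nat_lit 0) (nat_lit 219) (nat_lit 219) (nat_lit 132)) (PT.lf (nat_lit 14516) (nat_lit 6) (nat_lit 191) (nat_lit 0) (nat_lit 220) (nat_lit 219) (nat_lit 131))) (PT.nd (nat_lit 78) (PT.lf (nat_lit 14060) (nat_lit 6) (nat_lit 185) (nat_lit 0) (nat_lit 221) (nat_lit 219) (nat_lit 130)) (PT.lf (nat_lit 13604) (nat_lit 6) (nat_lit 179) (nat_lit 0) (nat_lit 222) (nat_lit 219) (nat_lit 129)))) (PT.nd (nat_lit 156) (PT.nd (nat_lit 78) (PT.lf (nat_lit 13148) (nat_lit 6) (nat_lit 173) (nat_lit 0) (nat_lit 223) (nat_lit 219) (nat_lit 128)) (PT.lf (nat_lit 12768) (nat_lit 6) (nat_lit 168) (nat_lit 0) (nat_lit 224) (nat_lit 219) (nat_lit 127))) (PT.nd (nat_lit 78) (PT.lf (nat_lit 12312) (nat_lit 6) (nat_lit 162) (nat_lit 0) (nat_lit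 225) (nat_lit 219) (nat_lit 126)) (PT.lf (nat_lit 11932) (nat_lit 6) (nat_lit 157) (nat_lit 0) (nat_lit 226) (nat_lit 219) (nat_lit 125)))))) (PT.nd (nat_lit 51714) (PT.nd (nat_lit 51402) (PT.nd (nat_lit 51246) (PT.nd (nat_lit 51168) (PT.lf (nat_lit 11476) (nat_lit 6) (nat_lit 151) (nat_lit 0) (nat_lit 227) (nat_lit 219) (nat_lit 124)) (PT.lf (nat_lit 10792) (nat_lit 6) (nat_lit 142) (nat_lit 5) (nat_lit 122) (nat_lit 220) (nat_lit 228))) (PT.nd (nat_lit 78) (PT.lf (nat_lit 11172) (nat_lit 6) (nat_lit 147) (nat_lit 5) (nat_lit 123) (nat_lit 220) (nat_lit 227)) (PT.lf (nat_lit 11552) (nat_lit 6) (nat_lit 152) (nat_lit 5) (nat_lit 124) (nat_lit 220) (nat_lit 226)))) (PT.nd (nat_lit 156) (PT.nd (nat_lit 78) (PT.lf (nat_lit 12008) (nat_lit 6) (nat_lit 158) (nat_lit 5) (nat_lit 125) (nat_lit 220) (nat_lit 225)) (PT.lf (nat_lit 12388) (nat_lit 6) (nat_lit 163) (nat_lit 5) (nat_lit 126) (nat_lit 220) (nat_lit 224))) (PT.nd (nat_lit 78) (PT.lf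 (nat_lit 12844) (nat_lit 6) (nat_lit 169) (nat_lit 5) (nat_lit 127) (nat_lit 220) (nat_lit 223)) (PT.lf (nat_lit 13224) (nat_lit 6) (nat_lit 174) (nat_lit 5) (nat_lit 128) (nat_lit 220) (nat_lit 222))))) (PT.nd (nat_lit 312) (PT.nd (nat_lit 156) (PT.nd (nat_lit 78) (PT.lf (nat_lit 13680) (nat_lit 6) (nat_lit 180) (nat_lit 5) (nat_lit 129) (nat_lit 220) (nat_lit 221)) (PT.lf (nat_lit 14136) (nat_lit 3) (nat_lit 186) (nat_lit 4) (nat_lit 130) (nat_lit 220) (nat_lit 220))) (PT.nd (nat_lit 78) (PT.lf (nat_lit 14516) (nat_lit 6) (nat_lit 191) (nat_lit 4) (nat_lit 131) (nat_lit 220) (nat_lit 219)) (PT.lf (nat_lit 14896) (nat_lit 6) (nat_lit 196) (nat_lit 4) (nat_lit 132) (nat_lit 220) (nat_lit 218)))) (PT.nd (nat_lit 156) (PT.nd (nat_lit 78) (PT.lf (nat_lit 15352) (nat_lit 6) (nat_lit 202) (nat_lit 4) (nat_lit 133) (nat_lit 220) (nat_lit 217)) (PT.lf (nat_lit 15732) (nat_lit 6) (nat_lit 207) (nat_lit 4) (nat_lit 134) (nat_lit 220) (nat_lit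 216))) (PT.nd (nat_lit 78) (PT.lf (nat_lit 16188) (nat_lit 6) (nat_lit 213) (nat_lit 4) (nat_lit 135) (nat_lit 220) (nat_lit 215)) (PT.nd (nat_lit 78) (PT.lf (nat_lit 16644) (nat_lit 6) (nat_lit 219) (nat_lit 4) (nat_lit 136) (nat_lit 220) (nat_lit 214)) (PT.lf (nat_lit 17100) (nat_lit 6) (nat_lit 225) (nat_lit 4) (nat_lit 137) (nat_lit 220) (nat_lit 213))))))))
noncomputable def pc115 : PT := (PT.nd (nat_lit 5850) (PT.nd (nat_lit 5226) (PT.nd (nat_lit 312) (PT.nd (nat_lit 156) (PT.nd (nat_lit 78) (PT.lf (nat_lit 17556) (nat_lit 6) (nat_lit 231) (nat_lit 4) (nat_lit 138) (nat_lit 220) (nat_lit 212)) (PT.lf (nat_lit 18088) (nat_lit 6) (nat_lit 238) (nat_lit 4) (nat_lit 139) (nat_lit 220) (nat_lit 211))) (PT.nd (nat_lit 78) (PT.lf (nat_lit 18544) (nat_lit 6) (nat_lit 244) (nat_lit 4) (nat_lit 140) (nat_lit 220) (nat_lit 210)) (PT.lf (nat_lit 19076) (nat_lit 6) (nat_lit 251) (nat_lit 4) (nat_lit 141) (nat_lit 220) (nat_lit 209)))) (PT.nd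 (nat_lit 156) (PT.nd (nat_lit 78) (PT.lf (nat_lit 19608) (nat_lit 6) (nat_lit 258) (nat_lit 4) (nat_lit 142) (nat_lit 220) (nat_lit 208)) (PT.lf (nat_lit 20140) (nat_lit 6) (nat_lit 265) (nat_lit 4) (nat_lit 143) (nat_lit 220) (nat_lit 207))) (PT.nd (nat_lit 78) (PT.lf (nat_lit 20672) (nat_lit 6) (nat_lit 272) (nat_lit 4) (nat_lit 144) (nat_lit 220) (nat_lit 206)) (PT.lf (nat_lit 21280) (nat_lit 6) (nat_lit 280) (nat_lit 4) (nat_lit 145) (nat_lit 220) (nat_lit 205))))) (PT.nd (nat_lit 312) (PT.nd (nat_lit 156) (PT.nd (nat_lit 78) (PT.lf (nat_lit 21280) (nat_lit 6) (nat_lit 280) (nat_lit 2) (nat_lit 205) (nat_lit 220) (nat_lit 145)) (PT.lf (nat_lit 20672) (nat_lit 6) (nat_lit 272) (nat_lit 2) (nat_lit 206) (nat_lit 220) (nat_lit 144))) (PT.nd (nat_lit 78) (PT.lf (nat_lit 20140) (nat_lit 6) (nat_lit 265) (nat_lit 2) (nat_lit 207) (nat_lit 220) (nat_lit 143)) (PT.lf (nat_lit 19608) (nat_lit 6) (nat_lit 258) (nat_lit 2) (nat_lit 208) (nat_lit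 220) (nat_lit 142)))) (PT.nd (nat_lit 156) (PT.nd (nat_lit 78) (PT.lf (nat_lit 19076) (nat_lit 6) (nat_lit 251) (nat_lit 2) (nat_lit 209) (nat_lit 220) (nat_lit 141)) (PT.lf (nat_lit 18544) (nat_lit 6) (nat_lit 244) (nat_lit 2) (nat_lit 210) (nat_lit 220) (nat_lit 140))) (PT.nd (nat_lit 78) (PT.lf (nat_lit 18088) (nat_lit 6) (nat_lit 238) (nat_lit 2) (nat_lit 211) (nat_lit 220) (nat_lit 139)) (PT.lf (nat_lit 17556) (nat_lit 6) (nat_lit 231) (nat_lit 2) (nat_lit 212) (nat_lit 220) (nat_lit 138)))))) (PT.nd (nat_lit 624) (PT.nd (nat_lit 312) (PT.nd (nat_lit 156) (PT.nd (nat_lit 78) (PT.lf (nat_lit 17100) (nat_lit 6) (nat_lit 225) (nat_lit 2) (nat_lit 213) (nat_lit 220) (nat_lit 137)) (PT.lf (nat_lit 16644) (nat_lit 6) (nat_lit 219) (nat_lit 2) (nat_lit 214) (nat_lit 220) (nat_lit 136))) (PT.nd (nat_lit 78) (PT.lf (nat_lit 16188) (nat_lit 6) (nat_lit 213) (nat_lit 2) (nat_lit 215) (nat_lit 220) (nat_lit 135)) (PT.lf (nat_lit 15732) (nat_lit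 6) (nat_lit 207) (nat_lit 2) (nat_lit 216) (nat_lit 220) (nat_lit 134)))) (PT.nd (nat_lit 156) (PT.nd (nat_lit 78) (PT.lf (nat_lit 15352) (nat_lit 6) (nat_lit 202) (nat_lit 2) (nat_lit 217) (nat_lit 220) (nat_lit 133)) (PT.lf (nat_lit 14896) (nat_lit 6) (nat_lit 196) (nat_lit 2) (nat_lit 218) (nat_lit 220) (nat_lit 132))) (PT.nd (nat_lit 78) (PT.lf (nat_lit 14516) (nat_lit 6) (nat_lit 191) (nat_lit 2) (nat_lit 219) (nat_lit 220) (nat_lit 131)) (PT.lf (nat_lit 14136) (nat_lit 3) (nat_lit 186) (nat_lit 0) (nat_lit 220) (nat_lit 220) (nat_lit 130))))) (PT.nd (nat_lit 312) (PT.nd (nat_lit 156) (PT.nd (nat_lit 78) (PT.lf (nat_lit 13680) (nat_lit 6) (nat_lit 180) (nat_lit 0) (nat_lit 221) (nat_lit 220) (nat_lit 129)) (PT.lf (nat_lit 13224) (nat_lit 6) (nat_lit 174) (nat_lit 0) (nat_lit 222) (nat_lit 220) (nat_lit 128))) (PT.nd (nat_lit 78) (PT.lf (nat_lit 12844) (nat_lit 6) (nat_lit 169) (nat_lit 0) (nat_lit 223) (nat_lit 220) (nat_lit 127))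 (PT.lf (nat_lit 12388) (nat_lit 6) (nat_lit 163) (nat_lit 0) (nat_lit 224) (nat_lit 220) (nat_lit 126)))) (PT.nd (nat_lit 156) (PT.nd (nat_lit 78) (PT.lf (nat_lit 12008) (nat_lit 6) (nat_lit 158) (nat_lit 0) (nat_lit 225) (nat_lit 220) (nat_lit 125)) (PT.lf (nat_lit 11552) (nat_lit 6) (nat_lit 152) (nat_lit 0) (nat_lit 226) (nat_lit 220) (nat_lit 124))) (PT.nd (nat_lit 78) (PT.lf (nat_lit 11172) (nat_lit 6) (nat_lit 147) (nat_lit 0) (nat_lit 227) (nat_lit 220) (nat_lit 123)) (PT.nd (nat_lit 50934) (PT.lf (nat_lit 10792) (nat_lit 6) (nat_lit 142) (nat_lit 0) (nat_lit 228) (nat_lit 220) (nat_lit 122)) (PT.lf (nat_lit 10108) (nat_lit 6) (nat_lit 133) (nat_lit 5) (nat_lit 120) (nat_lit 221) (nat_lit 229))))))))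
noncomputable def pc116 : PT := (PT.nd (nat_lit 1248) (PT.nd (nat_lit 624) (PT.nd (nat_lit 312) (PT.nd (nat_lit 156) (PT.nd (nat_lit 78) (PT.lf (nat_lit 10488) (nat_lit 6) (nat_lit 138) (nat_lit 5) (nat_lit 121) (nat_lit 221) (nat_lit 228)) (PT.lf (nat_lit 10868) (nat_lit 6) (nat_lit 143) (nat_lit 5) (nat_lit 122) (nat_lit 221) (nat_lit 227))) (PT.nd (nat_lit 78) (PT.lf (nat_lit 11248) (nat_lit 6) (nat_lit 148) (nat_lit 5) (nat_lit 123) (nat_lit 221) (nat_lit 226)) (PT.lf (nat_lit 11628) (nat_lit 6) (nat_lit 153) (nat_lit 5) (nat_lit 124) (nat_lit 221) (nat_lit 225)))) (PT.nd (nat_lit 156) (PT.nd (nat_lit 78) (PT.lf (nat_lit 12084) (nat_lit 6) (nat_lit 159) (nat_lit 5) (nat_lit 125) (nat_lit 221) (nat_lit 224)) (PT.lf (nat_lit 12464) (nat_lit 6) (nat_lit 164) (nat_lit 5) (nat_lit 126) (nat_lit 221) (nat_lit 223))) (PT.nd (nat_lit 78) (PT.lf (nat_lit 12920) (nat_lit 6) (nat_lit 170) (nat_lit 5) (nat_lit 127) (nat_lit 221) (nat_lit 222))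 (PT.lf (nat_lit 13300) (nat_lit 3) (nat_lit 175) (nat_lit 4) (nat_lit 128) (nat_lit 221) (nat_lit 221))))) (PT.nd (nat_lit 312) (PT.nd (nat_lit 156) (PT.nd (nat_lit 78) (PT.lf (nat_lit 13680) (nat_lit 6) (nat_lit 180) (nat_lit 4) (nat_lit 129) (nat_lit 221) (nat_lit 220)) (PT.lf (nat_lit 14060) (nat_lit 6) (nat_lit 185) (nat_lit 4) (nat_lit 130) (nat_lit 221) (nat_lit 219))) (PT.nd (nat_lit 78) (PT.lf (nat_lit 14440) (nat_lit 6) (nat_lit 190) (nat_lit 4) (nat_lit 131) (nat_lit 221) (nat_lit 218)) (PT.lf (nat_lit 14820) (nat_lit 6) (nat_lit 195) (nat_lit 4) (nat_lit 132) (nat_lit 221) (nat_lit 217)))) (PT.nd (nat_lit 156) (PT.nd (nat_lit 78) (PT.lf (nat_lit 15276) (nat_lit 6) (nat_lit 201) (nat_lit 4) (nat_lit 133) (nat_lit 221) (nat_lit 216)) (PT.lf (nat_lit 15656) (nat_lit 6) (nat_lit 206) (nat_lit 4) (nat_lit 134) (nat_lit 221) (nat_lit 215))) (PT.nd (nat_lit 78) (PT.lf (nat_lit 16112) (nat_lit 6) (nat_lit 212) (nat_lit 4) (nat_lit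 135) (nat_lit 221) (nat_lit 214)) (PT.lf (nat_lit 16568) (nat_lit 6) (nat_lit 218) (nat_lit 4) (nat_lit 136) (nat_lit 221) (nat_lit 213)))))) (PT.nd (nat_lit 5616) (PT.nd (nat_lit 312) (PT.nd (nat_lit 156) (PT.nd (nat_lit 78) (PT.lf (nat_lit 17024) (nat_lit 6) (nat_lit 224) (nat_lit 4) (nat_lit 137) (nat_lit 221) (nat_lit 212)) (PT.lf (nat_lit 17480) (nat_lit 6) (nat_lit 230) (nat_lit 4) (nat_lit 138) (nat_lit 221) (nat_lit 211))) (PT.nd (nat_lit 78) (PT.lf (nat_lit 18012) (nat_lit 6) (nat_lit 237) (nat_lit 4) (nat_lit 139) (nat_lit 221) (nat_lit 210)) (PT.lf (nat_lit 18468) (nat_lit 6) (nat_lit 243) (nat_lit 4) (nat_lit 140) (nat_lit 221) (nat_lit 209)))) (PT.nd (nat_lit 5148) (PT.nd (nat_lit 78) (PT.lf (nat_lit 19000) (nat_lit 6) (nat_lit 250) (nat_lit 4) (nat_lit 141) (nat_lit 221) (nat_lit 208)) (PT.lf (nat_lit 19532) (nat_lit 6) (nat_lit 257) (nat_lit 4) (nat_lit 142) (nat_lit 221) (nat_lit 207))) (PT.nd (nat_lit 78) (PT.lf (nat_lit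 19532) (nat_lit 6) (nat_lit 257) (nat_lit 2) (nat_lit 207) (nat_lit 221) (nat_lit 142)) (PT.lf (nat_lit 19000) (nat_lit 6) (nat_lit 250) (nat_lit 2) (nat_lit 208) (nat_lit 221) (nat_lit 141))))) (PT.nd (nat_lit 312) (PT.nd (nat_lit 156) (PT.nd (nat_lit 78) (PT.lf (nat_lit 18468) (nat_lit 6) (nat_lit 243) (nat_lit 2) (nat_lit 209) (nat_lit 221) (nat_lit 140)) (PT.lf (nat_lit 18012) (nat_lit 6) (nat_lit 237) (nat_lit 2) (nat_lit 210) (nat_lit 221) (nat_lit 139))) (PT.nd (nat_lit 78) (PT.lf (nat_lit 17480) (nat_lit 6) (nat_lit 230) (nat_lit 2) (nat_lit 211) (nat_lit 221) (nat_lit 138)) (PT.lf (nat_lit 17024) (nat_lit 6) (nat_lit 224) (nat_lit 2) (nat_lit 212) (nat_lit 221) (nat_lit 137)))) (PT.nd (nat_lit 156) (PT.nd (nat_lit 78) (PT.lf (nat_lit 16568) (nat_lit 6) (nat_lit 218) (nat_lit 2) (nat_lit 213) (nat_lit 221) (nat_lit 136)) (PT.lf (nat_lit 16112) (nat_lit 6) (nat_lit 212) (nat_lit 2) (nat_lit 214) (nat_lit 221) (nat_lit 135))) (PT.nd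 (nat_lit 78) (PT.lf (nat_lit 15656) (nat_lit 6) (nat_lit 206) (nat_lit 2) (nat_lit 215) (nat_lit 221) (nat_lit 134)) (PT.nd (nat_lit 78) (PT.lf (nat_lit 15276) (nat_lit 6) (nat_lit 201) (nat_lit 2) (nat_lit 216) (nat_lit 221) (nat_lit 133)) (PT.lf (nat_lit 14820) (nat_lit 6) (nat_lit 195) (nat_lit 2) (nat_lit 217) (nat_lit 221) (nat_lit 132))))))))
noncomputable def pc117 : PT := (PT.nd (nat_lit 51948) (PT.nd (nat_lit 624) (PT.nd (nat_lit 312) (PT.nd (nat_lit 156) (PT.nd (nat_lit 78) (PT.lf (nat_lit 14440) (nat_lit 6) (nat_lit 190) (nat_lit 2) (nat_lit 218) (nat_lit 221) (nat_lit 131)) (PT.lf (nat_lit 14060) (nat_lit 6) (nat_lit 185) (nat_lit 2) (nat_lit 219) (nat_lit 221) (nat_lit 130))) (PT.nd (nat_lit 78) (PT.lf (nat_lit 13680) (nat_lit 6) (nat_lit 180) (nat_lit 2) (nat_lit 220) (nat_lit 221) (nat_lit 129)) (PT.lf (nat_lit 13300) (nat_lit 3) (nat_lit 175) (nat_lit 0) (nat_lit 221) (nat_lit 221) (nat_lit 128)))) (PT.nd (nat_lit 156)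 (PT.nd (nat_lit 78) (PT.lf (nat_lit 12920) (nat_lit 6) (nat_lit 170) (nat_lit 0) (nat_lit 222) (nat_lit 221) (nat_lit 127)) (PT.lf (nat_lit 12464) (nat_lit 6) (nat_lit 164) (nat_lit 0) (nat_lit 223) (nat_lit 221) (nat_lit 126))) (PT.nd (nat_lit 78) (PT.lf (nat_lit 12084) (nat_lit 6) (nat_lit 159) (nat_lit 0) (nat_lit 224) (nat_lit 221) (nat_lit 125)) (PT.lf (nat_lit 11628) (nat_lit 6) (nat_lit 153) (nat_lit 0) (nat_lit 225) (nat_lit 221) (nat_lit 124))))) (PT.nd (nat_lit 51012) (PT.nd (nat_lit 156) (PT.nd (nat_lit 78) (PT.lf (nat_lit 11248) (nat_lit 6) (nat_lit 148) (nat_lit 0) (nat_lit 226) (nat_lit 221) (nat_lit 123)) (PT.lf (nat_lit 10868) (nat_lit 6) (nat_lit 143) (nat_lit 0) (nat_lit 227) (nat_lit 221) (nat_lit 122))) (PT.nd (nat_lit 78) (PT.lf (nat_lit 10488) (nat_lit 6) (nat_lit 138) (nat_lit 0) (nat_lit 228) (nat_lit 221) (nat_lit 121)) (PT.lf (nat_lit 10108) (nat_lit 6) (nat_lit 133) (nat_lit 0) (nat_lit 229) (nat_lit 221) (nat_lit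 120)))) (PT.nd (nat_lit 156) (PT.nd (nat_lit 78) (PT.lf (nat_lit 9804) (nat_lit 6) (nat_lit 129) (nat_lit 5) (nat_lit 119) (nat_lit 222) (nat_lit 229)) (PT.lf (nat_lit 10184) (nat_lit 6) (nat_lit 134) (nat_lit 5) (nat_lit 120) (nat_lit 222) (nat_lit 228))) (PT.nd (nat_lit 78) (PT.lf (nat_lit 10564) (nat_lit 6) (nat_lit 139) (nat_lit 5) (nat_lit 121) (nat_lit 222) (nat_lit 227)) (PT.lf (nat_lit 10944) (nat_lit 6) (nat_lit 144) (nat_lit 5) (nat_lit 122) (nat_lit 222) (nat_lit 226)))))) (PT.nd (nat_lit 624) (PT.nd (nat_lit 312) (PT.nd (nat_lit 156) (PT.nd (nat_lit 78) (PT.lf (nat_lit 11324) (nat_lit 6) (nat_lit 149) (nat_lit 5) (nat_lit 123) (nat_lit 222) (nat_lit 225)) (PT.lf (nat_lit 11704) (nat_lit 6) (nat_lit 154) (nat_lit 5) (nat_lit 124) (nat_lit 222) (nat_lit 224))) (PT.nd (nat_lit 78) (PT.lf (nat_lit 12160) (nat_lit 6) (nat_lit 160) (nat_lit 5) (nat_lit 125) (nat_lit 222) (nat_lit 223)) (PT.lf (nat_lit 12540) (nat_lit 3) (nat_lit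 165) (nat_lit 4) (nat_lit 126) (nat_lit 222) (nat_lit 222)))) (PT.nd (nat_lit 156) (PT.nd (nat_lit 78) (PT.lf (nat_lit 12920) (nat_lit 6) (nat_lit 170) (nat_lit 4) (nat_lit 127) (nat_lit 222) (nat_lit 221)) (PT.lf (nat_lit 13224) (nat_lit 6) (nat_lit 174) (nat_lit 4) (nat_lit 128) (nat_lit 222) (nat_lit 220))) (PT.nd (nat_lit 78) (PT.lf (nat_lit 13604) (nat_lit 6) (nat_lit 179) (nat_lit 4) (nat_lit 129) (nat_lit 222) (nat_lit 219)) (PT.lf (nat_lit 13984) (nat_lit 6) (nat_lit 184) (nat_lit 4) (nat_lit 130) (nat_lit 222) (nat_lit 218))))) (PT.nd (nat_lit 312) (PT.nd (nat_lit 156) (PT.nd (nat_lit 78) (PT.lf (nat_lit 14364) (nat_lit 6) (nat_lit 189) (nat_lit 4) (nat_lit 131) (nat_lit 222) (nat_lit 217)) (PT.lf (nat_lit 14744) (nat_lit 6) (nat_lit 194) (nat_lit 4) (nat_lit 132) (nat_lit 222) (nat_lit 216))) (PT.nd (nat_lit 78) (PT.lf (nat_lit 15200) (nat_lit 6) (nat_lit 200) (nat_lit 4) (nat_lit 133) (nat_lit 222) (nat_lit 215)) (PT.lf (nat_lit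 15580) (nat_lit 6) (nat_lit 205) (nat_lit 4) (nat_lit 134) (nat_lit 222) (nat_lit 214)))) (PT.nd (nat_lit 156) (PT.nd (nat_lit 78) (PT.lf (nat_lit 16036) (nat_lit 6) (nat_lit 211) (nat_lit 4) (nat_lit 135) (nat_lit 222) (nat_lit 213)) (PT.lf (nat_lit 16492) (nat_lit 6) (nat_lit 217) (nat_lit 4) (nat_lit 136) (nat_lit 222) (nat_lit 212))) (PT.nd (nat_lit 78) (PT.lf (nat_lit 16948) (nat_lit 6) (nat_lit 223) (nat_lit 4) (nat_lit 137) (nat_lit 222) (nat_lit 211)) (PT.nd (nat_lit 78) (PT.lf (nat_lit 17404) (nat_lit 6) (nat_lit 229) (nat_lit 4) (nat_lit 138) (nat_lit 222) (nat_lit 210)) (PT.lf (nat_lit 17936) (nat_lit 6) (nat_lit 236) (nat_lit 4) (nat_lit 139) (nat_lit 222) (nat_lit 209))))))))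
noncomputable def pc118 : PT := (PT.nd (nat_lit 1248) (PT.nd (nat_lit 624) (PT.nd (nat_lit 312) (PT.nd (nat_lit 156) (PT.nd (nat_lit 78) (PT.lf (nat_lit 17936) (nat_lit 6) (nat_lit 236) (nat_lit 2) (nat_lit 209) (nat_lit 222) (nat_lit 139)) (PT.lf (nat_lit 17404) (nat_lit 6) (nat_lit 229) (nat_lit 2) (nat_lit 210) (nat_lit 222) (nat_lit 138))) (PT.nd (nat_lit 78) (PT.lf (nat_lit 16948) (nat_lit 6) (nat_lit 223) (nat_lit 2) (nat_lit 211) (nat_lit 222) (nat_lit 137)) (PT.lf (nat_lit 16492) (nat_lit 6) (nat_lit 217) (nat_lit 2) (nat_lit 212) (nat_lit 222) (nat_lit 136)))) (PT.nd (nat_lit 156) (PT.nd (nat_lit 78) (PT.lf (nat_lit 16036) (nat_lit 6) (nat_lit 211) (nat_lit 2) (nat_lit 213) (nat_lit 222) (nat_lit 135)) (PT.lf (nat_lit 15580) (nat_lit 6) (nat_lit 205) (nat_lit 2) (nat_lit 214) (nat_lit 222) (nat_lit 134))) (PT.nd (nat_lit 78) (PT.lf (nat_lit 15200) (nat_lit 6) (nat_lit 200) (nat_lit 2) (nat_lit 215) (nat_lit 222) (nat_lit 133))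 (PT.lf (nat_lit 14744) (nat_lit 6) (nat_lit 194) (nat_lit 2) (nat_lit 216) (nat_lit 222) (nat_lit 132))))) (PT.nd (nat_lit 312) (PT.nd (nat_lit 156) (PT.nd (nat_lit 78) (PT.lf (nat_lit 14364) (nat_lit 6) (nat_lit 189) (nat_lit 2) (nat_lit 217) (nat_lit 222) (nat_lit 131)) (PT.lf (nat_lit 13984) (nat_lit 6) (nat_lit 184) (nat_lit 2) (nat_lit 218) (nat_lit 222) (nat_lit 130))) (PT.nd (nat_lit 78) (PT.lf (nat_lit 13604) (nat_lit 6) (nat_lit 179) (nat_lit 2) (nat_lit 219) (nat_lit 222) (nat_lit 129)) (PT.lf (nat_lit 13224) (nat_lit 6) (nat_lit 174) (nat_lit 2) (nat_lit 220) (nat_lit 222) (nat_lit 128)))) (PT.nd (nat_lit 156) (PT.nd (nat_lit 78) (PT.lf (nat_lit 12920) (nat_lit 6) (nat_lit 170) (nat_lit 2) (nat_lit 221) (nat_lit 222) (nat_lit 127)) (PT.lf (nat_lit 12540) (nat_lit 3) (nat_lit 165) (nat_lit 0) (nat_lit 222) (nat_lit 222) (nat_lit 126))) (PT.nd (nat_lit 78) (PT.lf (nat_lit 12160) (nat_lit 6) (nat_lit 160) (nat_lit 0) (nat_lit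 223) (nat_lit 222) (nat_lit 125)) (PT.lf (nat_lit 11704) (nat_lit 6) (nat_lit 154) (nat_lit 0) (nat_lit 224) (nat_lit 222) (nat_lit 124)))))) (PT.nd (nat_lit 51168) (PT.nd (nat_lit 312) (PT.nd (nat_lit 156) (PT.nd (nat_lit 78) (PT.lf (nat_lit 11324) (nat_lit 6) (nat_lit 149) (nat_lit 0) (nat_lit 225) (nat_lit 222) (nat_lit 123)) (PT.lf (nat_lit 10944) (nat_lit 6) (nat_lit 144) (nat_lit 0) (nat_lit 226) (nat_lit 222) (nat_lit 122))) (PT.nd (nat_lit 78) (PT.lf (nat_lit 10564) (nat_lit 6) (nat_lit 139) (nat_lit 0) (nat_lit 227) (nat_lit 222) (nat_lit 121)) (PT.lf (nat_lit 10184) (nat_lit 6) (nat_lit 134) (nat_lit 0) (nat_lit 228) (nat_lit 222) (nat_lit 120)))) (PT.nd (nat_lit 50700) (PT.nd (nat_lit 50622) (PT.lf (nat_lit 9804) (nat_lit 6) (nat_lit 129) (nat_lit 0) (nat_lit 229) (nat_lit 222) (nat_lit 119)) (PT.lf (nat_lit 9196) (nat_lit 6) (nat_lit 121) (nat_lit 5) (nat_lit 117) (nat_lit 223) (nat_lit 230))) (PT.nd (nat_lit 78) (PT.lf (nat_lit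 9500) (nat_lit 6) (nat_lit 125) (nat_lit 5) (nat_lit 118) (nat_lit 223) (nat_lit 229)) (PT.lf (nat_lit 9880) (nat_lit 6) (nat_lit 130) (nat_lit 5) (nat_lit 119) (nat_lit 223) (nat_lit 228))))) (PT.nd (nat_lit 312) (PT.nd (nat_lit 156) (PT.nd (nat_lit 78) (PT.lf (nat_lit 10260) (nat_lit 6) (nat_lit 135) (nat_lit 5) (nat_lit 120) (nat_lit 223) (nat_lit 227)) (PT.lf (nat_lit 10640) (nat_lit 6) (nat_lit 140) (nat_lit 5) (nat_lit 121) (nat_lit 223) (nat_lit 226))) (PT.nd (nat_lit 78) (PT.lf (nat_lit 11020) (nat_lit 6) (nat_lit 145) (nat_lit 5) (nat_lit 122) (nat_lit 223) (nat_lit 225)) (PT.lf (nat_lit 11400) (nat_lit 6) (nat_lit 150) (nat_lit 5) (nat_lit 123) (nat_lit 223) (nat_lit 224)))) (PT.nd (nat_lit 156) (PT.nd (nat_lit 78) (PT.lf (nat_lit 11780) (nat_lit 3) (nat_lit 155) (nat_lit 4) (nat_lit 124) (nat_lit 223) (nat_lit 223)) (PT.lf (nat_lit 12160) (nat_lit 6) (nat_lit 160) (nat_lit 4) (nat_lit 125) (nat_lit 223) (nat_lit 222))) (PT.nd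 (nat_lit 78) (PT.lf (nat_lit 12464) (nat_lit 6) (nat_lit 164) (nat_lit 4) (nat_lit 126) (nat_lit 223) (nat_lit 221)) (PT.nd (nat_lit 78) (PT.lf (nat_lit 12844) (nat_lit 6) (nat_lit 169) (nat_lit 4) (nat_lit 127) (nat_lit 223) (nat_lit 220)) (PT.lf (nat_lit 13148) (nat_lit 6) (nat_lit 173) (nat_lit 4) (nat_lit 128) (nat_lit 223) (nat_lit 219))))))))
noncomputable def pc119 : PT := (PT.nd (nat_lit 7020) (PT.nd (nat_lit 6396) (PT.nd (nat_lit 312) (PT.nd (nat_lit 156) (PT.nd (nat_lit 78) (PT.lf (nat_lit 13528) (nat_lit 6) (nat_lit 178) (nat_lit 4) (nat_lit 129) (nat_lit 223) (nat_lit 218)) (PT.lf (nat_lit 13908) (nat_lit 6) (nat_lit 183) (nat_lit 4) (nat_lit 130) (nat_lit 223) (nat_lit 217))) (PT.nd (nat_lit 78) (PT.lf (nat_lit 14288) (nat_lit 6) (nat_lit 188) (nat_lit 4) (nat_lit 131) (nat_lit 223) (nat_lit 216)) (PT.lf (nat_lit 14668) (nat_lit 6) (nat_lit 193) (nat_lit 4) (nat_lit 132) (nat_lit 223) (nat_lit 215)))) (PT.nd (nat_lit 156)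 (PT.nd (nat_lit 78) (PT.lf (nat_lit 15124) (nat_lit 6) (nat_lit 199) (nat_lit 4) (nat_lit 133) (nat_lit 223) (nat_lit 214)) (PT.lf (nat_lit 15504) (nat_lit 6) (nat_lit 204) (nat_lit 4) (nat_lit 134) (nat_lit 223) (nat_lit 213))) (PT.nd (nat_lit 78) (PT.lf (nat_lit 15960) (nat_lit 6) (nat_lit 210) (nat_lit 4) (nat_lit 135) (nat_lit 223) (nat_lit 212)) (PT.lf (nat_lit 16416) (nat_lit 6) (nat_lit 216) (nat_lit 4) (nat_lit 136) (nat_lit 223) (nat_lit 211))))) (PT.nd (nat_lit 312) (PT.nd (nat_lit 156) (PT.nd (nat_lit 78) (PT.lf (nat_lit 16416) (nat_lit 6) (nat_lit 216) (nat_lit 2) (nat_lit 211) (nat_lit 223) (nat_lit 136)) (PT.lf (nat_lit 15960) (nat_lit 6) (nat_lit 210) (nat_lit 2) (nat_lit 212) (nat_lit 223) (nat_lit 135))) (PT.nd (nat_lit 78) (PT.lf (nat_lit 15504) (nat_lit 6) (nat_lit 204) (nat_lit 2) (nat_lit 213) (nat_lit 223) (nat_lit 134)) (PT.lf (nat_lit 15124) (nat_lit 6) (nat_lit 199) (nat_lit 2) (nat_lit 214) (nat_lit 223) (nat_lit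 133)))) (PT.nd (nat_lit 156) (PT.nd (nat_lit 78) (PT.lf (nat_lit 14668) (nat_lit 6) (nat_lit 193) (nat_lit 2) (nat_lit 215) (nat_lit 223) (nat_lit 132)) (PT.lf (nat_lit 14288) (nat_lit 6) (nat_lit 188) (nat_lit 2) (nat_lit 216) (nat_lit 223) (nat_lit 131))) (PT.nd (nat_lit 78) (PT.lf (nat_lit 13908) (nat_lit 6) (nat_lit 183) (nat_lit 2) (nat_lit 217) (nat_lit 223) (nat_lit 130)) (PT.lf (nat_lit 13528) (nat_lit 6) (nat_lit 178) (nat_lit 2) (nat_lit 218) (nat_lit 223) (nat_lit 129)))))) (PT.nd (nat_lit 624) (PT.nd (nat_lit 312) (PT.nd (nat_lit 156) (PT.nd (nat_lit 78) (PT.lf (nat_lit 13148) (nat_lit 6) (nat_lit 173) (nat_lit 2) (nat_lit 219) (nat_lit 223) (nat_lit 128)) (PT.lf (nat_lit 12844) (nat_lit 6) (nat_lit 169) (nat_lit 2) (nat_lit 220) (nat_lit 223) (nat_lit 127))) (PT.nd (nat_lit 78) (PT.lf (nat_lit 12464) (nat_lit 6) (nat_lit 164) (nat_lit 2) (nat_lit 221) (nat_lit 223) (nat_lit 126)) (PT.lf (nat_lit 12160) (nat_lit 6) (nat_lit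 160) (nat_lit 2) (nat_lit 222) (nat_lit 223) (nat_lit 125)))) (PT.nd (nat_lit 156) (PT.nd (nat_lit 78) (PT.lf (nat_lit 11780) (nat_lit 3) (nat_lit 155) (nat_lit 0) (nat_lit 223) (nat_lit 223) (nat_lit 124)) (PT.lf (nat_lit 11400) (nat_lit 6) (nat_lit 150) (nat_lit 0) (nat_lit 224) (nat_lit 223) (nat_lit 123))) (PT.nd (nat_lit 78) (PT.lf (nat_lit 11020) (nat_lit 6) (nat_lit 145) (nat_lit 0) (nat_lit 225) (nat_lit 223) (nat_lit 122)) (PT.lf (nat_lit 10640) (nat_lit 6) (nat_lit 140) (nat_lit 0) (nat_lit 226) (nat_lit 223) (nat_lit 121))))) (PT.nd (nat_lit 50622) (PT.nd (nat_lit 156) (PT.nd (nat_lit 78) (PT.lf (nat_lit 10260) (nat_lit 6) (nat_lit 135) (nat_lit 0) (nat_lit 227) (nat_lit 223) (nat_lit 120)) (PT.lf (nat_lit 9880) (nat_lit 6) (nat_lit 130) (nat_lit 0) (nat_lit 228) (nat_lit 223) (nat_lit 119))) (PT.nd (nat_lit 78) (PT.lf (nat_lit 9500) (nat_lit 6) (nat_lit 125) (nat_lit 0) (nat_lit 229) (nat_lit 223) (nat_lit 118)) (PT.lf (nat_lit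 9196) (nat_lit 6) (nat_lit 121) (nat_lit 0) (nat_lit 230) (nat_lit 223) (nat_lit 117)))) (PT.nd (nat_lit 156) (PT.nd (nat_lit 78) (PT.lf (nat_lit 8588) (nat_lit 6) (nat_lit 113) (nat_lit 5) (nat_lit 115) (nat_lit 224) (nat_lit 231)) (PT.lf (nat_lit 8892) (nat_lit 6) (nat_lit 117) (nat_lit 5) (nat_lit 116) (nat_lit 224) (nat_lit 230))) (PT.nd (nat_lit 78) (PT.lf (nat_lit 9272) (nat_lit 6) (nat_lit 122) (nat_lit 5) (nat_lit 117) (nat_lit 224) (nat_lit 229)) (PT.nd (nat_lit 78) (PT.lf (nat_lit 9576) (nat_lit 6) (nat_lit 126) (nat_lit 5) (nat_lit 118) (nat_lit 224) (nat_lit 228)) (PT.lf (nat_lit 9956) (nat_lit 6) (nat_lit 131) (nat_lit 5) (nat_lit 119) (nat_lit 224) (nat_lit 227))))))))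
noncomputable def pc120 : PT := (PT.nd (nat_lit 7410) (PT.nd (nat_lit 624) (PT.nd (nat_lit 312) (PT.nd (nat_lit 156) (PT.nd (nat_lit 78) (PT.lf (nat_lit 10336) (nat_lit 6) (nat_lit 136) (nat_lit 5) (nat_lit 120) (nat_lit 224) (nat_lit 226)) (PT.lf (nat_lit 10716) (nat_lit 6) (nat_lit 141) (nat_lit 5) (nat_lit 121) (nat_lit 224) (nat_lit 225))) (PT.nd (nat_lit 78) (PT.lf (nat_lit 11096) (nat_lit 3) (nat_lit 146) (nat_lit 4) (nat_lit 122) (nat_lit 224) (nat_lit 224)) (PT.lf (nat_lit 11400) (nat_lit 6) (nat_lit 150) (nat_lit 4) (nat_lit 123) (nat_lit 224) (nat_lit 223)))) (PT.nd (nat_lit 156) (PT.nd (nat_lit 78) (PT.lf (nat_lit 11704) (nat_lit 6) (nat_lit 154) (nat_lit 4) (nat_lit 124) (nat_lit 224) (nat_lit 222)) (PT.lf (nat_lit 12084) (nat_lit 6) (nat_lit 159) (nat_lit 4) (nat_lit 125) (nat_lit 224) (nat_lit 221))) (PT.nd (nat_lit 78) (PT.lf (nat_lit 12388) (nat_lit 6) (nat_lit 163) (nat_lit 4) (nat_lit 126) (nat_lit 224) (nat_lit 220))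 (PT.lf (nat_lit 12768) (nat_lit 6) (nat_lit 168) (nat_lit 4) (nat_lit 127) (nat_lit 224) (nat_lit 219))))) (PT.nd (nat_lit 312) (PT.nd (nat_lit 156) (PT.nd (nat_lit 78) (PT.lf (nat_lit 13072) (nat_lit 6) (nat_lit 172) (nat_lit 4) (nat_lit 128) (nat_lit 224) (nat_lit 218)) (PT.lf (nat_lit 13452) (nat_lit 6) (nat_lit 177) (nat_lit 4) (nat_lit 129) (nat_lit 224) (nat_lit 217))) (PT.nd (nat_lit 78) (PT.lf (nat_lit 13832) (nat_lit 6) (nat_lit 182) (nat_lit 4) (nat_lit 130) (nat_lit 224) (nat_lit 216)) (PT.lf (nat_lit 14212) (nat_lit 6) (nat_lit 187) (nat_lit 4) (nat_lit 131) (nat_lit 224) (nat_lit 215)))) (PT.nd (nat_lit 6318) (PT.nd (nat_lit 78) (PT.lf (nat_lit 14592) (nat_lit 6) (nat_lit 192) (nat_lit 4) (nat_lit 132) (nat_lit 224) (nat_lit 214)) (PT.lf (nat_lit 15048) (nat_lit 6) (nat_lit 198) (nat_lit 4) (nat_lit 133) (nat_lit 224) (nat_lit 213))) (PT.nd (nat_lit 78) (PT.lf (nat_lit 15048) (nat_lit 6) (nat_lit 198) (nat_lit 2) (nat_lit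 213) (nat_lit 224) (nat_lit 133)) (PT.lf (nat_lit 14592) (nat_lit 6) (nat_lit 192) (nat_lit 2) (nat_lit 214) (nat_lit 224) (nat_lit 132)))))) (PT.nd (nat_lit 624) (PT.nd (nat_lit 312) (PT.nd (nat_lit 156) (PT.nd (nat_lit 78) (PT.lf (nat_lit 14212) (nat_lit 6) (nat_lit 187) (nat_lit 2) (nat_lit 215) (nat_lit 224) (nat_lit 131)) (PT.lf (nat_lit 13832) (nat_lit 6) (nat_lit 182) (nat_lit 2) (nat_lit 216) (nat_lit 224) (nat_lit 130))) (PT.nd (nat_lit 78) (PT.lf (nat_lit 13452) (nat_lit 6) (nat_lit 177) (nat_lit 2) (nat_lit 217) (nat_lit 224) (nat_lit 129)) (PT.lf (nat_lit 13072) (nat_lit 6) (nat_lit 172) (nat_lit 2) (nat_lit 218) (nat_lit 224) (nat_lit 128)))) (PT.nd (nat_lit 156) (PT.nd (nat_lit 78) (PT.lf (nat_lit 12768) (nat_lit 6) (nat_lit 168) (nat_lit 2) (nat_lit 219) (nat_lit 224) (nat_lit 127)) (PT.lf (nat_lit 12388) (nat_lit 6) (nat_lit 163) (nat_lit 2) (nat_lit 220) (nat_lit 224) (nat_lit 126))) (PT.nd (nat_lit 78) (PT.lf (nat_lit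 12084) (nat_lit 6) (nat_lit 159) (nat_lit 2) (nat_lit 221) (nat_lit 224) (nat_lit 125)) (PT.lf (nat_lit 11704) (nat_lit 6) (nat_lit 154) (nat_lit 2) (nat_lit 222) (nat_lit 224) (nat_lit 124))))) (PT.nd (nat_lit 312) (PT.nd (nat_lit 156) (PT.nd (nat_lit 78) (PT.lf (nat_lit 11400) (nat_lit 6) (nat_lit 150) (nat_lit 2) (nat_lit 223) (nat_lit 224) (nat_lit 123)) (PT.lf (nat_lit 11096) (nat_lit 3) (nat_lit 146) (nat_lit 0) (nat_lit 224) (nat_lit 224) (nat_lit 122))) (PT.nd (nat_lit 78) (PT.lf (nat_lit 10716) (nat_lit 6) (nat_lit 141) (nat_lit 0) (nat_lit 225) (nat_lit 224) (nat_lit 121)) (PT.lf (nat_lit 10336) (nat_lit 6) (nat_lit 136) (nat_lit 0) (nat_lit 226) (nat_lit 224) (nat_lit 120)))) (PT.nd (nat_lit 156) (PT.nd (nat_lit 78) (PT.lf (nat_lit 9956) (nat_lit 6) (nat_lit 131) (nat_lit 0) (nat_lit 227) (nat_lit 224) (nat_lit 119)) (PT.lf (nat_lit 9576) (nat_lit 6) (nat_lit 126) (nat_lit 0) (nat_lit 228) (nat_lit 224) (nat_lit 118))) (PT.nd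 (nat_lit 78) (PT.lf (nat_lit 9272) (nat_lit 6) (nat_lit 122) (nat_lit 0) (nat_lit 229) (nat_lit 224) (nat_lit 117)) (PT.lf (nat_lit 8892) (nat_lit 6) (nat_lit 117) (nat_lit 0) (nat_lit 230) (nat_lit 224) (nat_lit 116)))))))
noncomputable def pc121 : PT := (PT.nd (nat_lit 51324) (PT.nd (nat_lit 50700) (PT.nd (nat_lit 50388) (PT.nd (nat_lit 50232) (PT.nd (nat_lit 50154) (PT.lf (nat_lit 8588) (nat_lit 6) (nat_lit 113) (nat_lit 0) (nat_lit 231) (nat_lit 224) (nat_lit 115)) (PT.lf (nat_lit 7980) (nat_lit 6) (nat_lit 105) (nat_lit 5) (nat_lit 113) (nat_lit 225) (nat_lit 232))) (PT.nd (nat_lit 78) (PT.lf (nat_lit 8284) (nat_lit 6) (nat_lit 109) (nat_lit 5) (nat_lit 114) (nat_lit 225) (nat_lit 231)) (PT.lf (nat_lit 8664) (nat_lit 6) (nat_lit 114) (nat_lit 5) (nat_lit 115) (nat_lit 225) (nat_lit 230)))) (PT.nd (nat_lit 156) (PT.nd (nat_lit 78) (PT.lf (nat_lit 8968) (nat_lit 6) (nat_lit 118) (nat_lit 5) (nat_lit 116) (nat_lit 225) (nat_lit 229))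 (PT.lf (nat_lit 9348) (nat_lit 6) (nat_lit 123) (nat_lit 5) (nat_lit 117) (nat_lit 225) (nat_lit 228))) (PT.nd (nat_lit 78) (PT.lf (nat_lit 9652) (nat_lit 6) (nat_lit 127) (nat_lit 5) (nat_lit 118) (nat_lit 225) (nat_lit 227)) (PT.lf (nat_lit 10032) (nat_lit 6) (nat_lit 132) (nat_lit 5) (nat_lit 119) (nat_lit 225) (nat_lit 226))))) (PT.nd (nat_lit 312) (PT.nd (nat_lit 156) (PT.nd (nat_lit 78) (PT.lf (nat_lit 10412) (nat_lit 3) (nat_lit 137) (nat_lit 4) (nat_lit 120) (nat_lit 225) (nat_lit 225)) (PT.lf (nat_lit 10716) (nat_lit 6) (nat_lit 141) (nat_lit 4) (nat_lit 121) (nat_lit 225) (nat_lit 224))) (PT.nd (nat_lit 78) (PT.lf (nat_lit 11020) (nat_lit 6) (nat_lit 145) (nat_lit 4) (nat_lit 122) (nat_lit 225) (nat_lit 223)) (PT.lf (nat_lit 11324) (nat_lit 6) (nat_lit 149) (nat_lit 4) (nat_lit 123) (nat_lit 225) (nat_lit 222)))) (PT.nd (nat_lit 156) (PT.nd (nat_lit 78) (PT.lf (nat_lit 11628) (nat_lit 6) (nat_lit 153) (nat_lit 4) (nat_lit 124)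 (nat_lit 225) (nat_lit 221)) (PT.lf (nat_lit 12008) (nat_lit 6) (nat_lit 158) (nat_lit 4) (nat_lit 125) (nat_lit 225) (nat_lit 220))) (PT.nd (nat_lit 78) (PT.lf (nat_lit 12312) (nat_lit 6) (nat_lit 162) (nat_lit 4) (nat_lit 126) (nat_lit 225) (nat_lit 219)) (PT.lf (nat_lit 12692) (nat_lit 6) (nat_lit 167) (nat_lit 4) (nat_lit 127) (nat_lit 225) (nat_lit 218)))))) (PT.nd (nat_lit 7176) (PT.nd (nat_lit 6864) (PT.nd (nat_lit 156) (PT.nd (nat_lit 78) (PT.lf (nat_lit 12996) (nat_lit 6) (nat_lit 171) (nat_lit 4) (nat_lit 128) (nat_lit 225) (nat_lit 217)) (PT.lf (nat_lit 13376) (nat_lit 6) (nat_lit 176) (nat_lit 4) (nat_lit 129) (nat_lit 225) (nat_lit 216))) (PT.nd (nat_lit 6630) (PT.lf (nat_lit 13756) (nat_lit 6) (nat_lit 181) (nat_lit 4) (nat_lit 130) (nat_lit 225) (nat_lit 215)) (PT.lf (nat_lit 13756) (nat_lit 6) (nat_lit 181) (nat_lit 2) (nat_lit 215) (nat_lit 225) (nat_lit 130)))) (PT.nd (nat_lit 156) (PT.nd (nat_lit 78) (PT.lf (nat_lit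 13376) (nat_lit 6) (nat_lit 176) (nat_lit 2) (nat_lit 216) (nat_lit 225) (nat_lit 129)) (PT.lf (nat_lit 12996) (nat_lit 6) (nat_lit 171) (nat_lit 2) (nat_lit 217) (nat_lit 225) (nat_lit 128))) (PT.nd (nat_lit 78) (PT.lf (nat_lit 12692) (nat_lit 6) (nat_lit 167) (nat_lit 2) (nat_lit 218) (nat_lit 225) (nat_lit 127)) (PT.lf (nat_lit 12312) (nat_lit 6) (nat_lit 162) (nat_lit 2) (nat_lit 219) (nat_lit 225) (nat_lit 126))))) (PT.nd (nat_lit 312) (PT.nd (nat_lit 156) (PT.nd (nat_lit 78) (PT.lf (nat_lit 12008) (nat_lit 6) (nat_lit 158) (nat_lit 2) (nat_lit 220) (nat_lit 225) (nat_lit 125)) (PT.lf (nat_lit 11628) (nat_lit 6) (nat_lit 153) (nat_lit 2) (nat_lit 221) (nat_lit 225) (nat_lit 124))) (PT.nd (nat_lit 78) (PT.lf (nat_lit 11324) (nat_lit 6) (nat_lit 149) (nat_lit 2) (nat_lit 222) (nat_lit 225) (nat_lit 123)) (PT.lf (nat_lit 11020) (nat_lit 6) (nat_lit 145) (nat_lit 2) (nat_lit 223) (nat_lit 225) (nat_lit 122)))) (PT.nd (nat_lit 156) (PT.nd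 (nat_lit 78) (PT.lf (nat_lit 10716) (nat_lit 6) (nat_lit 141) (nat_lit 2) (nat_lit 224) (nat_lit 225) (nat_lit 121)) (PT.lf (nat_lit 10412) (nat_lit 3) (nat_lit 137) (nat_lit 0) (nat_lit 225) (nat_lit 225) (nat_lit 120))) (PT.nd (nat_lit 78) (PT.lf (nat_lit 10032) (nat_lit 6) (nat_lit 132) (nat_lit 0) (nat_lit 226) (nat_lit 225) (nat_lit 119)) (PT.nd (nat_lit 78) (PT.lf (nat_lit 9652) (nat_lit 6) (nat_lit 127) (nat_lit 0) (nat_lit 227) (nat_lit 225) (nat_lit 118)) (PT.lf (nat_lit 9348) (nat_lit 6) (nat_lit 123) (nat_lit 0) (nat_lit 228) (nat_lit 225) (nat_lit 117))))))))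
noncomputable def pc122 : PT := (PT.nd (nat_lit 51168) (PT.nd (nat_lit 50544) (PT.nd (nat_lit 50232) (PT.nd (nat_lit 156) (PT.nd (nat_lit 78) (PT.lf (nat_lit 8968) (nat_lit 6) (nat_lit 118) (nat_lit 0) (nat_lit 229) (nat_lit 225) (nat_lit 116)) (PT.lf (nat_lit 8664) (nat_lit 6) (nat_lit 114) (nat_lit 0) (nat_lit 230) (nat_lit 225) (nat_lit 115))) (PT.nd (nat_lit 78) (PT.lf (nat_lit 8284) (nat_lit 6) (nat_lit 109) (nat_lit 0) (nat_lit 231) (nat_lit 225) (nat_lit 114)) (PT.lf (nat_lit 7980) (nat_lit 6) (nat_lit 105) (nat_lit 0) (nat_lit 232) (nat_lit 225) (nat_lit 113)))) (PT.nd (nat_lit 156) (PT.nd (nat_lit 78) (PT.lf (nat_lit 7676) (nat_lit 6) (nat_lit 101) (nat_lit 5) (nat_lit 112) (nat_lit 226) (nat_lit 232)) (PT.lf (nat_lit 8056) (nat_lit 6) (nat_lit 106) (nat_lit 5) (nat_lit 113) (nat_lit 226) (nat_lit 231))) (PT.nd (nat_lit 78) (PT.lf (nat_lit 8360) (nat_lit 6) (nat_lit 110) (nat_lit 5) (nat_lit 114) (nat_lit 226) (nat_lit 230))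 (PT.lf (nat_lit 8740) (nat_lit 6) (nat_lit 115) (nat_lit 5) (nat_lit 115) (nat_lit 226) (nat_lit 229))))) (PT.nd (nat_lit 312) (PT.nd (nat_lit 156) (PT.nd (nat_lit 78) (PT.lf (nat_lit 9044) (nat_lit 6) (nat_lit 119) (nat_lit 5) (nat_lit 116) (nat_lit 226) (nat_lit 228)) (PT.lf (nat_lit 9424) (nat_lit 6) (nat_lit 124) (nat_lit 5) (nat_lit 117) (nat_lit 226) (nat_lit 227))) (PT.nd (nat_lit 78) (PT.lf (nat_lit 9728) (nat_lit 3) (nat_lit 128) (nat_lit 4) (nat_lit 118) (nat_lit 226) (nat_lit 226)) (PT.lf (nat_lit 10032) (nat_lit 6) (nat_lit 132) (nat_lit 4) (nat_lit 119) (nat_lit 226) (nat_lit 225)))) (PT.nd (nat_lit 156) (PT.nd (nat_lit 78) (PT.lf (nat_lit 10336) (nat_lit 6) (nat_lit 136) (nat_lit 4) (nat_lit 120) (nat_lit 226) (nat_lit 224)) (PT.lf (nat_lit 10640) (nat_lit 6) (nat_lit 140) (nat_lit 4) (nat_lit 121) (nat_lit 226) (nat_lit 223))) (PT.nd (nat_lit 78) (PT.lf (nat_lit 10944) (nat_lit 6) (nat_lit 144) (nat_lit 4) (nat_lit 122)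 (nat_lit 226) (nat_lit 222)) (PT.lf (nat_lit 11248) (nat_lit 6) (nat_lit 148) (nat_lit 4) (nat_lit 123) (nat_lit 226) (nat_lit 221)))))) (PT.nd (nat_lit 7566) (PT.nd (nat_lit 7254) (PT.nd (nat_lit 156) (PT.nd (nat_lit 78) (PT.lf (nat_lit 11552) (nat_lit 6) (nat_lit 152) (nat_lit 4) (nat_lit 124) (nat_lit 226) (nat_lit 220)) (PT.lf (nat_lit 11932) (nat_lit 6) (nat_lit 157) (nat_lit 4) (nat_lit 125) (nat_lit 226) (nat_lit 219))) (PT.nd (nat_lit 78) (PT.lf (nat_lit 12236) (nat_lit 6) (nat_lit 161) (nat_lit 4) (nat_lit 126) (nat_lit 226) (nat_lit 218)) (PT.lf (nat_lit 12616) (nat_lit 6) (nat_lit 166) (nat_lit 4) (nat_lit 127) (nat_lit 226) (nat_lit 217)))) (PT.nd (nat_lit 156) (PT.nd (nat_lit 78) (PT.lf (nat_lit 12616) (nat_lit 6) (nat_lit 166) (nat_lit 2) (nat_lit 217) (nat_lit 226) (nat_lit 127)) (PT.lf (nat_lit 12236) (nat_lit 6) (nat_lit 161) (nat_lit 2) (nat_lit 218) (nat_lit 226) (nat_lit 126))) (PT.nd (nat_lit 78) (PT.lf (nat_lit 11932)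 (nat_lit 6) (nat_lit 157) (nat_lit 2) (nat_lit 219) (nat_lit 226) (nat_lit 125)) (PT.lf (nat_lit 11552) (nat_lit 6) (nat_lit 152) (nat_lit 2) (nat_lit 220) (nat_lit 226) (nat_lit 124))))) (PT.nd (nat_lit 312) (PT.nd (nat_lit 156) (PT.nd (nat_lit 78) (PT.lf (nat_lit 11248) (nat_lit 6) (nat_lit 148) (nat_lit 2) (nat_lit 221) (nat_lit 226) (nat_lit 123)) (PT.lf (nat_lit 10944) (nat_lit 6) (nat_lit 144) (nat_lit 2) (nat_lit 222) (nat_lit 226) (nat_lit 122))) (PT.nd (nat_lit 78) (PT.lf (nat_lit 10640) (nat_lit 6) (nat_lit 140) (nat_lit 2) (nat_lit 223) (nat_lit 226) (nat_lit 121)) (PT.lf (nat_lit 10336) (nat_lit 6) (nat_lit 136) (nat_lit 2) (nat_lit 224) (nat_lit 226) (nat_lit 120)))) (PT.nd (nat_lit 156) (PT.nd (nat_lit 78) (PT.lf (nat_lit 10032) (nat_lit 6) (nat_lit 132) (nat_lit 2) (nat_lit 225) (nat_lit 226) (nat_lit 119)) (PT.lf (nat_lit 9728) (nat_lit 3) (nat_lit 128) (nat_lit 0) (nat_lit 226) (nat_lit 226) (nat_lit 118))) (PT.nd (nat_lit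 78) (PT.lf (nat_lit 9424) (nat_lit 6) (nat_lit 124) (nat_lit 0) (nat_lit 227) (nat_lit 226) (nat_lit 117)) (PT.nd (nat_lit 78) (PT.lf (nat_lit 9044) (nat_lit 6) (nat_lit 119) (nat_lit 0) (nat_lit 228) (nat_lit 226) (nat_lit 116)) (PT.lf (nat_lit 8740) (nat_lit 6) (nat_lit 115) (nat_lit 0) (nat_lit 229) (nat_lit 226) (nat_lit 115))))))))
noncomputable def pc123 : PT := (PT.nd (nat_lit 51012) (PT.nd (nat_lit 50388) (PT.nd (nat_lit 50076) (PT.nd (nat_lit 156) (PT.nd (nat_lit 78) (PT.lf (nat_lit 8360) (nat_lit 6) (nat_lit 110) (nat_lit 0) (nat_lit 230) (nat_lit 226) (nat_lit 114)) (PT.lf (nat_lit 8056) (nat_lit 6) (nat_lit 106) (nat_lit 0) (nat_lit 231) (nat_lit 226) (nat_lit 113))) (PT.nd (nat_lit 49842) (PT.lf (nat_lit 7676) (nat_lit 6) (nat_lit 101) (nat_lit 0) (nat_lit 232) (nat_lit 226) (nat_lit 112)) (PT.lf (nat_lit 7144) (nat_lit 6) (nat_lit 94) (nat_lit 5) (nat_lit 110) (nat_lit 227) (nat_lit 233)))) (PT.nd (nat_lit 156) (PT.nd (nat_lit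 78) (PT.lf (nat_lit 7448) (nat_lit 6) (nat_lit 98) (nat_lit 5) (nat_lit 111) (nat_lit 227) (nat_lit 232)) (PT.lf (nat_lit 7752) (nat_lit 6) (nat_lit 102) (nat_lit 5) (nat_lit 112) (nat_lit 227) (nat_lit 231))) (PT.nd (nat_lit 78) (PT.lf (nat_lit 8132) (nat_lit 6) (nat_lit 107) (nat_lit 5) (nat_lit 113) (nat_lit 227) (nat_lit 230)) (PT.lf (nat_lit 8436) (nat_lit 6) (nat_lit 111) (nat_lit 5) (nat_lit 114) (nat_lit 227) (nat_lit 229))))) (PT.nd (nat_lit 312) (PT.nd (nat_lit 156) (PT.nd (nat_lit 78) (PT.lf (nat_lit 8816) (nat_lit 6) (nat_lit 116) (nat_lit 5) (nat_lit 115) (nat_lit 227) (nat_lit 228)) (PT.lf (nat_lit 9120) (nat_lit 3) (nat_lit 120) (nat_lit 4) (nat_lit 116) (nat_lit 227) (nat_lit 227))) (PT.nd (nat_lit 78) (PT.lf (nat_lit 9424) (nat_lit 6) (nat_lit 124) (nat_lit 4) (nat_lit 117) (nat_lit 227) (nat_lit 226)) (PT.lf (nat_lit 9652) (nat_lit 6) (nat_lit 127) (nat_lit 4) (nat_lit 118) (nat_lit 227) (nat_lit 225)))) (PT.nd (nat_lit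 156) (PT.nd (nat_lit 78) (PT.lf (nat_lit 9956) (nat_lit 6) (nat_lit 131) (nat_lit 4) (nat_lit 119) (nat_lit 227) (nat_lit 224)) (PT.lf (nat_lit 10260) (nat_lit 6) (nat_lit 135) (nat_lit 4) (nat_lit 120) (nat_lit 227) (nat_lit 223))) (PT.nd (nat_lit 78) (PT.lf (nat_lit 10564) (nat_lit 6) (nat_lit 139) (nat_lit 4) (nat_lit 121) (nat_lit 227) (nat_lit 222)) (PT.lf (nat_lit 10868) (nat_lit 6) (nat_lit 143) (nat_lit 4) (nat_lit 122) (nat_lit 227) (nat_lit 221)))))) (PT.nd (nat_lit 7800) (PT.nd (nat_lit 7488) (PT.nd (nat_lit 156) (PT.nd (nat_lit 78) (PT.lf (nat_lit 11172) (nat_lit 6) (nat_lit 147) (nat_lit 4) (nat_lit 123) (nat_lit 227) (nat_lit 220)) (PT.lf (nat_lit 11476) (nat_lit 6) (nat_lit 151) (nat_lit 4) (nat_lit 124) (nat_lit 227) (nat_lit 219))) (PT.nd (nat_lit 7254) (PT.lf (nat_lit 11856) (nat_lit 6) (nat_lit 156) (nat_lit 4) (nat_lit 125) (nat_lit 227) (nat_lit 218)) (PT.lf (nat_lit 11856) (nat_lit 6) (nat_lit 156) (nat_lit 2) (nat_lit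 218) (nat_lit 227) (nat_lit 125)))) (PT.nd (nat_lit 156) (PT.nd (nat_lit 78) (PT.lf (nat_lit 11476) (nat_lit 6) (nat_lit 151) (nat_lit 2) (nat_lit 219) (nat_lit 227) (nat_lit 124)) (PT.lf (nat_lit 11172) (nat_lit 6) (nat_lit 147) (nat_lit 2) (nat_lit 220) (nat_lit 227) (nat_lit 123))) (PT.nd (nat_lit 78) (PT.lf (nat_lit 10868) (nat_lit 6) (nat_lit 143) (nat_lit 2) (nat_lit 221) (nat_lit 227) (nat_lit 122)) (PT.lf (nat_lit 10564) (nat_lit 6) (nat_lit 139) (nat_lit 2) (nat_lit 222) (nat_lit 227) (nat_lit 121))))) (PT.nd (nat_lit 312) (PT.nd (nat_lit 156) (PT.nd (nat_lit 78) (PT.lf (nat_lit 10260) (nat_lit 6) (nat_lit 135) (nat_lit 2) (nat_lit 223) (nat_lit 227) (nat_lit 120)) (PT.lf (nat_lit 9956) (nat_lit 6) (nat_lit 131) (nat_lit 2) (nat_lit 224) (nat_lit 227) (nat_lit 119))) (PT.nd (nat_lit 78) (PT.lf (nat_lit 9652) (nat_lit 6) (nat_lit 127) (nat_lit 2) (nat_lit 225) (nat_lit 227) (nat_lit 118)) (PT.lf (nat_lit 9424) (nat_lit 6) (nat_lit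 124) (nat_lit 2) (nat_lit 226) (nat_lit 227) (nat_lit 117)))) (PT.nd (nat_lit 156) (PT.nd (nat_lit 78) (PT.lf (nat_lit 9120) (nat_lit 3) (nat_lit 120) (nat_lit 0) (nat_lit 227) (nat_lit 227) (nat_lit 116)) (PT.lf (nat_lit 8816) (nat_lit 6) (nat_lit 116) (nat_lit 0) (nat_lit 228) (nat_lit 227) (nat_lit 115))) (PT.nd (nat_lit 78) (PT.lf (nat_lit 8436) (nat_lit 6) (nat_lit 111) (nat_lit 0) (nat_lit 229) (nat_lit 227) (nat_lit 114)) (PT.nd (nat_lit 78) (PT.lf (nat_lit 8132) (nat_lit 6) (nat_lit 107) (nat_lit 0) (nat_lit 230) (nat_lit 227) (nat_lit 113)) (PT.lf (nat_lit 7752) (nat_lit 6) (nat_lit 102) (nat_lit 0) (nat_lit 231) (nat_lit 227) (nat_lit 112))))))))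
noncomputable def pc124 : PT := (PT.nd (nat_lit 58422) (PT.nd (nat_lit 50232) (PT.nd (nat_lit 49920) (PT.nd (nat_lit 49764) (PT.nd (nat_lit 78) (PT.lf (nat_lit 7448) (nat_lit 6) (nat_lit 98) (nat_lit 0) (nat_lit 232) (nat_lit 227) (nat_lit 111)) (PT.lf (nat_lit 7144) (nat_lit 6) (nat_lit 94) (nat_lit 0) (nat_lit 233) (nat_lit 227) (nat_lit 110))) (PT.nd (nat_lit 78) (PT.lf (nat_lit 6916) (nat_lit 6) (nat_lit 91) (nat_lit 5) (nat_lit 109) (nat_lit 228) (nat_lit 233)) (PT.lf (nat_lit 7220) (nat_lit 6) (nat_lit 95) (nat_lit 5) (nat_lit 110) (nat_lit 228) (nat_lit 232)))) (PT.nd (nat_lit 156) (PT.nd (nat_lit 78) (PT.lf (nat_lit 7524) (nat_lit 6) (nat_lit 99) (nat_lit 5) (nat_lit 111) (nat_lit 228) (nat_lit 231)) (PT.lf (nat_lit 7828) (nat_lit 6) (nat_lit 103) (nat_lit 5) (nat_lit 112) (nat_lit 228) (nat_lit 230))) (PT.nd (nat_lit 78) (PT.lf (nat_lit 8208) (nat_lit 6) (nat_lit 108) (nat_lit 5) (nat_lit 113) (nat_lit 228) (nat_lit 229)) (PT.lf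 (nat_lit 8512) (nat_lit 3) (nat_lit 112) (nat_lit 4) (nat_lit 114) (nat_lit 228) (nat_lit 228))))) (PT.nd (nat_lit 312) (PT.nd (nat_lit 156) (PT.nd (nat_lit 78) (PT.lf (nat_lit 8816) (nat_lit 6) (nat_lit 116) (nat_lit 4) (nat_lit 115) (nat_lit 228) (nat_lit 227)) (PT.lf (nat_lit 9044) (nat_lit 6) (nat_lit 119) (nat_lit 4) (nat_lit 116) (nat_lit 228) (nat_lit 226))) (PT.nd (nat_lit 78) (PT.lf (nat_lit 9348) (nat_lit 6) (nat_lit 123) (nat_lit 4) (nat_lit 117) (nat_lit 228) (nat_lit 225)) (PT.lf (nat_lit 9576) (nat_lit 6) (nat_lit 126) (nat_lit 4) (nat_lit 118) (nat_lit 228) (nat_lit 224)))) (PT.nd (nat_lit 156) (PT.nd (nat_lit 78) (PT.lf (nat_lit 9880) (nat_lit 6) (nat_lit 130) (nat_lit 4) (nat_lit 119) (nat_lit 228) (nat_lit 223)) (PT.lf (nat_lit 10184) (nat_lit 6) (nat_lit 134) (nat_lit 4) (nat_lit 120) (nat_lit 228) (nat_lit 222))) (PT.nd (nat_lit 78) (PT.lf (nat_lit 10488) (nat_lit 6) (nat_lit 138) (nat_lit 4) (nat_lit 121) (nat_lit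 228) (nat_lit 221)) (PT.lf (nat_lit 10792) (nat_lit 6) (nat_lit 142) (nat_lit 4) (nat_lit 122) (nat_lit 228) (nat_lit 220)))))) (PT.nd (nat_lit 624) (PT.nd (nat_lit 312) (PT.nd (nat_lit 156) (PT.nd (nat_lit 78) (PT.lf (nat_lit 10792) (nat_lit 6) (nat_lit 142) (nat_lit 2) (nat_lit 220) (nat_lit 228) (nat_lit 122)) (PT.lf (nat_lit 10488) (nat_lit 6) (nat_lit 138) (nat_lit 2) (nat_lit 221) (nat_lit 228) (nat_lit 121))) (PT.nd (nat_lit 78) (PT.lf (nat_lit 10184) (nat_lit 6) (nat_lit 134) (nat_lit 2) (nat_lit 222) (nat_lit 228) (nat_lit 120)) (PT.lf (nat_lit 9880) (nat_lit 6) (nat_lit 130) (nat_lit 2) (nat_lit 223) (nat_lit 228) (nat_lit 119)))) (PT.nd (nat_lit 156) (PT.nd (nat_lit 78) (PT.lf (nat_lit 9576) (nat_lit 6) (nat_lit 126) (nat_lit 2) (nat_lit 224) (nat_lit 228) (nat_lit 118)) (PT.lf (nat_lit 9348) (nat_lit 6) (nat_lit 123) (nat_lit 2) (nat_lit 225) (nat_lit 228) (nat_lit 117))) (PT.nd (nat_lit 78) (PT.lf (nat_lit 9044) (nat_lit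 6) (nat_lit 119) (nat_lit 2) (nat_lit 226) (nat_lit 228) (nat_lit 116)) (PT.lf (nat_lit 8816) (nat_lit 6) (nat_lit 116) (nat_lit 2) (nat_lit 227) (nat_lit 228) (nat_lit 115))))) (PT.nd (nat_lit 312) (PT.nd (nat_lit 156) (PT.nd (nat_lit 78) (PT.lf (nat_lit 8512) (nat_lit 3) (nat_lit 112) (nat_lit 0) (nat_lit 228) (nat_lit 228) (nat_lit 114)) (PT.lf (nat_lit 8208) (nat_lit 6) (nat_lit 108) (nat_lit 0) (nat_lit 229) (nat_lit 228) (nat_lit 113))) (PT.nd (nat_lit 78) (PT.lf (nat_lit 7828) (nat_lit 6) (nat_lit 103) (nat_lit 0) (nat_lit 230) (nat_lit 228) (nat_lit 112)) (PT.lf (nat_lit 7524) (nat_lit 6) (nat_lit 99) (nat_lit 0) (nat_lit 231) (nat_lit 228) (nat_lit 111)))) (PT.nd (nat_lit 49608) (PT.nd (nat_lit 78) (PT.lf (nat_lit 7220) (nat_lit 6) (nat_lit 95) (nat_lit 0) (nat_lit 232) (nat_lit 228) (nat_lit 110)) (PT.lf (nat_lit 6916) (nat_lit 6) (nat_lit 91) (nat_lit 0) (nat_lit 233) (nat_lit 228) (nat_lit 109))) (PT.nd (nat_lit 78) (PT.lf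 (nat_lit 6384) (nat_lit 6) (nat_lit 84) (nat_lit 5) (nat_lit 107) (nat_lit 229) (nat_lit 234)) (PT.nd (nat_lit 78) (PT.lf (nat_lit 6688) (nat_lit 6) (nat_lit 88) (nat_lit 5) (nat_lit 108) (nat_lit 229) (nat_lit 233)) (PT.lf (nat_lit 6992) (nat_lit 6) (nat_lit 92) (nat_lit 5) (nat_lit 109) (nat_lit 229) (nat_lit 232))))))))
noncomputable def pc125 : PT := (PT.nd (nat_lit 9048) (PT.nd (nat_lit 624) (PT.nd (nat_lit 312) (PT.nd (nat_lit 156) (PT.nd (nat_lit 78) (PT.lf (nat_lit 7296) (nat_lit 6) (nat_lit 96) (nat_lit 5) (nat_lit 110) (nat_lit 229) (nat_lit 231)) (PT.lf (nat_lit 7600) (nat_lit 6) (nat_lit 100) (nat_lit 5) (nat_lit 111) (nat_lit 229) (nat_lit 230))) (PT.nd (nat_lit 78) (PT.lf (nat_lit 7904) (nat_lit 3) (nat_lit 104) (nat_lit 4) (nat_lit 112) (nat_lit 229) (nat_lit 229)) (PT.lf (nat_lit 8208) (nat_lit 6) (nat_lit 108) (nat_lit 4) (nat_lit 113) (nat_lit 229) (nat_lit 228)))) (PT.nd (nat_lit 156) (PT.nd (nat_lit 78) (PT.lf (nat_lit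 8436) (nat_lit 6) (nat_lit 111) (nat_lit 4) (nat_lit 114) (nat_lit 229) (nat_lit 227)) (PT.lf (nat_lit 8740) (nat_lit 6) (nat_lit 115) (nat_lit 4) (nat_lit 115) (nat_lit 229) (nat_lit 226))) (PT.nd (nat_lit 78) (PT.lf (nat_lit 8968) (nat_lit 6) (nat_lit 118) (nat_lit 4) (nat_lit 116) (nat_lit 229) (nat_lit 225)) (PT.lf (nat_lit 9272) (nat_lit 6) (nat_lit 122) (nat_lit 4) (nat_lit 117) (nat_lit 229) (nat_lit 224))))) (PT.nd (nat_lit 8112) (PT.nd (nat_lit 156) (PT.nd (nat_lit 78) (PT.lf (nat_lit 9500) (nat_lit 6) (nat_lit 125) (nat_lit 4) (nat_lit 118) (nat_lit 229) (nat_lit 223)) (PT.lf (nat_lit 9804) (nat_lit 6) (nat_lit 129) (nat_lit 4) (nat_lit 119) (nat_lit 229) (nat_lit 222))) (PT.nd (nat_lit 7878) (PT.lf (nat_lit 10108) (nat_lit 6) (nat_lit 133) (nat_lit 4) (nat_lit 120) (nat_lit 229) (nat_lit 221)) (PT.lf (nat_lit 10108) (nat_lit 6) (nat_lit 133) (nat_lit 2) (nat_lit 221) (nat_lit 229) (nat_lit 120)))) (PT.nd (nat_lit 156) (PT.nd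 (nat_lit 78) (PT.lf (nat_lit 9804) (nat_lit 6) (nat_lit 129) (nat_lit 2) (nat_lit 222) (nat_lit 229) (nat_lit 119)) (PT.lf (nat_lit 9500) (nat_lit 6) (nat_lit 125) (nat_lit 2) (nat_lit 223) (nat_lit 229) (nat_lit 118))) (PT.nd (nat_lit 78) (PT.lf (nat_lit 9272) (nat_lit 6) (nat_lit 122) (nat_lit 2) (nat_lit 224) (nat_lit 229) (nat_lit 117)) (PT.lf (nat_lit 8968) (nat_lit 6) (nat_lit 118) (nat_lit 2) (nat_lit 225) (nat_lit 229) (nat_lit 116)))))) (PT.nd (nat_lit 624) (PT.nd (nat_lit 312) (PT.nd (nat_lit 156) (PT.nd (nat_lit 78) (PT.lf (nat_lit 8740) (nat_lit 6) (nat_lit 115) (nat_lit 2) (nat_lit 226) (nat_lit 229) (nat_lit 115)) (PT.lf (nat_lit 8436) (nat_lit 6) (nat_lit 111) (nat_lit 2) (nat_lit 227) (nat_lit 229) (nat_lit 114))) (PT.nd (nat_lit 78) (PT.lf (nat_lit 8208) (nat_lit 6) (nat_lit 108) (nat_lit 2) (nat_lit 228) (nat_lit 229) (nat_lit 113)) (PT.lf (nat_lit 7904) (nat_lit 3) (nat_lit 104) (nat_lit 0) (nat_lit 229) (nat_lit 229)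 (nat_lit 112)))) (PT.nd (nat_lit 156) (PT.nd (nat_lit 78) (PT.lf (nat_lit 7600) (nat_lit 6) (nat_lit 100) (nat_lit 0) (nat_lit 230) (nat_lit 229) (nat_lit 111)) (PT.lf (nat_lit 7296) (nat_lit 6) (nat_lit 96) (nat_lit 0) (nat_lit 231) (nat_lit 229) (nat_lit 110))) (PT.nd (nat_lit 78) (PT.lf (nat_lit 6992) (nat_lit 6) (nat_lit 92) (nat_lit 0) (nat_lit 232) (nat_lit 229) (nat_lit 109)) (PT.lf (nat_lit 6688) (nat_lit 6) (nat_lit 88) (nat_lit 0) (nat_lit 233) (nat_lit 229) (nat_lit 108))))) (PT.nd (nat_lit 49686) (PT.nd (nat_lit 49530) (PT.nd (nat_lit 49452) (PT.lf (nat_lit 6384) (nat_lit 6) (nat_lit 84) (nat_lit 0) (nat_lit 234) (nat_lit 229) (nat_lit 107)) (PT.lf (nat_lit 6460) (nat_lit 6) (nat_lit 85) (nat_lit 5) (nat_lit 107) (nat_lit 230) (nat_lit 233))) (PT.nd (nat_lit 78) (PT.lf (nat_lit 6764) (nat_lit 6) (nat_lit 89) (nat_lit 5) (nat_lit 108) (nat_lit 230) (nat_lit 232)) (PT.lf (nat_lit 7068) (nat_lit 6) (nat_lit 93) (nat_lit 5) (nat_lit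 109) (nat_lit 230) (nat_lit 231)))) (PT.nd (nat_lit 156) (PT.nd (nat_lit 78) (PT.lf (nat_lit 7372) (nat_lit 3) (nat_lit 97) (nat_lit 4) (nat_lit 110) (nat_lit 230) (nat_lit 230)) (PT.lf (nat_lit 7600) (nat_lit 6) (nat_lit 100) (nat_lit 4) (nat_lit 111) (nat_lit 230) (nat_lit 229))) (PT.nd (nat_lit 78) (PT.lf (nat_lit 7828) (nat_lit 6) (nat_lit 103) (nat_lit 4) (nat_lit 112) (nat_lit 230) (nat_lit 228)) (PT.nd (nat_lit 78) (PT.lf (nat_lit 8132) (nat_lit 6) (nat_lit 107) (nat_lit 4) (nat_lit 113) (nat_lit 230) (nat_lit 227)) (PT.lf (nat_lit 8360) (nat_lit 6) (nat_lit 110) (nat_lit 4) (nat_lit 114) (nat_lit 230) (nat_lit 226))))))))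
noncomputable def pc126 : PT := (PT.nd (nat_lit 58812) (PT.nd (nat_lit 8814) (PT.nd (nat_lit 8502) (PT.nd (nat_lit 156) (PT.nd (nat_lit 78) (PT.lf (nat_lit 8664) (nat_lit 6) (nat_lit 114) (nat_lit 4) (nat_lit 115) (nat_lit 230) (nat_lit 225)) (PT.lf (nat_lit 8892) (nat_lit 6) (nat_lit 117) (nat_lit 4) (nat_lit 116) (nat_lit 230) (nat_lit 224))) (PT.nd (nat_lit 8268) (PT.lf (nat_lit 9196) (nat_lit 6) (nat_lit 121) (nat_lit 4) (nat_lit 117) (nat_lit 230) (nat_lit 223)) (PT.lf (nat_lit 9196) (nat_lit 6) (nat_lit 121) (nat_lit 2) (nat_lit 223) (nat_lit 230) (nat_lit 117)))) (PT.nd (nat_lit 156) (PT.nd (nat_lit 78) (PT.lf (nat_lit 8892) (nat_lit 6) (nat_lit 117) (nat_lit 2) (nat_lit 224) (nat_lit 230) (nat_lit 116)) (PT.lf (nat_lit 8664) (nat_lit 6) (nat_lit 114) (nat_lit 2) (nat_lit 225) (nat_lit 230) (nat_lit 115))) (PT.nd (nat_lit 78) (PT.lf (nat_lit 8360) (nat_lit 6) (nat_lit 110) (nat_lit 2) (nat_lit 226) (nat_lit 230) (nat_lit 114))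 (PT.lf (nat_lit 8132) (nat_lit 6) (nat_lit 107) (nat_lit 2) (nat_lit 227) (nat_lit 230) (nat_lit 113))))) (PT.nd (nat_lit 312) (PT.nd (nat_lit 156) (PT.nd (nat_lit 78) (PT.lf (nat_lit 7828) (nat_lit 6) (nat_lit 103) (nat_lit 2) (nat_lit 228) (nat_lit 230) (nat_lit 112)) (PT.lf (nat_lit 7600) (nat_lit 6) (nat_lit 100) (nat_lit 2) (nat_lit 229) (nat_lit 230) (nat_lit 111))) (PT.nd (nat_lit 78) (PT.lf (nat_lit 7372) (nat_lit 3) (nat_lit 97) (nat_lit 0) (nat_lit 230) (nat_lit 230) (nat_lit 110)) (PT.lf (nat_lit 7068) (nat_lit 6) (nat_lit 93) (nat_lit 0) (nat_lit 231) (nat_lit 230) (nat_lit 109)))) (PT.nd (nat_lit 49530) (PT.nd (nat_lit 78) (PT.lf (nat_lit 6764) (nat_lit 6) (nat_lit 89) (nat_lit 0) (nat_lit 232) (nat_lit 230) (nat_lit 108)) (PT.lf (nat_lit 6460) (nat_lit 6) (nat_lit 85) (nat_lit 0) (nat_lit 233) (nat_lit 230) (nat_lit 107))) (PT.nd (nat_lit 78) (PT.lf (nat_lit 6232) (nat_lit 6) (nat_lit 82) (nat_lit 5) (nat_lit 106) (nat_lit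 231) (nat_lit 233)) (PT.lf (nat_lit 6536) (nat_lit 6) (nat_lit 86) (nat_lit 5) (nat_lit 107) (nat_lit 231) (nat_lit 232)))))) (PT.nd (nat_lit 9048) (PT.nd (nat_lit 312) (PT.nd (nat_lit 156) (PT.nd (nat_lit 78) (PT.lf (nat_lit 6840) (nat_lit 3) (nat_lit 90) (nat_lit 4) (nat_lit 108) (nat_lit 231) (nat_lit 231)) (PT.lf (nat_lit 7068) (nat_lit 6) (nat_lit 93) (nat_lit 4) (nat_lit 109) (nat_lit 231) (nat_lit 230))) (PT.nd (nat_lit 78) (PT.lf (nat_lit 7296) (nat_lit 6) (nat_lit 96) (nat_lit 4) (nat_lit 110) (nat_lit 231) (nat_lit 229)) (PT.lf (nat_lit 7524) (nat_lit 6) (nat_lit 99) (nat_lit 4) (nat_lit 111) (nat_lit 231) (nat_lit 228)))) (PT.nd (nat_lit 156) (PT.nd (nat_lit 78) (PT.lf (nat_lit 7752) (nat_lit 6) (nat_lit 102) (nat_lit 4) (nat_lit 112) (nat_lit 231) (nat_lit 227)) (PT.lf (nat_lit 8056) (nat_lit 6) (nat_lit 106) (nat_lit 4) (nat_lit 113) (nat_lit 231) (nat_lit 226))) (PT.nd (nat_lit 78) (PT.lf (nat_lit 8284) (nat_lit 6) (nat_lit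 109) (nat_lit 4) (nat_lit 114) (nat_lit 231) (nat_lit 225)) (PT.lf (nat_lit 8588) (nat_lit 6) (nat_lit 113) (nat_lit 4) (nat_lit 115) (nat_lit 231) (nat_lit 224))))) (PT.nd (nat_lit 312) (PT.nd (nat_lit 156) (PT.nd (nat_lit 78) (PT.lf (nat_lit 8588) (nat_lit 6) (nat_lit 113) (nat_lit 2) (nat_lit 224) (nat_lit 231) (nat_lit 115)) (PT.lf (nat_lit 8284) (nat_lit 6) (nat_lit 109) (nat_lit 2) (nat_lit 225) (nat_lit 231) (nat_lit 114))) (PT.nd (nat_lit 78) (PT.lf (nat_lit 8056) (nat_lit 6) (nat_lit 106) (nat_lit 2) (nat_lit 226) (nat_lit 231) (nat_lit 113)) (PT.lf (nat_lit 7752) (nat_lit 6) (nat_lit 102) (nat_lit 2) (nat_lit 227) (nat_lit 231) (nat_lit 112)))) (PT.nd (nat_lit 156) (PT.nd (nat_lit 78) (PT.lf (nat_lit 7524) (nat_lit 6) (nat_lit 99) (nat_lit 2) (nat_lit 228) (nat_lit 231) (nat_lit 111)) (PT.lf (nat_lit 7296) (nat_lit 6) (nat_lit 96) (nat_lit 2) (nat_lit 229) (nat_lit 231) (nat_lit 110))) (PT.nd (nat_lit 78) (PT.lf (nat_lit 7068)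 (nat_lit 6) (nat_lit 93) (nat_lit 2) (nat_lit 230) (nat_lit 231) (nat_lit 109)) (PT.nd (nat_lit 78) (PT.lf (nat_lit 6840) (nat_lit 3) (nat_lit 90) (nat_lit 0) (nat_lit 231) (nat_lit 231) (nat_lit 108)) (PT.lf (nat_lit 6536) (nat_lit 6) (nat_lit 86) (nat_lit 0) (nat_lit 232) (nat_lit 231) (nat_lit 107))))))))
noncomputable def pc127 : PT := (PT.nd (nat_lit 59202) (PT.nd (nat_lit 49920) (PT.nd (nat_lit 49608) (PT.nd (nat_lit 49452) (PT.nd (nat_lit 49374) (PT.lf (nat_lit 6232) (nat_lit 6) (nat_lit 82) (nat_lit 0) (nat_lit 233) (nat_lit 231) (nat_lit 106)) (PT.lf (nat_lit 6004) (nat_lit 6) (nat_lit 79) (nat_lit 5) (nat_lit 105) (nat_lit 232) (nat_lit 233))) (PT.nd (nat_lit 78) (PT.lf (nat_lit 6308) (nat_lit 3) (nat_lit 83) (nat_lit 4) (nat_lit 106) (nat_lit 232) (nat_lit 232)) (PT.lf (nat_lit 6536) (nat_lit 6) (nat_lit 86) (nat_lit 4) (nat_lit 107) (nat_lit 232) (nat_lit 231)))) (PT.nd (nat_lit 156) (PT.nd (nat_lit 78) (PT.lf (nat_lit 6764)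 (nat_lit 6) (nat_lit 89) (nat_lit 4) (nat_lit 108) (nat_lit 232) (nat_lit 230)) (PT.lf (nat_lit 6992) (nat_lit 6) (nat_lit 92) (nat_lit 4) (nat_lit 109) (nat_lit 232) (nat_lit 229))) (PT.nd (nat_lit 78) (PT.lf (nat_lit 7220) (nat_lit 6) (nat_lit 95) (nat_lit 4) (nat_lit 110) (nat_lit 232) (nat_lit 228)) (PT.lf (nat_lit 7448) (nat_lit 6) (nat_lit 98) (nat_lit 4) (nat_lit 111) (nat_lit 232) (nat_lit 227))))) (PT.nd (nat_lit 8970) (PT.nd (nat_lit 8814) (PT.nd (nat_lit 78) (PT.lf (nat_lit 7676) (nat_lit 6) (nat_lit 101) (nat_lit 4) (nat_lit 112) (nat_lit 232) (nat_lit 226)) (PT.lf (nat_lit 7980) (nat_lit 6) (nat_lit 105) (nat_lit 4) (nat_lit 113) (nat_lit 232) (nat_lit 225))) (PT.nd (nat_lit 78) (PT.lf (nat_lit 7980) (nat_lit 6) (nat_lit 105) (nat_lit 2) (nat_lit 225) (nat_lit 232) (nat_lit 113)) (PT.lf (nat_lit 7676) (nat_lit 6) (nat_lit 101) (nat_lit 2) (nat_lit 226) (nat_lit 232) (nat_lit 112)))) (PT.nd (nat_lit 156) (PT.nd (nat_lit 78)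 (PT.lf (nat_lit 7448) (nat_lit 6) (nat_lit 98) (nat_lit 2) (nat_lit 227) (nat_lit 232) (nat_lit 111)) (PT.lf (nat_lit 7220) (nat_lit 6) (nat_lit 95) (nat_lit 2) (nat_lit 228) (nat_lit 232) (nat_lit 110))) (PT.nd (nat_lit 78) (PT.lf (nat_lit 6992) (nat_lit 6) (nat_lit 92) (nat_lit 2) (nat_lit 229) (nat_lit 232) (nat_lit 109)) (PT.lf (nat_lit 6764) (nat_lit 6) (nat_lit 89) (nat_lit 2) (nat_lit 230) (nat_lit 232) (nat_lit 108)))))) (PT.nd (nat_lit 49920) (PT.nd (nat_lit 49608) (PT.nd (nat_lit 156) (PT.nd (nat_lit 78) (PT.lf (nat_lit 6536) (nat_lit 6) (nat_lit 86) (nat_lit 2) (nat_lit 231) (nat_lit 232) (nat_lit 107)) (PT.lf (nat_lit 6308) (nat_lit 3) (nat_lit 83) (nat_lit 0) (nat_lit 232) (nat_lit 232) (nat_lit 106))) (PT.nd (nat_lit 49374) (PT.lf (nat_lit 6004) (nat_lit 6) (nat_lit 79) (nat_lit 0) (nat_lit 233) (nat_lit 232) (nat_lit 105)) (PT.lf (nat_lit 6004) (nat_lit 6) (nat_lit 79) (nat_lit 4) (nat_lit 105) (nat_lit 233) (nat_lit 232))))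 (PT.nd (nat_lit 156) (PT.nd (nat_lit 78) (PT.lf (nat_lit 6232) (nat_lit 6) (nat_lit 82) (nat_lit 4) (nat_lit 106) (nat_lit 233) (nat_lit 231)) (PT.lf (nat_lit 6460) (nat_lit 6) (nat_lit 85) (nat_lit 4) (nat_lit 107) (nat_lit 233) (nat_lit 230))) (PT.nd (nat_lit 78) (PT.lf (nat_lit 6688) (nat_lit 6) (nat_lit 88) (nat_lit 4) (nat_lit 108) (nat_lit 233) (nat_lit 229)) (PT.lf (nat_lit 6916) (nat_lit 6) (nat_lit 91) (nat_lit 4) (nat_lit 109) (nat_lit 233) (nat_lit 228))))) (PT.nd (nat_lit 9360) (PT.nd (nat_lit 9204) (PT.nd (nat_lit 9126) (PT.lf (nat_lit 7144) (nat_lit 6) (nat_lit 94) (nat_lit 4) (nat_lit 110) (nat_lit 233) (nat_lit 227)) (PT.lf (nat_lit 7144) (nat_lit 6) (nat_lit 94) (nat_lit 2) (nat_lit 227) (nat_lit 233) (nat_lit 110))) (PT.nd (nat_lit 78) (PT.lf (nat_lit 6916) (nat_lit 6) (nat_lit 91) (nat_lit 2) (nat_lit 228) (nat_lit 233) (nat_lit 109)) (PT.lf (nat_lit 6688) (nat_lit 6) (nat_lit 88) (nat_lit 2) (nat_lit 229) (nat_lit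 233) (nat_lit 108)))) (PT.nd (nat_lit 156) (PT.nd (nat_lit 78) (PT.lf (nat_lit 6460) (nat_lit 6) (nat_lit 85) (nat_lit 2) (nat_lit 230) (nat_lit 233) (nat_lit 107)) (PT.lf (nat_lit 6232) (nat_lit 6) (nat_lit 82) (nat_lit 2) (nat_lit 231) (nat_lit 233) (nat_lit 106))) (PT.nd (nat_lit 49608) (PT.lf (nat_lit 6004) (nat_lit 6) (nat_lit 79) (nat_lit 2) (nat_lit 232) (nat_lit 233) (nat_lit 105)) (PT.nd (nat_lit 9516) (PT.lf (nat_lit 6384) (nat_lit 6) (nat_lit 84) (nat_lit 4) (nat_lit 107) (nat_lit 234) (nat_lit 229)) (PT.lf (nat_lit 6384) (nat_lit 6) (nat_lit 84) (nat_lit 2) (nat_lit 229) (nat_lit 234) (nat_lit 107))))))))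
noncomputable def xc0 : XT := (XT.nd (nat_lit 236964) (nat_lit 0) (nat_lit 228) (XT.nd (nat_lit 118794) (nat_lit 0) (nat_lit 0) (XT.nd (nat_lit 59436) (nat_lit 0) (nat_lit 0) (XT.nd (nat_lit 59202) (nat_lit 0) (nat_lit 304) (XT.nd (nat_lit 78) (nat_lit 304) (nat_lit 0) (XT.lf (nat_lit 0) (nat_lit 1400222438) (nat_lit 228) (nat_lit 5457134354) (nat_lit 228) (nat_lit 4956402777) (nat_lit 83) (nat_lit 4) (nat_lit 86) (nat_lit 5) (nat_lit 86) (nat_lit 4) (nat_lit 485) (nat_lit 328) (nat_lit 327)) (XT.nd (nat_lit 59046) (nat_lit 0) (nat_lit 1064) (XT.lf (nat_lit 0) (nat_lit 872266848) (nat_lit 228) (nat_lit 50461733) (nat_lit 304) (nat_lit 10999708921) (nat_lit 79) (nat_lit 5) (nat_lit 82) (nat_lit 5) (nat_lit 83) (nat_lit 4) (nat_lit 486) (nat_lit 328) (nat_lit 326)) (XT.lf (nat_lit 0) (nat_lit 730492058) (nat_lit 304) (nat_lit 4288058781) (nat_lit 0) (nat_lit 730492058) (nat_lit 93) (nat_lit 5) (nat_lit 97) (nat_lit 4) (nat_lit 93) (nat_lit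 4) (nat_lit 482) (nat_lit 329) (nat_lit 329)))) (XT.nd (nat_lit 78) (nat_lit 532) (nat_lit 0) (XT.lf (nat_lit 0) (nat_lit 2391032429) (nat_lit 228) (nat_lit 4866005957) (nat_lit 228) (nat_lit 4345044825) (nat_lit 90) (nat_lit 4) (nat_lit 93) (nat_lit 5) (nat_lit 93) (nat_lit 4) (nat_lit 483) (nat_lit 329) (nat_lit 328)) (XT.nd (nat_lit 78) (nat_lit 228) (nat_lit 0) (XT.lf (nat_lit 0) (nat_lit 1431062536) (nat_lit 304) (nat_lit 9857536219) (nat_lit 0) (nat_lit 419584751) (nat_lit 86) (nat_lit 5) (nat_lit 90) (nat_lit 4) (nat_lit 86) (nat_lit 4) (nat_lit 484) (nat_lit 329) (nat_lit 327)) (XT.lf (nat_lit 0) (nat_lit 1250243118) (nat_lit 228) (nat_lit 6033794427) (nat_lit 228) (nat_lit 4531403333) (nat_lit 83) (nat_lit 4) (nat_lit 86) (nat_lit 5) (nat_lit 86) (nat_lit 4) (nat_lit 485) (nat_lit 329) (nat_lit 326))))) (XT.nd (nat_lit 59046) (nat_lit 0) (nat_lit 304) (XT.nd (nat_lit 58890) (nat_lit 0) (nat_lit 1368) (XT.lf (nat_lit 0) (nat_lit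 641482897) (nat_lit 228) (nat_lit 658102028) (nat_lit 304) (nat_lit 10625330082) (nat_lit 79) (nat_lit 5) (nat_lit 82) (nat_lit 5) (nat_lit 83) (nat_lit 4) (nat_lit 486) (nat_lit 329) (nat_lit 325)) (XT.nd (nat_lit 78) (nat_lit 228) (nat_lit 0) (XT.lf (nat_lit 0) (nat_lit 985413127) (nat_lit 304) (nat_lit 3676048916) (nat_lit 0) (nat_lit 985413127) (nat_lit 100) (nat_lit 5) (nat_lit 104) (nat_lit 4) (nat_lit 100) (nat_lit 4) (nat_lit 480) (nat_lit 330) (nat_lit 330)) (XT.lf (nat_lit 0) (nat_lit 3403552692) (nat_lit 228) (nat_lit 4266909633) (nat_lit 228) (nat_lit 3724901672) (nat_lit 97) (nat_lit 4) (nat_lit 100) (nat_lit 5) (nat_lit 100) (nat_lit 4) (nat_lit 481) (nat_lit 330) (nat_lit 329)))) (XT.nd (nat_lit 156) (nat_lit 532) (nat_lit 0) (XT.nd (nat_lit 78) (nat_lit 228) (nat_lit 0) (XT.lf (nat_lit 0) (nat_lit 1951030979) (nat_lit 304) (nat_lit 8649191994) (nat_lit 0) (nat_lit 898689492) (nat_lit 93) (nat_lit 5) (nat_lit 97) (nat_lit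 4) (nat_lit 93) (nat_lit 4) (nat_lit 482) (nat_lit 330) (nat_lit 328)) (XT.lf (nat_lit 0) (nat_lit 2244393199) (nat_lit 228) (nat_lit 5461216940) (nat_lit 228) (nat_lit 3898129245) (nat_lit 90) (nat_lit 4) (nat_lit 93) (nat_lit 5) (nat_lit 93) (nat_lit 4) (nat_lit 483) (nat_lit 330) (nat_lit 327))) (XT.nd (nat_lit 78) (nat_lit 228) (nat_lit 0) (XT.lf (nat_lit 0) (nat_lit 1627595636) (nat_lit 228) (nat_lit 199837485) (nat_lit 304) (nat_lit 9883242195) (nat_lit 86) (nat_lit 5) (nat_lit 89) (nat_lit 5) (nat_lit 90) (nat_lit 4) (nat_lit 484) (nat_lit 330) (nat_lit 326)) (XT.lf (nat_lit 0) (nat_lit 950225661) (nat_lit 228) (nat_lit 6686609140) (nat_lit 228) (nat_lit 4181969355) (nat_lit 83) (nat_lit 4) (nat_lit 86) (nat_lit 5) (nat_lit 86) (nat_lit 4) (nat_lit 485) (nat_lit 330) (nat_lit 325)))))) (XT.nd (nat_lit 59124) (nat_lit 0) (nat_lit 228) (XT.nd (nat_lit 58890) (nat_lit 0) (nat_lit 1064) (XT.nd (nat_lit 58734) (nat_lit 0) (nat_lit 1900)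 (XT.lf (nat_lit 0) (nat_lit 258916796) (nat_lit 228) (nat_lit 1342769901) (nat_lit 304) (nat_lit 10327401199) (nat_lit 79) (nat_lit 5) (nat_lit 82) (nat_lit 5) (nat_lit 83) (nat_lit 4) (nat_lit 486) (nat_lit 330) (nat_lit 324)) (XT.nd (nat_lit 78) (nat_lit 304) (nat_lit 0) (XT.lf (nat_lit 0) (nat_lit 1246213220) (nat_lit 304) (nat_lit 3054710861) (nat_lit 0) (nat_lit 1246213220) (nat_lit 108) (nat_lit 5) (nat_lit 112) (nat_lit 4) (nat_lit 108) (nat_lit 4) (nat_lit 478) (nat_lit 331) (nat_lit 331)) (XT.lf (nat_lit 0) (nat_lit 4439019508) (nat_lit 304) (nat_lit 3659211444) (nat_lit 304) (nat_lit 3095306361) (nat_lit 104) (nat_lit 4) (nat_lit 108) (nat_lit 5) (nat_lit 108) (nat_lit 4) (nat_lit 479) (nat_lit 331) (nat_lit 330)))) (XT.nd (nat_lit 78) (nat_lit 532) (nat_lit 0) (XT.lf (nat_lit 0) (nat_lit 2482944313) (nat_lit 304) (nat_lit 7423532400) (nat_lit 0) (nat_lit 1388088231) (nat_lit 100) (nat_lit 5) (nat_lit 104) (nat_lit 4) (nat_lit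 100) (nat_lit 4) (nat_lit 480) (nat_lit 331) (nat_lit 329)) (XT.nd (nat_lit 78) (nat_lit 304) (nat_lit 0) (XT.lf (nat_lit 0) (nat_lit 3260204193) (nat_lit 228) (nat_lit 4881514043) (nat_lit 228) (nat_lit 3255277605) (nat_lit 97) (nat_lit 4) (nat_lit 100) (nat_lit 5) (nat_lit 100) (nat_lit 4) (nat_lit 481) (nat_lit 331) (nat_lit 328)) (XT.lf (nat_lit 0) (nat_lit 2369022255) (nat_lit 304) (nat_lit 8868443944) (nat_lit 0) (nat_lit 263926599) (nat_lit 93) (nat_lit 5) (nat_lit 97) (nat_lit 4) (nat_lit 93) (nat_lit 4) (nat_lit 482) (nat_lit 331) (nat_lit 327))))) (XT.nd (nat_lit 234) (nat_lit 76) (nat_lit 0) (XT.nd (nat_lit 78) (nat_lit 532) (nat_lit 0) (XT.lf (nat_lit 0) (nat_lit 1951057233) (nat_lit 228) (nat_lit 6130911188) (nat_lit 228) (nat_lit 3525083956) (nat_lit 90) (nat_lit 4) (nat_lit 93) (nat_lit 5) (nat_lit 93) (nat_lit 4) (nat_lit 483) (nat_lit 331) (nat_lit 326)) (XT.nd (nat_lit 78) (nat_lit 228) (nat_lit 0) (XT.lf (nat_lit 0)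 (nat_lit 1253313965) (nat_lit 228) (nat_lit 900178365) (nat_lit 304) (nat_lit 9561289410) (nat_lit 86) (nat_lit 5) (nat_lit 89) (nat_lit 5) (nat_lit 90) (nat_lit 4) (nat_lit 484) (nat_lit 331) (nat_lit 325)) (XT.lf (nat_lit 0) (nat_lit 500052414) (nat_lit 228) (nat_lit 7415834497) (nat_lit 228) (nat_lit 3907963810) (nat_lit 83) (nat_lit 4) (nat_lit 86) (nat_lit 5) (nat_lit 86) (nat_lit 4) (nat_lit 485) (nat_lit 331) (nat_lit 324)))) (XT.nd (nat_lit 58656) (nat_lit 0) (nat_lit 1976) (XT.nd (nat_lit 58578) (nat_lit 0) (nat_lit 2584) (XT.lf (nat_lit 0) (nat_lit 1830941625) (nat_lit 304) (nat_lit 271967180) (nat_lit 76) (nat_lit 9832013214) (nat_lit 82) (nat_lit 5) (nat_lit 86) (nat_lit 5) (nat_lit 83) (nat_lit 4) (nat_lit 486) (nat_lit 331) (nat_lit 323)) (XT.lf (nat_lit 0) (nat_lit 1513216511) (nat_lit 304) (nat_lit 2423365856) (nat_lit 0) (nat_lit 1513216511) (nat_lit 116) (nat_lit 5) (nat_lit 120) (nat_lit 4) (nat_lit 116) (nat_lit 4)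 (nat_lit 476) (nat_lit 332) (nat_lit 332))) (XT.nd (nat_lit 78) (nat_lit 304) (nat_lit 0) (XT.lf (nat_lit 0) (nat_lit 5498712060) (nat_lit 304) (nat_lit 3042257961) (nat_lit 304) (nat_lit 2455571112) (nat_lit 112) (nat_lit 4) (nat_lit 116) (nat_lit 5) (nat_lit 116) (nat_lit 4) (nat_lit 477) (nat_lit 332) (nat_lit 331)) (XT.lf (nat_lit 0) (nat_lit 3027462796) (nat_lit 304) (nat_lit 6179240218) (nat_lit 0) (nat_lit 1888374528) (nat_lit 108) (nat_lit 5) (nat_lit 112) (nat_lit 4) (nat_lit 108) (nat_lit 4) (nat_lit 478) (nat_lit 332) (nat_lit 330))))))) (XT.nd (nat_lit 59358) (nat_lit 0) (nat_lit 0) (XT.nd (nat_lit 468) (nat_lit 304) (nat_lit 0) (XT.nd (nat_lit 234) (nat_lit 836) (nat_lit 0) (XT.nd (nat_lit 78) (nat_lit 532) (nat_lit 0) (XT.lf (nat_lit 0) (nat_lit 4298914000) (nat_lit 304) (nat_lit 4294084012) (nat_lit 304) (nat_lit 2602147623) (nat_lit 104) (nat_lit 4) (nat_lit 108) (nat_lit 5) (nat_lit 108) (nat_lit 4) (nat_lit 479) (nat_lit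 332) (nat_lit 329)) (XT.nd (nat_lit 78) (nat_lit 228) (nat_lit 0) (XT.lf (nat_lit 0) (nat_lit 2924643236) (nat_lit 304) (nat_lit 7637864117) (nat_lit 0) (nat_lit 734501715) (nat_lit 100) (nat_lit 5) (nat_lit 104) (nat_lit 4) (nat_lit 100) (nat_lit 4) (nat_lit 480) (nat_lit 332) (nat_lit 328)) (XT.lf (nat_lit 0) (nat_lit 2973450981) (nat_lit 228) (nat_lit 5568955921) (nat_lit 228) (nat_lit 2857853268) (nat_lit 97) (nat_lit 4) (nat_lit 100) (nat_lit 5) (nat_lit 100) (nat_lit 4) (nat_lit 481) (nat_lit 332) (nat_lit 327)))) (XT.nd (nat_lit 78) (nat_lit 532) (nat_lit 0) (XT.lf (nat_lit 0) (nat_lit 2268591898) (nat_lit 228) (nat_lit 449448081) (nat_lit 304) (nat_lit 8787429427) (nat_lit 93) (nat_lit 5) (nat_lit 96) (nat_lit 5) (nat_lit 97) (nat_lit 4) (nat_lit 482) (nat_lit 332) (nat_lit 326)) (XT.nd (nat_lit 78) (nat_lit 304) (nat_lit 0) (XT.lf (nat_lit 0) (nat_lit 1510909498) (nat_lit 228) (nat_lit 6875351328) (nat_lit 228) (nat_lit 3225762665)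 (nat_lit 90) (nat_lit 4) (nat_lit 93) (nat_lit 5) (nat_lit 93) (nat_lit 4) (nat_lit 483) (nat_lit 332) (nat_lit 325)) (XT.lf (nat_lit 0) (nat_lit 730471130) (nat_lit 228) (nat_lit 1676136469) (nat_lit 304) (nat_lit 9313951994) (nat_lit 86) (nat_lit 5) (nat_lit 89) (nat_lit 5) (nat_lit 90) (nat_lit 4) (nat_lit 484) (nat_lit 332) (nat_lit 324))))) (XT.nd (nat_lit 58578) (nat_lit 0) (nat_lit 1976) (XT.nd (nat_lit 78) (nat_lit 304) (nat_lit 0) (XT.lf (nat_lit 0) (nat_lit 8121955517) (nat_lit 304) (nat_lit 99135700) (nat_lit 0) (nat_lit 3609478291) (nat_lit 86) (nat_lit 5) (nat_lit 90) (nat_lit 4) (nat_lit 86) (nat_lit 4) (nat_lit 485) (nat_lit 332) (nat_lit 323)) (XT.nd (nat_lit 58422) (nat_lit 0) (nat_lit 3192) (XT.lf (nat_lit 0) (nat_lit 1988318519) (nat_lit 304) (nat_lit 949601832) (nat_lit 76) (nat_lit 9004481738) (nat_lit 82) (nat_lit 5) (nat_lit 86) (nat_lit 5) (nat_lit 83) (nat_lit 4) (nat_lit 486) (nat_lit 332) (nat_lit 322)) (XT.lf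 (nat_lit 0) (nat_lit 1786758573) (nat_lit 304) (nat_lit 1781313636) (nat_lit 0) (nat_lit 1786758573) (nat_lit 124) (nat_lit 5) (nat_lit 128) (nat_lit 4) (nat_lit 124) (nat_lit 4) (nat_lit 474) (nat_lit 333) (nat_lit 333)))) (XT.nd (nat_lit 156) (nat_lit 608) (nat_lit 0) (XT.nd (nat_lit 78) (nat_lit 304) (nat_lit 0) (XT.lf (nat_lit 0) (nat_lit 6583954305) (nat_lit 304) (nat_lit 2415375354) (nat_lit 304) (nat_lit 1804986357) (nat_lit 120) (nat_lit 4) (nat_lit 124) (nat_lit 5) (nat_lit 124) (nat_lit 4) (nat_lit 475) (nat_lit 333) (nat_lit 332)) (XT.lf (nat_lit 0) (nat_lit 3585269874) (nat_lit 304) (nat_lit 4914957119) (nat_lit 0) (nat_lit 2400162439) (nat_lit 116) (nat_lit 5) (nat_lit 120) (nat_lit 4) (nat_lit 116) (nat_lit 4) (nat_lit 476) (nat_lit 333) (nat_lit 331))) (XT.nd (nat_lit 78) (nat_lit 304) (nat_lit 0) (XT.lf (nat_lit 0) (nat_lit 5361803418) (nat_lit 304) (nat_lit 3698306970) (nat_lit 304) (nat_lit 1938016350) (nat_lit 112)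 (nat_lit 4) (nat_lit 116) (nat_lit 5) (nat_lit 116) (nat_lit 4) (nat_lit 477) (nat_lit 333) (nat_lit 330)) (XT.lf (nat_lit 0) (nat_lit 3493693412) (nat_lit 304) (nat_lit 6388723080) (nat_lit 0) (nat_lit 1215070174) (nat_lit 108) (nat_lit 5) (nat_lit 112) (nat_lit 4) (nat_lit 108) (nat_lit 4) (nat_lit 478) (nat_lit 333) (nat_lit 329)))))) (XT.nd (nat_lit 468) (nat_lit 304) (nat_lit 0) (XT.nd (nat_lit 234) (nat_lit 836) (nat_lit 0) (XT.nd (nat_lit 78) (nat_lit 532) (nat_lit 0) (XT.lf (nat_lit 0) (nat_lit 4018648042) (nat_lit 304) (nat_lit 5000173034) (nat_lit 304) (nat_lit 2179541835) (nat_lit 104) (nat_lit 4) (nat_lit 108) (nat_lit 5) (nat_lit 108) (nat_lit 4) (nat_lit 479) (nat_lit 333) (nat_lit 328)) (XT.nd (nat_lit 78) (nat_lit 228) (nat_lit 0) (XT.lf (nat_lit 0) (nat_lit 3296096238) (nat_lit 304) (nat_lit 7995177034) (nat_lit 0) (nat_lit 9810400) (nat_lit 100) (nat_lit 5) (nat_lit 104) (nat_lit 4) (nat_lit 100) (nat_lit 4) (nat_lit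 480) (nat_lit 333) (nat_lit 327)) (XT.lf (nat_lit 0) (nat_lit 2543180602) (nat_lit 228) (nat_lit 6329504853) (nat_lit 228) (nat_lit 2532472807) (nat_lit 97) (nat_lit 4) (nat_lit 100) (nat_lit 5) (nat_lit 100) (nat_lit 4) (nat_lit 481) (nat_lit 333) (nat_lit 326)))) (XT.nd (nat_lit 78) (nat_lit 532) (nat_lit 0) (XT.lf (nat_lit 0) (nat_lit 1757223441) (nat_lit 228) (nat_lit 1240294906) (nat_lit 304) (nat_lit 8513639593) (nat_lit 93) (nat_lit 5) (nat_lit 96) (nat_lit 5) (nat_lit 97) (nat_lit 4) (nat_lit 482) (nat_lit 333) (nat_lit 325)) (XT.nd (nat_lit 78) (nat_lit 304) (nat_lit 0) (XT.lf (nat_lit 0) (nat_lit 923777387) (nat_lit 228) (nat_lit 7694829297) (nat_lit 228) (nat_lit 3000047992) (nat_lit 90) (nat_lit 4) (nat_lit 93) (nat_lit 5) (nat_lit 93) (nat_lit 4) (nat_lit 483) (nat_lit 333) (nat_lit 324)) (XT.lf (nat_lit 0) (nat_lit 58862096) (nat_lit 228) (nat_lit 2528016096) (nat_lit 304) (nat_lit 9141132952) (nat_lit 86) (nat_lit 5) (nat_lit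 89) (nat_lit 5) (nat_lit 90) (nat_lit 4) (nat_lit 484) (nat_lit 333) (nat_lit 323))))) (XT.nd (nat_lit 58422) (nat_lit 0) (nat_lit 2584) (XT.nd (nat_lit 78) (nat_lit 304) (nat_lit 0) (XT.lf (nat_lit 0) (nat_lit 8258693223) (nat_lit 304) (nat_lit 840358634) (nat_lit 0) (nat_lit 2739839860) (nat_lit 86) (nat_lit 5) (nat_lit 90) (nat_lit 4) (nat_lit 86) (nat_lit 4) (nat_lit 485) (nat_lit 333) (nat_lit 322)) (XT.nd (nat_lit 58266) (nat_lit 0) (nat_lit 3800) (XT.lf (nat_lit 0) (nat_lit 2072198036) (nat_lit 304) (nat_lit 1777648639) (nat_lit 76) (nat_lit 8101717983) (nat_lit 82) (nat_lit 5) (nat_lit 86) (nat_lit 5) (nat_lit 83) (nat_lit 4) (nat_lit 486) (nat_lit 333) (nat_lit 321)) (XT.lf (nat_lit 0) (nat_lit 2067186868) (nat_lit 380) (nat_lit 1127831451) (nat_lit 0) (nat_lit 2067186868) (nat_lit 132) (nat_lit 5) (nat_lit 137) (nat_lit 4) (nat_lit 132) (nat_lit 4) (nat_lit 472) (nat_lit 334) (nat_lit 334)))) (XT.nd (nat_lit 156) (nat_lit 608)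 (nat_lit 0) (XT.nd (nat_lit 78) (nat_lit 304) (nat_lit 0) (XT.lf (nat_lit 0) (nat_lit 7696116920) (nat_lit 304) (nat_lit 1777868451) (nat_lit 304) (nat_lit 1142819738) (nat_lit 128) (nat_lit 4) (nat_lit 132) (nat_lit 5) (nat_lit 132) (nat_lit 4) (nat_lit 473) (nat_lit 334) (nat_lit 333)) (XT.lf (nat_lit 0) (nat_lit 4157073189) (nat_lit 304) (nat_lit 3629281775) (nat_lit 0) (nat_lit 2924087414) (nat_lit 124) (nat_lit 5) (nat_lit 128) (nat_lit 4) (nat_lit 124) (nat_lit 4) (nat_lit 474) (nat_lit 334) (nat_lit 332))) (XT.nd (nat_lit 78) (nat_lit 304) (nat_lit 0) (XT.lf (nat_lit 0) (nat_lit 6450198014) (nat_lit 304) (nat_lit 3093544025) (nat_lit 304) (nat_lit 1262137665) (nat_lit 120) (nat_lit 4) (nat_lit 124) (nat_lit 5) (nat_lit 124) (nat_lit 4) (nat_lit 475) (nat_lit 334) (nat_lit 331)) (XT.lf (nat_lit 0) (nat_lit 4076892145) (nat_lit 304) (nat_lit 5119660094) (nat_lit 0) (nat_lit 1706212528) (nat_lit 116) (nat_lit 5) (nat_lit 120) (nat_lit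 4) (nat_lit 116) (nat_lit 4) (nat_lit 476) (nat_lit 334) (nat_lit 330))))))))
noncomputable def xc1 : XT := (XT.nd (nat_lit 60060) (nat_lit 0) (nat_lit 0) (XT.nd (nat_lit 59046) (nat_lit 0) (nat_lit 304) (XT.nd (nat_lit 468) (nat_lit 836) (nat_lit 0) (XT.nd (nat_lit 234) (nat_lit 836) (nat_lit 0) (XT.nd (nat_lit 78) (nat_lit 608) (nat_lit 0) (XT.lf (nat_lit 0) (nat_lit 5087932445) (nat_lit 304) (nat_lit 4423975412) (nat_lit 304) (nat_lit 1489390712) (nat_lit 112) (nat_lit 4) (nat_lit 116) (nat_lit 5) (nat_lit 116) (nat_lit 4) (nat_lit 477) (nat_lit 334) (nat_lit 329)) (XT.nd (nat_lit 78) (nat_lit 304) (nat_lit 0) (XT.lf (nat_lit 0) (nat_lit 3891301124) (nat_lit 304) (nat_lit 6737952461) (nat_lit 0) (nat_lit 472249338) (nat_lit 108) (nat_lit 5) (nat_lit 112) (nat_lit 4) (nat_lit 108) (nat_lit 4) (nat_lit 478) (nat_lit 334) (nat_lit 328)) (XT.lf (nat_lit 0) (nat_lit 3598111725) (nat_lit 304) (nat_lit 5777755408) (nat_lit 304) (nat_lit 1827323268)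 (nat_lit 104) (nat_lit 4) (nat_lit 108) (nat_lit 5) (nat_lit 108) (nat_lit 4) (nat_lit 479) (nat_lit 334) (nat_lit 327)))) (XT.nd (nat_lit 78) (nat_lit 532) (nat_lit 0) (XT.lf (nat_lit 0) (nat_lit 2805902795) (nat_lit 228) (nat_lit 796719020) (nat_lit 304) (nat_lit 7704065082) (nat_lit 100) (nat_lit 5) (nat_lit 103) (nat_lit 5) (nat_lit 104) (nat_lit 4) (nat_lit 480) (nat_lit 334) (nat_lit 326)) (XT.nd (nat_lit 78) (nat_lit 304) (nat_lit 0) (XT.lf (nat_lit 0) (nat_lit 1969224323) (nat_lit 228) (nat_lit 7163459093) (nat_lit 228) (nat_lit 2279008623) (nat_lit 97) (nat_lit 4) (nat_lit 100) (nat_lit 5) (nat_lit 100) (nat_lit 4) (nat_lit 481) (nat_lit 334) (nat_lit 325)) (XT.lf (nat_lit 0) (nat_lit 1100414034) (nat_lit 228) (nat_lit 2105416567) (nat_lit 304) (nat_lit 8312664759) (nat_lit 93) (nat_lit 5) (nat_lit 96) (nat_lit 5) (nat_lit 97) (nat_lit 4) (nat_lit 482) (nat_lit 334) (nat_lit 324))))) (XT.nd (nat_lit 234) (nat_lit 304) (nat_lit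 0) (XT.nd (nat_lit 78) (nat_lit 304) (nat_lit 0) (XT.lf (nat_lit 0) (nat_lit 189430651) (nat_lit 228) (nat_lit 8589666459) (nat_lit 228) (nat_lit 2847851421) (nat_lit 90) (nat_lit 4) (nat_lit 93) (nat_lit 5) (nat_lit 93) (nat_lit 4) (nat_lit 483) (nat_lit 334) (nat_lit 323)) (XT.nd (nat_lit 78) (nat_lit 228) (nat_lit 0) (XT.lf (nat_lit 0) (nat_lit 2699320761) (nat_lit 304) (nat_lit 751785677) (nat_lit 76) (nat_lit 8285933957) (nat_lit 89) (nat_lit 5) (nat_lit 93) (nat_lit 5) (nat_lit 90) (nat_lit 4) (nat_lit 484) (nat_lit 334) (nat_lit 322)) (XT.lf (nat_lit 0) (nat_lit 8322906979) (nat_lit 304) (nat_lit 1730465341) (nat_lit 0) (nat_lit 1795513223) (nat_lit 86) (nat_lit 5) (nat_lit 90) (nat_lit 4) (nat_lit 86) (nat_lit 4) (nat_lit 485) (nat_lit 334) (nat_lit 321)))) (XT.nd (nat_lit 58188) (nat_lit 0) (nat_lit 3800) (XT.nd (nat_lit 58110) (nat_lit 0) (nat_lit 4484) (XT.lf (nat_lit 0) (nat_lit 2082613069) (nat_lit 304) (nat_lit 2756432326)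 (nat_lit 76) (nat_lit 7123367924) (nat_lit 82) (nat_lit 5) (nat_lit 86) (nat_lit 5) (nat_lit 83) (nat_lit 4) (nat_lit 486) (nat_lit 334) (nat_lit 320)) (XT.lf (nat_lit 0) (nat_lit 2354861267) (nat_lit 380) (nat_lit 462173043) (nat_lit 0) (nat_lit 2354861267) (nat_lit 141) (nat_lit 5) (nat_lit 146) (nat_lit 4) (nat_lit 141) (nat_lit 4) (nat_lit 470) (nat_lit 335) (nat_lit 335))) (XT.nd (nat_lit 78) (nat_lit 380) (nat_lit 0) (XT.lf (nat_lit 0) (nat_lit 8836619320) (nat_lit 304) (nat_lit 1129019760) (nat_lit 304) (nat_lit 468315079) (nat_lit 137) (nat_lit 4) (nat_lit 141) (nat_lit 5) (nat_lit 141) (nat_lit 4) (nat_lit 471) (nat_lit 335) (nat_lit 334)) (XT.lf (nat_lit 0) (nat_lit 4743605625) (nat_lit 380) (nat_lit 2320767884) (nat_lit 0) (nat_lit 3460807225) (nat_lit 132) (nat_lit 5) (nat_lit 137) (nat_lit 4) (nat_lit 132) (nat_lit 4) (nat_lit 472) (nat_lit 335) (nat_lit 333)))))) (XT.nd (nat_lit 468) (nat_lit 1672) (nat_lit 0) (XT.nd (nat_lit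 234) (nat_lit 912) (nat_lit 0) (XT.nd (nat_lit 78) (nat_lit 608) (nat_lit 0) (XT.lf (nat_lit 0) (nat_lit 7565470070) (nat_lit 304) (nat_lit 2479136394) (nat_lit 304) (nat_lit 573741217) (nat_lit 128) (nat_lit 4) (nat_lit 132) (nat_lit 5) (nat_lit 132) (nat_lit 4) (nat_lit 473) (nat_lit 335) (nat_lit 332)) (XT.nd (nat_lit 78) (nat_lit 304) (nat_lit 0) (XT.lf (nat_lit 0) (nat_lit 4674984390) (nat_lit 304) (nat_lit 3829271421) (nat_lit 0) (nat_lit 2208529317) (nat_lit 124) (nat_lit 5) (nat_lit 128) (nat_lit 4) (nat_lit 124) (nat_lit 4) (nat_lit 474) (nat_lit 335) (nat_lit 331)) (XT.lf (nat_lit 0) (nat_lit 6182632977) (nat_lit 304) (nat_lit 3839758319) (nat_lit 304) (nat_lit 786616397) (nat_lit 120) (nat_lit 4) (nat_lit 124) (nat_lit 5) (nat_lit 124) (nat_lit 4) (nat_lit 475) (nat_lit 335) (nat_lit 330)))) (XT.nd (nat_lit 78) (nat_lit 608) (nat_lit 0) (XT.lf (nat_lit 0) (nat_lit 4501492629) (nat_lit 304) (nat_lit 5460920913) (nat_lit 0) (nat_lit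 944311151) (nat_lit 116) (nat_lit 5) (nat_lit 120) (nat_lit 4) (nat_lit 116) (nat_lit 4) (nat_lit 476) (nat_lit 335) (nat_lit 329)) (XT.nd (nat_lit 78) (nat_lit 304) (nat_lit 0) (XT.lf (nat_lit 0) (nat_lit 4676991740) (nat_lit 304) (nat_lit 5219547864) (nat_lit 304) (nat_lit 1109518265) (nat_lit 112) (nat_lit 4) (nat_lit 116) (nat_lit 5) (nat_lit 116) (nat_lit 4) (nat_lit 477) (nat_lit 335) (nat_lit 328)) (XT.lf (nat_lit 0) (nat_lit 3877778451) (nat_lit 228) (nat_lit 344902742) (nat_lit 304) (nat_lit 6884401909) (nat_lit 108) (nat_lit 5) (nat_lit 111) (nat_lit 5) (nat_lit 112) (nat_lit 4) (nat_lit 478) (nat_lit 335) (nat_lit 327))))) (XT.nd (nat_lit 234) (nat_lit 836) (nat_lit 0) (XT.nd (nat_lit 78) (nat_lit 532) (nat_lit 0) (XT.lf (nat_lit 0) (nat_lit 3037140133) (nat_lit 304) (nat_lit 6627136068) (nat_lit 304) (nat_lit 1545353799) (nat_lit 104) (nat_lit 4) (nat_lit 108) (nat_lit 5) (nat_lit 108) (nat_lit 4) (nat_lit 479) (nat_lit 335)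 (nat_lit 326)) (XT.nd (nat_lit 78) (nat_lit 228) (nat_lit 0) (XT.lf (nat_lit 0) (nat_lit 2163668711) (nat_lit 228) (nat_lit 1676032867) (nat_lit 304) (nat_lit 7474212135) (nat_lit 100) (nat_lit 5) (nat_lit 103) (nat_lit 5) (nat_lit 104) (nat_lit 4) (nat_lit 480) (nat_lit 335) (nat_lit 325)) (XT.lf (nat_lit 0) (nat_lit 1251357065) (nat_lit 228) (nat_lit 8071145683) (nat_lit 228) (nat_lit 2097361317) (nat_lit 97) (nat_lit 4) (nat_lit 100) (nat_lit 5) (nat_lit 100) (nat_lit 4) (nat_lit 481) (nat_lit 335) (nat_lit 324)))) (XT.nd (nat_lit 156) (nat_lit 532) (nat_lit 0) (XT.nd (nat_lit 78) (nat_lit 0) (nat_lit 0) (XT.lf (nat_lit 0) (nat_lit 297906104) (nat_lit 228) (nat_lit 3045152326) (nat_lit 304) (nat_lit 8184426110) (nat_lit 93) (nat_lit 5) (nat_lit 96) (nat_lit 5) (nat_lit 97) (nat_lit 4) (nat_lit 482) (nat_lit 335) (nat_lit 323)) (XT.lf (nat_lit 0) (nat_lit 8872290685) (nat_lit 304) (nat_lit 683337491) (nat_lit 0) (nat_lit 2081190221)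 (nat_lit 93) (nat_lit 5) (nat_lit 97) (nat_lit 4) (nat_lit 93) (nat_lit 4) (nat_lit 483) (nat_lit 335) (nat_lit 322))) (XT.nd (nat_lit 78) (nat_lit 228) (nat_lit 0) (XT.lf (nat_lit 0) (nat_lit 2740383362) (nat_lit 304) (nat_lit 1709054088) (nat_lit 76) (nat_lit 7298285357) (nat_lit 89) (nat_lit 5) (nat_lit 93) (nat_lit 5) (nat_lit 90) (nat_lit 4) (nat_lit 484) (nat_lit 335) (nat_lit 321)) (XT.lf (nat_lit 0) (nat_lit 8314621969) (nat_lit 304) (nat_lit 2769804881) (nat_lit 0) (nat_lit 776128057) (nat_lit 86) (nat_lit 5) (nat_lit 90) (nat_lit 4) (nat_lit 86) (nat_lit 4) (nat_lit 485) (nat_lit 335) (nat_lit 320))))))) (XT.nd (nat_lit 58890) (nat_lit 0) (nat_lit 0) (XT.nd (nat_lit 58344) (nat_lit 0) (nat_lit 1672) (XT.nd (nat_lit 58110) (nat_lit 0) (nat_lit 3800) (XT.nd (nat_lit 57954) (nat_lit 0) (nat_lit 4788) (XT.lf (nat_lit 0) (nat_lit 2019567703) (nat_lit 304) (nat_lit 3886336730) (nat_lit 76) (nat_lit 6069047896) (nat_lit 82) (nat_lit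 5) (nat_lit 86) (nat_lit 5) (nat_lit 83) (nat_lit 4) (nat_lit 486) (nat_lit 335) (nat_lit 319)) (XT.nd (nat_lit 78) (nat_lit 76) (nat_lit 0) (XT.lf (nat_lit 0) (nat_lit 219308693) (nat_lit 304) (nat_lit 2432269776) (nat_lit 304) (nat_lit 2432269776) (nat_lit 146) (nat_lit 4) (nat_lit 150) (nat_lit 5) (nat_lit 150) (nat_lit 4) (nat_lit 468) (nat_lit 336) (nat_lit 336)) (XT.lf (nat_lit 0) (nat_lit 216432420) (nat_lit 380) (nat_lit 250203661) (nat_lit 76) (nat_lit 9789046960) (nat_lit 145) (nat_lit 5) (nat_lit 150) (nat_lit 5) (nat_lit 146) (nat_lit 4) (nat_lit 469) (nat_lit 336) (nat_lit 335)))) (XT.nd (nat_lit 78) (nat_lit 684) (nat_lit 0) (XT.lf (nat_lit 0) (nat_lit 5345626389) (nat_lit 380) (nat_lit 987922128) (nat_lit 0) (nat_lit 4011002934) (nat_lit 141) (nat_lit 5) (nat_lit 146) (nat_lit 4) (nat_lit 141) (nat_lit 4) (nat_lit 470) (nat_lit 336) (nat_lit 334)) (XT.nd (nat_lit 78) (nat_lit 304) (nat_lit 0) (XT.lf (nat_lit 0) (nat_lit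 126290334) (nat_lit 380) (nat_lit 1727266666) (nat_lit 76) (nat_lit 8581902796) (nat_lit 136) (nat_lit 5) (nat_lit 141) (nat_lit 5) (nat_lit 137) (nat_lit 4) (nat_lit 471) (nat_lit 336) (nat_lit 333)) (XT.lf (nat_lit 0) (nat_lit 5288741802) (nat_lit 380) (nat_lit 2516108359) (nat_lit 0) (nat_lit 2722641943) (nat_lit 132) (nat_lit 5) (nat_lit 137) (nat_lit 4) (nat_lit 132) (nat_lit 4) (nat_lit 472) (nat_lit 336) (nat_lit 332))))) (XT.nd (nat_lit 234) (nat_lit 1216) (nat_lit 0) (XT.nd (nat_lit 78) (nat_lit 608) (nat_lit 0) (XT.lf (nat_lit 0) (nat_lit 7304125134) (nat_lit 304) (nat_lit 3246898576) (nat_lit 304) (nat_lit 70409720) (nat_lit 128) (nat_lit 4) (nat_lit 132) (nat_lit 5) (nat_lit 132) (nat_lit 4) (nat_lit 473) (nat_lit 336) (nat_lit 331)) (XT.nd (nat_lit 78) (nat_lit 304) (nat_lit 0) (XT.lf (nat_lit 0) (nat_lit 5127453852) (nat_lit 304) (nat_lit 4162674639) (nat_lit 0) (nat_lit 1426562242) (nat_lit 124) (nat_lit 5) (nat_lit 128)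 (nat_lit 4) (nat_lit 124) (nat_lit 4) (nat_lit 474) (nat_lit 336) (nat_lit 330)) (XT.lf (nat_lit 0) (nat_lit 5781154267) (nat_lit 304) (nat_lit 4654310869) (nat_lit 304) (nat_lit 378236074) (nat_lit 120) (nat_lit 4) (nat_lit 124) (nat_lit 5) (nat_lit 124) (nat_lit 4) (nat_lit 475) (nat_lit 336) (nat_lit 329)))) (XT.nd (nat_lit 156) (nat_lit 608) (nat_lit 0) (XT.nd (nat_lit 78) (nat_lit 304) (nat_lit 0) (XT.lf (nat_lit 0) (nat_lit 4859237835) (nat_lit 304) (nat_lit 5938873403) (nat_lit 0) (nat_lit 114159524) (nat_lit 116) (nat_lit 5) (nat_lit 120) (nat_lit 4) (nat_lit 116) (nat_lit 4) (nat_lit 476) (nat_lit 336) (nat_lit 328)) (XT.lf (nat_lit 0) (nat_lit 4128820151) (nat_lit 304) (nat_lit 6085336314) (nat_lit 304) (nat_lit 798250041) (nat_lit 112) (nat_lit 4) (nat_lit 116) (nat_lit 5) (nat_lit 116) (nat_lit 4) (nat_lit 477) (nat_lit 336) (nat_lit 327))) (XT.nd (nat_lit 78) (nat_lit 304) (nat_lit 0) (XT.lf (nat_lit 0) (nat_lit 3249902447)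 (nat_lit 228) (nat_lit 1239389173) (nat_lit 304) (nat_lit 6624911208) (nat_lit 108) (nat_lit 5) (nat_lit 111) (nat_lit 5) (nat_lit 112) (nat_lit 4) (nat_lit 478) (nat_lit 336) (nat_lit 326)) (XT.lf (nat_lit 0) (nat_lit 2335513277) (nat_lit 304) (nat_lit 7548648105) (nat_lit 304) (nat_lit 1333522850) (nat_lit 104) (nat_lit 4) (nat_lit 108) (nat_lit 5) (nat_lit 108) (nat_lit 4) (nat_lit 479) (nat_lit 336) (nat_lit 325)))))) (XT.nd (nat_lit 468) (nat_lit 304) (nat_lit 0) (XT.nd (nat_lit 234) (nat_lit 760) (nat_lit 0) (XT.nd (nat_lit 78) (nat_lit 304) (nat_lit 0) (XT.lf (nat_lit 0) (nat_lit 1379018362) (nat_lit 228) (nat_lit 2628345594) (nat_lit 304) (nat_lit 7315404289) (nat_lit 100) (nat_lit 5) (nat_lit 103) (nat_lit 5) (nat_lit 104) (nat_lit 4) (nat_lit 480) (nat_lit 336) (nat_lit 324)) (XT.nd (nat_lit 78) (nat_lit 76) (nat_lit 0) (XT.lf (nat_lit 0) (nat_lit 389297309) (nat_lit 228) (nat_lit 9052920578) (nat_lit 228) (nat_lit 1987459655)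 (nat_lit 97) (nat_lit 4) (nat_lit 100) (nat_lit 5) (nat_lit 100) (nat_lit 4) (nat_lit 481) (nat_lit 336) (nat_lit 323)) (XT.lf (nat_lit 0) (nat_lit 3413479874) (nat_lit 304) (nat_lit 642082123) (nat_lit 76) (nat_lit 7482482525) (nat_lit 96) (nat_lit 5) (nat_lit 100) (nat_lit 5) (nat_lit 97) (nat_lit 4) (nat_lit 482) (nat_lit 336) (nat_lit 322)))) (XT.nd (nat_lit 78) (nat_lit 532) (nat_lit 0) (XT.lf (nat_lit 0) (nat_lit 8895916388) (nat_lit 304) (nat_lit 1699530585) (nat_lit 0) (nat_lit 1052867322) (nat_lit 93) (nat_lit 5) (nat_lit 97) (nat_lit 4) (nat_lit 93) (nat_lit 4) (nat_lit 483) (nat_lit 336) (nat_lit 321)) (XT.nd (nat_lit 78) (nat_lit 228) (nat_lit 0) (XT.lf (nat_lit 0) (nat_lit 2709699927) (nat_lit 304) (nat_lit 2814090522) (nat_lit 76) (nat_lit 6236279763) (nat_lit 89) (nat_lit 5) (nat_lit 93) (nat_lit 5) (nat_lit 90) (nat_lit 4) (nat_lit 484) (nat_lit 336) (nat_lit 320)) (XT.lf (nat_lit 0) (nat_lit 7912980796) (nat_lit 228)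 (nat_lit 322950957) (nat_lit 304) (nat_lit 3637930695) (nat_lit 86) (nat_lit 5) (nat_lit 89) (nat_lit 5) (nat_lit 90) (nat_lit 4) (nat_lit 485) (nat_lit 336) (nat_lit 319))))) (XT.nd (nat_lit 57954) (nat_lit 0) (nat_lit 4104) (XT.nd (nat_lit 57798) (nat_lit 0) (nat_lit 5168) (XT.lf (nat_lit 0) (nat_lit 1883037214) (nat_lit 304) (nat_lit 5167804949) (nat_lit 76) (nat_lit 4938344439) (nat_lit 82) (nat_lit 5) (nat_lit 86) (nat_lit 5) (nat_lit 83) (nat_lit 4) (nat_lit 486) (nat_lit 336) (nat_lit 318)) (XT.nd (nat_lit 78) (nat_lit 380) (nat_lit 0) (XT.lf (nat_lit 0) (nat_lit 920858668) (nat_lit 380) (nat_lit 2038573239) (nat_lit 380) (nat_lit 2038573239) (nat_lit 155) (nat_lit 4) (nat_lit 160) (nat_lit 5) (nat_lit 160) (nat_lit 4) (nat_lit 466) (nat_lit 337) (nat_lit 337)) (XT.lf (nat_lit 0) (nat_lit 917577513) (nat_lit 380) (nat_lit 8947722726) (nat_lit 0) (nat_lit 216432420) (nat_lit 150) (nat_lit 5) (nat_lit 155) (nat_lit 4) (nat_lit 150)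 (nat_lit 4) (nat_lit 467) (nat_lit 337) (nat_lit 336)))) (XT.nd (nat_lit 156) (nat_lit 684) (nat_lit 0) (XT.nd (nat_lit 78) (nat_lit 76) (nat_lit 0) (XT.lf (nat_lit 0) (nat_lit 375725662) (nat_lit 304) (nat_lit 5590635941) (nat_lit 304) (nat_lit 4202093698) (nat_lit 146) (nat_lit 4) (nat_lit 150) (nat_lit 5) (nat_lit 150) (nat_lit 4) (nat_lit 468) (nat_lit 337) (nat_lit 335)) (XT.lf (nat_lit 0) (nat_lit 832747345) (nat_lit 380) (nat_lit 380311379) (nat_lit 76) (nat_lit 9044045960) (nat_lit 145) (nat_lit 5) (nat_lit 150) (nat_lit 5) (nat_lit 146) (nat_lit 4) (nat_lit 469) (nat_lit 337) (nat_lit 334))) (XT.nd (nat_lit 78) (nat_lit 380) (nat_lit 0) (XT.lf (nat_lit 0) (nat_lit 5918963875) (nat_lit 380) (nat_lit 1178675188) (nat_lit 0) (nat_lit 3249193582) (nat_lit 141) (nat_lit 5) (nat_lit 146) (nat_lit 4) (nat_lit 141) (nat_lit 4) (nat_lit 470) (nat_lit 337) (nat_lit 333)) (XT.lf (nat_lit 0) (nat_lit 651408439) (nat_lit 380) (nat_lit 1988973957)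 (nat_lit 76) (nat_lit 7798053414) (nat_lit 136) (nat_lit 5) (nat_lit 141) (nat_lit 5) (nat_lit 137) (nat_lit 4) (nat_lit 471) (nat_lit 337) (nat_lit 332))))))))
noncomputable def xc2 : XT := (XT.nd (nat_lit 59592) (nat_lit 0) (nat_lit 0) (XT.nd (nat_lit 1014) (nat_lit 532) (nat_lit 0) (XT.nd (nat_lit 468) (nat_lit 1748) (nat_lit 0) (XT.nd (nat_lit 234) (nat_lit 912) (nat_lit 0) (XT.nd (nat_lit 78) (nat_lit 608) (nat_lit 0) (XT.lf (nat_lit 0) (nat_lit 5769996047) (nat_lit 380) (nat_lit 2841760931) (nat_lit 0) (nat_lit 1919588417) (nat_lit 132) (nat_lit 5) (nat_lit 137) (nat_lit 4) (nat_lit 132) (nat_lit 4) (nat_lit 472) (nat_lit 337) (nat_lit 331)) (XT.nd (nat_lit 78) (nat_lit 228) (nat_lit 0) (XT.lf (nat_lit 0) (nat_lit 362553985) (nat_lit 380) (nat_lit 3716469164) (nat_lit 76) (nat_lit 6546992711) (nat_lit 127) (nat_lit 5) (nat_lit 132) (nat_lit 5) (nat_lit 128) (nat_lit 4) (nat_lit 473) (nat_lit 337) (nat_lit 330)) (XT.lf (nat_lit 0)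 (nat_lit 5514659012) (nat_lit 304) (nat_lit 4629622174) (nat_lit 0) (nat_lit 577879537) (nat_lit 124) (nat_lit 5) (nat_lit 128) (nat_lit 4) (nat_lit 124) (nat_lit 4) (nat_lit 474) (nat_lit 337) (nat_lit 329)))) (XT.nd (nat_lit 78) (nat_lit 608) (nat_lit 0) (XT.lf (nat_lit 0) (nat_lit 5245604442) (nat_lit 304) (nat_lit 5537521106) (nat_lit 304) (nat_lit 36836547) (nat_lit 120) (nat_lit 4) (nat_lit 124) (nat_lit 5) (nat_lit 124) (nat_lit 4) (nat_lit 475) (nat_lit 337) (nat_lit 328)) (XT.nd (nat_lit 78) (nat_lit 304) (nat_lit 0) (XT.lf (nat_lit 0) (nat_lit 4360435290) (nat_lit 228) (nat_lit 794994397) (nat_lit 304) (nat_lit 5763872232) (nat_lit 116) (nat_lit 5) (nat_lit 119) (nat_lit 5) (nat_lit 120) (nat_lit 4) (nat_lit 476) (nat_lit 337) (nat_lit 327)) (XT.lf (nat_lit 0) (nat_lit 3443202707) (nat_lit 304) (nat_lit 7021680289) (nat_lit 304) (nat_lit 555463974) (nat_lit 112) (nat_lit 4) (nat_lit 116) (nat_lit 5) (nat_lit 116) (nat_lit 4)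 (nat_lit 477) (nat_lit 337) (nat_lit 326))))) (XT.nd (nat_lit 234) (nat_lit 836) (nat_lit 0) (XT.nd (nat_lit 78) (nat_lit 608) (nat_lit 0) (XT.lf (nat_lit 0) (nat_lit 2482845265) (nat_lit 228) (nat_lit 2205284790) (nat_lit 304) (nat_lit 6434796980) (nat_lit 108) (nat_lit 5) (nat_lit 111) (nat_lit 5) (nat_lit 112) (nat_lit 4) (nat_lit 478) (nat_lit 337) (nat_lit 325)) (XT.nd (nat_lit 78) (nat_lit 304) (nat_lit 0) (XT.lf (nat_lit 0) (nat_lit 1492956009) (nat_lit 304) (nat_lit 8542652895) (nat_lit 304) (nat_lit 1191747352) (nat_lit 104) (nat_lit 4) (nat_lit 108) (nat_lit 5) (nat_lit 108) (nat_lit 4) (nat_lit 479) (nat_lit 337) (nat_lit 324)) (XT.lf (nat_lit 0) (nat_lit 451644043) (nat_lit 228) (nat_lit 3654030658) (nat_lit 304) (nat_lit 7227579266) (nat_lit 100) (nat_lit 5) (nat_lit 103) (nat_lit 5) (nat_lit 104) (nat_lit 4) (nat_lit 480) (nat_lit 337) (nat_lit 323)))) (XT.nd (nat_lit 156) (nat_lit 532) (nat_lit 0) (XT.nd (nat_lit 78) (nat_lit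 304) (nat_lit 0) (XT.lf (nat_lit 0) (nat_lit 9495883657) (nat_lit 304) (nat_lit 609197097) (nat_lit 0) (nat_lit 1335975409) (nat_lit 100) (nat_lit 5) (nat_lit 104) (nat_lit 4) (nat_lit 100) (nat_lit 4) (nat_lit 481) (nat_lit 337) (nat_lit 322)) (XT.lf (nat_lit 0) (nat_lit 3415781303) (nat_lit 304) (nat_lit 1722628592) (nat_lit 76) (nat_lit 6411796379) (nat_lit 96) (nat_lit 5) (nat_lit 100) (nat_lit 5) (nat_lit 97) (nat_lit 4) (nat_lit 482) (nat_lit 337) (nat_lit 321))) (XT.nd (nat_lit 78) (nat_lit 304) (nat_lit 0) (XT.lf (nat_lit 0) (nat_lit 8799102816) (nat_lit 228) (nat_lit 49975231) (nat_lit 304) (nat_lit 2812380794) (nat_lit 93) (nat_lit 5) (nat_lit 96) (nat_lit 5) (nat_lit 97) (nat_lit 4) (nat_lit 483) (nat_lit 337) (nat_lit 320)) (XT.lf (nat_lit 0) (nat_lit 2607258423) (nat_lit 304) (nat_lit 4067328328) (nat_lit 76) (nat_lit 5099500703) (nat_lit 89) (nat_lit 5) (nat_lit 93) (nat_lit 5) (nat_lit 90) (nat_lit 4) (nat_lit 484) (nat_lit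 337) (nat_lit 319)))))) (XT.nd (nat_lit 58032) (nat_lit 0) (nat_lit 3192) (XT.nd (nat_lit 57798) (nat_lit 0) (nat_lit 5168) (XT.nd (nat_lit 78) (nat_lit 304) (nat_lit 0) (XT.lf (nat_lit 0) (nat_lit 6581072757) (nat_lit 228) (nat_lit 1509240450) (nat_lit 304) (nat_lit 3798430024) (nat_lit 86) (nat_lit 5) (nat_lit 89) (nat_lit 5) (nat_lit 90) (nat_lit 4) (nat_lit 485) (nat_lit 337) (nat_lit 318)) (XT.nd (nat_lit 57642) (nat_lit 0) (nat_lit 6308) (XT.lf (nat_lit 0) (nat_lit 1672968061) (nat_lit 304) (nat_lit 6601339521) (nat_lit 76) (nat_lit 3730814140) (nat_lit 82) (nat_lit 5) (nat_lit 86) (nat_lit 5) (nat_lit 83) (nat_lit 4) (nat_lit 486) (nat_lit 337) (nat_lit 317)) (XT.lf (nat_lit 0) (nat_lit 1637169107) (nat_lit 380) (nat_lit 1638617640) (nat_lit 380) (nat_lit 1638617640) (nat_lit 165) (nat_lit 4) (nat_lit 170) (nat_lit 5) (nat_lit 170) (nat_lit 4) (nat_lit 464) (nat_lit 338) (nat_lit 338)))) (XT.nd (nat_lit 78) (nat_lit 760) (nat_lit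 0) (XT.lf (nat_lit 0) (nat_lit 1638252796) (nat_lit 380) (nat_lit 7365159738) (nat_lit 0) (nat_lit 908781441) (nat_lit 160) (nat_lit 5) (nat_lit 165) (nat_lit 4) (nat_lit 160) (nat_lit 4) (nat_lit 465) (nat_lit 338) (nat_lit 337)) (XT.nd (nat_lit 78) (nat_lit 380) (nat_lit 0) (XT.lf (nat_lit 0) (nat_lit 1780335588) (nat_lit 380) (nat_lit 4830531706) (nat_lit 380) (nat_lit 3385892356) (nat_lit 155) (nat_lit 4) (nat_lit 160) (nat_lit 5) (nat_lit 160) (nat_lit 4) (nat_lit 466) (nat_lit 338) (nat_lit 336)) (XT.lf (nat_lit 0) (nat_lit 1006481938) (nat_lit 304) (nat_lit 554045972) (nat_lit 380) (nat_lit 8522649100) (nat_lit 150) (nat_lit 5) (nat_lit 154) (nat_lit 5) (nat_lit 155) (nat_lit 4) (nat_lit 467) (nat_lit 338) (nat_lit 335))))) (XT.nd (nat_lit 234) (nat_lit 1292) (nat_lit 0) (XT.nd (nat_lit 78) (nat_lit 380) (nat_lit 0) (XT.lf (nat_lit 0) (nat_lit 187025827) (nat_lit 304) (nat_lit 6380667605) (nat_lit 304) (nat_lit 3603038592) (nat_lit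 146) (nat_lit 4) (nat_lit 150) (nat_lit 5) (nat_lit 150) (nat_lit 4) (nat_lit 468) (nat_lit 338) (nat_lit 334)) (XT.nd (nat_lit 78) (nat_lit 304) (nat_lit 0) (XT.lf (nat_lit 0) (nat_lit 1387237075) (nat_lit 380) (nat_lit 636114801) (nat_lit 76) (nat_lit 8236685916) (nat_lit 145) (nat_lit 5) (nat_lit 150) (nat_lit 5) (nat_lit 146) (nat_lit 4) (nat_lit 469) (nat_lit 338) (nat_lit 333)) (XT.lf (nat_lit 0) (nat_lit 6429959828) (nat_lit 380) (nat_lit 1496680070) (nat_lit 0) (nat_lit 2423995730) (nat_lit 141) (nat_lit 5) (nat_lit 146) (nat_lit 4) (nat_lit 141) (nat_lit 4) (nat_lit 470) (nat_lit 338) (nat_lit 332)))) (XT.nd (nat_lit 156) (nat_lit 608) (nat_lit 0) (XT.nd (nat_lit 78) (nat_lit 304) (nat_lit 0) (XT.lf (nat_lit 0) (nat_lit 1113387200) (nat_lit 380) (nat_lit 2379518731) (nat_lit 76) (nat_lit 6950038248) (nat_lit 136) (nat_lit 5) (nat_lit 141) (nat_lit 5) (nat_lit 137) (nat_lit 4) (nat_lit 471) (nat_lit 338) (nat_lit 331)) (XT.lf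 (nat_lit 0) (nat_lit 6187557088) (nat_lit 380) (nat_lit 3297853308) (nat_lit 0) (nat_lit 1051331721) (nat_lit 132) (nat_lit 5) (nat_lit 137) (nat_lit 4) (nat_lit 132) (nat_lit 4) (nat_lit 472) (nat_lit 338) (nat_lit 330))) (XT.nd (nat_lit 78) (nat_lit 228) (nat_lit 0) (XT.lf (nat_lit 0) (nat_lit 730073739) (nat_lit 380) (nat_lit 4248163260) (nat_lit 76) (nat_lit 5653906842) (nat_lit 127) (nat_lit 5) (nat_lit 132) (nat_lit 5) (nat_lit 128) (nat_lit 4) (nat_lit 473) (nat_lit 338) (nat_lit 329)) (XT.lf (nat_lit 0) (nat_lit 5496632939) (nat_lit 228) (nat_lit 342341486) (nat_lit 304) (nat_lit 4890178366) (nat_lit 124) (nat_lit 5) (nat_lit 127) (nat_lit 5) (nat_lit 128) (nat_lit 4) (nat_lit 474) (nat_lit 338) (nat_lit 328))))))) (XT.nd (nat_lit 58422) (nat_lit 0) (nat_lit 2812) (XT.nd (nat_lit 468) (nat_lit 1596) (nat_lit 0) (XT.nd (nat_lit 234) (nat_lit 684) (nat_lit 0) (XT.nd (nat_lit 78) (nat_lit 532) (nat_lit 0) (XT.lf (nat_lit 0) (nat_lit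 234598376) (nat_lit 380) (nat_lit 6253562733) (nat_lit 76) (nat_lit 4339600827) (nat_lit 119) (nat_lit 5) (nat_lit 124) (nat_lit 5) (nat_lit 120) (nat_lit 4) (nat_lit 475) (nat_lit 338) (nat_lit 327)) (XT.nd (nat_lit 78) (nat_lit 304) (nat_lit 0) (XT.lf (nat_lit 0) (nat_lit 3610715508) (nat_lit 228) (nat_lit 1775509701) (nat_lit 304) (nat_lit 5541674893) (nat_lit 116) (nat_lit 5) (nat_lit 119) (nat_lit 5) (nat_lit 120) (nat_lit 4) (nat_lit 476) (nat_lit 338) (nat_lit 326)) (XT.lf (nat_lit 0) (nat_lit 2619870539) (nat_lit 304) (nat_lit 8028946980) (nat_lit 304) (nat_lit 381064853) (nat_lit 112) (nat_lit 4) (nat_lit 116) (nat_lit 5) (nat_lit 116) (nat_lit 4) (nat_lit 477) (nat_lit 338) (nat_lit 325)))) (XT.nd (nat_lit 78) (nat_lit 380) (nat_lit 0) (XT.lf (nat_lit 0) (nat_lit 1576306098) (nat_lit 228) (nat_lit 3242968374) (nat_lit 304) (nat_lit 6313984669) (nat_lit 108) (nat_lit 5) (nat_lit 111) (nat_lit 5) (nat_lit 112) (nat_lit 4) (nat_lit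 478) (nat_lit 338) (nat_lit 324)) (XT.nd (nat_lit 78) (nat_lit 76) (nat_lit 0) (XT.lf (nat_lit 0) (nat_lit 509137915) (nat_lit 304) (nat_lit 9609540245) (nat_lit 304) (nat_lit 1119971704) (nat_lit 104) (nat_lit 4) (nat_lit 108) (nat_lit 5) (nat_lit 108) (nat_lit 4) (nat_lit 479) (nat_lit 338) (nat_lit 323)) (XT.lf (nat_lit 0) (nat_lit 4138690140) (nat_lit 380) (nat_lit 610702015) (nat_lit 76) (nat_lit 6595902476) (nat_lit 103) (nat_lit 5) (nat_lit 108) (nat_lit 5) (nat_lit 104) (nat_lit 4) (nat_lit 480) (nat_lit 338) (nat_lit 322))))) (XT.nd (nat_lit 234) (nat_lit 836) (nat_lit 0) (XT.nd (nat_lit 78) (nat_lit 532) (nat_lit 0) (XT.lf (nat_lit 0) (nat_lit 9482980182) (nat_lit 304) (nat_lit 1745610379) (nat_lit 0) (nat_lit 225424645) (nat_lit 100) (nat_lit 5) (nat_lit 104) (nat_lit 4) (nat_lit 100) (nat_lit 4) (nat_lit 481) (nat_lit 338) (nat_lit 321)) (XT.nd (nat_lit 78) (nat_lit 228) (nat_lit 0) (XT.lf (nat_lit 0) (nat_lit 3348029414)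 (nat_lit 304) (nat_lit 2948064137) (nat_lit 76) (nat_lit 5267919697) (nat_lit 96) (nat_lit 5) (nat_lit 100) (nat_lit 5) (nat_lit 97) (nat_lit 4) (nat_lit 482) (nat_lit 338) (nat_lit 320)) (XT.lf (nat_lit 0) (nat_lit 7496754597) (nat_lit 228) (nat_lit 1242093650) (nat_lit 304) (nat_lit 2937267126) (nat_lit 93) (nat_lit 5) (nat_lit 96) (nat_lit 5) (nat_lit 97) (nat_lit 4) (nat_lit 483) (nat_lit 338) (nat_lit 319)))) (XT.nd (nat_lit 156) (nat_lit 304) (nat_lit 0) (XT.nd (nat_lit 78) (nat_lit 228) (nat_lit 0) (XT.lf (nat_lit 0) (nat_lit 2433018677) (nat_lit 304) (nat_lit 5469258971) (nat_lit 76) (nat_lit 3887502381) (nat_lit 89) (nat_lit 5) (nat_lit 93) (nat_lit 5) (nat_lit 90) (nat_lit 4) (nat_lit 484) (nat_lit 338) (nat_lit 318)) (XT.lf (nat_lit 0) (nat_lit 5099711819) (nat_lit 228) (nat_lit 2772891300) (nat_lit 304) (nat_lit 4032702093) (nat_lit 86) (nat_lit 5) (nat_lit 89) (nat_lit 5) (nat_lit 90) (nat_lit 4) (nat_lit 485) (nat_lit 338)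 (nat_lit 317))) (XT.nd (nat_lit 57486) (nat_lit 0) (nat_lit 7068) (XT.lf (nat_lit 0) (nat_lit 1389277864) (nat_lit 304) (nat_lit 8187502616) (nat_lit 76) (nat_lit 2445983458) (nat_lit 82) (nat_lit 5) (nat_lit 86) (nat_lit 5) (nat_lit 83) (nat_lit 4) (nat_lit 486) (nat_lit 338) (nat_lit 316)) (XT.lf (nat_lit 0) (nat_lit 2369102650) (nat_lit 380) (nat_lit 1231960972) (nat_lit 380) (nat_lit 1231960972) (nat_lit 175) (nat_lit 4) (nat_lit 180) (nat_lit 5) (nat_lit 180) (nat_lit 4) (nat_lit 462) (nat_lit 339) (nat_lit 339)))))) (XT.nd (nat_lit 468) (nat_lit 2356) (nat_lit 0) (XT.nd (nat_lit 234) (nat_lit 760) (nat_lit 0) (XT.nd (nat_lit 78) (nat_lit 760) (nat_lit 0) (XT.lf (nat_lit 0) (nat_lit 2374639337) (nat_lit 380) (nat_lit 5756779853) (nat_lit 0) (nat_lit 1615697340) (nat_lit 170) (nat_lit 5) (nat_lit 175) (nat_lit 4) (nat_lit 170) (nat_lit 4) (nat_lit 463) (nat_lit 339) (nat_lit 338)) (XT.nd (nat_lit 78) (nat_lit 380) (nat_lit 0) (XT.lf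 (nat_lit 0) (nat_lit 3214448017) (nat_lit 380) (nat_lit 4059051925) (nat_lit 380) (nat_lit 2556049146) (nat_lit 165) (nat_lit 4) (nat_lit 170) (nat_lit 5) (nat_lit 170) (nat_lit 4) (nat_lit 464) (nat_lit 339) (nat_lit 337)) (XT.lf (nat_lit 0) (nat_lit 2307433502) (nat_lit 380) (nat_lit 7487524705) (nat_lit 0) (nat_lit 118733370) (nat_lit 160) (nat_lit 5) (nat_lit 165) (nat_lit 4) (nat_lit 160) (nat_lit 4) (nat_lit 465) (nat_lit 339) (nat_lit 336)))) (XT.nd (nat_lit 78) (nat_lit 380) (nat_lit 0) (XT.lf (nat_lit 0) (nat_lit 1596166270) (nat_lit 380) (nat_lit 5646343486) (nat_lit 380) (nat_lit 2756498261) (nat_lit 155) (nat_lit 4) (nat_lit 160) (nat_lit 5) (nat_lit 160) (nat_lit 4) (nat_lit 466) (nat_lit 339) (nat_lit 335)) (XT.nd (nat_lit 78) (nat_lit 0) (nat_lit 0) (XT.lf (nat_lit 0) (nat_lit 753175670) (nat_lit 304) (nat_lit 1390595639) (nat_lit 380) (nat_lit 7942330261) (nat_lit 150) (nat_lit 5) (nat_lit 154) (nat_lit 5) (nat_lit 155)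 (nat_lit 4) (nat_lit 467) (nat_lit 339) (nat_lit 334)) (XT.lf (nat_lit 0) (nat_lit 7108216422) (nat_lit 380) (nat_lit 125883196) (nat_lit 0) (nat_lit 2940411374) (nat_lit 150) (nat_lit 5) (nat_lit 155) (nat_lit 4) (nat_lit 150) (nat_lit 4) (nat_lit 468) (nat_lit 339) (nat_lit 333))))) (XT.nd (nat_lit 234) (nat_lit 1292) (nat_lit 0) (XT.nd (nat_lit 78) (nat_lit 684) (nat_lit 0) (XT.lf (nat_lit 0) (nat_lit 1880119056) (nat_lit 380) (nat_lit 1017714240) (nat_lit 76) (nat_lit 7366650215) (nat_lit 145) (nat_lit 5) (nat_lit 150) (nat_lit 5) (nat_lit 146) (nat_lit 4) (nat_lit 469) (nat_lit 339) (nat_lit 332)) (XT.nd (nat_lit 78) (nat_lit 380) (nat_lit 0) (XT.lf (nat_lit 0) (nat_lit 6878814640) (nat_lit 380) (nat_lit 1942061481) (nat_lit 0) (nat_lit 1535085769) (nat_lit 141) (nat_lit 5) (nat_lit 146) (nat_lit 4) (nat_lit 141) (nat_lit 4) (nat_lit 470) (nat_lit 339) (nat_lit 331)) (XT.lf (nat_lit 0) (nat_lit 1512407785) (nat_lit 380) (nat_lit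 2899054141) (nat_lit 76) (nat_lit 6037524742) (nat_lit 136) (nat_lit 5) (nat_lit 141) (nat_lit 5) (nat_lit 137) (nat_lit 4) (nat_lit 471) (nat_lit 339) (nat_lit 330)))) (XT.nd (nat_lit 156) (nat_lit 608) (nat_lit 0) (XT.nd (nat_lit 78) (nat_lit 380) (nat_lit 0) (XT.lf (nat_lit 0) (nat_lit 6541588673) (nat_lit 380) (nat_lit 3884564349) (nat_lit 0) (nat_lit 117531365) (nat_lit 132) (nat_lit 5) (nat_lit 137) (nat_lit 4) (nat_lit 132) (nat_lit 4) (nat_lit 472) (nat_lit 339) (nat_lit 329)) (XT.lf (nat_lit 0) (nat_lit 1033217102) (nat_lit 380) (nat_lit 4912141945) (nat_lit 76) (nat_lit 4694469870) (nat_lit 127) (nat_lit 5) (nat_lit 132) (nat_lit 5) (nat_lit 128) (nat_lit 4) (nat_lit 473) (nat_lit 339) (nat_lit 328))) (XT.nd (nat_lit 78) (nat_lit 380) (nat_lit 0) (XT.lf (nat_lit 0) (nat_lit 4764003409) (nat_lit 228) (nat_lit 1338545593) (nat_lit 304) (nat_lit 4635080240) (nat_lit 124) (nat_lit 5) (nat_lit 127) (nat_lit 5) (nat_lit 128) (nat_lit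 4) (nat_lit 474) (nat_lit 339) (nat_lit 327)) (XT.lf (nat_lit 0) (nat_lit 439686234) (nat_lit 380) (nat_lit 7068690373) (nat_lit 76) (nat_lit 3328761948) (nat_lit 119) (nat_lit 5) (nat_lit 124) (nat_lit 5) (nat_lit 120) (nat_lit 4) (nat_lit 475) (nat_lit 339) (nat_lit 326))))))))
noncomputable def xc3 : XT := (XT.nd (nat_lit 59280) (nat_lit 0) (nat_lit 304) (XT.nd (nat_lit 58266) (nat_lit 0) (nat_lit 3192) (XT.nd (nat_lit 468) (nat_lit 1368) (nat_lit 0) (XT.nd (nat_lit 234) (nat_lit 608) (nat_lit 0) (XT.nd (nat_lit 78) (nat_lit 608) (nat_lit 0) (XT.lf (nat_lit 0) (nat_lit 2724710076) (nat_lit 228) (nat_lit 2826253783) (nat_lit 304) (nat_lit 5387119846) (nat_lit 116) (nat_lit 5) (nat_lit 119) (nat_lit 5) (nat_lit 120) (nat_lit 4) (nat_lit 476) (nat_lit 339) (nat_lit 325)) (XT.nd (nat_lit 78) (nat_lit 304) (nat_lit 0) (XT.lf (nat_lit 0) (nat_lit 1658500773) (nat_lit 304) (nat_lit 9107531396) (nat_lit 304) (nat_lit 274984286) (nat_lit 112)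 (nat_lit 4) (nat_lit 116) (nat_lit 5) (nat_lit 116) (nat_lit 4) (nat_lit 477) (nat_lit 339) (nat_lit 324)) (XT.lf (nat_lit 0) (nat_lit 529929441) (nat_lit 228) (nat_lit 4352846859) (nat_lit 304) (nat_lit 6262426897) (nat_lit 108) (nat_lit 5) (nat_lit 111) (nat_lit 5) (nat_lit 112) (nat_lit 4) (nat_lit 478) (nat_lit 339) (nat_lit 323)))) (XT.nd (nat_lit 78) (nat_lit 608) (nat_lit 0) (XT.lf (nat_lit 0) (nat_lit 10137403329) (nat_lit 304) (nat_lit 608243578) (nat_lit 0) (nat_lit 505842548) (nat_lit 108) (nat_lit 5) (nat_lit 112) (nat_lit 4) (nat_lit 108) (nat_lit 4) (nat_lit 479) (nat_lit 339) (nat_lit 322)) (XT.nd (nat_lit 78) (nat_lit 228) (nat_lit 0) (XT.lf (nat_lit 0) (nat_lit 4106267989) (nat_lit 380) (nat_lit 1808749991) (nat_lit 76) (nat_lit 5443880089) (nat_lit 103) (nat_lit 5) (nat_lit 108) (nat_lit 5) (nat_lit 104) (nat_lit 4) (nat_lit 480) (nat_lit 339) (nat_lit 321)) (XT.lf (nat_lit 0) (nat_lit 8436688680) (nat_lit 228) (nat_lit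 970587847) (nat_lit 304) (nat_lit 2061207746) (nat_lit 100) (nat_lit 5) (nat_lit 103) (nat_lit 5) (nat_lit 104) (nat_lit 4) (nat_lit 481) (nat_lit 339) (nat_lit 320))))) (XT.nd (nat_lit 234) (nat_lit 532) (nat_lit 0) (XT.nd (nat_lit 78) (nat_lit 532) (nat_lit 0) (XT.lf (nat_lit 0) (nat_lit 3210197638) (nat_lit 304) (nat_lit 4318869320) (nat_lit 76) (nat_lit 4050403898) (nat_lit 96) (nat_lit 5) (nat_lit 100) (nat_lit 5) (nat_lit 97) (nat_lit 4) (nat_lit 482) (nat_lit 339) (nat_lit 319)) (XT.nd (nat_lit 78) (nat_lit 304) (nat_lit 0) (XT.lf (nat_lit 0) (nat_lit 6048293624) (nat_lit 228) (nat_lit 2509963378) (nat_lit 304) (nat_lit 3134171170) (nat_lit 93) (nat_lit 5) (nat_lit 96) (nat_lit 5) (nat_lit 97) (nat_lit 4) (nat_lit 483) (nat_lit 339) (nat_lit 318)) (XT.lf (nat_lit 0) (nat_lit 2186912360) (nat_lit 304) (nat_lit 7020432227) (nat_lit 76) (nat_lit 2599809503) (nat_lit 89) (nat_lit 5) (nat_lit 93) (nat_lit 5) (nat_lit 90) (nat_lit 4)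 (nat_lit 484) (nat_lit 339) (nat_lit 317)))) (XT.nd (nat_lit 57408) (nat_lit 0) (nat_lit 7448) (XT.nd (nat_lit 78) (nat_lit 304) (nat_lit 0) (XT.lf (nat_lit 0) (nat_lit 3468317055) (nat_lit 228) (nat_lit 4114399057) (nat_lit 304) (nat_lit 4340838776) (nat_lit 86) (nat_lit 5) (nat_lit 89) (nat_lit 5) (nat_lit 90) (nat_lit 4) (nat_lit 485) (nat_lit 339) (nat_lit 316)) (XT.lf (nat_lit 0) (nat_lit 1031855371) (nat_lit 304) (nat_lit 9926916259) (nat_lit 76) (nat_lit 1083348537) (nat_lit 82) (nat_lit 5) (nat_lit 86) (nat_lit 5) (nat_lit 83) (nat_lit 4) (nat_lit 486) (nat_lit 339) (nat_lit 315))) (XT.nd (nat_lit 78) (nat_lit 456) (nat_lit 0) (XT.lf (nat_lit 0) (nat_lit 3117551564) (nat_lit 380) (nat_lit 818147077) (nat_lit 380) (nat_lit 818147077) (nat_lit 186) (nat_lit 4) (nat_lit 191) (nat_lit 5) (nat_lit 191) (nat_lit 4) (nat_lit 460) (nat_lit 340) (nat_lit 340)) (XT.lf (nat_lit 0) (nat_lit 3127634697) (nat_lit 456) (nat_lit 4120792642) (nat_lit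 0) (nat_lit 2338031442) (nat_lit 180) (nat_lit 5) (nat_lit 186) (nat_lit 4) (nat_lit 180) (nat_lit 4) (nat_lit 461) (nat_lit 340) (nat_lit 339)))))) (XT.nd (nat_lit 468) (nat_lit 1976) (nat_lit 0) (XT.nd (nat_lit 234) (nat_lit 1140) (nat_lit 0) (XT.nd (nat_lit 78) (nat_lit 760) (nat_lit 0) (XT.lf (nat_lit 0) (nat_lit 4679789041) (nat_lit 380) (nat_lit 3275357955) (nat_lit 380) (nat_lit 1711633863) (nat_lit 175) (nat_lit 4) (nat_lit 180) (nat_lit 5) (nat_lit 180) (nat_lit 4) (nat_lit 462) (nat_lit 340) (nat_lit 338)) (XT.nd (nat_lit 78) (nat_lit 380) (nat_lit 0) (XT.lf (nat_lit 0) (nat_lit 3074774232) (nat_lit 380) (nat_lit 5876171402) (nat_lit 0) (nat_lit 797650615) (nat_lit 170) (nat_lit 5) (nat_lit 175) (nat_lit 4) (nat_lit 170) (nat_lit 4) (nat_lit 463) (nat_lit 340) (nat_lit 337)) (XT.lf (nat_lit 0) (nat_lit 3034753935) (nat_lit 380) (nat_lit 4901805674) (nat_lit 380) (nat_lit 1895210702) (nat_lit 165) (nat_lit 4) (nat_lit 170) (nat_lit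 5) (nat_lit 170) (nat_lit 4) (nat_lit 464) (nat_lit 340) (nat_lit 336)))) (XT.nd (nat_lit 78) (nat_lit 760) (nat_lit 0) (XT.lf (nat_lit 0) (nat_lit 2179471287) (nat_lit 304) (nat_lit 741931808) (nat_lit 380) (nat_lit 6995187929) (nat_lit 160) (nat_lit 5) (nat_lit 164) (nat_lit 5) (nat_lit 165) (nat_lit 4) (nat_lit 465) (nat_lit 340) (nat_lit 335)) (XT.nd (nat_lit 78) (nat_lit 380) (nat_lit 0) (XT.lf (nat_lit 0) (nat_lit 1289137160) (nat_lit 380) (nat_lit 6524901743) (nat_lit 380) (nat_lit 2188717371) (nat_lit 155) (nat_lit 4) (nat_lit 160) (nat_lit 5) (nat_lit 160) (nat_lit 4) (nat_lit 466) (nat_lit 340) (nat_lit 334)) (XT.lf (nat_lit 0) (nat_lit 375444167) (nat_lit 304) (nat_lit 2290668364) (nat_lit 380) (nat_lit 7424423430) (nat_lit 150) (nat_lit 5) (nat_lit 154) (nat_lit 5) (nat_lit 155) (nat_lit 4) (nat_lit 467) (nat_lit 340) (nat_lit 333))))) (XT.nd (nat_lit 234) (nat_lit 1292) (nat_lit 0) (XT.nd (nat_lit 78) (nat_lit 684) (nat_lit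 0) (XT.lf (nat_lit 0) (nat_lit 7589346444) (nat_lit 380) (nat_lit 560692235) (nat_lit 0) (nat_lit 2029730927) (nat_lit 150) (nat_lit 5) (nat_lit 155) (nat_lit 4) (nat_lit 150) (nat_lit 4) (nat_lit 468) (nat_lit 340) (nat_lit 332)) (XT.nd (nat_lit 78) (nat_lit 304) (nat_lit 0) (XT.lf (nat_lit 0) (nat_lit 2311586576) (nat_lit 380) (nat_lit 1525259345) (nat_lit 76) (nat_lit 6433597668) (nat_lit 145) (nat_lit 5) (nat_lit 150) (nat_lit 5) (nat_lit 146) (nat_lit 4) (nat_lit 469) (nat_lit 340) (nat_lit 331)) (XT.lf (nat_lit 0) (nat_lit 7265704333) (nat_lit 380) (nat_lit 2514994082) (nat_lit 0) (nat_lit 582115110) (nat_lit 141) (nat_lit 5) (nat_lit 146) (nat_lit 4) (nat_lit 141) (nat_lit 4) (nat_lit 470) (nat_lit 340) (nat_lit 330)))) (XT.nd (nat_lit 156) (nat_lit 608) (nat_lit 0) (XT.nd (nat_lit 78) (nat_lit 304) (nat_lit 0) (XT.lf (nat_lit 0) (nat_lit 1848626673) (nat_lit 380) (nat_lit 3547783928) (nat_lit 76) (nat_lit 5060155050) (nat_lit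 136) (nat_lit 5) (nat_lit 141) (nat_lit 5) (nat_lit 137) (nat_lit 4) (nat_lit 471) (nat_lit 340) (nat_lit 329)) (XT.lf (nat_lit 0) (nat_lit 5944130907) (nat_lit 304) (nat_lit 893902540) (nat_lit 380) (nat_lit 3714025405) (nat_lit 132) (nat_lit 5) (nat_lit 136) (nat_lit 5) (nat_lit 137) (nat_lit 4) (nat_lit 472) (nat_lit 340) (nat_lit 328))) (XT.nd (nat_lit 78) (nat_lit 228) (nat_lit 0) (XT.lf (nat_lit 0) (nat_lit 1272102954) (nat_lit 380) (nat_lit 5708665602) (nat_lit 76) (nat_lit 3668305545) (nat_lit 127) (nat_lit 5) (nat_lit 132) (nat_lit 5) (nat_lit 128) (nat_lit 4) (nat_lit 473) (nat_lit 340) (nat_lit 327)) (XT.lf (nat_lit 0) (nat_lit 3898240531) (nat_lit 228) (nat_lit 2403443737) (nat_lit 304) (nat_lit 4445985170) (nat_lit 124) (nat_lit 5) (nat_lit 127) (nat_lit 5) (nat_lit 128) (nat_lit 4) (nat_lit 474) (nat_lit 340) (nat_lit 326))))))) (XT.nd (nat_lit 58188) (nat_lit 0) (nat_lit 3496) (XT.nd (nat_lit 468) (nat_lit 1292) (nat_lit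 0) (XT.nd (nat_lit 234) (nat_lit 684) (nat_lit 0) (XT.nd (nat_lit 78) (nat_lit 532) (nat_lit 0) (XT.lf (nat_lit 0) (nat_lit 578990569) (nat_lit 380) (nat_lit 8019821063) (nat_lit 76) (nat_lit 2249288779) (nat_lit 119) (nat_lit 5) (nat_lit 124) (nat_lit 5) (nat_lit 120) (nat_lit 4) (nat_lit 475) (nat_lit 340) (nat_lit 325)) (XT.nd (nat_lit 78) (nat_lit 304) (nat_lit 0) (XT.lf (nat_lit 0) (nat_lit 1702071540) (nat_lit 228) (nat_lit 3947638699) (nat_lit 304) (nat_lit 5300146480) (nat_lit 116) (nat_lit 5) (nat_lit 119) (nat_lit 5) (nat_lit 120) (nat_lit 4) (nat_lit 476) (nat_lit 340) (nat_lit 324)) (XT.lf (nat_lit 0) (nat_lit 558716399) (nat_lit 304) (nat_lit 10257856510) (nat_lit 304) (nat_lit 237180674) (nat_lit 112) (nat_lit 4) (nat_lit 116) (nat_lit 5) (nat_lit 116) (nat_lit 4) (nat_lit 477) (nat_lit 340) (nat_lit 323)))) (XT.nd (nat_lit 78) (nat_lit 608) (nat_lit 0) (XT.lf (nat_lit 0) (nat_lit 4882924144) (nat_lit 380) (nat_lit 648082375)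 (nat_lit 76) (nat_lit 5627672097) (nat_lit 111) (nat_lit 5) (nat_lit 116) (nat_lit 5) (nat_lit 112) (nat_lit 4) (nat_lit 478) (nat_lit 340) (nat_lit 322)) (XT.nd (nat_lit 78) (nat_lit 380) (nat_lit 0) (XT.lf (nat_lit 0) (nat_lit 9402104625) (nat_lit 228) (nat_lit 694420785) (nat_lit 304) (nat_lit 1169259979) (nat_lit 108) (nat_lit 5) (nat_lit 111) (nat_lit 5) (nat_lit 112) (nat_lit 4) (nat_lit 479) (nat_lit 340) (nat_lit 321)) (XT.lf (nat_lit 0) (nat_lit 4005463158) (nat_lit 380) (nat_lit 3148893099) (nat_lit 76) (nat_lit 4219772001) (nat_lit 103) (nat_lit 5) (nat_lit 108) (nat_lit 5) (nat_lit 104) (nat_lit 4) (nat_lit 480) (nat_lit 340) (nat_lit 320))))) (XT.nd (nat_lit 234) (nat_lit 532) (nat_lit 0) (XT.nd (nat_lit 78) (nat_lit 532) (nat_lit 0) (XT.lf (nat_lit 0) (nat_lit 7020638262) (nat_lit 228) (nat_lit 2243765182) (nat_lit 304) (nat_lit 2220152384) (nat_lit 100) (nat_lit 5) (nat_lit 103) (nat_lit 5) (nat_lit 104) (nat_lit 4) (nat_lit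 481) (nat_lit 340) (nat_lit 319)) (XT.nd (nat_lit 78) (nat_lit 228) (nat_lit 0) (XT.lf (nat_lit 0) (nat_lit 3002231924) (nat_lit 304) (nat_lit 5835581714) (nat_lit 76) (nat_lit 2758771527) (nat_lit 96) (nat_lit 5) (nat_lit 100) (nat_lit 5) (nat_lit 97) (nat_lit 4) (nat_lit 482) (nat_lit 340) (nat_lit 318)) (XT.lf (nat_lit 0) (nat_lit 4453151871) (nat_lit 228) (nat_lit 3854081619) (nat_lit 304) (nat_lit 3403170145) (nat_lit 93) (nat_lit 5) (nat_lit 96) (nat_lit 5) (nat_lit 97) (nat_lit 4) (nat_lit 483) (nat_lit 340) (nat_lit 317)))) (XT.nd (nat_lit 57330) (nat_lit 0) (nat_lit 7980) (XT.nd (nat_lit 78) (nat_lit 228) (nat_lit 0) (XT.lf (nat_lit 0) (nat_lit 1868842960) (nat_lit 304) (nat_lit 8721456400) (nat_lit 76) (nat_lit 1235917093) (nat_lit 89) (nat_lit 5) (nat_lit 93) (nat_lit 5) (nat_lit 90) (nat_lit 4) (nat_lit 484) (nat_lit 340) (nat_lit 316)) (XT.lf (nat_lit 0) (nat_lit 1686248704) (nat_lit 228) (nat_lit 5534289802) (nat_lit 304)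 (nat_lit 4722960908) (nat_lit 86) (nat_lit 5) (nat_lit 89) (nat_lit 5) (nat_lit 90) (nat_lit 4) (nat_lit 485) (nat_lit 340) (nat_lit 315))) (XT.nd (nat_lit 78) (nat_lit 456) (nat_lit 0) (XT.lf (nat_lit 0) (nat_lit 3883439047) (nat_lit 456) (nat_lit 396705004) (nat_lit 456) (nat_lit 396705004) (nat_lit 197) (nat_lit 4) (nat_lit 203) (nat_lit 5) (nat_lit 203) (nat_lit 4) (nat_lit 458) (nat_lit 341) (nat_lit 341)) (XT.lf (nat_lit 0) (nat_lit 3898167541) (nat_lit 456) (nat_lit 2455350002) (nat_lit 0) (nat_lit 3076664315) (nat_lit 191) (nat_lit 5) (nat_lit 197) (nat_lit 4) (nat_lit 191) (nat_lit 4) (nat_lit 459) (nat_lit 341) (nat_lit 340)))))) (XT.nd (nat_lit 468) (nat_lit 2128) (nat_lit 0) (XT.nd (nat_lit 234) (nat_lit 1140) (nat_lit 0) (XT.nd (nat_lit 78) (nat_lit 836) (nat_lit 0) (XT.lf (nat_lit 0) (nat_lit 6178144013) (nat_lit 380) (nat_lit 2478584702) (nat_lit 380) (nat_lit 851686157) (nat_lit 186) (nat_lit 4) (nat_lit 191) (nat_lit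 5) (nat_lit 191) (nat_lit 4) (nat_lit 460) (nat_lit 341) (nat_lit 339)) (XT.nd (nat_lit 78) (nat_lit 380) (nat_lit 0) (XT.lf (nat_lit 0) (nat_lit 3859897480) (nat_lit 456) (nat_lit 4237245883) (nat_lit 0) (nat_lit 1490778069) (nat_lit 180) (nat_lit 5) (nat_lit 186) (nat_lit 4) (nat_lit 180) (nat_lit 4) (nat_lit 461) (nat_lit 341) (nat_lit 338)) (XT.lf (nat_lit 0) (nat_lit 4504517355) (nat_lit 380) (nat_lit 4146260104) (nat_lit 380) (nat_lit 1018198696) (nat_lit 175) (nat_lit 4) (nat_lit 180) (nat_lit 5) (nat_lit 180) (nat_lit 4) (nat_lit 462) (nat_lit 341) (nat_lit 337)))) (XT.nd (nat_lit 78) (nat_lit 760) (nat_lit 0) (XT.lf (nat_lit 0) (nat_lit 3636019300) (nat_lit 304) (nat_lit 80882427) (nat_lit 380) (nat_lit 6034644037) (nat_lit 170) (nat_lit 5) (nat_lit 174) (nat_lit 5) (nat_lit 175) (nat_lit 4) (nat_lit 463) (nat_lit 341) (nat_lit 336)) (XT.nd (nat_lit 78) (nat_lit 380) (nat_lit 0) (XT.lf (nat_lit 0) (nat_lit 2735185503) (nat_lit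 380) (nat_lit 5805827018) (nat_lit 380) (nat_lit 1294460797) (nat_lit 165) (nat_lit 4) (nat_lit 170) (nat_lit 5) (nat_lit 170) (nat_lit 4) (nat_lit 464) (nat_lit 341) (nat_lit 335)) (XT.lf (nat_lit 0) (nat_lit 1810558539) (nat_lit 304) (nat_lit 1666208714) (nat_lit 380) (nat_lit 6444198905) (nat_lit 160) (nat_lit 5) (nat_lit 164) (nat_lit 5) (nat_lit 165) (nat_lit 4) (nat_lit 465) (nat_lit 341) (nat_lit 334))))) (XT.nd (nat_lit 234) (nat_lit 1368) (nat_lit 0) (XT.nd (nat_lit 78) (nat_lit 380) (nat_lit 0) (XT.lf (nat_lit 0) (nat_lit 859127855) (nat_lit 380) (nat_lit 7466551010) (nat_lit 380) (nat_lit 1682327026) (nat_lit 155) (nat_lit 4) (nat_lit 160) (nat_lit 5) (nat_lit 160) (nat_lit 4) (nat_lit 466) (nat_lit 341) (nat_lit 333)) (XT.nd (nat_lit 78) (nat_lit 304) (nat_lit 0) (XT.lf (nat_lit 0) (nat_lit 3128580082) (nat_lit 456) (nat_lit 125196898) (nat_lit 76) (nat_lit 6842688470) (nat_lit 154) (nat_lit 5) (nat_lit 160) (nat_lit 5) (nat_lit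 155) (nat_lit 4) (nat_lit 467) (nat_lit 341) (nat_lit 332)) (XT.lf (nat_lit 0) (nat_lit 8010057883) (nat_lit 380) (nat_lit 1120024680) (nat_lit 0) (nat_lit 1056451655) (nat_lit 150) (nat_lit 5) (nat_lit 155) (nat_lit 4) (nat_lit 150) (nat_lit 4) (nat_lit 468) (nat_lit 341) (nat_lit 331)))) (XT.nd (nat_lit 156) (nat_lit 684) (nat_lit 0) (XT.nd (nat_lit 78) (nat_lit 304) (nat_lit 0) (XT.lf (nat_lit 0) (nat_lit 2681808837) (nat_lit 380) (nat_lit 2158949152) (nat_lit 76) (nat_lit 5437162370) (nat_lit 145) (nat_lit 5) (nat_lit 150) (nat_lit 5) (nat_lit 146) (nat_lit 4) (nat_lit 469) (nat_lit 341) (nat_lit 330)) (XT.lf (nat_lit 0) (nat_lit 7152569638) (nat_lit 304) (nat_lit 441074738) (nat_lit 380) (nat_lit 2777491563) (nat_lit 141) (nat_lit 5) (nat_lit 145) (nat_lit 5) (nat_lit 146) (nat_lit 4) (nat_lit 470) (nat_lit 341) (nat_lit 329))) (XT.nd (nat_lit 78) (nat_lit 304) (nat_lit 0) (XT.lf (nat_lit 0) (nat_lit 2122175714) (nat_lit 380) (nat_lit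 4325962495) (nat_lit 76) (nat_lit 4017545887) (nat_lit 136) (nat_lit 5) (nat_lit 141) (nat_lit 5) (nat_lit 137) (nat_lit 4) (nat_lit 471) (nat_lit 341) (nat_lit 328)) (XT.lf (nat_lit 0) (nat_lit 5098329614) (nat_lit 304) (nat_lit 1974081395) (nat_lit 380) (nat_lit 3489549719) (nat_lit 132) (nat_lit 5) (nat_lit 136) (nat_lit 5) (nat_lit 137) (nat_lit 4) (nat_lit 472) (nat_lit 341) (nat_lit 327))))))))
noncomputable def xc4 : XT := (XT.nd (nat_lit 59046) (nat_lit 0) (nat_lit 0) (XT.nd (nat_lit 58032) (nat_lit 0) (nat_lit 4636) (XT.nd (nat_lit 468) (nat_lit 1672) (nat_lit 0) (XT.nd (nat_lit 234) (nat_lit 608) (nat_lit 0) (XT.nd (nat_lit 78) (nat_lit 608) (nat_lit 0) (XT.lf (nat_lit 0) (nat_lit 1446824976) (nat_lit 380) (nat_lit 6638046594) (nat_lit 76) (nat_lit 2575011451) (nat_lit 127) (nat_lit 5) (nat_lit 132) (nat_lit 5) (nat_lit 128) (nat_lit 4) (nat_lit 473) (nat_lit 341) (nat_lit 326)) (XT.nd (nat_lit 78) (nat_lit 380) (nat_lit 0)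 (XT.lf (nat_lit 0) (nat_lit 2899004790) (nat_lit 228) (nat_lit 3537453526) (nat_lit 304) (nat_lit 4322819002) (nat_lit 124) (nat_lit 5) (nat_lit 127) (nat_lit 5) (nat_lit 128) (nat_lit 4) (nat_lit 474) (nat_lit 341) (nat_lit 325)) (XT.lf (nat_lit 0) (nat_lit 652566011) (nat_lit 380) (nat_lit 9107327796) (nat_lit 76) (nat_lit 1100757997) (nat_lit 119) (nat_lit 5) (nat_lit 124) (nat_lit 5) (nat_lit 120) (nat_lit 4) (nat_lit 475) (nat_lit 341) (nat_lit 324)))) (XT.nd (nat_lit 78) (nat_lit 380) (nat_lit 0) (XT.lf (nat_lit 0) (nat_lit 542398867) (nat_lit 228) (nat_lit 5140104209) (nat_lit 304) (nat_lit 5280720689) (nat_lit 116) (nat_lit 5) (nat_lit 119) (nat_lit 5) (nat_lit 120) (nat_lit 4) (nat_lit 476) (nat_lit 341) (nat_lit 323)) (XT.nd (nat_lit 78) (nat_lit 380) (nat_lit 0) (XT.lf (nat_lit 0) (nat_lit 10394276831) (nat_lit 228) (nat_lit 413280473) (nat_lit 304) (nat_lit 260399493) (nat_lit 116) (nat_lit 5) (nat_lit 119) (nat_lit 5) (nat_lit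 120) (nat_lit 4) (nat_lit 477) (nat_lit 341) (nat_lit 322)) (XT.lf (nat_lit 0) (nat_lit 4819806944) (nat_lit 380) (nat_lit 1958011771) (nat_lit 76) (nat_lit 4395870188) (nat_lit 111) (nat_lit 5) (nat_lit 116) (nat_lit 5) (nat_lit 112) (nat_lit 4) (nat_lit 478) (nat_lit 341) (nat_lit 321))))) (XT.nd (nat_lit 234) (nat_lit 836) (nat_lit 0) (XT.nd (nat_lit 78) (nat_lit 608) (nat_lit 0) (XT.lf (nat_lit 0) (nat_lit 8017991241) (nat_lit 228) (nat_lit 1974020435) (nat_lit 304) (nat_lit 1289611931) (nat_lit 108) (nat_lit 5) (nat_lit 111) (nat_lit 5) (nat_lit 112) (nat_lit 4) (nat_lit 479) (nat_lit 341) (nat_lit 320)) (XT.nd (nat_lit 78) (nat_lit 228) (nat_lit 0) (XT.lf (nat_lit 0) (nat_lit 3836236118) (nat_lit 380) (nat_lit 4631656887) (nat_lit 76) (nat_lit 2923098170) (nat_lit 103) (nat_lit 5) (nat_lit 108) (nat_lit 5) (nat_lit 104) (nat_lit 4) (nat_lit 480) (nat_lit 341) (nat_lit 319)) (XT.lf (nat_lit 0) (nat_lit 5461210979) (nat_lit 228) (nat_lit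 3591610869) (nat_lit 304) (nat_lit 2449443987) (nat_lit 100) (nat_lit 5) (nat_lit 103) (nat_lit 5) (nat_lit 104) (nat_lit 4) (nat_lit 481) (nat_lit 341) (nat_lit 318)))) (XT.nd (nat_lit 156) (nat_lit 304) (nat_lit 0) (XT.nd (nat_lit 78) (nat_lit 228) (nat_lit 0) (XT.lf (nat_lit 0) (nat_lit 2724050716) (nat_lit 304) (nat_lit 7498796107) (nat_lit 76) (nat_lit 1392516059) (nat_lit 96) (nat_lit 5) (nat_lit 100) (nat_lit 5) (nat_lit 97) (nat_lit 4) (nat_lit 482) (nat_lit 341) (nat_lit 317)) (XT.lf (nat_lit 0) (nat_lit 2710703794) (nat_lit 228) (nat_lit 5274975479) (nat_lit 304) (nat_lit 3744369541) (nat_lit 93) (nat_lit 5) (nat_lit 96) (nat_lit 5) (nat_lit 97) (nat_lit 4) (nat_lit 483) (nat_lit 341) (nat_lit 316))) (XT.nd (nat_lit 78) (nat_lit 0) (nat_lit 0) (XT.lf (nat_lit 0) (nat_lit 1272602322) (nat_lit 228) (nat_lit 207430194) (nat_lit 304) (nat_lit 10366915139) (nat_lit 89) (nat_lit 5) (nat_lit 92) (nat_lit 5) (nat_lit 93) (nat_lit 5)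 (nat_lit 484) (nat_lit 341) (nat_lit 315)) (XT.lf (nat_lit 0) (nat_lit 6787533205) (nat_lit 304) (nat_lit 243950115) (nat_lit 76) (nat_lit 4933631194) (nat_lit 89) (nat_lit 5) (nat_lit 93) (nat_lit 5) (nat_lit 90) (nat_lit 4) (nat_lit 485) (nat_lit 341) (nat_lit 314)))))) (XT.nd (nat_lit 468) (nat_lit 2280) (nat_lit 0) (XT.nd (nat_lit 234) (nat_lit 1216) (nat_lit 0) (XT.nd (nat_lit 78) (nat_lit 532) (nat_lit 0) (XT.lf (nat_lit 0) (nat_lit 33069217) (nat_lit 456) (nat_lit 4535861590) (nat_lit 0) (nat_lit 33069217) (nat_lit 203) (nat_lit 5) (nat_lit 209) (nat_lit 4) (nat_lit 203) (nat_lit 4) (nat_lit 456) (nat_lit 342) (nat_lit 342)) (XT.nd (nat_lit 78) (nat_lit 532) (nat_lit 0) (XT.lf (nat_lit 0) (nat_lit 4687199001) (nat_lit 456) (nat_lit 758543531) (nat_lit 0) (nat_lit 3832507045) (nat_lit 203) (nat_lit 5) (nat_lit 209) (nat_lit 4) (nat_lit 203) (nat_lit 4) (nat_lit 457) (nat_lit 342) (nat_lit 341)) (XT.lf (nat_lit 0) (nat_lit 24460762)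 (nat_lit 532) (nat_lit 1643214505) (nat_lit 76) (nat_lit 7686735236) (nat_lit 196) (nat_lit 5) (nat_lit 203) (nat_lit 5) (nat_lit 197) (nat_lit 4) (nat_lit 458) (nat_lit 342) (nat_lit 340)))) (XT.nd (nat_lit 78) (nat_lit 836) (nat_lit 0) (XT.lf (nat_lit 0) (nat_lit 4663780837) (nat_lit 456) (nat_lit 2568898417) (nat_lit 0) (nat_lit 2198949002) (nat_lit 191) (nat_lit 5) (nat_lit 197) (nat_lit 4) (nat_lit 191) (nat_lit 4) (nat_lit 459) (nat_lit 342) (nat_lit 339)) (XT.nd (nat_lit 78) (nat_lit 456) (nat_lit 0) (XT.lf (nat_lit 0) (nat_lit 6007244328) (nat_lit 380) (nat_lit 3378888112) (nat_lit 380) (nat_lit 124453023) (nat_lit 186) (nat_lit 4) (nat_lit 191) (nat_lit 5) (nat_lit 191) (nat_lit 4) (nat_lit 460) (nat_lit 342) (nat_lit 338)) (XT.lf (nat_lit 0) (nat_lit 4535106954) (nat_lit 456) (nat_lit 4470198033) (nat_lit 0) (nat_lit 585542320) (nat_lit 180) (nat_lit 5) (nat_lit 186) (nat_lit 4) (nat_lit 180) (nat_lit 4) (nat_lit 461) (nat_lit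 342) (nat_lit 337))))) (XT.nd (nat_lit 234) (nat_lit 1140) (nat_lit 0) (XT.nd (nat_lit 78) (nat_lit 760) (nat_lit 0) (XT.lf (nat_lit 0) (nat_lit 4212321509) (nat_lit 380) (nat_lit 5076969924) (nat_lit 380) (nat_lit 383344508) (nat_lit 175) (nat_lit 4) (nat_lit 180) (nat_lit 5) (nat_lit 180) (nat_lit 4) (nat_lit 462) (nat_lit 342) (nat_lit 336)) (XT.nd (nat_lit 78) (nat_lit 380) (nat_lit 0) (XT.lf (nat_lit 0) (nat_lit 3275809444) (nat_lit 304) (nat_lit 1030579771) (nat_lit 380) (nat_lit 5449474706) (nat_lit 170) (nat_lit 5) (nat_lit 174) (nat_lit 5) (nat_lit 175) (nat_lit 4) (nat_lit 463) (nat_lit 342) (nat_lit 335)) (XT.lf (nat_lit 0) (nat_lit 2315625242) (nat_lit 380) (nat_lit 6771470476) (nat_lit 380) (nat_lit 753563842) (nat_lit 165) (nat_lit 4) (nat_lit 170) (nat_lit 5) (nat_lit 170) (nat_lit 4) (nat_lit 464) (nat_lit 342) (nat_lit 334)))) (XT.nd (nat_lit 156) (nat_lit 380) (nat_lit 0) (XT.nd (nat_lit 78) (nat_lit 380) (nat_lit 0)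 (XT.lf (nat_lit 0) (nat_lit 1320080718) (nat_lit 304) (nat_lit 2652881906) (nat_lit 380) (nat_lit 5953871692) (nat_lit 160) (nat_lit 5) (nat_lit 164) (nat_lit 5) (nat_lit 165) (nat_lit 4) (nat_lit 465) (nat_lit 342) (nat_lit 333)) (XT.lf (nat_lit 0) (nat_lit 305969722) (nat_lit 380) (nat_lit 8471660562) (nat_lit 380) (nat_lit 1237128643) (nat_lit 155) (nat_lit 4) (nat_lit 160) (nat_lit 5) (nat_lit 160) (nat_lit 4) (nat_lit 466) (nat_lit 342) (nat_lit 332))) (XT.nd (nat_lit 78) (nat_lit 304) (nat_lit 0) (XT.lf (nat_lit 0) (nat_lit 3533779058) (nat_lit 456) (nat_lit 744047907) (nat_lit 76) (nat_lit 5826016922) (nat_lit 154) (nat_lit 5) (nat_lit 160) (nat_lit 5) (nat_lit 155) (nat_lit 4) (nat_lit 467) (nat_lit 342) (nat_lit 331)) (XT.lf (nat_lit 0) (nat_lit 8370515722) (nat_lit 380) (nat_lit 1804099876) (nat_lit 0) (nat_lit 20191880) (nat_lit 150) (nat_lit 5) (nat_lit 155) (nat_lit 4) (nat_lit 150) (nat_lit 4) (nat_lit 468) (nat_lit 342)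 (nat_lit 330))))))) (XT.nd (nat_lit 1014) (nat_lit 836) (nat_lit 0) (XT.nd (nat_lit 468) (nat_lit 1824) (nat_lit 0) (XT.nd (nat_lit 234) (nat_lit 912) (nat_lit 0) (XT.nd (nat_lit 78) (nat_lit 684) (nat_lit 0) (XT.lf (nat_lit 0) (nat_lit 2990931026) (nat_lit 380) (nat_lit 2919032167) (nat_lit 76) (nat_lit 4376953563) (nat_lit 145) (nat_lit 5) (nat_lit 150) (nat_lit 5) (nat_lit 146) (nat_lit 4) (nat_lit 469) (nat_lit 342) (nat_lit 329)) (XT.nd (nat_lit 78) (nat_lit 380) (nat_lit 0) (XT.lf (nat_lit 0) (nat_lit 6326459155) (nat_lit 304) (nat_lit 1537695587) (nat_lit 380) (nat_lit 2516749830) (nat_lit 141) (nat_lit 5) (nat_lit 145) (nat_lit 5) (nat_lit 146) (nat_lit 4) (nat_lit 470) (nat_lit 342) (nat_lit 328)) (XT.lf (nat_lit 0) (nat_lit 2333162183) (nat_lit 380) (nat_lit 5233895011) (nat_lit 76) (nat_lit 2909288389) (nat_lit 136) (nat_lit 5) (nat_lit 141) (nat_lit 5) (nat_lit 137) (nat_lit 4) (nat_lit 471) (nat_lit 342) (nat_lit 327))))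 (XT.nd (nat_lit 78) (nat_lit 608) (nat_lit 0) (XT.lf (nat_lit 0) (nat_lit 4122173170) (nat_lit 304) (nat_lit 3121866866) (nat_lit 380) (nat_lit 3329369326) (nat_lit 132) (nat_lit 5) (nat_lit 136) (nat_lit 5) (nat_lit 137) (nat_lit 4) (nat_lit 472) (nat_lit 342) (nat_lit 326)) (XT.nd (nat_lit 78) (nat_lit 228) (nat_lit 0) (XT.lf (nat_lit 0) (nat_lit 1557451686) (nat_lit 380) (nat_lit 7700649384) (nat_lit 76) (nat_lit 1414158844) (nat_lit 127) (nat_lit 5) (nat_lit 132) (nat_lit 5) (nat_lit 128) (nat_lit 4) (nat_lit 473) (nat_lit 342) (nat_lit 325)) (XT.lf (nat_lit 0) (nat_lit 1765904327) (nat_lit 228) (nat_lit 4741019668) (nat_lit 304) (nat_lit 4265533435) (nat_lit 124) (nat_lit 5) (nat_lit 127) (nat_lit 5) (nat_lit 128) (nat_lit 4) (nat_lit 474) (nat_lit 342) (nat_lit 324))))) (XT.nd (nat_lit 234) (nat_lit 1216) (nat_lit 0) (XT.nd (nat_lit 78) (nat_lit 228) (nat_lit 0) (XT.lf (nat_lit 0) (nat_lit 542373595) (nat_lit 304) (nat_lit 118839403)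 (nat_lit 380) (nat_lit 10213569226) (nat_lit 119) (nat_lit 5) (nat_lit 123) (nat_lit 5) (nat_lit 124) (nat_lit 5) (nat_lit 475) (nat_lit 342) (nat_lit 323)) (XT.nd (nat_lit 78) (nat_lit 228) (nat_lit 0) (XT.lf (nat_lit 0) (nat_lit 5654255648) (nat_lit 380) (nat_lit 744863868) (nat_lit 76) (nat_lit 4578972557) (nat_lit 119) (nat_lit 5) (nat_lit 124) (nat_lit 5) (nat_lit 120) (nat_lit 4) (nat_lit 476) (nat_lit 342) (nat_lit 322)) (XT.lf (nat_lit 0) (nat_lit 9041642785) (nat_lit 228) (nat_lit 1700444528) (nat_lit 304) (nat_lit 341482243) (nat_lit 116) (nat_lit 5) (nat_lit 119) (nat_lit 5) (nat_lit 120) (nat_lit 4) (nat_lit 477) (nat_lit 342) (nat_lit 321)))) (XT.nd (nat_lit 156) (nat_lit 608) (nat_lit 0) (XT.nd (nat_lit 78) (nat_lit 228) (nat_lit 0) (XT.lf (nat_lit 0) (nat_lit 4689959296) (nat_lit 380) (nat_lit 3407322562) (nat_lit 76) (nat_lit 3093026899) (nat_lit 111) (nat_lit 5) (nat_lit 116) (nat_lit 5) (nat_lit 112) (nat_lit 4) (nat_lit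 478) (nat_lit 342) (nat_lit 320)) (XT.lf (nat_lit 0) (nat_lit 6493757404) (nat_lit 228) (nat_lit 3326735824) (nat_lit 304) (nat_lit 1478583650) (nat_lit 108) (nat_lit 5) (nat_lit 111) (nat_lit 5) (nat_lit 112) (nat_lit 4) (nat_lit 479) (nat_lit 342) (nat_lit 319))) (XT.nd (nat_lit 78) (nat_lit 228) (nat_lit 0) (XT.lf (nat_lit 0) (nat_lit 3598520504) (nat_lit 380) (nat_lit 6257622830) (nat_lit 76) (nat_lit 1553350097) (nat_lit 103) (nat_lit 5) (nat_lit 108) (nat_lit 5) (nat_lit 104) (nat_lit 4) (nat_lit 480) (nat_lit 342) (nat_lit 318)) (XT.lf (nat_lit 0) (nat_lit 3757795289) (nat_lit 228) (nat_lit 5014653477) (nat_lit 304) (nat_lit 2749172474) (nat_lit 100) (nat_lit 5) (nat_lit 103) (nat_lit 5) (nat_lit 104) (nat_lit 4) (nat_lit 481) (nat_lit 342) (nat_lit 317)))))) (XT.nd (nat_lit 57330) (nat_lit 0) (nat_lit 6460) (XT.nd (nat_lit 234) (nat_lit 228) (nat_lit 0) (XT.nd (nat_lit 78) (nat_lit 304) (nat_lit 0) (XT.lf (nat_lit 0) (nat_lit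 2326318502) (nat_lit 228) (nat_lit 49548122) (nat_lit 304) (nat_lit 9259938316) (nat_lit 96) (nat_lit 5) (nat_lit 99) (nat_lit 5) (nat_lit 100) (nat_lit 5) (nat_lit 482) (nat_lit 342) (nat_lit 316)) (XT.nd (nat_lit 78) (nat_lit 76) (nat_lit 0) (XT.lf (nat_lit 0) (nat_lit 820266080) (nat_lit 228) (nat_lit 6773202170) (nat_lit 304) (nat_lit 4157903160) (nat_lit 93) (nat_lit 5) (nat_lit 96) (nat_lit 5) (nat_lit 97) (nat_lit 4) (nat_lit 483) (nat_lit 342) (nat_lit 315)) (XT.lf (nat_lit 0) (nat_lit 1032281971) (nat_lit 304) (nat_lit 708492453) (nat_lit 76) (nat_lit 10128342336) (nat_lit 92) (nat_lit 5) (nat_lit 96) (nat_lit 5) (nat_lit 93) (nat_lit 5) (nat_lit 484) (nat_lit 342) (nat_lit 314)))) (XT.nd (nat_lit 56940) (nat_lit 0) (nat_lit 9120) (XT.lf (nat_lit 0) (nat_lit 6293860817) (nat_lit 304) (nat_lit 2302168909) (nat_lit 76) (nat_lit 3392172329) (nat_lit 89) (nat_lit 5) (nat_lit 93) (nat_lit 5) (nat_lit 90) (nat_lit 4) (nat_lit 485)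 (nat_lit 342) (nat_lit 313)) (XT.nd (nat_lit 78) (nat_lit 456) (nat_lit 0) (XT.lf (nat_lit 0) (nat_lit 474144848) (nat_lit 532) (nat_lit 3580797544) (nat_lit 0) (nat_lit 474144848) (nat_lit 215) (nat_lit 5) (nat_lit 222) (nat_lit 4) (nat_lit 215) (nat_lit 4) (nat_lit 454) (nat_lit 343) (nat_lit 343)) (XT.lf (nat_lit 0) (nat_lit 984510212) (nat_lit 456) (nat_lit 4517605969) (nat_lit 456) (nat_lit 3628384458) (nat_lit 209) (nat_lit 4) (nat_lit 215) (nat_lit 5) (nat_lit 215) (nat_lit 4) (nat_lit 455) (nat_lit 343) (nat_lit 342))))) (XT.nd (nat_lit 234) (nat_lit 1672) (nat_lit 0) (XT.nd (nat_lit 78) (nat_lit 532) (nat_lit 0) (XT.lf (nat_lit 0) (nat_lit 71579769) (nat_lit 380) (nat_lit 835641555) (nat_lit 456) (nat_lit 8297392783) (nat_lit 203) (nat_lit 5) (nat_lit 208) (nat_lit 5) (nat_lit 209) (nat_lit 4) (nat_lit 456) (nat_lit 343) (nat_lit 341)) (XT.nd (nat_lit 78) (nat_lit 532) (nat_lit 0) (XT.lf (nat_lit 0) (nat_lit 5487436308) (nat_lit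 456) (nat_lit 869218973) (nat_lit 0) (nat_lit 2923025267) (nat_lit 203) (nat_lit 5) (nat_lit 209) (nat_lit 4) (nat_lit 203) (nat_lit 4) (nat_lit 457) (nat_lit 343) (nat_lit 340)) (XT.lf (nat_lit 0) (nat_lit 776746425) (nat_lit 532) (nat_lit 1816886487) (nat_lit 76) (nat_lit 6762825717) (nat_lit 196) (nat_lit 5) (nat_lit 203) (nat_lit 5) (nat_lit 197) (nat_lit 4) (nat_lit 458) (nat_lit 343) (nat_lit 339)))) (XT.nd (nat_lit 156) (nat_lit 836) (nat_lit 0) (XT.nd (nat_lit 78) (nat_lit 456) (nat_lit 0) (XT.lf (nat_lit 0) (nat_lit 5373804446) (nat_lit 456) (nat_lit 2796039777) (nat_lit 0) (nat_lit 1264677401) (nat_lit 191) (nat_lit 5) (nat_lit 197) (nat_lit 4) (nat_lit 191) (nat_lit 4) (nat_lit 459) (nat_lit 343) (nat_lit 338)) (XT.lf (nat_lit 0) (nat_lit 538533609) (nat_lit 456) (nat_lit 3795409991) (nat_lit 76) (nat_lit 5180189601) (nat_lit 185) (nat_lit 5) (nat_lit 191) (nat_lit 5) (nat_lit 186) (nat_lit 4) (nat_lit 460) (nat_lit 343) (nat_lit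 337))) (XT.nd (nat_lit 78) (nat_lit 456) (nat_lit 0) (XT.lf (nat_lit 0) (nat_lit 4772960323) (nat_lit 380) (nat_lit 383054629) (nat_lit 456) (nat_lit 4439172862) (nat_lit 180) (nat_lit 5) (nat_lit 185) (nat_lit 5) (nat_lit 186) (nat_lit 4) (nat_lit 461) (nat_lit 343) (nat_lit 336)) (XT.lf (nat_lit 0) (nat_lit 190644103) (nat_lit 456) (nat_lit 5875928971) (nat_lit 76) (nat_lit 3611163490) (nat_lit 174) (nat_lit 5) (nat_lit 180) (nat_lit 5) (nat_lit 175) (nat_lit 4) (nat_lit 462) (nat_lit 343) (nat_lit 335))))))))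
noncomputable def xc5 : XT := (XT.nd (nat_lit 58734) (nat_lit 0) (nat_lit 1064) (XT.nd (nat_lit 1014) (nat_lit 2584) (nat_lit 0) (XT.nd (nat_lit 468) (nat_lit 2052) (nat_lit 0) (XT.nd (nat_lit 234) (nat_lit 760) (nat_lit 0) (XT.nd (nat_lit 78) (nat_lit 760) (nat_lit 0) (XT.lf (nat_lit 0) (nat_lit 2797006675) (nat_lit 304) (nat_lit 2041213488) (nat_lit 380) (nat_lit 4923437203) (nat_lit 170) (nat_lit 5) (nat_lit 174) (nat_lit 5) (nat_lit 175) (nat_lit 4) (nat_lit 463) (nat_lit 343) (nat_lit 334)) (XT.nd (nat_lit 78) (nat_lit 380) (nat_lit 0) (XT.lf (nat_lit 0) (nat_lit 1775908619) (nat_lit 380) (nat_lit 7799114731) (nat_lit 380) (nat_lit 272307722) (nat_lit 165) (nat_lit 4) (nat_lit 170) (nat_lit 5) (nat_lit 170) (nat_lit 4) (nat_lit 464) (nat_lit 343) (nat_lit 333)) (XT.lf (nat_lit 0) (nat_lit 707845480) (nat_lit 304) (nat_lit 3702338313) (nat_lit 380) (nat_lit 5524014006) (nat_lit 160) (nat_lit 5) (nat_lit 164) (nat_lit 5) (nat_lit 165)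 (nat_lit 4) (nat_lit 465) (nat_lit 343) (nat_lit 332)))) (XT.nd (nat_lit 78) (nat_lit 760) (nat_lit 0) (XT.lf (nat_lit 0) (nat_lit 9172476282) (nat_lit 380) (nat_lit 365694276) (nat_lit 0) (nat_lit 484799356) (nat_lit 160) (nat_lit 5) (nat_lit 165) (nat_lit 4) (nat_lit 160) (nat_lit 4) (nat_lit 466) (nat_lit 343) (nat_lit 331)) (XT.nd (nat_lit 78) (nat_lit 304) (nat_lit 0) (XT.lf (nat_lit 0) (nat_lit 3879430730) (nat_lit 456) (nat_lit 1486275563) (nat_lit 76) (nat_lit 4747016626) (nat_lit 154) (nat_lit 5) (nat_lit 160) (nat_lit 5) (nat_lit 155) (nat_lit 4) (nat_lit 467) (nat_lit 343) (nat_lit 330)) (XT.lf (nat_lit 0) (nat_lit 7584162834) (nat_lit 304) (nat_lit 1093800160) (nat_lit 380) (nat_lit 1526487603) (nat_lit 150) (nat_lit 5) (nat_lit 154) (nat_lit 5) (nat_lit 155) (nat_lit 4) (nat_lit 468) (nat_lit 343) (nat_lit 329))))) (XT.nd (nat_lit 234) (nat_lit 988) (nat_lit 0) (XT.nd (nat_lit 78) (nat_lit 684) (nat_lit 0) (XT.lf (nat_lit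 0) (nat_lit 3239074365) (nat_lit 380) (nat_lit 3805806461) (nat_lit 76) (nat_lit 3252555479) (nat_lit 145) (nat_lit 5) (nat_lit 150) (nat_lit 5) (nat_lit 146) (nat_lit 4) (nat_lit 469) (nat_lit 343) (nat_lit 328)) (XT.nd (nat_lit 78) (nat_lit 380) (nat_lit 0) (XT.lf (nat_lit 0) (nat_lit 5373070326) (nat_lit 304) (nat_lit 2700441482) (nat_lit 380) (nat_lit 2318688038) (nat_lit 141) (nat_lit 5) (nat_lit 145) (nat_lit 5) (nat_lit 146) (nat_lit 4) (nat_lit 470) (nat_lit 343) (nat_lit 327)) (XT.lf (nat_lit 0) (nat_lit 2481668819) (nat_lit 380) (nat_lit 6271937527) (nat_lit 76) (nat_lit 1734947944) (nat_lit 136) (nat_lit 5) (nat_lit 141) (nat_lit 5) (nat_lit 137) (nat_lit 4) (nat_lit 471) (nat_lit 343) (nat_lit 326)))) (XT.nd (nat_lit 156) (nat_lit 304) (nat_lit 0) (XT.nd (nat_lit 78) (nat_lit 380) (nat_lit 0) (XT.lf (nat_lit 0) (nat_lit 3015278770) (nat_lit 304) (nat_lit 4337709068) (nat_lit 380) (nat_lit 3233421409) (nat_lit 132) (nat_lit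 5) (nat_lit 136) (nat_lit 5) (nat_lit 137) (nat_lit 4) (nat_lit 472) (nat_lit 343) (nat_lit 325)) (XT.lf (nat_lit 0) (nat_lit 1604026466) (nat_lit 380) (nat_lit 8896890679) (nat_lit 76) (nat_lit 185292488) (nat_lit 127) (nat_lit 5) (nat_lit 132) (nat_lit 5) (nat_lit 128) (nat_lit 4) (nat_lit 473) (nat_lit 343) (nat_lit 324))) (XT.nd (nat_lit 78) (nat_lit 76) (nat_lit 0) (XT.lf (nat_lit 0) (nat_lit 498494791) (nat_lit 228) (nat_lit 6014614151) (nat_lit 304) (nat_lit 4274106005) (nat_lit 124) (nat_lit 5) (nat_lit 127) (nat_lit 5) (nat_lit 128) (nat_lit 4) (nat_lit 474) (nat_lit 343) (nat_lit 323)) (XT.lf (nat_lit 0) (nat_lit 617138089) (nat_lit 304) (nat_lit 801464711) (nat_lit 76) (nat_lit 9471650349) (nat_lit 123) (nat_lit 5) (nat_lit 127) (nat_lit 5) (nat_lit 124) (nat_lit 5) (nat_lit 475) (nat_lit 343) (nat_lit 322)))))) (XT.nd (nat_lit 468) (nat_lit 836) (nat_lit 0) (XT.nd (nat_lit 234) (nat_lit 836) (nat_lit 0) (XT.nd (nat_lit 78)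 (nat_lit 608) (nat_lit 0) (XT.lf (nat_lit 0) (nat_lit 5564472121) (nat_lit 380) (nat_lit 2161200685) (nat_lit 76) (nat_lit 3268804365) (nat_lit 119) (nat_lit 5) (nat_lit 124) (nat_lit 5) (nat_lit 120) (nat_lit 4) (nat_lit 476) (nat_lit 343) (nat_lit 321)) (XT.nd (nat_lit 78) (nat_lit 380) (nat_lit 0) (XT.lf (nat_lit 0) (nat_lit 7552098833) (nat_lit 228) (nat_lit 3059198574) (nat_lit 304) (nat_lit 489477376) (nat_lit 116) (nat_lit 5) (nat_lit 119) (nat_lit 5) (nat_lit 120) (nat_lit 4) (nat_lit 477) (nat_lit 343) (nat_lit 320)) (XT.lf (nat_lit 0) (nat_lit 4493330280) (nat_lit 380) (nat_lit 4996583107) (nat_lit 76) (nat_lit 1718631311) (nat_lit 111) (nat_lit 5) (nat_lit 116) (nat_lit 5) (nat_lit 112) (nat_lit 4) (nat_lit 478) (nat_lit 343) (nat_lit 319)))) (XT.nd (nat_lit 78) (nat_lit 608) (nat_lit 0) (XT.lf (nat_lit 0) (nat_lit 4828805377) (nat_lit 228) (nat_lit 4753097427) (nat_lit 304) (nat_lit 1736249242) (nat_lit 108) (nat_lit 5) (nat_lit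 111) (nat_lit 5) (nat_lit 112) (nat_lit 4) (nat_lit 479) (nat_lit 343) (nat_lit 318)) (XT.nd (nat_lit 78) (nat_lit 228) (nat_lit 0) (XT.lf (nat_lit 0) (nat_lit 3292223095) (nat_lit 380) (nat_lit 8027428562) (nat_lit 76) (nat_lit 109990624) (nat_lit 103) (nat_lit 5) (nat_lit 108) (nat_lit 5) (nat_lit 104) (nat_lit 4) (nat_lit 480) (nat_lit 343) (nat_lit 317)) (XT.lf (nat_lit 0) (nat_lit 1909723187) (nat_lit 228) (nat_lit 6513451060) (nat_lit 304) (nat_lit 3119455385) (nat_lit 100) (nat_lit 5) (nat_lit 103) (nat_lit 5) (nat_lit 104) (nat_lit 4) (nat_lit 481) (nat_lit 343) (nat_lit 316))))) (XT.nd (nat_lit 234) (nat_lit 228) (nat_lit 0) (XT.nd (nat_lit 78) (nat_lit 304) (nat_lit 0) (XT.lf (nat_lit 0) (nat_lit 380032167) (nat_lit 228) (nat_lit 1586848586) (nat_lit 304) (nat_lit 9690851847) (nat_lit 96) (nat_lit 5) (nat_lit 99) (nat_lit 5) (nat_lit 100) (nat_lit 5) (nat_lit 482) (nat_lit 343) (nat_lit 315)) (XT.nd (nat_lit 78) (nat_lit 304)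 (nat_lit 0) (XT.lf (nat_lit 0) (nat_lit 7138360537) (nat_lit 304) (nat_lit 1202916492) (nat_lit 76) (nat_lit 3432944478) (nat_lit 96) (nat_lit 5) (nat_lit 100) (nat_lit 5) (nat_lit 97) (nat_lit 4) (nat_lit 483) (nat_lit 343) (nat_lit 314)) (XT.lf (nat_lit 0) (nat_lit 521863667) (nat_lit 304) (nat_lit 2821758009) (nat_lit 76) (nat_lit 8549181826) (nat_lit 92) (nat_lit 5) (nat_lit 96) (nat_lit 5) (nat_lit 93) (nat_lit 5) (nat_lit 484) (nat_lit 343) (nat_lit 313)))) (XT.nd (nat_lit 56862) (nat_lit 0) (nat_lit 9576) (XT.nd (nat_lit 56784) (nat_lit 0) (nat_lit 10564) (XT.lf (nat_lit 0) (nat_lit 5728379499) (nat_lit 304) (nat_lit 4511330277) (nat_lit 76) (nat_lit 1773280281) (nat_lit 89) (nat_lit 5) (nat_lit 93) (nat_lit 5) (nat_lit 90) (nat_lit 4) (nat_lit 485) (nat_lit 343) (nat_lit 312)) (XT.lf (nat_lit 0) (nat_lit 924417590) (nat_lit 532) (nat_lit 2609468770) (nat_lit 0) (nat_lit 924417590) (nat_lit 228) (nat_lit 5) (nat_lit 235) (nat_lit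 4) (nat_lit 228) (nat_lit 4) (nat_lit 452) (nat_lit 344) (nat_lit 344))) (XT.nd (nat_lit 78) (nat_lit 532) (nat_lit 0) (XT.lf (nat_lit 0) (nat_lit 2773487174) (nat_lit 456) (nat_lit 3569293297) (nat_lit 456) (nat_lit 2644147237) (nat_lit 222) (nat_lit 4) (nat_lit 228) (nat_lit 5) (nat_lit 228) (nat_lit 4) (nat_lit 453) (nat_lit 344) (nat_lit 343)) (XT.lf (nat_lit 0) (nat_lit 1819535938) (nat_lit 532) (nat_lit 7216045253) (nat_lit 0) (nat_lit 23308485) (nat_lit 215) (nat_lit 5) (nat_lit 222) (nat_lit 4) (nat_lit 215) (nat_lit 4) (nat_lit 454) (nat_lit 344) (nat_lit 342))))))) (XT.nd (nat_lit 1014) (nat_lit 3876) (nat_lit 0) (XT.nd (nat_lit 468) (nat_lit 2356) (nat_lit 0) (XT.nd (nat_lit 234) (nat_lit 1368) (nat_lit 0) (XT.nd (nat_lit 78) (nat_lit 456) (nat_lit 0) (XT.lf (nat_lit 0) (nat_lit 875244491) (nat_lit 456) (nat_lit 5462349974) (nat_lit 456) (nat_lit 2794336727) (nat_lit 209) (nat_lit 4) (nat_lit 215) (nat_lit 5) (nat_lit 215)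 (nat_lit 4) (nat_lit 455) (nat_lit 344) (nat_lit 341)) (XT.nd (nat_lit 78) (nat_lit 380) (nat_lit 0) (XT.lf (nat_lit 0) (nat_lit 1694920300) (nat_lit 532) (nat_lit 98966196) (nat_lit 76) (nat_lit 7412758061) (nat_lit 208) (nat_lit 5) (nat_lit 215) (nat_lit 5) (nat_lit 209) (nat_lit 4) (nat_lit 456) (nat_lit 344) (nat_lit 340)) (XT.lf (nat_lit 0) (nat_lit 6233532784) (nat_lit 456) (nat_lit 1090613258) (nat_lit 0) (nat_lit 1958397006) (nat_lit 203) (nat_lit 5) (nat_lit 209) (nat_lit 4) (nat_lit 203) (nat_lit 4) (nat_lit 457) (nat_lit 344) (nat_lit 339)))) (XT.nd (nat_lit 78) (nat_lit 836) (nat_lit 0) (XT.lf (nat_lit 0) (nat_lit 1474147707) (nat_lit 532) (nat_lit 2102752727) (nat_lit 76) (nat_lit 5783045885) (nat_lit 196) (nat_lit 5) (nat_lit 203) (nat_lit 5) (nat_lit 197) (nat_lit 4) (nat_lit 458) (nat_lit 344) (nat_lit 338)) (XT.nd (nat_lit 78) (nat_lit 456) (nat_lit 0) (XT.lf (nat_lit 0) (nat_lit 6028516807) (nat_lit 456) (nat_lit 3136863157)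 (nat_lit 0) (nat_lit 273483129) (nat_lit 191) (nat_lit 5) (nat_lit 197) (nat_lit 4) (nat_lit 191) (nat_lit 4) (nat_lit 459) (nat_lit 344) (nat_lit 337)) (XT.lf (nat_lit 0) (nat_lit 1143806441) (nat_lit 456) (nat_lit 4203486663) (nat_lit 76) (nat_lit 4171828480) (nat_lit 185) (nat_lit 5) (nat_lit 191) (nat_lit 5) (nat_lit 186) (nat_lit 4) (nat_lit 460) (nat_lit 344) (nat_lit 336))))) (XT.nd (nat_lit 234) (nat_lit 1216) (nat_lit 0) (XT.nd (nat_lit 78) (nat_lit 760) (nat_lit 0) (XT.lf (nat_lit 0) (nat_lit 4305686819) (nat_lit 380) (nat_lit 1418928664) (nat_lit 456) (nat_lit 3876294159) (nat_lit 180) (nat_lit 5) (nat_lit 185) (nat_lit 5) (nat_lit 186) (nat_lit 4) (nat_lit 461) (nat_lit 344) (nat_lit 335)) (XT.nd (nat_lit 78) (nat_lit 304) (nat_lit 0) (XT.lf (nat_lit 0) (nat_lit 702261223) (nat_lit 456) (nat_lit 6412322339) (nat_lit 76) (nat_lit 2569679325) (nat_lit 174) (nat_lit 5) (nat_lit 180) (nat_lit 5) (nat_lit 175) (nat_lit 4) (nat_lit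 462) (nat_lit 344) (nat_lit 334)) (XT.lf (nat_lit 0) (nat_lit 2199423226) (nat_lit 304) (nat_lit 3113179907) (nat_lit 380) (nat_lit 4456325239) (nat_lit 170) (nat_lit 5) (nat_lit 174) (nat_lit 5) (nat_lit 175) (nat_lit 4) (nat_lit 463) (nat_lit 344) (nat_lit 333)))) (XT.nd (nat_lit 156) (nat_lit 760) (nat_lit 0) (XT.nd (nat_lit 78) (nat_lit 0) (nat_lit 0) (XT.lf (nat_lit 0) (nat_lit 147535620) (nat_lit 456) (nat_lit 8740637120) (nat_lit 76) (nat_lit 967298317) (nat_lit 164) (nat_lit 5) (nat_lit 170) (nat_lit 5) (nat_lit 165) (nat_lit 4) (nat_lit 464) (nat_lit 344) (nat_lit 332)) (XT.lf (nat_lit 0) (nat_lit 4788773546) (nat_lit 456) (nat_lit 26041191) (nat_lit 76) (nat_lit 5128241332) (nat_lit 164) (nat_lit 5) (nat_lit 170) (nat_lit 5) (nat_lit 165) (nat_lit 4) (nat_lit 465) (nat_lit 344) (nat_lit 331))) (XT.nd (nat_lit 78) (nat_lit 456) (nat_lit 0) (XT.lf (nat_lit 0) (nat_lit 8873028434) (nat_lit 304) (nat_lit 641893286) (nat_lit 380)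 (nat_lit 517629350) (nat_lit 160) (nat_lit 5) (nat_lit 164) (nat_lit 5) (nat_lit 165) (nat_lit 4) (nat_lit 466) (nat_lit 344) (nat_lit 330)) (XT.lf (nat_lit 0) (nat_lit 4165670645) (nat_lit 456) (nat_lit 2352170937) (nat_lit 76) (nat_lit 3605264445) (nat_lit 154) (nat_lit 5) (nat_lit 160) (nat_lit 5) (nat_lit 155) (nat_lit 4) (nat_lit 467) (nat_lit 344) (nat_lit 329)))))) (XT.nd (nat_lit 468) (nat_lit 1824) (nat_lit 0) (XT.nd (nat_lit 234) (nat_lit 1064) (nat_lit 0) (XT.nd (nat_lit 78) (nat_lit 684) (nat_lit 0) (XT.lf (nat_lit 0) (nat_lit 6653241740) (nat_lit 304) (nat_lit 2272726764) (nat_lit 380) (nat_lit 1289629890) (nat_lit 150) (nat_lit 5) (nat_lit 154) (nat_lit 5) (nat_lit 155) (nat_lit 4) (nat_lit 468) (nat_lit 344) (nat_lit 328)) (XT.nd (nat_lit 78) (nat_lit 304) (nat_lit 0) (XT.lf (nat_lit 0) (nat_lit 3426336166) (nat_lit 380) (nat_lit 4819619790) (nat_lit 76) (nat_lit 2063527177) (nat_lit 145) (nat_lit 5) (nat_lit 150) (nat_lit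 5) (nat_lit 146) (nat_lit 4) (nat_lit 469) (nat_lit 344) (nat_lit 327)) (XT.lf (nat_lit 0) (nat_lit 4292029275) (nat_lit 304) (nat_lit 3929768401) (nat_lit 380) (nat_lit 2183228518) (nat_lit 141) (nat_lit 5) (nat_lit 145) (nat_lit 5) (nat_lit 146) (nat_lit 4) (nat_lit 470) (nat_lit 344) (nat_lit 326)))) (XT.nd (nat_lit 78) (nat_lit 684) (nat_lit 0) (XT.lf (nat_lit 0) (nat_lit 2567753860) (nat_lit 380) (nat_lit 7440497119) (nat_lit 76) (nat_lit 494064027) (nat_lit 136) (nat_lit 5) (nat_lit 141) (nat_lit 5) (nat_lit 137) (nat_lit 4) (nat_lit 471) (nat_lit 344) (nat_lit 325)) (XT.nd (nat_lit 78) (nat_lit 380) (nat_lit 0) (XT.lf (nat_lit 0) (nat_lit 1777212337) (nat_lit 304) (nat_lit 5622084799) (nat_lit 380) (nat_lit 3201668341) (nat_lit 132) (nat_lit 5) (nat_lit 136) (nat_lit 5) (nat_lit 137) (nat_lit 4) (nat_lit 472) (nat_lit 344) (nat_lit 324)) (XT.lf (nat_lit 0) (nat_lit 467035487) (nat_lit 304) (nat_lit 1126848342) (nat_lit 380) (nat_lit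 9107707497) (nat_lit 127) (nat_lit 5) (nat_lit 131) (nat_lit 5) (nat_lit 132) (nat_lit 5) (nat_lit 473) (nat_lit 344) (nat_lit 323))))) (XT.nd (nat_lit 234) (nat_lit 1216) (nat_lit 0) (XT.nd (nat_lit 78) (nat_lit 608) (nat_lit 0) (XT.lf (nat_lit 0) (nat_lit 6460883138) (nat_lit 380) (nat_lit 891868380) (nat_lit 76) (nat_lit 3450686786) (nat_lit 127) (nat_lit 5) (nat_lit 132) (nat_lit 5) (nat_lit 128) (nat_lit 4) (nat_lit 474) (nat_lit 344) (nat_lit 322)) (XT.nd (nat_lit 78) (nat_lit 304) (nat_lit 0) (XT.lf (nat_lit 0) (nat_lit 512216197) (nat_lit 304) (nat_lit 2273080507) (nat_lit 76) (nat_lit 8121936099) (nat_lit 123) (nat_lit 5) (nat_lit 127) (nat_lit 5) (nat_lit 124) (nat_lit 5) (nat_lit 475) (nat_lit 344) (nat_lit 321)) (XT.lf (nat_lit 0) (nat_lit 5409595673) (nat_lit 380) (nat_lit 3714280666) (nat_lit 76) (nat_lit 1888579576) (nat_lit 119) (nat_lit 5) (nat_lit 124) (nat_lit 5) (nat_lit 120) (nat_lit 4) (nat_lit 476) (nat_lit 344)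 (nat_lit 320)))) (XT.nd (nat_lit 156) (nat_lit 608) (nat_lit 0) (XT.nd (nat_lit 78) (nat_lit 380) (nat_lit 0) (XT.lf (nat_lit 0) (nat_lit 5925060838) (nat_lit 228) (nat_lit 4490075455) (nat_lit 304) (nat_lit 704442927) (nat_lit 116) (nat_lit 5) (nat_lit 119) (nat_lit 5) (nat_lit 120) (nat_lit 4) (nat_lit 477) (nat_lit 344) (nat_lit 319)) (XT.lf (nat_lit 0) (nat_lit 4229842785) (nat_lit 380) (nat_lit 6726416644) (nat_lit 76) (nat_lit 272144446) (nat_lit 111) (nat_lit 5) (nat_lit 116) (nat_lit 5) (nat_lit 112) (nat_lit 4) (nat_lit 478) (nat_lit 344) (nat_lit 318))) (XT.nd (nat_lit 78) (nat_lit 380) (nat_lit 0) (XT.lf (nat_lit 0) (nat_lit 3022482237) (nat_lit 228) (nat_lit 6253664603) (nat_lit 304) (nat_lit 2062709753) (nat_lit 108) (nat_lit 5) (nat_lit 111) (nat_lit 5) (nat_lit 112) (nat_lit 4) (nat_lit 479) (nat_lit 344) (nat_lit 317)) (XT.lf (nat_lit 0) (nat_lit 1500232126) (nat_lit 304) (nat_lit 1426251819) (nat_lit 380) (nat_lit 8524776477)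 (nat_lit 103) (nat_lit 5) (nat_lit 107) (nat_lit 5) (nat_lit 108) (nat_lit 5) (nat_lit 480) (nat_lit 344) (nat_lit 316))))))))
noncomputable def xc6 : XT := (XT.nd (nat_lit 58578) (nat_lit 0) (nat_lit 0) (XT.nd (nat_lit 57564) (nat_lit 0) (nat_lit 3952) (XT.nd (nat_lit 57018) (nat_lit 0) (nat_lit 8664) (XT.nd (nat_lit 234) (nat_lit 532) (nat_lit 0) (XT.nd (nat_lit 78) (nat_lit 532) (nat_lit 0) (XT.lf (nat_lit 0) (nat_lit 8005404952) (nat_lit 380) (nat_lit 82631926) (nat_lit 76) (nat_lit 3477251500) (nat_lit 103) (nat_lit 5) (nat_lit 108) (nat_lit 5) (nat_lit 104) (nat_lit 4) (nat_lit 481) (nat_lit 344) (nat_lit 315)) (XT.nd (nat_lit 78) (nat_lit 228) (nat_lit 0) (XT.lf (nat_lit 0) (nat_lit 1498897976) (nat_lit 304) (nat_lit 1691235334) (nat_lit 76) (nat_lit 8490981847) (nat_lit 99) (nat_lit 5) (nat_lit 103) (nat_lit 5) (nat_lit 100) (nat_lit 5) (nat_lit 482) (nat_lit 344) (nat_lit 314)) (XT.lf (nat_lit 0) (nat_lit 6618557196) (nat_lit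 304) (nat_lit 3362910667) (nat_lit 76) (nat_lit 1817172613) (nat_lit 96) (nat_lit 5) (nat_lit 100) (nat_lit 5) (nat_lit 97) (nat_lit 4) (nat_lit 483) (nat_lit 344) (nat_lit 313)))) (XT.nd (nat_lit 78) (nat_lit 304) (nat_lit 0) (XT.lf (nat_lit 0) (nat_lit 6833068416) (nat_lit 228) (nat_lit 5024627828) (nat_lit 304) (nat_lit 60478323) (nat_lit 93) (nat_lit 5) (nat_lit 96) (nat_lit 5) (nat_lit 97) (nat_lit 4) (nat_lit 484) (nat_lit 344) (nat_lit 312)) (XT.nd (nat_lit 56628) (nat_lit 0) (nat_lit 11628) (XT.lf (nat_lit 0) (nat_lit 5090867494) (nat_lit 304) (nat_lit 6872300557) (nat_lit 76) (nat_lit 76320189) (nat_lit 89) (nat_lit 5) (nat_lit 93) (nat_lit 5) (nat_lit 90) (nat_lit 4) (nat_lit 485) (nat_lit 344) (nat_lit 311)) (XT.lf (nat_lit 0) (nat_lit 1384428070) (nat_lit 532) (nat_lit 1620780530) (nat_lit 0) (nat_lit 1384428070) (nat_lit 242) (nat_lit 5) (nat_lit 249) (nat_lit 4) (nat_lit 242) (nat_lit 4) (nat_lit 450) (nat_lit 345) (nat_lit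 345))))) (XT.nd (nat_lit 234) (nat_lit 1444) (nat_lit 0) (XT.nd (nat_lit 78) (nat_lit 988) (nat_lit 0) (XT.lf (nat_lit 0) (nat_lit 4600440712) (nat_lit 532) (nat_lit 2604841811) (nat_lit 532) (nat_lit 1642319850) (nat_lit 235) (nat_lit 4) (nat_lit 242) (nat_lit 5) (nat_lit 242) (nat_lit 4) (nat_lit 451) (nat_lit 345) (nat_lit 344)) (XT.nd (nat_lit 78) (nat_lit 456) (nat_lit 0) (XT.lf (nat_lit 0) (nat_lit 2757072252) (nat_lit 532) (nat_lit 5271966677) (nat_lit 0) (nat_lit 888277210) (nat_lit 228) (nat_lit 5) (nat_lit 235) (nat_lit 4) (nat_lit 228) (nat_lit 4) (nat_lit 452) (nat_lit 345) (nat_lit 343)) (XT.lf (nat_lit 0) (nat_lit 2667073048) (nat_lit 456) (nat_lit 4548536025) (nat_lit 456) (nat_lit 1772735042) (nat_lit 222) (nat_lit 4) (nat_lit 228) (nat_lit 5) (nat_lit 228) (nat_lit 4) (nat_lit 453) (nat_lit 345) (nat_lit 342)))) (XT.nd (nat_lit 156) (nat_lit 456) (nat_lit 0) (XT.nd (nat_lit 78) (nat_lit 456) (nat_lit 0) (XT.lf (nat_lit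 0) (nat_lit 1675204714) (nat_lit 456) (nat_lit 968472121) (nat_lit 532) (nat_lit 6417232945) (nat_lit 215) (nat_lit 5) (nat_lit 221) (nat_lit 5) (nat_lit 222) (nat_lit 4) (nat_lit 454) (nat_lit 345) (nat_lit 341)) (XT.lf (nat_lit 0) (nat_lit 656670201) (nat_lit 456) (nat_lit 6462986961) (nat_lit 456) (nat_lit 2015135698) (nat_lit 209) (nat_lit 4) (nat_lit 215) (nat_lit 5) (nat_lit 215) (nat_lit 4) (nat_lit 455) (nat_lit 345) (nat_lit 340))) (XT.nd (nat_lit 78) (nat_lit 380) (nat_lit 0) (XT.lf (nat_lit 0) (nat_lit 2429641844) (nat_lit 532) (nat_lit 377908027) (nat_lit 76) (nat_lit 6402540374) (nat_lit 208) (nat_lit 5) (nat_lit 215) (nat_lit 5) (nat_lit 209) (nat_lit 4) (nat_lit 456) (nat_lit 345) (nat_lit 339)) (XT.lf (nat_lit 0) (nat_lit 6925781016) (nat_lit 456) (nat_lit 1422813210) (nat_lit 0) (nat_lit 938243977) (nat_lit 203) (nat_lit 5) (nat_lit 209) (nat_lit 4) (nat_lit 203) (nat_lit 4) (nat_lit 457) (nat_lit 345) (nat_lit 338))))))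 (XT.nd (nat_lit 468) (nat_lit 2204) (nat_lit 0) (XT.nd (nat_lit 234) (nat_lit 1140) (nat_lit 0) (XT.nd (nat_lit 78) (nat_lit 836) (nat_lit 0) (XT.lf (nat_lit 0) (nat_lit 2116938100) (nat_lit 532) (nat_lit 2500925330) (nat_lit 76) (nat_lit 4747011512) (nat_lit 196) (nat_lit 5) (nat_lit 203) (nat_lit 5) (nat_lit 197) (nat_lit 4) (nat_lit 458) (nat_lit 345) (nat_lit 337)) (XT.nd (nat_lit 78) (nat_lit 456) (nat_lit 0) (XT.lf (nat_lit 0) (nat_lit 5847951345) (nat_lit 380) (nat_lit 785322157) (nat_lit 456) (nat_lit 2811278887) (nat_lit 191) (nat_lit 5) (nat_lit 196) (nat_lit 5) (nat_lit 197) (nat_lit 4) (nat_lit 459) (nat_lit 345) (nat_lit 336)) (XT.lf (nat_lit 0) (nat_lit 1693235058) (nat_lit 456) (nat_lit 4726923150) (nat_lit 76) (nat_lit 3105410520) (nat_lit 185) (nat_lit 5) (nat_lit 191) (nat_lit 5) (nat_lit 186) (nat_lit 4) (nat_lit 460) (nat_lit 345) (nat_lit 335)))) (XT.nd (nat_lit 78) (nat_lit 760) (nat_lit 0) (XT.lf (nat_lit 0) (nat_lit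 3722574815) (nat_lit 380) (nat_lit 2514704461) (nat_lit 456) (nat_lit 3370812806) (nat_lit 180) (nat_lit 5) (nat_lit 185) (nat_lit 5) (nat_lit 186) (nat_lit 4) (nat_lit 461) (nat_lit 345) (nat_lit 334)) (XT.nd (nat_lit 78) (nat_lit 304) (nat_lit 0) (XT.lf (nat_lit 0) (nat_lit 1156735118) (nat_lit 456) (nat_lit 7067215960) (nat_lit 76) (nat_lit 1468316171) (nat_lit 174) (nat_lit 5) (nat_lit 180) (nat_lit 5) (nat_lit 175) (nat_lit 4) (nat_lit 462) (nat_lit 345) (nat_lit 333)) (XT.lf (nat_lit 0) (nat_lit 1482824752) (nat_lit 304) (nat_lit 4246899407) (nat_lit 380) (nat_lit 4047955632) (nat_lit 170) (nat_lit 5) (nat_lit 174) (nat_lit 5) (nat_lit 175) (nat_lit 4) (nat_lit 463) (nat_lit 345) (nat_lit 332))))) (XT.nd (nat_lit 234) (nat_lit 1444) (nat_lit 0) (XT.nd (nat_lit 78) (nat_lit 304) (nat_lit 0) (XT.lf (nat_lit 0) (nat_lit 330556857) (nat_lit 380) (nat_lit 175883556) (nat_lit 456) (nat_lit 9358611214) (nat_lit 164) (nat_lit 5) (nat_lit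 169) (nat_lit 5) (nat_lit 170) (nat_lit 5) (nat_lit 464) (nat_lit 345) (nat_lit 331)) (XT.nd (nat_lit 78) (nat_lit 304) (nat_lit 0) (XT.lf (nat_lit 0) (nat_lit 5114098716) (nat_lit 456) (nat_lit 871325990) (nat_lit 76) (nat_lit 3967883525) (nat_lit 164) (nat_lit 5) (nat_lit 170) (nat_lit 5) (nat_lit 165) (nat_lit 4) (nat_lit 465) (nat_lit 345) (nat_lit 330)) (XT.lf (nat_lit 0) (nat_lit 7964286993) (nat_lit 304) (nat_lit 1838258107) (nat_lit 380) (nat_lit 241012168) (nat_lit 160) (nat_lit 5) (nat_lit 164) (nat_lit 5) (nat_lit 165) (nat_lit 4) (nat_lit 466) (nat_lit 345) (nat_lit 329)))) (XT.nd (nat_lit 156) (nat_lit 684) (nat_lit 0) (XT.nd (nat_lit 78) (nat_lit 304) (nat_lit 0) (XT.lf (nat_lit 0) (nat_lit 4392611056) (nat_lit 456) (nat_lit 3342073594) (nat_lit 76) (nat_lit 2400312632) (nat_lit 154) (nat_lit 5) (nat_lit 160) (nat_lit 5) (nat_lit 155) (nat_lit 4) (nat_lit 467) (nat_lit 345) (nat_lit 328)) (XT.lf (nat_lit 0) (nat_lit 5597714751)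 (nat_lit 304) (nat_lit 3516781914) (nat_lit 380) (nat_lit 1113761229) (nat_lit 150) (nat_lit 5) (nat_lit 154) (nat_lit 5) (nat_lit 155) (nat_lit 4) (nat_lit 468) (nat_lit 345) (nat_lit 327))) (XT.nd (nat_lit 78) (nat_lit 304) (nat_lit 0) (XT.lf (nat_lit 0) (nat_lit 3552789866) (nat_lit 380) (nat_lit 5960869728) (nat_lit 76) (nat_lit 809402373) (nat_lit 145) (nat_lit 5) (nat_lit 150) (nat_lit 5) (nat_lit 146) (nat_lit 4) (nat_lit 469) (nat_lit 345) (nat_lit 326)) (XT.lf (nat_lit 0) (nat_lit 3082912064) (nat_lit 304) (nat_lit 5226158433) (nat_lit 380) (nat_lit 2110318147) (nat_lit 141) (nat_lit 5) (nat_lit 145) (nat_lit 5) (nat_lit 146) (nat_lit 4) (nat_lit 470) (nat_lit 345) (nat_lit 325))))))) (XT.nd (nat_lit 1014) (nat_lit 532) (nat_lit 0) (XT.nd (nat_lit 468) (nat_lit 1748) (nat_lit 0) (XT.nd (nat_lit 234) (nat_lit 912) (nat_lit 0) (XT.nd (nat_lit 78) (nat_lit 380) (nat_lit 0) (XT.lf (nat_lit 0) (nat_lit 1772139721) (nat_lit 304) (nat_lit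 824665620) (nat_lit 380) (nat_lit 7920720700) (nat_lit 136) (nat_lit 5) (nat_lit 140) (nat_lit 5) (nat_lit 141) (nat_lit 5) (nat_lit 471) (nat_lit 345) (nat_lit 324)) (XT.nd (nat_lit 78) (nat_lit 76) (nat_lit 0) (XT.lf (nat_lit 0) (nat_lit 407488354) (nat_lit 304) (nat_lit 6975497738) (nat_lit 380) (nat_lit 3234097671) (nat_lit 132) (nat_lit 5) (nat_lit 136) (nat_lit 5) (nat_lit 137) (nat_lit 4) (nat_lit 472) (nat_lit 345) (nat_lit 323)) (XT.lf (nat_lit 0) (nat_lit 1527801421) (nat_lit 380) (nat_lit 977015364) (nat_lit 76) (nat_lit 8213578607) (nat_lit 131) (nat_lit 5) (nat_lit 136) (nat_lit 5) (nat_lit 132) (nat_lit 5) (nat_lit 473) (nat_lit 345) (nat_lit 322)))) (XT.nd (nat_lit 78) (nat_lit 608) (nat_lit 0) (XT.lf (nat_lit 0) (nat_lit 6348471623) (nat_lit 380) (nat_lit 2409274470) (nat_lit 76) (nat_lit 2063422858) (nat_lit 127) (nat_lit 5) (nat_lit 132) (nat_lit 5) (nat_lit 128) (nat_lit 4) (nat_lit 474) (nat_lit 345) (nat_lit 321))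 (XT.nd (nat_lit 78) (nat_lit 304) (nat_lit 0) (XT.lf (nat_lit 0) (nat_lit 342884727) (nat_lit 304) (nat_lit 3880164224) (nat_lit 76) (nat_lit 6702749321) (nat_lit 123) (nat_lit 5) (nat_lit 127) (nat_lit 5) (nat_lit 124) (nat_lit 5) (nat_lit 475) (nat_lit 345) (nat_lit 320)) (XT.lf (nat_lit 0) (nat_lit 5189565568) (nat_lit 380) (nat_lit 5404712864) (nat_lit 76) (nat_lit 437756926) (nat_lit 119) (nat_lit 5) (nat_lit 124) (nat_lit 5) (nat_lit 120) (nat_lit 4) (nat_lit 476) (nat_lit 345) (nat_lit 319))))) (XT.nd (nat_lit 234) (nat_lit 912) (nat_lit 0) (XT.nd (nat_lit 78) (nat_lit 608) (nat_lit 0) (XT.lf (nat_lit 0) (nat_lit 4159890747) (nat_lit 228) (nat_lit 5993636300) (nat_lit 304) (nat_lit 986463198) (nat_lit 116) (nat_lit 5) (nat_lit 119) (nat_lit 5) (nat_lit 120) (nat_lit 4) (nat_lit 477) (nat_lit 345) (nat_lit 318)) (XT.nd (nat_lit 78) (nat_lit 228) (nat_lit 0) (XT.lf (nat_lit 0) (nat_lit 2644024505) (nat_lit 304) (nat_lit 1263572932)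 (nat_lit 380) (nat_lit 7342132560) (nat_lit 111) (nat_lit 5) (nat_lit 115) (nat_lit 5) (nat_lit 116) (nat_lit 5) (nat_lit 478) (nat_lit 345) (nat_lit 317)) (XT.lf (nat_lit 0) (nat_lit 1074079621) (nat_lit 228) (nat_lit 7829025809) (nat_lit 304) (nat_lit 2458093206) (nat_lit 108) (nat_lit 5) (nat_lit 111) (nat_lit 5) (nat_lit 112) (nat_lit 4) (nat_lit 479) (nat_lit 345) (nat_lit 316)))) (XT.nd (nat_lit 156) (nat_lit 532) (nat_lit 0) (XT.nd (nat_lit 78) (nat_lit 304) (nat_lit 0) (XT.lf (nat_lit 0) (nat_lit 2496660335) (nat_lit 304) (nat_lit 539441929) (nat_lit 76) (nat_lit 8438344059) (nat_lit 107) (nat_lit 5) (nat_lit 111) (nat_lit 5) (nat_lit 108) (nat_lit 5) (nat_lit 480) (nat_lit 345) (nat_lit 315)) (XT.lf (nat_lit 0) (nat_lit 7531781382) (nat_lit 380) (nat_lit 2194186617) (nat_lit 76) (nat_lit 1863382277) (nat_lit 103) (nat_lit 5) (nat_lit 108) (nat_lit 5) (nat_lit 104) (nat_lit 4) (nat_lit 481) (nat_lit 345) (nat_lit 314))) (XT.nd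 (nat_lit 78) (nat_lit 228) (nat_lit 0) (XT.lf (nat_lit 0) (nat_lit 964033998) (nat_lit 304) (nat_lit 3903851824) (nat_lit 76) (nat_lit 6838229975) (nat_lit 99) (nat_lit 5) (nat_lit 103) (nat_lit 5) (nat_lit 100) (nat_lit 5) (nat_lit 482) (nat_lit 345) (nat_lit 313)) (XT.lf (nat_lit 0) (nat_lit 6028528671) (nat_lit 304) (nat_lit 5671321436) (nat_lit 76) (nat_lit 124894299) (nat_lit 96) (nat_lit 5) (nat_lit 100) (nat_lit 5) (nat_lit 97) (nat_lit 4) (nat_lit 483) (nat_lit 345) (nat_lit 312)))))) (XT.nd (nat_lit 56862) (nat_lit 0) (nat_lit 8132) (XT.nd (nat_lit 56628) (nat_lit 0) (nat_lit 11096) (XT.nd (nat_lit 78) (nat_lit 304) (nat_lit 0) (XT.lf (nat_lit 0) (nat_lit 4442235283) (nat_lit 228) (nat_lit 6780871940) (nat_lit 304) (nat_lit 722062484) (nat_lit 93) (nat_lit 5) (nat_lit 96) (nat_lit 5) (nat_lit 97) (nat_lit 4) (nat_lit 484) (nat_lit 345) (nat_lit 311)) (XT.nd (nat_lit 56472) (nat_lit 0) (nat_lit 12692) (XT.lf (nat_lit 0) (nat_lit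 2670297688) (nat_lit 228) (nat_lit 1721957198) (nat_lit 304) (nat_lit 7675228509) (nat_lit 89) (nat_lit 5) (nat_lit 92) (nat_lit 5) (nat_lit 93) (nat_lit 5) (nat_lit 485) (nat_lit 345) (nat_lit 310)) (XT.lf (nat_lit 0) (nat_lit 1854735443) (nat_lit 608) (nat_lit 613602437) (nat_lit 0) (nat_lit 1854735443) (nat_lit 256) (nat_lit 5) (nat_lit 264) (nat_lit 4) (nat_lit 256) (nat_lit 4) (nat_lit 448) (nat_lit 346) (nat_lit 346)))) (XT.nd (nat_lit 78) (nat_lit 1064) (nat_lit 0) (XT.lf (nat_lit 0) (nat_lit 6467577592) (nat_lit 532) (nat_lit 1623164738) (nat_lit 532) (nat_lit 621756890) (nat_lit 249) (nat_lit 4) (nat_lit 256) (nat_lit 5) (nat_lit 256) (nat_lit 4) (nat_lit 449) (nat_lit 346) (nat_lit 345)) (XT.nd (nat_lit 78) (nat_lit 532) (nat_lit 0) (XT.lf (nat_lit 0) (nat_lit 3715543326) (nat_lit 532) (nat_lit 3293182753) (nat_lit 0) (nat_lit 1771248965) (nat_lit 242) (nat_lit 5) (nat_lit 249) (nat_lit 4) (nat_lit 242) (nat_lit 4) (nat_lit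 450) (nat_lit 346) (nat_lit 344)) (XT.lf (nat_lit 0) (nat_lit 4496850917) (nat_lit 532) (nat_lit 3620048950) (nat_lit 532) (nat_lit 732105607) (nat_lit 235) (nat_lit 4) (nat_lit 242) (nat_lit 5) (nat_lit 242) (nat_lit 4) (nat_lit 451) (nat_lit 346) (nat_lit 343))))) (XT.nd (nat_lit 234) (nat_lit 1444) (nat_lit 0) (XT.nd (nat_lit 78) (nat_lit 988) (nat_lit 0) (XT.lf (nat_lit 0) (nat_lit 3487527580) (nat_lit 456) (nat_lit 126639242) (nat_lit 532) (nat_lit 5305257864) (nat_lit 228) (nat_lit 5) (nat_lit 234) (nat_lit 5) (nat_lit 235) (nat_lit 4) (nat_lit 452) (nat_lit 346) (nat_lit 342)) (XT.nd (nat_lit 78) (nat_lit 532) (nat_lit 0) (XT.lf (nat_lit 0) (nat_lit 2454203066) (nat_lit 456) (nat_lit 5582259437) (nat_lit 456) (nat_lit 954714982) (nat_lit 222) (nat_lit 4) (nat_lit 228) (nat_lit 5) (nat_lit 228) (nat_lit 4) (nat_lit 453) (nat_lit 346) (nat_lit 341)) (XT.lf (nat_lit 0) (nat_lit 1399488749) (nat_lit 456) (nat_lit 2015768180) (nat_lit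 532) (nat_lit 5649094228) (nat_lit 215) (nat_lit 5) (nat_lit 221) (nat_lit 5) (nat_lit 222) (nat_lit 4) (nat_lit 454) (nat_lit 346) (nat_lit 340)))) (XT.nd (nat_lit 156) (nat_lit 912) (nat_lit 0) (XT.nd (nat_lit 78) (nat_lit 76) (nat_lit 0) (XT.lf (nat_lit 0) (nat_lit 328701625) (nat_lit 456) (nat_lit 7519909337) (nat_lit 456) (nat_lit 1290475802) (nat_lit 209) (nat_lit 4) (nat_lit 215) (nat_lit 5) (nat_lit 215) (nat_lit 4) (nat_lit 455) (nat_lit 346) (nat_lit 339)) (XT.lf (nat_lit 0) (nat_lit 3111209339) (nat_lit 532) (nat_lit 766293895) (nat_lit 76) (nat_lit 5337458583) (nat_lit 208) (nat_lit 5) (nat_lit 215) (nat_lit 5) (nat_lit 209) (nat_lit 4) (nat_lit 456) (nat_lit 346) (nat_lit 338))) (XT.nd (nat_lit 78) (nat_lit 532) (nat_lit 0) (XT.lf (nat_lit 0) (nat_lit 7425693656) (nat_lit 380) (nat_lit 139665618) (nat_lit 456) (nat_lit 1727190284) (nat_lit 203) (nat_lit 5) (nat_lit 208) (nat_lit 5) (nat_lit 209) (nat_lit 4) (nat_lit 457)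 (nat_lit 346) (nat_lit 337)) (XT.lf (nat_lit 0) (nat_lit 2705369677) (nat_lit 532) (nat_lit 3011560441) (nat_lit 76) (nat_lit 3654316311) (nat_lit 196) (nat_lit 5) (nat_lit 203) (nat_lit 5) (nat_lit 197) (nat_lit 4) (nat_lit 458) (nat_lit 346) (nat_lit 336))))))))
noncomputable def xc7 : XT := (XT.nd (nat_lit 2028) (nat_lit 304) (nat_lit 0) (XT.nd (nat_lit 1014) (nat_lit 3268) (nat_lit 0) (XT.nd (nat_lit 468) (nat_lit 2508) (nat_lit 0) (XT.nd (nat_lit 234) (nat_lit 836) (nat_lit 0) (XT.nd (nat_lit 78) (nat_lit 836) (nat_lit 0) (XT.lf (nat_lit 0) (nat_lit 5279138299) (nat_lit 380) (nat_lit 1906251545) (nat_lit 456) (nat_lit 2266260337) (nat_lit 191) (nat_lit 5) (nat_lit 196) (nat_lit 5) (nat_lit 197) (nat_lit 4) (nat_lit 459) (nat_lit 346) (nat_lit 335)) (XT.nd (nat_lit 78) (nat_lit 380) (nat_lit 0) (XT.lf (nat_lit 0) (nat_lit 2187034922) (nat_lit 456) (nat_lit 5365924720) (nat_lit 76) (nat_lit 1980517518) (nat_lit 185) (nat_lit 5) (nat_lit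 191) (nat_lit 5) (nat_lit 186) (nat_lit 4) (nat_lit 460) (nat_lit 346) (nat_lit 334)) (XT.lf (nat_lit 0) (nat_lit 3023395641) (nat_lit 380) (nat_lit 3670811735) (nat_lit 456) (nat_lit 2922530574) (nat_lit 180) (nat_lit 5) (nat_lit 185) (nat_lit 5) (nat_lit 186) (nat_lit 4) (nat_lit 461) (nat_lit 346) (nat_lit 333)))) (XT.nd (nat_lit 78) (nat_lit 380) (nat_lit 0) (XT.lf (nat_lit 0) (nat_lit 1554244013) (nat_lit 456) (nat_lit 7840866654) (nat_lit 76) (nat_lit 306642120) (nat_lit 174) (nat_lit 5) (nat_lit 180) (nat_lit 5) (nat_lit 175) (nat_lit 4) (nat_lit 462) (nat_lit 346) (nat_lit 332)) (XT.nd (nat_lit 78) (nat_lit 76) (nat_lit 0) (XT.lf (nat_lit 0) (nat_lit 646930234) (nat_lit 304) (nat_lit 5442816582) (nat_lit 380) (nat_lit 3698168238) (nat_lit 170) (nat_lit 5) (nat_lit 174) (nat_lit 5) (nat_lit 175) (nat_lit 4) (nat_lit 463) (nat_lit 346) (nat_lit 331)) (XT.lf (nat_lit 0) (nat_lit 817522544) (nat_lit 380) (nat_lit 573547714) (nat_lit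 76) (nat_lit 8484853565) (nat_lit 169) (nat_lit 5) (nat_lit 174) (nat_lit 5) (nat_lit 170) (nat_lit 5) (nat_lit 464) (nat_lit 346) (nat_lit 330))))) (XT.nd (nat_lit 234) (nat_lit 1368) (nat_lit 0) (XT.nd (nat_lit 78) (nat_lit 760) (nat_lit 0) (XT.lf (nat_lit 0) (nat_lit 5381691081) (nat_lit 456) (nat_lit 1837623921) (nat_lit 76) (nat_lit 2745735221) (nat_lit 164) (nat_lit 5) (nat_lit 170) (nat_lit 5) (nat_lit 165) (nat_lit 4) (nat_lit 465) (nat_lit 346) (nat_lit 329)) (XT.nd (nat_lit 78) (nat_lit 456) (nat_lit 0) (XT.lf (nat_lit 0) (nat_lit 6933948205) (nat_lit 304) (nat_lit 3098321541) (nat_lit 380) (nat_lit 23786868) (nat_lit 160) (nat_lit 5) (nat_lit 164) (nat_lit 5) (nat_lit 165) (nat_lit 4) (nat_lit 466) (nat_lit 346) (nat_lit 328)) (XT.lf (nat_lit 0) (nat_lit 4560340959) (nat_lit 456) (nat_lit 4456371733) (nat_lit 76) (nat_lit 1131688659) (nat_lit 154) (nat_lit 5) (nat_lit 160) (nat_lit 5) (nat_lit 155) (nat_lit 4) (nat_lit 467)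 (nat_lit 346) (nat_lit 327)))) (XT.nd (nat_lit 156) (nat_lit 684) (nat_lit 0) (XT.nd (nat_lit 78) (nat_lit 380) (nat_lit 0) (XT.lf (nat_lit 0) (nat_lit 4417167936) (nat_lit 304) (nat_lit 4826453477) (nat_lit 380) (nat_lit 998812653) (nat_lit 150) (nat_lit 5) (nat_lit 154) (nat_lit 5) (nat_lit 155) (nat_lit 4) (nat_lit 468) (nat_lit 346) (nat_lit 326)) (XT.lf (nat_lit 0) (nat_lit 3104749852) (nat_lit 304) (nat_lit 517092509) (nat_lit 380) (nat_lit 6716268621) (nat_lit 145) (nat_lit 5) (nat_lit 149) (nat_lit 5) (nat_lit 150) (nat_lit 5) (nat_lit 469) (nat_lit 346) (nat_lit 325))) (XT.nd (nat_lit 78) (nat_lit 380) (nat_lit 0) (XT.lf (nat_lit 0) (nat_lit 1745244529) (nat_lit 304) (nat_lit 6590119967) (nat_lit 380) (nat_lit 2099928334) (nat_lit 141) (nat_lit 5) (nat_lit 145) (nat_lit 5) (nat_lit 146) (nat_lit 4) (nat_lit 470) (nat_lit 346) (nat_lit 324)) (XT.lf (nat_lit 0) (nat_lit 348771331) (nat_lit 304) (nat_lit 2218401732) (nat_lit 380)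 (nat_lit 7967053531) (nat_lit 136) (nat_lit 5) (nat_lit 140) (nat_lit 5) (nat_lit 141) (nat_lit 5) (nat_lit 471) (nat_lit 346) (nat_lit 323)))))) (XT.nd (nat_lit 468) (nat_lit 1748) (nat_lit 0) (XT.nd (nat_lit 234) (nat_lit 836) (nat_lit 0) (XT.nd (nat_lit 78) (nat_lit 684) (nat_lit 0) (XT.lf (nat_lit 0) (nat_lit 7311154078) (nat_lit 380) (nat_lit 1080076673) (nat_lit 76) (nat_lit 2243397559) (nat_lit 136) (nat_lit 5) (nat_lit 141) (nat_lit 5) (nat_lit 137) (nat_lit 4) (nat_lit 472) (nat_lit 346) (nat_lit 322)) (XT.nd (nat_lit 78) (nat_lit 304) (nat_lit 0) (XT.lf (nat_lit 0) (nat_lit 1402006879) (nat_lit 380) (nat_lit 2547261866) (nat_lit 76) (nat_lit 6787434603) (nat_lit 131) (nat_lit 5) (nat_lit 136) (nat_lit 5) (nat_lit 132) (nat_lit 5) (nat_lit 473) (nat_lit 346) (nat_lit 321)) (XT.lf (nat_lit 0) (nat_lit 6172593757) (nat_lit 380) (nat_lit 4060856389) (nat_lit 76) (nat_lit 607028427) (nat_lit 127) (nat_lit 5) (nat_lit 132) (nat_lit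 5) (nat_lit 128) (nat_lit 4) (nat_lit 474) (nat_lit 346) (nat_lit 320)))) (XT.nd (nat_lit 78) (nat_lit 532) (nat_lit 0) (XT.lf (nat_lit 0) (nat_lit 109077275) (nat_lit 304) (nat_lit 5623346090) (nat_lit 76) (nat_lit 5213533473) (nat_lit 123) (nat_lit 5) (nat_lit 127) (nat_lit 5) (nat_lit 124) (nat_lit 5) (nat_lit 475) (nat_lit 346) (nat_lit 319)) (XT.nd (nat_lit 78) (nat_lit 228) (nat_lit 0) (XT.lf (nat_lit 0) (nat_lit 3812787212) (nat_lit 304) (nat_lit 1098641416) (nat_lit 380) (nat_lit 6141651885) (nat_lit 119) (nat_lit 5) (nat_lit 123) (nat_lit 5) (nat_lit 124) (nat_lit 5) (nat_lit 476) (nat_lit 346) (nat_lit 318)) (XT.lf (nat_lit 0) (nat_lit 2255896337) (nat_lit 228) (nat_lit 7570470740) (nat_lit 304) (nat_lit 1335648784) (nat_lit 116) (nat_lit 5) (nat_lit 119) (nat_lit 5) (nat_lit 120) (nat_lit 4) (nat_lit 477) (nat_lit 346) (nat_lit 317))))) (XT.nd (nat_lit 234) (nat_lit 1064) (nat_lit 0) (XT.nd (nat_lit 78) (nat_lit 304) (nat_lit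 0) (XT.lf (nat_lit 0) (nat_lit 643398305) (nat_lit 304) (nat_lit 2877134749) (nat_lit 380) (nat_lit 7752117070) (nat_lit 111) (nat_lit 5) (nat_lit 115) (nat_lit 5) (nat_lit 116) (nat_lit 5) (nat_lit 478) (nat_lit 346) (nat_lit 316)) (XT.nd (nat_lit 78) (nat_lit 304) (nat_lit 0) (XT.lf (nat_lit 0) (nat_lit 8469236405) (nat_lit 380) (nat_lit 1003826226) (nat_lit 76) (nat_lit 1911992226) (nat_lit 111) (nat_lit 5) (nat_lit 116) (nat_lit 5) (nat_lit 112) (nat_lit 4) (nat_lit 479) (nat_lit 346) (nat_lit 315)) (XT.lf (nat_lit 0) (nat_lit 2008991185) (nat_lit 304) (nat_lit 2702465393) (nat_lit 76) (nat_lit 6787624344) (nat_lit 107) (nat_lit 5) (nat_lit 111) (nat_lit 5) (nat_lit 108) (nat_lit 5) (nat_lit 480) (nat_lit 346) (nat_lit 314)))) (XT.nd (nat_lit 156) (nat_lit 456) (nat_lit 0) (XT.nd (nat_lit 78) (nat_lit 304) (nat_lit 0) (XT.lf (nat_lit 0) (nat_lit 6989718612) (nat_lit 380) (nat_lit 4450815309) (nat_lit 76) (nat_lit 174538826) (nat_lit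 103) (nat_lit 5) (nat_lit 108) (nat_lit 5) (nat_lit 104) (nat_lit 4) (nat_lit 481) (nat_lit 346) (nat_lit 313)) (XT.lf (nat_lit 0) (nat_lit 359611647) (nat_lit 304) (nat_lit 6263669187) (nat_lit 76) (nat_lit 5109512838) (nat_lit 99) (nat_lit 5) (nat_lit 103) (nat_lit 5) (nat_lit 100) (nat_lit 5) (nat_lit 482) (nat_lit 346) (nat_lit 312))) (XT.nd (nat_lit 78) (nat_lit 228) (nat_lit 0) (XT.lf (nat_lit 0) (nat_lit 3712453653) (nat_lit 228) (nat_lit 1666409361) (nat_lit 304) (nat_lit 6473464132) (nat_lit 96) (nat_lit 5) (nat_lit 99) (nat_lit 5) (nat_lit 100) (nat_lit 5) (nat_lit 483) (nat_lit 346) (nat_lit 311)) (XT.lf (nat_lit 0) (nat_lit 1901110491) (nat_lit 228) (nat_lit 8616544716) (nat_lit 304) (nat_lit 1456212968) (nat_lit 93) (nat_lit 5) (nat_lit 96) (nat_lit 5) (nat_lit 97) (nat_lit 4) (nat_lit 484) (nat_lit 346) (nat_lit 310))))))) (XT.nd (nat_lit 57252) (nat_lit 0) (nat_lit 3876) (XT.nd (nat_lit 56706) (nat_lit 0) (nat_lit 8664)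 (XT.nd (nat_lit 56472) (nat_lit 0) (nat_lit 11628) (XT.nd (nat_lit 56316) (nat_lit 0) (nat_lit 13224) (XT.lf (nat_lit 0) (nat_lit 20373617) (nat_lit 228) (nat_lit 3601734291) (nat_lit 304) (nat_lit 8475081786) (nat_lit 89) (nat_lit 5) (nat_lit 92) (nat_lit 5) (nat_lit 93) (nat_lit 5) (nat_lit 485) (nat_lit 346) (nat_lit 309)) (XT.nd (nat_lit 78) (nat_lit 76) (nat_lit 0) (XT.lf (nat_lit 0) (nat_lit 418724799) (nat_lit 532) (nat_lit 1919912046) (nat_lit 532) (nat_lit 1919912046) (nat_lit 264) (nat_lit 4) (nat_lit 271) (nat_lit 5) (nat_lit 271) (nat_lit 4) (nat_lit 446) (nat_lit 347) (nat_lit 347)) (XT.lf (nat_lit 0) (nat_lit 413233148) (nat_lit 608) (nat_lit 207133765) (nat_lit 76) (nat_lit 7961174385) (nat_lit 263) (nat_lit 5) (nat_lit 271) (nat_lit 5) (nat_lit 264) (nat_lit 4) (nat_lit 447) (nat_lit 347) (nat_lit 346)))) (XT.nd (nat_lit 78) (nat_lit 1064) (nat_lit 0) (XT.lf (nat_lit 0) (nat_lit 4696127114) (nat_lit 608) (nat_lit 1277431868)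 (nat_lit 0) (nat_lit 2673283261) (nat_lit 256) (nat_lit 5) (nat_lit 264) (nat_lit 4) (nat_lit 256) (nat_lit 4) (nat_lit 448) (nat_lit 347) (nat_lit 345)) (XT.nd (nat_lit 78) (nat_lit 456) (nat_lit 0) (XT.lf (nat_lit 0) (nat_lit 324444772) (nat_lit 608) (nat_lit 2349237812) (nat_lit 76) (nat_lit 6040164586) (nat_lit 248) (nat_lit 5) (nat_lit 256) (nat_lit 5) (nat_lit 249) (nat_lit 4) (nat_lit 449) (nat_lit 347) (nat_lit 344)) (XT.lf (nat_lit 0) (nat_lit 4611681772) (nat_lit 532) (nat_lit 3448068077) (nat_lit 0) (nat_lit 722330582) (nat_lit 242) (nat_lit 5) (nat_lit 249) (nat_lit 4) (nat_lit 242) (nat_lit 4) (nat_lit 450) (nat_lit 347) (nat_lit 343))))) (XT.nd (nat_lit 234) (nat_lit 1444) (nat_lit 0) (XT.nd (nat_lit 78) (nat_lit 912) (nat_lit 0) (XT.lf (nat_lit 0) (nat_lit 124503279) (nat_lit 608) (nat_lit 4563000625) (nat_lit 76) (nat_lit 4164291940) (nat_lit 234) (nat_lit 5) (nat_lit 242) (nat_lit 5) (nat_lit 235) (nat_lit 4) (nat_lit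 451) (nat_lit 347) (nat_lit 342)) (XT.nd (nat_lit 78) (nat_lit 456) (nat_lit 0) (XT.lf (nat_lit 0) (nat_lit 3218664720) (nat_lit 456) (nat_lit 1207160978) (nat_lit 532) (nat_lit 4497001259) (nat_lit 228) (nat_lit 5) (nat_lit 234) (nat_lit 5) (nat_lit 235) (nat_lit 4) (nat_lit 452) (nat_lit 347) (nat_lit 341)) (XT.lf (nat_lit 0) (nat_lit 2134793749) (nat_lit 456) (nat_lit 6670868915) (nat_lit 456) (nat_lit 189766266) (nat_lit 222) (nat_lit 4) (nat_lit 228) (nat_lit 5) (nat_lit 228) (nat_lit 4) (nat_lit 453) (nat_lit 347) (nat_lit 340)))) (XT.nd (nat_lit 156) (nat_lit 912) (nat_lit 0) (XT.nd (nat_lit 78) (nat_lit 0) (nat_lit 0) (XT.lf (nat_lit 0) (nat_lit 1015744819) (nat_lit 456) (nat_lit 3118680638) (nat_lit 532) (nat_lit 4934792769) (nat_lit 215) (nat_lit 5) (nat_lit 221) (nat_lit 5) (nat_lit 222) (nat_lit 4) (nat_lit 454) (nat_lit 347) (nat_lit 339)) (XT.lf (nat_lit 0) (nat_lit 8525448066) (nat_lit 532) (nat_lit 107363051) (nat_lit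 0) (nat_lit 511989344) (nat_lit 215) (nat_lit 5) (nat_lit 222) (nat_lit 4) (nat_lit 215) (nat_lit 4) (nat_lit 455) (nat_lit 347) (nat_lit 338))) (XT.nd (nat_lit 78) (nat_lit 380) (nat_lit 0) (XT.lf (nat_lit 0) (nat_lit 3739890066) (nat_lit 532) (nat_lit 1264276107) (nat_lit 76) (nat_lit 4217095009) (nat_lit 208) (nat_lit 5) (nat_lit 215) (nat_lit 5) (nat_lit 209) (nat_lit 4) (nat_lit 456) (nat_lit 347) (nat_lit 337)) (XT.lf (nat_lit 0) (nat_lit 6871014958) (nat_lit 380) (nat_lit 1287139622) (nat_lit 456) (nat_lit 1141412052) (nat_lit 203) (nat_lit 5) (nat_lit 208) (nat_lit 5) (nat_lit 209) (nat_lit 4) (nat_lit 457) (nat_lit 347) (nat_lit 336)))))) (XT.nd (nat_lit 546) (nat_lit 2204) (nat_lit 0) (XT.nd (nat_lit 234) (nat_lit 1216) (nat_lit 0) (XT.nd (nat_lit 78) (nat_lit 836) (nat_lit 0) (XT.lf (nat_lit 0) (nat_lit 3239673197) (nat_lit 532) (nat_lit 3634858310) (nat_lit 76) (nat_lit 2504531773) (nat_lit 196) (nat_lit 5) (nat_lit 203) (nat_lit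 5) (nat_lit 197) (nat_lit 4) (nat_lit 458) (nat_lit 347) (nat_lit 335)) (XT.nd (nat_lit 78) (nat_lit 456) (nat_lit 0) (XT.lf (nat_lit 0) (nat_lit 4597172950) (nat_lit 380) (nat_lit 3086110169) (nat_lit 456) (nat_lit 1776912118) (nat_lit 191) (nat_lit 5) (nat_lit 196) (nat_lit 5) (nat_lit 197) (nat_lit 4) (nat_lit 459) (nat_lit 347) (nat_lit 334)) (XT.lf (nat_lit 0) (nat_lit 2625399680) (nat_lit 456) (nat_lit 6120741964) (nat_lit 76) (nat_lit 796708340) (nat_lit 185) (nat_lit 5) (nat_lit 191) (nat_lit 5) (nat_lit 186) (nat_lit 4) (nat_lit 460) (nat_lit 347) (nat_lit 333)))) (XT.nd (nat_lit 156) (nat_lit 380) (nat_lit 0) (XT.nd (nat_lit 78) (nat_lit 456) (nat_lit 0) (XT.lf (nat_lit 0) (nat_lit 2207875107) (nat_lit 380) (nat_lit 4887703862) (nat_lit 456) (nat_lit 2531271667) (nat_lit 180) (nat_lit 5) (nat_lit 185) (nat_lit 5) (nat_lit 186) (nat_lit 4) (nat_lit 461) (nat_lit 347) (nat_lit 332)) (XT.lf (nat_lit 0) (nat_lit 972999919) (nat_lit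 380) (nat_lit 927968863) (nat_lit 456) (nat_lit 7811633940) (nat_lit 174) (nat_lit 5) (nat_lit 179) (nat_lit 5) (nat_lit 180) (nat_lit 5) (nat_lit 462) (nat_lit 347) (nat_lit 331))) (XT.nd (nat_lit 78) (nat_lit 380) (nat_lit 0) (XT.lf (nat_lit 0) (nat_lit 6394815850) (nat_lit 456) (nat_lit 304540940) (nat_lit 76) (nat_lit 3100241314) (nat_lit 174) (nat_lit 5) (nat_lit 180) (nat_lit 5) (nat_lit 175) (nat_lit 4) (nat_lit 463) (nat_lit 347) (nat_lit 330)) (XT.lf (nat_lit 0) (nat_lit 1073699238) (nat_lit 380) (nat_lit 1593041991) (nat_lit 76) (nat_lit 7221494777) (nat_lit 169) (nat_lit 5) (nat_lit 174) (nat_lit 5) (nat_lit 170) (nat_lit 5) (nat_lit 464) (nat_lit 347) (nat_lit 329))))) (XT.nd (nat_lit 234) (nat_lit 1064) (nat_lit 0) (XT.nd (nat_lit 78) (nat_lit 760) (nat_lit 0) (XT.lf (nat_lit 0) (nat_lit 5591655579) (nat_lit 456) (nat_lit 2925313924) (nat_lit 76) (nat_lit 1461317146) (nat_lit 164) (nat_lit 5) (nat_lit 170) (nat_lit 5) (nat_lit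 165) (nat_lit 4) (nat_lit 465) (nat_lit 347) (nat_lit 328)) (XT.nd (nat_lit 78) (nat_lit 380) (nat_lit 0) (XT.lf (nat_lit 0) (nat_lit 132372572) (nat_lit 380) (nat_lit 4289316868) (nat_lit 76) (nat_lit 5648347153) (nat_lit 159) (nat_lit 5) (nat_lit 164) (nat_lit 5) (nat_lit 160) (nat_lit 5) (nat_lit 466) (nat_lit 347) (nat_lit 327)) (XT.lf (nat_lit 0) (nat_lit 4466471634) (nat_lit 380) (nat_lit 203777553) (nat_lit 456) (nat_lit 5493047838) (nat_lit 154) (nat_lit 5) (nat_lit 159) (nat_lit 5) (nat_lit 160) (nat_lit 5) (nat_lit 467) (nat_lit 347) (nat_lit 326)))) (XT.nd (nat_lit 156) (nat_lit 380) (nat_lit 0) (XT.nd (nat_lit 78) (nat_lit 380) (nat_lit 0) (XT.lf (nat_lit 0) (nat_lit 3111138334) (nat_lit 304) (nat_lit 6202255048) (nat_lit 380) (nat_lit 944739083) (nat_lit 150) (nat_lit 5) (nat_lit 154) (nat_lit 5) (nat_lit 155) (nat_lit 4) (nat_lit 468) (nat_lit 347) (nat_lit 325)) (XT.lf (nat_lit 0) (nat_lit 1714593743) (nat_lit 304) (nat_lit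 1921328286) (nat_lit 380) (nat_lit 6718666025) (nat_lit 145) (nat_lit 5) (nat_lit 149) (nat_lit 5) (nat_lit 150) (nat_lit 5) (nat_lit 469) (nat_lit 347) (nat_lit 324))) (XT.nd (nat_lit 78) (nat_lit 76) (nat_lit 0) (XT.lf (nat_lit 0) (nat_lit 278502093) (nat_lit 304) (nat_lit 8022187888) (nat_lit 380) (nat_lit 2152055004) (nat_lit 141) (nat_lit 5) (nat_lit 145) (nat_lit 5) (nat_lit 146) (nat_lit 4) (nat_lit 470) (nat_lit 347) (nat_lit 323)) (XT.lf (nat_lit 0) (nat_lit 2483422084) (nat_lit 380) (nat_lit 1189719291) (nat_lit 76) (nat_lit 6879190302) (nat_lit 140) (nat_lit 5) (nat_lit 145) (nat_lit 5) (nat_lit 141) (nat_lit 5) (nat_lit 471) (nat_lit 347) (nat_lit 322))))))))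
noncomputable def xc8 : XT := (XT.nd (nat_lit 58110) (nat_lit 0) (nat_lit 836) (XT.nd (nat_lit 1014) (nat_lit 304) (nat_lit 0) (XT.nd (nat_lit 468) (nat_lit 1520) (nat_lit 0) (XT.nd (nat_lit 234) (nat_lit 836) (nat_lit 0) (XT.nd (nat_lit 78) (nat_lit 684) (nat_lit 0) (XT.lf (nat_lit 0) (nat_lit 7180172172) (nat_lit 380) (nat_lit 2693339620) (nat_lit 76) (nat_lit 780166220) (nat_lit 136) (nat_lit 5) (nat_lit 141) (nat_lit 5) (nat_lit 137) (nat_lit 4) (nat_lit 472) (nat_lit 347) (nat_lit 321)) (XT.nd (nat_lit 78) (nat_lit 304) (nat_lit 0) (XT.lf (nat_lit 0) (nat_lit 1213418568) (nat_lit 380) (nat_lit 4250445055) (nat_lit 76) (nat_lit 5292719396) (nat_lit 131) (nat_lit 5) (nat_lit 136) (nat_lit 5) (nat_lit 132) (nat_lit 5) (nat_lit 473) (nat_lit 347) (nat_lit 320)) (XT.lf (nat_lit 0) (nat_lit 5007945500) (nat_lit 304) (nat_lit 931281565) (nat_lit 380) (nat_lit 4922026749) (nat_lit 127) (nat_lit 5) (nat_lit 131) (nat_lit 5) (nat_lit 132)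 (nat_lit 5) (nat_lit 474) (nat_lit 347) (nat_lit 319)))) (XT.nd (nat_lit 78) (nat_lit 608) (nat_lit 0) (XT.lf (nat_lit 0) (nat_lit 3463136411) (nat_lit 228) (nat_lit 7312741570) (nat_lit 304) (nat_lit 191813517) (nat_lit 124) (nat_lit 5) (nat_lit 127) (nat_lit 5) (nat_lit 128) (nat_lit 4) (nat_lit 475) (nat_lit 347) (nat_lit 318)) (XT.nd (nat_lit 78) (nat_lit 228) (nat_lit 0) (XT.lf (nat_lit 0) (nat_lit 1857717295) (nat_lit 304) (nat_lit 2713574689) (nat_lit 380) (nat_lit 6504383328) (nat_lit 119) (nat_lit 5) (nat_lit 123) (nat_lit 5) (nat_lit 124) (nat_lit 5) (nat_lit 476) (nat_lit 347) (nat_lit 317)) (XT.lf (nat_lit 0) (nat_lit 212330942) (nat_lit 228) (nat_lit 9221197142) (nat_lit 304) (nat_lit 1752136622) (nat_lit 116) (nat_lit 5) (nat_lit 119) (nat_lit 5) (nat_lit 120) (nat_lit 4) (nat_lit 477) (nat_lit 347) (nat_lit 316))))) (XT.nd (nat_lit 234) (nat_lit 836) (nat_lit 0) (XT.nd (nat_lit 78) (nat_lit 608) (nat_lit 0) (XT.lf (nat_lit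 0) (nat_lit 3076438951) (nat_lit 304) (nat_lit 1479192009) (nat_lit 76) (nat_lit 6741383464) (nat_lit 115) (nat_lit 5) (nat_lit 119) (nat_lit 5) (nat_lit 116) (nat_lit 5) (nat_lit 478) (nat_lit 347) (nat_lit 315)) (XT.nd (nat_lit 78) (nat_lit 304) (nat_lit 0) (XT.lf (nat_lit 0) (nat_lit 7975669306) (nat_lit 380) (nat_lit 3209424803) (nat_lit 76) (nat_lit 225314506) (nat_lit 111) (nat_lit 5) (nat_lit 116) (nat_lit 5) (nat_lit 112) (nat_lit 4) (nat_lit 479) (nat_lit 347) (nat_lit 314)) (XT.lf (nat_lit 0) (nat_lit 1453544751) (nat_lit 304) (nat_lit 5009362323) (nat_lit 76) (nat_lit 5062461616) (nat_lit 107) (nat_lit 5) (nat_lit 111) (nat_lit 5) (nat_lit 108) (nat_lit 5) (nat_lit 480) (nat_lit 347) (nat_lit 313)))) (XT.nd (nat_lit 156) (nat_lit 304) (nat_lit 0) (XT.nd (nat_lit 78) (nat_lit 228) (nat_lit 0) (XT.lf (nat_lit 0) (nat_lit 4778393583) (nat_lit 304) (nat_lit 1611070625) (nat_lit 380) (nat_lit 5252792468) (nat_lit 103) (nat_lit 5)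 (nat_lit 107) (nat_lit 5) (nat_lit 108) (nat_lit 5) (nat_lit 481) (nat_lit 347) (nat_lit 312)) (XT.lf (nat_lit 0) (nat_lit 2987435230) (nat_lit 228) (nat_lit 8454895561) (nat_lit 304) (nat_lit 318787055) (nat_lit 100) (nat_lit 5) (nat_lit 103) (nat_lit 5) (nat_lit 104) (nat_lit 4) (nat_lit 482) (nat_lit 347) (nat_lit 311))) (XT.nd (nat_lit 78) (nat_lit 0) (nat_lit 0) (XT.lf (nat_lit 0) (nat_lit 1121544150) (nat_lit 228) (nat_lit 3538271562) (nat_lit 304) (nat_lit 7221773596) (nat_lit 96) (nat_lit 5) (nat_lit 99) (nat_lit 5) (nat_lit 100) (nat_lit 5) (nat_lit 483) (nat_lit 347) (nat_lit 310)) (XT.lf (nat_lit 0) (nat_lit 9746201208) (nat_lit 304) (nat_lit 780924404) (nat_lit 76) (nat_lit 1477052858) (nat_lit 96) (nat_lit 5) (nat_lit 100) (nat_lit 5) (nat_lit 97) (nat_lit 4) (nat_lit 484) (nat_lit 347) (nat_lit 309)))))) (XT.nd (nat_lit 56550) (nat_lit 0) (nat_lit 9272) (XT.nd (nat_lit 56316) (nat_lit 0) (nat_lit 12464) (XT.nd (nat_lit 56160)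 (nat_lit 0) (nat_lit 13604) (XT.lf (nat_lit 0) (nat_lit 2797692241) (nat_lit 304) (nat_lit 2746610556) (nat_lit 76) (nat_lit 6583964636) (nat_lit 92) (nat_lit 5) (nat_lit 96) (nat_lit 5) (nat_lit 93) (nat_lit 5) (nat_lit 485) (nat_lit 347) (nat_lit 308)) (XT.nd (nat_lit 78) (nat_lit 608) (nat_lit 0) (XT.lf (nat_lit 0) (nat_lit 1480347818) (nat_lit 608) (nat_lit 1357838618) (nat_lit 608) (nat_lit 1357838618) (nat_lit 279) (nat_lit 4) (nat_lit 287) (nat_lit 5) (nat_lit 287) (nat_lit 4) (nat_lit 444) (nat_lit 348) (nat_lit 348)) (XT.lf (nat_lit 0) (nat_lit 1475935167) (nat_lit 608) (nat_lit 6565211429) (nat_lit 0) (nat_lit 413233148) (nat_lit 271) (nat_lit 5) (nat_lit 279) (nat_lit 4) (nat_lit 271) (nat_lit 4) (nat_lit 445) (nat_lit 348) (nat_lit 347)))) (XT.nd (nat_lit 78) (nat_lit 608) (nat_lit 0) (XT.lf (nat_lit 0) (nat_lit 787956296) (nat_lit 532) (nat_lit 4917202287) (nat_lit 532) (nat_lit 2812635542) (nat_lit 264) (nat_lit 4) (nat_lit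 271) (nat_lit 5) (nat_lit 271) (nat_lit 4) (nat_lit 446) (nat_lit 348) (nat_lit 346)) (XT.nd (nat_lit 78) (nat_lit 532) (nat_lit 0) (XT.lf (nat_lit 0) (nat_lit 1392589441) (nat_lit 608) (nat_lit 312972078) (nat_lit 76) (nat_lit 6877229948) (nat_lit 263) (nat_lit 5) (nat_lit 271) (nat_lit 5) (nat_lit 264) (nat_lit 4) (nat_lit 447) (nat_lit 348) (nat_lit 345)) (XT.lf (nat_lit 0) (nat_lit 5633638867) (nat_lit 608) (nat_lit 1428132548) (nat_lit 0) (nat_lit 1587157888) (nat_lit 256) (nat_lit 5) (nat_lit 264) (nat_lit 4) (nat_lit 256) (nat_lit 4) (nat_lit 448) (nat_lit 348) (nat_lit 344))))) (XT.nd (nat_lit 234) (nat_lit 1520) (nat_lit 0) (XT.nd (nat_lit 78) (nat_lit 1064) (nat_lit 0) (XT.lf (nat_lit 0) (nat_lit 1212632850) (nat_lit 608) (nat_lit 2559484582) (nat_lit 76) (nat_lit 4944394697) (nat_lit 248) (nat_lit 5) (nat_lit 256) (nat_lit 5) (nat_lit 249) (nat_lit 4) (nat_lit 449) (nat_lit 348) (nat_lit 343)) (XT.nd (nat_lit 78) (nat_lit 608)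 (nat_lit 0) (XT.lf (nat_lit 0) (nat_lit 5076773897) (nat_lit 456) (nat_lit 383337893) (nat_lit 532) (nat_lit 3325428761) (nat_lit 242) (nat_lit 5) (nat_lit 248) (nat_lit 5) (nat_lit 249) (nat_lit 4) (nat_lit 450) (nat_lit 348) (nat_lit 342)) (XT.lf (nat_lit 0) (nat_lit 920573202) (nat_lit 608) (nat_lit 4883381327) (nat_lit 76) (nat_lit 3051948073) (nat_lit 234) (nat_lit 5) (nat_lit 242) (nat_lit 5) (nat_lit 235) (nat_lit 4) (nat_lit 451) (nat_lit 348) (nat_lit 341)))) (XT.nd (nat_lit 156) (nat_lit 532) (nat_lit 0) (XT.nd (nat_lit 78) (nat_lit 532) (nat_lit 0) (XT.lf (nat_lit 0) (nat_lit 2844616252) (nat_lit 456) (nat_lit 2341906995) (nat_lit 532) (nat_lit 3741117916) (nat_lit 228) (nat_lit 5) (nat_lit 234) (nat_lit 5) (nat_lit 235) (nat_lit 4) (nat_lit 452) (nat_lit 348) (nat_lit 340)) (XT.lf (nat_lit 0) (nat_lit 515559572) (nat_lit 532) (nat_lit 7295772118) (nat_lit 76) (nat_lit 1189700590) (nat_lit 221) (nat_lit 5) (nat_lit 228) (nat_lit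 5) (nat_lit 222) (nat_lit 4) (nat_lit 453) (nat_lit 348) (nat_lit 339))) (XT.nd (nat_lit 78) (nat_lit 76) (nat_lit 0) (XT.lf (nat_lit 0) (nat_lit 523822434) (nat_lit 456) (nat_lit 4277642010) (nat_lit 532) (nat_lit 4274048451) (nat_lit 215) (nat_lit 5) (nat_lit 221) (nat_lit 5) (nat_lit 222) (nat_lit 4) (nat_lit 454) (nat_lit 348) (nat_lit 338)) (XT.lf (nat_lit 0) (nat_lit 4963064) (nat_lit 532) (nat_lit 651668707) (nat_lit 76) (nat_lit 8495175703) (nat_lit 214) (nat_lit 5) (nat_lit 221) (nat_lit 5) (nat_lit 215) (nat_lit 5) (nat_lit 455) (nat_lit 348) (nat_lit 337))))))) (XT.nd (nat_lit 1014) (nat_lit 3572) (nat_lit 0) (XT.nd (nat_lit 468) (nat_lit 2280) (nat_lit 0) (XT.nd (nat_lit 234) (nat_lit 1216) (nat_lit 0) (XT.nd (nat_lit 78) (nat_lit 912) (nat_lit 0) (XT.lf (nat_lit 0) (nat_lit 4315930566) (nat_lit 532) (nat_lit 1872049950) (nat_lit 76) (nat_lit 3041010295) (nat_lit 208) (nat_lit 5) (nat_lit 215) (nat_lit 5) (nat_lit 209) (nat_lit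 4) (nat_lit 456) (nat_lit 348) (nat_lit 336)) (XT.nd (nat_lit 78) (nat_lit 532) (nat_lit 0) (XT.lf (nat_lit 0) (nat_lit 6206067488) (nat_lit 380) (nat_lit 2492159254) (nat_lit 456) (nat_lit 609788886) (nat_lit 203) (nat_lit 5) (nat_lit 208) (nat_lit 5) (nat_lit 209) (nat_lit 4) (nat_lit 457) (nat_lit 348) (nat_lit 335)) (XT.lf (nat_lit 0) (nat_lit 3720058190) (nat_lit 532) (nat_lit 4371063367) (nat_lit 76) (nat_lit 1297207003) (nat_lit 196) (nat_lit 5) (nat_lit 203) (nat_lit 5) (nat_lit 197) (nat_lit 4) (nat_lit 458) (nat_lit 348) (nat_lit 334)))) (XT.nd (nat_lit 78) (nat_lit 836) (nat_lit 0) (XT.lf (nat_lit 0) (nat_lit 3801787861) (nat_lit 380) (nat_lit 4325360716) (nat_lit 456) (nat_lit 1343042330) (nat_lit 191) (nat_lit 5) (nat_lit 196) (nat_lit 5) (nat_lit 197) (nat_lit 4) (nat_lit 459) (nat_lit 348) (nat_lit 333)) (XT.nd (nat_lit 78) (nat_lit 380) (nat_lit 0) (XT.lf (nat_lit 0) (nat_lit 2559023864) (nat_lit 380) (nat_lit 452414753)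 (nat_lit 456) (nat_lit 6542193510) (nat_lit 185) (nat_lit 5) (nat_lit 190) (nat_lit 5) (nat_lit 191) (nat_lit 5) (nat_lit 460) (nat_lit 348) (nat_lit 332)) (XT.lf (nat_lit 0) (nat_lit 1275693403) (nat_lit 380) (nat_lit 6165858055) (nat_lit 456) (nat_lit 2196882650) (nat_lit 180) (nat_lit 5) (nat_lit 185) (nat_lit 5) (nat_lit 186) (nat_lit 4) (nat_lit 461) (nat_lit 348) (nat_lit 331))))) (XT.nd (nat_lit 234) (nat_lit 1444) (nat_lit 0) (XT.nd (nat_lit 78) (nat_lit 760) (nat_lit 0) (XT.lf (nat_lit 0) (nat_lit 2193667398) (nat_lit 456) (nat_lit 34813712) (nat_lit 76) (nat_lit 7496407759) (nat_lit 179) (nat_lit 5) (nat_lit 185) (nat_lit 5) (nat_lit 180) (nat_lit 5) (nat_lit 462) (nat_lit 348) (nat_lit 330)) (XT.nd (nat_lit 78) (nat_lit 380) (nat_lit 0) (XT.lf (nat_lit 0) (nat_lit 6648025959) (nat_lit 456) (nat_lit 1365952266) (nat_lit 76) (nat_lit 1798695795) (nat_lit 174) (nat_lit 5) (nat_lit 180) (nat_lit 5) (nat_lit 175) (nat_lit 4) (nat_lit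 463) (nat_lit 348) (nat_lit 329)) (XT.lf (nat_lit 0) (nat_lit 1272924763) (nat_lit 380) (nat_lit 2732661085) (nat_lit 76) (nat_lit 5896450078) (nat_lit 169) (nat_lit 5) (nat_lit 174) (nat_lit 5) (nat_lit 170) (nat_lit 5) (nat_lit 464) (nat_lit 348) (nat_lit 328)))) (XT.nd (nat_lit 156) (nat_lit 684) (nat_lit 0) (XT.nd (nat_lit 78) (nat_lit 380) (nat_lit 0) (XT.lf (nat_lit 0) (nat_lit 5744074548) (nat_lit 456) (nat_lit 4134822544) (nat_lit 76) (nat_lit 114125607) (nat_lit 164) (nat_lit 5) (nat_lit 170) (nat_lit 5) (nat_lit 165) (nat_lit 4) (nat_lit 465) (nat_lit 348) (nat_lit 327)) (XT.lf (nat_lit 0) (nat_lit 229752283) (nat_lit 380) (nat_lit 5580251948) (nat_lit 76) (nat_lit 4275520483) (nat_lit 159) (nat_lit 5) (nat_lit 164) (nat_lit 5) (nat_lit 160) (nat_lit 5) (nat_lit 466) (nat_lit 348) (nat_lit 326))) (XT.nd (nat_lit 78) (nat_lit 304) (nat_lit 0) (XT.lf (nat_lit 0) (nat_lit 3109090830) (nat_lit 380) (nat_lit 1619835366) (nat_lit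 456) (nat_lit 5450633006) (nat_lit 154) (nat_lit 5) (nat_lit 159) (nat_lit 5) (nat_lit 160) (nat_lit 5) (nat_lit 467) (nat_lit 348) (nat_lit 325)) (XT.lf (nat_lit 0) (nat_lit 1679113777) (nat_lit 304) (nat_lit 7644726158) (nat_lit 380) (nat_lit 951519315) (nat_lit 150) (nat_lit 5) (nat_lit 154) (nat_lit 5) (nat_lit 155) (nat_lit 4) (nat_lit 468) (nat_lit 348) (nat_lit 324)))))) (XT.nd (nat_lit 468) (nat_lit 1824) (nat_lit 0) (XT.nd (nat_lit 234) (nat_lit 988) (nat_lit 0) (XT.nd (nat_lit 78) (nat_lit 380) (nat_lit 0) (XT.lf (nat_lit 0) (nat_lit 196610269) (nat_lit 304) (nat_lit 3393099108) (nat_lit 380) (nat_lit 6782896769) (nat_lit 145) (nat_lit 5) (nat_lit 149) (nat_lit 5) (nat_lit 150) (nat_lit 5) (nat_lit 469) (nat_lit 348) (nat_lit 323)) (XT.nd (nat_lit 78) (nat_lit 380) (nat_lit 0) (XT.lf (nat_lit 0) (nat_lit 8213589978) (nat_lit 380) (nat_lit 1300606063) (nat_lit 76) (nat_lit 957384783) (nat_lit 145) (nat_lit 5) (nat_lit 150) (nat_lit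 5) (nat_lit 146) (nat_lit 4) (nat_lit 470) (nat_lit 348) (nat_lit 322)) (XT.lf (nat_lit 0) (nat_lit 2340807906) (nat_lit 380) (nat_lit 2853453019) (nat_lit 76) (nat_lit 5377681702) (nat_lit 140) (nat_lit 5) (nat_lit 145) (nat_lit 5) (nat_lit 141) (nat_lit 5) (nat_lit 471) (nat_lit 348) (nat_lit 321)))) (XT.nd (nat_lit 78) (nat_lit 684) (nat_lit 0) (XT.lf (nat_lit 0) (nat_lit 6230974032) (nat_lit 304) (nat_lit 761312238) (nat_lit 380) (nat_lit 3681908127) (nat_lit 136) (nat_lit 5) (nat_lit 140) (nat_lit 5) (nat_lit 141) (nat_lit 5) (nat_lit 472) (nat_lit 348) (nat_lit 320)) (XT.nd (nat_lit 78) (nat_lit 304) (nat_lit 0) (XT.lf (nat_lit 0) (nat_lit 961962533) (nat_lit 380) (nat_lit 6087232847) (nat_lit 76) (nat_lit 3728846825) (nat_lit 131) (nat_lit 5) (nat_lit 136) (nat_lit 5) (nat_lit 132) (nat_lit 5) (nat_lit 473) (nat_lit 348) (nat_lit 319)) (XT.lf (nat_lit 0) (nat_lit 3097794268) (nat_lit 304) (nat_lit 2548893003) (nat_lit 380) (nat_lit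 5236847403) (nat_lit 127) (nat_lit 5) (nat_lit 131) (nat_lit 5) (nat_lit 132) (nat_lit 5) (nat_lit 474) (nat_lit 348) (nat_lit 318))))) (XT.nd (nat_lit 234) (nat_lit 1216) (nat_lit 0) (XT.nd (nat_lit 78) (nat_lit 380) (nat_lit 0) (XT.lf (nat_lit 0) (nat_lit 1466586583) (nat_lit 228) (nat_lit 8964728051) (nat_lit 304) (nat_lit 559698195) (nat_lit 124) (nat_lit 5) (nat_lit 127) (nat_lit 5) (nat_lit 128) (nat_lit 4) (nat_lit 475) (nat_lit 348) (nat_lit 317)) (XT.nd (nat_lit 78) (nat_lit 304) (nat_lit 0) (XT.lf (nat_lit 0) (nat_lit 4167672695) (nat_lit 304) (nat_lit 232624909) (nat_lit 76) (nat_lit 6699557999) (nat_lit 123) (nat_lit 5) (nat_lit 127) (nat_lit 5) (nat_lit 124) (nat_lit 5) (nat_lit 476) (nat_lit 348) (nat_lit 316)) (XT.lf (nat_lit 0) (nat_lit 8987656994) (nat_lit 380) (nat_lit 1945748855) (nat_lit 76) (nat_lit 277284185) (nat_lit 119) (nat_lit 5) (nat_lit 124) (nat_lit 5) (nat_lit 120) (nat_lit 4) (nat_lit 477) (nat_lit 348)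 (nat_lit 315)))) (XT.nd (nat_lit 156) (nat_lit 608) (nat_lit 0) (XT.nd (nat_lit 78) (nat_lit 304) (nat_lit 0) (XT.lf (nat_lit 0) (nat_lit 2570507953) (nat_lit 304) (nat_lit 3733937523) (nat_lit 76) (nat_lit 5018479633) (nat_lit 115) (nat_lit 5) (nat_lit 119) (nat_lit 5) (nat_lit 116) (nat_lit 5) (nat_lit 478) (nat_lit 348) (nat_lit 314)) (XT.lf (nat_lit 0) (nat_lit 5869437548) (nat_lit 304) (nat_lit 1555901335) (nat_lit 380) (nat_lit 4011868405) (nat_lit 111) (nat_lit 5) (nat_lit 115) (nat_lit 5) (nat_lit 116) (nat_lit 5) (nat_lit 479) (nat_lit 348) (nat_lit 313))) (XT.nd (nat_lit 78) (nat_lit 304) (nat_lit 0) (XT.lf (nat_lit 0) (nat_lit 830103212) (nat_lit 304) (nat_lit 7461037385) (nat_lit 76) (nat_lit 3262179340) (nat_lit 107) (nat_lit 5) (nat_lit 111) (nat_lit 5) (nat_lit 108) (nat_lit 5) (nat_lit 480) (nat_lit 348) (nat_lit 312)) (XT.lf (nat_lit 0) (nat_lit 2245626532) (nat_lit 304) (nat_lit 3476342445) (nat_lit 380) (nat_lit 5949120019)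 (nat_lit 103) (nat_lit 5) (nat_lit 107) (nat_lit 5) (nat_lit 108) (nat_lit 5) (nat_lit 481) (nat_lit 348) (nat_lit 311))))))))
noncomputable def xc9 : XT := (XT.nd (nat_lit 57954) (nat_lit 0) (nat_lit 0) (XT.nd (nat_lit 56940) (nat_lit 0) (nat_lit 6232) (XT.nd (nat_lit 56394) (nat_lit 0) (nat_lit 11400) (XT.nd (nat_lit 234) (nat_lit 304) (nat_lit 0) (XT.nd (nat_lit 78) (nat_lit 304) (nat_lit 0) (XT.lf (nat_lit 0) (nat_lit 355451677) (nat_lit 228) (nat_lit 10362676964) (nat_lit 304) (nat_lit 1072955665) (nat_lit 100) (nat_lit 5) (nat_lit 103) (nat_lit 5) (nat_lit 104) (nat_lit 4) (nat_lit 482) (nat_lit 348) (nat_lit 310)) (XT.nd (nat_lit 78) (nat_lit 228) (nat_lit 0) (XT.lf (nat_lit 0) (nat_lit 3880797874) (nat_lit 304) (nat_lit 1598243657) (nat_lit 76) (nat_lit 6433306974) (nat_lit 99) (nat_lit 5) (nat_lit 103) (nat_lit 5) (nat_lit 100) (nat_lit 5) (nat_lit 483) (nat_lit 348) (nat_lit 309)) (XT.lf (nat_lit 0) (nat_lit 8444429094) (nat_lit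 228) (nat_lit 475292226) (nat_lit 304) (nat_lit 3116165588) (nat_lit 96) (nat_lit 5) (nat_lit 99) (nat_lit 5) (nat_lit 100) (nat_lit 5) (nat_lit 484) (nat_lit 348) (nat_lit 308)))) (XT.nd (nat_lit 56004) (nat_lit 0) (nat_lit 14820) (XT.lf (nat_lit 0) (nat_lit 1901744131) (nat_lit 304) (nat_lit 5665959645) (nat_lit 76) (nat_lit 4593363836) (nat_lit 92) (nat_lit 5) (nat_lit 96) (nat_lit 5) (nat_lit 93) (nat_lit 5) (nat_lit 485) (nat_lit 348) (nat_lit 307)) (XT.nd (nat_lit 78) (nat_lit 608) (nat_lit 0) (XT.lf (nat_lit 0) (nat_lit 2564375966) (nat_lit 608) (nat_lit 785599344) (nat_lit 608) (nat_lit 785599344) (nat_lit 295) (nat_lit 4) (nat_lit 303) (nat_lit 5) (nat_lit 303) (nat_lit 4) (nat_lit 442) (nat_lit 349) (nat_lit 349)) (XT.lf (nat_lit 0) (nat_lit 2566567972) (nat_lit 608) (nat_lit 4303761242) (nat_lit 0) (nat_lit 1460932790) (nat_lit 287) (nat_lit 5) (nat_lit 295) (nat_lit 4) (nat_lit 287) (nat_lit 4) (nat_lit 443) (nat_lit 349)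 (nat_lit 348))))) (XT.nd (nat_lit 234) (nat_lit 1672) (nat_lit 0) (XT.nd (nat_lit 78) (nat_lit 1140) (nat_lit 0) (XT.lf (nat_lit 0) (nat_lit 2912592334) (nat_lit 608) (nat_lit 3834869967) (nat_lit 608) (nat_lit 1645278726) (nat_lit 279) (nat_lit 4) (nat_lit 287) (nat_lit 5) (nat_lit 287) (nat_lit 4) (nat_lit 444) (nat_lit 349) (nat_lit 347)) (XT.nd (nat_lit 78) (nat_lit 532) (nat_lit 0) (XT.lf (nat_lit 0) (nat_lit 1787210636) (nat_lit 532) (nat_lit 707593273) (nat_lit 608) (nat_lit 5960877582) (nat_lit 271) (nat_lit 5) (nat_lit 278) (nat_lit 5) (nat_lit 279) (nat_lit 4) (nat_lit 445) (nat_lit 349) (nat_lit 346)) (XT.lf (nat_lit 0) (nat_lit 639456980) (nat_lit 532) (nat_lit 6045192628) (nat_lit 532) (nat_lit 1835233818) (nat_lit 264) (nat_lit 4) (nat_lit 271) (nat_lit 5) (nat_lit 271) (nat_lit 4) (nat_lit 446) (nat_lit 349) (nat_lit 345)))) (XT.nd (nat_lit 156) (nat_lit 1064) (nat_lit 0) (XT.nd (nat_lit 78) (nat_lit 532) (nat_lit 0) (XT.lf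 (nat_lit 0) (nat_lit 2323485607) (nat_lit 608) (nat_lit 517925731) (nat_lit 76) (nat_lit 5744016246) (nat_lit 263) (nat_lit 5) (nat_lit 271) (nat_lit 5) (nat_lit 264) (nat_lit 4) (nat_lit 447) (nat_lit 349) (nat_lit 344)) (XT.lf (nat_lit 0) (nat_lit 6522373796) (nat_lit 608) (nat_lit 1679366011) (nat_lit 0) (nat_lit 450668837) (nat_lit 256) (nat_lit 5) (nat_lit 264) (nat_lit 4) (nat_lit 256) (nat_lit 4) (nat_lit 448) (nat_lit 349) (nat_lit 343))) (XT.nd (nat_lit 78) (nat_lit 456) (nat_lit 0) (XT.lf (nat_lit 0) (nat_lit 2051310103) (nat_lit 608) (nat_lit 2871707530) (nat_lit 76) (nat_lit 3797558244) (nat_lit 248) (nat_lit 5) (nat_lit 256) (nat_lit 5) (nat_lit 249) (nat_lit 4) (nat_lit 449) (nat_lit 349) (nat_lit 342)) (XT.lf (nat_lit 0) (nat_lit 4712318496) (nat_lit 456) (nat_lit 1551453036) (nat_lit 532) (nat_lit 2526533118) (nat_lit 242) (nat_lit 5) (nat_lit 248) (nat_lit 5) (nat_lit 249) (nat_lit 4) (nat_lit 450) (nat_lit 349) (nat_lit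 341)))))) (XT.nd (nat_lit 468) (nat_lit 2584) (nat_lit 0) (XT.nd (nat_lit 234) (nat_lit 988) (nat_lit 0) (XT.nd (nat_lit 78) (nat_lit 988) (nat_lit 0) (XT.lf (nat_lit 0) (nat_lit 1666018041) (nat_lit 608) (nat_lit 5308668990) (nat_lit 76) (nat_lit 1886735396) (nat_lit 234) (nat_lit 5) (nat_lit 242) (nat_lit 5) (nat_lit 235) (nat_lit 4) (nat_lit 451) (nat_lit 349) (nat_lit 340)) (XT.nd (nat_lit 78) (nat_lit 532) (nat_lit 0) (XT.lf (nat_lit 0) (nat_lit 2365235491) (nat_lit 456) (nat_lit 3531322290) (nat_lit 532) (nat_lit 3037311411) (nat_lit 228) (nat_lit 5) (nat_lit 234) (nat_lit 5) (nat_lit 235) (nat_lit 4) (nat_lit 452) (nat_lit 349) (nat_lit 339)) (XT.lf (nat_lit 0) (nat_lit 1166592956) (nat_lit 532) (nat_lit 7840053976) (nat_lit 76) (nat_lit 1392837) (nat_lit 221) (nat_lit 5) (nat_lit 228) (nat_lit 5) (nat_lit 222) (nat_lit 4) (nat_lit 453) (nat_lit 349) (nat_lit 338)))) (XT.nd (nat_lit 78) (nat_lit 988) (nat_lit 0) (XT.lf (nat_lit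 0) (nat_lit 5417131977) (nat_lit 532) (nat_lit 75468379) (nat_lit 76) (nat_lit 3590627344) (nat_lit 221) (nat_lit 5) (nat_lit 228) (nat_lit 5) (nat_lit 222) (nat_lit 4) (nat_lit 454) (nat_lit 349) (nat_lit 337)) (XT.nd (nat_lit 78) (nat_lit 456) (nat_lit 0) (XT.lf (nat_lit 0) (nat_lit 572584416) (nat_lit 532) (nat_lit 1311876743) (nat_lit 76) (nat_lit 7275629336) (nat_lit 214) (nat_lit 5) (nat_lit 221) (nat_lit 5) (nat_lit 215) (nat_lit 5) (nat_lit 455) (nat_lit 349) (nat_lit 336)) (XT.lf (nat_lit 0) (nat_lit 4839556739) (nat_lit 532) (nat_lit 2589853767) (nat_lit 76) (nat_lit 1808743230) (nat_lit 208) (nat_lit 5) (nat_lit 215) (nat_lit 5) (nat_lit 209) (nat_lit 4) (nat_lit 456) (nat_lit 349) (nat_lit 335))))) (XT.nd (nat_lit 234) (nat_lit 1292) (nat_lit 0) (XT.nd (nat_lit 78) (nat_lit 912) (nat_lit 0) (XT.lf (nat_lit 0) (nat_lit 5430590482) (nat_lit 380) (nat_lit 3755197072) (nat_lit 456) (nat_lit 132112305) (nat_lit 203) (nat_lit 5)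 (nat_lit 208) (nat_lit 5) (nat_lit 209) (nat_lit 4) (nat_lit 457) (nat_lit 349) (nat_lit 334)) (XT.nd (nat_lit 78) (nat_lit 380) (nat_lit 0) (XT.lf (nat_lit 0) (nat_lit 4146713042) (nat_lit 532) (nat_lit 5220464320) (nat_lit 76) (nat_lit 31868539) (nat_lit 196) (nat_lit 5) (nat_lit 203) (nat_lit 5) (nat_lit 197) (nat_lit 4) (nat_lit 458) (nat_lit 349) (nat_lit 333)) (XT.lf (nat_lit 0) (nat_lit 2892671116) (nat_lit 380) (nat_lit 5624489169) (nat_lit 456) (nat_lit 964480827) (nat_lit 191) (nat_lit 5) (nat_lit 196) (nat_lit 5) (nat_lit 197) (nat_lit 4) (nat_lit 459) (nat_lit 349) (nat_lit 332)))) (XT.nd (nat_lit 156) (nat_lit 456) (nat_lit 0) (XT.nd (nat_lit 78) (nat_lit 380) (nat_lit 0) (XT.lf (nat_lit 0) (nat_lit 1575210726) (nat_lit 380) (nat_lit 1772789235) (nat_lit 456) (nat_lit 6217773918) (nat_lit 185) (nat_lit 5) (nat_lit 190) (nat_lit 5) (nat_lit 191) (nat_lit 5) (nat_lit 460) (nat_lit 349) (nat_lit 331)) (XT.lf (nat_lit 0) (nat_lit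 226484967) (nat_lit 380) (nat_lit 7505775550) (nat_lit 456) (nat_lit 1919232390) (nat_lit 180) (nat_lit 5) (nat_lit 185) (nat_lit 5) (nat_lit 186) (nat_lit 4) (nat_lit 461) (nat_lit 349) (nat_lit 330))) (XT.nd (nat_lit 78) (nat_lit 380) (nat_lit 0) (XT.lf (nat_lit 0) (nat_lit 2437296354) (nat_lit 456) (nat_lit 1147036882) (nat_lit 76) (nat_lit 6154185974) (nat_lit 179) (nat_lit 5) (nat_lit 185) (nat_lit 5) (nat_lit 180) (nat_lit 5) (nat_lit 462) (nat_lit 349) (nat_lit 329)) (XT.lf (nat_lit 0) (nat_lit 6845276143) (nat_lit 456) (nat_lit 2546204588) (nat_lit 76) (nat_lit 435751206) (nat_lit 174) (nat_lit 5) (nat_lit 180) (nat_lit 5) (nat_lit 175) (nat_lit 4) (nat_lit 463) (nat_lit 349) (nat_lit 328))))))) (XT.nd (nat_lit 1014) (nat_lit 2356) (nat_lit 0) (XT.nd (nat_lit 468) (nat_lit 1976) (nat_lit 0) (XT.nd (nat_lit 234) (nat_lit 760) (nat_lit 0) (XT.nd (nat_lit 78) (nat_lit 760) (nat_lit 0) (XT.lf (nat_lit 0) (nat_lit 1415277246) (nat_lit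 380) (nat_lit 3992851906) (nat_lit 76) (nat_lit 4509199842) (nat_lit 169) (nat_lit 5) (nat_lit 174) (nat_lit 5) (nat_lit 170) (nat_lit 5) (nat_lit 464) (nat_lit 349) (nat_lit 327)) (XT.nd (nat_lit 78) (nat_lit 380) (nat_lit 0) (XT.lf (nat_lit 0) (nat_lit 4533940746) (nat_lit 380) (nat_lit 1313595750) (nat_lit 456) (nat_lit 4161557083) (nat_lit 164) (nat_lit 5) (nat_lit 169) (nat_lit 5) (nat_lit 170) (nat_lit 5) (nat_lit 465) (nat_lit 349) (nat_lit 326)) (XT.lf (nat_lit 0) (nat_lit 268702421) (nat_lit 380) (nat_lit 6995265460) (nat_lit 76) (nat_lit 2838562261) (nat_lit 159) (nat_lit 5) (nat_lit 164) (nat_lit 5) (nat_lit 160) (nat_lit 5) (nat_lit 466) (nat_lit 349) (nat_lit 325)))) (XT.nd (nat_lit 78) (nat_lit 380) (nat_lit 0) (XT.lf (nat_lit 0) (nat_lit 1626949125) (nat_lit 380) (nat_lit 3102000546) (nat_lit 456) (nat_lit 5468393491) (nat_lit 154) (nat_lit 5) (nat_lit 159) (nat_lit 5) (nat_lit 160) (nat_lit 5) (nat_lit 467) (nat_lit 349)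 (nat_lit 324)) (XT.nd (nat_lit 78) (nat_lit 76) (nat_lit 0) (XT.lf (nat_lit 0) (nat_lit 120532688) (nat_lit 304) (nat_lit 9154432482) (nat_lit 380) (nat_lit 1019156006) (nat_lit 150) (nat_lit 5) (nat_lit 154) (nat_lit 5) (nat_lit 155) (nat_lit 4) (nat_lit 468) (nat_lit 349) (nat_lit 323)) (XT.lf (nat_lit 0) (nat_lit 3492599317) (nat_lit 380) (nat_lit 1430781524) (nat_lit 76) (nat_lit 5468603222) (nat_lit 149) (nat_lit 5) (nat_lit 154) (nat_lit 5) (nat_lit 150) (nat_lit 5) (nat_lit 469) (nat_lit 349) (nat_lit 322))))) (XT.nd (nat_lit 234) (nat_lit 988) (nat_lit 0) (XT.nd (nat_lit 78) (nat_lit 684) (nat_lit 0) (XT.lf (nat_lit 0) (nat_lit 7483399043) (nat_lit 304) (nat_lit 588546604) (nat_lit 380) (nat_lit 2419903781) (nat_lit 145) (nat_lit 5) (nat_lit 149) (nat_lit 5) (nat_lit 150) (nat_lit 5) (nat_lit 470) (nat_lit 349) (nat_lit 321)) (XT.nd (nat_lit 78) (nat_lit 304) (nat_lit 0) (XT.lf (nat_lit 0) (nat_lit 2137010148) (nat_lit 380) (nat_lit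 4647656494) (nat_lit 76) (nat_lit 3808445780) (nat_lit 140) (nat_lit 5) (nat_lit 145) (nat_lit 5) (nat_lit 141) (nat_lit 5) (nat_lit 471) (nat_lit 349) (nat_lit 320)) (XT.lf (nat_lit 0) (nat_lit 4365126719) (nat_lit 304) (nat_lit 2382936808) (nat_lit 380) (nat_lit 3948109164) (nat_lit 136) (nat_lit 5) (nat_lit 140) (nat_lit 5) (nat_lit 141) (nat_lit 5) (nat_lit 472) (nat_lit 349) (nat_lit 319)))) (XT.nd (nat_lit 156) (nat_lit 304) (nat_lit 0) (XT.nd (nat_lit 78) (nat_lit 304) (nat_lit 0) (XT.lf (nat_lit 0) (nat_lit 647540162) (nat_lit 380) (nat_lit 8058345551) (nat_lit 76) (nat_lit 2095203605) (nat_lit 131) (nat_lit 5) (nat_lit 136) (nat_lit 5) (nat_lit 132) (nat_lit 5) (nat_lit 473) (nat_lit 349) (nat_lit 318)) (XT.lf (nat_lit 0) (nat_lit 1052492889) (nat_lit 304) (nat_lit 4238373157) (nat_lit 380) (nat_lit 5616543718) (nat_lit 127) (nat_lit 5) (nat_lit 131) (nat_lit 5) (nat_lit 132) (nat_lit 5) (nat_lit 474) (nat_lit 349) (nat_lit 317)))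 (XT.nd (nat_lit 78) (nat_lit 304) (nat_lit 0) (XT.lf (nat_lit 0) (nat_lit 10027004071) (nat_lit 380) (nat_lit 658340727) (nat_lit 76) (nat_lit 330512909) (nat_lit 127) (nat_lit 5) (nat_lit 132) (nat_lit 5) (nat_lit 128) (nat_lit 4) (nat_lit 475) (nat_lit 349) (nat_lit 316)) (XT.lf (nat_lit 0) (nat_lit 3711846665) (nat_lit 304) (nat_lit 2435962091) (nat_lit 76) (nat_lit 4977593433) (nat_lit 123) (nat_lit 5) (nat_lit 127) (nat_lit 5) (nat_lit 124) (nat_lit 5) (nat_lit 476) (nat_lit 349) (nat_lit 315)))))) (XT.nd (nat_lit 468) (nat_lit 836) (nat_lit 0) (XT.nd (nat_lit 234) (nat_lit 608) (nat_lit 0) (XT.nd (nat_lit 78) (nat_lit 608) (nat_lit 0) (XT.lf (nat_lit 0) (nat_lit 6986951909) (nat_lit 304) (nat_lit 1500861177) (nat_lit 380) (nat_lit 2749303891) (nat_lit 119) (nat_lit 5) (nat_lit 123) (nat_lit 5) (nat_lit 124) (nat_lit 5) (nat_lit 477) (nat_lit 349) (nat_lit 314)) (XT.nd (nat_lit 78) (nat_lit 304) (nat_lit 0) (XT.lf (nat_lit 0) (nat_lit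 1998364289) (nat_lit 304) (nat_lit 6130160734) (nat_lit 76) (nat_lit 3221950866) (nat_lit 115) (nat_lit 5) (nat_lit 119) (nat_lit 5) (nat_lit 116) (nat_lit 5) (nat_lit 478) (nat_lit 349) (nat_lit 313)) (XT.lf (nat_lit 0) (nat_lit 3393969451) (nat_lit 304) (nat_lit 3415928554) (nat_lit 380) (nat_lit 4655726008) (nat_lit 111) (nat_lit 5) (nat_lit 115) (nat_lit 5) (nat_lit 116) (nat_lit 5) (nat_lit 479) (nat_lit 349) (nat_lit 312)))) (XT.nd (nat_lit 78) (nat_lit 304) (nat_lit 0) (XT.lf (nat_lit 0) (nat_lit 138422081) (nat_lit 304) (nat_lit 10058452020) (nat_lit 76) (nat_lit 1386071524) (nat_lit 107) (nat_lit 5) (nat_lit 111) (nat_lit 5) (nat_lit 108) (nat_lit 5) (nat_lit 480) (nat_lit 349) (nat_lit 311)) (XT.nd (nat_lit 78) (nat_lit 304) (nat_lit 0) (XT.lf (nat_lit 0) (nat_lit 4988639820) (nat_lit 304) (nat_lit 428175479) (nat_lit 76) (nat_lit 6284732346) (nat_lit 107) (nat_lit 5) (nat_lit 111) (nat_lit 5) (nat_lit 108) (nat_lit 5) (nat_lit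 481) (nat_lit 349) (nat_lit 310)) (XT.lf (nat_lit 0) (nat_lit 9425371173) (nat_lit 304) (nat_lit 518081387) (nat_lit 380) (nat_lit 1878917332) (nat_lit 103) (nat_lit 5) (nat_lit 107) (nat_lit 5) (nat_lit 108) (nat_lit 5) (nat_lit 482) (nat_lit 349) (nat_lit 309))))) (XT.nd (nat_lit 56004) (nat_lit 0) (nat_lit 14820) (XT.nd (nat_lit 78) (nat_lit 532) (nat_lit 0) (XT.lf (nat_lit 0) (nat_lit 3039248572) (nat_lit 304) (nat_lit 4452532322) (nat_lit 76) (nat_lit 4452881013) (nat_lit 99) (nat_lit 5) (nat_lit 103) (nat_lit 5) (nat_lit 100) (nat_lit 5) (nat_lit 483) (nat_lit 349) (nat_lit 308)) (XT.nd (nat_lit 78) (nat_lit 304) (nat_lit 0) (XT.lf (nat_lit 0) (nat_lit 5505434759) (nat_lit 228) (nat_lit 2527263128) (nat_lit 304) (nat_lit 4036411906) (nat_lit 96) (nat_lit 5) (nat_lit 99) (nat_lit 5) (nat_lit 100) (nat_lit 5) (nat_lit 484) (nat_lit 349) (nat_lit 307)) (XT.lf (nat_lit 0) (nat_lit 933779945) (nat_lit 304) (nat_lit 8739085694) (nat_lit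 76) (nat_lit 2522740097) (nat_lit 92) (nat_lit 5) (nat_lit 96) (nat_lit 5) (nat_lit 93) (nat_lit 5) (nat_lit 485) (nat_lit 349) (nat_lit 306)))) (XT.nd (nat_lit 156) (nat_lit 1216) (nat_lit 0) (XT.nd (nat_lit 78) (nat_lit 684) (nat_lit 0) (XT.lf (nat_lit 0) (nat_lit 3672116064) (nat_lit 608) (nat_lit 202537602) (nat_lit 608) (nat_lit 202537602) (nat_lit 312) (nat_lit 4) (nat_lit 320) (nat_lit 5) (nat_lit 320) (nat_lit 4) (nat_lit 440) (nat_lit 350) (nat_lit 350)) (XT.lf (nat_lit 0) (nat_lit 3681046556) (nat_lit 684) (nat_lit 2000491305) (nat_lit 0) (nat_lit 2530743714) (nat_lit 303) (nat_lit 5) (nat_lit 312) (nat_lit 4) (nat_lit 303) (nat_lit 4) (nat_lit 441) (nat_lit 350) (nat_lit 349))) (XT.nd (nat_lit 78) (nat_lit 608) (nat_lit 0) (XT.lf (nat_lit 0) (nat_lit 5082028323) (nat_lit 608) (nat_lit 2733928820) (nat_lit 608) (nat_lit 455878092) (nat_lit 295) (nat_lit 4) (nat_lit 303) (nat_lit 5) (nat_lit 303) (nat_lit 4) (nat_lit 442) (nat_lit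 350) (nat_lit 348)) (XT.lf (nat_lit 0) (nat_lit 3625164316) (nat_lit 608) (nat_lit 4399655529) (nat_lit 0) (nat_lit 307825189) (nat_lit 287) (nat_lit 5) (nat_lit 295) (nat_lit 4) (nat_lit 287) (nat_lit 4) (nat_lit 443) (nat_lit 350) (nat_lit 347))))))))
noncomputable def xc10 : XT := (XT.nd (nat_lit 2028) (nat_lit 4256) (nat_lit 0) (XT.nd (nat_lit 1014) (nat_lit 4484) (nat_lit 0) (XT.nd (nat_lit 468) (nat_lit 3040) (nat_lit 0) (XT.nd (nat_lit 234) (nat_lit 1216) (nat_lit 0) (XT.nd (nat_lit 78) (nat_lit 1140) (nat_lit 0) (XT.lf (nat_lit 0) (nat_lit 2768263561) (nat_lit 608) (nat_lit 5003295814) (nat_lit 608) (nat_lit 623254668) (nat_lit 279) (nat_lit 4) (nat_lit 287) (nat_lit 5) (nat_lit 287) (nat_lit 4) (nat_lit 444) (nat_lit 350) (nat_lit 346)) (XT.nd (nat_lit 78) (nat_lit 532) (nat_lit 0) (XT.lf (nat_lit 0) (nat_lit 1584839471) (nat_lit 532) (nat_lit 1883846341) (nat_lit 608) (nat_lit 4989630744) (nat_lit 271) (nat_lit 5) (nat_lit 278)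 (nat_lit 5) (nat_lit 279) (nat_lit 4) (nat_lit 445) (nat_lit 350) (nat_lit 345)) (XT.lf (nat_lit 0) (nat_lit 391893415) (nat_lit 532) (nat_lit 7224237464) (nat_lit 532) (nat_lit 907235624) (nat_lit 264) (nat_lit 4) (nat_lit 271) (nat_lit 5) (nat_lit 271) (nat_lit 4) (nat_lit 446) (nat_lit 350) (nat_lit 344)))) (XT.nd (nat_lit 78) (nat_lit 1140) (nat_lit 0) (XT.lf (nat_lit 0) (nat_lit 3206286702) (nat_lit 608) (nat_lit 822075100) (nat_lit 76) (nat_lit 4561088881) (nat_lit 263) (nat_lit 5) (nat_lit 271) (nat_lit 5) (nat_lit 264) (nat_lit 4) (nat_lit 447) (nat_lit 350) (nat_lit 343)) (XT.nd (nat_lit 78) (nat_lit 608) (nat_lit 0) (XT.lf (nat_lit 0) (nat_lit 6621107681) (nat_lit 532) (nat_lit 746418992) (nat_lit 608) (nat_lit 1289658035) (nat_lit 256) (nat_lit 5) (nat_lit 263) (nat_lit 5) (nat_lit 264) (nat_lit 4) (nat_lit 448) (nat_lit 350) (nat_lit 342)) (XT.lf (nat_lit 0) (nat_lit 2840805427) (nat_lit 608) (nat_lit 3286029097) (nat_lit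 76) (nat_lit 2599205488) (nat_lit 248) (nat_lit 5) (nat_lit 256) (nat_lit 5) (nat_lit 249) (nat_lit 4) (nat_lit 449) (nat_lit 350) (nat_lit 341))))) (XT.nd (nat_lit 234) (nat_lit 1520) (nat_lit 0) (XT.nd (nat_lit 78) (nat_lit 1064) (nat_lit 0) (XT.lf (nat_lit 0) (nat_lit 4245350447) (nat_lit 456) (nat_lit 2772873537) (nat_lit 532) (nat_lit 1778245658) (nat_lit 242) (nat_lit 5) (nat_lit 248) (nat_lit 5) (nat_lit 249) (nat_lit 4) (nat_lit 450) (nat_lit 350) (nat_lit 340)) (XT.nd (nat_lit 78) (nat_lit 456) (nat_lit 0) (XT.lf (nat_lit 0) (nat_lit 2361130127) (nat_lit 608) (nat_lit 5839030391) (nat_lit 76) (nat_lit 668196961) (nat_lit 234) (nat_lit 5) (nat_lit 242) (nat_lit 5) (nat_lit 235) (nat_lit 4) (nat_lit 451) (nat_lit 350) (nat_lit 339)) (XT.lf (nat_lit 0) (nat_lit 1780334445) (nat_lit 456) (nat_lit 4775873301) (nat_lit 532) (nat_lit 2385305741) (nat_lit 228) (nat_lit 5) (nat_lit 234) (nat_lit 5) (nat_lit 235) (nat_lit 4) (nat_lit 452)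 (nat_lit 350) (nat_lit 338)))) (XT.nd (nat_lit 156) (nat_lit 988) (nat_lit 0) (XT.nd (nat_lit 78) (nat_lit 0) (nat_lit 0) (XT.lf (nat_lit 0) (nat_lit 515681792) (nat_lit 456) (nat_lit 1258567677) (nat_lit 532) (nat_lit 7242065889) (nat_lit 221) (nat_lit 5) (nat_lit 227) (nat_lit 5) (nat_lit 228) (nat_lit 5) (nat_lit 453) (nat_lit 350) (nat_lit 337)) (XT.lf (nat_lit 0) (nat_lit 5985278947) (nat_lit 532) (nat_lit 775071545) (nat_lit 76) (nat_lit 2331942990) (nat_lit 221) (nat_lit 5) (nat_lit 228) (nat_lit 5) (nat_lit 222) (nat_lit 4) (nat_lit 454) (nat_lit 350) (nat_lit 336))) (XT.nd (nat_lit 78) (nat_lit 456) (nat_lit 0) (XT.lf (nat_lit 0) (nat_lit 1088466517) (nat_lit 532) (nat_lit 2080834158) (nat_lit 76) (nat_lit 6000500334) (nat_lit 214) (nat_lit 5) (nat_lit 221) (nat_lit 5) (nat_lit 215) (nat_lit 5) (nat_lit 455) (nat_lit 350) (nat_lit 335)) (XT.lf (nat_lit 0) (nat_lit 5310973927) (nat_lit 532) (nat_lit 3417969050) (nat_lit 76) (nat_lit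 519810572) (nat_lit 208) (nat_lit 5) (nat_lit 215) (nat_lit 5) (nat_lit 209) (nat_lit 4) (nat_lit 456) (nat_lit 350) (nat_lit 334)))))) (XT.nd (nat_lit 468) (nat_lit 2280) (nat_lit 0) (XT.nd (nat_lit 234) (nat_lit 912) (nat_lit 0) (XT.nd (nat_lit 78) (nat_lit 836) (nat_lit 0) (XT.lf (nat_lit 0) (nat_lit 287977937) (nat_lit 456) (nat_lit 4786837963) (nat_lit 76) (nat_lit 4254369412) (nat_lit 202) (nat_lit 5) (nat_lit 208) (nat_lit 5) (nat_lit 203) (nat_lit 5) (nat_lit 457) (nat_lit 350) (nat_lit 333)) (XT.nd (nat_lit 78) (nat_lit 380) (nat_lit 0) (XT.lf (nat_lit 0) (nat_lit 3219155377) (nat_lit 456) (nat_lit 1309149559) (nat_lit 532) (nat_lit 4882744576) (nat_lit 196) (nat_lit 5) (nat_lit 202) (nat_lit 5) (nat_lit 203) (nat_lit 5) (nat_lit 458) (nat_lit 350) (nat_lit 332)) (XT.lf (nat_lit 0) (nat_lit 1869466199) (nat_lit 380) (nat_lit 6984004989) (nat_lit 456) (nat_lit 641079154) (nat_lit 191) (nat_lit 5) (nat_lit 196) (nat_lit 5) (nat_lit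 197) (nat_lit 4) (nat_lit 459) (nat_lit 350) (nat_lit 331)))) (XT.nd (nat_lit 78) (nat_lit 456) (nat_lit 0) (XT.lf (nat_lit 0) (nat_lit 475629132) (nat_lit 380) (nat_lit 3154345065) (nat_lit 456) (nat_lit 5949410637) (nat_lit 185) (nat_lit 5) (nat_lit 190) (nat_lit 5) (nat_lit 191) (nat_lit 5) (nat_lit 460) (nat_lit 350) (nat_lit 330)) (XT.nd (nat_lit 78) (nat_lit 456) (nat_lit 0) (XT.lf (nat_lit 0) (nat_lit 7973924303) (nat_lit 456) (nat_lit 927831266) (nat_lit 76) (nat_lit 764154501) (nat_lit 185) (nat_lit 5) (nat_lit 191) (nat_lit 5) (nat_lit 186) (nat_lit 4) (nat_lit 461) (nat_lit 350) (nat_lit 329)) (XT.lf (nat_lit 0) (nat_lit 2625633830) (nat_lit 456) (nat_lit 2376866828) (nat_lit 76) (nat_lit 4751124782) (nat_lit 179) (nat_lit 5) (nat_lit 185) (nat_lit 5) (nat_lit 180) (nat_lit 5) (nat_lit 462) (nat_lit 350) (nat_lit 328))))) (XT.nd (nat_lit 234) (nat_lit 1140) (nat_lit 0) (XT.nd (nat_lit 78) (nat_lit 760) (nat_lit 0) (XT.lf (nat_lit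 0) (nat_lit 5990879253) (nat_lit 380) (nat_lit 1002271916) (nat_lit 456) (nat_lit 2849996248) (nat_lit 174) (nat_lit 5) (nat_lit 179) (nat_lit 5) (nat_lit 180) (nat_lit 5) (nat_lit 463) (nat_lit 350) (nat_lit 327)) (XT.nd (nat_lit 78) (nat_lit 380) (nat_lit 0) (XT.lf (nat_lit 0) (nat_lit 1500812512) (nat_lit 380) (nat_lit 5374108647) (nat_lit 76) (nat_lit 3059200051) (nat_lit 169) (nat_lit 5) (nat_lit 174) (nat_lit 5) (nat_lit 170) (nat_lit 5) (nat_lit 464) (nat_lit 350) (nat_lit 326)) (XT.lf (nat_lit 0) (nat_lit 3087183557) (nat_lit 380) (nat_lit 2807537285) (nat_lit 456) (nat_lit 4131931972) (nat_lit 164) (nat_lit 5) (nat_lit 169) (nat_lit 5) (nat_lit 170) (nat_lit 5) (nat_lit 465) (nat_lit 350) (nat_lit 325)))) (XT.nd (nat_lit 156) (nat_lit 380) (nat_lit 0) (XT.nd (nat_lit 78) (nat_lit 380) (nat_lit 0) (XT.lf (nat_lit 0) (nat_lit 249238259) (nat_lit 380) (nat_lit 8534912311) (nat_lit 76) (nat_lit 1336908973) (nat_lit 159) (nat_lit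 5) (nat_lit 164) (nat_lit 5) (nat_lit 160) (nat_lit 5) (nat_lit 466) (nat_lit 350) (nat_lit 324)) (XT.lf (nat_lit 0) (nat_lit 19465287) (nat_lit 380) (nat_lit 4650854337) (nat_lit 456) (nat_lit 5546336257) (nat_lit 154) (nat_lit 5) (nat_lit 159) (nat_lit 5) (nat_lit 160) (nat_lit 5) (nat_lit 467) (nat_lit 350) (nat_lit 323))) (XT.nd (nat_lit 78) (nat_lit 380) (nat_lit 0) (XT.lf (nat_lit 0) (nat_lit 8766800580) (nat_lit 380) (nat_lit 412791878) (nat_lit 456) (nat_lit 1134576291) (nat_lit 154) (nat_lit 5) (nat_lit 159) (nat_lit 5) (nat_lit 160) (nat_lit 5) (nat_lit 468) (nat_lit 350) (nat_lit 322)) (XT.lf (nat_lit 0) (nat_lit 3337251562) (nat_lit 380) (nat_lit 3182970286) (nat_lit 76) (nat_lit 3892653600) (nat_lit 149) (nat_lit 5) (nat_lit 154) (nat_lit 5) (nat_lit 150) (nat_lit 5) (nat_lit 469) (nat_lit 350) (nat_lit 321))))))) (XT.nd (nat_lit 1014) (nat_lit 760) (nat_lit 0) (XT.nd (nat_lit 468) (nat_lit 1824) (nat_lit 0) (XT.nd (nat_lit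 234) (nat_lit 684) (nat_lit 0) (XT.nd (nat_lit 78) (nat_lit 684) (nat_lit 0) (XT.lf (nat_lit 0) (nat_lit 5661263684) (nat_lit 304) (nat_lit 2215549148) (nat_lit 380) (nat_lit 2636723682) (nat_lit 145) (nat_lit 5) (nat_lit 149) (nat_lit 5) (nat_lit 150) (nat_lit 5) (nat_lit 470) (nat_lit 350) (nat_lit 320)) (XT.nd (nat_lit 78) (nat_lit 304) (nat_lit 0) (XT.lf (nat_lit 0) (nat_lit 1871948888) (nat_lit 380) (nat_lit 6573033326) (nat_lit 76) (nat_lit 2170867149) (nat_lit 140) (nat_lit 5) (nat_lit 145) (nat_lit 5) (nat_lit 141) (nat_lit 5) (nat_lit 471) (nat_lit 350) (nat_lit 319)) (XT.lf (nat_lit 0) (nat_lit 2367300076) (nat_lit 304) (nat_lit 4074975420) (nat_lit 380) (nat_lit 4277448671) (nat_lit 136) (nat_lit 5) (nat_lit 140) (nat_lit 5) (nat_lit 141) (nat_lit 5) (nat_lit 472) (nat_lit 350) (nat_lit 318)))) (XT.nd (nat_lit 78) (nat_lit 304) (nat_lit 0) (XT.lf (nat_lit 0) (nat_lit 270028154) (nat_lit 380) (nat_lit 10164556151) (nat_lit 76)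 (nat_lit 391149093) (nat_lit 131) (nat_lit 5) (nat_lit 136) (nat_lit 5) (nat_lit 132) (nat_lit 5) (nat_lit 473) (nat_lit 350) (nat_lit 317)) (XT.nd (nat_lit 78) (nat_lit 304) (nat_lit 0) (XT.lf (nat_lit 0) (nat_lit 4878952516) (nat_lit 380) (nat_lit 1113956814) (nat_lit 76) (nat_lit 4939832544) (nat_lit 131) (nat_lit 5) (nat_lit 136) (nat_lit 5) (nat_lit 132) (nat_lit 5) (nat_lit 474) (nat_lit 350) (nat_lit 316)) (XT.lf (nat_lit 0) (nat_lit 8132351318) (nat_lit 304) (nat_lit 1445909134) (nat_lit 380) (nat_lit 1463665966) (nat_lit 127) (nat_lit 5) (nat_lit 131) (nat_lit 5) (nat_lit 132) (nat_lit 5) (nat_lit 475) (nat_lit 350) (nat_lit 315))))) (XT.nd (nat_lit 234) (nat_lit 912) (nat_lit 0) (XT.nd (nat_lit 78) (nat_lit 608) (nat_lit 0) (XT.lf (nat_lit 0) (nat_lit 3191573605) (nat_lit 304) (nat_lit 4777522598) (nat_lit 76) (nat_lit 3183470112) (nat_lit 123) (nat_lit 5) (nat_lit 127) (nat_lit 5) (nat_lit 124) (nat_lit 5) (nat_lit 476) (nat_lit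 350) (nat_lit 314)) (XT.nd (nat_lit 78) (nat_lit 304) (nat_lit 0) (XT.lf (nat_lit 0) (nat_lit 4567967784) (nat_lit 304) (nat_lit 3357012337) (nat_lit 380) (nat_lit 3340152181) (nat_lit 119) (nat_lit 5) (nat_lit 123) (nat_lit 5) (nat_lit 124) (nat_lit 5) (nat_lit 477) (nat_lit 350) (nat_lit 313)) (XT.lf (nat_lit 0) (nat_lit 1359783588) (nat_lit 304) (nat_lit 8668801337) (nat_lit 76) (nat_lit 1351092642) (nat_lit 115) (nat_lit 5) (nat_lit 119) (nat_lit 5) (nat_lit 116) (nat_lit 5) (nat_lit 478) (nat_lit 350) (nat_lit 312)))) (XT.nd (nat_lit 156) (nat_lit 608) (nat_lit 0) (XT.nd (nat_lit 78) (nat_lit 0) (nat_lit 0) (XT.lf (nat_lit 0) (nat_lit 775120727) (nat_lit 304) (nat_lit 5352502261) (nat_lit 380) (nat_lit 5368076589) (nat_lit 111) (nat_lit 5) (nat_lit 115) (nat_lit 5) (nat_lit 116) (nat_lit 5) (nat_lit 479) (nat_lit 350) (nat_lit 311)) (XT.lf (nat_lit 0) (nat_lit 10433398466) (nat_lit 304) (nat_lit 562136734) (nat_lit 380) (nat_lit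 618412509) (nat_lit 111) (nat_lit 5) (nat_lit 115) (nat_lit 5) (nat_lit 116) (nat_lit 5) (nat_lit 480) (nat_lit 350) (nat_lit 310))) (XT.nd (nat_lit 78) (nat_lit 304) (nat_lit 0) (XT.lf (nat_lit 0) (nat_lit 4201910664) (nat_lit 304) (nat_lit 3218363557) (nat_lit 76) (nat_lit 4313115914) (nat_lit 107) (nat_lit 5) (nat_lit 111) (nat_lit 5) (nat_lit 108) (nat_lit 5) (nat_lit 481) (nat_lit 350) (nat_lit 309)) (XT.lf (nat_lit 0) (nat_lit 6552390421) (nat_lit 304) (nat_lit 2559662838) (nat_lit 380) (nat_lit 2743052527) (nat_lit 103) (nat_lit 5) (nat_lit 107) (nat_lit 5) (nat_lit 108) (nat_lit 5) (nat_lit 482) (nat_lit 350) (nat_lit 308)))))) (XT.nd (nat_lit 56082) (nat_lit 0) (nat_lit 12920) (XT.nd (nat_lit 55848) (nat_lit 0) (nat_lit 16568) (XT.nd (nat_lit 78) (nat_lit 456) (nat_lit 0) (XT.lf (nat_lit 0) (nat_lit 2127555978) (nat_lit 304) (nat_lit 7457150427) (nat_lit 76) (nat_lit 2393981420) (nat_lit 99) (nat_lit 5) (nat_lit 103) (nat_lit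 5) (nat_lit 100) (nat_lit 5) (nat_lit 483) (nat_lit 350) (nat_lit 307)) (XT.nd (nat_lit 78) (nat_lit 228) (nat_lit 0) (XT.lf (nat_lit 0) (nat_lit 2415030316) (nat_lit 228) (nat_lit 4660035286) (nat_lit 304) (nat_lit 5028988903) (nat_lit 96) (nat_lit 5) (nat_lit 99) (nat_lit 5) (nat_lit 100) (nat_lit 5) (nat_lit 484) (nat_lit 350) (nat_lit 306)) (XT.lf (nat_lit 0) (nat_lit 263986292) (nat_lit 228) (nat_lit 11859898734) (nat_lit 304) (nat_lit 107996299) (nat_lit 93) (nat_lit 5) (nat_lit 96) (nat_lit 5) (nat_lit 97) (nat_lit 4) (nat_lit 485) (nat_lit 350) (nat_lit 305)))) (XT.nd (nat_lit 78) (nat_lit 684) (nat_lit 0) (XT.lf (nat_lit 0) (nat_lit 394621124) (nat_lit 684) (nat_lit 3231422082) (nat_lit 0) (nat_lit 394621124) (nat_lit 320) (nat_lit 5) (nat_lit 329) (nat_lit 4) (nat_lit 320) (nat_lit 4) (nat_lit 438) (nat_lit 351) (nat_lit 351)) (XT.nd (nat_lit 78) (nat_lit 76) (nat_lit 0) (XT.lf (nat_lit 0) (nat_lit 351874221) (nat_lit 608) (nat_lit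 4471141058) (nat_lit 608) (nat_lit 3274365980) (nat_lit 312) (nat_lit 4) (nat_lit 320) (nat_lit 5) (nat_lit 320) (nat_lit 4) (nat_lit 439) (nat_lit 351) (nat_lit 350)) (XT.lf (nat_lit 0) (nat_lit 747021898) (nat_lit 684) (nat_lit 861099741) (nat_lit 76) (nat_lit 6546843986) (nat_lit 311) (nat_lit 5) (nat_lit 320) (nat_lit 5) (nat_lit 312) (nat_lit 4) (nat_lit 440) (nat_lit 351) (nat_lit 349))))) (XT.nd (nat_lit 234) (nat_lit 1824) (nat_lit 0) (XT.nd (nat_lit 78) (nat_lit 1216) (nat_lit 0) (XT.lf (nat_lit 0) (nat_lit 4785689678) (nat_lit 684) (nat_lit 2093635162) (nat_lit 0) (nat_lit 1334330051) (nat_lit 303) (nat_lit 5) (nat_lit 312) (nat_lit 4) (nat_lit 303) (nat_lit 4) (nat_lit 441) (nat_lit 351) (nat_lit 348)) (XT.nd (nat_lit 78) (nat_lit 532) (nat_lit 0) (XT.lf (nat_lit 0) (nat_lit 604437689) (nat_lit 684) (nat_lit 3336030674) (nat_lit 76) (nat_lit 4333345388) (nat_lit 294) (nat_lit 5) (nat_lit 303) (nat_lit 5) (nat_lit 295) (nat_lit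 4) (nat_lit 442) (nat_lit 351) (nat_lit 347)) (XT.lf (nat_lit 0) (nat_lit 3737936040) (nat_lit 532) (nat_lit 905077280) (nat_lit 608) (nat_lit 3692280791) (nat_lit 287) (nat_lit 5) (nat_lit 294) (nat_lit 5) (nat_lit 295) (nat_lit 4) (nat_lit 443) (nat_lit 351) (nat_lit 346)))) (XT.nd (nat_lit 156) (nat_lit 608) (nat_lit 0) (XT.nd (nat_lit 78) (nat_lit 532) (nat_lit 0) (XT.lf (nat_lit 0) (nat_lit 346194979) (nat_lit 684) (nat_lit 5872894854) (nat_lit 76) (nat_lit 2179134588) (nat_lit 278) (nat_lit 5) (nat_lit 287) (nat_lit 5) (nat_lit 279) (nat_lit 4) (nat_lit 444) (nat_lit 351) (nat_lit 345)) (XT.lf (nat_lit 0) (nat_lit 1284748473) (nat_lit 532) (nat_lit 3110495681) (nat_lit 608) (nat_lit 4067096194) (nat_lit 271) (nat_lit 5) (nat_lit 278) (nat_lit 5) (nat_lit 279) (nat_lit 4) (nat_lit 445) (nat_lit 351) (nat_lit 344))) (XT.nd (nat_lit 78) (nat_lit 76) (nat_lit 0) (XT.lf (nat_lit 0) (nat_lit 45168517) (nat_lit 532) (nat_lit 8454799166)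 (nat_lit 532) (nat_lit 28277042) (nat_lit 264) (nat_lit 4) (nat_lit 271) (nat_lit 5) (nat_lit 271) (nat_lit 4) (nat_lit 446) (nat_lit 351) (nat_lit 343)) (XT.lf (nat_lit 0) (nat_lit 4041338924) (nat_lit 608) (nat_lit 1225539458) (nat_lit 76) (nat_lit 3327983961) (nat_lit 263) (nat_lit 5) (nat_lit 271) (nat_lit 5) (nat_lit 264) (nat_lit 4) (nat_lit 447) (nat_lit 351) (nat_lit 342))))))))
noncomputable def xc11 : XT := (XT.nd (nat_lit 2028) (nat_lit 3040) (nat_lit 0) (XT.nd (nat_lit 1014) (nat_lit 4104) (nat_lit 0) (XT.nd (nat_lit 468) (nat_lit 2812) (nat_lit 0) (XT.nd (nat_lit 234) (nat_lit 1140) (nat_lit 0) (XT.nd (nat_lit 78) (nat_lit 1064) (nat_lit 0) (XT.lf (nat_lit 0) (nat_lit 6166430686) (nat_lit 532) (nat_lit 2001452359) (nat_lit 608) (nat_lit 495407239) (nat_lit 256) (nat_lit 5) (nat_lit 263) (nat_lit 5) (nat_lit 264) (nat_lit 4) (nat_lit 448) (nat_lit 351) (nat_lit 341)) (XT.nd (nat_lit 78) (nat_lit 456) (nat_lit 0) (XT.lf (nat_lit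 0) (nat_lit 3581428426) (nat_lit 608) (nat_lit 3802611762) (nat_lit 76) (nat_lit 1348866486) (nat_lit 248) (nat_lit 5) (nat_lit 256) (nat_lit 5) (nat_lit 249) (nat_lit 4) (nat_lit 449) (nat_lit 351) (nat_lit 340)) (XT.lf (nat_lit 0) (nat_lit 3675686625) (nat_lit 456) (nat_lit 4048078384) (nat_lit 532) (nat_lit 1080272934) (nat_lit 242) (nat_lit 5) (nat_lit 248) (nat_lit 5) (nat_lit 249) (nat_lit 4) (nat_lit 450) (nat_lit 351) (nat_lit 339)))) (XT.nd (nat_lit 78) (nat_lit 532) (nat_lit 0) (XT.lf (nat_lit 0) (nat_lit 2397982834) (nat_lit 532) (nat_lit 612173857) (nat_lit 608) (nat_lit 5866474297) (nat_lit 234) (nat_lit 5) (nat_lit 241) (nat_lit 5) (nat_lit 242) (nat_lit 5) (nat_lit 451) (nat_lit 351) (nat_lit 338)) (XT.nd (nat_lit 78) (nat_lit 76) (nat_lit 0) (XT.lf (nat_lit 0) (nat_lit 1089683741) (nat_lit 456) (nat_lit 6076048088) (nat_lit 532) (nat_lit 1784845218) (nat_lit 228) (nat_lit 5) (nat_lit 234) (nat_lit 5) (nat_lit 235) (nat_lit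 4) (nat_lit 452) (nat_lit 351) (nat_lit 337)) (XT.lf (nat_lit 0) (nat_lit 2332551824) (nat_lit 532) (nat_lit 240752697) (nat_lit 76) (nat_lit 6452682085) (nat_lit 227) (nat_lit 5) (nat_lit 234) (nat_lit 5) (nat_lit 228) (nat_lit 5) (nat_lit 453) (nat_lit 351) (nat_lit 336))))) (XT.nd (nat_lit 234) (nat_lit 1368) (nat_lit 0) (XT.nd (nat_lit 78) (nat_lit 988) (nat_lit 0) (XT.lf (nat_lit 0) (nat_lit 6502727154) (nat_lit 532) (nat_lit 1582131441) (nat_lit 76) (nat_lit 1017923217) (nat_lit 221) (nat_lit 5) (nat_lit 228) (nat_lit 5) (nat_lit 222) (nat_lit 4) (nat_lit 454) (nat_lit 351) (nat_lit 335)) (XT.nd (nat_lit 78) (nat_lit 456) (nat_lit 0) (XT.lf (nat_lit 0) (nat_lit 1552811674) (nat_lit 532) (nat_lit 2958842505) (nat_lit 76) (nat_lit 4669288648) (nat_lit 214) (nat_lit 5) (nat_lit 221) (nat_lit 5) (nat_lit 215) (nat_lit 5) (nat_lit 455) (nat_lit 351) (nat_lit 334)) (XT.lf (nat_lit 0) (nat_lit 4898528997) (nat_lit 456) (nat_lit 837274142)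 (nat_lit 532) (nat_lit 3524882546) (nat_lit 208) (nat_lit 5) (nat_lit 214) (nat_lit 5) (nat_lit 215) (nat_lit 5) (nat_lit 456) (nat_lit 351) (nat_lit 333)))) (XT.nd (nat_lit 156) (nat_lit 456) (nat_lit 0) (XT.nd (nat_lit 78) (nat_lit 456) (nat_lit 0) (XT.lf (nat_lit 0) (nat_lit 653445366) (nat_lit 456) (nat_lit 5799501116) (nat_lit 76) (nat_lit 2888957638) (nat_lit 202) (nat_lit 5) (nat_lit 208) (nat_lit 5) (nat_lit 203) (nat_lit 5) (nat_lit 457) (nat_lit 351) (nat_lit 332)) (XT.lf (nat_lit 0) (nat_lit 2146673627) (nat_lit 456) (nat_lit 2710404701) (nat_lit 532) (nat_lit 4567423874) (nat_lit 196) (nat_lit 5) (nat_lit 202) (nat_lit 5) (nat_lit 203) (nat_lit 5) (nat_lit 458) (nat_lit 351) (nat_lit 331))) (XT.nd (nat_lit 78) (nat_lit 76) (nat_lit 0) (XT.lf (nat_lit 0) (nat_lit 731771853) (nat_lit 380) (nat_lit 8404441320) (nat_lit 456) (nat_lit 372710487) (nat_lit 191) (nat_lit 5) (nat_lit 196) (nat_lit 5) (nat_lit 197) (nat_lit 4) (nat_lit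 459) (nat_lit 351) (nat_lit 330)) (XT.lf (nat_lit 0) (nat_lit 3862277460) (nat_lit 456) (nat_lit 730444899) (nat_lit 76) (nat_lit 5001651857) (nat_lit 190) (nat_lit 5) (nat_lit 196) (nat_lit 5) (nat_lit 191) (nat_lit 5) (nat_lit 460) (nat_lit 351) (nat_lit 329)))))) (XT.nd (nat_lit 468) (nat_lit 2052) (nat_lit 0) (XT.nd (nat_lit 234) (nat_lit 836) (nat_lit 0) (XT.nd (nat_lit 78) (nat_lit 836) (nat_lit 0) (XT.lf (nat_lit 0) (nat_lit 7481702246) (nat_lit 380) (nat_lit 685515562) (nat_lit 456) (nat_lit 1514461840) (nat_lit 185) (nat_lit 5) (nat_lit 190) (nat_lit 5) (nat_lit 191) (nat_lit 5) (nat_lit 461) (nat_lit 351) (nat_lit 328)) (XT.nd (nat_lit 78) (nat_lit 380) (nat_lit 0) (XT.lf (nat_lit 0) (nat_lit 2758753685) (nat_lit 456) (nat_lit 3724785834) (nat_lit 76) (nat_lit 3286673963) (nat_lit 179) (nat_lit 5) (nat_lit 185) (nat_lit 5) (nat_lit 180) (nat_lit 5) (nat_lit 462) (nat_lit 351) (nat_lit 327)) (XT.lf (nat_lit 0) (nat_lit 4579068211)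 (nat_lit 380) (nat_lit 2509408767) (nat_lit 456) (nat_lit 2772014361) (nat_lit 174) (nat_lit 5) (nat_lit 179) (nat_lit 5) (nat_lit 180) (nat_lit 5) (nat_lit 463) (nat_lit 351) (nat_lit 326)))) (XT.nd (nat_lit 78) (nat_lit 456) (nat_lit 0) (XT.lf (nat_lit 0) (nat_lit 1529564105) (nat_lit 380) (nat_lit 6876972977) (nat_lit 76) (nat_lit 1545882076) (nat_lit 169) (nat_lit 5) (nat_lit 174) (nat_lit 5) (nat_lit 170) (nat_lit 5) (nat_lit 464) (nat_lit 351) (nat_lit 325)) (XT.nd (nat_lit 78) (nat_lit 76) (nat_lit 0) (XT.lf (nat_lit 0) (nat_lit 1518127075) (nat_lit 380) (nat_lit 4366768186) (nat_lit 456) (nat_lit 4160827043) (nat_lit 164) (nat_lit 5) (nat_lit 169) (nat_lit 5) (nat_lit 170) (nat_lit 5) (nat_lit 465) (nat_lit 351) (nat_lit 324)) (XT.lf (nat_lit 0) (nat_lit 173256497) (nat_lit 456) (nat_lit 59429914) (nat_lit 76) (nat_lit 9908395690) (nat_lit 163) (nat_lit 5) (nat_lit 169) (nat_lit 5) (nat_lit 164) (nat_lit 5) (nat_lit 466) (nat_lit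 351) (nat_lit 323))))) (XT.nd (nat_lit 234) (nat_lit 988) (nat_lit 0) (XT.nd (nat_lit 78) (nat_lit 760) (nat_lit 0) (XT.lf (nat_lit 0) (nat_lit 4564141431) (nat_lit 380) (nat_lit 1691511766) (nat_lit 76) (nat_lit 3981629170) (nat_lit 159) (nat_lit 5) (nat_lit 164) (nat_lit 5) (nat_lit 160) (nat_lit 5) (nat_lit 467) (nat_lit 351) (nat_lit 322)) (XT.nd (nat_lit 78) (nat_lit 380) (nat_lit 0) (XT.lf (nat_lit 0) (nat_lit 6987807998) (nat_lit 380) (nat_lit 2046568797) (nat_lit 456) (nat_lit 1301199189) (nat_lit 154) (nat_lit 5) (nat_lit 159) (nat_lit 5) (nat_lit 160) (nat_lit 5) (nat_lit 468) (nat_lit 351) (nat_lit 321)) (XT.lf (nat_lit 0) (nat_lit 3122328665) (nat_lit 380) (nat_lit 5063221729) (nat_lit 76) (nat_lit 2249763631) (nat_lit 149) (nat_lit 5) (nat_lit 154) (nat_lit 5) (nat_lit 150) (nat_lit 5) (nat_lit 469) (nat_lit 351) (nat_lit 320)))) (XT.nd (nat_lit 156) (nat_lit 304) (nat_lit 0) (XT.nd (nat_lit 78) (nat_lit 380) (nat_lit 0)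 (XT.lf (nat_lit 0) (nat_lit 3710278680) (nat_lit 304) (nat_lit 3911537748) (nat_lit 380) (nat_lit 2914960133) (nat_lit 145) (nat_lit 5) (nat_lit 149) (nat_lit 5) (nat_lit 150) (nat_lit 5) (nat_lit 470) (nat_lit 351) (nat_lit 319)) (XT.lf (nat_lit 0) (nat_lit 1545520181) (nat_lit 380) (nat_lit 8630338564) (nat_lit 76) (nat_lit 464303621) (nat_lit 140) (nat_lit 5) (nat_lit 145) (nat_lit 5) (nat_lit 141) (nat_lit 5) (nat_lit 471) (nat_lit 351) (nat_lit 318))) (XT.nd (nat_lit 78) (nat_lit 0) (nat_lit 0) (XT.lf (nat_lit 0) (nat_lit 236710641) (nat_lit 304) (nat_lit 5838091620) (nat_lit 380) (nat_lit 4670055801) (nat_lit 136) (nat_lit 5) (nat_lit 140) (nat_lit 5) (nat_lit 141) (nat_lit 5) (nat_lit 472) (nat_lit 351) (nat_lit 317)) (XT.lf (nat_lit 0) (nat_lit 9307100814) (nat_lit 304) (nat_lit 1391003436) (nat_lit 380) (nat_lit 153474735) (nat_lit 136) (nat_lit 5) (nat_lit 140) (nat_lit 5) (nat_lit 141) (nat_lit 5) (nat_lit 473) (nat_lit 351)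 (nat_lit 316))))))) (XT.nd (nat_lit 56472) (nat_lit 0) (nat_lit 11096) (XT.nd (nat_lit 468) (nat_lit 1444) (nat_lit 0) (XT.nd (nat_lit 234) (nat_lit 608) (nat_lit 0) (XT.nd (nat_lit 78) (nat_lit 608) (nat_lit 0) (XT.lf (nat_lit 0) (nat_lit 4411175334) (nat_lit 380) (nat_lit 3401616247) (nat_lit 76) (nat_lit 3146741552) (nat_lit 131) (nat_lit 5) (nat_lit 136) (nat_lit 5) (nat_lit 132) (nat_lit 5) (nat_lit 474) (nat_lit 351) (nat_lit 315)) (XT.nd (nat_lit 78) (nat_lit 304) (nat_lit 0) (XT.lf (nat_lit 0) (nat_lit 5769064631) (nat_lit 304) (nat_lit 3299577075) (nat_lit 380) (nat_lit 2000912802) (nat_lit 127) (nat_lit 5) (nat_lit 131) (nat_lit 5) (nat_lit 132) (nat_lit 5) (nat_lit 475) (nat_lit 351) (nat_lit 314)) (XT.lf (nat_lit 0) (nat_lit 2606649487) (nat_lit 304) (nat_lit 7258224691) (nat_lit 76) (nat_lit 1316484459) (nat_lit 123) (nat_lit 5) (nat_lit 127) (nat_lit 5) (nat_lit 124) (nat_lit 5) (nat_lit 476) (nat_lit 351) (nat_lit 313))))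 (XT.nd (nat_lit 78) (nat_lit 304) (nat_lit 0) (XT.lf (nat_lit 0) (nat_lit 2008900907) (nat_lit 304) (nat_lit 5288212234) (nat_lit 380) (nat_lit 3997670339) (nat_lit 119) (nat_lit 5) (nat_lit 123) (nat_lit 5) (nat_lit 124) (nat_lit 5) (nat_lit 477) (nat_lit 351) (nat_lit 312)) (XT.nd (nat_lit 78) (nat_lit 0) (nat_lit 0) (XT.lf (nat_lit 0) (nat_lit 55695105) (nat_lit 228) (nat_lit 602733668) (nat_lit 304) (nat_lit 10752034556) (nat_lit 115) (nat_lit 5) (nat_lit 118) (nat_lit 5) (nat_lit 119) (nat_lit 5) (nat_lit 478) (nat_lit 351) (nat_lit 311)) (XT.lf (nat_lit 0) (nat_lit 5391154570) (nat_lit 304) (nat_lit 1962060865) (nat_lit 76) (nat_lit 4173972177) (nat_lit 115) (nat_lit 5) (nat_lit 119) (nat_lit 5) (nat_lit 116) (nat_lit 5) (nat_lit 479) (nat_lit 351) (nat_lit 310))))) (XT.nd (nat_lit 234) (nat_lit 532) (nat_lit 0) (XT.nd (nat_lit 78) (nat_lit 608) (nat_lit 0) (XT.lf (nat_lit 0) (nat_lit 7625475716) (nat_lit 304) (nat_lit 2594738197)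 (nat_lit 380) (nat_lit 1425998887) (nat_lit 111) (nat_lit 5) (nat_lit 115) (nat_lit 5) (nat_lit 116) (nat_lit 5) (nat_lit 480) (nat_lit 351) (nat_lit 309)) (XT.nd (nat_lit 78) (nat_lit 304) (nat_lit 0) (XT.lf (nat_lit 0) (nat_lit 3346892890) (nat_lit 304) (nat_lit 6155483687) (nat_lit 76) (nat_lit 2264543977) (nat_lit 107) (nat_lit 5) (nat_lit 111) (nat_lit 5) (nat_lit 108) (nat_lit 5) (nat_lit 481) (nat_lit 351) (nat_lit 308)) (XT.lf (nat_lit 0) (nat_lit 3531421290) (nat_lit 304) (nat_lit 4680493345) (nat_lit 380) (nat_lit 3677623987) (nat_lit 103) (nat_lit 5) (nat_lit 107) (nat_lit 5) (nat_lit 108) (nat_lit 5) (nat_lit 482) (nat_lit 351) (nat_lit 307)))) (XT.nd (nat_lit 156) (nat_lit 228) (nat_lit 0) (XT.nd (nat_lit 78) (nat_lit 0) (nat_lit 0) (XT.lf (nat_lit 0) (nat_lit 1145362566) (nat_lit 304) (nat_lit 10613276253) (nat_lit 76) (nat_lit 255800780) (nat_lit 99) (nat_lit 5) (nat_lit 103) (nat_lit 5) (nat_lit 100) (nat_lit 5) (nat_lit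 483) (nat_lit 351) (nat_lit 306)) (XT.lf (nat_lit 0) (nat_lit 6051824823) (nat_lit 304) (nat_lit 817136839) (nat_lit 76) (nat_lit 5271665564) (nat_lit 99) (nat_lit 5) (nat_lit 103) (nat_lit 5) (nat_lit 100) (nat_lit 5) (nat_lit 484) (nat_lit 351) (nat_lit 305))) (XT.nd (nat_lit 55536) (nat_lit 0) (nat_lit 18392) (XT.lf (nat_lit 0) (nat_lit 9207822015) (nat_lit 228) (nat_lit 1858140222) (nat_lit 304) (nat_lit 1203185451) (nat_lit 96) (nat_lit 5) (nat_lit 99) (nat_lit 5) (nat_lit 100) (nat_lit 5) (nat_lit 485) (nat_lit 351) (nat_lit 304)) (XT.lf (nat_lit 0) (nat_lit 1005403762) (nat_lit 760) (nat_lit 1955275948) (nat_lit 0) (nat_lit 1005403762) (nat_lit 338) (nat_lit 5) (nat_lit 348) (nat_lit 4) (nat_lit 338) (nat_lit 4) (nat_lit 436) (nat_lit 352) (nat_lit 352)))))) (XT.nd (nat_lit 546) (nat_lit 3420) (nat_lit 0) (XT.nd (nat_lit 234) (nat_lit 1900) (nat_lit 0) (XT.nd (nat_lit 78) (nat_lit 1292) (nat_lit 0) (XT.lf (nat_lit 0) (nat_lit 2778682984)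 (nat_lit 684) (nat_lit 3226385327) (nat_lit 684) (nat_lit 1981260537) (nat_lit 329) (nat_lit 4) (nat_lit 338) (nat_lit 5) (nat_lit 338) (nat_lit 4) (nat_lit 437) (nat_lit 352) (nat_lit 351)) (XT.nd (nat_lit 78) (nat_lit 608) (nat_lit 0) (XT.lf (nat_lit 0) (nat_lit 1530553875) (nat_lit 608) (nat_lit 447856641) (nat_lit 684) (nat_lit 6063548991) (nat_lit 320) (nat_lit 5) (nat_lit 328) (nat_lit 5) (nat_lit 329) (nat_lit 4) (nat_lit 438) (nat_lit 352) (nat_lit 350)) (XT.lf (nat_lit 0) (nat_lit 260260488) (nat_lit 608) (nat_lit 5714645859) (nat_lit 608) (nat_lit 2123851303) (nat_lit 312) (nat_lit 4) (nat_lit 320) (nat_lit 5) (nat_lit 320) (nat_lit 4) (nat_lit 439) (nat_lit 352) (nat_lit 349)))) (XT.nd (nat_lit 156) (nat_lit 1216) (nat_lit 0) (XT.nd (nat_lit 78) (nat_lit 608) (nat_lit 0) (XT.lf (nat_lit 0) (nat_lit 1848825125) (nat_lit 684) (nat_lit 1006470644) (nat_lit 76) (nat_lit 5301569294) (nat_lit 311) (nat_lit 5) (nat_lit 320) (nat_lit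 5) (nat_lit 312) (nat_lit 4) (nat_lit 440) (nat_lit 352) (nat_lit 348)) (XT.lf (nat_lit 0) (nat_lit 5845106271) (nat_lit 684) (nat_lit 2279959403) (nat_lit 0) (nat_lit 91336385) (nat_lit 303) (nat_lit 5) (nat_lit 312) (nat_lit 4) (nat_lit 303) (nat_lit 4) (nat_lit 441) (nat_lit 352) (nat_lit 347))) (XT.nd (nat_lit 78) (nat_lit 532) (nat_lit 0) (XT.lf (nat_lit 0) (nat_lit 1612831908) (nat_lit 684) (nat_lit 3579805491) (nat_lit 76) (nat_lit 3084474647) (nat_lit 294) (nat_lit 5) (nat_lit 303) (nat_lit 5) (nat_lit 295) (nat_lit 4) (nat_lit 442) (nat_lit 352) (nat_lit 346)) (XT.lf (nat_lit 0) (nat_lit 3445869685) (nat_lit 532) (nat_lit 2171109349) (nat_lit 608) (nat_lit 2722301941) (nat_lit 287) (nat_lit 5) (nat_lit 294) (nat_lit 5) (nat_lit 295) (nat_lit 4) (nat_lit 443) (nat_lit 352) (nat_lit 345))))) (XT.nd (nat_lit 234) (nat_lit 2128) (nat_lit 0) (XT.nd (nat_lit 78) (nat_lit 608) (nat_lit 0) (XT.lf (nat_lit 0) (nat_lit 1260503025) (nat_lit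 684) (nat_lit 6220737507) (nat_lit 76) (nat_lit 921703786) (nat_lit 278) (nat_lit 5) (nat_lit 287) (nat_lit 5) (nat_lit 279) (nat_lit 4) (nat_lit 444) (nat_lit 352) (nat_lit 344)) (XT.nd (nat_lit 78) (nat_lit 76) (nat_lit 0) (XT.lf (nat_lit 0) (nat_lit 886819958) (nat_lit 532) (nat_lit 4388022331) (nat_lit 608) (nat_lit 3192912153) (nat_lit 271) (nat_lit 5) (nat_lit 278) (nat_lit 5) (nat_lit 279) (nat_lit 4) (nat_lit 445) (nat_lit 352) (nat_lit 343)) (XT.lf (nat_lit 0) (nat_lit 802036859) (nat_lit 608) (nat_lit 408769273) (nat_lit 76) (nat_lit 7323398361) (nat_lit 270) (nat_lit 5) (nat_lit 278) (nat_lit 5) (nat_lit 271) (nat_lit 5) (nat_lit 446) (nat_lit 352) (nat_lit 342)))) (XT.nd (nat_lit 156) (nat_lit 988) (nat_lit 0) (XT.nd (nat_lit 78) (nat_lit 608) (nat_lit 0) (XT.lf (nat_lit 0) (nat_lit 4828969744) (nat_lit 608) (nat_lit 1728477026) (nat_lit 76) (nat_lit 2044217914) (nat_lit 263) (nat_lit 5) (nat_lit 271) (nat_lit 5) (nat_lit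 264) (nat_lit 4) (nat_lit 447) (nat_lit 352) (nat_lit 341)) (XT.lf (nat_lit 0) (nat_lit 246725925) (nat_lit 608) (nat_lit 3060552694) (nat_lit 76) (nat_lit 5363475982) (nat_lit 255) (nat_lit 5) (nat_lit 263) (nat_lit 5) (nat_lit 256) (nat_lit 5) (nat_lit 448) (nat_lit 352) (nat_lit 340))) (XT.nd (nat_lit 78) (nat_lit 456) (nat_lit 0) (XT.lf (nat_lit 0) (nat_lit 4273469540) (nat_lit 608) (nat_lit 4421658106) (nat_lit 76) (nat_lit 46050908) (nat_lit 248) (nat_lit 5) (nat_lit 256) (nat_lit 5) (nat_lit 249) (nat_lit 4) (nat_lit 449) (nat_lit 352) (nat_lit 339)) (XT.lf (nat_lit 0) (nat_lit 3003103632) (nat_lit 456) (nat_lit 5377567657) (nat_lit 532) (nat_lit 432341231) (nat_lit 242) (nat_lit 5) (nat_lit 248) (nat_lit 5) (nat_lit 249) (nat_lit 4) (nat_lit 450) (nat_lit 352) (nat_lit 338))))))))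
noncomputable def xc12 : XT := (XT.nd (nat_lit 2028) (nat_lit 2052) (nat_lit 0) (XT.nd (nat_lit 1014) (nat_lit 3876) (nat_lit 0) (XT.nd (nat_lit 468) (nat_lit 2584) (nat_lit 0) (XT.nd (nat_lit 234) (nat_lit 1444) (nat_lit 0) (XT.nd (nat_lit 78) (nat_lit 532) (nat_lit 0) (XT.lf (nat_lit 0) (nat_lit 1657680456) (nat_lit 532) (nat_lit 1956448889) (nat_lit 608) (nat_lit 5272101312) (nat_lit 234) (nat_lit 5) (nat_lit 241) (nat_lit 5) (nat_lit 242) (nat_lit 5) (nat_lit 451) (nat_lit 352) (nat_lit 337)) (XT.nd (nat_lit 78) (nat_lit 76) (nat_lit 0) (XT.lf (nat_lit 0) (nat_lit 293012535) (nat_lit 456) (nat_lit 7432356522) (nat_lit 532) (nat_lit 1235694366) (nat_lit 228) (nat_lit 5) (nat_lit 234) (nat_lit 5) (nat_lit 235) (nat_lit 4) (nat_lit 452) (nat_lit 352) (nat_lit 336)) (XT.lf (nat_lit 0) (nat_lit 2844172156) (nat_lit 532) (nat_lit 1096631005) (nat_lit 76) (nat_lit 5096205078) (nat_lit 227) (nat_lit 5) (nat_lit 234) (nat_lit 5) (nat_lit 228)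 (nat_lit 5) (nat_lit 453) (nat_lit 352) (nat_lit 335)))) (XT.nd (nat_lit 78) (nat_lit 988) (nat_lit 0) (XT.lf (nat_lit 0) (nat_lit 6615370492) (nat_lit 456) (nat_lit 356624469) (nat_lit 532) (nat_lit 2142655536) (nat_lit 221) (nat_lit 5) (nat_lit 227) (nat_lit 5) (nat_lit 228) (nat_lit 5) (nat_lit 454) (nat_lit 352) (nat_lit 334)) (XT.nd (nat_lit 78) (nat_lit 456) (nat_lit 0) (XT.lf (nat_lit 0) (nat_lit 1965801982) (nat_lit 532) (nat_lit 3946246100) (nat_lit 76) (nat_lit 3281472233) (nat_lit 214) (nat_lit 5) (nat_lit 221) (nat_lit 5) (nat_lit 215) (nat_lit 5) (nat_lit 455) (nat_lit 352) (nat_lit 333)) (XT.lf (nat_lit 0) (nat_lit 3852839514) (nat_lit 456) (nat_lit 2259732594) (nat_lit 532) (nat_lit 3161415492) (nat_lit 208) (nat_lit 5) (nat_lit 214) (nat_lit 5) (nat_lit 215) (nat_lit 5) (nat_lit 456) (nat_lit 352) (nat_lit 332))))) (XT.nd (nat_lit 234) (nat_lit 1672) (nat_lit 0) (XT.nd (nat_lit 78) (nat_lit 456) (nat_lit 0) (XT.lf (nat_lit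 0) (nat_lit 966165977) (nat_lit 456) (nat_lit 6924838201) (nat_lit 76) (nat_lit 1465074250) (nat_lit 202) (nat_lit 5) (nat_lit 208) (nat_lit 5) (nat_lit 203) (nat_lit 5) (nat_lit 457) (nat_lit 352) (nat_lit 331)) (XT.nd (nat_lit 78) (nat_lit 0) (nat_lit 0) (XT.lf (nat_lit 0) (nat_lit 960929604) (nat_lit 456) (nat_lit 4172022879) (nat_lit 532) (nat_lit 4306460955) (nat_lit 196) (nat_lit 5) (nat_lit 202) (nat_lit 5) (nat_lit 203) (nat_lit 5) (nat_lit 458) (nat_lit 352) (nat_lit 330)) (XT.lf (nat_lit 0) (nat_lit 9008268381) (nat_lit 456) (nat_lit 362967117) (nat_lit 532) (nat_lit 153416435) (nat_lit 196) (nat_lit 5) (nat_lit 202) (nat_lit 5) (nat_lit 203) (nat_lit 5) (nat_lit 459) (nat_lit 352) (nat_lit 329)))) (XT.nd (nat_lit 156) (nat_lit 836) (nat_lit 0) (XT.nd (nat_lit 78) (nat_lit 380) (nat_lit 0) (XT.lf (nat_lit 0) (nat_lit 4044039047) (nat_lit 456) (nat_lit 2045427180) (nat_lit 76) (nat_lit 3521300915) (nat_lit 190) (nat_lit 5) (nat_lit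 196) (nat_lit 5) (nat_lit 191) (nat_lit 5) (nat_lit 460) (nat_lit 352) (nat_lit 328)) (XT.lf (nat_lit 0) (nat_lit 6104417899) (nat_lit 380) (nat_lit 2207305525) (nat_lit 456) (nat_lit 1387094268) (nat_lit 185) (nat_lit 5) (nat_lit 190) (nat_lit 5) (nat_lit 191) (nat_lit 5) (nat_lit 461) (nat_lit 352) (nat_lit 327))) (XT.nd (nat_lit 78) (nat_lit 380) (nat_lit 0) (XT.lf (nat_lit 0) (nat_lit 2836708122) (nat_lit 456) (nat_lit 5191322497) (nat_lit 76) (nat_lit 1760259223) (nat_lit 179) (nat_lit 5) (nat_lit 185) (nat_lit 5) (nat_lit 180) (nat_lit 5) (nat_lit 462) (nat_lit 352) (nat_lit 326)) (XT.lf (nat_lit 0) (nat_lit 3047964694) (nat_lit 380) (nat_lit 4080459477) (nat_lit 456) (nat_lit 2750903673) (nat_lit 174) (nat_lit 5) (nat_lit 179) (nat_lit 5) (nat_lit 180) (nat_lit 5) (nat_lit 463) (nat_lit 352) (nat_lit 325)))))) (XT.nd (nat_lit 468) (nat_lit 1976) (nat_lit 0) (XT.nd (nat_lit 234) (nat_lit 1064) (nat_lit 0) (XT.nd (nat_lit 78) (nat_lit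 456) (nat_lit 0) (XT.lf (nat_lit 0) (nat_lit 1469985401) (nat_lit 304) (nat_lit 31764131) (nat_lit 380) (nat_lit 8470476357) (nat_lit 169) (nat_lit 5) (nat_lit 173) (nat_lit 5) (nat_lit 174) (nat_lit 5) (nat_lit 464) (nat_lit 352) (nat_lit 324)) (XT.nd (nat_lit 78) (nat_lit 456) (nat_lit 0) (XT.lf (nat_lit 0) (nat_lit 5819184614) (nat_lit 380) (nat_lit 171564018) (nat_lit 76) (nat_lit 4075538325) (nat_lit 169) (nat_lit 5) (nat_lit 174) (nat_lit 5) (nat_lit 170) (nat_lit 5) (nat_lit 465) (nat_lit 352) (nat_lit 323)) (XT.lf (nat_lit 0) (nat_lit 59218062) (nat_lit 456) (nat_lit 1816214596) (nat_lit 76) (nat_lit 8286803191) (nat_lit 163) (nat_lit 5) (nat_lit 169) (nat_lit 5) (nat_lit 164) (nat_lit 5) (nat_lit 466) (nat_lit 352) (nat_lit 322)))) (XT.nd (nat_lit 78) (nat_lit 760) (nat_lit 0) (XT.lf (nat_lit 0) (nat_lit 4400189412) (nat_lit 380) (nat_lit 3527224767) (nat_lit 76) (nat_lit 2332020208) (nat_lit 159) (nat_lit 5) (nat_lit 164) (nat_lit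 5) (nat_lit 160) (nat_lit 5) (nat_lit 467) (nat_lit 352) (nat_lit 321)) (XT.nd (nat_lit 78) (nat_lit 380) (nat_lit 0) (XT.lf (nat_lit 0) (nat_lit 5083055978) (nat_lit 380) (nat_lit 3747929874) (nat_lit 456) (nat_lit 1527530930) (nat_lit 154) (nat_lit 5) (nat_lit 159) (nat_lit 5) (nat_lit 160) (nat_lit 5) (nat_lit 468) (nat_lit 352) (nat_lit 320)) (XT.lf (nat_lit 0) (nat_lit 2847746344) (nat_lit 380) (nat_lit 7072273207) (nat_lit 76) (nat_lit 539289042) (nat_lit 149) (nat_lit 5) (nat_lit 154) (nat_lit 5) (nat_lit 150) (nat_lit 5) (nat_lit 469) (nat_lit 352) (nat_lit 319))))) (XT.nd (nat_lit 234) (nat_lit 1292) (nat_lit 0) (XT.nd (nat_lit 78) (nat_lit 380) (nat_lit 0) (XT.lf (nat_lit 0) (nat_lit 1629678936) (nat_lit 304) (nat_lit 5677177498) (nat_lit 380) (nat_lit 3254722247) (nat_lit 145) (nat_lit 5) (nat_lit 149) (nat_lit 5) (nat_lit 150) (nat_lit 5) (nat_lit 470) (nat_lit 352) (nat_lit 318)) (XT.nd (nat_lit 78) (nat_lit 304) (nat_lit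 0) (XT.lf (nat_lit 0) (nat_lit 1167286124) (nat_lit 380) (nat_lit 160982289) (nat_lit 76) (nat_lit 9337598754) (nat_lit 144) (nat_lit 5) (nat_lit 149) (nat_lit 5) (nat_lit 145) (nat_lit 5) (nat_lit 471) (nat_lit 352) (nat_lit 317)) (XT.lf (nat_lit 0) (nat_lit 5658663441) (nat_lit 380) (nat_lit 2000886383) (nat_lit 76) (nat_lit 3111771133) (nat_lit 140) (nat_lit 5) (nat_lit 145) (nat_lit 5) (nat_lit 141) (nat_lit 5) (nat_lit 472) (nat_lit 352) (nat_lit 316)))) (XT.nd (nat_lit 156) (nat_lit 608) (nat_lit 0) (XT.nd (nat_lit 78) (nat_lit 380) (nat_lit 0) (XT.lf (nat_lit 0) (nat_lit 6998753419) (nat_lit 304) (nat_lit 3243606891) (nat_lit 380) (nat_lit 636473673) (nat_lit 136) (nat_lit 5) (nat_lit 140) (nat_lit 5) (nat_lit 141) (nat_lit 5) (nat_lit 473) (nat_lit 352) (nat_lit 315)) (XT.lf (nat_lit 0) (nat_lit 3880517579) (nat_lit 380) (nat_lit 5825186164) (nat_lit 76) (nat_lit 1282226976) (nat_lit 131) (nat_lit 5) (nat_lit 136) (nat_lit 5)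 (nat_lit 132) (nat_lit 5) (nat_lit 474) (nat_lit 352) (nat_lit 314))) (XT.nd (nat_lit 78) (nat_lit 304) (nat_lit 0) (XT.lf (nat_lit 0) (nat_lit 3268948055) (nat_lit 304) (nat_lit 5226825501) (nat_lit 380) (nat_lit 2603022746) (nat_lit 127) (nat_lit 5) (nat_lit 131) (nat_lit 5) (nat_lit 132) (nat_lit 5) (nat_lit 475) (nat_lit 352) (nat_lit 313)) (XT.lf (nat_lit 0) (nat_lit 1328561242) (nat_lit 228) (nat_lit 632389579) (nat_lit 304) (nat_lit 9250757505) (nat_lit 123) (nat_lit 5) (nat_lit 126) (nat_lit 5) (nat_lit 127) (nat_lit 5) (nat_lit 476) (nat_lit 352) (nat_lit 312))))))) (XT.nd (nat_lit 56316) (nat_lit 0) (nat_lit 11020) (XT.nd (nat_lit 468) (nat_lit 532) (nat_lit 0) (XT.nd (nat_lit 234) (nat_lit 912) (nat_lit 0) (XT.nd (nat_lit 78) (nat_lit 608) (nat_lit 0) (XT.lf (nat_lit 0) (nat_lit 6608453994) (nat_lit 304) (nat_lit 682186379) (nat_lit 76) (nat_lit 4035352006) (nat_lit 123) (nat_lit 5) (nat_lit 127) (nat_lit 5) (nat_lit 124) (nat_lit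 5) (nat_lit 477) (nat_lit 352) (nat_lit 311)) (XT.nd (nat_lit 78) (nat_lit 304) (nat_lit 0) (XT.lf (nat_lit 0) (nat_lit 8726063291) (nat_lit 304) (nat_lit 2632570502) (nat_lit 380) (nat_lit 83733789) (nat_lit 119) (nat_lit 5) (nat_lit 123) (nat_lit 5) (nat_lit 124) (nat_lit 5) (nat_lit 478) (nat_lit 352) (nat_lit 310)) (XT.lf (nat_lit 0) (nat_lit 4593267804) (nat_lit 304) (nat_lit 4832659722) (nat_lit 76) (nat_lit 2134311661) (nat_lit 115) (nat_lit 5) (nat_lit 119) (nat_lit 5) (nat_lit 116) (nat_lit 5) (nat_lit 479) (nat_lit 352) (nat_lit 309)))) (XT.nd (nat_lit 78) (nat_lit 608) (nat_lit 0) (XT.lf (nat_lit 0) (nat_lit 4672937523) (nat_lit 304) (nat_lit 4705068250) (nat_lit 380) (nat_lit 2302145029) (nat_lit 111) (nat_lit 5) (nat_lit 115) (nat_lit 5) (nat_lit 116) (nat_lit 5) (nat_lit 480) (nat_lit 352) (nat_lit 308)) (XT.nd (nat_lit 78) (nat_lit 304) (nat_lit 0) (XT.lf (nat_lit 0) (nat_lit 2423251197) (nat_lit 304) (nat_lit 9240687683)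 (nat_lit 76) (nat_lit 138213174) (nat_lit 107) (nat_lit 5) (nat_lit 111) (nat_lit 5) (nat_lit 108) (nat_lit 5) (nat_lit 481) (nat_lit 352) (nat_lit 307)) (XT.lf (nat_lit 0) (nat_lit 361279087) (nat_lit 304) (nat_lit 6881404607) (nat_lit 380) (nat_lit 4682998213) (nat_lit 103) (nat_lit 5) (nat_lit 107) (nat_lit 5) (nat_lit 108) (nat_lit 5) (nat_lit 482) (nat_lit 352) (nat_lit 306))))) (XT.nd (nat_lit 55536) (nat_lit 0) (nat_lit 17708) (XT.nd (nat_lit 78) (nat_lit 456) (nat_lit 0) (XT.lf (nat_lit 0) (nat_lit 117422530) (nat_lit 380) (nat_lit 1858684706) (nat_lit 76) (nat_lit 10075321228) (nat_lit 102) (nat_lit 5) (nat_lit 107) (nat_lit 5) (nat_lit 103) (nat_lit 5) (nat_lit 483) (nat_lit 352) (nat_lit 305)) (XT.nd (nat_lit 78) (nat_lit 228) (nat_lit 0) (XT.lf (nat_lit 0) (nat_lit 4973875431) (nat_lit 304) (nat_lit 4169505899) (nat_lit 76) (nat_lit 3035234949) (nat_lit 99) (nat_lit 5) (nat_lit 103) (nat_lit 5) (nat_lit 100) (nat_lit 5) (nat_lit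 484) (nat_lit 352) (nat_lit 304)) (XT.lf (nat_lit 0) (nat_lit 5767690088) (nat_lit 228) (nat_lit 4173604797) (nat_lit 304) (nat_lit 2366776215) (nat_lit 96) (nat_lit 5) (nat_lit 99) (nat_lit 5) (nat_lit 100) (nat_lit 5) (nat_lit 485) (nat_lit 352) (nat_lit 303)))) (XT.nd (nat_lit 156) (nat_lit 1444) (nat_lit 0) (XT.nd (nat_lit 78) (nat_lit 684) (nat_lit 0) (XT.lf (nat_lit 0) (nat_lit 1629198491) (nat_lit 760) (nat_lit 655155777) (nat_lit 0) (nat_lit 1629198491) (nat_lit 357) (nat_lit 5) (nat_lit 367) (nat_lit 4) (nat_lit 357) (nat_lit 4) (nat_lit 434) (nat_lit 353) (nat_lit 353)) (XT.lf (nat_lit 0) (nat_lit 5256229075) (nat_lit 684) (nat_lit 1959290285) (nat_lit 684) (nat_lit 663862453) (nat_lit 348) (nat_lit 4) (nat_lit 357) (nat_lit 5) (nat_lit 357) (nat_lit 4) (nat_lit 435) (nat_lit 353) (nat_lit 352))) (XT.nd (nat_lit 78) (nat_lit 684) (nat_lit 0) (XT.lf (nat_lit 0) (nat_lit 3246584608) (nat_lit 760) (nat_lit 3954834811) (nat_lit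 0) (nat_lit 731432532) (nat_lit 338) (nat_lit 5) (nat_lit 348) (nat_lit 4) (nat_lit 338) (nat_lit 4) (nat_lit 436) (nat_lit 353) (nat_lit 351)) (XT.lf (nat_lit 0) (nat_lit 2689819994) (nat_lit 684) (nat_lit 4516869813) (nat_lit 684) (nat_lit 781007157) (nat_lit 329) (nat_lit 4) (nat_lit 338) (nat_lit 5) (nat_lit 338) (nat_lit 4) (nat_lit 437) (nat_lit 353) (nat_lit 350)))))) (XT.nd (nat_lit 468) (nat_lit 3496) (nat_lit 0) (XT.nd (nat_lit 234) (nat_lit 1824) (nat_lit 0) (XT.nd (nat_lit 78) (nat_lit 684) (nat_lit 0) (XT.lf (nat_lit 0) (nat_lit 1387075042) (nat_lit 608) (nat_lit 1741495638) (nat_lit 684) (nat_lit 4915288120) (nat_lit 320) (nat_lit 5) (nat_lit 328) (nat_lit 5) (nat_lit 329) (nat_lit 4) (nat_lit 438) (nat_lit 353) (nat_lit 349)) (XT.nd (nat_lit 78) (nat_lit 76) (nat_lit 0) (XT.lf (nat_lit 0) (nat_lit 76997093) (nat_lit 608) (nat_lit 7005368033) (nat_lit 608) (nat_lit 1019145844) (nat_lit 312) (nat_lit 4) (nat_lit 320) (nat_lit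 5) (nat_lit 320) (nat_lit 4) (nat_lit 439) (nat_lit 353) (nat_lit 348)) (XT.lf (nat_lit 0) (nat_lit 2906079190) (nat_lit 684) (nat_lit 1243690108) (nat_lit 76) (nat_lit 4010364895) (nat_lit 311) (nat_lit 5) (nat_lit 320) (nat_lit 5) (nat_lit 312) (nat_lit 4) (nat_lit 440) (nat_lit 353) (nat_lit 347)))) (XT.nd (nat_lit 78) (nat_lit 1216) (nat_lit 0) (XT.lf (nat_lit 0) (nat_lit 5652942990) (nat_lit 608) (nat_lit 1214655150) (nat_lit 684) (nat_lit 1352768293) (nat_lit 303) (nat_lit 5) (nat_lit 311) (nat_lit 5) (nat_lit 312) (nat_lit 4) (nat_lit 441) (nat_lit 353) (nat_lit 346)) (XT.nd (nat_lit 78) (nat_lit 532) (nat_lit 0) (XT.lf (nat_lit 0) (nat_lit 2575678934) (nat_lit 684) (nat_lit 3918267097) (nat_lit 76) (nat_lit 1787844576) (nat_lit 294) (nat_lit 5) (nat_lit 303) (nat_lit 5) (nat_lit 295) (nat_lit 4) (nat_lit 442) (nat_lit 353) (nat_lit 345)) (XT.lf (nat_lit 0) (nat_lit 3058741573) (nat_lit 532) (nat_lit 3486676665) (nat_lit 608) (nat_lit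 1799229454) (nat_lit 287) (nat_lit 5) (nat_lit 294) (nat_lit 5) (nat_lit 295) (nat_lit 4) (nat_lit 443) (nat_lit 353) (nat_lit 344))))) (XT.nd (nat_lit 234) (nat_lit 2204) (nat_lit 0) (XT.nd (nat_lit 78) (nat_lit 608) (nat_lit 0) (XT.lf (nat_lit 0) (nat_lit 1740302587) (nat_lit 608) (nat_lit 390434488) (nat_lit 684) (nat_lit 6278268739) (nat_lit 278) (nat_lit 5) (nat_lit 286) (nat_lit 5) (nat_lit 287) (nat_lit 5) (nat_lit 444) (nat_lit 353) (nat_lit 343)) (XT.nd (nat_lit 78) (nat_lit 76) (nat_lit 0) (XT.lf (nat_lit 0) (nat_lit 390897875) (nat_lit 532) (nat_lit 5716927282) (nat_lit 608) (nat_lit 2366735805) (nat_lit 271) (nat_lit 5) (nat_lit 278) (nat_lit 5) (nat_lit 279) (nat_lit 4) (nat_lit 445) (nat_lit 353) (nat_lit 342)) (XT.lf (nat_lit 0) (nat_lit 1586008875) (nat_lit 608) (nat_lit 960976661) (nat_lit 76) (nat_lit 5994545573) (nat_lit 270) (nat_lit 5) (nat_lit 278) (nat_lit 5) (nat_lit 271) (nat_lit 5) (nat_lit 446) (nat_lit 353)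 (nat_lit 341)))) (XT.nd (nat_lit 156) (nat_lit 1064) (nat_lit 0) (XT.nd (nat_lit 78) (nat_lit 608) (nat_lit 0) (XT.lf (nat_lit 0) (nat_lit 5569488036) (nat_lit 608) (nat_lit 2331085035) (nat_lit 76) (nat_lit 709287304) (nat_lit 263) (nat_lit 5) (nat_lit 271) (nat_lit 5) (nat_lit 264) (nat_lit 4) (nat_lit 447) (nat_lit 353) (nat_lit 340)) (XT.lf (nat_lit 0) (nat_lit 934451977) (nat_lit 608) (nat_lit 3728654853) (nat_lit 76) (nat_lit 4016448208) (nat_lit 255) (nat_lit 5) (nat_lit 263) (nat_lit 5) (nat_lit 256) (nat_lit 5) (nat_lit 448) (nat_lit 353) (nat_lit 339))) (XT.nd (nat_lit 78) (nat_lit 532) (nat_lit 0) (XT.lf (nat_lit 0) (nat_lit 3598658881) (nat_lit 532) (nat_lit 1327158068) (nat_lit 608) (nat_lit 3824869614) (nat_lit 248) (nat_lit 5) (nat_lit 255) (nat_lit 5) (nat_lit 256) (nat_lit 5) (nat_lit 449) (nat_lit 353) (nat_lit 338)) (XT.lf (nat_lit 0) (nat_lit 163628997) (nat_lit 532) (nat_lit 6597135691) (nat_lit 76) (nat_lit 2062610677)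 (nat_lit 241) (nat_lit 5) (nat_lit 248) (nat_lit 5) (nat_lit 242) (nat_lit 5) (nat_lit 450) (nat_lit 353) (nat_lit 337))))))))
noncomputable def xc13 : XT := (XT.nd (nat_lit 2028) (nat_lit 2280) (nat_lit 0) (XT.nd (nat_lit 1014) (nat_lit 3648) (nat_lit 0) (XT.nd (nat_lit 468) (nat_lit 2584) (nat_lit 0) (XT.nd (nat_lit 234) (nat_lit 1444) (nat_lit 0) (XT.nd (nat_lit 78) (nat_lit 532) (nat_lit 0) (XT.lf (nat_lit 0) (nat_lit 812613593) (nat_lit 532) (nat_lit 3356275312) (nat_lit 608) (nat_lit 4728359264) (nat_lit 234) (nat_lit 5) (nat_lit 241) (nat_lit 5) (nat_lit 242) (nat_lit 5) (nat_lit 451) (nat_lit 353) (nat_lit 336)) (XT.nd (nat_lit 78) (nat_lit 532) (nat_lit 0) (XT.lf (nat_lit 0) (nat_lit 8239299367) (nat_lit 608) (nat_lit 601991443) (nat_lit 76) (nat_lit 131606711) (nat_lit 234) (nat_lit 5) (nat_lit 242) (nat_lit 5) (nat_lit 235) (nat_lit 4) (nat_lit 452) (nat_lit 353) (nat_lit 335)) (XT.lf (nat_lit 0) (nat_lit 3305962954) (nat_lit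 532) (nat_lit 2059052030) (nat_lit 76) (nat_lit 3684436562) (nat_lit 227) (nat_lit 5) (nat_lit 234) (nat_lit 5) (nat_lit 228) (nat_lit 5) (nat_lit 453) (nat_lit 353) (nat_lit 334)))) (XT.nd (nat_lit 78) (nat_lit 988) (nat_lit 0) (XT.lf (nat_lit 0) (nat_lit 5596180772) (nat_lit 456) (nat_lit 1801837109) (nat_lit 532) (nat_lit 1729791278) (nat_lit 221) (nat_lit 5) (nat_lit 227) (nat_lit 5) (nat_lit 228) (nat_lit 5) (nat_lit 454) (nat_lit 353) (nat_lit 333)) (XT.nd (nat_lit 78) (nat_lit 456) (nat_lit 0) (XT.lf (nat_lit 0) (nat_lit 2327599398) (nat_lit 532) (nat_lit 5043432161) (nat_lit 76) (nat_lit 1836506848) (nat_lit 214) (nat_lit 5) (nat_lit 221) (nat_lit 5) (nat_lit 215) (nat_lit 5) (nat_lit 455) (nat_lit 353) (nat_lit 332)) (XT.lf (nat_lit 0) (nat_lit 2696794179) (nat_lit 456) (nat_lit 3741214603) (nat_lit 532) (nat_lit 2850724125) (nat_lit 208) (nat_lit 5) (nat_lit 214) (nat_lit 5) (nat_lit 215) (nat_lit 5) (nat_lit 456) (nat_lit 353)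 (nat_lit 331))))) (XT.nd (nat_lit 234) (nat_lit 1596) (nat_lit 0) (XT.nd (nat_lit 78) (nat_lit 532) (nat_lit 0) (XT.lf (nat_lit 0) (nat_lit 1208303560) (nat_lit 380) (nat_lit 18076210) (nat_lit 456) (nat_lit 8145331677) (nat_lit 202) (nat_lit 5) (nat_lit 207) (nat_lit 5) (nat_lit 208) (nat_lit 5) (nat_lit 457) (nat_lit 353) (nat_lit 330)) (XT.nd (nat_lit 78) (nat_lit 532) (nat_lit 0) (XT.lf (nat_lit 0) (nat_lit 5358233629) (nat_lit 456) (nat_lit 334101652) (nat_lit 76) (nat_lit 3763409829) (nat_lit 202) (nat_lit 5) (nat_lit 208) (nat_lit 5) (nat_lit 203) (nat_lit 5) (nat_lit 458) (nat_lit 353) (nat_lit 329)) (XT.lf (nat_lit 0) (nat_lit 24105085) (nat_lit 532) (nat_lit 1876641907) (nat_lit 76) (nat_lit 7640843394) (nat_lit 195) (nat_lit 5) (nat_lit 202) (nat_lit 5) (nat_lit 196) (nat_lit 5) (nat_lit 459) (nat_lit 353) (nat_lit 328)))) (XT.nd (nat_lit 156) (nat_lit 836) (nat_lit 0) (XT.nd (nat_lit 78) (nat_lit 380) (nat_lit 0) (XT.lf (nat_lit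 0) (nat_lit 4172242137) (nat_lit 456) (nat_lit 3476071350) (nat_lit 76) (nat_lit 1980318313) (nat_lit 190) (nat_lit 5) (nat_lit 196) (nat_lit 5) (nat_lit 191) (nat_lit 5) (nat_lit 460) (nat_lit 353) (nat_lit 327)) (XT.lf (nat_lit 0) (nat_lit 4610813531) (nat_lit 380) (nat_lit 3791656958) (nat_lit 456) (nat_lit 1314960983) (nat_lit 185) (nat_lit 5) (nat_lit 190) (nat_lit 5) (nat_lit 191) (nat_lit 5) (nat_lit 461) (nat_lit 353) (nat_lit 326))) (XT.nd (nat_lit 78) (nat_lit 380) (nat_lit 0) (XT.lf (nat_lit 0) (nat_lit 2859527711) (nat_lit 456) (nat_lit 6777051929) (nat_lit 76) (nat_lit 171281966) (nat_lit 179) (nat_lit 5) (nat_lit 185) (nat_lit 5) (nat_lit 180) (nat_lit 5) (nat_lit 462) (nat_lit 353) (nat_lit 325)) (XT.lf (nat_lit 0) (nat_lit 1396968268) (nat_lit 380) (nat_lit 5716040143) (nat_lit 456) (nat_lit 2786655905) (nat_lit 174) (nat_lit 5) (nat_lit 179) (nat_lit 5) (nat_lit 180) (nat_lit 5) (nat_lit 463) (nat_lit 353) (nat_lit 324))))))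 (XT.nd (nat_lit 468) (nat_lit 1748) (nat_lit 0) (XT.nd (nat_lit 234) (nat_lit 1140) (nat_lit 0) (XT.nd (nat_lit 78) (nat_lit 684) (nat_lit 0) (XT.lf (nat_lit 0) (nat_lit 1429483798) (nat_lit 456) (nat_lit 264086077) (nat_lit 76) (nat_lit 8299736776) (nat_lit 173) (nat_lit 5) (nat_lit 179) (nat_lit 5) (nat_lit 174) (nat_lit 5) (nat_lit 464) (nat_lit 353) (nat_lit 323)) (XT.nd (nat_lit 78) (nat_lit 380) (nat_lit 0) (XT.lf (nat_lit 0) (nat_lit 5707093014) (nat_lit 380) (nat_lit 1963301980) (nat_lit 76) (nat_lit 2417769242) (nat_lit 169) (nat_lit 5) (nat_lit 174) (nat_lit 5) (nat_lit 170) (nat_lit 5) (nat_lit 465) (nat_lit 353) (nat_lit 322)) (XT.lf (nat_lit 0) (nat_lit 6487315400) (nat_lit 380) (nat_lit 3584018791) (nat_lit 456) (nat_lit 113563187) (nat_lit 164) (nat_lit 5) (nat_lit 169) (nat_lit 5) (nat_lit 170) (nat_lit 5) (nat_lit 466) (nat_lit 353) (nat_lit 321)))) (XT.nd (nat_lit 78) (nat_lit 760) (nat_lit 0) (XT.lf (nat_lit 0) (nat_lit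 4178272892) (nat_lit 380) (nat_lit 5488648892) (nat_lit 76) (nat_lit 616201372) (nat_lit 159) (nat_lit 5) (nat_lit 164) (nat_lit 5) (nat_lit 160) (nat_lit 5) (nat_lit 467) (nat_lit 353) (nat_lit 320)) (XT.nd (nat_lit 78) (nat_lit 380) (nat_lit 0) (XT.lf (nat_lit 0) (nat_lit 3051797559) (nat_lit 380) (nat_lit 5517542310) (nat_lit 456) (nat_lit 1813660273) (nat_lit 154) (nat_lit 5) (nat_lit 159) (nat_lit 5) (nat_lit 160) (nat_lit 5) (nat_lit 468) (nat_lit 353) (nat_lit 319)) (XT.lf (nat_lit 0) (nat_lit 1265638678) (nat_lit 304) (nat_lit 1255912457) (nat_lit 380) (nat_lit 7963154341) (nat_lit 149) (nat_lit 5) (nat_lit 153) (nat_lit 5) (nat_lit 154) (nat_lit 5) (nat_lit 469) (nat_lit 353) (nat_lit 318))))) (XT.nd (nat_lit 234) (nat_lit 1064) (nat_lit 0) (XT.nd (nat_lit 78) (nat_lit 684) (nat_lit 0) (XT.lf (nat_lit 0) (nat_lit 6935583859) (nat_lit 380) (nat_lit 573726937) (nat_lit 76) (nat_lit 3078566317) (nat_lit 149) (nat_lit 5) (nat_lit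 154) (nat_lit 5) (nat_lit 150) (nat_lit 5) (nat_lit 470) (nat_lit 353) (nat_lit 317)) (XT.nd (nat_lit 78) (nat_lit 304) (nat_lit 0) (XT.lf (nat_lit 0) (nat_lit 744851369) (nat_lit 380) (nat_lit 2439237035) (nat_lit 76) (nat_lit 7508730379) (nat_lit 144) (nat_lit 5) (nat_lit 149) (nat_lit 5) (nat_lit 145) (nat_lit 5) (nat_lit 471) (nat_lit 353) (nat_lit 316)) (XT.lf (nat_lit 0) (nat_lit 5182937012) (nat_lit 380) (nat_lit 4368101328) (nat_lit 76) (nat_lit 1248300067) (nat_lit 140) (nat_lit 5) (nat_lit 145) (nat_lit 5) (nat_lit 141) (nat_lit 5) (nat_lit 472) (nat_lit 353) (nat_lit 315)))) (XT.nd (nat_lit 156) (nat_lit 380) (nat_lit 0) (XT.nd (nat_lit 78) (nat_lit 380) (nat_lit 0) (XT.lf (nat_lit 0) (nat_lit 4556785666) (nat_lit 304) (nat_lit 5168351498) (nat_lit 380) (nat_lit 1182544203) (nat_lit 136) (nat_lit 5) (nat_lit 140) (nat_lit 5) (nat_lit 141) (nat_lit 5) (nat_lit 473) (nat_lit 353) (nat_lit 314)) (XT.lf (nat_lit 0) (nat_lit 2627937130)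 (nat_lit 304) (nat_lit 663139560) (nat_lit 380) (nat_lit 7726782965) (nat_lit 131) (nat_lit 5) (nat_lit 135) (nat_lit 5) (nat_lit 136) (nat_lit 5) (nat_lit 474) (nat_lit 353) (nat_lit 313))) (XT.nd (nat_lit 78) (nat_lit 76) (nat_lit 0) (XT.lf (nat_lit 0) (nat_lit 631021153) (nat_lit 304) (nat_lit 7228410194) (nat_lit 380) (nat_lit 3270231919) (nat_lit 127) (nat_lit 5) (nat_lit 131) (nat_lit 5) (nat_lit 132) (nat_lit 5) (nat_lit 475) (nat_lit 353) (nat_lit 312)) (XT.lf (nat_lit 0) (nat_lit 1268453203) (nat_lit 380) (nat_lit 1396279670) (nat_lit 76) (nat_lit 8578609835) (nat_lit 126) (nat_lit 5) (nat_lit 131) (nat_lit 5) (nat_lit 127) (nat_lit 5) (nat_lit 476) (nat_lit 353) (nat_lit 311))))))) (XT.nd (nat_lit 56160) (nat_lit 0) (nat_lit 12084) (XT.nd (nat_lit 468) (nat_lit 836) (nat_lit 0) (XT.nd (nat_lit 234) (nat_lit 608) (nat_lit 0) (XT.nd (nat_lit 78) (nat_lit 608) (nat_lit 0) (XT.lf (nat_lit 0) (nat_lit 5868208805) (nat_lit 304) (nat_lit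 3487207502) (nat_lit 76) (nat_lit 2003165407) (nat_lit 123) (nat_lit 5) (nat_lit 127) (nat_lit 5) (nat_lit 124) (nat_lit 5) (nat_lit 477) (nat_lit 353) (nat_lit 310)) (XT.nd (nat_lit 78) (nat_lit 304) (nat_lit 0) (XT.lf (nat_lit 0) (nat_lit 5840985780) (nat_lit 304) (nat_lit 4733861806) (nat_lit 380) (nat_lit 900980151) (nat_lit 119) (nat_lit 5) (nat_lit 123) (nat_lit 5) (nat_lit 124) (nat_lit 5) (nat_lit 478) (nat_lit 353) (nat_lit 309)) (XT.lf (nat_lit 0) (nat_lit 3728617196) (nat_lit 304) (nat_lit 7847967415) (nat_lit 76) (nat_lit 18383302) (nat_lit 115) (nat_lit 5) (nat_lit 119) (nat_lit 5) (nat_lit 116) (nat_lit 5) (nat_lit 479) (nat_lit 353) (nat_lit 308)))) (XT.nd (nat_lit 78) (nat_lit 304) (nat_lit 0) (XT.lf (nat_lit 0) (nat_lit 1574626027) (nat_lit 304) (nat_lit 6893954475) (nat_lit 380) (nat_lit 3247194521) (nat_lit 111) (nat_lit 5) (nat_lit 115) (nat_lit 5) (nat_lit 116) (nat_lit 5) (nat_lit 480) (nat_lit 353) (nat_lit 307))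 (XT.nd (nat_lit 78) (nat_lit 228) (nat_lit 0) (XT.lf (nat_lit 0) (nat_lit 1448440096) (nat_lit 380) (nat_lit 641431404) (nat_lit 76) (nat_lit 9748870616) (nat_lit 110) (nat_lit 5) (nat_lit 115) (nat_lit 5) (nat_lit 111) (nat_lit 5) (nat_lit 481) (nat_lit 353) (nat_lit 306)) (XT.lf (nat_lit 0) (nat_lit 6223193950) (nat_lit 304) (nat_lit 2920467898) (nat_lit 76) (nat_lit 2819503693) (nat_lit 107) (nat_lit 5) (nat_lit 111) (nat_lit 5) (nat_lit 108) (nat_lit 5) (nat_lit 482) (nat_lit 353) (nat_lit 305))))) (XT.nd (nat_lit 55380) (nat_lit 0) (nat_lit 19076) (XT.nd (nat_lit 78) (nat_lit 532) (nat_lit 0) (XT.lf (nat_lit 0) (nat_lit 6830741934) (nat_lit 304) (nat_lit 4276671906) (nat_lit 380) (nat_lit 982384175) (nat_lit 103) (nat_lit 5) (nat_lit 107) (nat_lit 5) (nat_lit 108) (nat_lit 5) (nat_lit 483) (nat_lit 353) (nat_lit 304)) (XT.nd (nat_lit 78) (nat_lit 228) (nat_lit 0) (XT.lf (nat_lit 0) (nat_lit 3825114720) (nat_lit 304) (nat_lit 7675065075)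 (nat_lit 76) (nat_lit 718170364) (nat_lit 99) (nat_lit 5) (nat_lit 103) (nat_lit 5) (nat_lit 100) (nat_lit 5) (nat_lit 484) (nat_lit 353) (nat_lit 303)) (XT.lf (nat_lit 0) (nat_lit 2173179516) (nat_lit 228) (nat_lit 6572112455) (nat_lit 304) (nat_lit 3603457853) (nat_lit 96) (nat_lit 5) (nat_lit 99) (nat_lit 5) (nat_lit 100) (nat_lit 5) (nat_lit 485) (nat_lit 353) (nat_lit 302)))) (XT.nd (nat_lit 156) (nat_lit 760) (nat_lit 0) (XT.nd (nat_lit 78) (nat_lit 760) (nat_lit 0) (XT.lf (nat_lit 0) (nat_lit 679357708) (nat_lit 760) (nat_lit 1591812826) (nat_lit 760) (nat_lit 1591812826) (nat_lit 367) (nat_lit 4) (nat_lit 377) (nat_lit 5) (nat_lit 377) (nat_lit 4) (nat_lit 432) (nat_lit 354) (nat_lit 354)) (XT.lf (nat_lit 0) (nat_lit 6628393) (nat_lit 684) (nat_lit 663862453) (nat_lit 760) (nat_lit 7105957621) (nat_lit 357) (nat_lit 5) (nat_lit 366) (nat_lit 5) (nat_lit 367) (nat_lit 4) (nat_lit 433) (nat_lit 354) (nat_lit 353))) (XT.nd (nat_lit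 78) (nat_lit 760) (nat_lit 0) (XT.lf (nat_lit 0) (nat_lit 4545659924) (nat_lit 760) (nat_lit 1353231361) (nat_lit 0) (nat_lit 1928895703) (nat_lit 357) (nat_lit 5) (nat_lit 367) (nat_lit 4) (nat_lit 357) (nat_lit 4) (nat_lit 434) (nat_lit 354) (nat_lit 352)) (XT.lf (nat_lit 0) (nat_lit 580362479) (nat_lit 760) (nat_lit 2714459298) (nat_lit 76) (nat_lit 4585844432) (nat_lit 347) (nat_lit 5) (nat_lit 357) (nat_lit 5) (nat_lit 348) (nat_lit 4) (nat_lit 435) (nat_lit 354) (nat_lit 351)))))) (XT.nd (nat_lit 468) (nat_lit 3648) (nat_lit 0) (XT.nd (nat_lit 234) (nat_lit 1292) (nat_lit 0) (XT.nd (nat_lit 78) (nat_lit 1368) (nat_lit 0) (XT.lf (nat_lit 0) (nat_lit 3843233398) (nat_lit 684) (nat_lit 599910015) (nat_lit 760) (nat_lit 3491685919) (nat_lit 338) (nat_lit 5) (nat_lit 347) (nat_lit 5) (nat_lit 348) (nat_lit 4) (nat_lit 436) (nat_lit 354) (nat_lit 350)) (XT.nd (nat_lit 78) (nat_lit 608) (nat_lit 0) (XT.lf (nat_lit 0) (nat_lit 369929332)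 (nat_lit 760) (nat_lit 5480808313) (nat_lit 76) (nat_lit 2139647411) (nat_lit 328) (nat_lit 5) (nat_lit 338) (nat_lit 5) (nat_lit 329) (nat_lit 4) (nat_lit 437) (nat_lit 354) (nat_lit 349)) (XT.lf (nat_lit 0) (nat_lit 1153287963) (nat_lit 608) (nat_lit 3081693436) (nat_lit 684) (nat_lit 3812149733) (nat_lit 320) (nat_lit 5) (nat_lit 328) (nat_lit 5) (nat_lit 329) (nat_lit 4) (nat_lit 438) (nat_lit 354) (nat_lit 348)))) (XT.nd (nat_lit 78) (nat_lit 1216) (nat_lit 0) (XT.lf (nat_lit 0) (nat_lit 42519362) (nat_lit 684) (nat_lit 197229375) (nat_lit 76) (nat_lit 7865831090) (nat_lit 319) (nat_lit 5) (nat_lit 328) (nat_lit 5) (nat_lit 320) (nat_lit 5) (nat_lit 439) (nat_lit 354) (nat_lit 347)) (XT.nd (nat_lit 78) (nat_lit 608) (nat_lit 0) (XT.lf (nat_lit 0) (nat_lit 3919198703) (nat_lit 684) (nat_lit 1572851161) (nat_lit 76) (nat_lit 2672724435) (nat_lit 311) (nat_lit 5) (nat_lit 320) (nat_lit 5) (nat_lit 312) (nat_lit 4) (nat_lit 440) (nat_lit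 354) (nat_lit 346)) (XT.lf (nat_lit 0) (nat_lit 5276524623) (nat_lit 608) (nat_lit 2570066082) (nat_lit 684) (nat_lit 379098374) (nat_lit 303) (nat_lit 5) (nat_lit 311) (nat_lit 5) (nat_lit 312) (nat_lit 4) (nat_lit 441) (nat_lit 354) (nat_lit 345))))) (XT.nd (nat_lit 234) (nat_lit 1748) (nat_lit 0) (XT.nd (nat_lit 78) (nat_lit 1216) (nat_lit 0) (XT.lf (nat_lit 0) (nat_lit 3493356355) (nat_lit 684) (nat_lit 4351548222) (nat_lit 76) (nat_lit 442946692) (nat_lit 294) (nat_lit 5) (nat_lit 303) (nat_lit 5) (nat_lit 295) (nat_lit 4) (nat_lit 442) (nat_lit 354) (nat_lit 344)) (XT.nd (nat_lit 78) (nat_lit 684) (nat_lit 0) (XT.lf (nat_lit 0) (nat_lit 2576399889) (nat_lit 532) (nat_lit 4852295137) (nat_lit 608) (nat_lit 922701342) (nat_lit 287) (nat_lit 5) (nat_lit 294) (nat_lit 5) (nat_lit 295) (nat_lit 4) (nat_lit 443) (nat_lit 354) (nat_lit 343)) (XT.lf (nat_lit 0) (nat_lit 1195508962) (nat_lit 608) (nat_lit 1765586926) (nat_lit 684) (nat_lit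 5455238251) (nat_lit 278) (nat_lit 5) (nat_lit 286) (nat_lit 5) (nat_lit 287) (nat_lit 5) (nat_lit 444) (nat_lit 354) (nat_lit 342)))) (XT.nd (nat_lit 156) (nat_lit 1140) (nat_lit 0) (XT.nd (nat_lit 78) (nat_lit 608) (nat_lit 0) (XT.lf (nat_lit 0) (nat_lit 6895838810) (nat_lit 684) (nat_lit 200547087) (nat_lit 76) (nat_lit 1386350294) (nat_lit 278) (nat_lit 5) (nat_lit 287) (nat_lit 5) (nat_lit 279) (nat_lit 4) (nat_lit 445) (nat_lit 354) (nat_lit 341)) (XT.lf (nat_lit 0) (nat_lit 2323537646) (nat_lit 608) (nat_lit 1611592603) (nat_lit 76) (nat_lit 4615116464) (nat_lit 270) (nat_lit 5) (nat_lit 278) (nat_lit 5) (nat_lit 271) (nat_lit 5) (nat_lit 446) (nat_lit 354) (nat_lit 340))) (XT.nd (nat_lit 78) (nat_lit 608) (nat_lit 0) (XT.lf (nat_lit 0) (nat_lit 5581307578) (nat_lit 532) (nat_lit 686332749) (nat_lit 608) (nat_lit 2351723179) (nat_lit 263) (nat_lit 5) (nat_lit 270) (nat_lit 5) (nat_lit 271) (nat_lit 5) (nat_lit 447) (nat_lit 354)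 (nat_lit 339)) (XT.lf (nat_lit 0) (nat_lit 1574537968) (nat_lit 608) (nat_lit 4498211563) (nat_lit 76) (nat_lit 2617009845) (nat_lit 255) (nat_lit 5) (nat_lit 263) (nat_lit 5) (nat_lit 256) (nat_lit 5) (nat_lit 448) (nat_lit 354) (nat_lit 338))))))))
noncomputable def xc14 : XT := (XT.nd (nat_lit 2028) (nat_lit 2736) (nat_lit 0) (XT.nd (nat_lit 1014) (nat_lit 3800) (nat_lit 0) (XT.nd (nat_lit 468) (nat_lit 2736) (nat_lit 0) (XT.nd (nat_lit 234) (nat_lit 1520) (nat_lit 0) (XT.nd (nat_lit 78) (nat_lit 532) (nat_lit 0) (XT.lf (nat_lit 0) (nat_lit 2775551923) (nat_lit 532) (nat_lit 2755209450) (nat_lit 608) (nat_lit 3230832358) (nat_lit 248) (nat_lit 5) (nat_lit 255) (nat_lit 5) (nat_lit 256) (nat_lit 5) (nat_lit 449) (nat_lit 354) (nat_lit 337)) (XT.nd (nat_lit 78) (nat_lit 0) (nat_lit 0) (XT.lf (nat_lit 0) (nat_lit 705026517) (nat_lit 532) (nat_lit 7491748833) (nat_lit 76) (nat_lit 638327022) (nat_lit 241) (nat_lit 5) (nat_lit 248) (nat_lit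 5) (nat_lit 242) (nat_lit 5) (nat_lit 450) (nat_lit 354) (nat_lit 336)) (XT.lf (nat_lit 0) (nat_lit 4675545987) (nat_lit 532) (nat_lit 135745170) (nat_lit 76) (nat_lit 4098378828) (nat_lit 241) (nat_lit 5) (nat_lit 248) (nat_lit 5) (nat_lit 242) (nat_lit 5) (nat_lit 451) (nat_lit 354) (nat_lit 335)))) (XT.nd (nat_lit 78) (nat_lit 988) (nat_lit 0) (XT.lf (nat_lit 0) (nat_lit 7378821908) (nat_lit 532) (nat_lit 1336211051) (nat_lit 608) (nat_lit 270904847) (nat_lit 234) (nat_lit 5) (nat_lit 241) (nat_lit 5) (nat_lit 242) (nat_lit 5) (nat_lit 452) (nat_lit 354) (nat_lit 334)) (XT.nd (nat_lit 78) (nat_lit 456) (nat_lit 0) (XT.lf (nat_lit 0) (nat_lit 3718105311) (nat_lit 532) (nat_lit 3128393190) (nat_lit 76) (nat_lit 2216822900) (nat_lit 227) (nat_lit 5) (nat_lit 234) (nat_lit 5) (nat_lit 228) (nat_lit 5) (nat_lit 453) (nat_lit 354) (nat_lit 333)) (XT.lf (nat_lit 0) (nat_lit 4469512329) (nat_lit 456) (nat_lit 3304753789) (nat_lit 532) (nat_lit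 1368130780) (nat_lit 221) (nat_lit 5) (nat_lit 227) (nat_lit 5) (nat_lit 228) (nat_lit 5) (nat_lit 454) (nat_lit 354) (nat_lit 332))))) (XT.nd (nat_lit 234) (nat_lit 1672) (nat_lit 0) (XT.nd (nat_lit 78) (nat_lit 532) (nat_lit 0) (XT.lf (nat_lit 0) (nat_lit 2638345804) (nat_lit 532) (nat_lit 6250830957) (nat_lit 76) (nat_lit 333825839) (nat_lit 214) (nat_lit 5) (nat_lit 221) (nat_lit 5) (nat_lit 215) (nat_lit 5) (nat_lit 455) (nat_lit 354) (nat_lit 331)) (XT.nd (nat_lit 78) (nat_lit 76) (nat_lit 0) (XT.lf (nat_lit 0) (nat_lit 1429939641) (nat_lit 456) (nat_lit 5282301140) (nat_lit 532) (nat_lit 2592686607) (nat_lit 208) (nat_lit 5) (nat_lit 214) (nat_lit 5) (nat_lit 215) (nat_lit 5) (nat_lit 456) (nat_lit 354) (nat_lit 330)) (XT.lf (nat_lit 0) (nat_lit 1444991691) (nat_lit 532) (nat_lit 135201512) (nat_lit 76) (nat_lit 7808400045) (nat_lit 207) (nat_lit 5) (nat_lit 214) (nat_lit 5) (nat_lit 208) (nat_lit 5) (nat_lit 457) (nat_lit 354)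 (nat_lit 329)))) (XT.nd (nat_lit 156) (nat_lit 760) (nat_lit 0) (XT.nd (nat_lit 78) (nat_lit 532) (nat_lit 0) (XT.lf (nat_lit 0) (nat_lit 5537791903) (nat_lit 456) (nat_lit 1729268773) (nat_lit 76) (nat_lit 2206347309) (nat_lit 202) (nat_lit 5) (nat_lit 208) (nat_lit 5) (nat_lit 203) (nat_lit 5) (nat_lit 458) (nat_lit 354) (nat_lit 328)) (XT.lf (nat_lit 0) (nat_lit 146709217) (nat_lit 532) (nat_lit 3352388262) (nat_lit 76) (nat_lit 6060878119) (nat_lit 195) (nat_lit 5) (nat_lit 202) (nat_lit 5) (nat_lit 196) (nat_lit 5) (nat_lit 459) (nat_lit 354) (nat_lit 327))) (XT.nd (nat_lit 78) (nat_lit 380) (nat_lit 0) (XT.lf (nat_lit 0) (nat_lit 4246937007) (nat_lit 456) (nat_lit 5022938446) (nat_lit 76) (nat_lit 378099745) (nat_lit 190) (nat_lit 5) (nat_lit 196) (nat_lit 5) (nat_lit 191) (nat_lit 5) (nat_lit 460) (nat_lit 354) (nat_lit 326)) (XT.lf (nat_lit 0) (nat_lit 3000303414) (nat_lit 380) (nat_lit 5439191174) (nat_lit 456) (nat_lit 1298033696)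 (nat_lit 185) (nat_lit 5) (nat_lit 190) (nat_lit 5) (nat_lit 191) (nat_lit 5) (nat_lit 461) (nat_lit 354) (nat_lit 325)))))) (XT.nd (nat_lit 468) (nat_lit 1824) (nat_lit 0) (XT.nd (nat_lit 234) (nat_lit 1064) (nat_lit 0) (XT.nd (nat_lit 78) (nat_lit 456) (nat_lit 0) (XT.lf (nat_lit 0) (nat_lit 1336402978) (nat_lit 380) (nat_lit 1500561061) (nat_lit 456) (nat_lit 6991777562) (nat_lit 179) (nat_lit 5) (nat_lit 184) (nat_lit 5) (nat_lit 185) (nat_lit 5) (nat_lit 462) (nat_lit 354) (nat_lit 324)) (XT.nd (nat_lit 78) (nat_lit 456) (nat_lit 0) (XT.lf (nat_lit 0) (nat_lit 7044655601) (nat_lit 456) (nat_lit 369655981) (nat_lit 76) (nat_lit 2507148510) (nat_lit 179) (nat_lit 5) (nat_lit 185) (nat_lit 5) (nat_lit 180) (nat_lit 5) (nat_lit 463) (nat_lit 354) (nat_lit 323)) (XT.lf (nat_lit 0) (nat_lit 1311169201) (nat_lit 456) (nat_lit 2099700754) (nat_lit 76) (nat_lit 6604831145) (nat_lit 173) (nat_lit 5) (nat_lit 179) (nat_lit 5) (nat_lit 174)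 (nat_lit 5) (nat_lit 464) (nat_lit 354) (nat_lit 322)))) (XT.nd (nat_lit 78) (nat_lit 760) (nat_lit 0) (XT.lf (nat_lit 0) (nat_lit 5538719818) (nat_lit 380) (nat_lit 3877699962) (nat_lit 76) (nat_lit 695140077) (nat_lit 169) (nat_lit 5) (nat_lit 174) (nat_lit 5) (nat_lit 170) (nat_lit 5) (nat_lit 465) (nat_lit 354) (nat_lit 321)) (XT.nd (nat_lit 78) (nat_lit 380) (nat_lit 0) (XT.lf (nat_lit 0) (nat_lit 4504776056) (nat_lit 380) (nat_lit 5359085176) (nat_lit 456) (nat_lit 345213762) (nat_lit 164) (nat_lit 5) (nat_lit 169) (nat_lit 5) (nat_lit 170) (nat_lit 5) (nat_lit 466) (nat_lit 354) (nat_lit 320)) (XT.lf (nat_lit 0) (nat_lit 2723976807) (nat_lit 304) (nat_lit 1182002380) (nat_lit 380) (nat_lit 6402225291) (nat_lit 159) (nat_lit 5) (nat_lit 163) (nat_lit 5) (nat_lit 164) (nat_lit 5) (nat_lit 467) (nat_lit 354) (nat_lit 319))))) (XT.nd (nat_lit 234) (nat_lit 1064) (nat_lit 0) (XT.nd (nat_lit 78) (nat_lit 380) (nat_lit 0) (XT.lf (nat_lit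 0) (nat_lit 893236168) (nat_lit 380) (nat_lit 7356100069) (nat_lit 456) (nat_lit 2159699424) (nat_lit 154) (nat_lit 5) (nat_lit 159) (nat_lit 5) (nat_lit 160) (nat_lit 5) (nat_lit 468) (nat_lit 354) (nat_lit 318)) (XT.nd (nat_lit 78) (nat_lit 304) (nat_lit 0) (XT.lf (nat_lit 0) (nat_lit 2145878535) (nat_lit 456) (nat_lit 975723951) (nat_lit 76) (nat_lit 7389866881) (nat_lit 153) (nat_lit 5) (nat_lit 159) (nat_lit 5) (nat_lit 154) (nat_lit 5) (nat_lit 469) (nat_lit 354) (nat_lit 317)) (XT.lf (nat_lit 0) (nat_lit 6515510533) (nat_lit 380) (nat_lit 2885335016) (nat_lit 76) (nat_lit 1214683470) (nat_lit 149) (nat_lit 5) (nat_lit 154) (nat_lit 5) (nat_lit 150) (nat_lit 5) (nat_lit 470) (nat_lit 354) (nat_lit 316)))) (XT.nd (nat_lit 156) (nat_lit 380) (nat_lit 0) (XT.nd (nat_lit 78) (nat_lit 304) (nat_lit 0) (XT.lf (nat_lit 0) (nat_lit 261926286) (nat_lit 380) (nat_lit 4849118211) (nat_lit 76) (nat_lit 5610305767) (nat_lit 144) (nat_lit 5)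 (nat_lit 149) (nat_lit 5) (nat_lit 145) (nat_lit 5) (nat_lit 471) (nat_lit 354) (nat_lit 315)) (XT.lf (nat_lit 0) (nat_lit 3955382275) (nat_lit 304) (nat_lit 695029851) (nat_lit 380) (nat_lit 6178449758) (nat_lit 140) (nat_lit 5) (nat_lit 144) (nat_lit 5) (nat_lit 145) (nat_lit 5) (nat_lit 472) (nat_lit 354) (nat_lit 314))) (XT.nd (nat_lit 78) (nat_lit 76) (nat_lit 0) (XT.lf (nat_lit 0) (nat_lit 1980239920) (nat_lit 304) (nat_lit 7165992058) (nat_lit 380) (nat_lit 1791900472) (nat_lit 136) (nat_lit 5) (nat_lit 140) (nat_lit 5) (nat_lit 141) (nat_lit 5) (nat_lit 473) (nat_lit 354) (nat_lit 313)) (XT.lf (nat_lit 0) (nat_lit 2647568604) (nat_lit 380) (nat_lit 51515157) (nat_lit 76) (nat_lit 8350148978) (nat_lit 135) (nat_lit 5) (nat_lit 140) (nat_lit 5) (nat_lit 136) (nat_lit 5) (nat_lit 474) (nat_lit 354) (nat_lit 312))))))) (XT.nd (nat_lit 56004) (nat_lit 0) (nat_lit 13604) (XT.nd (nat_lit 468) (nat_lit 1216) (nat_lit 0) (XT.nd (nat_lit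 234) (nat_lit 608) (nat_lit 0) (XT.nd (nat_lit 78) (nat_lit 608) (nat_lit 0) (XT.lf (nat_lit 0) (nat_lit 7173297168) (nat_lit 380) (nat_lit 2117608652) (nat_lit 76) (nat_lit 1870983050) (nat_lit 131) (nat_lit 5) (nat_lit 136) (nat_lit 5) (nat_lit 132) (nat_lit 5) (nat_lit 475) (nat_lit 354) (nat_lit 311)) (XT.nd (nat_lit 78) (nat_lit 228) (nat_lit 0) (XT.lf (nat_lit 0) (nat_lit 520576123) (nat_lit 380) (nat_lit 4242911730) (nat_lit 76) (nat_lit 6512952516) (nat_lit 126) (nat_lit 5) (nat_lit 131) (nat_lit 5) (nat_lit 127) (nat_lit 5) (nat_lit 476) (nat_lit 354) (nat_lit 310)) (XT.lf (nat_lit 0) (nat_lit 4958518817) (nat_lit 228) (nat_lit 105208431) (nat_lit 304) (nat_lit 6329084216) (nat_lit 123) (nat_lit 5) (nat_lit 126) (nat_lit 5) (nat_lit 127) (nat_lit 5) (nat_lit 477) (nat_lit 354) (nat_lit 309)))) (XT.nd (nat_lit 78) (nat_lit 304) (nat_lit 0) (XT.lf (nat_lit 0) (nat_lit 2813487257) (nat_lit 304) (nat_lit 6912216434) (nat_lit 380)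 (nat_lit 1785247043) (nat_lit 119) (nat_lit 5) (nat_lit 123) (nat_lit 5) (nat_lit 124) (nat_lit 5) (nat_lit 478) (nat_lit 354) (nat_lit 308)) (XT.nd (nat_lit 78) (nat_lit 0) (nat_lit 0) (XT.lf (nat_lit 0) (nat_lit 607627999) (nat_lit 228) (nat_lit 2203542529) (nat_lit 304) (nat_lit 8819930750) (nat_lit 115) (nat_lit 5) (nat_lit 118) (nat_lit 5) (nat_lit 119) (nat_lit 5) (nat_lit 479) (nat_lit 354) (nat_lit 307)) (XT.lf (nat_lit 0) (nat_lit 7502428586) (nat_lit 304) (nat_lit 1648762606) (nat_lit 76) (nat_lit 2601691300) (nat_lit 115) (nat_lit 5) (nat_lit 119) (nat_lit 5) (nat_lit 116) (nat_lit 5) (nat_lit 480) (nat_lit 354) (nat_lit 306))))) (XT.nd (nat_lit 234) (nat_lit 304) (nat_lit 0) (XT.nd (nat_lit 78) (nat_lit 532) (nat_lit 0) (XT.lf (nat_lit 0) (nat_lit 423292172) (nat_lit 380) (nat_lit 3959055467) (nat_lit 76) (nat_lit 7494333151) (nat_lit 110) (nat_lit 5) (nat_lit 115) (nat_lit 5) (nat_lit 111) (nat_lit 5) (nat_lit 481) (nat_lit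 354) (nat_lit 305)) (XT.nd (nat_lit 78) (nat_lit 304) (nat_lit 0) (XT.lf (nat_lit 0) (nat_lit 5137155183) (nat_lit 304) (nat_lit 6347205274) (nat_lit 76) (nat_lit 517961575) (nat_lit 107) (nat_lit 5) (nat_lit 111) (nat_lit 5) (nat_lit 108) (nat_lit 5) (nat_lit 482) (nat_lit 354) (nat_lit 304)) (XT.lf (nat_lit 0) (nat_lit 3317061763) (nat_lit 304) (nat_lit 6657935907) (nat_lit 380) (nat_lit 2154884385) (nat_lit 103) (nat_lit 5) (nat_lit 107) (nat_lit 5) (nat_lit 108) (nat_lit 5) (nat_lit 483) (nat_lit 354) (nat_lit 303)))) (XT.nd (nat_lit 55146) (nat_lit 0) (nat_lit 21128) (XT.nd (nat_lit 78) (nat_lit 0) (nat_lit 0) (XT.lf (nat_lit 0) (nat_lit 913378738) (nat_lit 228) (nat_lit 1702768965) (nat_lit 304) (nat_lit 9643475636) (nat_lit 99) (nat_lit 5) (nat_lit 102) (nat_lit 5) (nat_lit 103) (nat_lit 5) (nat_lit 484) (nat_lit 354) (nat_lit 302)) (XT.lf (nat_lit 0) (nat_lit 7487724181) (nat_lit 304) (nat_lit 1556435108) (nat_lit 76) (nat_lit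 3346835730) (nat_lit 99) (nat_lit 5) (nat_lit 103) (nat_lit 5) (nat_lit 100) (nat_lit 5) (nat_lit 485) (nat_lit 354) (nat_lit 301))) (XT.nd (nat_lit 78) (nat_lit 836) (nat_lit 0) (XT.lf (nat_lit 0) (nat_lit 2049980432) (nat_lit 760) (nat_lit 882197152) (nat_lit 760) (nat_lit 882197152) (nat_lit 388) (nat_lit 4) (nat_lit 398) (nat_lit 5) (nat_lit 398) (nat_lit 4) (nat_lit 430) (nat_lit 355) (nat_lit 355)) (XT.lf (nat_lit 0) (nat_lit 2045166189) (nat_lit 836) (nat_lit 4961474999) (nat_lit 0) (nat_lit 670447810) (nat_lit 377) (nat_lit 5) (nat_lit 388) (nat_lit 4) (nat_lit 377) (nat_lit 4) (nat_lit 431) (nat_lit 355) (nat_lit 354)))))) (XT.nd (nat_lit 468) (nat_lit 3800) (nat_lit 0) (XT.nd (nat_lit 234) (nat_lit 2204) (nat_lit 0) (XT.nd (nat_lit 78) (nat_lit 760) (nat_lit 0) (XT.lf (nat_lit 0) (nat_lit 1316599627) (nat_lit 760) (nat_lit 4566266232) (nat_lit 760) (nat_lit 1843784737) (nat_lit 367) (nat_lit 4) (nat_lit 377) (nat_lit 5) (nat_lit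 377) (nat_lit 4) (nat_lit 432) (nat_lit 355) (nat_lit 353)) (XT.nd (nat_lit 78) (nat_lit 684) (nat_lit 0) (XT.lf (nat_lit 0) (nat_lit 1958971337) (nat_lit 836) (nat_lit 86695783) (nat_lit 76) (nat_lit 5731967000) (nat_lit 366) (nat_lit 5) (nat_lit 377) (nat_lit 5) (nat_lit 367) (nat_lit 4) (nat_lit 433) (nat_lit 355) (nat_lit 352)) (XT.lf (nat_lit 0) (nat_lit 5791189338) (nat_lit 760) (nat_lit 1482007609) (nat_lit 0) (nat_lit 556634714) (nat_lit 357) (nat_lit 5) (nat_lit 367) (nat_lit 4) (nat_lit 357) (nat_lit 4) (nat_lit 434) (nat_lit 355) (nat_lit 351)))) (XT.nd (nat_lit 78) (nat_lit 1444) (nat_lit 0) (XT.lf (nat_lit 0) (nat_lit 1773445448) (nat_lit 760) (nat_lit 2897319609) (nat_lit 76) (nat_lit 3212466221) (nat_lit 347) (nat_lit 5) (nat_lit 357) (nat_lit 5) (nat_lit 348) (nat_lit 4) (nat_lit 435) (nat_lit 355) (nat_lit 350)) (XT.nd (nat_lit 78) (nat_lit 760) (nat_lit 0) (XT.lf (nat_lit 0) (nat_lit 3615977728) (nat_lit 684) (nat_lit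 1986184510) (nat_lit 760) (nat_lit 2335913446) (nat_lit 338) (nat_lit 5) (nat_lit 347) (nat_lit 5) (nat_lit 348) (nat_lit 4) (nat_lit 436) (nat_lit 355) (nat_lit 349)) (XT.lf (nat_lit 0) (nat_lit 1467251703) (nat_lit 760) (nat_lit 5758862411) (nat_lit 76) (nat_lit 768233051) (nat_lit 328) (nat_lit 5) (nat_lit 338) (nat_lit 5) (nat_lit 329) (nat_lit 4) (nat_lit 437) (nat_lit 355) (nat_lit 348))))) (XT.nd (nat_lit 234) (nat_lit 2508) (nat_lit 0) (XT.nd (nat_lit 78) (nat_lit 684) (nat_lit 0) (XT.lf (nat_lit 0) (nat_lit 829100957) (nat_lit 608) (nat_lit 4468975604) (nat_lit 684) (nat_lit 2753701225) (nat_lit 320) (nat_lit 5) (nat_lit 328) (nat_lit 5) (nat_lit 329) (nat_lit 4) (nat_lit 438) (nat_lit 355) (nat_lit 347)) (XT.nd (nat_lit 78) (nat_lit 608) (nat_lit 0) (XT.lf (nat_lit 0) (nat_lit 1055113124) (nat_lit 684) (nat_lit 574965693) (nat_lit 76) (nat_lit 6480649681) (nat_lit 319) (nat_lit 5) (nat_lit 328) (nat_lit 5) (nat_lit 320) (nat_lit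 5) (nat_lit 439) (nat_lit 355) (nat_lit 346)) (XT.lf (nat_lit 0) (nat_lit 4888580964) (nat_lit 684) (nat_lit 1994082885) (nat_lit 76) (nat_lit 1288123350) (nat_lit 311) (nat_lit 5) (nat_lit 320) (nat_lit 5) (nat_lit 312) (nat_lit 4) (nat_lit 440) (nat_lit 355) (nat_lit 345)))) (XT.nd (nat_lit 156) (nat_lit 1216) (nat_lit 0) (XT.nd (nat_lit 78) (nat_lit 608) (nat_lit 0) (XT.lf (nat_lit 0) (nat_lit 542276318) (nat_lit 684) (nat_lit 3428298851) (nat_lit 76) (nat_lit 4261737578) (nat_lit 302) (nat_lit 5) (nat_lit 311) (nat_lit 5) (nat_lit 303) (nat_lit 5) (nat_lit 441) (nat_lit 355) (nat_lit 344)) (XT.lf (nat_lit 0) (nat_lit 3409097621) (nat_lit 608) (nat_lit 963381333) (nat_lit 684) (nat_lit 3922692360) (nat_lit 294) (nat_lit 5) (nat_lit 302) (nat_lit 5) (nat_lit 303) (nat_lit 5) (nat_lit 442) (nat_lit 355) (nat_lit 343))) (XT.nd (nat_lit 78) (nat_lit 684) (nat_lit 0) (XT.lf (nat_lit 0) (nat_lit 1998655480) (nat_lit 532) (nat_lit 6268500301)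 (nat_lit 608) (nat_lit 92373868) (nat_lit 287) (nat_lit 5) (nat_lit 294) (nat_lit 5) (nat_lit 295) (nat_lit 4) (nat_lit 443) (nat_lit 355) (nat_lit 342)) (XT.lf (nat_lit 0) (nat_lit 553797410) (nat_lit 608) (nat_lit 3192043844) (nat_lit 684) (nat_lit 4679212190) (nat_lit 278) (nat_lit 5) (nat_lit 286) (nat_lit 5) (nat_lit 287) (nat_lit 5) (nat_lit 444) (nat_lit 355) (nat_lit 341))))))))
noncomputable def xc15 : XT := (XT.nd (nat_lit 2028) (nat_lit 3572) (nat_lit 0) (XT.nd (nat_lit 1014) (nat_lit 4408) (nat_lit 0) (XT.nd (nat_lit 468) (nat_lit 2584) (nat_lit 0) (XT.nd (nat_lit 234) (nat_lit 1672) (nat_lit 0) (XT.nd (nat_lit 78) (nat_lit 1140) (nat_lit 0) (XT.lf (nat_lit 0) (nat_lit 7608030520) (nat_lit 608) (nat_lit 33234607) (nat_lit 684) (nat_lit 850976749) (nat_lit 278) (nat_lit 5) (nat_lit 286) (nat_lit 5) (nat_lit 287) (nat_lit 5) (nat_lit 445) (nat_lit 355) (nat_lit 340)) (XT.nd (nat_lit 78) (nat_lit 532) (nat_lit 0) (XT.lf (nat_lit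 0) (nat_lit 3014912399) (nat_lit 608) (nat_lit 2360872241) (nat_lit 76) (nat_lit 3184570079) (nat_lit 270) (nat_lit 5) (nat_lit 278) (nat_lit 5) (nat_lit 271) (nat_lit 5) (nat_lit 446) (nat_lit 355) (nat_lit 339)) (XT.lf (nat_lit 0) (nat_lit 4779947693) (nat_lit 532) (nat_lit 2144304830) (nat_lit 608) (nat_lit 1705914241) (nat_lit 263) (nat_lit 5) (nat_lit 270) (nat_lit 5) (nat_lit 271) (nat_lit 5) (nat_lit 447) (nat_lit 355) (nat_lit 338)))) (XT.nd (nat_lit 78) (nat_lit 1064) (nat_lit 0) (XT.lf (nat_lit 0) (nat_lit 2167234910) (nat_lit 608) (nat_lit 5369524612) (nat_lit 76) (nat_lit 1164612093) (nat_lit 255) (nat_lit 5) (nat_lit 263) (nat_lit 5) (nat_lit 256) (nat_lit 5) (nat_lit 448) (nat_lit 355) (nat_lit 337)) (XT.nd (nat_lit 78) (nat_lit 532) (nat_lit 0) (XT.lf (nat_lit 0) (nat_lit 1850185814) (nat_lit 532) (nat_lit 4238051265) (nat_lit 608) (nat_lit 2685673317) (nat_lit 248) (nat_lit 5) (nat_lit 255) (nat_lit 5) (nat_lit 256) (nat_lit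 5) (nat_lit 449) (nat_lit 355) (nat_lit 336)) (XT.lf (nat_lit 0) (nat_lit 351320166) (nat_lit 456) (nat_lit 851945101) (nat_lit 532) (nat_lit 7644878387) (nat_lit 241) (nat_lit 5) (nat_lit 247) (nat_lit 5) (nat_lit 248) (nat_lit 5) (nat_lit 450) (nat_lit 355) (nat_lit 335))))) (XT.nd (nat_lit 234) (nat_lit 1520) (nat_lit 0) (XT.nd (nat_lit 78) (nat_lit 1064) (nat_lit 0) (XT.lf (nat_lit 0) (nat_lit 5139366665) (nat_lit 532) (nat_lit 1177531618) (nat_lit 76) (nat_lit 2606501344) (nat_lit 241) (nat_lit 5) (nat_lit 248) (nat_lit 5) (nat_lit 242) (nat_lit 5) (nat_lit 451) (nat_lit 355) (nat_lit 334)) (XT.nd (nat_lit 78) (nat_lit 456) (nat_lit 0) (XT.lf (nat_lit 0) (nat_lit 141154784) (nat_lit 608) (nat_lit 2720079635) (nat_lit 76) (nat_lit 6139123389) (nat_lit 233) (nat_lit 5) (nat_lit 241) (nat_lit 5) (nat_lit 234) (nat_lit 5) (nat_lit 452) (nat_lit 355) (nat_lit 333)) (XT.lf (nat_lit 0) (nat_lit 4080760853) (nat_lit 532) (nat_lit 4305073837)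 (nat_lit 76) (nat_lit 692788559) (nat_lit 227) (nat_lit 5) (nat_lit 234) (nat_lit 5) (nat_lit 228) (nat_lit 5) (nat_lit 453) (nat_lit 355) (nat_lit 332)))) (XT.nd (nat_lit 156) (nat_lit 532) (nat_lit 0) (XT.nd (nat_lit 78) (nat_lit 532) (nat_lit 0) (XT.lf (nat_lit 0) (nat_lit 3234923332) (nat_lit 456) (nat_lit 4865963889) (nat_lit 532) (nat_lit 1057532213) (nat_lit 221) (nat_lit 5) (nat_lit 227) (nat_lit 5) (nat_lit 228) (nat_lit 5) (nat_lit 454) (nat_lit 355) (nat_lit 331)) (XT.lf (nat_lit 0) (nat_lit 1662768092) (nat_lit 456) (nat_lit 1243468390) (nat_lit 532) (nat_lit 6333521008) (nat_lit 214) (nat_lit 5) (nat_lit 220) (nat_lit 5) (nat_lit 221) (nat_lit 5) (nat_lit 455) (nat_lit 355) (nat_lit 330))) (XT.nd (nat_lit 78) (nat_lit 76) (nat_lit 0) (XT.lf (nat_lit 0) (nat_lit 51779094) (nat_lit 456) (nat_lit 6883596553) (nat_lit 532) (nat_lit 2387201747) (nat_lit 208) (nat_lit 5) (nat_lit 214) (nat_lit 5) (nat_lit 215) (nat_lit 5) (nat_lit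 456) (nat_lit 355) (nat_lit 329)) (XT.lf (nat_lit 0) (nat_lit 1620138169) (nat_lit 532) (nat_lit 1574437958) (nat_lit 76) (nat_lit 6212193313) (nat_lit 207) (nat_lit 5) (nat_lit 214) (nat_lit 5) (nat_lit 208) (nat_lit 5) (nat_lit 457) (nat_lit 355) (nat_lit 328)))))) (XT.nd (nat_lit 468) (nat_lit 2280) (nat_lit 0) (XT.nd (nat_lit 234) (nat_lit 836) (nat_lit 0) (XT.nd (nat_lit 78) (nat_lit 912) (nat_lit 0) (XT.lf (nat_lit 0) (nat_lit 5665458728) (nat_lit 456) (nat_lit 3237721648) (nat_lit 76) (nat_lit 589353393) (nat_lit 202) (nat_lit 5) (nat_lit 208) (nat_lit 5) (nat_lit 203) (nat_lit 5) (nat_lit 458) (nat_lit 355) (nat_lit 327)) (XT.nd (nat_lit 78) (nat_lit 380) (nat_lit 0) (XT.lf (nat_lit 0) (nat_lit 216456122) (nat_lit 532) (nat_lit 4943205260) (nat_lit 76) (nat_lit 4420173318) (nat_lit 195) (nat_lit 5) (nat_lit 202) (nat_lit 5) (nat_lit 196) (nat_lit 5) (nat_lit 459) (nat_lit 355) (nat_lit 326)) (XT.lf (nat_lit 0) (nat_lit 2973540213)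 (nat_lit 380) (nat_lit 1303073149) (nat_lit 456) (nat_lit 5392022349) (nat_lit 190) (nat_lit 5) (nat_lit 195) (nat_lit 5) (nat_lit 196) (nat_lit 5) (nat_lit 460) (nat_lit 355) (nat_lit 325)))) (XT.nd (nat_lit 78) (nat_lit 456) (nat_lit 0) (XT.lf (nat_lit 0) (nat_lit 1272255977) (nat_lit 380) (nat_lit 7150554265) (nat_lit 456) (nat_lit 1336305770) (nat_lit 185) (nat_lit 5) (nat_lit 190) (nat_lit 5) (nat_lit 191) (nat_lit 5) (nat_lit 461) (nat_lit 355) (nat_lit 324)) (XT.nd (nat_lit 78) (nat_lit 380) (nat_lit 0) (XT.lf (nat_lit 0) (nat_lit 2763915700) (nat_lit 456) (nat_lit 472277272) (nat_lit 76) (nat_lit 6614846890) (nat_lit 184) (nat_lit 5) (nat_lit 190) (nat_lit 5) (nat_lit 185) (nat_lit 5) (nat_lit 462) (nat_lit 355) (nat_lit 323)) (XT.lf (nat_lit 0) (nat_lit 6930763218) (nat_lit 456) (nat_lit 2237603800) (nat_lit 76) (nat_lit 776208216) (nat_lit 179) (nat_lit 5) (nat_lit 185) (nat_lit 5) (nat_lit 180) (nat_lit 5) (nat_lit 463) (nat_lit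 355) (nat_lit 322))))) (XT.nd (nat_lit 234) (nat_lit 1140) (nat_lit 0) (XT.nd (nat_lit 78) (nat_lit 684) (nat_lit 0) (XT.lf (nat_lit 0) (nat_lit 1137215222) (nat_lit 456) (nat_lit 4056857601) (nat_lit 76) (nat_lit 4845536077) (nat_lit 173) (nat_lit 5) (nat_lit 179) (nat_lit 5) (nat_lit 174) (nat_lit 5) (nat_lit 464) (nat_lit 355) (nat_lit 321)) (XT.nd (nat_lit 78) (nat_lit 380) (nat_lit 0) (XT.lf (nat_lit 0) (nat_lit 4213639515) (nat_lit 304) (nat_lit 1107550433) (nat_lit 380) (nat_lit 4815149227) (nat_lit 169) (nat_lit 5) (nat_lit 173) (nat_lit 5) (nat_lit 174) (nat_lit 5) (nat_lit 465) (nat_lit 355) (nat_lit 320)) (XT.lf (nat_lit 0) (nat_lit 2398023139) (nat_lit 380) (nat_lit 7201725302) (nat_lit 456) (nat_lit 635037529) (nat_lit 164) (nat_lit 5) (nat_lit 169) (nat_lit 5) (nat_lit 170) (nat_lit 5) (nat_lit 466) (nat_lit 355) (nat_lit 319)))) (XT.nd (nat_lit 156) (nat_lit 760) (nat_lit 0) (XT.nd (nat_lit 78) (nat_lit 0) (nat_lit 0) (XT.lf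 (nat_lit 0) (nat_lit 523147643) (nat_lit 304) (nat_lit 3056875095) (nat_lit 380) (nat_lit 6754729026) (nat_lit 159) (nat_lit 5) (nat_lit 163) (nat_lit 5) (nat_lit 164) (nat_lit 5) (nat_lit 467) (nat_lit 355) (nat_lit 318)) (XT.lf (nat_lit 0) (nat_lit 7879896830) (nat_lit 380) (nat_lit 1375199016) (nat_lit 76) (nat_lit 1181356761) (nat_lit 159) (nat_lit 5) (nat_lit 164) (nat_lit 5) (nat_lit 160) (nat_lit 5) (nat_lit 468) (nat_lit 355) (nat_lit 317))) (XT.nd (nat_lit 78) (nat_lit 304) (nat_lit 0) (XT.lf (nat_lit 0) (nat_lit 1719674208) (nat_lit 456) (nat_lit 3328977850) (nat_lit 76) (nat_lit 5490976844) (nat_lit 153) (nat_lit 5) (nat_lit 159) (nat_lit 5) (nat_lit 154) (nat_lit 5) (nat_lit 469) (nat_lit 355) (nat_lit 316)) (XT.lf (nat_lit 0) (nat_lit 5312509606) (nat_lit 304) (nat_lit 728108520) (nat_lit 380) (nat_lit 4604044188) (nat_lit 149) (nat_lit 5) (nat_lit 153) (nat_lit 5) (nat_lit 154) (nat_lit 5) (nat_lit 470) (nat_lit 355) (nat_lit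 315))))))) (XT.nd (nat_lit 1014) (nat_lit 380) (nat_lit 0) (XT.nd (nat_lit 468) (nat_lit 1520) (nat_lit 0) (XT.nd (nat_lit 234) (nat_lit 988) (nat_lit 0) (XT.nd (nat_lit 78) (nat_lit 380) (nat_lit 0) (XT.lf (nat_lit 0) (nat_lit 3358011723) (nat_lit 304) (nat_lit 7108002150) (nat_lit 380) (nat_lit 285421863) (nat_lit 145) (nat_lit 5) (nat_lit 149) (nat_lit 5) (nat_lit 150) (nat_lit 5) (nat_lit 471) (nat_lit 355) (nat_lit 314)) (XT.nd (nat_lit 78) (nat_lit 0) (nat_lit 0) (XT.lf (nat_lit 0) (nat_lit 1337647323) (nat_lit 304) (nat_lit 2727401171) (nat_lit 380) (nat_lit 6794771101) (nat_lit 140) (nat_lit 5) (nat_lit 144) (nat_lit 5) (nat_lit 145) (nat_lit 5) (nat_lit 472) (nat_lit 355) (nat_lit 313)) (XT.lf (nat_lit 0) (nat_lit 8510169675) (nat_lit 380) (nat_lit 722295304) (nat_lit 76) (nat_lit 1737639157) (nat_lit 140) (nat_lit 5) (nat_lit 145) (nat_lit 5) (nat_lit 141) (nat_lit 5) (nat_lit 473) (nat_lit 355) (nat_lit 312)))) (XT.nd (nat_lit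 78) (nat_lit 608) (nat_lit 0) (XT.lf (nat_lit 0) (nat_lit 1958923054) (nat_lit 380) (nat_lit 2832470706) (nat_lit 76) (nat_lit 6290484868) (nat_lit 135) (nat_lit 5) (nat_lit 140) (nat_lit 5) (nat_lit 136) (nat_lit 5) (nat_lit 474) (nat_lit 355) (nat_lit 311)) (XT.nd (nat_lit 78) (nat_lit 304) (nat_lit 0) (XT.lf (nat_lit 0) (nat_lit 6198069597) (nat_lit 304) (nat_lit 231604532) (nat_lit 380) (nat_lit 4765960181) (nat_lit 131) (nat_lit 5) (nat_lit 135) (nat_lit 5) (nat_lit 136) (nat_lit 5) (nat_lit 475) (nat_lit 355) (nat_lit 310)) (XT.lf (nat_lit 0) (nat_lit 4079354435) (nat_lit 304) (nat_lit 6936319191) (nat_lit 380) (nat_lit 295474811) (nat_lit 127) (nat_lit 5) (nat_lit 131) (nat_lit 5) (nat_lit 132) (nat_lit 5) (nat_lit 476) (nat_lit 355) (nat_lit 309))))) (XT.nd (nat_lit 234) (nat_lit 836) (nat_lit 0) (XT.nd (nat_lit 78) (nat_lit 380) (nat_lit 0) (XT.lf (nat_lit 0) (nat_lit 1890844700) (nat_lit 228) (nat_lit 2316842100) (nat_lit 304)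 (nat_lit 7220748394) (nat_lit 123) (nat_lit 5) (nat_lit 126) (nat_lit 5) (nat_lit 127) (nat_lit 5) (nat_lit 477) (nat_lit 355) (nat_lit 308)) (XT.nd (nat_lit 78) (nat_lit 380) (nat_lit 0) (XT.lf (nat_lit 0) (nat_lit 8813191014) (nat_lit 304) (nat_lit 352929286) (nat_lit 76) (nat_lit 2381583608) (nat_lit 123) (nat_lit 5) (nat_lit 127) (nat_lit 5) (nat_lit 124) (nat_lit 5) (nat_lit 478) (nat_lit 355) (nat_lit 307)) (XT.lf (nat_lit 0) (nat_lit 1844275533) (nat_lit 380) (nat_lit 2642696889) (nat_lit 76) (nat_lit 7181606876) (nat_lit 118) (nat_lit 5) (nat_lit 123) (nat_lit 5) (nat_lit 119) (nat_lit 5) (nat_lit 479) (nat_lit 355) (nat_lit 306)))) (XT.nd (nat_lit 156) (nat_lit 304) (nat_lit 0) (XT.nd (nat_lit 78) (nat_lit 304) (nat_lit 0) (XT.lf (nat_lit 0) (nat_lit 6479505889) (nat_lit 304) (nat_lit 4997816260) (nat_lit 76) (nat_lit 314158916) (nat_lit 115) (nat_lit 5) (nat_lit 119) (nat_lit 5) (nat_lit 116) (nat_lit 5) (nat_lit 480) (nat_lit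 355) (nat_lit 305)) (XT.lf (nat_lit 0) (nat_lit 4486449287) (nat_lit 304) (nat_lit 6750749959) (nat_lit 380) (nat_lit 679046454) (nat_lit 111) (nat_lit 5) (nat_lit 115) (nat_lit 5) (nat_lit 116) (nat_lit 5) (nat_lit 481) (nat_lit 355) (nat_lit 304))) (XT.nd (nat_lit 78) (nat_lit 0) (nat_lit 0) (XT.lf (nat_lit 0) (nat_lit 2105692832) (nat_lit 228) (nat_lit 1888363509) (nat_lit 304) (nat_lit 8048912098) (nat_lit 107) (nat_lit 5) (nat_lit 110) (nat_lit 5) (nat_lit 111) (nat_lit 5) (nat_lit 482) (nat_lit 355) (nat_lit 303)) (XT.lf (nat_lit 0) (nat_lit 8774999538) (nat_lit 304) (nat_lit 344310989) (nat_lit 76) (nat_lit 3052355920) (nat_lit 107) (nat_lit 5) (nat_lit 111) (nat_lit 5) (nat_lit 108) (nat_lit 5) (nat_lit 483) (nat_lit 355) (nat_lit 302)))))) (XT.nd (nat_lit 55458) (nat_lit 0) (nat_lit 15884) (XT.nd (nat_lit 55146) (nat_lit 0) (nat_lit 20064) (XT.nd (nat_lit 54990) (nat_lit 0) (nat_lit 22496) (XT.lf (nat_lit 0) (nat_lit 1359381596)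 (nat_lit 380) (nat_lit 2838403039) (nat_lit 76) (nat_lit 8104409741) (nat_lit 102) (nat_lit 5) (nat_lit 107) (nat_lit 5) (nat_lit 103) (nat_lit 5) (nat_lit 484) (nat_lit 355) (nat_lit 301)) (XT.nd (nat_lit 78) (nat_lit 836) (nat_lit 0) (XT.lf (nat_lit 0) (nat_lit 3449639516) (nat_lit 836) (nat_lit 159088003) (nat_lit 836) (nat_lit 159088003) (nat_lit 409) (nat_lit 4) (nat_lit 420) (nat_lit 5) (nat_lit 420) (nat_lit 4) (nat_lit 428) (nat_lit 356) (nat_lit 356)) (XT.lf (nat_lit 0) (nat_lit 3453351571) (nat_lit 836) (nat_lit 2105289729) (nat_lit 0) (nat_lit 2023094570) (nat_lit 398) (nat_lit 5) (nat_lit 409) (nat_lit 4) (nat_lit 398) (nat_lit 4) (nat_lit 429) (nat_lit 356) (nat_lit 355)))) (XT.nd (nat_lit 156) (nat_lit 836) (nat_lit 0) (XT.nd (nat_lit 78) (nat_lit 836) (nat_lit 0) (XT.lf (nat_lit 0) (nat_lit 4059213597) (nat_lit 760) (nat_lit 3201343364) (nat_lit 760) (nat_lit 368873616) (nat_lit 388) (nat_lit 4) (nat_lit 398) (nat_lit 5)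 (nat_lit 398) (nat_lit 4) (nat_lit 430) (nat_lit 356) (nat_lit 354)) (XT.lf (nat_lit 0) (nat_lit 2628021298) (nat_lit 760) (nat_lit 755745743) (nat_lit 836) (nat_lit 4294594195) (nat_lit 377) (nat_lit 5) (nat_lit 387) (nat_lit 5) (nat_lit 388) (nat_lit 4) (nat_lit 431) (nat_lit 356) (nat_lit 353))) (XT.nd (nat_lit 78) (nat_lit 76) (nat_lit 0) (XT.lf (nat_lit 0) (nat_lit 1190235740) (nat_lit 760) (nat_lit 5992248685) (nat_lit 760) (nat_lit 546218054) (nat_lit 367) (nat_lit 4) (nat_lit 377) (nat_lit 5) (nat_lit 377) (nat_lit 4) (nat_lit 432) (nat_lit 356) (nat_lit 352)) (XT.lf (nat_lit 0) (nat_lit 3206436733) (nat_lit 836) (nat_lit 264456261) (nat_lit 76) (nat_lit 4309286185) (nat_lit 366) (nat_lit 5) (nat_lit 377) (nat_lit 5) (nat_lit 367) (nat_lit 4) (nat_lit 433) (nat_lit 356) (nat_lit 351))))) (XT.nd (nat_lit 234) (nat_lit 2052) (nat_lit 0) (XT.nd (nat_lit 78) (nat_lit 1444) (nat_lit 0) (XT.lf (nat_lit 0) (nat_lit 6130785710) (nat_lit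 684) (nat_lit 870338774) (nat_lit 760) (nat_lit 832002843) (nat_lit 357) (nat_lit 5) (nat_lit 366) (nat_lit 5) (nat_lit 367) (nat_lit 4) (nat_lit 434) (nat_lit 356) (nat_lit 350)) (XT.nd (nat_lit 78) (nat_lit 684) (nat_lit 0) (XT.lf (nat_lit 0) (nat_lit 2924561003) (nat_lit 760) (nat_lit 3167495144) (nat_lit 76) (nat_lit 1795108081) (nat_lit 347) (nat_lit 5) (nat_lit 357) (nat_lit 5) (nat_lit 348) (nat_lit 4) (nat_lit 435) (nat_lit 356) (nat_lit 349)) (XT.lf (nat_lit 0) (nat_lit 3301069307) (nat_lit 684) (nat_lit 3418214235) (nat_lit 760) (nat_lit 1223404977) (nat_lit 338) (nat_lit 5) (nat_lit 347) (nat_lit 5) (nat_lit 348) (nat_lit 4) (nat_lit 436) (nat_lit 356) (nat_lit 348)))) (XT.nd (nat_lit 156) (nat_lit 684) (nat_lit 0) (XT.nd (nat_lit 78) (nat_lit 608) (nat_lit 0) (XT.lf (nat_lit 0) (nat_lit 1868253477) (nat_lit 684) (nat_lit 657649749) (nat_lit 760) (nat_lit 5473697638) (nat_lit 328) (nat_lit 5) (nat_lit 337) (nat_lit 5) (nat_lit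 338) (nat_lit 5) (nat_lit 437) (nat_lit 356) (nat_lit 347)) (XT.lf (nat_lit 0) (nat_lit 414386891) (nat_lit 608) (nat_lit 5903886172) (nat_lit 684) (nat_lit 1739527520) (nat_lit 320) (nat_lit 5) (nat_lit 328) (nat_lit 5) (nat_lit 329) (nat_lit 4) (nat_lit 438) (nat_lit 356) (nat_lit 346))) (XT.nd (nat_lit 78) (nat_lit 608) (nat_lit 0) (XT.lf (nat_lit 0) (nat_lit 2024639678) (nat_lit 684) (nat_lit 1043493624) (nat_lit 76) (nat_lit 5049113221) (nat_lit 319) (nat_lit 5) (nat_lit 328) (nat_lit 5) (nat_lit 320) (nat_lit 5) (nat_lit 439) (nat_lit 356) (nat_lit 345)) (XT.lf (nat_lit 0) (nat_lit 5669658594) (nat_lit 608) (nat_lit 145894776) (nat_lit 684) (nat_lit 2362602938) (nat_lit 311) (nat_lit 5) (nat_lit 319) (nat_lit 5) (nat_lit 320) (nat_lit 5) (nat_lit 440) (nat_lit 356) (nat_lit 344))))))))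
noncomputable def xc16 : XT := (XT.nd (nat_lit 2028) (nat_lit 4712) (nat_lit 0) (XT.nd (nat_lit 1014) (nat_lit 4788) (nat_lit 0) (XT.nd (nat_lit 468) (nat_lit 3268) (nat_lit 0) (XT.nd (nat_lit 234) (nat_lit 1216) (nat_lit 0) (XT.nd (nat_lit 78) (nat_lit 1216) (nat_lit 0) (XT.lf (nat_lit 0) (nat_lit 1414541126) (nat_lit 684) (nat_lit 4003616495) (nat_lit 76) (nat_lit 2822110375) (nat_lit 302) (nat_lit 5) (nat_lit 311) (nat_lit 5) (nat_lit 303) (nat_lit 5) (nat_lit 441) (nat_lit 356) (nat_lit 343)) (XT.nd (nat_lit 78) (nat_lit 608) (nat_lit 0) (XT.lf (nat_lit 0) (nat_lit 2784779480) (nat_lit 608) (nat_lit 2425593383) (nat_lit 684) (nat_lit 3093441118) (nat_lit 294) (nat_lit 5) (nat_lit 302) (nat_lit 5) (nat_lit 303) (nat_lit 5) (nat_lit 442) (nat_lit 356) (nat_lit 342)) (XT.lf (nat_lit 0) (nat_lit 683001852) (nat_lit 608) (nat_lit 7048262378) (nat_lit 76) (nat_lit 637696625) (nat_lit 286) (nat_lit 5) (nat_lit 294) (nat_lit 5) (nat_lit 287)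 (nat_lit 5) (nat_lit 443) (nat_lit 356) (nat_lit 341)))) (XT.nd (nat_lit 78) (nat_lit 1216) (nat_lit 0) (XT.lf (nat_lit 0) (nat_lit 4486482602) (nat_lit 608) (nat_lit 182656314) (nat_lit 76) (nat_lit 3766004196) (nat_lit 286) (nat_lit 5) (nat_lit 294) (nat_lit 5) (nat_lit 287) (nat_lit 5) (nat_lit 444) (nat_lit 356) (nat_lit 340)) (XT.nd (nat_lit 78) (nat_lit 608) (nat_lit 0) (XT.lf (nat_lit 0) (nat_lit 6828217846) (nat_lit 608) (nat_lit 1522880743) (nat_lit 684) (nat_lit 151849113) (nat_lit 278) (nat_lit 5) (nat_lit 286) (nat_lit 5) (nat_lit 287) (nat_lit 5) (nat_lit 445) (nat_lit 356) (nat_lit 339)) (XT.lf (nat_lit 0) (nat_lit 3660404260) (nat_lit 608) (nat_lit 3209109412) (nat_lit 76) (nat_lit 1702345420) (nat_lit 270) (nat_lit 5) (nat_lit 278) (nat_lit 5) (nat_lit 271) (nat_lit 5) (nat_lit 446) (nat_lit 356) (nat_lit 338))))) (XT.nd (nat_lit 234) (nat_lit 1596) (nat_lit 0) (XT.nd (nat_lit 78) (nat_lit 1140) (nat_lit 0) (XT.lf (nat_lit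 0) (nat_lit 3879141118) (nat_lit 532) (nat_lit 3655774636) (nat_lit 608) (nat_lit 1107451957) (nat_lit 263) (nat_lit 5) (nat_lit 270) (nat_lit 5) (nat_lit 271) (nat_lit 5) (nat_lit 447) (nat_lit 356) (nat_lit 337)) (XT.nd (nat_lit 78) (nat_lit 532) (nat_lit 0) (XT.lf (nat_lit 0) (nat_lit 2369170219) (nat_lit 532) (nat_lit 345850507) (nat_lit 608) (nat_lit 5999330675) (nat_lit 255) (nat_lit 5) (nat_lit 262) (nat_lit 5) (nat_lit 263) (nat_lit 5) (nat_lit 448) (nat_lit 356) (nat_lit 336)) (XT.lf (nat_lit 0) (nat_lit 822197665) (nat_lit 532) (nat_lit 5776265018) (nat_lit 608) (nat_lit 2189178703) (nat_lit 248) (nat_lit 5) (nat_lit 255) (nat_lit 5) (nat_lit 256) (nat_lit 5) (nat_lit 449) (nat_lit 356) (nat_lit 335)))) (XT.nd (nat_lit 156) (nat_lit 1064) (nat_lit 0) (XT.nd (nat_lit 78) (nat_lit 456) (nat_lit 0) (XT.lf (nat_lit 0) (nat_lit 1662435731) (nat_lit 608) (nat_lit 739433801) (nat_lit 76) (nat_lit 6460556892) (nat_lit 247) (nat_lit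 5) (nat_lit 255) (nat_lit 5) (nat_lit 248) (nat_lit 5) (nat_lit 450) (nat_lit 356) (nat_lit 334)) (XT.lf (nat_lit 0) (nat_lit 5555256805) (nat_lit 532) (nat_lit 2323811868) (nat_lit 76) (nat_lit 1059479330) (nat_lit 241) (nat_lit 5) (nat_lit 248) (nat_lit 5) (nat_lit 242) (nat_lit 5) (nat_lit 451) (nat_lit 356) (nat_lit 333))) (XT.nd (nat_lit 78) (nat_lit 456) (nat_lit 0) (XT.lf (nat_lit 0) (nat_lit 500831747) (nat_lit 608) (nat_lit 3940961907) (nat_lit 76) (nat_lit 4574376672) (nat_lit 233) (nat_lit 5) (nat_lit 241) (nat_lit 5) (nat_lit 234) (nat_lit 5) (nat_lit 452) (nat_lit 356) (nat_lit 332)) (XT.lf (nat_lit 0) (nat_lit 3499846955) (nat_lit 456) (nat_lit 900068684) (nat_lit 532) (nat_lit 4695330571) (nat_lit 227) (nat_lit 5) (nat_lit 233) (nat_lit 5) (nat_lit 234) (nat_lit 5) (nat_lit 453) (nat_lit 356) (nat_lit 331)))))) (XT.nd (nat_lit 468) (nat_lit 2356) (nat_lit 0) (XT.nd (nat_lit 234) (nat_lit 1444) (nat_lit 0) (XT.nd (nat_lit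 78) (nat_lit 532) (nat_lit 0) (XT.lf (nat_lit 0) (nat_lit 1891929630) (nat_lit 456) (nat_lit 6486079646) (nat_lit 532) (nat_lit 797873773) (nat_lit 221) (nat_lit 5) (nat_lit 227) (nat_lit 5) (nat_lit 228) (nat_lit 5) (nat_lit 454) (nat_lit 356) (nat_lit 330)) (XT.nd (nat_lit 78) (nat_lit 0) (nat_lit 0) (XT.lf (nat_lit 0) (nat_lit 240984708) (nat_lit 456) (nat_lit 2884899029) (nat_lit 532) (nat_lit 6132035767) (nat_lit 214) (nat_lit 5) (nat_lit 220) (nat_lit 5) (nat_lit 221) (nat_lit 5) (nat_lit 455) (nat_lit 356) (nat_lit 329)) (XT.lf (nat_lit 0) (nat_lit 7116838816) (nat_lit 532) (nat_lit 1419365298) (nat_lit 76) (nat_lit 805298975) (nat_lit 214) (nat_lit 5) (nat_lit 221) (nat_lit 5) (nat_lit 215) (nat_lit 5) (nat_lit 456) (nat_lit 356) (nat_lit 328)))) (XT.nd (nat_lit 78) (nat_lit 912) (nat_lit 0) (XT.lf (nat_lit 0) (nat_lit 1744042781) (nat_lit 532) (nat_lit 3125817302) (nat_lit 76) (nat_lit 4556543969) (nat_lit 207) (nat_lit 5) (nat_lit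 214) (nat_lit 5) (nat_lit 208) (nat_lit 5) (nat_lit 457) (nat_lit 356) (nat_lit 327)) (XT.nd (nat_lit 78) (nat_lit 532) (nat_lit 0) (XT.lf (nat_lit 0) (nat_lit 4645775703) (nat_lit 380) (nat_lit 1102667718) (nat_lit 456) (nat_lit 3764543359) (nat_lit 202) (nat_lit 5) (nat_lit 207) (nat_lit 5) (nat_lit 208) (nat_lit 5) (nat_lit 458) (nat_lit 356) (nat_lit 326)) (XT.lf (nat_lit 0) (nat_lit 233373153) (nat_lit 532) (nat_lit 6649716752) (nat_lit 76) (nat_lit 2718085576) (nat_lit 195) (nat_lit 5) (nat_lit 202) (nat_lit 5) (nat_lit 196) (nat_lit 5) (nat_lit 459) (nat_lit 356) (nat_lit 325))))) (XT.nd (nat_lit 234) (nat_lit 1520) (nat_lit 0) (XT.nd (nat_lit 78) (nat_lit 456) (nat_lit 0) (XT.lf (nat_lit 0) (nat_lit 1203099427) (nat_lit 380) (nat_lit 3052618476) (nat_lit 456) (nat_lit 5435014838) (nat_lit 190) (nat_lit 5) (nat_lit 195) (nat_lit 5) (nat_lit 196) (nat_lit 5) (nat_lit 460) (nat_lit 356) (nat_lit 324)) (XT.nd (nat_lit 78) (nat_lit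 456) (nat_lit 0) (XT.lf (nat_lit 0) (nat_lit 8356137737) (nat_lit 456) (nat_lit 566478249) (nat_lit 76) (nat_lit 859512597) (nat_lit 190) (nat_lit 5) (nat_lit 196) (nat_lit 5) (nat_lit 191) (nat_lit 5) (nat_lit 461) (nat_lit 356) (nat_lit 323)) (XT.lf (nat_lit 0) (nat_lit 2645575548) (nat_lit 456) (nat_lit 2381967288) (nat_lit 76) (nat_lit 4847117869) (nat_lit 184) (nat_lit 5) (nat_lit 190) (nat_lit 5) (nat_lit 185) (nat_lit 5) (nat_lit 462) (nat_lit 356) (nat_lit 322)))) (XT.nd (nat_lit 156) (nat_lit 684) (nat_lit 0) (XT.nd (nat_lit 78) (nat_lit 456) (nat_lit 0) (XT.lf (nat_lit 0) (nat_lit 5736433341) (nat_lit 380) (nat_lit 1032486801) (nat_lit 456) (nat_lit 3200145995) (nat_lit 179) (nat_lit 5) (nat_lit 184) (nat_lit 5) (nat_lit 185) (nat_lit 5) (nat_lit 463) (nat_lit 356) (nat_lit 321)) (XT.lf (nat_lit 0) (nat_lit 907553644) (nat_lit 456) (nat_lit 6136324130) (nat_lit 76) (nat_lit 3021161653) (nat_lit 173) (nat_lit 5) (nat_lit 179)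 (nat_lit 5) (nat_lit 174) (nat_lit 5) (nat_lit 464) (nat_lit 356) (nat_lit 320))) (XT.nd (nat_lit 78) (nat_lit 380) (nat_lit 0) (XT.lf (nat_lit 0) (nat_lit 2065637280) (nat_lit 304) (nat_lit 2986596107) (nat_lit 380) (nat_lit 5110322214) (nat_lit 169) (nat_lit 5) (nat_lit 173) (nat_lit 5) (nat_lit 174) (nat_lit 5) (nat_lit 465) (nat_lit 356) (nat_lit 319)) (XT.lf (nat_lit 0) (nat_lit 166230472) (nat_lit 380) (nat_lit 9112661774) (nat_lit 456) (nat_lit 983148143) (nat_lit 164) (nat_lit 5) (nat_lit 169) (nat_lit 5) (nat_lit 170) (nat_lit 5) (nat_lit 466) (nat_lit 356) (nat_lit 318))))))) (XT.nd (nat_lit 1014) (nat_lit 1216) (nat_lit 0) (XT.nd (nat_lit 468) (nat_lit 1976) (nat_lit 0) (XT.nd (nat_lit 234) (nat_lit 684) (nat_lit 0) (XT.nd (nat_lit 78) (nat_lit 760) (nat_lit 0) (XT.lf (nat_lit 0) (nat_lit 3207939340) (nat_lit 456) (nat_lit 1781071755) (nat_lit 76) (nat_lit 5373611057) (nat_lit 163) (nat_lit 5) (nat_lit 169) (nat_lit 5) (nat_lit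 164) (nat_lit 5) (nat_lit 467) (nat_lit 356) (nat_lit 317)) (XT.nd (nat_lit 78) (nat_lit 456) (nat_lit 0) (XT.lf (nat_lit 0) (nat_lit 6700987825) (nat_lit 304) (nat_lit 762425539) (nat_lit 380) (nat_lit 3001797632) (nat_lit 159) (nat_lit 5) (nat_lit 163) (nat_lit 5) (nat_lit 164) (nat_lit 5) (nat_lit 468) (nat_lit 356) (nat_lit 316)) (XT.lf (nat_lit 0) (nat_lit 1234553650) (nat_lit 456) (nat_lit 5811644942) (nat_lit 76) (nat_lit 3523160879) (nat_lit 153) (nat_lit 5) (nat_lit 159) (nat_lit 5) (nat_lit 154) (nat_lit 5) (nat_lit 469) (nat_lit 356) (nat_lit 315)))) (XT.nd (nat_lit 78) (nat_lit 380) (nat_lit 0) (XT.lf (nat_lit 0) (nat_lit 2756350982) (nat_lit 304) (nat_lit 2758092852) (nat_lit 380) (nat_lit 5160770124) (nat_lit 149) (nat_lit 5) (nat_lit 153) (nat_lit 5) (nat_lit 154) (nat_lit 5) (nat_lit 470) (nat_lit 356) (nat_lit 314)) (XT.nd (nat_lit 78) (nat_lit 76) (nat_lit 0) (XT.lf (nat_lit 0) (nat_lit 709659450) (nat_lit 304) (nat_lit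 9175469150) (nat_lit 380) (nat_lit 897952999) (nat_lit 145) (nat_lit 5) (nat_lit 149) (nat_lit 5) (nat_lit 150) (nat_lit 5) (nat_lit 471) (nat_lit 356) (nat_lit 313)) (XT.lf (nat_lit 0) (nat_lit 3427588698) (nat_lit 380) (nat_lit 1396064623) (nat_lit 76) (nat_lit 6068550918) (nat_lit 144) (nat_lit 5) (nat_lit 149) (nat_lit 5) (nat_lit 145) (nat_lit 5) (nat_lit 472) (nat_lit 356) (nat_lit 312))))) (XT.nd (nat_lit 234) (nat_lit 988) (nat_lit 0) (XT.nd (nat_lit 78) (nat_lit 684) (nat_lit 0) (XT.lf (nat_lit 0) (nat_lit 7467321235) (nat_lit 304) (nat_lit 360712022) (nat_lit 380) (nat_lit 3175349054) (nat_lit 140) (nat_lit 5) (nat_lit 144) (nat_lit 5) (nat_lit 145) (nat_lit 5) (nat_lit 473) (nat_lit 356) (nat_lit 311)) (XT.nd (nat_lit 78) (nat_lit 304) (nat_lit 0) (XT.lf (nat_lit 0) (nat_lit 1207807674) (nat_lit 380) (nat_lit 5750485957) (nat_lit 76) (nat_lit 4157857744) (nat_lit 135) (nat_lit 5) (nat_lit 140) (nat_lit 5) (nat_lit 136) (nat_lit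 5) (nat_lit 474) (nat_lit 356) (nat_lit 310)) (XT.lf (nat_lit 0) (nat_lit 3201223580) (nat_lit 304) (nat_lit 2434242965) (nat_lit 380) (nat_lit 5595302356) (nat_lit 131) (nat_lit 5) (nat_lit 135) (nat_lit 5) (nat_lit 136) (nat_lit 5) (nat_lit 475) (nat_lit 356) (nat_lit 309)))) (XT.nd (nat_lit 156) (nat_lit 608) (nat_lit 0) (XT.nd (nat_lit 78) (nat_lit 76) (nat_lit 0) (XT.lf (nat_lit 0) (nat_lit 981412525) (nat_lit 304) (nat_lit 9182109577) (nat_lit 380) (nat_lit 1183919805) (nat_lit 127) (nat_lit 5) (nat_lit 131) (nat_lit 5) (nat_lit 132) (nat_lit 5) (nat_lit 476) (nat_lit 356) (nat_lit 308)) (XT.lf (nat_lit 0) (nat_lit 3295139516) (nat_lit 380) (nat_lit 1302104569) (nat_lit 76) (nat_lit 6868315034) (nat_lit 126) (nat_lit 5) (nat_lit 131) (nat_lit 5) (nat_lit 127) (nat_lit 5) (nat_lit 477) (nat_lit 356) (nat_lit 307))) (XT.nd (nat_lit 78) (nat_lit 380) (nat_lit 0) (XT.lf (nat_lit 0) (nat_lit 7853836393) (nat_lit 304) (nat_lit 3625398519)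 (nat_lit 76) (nat_lit 106529068) (nat_lit 123) (nat_lit 5) (nat_lit 127) (nat_lit 5) (nat_lit 124) (nat_lit 5) (nat_lit 478) (nat_lit 356) (nat_lit 306)) (XT.lf (nat_lit 0) (nat_lit 814940197) (nat_lit 380) (nat_lit 6030359069) (nat_lit 76) (nat_lit 4862369659) (nat_lit 118) (nat_lit 5) (nat_lit 123) (nat_lit 5) (nat_lit 119) (nat_lit 5) (nat_lit 479) (nat_lit 356) (nat_lit 305)))))) (XT.nd (nat_lit 55224) (nat_lit 0) (nat_lit 20064) (XT.nd (nat_lit 234) (nat_lit 608) (nat_lit 0) (XT.nd (nat_lit 78) (nat_lit 380) (nat_lit 0) (XT.lf (nat_lit 0) (nat_lit 3323521248) (nat_lit 228) (nat_lit 2079165824) (nat_lit 304) (nat_lit 6428833290) (nat_lit 115) (nat_lit 5) (nat_lit 118) (nat_lit 5) (nat_lit 119) (nat_lit 5) (nat_lit 480) (nat_lit 356) (nat_lit 304)) (XT.nd (nat_lit 78) (nat_lit 76) (nat_lit 0) (XT.lf (nat_lit 0) (nat_lit 903634187) (nat_lit 304) (nat_lit 9197204384) (nat_lit 380) (nat_lit 1856637263) (nat_lit 111) (nat_lit 5) (nat_lit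 115) (nat_lit 5) (nat_lit 116) (nat_lit 5) (nat_lit 481) (nat_lit 356) (nat_lit 303)) (XT.lf (nat_lit 0) (nat_lit 2795502403) (nat_lit 380) (nat_lit 1577510179) (nat_lit 76) (nat_lit 7712067055) (nat_lit 110) (nat_lit 5) (nat_lit 115) (nat_lit 5) (nat_lit 111) (nat_lit 5) (nat_lit 482) (nat_lit 356) (nat_lit 302)))) (XT.nd (nat_lit 78) (nat_lit 380) (nat_lit 0) (XT.lf (nat_lit 0) (nat_lit 7527217291) (nat_lit 304) (nat_lit 4113869920) (nat_lit 76) (nat_lit 573675001) (nat_lit 107) (nat_lit 5) (nat_lit 111) (nat_lit 5) (nat_lit 108) (nat_lit 5) (nat_lit 483) (nat_lit 356) (nat_lit 301)) (XT.nd (nat_lit 54834) (nat_lit 0) (nat_lit 24168) (XT.lf (nat_lit 0) (nat_lit 37862541) (nat_lit 380) (nat_lit 6732419363) (nat_lit 76) (nat_lit 5576127284) (nat_lit 102) (nat_lit 5) (nat_lit 107) (nat_lit 5) (nat_lit 103) (nat_lit 5) (nat_lit 484) (nat_lit 356) (nat_lit 300)) (XT.lf (nat_lit 0) (nat_lit 582187487) (nat_lit 912) (nat_lit 2558631438) (nat_lit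 0) (nat_lit 582187487) (nat_lit 420) (nat_lit 5) (nat_lit 432) (nat_lit 4) (nat_lit 420) (nat_lit 4) (nat_lit 426) (nat_lit 357) (nat_lit 357))))) (XT.nd (nat_lit 234) (nat_lit 2432) (nat_lit 0) (XT.nd (nat_lit 78) (nat_lit 836) (nat_lit 0) (XT.lf (nat_lit 0) (nat_lit 817067513) (nat_lit 836) (nat_lit 4080673688) (nat_lit 836) (nat_lit 2592634304) (nat_lit 409) (nat_lit 4) (nat_lit 420) (nat_lit 5) (nat_lit 420) (nat_lit 4) (nat_lit 427) (nat_lit 357) (nat_lit 356)) (XT.nd (nat_lit 78) (nat_lit 760) (nat_lit 0) (XT.lf (nat_lit 0) (nat_lit 1120354596) (nat_lit 912) (nat_lit 683785239) (nat_lit 76) (nat_lit 5732022613) (nat_lit 408) (nat_lit 5) (nat_lit 420) (nat_lit 5) (nat_lit 409) (nat_lit 4) (nat_lit 428) (nat_lit 357) (nat_lit 355)) (XT.lf (nat_lit 0) (nat_lit 4843956598) (nat_lit 836) (nat_lit 2186519706) (nat_lit 0) (nat_lit 552624709) (nat_lit 398) (nat_lit 5) (nat_lit 409) (nat_lit 4) (nat_lit 398) (nat_lit 4) (nat_lit 429) (nat_lit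 357) (nat_lit 354)))) (XT.nd (nat_lit 156) (nat_lit 836) (nat_lit 0) (XT.nd (nat_lit 78) (nat_lit 760) (nat_lit 0) (XT.lf (nat_lit 0) (nat_lit 972837464) (nat_lit 836) (nat_lit 3700918589) (nat_lit 76) (nat_lit 2957590099) (nat_lit 387) (nat_lit 5) (nat_lit 398) (nat_lit 5) (nat_lit 388) (nat_lit 4) (nat_lit 430) (nat_lit 357) (nat_lit 353)) (XT.lf (nat_lit 0) (nat_lit 2453026748) (nat_lit 760) (nat_lit 2233527772) (nat_lit 836) (nat_lit 2994356106) (nat_lit 377) (nat_lit 5) (nat_lit 387) (nat_lit 5) (nat_lit 388) (nat_lit 4) (nat_lit 431) (nat_lit 357) (nat_lit 352))) (XT.nd (nat_lit 78) (nat_lit 0) (nat_lit 0) (XT.lf (nat_lit 0) (nat_lit 700276931) (nat_lit 836) (nat_lit 6757156063) (nat_lit 76) (nat_lit 274598045) (nat_lit 366) (nat_lit 5) (nat_lit 377) (nat_lit 5) (nat_lit 367) (nat_lit 4) (nat_lit 432) (nat_lit 357) (nat_lit 351)) (XT.lf (nat_lit 0) (nat_lit 4413333200) (nat_lit 836) (nat_lit 526809685) (nat_lit 76) (nat_lit 2843942619)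 (nat_lit 366) (nat_lit 5) (nat_lit 377) (nat_lit 5) (nat_lit 367) (nat_lit 4) (nat_lit 433) (nat_lit 357) (nat_lit 350))))))))
noncomputable def xc17 : XT := (XT.nd (nat_lit 2028) (nat_lit 6992) (nat_lit 0) (XT.nd (nat_lit 1014) (nat_lit 5700) (nat_lit 0) (XT.nd (nat_lit 468) (nat_lit 3724) (nat_lit 0) (XT.nd (nat_lit 234) (nat_lit 1444) (nat_lit 0) (XT.nd (nat_lit 78) (nat_lit 1368) (nat_lit 0) (XT.lf (nat_lit 0) (nat_lit 332114439) (nat_lit 760) (nat_lit 2014802299) (nat_lit 76) (nat_lit 5490748886) (nat_lit 356) (nat_lit 5) (nat_lit 366) (nat_lit 5) (nat_lit 357) (nat_lit 5) (nat_lit 434) (nat_lit 357) (nat_lit 349)) (XT.nd (nat_lit 78) (nat_lit 684) (nat_lit 0) (XT.lf (nat_lit 0) (nat_lit 4034160563) (nat_lit 760) (nat_lit 3525091856) (nat_lit 76) (nat_lit 333214185) (nat_lit 347) (nat_lit 5) (nat_lit 357) (nat_lit 5) (nat_lit 348) (nat_lit 4) (nat_lit 435) (nat_lit 357) (nat_lit 348)) (XT.lf (nat_lit 0) (nat_lit 2898384641) (nat_lit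 684) (nat_lit 4896560772) (nat_lit 760) (nat_lit 153724236) (nat_lit 338) (nat_lit 5) (nat_lit 347) (nat_lit 5) (nat_lit 348) (nat_lit 4) (nat_lit 436) (nat_lit 357) (nat_lit 347)))) (XT.nd (nat_lit 78) (nat_lit 684) (nat_lit 0) (XT.lf (nat_lit 0) (nat_lit 1406629291) (nat_lit 684) (nat_lit 2140757616) (nat_lit 760) (nat_lit 4458739545) (nat_lit 328) (nat_lit 5) (nat_lit 337) (nat_lit 5) (nat_lit 338) (nat_lit 5) (nat_lit 437) (nat_lit 357) (nat_lit 346)) (XT.nd (nat_lit 78) (nat_lit 684) (nat_lit 0) (XT.lf (nat_lit 0) (nat_lit 7296561928) (nat_lit 760) (nat_lit 89823163) (nat_lit 76) (nat_lit 678804978) (nat_lit 328) (nat_lit 5) (nat_lit 338) (nat_lit 5) (nat_lit 329) (nat_lit 4) (nat_lit 438) (nat_lit 357) (nat_lit 345)) (XT.lf (nat_lit 0) (nat_lit 2951479229) (nat_lit 684) (nat_lit 1602996907) (nat_lit 76) (nat_lit 3570660323) (nat_lit 319) (nat_lit 5) (nat_lit 328) (nat_lit 5) (nat_lit 320) (nat_lit 5) (nat_lit 439) (nat_lit 357)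 (nat_lit 344))))) (XT.nd (nat_lit 234) (nat_lit 1824) (nat_lit 0) (XT.nd (nat_lit 78) (nat_lit 1292) (nat_lit 0) (XT.lf (nat_lit 0) (nat_lit 5062587174) (nat_lit 608) (nat_lit 1645735363) (nat_lit 684) (nat_lit 1478405116) (nat_lit 311) (nat_lit 5) (nat_lit 319) (nat_lit 5) (nat_lit 320) (nat_lit 5) (nat_lit 440) (nat_lit 357) (nat_lit 343)) (XT.nd (nat_lit 78) (nat_lit 608) (nat_lit 0) (XT.lf (nat_lit 0) (nat_lit 2243010058) (nat_lit 684) (nat_lit 4672881646) (nat_lit 76) (nat_lit 1333715470) (nat_lit 302) (nat_lit 5) (nat_lit 311) (nat_lit 5) (nat_lit 303) (nat_lit 5) (nat_lit 441) (nat_lit 357) (nat_lit 342)) (XT.lf (nat_lit 0) (nat_lit 2066076199) (nat_lit 608) (nat_lit 3938376345) (nat_lit 684) (nat_lit 2309388400) (nat_lit 294) (nat_lit 5) (nat_lit 302) (nat_lit 5) (nat_lit 303) (nat_lit 5) (nat_lit 442) (nat_lit 357) (nat_lit 341)))) (XT.nd (nat_lit 156) (nat_lit 1216) (nat_lit 0) (XT.nd (nat_lit 78) (nat_lit 0) (nat_lit 0) (XT.lf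 (nat_lit 0) (nat_lit 540729117) (nat_lit 532) (nat_lit 877162308) (nat_lit 608) (nat_lit 6961772185) (nat_lit 286) (nat_lit 5) (nat_lit 293) (nat_lit 5) (nat_lit 294) (nat_lit 5) (nat_lit 443) (nat_lit 357) (nat_lit 340)) (XT.lf (nat_lit 0) (nat_lit 5186336612) (nat_lit 608) (nat_lit 1008028027) (nat_lit 76) (nat_lit 2252181939) (nat_lit 286) (nat_lit 5) (nat_lit 294) (nat_lit 5) (nat_lit 287) (nat_lit 5) (nat_lit 444) (nat_lit 357) (nat_lit 339))) (XT.nd (nat_lit 78) (nat_lit 532) (nat_lit 0) (XT.lf (nat_lit 0) (nat_lit 494879861) (nat_lit 684) (nat_lit 2566547656) (nat_lit 76) (nat_lit 5453547651) (nat_lit 277) (nat_lit 5) (nat_lit 286) (nat_lit 5) (nat_lit 278) (nat_lit 5) (nat_lit 445) (nat_lit 357) (nat_lit 338)) (XT.lf (nat_lit 0) (nat_lit 4260266365) (nat_lit 608) (nat_lit 4156636758) (nat_lit 76) (nat_lit 167861224) (nat_lit 270) (nat_lit 5) (nat_lit 278) (nat_lit 5) (nat_lit 271) (nat_lit 5) (nat_lit 446) (nat_lit 357) (nat_lit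 337)))))) (XT.nd (nat_lit 468) (nat_lit 2888) (nat_lit 0) (XT.nd (nat_lit 234) (nat_lit 1672) (nat_lit 0) (XT.nd (nat_lit 78) (nat_lit 608) (nat_lit 0) (XT.lf (nat_lit 0) (nat_lit 2878534595) (nat_lit 532) (nat_lit 5221334901) (nat_lit 608) (nat_lit 556101636) (nat_lit 263) (nat_lit 5) (nat_lit 270) (nat_lit 5) (nat_lit 271) (nat_lit 5) (nat_lit 447) (nat_lit 357) (nat_lit 336)) (XT.nd (nat_lit 78) (nat_lit 0) (nat_lit 0) (XT.lf (nat_lit 0) (nat_lit 1297252907) (nat_lit 532) (nat_lit 1926628925) (nat_lit 608) (nat_lit 5504706558) (nat_lit 255) (nat_lit 5) (nat_lit 262) (nat_lit 5) (nat_lit 263) (nat_lit 5) (nat_lit 448) (nat_lit 357) (nat_lit 335)) (XT.lf (nat_lit 0) (nat_lit 7063643310) (nat_lit 608) (nat_lit 304765483) (nat_lit 76) (nat_lit 1434343191) (nat_lit 255) (nat_lit 5) (nat_lit 263) (nat_lit 5) (nat_lit 256) (nat_lit 5) (nat_lit 449) (nat_lit 357) (nat_lit 334)))) (XT.nd (nat_lit 78) (nat_lit 1064) (nat_lit 0) (XT.lf (nat_lit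 0) (nat_lit 2076612605) (nat_lit 608) (nat_lit 1928902412) (nat_lit 76) (nat_lit 4872563370) (nat_lit 247) (nat_lit 5) (nat_lit 255) (nat_lit 5) (nat_lit 248) (nat_lit 5) (nat_lit 450) (nat_lit 357) (nat_lit 333)) (XT.nd (nat_lit 78) (nat_lit 608) (nat_lit 0) (XT.lf (nat_lit 0) (nat_lit 5376439822) (nat_lit 456) (nat_lit 550513979) (nat_lit 532) (nat_lit 3028095764) (nat_lit 241) (nat_lit 5) (nat_lit 247) (nat_lit 5) (nat_lit 248) (nat_lit 5) (nat_lit 451) (nat_lit 357) (nat_lit 332)) (XT.lf (nat_lit 0) (nat_lit 811820057) (nat_lit 608) (nat_lit 5268482596) (nat_lit 76) (nat_lit 2953114085) (nat_lit 233) (nat_lit 5) (nat_lit 241) (nat_lit 5) (nat_lit 234) (nat_lit 5) (nat_lit 452) (nat_lit 357) (nat_lit 331))))) (XT.nd (nat_lit 234) (nat_lit 1900) (nat_lit 0) (XT.nd (nat_lit 78) (nat_lit 532) (nat_lit 0) (XT.lf (nat_lit 0) (nat_lit 2114248646) (nat_lit 456) (nat_lit 2560537067) (nat_lit 532) (nat_lit 4438429273) (nat_lit 227) (nat_lit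 5) (nat_lit 233) (nat_lit 5) (nat_lit 234) (nat_lit 5) (nat_lit 453) (nat_lit 357) (nat_lit 330)) (XT.nd (nat_lit 78) (nat_lit 76) (nat_lit 0) (XT.lf (nat_lit 0) (nat_lit 440004558) (nat_lit 456) (nat_lit 8165736402) (nat_lit 532) (nat_lit 589053634) (nat_lit 221) (nat_lit 5) (nat_lit 227) (nat_lit 5) (nat_lit 228) (nat_lit 5) (nat_lit 454) (nat_lit 357) (nat_lit 329)) (XT.lf (nat_lit 0) (nat_lit 3303562728) (nat_lit 532) (nat_lit 1274557722) (nat_lit 76) (nat_lit 4699251530) (nat_lit 220) (nat_lit 5) (nat_lit 227) (nat_lit 5) (nat_lit 221) (nat_lit 5) (nat_lit 455) (nat_lit 357) (nat_lit 328)))) (XT.nd (nat_lit 156) (nat_lit 912) (nat_lit 0) (XT.nd (nat_lit 78) (nat_lit 532) (nat_lit 0) (XT.lf (nat_lit 0) (nat_lit 6355136085) (nat_lit 456) (nat_lit 899127663) (nat_lit 532) (nat_lit 2107496898) (nat_lit 214) (nat_lit 5) (nat_lit 220) (nat_lit 5) (nat_lit 221) (nat_lit 5) (nat_lit 456) (nat_lit 357) (nat_lit 327)) (XT.lf (nat_lit 0) (nat_lit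 1816754115) (nat_lit 532) (nat_lit 4789947929) (nat_lit 76) (nat_lit 2840802738) (nat_lit 207) (nat_lit 5) (nat_lit 214) (nat_lit 5) (nat_lit 208) (nat_lit 5) (nat_lit 457) (nat_lit 357) (nat_lit 326))) (XT.nd (nat_lit 78) (nat_lit 532) (nat_lit 0) (XT.lf (nat_lit 0) (nat_lit 2919338546) (nat_lit 380) (nat_lit 2864558029) (nat_lit 456) (nat_lit 3750936098) (nat_lit 202) (nat_lit 5) (nat_lit 207) (nat_lit 5) (nat_lit 208) (nat_lit 5) (nat_lit 458) (nat_lit 357) (nat_lit 325)) (XT.lf (nat_lit 0) (nat_lit 197466944) (nat_lit 532) (nat_lit 8472591957) (nat_lit 76) (nat_lit 953947408) (nat_lit 195) (nat_lit 5) (nat_lit 202) (nat_lit 5) (nat_lit 196) (nat_lit 5) (nat_lit 459) (nat_lit 357) (nat_lit 324))))))) (XT.nd (nat_lit 1014) (nat_lit 3116) (nat_lit 0) (XT.nd (nat_lit 468) (nat_lit 2204) (nat_lit 0) (XT.nd (nat_lit 234) (nat_lit 836) (nat_lit 0) (XT.nd (nat_lit 78) (nat_lit 836) (nat_lit 0) (XT.lf (nat_lit 0) (nat_lit 4186198792) (nat_lit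 532) (nat_lit 675466060) (nat_lit 76) (nat_lit 4852570975) (nat_lit 195) (nat_lit 5) (nat_lit 202) (nat_lit 5) (nat_lit 196) (nat_lit 5) (nat_lit 460) (nat_lit 357) (nat_lit 323)) (XT.nd (nat_lit 78) (nat_lit 456) (nat_lit 0) (XT.lf (nat_lit 0) (nat_lit 7294227199) (nat_lit 380) (nat_lit 956739787) (nat_lit 456) (nat_lit 1555377716) (nat_lit 190) (nat_lit 5) (nat_lit 195) (nat_lit 5) (nat_lit 196) (nat_lit 5) (nat_lit 461) (nat_lit 357) (nat_lit 322)) (XT.lf (nat_lit 0) (nat_lit 2473220362) (nat_lit 456) (nat_lit 4410943131) (nat_lit 76) (nat_lit 3015623438) (nat_lit 184) (nat_lit 5) (nat_lit 190) (nat_lit 5) (nat_lit 185) (nat_lit 5) (nat_lit 462) (nat_lit 357) (nat_lit 321)))) (XT.nd (nat_lit 78) (nat_lit 456) (nat_lit 0) (XT.lf (nat_lit 0) (nat_lit 3640613018) (nat_lit 380) (nat_lit 2917277392) (nat_lit 456) (nat_lit 3437075443) (nat_lit 179) (nat_lit 5) (nat_lit 184) (nat_lit 5) (nat_lit 185) (nat_lit 5) (nat_lit 463) (nat_lit 357)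 (nat_lit 320)) (XT.nd (nat_lit 78) (nat_lit 0) (nat_lit 0) (XT.lf (nat_lit 0) (nat_lit 622094403) (nat_lit 456) (nat_lit 8338915817) (nat_lit 76) (nat_lit 1130992431) (nat_lit 173) (nat_lit 5) (nat_lit 179) (nat_lit 5) (nat_lit 174) (nat_lit 5) (nat_lit 464) (nat_lit 357) (nat_lit 319)) (XT.lf (nat_lit 0) (nat_lit 4728510965) (nat_lit 456) (nat_lit 203618427) (nat_lit 76) (nat_lit 5258154698) (nat_lit 173) (nat_lit 5) (nat_lit 179) (nat_lit 5) (nat_lit 174) (nat_lit 5) (nat_lit 465) (nat_lit 357) (nat_lit 318))))) (XT.nd (nat_lit 234) (nat_lit 1140) (nat_lit 0) (XT.nd (nat_lit 78) (nat_lit 760) (nat_lit 0) (XT.lf (nat_lit 0) (nat_lit 8122543841) (nat_lit 304) (nat_lit 798032859) (nat_lit 380) (nat_lit 1369884040) (nat_lit 169) (nat_lit 5) (nat_lit 173) (nat_lit 5) (nat_lit 174) (nat_lit 5) (nat_lit 466) (nat_lit 357) (nat_lit 317)) (XT.nd (nat_lit 78) (nat_lit 304) (nat_lit 0) (XT.lf (nat_lit 0) (nat_lit 2782088408) (nat_lit 456) (nat_lit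 4204724234) (nat_lit 76) (nat_lit 3405163824) (nat_lit 163) (nat_lit 5) (nat_lit 169) (nat_lit 5) (nat_lit 164) (nat_lit 5) (nat_lit 467) (nat_lit 357) (nat_lit 316)) (XT.lf (nat_lit 0) (nat_lit 4205612176) (nat_lit 304) (nat_lit 2791583208) (nat_lit 380) (nat_lit 3498177266) (nat_lit 159) (nat_lit 5) (nat_lit 163) (nat_lit 5) (nat_lit 164) (nat_lit 5) (nat_lit 468) (nat_lit 357) (nat_lit 315)))) (XT.nd (nat_lit 156) (nat_lit 380) (nat_lit 0) (XT.nd (nat_lit 78) (nat_lit 304) (nat_lit 0) (XT.lf (nat_lit 0) (nat_lit 690326617) (nat_lit 456) (nat_lit 8424698821) (nat_lit 76) (nat_lit 1485647293) (nat_lit 153) (nat_lit 5) (nat_lit 159) (nat_lit 5) (nat_lit 154) (nat_lit 5) (nat_lit 469) (nat_lit 357) (nat_lit 314)) (XT.lf (nat_lit 0) (nat_lit 68866880) (nat_lit 304) (nat_lit 4859923092) (nat_lit 380) (nat_lit 5778565782) (nat_lit 149) (nat_lit 5) (nat_lit 153) (nat_lit 5) (nat_lit 154) (nat_lit 5) (nat_lit 470) (nat_lit 357) (nat_lit 313)))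 (XT.nd (nat_lit 78) (nat_lit 380) (nat_lit 0) (XT.lf (nat_lit 0) (nat_lit 8767873196) (nat_lit 304) (nat_lit 492687403) (nat_lit 380) (nat_lit 1555441080) (nat_lit 149) (nat_lit 5) (nat_lit 153) (nat_lit 5) (nat_lit 154) (nat_lit 5) (nat_lit 471) (nat_lit 357) (nat_lit 312)) (XT.lf (nat_lit 0) (nat_lit 2738159874) (nat_lit 380) (nat_lit 4246063824) (nat_lit 76) (nat_lit 3941797275) (nat_lit 144) (nat_lit 5) (nat_lit 149) (nat_lit 5) (nat_lit 145) (nat_lit 5) (nat_lit 472) (nat_lit 357) (nat_lit 311)))))) (XT.nd (nat_lit 468) (nat_lit 1520) (nat_lit 0) (XT.nd (nat_lit 234) (nat_lit 608) (nat_lit 0) (XT.nd (nat_lit 78) (nat_lit 684) (nat_lit 0) (XT.lf (nat_lit 0) (nat_lit 4540345909) (nat_lit 304) (nat_lit 2555920150) (nat_lit 380) (nat_lit 3941779755) (nat_lit 140) (nat_lit 5) (nat_lit 144) (nat_lit 5) (nat_lit 145) (nat_lit 5) (nat_lit 473) (nat_lit 357) (nat_lit 310)) (XT.nd (nat_lit 78) (nat_lit 304) (nat_lit 0) (XT.lf (nat_lit 0) (nat_lit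 393927909) (nat_lit 380) (nat_lit 8806705228) (nat_lit 76) (nat_lit 1951431282) (nat_lit 135) (nat_lit 5) (nat_lit 140) (nat_lit 5) (nat_lit 136) (nat_lit 5) (nat_lit 474) (nat_lit 357) (nat_lit 309)) (XT.lf (nat_lit 0) (nat_lit 65122215) (nat_lit 304) (nat_lit 4712931648) (nat_lit 380) (nat_lit 6489498740) (nat_lit 131) (nat_lit 5) (nat_lit 135) (nat_lit 5) (nat_lit 136) (nat_lit 5) (nat_lit 475) (nat_lit 357) (nat_lit 308)))) (XT.nd (nat_lit 78) (nat_lit 608) (nat_lit 0) (XT.lf (nat_lit 0) (nat_lit 9156000250) (nat_lit 304) (nat_lit 106566629) (nat_lit 380) (nat_lit 2122529580) (nat_lit 131) (nat_lit 5) (nat_lit 135) (nat_lit 5) (nat_lit 136) (nat_lit 5) (nat_lit 476) (nat_lit 357) (nat_lit 307)) (XT.nd (nat_lit 78) (nat_lit 228) (nat_lit 0) (XT.lf (nat_lit 0) (nat_lit 2330368210) (nat_lit 380) (nat_lit 4612206964) (nat_lit 76) (nat_lit 4561529811) (nat_lit 126) (nat_lit 5) (nat_lit 131) (nat_lit 5) (nat_lit 127) (nat_lit 5) (nat_lit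 477) (nat_lit 357) (nat_lit 306)) (XT.lf (nat_lit 0) (nat_lit 4568338982) (nat_lit 228) (nat_lit 2275431210) (nat_lit 304) (nat_lit 4781445551) (nat_lit 123) (nat_lit 5) (nat_lit 126) (nat_lit 5) (nat_lit 127) (nat_lit 5) (nat_lit 478) (nat_lit 357) (nat_lit 305))))) (XT.nd (nat_lit 234) (nat_lit 912) (nat_lit 0) (XT.nd (nat_lit 78) (nat_lit 304) (nat_lit 0) (XT.lf (nat_lit 0) (nat_lit 2181921314) (nat_lit 304) (nat_lit 9281585028) (nat_lit 380) (nat_lit 284921053) (nat_lit 119) (nat_lit 5) (nat_lit 123) (nat_lit 5) (nat_lit 124) (nat_lit 5) (nat_lit 479) (nat_lit 357) (nat_lit 304)) (XT.nd (nat_lit 78) (nat_lit 228) (nat_lit 0) (XT.lf (nat_lit 0) (nat_lit 4262560103) (nat_lit 380) (nat_lit 292649096) (nat_lit 76) (nat_lit 7317986681) (nat_lit 118) (nat_lit 5) (nat_lit 123) (nat_lit 5) (nat_lit 119) (nat_lit 5) (nat_lit 480) (nat_lit 357) (nat_lit 303)) (XT.lf (nat_lit 0) (nat_lit 8914496575) (nat_lit 304) (nat_lit 2792276602) (nat_lit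 76) (nat_lit 293302477) (nat_lit 115) (nat_lit 5) (nat_lit 119) (nat_lit 5) (nat_lit 116) (nat_lit 5) (nat_lit 481) (nat_lit 357) (nat_lit 302)))) (XT.nd (nat_lit 156) (nat_lit 304) (nat_lit 0) (XT.nd (nat_lit 78) (nat_lit 228) (nat_lit 0) (XT.lf (nat_lit 0) (nat_lit 1541896394) (nat_lit 380) (nat_lit 5383813883) (nat_lit 76) (nat_lit 5202944401) (nat_lit 110) (nat_lit 5) (nat_lit 115) (nat_lit 5) (nat_lit 111) (nat_lit 5) (nat_lit 482) (nat_lit 357) (nat_lit 301)) (XT.lf (nat_lit 0) (nat_lit 4209688663) (nat_lit 228) (nat_lit 2013006143) (nat_lit 304) (nat_lit 6036660776) (nat_lit 107) (nat_lit 5) (nat_lit 110) (nat_lit 5) (nat_lit 111) (nat_lit 5) (nat_lit 483) (nat_lit 357) (nat_lit 300))) (XT.nd (nat_lit 54678) (nat_lit 0) (nat_lit 25916) (XT.lf (nat_lit 0) (nat_lit 1601135482) (nat_lit 304) (nat_lit 9418226651) (nat_lit 380) (nat_lit 1372863312) (nat_lit 103) (nat_lit 5) (nat_lit 107) (nat_lit 5) (nat_lit 108) (nat_lit 5) (nat_lit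 484) (nat_lit 357) (nat_lit 299)) (XT.lf (nat_lit 0) (nat_lit 1339824305) (nat_lit 912) (nat_lit 1000516588) (nat_lit 0) (nat_lit 1339824305) (nat_lit 444) (nat_lit 5) (nat_lit 456) (nat_lit 4) (nat_lit 444) (nat_lit 4) (nat_lit 424) (nat_lit 358) (nat_lit 358))))))))
noncomputable def xc18 : XT := (XT.nd (nat_lit 2028) (nat_lit 8816) (nat_lit 0) (XT.nd (nat_lit 1014) (nat_lit 6156) (nat_lit 0) (XT.nd (nat_lit 468) (nat_lit 4484) (nat_lit 0) (XT.nd (nat_lit 234) (nat_lit 1672) (nat_lit 0) (XT.nd (nat_lit 78) (nat_lit 1748) (nat_lit 0) (XT.lf (nat_lit 0) (nat_lit 3827056903) (nat_lit 912) (nat_lit 2561969102) (nat_lit 912) (nat_lit 1013812927) (nat_lit 432) (nat_lit 4) (nat_lit 444) (nat_lit 5) (nat_lit 444) (nat_lit 4) (nat_lit 425) (nat_lit 358) (nat_lit 357)) (XT.nd (nat_lit 78) (nat_lit 836) (nat_lit 0) (XT.lf (nat_lit 0) (nat_lit 2287390133) (nat_lit 836) (nat_lit 362781391) (nat_lit 912) (nat_lit 4796481374) (nat_lit 420) (nat_lit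 5) (nat_lit 431) (nat_lit 5) (nat_lit 432) (nat_lit 4) (nat_lit 426) (nat_lit 358) (nat_lit 356)) (XT.lf (nat_lit 0) (nat_lit 737512535) (nat_lit 836) (nat_lit 5609467943) (nat_lit 836) (nat_lit 1144766245) (nat_lit 409) (nat_lit 4) (nat_lit 420) (nat_lit 5) (nat_lit 420) (nat_lit 4) (nat_lit 427) (nat_lit 358) (nat_lit 355)))) (XT.nd (nat_lit 78) (nat_lit 1596) (nat_lit 0) (XT.lf (nat_lit 0) (nat_lit 2515737711) (nat_lit 912) (nat_lit 813168522) (nat_lit 76) (nat_lit 4209109342) (nat_lit 408) (nat_lit 5) (nat_lit 420) (nat_lit 5) (nat_lit 409) (nat_lit 4) (nat_lit 428) (nat_lit 358) (nat_lit 354)) (XT.nd (nat_lit 78) (nat_lit 836) (nat_lit 0) (XT.lf (nat_lit 0) (nat_lit 5230387375) (nat_lit 760) (nat_lit 971374416) (nat_lit 836) (nat_lit 1383943904) (nat_lit 398) (nat_lit 5) (nat_lit 408) (nat_lit 5) (nat_lit 409) (nat_lit 4) (nat_lit 429) (nat_lit 358) (nat_lit 353)) (XT.lf (nat_lit 0) (nat_lit 2269890020) (nat_lit 836) (nat_lit 3916674927)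 (nat_lit 76) (nat_lit 1448017397) (nat_lit 387) (nat_lit 5) (nat_lit 398) (nat_lit 5) (nat_lit 388) (nat_lit 4) (nat_lit 430) (nat_lit 358) (nat_lit 352))))) (XT.nd (nat_lit 234) (nat_lit 2888) (nat_lit 0) (XT.nd (nat_lit 78) (nat_lit 836) (nat_lit 0) (XT.lf (nat_lit 0) (nat_lit 2195060784) (nat_lit 760) (nat_lit 3754567899) (nat_lit 836) (nat_lit 1735197702) (nat_lit 377) (nat_lit 5) (nat_lit 387) (nat_lit 5) (nat_lit 388) (nat_lit 4) (nat_lit 431) (nat_lit 358) (nat_lit 351)) (XT.nd (nat_lit 78) (nat_lit 0) (nat_lit 0) (XT.lf (nat_lit 0) (nat_lit 663555543) (nat_lit 760) (nat_lit 1243393951) (nat_lit 836) (nat_lit 5829553232) (nat_lit 366) (nat_lit 5) (nat_lit 376) (nat_lit 5) (nat_lit 377) (nat_lit 5) (nat_lit 432) (nat_lit 358) (nat_lit 350)) (XT.lf (nat_lit 0) (nat_lit 5580134032) (nat_lit 836) (nat_lit 873858937) (nat_lit 76) (nat_lit 1335361659) (nat_lit 366) (nat_lit 5) (nat_lit 377) (nat_lit 5) (nat_lit 367) (nat_lit 4) (nat_lit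 433) (nat_lit 358) (nat_lit 349)))) (XT.nd (nat_lit 156) (nat_lit 1444) (nat_lit 0) (XT.nd (nat_lit 78) (nat_lit 684) (nat_lit 0) (XT.lf (nat_lit 0) (nat_lit 1444477000) (nat_lit 760) (nat_lit 2418797508) (nat_lit 76) (nat_lit 3980188121) (nat_lit 356) (nat_lit 5) (nat_lit 366) (nat_lit 5) (nat_lit 357) (nat_lit 5) (nat_lit 434) (nat_lit 358) (nat_lit 348)) (XT.lf (nat_lit 0) (nat_lit 3921013767) (nat_lit 684) (nat_lit 1189387792) (nat_lit 760) (nat_lit 2788584481) (nat_lit 347) (nat_lit 5) (nat_lit 356) (nat_lit 5) (nat_lit 357) (nat_lit 5) (nat_lit 435) (nat_lit 358) (nat_lit 347))) (XT.nd (nat_lit 78) (nat_lit 684) (nat_lit 0) (XT.lf (nat_lit 0) (nat_lit 862091518) (nat_lit 760) (nat_lit 5553927258) (nat_lit 76) (nat_lit 1539889210) (nat_lit 337) (nat_lit 5) (nat_lit 347) (nat_lit 5) (nat_lit 338) (nat_lit 5) (nat_lit 436) (nat_lit 358) (nat_lit 346)) (XT.lf (nat_lit 0) (nat_lit 855586416) (nat_lit 684) (nat_lit 3671462746) (nat_lit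 760) (nat_lit 3486978412) (nat_lit 328) (nat_lit 5) (nat_lit 337) (nat_lit 5) (nat_lit 338) (nat_lit 5) (nat_lit 437) (nat_lit 358) (nat_lit 345)))))) (XT.nd (nat_lit 468) (nat_lit 3496) (nat_lit 0) (XT.nd (nat_lit 234) (nat_lit 1368) (nat_lit 0) (XT.nd (nat_lit 78) (nat_lit 1216) (nat_lit 0) (XT.lf (nat_lit 0) (nat_lit 165560268) (nat_lit 760) (nat_lit 684912597) (nat_lit 76) (nat_lit 7223290119) (nat_lit 327) (nat_lit 5) (nat_lit 337) (nat_lit 5) (nat_lit 328) (nat_lit 5) (nat_lit 438) (nat_lit 358) (nat_lit 344)) (XT.nd (nat_lit 78) (nat_lit 608) (nat_lit 0) (XT.lf (nat_lit 0) (nat_lit 3835995245) (nat_lit 684) (nat_lit 2253694954) (nat_lit 76) (nat_lit 2044711203) (nat_lit 319) (nat_lit 5) (nat_lit 328) (nat_lit 5) (nat_lit 320) (nat_lit 5) (nat_lit 439) (nat_lit 358) (nat_lit 343)) (XT.lf (nat_lit 0) (nat_lit 4363895974) (nat_lit 608) (nat_lit 3194868099) (nat_lit 684) (nat_lit 637910011) (nat_lit 311) (nat_lit 5) (nat_lit 319) (nat_lit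 5) (nat_lit 320) (nat_lit 5) (nat_lit 440) (nat_lit 358) (nat_lit 342)))) (XT.nd (nat_lit 78) (nat_lit 684) (nat_lit 0) (XT.lf (nat_lit 0) (nat_lit 2822608030) (nat_lit 608) (nat_lit 206742282) (nat_lit 684) (nat_lit 5230956785) (nat_lit 302) (nat_lit 5) (nat_lit 310) (nat_lit 5) (nat_lit 311) (nat_lit 5) (nat_lit 441) (nat_lit 358) (nat_lit 341)) (XT.nd (nat_lit 78) (nat_lit 76) (nat_lit 0) (XT.lf (nat_lit 0) (nat_lit 1252705933) (nat_lit 608) (nat_lit 5502323468) (nat_lit 684) (nat_lit 1570226734) (nat_lit 294) (nat_lit 5) (nat_lit 302) (nat_lit 5) (nat_lit 303) (nat_lit 5) (nat_lit 442) (nat_lit 358) (nat_lit 340)) (XT.lf (nat_lit 0) (nat_lit 2114835418) (nat_lit 684) (nat_lit 335302367) (nat_lit 76) (nat_lit 5941495501) (nat_lit 293) (nat_lit 5) (nat_lit 302) (nat_lit 5) (nat_lit 294) (nat_lit 5) (nat_lit 443) (nat_lit 358) (nat_lit 339))))) (XT.nd (nat_lit 234) (nat_lit 1748) (nat_lit 0) (XT.nd (nat_lit 78) (nat_lit 1216) (nat_lit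 0) (XT.lf (nat_lit 0) (nat_lit 5842082118) (nat_lit 608) (nat_lit 1929904554) (nat_lit 76) (nat_lit 687353552) (nat_lit 286) (nat_lit 5) (nat_lit 294) (nat_lit 5) (nat_lit 287) (nat_lit 5) (nat_lit 444) (nat_lit 358) (nat_lit 338)) (XT.nd (nat_lit 78) (nat_lit 532) (nat_lit 0) (XT.lf (nat_lit 0) (nat_lit 1094649140) (nat_lit 684) (nat_lit 3557447485) (nat_lit 76) (nat_lit 3876283702) (nat_lit 277) (nat_lit 5) (nat_lit 286) (nat_lit 5) (nat_lit 278) (nat_lit 5) (nat_lit 445) (nat_lit 358) (nat_lit 337)) (XT.lf (nat_lit 0) (nat_lit 3385724198) (nat_lit 532) (nat_lit 1438348468) (nat_lit 608) (nat_lit 3774816101) (nat_lit 270) (nat_lit 5) (nat_lit 277) (nat_lit 5) (nat_lit 278) (nat_lit 5) (nat_lit 446) (nat_lit 358) (nat_lit 336)))) (XT.nd (nat_lit 156) (nat_lit 608) (nat_lit 0) (XT.nd (nat_lit 78) (nat_lit 608) (nat_lit 0) (XT.lf (nat_lit 0) (nat_lit 1777735730) (nat_lit 532) (nat_lit 6841599569) (nat_lit 608) (nat_lit 51647063) (nat_lit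 263) (nat_lit 5) (nat_lit 270) (nat_lit 5) (nat_lit 271) (nat_lit 5) (nat_lit 447) (nat_lit 358) (nat_lit 335)) (XT.lf (nat_lit 0) (nat_lit 123489869) (nat_lit 532) (nat_lit 3562865991) (nat_lit 608) (nat_lit 5057885544) (nat_lit 255) (nat_lit 5) (nat_lit 262) (nat_lit 5) (nat_lit 263) (nat_lit 5) (nat_lit 448) (nat_lit 358) (nat_lit 334))) (XT.nd (nat_lit 78) (nat_lit 608) (nat_lit 0) (XT.lf (nat_lit 0) (nat_lit 7294823531) (nat_lit 532) (nat_lit 194404273) (nat_lit 608) (nat_lit 1329914987) (nat_lit 255) (nat_lit 5) (nat_lit 262) (nat_lit 5) (nat_lit 263) (nat_lit 5) (nat_lit 449) (nat_lit 358) (nat_lit 333)) (XT.lf (nat_lit 0) (nat_lit 2443677310) (nat_lit 608) (nat_lit 3222159753) (nat_lit 76) (nat_lit 3229314241) (nat_lit 247) (nat_lit 5) (nat_lit 255) (nat_lit 5) (nat_lit 248) (nat_lit 5) (nat_lit 450) (nat_lit 358) (nat_lit 332))))))) (XT.nd (nat_lit 1014) (nat_lit 3648) (nat_lit 0) (XT.nd (nat_lit 468) (nat_lit 2660) (nat_lit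 0) (XT.nd (nat_lit 234) (nat_lit 988) (nat_lit 0) (XT.nd (nat_lit 78) (nat_lit 1064) (nat_lit 0) (XT.lf (nat_lit 0) (nat_lit 4026652680) (nat_lit 456) (nat_lit 2231716213) (nat_lit 532) (nat_lit 2714466582) (nat_lit 241) (nat_lit 5) (nat_lit 247) (nat_lit 5) (nat_lit 248) (nat_lit 5) (nat_lit 451) (nat_lit 358) (nat_lit 331)) (XT.nd (nat_lit 78) (nat_lit 456) (nat_lit 0) (XT.lf (nat_lit 0) (nat_lit 1074241669) (nat_lit 608) (nat_lit 6703162301) (nat_lit 76) (nat_lit 1274699837) (nat_lit 233) (nat_lit 5) (nat_lit 241) (nat_lit 5) (nat_lit 234) (nat_lit 5) (nat_lit 452) (nat_lit 358) (nat_lit 330)) (XT.lf (nat_lit 0) (nat_lit 620860090) (nat_lit 456) (nat_lit 4280060958) (nat_lit 532) (nat_lit 4231706732) (nat_lit 227) (nat_lit 5) (nat_lit 233) (nat_lit 5) (nat_lit 234) (nat_lit 5) (nat_lit 453) (nat_lit 358) (nat_lit 329)))) (XT.nd (nat_lit 78) (nat_lit 988) (nat_lit 0) (XT.lf (nat_lit 0) (nat_lit 8103717940) (nat_lit 456) (nat_lit 692229058)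 (nat_lit 532) (nat_lit 418978976) (nat_lit 227) (nat_lit 5) (nat_lit 233) (nat_lit 5) (nat_lit 234) (nat_lit 5) (nat_lit 454) (nat_lit 358) (nat_lit 328)) (XT.nd (nat_lit 78) (nat_lit 456) (nat_lit 0) (XT.lf (nat_lit 0) (nat_lit 3433241851) (nat_lit 532) (nat_lit 2896778120) (nat_lit 76) (nat_lit 2968224604) (nat_lit 220) (nat_lit 5) (nat_lit 227) (nat_lit 5) (nat_lit 221) (nat_lit 5) (nat_lit 455) (nat_lit 358) (nat_lit 327)) (XT.lf (nat_lit 0) (nat_lit 4672215023) (nat_lit 456) (nat_lit 2675005552) (nat_lit 532) (nat_lit 2036147113) (nat_lit 214) (nat_lit 5) (nat_lit 220) (nat_lit 5) (nat_lit 221) (nat_lit 5) (nat_lit 456) (nat_lit 358) (nat_lit 326))))) (XT.nd (nat_lit 234) (nat_lit 1672) (nat_lit 0) (XT.nd (nat_lit 78) (nat_lit 456) (nat_lit 0) (XT.lf (nat_lit 0) (nat_lit 1838300688) (nat_lit 532) (nat_lit 6567482439) (nat_lit 76) (nat_lit 1064296780) (nat_lit 207) (nat_lit 5) (nat_lit 214) (nat_lit 5) (nat_lit 208) (nat_lit 5) (nat_lit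 457) (nat_lit 358) (nat_lit 325)) (XT.nd (nat_lit 78) (nat_lit 76) (nat_lit 0) (XT.lf (nat_lit 0) (nat_lit 1078778491) (nat_lit 380) (nat_lit 4689176281) (nat_lit 456) (nat_lit 3790202795) (nat_lit 202) (nat_lit 5) (nat_lit 207) (nat_lit 5) (nat_lit 208) (nat_lit 5) (nat_lit 458) (nat_lit 358) (nat_lit 324)) (XT.lf (nat_lit 0) (nat_lit 119466182) (nat_lit 456) (nat_lit 759967857) (nat_lit 76) (nat_lit 8768687242) (nat_lit 201) (nat_lit 5) (nat_lit 207) (nat_lit 5) (nat_lit 202) (nat_lit 5) (nat_lit 459) (nat_lit 358) (nat_lit 323)))) (XT.nd (nat_lit 156) (nat_lit 836) (nat_lit 0) (XT.nd (nat_lit 78) (nat_lit 380) (nat_lit 0) (XT.lf (nat_lit 0) (nat_lit 4072159592) (nat_lit 532) (nat_lit 2654548671) (nat_lit 76) (nat_lit 3012363305) (nat_lit 195) (nat_lit 5) (nat_lit 202) (nat_lit 5) (nat_lit 196) (nat_lit 5) (nat_lit 460) (nat_lit 358) (nat_lit 322)) (XT.lf (nat_lit 0) (nat_lit 5249972207) (nat_lit 380) (nat_lit 2848883244) (nat_lit 456)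 (nat_lit 1733086439) (nat_lit 190) (nat_lit 5) (nat_lit 195) (nat_lit 5) (nat_lit 196) (nat_lit 5) (nat_lit 461) (nat_lit 358) (nat_lit 321))) (XT.nd (nat_lit 78) (nat_lit 380) (nat_lit 0) (XT.lf (nat_lit 0) (nat_lit 2246782550) (nat_lit 456) (nat_lit 6560000479) (nat_lit 76) (nat_lit 1119645361) (nat_lit 184) (nat_lit 5) (nat_lit 190) (nat_lit 5) (nat_lit 185) (nat_lit 5) (nat_lit 462) (nat_lit 358) (nat_lit 320)) (XT.lf (nat_lit 0) (nat_lit 1423897339) (nat_lit 380) (nat_lit 4868587292) (nat_lit 456) (nat_lit 3729902040) (nat_lit 179) (nat_lit 5) (nat_lit 184) (nat_lit 5) (nat_lit 185) (nat_lit 5) (nat_lit 463) (nat_lit 358) (nat_lit 319)))))) (XT.nd (nat_lit 468) (nat_lit 2052) (nat_lit 0) (XT.nd (nat_lit 234) (nat_lit 836) (nat_lit 0) (XT.nd (nat_lit 78) (nat_lit 684) (nat_lit 0) (XT.lf (nat_lit 0) (nat_lit 289732271) (nat_lit 456) (nat_lit 543307965) (nat_lit 76) (nat_lit 9287288779) (nat_lit 178) (nat_lit 5) (nat_lit 184) (nat_lit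 5) (nat_lit 179) (nat_lit 5) (nat_lit 464) (nat_lit 358) (nat_lit 318)) (XT.nd (nat_lit 78) (nat_lit 304) (nat_lit 0) (XT.lf (nat_lit 0) (nat_lit 4362777712) (nat_lit 456) (nat_lit 2568995912) (nat_lit 76) (nat_lit 3287504252) (nat_lit 173) (nat_lit 5) (nat_lit 179) (nat_lit 5) (nat_lit 174) (nat_lit 5) (nat_lit 465) (nat_lit 358) (nat_lit 317)) (XT.lf (nat_lit 0) (nat_lit 5687190098) (nat_lit 304) (nat_lit 2827954744) (nat_lit 380) (nat_lit 1805103656) (nat_lit 169) (nat_lit 5) (nat_lit 173) (nat_lit 5) (nat_lit 174) (nat_lit 5) (nat_lit 466) (nat_lit 358) (nat_lit 316)))) (XT.nd (nat_lit 78) (nat_lit 380) (nat_lit 0) (XT.lf (nat_lit 0) (nat_lit 2298906321) (nat_lit 456) (nat_lit 6755621419) (nat_lit 76) (nat_lit 1368366407) (nat_lit 163) (nat_lit 5) (nat_lit 169) (nat_lit 5) (nat_lit 164) (nat_lit 5) (nat_lit 467) (nat_lit 358) (nat_lit 315)) (XT.nd (nat_lit 78) (nat_lit 76) (nat_lit 0) (XT.lf (nat_lit 0) (nat_lit 1582075592) (nat_lit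 304) (nat_lit 4891212384) (nat_lit 380) (nat_lit 4053816863) (nat_lit 159) (nat_lit 5) (nat_lit 163) (nat_lit 5) (nat_lit 164) (nat_lit 5) (nat_lit 468) (nat_lit 358) (nat_lit 314)) (XT.lf (nat_lit 0) (nat_lit 94378658) (nat_lit 380) (nat_lit 532680588) (nat_lit 76) (nat_lit 10006369739) (nat_lit 158) (nat_lit 5) (nat_lit 163) (nat_lit 5) (nat_lit 159) (nat_lit 5) (nat_lit 469) (nat_lit 358) (nat_lit 313))))) (XT.nd (nat_lit 234) (nat_lit 988) (nat_lit 0) (XT.nd (nat_lit 78) (nat_lit 684) (nat_lit 0) (XT.lf (nat_lit 0) (nat_lit 4301288170) (nat_lit 456) (nat_lit 2714916797) (nat_lit 76) (nat_lit 3724538119) (nat_lit 153) (nat_lit 5) (nat_lit 159) (nat_lit 5) (nat_lit 154) (nat_lit 5) (nat_lit 470) (nat_lit 358) (nat_lit 312)) (XT.nd (nat_lit 78) (nat_lit 380) (nat_lit 0) (XT.lf (nat_lit 0) (nat_lit 5909847350) (nat_lit 304) (nat_lit 2682055567) (nat_lit 380) (nat_lit 2258309209) (nat_lit 149) (nat_lit 5) (nat_lit 153) (nat_lit 5) (nat_lit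 154) (nat_lit 5) (nat_lit 471) (nat_lit 358) (nat_lit 311)) (XT.lf (nat_lit 0) (nat_lit 1987806764) (nat_lit 380) (nat_lit 7231011411) (nat_lit 76) (nat_lit 1742638581) (nat_lit 144) (nat_lit 5) (nat_lit 149) (nat_lit 5) (nat_lit 145) (nat_lit 5) (nat_lit 472) (nat_lit 358) (nat_lit 310)))) (XT.nd (nat_lit 156) (nat_lit 684) (nat_lit 0) (XT.nd (nat_lit 78) (nat_lit 0) (nat_lit 0) (XT.lf (nat_lit 0) (nat_lit 1477395492) (nat_lit 304) (nat_lit 4825753780) (nat_lit 380) (nat_lit 4771187597) (nat_lit 140) (nat_lit 5) (nat_lit 144) (nat_lit 5) (nat_lit 145) (nat_lit 5) (nat_lit 473) (nat_lit 358) (nat_lit 309)) (XT.lf (nat_lit 0) (nat_lit 10382071559) (nat_lit 304) (nat_lit 325452688) (nat_lit 380) (nat_lit 481895825) (nat_lit 140) (nat_lit 5) (nat_lit 144) (nat_lit 5) (nat_lit 145) (nat_lit 5) (nat_lit 474) (nat_lit 358) (nat_lit 308))) (XT.nd (nat_lit 78) (nat_lit 304) (nat_lit 0) (XT.lf (nat_lit 0) (nat_lit 3877950800) (nat_lit 380) (nat_lit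 3169345408) (nat_lit 76) (nat_lit 4258286613) (nat_lit 135) (nat_lit 5) (nat_lit 140) (nat_lit 5) (nat_lit 136) (nat_lit 5) (nat_lit 475) (nat_lit 358) (nat_lit 307)) (XT.lf (nat_lit 0) (nat_lit 5841671912) (nat_lit 304) (nat_lit 2477424403) (nat_lit 380) (nat_lit 3104897712) (nat_lit 131) (nat_lit 5) (nat_lit 135) (nat_lit 5) (nat_lit 136) (nat_lit 5) (nat_lit 476) (nat_lit 358) (nat_lit 306))))))))
noncomputable def xc19 : XT := (XT.nd (nat_lit 56472) (nat_lit 0) (nat_lit 5016) (XT.nd (nat_lit 55458) (nat_lit 0) (nat_lit 16112) (XT.nd (nat_lit 468) (nat_lit 228) (nat_lit 0) (XT.nd (nat_lit 234) (nat_lit 988) (nat_lit 0) (XT.nd (nat_lit 78) (nat_lit 228) (nat_lit 0) (XT.lf (nat_lit 0) (nat_lit 1300717921) (nat_lit 380) (nat_lit 8065559332) (nat_lit 76) (nat_lit 2178056185) (nat_lit 126) (nat_lit 5) (nat_lit 131) (nat_lit 5) (nat_lit 127) (nat_lit 5) (nat_lit 477) (nat_lit 358) (nat_lit 305)) (XT.nd (nat_lit 78) (nat_lit 0) (nat_lit 0)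 (XT.lf (nat_lit 0) (nat_lit 1031201779) (nat_lit 228) (nat_lit 4737829040) (nat_lit 304) (nat_lit 5897315160) (nat_lit 123) (nat_lit 5) (nat_lit 126) (nat_lit 5) (nat_lit 127) (nat_lit 5) (nat_lit 478) (nat_lit 358) (nat_lit 304)) (XT.lf (nat_lit 0) (nat_lit 10336583125) (nat_lit 304) (nat_lit 1446463339) (nat_lit 76) (nat_lit 7554844) (nat_lit 123) (nat_lit 5) (nat_lit 127) (nat_lit 5) (nat_lit 124) (nat_lit 5) (nat_lit 479) (nat_lit 358) (nat_lit 303)))) (XT.nd (nat_lit 78) (nat_lit 608) (nat_lit 0) (XT.lf (nat_lit 0) (nat_lit 3077232348) (nat_lit 380) (nat_lit 4012501119) (nat_lit 76) (nat_lit 4826419408) (nat_lit 118) (nat_lit 5) (nat_lit 123) (nat_lit 5) (nat_lit 119) (nat_lit 5) (nat_lit 480) (nat_lit 358) (nat_lit 302)) (XT.nd (nat_lit 78) (nat_lit 380) (nat_lit 0) (XT.lf (nat_lit 0) (nat_lit 5403193331) (nat_lit 228) (nat_lit 2277777811) (nat_lit 304) (nat_lit 4363025460) (nat_lit 115) (nat_lit 5) (nat_lit 118) (nat_lit 5) (nat_lit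 119) (nat_lit 5) (nat_lit 481) (nat_lit 358) (nat_lit 301)) (XT.lf (nat_lit 0) (nat_lit 219075149) (nat_lit 380) (nat_lit 9342327489) (nat_lit 76) (nat_lit 2612581444) (nat_lit 110) (nat_lit 5) (nat_lit 115) (nat_lit 5) (nat_lit 111) (nat_lit 5) (nat_lit 482) (nat_lit 358) (nat_lit 300))))) (XT.nd (nat_lit 54678) (nat_lit 0) (nat_lit 23788) (XT.nd (nat_lit 78) (nat_lit 0) (nat_lit 0) (XT.lf (nat_lit 0) (nat_lit 161151032) (nat_lit 228) (nat_lit 4691012201) (nat_lit 304) (nat_lit 7453475961) (nat_lit 107) (nat_lit 5) (nat_lit 110) (nat_lit 5) (nat_lit 111) (nat_lit 5) (nat_lit 483) (nat_lit 358) (nat_lit 299)) (XT.nd (nat_lit 54522) (nat_lit 0) (nat_lit 26524) (XT.lf (nat_lit 0) (nat_lit 9599704658) (nat_lit 304) (nat_lit 2534305933) (nat_lit 76) (nat_lit 305480984) (nat_lit 107) (nat_lit 5) (nat_lit 111) (nat_lit 5) (nat_lit 108) (nat_lit 5) (nat_lit 484) (nat_lit 358) (nat_lit 298)) (XT.lf (nat_lit 0) (nat_lit 595781777) (nat_lit 912)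 (nat_lit 1521761644) (nat_lit 912) (nat_lit 1521761644) (nat_lit 456) (nat_lit 4) (nat_lit 468) (nat_lit 5) (nat_lit 468) (nat_lit 4) (nat_lit 422) (nat_lit 359) (nat_lit 359)))) (XT.nd (nat_lit 156) (nat_lit 1824) (nat_lit 0) (XT.nd (nat_lit 78) (nat_lit 836) (nat_lit 0) (XT.lf (nat_lit 0) (nat_lit 587967992) (nat_lit 988) (nat_lit 423006339) (nat_lit 76) (nat_lit 6308364143) (nat_lit 455) (nat_lit 5) (nat_lit 468) (nat_lit 5) (nat_lit 456) (nat_lit 4) (nat_lit 423) (nat_lit 359) (nat_lit 358)) (XT.lf (nat_lit 0) (nat_lit 4224491226) (nat_lit 912) (nat_lit 2039308954) (nat_lit 0) (nat_lit 1097215752) (nat_lit 444) (nat_lit 5) (nat_lit 456) (nat_lit 4) (nat_lit 444) (nat_lit 4) (nat_lit 424) (nat_lit 359) (nat_lit 357))) (XT.nd (nat_lit 78) (nat_lit 836) (nat_lit 0) (XT.lf (nat_lit 0) (nat_lit 489059462) (nat_lit 988) (nat_lit 3657175531) (nat_lit 76) (nat_lit 3257907188) (nat_lit 431) (nat_lit 5) (nat_lit 444) (nat_lit 5) (nat_lit 432)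 (nat_lit 4) (nat_lit 425) (nat_lit 359) (nat_lit 356)) (XT.lf (nat_lit 0) (nat_lit 2160021458) (nat_lit 836) (nat_lit 1945491654) (nat_lit 912) (nat_lit 3342996078) (nat_lit 420) (nat_lit 5) (nat_lit 431) (nat_lit 5) (nat_lit 432) (nat_lit 4) (nat_lit 426) (nat_lit 359) (nat_lit 355)))))) (XT.nd (nat_lit 468) (nat_lit 3572) (nat_lit 0) (XT.nd (nat_lit 234) (nat_lit 2432) (nat_lit 0) (XT.nd (nat_lit 78) (nat_lit 760) (nat_lit 0) (XT.lf (nat_lit 0) (nat_lit 260042451) (nat_lit 912) (nat_lit 6917829122) (nat_lit 76) (nat_lit 316583907) (nat_lit 408) (nat_lit 5) (nat_lit 420) (nat_lit 5) (nat_lit 409) (nat_lit 4) (nat_lit 427) (nat_lit 359) (nat_lit 354)) (XT.nd (nat_lit 78) (nat_lit 760) (nat_lit 0) (XT.lf (nat_lit 0) (nat_lit 3872693480) (nat_lit 912) (nat_lit 1022486789) (nat_lit 76) (nat_lit 2646052193) (nat_lit 408) (nat_lit 5) (nat_lit 420) (nat_lit 5) (nat_lit 409) (nat_lit 4) (nat_lit 428) (nat_lit 359) (nat_lit 353)) (XT.lf (nat_lit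 0) (nat_lit 4980248539) (nat_lit 760) (nat_lit 2544649746) (nat_lit 836) (nat_lit 64700684) (nat_lit 398) (nat_lit 5) (nat_lit 408) (nat_lit 5) (nat_lit 409) (nat_lit 4) (nat_lit 429) (nat_lit 359) (nat_lit 352)))) (XT.nd (nat_lit 78) (nat_lit 1596) (nat_lit 0) (XT.lf (nat_lit 0) (nat_lit 3423317359) (nat_lit 760) (nat_lit 104994879) (nat_lit 836) (nat_lit 4110862449) (nat_lit 387) (nat_lit 5) (nat_lit 397) (nat_lit 5) (nat_lit 398) (nat_lit 5) (nat_lit 430) (nat_lit 359) (nat_lit 351)) (XT.nd (nat_lit 78) (nat_lit 836) (nat_lit 0) (XT.lf (nat_lit 0) (nat_lit 1854022241) (nat_lit 760) (nat_lit 5319462611) (nat_lit 836) (nat_lit 516625198) (nat_lit 377) (nat_lit 5) (nat_lit 387) (nat_lit 5) (nat_lit 388) (nat_lit 4) (nat_lit 431) (nat_lit 359) (nat_lit 350)) (XT.lf (nat_lit 0) (nat_lit 265872601) (nat_lit 760) (nat_lit 2809583690) (nat_lit 836) (nat_lit 4666853543) (nat_lit 366) (nat_lit 5) (nat_lit 376) (nat_lit 5) (nat_lit 377) (nat_lit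 5) (nat_lit 432) (nat_lit 359) (nat_lit 349))))) (XT.nd (nat_lit 234) (nat_lit 2128) (nat_lit 0) (XT.nd (nat_lit 78) (nat_lit 1444) (nat_lit 0) (XT.lf (nat_lit 0) (nat_lit 6488791991) (nat_lit 760) (nat_lit 219932754) (nat_lit 836) (nat_lit 1087235311) (nat_lit 366) (nat_lit 5) (nat_lit 376) (nat_lit 5) (nat_lit 377) (nat_lit 5) (nat_lit 433) (nat_lit 359) (nat_lit 348)) (XT.nd (nat_lit 78) (nat_lit 684) (nat_lit 0) (XT.lf (nat_lit 0) (nat_lit 2516432924) (nat_lit 760) (nat_lit 2909083759) (nat_lit 76) (nat_lit 2425111966) (nat_lit 356) (nat_lit 5) (nat_lit 366) (nat_lit 5) (nat_lit 357) (nat_lit 5) (nat_lit 434) (nat_lit 359) (nat_lit 347)) (XT.lf (nat_lit 0) (nat_lit 3385748211) (nat_lit 684) (nat_lit 2762725371) (nat_lit 760) (nat_lit 1758356158) (nat_lit 347) (nat_lit 5) (nat_lit 356) (nat_lit 5) (nat_lit 357) (nat_lit 5) (nat_lit 435) (nat_lit 359) (nat_lit 346)))) (XT.nd (nat_lit 156) (nat_lit 684) (nat_lit 0) (XT.nd (nat_lit 78)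 (nat_lit 684) (nat_lit 0) (XT.lf (nat_lit 0) (nat_lit 1816591444) (nat_lit 684) (nat_lit 17961843) (nat_lit 760) (nat_lit 6129949719) (nat_lit 337) (nat_lit 5) (nat_lit 346) (nat_lit 5) (nat_lit 347) (nat_lit 5) (nat_lit 436) (nat_lit 359) (nat_lit 345)) (XT.lf (nat_lit 0) (nat_lit 214908758) (nat_lit 684) (nat_lit 5250365417) (nat_lit 760) (nat_lit 2558033155) (nat_lit 328) (nat_lit 5) (nat_lit 337) (nat_lit 5) (nat_lit 338) (nat_lit 5) (nat_lit 437) (nat_lit 359) (nat_lit 344))) (XT.nd (nat_lit 78) (nat_lit 608) (nat_lit 0) (XT.lf (nat_lit 0) (nat_lit 1052505379) (nat_lit 760) (nat_lit 1379452281) (nat_lit 76) (nat_lit 5651560791) (nat_lit 327) (nat_lit 5) (nat_lit 337) (nat_lit 5) (nat_lit 328) (nat_lit 5) (nat_lit 438) (nat_lit 359) (nat_lit 343)) (XT.lf (nat_lit 0) (nat_lit 4678534594) (nat_lit 684) (nat_lit 2995842940) (nat_lit 76) (nat_lit 470667448) (nat_lit 319) (nat_lit 5) (nat_lit 328) (nat_lit 5) (nat_lit 320) (nat_lit 5)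 (nat_lit 439) (nat_lit 359) (nat_lit 342))))))) (XT.nd (nat_lit 1014) (nat_lit 4560) (nat_lit 0) (XT.nd (nat_lit 468) (nat_lit 3344) (nat_lit 0) (XT.nd (nat_lit 234) (nat_lit 1292) (nat_lit 0) (XT.nd (nat_lit 78) (nat_lit 1216) (nat_lit 0) (XT.lf (nat_lit 0) (nat_lit 157123889) (nat_lit 684) (nat_lit 4635722216) (nat_lit 76) (nat_lit 3415132724) (nat_lit 310) (nat_lit 5) (nat_lit 319) (nat_lit 5) (nat_lit 311) (nat_lit 5) (nat_lit 440) (nat_lit 359) (nat_lit 341)) (XT.nd (nat_lit 78) (nat_lit 608) (nat_lit 0) (XT.lf (nat_lit 0) (nat_lit 1966087810) (nat_lit 608) (nat_lit 1815542704) (nat_lit 684) (nat_lit 4490586241) (nat_lit 302) (nat_lit 5) (nat_lit 310) (nat_lit 5) (nat_lit 311) (nat_lit 5) (nat_lit 441) (nat_lit 359) (nat_lit 340)) (XT.lf (nat_lit 0) (nat_lit 344349714) (nat_lit 608) (nat_lit 7118048063) (nat_lit 684) (nat_lit 875666252) (nat_lit 294) (nat_lit 5) (nat_lit 302) (nat_lit 5) (nat_lit 303) (nat_lit 5) (nat_lit 442) (nat_lit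 359) (nat_lit 339)))) (XT.nd (nat_lit 78) (nat_lit 1216) (nat_lit 0) (XT.lf (nat_lit 0) (nat_lit 2771842826) (nat_lit 684) (nat_lit 1299559500) (nat_lit 76) (nat_lit 4333517540) (nat_lit 293) (nat_lit 5) (nat_lit 302) (nat_lit 5) (nat_lit 294) (nat_lit 5) (nat_lit 443) (nat_lit 359) (nat_lit 338)) (XT.nd (nat_lit 78) (nat_lit 684) (nat_lit 0) (XT.lf (nat_lit 0) (nat_lit 5518646939) (nat_lit 532) (nat_lit 941441799) (nat_lit 608) (nat_lit 2013318082) (nat_lit 286) (nat_lit 5) (nat_lit 293) (nat_lit 5) (nat_lit 294) (nat_lit 5) (nat_lit 444) (nat_lit 359) (nat_lit 337)) (XT.lf (nat_lit 0) (nat_lit 1649685456) (nat_lit 684) (nat_lit 4646832026) (nat_lit 76) (nat_lit 2246670676) (nat_lit 277) (nat_lit 5) (nat_lit 286) (nat_lit 5) (nat_lit 278) (nat_lit 5) (nat_lit 445) (nat_lit 359) (nat_lit 336))))) (XT.nd (nat_lit 234) (nat_lit 2204) (nat_lit 0) (XT.nd (nat_lit 78) (nat_lit 608) (nat_lit 0) (XT.lf (nat_lit 0) (nat_lit 2243174601) (nat_lit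 532) (nat_lit 3100983504) (nat_lit 608) (nat_lit 3270237510) (nat_lit 270) (nat_lit 5) (nat_lit 277) (nat_lit 5) (nat_lit 278) (nat_lit 5) (nat_lit 446) (nat_lit 359) (nat_lit 335)) (XT.nd (nat_lit 78) (nat_lit 0) (nat_lit 0) (XT.lf (nat_lit 0) (nat_lit 400783388) (nat_lit 608) (nat_lit 8113731184) (nat_lit 76) (nat_lit 172839980) (nat_lit 262) (nat_lit 5) (nat_lit 270) (nat_lit 5) (nat_lit 263) (nat_lit 5) (nat_lit 447) (nat_lit 359) (nat_lit 334)) (XT.lf (nat_lit 0) (nat_lit 4110107484) (nat_lit 608) (nat_lit 1137462910) (nat_lit 76) (nat_lit 3513596524) (nat_lit 262) (nat_lit 5) (nat_lit 270) (nat_lit 5) (nat_lit 263) (nat_lit 5) (nat_lit 448) (nat_lit 359) (nat_lit 333)))) (XT.nd (nat_lit 156) (nat_lit 1064) (nat_lit 0) (XT.nd (nat_lit 78) (nat_lit 608) (nat_lit 0) (XT.lf (nat_lit 0) (nat_lit 5980494535) (nat_lit 532) (nat_lit 1898086811) (nat_lit 608) (nat_lit 958174920) (nat_lit 255) (nat_lit 5) (nat_lit 262) (nat_lit 5) (nat_lit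 263) (nat_lit 5) (nat_lit 449) (nat_lit 359) (nat_lit 332)) (XT.lf (nat_lit 0) (nat_lit 2763773792) (nat_lit 608) (nat_lit 4619712984) (nat_lit 76) (nat_lit 1530165095) (nat_lit 247) (nat_lit 5) (nat_lit 255) (nat_lit 5) (nat_lit 248) (nat_lit 5) (nat_lit 450) (nat_lit 359) (nat_lit 331))) (XT.nd (nat_lit 78) (nat_lit 608) (nat_lit 0) (XT.lf (nat_lit 0) (nat_lit 2571955044) (nat_lit 456) (nat_lit 3970706744) (nat_lit 532) (nat_lit 2449390324) (nat_lit 241) (nat_lit 5) (nat_lit 247) (nat_lit 5) (nat_lit 248) (nat_lit 5) (nat_lit 451) (nat_lit 359) (nat_lit 330)) (XT.lf (nat_lit 0) (nat_lit 823578153) (nat_lit 532) (nat_lit 467657685) (nat_lit 608) (nat_lit 7780942298) (nat_lit 233) (nat_lit 5) (nat_lit 240) (nat_lit 5) (nat_lit 241) (nat_lit 5) (nat_lit 452) (nat_lit 359) (nat_lit 329)))))) (XT.nd (nat_lit 468) (nat_lit 2584) (nat_lit 0) (XT.nd (nat_lit 234) (nat_lit 988) (nat_lit 0) (XT.nd (nat_lit 78) (nat_lit 988) (nat_lit 0) (XT.lf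 (nat_lit 0) (nat_lit 5084779008) (nat_lit 608) (nat_lit 968039618) (nat_lit 76) (nat_lit 3100546208) (nat_lit 233) (nat_lit 5) (nat_lit 241) (nat_lit 5) (nat_lit 234) (nat_lit 5) (nat_lit 453) (nat_lit 359) (nat_lit 328)) (XT.nd (nat_lit 78) (nat_lit 532) (nat_lit 0) (XT.lf (nat_lit 0) (nat_lit 6463850156) (nat_lit 456) (nat_lit 2483781050) (nat_lit 532) (nat_lit 288675296) (nat_lit 227) (nat_lit 5) (nat_lit 233) (nat_lit 5) (nat_lit 234) (nat_lit 5) (nat_lit 454) (nat_lit 359) (nat_lit 327)) (XT.lf (nat_lit 0) (nat_lit 3513407330) (nat_lit 532) (nat_lit 4629473207) (nat_lit 76) (nat_lit 1177696231) (nat_lit 220) (nat_lit 5) (nat_lit 227) (nat_lit 5) (nat_lit 221) (nat_lit 5) (nat_lit 455) (nat_lit 359) (nat_lit 326)))) (XT.nd (nat_lit 78) (nat_lit 532) (nat_lit 0) (XT.lf (nat_lit 0) (nat_lit 2878118615) (nat_lit 456) (nat_lit 4512329114) (nat_lit 532) (nat_lit 2015990917) (nat_lit 214) (nat_lit 5) (nat_lit 220) (nat_lit 5) (nat_lit 221)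 (nat_lit 5) (nat_lit 456) (nat_lit 359) (nat_lit 325)) (XT.nd (nat_lit 78) (nat_lit 0) (nat_lit 0) (XT.lf (nat_lit 0) (nat_lit 1029828640) (nat_lit 456) (nat_lit 783952246) (nat_lit 532) (nat_lit 7680255596) (nat_lit 207) (nat_lit 5) (nat_lit 213) (nat_lit 5) (nat_lit 214) (nat_lit 5) (nat_lit 457) (nat_lit 359) (nat_lit 324)) (XT.lf (nat_lit 0) (nat_lit 5706303397) (nat_lit 532) (nat_lit 865129142) (nat_lit 76) (nat_lit 3011424234) (nat_lit 207) (nat_lit 5) (nat_lit 214) (nat_lit 5) (nat_lit 208) (nat_lit 5) (nat_lit 458) (nat_lit 359) (nat_lit 323))))) (XT.nd (nat_lit 234) (nat_lit 1292) (nat_lit 0) (XT.nd (nat_lit 78) (nat_lit 836) (nat_lit 0) (XT.lf (nat_lit 0) (nat_lit 3562129) (nat_lit 456) (nat_lit 2777791941) (nat_lit 76) (nat_lit 6892091349) (nat_lit 201) (nat_lit 5) (nat_lit 207) (nat_lit 5) (nat_lit 202) (nat_lit 5) (nat_lit 459) (nat_lit 359) (nat_lit 322)) (XT.nd (nat_lit 78) (nat_lit 380) (nat_lit 0) (XT.lf (nat_lit 0) (nat_lit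 3905744264) (nat_lit 532) (nat_lit 4750703383) (nat_lit 76) (nat_lit 1108958285) (nat_lit 195) (nat_lit 5) (nat_lit 202) (nat_lit 5) (nat_lit 196) (nat_lit 5) (nat_lit 460) (nat_lit 359) (nat_lit 321)) (XT.lf (nat_lit 0) (nat_lit 3087851473) (nat_lit 380) (nat_lit 4806237320) (nat_lit 456) (nat_lit 1964954487) (nat_lit 190) (nat_lit 5) (nat_lit 195) (nat_lit 5) (nat_lit 196) (nat_lit 5) (nat_lit 461) (nat_lit 359) (nat_lit 320)))) (XT.nd (nat_lit 156) (nat_lit 836) (nat_lit 0) (XT.nd (nat_lit 78) (nat_lit 0) (nat_lit 0) (XT.lf (nat_lit 0) (nat_lit 1118966124) (nat_lit 380) (nat_lit 852743767) (nat_lit 456) (nat_lit 7982774909) (nat_lit 184) (nat_lit 5) (nat_lit 189) (nat_lit 5) (nat_lit 190) (nat_lit 5) (nat_lit 462) (nat_lit 359) (nat_lit 319)) (XT.lf (nat_lit 0) (nat_lit 5978536806) (nat_lit 456) (nat_lit 902588072) (nat_lit 76) (nat_lit 3170095708) (nat_lit 184) (nat_lit 5) (nat_lit 190) (nat_lit 5) (nat_lit 185) (nat_lit 5) (nat_lit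 463) (nat_lit 359) (nat_lit 318))) (XT.nd (nat_lit 78) (nat_lit 456) (nat_lit 0) (XT.lf (nat_lit 0) (nat_lit 7202904726) (nat_lit 380) (nat_lit 2867293894) (nat_lit 456) (nat_lit 79598500) (nat_lit 179) (nat_lit 5) (nat_lit 184) (nat_lit 5) (nat_lit 185) (nat_lit 5) (nat_lit 464) (nat_lit 359) (nat_lit 317)) (XT.lf (nat_lit 0) (nat_lit 3941478714) (nat_lit 456) (nat_lit 5058513980) (nat_lit 76) (nat_lit 1249823865) (nat_lit 173) (nat_lit 5) (nat_lit 179) (nat_lit 5) (nat_lit 174) (nat_lit 5) (nat_lit 465) (nat_lit 359) (nat_lit 316))))))))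
noncomputable def xc20 : XT := (XT.nd (nat_lit 56316) (nat_lit 0) (nat_lit 10108) (XT.nd (nat_lit 1014) (nat_lit 1444) (nat_lit 0) (XT.nd (nat_lit 468) (nat_lit 1748) (nat_lit 0) (XT.nd (nat_lit 234) (nat_lit 1064) (nat_lit 0) (XT.nd (nat_lit 78) (nat_lit 456) (nat_lit 0) (XT.lf (nat_lit 0) (nat_lit 3126801729) (nat_lit 304) (nat_lit 4927002069) (nat_lit 380) (nat_lit 2297784224) (nat_lit 169) (nat_lit 5) (nat_lit 173) (nat_lit 5) (nat_lit 174) (nat_lit 5) (nat_lit 466) (nat_lit 359) (nat_lit 315)) (XT.nd (nat_lit 78) (nat_lit 0) (nat_lit 0) (XT.lf (nat_lit 0) (nat_lit 1015674112) (nat_lit 380) (nat_lit 747381984) (nat_lit 456) (nat_lit 8692234178) (nat_lit 163) (nat_lit 5) (nat_lit 168) (nat_lit 5) (nat_lit 169) (nat_lit 5) (nat_lit 467) (nat_lit 359) (nat_lit 314)) (XT.lf (nat_lit 0) (nat_lit 5899086326) (nat_lit 456) (nat_lit 1155297470) (nat_lit 76) (nat_lit 3505884197) (nat_lit 163) (nat_lit 5) (nat_lit 169) (nat_lit 5) (nat_lit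 164) (nat_lit 5) (nat_lit 468) (nat_lit 359) (nat_lit 313)))) (XT.nd (nat_lit 78) (nat_lit 760) (nat_lit 0) (XT.lf (nat_lit 0) (nat_lit 7311420347) (nat_lit 304) (nat_lit 2812838303) (nat_lit 380) (nat_lit 542958188) (nat_lit 159) (nat_lit 5) (nat_lit 163) (nat_lit 5) (nat_lit 164) (nat_lit 5) (nat_lit 469) (nat_lit 359) (nat_lit 312)) (XT.nd (nat_lit 78) (nat_lit 304) (nat_lit 0) (XT.lf (nat_lit 0) (nat_lit 3615137850) (nat_lit 456) (nat_lit 5629531813) (nat_lit 76) (nat_lit 1531050469) (nat_lit 153) (nat_lit 5) (nat_lit 159) (nat_lit 5) (nat_lit 154) (nat_lit 5) (nat_lit 470) (nat_lit 359) (nat_lit 311)) (XT.lf (nat_lit 0) (nat_lit 2919084564) (nat_lit 304) (nat_lit 4944655108) (nat_lit 380) (nat_lit 3022289760) (nat_lit 149) (nat_lit 5) (nat_lit 153) (nat_lit 5) (nat_lit 154) (nat_lit 5) (nat_lit 471) (nat_lit 359) (nat_lit 310))))) (XT.nd (nat_lit 234) (nat_lit 1064) (nat_lit 0) (XT.nd (nat_lit 78) (nat_lit 304) (nat_lit 0) (XT.lf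 (nat_lit 0) (nat_lit 642892379) (nat_lit 304) (nat_lit 536828177) (nat_lit 380) (nat_lit 9818735219) (nat_lit 144) (nat_lit 5) (nat_lit 148) (nat_lit 5) (nat_lit 149) (nat_lit 5) (nat_lit 472) (nat_lit 359) (nat_lit 309)) (XT.nd (nat_lit 78) (nat_lit 304) (nat_lit 0) (XT.lf (nat_lit 0) (nat_lit 5459556987) (nat_lit 380) (nat_lit 1700137241) (nat_lit 76) (nat_lit 3952351781) (nat_lit 144) (nat_lit 5) (nat_lit 149) (nat_lit 5) (nat_lit 145) (nat_lit 5) (nat_lit 473) (nat_lit 359) (nat_lit 308)) (XT.lf (nat_lit 0) (nat_lit 7145099022) (nat_lit 304) (nat_lit 2685419968) (nat_lit 380) (nat_lit 1397278482) (nat_lit 140) (nat_lit 5) (nat_lit 144) (nat_lit 5) (nat_lit 145) (nat_lit 5) (nat_lit 474) (nat_lit 359) (nat_lit 307)))) (XT.nd (nat_lit 156) (nat_lit 380) (nat_lit 0) (XT.nd (nat_lit 78) (nat_lit 304) (nat_lit 0) (XT.lf (nat_lit 0) (nat_lit 2915288522) (nat_lit 380) (nat_lit 6542869730) (nat_lit 76) (nat_lit 1887106534) (nat_lit 135) (nat_lit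 5) (nat_lit 140) (nat_lit 5) (nat_lit 136) (nat_lit 5) (nat_lit 475) (nat_lit 359) (nat_lit 306)) (XT.lf (nat_lit 0) (nat_lit 2386313482) (nat_lit 304) (nat_lit 4925851274) (nat_lit 380) (nat_lit 4152396622) (nat_lit 131) (nat_lit 5) (nat_lit 135) (nat_lit 5) (nat_lit 136) (nat_lit 5) (nat_lit 476) (nat_lit 359) (nat_lit 305))) (XT.nd (nat_lit 78) (nat_lit 304) (nat_lit 0) (XT.lf (nat_lit 0) (nat_lit 208160901) (nat_lit 380) (nat_lit 78116891) (nat_lit 76) (nat_lit 11299934943) (nat_lit 130) (nat_lit 5) (nat_lit 135) (nat_lit 5) (nat_lit 131) (nat_lit 5) (nat_lit 477) (nat_lit 359) (nat_lit 304)) (XT.lf (nat_lit 0) (nat_lit 4645712671) (nat_lit 380) (nat_lit 2616940630) (nat_lit 76) (nat_lit 4446187198) (nat_lit 126) (nat_lit 5) (nat_lit 131) (nat_lit 5) (nat_lit 127) (nat_lit 5) (nat_lit 478) (nat_lit 359) (nat_lit 303)))))) (XT.nd (nat_lit 54756) (nat_lit 0) (nat_lit 23788) (XT.nd (nat_lit 234) (nat_lit 608) (nat_lit 0) (XT.nd (nat_lit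 78) (nat_lit 608) (nat_lit 0) (XT.lf (nat_lit 0) (nat_lit 6624848270) (nat_lit 228) (nat_lit 2549649269) (nat_lit 304) (nat_lit 2659373638) (nat_lit 123) (nat_lit 5) (nat_lit 126) (nat_lit 5) (nat_lit 127) (nat_lit 5) (nat_lit 479) (nat_lit 359) (nat_lit 302)) (XT.nd (nat_lit 78) (nat_lit 228) (nat_lit 0) (XT.lf (nat_lit 0) (nat_lit 1824660467) (nat_lit 380) (nat_lit 7881082163) (nat_lit 76) (nat_lit 2255097131) (nat_lit 118) (nat_lit 5) (nat_lit 123) (nat_lit 5) (nat_lit 119) (nat_lit 5) (nat_lit 480) (nat_lit 359) (nat_lit 301)) (XT.lf (nat_lit 0) (nat_lit 1446644963) (nat_lit 228) (nat_lit 4934935122) (nat_lit 304) (nat_lit 5708039786) (nat_lit 115) (nat_lit 5) (nat_lit 118) (nat_lit 5) (nat_lit 119) (nat_lit 5) (nat_lit 481) (nat_lit 359) (nat_lit 300)))) (XT.nd (nat_lit 78) (nat_lit 608) (nat_lit 0) (XT.lf (nat_lit 0) (nat_lit 10995361722) (nat_lit 228) (nat_lit 44845593) (nat_lit 304) (nat_lit 1180556884) (nat_lit 115) (nat_lit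 5) (nat_lit 118) (nat_lit 5) (nat_lit 119) (nat_lit 5) (nat_lit 482) (nat_lit 359) (nat_lit 299)) (XT.nd (nat_lit 78) (nat_lit 228) (nat_lit 0) (XT.lf (nat_lit 0) (nat_lit 3437557252) (nat_lit 380) (nat_lit 3989441030) (nat_lit 76) (nat_lit 4926183470) (nat_lit 110) (nat_lit 5) (nat_lit 115) (nat_lit 5) (nat_lit 111) (nat_lit 5) (nat_lit 483) (nat_lit 359) (nat_lit 298)) (XT.lf (nat_lit 0) (nat_lit 5667661449) (nat_lit 228) (nat_lit 2468355060) (nat_lit 304) (nat_lit 4351999268) (nat_lit 107) (nat_lit 5) (nat_lit 110) (nat_lit 5) (nat_lit 111) (nat_lit 5) (nat_lit 484) (nat_lit 359) (nat_lit 297))))) (XT.nd (nat_lit 234) (nat_lit 2736) (nat_lit 0) (XT.nd (nat_lit 78) (nat_lit 1900) (nat_lit 0) (XT.lf (nat_lit 0) (nat_lit 2238040329) (nat_lit 1140) (nat_lit 681168010) (nat_lit 1140) (nat_lit 681168010) (nat_lit 481) (nat_lit 4) (nat_lit 496) (nat_lit 5) (nat_lit 496) (nat_lit 4) (nat_lit 420) (nat_lit 360) (nat_lit 360)) (XT.nd (nat_lit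 78) (nat_lit 912) (nat_lit 0) (XT.lf (nat_lit 0) (nat_lit 2230883711) (nat_lit 988) (nat_lit 4420536174) (nat_lit 0) (nat_lit 587967992) (nat_lit 468) (nat_lit 5) (nat_lit 481) (nat_lit 4) (nat_lit 468) (nat_lit 4) (nat_lit 421) (nat_lit 360) (nat_lit 359)) (XT.lf (nat_lit 0) (nat_lit 1154163010) (nat_lit 912) (nat_lit 4689376889) (nat_lit 912) (nat_lit 1435759485) (nat_lit 456) (nat_lit 4) (nat_lit 468) (nat_lit 5) (nat_lit 468) (nat_lit 4) (nat_lit 422) (nat_lit 360) (nat_lit 358)))) (XT.nd (nat_lit 156) (nat_lit 1824) (nat_lit 0) (XT.nd (nat_lit 78) (nat_lit 836) (nat_lit 0) (XT.lf (nat_lit 0) (nat_lit 2140635004) (nat_lit 988) (nat_lit 508653992) (nat_lit 76) (nat_lit 4671210171) (nat_lit 455) (nat_lit 5) (nat_lit 468) (nat_lit 5) (nat_lit 456) (nat_lit 4) (nat_lit 423) (nat_lit 360) (nat_lit 357)) (XT.lf (nat_lit 0) (nat_lit 5205409029) (nat_lit 836) (nat_lit 530383994) (nat_lit 912) (nat_lit 1627210908) (nat_lit 444) (nat_lit 5)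 (nat_lit 455) (nat_lit 5) (nat_lit 456) (nat_lit 4) (nat_lit 424) (nat_lit 360) (nat_lit 356))) (XT.nd (nat_lit 78) (nat_lit 836) (nat_lit 0) (XT.lf (nat_lit 0) (nat_lit 1940943883) (nat_lit 988) (nat_lit 3823110070) (nat_lit 76) (nat_lit 1642632926) (nat_lit 431) (nat_lit 5) (nat_lit 444) (nat_lit 5) (nat_lit 432) (nat_lit 4) (nat_lit 425) (nat_lit 360) (nat_lit 355)) (XT.lf (nat_lit 0) (nat_lit 1954407547) (nat_lit 836) (nat_lit 3568902553) (nat_lit 912) (nat_lit 1928425537) (nat_lit 420) (nat_lit 5) (nat_lit 431) (nat_lit 5) (nat_lit 432) (nat_lit 4) (nat_lit 426) (nat_lit 360) (nat_lit 354))))))) (XT.nd (nat_lit 1014) (nat_lit 6004) (nat_lit 0) (XT.nd (nat_lit 468) (nat_lit 4332) (nat_lit 0) (XT.nd (nat_lit 234) (nat_lit 1596) (nat_lit 0) (XT.nd (nat_lit 78) (nat_lit 836) (nat_lit 0) (XT.lf (nat_lit 0) (nat_lit 320162536) (nat_lit 836) (nat_lit 1299573379) (nat_lit 912) (nat_lit 5878488818) (nat_lit 408) (nat_lit 5) (nat_lit 419)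 (nat_lit 5) (nat_lit 420) (nat_lit 5) (nat_lit 427) (nat_lit 360) (nat_lit 353)) (XT.nd (nat_lit 78) (nat_lit 836) (nat_lit 0) (XT.lf (nat_lit 0) (nat_lit 5191754045) (nat_lit 912) (nat_lit 1311822126) (nat_lit 76) (nat_lit 1042238203) (nat_lit 408) (nat_lit 5) (nat_lit 420) (nat_lit 5) (nat_lit 409) (nat_lit 4) (nat_lit 428) (nat_lit 360) (nat_lit 352)) (XT.lf (nat_lit 0) (nat_lit 1199454080) (nat_lit 836) (nat_lit 2952971111) (nat_lit 76) (nat_lit 3442272059) (nat_lit 397) (nat_lit 5) (nat_lit 408) (nat_lit 5) (nat_lit 398) (nat_lit 5) (nat_lit 429) (nat_lit 360) (nat_lit 351)))) (XT.nd (nat_lit 78) (nat_lit 836) (nat_lit 0) (XT.lf (nat_lit 0) (nat_lit 3037234162) (nat_lit 760) (nat_lit 1720488654) (nat_lit 836) (nat_lit 2887219663) (nat_lit 387) (nat_lit 5) (nat_lit 397) (nat_lit 5) (nat_lit 398) (nat_lit 5) (nat_lit 430) (nat_lit 360) (nat_lit 350)) (XT.nd (nat_lit 78) (nat_lit 0) (nat_lit 0) (XT.lf (nat_lit 0) (nat_lit 653159138)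 (nat_lit 836) (nat_lit 6271283412) (nat_lit 76) (nat_lit 772235200) (nat_lit 376) (nat_lit 5) (nat_lit 387) (nat_lit 5) (nat_lit 377) (nat_lit 5) (nat_lit 431) (nat_lit 360) (nat_lit 349)) (XT.lf (nat_lit 0) (nat_lit 4205854569) (nat_lit 836) (nat_lit 213647840) (nat_lit 76) (nat_lit 3329960247) (nat_lit 376) (nat_lit 5) (nat_lit 387) (nat_lit 5) (nat_lit 377) (nat_lit 5) (nat_lit 432) (nat_lit 360) (nat_lit 348))))) (XT.nd (nat_lit 234) (nat_lit 2128) (nat_lit 0) (XT.nd (nat_lit 78) (nat_lit 1368) (nat_lit 0) (XT.lf (nat_lit 0) (nat_lit 3400455) (nat_lit 836) (nat_lit 1834578485) (nat_lit 76) (nat_lit 5965772010) (nat_lit 365) (nat_lit 5) (nat_lit 376) (nat_lit 5) (nat_lit 366) (nat_lit 5) (nat_lit 433) (nat_lit 360) (nat_lit 347)) (XT.nd (nat_lit 78) (nat_lit 684) (nat_lit 0) (XT.lf (nat_lit 0) (nat_lit 3548402588) (nat_lit 760) (nat_lit 3485853322) (nat_lit 76) (nat_lit 824910589) (nat_lit 356) (nat_lit 5) (nat_lit 366) (nat_lit 5)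 (nat_lit 357) (nat_lit 5) (nat_lit 434) (nat_lit 360) (nat_lit 346)) (XT.lf (nat_lit 0) (nat_lit 2763604215) (nat_lit 684) (nat_lit 4382987303) (nat_lit 760) (nat_lit 769453106) (nat_lit 347) (nat_lit 5) (nat_lit 356) (nat_lit 5) (nat_lit 357) (nat_lit 5) (nat_lit 435) (nat_lit 360) (nat_lit 345)))) (XT.nd (nat_lit 156) (nat_lit 1368) (nat_lit 0) (XT.nd (nat_lit 78) (nat_lit 0) (nat_lit 0) (XT.lf (nat_lit 0) (nat_lit 1132475370) (nat_lit 684) (nat_lit 1643906607) (nat_lit 760) (nat_lit 5197889596) (nat_lit 337) (nat_lit 5) (nat_lit 346) (nat_lit 5) (nat_lit 347) (nat_lit 5) (nat_lit 436) (nat_lit 360) (nat_lit 344)) (XT.lf (nat_lit 0) (nat_lit 6365777849) (nat_lit 760) (nat_lit 508892022) (nat_lit 76) (nat_lit 1159232525) (nat_lit 337) (nat_lit 5) (nat_lit 347) (nat_lit 5) (nat_lit 338) (nat_lit 5) (nat_lit 437) (nat_lit 360) (nat_lit 343))) (XT.nd (nat_lit 78) (nat_lit 608) (nat_lit 0) (XT.lf (nat_lit 0) (nat_lit 1898140310) (nat_lit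 760) (nat_lit 2164228741) (nat_lit 76) (nat_lit 4032280955) (nat_lit 327) (nat_lit 5) (nat_lit 337) (nat_lit 5) (nat_lit 328) (nat_lit 5) (nat_lit 438) (nat_lit 360) (nat_lit 342)) (XT.lf (nat_lit 0) (nat_lit 4319608353) (nat_lit 608) (nat_lit 1167398858) (nat_lit 684) (nat_lit 2669912574) (nat_lit 319) (nat_lit 5) (nat_lit 327) (nat_lit 5) (nat_lit 328) (nat_lit 5) (nat_lit 439) (nat_lit 360) (nat_lit 341)))))) (XT.nd (nat_lit 468) (nat_lit 2812) (nat_lit 0) (XT.nd (nat_lit 234) (nat_lit 1900) (nat_lit 0) (XT.nd (nat_lit 78) (nat_lit 608) (nat_lit 0) (XT.lf (nat_lit 0) (nat_lit 901295717) (nat_lit 684) (nat_lit 5536115718) (nat_lit 76) (nat_lit 1783178325) (nat_lit 310) (nat_lit 5) (nat_lit 319) (nat_lit 5) (nat_lit 311) (nat_lit 5) (nat_lit 440) (nat_lit 360) (nat_lit 340)) (XT.nd (nat_lit 78) (nat_lit 0) (nat_lit 0) (XT.lf (nat_lit 0) (nat_lit 1015778911) (nat_lit 608) (nat_lit 3475592319) (nat_lit 684) (nat_lit 3794145078) (nat_lit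 302) (nat_lit 5) (nat_lit 310) (nat_lit 5) (nat_lit 311) (nat_lit 5) (nat_lit 441) (nat_lit 360) (nat_lit 339)) (XT.lf (nat_lit 0) (nat_lit 7698599769) (nat_lit 608) (nat_lit 435342767) (nat_lit 684) (nat_lit 218184966) (nat_lit 302) (nat_lit 5) (nat_lit 310) (nat_lit 5) (nat_lit 311) (nat_lit 5) (nat_lit 442) (nat_lit 360) (nat_lit 338)))) (XT.nd (nat_lit 78) (nat_lit 1216) (nat_lit 0) (XT.lf (nat_lit 0) (nat_lit 3385660528) (nat_lit 684) (nat_lit 2359512181) (nat_lit 76) (nat_lit 2674426065) (nat_lit 293) (nat_lit 5) (nat_lit 302) (nat_lit 5) (nat_lit 294) (nat_lit 5) (nat_lit 443) (nat_lit 360) (nat_lit 337)) (XT.nd (nat_lit 78) (nat_lit 684) (nat_lit 0) (XT.lf (nat_lit 0) (nat_lit 4407029973) (nat_lit 532) (nat_lit 2632319831) (nat_lit 608) (nat_lit 1449427056) (nat_lit 286) (nat_lit 5) (nat_lit 293) (nat_lit 5) (nat_lit 294) (nat_lit 5) (nat_lit 444) (nat_lit 360) (nat_lit 336)) (XT.lf (nat_lit 0) (nat_lit 2160206470) (nat_lit 684)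 (nat_lit 5835128489) (nat_lit 76) (nat_lit 564069506) (nat_lit 277) (nat_lit 5) (nat_lit 286) (nat_lit 5) (nat_lit 278) (nat_lit 5) (nat_lit 445) (nat_lit 360) (nat_lit 335))))) (XT.nd (nat_lit 234) (nat_lit 1672) (nat_lit 0) (XT.nd (nat_lit 78) (nat_lit 608) (nat_lit 0) (XT.lf (nat_lit 0) (nat_lit 1001157177) (nat_lit 532) (nat_lit 4818465110) (nat_lit 608) (nat_lit 2811690771) (nat_lit 270) (nat_lit 5) (nat_lit 277) (nat_lit 5) (nat_lit 278) (nat_lit 5) (nat_lit 446) (nat_lit 360) (nat_lit 334)) (XT.nd (nat_lit 78) (nat_lit 532) (nat_lit 0) (XT.lf (nat_lit 0) (nat_lit 821565378) (nat_lit 608) (nat_lit 732209889) (nat_lit 76) (nat_lit 7151072201) (nat_lit 269) (nat_lit 5) (nat_lit 277) (nat_lit 5) (nat_lit 270) (nat_lit 5) (nat_lit 447) (nat_lit 360) (nat_lit 333)) (XT.lf (nat_lit 0) (nat_lit 4489285900) (nat_lit 608) (nat_lit 2498254218) (nat_lit 76) (nat_lit 1791951789) (nat_lit 262) (nat_lit 5) (nat_lit 270) (nat_lit 5) (nat_lit 263)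 (nat_lit 5) (nat_lit 448) (nat_lit 360) (nat_lit 332)))) (XT.nd (nat_lit 156) (nat_lit 532) (nat_lit 0) (XT.nd (nat_lit 78) (nat_lit 608) (nat_lit 0) (XT.lf (nat_lit 0) (nat_lit 4564109289) (nat_lit 532) (nat_lit 3658310868) (nat_lit 608) (nat_lit 633367890) (nat_lit 255) (nat_lit 5) (nat_lit 262) (nat_lit 5) (nat_lit 263) (nat_lit 5) (nat_lit 449) (nat_lit 360) (nat_lit 331)) (XT.lf (nat_lit 0) (nat_lit 2809963616) (nat_lit 532) (nat_lit 228547847) (nat_lit 608) (nat_lit 5895046200) (nat_lit 247) (nat_lit 5) (nat_lit 254) (nat_lit 5) (nat_lit 255) (nat_lit 5) (nat_lit 450) (nat_lit 360) (nat_lit 330))) (XT.nd (nat_lit 78) (nat_lit 76) (nat_lit 0) (XT.lf (nat_lit 0) (nat_lit 1011776445) (nat_lit 456) (nat_lit 5768167529) (nat_lit 532) (nat_lit 2232763041) (nat_lit 241) (nat_lit 5) (nat_lit 247) (nat_lit 5) (nat_lit 248) (nat_lit 5) (nat_lit 451) (nat_lit 360) (nat_lit 329)) (XT.lf (nat_lit 0) (nat_lit 1473929532) (nat_lit 532) (nat_lit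 806879226) (nat_lit 76) (nat_lit 6812617999) (nat_lit 240) (nat_lit 5) (nat_lit 247) (nat_lit 5) (nat_lit 241) (nat_lit 5) (nat_lit 452) (nat_lit 360) (nat_lit 328))))))))
noncomputable def xc21 : XT := (XT.nd (nat_lit 2028) (nat_lit 1444) (nat_lit 0) (XT.nd (nat_lit 1014) (nat_lit 3572) (nat_lit 0) (XT.nd (nat_lit 468) (nat_lit 2584) (nat_lit 0) (XT.nd (nat_lit 234) (nat_lit 988) (nat_lit 0) (XT.nd (nat_lit 78) (nat_lit 988) (nat_lit 0) (XT.lf (nat_lit 0) (nat_lit 5224799274) (nat_lit 608) (nat_lit 2656371060) (nat_lit 76) (nat_lit 1294296590) (nat_lit 233) (nat_lit 5) (nat_lit 241) (nat_lit 5) (nat_lit 234) (nat_lit 5) (nat_lit 453) (nat_lit 360) (nat_lit 327)) (XT.nd (nat_lit 78) (nat_lit 532) (nat_lit 0) (XT.lf (nat_lit 0) (nat_lit 4715725463) (nat_lit 456) (nat_lit 4335519477) (nat_lit 532) (nat_lit 207891783) (nat_lit 227) (nat_lit 5) (nat_lit 233) (nat_lit 5) (nat_lit 234) (nat_lit 5) (nat_lit 454) (nat_lit 360) (nat_lit 326))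 (XT.lf (nat_lit 0) (nat_lit 2866538418) (nat_lit 456) (nat_lit 681980049) (nat_lit 532) (nat_lit 5795770290) (nat_lit 220) (nat_lit 5) (nat_lit 226) (nat_lit 5) (nat_lit 227) (nat_lit 5) (nat_lit 455) (nat_lit 360) (nat_lit 325)))) (XT.nd (nat_lit 78) (nat_lit 532) (nat_lit 0) (XT.lf (nat_lit 0) (nat_lit 972143294) (nat_lit 456) (nat_lit 6411818869) (nat_lit 532) (nat_lit 2047020406) (nat_lit 214) (nat_lit 5) (nat_lit 220) (nat_lit 5) (nat_lit 221) (nat_lit 5) (nat_lit 456) (nat_lit 360) (nat_lit 324)) (XT.nd (nat_lit 78) (nat_lit 456) (nat_lit 0) (XT.lf (nat_lit 0) (nat_lit 1751762156) (nat_lit 532) (nat_lit 951208486) (nat_lit 76) (nat_lit 6816241716) (nat_lit 213) (nat_lit 5) (nat_lit 220) (nat_lit 5) (nat_lit 214) (nat_lit 5) (nat_lit 457) (nat_lit 360) (nat_lit 323)) (XT.lf (nat_lit 0) (nat_lit 5600979174) (nat_lit 532) (nat_lit 2908983648) (nat_lit 76) (nat_lit 1098935936) (nat_lit 207) (nat_lit 5) (nat_lit 214) (nat_lit 5) (nat_lit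 208) (nat_lit 5) (nat_lit 458) (nat_lit 360) (nat_lit 322))))) (XT.nd (nat_lit 234) (nat_lit 1292) (nat_lit 0) (XT.nd (nat_lit 78) (nat_lit 912) (nat_lit 0) (XT.lf (nat_lit 0) (nat_lit 4787530753) (nat_lit 380) (nat_lit 4746447642) (nat_lit 456) (nat_lit 166264535) (nat_lit 202) (nat_lit 5) (nat_lit 207) (nat_lit 5) (nat_lit 208) (nat_lit 5) (nat_lit 459) (nat_lit 360) (nat_lit 321)) (XT.nd (nat_lit 78) (nat_lit 380) (nat_lit 0) (XT.lf (nat_lit 0) (nat_lit 2822736775) (nat_lit 456) (nat_lit 869798075) (nat_lit 532) (nat_lit 6100601448) (nat_lit 195) (nat_lit 5) (nat_lit 201) (nat_lit 5) (nat_lit 202) (nat_lit 5) (nat_lit 460) (nat_lit 360) (nat_lit 320)) (XT.lf (nat_lit 0) (nat_lit 807017106) (nat_lit 380) (nat_lit 6829569604) (nat_lit 456) (nat_lit 2251072789) (nat_lit 190) (nat_lit 5) (nat_lit 195) (nat_lit 5) (nat_lit 196) (nat_lit 5) (nat_lit 461) (nat_lit 360) (nat_lit 319)))) (XT.nd (nat_lit 156) (nat_lit 836) (nat_lit 0) (XT.nd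 (nat_lit 78) (nat_lit 380) (nat_lit 0) (XT.lf (nat_lit 0) (nat_lit 1658315564) (nat_lit 456) (nat_lit 1240247439) (nat_lit 76) (nat_lit 7085195742) (nat_lit 189) (nat_lit 5) (nat_lit 195) (nat_lit 5) (nat_lit 190) (nat_lit 5) (nat_lit 462) (nat_lit 360) (nat_lit 318)) (XT.lf (nat_lit 0) (nat_lit 5620024824) (nat_lit 456) (nat_lit 3331471529) (nat_lit 76) (nat_lit 1129900529) (nat_lit 184) (nat_lit 5) (nat_lit 190) (nat_lit 5) (nat_lit 185) (nat_lit 5) (nat_lit 463) (nat_lit 360) (nat_lit 317))) (XT.nd (nat_lit 78) (nat_lit 456) (nat_lit 0) (XT.lf (nat_lit 0) (nat_lit 4704899307) (nat_lit 380) (nat_lit 4967410507) (nat_lit 456) (nat_lit 508451138) (nat_lit 179) (nat_lit 5) (nat_lit 184) (nat_lit 5) (nat_lit 185) (nat_lit 5) (nat_lit 464) (nat_lit 360) (nat_lit 316)) (XT.lf (nat_lit 0) (nat_lit 2603021105) (nat_lit 380) (nat_lit 867057162) (nat_lit 456) (nat_lit 6811721259) (nat_lit 173) (nat_lit 5) (nat_lit 178) (nat_lit 5) (nat_lit 179)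 (nat_lit 5) (nat_lit 465) (nat_lit 360) (nat_lit 315)))))) (XT.nd (nat_lit 468) (nat_lit 2052) (nat_lit 0) (XT.nd (nat_lit 234) (nat_lit 760) (nat_lit 0) (XT.nd (nat_lit 78) (nat_lit 456) (nat_lit 0) (XT.lf (nat_lit 0) (nat_lit 440374659) (nat_lit 304) (nat_lit 7095997992) (nat_lit 380) (nat_lit 2848118952) (nat_lit 169) (nat_lit 5) (nat_lit 173) (nat_lit 5) (nat_lit 174) (nat_lit 5) (nat_lit 466) (nat_lit 360) (nat_lit 314)) (XT.nd (nat_lit 78) (nat_lit 380) (nat_lit 0) (XT.lf (nat_lit 0) (nat_lit 1190449300) (nat_lit 380) (nat_lit 1750027059) (nat_lit 76) (nat_lit 7548378753) (nat_lit 168) (nat_lit 5) (nat_lit 173) (nat_lit 5) (nat_lit 169) (nat_lit 5) (nat_lit 467) (nat_lit 360) (nat_lit 313)) (XT.lf (nat_lit 0) (nat_lit 5277879314) (nat_lit 456) (nat_lit 4000482095) (nat_lit 76) (nat_lit 1316443428) (nat_lit 163) (nat_lit 5) (nat_lit 169) (nat_lit 5) (nat_lit 164) (nat_lit 5) (nat_lit 468) (nat_lit 360) (nat_lit 312)))) (XT.nd (nat_lit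 78) (nat_lit 456) (nat_lit 0) (XT.lf (nat_lit 0) (nat_lit 4391919791) (nat_lit 304) (nat_lit 5069851406) (nat_lit 380) (nat_lit 1240808094) (nat_lit 159) (nat_lit 5) (nat_lit 163) (nat_lit 5) (nat_lit 164) (nat_lit 5) (nat_lit 469) (nat_lit 360) (nat_lit 311)) (XT.nd (nat_lit 78) (nat_lit 0) (nat_lit 0) (XT.lf (nat_lit 0) (nat_lit 2130357410) (nat_lit 380) (nat_lit 744096564) (nat_lit 456) (nat_lit 7937758957) (nat_lit 153) (nat_lit 5) (nat_lit 158) (nat_lit 5) (nat_lit 159) (nat_lit 5) (nat_lit 470) (nat_lit 360) (nat_lit 310)) (XT.lf (nat_lit 0) (nat_lit 7077120124) (nat_lit 456) (nat_lit 202891685) (nat_lit 76) (nat_lit 3643429136) (nat_lit 153) (nat_lit 5) (nat_lit 159) (nat_lit 5) (nat_lit 154) (nat_lit 5) (nat_lit 471) (nat_lit 360) (nat_lit 309))))) (XT.nd (nat_lit 234) (nat_lit 1064) (nat_lit 0) (XT.nd (nat_lit 78) (nat_lit 608) (nat_lit 0) (XT.lf (nat_lit 0) (nat_lit 338882696) (nat_lit 380) (nat_lit 2558545941) (nat_lit 76)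 (nat_lit 8139097935) (nat_lit 148) (nat_lit 5) (nat_lit 153) (nat_lit 5) (nat_lit 149) (nat_lit 5) (nat_lit 472) (nat_lit 360) (nat_lit 308)) (XT.nd (nat_lit 78) (nat_lit 304) (nat_lit 0) (XT.lf (nat_lit 0) (nat_lit 4564459900) (nat_lit 380) (nat_lit 4994909316) (nat_lit 76) (nat_lit 1591832775) (nat_lit 144) (nat_lit 5) (nat_lit 149) (nat_lit 5) (nat_lit 145) (nat_lit 5) (nat_lit 473) (nat_lit 360) (nat_lit 307)) (XT.lf (nat_lit 0) (nat_lit 3770417754) (nat_lit 304) (nat_lit 5121536000) (nat_lit 380) (nat_lit 2375869063) (nat_lit 140) (nat_lit 5) (nat_lit 144) (nat_lit 5) (nat_lit 145) (nat_lit 5) (nat_lit 474) (nat_lit 360) (nat_lit 306)))) (XT.nd (nat_lit 156) (nat_lit 684) (nat_lit 0) (XT.nd (nat_lit 78) (nat_lit 0) (nat_lit 0) (XT.lf (nat_lit 0) (nat_lit 1325235008) (nat_lit 304) (nat_lit 567717689) (nat_lit 380) (nat_lit 9493596100) (nat_lit 135) (nat_lit 5) (nat_lit 139) (nat_lit 5) (nat_lit 140) (nat_lit 5) (nat_lit 475) (nat_lit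 360) (nat_lit 305)) (XT.lf (nat_lit 0) (nat_lit 6249242734) (nat_lit 380) (nat_lit 1195541959) (nat_lit 76) (nat_lit 4061872420) (nat_lit 135) (nat_lit 5) (nat_lit 140) (nat_lit 5) (nat_lit 136) (nat_lit 5) (nat_lit 476) (nat_lit 360) (nat_lit 304))) (XT.nd (nat_lit 78) (nat_lit 380) (nat_lit 0) (XT.lf (nat_lit 0) (nat_lit 7876184226) (nat_lit 304) (nat_lit 2828977879) (nat_lit 380) (nat_lit 923755420) (nat_lit 131) (nat_lit 5) (nat_lit 135) (nat_lit 5) (nat_lit 136) (nat_lit 5) (nat_lit 477) (nat_lit 360) (nat_lit 303)) (XT.lf (nat_lit 0) (nat_lit 3463802908) (nat_lit 380) (nat_lit 6396854985) (nat_lit 76) (nat_lit 1892249522) (nat_lit 126) (nat_lit 5) (nat_lit 131) (nat_lit 5) (nat_lit 127) (nat_lit 5) (nat_lit 478) (nat_lit 360) (nat_lit 302))))))) (XT.nd (nat_lit 55146) (nat_lit 0) (nat_lit 17480) (XT.nd (nat_lit 54600) (nat_lit 0) (nat_lit 25612) (XT.nd (nat_lit 234) (nat_lit 836) (nat_lit 0) (XT.nd (nat_lit 78) (nat_lit 380) (nat_lit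 0) (XT.lf (nat_lit 0) (nat_lit 2758994742) (nat_lit 228) (nat_lit 5187645744) (nat_lit 304) (nat_lit 3932216551) (nat_lit 123) (nat_lit 5) (nat_lit 126) (nat_lit 5) (nat_lit 127) (nat_lit 5) (nat_lit 479) (nat_lit 360) (nat_lit 301)) (XT.nd (nat_lit 78) (nat_lit 0) (nat_lit 0) (XT.lf (nat_lit 0) (nat_lit 104700741) (nat_lit 304) (nat_lit 402264281) (nat_lit 380) (nat_lit 11500256805) (nat_lit 118) (nat_lit 5) (nat_lit 122) (nat_lit 5) (nat_lit 123) (nat_lit 5) (nat_lit 480) (nat_lit 360) (nat_lit 300)) (XT.lf (nat_lit 0) (nat_lit 5031163982) (nat_lit 380) (nat_lit 2626524300) (nat_lit 76) (nat_lit 4478968068) (nat_lit 118) (nat_lit 5) (nat_lit 123) (nat_lit 5) (nat_lit 119) (nat_lit 5) (nat_lit 481) (nat_lit 360) (nat_lit 299)))) (XT.nd (nat_lit 78) (nat_lit 608) (nat_lit 0) (XT.lf (nat_lit 0) (nat_lit 6852150925) (nat_lit 228) (nat_lit 2799822282) (nat_lit 304) (nat_lit 2616583832) (nat_lit 115) (nat_lit 5) (nat_lit 118) (nat_lit 5)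 (nat_lit 119) (nat_lit 5) (nat_lit 482) (nat_lit 360) (nat_lit 298)) (XT.nd (nat_lit 78) (nat_lit 228) (nat_lit 0) (XT.lf (nat_lit 0) (nat_lit 1954129333) (nat_lit 380) (nat_lit 8292584628) (nat_lit 76) (nat_lit 2155771797) (nat_lit 110) (nat_lit 5) (nat_lit 115) (nat_lit 5) (nat_lit 111) (nat_lit 5) (nat_lit 483) (nat_lit 360) (nat_lit 297)) (XT.lf (nat_lit 0) (nat_lit 1272072026) (nat_lit 228) (nat_lit 5331788662) (nat_lit 304) (nat_lit 5934433653) (nat_lit 107) (nat_lit 5) (nat_lit 110) (nat_lit 5) (nat_lit 111) (nat_lit 5) (nat_lit 484) (nat_lit 360) (nat_lit 296))))) (XT.nd (nat_lit 234) (nat_lit 2736) (nat_lit 0) (XT.nd (nat_lit 78) (nat_lit 1216) (nat_lit 0) (XT.lf (nat_lit 0) (nat_lit 176861467) (nat_lit 1900) (nat_lit 3209706016) (nat_lit 0) (nat_lit 176861467) (nat_lit 496) (nat_lit 5) (nat_lit 521) (nat_lit 4) (nat_lit 496) (nat_lit 4) (nat_lit 418) (nat_lit 361) (nat_lit 361)) (XT.nd (nat_lit 78) (nat_lit 1216) (nat_lit 0)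 (XT.lf (nat_lit 0) (nat_lit 3917977542) (nat_lit 1900) (nat_lit 1036716378) (nat_lit 0) (nat_lit 2208688028) (nat_lit 496) (nat_lit 5) (nat_lit 521) (nat_lit 4) (nat_lit 496) (nat_lit 4) (nat_lit 419) (nat_lit 361) (nat_lit 360)) (XT.lf (nat_lit 0) (nat_lit 307752359) (nat_lit 1216) (nat_lit 2763403780) (nat_lit 76) (nat_lit 4130244522) (nat_lit 480) (nat_lit 5) (nat_lit 496) (nat_lit 5) (nat_lit 481) (nat_lit 4) (nat_lit 420) (nat_lit 361) (nat_lit 359)))) (XT.nd (nat_lit 156) (nat_lit 836) (nat_lit 0) (XT.nd (nat_lit 78) (nat_lit 988) (nat_lit 0) (XT.lf (nat_lit 0) (nat_lit 2738348983) (nat_lit 912) (nat_lit 1106367971) (nat_lit 988) (nat_lit 3395909739) (nat_lit 468) (nat_lit 5) (nat_lit 480) (nat_lit 5) (nat_lit 481) (nat_lit 4) (nat_lit 421) (nat_lit 361) (nat_lit 358)) (XT.lf (nat_lit 0) (nat_lit 132780431) (nat_lit 988) (nat_lit 6240294263) (nat_lit 76) (nat_lit 908275249) (nat_lit 455) (nat_lit 5) (nat_lit 468) (nat_lit 5) (nat_lit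 456) (nat_lit 4) (nat_lit 422) (nat_lit 361) (nat_lit 357))) (XT.nd (nat_lit 78) (nat_lit 836) (nat_lit 0) (XT.lf (nat_lit 0) (nat_lit 3657000875) (nat_lit 988) (nat_lit 669525141) (nat_lit 76) (nat_lit 2996504148) (nat_lit 455) (nat_lit 5) (nat_lit 468) (nat_lit 5) (nat_lit 456) (nat_lit 4) (nat_lit 423) (nat_lit 361) (nat_lit 356)) (XT.lf (nat_lit 0) (nat_lit 5006248045) (nat_lit 836) (nat_lit 2211927760) (nat_lit 912) (nat_lit 148038784) (nat_lit 444) (nat_lit 5) (nat_lit 455) (nat_lit 5) (nat_lit 456) (nat_lit 4) (nat_lit 424) (nat_lit 361) (nat_lit 355)))))) (XT.nd (nat_lit 468) (nat_lit 3800) (nat_lit 0) (XT.nd (nat_lit 234) (nat_lit 2432) (nat_lit 0) (XT.nd (nat_lit 78) (nat_lit 912) (nat_lit 0) (XT.lf (nat_lit 0) (nat_lit 3343455639) (nat_lit 912) (nat_lit 12330458) (nat_lit 988) (nat_lit 4054817972) (nat_lit 431) (nat_lit 5) (nat_lit 443) (nat_lit 5) (nat_lit 444) (nat_lit 5) (nat_lit 425) (nat_lit 361) (nat_lit 354)) (XT.nd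 (nat_lit 78) (nat_lit 76) (nat_lit 0) (XT.lf (nat_lit 0) (nat_lit 1670467765) (nat_lit 836) (nat_lit 5233650720) (nat_lit 912) (nat_lit 552215018) (nat_lit 420) (nat_lit 5) (nat_lit 431) (nat_lit 5) (nat_lit 432) (nat_lit 4) (nat_lit 426) (nat_lit 361) (nat_lit 353)) (XT.lf (nat_lit 0) (nat_lit 2943893956) (nat_lit 912) (nat_lit 17952653) (nat_lit 76) (nat_lit 4541477350) (nat_lit 419) (nat_lit 5) (nat_lit 431) (nat_lit 5) (nat_lit 420) (nat_lit 5) (nat_lit 427) (nat_lit 361) (nat_lit 352)))) (XT.nd (nat_lit 78) (nat_lit 1596) (nat_lit 0) (XT.lf (nat_lit 0) (nat_lit 5866428920) (nat_lit 836) (nat_lit 610974615) (nat_lit 912) (nat_lit 1074280236) (nat_lit 408) (nat_lit 5) (nat_lit 419) (nat_lit 5) (nat_lit 420) (nat_lit 5) (nat_lit 428) (nat_lit 361) (nat_lit 351)) (XT.nd (nat_lit 78) (nat_lit 760) (nat_lit 0) (XT.lf (nat_lit 0) (nat_lit 2424620794) (nat_lit 836) (nat_lit 3378590037) (nat_lit 76) (nat_lit 1797946209) (nat_lit 397) (nat_lit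 5) (nat_lit 408) (nat_lit 5) (nat_lit 398) (nat_lit 5) (nat_lit 429) (nat_lit 361) (nat_lit 350)) (XT.lf (nat_lit 0) (nat_lit 2569223380) (nat_lit 760) (nat_lit 3379854065) (nat_lit 836) (nat_lit 1703001066) (nat_lit 387) (nat_lit 5) (nat_lit 397) (nat_lit 5) (nat_lit 398) (nat_lit 5) (nat_lit 430) (nat_lit 361) (nat_lit 349))))) (XT.nd (nat_lit 234) (nat_lit 2128) (nat_lit 0) (XT.nd (nat_lit 78) (nat_lit 836) (nat_lit 0) (XT.lf (nat_lit 0) (nat_lit 904418211) (nat_lit 760) (nat_lit 878326387) (nat_lit 836) (nat_lit 5921697445) (nat_lit 376) (nat_lit 5) (nat_lit 386) (nat_lit 5) (nat_lit 387) (nat_lit 5) (nat_lit 431) (nat_lit 361) (nat_lit 348)) (XT.nd (nat_lit 78) (nat_lit 836) (nat_lit 0) (XT.lf (nat_lit 0) (nat_lit 5299458719) (nat_lit 836) (nat_lit 773434211) (nat_lit 76) (nat_lit 1685053646) (nat_lit 376) (nat_lit 5) (nat_lit 387) (nat_lit 5) (nat_lit 377) (nat_lit 5) (nat_lit 432) (nat_lit 361) (nat_lit 347)) (XT.lf (nat_lit 0)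 (nat_lit 1040461824) (nat_lit 836) (nat_lit 2454289769) (nat_lit 76) (nat_lit 4318018917) (nat_lit 365) (nat_lit 5) (nat_lit 376) (nat_lit 5) (nat_lit 366) (nat_lit 5) (nat_lit 433) (nat_lit 361) (nat_lit 346)))) (XT.nd (nat_lit 156) (nat_lit 684) (nat_lit 0) (XT.nd (nat_lit 78) (nat_lit 760) (nat_lit 0) (XT.lf (nat_lit 0) (nat_lit 3714237511) (nat_lit 684) (nat_lit 831954776) (nat_lit 760) (nat_lit 3322779206) (nat_lit 356) (nat_lit 5) (nat_lit 365) (nat_lit 5) (nat_lit 366) (nat_lit 5) (nat_lit 434) (nat_lit 361) (nat_lit 345)) (XT.lf (nat_lit 0) (nat_lit 176171256) (nat_lit 760) (nat_lit 5873455528) (nat_lit 76) (nat_lit 1876984342) (nat_lit 346) (nat_lit 5) (nat_lit 356) (nat_lit 5) (nat_lit 347) (nat_lit 5) (nat_lit 435) (nat_lit 361) (nat_lit 344))) (XT.nd (nat_lit 78) (nat_lit 0) (nat_lit 0) (XT.lf (nat_lit 0) (nat_lit 359697693) (nat_lit 684) (nat_lit 3318118387) (nat_lit 760) (nat_lit 4307604053) (nat_lit 337) (nat_lit 5) (nat_lit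 346) (nat_lit 5) (nat_lit 347) (nat_lit 5) (nat_lit 436) (nat_lit 361) (nat_lit 343)) (XT.lf (nat_lit 0) (nat_lit 6723621114) (nat_lit 684) (nat_lit 507216899) (nat_lit 760) (nat_lit 814940422) (nat_lit 337) (nat_lit 5) (nat_lit 346) (nat_lit 5) (nat_lit 347) (nat_lit 5) (nat_lit 437) (nat_lit 361) (nat_lit 342))))))))
noncomputable def xc22 : XT := (XT.nd (nat_lit 2028) (nat_lit 5624) (nat_lit 0) (XT.nd (nat_lit 1014) (nat_lit 4788) (nat_lit 0) (XT.nd (nat_lit 468) (nat_lit 3496) (nat_lit 0) (XT.nd (nat_lit 234) (nat_lit 1292) (nat_lit 0) (XT.nd (nat_lit 78) (nat_lit 1292) (nat_lit 0) (XT.lf (nat_lit 0) (nat_lit 2702796683) (nat_lit 760) (nat_lit 3039549734) (nat_lit 76) (nat_lit 2364815602) (nat_lit 327) (nat_lit 5) (nat_lit 337) (nat_lit 5) (nat_lit 328) (nat_lit 5) (nat_lit 438) (nat_lit 361) (nat_lit 341)) (XT.nd (nat_lit 78) (nat_lit 684) (nat_lit 0) (XT.lf (nat_lit 0) (nat_lit 3395844619) (nat_lit 608) (nat_lit 2861724183) (nat_lit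 684) (nat_lit 1912544891) (nat_lit 319) (nat_lit 5) (nat_lit 327) (nat_lit 5) (nat_lit 328) (nat_lit 5) (nat_lit 439) (nat_lit 361) (nat_lit 340)) (XT.lf (nat_lit 0) (nat_lit 1603263609) (nat_lit 684) (nat_lit 6530169977) (nat_lit 76) (nat_lit 101161071) (nat_lit 310) (nat_lit 5) (nat_lit 319) (nat_lit 5) (nat_lit 311) (nat_lit 5) (nat_lit 440) (nat_lit 361) (nat_lit 339)))) (XT.nd (nat_lit 78) (nat_lit 1292) (nat_lit 0) (XT.lf (nat_lit 0) (nat_lit 5159037076) (nat_lit 684) (nat_lit 28315043) (nat_lit 76) (nat_lit 3112855127) (nat_lit 310) (nat_lit 5) (nat_lit 319) (nat_lit 5) (nat_lit 311) (nat_lit 5) (nat_lit 441) (nat_lit 361) (nat_lit 338)) (XT.nd (nat_lit 78) (nat_lit 608) (nat_lit 0) (XT.lf (nat_lit 0) (nat_lit 401318125) (nat_lit 684) (nat_lit 1752356915) (nat_lit 76) (nat_lit 6213642331) (nat_lit 301) (nat_lit 5) (nat_lit 310) (nat_lit 5) (nat_lit 302) (nat_lit 5) (nat_lit 442) (nat_lit 361) (nat_lit 337)) (XT.lf (nat_lit 0) (nat_lit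 3956529237) (nat_lit 684) (nat_lit 3515576077) (nat_lit 76) (nat_lit 963570454) (nat_lit 293) (nat_lit 5) (nat_lit 302) (nat_lit 5) (nat_lit 294) (nat_lit 5) (nat_lit 443) (nat_lit 361) (nat_lit 336))))) (XT.nd (nat_lit 234) (nat_lit 2280) (nat_lit 0) (XT.nd (nat_lit 78) (nat_lit 684) (nat_lit 0) (XT.lf (nat_lit 0) (nat_lit 3198761350) (nat_lit 532) (nat_lit 4376809066) (nat_lit 608) (nat_lit 929976401) (nat_lit 286) (nat_lit 5) (nat_lit 293) (nat_lit 5) (nat_lit 294) (nat_lit 5) (nat_lit 444) (nat_lit 361) (nat_lit 335)) (XT.nd (nat_lit 78) (nat_lit 0) (nat_lit 0) (XT.lf (nat_lit 0) (nat_lit 1446366795) (nat_lit 608) (nat_lit 1187757300) (nat_lit 684) (nat_lit 5942757280) (nat_lit 277) (nat_lit 5) (nat_lit 285) (nat_lit 5) (nat_lit 286) (nat_lit 5) (nat_lit 445) (nat_lit 361) (nat_lit 334)) (XT.lf (nat_lit 0) (nat_lit 6252864468) (nat_lit 684) (nat_lit 336345286) (nat_lit 76) (nat_lit 2060393723) (nat_lit 277) (nat_lit 5) (nat_lit 286)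 (nat_lit 5) (nat_lit 278) (nat_lit 5) (nat_lit 446) (nat_lit 361) (nat_lit 333)))) (XT.nd (nat_lit 156) (nat_lit 1140) (nat_lit 0) (XT.nd (nat_lit 78) (nat_lit 532) (nat_lit 0) (XT.lf (nat_lit 0) (nat_lit 1202492770) (nat_lit 608) (nat_lit 2132002900) (nat_lit 76) (nat_lit 5389159979) (nat_lit 269) (nat_lit 5) (nat_lit 277) (nat_lit 5) (nat_lit 270) (nat_lit 5) (nat_lit 447) (nat_lit 361) (nat_lit 332)) (XT.lf (nat_lit 0) (nat_lit 4823238028) (nat_lit 608) (nat_lit 3961037289) (nat_lit 76) (nat_lit 14964274) (nat_lit 262) (nat_lit 5) (nat_lit 270) (nat_lit 5) (nat_lit 263) (nat_lit 5) (nat_lit 448) (nat_lit 361) (nat_lit 331))) (XT.nd (nat_lit 78) (nat_lit 608) (nat_lit 0) (XT.lf (nat_lit 0) (nat_lit 3045112347) (nat_lit 532) (nat_lit 5475766726) (nat_lit 608) (nat_lit 355366522) (nat_lit 255) (nat_lit 5) (nat_lit 262) (nat_lit 5) (nat_lit 263) (nat_lit 5) (nat_lit 449) (nat_lit 361) (nat_lit 330)) (XT.lf (nat_lit 0) (nat_lit 1211345518)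 (nat_lit 532) (nat_lit 2065611632) (nat_lit 608) (nat_lit 5677740156) (nat_lit 247) (nat_lit 5) (nat_lit 254) (nat_lit 5) (nat_lit 255) (nat_lit 5) (nat_lit 450) (nat_lit 361) (nat_lit 329)))))) (XT.nd (nat_lit 468) (nat_lit 2736) (nat_lit 0) (XT.nd (nat_lit 234) (nat_lit 988) (nat_lit 0) (XT.nd (nat_lit 78) (nat_lit 1064) (nat_lit 0) (XT.lf (nat_lit 0) (nat_lit 6974557917) (nat_lit 608) (nat_lit 645911132) (nat_lit 76) (nat_lit 1414254243) (nat_lit 247) (nat_lit 5) (nat_lit 255) (nat_lit 5) (nat_lit 248) (nat_lit 5) (nat_lit 451) (nat_lit 361) (nat_lit 328)) (XT.nd (nat_lit 78) (nat_lit 532) (nat_lit 0) (XT.lf (nat_lit 0) (nat_lit 1614745532) (nat_lit 532) (nat_lit 2533026733) (nat_lit 76) (nat_lit 4968238718) (nat_lit 240) (nat_lit 5) (nat_lit 247) (nat_lit 5) (nat_lit 241) (nat_lit 5) (nat_lit 452) (nat_lit 361) (nat_lit 327)) (XT.lf (nat_lit 0) (nat_lit 4742253140) (nat_lit 532) (nat_lit 578508643) (nat_lit 608) (nat_lit 3878186437)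 (nat_lit 233) (nat_lit 5) (nat_lit 240) (nat_lit 5) (nat_lit 241) (nat_lit 5) (nat_lit 453) (nat_lit 361) (nat_lit 326)))) (XT.nd (nat_lit 78) (nat_lit 532) (nat_lit 0) (XT.lf (nat_lit 0) (nat_lit 2858658323) (nat_lit 456) (nat_lit 6248170511) (nat_lit 532) (nat_lit 176596757) (nat_lit 227) (nat_lit 5) (nat_lit 233) (nat_lit 5) (nat_lit 234) (nat_lit 5) (nat_lit 454) (nat_lit 361) (nat_lit 325)) (XT.nd (nat_lit 78) (nat_lit 0) (nat_lit 0) (XT.lf (nat_lit 0) (nat_lit 923261877) (nat_lit 456) (nat_lit 2619046404) (nat_lit 532) (nat_lit 5827007174) (nat_lit 220) (nat_lit 5) (nat_lit 226) (nat_lit 5) (nat_lit 227) (nat_lit 5) (nat_lit 455) (nat_lit 361) (nat_lit 324)) (XT.lf (nat_lit 0) (nat_lit 7334555636) (nat_lit 532) (nat_lit 1032733890) (nat_lit 76) (nat_lit 1089583669) (nat_lit 220) (nat_lit 5) (nat_lit 227) (nat_lit 5) (nat_lit 221) (nat_lit 5) (nat_lit 456) (nat_lit 361) (nat_lit 323))))) (XT.nd (nat_lit 234) (nat_lit 1368) (nat_lit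 0) (XT.nd (nat_lit 78) (nat_lit 836) (nat_lit 0) (XT.lf (nat_lit 0) (nat_lit 1646387880) (nat_lit 532) (nat_lit 3031786092) (nat_lit 76) (nat_lit 4867560084) (nat_lit 213) (nat_lit 5) (nat_lit 220) (nat_lit 5) (nat_lit 214) (nat_lit 5) (nat_lit 457) (nat_lit 361) (nat_lit 322)) (XT.nd (nat_lit 78) (nat_lit 380) (nat_lit 0) (XT.lf (nat_lit 0) (nat_lit 4562818890) (nat_lit 456) (nat_lit 887882486) (nat_lit 532) (nat_lit 4185617150) (nat_lit 207) (nat_lit 5) (nat_lit 213) (nat_lit 5) (nat_lit 214) (nat_lit 5) (nat_lit 458) (nat_lit 361) (nat_lit 321)) (XT.lf (nat_lit 0) (nat_lit 2563688493) (nat_lit 380) (nat_lit 6776215337) (nat_lit 456) (nat_lit 388634802) (nat_lit 202) (nat_lit 5) (nat_lit 207) (nat_lit 5) (nat_lit 208) (nat_lit 5) (nat_lit 459) (nat_lit 361) (nat_lit 320)))) (XT.nd (nat_lit 156) (nat_lit 836) (nat_lit 0) (XT.nd (nat_lit 78) (nat_lit 0) (nat_lit 0) (XT.lf (nat_lit 0) (nat_lit 505652526) (nat_lit 456) (nat_lit 2928867233)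 (nat_lit 532) (nat_lit 6387712343) (nat_lit 195) (nat_lit 5) (nat_lit 201) (nat_lit 5) (nat_lit 202) (nat_lit 5) (nat_lit 460) (nat_lit 361) (nat_lit 319)) (XT.lf (nat_lit 0) (nat_lit 7336593798) (nat_lit 532) (nat_lit 1572527277) (nat_lit 76) (nat_lit 1008473784) (nat_lit 195) (nat_lit 5) (nat_lit 202) (nat_lit 5) (nat_lit 196) (nat_lit 5) (nat_lit 461) (nat_lit 361) (nat_lit 318))) (XT.nd (nat_lit 78) (nat_lit 380) (nat_lit 0) (XT.lf (nat_lit 0) (nat_lit 1299002772) (nat_lit 456) (nat_lit 3704842317) (nat_lit 76) (nat_lit 5010566089) (nat_lit 189) (nat_lit 5) (nat_lit 195) (nat_lit 5) (nat_lit 190) (nat_lit 5) (nat_lit 462) (nat_lit 361) (nat_lit 317)) (XT.lf (nat_lit 0) (nat_lit 4224177039) (nat_lit 380) (nat_lit 989812689) (nat_lit 456) (nat_lit 4898994034) (nat_lit 184) (nat_lit 5) (nat_lit 189) (nat_lit 5) (nat_lit 190) (nat_lit 5) (nat_lit 463) (nat_lit 361) (nat_lit 316))))))) (XT.nd (nat_lit 1014) (nat_lit 1900) (nat_lit 0) (XT.nd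 (nat_lit 468) (nat_lit 1824) (nat_lit 0) (XT.nd (nat_lit 234) (nat_lit 1064) (nat_lit 0) (XT.nd (nat_lit 78) (nat_lit 456) (nat_lit 0) (XT.lf (nat_lit 0) (nat_lit 2083969439) (nat_lit 380) (nat_lit 7136157908) (nat_lit 456) (nat_lit 993143432) (nat_lit 179) (nat_lit 5) (nat_lit 184) (nat_lit 5) (nat_lit 185) (nat_lit 5) (nat_lit 464) (nat_lit 361) (nat_lit 315)) (XT.nd (nat_lit 78) (nat_lit 380) (nat_lit 0) (XT.lf (nat_lit 0) (nat_lit 2952204547) (nat_lit 456) (nat_lit 117124285) (nat_lit 76) (nat_lit 7245834225) (nat_lit 178) (nat_lit 5) (nat_lit 184) (nat_lit 5) (nat_lit 179) (nat_lit 5) (nat_lit 465) (nat_lit 361) (nat_lit 314)) (XT.lf (nat_lit 0) (nat_lit 6978056516) (nat_lit 456) (nat_lit 2342020392) (nat_lit 76) (nat_lit 1098587075) (nat_lit 173) (nat_lit 5) (nat_lit 179) (nat_lit 5) (nat_lit 174) (nat_lit 5) (nat_lit 466) (nat_lit 361) (nat_lit 313)))) (XT.nd (nat_lit 78) (nat_lit 684) (nat_lit 0) (XT.lf (nat_lit 0) (nat_lit 567774861)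 (nat_lit 380) (nat_lit 4629982817) (nat_lit 76) (nat_lit 5326105881) (nat_lit 168) (nat_lit 5) (nat_lit 173) (nat_lit 5) (nat_lit 169) (nat_lit 5) (nat_lit 467) (nat_lit 361) (nat_lit 312)) (XT.nd (nat_lit 78) (nat_lit 304) (nat_lit 0) (XT.lf (nat_lit 0) (nat_lit 3649259318) (nat_lit 380) (nat_lit 956099761) (nat_lit 456) (nat_lit 6025451120) (nat_lit 163) (nat_lit 5) (nat_lit 168) (nat_lit 5) (nat_lit 169) (nat_lit 5) (nat_lit 468) (nat_lit 361) (nat_lit 311)) (XT.lf (nat_lit 0) (nat_lit 1341735157) (nat_lit 304) (nat_lit 7399616989) (nat_lit 380) (nat_lit 1998190483) (nat_lit 159) (nat_lit 5) (nat_lit 163) (nat_lit 5) (nat_lit 164) (nat_lit 5) (nat_lit 469) (nat_lit 361) (nat_lit 310))))) (XT.nd (nat_lit 234) (nat_lit 1064) (nat_lit 0) (XT.nd (nat_lit 78) (nat_lit 684) (nat_lit 0) (XT.lf (nat_lit 0) (nat_lit 2091343476) (nat_lit 380) (nat_lit 1015190652) (nat_lit 76) (nat_lit 7743453717) (nat_lit 158) (nat_lit 5) (nat_lit 163) (nat_lit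 5) (nat_lit 159) (nat_lit 5) (nat_lit 470) (nat_lit 361) (nat_lit 309)) (XT.nd (nat_lit 78) (nat_lit 304) (nat_lit 0) (XT.lf (nat_lit 0) (nat_lit 6250230474) (nat_lit 456) (nat_lit 3419946444) (nat_lit 76) (nat_lit 1291914522) (nat_lit 153) (nat_lit 5) (nat_lit 159) (nat_lit 5) (nat_lit 154) (nat_lit 5) (nat_lit 471) (nat_lit 361) (nat_lit 308)) (XT.lf (nat_lit 0) (nat_lit 5185190874) (nat_lit 304) (nat_lit 5325191480) (nat_lit 380) (nat_lit 565693013) (nat_lit 149) (nat_lit 5) (nat_lit 153) (nat_lit 5) (nat_lit 154) (nat_lit 5) (nat_lit 472) (nat_lit 361) (nat_lit 307)))) (XT.nd (nat_lit 156) (nat_lit 380) (nat_lit 0) (XT.nd (nat_lit 78) (nat_lit 304) (nat_lit 0) (XT.lf (nat_lit 0) (nat_lit 2758762635) (nat_lit 304) (nat_lit 854701415) (nat_lit 380) (nat_lit 7578436979) (nat_lit 144) (nat_lit 5) (nat_lit 148) (nat_lit 5) (nat_lit 149) (nat_lit 5) (nat_lit 473) (nat_lit 361) (nat_lit 306)) (XT.lf (nat_lit 0) (nat_lit 256704352) (nat_lit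 304) (nat_lit 7634756122) (nat_lit 380) (nat_lit 3418051330) (nat_lit 140) (nat_lit 5) (nat_lit 144) (nat_lit 5) (nat_lit 145) (nat_lit 5) (nat_lit 474) (nat_lit 361) (nat_lit 305))) (XT.nd (nat_lit 78) (nat_lit 304) (nat_lit 0) (XT.lf (nat_lit 0) (nat_lit 834750013) (nat_lit 380) (nat_lit 2275782429) (nat_lit 76) (nat_lit 8318434449) (nat_lit 139) (nat_lit 5) (nat_lit 144) (nat_lit 5) (nat_lit 140) (nat_lit 5) (nat_lit 475) (nat_lit 361) (nat_lit 304)) (XT.lf (nat_lit 0) (nat_lit 5138472073) (nat_lit 380) (nat_lit 4888010575) (nat_lit 76) (nat_lit 1523643919) (nat_lit 135) (nat_lit 5) (nat_lit 140) (nat_lit 5) (nat_lit 136) (nat_lit 5) (nat_lit 476) (nat_lit 361) (nat_lit 303)))))) (XT.nd (nat_lit 468) (nat_lit 380) (nat_lit 0) (XT.nd (nat_lit 234) (nat_lit 836) (nat_lit 0) (XT.nd (nat_lit 78) (nat_lit 380) (nat_lit 0) (XT.lf (nat_lit 0) (nat_lit 4099777074) (nat_lit 304) (nat_lit 5449520008) (nat_lit 380) (nat_lit 2123991784) (nat_lit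 131) (nat_lit 5) (nat_lit 135) (nat_lit 5) (nat_lit 136) (nat_lit 5) (nat_lit 477) (nat_lit 361) (nat_lit 302)) (XT.nd (nat_lit 78) (nat_lit 0) (nat_lit 0) (XT.lf (nat_lit 0) (nat_lit 1470177460) (nat_lit 304) (nat_lit 750840283) (nat_lit 380) (nat_lit 9577582670) (nat_lit 126) (nat_lit 5) (nat_lit 130) (nat_lit 5) (nat_lit 131) (nat_lit 5) (nat_lit 478) (nat_lit 361) (nat_lit 301)) (XT.lf (nat_lit 0) (nat_lit 6660628317) (nat_lit 380) (nat_lit 1238429855) (nat_lit 76) (nat_lit 4026356403) (nat_lit 126) (nat_lit 5) (nat_lit 131) (nat_lit 5) (nat_lit 127) (nat_lit 5) (nat_lit 479) (nat_lit 361) (nat_lit 300)))) (XT.nd (nat_lit 78) (nat_lit 608) (nat_lit 0) (XT.lf (nat_lit 0) (nat_lit 8065758168) (nat_lit 228) (nat_lit 3140136746) (nat_lit 304) (nat_lit 848532832) (nat_lit 123) (nat_lit 5) (nat_lit 126) (nat_lit 5) (nat_lit 127) (nat_lit 5) (nat_lit 480) (nat_lit 361) (nat_lit 299)) (XT.nd (nat_lit 78) (nat_lit 228) (nat_lit 0) (XT.lf (nat_lit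 0) (nat_lit 3622293562) (nat_lit 380) (nat_lit 6831849167) (nat_lit 76) (nat_lit 1731119750) (nat_lit 118) (nat_lit 5) (nat_lit 123) (nat_lit 5) (nat_lit 119) (nat_lit 5) (nat_lit 481) (nat_lit 361) (nat_lit 298)) (XT.lf (nat_lit 0) (nat_lit 2556492046) (nat_lit 228) (nat_lit 5638808600) (nat_lit 304) (nat_lit 4122818564) (nat_lit 115) (nat_lit 5) (nat_lit 118) (nat_lit 5) (nat_lit 119) (nat_lit 5) (nat_lit 482) (nat_lit 361) (nat_lit 297))))) (XT.nd (nat_lit 54210) (nat_lit 0) (nat_lit 28120) (XT.nd (nat_lit 78) (nat_lit 304) (nat_lit 0) (XT.lf (nat_lit 0) (nat_lit 406816853) (nat_lit 304) (nat_lit 299202000) (nat_lit 76) (nat_lit 11747441312) (nat_lit 114) (nat_lit 5) (nat_lit 118) (nat_lit 5) (nat_lit 115) (nat_lit 5) (nat_lit 483) (nat_lit 361) (nat_lit 296)) (XT.nd (nat_lit 54054) (nat_lit 0) (nat_lit 32984) (XT.lf (nat_lit 0) (nat_lit 5021930700) (nat_lit 380) (nat_lit 3238222180) (nat_lit 76) (nat_lit 4329808218) (nat_lit 110)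 (nat_lit 5) (nat_lit 115) (nat_lit 5) (nat_lit 111) (nat_lit 5) (nat_lit 484) (nat_lit 361) (nat_lit 295)) (XT.lf (nat_lit 0) (nat_lit 1056792903) (nat_lit 1748) (nat_lit 1414615098) (nat_lit 0) (nat_lit 1056792903) (nat_lit 544) (nat_lit 5) (nat_lit 567) (nat_lit 4) (nat_lit 544) (nat_lit 4) (nat_lit 416) (nat_lit 362) (nat_lit 362)))) (XT.nd (nat_lit 156) (nat_lit 1216) (nat_lit 0) (XT.nd (nat_lit 78) (nat_lit 1900) (nat_lit 0) (XT.lf (nat_lit 0) (nat_lit 2446038810) (nat_lit 1748) (nat_lit 3211759398) (nat_lit 1748) (nat_lit 1433414588) (nat_lit 521) (nat_lit 4) (nat_lit 544) (nat_lit 5) (nat_lit 544) (nat_lit 4) (nat_lit 417) (nat_lit 362) (nat_lit 361)) (XT.lf (nat_lit 0) (nat_lit 662555612) (nat_lit 1824) (nat_lit 1408917519) (nat_lit 1900) (nat_lit 5055899270) (nat_lit 496) (nat_lit 5) (nat_lit 520) (nat_lit 5) (nat_lit 521) (nat_lit 4) (nat_lit 418) (nat_lit 362) (nat_lit 360))) (XT.nd (nat_lit 78) (nat_lit 1216) (nat_lit 0) (XT.lf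 (nat_lit 0) (nat_lit 5592391158) (nat_lit 1900) (nat_lit 1108519716) (nat_lit 0) (nat_lit 463852308) (nat_lit 496) (nat_lit 5) (nat_lit 521) (nat_lit 4) (nat_lit 496) (nat_lit 4) (nat_lit 419) (nat_lit 362) (nat_lit 359)) (XT.lf (nat_lit 0) (nat_lit 1924395753) (nat_lit 1216) (nat_lit 2884175147) (nat_lit 76) (nat_lit 2394682684) (nat_lit 480) (nat_lit 5) (nat_lit 496) (nat_lit 5) (nat_lit 481) (nat_lit 4) (nat_lit 420) (nat_lit 362) (nat_lit 358))))))))
noncomputable def xc23 : XT := (XT.nd (nat_lit 2028) (nat_lit 9804) (nat_lit 0) (XT.nd (nat_lit 1014) (nat_lit 6688) (nat_lit 0) (XT.nd (nat_lit 468) (nat_lit 4104) (nat_lit 0) (XT.nd (nat_lit 234) (nat_lit 2736) (nat_lit 0) (XT.nd (nat_lit 78) (nat_lit 988) (nat_lit 0) (XT.lf (nat_lit 0) (nat_lit 2580444105) (nat_lit 912) (nat_lit 2846585775) (nat_lit 988) (nat_lit 1816136345) (nat_lit 468) (nat_lit 5) (nat_lit 480) (nat_lit 5) (nat_lit 481) (nat_lit 4) (nat_lit 421) (nat_lit 362) (nat_lit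 357)) (XT.nd (nat_lit 78) (nat_lit 0) (nat_lit 0) (XT.lf (nat_lit 0) (nat_lit 838440350) (nat_lit 912) (nat_lit 812967792) (nat_lit 988) (nat_lit 5633084727) (nat_lit 455) (nat_lit 5) (nat_lit 467) (nat_lit 5) (nat_lit 468) (nat_lit 5) (nat_lit 422) (nat_lit 362) (nat_lit 356)) (XT.lf (nat_lit 0) (nat_lit 5137660258) (nat_lit 988) (nat_lit 905682874) (nat_lit 76) (nat_lit 1283589326) (nat_lit 455) (nat_lit 5) (nat_lit 468) (nat_lit 5) (nat_lit 456) (nat_lit 4) (nat_lit 423) (nat_lit 362) (nat_lit 355)))) (XT.nd (nat_lit 78) (nat_lit 1824) (nat_lit 0) (XT.lf (nat_lit 0) (nat_lit 1277235055) (nat_lit 912) (nat_lit 2647687580) (nat_lit 76) (nat_lit 3445702846) (nat_lit 443) (nat_lit 5) (nat_lit 455) (nat_lit 5) (nat_lit 444) (nat_lit 5) (nat_lit 424) (nat_lit 362) (nat_lit 354)) (XT.nd (nat_lit 78) (nat_lit 912) (nat_lit 0) (XT.lf (nat_lit 0) (nat_lit 3015298128) (nat_lit 912) (nat_lit 1729833842) (nat_lit 988) (nat_lit 2670543496) (nat_lit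 431) (nat_lit 5) (nat_lit 443) (nat_lit 5) (nat_lit 444) (nat_lit 5) (nat_lit 425) (nat_lit 362) (nat_lit 353)) (XT.lf (nat_lit 0) (nat_lit 775864340) (nat_lit 912) (nat_lit 6159318199) (nat_lit 76) (nat_lit 527019964) (nat_lit 419) (nat_lit 5) (nat_lit 431) (nat_lit 5) (nat_lit 420) (nat_lit 5) (nat_lit 426) (nat_lit 362) (nat_lit 352))))) (XT.nd (nat_lit 234) (nat_lit 2432) (nat_lit 0) (XT.nd (nat_lit 78) (nat_lit 1672) (nat_lit 0) (XT.lf (nat_lit 0) (nat_lit 4233432363) (nat_lit 912) (nat_lit 430719168) (nat_lit 76) (nat_lit 2845595693) (nat_lit 419) (nat_lit 5) (nat_lit 431) (nat_lit 5) (nat_lit 420) (nat_lit 5) (nat_lit 427) (nat_lit 362) (nat_lit 351)) (XT.nd (nat_lit 78) (nat_lit 760) (nat_lit 0) (XT.lf (nat_lit 0) (nat_lit 172242404) (nat_lit 912) (nat_lit 2147229522) (nat_lit 76) (nat_lit 5239285064) (nat_lit 407) (nat_lit 5) (nat_lit 419) (nat_lit 5) (nat_lit 408) (nat_lit 5) (nat_lit 428) (nat_lit 362) (nat_lit 350)) (XT.lf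 (nat_lit 0) (nat_lit 3612128475) (nat_lit 836) (nat_lit 3885954039) (nat_lit 76) (nat_lit 110906758) (nat_lit 397) (nat_lit 5) (nat_lit 408) (nat_lit 5) (nat_lit 398) (nat_lit 5) (nat_lit 429) (nat_lit 362) (nat_lit 349)))) (XT.nd (nat_lit 156) (nat_lit 836) (nat_lit 0) (XT.nd (nat_lit 78) (nat_lit 836) (nat_lit 0) (XT.lf (nat_lit 0) (nat_lit 2019101478) (nat_lit 760) (nat_lit 5083741842) (nat_lit 836) (nat_lit 557742258) (nat_lit 387) (nat_lit 5) (nat_lit 397) (nat_lit 5) (nat_lit 398) (nat_lit 5) (nat_lit 430) (nat_lit 362) (nat_lit 348)) (XT.lf (nat_lit 0) (nat_lit 294648351) (nat_lit 760) (nat_lit 2584370618) (nat_lit 836) (nat_lit 4834460710) (nat_lit 376) (nat_lit 5) (nat_lit 386) (nat_lit 5) (nat_lit 387) (nat_lit 5) (nat_lit 431) (nat_lit 362) (nat_lit 347))) (XT.nd (nat_lit 78) (nat_lit 836) (nat_lit 0) (XT.lf (nat_lit 0) (nat_lit 6350577154) (nat_lit 760) (nat_lit 4422947) (nat_lit 836) (nat_lit 1412798770) (nat_lit 376) (nat_lit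 5) (nat_lit 386) (nat_lit 5) (nat_lit 387) (nat_lit 5) (nat_lit 432) (nat_lit 362) (nat_lit 346)) (XT.lf (nat_lit 0) (nat_lit 2038614772) (nat_lit 836) (nat_lit 3159485890) (nat_lit 76) (nat_lit 2625062793) (nat_lit 365) (nat_lit 5) (nat_lit 376) (nat_lit 5) (nat_lit 366) (nat_lit 5) (nat_lit 433) (nat_lit 362) (nat_lit 345)))))) (XT.nd (nat_lit 468) (nat_lit 3192) (nat_lit 0) (XT.nd (nat_lit 234) (nat_lit 2052) (nat_lit 0) (XT.nd (nat_lit 78) (nat_lit 760) (nat_lit 0) (XT.lf (nat_lit 0) (nat_lit 2963724284) (nat_lit 684) (nat_lit 2546797603) (nat_lit 760) (nat_lit 2369519018) (nat_lit 356) (nat_lit 5) (nat_lit 365) (nat_lit 5) (nat_lit 366) (nat_lit 5) (nat_lit 434) (nat_lit 362) (nat_lit 344)) (XT.nd (nat_lit 78) (nat_lit 0) (nat_lit 0) (XT.lf (nat_lit 0) (nat_lit 1071670415) (nat_lit 760) (nat_lit 6687982578) (nat_lit 76) (nat_lit 178808937) (nat_lit 346) (nat_lit 5) (nat_lit 356) (nat_lit 5) (nat_lit 347) (nat_lit 5) (nat_lit 435)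 (nat_lit 362) (nat_lit 343)) (XT.lf (nat_lit 0) (nat_lit 4542468708) (nat_lit 760) (nat_lit 495460230) (nat_lit 76) (nat_lit 2959958930) (nat_lit 346) (nat_lit 5) (nat_lit 356) (nat_lit 5) (nat_lit 347) (nat_lit 5) (nat_lit 436) (nat_lit 362) (nat_lit 342)))) (XT.nd (nat_lit 78) (nat_lit 1292) (nat_lit 0) (XT.lf (nat_lit 0) (nat_lit 5104427) (nat_lit 760) (nat_lit 2232706936) (nat_lit 76) (nat_lit 5821063002) (nat_lit 336) (nat_lit 5) (nat_lit 346) (nat_lit 5) (nat_lit 337) (nat_lit 5) (nat_lit 437) (nat_lit 362) (nat_lit 341)) (XT.nd (nat_lit 78) (nat_lit 608) (nat_lit 0) (XT.lf (nat_lit 0) (nat_lit 3466790050) (nat_lit 760) (nat_lit 4005758522) (nat_lit 76) (nat_lit 648510823) (nat_lit 327) (nat_lit 5) (nat_lit 337) (nat_lit 5) (nat_lit 328) (nat_lit 5) (nat_lit 438) (nat_lit 362) (nat_lit 340)) (XT.lf (nat_lit 0) (nat_lit 2380707008) (nat_lit 608) (nat_lit 4606718042) (nat_lit 684) (nat_lit 1197268761) (nat_lit 319) (nat_lit 5) (nat_lit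 327) (nat_lit 5) (nat_lit 328) (nat_lit 5) (nat_lit 439) (nat_lit 362) (nat_lit 339))))) (XT.nd (nat_lit 234) (nat_lit 1824) (nat_lit 0) (XT.nd (nat_lit 78) (nat_lit 684) (nat_lit 0) (XT.lf (nat_lit 0) (nat_lit 620775443) (nat_lit 608) (nat_lit 1653261474) (nat_lit 684) (nat_lit 5975747414) (nat_lit 310) (nat_lit 5) (nat_lit 318) (nat_lit 5) (nat_lit 319) (nat_lit 5) (nat_lit 440) (nat_lit 362) (nat_lit 338)) (XT.nd (nat_lit 78) (nat_lit 684) (nat_lit 0) (XT.lf (nat_lit 0) (nat_lit 5791912651) (nat_lit 684) (nat_lit 1152417504) (nat_lit 76) (nat_lit 1371824719) (nat_lit 310) (nat_lit 5) (nat_lit 319) (nat_lit 5) (nat_lit 311) (nat_lit 5) (nat_lit 441) (nat_lit 362) (nat_lit 337)) (XT.lf (nat_lit 0) (nat_lit 975669435) (nat_lit 684) (nat_lit 2947570329) (nat_lit 76) (nat_lit 4460634835) (nat_lit 301) (nat_lit 5) (nat_lit 310) (nat_lit 5) (nat_lit 302) (nat_lit 5) (nat_lit 442) (nat_lit 362) (nat_lit 336)))) (XT.nd (nat_lit 156) (nat_lit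 684) (nat_lit 0) (XT.nd (nat_lit 78) (nat_lit 532) (nat_lit 0) (XT.lf (nat_lit 0) (nat_lit 3679586061) (nat_lit 608) (nat_lit 810348078) (nat_lit 684) (nat_lit 3963117785) (nat_lit 293) (nat_lit 5) (nat_lit 301) (nat_lit 5) (nat_lit 302) (nat_lit 5) (nat_lit 443) (nat_lit 362) (nat_lit 335)) (XT.lf (nat_lit 0) (nat_lit 1893367237) (nat_lit 532) (nat_lit 6175593616) (nat_lit 608) (nat_lit 454762409) (nat_lit 286) (nat_lit 5) (nat_lit 293) (nat_lit 5) (nat_lit 294) (nat_lit 5) (nat_lit 444) (nat_lit 362) (nat_lit 334))) (XT.nd (nat_lit 78) (nat_lit 0) (nat_lit 0) (XT.lf (nat_lit 0) (nat_lit 65846695) (nat_lit 608) (nat_lit 3002131163) (nat_lit 684) (nat_lit 5527720809) (nat_lit 277) (nat_lit 5) (nat_lit 285) (nat_lit 5) (nat_lit 286) (nat_lit 5) (nat_lit 445) (nat_lit 362) (nat_lit 333)) (XT.lf (nat_lit 0) (nat_lit 6648993447) (nat_lit 684) (nat_lit 1759880721) (nat_lit 76) (nat_lit 260301097) (nat_lit 277) (nat_lit 5) (nat_lit 286) (nat_lit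 5) (nat_lit 278) (nat_lit 5) (nat_lit 446) (nat_lit 362) (nat_lit 332))))))) (XT.nd (nat_lit 1014) (nat_lit 4104) (nat_lit 0) (XT.nd (nat_lit 468) (nat_lit 2888) (nat_lit 0) (XT.nd (nat_lit 234) (nat_lit 1140) (nat_lit 0) (XT.nd (nat_lit 78) (nat_lit 1064) (nat_lit 0) (XT.lf (nat_lit 0) (nat_lit 1538845967) (nat_lit 608) (nat_lit 3632683140) (nat_lit 76) (nat_lit 3572354740) (nat_lit 269) (nat_lit 5) (nat_lit 277) (nat_lit 5) (nat_lit 270) (nat_lit 5) (nat_lit 447) (nat_lit 362) (nat_lit 331)) (XT.nd (nat_lit 78) (nat_lit 532) (nat_lit 0) (XT.lf (nat_lit 0) (nat_lit 3281831795) (nat_lit 532) (nat_lit 1842223975) (nat_lit 608) (nat_lit 3696122729) (nat_lit 262) (nat_lit 5) (nat_lit 269) (nat_lit 5) (nat_lit 270) (nat_lit 5) (nat_lit 448) (nat_lit 362) (nat_lit 330)) (XT.lf (nat_lit 0) (nat_lit 1422908025) (nat_lit 532) (nat_lit 7351167115) (nat_lit 608) (nat_lit 124061796) (nat_lit 255) (nat_lit 5) (nat_lit 262) (nat_lit 5) (nat_lit 263)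 (nat_lit 5) (nat_lit 449) (nat_lit 362) (nat_lit 329)))) (XT.nd (nat_lit 78) (nat_lit 1064) (nat_lit 0) (XT.lf (nat_lit 0) (nat_lit 3472333657) (nat_lit 608) (nat_lit 485817837) (nat_lit 76) (nat_lit 5019065010) (nat_lit 254) (nat_lit 5) (nat_lit 262) (nat_lit 5) (nat_lit 255) (nat_lit 5) (nat_lit 450) (nat_lit 362) (nat_lit 328)) (XT.nd (nat_lit 78) (nat_lit 532) (nat_lit 0) (XT.lf (nat_lit 0) (nat_lit 6659238764) (nat_lit 532) (nat_lit 473426078) (nat_lit 608) (nat_lit 1925323038) (nat_lit 247) (nat_lit 5) (nat_lit 254) (nat_lit 5) (nat_lit 255) (nat_lit 5) (nat_lit 451) (nat_lit 362) (nat_lit 327)) (XT.lf (nat_lit 0) (nat_lit 1708391844) (nat_lit 532) (nat_lit 4366342665) (nat_lit 76) (nat_lit 3065312105) (nat_lit 240) (nat_lit 5) (nat_lit 247) (nat_lit 5) (nat_lit 241) (nat_lit 5) (nat_lit 452) (nat_lit 362) (nat_lit 326))))) (XT.nd (nat_lit 234) (nat_lit 1824) (nat_lit 0) (XT.nd (nat_lit 78) (nat_lit 532) (nat_lit 0) (XT.lf (nat_lit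 0) (nat_lit 2848846898) (nat_lit 532) (nat_lit 2529007606) (nat_lit 608) (nat_lit 3845860418) (nat_lit 233) (nat_lit 5) (nat_lit 240) (nat_lit 5) (nat_lit 241) (nat_lit 5) (nat_lit 453) (nat_lit 362) (nat_lit 325)) (XT.nd (nat_lit 78) (nat_lit 76) (nat_lit 0) (XT.lf (nat_lit 0) (nat_lit 891920473) (nat_lit 456) (nat_lit 8222484213) (nat_lit 532) (nat_lit 194777945) (nat_lit 227) (nat_lit 5) (nat_lit 233) (nat_lit 5) (nat_lit 234) (nat_lit 5) (nat_lit 454) (nat_lit 362) (nat_lit 324)) (XT.lf (nat_lit 0) (nat_lit 3494373340) (nat_lit 532) (nat_lit 1116744225) (nat_lit 76) (nat_lit 4784557136) (nat_lit 226) (nat_lit 5) (nat_lit 233) (nat_lit 5) (nat_lit 227) (nat_lit 5) (nat_lit 455) (nat_lit 362) (nat_lit 323)))) (XT.nd (nat_lit 156) (nat_lit 836) (nat_lit 0) (XT.nd (nat_lit 78) (nat_lit 532) (nat_lit 0) (XT.lf (nat_lit 0) (nat_lit 6341317115) (nat_lit 456) (nat_lit 907031927) (nat_lit 532) (nat_lit 2235648831) (nat_lit 220) (nat_lit 5)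 (nat_lit 226) (nat_lit 5) (nat_lit 227) (nat_lit 5) (nat_lit 456) (nat_lit 362) (nat_lit 322)) (XT.lf (nat_lit 0) (nat_lit 1490930403) (nat_lit 532) (nat_lit 5226226478) (nat_lit 76) (nat_lit 2856588819) (nat_lit 213) (nat_lit 5) (nat_lit 220) (nat_lit 5) (nat_lit 214) (nat_lit 5) (nat_lit 457) (nat_lit 362) (nat_lit 321))) (XT.nd (nat_lit 78) (nat_lit 380) (nat_lit 0) (XT.lf (nat_lit 0) (nat_lit 2303682927) (nat_lit 456) (nat_lit 2953608503) (nat_lit 532) (nat_lit 4407797791) (nat_lit 207) (nat_lit 5) (nat_lit 213) (nat_lit 5) (nat_lit 214) (nat_lit 5) (nat_lit 458) (nat_lit 362) (nat_lit 320)) (XT.lf (nat_lit 0) (nat_lit 223278508) (nat_lit 380) (nat_lit 8871477048) (nat_lit 456) (nat_lit 663588537) (nat_lit 202) (nat_lit 5) (nat_lit 207) (nat_lit 5) (nat_lit 208) (nat_lit 5) (nat_lit 459) (nat_lit 362) (nat_lit 319)))))) (XT.nd (nat_lit 546) (nat_lit 1900) (nat_lit 0) (XT.nd (nat_lit 234) (nat_lit 1216) (nat_lit 0) (XT.nd (nat_lit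 78) (nat_lit 912) (nat_lit 0) (XT.lf (nat_lit 0) (nat_lit 3136832979) (nat_lit 456) (nat_lit 1904704643) (nat_lit 76) (nat_lit 4811062426) (nat_lit 201) (nat_lit 5) (nat_lit 207) (nat_lit 5) (nat_lit 202) (nat_lit 5) (nat_lit 460) (nat_lit 362) (nat_lit 318)) (XT.nd (nat_lit 78) (nat_lit 456) (nat_lit 0) (XT.lf (nat_lit 0) (nat_lit 5881102303) (nat_lit 456) (nat_lit 1115807413) (nat_lit 532) (nat_lit 2951893036) (nat_lit 195) (nat_lit 5) (nat_lit 201) (nat_lit 5) (nat_lit 202) (nat_lit 5) (nat_lit 461) (nat_lit 362) (nat_lit 317)) (XT.lf (nat_lit 0) (nat_lit 886365540) (nat_lit 456) (nat_lit 6290460459) (nat_lit 76) (nat_lit 2869773425) (nat_lit 189) (nat_lit 5) (nat_lit 195) (nat_lit 5) (nat_lit 190) (nat_lit 5) (nat_lit 462) (nat_lit 362) (nat_lit 316)))) (XT.nd (nat_lit 156) (nat_lit 836) (nat_lit 0) (XT.nd (nat_lit 78) (nat_lit 0) (nat_lit 0) (XT.lf (nat_lit 0) (nat_lit 1568920437) (nat_lit 380) (nat_lit 3192799543) (nat_lit 456)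 (nat_lit 5384244679) (nat_lit 184) (nat_lit 5) (nat_lit 189) (nat_lit 5) (nat_lit 190) (nat_lit 5) (nat_lit 463) (nat_lit 362) (nat_lit 315)) (XT.lf (nat_lit 0) (nat_lit 8717764977) (nat_lit 456) (nat_lit 652244703) (nat_lit 76) (nat_lit 877243848) (nat_lit 184) (nat_lit 5) (nat_lit 190) (nat_lit 5) (nat_lit 185) (nat_lit 5) (nat_lit 464) (nat_lit 362) (nat_lit 314))) (XT.nd (nat_lit 78) (nat_lit 380) (nat_lit 0) (XT.lf (nat_lit 0) (nat_lit 2396380353) (nat_lit 456) (nat_lit 2927577545) (nat_lit 76) (nat_lit 5025787821) (nat_lit 178) (nat_lit 5) (nat_lit 184) (nat_lit 5) (nat_lit 179) (nat_lit 5) (nat_lit 465) (nat_lit 362) (nat_lit 313)) (XT.lf (nat_lit 0) (nat_lit 5201430050) (nat_lit 380) (nat_lit 1173100403) (nat_lit 456) (nat_lit 4079670229) (nat_lit 173) (nat_lit 5) (nat_lit 178) (nat_lit 5) (nat_lit 179) (nat_lit 5) (nat_lit 466) (nat_lit 362) (nat_lit 312))))) (XT.nd (nat_lit 234) (nat_lit 1140) (nat_lit 0) (XT.nd (nat_lit 78)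 (nat_lit 456) (nat_lit 0) (XT.lf (nat_lit 0) (nat_lit 2921067651) (nat_lit 304) (nat_lit 7526087191) (nat_lit 380) (nat_lit 113291677) (nat_lit 169) (nat_lit 5) (nat_lit 173) (nat_lit 5) (nat_lit 174) (nat_lit 5) (nat_lit 467) (nat_lit 362) (nat_lit 311)) (XT.nd (nat_lit 78) (nat_lit 0) (nat_lit 0) (XT.lf (nat_lit 0) (nat_lit 565646103) (nat_lit 380) (nat_lit 3318536591) (nat_lit 456) (nat_lit 6784057091) (nat_lit 163) (nat_lit 5) (nat_lit 168) (nat_lit 5) (nat_lit 169) (nat_lit 5) (nat_lit 468) (nat_lit 362) (nat_lit 310)) (XT.lf (nat_lit 0) (nat_lit 7974667623) (nat_lit 456) (nat_lit 1816193449) (nat_lit 76) (nat_lit 987021303) (nat_lit 163) (nat_lit 5) (nat_lit 169) (nat_lit 5) (nat_lit 164) (nat_lit 5) (nat_lit 469) (nat_lit 362) (nat_lit 309)))) (XT.nd (nat_lit 156) (nat_lit 380) (nat_lit 0) (XT.nd (nat_lit 78) (nat_lit 380) (nat_lit 0) (XT.lf (nat_lit 0) (nat_lit 1263447881) (nat_lit 380) (nat_lit 4265212175) (nat_lit 76) (nat_lit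 5360440658) (nat_lit 158) (nat_lit 5) (nat_lit 163) (nat_lit 5) (nat_lit 159) (nat_lit 5) (nat_lit 470) (nat_lit 362) (nat_lit 308)) (XT.lf (nat_lit 0) (nat_lit 4223146187) (nat_lit 380) (nat_lit 1148101874) (nat_lit 456) (nat_lit 5630977986) (nat_lit 153) (nat_lit 5) (nat_lit 158) (nat_lit 5) (nat_lit 159) (nat_lit 5) (nat_lit 471) (nat_lit 362) (nat_lit 307))) (XT.nd (nat_lit 78) (nat_lit 76) (nat_lit 0) (XT.lf (nat_lit 0) (nat_lit 1754404826) (nat_lit 304) (nat_lit 7826391733) (nat_lit 380) (nat_lit 1536425482) (nat_lit 149) (nat_lit 5) (nat_lit 153) (nat_lit 5) (nat_lit 154) (nat_lit 5) (nat_lit 472) (nat_lit 362) (nat_lit 306)) (XT.lf (nat_lit 0) (nat_lit 2616729286) (nat_lit 380) (nat_lit 777212903) (nat_lit 76) (nat_lit 7840006238) (nat_lit 148) (nat_lit 5) (nat_lit 153) (nat_lit 5) (nat_lit 149) (nat_lit 5) (nat_lit 473) (nat_lit 362) (nat_lit 305))))))))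
noncomputable def xc24 : XT := (XT.nd (nat_lit 55848) (nat_lit 0) (nat_lit 9348) (XT.nd (nat_lit 54834) (nat_lit 0) (nat_lit 22572) (XT.nd (nat_lit 468) (nat_lit 1216) (nat_lit 0) (XT.nd (nat_lit 234) (nat_lit 684) (nat_lit 0) (XT.nd (nat_lit 78) (nat_lit 684) (nat_lit 0) (XT.lf (nat_lit 0) (nat_lit 6850705098) (nat_lit 380) (nat_lit 3352861348) (nat_lit 76) (nat_lit 1148873169) (nat_lit 144) (nat_lit 5) (nat_lit 149) (nat_lit 5) (nat_lit 145) (nat_lit 5) (nat_lit 474) (nat_lit 362) (nat_lit 304)) (XT.nd (nat_lit 78) (nat_lit 380) (nat_lit 0) (XT.lf (nat_lit 0) (nat_lit 5470622719) (nat_lit 304) (nat_lit 5720948631) (nat_lit 380) (nat_lit 281285056) (nat_lit 140) (nat_lit 5) (nat_lit 144) (nat_lit 5) (nat_lit 145) (nat_lit 5) (nat_lit 475) (nat_lit 362) (nat_lit 303)) (XT.lf (nat_lit 0) (nat_lit 2864128324) (nat_lit 304) (nat_lit 1106982588) (nat_lit 380) (nat_lit 7624041999) (nat_lit 135) (nat_lit 5) (nat_lit 139) (nat_lit 5) (nat_lit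 140) (nat_lit 5) (nat_lit 476) (nat_lit 362) (nat_lit 302)))) (XT.nd (nat_lit 78) (nat_lit 380) (nat_lit 0) (XT.lf (nat_lit 0) (nat_lit 178790315) (nat_lit 304) (nat_lit 8150328712) (nat_lit 380) (nat_lit 3390252521) (nat_lit 131) (nat_lit 5) (nat_lit 135) (nat_lit 5) (nat_lit 136) (nat_lit 5) (nat_lit 477) (nat_lit 362) (nat_lit 301)) (XT.nd (nat_lit 78) (nat_lit 304) (nat_lit 0) (XT.lf (nat_lit 0) (nat_lit 941692419) (nat_lit 380) (nat_lit 2541733310) (nat_lit 76) (nat_lit 8362015230) (nat_lit 130) (nat_lit 5) (nat_lit 135) (nat_lit 5) (nat_lit 131) (nat_lit 5) (nat_lit 478) (nat_lit 362) (nat_lit 300)) (XT.lf (nat_lit 0) (nat_lit 5326690500) (nat_lit 380) (nat_lit 5347310892) (nat_lit 76) (nat_lit 1299345981) (nat_lit 126) (nat_lit 5) (nat_lit 131) (nat_lit 5) (nat_lit 127) (nat_lit 5) (nat_lit 479) (nat_lit 362) (nat_lit 299))))) (XT.nd (nat_lit 234) (nat_lit 608) (nat_lit 0) (XT.nd (nat_lit 78) (nat_lit 380) (nat_lit 0) (XT.lf (nat_lit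 0) (nat_lit 3868625609) (nat_lit 228) (nat_lit 5956435756) (nat_lit 304) (nat_lit 2278237092) (nat_lit 123) (nat_lit 5) (nat_lit 126) (nat_lit 5) (nat_lit 127) (nat_lit 5) (nat_lit 480) (nat_lit 362) (nat_lit 298)) (XT.nd (nat_lit 78) (nat_lit 0) (nat_lit 0) (XT.lf (nat_lit 0) (nat_lit 1038316294) (nat_lit 304) (nat_lit 1113939890) (nat_lit 380) (nat_lit 10083244337) (nat_lit 118) (nat_lit 5) (nat_lit 122) (nat_lit 5) (nat_lit 123) (nat_lit 5) (nat_lit 481) (nat_lit 362) (nat_lit 297)) (XT.lf (nat_lit 0) (nat_lit 6681910945) (nat_lit 380) (nat_lit 1868468522) (nat_lit 76) (nat_lit 3818844831) (nat_lit 118) (nat_lit 5) (nat_lit 123) (nat_lit 5) (nat_lit 119) (nat_lit 5) (nat_lit 482) (nat_lit 362) (nat_lit 296)))) (XT.nd (nat_lit 53976) (nat_lit 0) (nat_lit 34656) (XT.nd (nat_lit 78) (nat_lit 380) (nat_lit 0) (XT.lf (nat_lit 0) (nat_lit 7674086767) (nat_lit 228) (nat_lit 3646614264) (nat_lit 304) (nat_lit 1184550676) (nat_lit 115) (nat_lit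 5) (nat_lit 118) (nat_lit 5) (nat_lit 119) (nat_lit 5) (nat_lit 483) (nat_lit 362) (nat_lit 295)) (XT.lf (nat_lit 0) (nat_lit 3377588607) (nat_lit 380) (nat_lit 7889265409) (nat_lit 76) (nat_lit 1376422645) (nat_lit 110) (nat_lit 5) (nat_lit 115) (nat_lit 5) (nat_lit 111) (nat_lit 5) (nat_lit 484) (nat_lit 362) (nat_lit 294))) (XT.nd (nat_lit 78) (nat_lit 76) (nat_lit 0) (XT.lf (nat_lit 0) (nat_lit 420775588) (nat_lit 1596) (nat_lit 1537116479) (nat_lit 1596) (nat_lit 1537116479) (nat_lit 567) (nat_lit 4) (nat_lit 588) (nat_lit 5) (nat_lit 588) (nat_lit 4) (nat_lit 414) (nat_lit 363) (nat_lit 363)) (XT.lf (nat_lit 0) (nat_lit 415257040) (nat_lit 1672) (nat_lit 1011370717) (nat_lit 76) (nat_lit 5596396078) (nat_lit 566) (nat_lit 5) (nat_lit 588) (nat_lit 5) (nat_lit 567) (nat_lit 4) (nat_lit 415) (nat_lit 363) (nat_lit 362)))))) (XT.nd (nat_lit 468) (nat_lit 4636) (nat_lit 0) (XT.nd (nat_lit 234) (nat_lit 2128) (nat_lit 0) (XT.nd (nat_lit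 78) (nat_lit 3648) (nat_lit 0) (XT.lf (nat_lit 0) (nat_lit 3892629281) (nat_lit 1748) (nat_lit 2864097126) (nat_lit 0) (nat_lit 300372765) (nat_lit 544) (nat_lit 5) (nat_lit 567) (nat_lit 4) (nat_lit 544) (nat_lit 4) (nat_lit 416) (nat_lit 363) (nat_lit 361)) (XT.nd (nat_lit 78) (nat_lit 1824) (nat_lit 0) (XT.lf (nat_lit 0) (nat_lit 305539469) (nat_lit 1824) (nat_lit 4718542091) (nat_lit 76) (nat_lit 2068481174) (nat_lit 520) (nat_lit 5) (nat_lit 544) (nat_lit 5) (nat_lit 521) (nat_lit 4) (nat_lit 417) (nat_lit 363) (nat_lit 360)) (XT.lf (nat_lit 0) (nat_lit 543915177) (nat_lit 1824) (nat_lit 3212984085) (nat_lit 1900) (nat_lit 3372331513) (nat_lit 496) (nat_lit 5) (nat_lit 520) (nat_lit 5) (nat_lit 521) (nat_lit 4) (nat_lit 418) (nat_lit 363) (nat_lit 359)))) (XT.nd (nat_lit 78) (nat_lit 2052) (nat_lit 0) (XT.lf (nat_lit 0) (nat_lit 72929324) (nat_lit 1900) (nat_lit 1261300228) (nat_lit 76) (nat_lit 5833113725) (nat_lit 495) (nat_lit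 5) (nat_lit 520) (nat_lit 5) (nat_lit 496) (nat_lit 5) (nat_lit 419) (nat_lit 363) (nat_lit 358)) (XT.nd (nat_lit 78) (nat_lit 912) (nat_lit 0) (XT.lf (nat_lit 0) (nat_lit 3506095421) (nat_lit 1216) (nat_lit 3078188312) (nat_lit 76) (nat_lit 622205363) (nat_lit 480) (nat_lit 5) (nat_lit 496) (nat_lit 5) (nat_lit 481) (nat_lit 4) (nat_lit 420) (nat_lit 363) (nat_lit 357)) (XT.lf (nat_lit 0) (nat_lit 2349020721) (nat_lit 912) (nat_lit 4625554072) (nat_lit 988) (nat_lit 272510040) (nat_lit 468) (nat_lit 5) (nat_lit 480) (nat_lit 5) (nat_lit 481) (nat_lit 4) (nat_lit 421) (nat_lit 363) (nat_lit 356))))) (XT.nd (nat_lit 234) (nat_lit 2736) (nat_lit 0) (XT.nd (nat_lit 78) (nat_lit 912) (nat_lit 0) (XT.lf (nat_lit 0) (nat_lit 554775687) (nat_lit 912) (nat_lit 2585724938) (nat_lit 988) (nat_lit 4148396185) (nat_lit 455) (nat_lit 5) (nat_lit 467) (nat_lit 5) (nat_lit 468) (nat_lit 5) (nat_lit 422) (nat_lit 363) (nat_lit 355)) (XT.nd (nat_lit 78)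 (nat_lit 912) (nat_lit 0) (XT.lf (nat_lit 0) (nat_lit 6111845868) (nat_lit 912) (nat_lit 474428237) (nat_lit 988) (nat_lit 745871865) (nat_lit 455) (nat_lit 5) (nat_lit 467) (nat_lit 5) (nat_lit 468) (nat_lit 5) (nat_lit 423) (nat_lit 363) (nat_lit 354)) (XT.lf (nat_lit 0) (nat_lit 2664685279) (nat_lit 912) (nat_lit 3013189783) (nat_lit 76) (nat_lit 1698516895) (nat_lit 443) (nat_lit 5) (nat_lit 455) (nat_lit 5) (nat_lit 444) (nat_lit 5) (nat_lit 424) (nat_lit 363) (nat_lit 353)))) (XT.nd (nat_lit 156) (nat_lit 912) (nat_lit 0) (XT.nd (nat_lit 78) (nat_lit 912) (nat_lit 0) (XT.lf (nat_lit 0) (nat_lit 2609998520) (nat_lit 912) (nat_lit 3488721028) (nat_lit 988) (nat_lit 1323399647) (nat_lit 431) (nat_lit 5) (nat_lit 443) (nat_lit 5) (nat_lit 444) (nat_lit 5) (nat_lit 425) (nat_lit 363) (nat_lit 352)) (XT.lf (nat_lit 0) (nat_lit 845214644) (nat_lit 836) (nat_lit 1222618368) (nat_lit 912) (nat_lit 5401388432) (nat_lit 419) (nat_lit 5) (nat_lit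 430) (nat_lit 5) (nat_lit 431) (nat_lit 5) (nat_lit 426) (nat_lit 363) (nat_lit 351))) (XT.nd (nat_lit 78) (nat_lit 912) (nat_lit 0) (XT.lf (nat_lit 0) (nat_lit 5486778132) (nat_lit 912) (nat_lit 922497865) (nat_lit 76) (nat_lit 1108262627) (nat_lit 419) (nat_lit 5) (nat_lit 431) (nat_lit 5) (nat_lit 420) (nat_lit 5) (nat_lit 427) (nat_lit 363) (nat_lit 350)) (XT.lf (nat_lit 0) (nat_lit 1367694448) (nat_lit 912) (nat_lit 2696668501) (nat_lit 76) (nat_lit 3502699034) (nat_lit 407) (nat_lit 5) (nat_lit 419) (nat_lit 5) (nat_lit 408) (nat_lit 5) (nat_lit 428) (nat_lit 363) (nat_lit 349))))))) (XT.nd (nat_lit 1014) (nat_lit 5852) (nat_lit 0) (XT.nd (nat_lit 468) (nat_lit 3496) (nat_lit 0) (XT.nd (nat_lit 234) (nat_lit 2280) (nat_lit 0) (XT.nd (nat_lit 78) (nat_lit 836) (nat_lit 0) (XT.lf (nat_lit 0) (nat_lit 3132067186) (nat_lit 760) (nat_lit 1641030282) (nat_lit 836) (nat_lit 2844886458) (nat_lit 397) (nat_lit 5) (nat_lit 407) (nat_lit 5)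 (nat_lit 408) (nat_lit 5) (nat_lit 429) (nat_lit 363) (nat_lit 348)) (XT.nd (nat_lit 78) (nat_lit 0) (nat_lit 0) (XT.lf (nat_lit 0) (nat_lit 541805570) (nat_lit 836) (nat_lit 6287378807) (nat_lit 76) (nat_lit 841211353) (nat_lit 386) (nat_lit 5) (nat_lit 397) (nat_lit 5) (nat_lit 387) (nat_lit 5) (nat_lit 430) (nat_lit 363) (nat_lit 347)) (XT.lf (nat_lit 0) (nat_lit 3939922061) (nat_lit 836) (nat_lit 393739668) (nat_lit 76) (nat_lit 3390182275) (nat_lit 386) (nat_lit 5) (nat_lit 397) (nat_lit 5) (nat_lit 387) (nat_lit 5) (nat_lit 431) (nat_lit 363) (nat_lit 346)))) (XT.nd (nat_lit 78) (nat_lit 1520) (nat_lit 0) (XT.lf (nat_lit 0) (nat_lit 5622179141) (nat_lit 760) (nat_lit 1762067866) (nat_lit 836) (nat_lit 394549313) (nat_lit 376) (nat_lit 5) (nat_lit 386) (nat_lit 5) (nat_lit 387) (nat_lit 5) (nat_lit 432) (nat_lit 363) (nat_lit 345)) (XT.nd (nat_lit 78) (nat_lit 684) (nat_lit 0) (XT.lf (nat_lit 0) (nat_lit 2998250731) (nat_lit 836)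 (nat_lit 3950443394) (nat_lit 76) (nat_lit 886239734) (nat_lit 365) (nat_lit 5) (nat_lit 376) (nat_lit 5) (nat_lit 366) (nat_lit 5) (nat_lit 433) (nat_lit 363) (nat_lit 344)) (XT.lf (nat_lit 0) (nat_lit 2127014761) (nat_lit 684) (nat_lit 4309327750) (nat_lit 760) (nat_lit 1456145105) (nat_lit 356) (nat_lit 5) (nat_lit 365) (nat_lit 5) (nat_lit 366) (nat_lit 5) (nat_lit 434) (nat_lit 363) (nat_lit 343))))) (XT.nd (nat_lit 234) (nat_lit 1976) (nat_lit 0) (XT.nd (nat_lit 78) (nat_lit 760) (nat_lit 0) (XT.lf (nat_lit 0) (nat_lit 349840145) (nat_lit 684) (nat_lit 1587956988) (nat_lit 760) (nat_lit 6013698266) (nat_lit 346) (nat_lit 5) (nat_lit 355) (nat_lit 5) (nat_lit 356) (nat_lit 5) (nat_lit 435) (nat_lit 363) (nat_lit 342)) (XT.nd (nat_lit 78) (nat_lit 760) (nat_lit 0) (XT.lf (nat_lit 0) (nat_lit 5370333262) (nat_lit 760) (nat_lit 1434032026) (nat_lit 76) (nat_lit 1207321292) (nat_lit 346) (nat_lit 5) (nat_lit 356) (nat_lit 5) (nat_lit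 347) (nat_lit 5) (nat_lit 436) (nat_lit 363) (nat_lit 341)) (XT.lf (nat_lit 0) (nat_lit 774463843) (nat_lit 760) (nat_lit 3238265814) (nat_lit 76) (nat_lit 4060518308) (nat_lit 336) (nat_lit 5) (nat_lit 346) (nat_lit 5) (nat_lit 337) (nat_lit 5) (nat_lit 437) (nat_lit 363) (nat_lit 340)))) (XT.nd (nat_lit 156) (nat_lit 684) (nat_lit 0) (XT.nd (nat_lit 78) (nat_lit 608) (nat_lit 0) (XT.lf (nat_lit 0) (nat_lit 3065615859) (nat_lit 684) (nat_lit 1132154857) (nat_lit 760) (nat_lit 3938429853) (nat_lit 327) (nat_lit 5) (nat_lit 336) (nat_lit 5) (nat_lit 337) (nat_lit 5) (nat_lit 438) (nat_lit 363) (nat_lit 339)) (XT.lf (nat_lit 0) (nat_lit 1273797425) (nat_lit 608) (nat_lit 6403064748) (nat_lit 684) (nat_lit 523803683) (nat_lit 319) (nat_lit 5) (nat_lit 327) (nat_lit 5) (nat_lit 328) (nat_lit 5) (nat_lit 439) (nat_lit 363) (nat_lit 338))) (XT.nd (nat_lit 78) (nat_lit 608) (nat_lit 0) (XT.lf (nat_lit 0) (nat_lit 2907760329) (nat_lit 684) (nat_lit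 549664610) (nat_lit 76) (nat_lit 4808862167) (nat_lit 318) (nat_lit 5) (nat_lit 327) (nat_lit 5) (nat_lit 319) (nat_lit 5) (nat_lit 440) (nat_lit 363) (nat_lit 337)) (XT.lf (nat_lit 0) (nat_lit 5960384522) (nat_lit 608) (nat_lit 426032595) (nat_lit 684) (nat_lit 1947024911) (nat_lit 310) (nat_lit 5) (nat_lit 318) (nat_lit 5) (nat_lit 319) (nat_lit 5) (nat_lit 441) (nat_lit 363) (nat_lit 336)))))) (XT.nd (nat_lit 468) (nat_lit 2736) (nat_lit 0) (XT.nd (nat_lit 234) (nat_lit 1292) (nat_lit 0) (XT.nd (nat_lit 78) (nat_lit 1140) (nat_lit 0) (XT.lf (nat_lit 0) (nat_lit 1507955736) (nat_lit 684) (nat_lit 4238220085) (nat_lit 76) (nat_lit 2655658192) (nat_lit 301) (nat_lit 5) (nat_lit 310) (nat_lit 5) (nat_lit 302) (nat_lit 5) (nat_lit 442) (nat_lit 363) (nat_lit 335)) (XT.nd (nat_lit 78) (nat_lit 532) (nat_lit 0) (XT.lf (nat_lit 0) (nat_lit 2336605304) (nat_lit 608) (nat_lit 2650904526) (nat_lit 684) (nat_lit 3484195721) (nat_lit 293) (nat_lit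 5) (nat_lit 301) (nat_lit 5) (nat_lit 302) (nat_lit 5) (nat_lit 443) (nat_lit 363) (nat_lit 334)) (XT.lf (nat_lit 0) (nat_lit 490335717) (nat_lit 532) (nat_lit 8029378887) (nat_lit 608) (nat_lit 23598723) (nat_lit 286) (nat_lit 5) (nat_lit 293) (nat_lit 5) (nat_lit 294) (nat_lit 5) (nat_lit 444) (nat_lit 363) (nat_lit 333)))) (XT.nd (nat_lit 78) (nat_lit 1216) (nat_lit 0) (XT.lf (nat_lit 0) (nat_lit 3467407805) (nat_lit 608) (nat_lit 1395495105) (nat_lit 76) (nat_lit 3752851414) (nat_lit 285) (nat_lit 5) (nat_lit 293) (nat_lit 5) (nat_lit 286) (nat_lit 5) (nat_lit 445) (nat_lit 363) (nat_lit 332)) (XT.nd (nat_lit 78) (nat_lit 608) (nat_lit 0) (XT.lf (nat_lit 0) (nat_lit 5396327522) (nat_lit 608) (nat_lit 1615827896) (nat_lit 684) (nat_lit 1677800863) (nat_lit 277) (nat_lit 5) (nat_lit 285) (nat_lit 5) (nat_lit 286) (nat_lit 5) (nat_lit 446) (nat_lit 363) (nat_lit 331)) (XT.lf (nat_lit 0) (nat_lit 1830756873) (nat_lit 608) (nat_lit 5234839111)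 (nat_lit 76) (nat_lit 1699944013) (nat_lit 269) (nat_lit 5) (nat_lit 277) (nat_lit 5) (nat_lit 270) (nat_lit 5) (nat_lit 447) (nat_lit 363) (nat_lit 330))))) (XT.nd (nat_lit 234) (nat_lit 1596) (nat_lit 0) (XT.nd (nat_lit 78) (nat_lit 608) (nat_lit 0) (XT.lf (nat_lit 0) (nat_lit 1623239469) (nat_lit 532) (nat_lit 3757123854) (nat_lit 608) (nat_lit 3462183392) (nat_lit 262) (nat_lit 5) (nat_lit 269) (nat_lit 5) (nat_lit 270) (nat_lit 5) (nat_lit 448) (nat_lit 363) (nat_lit 329)) (XT.nd (nat_lit 78) (nat_lit 532) (nat_lit 0) (XT.lf (nat_lit 0) (nat_lit 64219032) (nat_lit 608) (nat_lit 301966915) (nat_lit 76) (nat_lit 8555189287) (nat_lit 261) (nat_lit 5) (nat_lit 269) (nat_lit 5) (nat_lit 262) (nat_lit 5) (nat_lit 449) (nat_lit 363) (nat_lit 328)) (XT.lf (nat_lit 0) (nat_lit 3630071111) (nat_lit 608) (nat_lit 2271377912) (nat_lit 76) (nat_lit 3099567993) (nat_lit 254) (nat_lit 5) (nat_lit 262) (nat_lit 5) (nat_lit 255) (nat_lit 5) (nat_lit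 450) (nat_lit 363) (nat_lit 327)))) (XT.nd (nat_lit 156) (nat_lit 532) (nat_lit 0) (XT.nd (nat_lit 78) (nat_lit 532) (nat_lit 0) (XT.lf (nat_lit 0) (nat_lit 4815200353) (nat_lit 532) (nat_lit 2439171402) (nat_lit 608) (nat_lit 1828137250) (nat_lit 247) (nat_lit 5) (nat_lit 254) (nat_lit 5) (nat_lit 255) (nat_lit 5) (nat_lit 451) (nat_lit 363) (nat_lit 326)) (XT.lf (nat_lit 0) (nat_lit 1754905192) (nat_lit 532) (nat_lit 6307545967) (nat_lit 76) (nat_lit 1103091914) (nat_lit 240) (nat_lit 5) (nat_lit 247) (nat_lit 5) (nat_lit 241) (nat_lit 5) (nat_lit 452) (nat_lit 363) (nat_lit 325))) (XT.nd (nat_lit 78) (nat_lit 0) (nat_lit 0) (XT.lf (nat_lit 0) (nat_lit 846820039) (nat_lit 532) (nat_lit 4540764679) (nat_lit 608) (nat_lit 3862362327) (nat_lit 233) (nat_lit 5) (nat_lit 240) (nat_lit 5) (nat_lit 241) (nat_lit 5) (nat_lit 453) (nat_lit 363) (nat_lit 324)) (XT.lf (nat_lit 0) (nat_lit 8160408622) (nat_lit 532) (nat_lit 927282869) (nat_lit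 608) (nat_lit 248452131) (nat_lit 233) (nat_lit 5) (nat_lit 240) (nat_lit 5) (nat_lit 241) (nat_lit 5) (nat_lit 454) (nat_lit 363) (nat_lit 323))))))))
noncomputable def xc25 : XT := (XT.nd (nat_lit 2028) (nat_lit 912) (nat_lit 0) (XT.nd (nat_lit 1014) (nat_lit 3572) (nat_lit 0) (XT.nd (nat_lit 468) (nat_lit 2128) (nat_lit 0) (XT.nd (nat_lit 234) (nat_lit 912) (nat_lit 0) (XT.nd (nat_lit 78) (nat_lit 988) (nat_lit 0) (XT.lf (nat_lit 0) (nat_lit 3404069009) (nat_lit 532) (nat_lit 3255544075) (nat_lit 76) (nat_lit 2763776260) (nat_lit 226) (nat_lit 5) (nat_lit 233) (nat_lit 5) (nat_lit 227) (nat_lit 5) (nat_lit 455) (nat_lit 363) (nat_lit 322)) (XT.nd (nat_lit 78) (nat_lit 532) (nat_lit 0) (XT.lf (nat_lit 0) (nat_lit 4139498814) (nat_lit 456) (nat_lit 2981184320) (nat_lit 532) (nat_lit 2391776615) (nat_lit 220) (nat_lit 5) (nat_lit 226) (nat_lit 5) (nat_lit 227) (nat_lit 5) (nat_lit 456) (nat_lit 363) (nat_lit 321)) (XT.lf (nat_lit 0) (nat_lit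 1285328763) (nat_lit 532) (nat_lit 7535390209) (nat_lit 76) (nat_lit 782539307) (nat_lit 213) (nat_lit 5) (nat_lit 220) (nat_lit 5) (nat_lit 214) (nat_lit 5) (nat_lit 457) (nat_lit 363) (nat_lit 320)))) (XT.nd (nat_lit 78) (nat_lit 912) (nat_lit 0) (XT.lf (nat_lit 0) (nat_lit 5013904654) (nat_lit 532) (nat_lit 70073041) (nat_lit 76) (nat_lit 4611379806) (nat_lit 213) (nat_lit 5) (nat_lit 220) (nat_lit 5) (nat_lit 214) (nat_lit 5) (nat_lit 458) (nat_lit 363) (nat_lit 319)) (XT.nd (nat_lit 78) (nat_lit 456) (nat_lit 0) (XT.lf (nat_lit 0) (nat_lit 7575824828) (nat_lit 456) (nat_lit 1245205927) (nat_lit 532) (nat_lit 968188380) (nat_lit 207) (nat_lit 5) (nat_lit 213) (nat_lit 5) (nat_lit 214) (nat_lit 5) (nat_lit 459) (nat_lit 363) (nat_lit 318)) (XT.lf (nat_lit 0) (nat_lit 2790881073) (nat_lit 456) (nat_lit 4426402900) (nat_lit 76) (nat_lit 2667137609) (nat_lit 201) (nat_lit 5) (nat_lit 207) (nat_lit 5) (nat_lit 202) (nat_lit 5) (nat_lit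 460) (nat_lit 363) (nat_lit 317))))) (XT.nd (nat_lit 234) (nat_lit 1216) (nat_lit 0) (XT.nd (nat_lit 78) (nat_lit 456) (nat_lit 0) (XT.lf (nat_lit 0) (nat_lit 3291516536) (nat_lit 456) (nat_lit 3320467181) (nat_lit 532) (nat_lit 3369420051) (nat_lit 195) (nat_lit 5) (nat_lit 201) (nat_lit 5) (nat_lit 202) (nat_lit 5) (nat_lit 461) (nat_lit 363) (nat_lit 316)) (XT.nd (nat_lit 78) (nat_lit 0) (nat_lit 0) (XT.lf (nat_lit 0) (nat_lit 420242049) (nat_lit 456) (nat_lit 8998115834) (nat_lit 76) (nat_lit 661978223) (nat_lit 189) (nat_lit 5) (nat_lit 195) (nat_lit 5) (nat_lit 190) (nat_lit 5) (nat_lit 462) (nat_lit 363) (nat_lit 315)) (XT.lf (nat_lit 0) (nat_lit 4263456264) (nat_lit 456) (nat_lit 1193443269) (nat_lit 76) (nat_lit 4723444612) (nat_lit 189) (nat_lit 5) (nat_lit 195) (nat_lit 5) (nat_lit 190) (nat_lit 5) (nat_lit 463) (nat_lit 363) (nat_lit 314)))) (XT.nd (nat_lit 156) (nat_lit 380) (nat_lit 0) (XT.nd (nat_lit 78) (nat_lit 456) (nat_lit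 0) (XT.lf (nat_lit 0) (nat_lit 6788764545) (nat_lit 380) (nat_lit 1395370337) (nat_lit 456) (nat_lit 2098205459) (nat_lit 184) (nat_lit 5) (nat_lit 189) (nat_lit 5) (nat_lit 190) (nat_lit 5) (nat_lit 464) (nat_lit 363) (nat_lit 313)) (XT.lf (nat_lit 0) (nat_lit 1785487174) (nat_lit 456) (nat_lit 5863579904) (nat_lit 76) (nat_lit 2736832006) (nat_lit 178) (nat_lit 5) (nat_lit 184) (nat_lit 5) (nat_lit 179) (nat_lit 5) (nat_lit 465) (nat_lit 363) (nat_lit 312))) (XT.nd (nat_lit 78) (nat_lit 0) (nat_lit 0) (XT.lf (nat_lit 0) (nat_lit 2192308850) (nat_lit 380) (nat_lit 3530459191) (nat_lit 456) (nat_lit 4768403391) (nat_lit 173) (nat_lit 5) (nat_lit 178) (nat_lit 5) (nat_lit 179) (nat_lit 5) (nat_lit 466) (nat_lit 363) (nat_lit 311)) (XT.lf (nat_lit 0) (nat_lit 9739910703) (nat_lit 456) (nat_lit 181804105) (nat_lit 76) (nat_lit 676812095) (nat_lit 173) (nat_lit 5) (nat_lit 179) (nat_lit 5) (nat_lit 174) (nat_lit 5) (nat_lit 467) (nat_lit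 363) (nat_lit 310)))))) (XT.nd (nat_lit 468) (nat_lit 1672) (nat_lit 0) (XT.nd (nat_lit 234) (nat_lit 760) (nat_lit 0) (XT.nd (nat_lit 78) (nat_lit 760) (nat_lit 0) (XT.lf (nat_lit 0) (nat_lit 3122604895) (nat_lit 380) (nat_lit 2614151438) (nat_lit 76) (nat_lit 4970181186) (nat_lit 168) (nat_lit 5) (nat_lit 173) (nat_lit 5) (nat_lit 169) (nat_lit 5) (nat_lit 468) (nat_lit 363) (nat_lit 309)) (XT.nd (nat_lit 78) (nat_lit 380) (nat_lit 0) (XT.lf (nat_lit 0) (nat_lit 5720162804) (nat_lit 380) (nat_lit 1448279818) (nat_lit 456) (nat_lit 3649030432) (nat_lit 163) (nat_lit 5) (nat_lit 168) (nat_lit 5) (nat_lit 169) (nat_lit 5) (nat_lit 469) (nat_lit 363) (nat_lit 308)) (XT.lf (nat_lit 0) (nat_lit 376610832) (nat_lit 380) (nat_lit 7648921696) (nat_lit 76) (nat_lit 2904310983) (nat_lit 158) (nat_lit 5) (nat_lit 163) (nat_lit 5) (nat_lit 159) (nat_lit 5) (nat_lit 470) (nat_lit 363) (nat_lit 307)))) (XT.nd (nat_lit 78) (nat_lit 380) (nat_lit 0)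 (XT.lf (nat_lit 0) (nat_lit 760688909) (nat_lit 380) (nat_lit 3680670993) (nat_lit 456) (nat_lit 6602469965) (nat_lit 153) (nat_lit 5) (nat_lit 158) (nat_lit 5) (nat_lit 159) (nat_lit 5) (nat_lit 471) (nat_lit 363) (nat_lit 306)) (XT.nd (nat_lit 78) (nat_lit 380) (nat_lit 0) (XT.lf (nat_lit 0) (nat_lit 8602609616) (nat_lit 456) (nat_lit 1789665129) (nat_lit 76) (nat_lit 767517091) (nat_lit 153) (nat_lit 5) (nat_lit 159) (nat_lit 5) (nat_lit 154) (nat_lit 5) (nat_lit 472) (nat_lit 363) (nat_lit 305)) (XT.lf (nat_lit 0) (nat_lit 1577094232) (nat_lit 380) (nat_lit 4414660351) (nat_lit 76) (nat_lit 5285541504) (nat_lit 148) (nat_lit 5) (nat_lit 153) (nat_lit 5) (nat_lit 149) (nat_lit 5) (nat_lit 473) (nat_lit 363) (nat_lit 304))))) (XT.nd (nat_lit 234) (nat_lit 988) (nat_lit 0) (XT.nd (nat_lit 78) (nat_lit 380) (nat_lit 0) (XT.lf (nat_lit 0) (nat_lit 4288227044) (nat_lit 304) (nat_lit 1471124643) (nat_lit 380) (nat_lit 5637469953) (nat_lit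 144) (nat_lit 5) (nat_lit 148) (nat_lit 5) (nat_lit 149) (nat_lit 5) (nat_lit 474) (nat_lit 363) (nat_lit 303)) (XT.nd (nat_lit 78) (nat_lit 76) (nat_lit 0) (XT.lf (nat_lit 0) (nat_lit 1641283761) (nat_lit 304) (nat_lit 8404604275) (nat_lit 380) (nat_lit 1472436994) (nat_lit 140) (nat_lit 5) (nat_lit 144) (nat_lit 5) (nat_lit 145) (nat_lit 5) (nat_lit 475) (nat_lit 363) (nat_lit 302)) (XT.lf (nat_lit 0) (nat_lit 2757116911) (nat_lit 380) (nat_lit 1073491189) (nat_lit 76) (nat_lit 7810937395) (nat_lit 139) (nat_lit 5) (nat_lit 144) (nat_lit 5) (nat_lit 140) (nat_lit 5) (nat_lit 476) (nat_lit 363) (nat_lit 301)))) (XT.nd (nat_lit 156) (nat_lit 380) (nat_lit 0) (XT.nd (nat_lit 78) (nat_lit 304) (nat_lit 0) (XT.lf (nat_lit 0) (nat_lit 7069394951) (nat_lit 380) (nat_lit 3837317760) (nat_lit 76) (nat_lit 859966022) (nat_lit 135) (nat_lit 5) (nat_lit 140) (nat_lit 5) (nat_lit 136) (nat_lit 5) (nat_lit 477) (nat_lit 363) (nat_lit 300)) (XT.lf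 (nat_lit 0) (nat_lit 5210066401) (nat_lit 304) (nat_lit 6285133888) (nat_lit 380) (nat_lit 398568712) (nat_lit 131) (nat_lit 5) (nat_lit 135) (nat_lit 5) (nat_lit 136) (nat_lit 5) (nat_lit 478) (nat_lit 363) (nat_lit 299))) (XT.nd (nat_lit 78) (nat_lit 0) (nat_lit 0) (XT.lf (nat_lit 0) (nat_lit 2407463226) (nat_lit 304) (nat_lit 1528853804) (nat_lit 380) (nat_lit 8086516934) (nat_lit 126) (nat_lit 5) (nat_lit 130) (nat_lit 5) (nat_lit 131) (nat_lit 5) (nat_lit 479) (nat_lit 363) (nat_lit 298)) (XT.lf (nat_lit 0) (nat_lit 8380383916) (nat_lit 380) (nat_lit 472799912) (nat_lit 76) (nat_lit 3300687300) (nat_lit 126) (nat_lit 5) (nat_lit 131) (nat_lit 5) (nat_lit 127) (nat_lit 5) (nat_lit 480) (nat_lit 363) (nat_lit 297))))))) (XT.nd (nat_lit 54678) (nat_lit 0) (nat_lit 19076) (XT.nd (nat_lit 54132) (nat_lit 0) (nat_lit 27816) (XT.nd (nat_lit 234) (nat_lit 76) (nat_lit 0) (XT.nd (nat_lit 78) (nat_lit 532) (nat_lit 0) (XT.lf (nat_lit 0) (nat_lit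 647525246) (nat_lit 304) (nat_lit 3396511842) (nat_lit 76) (nat_lit 8242812092) (nat_lit 122) (nat_lit 5) (nat_lit 126) (nat_lit 5) (nat_lit 123) (nat_lit 5) (nat_lit 481) (nat_lit 363) (nat_lit 296)) (XT.nd (nat_lit 78) (nat_lit 228) (nat_lit 0) (XT.lf (nat_lit 0) (nat_lit 5116523744) (nat_lit 380) (nat_lit 6413733545) (nat_lit 76) (nat_lit 891528793) (nat_lit 118) (nat_lit 5) (nat_lit 123) (nat_lit 5) (nat_lit 119) (nat_lit 5) (nat_lit 482) (nat_lit 363) (nat_lit 295)) (XT.lf (nat_lit 0) (nat_lit 3035956955) (nat_lit 228) (nat_lit 6670479656) (nat_lit 304) (nat_lit 2852354424) (nat_lit 115) (nat_lit 5) (nat_lit 118) (nat_lit 5) (nat_lit 119) (nat_lit 5) (nat_lit 483) (nat_lit 363) (nat_lit 294)))) (XT.nd (nat_lit 53742) (nat_lit 0) (nat_lit 36024) (XT.lf (nat_lit 0) (nat_lit 1672951519) (nat_lit 304) (nat_lit 12136706) (nat_lit 76) (nat_lit 11013118471) (nat_lit 114) (nat_lit 5) (nat_lit 118) (nat_lit 5) (nat_lit 115) (nat_lit 5) (nat_lit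 484) (nat_lit 363) (nat_lit 293)) (XT.nd (nat_lit 78) (nat_lit 1596) (nat_lit 0) (XT.lf (nat_lit 0) (nat_lit 2312382888) (nat_lit 1444) (nat_lit 575674096) (nat_lit 1444) (nat_lit 575674096) (nat_lit 609) (nat_lit 4) (nat_lit 628) (nat_lit 5) (nat_lit 628) (nat_lit 4) (nat_lit 412) (nat_lit 364) (nat_lit 364)) (XT.lf (nat_lit 0) (nat_lit 2302450779) (nat_lit 1596) (nat_lit 4240728854) (nat_lit 0) (nat_lit 415257040) (nat_lit 588) (nat_lit 5) (nat_lit 609) (nat_lit 4) (nat_lit 588) (nat_lit 4) (nat_lit 413) (nat_lit 364) (nat_lit 363))))) (XT.nd (nat_lit 234) (nat_lit 4864) (nat_lit 0) (XT.nd (nat_lit 78) (nat_lit 1748) (nat_lit 0) (XT.lf (nat_lit 0) (nat_lit 807629745) (nat_lit 1596) (nat_lit 4960236629) (nat_lit 1596) (nat_lit 1222852949) (nat_lit 567) (nat_lit 4) (nat_lit 588) (nat_lit 5) (nat_lit 588) (nat_lit 4) (nat_lit 414) (nat_lit 364) (nat_lit 362)) (XT.nd (nat_lit 78) (nat_lit 1672) (nat_lit 0) (XT.lf (nat_lit 0) (nat_lit 2207704861)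 (nat_lit 1672) (nat_lit 1091731564) (nat_lit 76) (nat_lit 3724742253) (nat_lit 566) (nat_lit 5) (nat_lit 588) (nat_lit 5) (nat_lit 567) (nat_lit 4) (nat_lit 415) (nat_lit 364) (nat_lit 361)) (XT.lf (nat_lit 0) (nat_lit 4080093928) (nat_lit 1672) (nat_lit 1568289301) (nat_lit 1748) (nat_lit 1410604663) (nat_lit 544) (nat_lit 5) (nat_lit 566) (nat_lit 5) (nat_lit 567) (nat_lit 4) (nat_lit 416) (nat_lit 364) (nat_lit 360)))) (XT.nd (nat_lit 156) (nat_lit 1216) (nat_lit 0) (XT.nd (nat_lit 78) (nat_lit 1824) (nat_lit 0) (XT.lf (nat_lit 0) (nat_lit 1991501677) (nat_lit 1824) (nat_lit 4872377884) (nat_lit 76) (nat_lit 231242163) (nat_lit 520) (nat_lit 5) (nat_lit 544) (nat_lit 5) (nat_lit 521) (nat_lit 4) (nat_lit 417) (nat_lit 364) (nat_lit 359)) (XT.lf (nat_lit 0) (nat_lit 353851706) (nat_lit 1824) (nat_lit 5054483448) (nat_lit 1900) (nat_lit 1724145137) (nat_lit 496) (nat_lit 5) (nat_lit 520) (nat_lit 5) (nat_lit 521) (nat_lit 4) (nat_lit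 418) (nat_lit 364) (nat_lit 358))) (XT.nd (nat_lit 78) (nat_lit 1140) (nat_lit 0) (XT.lf (nat_lit 0) (nat_lit 1666424745) (nat_lit 1900) (nat_lit 1499266901) (nat_lit 76) (nat_lit 4005348618) (nat_lit 495) (nat_lit 5) (nat_lit 520) (nat_lit 5) (nat_lit 496) (nat_lit 5) (nat_lit 419) (nat_lit 364) (nat_lit 357)) (XT.lf (nat_lit 0) (nat_lit 3857617791) (nat_lit 1140) (nat_lit 1203668862) (nat_lit 1216) (nat_lit 2149665515) (nat_lit 480) (nat_lit 5) (nat_lit 495) (nat_lit 5) (nat_lit 496) (nat_lit 5) (nat_lit 420) (nat_lit 364) (nat_lit 356)))))) (XT.nd (nat_lit 468) (nat_lit 4104) (nat_lit 0) (XT.nd (nat_lit 234) (nat_lit 2660) (nat_lit 0) (XT.nd (nat_lit 78) (nat_lit 988) (nat_lit 0) (XT.lf (nat_lit 0) (nat_lit 1219369737) (nat_lit 988) (nat_lit 5216418147) (nat_lit 76) (nat_lit 816435726) (nat_lit 467) (nat_lit 5) (nat_lit 480) (nat_lit 5) (nat_lit 468) (nat_lit 5) (nat_lit 421) (nat_lit 364) (nat_lit 355)) (XT.nd (nat_lit 78) (nat_lit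 76) (nat_lit 0) (XT.lf (nat_lit 0) (nat_lit 196045453) (nat_lit 912) (nat_lit 4398620889) (nat_lit 988) (nat_lit 2700016660) (nat_lit 455) (nat_lit 5) (nat_lit 467) (nat_lit 5) (nat_lit 468) (nat_lit 5) (nat_lit 422) (nat_lit 364) (nat_lit 354)) (XT.lf (nat_lit 0) (nat_lit 661680308) (nat_lit 988) (nat_lit 1623476837) (nat_lit 76) (nat_lit 5053316072) (nat_lit 454) (nat_lit 5) (nat_lit 467) (nat_lit 5) (nat_lit 455) (nat_lit 5) (nat_lit 423) (nat_lit 364) (nat_lit 353)))) (XT.nd (nat_lit 78) (nat_lit 1824) (nat_lit 0) (XT.lf (nat_lit 0) (nat_lit 3927283498) (nat_lit 836) (nat_lit 90099023) (nat_lit 912) (nat_lit 3366141281) (nat_lit 443) (nat_lit 5) (nat_lit 454) (nat_lit 5) (nat_lit 455) (nat_lit 5) (nat_lit 424) (nat_lit 364) (nat_lit 352)) (XT.nd (nat_lit 78) (nat_lit 912) (nat_lit 0) (XT.lf (nat_lit 0) (nat_lit 2127397874) (nat_lit 912) (nat_lit 5289681775) (nat_lit 988) (nat_lit 12858134) (nat_lit 431) (nat_lit 5) (nat_lit 443) (nat_lit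 5) (nat_lit 444) (nat_lit 5) (nat_lit 425) (nat_lit 364) (nat_lit 351)) (XT.lf (nat_lit 0) (nat_lit 305216537) (nat_lit 836) (nat_lit 3022027260) (nat_lit 912) (nat_lit 4150304912) (nat_lit 419) (nat_lit 5) (nat_lit 430) (nat_lit 5) (nat_lit 431) (nat_lit 5) (nat_lit 426) (nat_lit 364) (nat_lit 350))))) (XT.nd (nat_lit 234) (nat_lit 2432) (nat_lit 0) (XT.nd (nat_lit 78) (nat_lit 1672) (nat_lit 0) (XT.lf (nat_lit 0) (nat_lit 6028715486) (nat_lit 836) (nat_lit 680123093) (nat_lit 912) (nat_lit 817774316) (nat_lit 419) (nat_lit 5) (nat_lit 430) (nat_lit 5) (nat_lit 431) (nat_lit 5) (nat_lit 427) (nat_lit 364) (nat_lit 349)) (XT.nd (nat_lit 78) (nat_lit 760) (nat_lit 0) (XT.lf (nat_lit 0) (nat_lit 2526634078) (nat_lit 912) (nat_lit 3326812314) (nat_lit 76) (nat_lit 1723295113) (nat_lit 407) (nat_lit 5) (nat_lit 419) (nat_lit 5) (nat_lit 408) (nat_lit 5) (nat_lit 428) (nat_lit 364) (nat_lit 348)) (XT.lf (nat_lit 0) (nat_lit 2459263254) (nat_lit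 760) (nat_lit 3439080445) (nat_lit 836) (nat_lit 1729993616) (nat_lit 397) (nat_lit 5) (nat_lit 407) (nat_lit 5) (nat_lit 408) (nat_lit 5) (nat_lit 429) (nat_lit 364) (nat_lit 347)))) (XT.nd (nat_lit 156) (nat_lit 1596) (nat_lit 0) (XT.nd (nat_lit 78) (nat_lit 0) (nat_lit 0) (XT.lf (nat_lit 0) (nat_lit 654638002) (nat_lit 760) (nat_lit 947978142) (nat_lit 836) (nat_lit 6078777409) (nat_lit 386) (nat_lit 5) (nat_lit 396) (nat_lit 5) (nat_lit 397) (nat_lit 5) (nat_lit 430) (nat_lit 364) (nat_lit 346)) (XT.lf (nat_lit 0) (nat_lit 4965737737) (nat_lit 836) (nat_lit 1161282797) (nat_lit 76) (nat_lit 1608521189) (nat_lit 386) (nat_lit 5) (nat_lit 397) (nat_lit 5) (nat_lit 387) (nat_lit 5) (nat_lit 431) (nat_lit 364) (nat_lit 345))) (XT.nd (nat_lit 78) (nat_lit 760) (nat_lit 0) (XT.lf (nat_lit 0) (nat_lit 577675231) (nat_lit 836) (nat_lit 2984625169) (nat_lit 76) (nat_lit 4228788540) (nat_lit 375) (nat_lit 5) (nat_lit 386) (nat_lit 5) (nat_lit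 376) (nat_lit 5) (nat_lit 432) (nat_lit 364) (nat_lit 344)) (XT.lf (nat_lit 0) (nat_lit 3014580228) (nat_lit 760) (nat_lit 911081143) (nat_lit 836) (nat_lit 3922306661) (nat_lit 365) (nat_lit 5) (nat_lit 375) (nat_lit 5) (nat_lit 376) (nat_lit 5) (nat_lit 433) (nat_lit 364) (nat_lit 343))))))))
noncomputable def xc26 : XT := (XT.nd (nat_lit 2028) (nat_lit 6764) (nat_lit 0) (XT.nd (nat_lit 1014) (nat_lit 5320) (nat_lit 0) (XT.nd (nat_lit 468) (nat_lit 3116) (nat_lit 0) (XT.nd (nat_lit 234) (nat_lit 2128) (nat_lit 0) (XT.nd (nat_lit 78) (nat_lit 760) (nat_lit 0) (XT.lf (nat_lit 0) (nat_lit 1203780822) (nat_lit 684) (nat_lit 6120236405) (nat_lit 760) (nat_lit 582299280) (nat_lit 356) (nat_lit 5) (nat_lit 365) (nat_lit 5) (nat_lit 366) (nat_lit 5) (nat_lit 434) (nat_lit 364) (nat_lit 342)) (XT.nd (nat_lit 78) (nat_lit 684) (nat_lit 0) (XT.lf (nat_lit 0) (nat_lit 2770228154) (nat_lit 760) (nat_lit 631724551) (nat_lit 76) (nat_lit 4563857197)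 (nat_lit 355) (nat_lit 5) (nat_lit 365) (nat_lit 5) (nat_lit 356) (nat_lit 5) (nat_lit 435) (nat_lit 364) (nat_lit 341)) (XT.lf (nat_lit 0) (nat_lit 5561781532) (nat_lit 684) (nat_lit 601522952) (nat_lit 760) (nat_lit 1863485795) (nat_lit 346) (nat_lit 5) (nat_lit 355) (nat_lit 5) (nat_lit 356) (nat_lit 5) (nat_lit 436) (nat_lit 364) (nat_lit 340)))) (XT.nd (nat_lit 78) (nat_lit 1368) (nat_lit 0) (XT.lf (nat_lit 0) (nat_lit 1504127624) (nat_lit 760) (nat_lit 4333937157) (nat_lit 76) (nat_lit 2250945912) (nat_lit 336) (nat_lit 5) (nat_lit 346) (nat_lit 5) (nat_lit 337) (nat_lit 5) (nat_lit 437) (nat_lit 364) (nat_lit 339)) (XT.nd (nat_lit 78) (nat_lit 684) (nat_lit 0) (XT.lf (nat_lit 0) (nat_lit 1920957506) (nat_lit 684) (nat_lit 2972311067) (nat_lit 760) (nat_lit 3259378043) (nat_lit 327) (nat_lit 5) (nat_lit 336) (nat_lit 5) (nat_lit 337) (nat_lit 5) (nat_lit 438) (nat_lit 364) (nat_lit 338)) (XT.lf (nat_lit 0) (nat_lit 73746160) (nat_lit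 608) (nat_lit 33165680) (nat_lit 684) (nat_lit 8111105907) (nat_lit 318) (nat_lit 5) (nat_lit 326) (nat_lit 5) (nat_lit 327) (nat_lit 5) (nat_lit 439) (nat_lit 364) (nat_lit 337))))) (XT.nd (nat_lit 234) (nat_lit 1824) (nat_lit 0) (XT.nd (nat_lit 78) (nat_lit 1292) (nat_lit 0) (XT.lf (nat_lit 0) (nat_lit 3505039205) (nat_lit 684) (nat_lit 1804610433) (nat_lit 76) (nat_lit 2974452678) (nat_lit 318) (nat_lit 5) (nat_lit 327) (nat_lit 5) (nat_lit 319) (nat_lit 5) (nat_lit 440) (nat_lit 364) (nat_lit 336)) (XT.nd (nat_lit 78) (nat_lit 684) (nat_lit 0) (XT.lf (nat_lit 0) (nat_lit 4654630043) (nat_lit 608) (nat_lit 2294753288) (nat_lit 684) (nat_lit 1402560160) (nat_lit 310) (nat_lit 5) (nat_lit 318) (nat_lit 5) (nat_lit 319) (nat_lit 5) (nat_lit 441) (nat_lit 364) (nat_lit 335)) (XT.lf (nat_lit 0) (nat_lit 1998385765) (nat_lit 684) (nat_lit 5624812321) (nat_lit 76) (nat_lit 798004569) (nat_lit 301) (nat_lit 5) (nat_lit 310) (nat_lit 5) (nat_lit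 302) (nat_lit 5) (nat_lit 442) (nat_lit 364) (nat_lit 334)))) (XT.nd (nat_lit 156) (nat_lit 1140) (nat_lit 0) (XT.nd (nat_lit 78) (nat_lit 76) (nat_lit 0) (XT.lf (nat_lit 0) (nat_lit 897096825) (nat_lit 608) (nat_lit 4546015332) (nat_lit 684) (nat_lit 3048658590) (nat_lit 293) (nat_lit 5) (nat_lit 301) (nat_lit 5) (nat_lit 302) (nat_lit 5) (nat_lit 443) (nat_lit 364) (nat_lit 333)) (XT.lf (nat_lit 0) (nat_lit 374580382) (nat_lit 684) (nat_lit 1009089870) (nat_lit 76) (nat_lit 7180293888) (nat_lit 292) (nat_lit 5) (nat_lit 301) (nat_lit 5) (nat_lit 293) (nat_lit 5) (nat_lit 444) (nat_lit 364) (nat_lit 332))) (XT.nd (nat_lit 78) (nat_lit 608) (nat_lit 0) (XT.lf (nat_lit 0) (nat_lit 3824462529) (nat_lit 608) (nat_lit 2954609929) (nat_lit 76) (nat_lit 1858145911) (nat_lit 285) (nat_lit 5) (nat_lit 293) (nat_lit 5) (nat_lit 286) (nat_lit 5) (nat_lit 445) (nat_lit 364) (nat_lit 331)) (XT.lf (nat_lit 0) (nat_lit 3782349172) (nat_lit 608) (nat_lit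 3551726598) (nat_lit 684) (nat_lit 1378047244) (nat_lit 277) (nat_lit 5) (nat_lit 285) (nat_lit 5) (nat_lit 286) (nat_lit 5) (nat_lit 446) (nat_lit 364) (nat_lit 330)))))) (XT.nd (nat_lit 468) (nat_lit 2508) (nat_lit 0) (XT.nd (nat_lit 234) (nat_lit 1596) (nat_lit 0) (XT.nd (nat_lit 78) (nat_lit 608) (nat_lit 0) (XT.lf (nat_lit 0) (nat_lit 1847998069) (nat_lit 532) (nat_lit 231847198) (nat_lit 608) (nat_lit 6708757216) (nat_lit 269) (nat_lit 5) (nat_lit 276) (nat_lit 5) (nat_lit 277) (nat_lit 5) (nat_lit 447) (nat_lit 364) (nat_lit 329)) (XT.nd (nat_lit 78) (nat_lit 608) (nat_lit 0) (XT.lf (nat_lit 0) (nat_lit 5593059550) (nat_lit 608) (nat_lit 136313152) (nat_lit 76) (nat_lit 3136964344) (nat_lit 269) (nat_lit 5) (nat_lit 277) (nat_lit 5) (nat_lit 270) (nat_lit 5) (nat_lit 448) (nat_lit 364) (nat_lit 328)) (XT.lf (nat_lit 0) (nat_lit 225495491) (nat_lit 608) (nat_lit 2122461995) (nat_lit 76) (nat_lit 6597686586) (nat_lit 261) (nat_lit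 5) (nat_lit 269) (nat_lit 5) (nat_lit 262) (nat_lit 5) (nat_lit 449) (nat_lit 364) (nat_lit 327)))) (XT.nd (nat_lit 78) (nat_lit 1064) (nat_lit 0) (XT.lf (nat_lit 0) (nat_lit 3742366515) (nat_lit 608) (nat_lit 4161921939) (nat_lit 76) (nat_lit 1121977023) (nat_lit 254) (nat_lit 5) (nat_lit 262) (nat_lit 5) (nat_lit 255) (nat_lit 5) (nat_lit 450) (nat_lit 364) (nat_lit 326)) (XT.nd (nat_lit 78) (nat_lit 532) (nat_lit 0) (XT.lf (nat_lit 0) (nat_lit 2865464165) (nat_lit 532) (nat_lit 4464957912) (nat_lit 608) (nat_lit 1778060289) (nat_lit 247) (nat_lit 5) (nat_lit 254) (nat_lit 5) (nat_lit 255) (nat_lit 5) (nat_lit 451) (nat_lit 364) (nat_lit 325)) (XT.lf (nat_lit 0) (nat_lit 828944209) (nat_lit 456) (nat_lit 931406919) (nat_lit 532) (nat_lit 7432038289) (nat_lit 240) (nat_lit 5) (nat_lit 246) (nat_lit 5) (nat_lit 247) (nat_lit 5) (nat_lit 452) (nat_lit 364) (nat_lit 324))))) (XT.nd (nat_lit 234) (nat_lit 1444) (nat_lit 0) (XT.nd (nat_lit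 78) (nat_lit 1064) (nat_lit 0) (XT.lf (nat_lit 0) (nat_lit 5358166943) (nat_lit 532) (nat_lit 1248026925) (nat_lit 76) (nat_lit 2671296794) (nat_lit 240) (nat_lit 5) (nat_lit 247) (nat_lit 5) (nat_lit 241) (nat_lit 5) (nat_lit 453) (nat_lit 364) (nat_lit 323)) (XT.nd (nat_lit 78) (nat_lit 532) (nat_lit 0) (XT.lf (nat_lit 0) (nat_lit 6015310151) (nat_lit 532) (nat_lit 3011673218) (nat_lit 608) (nat_lit 337329677) (nat_lit 233) (nat_lit 5) (nat_lit 240) (nat_lit 5) (nat_lit 241) (nat_lit 5) (nat_lit 454) (nat_lit 364) (nat_lit 322)) (XT.lf (nat_lit 0) (nat_lit 3265365448) (nat_lit 532) (nat_lit 5506085162) (nat_lit 76) (nat_lit 681139533) (nat_lit 226) (nat_lit 5) (nat_lit 233) (nat_lit 5) (nat_lit 227) (nat_lit 5) (nat_lit 455) (nat_lit 364) (nat_lit 321)))) (XT.nd (nat_lit 156) (nat_lit 912) (nat_lit 0) (XT.nd (nat_lit 78) (nat_lit 76) (nat_lit 0) (XT.lf (nat_lit 0) (nat_lit 1825132625) (nat_lit 456) (nat_lit 5119206907) (nat_lit 532)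 (nat_lit 2598073816) (nat_lit 220) (nat_lit 5) (nat_lit 226) (nat_lit 5) (nat_lit 227) (nat_lit 5) (nat_lit 456) (nat_lit 364) (nat_lit 320)) (XT.lf (nat_lit 0) (nat_lit 1040594457) (nat_lit 532) (nat_lit 330601414) (nat_lit 76) (nat_lit 8262865650) (nat_lit 219) (nat_lit 5) (nat_lit 226) (nat_lit 5) (nat_lit 220) (nat_lit 5) (nat_lit 457) (nat_lit 364) (nat_lit 319))) (XT.nd (nat_lit 78) (nat_lit 456) (nat_lit 0) (XT.lf (nat_lit 0) (nat_lit 4735697733) (nat_lit 532) (nat_lit 2528570595) (nat_lit 76) (nat_lit 2462561868) (nat_lit 213) (nat_lit 5) (nat_lit 220) (nat_lit 5) (nat_lit 214) (nat_lit 5) (nat_lit 458) (nat_lit 364) (nat_lit 318)) (XT.lf (nat_lit 0) (nat_lit 5051171954) (nat_lit 456) (nat_lit 3453318502) (nat_lit 532) (nat_lit 1316968041) (nat_lit 207) (nat_lit 5) (nat_lit 213) (nat_lit 5) (nat_lit 214) (nat_lit 5) (nat_lit 459) (nat_lit 364) (nat_lit 317))))))) (XT.nd (nat_lit 1014) (nat_lit 2660) (nat_lit 0) (XT.nd (nat_lit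 468) (nat_lit 1900) (nat_lit 0) (XT.nd (nat_lit 234) (nat_lit 1292) (nat_lit 0) (XT.nd (nat_lit 78) (nat_lit 456) (nat_lit 0) (XT.lf (nat_lit 0) (nat_lit 2393245343) (nat_lit 456) (nat_lit 7067062869) (nat_lit 76) (nat_lit 457466631) (nat_lit 201) (nat_lit 5) (nat_lit 207) (nat_lit 5) (nat_lit 202) (nat_lit 5) (nat_lit 460) (nat_lit 364) (nat_lit 316)) (XT.nd (nat_lit 78) (nat_lit 0) (nat_lit 0) (XT.lf (nat_lit 0) (nat_lit 582062147) (nat_lit 456) (nat_lit 5592968004) (nat_lit 532) (nat_lit 3840513234) (nat_lit 195) (nat_lit 5) (nat_lit 201) (nat_lit 5) (nat_lit 202) (nat_lit 5) (nat_lit 461) (nat_lit 364) (nat_lit 315)) (XT.lf (nat_lit 0) (nat_lit 8413223497) (nat_lit 456) (nat_lit 1623191022) (nat_lit 532) (nat_lit 78773502) (nat_lit 195) (nat_lit 5) (nat_lit 201) (nat_lit 5) (nat_lit 202) (nat_lit 5) (nat_lit 462) (nat_lit 364) (nat_lit 314)))) (XT.nd (nat_lit 78) (nat_lit 836) (nat_lit 0) (XT.lf (nat_lit 0) (nat_lit 3722140432) (nat_lit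 456) (nat_lit 4057660112) (nat_lit 76) (nat_lit 2436272413) (nat_lit 189) (nat_lit 5) (nat_lit 195) (nat_lit 5) (nat_lit 190) (nat_lit 5) (nat_lit 463) (nat_lit 364) (nat_lit 313)) (XT.nd (nat_lit 78) (nat_lit 456) (nat_lit 0) (XT.lf (nat_lit 0) (nat_lit 3853241505) (nat_lit 380) (nat_lit 3749416920) (nat_lit 456) (nat_lit 2716213942) (nat_lit 184) (nat_lit 5) (nat_lit 189) (nat_lit 5) (nat_lit 190) (nat_lit 5) (nat_lit 464) (nat_lit 364) (nat_lit 312)) (XT.lf (nat_lit 0) (nat_lit 1119285445) (nat_lit 456) (nat_lit 8926282735) (nat_lit 76) (nat_lit 378069150) (nat_lit 178) (nat_lit 5) (nat_lit 184) (nat_lit 5) (nat_lit 179) (nat_lit 5) (nat_lit 465) (nat_lit 364) (nat_lit 311))))) (XT.nd (nat_lit 234) (nat_lit 1140) (nat_lit 0) (XT.nd (nat_lit 78) (nat_lit 760) (nat_lit 0) (XT.lf (nat_lit 0) (nat_lit 5021418641) (nat_lit 456) (nat_lit 932140304) (nat_lit 76) (nat_lit 4576053687) (nat_lit 178) (nat_lit 5) (nat_lit 184) (nat_lit 5) (nat_lit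 179) (nat_lit 5) (nat_lit 466) (nat_lit 364) (nat_lit 310)) (XT.nd (nat_lit 78) (nat_lit 380) (nat_lit 0) (XT.lf (nat_lit 0) (nat_lit 7251651020) (nat_lit 380) (nat_lit 1755608586) (nat_lit 456) (nat_lit 1630334530) (nat_lit 173) (nat_lit 5) (nat_lit 178) (nat_lit 5) (nat_lit 179) (nat_lit 5) (nat_lit 467) (nat_lit 364) (nat_lit 309)) (XT.lf (nat_lit 0) (nat_lit 2307652702) (nat_lit 380) (nat_lit 5916982416) (nat_lit 76) (nat_lit 2522536945) (nat_lit 168) (nat_lit 5) (nat_lit 173) (nat_lit 5) (nat_lit 169) (nat_lit 5) (nat_lit 468) (nat_lit 364) (nat_lit 308)))) (XT.nd (nat_lit 156) (nat_lit 760) (nat_lit 0) (XT.nd (nat_lit 78) (nat_lit 0) (nat_lit 0) (XT.lf (nat_lit 0) (nat_lit 2340486669) (nat_lit 380) (nat_lit 3970730222) (nat_lit 456) (nat_lit 4547336179) (nat_lit 163) (nat_lit 5) (nat_lit 168) (nat_lit 5) (nat_lit 169) (nat_lit 5) (nat_lit 469) (nat_lit 364) (nat_lit 307)) (XT.lf (nat_lit 0) (nat_lit 10396366840) (nat_lit 456) (nat_lit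 196622681) (nat_lit 76) (nat_lit 379141887) (nat_lit 163) (nat_lit 5) (nat_lit 169) (nat_lit 5) (nat_lit 164) (nat_lit 5) (nat_lit 470) (nat_lit 364) (nat_lit 306))) (XT.nd (nat_lit 78) (nat_lit 380) (nat_lit 0) (XT.lf (nat_lit 0) (nat_lit 3470127526) (nat_lit 380) (nat_lit 2800695467) (nat_lit 76) (nat_lit 4815897700) (nat_lit 158) (nat_lit 5) (nat_lit 163) (nat_lit 5) (nat_lit 159) (nat_lit 5) (nat_lit 471) (nat_lit 364) (nat_lit 305)) (XT.lf (nat_lit 0) (nat_lit 5744204688) (nat_lit 380) (nat_lit 1843714901) (nat_lit 456) (nat_lit 3615632226) (nat_lit 153) (nat_lit 5) (nat_lit 158) (nat_lit 5) (nat_lit 159) (nat_lit 5) (nat_lit 472) (nat_lit 364) (nat_lit 304)))))) (XT.nd (nat_lit 468) (nat_lit 988) (nat_lit 0) (XT.nd (nat_lit 234) (nat_lit 988) (nat_lit 0) (XT.nd (nat_lit 78) (nat_lit 304) (nat_lit 0) (XT.lf (nat_lit 0) (nat_lit 476239469) (nat_lit 380) (nat_lit 8191187826) (nat_lit 76) (nat_lit 2654891943) (nat_lit 148) (nat_lit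 5) (nat_lit 153) (nat_lit 5) (nat_lit 149) (nat_lit 5) (nat_lit 473) (nat_lit 364) (nat_lit 303)) (XT.nd (nat_lit 78) (nat_lit 0) (nat_lit 0) (XT.lf (nat_lit 0) (nat_lit 428890374) (nat_lit 304) (nat_lit 4184928228) (nat_lit 380) (nat_lit 6828919758) (nat_lit 144) (nat_lit 5) (nat_lit 148) (nat_lit 5) (nat_lit 149) (nat_lit 5) (nat_lit 474) (nat_lit 364) (nat_lit 302)) (XT.lf (nat_lit 0) (nat_lit 8852553561) (nat_lit 380) (nat_lit 2300164524) (nat_lit 76) (nat_lit 412479692) (nat_lit 144) (nat_lit 5) (nat_lit 149) (nat_lit 5) (nat_lit 145) (nat_lit 5) (nat_lit 475) (nat_lit 364) (nat_lit 301)))) (XT.nd (nat_lit 78) (nat_lit 608) (nat_lit 0) (XT.lf (nat_lit 0) (nat_lit 1498463514) (nat_lit 380) (nat_lit 5116865801) (nat_lit 76) (nat_lit 5073944206) (nat_lit 139) (nat_lit 5) (nat_lit 144) (nat_lit 5) (nat_lit 140) (nat_lit 5) (nat_lit 476) (nat_lit 364) (nat_lit 300)) (XT.nd (nat_lit 78) (nat_lit 304) (nat_lit 0) (XT.lf (nat_lit 0) (nat_lit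 3805900185) (nat_lit 304) (nat_lit 1953277087) (nat_lit 380) (nat_lit 6056260772) (nat_lit 135) (nat_lit 5) (nat_lit 139) (nat_lit 5) (nat_lit 140) (nat_lit 5) (nat_lit 477) (nat_lit 364) (nat_lit 299)) (XT.lf (nat_lit 0) (nat_lit 963037953) (nat_lit 304) (nat_lit 9162679652) (nat_lit 380) (nat_lit 1817996007) (nat_lit 131) (nat_lit 5) (nat_lit 135) (nat_lit 5) (nat_lit 136) (nat_lit 5) (nat_lit 478) (nat_lit 364) (nat_lit 298))))) (XT.nd (nat_lit 234) (nat_lit 380) (nat_lit 0) (XT.nd (nat_lit 78) (nat_lit 532) (nat_lit 0) (XT.lf (nat_lit 0) (nat_lit 2500909322) (nat_lit 380) (nat_lit 1943700959) (nat_lit 76) (nat_lit 7629044540) (nat_lit 130) (nat_lit 5) (nat_lit 135) (nat_lit 5) (nat_lit 131) (nat_lit 5) (nat_lit 479) (nat_lit 364) (nat_lit 297)) (XT.nd (nat_lit 78) (nat_lit 228) (nat_lit 0) (XT.lf (nat_lit 0) (nat_lit 6894290674) (nat_lit 380) (nat_lit 4913771727) (nat_lit 76) (nat_lit 397643295) (nat_lit 126) (nat_lit 5) (nat_lit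 131) (nat_lit 5) (nat_lit 127) (nat_lit 5) (nat_lit 480) (nat_lit 364) (nat_lit 296)) (XT.lf (nat_lit 0) (nat_lit 4362986585) (nat_lit 228) (nat_lit 7046050218) (nat_lit 304) (nat_lit 930690843) (nat_lit 123) (nat_lit 5) (nat_lit 126) (nat_lit 5) (nat_lit 127) (nat_lit 5) (nat_lit 481) (nat_lit 364) (nat_lit 295)))) (XT.nd (nat_lit 53742) (nat_lit 0) (nat_lit 38760) (XT.nd (nat_lit 78) (nat_lit 0) (nat_lit 0) (XT.lf (nat_lit 0) (nat_lit 1347313922) (nat_lit 304) (nat_lit 2148562697) (nat_lit 380) (nat_lit 8980001528) (nat_lit 118) (nat_lit 5) (nat_lit 122) (nat_lit 5) (nat_lit 123) (nat_lit 5) (nat_lit 482) (nat_lit 364) (nat_lit 294)) (XT.lf (nat_lit 0) (nat_lit 8033732652) (nat_lit 380) (nat_lit 1736147699) (nat_lit 76) (nat_lit 2844043885) (nat_lit 118) (nat_lit 5) (nat_lit 123) (nat_lit 5) (nat_lit 119) (nat_lit 5) (nat_lit 483) (nat_lit 364) (nat_lit 293))) (XT.nd (nat_lit 78) (nat_lit 0) (nat_lit 0) (XT.lf (nat_lit 0) (nat_lit 407220190)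 (nat_lit 1444) (nat_lit 2619919279) (nat_lit 0) (nat_lit 407220190) (nat_lit 628) (nat_lit 5) (nat_lit 647) (nat_lit 4) (nat_lit 628) (nat_lit 4) (nat_lit 410) (nat_lit 365) (nat_lit 365)) (XT.lf (nat_lit 0) (nat_lit 4245491937) (nat_lit 1444) (nat_lit 370196840) (nat_lit 0) (nat_lit 2282055571) (nat_lit 628) (nat_lit 5) (nat_lit 647) (nat_lit 4) (nat_lit 628) (nat_lit 4) (nat_lit 411) (nat_lit 365) (nat_lit 364))))))))
noncomputable def xc27 : XT := (XT.nd (nat_lit 2028) (nat_lit 11552) (nat_lit 0) (XT.nd (nat_lit 1014) (nat_lit 8132) (nat_lit 0) (XT.nd (nat_lit 468) (nat_lit 5852) (nat_lit 0) (XT.nd (nat_lit 234) (nat_lit 3496) (nat_lit 0) (XT.nd (nat_lit 78) (nat_lit 3192) (nat_lit 0) (XT.lf (nat_lit 0) (nat_lit 766051213) (nat_lit 1520) (nat_lit 2340950528) (nat_lit 76) (nat_lit 3821062694) (nat_lit 608) (nat_lit 5) (nat_lit 628) (nat_lit 5) (nat_lit 609) (nat_lit 4) (nat_lit 412) (nat_lit 365) (nat_lit 363)) (XT.nd (nat_lit 78) (nat_lit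 1672) (nat_lit 0) (XT.lf (nat_lit 0) (nat_lit 2641392690) (nat_lit 1520) (nat_lit 1525419393) (nat_lit 1596) (nat_lit 2792836116) (nat_lit 588) (nat_lit 5) (nat_lit 608) (nat_lit 5) (nat_lit 609) (nat_lit 4) (nat_lit 413) (nat_lit 365) (nat_lit 362)) (XT.lf (nat_lit 0) (nat_lit 586830757) (nat_lit 1672) (nat_lit 6290834868) (nat_lit 76) (nat_lit 115083448) (nat_lit 566) (nat_lit 5) (nat_lit 588) (nat_lit 5) (nat_lit 567) (nat_lit 4) (nat_lit 414) (nat_lit 365) (nat_lit 361)))) (XT.nd (nat_lit 78) (nat_lit 3496) (nat_lit 0) (XT.lf (nat_lit 0) (nat_lit 3967379058) (nat_lit 1672) (nat_lit 1240472111) (nat_lit 76) (nat_lit 1818877901) (nat_lit 566) (nat_lit 5) (nat_lit 588) (nat_lit 5) (nat_lit 567) (nat_lit 4) (nat_lit 415) (nat_lit 365) (nat_lit 360)) (XT.nd (nat_lit 78) (nat_lit 1748) (nat_lit 0) (XT.lf (nat_lit 0) (nat_lit 307248793) (nat_lit 1748) (nat_lit 3167711117) (nat_lit 76) (nat_lit 3587227890) (nat_lit 543) (nat_lit 5) (nat_lit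 566) (nat_lit 5) (nat_lit 544) (nat_lit 5) (nat_lit 416) (nat_lit 365) (nat_lit 359)) (XT.lf (nat_lit 0) (nat_lit 1990621252) (nat_lit 1748) (nat_lit 1664115980) (nat_lit 1824) (nat_lit 3444123580) (nat_lit 520) (nat_lit 5) (nat_lit 543) (nat_lit 5) (nat_lit 544) (nat_lit 5) (nat_lit 417) (nat_lit 365) (nat_lit 358))))) (XT.nd (nat_lit 234) (nat_lit 2812) (nat_lit 0) (XT.nd (nat_lit 78) (nat_lit 1216) (nat_lit 0) (XT.lf (nat_lit 0) (nat_lit 92290663) (nat_lit 1824) (nat_lit 6934137766) (nat_lit 1900) (nat_lit 110693796) (nat_lit 496) (nat_lit 5) (nat_lit 520) (nat_lit 5) (nat_lit 521) (nat_lit 4) (nat_lit 418) (nat_lit 365) (nat_lit 357)) (XT.nd (nat_lit 78) (nat_lit 1140) (nat_lit 0) (XT.lf (nat_lit 0) (nat_lit 3226289212) (nat_lit 1900) (nat_lit 1809232304) (nat_lit 76) (nat_lit 2140599694) (nat_lit 495) (nat_lit 5) (nat_lit 520) (nat_lit 5) (nat_lit 496) (nat_lit 5) (nat_lit 419) (nat_lit 365) (nat_lit 356)) (XT.lf (nat_lit 0) (nat_lit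 3510465274) (nat_lit 1140) (nat_lit 3076641538) (nat_lit 1216) (nat_lit 629607186) (nat_lit 480) (nat_lit 5) (nat_lit 495) (nat_lit 5) (nat_lit 496) (nat_lit 5) (nat_lit 420) (nat_lit 365) (nat_lit 355)))) (XT.nd (nat_lit 156) (nat_lit 1824) (nat_lit 0) (XT.nd (nat_lit 78) (nat_lit 0) (nat_lit 0) (XT.lf (nat_lit 0) (nat_lit 1640403783) (nat_lit 912) (nat_lit 1039529066) (nat_lit 988) (nat_lit 4578646395) (nat_lit 467) (nat_lit 5) (nat_lit 479) (nat_lit 5) (nat_lit 480) (nat_lit 5) (nat_lit 421) (nat_lit 365) (nat_lit 354)) (XT.lf (nat_lit 0) (nat_lit 6016020101) (nat_lit 988) (nat_lit 234771044) (nat_lit 76) (nat_lit 1051031678) (nat_lit 467) (nat_lit 5) (nat_lit 480) (nat_lit 5) (nat_lit 468) (nat_lit 5) (nat_lit 422) (nat_lit 365) (nat_lit 353))) (XT.nd (nat_lit 78) (nat_lit 836) (nat_lit 0) (XT.lf (nat_lit 0) (nat_lit 2024797842) (nat_lit 988) (nat_lit 2107186369) (nat_lit 76) (nat_lit 3214096161) (nat_lit 454) (nat_lit 5) (nat_lit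 467) (nat_lit 5) (nat_lit 455) (nat_lit 5) (nat_lit 423) (nat_lit 365) (nat_lit 352)) (XT.lf (nat_lit 0) (nat_lit 3403935108) (nat_lit 836) (nat_lit 1942780790) (nat_lit 912) (nat_lit 2045090743) (nat_lit 443) (nat_lit 5) (nat_lit 454) (nat_lit 5) (nat_lit 455) (nat_lit 5) (nat_lit 424) (nat_lit 365) (nat_lit 351)))))) (XT.nd (nat_lit 468) (nat_lit 4560) (nat_lit 0) (XT.nd (nat_lit 234) (nat_lit 1672) (nat_lit 0) (XT.nd (nat_lit 78) (nat_lit 912) (nat_lit 0) (XT.lf (nat_lit 0) (nat_lit 1245048934) (nat_lit 988) (nat_lit 5880018475) (nat_lit 76) (nat_lit 313903065) (nat_lit 430) (nat_lit 5) (nat_lit 443) (nat_lit 5) (nat_lit 431) (nat_lit 5) (nat_lit 425) (nat_lit 365) (nat_lit 350)) (XT.nd (nat_lit 78) (nat_lit 912) (nat_lit 0) (XT.lf (nat_lit 0) (nat_lit 4553160646) (nat_lit 988) (nat_lit 309669848) (nat_lit 76) (nat_lit 2624385669) (nat_lit 430) (nat_lit 5) (nat_lit 443) (nat_lit 5) (nat_lit 431) (nat_lit 5) (nat_lit 426) (nat_lit 365)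 (nat_lit 349)) (XT.lf (nat_lit 0) (nat_lit 361533308) (nat_lit 912) (nat_lit 2162677396) (nat_lit 76) (nat_lit 5012652216) (nat_lit 418) (nat_lit 5) (nat_lit 430) (nat_lit 5) (nat_lit 419) (nat_lit 5) (nat_lit 427) (nat_lit 365) (nat_lit 348)))) (XT.nd (nat_lit 78) (nat_lit 836) (nat_lit 0) (XT.lf (nat_lit 0) (nat_lit 3549222744) (nat_lit 836) (nat_lit 100948460) (nat_lit 912) (nat_lit 3937615039) (nat_lit 407) (nat_lit 5) (nat_lit 418) (nat_lit 5) (nat_lit 419) (nat_lit 5) (nat_lit 428) (nat_lit 365) (nat_lit 347)) (XT.nd (nat_lit 78) (nat_lit 76) (nat_lit 0) (XT.lf (nat_lit 0) (nat_lit 1705103836) (nat_lit 760) (nat_lit 5282474956) (nat_lit 836) (nat_lit 652489303) (nat_lit 397) (nat_lit 5) (nat_lit 407) (nat_lit 5) (nat_lit 408) (nat_lit 5) (nat_lit 429) (nat_lit 365) (nat_lit 346)) (XT.lf (nat_lit 0) (nat_lit 2633150027) (nat_lit 836) (nat_lit 160168166) (nat_lit 76) (nat_lit 4900322996) (nat_lit 396) (nat_lit 5) (nat_lit 407) (nat_lit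 5) (nat_lit 397) (nat_lit 5) (nat_lit 430) (nat_lit 365) (nat_lit 345))))) (XT.nd (nat_lit 234) (nat_lit 2204) (nat_lit 0) (XT.nd (nat_lit 78) (nat_lit 1596) (nat_lit 0) (XT.lf (nat_lit 0) (nat_lit 5735003133) (nat_lit 760) (nat_lit 221389501) (nat_lit 836) (nat_lit 1792194306) (nat_lit 386) (nat_lit 5) (nat_lit 396) (nat_lit 5) (nat_lit 397) (nat_lit 5) (nat_lit 431) (nat_lit 365) (nat_lit 344)) (XT.nd (nat_lit 78) (nat_lit 760) (nat_lit 0) (XT.lf (nat_lit 0) (nat_lit 1507259453) (nat_lit 836) (nat_lit 3900083602) (nat_lit 76) (nat_lit 2397368234) (nat_lit 375) (nat_lit 5) (nat_lit 386) (nat_lit 5) (nat_lit 376) (nat_lit 5) (nat_lit 432) (nat_lit 365) (nat_lit 343)) (XT.lf (nat_lit 0) (nat_lit 2053377527) (nat_lit 760) (nat_lit 2768056568) (nat_lit 836) (nat_lit 3040832516) (nat_lit 365) (nat_lit 5) (nat_lit 375) (nat_lit 5) (nat_lit 376) (nat_lit 5) (nat_lit 433) (nat_lit 365) (nat_lit 342)))) (XT.nd (nat_lit 156) (nat_lit 1444) (nat_lit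 0) (XT.nd (nat_lit 78) (nat_lit 0) (nat_lit 0) (XT.lf (nat_lit 0) (nat_lit 191606230) (nat_lit 684) (nat_lit 57820557) (nat_lit 760) (nat_lit 7672065938) (nat_lit 355) (nat_lit 5) (nat_lit 364) (nat_lit 5) (nat_lit 365) (nat_lit 5) (nat_lit 434) (nat_lit 365) (nat_lit 341)) (XT.lf (nat_lit 0) (nat_lit 3566801888) (nat_lit 760) (nat_lit 1696049313) (nat_lit 76) (nat_lit 2718609613) (nat_lit 355) (nat_lit 5) (nat_lit 365) (nat_lit 5) (nat_lit 356) (nat_lit 5) (nat_lit 435) (nat_lit 365) (nat_lit 340))) (XT.nd (nat_lit 78) (nat_lit 760) (nat_lit 0) (XT.lf (nat_lit 0) (nat_lit 4449964612) (nat_lit 684) (nat_lit 2476087144) (nat_lit 760) (nat_lit 1117065963) (nat_lit 346) (nat_lit 5) (nat_lit 355) (nat_lit 5) (nat_lit 356) (nat_lit 5) (nat_lit 436) (nat_lit 365) (nat_lit 339)) (XT.lf (nat_lit 0) (nat_lit 2194381913) (nat_lit 760) (nat_lit 5520150640) (nat_lit 76) (nat_lit 391636178) (nat_lit 336) (nat_lit 5) (nat_lit 346) (nat_lit 5) (nat_lit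 337) (nat_lit 5) (nat_lit 437) (nat_lit 365) (nat_lit 338))))))) (XT.nd (nat_lit 1014) (nat_lit 5320) (nat_lit 0) (XT.nd (nat_lit 468) (nat_lit 3572) (nat_lit 0) (XT.nd (nat_lit 234) (nat_lit 1292) (nat_lit 0) (XT.nd (nat_lit 78) (nat_lit 684) (nat_lit 0) (XT.lf (nat_lit 0) (nat_lit 685228776) (nat_lit 684) (nat_lit 4864061069) (nat_lit 760) (nat_lit 2621199469) (nat_lit 327) (nat_lit 5) (nat_lit 336) (nat_lit 5) (nat_lit 337) (nat_lit 5) (nat_lit 438) (nat_lit 365) (nat_lit 337)) (XT.nd (nat_lit 78) (nat_lit 608) (nat_lit 0) (XT.lf (nat_lit 0) (nat_lit 710159418) (nat_lit 760) (nat_lit 1218371868) (nat_lit 76) (nat_lit 6307777513) (nat_lit 326) (nat_lit 5) (nat_lit 336) (nat_lit 5) (nat_lit 327) (nat_lit 5) (nat_lit 439) (nat_lit 365) (nat_lit 336)) (XT.lf (nat_lit 0) (nat_lit 4062077287) (nat_lit 684) (nat_lit 3152695743) (nat_lit 76) (nat_lit 1088544527) (nat_lit 318) (nat_lit 5) (nat_lit 327) (nat_lit 5) (nat_lit 319) (nat_lit 5)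 (nat_lit 440) (nat_lit 365) (nat_lit 335)))) (XT.nd (nat_lit 78) (nat_lit 684) (nat_lit 0) (XT.lf (nat_lit 0) (nat_lit 3255167540) (nat_lit 608) (nat_lit 4216839362) (nat_lit 684) (nat_lit 899840122) (nat_lit 310) (nat_lit 5) (nat_lit 318) (nat_lit 5) (nat_lit 319) (nat_lit 5) (nat_lit 441) (nat_lit 365) (nat_lit 334)) (XT.nd (nat_lit 78) (nat_lit 0) (nat_lit 0) (XT.lf (nat_lit 0) (nat_lit 1326628141) (nat_lit 608) (nat_lit 1127846434) (nat_lit 684) (nat_lit 5987367091) (nat_lit 301) (nat_lit 5) (nat_lit 309) (nat_lit 5) (nat_lit 310) (nat_lit 5) (nat_lit 442) (nat_lit 365) (nat_lit 333)) (XT.lf (nat_lit 0) (nat_lit 5861071872) (nat_lit 684) (nat_lit 631116679) (nat_lit 76) (nat_lit 2020983790) (nat_lit 301) (nat_lit 5) (nat_lit 310) (nat_lit 5) (nat_lit 302) (nat_lit 5) (nat_lit 443) (nat_lit 365) (nat_lit 332))))) (XT.nd (nat_lit 234) (nat_lit 1748) (nat_lit 0) (XT.nd (nat_lit 78) (nat_lit 1140) (nat_lit 0) (XT.lf (nat_lit 0) (nat_lit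 736887154) (nat_lit 684) (nat_lit 2603202865) (nat_lit 76) (nat_lit 5245805228) (nat_lit 292) (nat_lit 5) (nat_lit 301) (nat_lit 5) (nat_lit 293) (nat_lit 5) (nat_lit 444) (nat_lit 365) (nat_lit 331)) (XT.nd (nat_lit 78) (nat_lit 608) (nat_lit 0) (XT.lf (nat_lit 0) (nat_lit 4046519499) (nat_lit 532) (nat_lit 92938450) (nat_lit 608) (nat_lit 4520637754) (nat_lit 285) (nat_lit 5) (nat_lit 292) (nat_lit 5) (nat_lit 293) (nat_lit 5) (nat_lit 445) (nat_lit 365) (nat_lit 330)) (XT.lf (nat_lit 0) (nat_lit 2068473320) (nat_lit 608) (nat_lit 5544694918) (nat_lit 684) (nat_lit 1122550169) (nat_lit 277) (nat_lit 5) (nat_lit 285) (nat_lit 5) (nat_lit 286) (nat_lit 5) (nat_lit 446) (nat_lit 365) (nat_lit 329)))) (XT.nd (nat_lit 156) (nat_lit 1140) (nat_lit 0) (XT.nd (nat_lit 78) (nat_lit 0) (nat_lit 0) (XT.lf (nat_lit 0) (nat_lit 52177723) (nat_lit 532) (nat_lit 2244084689) (nat_lit 608) (nat_lit 6516616868) (nat_lit 269) (nat_lit 5) (nat_lit 276)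 (nat_lit 5) (nat_lit 277) (nat_lit 5) (nat_lit 447) (nat_lit 365) (nat_lit 328)) (XT.lf (nat_lit 0) (nat_lit 5772541605) (nat_lit 608) (nat_lit 1976682326) (nat_lit 76) (nat_lit 1142128615) (nat_lit 269) (nat_lit 5) (nat_lit 277) (nat_lit 5) (nat_lit 270) (nat_lit 5) (nat_lit 448) (nat_lit 365) (nat_lit 327))) (XT.nd (nat_lit 78) (nat_lit 532) (nat_lit 0) (XT.lf (nat_lit 0) (nat_lit 341974623) (nat_lit 608) (nat_lit 4046902504) (nat_lit 76) (nat_lit 4582481617) (nat_lit 261) (nat_lit 5) (nat_lit 269) (nat_lit 5) (nat_lit 262) (nat_lit 5) (nat_lit 449) (nat_lit 365) (nat_lit 326)) (XT.lf (nat_lit 0) (nat_lit 2888643811) (nat_lit 532) (nat_lit 926636431) (nat_lit 608) (nat_lit 5237571216) (nat_lit 254) (nat_lit 5) (nat_lit 261) (nat_lit 5) (nat_lit 262) (nat_lit 5) (nat_lit 450) (nat_lit 365) (nat_lit 325)))))) (XT.nd (nat_lit 546) (nat_lit 2660) (nat_lit 0) (XT.nd (nat_lit 234) (nat_lit 1596) (nat_lit 0) (XT.nd (nat_lit 78) (nat_lit 532)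 (nat_lit 0) (XT.lf (nat_lit 0) (nat_lit 809265597) (nat_lit 532) (nat_lit 6551580037) (nat_lit 608) (nat_lit 1775072517) (nat_lit 247) (nat_lit 5) (nat_lit 254) (nat_lit 5) (nat_lit 255) (nat_lit 5) (nat_lit 451) (nat_lit 365) (nat_lit 324)) (XT.nd (nat_lit 78) (nat_lit 456) (nat_lit 0) (XT.lf (nat_lit 0) (nat_lit 1734883294) (nat_lit 608) (nat_lit 1298632338) (nat_lit 76) (nat_lit 6186877510) (nat_lit 246) (nat_lit 5) (nat_lit 254) (nat_lit 5) (nat_lit 247) (nat_lit 5) (nat_lit 452) (nat_lit 365) (nat_lit 323)) (XT.lf (nat_lit 0) (nat_lit 5287589548) (nat_lit 532) (nat_lit 3440555697) (nat_lit 76) (nat_lit 578251333) (nat_lit 240) (nat_lit 5) (nat_lit 247) (nat_lit 5) (nat_lit 241) (nat_lit 5) (nat_lit 453) (nat_lit 365) (nat_lit 322)))) (XT.nd (nat_lit 156) (nat_lit 532) (nat_lit 0) (XT.nd (nat_lit 78) (nat_lit 532) (nat_lit 0) (XT.lf (nat_lit 0) (nat_lit 3760638056) (nat_lit 532) (nat_lit 5158716286) (nat_lit 608) (nat_lit 474605653)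 (nat_lit 233) (nat_lit 5) (nat_lit 240) (nat_lit 5) (nat_lit 241) (nat_lit 5) (nat_lit 454) (nat_lit 365) (nat_lit 321)) (XT.lf (nat_lit 0) (nat_lit 1604213148) (nat_lit 456) (nat_lit 1483627810) (nat_lit 532) (nat_lit 6395254936) (nat_lit 226) (nat_lit 5) (nat_lit 232) (nat_lit 5) (nat_lit 233) (nat_lit 5) (nat_lit 455) (nat_lit 365) (nat_lit 320))) (XT.nd (nat_lit 78) (nat_lit 532) (nat_lit 0) (XT.lf (nat_lit 0) (nat_lit 6723162141) (nat_lit 532) (nat_lit 594784669) (nat_lit 76) (nat_lit 2255845348) (nat_lit 226) (nat_lit 5) (nat_lit 233) (nat_lit 5) (nat_lit 227) (nat_lit 5) (nat_lit 456) (nat_lit 365) (nat_lit 319)) (XT.lf (nat_lit 0) (nat_lit 765319076) (nat_lit 532) (nat_lit 2821107650) (nat_lit 76) (nat_lit 6079567031) (nat_lit 219) (nat_lit 5) (nat_lit 226) (nat_lit 5) (nat_lit 220) (nat_lit 5) (nat_lit 457) (nat_lit 365) (nat_lit 318))))) (XT.nd (nat_lit 234) (nat_lit 1292) (nat_lit 0) (XT.nd (nat_lit 78) (nat_lit 912) (nat_lit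 0) (XT.lf (nat_lit 0) (nat_lit 4407604529) (nat_lit 532) (nat_lit 5102987067) (nat_lit 76) (nat_lit 249227192) (nat_lit 213) (nat_lit 5) (nat_lit 220) (nat_lit 5) (nat_lit 214) (nat_lit 5) (nat_lit 458) (nat_lit 365) (nat_lit 317)) (XT.nd (nat_lit 78) (nat_lit 456) (nat_lit 0) (XT.lf (nat_lit 0) (nat_lit 2409716195) (nat_lit 456) (nat_lit 5728019548) (nat_lit 532) (nat_lit 1717484576) (nat_lit 207) (nat_lit 5) (nat_lit 213) (nat_lit 5) (nat_lit 214) (nat_lit 5) (nat_lit 459) (nat_lit 365) (nat_lit 316)) (XT.lf (nat_lit 0) (nat_lit 112747588) (nat_lit 380) (nat_lit 1842988166) (nat_lit 456) (nat_lit 7996697837) (nat_lit 201) (nat_lit 5) (nat_lit 206) (nat_lit 5) (nat_lit 207) (nat_lit 5) (nat_lit 460) (nat_lit 365) (nat_lit 315)))) (XT.nd (nat_lit 156) (nat_lit 836) (nat_lit 0) (XT.nd (nat_lit 78) (nat_lit 456) (nat_lit 0) (XT.lf (nat_lit 0) (nat_lit 5700475273) (nat_lit 456) (nat_lit 2218836228) (nat_lit 76) (nat_lit 2131631539) (nat_lit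 201) (nat_lit 5) (nat_lit 207) (nat_lit 5) (nat_lit 202) (nat_lit 5) (nat_lit 461) (nat_lit 365) (nat_lit 314)) (XT.lf (nat_lit 0) (nat_lit 5550445185) (nat_lit 456) (nat_lit 3975723931) (nat_lit 532) (nat_lit 625132370) (nat_lit 195) (nat_lit 5) (nat_lit 201) (nat_lit 5) (nat_lit 202) (nat_lit 5) (nat_lit 462) (nat_lit 365) (nat_lit 313))) (XT.nd (nat_lit 78) (nat_lit 380) (nat_lit 0) (XT.lf (nat_lit 0) (nat_lit 3127373732) (nat_lit 456) (nat_lit 7045429987) (nat_lit 76) (nat_lit 80565117) (nat_lit 189) (nat_lit 5) (nat_lit 195) (nat_lit 5) (nat_lit 190) (nat_lit 5) (nat_lit 463) (nat_lit 365) (nat_lit 312)) (XT.lf (nat_lit 0) (nat_lit 793175287) (nat_lit 380) (nat_lit 6174160947) (nat_lit 456) (nat_lit 3389643123) (nat_lit 184) (nat_lit 5) (nat_lit 189) (nat_lit 5) (nat_lit 190) (nat_lit 5) (nat_lit 464) (nat_lit 365) (nat_lit 311))))))))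
noncomputable def xc28 : XT := (XT.nd (nat_lit 55458) (nat_lit 0) (nat_lit 15200) (XT.nd (nat_lit 1014) (nat_lit 1596) (nat_lit 0) (XT.nd (nat_lit 468) (nat_lit 1824) (nat_lit 0) (XT.nd (nat_lit 234) (nat_lit 760) (nat_lit 0) (XT.nd (nat_lit 78) (nat_lit 760) (nat_lit 0) (XT.lf (nat_lit 0) (nat_lit 421837805) (nat_lit 456) (nat_lit 1645806088) (nat_lit 76) (nat_lit 8394844887) (nat_lit 183) (nat_lit 5) (nat_lit 189) (nat_lit 5) (nat_lit 184) (nat_lit 5) (nat_lit 465) (nat_lit 365) (nat_lit 310)) (XT.nd (nat_lit 78) (nat_lit 380) (nat_lit 0) (XT.lf (nat_lit 0) (nat_lit 4279143433) (nat_lit 456) (nat_lit 4155091528) (nat_lit 76) (nat_lit 2135125671) (nat_lit 178) (nat_lit 5) (nat_lit 184) (nat_lit 5) (nat_lit 179) (nat_lit 5) (nat_lit 466) (nat_lit 365) (nat_lit 309)) (XT.lf (nat_lit 0) (nat_lit 3953734417) (nat_lit 380) (nat_lit 4269736077) (nat_lit 456) (nat_lit 2454701921) (nat_lit 173) (nat_lit 5) (nat_lit 178) (nat_lit 5) (nat_lit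 179) (nat_lit 5) (nat_lit 467) (nat_lit 365) (nat_lit 308)))) (XT.nd (nat_lit 78) (nat_lit 380) (nat_lit 0) (XT.lf (nat_lit 0) (nat_lit 1435333978) (nat_lit 380) (nat_lit 9351560609) (nat_lit 76) (nat_lit 2138062) (nat_lit 168) (nat_lit 5) (nat_lit 173) (nat_lit 5) (nat_lit 169) (nat_lit 5) (nat_lit 468) (nat_lit 365) (nat_lit 307)) (XT.nd (nat_lit 78) (nat_lit 380) (nat_lit 0) (XT.lf (nat_lit 0) (nat_lit 5403770371) (nat_lit 380) (nat_lit 1156669875) (nat_lit 76) (nat_lit 4340675966) (nat_lit 168) (nat_lit 5) (nat_lit 173) (nat_lit 5) (nat_lit 169) (nat_lit 5) (nat_lit 469) (nat_lit 365) (nat_lit 306)) (XT.lf (nat_lit 0) (nat_lit 7233852195) (nat_lit 380) (nat_lit 2225217475) (nat_lit 456) (nat_lit 1556221892) (nat_lit 163) (nat_lit 5) (nat_lit 168) (nat_lit 5) (nat_lit 169) (nat_lit 5) (nat_lit 470) (nat_lit 365) (nat_lit 305))))) (XT.nd (nat_lit 234) (nat_lit 1064) (nat_lit 0) (XT.nd (nat_lit 78) (nat_lit 380) (nat_lit 0) (XT.lf (nat_lit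 0) (nat_lit 2444569218) (nat_lit 380) (nat_lit 6487857258) (nat_lit 76) (nat_lit 2198740884) (nat_lit 158) (nat_lit 5) (nat_lit 163) (nat_lit 5) (nat_lit 159) (nat_lit 5) (nat_lit 471) (nat_lit 365) (nat_lit 304)) (XT.nd (nat_lit 78) (nat_lit 0) (nat_lit 0) (XT.lf (nat_lit 0) (nat_lit 1976210773) (nat_lit 380) (nat_lit 4542302112) (nat_lit 456) (nat_lit 4730362565) (nat_lit 153) (nat_lit 5) (nat_lit 158) (nat_lit 5) (nat_lit 159) (nat_lit 5) (nat_lit 472) (nat_lit 365) (nat_lit 303)) (XT.lf (nat_lit 0) (nat_lit 10634465560) (nat_lit 380) (nat_lit 44209430) (nat_lit 456) (nat_lit 690167920) (nat_lit 153) (nat_lit 5) (nat_lit 158) (nat_lit 5) (nat_lit 159) (nat_lit 5) (nat_lit 473) (nat_lit 365) (nat_lit 302)))) (XT.nd (nat_lit 156) (nat_lit 380) (nat_lit 0) (XT.nd (nat_lit 78) (nat_lit 304) (nat_lit 0) (XT.lf (nat_lit 0) (nat_lit 3429291557) (nat_lit 380) (nat_lit 3525385153) (nat_lit 76) (nat_lit 4535218368) (nat_lit 148) (nat_lit 5)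 (nat_lit 153) (nat_lit 5) (nat_lit 149) (nat_lit 5) (nat_lit 474) (nat_lit 365) (nat_lit 301)) (XT.lf (nat_lit 0) (nat_lit 5235320753) (nat_lit 304) (nat_lit 2387736139) (nat_lit 380) (nat_lit 3990196996) (nat_lit 144) (nat_lit 5) (nat_lit 148) (nat_lit 5) (nat_lit 149) (nat_lit 5) (nat_lit 475) (nat_lit 365) (nat_lit 300))) (XT.nd (nat_lit 78) (nat_lit 0) (nat_lit 0) (XT.lf (nat_lit 0) (nat_lit 176061312) (nat_lit 380) (nat_lit 9305144705) (nat_lit 76) (nat_lit 2257521605) (nat_lit 139) (nat_lit 5) (nat_lit 144) (nat_lit 5) (nat_lit 140) (nat_lit 5) (nat_lit 476) (nat_lit 365) (nat_lit 299)) (XT.lf (nat_lit 0) (nat_lit 4393342191) (nat_lit 380) (nat_lit 463373574) (nat_lit 76) (nat_lit 7009045037) (nat_lit 139) (nat_lit 5) (nat_lit 144) (nat_lit 5) (nat_lit 140) (nat_lit 5) (nat_lit 477) (nat_lit 365) (nat_lit 298)))))) (XT.nd (nat_lit 53898) (nat_lit 0) (nat_lit 34048) (XT.nd (nat_lit 234) (nat_lit 608) (nat_lit 0) (XT.nd (nat_lit 78)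 (nat_lit 684) (nat_lit 0) (XT.lf (nat_lit 0) (nat_lit 8606559379) (nat_lit 304) (nat_lit 107211007) (nat_lit 380) (nat_lit 3281188228) (nat_lit 135) (nat_lit 5) (nat_lit 139) (nat_lit 5) (nat_lit 140) (nat_lit 5) (nat_lit 478) (nat_lit 365) (nat_lit 297)) (XT.nd (nat_lit 78) (nat_lit 304) (nat_lit 0) (XT.lf (nat_lit 0) (nat_lit 1015177580) (nat_lit 380) (nat_lit 6412723812) (nat_lit 76) (nat_lit 4698023021) (nat_lit 130) (nat_lit 5) (nat_lit 135) (nat_lit 5) (nat_lit 131) (nat_lit 5) (nat_lit 479) (nat_lit 365) (nat_lit 296)) (XT.lf (nat_lit 0) (nat_lit 2735185364) (nat_lit 304) (nat_lit 2622925583) (nat_lit 380) (nat_lit 6900873302) (nat_lit 126) (nat_lit 5) (nat_lit 130) (nat_lit 5) (nat_lit 131) (nat_lit 5) (nat_lit 480) (nat_lit 365) (nat_lit 295)))) (XT.nd (nat_lit 78) (nat_lit 608) (nat_lit 0) (XT.lf (nat_lit 0) (nat_lit 9809350808) (nat_lit 380) (nat_lit 317908786) (nat_lit 76) (nat_lit 2267016730) (nat_lit 126) (nat_lit 5) (nat_lit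 131) (nat_lit 5) (nat_lit 127) (nat_lit 5) (nat_lit 481) (nat_lit 365) (nat_lit 294)) (XT.nd (nat_lit 78) (nat_lit 304) (nat_lit 0) (XT.lf (nat_lit 0) (nat_lit 1834374280) (nat_lit 304) (nat_lit 3430028311) (nat_lit 76) (nat_lit 7266818306) (nat_lit 122) (nat_lit 5) (nat_lit 126) (nat_lit 5) (nat_lit 123) (nat_lit 5) (nat_lit 482) (nat_lit 365) (nat_lit 293)) (XT.lf (nat_lit 0) (nat_lit 6043422651) (nat_lit 304) (nat_lit 269577623) (nat_lit 380) (nat_lit 6357451313) (nat_lit 118) (nat_lit 5) (nat_lit 122) (nat_lit 5) (nat_lit 123) (nat_lit 5) (nat_lit 483) (nat_lit 365) (nat_lit 292))))) (XT.nd (nat_lit 234) (nat_lit 4712) (nat_lit 0) (XT.nd (nat_lit 78) (nat_lit 2736) (nat_lit 0) (XT.lf (nat_lit 0) (nat_lit 1413983604) (nat_lit 1292) (nat_lit 578846109) (nat_lit 0) (nat_lit 1413983604) (nat_lit 664) (nat_lit 5) (nat_lit 681) (nat_lit 4) (nat_lit 664) (nat_lit 4) (nat_lit 408) (nat_lit 366) (nat_lit 366)) (XT.nd (nat_lit 78) (nat_lit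 1444) (nat_lit 0) (XT.lf (nat_lit 0) (nat_lit 3624995021) (nat_lit 1292) (nat_lit 2629297864) (nat_lit 1292) (nat_lit 586538669) (nat_lit 647) (nat_lit 4) (nat_lit 664) (nat_lit 5) (nat_lit 664) (nat_lit 4) (nat_lit 409) (nat_lit 366) (nat_lit 365)) (XT.lf (nat_lit 0) (nat_lit 1588917477) (nat_lit 1368) (nat_lit 1200380426) (nat_lit 1444) (nat_lit 4079978366) (nat_lit 628) (nat_lit 5) (nat_lit 646) (nat_lit 5) (nat_lit 647) (nat_lit 4) (nat_lit 410) (nat_lit 366) (nat_lit 364)))) (XT.nd (nat_lit 156) (nat_lit 3192) (nat_lit 0) (XT.nd (nat_lit 78) (nat_lit 1520) (nat_lit 0) (XT.lf (nat_lit 0) (nat_lit 6177613407) (nat_lit 1444) (nat_lit 435008281) (nat_lit 0) (nat_lit 286534333) (nat_lit 628) (nat_lit 5) (nat_lit 647) (nat_lit 4) (nat_lit 628) (nat_lit 4) (nat_lit 411) (nat_lit 366) (nat_lit 363)) (XT.lf (nat_lit 0) (nat_lit 2636317761) (nat_lit 1520) (nat_lit 2452910934) (nat_lit 76) (nat_lit 1840699136) (nat_lit 608) (nat_lit 5) (nat_lit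 628) (nat_lit 5) (nat_lit 609) (nat_lit 4) (nat_lit 412) (nat_lit 366) (nat_lit 362))) (XT.nd (nat_lit 78) (nat_lit 1672) (nat_lit 0) (XT.lf (nat_lit 0) (nat_lit 2495822287) (nat_lit 1520) (nat_lit 3506299019) (nat_lit 1596) (nat_lit 960089436) (nat_lit 588) (nat_lit 5) (nat_lit 608) (nat_lit 5) (nat_lit 609) (nat_lit 4) (nat_lit 413) (nat_lit 366) (nat_lit 361)) (XT.lf (nat_lit 0) (nat_lit 508161830) (nat_lit 1596) (nat_lit 1851586762) (nat_lit 1672) (nat_lit 4636040877) (nat_lit 566) (nat_lit 5) (nat_lit 587) (nat_lit 5) (nat_lit 588) (nat_lit 5) (nat_lit 414) (nat_lit 366) (nat_lit 360))))))) (XT.nd (nat_lit 1014) (nat_lit 7600) (nat_lit 0) (XT.nd (nat_lit 468) (nat_lit 4636) (nat_lit 0) (XT.nd (nat_lit 234) (nat_lit 3116) (nat_lit 0) (XT.nd (nat_lit 78) (nat_lit 3496) (nat_lit 0) (XT.lf (nat_lit 0) (nat_lit 5572207011) (nat_lit 1596) (nat_lit 123564953) (nat_lit 1672) (nat_lit 1334888000) (nat_lit 566) (nat_lit 5) (nat_lit 587) (nat_lit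 5) (nat_lit 588) (nat_lit 5) (nat_lit 415) (nat_lit 366) (nat_lit 359)) (XT.nd (nat_lit 78) (nat_lit 1748) (nat_lit 0) (XT.lf (nat_lit 0) (nat_lit 1973769258) (nat_lit 1748) (nat_lit 3435566904) (nat_lit 76) (nat_lit 1657265103) (nat_lit 543) (nat_lit 5) (nat_lit 566) (nat_lit 5) (nat_lit 544) (nat_lit 5) (nat_lit 416) (nat_lit 366) (nat_lit 358)) (XT.lf (nat_lit 0) (nat_lit 1686786569) (nat_lit 1748) (nat_lit 3600067972) (nat_lit 1824) (nat_lit 1817107800) (nat_lit 520) (nat_lit 5) (nat_lit 543) (nat_lit 5) (nat_lit 544) (nat_lit 5) (nat_lit 417) (nat_lit 366) (nat_lit 357)))) (XT.nd (nat_lit 78) (nat_lit 3040) (nat_lit 0) (XT.lf (nat_lit 0) (nat_lit 1462278812) (nat_lit 1824) (nat_lit 258568311) (nat_lit 76) (nat_lit 5421862857) (nat_lit 519) (nat_lit 5) (nat_lit 543) (nat_lit 5) (nat_lit 520) (nat_lit 5) (nat_lit 418) (nat_lit 366) (nat_lit 356)) (XT.nd (nat_lit 78) (nat_lit 1216) (nat_lit 0) (XT.lf (nat_lit 0) (nat_lit 4753134435)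 (nat_lit 1900) (nat_lit 2191317991) (nat_lit 76) (nat_lit 238135678) (nat_lit 495) (nat_lit 5) (nat_lit 520) (nat_lit 5) (nat_lit 496) (nat_lit 5) (nat_lit 419) (nat_lit 366) (nat_lit 355)) (XT.lf (nat_lit 0) (nat_lit 844972840) (nat_lit 1216) (nat_lit 4138535329) (nat_lit 76) (nat_lit 2240239368) (nat_lit 479) (nat_lit 5) (nat_lit 495) (nat_lit 5) (nat_lit 480) (nat_lit 5) (nat_lit 420) (nat_lit 366) (nat_lit 354))))) (XT.nd (nat_lit 234) (nat_lit 2736) (nat_lit 0) (XT.nd (nat_lit 78) (nat_lit 988) (nat_lit 0) (XT.lf (nat_lit 0) (nat_lit 1165607012) (nat_lit 912) (nat_lit 2946599768) (nat_lit 988) (nat_lit 3154005219) (nat_lit 467) (nat_lit 5) (nat_lit 479) (nat_lit 5) (nat_lit 480) (nat_lit 5) (nat_lit 421) (nat_lit 366) (nat_lit 353)) (XT.nd (nat_lit 78) (nat_lit 912) (nat_lit 0) (XT.lf (nat_lit 0) (nat_lit 99288188) (nat_lit 988) (nat_lit 743533913) (nat_lit 76) (nat_lit 6467370035) (nat_lit 466) (nat_lit 5) (nat_lit 479) (nat_lit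 5) (nat_lit 467) (nat_lit 5) (nat_lit 422) (nat_lit 366) (nat_lit 352)) (XT.lf (nat_lit 0) (nat_lit 3353797536) (nat_lit 988) (nat_lit 2666775694) (nat_lit 76) (nat_lit 1334494044) (nat_lit 454) (nat_lit 5) (nat_lit 467) (nat_lit 5) (nat_lit 455) (nat_lit 5) (nat_lit 423) (nat_lit 366) (nat_lit 351)))) (XT.nd (nat_lit 156) (nat_lit 912) (nat_lit 0) (XT.nd (nat_lit 78) (nat_lit 988) (nat_lit 0) (XT.lf (nat_lit 0) (nat_lit 2804349710) (nat_lit 836) (nat_lit 3837682552) (nat_lit 912) (nat_lit 759434948) (nat_lit 443) (nat_lit 5) (nat_lit 454) (nat_lit 5) (nat_lit 455) (nat_lit 5) (nat_lit 424) (nat_lit 366) (nat_lit 350)) (XT.lf (nat_lit 0) (nat_lit 902513741) (nat_lit 912) (nat_lit 1575380177) (nat_lit 988) (nat_lit 4971289163) (nat_lit 430) (nat_lit 5) (nat_lit 442) (nat_lit 5) (nat_lit 443) (nat_lit 5) (nat_lit 425) (nat_lit 366) (nat_lit 349))) (XT.nd (nat_lit 78) (nat_lit 912) (nat_lit 0) (XT.lf (nat_lit 0) (nat_lit 5746522398) (nat_lit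 988) (nat_lit 998760308) (nat_lit 76) (nat_lit 752935728) (nat_lit 430) (nat_lit 5) (nat_lit 443) (nat_lit 5) (nat_lit 431) (nat_lit 5) (nat_lit 426) (nat_lit 366) (nat_lit 348)) (XT.lf (nat_lit 0) (nat_lit 1494739178) (nat_lit 912) (nat_lit 2912504673) (nat_lit 76) (nat_lit 3141140741) (nat_lit 418) (nat_lit 5) (nat_lit 430) (nat_lit 5) (nat_lit 419) (nat_lit 5) (nat_lit 427) (nat_lit 366) (nat_lit 347)))))) (XT.nd (nat_lit 468) (nat_lit 3572) (nat_lit 0) (XT.nd (nat_lit 234) (nat_lit 2356) (nat_lit 0) (XT.nd (nat_lit 78) (nat_lit 836) (nat_lit 0) (XT.lf (nat_lit 0) (nat_lit 2756807119) (nat_lit 836) (nat_lit 1992912087) (nat_lit 912) (nat_lit 2850261867) (nat_lit 407) (nat_lit 5) (nat_lit 418) (nat_lit 5) (nat_lit 419) (nat_lit 5) (nat_lit 428) (nat_lit 366) (nat_lit 346)) (XT.nd (nat_lit 78) (nat_lit 0) (nat_lit 0) (XT.lf (nat_lit 0) (nat_lit 382959699) (nat_lit 836) (nat_lit 6786407153) (nat_lit 76) (nat_lit 483763622) (nat_lit 396)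 (nat_lit 5) (nat_lit 407) (nat_lit 5) (nat_lit 397) (nat_lit 5) (nat_lit 429) (nat_lit 366) (nat_lit 345)) (XT.lf (nat_lit 0) (nat_lit 3632013649) (nat_lit 836) (nat_lit 1048528241) (nat_lit 76) (nat_lit 3026637508) (nat_lit 396) (nat_lit 5) (nat_lit 407) (nat_lit 5) (nat_lit 397) (nat_lit 5) (nat_lit 430) (nat_lit 366) (nat_lit 344)))) (XT.nd (nat_lit 78) (nat_lit 1596) (nat_lit 0) (XT.lf (nat_lit 0) (nat_lit 4802371437) (nat_lit 760) (nat_lit 2119351255) (nat_lit 836) (nat_lit 841073128) (nat_lit 386) (nat_lit 5) (nat_lit 396) (nat_lit 5) (nat_lit 397) (nat_lit 5) (nat_lit 431) (nat_lit 366) (nat_lit 343)) (XT.nd (nat_lit 78) (nat_lit 760) (nat_lit 0) (XT.lf (nat_lit 0) (nat_lit 2399742480) (nat_lit 836) (nat_lit 4900789805) (nat_lit 76) (nat_lit 519187658) (nat_lit 375) (nat_lit 5) (nat_lit 386) (nat_lit 5) (nat_lit 376) (nat_lit 5) (nat_lit 432) (nat_lit 366) (nat_lit 342)) (XT.lf (nat_lit 0) (nat_lit 1006452556) (nat_lit 760) (nat_lit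 4673637105) (nat_lit 836) (nat_lit 2197862154) (nat_lit 365) (nat_lit 5) (nat_lit 375) (nat_lit 5) (nat_lit 376) (nat_lit 5) (nat_lit 433) (nat_lit 366) (nat_lit 341))))) (XT.nd (nat_lit 234) (nat_lit 2128) (nat_lit 0) (XT.nd (nat_lit 78) (nat_lit 1368) (nat_lit 0) (XT.lf (nat_lit 0) (nat_lit 1053210848) (nat_lit 836) (nat_lit 911621746) (nat_lit 76) (nat_lit 5972798483) (nat_lit 364) (nat_lit 5) (nat_lit 375) (nat_lit 5) (nat_lit 365) (nat_lit 5) (nat_lit 434) (nat_lit 366) (nat_lit 340)) (XT.nd (nat_lit 78) (nat_lit 684) (nat_lit 0) (XT.lf (nat_lit 0) (nat_lit 4325559323) (nat_lit 760) (nat_lit 2848139739) (nat_lit 76) (nat_lit 824800637) (nat_lit 355) (nat_lit 5) (nat_lit 365) (nat_lit 5) (nat_lit 356) (nat_lit 5) (nat_lit 435) (nat_lit 366) (nat_lit 339)) (XT.lf (nat_lit 0) (nat_lit 3249869548) (nat_lit 684) (nat_lit 4401061743) (nat_lit 760) (nat_lit 409902872) (nat_lit 346) (nat_lit 5) (nat_lit 355) (nat_lit 5) (nat_lit 356) (nat_lit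 5) (nat_lit 436) (nat_lit 366) (nat_lit 338)))) (XT.nd (nat_lit 156) (nat_lit 1368) (nat_lit 0) (XT.nd (nat_lit 78) (nat_lit 0) (nat_lit 0) (XT.lf (nat_lit 0) (nat_lit 1317169843) (nat_lit 684) (nat_lit 1538315318) (nat_lit 760) (nat_lit 5269043891) (nat_lit 336) (nat_lit 5) (nat_lit 345) (nat_lit 5) (nat_lit 346) (nat_lit 5) (nat_lit 437) (nat_lit 366) (nat_lit 337)) (XT.lf (nat_lit 0) (nat_lit 6170260442) (nat_lit 760) (nat_lit 633634263) (nat_lit 76) (nat_lit 1385757583) (nat_lit 336) (nat_lit 5) (nat_lit 346) (nat_lit 5) (nat_lit 337) (nat_lit 5) (nat_lit 438) (nat_lit 366) (nat_lit 336))) (XT.nd (nat_lit 78) (nat_lit 608) (nat_lit 0) (XT.lf (nat_lit 0) (nat_lit 1274307031) (nat_lit 760) (nat_lit 2601561969) (nat_lit 76) (nat_lit 4380119969) (nat_lit 326) (nat_lit 5) (nat_lit 336) (nat_lit 5) (nat_lit 327) (nat_lit 5) (nat_lit 439) (nat_lit 366) (nat_lit 335)) (XT.lf (nat_lit 0) (nat_lit 3723789890) (nat_lit 608) (nat_lit 860892616)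 (nat_lit 684) (nat_lit 3739146070) (nat_lit 318) (nat_lit 5) (nat_lit 326) (nat_lit 5) (nat_lit 327) (nat_lit 5) (nat_lit 440) (nat_lit 366) (nat_lit 334))))))))
noncomputable def xc29 : XT := (XT.nd (nat_lit 2028) (nat_lit 4560) (nat_lit 0) (XT.nd (nat_lit 1014) (nat_lit 4712) (nat_lit 0) (XT.nd (nat_lit 468) (nat_lit 2812) (nat_lit 0) (XT.nd (nat_lit 234) (nat_lit 1824) (nat_lit 0) (XT.nd (nat_lit 78) (nat_lit 684) (nat_lit 0) (XT.lf (nat_lit 0) (nat_lit 1761448202) (nat_lit 608) (nat_lit 6193044577) (nat_lit 684) (nat_lit 438667650) (nat_lit 310) (nat_lit 5) (nat_lit 318) (nat_lit 5) (nat_lit 319) (nat_lit 5) (nat_lit 441) (nat_lit 366) (nat_lit 333)) (XT.nd (nat_lit 78) (nat_lit 608) (nat_lit 0) (XT.lf (nat_lit 0) (nat_lit 2876269167) (nat_lit 684) (nat_lit 241288755) (nat_lit 76) (nat_lit 5346203857) (nat_lit 309) (nat_lit 5) (nat_lit 318) (nat_lit 5) (nat_lit 310) (nat_lit 5) (nat_lit 442) (nat_lit 366) (nat_lit 332)) (XT.lf (nat_lit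 0) (nat_lit 6243858015) (nat_lit 684) (nat_lit 2243978135) (nat_lit 76) (nat_lit 48036471) (nat_lit 301) (nat_lit 5) (nat_lit 310) (nat_lit 5) (nat_lit 302) (nat_lit 5) (nat_lit 443) (nat_lit 366) (nat_lit 331)))) (XT.nd (nat_lit 78) (nat_lit 1140) (nat_lit 0) (XT.lf (nat_lit 0) (nat_lit 1057186050) (nat_lit 684) (nat_lit 4295502493) (nat_lit 76) (nat_lit 3256561514) (nat_lit 292) (nat_lit 5) (nat_lit 301) (nat_lit 5) (nat_lit 293) (nat_lit 5) (nat_lit 444) (nat_lit 366) (nat_lit 330)) (XT.nd (nat_lit 78) (nat_lit 608) (nat_lit 0) (XT.lf (nat_lit 0) (nat_lit 2299122100) (nat_lit 532) (nat_lit 2125384410) (nat_lit 608) (nat_lit 4259649010) (nat_lit 285) (nat_lit 5) (nat_lit 292) (nat_lit 5) (nat_lit 293) (nat_lit 5) (nat_lit 445) (nat_lit 366) (nat_lit 329)) (XT.lf (nat_lit 0) (nat_lit 254027858) (nat_lit 608) (nat_lit 7595514414) (nat_lit 684) (nat_lit 911209443) (nat_lit 277) (nat_lit 5) (nat_lit 285) (nat_lit 5) (nat_lit 286) (nat_lit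 5) (nat_lit 446) (nat_lit 366) (nat_lit 328))))) (XT.nd (nat_lit 234) (nat_lit 1596) (nat_lit 0) (XT.nd (nat_lit 78) (nat_lit 1140) (nat_lit 0) (XT.lf (nat_lit 0) (nat_lit 2480895161) (nat_lit 684) (nat_lit 1821845507) (nat_lit 76) (nat_lit 4535623201) (nat_lit 276) (nat_lit 5) (nat_lit 285) (nat_lit 5) (nat_lit 277) (nat_lit 5) (nat_lit 447) (nat_lit 366) (nat_lit 327)) (XT.nd (nat_lit 78) (nat_lit 608) (nat_lit 0) (XT.lf (nat_lit 0) (nat_lit 4991825663) (nat_lit 532) (nat_lit 922504573) (nat_lit 608) (nat_lit 3003363779) (nat_lit 269) (nat_lit 5) (nat_lit 276) (nat_lit 5) (nat_lit 277) (nat_lit 5) (nat_lit 448) (nat_lit 366) (nat_lit 326)) (XT.lf (nat_lit 0) (nat_lit 413702106) (nat_lit 608) (nat_lit 6076043125) (nat_lit 76) (nat_lit 2508784104) (nat_lit 261) (nat_lit 5) (nat_lit 269) (nat_lit 5) (nat_lit 262) (nat_lit 5) (nat_lit 449) (nat_lit 366) (nat_lit 325)))) (XT.nd (nat_lit 156) (nat_lit 1064) (nat_lit 0) (XT.nd (nat_lit 78)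 (nat_lit 0) (nat_lit 0) (XT.lf (nat_lit 0) (nat_lit 799974751) (nat_lit 532) (nat_lit 3050621418) (nat_lit 608) (nat_lit 5230154109) (nat_lit 254) (nat_lit 5) (nat_lit 261) (nat_lit 5) (nat_lit 262) (nat_lit 5) (nat_lit 450) (nat_lit 366) (nat_lit 324)) (XT.lf (nat_lit 0) (nat_lit 7354446730) (nat_lit 608) (nat_lit 1336441103) (nat_lit 76) (nat_lit 473763435) (nat_lit 254) (nat_lit 5) (nat_lit 262) (nat_lit 5) (nat_lit 255) (nat_lit 5) (nat_lit 451) (nat_lit 366) (nat_lit 323))) (XT.nd (nat_lit 78) (nat_lit 456) (nat_lit 0) (XT.lf (nat_lit 0) (nat_lit 1668778719) (nat_lit 608) (nat_lit 3523125261) (nat_lit 76) (nat_lit 4057855508) (nat_lit 246) (nat_lit 5) (nat_lit 254) (nat_lit 5) (nat_lit 247) (nat_lit 5) (nat_lit 452) (nat_lit 366) (nat_lit 322)) (XT.lf (nat_lit 0) (nat_lit 3583476181) (nat_lit 456) (nat_lit 1597220773) (nat_lit 532) (nat_lit 4155881731) (nat_lit 240) (nat_lit 5) (nat_lit 246) (nat_lit 5) (nat_lit 247) (nat_lit 5)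 (nat_lit 453) (nat_lit 366) (nat_lit 321)))))) (XT.nd (nat_lit 468) (nat_lit 2660) (nat_lit 0) (XT.nd (nat_lit 234) (nat_lit 988) (nat_lit 0) (XT.nd (nat_lit 78) (nat_lit 532) (nat_lit 0) (XT.lf (nat_lit 0) (nat_lit 1395508153) (nat_lit 532) (nat_lit 7369254048) (nat_lit 608) (nat_lit 660333892) (nat_lit 233) (nat_lit 5) (nat_lit 240) (nat_lit 5) (nat_lit 241) (nat_lit 5) (nat_lit 454) (nat_lit 366) (nat_lit 320)) (XT.nd (nat_lit 78) (nat_lit 456) (nat_lit 0) (XT.lf (nat_lit 0) (nat_lit 2872240471) (nat_lit 608) (nat_lit 843901580) (nat_lit 76) (nat_lit 5798760221) (nat_lit 232) (nat_lit 5) (nat_lit 240) (nat_lit 5) (nat_lit 233) (nat_lit 5) (nat_lit 455) (nat_lit 366) (nat_lit 319)) (XT.lf (nat_lit 0) (nat_lit 6465742413) (nat_lit 532) (nat_lit 3103672115) (nat_lit 76) (nat_lit 37020392) (nat_lit 226) (nat_lit 5) (nat_lit 233) (nat_lit 5) (nat_lit 227) (nat_lit 5) (nat_lit 456) (nat_lit 366) (nat_lit 318)))) (XT.nd (nat_lit 78) (nat_lit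 456) (nat_lit 0) (XT.lf (nat_lit 0) (nat_lit 440786318) (nat_lit 532) (nat_lit 5426565386) (nat_lit 76) (nat_lit 3832087971) (nat_lit 219) (nat_lit 5) (nat_lit 226) (nat_lit 5) (nat_lit 220) (nat_lit 5) (nat_lit 457) (nat_lit 366) (nat_lit 317)) (XT.nd (nat_lit 78) (nat_lit 0) (nat_lit 0) (XT.lf (nat_lit 0) (nat_lit 1986385222) (nat_lit 456) (nat_lit 2056463078) (nat_lit 532) (nat_lit 5751220875) (nat_lit 213) (nat_lit 5) (nat_lit 219) (nat_lit 5) (nat_lit 220) (nat_lit 5) (nat_lit 458) (nat_lit 366) (nat_lit 316)) (XT.lf (nat_lit 0) (nat_lit 7722892483) (nat_lit 532) (nat_lit 344993532) (nat_lit 76) (nat_lit 1822586433) (nat_lit 213) (nat_lit 5) (nat_lit 220) (nat_lit 5) (nat_lit 214) (nat_lit 5) (nat_lit 459) (nat_lit 366) (nat_lit 315))))) (XT.nd (nat_lit 234) (nat_lit 1292) (nat_lit 0) (XT.nd (nat_lit 78) (nat_lit 836) (nat_lit 0) (XT.lf (nat_lit 0) (nat_lit 1487507438) (nat_lit 532) (nat_lit 2712217083) (nat_lit 76) (nat_lit 5788500365)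 (nat_lit 206) (nat_lit 5) (nat_lit 213) (nat_lit 5) (nat_lit 207) (nat_lit 5) (nat_lit 460) (nat_lit 366) (nat_lit 314)) (XT.nd (nat_lit 78) (nat_lit 456) (nat_lit 0) (XT.lf (nat_lit 0) (nat_lit 4953780705) (nat_lit 380) (nat_lit 225786404) (nat_lit 456) (nat_lit 4908220821) (nat_lit 201) (nat_lit 5) (nat_lit 206) (nat_lit 5) (nat_lit 207) (nat_lit 5) (nat_lit 461) (nat_lit 366) (nat_lit 313)) (XT.lf (nat_lit 0) (nat_lit 2566260917) (nat_lit 456) (nat_lit 6397685637) (nat_lit 532) (nat_lit 1225026111) (nat_lit 195) (nat_lit 5) (nat_lit 201) (nat_lit 5) (nat_lit 202) (nat_lit 5) (nat_lit 462) (nat_lit 366) (nat_lit 312)))) (XT.nd (nat_lit 156) (nat_lit 836) (nat_lit 0) (XT.nd (nat_lit 78) (nat_lit 0) (nat_lit 0) (XT.lf (nat_lit 0) (nat_lit 118588334) (nat_lit 380) (nat_lit 2375759596) (nat_lit 456) (nat_lit 7797589979) (nat_lit 189) (nat_lit 5) (nat_lit 194) (nat_lit 5) (nat_lit 195) (nat_lit 5) (nat_lit 463) (nat_lit 366) (nat_lit 311))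 (XT.lf (nat_lit 0) (nat_lit 6293453730) (nat_lit 456) (nat_lit 2361254307) (nat_lit 76) (nat_lit 1741657526) (nat_lit 189) (nat_lit 5) (nat_lit 195) (nat_lit 5) (nat_lit 190) (nat_lit 5) (nat_lit 464) (nat_lit 366) (nat_lit 310))) (XT.nd (nat_lit 78) (nat_lit 456) (nat_lit 0) (XT.lf (nat_lit 0) (nat_lit 5602379097) (nat_lit 380) (nat_lit 4578104350) (nat_lit 456) (nat_lit 322159486) (nat_lit 184) (nat_lit 5) (nat_lit 189) (nat_lit 5) (nat_lit 190) (nat_lit 5) (nat_lit 465) (nat_lit 366) (nat_lit 309)) (XT.lf (nat_lit 0) (nat_lit 3101622816) (nat_lit 380) (nat_lit 382276579) (nat_lit 456) (nat_lit 7126766662) (nat_lit 178) (nat_lit 5) (nat_lit 183) (nat_lit 5) (nat_lit 184) (nat_lit 5) (nat_lit 466) (nat_lit 366) (nat_lit 308))))))) (XT.nd (nat_lit 1014) (nat_lit 988) (nat_lit 0) (XT.nd (nat_lit 468) (nat_lit 2052) (nat_lit 0) (XT.nd (nat_lit 234) (nat_lit 760) (nat_lit 0) (XT.nd (nat_lit 78) (nat_lit 380) (nat_lit 0) (XT.lf (nat_lit 0)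 (nat_lit 526221452) (nat_lit 380) (nat_lit 6857561833) (nat_lit 456) (nat_lit 3336583420) (nat_lit 173) (nat_lit 5) (nat_lit 178) (nat_lit 5) (nat_lit 179) (nat_lit 5) (nat_lit 467) (nat_lit 366) (nat_lit 307)) (XT.nd (nat_lit 78) (nat_lit 304) (nat_lit 0) (XT.lf (nat_lit 0) (nat_lit 536020445) (nat_lit 456) (nat_lit 2076495397) (nat_lit 76) (nat_lit 8219405573) (nat_lit 172) (nat_lit 5) (nat_lit 178) (nat_lit 5) (nat_lit 173) (nat_lit 5) (nat_lit 468) (nat_lit 366) (nat_lit 306)) (XT.lf (nat_lit 0) (nat_lit 4454202044) (nat_lit 380) (nat_lit 4755599480) (nat_lit 76) (nat_lit 1735208551) (nat_lit 168) (nat_lit 5) (nat_lit 173) (nat_lit 5) (nat_lit 169) (nat_lit 5) (nat_lit 469) (nat_lit 366) (nat_lit 305)))) (XT.nd (nat_lit 78) (nat_lit 380) (nat_lit 0) (XT.lf (nat_lit 0) (nat_lit 3556043049) (nat_lit 380) (nat_lit 4910421691) (nat_lit 456) (nat_lit 2593581418) (nat_lit 163) (nat_lit 5) (nat_lit 168) (nat_lit 5) (nat_lit 169) (nat_lit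 5) (nat_lit 470) (nat_lit 366) (nat_lit 304)) (XT.nd (nat_lit 78) (nat_lit 0) (nat_lit 0) (XT.lf (nat_lit 0) (nat_lit 861750240) (nat_lit 304) (nat_lit 500845483) (nat_lit 380) (nat_lit 9814625319) (nat_lit 158) (nat_lit 5) (nat_lit 162) (nat_lit 5) (nat_lit 163) (nat_lit 5) (nat_lit 471) (nat_lit 366) (nat_lit 303)) (XT.lf (nat_lit 0) (nat_lit 5401452699) (nat_lit 380) (nat_lit 1904867550) (nat_lit 76) (nat_lit 3989310617) (nat_lit 158) (nat_lit 5) (nat_lit 163) (nat_lit 5) (nat_lit 159) (nat_lit 5) (nat_lit 472) (nat_lit 366) (nat_lit 302))))) (XT.nd (nat_lit 234) (nat_lit 988) (nat_lit 0) (XT.nd (nat_lit 78) (nat_lit 684) (nat_lit 0) (XT.lf (nat_lit 0) (nat_lit 6697476928) (nat_lit 380) (nat_lit 2832775832) (nat_lit 456) (nat_lit 1885972807) (nat_lit 153) (nat_lit 5) (nat_lit 158) (nat_lit 5) (nat_lit 159) (nat_lit 5) (nat_lit 473) (nat_lit 366) (nat_lit 301)) (XT.nd (nat_lit 78) (nat_lit 304) (nat_lit 0) (XT.lf (nat_lit 0) (nat_lit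 2185819035) (nat_lit 380) (nat_lit 7615513973) (nat_lit 76) (nat_lit 1737367022) (nat_lit 148) (nat_lit 5) (nat_lit 153) (nat_lit 5) (nat_lit 149) (nat_lit 5) (nat_lit 474) (nat_lit 366) (nat_lit 300)) (XT.lf (nat_lit 0) (nat_lit 1060096651) (nat_lit 304) (nat_lit 5273890134) (nat_lit 380) (nat_lit 5328984007) (nat_lit 144) (nat_lit 5) (nat_lit 148) (nat_lit 5) (nat_lit 149) (nat_lit 5) (nat_lit 475) (nat_lit 366) (nat_lit 299)))) (XT.nd (nat_lit 156) (nat_lit 608) (nat_lit 0) (XT.nd (nat_lit 78) (nat_lit 380) (nat_lit 0) (XT.lf (nat_lit 0) (nat_lit 9951573277) (nat_lit 304) (nat_lit 627637484) (nat_lit 380) (nat_lit 1210234349) (nat_lit 144) (nat_lit 5) (nat_lit 148) (nat_lit 5) (nat_lit 149) (nat_lit 5) (nat_lit 476) (nat_lit 366) (nat_lit 298)) (XT.lf (nat_lit 0) (nat_lit 2988317251) (nat_lit 380) (nat_lit 4828669616) (nat_lit 76) (nat_lit 4100340613) (nat_lit 139) (nat_lit 5) (nat_lit 144) (nat_lit 5) (nat_lit 140) (nat_lit 5) (nat_lit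 477) (nat_lit 366) (nat_lit 297))) (XT.nd (nat_lit 78) (nat_lit 304) (nat_lit 0) (XT.lf (nat_lit 0) (nat_lit 4152980930) (nat_lit 304) (nat_lit 3108853495) (nat_lit 380) (nat_lit 4785629086) (nat_lit 135) (nat_lit 5) (nat_lit 139) (nat_lit 5) (nat_lit 140) (nat_lit 5) (nat_lit 478) (nat_lit 366) (nat_lit 296)) (XT.lf (nat_lit 0) (nat_lit 1143439485) (nat_lit 304) (nat_lit 10492236353) (nat_lit 380) (nat_lit 544229348) (nat_lit 131) (nat_lit 5) (nat_lit 135) (nat_lit 5) (nat_lit 136) (nat_lit 5) (nat_lit 479) (nat_lit 366) (nat_lit 295)))))) (XT.nd (nat_lit 53742) (nat_lit 0) (nat_lit 34048) (XT.nd (nat_lit 234) (nat_lit 304) (nat_lit 0) (XT.nd (nat_lit 78) (nat_lit 608) (nat_lit 0) (XT.lf (nat_lit 0) (nat_lit 3770211329) (nat_lit 380) (nat_lit 1950892117) (nat_lit 76) (nat_lit 6592644852) (nat_lit 130) (nat_lit 5) (nat_lit 135) (nat_lit 5) (nat_lit 131) (nat_lit 5) (nat_lit 480) (nat_lit 366) (nat_lit 294)) (XT.nd (nat_lit 78) (nat_lit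 304) (nat_lit 0) (XT.lf (nat_lit 0) (nat_lit 7349777307) (nat_lit 304) (nat_lit 826209713) (nat_lit 380) (nat_lit 4273962636) (nat_lit 126) (nat_lit 5) (nat_lit 130) (nat_lit 5) (nat_lit 131) (nat_lit 5) (nat_lit 481) (nat_lit 366) (nat_lit 293)) (XT.lf (nat_lit 0) (nat_lit 112699130) (nat_lit 304) (nat_lit 8345722432) (nat_lit 76) (nat_lit 4129787795) (nat_lit 122) (nat_lit 5) (nat_lit 126) (nat_lit 5) (nat_lit 123) (nat_lit 5) (nat_lit 482) (nat_lit 366) (nat_lit 292)))) (XT.nd (nat_lit 53352) (nat_lit 0) (nat_lit 41496) (XT.lf (nat_lit 0) (nat_lit 1032486431) (nat_lit 304) (nat_lit 3508897375) (nat_lit 380) (nat_lit 8187055068) (nat_lit 118) (nat_lit 5) (nat_lit 122) (nat_lit 5) (nat_lit 123) (nat_lit 5) (nat_lit 483) (nat_lit 366) (nat_lit 291)) (XT.nd (nat_lit 78) (nat_lit 1292) (nat_lit 0) (XT.lf (nat_lit 0) (nat_lit 1522558617) (nat_lit 1140) (nat_lit 929329227) (nat_lit 1140) (nat_lit 929329227) (nat_lit 681) (nat_lit 4) (nat_lit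 696) (nat_lit 5) (nat_lit 696) (nat_lit 4) (nat_lit 406) (nat_lit 367) (nat_lit 367)) (XT.lf (nat_lit 0) (nat_lit 922037798) (nat_lit 1216) (nat_lit 586538669) (nat_lit 1292) (nat_lit 5279255926) (nat_lit 664) (nat_lit 5) (nat_lit 680) (nat_lit 5) (nat_lit 681) (nat_lit 4) (nat_lit 407) (nat_lit 367) (nat_lit 366))))) (XT.nd (nat_lit 234) (nat_lit 4712) (nat_lit 0) (XT.nd (nat_lit 78) (nat_lit 2736) (nat_lit 0) (XT.lf (nat_lit 0) (nat_lit 4875858924) (nat_lit 1292) (nat_lit 1188996814) (nat_lit 0) (nat_lit 749485350) (nat_lit 664) (nat_lit 5) (nat_lit 681) (nat_lit 4) (nat_lit 664) (nat_lit 4) (nat_lit 408) (nat_lit 367) (nat_lit 365)) (XT.nd (nat_lit 78) (nat_lit 1368) (nat_lit 0) (XT.lf (nat_lit 0) (nat_lit 1405817335) (nat_lit 1368) (nat_lit 3289327650) (nat_lit 76) (nat_lit 2146924648) (nat_lit 646) (nat_lit 5) (nat_lit 664) (nat_lit 5) (nat_lit 647) (nat_lit 4) (nat_lit 409) (nat_lit 367) (nat_lit 364)) (XT.lf (nat_lit 0) (nat_lit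 1479228737) (nat_lit 1368) (nat_lit 3259258277) (nat_lit 1444) (nat_lit 2132660657) (nat_lit 628) (nat_lit 5) (nat_lit 646) (nat_lit 5) (nat_lit 647) (nat_lit 4) (nat_lit 410) (nat_lit 367) (nat_lit 363)))) (XT.nd (nat_lit 156) (nat_lit 3192) (nat_lit 0) (XT.nd (nat_lit 78) (nat_lit 1444) (nat_lit 0) (XT.lf (nat_lit 0) (nat_lit 1173294053) (nat_lit 1444) (nat_lit 583835186) (nat_lit 76) (nat_lit 5144467108) (nat_lit 627) (nat_lit 5) (nat_lit 646) (nat_lit 5) (nat_lit 628) (nat_lit 5) (nat_lit 411) (nat_lit 367) (nat_lit 362)) (XT.lf (nat_lit 0) (nat_lit 4300893938) (nat_lit 1444) (nat_lit 175530749) (nat_lit 1520) (nat_lit 2456755108) (nat_lit 608) (nat_lit 5) (nat_lit 627) (nat_lit 5) (nat_lit 628) (nat_lit 5) (nat_lit 412) (nat_lit 367) (nat_lit 361))) (XT.nd (nat_lit 78) (nat_lit 1596) (nat_lit 0) (XT.lf (nat_lit 0) (nat_lit 829167081) (nat_lit 1596) (nat_lit 4687908876) (nat_lit 76) (nat_lit 1448994887) (nat_lit 587) (nat_lit 5) (nat_lit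 608) (nat_lit 5) (nat_lit 588) (nat_lit 5) (nat_lit 413) (nat_lit 367) (nat_lit 360)) (XT.lf (nat_lit 0) (nat_lit 245650213) (nat_lit 1596) (nat_lit 3855949016) (nat_lit 1672) (nat_lit 2898621955) (nat_lit 566) (nat_lit 5) (nat_lit 587) (nat_lit 5) (nat_lit 588) (nat_lit 5) (nat_lit 414) (nat_lit 367) (nat_lit 359))))))))
noncomputable def xc30 : XT := (XT.nd (nat_lit 2028) (nat_lit 10260) (nat_lit 0) (XT.nd (nat_lit 1014) (nat_lit 7600) (nat_lit 0) (XT.nd (nat_lit 468) (nat_lit 4636) (nat_lit 0) (XT.nd (nat_lit 234) (nat_lit 3116) (nat_lit 0) (XT.nd (nat_lit 78) (nat_lit 3420) (nat_lit 0) (XT.lf (nat_lit 0) (nat_lit 364372842) (nat_lit 1672) (nat_lit 1759555479) (nat_lit 76) (nat_lit 4911768663) (nat_lit 565) (nat_lit 5) (nat_lit 587) (nat_lit 5) (nat_lit 566) (nat_lit 5) (nat_lit 415) (nat_lit 367) (nat_lit 358)) (XT.nd (nat_lit 78) (nat_lit 1748) (nat_lit 0) (XT.lf (nat_lit 0) (nat_lit 3296931146) (nat_lit 1672) (nat_lit 313213044)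 (nat_lit 1748) (nat_lit 3462228329) (nat_lit 543) (nat_lit 5) (nat_lit 565) (nat_lit 5) (nat_lit 566) (nat_lit 5) (nat_lit 416) (nat_lit 367) (nat_lit 357)) (XT.lf (nat_lit 0) (nat_lit 1312672397) (nat_lit 1748) (nat_lit 5574299922) (nat_lit 1824) (nat_lit 223486418) (nat_lit 520) (nat_lit 5) (nat_lit 543) (nat_lit 5) (nat_lit 544) (nat_lit 5) (nat_lit 417) (nat_lit 367) (nat_lit 356)))) (XT.nd (nat_lit 78) (nat_lit 3040) (nat_lit 0) (XT.lf (nat_lit 0) (nat_lit 3003418332) (nat_lit 1824) (nat_lit 681105779) (nat_lit 76) (nat_lit 3465106953) (nat_lit 519) (nat_lit 5) (nat_lit 543) (nat_lit 5) (nat_lit 520) (nat_lit 5) (nat_lit 418) (nat_lit 367) (nat_lit 355)) (XT.nd (nat_lit 78) (nat_lit 1216) (nat_lit 0) (XT.lf (nat_lit 0) (nat_lit 4533343071) (nat_lit 1824) (nat_lit 1725418669) (nat_lit 1900) (nat_lit 931457693) (nat_lit 495) (nat_lit 5) (nat_lit 519) (nat_lit 5) (nat_lit 520) (nat_lit 5) (nat_lit 419) (nat_lit 367) (nat_lit 354)) (XT.lf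 (nat_lit 0) (nat_lit 2278070610) (nat_lit 1216) (nat_lit 4648671744) (nat_lit 76) (nat_lit 305347026) (nat_lit 479) (nat_lit 5) (nat_lit 495) (nat_lit 5) (nat_lit 480) (nat_lit 5) (nat_lit 420) (nat_lit 367) (nat_lit 353))))) (XT.nd (nat_lit 234) (nat_lit 2736) (nat_lit 0) (XT.nd (nat_lit 78) (nat_lit 988) (nat_lit 0) (XT.lf (nat_lit 0) (nat_lit 616707669) (nat_lit 912) (nat_lit 4894674250) (nat_lit 988) (nat_lit 1763850377) (nat_lit 467) (nat_lit 5) (nat_lit 479) (nat_lit 5) (nat_lit 480) (nat_lit 5) (nat_lit 421) (nat_lit 367) (nat_lit 352)) (XT.nd (nat_lit 78) (nat_lit 912) (nat_lit 0) (XT.lf (nat_lit 0) (nat_lit 1441045314) (nat_lit 988) (nat_lit 1342236601) (nat_lit 76) (nat_lit 4536353314) (nat_lit 466) (nat_lit 5) (nat_lit 479) (nat_lit 5) (nat_lit 467) (nat_lit 5) (nat_lit 422) (nat_lit 367) (nat_lit 351)) (XT.lf (nat_lit 0) (nat_lit 4059039295) (nat_lit 912) (nat_lit 594018030) (nat_lit 988) (nat_lit 2712302987) (nat_lit 454)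 (nat_lit 5) (nat_lit 466) (nat_lit 5) (nat_lit 467) (nat_lit 5) (nat_lit 423) (nat_lit 367) (nat_lit 350)))) (XT.nd (nat_lit 156) (nat_lit 912) (nat_lit 0) (XT.nd (nat_lit 78) (nat_lit 912) (nat_lit 0) (XT.lf (nat_lit 0) (nat_lit 484886396) (nat_lit 912) (nat_lit 5287407167) (nat_lit 76) (nat_lit 1640151934) (nat_lit 442) (nat_lit 5) (nat_lit 454) (nat_lit 5) (nat_lit 443) (nat_lit 5) (nat_lit 424) (nat_lit 367) (nat_lit 349)) (XT.lf (nat_lit 0) (nat_lit 165952316) (nat_lit 912) (nat_lit 3512492789) (nat_lit 988) (nat_lit 3782293848) (nat_lit 430) (nat_lit 5) (nat_lit 442) (nat_lit 5) (nat_lit 443) (nat_lit 5) (nat_lit 425) (nat_lit 367) (nat_lit 348))) (XT.nd (nat_lit 78) (nat_lit 912) (nat_lit 0) (XT.lf (nat_lit 0) (nat_lit 5736476856) (nat_lit 912) (nat_lit 1176980249) (nat_lit 988) (nat_lit 596989530) (nat_lit 430) (nat_lit 5) (nat_lit 442) (nat_lit 5) (nat_lit 443) (nat_lit 5) (nat_lit 426) (nat_lit 367) (nat_lit 347)) (XT.lf (nat_lit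 0) (nat_lit 2593012947) (nat_lit 912) (nat_lit 3742363757) (nat_lit 76) (nat_lit 1225911919) (nat_lit 418) (nat_lit 5) (nat_lit 430) (nat_lit 5) (nat_lit 419) (nat_lit 5) (nat_lit 427) (nat_lit 367) (nat_lit 346)))))) (XT.nd (nat_lit 468) (nat_lit 4332) (nat_lit 0) (XT.nd (nat_lit 234) (nat_lit 1596) (nat_lit 0) (XT.nd (nat_lit 78) (nat_lit 836) (nat_lit 0) (XT.lf (nat_lit 0) (nat_lit 1883935784) (nat_lit 836) (nat_lit 3930436029) (nat_lit 912) (nat_lit 1799185714) (nat_lit 407) (nat_lit 5) (nat_lit 418) (nat_lit 5) (nat_lit 419) (nat_lit 5) (nat_lit 428) (nat_lit 367) (nat_lit 345)) (XT.nd (nat_lit 78) (nat_lit 760) (nat_lit 0) (XT.lf (nat_lit 0) (nat_lit 1383627505) (nat_lit 912) (nat_lit 66438320) (nat_lit 76) (nat_lit 6217237083) (nat_lit 406) (nat_lit 5) (nat_lit 418) (nat_lit 5) (nat_lit 407) (nat_lit 5) (nat_lit 429) (nat_lit 367) (nat_lit 344)) (XT.lf (nat_lit 0) (nat_lit 4595348377) (nat_lit 836) (nat_lit 2019376294) (nat_lit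 76) (nat_lit 1107373823) (nat_lit 396) (nat_lit 5) (nat_lit 407) (nat_lit 5) (nat_lit 397) (nat_lit 5) (nat_lit 430) (nat_lit 367) (nat_lit 343)))) (XT.nd (nat_lit 78) (nat_lit 760) (nat_lit 0) (XT.lf (nat_lit 0) (nat_lit 72179288) (nat_lit 836) (nat_lit 3992068320) (nat_lit 76) (nat_lit 3714128476) (nat_lit 385) (nat_lit 5) (nat_lit 396) (nat_lit 5) (nat_lit 386) (nat_lit 5) (nat_lit 431) (nat_lit 367) (nat_lit 342)) (XT.nd (nat_lit 78) (nat_lit 0) (nat_lit 0) (XT.lf (nat_lit 0) (nat_lit 1839546288) (nat_lit 760) (nat_lit 1425181238) (nat_lit 836) (nat_lit 4571208196) (nat_lit 375) (nat_lit 5) (nat_lit 385) (nat_lit 5) (nat_lit 386) (nat_lit 5) (nat_lit 432) (nat_lit 367) (nat_lit 341)) (XT.lf (nat_lit 0) (nat_lit 6502786802) (nat_lit 836) (nat_lit 124944793) (nat_lit 76) (nat_lit 1267281757) (nat_lit 375) (nat_lit 5) (nat_lit 386) (nat_lit 5) (nat_lit 376) (nat_lit 5) (nat_lit 433) (nat_lit 367) (nat_lit 340))))) (XT.nd (nat_lit 234)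 (nat_lit 2052) (nat_lit 0) (XT.nd (nat_lit 78) (nat_lit 1444) (nat_lit 0) (XT.lf (nat_lit 0) (nat_lit 1821093573) (nat_lit 836) (nat_lit 2098974692) (nat_lit 76) (nat_lit 4035063471) (nat_lit 364) (nat_lit 5) (nat_lit 375) (nat_lit 5) (nat_lit 365) (nat_lit 5) (nat_lit 434) (nat_lit 367) (nat_lit 339)) (XT.nd (nat_lit 78) (nat_lit 760) (nat_lit 0) (XT.lf (nat_lit 0) (nat_lit 3920981146) (nat_lit 684) (nat_lit 1133174181) (nat_lit 760) (nat_lit 2962630765) (nat_lit 355) (nat_lit 5) (nat_lit 364) (nat_lit 5) (nat_lit 365) (nat_lit 5) (nat_lit 435) (nat_lit 367) (nat_lit 338)) (XT.lf (nat_lit 0) (nat_lit 254893398) (nat_lit 760) (nat_lit 6120597773) (nat_lit 76) (nat_lit 1704421847) (nat_lit 345) (nat_lit 5) (nat_lit 355) (nat_lit 5) (nat_lit 346) (nat_lit 5) (nat_lit 436) (nat_lit 367) (nat_lit 337)))) (XT.nd (nat_lit 156) (nat_lit 1368) (nat_lit 0) (XT.nd (nat_lit 78) (nat_lit 684) (nat_lit 0) (XT.lf (nat_lit 0) (nat_lit 3480908983) (nat_lit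 760) (nat_lit 44162155) (nat_lit 76) (nat_lit 4619163471) (nat_lit 345) (nat_lit 5) (nat_lit 355) (nat_lit 5) (nat_lit 346) (nat_lit 5) (nat_lit 437) (nat_lit 367) (nat_lit 336)) (XT.lf (nat_lit 0) (nat_lit 6171844699) (nat_lit 684) (nat_lit 589281684) (nat_lit 760) (nat_lit 1448922619) (nat_lit 336) (nat_lit 5) (nat_lit 345) (nat_lit 5) (nat_lit 346) (nat_lit 5) (nat_lit 438) (nat_lit 367) (nat_lit 335))) (XT.nd (nat_lit 78) (nat_lit 608) (nat_lit 0) (XT.lf (nat_lit 0) (nat_lit 1799097105) (nat_lit 760) (nat_lit 4077333765) (nat_lit 76) (nat_lit 2400644684) (nat_lit 326) (nat_lit 5) (nat_lit 336) (nat_lit 5) (nat_lit 327) (nat_lit 5) (nat_lit 439) (nat_lit 367) (nat_lit 334)) (XT.lf (nat_lit 0) (nat_lit 2196479725) (nat_lit 608) (nat_lit 2878498554) (nat_lit 684) (nat_lit 3270626768) (nat_lit 318) (nat_lit 5) (nat_lit 326) (nat_lit 5) (nat_lit 327) (nat_lit 5) (nat_lit 440) (nat_lit 367) (nat_lit 333))))))) (XT.nd (nat_lit 1014) (nat_lit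 4332) (nat_lit 0) (XT.nd (nat_lit 468) (nat_lit 3420) (nat_lit 0) (XT.nd (nat_lit 234) (nat_lit 1216) (nat_lit 0) (XT.nd (nat_lit 78) (nat_lit 684) (nat_lit 0) (XT.lf (nat_lit 0) (nat_lit 172886259) (nat_lit 608) (nat_lit 8224143915) (nat_lit 684) (nat_lit 18861894) (nat_lit 310) (nat_lit 5) (nat_lit 318) (nat_lit 5) (nat_lit 319) (nat_lit 5) (nat_lit 441) (nat_lit 367) (nat_lit 332)) (XT.nd (nat_lit 78) (nat_lit 608) (nat_lit 0) (XT.lf (nat_lit 0) (nat_lit 3266337555) (nat_lit 684) (nat_lit 1887161866) (nat_lit 76) (nat_lit 3333424114) (nat_lit 309) (nat_lit 5) (nat_lit 318) (nat_lit 5) (nat_lit 310) (nat_lit 5) (nat_lit 442) (nat_lit 367) (nat_lit 331)) (XT.lf (nat_lit 0) (nat_lit 4592826631) (nat_lit 608) (nat_lit 2005993762) (nat_lit 684) (nat_lit 1960916104) (nat_lit 301) (nat_lit 5) (nat_lit 309) (nat_lit 5) (nat_lit 310) (nat_lit 5) (nat_lit 443) (nat_lit 367) (nat_lit 330)))) (XT.nd (nat_lit 78) (nat_lit 532) (nat_lit 0) (XT.lf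 (nat_lit 0) (nat_lit 1335602677) (nat_lit 684) (nat_lit 6086652400) (nat_lit 76) (nat_lit 1211782650) (nat_lit 292) (nat_lit 5) (nat_lit 301) (nat_lit 5) (nat_lit 293) (nat_lit 5) (nat_lit 444) (nat_lit 367) (nat_lit 329)) (XT.nd (nat_lit 78) (nat_lit 0) (nat_lit 0) (XT.lf (nat_lit 0) (nat_lit 452200127) (nat_lit 532) (nat_lit 4215295223) (nat_lit 608) (nat_lit 4042156397) (nat_lit 285) (nat_lit 5) (nat_lit 292) (nat_lit 5) (nat_lit 293) (nat_lit 5) (nat_lit 445) (nat_lit 367) (nat_lit 328)) (XT.lf (nat_lit 0) (nat_lit 7141025461) (nat_lit 532) (nat_lit 919020847) (nat_lit 608) (nat_lit 726851328) (nat_lit 285) (nat_lit 5) (nat_lit 292) (nat_lit 5) (nat_lit 293) (nat_lit 5) (nat_lit 446) (nat_lit 367) (nat_lit 327))))) (XT.nd (nat_lit 234) (nat_lit 1596) (nat_lit 0) (XT.nd (nat_lit 78) (nat_lit 1140) (nat_lit 0) (XT.lf (nat_lit 0) (nat_lit 2622833937) (nat_lit 684) (nat_lit 3796990134) (nat_lit 76) (nat_lit 2445461811) (nat_lit 276) (nat_lit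 5) (nat_lit 285) (nat_lit 5) (nat_lit 277) (nat_lit 5) (nat_lit 447) (nat_lit 367) (nat_lit 326)) (XT.nd (nat_lit 78) (nat_lit 608) (nat_lit 0) (XT.lf (nat_lit 0) (nat_lit 2958790991) (nat_lit 532) (nat_lit 3061597094) (nat_lit 608) (nat_lit 2924945560) (nat_lit 269) (nat_lit 5) (nat_lit 276) (nat_lit 5) (nat_lit 277) (nat_lit 5) (nat_lit 448) (nat_lit 367) (nat_lit 325)) (XT.lf (nat_lit 0) (nat_lit 440706069) (nat_lit 608) (nat_lit 8210679599) (nat_lit 76) (nat_lit 375780831) (nat_lit 261) (nat_lit 5) (nat_lit 269) (nat_lit 5) (nat_lit 262) (nat_lit 5) (nat_lit 449) (nat_lit 367) (nat_lit 324)))) (XT.nd (nat_lit 156) (nat_lit 1064) (nat_lit 0) (XT.nd (nat_lit 78) (nat_lit 532) (nat_lit 0) (XT.lf (nat_lit 0) (nat_lit 3850003685) (nat_lit 608) (nat_lit 1376658602) (nat_lit 76) (nat_lit 3883277084) (nat_lit 261) (nat_lit 5) (nat_lit 269) (nat_lit 5) (nat_lit 262) (nat_lit 5) (nat_lit 450) (nat_lit 367) (nat_lit 323)) (XT.lf (nat_lit 0)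 (nat_lit 5605163149) (nat_lit 532) (nat_lit 1714350845) (nat_lit 608) (nat_lit 1875013172) (nat_lit 254) (nat_lit 5) (nat_lit 261) (nat_lit 5) (nat_lit 262) (nat_lit 5) (nat_lit 451) (nat_lit 367) (nat_lit 322))) (XT.nd (nat_lit 78) (nat_lit 456) (nat_lit 0) (XT.lf (nat_lit 0) (nat_lit 1556629426) (nat_lit 608) (nat_lit 5856278662) (nat_lit 76) (nat_lit 1867699526) (nat_lit 246) (nat_lit 5) (nat_lit 254) (nat_lit 5) (nat_lit 247) (nat_lit 5) (nat_lit 452) (nat_lit 367) (nat_lit 321)) (XT.lf (nat_lit 0) (nat_lit 1187757764) (nat_lit 456) (nat_lit 3843529506) (nat_lit 532) (nat_lit 4336884749) (nat_lit 240) (nat_lit 5) (nat_lit 246) (nat_lit 5) (nat_lit 247) (nat_lit 5) (nat_lit 453) (nat_lit 367) (nat_lit 320)))))) (XT.nd (nat_lit 468) (nat_lit 2280) (nat_lit 0) (XT.nd (nat_lit 234) (nat_lit 988) (nat_lit 0) (XT.nd (nat_lit 78) (nat_lit 1064) (nat_lit 0) (XT.lf (nat_lit 0) (nat_lit 8389559843) (nat_lit 456) (nat_lit 181785365) (nat_lit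 532) (nat_lit 886224365) (nat_lit 240) (nat_lit 5) (nat_lit 246) (nat_lit 5) (nat_lit 247) (nat_lit 5) (nat_lit 454) (nat_lit 367) (nat_lit 319)) (XT.nd (nat_lit 78) (nat_lit 456) (nat_lit 0) (XT.lf (nat_lit 0) (nat_lit 2619596181) (nat_lit 608) (nat_lit 3382920634) (nat_lit 76) (nat_lit 3545482599) (nat_lit 232) (nat_lit 5) (nat_lit 240) (nat_lit 5) (nat_lit 233) (nat_lit 5) (nat_lit 455) (nat_lit 367) (nat_lit 318)) (XT.lf (nat_lit 0) (nat_lit 3899069139) (nat_lit 456) (nat_lit 2275836529) (nat_lit 532) (nat_lit 3465390242) (nat_lit 226) (nat_lit 5) (nat_lit 232) (nat_lit 5) (nat_lit 233) (nat_lit 5) (nat_lit 456) (nat_lit 367) (nat_lit 317)))) (XT.nd (nat_lit 78) (nat_lit 456) (nat_lit 0) (XT.lf (nat_lit 0) (nat_lit 66868914) (nat_lit 532) (nat_lit 8147996371) (nat_lit 76) (nat_lit 1519547105) (nat_lit 219) (nat_lit 5) (nat_lit 226) (nat_lit 5) (nat_lit 220) (nat_lit 5) (nat_lit 457) (nat_lit 367) (nat_lit 316)) (XT.nd (nat_lit 78)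 (nat_lit 456) (nat_lit 0) (XT.lf (nat_lit 0) (nat_lit 3635215684) (nat_lit 532) (nat_lit 792093530) (nat_lit 76) (nat_lit 5402406981) (nat_lit 219) (nat_lit 5) (nat_lit 226) (nat_lit 5) (nat_lit 220) (nat_lit 5) (nat_lit 458) (nat_lit 367) (nat_lit 315)) (XT.lf (nat_lit 0) (nat_lit 6737912122) (nat_lit 456) (nat_lit 539535897) (nat_lit 532) (nat_lit 2649427684) (nat_lit 213) (nat_lit 5) (nat_lit 219) (nat_lit 5) (nat_lit 220) (nat_lit 5) (nat_lit 459) (nat_lit 367) (nat_lit 314))))) (XT.nd (nat_lit 234) (nat_lit 1368) (nat_lit 0) (XT.nd (nat_lit 78) (nat_lit 380) (nat_lit 0) (XT.lf (nat_lit 0) (nat_lit 969034863) (nat_lit 532) (nat_lit 5655211194) (nat_lit 76) (nat_lit 3401303542) (nat_lit 206) (nat_lit 5) (nat_lit 213) (nat_lit 5) (nat_lit 207) (nat_lit 5) (nat_lit 460) (nat_lit 367) (nat_lit 313)) (XT.nd (nat_lit 78) (nat_lit 0) (nat_lit 0) (XT.lf (nat_lit 0) (nat_lit 1940673921) (nat_lit 380) (nat_lit 2680654477) (nat_lit 456) (nat_lit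 5504579569) (nat_lit 201) (nat_lit 5) (nat_lit 206) (nat_lit 5) (nat_lit 207) (nat_lit 5) (nat_lit 461) (nat_lit 367) (nat_lit 312)) (XT.lf (nat_lit 0) (nat_lit 8353035636) (nat_lit 456) (nat_lit 533410825) (nat_lit 76) (nat_lit 1341699684) (nat_lit 201) (nat_lit 5) (nat_lit 207) (nat_lit 5) (nat_lit 202) (nat_lit 5) (nat_lit 462) (nat_lit 367) (nat_lit 311)))) (XT.nd (nat_lit 156) (nat_lit 456) (nat_lit 0) (XT.nd (nat_lit 78) (nat_lit 380) (nat_lit 0) (XT.lf (nat_lit 0) (nat_lit 1828479070) (nat_lit 532) (nat_lit 3055517438) (nat_lit 76) (nat_lit 5447685506) (nat_lit 194) (nat_lit 5) (nat_lit 201) (nat_lit 5) (nat_lit 195) (nat_lit 5) (nat_lit 463) (nat_lit 367) (nat_lit 310)) (XT.lf (nat_lit 0) (nat_lit 4801498945) (nat_lit 380) (nat_lit 774711320) (nat_lit 456) (nat_lit 4860926895) (nat_lit 189) (nat_lit 5) (nat_lit 194) (nat_lit 5) (nat_lit 195) (nat_lit 5) (nat_lit 464) (nat_lit 367) (nat_lit 309))) (XT.nd (nat_lit 78) (nat_lit 76)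 (nat_lit 0) (XT.lf (nat_lit 0) (nat_lit 2258866422) (nat_lit 380) (nat_lit 7158141014) (nat_lit 456) (nat_lit 1127331745) (nat_lit 184) (nat_lit 5) (nat_lit 189) (nat_lit 5) (nat_lit 190) (nat_lit 5) (nat_lit 465) (nat_lit 367) (nat_lit 308)) (XT.lf (nat_lit 0) (nat_lit 2649713911) (nat_lit 456) (nat_lit 349403562) (nat_lit 76) (nat_lit 7654140851) (nat_lit 183) (nat_lit 5) (nat_lit 189) (nat_lit 5) (nat_lit 184) (nat_lit 5) (nat_lit 466) (nat_lit 367) (nat_lit 307))))))))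
noncomputable def xc31 : XT := (XT.nd (nat_lit 55146) (nat_lit 0) (nat_lit 15504) (XT.nd (nat_lit 1014) (nat_lit 988) (nat_lit 0) (XT.nd (nat_lit 468) (nat_lit 1748) (nat_lit 0) (XT.nd (nat_lit 234) (nat_lit 760) (nat_lit 0) (XT.nd (nat_lit 78) (nat_lit 760) (nat_lit 0) (XT.lf (nat_lit 0) (nat_lit 6507555953) (nat_lit 456) (nat_lit 2992463726) (nat_lit 76) (nat_lit 1263780129) (nat_lit 178) (nat_lit 5) (nat_lit 184) (nat_lit 5) (nat_lit 179) (nat_lit 5) (nat_lit 467) (nat_lit 367) (nat_lit 306)) (XT.nd (nat_lit 78) (nat_lit 380) (nat_lit 0) (XT.lf (nat_lit 0) (nat_lit 5170288914) (nat_lit 380) (nat_lit 5289793485) (nat_lit 456) (nat_lit 416119171) (nat_lit 173) (nat_lit 5) (nat_lit 178) (nat_lit 5) (nat_lit 179) (nat_lit 5) (nat_lit 468) (nat_lit 367) (nat_lit 305)) (XT.lf (nat_lit 0) (nat_lit 2495806313) (nat_lit 304) (nat_lit 957352996) (nat_lit 380) (nat_lit 7537272166) (nat_lit 168) (nat_lit 5) (nat_lit 172) (nat_lit 5) (nat_lit 173)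 (nat_lit 5) (nat_lit 469) (nat_lit 367) (nat_lit 304)))) (XT.nd (nat_lit 78) (nat_lit 760) (nat_lit 0) (XT.lf (nat_lit 0) (nat_lit 7417335861) (nat_lit 380) (nat_lit 253448549) (nat_lit 76) (nat_lit 3435644871) (nat_lit 168) (nat_lit 5) (nat_lit 173) (nat_lit 5) (nat_lit 169) (nat_lit 5) (nat_lit 470) (nat_lit 367) (nat_lit 303)) (XT.nd (nat_lit 78) (nat_lit 304) (nat_lit 0) (XT.lf (nat_lit 0) (nat_lit 255447122) (nat_lit 456) (nat_lit 3031799016) (nat_lit 76) (nat_lit 7937020372) (nat_lit 162) (nat_lit 5) (nat_lit 168) (nat_lit 5) (nat_lit 163) (nat_lit 5) (nat_lit 471) (nat_lit 367) (nat_lit 302)) (XT.lf (nat_lit 0) (nat_lit 4237503424) (nat_lit 380) (nat_lit 5898123309) (nat_lit 76) (nat_lit 1208185614) (nat_lit 158) (nat_lit 5) (nat_lit 163) (nat_lit 5) (nat_lit 159) (nat_lit 5) (nat_lit 472) (nat_lit 367) (nat_lit 301))))) (XT.nd (nat_lit 234) (nat_lit 988) (nat_lit 0) (XT.nd (nat_lit 78) (nat_lit 380) (nat_lit 0) (XT.lf (nat_lit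 0) (nat_lit 2621157195) (nat_lit 380) (nat_lit 5700414067) (nat_lit 456) (nat_lit 3143730430) (nat_lit 153) (nat_lit 5) (nat_lit 158) (nat_lit 5) (nat_lit 159) (nat_lit 5) (nat_lit 473) (nat_lit 367) (nat_lit 300)) (XT.nd (nat_lit 78) (nat_lit 304) (nat_lit 0) (XT.lf (nat_lit 0) (nat_lit 889360774) (nat_lit 456) (nat_lit 263640825) (nat_lit 76) (nat_lit 10436041808) (nat_lit 152) (nat_lit 5) (nat_lit 158) (nat_lit 5) (nat_lit 153) (nat_lit 5) (nat_lit 474) (nat_lit 367) (nat_lit 299)) (XT.lf (nat_lit 0) (nat_lit 5003286931) (nat_lit 380) (nat_lit 3216759400) (nat_lit 76) (nat_lit 3493952669) (nat_lit 148) (nat_lit 5) (nat_lit 153) (nat_lit 5) (nat_lit 149) (nat_lit 5) (nat_lit 475) (nat_lit 367) (nat_lit 298)))) (XT.nd (nat_lit 156) (nat_lit 304) (nat_lit 0) (XT.nd (nat_lit 78) (nat_lit 380) (nat_lit 0) (XT.lf (nat_lit 0) (nat_lit 5602422221) (nat_lit 304) (nat_lit 3606962665) (nat_lit 380) (nat_lit 2631870955) (nat_lit 144) (nat_lit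 5) (nat_lit 148) (nat_lit 5) (nat_lit 149) (nat_lit 5) (nat_lit 476) (nat_lit 367) (nat_lit 297)) (XT.lf (nat_lit 0) (nat_lit 1518841033) (nat_lit 380) (nat_lit 9341614886) (nat_lit 76) (nat_lit 1110196587) (nat_lit 139) (nat_lit 5) (nat_lit 144) (nat_lit 5) (nat_lit 140) (nat_lit 5) (nat_lit 477) (nat_lit 367) (nat_lit 296))) (XT.nd (nat_lit 78) (nat_lit 304) (nat_lit 0) (XT.lf (nat_lit 0) (nat_lit 5747751717) (nat_lit 380) (nat_lit 443718611) (nat_lit 76) (nat_lit 5910210339) (nat_lit 139) (nat_lit 5) (nat_lit 144) (nat_lit 5) (nat_lit 140) (nat_lit 5) (nat_lit 478) (nat_lit 367) (nat_lit 295)) (XT.lf (nat_lit 0) (nat_lit 8688081233) (nat_lit 304) (nat_lit 1394628934) (nat_lit 380) (nat_lit 2152189834) (nat_lit 135) (nat_lit 5) (nat_lit 139) (nat_lit 5) (nat_lit 140) (nat_lit 5) (nat_lit 479) (nat_lit 367) (nat_lit 294)))))) (XT.nd (nat_lit 53586) (nat_lit 0) (nat_lit 36936) (XT.nd (nat_lit 234) (nat_lit 304) (nat_lit 0) (XT.nd (nat_lit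 78) (nat_lit 304) (nat_lit 0) (XT.lf (nat_lit 0) (nat_lit 2133274520) (nat_lit 380) (nat_lit 6753506365) (nat_lit 76) (nat_lit 3483172327) (nat_lit 130) (nat_lit 5) (nat_lit 135) (nat_lit 5) (nat_lit 131) (nat_lit 5) (nat_lit 480) (nat_lit 367) (nat_lit 293)) (XT.nd (nat_lit 78) (nat_lit 0) (nat_lit 0) (XT.lf (nat_lit 0) (nat_lit 2454123847) (nat_lit 304) (nat_lit 4035962798) (nat_lit 380) (nat_lit 6017047197) (nat_lit 126) (nat_lit 5) (nat_lit 130) (nat_lit 5) (nat_lit 131) (nat_lit 5) (nat_lit 481) (nat_lit 367) (nat_lit 292)) (XT.lf (nat_lit 0) (nat_lit 10951028563) (nat_lit 380) (nat_lit 773312777) (nat_lit 76) (nat_lit 922376874) (nat_lit 126) (nat_lit 5) (nat_lit 131) (nat_lit 5) (nat_lit 127) (nat_lit 5) (nat_lit 482) (nat_lit 367) (nat_lit 291)))) (XT.nd (nat_lit 53196) (nat_lit 0) (nat_lit 43624) (XT.lf (nat_lit 0) (nat_lit 2726343754) (nat_lit 304) (nat_lit 4083642700) (nat_lit 76) (nat_lit 5977759278) (nat_lit 122) (nat_lit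 5) (nat_lit 126) (nat_lit 5) (nat_lit 123) (nat_lit 5) (nat_lit 483) (nat_lit 367) (nat_lit 290)) (XT.nd (nat_lit 78) (nat_lit 0) (nat_lit 0) (XT.lf (nat_lit 0) (nat_lit 159717919) (nat_lit 1140) (nat_lit 3038190589) (nat_lit 0) (nat_lit 159717919) (nat_lit 696) (nat_lit 5) (nat_lit 711) (nat_lit 4) (nat_lit 696) (nat_lit 4) (nat_lit 404) (nat_lit 368) (nat_lit 368)) (XT.lf (nat_lit 0) (nat_lit 3670382387) (nat_lit 1140) (nat_lit 1565471419) (nat_lit 0) (nat_lit 1502589986) (nat_lit 696) (nat_lit 5) (nat_lit 711) (nat_lit 4) (nat_lit 696) (nat_lit 4) (nat_lit 405) (nat_lit 368) (nat_lit 367))))) (XT.nd (nat_lit 234) (nat_lit 4180) (nat_lit 0) (XT.nd (nat_lit 78) (nat_lit 1292) (nat_lit 0) (XT.lf (nat_lit 0) (nat_lit 268810395) (nat_lit 1216) (nat_lit 3750082068) (nat_lit 76) (nat_lit 2744226921) (nat_lit 680) (nat_lit 5) (nat_lit 696) (nat_lit 5) (nat_lit 681) (nat_lit 4) (nat_lit 406) (nat_lit 368) (nat_lit 366)) (XT.nd (nat_lit 78)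 (nat_lit 76) (nat_lit 0) (XT.lf (nat_lit 0) (nat_lit 846053490) (nat_lit 1216) (nat_lit 2729563804) (nat_lit 1292) (nat_lit 3213380015) (nat_lit 664) (nat_lit 5) (nat_lit 680) (nat_lit 5) (nat_lit 681) (nat_lit 4) (nat_lit 407) (nat_lit 368) (nat_lit 365)) (XT.lf (nat_lit 0) (nat_lit 85471996) (nat_lit 1292) (nat_lit 1292435206) (nat_lit 76) (nat_lit 5438387280) (nat_lit 663) (nat_lit 5) (nat_lit 680) (nat_lit 5) (nat_lit 664) (nat_lit 5) (nat_lit 408) (nat_lit 368) (nat_lit 364)))) (XT.nd (nat_lit 156) (nat_lit 1520) (nat_lit 0) (XT.nd (nat_lit 78) (nat_lit 1368) (nat_lit 0) (XT.lf (nat_lit 0) (nat_lit 3359954483) (nat_lit 1368) (nat_lit 3430693643) (nat_lit 76) (nat_lit 54011051) (nat_lit 646) (nat_lit 5) (nat_lit 664) (nat_lit 5) (nat_lit 647) (nat_lit 4) (nat_lit 409) (nat_lit 368) (nat_lit 363)) (XT.lf (nat_lit 0) (nat_lit 1305236850) (nat_lit 1368) (nat_lit 5352177092) (nat_lit 1444) (nat_lit 217027478) (nat_lit 628) (nat_lit 5)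 (nat_lit 646) (nat_lit 5) (nat_lit 647) (nat_lit 4) (nat_lit 410) (nat_lit 368) (nat_lit 362))) (XT.nd (nat_lit 78) (nat_lit 1444) (nat_lit 0) (XT.lf (nat_lit 0) (nat_lit 3029972766) (nat_lit 1444) (nat_lit 804152303) (nat_lit 76) (nat_lit 3071192887) (nat_lit 627) (nat_lit 5) (nat_lit 646) (nat_lit 5) (nat_lit 628) (nat_lit 5) (nat_lit 411) (nat_lit 368) (nat_lit 361)) (XT.lf (nat_lit 0) (nat_lit 4047256280) (nat_lit 1444) (nat_lit 2251033091) (nat_lit 1520) (nat_lit 639308314) (nat_lit 608) (nat_lit 5) (nat_lit 627) (nat_lit 5) (nat_lit 628) (nat_lit 5) (nat_lit 412) (nat_lit 368) (nat_lit 360))))))) (XT.nd (nat_lit 1014) (nat_lit 8816) (nat_lit 0) (XT.nd (nat_lit 468) (nat_lit 5852) (nat_lit 0) (XT.nd (nat_lit 234) (nat_lit 3496) (nat_lit 0) (XT.nd (nat_lit 78) (nat_lit 1672) (nat_lit 0) (XT.lf (nat_lit 0) (nat_lit 1983807541) (nat_lit 1520) (nat_lit 594536062) (nat_lit 1596) (nat_lit 4392797813) (nat_lit 587) (nat_lit 5) (nat_lit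 607) (nat_lit 5) (nat_lit 608) (nat_lit 5) (nat_lit 413) (nat_lit 368) (nat_lit 359)) (XT.nd (nat_lit 78) (nat_lit 1672) (nat_lit 0) (XT.lf (nat_lit 0) (nat_lit 5812860179) (nat_lit 1596) (nat_lit 83837168) (nat_lit 76) (nat_lit 1109352721) (nat_lit 587) (nat_lit 5) (nat_lit 608) (nat_lit 5) (nat_lit 588) (nat_lit 5) (nat_lit 414) (nat_lit 368) (nat_lit 358)) (XT.lf (nat_lit 0) (nat_lit 2014648517) (nat_lit 1672) (nat_lit 2137993223) (nat_lit 76) (nat_lit 2889318458) (nat_lit 565) (nat_lit 5) (nat_lit 587) (nat_lit 5) (nat_lit 566) (nat_lit 5) (nat_lit 415) (nat_lit 368) (nat_lit 357)))) (XT.nd (nat_lit 78) (nat_lit 1824) (nat_lit 0) (XT.lf (nat_lit 0) (nat_lit 2882740478) (nat_lit 1672) (nat_lit 2343388097) (nat_lit 1748) (nat_lit 1853192983) (nat_lit 543) (nat_lit 5) (nat_lit 565) (nat_lit 5) (nat_lit 566) (nat_lit 5) (nat_lit 416) (nat_lit 368) (nat_lit 356)) (XT.nd (nat_lit 78) (nat_lit 0) (nat_lit 0) (XT.lf (nat_lit 0) (nat_lit 856184763)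 (nat_lit 1748) (nat_lit 466670898) (nat_lit 1824) (nat_lit 5795262628) (nat_lit 519) (nat_lit 5) (nat_lit 542) (nat_lit 5) (nat_lit 543) (nat_lit 5) (nat_lit 417) (nat_lit 368) (nat_lit 355)) (XT.lf (nat_lit 0) (nat_lit 4512837420) (nat_lit 1824) (nat_lit 1174634886) (nat_lit 76) (nat_lit 1470469129) (nat_lit 519) (nat_lit 5) (nat_lit 543) (nat_lit 5) (nat_lit 520) (nat_lit 5) (nat_lit 418) (nat_lit 368) (nat_lit 354))))) (XT.nd (nat_lit 234) (nat_lit 2812) (nat_lit 0) (XT.nd (nat_lit 78) (nat_lit 1140) (nat_lit 0) (XT.lf (nat_lit 0) (nat_lit 528154606) (nat_lit 1900) (nat_lit 3200182459) (nat_lit 76) (nat_lit 3470799274) (nat_lit 494) (nat_lit 5) (nat_lit 519) (nat_lit 5) (nat_lit 495) (nat_lit 5) (nat_lit 419) (nat_lit 368) (nat_lit 353)) (XT.nd (nat_lit 78) (nat_lit 0) (nat_lit 0) (XT.lf (nat_lit 0) (nat_lit 1997851465) (nat_lit 1140) (nat_lit 1691637300) (nat_lit 1216) (nat_lit 3552116127) (nat_lit 479) (nat_lit 5) (nat_lit 494) (nat_lit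 5) (nat_lit 495) (nat_lit 5) (nat_lit 420) (nat_lit 368) (nat_lit 352)) (XT.lf (nat_lit 0) (nat_lit 6878049226) (nat_lit 1216) (nat_lit 6424126) (nat_lit 76) (nat_lit 401169472) (nat_lit 479) (nat_lit 5) (nat_lit 495) (nat_lit 5) (nat_lit 480) (nat_lit 5) (nat_lit 421) (nat_lit 368) (nat_lit 351)))) (XT.nd (nat_lit 156) (nat_lit 912) (nat_lit 0) (XT.nd (nat_lit 78) (nat_lit 912) (nat_lit 0) (XT.lf (nat_lit 0) (nat_lit 2749897892) (nat_lit 988) (nat_lit 2015805133) (nat_lit 76) (nat_lit 2564758950) (nat_lit 466) (nat_lit 5) (nat_lit 479) (nat_lit 5) (nat_lit 467) (nat_lit 5) (nat_lit 422) (nat_lit 368) (nat_lit 350)) (XT.lf (nat_lit 0) (nat_lit 3345589674) (nat_lit 912) (nat_lit 2582693822) (nat_lit 988) (nat_lit 1448576092) (nat_lit 454) (nat_lit 5) (nat_lit 466) (nat_lit 5) (nat_lit 467) (nat_lit 5) (nat_lit 423) (nat_lit 368) (nat_lit 349))) (XT.nd (nat_lit 78) (nat_lit 0) (nat_lit 0) (XT.lf (nat_lit 0) (nat_lit 1362033315) (nat_lit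 836) (nat_lit 325377964) (nat_lit 912) (nat_lit 5737261954) (nat_lit 442) (nat_lit 5) (nat_lit 453) (nat_lit 5) (nat_lit 454) (nat_lit 5) (nat_lit 424) (nat_lit 368) (nat_lit 348)) (XT.lf (nat_lit 0) (nat_lit 4849321333) (nat_lit 912) (nat_lit 640404033) (nat_lit 76) (nat_lit 1983874297) (nat_lit 442) (nat_lit 5) (nat_lit 454) (nat_lit 5) (nat_lit 443) (nat_lit 5) (nat_lit 425) (nat_lit 368) (nat_lit 347)))))) (XT.nd (nat_lit 546) (nat_lit 3724) (nat_lit 0) (XT.nd (nat_lit 234) (nat_lit 2432) (nat_lit 0) (XT.nd (nat_lit 78) (nat_lit 1672) (nat_lit 0) (XT.lf (nat_lit 0) (nat_lit 521139908) (nat_lit 988) (nat_lit 2636627641) (nat_lit 76) (nat_lit 4366117508) (nat_lit 429) (nat_lit 5) (nat_lit 442) (nat_lit 5) (nat_lit 430) (nat_lit 5) (nat_lit 426) (nat_lit 368) (nat_lit 346)) (XT.nd (nat_lit 78) (nat_lit 836) (nat_lit 0) (XT.lf (nat_lit 0) (nat_lit 2918075903) (nat_lit 836) (nat_lit 743536939) (nat_lit 912) (nat_lit 3913870679) (nat_lit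 418) (nat_lit 5) (nat_lit 429) (nat_lit 5) (nat_lit 430) (nat_lit 5) (nat_lit 427) (nat_lit 368) (nat_lit 345)) (XT.lf (nat_lit 0) (nat_lit 930266436) (nat_lit 836) (nat_lit 5914280098) (nat_lit 912) (nat_lit 783974394) (nat_lit 407) (nat_lit 5) (nat_lit 418) (nat_lit 5) (nat_lit 419) (nat_lit 5) (nat_lit 428) (nat_lit 368) (nat_lit 344)))) (XT.nd (nat_lit 156) (nat_lit 1596) (nat_lit 0) (XT.nd (nat_lit 78) (nat_lit 760) (nat_lit 0) (XT.lf (nat_lit 0) (nat_lit 2358276872) (nat_lit 912) (nat_lit 1072766485) (nat_lit 76) (nat_lit 4251636069) (nat_lit 406) (nat_lit 5) (nat_lit 418) (nat_lit 5) (nat_lit 407) (nat_lit 5) (nat_lit 429) (nat_lit 368) (nat_lit 343)) (XT.lf (nat_lit 0) (nat_lit 4659552166) (nat_lit 760) (nat_lit 869626012) (nat_lit 836) (nat_lit 2209113225) (nat_lit 396) (nat_lit 5) (nat_lit 406) (nat_lit 5) (nat_lit 407) (nat_lit 5) (nat_lit 430) (nat_lit 368) (nat_lit 342))) (XT.nd (nat_lit 78) (nat_lit 760) (nat_lit 0) (XT.lf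 (nat_lit 0) (nat_lit 938329230) (nat_lit 836) (nat_lit 5113668627) (nat_lit 76) (nat_lit 1743241019) (nat_lit 385) (nat_lit 5) (nat_lit 396) (nat_lit 5) (nat_lit 386) (nat_lit 5) (nat_lit 431) (nat_lit 368) (nat_lit 341)) (XT.lf (nat_lit 0) (nat_lit 671687019) (nat_lit 760) (nat_lit 3425343090) (nat_lit 836) (nat_lit 3756445353) (nat_lit 375) (nat_lit 5) (nat_lit 385) (nat_lit 5) (nat_lit 386) (nat_lit 5) (nat_lit 432) (nat_lit 368) (nat_lit 340))))) (XT.nd (nat_lit 234) (nat_lit 2204) (nat_lit 0) (XT.nd (nat_lit 78) (nat_lit 1520) (nat_lit 0) (XT.lf (nat_lit 0) (nat_lit 6579974708) (nat_lit 760) (nat_lit 720827874) (nat_lit 836) (nat_lit 612436245) (nat_lit 375) (nat_lit 5) (nat_lit 385) (nat_lit 5) (nat_lit 386) (nat_lit 5) (nat_lit 433) (nat_lit 368) (nat_lit 339)) (XT.nd (nat_lit 78) (nat_lit 684) (nat_lit 0) (XT.lf (nat_lit 0) (nat_lit 2552132060) (nat_lit 836) (nat_lit 3373431188) (nat_lit 76) (nat_lit 2048463200) (nat_lit 364)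 (nat_lit 5) (nat_lit 375) (nat_lit 5) (nat_lit 365) (nat_lit 5) (nat_lit 434) (nat_lit 368) (nat_lit 338)) (XT.lf (nat_lit 0) (nat_lit 2598429542) (nat_lit 684) (nat_lit 3152841585) (nat_lit 760) (nat_lit 2285088131) (nat_lit 355) (nat_lit 5) (nat_lit 364) (nat_lit 5) (nat_lit 365) (nat_lit 5) (nat_lit 435) (nat_lit 368) (nat_lit 337)))) (XT.nd (nat_lit 156) (nat_lit 1444) (nat_lit 0) (XT.nd (nat_lit 78) (nat_lit 0) (nat_lit 0) (XT.lf (nat_lit 0) (nat_lit 575041741) (nat_lit 684) (nat_lit 303029844) (nat_lit 760) (nat_lit 7222236182) (nat_lit 345) (nat_lit 5) (nat_lit 354) (nat_lit 5) (nat_lit 355) (nat_lit 5) (nat_lit 436) (nat_lit 368) (nat_lit 336)) (XT.lf (nat_lit 0) (nat_lit 4077174054) (nat_lit 760) (nat_lit 1478002705) (nat_lit 76) (nat_lit 2609990863) (nat_lit 345) (nat_lit 5) (nat_lit 355) (nat_lit 5) (nat_lit 346) (nat_lit 5) (nat_lit 437) (nat_lit 368) (nat_lit 335))) (XT.nd (nat_lit 78) (nat_lit 760) (nat_lit 0) (XT.lf (nat_lit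 0) (nat_lit 4688014264) (nat_lit 684) (nat_lit 2635286663) (nat_lit 760) (nat_lit 908362899) (nat_lit 336) (nat_lit 5) (nat_lit 345) (nat_lit 5) (nat_lit 346) (nat_lit 5) (nat_lit 438) (nat_lit 368) (nat_lit 334)) (XT.lf (nat_lit 0) (nat_lit 2284735440) (nat_lit 760) (nat_lit 5646265989) (nat_lit 76) (nat_lit 368575393) (nat_lit 326) (nat_lit 5) (nat_lit 336) (nat_lit 5) (nat_lit 327) (nat_lit 5) (nat_lit 439) (nat_lit 368) (nat_lit 333))))))))
noncomputable def xc32 : XT := (XT.nd (nat_lit 2028) (nat_lit 5092) (nat_lit 0) (XT.nd (nat_lit 1014) (nat_lit 4332) (nat_lit 0) (XT.nd (nat_lit 468) (nat_lit 3496) (nat_lit 0) (XT.nd (nat_lit 234) (nat_lit 1292) (nat_lit 0) (XT.nd (nat_lit 78) (nat_lit 684) (nat_lit 0) (XT.lf (nat_lit 0) (nat_lit 575397081) (nat_lit 608) (nat_lit 4950598319) (nat_lit 684) (nat_lit 2842803338) (nat_lit 318) (nat_lit 5) (nat_lit 326) (nat_lit 5) (nat_lit 327) (nat_lit 5) (nat_lit 440) (nat_lit 368) (nat_lit 332))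 (XT.nd (nat_lit 78) (nat_lit 608) (nat_lit 0) (XT.lf (nat_lit 0) (nat_lit 377224983) (nat_lit 684) (nat_lit 1506048001) (nat_lit 76) (nat_lit 6556287128) (nat_lit 317) (nat_lit 5) (nat_lit 326) (nat_lit 5) (nat_lit 318) (nat_lit 5) (nat_lit 441) (nat_lit 368) (nat_lit 331)) (XT.lf (nat_lit 0) (nat_lit 3616219358) (nat_lit 684) (nat_lit 3629035597) (nat_lit 76) (nat_lit 1266253328) (nat_lit 309) (nat_lit 5) (nat_lit 318) (nat_lit 5) (nat_lit 310) (nat_lit 5) (nat_lit 442) (nat_lit 368) (nat_lit 330)))) (XT.nd (nat_lit 78) (nat_lit 684) (nat_lit 0) (XT.lf (nat_lit 0) (nat_lit 2796780483) (nat_lit 608) (nat_lit 4116969990) (nat_lit 684) (nat_lit 1671269808) (nat_lit 301) (nat_lit 5) (nat_lit 309) (nat_lit 5) (nat_lit 310) (nat_lit 5) (nat_lit 443) (nat_lit 368) (nat_lit 329)) (XT.nd (nat_lit 78) (nat_lit 0) (nat_lit 0) (XT.lf (nat_lit 0) (nat_lit 676945089) (nat_lit 608) (nat_lit 901152007) (nat_lit 684) (nat_lit 7082053867) (nat_lit 292)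 (nat_lit 5) (nat_lit 300) (nat_lit 5) (nat_lit 301) (nat_lit 5) (nat_lit 444) (nat_lit 368) (nat_lit 328)) (XT.lf (nat_lit 0) (nat_lit 4878226100) (nat_lit 684) (nat_lit 1475363895) (nat_lit 76) (nat_lit 2382810261) (nat_lit 292) (nat_lit 5) (nat_lit 301) (nat_lit 5) (nat_lit 293) (nat_lit 5) (nat_lit 445) (nat_lit 368) (nat_lit 327))))) (XT.nd (nat_lit 234) (nat_lit 1748) (nat_lit 0) (XT.nd (nat_lit 78) (nat_lit 1216) (nat_lit 0) (XT.lf (nat_lit 0) (nat_lit 5163127383) (nat_lit 532) (nat_lit 3075217548) (nat_lit 608) (nat_lit 575949857) (nat_lit 285) (nat_lit 5) (nat_lit 292) (nat_lit 5) (nat_lit 293) (nat_lit 5) (nat_lit 446) (nat_lit 368) (nat_lit 326)) (XT.nd (nat_lit 78) (nat_lit 532) (nat_lit 0) (XT.lf (nat_lit 0) (nat_lit 2721795631) (nat_lit 684) (nat_lit 5874715041) (nat_lit 76) (nat_lit 297151978) (nat_lit 276) (nat_lit 5) (nat_lit 285) (nat_lit 5) (nat_lit 277) (nat_lit 5) (nat_lit 447) (nat_lit 368) (nat_lit 325)) (XT.lf (nat_lit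 0) (nat_lit 822433220) (nat_lit 532) (nat_lit 5260809518) (nat_lit 608) (nat_lit 2891189818) (nat_lit 269) (nat_lit 5) (nat_lit 276) (nat_lit 5) (nat_lit 277) (nat_lit 5) (nat_lit 448) (nat_lit 368) (nat_lit 324)))) (XT.nd (nat_lit 156) (nat_lit 1140) (nat_lit 0) (XT.nd (nat_lit 78) (nat_lit 532) (nat_lit 0) (XT.lf (nat_lit 0) (nat_lit 444085786) (nat_lit 608) (nat_lit 1388115717) (nat_lit 76) (nat_lit 7224658189) (nat_lit 268) (nat_lit 5) (nat_lit 276) (nat_lit 5) (nat_lit 269) (nat_lit 5) (nat_lit 449) (nat_lit 368) (nat_lit 323)) (XT.lf (nat_lit 0) (nat_lit 3810331500) (nat_lit 608) (nat_lit 3648515361) (nat_lit 76) (nat_lit 1681646741) (nat_lit 261) (nat_lit 5) (nat_lit 269) (nat_lit 5) (nat_lit 262) (nat_lit 5) (nat_lit 450) (nat_lit 368) (nat_lit 322))) (XT.nd (nat_lit 78) (nat_lit 608) (nat_lit 0) (XT.lf (nat_lit 0) (nat_lit 3272430494) (nat_lit 532) (nat_lit 3970733103) (nat_lit 608) (nat_lit 1982651365) (nat_lit 254) (nat_lit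 5) (nat_lit 261) (nat_lit 5) (nat_lit 262) (nat_lit 5) (nat_lit 451) (nat_lit 368) (nat_lit 321)) (XT.lf (nat_lit 0) (nat_lit 1011362258) (nat_lit 532) (nat_lit 389558448) (nat_lit 608) (nat_lit 7911978326) (nat_lit 246) (nat_lit 5) (nat_lit 253) (nat_lit 5) (nat_lit 254) (nat_lit 5) (nat_lit 452) (nat_lit 368) (nat_lit 320)))))) (XT.nd (nat_lit 468) (nat_lit 2280) (nat_lit 0) (XT.nd (nat_lit 234) (nat_lit 988) (nat_lit 0) (XT.nd (nat_lit 78) (nat_lit 1064) (nat_lit 0) (XT.lf (nat_lit 0) (nat_lit 4844057372) (nat_lit 608) (nat_lit 1301082790) (nat_lit 76) (nat_lit 3255953697) (nat_lit 246) (nat_lit 5) (nat_lit 254) (nat_lit 5) (nat_lit 247) (nat_lit 5) (nat_lit 453) (nat_lit 368) (nat_lit 319)) (XT.nd (nat_lit 78) (nat_lit 608) (nat_lit 0) (XT.lf (nat_lit 0) (nat_lit 5853095407) (nat_lit 456) (nat_lit 2501400269) (nat_lit 532) (nat_lit 1136588130) (nat_lit 240) (nat_lit 5) (nat_lit 246) (nat_lit 5) (nat_lit 247) (nat_lit 5) (nat_lit 454)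 (nat_lit 368) (nat_lit 318)) (XT.lf (nat_lit 0) (nat_lit 2319393397) (nat_lit 608) (nat_lit 6034879248) (nat_lit 76) (nat_lit 1228335964) (nat_lit 232) (nat_lit 5) (nat_lit 240) (nat_lit 5) (nat_lit 233) (nat_lit 5) (nat_lit 455) (nat_lit 368) (nat_lit 317)))) (XT.nd (nat_lit 78) (nat_lit 532) (nat_lit 0) (XT.lf (nat_lit 0) (nat_lit 1181297965) (nat_lit 456) (nat_lit 4655129561) (nat_lit 532) (nat_lit 3839243087) (nat_lit 226) (nat_lit 5) (nat_lit 232) (nat_lit 5) (nat_lit 233) (nat_lit 5) (nat_lit 456) (nat_lit 368) (nat_lit 316)) (XT.nd (nat_lit 78) (nat_lit 532) (nat_lit 0) (XT.lf (nat_lit 0) (nat_lit 8563063651) (nat_lit 456) (nat_lit 859987777) (nat_lit 532) (nat_lit 347557448) (nat_lit 226) (nat_lit 5) (nat_lit 232) (nat_lit 5) (nat_lit 233) (nat_lit 5) (nat_lit 457) (nat_lit 368) (nat_lit 315)) (XT.lf (nat_lit 0) (nat_lit 3191356919) (nat_lit 532) (nat_lit 3660953198) (nat_lit 76) (nat_lit 3014327508) (nat_lit 219) (nat_lit 5)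 (nat_lit 226) (nat_lit 5) (nat_lit 220) (nat_lit 5) (nat_lit 458) (nat_lit 368) (nat_lit 314))))) (XT.nd (nat_lit 234) (nat_lit 1292) (nat_lit 0) (XT.nd (nat_lit 78) (nat_lit 532) (nat_lit 0) (XT.lf (nat_lit 0) (nat_lit 3800738538) (nat_lit 456) (nat_lit 2993770755) (nat_lit 532) (nat_lit 3170069441) (nat_lit 213) (nat_lit 5) (nat_lit 219) (nat_lit 5) (nat_lit 220) (nat_lit 5) (nat_lit 459) (nat_lit 368) (nat_lit 313)) (XT.nd (nat_lit 78) (nat_lit 0) (nat_lit 0) (XT.lf (nat_lit 0) (nat_lit 399382677) (nat_lit 532) (nat_lit 8718867564) (nat_lit 76) (nat_lit 946186770) (nat_lit 206) (nat_lit 5) (nat_lit 213) (nat_lit 5) (nat_lit 207) (nat_lit 5) (nat_lit 460) (nat_lit 368) (nat_lit 312)) (XT.lf (nat_lit 0) (nat_lit 4019269159) (nat_lit 532) (nat_lit 1178430066) (nat_lit 76) (nat_lit 4967744295) (nat_lit 206) (nat_lit 5) (nat_lit 213) (nat_lit 5) (nat_lit 207) (nat_lit 5) (nat_lit 461) (nat_lit 368) (nat_lit 311)))) (XT.nd (nat_lit 156)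 (nat_lit 380) (nat_lit 0) (XT.nd (nat_lit 78) (nat_lit 532) (nat_lit 0) (XT.lf (nat_lit 0) (nat_lit 6539176137) (nat_lit 380) (nat_lit 1175608449) (nat_lit 456) (nat_lit 2553620948) (nat_lit 201) (nat_lit 5) (nat_lit 206) (nat_lit 5) (nat_lit 207) (nat_lit 5) (nat_lit 462) (nat_lit 368) (nat_lit 310)) (XT.lf (nat_lit 0) (nat_lit 1110454581) (nat_lit 532) (nat_lit 6352495834) (nat_lit 76) (nat_lit 2910047352) (nat_lit 194) (nat_lit 5) (nat_lit 201) (nat_lit 5) (nat_lit 195) (nat_lit 5) (nat_lit 463) (nat_lit 368) (nat_lit 309))) (XT.nd (nat_lit 78) (nat_lit 0) (nat_lit 0) (XT.lf (nat_lit 0) (nat_lit 1430717443) (nat_lit 380) (nat_lit 3386351958) (nat_lit 456) (nat_lit 5662205839) (nat_lit 189) (nat_lit 5) (nat_lit 194) (nat_lit 5) (nat_lit 195) (nat_lit 5) (nat_lit 464) (nat_lit 368) (nat_lit 308)) (XT.lf (nat_lit 0) (nat_lit 8607131946) (nat_lit 456) (nat_lit 1196435758) (nat_lit 76) (nat_lit 783924250) (nat_lit 189) (nat_lit 5) (nat_lit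 195) (nat_lit 5) (nat_lit 190) (nat_lit 5) (nat_lit 465) (nat_lit 368) (nat_lit 307))))))) (XT.nd (nat_lit 1014) (nat_lit 1292) (nat_lit 0) (XT.nd (nat_lit 468) (nat_lit 1824) (nat_lit 0) (XT.nd (nat_lit 234) (nat_lit 760) (nat_lit 0) (XT.nd (nat_lit 78) (nat_lit 760) (nat_lit 0) (XT.lf (nat_lit 0) (nat_lit 1780895524) (nat_lit 456) (nat_lit 3888096790) (nat_lit 76) (nat_lit 5028069106) (nat_lit 183) (nat_lit 5) (nat_lit 189) (nat_lit 5) (nat_lit 184) (nat_lit 5) (nat_lit 466) (nat_lit 368) (nat_lit 306)) (XT.nd (nat_lit 78) (nat_lit 380) (nat_lit 0) (XT.lf (nat_lit 0) (nat_lit 4164520578) (nat_lit 380) (nat_lit 1423749032) (nat_lit 456) (nat_lit 5220342652) (nat_lit 178) (nat_lit 5) (nat_lit 183) (nat_lit 5) (nat_lit 184) (nat_lit 5) (nat_lit 467) (nat_lit 368) (nat_lit 305)) (XT.lf (nat_lit 0) (nat_lit 1449812613) (nat_lit 380) (nat_lit 8039012911) (nat_lit 456) (nat_lit 1433227911) (nat_lit 173) (nat_lit 5) (nat_lit 178) (nat_lit 5)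 (nat_lit 179) (nat_lit 5) (nat_lit 468) (nat_lit 368) (nat_lit 304)))) (XT.nd (nat_lit 78) (nat_lit 684) (nat_lit 0) (XT.lf (nat_lit 0) (nat_lit 2414668234) (nat_lit 456) (nat_lit 1326001946) (nat_lit 76) (nat_lit 7296439673) (nat_lit 172) (nat_lit 5) (nat_lit 178) (nat_lit 5) (nat_lit 173) (nat_lit 5) (nat_lit 469) (nat_lit 368) (nat_lit 303)) (XT.nd (nat_lit 78) (nat_lit 380) (nat_lit 0) (XT.lf (nat_lit 0) (nat_lit 6333578268) (nat_lit 380) (nat_lit 4151057070) (nat_lit 76) (nat_lit 669377651) (nat_lit 168) (nat_lit 5) (nat_lit 173) (nat_lit 5) (nat_lit 169) (nat_lit 5) (nat_lit 470) (nat_lit 368) (nat_lit 302)) (XT.lf (nat_lit 0) (nat_lit 4215515318) (nat_lit 380) (nat_lit 6139984101) (nat_lit 456) (nat_lit 917262110) (nat_lit 163) (nat_lit 5) (nat_lit 168) (nat_lit 5) (nat_lit 169) (nat_lit 5) (nat_lit 471) (nat_lit 368) (nat_lit 301))))) (XT.nd (nat_lit 234) (nat_lit 1064) (nat_lit 0) (XT.nd (nat_lit 78) (nat_lit 380) (nat_lit 0)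 (XT.lf (nat_lit 0) (nat_lit 1351577341) (nat_lit 304) (nat_lit 1672660418) (nat_lit 380) (nat_lit 8369240446) (nat_lit 158) (nat_lit 5) (nat_lit 162) (nat_lit 5) (nat_lit 163) (nat_lit 5) (nat_lit 472) (nat_lit 368) (nat_lit 300)) (XT.nd (nat_lit 78) (nat_lit 380) (nat_lit 0) (XT.lf (nat_lit 0) (nat_lit 7062519394) (nat_lit 380) (nat_lit 1575159158) (nat_lit 76) (nat_lit 2878204725) (nat_lit 158) (nat_lit 5) (nat_lit 163) (nat_lit 5) (nat_lit 159) (nat_lit 5) (nat_lit 473) (nat_lit 368) (nat_lit 299)) (XT.lf (nat_lit 0) (nat_lit 7085290334) (nat_lit 380) (nat_lit 4117891299) (nat_lit 456) (nat_lit 437122515) (nat_lit 153) (nat_lit 5) (nat_lit 158) (nat_lit 5) (nat_lit 159) (nat_lit 5) (nat_lit 474) (nat_lit 368) (nat_lit 298)))) (XT.nd (nat_lit 156) (nat_lit 380) (nat_lit 0) (XT.nd (nat_lit 78) (nat_lit 304) (nat_lit 0) (XT.lf (nat_lit 0) (nat_lit 3617095563) (nat_lit 380) (nat_lit 7623871247) (nat_lit 76) (nat_lit 525658514) (nat_lit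 148) (nat_lit 5) (nat_lit 153) (nat_lit 5) (nat_lit 149) (nat_lit 5) (nat_lit 475) (nat_lit 368) (nat_lit 297)) (XT.lf (nat_lit 0) (nat_lit 1107775544) (nat_lit 304) (nat_lit 6668812903) (nat_lit 380) (nat_lit 4118225818) (nat_lit 144) (nat_lit 5) (nat_lit 148) (nat_lit 5) (nat_lit 149) (nat_lit 5) (nat_lit 476) (nat_lit 368) (nat_lit 296))) (XT.nd (nat_lit 78) (nat_lit 304) (nat_lit 0) (XT.lf (nat_lit 0) (nat_lit 10178287) (nat_lit 380) (nat_lit 1965274714) (nat_lit 76) (nat_lit 10049786971) (nat_lit 143) (nat_lit 5) (nat_lit 148) (nat_lit 5) (nat_lit 144) (nat_lit 5) (nat_lit 477) (nat_lit 368) (nat_lit 295)) (XT.lf (nat_lit 0) (nat_lit 4195951305) (nat_lit 380) (nat_lit 5134795814) (nat_lit 76) (nat_lit 2826383767) (nat_lit 139) (nat_lit 5) (nat_lit 144) (nat_lit 5) (nat_lit 140) (nat_lit 5) (nat_lit 478) (nat_lit 368) (nat_lit 294)))))) (XT.nd (nat_lit 53430) (nat_lit 0) (nat_lit 39824) (XT.nd (nat_lit 234) (nat_lit 608) (nat_lit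 0) (XT.nd (nat_lit 78) (nat_lit 380) (nat_lit 0) (XT.lf (nat_lit 0) (nat_lit 3906138062) (nat_lit 304) (nat_lit 4576766646) (nat_lit 380) (nat_lit 3808405613) (nat_lit 135) (nat_lit 5) (nat_lit 139) (nat_lit 5) (nat_lit 140) (nat_lit 5) (nat_lit 479) (nat_lit 368) (nat_lit 293)) (XT.nd (nat_lit 78) (nat_lit 0) (nat_lit 0) (XT.lf (nat_lit 0) (nat_lit 428899946) (nat_lit 380) (nat_lit 11710413208) (nat_lit 76) (nat_lit 288663051) (nat_lit 130) (nat_lit 5) (nat_lit 135) (nat_lit 5) (nat_lit 131) (nat_lit 5) (nat_lit 480) (nat_lit 368) (nat_lit 292)) (XT.lf (nat_lit 0) (nat_lit 4752937354) (nat_lit 380) (nat_lit 2563235776) (nat_lit 76) (nat_lit 5249639200) (nat_lit 130) (nat_lit 5) (nat_lit 135) (nat_lit 5) (nat_lit 131) (nat_lit 5) (nat_lit 481) (nat_lit 368) (nat_lit 291)))) (XT.nd (nat_lit 78) (nat_lit 304) (nat_lit 0) (XT.lf (nat_lit 0) (nat_lit 6800090852) (nat_lit 304) (nat_lit 2374163735) (nat_lit 380) (nat_lit 3531934608) (nat_lit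 126) (nat_lit 5) (nat_lit 130) (nat_lit 5) (nat_lit 131) (nat_lit 5) (nat_lit 482) (nat_lit 368) (nat_lit 290)) (XT.nd (nat_lit 53040) (nat_lit 0) (nat_lit 45752) (XT.lf (nat_lit 0) (nat_lit 848043816) (nat_lit 304) (nat_lit 9345602600) (nat_lit 76) (nat_lit 2655131493) (nat_lit 122) (nat_lit 5) (nat_lit 126) (nat_lit 5) (nat_lit 123) (nat_lit 5) (nat_lit 483) (nat_lit 368) (nat_lit 289)) (XT.lf (nat_lit 0) (nat_lit 1276950119) (nat_lit 988) (nat_lit 781826217) (nat_lit 0) (nat_lit 1276950119) (nat_lit 724) (nat_lit 5) (nat_lit 737) (nat_lit 4) (nat_lit 724) (nat_lit 4) (nat_lit 402) (nat_lit 369) (nat_lit 369))))) (XT.nd (nat_lit 234) (nat_lit 3800) (nat_lit 0) (XT.nd (nat_lit 78) (nat_lit 1140) (nat_lit 0) (XT.lf (nat_lit 0) (nat_lit 2853153379) (nat_lit 988) (nat_lit 3047587489) (nat_lit 988) (nat_lit 792216276) (nat_lit 711) (nat_lit 4) (nat_lit 724) (nat_lit 5) (nat_lit 724) (nat_lit 4) (nat_lit 403) (nat_lit 369) (nat_lit 368))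 (XT.nd (nat_lit 78) (nat_lit 0) (nat_lit 0) (XT.lf (nat_lit 0) (nat_lit 596477411) (nat_lit 1064) (nat_lit 1909956684) (nat_lit 1140) (nat_lit 4209301762) (nat_lit 696) (nat_lit 5) (nat_lit 710) (nat_lit 5) (nat_lit 711) (nat_lit 4) (nat_lit 404) (nat_lit 369) (nat_lit 367)) (XT.lf (nat_lit 0) (nat_lit 5109400162) (nat_lit 1064) (nat_lit 704318661) (nat_lit 1140) (nat_lit 926081205) (nat_lit 696) (nat_lit 5) (nat_lit 710) (nat_lit 5) (nat_lit 711) (nat_lit 4) (nat_lit 405) (nat_lit 369) (nat_lit 366)))) (XT.nd (nat_lit 156) (nat_lit 1368) (nat_lit 0) (XT.nd (nat_lit 78) (nat_lit 1216) (nat_lit 0) (XT.lf (nat_lit 0) (nat_lit 2342137204) (nat_lit 1216) (nat_lit 3856724541) (nat_lit 76) (nat_lit 566146951) (nat_lit 680) (nat_lit 5) (nat_lit 696) (nat_lit 5) (nat_lit 681) (nat_lit 4) (nat_lit 406) (nat_lit 369) (nat_lit 365)) (XT.lf (nat_lit 0) (nat_lit 708037225) (nat_lit 1216) (nat_lit 4905149960) (nat_lit 1292) (nat_lit 1178414575) (nat_lit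 664) (nat_lit 5) (nat_lit 680) (nat_lit 5) (nat_lit 681) (nat_lit 4) (nat_lit 407) (nat_lit 369) (nat_lit 364))) (XT.nd (nat_lit 78) (nat_lit 1292) (nat_lit 0) (XT.lf (nat_lit 0) (nat_lit 2059152931) (nat_lit 1292) (nat_lit 1476097210) (nat_lit 76) (nat_lit 3284076455) (nat_lit 663) (nat_lit 5) (nat_lit 680) (nat_lit 5) (nat_lit 664) (nat_lit 5) (nat_lit 408) (nat_lit 369) (nat_lit 363)) (XT.lf (nat_lit 0) (nat_lit 3198592503) (nat_lit 1292) (nat_lit 2099369660) (nat_lit 1368) (nat_lit 1550442595) (nat_lit 646) (nat_lit 5) (nat_lit 663) (nat_lit 5) (nat_lit 664) (nat_lit 5) (nat_lit 409) (nat_lit 369) (nat_lit 362))))))))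
noncomputable def xc33 : XT := (XT.nd (nat_lit 2028) (nat_lit 11324) (nat_lit 0) (XT.nd (nat_lit 1014) (nat_lit 8436) (nat_lit 0) (XT.nd (nat_lit 468) (nat_lit 7524) (nat_lit 0) (XT.nd (nat_lit 234) (nat_lit 3192) (nat_lit 0) (XT.nd (nat_lit 78) (nat_lit 1520) (nat_lit 0) (XT.lf (nat_lit 0) (nat_lit 1051870376) (nat_lit 1368) (nat_lit 597811584) (nat_lit 1444) (nat_lit 5229182667) (nat_lit 627) (nat_lit 5) (nat_lit 645) (nat_lit 5) (nat_lit 646) (nat_lit 5) (nat_lit 410) (nat_lit 369) (nat_lit 361)) (XT.nd (nat_lit 78) (nat_lit 1520) (nat_lit 0) (XT.lf (nat_lit 0) (nat_lit 4856787218) (nat_lit 1444) (nat_lit 1089463718) (nat_lit 76) (nat_lit 964203019) (nat_lit 627) (nat_lit 5) (nat_lit 646) (nat_lit 5) (nat_lit 628) (nat_lit 5) (nat_lit 411) (nat_lit 369) (nat_lit 360)) (XT.lf (nat_lit 0) (nat_lit 1132046668) (nat_lit 1520) (nat_lit 3222516591) (nat_lit 76) (nat_lit 2588713219) (nat_lit 607) (nat_lit 5) (nat_lit 627) (nat_lit 5) (nat_lit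 608) (nat_lit 5) (nat_lit 412) (nat_lit 369) (nat_lit 359)))) (XT.nd (nat_lit 78) (nat_lit 1672) (nat_lit 0) (XT.lf (nat_lit 0) (nat_lit 1612976565) (nat_lit 1520) (nat_lit 2693648332) (nat_lit 1596) (nat_lit 2670806077) (nat_lit 587) (nat_lit 5) (nat_lit 607) (nat_lit 5) (nat_lit 608) (nat_lit 5) (nat_lit 413) (nat_lit 369) (nat_lit 358)) (XT.nd (nat_lit 78) (nat_lit 1596) (nat_lit 0) (XT.lf (nat_lit 0) (nat_lit 482469366) (nat_lit 1596) (nat_lit 486916713) (nat_lit 76) (nat_lit 6043672822) (nat_lit 586) (nat_lit 5) (nat_lit 607) (nat_lit 5) (nat_lit 587) (nat_lit 5) (nat_lit 414) (nat_lit 369) (nat_lit 357)) (XT.lf (nat_lit 0) (nat_lit 3634093486) (nat_lit 1672) (nat_lit 2585247614) (nat_lit 76) (nat_lit 830284301) (nat_lit 565) (nat_lit 5) (nat_lit 587) (nat_lit 5) (nat_lit 566) (nat_lit 5) (nat_lit 415) (nat_lit 369) (nat_lit 356))))) (XT.nd (nat_lit 234) (nat_lit 4028) (nat_lit 0) (XT.nd (nat_lit 78) (nat_lit 1824) (nat_lit 0) (XT.lf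 (nat_lit 0) (nat_lit 2399421052) (nat_lit 1672) (nat_lit 4412032022) (nat_lit 1748) (nat_lit 276216096) (nat_lit 543) (nat_lit 5) (nat_lit 565) (nat_lit 5) (nat_lit 566) (nat_lit 5) (nat_lit 416) (nat_lit 369) (nat_lit 355)) (XT.nd (nat_lit 78) (nat_lit 0) (nat_lit 0) (XT.lf (nat_lit 0) (nat_lit 317271448) (nat_lit 1748) (nat_lit 2527610680) (nat_lit 1824) (nat_lit 4282064359) (nat_lit 519) (nat_lit 5) (nat_lit 542) (nat_lit 5) (nat_lit 543) (nat_lit 5) (nat_lit 417) (nat_lit 369) (nat_lit 354)) (XT.lf (nat_lit 0) (nat_lit 5424518275) (nat_lit 1748) (nat_lit 570312578) (nat_lit 1824) (nat_lit 1172739441) (nat_lit 519) (nat_lit 5) (nat_lit 542) (nat_lit 5) (nat_lit 543) (nat_lit 5) (nat_lit 418) (nat_lit 369) (nat_lit 353)))) (XT.nd (nat_lit 156) (nat_lit 988) (nat_lit 0) (XT.nd (nat_lit 78) (nat_lit 1140) (nat_lit 0) (XT.lf (nat_lit 0) (nat_lit 1943587795) (nat_lit 1900) (nat_lit 3822243956) (nat_lit 76) (nat_lit 1443494677) (nat_lit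 494) (nat_lit 5) (nat_lit 519) (nat_lit 5) (nat_lit 495) (nat_lit 5) (nat_lit 419) (nat_lit 369) (nat_lit 352)) (XT.lf (nat_lit 0) (nat_lit 1337169322) (nat_lit 1140) (nat_lit 3733900436) (nat_lit 1216) (nat_lit 2181402266) (nat_lit 479) (nat_lit 5) (nat_lit 494) (nat_lit 5) (nat_lit 495) (nat_lit 5) (nat_lit 420) (nat_lit 369) (nat_lit 351))) (XT.nd (nat_lit 78) (nat_lit 912) (nat_lit 0) (XT.lf (nat_lit 0) (nat_lit 918462634) (nat_lit 1216) (nat_lit 711718772) (nat_lit 76) (nat_lit 5666844009) (nat_lit 478) (nat_lit 5) (nat_lit 494) (nat_lit 5) (nat_lit 479) (nat_lit 5) (nat_lit 421) (nat_lit 369) (nat_lit 350)) (XT.lf (nat_lit 0) (nat_lit 4026359199) (nat_lit 988) (nat_lit 2764503655) (nat_lit 76) (nat_lit 551813771) (nat_lit 466) (nat_lit 5) (nat_lit 479) (nat_lit 5) (nat_lit 467) (nat_lit 5) (nat_lit 422) (nat_lit 369) (nat_lit 349)))))) (XT.nd (nat_lit 468) (nat_lit 4712) (nat_lit 0) (XT.nd (nat_lit 234) (nat_lit 1900) (nat_lit 0)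 (XT.nd (nat_lit 78) (nat_lit 912) (nat_lit 0) (XT.lf (nat_lit 0) (nat_lit 2556618090) (nat_lit 912) (nat_lit 4614578479) (nat_lit 988) (nat_lit 218548632) (nat_lit 454) (nat_lit 5) (nat_lit 466) (nat_lit 5) (nat_lit 467) (nat_lit 5) (nat_lit 423) (nat_lit 369) (nat_lit 348)) (XT.nd (nat_lit 78) (nat_lit 0) (nat_lit 0) (XT.lf (nat_lit 0) (nat_lit 510923435) (nat_lit 836) (nat_lit 2356610109) (nat_lit 912) (nat_lit 4570541042) (nat_lit 442) (nat_lit 5) (nat_lit 453) (nat_lit 5) (nat_lit 454) (nat_lit 5) (nat_lit 424) (nat_lit 369) (nat_lit 347)) (XT.lf (nat_lit 0) (nat_lit 5965492575) (nat_lit 836) (nat_lit 23011721) (nat_lit 912) (nat_lit 1499315506) (nat_lit 442) (nat_lit 5) (nat_lit 453) (nat_lit 5) (nat_lit 454) (nat_lit 5) (nat_lit 425) (nat_lit 369) (nat_lit 346)))) (XT.nd (nat_lit 78) (nat_lit 912) (nat_lit 0) (XT.lf (nat_lit 0) (nat_lit 1597626297) (nat_lit 988) (nat_lit 3582342362) (nat_lit 76) (nat_lit 2358664904) (nat_lit 429)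 (nat_lit 5) (nat_lit 442) (nat_lit 5) (nat_lit 430) (nat_lit 5) (nat_lit 426) (nat_lit 369) (nat_lit 345)) (XT.nd (nat_lit 78) (nat_lit 76) (nat_lit 0) (XT.lf (nat_lit 0) (nat_lit 1929375696) (nat_lit 836) (nat_lit 2775115624) (nat_lit 912) (nat_lit 2886412866) (nat_lit 418) (nat_lit 5) (nat_lit 429) (nat_lit 5) (nat_lit 430) (nat_lit 5) (nat_lit 427) (nat_lit 369) (nat_lit 344)) (XT.lf (nat_lit 0) (nat_lit 195870662) (nat_lit 912) (nat_lit 106463504) (nat_lit 76) (nat_lit 7342464200) (nat_lit 417) (nat_lit 5) (nat_lit 429) (nat_lit 5) (nat_lit 418) (nat_lit 5) (nat_lit 428) (nat_lit 369) (nat_lit 343))))) (XT.nd (nat_lit 234) (nat_lit 2280) (nat_lit 0) (XT.nd (nat_lit 78) (nat_lit 1596) (nat_lit 0) (XT.lf (nat_lit 0) (nat_lit 3298458941) (nat_lit 912) (nat_lit 2160819311) (nat_lit 76) (nat_lit 2240164428) (nat_lit 406) (nat_lit 5) (nat_lit 418) (nat_lit 5) (nat_lit 407) (nat_lit 5) (nat_lit 429) (nat_lit 369) (nat_lit 342)) (XT.nd (nat_lit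 78) (nat_lit 836) (nat_lit 0) (XT.lf (nat_lit 0) (nat_lit 3526746201) (nat_lit 760) (nat_lit 2909069889) (nat_lit 836) (nat_lit 1319909450) (nat_lit 396) (nat_lit 5) (nat_lit 406) (nat_lit 5) (nat_lit 407) (nat_lit 5) (nat_lit 430) (nat_lit 369) (nat_lit 341)) (XT.lf (nat_lit 0) (nat_lit 1491447257) (nat_lit 760) (nat_lit 279112112) (nat_lit 836) (nat_lit 6042904411) (nat_lit 385) (nat_lit 5) (nat_lit 395) (nat_lit 5) (nat_lit 396) (nat_lit 5) (nat_lit 431) (nat_lit 369) (nat_lit 340)))) (XT.nd (nat_lit 156) (nat_lit 1444) (nat_lit 0) (XT.nd (nat_lit 78) (nat_lit 836) (nat_lit 0) (XT.lf (nat_lit 0) (nat_lit 4897337185) (nat_lit 836) (nat_lit 573993558) (nat_lit 76) (nat_lit 2401008084) (nat_lit 385) (nat_lit 5) (nat_lit 396) (nat_lit 5) (nat_lit 386) (nat_lit 5) (nat_lit 432) (nat_lit 369) (nat_lit 339)) (XT.lf (nat_lit 0) (nat_lit 137380529) (nat_lit 836) (nat_lit 2637060282) (nat_lit 76) (nat_lit 5158227642) (nat_lit 374) (nat_lit 5)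 (nat_lit 385) (nat_lit 5) (nat_lit 375) (nat_lit 5) (nat_lit 433) (nat_lit 369) (nat_lit 338))) (XT.nd (nat_lit 78) (nat_lit 684) (nat_lit 0) (XT.lf (nat_lit 0) (nat_lit 3246612989) (nat_lit 836) (nat_lit 4735491019) (nat_lit 76) (nat_lit 12218610) (nat_lit 364) (nat_lit 5) (nat_lit 375) (nat_lit 5) (nat_lit 365) (nat_lit 5) (nat_lit 434) (nat_lit 369) (nat_lit 337)) (XT.lf (nat_lit 0) (nat_lit 1187721345) (nat_lit 684) (nat_lit 5224032433) (nat_lit 760) (nat_lit 1645581617) (nat_lit 355) (nat_lit 5) (nat_lit 364) (nat_lit 5) (nat_lit 365) (nat_lit 5) (nat_lit 435) (nat_lit 369) (nat_lit 336))))))) (XT.nd (nat_lit 1014) (nat_lit 5320) (nat_lit 0) (XT.nd (nat_lit 468) (nat_lit 3116) (nat_lit 0) (XT.nd (nat_lit 234) (nat_lit 1444) (nat_lit 0) (XT.nd (nat_lit 78) (nat_lit 1368) (nat_lit 0) (XT.lf (nat_lit 0) (nat_lit 1480748316) (nat_lit 760) (nat_lit 898613178) (nat_lit 76) (nat_lit 5742408221) (nat_lit 354) (nat_lit 5) (nat_lit 364) (nat_lit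 5) (nat_lit 355) (nat_lit 5) (nat_lit 436) (nat_lit 369) (nat_lit 335)) (XT.nd (nat_lit 78) (nat_lit 684) (nat_lit 0) (XT.lf (nat_lit 0) (nat_lit 4635962265) (nat_lit 760) (nat_lit 3002189014) (nat_lit 76) (nat_lit 549356059) (nat_lit 345) (nat_lit 5) (nat_lit 355) (nat_lit 5) (nat_lit 346) (nat_lit 5) (nat_lit 437) (nat_lit 369) (nat_lit 334)) (XT.lf (nat_lit 0) (nat_lit 3113243989) (nat_lit 684) (nat_lit 4734643720) (nat_lit 760) (nat_lit 406799863) (nat_lit 336) (nat_lit 5) (nat_lit 345) (nat_lit 5) (nat_lit 346) (nat_lit 5) (nat_lit 438) (nat_lit 369) (nat_lit 333)))) (XT.nd (nat_lit 78) (nat_lit 684) (nat_lit 0) (XT.lf (nat_lit 0) (nat_lit 1003006486) (nat_lit 684) (nat_lit 1739701289) (nat_lit 760) (nat_lit 5580567913) (nat_lit 326) (nat_lit 5) (nat_lit 335) (nat_lit 5) (nat_lit 336) (nat_lit 5) (nat_lit 439) (nat_lit 369) (nat_lit 332)) (XT.nd (nat_lit 78) (nat_lit 684) (nat_lit 0) (XT.lf (nat_lit 0) (nat_lit 5945312986) (nat_lit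 760) (nat_lit 1125141224) (nat_lit 76) (nat_lit 1322816491) (nat_lit 326) (nat_lit 5) (nat_lit 336) (nat_lit 5) (nat_lit 327) (nat_lit 5) (nat_lit 440) (nat_lit 369) (nat_lit 331)) (XT.lf (nat_lit 0) (nat_lit 735930475) (nat_lit 684) (nat_lit 3279070582) (nat_lit 76) (nat_lit 4449598979) (nat_lit 317) (nat_lit 5) (nat_lit 326) (nat_lit 5) (nat_lit 318) (nat_lit 5) (nat_lit 441) (nat_lit 369) (nat_lit 330))))) (XT.nd (nat_lit 234) (nat_lit 1824) (nat_lit 0) (XT.nd (nat_lit 78) (nat_lit 684) (nat_lit 0) (XT.lf (nat_lit 0) (nat_lit 3064187622) (nat_lit 608) (nat_lit 867496527) (nat_lit 684) (nat_lit 4605728873) (nat_lit 309) (nat_lit 5) (nat_lit 317) (nat_lit 5) (nat_lit 318) (nat_lit 5) (nat_lit 442) (nat_lit 369) (nat_lit 329)) (XT.nd (nat_lit 78) (nat_lit 76) (nat_lit 0) (XT.lf (nat_lit 0) (nat_lit 903374062) (nat_lit 608) (nat_lit 6285081667) (nat_lit 684) (nat_lit 1423284481) (nat_lit 301) (nat_lit 5) (nat_lit 309) (nat_lit 5) (nat_lit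 310) (nat_lit 5) (nat_lit 443) (nat_lit 369) (nat_lit 328)) (XT.lf (nat_lit 0) (nat_lit 1795705536) (nat_lit 684) (nat_lit 1283790800) (nat_lit 76) (nat_lit 5607884844) (nat_lit 300) (nat_lit 5) (nat_lit 309) (nat_lit 5) (nat_lit 301) (nat_lit 5) (nat_lit 444) (nat_lit 369) (nat_lit 327)))) (XT.nd (nat_lit 156) (nat_lit 684) (nat_lit 0) (XT.nd (nat_lit 78) (nat_lit 532) (nat_lit 0) (XT.lf (nat_lit 0) (nat_lit 5050663074) (nat_lit 684) (nat_lit 3496684889) (nat_lit 76) (nat_lit 217185939) (nat_lit 292) (nat_lit 5) (nat_lit 301) (nat_lit 5) (nat_lit 293) (nat_lit 5) (nat_lit 445) (nat_lit 369) (nat_lit 326)) (XT.lf (nat_lit 0) (nat_lit 3084819345) (nat_lit 532) (nat_lit 5290384214) (nat_lit 608) (nat_lit 467936442) (nat_lit 285) (nat_lit 5) (nat_lit 292) (nat_lit 5) (nat_lit 293) (nat_lit 5) (nat_lit 446) (nat_lit 369) (nat_lit 325))) (XT.nd (nat_lit 78) (nat_lit 0) (nat_lit 0) (XT.lf (nat_lit 0) (nat_lit 854852178) (nat_lit 608) (nat_lit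 1935533642) (nat_lit 684) (nat_lit 6132868150) (nat_lit 276) (nat_lit 5) (nat_lit 284) (nat_lit 5) (nat_lit 285) (nat_lit 5) (nat_lit 447) (nat_lit 369) (nat_lit 324)) (XT.lf (nat_lit 0) (nat_lit 6112125996) (nat_lit 684) (nat_lit 1399486991) (nat_lit 76) (nat_lit 1493205027) (nat_lit 276) (nat_lit 5) (nat_lit 285) (nat_lit 5) (nat_lit 277) (nat_lit 5) (nat_lit 448) (nat_lit 369) (nat_lit 323)))))) (XT.nd (nat_lit 468) (nat_lit 2584) (nat_lit 0) (XT.nd (nat_lit 234) (nat_lit 1064) (nat_lit 0) (XT.nd (nat_lit 78) (nat_lit 1064) (nat_lit 0) (XT.lf (nat_lit 0) (nat_lit 411625825) (nat_lit 608) (nat_lit 3689238164) (nat_lit 76) (nat_lit 4987000905) (nat_lit 268) (nat_lit 5) (nat_lit 276) (nat_lit 5) (nat_lit 269) (nat_lit 5) (nat_lit 449) (nat_lit 369) (nat_lit 322)) (XT.nd (nat_lit 78) (nat_lit 532) (nat_lit 0) (XT.lf (nat_lit 0) (nat_lit 3141652966) (nat_lit 532) (nat_lit 588538306) (nat_lit 608) (nat_lit 5442261139) (nat_lit 261) (nat_lit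 5) (nat_lit 268) (nat_lit 5) (nat_lit 269) (nat_lit 5) (nat_lit 450) (nat_lit 369) (nat_lit 321)) (XT.lf (nat_lit 0) (nat_lit 832276606) (nat_lit 532) (nat_lit 6289972127) (nat_lit 608) (nat_lit 2136340530) (nat_lit 254) (nat_lit 5) (nat_lit 261) (nat_lit 5) (nat_lit 262) (nat_lit 5) (nat_lit 451) (nat_lit 369) (nat_lit 320)))) (XT.nd (nat_lit 78) (nat_lit 988) (nat_lit 0) (XT.lf (nat_lit 0) (nat_lit 1221654523) (nat_lit 608) (nat_lit 1503604317) (nat_lit 76) (nat_lit 6620986304) (nat_lit 253) (nat_lit 5) (nat_lit 261) (nat_lit 5) (nat_lit 254) (nat_lit 5) (nat_lit 452) (nat_lit 369) (nat_lit 319)) (XT.nd (nat_lit 78) (nat_lit 456) (nat_lit 0) (XT.lf (nat_lit 0) (nat_lit 4618805692) (nat_lit 608) (nat_lit 3884280353) (nat_lit 76) (nat_lit 932273636) (nat_lit 246) (nat_lit 5) (nat_lit 254) (nat_lit 5) (nat_lit 247) (nat_lit 5) (nat_lit 453) (nat_lit 369) (nat_lit 318)) (XT.lf (nat_lit 0) (nat_lit 3205830101) (nat_lit 456) (nat_lit 4885772234)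 (nat_lit 532) (nat_lit 1434500125) (nat_lit 240) (nat_lit 5) (nat_lit 246) (nat_lit 5) (nat_lit 247) (nat_lit 5) (nat_lit 454) (nat_lit 369) (nat_lit 317))))) (XT.nd (nat_lit 234) (nat_lit 1520) (nat_lit 0) (XT.nd (nat_lit 78) (nat_lit 456) (nat_lit 0) (XT.lf (nat_lit 0) (nat_lit 810184840) (nat_lit 532) (nat_lit 1168918948) (nat_lit 608) (nat_lit 7639487856) (nat_lit 232) (nat_lit 5) (nat_lit 239) (nat_lit 5) (nat_lit 240) (nat_lit 5) (nat_lit 455) (nat_lit 369) (nat_lit 316)) (XT.nd (nat_lit 78) (nat_lit 456) (nat_lit 0) (XT.lf (nat_lit 0) (nat_lit 5460653472) (nat_lit 608) (nat_lit 1629710091) (nat_lit 76) (nat_lit 2621999774) (nat_lit 232) (nat_lit 5) (nat_lit 240) (nat_lit 5) (nat_lit 233) (nat_lit 5) (nat_lit 456) (nat_lit 369) (nat_lit 315)) (XT.lf (nat_lit 0) (nat_lit 5701015228) (nat_lit 456) (nat_lit 3315520894) (nat_lit 532) (nat_lit 791380302) (nat_lit 226) (nat_lit 5) (nat_lit 232) (nat_lit 5) (nat_lit 233) (nat_lit 5) (nat_lit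 457) (nat_lit 369) (nat_lit 314)))) (XT.nd (nat_lit 156) (nat_lit 532) (nat_lit 0) (XT.nd (nat_lit 78) (nat_lit 456) (nat_lit 0) (XT.lf (nat_lit 0) (nat_lit 2698201015) (nat_lit 532) (nat_lit 6647370621) (nat_lit 76) (nat_lit 559534248) (nat_lit 219) (nat_lit 5) (nat_lit 226) (nat_lit 5) (nat_lit 220) (nat_lit 5) (nat_lit 458) (nat_lit 369) (nat_lit 313)) (XT.lf (nat_lit 0) (nat_lit 745036843) (nat_lit 456) (nat_lit 5516859370) (nat_lit 532) (nat_lit 3741939922) (nat_lit 213) (nat_lit 5) (nat_lit 219) (nat_lit 5) (nat_lit 220) (nat_lit 5) (nat_lit 459) (nat_lit 369) (nat_lit 312))) (XT.nd (nat_lit 78) (nat_lit 532) (nat_lit 0) (XT.lf (nat_lit 0) (nat_lit 8316786926) (nat_lit 456) (nat_lit 1585454786) (nat_lit 532) (nat_lit 202191751) (nat_lit 213) (nat_lit 5) (nat_lit 219) (nat_lit 5) (nat_lit 220) (nat_lit 5) (nat_lit 460) (nat_lit 369) (nat_lit 311)) (XT.lf (nat_lit 0) (nat_lit 3378795427) (nat_lit 532) (nat_lit 4393357315) (nat_lit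 76) (nat_lit 2434144507) (nat_lit 206) (nat_lit 5) (nat_lit 213) (nat_lit 5) (nat_lit 207) (nat_lit 5) (nat_lit 461) (nat_lit 369) (nat_lit 310))))))))
noncomputable def xc34 : XT := (XT.nd (nat_lit 54834) (nat_lit 0) (nat_lit 21280) (XT.nd (nat_lit 1014) (nat_lit 2052) (nat_lit 0) (XT.nd (nat_lit 468) (nat_lit 1900) (nat_lit 0) (XT.nd (nat_lit 234) (nat_lit 1216) (nat_lit 0) (XT.nd (nat_lit 78) (nat_lit 532) (nat_lit 0) (XT.lf (nat_lit 0) (nat_lit 3252310478) (nat_lit 380) (nat_lit 3781622079) (nat_lit 456) (nat_lit 3276134273) (nat_lit 201) (nat_lit 5) (nat_lit 206) (nat_lit 5) (nat_lit 207) (nat_lit 5) (nat_lit 462) (nat_lit 369) (nat_lit 309)) (XT.nd (nat_lit 78) (nat_lit 0) (nat_lit 0) (XT.lf (nat_lit 0) (nat_lit 339222929) (nat_lit 532) (nat_lit 9775195094) (nat_lit 76) (nat_lit 301498745) (nat_lit 194) (nat_lit 5) (nat_lit 201) (nat_lit 5) (nat_lit 195) (nat_lit 5) (nat_lit 463) (nat_lit 369) (nat_lit 308)) (XT.lf (nat_lit 0) (nat_lit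 4017694636) (nat_lit 532) (nat_lit 2039760345) (nat_lit 76) (nat_lit 4465302122) (nat_lit 194) (nat_lit 5) (nat_lit 201) (nat_lit 5) (nat_lit 195) (nat_lit 5) (nat_lit 464) (nat_lit 369) (nat_lit 307)))) (XT.nd (nat_lit 78) (nat_lit 836) (nat_lit 0) (XT.lf (nat_lit 0) (nat_lit 5869908082) (nat_lit 380) (nat_lit 1900600822) (nat_lit 456) (nat_lit 2861209878) (nat_lit 189) (nat_lit 5) (nat_lit 194) (nat_lit 5) (nat_lit 195) (nat_lit 5) (nat_lit 465) (nat_lit 369) (nat_lit 306)) (XT.nd (nat_lit 78) (nat_lit 380) (nat_lit 0) (XT.lf (nat_lit 0) (nat_lit 856965731) (nat_lit 456) (nat_lit 7556522930) (nat_lit 76) (nat_lit 2329006617) (nat_lit 183) (nat_lit 5) (nat_lit 189) (nat_lit 5) (nat_lit 184) (nat_lit 5) (nat_lit 466) (nat_lit 369) (nat_lit 305)) (XT.lf (nat_lit 0) (nat_lit 418347363) (nat_lit 380) (nat_lit 4203355389) (nat_lit 456) (nat_lit 6233196110) (nat_lit 178) (nat_lit 5) (nat_lit 183) (nat_lit 5) (nat_lit 184) (nat_lit 5) (nat_lit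 467) (nat_lit 369) (nat_lit 304))))) (XT.nd (nat_lit 234) (nat_lit 1140) (nat_lit 0) (XT.nd (nat_lit 78) (nat_lit 760) (nat_lit 0) (XT.lf (nat_lit 0) (nat_lit 8476591797) (nat_lit 456) (nat_lit 2372337794) (nat_lit 76) (nat_lit 120323781) (nat_lit 178) (nat_lit 5) (nat_lit 184) (nat_lit 5) (nat_lit 179) (nat_lit 5) (nat_lit 468) (nat_lit 369) (nat_lit 303)) (XT.nd (nat_lit 78) (nat_lit 304) (nat_lit 0) (XT.lf (nat_lit 0) (nat_lit 1335264004) (nat_lit 456) (nat_lit 5248985037) (nat_lit 76) (nat_lit 4500875624) (nat_lit 172) (nat_lit 5) (nat_lit 178) (nat_lit 5) (nat_lit 173) (nat_lit 5) (nat_lit 469) (nat_lit 369) (nat_lit 302)) (XT.lf (nat_lit 0) (nat_lit 3003744254) (nat_lit 304) (nat_lit 2202232871) (nat_lit 380) (nat_lit 5997014614) (nat_lit 168) (nat_lit 5) (nat_lit 172) (nat_lit 5) (nat_lit 173) (nat_lit 5) (nat_lit 470) (nat_lit 369) (nat_lit 301)))) (XT.nd (nat_lit 156) (nat_lit 684) (nat_lit 0) (XT.nd (nat_lit 78) (nat_lit 76)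 (nat_lit 0) (XT.lf (nat_lit 0) (nat_lit 99328020) (nat_lit 380) (nat_lit 9069848011) (nat_lit 456) (nat_lit 2153738694) (nat_lit 163) (nat_lit 5) (nat_lit 168) (nat_lit 5) (nat_lit 169) (nat_lit 5) (nat_lit 471) (nat_lit 369) (nat_lit 300)) (XT.lf (nat_lit 0) (nat_lit 1777551893) (nat_lit 456) (nat_lit 2852820318) (nat_lit 76) (nat_lit 6813948268) (nat_lit 162) (nat_lit 5) (nat_lit 168) (nat_lit 5) (nat_lit 163) (nat_lit 5) (nat_lit 472) (nat_lit 369) (nat_lit 299))) (XT.nd (nat_lit 78) (nat_lit 380) (nat_lit 0) (XT.lf (nat_lit 0) (nat_lit 5689555805) (nat_lit 304) (nat_lit 71086225) (nat_lit 380) (nat_lit 5807187350) (nat_lit 158) (nat_lit 5) (nat_lit 162) (nat_lit 5) (nat_lit 163) (nat_lit 5) (nat_lit 473) (nat_lit 369) (nat_lit 298)) (XT.lf (nat_lit 0) (nat_lit 2697191838) (nat_lit 380) (nat_lit 7157947937) (nat_lit 456) (nat_lit 1838033766) (nat_lit 153) (nat_lit 5) (nat_lit 158) (nat_lit 5) (nat_lit 159) (nat_lit 5) (nat_lit 474)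 (nat_lit 369) (nat_lit 297)))))) (XT.nd (nat_lit 468) (nat_lit 684) (nat_lit 0) (XT.nd (nat_lit 234) (nat_lit 684) (nat_lit 0) (XT.nd (nat_lit 78) (nat_lit 608) (nat_lit 0) (XT.lf (nat_lit 0) (nat_lit 2187010951) (nat_lit 456) (nat_lit 367909497) (nat_lit 76) (nat_lit 9265707113) (nat_lit 152) (nat_lit 5) (nat_lit 158) (nat_lit 5) (nat_lit 153) (nat_lit 5) (nat_lit 475) (nat_lit 369) (nat_lit 296)) (XT.nd (nat_lit 78) (nat_lit 304) (nat_lit 0) (XT.lf (nat_lit 0) (nat_lit 6303205478) (nat_lit 380) (nat_lit 3487778615) (nat_lit 76) (nat_lit 2158698376) (nat_lit 148) (nat_lit 5) (nat_lit 153) (nat_lit 5) (nat_lit 149) (nat_lit 5) (nat_lit 476) (nat_lit 369) (nat_lit 295)) (XT.lf (nat_lit 0) (nat_lit 5390286835) (nat_lit 304) (nat_lit 5132012088) (nat_lit 380) (nat_lit 1558608053) (nat_lit 144) (nat_lit 5) (nat_lit 148) (nat_lit 5) (nat_lit 149) (nat_lit 5) (nat_lit 477) (nat_lit 369) (nat_lit 294)))) (XT.nd (nat_lit 78) (nat_lit 304) (nat_lit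 0) (XT.lf (nat_lit 0) (nat_lit 2235529210) (nat_lit 304) (nat_lit 345575228) (nat_lit 380) (nat_lit 9633225882) (nat_lit 139) (nat_lit 5) (nat_lit 143) (nat_lit 5) (nat_lit 144) (nat_lit 5) (nat_lit 478) (nat_lit 369) (nat_lit 293)) (XT.nd (nat_lit 78) (nat_lit 304) (nat_lit 0) (XT.lf (nat_lit 0) (nat_lit 6823827898) (nat_lit 380) (nat_lit 1014451198) (nat_lit 76) (nat_lit 4511115258) (nat_lit 139) (nat_lit 5) (nat_lit 144) (nat_lit 5) (nat_lit 140) (nat_lit 5) (nat_lit 479) (nat_lit 369) (nat_lit 292)) (XT.lf (nat_lit 0) (nat_lit 8179518194) (nat_lit 304) (nat_lit 2994359047) (nat_lit 380) (nat_lit 1312832998) (nat_lit 135) (nat_lit 5) (nat_lit 139) (nat_lit 5) (nat_lit 140) (nat_lit 5) (nat_lit 480) (nat_lit 369) (nat_lit 291))))) (XT.nd (nat_lit 53040) (nat_lit 0) (nat_lit 44384) (XT.nd (nat_lit 78) (nat_lit 304) (nat_lit 0) (XT.lf (nat_lit 0) (nat_lit 2963945929) (nat_lit 380) (nat_lit 7704091357) (nat_lit 76) (nat_lit 1957969083)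 (nat_lit 130) (nat_lit 5) (nat_lit 135) (nat_lit 5) (nat_lit 131) (nat_lit 5) (nat_lit 481) (nat_lit 369) (nat_lit 290)) (XT.nd (nat_lit 78) (nat_lit 0) (nat_lit 0) (XT.lf (nat_lit 0) (nat_lit 1563386062) (nat_lit 304) (nat_lit 5771689973) (nat_lit 380) (nat_lit 5432310941) (nat_lit 126) (nat_lit 5) (nat_lit 130) (nat_lit 5) (nat_lit 131) (nat_lit 5) (nat_lit 482) (nat_lit 369) (nat_lit 289)) (XT.lf (nat_lit 0) (nat_lit 11066123934) (nat_lit 304) (nat_lit 746792800) (nat_lit 380) (nat_lit 1098292704) (nat_lit 126) (nat_lit 5) (nat_lit 130) (nat_lit 5) (nat_lit 131) (nat_lit 5) (nat_lit 483) (nat_lit 369) (nat_lit 288)))) (XT.nd (nat_lit 156) (nat_lit 1064) (nat_lit 0) (XT.nd (nat_lit 78) (nat_lit 988) (nat_lit 0) (XT.lf (nat_lit 0) (nat_lit 1539233435) (nat_lit 836) (nat_lit 888298796) (nat_lit 836) (nat_lit 888298796) (nat_lit 737) (nat_lit 4) (nat_lit 748) (nat_lit 5) (nat_lit 748) (nat_lit 4) (nat_lit 400) (nat_lit 370) (nat_lit 370))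 (XT.lf (nat_lit 0) (nat_lit 731579736) (nat_lit 912) (nat_lit 792216276) (nat_lit 988) (nat_lit 5127561650) (nat_lit 724) (nat_lit 5) (nat_lit 736) (nat_lit 5) (nat_lit 737) (nat_lit 4) (nat_lit 401) (nat_lit 370) (nat_lit 369))) (XT.nd (nat_lit 78) (nat_lit 1064) (nat_lit 0) (XT.lf (nat_lit 0) (nat_lit 4817683371) (nat_lit 988) (nat_lit 1592669930) (nat_lit 0) (nat_lit 261833521) (nat_lit 724) (nat_lit 5) (nat_lit 737) (nat_lit 4) (nat_lit 724) (nat_lit 4) (nat_lit 402) (nat_lit 370) (nat_lit 368)) (XT.lf (nat_lit 0) (nat_lit 1414947901) (nat_lit 1064) (nat_lit 3908803338) (nat_lit 76) (nat_lit 1370480720) (nat_lit 710) (nat_lit 5) (nat_lit 724) (nat_lit 5) (nat_lit 711) (nat_lit 4) (nat_lit 403) (nat_lit 370) (nat_lit 367))))))) (XT.nd (nat_lit 1014) (nat_lit 10336) (nat_lit 0) (XT.nd (nat_lit 468) (nat_lit 7828) (nat_lit 0) (XT.nd (nat_lit 234) (nat_lit 2660) (nat_lit 0) (XT.nd (nat_lit 78) (nat_lit 1216) (nat_lit 0) (XT.lf (nat_lit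 0) (nat_lit 492231391) (nat_lit 1064) (nat_lit 4174611128) (nat_lit 1140) (nat_lit 2050792593) (nat_lit 696) (nat_lit 5) (nat_lit 710) (nat_lit 5) (nat_lit 711) (nat_lit 4) (nat_lit 404) (nat_lit 370) (nat_lit 366)) (XT.nd (nat_lit 78) (nat_lit 1140) (nat_lit 0) (XT.lf (nat_lit 0) (nat_lit 1180857083) (nat_lit 1140) (nat_lit 1773564026) (nat_lit 76) (nat_lit 3787826287) (nat_lit 695) (nat_lit 5) (nat_lit 710) (nat_lit 5) (nat_lit 696) (nat_lit 5) (nat_lit 405) (nat_lit 370) (nat_lit 365)) (XT.lf (nat_lit 0) (nat_lit 2732097682) (nat_lit 1140) (nat_lit 1665225749) (nat_lit 1216) (nat_lit 2370804505) (nat_lit 680) (nat_lit 5) (nat_lit 695) (nat_lit 5) (nat_lit 696) (nat_lit 5) (nat_lit 406) (nat_lit 370) (nat_lit 364)))) (XT.nd (nat_lit 78) (nat_lit 1368) (nat_lit 0) (XT.lf (nat_lit 0) (nat_lit 500360458) (nat_lit 1216) (nat_lit 317299189) (nat_lit 1292) (nat_lit 5977838600) (nat_lit 663) (nat_lit 5) (nat_lit 679) (nat_lit 5) (nat_lit 680)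 (nat_lit 5) (nat_lit 407) (nat_lit 370) (nat_lit 363)) (XT.nd (nat_lit 78) (nat_lit 1368) (nat_lit 0) (XT.lf (nat_lit 0) (nat_lit 4003794697) (nat_lit 1292) (nat_lit 1722505458) (nat_lit 76) (nat_lit 1097489455) (nat_lit 663) (nat_lit 5) (nat_lit 680) (nat_lit 5) (nat_lit 664) (nat_lit 5) (nat_lit 408) (nat_lit 370) (nat_lit 362)) (XT.lf (nat_lit 0) (nat_lit 349330591) (nat_lit 1368) (nat_lit 3936009284) (nat_lit 76) (nat_lit 2568183169) (nat_lit 645) (nat_lit 5) (nat_lit 663) (nat_lit 5) (nat_lit 646) (nat_lit 5) (nat_lit 409) (nat_lit 370) (nat_lit 361))))) (XT.nd (nat_lit 234) (nat_lit 4940) (nat_lit 0) (XT.nd (nat_lit 78) (nat_lit 1520) (nat_lit 0) (XT.lf (nat_lit 0) (nat_lit 722364712) (nat_lit 1368) (nat_lit 2771614514) (nat_lit 1444) (nat_lit 3390505190) (nat_lit 627) (nat_lit 5) (nat_lit 645) (nat_lit 5) (nat_lit 646) (nat_lit 5) (nat_lit 410) (nat_lit 370) (nat_lit 360)) (XT.nd (nat_lit 78) (nat_lit 1520) (nat_lit 0) (XT.lf (nat_lit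 0) (nat_lit 5469224542) (nat_lit 1368) (nat_lit 1192974846) (nat_lit 1444) (nat_lit 254652057) (nat_lit 627) (nat_lit 5) (nat_lit 645) (nat_lit 5) (nat_lit 646) (nat_lit 5) (nat_lit 411) (nat_lit 370) (nat_lit 359)) (XT.lf (nat_lit 0) (nat_lit 2865068057) (nat_lit 1520) (nat_lit 3625444862) (nat_lit 76) (nat_lit 459775419) (nat_lit 607) (nat_lit 5) (nat_lit 627) (nat_lit 5) (nat_lit 608) (nat_lit 5) (nat_lit 412) (nat_lit 370) (nat_lit 358)))) (XT.nd (nat_lit 156) (nat_lit 3344) (nat_lit 0) (XT.nd (nat_lit 78) (nat_lit 76) (nat_lit 0) (XT.lf (nat_lit 0) (nat_lit 1175247137) (nat_lit 1520) (nat_lit 4829908722) (nat_lit 1596) (nat_lit 979976784) (nat_lit 587) (nat_lit 5) (nat_lit 607) (nat_lit 5) (nat_lit 608) (nat_lit 5) (nat_lit 413) (nat_lit 370) (nat_lit 357)) (XT.lf (nat_lit 0) (nat_lit 2119701128) (nat_lit 1596) (nat_lit 972612448) (nat_lit 76) (nat_lit 3928855874) (nat_lit 586) (nat_lit 5) (nat_lit 607) (nat_lit 5) (nat_lit 587)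 (nat_lit 5) (nat_lit 414) (nat_lit 370) (nat_lit 356))) (XT.nd (nat_lit 78) (nat_lit 1748) (nat_lit 0) (XT.lf (nat_lit 0) (nat_lit 3948705079) (nat_lit 1596) (nat_lit 1282967623) (nat_lit 1672) (nat_lit 1826856298) (nat_lit 565) (nat_lit 5) (nat_lit 586) (nat_lit 5) (nat_lit 587) (nat_lit 5) (nat_lit 415) (nat_lit 370) (nat_lit 355)) (XT.lf (nat_lit 0) (nat_lit 1252673383) (nat_lit 1748) (nat_lit 5258876570) (nat_lit 76) (nat_lit 585703849) (nat_lit 542) (nat_lit 5) (nat_lit 565) (nat_lit 5) (nat_lit 543) (nat_lit 5) (nat_lit 416) (nat_lit 370) (nat_lit 354)))))) (XT.nd (nat_lit 468) (nat_lit 4560) (nat_lit 0) (XT.nd (nat_lit 234) (nat_lit 2128) (nat_lit 0) (XT.nd (nat_lit 78) (nat_lit 3648) (nat_lit 0) (XT.lf (nat_lit 0) (nat_lit 4337923262) (nat_lit 1748) (nat_lit 288663955) (nat_lit 76) (nat_lit 2510552550) (nat_lit 542) (nat_lit 5) (nat_lit 565) (nat_lit 5) (nat_lit 543) (nat_lit 5) (nat_lit 417) (nat_lit 370) (nat_lit 353)) (XT.nd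 (nat_lit 78) (nat_lit 1824) (nat_lit 0) (XT.lf (nat_lit 0) (nat_lit 274168871) (nat_lit 1824) (nat_lit 2394613285) (nat_lit 76) (nat_lit 4509578596) (nat_lit 518) (nat_lit 5) (nat_lit 542) (nat_lit 5) (nat_lit 519) (nat_lit 5) (nat_lit 418) (nat_lit 370) (nat_lit 352)) (XT.lf (nat_lit 0) (nat_lit 2699470420) (nat_lit 1824) (nat_lit 632247731) (nat_lit 1900) (nat_lit 3889114397) (nat_lit 494) (nat_lit 5) (nat_lit 518) (nat_lit 5) (nat_lit 519) (nat_lit 5) (nat_lit 419) (nat_lit 370) (nat_lit 351)))) (XT.nd (nat_lit 78) (nat_lit 988) (nat_lit 0) (XT.lf (nat_lit 0) (nat_lit 603161158) (nat_lit 1140) (nat_lit 5818185368) (nat_lit 1216) (nat_lit 843388690) (nat_lit 479) (nat_lit 5) (nat_lit 494) (nat_lit 5) (nat_lit 495) (nat_lit 5) (nat_lit 420) (nat_lit 370) (nat_lit 350)) (XT.nd (nat_lit 78) (nat_lit 912) (nat_lit 0) (XT.lf (nat_lit 0) (nat_lit 2210134410) (nat_lit 1216) (nat_lit 1496235152) (nat_lit 76) (nat_lit 3603321170) (nat_lit 478)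 (nat_lit 5) (nat_lit 494) (nat_lit 5) (nat_lit 479) (nat_lit 5) (nat_lit 421) (nat_lit 370) (nat_lit 349)) (XT.lf (nat_lit 0) (nat_lit 3757570448) (nat_lit 912) (nat_lit 1523249302) (nat_lit 988) (nat_lit 2075266416) (nat_lit 466) (nat_lit 5) (nat_lit 478) (nat_lit 5) (nat_lit 479) (nat_lit 5) (nat_lit 422) (nat_lit 370) (nat_lit 348))))) (XT.nd (nat_lit 234) (nat_lit 2736) (nat_lit 0) (XT.nd (nat_lit 78) (nat_lit 836) (nat_lit 0) (XT.lf (nat_lit 0) (nat_lit 965431678) (nat_lit 988) (nat_lit 5718558587) (nat_lit 76) (nat_lit 719904910) (nat_lit 453) (nat_lit 5) (nat_lit 466) (nat_lit 5) (nat_lit 454) (nat_lit 5) (nat_lit 423) (nat_lit 370) (nat_lit 347)) (XT.nd (nat_lit 78) (nat_lit 836) (nat_lit 0) (XT.lf (nat_lit 0) (nat_lit 4017636970) (nat_lit 988) (nat_lit 412141648) (nat_lit 76) (nat_lit 3023037775) (nat_lit 453) (nat_lit 5) (nat_lit 466) (nat_lit 5) (nat_lit 454) (nat_lit 5) (nat_lit 424) (nat_lit 370) (nat_lit 346)) (XT.lf (nat_lit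 0) (nat_lit 5007630722) (nat_lit 836) (nat_lit 2100924858) (nat_lit 912) (nat_lit 394607072) (nat_lit 442) (nat_lit 5) (nat_lit 453) (nat_lit 5) (nat_lit 454) (nat_lit 5) (nat_lit 425) (nat_lit 370) (nat_lit 345)))) (XT.nd (nat_lit 156) (nat_lit 912) (nat_lit 0) (XT.nd (nat_lit 78) (nat_lit 836) (nat_lit 0) (XT.lf (nat_lit 0) (nat_lit 2640721413) (nat_lit 988) (nat_lit 4607608759) (nat_lit 76) (nat_lit 306445289) (nat_lit 429) (nat_lit 5) (nat_lit 442) (nat_lit 5) (nat_lit 430) (nat_lit 5) (nat_lit 426) (nat_lit 370) (nat_lit 344)) (XT.lf (nat_lit 0) (nat_lit 860663032) (nat_lit 836) (nat_lit 4853329106) (nat_lit 912) (nat_lit 1893725830) (nat_lit 418) (nat_lit 5) (nat_lit 429) (nat_lit 5) (nat_lit 430) (nat_lit 5) (nat_lit 427) (nat_lit 370) (nat_lit 343))) (XT.nd (nat_lit 78) (nat_lit 836) (nat_lit 0) (XT.lf (nat_lit 0) (nat_lit 1149041438) (nat_lit 912) (nat_lit 1228023553) (nat_lit 76) (nat_lit 5284948192) (nat_lit 417) (nat_lit 5)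 (nat_lit 429) (nat_lit 5) (nat_lit 418) (nat_lit 5) (nat_lit 428) (nat_lit 370) (nat_lit 342)) (XT.lf (nat_lit 0) (nat_lit 4204542411) (nat_lit 912) (nat_lit 3331023486) (nat_lit 76) (nat_lit 182033349) (nat_lit 406) (nat_lit 5) (nat_lit 418) (nat_lit 5) (nat_lit 407) (nat_lit 5) (nat_lit 429) (nat_lit 370) (nat_lit 341))))))))
noncomputable def xc35 : XT := (XT.nd (nat_lit 2028) (nat_lit 7980) (nat_lit 0) (XT.nd (nat_lit 1014) (nat_lit 5320) (nat_lit 0) (XT.nd (nat_lit 468) (nat_lit 4180) (nat_lit 0) (XT.nd (nat_lit 234) (nat_lit 1596) (nat_lit 0) (XT.nd (nat_lit 78) (nat_lit 836) (nat_lit 0) (XT.lf (nat_lit 0) (nat_lit 2311291130) (nat_lit 760) (nat_lit 4997041175) (nat_lit 836) (nat_lit 466221145) (nat_lit 396) (nat_lit 5) (nat_lit 406) (nat_lit 5) (nat_lit 407) (nat_lit 5) (nat_lit 430) (nat_lit 370) (nat_lit 340)) (XT.nd (nat_lit 78) (nat_lit 0) (nat_lit 0) (XT.lf (nat_lit 0) (nat_lit 205297048) (nat_lit 760) (nat_lit 2373874538)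 (nat_lit 836) (nat_lit 5253686846) (nat_lit 385) (nat_lit 5) (nat_lit 395) (nat_lit 5) (nat_lit 396) (nat_lit 5) (nat_lit 431) (nat_lit 370) (nat_lit 339)) (XT.lf (nat_lit 0) (nat_lit 5667103868) (nat_lit 836) (nat_lit 1895678584) (nat_lit 76) (nat_lit 329727937) (nat_lit 385) (nat_lit 5) (nat_lit 396) (nat_lit 5) (nat_lit 386) (nat_lit 5) (nat_lit 432) (nat_lit 370) (nat_lit 338)))) (XT.nd (nat_lit 78) (nat_lit 760) (nat_lit 0) (XT.lf (nat_lit 0) (nat_lit 843284742) (nat_lit 836) (nat_lit 4031343306) (nat_lit 76) (nat_lit 3078791826) (nat_lit 374) (nat_lit 5) (nat_lit 385) (nat_lit 5) (nat_lit 375) (nat_lit 5) (nat_lit 433) (nat_lit 370) (nat_lit 337)) (XT.nd (nat_lit 78) (nat_lit 0) (nat_lit 0) (XT.lf (nat_lit 0) (nat_lit 1816419106) (nat_lit 760) (nat_lit 2102037422) (nat_lit 836) (nat_lit 4097298727) (nat_lit 364) (nat_lit 5) (nat_lit 374) (nat_lit 5) (nat_lit 375) (nat_lit 5) (nat_lit 434) (nat_lit 370) (nat_lit 336)) (XT.lf (nat_lit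 0) (nat_lit 7037886036) (nat_lit 836) (nat_lit 307608704) (nat_lit 76) (nat_lit 734187516) (nat_lit 364) (nat_lit 5) (nat_lit 375) (nat_lit 5) (nat_lit 365) (nat_lit 5) (nat_lit 435) (nat_lit 370) (nat_lit 335))))) (XT.nd (nat_lit 234) (nat_lit 1976) (nat_lit 0) (XT.nd (nat_lit 78) (nat_lit 1444) (nat_lit 0) (XT.lf (nat_lit 0) (nat_lit 2050353315) (nat_lit 760) (nat_lit 2454008343) (nat_lit 76) (nat_lit 3640201746) (nat_lit 354) (nat_lit 5) (nat_lit 364) (nat_lit 5) (nat_lit 355) (nat_lit 5) (nat_lit 436) (nat_lit 370) (nat_lit 334)) (XT.nd (nat_lit 78) (nat_lit 760) (nat_lit 0) (XT.lf (nat_lit 0) (nat_lit 3583451479) (nat_lit 684) (nat_lit 1584327774) (nat_lit 760) (nat_lit 3043277535) (nat_lit 345) (nat_lit 5) (nat_lit 354) (nat_lit 5) (nat_lit 355) (nat_lit 5) (nat_lit 437) (nat_lit 370) (nat_lit 333)) (XT.lf (nat_lit 0) (nat_lit 55229212) (nat_lit 760) (nat_lit 6832576302) (nat_lit 76) (nat_lit 1391316485) (nat_lit 335) (nat_lit 5)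 (nat_lit 345) (nat_lit 5) (nat_lit 336) (nat_lit 5) (nat_lit 438) (nat_lit 370) (nat_lit 332)))) (XT.nd (nat_lit 156) (nat_lit 1292) (nat_lit 0) (XT.nd (nat_lit 78) (nat_lit 684) (nat_lit 0) (XT.lf (nat_lit 0) (nat_lit 3169500353) (nat_lit 760) (nat_lit 733383532) (nat_lit 76) (nat_lit 4445371433) (nat_lit 335) (nat_lit 5) (nat_lit 345) (nat_lit 5) (nat_lit 336) (nat_lit 5) (nat_lit 439) (nat_lit 370) (nat_lit 331)) (XT.lf (nat_lit 0) (nat_lit 5501602323) (nat_lit 684) (nat_lit 833855130) (nat_lit 760) (nat_lit 2083525839) (nat_lit 326) (nat_lit 5) (nat_lit 335) (nat_lit 5) (nat_lit 336) (nat_lit 5) (nat_lit 440) (nat_lit 370) (nat_lit 330))) (XT.nd (nat_lit 78) (nat_lit 608) (nat_lit 0) (XT.lf (nat_lit 0) (nat_lit 1055250279) (nat_lit 684) (nat_lit 5147751902) (nat_lit 76) (nat_lit 2288069774) (nat_lit 317) (nat_lit 5) (nat_lit 326) (nat_lit 5) (nat_lit 318) (nat_lit 5) (nat_lit 441) (nat_lit 370) (nat_lit 329)) (XT.lf (nat_lit 0) (nat_lit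 1141067439) (nat_lit 608) (nat_lit 3074852886) (nat_lit 684) (nat_lit 4348666288) (nat_lit 309) (nat_lit 5) (nat_lit 317) (nat_lit 5) (nat_lit 318) (nat_lit 5) (nat_lit 442) (nat_lit 370) (nat_lit 328)))))) (XT.nd (nat_lit 468) (nat_lit 2812) (nat_lit 0) (XT.nd (nat_lit 234) (nat_lit 1216) (nat_lit 0) (XT.nd (nat_lit 78) (nat_lit 1292) (nat_lit 0) (XT.lf (nat_lit 0) (nat_lit 7430108783) (nat_lit 684) (nat_lit 1073864056) (nat_lit 76) (nat_lit 135792624) (nat_lit 309) (nat_lit 5) (nat_lit 318) (nat_lit 5) (nat_lit 310) (nat_lit 5) (nat_lit 443) (nat_lit 370) (nat_lit 327)) (XT.nd (nat_lit 78) (nat_lit 608) (nat_lit 0) (XT.lf (nat_lit 0) (nat_lit 1977136222) (nat_lit 684) (nat_lit 3334337372) (nat_lit 76) (nat_lit 3404493007) (nat_lit 300) (nat_lit 5) (nat_lit 309) (nat_lit 5) (nat_lit 301) (nat_lit 5) (nat_lit 444) (nat_lit 370) (nat_lit 326)) (XT.lf (nat_lit 0) (nat_lit 3162172883) (nat_lit 608) (nat_lit 2032964382) (nat_lit 684) (nat_lit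 3598721187) (nat_lit 292) (nat_lit 5) (nat_lit 300) (nat_lit 5) (nat_lit 301) (nat_lit 5) (nat_lit 445) (nat_lit 370) (nat_lit 325)))) (XT.nd (nat_lit 78) (nat_lit 684) (nat_lit 0) (XT.lf (nat_lit 0) (nat_lit 905286325) (nat_lit 532) (nat_lit 7565389538) (nat_lit 608) (nat_lit 402768726) (nat_lit 285) (nat_lit 5) (nat_lit 292) (nat_lit 5) (nat_lit 293) (nat_lit 5) (nat_lit 446) (nat_lit 370) (nat_lit 324)) (XT.nd (nat_lit 78) (nat_lit 608) (nat_lit 0) (XT.lf (nat_lit 0) (nat_lit 2827591746) (nat_lit 608) (nat_lit 1395861530) (nat_lit 76) (nat_lit 4730638961) (nat_lit 284) (nat_lit 5) (nat_lit 292) (nat_lit 5) (nat_lit 285) (nat_lit 5) (nat_lit 447) (nat_lit 370) (nat_lit 323)) (XT.lf (nat_lit 0) (nat_lit 5317038169) (nat_lit 608) (nat_lit 791963976) (nat_lit 684) (nat_lit 2927460732) (nat_lit 276) (nat_lit 5) (nat_lit 284) (nat_lit 5) (nat_lit 285) (nat_lit 5) (nat_lit 448) (nat_lit 370) (nat_lit 322))))) (XT.nd (nat_lit 234) (nat_lit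 1672) (nat_lit 0) (XT.nd (nat_lit 78) (nat_lit 532) (nat_lit 0) (XT.lf (nat_lit 0) (nat_lit 335523666) (nat_lit 608) (nat_lit 6096002599) (nat_lit 76) (nat_lit 2688823796) (nat_lit 268) (nat_lit 5) (nat_lit 276) (nat_lit 5) (nat_lit 269) (nat_lit 5) (nat_lit 449) (nat_lit 370) (nat_lit 321)) (XT.nd (nat_lit 78) (nat_lit 0) (nat_lit 0) (XT.lf (nat_lit 0) (nat_lit 673583450) (nat_lit 532) (nat_lit 2943614982) (nat_lit 608) (nat_lit 5588476959) (nat_lit 261) (nat_lit 5) (nat_lit 268) (nat_lit 5) (nat_lit 269) (nat_lit 5) (nat_lit 450) (nat_lit 370) (nat_lit 320)) (XT.lf (nat_lit 0) (nat_lit 6967865053) (nat_lit 608) (nat_lit 1693746439) (nat_lit 76) (nat_lit 631028567) (nat_lit 261) (nat_lit 5) (nat_lit 269) (nat_lit 5) (nat_lit 262) (nat_lit 5) (nat_lit 451) (nat_lit 370) (nat_lit 319)))) (XT.nd (nat_lit 156) (nat_lit 532) (nat_lit 0) (XT.nd (nat_lit 78) (nat_lit 532) (nat_lit 0) (XT.lf (nat_lit 0) (nat_lit 1003860567) (nat_lit 608) (nat_lit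 4114301059) (nat_lit 76) (nat_lit 4262795399) (nat_lit 253) (nat_lit 5) (nat_lit 261) (nat_lit 5) (nat_lit 254) (nat_lit 5) (nat_lit 452) (nat_lit 370) (nat_lit 318)) (XT.lf (nat_lit 0) (nat_lit 2882947600) (nat_lit 532) (nat_lit 1474357088) (nat_lit 608) (nat_lit 5113641016) (nat_lit 246) (nat_lit 5) (nat_lit 253) (nat_lit 5) (nat_lit 254) (nat_lit 5) (nat_lit 453) (nat_lit 370) (nat_lit 317))) (XT.nd (nat_lit 78) (nat_lit 76) (nat_lit 0) (XT.lf (nat_lit 0) (nat_lit 446725780) (nat_lit 456) (nat_lit 7335836309) (nat_lit 532) (nat_lit 1780077179) (nat_lit 240) (nat_lit 5) (nat_lit 246) (nat_lit 5) (nat_lit 247) (nat_lit 5) (nat_lit 454) (nat_lit 370) (nat_lit 316)) (XT.lf (nat_lit 0) (nat_lit 1612822163) (nat_lit 532) (nat_lit 2022687400) (nat_lit 76) (nat_lit 6020168501) (nat_lit 239) (nat_lit 5) (nat_lit 246) (nat_lit 5) (nat_lit 240) (nat_lit 5) (nat_lit 455) (nat_lit 370) (nat_lit 315))))))) (XT.nd (nat_lit 1014) (nat_lit 3344) (nat_lit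 0) (XT.nd (nat_lit 468) (nat_lit 2128) (nat_lit 0) (XT.nd (nat_lit 234) (nat_lit 988) (nat_lit 0) (XT.nd (nat_lit 78) (nat_lit 988) (nat_lit 0) (XT.lf (nat_lit 0) (nat_lit 5045133118) (nat_lit 608) (nat_lit 4539709498) (nat_lit 76) (nat_lit 165591915) (nat_lit 232) (nat_lit 5) (nat_lit 240) (nat_lit 5) (nat_lit 233) (nat_lit 5) (nat_lit 456) (nat_lit 370) (nat_lit 314)) (XT.nd (nat_lit 78) (nat_lit 532) (nat_lit 0) (XT.lf (nat_lit 0) (nat_lit 2723537207) (nat_lit 456) (nat_lit 5838706892) (nat_lit 532) (nat_lit 1284518953) (nat_lit 226) (nat_lit 5) (nat_lit 232) (nat_lit 5) (nat_lit 233) (nat_lit 5) (nat_lit 457) (nat_lit 370) (nat_lit 313)) (XT.lf (nat_lit 0) (nat_lit 179446782) (nat_lit 456) (nat_lit 1989021843) (nat_lit 532) (nat_lit 7776409150) (nat_lit 219) (nat_lit 5) (nat_lit 225) (nat_lit 5) (nat_lit 226) (nat_lit 5) (nat_lit 458) (nat_lit 370) (nat_lit 312)))) (XT.nd (nat_lit 78) (nat_lit 988) (nat_lit 0) (XT.lf (nat_lit 0) (nat_lit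 5695179626) (nat_lit 532) (nat_lit 2398516255) (nat_lit 76) (nat_lit 1950651829) (nat_lit 219) (nat_lit 5) (nat_lit 226) (nat_lit 5) (nat_lit 220) (nat_lit 5) (nat_lit 459) (nat_lit 370) (nat_lit 311)) (XT.nd (nat_lit 78) (nat_lit 532) (nat_lit 0) (XT.lf (nat_lit 0) (nat_lit 5112911715) (nat_lit 456) (nat_lit 4187793239) (nat_lit 532) (nat_lit 844936487) (nat_lit 213) (nat_lit 5) (nat_lit 219) (nat_lit 5) (nat_lit 220) (nat_lit 5) (nat_lit 460) (nat_lit 370) (nat_lit 310)) (XT.lf (nat_lit 0) (nat_lit 2516781294) (nat_lit 456) (nat_lit 171387361) (nat_lit 532) (nat_lit 7560546270) (nat_lit 206) (nat_lit 5) (nat_lit 212) (nat_lit 5) (nat_lit 213) (nat_lit 5) (nat_lit 461) (nat_lit 370) (nat_lit 309))))) (XT.nd (nat_lit 234) (nat_lit 1216) (nat_lit 0) (XT.nd (nat_lit 78) (nat_lit 912) (nat_lit 0) (XT.lf (nat_lit 0) (nat_lit 6302412373) (nat_lit 532) (nat_lit 156072982) (nat_lit 76) (nat_lit 3894817018) (nat_lit 206) (nat_lit 5) (nat_lit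 213) (nat_lit 5) (nat_lit 207) (nat_lit 5) (nat_lit 462) (nat_lit 370) (nat_lit 308)) (XT.nd (nat_lit 78) (nat_lit 532) (nat_lit 0) (XT.lf (nat_lit 0) (nat_lit 7614053224) (nat_lit 380) (nat_lit 2388495221) (nat_lit 456) (nat_lit 457160976) (nat_lit 201) (nat_lit 5) (nat_lit 206) (nat_lit 5) (nat_lit 207) (nat_lit 5) (nat_lit 463) (nat_lit 370) (nat_lit 307)) (XT.lf (nat_lit 0) (nat_lit 3174469116) (nat_lit 532) (nat_lit 5617968206) (nat_lit 76) (nat_lit 1775228546) (nat_lit 194) (nat_lit 5) (nat_lit 201) (nat_lit 5) (nat_lit 195) (nat_lit 5) (nat_lit 464) (nat_lit 370) (nat_lit 306)))) (XT.nd (nat_lit 156) (nat_lit 836) (nat_lit 0) (XT.nd (nat_lit 78) (nat_lit 0) (nat_lit 0) (XT.lf (nat_lit 0) (nat_lit 2215889361) (nat_lit 380) (nat_lit 4669547885) (nat_lit 456) (nat_lit 3792027224) (nat_lit 189) (nat_lit 5) (nat_lit 194) (nat_lit 5) (nat_lit 195) (nat_lit 5) (nat_lit 465) (nat_lit 370) (nat_lit 305)) (XT.lf (nat_lit 0) (nat_lit 10226614482)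 (nat_lit 380) (nat_lit 445458114) (nat_lit 456) (nat_lit 117357492) (nat_lit 189) (nat_lit 5) (nat_lit 194) (nat_lit 5) (nat_lit 195) (nat_lit 5) (nat_lit 466) (nat_lit 370) (nat_lit 304))) (XT.nd (nat_lit 78) (nat_lit 380) (nat_lit 0) (XT.lf (nat_lit 0) (nat_lit 3621627722) (nat_lit 456) (nat_lit 3414791243) (nat_lit 76) (nat_lit 3865975766) (nat_lit 183) (nat_lit 5) (nat_lit 189) (nat_lit 5) (nat_lit 184) (nat_lit 5) (nat_lit 467) (nat_lit 370) (nat_lit 303)) (XT.lf (nat_lit 0) (nat_lit 4691333942) (nat_lit 380) (nat_lit 2744141287) (nat_lit 456) (nat_lit 3582094842) (nat_lit 178) (nat_lit 5) (nat_lit 183) (nat_lit 5) (nat_lit 184) (nat_lit 5) (nat_lit 468) (nat_lit 370) (nat_lit 302)))))) (XT.nd (nat_lit 468) (nat_lit 1824) (nat_lit 0) (XT.nd (nat_lit 234) (nat_lit 760) (nat_lit 0) (XT.nd (nat_lit 78) (nat_lit 304) (nat_lit 0) (XT.lf (nat_lit 0) (nat_lit 198318895) (nat_lit 456) (nat_lit 9307414332) (nat_lit 76) (nat_lit 1629085603)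 (nat_lit 172) (nat_lit 5) (nat_lit 178) (nat_lit 5) (nat_lit 173) (nat_lit 5) (nat_lit 469) (nat_lit 370) (nat_lit 301)) (XT.nd (nat_lit 78) (nat_lit 304) (nat_lit 0) (XT.lf (nat_lit 0) (nat_lit 4032080292) (nat_lit 456) (nat_lit 1121737685) (nat_lit 76) (nat_lit 6099606962) (nat_lit 172) (nat_lit 5) (nat_lit 178) (nat_lit 5) (nat_lit 173) (nat_lit 5) (nat_lit 470) (nat_lit 370) (nat_lit 300)) (XT.lf (nat_lit 0) (nat_lit 7268202594) (nat_lit 304) (nat_lit 686947610) (nat_lit 380) (nat_lit 3419000300) (nat_lit 168) (nat_lit 5) (nat_lit 172) (nat_lit 5) (nat_lit 173) (nat_lit 5) (nat_lit 471) (nat_lit 370) (nat_lit 299)))) (XT.nd (nat_lit 78) (nat_lit 304) (nat_lit 0) (XT.lf (nat_lit 0) (nat_lit 479928123) (nat_lit 456) (nat_lit 7179387197) (nat_lit 76) (nat_lit 3837384364) (nat_lit 162) (nat_lit 5) (nat_lit 168) (nat_lit 5) (nat_lit 163) (nat_lit 5) (nat_lit 472) (nat_lit 370) (nat_lit 298)) (XT.nd (nat_lit 78) (nat_lit 0) (nat_lit 0)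 (XT.lf (nat_lit 0) (nat_lit 1277871090) (nat_lit 304) (nat_lit 3139538420) (nat_lit 380) (nat_lit 7203711249) (nat_lit 158) (nat_lit 5) (nat_lit 162) (nat_lit 5) (nat_lit 163) (nat_lit 5) (nat_lit 473) (nat_lit 370) (nat_lit 297)) (XT.lf (nat_lit 0) (nat_lit 8457597862) (nat_lit 380) (nat_lit 1810583940) (nat_lit 76) (nat_lit 1479369305) (nat_lit 158) (nat_lit 5) (nat_lit 163) (nat_lit 5) (nat_lit 159) (nat_lit 5) (nat_lit 474) (nat_lit 370) (nat_lit 296))))) (XT.nd (nat_lit 234) (nat_lit 760) (nat_lit 0) (XT.nd (nat_lit 78) (nat_lit 608) (nat_lit 0) (XT.lf (nat_lit 0) (nat_lit 725311783) (nat_lit 456) (nat_lit 4972248789) (nat_lit 76) (nat_lit 6178209529) (nat_lit 152) (nat_lit 5) (nat_lit 158) (nat_lit 5) (nat_lit 153) (nat_lit 5) (nat_lit 475) (nat_lit 370) (nat_lit 295)) (XT.nd (nat_lit 78) (nat_lit 304) (nat_lit 0) (XT.lf (nat_lit 0) (nat_lit 3783649814) (nat_lit 304) (nat_lit 996684926) (nat_lit 380) (nat_lit 7225713701) (nat_lit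 148) (nat_lit 5) (nat_lit 152) (nat_lit 5) (nat_lit 153) (nat_lit 5) (nat_lit 476) (nat_lit 370) (nat_lit 294)) (XT.lf (nat_lit 0) (nat_lit 572007447) (nat_lit 304) (nat_lit 8373248199) (nat_lit 380) (nat_lit 3193100752) (nat_lit 144) (nat_lit 5) (nat_lit 148) (nat_lit 5) (nat_lit 149) (nat_lit 5) (nat_lit 477) (nat_lit 370) (nat_lit 293)))) (XT.nd (nat_lit 156) (nat_lit 380) (nat_lit 0) (XT.nd (nat_lit 78) (nat_lit 304) (nat_lit 0) (XT.lf (nat_lit 0) (nat_lit 937156359) (nat_lit 380) (nat_lit 2685885096) (nat_lit 76) (nat_lit 8649568373) (nat_lit 143) (nat_lit 5) (nat_lit 148) (nat_lit 5) (nat_lit 144) (nat_lit 5) (nat_lit 478) (nat_lit 370) (nat_lit 292)) (XT.lf (nat_lit 0) (nat_lit 5124513995) (nat_lit 380) (nat_lit 6035852739) (nat_lit 76) (nat_lit 1248414443) (nat_lit 139) (nat_lit 5) (nat_lit 144) (nat_lit 5) (nat_lit 140) (nat_lit 5) (nat_lit 479) (nat_lit 370) (nat_lit 291))) (XT.nd (nat_lit 78) (nat_lit 76) (nat_lit 0) (XT.lf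 (nat_lit 0) (nat_lit 3064506047) (nat_lit 304) (nat_lit 6360867808) (nat_lit 380) (nat_lit 3121706998) (nat_lit 135) (nat_lit 5) (nat_lit 139) (nat_lit 5) (nat_lit 140) (nat_lit 5) (nat_lit 480) (nat_lit 370) (nat_lit 290)) (XT.lf (nat_lit 0) (nat_lit 1117930533) (nat_lit 380) (nat_lit 319872104) (nat_lit 76) (nat_lit 11250026536) (nat_lit 134) (nat_lit 5) (nat_lit 139) (nat_lit 5) (nat_lit 135) (nat_lit 5) (nat_lit 481) (nat_lit 370) (nat_lit 289))))))))
noncomputable def xc36 : XT := (XT.nd (nat_lit 54678) (nat_lit 0) (nat_lit 12008) (XT.nd (nat_lit 53664) (nat_lit 0) (nat_lit 26752) (XT.nd (nat_lit 53118) (nat_lit 0) (nat_lit 40812) (XT.nd (nat_lit 52884) (nat_lit 0) (nat_lit 45448) (XT.nd (nat_lit 78) (nat_lit 304) (nat_lit 0) (XT.lf (nat_lit 0) (nat_lit 5451587001) (nat_lit 380) (nat_lit 3782308022) (nat_lit 76) (nat_lit 3596064231) (nat_lit 130) (nat_lit 5) (nat_lit 135) (nat_lit 5) (nat_lit 131) (nat_lit 5) (nat_lit 482) (nat_lit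 370) (nat_lit 288)) (XT.nd (nat_lit 52728) (nat_lit 0) (nat_lit 47272) (XT.lf (nat_lit 0) (nat_lit 5643704043) (nat_lit 304) (nat_lit 4245109842) (nat_lit 380) (nat_lit 3085780105) (nat_lit 126) (nat_lit 5) (nat_lit 130) (nat_lit 5) (nat_lit 131) (nat_lit 5) (nat_lit 483) (nat_lit 370) (nat_lit 287)) (XT.lf (nat_lit 0) (nat_lit 312290560) (nat_lit 836) (nat_lit 2673315549) (nat_lit 0) (nat_lit 312290560) (nat_lit 748) (nat_lit 5) (nat_lit 759) (nat_lit 4) (nat_lit 748) (nat_lit 4) (nat_lit 398) (nat_lit 371) (nat_lit 371)))) (XT.nd (nat_lit 78) (nat_lit 1824) (nat_lit 0) (XT.lf (nat_lit 0) (nat_lit 3912464086) (nat_lit 836) (nat_lit 1181865454) (nat_lit 0) (nat_lit 1519046112) (nat_lit 748) (nat_lit 5) (nat_lit 759) (nat_lit 4) (nat_lit 748) (nat_lit 4) (nat_lit 399) (nat_lit 371) (nat_lit 370)) (XT.nd (nat_lit 78) (nat_lit 912) (nat_lit 0) (XT.lf (nat_lit 0) (nat_lit 571431741) (nat_lit 912) (nat_lit 3585614065) (nat_lit 76) (nat_lit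 2475282133) (nat_lit 736) (nat_lit 5) (nat_lit 748) (nat_lit 5) (nat_lit 737) (nat_lit 4) (nat_lit 400) (nat_lit 371) (nat_lit 369)) (XT.lf (nat_lit 0) (nat_lit 658814749) (nat_lit 912) (nat_lit 3152670186) (nat_lit 988) (nat_lit 2841048712) (nat_lit 724) (nat_lit 5) (nat_lit 736) (nat_lit 5) (nat_lit 737) (nat_lit 4) (nat_lit 401) (nat_lit 371) (nat_lit 368))))) (XT.nd (nat_lit 234) (nat_lit 2432) (nat_lit 0) (XT.nd (nat_lit 78) (nat_lit 2128) (nat_lit 0) (XT.lf (nat_lit 0) (nat_lit 388340754) (nat_lit 988) (nat_lit 1695837455) (nat_lit 76) (nat_lit 4589888558) (nat_lit 723) (nat_lit 5) (nat_lit 736) (nat_lit 5) (nat_lit 724) (nat_lit 5) (nat_lit 402) (nat_lit 371) (nat_lit 367)) (XT.nd (nat_lit 78) (nat_lit 1140) (nat_lit 0) (XT.lf (nat_lit 0) (nat_lit 2648158557) (nat_lit 988) (nat_lit 941520422) (nat_lit 1064) (nat_lit 3107067931) (nat_lit 710) (nat_lit 5) (nat_lit 723) (nat_lit 5) (nat_lit 724) (nat_lit 5) (nat_lit 403) (nat_lit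 371) (nat_lit 366)) (XT.lf (nat_lit 0) (nat_lit 77384974) (nat_lit 1140) (nat_lit 6393266191) (nat_lit 76) (nat_lit 250332053) (nat_lit 695) (nat_lit 5) (nat_lit 710) (nat_lit 5) (nat_lit 696) (nat_lit 5) (nat_lit 404) (nat_lit 371) (nat_lit 365)))) (XT.nd (nat_lit 156) (nat_lit 1292) (nat_lit 0) (XT.nd (nat_lit 78) (nat_lit 1140) (nat_lit 0) (XT.lf (nat_lit 0) (nat_lit 3247425034) (nat_lit 1140) (nat_lit 1983189782) (nat_lit 76) (nat_lit 1515408646) (nat_lit 695) (nat_lit 5) (nat_lit 710) (nat_lit 5) (nat_lit 696) (nat_lit 5) (nat_lit 405) (nat_lit 371) (nat_lit 364)) (XT.lf (nat_lit 0) (nat_lit 2491425088) (nat_lit 1140) (nat_lit 3936871233) (nat_lit 1216) (nat_lit 344319581) (nat_lit 680) (nat_lit 5) (nat_lit 695) (nat_lit 5) (nat_lit 696) (nat_lit 5) (nat_lit 406) (nat_lit 371) (nat_lit 363))) (XT.nd (nat_lit 78) (nat_lit 0) (nat_lit 0) (XT.lf (nat_lit 0) (nat_lit 210079900) (nat_lit 1216) (nat_lit 2571835068) (nat_lit 1292) (nat_lit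 4018521137) (nat_lit 663) (nat_lit 5) (nat_lit 679) (nat_lit 5) (nat_lit 680) (nat_lit 5) (nat_lit 407) (nat_lit 371) (nat_lit 362)) (XT.lf (nat_lit 0) (nat_lit 4790397928) (nat_lit 1216) (nat_lit 1137145068) (nat_lit 1292) (nat_lit 901994612) (nat_lit 663) (nat_lit 5) (nat_lit 679) (nat_lit 5) (nat_lit 680) (nat_lit 5) (nat_lit 408) (nat_lit 371) (nat_lit 361)))))) (XT.nd (nat_lit 468) (nat_lit 8208) (nat_lit 0) (XT.nd (nat_lit 234) (nat_lit 3040) (nat_lit 0) (XT.nd (nat_lit 78) (nat_lit 1444) (nat_lit 0) (XT.lf (nat_lit 0) (nat_lit 2199693739) (nat_lit 1368) (nat_lit 4296617713) (nat_lit 76) (nat_lit 363560177) (nat_lit 645) (nat_lit 5) (nat_lit 663) (nat_lit 5) (nat_lit 646) (nat_lit 5) (nat_lit 409) (nat_lit 371) (nat_lit 360)) (XT.nd (nat_lit 78) (nat_lit 76) (nat_lit 0) (XT.lf (nat_lit 0) (nat_lit 328233646) (nat_lit 1368) (nat_lit 4981194650) (nat_lit 1444) (nat_lit 1582102987) (nat_lit 627) (nat_lit 5) (nat_lit 645) (nat_lit 5)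 (nat_lit 646) (nat_lit 5) (nat_lit 410) (nat_lit 371) (nat_lit 359)) (XT.lf (nat_lit 0) (nat_lit 1501257569) (nat_lit 1444) (nat_lit 1887486603) (nat_lit 76) (nat_lit 3535594676) (nat_lit 626) (nat_lit 5) (nat_lit 645) (nat_lit 5) (nat_lit 627) (nat_lit 5) (nat_lit 411) (nat_lit 371) (nat_lit 358)))) (XT.nd (nat_lit 78) (nat_lit 1596) (nat_lit 0) (XT.lf (nat_lit 0) (nat_lit 2852142592) (nat_lit 1444) (nat_lit 1727896166) (nat_lit 1520) (nat_lit 2378455900) (nat_lit 607) (nat_lit 5) (nat_lit 626) (nat_lit 5) (nat_lit 627) (nat_lit 5) (nat_lit 412) (nat_lit 371) (nat_lit 357)) (XT.nd (nat_lit 78) (nat_lit 0) (nat_lit 0) (XT.lf (nat_lit 0) (nat_lit 665905117) (nat_lit 1520) (nat_lit 5561170) (nat_lit 1596) (nat_lit 6322694086) (nat_lit 586) (nat_lit 5) (nat_lit 606) (nat_lit 5) (nat_lit 607) (nat_lit 5) (nat_lit 413) (nat_lit 371) (nat_lit 356)) (XT.lf (nat_lit 0) (nat_lit 3727449639) (nat_lit 1596) (nat_lit 1526021155) (nat_lit 76) (nat_lit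 1777215974) (nat_lit 586) (nat_lit 5) (nat_lit 607) (nat_lit 5) (nat_lit 587) (nat_lit 5) (nat_lit 414) (nat_lit 371) (nat_lit 355))))) (XT.nd (nat_lit 234) (nat_lit 4864) (nat_lit 0) (XT.nd (nat_lit 78) (nat_lit 1748) (nat_lit 0) (XT.lf (nat_lit 0) (nat_lit 3359418354) (nat_lit 1596) (nat_lit 3445974972) (nat_lit 1672) (nat_lit 263333549) (nat_lit 565) (nat_lit 5) (nat_lit 586) (nat_lit 5) (nat_lit 587) (nat_lit 5) (nat_lit 415) (nat_lit 371) (nat_lit 354)) (XT.nd (nat_lit 78) (nat_lit 0) (nat_lit 0) (XT.lf (nat_lit 0) (nat_lit 1195830165) (nat_lit 1672) (nat_lit 1561820900) (nat_lit 1748) (nat_lit 4350358367) (nat_lit 542) (nat_lit 5) (nat_lit 564) (nat_lit 5) (nat_lit 565) (nat_lit 5) (nat_lit 416) (nat_lit 371) (nat_lit 353)) (XT.lf (nat_lit 0) (nat_lit 5803186268) (nat_lit 1748) (nat_lit 960603238) (nat_lit 76) (nat_lit 384900184) (nat_lit 542) (nat_lit 5) (nat_lit 565) (nat_lit 5) (nat_lit 543) (nat_lit 5) (nat_lit 417) (nat_lit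 371) (nat_lit 352)))) (XT.nd (nat_lit 156) (nat_lit 1216) (nat_lit 0) (XT.nd (nat_lit 78) (nat_lit 1824) (nat_lit 0) (XT.lf (nat_lit 0) (nat_lit 1674993048) (nat_lit 1824) (nat_lit 3125507815) (nat_lit 76) (nat_lit 2389897508) (nat_lit 518) (nat_lit 5) (nat_lit 542) (nat_lit 5) (nat_lit 519) (nat_lit 5) (nat_lit 418) (nat_lit 371) (nat_lit 351)) (XT.lf (nat_lit 0) (nat_lit 1930075335) (nat_lit 1824) (nat_lit 2768674249) (nat_lit 1900) (nat_lit 2534796437) (nat_lit 494) (nat_lit 5) (nat_lit 518) (nat_lit 5) (nat_lit 519) (nat_lit 5) (nat_lit 419) (nat_lit 371) (nat_lit 350))) (XT.nd (nat_lit 78) (nat_lit 1140) (nat_lit 0) (XT.lf (nat_lit 0) (nat_lit 462128323) (nat_lit 1900) (nat_lit 209198484) (nat_lit 76) (nat_lit 6606897537) (nat_lit 493) (nat_lit 5) (nat_lit 518) (nat_lit 5) (nat_lit 494) (nat_lit 5) (nat_lit 420) (nat_lit 371) (nat_lit 349)) (XT.lf (nat_lit 0) (nat_lit 3470617178) (nat_lit 1216) (nat_lit 2354977801) (nat_lit 76) (nat_lit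 1498154825) (nat_lit 478) (nat_lit 5) (nat_lit 494) (nat_lit 5) (nat_lit 479) (nat_lit 5) (nat_lit 421) (nat_lit 371) (nat_lit 348))))))) (XT.nd (nat_lit 1014) (nat_lit 6080) (nat_lit 0) (XT.nd (nat_lit 468) (nat_lit 4940) (nat_lit 0) (XT.nd (nat_lit 234) (nat_lit 1824) (nat_lit 0) (XT.nd (nat_lit 78) (nat_lit 988) (nat_lit 0) (XT.lf (nat_lit 0) (nat_lit 2858628019) (nat_lit 912) (nat_lit 3649162545) (nat_lit 988) (nat_lit 863024913) (nat_lit 466) (nat_lit 5) (nat_lit 478) (nat_lit 5) (nat_lit 479) (nat_lit 5) (nat_lit 422) (nat_lit 371) (nat_lit 347)) (XT.nd (nat_lit 78) (nat_lit 0) (nat_lit 0) (XT.lf (nat_lit 0) (nat_lit 727409874) (nat_lit 912) (nat_lit 1395880551) (nat_lit 988) (nat_lit 5295946327) (nat_lit 453) (nat_lit 5) (nat_lit 465) (nat_lit 5) (nat_lit 466) (nat_lit 5) (nat_lit 423) (nat_lit 371) (nat_lit 346)) (XT.lf (nat_lit 0) (nat_lit 5139282414) (nat_lit 988) (nat_lit 1405282049) (nat_lit 76) (nat_lit 924317773) (nat_lit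 453) (nat_lit 5) (nat_lit 466) (nat_lit 5) (nat_lit 454) (nat_lit 5) (nat_lit 424) (nat_lit 371) (nat_lit 345)))) (XT.nd (nat_lit 78) (nat_lit 912) (nat_lit 0) (XT.lf (nat_lit 0) (nat_lit 668088801) (nat_lit 912) (nat_lit 3551743306) (nat_lit 76) (nat_lit 3299975249) (nat_lit 441) (nat_lit 5) (nat_lit 453) (nat_lit 5) (nat_lit 442) (nat_lit 5) (nat_lit 425) (nat_lit 371) (nat_lit 344)) (XT.nd (nat_lit 78) (nat_lit 0) (nat_lit 0) (XT.lf (nat_lit 0) (nat_lit 1847467305) (nat_lit 912) (nat_lit 1815152177) (nat_lit 988) (nat_lit 3909461891) (nat_lit 429) (nat_lit 5) (nat_lit 441) (nat_lit 5) (nat_lit 442) (nat_lit 5) (nat_lit 426) (nat_lit 371) (nat_lit 343)) (XT.lf (nat_lit 0) (nat_lit 6692384194) (nat_lit 988) (nat_lit 284697707) (nat_lit 76) (nat_lit 648812101) (nat_lit 429) (nat_lit 5) (nat_lit 442) (nat_lit 5) (nat_lit 430) (nat_lit 5) (nat_lit 427) (nat_lit 371) (nat_lit 342))))) (XT.nd (nat_lit 234) (nat_lit 2356) (nat_lit 0) (XT.nd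 (nat_lit 78) (nat_lit 1672) (nat_lit 0) (XT.lf (nat_lit 0) (nat_lit 2068801196) (nat_lit 912) (nat_lit 2430611481) (nat_lit 76) (nat_lit 3181209110) (nat_lit 417) (nat_lit 5) (nat_lit 429) (nat_lit 5) (nat_lit 418) (nat_lit 5) (nat_lit 428) (nat_lit 371) (nat_lit 341)) (XT.nd (nat_lit 78) (nat_lit 836) (nat_lit 0) (XT.lf (nat_lit 0) (nat_lit 3140410199) (nat_lit 836) (nat_lit 1949127436) (nat_lit 912) (nat_lit 2647365505) (nat_lit 406) (nat_lit 5) (nat_lit 417) (nat_lit 5) (nat_lit 418) (nat_lit 5) (nat_lit 429) (nat_lit 371) (nat_lit 340)) (XT.lf (nat_lit 0) (nat_lit 347666168) (nat_lit 836) (nat_lit 6784359491) (nat_lit 76) (nat_lit 662711112) (nat_lit 395) (nat_lit 5) (nat_lit 406) (nat_lit 5) (nat_lit 396) (nat_lit 5) (nat_lit 430) (nat_lit 371) (nat_lit 339)))) (XT.nd (nat_lit 156) (nat_lit 1596) (nat_lit 0) (XT.nd (nat_lit 78) (nat_lit 760) (nat_lit 0) (XT.lf (nat_lit 0) (nat_lit 3360582703) (nat_lit 836) (nat_lit 1150398495) (nat_lit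 76) (nat_lit 3342527245) (nat_lit 395) (nat_lit 5) (nat_lit 406) (nat_lit 5) (nat_lit 396) (nat_lit 5) (nat_lit 431) (nat_lit 371) (nat_lit 338)) (XT.lf (nat_lit 0) (nat_lit 4599371863) (nat_lit 760) (nat_lit 1814681241) (nat_lit 836) (nat_lit 1499796534) (nat_lit 385) (nat_lit 5) (nat_lit 395) (nat_lit 5) (nat_lit 396) (nat_lit 5) (nat_lit 432) (nat_lit 371) (nat_lit 337))) (XT.nd (nat_lit 78) (nat_lit 760) (nat_lit 0) (XT.lf (nat_lit 0) (nat_lit 1513585431) (nat_lit 836) (nat_lit 5512683627) (nat_lit 76) (nat_lit 949311699) (nat_lit 374) (nat_lit 5) (nat_lit 385) (nat_lit 5) (nat_lit 375) (nat_lit 5) (nat_lit 433) (nat_lit 371) (nat_lit 336)) (XT.lf (nat_lit 0) (nat_lit 286292378) (nat_lit 760) (nat_lit 4268398222) (nat_lit 836) (nat_lit 3483906869) (nat_lit 364) (nat_lit 5) (nat_lit 374) (nat_lit 5) (nat_lit 375) (nat_lit 5) (nat_lit 434) (nat_lit 371) (nat_lit 335)))))) (XT.nd (nat_lit 468) (nat_lit 3192) (nat_lit 0) (XT.nd (nat_lit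 234) (nat_lit 1444) (nat_lit 0) (XT.nd (nat_lit 78) (nat_lit 1444) (nat_lit 0) (XT.lf (nat_lit 0) (nat_lit 6218344028) (nat_lit 760) (nat_lit 1427101825) (nat_lit 836) (nat_lit 457652103) (nat_lit 364) (nat_lit 5) (nat_lit 374) (nat_lit 5) (nat_lit 375) (nat_lit 5) (nat_lit 435) (nat_lit 371) (nat_lit 334)) (XT.nd (nat_lit 78) (nat_lit 684) (nat_lit 0) (XT.lf (nat_lit 0) (nat_lit 2583376407) (nat_lit 760) (nat_lit 4099295488) (nat_lit 76) (nat_lit 1486100553) (nat_lit 354) (nat_lit 5) (nat_lit 364) (nat_lit 5) (nat_lit 355) (nat_lit 5) (nat_lit 436) (nat_lit 371) (nat_lit 333)) (XT.lf (nat_lit 0) (nat_lit 1887389760) (nat_lit 684) (nat_lit 3779116796) (nat_lit 760) (nat_lit 2569445193) (nat_lit 345) (nat_lit 5) (nat_lit 354) (nat_lit 5) (nat_lit 355) (nat_lit 5) (nat_lit 437) (nat_lit 371) (nat_lit 332)))) (XT.nd (nat_lit 78) (nat_lit 1368) (nat_lit 0) (XT.lf (nat_lit 0) (nat_lit 481077509) (nat_lit 760) (nat_lit 315895657) (nat_lit 76)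 (nat_lit 7507817657) (nat_lit 344) (nat_lit 5) (nat_lit 354) (nat_lit 5) (nat_lit 345) (nat_lit 5) (nat_lit 438) (nat_lit 371) (nat_lit 331)) (XT.nd (nat_lit 78) (nat_lit 684) (nat_lit 0) (XT.lf (nat_lit 0) (nat_lit 3565151694) (nat_lit 760) (nat_lit 2549428922) (nat_lit 76) (nat_lit 2259947465) (nat_lit 335) (nat_lit 5) (nat_lit 345) (nat_lit 5) (nat_lit 336) (nat_lit 5) (nat_lit 439) (nat_lit 371) (nat_lit 330)) (XT.lf (nat_lit 0) (nat_lit 3632728871) (nat_lit 684) (nat_lit 3063765121) (nat_lit 760) (nat_lit 1749454360) (nat_lit 326) (nat_lit 5) (nat_lit 335) (nat_lit 5) (nat_lit 336) (nat_lit 5) (nat_lit 440) (nat_lit 371) (nat_lit 329))))) (XT.nd (nat_lit 234) (nat_lit 1900) (nat_lit 0) (XT.nd (nat_lit 78) (nat_lit 608) (nat_lit 0) (XT.lf (nat_lit 0) (nat_lit 1335309618) (nat_lit 684) (nat_lit 7112824776) (nat_lit 76) (nat_lit 70851855) (nat_lit 317) (nat_lit 5) (nat_lit 326) (nat_lit 5) (nat_lit 318) (nat_lit 5) (nat_lit 441) (nat_lit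 371) (nat_lit 328)) (XT.nd (nat_lit 78) (nat_lit 608) (nat_lit 0) (XT.lf (nat_lit 0) (nat_lit 4466416730) (nat_lit 684) (nat_lit 867614656) (nat_lit 76) (nat_lit 3259060780) (nat_lit 317) (nat_lit 5) (nat_lit 326) (nat_lit 5) (nat_lit 318) (nat_lit 5) (nat_lit 442) (nat_lit 371) (nat_lit 327)) (XT.lf (nat_lit 0) (nat_lit 5518144938) (nat_lit 608) (nat_lit 2133954164) (nat_lit 684) (nat_lit 1016742035) (nat_lit 309) (nat_lit 5) (nat_lit 317) (nat_lit 5) (nat_lit 318) (nat_lit 5) (nat_lit 443) (nat_lit 371) (nat_lit 326)))) (XT.nd (nat_lit 156) (nat_lit 608) (nat_lit 0) (XT.nd (nat_lit 78) (nat_lit 608) (nat_lit 0) (XT.lf (nat_lit 0) (nat_lit 2118065125) (nat_lit 684) (nat_lit 5484377017) (nat_lit 76) (nat_lit 1143564195) (nat_lit 300) (nat_lit 5) (nat_lit 309) (nat_lit 5) (nat_lit 301) (nat_lit 5) (nat_lit 444) (nat_lit 371) (nat_lit 325)) (XT.lf (nat_lit 0) (nat_lit 954799258) (nat_lit 608) (nat_lit 4345516814) (nat_lit 684) (nat_lit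 3524297118) (nat_lit 292) (nat_lit 5) (nat_lit 300) (nat_lit 5) (nat_lit 301) (nat_lit 5) (nat_lit 445) (nat_lit 371) (nat_lit 324))) (XT.nd (nat_lit 78) (nat_lit 608) (nat_lit 0) (XT.lf (nat_lit 0) (nat_lit 7540143005) (nat_lit 608) (nat_lit 1000085519) (nat_lit 684) (nat_lit 364683326) (nat_lit 292) (nat_lit 5) (nat_lit 300) (nat_lit 5) (nat_lit 301) (nat_lit 5) (nat_lit 446) (nat_lit 371) (nat_lit 323)) (XT.lf (nat_lit 0) (nat_lit 2828512074) (nat_lit 608) (nat_lit 3738063280) (nat_lit 76) (nat_lit 2419712511) (nat_lit 284) (nat_lit 5) (nat_lit 292) (nat_lit 5) (nat_lit 285) (nat_lit 5) (nat_lit 447) (nat_lit 371) (nat_lit 322))))))))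
noncomputable def xc37 : XT := (XT.nd (nat_lit 2028) (nat_lit 2736) (nat_lit 0) (XT.nd (nat_lit 1014) (nat_lit 3876) (nat_lit 0) (XT.nd (nat_lit 468) (nat_lit 2508) (nat_lit 0) (XT.nd (nat_lit 234) (nat_lit 1672) (nat_lit 0) (XT.nd (nat_lit 78) (nat_lit 608) (nat_lit 0) (XT.lf (nat_lit 0) (nat_lit 2915230309) (nat_lit 608) (nat_lit 3158378276) (nat_lit 684) (nat_lit 2995776198) (nat_lit 276) (nat_lit 5) (nat_lit 284) (nat_lit 5) (nat_lit 285) (nat_lit 5) (nat_lit 448) (nat_lit 371) (nat_lit 321)) (XT.nd (nat_lit 78) (nat_lit 0) (nat_lit 0) (XT.lf (nat_lit 0) (nat_lit 215749465) (nat_lit 608) (nat_lit 8609352851) (nat_lit 76) (nat_lit 329225615) (nat_lit 268) (nat_lit 5) (nat_lit 276) (nat_lit 5) (nat_lit 269) (nat_lit 5) (nat_lit 449) (nat_lit 371) (nat_lit 320)) (XT.lf (nat_lit 0) (nat_lit 3472593688) (nat_lit 608) (nat_lit 1876969504) (nat_lit 76) (nat_lit 3890586679) (nat_lit 268) (nat_lit 5) (nat_lit 276) (nat_lit 5) (nat_lit 269)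 (nat_lit 5) (nat_lit 450) (nat_lit 371) (nat_lit 319)))) (XT.nd (nat_lit 78) (nat_lit 1140) (nat_lit 0) (XT.lf (nat_lit 0) (nat_lit 4999449363) (nat_lit 532) (nat_lit 1787071911) (nat_lit 608) (nat_lit 2541328046) (nat_lit 261) (nat_lit 5) (nat_lit 268) (nat_lit 5) (nat_lit 269) (nat_lit 5) (nat_lit 451) (nat_lit 371) (nat_lit 318)) (XT.nd (nat_lit 78) (nat_lit 532) (nat_lit 0) (XT.lf (nat_lit 0) (nat_lit 740886997) (nat_lit 608) (nat_lit 6835015967) (nat_lit 76) (nat_lit 1841276656) (nat_lit 253) (nat_lit 5) (nat_lit 261) (nat_lit 5) (nat_lit 254) (nat_lit 5) (nat_lit 452) (nat_lit 371) (nat_lit 317)) (XT.lf (nat_lit 0) (nat_lit 97648129) (nat_lit 532) (nat_lit 3958785476) (nat_lit 608) (nat_lit 5451492644) (nat_lit 246) (nat_lit 5) (nat_lit 253) (nat_lit 5) (nat_lit 254) (nat_lit 5) (nat_lit 453) (nat_lit 371) (nat_lit 316))))) (XT.nd (nat_lit 234) (nat_lit 1444) (nat_lit 0) (XT.nd (nat_lit 78) (nat_lit 1064) (nat_lit 0) (XT.lf (nat_lit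 0) (nat_lit 7205317968) (nat_lit 532) (nat_lit 239235708) (nat_lit 608) (nat_lit 2155808884) (nat_lit 246) (nat_lit 5) (nat_lit 253) (nat_lit 5) (nat_lit 254) (nat_lit 5) (nat_lit 454) (nat_lit 371) (nat_lit 315)) (XT.nd (nat_lit 78) (nat_lit 532) (nat_lit 0) (XT.lf (nat_lit 0) (nat_lit 1205018827) (nat_lit 532) (nat_lit 4958511398) (nat_lit 76) (nat_lit 3530659909) (nat_lit 239) (nat_lit 5) (nat_lit 246) (nat_lit 5) (nat_lit 240) (nat_lit 5) (nat_lit 455) (nat_lit 371) (nat_lit 314)) (XT.lf (nat_lit 0) (nat_lit 2208899326) (nat_lit 532) (nat_lit 2388643074) (nat_lit 608) (nat_lit 5192199949) (nat_lit 232) (nat_lit 5) (nat_lit 239) (nat_lit 5) (nat_lit 240) (nat_lit 5) (nat_lit 456) (nat_lit 371) (nat_lit 313)))) (XT.nd (nat_lit 156) (nat_lit 912) (nat_lit 0) (XT.nd (nat_lit 78) (nat_lit 532) (nat_lit 0) (XT.lf (nat_lit 0) (nat_lit 8062402984) (nat_lit 608) (nat_lit 365678374) (nat_lit 76) (nat_lit 1459034520) (nat_lit 232) (nat_lit 5)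 (nat_lit 240) (nat_lit 5) (nat_lit 233) (nat_lit 5) (nat_lit 457) (nat_lit 371) (nat_lit 312)) (XT.lf (nat_lit 0) (nat_lit 1612782896) (nat_lit 532) (nat_lit 2981799694) (nat_lit 76) (nat_lit 5391169686) (nat_lit 225) (nat_lit 5) (nat_lit 232) (nat_lit 5) (nat_lit 226) (nat_lit 5) (nat_lit 458) (nat_lit 371) (nat_lit 311))) (XT.nd (nat_lit 78) (nat_lit 456) (nat_lit 0) (XT.lf (nat_lit 0) (nat_lit 4430292112) (nat_lit 456) (nat_lit 657953850) (nat_lit 532) (nat_lit 4998001209) (nat_lit 219) (nat_lit 5) (nat_lit 225) (nat_lit 5) (nat_lit 226) (nat_lit 5) (nat_lit 459) (nat_lit 371) (nat_lit 310)) (XT.lf (nat_lit 0) (nat_lit 1788622601) (nat_lit 456) (nat_lit 6860807288) (nat_lit 532) (nat_lit 1538997841) (nat_lit 213) (nat_lit 5) (nat_lit 219) (nat_lit 5) (nat_lit 220) (nat_lit 5) (nat_lit 460) (nat_lit 371) (nat_lit 309)))))) (XT.nd (nat_lit 468) (nat_lit 2052) (nat_lit 0) (XT.nd (nat_lit 234) (nat_lit 912) (nat_lit 0) (XT.nd (nat_lit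 78) (nat_lit 836) (nat_lit 0) (XT.lf (nat_lit 0) (nat_lit 1968447134) (nat_lit 532) (nat_lit 906383121) (nat_lit 76) (nat_lit 7417456343) (nat_lit 212) (nat_lit 5) (nat_lit 219) (nat_lit 5) (nat_lit 213) (nat_lit 5) (nat_lit 461) (nat_lit 371) (nat_lit 308)) (XT.nd (nat_lit 78) (nat_lit 380) (nat_lit 0) (XT.lf (nat_lit 0) (nat_lit 5540837246) (nat_lit 532) (nat_lit 3645092700) (nat_lit 76) (nat_lit 1211781173) (nat_lit 206) (nat_lit 5) (nat_lit 213) (nat_lit 5) (nat_lit 207) (nat_lit 5) (nat_lit 462) (nat_lit 371) (nat_lit 307)) (XT.lf (nat_lit 0) (nat_lit 4051137532) (nat_lit 380) (nat_lit 5148763244) (nat_lit 456) (nat_lit 1305038842) (nat_lit 201) (nat_lit 5) (nat_lit 206) (nat_lit 5) (nat_lit 207) (nat_lit 5) (nat_lit 463) (nat_lit 371) (nat_lit 306)))) (XT.nd (nat_lit 78) (nat_lit 380) (nat_lit 0) (XT.lf (nat_lit 0) (nat_lit 1283503862) (nat_lit 456) (nat_lit 1000766778) (nat_lit 532) (nat_lit 8329804337) (nat_lit 194) (nat_lit 5)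 (nat_lit 200) (nat_lit 5) (nat_lit 201) (nat_lit 5) (nat_lit 464) (nat_lit 371) (nat_lit 305)) (XT.nd (nat_lit 78) (nat_lit 380) (nat_lit 0) (XT.lf (nat_lit 0) (nat_lit 5956587611) (nat_lit 532) (nat_lit 1546618622) (nat_lit 76) (nat_lit 3221440370) (nat_lit 194) (nat_lit 5) (nat_lit 201) (nat_lit 5) (nat_lit 195) (nat_lit 5) (nat_lit 465) (nat_lit 371) (nat_lit 304)) (XT.lf (nat_lit 0) (nat_lit 6416391695) (nat_lit 380) (nat_lit 3299061662) (nat_lit 456) (nat_lit 1121714255) (nat_lit 189) (nat_lit 5) (nat_lit 194) (nat_lit 5) (nat_lit 195) (nat_lit 5) (nat_lit 466) (nat_lit 371) (nat_lit 303))))) (XT.nd (nat_lit 234) (nat_lit 1216) (nat_lit 0) (XT.nd (nat_lit 78) (nat_lit 380) (nat_lit 0) (XT.lf (nat_lit 0) (nat_lit 2568763133) (nat_lit 456) (nat_lit 7374554613) (nat_lit 76) (nat_lit 1008178531) (nat_lit 183) (nat_lit 5) (nat_lit 189) (nat_lit 5) (nat_lit 184) (nat_lit 5) (nat_lit 467) (nat_lit 371) (nat_lit 302)) (XT.nd (nat_lit 78)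 (nat_lit 0) (nat_lit 0) (XT.lf (nat_lit 0) (nat_lit 651624177) (nat_lit 380) (nat_lit 5687499897) (nat_lit 456) (nat_lit 4728417275) (nat_lit 178) (nat_lit 5) (nat_lit 183) (nat_lit 5) (nat_lit 184) (nat_lit 5) (nat_lit 468) (nat_lit 371) (nat_lit 301)) (XT.lf (nat_lit 0) (nat_lit 8884179874) (nat_lit 380) (nat_lit 1315670393) (nat_lit 456) (nat_lit 985757894) (nat_lit 178) (nat_lit 5) (nat_lit 183) (nat_lit 5) (nat_lit 184) (nat_lit 5) (nat_lit 469) (nat_lit 371) (nat_lit 300)))) (XT.nd (nat_lit 156) (nat_lit 456) (nat_lit 0) (XT.nd (nat_lit 78) (nat_lit 304) (nat_lit 0) (XT.lf (nat_lit 0) (nat_lit 2820041162) (nat_lit 456) (nat_lit 5344320409) (nat_lit 76) (nat_lit 3140798517) (nat_lit 172) (nat_lit 5) (nat_lit 178) (nat_lit 5) (nat_lit 173) (nat_lit 5) (nat_lit 470) (nat_lit 371) (nat_lit 299)) (XT.lf (nat_lit 0) (nat_lit 2962566674) (nat_lit 304) (nat_lit 3735817513) (nat_lit 380) (nat_lit 4728396004) (nat_lit 168) (nat_lit 5) (nat_lit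 172) (nat_lit 5) (nat_lit 173) (nat_lit 5) (nat_lit 471) (nat_lit 371) (nat_lit 298))) (XT.nd (nat_lit 78) (nat_lit 456) (nat_lit 0) (XT.lf (nat_lit 0) (nat_lit 10661777838) (nat_lit 380) (nat_lit 101279638) (nat_lit 76) (nat_lit 787625545) (nat_lit 168) (nat_lit 5) (nat_lit 173) (nat_lit 5) (nat_lit 169) (nat_lit 5) (nat_lit 472) (nat_lit 371) (nat_lit 297)) (XT.lf (nat_lit 0) (nat_lit 3034634325) (nat_lit 456) (nat_lit 3233770719) (nat_lit 76) (nat_lit 5407326481) (nat_lit 162) (nat_lit 5) (nat_lit 168) (nat_lit 5) (nat_lit 163) (nat_lit 5) (nat_lit 473) (nat_lit 371) (nat_lit 296))))))) (XT.nd (nat_lit 53508) (nat_lit 0) (nat_lit 38000) (XT.nd (nat_lit 468) (nat_lit 988) (nat_lit 0) (XT.nd (nat_lit 234) (nat_lit 988) (nat_lit 0) (XT.nd (nat_lit 78) (nat_lit 456) (nat_lit 0) (XT.lf (nat_lit 0) (nat_lit 5365730074) (nat_lit 304) (nat_lit 1661606350) (nat_lit 380) (nat_lit 4775775175) (nat_lit 158) (nat_lit 5) (nat_lit 162) (nat_lit 5)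 (nat_lit 163) (nat_lit 5) (nat_lit 474) (nat_lit 371) (nat_lit 295)) (XT.nd (nat_lit 78) (nat_lit 76) (nat_lit 0) (XT.lf (nat_lit 0) (nat_lit 2204399538) (nat_lit 380) (nat_lit 8918605959) (nat_lit 456) (nat_lit 809571519) (nat_lit 153) (nat_lit 5) (nat_lit 158) (nat_lit 5) (nat_lit 159) (nat_lit 5) (nat_lit 475) (nat_lit 371) (nat_lit 294)) (XT.lf (nat_lit 0) (nat_lit 3215325476) (nat_lit 456) (nat_lit 1042973908) (nat_lit 76) (nat_lit 7805475970) (nat_lit 152) (nat_lit 5) (nat_lit 158) (nat_lit 5) (nat_lit 153) (nat_lit 5) (nat_lit 476) (nat_lit 371) (nat_lit 293)))) (XT.nd (nat_lit 78) (nat_lit 684) (nat_lit 0) (XT.lf (nat_lit 0) (nat_lit 7332352841) (nat_lit 380) (nat_lit 4339030690) (nat_lit 76) (nat_lit 525657651) (nat_lit 148) (nat_lit 5) (nat_lit 153) (nat_lit 5) (nat_lit 149) (nat_lit 5) (nat_lit 477) (nat_lit 371) (nat_lit 292)) (XT.nd (nat_lit 78) (nat_lit 380) (nat_lit 0) (XT.lf (nat_lit 0) (nat_lit 4598076000) (nat_lit 304)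 (nat_lit 6966868004) (nat_lit 380) (nat_lit 767363857) (nat_lit 144) (nat_lit 5) (nat_lit 148) (nat_lit 5) (nat_lit 149) (nat_lit 5) (nat_lit 478) (nat_lit 371) (nat_lit 291)) (XT.lf (nat_lit 0) (nat_lit 1244642422) (nat_lit 304) (nat_lit 2128110041) (nat_lit 380) (nat_lit 9096972500) (nat_lit 139) (nat_lit 5) (nat_lit 143) (nat_lit 5) (nat_lit 144) (nat_lit 5) (nat_lit 479) (nat_lit 371) (nat_lit 290))))) (XT.nd (nat_lit 234) (nat_lit 304) (nat_lit 0) (XT.nd (nat_lit 78) (nat_lit 684) (nat_lit 0) (XT.lf (nat_lit 0) (nat_lit 7624232308) (nat_lit 380) (nat_lit 2177104380) (nat_lit 76) (nat_lit 2807675552) (nat_lit 139) (nat_lit 5) (nat_lit 144) (nat_lit 5) (nat_lit 140) (nat_lit 5) (nat_lit 480) (nat_lit 371) (nat_lit 289)) (XT.nd (nat_lit 78) (nat_lit 380) (nat_lit 0) (XT.lf (nat_lit 0) (nat_lit 7079080887) (nat_lit 304) (nat_lit 4910691353) (nat_lit 380) (nat_lit 760732411) (nat_lit 135) (nat_lit 5) (nat_lit 139) (nat_lit 5) (nat_lit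 140) (nat_lit 5) (nat_lit 481) (nat_lit 371) (nat_lit 288)) (XT.lf (nat_lit 0) (nat_lit 3509353756) (nat_lit 380) (nat_lit 9266751860) (nat_lit 76) (nat_lit 118098848) (nat_lit 130) (nat_lit 5) (nat_lit 135) (nat_lit 5) (nat_lit 131) (nat_lit 5) (nat_lit 482) (nat_lit 371) (nat_lit 287)))) (XT.nd (nat_lit 52650) (nat_lit 0) (nat_lit 47272) (XT.nd (nat_lit 52572) (nat_lit 0) (nat_lit 48792) (XT.lf (nat_lit 0) (nat_lit 60432753) (nat_lit 304) (nat_lit 7834644248) (nat_lit 380) (nat_lit 5144792273) (nat_lit 126) (nat_lit 5) (nat_lit 130) (nat_lit 5) (nat_lit 131) (nat_lit 5) (nat_lit 483) (nat_lit 371) (nat_lit 286)) (XT.lf (nat_lit 0) (nat_lit 1543139516) (nat_lit 684) (nat_lit 195461714) (nat_lit 0) (nat_lit 1543139516) (nat_lit 768) (nat_lit 5) (nat_lit 777) (nat_lit 4) (nat_lit 768) (nat_lit 4) (nat_lit 396) (nat_lit 372) (nat_lit 372))) (XT.nd (nat_lit 78) (nat_lit 836) (nat_lit 0) (XT.lf (nat_lit 0) (nat_lit 3693057694) (nat_lit 684)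 (nat_lit 2688171357) (nat_lit 684) (nat_lit 198059297) (nat_lit 759) (nat_lit 4) (nat_lit 768) (nat_lit 5) (nat_lit 768) (nat_lit 4) (nat_lit 397) (nat_lit 372) (nat_lit 371)) (XT.lf (nat_lit 0) (nat_lit 1209688949) (nat_lit 760) (nat_lit 1830453299) (nat_lit 836) (nat_lit 3556165594) (nat_lit 748) (nat_lit 5) (nat_lit 758) (nat_lit 5) (nat_lit 759) (nat_lit 4) (nat_lit 398) (nat_lit 372) (nat_lit 370)))))) (XT.nd (nat_lit 468) (nat_lit 5244) (nat_lit 0) (XT.nd (nat_lit 234) (nat_lit 2204) (nat_lit 0) (XT.nd (nat_lit 78) (nat_lit 1824) (nat_lit 0) (XT.lf (nat_lit 0) (nat_lit 5371291941) (nat_lit 760) (nat_lit 913910192) (nat_lit 836) (nat_lit 329544485) (nat_lit 748) (nat_lit 5) (nat_lit 758) (nat_lit 5) (nat_lit 759) (nat_lit 4) (nat_lit 399) (nat_lit 372) (nat_lit 369)) (XT.nd (nat_lit 78) (nat_lit 912) (nat_lit 0) (XT.lf (nat_lit 0) (nat_lit 2868788754) (nat_lit 912) (nat_lit 3686717872) (nat_lit 76) (nat_lit 78742533) (nat_lit 736)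 (nat_lit 5) (nat_lit 748) (nat_lit 5) (nat_lit 737) (nat_lit 4) (nat_lit 400) (nat_lit 372) (nat_lit 368)) (XT.lf (nat_lit 0) (nat_lit 528693663) (nat_lit 912) (nat_lit 5543452887) (nat_lit 988) (nat_lit 583042225) (nat_lit 724) (nat_lit 5) (nat_lit 736) (nat_lit 5) (nat_lit 737) (nat_lit 4) (nat_lit 401) (nat_lit 372) (nat_lit 367)))) (XT.nd (nat_lit 78) (nat_lit 2128) (nat_lit 0) (XT.lf (nat_lit 0) (nat_lit 2581175381) (nat_lit 988) (nat_lit 1870877730) (nat_lit 76) (nat_lit 2225086727) (nat_lit 723) (nat_lit 5) (nat_lit 736) (nat_lit 5) (nat_lit 724) (nat_lit 5) (nat_lit 402) (nat_lit 372) (nat_lit 366)) (XT.nd (nat_lit 78) (nat_lit 1140) (nat_lit 0) (XT.lf (nat_lit 0) (nat_lit 2443370106) (nat_lit 988) (nat_lit 3302953389) (nat_lit 1064) (nat_lit 954220288) (nat_lit 710) (nat_lit 5) (nat_lit 723) (nat_lit 5) (nat_lit 724) (nat_lit 5) (nat_lit 403) (nat_lit 372) (nat_lit 365)) (XT.lf (nat_lit 0) (nat_lit 76168883) (nat_lit 1064) (nat_lit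 2087958710) (nat_lit 1140) (nat_lit 4561130345) (nat_lit 695) (nat_lit 5) (nat_lit 709) (nat_lit 5) (nat_lit 710) (nat_lit 5) (nat_lit 404) (nat_lit 372) (nat_lit 364))))) (XT.nd (nat_lit 234) (nat_lit 4028) (nat_lit 0) (XT.nd (nat_lit 78) (nat_lit 1216) (nat_lit 0) (XT.lf (nat_lit 0) (nat_lit 4492610926) (nat_lit 1064) (nat_lit 799156515) (nat_lit 1140) (nat_lit 1459378746) (nat_lit 695) (nat_lit 5) (nat_lit 709) (nat_lit 5) (nat_lit 710) (nat_lit 5) (nat_lit 405) (nat_lit 372) (nat_lit 363)) (XT.nd (nat_lit 78) (nat_lit 0) (nat_lit 0) (XT.lf (nat_lit 0) (nat_lit 1631891852) (nat_lit 1216) (nat_lit 4599313841) (nat_lit 76) (nat_lit 547128432) (nat_lit 679) (nat_lit 5) (nat_lit 695) (nat_lit 5) (nat_lit 680) (nat_lit 5) (nat_lit 406) (nat_lit 372) (nat_lit 362)) (XT.lf (nat_lit 0) (nat_lit 4719141517) (nat_lit 1216) (nat_lit 140637474) (nat_lit 76) (nat_lit 1947020007) (nat_lit 679) (nat_lit 5) (nat_lit 695) (nat_lit 5) (nat_lit 680)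 (nat_lit 5) (nat_lit 407) (nat_lit 372) (nat_lit 361)))) (XT.nd (nat_lit 156) (nat_lit 1444) (nat_lit 0) (XT.nd (nat_lit 78) (nat_lit 1292) (nat_lit 0) (XT.lf (nat_lit 0) (nat_lit 981593732) (nat_lit 1292) (nat_lit 2432639944) (nat_lit 76) (nat_lit 3422208854) (nat_lit 662) (nat_lit 5) (nat_lit 679) (nat_lit 5) (nat_lit 663) (nat_lit 5) (nat_lit 408) (nat_lit 372) (nat_lit 360)) (XT.lf (nat_lit 0) (nat_lit 2133354507) (nat_lit 1292) (nat_lit 1900692864) (nat_lit 1368) (nat_lit 2833360150) (nat_lit 645) (nat_lit 5) (nat_lit 662) (nat_lit 5) (nat_lit 663) (nat_lit 5) (nat_lit 409) (nat_lit 372) (nat_lit 359))) (XT.nd (nat_lit 78) (nat_lit 1368) (nat_lit 0) (XT.lf (nat_lit 0) (nat_lit 197169656) (nat_lit 1368) (nat_lit 132409128) (nat_lit 76) (nat_lit 6570343326) (nat_lit 644) (nat_lit 5) (nat_lit 662) (nat_lit 5) (nat_lit 645) (nat_lit 5) (nat_lit 410) (nat_lit 372) (nat_lit 358)) (XT.lf (nat_lit 0) (nat_lit 3225278762) (nat_lit 1444) (nat_lit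 2394456853) (nat_lit 76) (nat_lit 1313478659) (nat_lit 626) (nat_lit 5) (nat_lit 645) (nat_lit 5) (nat_lit 627) (nat_lit 5) (nat_lit 411) (nat_lit 372) (nat_lit 357))))))))
noncomputable def xc38 : XT := (XT.nd (nat_lit 2028) (nat_lit 10944) (nat_lit 0) (XT.nd (nat_lit 1014) (nat_lit 8208) (nat_lit 0) (XT.nd (nat_lit 468) (nat_lit 6688) (nat_lit 0) (XT.nd (nat_lit 234) (nat_lit 3420) (nat_lit 0) (XT.nd (nat_lit 78) (nat_lit 1596) (nat_lit 0) (XT.lf (nat_lit 0) (nat_lit 2310586275) (nat_lit 1444) (nat_lit 3959089728) (nat_lit 1520) (nat_lit 698381758) (nat_lit 607) (nat_lit 5) (nat_lit 626) (nat_lit 5) (nat_lit 627) (nat_lit 5) (nat_lit 412) (nat_lit 372) (nat_lit 356)) (XT.nd (nat_lit 78) (nat_lit 0) (nat_lit 0) (XT.lf (nat_lit 0) (nat_lit 68330387) (nat_lit 1520) (nat_lit 2226654308) (nat_lit 1596) (nat_lit 4709211043) (nat_lit 586) (nat_lit 5) (nat_lit 606) (nat_lit 5) (nat_lit 607) (nat_lit 5) (nat_lit 413) (nat_lit 372) (nat_lit 355))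 (XT.lf (nat_lit 0) (nat_lit 4891489384) (nat_lit 1520) (nat_lit 417567128) (nat_lit 1596) (nat_lit 1732503851) (nat_lit 586) (nat_lit 5) (nat_lit 606) (nat_lit 5) (nat_lit 607) (nat_lit 5) (nat_lit 414) (nat_lit 372) (nat_lit 354)))) (XT.nd (nat_lit 78) (nat_lit 1748) (nat_lit 0) (XT.lf (nat_lit 0) (nat_lit 1253420533) (nat_lit 1672) (nat_lit 4386720296) (nat_lit 76) (nat_lit 1440026520) (nat_lit 564) (nat_lit 5) (nat_lit 586) (nat_lit 5) (nat_lit 565) (nat_lit 5) (nat_lit 415) (nat_lit 372) (nat_lit 353)) (XT.nd (nat_lit 78) (nat_lit 76) (nat_lit 0) (XT.lf (nat_lit 0) (nat_lit 479507330) (nat_lit 1672) (nat_lit 3757392810) (nat_lit 1748) (nat_lit 2883196599) (nat_lit 542) (nat_lit 5) (nat_lit 564) (nat_lit 5) (nat_lit 565) (nat_lit 5) (nat_lit 416) (nat_lit 372) (nat_lit 352)) (XT.lf (nat_lit 0) (nat_lit 88318320) (nat_lit 1748) (nat_lit 1715265934) (nat_lit 76) (nat_lit 5357811834) (nat_lit 541) (nat_lit 5) (nat_lit 564) (nat_lit 5)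 (nat_lit 542) (nat_lit 5) (nat_lit 417) (nat_lit 372) (nat_lit 351))))) (XT.nd (nat_lit 234) (nat_lit 3040) (nat_lit 0) (XT.nd (nat_lit 78) (nat_lit 1900) (nat_lit 0) (XT.lf (nat_lit 0) (nat_lit 3045663121) (nat_lit 1824) (nat_lit 3928408031) (nat_lit 76) (nat_lit 229769002) (nat_lit 518) (nat_lit 5) (nat_lit 542) (nat_lit 5) (nat_lit 519) (nat_lit 5) (nat_lit 418) (nat_lit 372) (nat_lit 350)) (XT.nd (nat_lit 78) (nat_lit 76) (nat_lit 0) (XT.lf (nat_lit 0) (nat_lit 1088282104) (nat_lit 1824) (nat_lit 4947439405) (nat_lit 1900) (nat_lit 1211940257) (nat_lit 494) (nat_lit 5) (nat_lit 518) (nat_lit 5) (nat_lit 519) (nat_lit 5) (nat_lit 419) (nat_lit 372) (nat_lit 349)) (XT.lf (nat_lit 0) (nat_lit 1739591777) (nat_lit 1900) (nat_lit 1101738503) (nat_lit 76) (nat_lit 4451398897) (nat_lit 493) (nat_lit 5) (nat_lit 518) (nat_lit 5) (nat_lit 494) (nat_lit 5) (nat_lit 420) (nat_lit 372) (nat_lit 348)))) (XT.nd (nat_lit 156) (nat_lit 912) (nat_lit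 0) (XT.nd (nat_lit 78) (nat_lit 988) (nat_lit 0) (XT.lf (nat_lit 0) (nat_lit 4046566309) (nat_lit 1140) (nat_lit 658111834) (nat_lit 1216) (nat_lit 2634444543) (nat_lit 478) (nat_lit 5) (nat_lit 493) (nat_lit 5) (nat_lit 494) (nat_lit 5) (nat_lit 421) (nat_lit 372) (nat_lit 347)) (XT.lf (nat_lit 0) (nat_lit 313019642) (nat_lit 988) (nat_lit 5504306162) (nat_lit 76) (nat_lit 1569575950) (nat_lit 465) (nat_lit 5) (nat_lit 478) (nat_lit 5) (nat_lit 466) (nat_lit 5) (nat_lit 422) (nat_lit 372) (nat_lit 346))) (XT.nd (nat_lit 78) (nat_lit 912) (nat_lit 0) (XT.lf (nat_lit 0) (nat_lit 3256335671) (nat_lit 988) (nat_lit 307880212) (nat_lit 76) (nat_lit 3871628692) (nat_lit 465) (nat_lit 5) (nat_lit 478) (nat_lit 5) (nat_lit 466) (nat_lit 5) (nat_lit 423) (nat_lit 372) (nat_lit 345)) (XT.lf (nat_lit 0) (nat_lit 5002577647) (nat_lit 912) (nat_lit 1235033494) (nat_lit 988) (nat_lit 1248573248) (nat_lit 453) (nat_lit 5) (nat_lit 465) (nat_lit 5)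 (nat_lit 466) (nat_lit 5) (nat_lit 424) (nat_lit 372) (nat_lit 344)))))) (XT.nd (nat_lit 468) (nat_lit 4560) (nat_lit 0) (XT.nd (nat_lit 234) (nat_lit 1748) (nat_lit 0) (XT.nd (nat_lit 78) (nat_lit 988) (nat_lit 0) (XT.lf (nat_lit 0) (nat_lit 1693324593) (nat_lit 912) (nat_lit 4689328163) (nat_lit 76) (nat_lit 1155148637) (nat_lit 441) (nat_lit 5) (nat_lit 453) (nat_lit 5) (nat_lit 442) (nat_lit 5) (nat_lit 425) (nat_lit 372) (nat_lit 343)) (XT.nd (nat_lit 78) (nat_lit 76) (nat_lit 0) (XT.lf (nat_lit 0) (nat_lit 666419605) (nat_lit 912) (nat_lit 3987833167) (nat_lit 988) (nat_lit 2936494688) (nat_lit 429) (nat_lit 5) (nat_lit 441) (nat_lit 5) (nat_lit 442) (nat_lit 5) (nat_lit 426) (nat_lit 372) (nat_lit 342)) (XT.lf (nat_lit 0) (nat_lit 8867290) (nat_lit 988) (nat_lit 1508502611) (nat_lit 76) (nat_lit 6127786516) (nat_lit 428) (nat_lit 5) (nat_lit 441) (nat_lit 5) (nat_lit 429) (nat_lit 5) (nat_lit 427) (nat_lit 372) (nat_lit 341))))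 (XT.nd (nat_lit 78) (nat_lit 912) (nat_lit 0) (XT.lf (nat_lit 0) (nat_lit 2955510625) (nat_lit 912) (nat_lit 3714698890) (nat_lit 76) (nat_lit 1030421958) (nat_lit 417) (nat_lit 5) (nat_lit 429) (nat_lit 5) (nat_lit 418) (nat_lit 5) (nat_lit 428) (nat_lit 372) (nat_lit 340)) (XT.nd (nat_lit 78) (nat_lit 76) (nat_lit 0) (XT.lf (nat_lit 0) (nat_lit 1811005579) (nat_lit 836) (nat_lit 4131641401) (nat_lit 912) (nat_lit 1814937847) (nat_lit 406) (nat_lit 5) (nat_lit 417) (nat_lit 5) (nat_lit 418) (nat_lit 5) (nat_lit 429) (nat_lit 372) (nat_lit 339)) (XT.lf (nat_lit 0) (nat_lit 1133405268) (nat_lit 912) (nat_lit 382004435) (nat_lit 76) (nat_lit 6300616084) (nat_lit 405) (nat_lit 5) (nat_lit 417) (nat_lit 5) (nat_lit 406) (nat_lit 5) (nat_lit 430) (nat_lit 372) (nat_lit 338))))) (XT.nd (nat_lit 234) (nat_lit 2204) (nat_lit 0) (XT.nd (nat_lit 78) (nat_lit 1596) (nat_lit 0) (XT.lf (nat_lit 0) (nat_lit 4109414988) (nat_lit 836) (nat_lit 2587653038)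 (nat_lit 76) (nat_lit 1178467570) (nat_lit 395) (nat_lit 5) (nat_lit 406) (nat_lit 5) (nat_lit 396) (nat_lit 5) (nat_lit 431) (nat_lit 372) (nat_lit 337)) (XT.nd (nat_lit 78) (nat_lit 836) (nat_lit 0) (XT.lf (nat_lit 0) (nat_lit 3114890633) (nat_lit 760) (nat_lit 4014299716) (nat_lit 836) (nat_lit 807360343) (nat_lit 385) (nat_lit 5) (nat_lit 395) (nat_lit 5) (nat_lit 396) (nat_lit 5) (nat_lit 432) (nat_lit 372) (nat_lit 336)) (XT.lf (nat_lit 0) (nat_lit 909236650) (nat_lit 760) (nat_lit 1247407806) (nat_lit 836) (nat_lit 5842353356) (nat_lit 374) (nat_lit 5) (nat_lit 384) (nat_lit 5) (nat_lit 385) (nat_lit 5) (nat_lit 433) (nat_lit 372) (nat_lit 335)))) (XT.nd (nat_lit 156) (nat_lit 1368) (nat_lit 0) (XT.nd (nat_lit 78) (nat_lit 836) (nat_lit 0) (XT.lf (nat_lit 0) (nat_lit 5164132986) (nat_lit 836) (nat_lit 1314596343) (nat_lit 76) (nat_lit 1583957527) (nat_lit 374) (nat_lit 5) (nat_lit 385) (nat_lit 5) (nat_lit 375) (nat_lit 5) (nat_lit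 434) (nat_lit 372) (nat_lit 334)) (XT.lf (nat_lit 0) (nat_lit 93788784) (nat_lit 836) (nat_lit 3556430044) (nat_lit 76) (nat_lit 4477596678) (nat_lit 363) (nat_lit 5) (nat_lit 374) (nat_lit 5) (nat_lit 364) (nat_lit 5) (nat_lit 435) (nat_lit 372) (nat_lit 333))) (XT.nd (nat_lit 78) (nat_lit 684) (nat_lit 0) (XT.lf (nat_lit 0) (nat_lit 2354449972) (nat_lit 684) (nat_lit 730318360) (nat_lit 760) (nat_lit 5109543175) (nat_lit 354) (nat_lit 5) (nat_lit 363) (nat_lit 5) (nat_lit 364) (nat_lit 5) (nat_lit 436) (nat_lit 372) (nat_lit 332)) (XT.lf (nat_lit 0) (nat_lit 100154513) (nat_lit 684) (nat_lit 6028571053) (nat_lit 760) (nat_lit 2133548699) (nat_lit 345) (nat_lit 5) (nat_lit 354) (nat_lit 5) (nat_lit 355) (nat_lit 5) (nat_lit 437) (nat_lit 372) (nat_lit 331))))))) (XT.nd (nat_lit 1014) (nat_lit 5092) (nat_lit 0) (XT.nd (nat_lit 468) (nat_lit 3116) (nat_lit 0) (XT.nd (nat_lit 234) (nat_lit 1292) (nat_lit 0) (XT.nd (nat_lit 78) (nat_lit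 1368) (nat_lit 0) (XT.lf (nat_lit 0) (nat_lit 888547633) (nat_lit 760) (nat_lit 2160372327) (nat_lit 76) (nat_lit 5282590967) (nat_lit 344) (nat_lit 5) (nat_lit 354) (nat_lit 5) (nat_lit 345) (nat_lit 5) (nat_lit 438) (nat_lit 372) (nat_lit 330)) (XT.nd (nat_lit 78) (nat_lit 684) (nat_lit 0) (XT.lf (nat_lit 0) (nat_lit 3923304773) (nat_lit 760) (nat_lit 4458996469) (nat_lit 76) (nat_lit 19933284) (nat_lit 335) (nat_lit 5) (nat_lit 345) (nat_lit 5) (nat_lit 336) (nat_lit 5) (nat_lit 439) (nat_lit 372) (nat_lit 329)) (XT.lf (nat_lit 0) (nat_lit 1669653026) (nat_lit 684) (nat_lit 5350208419) (nat_lit 760) (nat_lit 1454489064) (nat_lit 326) (nat_lit 5) (nat_lit 335) (nat_lit 5) (nat_lit 336) (nat_lit 5) (nat_lit 440) (nat_lit 372) (nat_lit 328)))) (XT.nd (nat_lit 78) (nat_lit 1216) (nat_lit 0) (XT.lf (nat_lit 0) (nat_lit 1594876214) (nat_lit 760) (nat_lit 633075495) (nat_lit 76) (nat_lit 6320028999) (nat_lit 325) (nat_lit 5) (nat_lit 335)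 (nat_lit 5) (nat_lit 326) (nat_lit 5) (nat_lit 441) (nat_lit 372) (nat_lit 327)) (XT.nd (nat_lit 78) (nat_lit 608) (nat_lit 0) (XT.lf (nat_lit 0) (nat_lit 4685605463) (nat_lit 684) (nat_lit 2957931973) (nat_lit 76) (nat_lit 979356745) (nat_lit 317) (nat_lit 5) (nat_lit 326) (nat_lit 5) (nat_lit 318) (nat_lit 5) (nat_lit 442) (nat_lit 372) (nat_lit 326)) (XT.lf (nat_lit 0) (nat_lit 3372150884) (nat_lit 608) (nat_lit 4463909648) (nat_lit 684) (nat_lit 863287168) (nat_lit 309) (nat_lit 5) (nat_lit 317) (nat_lit 5) (nat_lit 318) (nat_lit 5) (nat_lit 443) (nat_lit 372) (nat_lit 325))))) (XT.nd (nat_lit 234) (nat_lit 1824) (nat_lit 0) (XT.nd (nat_lit 78) (nat_lit 608) (nat_lit 0) (XT.lf (nat_lit 0) (nat_lit 1034869124) (nat_lit 608) (nat_lit 1191413838) (nat_lit 684) (nat_lit 6551074498) (nat_lit 300) (nat_lit 5) (nat_lit 308) (nat_lit 5) (nat_lit 309) (nat_lit 5) (nat_lit 444) (nat_lit 372) (nat_lit 324)) (XT.nd (nat_lit 78) (nat_lit 608)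 (nat_lit 0) (XT.lf (nat_lit 0) (nat_lit 5373600875) (nat_lit 684) (nat_lit 1335926308) (nat_lit 76) (nat_lit 2147135791) (nat_lit 300) (nat_lit 5) (nat_lit 309) (nat_lit 5) (nat_lit 301) (nat_lit 5) (nat_lit 445) (nat_lit 372) (nat_lit 323)) (XT.lf (nat_lit 0) (nat_lit 5204019424) (nat_lit 608) (nat_lit 3379938767) (nat_lit 684) (nat_lit 353594546) (nat_lit 292) (nat_lit 5) (nat_lit 300) (nat_lit 5) (nat_lit 301) (nat_lit 5) (nat_lit 446) (nat_lit 372) (nat_lit 322)))) (XT.nd (nat_lit 156) (nat_lit 608) (nat_lit 0) (XT.nd (nat_lit 78) (nat_lit 608) (nat_lit 0) (XT.lf (nat_lit 0) (nat_lit 2787596896) (nat_lit 608) (nat_lit 6183883122) (nat_lit 76) (nat_lit 48484465) (nat_lit 284) (nat_lit 5) (nat_lit 292) (nat_lit 5) (nat_lit 285) (nat_lit 5) (nat_lit 447) (nat_lit 372) (nat_lit 321)) (XT.lf (nat_lit 0) (nat_lit 408985748) (nat_lit 608) (nat_lit 5587121969) (nat_lit 684) (nat_lit 3107685397) (nat_lit 276) (nat_lit 5) (nat_lit 284) (nat_lit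 5) (nat_lit 285) (nat_lit 5) (nat_lit 448) (nat_lit 372) (nat_lit 320))) (XT.nd (nat_lit 78) (nat_lit 532) (nat_lit 0) (XT.lf (nat_lit 0) (nat_lit 79363354) (nat_lit 684) (nat_lit 2027560748) (nat_lit 76) (nat_lit 7082345584) (nat_lit 275) (nat_lit 5) (nat_lit 284) (nat_lit 5) (nat_lit 276) (nat_lit 5) (nat_lit 449) (nat_lit 372) (nat_lit 319)) (XT.lf (nat_lit 0) (nat_lit 3289044404) (nat_lit 608) (nat_lit 4525703490) (nat_lit 76) (nat_lit 1461286997) (nat_lit 268) (nat_lit 5) (nat_lit 276) (nat_lit 5) (nat_lit 269) (nat_lit 5) (nat_lit 450) (nat_lit 372) (nat_lit 318)))))) (XT.nd (nat_lit 468) (nat_lit 2888) (nat_lit 0) (XT.nd (nat_lit 234) (nat_lit 1064) (nat_lit 0) (XT.nd (nat_lit 78) (nat_lit 608) (nat_lit 0) (XT.lf (nat_lit 0) (nat_lit 2287885784) (nat_lit 532) (nat_lit 4277818123) (nat_lit 608) (nat_lit 2798775796) (nat_lit 261) (nat_lit 5) (nat_lit 268) (nat_lit 5) (nat_lit 269) (nat_lit 5) (nat_lit 451) (nat_lit 372) (nat_lit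 317)) (XT.nd (nat_lit 78) (nat_lit 532) (nat_lit 0) (XT.lf (nat_lit 0) (nat_lit 438274749) (nat_lit 608) (nat_lit 213378236) (nat_lit 76) (nat_lit 8803161267) (nat_lit 260) (nat_lit 5) (nat_lit 268) (nat_lit 5) (nat_lit 261) (nat_lit 5) (nat_lit 452) (nat_lit 372) (nat_lit 316)) (XT.lf (nat_lit 0) (nat_lit 3728118297) (nat_lit 608) (nat_lit 2762937328) (nat_lit 76) (nat_lit 3055019317) (nat_lit 253) (nat_lit 5) (nat_lit 261) (nat_lit 5) (nat_lit 254) (nat_lit 5) (nat_lit 453) (nat_lit 372) (nat_lit 315)))) (XT.nd (nat_lit 78) (nat_lit 532) (nat_lit 0) (XT.lf (nat_lit 0) (nat_lit 4280690715) (nat_lit 532) (nat_lit 2798148910) (nat_lit 608) (nat_lit 2560419602) (nat_lit 246) (nat_lit 5) (nat_lit 253) (nat_lit 5) (nat_lit 254) (nat_lit 5) (nat_lit 454) (nat_lit 372) (nat_lit 314)) (XT.nd (nat_lit 78) (nat_lit 0) (nat_lit 0) (XT.lf (nat_lit 0) (nat_lit 750273600) (nat_lit 532) (nat_lit 8009064175) (nat_lit 76) (nat_lit 974910387) (nat_lit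 239) (nat_lit 5) (nat_lit 246) (nat_lit 5) (nat_lit 240) (nat_lit 5) (nat_lit 455) (nat_lit 372) (nat_lit 313)) (XT.lf (nat_lit 0) (nat_lit 4109631120) (nat_lit 532) (nat_lit 897808721) (nat_lit 76) (nat_lit 4823023858) (nat_lit 239) (nat_lit 5) (nat_lit 246) (nat_lit 5) (nat_lit 240) (nat_lit 5) (nat_lit 456) (nat_lit 372) (nat_lit 312))))) (XT.nd (nat_lit 234) (nat_lit 1368) (nat_lit 0) (XT.nd (nat_lit 78) (nat_lit 988) (nat_lit 0) (XT.lf (nat_lit 0) (nat_lit 6385582633) (nat_lit 532) (nat_lit 1154772871) (nat_lit 608) (nat_lit 2388164447) (nat_lit 232) (nat_lit 5) (nat_lit 239) (nat_lit 5) (nat_lit 240) (nat_lit 5) (nat_lit 457) (nat_lit 372) (nat_lit 311)) (XT.nd (nat_lit 78) (nat_lit 456) (nat_lit 0) (XT.lf (nat_lit 0) (nat_lit 1009564727) (nat_lit 532) (nat_lit 6259202778) (nat_lit 76) (nat_lit 2759405138) (nat_lit 225) (nat_lit 5) (nat_lit 232) (nat_lit 5) (nat_lit 226) (nat_lit 5) (nat_lit 458) (nat_lit 372) (nat_lit 310)) (XT.lf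 (nat_lit 0) (nat_lit 1082122088) (nat_lit 456) (nat_lit 3362914828) (nat_lit 532) (nat_lit 5684430439) (nat_lit 219) (nat_lit 5) (nat_lit 225) (nat_lit 5) (nat_lit 226) (nat_lit 5) (nat_lit 459) (nat_lit 372) (nat_lit 309)))) (XT.nd (nat_lit 156) (nat_lit 836) (nat_lit 0) (XT.nd (nat_lit 78) (nat_lit 532) (nat_lit 0) (XT.lf (nat_lit 0) (nat_lit 7958921951) (nat_lit 532) (nat_lit 1635647169) (nat_lit 76) (nat_lit 638024773) (nat_lit 219) (nat_lit 5) (nat_lit 226) (nat_lit 5) (nat_lit 220) (nat_lit 5) (nat_lit 460) (nat_lit 372) (nat_lit 308)) (XT.lf (nat_lit 0) (nat_lit 1214515244) (nat_lit 532) (nat_lit 4418976258) (nat_lit 76) (nat_lit 4703634521) (nat_lit 212) (nat_lit 5) (nat_lit 219) (nat_lit 5) (nat_lit 213) (nat_lit 5) (nat_lit 461) (nat_lit 372) (nat_lit 307))) (XT.nd (nat_lit 78) (nat_lit 380) (nat_lit 0) (XT.lf (nat_lit 0) (nat_lit 3174608041) (nat_lit 456) (nat_lit 1563334525) (nat_lit 532) (nat_lit 5705587234) (nat_lit 206)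 (nat_lit 5) (nat_lit 212) (nat_lit 5) (nat_lit 213) (nat_lit 5) (nat_lit 462) (nat_lit 372) (nat_lit 306)) (XT.lf (nat_lit 0) (nat_lit 362445827) (nat_lit 380) (nat_lit 7982872660) (nat_lit 456) (nat_lit 2206473563) (nat_lit 201) (nat_lit 5) (nat_lit 206) (nat_lit 5) (nat_lit 207) (nat_lit 5) (nat_lit 463) (nat_lit 372) (nat_lit 305))))))))
noncomputable def xc39 : XT := (XT.nd (nat_lit 54444) (nat_lit 0) (nat_lit 22344) (XT.nd (nat_lit 1014) (nat_lit 1368) (nat_lit 0) (XT.nd (nat_lit 468) (nat_lit 1976) (nat_lit 0) (XT.nd (nat_lit 234) (nat_lit 836) (nat_lit 0) (XT.nd (nat_lit 78) (nat_lit 836) (nat_lit 0) (XT.lf (nat_lit 0) (nat_lit 1368794806) (nat_lit 456) (nat_lit 2489713678) (nat_lit 76) (nat_lit 6803053253) (nat_lit 200) (nat_lit 5) (nat_lit 206) (nat_lit 5) (nat_lit 201) (nat_lit 5) (nat_lit 464) (nat_lit 372) (nat_lit 304)) (XT.nd (nat_lit 78) (nat_lit 380) (nat_lit 0) (XT.lf (nat_lit 0) (nat_lit 4988651118) (nat_lit 532) (nat_lit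 5408879504) (nat_lit 76) (nat_lit 375651953) (nat_lit 194) (nat_lit 5) (nat_lit 201) (nat_lit 5) (nat_lit 195) (nat_lit 5) (nat_lit 465) (nat_lit 372) (nat_lit 303)) (XT.lf (nat_lit 0) (nat_lit 2476174914) (nat_lit 380) (nat_lit 6228682849) (nat_lit 456) (nat_lit 2181699004) (nat_lit 189) (nat_lit 5) (nat_lit 194) (nat_lit 5) (nat_lit 195) (nat_lit 5) (nat_lit 466) (nat_lit 372) (nat_lit 302)))) (XT.nd (nat_lit 78) (nat_lit 760) (nat_lit 0) (XT.lf (nat_lit 0) (nat_lit 1475756458) (nat_lit 456) (nat_lit 472350289) (nat_lit 76) (nat_lit 9053854804) (nat_lit 188) (nat_lit 5) (nat_lit 194) (nat_lit 5) (nat_lit 189) (nat_lit 5) (nat_lit 467) (nat_lit 372) (nat_lit 301)) (XT.nd (nat_lit 78) (nat_lit 380) (nat_lit 0) (XT.lf (nat_lit 0) (nat_lit 5209190378) (nat_lit 456) (nat_lit 3476785826) (nat_lit 76) (nat_lit 2432768959) (nat_lit 183) (nat_lit 5) (nat_lit 189) (nat_lit 5) (nat_lit 184) (nat_lit 5) (nat_lit 468) (nat_lit 372) (nat_lit 300))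 (XT.lf (nat_lit 0) (nat_lit 4683302987) (nat_lit 380) (nat_lit 4346981542) (nat_lit 456) (nat_lit 2207320087) (nat_lit 178) (nat_lit 5) (nat_lit 183) (nat_lit 5) (nat_lit 184) (nat_lit 5) (nat_lit 469) (nat_lit 372) (nat_lit 299))))) (XT.nd (nat_lit 234) (nat_lit 1216) (nat_lit 0) (XT.nd (nat_lit 78) (nat_lit 304) (nat_lit 0) (XT.lf (nat_lit 0) (nat_lit 1549882129) (nat_lit 456) (nat_lit 9705054479) (nat_lit 76) (nat_lit 103670916) (nat_lit 172) (nat_lit 5) (nat_lit 178) (nat_lit 5) (nat_lit 173) (nat_lit 5) (nat_lit 470) (nat_lit 372) (nat_lit 298)) (XT.nd (nat_lit 78) (nat_lit 304) (nat_lit 0) (XT.lf (nat_lit 0) (nat_lit 5392547223) (nat_lit 456) (nat_lit 1463084740) (nat_lit 76) (nat_lit 4625309222) (nat_lit 172) (nat_lit 5) (nat_lit 178) (nat_lit 5) (nat_lit 173) (nat_lit 5) (nat_lit 471) (nat_lit 372) (nat_lit 297)) (XT.lf (nat_lit 0) (nat_lit 6983702439) (nat_lit 304) (nat_lit 2341142454) (nat_lit 380) (nat_lit 2280621041) (nat_lit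 168) (nat_lit 5) (nat_lit 172) (nat_lit 5) (nat_lit 173) (nat_lit 5) (nat_lit 472) (nat_lit 372) (nat_lit 296)))) (XT.nd (nat_lit 156) (nat_lit 456) (nat_lit 0) (XT.nd (nat_lit 78) (nat_lit 304) (nat_lit 0) (XT.lf (nat_lit 0) (nat_lit 1599727453) (nat_lit 456) (nat_lit 7871473341) (nat_lit 76) (nat_lit 2260723234) (nat_lit 162) (nat_lit 5) (nat_lit 168) (nat_lit 5) (nat_lit 163) (nat_lit 5) (nat_lit 473) (nat_lit 372) (nat_lit 295)) (XT.lf (nat_lit 0) (nat_lit 640367844) (nat_lit 304) (nat_lit 4905394868) (nat_lit 380) (nat_lit 6314474729) (nat_lit 158) (nat_lit 5) (nat_lit 162) (nat_lit 5) (nat_lit 163) (nat_lit 5) (nat_lit 474) (nat_lit 372) (nat_lit 294))) (XT.nd (nat_lit 78) (nat_lit 456) (nat_lit 0) (XT.lf (nat_lit 0) (nat_lit 9377602118) (nat_lit 304) (nat_lit 213943784) (nat_lit 380) (nat_lit 2399154674) (nat_lit 158) (nat_lit 5) (nat_lit 162) (nat_lit 5) (nat_lit 163) (nat_lit 5) (nat_lit 475) (nat_lit 372) (nat_lit 293)) (XT.lf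 (nat_lit 0) (nat_lit 1612035175) (nat_lit 456) (nat_lit 5967654277) (nat_lit 76) (nat_lit 4543106971) (nat_lit 152) (nat_lit 5) (nat_lit 158) (nat_lit 5) (nat_lit 153) (nat_lit 5) (nat_lit 476) (nat_lit 372) (nat_lit 292)))))) (XT.nd (nat_lit 52884) (nat_lit 0) (nat_lit 45752) (XT.nd (nat_lit 234) (nat_lit 684) (nat_lit 0) (XT.nd (nat_lit 78) (nat_lit 380) (nat_lit 0) (XT.lf (nat_lit 0) (nat_lit 2845769142) (nat_lit 304) (nat_lit 2831719950) (nat_lit 380) (nat_lit 6579604627) (nat_lit 148) (nat_lit 5) (nat_lit 152) (nat_lit 5) (nat_lit 153) (nat_lit 5) (nat_lit 477) (nat_lit 372) (nat_lit 291)) (XT.nd (nat_lit 78) (nat_lit 380) (nat_lit 0) (XT.lf (nat_lit 0) (nat_lit 9846370108) (nat_lit 380) (nat_lit 541521274) (nat_lit 76) (nat_lit 2005743219) (nat_lit 148) (nat_lit 5) (nat_lit 153) (nat_lit 5) (nat_lit 149) (nat_lit 5) (nat_lit 478) (nat_lit 372) (nat_lit 290)) (XT.lf (nat_lit 0) (nat_lit 1589095375) (nat_lit 380) (nat_lit 3993715490)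 (nat_lit 76) (nat_lit 6949013970) (nat_lit 143) (nat_lit 5) (nat_lit 148) (nat_lit 5) (nat_lit 144) (nat_lit 5) (nat_lit 479) (nat_lit 372) (nat_lit 289)))) (XT.nd (nat_lit 78) (nat_lit 380) (nat_lit 0) (XT.lf (nat_lit 0) (nat_lit 5134061511) (nat_lit 304) (nat_lit 646473454) (nat_lit 380) (nat_lit 6891777949) (nat_lit 139) (nat_lit 5) (nat_lit 143) (nat_lit 5) (nat_lit 144) (nat_lit 5) (nat_lit 480) (nat_lit 372) (nat_lit 288)) (XT.nd (nat_lit 78) (nat_lit 76) (nat_lit 0) (XT.lf (nat_lit 0) (nat_lit 1625611641) (nat_lit 304) (nat_lit 8465800607) (nat_lit 380) (nat_lit 2723486330) (nat_lit 135) (nat_lit 5) (nat_lit 139) (nat_lit 5) (nat_lit 140) (nat_lit 5) (nat_lit 481) (nat_lit 372) (nat_lit 287)) (XT.lf (nat_lit 0) (nat_lit 1532985185) (nat_lit 380) (nat_lit 1949491169) (nat_lit 76) (nat_lit 9477164038) (nat_lit 134) (nat_lit 5) (nat_lit 139) (nat_lit 5) (nat_lit 135) (nat_lit 5) (nat_lit 482) (nat_lit 372) (nat_lit 286))))) (XT.nd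 (nat_lit 234) (nat_lit 2432) (nat_lit 0) (XT.nd (nat_lit 78) (nat_lit 684) (nat_lit 0) (XT.lf (nat_lit 0) (nat_lit 2362782681) (nat_lit 532) (nat_lit 452385931) (nat_lit 532) (nat_lit 452385931) (nat_lit 777) (nat_lit 4) (nat_lit 784) (nat_lit 5) (nat_lit 784) (nat_lit 4) (nat_lit 394) (nat_lit 373) (nat_lit 373)) (XT.nd (nat_lit 78) (nat_lit 0) (nat_lit 0) (XT.lf (nat_lit 0) (nat_lit 2147679222) (nat_lit 608) (nat_lit 198059297) (nat_lit 684) (nat_lit 4203248290) (nat_lit 768) (nat_lit 5) (nat_lit 776) (nat_lit 5) (nat_lit 777) (nat_lit 4) (nat_lit 395) (nat_lit 373) (nat_lit 372)) (XT.lf (nat_lit 0) (nat_lit 5588369907) (nat_lit 684) (nat_lit 417524510) (nat_lit 0) (nat_lit 558343545) (nat_lit 768) (nat_lit 5) (nat_lit 777) (nat_lit 4) (nat_lit 768) (nat_lit 4) (nat_lit 396) (nat_lit 373) (nat_lit 371)))) (XT.nd (nat_lit 156) (nat_lit 912) (nat_lit 0) (XT.nd (nat_lit 78) (nat_lit 760) (nat_lit 0) (XT.lf (nat_lit 0) (nat_lit 2235390996)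 (nat_lit 760) (nat_lit 2955822882) (nat_lit 76) (nat_lit 1389285375) (nat_lit 758) (nat_lit 5) (nat_lit 768) (nat_lit 5) (nat_lit 759) (nat_lit 4) (nat_lit 397) (nat_lit 373) (nat_lit 370)) (XT.lf (nat_lit 0) (nat_lit 1111121560) (nat_lit 760) (nat_lit 4322468652) (nat_lit 836) (nat_lit 1164650913) (nat_lit 748) (nat_lit 5) (nat_lit 758) (nat_lit 5) (nat_lit 759) (nat_lit 4) (nat_lit 398) (nat_lit 373) (nat_lit 369))) (XT.nd (nat_lit 78) (nat_lit 836) (nat_lit 0) (XT.lf (nat_lit 0) (nat_lit 1998473096) (nat_lit 836) (nat_lit 1384050321) (nat_lit 76) (nat_lit 3234617808) (nat_lit 747) (nat_lit 5) (nat_lit 758) (nat_lit 5) (nat_lit 748) (nat_lit 5) (nat_lit 399) (nat_lit 373) (nat_lit 368)) (XT.lf (nat_lit 0) (nat_lit 2776895960) (nat_lit 836) (nat_lit 2378219783) (nat_lit 912) (nat_lit 1482232602) (nat_lit 736) (nat_lit 5) (nat_lit 747) (nat_lit 5) (nat_lit 748) (nat_lit 5) (nat_lit 400) (nat_lit 373) (nat_lit 367))))))) (XT.nd (nat_lit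 1014) (nat_lit 13528) (nat_lit 0) (XT.nd (nat_lit 468) (nat_lit 5548) (nat_lit 0) (XT.nd (nat_lit 234) (nat_lit 2280) (nat_lit 0) (XT.nd (nat_lit 78) (nat_lit 1064) (nat_lit 0) (XT.lf (nat_lit 0) (nat_lit 321562523) (nat_lit 912) (nat_lit 1312698485) (nat_lit 988) (nat_lit 5024678705) (nat_lit 723) (nat_lit 5) (nat_lit 735) (nat_lit 5) (nat_lit 736) (nat_lit 5) (nat_lit 401) (nat_lit 373) (nat_lit 366)) (XT.nd (nat_lit 78) (nat_lit 1064) (nat_lit 0) (XT.lf (nat_lit 0) (nat_lit 4576458215) (nat_lit 912) (nat_lit 172107737) (nat_lit 988) (nat_lit 1933094435) (nat_lit 723) (nat_lit 5) (nat_lit 735) (nat_lit 5) (nat_lit 736) (nat_lit 5) (nat_lit 402) (nat_lit 373) (nat_lit 365)) (XT.lf (nat_lit 0) (nat_lit 1155549827) (nat_lit 1064) (nat_lit 4533227091) (nat_lit 76) (nat_lit 1016875432) (nat_lit 709) (nat_lit 5) (nat_lit 723) (nat_lit 5) (nat_lit 710) (nat_lit 5) (nat_lit 403) (nat_lit 373) (nat_lit 364)))) (XT.nd (nat_lit 78) (nat_lit 2280)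 (nat_lit 0) (XT.lf (nat_lit 0) (nat_lit 4226987425) (nat_lit 1064) (nat_lit 233886609) (nat_lit 76) (nat_lit 2270056471) (nat_lit 709) (nat_lit 5) (nat_lit 723) (nat_lit 5) (nat_lit 710) (nat_lit 5) (nat_lit 404) (nat_lit 373) (nat_lit 363)) (XT.nd (nat_lit 78) (nat_lit 1140) (nat_lit 0) (XT.lf (nat_lit 0) (nat_lit 554788823) (nat_lit 1140) (nat_lit 2608351749) (nat_lit 76) (nat_lit 3594304140) (nat_lit 694) (nat_lit 5) (nat_lit 709) (nat_lit 5) (nat_lit 695) (nat_lit 5) (nat_lit 405) (nat_lit 373) (nat_lit 362)) (XT.lf (nat_lit 0) (nat_lit 1791725165) (nat_lit 1140) (nat_lit 1796085308) (nat_lit 1216) (nat_lit 3197414853) (nat_lit 679) (nat_lit 5) (nat_lit 694) (nat_lit 5) (nat_lit 695) (nat_lit 5) (nat_lit 406) (nat_lit 373) (nat_lit 361))))) (XT.nd (nat_lit 234) (nat_lit 2964) (nat_lit 0) (XT.nd (nat_lit 78) (nat_lit 2584) (nat_lit 0) (XT.lf (nat_lit 0) (nat_lit 6261887770) (nat_lit 1140) (nat_lit 371466827) (nat_lit 1216) (nat_lit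 181169713) (nat_lit 679) (nat_lit 5) (nat_lit 694) (nat_lit 5) (nat_lit 695) (nat_lit 5) (nat_lit 407) (nat_lit 373) (nat_lit 360)) (XT.nd (nat_lit 78) (nat_lit 1292) (nat_lit 0) (XT.lf (nat_lit 0) (nat_lit 2825731276) (nat_lit 1292) (nat_lit 2895154480) (nat_lit 76) (nat_lit 1123781447) (nat_lit 662) (nat_lit 5) (nat_lit 679) (nat_lit 5) (nat_lit 663) (nat_lit 5) (nat_lit 408) (nat_lit 373) (nat_lit 359)) (XT.lf (nat_lit 0) (nat_lit 1637560808) (nat_lit 1292) (nat_lit 4205830563) (nat_lit 1368) (nat_lit 1032936695) (nat_lit 645) (nat_lit 5) (nat_lit 662) (nat_lit 5) (nat_lit 663) (nat_lit 5) (nat_lit 409) (nat_lit 373) (nat_lit 358)))) (XT.nd (nat_lit 156) (nat_lit 1520) (nat_lit 0) (XT.nd (nat_lit 78) (nat_lit 1368) (nat_lit 0) (XT.lf (nat_lit 0) (nat_lit 1942645963) (nat_lit 1368) (nat_lit 675829908) (nat_lit 76) (nat_lit 4290759679) (nat_lit 644) (nat_lit 5) (nat_lit 662) (nat_lit 5) (nat_lit 645) (nat_lit 5) (nat_lit 410) (nat_lit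 373) (nat_lit 357)) (XT.lf (nat_lit 0) (nat_lit 3970089749) (nat_lit 1368) (nat_lit 957554744) (nat_lit 1444) (nat_lit 2015745431) (nat_lit 626) (nat_lit 5) (nat_lit 644) (nat_lit 5) (nat_lit 645) (nat_lit 5) (nat_lit 411) (nat_lit 373) (nat_lit 356))) (XT.nd (nat_lit 78) (nat_lit 0) (nat_lit 0) (XT.lf (nat_lit 0) (nat_lit 940082460) (nat_lit 1520) (nat_lit 5282179162) (nat_lit 76) (nat_lit 756656577) (nat_lit 606) (nat_lit 5) (nat_lit 626) (nat_lit 5) (nat_lit 607) (nat_lit 5) (nat_lit 412) (nat_lit 373) (nat_lit 355)) (XT.lf (nat_lit 0) (nat_lit 3893805269) (nat_lit 1520) (nat_lit 588974335) (nat_lit 76) (nat_lit 2532795571) (nat_lit 606) (nat_lit 5) (nat_lit 626) (nat_lit 5) (nat_lit 607) (nat_lit 5) (nat_lit 413) (nat_lit 373) (nat_lit 354)))))) (XT.nd (nat_lit 546) (nat_lit 4940) (nat_lit 0) (XT.nd (nat_lit 234) (nat_lit 5396) (nat_lit 0) (XT.nd (nat_lit 78) (nat_lit 1672) (nat_lit 0) (XT.lf (nat_lit 0) (nat_lit 4199369705) (nat_lit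 1520) (nat_lit 2675005761) (nat_lit 1596) (nat_lit 179234366) (nat_lit 586) (nat_lit 5) (nat_lit 606) (nat_lit 5) (nat_lit 607) (nat_lit 5) (nat_lit 414) (nat_lit 373) (nat_lit 353)) (XT.nd (nat_lit 78) (nat_lit 0) (nat_lit 0) (XT.lf (nat_lit 0) (nat_lit 1952160356) (nat_lit 1596) (nat_lit 790570502) (nat_lit 1672) (nat_lit 4350156018) (nat_lit 564) (nat_lit 5) (nat_lit 585) (nat_lit 5) (nat_lit 586) (nat_lit 5) (nat_lit 415) (nat_lit 373) (nat_lit 352)) (XT.lf (nat_lit 0) (nat_lit 5689140259) (nat_lit 1672) (nat_lit 302916204) (nat_lit 76) (nat_lit 1141501206) (nat_lit 564) (nat_lit 5) (nat_lit 586) (nat_lit 5) (nat_lit 565) (nat_lit 5) (nat_lit 416) (nat_lit 373) (nat_lit 351)))) (XT.nd (nat_lit 156) (nat_lit 1900) (nat_lit 0) (XT.nd (nat_lit 78) (nat_lit 1748) (nat_lit 0) (XT.lf (nat_lit 0) (nat_lit 1477598607) (nat_lit 1748) (nat_lit 2552006593) (nat_lit 76) (nat_lit 3145677570) (nat_lit 541) (nat_lit 5) (nat_lit 564) (nat_lit 5)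 (nat_lit 542) (nat_lit 5) (nat_lit 417) (nat_lit 373) (nat_lit 350)) (XT.lf (nat_lit 0) (nat_lit 2401831739) (nat_lit 1748) (nat_lit 1997856276) (nat_lit 1824) (nat_lit 2818743928) (nat_lit 518) (nat_lit 5) (nat_lit 541) (nat_lit 5) (nat_lit 542) (nat_lit 5) (nat_lit 418) (nat_lit 373) (nat_lit 349))) (XT.nd (nat_lit 78) (nat_lit 0) (nat_lit 0) (XT.lf (nat_lit 0) (nat_lit 78924050) (nat_lit 1900) (nat_lit 7089943946) (nat_lit 76) (nat_lit 94306939) (nat_lit 493) (nat_lit 5) (nat_lit 518) (nat_lit 5) (nat_lit 494) (nat_lit 5) (nat_lit 419) (nat_lit 373) (nat_lit 348)) (XT.lf (nat_lit 0) (nat_lit 2987067909) (nat_lit 1900) (nat_lit 2067663842) (nat_lit 76) (nat_lit 2253903087) (nat_lit 493) (nat_lit 5) (nat_lit 518) (nat_lit 5) (nat_lit 494) (nat_lit 5) (nat_lit 420) (nat_lit 373) (nat_lit 347))))) (XT.nd (nat_lit 234) (nat_lit 2812) (nat_lit 0) (XT.nd (nat_lit 78) (nat_lit 988) (nat_lit 0) (XT.lf (nat_lit 0) (nat_lit 3040492865) (nat_lit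 1140) (nat_lit 2878175037) (nat_lit 1216) (nat_lit 1437030172) (nat_lit 478) (nat_lit 5) (nat_lit 493) (nat_lit 5) (nat_lit 494) (nat_lit 5) (nat_lit 421) (nat_lit 373) (nat_lit 346)) (XT.nd (nat_lit 78) (nat_lit 0) (nat_lit 0) (XT.lf (nat_lit 0) (nat_lit 821518899) (nat_lit 912) (nat_lit 629151287) (nat_lit 988) (nat_lit 5953532659) (nat_lit 465) (nat_lit 5) (nat_lit 477) (nat_lit 5) (nat_lit 478) (nat_lit 5) (nat_lit 422) (nat_lit 373) (nat_lit 345)) (XT.lf (nat_lit 0) (nat_lit 4363472174) (nat_lit 988) (nat_lit 1409651502) (nat_lit 76) (nat_lit 1680632270) (nat_lit 465) (nat_lit 5) (nat_lit 478) (nat_lit 5) (nat_lit 466) (nat_lit 5) (nat_lit 423) (nat_lit 373) (nat_lit 344)))) (XT.nd (nat_lit 156) (nat_lit 988) (nat_lit 0) (XT.nd (nat_lit 78) (nat_lit 912) (nat_lit 0) (XT.lf (nat_lit 0) (nat_lit 3858866801) (nat_lit 912) (nat_lit 3452544160) (nat_lit 988) (nat_lit 193351534) (nat_lit 453) (nat_lit 5) (nat_lit 465) (nat_lit 5) (nat_lit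 466) (nat_lit 5) (nat_lit 424) (nat_lit 373) (nat_lit 343)) (XT.lf (nat_lit 0) (nat_lit 1644082774) (nat_lit 836) (nat_lit 1049408381) (nat_lit 912) (nat_lit 4863575635) (nat_lit 441) (nat_lit 5) (nat_lit 452) (nat_lit 5) (nat_lit 453) (nat_lit 5) (nat_lit 425) (nat_lit 373) (nat_lit 342))) (XT.nd (nat_lit 78) (nat_lit 988) (nat_lit 0) (XT.lf (nat_lit 0) (nat_lit 5617853200) (nat_lit 912) (nat_lit 586587701) (nat_lit 76) (nat_lit 1406303277) (nat_lit 441) (nat_lit 5) (nat_lit 453) (nat_lit 5) (nat_lit 442) (nat_lit 5) (nat_lit 426) (nat_lit 373) (nat_lit 341)) (XT.lf (nat_lit 0) (nat_lit 910940345) (nat_lit 988) (nat_lit 2823060307) (nat_lit 76) (nat_lit 3931613057) (nat_lit 428) (nat_lit 5) (nat_lit 441) (nat_lit 5) (nat_lit 429) (nat_lit 5) (nat_lit 427) (nat_lit 373) (nat_lit 340))))))))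
noncomputable def xc40 : XT := (XT.nd (nat_lit 2028) (nat_lit 8284) (nat_lit 0) (XT.nd (nat_lit 1014) (nat_lit 6232) (nat_lit 0) (XT.nd (nat_lit 468) (nat_lit 3724) (nat_lit 0) (XT.nd (nat_lit 234) (nat_lit 1596) (nat_lit 0) (XT.nd (nat_lit 78) (nat_lit 912) (nat_lit 0) (XT.lf (nat_lit 0) (nat_lit 2633421129) (nat_lit 836) (nat_lit 1183782226) (nat_lit 912) (nat_lit 3904693017) (nat_lit 417) (nat_lit 5) (nat_lit 428) (nat_lit 5) (nat_lit 429) (nat_lit 5) (nat_lit 428) (nat_lit 373) (nat_lit 339)) (XT.nd (nat_lit 78) (nat_lit 76) (nat_lit 0) (XT.lf (nat_lit 0) (nat_lit 399062106) (nat_lit 836) (nat_lit 6363945308) (nat_lit 912) (nat_lit 1016668958) (nat_lit 406) (nat_lit 5) (nat_lit 417) (nat_lit 5) (nat_lit 418) (nat_lit 5) (nat_lit 429) (nat_lit 373) (nat_lit 338)) (XT.lf (nat_lit 0) (nat_lit 1896869163) (nat_lit 912) (nat_lit 1848701041) (nat_lit 76) (nat_lit 4092930180) (nat_lit 405) (nat_lit 5) (nat_lit 417) (nat_lit 5) (nat_lit 406)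 (nat_lit 5) (nat_lit 430) (nat_lit 373) (nat_lit 337)))) (XT.nd (nat_lit 78) (nat_lit 836) (nat_lit 0) (XT.lf (nat_lit 0) (nat_lit 3782304547) (nat_lit 760) (nat_lit 1049136317) (nat_lit 836) (nat_lit 3067398089) (nat_lit 395) (nat_lit 5) (nat_lit 405) (nat_lit 5) (nat_lit 406) (nat_lit 5) (nat_lit 431) (nat_lit 373) (nat_lit 336)) (XT.nd (nat_lit 78) (nat_lit 76) (nat_lit 0) (XT.lf (nat_lit 0) (nat_lit 1545018614) (nat_lit 760) (nat_lit 6265608170) (nat_lit 836) (nat_lit 150039053) (nat_lit 385) (nat_lit 5) (nat_lit 395) (nat_lit 5) (nat_lit 396) (nat_lit 5) (nat_lit 432) (nat_lit 373) (nat_lit 335)) (XT.lf (nat_lit 0) (nat_lit 2775989027) (nat_lit 836) (nat_lit 728288903) (nat_lit 76) (nat_lit 4519336789) (nat_lit 384) (nat_lit 5) (nat_lit 395) (nat_lit 5) (nat_lit 385) (nat_lit 5) (nat_lit 433) (nat_lit 373) (nat_lit 334))))) (XT.nd (nat_lit 234) (nat_lit 1444) (nat_lit 0) (XT.nd (nat_lit 78) (nat_lit 1520) (nat_lit 0) (XT.lf (nat_lit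 0) (nat_lit 5084349657) (nat_lit 760) (nat_lit 660746760) (nat_lit 836) (nat_lit 2342974968) (nat_lit 374) (nat_lit 5) (nat_lit 384) (nat_lit 5) (nat_lit 385) (nat_lit 5) (nat_lit 434) (nat_lit 373) (nat_lit 333)) (XT.nd (nat_lit 78) (nat_lit 684) (nat_lit 0) (XT.lf (nat_lit 0) (nat_lit 603534946) (nat_lit 836) (nat_lit 5320581718) (nat_lit 76) (nat_lit 2229782152) (nat_lit 363) (nat_lit 5) (nat_lit 374) (nat_lit 5) (nat_lit 364) (nat_lit 5) (nat_lit 435) (nat_lit 373) (nat_lit 332)) (XT.lf (nat_lit 0) (nat_lit 539307743) (nat_lit 684) (nat_lit 3020804040) (nat_lit 760) (nat_lit 4660971089) (nat_lit 354) (nat_lit 5) (nat_lit 363) (nat_lit 5) (nat_lit 364) (nat_lit 5) (nat_lit 436) (nat_lit 373) (nat_lit 331)))) (XT.nd (nat_lit 156) (nat_lit 684) (nat_lit 0) (XT.nd (nat_lit 78) (nat_lit 760) (nat_lit 0) (XT.lf (nat_lit 0) (nat_lit 6533965180) (nat_lit 684) (nat_lit 32412969) (nat_lit 760) (nat_lit 1723421298) (nat_lit 354) (nat_lit 5)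 (nat_lit 363) (nat_lit 5) (nat_lit 364) (nat_lit 5) (nat_lit 437) (nat_lit 373) (nat_lit 330)) (XT.lf (nat_lit 0) (nat_lit 1259193427) (nat_lit 760) (nat_lit 4097365324) (nat_lit 76) (nat_lit 3003106156) (nat_lit 344) (nat_lit 5) (nat_lit 354) (nat_lit 5) (nat_lit 345) (nat_lit 5) (nat_lit 438) (nat_lit 373) (nat_lit 329))) (XT.nd (nat_lit 78) (nat_lit 0) (nat_lit 0) (XT.lf (nat_lit 0) (nat_lit 1953280360) (nat_lit 684) (nat_lit 2305790402) (nat_lit 760) (nat_lit 4172015341) (nat_lit 335) (nat_lit 5) (nat_lit 344) (nat_lit 5) (nat_lit 345) (nat_lit 5) (nat_lit 439) (nat_lit 373) (nat_lit 328)) (XT.lf (nat_lit 0) (nat_lit 7308208341) (nat_lit 760) (nat_lit 383301175) (nat_lit 76) (nat_lit 812640951) (nat_lit 335) (nat_lit 5) (nat_lit 345) (nat_lit 5) (nat_lit 336) (nat_lit 5) (nat_lit 440) (nat_lit 373) (nat_lit 327)))))) (XT.nd (nat_lit 468) (nat_lit 2964) (nat_lit 0) (XT.nd (nat_lit 234) (nat_lit 1292) (nat_lit 0) (XT.nd (nat_lit 78)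 (nat_lit 1216) (nat_lit 0) (XT.lf (nat_lit 0) (nat_lit 1825992640) (nat_lit 760) (nat_lit 2749960442) (nat_lit 76) (nat_lit 4002274802) (nat_lit 325) (nat_lit 5) (nat_lit 335) (nat_lit 5) (nat_lit 326) (nat_lit 5) (nat_lit 441) (nat_lit 373) (nat_lit 326)) (XT.nd (nat_lit 78) (nat_lit 608) (nat_lit 0) (XT.lf (nat_lit 0) (nat_lit 3499372216) (nat_lit 608) (nat_lit 1375723809) (nat_lit 684) (nat_lit 3778877851) (nat_lit 317) (nat_lit 5) (nat_lit 325) (nat_lit 5) (nat_lit 326) (nat_lit 5) (nat_lit 442) (nat_lit 373) (nat_lit 325)) (XT.lf (nat_lit 0) (nat_lit 1127988917) (nat_lit 608) (nat_lit 6853182922) (nat_lit 684) (nat_lit 750143140) (nat_lit 309) (nat_lit 5) (nat_lit 317) (nat_lit 5) (nat_lit 318) (nat_lit 5) (nat_lit 443) (nat_lit 373) (nat_lit 324)))) (XT.nd (nat_lit 78) (nat_lit 1216) (nat_lit 0) (XT.lf (nat_lit 0) (nat_lit 2310446024) (nat_lit 684) (nat_lit 1282657577) (nat_lit 76) (nat_lit 5216756389) (nat_lit 308) (nat_lit 5)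 (nat_lit 317) (nat_lit 5) (nat_lit 309) (nat_lit 5) (nat_lit 444) (nat_lit 373) (nat_lit 323)) (XT.nd (nat_lit 78) (nat_lit 608) (nat_lit 0) (XT.lf (nat_lit 0) (nat_lit 5173660404) (nat_lit 608) (nat_lit 240993778) (nat_lit 684) (nat_lit 3475373517) (nat_lit 300) (nat_lit 5) (nat_lit 308) (nat_lit 5) (nat_lit 309) (nat_lit 5) (nat_lit 445) (nat_lit 373) (nat_lit 322)) (XT.lf (nat_lit 0) (nat_lit 2766426902) (nat_lit 608) (nat_lit 5821010435) (nat_lit 684) (nat_lit 384231607) (nat_lit 292) (nat_lit 5) (nat_lit 300) (nat_lit 5) (nat_lit 301) (nat_lit 5) (nat_lit 446) (nat_lit 373) (nat_lit 321))))) (XT.nd (nat_lit 234) (nat_lit 1748) (nat_lit 0) (XT.nd (nat_lit 78) (nat_lit 608) (nat_lit 0) (XT.lf (nat_lit 0) (nat_lit 304857371) (nat_lit 532) (nat_lit 2415656844) (nat_lit 608) (nat_lit 6334307403) (nat_lit 284) (nat_lit 5) (nat_lit 291) (nat_lit 5) (nat_lit 292) (nat_lit 5) (nat_lit 447) (nat_lit 373) (nat_lit 320)) (XT.nd (nat_lit 78)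 (nat_lit 608) (nat_lit 0) (XT.lf (nat_lit 0) (nat_lit 5890770398) (nat_lit 608) (nat_lit 2173789831) (nat_lit 76) (nat_lit 1074855112) (nat_lit 284) (nat_lit 5) (nat_lit 292) (nat_lit 5) (nat_lit 285) (nat_lit 5) (nat_lit 448) (nat_lit 373) (nat_lit 319)) (XT.lf (nat_lit 0) (nat_lit 4523740555) (nat_lit 608) (nat_lit 4606620126) (nat_lit 684) (nat_lit 95221680) (nat_lit 276) (nat_lit 5) (nat_lit 284) (nat_lit 5) (nat_lit 285) (nat_lit 5) (nat_lit 449) (nat_lit 373) (nat_lit 318)))) (XT.nd (nat_lit 156) (nat_lit 1140) (nat_lit 0) (XT.nd (nat_lit 78) (nat_lit 0) (nat_lit 0) (XT.lf (nat_lit 0) (nat_lit 2024020937) (nat_lit 532) (nat_lit 1044868289) (nat_lit 608) (nat_lit 6244407082) (nat_lit 268) (nat_lit 5) (nat_lit 275) (nat_lit 5) (nat_lit 276) (nat_lit 5) (nat_lit 450) (nat_lit 373) (nat_lit 317)) (XT.lf (nat_lit 0) (nat_lit 6304633010) (nat_lit 608) (nat_lit 525640457) (nat_lit 76) (nat_lit 2572285967) (nat_lit 268) (nat_lit 5) (nat_lit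 276) (nat_lit 5) (nat_lit 269) (nat_lit 5) (nat_lit 451) (nat_lit 373) (nat_lit 316))) (XT.nd (nat_lit 78) (nat_lit 532) (nat_lit 0) (XT.lf (nat_lit 0) (nat_lit 120368464) (nat_lit 608) (nat_lit 3096885236) (nat_lit 76) (nat_lit 6276132711) (nat_lit 260) (nat_lit 5) (nat_lit 268) (nat_lit 5) (nat_lit 261) (nat_lit 5) (nat_lit 452) (nat_lit 373) (nat_lit 315)) (XT.lf (nat_lit 0) (nat_lit 3355414239) (nat_lit 608) (nat_lit 5733898428) (nat_lit 76) (nat_lit 496430390) (nat_lit 253) (nat_lit 5) (nat_lit 261) (nat_lit 5) (nat_lit 254) (nat_lit 5) (nat_lit 453) (nat_lit 373) (nat_lit 314))))))) (XT.nd (nat_lit 1014) (nat_lit 3800) (nat_lit 0) (XT.nd (nat_lit 468) (nat_lit 2356) (nat_lit 0) (XT.nd (nat_lit 234) (nat_lit 1064) (nat_lit 0) (XT.nd (nat_lit 78) (nat_lit 532) (nat_lit 0) (XT.lf (nat_lit 0) (nat_lit 1243459056) (nat_lit 532) (nat_lit 5424286086) (nat_lit 608) (nat_lit 3011950009) (nat_lit 246) (nat_lit 5) (nat_lit 253) (nat_lit 5)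 (nat_lit 254) (nat_lit 5) (nat_lit 454) (nat_lit 373) (nat_lit 313)) (XT.nd (nat_lit 78) (nat_lit 456) (nat_lit 0) (XT.lf (nat_lit 0) (nat_lit 268410217) (nat_lit 608) (nat_lit 1392231643) (nat_lit 76) (nat_lit 8114825955) (nat_lit 245) (nat_lit 5) (nat_lit 253) (nat_lit 5) (nat_lit 246) (nat_lit 5) (nat_lit 455) (nat_lit 373) (nat_lit 312)) (XT.lf (nat_lit 0) (nat_lit 3589310363) (nat_lit 532) (nat_lit 4090938689) (nat_lit 76) (nat_lit 2192203448) (nat_lit 239) (nat_lit 5) (nat_lit 246) (nat_lit 5) (nat_lit 240) (nat_lit 5) (nat_lit 456) (nat_lit 373) (nat_lit 311)))) (XT.nd (nat_lit 78) (nat_lit 532) (nat_lit 0) (XT.lf (nat_lit 0) (nat_lit 3123540875) (nat_lit 532) (nat_lit 3857221094) (nat_lit 608) (nat_lit 2990532239) (nat_lit 232) (nat_lit 5) (nat_lit 239) (nat_lit 5) (nat_lit 240) (nat_lit 5) (nat_lit 457) (nat_lit 373) (nat_lit 310)) (XT.nd (nat_lit 78) (nat_lit 0) (nat_lit 0) (XT.lf (nat_lit 0) (nat_lit 357412475) (nat_lit 532)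 (nat_lit 9656401201) (nat_lit 76) (nat_lit 58365135) (nat_lit 225) (nat_lit 5) (nat_lit 232) (nat_lit 5) (nat_lit 226) (nat_lit 5) (nat_lit 458) (nat_lit 373) (nat_lit 309)) (XT.lf (nat_lit 0) (nat_lit 3767964363) (nat_lit 532) (nat_lit 2355597077) (nat_lit 76) (nat_lit 4050410489) (nat_lit 225) (nat_lit 5) (nat_lit 232) (nat_lit 5) (nat_lit 226) (nat_lit 5) (nat_lit 459) (nat_lit 373) (nat_lit 308))))) (XT.nd (nat_lit 234) (nat_lit 1368) (nat_lit 0) (XT.nd (nat_lit 78) (nat_lit 532) (nat_lit 0) (XT.lf (nat_lit 0) (nat_lit 5106049091) (nat_lit 456) (nat_lit 2138392032) (nat_lit 532) (nat_lit 3033405510) (nat_lit 219) (nat_lit 5) (nat_lit 225) (nat_lit 5) (nat_lit 226) (nat_lit 5) (nat_lit 460) (nat_lit 373) (nat_lit 307)) (XT.nd (nat_lit 78) (nat_lit 0) (nat_lit 0) (XT.lf (nat_lit 0) (nat_lit 409736713) (nat_lit 532) (nat_lit 8055383644) (nat_lit 76) (nat_lit 1918457241) (nat_lit 212) (nat_lit 5) (nat_lit 219) (nat_lit 5) (nat_lit 213)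 (nat_lit 5) (nat_lit 461) (nat_lit 373) (nat_lit 306)) (XT.lf (nat_lit 0) (nat_lit 3895192636) (nat_lit 532) (nat_lit 529431009) (nat_lit 76) (nat_lit 6066117157) (nat_lit 212) (nat_lit 5) (nat_lit 219) (nat_lit 5) (nat_lit 213) (nat_lit 5) (nat_lit 462) (nat_lit 373) (nat_lit 305)))) (XT.nd (nat_lit 156) (nat_lit 456) (nat_lit 0) (XT.nd (nat_lit 78) (nat_lit 456) (nat_lit 0) (XT.lf (nat_lit 0) (nat_lit 7189854419) (nat_lit 456) (nat_lit 272805473) (nat_lit 532) (nat_lit 3137141335) (nat_lit 206) (nat_lit 5) (nat_lit 212) (nat_lit 5) (nat_lit 213) (nat_lit 5) (nat_lit 463) (nat_lit 373) (nat_lit 304)) (XT.lf (nat_lit 0) (nat_lit 408792743) (nat_lit 456) (nat_lit 6374087595) (nat_lit 76) (nat_lit 3927642227) (nat_lit 200) (nat_lit 5) (nat_lit 206) (nat_lit 5) (nat_lit 201) (nat_lit 5) (nat_lit 464) (nat_lit 373) (nat_lit 303))) (XT.nd (nat_lit 78) (nat_lit 0) (nat_lit 0) (XT.lf (nat_lit 0) (nat_lit 1404831514) (nat_lit 456) (nat_lit 2578772751)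 (nat_lit 532) (nat_lit 6839440035) (nat_lit 194) (nat_lit 5) (nat_lit 200) (nat_lit 5) (nat_lit 201) (nat_lit 5) (nat_lit 465) (nat_lit 373) (nat_lit 302)) (XT.lf (nat_lit 0) (nat_lit 7650249073) (nat_lit 532) (nat_lit 1574654711) (nat_lit 76) (nat_lit 1712505944) (nat_lit 194) (nat_lit 5) (nat_lit 201) (nat_lit 5) (nat_lit 195) (nat_lit 5) (nat_lit 466) (nat_lit 373) (nat_lit 301)))))) (XT.nd (nat_lit 468) (nat_lit 1824) (nat_lit 0) (XT.nd (nat_lit 234) (nat_lit 760) (nat_lit 0) (XT.nd (nat_lit 78) (nat_lit 760) (nat_lit 0) (XT.lf (nat_lit 0) (nat_lit 357675486) (nat_lit 456) (nat_lit 4613736666) (nat_lit 76) (nat_lit 6082088261) (nat_lit 188) (nat_lit 5) (nat_lit 194) (nat_lit 5) (nat_lit 189) (nat_lit 5) (nat_lit 467) (nat_lit 373) (nat_lit 300)) (XT.nd (nat_lit 78) (nat_lit 380) (nat_lit 0) (XT.lf (nat_lit 0) (nat_lit 3436214855) (nat_lit 380) (nat_lit 595114788) (nat_lit 456) (nat_lit 7140149977) (nat_lit 183) (nat_lit 5) (nat_lit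 188) (nat_lit 5) (nat_lit 189) (nat_lit 5) (nat_lit 468) (nat_lit 373) (nat_lit 299)) (XT.lf (nat_lit 0) (nat_lit 346399050) (nat_lit 380) (nat_lit 7457740125) (nat_lit 456) (nat_lit 3487165591) (nat_lit 178) (nat_lit 5) (nat_lit 183) (nat_lit 5) (nat_lit 184) (nat_lit 5) (nat_lit 469) (nat_lit 373) (nat_lit 298)))) (XT.nd (nat_lit 78) (nat_lit 684) (nat_lit 0) (XT.lf (nat_lit 0) (nat_lit 259185130) (nat_lit 456) (nat_lit 2775199434) (nat_lit 76) (nat_lit 8378642041) (nat_lit 177) (nat_lit 5) (nat_lit 183) (nat_lit 5) (nat_lit 178) (nat_lit 5) (nat_lit 470) (nat_lit 373) (nat_lit 297)) (XT.nd (nat_lit 78) (nat_lit 304) (nat_lit 0) (XT.lf (nat_lit 0) (nat_lit 4047649612) (nat_lit 456) (nat_lit 5989231964) (nat_lit 76) (nat_lit 1499562702) (nat_lit 172) (nat_lit 5) (nat_lit 178) (nat_lit 5) (nat_lit 173) (nat_lit 5) (nat_lit 471) (nat_lit 373) (nat_lit 296)) (XT.lf (nat_lit 0) (nat_lit 2372021489) (nat_lit 304) (nat_lit 5562179220) (nat_lit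 380) (nat_lit 3727683250) (nat_lit 168) (nat_lit 5) (nat_lit 172) (nat_lit 5) (nat_lit 173) (nat_lit 5) (nat_lit 472) (nat_lit 373) (nat_lit 295))))) (XT.nd (nat_lit 234) (nat_lit 1064) (nat_lit 0) (XT.nd (nat_lit 78) (nat_lit 684) (nat_lit 0) (XT.lf (nat_lit 0) (nat_lit 115847594) (nat_lit 380) (nat_lit 859007161) (nat_lit 76) (nat_lit 10814791127) (nat_lit 167) (nat_lit 5) (nat_lit 172) (nat_lit 5) (nat_lit 168) (nat_lit 5) (nat_lit 473) (nat_lit 373) (nat_lit 294)) (XT.nd (nat_lit 78) (nat_lit 304) (nat_lit 0) (XT.lf (nat_lit 0) (nat_lit 4030033775) (nat_lit 456) (nat_lit 4175554339) (nat_lit 76) (nat_lit 3713008160) (nat_lit 162) (nat_lit 5) (nat_lit 168) (nat_lit 5) (nat_lit 163) (nat_lit 5) (nat_lit 474) (nat_lit 373) (nat_lit 293)) (XT.lf (nat_lit 0) (nat_lit 4481172693) (nat_lit 304) (nat_lit 3551645223) (nat_lit 380) (nat_lit 4017101475) (nat_lit 158) (nat_lit 5) (nat_lit 162) (nat_lit 5) (nat_lit 163) (nat_lit 5) (nat_lit 475)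 (nat_lit 373) (nat_lit 292)))) (XT.nd (nat_lit 156) (nat_lit 608) (nat_lit 0) (XT.nd (nat_lit 78) (nat_lit 76) (nat_lit 0) (XT.lf (nat_lit 0) (nat_lit 1141313050) (nat_lit 380) (nat_lit 10986847645) (nat_lit 456) (nat_lit 55458214) (nat_lit 153) (nat_lit 5) (nat_lit 158) (nat_lit 5) (nat_lit 159) (nat_lit 5) (nat_lit 476) (nat_lit 373) (nat_lit 291)) (XT.lf (nat_lit 0) (nat_lit 3977001845) (nat_lit 456) (nat_lit 2290654662) (nat_lit 76) (nat_lit 6050941326) (nat_lit 152) (nat_lit 5) (nat_lit 158) (nat_lit 5) (nat_lit 153) (nat_lit 5) (nat_lit 477) (nat_lit 373) (nat_lit 290))) (XT.nd (nat_lit 78) (nat_lit 304) (nat_lit 0) (XT.lf (nat_lit 0) (nat_lit 6674061222) (nat_lit 304) (nat_lit 1428450173) (nat_lit 380) (nat_lit 4353494748) (nat_lit 148) (nat_lit 5) (nat_lit 152) (nat_lit 5) (nat_lit 153) (nat_lit 5) (nat_lit 478) (nat_lit 373) (nat_lit 289)) (XT.lf (nat_lit 0) (nat_lit 3223381847) (nat_lit 304) (nat_lit 9116286336) (nat_lit 380)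 (nat_lit 255911697) (nat_lit 144) (nat_lit 5) (nat_lit 148) (nat_lit 5) (nat_lit 149) (nat_lit 5) (nat_lit 479) (nat_lit 373) (nat_lit 288))))))))
noncomputable def xc41 : XT := (XT.nd (nat_lit 54288) (nat_lit 0) (nat_lit 15200) (XT.nd (nat_lit 53274) (nat_lit 0) (nat_lit 34200) (XT.nd (nat_lit 52728) (nat_lit 0) (nat_lit 44688) (XT.nd (nat_lit 52494) (nat_lit 0) (nat_lit 48716) (XT.nd (nat_lit 78) (nat_lit 608) (nat_lit 0) (XT.lf (nat_lit 0) (nat_lit 3890716875) (nat_lit 380) (nat_lit 334528737) (nat_lit 76) (nat_lit 8511818927) (nat_lit 143) (nat_lit 5) (nat_lit 148) (nat_lit 5) (nat_lit 144) (nat_lit 5) (nat_lit 480) (nat_lit 373) (nat_lit 287)) (XT.nd (nat_lit 78) (nat_lit 304) (nat_lit 0) (XT.lf (nat_lit 0) (nat_lit 8150825900) (nat_lit 380) (nat_lit 3934796013) (nat_lit 76) (nat_lit 795043655) (nat_lit 139) (nat_lit 5) (nat_lit 144) (nat_lit 5) (nat_lit 140) (nat_lit 5) (nat_lit 481) (nat_lit 373) (nat_lit 286)) (XT.lf (nat_lit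 0) (nat_lit 5383392360) (nat_lit 304) (nat_lit 7148703201) (nat_lit 380) (nat_lit 494323888) (nat_lit 135) (nat_lit 5) (nat_lit 139) (nat_lit 5) (nat_lit 140) (nat_lit 5) (nat_lit 482) (nat_lit 373) (nat_lit 285)))) (XT.nd (nat_lit 78) (nat_lit 608) (nat_lit 0) (XT.lf (nat_lit 0) (nat_lit 866232092) (nat_lit 532) (nat_lit 1522731172) (nat_lit 0) (nat_lit 866232092) (nat_lit 784) (nat_lit 5) (nat_lit 791) (nat_lit 4) (nat_lit 784) (nat_lit 4) (nat_lit 392) (nat_lit 374) (nat_lit 374)) (XT.nd (nat_lit 78) (nat_lit 76) (nat_lit 0) (XT.lf (nat_lit 0) (nat_lit 793981951) (nat_lit 532) (nat_lit 4185494307) (nat_lit 532) (nat_lit 1542967468) (nat_lit 777) (nat_lit 4) (nat_lit 784) (nat_lit 5) (nat_lit 784) (nat_lit 4) (nat_lit 393) (nat_lit 374) (nat_lit 373)) (XT.lf (nat_lit 0) (nat_lit 1676474351) (nat_lit 608) (nat_lit 1846761236) (nat_lit 76) (nat_lit 3012417640) (nat_lit 776) (nat_lit 5) (nat_lit 784) (nat_lit 5) (nat_lit 777) (nat_lit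 4) (nat_lit 394) (nat_lit 374) (nat_lit 372))))) (XT.nd (nat_lit 234) (nat_lit 2660) (nat_lit 0) (XT.nd (nat_lit 78) (nat_lit 760) (nat_lit 0) (XT.lf (nat_lit 0) (nat_lit 2078250434) (nat_lit 608) (nat_lit 2798682319) (nat_lit 684) (nat_lit 1673244423) (nat_lit 768) (nat_lit 5) (nat_lit 776) (nat_lit 5) (nat_lit 777) (nat_lit 4) (nat_lit 395) (nat_lit 374) (nat_lit 371)) (XT.nd (nat_lit 78) (nat_lit 684) (nat_lit 0) (XT.lf (nat_lit 0) (nat_lit 1492650260) (nat_lit 684) (nat_lit 520292649) (nat_lit 76) (nat_lit 4553105665) (nat_lit 767) (nat_lit 5) (nat_lit 776) (nat_lit 5) (nat_lit 768) (nat_lit 5) (nat_lit 396) (nat_lit 374) (nat_lit 370)) (XT.lf (nat_lit 0) (nat_lit 3494111676) (nat_lit 684) (nat_lit 1153976606) (nat_lit 760) (nat_lit 1934955312) (nat_lit 758) (nat_lit 5) (nat_lit 767) (nat_lit 5) (nat_lit 768) (nat_lit 5) (nat_lit 397) (nat_lit 374) (nat_lit 369)))) (XT.nd (nat_lit 156) (nat_lit 1824) (nat_lit 0) (XT.nd (nat_lit 78)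 (nat_lit 0) (nat_lit 0) (XT.lf (nat_lit 0) (nat_lit 948090360) (nat_lit 760) (nat_lit 237792709) (nat_lit 836) (nat_lit 5415606343) (nat_lit 747) (nat_lit 5) (nat_lit 757) (nat_lit 5) (nat_lit 758) (nat_lit 5) (nat_lit 398) (nat_lit 374) (nat_lit 368)) (XT.lf (nat_lit 0) (nat_lit 4296449359) (nat_lit 836) (nat_lit 1582531209) (nat_lit 76) (nat_lit 742003374) (nat_lit 747) (nat_lit 5) (nat_lit 758) (nat_lit 5) (nat_lit 748) (nat_lit 5) (nat_lit 399) (nat_lit 374) (nat_lit 367))) (XT.nd (nat_lit 78) (nat_lit 912) (nat_lit 0) (XT.lf (nat_lit 0) (nat_lit 764497794) (nat_lit 912) (nat_lit 4097184910) (nat_lit 76) (nat_lit 1780138028) (nat_lit 735) (nat_lit 5) (nat_lit 747) (nat_lit 5) (nat_lit 736) (nat_lit 5) (nat_lit 400) (nat_lit 374) (nat_lit 366)) (XT.lf (nat_lit 0) (nat_lit 45624298) (nat_lit 912) (nat_lit 3779390217) (nat_lit 988) (nat_lit 2838935855) (nat_lit 723) (nat_lit 5) (nat_lit 735) (nat_lit 5) (nat_lit 736) (nat_lit 5) (nat_lit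 401) (nat_lit 374) (nat_lit 365)))))) (XT.nd (nat_lit 468) (nat_lit 7068) (nat_lit 0) (XT.nd (nat_lit 234) (nat_lit 2356) (nat_lit 0) (XT.nd (nat_lit 78) (nat_lit 988) (nat_lit 0) (XT.lf (nat_lit 0) (nat_lit 214876440) (nat_lit 988) (nat_lit 2414041625) (nat_lit 76) (nat_lit 4058409339) (nat_lit 722) (nat_lit 5) (nat_lit 735) (nat_lit 5) (nat_lit 723) (nat_lit 5) (nat_lit 402) (nat_lit 374) (nat_lit 364)) (XT.nd (nat_lit 78) (nat_lit 0) (nat_lit 0) (XT.lf (nat_lit 0) (nat_lit 1827510024) (nat_lit 988) (nat_lit 1407901316) (nat_lit 1064) (nat_lit 3476512139) (nat_lit 709) (nat_lit 5) (nat_lit 722) (nat_lit 5) (nat_lit 723) (nat_lit 5) (nat_lit 403) (nat_lit 374) (nat_lit 363)) (XT.lf (nat_lit 0) (nat_lit 6134971978) (nat_lit 988) (nat_lit 130345974) (nat_lit 1064) (nat_lit 472714302) (nat_lit 709) (nat_lit 5) (nat_lit 722) (nat_lit 5) (nat_lit 723) (nat_lit 5) (nat_lit 404) (nat_lit 374) (nat_lit 362)))) (XT.nd (nat_lit 78) (nat_lit 1216)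 (nat_lit 0) (XT.lf (nat_lit 0) (nat_lit 2523115530) (nat_lit 1140) (nat_lit 3028454870) (nat_lit 76) (nat_lit 1213437543) (nat_lit 694) (nat_lit 5) (nat_lit 709) (nat_lit 5) (nat_lit 695) (nat_lit 5) (nat_lit 405) (nat_lit 374) (nat_lit 361)) (XT.nd (nat_lit 78) (nat_lit 76) (nat_lit 0) (XT.lf (nat_lit 0) (nat_lit 1339666450) (nat_lit 1140) (nat_lit 4181211164) (nat_lit 1216) (nat_lit 1272616133) (nat_lit 679) (nat_lit 5) (nat_lit 694) (nat_lit 5) (nat_lit 695) (nat_lit 5) (nat_lit 406) (nat_lit 374) (nat_lit 360)) (XT.lf (nat_lit 0) (nat_lit 1688691456) (nat_lit 1216) (nat_lit 1050566194) (nat_lit 76) (nat_lit 4083950055) (nat_lit 678) (nat_lit 5) (nat_lit 694) (nat_lit 5) (nat_lit 679) (nat_lit 5) (nat_lit 407) (nat_lit 374) (nat_lit 359))))) (XT.nd (nat_lit 234) (nat_lit 4484) (nat_lit 0) (XT.nd (nat_lit 78) (nat_lit 1368) (nat_lit 0) (XT.lf (nat_lit 0) (nat_lit 3425206290) (nat_lit 1216) (nat_lit 1225722949) (nat_lit 1292) (nat_lit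 2203243577) (nat_lit 662) (nat_lit 5) (nat_lit 678) (nat_lit 5) (nat_lit 679) (nat_lit 5) (nat_lit 408) (nat_lit 374) (nat_lit 358)) (XT.nd (nat_lit 78) (nat_lit 0) (nat_lit 0) (XT.lf (nat_lit 0) (nat_lit 729662017) (nat_lit 1368) (nat_lit 5813366935) (nat_lit 76) (nat_lit 343559636) (nat_lit 644) (nat_lit 5) (nat_lit 662) (nat_lit 5) (nat_lit 645) (nat_lit 5) (nat_lit 409) (nat_lit 374) (nat_lit 357)) (XT.lf (nat_lit 0) (nat_lit 3660977652) (nat_lit 1368) (nat_lit 1283623342) (nat_lit 76) (nat_lit 1975375345) (nat_lit 644) (nat_lit 5) (nat_lit 662) (nat_lit 5) (nat_lit 645) (nat_lit 5) (nat_lit 410) (nat_lit 374) (nat_lit 356)))) (XT.nd (nat_lit 156) (nat_lit 1596) (nat_lit 0) (XT.nd (nat_lit 78) (nat_lit 1520) (nat_lit 0) (XT.lf (nat_lit 0) (nat_lit 3327906070) (nat_lit 1368) (nat_lit 3283783107) (nat_lit 1444) (nat_lit 343127277) (nat_lit 626) (nat_lit 5) (nat_lit 644) (nat_lit 5) (nat_lit 645) (nat_lit 5) (nat_lit 411) (nat_lit 374)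 (nat_lit 355)) (XT.lf (nat_lit 0) (nat_lit 1001973795) (nat_lit 1444) (nat_lit 1549377155) (nat_lit 1520) (nat_lit 4439564844) (nat_lit 606) (nat_lit 5) (nat_lit 625) (nat_lit 5) (nat_lit 626) (nat_lit 5) (nat_lit 412) (nat_lit 374) (nat_lit 354))) (XT.nd (nat_lit 78) (nat_lit 1596) (nat_lit 0) (XT.lf (nat_lit 0) (nat_lit 5465562611) (nat_lit 1520) (nat_lit 1312311436) (nat_lit 76) (nat_lit 250488946) (nat_lit 606) (nat_lit 5) (nat_lit 626) (nat_lit 5) (nat_lit 607) (nat_lit 5) (nat_lit 413) (nat_lit 374) (nat_lit 353)) (XT.lf (nat_lit 0) (nat_lit 1327611143) (nat_lit 1596) (nat_lit 3635846817) (nat_lit 76) (nat_lit 2103441097) (nat_lit 585) (nat_lit 5) (nat_lit 606) (nat_lit 5) (nat_lit 586) (nat_lit 5) (nat_lit 414) (nat_lit 374) (nat_lit 352))))))) (XT.nd (nat_lit 1014) (nat_lit 7068) (nat_lit 0) (XT.nd (nat_lit 468) (nat_lit 4940) (nat_lit 0) (XT.nd (nat_lit 234) (nat_lit 3648) (nat_lit 0) (XT.nd (nat_lit 78) (nat_lit 1748) (nat_lit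 0) (XT.lf (nat_lit 0) (nat_lit 1132316792) (nat_lit 1596) (nat_lit 3080920988) (nat_lit 1672) (nat_lit 2893594805) (nat_lit 564) (nat_lit 5) (nat_lit 585) (nat_lit 5) (nat_lit 586) (nat_lit 5) (nat_lit 415) (nat_lit 374) (nat_lit 351)) (XT.nd (nat_lit 78) (nat_lit 1748) (nat_lit 0) (XT.lf (nat_lit 0) (nat_lit 5992310369) (nat_lit 1596) (nat_lit 1131554297) (nat_lit 1672) (nat_lit 24354364) (nat_lit 564) (nat_lit 5) (nat_lit 585) (nat_lit 5) (nat_lit 586) (nat_lit 5) (nat_lit 416) (nat_lit 374) (nat_lit 350)) (XT.lf (nat_lit 0) (nat_lit 2837979764) (nat_lit 1748) (nat_lit 3459868440) (nat_lit 76) (nat_lit 892732676) (nat_lit 541) (nat_lit 5) (nat_lit 564) (nat_lit 5) (nat_lit 542) (nat_lit 5) (nat_lit 417) (nat_lit 374) (nat_lit 349)))) (XT.nd (nat_lit 78) (nat_lit 1900) (nat_lit 0) (XT.lf (nat_lit 0) (nat_lit 1455158068) (nat_lit 1748) (nat_lit 4271253150) (nat_lit 1824) (nat_lit 1507991994) (nat_lit 518) (nat_lit 5) (nat_lit 541) (nat_lit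 5) (nat_lit 542) (nat_lit 5) (nat_lit 418) (nat_lit 374) (nat_lit 348)) (XT.nd (nat_lit 78) (nat_lit 1824) (nat_lit 0) (XT.lf (nat_lit 0) (nat_lit 1343413876) (nat_lit 1824) (nat_lit 826157092) (nat_lit 76) (nat_lit 5109986459) (nat_lit 517) (nat_lit 5) (nat_lit 541) (nat_lit 5) (nat_lit 518) (nat_lit 5) (nat_lit 419) (nat_lit 374) (nat_lit 347)) (XT.lf (nat_lit 0) (nat_lit 4205045925) (nat_lit 1900) (nat_lit 3107353296) (nat_lit 76) (nat_lit 13548345) (nat_lit 493) (nat_lit 5) (nat_lit 518) (nat_lit 5) (nat_lit 494) (nat_lit 5) (nat_lit 420) (nat_lit 374) (nat_lit 346))))) (XT.nd (nat_lit 234) (nat_lit 2812) (nat_lit 0) (XT.nd (nat_lit 78) (nat_lit 988) (nat_lit 0) (XT.lf (nat_lit 0) (nat_lit 1960210539) (nat_lit 1140) (nat_lit 5142995709) (nat_lit 1216) (nat_lit 270473348) (nat_lit 478) (nat_lit 5) (nat_lit 493) (nat_lit 5) (nat_lit 494) (nat_lit 5) (nat_lit 421) (nat_lit 374) (nat_lit 345)) (XT.nd (nat_lit 78) (nat_lit 912) (nat_lit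 0) (XT.lf (nat_lit 0) (nat_lit 2570342813) (nat_lit 1216) (nat_lit 321693162) (nat_lit 76) (nat_lit 4530628601) (nat_lit 477) (nat_lit 5) (nat_lit 493) (nat_lit 5) (nat_lit 478) (nat_lit 5) (nat_lit 422) (nat_lit 374) (nat_lit 344)) (XT.lf (nat_lit 0) (nat_lit 4881470388) (nat_lit 912) (nat_lit 562593622) (nat_lit 988) (nat_lit 2028935284) (nat_lit 465) (nat_lit 5) (nat_lit 477) (nat_lit 5) (nat_lit 478) (nat_lit 5) (nat_lit 423) (nat_lit 374) (nat_lit 343)))) (XT.nd (nat_lit 156) (nat_lit 988) (nat_lit 0) (XT.nd (nat_lit 78) (nat_lit 836) (nat_lit 0) (XT.lf (nat_lit 0) (nat_lit 819387247) (nat_lit 988) (nat_lit 4891914371) (nat_lit 76) (nat_lit 1813336027) (nat_lit 452) (nat_lit 5) (nat_lit 465) (nat_lit 5) (nat_lit 453) (nat_lit 5) (nat_lit 424) (nat_lit 374) (nat_lit 342)) (XT.lf (nat_lit 0) (nat_lit 353306935) (nat_lit 836) (nat_lit 3316765376) (nat_lit 912) (nat_lit 3907516957) (nat_lit 441) (nat_lit 5) (nat_lit 452) (nat_lit 5)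 (nat_lit 453) (nat_lit 5) (nat_lit 425) (nat_lit 374) (nat_lit 341))) (XT.nd (nat_lit 78) (nat_lit 988) (nat_lit 0) (XT.lf (nat_lit 0) (nat_lit 5716419458) (nat_lit 836) (nat_lit 843845220) (nat_lit 912) (nat_lit 1071685373) (nat_lit 441) (nat_lit 5) (nat_lit 452) (nat_lit 5) (nat_lit 453) (nat_lit 5) (nat_lit 426) (nat_lit 374) (nat_lit 340)) (XT.lf (nat_lit 0) (nat_lit 1781009488) (nat_lit 988) (nat_lit 4218528573) (nat_lit 76) (nat_lit 1687942992) (nat_lit 428) (nat_lit 5) (nat_lit 441) (nat_lit 5) (nat_lit 429) (nat_lit 5) (nat_lit 427) (nat_lit 374) (nat_lit 339)))))) (XT.nd (nat_lit 468) (nat_lit 3724) (nat_lit 0) (XT.nd (nat_lit 234) (nat_lit 1596) (nat_lit 0) (XT.nd (nat_lit 78) (nat_lit 912) (nat_lit 0) (XT.lf (nat_lit 0) (nat_lit 1192546399) (nat_lit 836) (nat_lit 3461081831) (nat_lit 912) (nat_lit 3090808371) (nat_lit 417) (nat_lit 5) (nat_lit 428) (nat_lit 5) (nat_lit 429) (nat_lit 5) (nat_lit 428) (nat_lit 374) (nat_lit 338))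 (XT.nd (nat_lit 78) (nat_lit 912) (nat_lit 0) (XT.lf (nat_lit 0) (nat_lit 6715829980) (nat_lit 836) (nat_lit 847730480) (nat_lit 912) (nat_lit 239373577) (nat_lit 417) (nat_lit 5) (nat_lit 428) (nat_lit 5) (nat_lit 429) (nat_lit 5) (nat_lit 429) (nat_lit 374) (nat_lit 337)) (XT.lf (nat_lit 0) (nat_lit 2627408395) (nat_lit 912) (nat_lit 3399150177) (nat_lit 76) (nat_lit 1835829779) (nat_lit 405) (nat_lit 5) (nat_lit 417) (nat_lit 5) (nat_lit 406) (nat_lit 5) (nat_lit 430) (nat_lit 374) (nat_lit 336)))) (XT.nd (nat_lit 78) (nat_lit 836) (nat_lit 0) (XT.lf (nat_lit 0) (nat_lit 2184488094) (nat_lit 760) (nat_lit 3343727344) (nat_lit 836) (nat_lit 2395186776) (nat_lit 395) (nat_lit 5) (nat_lit 405) (nat_lit 5) (nat_lit 406) (nat_lit 5) (nat_lit 431) (nat_lit 374) (nat_lit 335)) (XT.nd (nat_lit 78) (nat_lit 760) (nat_lit 0) (XT.lf (nat_lit 0) (nat_lit 470811757) (nat_lit 836) (nat_lit 116335992) (nat_lit 76) (nat_lit 7398903786) (nat_lit 394)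 (nat_lit 5) (nat_lit 405) (nat_lit 5) (nat_lit 395) (nat_lit 5) (nat_lit 432) (nat_lit 374) (nat_lit 334)) (XT.lf (nat_lit 0) (nat_lit 3367296847) (nat_lit 836) (nat_lit 2440557120) (nat_lit 76) (nat_lit 2241678470) (nat_lit 384) (nat_lit 5) (nat_lit 395) (nat_lit 5) (nat_lit 385) (nat_lit 5) (nat_lit 433) (nat_lit 374) (nat_lit 333))))) (XT.nd (nat_lit 234) (nat_lit 2128) (nat_lit 0) (XT.nd (nat_lit 78) (nat_lit 836) (nat_lit 0) (XT.lf (nat_lit 0) (nat_lit 3322693047) (nat_lit 760) (nat_lit 2979731571) (nat_lit 836) (nat_lit 1812244079) (nat_lit 374) (nat_lit 5) (nat_lit 384) (nat_lit 5) (nat_lit 385) (nat_lit 5) (nat_lit 434) (nat_lit 374) (nat_lit 332)) (XT.nd (nat_lit 78) (nat_lit 0) (nat_lit 0) (XT.lf (nat_lit 0) (nat_lit 1006009688) (nat_lit 760) (nat_lit 72247865) (nat_lit 836) (nat_lit 7103150610) (nat_lit 363) (nat_lit 5) (nat_lit 373) (nat_lit 5) (nat_lit 374) (nat_lit 5) (nat_lit 435) (nat_lit 374) (nat_lit 331)) (XT.lf (nat_lit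 0) (nat_lit 4008689645) (nat_lit 836) (nat_lit 1348764656) (nat_lit 76) (nat_lit 2891660812) (nat_lit 363) (nat_lit 5) (nat_lit 374) (nat_lit 5) (nat_lit 364) (nat_lit 5) (nat_lit 436) (nat_lit 374) (nat_lit 330)))) (XT.nd (nat_lit 156) (nat_lit 684) (nat_lit 0) (XT.nd (nat_lit 78) (nat_lit 760) (nat_lit 0) (XT.lf (nat_lit 0) (nat_lit 4601492142) (nat_lit 684) (nat_lit 2382679181) (nat_lit 760) (nat_lit 1334276059) (nat_lit 354) (nat_lit 5) (nat_lit 363) (nat_lit 5) (nat_lit 364) (nat_lit 5) (nat_lit 437) (nat_lit 374) (nat_lit 329)) (XT.lf (nat_lit 0) (nat_lit 1593160242) (nat_lit 760) (nat_lit 6127634255) (nat_lit 76) (nat_lit 668469309) (nat_lit 344) (nat_lit 5) (nat_lit 354) (nat_lit 5) (nat_lit 345) (nat_lit 5) (nat_lit 438) (nat_lit 374) (nat_lit 328))) (XT.nd (nat_lit 78) (nat_lit 684) (nat_lit 0) (XT.lf (nat_lit 0) (nat_lit 4558955908) (nat_lit 760) (nat_lit 129074875) (nat_lit 76) (nat_lit 3773335850) (nat_lit 344) (nat_lit 5)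 (nat_lit 354) (nat_lit 5) (nat_lit 345) (nat_lit 5) (nat_lit 439) (nat_lit 374) (nat_lit 327)) (XT.lf (nat_lit 0) (nat_lit 6015937422) (nat_lit 684) (nat_lit 1564809769) (nat_lit 760) (nat_lit 954230734) (nat_lit 335) (nat_lit 5) (nat_lit 344) (nat_lit 5) (nat_lit 345) (nat_lit 5) (nat_lit 440) (nat_lit 374) (nat_lit 326))))))))
noncomputable def xc42 : XT := (XT.nd (nat_lit 2028) (nat_lit 4180) (nat_lit 0) (XT.nd (nat_lit 1014) (nat_lit 4484) (nat_lit 0) (XT.nd (nat_lit 468) (nat_lit 2964) (nat_lit 0) (XT.nd (nat_lit 234) (nat_lit 1900) (nat_lit 0) (XT.nd (nat_lit 78) (nat_lit 608) (nat_lit 0) (XT.lf (nat_lit 0) (nat_lit 2019150582) (nat_lit 760) (nat_lit 4963296361) (nat_lit 76) (nat_lit 1627484679) (nat_lit 325) (nat_lit 5) (nat_lit 335) (nat_lit 5) (nat_lit 326) (nat_lit 5) (nat_lit 441) (nat_lit 374) (nat_lit 325)) (XT.nd (nat_lit 78) (nat_lit 0) (nat_lit 0) (XT.lf (nat_lit 0) (nat_lit 1230009721) (nat_lit 608) (nat_lit 3802843754)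 (nat_lit 684) (nat_lit 3653532148) (nat_lit 317) (nat_lit 5) (nat_lit 325) (nat_lit 5) (nat_lit 326) (nat_lit 5) (nat_lit 442) (nat_lit 374) (nat_lit 324)) (XT.lf (nat_lit 0) (nat_lit 7561757514) (nat_lit 608) (nat_lit 537109710) (nat_lit 684) (nat_lit 665660743) (nat_lit 317) (nat_lit 5) (nat_lit 325) (nat_lit 5) (nat_lit 326) (nat_lit 5) (nat_lit 443) (nat_lit 374) (nat_lit 323)))) (XT.nd (nat_lit 78) (nat_lit 1216) (nat_lit 0) (XT.lf (nat_lit 0) (nat_lit 2361997186) (nat_lit 684) (nat_lit 3686340393) (nat_lit 76) (nat_lit 2795360893) (nat_lit 308) (nat_lit 5) (nat_lit 317) (nat_lit 5) (nat_lit 309) (nat_lit 5) (nat_lit 444) (nat_lit 374) (nat_lit 322)) (XT.nd (nat_lit 78) (nat_lit 608) (nat_lit 0) (XT.lf (nat_lit 0) (nat_lit 2711649468) (nat_lit 608) (nat_lit 2718599698) (nat_lit 684) (nat_lit 3494336139) (nat_lit 300) (nat_lit 5) (nat_lit 308) (nat_lit 5) (nat_lit 309) (nat_lit 5) (nat_lit 445) (nat_lit 374) (nat_lit 321)) (XT.lf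 (nat_lit 0) (nat_lit 226409520) (nat_lit 608) (nat_lit 8324257806) (nat_lit 684) (nat_lit 456606525) (nat_lit 292) (nat_lit 5) (nat_lit 300) (nat_lit 5) (nat_lit 301) (nat_lit 5) (nat_lit 446) (nat_lit 374) (nat_lit 320))))) (XT.nd (nat_lit 234) (nat_lit 1748) (nat_lit 0) (XT.nd (nat_lit 78) (nat_lit 1140) (nat_lit 0) (XT.lf (nat_lit 0) (nat_lit 2627411175) (nat_lit 684) (nat_lit 2300604846) (nat_lit 76) (nat_lit 4162853446) (nat_lit 291) (nat_lit 5) (nat_lit 300) (nat_lit 5) (nat_lit 292) (nat_lit 5) (nat_lit 447) (nat_lit 374) (nat_lit 319)) (XT.nd (nat_lit 78) (nat_lit 608) (nat_lit 0) (XT.lf (nat_lit 0) (nat_lit 4310663835) (nat_lit 532) (nat_lit 1445315081) (nat_lit 608) (nat_lit 3420318046) (nat_lit 284) (nat_lit 5) (nat_lit 291) (nat_lit 5) (nat_lit 292) (nat_lit 5) (nat_lit 448) (nat_lit 374) (nat_lit 318)) (XT.lf (nat_lit 0) (nat_lit 1779322091) (nat_lit 608) (nat_lit 7169902725) (nat_lit 684) (nat_lit 314166052) (nat_lit 276)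 (nat_lit 5) (nat_lit 284) (nat_lit 5) (nat_lit 285) (nat_lit 5) (nat_lit 449) (nat_lit 374) (nat_lit 317)))) (XT.nd (nat_lit 156) (nat_lit 1140) (nat_lit 0) (XT.nd (nat_lit 78) (nat_lit 532) (nat_lit 0) (XT.lf (nat_lit 0) (nat_lit 2820615672) (nat_lit 684) (nat_lit 809377934) (nat_lit 76) (nat_lit 5721783655) (nat_lit 275) (nat_lit 5) (nat_lit 284) (nat_lit 5) (nat_lit 276) (nat_lit 5) (nat_lit 450) (nat_lit 374) (nat_lit 316)) (XT.lf (nat_lit 0) (nat_lit 6015315705) (nat_lit 608) (nat_lit 3417771513) (nat_lit 76) (nat_lit 8774043) (nat_lit 268) (nat_lit 5) (nat_lit 276) (nat_lit 5) (nat_lit 269) (nat_lit 5) (nat_lit 451) (nat_lit 374) (nat_lit 315))) (XT.nd (nat_lit 78) (nat_lit 608) (nat_lit 0) (XT.lf (nat_lit 0) (nat_lit 3440707237) (nat_lit 532) (nat_lit 5847620877) (nat_lit 608) (nat_lit 245130461) (nat_lit 261) (nat_lit 5) (nat_lit 268) (nat_lit 5) (nat_lit 269) (nat_lit 5) (nat_lit 452) (nat_lit 374) (nat_lit 314)) (XT.lf (nat_lit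 0) (nat_lit 794996138) (nat_lit 532) (nat_lit 2156546872) (nat_lit 608) (nat_lit 6675135785) (nat_lit 253) (nat_lit 5) (nat_lit 260) (nat_lit 5) (nat_lit 261) (nat_lit 5) (nat_lit 453) (nat_lit 374) (nat_lit 313)))))) (XT.nd (nat_lit 468) (nat_lit 2356) (nat_lit 0) (XT.nd (nat_lit 234) (nat_lit 1064) (nat_lit 0) (XT.nd (nat_lit 78) (nat_lit 1064) (nat_lit 0) (XT.lf (nat_lit 0) (nat_lit 6223494209) (nat_lit 608) (nat_lit 1882549983) (nat_lit 76) (nat_lit 1615394293) (nat_lit 253) (nat_lit 5) (nat_lit 261) (nat_lit 5) (nat_lit 254) (nat_lit 5) (nat_lit 454) (nat_lit 374) (nat_lit 312)) (XT.nd (nat_lit 78) (nat_lit 532) (nat_lit 0) (XT.lf (nat_lit 0) (nat_lit 5208262372) (nat_lit 532) (nat_lit 4364469010) (nat_lit 608) (nat_lit 245125046) (nat_lit 246) (nat_lit 5) (nat_lit 253) (nat_lit 5) (nat_lit 254) (nat_lit 5) (nat_lit 455) (nat_lit 374) (nat_lit 311)) (XT.lf (nat_lit 0) (nat_lit 2511898694) (nat_lit 456) (nat_lit 513469533) (nat_lit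 532) (nat_lit 6890577149) (nat_lit 239) (nat_lit 5) (nat_lit 245) (nat_lit 5) (nat_lit 246) (nat_lit 5) (nat_lit 456) (nat_lit 374) (nat_lit 310)))) (XT.nd (nat_lit 78) (nat_lit 1064) (nat_lit 0) (XT.lf (nat_lit 0) (nat_lit 6375467284) (nat_lit 532) (nat_lit 252816315) (nat_lit 76) (nat_lit 3387330536) (nat_lit 239) (nat_lit 5) (nat_lit 246) (nat_lit 5) (nat_lit 240) (nat_lit 5) (nat_lit 457) (nat_lit 374) (nat_lit 309)) (XT.nd (nat_lit 78) (nat_lit 532) (nat_lit 0) (XT.lf (nat_lit 0) (nat_lit 7080163753) (nat_lit 532) (nat_lit 2726644632) (nat_lit 608) (nat_lit 310183083) (nat_lit 232) (nat_lit 5) (nat_lit 239) (nat_lit 5) (nat_lit 240) (nat_lit 5) (nat_lit 458) (nat_lit 374) (nat_lit 308)) (XT.lf (nat_lit 0) (nat_lit 3049078707) (nat_lit 532) (nat_lit 5899735347) (nat_lit 76) (nat_lit 1271117975) (nat_lit 225) (nat_lit 5) (nat_lit 232) (nat_lit 5) (nat_lit 226) (nat_lit 5) (nat_lit 459) (nat_lit 374) (nat_lit 307))))) (XT.nd (nat_lit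 234) (nat_lit 1368) (nat_lit 0) (XT.nd (nat_lit 78) (nat_lit 532) (nat_lit 0) (XT.lf (nat_lit 0) (nat_lit 1489168635) (nat_lit 456) (nat_lit 4995704061) (nat_lit 532) (nat_lit 3839747691) (nat_lit 219) (nat_lit 5) (nat_lit 225) (nat_lit 5) (nat_lit 226) (nat_lit 5) (nat_lit 460) (nat_lit 374) (nat_lit 306)) (XT.nd (nat_lit 78) (nat_lit 532) (nat_lit 0) (XT.lf (nat_lit 0) (nat_lit 9055041046) (nat_lit 456) (nat_lit 939540215) (nat_lit 532) (nat_lit 436717278) (nat_lit 219) (nat_lit 5) (nat_lit 225) (nat_lit 5) (nat_lit 226) (nat_lit 5) (nat_lit 461) (nat_lit 374) (nat_lit 305)) (XT.lf (nat_lit 0) (nat_lit 3022232512) (nat_lit 532) (nat_lit 4316565067) (nat_lit 76) (nat_lit 3200365549) (nat_lit 212) (nat_lit 5) (nat_lit 219) (nat_lit 5) (nat_lit 213) (nat_lit 5) (nat_lit 462) (nat_lit 374) (nat_lit 304)))) (XT.nd (nat_lit 156) (nat_lit 532) (nat_lit 0) (XT.nd (nat_lit 78) (nat_lit 380) (nat_lit 0) (XT.lf (nat_lit 0) (nat_lit 3327072633)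 (nat_lit 456) (nat_lit 3220861755) (nat_lit 532) (nat_lit 4101124471) (nat_lit 206) (nat_lit 5) (nat_lit 212) (nat_lit 5) (nat_lit 213) (nat_lit 5) (nat_lit 463) (nat_lit 374) (nat_lit 303)) (XT.lf (nat_lit 0) (nat_lit 369112630) (nat_lit 380) (nat_lit 9779473033) (nat_lit 456) (nat_lit 612478136) (nat_lit 201) (nat_lit 5) (nat_lit 206) (nat_lit 5) (nat_lit 207) (nat_lit 5) (nat_lit 464) (nat_lit 374) (nat_lit 302))) (XT.nd (nat_lit 78) (nat_lit 456) (nat_lit 0) (XT.lf (nat_lit 0) (nat_lit 2944725918) (nat_lit 456) (nat_lit 2652633221) (nat_lit 76) (nat_lit 5276818732) (nat_lit 200) (nat_lit 5) (nat_lit 206) (nat_lit 5) (nat_lit 201) (nat_lit 5) (nat_lit 465) (nat_lit 374) (nat_lit 301)) (XT.lf (nat_lit 0) (nat_lit 5256542323) (nat_lit 456) (nat_lit 1309752918) (nat_lit 532) (nat_lit 4423149568) (nat_lit 194) (nat_lit 5) (nat_lit 200) (nat_lit 5) (nat_lit 201) (nat_lit 5) (nat_lit 466) (nat_lit 374) (nat_lit 300))))))) (XT.nd (nat_lit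 1014) (nat_lit 684) (nat_lit 0) (XT.nd (nat_lit 468) (nat_lit 1824) (nat_lit 0) (XT.nd (nat_lit 234) (nat_lit 836) (nat_lit 0) (XT.nd (nat_lit 78) (nat_lit 456) (nat_lit 0) (XT.lf (nat_lit 0) (nat_lit 2212179418) (nat_lit 380) (nat_lit 8067783720) (nat_lit 456) (nat_lit 826660604) (nat_lit 189) (nat_lit 5) (nat_lit 194) (nat_lit 5) (nat_lit 195) (nat_lit 5) (nat_lit 467) (nat_lit 374) (nat_lit 299)) (XT.nd (nat_lit 78) (nat_lit 380) (nat_lit 0) (XT.lf (nat_lit 0) (nat_lit 2819483771) (nat_lit 456) (nat_lit 909005934) (nat_lit 76) (nat_lit 7496987620) (nat_lit 188) (nat_lit 5) (nat_lit 194) (nat_lit 5) (nat_lit 189) (nat_lit 5) (nat_lit 468) (nat_lit 374) (nat_lit 298)) (XT.lf (nat_lit 0) (nat_lit 6547736587) (nat_lit 456) (nat_lit 4074090170) (nat_lit 76) (nat_lit 724366848) (nat_lit 183) (nat_lit 5) (nat_lit 189) (nat_lit 5) (nat_lit 184) (nat_lit 5) (nat_lit 469) (nat_lit 374) (nat_lit 297)))) (XT.nd (nat_lit 78) (nat_lit 456) (nat_lit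 0) (XT.lf (nat_lit 0) (nat_lit 4140187220) (nat_lit 380) (nat_lit 6236505379) (nat_lit 456) (nat_lit 1092108851) (nat_lit 178) (nat_lit 5) (nat_lit 183) (nat_lit 5) (nat_lit 184) (nat_lit 5) (nat_lit 470) (nat_lit 374) (nat_lit 296)) (XT.nd (nat_lit 78) (nat_lit 0) (nat_lit 0) (XT.lf (nat_lit 0) (nat_lit 925738276) (nat_lit 380) (nat_lit 1729419256) (nat_lit 456) (nat_lit 8938313831) (nat_lit 172) (nat_lit 5) (nat_lit 177) (nat_lit 5) (nat_lit 178) (nat_lit 5) (nat_lit 471) (nat_lit 374) (nat_lit 295)) (XT.lf (nat_lit 0) (nat_lit 6499584766) (nat_lit 456) (nat_lit 2350920097) (nat_lit 76) (nat_lit 2869248658) (nat_lit 172) (nat_lit 5) (nat_lit 178) (nat_lit 5) (nat_lit 173) (nat_lit 5) (nat_lit 472) (nat_lit 374) (nat_lit 294))))) (XT.nd (nat_lit 234) (nat_lit 1064) (nat_lit 0) (XT.nd (nat_lit 78) (nat_lit 456) (nat_lit 0) (XT.lf (nat_lit 0) (nat_lit 6152834106) (nat_lit 304) (nat_lit 4288782462) (nat_lit 380) (nat_lit 1406530434) (nat_lit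 168) (nat_lit 5) (nat_lit 172) (nat_lit 5) (nat_lit 173) (nat_lit 5) (nat_lit 473) (nat_lit 374) (nat_lit 293)) (XT.nd (nat_lit 78) (nat_lit 0) (nat_lit 0) (XT.lf (nat_lit 0) (nat_lit 2457192040) (nat_lit 456) (nat_lit 9129098677) (nat_lit 76) (nat_lit 392367532) (nat_lit 162) (nat_lit 5) (nat_lit 168) (nat_lit 5) (nat_lit 163) (nat_lit 5) (nat_lit 474) (nat_lit 374) (nat_lit 292)) (XT.lf (nat_lit 0) (nat_lit 6415816854) (nat_lit 456) (nat_lit 555347175) (nat_lit 76) (nat_lit 5139700523) (nat_lit 162) (nat_lit 5) (nat_lit 168) (nat_lit 5) (nat_lit 163) (nat_lit 5) (nat_lit 475) (nat_lit 374) (nat_lit 291)))) (XT.nd (nat_lit 156) (nat_lit 304) (nat_lit 0) (XT.nd (nat_lit 78) (nat_lit 456) (nat_lit 0) (XT.lf (nat_lit 0) (nat_lit 8250147831) (nat_lit 304) (nat_lit 2227197983) (nat_lit 380) (nat_lit 1767894533) (nat_lit 158) (nat_lit 5) (nat_lit 162) (nat_lit 5) (nat_lit 163) (nat_lit 5) (nat_lit 476) (nat_lit 374) (nat_lit 290)) (XT.lf (nat_lit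 0) (nat_lit 2231160754) (nat_lit 456) (nat_lit 7540870291) (nat_lit 76) (nat_lit 2609527863) (nat_lit 152) (nat_lit 5) (nat_lit 158) (nat_lit 5) (nat_lit 153) (nat_lit 5) (nat_lit 477) (nat_lit 374) (nat_lit 289))) (XT.nd (nat_lit 78) (nat_lit 0) (nat_lit 0) (XT.lf (nat_lit 0) (nat_lit 1329909951) (nat_lit 304) (nat_lit 4977409962) (nat_lit 380) (nat_lit 6212634315) (nat_lit 148) (nat_lit 5) (nat_lit 152) (nat_lit 5) (nat_lit 153) (nat_lit 5) (nat_lit 478) (nat_lit 374) (nat_lit 288)) (XT.lf (nat_lit 0) (nat_lit 10432471989) (nat_lit 304) (nat_lit 53804859) (nat_lit 380) (nat_lit 2174415113) (nat_lit 148) (nat_lit 5) (nat_lit 152) (nat_lit 5) (nat_lit 153) (nat_lit 5) (nat_lit 479) (nat_lit 374) (nat_lit 287)))))) (XT.nd (nat_lit 52572) (nat_lit 0) (nat_lit 46208) (XT.nd (nat_lit 52338) (nat_lit 0) (nat_lit 49020) (XT.nd (nat_lit 78) (nat_lit 304) (nat_lit 0) (XT.lf (nat_lit 0) (nat_lit 1967726457) (nat_lit 380) (nat_lit 5892201075) (nat_lit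 76) (nat_lit 4943091183) (nat_lit 143) (nat_lit 5) (nat_lit 148) (nat_lit 5) (nat_lit 144) (nat_lit 5) (nat_lit 480) (nat_lit 374) (nat_lit 286)) (XT.nd (nat_lit 78) (nat_lit 0) (nat_lit 0) (XT.lf (nat_lit 0) (nat_lit 3295875451) (nat_lit 304) (nat_lit 2875753725) (nat_lit 380) (nat_lit 6776114694) (nat_lit 139) (nat_lit 5) (nat_lit 143) (nat_lit 5) (nat_lit 144) (nat_lit 5) (nat_lit 481) (nat_lit 374) (nat_lit 285)) (XT.lf (nat_lit 0) (nat_lit 10485085706) (nat_lit 380) (nat_lit 409167501) (nat_lit 76) (nat_lit 2200600807) (nat_lit 139) (nat_lit 5) (nat_lit 144) (nat_lit 5) (nat_lit 140) (nat_lit 5) (nat_lit 482) (nat_lit 374) (nat_lit 284)))) (XT.nd (nat_lit 78) (nat_lit 532) (nat_lit 0) (XT.lf (nat_lit 0) (nat_lit 1200751573) (nat_lit 380) (nat_lit 1022009023) (nat_lit 380) (nat_lit 1022009023) (nat_lit 791) (nat_lit 4) (nat_lit 796) (nat_lit 5) (nat_lit 796) (nat_lit 4) (nat_lit 390) (nat_lit 375) (nat_lit 375)) (XT.nd (nat_lit 78)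 (nat_lit 456) (nat_lit 0) (XT.lf (nat_lit 0) (nat_lit 1185003500) (nat_lit 456) (nat_lit 355577853) (nat_lit 76) (nat_lit 4959182542) (nat_lit 790) (nat_lit 5) (nat_lit 796) (nat_lit 5) (nat_lit 791) (nat_lit 4) (nat_lit 391) (nat_lit 375) (nat_lit 374)) (XT.lf (nat_lit 0) (nat_lit 3433745726) (nat_lit 456) (nat_lit 961505771) (nat_lit 532) (nat_lit 2115791018) (nat_lit 784) (nat_lit 5) (nat_lit 790) (nat_lit 5) (nat_lit 791) (nat_lit 4) (nat_lit 392) (nat_lit 375) (nat_lit 373))))) (XT.nd (nat_lit 234) (nat_lit 1520) (nat_lit 0) (XT.nd (nat_lit 78) (nat_lit 684) (nat_lit 0) (XT.lf (nat_lit 0) (nat_lit 733342263) (nat_lit 532) (nat_lit 328336252) (nat_lit 608) (nat_lit 5462127912) (nat_lit 776) (nat_lit 5) (nat_lit 783) (nat_lit 5) (nat_lit 784) (nat_lit 5) (nat_lit 393) (nat_lit 375) (nat_lit 372)) (XT.nd (nat_lit 78) (nat_lit 684) (nat_lit 0) (XT.lf (nat_lit 0) (nat_lit 4221017307) (nat_lit 608) (nat_lit 1942076144) (nat_lit 76) (nat_lit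 374519454) (nat_lit 776) (nat_lit 5) (nat_lit 784) (nat_lit 5) (nat_lit 777) (nat_lit 4) (nat_lit 394) (nat_lit 375) (nat_lit 371)) (XT.lf (nat_lit 0) (nat_lit 819900952) (nat_lit 684) (nat_lit 4601876870) (nat_lit 76) (nat_lit 1131006872) (nat_lit 767) (nat_lit 5) (nat_lit 776) (nat_lit 5) (nat_lit 768) (nat_lit 5) (nat_lit 395) (nat_lit 375) (nat_lit 370)))) (XT.nd (nat_lit 156) (nat_lit 760) (nat_lit 0) (XT.nd (nat_lit 78) (nat_lit 760) (nat_lit 0) (XT.lf (nat_lit 0) (nat_lit 3927179029) (nat_lit 684) (nat_lit 686357710) (nat_lit 76) (nat_lit 1955635512) (nat_lit 767) (nat_lit 5) (nat_lit 776) (nat_lit 5) (nat_lit 768) (nat_lit 5) (nat_lit 396) (nat_lit 375) (nat_lit 369)) (XT.lf (nat_lit 0) (nat_lit 452484285) (nat_lit 760) (nat_lit 3289133599) (nat_lit 76) (nat_lit 2845234010) (nat_lit 757) (nat_lit 5) (nat_lit 767) (nat_lit 5) (nat_lit 758) (nat_lit 5) (nat_lit 397) (nat_lit 375) (nat_lit 368))) (XT.nd (nat_lit 78) (nat_lit 0) (nat_lit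 0) (XT.lf (nat_lit 0) (nat_lit 707098217) (nat_lit 760) (nat_lit 2803640621) (nat_lit 836) (nat_lit 3095051744) (nat_lit 747) (nat_lit 5) (nat_lit 757) (nat_lit 5) (nat_lit 758) (nat_lit 5) (nat_lit 398) (nat_lit 375) (nat_lit 367)) (XT.lf (nat_lit 0) (nat_lit 4777537943) (nat_lit 760) (nat_lit 1803780904) (nat_lit 836) (nat_lit 44765990) (nat_lit 747) (nat_lit 5) (nat_lit 757) (nat_lit 5) (nat_lit 758) (nat_lit 5) (nat_lit 399) (nat_lit 375) (nat_lit 366))))))))
noncomputable def xc43 : XT := (XT.nd (nat_lit 2028) (nat_lit 14516) (nat_lit 0) (XT.nd (nat_lit 1014) (nat_lit 11704) (nat_lit 0) (XT.nd (nat_lit 468) (nat_lit 6688) (nat_lit 0) (XT.nd (nat_lit 234) (nat_lit 2128) (nat_lit 0) (XT.nd (nat_lit 78) (nat_lit 988) (nat_lit 0) (XT.lf (nat_lit 0) (nat_lit 2241848305) (nat_lit 836) (nat_lit 729033269) (nat_lit 912) (nat_lit 3676613724) (nat_lit 735) (nat_lit 5) (nat_lit 746) (nat_lit 5) (nat_lit 747) (nat_lit 5) (nat_lit 400) (nat_lit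 375) (nat_lit 365)) (XT.nd (nat_lit 78) (nat_lit 988) (nat_lit 0) (XT.lf (nat_lit 0) (nat_lit 5992304421) (nat_lit 912) (nat_lit 284156793) (nat_lit 76) (nat_lit 393945599) (nat_lit 735) (nat_lit 5) (nat_lit 747) (nat_lit 5) (nat_lit 736) (nat_lit 5) (nat_lit 401) (nat_lit 375) (nat_lit 364)) (XT.lf (nat_lit 0) (nat_lit 2311705562) (nat_lit 988) (nat_lit 2793845526) (nat_lit 76) (nat_lit 1588665460) (nat_lit 722) (nat_lit 5) (nat_lit 735) (nat_lit 5) (nat_lit 723) (nat_lit 5) (nat_lit 402) (nat_lit 375) (nat_lit 363)))) (XT.nd (nat_lit 78) (nat_lit 1140) (nat_lit 0) (XT.lf (nat_lit 0) (nat_lit 1417092541) (nat_lit 988) (nat_lit 3879362836) (nat_lit 1064) (nat_lit 1423072947) (nat_lit 709) (nat_lit 5) (nat_lit 722) (nat_lit 5) (nat_lit 723) (nat_lit 5) (nat_lit 403) (nat_lit 375) (nat_lit 362)) (XT.nd (nat_lit 78) (nat_lit 1064) (nat_lit 0) (XT.lf (nat_lit 0) (nat_lit 1527143581) (nat_lit 1064) (nat_lit 1056847165) (nat_lit 76) (nat_lit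 4162098087) (nat_lit 708) (nat_lit 5) (nat_lit 722) (nat_lit 5) (nat_lit 709) (nat_lit 5) (nat_lit 404) (nat_lit 375) (nat_lit 361)) (XT.lf (nat_lit 0) (nat_lit 3256434764) (nat_lit 1064) (nat_lit 1216979957) (nat_lit 1140) (nat_lit 2300455598) (nat_lit 694) (nat_lit 5) (nat_lit 708) (nat_lit 5) (nat_lit 709) (nat_lit 5) (nat_lit 405) (nat_lit 375) (nat_lit 360))))) (XT.nd (nat_lit 234) (nat_lit 4256) (nat_lit 0) (XT.nd (nat_lit 78) (nat_lit 1216) (nat_lit 0) (XT.lf (nat_lit 0) (nat_lit 616839713) (nat_lit 1216) (nat_lit 5980934397) (nat_lit 76) (nat_lit 205359349) (nat_lit 678) (nat_lit 5) (nat_lit 694) (nat_lit 5) (nat_lit 679) (nat_lit 5) (nat_lit 406) (nat_lit 375) (nat_lit 359)) (XT.nd (nat_lit 78) (nat_lit 1216) (nat_lit 0) (XT.lf (nat_lit 0) (nat_lit 3530015987) (nat_lit 1216) (nat_lit 1611702356) (nat_lit 76) (nat_lit 1691592637) (nat_lit 678) (nat_lit 5) (nat_lit 694) (nat_lit 5) (nat_lit 679) (nat_lit 5) (nat_lit 407) (nat_lit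 375) (nat_lit 358)) (XT.lf (nat_lit 0) (nat_lit 2831016046) (nat_lit 1216) (nat_lit 3626555604) (nat_lit 1292) (nat_lit 407398082) (nat_lit 662) (nat_lit 5) (nat_lit 678) (nat_lit 5) (nat_lit 679) (nat_lit 5) (nat_lit 408) (nat_lit 375) (nat_lit 357)))) (XT.nd (nat_lit 156) (nat_lit 2888) (nat_lit 0) (XT.nd (nat_lit 78) (nat_lit 0) (nat_lit 0) (XT.lf (nat_lit 0) (nat_lit 424844902) (nat_lit 1292) (nat_lit 2040040863) (nat_lit 1368) (nat_lit 4433007921) (nat_lit 644) (nat_lit 5) (nat_lit 661) (nat_lit 5) (nat_lit 662) (nat_lit 5) (nat_lit 409) (nat_lit 375) (nat_lit 356)) (XT.lf (nat_lit 0) (nat_lit 4973592937) (nat_lit 1292) (nat_lit 381724048) (nat_lit 1368) (nat_lit 1576782141) (nat_lit 644) (nat_lit 5) (nat_lit 661) (nat_lit 5) (nat_lit 662) (nat_lit 5) (nat_lit 410) (nat_lit 375) (nat_lit 355))) (XT.nd (nat_lit 78) (nat_lit 1444) (nat_lit 0) (XT.lf (nat_lit 0) (nat_lit 1284687917) (nat_lit 1444) (nat_lit 4355354387) (nat_lit 76) (nat_lit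 1327459830) (nat_lit 625) (nat_lit 5) (nat_lit 644) (nat_lit 5) (nat_lit 626) (nat_lit 5) (nat_lit 411) (nat_lit 375) (nat_lit 354)) (XT.lf (nat_lit 0) (nat_lit 235569784) (nat_lit 1444) (nat_lit 3904815156) (nat_lit 1520) (nat_lit 2863857599) (nat_lit 606) (nat_lit 5) (nat_lit 625) (nat_lit 5) (nat_lit 626) (nat_lit 5) (nat_lit 412) (nat_lit 375) (nat_lit 353)))))) (XT.nd (nat_lit 468) (nat_lit 5016) (nat_lit 0) (XT.nd (nat_lit 234) (nat_lit 3496) (nat_lit 0) (XT.nd (nat_lit 78) (nat_lit 3192) (nat_lit 0) (XT.lf (nat_lit 0) (nat_lit 4925816739) (nat_lit 1444) (nat_lit 2098235851) (nat_lit 1520) (nat_lit 18248028) (nat_lit 606) (nat_lit 5) (nat_lit 625) (nat_lit 5) (nat_lit 626) (nat_lit 5) (nat_lit 413) (nat_lit 375) (nat_lit 352)) (XT.nd (nat_lit 78) (nat_lit 1596) (nat_lit 0) (XT.lf (nat_lit 0) (nat_lit 2592737631) (nat_lit 1520) (nat_lit 212937604) (nat_lit 1596) (nat_lit 4275885506) (nat_lit 585) (nat_lit 5) (nat_lit 605) (nat_lit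 5) (nat_lit 606) (nat_lit 5) (nat_lit 414) (nat_lit 375) (nat_lit 351)) (XT.lf (nat_lit 0) (nat_lit 243258191) (nat_lit 1596) (nat_lit 5412785920) (nat_lit 1672) (nat_lit 1466155313) (nat_lit 564) (nat_lit 5) (nat_lit 585) (nat_lit 5) (nat_lit 586) (nat_lit 5) (nat_lit 415) (nat_lit 375) (nat_lit 350)))) (XT.nd (nat_lit 78) (nat_lit 3420) (nat_lit 0) (XT.lf (nat_lit 0) (nat_lit 1356781575) (nat_lit 1672) (nat_lit 2095449569) (nat_lit 76) (nat_lit 3711730565) (nat_lit 563) (nat_lit 5) (nat_lit 585) (nat_lit 5) (nat_lit 564) (nat_lit 5) (nat_lit 416) (nat_lit 375) (nat_lit 349)) (XT.nd (nat_lit 78) (nat_lit 1748) (nat_lit 0) (XT.lf (nat_lit 0) (nat_lit 2758681389) (nat_lit 1672) (nat_lit 1420536953) (nat_lit 1748) (nat_lit 3027893615) (nat_lit 541) (nat_lit 5) (nat_lit 563) (nat_lit 5) (nat_lit 564) (nat_lit 5) (nat_lit 417) (nat_lit 375) (nat_lit 348)) (XT.lf (nat_lit 0) (nat_lit 436581739) (nat_lit 1748) (nat_lit 6588259638) (nat_lit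 1824) (nat_lit 226949081) (nat_lit 518) (nat_lit 5) (nat_lit 541) (nat_lit 5) (nat_lit 542) (nat_lit 5) (nat_lit 418) (nat_lit 375) (nat_lit 347))))) (XT.nd (nat_lit 234) (nat_lit 1900) (nat_lit 0) (XT.nd (nat_lit 78) (nat_lit 3040) (nat_lit 0) (XT.lf (nat_lit 0) (nat_lit 2580869326) (nat_lit 1824) (nat_lit 1896502229) (nat_lit 76) (nat_lit 2819942496) (nat_lit 517) (nat_lit 5) (nat_lit 541) (nat_lit 5) (nat_lit 518) (nat_lit 5) (nat_lit 419) (nat_lit 375) (nat_lit 346)) (XT.nd (nat_lit 78) (nat_lit 1216) (nat_lit 0) (XT.lf (nat_lit 0) (nat_lit 3108223019) (nat_lit 1824) (nat_lit 2300718233) (nat_lit 1900) (nat_lit 1935434141) (nat_lit 493) (nat_lit 5) (nat_lit 517) (nat_lit 5) (nat_lit 518) (nat_lit 5) (nat_lit 420) (nat_lit 375) (nat_lit 345)) (XT.lf (nat_lit 0) (nat_lit 799195173) (nat_lit 1140) (nat_lit 55494946) (nat_lit 1216) (nat_lit 6538264563) (nat_lit 477) (nat_lit 5) (nat_lit 492) (nat_lit 5) (nat_lit 493) (nat_lit 5) (nat_lit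 421) (nat_lit 375) (nat_lit 344)))) (XT.nd (nat_lit 156) (nat_lit 988) (nat_lit 0) (XT.nd (nat_lit 78) (nat_lit 912) (nat_lit 0) (XT.lf (nat_lit 0) (nat_lit 3665862636) (nat_lit 1216) (nat_lit 1529457619) (nat_lit 76) (nat_lit 2247106213) (nat_lit 477) (nat_lit 5) (nat_lit 493) (nat_lit 5) (nat_lit 478) (nat_lit 5) (nat_lit 422) (nat_lit 375) (nat_lit 343)) (XT.lf (nat_lit 0) (nat_lit 3631748722) (nat_lit 912) (nat_lit 2874489688) (nat_lit 988) (nat_lit 987189684) (nat_lit 465) (nat_lit 5) (nat_lit 477) (nat_lit 5) (nat_lit 478) (nat_lit 5) (nat_lit 423) (nat_lit 375) (nat_lit 342))) (XT.nd (nat_lit 78) (nat_lit 0) (nat_lit 0) (XT.lf (nat_lit 0) (nat_lit 1324934262) (nat_lit 912) (nat_lit 476969537) (nat_lit 988) (nat_lit 5743938699) (nat_lit 452) (nat_lit 5) (nat_lit 464) (nat_lit 5) (nat_lit 465) (nat_lit 5) (nat_lit 424) (nat_lit 375) (nat_lit 341)) (XT.lf (nat_lit 0) (nat_lit 4622451871) (nat_lit 988) (nat_lit 1003275809) (nat_lit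 76) (nat_lit 1973669180) (nat_lit 452) (nat_lit 5) (nat_lit 465) (nat_lit 5) (nat_lit 453) (nat_lit 5) (nat_lit 425) (nat_lit 375) (nat_lit 340))))))) (XT.nd (nat_lit 1014) (nat_lit 6308) (nat_lit 0) (XT.nd (nat_lit 468) (nat_lit 3876) (nat_lit 0) (XT.nd (nat_lit 234) (nat_lit 2508) (nat_lit 0) (XT.nd (nat_lit 78) (nat_lit 988) (nat_lit 0) (XT.lf (nat_lit 0) (nat_lit 4320623101) (nat_lit 836) (nat_lit 3160991538) (nat_lit 912) (nat_lit 172763596) (nat_lit 441) (nat_lit 5) (nat_lit 452) (nat_lit 5) (nat_lit 453) (nat_lit 5) (nat_lit 426) (nat_lit 375) (nat_lit 339)) (XT.nd (nat_lit 78) (nat_lit 0) (nat_lit 0) (XT.lf (nat_lit 0) (nat_lit 2011258521) (nat_lit 912) (nat_lit 612131768) (nat_lit 988) (nat_lit 5087297249) (nat_lit 428) (nat_lit 5) (nat_lit 440) (nat_lit 5) (nat_lit 441) (nat_lit 5) (nat_lit 427) (nat_lit 375) (nat_lit 338)) (XT.lf (nat_lit 0) (nat_lit 5460478969) (nat_lit 988) (nat_lit 326009486) (nat_lit 76) (nat_lit 1981865234)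 (nat_lit 428) (nat_lit 5) (nat_lit 441) (nat_lit 5) (nat_lit 429) (nat_lit 5) (nat_lit 428) (nat_lit 375) (nat_lit 337)))) (XT.nd (nat_lit 78) (nat_lit 1596) (nat_lit 0) (XT.lf (nat_lit 0) (nat_lit 510602856) (nat_lit 912) (nat_lit 2663600285) (nat_lit 76) (nat_lit 4653093967) (nat_lit 416) (nat_lit 5) (nat_lit 428) (nat_lit 5) (nat_lit 417) (nat_lit 5) (nat_lit 429) (nat_lit 375) (nat_lit 336)) (XT.nd (nat_lit 78) (nat_lit 760) (nat_lit 0) (XT.lf (nat_lit 0) (nat_lit 2850574712) (nat_lit 836) (nat_lit 477837175) (nat_lit 912) (nat_lit 4559225122) (nat_lit 405) (nat_lit 5) (nat_lit 416) (nat_lit 5) (nat_lit 417) (nat_lit 5) (nat_lit 430) (nat_lit 375) (nat_lit 335)) (XT.lf (nat_lit 0) (nat_lit 501714744) (nat_lit 760) (nat_lit 5690544134) (nat_lit 836) (nat_lit 1757131195) (nat_lit 395) (nat_lit 5) (nat_lit 405) (nat_lit 5) (nat_lit 406) (nat_lit 5) (nat_lit 431) (nat_lit 375) (nat_lit 334))))) (XT.nd (nat_lit 234) (nat_lit 2280) (nat_lit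 0) (XT.nd (nat_lit 78) (nat_lit 1520) (nat_lit 0) (XT.lf (nat_lit 0) (nat_lit 1077699825) (nat_lit 836) (nat_lit 1855266309) (nat_lit 76) (nat_lit 5079446392) (nat_lit 394) (nat_lit 5) (nat_lit 405) (nat_lit 5) (nat_lit 395) (nat_lit 5) (nat_lit 432) (nat_lit 375) (nat_lit 333)) (XT.nd (nat_lit 78) (nat_lit 760) (nat_lit 0) (XT.lf (nat_lit 0) (nat_lit 3836123173) (nat_lit 760) (nat_lit 89353403) (nat_lit 836) (nat_lit 4151391019) (nat_lit 384) (nat_lit 5) (nat_lit 394) (nat_lit 5) (nat_lit 395) (nat_lit 5) (nat_lit 433) (nat_lit 375) (nat_lit 332)) (XT.lf (nat_lit 0) (nat_lit 1473059025) (nat_lit 760) (nat_lit 5352856348) (nat_lit 836) (nat_lit 1316782261) (nat_lit 374) (nat_lit 5) (nat_lit 384) (nat_lit 5) (nat_lit 385) (nat_lit 5) (nat_lit 434) (nat_lit 375) (nat_lit 331)))) (XT.nd (nat_lit 156) (nat_lit 1444) (nat_lit 0) (XT.nd (nat_lit 78) (nat_lit 760) (nat_lit 0) (XT.lf (nat_lit 0) (nat_lit 1538712373) (nat_lit 836) (nat_lit 913955248)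 (nat_lit 76) (nat_lit 5757275320) (nat_lit 373) (nat_lit 5) (nat_lit 384) (nat_lit 5) (nat_lit 374) (nat_lit 5) (nat_lit 435) (nat_lit 375) (nat_lit 330)) (XT.lf (nat_lit 0) (nat_lit 4425897182) (nat_lit 836) (nat_lit 3320164554) (nat_lit 76) (nat_lit 532453100) (nat_lit 363) (nat_lit 5) (nat_lit 374) (nat_lit 5) (nat_lit 364) (nat_lit 5) (nat_lit 436) (nat_lit 375) (nat_lit 329))) (XT.nd (nat_lit 78) (nat_lit 760) (nat_lit 0) (XT.lf (nat_lit 0) (nat_lit 2577936253) (nat_lit 684) (nat_lit 4788991268) (nat_lit 760) (nat_lit 981608612) (nat_lit 354) (nat_lit 5) (nat_lit 363) (nat_lit 5) (nat_lit 364) (nat_lit 5) (nat_lit 437) (nat_lit 375) (nat_lit 328)) (XT.lf (nat_lit 0) (nat_lit 156786823) (nat_lit 684) (nat_lit 1745122716) (nat_lit 760) (nat_lit 6518183079) (nat_lit 344) (nat_lit 5) (nat_lit 353) (nat_lit 5) (nat_lit 354) (nat_lit 5) (nat_lit 438) (nat_lit 375) (nat_lit 327)))))) (XT.nd (nat_lit 546) (nat_lit 2964) (nat_lit 0) (XT.nd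 (nat_lit 234) (nat_lit 1900) (nat_lit 0) (XT.nd (nat_lit 78) (nat_lit 1444) (nat_lit 0) (XT.lf (nat_lit 0) (nat_lit 4835394636) (nat_lit 760) (nat_lit 2279365610) (nat_lit 76) (nat_lit 1378081412) (nat_lit 344) (nat_lit 5) (nat_lit 354) (nat_lit 5) (nat_lit 345) (nat_lit 5) (nat_lit 439) (nat_lit 375) (nat_lit 326)) (XT.nd (nat_lit 78) (nat_lit 760) (nat_lit 0) (XT.lf (nat_lit 0) (nat_lit 3811291488) (nat_lit 684) (nat_lit 4011011705) (nat_lit 760) (nat_lit 744847411) (nat_lit 335) (nat_lit 5) (nat_lit 344) (nat_lit 5) (nat_lit 345) (nat_lit 5) (nat_lit 440) (nat_lit 375) (nat_lit 325)) (XT.lf (nat_lit 0) (nat_lit 1363749323) (nat_lit 684) (nat_lit 815974309) (nat_lit 760) (nat_lit 6463274763) (nat_lit 325) (nat_lit 5) (nat_lit 334) (nat_lit 5) (nat_lit 335) (nat_lit 5) (nat_lit 441) (nat_lit 375) (nat_lit 324)))) (XT.nd (nat_lit 156) (nat_lit 1292) (nat_lit 0) (XT.nd (nat_lit 78) (nat_lit 608) (nat_lit 0) (XT.lf (nat_lit 0) (nat_lit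 5159881577) (nat_lit 760) (nat_lit 1122525450) (nat_lit 76) (nat_lit 2437716268) (nat_lit 325) (nat_lit 5) (nat_lit 335) (nat_lit 5) (nat_lit 326) (nat_lit 5) (nat_lit 442) (nat_lit 375) (nat_lit 323)) (XT.lf (nat_lit 0) (nat_lit 5168725459) (nat_lit 608) (nat_lit 3029754967) (nat_lit 684) (nat_lit 600333512) (nat_lit 317) (nat_lit 5) (nat_lit 325) (nat_lit 5) (nat_lit 326) (nat_lit 5) (nat_lit 443) (nat_lit 375) (nat_lit 322))) (XT.nd (nat_lit 78) (nat_lit 608) (nat_lit 0) (XT.lf (nat_lit 0) (nat_lit 2374237609) (nat_lit 684) (nat_lit 6190694440) (nat_lit 76) (nat_lit 314088511) (nat_lit 308) (nat_lit 5) (nat_lit 317) (nat_lit 5) (nat_lit 309) (nat_lit 5) (nat_lit 444) (nat_lit 375) (nat_lit 321)) (XT.lf (nat_lit 0) (nat_lit 148146776) (nat_lit 608) (nat_lit 5258119275) (nat_lit 684) (nat_lit 3554365813) (nat_lit 300) (nat_lit 5) (nat_lit 308) (nat_lit 5) (nat_lit 309) (nat_lit 5) (nat_lit 445) (nat_lit 375) (nat_lit 320))))) (XT.nd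 (nat_lit 234) (nat_lit 1748) (nat_lit 0) (XT.nd (nat_lit 78) (nat_lit 1216) (nat_lit 0) (XT.lf (nat_lit 0) (nat_lit 6646454312) (nat_lit 608) (nat_lit 1854915725) (nat_lit 684) (nat_lit 542456656) (nat_lit 300) (nat_lit 5) (nat_lit 308) (nat_lit 5) (nat_lit 309) (nat_lit 5) (nat_lit 446) (nat_lit 375) (nat_lit 319)) (XT.nd (nat_lit 78) (nat_lit 532) (nat_lit 0) (XT.lf (nat_lit 0) (nat_lit 2495455241) (nat_lit 684) (nat_lit 5006205324) (nat_lit 76) (nat_lit 1626717527) (nat_lit 291) (nat_lit 5) (nat_lit 300) (nat_lit 5) (nat_lit 292) (nat_lit 5) (nat_lit 447) (nat_lit 375) (nat_lit 318)) (XT.lf (nat_lit 0) (nat_lit 1543481395) (nat_lit 532) (nat_lit 4043642103) (nat_lit 608) (nat_lit 3627420077) (nat_lit 284) (nat_lit 5) (nat_lit 291) (nat_lit 5) (nat_lit 292) (nat_lit 5) (nat_lit 448) (nat_lit 375) (nat_lit 317)))) (XT.nd (nat_lit 156) (nat_lit 1064) (nat_lit 0) (XT.nd (nat_lit 78) (nat_lit 684) (nat_lit 0) (XT.lf (nat_lit 0) (nat_lit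 8241272841) (nat_lit 532) (nat_lit 495122094) (nat_lit 608) (nat_lit 566122037) (nat_lit 284) (nat_lit 5) (nat_lit 291) (nat_lit 5) (nat_lit 292) (nat_lit 5) (nat_lit 449) (nat_lit 375) (nat_lit 316)) (XT.lf (nat_lit 0) (nat_lit 2543035690) (nat_lit 684) (nat_lit 3723953798) (nat_lit 76) (nat_lit 3124525162) (nat_lit 275) (nat_lit 5) (nat_lit 284) (nat_lit 5) (nat_lit 276) (nat_lit 5) (nat_lit 450) (nat_lit 375) (nat_lit 315))) (XT.nd (nat_lit 78) (nat_lit 532) (nat_lit 0) (XT.lf (nat_lit 0) (nat_lit 3045470304) (nat_lit 532) (nat_lit 2654548848) (nat_lit 608) (nat_lit 3782333830) (nat_lit 268) (nat_lit 5) (nat_lit 275) (nat_lit 5) (nat_lit 276) (nat_lit 5) (nat_lit 451) (nat_lit 375) (nat_lit 314)) (XT.lf (nat_lit 0) (nat_lit 373412595) (nat_lit 532) (nat_lit 8544303562) (nat_lit 608) (nat_lit 657340447) (nat_lit 261) (nat_lit 5) (nat_lit 268) (nat_lit 5) (nat_lit 269) (nat_lit 5) (nat_lit 452) (nat_lit 375) (nat_lit 313))))))))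
noncomputable def xc44 : XT := (XT.nd (nat_lit 2028) (nat_lit 988) (nat_lit 0) (XT.nd (nat_lit 1014) (nat_lit 3648) (nat_lit 0) (XT.nd (nat_lit 468) (nat_lit 2432) (nat_lit 0) (XT.nd (nat_lit 234) (nat_lit 1064) (nat_lit 0) (XT.nd (nat_lit 78) (nat_lit 1064) (nat_lit 0) (XT.lf (nat_lit 0) (nat_lit 2521486879) (nat_lit 608) (nat_lit 2346911844) (nat_lit 76) (nat_lit 4800396675) (nat_lit 260) (nat_lit 5) (nat_lit 268) (nat_lit 5) (nat_lit 261) (nat_lit 5) (nat_lit 453) (nat_lit 375) (nat_lit 312)) (XT.nd (nat_lit 78) (nat_lit 532) (nat_lit 0) (XT.lf (nat_lit 0) (nat_lit 4651532523) (nat_lit 532) (nat_lit 1097938799) (nat_lit 608) (nat_lit 4014963101) (nat_lit 253) (nat_lit 5) (nat_lit 260) (nat_lit 5) (nat_lit 261) (nat_lit 5) (nat_lit 454) (nat_lit 375) (nat_lit 311)) (XT.lf (nat_lit 0) (nat_lit 1916961081) (nat_lit 532) (nat_lit 7135655735) (nat_lit 608) (nat_lit 809157384) (nat_lit 246) (nat_lit 5) (nat_lit 253) (nat_lit 5) (nat_lit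 254) (nat_lit 5) (nat_lit 455) (nat_lit 375) (nat_lit 310)))) (XT.nd (nat_lit 78) (nat_lit 988) (nat_lit 0) (XT.lf (nat_lit 0) (nat_lit 2434899543) (nat_lit 608) (nat_lit 877583213) (nat_lit 76) (nat_lit 6648130308) (nat_lit 245) (nat_lit 5) (nat_lit 253) (nat_lit 5) (nat_lit 246) (nat_lit 5) (nat_lit 456) (nat_lit 375) (nat_lit 309)) (XT.nd (nat_lit 78) (nat_lit 532) (nat_lit 0) (XT.lf (nat_lit 0) (nat_lit 5743622891) (nat_lit 532) (nat_lit 3705647599) (nat_lit 76) (nat_lit 611838848) (nat_lit 239) (nat_lit 5) (nat_lit 246) (nat_lit 5) (nat_lit 240) (nat_lit 5) (nat_lit 457) (nat_lit 375) (nat_lit 308)) (XT.lf (nat_lit 0) (nat_lit 3556496504) (nat_lit 532) (nat_lit 5578539650) (nat_lit 608) (nat_lit 1028249073) (nat_lit 232) (nat_lit 5) (nat_lit 239) (nat_lit 5) (nat_lit 240) (nat_lit 5) (nat_lit 458) (nat_lit 375) (nat_lit 307))))) (XT.nd (nat_lit 234) (nat_lit 1444) (nat_lit 0) (XT.nd (nat_lit 78) (nat_lit 456) (nat_lit 0) (XT.lf (nat_lit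 0) (nat_lit 691032512) (nat_lit 456) (nat_lit 1600430723) (nat_lit 532) (nat_lit 7975835136) (nat_lit 225) (nat_lit 5) (nat_lit 231) (nat_lit 5) (nat_lit 232) (nat_lit 5) (nat_lit 459) (nat_lit 375) (nat_lit 306)) (XT.nd (nat_lit 78) (nat_lit 456) (nat_lit 0) (XT.lf (nat_lit 0) (nat_lit 5690335159) (nat_lit 532) (nat_lit 2221311485) (nat_lit 76) (nat_lit 2461078528) (nat_lit 225) (nat_lit 5) (nat_lit 232) (nat_lit 5) (nat_lit 226) (nat_lit 5) (nat_lit 460) (nat_lit 375) (nat_lit 305)) (XT.lf (nat_lit 0) (nat_lit 5290394138) (nat_lit 456) (nat_lit 3878343967) (nat_lit 532) (nat_lit 1311291330) (nat_lit 219) (nat_lit 5) (nat_lit 225) (nat_lit 5) (nat_lit 226) (nat_lit 5) (nat_lit 461) (nat_lit 375) (nat_lit 304)))) (XT.nd (nat_lit 156) (nat_lit 912) (nat_lit 0) (XT.nd (nat_lit 78) (nat_lit 0) (nat_lit 0) (XT.lf (nat_lit 0) (nat_lit 2098108197) (nat_lit 532) (nat_lit 8229914838) (nat_lit 76) (nat_lit 261204965) (nat_lit 212) (nat_lit 5)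 (nat_lit 219) (nat_lit 5) (nat_lit 213) (nat_lit 5) (nat_lit 462) (nat_lit 375) (nat_lit 303)) (XT.lf (nat_lit 0) (nat_lit 5585850043) (nat_lit 532) (nat_lit 654409008) (nat_lit 76) (nat_lit 4459623881) (nat_lit 212) (nat_lit 5) (nat_lit 219) (nat_lit 5) (nat_lit 213) (nat_lit 5) (nat_lit 463) (nat_lit 375) (nat_lit 302))) (XT.nd (nat_lit 78) (nat_lit 456) (nat_lit 0) (XT.lf (nat_lit 0) (nat_lit 7117440345) (nat_lit 456) (nat_lit 2039721341) (nat_lit 532) (nat_lit 1655312979) (nat_lit 206) (nat_lit 5) (nat_lit 212) (nat_lit 5) (nat_lit 213) (nat_lit 5) (nat_lit 464) (nat_lit 375) (nat_lit 301)) (XT.lf (nat_lit 0) (nat_lit 1861659167) (nat_lit 456) (nat_lit 6822267257) (nat_lit 76) (nat_lit 2242875906) (nat_lit 200) (nat_lit 5) (nat_lit 206) (nat_lit 5) (nat_lit 201) (nat_lit 5) (nat_lit 465) (nat_lit 375) (nat_lit 300)))))) (XT.nd (nat_lit 468) (nat_lit 1900) (nat_lit 0) (XT.nd (nat_lit 234) (nat_lit 836) (nat_lit 0) (XT.nd (nat_lit 78)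 (nat_lit 456) (nat_lit 0) (XT.lf (nat_lit 0) (nat_lit 1006998324) (nat_lit 456) (nat_lit 4432761636) (nat_lit 532) (nat_lit 5603178679) (nat_lit 194) (nat_lit 5) (nat_lit 200) (nat_lit 5) (nat_lit 201) (nat_lit 5) (nat_lit 466) (nat_lit 375) (nat_lit 299)) (XT.nd (nat_lit 78) (nat_lit 456) (nat_lit 0) (XT.lf (nat_lit 0) (nat_lit 9036811749) (nat_lit 456) (nat_lit 66633013) (nat_lit 532) (nat_lit 2057672471) (nat_lit 194) (nat_lit 5) (nat_lit 200) (nat_lit 5) (nat_lit 201) (nat_lit 5) (nat_lit 467) (nat_lit 375) (nat_lit 298)) (XT.lf (nat_lit 0) (nat_lit 1574389111) (nat_lit 456) (nat_lit 5344304259) (nat_lit 76) (nat_lit 4362041852) (nat_lit 188) (nat_lit 5) (nat_lit 194) (nat_lit 5) (nat_lit 189) (nat_lit 5) (nat_lit 468) (nat_lit 375) (nat_lit 297)))) (XT.nd (nat_lit 78) (nat_lit 456) (nat_lit 0) (XT.lf (nat_lit 0) (nat_lit 2758556020) (nat_lit 380) (nat_lit 2494565340) (nat_lit 456) (nat_lit 6149320553) (nat_lit 183) (nat_lit 5) (nat_lit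 188) (nat_lit 5) (nat_lit 189) (nat_lit 5) (nat_lit 469) (nat_lit 375) (nat_lit 296)) (XT.nd (nat_lit 78) (nat_lit 456) (nat_lit 0) (XT.lf (nat_lit 0) (nat_lit 9023675468) (nat_lit 456) (nat_lit 491655467) (nat_lit 76) (nat_lit 2010886860) (nat_lit 183) (nat_lit 5) (nat_lit 189) (nat_lit 5) (nat_lit 184) (nat_lit 5) (nat_lit 470) (nat_lit 375) (nat_lit 295)) (XT.lf (nat_lit 0) (nat_lit 1238676475) (nat_lit 456) (nat_lit 3797071187) (nat_lit 76) (nat_lit 6615814110) (nat_lit 177) (nat_lit 5) (nat_lit 183) (nat_lit 5) (nat_lit 178) (nat_lit 5) (nat_lit 471) (nat_lit 375) (nat_lit 294))))) (XT.nd (nat_lit 234) (nat_lit 1140) (nat_lit 0) (XT.nd (nat_lit 78) (nat_lit 380) (nat_lit 0) (XT.lf (nat_lit 0) (nat_lit 4590985315) (nat_lit 380) (nat_lit 433126721) (nat_lit 456) (nat_lit 6754911727) (nat_lit 172) (nat_lit 5) (nat_lit 177) (nat_lit 5) (nat_lit 178) (nat_lit 5) (nat_lit 472) (nat_lit 375) (nat_lit 293)) (XT.nd (nat_lit 78) (nat_lit 76)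 (nat_lit 0) (XT.lf (nat_lit 0) (nat_lit 1230362970) (nat_lit 304) (nat_lit 7686115858) (nat_lit 380) (nat_lit 2991931716) (nat_lit 168) (nat_lit 5) (nat_lit 172) (nat_lit 5) (nat_lit 173) (nat_lit 5) (nat_lit 473) (nat_lit 375) (nat_lit 292)) (XT.lf (nat_lit 0) (nat_lit 856633032) (nat_lit 380) (nat_lit 2181303548) (nat_lit 76) (nat_lit 9001910091) (nat_lit 167) (nat_lit 5) (nat_lit 172) (nat_lit 5) (nat_lit 168) (nat_lit 5) (nat_lit 474) (nat_lit 375) (nat_lit 291)))) (XT.nd (nat_lit 156) (nat_lit 456) (nat_lit 0) (XT.nd (nat_lit 78) (nat_lit 304) (nat_lit 0) (XT.lf (nat_lit 0) (nat_lit 4766318629) (nat_lit 456) (nat_lit 5680584326) (nat_lit 76) (nat_lit 1726128804) (nat_lit 162) (nat_lit 5) (nat_lit 168) (nat_lit 5) (nat_lit 163) (nat_lit 5) (nat_lit 475) (nat_lit 375) (nat_lit 290)) (XT.lf (nat_lit 0) (nat_lit 3033225537) (nat_lit 304) (nat_lit 5746270726) (nat_lit 380) (nat_lit 3528878318) (nat_lit 158) (nat_lit 5) (nat_lit 162) (nat_lit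 5) (nat_lit 163) (nat_lit 5) (nat_lit 476) (nat_lit 375) (nat_lit 289))) (XT.nd (nat_lit 78) (nat_lit 380) (nat_lit 0) (XT.lf (nat_lit 0) (nat_lit 430121235) (nat_lit 380) (nat_lit 497442418) (nat_lit 76) (nat_lit 11518621186) (nat_lit 157) (nat_lit 5) (nat_lit 162) (nat_lit 5) (nat_lit 158) (nat_lit 5) (nat_lit 477) (nat_lit 375) (nat_lit 288)) (XT.lf (nat_lit 0) (nat_lit 4473963748) (nat_lit 456) (nat_lit 4114299757) (nat_lit 76) (nat_lit 3996962987) (nat_lit 152) (nat_lit 5) (nat_lit 158) (nat_lit 5) (nat_lit 153) (nat_lit 5) (nat_lit 478) (nat_lit 375) (nat_lit 287))))))) (XT.nd (nat_lit 52962) (nat_lit 0) (nat_lit 39672) (XT.nd (nat_lit 52416) (nat_lit 0) (nat_lit 47728) (XT.nd (nat_lit 234) (nat_lit 304) (nat_lit 0) (XT.nd (nat_lit 78) (nat_lit 380) (nat_lit 0) (XT.lf (nat_lit 0) (nat_lit 4910360644) (nat_lit 304) (nat_lit 3701257850) (nat_lit 380) (nat_lit 4115171775) (nat_lit 148) (nat_lit 5) (nat_lit 152) (nat_lit 5) (nat_lit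 153) (nat_lit 5) (nat_lit 479) (nat_lit 375) (nat_lit 286)) (XT.nd (nat_lit 78) (nat_lit 76) (nat_lit 0) (XT.lf (nat_lit 0) (nat_lit 1262247711) (nat_lit 304) (nat_lit 11585793839) (nat_lit 380) (nat_lit 22823468) (nat_lit 144) (nat_lit 5) (nat_lit 148) (nat_lit 5) (nat_lit 149) (nat_lit 5) (nat_lit 480) (nat_lit 375) (nat_lit 285)) (XT.lf (nat_lit 0) (nat_lit 4146001530) (nat_lit 380) (nat_lit 2486644348) (nat_lit 76) (nat_lit 6383654801) (nat_lit 143) (nat_lit 5) (nat_lit 148) (nat_lit 5) (nat_lit 144) (nat_lit 5) (nat_lit 481) (nat_lit 375) (nat_lit 284)))) (XT.nd (nat_lit 52026) (nat_lit 0) (nat_lit 49932) (XT.lf (nat_lit 0) (nat_lit 6862013441) (nat_lit 304) (nat_lit 1552754997) (nat_lit 380) (nat_lit 4749536176) (nat_lit 139) (nat_lit 5) (nat_lit 143) (nat_lit 5) (nat_lit 144) (nat_lit 5) (nat_lit 482) (nat_lit 375) (nat_lit 283)) (XT.nd (nat_lit 78) (nat_lit 0) (nat_lit 0) (XT.lf (nat_lit 0) (nat_lit 384426527) (nat_lit 380) (nat_lit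 2467447967) (nat_lit 0) (nat_lit 384426527) (nat_lit 796) (nat_lit 5) (nat_lit 801) (nat_lit 4) (nat_lit 796) (nat_lit 4) (nat_lit 388) (nat_lit 376) (nat_lit 376)) (XT.lf (nat_lit 0) (nat_lit 3989274122) (nat_lit 380) (nat_lit 1306468461) (nat_lit 0) (nat_lit 1185003500) (nat_lit 796) (nat_lit 5) (nat_lit 801) (nat_lit 4) (nat_lit 796) (nat_lit 4) (nat_lit 389) (nat_lit 376) (nat_lit 375))))) (XT.nd (nat_lit 234) (nat_lit 1216) (nat_lit 0) (XT.nd (nat_lit 78) (nat_lit 532) (nat_lit 0) (XT.lf (nat_lit 0) (nat_lit 710741921) (nat_lit 456) (nat_lit 4117856864) (nat_lit 76) (nat_lit 1661632529) (nat_lit 790) (nat_lit 5) (nat_lit 796) (nat_lit 5) (nat_lit 791) (nat_lit 4) (nat_lit 390) (nat_lit 376) (nat_lit 374)) (XT.nd (nat_lit 78) (nat_lit 532) (nat_lit 0) (XT.lf (nat_lit 0) (nat_lit 3874191291) (nat_lit 456) (nat_lit 423066513) (nat_lit 76) (nat_lit 2203708033) (nat_lit 790) (nat_lit 5) (nat_lit 796) (nat_lit 5) (nat_lit 791) (nat_lit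 4) (nat_lit 391) (nat_lit 376) (nat_lit 373)) (XT.lf (nat_lit 0) (nat_lit 525828936) (nat_lit 532) (nat_lit 3175352064) (nat_lit 76) (nat_lit 2811766386) (nat_lit 783) (nat_lit 5) (nat_lit 790) (nat_lit 5) (nat_lit 784) (nat_lit 5) (nat_lit 392) (nat_lit 376) (nat_lit 372)))) (XT.nd (nat_lit 156) (nat_lit 608) (nat_lit 0) (XT.nd (nat_lit 78) (nat_lit 76) (nat_lit 0) (XT.lf (nat_lit 0) (nat_lit 595480243) (nat_lit 532) (nat_lit 3041512872) (nat_lit 608) (nat_lit 2889214568) (nat_lit 776) (nat_lit 5) (nat_lit 783) (nat_lit 5) (nat_lit 784) (nat_lit 5) (nat_lit 393) (nat_lit 376) (nat_lit 371)) (XT.lf (nat_lit 0) (nat_lit 213150958) (nat_lit 608) (nat_lit 2106121299) (nat_lit 76) (nat_lit 4221504722) (nat_lit 775) (nat_lit 5) (nat_lit 783) (nat_lit 5) (nat_lit 776) (nat_lit 5) (nat_lit 394) (nat_lit 376) (nat_lit 370))) (XT.nd (nat_lit 78) (nat_lit 0) (nat_lit 0) (XT.lf (nat_lit 0) (nat_lit 1750082138) (nat_lit 608) (nat_lit 1526276048)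 (nat_lit 684) (nat_lit 3280147901) (nat_lit 767) (nat_lit 5) (nat_lit 775) (nat_lit 5) (nat_lit 776) (nat_lit 5) (nat_lit 395) (nat_lit 376) (nat_lit 369)) (XT.lf (nat_lit 0) (nat_lit 5663565560) (nat_lit 608) (nat_lit 678614468) (nat_lit 684) (nat_lit 231542740) (nat_lit 767) (nat_lit 5) (nat_lit 775) (nat_lit 5) (nat_lit 776) (nat_lit 5) (nat_lit 396) (nat_lit 376) (nat_lit 368)))))) (XT.nd (nat_lit 468) (nat_lit 4636) (nat_lit 0) (XT.nd (nat_lit 234) (nat_lit 1824) (nat_lit 0) (XT.nd (nat_lit 78) (nat_lit 836) (nat_lit 0) (XT.lf (nat_lit 0) (nat_lit 2789791284) (nat_lit 760) (nat_lit 3556788510) (nat_lit 76) (nat_lit 245340212) (nat_lit 757) (nat_lit 5) (nat_lit 767) (nat_lit 5) (nat_lit 758) (nat_lit 5) (nat_lit 397) (nat_lit 376) (nat_lit 367)) (XT.nd (nat_lit 78) (nat_lit 76) (nat_lit 0) (XT.lf (nat_lit 0) (nat_lit 410984433) (nat_lit 760) (nat_lit 5400195838) (nat_lit 836) (nat_lit 800415736) (nat_lit 747) (nat_lit 5) (nat_lit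 757) (nat_lit 5) (nat_lit 758) (nat_lit 5) (nat_lit 398) (nat_lit 376) (nat_lit 366)) (XT.lf (nat_lit 0) (nat_lit 2185718292) (nat_lit 836) (nat_lit 2189947764) (nat_lit 76) (nat_lit 2256624938) (nat_lit 746) (nat_lit 5) (nat_lit 757) (nat_lit 5) (nat_lit 747) (nat_lit 5) (nat_lit 399) (nat_lit 376) (nat_lit 365)))) (XT.nd (nat_lit 78) (nat_lit 988) (nat_lit 0) (XT.lf (nat_lit 0) (nat_lit 1870905517) (nat_lit 836) (nat_lit 3293499843) (nat_lit 912) (nat_lit 1490017748) (nat_lit 735) (nat_lit 5) (nat_lit 746) (nat_lit 5) (nat_lit 747) (nat_lit 5) (nat_lit 400) (nat_lit 376) (nat_lit 364)) (XT.nd (nat_lit 78) (nat_lit 912) (nat_lit 0) (XT.lf (nat_lit 0) (nat_lit 1452422655) (nat_lit 912) (nat_lit 693886032) (nat_lit 76) (nat_lit 4531555788) (nat_lit 734) (nat_lit 5) (nat_lit 746) (nat_lit 5) (nat_lit 735) (nat_lit 5) (nat_lit 401) (nat_lit 376) (nat_lit 363)) (XT.lf (nat_lit 0) (nat_lit 3464241610) (nat_lit 912) (nat_lit 925334370) (nat_lit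 988) (nat_lit 2312885401) (nat_lit 722) (nat_lit 5) (nat_lit 734) (nat_lit 5) (nat_lit 735) (nat_lit 5) (nat_lit 402) (nat_lit 376) (nat_lit 362))))) (XT.nd (nat_lit 234) (nat_lit 2508) (nat_lit 0) (XT.nd (nat_lit 78) (nat_lit 1064) (nat_lit 0) (XT.lf (nat_lit 0) (nat_lit 596272407) (nat_lit 1064) (nat_lit 5784690882) (nat_lit 76) (nat_lit 347561924) (nat_lit 708) (nat_lit 5) (nat_lit 722) (nat_lit 5) (nat_lit 709) (nat_lit 5) (nat_lit 403) (nat_lit 376) (nat_lit 361)) (XT.nd (nat_lit 78) (nat_lit 1064) (nat_lit 0) (XT.lf (nat_lit 0) (nat_lit 3495619376) (nat_lit 1064) (nat_lit 1573343215) (nat_lit 76) (nat_lit 1686582454) (nat_lit 708) (nat_lit 5) (nat_lit 722) (nat_lit 5) (nat_lit 709) (nat_lit 5) (nat_lit 404) (nat_lit 376) (nat_lit 360)) (XT.lf (nat_lit 0) (nat_lit 2708237819) (nat_lit 1064) (nat_lit 3698519219) (nat_lit 1140) (nat_lit 377272161) (nat_lit 694) (nat_lit 5) (nat_lit 708) (nat_lit 5) (nat_lit 709) (nat_lit 5) (nat_lit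 405) (nat_lit 376) (nat_lit 359)))) (XT.nd (nat_lit 156) (nat_lit 1292) (nat_lit 0) (XT.nd (nat_lit 78) (nat_lit 0) (nat_lit 0) (XT.lf (nat_lit 0) (nat_lit 220053247) (nat_lit 1140) (nat_lit 2258158221) (nat_lit 1216) (nat_lit 4335562916) (nat_lit 678) (nat_lit 5) (nat_lit 693) (nat_lit 5) (nat_lit 694) (nat_lit 5) (nat_lit 406) (nat_lit 376) (nat_lit 358)) (XT.lf (nat_lit 0) (nat_lit 4604832999) (nat_lit 1140) (nat_lit 745911995) (nat_lit 1216) (nat_lit 1494019765) (nat_lit 678) (nat_lit 5) (nat_lit 693) (nat_lit 5) (nat_lit 694) (nat_lit 5) (nat_lit 407) (nat_lit 376) (nat_lit 357))) (XT.nd (nat_lit 78) (nat_lit 0) (nat_lit 0) (XT.lf (nat_lit 0) (nat_lit 1343903870) (nat_lit 1292) (nat_lit 4711801383) (nat_lit 76) (nat_lit 821327968) (nat_lit 661) (nat_lit 5) (nat_lit 678) (nat_lit 5) (nat_lit 662) (nat_lit 5) (nat_lit 408) (nat_lit 376) (nat_lit 356)) (XT.lf (nat_lit 0) (nat_lit 4178101942) (nat_lit 1292) (nat_lit 286221205) (nat_lit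 76) (nat_lit 2446235980) (nat_lit 661) (nat_lit 5) (nat_lit 678) (nat_lit 5) (nat_lit 662) (nat_lit 5) (nat_lit 409) (nat_lit 376) (nat_lit 355))))))))
noncomputable def xc45 : XT := (XT.nd (nat_lit 2028) (nat_lit 11704) (nat_lit 0) (XT.nd (nat_lit 1014) (nat_lit 7904) (nat_lit 0) (XT.nd (nat_lit 468) (nat_lit 8208) (nat_lit 0) (XT.nd (nat_lit 234) (nat_lit 3040) (nat_lit 0) (XT.nd (nat_lit 78) (nat_lit 1368) (nat_lit 0) (XT.lf (nat_lit 0) (nat_lit 90496463) (nat_lit 1368) (nat_lit 2712102564) (nat_lit 76) (nat_lit 4142782445) (nat_lit 643) (nat_lit 5) (nat_lit 661) (nat_lit 5) (nat_lit 644) (nat_lit 5) (nat_lit 410) (nat_lit 376) (nat_lit 354)) (XT.nd (nat_lit 78) (nat_lit 0) (nat_lit 0) (XT.lf (nat_lit 0) (nat_lit 1822004543) (nat_lit 1368) (nat_lit 1066190959) (nat_lit 1444) (nat_lit 4093246053) (nat_lit 625) (nat_lit 5) (nat_lit 643) (nat_lit 5) (nat_lit 644) (nat_lit 5) (nat_lit 411) (nat_lit 376) (nat_lit 353)) (XT.lf (nat_lit 0)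 (nat_lit 5706710214) (nat_lit 1444) (nat_lit 589857091) (nat_lit 76) (nat_lit 722358301) (nat_lit 625) (nat_lit 5) (nat_lit 644) (nat_lit 5) (nat_lit 626) (nat_lit 5) (nat_lit 412) (nat_lit 376) (nat_lit 352)))) (XT.nd (nat_lit 78) (nat_lit 1520) (nat_lit 0) (XT.lf (nat_lit 0) (nat_lit 1480860018) (nat_lit 1520) (nat_lit 2999830906) (nat_lit 76) (nat_lit 2576742113) (nat_lit 605) (nat_lit 5) (nat_lit 625) (nat_lit 5) (nat_lit 606) (nat_lit 5) (nat_lit 413) (nat_lit 376) (nat_lit 351)) (XT.nd (nat_lit 78) (nat_lit 0) (nat_lit 0) (XT.lf (nat_lit 0) (nat_lit 1672307909) (nat_lit 1520) (nat_lit 2598302086) (nat_lit 1596) (nat_lit 2826759475) (nat_lit 585) (nat_lit 5) (nat_lit 605) (nat_lit 5) (nat_lit 606) (nat_lit 5) (nat_lit 414) (nat_lit 376) (nat_lit 350)) (XT.lf (nat_lit 0) (nat_lit 6428600725) (nat_lit 1520) (nat_lit 651992718) (nat_lit 1596) (nat_lit 58222419) (nat_lit 585) (nat_lit 5) (nat_lit 605) (nat_lit 5) (nat_lit 606) (nat_lit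 5) (nat_lit 415) (nat_lit 376) (nat_lit 349))))) (XT.nd (nat_lit 234) (nat_lit 4788) (nat_lit 0) (XT.nd (nat_lit 78) (nat_lit 1748) (nat_lit 0) (XT.lf (nat_lit 0) (nat_lit 2709957853) (nat_lit 1672) (nat_lit 3105444086) (nat_lit 76) (nat_lit 1365719211) (nat_lit 563) (nat_lit 5) (nat_lit 585) (nat_lit 5) (nat_lit 564) (nat_lit 5) (nat_lit 416) (nat_lit 376) (nat_lit 348)) (XT.nd (nat_lit 78) (nat_lit 76) (nat_lit 0) (XT.lf (nat_lit 0) (nat_lit 1709936519) (nat_lit 1672) (nat_lit 3788830578) (nat_lit 1748) (nat_lit 1726176850) (nat_lit 541) (nat_lit 5) (nat_lit 563) (nat_lit 5) (nat_lit 564) (nat_lit 5) (nat_lit 417) (nat_lit 376) (nat_lit 347)) (XT.lf (nat_lit 0) (nat_lit 1026814152) (nat_lit 1748) (nat_lit 663490143) (nat_lit 76) (nat_lit 5579855745) (nat_lit 540) (nat_lit 5) (nat_lit 563) (nat_lit 5) (nat_lit 541) (nat_lit 5) (nat_lit 418) (nat_lit 376) (nat_lit 346)))) (XT.nd (nat_lit 156) (nat_lit 1216) (nat_lit 0) (XT.nd (nat_lit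 78) (nat_lit 1824) (nat_lit 0) (XT.lf (nat_lit 0) (nat_lit 3790026398) (nat_lit 1824) (nat_lit 3039871570) (nat_lit 76) (nat_lit 486588789) (nat_lit 517) (nat_lit 5) (nat_lit 541) (nat_lit 5) (nat_lit 518) (nat_lit 5) (nat_lit 419) (nat_lit 376) (nat_lit 345)) (XT.lf (nat_lit 0) (nat_lit 1924273894) (nat_lit 1824) (nat_lit 4660391239) (nat_lit 1900) (nat_lit 779551630) (nat_lit 493) (nat_lit 5) (nat_lit 517) (nat_lit 5) (nat_lit 518) (nat_lit 5) (nat_lit 420) (nat_lit 376) (nat_lit 344))) (XT.nd (nat_lit 78) (nat_lit 1140) (nat_lit 0) (XT.lf (nat_lit 0) (nat_lit 1964652921) (nat_lit 1900) (nat_lit 447808755) (nat_lit 76) (nat_lit 5000799482) (nat_lit 492) (nat_lit 5) (nat_lit 517) (nat_lit 5) (nat_lit 493) (nat_lit 5) (nat_lit 421) (nat_lit 376) (nat_lit 343)) (XT.lf (nat_lit 0) (nat_lit 4650031921) (nat_lit 1140) (nat_lit 82831299) (nat_lit 1216) (nat_lit 2730728970) (nat_lit 477) (nat_lit 5) (nat_lit 492) (nat_lit 5) (nat_lit 493) (nat_lit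 5) (nat_lit 422) (nat_lit 376) (nat_lit 342)))))) (XT.nd (nat_lit 468) (nat_lit 4180) (nat_lit 0) (XT.nd (nat_lit 234) (nat_lit 1824) (nat_lit 0) (XT.nd (nat_lit 78) (nat_lit 912) (nat_lit 0) (XT.lf (nat_lit 0) (nat_lit 23767764) (nat_lit 988) (nat_lit 5209700575) (nat_lit 76) (nat_lit 2281800026) (nat_lit 464) (nat_lit 5) (nat_lit 477) (nat_lit 5) (nat_lit 465) (nat_lit 5) (nat_lit 423) (nat_lit 376) (nat_lit 341)) (XT.nd (nat_lit 78) (nat_lit 912) (nat_lit 0) (XT.lf (nat_lit 0) (nat_lit 2766736743) (nat_lit 988) (nat_lit 72100438) (nat_lit 76) (nat_lit 4729380946) (nat_lit 464) (nat_lit 5) (nat_lit 477) (nat_lit 5) (nat_lit 465) (nat_lit 5) (nat_lit 424) (nat_lit 376) (nat_lit 340)) (XT.lf (nat_lit 0) (nat_lit 5186311245) (nat_lit 912) (nat_lit 363258722) (nat_lit 988) (nat_lit 2072956820) (nat_lit 452) (nat_lit 5) (nat_lit 464) (nat_lit 5) (nat_lit 465) (nat_lit 5) (nat_lit 425) (nat_lit 376) (nat_lit 339)))) (XT.nd (nat_lit 78) (nat_lit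 912) (nat_lit 0) (XT.lf (nat_lit 0) (nat_lit 685677540) (nat_lit 912) (nat_lit 4837076532) (nat_lit 76) (nat_lit 2155378275) (nat_lit 440) (nat_lit 5) (nat_lit 452) (nat_lit 5) (nat_lit 441) (nat_lit 5) (nat_lit 426) (nat_lit 376) (nat_lit 338)) (XT.nd (nat_lit 78) (nat_lit 0) (nat_lit 0) (XT.lf (nat_lit 0) (nat_lit 461297674) (nat_lit 912) (nat_lit 2984568564) (nat_lit 988) (nat_lit 4289226965) (nat_lit 428) (nat_lit 5) (nat_lit 440) (nat_lit 5) (nat_lit 441) (nat_lit 5) (nat_lit 427) (nat_lit 376) (nat_lit 337)) (XT.lf (nat_lit 0) (nat_lit 5880658698) (nat_lit 912) (nat_lit 365922622) (nat_lit 988) (nat_lit 1546905505) (nat_lit 428) (nat_lit 5) (nat_lit 440) (nat_lit 5) (nat_lit 441) (nat_lit 5) (nat_lit 428) (nat_lit 376) (nat_lit 336))))) (XT.nd (nat_lit 234) (nat_lit 2432) (nat_lit 0) (XT.nd (nat_lit 78) (nat_lit 836) (nat_lit 0) (XT.lf (nat_lit 0) (nat_lit 1225502057) (nat_lit 912) (nat_lit 4324965114) (nat_lit 76) (nat_lit 2302586055)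 (nat_lit 416) (nat_lit 5) (nat_lit 428) (nat_lit 5) (nat_lit 417) (nat_lit 5) (nat_lit 429) (nat_lit 376) (nat_lit 335)) (XT.nd (nat_lit 78) (nat_lit 0) (nat_lit 0) (XT.lf (nat_lit 0) (nat_lit 1141679269) (nat_lit 836) (nat_lit 2867786320) (nat_lit 912) (nat_lit 3904604448) (nat_lit 405) (nat_lit 5) (nat_lit 416) (nat_lit 5) (nat_lit 417) (nat_lit 5) (nat_lit 430) (nat_lit 376) (nat_lit 334)) (XT.lf (nat_lit 0) (nat_lit 6725877739) (nat_lit 836) (nat_lit 106871833) (nat_lit 912) (nat_lit 1143884789) (nat_lit 405) (nat_lit 5) (nat_lit 416) (nat_lit 5) (nat_lit 417) (nat_lit 5) (nat_lit 431) (nat_lit 376) (nat_lit 333)))) (XT.nd (nat_lit 156) (nat_lit 836) (nat_lit 0) (XT.nd (nat_lit 78) (nat_lit 760) (nat_lit 0) (XT.lf (nat_lit 0) (nat_lit 1651574101) (nat_lit 836) (nat_lit 3680517765) (nat_lit 76) (nat_lit 2708111902) (nat_lit 394) (nat_lit 5) (nat_lit 405) (nat_lit 5) (nat_lit 395) (nat_lit 5) (nat_lit 432) (nat_lit 376) (nat_lit 332))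 (XT.lf (nat_lit 0) (nat_lit 1961266850) (nat_lit 760) (nat_lit 2503997216) (nat_lit 836) (nat_lit 3640076506) (nat_lit 384) (nat_lit 5) (nat_lit 394) (nat_lit 5) (nat_lit 395) (nat_lit 5) (nat_lit 433) (nat_lit 376) (nat_lit 331))) (XT.nd (nat_lit 78) (nat_lit 836) (nat_lit 0) (XT.lf (nat_lit 0) (nat_lit 7318794867) (nat_lit 836) (nat_lit 459175551) (nat_lit 76) (nat_lit 394138353) (nat_lit 384) (nat_lit 5) (nat_lit 395) (nat_lit 5) (nat_lit 385) (nat_lit 5) (nat_lit 434) (nat_lit 376) (nat_lit 330)) (XT.lf (nat_lit 0) (nat_lit 1971515041) (nat_lit 836) (nat_lit 2910136166) (nat_lit 76) (nat_lit 3358134433) (nat_lit 373) (nat_lit 5) (nat_lit 384) (nat_lit 5) (nat_lit 374) (nat_lit 5) (nat_lit 435) (nat_lit 376) (nat_lit 329))))))) (XT.nd (nat_lit 1014) (nat_lit 5472) (nat_lit 0) (XT.nd (nat_lit 468) (nat_lit 3268) (nat_lit 0) (XT.nd (nat_lit 234) (nat_lit 1444) (nat_lit 0) (XT.nd (nat_lit 78) (nat_lit 760) (nat_lit 0) (XT.lf (nat_lit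 0) (nat_lit 2913997763) (nat_lit 760) (nat_lit 1906778773) (nat_lit 836) (nat_lit 3488339466) (nat_lit 363) (nat_lit 5) (nat_lit 373) (nat_lit 5) (nat_lit 374) (nat_lit 5) (nat_lit 436) (nat_lit 376) (nat_lit 328)) (XT.nd (nat_lit 78) (nat_lit 76) (nat_lit 0) (XT.lf (nat_lit 0) (nat_lit 462503962) (nat_lit 684) (nat_lit 7252292882) (nat_lit 760) (nat_lit 665280655) (nat_lit 354) (nat_lit 5) (nat_lit 363) (nat_lit 5) (nat_lit 364) (nat_lit 5) (nat_lit 437) (nat_lit 376) (nat_lit 327)) (XT.lf (nat_lit 0) (nat_lit 2192286649) (nat_lit 760) (nat_lit 2019522319) (nat_lit 76) (nat_lit 4240219983) (nat_lit 353) (nat_lit 5) (nat_lit 363) (nat_lit 5) (nat_lit 354) (nat_lit 5) (nat_lit 438) (nat_lit 376) (nat_lit 326)))) (XT.nd (nat_lit 78) (nat_lit 760) (nat_lit 0) (XT.lf (nat_lit 0) (nat_lit 3994516737) (nat_lit 684) (nat_lit 1088362997) (nat_lit 760) (nat_lit 3442756096) (nat_lit 344) (nat_lit 5) (nat_lit 353) (nat_lit 5) (nat_lit 354) (nat_lit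 5) (nat_lit 439) (nat_lit 376) (nat_lit 325)) (XT.nd (nat_lit 78) (nat_lit 76) (nat_lit 0) (XT.lf (nat_lit 0) (nat_lit 1511500171) (nat_lit 684) (nat_lit 6516124582) (nat_lit 760) (nat_lit 573163294) (nat_lit 335) (nat_lit 5) (nat_lit 344) (nat_lit 5) (nat_lit 345) (nat_lit 5) (nat_lit 440) (nat_lit 376) (nat_lit 324)) (XT.lf (nat_lit 0) (nat_lit 2320238854) (nat_lit 760) (nat_lit 1013724504) (nat_lit 76) (nat_lit 5343228532) (nat_lit 334) (nat_lit 5) (nat_lit 344) (nat_lit 5) (nat_lit 335) (nat_lit 5) (nat_lit 441) (nat_lit 376) (nat_lit 323))))) (XT.nd (nat_lit 234) (nat_lit 1292) (nat_lit 0) (XT.nd (nat_lit 78) (nat_lit 1292) (nat_lit 0) (XT.lf (nat_lit 0) (nat_lit 5198130715) (nat_lit 684) (nat_lit 59728228) (nat_lit 760) (nat_lit 3497308603) (nat_lit 325) (nat_lit 5) (nat_lit 334) (nat_lit 5) (nat_lit 335) (nat_lit 5) (nat_lit 442) (nat_lit 376) (nat_lit 322)) (XT.nd (nat_lit 78) (nat_lit 684) (nat_lit 0) (XT.lf (nat_lit 0) (nat_lit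 2677176091) (nat_lit 608) (nat_lit 5583242813) (nat_lit 684) (nat_lit 574160063) (nat_lit 317) (nat_lit 5) (nat_lit 325) (nat_lit 5) (nat_lit 326) (nat_lit 5) (nat_lit 443) (nat_lit 376) (nat_lit 321)) (XT.lf (nat_lit 0) (nat_lit 104187008) (nat_lit 608) (nat_lit 2257643201) (nat_lit 684) (nat_lit 6553716733) (nat_lit 308) (nat_lit 5) (nat_lit 316) (nat_lit 5) (nat_lit 317) (nat_lit 5) (nat_lit 444) (nat_lit 376) (nat_lit 320)))) (XT.nd (nat_lit 156) (nat_lit 684) (nat_lit 0) (XT.nd (nat_lit 78) (nat_lit 608) (nat_lit 0) (XT.lf (nat_lit 0) (nat_lit 5359043002) (nat_lit 684) (nat_lit 2484830872) (nat_lit 76) (nat_lit 1153980684) (nat_lit 308) (nat_lit 5) (nat_lit 317) (nat_lit 5) (nat_lit 309) (nat_lit 5) (nat_lit 445) (nat_lit 376) (nat_lit 319)) (XT.lf (nat_lit 0) (nat_lit 3955591922) (nat_lit 608) (nat_lit 4463226790) (nat_lit 684) (nat_lit 662937241) (nat_lit 300) (nat_lit 5) (nat_lit 308) (nat_lit 5) (nat_lit 309) (nat_lit 5) (nat_lit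 446) (nat_lit 376) (nat_lit 318))) (XT.nd (nat_lit 78) (nat_lit 0) (nat_lit 0) (XT.lf (nat_lit 0) (nat_lit 1343874360) (nat_lit 608) (nat_lit 985137132) (nat_lit 684) (nat_lit 6838262372) (nat_lit 291) (nat_lit 5) (nat_lit 299) (nat_lit 5) (nat_lit 300) (nat_lit 5) (nat_lit 447) (nat_lit 376) (nat_lit 317)) (XT.lf (nat_lit 0) (nat_lit 5385700420) (nat_lit 684) (nat_lit 1312353643) (nat_lit 76) (nat_lit 2556084871) (nat_lit 291) (nat_lit 5) (nat_lit 300) (nat_lit 5) (nat_lit 292) (nat_lit 5) (nat_lit 448) (nat_lit 376) (nat_lit 316)))))) (XT.nd (nat_lit 468) (nat_lit 2584) (nat_lit 0) (XT.nd (nat_lit 234) (nat_lit 1672) (nat_lit 0) (XT.nd (nat_lit 78) (nat_lit 684) (nat_lit 0) (XT.lf (nat_lit 0) (nat_lit 5343366444) (nat_lit 532) (nat_lit 3164613682) (nat_lit 608) (nat_lit 834672038) (nat_lit 284) (nat_lit 5) (nat_lit 291) (nat_lit 5) (nat_lit 292) (nat_lit 5) (nat_lit 449) (nat_lit 376) (nat_lit 315)) (XT.nd (nat_lit 78) (nat_lit 0) (nat_lit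 0) (XT.lf (nat_lit 0) (nat_lit 2222899140) (nat_lit 684) (nat_lit 6747395024) (nat_lit 76) (nat_lit 462492723) (nat_lit 275) (nat_lit 5) (nat_lit 284) (nat_lit 5) (nat_lit 276) (nat_lit 5) (nat_lit 450) (nat_lit 376) (nat_lit 314)) (XT.lf (nat_lit 0) (nat_lit 5342149300) (nat_lit 684) (nat_lit 42458455) (nat_lit 76) (nat_lit 4139772130) (nat_lit 275) (nat_lit 5) (nat_lit 284) (nat_lit 5) (nat_lit 276) (nat_lit 5) (nat_lit 451) (nat_lit 376) (nat_lit 313)))) (XT.nd (nat_lit 78) (nat_lit 1140) (nat_lit 0) (XT.lf (nat_lit 0) (nat_lit 6837643771) (nat_lit 532) (nat_lit 1694967190) (nat_lit 608) (nat_lit 1085017252) (nat_lit 268) (nat_lit 5) (nat_lit 275) (nat_lit 5) (nat_lit 276) (nat_lit 5) (nat_lit 452) (nat_lit 376) (nat_lit 312)) (XT.nd (nat_lit 78) (nat_lit 532) (nat_lit 0) (XT.lf (nat_lit 0) (nat_lit 2052267796) (nat_lit 608) (nat_lit 5591057818) (nat_lit 76) (nat_lit 2069039958) (nat_lit 260) (nat_lit 5) (nat_lit 268) (nat_lit 5) (nat_lit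 261) (nat_lit 5) (nat_lit 453) (nat_lit 376) (nat_lit 311)) (XT.lf (nat_lit 0) (nat_lit 1339666774) (nat_lit 532) (nat_lit 3901694407) (nat_lit 608) (nat_lit 4567421234) (nat_lit 253) (nat_lit 5) (nat_lit 260) (nat_lit 5) (nat_lit 261) (nat_lit 5) (nat_lit 454) (nat_lit 376) (nat_lit 310))))) (XT.nd (nat_lit 234) (nat_lit 1520) (nat_lit 0) (XT.nd (nat_lit 78) (nat_lit 1064) (nat_lit 0) (XT.lf (nat_lit 0) (nat_lit 8436063040) (nat_lit 532) (nat_lit 60940433) (nat_lit 608) (nat_lit 1410068783) (nat_lit 253) (nat_lit 5) (nat_lit 260) (nat_lit 5) (nat_lit 261) (nat_lit 5) (nat_lit 455) (nat_lit 376) (nat_lit 309)) (XT.nd (nat_lit 78) (nat_lit 456) (nat_lit 0) (XT.lf (nat_lit 0) (nat_lit 1814550560) (nat_lit 608) (nat_lit 4350723880) (nat_lit 76) (nat_lit 3841261084) (nat_lit 245) (nat_lit 5) (nat_lit 253) (nat_lit 5) (nat_lit 246) (nat_lit 5) (nat_lit 456) (nat_lit 376) (nat_lit 308)) (XT.lf (nat_lit 0) (nat_lit 2815940654) (nat_lit 456)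 (nat_lit 2263456111) (nat_lit 532) (nat_lit 5028512575) (nat_lit 239) (nat_lit 5) (nat_lit 245) (nat_lit 5) (nat_lit 246) (nat_lit 5) (nat_lit 457) (nat_lit 376) (nat_lit 307)))) (XT.nd (nat_lit 156) (nat_lit 912) (nat_lit 0) (XT.nd (nat_lit 78) (nat_lit 608) (nat_lit 0) (XT.lf (nat_lit 0) (nat_lit 8416307496) (nat_lit 532) (nat_lit 85912458) (nat_lit 76) (nat_lit 1708955327) (nat_lit 239) (nat_lit 5) (nat_lit 246) (nat_lit 5) (nat_lit 240) (nat_lit 5) (nat_lit 458) (nat_lit 376) (nat_lit 306)) (XT.lf (nat_lit 0) (nat_lit 1513190223) (nat_lit 608) (nat_lit 3028703554) (nat_lit 76) (nat_lit 5773828369) (nat_lit 231) (nat_lit 5) (nat_lit 239) (nat_lit 5) (nat_lit 232) (nat_lit 5) (nat_lit 459) (nat_lit 376) (nat_lit 305))) (XT.nd (nat_lit 78) (nat_lit 456) (nat_lit 0) (XT.lf (nat_lit 0) (nat_lit 4383899962) (nat_lit 456) (nat_lit 475562579) (nat_lit 532) (nat_lit 5562738397) (nat_lit 225) (nat_lit 5) (nat_lit 231) (nat_lit 5) (nat_lit 232)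 (nat_lit 5) (nat_lit 460) (nat_lit 376) (nat_lit 304)) (XT.lf (nat_lit 0) (nat_lit 1401644108) (nat_lit 456) (nat_lit 6891677816) (nat_lit 532) (nat_lit 2237074150) (nat_lit 219) (nat_lit 5) (nat_lit 225) (nat_lit 5) (nat_lit 226) (nat_lit 5) (nat_lit 461) (nat_lit 376) (nat_lit 303))))))))
noncomputable def xc46 : XT := (XT.nd (nat_lit 53820) (nat_lit 0) (nat_lit 32224) (XT.nd (nat_lit 1014) (nat_lit 2204) (nat_lit 0) (XT.nd (nat_lit 468) (nat_lit 1976) (nat_lit 0) (XT.nd (nat_lit 234) (nat_lit 912) (nat_lit 0) (XT.nd (nat_lit 78) (nat_lit 912) (nat_lit 0) (XT.lf (nat_lit 0) (nat_lit 1151269311) (nat_lit 532) (nat_lit 1626909978) (nat_lit 76) (nat_lit 7862199523) (nat_lit 218) (nat_lit 5) (nat_lit 225) (nat_lit 5) (nat_lit 219) (nat_lit 5) (nat_lit 462) (nat_lit 376) (nat_lit 302)) (XT.nd (nat_lit 78) (nat_lit 456) (nat_lit 0) (XT.lf (nat_lit 0) (nat_lit 4594161421) (nat_lit 532) (nat_lit 4719525527) (nat_lit 76) (nat_lit 1438243791)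 (nat_lit 212) (nat_lit 5) (nat_lit 219) (nat_lit 5) (nat_lit 213) (nat_lit 5) (nat_lit 463) (nat_lit 376) (nat_lit 301)) (XT.lf (nat_lit 0) (nat_lit 2974442183) (nat_lit 456) (nat_lit 5148408540) (nat_lit 532) (nat_lit 2742524195) (nat_lit 206) (nat_lit 5) (nat_lit 212) (nat_lit 5) (nat_lit 213) (nat_lit 5) (nat_lit 464) (nat_lit 376) (nat_lit 300)))) (XT.nd (nat_lit 78) (nat_lit 836) (nat_lit 0) (XT.lf (nat_lit 0) (nat_lit 731534164) (nat_lit 532) (nat_lit 146881496) (nat_lit 76) (nat_lit 10102571555) (nat_lit 205) (nat_lit 5) (nat_lit 212) (nat_lit 5) (nat_lit 206) (nat_lit 5) (nat_lit 465) (nat_lit 376) (nat_lit 299)) (XT.nd (nat_lit 78) (nat_lit 456) (nat_lit 0) (XT.lf (nat_lit 0) (nat_lit 4280854529) (nat_lit 456) (nat_lit 3331774126) (nat_lit 76) (nat_lit 3485070478) (nat_lit 200) (nat_lit 5) (nat_lit 206) (nat_lit 5) (nat_lit 201) (nat_lit 5) (nat_lit 466) (nat_lit 376) (nat_lit 298)) (XT.lf (nat_lit 0) (nat_lit 4630215329) (nat_lit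 456) (nat_lit 3276990433) (nat_lit 532) (nat_lit 3309418636) (nat_lit 194) (nat_lit 5) (nat_lit 200) (nat_lit 5) (nat_lit 201) (nat_lit 5) (nat_lit 467) (nat_lit 376) (nat_lit 297))))) (XT.nd (nat_lit 234) (nat_lit 1140) (nat_lit 0) (XT.nd (nat_lit 78) (nat_lit 380) (nat_lit 0) (XT.lf (nat_lit 0) (nat_lit 273247206) (nat_lit 456) (nat_lit 9916486028) (nat_lit 76) (nat_lit 1147987950) (nat_lit 188) (nat_lit 5) (nat_lit 194) (nat_lit 5) (nat_lit 189) (nat_lit 5) (nat_lit 468) (nat_lit 376) (nat_lit 296)) (XT.nd (nat_lit 78) (nat_lit 380) (nat_lit 0) (XT.lf (nat_lit 0) (nat_lit 3918952912) (nat_lit 456) (nat_lit 1873187290) (nat_lit 76) (nat_lit 5667948204) (nat_lit 188) (nat_lit 5) (nat_lit 194) (nat_lit 5) (nat_lit 189) (nat_lit 5) (nat_lit 469) (nat_lit 376) (nat_lit 295)) (XT.lf (nat_lit 0) (nat_lit 6368190702) (nat_lit 380) (nat_lit 1280792608) (nat_lit 456) (nat_lit 3935691452) (nat_lit 183) (nat_lit 5) (nat_lit 188) (nat_lit 5) (nat_lit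 189) (nat_lit 5) (nat_lit 470) (nat_lit 376) (nat_lit 294)))) (XT.nd (nat_lit 156) (nat_lit 684) (nat_lit 0) (XT.nd (nat_lit 78) (nat_lit 76) (nat_lit 0) (XT.lf (nat_lit 0) (nat_lit 3060289837) (nat_lit 380) (nat_lit 8417654127) (nat_lit 456) (nat_lit 233322287) (nat_lit 178) (nat_lit 5) (nat_lit 183) (nat_lit 5) (nat_lit 184) (nat_lit 5) (nat_lit 471) (nat_lit 376) (nat_lit 293)) (XT.lf (nat_lit 0) (nat_lit 3510679759) (nat_lit 456) (nat_lit 344674645) (nat_lit 76) (nat_lit 7984294008) (nat_lit 177) (nat_lit 5) (nat_lit 183) (nat_lit 5) (nat_lit 178) (nat_lit 5) (nat_lit 472) (nat_lit 376) (nat_lit 292))) (XT.nd (nat_lit 78) (nat_lit 304) (nat_lit 0) (XT.lf (nat_lit 0) (nat_lit 7355955334) (nat_lit 456) (nat_lit 3787592555) (nat_lit 76) (nat_lit 826429128) (nat_lit 172) (nat_lit 5) (nat_lit 178) (nat_lit 5) (nat_lit 173) (nat_lit 5) (nat_lit 473) (nat_lit 376) (nat_lit 291)) (XT.lf (nat_lit 0) (nat_lit 4773010225) (nat_lit 304) (nat_lit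 6535060654) (nat_lit 380) (nat_lit 794242626) (nat_lit 168) (nat_lit 5) (nat_lit 172) (nat_lit 5) (nat_lit 173) (nat_lit 5) (nat_lit 474) (nat_lit 376) (nat_lit 290)))))) (XT.nd (nat_lit 468) (nat_lit 684) (nat_lit 0) (XT.nd (nat_lit 234) (nat_lit 760) (nat_lit 0) (XT.nd (nat_lit 78) (nat_lit 304) (nat_lit 0) (XT.lf (nat_lit 0) (nat_lit 1269810325) (nat_lit 380) (nat_lit 1796434958) (nat_lit 456) (nat_lit 9170548731) (nat_lit 162) (nat_lit 5) (nat_lit 167) (nat_lit 5) (nat_lit 168) (nat_lit 5) (nat_lit 475) (nat_lit 376) (nat_lit 289)) (XT.nd (nat_lit 78) (nat_lit 304) (nat_lit 0) (XT.lf (nat_lit 0) (nat_lit 7033869866) (nat_lit 456) (nat_lit 2304099583) (nat_lit 76) (nat_lit 3035078448) (nat_lit 162) (nat_lit 5) (nat_lit 168) (nat_lit 5) (nat_lit 163) (nat_lit 5) (nat_lit 476) (nat_lit 376) (nat_lit 288)) (XT.lf (nat_lit 0) (nat_lit 6561025316) (nat_lit 304) (nat_lit 4546204034) (nat_lit 380) (nat_lit 1404269860) (nat_lit 158) (nat_lit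 5) (nat_lit 162) (nat_lit 5) (nat_lit 163) (nat_lit 5) (nat_lit 477) (nat_lit 376) (nat_lit 287)))) (XT.nd (nat_lit 78) (nat_lit 304) (nat_lit 0) (XT.lf (nat_lit 0) (nat_lit 2584298861) (nat_lit 456) (nat_lit 9695901538) (nat_lit 76) (nat_lit 371996632) (nat_lit 152) (nat_lit 5) (nat_lit 158) (nat_lit 5) (nat_lit 153) (nat_lit 5) (nat_lit 478) (nat_lit 376) (nat_lit 286)) (XT.nd (nat_lit 78) (nat_lit 304) (nat_lit 0) (XT.lf (nat_lit 0) (nat_lit 6676264802) (nat_lit 456) (nat_lit 758112146) (nat_lit 76) (nat_lit 5360297638) (nat_lit 152) (nat_lit 5) (nat_lit 158) (nat_lit 5) (nat_lit 153) (nat_lit 5) (nat_lit 479) (nat_lit 376) (nat_lit 285)) (XT.lf (nat_lit 0) (nat_lit 8424419926) (nat_lit 304) (nat_lit 2453002816) (nat_lit 380) (nat_lit 2062031895) (nat_lit 148) (nat_lit 5) (nat_lit 152) (nat_lit 5) (nat_lit 153) (nat_lit 5) (nat_lit 480) (nat_lit 376) (nat_lit 284))))) (XT.nd (nat_lit 52026) (nat_lit 0) (nat_lit 49476) (XT.nd (nat_lit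 78) (nat_lit 304) (nat_lit 0) (XT.lf (nat_lit 0) (nat_lit 2074006308) (nat_lit 380) (nat_lit 8386324045) (nat_lit 76) (nat_lit 2626015370) (nat_lit 143) (nat_lit 5) (nat_lit 148) (nat_lit 5) (nat_lit 144) (nat_lit 5) (nat_lit 481) (nat_lit 376) (nat_lit 283)) (XT.nd (nat_lit 51870) (nat_lit 0) (nat_lit 50312) (XT.lf (nat_lit 0) (nat_lit 861504353) (nat_lit 304) (nat_lit 5428874317) (nat_lit 380) (nat_lit 6945018879) (nat_lit 139) (nat_lit 5) (nat_lit 143) (nat_lit 5) (nat_lit 144) (nat_lit 5) (nat_lit 482) (nat_lit 376) (nat_lit 282)) (XT.lf (nat_lit 0) (nat_lit 428335771) (nat_lit 228) (nat_lit 1400644220) (nat_lit 228) (nat_lit 1400644220) (nat_lit 801) (nat_lit 4) (nat_lit 804) (nat_lit 5) (nat_lit 804) (nat_lit 4) (nat_lit 386) (nat_lit 377) (nat_lit 377)))) (XT.nd (nat_lit 156) (nat_lit 456) (nat_lit 0) (XT.nd (nat_lit 78) (nat_lit 304) (nat_lit 0) (XT.lf (nat_lit 0) (nat_lit 422718070) (nat_lit 304) (nat_lit 2063672652) (nat_lit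 76) (nat_lit 3979211277) (nat_lit 800) (nat_lit 5) (nat_lit 804) (nat_lit 5) (nat_lit 801) (nat_lit 4) (nat_lit 387) (nat_lit 377) (nat_lit 376)) (XT.lf (nat_lit 0) (nat_lit 1500057125) (nat_lit 304) (nat_lit 2102901446) (nat_lit 380) (nat_lit 2870168482) (nat_lit 796) (nat_lit 5) (nat_lit 800) (nat_lit 5) (nat_lit 801) (nat_lit 4) (nat_lit 388) (nat_lit 377) (nat_lit 375))) (XT.nd (nat_lit 78) (nat_lit 380) (nat_lit 0) (XT.lf (nat_lit 0) (nat_lit 295380106) (nat_lit 380) (nat_lit 1367783309) (nat_lit 76) (nat_lit 4818908086) (nat_lit 795) (nat_lit 5) (nat_lit 800) (nat_lit 5) (nat_lit 796) (nat_lit 5) (nat_lit 389) (nat_lit 377) (nat_lit 374)) (XT.lf (nat_lit 0) (nat_lit 2273532067) (nat_lit 380) (nat_lit 1148876152) (nat_lit 456) (nat_lit 3069675181) (nat_lit 790) (nat_lit 5) (nat_lit 795) (nat_lit 5) (nat_lit 796) (nat_lit 5) (nat_lit 390) (nat_lit 377) (nat_lit 373))))))) (XT.nd (nat_lit 1014) (nat_lit 11020) (nat_lit 0) (XT.nd (nat_lit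 468) (nat_lit 4408) (nat_lit 0) (XT.nd (nat_lit 234) (nat_lit 760) (nat_lit 0) (XT.nd (nat_lit 78) (nat_lit 988) (nat_lit 0) (XT.lf (nat_lit 0) (nat_lit 40006252) (nat_lit 456) (nat_lit 544278626) (nat_lit 76) (nat_lit 5919361150) (nat_lit 789) (nat_lit 5) (nat_lit 795) (nat_lit 5) (nat_lit 790) (nat_lit 5) (nat_lit 391) (nat_lit 377) (nat_lit 372)) (XT.nd (nat_lit 78) (nat_lit 532) (nat_lit 0) (XT.lf (nat_lit 0) (nat_lit 3115901537) (nat_lit 532) (nat_lit 3338388620) (nat_lit 76) (nat_lit 61841476) (nat_lit 783) (nat_lit 5) (nat_lit 790) (nat_lit 5) (nat_lit 784) (nat_lit 5) (nat_lit 392) (nat_lit 377) (nat_lit 371)) (XT.lf (nat_lit 0) (nat_lit 406175089) (nat_lit 532) (nat_lit 5782738704) (nat_lit 608) (nat_lit 341241175) (nat_lit 776) (nat_lit 5) (nat_lit 783) (nat_lit 5) (nat_lit 784) (nat_lit 5) (nat_lit 393) (nat_lit 377) (nat_lit 370)))) (XT.nd (nat_lit 78) (nat_lit 684) (nat_lit 0) (XT.lf (nat_lit 0) (nat_lit 2691114210) (nat_lit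 608) (nat_lit 2340032514) (nat_lit 76) (nat_lit 1513978538) (nat_lit 775) (nat_lit 5) (nat_lit 783) (nat_lit 5) (nat_lit 776) (nat_lit 5) (nat_lit 394) (nat_lit 377) (nat_lit 369)) (XT.nd (nat_lit 78) (nat_lit 76) (nat_lit 0) (XT.lf (nat_lit 0) (nat_lit 1489105380) (nat_lit 608) (nat_lit 4227646123) (nat_lit 684) (nat_lit 844854266) (nat_lit 767) (nat_lit 5) (nat_lit 775) (nat_lit 5) (nat_lit 776) (nat_lit 5) (nat_lit 395) (nat_lit 377) (nat_lit 368)) (XT.lf (nat_lit 0) (nat_lit 2139289812) (nat_lit 684) (nat_lit 1214501656) (nat_lit 76) (nat_lit 3225455986) (nat_lit 766) (nat_lit 5) (nat_lit 775) (nat_lit 5) (nat_lit 767) (nat_lit 5) (nat_lit 396) (nat_lit 377) (nat_lit 367))))) (XT.nd (nat_lit 234) (nat_lit 2888) (nat_lit 0) (XT.nd (nat_lit 78) (nat_lit 836) (nat_lit 0) (XT.lf (nat_lit 0) (nat_lit 2703063360) (nat_lit 684) (nat_lit 2415881709) (nat_lit 760) (nat_lit 1479242398) (nat_lit 757) (nat_lit 5) (nat_lit 766) (nat_lit 5) (nat_lit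 767) (nat_lit 5) (nat_lit 397) (nat_lit 377) (nat_lit 366)) (XT.nd (nat_lit 78) (nat_lit 0) (nat_lit 0) (XT.lf (nat_lit 0) (nat_lit 40508136) (nat_lit 760) (nat_lit 1418635281) (nat_lit 836) (nat_lit 5159389546) (nat_lit 746) (nat_lit 5) (nat_lit 756) (nat_lit 5) (nat_lit 757) (nat_lit 5) (nat_lit 398) (nat_lit 377) (nat_lit 365)) (XT.lf (nat_lit 0) (nat_lit 4049976898) (nat_lit 760) (nat_lit 343859820) (nat_lit 836) (nat_lit 2246106159) (nat_lit 746) (nat_lit 5) (nat_lit 756) (nat_lit 5) (nat_lit 757) (nat_lit 5) (nat_lit 399) (nat_lit 377) (nat_lit 364)))) (XT.nd (nat_lit 156) (nat_lit 1976) (nat_lit 0) (XT.nd (nat_lit 78) (nat_lit 0) (nat_lit 0) (XT.lf (nat_lit 0) (nat_lit 662571586) (nat_lit 912) (nat_lit 5223592477) (nat_lit 76) (nat_lit 776589864) (nat_lit 734) (nat_lit 5) (nat_lit 746) (nat_lit 5) (nat_lit 735) (nat_lit 5) (nat_lit 400) (nat_lit 377) (nat_lit 363)) (XT.lf (nat_lit 0) (nat_lit 3552452638) (nat_lit 912) (nat_lit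 1167824721) (nat_lit 76) (nat_lit 1966384803) (nat_lit 734) (nat_lit 5) (nat_lit 746) (nat_lit 5) (nat_lit 735) (nat_lit 5) (nat_lit 401) (nat_lit 377) (nat_lit 362))) (XT.nd (nat_lit 78) (nat_lit 1064) (nat_lit 0) (XT.lf (nat_lit 0) (nat_lit 2959974048) (nat_lit 912) (nat_lit 3493987776) (nat_lit 988) (nat_lit 258010126) (nat_lit 722) (nat_lit 5) (nat_lit 734) (nat_lit 5) (nat_lit 735) (nat_lit 5) (nat_lit 402) (nat_lit 377) (nat_lit 361)) (XT.lf (nat_lit 0) (nat_lit 387737129) (nat_lit 988) (nat_lit 2198448672) (nat_lit 1064) (nat_lit 4152343385) (nat_lit 708) (nat_lit 5) (nat_lit 721) (nat_lit 5) (nat_lit 722) (nat_lit 5) (nat_lit 403) (nat_lit 377) (nat_lit 360)))))) (XT.nd (nat_lit 468) (nat_lit 7448) (nat_lit 0) (XT.nd (nat_lit 234) (nat_lit 2432) (nat_lit 0) (XT.nd (nat_lit 78) (nat_lit 1140) (nat_lit 0) (XT.lf (nat_lit 0) (nat_lit 4611262086) (nat_lit 988) (nat_lit 833836498) (nat_lit 1064) (nat_lit 1321259118) (nat_lit 708) (nat_lit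 5) (nat_lit 721) (nat_lit 5) (nat_lit 722) (nat_lit 5) (nat_lit 404) (nat_lit 377) (nat_lit 359)) (XT.nd (nat_lit 78) (nat_lit 0) (nat_lit 0) (XT.lf (nat_lit 0) (nat_lit 1500330677) (nat_lit 1140) (nat_lit 4705628763) (nat_lit 76) (nat_lit 589491378) (nat_lit 693) (nat_lit 5) (nat_lit 708) (nat_lit 5) (nat_lit 694) (nat_lit 5) (nat_lit 405) (nat_lit 377) (nat_lit 358)) (XT.lf (nat_lit 0) (nat_lit 4318732427) (nat_lit 1140) (nat_lit 439400216) (nat_lit 76) (nat_lit 2067657049) (nat_lit 693) (nat_lit 5) (nat_lit 708) (nat_lit 5) (nat_lit 694) (nat_lit 5) (nat_lit 406) (nat_lit 377) (nat_lit 357)))) (XT.nd (nat_lit 78) (nat_lit 1216) (nat_lit 0) (XT.lf (nat_lit 0) (nat_lit 296729009) (nat_lit 1216) (nat_lit 2943975905) (nat_lit 76) (nat_lit 3616699119) (nat_lit 677) (nat_lit 5) (nat_lit 693) (nat_lit 5) (nat_lit 678) (nat_lit 5) (nat_lit 407) (nat_lit 377) (nat_lit 356)) (XT.nd (nat_lit 78) (nat_lit 0) (nat_lit 0) (XT.lf (nat_lit 0) (nat_lit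 1423149536) (nat_lit 1216) (nat_lit 1651788580) (nat_lit 1292) (nat_lit 3815342780) (nat_lit 661) (nat_lit 5) (nat_lit 677) (nat_lit 5) (nat_lit 678) (nat_lit 5) (nat_lit 408) (nat_lit 377) (nat_lit 355)) (XT.lf (nat_lit 0) (nat_lit 5869015306) (nat_lit 1292) (nat_lit 1055337847) (nat_lit 76) (nat_lit 256066) (nat_lit 661) (nat_lit 5) (nat_lit 678) (nat_lit 5) (nat_lit 662) (nat_lit 5) (nat_lit 409) (nat_lit 377) (nat_lit 354))))) (XT.nd (nat_lit 234) (nat_lit 4636) (nat_lit 0) (XT.nd (nat_lit 78) (nat_lit 1444) (nat_lit 0) (XT.lf (nat_lit 0) (nat_lit 1711103904) (nat_lit 1368) (nat_lit 3541183021) (nat_lit 76) (nat_lit 1707612163) (nat_lit 643) (nat_lit 5) (nat_lit 661) (nat_lit 5) (nat_lit 644) (nat_lit 5) (nat_lit 410) (nat_lit 377) (nat_lit 353)) (XT.nd (nat_lit 78) (nat_lit 76) (nat_lit 0) (XT.lf (nat_lit 0) (nat_lit 957331223) (nat_lit 1368) (nat_lit 3517259668) (nat_lit 1444) (nat_lit 2522052520) (nat_lit 625) (nat_lit 5) (nat_lit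 643) (nat_lit 5) (nat_lit 644) (nat_lit 5) (nat_lit 411) (nat_lit 377) (nat_lit 352)) (XT.lf (nat_lit 0) (nat_lit 222417351) (nat_lit 1444) (nat_lit 1491100018) (nat_lit 76) (nat_lit 5321239749) (nat_lit 624) (nat_lit 5) (nat_lit 643) (nat_lit 5) (nat_lit 625) (nat_lit 5) (nat_lit 412) (nat_lit 377) (nat_lit 351)))) (XT.nd (nat_lit 156) (nat_lit 1672) (nat_lit 0) (XT.nd (nat_lit 78) (nat_lit 1520) (nat_lit 0) (XT.lf (nat_lit 0) (nat_lit 2953231113) (nat_lit 1520) (nat_lit 3951248805) (nat_lit 76) (nat_lit 169515271) (nat_lit 605) (nat_lit 5) (nat_lit 625) (nat_lit 5) (nat_lit 606) (nat_lit 5) (nat_lit 413) (nat_lit 377) (nat_lit 350)) (XT.lf (nat_lit 0) (nat_lit 683517319) (nat_lit 1520) (nat_lit 5025634158) (nat_lit 1596) (nat_lit 1405456735) (nat_lit 585) (nat_lit 5) (nat_lit 605) (nat_lit 5) (nat_lit 606) (nat_lit 5) (nat_lit 414) (nat_lit 377) (nat_lit 349))) (XT.nd (nat_lit 78) (nat_lit 1596) (nat_lit 0) (XT.lf (nat_lit 0) (nat_lit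 1317994583) (nat_lit 1596) (nat_lit 1749700049) (nat_lit 76) (nat_lit 4088727146) (nat_lit 584) (nat_lit 5) (nat_lit 605) (nat_lit 5) (nat_lit 585) (nat_lit 5) (nat_lit 415) (nat_lit 377) (nat_lit 348)) (XT.lf (nat_lit 0) (nat_lit 3006715918) (nat_lit 1596) (nat_lit 1036035247) (nat_lit 1672) (nat_lit 3156821542) (nat_lit 563) (nat_lit 5) (nat_lit 584) (nat_lit 5) (nat_lit 585) (nat_lit 5) (nat_lit 416) (nat_lit 377) (nat_lit 347))))))))
noncomputable def xc47 : XT := (XT.nd (nat_lit 2028) (nat_lit 10412) (nat_lit 0) (XT.nd (nat_lit 1014) (nat_lit 6916) (nat_lit 0) (XT.nd (nat_lit 468) (nat_lit 4636) (nat_lit 0) (XT.nd (nat_lit 234) (nat_lit 3040) (nat_lit 0) (XT.nd (nat_lit 78) (nat_lit 1824) (nat_lit 0) (XT.lf (nat_lit 0) (nat_lit 590057264) (nat_lit 1672) (nat_lit 6201212993) (nat_lit 1748) (nat_lit 452931051) (nat_lit 541) (nat_lit 5) (nat_lit 563) (nat_lit 5) (nat_lit 564) (nat_lit 5) (nat_lit 417) (nat_lit 377) (nat_lit 346)) (XT.nd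 (nat_lit 78) (nat_lit 1748) (nat_lit 0) (XT.lf (nat_lit 0) (nat_lit 2257254302) (nat_lit 1748) (nat_lit 1835585000) (nat_lit 76) (nat_lit 3196934900) (nat_lit 540) (nat_lit 5) (nat_lit 563) (nat_lit 5) (nat_lit 541) (nat_lit 5) (nat_lit 418) (nat_lit 377) (nat_lit 345)) (XT.lf (nat_lit 0) (nat_lit 3067680033) (nat_lit 1748) (nat_lit 1916119959) (nat_lit 1824) (nat_lit 2353034257) (nat_lit 517) (nat_lit 5) (nat_lit 540) (nat_lit 5) (nat_lit 541) (nat_lit 5) (nat_lit 419) (nat_lit 377) (nat_lit 344)))) (XT.nd (nat_lit 78) (nat_lit 1140) (nat_lit 0) (XT.lf (nat_lit 0) (nat_lit 342555874) (nat_lit 1900) (nat_lit 6721361379) (nat_lit 76) (nat_lit 321518914) (nat_lit 492) (nat_lit 5) (nat_lit 517) (nat_lit 5) (nat_lit 493) (nat_lit 5) (nat_lit 420) (nat_lit 377) (nat_lit 343)) (XT.nd (nat_lit 78) (nat_lit 1140) (nat_lit 0) (XT.lf (nat_lit 0) (nat_lit 3051466665) (nat_lit 1900) (nat_lit 1759021073) (nat_lit 76) (nat_lit 2624392994) (nat_lit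 492) (nat_lit 5) (nat_lit 517) (nat_lit 5) (nat_lit 493) (nat_lit 5) (nat_lit 421) (nat_lit 377) (nat_lit 342)) (XT.lf (nat_lit 0) (nat_lit 3296824555) (nat_lit 1140) (nat_lit 2489488253) (nat_lit 1216) (nat_lit 1699566238) (nat_lit 477) (nat_lit 5) (nat_lit 492) (nat_lit 5) (nat_lit 493) (nat_lit 5) (nat_lit 422) (nat_lit 377) (nat_lit 341))))) (XT.nd (nat_lit 234) (nat_lit 2736) (nat_lit 0) (XT.nd (nat_lit 78) (nat_lit 912) (nat_lit 0) (XT.lf (nat_lit 0) (nat_lit 895585252) (nat_lit 912) (nat_lit 97142241) (nat_lit 988) (nat_lit 6545667412) (nat_lit 464) (nat_lit 5) (nat_lit 476) (nat_lit 5) (nat_lit 477) (nat_lit 5) (nat_lit 423) (nat_lit 377) (nat_lit 340)) (XT.nd (nat_lit 78) (nat_lit 912) (nat_lit 0) (XT.lf (nat_lit 0) (nat_lit 3710972637) (nat_lit 988) (nat_lit 1529311408) (nat_lit 76) (nat_lit 2351555097) (nat_lit 464) (nat_lit 5) (nat_lit 477) (nat_lit 5) (nat_lit 465) (nat_lit 5) (nat_lit 424) (nat_lit 377) (nat_lit 339)) (XT.lf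 (nat_lit 0) (nat_lit 3685164817) (nat_lit 912) (nat_lit 2775273898) (nat_lit 988) (nat_lit 1186376430) (nat_lit 452) (nat_lit 5) (nat_lit 464) (nat_lit 5) (nat_lit 465) (nat_lit 5) (nat_lit 425) (nat_lit 377) (nat_lit 338)))) (XT.nd (nat_lit 156) (nat_lit 1824) (nat_lit 0) (XT.nd (nat_lit 78) (nat_lit 0) (nat_lit 0) (XT.lf (nat_lit 0) (nat_lit 1279255488) (nat_lit 836) (nat_lit 233492159) (nat_lit 912) (nat_lit 6190515586) (nat_lit 440) (nat_lit 5) (nat_lit 451) (nat_lit 5) (nat_lit 452) (nat_lit 5) (nat_lit 426) (nat_lit 377) (nat_lit 337)) (XT.lf (nat_lit 0) (nat_lit 4245252772) (nat_lit 912) (nat_lit 1154863376) (nat_lit 76) (nat_lit 2360661613) (nat_lit 440) (nat_lit 5) (nat_lit 452) (nat_lit 5) (nat_lit 441) (nat_lit 5) (nat_lit 427) (nat_lit 377) (nat_lit 336))) (XT.nd (nat_lit 78) (nat_lit 912) (nat_lit 0) (XT.lf (nat_lit 0) (nat_lit 4224616771) (nat_lit 912) (nat_lit 2790875836) (nat_lit 988) (nat_lit 804288279) (nat_lit 428)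 (nat_lit 5) (nat_lit 440) (nat_lit 5) (nat_lit 441) (nat_lit 5) (nat_lit 428) (nat_lit 377) (nat_lit 335)) (XT.lf (nat_lit 0) (nat_lit 1809284713) (nat_lit 836) (nat_lit 100109065) (nat_lit 912) (nat_lit 5970836797) (nat_lit 416) (nat_lit 5) (nat_lit 427) (nat_lit 5) (nat_lit 428) (nat_lit 5) (nat_lit 429) (nat_lit 377) (nat_lit 334)))))) (XT.nd (nat_lit 468) (nat_lit 3648) (nat_lit 0) (XT.nd (nat_lit 234) (nat_lit 1596) (nat_lit 0) (XT.nd (nat_lit 78) (nat_lit 1672) (nat_lit 0) (XT.lf (nat_lit 0) (nat_lit 4662990664) (nat_lit 912) (nat_lit 643250464) (nat_lit 76) (nat_lit 2635613592) (nat_lit 416) (nat_lit 5) (nat_lit 428) (nat_lit 5) (nat_lit 417) (nat_lit 5) (nat_lit 430) (nat_lit 377) (nat_lit 333)) (XT.nd (nat_lit 78) (nat_lit 836) (nat_lit 0) (XT.lf (nat_lit 0) (nat_lit 4907935925) (nat_lit 836) (nat_lit 2552081178) (nat_lit 912) (nat_lit 544927091) (nat_lit 405) (nat_lit 5) (nat_lit 416) (nat_lit 5) (nat_lit 417) (nat_lit 5) (nat_lit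 431) (nat_lit 377) (nat_lit 332)) (XT.lf (nat_lit 0) (nat_lit 2192659634) (nat_lit 836) (nat_lit 5592806145) (nat_lit 76) (nat_lit 283970381) (nat_lit 394) (nat_lit 5) (nat_lit 405) (nat_lit 5) (nat_lit 395) (nat_lit 5) (nat_lit 432) (nat_lit 377) (nat_lit 331)))) (XT.nd (nat_lit 78) (nat_lit 1596) (nat_lit 0) (XT.lf (nat_lit 0) (nat_lit 4972131465) (nat_lit 836) (nat_lit 1269181) (nat_lit 76) (nat_lit 3161856680) (nat_lit 394) (nat_lit 5) (nat_lit 405) (nat_lit 5) (nat_lit 395) (nat_lit 5) (nat_lit 433) (nat_lit 377) (nat_lit 330)) (XT.nd (nat_lit 78) (nat_lit 836) (nat_lit 0) (XT.lf (nat_lit 0) (nat_lit 5728661265) (nat_lit 760) (nat_lit 2073178419) (nat_lit 836) (nat_lit 400662293) (nat_lit 384) (nat_lit 5) (nat_lit 394) (nat_lit 5) (nat_lit 395) (nat_lit 5) (nat_lit 434) (nat_lit 377) (nat_lit 329)) (XT.lf (nat_lit 0) (nat_lit 2370303602) (nat_lit 836) (nat_lit 4996509878) (nat_lit 76) (nat_lit 904265116) (nat_lit 373) (nat_lit 5)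 (nat_lit 384) (nat_lit 5) (nat_lit 374) (nat_lit 5) (nat_lit 435) (nat_lit 377) (nat_lit 328))))) (XT.nd (nat_lit 234) (nat_lit 2128) (nat_lit 0) (XT.nd (nat_lit 78) (nat_lit 760) (nat_lit 0) (XT.lf (nat_lit 0) (nat_lit 775175233) (nat_lit 760) (nat_lit 4409793560) (nat_lit 836) (nat_lit 3156132091) (nat_lit 363) (nat_lit 5) (nat_lit 373) (nat_lit 5) (nat_lit 374) (nat_lit 5) (nat_lit 436) (nat_lit 377) (nat_lit 327)) (XT.nd (nat_lit 78) (nat_lit 760) (nat_lit 0) (XT.lf (nat_lit 0) (nat_lit 6681063782) (nat_lit 760) (nat_lit 1367061614) (nat_lit 836) (nat_lit 364554259) (nat_lit 363) (nat_lit 5) (nat_lit 373) (nat_lit 5) (nat_lit 374) (nat_lit 5) (nat_lit 437) (nat_lit 377) (nat_lit 326)) (XT.lf (nat_lit 0) (nat_lit 2448348787) (nat_lit 760) (nat_lit 4287216391) (nat_lit 76) (nat_lit 1749841282) (nat_lit 353) (nat_lit 5) (nat_lit 363) (nat_lit 5) (nat_lit 354) (nat_lit 5) (nat_lit 438) (nat_lit 377) (nat_lit 325)))) (XT.nd (nat_lit 156)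 (nat_lit 1444) (nat_lit 0) (XT.nd (nat_lit 78) (nat_lit 0) (nat_lit 0) (XT.lf (nat_lit 0) (nat_lit 1672118134) (nat_lit 684) (nat_lit 3631768077) (nat_lit 760) (nat_lit 3255828243) (nat_lit 344) (nat_lit 5) (nat_lit 353) (nat_lit 5) (nat_lit 354) (nat_lit 5) (nat_lit 439) (nat_lit 377) (nat_lit 324)) (XT.lf (nat_lit 0) (nat_lit 7760099283) (nat_lit 684) (nat_lit 445326170) (nat_lit 760) (nat_lit 430305332) (nat_lit 344) (nat_lit 5) (nat_lit 353) (nat_lit 5) (nat_lit 354) (nat_lit 5) (nat_lit 440) (nat_lit 377) (nat_lit 323))) (XT.nd (nat_lit 78) (nat_lit 684) (nat_lit 0) (XT.lf (nat_lit 0) (nat_lit 2432863500) (nat_lit 760) (nat_lit 3470102330) (nat_lit 76) (nat_lit 2809717441) (nat_lit 334) (nat_lit 5) (nat_lit 344) (nat_lit 5) (nat_lit 335) (nat_lit 5) (nat_lit 441) (nat_lit 377) (nat_lit 322)) (XT.lf (nat_lit 0) (nat_lit 2684716963) (nat_lit 684) (nat_lit 2650164081) (nat_lit 760) (nat_lit 3456489935) (nat_lit 325) (nat_lit 5) (nat_lit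 334) (nat_lit 5) (nat_lit 335) (nat_lit 5) (nat_lit 442) (nat_lit 377) (nat_lit 321))))))) (XT.nd (nat_lit 1014) (nat_lit 4940) (nat_lit 0) (XT.nd (nat_lit 468) (nat_lit 2888) (nat_lit 0) (XT.nd (nat_lit 234) (nat_lit 1292) (nat_lit 0) (XT.nd (nat_lit 78) (nat_lit 684) (nat_lit 0) (XT.lf (nat_lit 0) (nat_lit 86132334) (nat_lit 608) (nat_lit 8198574615) (nat_lit 684) (nat_lit 587130132) (nat_lit 317) (nat_lit 5) (nat_lit 325) (nat_lit 5) (nat_lit 326) (nat_lit 5) (nat_lit 443) (nat_lit 377) (nat_lit 320)) (XT.nd (nat_lit 78) (nat_lit 608) (nat_lit 0) (XT.lf (nat_lit 0) (nat_lit 2329354208) (nat_lit 684) (nat_lit 2549753345) (nat_lit 76) (nat_lit 4074092708) (nat_lit 316) (nat_lit 5) (nat_lit 325) (nat_lit 5) (nat_lit 317) (nat_lit 5) (nat_lit 444) (nat_lit 377) (nat_lit 319)) (XT.lf (nat_lit 0) (nat_lit 3808746247) (nat_lit 608) (nat_lit 1474669941) (nat_lit 684) (nat_lit 3752954706) (nat_lit 308) (nat_lit 5) (nat_lit 316) (nat_lit 5)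 (nat_lit 317) (nat_lit 5) (nat_lit 445) (nat_lit 377) (nat_lit 318)))) (XT.nd (nat_lit 78) (nat_lit 684) (nat_lit 0) (XT.lf (nat_lit 0) (nat_lit 1161674494) (nat_lit 608) (nat_lit 7135352630) (nat_lit 684) (nat_lit 824168460) (nat_lit 300) (nat_lit 5) (nat_lit 308) (nat_lit 5) (nat_lit 309) (nat_lit 5) (nat_lit 446) (nat_lit 377) (nat_lit 317)) (XT.nd (nat_lit 78) (nat_lit 608) (nat_lit 0) (XT.lf (nat_lit 0) (nat_lit 2142805047) (nat_lit 684) (nat_lit 1530202287) (nat_lit 76) (nat_lit 5534268894) (nat_lit 299) (nat_lit 5) (nat_lit 308) (nat_lit 5) (nat_lit 300) (nat_lit 5) (nat_lit 447) (nat_lit 377) (nat_lit 316)) (XT.lf (nat_lit 0) (nat_lit 5040543305) (nat_lit 608) (nat_lit 113907099) (nat_lit 684) (nat_lit 4140591763) (nat_lit 291) (nat_lit 5) (nat_lit 299) (nat_lit 5) (nat_lit 300) (nat_lit 5) (nat_lit 448) (nat_lit 377) (nat_lit 315))))) (XT.nd (nat_lit 234) (nat_lit 1672) (nat_lit 0) (XT.nd (nat_lit 78) (nat_lit 684) (nat_lit 0)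 (XT.lf (nat_lit 0) (nat_lit 2338723142) (nat_lit 532) (nat_lit 5899918190) (nat_lit 608) (nat_lit 1145675842) (nat_lit 284) (nat_lit 5) (nat_lit 291) (nat_lit 5) (nat_lit 292) (nat_lit 5) (nat_lit 449) (nat_lit 377) (nat_lit 314)) (XT.nd (nat_lit 78) (nat_lit 608) (nat_lit 0) (XT.lf (nat_lit 0) (nat_lit 1877714175) (nat_lit 608) (nat_lit 414964203) (nat_lit 76) (nat_lit 7182579105) (nat_lit 283) (nat_lit 5) (nat_lit 291) (nat_lit 5) (nat_lit 284) (nat_lit 5) (nat_lit 450) (nat_lit 377) (nat_lit 313)) (XT.lf (nat_lit 0) (nat_lit 4961722708) (nat_lit 684) (nat_lit 3200015063) (nat_lit 76) (nat_lit 1405817543) (nat_lit 275) (nat_lit 5) (nat_lit 284) (nat_lit 5) (nat_lit 276) (nat_lit 5) (nat_lit 451) (nat_lit 377) (nat_lit 312)))) (XT.nd (nat_lit 156) (nat_lit 532) (nat_lit 0) (XT.nd (nat_lit 78) (nat_lit 608) (nat_lit 0) (XT.lf (nat_lit 0) (nat_lit 3614218859) (nat_lit 532) (nat_lit 4499774219) (nat_lit 608) (nat_lit 1547574389) (nat_lit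 268) (nat_lit 5) (nat_lit 275) (nat_lit 5) (nat_lit 276) (nat_lit 5) (nat_lit 452) (nat_lit 377) (nat_lit 311)) (XT.lf (nat_lit 0) (nat_lit 803469287) (nat_lit 532) (nat_lit 739874580) (nat_lit 608) (nat_lit 8214069688) (nat_lit 260) (nat_lit 5) (nat_lit 267) (nat_lit 5) (nat_lit 268) (nat_lit 5) (nat_lit 453) (nat_lit 377) (nat_lit 310))) (XT.nd (nat_lit 78) (nat_lit 532) (nat_lit 0) (XT.lf (nat_lit 0) (nat_lit 4701888211) (nat_lit 608) (nat_lit 2059793792) (nat_lit 76) (nat_lit 3092759379) (nat_lit 260) (nat_lit 5) (nat_lit 268) (nat_lit 5) (nat_lit 261) (nat_lit 5) (nat_lit 454) (nat_lit 377) (nat_lit 309)) (XT.lf (nat_lit 0) (nat_lit 4985577626) (nat_lit 532) (nat_lit 2941535019) (nat_lit 608) (nat_lit 2026226934) (nat_lit 253) (nat_lit 5) (nat_lit 260) (nat_lit 5) (nat_lit 261) (nat_lit 5) (nat_lit 455) (nat_lit 377) (nat_lit 308)))))) (XT.nd (nat_lit 546) (nat_lit 2280) (nat_lit 0) (XT.nd (nat_lit 234) (nat_lit 1596) (nat_lit 0)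 (XT.nd (nat_lit 78) (nat_lit 456) (nat_lit 0) (XT.lf (nat_lit 0) (nat_lit 1147769091) (nat_lit 608) (nat_lit 7941829327) (nat_lit 76) (nat_lit 964458526) (nat_lit 245) (nat_lit 5) (nat_lit 253) (nat_lit 5) (nat_lit 246) (nat_lit 5) (nat_lit 456) (nat_lit 377) (nat_lit 307)) (XT.nd (nat_lit 78) (nat_lit 456) (nat_lit 0) (XT.lf (nat_lit 0) (nat_lit 4377818314) (nat_lit 608) (nat_lit 835636432) (nat_lit 76) (nat_lit 4942671954) (nat_lit 245) (nat_lit 5) (nat_lit 253) (nat_lit 5) (nat_lit 246) (nat_lit 5) (nat_lit 457) (nat_lit 377) (nat_lit 306)) (XT.lf (nat_lit 0) (nat_lit 6450663354) (nat_lit 456) (nat_lit 1230982897) (nat_lit 532) (nat_lit 2578408045) (nat_lit 239) (nat_lit 5) (nat_lit 245) (nat_lit 5) (nat_lit 246) (nat_lit 5) (nat_lit 458) (nat_lit 377) (nat_lit 305)))) (XT.nd (nat_lit 156) (nat_lit 532) (nat_lit 0) (XT.nd (nat_lit 78) (nat_lit 456) (nat_lit 0) (XT.lf (nat_lit 0) (nat_lit 690948565) (nat_lit 608) (nat_lit 6861519793)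 (nat_lit 76) (nat_lit 2813214102) (nat_lit 231) (nat_lit 5) (nat_lit 239) (nat_lit 5) (nat_lit 232) (nat_lit 5) (nat_lit 459) (nat_lit 377) (nat_lit 304)) (XT.lf (nat_lit 0) (nat_lit 476576127) (nat_lit 456) (nat_lit 3519269431) (nat_lit 532) (nat_lit 6477143200) (nat_lit 225) (nat_lit 5) (nat_lit 231) (nat_lit 5) (nat_lit 232) (nat_lit 5) (nat_lit 460) (nat_lit 377) (nat_lit 303))) (XT.nd (nat_lit 78) (nat_lit 532) (nat_lit 0) (XT.lf (nat_lit 0) (nat_lit 7384953017) (nat_lit 532) (nat_lit 2578467567) (nat_lit 76) (nat_lit 618658348) (nat_lit 225) (nat_lit 5) (nat_lit 232) (nat_lit 5) (nat_lit 226) (nat_lit 5) (nat_lit 461) (nat_lit 377) (nat_lit 302)) (XT.lf (nat_lit 0) (nat_lit 170899700) (nat_lit 532) (nat_lit 5710400202) (nat_lit 76) (nat_lit 4811544616) (nat_lit 218) (nat_lit 5) (nat_lit 225) (nat_lit 5) (nat_lit 219) (nat_lit 5) (nat_lit 462) (nat_lit 377) (nat_lit 301))))) (XT.nd (nat_lit 234) (nat_lit 1368) (nat_lit 0) (XT.nd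 (nat_lit 78) (nat_lit 456) (nat_lit 0) (XT.lf (nat_lit 0) (nat_lit 1881017531) (nat_lit 456) (nat_lit 1680773225) (nat_lit 532) (nat_lit 7243645710) (nat_lit 212) (nat_lit 5) (nat_lit 218) (nat_lit 5) (nat_lit 219) (nat_lit 5) (nat_lit 463) (nat_lit 377) (nat_lit 300)) (XT.nd (nat_lit 78) (nat_lit 456) (nat_lit 0) (XT.lf (nat_lit 0) (nat_lit 7044840363) (nat_lit 532) (nat_lit 1281632677) (nat_lit 76) (nat_lit 2593320400) (nat_lit 212) (nat_lit 5) (nat_lit 219) (nat_lit 5) (nat_lit 213) (nat_lit 5) (nat_lit 464) (nat_lit 377) (nat_lit 299)) (XT.lf (nat_lit 0) (nat_lit 6542975680) (nat_lit 456) (nat_lit 4077659919) (nat_lit 532) (nat_lit 415340260) (nat_lit 206) (nat_lit 5) (nat_lit 212) (nat_lit 5) (nat_lit 213) (nat_lit 5) (nat_lit 465) (nat_lit 377) (nat_lit 298)))) (XT.nd (nat_lit 156) (nat_lit 456) (nat_lit 0) (XT.nd (nat_lit 78) (nat_lit 456) (nat_lit 0) (XT.lf (nat_lit 0) (nat_lit 3074612384) (nat_lit 456) (nat_lit 7790790932) (nat_lit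 76) (nat_lit 288634693) (nat_lit 200) (nat_lit 5) (nat_lit 206) (nat_lit 5) (nat_lit 201) (nat_lit 5) (nat_lit 466) (nat_lit 377) (nat_lit 297)) (XT.lf (nat_lit 0) (nat_lit 88855785) (nat_lit 456) (nat_lit 6567660429) (nat_lit 532) (nat_lit 4617336010) (nat_lit 194) (nat_lit 5) (nat_lit 200) (nat_lit 5) (nat_lit 201) (nat_lit 5) (nat_lit 467) (nat_lit 377) (nat_lit 296))) (XT.nd (nat_lit 78) (nat_lit 456) (nat_lit 0) (XT.lf (nat_lit 0) (nat_lit 8185984801) (nat_lit 456) (nat_lit 2146426402) (nat_lit 532) (nat_lit 1063204456) (nat_lit 194) (nat_lit 5) (nat_lit 200) (nat_lit 5) (nat_lit 201) (nat_lit 5) (nat_lit 468) (nat_lit 377) (nat_lit 295)) (XT.lf (nat_lit 0) (nat_lit 2546433737) (nat_lit 456) (nat_lit 6606969616) (nat_lit 76) (nat_lit 2365717822) (nat_lit 188) (nat_lit 5) (nat_lit 194) (nat_lit 5) (nat_lit 189) (nat_lit 5) (nat_lit 469) (nat_lit 377) (nat_lit 294))))))))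
noncomputable def xc48 : XT := (XT.nd (nat_lit 53664) (nat_lit 0) (nat_lit 25384) (XT.nd (nat_lit 52650) (nat_lit 0) (nat_lit 47348) (XT.nd (nat_lit 468) (nat_lit 1824) (nat_lit 0) (XT.nd (nat_lit 234) (nat_lit 760) (nat_lit 0) (XT.nd (nat_lit 78) (nat_lit 456) (nat_lit 0) (XT.lf (nat_lit 0) (nat_lit 1548725614) (nat_lit 380) (nat_lit 4681918168) (nat_lit 456) (nat_lit 5413980156) (nat_lit 183) (nat_lit 5) (nat_lit 188) (nat_lit 5) (nat_lit 189) (nat_lit 5) (nat_lit 470) (nat_lit 377) (nat_lit 293)) (XT.nd (nat_lit 78) (nat_lit 456) (nat_lit 0) (XT.lf (nat_lit 0) (nat_lit 9911993924) (nat_lit 380) (nat_lit 91814036) (nat_lit 456) (nat_lit 1768523396) (nat_lit 183) (nat_lit 5) (nat_lit 188) (nat_lit 5) (nat_lit 189) (nat_lit 5) (nat_lit 471) (nat_lit 377) (nat_lit 292)) (XT.lf (nat_lit 0) (nat_lit 1968298956) (nat_lit 456) (nat_lit 5363295895) (nat_lit 76) (nat_lit 4569864300) (nat_lit 177) (nat_lit 5) (nat_lit 183) (nat_lit 5) (nat_lit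 178) (nat_lit 5) (nat_lit 472) (nat_lit 377) (nat_lit 291)))) (XT.nd (nat_lit 78) (nat_lit 380) (nat_lit 0) (XT.lf (nat_lit 0) (nat_lit 3080156975) (nat_lit 380) (nat_lit 2680701884) (nat_lit 456) (nat_lit 6271983211) (nat_lit 172) (nat_lit 5) (nat_lit 177) (nat_lit 5) (nat_lit 178) (nat_lit 5) (nat_lit 473) (nat_lit 377) (nat_lit 290)) (XT.nd (nat_lit 78) (nat_lit 380) (nat_lit 0) (XT.lf (nat_lit 0) (nat_lit 9650546034) (nat_lit 456) (nat_lit 459520614) (nat_lit 76) (nat_lit 2056360477) (nat_lit 172) (nat_lit 5) (nat_lit 178) (nat_lit 5) (nat_lit 173) (nat_lit 5) (nat_lit 474) (nat_lit 377) (nat_lit 289)) (XT.lf (nat_lit 0) (nat_lit 1341904487) (nat_lit 380) (nat_lit 4060741075) (nat_lit 76) (nat_lit 6898991271) (nat_lit 167) (nat_lit 5) (nat_lit 172) (nat_lit 5) (nat_lit 168) (nat_lit 5) (nat_lit 475) (nat_lit 377) (nat_lit 288))))) (XT.nd (nat_lit 234) (nat_lit 1064) (nat_lit 0) (XT.nd (nat_lit 78) (nat_lit 380) (nat_lit 0) (XT.lf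 (nat_lit 0) (nat_lit 4682661441) (nat_lit 380) (nat_lit 566320977) (nat_lit 456) (nat_lit 7190119231) (nat_lit 162) (nat_lit 5) (nat_lit 167) (nat_lit 5) (nat_lit 168) (nat_lit 5) (nat_lit 476) (nat_lit 377) (nat_lit 287)) (XT.nd (nat_lit 78) (nat_lit 76) (nat_lit 0) (XT.lf (nat_lit 0) (nat_lit 1017737972) (nat_lit 304) (nat_lit 8251291845) (nat_lit 380) (nat_lit 3309589386) (nat_lit 158) (nat_lit 5) (nat_lit 162) (nat_lit 5) (nat_lit 163) (nat_lit 5) (nat_lit 477) (nat_lit 377) (nat_lit 286)) (XT.lf (nat_lit 0) (nat_lit 668702316) (nat_lit 380) (nat_lit 2700009092) (nat_lit 76) (nat_lit 9351558342) (nat_lit 157) (nat_lit 5) (nat_lit 162) (nat_lit 5) (nat_lit 158) (nat_lit 5) (nat_lit 478) (nat_lit 377) (nat_lit 285)))) (XT.nd (nat_lit 156) (nat_lit 380) (nat_lit 0) (XT.nd (nat_lit 78) (nat_lit 304) (nat_lit 0) (XT.lf (nat_lit 0) (nat_lit 4707378740) (nat_lit 456) (nat_lit 6518767013) (nat_lit 76) (nat_lit 1637667341) (nat_lit 152) (nat_lit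 5) (nat_lit 158) (nat_lit 5) (nat_lit 153) (nat_lit 5) (nat_lit 479) (nat_lit 377) (nat_lit 284)) (XT.lf (nat_lit 0) (nat_lit 2565323779) (nat_lit 304) (nat_lit 6291900436) (nat_lit 380) (nat_lit 4152395180) (nat_lit 148) (nat_lit 5) (nat_lit 152) (nat_lit 5) (nat_lit 153) (nat_lit 5) (nat_lit 480) (nat_lit 377) (nat_lit 283))) (XT.nd (nat_lit 78) (nat_lit 380) (nat_lit 0) (XT.lf (nat_lit 0) (nat_lit 11876118695) (nat_lit 304) (nat_lit 1231128432) (nat_lit 380) (nat_lit 50751084) (nat_lit 148) (nat_lit 5) (nat_lit 152) (nat_lit 5) (nat_lit 153) (nat_lit 5) (nat_lit 481) (nat_lit 377) (nat_lit 282)) (XT.lf (nat_lit 0) (nat_lit 4131039034) (nat_lit 380) (nat_lit 5233871306) (nat_lit 76) (nat_lit 3942851245) (nat_lit 143) (nat_lit 5) (nat_lit 148) (nat_lit 5) (nat_lit 144) (nat_lit 5) (nat_lit 482) (nat_lit 377) (nat_lit 281)))))) (XT.nd (nat_lit 468) (nat_lit 2204) (nat_lit 0) (XT.nd (nat_lit 234) (nat_lit 380) (nat_lit 0) (XT.nd (nat_lit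 78) (nat_lit 304) (nat_lit 0) (XT.lf (nat_lit 0) (nat_lit 96021884) (nat_lit 228) (nat_lit 3032947267) (nat_lit 0) (nat_lit 96021884) (nat_lit 804) (nat_lit 5) (nat_lit 807) (nat_lit 4) (nat_lit 804) (nat_lit 4) (nat_lit 384) (nat_lit 378) (nat_lit 378)) (XT.nd (nat_lit 78) (nat_lit 304) (nat_lit 0) (XT.lf (nat_lit 0) (nat_lit 3398632489) (nat_lit 228) (nat_lit 2632867542) (nat_lit 0) (nat_lit 422718070) (nat_lit 804) (nat_lit 5) (nat_lit 807) (nat_lit 4) (nat_lit 804) (nat_lit 4) (nat_lit 385) (nat_lit 378) (nat_lit 377)) (XT.lf (nat_lit 0) (nat_lit 131681497) (nat_lit 304) (nat_lit 5627480949) (nat_lit 76) (nat_lit 700876387) (nat_lit 800) (nat_lit 5) (nat_lit 804) (nat_lit 5) (nat_lit 801) (nat_lit 4) (nat_lit 386) (nat_lit 378) (nat_lit 376)))) (XT.nd (nat_lit 78) (nat_lit 380) (nat_lit 0) (XT.lf (nat_lit 0) (nat_lit 3279091519) (nat_lit 304) (nat_lit 2130068738) (nat_lit 76) (nat_lit 1057665535) (nat_lit 800) (nat_lit 5) (nat_lit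 804) (nat_lit 5) (nat_lit 801) (nat_lit 4) (nat_lit 387) (nat_lit 378) (nat_lit 375)) (XT.nd (nat_lit 78) (nat_lit 76) (nat_lit 0) (XT.lf (nat_lit 0) (nat_lit 1409627791) (nat_lit 304) (nat_lit 5010041526) (nat_lit 380) (nat_lit 55474784) (nat_lit 796) (nat_lit 5) (nat_lit 800) (nat_lit 5) (nat_lit 801) (nat_lit 4) (nat_lit 388) (nat_lit 378) (nat_lit 374)) (XT.lf (nat_lit 0) (nat_lit 3034447157) (nat_lit 380) (nat_lit 1501715945) (nat_lit 76) (nat_lit 1948334179) (nat_lit 795) (nat_lit 5) (nat_lit 800) (nat_lit 5) (nat_lit 796) (nat_lit 5) (nat_lit 389) (nat_lit 378) (nat_lit 373))))) (XT.nd (nat_lit 234) (nat_lit 1292) (nat_lit 0) (XT.nd (nat_lit 78) (nat_lit 532) (nat_lit 0) (XT.lf (nat_lit 0) (nat_lit 2114760849) (nat_lit 380) (nat_lit 4007731189) (nat_lit 456) (nat_lit 372796807) (nat_lit 790) (nat_lit 5) (nat_lit 795) (nat_lit 5) (nat_lit 796) (nat_lit 5) (nat_lit 390) (nat_lit 378) (nat_lit 372)) (XT.nd (nat_lit 78) (nat_lit 456)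 (nat_lit 0) (XT.lf (nat_lit 0) (nat_lit 2663912200) (nat_lit 456) (nat_lit 746871486) (nat_lit 76) (nat_lit 3096469636) (nat_lit 789) (nat_lit 5) (nat_lit 795) (nat_lit 5) (nat_lit 790) (nat_lit 5) (nat_lit 391) (nat_lit 378) (nat_lit 371)) (XT.lf (nat_lit 0) (nat_lit 2949918532) (nat_lit 456) (nat_lit 2751135139) (nat_lit 532) (nat_lit 819460331) (nat_lit 783) (nat_lit 5) (nat_lit 789) (nat_lit 5) (nat_lit 790) (nat_lit 5) (nat_lit 392) (nat_lit 378) (nat_lit 370)))) (XT.nd (nat_lit 156) (nat_lit 684) (nat_lit 0) (XT.nd (nat_lit 78) (nat_lit 0) (nat_lit 0) (XT.lf (nat_lit 0) (nat_lit 137454017) (nat_lit 532) (nat_lit 2029889139) (nat_lit 608) (nat_lit 4367759645) (nat_lit 775) (nat_lit 5) (nat_lit 782) (nat_lit 5) (nat_lit 783) (nat_lit 5) (nat_lit 393) (nat_lit 378) (nat_lit 369)) (XT.lf (nat_lit 0) (nat_lit 3916432331) (nat_lit 532) (nat_lit 1237772322) (nat_lit 608) (nat_lit 1396644498) (nat_lit 775) (nat_lit 5) (nat_lit 782) (nat_lit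 5) (nat_lit 783) (nat_lit 5) (nat_lit 394) (nat_lit 378) (nat_lit 368))) (XT.nd (nat_lit 78) (nat_lit 0) (nat_lit 0) (XT.lf (nat_lit 0) (nat_lit 1162536711) (nat_lit 608) (nat_lit 385787478) (nat_lit 684) (nat_lit 5019656873) (nat_lit 766) (nat_lit 5) (nat_lit 774) (nat_lit 5) (nat_lit 775) (nat_lit 5) (nat_lit 395) (nat_lit 378) (nat_lit 367)) (XT.lf (nat_lit 0) (nat_lit 4484021797) (nat_lit 684) (nat_lit 1573916180) (nat_lit 76) (nat_lit 528322385) (nat_lit 766) (nat_lit 5) (nat_lit 775) (nat_lit 5) (nat_lit 767) (nat_lit 5) (nat_lit 396) (nat_lit 378) (nat_lit 366))))))) (XT.nd (nat_lit 1014) (nat_lit 13908) (nat_lit 0) (XT.nd (nat_lit 468) (nat_lit 4636) (nat_lit 0) (XT.nd (nat_lit 234) (nat_lit 1900) (nat_lit 0) (XT.nd (nat_lit 78) (nat_lit 760) (nat_lit 0) (XT.lf (nat_lit 0) (nat_lit 810280805) (nat_lit 760) (nat_lit 4295728096) (nat_lit 76) (nat_lit 1499818733) (nat_lit 756) (nat_lit 5) (nat_lit 766) (nat_lit 5) (nat_lit 757) (nat_lit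 5) (nat_lit 397) (nat_lit 378) (nat_lit 365)) (XT.nd (nat_lit 78) (nat_lit 760) (nat_lit 0) (XT.lf (nat_lit 0) (nat_lit 3695124098) (nat_lit 760) (nat_lit 393559478) (nat_lit 76) (nat_lit 2537980310) (nat_lit 756) (nat_lit 5) (nat_lit 766) (nat_lit 5) (nat_lit 757) (nat_lit 5) (nat_lit 398) (nat_lit 378) (nat_lit 364)) (XT.lf (nat_lit 0) (nat_lit 3587504427) (nat_lit 760) (nat_lit 3006358605) (nat_lit 836) (nat_lit 54929856) (nat_lit 746) (nat_lit 5) (nat_lit 756) (nat_lit 5) (nat_lit 757) (nat_lit 5) (nat_lit 399) (nat_lit 378) (nat_lit 363)))) (XT.nd (nat_lit 78) (nat_lit 988) (nat_lit 0) (XT.lf (nat_lit 0) (nat_lit 928905436) (nat_lit 836) (nat_lit 1854721311) (nat_lit 912) (nat_lit 3888520329) (nat_lit 734) (nat_lit 5) (nat_lit 745) (nat_lit 5) (nat_lit 746) (nat_lit 5) (nat_lit 400) (nat_lit 378) (nat_lit 362)) (XT.nd (nat_lit 78) (nat_lit 988) (nat_lit 0) (XT.lf (nat_lit 0) (nat_lit 4993560088) (nat_lit 836) (nat_lit 639688815)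 (nat_lit 912) (nat_lit 1063611585) (nat_lit 734) (nat_lit 5) (nat_lit 745) (nat_lit 5) (nat_lit 746) (nat_lit 5) (nat_lit 401) (nat_lit 378) (nat_lit 361)) (XT.lf (nat_lit 0) (nat_lit 1749016381) (nat_lit 988) (nat_lit 4336436342) (nat_lit 76) (nat_lit 637278164) (nat_lit 721) (nat_lit 5) (nat_lit 734) (nat_lit 5) (nat_lit 722) (nat_lit 5) (nat_lit 402) (nat_lit 378) (nat_lit 360))))) (XT.nd (nat_lit 234) (nat_lit 2508) (nat_lit 0) (XT.nd (nat_lit 78) (nat_lit 2128) (nat_lit 0) (XT.lf (nat_lit 0) (nat_lit 4555840881) (nat_lit 988) (nat_lit 226977289) (nat_lit 76) (nat_lit 1967116199) (nat_lit 721) (nat_lit 5) (nat_lit 734) (nat_lit 5) (nat_lit 722) (nat_lit 5) (nat_lit 403) (nat_lit 378) (nat_lit 359)) (XT.nd (nat_lit 78) (nat_lit 1064) (nat_lit 0) (XT.lf (nat_lit 0) (nat_lit 595923292) (nat_lit 1064) (nat_lit 2812162995) (nat_lit 76) (nat_lit 3370248148) (nat_lit 707) (nat_lit 5) (nat_lit 721) (nat_lit 5) (nat_lit 708) (nat_lit 5) (nat_lit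 404) (nat_lit 378) (nat_lit 358)) (XT.lf (nat_lit 0) (nat_lit 1395666695) (nat_lit 1064) (nat_lit 1965508896) (nat_lit 1140) (nat_lit 3446860570) (nat_lit 693) (nat_lit 5) (nat_lit 707) (nat_lit 5) (nat_lit 708) (nat_lit 5) (nat_lit 405) (nat_lit 378) (nat_lit 357)))) (XT.nd (nat_lit 156) (nat_lit 1292) (nat_lit 0) (XT.nd (nat_lit 78) (nat_lit 1216) (nat_lit 0) (XT.lf (nat_lit 0) (nat_lit 5678997302) (nat_lit 1064) (nat_lit 460706771) (nat_lit 1140) (nat_lit 699468427) (nat_lit 693) (nat_lit 5) (nat_lit 707) (nat_lit 5) (nat_lit 708) (nat_lit 5) (nat_lit 406) (nat_lit 378) (nat_lit 356)) (XT.lf (nat_lit 0) (nat_lit 2042983594) (nat_lit 1216) (nat_lit 3720565409) (nat_lit 76) (nat_lit 1107755665) (nat_lit 677) (nat_lit 5) (nat_lit 693) (nat_lit 5) (nat_lit 678) (nat_lit 5) (nat_lit 407) (nat_lit 378) (nat_lit 355))) (XT.nd (nat_lit 78) (nat_lit 76) (nat_lit 0) (XT.lf (nat_lit 0) (nat_lit 612353049) (nat_lit 1216) (nat_lit 4174298128) (nat_lit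 1292) (nat_lit 2118221184) (nat_lit 661) (nat_lit 5) (nat_lit 677) (nat_lit 5) (nat_lit 678) (nat_lit 5) (nat_lit 408) (nat_lit 378) (nat_lit 354)) (XT.lf (nat_lit 0) (nat_lit 604065862) (nat_lit 1292) (nat_lit 1908693492) (nat_lit 76) (nat_lit 4426938987) (nat_lit 660) (nat_lit 5) (nat_lit 677) (nat_lit 5) (nat_lit 661) (nat_lit 5) (nat_lit 409) (nat_lit 378) (nat_lit 353)))))) (XT.nd (nat_lit 468) (nat_lit 8132) (nat_lit 0) (XT.nd (nat_lit 234) (nat_lit 3040) (nat_lit 0) (XT.nd (nat_lit 78) (nat_lit 1444) (nat_lit 0) (XT.lf (nat_lit 0) (nat_lit 2534884778) (nat_lit 1292) (nat_lit 776512351) (nat_lit 1368) (nat_lit 3664364454) (nat_lit 643) (nat_lit 5) (nat_lit 660) (nat_lit 5) (nat_lit 661) (nat_lit 5) (nat_lit 410) (nat_lit 378) (nat_lit 352)) (XT.nd (nat_lit 78) (nat_lit 76) (nat_lit 0) (XT.lf (nat_lit 0) (nat_lit 26696654) (nat_lit 1368) (nat_lit 6009066259) (nat_lit 1444) (nat_lit 977525418) (nat_lit 625) (nat_lit 5) (nat_lit 643)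 (nat_lit 5) (nat_lit 644) (nat_lit 5) (nat_lit 411) (nat_lit 378) (nat_lit 351)) (XT.lf (nat_lit 0) (nat_lit 1718863767) (nat_lit 1444) (nat_lit 2472397917) (nat_lit 76) (nat_lit 2860496270) (nat_lit 624) (nat_lit 5) (nat_lit 643) (nat_lit 5) (nat_lit 625) (nat_lit 5) (nat_lit 412) (nat_lit 378) (nat_lit 350)))) (XT.nd (nat_lit 78) (nat_lit 1596) (nat_lit 0) (XT.lf (nat_lit 0) (nat_lit 2105712604) (nat_lit 1444) (nat_lit 2308960680) (nat_lit 1520) (nat_lit 2677022825) (nat_lit 605) (nat_lit 5) (nat_lit 624) (nat_lit 5) (nat_lit 625) (nat_lit 5) (nat_lit 413) (nat_lit 378) (nat_lit 349)) (XT.nd (nat_lit 78) (nat_lit 1596) (nat_lit 0) (XT.lf (nat_lit 0) (nat_lit 6761701675) (nat_lit 1444) (nat_lit 364960104) (nat_lit 1520) (nat_lit 6525992) (nat_lit 605) (nat_lit 5) (nat_lit 624) (nat_lit 5) (nat_lit 625) (nat_lit 5) (nat_lit 414) (nat_lit 378) (nat_lit 348)) (XT.lf (nat_lit 0) (nat_lit 2667073173) (nat_lit 1596) (nat_lit 2859088893) (nat_lit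 76) (nat_lit 1649287714) (nat_lit 584) (nat_lit 5) (nat_lit 605) (nat_lit 5) (nat_lit 585) (nat_lit 5) (nat_lit 415) (nat_lit 378) (nat_lit 347))))) (XT.nd (nat_lit 234) (nat_lit 4788) (nat_lit 0) (XT.nd (nat_lit 78) (nat_lit 1748) (nat_lit 0) (XT.lf (nat_lit 0) (nat_lit 1858619489) (nat_lit 1596) (nat_lit 3499603915) (nat_lit 1672) (nat_lit 1861049431) (nat_lit 563) (nat_lit 5) (nat_lit 584) (nat_lit 5) (nat_lit 585) (nat_lit 5) (nat_lit 416) (nat_lit 378) (nat_lit 346)) (XT.nd (nat_lit 78) (nat_lit 1672) (nat_lit 0) (XT.lf (nat_lit 0) (nat_lit 795086088) (nat_lit 1672) (nat_lit 607882607) (nat_lit 76) (nat_lit 5861557314) (nat_lit 562) (nat_lit 5) (nat_lit 584) (nat_lit 5) (nat_lit 563) (nat_lit 5) (nat_lit 417) (nat_lit 378) (nat_lit 345)) (XT.lf (nat_lit 0) (nat_lit 3460601549) (nat_lit 1748) (nat_lit 3080020576) (nat_lit 76) (nat_lit 770192556) (nat_lit 540) (nat_lit 5) (nat_lit 563) (nat_lit 5) (nat_lit 541) (nat_lit 5) (nat_lit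 418) (nat_lit 378) (nat_lit 344)))) (XT.nd (nat_lit 156) (nat_lit 2964) (nat_lit 0) (XT.nd (nat_lit 78) (nat_lit 76) (nat_lit 0) (XT.lf (nat_lit 0) (nat_lit 1782658485) (nat_lit 1748) (nat_lit 4371052501) (nat_lit 1824) (nat_lit 1204832469) (nat_lit 517) (nat_lit 5) (nat_lit 540) (nat_lit 5) (nat_lit 541) (nat_lit 5) (nat_lit 419) (nat_lit 378) (nat_lit 343)) (XT.lf (nat_lit 0) (nat_lit 1444339879) (nat_lit 1824) (nat_lit 680598743) (nat_lit 76) (nat_lit 5282684830) (nat_lit 516) (nat_lit 5) (nat_lit 540) (nat_lit 5) (nat_lit 517) (nat_lit 5) (nat_lit 420) (nat_lit 378) (nat_lit 342))) (XT.nd (nat_lit 78) (nat_lit 1140) (nat_lit 0) (XT.lf (nat_lit 0) (nat_lit 4110368648) (nat_lit 1900) (nat_lit 3145437568) (nat_lit 76) (nat_lit 202119442) (nat_lit 492) (nat_lit 5) (nat_lit 517) (nat_lit 5) (nat_lit 493) (nat_lit 5) (nat_lit 421) (nat_lit 378) (nat_lit 341)) (XT.lf (nat_lit 0) (nat_lit 1867895346) (nat_lit 1140) (nat_lit 4943945578) (nat_lit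 1216) (nat_lit 697750524) (nat_lit 477) (nat_lit 5) (nat_lit 492) (nat_lit 5) (nat_lit 493) (nat_lit 5) (nat_lit 422) (nat_lit 378) (nat_lit 340))))))))
noncomputable def xc49 : XT := (XT.nd (nat_lit 2028) (nat_lit 9044) (nat_lit 0) (XT.nd (nat_lit 1014) (nat_lit 6232) (nat_lit 0) (XT.nd (nat_lit 468) (nat_lit 4180) (nat_lit 0) (XT.nd (nat_lit 234) (nat_lit 1824) (nat_lit 0) (XT.nd (nat_lit 78) (nat_lit 1824) (nat_lit 0) (XT.lf (nat_lit 0) (nat_lit 1951654854) (nat_lit 1216) (nat_lit 599240305) (nat_lit 76) (nat_lit 5011677046) (nat_lit 476) (nat_lit 5) (nat_lit 492) (nat_lit 5) (nat_lit 477) (nat_lit 5) (nat_lit 423) (nat_lit 378) (nat_lit 339)) (XT.nd (nat_lit 78) (nat_lit 912) (nat_lit 0) (XT.lf (nat_lit 0) (nat_lit 4551742486) (nat_lit 912) (nat_lit 75124693) (nat_lit 988) (nat_lit 2990009920) (nat_lit 464) (nat_lit 5) (nat_lit 476) (nat_lit 5) (nat_lit 477) (nat_lit 5) (nat_lit 424) (nat_lit 378) (nat_lit 338)) (XT.lf (nat_lit 0)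 (nat_lit 2105337443) (nat_lit 912) (nat_lit 5237093211) (nat_lit 988) (nat_lit 330100500) (nat_lit 452) (nat_lit 5) (nat_lit 464) (nat_lit 5) (nat_lit 465) (nat_lit 5) (nat_lit 425) (nat_lit 378) (nat_lit 337)))) (XT.nd (nat_lit 78) (nat_lit 1748) (nat_lit 0) (XT.lf (nat_lit 0) (nat_lit 2326479403) (nat_lit 988) (nat_lit 372546650) (nat_lit 76) (nat_lit 5030468278) (nat_lit 451) (nat_lit 5) (nat_lit 464) (nat_lit 5) (nat_lit 452) (nat_lit 5) (nat_lit 426) (nat_lit 378) (nat_lit 336)) (XT.nd (nat_lit 78) (nat_lit 912) (nat_lit 0) (XT.lf (nat_lit 0) (nat_lit 4941238380) (nat_lit 836) (nat_lit 77053175) (nat_lit 912) (nat_lit 2769531162) (nat_lit 440) (nat_lit 5) (nat_lit 451) (nat_lit 5) (nat_lit 452) (nat_lit 5) (nat_lit 427) (nat_lit 378) (nat_lit 335)) (XT.lf (nat_lit 0) (nat_lit 2486868353) (nat_lit 912) (nat_lit 5267607424) (nat_lit 988) (nat_lit 93031180) (nat_lit 428) (nat_lit 5) (nat_lit 440) (nat_lit 5) (nat_lit 441) (nat_lit 5)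 (nat_lit 428) (nat_lit 378) (nat_lit 334))))) (XT.nd (nat_lit 234) (nat_lit 2356) (nat_lit 0) (XT.nd (nat_lit 78) (nat_lit 1748) (nat_lit 0) (XT.lf (nat_lit 0) (nat_lit 2577440813) (nat_lit 988) (nat_lit 8411670) (nat_lit 76) (nat_lit 5322689440) (nat_lit 427) (nat_lit 5) (nat_lit 440) (nat_lit 5) (nat_lit 428) (nat_lit 5) (nat_lit 429) (nat_lit 378) (nat_lit 333)) (XT.nd (nat_lit 78) (nat_lit 912) (nat_lit 0) (XT.lf (nat_lit 0) (nat_lit 5292976098) (nat_lit 912) (nat_lit 2497374402) (nat_lit 76) (nat_lit 180576799) (nat_lit 416) (nat_lit 5) (nat_lit 428) (nat_lit 5) (nat_lit 417) (nat_lit 5) (nat_lit 430) (nat_lit 378) (nat_lit 332)) (XT.lf (nat_lit 0) (nat_lit 21235772) (nat_lit 912) (nat_lit 5029644606) (nat_lit 76) (nat_lit 2983809440) (nat_lit 404) (nat_lit 5) (nat_lit 416) (nat_lit 5) (nat_lit 405) (nat_lit 5) (nat_lit 431) (nat_lit 378) (nat_lit 331)))) (XT.nd (nat_lit 156) (nat_lit 1596) (nat_lit 0) (XT.nd (nat_lit 78) (nat_lit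 0) (nat_lit 0) (XT.lf (nat_lit 0) (nat_lit 492517381) (nat_lit 760) (nat_lit 2223084974) (nat_lit 836) (nat_lit 5384230133) (nat_lit 394) (nat_lit 5) (nat_lit 404) (nat_lit 5) (nat_lit 405) (nat_lit 5) (nat_lit 432) (nat_lit 378) (nat_lit 330)) (XT.lf (nat_lit 0) (nat_lit 5459577417) (nat_lit 836) (nat_lit 2025388798) (nat_lit 76) (nat_lit 681397376) (nat_lit 394) (nat_lit 5) (nat_lit 405) (nat_lit 5) (nat_lit 395) (nat_lit 5) (nat_lit 433) (nat_lit 378) (nat_lit 329))) (XT.nd (nat_lit 78) (nat_lit 760) (nat_lit 0) (XT.lf (nat_lit 0) (nat_lit 20599513) (nat_lit 836) (nat_lit 4580670245) (nat_lit 76) (nat_lit 3633018207) (nat_lit 383) (nat_lit 5) (nat_lit 394) (nat_lit 5) (nat_lit 384) (nat_lit 5) (nat_lit 434) (nat_lit 378) (nat_lit 328)) (XT.lf (nat_lit 0) (nat_lit 1119167137) (nat_lit 760) (nat_lit 1626628456) (nat_lit 836) (nat_lit 5557827266) (nat_lit 373) (nat_lit 5) (nat_lit 383) (nat_lit 5) (nat_lit 384) (nat_lit 5) (nat_lit 435)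 (nat_lit 378) (nat_lit 327)))))) (XT.nd (nat_lit 468) (nat_lit 3268) (nat_lit 0) (XT.nd (nat_lit 234) (nat_lit 1444) (nat_lit 0) (XT.nd (nat_lit 78) (nat_lit 1520) (nat_lit 0) (XT.lf (nat_lit 0) (nat_lit 5524563105) (nat_lit 836) (nat_lit 1436295408) (nat_lit 76) (nat_lit 1413504587) (nat_lit 373) (nat_lit 5) (nat_lit 384) (nat_lit 5) (nat_lit 374) (nat_lit 5) (nat_lit 436) (nat_lit 378) (nat_lit 326)) (XT.nd (nat_lit 78) (nat_lit 760) (nat_lit 0) (XT.lf (nat_lit 0) (nat_lit 4426743507) (nat_lit 760) (nat_lit 3931467142) (nat_lit 836) (nat_lit 88321403) (nat_lit 363) (nat_lit 5) (nat_lit 373) (nat_lit 5) (nat_lit 374) (nat_lit 5) (nat_lit 437) (nat_lit 378) (nat_lit 325)) (XT.lf (nat_lit 0) (nat_lit 1865661544) (nat_lit 684) (nat_lit 808767920) (nat_lit 760) (nat_lit 5845724110) (nat_lit 353) (nat_lit 5) (nat_lit 362) (nat_lit 5) (nat_lit 363) (nat_lit 5) (nat_lit 438) (nat_lit 378) (nat_lit 324)))) (XT.nd (nat_lit 78) (nat_lit 1444)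 (nat_lit 0) (XT.lf (nat_lit 0) (nat_lit 5494273929) (nat_lit 760) (nat_lit 735607024) (nat_lit 76) (nat_lit 2365294474) (nat_lit 353) (nat_lit 5) (nat_lit 363) (nat_lit 5) (nat_lit 354) (nat_lit 5) (nat_lit 439) (nat_lit 378) (nat_lit 323)) (XT.nd (nat_lit 78) (nat_lit 760) (nat_lit 0) (XT.lf (nat_lit 0) (nat_lit 5318984233) (nat_lit 684) (nat_lit 3052634725) (nat_lit 760) (nat_lit 300056683) (nat_lit 344) (nat_lit 5) (nat_lit 353) (nat_lit 5) (nat_lit 354) (nat_lit 5) (nat_lit 440) (nat_lit 378) (nat_lit 322)) (XT.lf (nat_lit 0) (nat_lit 2508787371) (nat_lit 760) (nat_lit 6024233259) (nat_lit 76) (nat_lit 216642916) (nat_lit 334) (nat_lit 5) (nat_lit 344) (nat_lit 5) (nat_lit 335) (nat_lit 5) (nat_lit 441) (nat_lit 378) (nat_lit 321))))) (XT.nd (nat_lit 234) (nat_lit 1900) (nat_lit 0) (XT.nd (nat_lit 78) (nat_lit 684) (nat_lit 0) (XT.lf (nat_lit 0) (nat_lit 72729295) (nat_lit 684) (nat_lit 5302211181) (nat_lit 760) (nat_lit 3454128067)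 (nat_lit 325) (nat_lit 5) (nat_lit 334) (nat_lit 5) (nat_lit 335) (nat_lit 5) (nat_lit 442) (nat_lit 378) (nat_lit 320)) (XT.nd (nat_lit 78) (nat_lit 684) (nat_lit 0) (XT.lf (nat_lit 0) (nat_lit 6325932697) (nat_lit 684) (nat_lit 1975161575) (nat_lit 760) (nat_lit 608913814) (nat_lit 325) (nat_lit 5) (nat_lit 334) (nat_lit 5) (nat_lit 335) (nat_lit 5) (nat_lit 443) (nat_lit 378) (nat_lit 319)) (XT.lf (nat_lit 0) (nat_lit 2259292036) (nat_lit 684) (nat_lit 5303613696) (nat_lit 76) (nat_lit 1429439646) (nat_lit 316) (nat_lit 5) (nat_lit 325) (nat_lit 5) (nat_lit 317) (nat_lit 5) (nat_lit 444) (nat_lit 378) (nat_lit 318)))) (XT.nd (nat_lit 156) (nat_lit 1292) (nat_lit 0) (XT.nd (nat_lit 78) (nat_lit 0) (nat_lit 0) (XT.lf (nat_lit 0) (nat_lit 994566950) (nat_lit 608) (nat_lit 4182253738) (nat_lit 684) (nat_lit 3899425990) (nat_lit 308) (nat_lit 5) (nat_lit 316) (nat_lit 5) (nat_lit 317) (nat_lit 5) (nat_lit 445) (nat_lit 378) (nat_lit 317))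 (XT.lf (nat_lit 0) (nat_lit 7443625035) (nat_lit 608) (nat_lit 708194362) (nat_lit 684) (nat_lit 1010024217) (nat_lit 308) (nat_lit 5) (nat_lit 316) (nat_lit 5) (nat_lit 317) (nat_lit 5) (nat_lit 446) (nat_lit 378) (nat_lit 316))) (XT.nd (nat_lit 78) (nat_lit 608) (nat_lit 0) (XT.lf (nat_lit 0) (nat_lit 1925405432) (nat_lit 684) (nat_lit 4491591960) (nat_lit 76) (nat_lit 2831630626) (nat_lit 299) (nat_lit 5) (nat_lit 308) (nat_lit 5) (nat_lit 300) (nat_lit 5) (nat_lit 447) (nat_lit 378) (nat_lit 315)) (XT.lf (nat_lit 0) (nat_lit 2016286135) (nat_lit 608) (nat_lit 2883477807) (nat_lit 684) (nat_lit 4437375754) (nat_lit 291) (nat_lit 5) (nat_lit 299) (nat_lit 5) (nat_lit 300) (nat_lit 5) (nat_lit 448) (nat_lit 378) (nat_lit 314))))))) (XT.nd (nat_lit 1014) (nat_lit 4028) (nat_lit 0) (XT.nd (nat_lit 468) (nat_lit 2660) (nat_lit 0) (XT.nd (nat_lit 234) (nat_lit 1140) (nat_lit 0) (XT.nd (nat_lit 78) (nat_lit 1216) (nat_lit 0) (XT.lf (nat_lit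 0) (nat_lit 7933297181) (nat_lit 684) (nat_lit 763686367) (nat_lit 76) (nat_lit 730444307) (nat_lit 291) (nat_lit 5) (nat_lit 300) (nat_lit 5) (nat_lit 292) (nat_lit 5) (nat_lit 449) (nat_lit 378) (nat_lit 313)) (XT.nd (nat_lit 78) (nat_lit 608) (nat_lit 0) (XT.lf (nat_lit 0) (nat_lit 1511358314) (nat_lit 608) (nat_lit 3591879830) (nat_lit 76) (nat_lit 4415624690) (nat_lit 283) (nat_lit 5) (nat_lit 291) (nat_lit 5) (nat_lit 284) (nat_lit 5) (nat_lit 450) (nat_lit 378) (nat_lit 312)) (XT.lf (nat_lit 0) (nat_lit 3134551450) (nat_lit 608) (nat_lit 1413442531) (nat_lit 684) (nat_lit 5064114141) (nat_lit 275) (nat_lit 5) (nat_lit 283) (nat_lit 5) (nat_lit 284) (nat_lit 5) (nat_lit 451) (nat_lit 378) (nat_lit 311)))) (XT.nd (nat_lit 78) (nat_lit 608) (nat_lit 0) (XT.lf (nat_lit 0) (nat_lit 278982118) (nat_lit 532) (nat_lit 7373526466) (nat_lit 608) (nat_lit 2054566808) (nat_lit 268) (nat_lit 5) (nat_lit 275) (nat_lit 5) (nat_lit 276) (nat_lit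 5) (nat_lit 452) (nat_lit 378) (nat_lit 310)) (XT.nd (nat_lit 78) (nat_lit 532) (nat_lit 0) (XT.lf (nat_lit 0) (nat_lit 1020931685) (nat_lit 608) (nat_lit 2607722988) (nat_lit 76) (nat_lit 6174774022) (nat_lit 267) (nat_lit 5) (nat_lit 275) (nat_lit 5) (nat_lit 268) (nat_lit 5) (nat_lit 453) (nat_lit 378) (nat_lit 309)) (XT.lf (nat_lit 0) (nat_lit 4126737442) (nat_lit 608) (nat_lit 5556471183) (nat_lit 76) (nat_lit 218302668) (nat_lit 260) (nat_lit 5) (nat_lit 268) (nat_lit 5) (nat_lit 261) (nat_lit 5) (nat_lit 454) (nat_lit 378) (nat_lit 308))))) (XT.nd (nat_lit 234) (nat_lit 1520) (nat_lit 0) (XT.nd (nat_lit 78) (nat_lit 608) (nat_lit 0) (XT.lf (nat_lit 0) (nat_lit 1419243712) (nat_lit 532) (nat_lit 5893177844) (nat_lit 608) (nat_lit 2688778741) (nat_lit 253) (nat_lit 5) (nat_lit 260) (nat_lit 5) (nat_lit 261) (nat_lit 5) (nat_lit 455) (nat_lit 378) (nat_lit 307)) (XT.nd (nat_lit 78) (nat_lit 532) (nat_lit 0) (XT.lf (nat_lit 0) (nat_lit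 457486652) (nat_lit 608) (nat_lit 1541930124) (nat_lit 76) (nat_lit 8103315322) (nat_lit 252) (nat_lit 5) (nat_lit 260) (nat_lit 5) (nat_lit 253) (nat_lit 5) (nat_lit 456) (nat_lit 378) (nat_lit 306)) (XT.lf (nat_lit 0) (nat_lit 3648152652) (nat_lit 608) (nat_lit 4569193438) (nat_lit 76) (nat_lit 1988243430) (nat_lit 245) (nat_lit 5) (nat_lit 253) (nat_lit 5) (nat_lit 246) (nat_lit 5) (nat_lit 457) (nat_lit 378) (nat_lit 305)))) (XT.nd (nat_lit 156) (nat_lit 1064) (nat_lit 0) (XT.nd (nat_lit 78) (nat_lit 0) (nat_lit 0) (XT.lf (nat_lit 0) (nat_lit 2644562671) (nat_lit 456) (nat_lit 4266833420) (nat_lit 532) (nat_lit 3398932716) (nat_lit 239) (nat_lit 5) (nat_lit 245) (nat_lit 5) (nat_lit 246) (nat_lit 5) (nat_lit 458) (nat_lit 378) (nat_lit 304)) (XT.lf (nat_lit 0) (nat_lit 10019126723) (nat_lit 456) (nat_lit 219710268) (nat_lit 532) (nat_lit 178347235) (nat_lit 239) (nat_lit 5) (nat_lit 245) (nat_lit 5) (nat_lit 246) (nat_lit 5) (nat_lit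 459) (nat_lit 378) (nat_lit 303))) (XT.nd (nat_lit 78) (nat_lit 456) (nat_lit 0) (XT.lf (nat_lit 0) (nat_lit 3106039382) (nat_lit 608) (nat_lit 3508942962) (nat_lit 76) (nat_lit 3909988328) (nat_lit 231) (nat_lit 5) (nat_lit 239) (nat_lit 5) (nat_lit 232) (nat_lit 5) (nat_lit 460) (nat_lit 378) (nat_lit 302)) (XT.lf (nat_lit 0) (nat_lit 3952955618) (nat_lit 456) (nat_lit 2499504012) (nat_lit 532) (nat_lit 4182454960) (nat_lit 225) (nat_lit 5) (nat_lit 231) (nat_lit 5) (nat_lit 232) (nat_lit 5) (nat_lit 461) (nat_lit 378) (nat_lit 301)))))) (XT.nd (nat_lit 468) (nat_lit 2128) (nat_lit 0) (XT.nd (nat_lit 234) (nat_lit 912) (nat_lit 0) (XT.nd (nat_lit 78) (nat_lit 532) (nat_lit 0) (XT.lf (nat_lit 0) (nat_lit 819240836) (nat_lit 456) (nat_lit 9055764750) (nat_lit 532) (nat_lit 871867855) (nat_lit 219) (nat_lit 5) (nat_lit 225) (nat_lit 5) (nat_lit 226) (nat_lit 5) (nat_lit 462) (nat_lit 378) (nat_lit 300)) (XT.nd (nat_lit 78) (nat_lit 456)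 (nat_lit 0) (XT.lf (nat_lit 0) (nat_lit 2503026760) (nat_lit 532) (nat_lit 2377749553) (nat_lit 76) (nat_lit 5979350914) (nat_lit 218) (nat_lit 5) (nat_lit 225) (nat_lit 5) (nat_lit 219) (nat_lit 5) (nat_lit 463) (nat_lit 378) (nat_lit 299)) (XT.lf (nat_lit 0) (nat_lit 5342819834) (nat_lit 456) (nat_lit 595486903) (nat_lit 532) (nat_lit 5037132857) (nat_lit 212) (nat_lit 5) (nat_lit 218) (nat_lit 5) (nat_lit 219) (nat_lit 5) (nat_lit 464) (nat_lit 378) (nat_lit 298)))) (XT.nd (nat_lit 78) (nat_lit 456) (nat_lit 0) (XT.lf (nat_lit 0) (nat_lit 2115601657) (nat_lit 456) (nat_lit 7351072202) (nat_lit 532) (nat_lit 1625896715) (nat_lit 206) (nat_lit 5) (nat_lit 212) (nat_lit 5) (nat_lit 213) (nat_lit 5) (nat_lit 465) (nat_lit 378) (nat_lit 297)) (XT.nd (nat_lit 78) (nat_lit 380) (nat_lit 0) (XT.lf (nat_lit 0) (nat_lit 1841418570) (nat_lit 532) (nat_lit 1177297721) (nat_lit 76) (nat_lit 8192843909) (nat_lit 205) (nat_lit 5) (nat_lit 212) (nat_lit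 5) (nat_lit 206) (nat_lit 5) (nat_lit 466) (nat_lit 378) (nat_lit 296)) (XT.lf (nat_lit 0) (nat_lit 5380680793) (nat_lit 456) (nat_lit 4528861619) (nat_lit 76) (nat_lit 1422684835) (nat_lit 200) (nat_lit 5) (nat_lit 206) (nat_lit 5) (nat_lit 201) (nat_lit 5) (nat_lit 467) (nat_lit 378) (nat_lit 295))))) (XT.nd (nat_lit 234) (nat_lit 1216) (nat_lit 0) (XT.nd (nat_lit 78) (nat_lit 456) (nat_lit 0) (XT.lf (nat_lit 0) (nat_lit 3485892868) (nat_lit 456) (nat_lit 5526362814) (nat_lit 532) (nat_lit 2442621403) (nat_lit 194) (nat_lit 5) (nat_lit 200) (nat_lit 5) (nat_lit 201) (nat_lit 5) (nat_lit 468) (nat_lit 378) (nat_lit 294)) (XT.nd (nat_lit 78) (nat_lit 0) (nat_lit 0) (XT.lf (nat_lit 0) (nat_lit 92263829) (nat_lit 380) (nat_lit 1031548887) (nat_lit 456) (nat_lit 10455974914) (nat_lit 188) (nat_lit 5) (nat_lit 193) (nat_lit 5) (nat_lit 194) (nat_lit 5) (nat_lit 469) (nat_lit 378) (nat_lit 293)) (XT.lf (nat_lit 0) (nat_lit 4777025606) (nat_lit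 456) (nat_lit 3367476817) (nat_lit 76) (nat_lit 3561407913) (nat_lit 188) (nat_lit 5) (nat_lit 194) (nat_lit 5) (nat_lit 189) (nat_lit 5) (nat_lit 470) (nat_lit 378) (nat_lit 292)))) (XT.nd (nat_lit 156) (nat_lit 380) (nat_lit 0) (XT.nd (nat_lit 78) (nat_lit 456) (nat_lit 0) (XT.lf (nat_lit 0) (nat_lit 4929150527) (nat_lit 380) (nat_lit 3584777684) (nat_lit 456) (nat_lit 3320414775) (nat_lit 183) (nat_lit 5) (nat_lit 188) (nat_lit 5) (nat_lit 189) (nat_lit 5) (nat_lit 471) (nat_lit 378) (nat_lit 291)) (XT.lf (nat_lit 0) (nat_lit 366557053) (nat_lit 456) (nat_lit 10527058117) (nat_lit 76) (nat_lit 1071461206) (nat_lit 177) (nat_lit 5) (nat_lit 183) (nat_lit 5) (nat_lit 178) (nat_lit 5) (nat_lit 472) (nat_lit 378) (nat_lit 290))) (XT.nd (nat_lit 78) (nat_lit 380) (nat_lit 0) (XT.lf (nat_lit 0) (nat_lit 4125279723) (nat_lit 456) (nat_lit 2145730144) (nat_lit 76) (nat_lit 5826126171) (nat_lit 177) (nat_lit 5) (nat_lit 183) (nat_lit 5) (nat_lit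 178) (nat_lit 5) (nat_lit 473) (nat_lit 378) (nat_lit 289)) (XT.lf (nat_lit 0) (nat_lit 6444717891) (nat_lit 380) (nat_lit 1528896067) (nat_lit 456) (nat_lit 4257934195) (nat_lit 172) (nat_lit 5) (nat_lit 177) (nat_lit 5) (nat_lit 178) (nat_lit 5) (nat_lit 474) (nat_lit 378) (nat_lit 288))))))))
noncomputable def xc50 : XT := (XT.nd (nat_lit 53586) (nat_lit 0) (nat_lit 23028) (XT.nd (nat_lit 52572) (nat_lit 0) (nat_lit 44536) (XT.nd (nat_lit 468) (nat_lit 304) (nat_lit 0) (XT.nd (nat_lit 234) (nat_lit 760) (nat_lit 0) (XT.nd (nat_lit 78) (nat_lit 456) (nat_lit 0) (XT.lf (nat_lit 0) (nat_lit 2840187711) (nat_lit 304) (nat_lit 9085892280) (nat_lit 380) (nat_lit 442025216) (nat_lit 168) (nat_lit 5) (nat_lit 172) (nat_lit 5) (nat_lit 173) (nat_lit 5) (nat_lit 475) (nat_lit 378) (nat_lit 287)) (XT.nd (nat_lit 78) (nat_lit 380) (nat_lit 0) (XT.lf (nat_lit 0) (nat_lit 3426996132) (nat_lit 380) (nat_lit 864477632) (nat_lit 76) (nat_lit 8215030735)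 (nat_lit 167) (nat_lit 5) (nat_lit 172) (nat_lit 5) (nat_lit 168) (nat_lit 5) (nat_lit 476) (nat_lit 378) (nat_lit 286)) (XT.lf (nat_lit 0) (nat_lit 7397147602) (nat_lit 456) (nat_lit 4619022727) (nat_lit 76) (nat_lit 630849642) (nat_lit 162) (nat_lit 5) (nat_lit 168) (nat_lit 5) (nat_lit 163) (nat_lit 5) (nat_lit 477) (nat_lit 378) (nat_lit 285)))) (XT.nd (nat_lit 78) (nat_lit 456) (nat_lit 0) (XT.lf (nat_lit 0) (nat_lit 4305251732) (nat_lit 304) (nat_lit 7177171250) (nat_lit 380) (nat_lit 1307208355) (nat_lit 158) (nat_lit 5) (nat_lit 162) (nat_lit 5) (nat_lit 163) (nat_lit 5) (nat_lit 478) (nat_lit 378) (nat_lit 284)) (XT.nd (nat_lit 78) (nat_lit 0) (nat_lit 0) (XT.lf (nat_lit 0) (nat_lit 482007144) (nat_lit 380) (nat_lit 2204613546) (nat_lit 456) (nat_lit 10247963568) (nat_lit 152) (nat_lit 5) (nat_lit 157) (nat_lit 5) (nat_lit 158) (nat_lit 5) (nat_lit 479) (nat_lit 378) (nat_lit 283)) (XT.lf (nat_lit 0) (nat_lit 6792485466) (nat_lit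 456) (nat_lit 3408991877) (nat_lit 76) (nat_lit 2879792830) (nat_lit 152) (nat_lit 5) (nat_lit 158) (nat_lit 5) (nat_lit 153) (nat_lit 5) (nat_lit 480) (nat_lit 378) (nat_lit 282))))) (XT.nd (nat_lit 51792) (nat_lit 0) (nat_lit 49552) (XT.nd (nat_lit 51636) (nat_lit 0) (nat_lit 50008) (XT.lf (nat_lit 0) (nat_lit 5835463951) (nat_lit 304) (nat_lit 5171724288) (nat_lit 380) (nat_lit 2223167153) (nat_lit 148) (nat_lit 5) (nat_lit 152) (nat_lit 5) (nat_lit 153) (nat_lit 5) (nat_lit 481) (nat_lit 378) (nat_lit 281)) (XT.nd (nat_lit 78) (nat_lit 76) (nat_lit 0) (XT.lf (nat_lit 0) (nat_lit 42808391) (nat_lit 76) (nat_lit 1589628230) (nat_lit 76) (nat_lit 1589628230) (nat_lit 807) (nat_lit 4) (nat_lit 808) (nat_lit 5) (nat_lit 808) (nat_lit 4) (nat_lit 382) (nat_lit 379) (nat_lit 379)) (XT.lf (nat_lit 0) (nat_lit 42246951) (nat_lit 152) (nat_lit 3010802519) (nat_lit 76) (nat_lit 3393609932) (nat_lit 806) (nat_lit 5) (nat_lit 808) (nat_lit 5)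 (nat_lit 807) (nat_lit 4) (nat_lit 383) (nat_lit 379) (nat_lit 378)))) (XT.nd (nat_lit 156) (nat_lit 304) (nat_lit 0) (XT.nd (nat_lit 78) (nat_lit 0) (nat_lit 0) (XT.lf (nat_lit 0) (nat_lit 342567861) (nat_lit 152) (nat_lit 2862452895) (nat_lit 228) (nat_lit 3245410429) (nat_lit 804) (nat_lit 5) (nat_lit 806) (nat_lit 5) (nat_lit 807) (nat_lit 4) (nat_lit 384) (nat_lit 379) (nat_lit 377)) (XT.lf (nat_lit 0) (nat_lit 3759379770) (nat_lit 152) (nat_lit 2610356990) (nat_lit 228) (nat_lit 85767910) (nat_lit 804) (nat_lit 5) (nat_lit 806) (nat_lit 5) (nat_lit 807) (nat_lit 4) (nat_lit 385) (nat_lit 379) (nat_lit 376))) (XT.nd (nat_lit 78) (nat_lit 0) (nat_lit 0) (XT.lf (nat_lit 0) (nat_lit 728397556) (nat_lit 228) (nat_lit 2291807706) (nat_lit 304) (nat_lit 3441581384) (nat_lit 800) (nat_lit 5) (nat_lit 803) (nat_lit 5) (nat_lit 804) (nat_lit 5) (nat_lit 386) (nat_lit 379) (nat_lit 375)) (XT.lf (nat_lit 0) (nat_lit 4213039376) (nat_lit 228)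 (nat_lit 1913041129) (nat_lit 304) (nat_lit 343323797) (nat_lit 800) (nat_lit 5) (nat_lit 803) (nat_lit 5) (nat_lit 804) (nat_lit 5) (nat_lit 387) (nat_lit 379) (nat_lit 374)))))) (XT.nd (nat_lit 468) (nat_lit 3648) (nat_lit 0) (XT.nd (nat_lit 234) (nat_lit 532) (nat_lit 0) (XT.nd (nat_lit 78) (nat_lit 456) (nat_lit 0) (XT.lf (nat_lit 0) (nat_lit 1243711092) (nat_lit 304) (nat_lit 1466198175) (nat_lit 380) (nat_lit 3768300171) (nat_lit 795) (nat_lit 5) (nat_lit 799) (nat_lit 5) (nat_lit 800) (nat_lit 5) (nat_lit 388) (nat_lit 379) (nat_lit 373)) (XT.nd (nat_lit 78) (nat_lit 456) (nat_lit 0) (XT.lf (nat_lit 0) (nat_lit 4797852256) (nat_lit 304) (nat_lit 960012514) (nat_lit 380) (nat_lit 730515423) (nat_lit 795) (nat_lit 5) (nat_lit 799) (nat_lit 5) (nat_lit 800) (nat_lit 5) (nat_lit 389) (nat_lit 379) (nat_lit 372)) (XT.lf (nat_lit 0) (nat_lit 1889367151) (nat_lit 380) (nat_lit 384000207) (nat_lit 456) (nat_lit 4226351519) (nat_lit 789)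 (nat_lit 5) (nat_lit 794) (nat_lit 5) (nat_lit 795) (nat_lit 5) (nat_lit 390) (nat_lit 379) (nat_lit 371)))) (XT.nd (nat_lit 78) (nat_lit 532) (nat_lit 0) (XT.lf (nat_lit 0) (nat_lit 5265828806) (nat_lit 456) (nat_lit 999275684) (nat_lit 76) (nat_lit 247317620) (nat_lit 789) (nat_lit 5) (nat_lit 795) (nat_lit 5) (nat_lit 790) (nat_lit 5) (nat_lit 391) (nat_lit 379) (nat_lit 370)) (XT.nd (nat_lit 78) (nat_lit 0) (nat_lit 0) (XT.lf (nat_lit 0) (nat_lit 1715777822) (nat_lit 532) (nat_lit 3866073942) (nat_lit 76) (nat_lit 944364245) (nat_lit 782) (nat_lit 5) (nat_lit 789) (nat_lit 5) (nat_lit 783) (nat_lit 5) (nat_lit 392) (nat_lit 379) (nat_lit 369)) (XT.lf (nat_lit 0) (nat_lit 4655129079) (nat_lit 532) (nat_lit 187686512) (nat_lit 76) (nat_lit 1698616903) (nat_lit 782) (nat_lit 5) (nat_lit 789) (nat_lit 5) (nat_lit 783) (nat_lit 5) (nat_lit 393) (nat_lit 379) (nat_lit 368))))) (XT.nd (nat_lit 234) (nat_lit 2356) (nat_lit 0) (XT.nd (nat_lit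 78) (nat_lit 684) (nat_lit 0) (XT.lf (nat_lit 0) (nat_lit 1033852203) (nat_lit 608) (nat_lit 2998303328) (nat_lit 76) (nat_lit 2525617088) (nat_lit 774) (nat_lit 5) (nat_lit 782) (nat_lit 5) (nat_lit 775) (nat_lit 5) (nat_lit 394) (nat_lit 379) (nat_lit 367)) (XT.nd (nat_lit 78) (nat_lit 76) (nat_lit 0) (XT.lf (nat_lit 0) (nat_lit 761914109) (nat_lit 608) (nat_lit 3161195226) (nat_lit 684) (nat_lit 2652361723) (nat_lit 766) (nat_lit 5) (nat_lit 774) (nat_lit 5) (nat_lit 775) (nat_lit 5) (nat_lit 395) (nat_lit 379) (nat_lit 366)) (XT.lf (nat_lit 0) (nat_lit 223599083) (nat_lit 684) (nat_lit 2002975586) (nat_lit 76) (nat_lit 4367900895) (nat_lit 765) (nat_lit 5) (nat_lit 774) (nat_lit 5) (nat_lit 766) (nat_lit 5) (nat_lit 396) (nat_lit 379) (nat_lit 365)))) (XT.nd (nat_lit 156) (nat_lit 1672) (nat_lit 0) (XT.nd (nat_lit 78) (nat_lit 0) (nat_lit 0) (XT.lf (nat_lit 0) (nat_lit 1845451690) (nat_lit 684) (nat_lit 1219838688) (nat_lit 760) (nat_lit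 3549344613) (nat_lit 756) (nat_lit 5) (nat_lit 765) (nat_lit 5) (nat_lit 766) (nat_lit 5) (nat_lit 397) (nat_lit 379) (nat_lit 364)) (XT.lf (nat_lit 0) (nat_lit 5753290618) (nat_lit 684) (nat_lit 156725925) (nat_lit 760) (nat_lit 726257042) (nat_lit 756) (nat_lit 5) (nat_lit 765) (nat_lit 5) (nat_lit 766) (nat_lit 5) (nat_lit 398) (nat_lit 379) (nat_lit 363))) (XT.nd (nat_lit 78) (nat_lit 836) (nat_lit 0) (XT.lf (nat_lit 0) (nat_lit 2084964271) (nat_lit 836) (nat_lit 3602970695) (nat_lit 76) (nat_lit 970932116) (nat_lit 745) (nat_lit 5) (nat_lit 756) (nat_lit 5) (nat_lit 746) (nat_lit 5) (nat_lit 399) (nat_lit 379) (nat_lit 362)) (XT.lf (nat_lit 0) (nat_lit 356657661) (nat_lit 836) (nat_lit 4530145457) (nat_lit 912) (nat_lit 1796130968) (nat_lit 734) (nat_lit 5) (nat_lit 745) (nat_lit 5) (nat_lit 746) (nat_lit 5) (nat_lit 400) (nat_lit 379) (nat_lit 361))))))) (XT.nd (nat_lit 1014) (nat_lit 11704) (nat_lit 0) (XT.nd (nat_lit 468) (nat_lit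 6612) (nat_lit 0) (XT.nd (nat_lit 234) (nat_lit 2204) (nat_lit 0) (XT.nd (nat_lit 78) (nat_lit 912) (nat_lit 0) (XT.lf (nat_lit 0) (nat_lit 983279213) (nat_lit 912) (nat_lit 2315994436) (nat_lit 76) (nat_lit 3408880378) (nat_lit 733) (nat_lit 5) (nat_lit 745) (nat_lit 5) (nat_lit 734) (nat_lit 5) (nat_lit 401) (nat_lit 379) (nat_lit 360)) (XT.nd (nat_lit 78) (nat_lit 0) (nat_lit 0) (XT.lf (nat_lit 0) (nat_lit 1739908597) (nat_lit 912) (nat_lit 2002253587) (nat_lit 988) (nat_lit 2992520039) (nat_lit 721) (nat_lit 5) (nat_lit 733) (nat_lit 5) (nat_lit 734) (nat_lit 5) (nat_lit 402) (nat_lit 379) (nat_lit 359)) (XT.lf (nat_lit 0) (nat_lit 5863114103) (nat_lit 912) (nat_lit 646215209) (nat_lit 988) (nat_lit 253349541) (nat_lit 721) (nat_lit 5) (nat_lit 733) (nat_lit 5) (nat_lit 734) (nat_lit 5) (nat_lit 403) (nat_lit 379) (nat_lit 358)))) (XT.nd (nat_lit 78) (nat_lit 1140) (nat_lit 0) (XT.lf (nat_lit 0) (nat_lit 2471966043) (nat_lit 1064)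 (nat_lit 3538206841) (nat_lit 76) (nat_lit 781438983) (nat_lit 707) (nat_lit 5) (nat_lit 721) (nat_lit 5) (nat_lit 708) (nat_lit 5) (nat_lit 404) (nat_lit 379) (nat_lit 357)) (XT.nd (nat_lit 78) (nat_lit 76) (nat_lit 0) (XT.lf (nat_lit 0) (nat_lit 636818026) (nat_lit 1064) (nat_lit 4565475218) (nat_lit 1140) (nat_lit 1619718851) (nat_lit 693) (nat_lit 5) (nat_lit 707) (nat_lit 5) (nat_lit 708) (nat_lit 5) (nat_lit 405) (nat_lit 379) (nat_lit 356)) (XT.lf (nat_lit 0) (nat_lit 1083130561) (nat_lit 1140) (nat_lit 1963418850) (nat_lit 76) (nat_lit 3807047651) (nat_lit 692) (nat_lit 5) (nat_lit 707) (nat_lit 5) (nat_lit 693) (nat_lit 5) (nat_lit 406) (nat_lit 379) (nat_lit 355))))) (XT.nd (nat_lit 234) (nat_lit 4180) (nat_lit 0) (XT.nd (nat_lit 78) (nat_lit 1292) (nat_lit 0) (XT.lf (nat_lit 0) (nat_lit 2316707292) (nat_lit 1140) (nat_lit 1457780721) (nat_lit 1216) (nat_lit 3111988808) (nat_lit 677) (nat_lit 5) (nat_lit 692) (nat_lit 5) (nat_lit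 693) (nat_lit 5) (nat_lit 407) (nat_lit 379) (nat_lit 354)) (XT.nd (nat_lit 78) (nat_lit 1292) (nat_lit 0) (XT.lf (nat_lit 0) (nat_lit 6476011684) (nat_lit 1216) (nat_lit 258528332) (nat_lit 76) (nat_lit 186347377) (nat_lit 677) (nat_lit 5) (nat_lit 693) (nat_lit 5) (nat_lit 678) (nat_lit 5) (nat_lit 408) (nat_lit 379) (nat_lit 353)) (XT.lf (nat_lit 0) (nat_lit 2225276168) (nat_lit 1292) (nat_lit 2833250249) (nat_lit 76) (nat_lit 1897573445) (nat_lit 660) (nat_lit 5) (nat_lit 677) (nat_lit 5) (nat_lit 661) (nat_lit 5) (nat_lit 409) (nat_lit 379) (nat_lit 352)))) (XT.nd (nat_lit 156) (nat_lit 2812) (nat_lit 0) (XT.nd (nat_lit 78) (nat_lit 76) (nat_lit 0) (XT.lf (nat_lit 0) (nat_lit 1574857267) (nat_lit 1292) (nat_lit 3323598566) (nat_lit 1368) (nat_lit 2094390303) (nat_lit 643) (nat_lit 5) (nat_lit 660) (nat_lit 5) (nat_lit 661) (nat_lit 5) (nat_lit 410) (nat_lit 379) (nat_lit 351)) (XT.lf (nat_lit 0) (nat_lit 550153990) (nat_lit 1368)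 (nat_lit 971059058) (nat_lit 76) (nat_lit 5509773397) (nat_lit 642) (nat_lit 5) (nat_lit 660) (nat_lit 5) (nat_lit 643) (nat_lit 5) (nat_lit 411) (nat_lit 379) (nat_lit 350))) (XT.nd (nat_lit 78) (nat_lit 1444) (nat_lit 0) (XT.lf (nat_lit 0) (nat_lit 3190136807) (nat_lit 1444) (nat_lit 3520832008) (nat_lit 76) (nat_lit 359232038) (nat_lit 624) (nat_lit 5) (nat_lit 643) (nat_lit 5) (nat_lit 625) (nat_lit 5) (nat_lit 412) (nat_lit 379) (nat_lit 349)) (XT.lf (nat_lit 0) (nat_lit 1019980194) (nat_lit 1444) (nat_lit 4832173337) (nat_lit 1520) (nat_lit 1258661332) (nat_lit 605) (nat_lit 5) (nat_lit 624) (nat_lit 5) (nat_lit 625) (nat_lit 5) (nat_lit 413) (nat_lit 379) (nat_lit 348)))))) (XT.nd (nat_lit 468) (nat_lit 5016) (nat_lit 0) (XT.nd (nat_lit 234) (nat_lit 3496) (nat_lit 0) (XT.nd (nat_lit 78) (nat_lit 3116) (nat_lit 0) (XT.lf (nat_lit 0) (nat_lit 1366776558) (nat_lit 1520) (nat_lit 1508763610) (nat_lit 76) (nat_lit 4277113876) (nat_lit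 604) (nat_lit 5) (nat_lit 624) (nat_lit 5) (nat_lit 605) (nat_lit 5) (nat_lit 414) (nat_lit 379) (nat_lit 347)) (XT.nd (nat_lit 78) (nat_lit 1596) (nat_lit 0) (XT.lf (nat_lit 0) (nat_lit 3151887458) (nat_lit 1520) (nat_lit 843897682) (nat_lit 1596) (nat_lit 3200020164) (nat_lit 584) (nat_lit 5) (nat_lit 604) (nat_lit 5) (nat_lit 605) (nat_lit 5) (nat_lit 415) (nat_lit 379) (nat_lit 346)) (XT.lf (nat_lit 0) (nat_lit 640102238) (nat_lit 1596) (nat_lit 6007803207) (nat_lit 1672) (nat_lit 592503513) (nat_lit 563) (nat_lit 5) (nat_lit 584) (nat_lit 5) (nat_lit 585) (nat_lit 5) (nat_lit 416) (nat_lit 379) (nat_lit 345)))) (XT.nd (nat_lit 78) (nat_lit 3420) (nat_lit 0) (XT.lf (nat_lit 0) (nat_lit 2021541162) (nat_lit 1672) (nat_lit 1879144313) (nat_lit 76) (nat_lit 3385321005) (nat_lit 562) (nat_lit 5) (nat_lit 584) (nat_lit 5) (nat_lit 563) (nat_lit 5) (nat_lit 417) (nat_lit 379) (nat_lit 344)) (XT.nd (nat_lit 78) (nat_lit 1748) (nat_lit 0)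 (XT.lf (nat_lit 0) (nat_lit 2924588072) (nat_lit 1672) (nat_lit 1723932638) (nat_lit 1748) (nat_lit 2684545162) (nat_lit 540) (nat_lit 5) (nat_lit 562) (nat_lit 5) (nat_lit 563) (nat_lit 5) (nat_lit 418) (nat_lit 379) (nat_lit 343)) (XT.lf (nat_lit 0) (nat_lit 424311878) (nat_lit 1748) (nat_lit 6872705044) (nat_lit 1824) (nat_lit 84669986) (nat_lit 517) (nat_lit 5) (nat_lit 540) (nat_lit 5) (nat_lit 541) (nat_lit 5) (nat_lit 419) (nat_lit 379) (nat_lit 342))))) (XT.nd (nat_lit 234) (nat_lit 1900) (nat_lit 0) (XT.nd (nat_lit 78) (nat_lit 3040) (nat_lit 0) (XT.lf (nat_lit 0) (nat_lit 2525381787) (nat_lit 1824) (nat_lit 2092800558) (nat_lit 76) (nat_lit 2812927693) (nat_lit 516) (nat_lit 5) (nat_lit 540) (nat_lit 5) (nat_lit 517) (nat_lit 5) (nat_lit 420) (nat_lit 379) (nat_lit 341)) (XT.nd (nat_lit 78) (nat_lit 1216) (nat_lit 0) (XT.lf (nat_lit 0) (nat_lit 2859590470) (nat_lit 1824) (nat_lit 2297097937) (nat_lit 1900) (nat_lit 2325418279)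 (nat_lit 492) (nat_lit 5) (nat_lit 516) (nat_lit 5) (nat_lit 517) (nat_lit 5) (nat_lit 421) (nat_lit 379) (nat_lit 340)) (XT.lf (nat_lit 0) (nat_lit 271502909) (nat_lit 1216) (nat_lit 7173840969) (nat_lit 76) (nat_lit 89359095) (nat_lit 476) (nat_lit 5) (nat_lit 492) (nat_lit 5) (nat_lit 477) (nat_lit 5) (nat_lit 422) (nat_lit 379) (nat_lit 339)))) (XT.nd (nat_lit 156) (nat_lit 988) (nat_lit 0) (XT.nd (nat_lit 78) (nat_lit 912) (nat_lit 0) (XT.lf (nat_lit 0) (nat_lit 2888291844) (nat_lit 1216) (nat_lit 2159379876) (nat_lit 76) (nat_lit 2540390710) (nat_lit 476) (nat_lit 5) (nat_lit 492) (nat_lit 5) (nat_lit 477) (nat_lit 5) (nat_lit 423) (nat_lit 379) (nat_lit 338)) (XT.lf (nat_lit 0) (nat_lit 2947559409) (nat_lit 912) (nat_lit 2582524124) (nat_lit 988) (nat_lit 2112952204) (nat_lit 464) (nat_lit 5) (nat_lit 476) (nat_lit 5) (nat_lit 477) (nat_lit 5) (nat_lit 424) (nat_lit 379) (nat_lit 337))) (XT.nd (nat_lit 78) (nat_lit 0) (nat_lit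 0) (XT.lf (nat_lit 0) (nat_lit 442609557) (nat_lit 912) (nat_lit 47397098) (nat_lit 988) (nat_lit 7209607655) (nat_lit 451) (nat_lit 5) (nat_lit 463) (nat_lit 5) (nat_lit 464) (nat_lit 5) (nat_lit 425) (nat_lit 379) (nat_lit 336)) (XT.lf (nat_lit 0) (nat_lit 3119392453) (nat_lit 988) (nat_lit 2087645718) (nat_lit 76) (nat_lit 2549953747) (nat_lit 451) (nat_lit 5) (nat_lit 464) (nat_lit 5) (nat_lit 452) (nat_lit 5) (nat_lit 426) (nat_lit 379) (nat_lit 335))))))))
noncomputable def xc51 : XT := (XT.nd (nat_lit 2028) (nat_lit 8588) (nat_lit 0) (XT.nd (nat_lit 1014) (nat_lit 5928) (nat_lit 0) (XT.nd (nat_lit 468) (nat_lit 3876) (nat_lit 0) (XT.nd (nat_lit 234) (nat_lit 1748) (nat_lit 0) (XT.nd (nat_lit 78) (nat_lit 988) (nat_lit 0) (XT.lf (nat_lit 0) (nat_lit 3180048314) (nat_lit 836) (nat_lit 2597606728) (nat_lit 912) (nat_lit 2038336255) (nat_lit 440) (nat_lit 5) (nat_lit 451) (nat_lit 5) (nat_lit 452) (nat_lit 5) (nat_lit 427) (nat_lit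 379) (nat_lit 334)) (XT.nd (nat_lit 78) (nat_lit 0) (nat_lit 0) (XT.lf (nat_lit 0) (nat_lit 579444207) (nat_lit 988) (nat_lit 7213756069) (nat_lit 76) (nat_lit 83399389) (nat_lit 427) (nat_lit 5) (nat_lit 440) (nat_lit 5) (nat_lit 428) (nat_lit 5) (nat_lit 428) (nat_lit 379) (nat_lit 333)) (XT.lf (nat_lit 0) (nat_lit 3226995371) (nat_lit 988) (nat_lit 1885539868) (nat_lit 76) (nat_lit 2825521326) (nat_lit 427) (nat_lit 5) (nat_lit 440) (nat_lit 5) (nat_lit 428) (nat_lit 5) (nat_lit 429) (nat_lit 379) (nat_lit 332)))) (XT.nd (nat_lit 78) (nat_lit 912) (nat_lit 0) (XT.lf (nat_lit 0) (nat_lit 3549437696) (nat_lit 836) (nat_lit 2358129249) (nat_lit 912) (nat_lit 2093574270) (nat_lit 416) (nat_lit 5) (nat_lit 427) (nat_lit 5) (nat_lit 428) (nat_lit 5) (nat_lit 430) (nat_lit 379) (nat_lit 331)) (XT.nd (nat_lit 78) (nat_lit 0) (nat_lit 0) (XT.lf (nat_lit 0) (nat_lit 548384827) (nat_lit 912) (nat_lit 7052612142) (nat_lit 76) (nat_lit 464822155)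 (nat_lit 404) (nat_lit 5) (nat_lit 416) (nat_lit 5) (nat_lit 405) (nat_lit 5) (nat_lit 431) (nat_lit 379) (nat_lit 330)) (XT.lf (nat_lit 0) (nat_lit 3218660965) (nat_lit 912) (nat_lit 1560239876) (nat_lit 76) (nat_lit 3352542763) (nat_lit 404) (nat_lit 5) (nat_lit 416) (nat_lit 5) (nat_lit 405) (nat_lit 5) (nat_lit 432) (nat_lit 379) (nat_lit 329))))) (XT.nd (nat_lit 234) (nat_lit 2280) (nat_lit 0) (XT.nd (nat_lit 78) (nat_lit 836) (nat_lit 0) (XT.lf (nat_lit 0) (nat_lit 4048878524) (nat_lit 760) (nat_lit 1878376372) (nat_lit 836) (nat_lit 2271427432) (nat_lit 394) (nat_lit 5) (nat_lit 404) (nat_lit 5) (nat_lit 405) (nat_lit 5) (nat_lit 433) (nat_lit 379) (nat_lit 328)) (XT.nd (nat_lit 78) (nat_lit 0) (nat_lit 0) (XT.lf (nat_lit 0) (nat_lit 403451558) (nat_lit 836) (nat_lit 6780145004) (nat_lit 76) (nat_lit 1083889545) (nat_lit 383) (nat_lit 5) (nat_lit 394) (nat_lit 5) (nat_lit 384) (nat_lit 5) (nat_lit 434) (nat_lit 379) (nat_lit 327))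 (XT.lf (nat_lit 0) (nat_lit 3101251606) (nat_lit 836) (nat_lit 1118211891) (nat_lit 76) (nat_lit 4117905426) (nat_lit 383) (nat_lit 5) (nat_lit 394) (nat_lit 5) (nat_lit 384) (nat_lit 5) (nat_lit 435) (nat_lit 379) (nat_lit 326)))) (XT.nd (nat_lit 156) (nat_lit 684) (nat_lit 0) (XT.nd (nat_lit 78) (nat_lit 836) (nat_lit 0) (XT.lf (nat_lit 0) (nat_lit 4672240188) (nat_lit 760) (nat_lit 1171238134) (nat_lit 836) (nat_lit 2565361658) (nat_lit 373) (nat_lit 5) (nat_lit 383) (nat_lit 5) (nat_lit 384) (nat_lit 5) (nat_lit 436) (nat_lit 379) (nat_lit 325)) (XT.lf (nat_lit 0) (nat_lit 150909906) (nat_lit 836) (nat_lit 6402570148) (nat_lit 76) (nat_lit 1928356110) (nat_lit 362) (nat_lit 5) (nat_lit 373) (nat_lit 5) (nat_lit 363) (nat_lit 5) (nat_lit 437) (nat_lit 379) (nat_lit 324))) (XT.nd (nat_lit 78) (nat_lit 684) (nat_lit 0) (XT.lf (nat_lit 0) (nat_lit 2880980822) (nat_lit 836) (nat_lit 565259228) (nat_lit 76) (nat_lit 5109836599) (nat_lit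 362) (nat_lit 5) (nat_lit 373) (nat_lit 5) (nat_lit 363) (nat_lit 5) (nat_lit 438) (nat_lit 379) (nat_lit 323)) (XT.lf (nat_lit 0) (nat_lit 5414062716) (nat_lit 684) (nat_lit 248305704) (nat_lit 760) (nat_lit 2969499219) (nat_lit 353) (nat_lit 5) (nat_lit 362) (nat_lit 5) (nat_lit 363) (nat_lit 5) (nat_lit 439) (nat_lit 379) (nat_lit 322)))))) (XT.nd (nat_lit 468) (nat_lit 3116) (nat_lit 0) (XT.nd (nat_lit 234) (nat_lit 1368) (nat_lit 0) (XT.nd (nat_lit 78) (nat_lit 760) (nat_lit 0) (XT.lf (nat_lit 0) (nat_lit 2782281779) (nat_lit 684) (nat_lit 5720524674) (nat_lit 760) (nat_lit 206299541) (nat_lit 344) (nat_lit 5) (nat_lit 353) (nat_lit 5) (nat_lit 354) (nat_lit 5) (nat_lit 440) (nat_lit 379) (nat_lit 321)) (XT.nd (nat_lit 78) (nat_lit 0) (nat_lit 0) (XT.lf (nat_lit 0) (nat_lit 94674675) (nat_lit 684) (nat_lit 2469398540) (nat_lit 760) (nat_lit 6223753343) (nat_lit 334) (nat_lit 5) (nat_lit 343) (nat_lit 5) (nat_lit 344) (nat_lit 5)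 (nat_lit 441) (nat_lit 379) (nat_lit 320)) (XT.lf (nat_lit 0) (nat_lit 5395186158) (nat_lit 760) (nat_lit 2604247517) (nat_lit 76) (nat_lit 868498682) (nat_lit 334) (nat_lit 5) (nat_lit 344) (nat_lit 5) (nat_lit 335) (nat_lit 5) (nat_lit 442) (nat_lit 379) (nat_lit 319)))) (XT.nd (nat_lit 78) (nat_lit 684) (nat_lit 0) (XT.lf (nat_lit 0) (nat_lit 3591361720) (nat_lit 684) (nat_lit 4694524240) (nat_lit 760) (nat_lit 663695020) (nat_lit 325) (nat_lit 5) (nat_lit 334) (nat_lit 5) (nat_lit 335) (nat_lit 5) (nat_lit 443) (nat_lit 379) (nat_lit 318)) (XT.nd (nat_lit 78) (nat_lit 0) (nat_lit 0) (XT.lf (nat_lit 0) (nat_lit 864596253) (nat_lit 608) (nat_lit 1294749888) (nat_lit 684) (nat_lit 6873496908) (nat_lit 316) (nat_lit 5) (nat_lit 324) (nat_lit 5) (nat_lit 325) (nat_lit 5) (nat_lit 444) (nat_lit 379) (nat_lit 317)) (XT.lf (nat_lit 0) (nat_lit 5044107297) (nat_lit 684) (nat_lit 1897655149) (nat_lit 76) (nat_lit 2175637253) (nat_lit 316) (nat_lit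 5) (nat_lit 325) (nat_lit 5) (nat_lit 317) (nat_lit 5) (nat_lit 445) (nat_lit 379) (nat_lit 316))))) (XT.nd (nat_lit 234) (nat_lit 1824) (nat_lit 0) (XT.nd (nat_lit 78) (nat_lit 684) (nat_lit 0) (XT.lf (nat_lit 0) (nat_lit 4503383645) (nat_lit 608) (nat_lit 3485537071) (nat_lit 684) (nat_lit 1214679624) (nat_lit 308) (nat_lit 5) (nat_lit 316) (nat_lit 5) (nat_lit 317) (nat_lit 5) (nat_lit 446) (nat_lit 379) (nat_lit 315)) (XT.nd (nat_lit 78) (nat_lit 0) (nat_lit 0) (XT.lf (nat_lit 0) (nat_lit 1668002070) (nat_lit 684) (nat_lit 7559081143) (nat_lit 76) (nat_lit 64436747) (nat_lit 299) (nat_lit 5) (nat_lit 308) (nat_lit 5) (nat_lit 300) (nat_lit 5) (nat_lit 447) (nat_lit 379) (nat_lit 314)) (XT.lf (nat_lit 0) (nat_lit 4611964255) (nat_lit 684) (nat_lit 1100395845) (nat_lit 76) (nat_lit 3668279465) (nat_lit 299) (nat_lit 5) (nat_lit 308) (nat_lit 5) (nat_lit 300) (nat_lit 5) (nat_lit 448) (nat_lit 379) (nat_lit 313)))) (XT.nd (nat_lit 156)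 (nat_lit 608) (nat_lit 0) (XT.nd (nat_lit 78) (nat_lit 608) (nat_lit 0) (XT.lf (nat_lit 0) (nat_lit 5514738312) (nat_lit 608) (nat_lit 2101601510) (nat_lit 684) (nat_lit 1855171055) (nat_lit 291) (nat_lit 5) (nat_lit 299) (nat_lit 5) (nat_lit 300) (nat_lit 5) (nat_lit 449) (nat_lit 379) (nat_lit 312)) (XT.lf (nat_lit 0) (nat_lit 1103189679) (nat_lit 608) (nat_lit 6878757398) (nat_lit 76) (nat_lit 1582082929) (nat_lit 283) (nat_lit 5) (nat_lit 291) (nat_lit 5) (nat_lit 284) (nat_lit 5) (nat_lit 450) (nat_lit 379) (nat_lit 311))) (XT.nd (nat_lit 78) (nat_lit 608) (nat_lit 0) (XT.lf (nat_lit 0) (nat_lit 4102736399) (nat_lit 608) (nat_lit 215967690) (nat_lit 76) (nat_lit 5339312984) (nat_lit 283) (nat_lit 5) (nat_lit 291) (nat_lit 5) (nat_lit 284) (nat_lit 5) (nat_lit 451) (nat_lit 379) (nat_lit 310)) (XT.lf (nat_lit 0) (nat_lit 6622309652) (nat_lit 608) (nat_lit 549814289) (nat_lit 684) (nat_lit 2581562942) (nat_lit 275) (nat_lit 5) (nat_lit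 283) (nat_lit 5) (nat_lit 284) (nat_lit 5) (nat_lit 452) (nat_lit 379) (nat_lit 309))))))) (XT.nd (nat_lit 1014) (nat_lit 3800) (nat_lit 0) (XT.nd (nat_lit 468) (nat_lit 2508) (nat_lit 0) (XT.nd (nat_lit 234) (nat_lit 1140) (nat_lit 0) (XT.nd (nat_lit 78) (nat_lit 532) (nat_lit 0) (XT.lf (nat_lit 0) (nat_lit 460017879) (nat_lit 608) (nat_lit 6122339172) (nat_lit 76) (nat_lit 3268568155) (nat_lit 267) (nat_lit 5) (nat_lit 275) (nat_lit 5) (nat_lit 268) (nat_lit 5) (nat_lit 453) (nat_lit 379) (nat_lit 308)) (XT.nd (nat_lit 78) (nat_lit 0) (nat_lit 0) (XT.lf (nat_lit 0) (nat_lit 762584340) (nat_lit 532) (nat_lit 2762335898) (nat_lit 608) (nat_lit 6424905633) (nat_lit 260) (nat_lit 5) (nat_lit 267) (nat_lit 5) (nat_lit 268) (nat_lit 5) (nat_lit 454) (nat_lit 379) (nat_lit 307)) (XT.lf (nat_lit 0) (nat_lit 6667390730) (nat_lit 608) (nat_lit 2234640073) (nat_lit 76) (nat_lit 1148348345) (nat_lit 260) (nat_lit 5) (nat_lit 268) (nat_lit 5) (nat_lit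 261) (nat_lit 5) (nat_lit 455) (nat_lit 379) (nat_lit 306)))) (XT.nd (nat_lit 78) (nat_lit 608) (nat_lit 0) (XT.lf (nat_lit 0) (nat_lit 4858003854) (nat_lit 532) (nat_lit 5032728689) (nat_lit 608) (nat_lit 261850509) (nat_lit 253) (nat_lit 5) (nat_lit 260) (nat_lit 5) (nat_lit 261) (nat_lit 5) (nat_lit 456) (nat_lit 379) (nat_lit 305)) (XT.nd (nat_lit 78) (nat_lit 0) (nat_lit 0) (XT.lf (nat_lit 0) (nat_lit 1826589422) (nat_lit 532) (nat_lit 1052072010) (nat_lit 608) (nat_lit 7377884808) (nat_lit 245) (nat_lit 5) (nat_lit 252) (nat_lit 5) (nat_lit 253) (nat_lit 5) (nat_lit 457) (nat_lit 379) (nat_lit 304)) (XT.lf (nat_lit 0) (nat_lit 6102342328) (nat_lit 608) (nat_lit 1266236211) (nat_lit 76) (nat_lit 2993498238) (nat_lit 245) (nat_lit 5) (nat_lit 253) (nat_lit 5) (nat_lit 246) (nat_lit 5) (nat_lit 458) (nat_lit 379) (nat_lit 303))))) (XT.nd (nat_lit 234) (nat_lit 1444) (nat_lit 0) (XT.nd (nat_lit 78) (nat_lit 608) (nat_lit 0) (XT.lf (nat_lit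 0) (nat_lit 6069463828) (nat_lit 456) (nat_lit 3336589414) (nat_lit 532) (nat_lit 1063353555) (nat_lit 239) (nat_lit 5) (nat_lit 245) (nat_lit 5) (nat_lit 246) (nat_lit 5) (nat_lit 459) (nat_lit 379) (nat_lit 302)) (XT.nd (nat_lit 78) (nat_lit 0) (nat_lit 0) (XT.lf (nat_lit 0) (nat_lit 2170515841) (nat_lit 608) (nat_lit 7612962297) (nat_lit 76) (nat_lit 795072512) (nat_lit 231) (nat_lit 5) (nat_lit 239) (nat_lit 5) (nat_lit 232) (nat_lit 5) (nat_lit 460) (nat_lit 379) (nat_lit 301)) (XT.lf (nat_lit 0) (nat_lit 5476187704) (nat_lit 608) (nat_lit 224828062) (nat_lit 76) (nat_lit 4988293769) (nat_lit 231) (nat_lit 5) (nat_lit 239) (nat_lit 5) (nat_lit 232) (nat_lit 5) (nat_lit 461) (nat_lit 379) (nat_lit 300)))) (XT.nd (nat_lit 156) (nat_lit 456) (nat_lit 0) (XT.nd (nat_lit 78) (nat_lit 532) (nat_lit 0) (XT.lf (nat_lit 0) (nat_lit 7364240768) (nat_lit 456) (nat_lit 1501675169) (nat_lit 532) (nat_lit 1936008803) (nat_lit 225) (nat_lit 5)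 (nat_lit 231) (nat_lit 5) (nat_lit 232) (nat_lit 5) (nat_lit 462) (nat_lit 379) (nat_lit 299)) (XT.lf (nat_lit 0) (nat_lit 1405406289) (nat_lit 532) (nat_lit 6741138108) (nat_lit 76) (nat_lit 2769721030) (nat_lit 218) (nat_lit 5) (nat_lit 225) (nat_lit 5) (nat_lit 219) (nat_lit 5) (nat_lit 463) (nat_lit 379) (nat_lit 298))) (XT.nd (nat_lit 78) (nat_lit 0) (nat_lit 0) (XT.lf (nat_lit 0) (nat_lit 899505563) (nat_lit 456) (nat_lit 3897704373) (nat_lit 532) (nat_lit 6235237383) (nat_lit 212) (nat_lit 5) (nat_lit 218) (nat_lit 5) (nat_lit 219) (nat_lit 5) (nat_lit 464) (nat_lit 379) (nat_lit 297)) (XT.lf (nat_lit 0) (nat_lit 8275875132) (nat_lit 532) (nat_lit 2412779031) (nat_lit 76) (nat_lit 461918176) (nat_lit 212) (nat_lit 5) (nat_lit 219) (nat_lit 5) (nat_lit 213) (nat_lit 5) (nat_lit 465) (nat_lit 379) (nat_lit 296)))))) (XT.nd (nat_lit 468) (nat_lit 1976) (nat_lit 0) (XT.nd (nat_lit 234) (nat_lit 912) (nat_lit 0) (XT.nd (nat_lit 78)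 (nat_lit 380) (nat_lit 0) (XT.lf (nat_lit 0) (nat_lit 578541078) (nat_lit 532) (nat_lit 5809650705) (nat_lit 76) (nat_lit 4882141447) (nat_lit 205) (nat_lit 5) (nat_lit 212) (nat_lit 5) (nat_lit 206) (nat_lit 5) (nat_lit 466) (nat_lit 379) (nat_lit 295)) (XT.nd (nat_lit 78) (nat_lit 0) (nat_lit 0) (XT.lf (nat_lit 0) (nat_lit 2097339846) (nat_lit 380) (nat_lit 1966294340) (nat_lit 456) (nat_lit 7328449473) (nat_lit 200) (nat_lit 5) (nat_lit 205) (nat_lit 5) (nat_lit 206) (nat_lit 5) (nat_lit 467) (nat_lit 379) (nat_lit 294)) (XT.lf (nat_lit 0) (nat_lit 7645710941) (nat_lit 456) (nat_lit 1334408928) (nat_lit 76) (nat_lit 2535603591) (nat_lit 200) (nat_lit 5) (nat_lit 206) (nat_lit 5) (nat_lit 201) (nat_lit 5) (nat_lit 468) (nat_lit 379) (nat_lit 293)))) (XT.nd (nat_lit 78) (nat_lit 456) (nat_lit 0) (XT.lf (nat_lit 0) (nat_lit 6819028609) (nat_lit 456) (nat_lit 4509774708) (nat_lit 532) (nat_lit 312445259) (nat_lit 194) (nat_lit 5) (nat_lit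 200) (nat_lit 5) (nat_lit 201) (nat_lit 5) (nat_lit 469) (nat_lit 379) (nat_lit 292)) (XT.nd (nat_lit 78) (nat_lit 0) (nat_lit 0) (XT.lf (nat_lit 0) (nat_lit 3276382221) (nat_lit 456) (nat_lit 8404921072) (nat_lit 76) (nat_lit 87478225) (nat_lit 188) (nat_lit 5) (nat_lit 194) (nat_lit 5) (nat_lit 189) (nat_lit 5) (nat_lit 470) (nat_lit 379) (nat_lit 291)) (XT.lf (nat_lit 0) (nat_lit 6967590333) (nat_lit 456) (nat_lit 194118749) (nat_lit 76) (nat_lit 4736418975) (nat_lit 188) (nat_lit 5) (nat_lit 194) (nat_lit 5) (nat_lit 189) (nat_lit 5) (nat_lit 471) (nat_lit 379) (nat_lit 290))))) (XT.nd (nat_lit 234) (nat_lit 760) (nat_lit 0) (XT.nd (nat_lit 78) (nat_lit 836) (nat_lit 0) (XT.lf (nat_lit 0) (nat_lit 8247120697) (nat_lit 380) (nat_lit 2511933785) (nat_lit 456) (nat_lit 1270478410) (nat_lit 183) (nat_lit 5) (nat_lit 188) (nat_lit 5) (nat_lit 189) (nat_lit 5) (nat_lit 472) (nat_lit 379) (nat_lit 289)) (XT.nd (nat_lit 78) (nat_lit 380)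 (nat_lit 0) (XT.lf (nat_lit 0) (nat_lit 2449981123) (nat_lit 456) (nat_lit 7477960388) (nat_lit 76) (nat_lit 2234914533) (nat_lit 177) (nat_lit 5) (nat_lit 183) (nat_lit 5) (nat_lit 178) (nat_lit 5) (nat_lit 473) (nat_lit 379) (nat_lit 288)) (XT.lf (nat_lit 0) (nat_lit 1020463213) (nat_lit 380) (nat_lit 5229332853) (nat_lit 456) (nat_lit 6048442478) (nat_lit 172) (nat_lit 5) (nat_lit 177) (nat_lit 5) (nat_lit 178) (nat_lit 5) (nat_lit 474) (nat_lit 379) (nat_lit 287)))) (XT.nd (nat_lit 156) (nat_lit 380) (nat_lit 0) (XT.nd (nat_lit 78) (nat_lit 380) (nat_lit 0) (XT.lf (nat_lit 0) (nat_lit 9748312149) (nat_lit 380) (nat_lit 400862057) (nat_lit 456) (nat_lit 2286683151) (nat_lit 172) (nat_lit 5) (nat_lit 177) (nat_lit 5) (nat_lit 178) (nat_lit 5) (nat_lit 475) (nat_lit 379) (nat_lit 286)) (XT.lf (nat_lit 0) (nat_lit 1572943106) (nat_lit 380) (nat_lit 6502334542) (nat_lit 76) (nat_lit 4499890297) (nat_lit 167) (nat_lit 5) (nat_lit 172) (nat_lit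 5) (nat_lit 168) (nat_lit 5) (nat_lit 476) (nat_lit 379) (nat_lit 285))) (XT.nd (nat_lit 78) (nat_lit 0) (nat_lit 0) (XT.lf (nat_lit 0) (nat_lit 2298589012) (nat_lit 380) (nat_lit 3190200068) (nat_lit 456) (nat_lit 7227980448) (nat_lit 162) (nat_lit 5) (nat_lit 167) (nat_lit 5) (nat_lit 168) (nat_lit 5) (nat_lit 477) (nat_lit 379) (nat_lit 284)) (XT.lf (nat_lit 0) (nat_lit 9512541539) (nat_lit 456) (nat_lit 1550315317) (nat_lit 76) (nat_lit 1797754495) (nat_lit 162) (nat_lit 5) (nat_lit 168) (nat_lit 5) (nat_lit 163) (nat_lit 5) (nat_lit 478) (nat_lit 379) (nat_lit 283))))))))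
noncomputable def xc52 : XT := (XT.nd (nat_lit 53430) (nat_lit 0) (nat_lit 21812) (XT.nd (nat_lit 52416) (nat_lit 0) (nat_lit 43244) (XT.nd (nat_lit 51870) (nat_lit 0) (nat_lit 48792) (XT.nd (nat_lit 51636) (nat_lit 0) (nat_lit 49780) (XT.nd (nat_lit 78) (nat_lit 380) (nat_lit 0) (XT.lf (nat_lit 0) (nat_lit 646306026) (nat_lit 380) (nat_lit 5479042728) (nat_lit 76) (nat_lit 6881004921) (nat_lit 157) (nat_lit 5) (nat_lit 162) (nat_lit 5) (nat_lit 158) (nat_lit 5) (nat_lit 479) (nat_lit 379) (nat_lit 282)) (XT.nd (nat_lit 78) (nat_lit 0) (nat_lit 0) (XT.lf (nat_lit 0) (nat_lit 3637183382) (nat_lit 380) (nat_lit 1047290071) (nat_lit 456) (nat_lit 8469920084) (nat_lit 152) (nat_lit 5) (nat_lit 157) (nat_lit 5) (nat_lit 158) (nat_lit 5) (nat_lit 480) (nat_lit 379) (nat_lit 281)) (XT.lf (nat_lit 0) (nat_lit 8841982956) (nat_lit 456) (nat_lit 362840231) (nat_lit 76) (nat_lit 4099799435) (nat_lit 152) (nat_lit 5) (nat_lit 158) (nat_lit 5) (nat_lit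 153) (nat_lit 5) (nat_lit 481) (nat_lit 379) (nat_lit 280)))) (XT.nd (nat_lit 78) (nat_lit 152) (nat_lit 0) (XT.lf (nat_lit 0) (nat_lit 1073741823) (nat_lit 0) (nat_lit 0) (nat_lit 0) (nat_lit 0) (nat_lit 809) (nat_lit 0) (nat_lit 1) (nat_lit 0) (nat_lit 1) (nat_lit 0) (nat_lit 380) (nat_lit 380) (nat_lit 380)) (XT.nd (nat_lit 78) (nat_lit 76) (nat_lit 0) (XT.lf (nat_lit 0) (nat_lit 3200311139) (nat_lit 76) (nat_lit 3200311139) (nat_lit 0) (nat_lit 42246951) (nat_lit 808) (nat_lit 5) (nat_lit 809) (nat_lit 0) (nat_lit 808) (nat_lit 4) (nat_lit 381) (nat_lit 380) (nat_lit 379)) (XT.lf (nat_lit 0) (nat_lit 63585129) (nat_lit 76) (nat_lit 6317790678) (nat_lit 76) (nat_lit 63585129) (nat_lit 807) (nat_lit 4) (nat_lit 808) (nat_lit 5) (nat_lit 808) (nat_lit 4) (nat_lit 382) (nat_lit 380) (nat_lit 378))))) (XT.nd (nat_lit 234) (nat_lit 684) (nat_lit 0) (XT.nd (nat_lit 78) (nat_lit 228) (nat_lit 0) (XT.lf (nat_lit 0) (nat_lit 3076039157) (nat_lit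 152) (nat_lit 3076039157) (nat_lit 76) (nat_lit 295828070) (nat_lit 806) (nat_lit 5) (nat_lit 808) (nat_lit 5) (nat_lit 807) (nat_lit 4) (nat_lit 383) (nat_lit 380) (nat_lit 377)) (XT.nd (nat_lit 78) (nat_lit 76) (nat_lit 0) (XT.lf (nat_lit 0) (nat_lit 254465203) (nat_lit 152) (nat_lit 5943563449) (nat_lit 228) (nat_lit 254465203) (nat_lit 804) (nat_lit 5) (nat_lit 806) (nat_lit 5) (nat_lit 807) (nat_lit 4) (nat_lit 384) (nat_lit 380) (nat_lit 376)) (XT.lf (nat_lit 0) (nat_lit 2827249535) (nat_lit 228) (nat_lit 2827249535) (nat_lit 76) (nat_lit 803487540) (nat_lit 803) (nat_lit 5) (nat_lit 806) (nat_lit 5) (nat_lit 804) (nat_lit 5) (nat_lit 385) (nat_lit 380) (nat_lit 375)))) (XT.nd (nat_lit 156) (nat_lit 380) (nat_lit 0) (XT.nd (nat_lit 78) (nat_lit 76) (nat_lit 0) (XT.lf (nat_lit 0) (nat_lit 573014487) (nat_lit 228) (nat_lit 5319029550) (nat_lit 304) (nat_lit 573014487) (nat_lit 800) (nat_lit 5) (nat_lit 803) (nat_lit 5) (nat_lit 804)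 (nat_lit 5) (nat_lit 386) (nat_lit 380) (nat_lit 374)) (XT.lf (nat_lit 0) (nat_lit 2453450549) (nat_lit 304) (nat_lit 2453450549) (nat_lit 76) (nat_lit 1566220641) (nat_lit 799) (nat_lit 5) (nat_lit 803) (nat_lit 5) (nat_lit 800) (nat_lit 5) (nat_lit 387) (nat_lit 380) (nat_lit 373))) (XT.nd (nat_lit 78) (nat_lit 76) (nat_lit 0) (XT.lf (nat_lit 0) (nat_lit 1019857440) (nat_lit 304) (nat_lit 4442954786) (nat_lit 380) (nat_lit 1019857440) (nat_lit 795) (nat_lit 5) (nat_lit 799) (nat_lit 5) (nat_lit 800) (nat_lit 5) (nat_lit 388) (nat_lit 380) (nat_lit 372)) (XT.lf (nat_lit 0) (nat_lit 1953903604) (nat_lit 380) (nat_lit 1953903604) (nat_lit 76) (nat_lit 2585522343) (nat_lit 794) (nat_lit 5) (nat_lit 799) (nat_lit 5) (nat_lit 795) (nat_lit 5) (nat_lit 389) (nat_lit 380) (nat_lit 371)))))) (XT.nd (nat_lit 468) (nat_lit 3420) (nat_lit 0) (XT.nd (nat_lit 234) (nat_lit 1216) (nat_lit 0) (XT.nd (nat_lit 78) (nat_lit 532) (nat_lit 0) (XT.lf (nat_lit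 0) (nat_lit 1595869747) (nat_lit 380) (nat_lit 3313608430) (nat_lit 456) (nat_lit 1595869747) (nat_lit 789) (nat_lit 5) (nat_lit 794) (nat_lit 5) (nat_lit 795) (nat_lit 5) (nat_lit 390) (nat_lit 380) (nat_lit 370)) (XT.nd (nat_lit 78) (nat_lit 456) (nat_lit 0) (XT.lf (nat_lit 0) (nat_lit 1327622008) (nat_lit 456) (nat_lit 1327622008) (nat_lit 76) (nat_lit 3863389768) (nat_lit 788) (nat_lit 5) (nat_lit 794) (nat_lit 5) (nat_lit 789) (nat_lit 5) (nat_lit 391) (nat_lit 380) (nat_lit 369)) (XT.lf (nat_lit 0) (nat_lit 2302179755) (nat_lit 456) (nat_lit 1928760373) (nat_lit 532) (nat_lit 2302179755) (nat_lit 782) (nat_lit 5) (nat_lit 788) (nat_lit 5) (nat_lit 789) (nat_lit 5) (nat_lit 392) (nat_lit 380) (nat_lit 368)))) (XT.nd (nat_lit 78) (nat_lit 1140) (nat_lit 0) (XT.lf (nat_lit 0) (nat_lit 573369350) (nat_lit 532) (nat_lit 573369350) (nat_lit 76) (nat_lit 5402325479) (nat_lit 781) (nat_lit 5) (nat_lit 788) (nat_lit 5) (nat_lit 782) (nat_lit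 5) (nat_lit 393) (nat_lit 380) (nat_lit 367)) (XT.nd (nat_lit 78) (nat_lit 608) (nat_lit 0) (XT.lf (nat_lit 0) (nat_lit 3140170337) (nat_lit 532) (nat_lit 285677445) (nat_lit 608) (nat_lit 3140170337) (nat_lit 774) (nat_lit 5) (nat_lit 781) (nat_lit 5) (nat_lit 782) (nat_lit 5) (nat_lit 394) (nat_lit 380) (nat_lit 366)) (XT.lf (nat_lit 0) (nat_lit 308300814) (nat_lit 608) (nat_lit 5967893149) (nat_lit 684) (nat_lit 308300814) (nat_lit 766) (nat_lit 5) (nat_lit 774) (nat_lit 5) (nat_lit 775) (nat_lit 5) (nat_lit 395) (nat_lit 380) (nat_lit 365))))) (XT.nd (nat_lit 234) (nat_lit 2584) (nat_lit 0) (XT.nd (nat_lit 78) (nat_lit 760) (nat_lit 0) (XT.lf (nat_lit 0) (nat_lit 2503110925) (nat_lit 684) (nat_lit 2503110925) (nat_lit 76) (nat_lit 1597649176) (nat_lit 765) (nat_lit 5) (nat_lit 774) (nat_lit 5) (nat_lit 766) (nat_lit 5) (nat_lit 396) (nat_lit 380) (nat_lit 364)) (XT.nd (nat_lit 78) (nat_lit 76) (nat_lit 0) (XT.lf (nat_lit 0) (nat_lit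 1316537263) (nat_lit 684) (nat_lit 3991687475) (nat_lit 760) (nat_lit 1316537263) (nat_lit 756) (nat_lit 5) (nat_lit 765) (nat_lit 5) (nat_lit 766) (nat_lit 5) (nat_lit 397) (nat_lit 380) (nat_lit 363)) (XT.lf (nat_lit 0) (nat_lit 1453941077) (nat_lit 760) (nat_lit 1453941077) (nat_lit 76) (nat_lit 3738979822) (nat_lit 755) (nat_lit 5) (nat_lit 765) (nat_lit 5) (nat_lit 756) (nat_lit 5) (nat_lit 398) (nat_lit 380) (nat_lit 362)))) (XT.nd (nat_lit 156) (nat_lit 1748) (nat_lit 0) (XT.nd (nat_lit 78) (nat_lit 76) (nat_lit 0) (XT.lf (nat_lit 0) (nat_lit 2457098482) (nat_lit 760) (nat_lit 1756014687) (nat_lit 836) (nat_lit 2457098482) (nat_lit 745) (nat_lit 5) (nat_lit 755) (nat_lit 5) (nat_lit 756) (nat_lit 5) (nat_lit 399) (nat_lit 380) (nat_lit 361)) (XT.lf (nat_lit 0) (nat_lit 274400222) (nat_lit 836) (nat_lit 274400222) (nat_lit 76) (nat_lit 6146277919) (nat_lit 744) (nat_lit 5) (nat_lit 755) (nat_lit 5) (nat_lit 745) (nat_lit 5) (nat_lit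 400) (nat_lit 380) (nat_lit 360))) (XT.nd (nat_lit 78) (nat_lit 912) (nat_lit 0) (XT.lf (nat_lit 0) (nat_lit 2993495039) (nat_lit 912) (nat_lit 2993495039) (nat_lit 76) (nat_lit 733810169) (nat_lit 733) (nat_lit 5) (nat_lit 745) (nat_lit 5) (nat_lit 734) (nat_lit 5) (nat_lit 401) (nat_lit 380) (nat_lit 359)) (XT.lf (nat_lit 0) (nat_lit 1031023425) (nat_lit 912) (nat_lit 4685988906) (nat_lit 988) (nat_lit 1031023425) (nat_lit 721) (nat_lit 5) (nat_lit 733) (nat_lit 5) (nat_lit 734) (nat_lit 5) (nat_lit 402) (nat_lit 380) (nat_lit 358))))))) (XT.nd (nat_lit 1014) (nat_lit 11020) (nat_lit 0) (XT.nd (nat_lit 468) (nat_lit 6992) (nat_lit 0) (XT.nd (nat_lit 234) (nat_lit 2280) (nat_lit 0) (XT.nd (nat_lit 78) (nat_lit 1064) (nat_lit 0) (XT.lf (nat_lit 0) (nat_lit 1655241348) (nat_lit 988) (nat_lit 1655241348) (nat_lit 76) (nat_lit 3465937943) (nat_lit 720) (nat_lit 5) (nat_lit 733) (nat_lit 5) (nat_lit 721) (nat_lit 5) (nat_lit 403) (nat_lit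 380) (nat_lit 357)) (XT.nd (nat_lit 78) (nat_lit 76) (nat_lit 0) (XT.lf (nat_lit 0) (nat_lit 2469062531) (nat_lit 988) (nat_lit 1867999144) (nat_lit 1064) (nat_lit 2469062531) (nat_lit 707) (nat_lit 5) (nat_lit 720) (nat_lit 5) (nat_lit 721) (nat_lit 5) (nat_lit 404) (nat_lit 380) (nat_lit 356)) (XT.lf (nat_lit 0) (nat_lit 184278099) (nat_lit 1064) (nat_lit 184278099) (nat_lit 76) (nat_lit 6468809428) (nat_lit 706) (nat_lit 5) (nat_lit 720) (nat_lit 5) (nat_lit 707) (nat_lit 5) (nat_lit 405) (nat_lit 380) (nat_lit 355)))) (XT.nd (nat_lit 78) (nat_lit 1216) (nat_lit 0) (XT.lf (nat_lit 0) (nat_lit 2833101615) (nat_lit 1140) (nat_lit 2833101615) (nat_lit 76) (nat_lit 1203192697) (nat_lit 692) (nat_lit 5) (nat_lit 707) (nat_lit 5) (nat_lit 693) (nat_lit 5) (nat_lit 406) (nat_lit 380) (nat_lit 354)) (XT.nd (nat_lit 78) (nat_lit 76) (nat_lit 0) (XT.lf (nat_lit 0) (nat_lit 1412971323) (nat_lit 1140) (nat_lit 4077022348) (nat_lit 1216) (nat_lit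 1412971323) (nat_lit 677) (nat_lit 5) (nat_lit 692) (nat_lit 5) (nat_lit 693) (nat_lit 5) (nat_lit 407) (nat_lit 380) (nat_lit 353)) (XT.lf (nat_lit 0) (nat_lit 1208092573) (nat_lit 1216) (nat_lit 1208092573) (nat_lit 76) (nat_lit 4521619584) (nat_lit 676) (nat_lit 5) (nat_lit 692) (nat_lit 5) (nat_lit 677) (nat_lit 5) (nat_lit 408) (nat_lit 380) (nat_lit 352))))) (XT.nd (nat_lit 234) (nat_lit 4408) (nat_lit 0) (XT.nd (nat_lit 78) (nat_lit 1368) (nat_lit 0) (XT.lf (nat_lit 0) (nat_lit 3146938685) (nat_lit 1216) (nat_lit 679991650) (nat_lit 1292) (nat_lit 3146938685) (nat_lit 660) (nat_lit 5) (nat_lit 676) (nat_lit 5) (nat_lit 677) (nat_lit 5) (nat_lit 409) (nat_lit 380) (nat_lit 351)) (XT.nd (nat_lit 78) (nat_lit 76) (nat_lit 0) (XT.lf (nat_lit 0) (nat_lit 549716030) (nat_lit 1292) (nat_lit 5911952072) (nat_lit 1368) (nat_lit 549716030) (nat_lit 643) (nat_lit 5) (nat_lit 660) (nat_lit 5) (nat_lit 661) (nat_lit 5) (nat_lit 410) (nat_lit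 380) (nat_lit 350)) (XT.lf (nat_lit 0) (nat_lit 2047411875) (nat_lit 1368) (nat_lit 2047411875) (nat_lit 76) (nat_lit 2955043264) (nat_lit 642) (nat_lit 5) (nat_lit 660) (nat_lit 5) (nat_lit 643) (nat_lit 5) (nat_lit 411) (nat_lit 380) (nat_lit 349)))) (XT.nd (nat_lit 156) (nat_lit 2964) (nat_lit 0) (XT.nd (nat_lit 78) (nat_lit 76) (nat_lit 0) (XT.lf (nat_lit 0) (nat_lit 2438626944) (nat_lit 1368) (nat_lit 2212551851) (nat_lit 1444) (nat_lit 2438626944) (nat_lit 624) (nat_lit 5) (nat_lit 642) (nat_lit 5) (nat_lit 643) (nat_lit 5) (nat_lit 412) (nat_lit 380) (nat_lit 348)) (XT.lf (nat_lit 0) (nat_lit 134624774) (nat_lit 1444) (nat_lit 134624774) (nat_lit 76) (nat_lit 6862061546) (nat_lit 623) (nat_lit 5) (nat_lit 642) (nat_lit 5) (nat_lit 624) (nat_lit 5) (nat_lit 413) (nat_lit 380) (nat_lit 347))) (XT.nd (nat_lit 78) (nat_lit 1520) (nat_lit 0) (XT.lf (nat_lit 0) (nat_lit 2714893369) (nat_lit 1520) (nat_lit 2714893369) (nat_lit 76) (nat_lit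 1743773328) (nat_lit 604) (nat_lit 5) (nat_lit 624) (nat_lit 5) (nat_lit 605) (nat_lit 5) (nat_lit 414) (nat_lit 380) (nat_lit 346)) (XT.lf (nat_lit 0) (nat_lit 1907075191) (nat_lit 1520) (nat_lit 3403232825) (nat_lit 1596) (nat_lit 1907075191) (nat_lit 584) (nat_lit 5) (nat_lit 604) (nat_lit 5) (nat_lit 605) (nat_lit 5) (nat_lit 415) (nat_lit 380) (nat_lit 345)))))) (XT.nd (nat_lit 468) (nat_lit 4028) (nat_lit 0) (XT.nd (nat_lit 234) (nat_lit 3648) (nat_lit 0) (XT.nd (nat_lit 78) (nat_lit 3268) (nat_lit 0) (XT.lf (nat_lit 0) (nat_lit 653613773) (nat_lit 1596) (nat_lit 653613773) (nat_lit 76) (nat_lit 5955421186) (nat_lit 583) (nat_lit 5) (nat_lit 604) (nat_lit 5) (nat_lit 584) (nat_lit 5) (nat_lit 416) (nat_lit 380) (nat_lit 344)) (XT.nd (nat_lit 78) (nat_lit 1672) (nat_lit 0) (XT.lf (nat_lit 0) (nat_lit 3222117157) (nat_lit 1672) (nat_lit 3222117157) (nat_lit 76) (nat_lit 864690410) (nat_lit 562) (nat_lit 5) (nat_lit 584) (nat_lit 5)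 (nat_lit 563) (nat_lit 5) (nat_lit 417) (nat_lit 380) (nat_lit 343)) (XT.lf (nat_lit 0) (nat_lit 1541004760) (nat_lit 1672) (nat_lit 4274643563) (nat_lit 1748) (nat_lit 1541004760) (nat_lit 540) (nat_lit 5) (nat_lit 562) (nat_lit 5) (nat_lit 563) (nat_lit 5) (nat_lit 418) (nat_lit 380) (nat_lit 342)))) (XT.nd (nat_lit 78) (nat_lit 3572) (nat_lit 0) (XT.lf (nat_lit 0) (nat_lit 1014567254) (nat_lit 1748) (nat_lit 1014567254) (nat_lit 76) (nat_lit 5376610431) (nat_lit 539) (nat_lit 5) (nat_lit 562) (nat_lit 5) (nat_lit 540) (nat_lit 5) (nat_lit 419) (nat_lit 380) (nat_lit 341)) (XT.nd (nat_lit 78) (nat_lit 1824) (nat_lit 0) (XT.lf (nat_lit 0) (nat_lit 3579664657) (nat_lit 1824) (nat_lit 3579664657) (nat_lit 76) (nat_lit 296704639) (nat_lit 516) (nat_lit 5) (nat_lit 540) (nat_lit 5) (nat_lit 517) (nat_lit 5) (nat_lit 420) (nat_lit 380) (nat_lit 340)) (XT.lf (nat_lit 0) (nat_lit 1330138579) (nat_lit 1824) (nat_lit 4847421664) (nat_lit 1900)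 (nat_lit 1330138579) (nat_lit 492) (nat_lit 5) (nat_lit 516) (nat_lit 5) (nat_lit 517) (nat_lit 5) (nat_lit 421) (nat_lit 380) (nat_lit 339))))) (XT.nd (nat_lit 234) (nat_lit 1900) (nat_lit 0) (XT.nd (nat_lit 78) (nat_lit 2052) (nat_lit 0) (XT.lf (nat_lit 0) (nat_lit 1227475465) (nat_lit 1900) (nat_lit 1227475465) (nat_lit 76) (nat_lit 5105740015) (nat_lit 491) (nat_lit 5) (nat_lit 516) (nat_lit 5) (nat_lit 492) (nat_lit 5) (nat_lit 422) (nat_lit 380) (nat_lit 338)) (XT.nd (nat_lit 78) (nat_lit 912) (nat_lit 0) (XT.lf (nat_lit 0) (nat_lit 3797191039) (nat_lit 1216) (nat_lit 3797191039) (nat_lit 76) (nat_lit 20609793) (nat_lit 476) (nat_lit 5) (nat_lit 492) (nat_lit 5) (nat_lit 477) (nat_lit 5) (nat_lit 423) (nat_lit 380) (nat_lit 337)) (XT.lf (nat_lit 0) (nat_lit 1265129584) (nat_lit 912) (nat_lit 5140375560) (nat_lit 988) (nat_lit 1265129584) (nat_lit 464) (nat_lit 5) (nat_lit 476) (nat_lit 5) (nat_lit 477) (nat_lit 5) (nat_lit 424)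 (nat_lit 380) (nat_lit 336)))) (XT.nd (nat_lit 156) (nat_lit 912) (nat_lit 0) (XT.nd (nat_lit 78) (nat_lit 912) (nat_lit 0) (XT.lf (nat_lit 0) (nat_lit 1301431452) (nat_lit 988) (nat_lit 1301431452) (nat_lit 76) (nat_lit 5124745875) (nat_lit 463) (nat_lit 5) (nat_lit 476) (nat_lit 5) (nat_lit 464) (nat_lit 5) (nat_lit 425) (nat_lit 380) (nat_lit 335)) (XT.lf (nat_lit 0) (nat_lit 3883491969) (nat_lit 988) (nat_lit 3883491969) (nat_lit 76) (nat_lit 18948955) (nat_lit 451) (nat_lit 5) (nat_lit 464) (nat_lit 5) (nat_lit 452) (nat_lit 5) (nat_lit 426) (nat_lit 380) (nat_lit 334))) (XT.nd (nat_lit 78) (nat_lit 76) (nat_lit 0) (XT.lf (nat_lit 0) (nat_lit 1337494805) (nat_lit 836) (nat_lit 5170615546) (nat_lit 912) (nat_lit 1337494805) (nat_lit 440) (nat_lit 5) (nat_lit 451) (nat_lit 5) (nat_lit 452) (nat_lit 5) (nat_lit 427) (nat_lit 380) (nat_lit 333)) (XT.lf (nat_lit 0) (nat_lit 1244694929) (nat_lit 912) (nat_lit 1244694929) (nat_lit 76) (nat_lit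 5417260640) (nat_lit 439) (nat_lit 5) (nat_lit 451) (nat_lit 5) (nat_lit 440) (nat_lit 5) (nat_lit 428) (nat_lit 380) (nat_lit 332))))))))
noncomputable def xc53 : XT := (XT.nd (nat_lit 2028) (nat_lit 8360) (nat_lit 0) (XT.nd (nat_lit 1014) (nat_lit 5776) (nat_lit 0) (XT.nd (nat_lit 468) (nat_lit 3800) (nat_lit 0) (XT.nd (nat_lit 234) (nat_lit 1672) (nat_lit 0) (XT.nd (nat_lit 78) (nat_lit 912) (nat_lit 0) (XT.lf (nat_lit 0) (nat_lit 3846565104) (nat_lit 988) (nat_lit 3846565104) (nat_lit 76) (nat_lit 275890811) (nat_lit 427) (nat_lit 5) (nat_lit 440) (nat_lit 5) (nat_lit 428) (nat_lit 5) (nat_lit 429) (nat_lit 380) (nat_lit 331)) (XT.nd (nat_lit 78) (nat_lit 76) (nat_lit 0) (XT.lf (nat_lit 0) (nat_lit 1539554680) (nat_lit 836) (nat_lit 4953674459) (nat_lit 912) (nat_lit 1539554680) (nat_lit 416) (nat_lit 5) (nat_lit 427) (nat_lit 5) (nat_lit 428) (nat_lit 5) (nat_lit 430) (nat_lit 380) (nat_lit 330)) (XT.lf (nat_lit 0) (nat_lit 1064751088)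 (nat_lit 912) (nat_lit 1064751088) (nat_lit 76) (nat_lit 5968495356) (nat_lit 415) (nat_lit 5) (nat_lit 427) (nat_lit 5) (nat_lit 416) (nat_lit 5) (nat_lit 431) (nat_lit 380) (nat_lit 329)))) (XT.nd (nat_lit 78) (nat_lit 836) (nat_lit 0) (XT.lf (nat_lit 0) (nat_lit 3693666717) (nat_lit 912) (nat_lit 3693666717) (nat_lit 76) (nat_lit 777115789) (nat_lit 404) (nat_lit 5) (nat_lit 416) (nat_lit 5) (nat_lit 405) (nat_lit 5) (nat_lit 432) (nat_lit 380) (nat_lit 328)) (XT.nd (nat_lit 78) (nat_lit 76) (nat_lit 0) (XT.lf (nat_lit 0) (nat_lit 1864377231) (nat_lit 760) (nat_lit 4503618779) (nat_lit 836) (nat_lit 1864377231) (nat_lit 394) (nat_lit 5) (nat_lit 404) (nat_lit 5) (nat_lit 405) (nat_lit 5) (nat_lit 433) (nat_lit 380) (nat_lit 327)) (XT.lf (nat_lit 0) (nat_lit 768364712) (nat_lit 836) (nat_lit 768364712) (nat_lit 76) (nat_lit 6765130709) (nat_lit 393) (nat_lit 5) (nat_lit 404) (nat_lit 5) (nat_lit 394) (nat_lit 5) (nat_lit 434) (nat_lit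 380) (nat_lit 326))))) (XT.nd (nat_lit 234) (nat_lit 2204) (nat_lit 0) (XT.nd (nat_lit 78) (nat_lit 836) (nat_lit 0) (XT.lf (nat_lit 0) (nat_lit 3431363827) (nat_lit 836) (nat_lit 3431363827) (nat_lit 76) (nat_lit 1509711311) (nat_lit 383) (nat_lit 5) (nat_lit 394) (nat_lit 5) (nat_lit 384) (nat_lit 5) (nat_lit 435) (nat_lit 380) (nat_lit 325)) (XT.nd (nat_lit 78) (nat_lit 76) (nat_lit 0) (XT.lf (nat_lit 0) (nat_lit 2305726712) (nat_lit 760) (nat_lit 3833150858) (nat_lit 836) (nat_lit 2305726712) (nat_lit 373) (nat_lit 5) (nat_lit 383) (nat_lit 5) (nat_lit 384) (nat_lit 5) (nat_lit 436) (nat_lit 380) (nat_lit 324)) (XT.lf (nat_lit 0) (nat_lit 361629959) (nat_lit 836) (nat_lit 361629959) (nat_lit 76) (nat_lit 7795217029) (nat_lit 372) (nat_lit 5) (nat_lit 383) (nat_lit 5) (nat_lit 373) (nat_lit 5) (nat_lit 437) (nat_lit 380) (nat_lit 323)))) (XT.nd (nat_lit 156) (nat_lit 760) (nat_lit 0) (XT.nd (nat_lit 78) (nat_lit 684) (nat_lit 0) (XT.lf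 (nat_lit 0) (nat_lit 3065582159) (nat_lit 836) (nat_lit 3065582159) (nat_lit 76) (nat_lit 2462075488) (nat_lit 362) (nat_lit 5) (nat_lit 373) (nat_lit 5) (nat_lit 363) (nat_lit 5) (nat_lit 438) (nat_lit 380) (nat_lit 322)) (XT.lf (nat_lit 0) (nat_lit 2858016429) (nat_lit 684) (nat_lit 2953702946) (nat_lit 760) (nat_lit 2858016429) (nat_lit 353) (nat_lit 5) (nat_lit 362) (nat_lit 5) (nat_lit 363) (nat_lit 5) (nat_lit 439) (nat_lit 380) (nat_lit 321))) (XT.nd (nat_lit 78) (nat_lit 76) (nat_lit 0) (XT.lf (nat_lit 0) (nat_lit 148997136) (nat_lit 684) (nat_lit 8450042246) (nat_lit 760) (nat_lit 148997136) (nat_lit 344) (nat_lit 5) (nat_lit 353) (nat_lit 5) (nat_lit 354) (nat_lit 5) (nat_lit 440) (nat_lit 380) (nat_lit 320)) (XT.lf (nat_lit 0) (nat_lit 2601650254) (nat_lit 760) (nat_lit 2601650254) (nat_lit 76) (nat_lit 3623828609) (nat_lit 343) (nat_lit 5) (nat_lit 353) (nat_lit 5) (nat_lit 344) (nat_lit 5) (nat_lit 441) (nat_lit 380) (nat_lit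 319)))))) (XT.nd (nat_lit 468) (nat_lit 3040) (nat_lit 0) (XT.nd (nat_lit 234) (nat_lit 1292) (nat_lit 0) (XT.nd (nat_lit 78) (nat_lit 760) (nat_lit 0) (XT.lf (nat_lit 0) (nat_lit 3516265390) (nat_lit 684) (nat_lit 1875523622) (nat_lit 760) (nat_lit 3516265390) (nat_lit 334) (nat_lit 5) (nat_lit 343) (nat_lit 5) (nat_lit 344) (nat_lit 5) (nat_lit 442) (nat_lit 380) (nat_lit 318)) (XT.nd (nat_lit 78) (nat_lit 76) (nat_lit 0) (XT.lf (nat_lit 0) (nat_lit 756579838) (nat_lit 684) (nat_lit 7477511302) (nat_lit 760) (nat_lit 756579838) (nat_lit 325) (nat_lit 5) (nat_lit 334) (nat_lit 5) (nat_lit 335) (nat_lit 5) (nat_lit 443) (nat_lit 380) (nat_lit 317)) (XT.lf (nat_lit 0) (nat_lit 2044340007) (nat_lit 760) (nat_lit 2044340007) (nat_lit 76) (nat_lit 4985731886) (nat_lit 324) (nat_lit 5) (nat_lit 334) (nat_lit 5) (nat_lit 325) (nat_lit 5) (nat_lit 444) (nat_lit 380) (nat_lit 316)))) (XT.nd (nat_lit 78) (nat_lit 684) (nat_lit 0) (XT.lf (nat_lit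 0) (nat_lit 4276058537) (nat_lit 608) (nat_lit 607757183) (nat_lit 684) (nat_lit 4276058537) (nat_lit 316) (nat_lit 5) (nat_lit 324) (nat_lit 5) (nat_lit 325) (nat_lit 5) (nat_lit 445) (nat_lit 380) (nat_lit 315)) (XT.nd (nat_lit 78) (nat_lit 76) (nat_lit 0) (XT.lf (nat_lit 0) (nat_lit 1459183587) (nat_lit 608) (nat_lit 6328526112) (nat_lit 684) (nat_lit 1459183587) (nat_lit 308) (nat_lit 5) (nat_lit 316) (nat_lit 5) (nat_lit 317) (nat_lit 5) (nat_lit 446) (nat_lit 380) (nat_lit 314)) (XT.lf (nat_lit 0) (nat_lit 1397903898) (nat_lit 684) (nat_lit 1397903898) (nat_lit 76) (nat_lit 6539612881) (nat_lit 307) (nat_lit 5) (nat_lit 316) (nat_lit 5) (nat_lit 308) (nat_lit 5) (nat_lit 447) (nat_lit 380) (nat_lit 313))))) (XT.nd (nat_lit 234) (nat_lit 1748) (nat_lit 0) (XT.nd (nat_lit 78) (nat_lit 684) (nat_lit 0) (XT.lf (nat_lit 0) (nat_lit 4297490262) (nat_lit 684) (nat_lit 4297490262) (nat_lit 76) (nat_lit 830447272) (nat_lit 299) (nat_lit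 5) (nat_lit 308) (nat_lit 5) (nat_lit 300) (nat_lit 5) (nat_lit 448) (nat_lit 380) (nat_lit 312)) (XT.nd (nat_lit 78) (nat_lit 76) (nat_lit 0) (XT.lf (nat_lit 0) (nat_lit 2253000135) (nat_lit 608) (nat_lit 5011055053) (nat_lit 684) (nat_lit 2253000135) (nat_lit 291) (nat_lit 5) (nat_lit 299) (nat_lit 5) (nat_lit 300) (nat_lit 5) (nat_lit 449) (nat_lit 380) (nat_lit 311)) (XT.lf (nat_lit 0) (nat_lit 666109166) (nat_lit 684) (nat_lit 666109166) (nat_lit 76) (nat_lit 8278297158) (nat_lit 290) (nat_lit 5) (nat_lit 299) (nat_lit 5) (nat_lit 291) (nat_lit 5) (nat_lit 450) (nat_lit 380) (nat_lit 310)))) (XT.nd (nat_lit 156) (nat_lit 608) (nat_lit 0) (XT.nd (nat_lit 78) (nat_lit 608) (nat_lit 0) (XT.lf (nat_lit 0) (nat_lit 3636185745) (nat_lit 608) (nat_lit 3636185745) (nat_lit 76) (nat_lit 2432720471) (nat_lit 283) (nat_lit 5) (nat_lit 291) (nat_lit 5) (nat_lit 284) (nat_lit 5) (nat_lit 451) (nat_lit 380) (nat_lit 309)) (XT.lf (nat_lit 0) (nat_lit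 3134694450) (nat_lit 608) (nat_lit 3532147498) (nat_lit 684) (nat_lit 3134694450) (nat_lit 275) (nat_lit 5) (nat_lit 283) (nat_lit 5) (nat_lit 284) (nat_lit 5) (nat_lit 452) (nat_lit 380) (nat_lit 308))) (XT.nd (nat_lit 78) (nat_lit 76) (nat_lit 0) (XT.lf (nat_lit 0) (nat_lit 146758943) (nat_lit 532) (nat_lit 9606489102) (nat_lit 608) (nat_lit 146758943) (nat_lit 268) (nat_lit 5) (nat_lit 275) (nat_lit 5) (nat_lit 276) (nat_lit 5) (nat_lit 453) (nat_lit 380) (nat_lit 307)) (XT.lf (nat_lit 0) (nat_lit 2899236585) (nat_lit 608) (nat_lit 2899236585) (nat_lit 76) (nat_lit 4200870172) (nat_lit 267) (nat_lit 5) (nat_lit 275) (nat_lit 5) (nat_lit 268) (nat_lit 5) (nat_lit 454) (nat_lit 380) (nat_lit 306))))))) (XT.nd (nat_lit 1014) (nat_lit 3648) (nat_lit 0) (XT.nd (nat_lit 468) (nat_lit 2508) (nat_lit 0) (XT.nd (nat_lit 234) (nat_lit 1064) (nat_lit 0) (XT.nd (nat_lit 78) (nat_lit 608) (nat_lit 0) (XT.lf (nat_lit 0) (nat_lit 4101375204) (nat_lit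 532) (nat_lit 1897992990) (nat_lit 608) (nat_lit 4101375204) (nat_lit 260) (nat_lit 5) (nat_lit 267) (nat_lit 5) (nat_lit 268) (nat_lit 5) (nat_lit 455) (nat_lit 380) (nat_lit 305)) (XT.nd (nat_lit 78) (nat_lit 76) (nat_lit 0) (XT.lf (nat_lit 0) (nat_lit 1033881154) (nat_lit 532) (nat_lit 8136236833) (nat_lit 608) (nat_lit 1033881154) (nat_lit 253) (nat_lit 5) (nat_lit 260) (nat_lit 5) (nat_lit 261) (nat_lit 5) (nat_lit 456) (nat_lit 380) (nat_lit 304)) (XT.lf (nat_lit 0) (nat_lit 2089518927) (nat_lit 608) (nat_lit 2089518927) (nat_lit 76) (nat_lit 6129569471) (nat_lit 252) (nat_lit 5) (nat_lit 260) (nat_lit 5) (nat_lit 253) (nat_lit 5) (nat_lit 457) (nat_lit 380) (nat_lit 303)))) (XT.nd (nat_lit 78) (nat_lit 532) (nat_lit 0) (XT.lf (nat_lit 0) (nat_lit 5150567788) (nat_lit 532) (nat_lit 113975417) (nat_lit 608) (nat_lit 5150567788) (nat_lit 245) (nat_lit 5) (nat_lit 252) (nat_lit 5) (nat_lit 253) (nat_lit 5) (nat_lit 458) (nat_lit 380)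 (nat_lit 302)) (XT.nd (nat_lit 78) (nat_lit 76) (nat_lit 0) (XT.lf (nat_lit 0) (nat_lit 1997166962) (nat_lit 456) (nat_lit 6528949836) (nat_lit 532) (nat_lit 1997166962) (nat_lit 239) (nat_lit 5) (nat_lit 245) (nat_lit 5) (nat_lit 246) (nat_lit 5) (nat_lit 459) (nat_lit 380) (nat_lit 301)) (XT.lf (nat_lit 0) (nat_lit 1209530090) (nat_lit 532) (nat_lit 1209530090) (nat_lit 76) (nat_lit 8214277081) (nat_lit 238) (nat_lit 5) (nat_lit 245) (nat_lit 5) (nat_lit 239) (nat_lit 5) (nat_lit 460) (nat_lit 380) (nat_lit 300))))) (XT.nd (nat_lit 234) (nat_lit 1444) (nat_lit 0) (XT.nd (nat_lit 78) (nat_lit 532) (nat_lit 0) (XT.lf (nat_lit 0) (nat_lit 4476698250) (nat_lit 608) (nat_lit 4476698250) (nat_lit 76) (nat_lit 1791469721) (nat_lit 231) (nat_lit 5) (nat_lit 239) (nat_lit 5) (nat_lit 232) (nat_lit 5) (nat_lit 461) (nat_lit 380) (nat_lit 299)) (XT.nd (nat_lit 78) (nat_lit 76) (nat_lit 0) (XT.lf (nat_lit 0) (nat_lit 3034516044) (nat_lit 456) (nat_lit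 4789301517) (nat_lit 532) (nat_lit 3034516044) (nat_lit 225) (nat_lit 5) (nat_lit 231) (nat_lit 5) (nat_lit 232) (nat_lit 5) (nat_lit 462) (nat_lit 380) (nat_lit 298)) (XT.lf (nat_lit 0) (nat_lit 261411812) (nat_lit 532) (nat_lit 261411812) (nat_lit 76) (nat_lit 10451191199) (nat_lit 224) (nat_lit 5) (nat_lit 231) (nat_lit 5) (nat_lit 225) (nat_lit 5) (nat_lit 463) (nat_lit 380) (nat_lit 297)))) (XT.nd (nat_lit 156) (nat_lit 532) (nat_lit 0) (XT.nd (nat_lit 78) (nat_lit 456) (nat_lit 0) (XT.lf (nat_lit 0) (nat_lit 3627908978) (nat_lit 532) (nat_lit 3627908978) (nat_lit 76) (nat_lit 3834884889) (nat_lit 218) (nat_lit 5) (nat_lit 225) (nat_lit 5) (nat_lit 219) (nat_lit 5) (nat_lit 464) (nat_lit 380) (nat_lit 296)) (XT.lf (nat_lit 0) (nat_lit 4144178805) (nat_lit 456) (nat_lit 2921292316) (nat_lit 532) (nat_lit 4144178805) (nat_lit 212) (nat_lit 5) (nat_lit 218) (nat_lit 5) (nat_lit 219) (nat_lit 5) (nat_lit 465) (nat_lit 380) (nat_lit 295)))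 (XT.nd (nat_lit 78) (nat_lit 76) (nat_lit 0) (XT.lf (nat_lit 0) (nat_lit 748074386) (nat_lit 456) (nat_lit 9834609195) (nat_lit 532) (nat_lit 748074386) (nat_lit 206) (nat_lit 5) (nat_lit 212) (nat_lit 5) (nat_lit 213) (nat_lit 5) (nat_lit 466) (nat_lit 380) (nat_lit 294)) (XT.lf (nat_lit 0) (nat_lit 2719298099) (nat_lit 532) (nat_lit 2719298099) (nat_lit 76) (nat_lit 6014559973) (nat_lit 205) (nat_lit 5) (nat_lit 212) (nat_lit 5) (nat_lit 206) (nat_lit 5) (nat_lit 467) (nat_lit 380) (nat_lit 293)))))) (XT.nd (nat_lit 468) (nat_lit 1900) (nat_lit 0) (XT.nd (nat_lit 234) (nat_lit 836) (nat_lit 0) (XT.nd (nat_lit 78) (nat_lit 532) (nat_lit 0) (XT.lf (nat_lit 0) (nat_lit 5324736568) (nat_lit 380) (nat_lit 928289806) (nat_lit 456) (nat_lit 5324736568) (nat_lit 200) (nat_lit 5) (nat_lit 205) (nat_lit 5) (nat_lit 206) (nat_lit 5) (nat_lit 468) (nat_lit 380) (nat_lit 292)) (XT.nd (nat_lit 78) (nat_lit 76) (nat_lit 0) (XT.lf (nat_lit 0) (nat_lit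 1820243926) (nat_lit 456) (nat_lit 8063840884) (nat_lit 532) (nat_lit 1820243926) (nat_lit 194) (nat_lit 5) (nat_lit 200) (nat_lit 5) (nat_lit 201) (nat_lit 5) (nat_lit 469) (nat_lit 380) (nat_lit 291)) (XT.lf (nat_lit 0) (nat_lit 1752431183) (nat_lit 532) (nat_lit 1752431183) (nat_lit 76) (nat_lit 8327913653) (nat_lit 193) (nat_lit 5) (nat_lit 200) (nat_lit 5) (nat_lit 194) (nat_lit 5) (nat_lit 470) (nat_lit 380) (nat_lit 290)))) (XT.nd (nat_lit 78) (nat_lit 456) (nat_lit 0) (XT.lf (nat_lit 0) (nat_lit 5395855175) (nat_lit 456) (nat_lit 5395855175) (nat_lit 76) (nat_lit 1171367892) (nat_lit 188) (nat_lit 5) (nat_lit 194) (nat_lit 5) (nat_lit 189) (nat_lit 5) (nat_lit 471) (nat_lit 380) (nat_lit 289)) (XT.nd (nat_lit 78) (nat_lit 76) (nat_lit 0) (XT.lf (nat_lit 0) (nat_lit 2955629465) (nat_lit 380) (nat_lit 6184174454) (nat_lit 456) (nat_lit 2955629465) (nat_lit 183) (nat_lit 5) (nat_lit 188) (nat_lit 5) (nat_lit 189) (nat_lit 5) (nat_lit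 472) (nat_lit 380) (nat_lit 288)) (XT.lf (nat_lit 0) (nat_lit 728593810) (nat_lit 456) (nat_lit 728593810) (nat_lit 76) (nat_lit 10772954484) (nat_lit 182) (nat_lit 5) (nat_lit 188) (nat_lit 5) (nat_lit 183) (nat_lit 5) (nat_lit 473) (nat_lit 380) (nat_lit 287))))) (XT.nd (nat_lit 234) (nat_lit 836) (nat_lit 0) (XT.nd (nat_lit 78) (nat_lit 684) (nat_lit 0) (XT.lf (nat_lit 0) (nat_lit 4494456456) (nat_lit 456) (nat_lit 4494456456) (nat_lit 76) (nat_lit 3377290738) (nat_lit 177) (nat_lit 5) (nat_lit 183) (nat_lit 5) (nat_lit 178) (nat_lit 5) (nat_lit 474) (nat_lit 380) (nat_lit 286)) (XT.nd (nat_lit 78) (nat_lit 304) (nat_lit 0) (XT.lf (nat_lit 0) (nat_lit 4153323360) (nat_lit 380) (nat_lit 4198025459) (nat_lit 456) (nat_lit 4153323360) (nat_lit 172) (nat_lit 5) (nat_lit 177) (nat_lit 5) (nat_lit 178) (nat_lit 5) (nat_lit 475) (nat_lit 380) (nat_lit 285)) (XT.lf (nat_lit 0) (nat_lit 348882336) (nat_lit 304) (nat_lit 11947916999) (nat_lit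 380) (nat_lit 348882336) (nat_lit 168) (nat_lit 5) (nat_lit 172) (nat_lit 5) (nat_lit 173) (nat_lit 5) (nat_lit 476) (nat_lit 380) (nat_lit 284)))) (XT.nd (nat_lit 156) (nat_lit 380) (nat_lit 0) (XT.nd (nat_lit 78) (nat_lit 380) (nat_lit 0) (XT.lf (nat_lit 0) (nat_lit 3543940263) (nat_lit 380) (nat_lit 3543940263) (nat_lit 76) (nat_lit 5700000011) (nat_lit 167) (nat_lit 5) (nat_lit 172) (nat_lit 5) (nat_lit 168) (nat_lit 5) (nat_lit 477) (nat_lit 380) (nat_lit 283)) (XT.lf (nat_lit 0) (nat_lit 5412683071) (nat_lit 380) (nat_lit 2107310208) (nat_lit 456) (nat_lit 5412683071) (nat_lit 162) (nat_lit 5) (nat_lit 167) (nat_lit 5) (nat_lit 168) (nat_lit 5) (nat_lit 478) (nat_lit 380) (nat_lit 282))) (XT.nd (nat_lit 78) (nat_lit 76) (nat_lit 0) (XT.lf (nat_lit 0) (nat_lit 1476380341) (nat_lit 304) (nat_lit 10127050135) (nat_lit 380) (nat_lit 1476380341) (nat_lit 158) (nat_lit 5) (nat_lit 162) (nat_lit 5) (nat_lit 163) (nat_lit 5) (nat_lit 479)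 (nat_lit 380) (nat_lit 281)) (XT.lf (nat_lit 0) (nat_lit 2545210031) (nat_lit 380) (nat_lit 2545210031) (nat_lit 76) (nat_lit 8138341130) (nat_lit 157) (nat_lit 5) (nat_lit 162) (nat_lit 5) (nat_lit 158) (nat_lit 5) (nat_lit 480) (nat_lit 380) (nat_lit 280))))))))
noncomputable def xc54 : XT := (XT.nd (nat_lit 53508) (nat_lit 0) (nat_lit 19988) (XT.nd (nat_lit 52494) (nat_lit 0) (nat_lit 42104) (XT.nd (nat_lit 51948) (nat_lit 0) (nat_lit 47804) (XT.nd (nat_lit 51714) (nat_lit 0) (nat_lit 49400) (XT.nd (nat_lit 51558) (nat_lit 0) (nat_lit 49628) (XT.lf (nat_lit 0) (nat_lit 6647352502) (nat_lit 456) (nat_lit 6647352502) (nat_lit 76) (nat_lit 85392612) (nat_lit 152) (nat_lit 5) (nat_lit 158) (nat_lit 5) (nat_lit 153) (nat_lit 5) (nat_lit 481) (nat_lit 380) (nat_lit 279)) (XT.nd (nat_lit 78) (nat_lit 228) (nat_lit 0) (XT.lf (nat_lit 0) (nat_lit 1589628230) (nat_lit 0) (nat_lit 1589628230) (nat_lit 76) (nat_lit 42808391) (nat_lit 808) (nat_lit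 5) (nat_lit 808) (nat_lit 3) (nat_lit 809) (nat_lit 0) (nat_lit 381) (nat_lit 381) (nat_lit 378)) (XT.lf (nat_lit 0) (nat_lit 3010802519) (nat_lit 228) (nat_lit 42246951) (nat_lit 228) (nat_lit 3393609932) (nat_lit 805) (nat_lit 3) (nat_lit 808) (nat_lit 3) (nat_lit 808) (nat_lit 5) (nat_lit 382) (nat_lit 381) (nat_lit 377)))) (XT.nd (nat_lit 78) (nat_lit 228) (nat_lit 0) (XT.lf (nat_lit 76) (nat_lit 3245410429) (nat_lit 0) (nat_lit 2862452895) (nat_lit 228) (nat_lit 342567861) (nat_lit 806) (nat_lit 5) (nat_lit 805) (nat_lit 3) (nat_lit 808) (nat_lit 5) (nat_lit 383) (nat_lit 381) (nat_lit 376)) (XT.nd (nat_lit 78) (nat_lit 0) (nat_lit 0) (XT.lf (nat_lit 76) (nat_lit 85767910) (nat_lit 0) (nat_lit 2610356990) (nat_lit 304) (nat_lit 3759379770) (nat_lit 803) (nat_lit 5) (nat_lit 802) (nat_lit 5) (nat_lit 806) (nat_lit 5) (nat_lit 384) (nat_lit 381) (nat_lit 375)) (XT.lf (nat_lit 76) (nat_lit 3441581384) (nat_lit 0) (nat_lit 2291807706)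 (nat_lit 304) (nat_lit 728397556) (nat_lit 803) (nat_lit 5) (nat_lit 802) (nat_lit 5) (nat_lit 806) (nat_lit 5) (nat_lit 385) (nat_lit 381) (nat_lit 374))))) (XT.nd (nat_lit 234) (nat_lit 912) (nat_lit 0) (XT.nd (nat_lit 78) (nat_lit 380) (nat_lit 0) (XT.lf (nat_lit 76) (nat_lit 343323797) (nat_lit 0) (nat_lit 1913041129) (nat_lit 380) (nat_lit 4213039376) (nat_lit 799) (nat_lit 5) (nat_lit 798) (nat_lit 5) (nat_lit 803) (nat_lit 5) (nat_lit 386) (nat_lit 381) (nat_lit 373)) (XT.nd (nat_lit 78) (nat_lit 380) (nat_lit 0) (XT.lf (nat_lit 76) (nat_lit 3768300171) (nat_lit 0) (nat_lit 1466198175) (nat_lit 380) (nat_lit 1243711092) (nat_lit 799) (nat_lit 5) (nat_lit 798) (nat_lit 5) (nat_lit 803) (nat_lit 5) (nat_lit 387) (nat_lit 381) (nat_lit 372)) (XT.lf (nat_lit 76) (nat_lit 730515423) (nat_lit 0) (nat_lit 960012514) (nat_lit 456) (nat_lit 4797852256) (nat_lit 794) (nat_lit 5) (nat_lit 793) (nat_lit 5) (nat_lit 799) (nat_lit 5) (nat_lit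 388) (nat_lit 381) (nat_lit 371)))) (XT.nd (nat_lit 156) (nat_lit 532) (nat_lit 0) (XT.nd (nat_lit 78) (nat_lit 380) (nat_lit 0) (XT.lf (nat_lit 76) (nat_lit 4226351519) (nat_lit 0) (nat_lit 384000207) (nat_lit 456) (nat_lit 1889367151) (nat_lit 794) (nat_lit 5) (nat_lit 793) (nat_lit 5) (nat_lit 799) (nat_lit 5) (nat_lit 389) (nat_lit 381) (nat_lit 370)) (XT.lf (nat_lit 0) (nat_lit 999275684) (nat_lit 456) (nat_lit 5265828806) (nat_lit 76) (nat_lit 247317620) (nat_lit 788) (nat_lit 5) (nat_lit 794) (nat_lit 5) (nat_lit 789) (nat_lit 5) (nat_lit 390) (nat_lit 381) (nat_lit 369))) (XT.nd (nat_lit 78) (nat_lit 532) (nat_lit 0) (XT.lf (nat_lit 0) (nat_lit 3866073942) (nat_lit 456) (nat_lit 1715777822) (nat_lit 76) (nat_lit 944364245) (nat_lit 788) (nat_lit 5) (nat_lit 794) (nat_lit 5) (nat_lit 789) (nat_lit 5) (nat_lit 391) (nat_lit 381) (nat_lit 368)) (XT.lf (nat_lit 0) (nat_lit 187686512) (nat_lit 532) (nat_lit 4655129079) (nat_lit 76)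 (nat_lit 1698616903) (nat_lit 781) (nat_lit 5) (nat_lit 788) (nat_lit 5) (nat_lit 782) (nat_lit 5) (nat_lit 392) (nat_lit 381) (nat_lit 367)))))) (XT.nd (nat_lit 468) (nat_lit 3724) (nat_lit 0) (XT.nd (nat_lit 234) (nat_lit 1368) (nat_lit 0) (XT.nd (nat_lit 78) (nat_lit 608) (nat_lit 0) (XT.lf (nat_lit 0) (nat_lit 2998303328) (nat_lit 532) (nat_lit 1033852203) (nat_lit 76) (nat_lit 2525617088) (nat_lit 781) (nat_lit 5) (nat_lit 788) (nat_lit 5) (nat_lit 782) (nat_lit 5) (nat_lit 393) (nat_lit 381) (nat_lit 366)) (XT.nd (nat_lit 78) (nat_lit 76) (nat_lit 0) (XT.lf (nat_lit 0) (nat_lit 2652361723) (nat_lit 532) (nat_lit 3161195226) (nat_lit 608) (nat_lit 761914109) (nat_lit 774) (nat_lit 5) (nat_lit 781) (nat_lit 5) (nat_lit 782) (nat_lit 5) (nat_lit 394) (nat_lit 381) (nat_lit 365)) (XT.lf (nat_lit 0) (nat_lit 2002975586) (nat_lit 608) (nat_lit 223599083) (nat_lit 76) (nat_lit 4367900895) (nat_lit 773) (nat_lit 5) (nat_lit 781) (nat_lit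 5) (nat_lit 774) (nat_lit 5) (nat_lit 395) (nat_lit 381) (nat_lit 364)))) (XT.nd (nat_lit 78) (nat_lit 760) (nat_lit 0) (XT.lf (nat_lit 0) (nat_lit 3549344613) (nat_lit 608) (nat_lit 1219838688) (nat_lit 684) (nat_lit 1845451690) (nat_lit 765) (nat_lit 5) (nat_lit 773) (nat_lit 5) (nat_lit 774) (nat_lit 5) (nat_lit 396) (nat_lit 381) (nat_lit 363)) (XT.nd (nat_lit 78) (nat_lit 0) (nat_lit 0) (XT.lf (nat_lit 0) (nat_lit 726257042) (nat_lit 684) (nat_lit 156725925) (nat_lit 760) (nat_lit 5753290618) (nat_lit 755) (nat_lit 5) (nat_lit 764) (nat_lit 5) (nat_lit 765) (nat_lit 5) (nat_lit 397) (nat_lit 381) (nat_lit 362)) (XT.lf (nat_lit 0) (nat_lit 3602970695) (nat_lit 760) (nat_lit 2084964271) (nat_lit 76) (nat_lit 970932116) (nat_lit 755) (nat_lit 5) (nat_lit 765) (nat_lit 5) (nat_lit 756) (nat_lit 5) (nat_lit 398) (nat_lit 381) (nat_lit 361))))) (XT.nd (nat_lit 234) (nat_lit 2052) (nat_lit 0) (XT.nd (nat_lit 78) (nat_lit 912) (nat_lit 0)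 (XT.lf (nat_lit 0) (nat_lit 1796130968) (nat_lit 760) (nat_lit 4530145457) (nat_lit 836) (nat_lit 356657661) (nat_lit 745) (nat_lit 5) (nat_lit 755) (nat_lit 5) (nat_lit 756) (nat_lit 5) (nat_lit 399) (nat_lit 381) (nat_lit 360)) (XT.nd (nat_lit 78) (nat_lit 836) (nat_lit 0) (XT.lf (nat_lit 0) (nat_lit 2315994436) (nat_lit 836) (nat_lit 983279213) (nat_lit 76) (nat_lit 3408880378) (nat_lit 744) (nat_lit 5) (nat_lit 755) (nat_lit 5) (nat_lit 745) (nat_lit 5) (nat_lit 400) (nat_lit 381) (nat_lit 359)) (XT.lf (nat_lit 0) (nat_lit 2992520039) (nat_lit 836) (nat_lit 2002253587) (nat_lit 912) (nat_lit 1739908597) (nat_lit 733) (nat_lit 5) (nat_lit 744) (nat_lit 5) (nat_lit 745) (nat_lit 5) (nat_lit 401) (nat_lit 381) (nat_lit 358)))) (XT.nd (nat_lit 156) (nat_lit 1064) (nat_lit 0) (XT.nd (nat_lit 78) (nat_lit 0) (nat_lit 0) (XT.lf (nat_lit 0) (nat_lit 253349541) (nat_lit 912) (nat_lit 646215209) (nat_lit 988) (nat_lit 5863114103) (nat_lit 720)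 (nat_lit 5) (nat_lit 732) (nat_lit 5) (nat_lit 733) (nat_lit 5) (nat_lit 402) (nat_lit 381) (nat_lit 357)) (XT.lf (nat_lit 0) (nat_lit 3538206841) (nat_lit 988) (nat_lit 2471966043) (nat_lit 76) (nat_lit 781438983) (nat_lit 720) (nat_lit 5) (nat_lit 733) (nat_lit 5) (nat_lit 721) (nat_lit 5) (nat_lit 403) (nat_lit 381) (nat_lit 356))) (XT.nd (nat_lit 78) (nat_lit 76) (nat_lit 0) (XT.lf (nat_lit 0) (nat_lit 1619718851) (nat_lit 988) (nat_lit 4565475218) (nat_lit 1064) (nat_lit 636818026) (nat_lit 707) (nat_lit 5) (nat_lit 720) (nat_lit 5) (nat_lit 721) (nat_lit 5) (nat_lit 404) (nat_lit 381) (nat_lit 355)) (XT.lf (nat_lit 0) (nat_lit 1963418850) (nat_lit 1064) (nat_lit 1083130561) (nat_lit 76) (nat_lit 3807047651) (nat_lit 706) (nat_lit 5) (nat_lit 720) (nat_lit 5) (nat_lit 707) (nat_lit 5) (nat_lit 405) (nat_lit 381) (nat_lit 354))))))) (XT.nd (nat_lit 1014) (nat_lit 9500) (nat_lit 0) (XT.nd (nat_lit 468) (nat_lit 7752) (nat_lit 0) (XT.nd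 (nat_lit 234) (nat_lit 2584) (nat_lit 0) (XT.nd (nat_lit 78) (nat_lit 1216) (nat_lit 0) (XT.lf (nat_lit 0) (nat_lit 3111988808) (nat_lit 1064) (nat_lit 1457780721) (nat_lit 1140) (nat_lit 2316707292) (nat_lit 692) (nat_lit 5) (nat_lit 706) (nat_lit 5) (nat_lit 707) (nat_lit 5) (nat_lit 406) (nat_lit 381) (nat_lit 353)) (XT.nd (nat_lit 78) (nat_lit 0) (nat_lit 0) (XT.lf (nat_lit 0) (nat_lit 258528332) (nat_lit 1216) (nat_lit 6476011684) (nat_lit 76) (nat_lit 186347377) (nat_lit 676) (nat_lit 5) (nat_lit 692) (nat_lit 5) (nat_lit 677) (nat_lit 5) (nat_lit 407) (nat_lit 381) (nat_lit 352)) (XT.lf (nat_lit 0) (nat_lit 2833250249) (nat_lit 1216) (nat_lit 2225276168) (nat_lit 76) (nat_lit 1897573445) (nat_lit 676) (nat_lit 5) (nat_lit 692) (nat_lit 5) (nat_lit 677) (nat_lit 5) (nat_lit 408) (nat_lit 381) (nat_lit 351)))) (XT.nd (nat_lit 78) (nat_lit 1368) (nat_lit 0) (XT.lf (nat_lit 0) (nat_lit 2094390303) (nat_lit 1216) (nat_lit 3323598566)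 (nat_lit 1292) (nat_lit 1574857267) (nat_lit 660) (nat_lit 5) (nat_lit 676) (nat_lit 5) (nat_lit 677) (nat_lit 5) (nat_lit 409) (nat_lit 381) (nat_lit 350)) (XT.nd (nat_lit 78) (nat_lit 1292) (nat_lit 0) (XT.lf (nat_lit 0) (nat_lit 971059058) (nat_lit 1292) (nat_lit 550153990) (nat_lit 76) (nat_lit 5509773397) (nat_lit 659) (nat_lit 5) (nat_lit 676) (nat_lit 5) (nat_lit 660) (nat_lit 5) (nat_lit 410) (nat_lit 381) (nat_lit 349)) (XT.lf (nat_lit 0) (nat_lit 3520832008) (nat_lit 1368) (nat_lit 3190136807) (nat_lit 76) (nat_lit 359232038) (nat_lit 642) (nat_lit 5) (nat_lit 660) (nat_lit 5) (nat_lit 643) (nat_lit 5) (nat_lit 411) (nat_lit 381) (nat_lit 348))))) (XT.nd (nat_lit 234) (nat_lit 4864) (nat_lit 0) (XT.nd (nat_lit 78) (nat_lit 1520) (nat_lit 0) (XT.lf (nat_lit 0) (nat_lit 1258661332) (nat_lit 1368) (nat_lit 4832173337) (nat_lit 1444) (nat_lit 1019980194) (nat_lit 624) (nat_lit 5) (nat_lit 642) (nat_lit 5) (nat_lit 643) (nat_lit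 5) (nat_lit 412) (nat_lit 381) (nat_lit 347)) (XT.nd (nat_lit 78) (nat_lit 1444) (nat_lit 0) (XT.lf (nat_lit 0) (nat_lit 1508763610) (nat_lit 1444) (nat_lit 1366776558) (nat_lit 76) (nat_lit 4277113876) (nat_lit 623) (nat_lit 5) (nat_lit 642) (nat_lit 5) (nat_lit 624) (nat_lit 5) (nat_lit 413) (nat_lit 381) (nat_lit 346)) (XT.lf (nat_lit 0) (nat_lit 3200020164) (nat_lit 1444) (nat_lit 843897682) (nat_lit 1520) (nat_lit 3151887458) (nat_lit 604) (nat_lit 5) (nat_lit 623) (nat_lit 5) (nat_lit 624) (nat_lit 5) (nat_lit 414) (nat_lit 381) (nat_lit 345)))) (XT.nd (nat_lit 156) (nat_lit 3268) (nat_lit 0) (XT.nd (nat_lit 78) (nat_lit 76) (nat_lit 0) (XT.lf (nat_lit 0) (nat_lit 592503513) (nat_lit 1520) (nat_lit 6007803207) (nat_lit 1596) (nat_lit 640102238) (nat_lit 584) (nat_lit 5) (nat_lit 604) (nat_lit 5) (nat_lit 605) (nat_lit 5) (nat_lit 415) (nat_lit 381) (nat_lit 344)) (XT.lf (nat_lit 0) (nat_lit 1879144313) (nat_lit 1596) (nat_lit 2021541162)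 (nat_lit 76) (nat_lit 3385321005) (nat_lit 583) (nat_lit 5) (nat_lit 604) (nat_lit 5) (nat_lit 584) (nat_lit 5) (nat_lit 416) (nat_lit 381) (nat_lit 343))) (XT.nd (nat_lit 78) (nat_lit 1672) (nat_lit 0) (XT.lf (nat_lit 0) (nat_lit 2684545162) (nat_lit 1596) (nat_lit 1723932638) (nat_lit 1672) (nat_lit 2924588072) (nat_lit 562) (nat_lit 5) (nat_lit 583) (nat_lit 5) (nat_lit 584) (nat_lit 5) (nat_lit 417) (nat_lit 381) (nat_lit 342)) (XT.lf (nat_lit 0) (nat_lit 84669986) (nat_lit 1672) (nat_lit 6872705044) (nat_lit 1748) (nat_lit 424311878) (nat_lit 540) (nat_lit 5) (nat_lit 562) (nat_lit 5) (nat_lit 563) (nat_lit 5) (nat_lit 418) (nat_lit 381) (nat_lit 341)))))) (XT.nd (nat_lit 468) (nat_lit 4636) (nat_lit 0) (XT.nd (nat_lit 234) (nat_lit 3040) (nat_lit 0) (XT.nd (nat_lit 78) (nat_lit 1748) (nat_lit 0) (XT.lf (nat_lit 0) (nat_lit 2092800558) (nat_lit 1748) (nat_lit 2525381787) (nat_lit 76) (nat_lit 2812927693) (nat_lit 539) (nat_lit 5)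 (nat_lit 562) (nat_lit 5) (nat_lit 540) (nat_lit 5) (nat_lit 419) (nat_lit 381) (nat_lit 340)) (XT.nd (nat_lit 78) (nat_lit 0) (nat_lit 0) (XT.lf (nat_lit 0) (nat_lit 2325418279) (nat_lit 1748) (nat_lit 2297097937) (nat_lit 1824) (nat_lit 2859590470) (nat_lit 516) (nat_lit 5) (nat_lit 539) (nat_lit 5) (nat_lit 540) (nat_lit 5) (nat_lit 420) (nat_lit 381) (nat_lit 339)) (XT.lf (nat_lit 0) (nat_lit 7173840969) (nat_lit 1824) (nat_lit 271502909) (nat_lit 76) (nat_lit 89359095) (nat_lit 516) (nat_lit 5) (nat_lit 540) (nat_lit 5) (nat_lit 517) (nat_lit 5) (nat_lit 421) (nat_lit 381) (nat_lit 338)))) (XT.nd (nat_lit 78) (nat_lit 1140) (nat_lit 0) (XT.lf (nat_lit 0) (nat_lit 2159379876) (nat_lit 1900) (nat_lit 2888291844) (nat_lit 76) (nat_lit 2540390710) (nat_lit 491) (nat_lit 5) (nat_lit 516) (nat_lit 5) (nat_lit 492) (nat_lit 5) (nat_lit 422) (nat_lit 381) (nat_lit 337)) (XT.nd (nat_lit 78) (nat_lit 0) (nat_lit 0) (XT.lf (nat_lit 0) (nat_lit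 2112952204) (nat_lit 1140) (nat_lit 2582524124) (nat_lit 1216) (nat_lit 2947559409) (nat_lit 476) (nat_lit 5) (nat_lit 491) (nat_lit 5) (nat_lit 492) (nat_lit 5) (nat_lit 423) (nat_lit 381) (nat_lit 336)) (XT.lf (nat_lit 0) (nat_lit 7209607655) (nat_lit 1140) (nat_lit 47397098) (nat_lit 1216) (nat_lit 442609557) (nat_lit 476) (nat_lit 5) (nat_lit 491) (nat_lit 5) (nat_lit 492) (nat_lit 5) (nat_lit 424) (nat_lit 381) (nat_lit 335))))) (XT.nd (nat_lit 234) (nat_lit 2736) (nat_lit 0) (XT.nd (nat_lit 78) (nat_lit 912) (nat_lit 0) (XT.lf (nat_lit 0) (nat_lit 2087645718) (nat_lit 988) (nat_lit 3119392453) (nat_lit 76) (nat_lit 2549953747) (nat_lit 463) (nat_lit 5) (nat_lit 476) (nat_lit 5) (nat_lit 464) (nat_lit 5) (nat_lit 425) (nat_lit 381) (nat_lit 334)) (XT.nd (nat_lit 78) (nat_lit 0) (nat_lit 0) (XT.lf (nat_lit 0) (nat_lit 2038336255) (nat_lit 912) (nat_lit 2597606728) (nat_lit 988) (nat_lit 3180048314) (nat_lit 451) (nat_lit 5) (nat_lit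 463) (nat_lit 5) (nat_lit 464) (nat_lit 5) (nat_lit 426) (nat_lit 381) (nat_lit 333)) (XT.lf (nat_lit 0) (nat_lit 7213756069) (nat_lit 988) (nat_lit 579444207) (nat_lit 76) (nat_lit 83399389) (nat_lit 451) (nat_lit 5) (nat_lit 464) (nat_lit 5) (nat_lit 452) (nat_lit 5) (nat_lit 427) (nat_lit 381) (nat_lit 332)))) (XT.nd (nat_lit 156) (nat_lit 912) (nat_lit 0) (XT.nd (nat_lit 78) (nat_lit 912) (nat_lit 0) (XT.lf (nat_lit 0) (nat_lit 1885539868) (nat_lit 912) (nat_lit 3226995371) (nat_lit 76) (nat_lit 2825521326) (nat_lit 439) (nat_lit 5) (nat_lit 451) (nat_lit 5) (nat_lit 440) (nat_lit 5) (nat_lit 428) (nat_lit 381) (nat_lit 331)) (XT.lf (nat_lit 0) (nat_lit 2093574270) (nat_lit 912) (nat_lit 2358129249) (nat_lit 988) (nat_lit 3549437696) (nat_lit 427) (nat_lit 5) (nat_lit 439) (nat_lit 5) (nat_lit 440) (nat_lit 5) (nat_lit 429) (nat_lit 381) (nat_lit 330))) (XT.nd (nat_lit 78) (nat_lit 912) (nat_lit 0) (XT.lf (nat_lit 0) (nat_lit 7052612142)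 (nat_lit 988) (nat_lit 548384827) (nat_lit 76) (nat_lit 464822155) (nat_lit 427) (nat_lit 5) (nat_lit 440) (nat_lit 5) (nat_lit 428) (nat_lit 5) (nat_lit 430) (nat_lit 381) (nat_lit 329)) (XT.lf (nat_lit 0) (nat_lit 1560239876) (nat_lit 912) (nat_lit 3218660965) (nat_lit 76) (nat_lit 3352542763) (nat_lit 415) (nat_lit 5) (nat_lit 427) (nat_lit 5) (nat_lit 416) (nat_lit 5) (nat_lit 431) (nat_lit 381) (nat_lit 328))))))))
noncomputable def xc55 : XT := (XT.nd (nat_lit 2028) (nat_lit 7600) (nat_lit 0) (XT.nd (nat_lit 1014) (nat_lit 5472) (nat_lit 0) (XT.nd (nat_lit 468) (nat_lit 3648) (nat_lit 0) (XT.nd (nat_lit 234) (nat_lit 1596) (nat_lit 0) (XT.nd (nat_lit 78) (nat_lit 836) (nat_lit 0) (XT.lf (nat_lit 0) (nat_lit 2271427432) (nat_lit 836) (nat_lit 1878376372) (nat_lit 912) (nat_lit 4048878524) (nat_lit 404) (nat_lit 5) (nat_lit 415) (nat_lit 5) (nat_lit 416) (nat_lit 5) (nat_lit 432) (nat_lit 381) (nat_lit 327)) (XT.nd (nat_lit 78) (nat_lit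 836) (nat_lit 0) (XT.lf (nat_lit 0) (nat_lit 6780145004) (nat_lit 912) (nat_lit 403451558) (nat_lit 76) (nat_lit 1083889545) (nat_lit 404) (nat_lit 5) (nat_lit 416) (nat_lit 5) (nat_lit 405) (nat_lit 5) (nat_lit 433) (nat_lit 381) (nat_lit 326)) (XT.lf (nat_lit 0) (nat_lit 1118211891) (nat_lit 836) (nat_lit 3101251606) (nat_lit 76) (nat_lit 4117905426) (nat_lit 393) (nat_lit 5) (nat_lit 404) (nat_lit 5) (nat_lit 394) (nat_lit 5) (nat_lit 434) (nat_lit 381) (nat_lit 325)))) (XT.nd (nat_lit 78) (nat_lit 836) (nat_lit 0) (XT.lf (nat_lit 0) (nat_lit 2565361658) (nat_lit 760) (nat_lit 1171238134) (nat_lit 836) (nat_lit 4672240188) (nat_lit 383) (nat_lit 5) (nat_lit 393) (nat_lit 5) (nat_lit 394) (nat_lit 5) (nat_lit 435) (nat_lit 381) (nat_lit 324)) (XT.nd (nat_lit 78) (nat_lit 836) (nat_lit 0) (XT.lf (nat_lit 0) (nat_lit 6402570148) (nat_lit 836) (nat_lit 150909906) (nat_lit 76) (nat_lit 1928356110) (nat_lit 383) (nat_lit 5) (nat_lit 394)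 (nat_lit 5) (nat_lit 384) (nat_lit 5) (nat_lit 436) (nat_lit 381) (nat_lit 323)) (XT.lf (nat_lit 0) (nat_lit 565259228) (nat_lit 836) (nat_lit 2880980822) (nat_lit 76) (nat_lit 5109836599) (nat_lit 372) (nat_lit 5) (nat_lit 383) (nat_lit 5) (nat_lit 373) (nat_lit 5) (nat_lit 437) (nat_lit 381) (nat_lit 322))))) (XT.nd (nat_lit 234) (nat_lit 2204) (nat_lit 0) (XT.nd (nat_lit 78) (nat_lit 684) (nat_lit 0) (XT.lf (nat_lit 0) (nat_lit 2969499219) (nat_lit 760) (nat_lit 248305704) (nat_lit 836) (nat_lit 5414062716) (nat_lit 362) (nat_lit 5) (nat_lit 372) (nat_lit 5) (nat_lit 373) (nat_lit 5) (nat_lit 438) (nat_lit 381) (nat_lit 321)) (XT.nd (nat_lit 78) (nat_lit 0) (nat_lit 0) (XT.lf (nat_lit 0) (nat_lit 206299541) (nat_lit 684) (nat_lit 5720524674) (nat_lit 760) (nat_lit 2782281779) (nat_lit 353) (nat_lit 5) (nat_lit 362) (nat_lit 5) (nat_lit 363) (nat_lit 5) (nat_lit 439) (nat_lit 381) (nat_lit 320)) (XT.lf (nat_lit 0) (nat_lit 6223753343)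 (nat_lit 684) (nat_lit 2469398540) (nat_lit 760) (nat_lit 94674675) (nat_lit 353) (nat_lit 5) (nat_lit 362) (nat_lit 5) (nat_lit 363) (nat_lit 5) (nat_lit 440) (nat_lit 381) (nat_lit 319)))) (XT.nd (nat_lit 156) (nat_lit 760) (nat_lit 0) (XT.nd (nat_lit 78) (nat_lit 684) (nat_lit 0) (XT.lf (nat_lit 0) (nat_lit 2604247517) (nat_lit 760) (nat_lit 5395186158) (nat_lit 76) (nat_lit 868498682) (nat_lit 343) (nat_lit 5) (nat_lit 353) (nat_lit 5) (nat_lit 344) (nat_lit 5) (nat_lit 441) (nat_lit 381) (nat_lit 318)) (XT.lf (nat_lit 0) (nat_lit 663695020) (nat_lit 684) (nat_lit 4694524240) (nat_lit 760) (nat_lit 3591361720) (nat_lit 334) (nat_lit 5) (nat_lit 343) (nat_lit 5) (nat_lit 344) (nat_lit 5) (nat_lit 442) (nat_lit 381) (nat_lit 317))) (XT.nd (nat_lit 78) (nat_lit 760) (nat_lit 0) (XT.lf (nat_lit 0) (nat_lit 6873496908) (nat_lit 684) (nat_lit 1294749888) (nat_lit 760) (nat_lit 864596253) (nat_lit 334) (nat_lit 5) (nat_lit 343) (nat_lit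 5) (nat_lit 344) (nat_lit 5) (nat_lit 443) (nat_lit 381) (nat_lit 316)) (XT.lf (nat_lit 0) (nat_lit 1897655149) (nat_lit 760) (nat_lit 5044107297) (nat_lit 76) (nat_lit 2175637253) (nat_lit 324) (nat_lit 5) (nat_lit 334) (nat_lit 5) (nat_lit 325) (nat_lit 5) (nat_lit 444) (nat_lit 381) (nat_lit 315)))))) (XT.nd (nat_lit 468) (nat_lit 2888) (nat_lit 0) (XT.nd (nat_lit 234) (nat_lit 1292) (nat_lit 0) (XT.nd (nat_lit 78) (nat_lit 684) (nat_lit 0) (XT.lf (nat_lit 0) (nat_lit 1214679624) (nat_lit 608) (nat_lit 3485537071) (nat_lit 684) (nat_lit 4503383645) (nat_lit 316) (nat_lit 5) (nat_lit 324) (nat_lit 5) (nat_lit 325) (nat_lit 5) (nat_lit 445) (nat_lit 381) (nat_lit 314)) (XT.nd (nat_lit 78) (nat_lit 684) (nat_lit 0) (XT.lf (nat_lit 0) (nat_lit 7559081143) (nat_lit 684) (nat_lit 1668002070) (nat_lit 76) (nat_lit 64436747) (nat_lit 316) (nat_lit 5) (nat_lit 325) (nat_lit 5) (nat_lit 317) (nat_lit 5) (nat_lit 446) (nat_lit 381) (nat_lit 313))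 (XT.lf (nat_lit 0) (nat_lit 1100395845) (nat_lit 684) (nat_lit 4611964255) (nat_lit 76) (nat_lit 3668279465) (nat_lit 307) (nat_lit 5) (nat_lit 316) (nat_lit 5) (nat_lit 308) (nat_lit 5) (nat_lit 447) (nat_lit 381) (nat_lit 312)))) (XT.nd (nat_lit 78) (nat_lit 684) (nat_lit 0) (XT.lf (nat_lit 0) (nat_lit 1855171055) (nat_lit 608) (nat_lit 2101601510) (nat_lit 684) (nat_lit 5514738312) (nat_lit 299) (nat_lit 5) (nat_lit 307) (nat_lit 5) (nat_lit 308) (nat_lit 5) (nat_lit 448) (nat_lit 381) (nat_lit 311)) (XT.nd (nat_lit 78) (nat_lit 684) (nat_lit 0) (XT.lf (nat_lit 0) (nat_lit 6878757398) (nat_lit 684) (nat_lit 1103189679) (nat_lit 76) (nat_lit 1582082929) (nat_lit 299) (nat_lit 5) (nat_lit 308) (nat_lit 5) (nat_lit 300) (nat_lit 5) (nat_lit 449) (nat_lit 381) (nat_lit 310)) (XT.lf (nat_lit 0) (nat_lit 215967690) (nat_lit 684) (nat_lit 4102736399) (nat_lit 76) (nat_lit 5339312984) (nat_lit 290) (nat_lit 5) (nat_lit 299) (nat_lit 5) (nat_lit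 291) (nat_lit 5) (nat_lit 450) (nat_lit 381) (nat_lit 309))))) (XT.nd (nat_lit 234) (nat_lit 1748) (nat_lit 0) (XT.nd (nat_lit 78) (nat_lit 608) (nat_lit 0) (XT.lf (nat_lit 0) (nat_lit 2581562942) (nat_lit 532) (nat_lit 549814289) (nat_lit 608) (nat_lit 6622309652) (nat_lit 283) (nat_lit 5) (nat_lit 290) (nat_lit 5) (nat_lit 291) (nat_lit 5) (nat_lit 451) (nat_lit 381) (nat_lit 308)) (XT.nd (nat_lit 78) (nat_lit 608) (nat_lit 0) (XT.lf (nat_lit 0) (nat_lit 6122339172) (nat_lit 608) (nat_lit 460017879) (nat_lit 76) (nat_lit 3268568155) (nat_lit 283) (nat_lit 5) (nat_lit 291) (nat_lit 5) (nat_lit 284) (nat_lit 5) (nat_lit 452) (nat_lit 381) (nat_lit 307)) (XT.lf (nat_lit 0) (nat_lit 6424905633) (nat_lit 608) (nat_lit 2762335898) (nat_lit 684) (nat_lit 762584340) (nat_lit 275) (nat_lit 5) (nat_lit 283) (nat_lit 5) (nat_lit 284) (nat_lit 5) (nat_lit 453) (nat_lit 381) (nat_lit 306)))) (XT.nd (nat_lit 156) (nat_lit 608) (nat_lit 0) (XT.nd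 (nat_lit 78) (nat_lit 532) (nat_lit 0) (XT.lf (nat_lit 0) (nat_lit 2234640073) (nat_lit 608) (nat_lit 6667390730) (nat_lit 76) (nat_lit 1148348345) (nat_lit 267) (nat_lit 5) (nat_lit 275) (nat_lit 5) (nat_lit 268) (nat_lit 5) (nat_lit 454) (nat_lit 381) (nat_lit 305)) (XT.lf (nat_lit 0) (nat_lit 261850509) (nat_lit 532) (nat_lit 5032728689) (nat_lit 608) (nat_lit 4858003854) (nat_lit 260) (nat_lit 5) (nat_lit 267) (nat_lit 5) (nat_lit 268) (nat_lit 5) (nat_lit 455) (nat_lit 381) (nat_lit 304))) (XT.nd (nat_lit 78) (nat_lit 608) (nat_lit 0) (XT.lf (nat_lit 0) (nat_lit 7377884808) (nat_lit 532) (nat_lit 1052072010) (nat_lit 608) (nat_lit 1826589422) (nat_lit 260) (nat_lit 5) (nat_lit 267) (nat_lit 5) (nat_lit 268) (nat_lit 5) (nat_lit 456) (nat_lit 381) (nat_lit 303)) (XT.lf (nat_lit 0) (nat_lit 1266236211) (nat_lit 608) (nat_lit 6102342328) (nat_lit 76) (nat_lit 2993498238) (nat_lit 252) (nat_lit 5) (nat_lit 260) (nat_lit 5) (nat_lit 253)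 (nat_lit 5) (nat_lit 457) (nat_lit 381) (nat_lit 302))))))) (XT.nd (nat_lit 1014) (nat_lit 3116) (nat_lit 0) (XT.nd (nat_lit 468) (nat_lit 2432) (nat_lit 0) (XT.nd (nat_lit 234) (nat_lit 988) (nat_lit 0) (XT.nd (nat_lit 78) (nat_lit 532) (nat_lit 0) (XT.lf (nat_lit 0) (nat_lit 1063353555) (nat_lit 532) (nat_lit 3336589414) (nat_lit 608) (nat_lit 6069463828) (nat_lit 245) (nat_lit 5) (nat_lit 252) (nat_lit 5) (nat_lit 253) (nat_lit 5) (nat_lit 458) (nat_lit 381) (nat_lit 301)) (XT.nd (nat_lit 78) (nat_lit 532) (nat_lit 0) (XT.lf (nat_lit 0) (nat_lit 7612962297) (nat_lit 608) (nat_lit 2170515841) (nat_lit 76) (nat_lit 795072512) (nat_lit 245) (nat_lit 5) (nat_lit 253) (nat_lit 5) (nat_lit 246) (nat_lit 5) (nat_lit 459) (nat_lit 381) (nat_lit 300)) (XT.lf (nat_lit 0) (nat_lit 224828062) (nat_lit 532) (nat_lit 5476187704) (nat_lit 76) (nat_lit 4988293769) (nat_lit 238) (nat_lit 5) (nat_lit 245) (nat_lit 5) (nat_lit 239) (nat_lit 5) (nat_lit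 460) (nat_lit 381) (nat_lit 299)))) (XT.nd (nat_lit 78) (nat_lit 456) (nat_lit 0) (XT.lf (nat_lit 0) (nat_lit 1936008803) (nat_lit 532) (nat_lit 1501675169) (nat_lit 608) (nat_lit 7364240768) (nat_lit 231) (nat_lit 5) (nat_lit 238) (nat_lit 5) (nat_lit 239) (nat_lit 5) (nat_lit 461) (nat_lit 381) (nat_lit 298)) (XT.nd (nat_lit 78) (nat_lit 456) (nat_lit 0) (XT.lf (nat_lit 0) (nat_lit 6741138108) (nat_lit 608) (nat_lit 1405406289) (nat_lit 76) (nat_lit 2769721030) (nat_lit 231) (nat_lit 5) (nat_lit 239) (nat_lit 5) (nat_lit 232) (nat_lit 5) (nat_lit 462) (nat_lit 381) (nat_lit 297)) (XT.lf (nat_lit 0) (nat_lit 6235237383) (nat_lit 456) (nat_lit 3897704373) (nat_lit 532) (nat_lit 899505563) (nat_lit 225) (nat_lit 5) (nat_lit 231) (nat_lit 5) (nat_lit 232) (nat_lit 5) (nat_lit 463) (nat_lit 381) (nat_lit 296))))) (XT.nd (nat_lit 234) (nat_lit 1444) (nat_lit 0) (XT.nd (nat_lit 78) (nat_lit 456) (nat_lit 0) (XT.lf (nat_lit 0) (nat_lit 2412779031)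 (nat_lit 532) (nat_lit 8275875132) (nat_lit 76) (nat_lit 461918176) (nat_lit 218) (nat_lit 5) (nat_lit 225) (nat_lit 5) (nat_lit 219) (nat_lit 5) (nat_lit 464) (nat_lit 381) (nat_lit 295)) (XT.nd (nat_lit 78) (nat_lit 456) (nat_lit 0) (XT.lf (nat_lit 0) (nat_lit 5809650705) (nat_lit 532) (nat_lit 578541078) (nat_lit 76) (nat_lit 4882141447) (nat_lit 218) (nat_lit 5) (nat_lit 225) (nat_lit 5) (nat_lit 219) (nat_lit 5) (nat_lit 465) (nat_lit 381) (nat_lit 294)) (XT.lf (nat_lit 0) (nat_lit 7328449473) (nat_lit 456) (nat_lit 1966294340) (nat_lit 532) (nat_lit 2097339846) (nat_lit 212) (nat_lit 5) (nat_lit 218) (nat_lit 5) (nat_lit 219) (nat_lit 5) (nat_lit 466) (nat_lit 381) (nat_lit 293)))) (XT.nd (nat_lit 156) (nat_lit 532) (nat_lit 0) (XT.nd (nat_lit 78) (nat_lit 380) (nat_lit 0) (XT.lf (nat_lit 0) (nat_lit 1334408928) (nat_lit 532) (nat_lit 7645710941) (nat_lit 76) (nat_lit 2535603591) (nat_lit 205) (nat_lit 5) (nat_lit 212) (nat_lit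 5) (nat_lit 206) (nat_lit 5) (nat_lit 467) (nat_lit 381) (nat_lit 292)) (XT.lf (nat_lit 0) (nat_lit 312445259) (nat_lit 380) (nat_lit 4509774708) (nat_lit 456) (nat_lit 6819028609) (nat_lit 200) (nat_lit 5) (nat_lit 205) (nat_lit 5) (nat_lit 206) (nat_lit 5) (nat_lit 468) (nat_lit 381) (nat_lit 291))) (XT.nd (nat_lit 78) (nat_lit 532) (nat_lit 0) (XT.lf (nat_lit 0) (nat_lit 8404921072) (nat_lit 456) (nat_lit 3276382221) (nat_lit 76) (nat_lit 87478225) (nat_lit 200) (nat_lit 5) (nat_lit 206) (nat_lit 5) (nat_lit 201) (nat_lit 5) (nat_lit 469) (nat_lit 381) (nat_lit 290)) (XT.lf (nat_lit 0) (nat_lit 194118749) (nat_lit 532) (nat_lit 6967590333) (nat_lit 76) (nat_lit 4736418975) (nat_lit 193) (nat_lit 5) (nat_lit 200) (nat_lit 5) (nat_lit 194) (nat_lit 5) (nat_lit 470) (nat_lit 381) (nat_lit 289)))))) (XT.nd (nat_lit 546) (nat_lit 1140) (nat_lit 0) (XT.nd (nat_lit 234) (nat_lit 1216) (nat_lit 0) (XT.nd (nat_lit 78) (nat_lit 380) (nat_lit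 0) (XT.lf (nat_lit 0) (nat_lit 1270478410) (nat_lit 380) (nat_lit 2511933785) (nat_lit 456) (nat_lit 8247120697) (nat_lit 188) (nat_lit 5) (nat_lit 193) (nat_lit 5) (nat_lit 194) (nat_lit 5) (nat_lit 471) (nat_lit 381) (nat_lit 288)) (XT.nd (nat_lit 78) (nat_lit 380) (nat_lit 0) (XT.lf (nat_lit 0) (nat_lit 7477960388) (nat_lit 456) (nat_lit 2449981123) (nat_lit 76) (nat_lit 2234914533) (nat_lit 188) (nat_lit 5) (nat_lit 194) (nat_lit 5) (nat_lit 189) (nat_lit 5) (nat_lit 472) (nat_lit 381) (nat_lit 287)) (XT.lf (nat_lit 0) (nat_lit 6048442478) (nat_lit 380) (nat_lit 5229332853) (nat_lit 456) (nat_lit 1020463213) (nat_lit 183) (nat_lit 5) (nat_lit 188) (nat_lit 5) (nat_lit 189) (nat_lit 5) (nat_lit 473) (nat_lit 381) (nat_lit 286)))) (XT.nd (nat_lit 156) (nat_lit 760) (nat_lit 0) (XT.nd (nat_lit 78) (nat_lit 0) (nat_lit 0) (XT.lf (nat_lit 0) (nat_lit 2286683151) (nat_lit 380) (nat_lit 400862057) (nat_lit 456) (nat_lit 9748312149) (nat_lit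 177) (nat_lit 5) (nat_lit 182) (nat_lit 5) (nat_lit 183) (nat_lit 5) (nat_lit 474) (nat_lit 381) (nat_lit 285)) (XT.lf (nat_lit 0) (nat_lit 6502334542) (nat_lit 456) (nat_lit 1572943106) (nat_lit 76) (nat_lit 4499890297) (nat_lit 177) (nat_lit 5) (nat_lit 183) (nat_lit 5) (nat_lit 178) (nat_lit 5) (nat_lit 475) (nat_lit 381) (nat_lit 284))) (XT.nd (nat_lit 78) (nat_lit 380) (nat_lit 0) (XT.lf (nat_lit 0) (nat_lit 7227980448) (nat_lit 380) (nat_lit 3190200068) (nat_lit 456) (nat_lit 2298589012) (nat_lit 172) (nat_lit 5) (nat_lit 177) (nat_lit 5) (nat_lit 178) (nat_lit 5) (nat_lit 476) (nat_lit 381) (nat_lit 283)) (XT.lf (nat_lit 0) (nat_lit 1550315317) (nat_lit 380) (nat_lit 9512541539) (nat_lit 76) (nat_lit 1797754495) (nat_lit 167) (nat_lit 5) (nat_lit 172) (nat_lit 5) (nat_lit 168) (nat_lit 5) (nat_lit 477) (nat_lit 381) (nat_lit 282))))) (XT.nd (nat_lit 234) (nat_lit 380) (nat_lit 0) (XT.nd (nat_lit 78) (nat_lit 760) (nat_lit 0) (XT.lf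 (nat_lit 0) (nat_lit 5479042728) (nat_lit 380) (nat_lit 646306026) (nat_lit 76) (nat_lit 6881004921) (nat_lit 167) (nat_lit 5) (nat_lit 172) (nat_lit 5) (nat_lit 168) (nat_lit 5) (nat_lit 478) (nat_lit 381) (nat_lit 281)) (XT.nd (nat_lit 78) (nat_lit 380) (nat_lit 0) (XT.lf (nat_lit 0) (nat_lit 8469920084) (nat_lit 380) (nat_lit 1047290071) (nat_lit 456) (nat_lit 3637183382) (nat_lit 162) (nat_lit 5) (nat_lit 167) (nat_lit 5) (nat_lit 168) (nat_lit 5) (nat_lit 479) (nat_lit 381) (nat_lit 280)) (XT.lf (nat_lit 0) (nat_lit 362840231) (nat_lit 380) (nat_lit 8841982956) (nat_lit 76) (nat_lit 4099799435) (nat_lit 157) (nat_lit 5) (nat_lit 162) (nat_lit 5) (nat_lit 158) (nat_lit 5) (nat_lit 480) (nat_lit 381) (nat_lit 279)))) (XT.nd (nat_lit 51714) (nat_lit 0) (nat_lit 49400) (XT.nd (nat_lit 51636) (nat_lit 0) (nat_lit 49628) (XT.lf (nat_lit 0) (nat_lit 333493692) (nat_lit 380) (nat_lit 4077528865) (nat_lit 456) (nat_lit 9046015691) (nat_lit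 152) (nat_lit 5) (nat_lit 157) (nat_lit 5) (nat_lit 158) (nat_lit 5) (nat_lit 481) (nat_lit 381) (nat_lit 278)) (XT.lf (nat_lit 0) (nat_lit 3032947267) (nat_lit 228) (nat_lit 96021884) (nat_lit 228) (nat_lit 96021884) (nat_lit 805) (nat_lit 3) (nat_lit 808) (nat_lit 3) (nat_lit 808) (nat_lit 5) (nat_lit 382) (nat_lit 382) (nat_lit 376))) (XT.nd (nat_lit 78) (nat_lit 0) (nat_lit 0) (XT.lf (nat_lit 0) (nat_lit 2632867542) (nat_lit 228) (nat_lit 3398632489) (nat_lit 304) (nat_lit 422718070) (nat_lit 802) (nat_lit 5) (nat_lit 805) (nat_lit 3) (nat_lit 806) (nat_lit 5) (nat_lit 383) (nat_lit 382) (nat_lit 375)) (XT.lf (nat_lit 0) (nat_lit 5627480949) (nat_lit 228) (nat_lit 131681497) (nat_lit 304) (nat_lit 700876387) (nat_lit 802) (nat_lit 5) (nat_lit 805) (nat_lit 3) (nat_lit 806) (nat_lit 5) (nat_lit 384) (nat_lit 382) (nat_lit 374))))))))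
noncomputable def xc56 : XT := (XT.nd (nat_lit 2028) (nat_lit 20976) (nat_lit 0) (XT.nd (nat_lit 1014) (nat_lit 7296) (nat_lit 0) (XT.nd (nat_lit 468) (nat_lit 2432) (nat_lit 0) (XT.nd (nat_lit 234) (nat_lit 456) (nat_lit 0) (XT.nd (nat_lit 78) (nat_lit 380) (nat_lit 0) (XT.lf (nat_lit 0) (nat_lit 2130068738) (nat_lit 304) (nat_lit 3279091519) (nat_lit 380) (nat_lit 1057665535) (nat_lit 798) (nat_lit 5) (nat_lit 802) (nat_lit 5) (nat_lit 803) (nat_lit 5) (nat_lit 385) (nat_lit 382) (nat_lit 373)) (XT.nd (nat_lit 78) (nat_lit 380) (nat_lit 0) (XT.lf (nat_lit 76) (nat_lit 55474784) (nat_lit 0) (nat_lit 5010041526) (nat_lit 380) (nat_lit 1409627791) (nat_lit 799) (nat_lit 5) (nat_lit 798) (nat_lit 5) (nat_lit 803) (nat_lit 5) (nat_lit 386) (nat_lit 382) (nat_lit 372)) (XT.lf (nat_lit 0) (nat_lit 1501715945) (nat_lit 380) (nat_lit 3034447157) (nat_lit 456) (nat_lit 1948334179) (nat_lit 793) (nat_lit 5) (nat_lit 798) (nat_lit 5) (nat_lit 799)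 (nat_lit 5) (nat_lit 387) (nat_lit 382) (nat_lit 371)))) (XT.nd (nat_lit 78) (nat_lit 456) (nat_lit 0) (XT.lf (nat_lit 76) (nat_lit 372796807) (nat_lit 0) (nat_lit 4007731189) (nat_lit 456) (nat_lit 2114760849) (nat_lit 794) (nat_lit 5) (nat_lit 793) (nat_lit 5) (nat_lit 799) (nat_lit 5) (nat_lit 388) (nat_lit 382) (nat_lit 370)) (XT.nd (nat_lit 78) (nat_lit 0) (nat_lit 0) (XT.lf (nat_lit 0) (nat_lit 746871486) (nat_lit 456) (nat_lit 2663912200) (nat_lit 532) (nat_lit 3096469636) (nat_lit 787) (nat_lit 5) (nat_lit 793) (nat_lit 5) (nat_lit 794) (nat_lit 5) (nat_lit 389) (nat_lit 382) (nat_lit 369)) (XT.lf (nat_lit 76) (nat_lit 819460331) (nat_lit 0) (nat_lit 2751135139) (nat_lit 532) (nat_lit 2949918532) (nat_lit 788) (nat_lit 5) (nat_lit 787) (nat_lit 5) (nat_lit 794) (nat_lit 5) (nat_lit 390) (nat_lit 382) (nat_lit 368))))) (XT.nd (nat_lit 234) (nat_lit 1900) (nat_lit 0) (XT.nd (nat_lit 78) (nat_lit 532) (nat_lit 0) (XT.lf (nat_lit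 76) (nat_lit 4367759645) (nat_lit 0) (nat_lit 2029889139) (nat_lit 532) (nat_lit 137454017) (nat_lit 788) (nat_lit 5) (nat_lit 787) (nat_lit 5) (nat_lit 794) (nat_lit 5) (nat_lit 391) (nat_lit 382) (nat_lit 367)) (XT.nd (nat_lit 78) (nat_lit 0) (nat_lit 0) (XT.lf (nat_lit 76) (nat_lit 1396644498) (nat_lit 0) (nat_lit 1237772322) (nat_lit 608) (nat_lit 3916432331) (nat_lit 781) (nat_lit 5) (nat_lit 780) (nat_lit 5) (nat_lit 788) (nat_lit 5) (nat_lit 392) (nat_lit 382) (nat_lit 366)) (XT.lf (nat_lit 76) (nat_lit 5019656873) (nat_lit 0) (nat_lit 385787478) (nat_lit 608) (nat_lit 1162536711) (nat_lit 781) (nat_lit 5) (nat_lit 780) (nat_lit 5) (nat_lit 788) (nat_lit 5) (nat_lit 393) (nat_lit 382) (nat_lit 365)))) (XT.nd (nat_lit 156) (nat_lit 1368) (nat_lit 0) (XT.nd (nat_lit 78) (nat_lit 0) (nat_lit 0) (XT.lf (nat_lit 0) (nat_lit 1573916180) (nat_lit 608) (nat_lit 4484021797) (nat_lit 76) (nat_lit 528322385) (nat_lit 773) (nat_lit 5) (nat_lit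 781) (nat_lit 5) (nat_lit 774) (nat_lit 5) (nat_lit 394) (nat_lit 382) (nat_lit 364)) (XT.lf (nat_lit 0) (nat_lit 4295728096) (nat_lit 608) (nat_lit 810280805) (nat_lit 76) (nat_lit 1499818733) (nat_lit 773) (nat_lit 5) (nat_lit 781) (nat_lit 5) (nat_lit 774) (nat_lit 5) (nat_lit 395) (nat_lit 382) (nat_lit 363))) (XT.nd (nat_lit 78) (nat_lit 684) (nat_lit 0) (XT.lf (nat_lit 0) (nat_lit 393559478) (nat_lit 684) (nat_lit 3695124098) (nat_lit 76) (nat_lit 2537980310) (nat_lit 764) (nat_lit 5) (nat_lit 773) (nat_lit 5) (nat_lit 765) (nat_lit 5) (nat_lit 396) (nat_lit 382) (nat_lit 362)) (XT.lf (nat_lit 0) (nat_lit 54929856) (nat_lit 684) (nat_lit 3006358605) (nat_lit 760) (nat_lit 3587504427) (nat_lit 755) (nat_lit 5) (nat_lit 764) (nat_lit 5) (nat_lit 765) (nat_lit 5) (nat_lit 397) (nat_lit 382) (nat_lit 361)))))) (XT.nd (nat_lit 468) (nat_lit 4636) (nat_lit 0) (XT.nd (nat_lit 234) (nat_lit 1824) (nat_lit 0) (XT.nd (nat_lit 78) (nat_lit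 836) (nat_lit 0) (XT.lf (nat_lit 0) (nat_lit 3888520329) (nat_lit 684) (nat_lit 1854721311) (nat_lit 760) (nat_lit 928905436) (nat_lit 755) (nat_lit 5) (nat_lit 764) (nat_lit 5) (nat_lit 765) (nat_lit 5) (nat_lit 398) (nat_lit 382) (nat_lit 360)) (XT.nd (nat_lit 78) (nat_lit 0) (nat_lit 0) (XT.lf (nat_lit 0) (nat_lit 1063611585) (nat_lit 760) (nat_lit 639688815) (nat_lit 836) (nat_lit 4993560088) (nat_lit 744) (nat_lit 5) (nat_lit 754) (nat_lit 5) (nat_lit 755) (nat_lit 5) (nat_lit 399) (nat_lit 382) (nat_lit 359)) (XT.lf (nat_lit 0) (nat_lit 4336436342) (nat_lit 836) (nat_lit 1749016381) (nat_lit 76) (nat_lit 637278164) (nat_lit 744) (nat_lit 5) (nat_lit 755) (nat_lit 5) (nat_lit 745) (nat_lit 5) (nat_lit 400) (nat_lit 382) (nat_lit 358)))) (XT.nd (nat_lit 78) (nat_lit 912) (nat_lit 0) (XT.lf (nat_lit 0) (nat_lit 226977289) (nat_lit 912) (nat_lit 4555840881) (nat_lit 76) (nat_lit 1967116199) (nat_lit 732) (nat_lit 5) (nat_lit 744) (nat_lit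 5) (nat_lit 733) (nat_lit 5) (nat_lit 401) (nat_lit 382) (nat_lit 357)) (XT.nd (nat_lit 78) (nat_lit 912) (nat_lit 0) (XT.lf (nat_lit 0) (nat_lit 2812162995) (nat_lit 912) (nat_lit 595923292) (nat_lit 76) (nat_lit 3370248148) (nat_lit 732) (nat_lit 5) (nat_lit 744) (nat_lit 5) (nat_lit 733) (nat_lit 5) (nat_lit 402) (nat_lit 382) (nat_lit 356)) (XT.lf (nat_lit 0) (nat_lit 3446860570) (nat_lit 912) (nat_lit 1965508896) (nat_lit 988) (nat_lit 1395666695) (nat_lit 720) (nat_lit 5) (nat_lit 732) (nat_lit 5) (nat_lit 733) (nat_lit 5) (nat_lit 403) (nat_lit 382) (nat_lit 355))))) (XT.nd (nat_lit 234) (nat_lit 2508) (nat_lit 0) (XT.nd (nat_lit 78) (nat_lit 1064) (nat_lit 0) (XT.lf (nat_lit 0) (nat_lit 699468427) (nat_lit 988) (nat_lit 460706771) (nat_lit 1064) (nat_lit 5678997302) (nat_lit 706) (nat_lit 5) (nat_lit 719) (nat_lit 5) (nat_lit 720) (nat_lit 5) (nat_lit 404) (nat_lit 382) (nat_lit 354)) (XT.nd (nat_lit 78) (nat_lit 1064) (nat_lit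 0) (XT.lf (nat_lit 0) (nat_lit 3720565409) (nat_lit 1064) (nat_lit 2042983594) (nat_lit 76) (nat_lit 1107755665) (nat_lit 706) (nat_lit 5) (nat_lit 720) (nat_lit 5) (nat_lit 707) (nat_lit 5) (nat_lit 405) (nat_lit 382) (nat_lit 353)) (XT.lf (nat_lit 0) (nat_lit 2118221184) (nat_lit 1064) (nat_lit 4174298128) (nat_lit 1140) (nat_lit 612353049) (nat_lit 692) (nat_lit 5) (nat_lit 706) (nat_lit 5) (nat_lit 707) (nat_lit 5) (nat_lit 406) (nat_lit 382) (nat_lit 352)))) (XT.nd (nat_lit 156) (nat_lit 1292) (nat_lit 0) (XT.nd (nat_lit 78) (nat_lit 1140) (nat_lit 0) (XT.lf (nat_lit 0) (nat_lit 1908693492) (nat_lit 1140) (nat_lit 604065862) (nat_lit 76) (nat_lit 4426938987) (nat_lit 691) (nat_lit 5) (nat_lit 706) (nat_lit 5) (nat_lit 692) (nat_lit 5) (nat_lit 407) (nat_lit 382) (nat_lit 351)) (XT.lf (nat_lit 0) (nat_lit 3664364454) (nat_lit 1140) (nat_lit 776512351) (nat_lit 1216) (nat_lit 2534884778) (nat_lit 676) (nat_lit 5) (nat_lit 691) (nat_lit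 5) (nat_lit 692) (nat_lit 5) (nat_lit 408) (nat_lit 382) (nat_lit 350))) (XT.nd (nat_lit 78) (nat_lit 76) (nat_lit 0) (XT.lf (nat_lit 0) (nat_lit 977525418) (nat_lit 1216) (nat_lit 6009066259) (nat_lit 1292) (nat_lit 26696654) (nat_lit 660) (nat_lit 5) (nat_lit 676) (nat_lit 5) (nat_lit 677) (nat_lit 5) (nat_lit 409) (nat_lit 382) (nat_lit 349)) (XT.lf (nat_lit 0) (nat_lit 2472397917) (nat_lit 1292) (nat_lit 1718863767) (nat_lit 76) (nat_lit 2860496270) (nat_lit 659) (nat_lit 5) (nat_lit 676) (nat_lit 5) (nat_lit 660) (nat_lit 5) (nat_lit 410) (nat_lit 382) (nat_lit 348))))))) (XT.nd (nat_lit 1014) (nat_lit 7068) (nat_lit 0) (XT.nd (nat_lit 468) (nat_lit 8132) (nat_lit 0) (XT.nd (nat_lit 234) (nat_lit 3040) (nat_lit 0) (XT.nd (nat_lit 78) (nat_lit 1444) (nat_lit 0) (XT.lf (nat_lit 0) (nat_lit 2677022825) (nat_lit 1292) (nat_lit 2308960680) (nat_lit 1368) (nat_lit 2105712604) (nat_lit 642) (nat_lit 5) (nat_lit 659) (nat_lit 5) (nat_lit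 660) (nat_lit 5) (nat_lit 411) (nat_lit 382) (nat_lit 347)) (XT.nd (nat_lit 78) (nat_lit 0) (nat_lit 0) (XT.lf (nat_lit 0) (nat_lit 6525992) (nat_lit 1368) (nat_lit 364960104) (nat_lit 1444) (nat_lit 6761701675) (nat_lit 623) (nat_lit 5) (nat_lit 641) (nat_lit 5) (nat_lit 642) (nat_lit 5) (nat_lit 412) (nat_lit 382) (nat_lit 346)) (XT.lf (nat_lit 0) (nat_lit 2859088893) (nat_lit 1444) (nat_lit 2667073173) (nat_lit 76) (nat_lit 1649287714) (nat_lit 623) (nat_lit 5) (nat_lit 642) (nat_lit 5) (nat_lit 624) (nat_lit 5) (nat_lit 413) (nat_lit 382) (nat_lit 345)))) (XT.nd (nat_lit 78) (nat_lit 1596) (nat_lit 0) (XT.lf (nat_lit 0) (nat_lit 1861049431) (nat_lit 1444) (nat_lit 3499603915) (nat_lit 1520) (nat_lit 1858619489) (nat_lit 604) (nat_lit 5) (nat_lit 623) (nat_lit 5) (nat_lit 624) (nat_lit 5) (nat_lit 414) (nat_lit 382) (nat_lit 344)) (XT.nd (nat_lit 78) (nat_lit 1520) (nat_lit 0) (XT.lf (nat_lit 0) (nat_lit 607882607) (nat_lit 1520) (nat_lit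 795086088) (nat_lit 76) (nat_lit 5861557314) (nat_lit 603) (nat_lit 5) (nat_lit 623) (nat_lit 5) (nat_lit 604) (nat_lit 5) (nat_lit 415) (nat_lit 382) (nat_lit 343)) (XT.lf (nat_lit 0) (nat_lit 3080020576) (nat_lit 1596) (nat_lit 3460601549) (nat_lit 76) (nat_lit 770192556) (nat_lit 583) (nat_lit 5) (nat_lit 604) (nat_lit 5) (nat_lit 584) (nat_lit 5) (nat_lit 416) (nat_lit 382) (nat_lit 342))))) (XT.nd (nat_lit 234) (nat_lit 4788) (nat_lit 0) (XT.nd (nat_lit 78) (nat_lit 1748) (nat_lit 0) (XT.lf (nat_lit 0) (nat_lit 1204832469) (nat_lit 1596) (nat_lit 4371052501) (nat_lit 1672) (nat_lit 1782658485) (nat_lit 562) (nat_lit 5) (nat_lit 583) (nat_lit 5) (nat_lit 584) (nat_lit 5) (nat_lit 417) (nat_lit 382) (nat_lit 341)) (XT.nd (nat_lit 78) (nat_lit 1672) (nat_lit 0) (XT.lf (nat_lit 0) (nat_lit 680598743) (nat_lit 1672) (nat_lit 1444339879) (nat_lit 76) (nat_lit 5282684830) (nat_lit 561) (nat_lit 5) (nat_lit 583) (nat_lit 5) (nat_lit 562)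 (nat_lit 5) (nat_lit 418) (nat_lit 382) (nat_lit 340)) (XT.lf (nat_lit 0) (nat_lit 3145437568) (nat_lit 1748) (nat_lit 4110368648) (nat_lit 76) (nat_lit 202119442) (nat_lit 539) (nat_lit 5) (nat_lit 562) (nat_lit 5) (nat_lit 540) (nat_lit 5) (nat_lit 419) (nat_lit 382) (nat_lit 339)))) (XT.nd (nat_lit 156) (nat_lit 2964) (nat_lit 0) (XT.nd (nat_lit 78) (nat_lit 76) (nat_lit 0) (XT.lf (nat_lit 0) (nat_lit 697750524) (nat_lit 1748) (nat_lit 4943945578) (nat_lit 1824) (nat_lit 1867895346) (nat_lit 516) (nat_lit 5) (nat_lit 539) (nat_lit 5) (nat_lit 540) (nat_lit 5) (nat_lit 420) (nat_lit 382) (nat_lit 338)) (XT.lf (nat_lit 0) (nat_lit 599240305) (nat_lit 1824) (nat_lit 1951654854) (nat_lit 76) (nat_lit 5011677046) (nat_lit 515) (nat_lit 5) (nat_lit 539) (nat_lit 5) (nat_lit 516) (nat_lit 5) (nat_lit 421) (nat_lit 382) (nat_lit 337))) (XT.nd (nat_lit 78) (nat_lit 1140) (nat_lit 0) (XT.lf (nat_lit 0) (nat_lit 2990009920) (nat_lit 1824) (nat_lit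 75124693) (nat_lit 1900) (nat_lit 4551742486) (nat_lit 491) (nat_lit 5) (nat_lit 515) (nat_lit 5) (nat_lit 516) (nat_lit 5) (nat_lit 422) (nat_lit 382) (nat_lit 336)) (XT.lf (nat_lit 0) (nat_lit 330100500) (nat_lit 1140) (nat_lit 5237093211) (nat_lit 1216) (nat_lit 2105337443) (nat_lit 476) (nat_lit 5) (nat_lit 491) (nat_lit 5) (nat_lit 492) (nat_lit 5) (nat_lit 423) (nat_lit 382) (nat_lit 335)))))) (XT.nd (nat_lit 468) (nat_lit 4256) (nat_lit 0) (XT.nd (nat_lit 234) (nat_lit 912) (nat_lit 0) (XT.nd (nat_lit 78) (nat_lit 1824) (nat_lit 0) (XT.lf (nat_lit 0) (nat_lit 372546650) (nat_lit 1216) (nat_lit 2326479403) (nat_lit 76) (nat_lit 5030468278) (nat_lit 475) (nat_lit 5) (nat_lit 491) (nat_lit 5) (nat_lit 476) (nat_lit 5) (nat_lit 424) (nat_lit 382) (nat_lit 334)) (XT.nd (nat_lit 78) (nat_lit 912) (nat_lit 0) (XT.lf (nat_lit 0) (nat_lit 2769531162) (nat_lit 912) (nat_lit 77053175) (nat_lit 988) (nat_lit 4941238380) (nat_lit 463) (nat_lit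 5) (nat_lit 475) (nat_lit 5) (nat_lit 476) (nat_lit 5) (nat_lit 425) (nat_lit 382) (nat_lit 333)) (XT.lf (nat_lit 0) (nat_lit 93031180) (nat_lit 912) (nat_lit 5267607424) (nat_lit 988) (nat_lit 2486868353) (nat_lit 451) (nat_lit 5) (nat_lit 463) (nat_lit 5) (nat_lit 464) (nat_lit 5) (nat_lit 426) (nat_lit 382) (nat_lit 332)))) (XT.nd (nat_lit 78) (nat_lit 836) (nat_lit 0) (XT.lf (nat_lit 0) (nat_lit 8411670) (nat_lit 988) (nat_lit 2577440813) (nat_lit 76) (nat_lit 5322689440) (nat_lit 450) (nat_lit 5) (nat_lit 463) (nat_lit 5) (nat_lit 451) (nat_lit 5) (nat_lit 427) (nat_lit 382) (nat_lit 331)) (XT.nd (nat_lit 78) (nat_lit 0) (nat_lit 0) (XT.lf (nat_lit 0) (nat_lit 2497374402) (nat_lit 912) (nat_lit 5292976098) (nat_lit 76) (nat_lit 180576799) (nat_lit 439) (nat_lit 5) (nat_lit 451) (nat_lit 5) (nat_lit 440) (nat_lit 5) (nat_lit 428) (nat_lit 382) (nat_lit 330)) (XT.lf (nat_lit 0) (nat_lit 5029644606) (nat_lit 912) (nat_lit 21235772)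 (nat_lit 76) (nat_lit 2983809440) (nat_lit 439) (nat_lit 5) (nat_lit 451) (nat_lit 5) (nat_lit 440) (nat_lit 5) (nat_lit 429) (nat_lit 382) (nat_lit 329))))) (XT.nd (nat_lit 234) (nat_lit 2432) (nat_lit 0) (XT.nd (nat_lit 78) (nat_lit 912) (nat_lit 0) (XT.lf (nat_lit 0) (nat_lit 5384230133) (nat_lit 912) (nat_lit 2223084974) (nat_lit 988) (nat_lit 492517381) (nat_lit 427) (nat_lit 5) (nat_lit 439) (nat_lit 5) (nat_lit 440) (nat_lit 5) (nat_lit 430) (nat_lit 382) (nat_lit 328)) (XT.nd (nat_lit 78) (nat_lit 0) (nat_lit 0) (XT.lf (nat_lit 0) (nat_lit 2025388798) (nat_lit 912) (nat_lit 5459577417) (nat_lit 76) (nat_lit 681397376) (nat_lit 415) (nat_lit 5) (nat_lit 427) (nat_lit 5) (nat_lit 416) (nat_lit 5) (nat_lit 431) (nat_lit 382) (nat_lit 327)) (XT.lf (nat_lit 0) (nat_lit 4580670245) (nat_lit 912) (nat_lit 20599513) (nat_lit 76) (nat_lit 3633018207) (nat_lit 415) (nat_lit 5) (nat_lit 427) (nat_lit 5) (nat_lit 416) (nat_lit 5) (nat_lit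 432) (nat_lit 382) (nat_lit 326)))) (XT.nd (nat_lit 156) (nat_lit 760) (nat_lit 0) (XT.nd (nat_lit 78) (nat_lit 836) (nat_lit 0) (XT.lf (nat_lit 0) (nat_lit 5557827266) (nat_lit 836) (nat_lit 1626628456) (nat_lit 912) (nat_lit 1119167137) (nat_lit 404) (nat_lit 5) (nat_lit 415) (nat_lit 5) (nat_lit 416) (nat_lit 5) (nat_lit 433) (nat_lit 382) (nat_lit 325)) (XT.lf (nat_lit 0) (nat_lit 1436295408) (nat_lit 836) (nat_lit 5524563105) (nat_lit 76) (nat_lit 1413504587) (nat_lit 393) (nat_lit 5) (nat_lit 404) (nat_lit 5) (nat_lit 394) (nat_lit 5) (nat_lit 434) (nat_lit 382) (nat_lit 324))) (XT.nd (nat_lit 78) (nat_lit 0) (nat_lit 0) (XT.lf (nat_lit 0) (nat_lit 88321403) (nat_lit 760) (nat_lit 3931467142) (nat_lit 836) (nat_lit 4426743507) (nat_lit 383) (nat_lit 5) (nat_lit 393) (nat_lit 5) (nat_lit 394) (nat_lit 5) (nat_lit 435) (nat_lit 382) (nat_lit 323)) (XT.lf (nat_lit 0) (nat_lit 5845724110) (nat_lit 760) (nat_lit 808767920) (nat_lit 836)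 (nat_lit 1865661544) (nat_lit 383) (nat_lit 5) (nat_lit 393) (nat_lit 5) (nat_lit 394) (nat_lit 5) (nat_lit 436) (nat_lit 382) (nat_lit 322))))))))
noncomputable def xc57 : XT := (XT.nd (nat_lit 2028) (nat_lit 5624) (nat_lit 0) (XT.nd (nat_lit 1014) (nat_lit 5168) (nat_lit 0) (XT.nd (nat_lit 468) (nat_lit 3344) (nat_lit 0) (XT.nd (nat_lit 234) (nat_lit 1444) (nat_lit 0) (XT.nd (nat_lit 78) (nat_lit 760) (nat_lit 0) (XT.lf (nat_lit 0) (nat_lit 735607024) (nat_lit 836) (nat_lit 5494273929) (nat_lit 76) (nat_lit 2365294474) (nat_lit 372) (nat_lit 5) (nat_lit 383) (nat_lit 5) (nat_lit 373) (nat_lit 5) (nat_lit 437) (nat_lit 382) (nat_lit 321)) (XT.nd (nat_lit 78) (nat_lit 0) (nat_lit 0) (XT.lf (nat_lit 0) (nat_lit 300056683) (nat_lit 760) (nat_lit 3052634725) (nat_lit 836) (nat_lit 5318984233) (nat_lit 362) (nat_lit 5) (nat_lit 372) (nat_lit 5) (nat_lit 373) (nat_lit 5) (nat_lit 438) (nat_lit 382) (nat_lit 320)) (XT.lf (nat_lit 0) (nat_lit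 6024233259) (nat_lit 836) (nat_lit 2508787371) (nat_lit 76) (nat_lit 216642916) (nat_lit 362) (nat_lit 5) (nat_lit 373) (nat_lit 5) (nat_lit 363) (nat_lit 5) (nat_lit 439) (nat_lit 382) (nat_lit 319)))) (XT.nd (nat_lit 78) (nat_lit 760) (nat_lit 0) (XT.lf (nat_lit 0) (nat_lit 3454128067) (nat_lit 684) (nat_lit 5302211181) (nat_lit 760) (nat_lit 72729295) (nat_lit 353) (nat_lit 5) (nat_lit 362) (nat_lit 5) (nat_lit 363) (nat_lit 5) (nat_lit 440) (nat_lit 382) (nat_lit 318)) (XT.nd (nat_lit 78) (nat_lit 0) (nat_lit 0) (XT.lf (nat_lit 0) (nat_lit 608913814) (nat_lit 684) (nat_lit 1975161575) (nat_lit 760) (nat_lit 6325932697) (nat_lit 343) (nat_lit 5) (nat_lit 352) (nat_lit 5) (nat_lit 353) (nat_lit 5) (nat_lit 441) (nat_lit 382) (nat_lit 317)) (XT.lf (nat_lit 0) (nat_lit 5303613696) (nat_lit 760) (nat_lit 2259292036) (nat_lit 76) (nat_lit 1429439646) (nat_lit 343) (nat_lit 5) (nat_lit 353) (nat_lit 5) (nat_lit 344) (nat_lit 5) (nat_lit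 442) (nat_lit 382) (nat_lit 316))))) (XT.nd (nat_lit 234) (nat_lit 1900) (nat_lit 0) (XT.nd (nat_lit 78) (nat_lit 760) (nat_lit 0) (XT.lf (nat_lit 0) (nat_lit 3899425990) (nat_lit 684) (nat_lit 4182253739) (nat_lit 760) (nat_lit 994566950) (nat_lit 334) (nat_lit 5) (nat_lit 343) (nat_lit 5) (nat_lit 344) (nat_lit 5) (nat_lit 443) (nat_lit 382) (nat_lit 315)) (XT.nd (nat_lit 78) (nat_lit 0) (nat_lit 0) (XT.lf (nat_lit 0) (nat_lit 1010024217) (nat_lit 684) (nat_lit 708194362) (nat_lit 760) (nat_lit 7443625035) (nat_lit 324) (nat_lit 5) (nat_lit 333) (nat_lit 5) (nat_lit 334) (nat_lit 5) (nat_lit 444) (nat_lit 382) (nat_lit 314)) (XT.lf (nat_lit 0) (nat_lit 4491591960) (nat_lit 760) (nat_lit 1925405432) (nat_lit 76) (nat_lit 2831630626) (nat_lit 324) (nat_lit 5) (nat_lit 334) (nat_lit 5) (nat_lit 325) (nat_lit 5) (nat_lit 445) (nat_lit 382) (nat_lit 313)))) (XT.nd (nat_lit 156) (nat_lit 608) (nat_lit 0) (XT.nd (nat_lit 78) (nat_lit 684)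 (nat_lit 0) (XT.lf (nat_lit 0) (nat_lit 4437375754) (nat_lit 608) (nat_lit 2883477807) (nat_lit 684) (nat_lit 2016286135) (nat_lit 316) (nat_lit 5) (nat_lit 324) (nat_lit 5) (nat_lit 325) (nat_lit 5) (nat_lit 446) (nat_lit 382) (nat_lit 312)) (XT.lf (nat_lit 0) (nat_lit 763686367) (nat_lit 684) (nat_lit 7933297181) (nat_lit 76) (nat_lit 730444307) (nat_lit 307) (nat_lit 5) (nat_lit 316) (nat_lit 5) (nat_lit 308) (nat_lit 5) (nat_lit 447) (nat_lit 382) (nat_lit 311))) (XT.nd (nat_lit 78) (nat_lit 608) (nat_lit 0) (XT.lf (nat_lit 0) (nat_lit 3591879830) (nat_lit 684) (nat_lit 1511358314) (nat_lit 76) (nat_lit 4415624690) (nat_lit 307) (nat_lit 5) (nat_lit 316) (nat_lit 5) (nat_lit 308) (nat_lit 5) (nat_lit 448) (nat_lit 382) (nat_lit 310)) (XT.lf (nat_lit 0) (nat_lit 5064114141) (nat_lit 608) (nat_lit 1413442531) (nat_lit 684) (nat_lit 3134551450) (nat_lit 299) (nat_lit 5) (nat_lit 307) (nat_lit 5) (nat_lit 308) (nat_lit 5) (nat_lit 449)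 (nat_lit 382) (nat_lit 309)))))) (XT.nd (nat_lit 468) (nat_lit 2736) (nat_lit 0) (XT.nd (nat_lit 234) (nat_lit 1216) (nat_lit 0) (XT.nd (nat_lit 78) (nat_lit 608) (nat_lit 0) (XT.lf (nat_lit 0) (nat_lit 2054566808) (nat_lit 608) (nat_lit 7373526466) (nat_lit 684) (nat_lit 278982118) (nat_lit 291) (nat_lit 5) (nat_lit 299) (nat_lit 5) (nat_lit 300) (nat_lit 5) (nat_lit 450) (nat_lit 382) (nat_lit 308)) (XT.nd (nat_lit 78) (nat_lit 532) (nat_lit 0) (XT.lf (nat_lit 0) (nat_lit 2607722988) (nat_lit 684) (nat_lit 1020931685) (nat_lit 76) (nat_lit 6174774022) (nat_lit 290) (nat_lit 5) (nat_lit 299) (nat_lit 5) (nat_lit 291) (nat_lit 5) (nat_lit 451) (nat_lit 382) (nat_lit 307)) (XT.lf (nat_lit 0) (nat_lit 5556471183) (nat_lit 608) (nat_lit 4126737442) (nat_lit 76) (nat_lit 218302668) (nat_lit 283) (nat_lit 5) (nat_lit 291) (nat_lit 5) (nat_lit 284) (nat_lit 5) (nat_lit 452) (nat_lit 382) (nat_lit 306)))) (XT.nd (nat_lit 78) (nat_lit 608) (nat_lit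 0) (XT.lf (nat_lit 0) (nat_lit 2688778741) (nat_lit 608) (nat_lit 5893177844) (nat_lit 684) (nat_lit 1419243712) (nat_lit 275) (nat_lit 5) (nat_lit 283) (nat_lit 5) (nat_lit 284) (nat_lit 5) (nat_lit 453) (nat_lit 382) (nat_lit 305)) (XT.nd (nat_lit 78) (nat_lit 532) (nat_lit 0) (XT.lf (nat_lit 0) (nat_lit 1541930124) (nat_lit 684) (nat_lit 457486652) (nat_lit 76) (nat_lit 8103315322) (nat_lit 274) (nat_lit 5) (nat_lit 283) (nat_lit 5) (nat_lit 275) (nat_lit 5) (nat_lit 454) (nat_lit 382) (nat_lit 304)) (XT.lf (nat_lit 0) (nat_lit 4569193438) (nat_lit 608) (nat_lit 3648152652) (nat_lit 76) (nat_lit 1988243430) (nat_lit 267) (nat_lit 5) (nat_lit 275) (nat_lit 5) (nat_lit 268) (nat_lit 5) (nat_lit 455) (nat_lit 382) (nat_lit 303))))) (XT.nd (nat_lit 234) (nat_lit 1596) (nat_lit 0) (XT.nd (nat_lit 78) (nat_lit 608) (nat_lit 0) (XT.lf (nat_lit 0) (nat_lit 3398932716) (nat_lit 532) (nat_lit 4266833420) (nat_lit 608) (nat_lit 2644562671) (nat_lit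 260) (nat_lit 5) (nat_lit 267) (nat_lit 5) (nat_lit 268) (nat_lit 5) (nat_lit 456) (nat_lit 382) (nat_lit 302)) (XT.nd (nat_lit 78) (nat_lit 0) (nat_lit 0) (XT.lf (nat_lit 0) (nat_lit 178347235) (nat_lit 532) (nat_lit 219710268) (nat_lit 608) (nat_lit 10019126723) (nat_lit 252) (nat_lit 5) (nat_lit 259) (nat_lit 5) (nat_lit 260) (nat_lit 5) (nat_lit 457) (nat_lit 382) (nat_lit 301)) (XT.lf (nat_lit 0) (nat_lit 3508942962) (nat_lit 608) (nat_lit 3106039382) (nat_lit 76) (nat_lit 3909988328) (nat_lit 252) (nat_lit 5) (nat_lit 260) (nat_lit 5) (nat_lit 253) (nat_lit 5) (nat_lit 458) (nat_lit 382) (nat_lit 300)))) (XT.nd (nat_lit 156) (nat_lit 608) (nat_lit 0) (XT.nd (nat_lit 78) (nat_lit 456) (nat_lit 0) (XT.lf (nat_lit 0) (nat_lit 4182454960) (nat_lit 532) (nat_lit 2499504012) (nat_lit 608) (nat_lit 3952955618) (nat_lit 245) (nat_lit 5) (nat_lit 252) (nat_lit 5) (nat_lit 253) (nat_lit 5) (nat_lit 459) (nat_lit 382) (nat_lit 299)) (XT.lf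 (nat_lit 0) (nat_lit 871867855) (nat_lit 456) (nat_lit 9055764750) (nat_lit 532) (nat_lit 819240836) (nat_lit 239) (nat_lit 5) (nat_lit 245) (nat_lit 5) (nat_lit 246) (nat_lit 5) (nat_lit 460) (nat_lit 382) (nat_lit 298))) (XT.nd (nat_lit 78) (nat_lit 532) (nat_lit 0) (XT.lf (nat_lit 0) (nat_lit 2377749553) (nat_lit 532) (nat_lit 2503026760) (nat_lit 76) (nat_lit 5979350914) (nat_lit 238) (nat_lit 5) (nat_lit 245) (nat_lit 5) (nat_lit 239) (nat_lit 5) (nat_lit 461) (nat_lit 382) (nat_lit 297)) (XT.lf (nat_lit 0) (nat_lit 5037132857) (nat_lit 532) (nat_lit 595486903) (nat_lit 608) (nat_lit 5342819834) (nat_lit 231) (nat_lit 5) (nat_lit 238) (nat_lit 5) (nat_lit 239) (nat_lit 5) (nat_lit 462) (nat_lit 382) (nat_lit 296))))))) (XT.nd (nat_lit 1014) (nat_lit 1520) (nat_lit 0) (XT.nd (nat_lit 468) (nat_lit 2128) (nat_lit 0) (XT.nd (nat_lit 234) (nat_lit 988) (nat_lit 0) (XT.nd (nat_lit 78) (nat_lit 532) (nat_lit 0) (XT.lf (nat_lit 0) (nat_lit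 1625896715) (nat_lit 456) (nat_lit 7351072202) (nat_lit 532) (nat_lit 2115601657) (nat_lit 225) (nat_lit 5) (nat_lit 231) (nat_lit 5) (nat_lit 232) (nat_lit 5) (nat_lit 463) (nat_lit 382) (nat_lit 295)) (XT.nd (nat_lit 78) (nat_lit 456) (nat_lit 0) (XT.lf (nat_lit 0) (nat_lit 1177297721) (nat_lit 532) (nat_lit 1841418570) (nat_lit 76) (nat_lit 8192843909) (nat_lit 224) (nat_lit 5) (nat_lit 231) (nat_lit 5) (nat_lit 225) (nat_lit 5) (nat_lit 464) (nat_lit 382) (nat_lit 294)) (XT.lf (nat_lit 0) (nat_lit 4528861619) (nat_lit 532) (nat_lit 5380680793) (nat_lit 76) (nat_lit 1422684835) (nat_lit 218) (nat_lit 5) (nat_lit 225) (nat_lit 5) (nat_lit 219) (nat_lit 5) (nat_lit 465) (nat_lit 382) (nat_lit 293)))) (XT.nd (nat_lit 78) (nat_lit 532) (nat_lit 0) (XT.lf (nat_lit 0) (nat_lit 2442621403) (nat_lit 456) (nat_lit 5526362814) (nat_lit 532) (nat_lit 3485892868) (nat_lit 212) (nat_lit 5) (nat_lit 218) (nat_lit 5) (nat_lit 219) (nat_lit 5) (nat_lit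 466) (nat_lit 382) (nat_lit 292)) (XT.nd (nat_lit 78) (nat_lit 532) (nat_lit 0) (XT.lf (nat_lit 0) (nat_lit 10455974914) (nat_lit 456) (nat_lit 1031548887) (nat_lit 532) (nat_lit 92263829) (nat_lit 212) (nat_lit 5) (nat_lit 218) (nat_lit 5) (nat_lit 219) (nat_lit 5) (nat_lit 467) (nat_lit 382) (nat_lit 291)) (XT.lf (nat_lit 0) (nat_lit 3367476817) (nat_lit 532) (nat_lit 4777025606) (nat_lit 76) (nat_lit 3561407913) (nat_lit 205) (nat_lit 5) (nat_lit 212) (nat_lit 5) (nat_lit 206) (nat_lit 5) (nat_lit 468) (nat_lit 382) (nat_lit 290))))) (XT.nd (nat_lit 234) (nat_lit 1216) (nat_lit 0) (XT.nd (nat_lit 78) (nat_lit 532) (nat_lit 0) (XT.lf (nat_lit 0) (nat_lit 3320414775) (nat_lit 380) (nat_lit 3584777684) (nat_lit 456) (nat_lit 4929150527) (nat_lit 200) (nat_lit 5) (nat_lit 205) (nat_lit 5) (nat_lit 206) (nat_lit 5) (nat_lit 469) (nat_lit 382) (nat_lit 289)) (XT.nd (nat_lit 78) (nat_lit 532) (nat_lit 0) (XT.lf (nat_lit 0) (nat_lit 10527058117)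 (nat_lit 456) (nat_lit 366557053) (nat_lit 76) (nat_lit 1071461206) (nat_lit 200) (nat_lit 5) (nat_lit 206) (nat_lit 5) (nat_lit 201) (nat_lit 5) (nat_lit 470) (nat_lit 382) (nat_lit 288)) (XT.lf (nat_lit 0) (nat_lit 2145730144) (nat_lit 532) (nat_lit 4125279723) (nat_lit 76) (nat_lit 5826126171) (nat_lit 193) (nat_lit 5) (nat_lit 200) (nat_lit 5) (nat_lit 194) (nat_lit 5) (nat_lit 471) (nat_lit 382) (nat_lit 287)))) (XT.nd (nat_lit 156) (nat_lit 456) (nat_lit 0) (XT.nd (nat_lit 78) (nat_lit 380) (nat_lit 0) (XT.lf (nat_lit 0) (nat_lit 4257934195) (nat_lit 380) (nat_lit 1528896067) (nat_lit 456) (nat_lit 6444717891) (nat_lit 188) (nat_lit 5) (nat_lit 193) (nat_lit 5) (nat_lit 194) (nat_lit 5) (nat_lit 472) (nat_lit 382) (nat_lit 286)) (XT.lf (nat_lit 0) (nat_lit 442025216) (nat_lit 380) (nat_lit 9085892280) (nat_lit 456) (nat_lit 2840187711) (nat_lit 183) (nat_lit 5) (nat_lit 188) (nat_lit 5) (nat_lit 189) (nat_lit 5) (nat_lit 473) (nat_lit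 382) (nat_lit 285))) (XT.nd (nat_lit 78) (nat_lit 380) (nat_lit 0) (XT.lf (nat_lit 0) (nat_lit 864477632) (nat_lit 456) (nat_lit 3426996132) (nat_lit 76) (nat_lit 8215030735) (nat_lit 182) (nat_lit 5) (nat_lit 188) (nat_lit 5) (nat_lit 183) (nat_lit 5) (nat_lit 474) (nat_lit 382) (nat_lit 284)) (XT.lf (nat_lit 0) (nat_lit 4619022727) (nat_lit 456) (nat_lit 7397147602) (nat_lit 76) (nat_lit 630849642) (nat_lit 177) (nat_lit 5) (nat_lit 183) (nat_lit 5) (nat_lit 178) (nat_lit 5) (nat_lit 475) (nat_lit 382) (nat_lit 283)))))) (XT.nd (nat_lit 52104) (nat_lit 0) (nat_lit 47804) (XT.nd (nat_lit 234) (nat_lit 760) (nat_lit 0) (XT.nd (nat_lit 78) (nat_lit 380) (nat_lit 0) (XT.lf (nat_lit 0) (nat_lit 1307208355) (nat_lit 380) (nat_lit 7177171250) (nat_lit 456) (nat_lit 4305251732) (nat_lit 172) (nat_lit 5) (nat_lit 177) (nat_lit 5) (nat_lit 178) (nat_lit 5) (nat_lit 476) (nat_lit 382) (nat_lit 282)) (XT.nd (nat_lit 78) (nat_lit 380) (nat_lit 0)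 (XT.lf (nat_lit 0) (nat_lit 10247963568) (nat_lit 380) (nat_lit 2204613546) (nat_lit 456) (nat_lit 482007144) (nat_lit 172) (nat_lit 5) (nat_lit 177) (nat_lit 5) (nat_lit 178) (nat_lit 5) (nat_lit 477) (nat_lit 382) (nat_lit 281)) (XT.lf (nat_lit 0) (nat_lit 3408991877) (nat_lit 380) (nat_lit 6792485466) (nat_lit 76) (nat_lit 2879792830) (nat_lit 167) (nat_lit 5) (nat_lit 172) (nat_lit 5) (nat_lit 168) (nat_lit 5) (nat_lit 478) (nat_lit 382) (nat_lit 280)))) (XT.nd (nat_lit 78) (nat_lit 380) (nat_lit 0) (XT.lf (nat_lit 0) (nat_lit 2223167153) (nat_lit 380) (nat_lit 5171724288) (nat_lit 456) (nat_lit 5835463951) (nat_lit 162) (nat_lit 5) (nat_lit 167) (nat_lit 5) (nat_lit 168) (nat_lit 5) (nat_lit 479) (nat_lit 382) (nat_lit 279)) (XT.nd (nat_lit 78) (nat_lit 380) (nat_lit 0) (XT.lf (nat_lit 0) (nat_lit 11473789220) (nat_lit 380) (nat_lit 8867993) (nat_lit 456) (nat_lit 1899322137) (nat_lit 162) (nat_lit 5) (nat_lit 167) (nat_lit 5) (nat_lit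 168) (nat_lit 5) (nat_lit 480) (nat_lit 382) (nat_lit 278)) (XT.lf (nat_lit 0) (nat_lit 2147296118) (nat_lit 380) (nat_lit 6150946052) (nat_lit 76) (nat_lit 5236928922) (nat_lit 157) (nat_lit 5) (nat_lit 162) (nat_lit 5) (nat_lit 158) (nat_lit 5) (nat_lit 481) (nat_lit 382) (nat_lit 277))))) (XT.nd (nat_lit 234) (nat_lit 836) (nat_lit 0) (XT.nd (nat_lit 78) (nat_lit 380) (nat_lit 0) (XT.lf (nat_lit 0) (nat_lit 1400644220) (nat_lit 0) (nat_lit 1400644220) (nat_lit 228) (nat_lit 428335771) (nat_lit 802) (nat_lit 5) (nat_lit 802) (nat_lit 3) (nat_lit 805) (nat_lit 3) (nat_lit 383) (nat_lit 383) (nat_lit 374)) (XT.nd (nat_lit 78) (nat_lit 0) (nat_lit 0) (XT.lf (nat_lit 0) (nat_lit 2063672652) (nat_lit 380) (nat_lit 422718070) (nat_lit 380) (nat_lit 3979211277) (nat_lit 797) (nat_lit 3) (nat_lit 802) (nat_lit 3) (nat_lit 802) (nat_lit 5) (nat_lit 384) (nat_lit 383) (nat_lit 373)) (XT.lf (nat_lit 76) (nat_lit 2870168482) (nat_lit 0) (nat_lit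 2102901446) (nat_lit 380) (nat_lit 1500057125) (nat_lit 798) (nat_lit 5) (nat_lit 797) (nat_lit 3) (nat_lit 802) (nat_lit 5) (nat_lit 385) (nat_lit 383) (nat_lit 372)))) (XT.nd (nat_lit 156) (nat_lit 456) (nat_lit 0) (XT.nd (nat_lit 78) (nat_lit 0) (nat_lit 0) (XT.lf (nat_lit 0) (nat_lit 1367783309) (nat_lit 380) (nat_lit 295380106) (nat_lit 456) (nat_lit 4818908086) (nat_lit 792) (nat_lit 5) (nat_lit 797) (nat_lit 3) (nat_lit 798) (nat_lit 5) (nat_lit 386) (nat_lit 383) (nat_lit 371)) (XT.lf (nat_lit 76) (nat_lit 3069675181) (nat_lit 0) (nat_lit 1148876152) (nat_lit 456) (nat_lit 2273532067) (nat_lit 793) (nat_lit 5) (nat_lit 792) (nat_lit 5) (nat_lit 798) (nat_lit 5) (nat_lit 387) (nat_lit 383) (nat_lit 370))) (XT.nd (nat_lit 78) (nat_lit 0) (nat_lit 76) (XT.lf (nat_lit 0) (nat_lit 544278626) (nat_lit 456) (nat_lit 40006252) (nat_lit 532) (nat_lit 5919361150) (nat_lit 786) (nat_lit 5) (nat_lit 792) (nat_lit 5) (nat_lit 793) (nat_lit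 5) (nat_lit 388) (nat_lit 383) (nat_lit 369)) (XT.lf (nat_lit 0) (nat_lit 3338388620) (nat_lit 456) (nat_lit 3115901537) (nat_lit 532) (nat_lit 61841476) (nat_lit 787) (nat_lit 5) (nat_lit 793) (nat_lit 5) (nat_lit 794) (nat_lit 5) (nat_lit 389) (nat_lit 383) (nat_lit 368))))))))
noncomputable def xc58 : XT := (XT.nd (nat_lit 2028) (nat_lit 19076) (nat_lit 0) (XT.nd (nat_lit 1014) (nat_lit 9804) (nat_lit 0) (XT.nd (nat_lit 468) (nat_lit 3040) (nat_lit 0) (XT.nd (nat_lit 234) (nat_lit 608) (nat_lit 0) (XT.nd (nat_lit 78) (nat_lit 532) (nat_lit 0) (XT.lf (nat_lit 76) (nat_lit 341241175) (nat_lit 0) (nat_lit 5782738704) (nat_lit 532) (nat_lit 406175089) (nat_lit 788) (nat_lit 5) (nat_lit 787) (nat_lit 5) (nat_lit 794) (nat_lit 5) (nat_lit 390) (nat_lit 383) (nat_lit 367)) (XT.nd (nat_lit 78) (nat_lit 0) (nat_lit 0) (XT.lf (nat_lit 0) (nat_lit 2340032514) (nat_lit 532) (nat_lit 2691114210) (nat_lit 608) (nat_lit 1513978538) (nat_lit 780)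 (nat_lit 5) (nat_lit 787) (nat_lit 5) (nat_lit 788) (nat_lit 5) (nat_lit 391) (nat_lit 383) (nat_lit 366)) (XT.lf (nat_lit 76) (nat_lit 844854266) (nat_lit 0) (nat_lit 4227646123) (nat_lit 608) (nat_lit 1489105380) (nat_lit 781) (nat_lit 5) (nat_lit 780) (nat_lit 5) (nat_lit 788) (nat_lit 5) (nat_lit 392) (nat_lit 383) (nat_lit 365)))) (XT.nd (nat_lit 78) (nat_lit 0) (nat_lit 0) (XT.lf (nat_lit 0) (nat_lit 1214501656) (nat_lit 608) (nat_lit 2139289812) (nat_lit 684) (nat_lit 3225455986) (nat_lit 772) (nat_lit 5) (nat_lit 780) (nat_lit 5) (nat_lit 781) (nat_lit 5) (nat_lit 393) (nat_lit 383) (nat_lit 364)) (XT.nd (nat_lit 78) (nat_lit 0) (nat_lit 0) (XT.lf (nat_lit 76) (nat_lit 1479242398) (nat_lit 0) (nat_lit 2415881709) (nat_lit 684) (nat_lit 2703063360) (nat_lit 773) (nat_lit 5) (nat_lit 772) (nat_lit 5) (nat_lit 781) (nat_lit 5) (nat_lit 394) (nat_lit 383) (nat_lit 363)) (XT.lf (nat_lit 76) (nat_lit 5159389546) (nat_lit 0) (nat_lit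 1418635281) (nat_lit 684) (nat_lit 40508136) (nat_lit 773) (nat_lit 5) (nat_lit 772) (nat_lit 5) (nat_lit 781) (nat_lit 5) (nat_lit 395) (nat_lit 383) (nat_lit 362))))) (XT.nd (nat_lit 234) (nat_lit 1672) (nat_lit 0) (XT.nd (nat_lit 78) (nat_lit 684) (nat_lit 0) (XT.lf (nat_lit 76) (nat_lit 2246106159) (nat_lit 0) (nat_lit 343859820) (nat_lit 760) (nat_lit 4049976898) (nat_lit 764) (nat_lit 5) (nat_lit 763) (nat_lit 5) (nat_lit 773) (nat_lit 5) (nat_lit 396) (nat_lit 383) (nat_lit 361)) (XT.nd (nat_lit 78) (nat_lit 760) (nat_lit 0) (XT.lf (nat_lit 0) (nat_lit 5223592477) (nat_lit 684) (nat_lit 662571586) (nat_lit 76) (nat_lit 776589864) (nat_lit 764) (nat_lit 5) (nat_lit 773) (nat_lit 5) (nat_lit 765) (nat_lit 5) (nat_lit 397) (nat_lit 383) (nat_lit 360)) (XT.lf (nat_lit 0) (nat_lit 1167824721) (nat_lit 760) (nat_lit 3552452638) (nat_lit 76) (nat_lit 1966384803) (nat_lit 754) (nat_lit 5) (nat_lit 764) (nat_lit 5) (nat_lit 755) (nat_lit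 5) (nat_lit 398) (nat_lit 383) (nat_lit 359)))) (XT.nd (nat_lit 156) (nat_lit 912) (nat_lit 0) (XT.nd (nat_lit 78) (nat_lit 0) (nat_lit 0) (XT.lf (nat_lit 0) (nat_lit 258010126) (nat_lit 760) (nat_lit 3493987776) (nat_lit 836) (nat_lit 2959974048) (nat_lit 744) (nat_lit 5) (nat_lit 754) (nat_lit 5) (nat_lit 755) (nat_lit 5) (nat_lit 399) (nat_lit 383) (nat_lit 358)) (XT.lf (nat_lit 0) (nat_lit 4152343385) (nat_lit 760) (nat_lit 2198448672) (nat_lit 836) (nat_lit 387737129) (nat_lit 744) (nat_lit 5) (nat_lit 754) (nat_lit 5) (nat_lit 755) (nat_lit 5) (nat_lit 400) (nat_lit 383) (nat_lit 357))) (XT.nd (nat_lit 78) (nat_lit 0) (nat_lit 0) (XT.lf (nat_lit 0) (nat_lit 1321259118) (nat_lit 836) (nat_lit 833836498) (nat_lit 912) (nat_lit 4611262086) (nat_lit 732) (nat_lit 5) (nat_lit 743) (nat_lit 5) (nat_lit 744) (nat_lit 5) (nat_lit 401) (nat_lit 383) (nat_lit 356)) (XT.lf (nat_lit 0) (nat_lit 4705628763) (nat_lit 912) (nat_lit 1500330677)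 (nat_lit 76) (nat_lit 589491378) (nat_lit 732) (nat_lit 5) (nat_lit 744) (nat_lit 5) (nat_lit 733) (nat_lit 5) (nat_lit 402) (nat_lit 383) (nat_lit 355)))))) (XT.nd (nat_lit 468) (nat_lit 5548) (nat_lit 0) (XT.nd (nat_lit 234) (nat_lit 2280) (nat_lit 0) (XT.nd (nat_lit 78) (nat_lit 988) (nat_lit 0) (XT.lf (nat_lit 0) (nat_lit 439400216) (nat_lit 988) (nat_lit 4318732427) (nat_lit 76) (nat_lit 2067657049) (nat_lit 719) (nat_lit 5) (nat_lit 732) (nat_lit 5) (nat_lit 720) (nat_lit 5) (nat_lit 403) (nat_lit 383) (nat_lit 354)) (XT.nd (nat_lit 78) (nat_lit 988) (nat_lit 0) (XT.lf (nat_lit 0) (nat_lit 2943975905) (nat_lit 988) (nat_lit 296729009) (nat_lit 76) (nat_lit 3616699119) (nat_lit 719) (nat_lit 5) (nat_lit 732) (nat_lit 5) (nat_lit 720) (nat_lit 5) (nat_lit 404) (nat_lit 383) (nat_lit 353)) (XT.lf (nat_lit 0) (nat_lit 3815342780) (nat_lit 988) (nat_lit 1651788580) (nat_lit 1064) (nat_lit 1423149536) (nat_lit 706) (nat_lit 5) (nat_lit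 719) (nat_lit 5) (nat_lit 720) (nat_lit 5) (nat_lit 405) (nat_lit 383) (nat_lit 352)))) (XT.nd (nat_lit 78) (nat_lit 1140) (nat_lit 0) (XT.lf (nat_lit 0) (nat_lit 1055337847) (nat_lit 1140) (nat_lit 5869015306) (nat_lit 76) (nat_lit 256066) (nat_lit 691) (nat_lit 5) (nat_lit 706) (nat_lit 5) (nat_lit 692) (nat_lit 5) (nat_lit 406) (nat_lit 383) (nat_lit 351)) (XT.nd (nat_lit 78) (nat_lit 1140) (nat_lit 0) (XT.lf (nat_lit 0) (nat_lit 3541183021) (nat_lit 1140) (nat_lit 1711103904) (nat_lit 76) (nat_lit 1707612163) (nat_lit 691) (nat_lit 5) (nat_lit 706) (nat_lit 5) (nat_lit 692) (nat_lit 5) (nat_lit 407) (nat_lit 383) (nat_lit 350)) (XT.lf (nat_lit 0) (nat_lit 2522052520) (nat_lit 1140) (nat_lit 3517259668) (nat_lit 1216) (nat_lit 957331223) (nat_lit 676) (nat_lit 5) (nat_lit 691) (nat_lit 5) (nat_lit 692) (nat_lit 5) (nat_lit 408) (nat_lit 383) (nat_lit 349))))) (XT.nd (nat_lit 234) (nat_lit 2964) (nat_lit 0) (XT.nd (nat_lit 78) (nat_lit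 2508) (nat_lit 0) (XT.lf (nat_lit 0) (nat_lit 1491100018) (nat_lit 1216) (nat_lit 222417351) (nat_lit 76) (nat_lit 5321239749) (nat_lit 675) (nat_lit 5) (nat_lit 691) (nat_lit 5) (nat_lit 676) (nat_lit 5) (nat_lit 409) (nat_lit 383) (nat_lit 348)) (XT.nd (nat_lit 78) (nat_lit 1292) (nat_lit 0) (XT.lf (nat_lit 0) (nat_lit 3951248805) (nat_lit 1292) (nat_lit 2953231113) (nat_lit 76) (nat_lit 169515271) (nat_lit 659) (nat_lit 5) (nat_lit 676) (nat_lit 5) (nat_lit 660) (nat_lit 5) (nat_lit 410) (nat_lit 383) (nat_lit 347)) (XT.lf (nat_lit 0) (nat_lit 1405456735) (nat_lit 1292) (nat_lit 5025634158) (nat_lit 1368) (nat_lit 683517319) (nat_lit 642) (nat_lit 5) (nat_lit 659) (nat_lit 5) (nat_lit 660) (nat_lit 5) (nat_lit 411) (nat_lit 383) (nat_lit 346)))) (XT.nd (nat_lit 156) (nat_lit 1520) (nat_lit 0) (XT.nd (nat_lit 78) (nat_lit 1368) (nat_lit 0) (XT.lf (nat_lit 0) (nat_lit 1749700049) (nat_lit 1368) (nat_lit 1317994583) (nat_lit 76) (nat_lit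 4088727146) (nat_lit 641) (nat_lit 5) (nat_lit 659) (nat_lit 5) (nat_lit 642) (nat_lit 5) (nat_lit 412) (nat_lit 383) (nat_lit 345)) (XT.lf (nat_lit 0) (nat_lit 3156821542) (nat_lit 1368) (nat_lit 1036035247) (nat_lit 1444) (nat_lit 3006715918) (nat_lit 623) (nat_lit 5) (nat_lit 641) (nat_lit 5) (nat_lit 642) (nat_lit 5) (nat_lit 413) (nat_lit 383) (nat_lit 344))) (XT.nd (nat_lit 78) (nat_lit 76) (nat_lit 0) (XT.lf (nat_lit 0) (nat_lit 452931051) (nat_lit 1444) (nat_lit 6201212993) (nat_lit 1520) (nat_lit 590057264) (nat_lit 604) (nat_lit 5) (nat_lit 623) (nat_lit 5) (nat_lit 624) (nat_lit 5) (nat_lit 414) (nat_lit 383) (nat_lit 343)) (XT.lf (nat_lit 0) (nat_lit 1835585000) (nat_lit 1520) (nat_lit 2257254302) (nat_lit 76) (nat_lit 3196934900) (nat_lit 603) (nat_lit 5) (nat_lit 623) (nat_lit 5) (nat_lit 604) (nat_lit 5) (nat_lit 415) (nat_lit 383) (nat_lit 342))))))) (XT.nd (nat_lit 1014) (nat_lit 6612) (nat_lit 0) (XT.nd (nat_lit 468)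 (nat_lit 5776) (nat_lit 0) (XT.nd (nat_lit 234) (nat_lit 3496) (nat_lit 0) (XT.nd (nat_lit 78) (nat_lit 1672) (nat_lit 0) (XT.lf (nat_lit 0) (nat_lit 2353034257) (nat_lit 1520) (nat_lit 1916119959) (nat_lit 1596) (nat_lit 3067680033) (nat_lit 583) (nat_lit 5) (nat_lit 603) (nat_lit 5) (nat_lit 604) (nat_lit 5) (nat_lit 416) (nat_lit 383) (nat_lit 341)) (XT.nd (nat_lit 78) (nat_lit 1672) (nat_lit 0) (XT.lf (nat_lit 0) (nat_lit 6721361379) (nat_lit 1596) (nat_lit 342555874) (nat_lit 76) (nat_lit 321518914) (nat_lit 583) (nat_lit 5) (nat_lit 604) (nat_lit 5) (nat_lit 584) (nat_lit 5) (nat_lit 417) (nat_lit 383) (nat_lit 340)) (XT.lf (nat_lit 0) (nat_lit 1759021073) (nat_lit 1672) (nat_lit 3051466665) (nat_lit 76) (nat_lit 2624392994) (nat_lit 561) (nat_lit 5) (nat_lit 583) (nat_lit 5) (nat_lit 562) (nat_lit 5) (nat_lit 418) (nat_lit 383) (nat_lit 339)))) (XT.nd (nat_lit 78) (nat_lit 1824) (nat_lit 0) (XT.lf (nat_lit 0) (nat_lit 1699566238)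 (nat_lit 1672) (nat_lit 2489488253) (nat_lit 1748) (nat_lit 3296824555) (nat_lit 539) (nat_lit 5) (nat_lit 561) (nat_lit 5) (nat_lit 562) (nat_lit 5) (nat_lit 419) (nat_lit 383) (nat_lit 338)) (XT.nd (nat_lit 78) (nat_lit 1824) (nat_lit 0) (XT.lf (nat_lit 0) (nat_lit 6545667412) (nat_lit 1672) (nat_lit 97142241) (nat_lit 1748) (nat_lit 895585252) (nat_lit 539) (nat_lit 5) (nat_lit 561) (nat_lit 5) (nat_lit 562) (nat_lit 5) (nat_lit 420) (nat_lit 383) (nat_lit 337)) (XT.lf (nat_lit 0) (nat_lit 1529311408) (nat_lit 1824) (nat_lit 3710972637) (nat_lit 76) (nat_lit 2351555097) (nat_lit 515) (nat_lit 5) (nat_lit 539) (nat_lit 5) (nat_lit 516) (nat_lit 5) (nat_lit 421) (nat_lit 383) (nat_lit 336))))) (XT.nd (nat_lit 234) (nat_lit 2736) (nat_lit 0) (XT.nd (nat_lit 78) (nat_lit 1216) (nat_lit 0) (XT.lf (nat_lit 0) (nat_lit 1186376430) (nat_lit 1824) (nat_lit 2775273898) (nat_lit 1900) (nat_lit 3685164817) (nat_lit 491) (nat_lit 5) (nat_lit 515)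 (nat_lit 5) (nat_lit 516) (nat_lit 5) (nat_lit 422) (nat_lit 383) (nat_lit 335)) (XT.nd (nat_lit 78) (nat_lit 1216) (nat_lit 0) (XT.lf (nat_lit 0) (nat_lit 6190515586) (nat_lit 1824) (nat_lit 233492159) (nat_lit 1900) (nat_lit 1279255488) (nat_lit 491) (nat_lit 5) (nat_lit 515) (nat_lit 5) (nat_lit 516) (nat_lit 5) (nat_lit 423) (nat_lit 383) (nat_lit 334)) (XT.lf (nat_lit 0) (nat_lit 1154863376) (nat_lit 1216) (nat_lit 4245252772) (nat_lit 76) (nat_lit 2360661613) (nat_lit 475) (nat_lit 5) (nat_lit 491) (nat_lit 5) (nat_lit 476) (nat_lit 5) (nat_lit 424) (nat_lit 383) (nat_lit 333)))) (XT.nd (nat_lit 156) (nat_lit 1824) (nat_lit 0) (XT.nd (nat_lit 78) (nat_lit 0) (nat_lit 0) (XT.lf (nat_lit 0) (nat_lit 804288279) (nat_lit 912) (nat_lit 2790875836) (nat_lit 988) (nat_lit 4224616771) (nat_lit 463) (nat_lit 5) (nat_lit 475) (nat_lit 5) (nat_lit 476) (nat_lit 5) (nat_lit 425) (nat_lit 383) (nat_lit 332)) (XT.lf (nat_lit 0) (nat_lit 5970836797)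 (nat_lit 912) (nat_lit 100109065) (nat_lit 988) (nat_lit 1809284713) (nat_lit 463) (nat_lit 5) (nat_lit 475) (nat_lit 5) (nat_lit 476) (nat_lit 5) (nat_lit 426) (nat_lit 383) (nat_lit 331))) (XT.nd (nat_lit 78) (nat_lit 836) (nat_lit 0) (XT.lf (nat_lit 0) (nat_lit 643250464) (nat_lit 988) (nat_lit 4662990664) (nat_lit 76) (nat_lit 2635613592) (nat_lit 450) (nat_lit 5) (nat_lit 463) (nat_lit 5) (nat_lit 451) (nat_lit 5) (nat_lit 427) (nat_lit 383) (nat_lit 330)) (XT.lf (nat_lit 0) (nat_lit 544927091) (nat_lit 836) (nat_lit 2552081178) (nat_lit 912) (nat_lit 4907935925) (nat_lit 439) (nat_lit 5) (nat_lit 450) (nat_lit 5) (nat_lit 451) (nat_lit 5) (nat_lit 428) (nat_lit 383) (nat_lit 329)))))) (XT.nd (nat_lit 468) (nat_lit 3116) (nat_lit 0) (XT.nd (nat_lit 234) (nat_lit 1672) (nat_lit 0) (XT.nd (nat_lit 78) (nat_lit 1824) (nat_lit 0) (XT.lf (nat_lit 0) (nat_lit 5592806145) (nat_lit 912) (nat_lit 2192659634) (nat_lit 76) (nat_lit 283970381)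 (nat_lit 439) (nat_lit 5) (nat_lit 451) (nat_lit 5) (nat_lit 440) (nat_lit 5) (nat_lit 429) (nat_lit 383) (nat_lit 328)) (XT.nd (nat_lit 78) (nat_lit 836) (nat_lit 0) (XT.lf (nat_lit 0) (nat_lit 1269181) (nat_lit 988) (nat_lit 4972131465) (nat_lit 76) (nat_lit 3161856680) (nat_lit 426) (nat_lit 5) (nat_lit 439) (nat_lit 5) (nat_lit 427) (nat_lit 5) (nat_lit 430) (nat_lit 383) (nat_lit 327)) (XT.lf (nat_lit 0) (nat_lit 400662293) (nat_lit 836) (nat_lit 2073178419) (nat_lit 912) (nat_lit 5728661265) (nat_lit 415) (nat_lit 5) (nat_lit 426) (nat_lit 5) (nat_lit 427) (nat_lit 5) (nat_lit 431) (nat_lit 383) (nat_lit 326)))) (XT.nd (nat_lit 78) (nat_lit 1672) (nat_lit 0) (XT.lf (nat_lit 0) (nat_lit 4996509878) (nat_lit 912) (nat_lit 2370303602) (nat_lit 76) (nat_lit 904265116) (nat_lit 415) (nat_lit 5) (nat_lit 427) (nat_lit 5) (nat_lit 416) (nat_lit 5) (nat_lit 432) (nat_lit 383) (nat_lit 325)) (XT.nd (nat_lit 78) (nat_lit 836) (nat_lit 0)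 (XT.lf (nat_lit 0) (nat_lit 3156132091) (nat_lit 836) (nat_lit 4409793560) (nat_lit 912) (nat_lit 775175233) (nat_lit 404) (nat_lit 5) (nat_lit 415) (nat_lit 5) (nat_lit 416) (nat_lit 5) (nat_lit 433) (nat_lit 383) (nat_lit 324)) (XT.lf (nat_lit 0) (nat_lit 364554259) (nat_lit 760) (nat_lit 1367061614) (nat_lit 836) (nat_lit 6681063782) (nat_lit 393) (nat_lit 5) (nat_lit 403) (nat_lit 5) (nat_lit 404) (nat_lit 5) (nat_lit 434) (nat_lit 383) (nat_lit 323))))) (XT.nd (nat_lit 234) (nat_lit 1520) (nat_lit 0) (XT.nd (nat_lit 78) (nat_lit 1596) (nat_lit 0) (XT.lf (nat_lit 0) (nat_lit 4287216391) (nat_lit 836) (nat_lit 2448348787) (nat_lit 76) (nat_lit 1749841282) (nat_lit 393) (nat_lit 5) (nat_lit 404) (nat_lit 5) (nat_lit 394) (nat_lit 5) (nat_lit 435) (nat_lit 383) (nat_lit 322)) (XT.nd (nat_lit 78) (nat_lit 836) (nat_lit 0) (XT.lf (nat_lit 0) (nat_lit 3255828243) (nat_lit 760) (nat_lit 3631768077) (nat_lit 836) (nat_lit 1672118134) (nat_lit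 383) (nat_lit 5) (nat_lit 393) (nat_lit 5) (nat_lit 394) (nat_lit 5) (nat_lit 436) (nat_lit 383) (nat_lit 321)) (XT.lf (nat_lit 0) (nat_lit 430305332) (nat_lit 760) (nat_lit 445326170) (nat_lit 836) (nat_lit 7760099283) (nat_lit 372) (nat_lit 5) (nat_lit 382) (nat_lit 5) (nat_lit 383) (nat_lit 5) (nat_lit 437) (nat_lit 383) (nat_lit 320)))) (XT.nd (nat_lit 156) (nat_lit 760) (nat_lit 0) (XT.nd (nat_lit 78) (nat_lit 760) (nat_lit 0) (XT.lf (nat_lit 0) (nat_lit 3470102330) (nat_lit 836) (nat_lit 2432863500) (nat_lit 76) (nat_lit 2809717441) (nat_lit 372) (nat_lit 5) (nat_lit 383) (nat_lit 5) (nat_lit 373) (nat_lit 5) (nat_lit 438) (nat_lit 383) (nat_lit 319)) (XT.lf (nat_lit 0) (nat_lit 3456489935) (nat_lit 760) (nat_lit 2650164081) (nat_lit 836) (nat_lit 2684716963) (nat_lit 362) (nat_lit 5) (nat_lit 372) (nat_lit 5) (nat_lit 373) (nat_lit 5) (nat_lit 439) (nat_lit 383) (nat_lit 318))) (XT.nd (nat_lit 78) (nat_lit 76) (nat_lit 0) (XT.lf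 (nat_lit 0) (nat_lit 587130132) (nat_lit 684) (nat_lit 8198574615) (nat_lit 760) (nat_lit 86132334) (nat_lit 353) (nat_lit 5) (nat_lit 362) (nat_lit 5) (nat_lit 363) (nat_lit 5) (nat_lit 440) (nat_lit 383) (nat_lit 317)) (XT.lf (nat_lit 0) (nat_lit 2549753345) (nat_lit 760) (nat_lit 2329354208) (nat_lit 76) (nat_lit 4074092708) (nat_lit 352) (nat_lit 5) (nat_lit 362) (nat_lit 5) (nat_lit 353) (nat_lit 5) (nat_lit 441) (nat_lit 383) (nat_lit 316))))))))
noncomputable def xc59 : XT := (XT.nd (nat_lit 2028) (nat_lit 3800) (nat_lit 0) (XT.nd (nat_lit 1014) (nat_lit 4712) (nat_lit 0) (XT.nd (nat_lit 468) (nat_lit 3116) (nat_lit 0) (XT.nd (nat_lit 234) (nat_lit 1368) (nat_lit 0) (XT.nd (nat_lit 78) (nat_lit 760) (nat_lit 0) (XT.lf (nat_lit 0) (nat_lit 3752954706) (nat_lit 684) (nat_lit 1474669941) (nat_lit 760) (nat_lit 3808746247) (nat_lit 343) (nat_lit 5) (nat_lit 352) (nat_lit 5) (nat_lit 353) (nat_lit 5) (nat_lit 442) (nat_lit 383) (nat_lit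 315)) (XT.nd (nat_lit 78) (nat_lit 76) (nat_lit 0) (XT.lf (nat_lit 0) (nat_lit 824168460) (nat_lit 684) (nat_lit 7135352630) (nat_lit 760) (nat_lit 1161674494) (nat_lit 334) (nat_lit 5) (nat_lit 343) (nat_lit 5) (nat_lit 344) (nat_lit 5) (nat_lit 443) (nat_lit 383) (nat_lit 314)) (XT.lf (nat_lit 0) (nat_lit 1530202287) (nat_lit 760) (nat_lit 2142805047) (nat_lit 76) (nat_lit 5534268894) (nat_lit 333) (nat_lit 5) (nat_lit 343) (nat_lit 5) (nat_lit 334) (nat_lit 5) (nat_lit 444) (nat_lit 383) (nat_lit 313)))) (XT.nd (nat_lit 78) (nat_lit 684) (nat_lit 0) (XT.lf (nat_lit 0) (nat_lit 4140591763) (nat_lit 684) (nat_lit 113907099) (nat_lit 760) (nat_lit 5040543305) (nat_lit 324) (nat_lit 5) (nat_lit 333) (nat_lit 5) (nat_lit 334) (nat_lit 5) (nat_lit 445) (nat_lit 383) (nat_lit 312)) (XT.nd (nat_lit 78) (nat_lit 76) (nat_lit 0) (XT.lf (nat_lit 0) (nat_lit 1145675842) (nat_lit 608) (nat_lit 5899918190) (nat_lit 684) (nat_lit 2338723142) (nat_lit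 316) (nat_lit 5) (nat_lit 324) (nat_lit 5) (nat_lit 325) (nat_lit 5) (nat_lit 446) (nat_lit 383) (nat_lit 311)) (XT.lf (nat_lit 0) (nat_lit 414964203) (nat_lit 684) (nat_lit 1877714175) (nat_lit 76) (nat_lit 7182579105) (nat_lit 315) (nat_lit 5) (nat_lit 324) (nat_lit 5) (nat_lit 316) (nat_lit 5) (nat_lit 447) (nat_lit 383) (nat_lit 310))))) (XT.nd (nat_lit 234) (nat_lit 1900) (nat_lit 0) (XT.nd (nat_lit 78) (nat_lit 608) (nat_lit 0) (XT.lf (nat_lit 0) (nat_lit 3200015063) (nat_lit 684) (nat_lit 4961722708) (nat_lit 76) (nat_lit 1405817543) (nat_lit 307) (nat_lit 5) (nat_lit 316) (nat_lit 5) (nat_lit 308) (nat_lit 5) (nat_lit 448) (nat_lit 383) (nat_lit 309)) (XT.nd (nat_lit 78) (nat_lit 0) (nat_lit 0) (XT.lf (nat_lit 0) (nat_lit 1547574389) (nat_lit 608) (nat_lit 4499774219) (nat_lit 684) (nat_lit 3614218859) (nat_lit 299) (nat_lit 5) (nat_lit 307) (nat_lit 5) (nat_lit 308) (nat_lit 5) (nat_lit 449) (nat_lit 383) (nat_lit 308)) (XT.lf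 (nat_lit 0) (nat_lit 8214069688) (nat_lit 608) (nat_lit 739874580) (nat_lit 684) (nat_lit 803469287) (nat_lit 299) (nat_lit 5) (nat_lit 307) (nat_lit 5) (nat_lit 308) (nat_lit 5) (nat_lit 450) (nat_lit 383) (nat_lit 307)))) (XT.nd (nat_lit 156) (nat_lit 684) (nat_lit 0) (XT.nd (nat_lit 78) (nat_lit 532) (nat_lit 0) (XT.lf (nat_lit 0) (nat_lit 2059793792) (nat_lit 684) (nat_lit 4701888211) (nat_lit 76) (nat_lit 3092759379) (nat_lit 290) (nat_lit 5) (nat_lit 299) (nat_lit 5) (nat_lit 291) (nat_lit 5) (nat_lit 451) (nat_lit 383) (nat_lit 306)) (XT.lf (nat_lit 0) (nat_lit 2026226934) (nat_lit 532) (nat_lit 2941535019) (nat_lit 608) (nat_lit 4985577626) (nat_lit 283) (nat_lit 5) (nat_lit 290) (nat_lit 5) (nat_lit 291) (nat_lit 5) (nat_lit 452) (nat_lit 383) (nat_lit 305))) (XT.nd (nat_lit 78) (nat_lit 684) (nat_lit 0) (XT.lf (nat_lit 0) (nat_lit 7941829327) (nat_lit 608) (nat_lit 1147769091) (nat_lit 76) (nat_lit 964458526) (nat_lit 283) (nat_lit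 5) (nat_lit 291) (nat_lit 5) (nat_lit 284) (nat_lit 5) (nat_lit 453) (nat_lit 383) (nat_lit 304)) (XT.lf (nat_lit 0) (nat_lit 835636432) (nat_lit 684) (nat_lit 4377818314) (nat_lit 76) (nat_lit 4942671954) (nat_lit 274) (nat_lit 5) (nat_lit 283) (nat_lit 5) (nat_lit 275) (nat_lit 5) (nat_lit 454) (nat_lit 383) (nat_lit 303)))))) (XT.nd (nat_lit 468) (nat_lit 2508) (nat_lit 0) (XT.nd (nat_lit 234) (nat_lit 1140) (nat_lit 0) (XT.nd (nat_lit 78) (nat_lit 532) (nat_lit 0) (XT.lf (nat_lit 0) (nat_lit 2578408045) (nat_lit 532) (nat_lit 1230982897) (nat_lit 608) (nat_lit 6450663354) (nat_lit 267) (nat_lit 5) (nat_lit 274) (nat_lit 5) (nat_lit 275) (nat_lit 5) (nat_lit 455) (nat_lit 383) (nat_lit 302)) (XT.nd (nat_lit 78) (nat_lit 532) (nat_lit 0) (XT.lf (nat_lit 0) (nat_lit 6861519793) (nat_lit 608) (nat_lit 690948565) (nat_lit 76) (nat_lit 2813214102) (nat_lit 267) (nat_lit 5) (nat_lit 275) (nat_lit 5) (nat_lit 268) (nat_lit 5) (nat_lit 456)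 (nat_lit 383) (nat_lit 301)) (XT.lf (nat_lit 0) (nat_lit 6477143200) (nat_lit 532) (nat_lit 3519269431) (nat_lit 608) (nat_lit 476576127) (nat_lit 260) (nat_lit 5) (nat_lit 267) (nat_lit 5) (nat_lit 268) (nat_lit 5) (nat_lit 457) (nat_lit 383) (nat_lit 300)))) (XT.nd (nat_lit 78) (nat_lit 532) (nat_lit 0) (XT.lf (nat_lit 0) (nat_lit 2578467567) (nat_lit 608) (nat_lit 7384953017) (nat_lit 76) (nat_lit 618658348) (nat_lit 252) (nat_lit 5) (nat_lit 260) (nat_lit 5) (nat_lit 253) (nat_lit 5) (nat_lit 458) (nat_lit 383) (nat_lit 299)) (XT.nd (nat_lit 78) (nat_lit 532) (nat_lit 0) (XT.lf (nat_lit 0) (nat_lit 5710400202) (nat_lit 608) (nat_lit 170899700) (nat_lit 76) (nat_lit 4811544616) (nat_lit 252) (nat_lit 5) (nat_lit 260) (nat_lit 5) (nat_lit 253) (nat_lit 5) (nat_lit 459) (nat_lit 383) (nat_lit 298)) (XT.lf (nat_lit 0) (nat_lit 7243645710) (nat_lit 532) (nat_lit 1680773225) (nat_lit 608) (nat_lit 1881017531) (nat_lit 245) (nat_lit 5) (nat_lit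 252) (nat_lit 5) (nat_lit 253) (nat_lit 5) (nat_lit 460) (nat_lit 383) (nat_lit 297))))) (XT.nd (nat_lit 234) (nat_lit 1444) (nat_lit 0) (XT.nd (nat_lit 78) (nat_lit 532) (nat_lit 0) (XT.lf (nat_lit 0) (nat_lit 1281632677) (nat_lit 532) (nat_lit 7044840363) (nat_lit 76) (nat_lit 2593320400) (nat_lit 238) (nat_lit 5) (nat_lit 245) (nat_lit 5) (nat_lit 239) (nat_lit 5) (nat_lit 461) (nat_lit 383) (nat_lit 296)) (XT.nd (nat_lit 78) (nat_lit 0) (nat_lit 0) (XT.lf (nat_lit 0) (nat_lit 415340260) (nat_lit 532) (nat_lit 4077659919) (nat_lit 608) (nat_lit 6542975680) (nat_lit 231) (nat_lit 5) (nat_lit 238) (nat_lit 5) (nat_lit 239) (nat_lit 5) (nat_lit 462) (nat_lit 383) (nat_lit 295)) (XT.lf (nat_lit 0) (nat_lit 7790790932) (nat_lit 608) (nat_lit 3074612384) (nat_lit 76) (nat_lit 288634693) (nat_lit 231) (nat_lit 5) (nat_lit 239) (nat_lit 5) (nat_lit 232) (nat_lit 5) (nat_lit 463) (nat_lit 383) (nat_lit 294)))) (XT.nd (nat_lit 156) (nat_lit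 456) (nat_lit 0) (XT.nd (nat_lit 78) (nat_lit 532) (nat_lit 0) (XT.lf (nat_lit 0) (nat_lit 4617336010) (nat_lit 456) (nat_lit 6567660429) (nat_lit 532) (nat_lit 88855785) (nat_lit 225) (nat_lit 5) (nat_lit 231) (nat_lit 5) (nat_lit 232) (nat_lit 5) (nat_lit 464) (nat_lit 383) (nat_lit 293)) (XT.lf (nat_lit 0) (nat_lit 1063204456) (nat_lit 456) (nat_lit 2146426402) (nat_lit 532) (nat_lit 8185984801) (nat_lit 218) (nat_lit 5) (nat_lit 224) (nat_lit 5) (nat_lit 225) (nat_lit 5) (nat_lit 465) (nat_lit 383) (nat_lit 292))) (XT.nd (nat_lit 78) (nat_lit 456) (nat_lit 0) (XT.lf (nat_lit 0) (nat_lit 6606969616) (nat_lit 532) (nat_lit 2546433737) (nat_lit 76) (nat_lit 2365717822) (nat_lit 218) (nat_lit 5) (nat_lit 225) (nat_lit 5) (nat_lit 219) (nat_lit 5) (nat_lit 466) (nat_lit 383) (nat_lit 291)) (XT.lf (nat_lit 0) (nat_lit 5413980156) (nat_lit 456) (nat_lit 4681918168) (nat_lit 532) (nat_lit 1548725614) (nat_lit 212) (nat_lit 5) (nat_lit 218)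 (nat_lit 5) (nat_lit 219) (nat_lit 5) (nat_lit 467) (nat_lit 383) (nat_lit 290))))))) (XT.nd (nat_lit 52806) (nat_lit 0) (nat_lit 44916) (XT.nd (nat_lit 468) (nat_lit 1976) (nat_lit 0) (XT.nd (nat_lit 234) (nat_lit 912) (nat_lit 0) (XT.nd (nat_lit 78) (nat_lit 380) (nat_lit 0) (XT.lf (nat_lit 0) (nat_lit 1768523396) (nat_lit 456) (nat_lit 91814036) (nat_lit 532) (nat_lit 9911993924) (nat_lit 205) (nat_lit 5) (nat_lit 211) (nat_lit 5) (nat_lit 212) (nat_lit 5) (nat_lit 468) (nat_lit 383) (nat_lit 289)) (XT.nd (nat_lit 78) (nat_lit 380) (nat_lit 0) (XT.lf (nat_lit 0) (nat_lit 5363295895) (nat_lit 532) (nat_lit 1968298956) (nat_lit 76) (nat_lit 4569864300) (nat_lit 205) (nat_lit 5) (nat_lit 212) (nat_lit 5) (nat_lit 206) (nat_lit 5) (nat_lit 469) (nat_lit 383) (nat_lit 288)) (XT.lf (nat_lit 0) (nat_lit 6271983211) (nat_lit 380) (nat_lit 2680701884) (nat_lit 456) (nat_lit 3080156975) (nat_lit 200) (nat_lit 5) (nat_lit 205) (nat_lit 5) (nat_lit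 206) (nat_lit 5) (nat_lit 470) (nat_lit 383) (nat_lit 287)))) (XT.nd (nat_lit 78) (nat_lit 380) (nat_lit 0) (XT.lf (nat_lit 0) (nat_lit 459520614) (nat_lit 532) (nat_lit 9650546034) (nat_lit 76) (nat_lit 2056360477) (nat_lit 193) (nat_lit 5) (nat_lit 200) (nat_lit 5) (nat_lit 194) (nat_lit 5) (nat_lit 471) (nat_lit 383) (nat_lit 286)) (XT.nd (nat_lit 78) (nat_lit 380) (nat_lit 0) (XT.lf (nat_lit 0) (nat_lit 4060741075) (nat_lit 532) (nat_lit 1341904487) (nat_lit 76) (nat_lit 6898991271) (nat_lit 193) (nat_lit 5) (nat_lit 200) (nat_lit 5) (nat_lit 194) (nat_lit 5) (nat_lit 472) (nat_lit 383) (nat_lit 285)) (XT.lf (nat_lit 0) (nat_lit 7190119231) (nat_lit 380) (nat_lit 566320977) (nat_lit 456) (nat_lit 4682661441) (nat_lit 188) (nat_lit 5) (nat_lit 193) (nat_lit 5) (nat_lit 194) (nat_lit 5) (nat_lit 473) (nat_lit 383) (nat_lit 284))))) (XT.nd (nat_lit 234) (nat_lit 1140) (nat_lit 0) (XT.nd (nat_lit 78) (nat_lit 456) (nat_lit 0) (XT.lf (nat_lit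 0) (nat_lit 3309589386) (nat_lit 380) (nat_lit 8251291845) (nat_lit 456) (nat_lit 1017737972) (nat_lit 183) (nat_lit 5) (nat_lit 188) (nat_lit 5) (nat_lit 189) (nat_lit 5) (nat_lit 474) (nat_lit 383) (nat_lit 283)) (XT.nd (nat_lit 78) (nat_lit 380) (nat_lit 0) (XT.lf (nat_lit 0) (nat_lit 2700009092) (nat_lit 456) (nat_lit 668702316) (nat_lit 76) (nat_lit 9351558342) (nat_lit 182) (nat_lit 5) (nat_lit 188) (nat_lit 5) (nat_lit 183) (nat_lit 5) (nat_lit 475) (nat_lit 383) (nat_lit 282)) (XT.lf (nat_lit 0) (nat_lit 6518767013) (nat_lit 456) (nat_lit 4707378740) (nat_lit 76) (nat_lit 1637667341) (nat_lit 177) (nat_lit 5) (nat_lit 183) (nat_lit 5) (nat_lit 178) (nat_lit 5) (nat_lit 476) (nat_lit 383) (nat_lit 281)))) (XT.nd (nat_lit 156) (nat_lit 380) (nat_lit 0) (XT.nd (nat_lit 78) (nat_lit 380) (nat_lit 0) (XT.lf (nat_lit 0) (nat_lit 4152395180) (nat_lit 380) (nat_lit 6291900436) (nat_lit 456) (nat_lit 2565323779) (nat_lit 172) (nat_lit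 5) (nat_lit 177) (nat_lit 5) (nat_lit 178) (nat_lit 5) (nat_lit 477) (nat_lit 383) (nat_lit 280)) (XT.lf (nat_lit 0) (nat_lit 50751084) (nat_lit 304) (nat_lit 1231128432) (nat_lit 380) (nat_lit 11876118695) (nat_lit 167) (nat_lit 5) (nat_lit 171) (nat_lit 5) (nat_lit 172) (nat_lit 5) (nat_lit 478) (nat_lit 383) (nat_lit 279))) (XT.nd (nat_lit 78) (nat_lit 380) (nat_lit 0) (XT.lf (nat_lit 0) (nat_lit 5233871306) (nat_lit 380) (nat_lit 4131039034) (nat_lit 76) (nat_lit 3942851245) (nat_lit 167) (nat_lit 5) (nat_lit 172) (nat_lit 5) (nat_lit 168) (nat_lit 5) (nat_lit 479) (nat_lit 383) (nat_lit 278)) (XT.lf (nat_lit 0) (nat_lit 5046523372) (nat_lit 380) (nat_lit 4236562814) (nat_lit 456) (nat_lit 4177070375) (nat_lit 162) (nat_lit 5) (nat_lit 167) (nat_lit 5) (nat_lit 168) (nat_lit 5) (nat_lit 480) (nat_lit 383) (nat_lit 277)))))) (XT.nd (nat_lit 546) (nat_lit 1976) (nat_lit 0) (XT.nd (nat_lit 234) (nat_lit 988) (nat_lit 0) (XT.nd (nat_lit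 78) (nat_lit 380) (nat_lit 0) (XT.lf (nat_lit 0) (nat_lit 2467447967) (nat_lit 380) (nat_lit 384426527) (nat_lit 380) (nat_lit 384426527) (nat_lit 797) (nat_lit 3) (nat_lit 802) (nat_lit 3) (nat_lit 802) (nat_lit 5) (nat_lit 384) (nat_lit 384) (nat_lit 372)) (XT.nd (nat_lit 78) (nat_lit 0) (nat_lit 0) (XT.lf (nat_lit 0) (nat_lit 1306468461) (nat_lit 380) (nat_lit 3989274122) (nat_lit 456) (nat_lit 1185003500) (nat_lit 792) (nat_lit 5) (nat_lit 797) (nat_lit 3) (nat_lit 798) (nat_lit 5) (nat_lit 385) (nat_lit 384) (nat_lit 371)) (XT.lf (nat_lit 0) (nat_lit 4117856864) (nat_lit 380) (nat_lit 710741921) (nat_lit 456) (nat_lit 1661632529) (nat_lit 792) (nat_lit 5) (nat_lit 797) (nat_lit 3) (nat_lit 798) (nat_lit 5) (nat_lit 386) (nat_lit 384) (nat_lit 370)))) (XT.nd (nat_lit 156) (nat_lit 532) (nat_lit 0) (XT.nd (nat_lit 78) (nat_lit 0) (nat_lit 0) (XT.lf (nat_lit 0) (nat_lit 423066513) (nat_lit 456) (nat_lit 3874191291) (nat_lit 532) (nat_lit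 2203708033) (nat_lit 786) (nat_lit 5) (nat_lit 792) (nat_lit 5) (nat_lit 793) (nat_lit 5) (nat_lit 387) (nat_lit 384) (nat_lit 369)) (XT.lf (nat_lit 0) (nat_lit 3175352064) (nat_lit 456) (nat_lit 525828936) (nat_lit 532) (nat_lit 2811766386) (nat_lit 786) (nat_lit 5) (nat_lit 792) (nat_lit 5) (nat_lit 793) (nat_lit 5) (nat_lit 388) (nat_lit 384) (nat_lit 368))) (XT.nd (nat_lit 78) (nat_lit 532) (nat_lit 0) (XT.lf (nat_lit 76) (nat_lit 2889214568) (nat_lit 0) (nat_lit 3041512872) (nat_lit 532) (nat_lit 595480243) (nat_lit 787) (nat_lit 5) (nat_lit 786) (nat_lit 5) (nat_lit 793) (nat_lit 5) (nat_lit 389) (nat_lit 384) (nat_lit 367)) (XT.lf (nat_lit 0) (nat_lit 2106121299) (nat_lit 532) (nat_lit 213150958) (nat_lit 608) (nat_lit 4221504722) (nat_lit 779) (nat_lit 5) (nat_lit 786) (nat_lit 5) (nat_lit 787) (nat_lit 5) (nat_lit 390) (nat_lit 384) (nat_lit 366))))) (XT.nd (nat_lit 234) (nat_lit 1368) (nat_lit 0) (XT.nd (nat_lit 78) (nat_lit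 608) (nat_lit 0) (XT.lf (nat_lit 76) (nat_lit 3280147901) (nat_lit 0) (nat_lit 1526276048) (nat_lit 608) (nat_lit 1750082138) (nat_lit 780) (nat_lit 5) (nat_lit 779) (nat_lit 5) (nat_lit 787) (nat_lit 5) (nat_lit 391) (nat_lit 384) (nat_lit 365)) (XT.nd (nat_lit 78) (nat_lit 0) (nat_lit 76) (XT.lf (nat_lit 76) (nat_lit 231542740) (nat_lit 0) (nat_lit 678614468) (nat_lit 684) (nat_lit 5663565560) (nat_lit 772) (nat_lit 5) (nat_lit 771) (nat_lit 5) (nat_lit 780) (nat_lit 5) (nat_lit 392) (nat_lit 384) (nat_lit 364)) (XT.lf (nat_lit 0) (nat_lit 3556788510) (nat_lit 608) (nat_lit 2789791284) (nat_lit 684) (nat_lit 245340212) (nat_lit 772) (nat_lit 5) (nat_lit 780) (nat_lit 5) (nat_lit 781) (nat_lit 5) (nat_lit 393) (nat_lit 384) (nat_lit 363)))) (XT.nd (nat_lit 156) (nat_lit 760) (nat_lit 0) (XT.nd (nat_lit 78) (nat_lit 684) (nat_lit 0) (XT.lf (nat_lit 76) (nat_lit 800415736) (nat_lit 0) (nat_lit 5400195838) (nat_lit 684) (nat_lit 410984433)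 (nat_lit 773) (nat_lit 5) (nat_lit 772) (nat_lit 5) (nat_lit 781) (nat_lit 5) (nat_lit 394) (nat_lit 384) (nat_lit 362)) (XT.lf (nat_lit 0) (nat_lit 2189947764) (nat_lit 684) (nat_lit 2185718292) (nat_lit 760) (nat_lit 2256624938) (nat_lit 763) (nat_lit 5) (nat_lit 772) (nat_lit 5) (nat_lit 773) (nat_lit 5) (nat_lit 395) (nat_lit 384) (nat_lit 361))) (XT.nd (nat_lit 78) (nat_lit 760) (nat_lit 0) (XT.lf (nat_lit 76) (nat_lit 1490017748) (nat_lit 0) (nat_lit 3293499843) (nat_lit 760) (nat_lit 1870905517) (nat_lit 764) (nat_lit 5) (nat_lit 763) (nat_lit 5) (nat_lit 773) (nat_lit 5) (nat_lit 396) (nat_lit 384) (nat_lit 360)) (XT.lf (nat_lit 0) (nat_lit 693886032) (nat_lit 760) (nat_lit 1452422655) (nat_lit 836) (nat_lit 4531555788) (nat_lit 753) (nat_lit 5) (nat_lit 763) (nat_lit 5) (nat_lit 764) (nat_lit 5) (nat_lit 397) (nat_lit 384) (nat_lit 359))))))))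
noncomputable def xc60 : XT := (XT.nd (nat_lit 2028) (nat_lit 13984) (nat_lit 0) (XT.nd (nat_lit 1014) (nat_lit 12768) (nat_lit 0) (XT.nd (nat_lit 468) (nat_lit 4560) (nat_lit 0) (XT.nd (nat_lit 234) (nat_lit 1824) (nat_lit 0) (XT.nd (nat_lit 78) (nat_lit 760) (nat_lit 0) (XT.lf (nat_lit 76) (nat_lit 2312885401) (nat_lit 0) (nat_lit 925334370) (nat_lit 836) (nat_lit 3464241610) (nat_lit 754) (nat_lit 5) (nat_lit 753) (nat_lit 5) (nat_lit 764) (nat_lit 5) (nat_lit 398) (nat_lit 384) (nat_lit 358)) (XT.nd (nat_lit 78) (nat_lit 836) (nat_lit 0) (XT.lf (nat_lit 0) (nat_lit 5784690882) (nat_lit 760) (nat_lit 596272407) (nat_lit 76) (nat_lit 347561924) (nat_lit 754) (nat_lit 5) (nat_lit 764) (nat_lit 5) (nat_lit 755) (nat_lit 5) (nat_lit 399) (nat_lit 384) (nat_lit 357)) (XT.lf (nat_lit 0) (nat_lit 1573343215) (nat_lit 836) (nat_lit 3495619376) (nat_lit 76) (nat_lit 1686582454) (nat_lit 743) (nat_lit 5) (nat_lit 754) (nat_lit 5) (nat_lit 744)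 (nat_lit 5) (nat_lit 400) (nat_lit 384) (nat_lit 356)))) (XT.nd (nat_lit 78) (nat_lit 988) (nat_lit 0) (XT.lf (nat_lit 0) (nat_lit 377272161) (nat_lit 836) (nat_lit 3698519219) (nat_lit 912) (nat_lit 2708237819) (nat_lit 732) (nat_lit 5) (nat_lit 743) (nat_lit 5) (nat_lit 744) (nat_lit 5) (nat_lit 401) (nat_lit 384) (nat_lit 355)) (XT.nd (nat_lit 78) (nat_lit 988) (nat_lit 0) (XT.lf (nat_lit 0) (nat_lit 4335562916) (nat_lit 836) (nat_lit 2258158221) (nat_lit 912) (nat_lit 220053247) (nat_lit 732) (nat_lit 5) (nat_lit 743) (nat_lit 5) (nat_lit 744) (nat_lit 5) (nat_lit 402) (nat_lit 384) (nat_lit 354)) (XT.lf (nat_lit 0) (nat_lit 1494019765) (nat_lit 912) (nat_lit 745911995) (nat_lit 988) (nat_lit 4604832999) (nat_lit 719) (nat_lit 5) (nat_lit 731) (nat_lit 5) (nat_lit 732) (nat_lit 5) (nat_lit 403) (nat_lit 384) (nat_lit 353))))) (XT.nd (nat_lit 234) (nat_lit 3496) (nat_lit 0) (XT.nd (nat_lit 78) (nat_lit 1064) (nat_lit 0) (XT.lf (nat_lit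 0) (nat_lit 4711801383) (nat_lit 988) (nat_lit 1343903870) (nat_lit 76) (nat_lit 821327968) (nat_lit 719) (nat_lit 5) (nat_lit 732) (nat_lit 5) (nat_lit 720) (nat_lit 5) (nat_lit 404) (nat_lit 384) (nat_lit 352)) (XT.nd (nat_lit 78) (nat_lit 0) (nat_lit 0) (XT.lf (nat_lit 0) (nat_lit 286221205) (nat_lit 1064) (nat_lit 4178101942) (nat_lit 76) (nat_lit 2446235980) (nat_lit 705) (nat_lit 5) (nat_lit 719) (nat_lit 5) (nat_lit 706) (nat_lit 5) (nat_lit 405) (nat_lit 384) (nat_lit 351)) (XT.lf (nat_lit 0) (nat_lit 2712102564) (nat_lit 1064) (nat_lit 90496463) (nat_lit 76) (nat_lit 4142782445) (nat_lit 705) (nat_lit 5) (nat_lit 719) (nat_lit 5) (nat_lit 706) (nat_lit 5) (nat_lit 406) (nat_lit 384) (nat_lit 350)))) (XT.nd (nat_lit 156) (nat_lit 1216) (nat_lit 0) (XT.nd (nat_lit 78) (nat_lit 1216) (nat_lit 0) (XT.lf (nat_lit 0) (nat_lit 4093246053) (nat_lit 1064) (nat_lit 1066190959) (nat_lit 1140) (nat_lit 1822004543) (nat_lit 691) (nat_lit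 5) (nat_lit 705) (nat_lit 5) (nat_lit 706) (nat_lit 5) (nat_lit 407) (nat_lit 384) (nat_lit 349)) (XT.lf (nat_lit 0) (nat_lit 589857091) (nat_lit 1216) (nat_lit 5706710214) (nat_lit 76) (nat_lit 722358301) (nat_lit 675) (nat_lit 5) (nat_lit 691) (nat_lit 5) (nat_lit 676) (nat_lit 5) (nat_lit 408) (nat_lit 384) (nat_lit 348))) (XT.nd (nat_lit 78) (nat_lit 1216) (nat_lit 0) (XT.lf (nat_lit 0) (nat_lit 2999830906) (nat_lit 1216) (nat_lit 1480860018) (nat_lit 76) (nat_lit 2576742113) (nat_lit 675) (nat_lit 5) (nat_lit 691) (nat_lit 5) (nat_lit 676) (nat_lit 5) (nat_lit 409) (nat_lit 384) (nat_lit 347)) (XT.lf (nat_lit 0) (nat_lit 2826759475) (nat_lit 1216) (nat_lit 2598302086) (nat_lit 1292) (nat_lit 1672307909) (nat_lit 659) (nat_lit 5) (nat_lit 675) (nat_lit 5) (nat_lit 676) (nat_lit 5) (nat_lit 410) (nat_lit 384) (nat_lit 346)))))) (XT.nd (nat_lit 468) (nat_lit 6992) (nat_lit 0) (XT.nd (nat_lit 234) (nat_lit 3040) (nat_lit 0) (XT.nd (nat_lit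 78) (nat_lit 1368) (nat_lit 0) (XT.lf (nat_lit 0) (nat_lit 58222419) (nat_lit 1292) (nat_lit 651992718) (nat_lit 1368) (nat_lit 6428600725) (nat_lit 641) (nat_lit 5) (nat_lit 658) (nat_lit 5) (nat_lit 659) (nat_lit 5) (nat_lit 411) (nat_lit 384) (nat_lit 345)) (XT.nd (nat_lit 78) (nat_lit 1368) (nat_lit 0) (XT.lf (nat_lit 0) (nat_lit 3105444086) (nat_lit 1368) (nat_lit 2709957853) (nat_lit 76) (nat_lit 1365719211) (nat_lit 641) (nat_lit 5) (nat_lit 659) (nat_lit 5) (nat_lit 642) (nat_lit 5) (nat_lit 412) (nat_lit 384) (nat_lit 344)) (XT.lf (nat_lit 0) (nat_lit 1726176850) (nat_lit 1368) (nat_lit 3788830578) (nat_lit 1444) (nat_lit 1709936519) (nat_lit 623) (nat_lit 5) (nat_lit 641) (nat_lit 5) (nat_lit 642) (nat_lit 5) (nat_lit 413) (nat_lit 384) (nat_lit 343)))) (XT.nd (nat_lit 78) (nat_lit 2964) (nat_lit 0) (XT.lf (nat_lit 0) (nat_lit 663490143) (nat_lit 1444) (nat_lit 1026814152) (nat_lit 76) (nat_lit 5579855745) (nat_lit 622) (nat_lit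 5) (nat_lit 641) (nat_lit 5) (nat_lit 623) (nat_lit 5) (nat_lit 414) (nat_lit 384) (nat_lit 342)) (XT.nd (nat_lit 78) (nat_lit 1520) (nat_lit 0) (XT.lf (nat_lit 0) (nat_lit 3039871570) (nat_lit 1520) (nat_lit 3790026398) (nat_lit 76) (nat_lit 486588789) (nat_lit 603) (nat_lit 5) (nat_lit 623) (nat_lit 5) (nat_lit 604) (nat_lit 5) (nat_lit 415) (nat_lit 384) (nat_lit 341)) (XT.lf (nat_lit 0) (nat_lit 779551630) (nat_lit 1520) (nat_lit 4660391239) (nat_lit 1596) (nat_lit 1924273894) (nat_lit 583) (nat_lit 5) (nat_lit 603) (nat_lit 5) (nat_lit 604) (nat_lit 5) (nat_lit 416) (nat_lit 384) (nat_lit 340))))) (XT.nd (nat_lit 234) (nat_lit 5320) (nat_lit 0) (XT.nd (nat_lit 78) (nat_lit 1596) (nat_lit 0) (XT.lf (nat_lit 0) (nat_lit 447808755) (nat_lit 1596) (nat_lit 1964652921) (nat_lit 76) (nat_lit 5000799482) (nat_lit 582) (nat_lit 5) (nat_lit 603) (nat_lit 5) (nat_lit 583) (nat_lit 5) (nat_lit 417) (nat_lit 384) (nat_lit 339)) (XT.nd (nat_lit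 78) (nat_lit 0) (nat_lit 0) (XT.lf (nat_lit 0) (nat_lit 2730728970) (nat_lit 1596) (nat_lit 82831299) (nat_lit 1672) (nat_lit 4650031921) (nat_lit 561) (nat_lit 5) (nat_lit 582) (nat_lit 5) (nat_lit 583) (nat_lit 5) (nat_lit 418) (nat_lit 384) (nat_lit 338)) (XT.lf (nat_lit 0) (nat_lit 5209700575) (nat_lit 1672) (nat_lit 23767764) (nat_lit 76) (nat_lit 2281800026) (nat_lit 561) (nat_lit 5) (nat_lit 583) (nat_lit 5) (nat_lit 562) (nat_lit 5) (nat_lit 419) (nat_lit 384) (nat_lit 337)))) (XT.nd (nat_lit 156) (nat_lit 1824) (nat_lit 0) (XT.nd (nat_lit 78) (nat_lit 1748) (nat_lit 0) (XT.lf (nat_lit 0) (nat_lit 72100438) (nat_lit 1748) (nat_lit 2766736743) (nat_lit 76) (nat_lit 4729380946) (nat_lit 538) (nat_lit 5) (nat_lit 561) (nat_lit 5) (nat_lit 539) (nat_lit 5) (nat_lit 420) (nat_lit 384) (nat_lit 336)) (XT.lf (nat_lit 0) (nat_lit 2072956820) (nat_lit 1748) (nat_lit 363258722) (nat_lit 1824) (nat_lit 5186311245) (nat_lit 515) (nat_lit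 5) (nat_lit 538) (nat_lit 5) (nat_lit 539) (nat_lit 5) (nat_lit 421) (nat_lit 384) (nat_lit 335))) (XT.nd (nat_lit 78) (nat_lit 1824) (nat_lit 0) (XT.lf (nat_lit 0) (nat_lit 4837076532) (nat_lit 1824) (nat_lit 685677540) (nat_lit 76) (nat_lit 2155378275) (nat_lit 515) (nat_lit 5) (nat_lit 539) (nat_lit 5) (nat_lit 516) (nat_lit 5) (nat_lit 422) (nat_lit 384) (nat_lit 334)) (XT.lf (nat_lit 0) (nat_lit 4289226965) (nat_lit 1824) (nat_lit 2984568564) (nat_lit 1900) (nat_lit 461297674) (nat_lit 491) (nat_lit 5) (nat_lit 515) (nat_lit 5) (nat_lit 516) (nat_lit 5) (nat_lit 423) (nat_lit 384) (nat_lit 333))))))) (XT.nd (nat_lit 1014) (nat_lit 5776) (nat_lit 0) (XT.nd (nat_lit 468) (nat_lit 4256) (nat_lit 0) (XT.nd (nat_lit 234) (nat_lit 1824) (nat_lit 0) (XT.nd (nat_lit 78) (nat_lit 912) (nat_lit 0) (XT.lf (nat_lit 0) (nat_lit 1546905505) (nat_lit 1140) (nat_lit 365922622) (nat_lit 1216) (nat_lit 5880658698) (nat_lit 475) (nat_lit 5) (nat_lit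 490) (nat_lit 5) (nat_lit 491) (nat_lit 5) (nat_lit 424) (nat_lit 384) (nat_lit 332)) (XT.nd (nat_lit 78) (nat_lit 912) (nat_lit 0) (XT.lf (nat_lit 0) (nat_lit 4324965114) (nat_lit 1216) (nat_lit 1225502057) (nat_lit 76) (nat_lit 2302586055) (nat_lit 475) (nat_lit 5) (nat_lit 491) (nat_lit 5) (nat_lit 476) (nat_lit 5) (nat_lit 425) (nat_lit 384) (nat_lit 331)) (XT.lf (nat_lit 0) (nat_lit 3904604448) (nat_lit 912) (nat_lit 2867786320) (nat_lit 988) (nat_lit 1141679269) (nat_lit 463) (nat_lit 5) (nat_lit 475) (nat_lit 5) (nat_lit 476) (nat_lit 5) (nat_lit 426) (nat_lit 384) (nat_lit 330)))) (XT.nd (nat_lit 78) (nat_lit 836) (nat_lit 0) (XT.lf (nat_lit 0) (nat_lit 1143884789) (nat_lit 912) (nat_lit 106871833) (nat_lit 988) (nat_lit 6725877739) (nat_lit 450) (nat_lit 5) (nat_lit 462) (nat_lit 5) (nat_lit 463) (nat_lit 5) (nat_lit 427) (nat_lit 384) (nat_lit 329)) (XT.nd (nat_lit 78) (nat_lit 836) (nat_lit 0) (XT.lf (nat_lit 0) (nat_lit 3680517765)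 (nat_lit 988) (nat_lit 1651574101) (nat_lit 76) (nat_lit 2708111902) (nat_lit 450) (nat_lit 5) (nat_lit 463) (nat_lit 5) (nat_lit 451) (nat_lit 5) (nat_lit 428) (nat_lit 384) (nat_lit 328)) (XT.lf (nat_lit 0) (nat_lit 3640076506) (nat_lit 836) (nat_lit 2503997216) (nat_lit 912) (nat_lit 1961266850) (nat_lit 439) (nat_lit 5) (nat_lit 450) (nat_lit 5) (nat_lit 451) (nat_lit 5) (nat_lit 429) (nat_lit 384) (nat_lit 327))))) (XT.nd (nat_lit 234) (nat_lit 2432) (nat_lit 0) (XT.nd (nat_lit 78) (nat_lit 836) (nat_lit 0) (XT.lf (nat_lit 0) (nat_lit 459175551) (nat_lit 988) (nat_lit 7318794867) (nat_lit 76) (nat_lit 394138353) (nat_lit 426) (nat_lit 5) (nat_lit 439) (nat_lit 5) (nat_lit 427) (nat_lit 5) (nat_lit 430) (nat_lit 384) (nat_lit 326)) (XT.nd (nat_lit 78) (nat_lit 836) (nat_lit 0) (XT.lf (nat_lit 0) (nat_lit 2910136166) (nat_lit 988) (nat_lit 1971515041) (nat_lit 76) (nat_lit 3358134433) (nat_lit 426) (nat_lit 5) (nat_lit 439) (nat_lit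 5) (nat_lit 427) (nat_lit 5) (nat_lit 431) (nat_lit 384) (nat_lit 325)) (XT.lf (nat_lit 0) (nat_lit 3488339466) (nat_lit 836) (nat_lit 1906778773) (nat_lit 912) (nat_lit 2913997763) (nat_lit 415) (nat_lit 5) (nat_lit 426) (nat_lit 5) (nat_lit 427) (nat_lit 5) (nat_lit 432) (nat_lit 384) (nat_lit 324)))) (XT.nd (nat_lit 156) (nat_lit 1520) (nat_lit 0) (XT.nd (nat_lit 78) (nat_lit 76) (nat_lit 0) (XT.lf (nat_lit 0) (nat_lit 665280655) (nat_lit 836) (nat_lit 7252292882) (nat_lit 912) (nat_lit 462503962) (nat_lit 404) (nat_lit 5) (nat_lit 415) (nat_lit 5) (nat_lit 416) (nat_lit 5) (nat_lit 433) (nat_lit 384) (nat_lit 323)) (XT.lf (nat_lit 0) (nat_lit 2019522319) (nat_lit 912) (nat_lit 2192286649) (nat_lit 76) (nat_lit 4240219983) (nat_lit 403) (nat_lit 5) (nat_lit 415) (nat_lit 5) (nat_lit 404) (nat_lit 5) (nat_lit 434) (nat_lit 384) (nat_lit 322))) (XT.nd (nat_lit 78) (nat_lit 760) (nat_lit 0) (XT.lf (nat_lit 0) (nat_lit 3442756096) (nat_lit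 760) (nat_lit 1088362997) (nat_lit 836) (nat_lit 3994516737) (nat_lit 393) (nat_lit 5) (nat_lit 403) (nat_lit 5) (nat_lit 404) (nat_lit 5) (nat_lit 435) (nat_lit 384) (nat_lit 321)) (XT.lf (nat_lit 0) (nat_lit 573163294) (nat_lit 760) (nat_lit 6516124582) (nat_lit 836) (nat_lit 1511500171) (nat_lit 383) (nat_lit 5) (nat_lit 393) (nat_lit 5) (nat_lit 394) (nat_lit 5) (nat_lit 436) (nat_lit 384) (nat_lit 320)))))) (XT.nd (nat_lit 468) (nat_lit 2736) (nat_lit 0) (XT.nd (nat_lit 234) (nat_lit 1444) (nat_lit 0) (XT.nd (nat_lit 78) (nat_lit 1520) (nat_lit 0) (XT.lf (nat_lit 0) (nat_lit 1013724504) (nat_lit 836) (nat_lit 2320238854) (nat_lit 76) (nat_lit 5343228532) (nat_lit 382) (nat_lit 5) (nat_lit 393) (nat_lit 5) (nat_lit 383) (nat_lit 5) (nat_lit 437) (nat_lit 384) (nat_lit 319)) (XT.nd (nat_lit 78) (nat_lit 760) (nat_lit 0) (XT.lf (nat_lit 0) (nat_lit 3497308603) (nat_lit 760) (nat_lit 59728228) (nat_lit 836) (nat_lit 5198130715) (nat_lit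 372) (nat_lit 5) (nat_lit 382) (nat_lit 5) (nat_lit 383) (nat_lit 5) (nat_lit 438) (nat_lit 384) (nat_lit 318)) (XT.lf (nat_lit 0) (nat_lit 574160063) (nat_lit 760) (nat_lit 5583242813) (nat_lit 836) (nat_lit 2677176091) (nat_lit 362) (nat_lit 5) (nat_lit 372) (nat_lit 5) (nat_lit 373) (nat_lit 5) (nat_lit 439) (nat_lit 384) (nat_lit 317)))) (XT.nd (nat_lit 78) (nat_lit 1444) (nat_lit 0) (XT.lf (nat_lit 0) (nat_lit 6553716733) (nat_lit 760) (nat_lit 2257643201) (nat_lit 836) (nat_lit 104187008) (nat_lit 362) (nat_lit 5) (nat_lit 372) (nat_lit 5) (nat_lit 373) (nat_lit 5) (nat_lit 440) (nat_lit 384) (nat_lit 316)) (XT.nd (nat_lit 78) (nat_lit 684) (nat_lit 0) (XT.lf (nat_lit 0) (nat_lit 2484830872) (nat_lit 760) (nat_lit 5359043002) (nat_lit 76) (nat_lit 1153980684) (nat_lit 352) (nat_lit 5) (nat_lit 362) (nat_lit 5) (nat_lit 353) (nat_lit 5) (nat_lit 441) (nat_lit 384) (nat_lit 315)) (XT.lf (nat_lit 0) (nat_lit 662937241) (nat_lit 684)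 (nat_lit 4463226790) (nat_lit 760) (nat_lit 3955591922) (nat_lit 343) (nat_lit 5) (nat_lit 352) (nat_lit 5) (nat_lit 353) (nat_lit 5) (nat_lit 442) (nat_lit 384) (nat_lit 314))))) (XT.nd (nat_lit 234) (nat_lit 1292) (nat_lit 0) (XT.nd (nat_lit 78) (nat_lit 1444) (nat_lit 0) (XT.lf (nat_lit 0) (nat_lit 6838262372) (nat_lit 684) (nat_lit 985137132) (nat_lit 760) (nat_lit 1343874360) (nat_lit 343) (nat_lit 5) (nat_lit 352) (nat_lit 5) (nat_lit 353) (nat_lit 5) (nat_lit 443) (nat_lit 384) (nat_lit 313)) (XT.nd (nat_lit 78) (nat_lit 684) (nat_lit 0) (XT.lf (nat_lit 0) (nat_lit 1312353643) (nat_lit 760) (nat_lit 5385700420) (nat_lit 76) (nat_lit 2556084871) (nat_lit 333) (nat_lit 5) (nat_lit 343) (nat_lit 5) (nat_lit 334) (nat_lit 5) (nat_lit 444) (nat_lit 384) (nat_lit 312)) (XT.lf (nat_lit 0) (nat_lit 834672038) (nat_lit 684) (nat_lit 3164613682) (nat_lit 760) (nat_lit 5343366444) (nat_lit 324) (nat_lit 5) (nat_lit 333) (nat_lit 5) (nat_lit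 334) (nat_lit 5) (nat_lit 445) (nat_lit 384) (nat_lit 311)))) (XT.nd (nat_lit 156) (nat_lit 608) (nat_lit 0) (XT.nd (nat_lit 78) (nat_lit 684) (nat_lit 0) (XT.lf (nat_lit 0) (nat_lit 6747395024) (nat_lit 760) (nat_lit 2222899140) (nat_lit 76) (nat_lit 462492723) (nat_lit 324) (nat_lit 5) (nat_lit 334) (nat_lit 5) (nat_lit 325) (nat_lit 5) (nat_lit 446) (nat_lit 384) (nat_lit 310)) (XT.lf (nat_lit 0) (nat_lit 42458455) (nat_lit 684) (nat_lit 5342149300) (nat_lit 76) (nat_lit 4139772130) (nat_lit 315) (nat_lit 5) (nat_lit 324) (nat_lit 5) (nat_lit 316) (nat_lit 5) (nat_lit 447) (nat_lit 384) (nat_lit 309))) (XT.nd (nat_lit 78) (nat_lit 0) (nat_lit 0) (XT.lf (nat_lit 0) (nat_lit 1085017252) (nat_lit 608) (nat_lit 1694967190) (nat_lit 684) (nat_lit 6837643771) (nat_lit 307) (nat_lit 5) (nat_lit 315) (nat_lit 5) (nat_lit 316) (nat_lit 5) (nat_lit 448) (nat_lit 384) (nat_lit 308)) (XT.lf (nat_lit 0) (nat_lit 5591057818) (nat_lit 684) (nat_lit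 2052267796) (nat_lit 76) (nat_lit 2069039958) (nat_lit 307) (nat_lit 5) (nat_lit 316) (nat_lit 5) (nat_lit 308) (nat_lit 5) (nat_lit 449) (nat_lit 384) (nat_lit 307))))))))
noncomputable def xc61 : XT := (XT.nd (nat_lit 2028) (nat_lit 1140) (nat_lit 0) (XT.nd (nat_lit 1014) (nat_lit 4256) (nat_lit 0) (XT.nd (nat_lit 468) (nat_lit 2736) (nat_lit 0) (XT.nd (nat_lit 234) (nat_lit 1216) (nat_lit 0) (XT.nd (nat_lit 78) (nat_lit 684) (nat_lit 0) (XT.lf (nat_lit 0) (nat_lit 4567421234) (nat_lit 608) (nat_lit 3901694407) (nat_lit 684) (nat_lit 1339666774) (nat_lit 299) (nat_lit 5) (nat_lit 307) (nat_lit 5) (nat_lit 308) (nat_lit 5) (nat_lit 450) (nat_lit 384) (nat_lit 306)) (XT.nd (nat_lit 78) (nat_lit 0) (nat_lit 0) (XT.lf (nat_lit 0) (nat_lit 1410068783) (nat_lit 608) (nat_lit 60940433) (nat_lit 684) (nat_lit 8436063040) (nat_lit 290) (nat_lit 5) (nat_lit 298) (nat_lit 5) (nat_lit 299) (nat_lit 5) (nat_lit 451) (nat_lit 384) (nat_lit 305))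 (XT.lf (nat_lit 0) (nat_lit 4350723880) (nat_lit 684) (nat_lit 1814550560) (nat_lit 76) (nat_lit 3841261084) (nat_lit 290) (nat_lit 5) (nat_lit 299) (nat_lit 5) (nat_lit 291) (nat_lit 5) (nat_lit 452) (nat_lit 384) (nat_lit 304)))) (XT.nd (nat_lit 78) (nat_lit 684) (nat_lit 0) (XT.lf (nat_lit 0) (nat_lit 5028512575) (nat_lit 532) (nat_lit 2263456111) (nat_lit 608) (nat_lit 2815940654) (nat_lit 283) (nat_lit 5) (nat_lit 290) (nat_lit 5) (nat_lit 291) (nat_lit 5) (nat_lit 453) (nat_lit 384) (nat_lit 303)) (XT.nd (nat_lit 78) (nat_lit 0) (nat_lit 0) (XT.lf (nat_lit 0) (nat_lit 85912458) (nat_lit 684) (nat_lit 8416307496) (nat_lit 76) (nat_lit 1708955327) (nat_lit 274) (nat_lit 5) (nat_lit 283) (nat_lit 5) (nat_lit 275) (nat_lit 5) (nat_lit 454) (nat_lit 384) (nat_lit 302)) (XT.lf (nat_lit 0) (nat_lit 3028703554) (nat_lit 684) (nat_lit 1513190223) (nat_lit 76) (nat_lit 5773828369) (nat_lit 274) (nat_lit 5) (nat_lit 283) (nat_lit 5) (nat_lit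 275) (nat_lit 5) (nat_lit 455) (nat_lit 384) (nat_lit 301))))) (XT.nd (nat_lit 234) (nat_lit 1596) (nat_lit 0) (XT.nd (nat_lit 78) (nat_lit 608) (nat_lit 0) (XT.lf (nat_lit 0) (nat_lit 5562738397) (nat_lit 532) (nat_lit 475562579) (nat_lit 608) (nat_lit 4383899962) (nat_lit 267) (nat_lit 5) (nat_lit 274) (nat_lit 5) (nat_lit 275) (nat_lit 5) (nat_lit 456) (nat_lit 384) (nat_lit 300)) (XT.nd (nat_lit 78) (nat_lit 76) (nat_lit 0) (XT.lf (nat_lit 0) (nat_lit 2237074150) (nat_lit 532) (nat_lit 6891677816) (nat_lit 608) (nat_lit 1401644108) (nat_lit 260) (nat_lit 5) (nat_lit 267) (nat_lit 5) (nat_lit 268) (nat_lit 5) (nat_lit 457) (nat_lit 384) (nat_lit 299)) (XT.lf (nat_lit 0) (nat_lit 1626909978) (nat_lit 608) (nat_lit 1151269311) (nat_lit 76) (nat_lit 7862199523) (nat_lit 259) (nat_lit 5) (nat_lit 267) (nat_lit 5) (nat_lit 260) (nat_lit 5) (nat_lit 458) (nat_lit 384) (nat_lit 298)))) (XT.nd (nat_lit 156) (nat_lit 532) (nat_lit 0) (XT.nd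 (nat_lit 78) (nat_lit 532) (nat_lit 0) (XT.lf (nat_lit 0) (nat_lit 4719525527) (nat_lit 608) (nat_lit 4594161421) (nat_lit 76) (nat_lit 1438243791) (nat_lit 252) (nat_lit 5) (nat_lit 260) (nat_lit 5) (nat_lit 253) (nat_lit 5) (nat_lit 459) (nat_lit 384) (nat_lit 297)) (XT.lf (nat_lit 0) (nat_lit 2742524195) (nat_lit 532) (nat_lit 5148408540) (nat_lit 608) (nat_lit 2974442183) (nat_lit 245) (nat_lit 5) (nat_lit 252) (nat_lit 5) (nat_lit 253) (nat_lit 5) (nat_lit 460) (nat_lit 384) (nat_lit 296))) (XT.nd (nat_lit 78) (nat_lit 456) (nat_lit 0) (XT.lf (nat_lit 0) (nat_lit 146881496) (nat_lit 608) (nat_lit 731534164) (nat_lit 76) (nat_lit 10102571555) (nat_lit 244) (nat_lit 5) (nat_lit 252) (nat_lit 5) (nat_lit 245) (nat_lit 5) (nat_lit 461) (nat_lit 384) (nat_lit 295)) (XT.lf (nat_lit 0) (nat_lit 3331774126) (nat_lit 532) (nat_lit 4280854529) (nat_lit 76) (nat_lit 3485070478) (nat_lit 238) (nat_lit 5) (nat_lit 245) (nat_lit 5) (nat_lit 239)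 (nat_lit 5) (nat_lit 462) (nat_lit 384) (nat_lit 294)))))) (XT.nd (nat_lit 468) (nat_lit 2204) (nat_lit 0) (XT.nd (nat_lit 234) (nat_lit 988) (nat_lit 0) (XT.nd (nat_lit 78) (nat_lit 532) (nat_lit 0) (XT.lf (nat_lit 0) (nat_lit 3309418636) (nat_lit 532) (nat_lit 3276990433) (nat_lit 608) (nat_lit 4630215329) (nat_lit 231) (nat_lit 5) (nat_lit 238) (nat_lit 5) (nat_lit 239) (nat_lit 5) (nat_lit 463) (nat_lit 384) (nat_lit 293)) (XT.nd (nat_lit 78) (nat_lit 532) (nat_lit 0) (XT.lf (nat_lit 0) (nat_lit 9916486028) (nat_lit 608) (nat_lit 273247206) (nat_lit 76) (nat_lit 1147987950) (nat_lit 231) (nat_lit 5) (nat_lit 239) (nat_lit 5) (nat_lit 232) (nat_lit 5) (nat_lit 464) (nat_lit 384) (nat_lit 292)) (XT.lf (nat_lit 0) (nat_lit 1873187290) (nat_lit 532) (nat_lit 3918952912) (nat_lit 76) (nat_lit 5667948204) (nat_lit 224) (nat_lit 5) (nat_lit 231) (nat_lit 5) (nat_lit 225) (nat_lit 5) (nat_lit 465) (nat_lit 384) (nat_lit 291)))) (XT.nd (nat_lit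 78) (nat_lit 532) (nat_lit 0) (XT.lf (nat_lit 0) (nat_lit 3935691452) (nat_lit 456) (nat_lit 1280792608) (nat_lit 532) (nat_lit 6368190702) (nat_lit 218) (nat_lit 5) (nat_lit 224) (nat_lit 5) (nat_lit 225) (nat_lit 5) (nat_lit 466) (nat_lit 384) (nat_lit 290)) (XT.nd (nat_lit 78) (nat_lit 76) (nat_lit 0) (XT.lf (nat_lit 0) (nat_lit 233322287) (nat_lit 456) (nat_lit 8417654127) (nat_lit 532) (nat_lit 3060289837) (nat_lit 212) (nat_lit 5) (nat_lit 218) (nat_lit 5) (nat_lit 219) (nat_lit 5) (nat_lit 467) (nat_lit 384) (nat_lit 289)) (XT.lf (nat_lit 0) (nat_lit 344674645) (nat_lit 532) (nat_lit 3510679759) (nat_lit 76) (nat_lit 7984294008) (nat_lit 211) (nat_lit 5) (nat_lit 218) (nat_lit 5) (nat_lit 212) (nat_lit 5) (nat_lit 468) (nat_lit 384) (nat_lit 288))))) (XT.nd (nat_lit 234) (nat_lit 1368) (nat_lit 0) (XT.nd (nat_lit 78) (nat_lit 380) (nat_lit 0) (XT.lf (nat_lit 0) (nat_lit 3787592555) (nat_lit 532) (nat_lit 7355955334) (nat_lit 76)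 (nat_lit 826429128) (nat_lit 205) (nat_lit 5) (nat_lit 212) (nat_lit 5) (nat_lit 206) (nat_lit 5) (nat_lit 469) (nat_lit 384) (nat_lit 287)) (XT.nd (nat_lit 78) (nat_lit 0) (nat_lit 0) (XT.lf (nat_lit 0) (nat_lit 794242626) (nat_lit 380) (nat_lit 6535060654) (nat_lit 456) (nat_lit 4773010225) (nat_lit 200) (nat_lit 5) (nat_lit 205) (nat_lit 5) (nat_lit 206) (nat_lit 5) (nat_lit 470) (nat_lit 384) (nat_lit 286)) (XT.lf (nat_lit 0) (nat_lit 9170548731) (nat_lit 380) (nat_lit 1796434958) (nat_lit 456) (nat_lit 1269810325) (nat_lit 200) (nat_lit 5) (nat_lit 205) (nat_lit 5) (nat_lit 206) (nat_lit 5) (nat_lit 471) (nat_lit 384) (nat_lit 285)))) (XT.nd (nat_lit 156) (nat_lit 456) (nat_lit 0) (XT.nd (nat_lit 78) (nat_lit 380) (nat_lit 0) (XT.lf (nat_lit 0) (nat_lit 2304099583) (nat_lit 532) (nat_lit 7033869866) (nat_lit 76) (nat_lit 3035078448) (nat_lit 193) (nat_lit 5) (nat_lit 200) (nat_lit 5) (nat_lit 194) (nat_lit 5) (nat_lit 472) (nat_lit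 384) (nat_lit 284)) (XT.lf (nat_lit 0) (nat_lit 1404269860) (nat_lit 380) (nat_lit 4546204034) (nat_lit 456) (nat_lit 6561025316) (nat_lit 188) (nat_lit 5) (nat_lit 193) (nat_lit 5) (nat_lit 194) (nat_lit 5) (nat_lit 473) (nat_lit 384) (nat_lit 283))) (XT.nd (nat_lit 78) (nat_lit 456) (nat_lit 0) (XT.lf (nat_lit 0) (nat_lit 9695901538) (nat_lit 456) (nat_lit 2584298861) (nat_lit 76) (nat_lit 371996632) (nat_lit 188) (nat_lit 5) (nat_lit 194) (nat_lit 5) (nat_lit 189) (nat_lit 5) (nat_lit 474) (nat_lit 384) (nat_lit 282)) (XT.lf (nat_lit 0) (nat_lit 758112146) (nat_lit 456) (nat_lit 6676264802) (nat_lit 76) (nat_lit 5360297638) (nat_lit 182) (nat_lit 5) (nat_lit 188) (nat_lit 5) (nat_lit 183) (nat_lit 5) (nat_lit 475) (nat_lit 384) (nat_lit 281))))))) (XT.nd (nat_lit 52884) (nat_lit 0) (nat_lit 40888) (XT.nd (nat_lit 52338) (nat_lit 0) (nat_lit 45904) (XT.nd (nat_lit 234) (nat_lit 380) (nat_lit 0) (XT.nd (nat_lit 78) (nat_lit 380) (nat_lit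 0) (XT.lf (nat_lit 0) (nat_lit 2062031895) (nat_lit 380) (nat_lit 2453002816) (nat_lit 456) (nat_lit 8424419926) (nat_lit 177) (nat_lit 5) (nat_lit 182) (nat_lit 5) (nat_lit 183) (nat_lit 5) (nat_lit 476) (nat_lit 384) (nat_lit 280)) (XT.nd (nat_lit 78) (nat_lit 380) (nat_lit 0) (XT.lf (nat_lit 0) (nat_lit 8386324045) (nat_lit 456) (nat_lit 2074006308) (nat_lit 76) (nat_lit 2626015370) (nat_lit 177) (nat_lit 5) (nat_lit 183) (nat_lit 5) (nat_lit 178) (nat_lit 5) (nat_lit 477) (nat_lit 384) (nat_lit 279)) (XT.lf (nat_lit 0) (nat_lit 6945018879) (nat_lit 380) (nat_lit 5428874317) (nat_lit 456) (nat_lit 861504353) (nat_lit 172) (nat_lit 5) (nat_lit 177) (nat_lit 5) (nat_lit 178) (nat_lit 5) (nat_lit 478) (nat_lit 384) (nat_lit 278)))) (XT.nd (nat_lit 78) (nat_lit 0) (nat_lit 0) (XT.lf (nat_lit 0) (nat_lit 2766383097) (nat_lit 304) (nat_lit 256903328) (nat_lit 380) (nat_lit 10363556363) (nat_lit 167) (nat_lit 5) (nat_lit 171) (nat_lit 5)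 (nat_lit 172) (nat_lit 5) (nat_lit 479) (nat_lit 384) (nat_lit 277)) (XT.nd (nat_lit 51948) (nat_lit 0) (nat_lit 47500) (XT.lf (nat_lit 0) (nat_lit 7027033537) (nat_lit 380) (nat_lit 1524986093) (nat_lit 76) (nat_lit 4988127491) (nat_lit 167) (nat_lit 5) (nat_lit 172) (nat_lit 5) (nat_lit 168) (nat_lit 5) (nat_lit 480) (nat_lit 384) (nat_lit 276)) (XT.lf (nat_lit 0) (nat_lit 1022009023) (nat_lit 0) (nat_lit 1022009023) (nat_lit 380) (nat_lit 1200751573) (nat_lit 792) (nat_lit 5) (nat_lit 792) (nat_lit 3) (nat_lit 797) (nat_lit 3) (nat_lit 385) (nat_lit 385) (nat_lit 370))))) (XT.nd (nat_lit 234) (nat_lit 1064) (nat_lit 0) (XT.nd (nat_lit 78) (nat_lit 0) (nat_lit 0) (XT.lf (nat_lit 0) (nat_lit 355577853) (nat_lit 532) (nat_lit 1185003500) (nat_lit 532) (nat_lit 4959182542) (nat_lit 785) (nat_lit 3) (nat_lit 792) (nat_lit 3) (nat_lit 792) (nat_lit 5) (nat_lit 386) (nat_lit 385) (nat_lit 369)) (XT.nd (nat_lit 78) (nat_lit 0) (nat_lit 0)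 (XT.lf (nat_lit 76) (nat_lit 2115791018) (nat_lit 0) (nat_lit 961505771) (nat_lit 532) (nat_lit 3433745726) (nat_lit 786) (nat_lit 5) (nat_lit 785) (nat_lit 3) (nat_lit 792) (nat_lit 5) (nat_lit 387) (nat_lit 385) (nat_lit 368)) (XT.lf (nat_lit 76) (nat_lit 5462127912) (nat_lit 0) (nat_lit 328336252) (nat_lit 532) (nat_lit 733342263) (nat_lit 786) (nat_lit 5) (nat_lit 785) (nat_lit 3) (nat_lit 792) (nat_lit 5) (nat_lit 388) (nat_lit 385) (nat_lit 367)))) (XT.nd (nat_lit 156) (nat_lit 608) (nat_lit 0) (XT.nd (nat_lit 78) (nat_lit 0) (nat_lit 0) (XT.lf (nat_lit 0) (nat_lit 1942076144) (nat_lit 532) (nat_lit 4221017307) (nat_lit 608) (nat_lit 374519454) (nat_lit 779) (nat_lit 5) (nat_lit 786) (nat_lit 5) (nat_lit 787) (nat_lit 5) (nat_lit 389) (nat_lit 385) (nat_lit 366)) (XT.lf (nat_lit 0) (nat_lit 4601876870) (nat_lit 532) (nat_lit 819900952) (nat_lit 608) (nat_lit 1131006872) (nat_lit 779) (nat_lit 5) (nat_lit 786) (nat_lit 5) (nat_lit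 787) (nat_lit 5) (nat_lit 390) (nat_lit 385) (nat_lit 365))) (XT.nd (nat_lit 78) (nat_lit 0) (nat_lit 0) (XT.lf (nat_lit 0) (nat_lit 686357710) (nat_lit 608) (nat_lit 3927179029) (nat_lit 684) (nat_lit 1955635512) (nat_lit 771) (nat_lit 5) (nat_lit 779) (nat_lit 5) (nat_lit 780) (nat_lit 5) (nat_lit 391) (nat_lit 385) (nat_lit 364)) (XT.lf (nat_lit 0) (nat_lit 3289133599) (nat_lit 608) (nat_lit 452484285) (nat_lit 684) (nat_lit 2845234010) (nat_lit 771) (nat_lit 5) (nat_lit 779) (nat_lit 5) (nat_lit 780) (nat_lit 5) (nat_lit 392) (nat_lit 385) (nat_lit 363)))))) (XT.nd (nat_lit 468) (nat_lit 3648) (nat_lit 0) (XT.nd (nat_lit 234) (nat_lit 684) (nat_lit 0) (XT.nd (nat_lit 78) (nat_lit 684) (nat_lit 0) (XT.lf (nat_lit 76) (nat_lit 3095051744) (nat_lit 0) (nat_lit 2803640621) (nat_lit 684) (nat_lit 707098217) (nat_lit 772) (nat_lit 5) (nat_lit 771) (nat_lit 5) (nat_lit 780) (nat_lit 5) (nat_lit 393) (nat_lit 385) (nat_lit 362)) (XT.nd (nat_lit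 78) (nat_lit 0) (nat_lit 0) (XT.lf (nat_lit 76) (nat_lit 44765990) (nat_lit 0) (nat_lit 1803780904) (nat_lit 760) (nat_lit 4777537943) (nat_lit 763) (nat_lit 5) (nat_lit 762) (nat_lit 5) (nat_lit 772) (nat_lit 5) (nat_lit 394) (nat_lit 385) (nat_lit 361)) (XT.lf (nat_lit 76) (nat_lit 3676613724) (nat_lit 0) (nat_lit 729033269) (nat_lit 760) (nat_lit 2241848305) (nat_lit 763) (nat_lit 5) (nat_lit 762) (nat_lit 5) (nat_lit 772) (nat_lit 5) (nat_lit 395) (nat_lit 385) (nat_lit 360)))) (XT.nd (nat_lit 78) (nat_lit 0) (nat_lit 0) (XT.lf (nat_lit 0) (nat_lit 284156793) (nat_lit 760) (nat_lit 5992304421) (nat_lit 836) (nat_lit 393945599) (nat_lit 753) (nat_lit 5) (nat_lit 763) (nat_lit 5) (nat_lit 764) (nat_lit 5) (nat_lit 396) (nat_lit 385) (nat_lit 359)) (XT.nd (nat_lit 78) (nat_lit 0) (nat_lit 0) (XT.lf (nat_lit 0) (nat_lit 2793845526) (nat_lit 760) (nat_lit 2311705562) (nat_lit 836) (nat_lit 1588665460) (nat_lit 753) (nat_lit 5) (nat_lit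 763) (nat_lit 5) (nat_lit 764) (nat_lit 5) (nat_lit 397) (nat_lit 385) (nat_lit 358)) (XT.lf (nat_lit 76) (nat_lit 1423072947) (nat_lit 0) (nat_lit 3879362836) (nat_lit 836) (nat_lit 1417092541) (nat_lit 754) (nat_lit 5) (nat_lit 753) (nat_lit 5) (nat_lit 764) (nat_lit 5) (nat_lit 398) (nat_lit 385) (nat_lit 357))))) (XT.nd (nat_lit 234) (nat_lit 2812) (nat_lit 0) (XT.nd (nat_lit 78) (nat_lit 0) (nat_lit 0) (XT.lf (nat_lit 0) (nat_lit 1056847165) (nat_lit 836) (nat_lit 1527143581) (nat_lit 912) (nat_lit 4162098087) (nat_lit 742) (nat_lit 5) (nat_lit 753) (nat_lit 5) (nat_lit 754) (nat_lit 5) (nat_lit 399) (nat_lit 385) (nat_lit 356)) (XT.nd (nat_lit 78) (nat_lit 0) (nat_lit 76) (XT.lf (nat_lit 76) (nat_lit 2300455598) (nat_lit 0) (nat_lit 1216979957) (nat_lit 912) (nat_lit 3256434764) (nat_lit 743) (nat_lit 5) (nat_lit 742) (nat_lit 5) (nat_lit 754) (nat_lit 5) (nat_lit 400) (nat_lit 385) (nat_lit 355)) (XT.lf (nat_lit 0) (nat_lit 5980934397)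 (nat_lit 836) (nat_lit 616839713) (nat_lit 76) (nat_lit 205359349) (nat_lit 743) (nat_lit 5) (nat_lit 754) (nat_lit 5) (nat_lit 744) (nat_lit 5) (nat_lit 401) (nat_lit 385) (nat_lit 354)))) (XT.nd (nat_lit 156) (nat_lit 1064) (nat_lit 0) (XT.nd (nat_lit 78) (nat_lit 912) (nat_lit 0) (XT.lf (nat_lit 0) (nat_lit 1611702356) (nat_lit 912) (nat_lit 3530015987) (nat_lit 76) (nat_lit 1691592637) (nat_lit 731) (nat_lit 5) (nat_lit 743) (nat_lit 5) (nat_lit 732) (nat_lit 5) (nat_lit 402) (nat_lit 385) (nat_lit 353)) (XT.lf (nat_lit 0) (nat_lit 407398082) (nat_lit 912) (nat_lit 3626555604) (nat_lit 988) (nat_lit 2831016046) (nat_lit 719) (nat_lit 5) (nat_lit 731) (nat_lit 5) (nat_lit 732) (nat_lit 5) (nat_lit 403) (nat_lit 385) (nat_lit 352))) (XT.nd (nat_lit 78) (nat_lit 1064) (nat_lit 0) (XT.lf (nat_lit 0) (nat_lit 4433007921) (nat_lit 912) (nat_lit 2040040863) (nat_lit 988) (nat_lit 424844902) (nat_lit 719) (nat_lit 5) (nat_lit 731) (nat_lit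 5) (nat_lit 732) (nat_lit 5) (nat_lit 404) (nat_lit 385) (nat_lit 351)) (XT.lf (nat_lit 0) (nat_lit 1576782141) (nat_lit 988) (nat_lit 381724048) (nat_lit 1064) (nat_lit 4973592937) (nat_lit 705) (nat_lit 5) (nat_lit 718) (nat_lit 5) (nat_lit 719) (nat_lit 5) (nat_lit 405) (nat_lit 385) (nat_lit 350))))))))
noncomputable def xc62 : XT := (XT.nd (nat_lit 2028) (nat_lit 12084) (nat_lit 0) (XT.nd (nat_lit 1014) (nat_lit 10260) (nat_lit 0) (XT.nd (nat_lit 468) (nat_lit 7372) (nat_lit 0) (XT.nd (nat_lit 234) (nat_lit 1292) (nat_lit 0) (XT.nd (nat_lit 78) (nat_lit 2280) (nat_lit 0) (XT.lf (nat_lit 0) (nat_lit 4355354387) (nat_lit 1064) (nat_lit 1284687917) (nat_lit 76) (nat_lit 1327459830) (nat_lit 705) (nat_lit 5) (nat_lit 719) (nat_lit 5) (nat_lit 706) (nat_lit 5) (nat_lit 406) (nat_lit 385) (nat_lit 349)) (XT.nd (nat_lit 78) (nat_lit 1216) (nat_lit 0) (XT.lf (nat_lit 0) (nat_lit 2863857599) (nat_lit 1064) (nat_lit 3904815156) (nat_lit 1140)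 (nat_lit 235569784) (nat_lit 691) (nat_lit 5) (nat_lit 705) (nat_lit 5) (nat_lit 706) (nat_lit 5) (nat_lit 407) (nat_lit 385) (nat_lit 348)) (XT.lf (nat_lit 0) (nat_lit 18248028) (nat_lit 1140) (nat_lit 2098235851) (nat_lit 1216) (nat_lit 4925816739) (nat_lit 675) (nat_lit 5) (nat_lit 690) (nat_lit 5) (nat_lit 691) (nat_lit 5) (nat_lit 408) (nat_lit 385) (nat_lit 347)))) (XT.nd (nat_lit 78) (nat_lit 1292) (nat_lit 0) (XT.lf (nat_lit 0) (nat_lit 4275885506) (nat_lit 1140) (nat_lit 212937604) (nat_lit 1216) (nat_lit 2592737631) (nat_lit 675) (nat_lit 5) (nat_lit 690) (nat_lit 5) (nat_lit 691) (nat_lit 5) (nat_lit 409) (nat_lit 385) (nat_lit 346)) (XT.nd (nat_lit 78) (nat_lit 76) (nat_lit 0) (XT.lf (nat_lit 0) (nat_lit 1466155313) (nat_lit 1216) (nat_lit 5412785920) (nat_lit 1292) (nat_lit 243258191) (nat_lit 659) (nat_lit 5) (nat_lit 675) (nat_lit 5) (nat_lit 676) (nat_lit 5) (nat_lit 410) (nat_lit 385) (nat_lit 345)) (XT.lf (nat_lit 0)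 (nat_lit 2095449569) (nat_lit 1292) (nat_lit 1356781575) (nat_lit 76) (nat_lit 3711730565) (nat_lit 658) (nat_lit 5) (nat_lit 675) (nat_lit 5) (nat_lit 659) (nat_lit 5) (nat_lit 411) (nat_lit 385) (nat_lit 344))))) (XT.nd (nat_lit 234) (nat_lit 4636) (nat_lit 0) (XT.nd (nat_lit 78) (nat_lit 1444) (nat_lit 0) (XT.lf (nat_lit 0) (nat_lit 3027893615) (nat_lit 1292) (nat_lit 1420536953) (nat_lit 1368) (nat_lit 2758681389) (nat_lit 641) (nat_lit 5) (nat_lit 658) (nat_lit 5) (nat_lit 659) (nat_lit 5) (nat_lit 412) (nat_lit 385) (nat_lit 343)) (XT.nd (nat_lit 78) (nat_lit 76) (nat_lit 0) (XT.lf (nat_lit 0) (nat_lit 226949081) (nat_lit 1368) (nat_lit 6588259638) (nat_lit 1444) (nat_lit 436581739) (nat_lit 623) (nat_lit 5) (nat_lit 641) (nat_lit 5) (nat_lit 642) (nat_lit 5) (nat_lit 413) (nat_lit 385) (nat_lit 342)) (XT.lf (nat_lit 0) (nat_lit 1896502229) (nat_lit 1444) (nat_lit 2580869326) (nat_lit 76) (nat_lit 2819942496) (nat_lit 622) (nat_lit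 5) (nat_lit 641) (nat_lit 5) (nat_lit 623) (nat_lit 5) (nat_lit 414) (nat_lit 385) (nat_lit 341)))) (XT.nd (nat_lit 156) (nat_lit 3192) (nat_lit 0) (XT.nd (nat_lit 78) (nat_lit 0) (nat_lit 0) (XT.lf (nat_lit 0) (nat_lit 1935434141) (nat_lit 1444) (nat_lit 2300718233) (nat_lit 1520) (nat_lit 3108223019) (nat_lit 603) (nat_lit 5) (nat_lit 622) (nat_lit 5) (nat_lit 623) (nat_lit 5) (nat_lit 415) (nat_lit 385) (nat_lit 340)) (XT.lf (nat_lit 0) (nat_lit 6538264563) (nat_lit 1444) (nat_lit 55494946) (nat_lit 1520) (nat_lit 799195173) (nat_lit 603) (nat_lit 5) (nat_lit 622) (nat_lit 5) (nat_lit 623) (nat_lit 5) (nat_lit 416) (nat_lit 385) (nat_lit 339))) (XT.nd (nat_lit 78) (nat_lit 1596) (nat_lit 0) (XT.lf (nat_lit 0) (nat_lit 1529457619) (nat_lit 1596) (nat_lit 3665862636) (nat_lit 76) (nat_lit 2247106213) (nat_lit 582) (nat_lit 5) (nat_lit 603) (nat_lit 5) (nat_lit 583) (nat_lit 5) (nat_lit 417) (nat_lit 385) (nat_lit 338)) (XT.lf (nat_lit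 0) (nat_lit 987189684) (nat_lit 1596) (nat_lit 2874489688) (nat_lit 1672) (nat_lit 3631748722) (nat_lit 561) (nat_lit 5) (nat_lit 582) (nat_lit 5) (nat_lit 583) (nat_lit 5) (nat_lit 418) (nat_lit 385) (nat_lit 337)))))) (XT.nd (nat_lit 468) (nat_lit 4864) (nat_lit 0) (XT.nd (nat_lit 234) (nat_lit 1900) (nat_lit 0) (XT.nd (nat_lit 78) (nat_lit 3496) (nat_lit 0) (XT.lf (nat_lit 0) (nat_lit 5743938699) (nat_lit 1596) (nat_lit 476969537) (nat_lit 1672) (nat_lit 1324934262) (nat_lit 561) (nat_lit 5) (nat_lit 582) (nat_lit 5) (nat_lit 583) (nat_lit 5) (nat_lit 419) (nat_lit 385) (nat_lit 336)) (XT.nd (nat_lit 78) (nat_lit 1748) (nat_lit 0) (XT.lf (nat_lit 0) (nat_lit 1003275809) (nat_lit 1748) (nat_lit 4622451871) (nat_lit 76) (nat_lit 1973669180) (nat_lit 538) (nat_lit 5) (nat_lit 561) (nat_lit 5) (nat_lit 539) (nat_lit 5) (nat_lit 420) (nat_lit 385) (nat_lit 335)) (XT.lf (nat_lit 0) (nat_lit 172763596) (nat_lit 1748) (nat_lit 3160991538)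 (nat_lit 1824) (nat_lit 4320623101) (nat_lit 515) (nat_lit 5) (nat_lit 538) (nat_lit 5) (nat_lit 539) (nat_lit 5) (nat_lit 421) (nat_lit 385) (nat_lit 334)))) (XT.nd (nat_lit 78) (nat_lit 1900) (nat_lit 0) (XT.lf (nat_lit 0) (nat_lit 5087297249) (nat_lit 1748) (nat_lit 612131768) (nat_lit 1824) (nat_lit 2011258521) (nat_lit 515) (nat_lit 5) (nat_lit 538) (nat_lit 5) (nat_lit 539) (nat_lit 5) (nat_lit 422) (nat_lit 385) (nat_lit 333)) (XT.nd (nat_lit 78) (nat_lit 0) (nat_lit 0) (XT.lf (nat_lit 0) (nat_lit 326009486) (nat_lit 1900) (nat_lit 5460478969) (nat_lit 76) (nat_lit 1981865234) (nat_lit 490) (nat_lit 5) (nat_lit 515) (nat_lit 5) (nat_lit 491) (nat_lit 5) (nat_lit 423) (nat_lit 385) (nat_lit 332)) (XT.lf (nat_lit 0) (nat_lit 2663600285) (nat_lit 1900) (nat_lit 510602856) (nat_lit 76) (nat_lit 4653093967) (nat_lit 490) (nat_lit 5) (nat_lit 515) (nat_lit 5) (nat_lit 491) (nat_lit 5) (nat_lit 424) (nat_lit 385) (nat_lit 331))))) (XT.nd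 (nat_lit 234) (nat_lit 2736) (nat_lit 0) (XT.nd (nat_lit 78) (nat_lit 988) (nat_lit 0) (XT.lf (nat_lit 0) (nat_lit 4559225122) (nat_lit 1140) (nat_lit 477837175) (nat_lit 1216) (nat_lit 2850574712) (nat_lit 475) (nat_lit 5) (nat_lit 490) (nat_lit 5) (nat_lit 491) (nat_lit 5) (nat_lit 425) (nat_lit 385) (nat_lit 330)) (XT.nd (nat_lit 78) (nat_lit 76) (nat_lit 0) (XT.lf (nat_lit 0) (nat_lit 1757131195) (nat_lit 912) (nat_lit 5690544134) (nat_lit 988) (nat_lit 501714744) (nat_lit 463) (nat_lit 5) (nat_lit 475) (nat_lit 5) (nat_lit 476) (nat_lit 5) (nat_lit 426) (nat_lit 385) (nat_lit 329)) (XT.lf (nat_lit 0) (nat_lit 1855266309) (nat_lit 988) (nat_lit 1077699825) (nat_lit 76) (nat_lit 5079446392) (nat_lit 462) (nat_lit 5) (nat_lit 475) (nat_lit 5) (nat_lit 463) (nat_lit 5) (nat_lit 427) (nat_lit 385) (nat_lit 328)))) (XT.nd (nat_lit 156) (nat_lit 988) (nat_lit 0) (XT.nd (nat_lit 78) (nat_lit 836) (nat_lit 0) (XT.lf (nat_lit 0) (nat_lit 4151391019)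 (nat_lit 912) (nat_lit 89353403) (nat_lit 988) (nat_lit 3836123173) (nat_lit 450) (nat_lit 5) (nat_lit 462) (nat_lit 5) (nat_lit 463) (nat_lit 5) (nat_lit 428) (nat_lit 385) (nat_lit 327)) (XT.lf (nat_lit 0) (nat_lit 1316782261) (nat_lit 836) (nat_lit 5352856348) (nat_lit 912) (nat_lit 1473059025) (nat_lit 439) (nat_lit 5) (nat_lit 450) (nat_lit 5) (nat_lit 451) (nat_lit 5) (nat_lit 429) (nat_lit 385) (nat_lit 326))) (XT.nd (nat_lit 78) (nat_lit 912) (nat_lit 0) (XT.lf (nat_lit 0) (nat_lit 913955248) (nat_lit 912) (nat_lit 1538712373) (nat_lit 76) (nat_lit 5757275320) (nat_lit 438) (nat_lit 5) (nat_lit 450) (nat_lit 5) (nat_lit 439) (nat_lit 5) (nat_lit 430) (nat_lit 385) (nat_lit 325)) (XT.lf (nat_lit 0) (nat_lit 3320164554) (nat_lit 988) (nat_lit 4425897182) (nat_lit 76) (nat_lit 532453100) (nat_lit 426) (nat_lit 5) (nat_lit 439) (nat_lit 5) (nat_lit 427) (nat_lit 5) (nat_lit 431) (nat_lit 385) (nat_lit 324))))))) (XT.nd (nat_lit 1014)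 (nat_lit 5016) (nat_lit 0) (XT.nd (nat_lit 468) (nat_lit 3724) (nat_lit 0) (XT.nd (nat_lit 234) (nat_lit 1596) (nat_lit 0) (XT.nd (nat_lit 78) (nat_lit 912) (nat_lit 0) (XT.lf (nat_lit 0) (nat_lit 981608612) (nat_lit 836) (nat_lit 4788991268) (nat_lit 912) (nat_lit 2577936253) (nat_lit 415) (nat_lit 5) (nat_lit 426) (nat_lit 5) (nat_lit 427) (nat_lit 5) (nat_lit 432) (nat_lit 385) (nat_lit 323)) (XT.nd (nat_lit 78) (nat_lit 912) (nat_lit 0) (XT.lf (nat_lit 0) (nat_lit 6518183079) (nat_lit 836) (nat_lit 1745122716) (nat_lit 912) (nat_lit 156786823) (nat_lit 415) (nat_lit 5) (nat_lit 426) (nat_lit 5) (nat_lit 427) (nat_lit 5) (nat_lit 433) (nat_lit 385) (nat_lit 322)) (XT.lf (nat_lit 0) (nat_lit 2279365610) (nat_lit 912) (nat_lit 4835394636) (nat_lit 76) (nat_lit 1378081412) (nat_lit 403) (nat_lit 5) (nat_lit 415) (nat_lit 5) (nat_lit 404) (nat_lit 5) (nat_lit 434) (nat_lit 385) (nat_lit 321)))) (XT.nd (nat_lit 78) (nat_lit 836) (nat_lit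 0) (XT.lf (nat_lit 0) (nat_lit 744847411) (nat_lit 760) (nat_lit 4011011705) (nat_lit 836) (nat_lit 3811291488) (nat_lit 393) (nat_lit 5) (nat_lit 403) (nat_lit 5) (nat_lit 404) (nat_lit 5) (nat_lit 435) (nat_lit 385) (nat_lit 320)) (XT.nd (nat_lit 78) (nat_lit 836) (nat_lit 0) (XT.lf (nat_lit 0) (nat_lit 6463274763) (nat_lit 760) (nat_lit 815974309) (nat_lit 836) (nat_lit 1363749323) (nat_lit 393) (nat_lit 5) (nat_lit 403) (nat_lit 5) (nat_lit 404) (nat_lit 5) (nat_lit 436) (nat_lit 385) (nat_lit 319)) (XT.lf (nat_lit 0) (nat_lit 1122525450) (nat_lit 836) (nat_lit 5159881577) (nat_lit 76) (nat_lit 2437716268) (nat_lit 382) (nat_lit 5) (nat_lit 393) (nat_lit 5) (nat_lit 383) (nat_lit 5) (nat_lit 437) (nat_lit 385) (nat_lit 318))))) (XT.nd (nat_lit 234) (nat_lit 2204) (nat_lit 0) (XT.nd (nat_lit 78) (nat_lit 760) (nat_lit 0) (XT.lf (nat_lit 0) (nat_lit 600333512) (nat_lit 760) (nat_lit 3029754967) (nat_lit 836) (nat_lit 5168725459) (nat_lit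 372) (nat_lit 5) (nat_lit 382) (nat_lit 5) (nat_lit 383) (nat_lit 5) (nat_lit 438) (nat_lit 385) (nat_lit 317)) (XT.nd (nat_lit 78) (nat_lit 760) (nat_lit 0) (XT.lf (nat_lit 0) (nat_lit 6190694440) (nat_lit 836) (nat_lit 2374237609) (nat_lit 76) (nat_lit 314088511) (nat_lit 372) (nat_lit 5) (nat_lit 383) (nat_lit 5) (nat_lit 373) (nat_lit 5) (nat_lit 439) (nat_lit 385) (nat_lit 316)) (XT.lf (nat_lit 0) (nat_lit 3554365813) (nat_lit 760) (nat_lit 5258119275) (nat_lit 836) (nat_lit 148146776) (nat_lit 362) (nat_lit 5) (nat_lit 372) (nat_lit 5) (nat_lit 373) (nat_lit 5) (nat_lit 440) (nat_lit 385) (nat_lit 315)))) (XT.nd (nat_lit 156) (nat_lit 1444) (nat_lit 0) (XT.nd (nat_lit 78) (nat_lit 0) (nat_lit 0) (XT.lf (nat_lit 0) (nat_lit 542456656) (nat_lit 684) (nat_lit 1854915725) (nat_lit 760) (nat_lit 6646454312) (nat_lit 352) (nat_lit 5) (nat_lit 361) (nat_lit 5) (nat_lit 362) (nat_lit 5) (nat_lit 441) (nat_lit 385) (nat_lit 314)) (XT.lf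 (nat_lit 0) (nat_lit 5006205324) (nat_lit 760) (nat_lit 2495455241) (nat_lit 76) (nat_lit 1626717527) (nat_lit 352) (nat_lit 5) (nat_lit 362) (nat_lit 5) (nat_lit 353) (nat_lit 5) (nat_lit 442) (nat_lit 385) (nat_lit 313))) (XT.nd (nat_lit 78) (nat_lit 760) (nat_lit 0) (XT.lf (nat_lit 0) (nat_lit 3627420077) (nat_lit 684) (nat_lit 4043642103) (nat_lit 760) (nat_lit 1543481395) (nat_lit 343) (nat_lit 5) (nat_lit 352) (nat_lit 5) (nat_lit 353) (nat_lit 5) (nat_lit 443) (nat_lit 385) (nat_lit 312)) (XT.lf (nat_lit 0) (nat_lit 566122037) (nat_lit 684) (nat_lit 495122094) (nat_lit 760) (nat_lit 8241272841) (nat_lit 333) (nat_lit 5) (nat_lit 342) (nat_lit 5) (nat_lit 343) (nat_lit 5) (nat_lit 444) (nat_lit 385) (nat_lit 311)))))) (XT.nd (nat_lit 468) (nat_lit 2432) (nat_lit 0) (XT.nd (nat_lit 234) (nat_lit 1292) (nat_lit 0) (XT.nd (nat_lit 78) (nat_lit 1292) (nat_lit 0) (XT.lf (nat_lit 0) (nat_lit 3723953798) (nat_lit 760) (nat_lit 2543035690)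 (nat_lit 76) (nat_lit 3124525162) (nat_lit 333) (nat_lit 5) (nat_lit 343) (nat_lit 5) (nat_lit 334) (nat_lit 5) (nat_lit 445) (nat_lit 385) (nat_lit 310)) (XT.nd (nat_lit 78) (nat_lit 608) (nat_lit 0) (XT.lf (nat_lit 0) (nat_lit 3782333830) (nat_lit 684) (nat_lit 2654548848) (nat_lit 760) (nat_lit 3045470304) (nat_lit 324) (nat_lit 5) (nat_lit 333) (nat_lit 5) (nat_lit 334) (nat_lit 5) (nat_lit 446) (nat_lit 385) (nat_lit 309)) (XT.lf (nat_lit 0) (nat_lit 657340447) (nat_lit 608) (nat_lit 8544303562) (nat_lit 684) (nat_lit 373412595) (nat_lit 316) (nat_lit 5) (nat_lit 324) (nat_lit 5) (nat_lit 325) (nat_lit 5) (nat_lit 447) (nat_lit 385) (nat_lit 308)))) (XT.nd (nat_lit 78) (nat_lit 1216) (nat_lit 0) (XT.lf (nat_lit 0) (nat_lit 2346911844) (nat_lit 684) (nat_lit 2521486879) (nat_lit 76) (nat_lit 4800396675) (nat_lit 315) (nat_lit 5) (nat_lit 324) (nat_lit 5) (nat_lit 316) (nat_lit 5) (nat_lit 448) (nat_lit 385) (nat_lit 307)) (XT.nd (nat_lit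 78) (nat_lit 608) (nat_lit 0) (XT.lf (nat_lit 0) (nat_lit 4014963101) (nat_lit 608) (nat_lit 1097938799) (nat_lit 684) (nat_lit 4651532523) (nat_lit 307) (nat_lit 5) (nat_lit 315) (nat_lit 5) (nat_lit 316) (nat_lit 5) (nat_lit 449) (nat_lit 385) (nat_lit 306)) (XT.lf (nat_lit 0) (nat_lit 809157384) (nat_lit 608) (nat_lit 7135655735) (nat_lit 684) (nat_lit 1916961081) (nat_lit 299) (nat_lit 5) (nat_lit 307) (nat_lit 5) (nat_lit 308) (nat_lit 5) (nat_lit 450) (nat_lit 385) (nat_lit 305))))) (XT.nd (nat_lit 234) (nat_lit 1216) (nat_lit 0) (XT.nd (nat_lit 78) (nat_lit 1140) (nat_lit 0) (XT.lf (nat_lit 0) (nat_lit 877583213) (nat_lit 684) (nat_lit 2434899543) (nat_lit 76) (nat_lit 6648130308) (nat_lit 298) (nat_lit 5) (nat_lit 307) (nat_lit 5) (nat_lit 299) (nat_lit 5) (nat_lit 451) (nat_lit 385) (nat_lit 304)) (XT.nd (nat_lit 78) (nat_lit 532) (nat_lit 0) (XT.lf (nat_lit 0) (nat_lit 3705647599) (nat_lit 684) (nat_lit 5743622891) (nat_lit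 76) (nat_lit 611838848) (nat_lit 290) (nat_lit 5) (nat_lit 299) (nat_lit 5) (nat_lit 291) (nat_lit 5) (nat_lit 452) (nat_lit 385) (nat_lit 303)) (XT.lf (nat_lit 0) (nat_lit 1028249073) (nat_lit 532) (nat_lit 5578539650) (nat_lit 608) (nat_lit 3556496504) (nat_lit 283) (nat_lit 5) (nat_lit 290) (nat_lit 5) (nat_lit 291) (nat_lit 5) (nat_lit 453) (nat_lit 385) (nat_lit 302)))) (XT.nd (nat_lit 156) (nat_lit 532) (nat_lit 0) (XT.nd (nat_lit 78) (nat_lit 684) (nat_lit 0) (XT.lf (nat_lit 0) (nat_lit 7975835136) (nat_lit 532) (nat_lit 1600430723) (nat_lit 608) (nat_lit 691032512) (nat_lit 283) (nat_lit 5) (nat_lit 290) (nat_lit 5) (nat_lit 291) (nat_lit 5) (nat_lit 454) (nat_lit 385) (nat_lit 301)) (XT.lf (nat_lit 0) (nat_lit 2221311485) (nat_lit 684) (nat_lit 5690335159) (nat_lit 76) (nat_lit 2461078528) (nat_lit 274) (nat_lit 5) (nat_lit 283) (nat_lit 5) (nat_lit 275) (nat_lit 5) (nat_lit 455) (nat_lit 385) (nat_lit 300))) (XT.nd (nat_lit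 78) (nat_lit 0) (nat_lit 0) (XT.lf (nat_lit 0) (nat_lit 1311291330) (nat_lit 532) (nat_lit 3878343967) (nat_lit 608) (nat_lit 5290394138) (nat_lit 267) (nat_lit 5) (nat_lit 274) (nat_lit 5) (nat_lit 275) (nat_lit 5) (nat_lit 456) (nat_lit 385) (nat_lit 299)) (XT.lf (nat_lit 0) (nat_lit 8229914838) (nat_lit 608) (nat_lit 2098108197) (nat_lit 76) (nat_lit 261204965) (nat_lit 267) (nat_lit 5) (nat_lit 275) (nat_lit 5) (nat_lit 268) (nat_lit 5) (nat_lit 457) (nat_lit 385) (nat_lit 298))))))))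
noncomputable def xc63 : XT := (XT.nd (nat_lit 53976) (nat_lit 0) (nat_lit 33136) (XT.nd (nat_lit 1014) (nat_lit 2888) (nat_lit 0) (XT.nd (nat_lit 468) (nat_lit 2508) (nat_lit 0) (XT.nd (nat_lit 234) (nat_lit 1064) (nat_lit 0) (XT.nd (nat_lit 78) (nat_lit 532) (nat_lit 0) (XT.lf (nat_lit 0) (nat_lit 654409008) (nat_lit 608) (nat_lit 5585850043) (nat_lit 76) (nat_lit 4459623881) (nat_lit 259) (nat_lit 5) (nat_lit 267) (nat_lit 5) (nat_lit 260) (nat_lit 5) (nat_lit 458) (nat_lit 385) (nat_lit 297)) (XT.nd (nat_lit 78) (nat_lit 0) (nat_lit 0) (XT.lf (nat_lit 0) (nat_lit 1655312979) (nat_lit 532) (nat_lit 2039721341) (nat_lit 608) (nat_lit 7117440345) (nat_lit 252) (nat_lit 5) (nat_lit 259) (nat_lit 5) (nat_lit 260) (nat_lit 5) (nat_lit 459) (nat_lit 385) (nat_lit 296)) (XT.lf (nat_lit 0) (nat_lit 6822267257) (nat_lit 608) (nat_lit 1861659167) (nat_lit 76) (nat_lit 2242875906) (nat_lit 252) (nat_lit 5) (nat_lit 260) (nat_lit 5) (nat_lit 253)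 (nat_lit 5) (nat_lit 460) (nat_lit 385) (nat_lit 295)))) (XT.nd (nat_lit 78) (nat_lit 532) (nat_lit 0) (XT.lf (nat_lit 0) (nat_lit 5603178679) (nat_lit 532) (nat_lit 4432761636) (nat_lit 608) (nat_lit 1006998324) (nat_lit 245) (nat_lit 5) (nat_lit 252) (nat_lit 5) (nat_lit 253) (nat_lit 5) (nat_lit 461) (nat_lit 385) (nat_lit 294)) (XT.nd (nat_lit 78) (nat_lit 0) (nat_lit 0) (XT.lf (nat_lit 0) (nat_lit 2057672471) (nat_lit 456) (nat_lit 66633013) (nat_lit 532) (nat_lit 9036811749) (nat_lit 238) (nat_lit 5) (nat_lit 244) (nat_lit 5) (nat_lit 245) (nat_lit 5) (nat_lit 462) (nat_lit 385) (nat_lit 293)) (XT.lf (nat_lit 0) (nat_lit 5344304259) (nat_lit 532) (nat_lit 1574389111) (nat_lit 76) (nat_lit 4362041852) (nat_lit 238) (nat_lit 5) (nat_lit 245) (nat_lit 5) (nat_lit 239) (nat_lit 5) (nat_lit 463) (nat_lit 385) (nat_lit 292))))) (XT.nd (nat_lit 234) (nat_lit 1444) (nat_lit 0) (XT.nd (nat_lit 78) (nat_lit 532) (nat_lit 0) (XT.lf (nat_lit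 0) (nat_lit 6149320553) (nat_lit 532) (nat_lit 2494565340) (nat_lit 608) (nat_lit 2758556020) (nat_lit 231) (nat_lit 5) (nat_lit 238) (nat_lit 5) (nat_lit 239) (nat_lit 5) (nat_lit 464) (nat_lit 385) (nat_lit 291)) (XT.nd (nat_lit 78) (nat_lit 0) (nat_lit 0) (XT.lf (nat_lit 0) (nat_lit 491655467) (nat_lit 532) (nat_lit 9023675468) (nat_lit 76) (nat_lit 2010886860) (nat_lit 224) (nat_lit 5) (nat_lit 231) (nat_lit 5) (nat_lit 225) (nat_lit 5) (nat_lit 465) (nat_lit 385) (nat_lit 290)) (XT.lf (nat_lit 0) (nat_lit 3797071187) (nat_lit 532) (nat_lit 1238676475) (nat_lit 76) (nat_lit 6615814110) (nat_lit 224) (nat_lit 5) (nat_lit 231) (nat_lit 5) (nat_lit 225) (nat_lit 5) (nat_lit 466) (nat_lit 385) (nat_lit 289)))) (XT.nd (nat_lit 156) (nat_lit 532) (nat_lit 0) (XT.nd (nat_lit 78) (nat_lit 456) (nat_lit 0) (XT.lf (nat_lit 0) (nat_lit 6754911727) (nat_lit 456) (nat_lit 433126721) (nat_lit 532) (nat_lit 4590985315) (nat_lit 218) (nat_lit 5)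 (nat_lit 224) (nat_lit 5) (nat_lit 225) (nat_lit 5) (nat_lit 467) (nat_lit 385) (nat_lit 288)) (XT.lf (nat_lit 0) (nat_lit 2991931716) (nat_lit 456) (nat_lit 7686115858) (nat_lit 532) (nat_lit 1230362970) (nat_lit 212) (nat_lit 5) (nat_lit 218) (nat_lit 5) (nat_lit 219) (nat_lit 5) (nat_lit 468) (nat_lit 385) (nat_lit 287))) (XT.nd (nat_lit 78) (nat_lit 456) (nat_lit 0) (XT.lf (nat_lit 0) (nat_lit 2181303548) (nat_lit 532) (nat_lit 856633032) (nat_lit 76) (nat_lit 9001910091) (nat_lit 211) (nat_lit 5) (nat_lit 218) (nat_lit 5) (nat_lit 212) (nat_lit 5) (nat_lit 469) (nat_lit 385) (nat_lit 286)) (XT.lf (nat_lit 0) (nat_lit 5680584326) (nat_lit 532) (nat_lit 4766318629) (nat_lit 76) (nat_lit 1726128804) (nat_lit 205) (nat_lit 5) (nat_lit 212) (nat_lit 5) (nat_lit 206) (nat_lit 5) (nat_lit 470) (nat_lit 385) (nat_lit 285)))))) (XT.nd (nat_lit 468) (nat_lit 1140) (nat_lit 0) (XT.nd (nat_lit 234) (nat_lit 836) (nat_lit 0) (XT.nd (nat_lit 78)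 (nat_lit 532) (nat_lit 0) (XT.lf (nat_lit 0) (nat_lit 3528878318) (nat_lit 380) (nat_lit 5746270726) (nat_lit 456) (nat_lit 3033225537) (nat_lit 200) (nat_lit 5) (nat_lit 205) (nat_lit 5) (nat_lit 206) (nat_lit 5) (nat_lit 471) (nat_lit 385) (nat_lit 284)) (XT.nd (nat_lit 78) (nat_lit 456) (nat_lit 0) (XT.lf (nat_lit 0) (nat_lit 497442418) (nat_lit 456) (nat_lit 430121235) (nat_lit 76) (nat_lit 11518621186) (nat_lit 199) (nat_lit 5) (nat_lit 205) (nat_lit 5) (nat_lit 200) (nat_lit 5) (nat_lit 472) (nat_lit 385) (nat_lit 283)) (XT.lf (nat_lit 0) (nat_lit 4114299757) (nat_lit 532) (nat_lit 4473963748) (nat_lit 76) (nat_lit 3996962987) (nat_lit 193) (nat_lit 5) (nat_lit 200) (nat_lit 5) (nat_lit 194) (nat_lit 5) (nat_lit 473) (nat_lit 385) (nat_lit 282)))) (XT.nd (nat_lit 78) (nat_lit 456) (nat_lit 0) (XT.lf (nat_lit 0) (nat_lit 4115171775) (nat_lit 380) (nat_lit 3701257850) (nat_lit 456) (nat_lit 4910360644) (nat_lit 188) (nat_lit 5) (nat_lit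 193) (nat_lit 5) (nat_lit 194) (nat_lit 5) (nat_lit 474) (nat_lit 385) (nat_lit 281)) (XT.nd (nat_lit 78) (nat_lit 76) (nat_lit 0) (XT.lf (nat_lit 0) (nat_lit 22823468) (nat_lit 380) (nat_lit 11585793839) (nat_lit 456) (nat_lit 1262247711) (nat_lit 183) (nat_lit 5) (nat_lit 188) (nat_lit 5) (nat_lit 189) (nat_lit 5) (nat_lit 475) (nat_lit 385) (nat_lit 280)) (XT.lf (nat_lit 0) (nat_lit 2486644348) (nat_lit 456) (nat_lit 4146001530) (nat_lit 76) (nat_lit 6383654801) (nat_lit 182) (nat_lit 5) (nat_lit 188) (nat_lit 5) (nat_lit 183) (nat_lit 5) (nat_lit 476) (nat_lit 385) (nat_lit 279))))) (XT.nd (nat_lit 234) (nat_lit 304) (nat_lit 0) (XT.nd (nat_lit 78) (nat_lit 456) (nat_lit 0) (XT.lf (nat_lit 0) (nat_lit 4749536176) (nat_lit 380) (nat_lit 1552754997) (nat_lit 456) (nat_lit 6862013441) (nat_lit 177) (nat_lit 5) (nat_lit 182) (nat_lit 5) (nat_lit 183) (nat_lit 5) (nat_lit 477) (nat_lit 385) (nat_lit 278)) (XT.nd (nat_lit 78) (nat_lit 76)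 (nat_lit 0) (XT.lf (nat_lit 0) (nat_lit 512846722) (nat_lit 380) (nat_lit 9714258352) (nat_lit 456) (nat_lit 3087506471) (nat_lit 172) (nat_lit 5) (nat_lit 177) (nat_lit 5) (nat_lit 178) (nat_lit 5) (nat_lit 478) (nat_lit 385) (nat_lit 277)) (XT.lf (nat_lit 0) (nat_lit 797637599) (nat_lit 456) (nat_lit 3783996307) (nat_lit 76) (nat_lit 8885288755) (nat_lit 171) (nat_lit 5) (nat_lit 177) (nat_lit 5) (nat_lit 172) (nat_lit 5) (nat_lit 479) (nat_lit 385) (nat_lit 276)))) (XT.nd (nat_lit 52104) (nat_lit 0) (nat_lit 46436) (XT.nd (nat_lit 52026) (nat_lit 0) (nat_lit 46968) (XT.lf (nat_lit 0) (nat_lit 4737428067) (nat_lit 380) (nat_lit 8195212910) (nat_lit 76) (nat_lit 688865149) (nat_lit 167) (nat_lit 5) (nat_lit 172) (nat_lit 5) (nat_lit 168) (nat_lit 5) (nat_lit 480) (nat_lit 385) (nat_lit 275)) (XT.lf (nat_lit 0) (nat_lit 1522731172) (nat_lit 532) (nat_lit 866232092) (nat_lit 532) (nat_lit 866232092) (nat_lit 785) (nat_lit 3) (nat_lit 792)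 (nat_lit 3) (nat_lit 792) (nat_lit 5) (nat_lit 386) (nat_lit 386) (nat_lit 368))) (XT.nd (nat_lit 78) (nat_lit 532) (nat_lit 0) (XT.lf (nat_lit 76) (nat_lit 1542967468) (nat_lit 0) (nat_lit 4185494307) (nat_lit 532) (nat_lit 793981951) (nat_lit 786) (nat_lit 5) (nat_lit 785) (nat_lit 3) (nat_lit 792) (nat_lit 5) (nat_lit 387) (nat_lit 386) (nat_lit 367)) (XT.lf (nat_lit 0) (nat_lit 1846761236) (nat_lit 532) (nat_lit 1676474351) (nat_lit 608) (nat_lit 3012417640) (nat_lit 778) (nat_lit 5) (nat_lit 785) (nat_lit 3) (nat_lit 786) (nat_lit 5) (nat_lit 388) (nat_lit 386) (nat_lit 366))))))) (XT.nd (nat_lit 1014) (nat_lit 9652) (nat_lit 0) (XT.nd (nat_lit 468) (nat_lit 2432) (nat_lit 0) (XT.nd (nat_lit 234) (nat_lit 608) (nat_lit 0) (XT.nd (nat_lit 78) (nat_lit 608) (nat_lit 0) (XT.lf (nat_lit 76) (nat_lit 1673244423) (nat_lit 0) (nat_lit 2798682319) (nat_lit 608) (nat_lit 2078250434) (nat_lit 779) (nat_lit 5) (nat_lit 778) (nat_lit 5) (nat_lit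 786) (nat_lit 5) (nat_lit 389) (nat_lit 386) (nat_lit 365)) (XT.nd (nat_lit 78) (nat_lit 0) (nat_lit 0) (XT.lf (nat_lit 0) (nat_lit 520292649) (nat_lit 608) (nat_lit 1492650260) (nat_lit 684) (nat_lit 4553105665) (nat_lit 770) (nat_lit 5) (nat_lit 778) (nat_lit 5) (nat_lit 779) (nat_lit 5) (nat_lit 390) (nat_lit 386) (nat_lit 364)) (XT.lf (nat_lit 76) (nat_lit 1934955312) (nat_lit 0) (nat_lit 1153976606) (nat_lit 684) (nat_lit 3494111676) (nat_lit 771) (nat_lit 5) (nat_lit 770) (nat_lit 5) (nat_lit 779) (nat_lit 5) (nat_lit 391) (nat_lit 386) (nat_lit 363)))) (XT.nd (nat_lit 78) (nat_lit 608) (nat_lit 0) (XT.lf (nat_lit 76) (nat_lit 5415606343) (nat_lit 0) (nat_lit 237792709) (nat_lit 684) (nat_lit 948090360) (nat_lit 771) (nat_lit 5) (nat_lit 770) (nat_lit 5) (nat_lit 779) (nat_lit 5) (nat_lit 392) (nat_lit 386) (nat_lit 362)) (XT.nd (nat_lit 78) (nat_lit 0) (nat_lit 0) (XT.lf (nat_lit 0) (nat_lit 1582531209) (nat_lit 684) (nat_lit 4296449359)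 (nat_lit 760) (nat_lit 742003374) (nat_lit 762) (nat_lit 5) (nat_lit 771) (nat_lit 5) (nat_lit 772) (nat_lit 5) (nat_lit 393) (nat_lit 386) (nat_lit 361)) (XT.lf (nat_lit 0) (nat_lit 4097184910) (nat_lit 684) (nat_lit 764497794) (nat_lit 760) (nat_lit 1780138028) (nat_lit 762) (nat_lit 5) (nat_lit 771) (nat_lit 5) (nat_lit 772) (nat_lit 5) (nat_lit 394) (nat_lit 386) (nat_lit 360))))) (XT.nd (nat_lit 234) (nat_lit 1672) (nat_lit 0) (XT.nd (nat_lit 78) (nat_lit 760) (nat_lit 0) (XT.lf (nat_lit 76) (nat_lit 2838935855) (nat_lit 0) (nat_lit 3779390217) (nat_lit 760) (nat_lit 45624298) (nat_lit 763) (nat_lit 5) (nat_lit 762) (nat_lit 5) (nat_lit 772) (nat_lit 5) (nat_lit 395) (nat_lit 386) (nat_lit 359)) (XT.nd (nat_lit 78) (nat_lit 0) (nat_lit 0) (XT.lf (nat_lit 0) (nat_lit 2414041625) (nat_lit 760) (nat_lit 214876440) (nat_lit 836) (nat_lit 4058409339) (nat_lit 752) (nat_lit 5) (nat_lit 762) (nat_lit 5) (nat_lit 763) (nat_lit 5) (nat_lit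 396) (nat_lit 386) (nat_lit 358)) (XT.lf (nat_lit 76) (nat_lit 3476512139) (nat_lit 0) (nat_lit 1407901316) (nat_lit 836) (nat_lit 1827510024) (nat_lit 753) (nat_lit 5) (nat_lit 752) (nat_lit 5) (nat_lit 763) (nat_lit 5) (nat_lit 397) (nat_lit 386) (nat_lit 357)))) (XT.nd (nat_lit 156) (nat_lit 836) (nat_lit 0) (XT.nd (nat_lit 78) (nat_lit 0) (nat_lit 76) (XT.lf (nat_lit 76) (nat_lit 472714302) (nat_lit 0) (nat_lit 130345974) (nat_lit 912) (nat_lit 6134971978) (nat_lit 742) (nat_lit 5) (nat_lit 741) (nat_lit 5) (nat_lit 753) (nat_lit 5) (nat_lit 398) (nat_lit 386) (nat_lit 356)) (XT.lf (nat_lit 0) (nat_lit 3028454870) (nat_lit 836) (nat_lit 2523115530) (nat_lit 912) (nat_lit 1213437543) (nat_lit 742) (nat_lit 5) (nat_lit 753) (nat_lit 5) (nat_lit 754) (nat_lit 5) (nat_lit 399) (nat_lit 386) (nat_lit 355))) (XT.nd (nat_lit 78) (nat_lit 912) (nat_lit 0) (XT.lf (nat_lit 76) (nat_lit 1272616133) (nat_lit 0) (nat_lit 4181211164) (nat_lit 912)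 (nat_lit 1339666450) (nat_lit 743) (nat_lit 5) (nat_lit 742) (nat_lit 5) (nat_lit 754) (nat_lit 5) (nat_lit 400) (nat_lit 386) (nat_lit 354)) (XT.lf (nat_lit 0) (nat_lit 1050566194) (nat_lit 912) (nat_lit 1688691456) (nat_lit 988) (nat_lit 4083950055) (nat_lit 730) (nat_lit 5) (nat_lit 742) (nat_lit 5) (nat_lit 743) (nat_lit 5) (nat_lit 401) (nat_lit 386) (nat_lit 353)))))) (XT.nd (nat_lit 546) (nat_lit 6612) (nat_lit 0) (XT.nd (nat_lit 234) (nat_lit 2128) (nat_lit 0) (XT.nd (nat_lit 78) (nat_lit 912) (nat_lit 0) (XT.lf (nat_lit 76) (nat_lit 2203243577) (nat_lit 0) (nat_lit 1225722949) (nat_lit 988) (nat_lit 3425206290) (nat_lit 731) (nat_lit 5) (nat_lit 730) (nat_lit 5) (nat_lit 743) (nat_lit 5) (nat_lit 402) (nat_lit 386) (nat_lit 352)) (XT.nd (nat_lit 78) (nat_lit 988) (nat_lit 0) (XT.lf (nat_lit 0) (nat_lit 5813366935) (nat_lit 912) (nat_lit 729662017) (nat_lit 76) (nat_lit 343559636) (nat_lit 731) (nat_lit 5) (nat_lit 743) (nat_lit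 5) (nat_lit 732) (nat_lit 5) (nat_lit 403) (nat_lit 386) (nat_lit 351)) (XT.lf (nat_lit 0) (nat_lit 1283623342) (nat_lit 988) (nat_lit 3660977652) (nat_lit 76) (nat_lit 1975375345) (nat_lit 718) (nat_lit 5) (nat_lit 731) (nat_lit 5) (nat_lit 719) (nat_lit 5) (nat_lit 404) (nat_lit 386) (nat_lit 350)))) (XT.nd (nat_lit 156) (nat_lit 1140) (nat_lit 0) (XT.nd (nat_lit 78) (nat_lit 0) (nat_lit 0) (XT.lf (nat_lit 0) (nat_lit 343127277) (nat_lit 988) (nat_lit 3283783107) (nat_lit 1064) (nat_lit 3327906070) (nat_lit 705) (nat_lit 5) (nat_lit 718) (nat_lit 5) (nat_lit 719) (nat_lit 5) (nat_lit 405) (nat_lit 386) (nat_lit 349)) (XT.lf (nat_lit 0) (nat_lit 4439564844) (nat_lit 988) (nat_lit 1549377155) (nat_lit 1064) (nat_lit 1001973795) (nat_lit 705) (nat_lit 5) (nat_lit 718) (nat_lit 5) (nat_lit 719) (nat_lit 5) (nat_lit 406) (nat_lit 386) (nat_lit 348))) (XT.nd (nat_lit 78) (nat_lit 0) (nat_lit 0) (XT.lf (nat_lit 0) (nat_lit 1312311436) (nat_lit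 1140) (nat_lit 5465562611) (nat_lit 76) (nat_lit 250488946) (nat_lit 690) (nat_lit 5) (nat_lit 705) (nat_lit 5) (nat_lit 691) (nat_lit 5) (nat_lit 407) (nat_lit 386) (nat_lit 347)) (XT.lf (nat_lit 0) (nat_lit 3635846817) (nat_lit 1140) (nat_lit 1327611143) (nat_lit 76) (nat_lit 2103441097) (nat_lit 690) (nat_lit 5) (nat_lit 705) (nat_lit 5) (nat_lit 691) (nat_lit 5) (nat_lit 408) (nat_lit 386) (nat_lit 346))))) (XT.nd (nat_lit 234) (nat_lit 4180) (nat_lit 0) (XT.nd (nat_lit 78) (nat_lit 1292) (nat_lit 0) (XT.lf (nat_lit 0) (nat_lit 2893594805) (nat_lit 1140) (nat_lit 3080920988) (nat_lit 1216) (nat_lit 1132316792) (nat_lit 675) (nat_lit 5) (nat_lit 690) (nat_lit 5) (nat_lit 691) (nat_lit 5) (nat_lit 409) (nat_lit 386) (nat_lit 345)) (XT.nd (nat_lit 78) (nat_lit 0) (nat_lit 0) (XT.lf (nat_lit 0) (nat_lit 24354364) (nat_lit 1216) (nat_lit 1131554297) (nat_lit 1292) (nat_lit 5992310369) (nat_lit 658) (nat_lit 5) (nat_lit 674) (nat_lit 5)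 (nat_lit 675) (nat_lit 5) (nat_lit 410) (nat_lit 386) (nat_lit 344)) (XT.lf (nat_lit 0) (nat_lit 3459868440) (nat_lit 1292) (nat_lit 2837979764) (nat_lit 76) (nat_lit 892732676) (nat_lit 658) (nat_lit 5) (nat_lit 675) (nat_lit 5) (nat_lit 659) (nat_lit 5) (nat_lit 411) (nat_lit 386) (nat_lit 343)))) (XT.nd (nat_lit 156) (nat_lit 2812) (nat_lit 0) (XT.nd (nat_lit 78) (nat_lit 76) (nat_lit 0) (XT.lf (nat_lit 0) (nat_lit 1507991994) (nat_lit 1292) (nat_lit 4271253150) (nat_lit 1368) (nat_lit 1455158068) (nat_lit 641) (nat_lit 5) (nat_lit 658) (nat_lit 5) (nat_lit 659) (nat_lit 5) (nat_lit 412) (nat_lit 386) (nat_lit 342)) (XT.lf (nat_lit 0) (nat_lit 826157092) (nat_lit 1368) (nat_lit 1343413876) (nat_lit 76) (nat_lit 5109986459) (nat_lit 640) (nat_lit 5) (nat_lit 658) (nat_lit 5) (nat_lit 641) (nat_lit 5) (nat_lit 413) (nat_lit 386) (nat_lit 341))) (XT.nd (nat_lit 78) (nat_lit 1444) (nat_lit 0) (XT.lf (nat_lit 0) (nat_lit 3107353296) (nat_lit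 1444) (nat_lit 4205045925) (nat_lit 76) (nat_lit 13548345) (nat_lit 622) (nat_lit 5) (nat_lit 641) (nat_lit 5) (nat_lit 623) (nat_lit 5) (nat_lit 414) (nat_lit 386) (nat_lit 340)) (XT.lf (nat_lit 0) (nat_lit 270473348) (nat_lit 1444) (nat_lit 5142995709) (nat_lit 1520) (nat_lit 1960210539) (nat_lit 603) (nat_lit 5) (nat_lit 622) (nat_lit 5) (nat_lit 623) (nat_lit 5) (nat_lit 415) (nat_lit 386) (nat_lit 339))))))))
noncomputable def xc64 : XT := (XT.nd (nat_lit 2028) (nat_lit 10868) (nat_lit 0) (XT.nd (nat_lit 1014) (nat_lit 6764) (nat_lit 0) (XT.nd (nat_lit 468) (nat_lit 6688) (nat_lit 0) (XT.nd (nat_lit 234) (nat_lit 3344) (nat_lit 0) (XT.nd (nat_lit 78) (nat_lit 1520) (nat_lit 0) (XT.lf (nat_lit 0) (nat_lit 321693162) (nat_lit 1520) (nat_lit 2570342813) (nat_lit 76) (nat_lit 4530628601) (nat_lit 602) (nat_lit 5) (nat_lit 622) (nat_lit 5) (nat_lit 603) (nat_lit 5) (nat_lit 416) (nat_lit 386) (nat_lit 338)) (XT.nd (nat_lit 78) (nat_lit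 0) (nat_lit 0) (XT.lf (nat_lit 0) (nat_lit 2028935284) (nat_lit 1520) (nat_lit 562593622) (nat_lit 1596) (nat_lit 4881470388) (nat_lit 582) (nat_lit 5) (nat_lit 602) (nat_lit 5) (nat_lit 603) (nat_lit 5) (nat_lit 417) (nat_lit 386) (nat_lit 337)) (XT.lf (nat_lit 0) (nat_lit 4891914371) (nat_lit 1596) (nat_lit 819387247) (nat_lit 76) (nat_lit 1813336027) (nat_lit 582) (nat_lit 5) (nat_lit 603) (nat_lit 5) (nat_lit 583) (nat_lit 5) (nat_lit 418) (nat_lit 386) (nat_lit 336)))) (XT.nd (nat_lit 78) (nat_lit 1748) (nat_lit 0) (XT.lf (nat_lit 0) (nat_lit 3907516957) (nat_lit 1596) (nat_lit 3316765376) (nat_lit 1672) (nat_lit 353306935) (nat_lit 561) (nat_lit 5) (nat_lit 582) (nat_lit 5) (nat_lit 583) (nat_lit 5) (nat_lit 419) (nat_lit 386) (nat_lit 335)) (XT.nd (nat_lit 78) (nat_lit 0) (nat_lit 0) (XT.lf (nat_lit 0) (nat_lit 1071685373) (nat_lit 1672) (nat_lit 843845220) (nat_lit 1748) (nat_lit 5716419458) (nat_lit 538) (nat_lit 5) (nat_lit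 560) (nat_lit 5) (nat_lit 561) (nat_lit 5) (nat_lit 420) (nat_lit 386) (nat_lit 334)) (XT.lf (nat_lit 0) (nat_lit 4218528573) (nat_lit 1748) (nat_lit 1781009488) (nat_lit 76) (nat_lit 1687942992) (nat_lit 538) (nat_lit 5) (nat_lit 561) (nat_lit 5) (nat_lit 539) (nat_lit 5) (nat_lit 421) (nat_lit 386) (nat_lit 333))))) (XT.nd (nat_lit 234) (nat_lit 3040) (nat_lit 0) (XT.nd (nat_lit 78) (nat_lit 1900) (nat_lit 0) (XT.lf (nat_lit 0) (nat_lit 3090808371) (nat_lit 1748) (nat_lit 3461081831) (nat_lit 1824) (nat_lit 1192546399) (nat_lit 515) (nat_lit 5) (nat_lit 538) (nat_lit 5) (nat_lit 539) (nat_lit 5) (nat_lit 422) (nat_lit 386) (nat_lit 332)) (XT.nd (nat_lit 78) (nat_lit 0) (nat_lit 0) (XT.lf (nat_lit 0) (nat_lit 239373577) (nat_lit 1824) (nat_lit 847730480) (nat_lit 1900) (nat_lit 6715829980) (nat_lit 490) (nat_lit 5) (nat_lit 514) (nat_lit 5) (nat_lit 515) (nat_lit 5) (nat_lit 423) (nat_lit 386) (nat_lit 331)) (XT.lf (nat_lit 0) (nat_lit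 3399150177) (nat_lit 1900) (nat_lit 2627408395) (nat_lit 76) (nat_lit 1835829779) (nat_lit 490) (nat_lit 5) (nat_lit 515) (nat_lit 5) (nat_lit 491) (nat_lit 5) (nat_lit 424) (nat_lit 386) (nat_lit 330)))) (XT.nd (nat_lit 156) (nat_lit 1824) (nat_lit 0) (XT.nd (nat_lit 78) (nat_lit 76) (nat_lit 0) (XT.lf (nat_lit 0) (nat_lit 2395186776) (nat_lit 1140) (nat_lit 3343727344) (nat_lit 1216) (nat_lit 2184488094) (nat_lit 475) (nat_lit 5) (nat_lit 490) (nat_lit 5) (nat_lit 491) (nat_lit 5) (nat_lit 425) (nat_lit 386) (nat_lit 329)) (XT.lf (nat_lit 0) (nat_lit 116335992) (nat_lit 1216) (nat_lit 470811757) (nat_lit 76) (nat_lit 7398903786) (nat_lit 474) (nat_lit 5) (nat_lit 490) (nat_lit 5) (nat_lit 475) (nat_lit 5) (nat_lit 426) (nat_lit 386) (nat_lit 328))) (XT.nd (nat_lit 78) (nat_lit 912) (nat_lit 0) (XT.lf (nat_lit 0) (nat_lit 2440557120) (nat_lit 988) (nat_lit 3367296847) (nat_lit 76) (nat_lit 2241678470) (nat_lit 462) (nat_lit 5) (nat_lit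 475) (nat_lit 5) (nat_lit 463) (nat_lit 5) (nat_lit 427) (nat_lit 386) (nat_lit 327)) (XT.lf (nat_lit 0) (nat_lit 1812244079) (nat_lit 912) (nat_lit 2979731571) (nat_lit 988) (nat_lit 3322693047) (nat_lit 450) (nat_lit 5) (nat_lit 462) (nat_lit 5) (nat_lit 463) (nat_lit 5) (nat_lit 428) (nat_lit 386) (nat_lit 326)))))) (XT.nd (nat_lit 468) (nat_lit 3192) (nat_lit 0) (XT.nd (nat_lit 234) (nat_lit 1748) (nat_lit 0) (XT.nd (nat_lit 78) (nat_lit 1824) (nat_lit 0) (XT.lf (nat_lit 0) (nat_lit 7103150610) (nat_lit 912) (nat_lit 72247865) (nat_lit 988) (nat_lit 1006009688) (nat_lit 450) (nat_lit 5) (nat_lit 462) (nat_lit 5) (nat_lit 463) (nat_lit 5) (nat_lit 429) (nat_lit 386) (nat_lit 325)) (XT.nd (nat_lit 78) (nat_lit 912) (nat_lit 0) (XT.lf (nat_lit 0) (nat_lit 1348764656) (nat_lit 912) (nat_lit 4008689645) (nat_lit 76) (nat_lit 2891660812) (nat_lit 438) (nat_lit 5) (nat_lit 450) (nat_lit 5) (nat_lit 439) (nat_lit 5) (nat_lit 430) (nat_lit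 386) (nat_lit 324)) (XT.lf (nat_lit 0) (nat_lit 1334276059) (nat_lit 912) (nat_lit 2382679181) (nat_lit 988) (nat_lit 4601492142) (nat_lit 426) (nat_lit 5) (nat_lit 438) (nat_lit 5) (nat_lit 439) (nat_lit 5) (nat_lit 431) (nat_lit 386) (nat_lit 323)))) (XT.nd (nat_lit 78) (nat_lit 1748) (nat_lit 0) (XT.lf (nat_lit 0) (nat_lit 6127634255) (nat_lit 988) (nat_lit 1593160242) (nat_lit 76) (nat_lit 668469309) (nat_lit 426) (nat_lit 5) (nat_lit 439) (nat_lit 5) (nat_lit 427) (nat_lit 5) (nat_lit 432) (nat_lit 386) (nat_lit 322)) (XT.nd (nat_lit 78) (nat_lit 836) (nat_lit 0) (XT.lf (nat_lit 0) (nat_lit 129074875) (nat_lit 912) (nat_lit 4558955908) (nat_lit 76) (nat_lit 3773335850) (nat_lit 414) (nat_lit 5) (nat_lit 426) (nat_lit 5) (nat_lit 415) (nat_lit 5) (nat_lit 433) (nat_lit 386) (nat_lit 321)) (XT.lf (nat_lit 0) (nat_lit 954230734) (nat_lit 836) (nat_lit 1564809769) (nat_lit 912) (nat_lit 6015937422) (nat_lit 403) (nat_lit 5) (nat_lit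 414) (nat_lit 5) (nat_lit 415) (nat_lit 5) (nat_lit 434) (nat_lit 386) (nat_lit 320))))) (XT.nd (nat_lit 234) (nat_lit 1596) (nat_lit 0) (XT.nd (nat_lit 78) (nat_lit 1596) (nat_lit 0) (XT.lf (nat_lit 0) (nat_lit 4963296361) (nat_lit 912) (nat_lit 2019150582) (nat_lit 76) (nat_lit 1627484679) (nat_lit 403) (nat_lit 5) (nat_lit 415) (nat_lit 5) (nat_lit 404) (nat_lit 5) (nat_lit 435) (nat_lit 386) (nat_lit 319)) (XT.nd (nat_lit 78) (nat_lit 836) (nat_lit 0) (XT.lf (nat_lit 0) (nat_lit 3653532148) (nat_lit 760) (nat_lit 3802843754) (nat_lit 836) (nat_lit 1230009721) (nat_lit 393) (nat_lit 5) (nat_lit 403) (nat_lit 5) (nat_lit 404) (nat_lit 5) (nat_lit 436) (nat_lit 386) (nat_lit 318)) (XT.lf (nat_lit 0) (nat_lit 665660743) (nat_lit 760) (nat_lit 537109710) (nat_lit 836) (nat_lit 7561757514) (nat_lit 382) (nat_lit 5) (nat_lit 392) (nat_lit 5) (nat_lit 393) (nat_lit 5) (nat_lit 437) (nat_lit 386) (nat_lit 317)))) (XT.nd (nat_lit 156) (nat_lit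 836) (nat_lit 0) (XT.nd (nat_lit 78) (nat_lit 760) (nat_lit 0) (XT.lf (nat_lit 0) (nat_lit 3686340393) (nat_lit 836) (nat_lit 2361997186) (nat_lit 76) (nat_lit 2795360893) (nat_lit 382) (nat_lit 5) (nat_lit 393) (nat_lit 5) (nat_lit 383) (nat_lit 5) (nat_lit 438) (nat_lit 386) (nat_lit 316)) (XT.lf (nat_lit 0) (nat_lit 3494336139) (nat_lit 760) (nat_lit 2718599698) (nat_lit 836) (nat_lit 2711649468) (nat_lit 372) (nat_lit 5) (nat_lit 382) (nat_lit 5) (nat_lit 383) (nat_lit 5) (nat_lit 439) (nat_lit 386) (nat_lit 315))) (XT.nd (nat_lit 78) (nat_lit 76) (nat_lit 0) (XT.lf (nat_lit 0) (nat_lit 456606525) (nat_lit 760) (nat_lit 8324257806) (nat_lit 836) (nat_lit 226409520) (nat_lit 362) (nat_lit 5) (nat_lit 372) (nat_lit 5) (nat_lit 373) (nat_lit 5) (nat_lit 440) (nat_lit 386) (nat_lit 314)) (XT.lf (nat_lit 0) (nat_lit 2300604846) (nat_lit 836) (nat_lit 2627411175) (nat_lit 76) (nat_lit 4162853446) (nat_lit 361) (nat_lit 5) (nat_lit 372)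 (nat_lit 5) (nat_lit 362) (nat_lit 5) (nat_lit 441) (nat_lit 386) (nat_lit 313))))))) (XT.nd (nat_lit 1014) (nat_lit 4940) (nat_lit 0) (XT.nd (nat_lit 468) (nat_lit 3116) (nat_lit 0) (XT.nd (nat_lit 234) (nat_lit 1368) (nat_lit 0) (XT.nd (nat_lit 78) (nat_lit 760) (nat_lit 0) (XT.lf (nat_lit 0) (nat_lit 3420318046) (nat_lit 684) (nat_lit 1445315081) (nat_lit 760) (nat_lit 4310663835) (nat_lit 352) (nat_lit 5) (nat_lit 361) (nat_lit 5) (nat_lit 362) (nat_lit 5) (nat_lit 442) (nat_lit 386) (nat_lit 312)) (XT.nd (nat_lit 78) (nat_lit 76) (nat_lit 0) (XT.lf (nat_lit 0) (nat_lit 314166052) (nat_lit 684) (nat_lit 7169902725) (nat_lit 760) (nat_lit 1779322091) (nat_lit 343) (nat_lit 5) (nat_lit 352) (nat_lit 5) (nat_lit 353) (nat_lit 5) (nat_lit 443) (nat_lit 386) (nat_lit 311)) (XT.lf (nat_lit 0) (nat_lit 809377934) (nat_lit 760) (nat_lit 2820615672) (nat_lit 76) (nat_lit 5721783655) (nat_lit 342) (nat_lit 5) (nat_lit 352) (nat_lit 5) (nat_lit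 343) (nat_lit 5) (nat_lit 444) (nat_lit 386) (nat_lit 310)))) (XT.nd (nat_lit 78) (nat_lit 684) (nat_lit 0) (XT.lf (nat_lit 0) (nat_lit 3417771513) (nat_lit 760) (nat_lit 6015315705) (nat_lit 76) (nat_lit 8774043) (nat_lit 333) (nat_lit 5) (nat_lit 343) (nat_lit 5) (nat_lit 334) (nat_lit 5) (nat_lit 445) (nat_lit 386) (nat_lit 309)) (XT.nd (nat_lit 78) (nat_lit 0) (nat_lit 0) (XT.lf (nat_lit 0) (nat_lit 245130461) (nat_lit 684) (nat_lit 5847620877) (nat_lit 760) (nat_lit 3440707237) (nat_lit 324) (nat_lit 5) (nat_lit 333) (nat_lit 5) (nat_lit 334) (nat_lit 5) (nat_lit 446) (nat_lit 386) (nat_lit 308)) (XT.lf (nat_lit 0) (nat_lit 6675135785) (nat_lit 684) (nat_lit 2156546872) (nat_lit 760) (nat_lit 794996138) (nat_lit 324) (nat_lit 5) (nat_lit 333) (nat_lit 5) (nat_lit 334) (nat_lit 5) (nat_lit 447) (nat_lit 386) (nat_lit 307))))) (XT.nd (nat_lit 234) (nat_lit 1824) (nat_lit 0) (XT.nd (nat_lit 78) (nat_lit 608) (nat_lit 0) (XT.lf (nat_lit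 0) (nat_lit 1882549983) (nat_lit 684) (nat_lit 6223494209) (nat_lit 76) (nat_lit 1615394293) (nat_lit 315) (nat_lit 5) (nat_lit 324) (nat_lit 5) (nat_lit 316) (nat_lit 5) (nat_lit 448) (nat_lit 386) (nat_lit 306)) (XT.nd (nat_lit 78) (nat_lit 0) (nat_lit 0) (XT.lf (nat_lit 0) (nat_lit 245125046) (nat_lit 608) (nat_lit 4364469010) (nat_lit 684) (nat_lit 5208262372) (nat_lit 307) (nat_lit 5) (nat_lit 315) (nat_lit 5) (nat_lit 316) (nat_lit 5) (nat_lit 449) (nat_lit 386) (nat_lit 305)) (XT.lf (nat_lit 0) (nat_lit 6890577149) (nat_lit 608) (nat_lit 513469533) (nat_lit 684) (nat_lit 2511898694) (nat_lit 307) (nat_lit 5) (nat_lit 315) (nat_lit 5) (nat_lit 316) (nat_lit 5) (nat_lit 450) (nat_lit 386) (nat_lit 304)))) (XT.nd (nat_lit 156) (nat_lit 532) (nat_lit 0) (XT.nd (nat_lit 78) (nat_lit 608) (nat_lit 0) (XT.lf (nat_lit 0) (nat_lit 252816315) (nat_lit 684) (nat_lit 6375467284) (nat_lit 76) (nat_lit 3387330536) (nat_lit 298) (nat_lit 5) (nat_lit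 307) (nat_lit 5) (nat_lit 299) (nat_lit 5) (nat_lit 451) (nat_lit 386) (nat_lit 303)) (XT.lf (nat_lit 0) (nat_lit 310183083) (nat_lit 608) (nat_lit 2726644632) (nat_lit 684) (nat_lit 7080163753) (nat_lit 290) (nat_lit 5) (nat_lit 298) (nat_lit 5) (nat_lit 299) (nat_lit 5) (nat_lit 452) (nat_lit 386) (nat_lit 302))) (XT.nd (nat_lit 78) (nat_lit 532) (nat_lit 0) (XT.lf (nat_lit 0) (nat_lit 5899735347) (nat_lit 684) (nat_lit 3049078707) (nat_lit 76) (nat_lit 1271117975) (nat_lit 290) (nat_lit 5) (nat_lit 299) (nat_lit 5) (nat_lit 291) (nat_lit 5) (nat_lit 453) (nat_lit 386) (nat_lit 301)) (XT.lf (nat_lit 0) (nat_lit 3839747691) (nat_lit 532) (nat_lit 4995704061) (nat_lit 608) (nat_lit 1489168635) (nat_lit 283) (nat_lit 5) (nat_lit 290) (nat_lit 5) (nat_lit 291) (nat_lit 5) (nat_lit 454) (nat_lit 386) (nat_lit 300)))))) (XT.nd (nat_lit 468) (nat_lit 2584) (nat_lit 0) (XT.nd (nat_lit 234) (nat_lit 1140) (nat_lit 0) (XT.nd (nat_lit 78) (nat_lit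 532) (nat_lit 0) (XT.lf (nat_lit 0) (nat_lit 436717278) (nat_lit 608) (nat_lit 939540215) (nat_lit 684) (nat_lit 9055041046) (nat_lit 274) (nat_lit 5) (nat_lit 282) (nat_lit 5) (nat_lit 283) (nat_lit 5) (nat_lit 455) (nat_lit 386) (nat_lit 299)) (XT.nd (nat_lit 78) (nat_lit 532) (nat_lit 0) (XT.lf (nat_lit 0) (nat_lit 4316565067) (nat_lit 684) (nat_lit 3022232512) (nat_lit 76) (nat_lit 3200365549) (nat_lit 274) (nat_lit 5) (nat_lit 283) (nat_lit 5) (nat_lit 275) (nat_lit 5) (nat_lit 456) (nat_lit 386) (nat_lit 298)) (XT.lf (nat_lit 0) (nat_lit 4101124471) (nat_lit 532) (nat_lit 3220861755) (nat_lit 608) (nat_lit 3327072633) (nat_lit 267) (nat_lit 5) (nat_lit 274) (nat_lit 5) (nat_lit 275) (nat_lit 5) (nat_lit 457) (nat_lit 386) (nat_lit 297)))) (XT.nd (nat_lit 78) (nat_lit 608) (nat_lit 0) (XT.lf (nat_lit 0) (nat_lit 612478136) (nat_lit 532) (nat_lit 9779473033) (nat_lit 608) (nat_lit 369112630) (nat_lit 260) (nat_lit 5) (nat_lit 267)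 (nat_lit 5) (nat_lit 268) (nat_lit 5) (nat_lit 458) (nat_lit 386) (nat_lit 296)) (XT.nd (nat_lit 78) (nat_lit 532) (nat_lit 0) (XT.lf (nat_lit 0) (nat_lit 2652633221) (nat_lit 608) (nat_lit 2944725918) (nat_lit 76) (nat_lit 5276818732) (nat_lit 259) (nat_lit 5) (nat_lit 267) (nat_lit 5) (nat_lit 260) (nat_lit 5) (nat_lit 459) (nat_lit 386) (nat_lit 295)) (XT.lf (nat_lit 0) (nat_lit 4423149568) (nat_lit 532) (nat_lit 1309752918) (nat_lit 608) (nat_lit 5256542323) (nat_lit 252) (nat_lit 5) (nat_lit 259) (nat_lit 5) (nat_lit 260) (nat_lit 5) (nat_lit 460) (nat_lit 386) (nat_lit 294))))) (XT.nd (nat_lit 234) (nat_lit 1520) (nat_lit 0) (XT.nd (nat_lit 78) (nat_lit 532) (nat_lit 0) (XT.lf (nat_lit 0) (nat_lit 826660604) (nat_lit 532) (nat_lit 8067783720) (nat_lit 608) (nat_lit 2212179418) (nat_lit 245) (nat_lit 5) (nat_lit 252) (nat_lit 5) (nat_lit 253) (nat_lit 5) (nat_lit 461) (nat_lit 386) (nat_lit 293)) (XT.nd (nat_lit 78) (nat_lit 456)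 (nat_lit 0) (XT.lf (nat_lit 0) (nat_lit 909005934) (nat_lit 608) (nat_lit 2819483771) (nat_lit 76) (nat_lit 7496987620) (nat_lit 244) (nat_lit 5) (nat_lit 252) (nat_lit 5) (nat_lit 245) (nat_lit 5) (nat_lit 462) (nat_lit 386) (nat_lit 292)) (XT.lf (nat_lit 0) (nat_lit 4074090170) (nat_lit 532) (nat_lit 6547736587) (nat_lit 76) (nat_lit 724366848) (nat_lit 238) (nat_lit 5) (nat_lit 245) (nat_lit 5) (nat_lit 239) (nat_lit 5) (nat_lit 463) (nat_lit 386) (nat_lit 291)))) (XT.nd (nat_lit 156) (nat_lit 988) (nat_lit 0) (XT.nd (nat_lit 78) (nat_lit 0) (nat_lit 0) (XT.lf (nat_lit 0) (nat_lit 1092108851) (nat_lit 532) (nat_lit 6236505379) (nat_lit 608) (nat_lit 4140187220) (nat_lit 231) (nat_lit 5) (nat_lit 238) (nat_lit 5) (nat_lit 239) (nat_lit 5) (nat_lit 464) (nat_lit 386) (nat_lit 290)) (XT.lf (nat_lit 0) (nat_lit 8938313831) (nat_lit 532) (nat_lit 1729419256) (nat_lit 608) (nat_lit 925738276) (nat_lit 231) (nat_lit 5) (nat_lit 238) (nat_lit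 5) (nat_lit 239) (nat_lit 5) (nat_lit 465) (nat_lit 386) (nat_lit 289))) (XT.nd (nat_lit 78) (nat_lit 456) (nat_lit 0) (XT.lf (nat_lit 0) (nat_lit 2350920097) (nat_lit 532) (nat_lit 6499584766) (nat_lit 76) (nat_lit 2869248658) (nat_lit 224) (nat_lit 5) (nat_lit 231) (nat_lit 5) (nat_lit 225) (nat_lit 5) (nat_lit 466) (nat_lit 386) (nat_lit 288)) (XT.lf (nat_lit 0) (nat_lit 1406530434) (nat_lit 456) (nat_lit 4288782462) (nat_lit 532) (nat_lit 6152834106) (nat_lit 218) (nat_lit 5) (nat_lit 224) (nat_lit 5) (nat_lit 225) (nat_lit 5) (nat_lit 467) (nat_lit 386) (nat_lit 287))))))))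
noncomputable def xc65 : XT := (XT.nd (nat_lit 54054) (nat_lit 0) (nat_lit 23104) (XT.nd (nat_lit 53040) (nat_lit 0) (nat_lit 43320) (XT.nd (nat_lit 468) (nat_lit 1672) (nat_lit 0) (XT.nd (nat_lit 234) (nat_lit 912) (nat_lit 0) (XT.nd (nat_lit 78) (nat_lit 988) (nat_lit 0) (XT.lf (nat_lit 0) (nat_lit 9129098677) (nat_lit 532) (nat_lit 2457192040) (nat_lit 76) (nat_lit 392367532) (nat_lit 218) (nat_lit 5) (nat_lit 225) (nat_lit 5) (nat_lit 219) (nat_lit 5) (nat_lit 468) (nat_lit 386) (nat_lit 286)) (XT.nd (nat_lit 78) (nat_lit 456) (nat_lit 0) (XT.lf (nat_lit 0) (nat_lit 555347175) (nat_lit 532) (nat_lit 6415816854) (nat_lit 76) (nat_lit 5139700523) (nat_lit 211) (nat_lit 5) (nat_lit 218) (nat_lit 5) (nat_lit 212) (nat_lit 5) (nat_lit 469) (nat_lit 386) (nat_lit 285)) (XT.lf (nat_lit 0) (nat_lit 1767894533) (nat_lit 456) (nat_lit 2227197983) (nat_lit 532) (nat_lit 8250147831) (nat_lit 205) (nat_lit 5) (nat_lit 211) (nat_lit 5) (nat_lit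 212) (nat_lit 5) (nat_lit 470) (nat_lit 386) (nat_lit 284)))) (XT.nd (nat_lit 78) (nat_lit 912) (nat_lit 0) (XT.lf (nat_lit 0) (nat_lit 7540870291) (nat_lit 532) (nat_lit 2231160754) (nat_lit 76) (nat_lit 2609527863) (nat_lit 205) (nat_lit 5) (nat_lit 212) (nat_lit 5) (nat_lit 206) (nat_lit 5) (nat_lit 471) (nat_lit 386) (nat_lit 283)) (XT.nd (nat_lit 78) (nat_lit 532) (nat_lit 0) (XT.lf (nat_lit 0) (nat_lit 6212634315) (nat_lit 380) (nat_lit 4977409962) (nat_lit 456) (nat_lit 1329909951) (nat_lit 200) (nat_lit 5) (nat_lit 205) (nat_lit 5) (nat_lit 206) (nat_lit 5) (nat_lit 472) (nat_lit 386) (nat_lit 282)) (XT.lf (nat_lit 0) (nat_lit 2174415113) (nat_lit 456) (nat_lit 53804859) (nat_lit 532) (nat_lit 10432471989) (nat_lit 193) (nat_lit 5) (nat_lit 199) (nat_lit 5) (nat_lit 200) (nat_lit 5) (nat_lit 473) (nat_lit 386) (nat_lit 281))))) (XT.nd (nat_lit 234) (nat_lit 836) (nat_lit 0) (XT.nd (nat_lit 78) (nat_lit 836) (nat_lit 0) (XT.lf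 (nat_lit 0) (nat_lit 5892201075) (nat_lit 532) (nat_lit 1967726457) (nat_lit 76) (nat_lit 4943091183) (nat_lit 193) (nat_lit 5) (nat_lit 200) (nat_lit 5) (nat_lit 194) (nat_lit 5) (nat_lit 474) (nat_lit 386) (nat_lit 280)) (XT.nd (nat_lit 78) (nat_lit 456) (nat_lit 0) (XT.lf (nat_lit 0) (nat_lit 6776114694) (nat_lit 380) (nat_lit 2875753725) (nat_lit 456) (nat_lit 3295875451) (nat_lit 188) (nat_lit 5) (nat_lit 193) (nat_lit 5) (nat_lit 194) (nat_lit 5) (nat_lit 475) (nat_lit 386) (nat_lit 279)) (XT.lf (nat_lit 0) (nat_lit 409167501) (nat_lit 456) (nat_lit 10485085706) (nat_lit 76) (nat_lit 2200600807) (nat_lit 182) (nat_lit 5) (nat_lit 188) (nat_lit 5) (nat_lit 183) (nat_lit 5) (nat_lit 476) (nat_lit 386) (nat_lit 278)))) (XT.nd (nat_lit 156) (nat_lit 456) (nat_lit 0) (XT.nd (nat_lit 78) (nat_lit 380) (nat_lit 0) (XT.lf (nat_lit 0) (nat_lit 4183214950) (nat_lit 456) (nat_lit 1668571149) (nat_lit 76) (nat_lit 7391903838) (nat_lit 182)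 (nat_lit 5) (nat_lit 188) (nat_lit 5) (nat_lit 183) (nat_lit 5) (nat_lit 477) (nat_lit 386) (nat_lit 277)) (XT.lf (nat_lit 0) (nat_lit 7388032900) (nat_lit 380) (nat_lit 671365004) (nat_lit 456) (nat_lit 5335571584) (nat_lit 177) (nat_lit 5) (nat_lit 182) (nat_lit 5) (nat_lit 183) (nat_lit 5) (nat_lit 478) (nat_lit 386) (nat_lit 276))) (XT.nd (nat_lit 78) (nat_lit 76) (nat_lit 0) (XT.lf (nat_lit 0) (nat_lit 3076397447) (nat_lit 380) (nat_lit 8976714766) (nat_lit 456) (nat_lit 1495362264) (nat_lit 172) (nat_lit 5) (nat_lit 177) (nat_lit 5) (nat_lit 178) (nat_lit 5) (nat_lit 479) (nat_lit 386) (nat_lit 275)) (XT.lf (nat_lit 0) (nat_lit 2413789582) (nat_lit 456) (nat_lit 1335181222) (nat_lit 76) (nat_lit 9955286326) (nat_lit 171) (nat_lit 5) (nat_lit 177) (nat_lit 5) (nat_lit 172) (nat_lit 5) (nat_lit 480) (nat_lit 386) (nat_lit 274)))))) (XT.nd (nat_lit 468) (nat_lit 1520) (nat_lit 0) (XT.nd (nat_lit 234) (nat_lit 684) (nat_lit 0) (XT.nd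 (nat_lit 78) (nat_lit 608) (nat_lit 0) (XT.lf (nat_lit 0) (nat_lit 452385931) (nat_lit 0) (nat_lit 452385931) (nat_lit 532) (nat_lit 2362782681) (nat_lit 778) (nat_lit 5) (nat_lit 778) (nat_lit 3) (nat_lit 785) (nat_lit 3) (nat_lit 387) (nat_lit 387) (nat_lit 366)) (XT.nd (nat_lit 78) (nat_lit 608) (nat_lit 0) (XT.lf (nat_lit 0) (nat_lit 4203248290) (nat_lit 0) (nat_lit 198059297) (nat_lit 532) (nat_lit 2147679222) (nat_lit 778) (nat_lit 5) (nat_lit 778) (nat_lit 3) (nat_lit 785) (nat_lit 3) (nat_lit 388) (nat_lit 387) (nat_lit 365)) (XT.lf (nat_lit 0) (nat_lit 417524510) (nat_lit 608) (nat_lit 5588369907) (nat_lit 684) (nat_lit 558343545) (nat_lit 770) (nat_lit 5) (nat_lit 778) (nat_lit 5) (nat_lit 779) (nat_lit 5) (nat_lit 389) (nat_lit 387) (nat_lit 364)))) (XT.nd (nat_lit 78) (nat_lit 684) (nat_lit 0) (XT.lf (nat_lit 0) (nat_lit 2955822882) (nat_lit 608) (nat_lit 2235390996) (nat_lit 684) (nat_lit 1389285375) (nat_lit 770) (nat_lit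 5) (nat_lit 778) (nat_lit 5) (nat_lit 779) (nat_lit 5) (nat_lit 390) (nat_lit 387) (nat_lit 363)) (XT.nd (nat_lit 78) (nat_lit 684) (nat_lit 0) (XT.lf (nat_lit 76) (nat_lit 1164650913) (nat_lit 0) (nat_lit 4322468652) (nat_lit 684) (nat_lit 1111121560) (nat_lit 771) (nat_lit 5) (nat_lit 770) (nat_lit 5) (nat_lit 779) (nat_lit 5) (nat_lit 391) (nat_lit 387) (nat_lit 362)) (XT.lf (nat_lit 0) (nat_lit 1384050321) (nat_lit 684) (nat_lit 1998473096) (nat_lit 760) (nat_lit 3234617808) (nat_lit 761) (nat_lit 5) (nat_lit 770) (nat_lit 5) (nat_lit 771) (nat_lit 5) (nat_lit 392) (nat_lit 387) (nat_lit 361))))) (XT.nd (nat_lit 234) (nat_lit 760) (nat_lit 0) (XT.nd (nat_lit 78) (nat_lit 760) (nat_lit 0) (XT.lf (nat_lit 76) (nat_lit 1482232602) (nat_lit 0) (nat_lit 2378219783) (nat_lit 760) (nat_lit 2776895960) (nat_lit 762) (nat_lit 5) (nat_lit 761) (nat_lit 5) (nat_lit 771) (nat_lit 5) (nat_lit 393) (nat_lit 387) (nat_lit 360)) (XT.nd (nat_lit 78)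 (nat_lit 760) (nat_lit 0) (XT.lf (nat_lit 76) (nat_lit 5024678705) (nat_lit 0) (nat_lit 1312698485) (nat_lit 760) (nat_lit 321562523) (nat_lit 762) (nat_lit 5) (nat_lit 761) (nat_lit 5) (nat_lit 771) (nat_lit 5) (nat_lit 394) (nat_lit 387) (nat_lit 359)) (XT.lf (nat_lit 76) (nat_lit 1933094435) (nat_lit 0) (nat_lit 172107737) (nat_lit 836) (nat_lit 4576458215) (nat_lit 752) (nat_lit 5) (nat_lit 751) (nat_lit 5) (nat_lit 762) (nat_lit 5) (nat_lit 395) (nat_lit 387) (nat_lit 358)))) (XT.nd (nat_lit 156) (nat_lit 0) (nat_lit 0) (XT.nd (nat_lit 78) (nat_lit 836) (nat_lit 0) (XT.lf (nat_lit 0) (nat_lit 4533227091) (nat_lit 760) (nat_lit 1155549827) (nat_lit 836) (nat_lit 1016875432) (nat_lit 752) (nat_lit 5) (nat_lit 762) (nat_lit 5) (nat_lit 763) (nat_lit 5) (nat_lit 396) (nat_lit 387) (nat_lit 357)) (XT.lf (nat_lit 0) (nat_lit 233886609) (nat_lit 836) (nat_lit 4226987425) (nat_lit 912) (nat_lit 2270056471) (nat_lit 741) (nat_lit 5) (nat_lit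 752) (nat_lit 5) (nat_lit 753) (nat_lit 5) (nat_lit 397) (nat_lit 387) (nat_lit 356))) (XT.nd (nat_lit 78) (nat_lit 0) (nat_lit 0) (XT.lf (nat_lit 0) (nat_lit 2608351749) (nat_lit 836) (nat_lit 554788823) (nat_lit 912) (nat_lit 3594304140) (nat_lit 741) (nat_lit 5) (nat_lit 752) (nat_lit 5) (nat_lit 753) (nat_lit 5) (nat_lit 398) (nat_lit 387) (nat_lit 355)) (XT.lf (nat_lit 76) (nat_lit 3197414853) (nat_lit 0) (nat_lit 1796085308) (nat_lit 912) (nat_lit 1791725165) (nat_lit 742) (nat_lit 5) (nat_lit 741) (nat_lit 5) (nat_lit 753) (nat_lit 5) (nat_lit 399) (nat_lit 387) (nat_lit 354))))))) (XT.nd (nat_lit 1014) (nat_lit 13908) (nat_lit 0) (XT.nd (nat_lit 468) (nat_lit 4484) (nat_lit 0) (XT.nd (nat_lit 234) (nat_lit 912) (nat_lit 0) (XT.nd (nat_lit 78) (nat_lit 0) (nat_lit 76) (XT.lf (nat_lit 76) (nat_lit 181169713) (nat_lit 0) (nat_lit 371466827) (nat_lit 988) (nat_lit 6261887770) (nat_lit 730) (nat_lit 5) (nat_lit 729) (nat_lit 5) (nat_lit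 742) (nat_lit 5) (nat_lit 400) (nat_lit 387) (nat_lit 353)) (XT.nd (nat_lit 78) (nat_lit 0) (nat_lit 0) (XT.lf (nat_lit 0) (nat_lit 2895154480) (nat_lit 912) (nat_lit 2825731276) (nat_lit 988) (nat_lit 1123781447) (nat_lit 730) (nat_lit 5) (nat_lit 742) (nat_lit 5) (nat_lit 743) (nat_lit 5) (nat_lit 401) (nat_lit 387) (nat_lit 352)) (XT.lf (nat_lit 76) (nat_lit 1032936695) (nat_lit 0) (nat_lit 4205830563) (nat_lit 988) (nat_lit 1637560808) (nat_lit 731) (nat_lit 5) (nat_lit 730) (nat_lit 5) (nat_lit 743) (nat_lit 5) (nat_lit 402) (nat_lit 387) (nat_lit 351)))) (XT.nd (nat_lit 78) (nat_lit 0) (nat_lit 0) (XT.lf (nat_lit 0) (nat_lit 675829908) (nat_lit 988) (nat_lit 1942645963) (nat_lit 1064) (nat_lit 4290759679) (nat_lit 717) (nat_lit 5) (nat_lit 730) (nat_lit 5) (nat_lit 731) (nat_lit 5) (nat_lit 403) (nat_lit 387) (nat_lit 350)) (XT.nd (nat_lit 78) (nat_lit 0) (nat_lit 76) (XT.lf (nat_lit 76) (nat_lit 2015745431) (nat_lit 0) (nat_lit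 957554744) (nat_lit 1064) (nat_lit 3970089749) (nat_lit 718) (nat_lit 5) (nat_lit 717) (nat_lit 5) (nat_lit 731) (nat_lit 5) (nat_lit 404) (nat_lit 387) (nat_lit 349)) (XT.lf (nat_lit 0) (nat_lit 5282179162) (nat_lit 988) (nat_lit 940082460) (nat_lit 76) (nat_lit 756656577) (nat_lit 718) (nat_lit 5) (nat_lit 731) (nat_lit 5) (nat_lit 719) (nat_lit 5) (nat_lit 405) (nat_lit 387) (nat_lit 348))))) (XT.nd (nat_lit 234) (nat_lit 2432) (nat_lit 0) (XT.nd (nat_lit 78) (nat_lit 1064) (nat_lit 0) (XT.lf (nat_lit 0) (nat_lit 588974335) (nat_lit 1064) (nat_lit 3893805269) (nat_lit 76) (nat_lit 2532795571) (nat_lit 704) (nat_lit 5) (nat_lit 718) (nat_lit 5) (nat_lit 705) (nat_lit 5) (nat_lit 406) (nat_lit 387) (nat_lit 347)) (XT.nd (nat_lit 78) (nat_lit 0) (nat_lit 0) (XT.lf (nat_lit 0) (nat_lit 179234366) (nat_lit 1064) (nat_lit 2675005761) (nat_lit 1140) (nat_lit 4199369705) (nat_lit 690) (nat_lit 5) (nat_lit 704) (nat_lit 5) (nat_lit 705) (nat_lit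 5) (nat_lit 407) (nat_lit 387) (nat_lit 346)) (XT.lf (nat_lit 0) (nat_lit 4350156018) (nat_lit 1064) (nat_lit 790570502) (nat_lit 1140) (nat_lit 1952160356) (nat_lit 690) (nat_lit 5) (nat_lit 704) (nat_lit 5) (nat_lit 705) (nat_lit 5) (nat_lit 408) (nat_lit 387) (nat_lit 345)))) (XT.nd (nat_lit 156) (nat_lit 1216) (nat_lit 0) (XT.nd (nat_lit 78) (nat_lit 0) (nat_lit 0) (XT.lf (nat_lit 0) (nat_lit 302916204) (nat_lit 1216) (nat_lit 5689140259) (nat_lit 76) (nat_lit 1141501206) (nat_lit 674) (nat_lit 5) (nat_lit 690) (nat_lit 5) (nat_lit 675) (nat_lit 5) (nat_lit 409) (nat_lit 387) (nat_lit 344)) (XT.lf (nat_lit 0) (nat_lit 2552006593) (nat_lit 1216) (nat_lit 1477598607) (nat_lit 76) (nat_lit 3145677570) (nat_lit 674) (nat_lit 5) (nat_lit 690) (nat_lit 5) (nat_lit 675) (nat_lit 5) (nat_lit 410) (nat_lit 387) (nat_lit 343))) (XT.nd (nat_lit 78) (nat_lit 0) (nat_lit 0) (XT.lf (nat_lit 0) (nat_lit 2818743928) (nat_lit 1216) (nat_lit 1997856276)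 (nat_lit 1292) (nat_lit 2401831739) (nat_lit 658) (nat_lit 5) (nat_lit 674) (nat_lit 5) (nat_lit 675) (nat_lit 5) (nat_lit 411) (nat_lit 387) (nat_lit 342)) (XT.lf (nat_lit 0) (nat_lit 7089943946) (nat_lit 1292) (nat_lit 78924050) (nat_lit 76) (nat_lit 94306939) (nat_lit 658) (nat_lit 5) (nat_lit 675) (nat_lit 5) (nat_lit 659) (nat_lit 5) (nat_lit 412) (nat_lit 387) (nat_lit 341)))))) (XT.nd (nat_lit 468) (nat_lit 8132) (nat_lit 0) (XT.nd (nat_lit 234) (nat_lit 3040) (nat_lit 0) (XT.nd (nat_lit 78) (nat_lit 1368) (nat_lit 0) (XT.lf (nat_lit 0) (nat_lit 2067663842) (nat_lit 1368) (nat_lit 2987067909) (nat_lit 76) (nat_lit 2253903087) (nat_lit 640) (nat_lit 5) (nat_lit 658) (nat_lit 5) (nat_lit 641) (nat_lit 5) (nat_lit 413) (nat_lit 387) (nat_lit 340)) (XT.nd (nat_lit 78) (nat_lit 0) (nat_lit 0) (XT.lf (nat_lit 0) (nat_lit 1437030172) (nat_lit 1368) (nat_lit 2878175037) (nat_lit 1444) (nat_lit 3040492865) (nat_lit 622) (nat_lit 5) (nat_lit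 640) (nat_lit 5) (nat_lit 641) (nat_lit 5) (nat_lit 414) (nat_lit 387) (nat_lit 339)) (XT.lf (nat_lit 0) (nat_lit 5953532659) (nat_lit 1368) (nat_lit 629151287) (nat_lit 1444) (nat_lit 821518899) (nat_lit 622) (nat_lit 5) (nat_lit 640) (nat_lit 5) (nat_lit 641) (nat_lit 5) (nat_lit 415) (nat_lit 387) (nat_lit 338)))) (XT.nd (nat_lit 78) (nat_lit 1520) (nat_lit 0) (XT.lf (nat_lit 0) (nat_lit 1409651502) (nat_lit 1520) (nat_lit 4363472174) (nat_lit 76) (nat_lit 1680632270) (nat_lit 602) (nat_lit 5) (nat_lit 622) (nat_lit 5) (nat_lit 603) (nat_lit 5) (nat_lit 416) (nat_lit 387) (nat_lit 337)) (XT.nd (nat_lit 78) (nat_lit 0) (nat_lit 0) (XT.lf (nat_lit 0) (nat_lit 193351534) (nat_lit 1520) (nat_lit 3452544160) (nat_lit 1596) (nat_lit 3858866801) (nat_lit 582) (nat_lit 5) (nat_lit 602) (nat_lit 5) (nat_lit 603) (nat_lit 5) (nat_lit 417) (nat_lit 387) (nat_lit 336)) (XT.lf (nat_lit 0) (nat_lit 4863575635) (nat_lit 1520) (nat_lit 1049408381)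 (nat_lit 1596) (nat_lit 1644082774) (nat_lit 582) (nat_lit 5) (nat_lit 602) (nat_lit 5) (nat_lit 603) (nat_lit 5) (nat_lit 418) (nat_lit 387) (nat_lit 335))))) (XT.nd (nat_lit 234) (nat_lit 4788) (nat_lit 0) (XT.nd (nat_lit 78) (nat_lit 1672) (nat_lit 0) (XT.lf (nat_lit 0) (nat_lit 586587701) (nat_lit 1672) (nat_lit 5617853200) (nat_lit 76) (nat_lit 1406303277) (nat_lit 560) (nat_lit 5) (nat_lit 582) (nat_lit 5) (nat_lit 561) (nat_lit 5) (nat_lit 419) (nat_lit 387) (nat_lit 334)) (XT.nd (nat_lit 78) (nat_lit 1672) (nat_lit 0) (XT.lf (nat_lit 0) (nat_lit 2823060307) (nat_lit 1672) (nat_lit 910940345) (nat_lit 76) (nat_lit 3931613057) (nat_lit 560) (nat_lit 5) (nat_lit 582) (nat_lit 5) (nat_lit 561) (nat_lit 5) (nat_lit 420) (nat_lit 387) (nat_lit 333)) (XT.lf (nat_lit 0) (nat_lit 3904693017) (nat_lit 1672) (nat_lit 1183782226) (nat_lit 1748) (nat_lit 2633421129) (nat_lit 538) (nat_lit 5) (nat_lit 560) (nat_lit 5) (nat_lit 561) (nat_lit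 5) (nat_lit 421) (nat_lit 387) (nat_lit 332)))) (XT.nd (nat_lit 156) (nat_lit 2964) (nat_lit 0) (XT.nd (nat_lit 78) (nat_lit 76) (nat_lit 0) (XT.lf (nat_lit 0) (nat_lit 1016668958) (nat_lit 1748) (nat_lit 6363945308) (nat_lit 1824) (nat_lit 399062106) (nat_lit 515) (nat_lit 5) (nat_lit 538) (nat_lit 5) (nat_lit 539) (nat_lit 5) (nat_lit 422) (nat_lit 387) (nat_lit 331)) (XT.lf (nat_lit 0) (nat_lit 1848701041) (nat_lit 1824) (nat_lit 1896869163) (nat_lit 76) (nat_lit 4092930180) (nat_lit 514) (nat_lit 5) (nat_lit 538) (nat_lit 5) (nat_lit 515) (nat_lit 5) (nat_lit 423) (nat_lit 387) (nat_lit 330))) (XT.nd (nat_lit 78) (nat_lit 1140) (nat_lit 0) (XT.lf (nat_lit 0) (nat_lit 3067398089) (nat_lit 1824) (nat_lit 1049136317) (nat_lit 1900) (nat_lit 3782304547) (nat_lit 490) (nat_lit 5) (nat_lit 514) (nat_lit 5) (nat_lit 515) (nat_lit 5) (nat_lit 424) (nat_lit 387) (nat_lit 329)) (XT.lf (nat_lit 0) (nat_lit 150039053) (nat_lit 1140) (nat_lit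 6265608170) (nat_lit 1216) (nat_lit 1545018614) (nat_lit 475) (nat_lit 5) (nat_lit 490) (nat_lit 5) (nat_lit 491) (nat_lit 5) (nat_lit 425) (nat_lit 387) (nat_lit 328))))))))
noncomputable def xc66 : XT := (XT.nd (nat_lit 2028) (nat_lit 9500) (nat_lit 0) (XT.nd (nat_lit 1014) (nat_lit 5700) (nat_lit 0) (XT.nd (nat_lit 468) (nat_lit 4256) (nat_lit 0) (XT.nd (nat_lit 234) (nat_lit 1824) (nat_lit 0) (XT.nd (nat_lit 78) (nat_lit 912) (nat_lit 0) (XT.lf (nat_lit 0) (nat_lit 728288903) (nat_lit 1216) (nat_lit 2775989027) (nat_lit 76) (nat_lit 4519336789) (nat_lit 474) (nat_lit 5) (nat_lit 490) (nat_lit 5) (nat_lit 475) (nat_lit 5) (nat_lit 426) (nat_lit 387) (nat_lit 327)) (XT.nd (nat_lit 78) (nat_lit 0) (nat_lit 0) (XT.lf (nat_lit 0) (nat_lit 2342974968) (nat_lit 912) (nat_lit 660746760) (nat_lit 988) (nat_lit 5084349657) (nat_lit 462) (nat_lit 5) (nat_lit 474) (nat_lit 5) (nat_lit 475) (nat_lit 5) (nat_lit 427) (nat_lit 387) (nat_lit 326))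 (XT.lf (nat_lit 0) (nat_lit 5320581718) (nat_lit 988) (nat_lit 603534946) (nat_lit 76) (nat_lit 2229782152) (nat_lit 462) (nat_lit 5) (nat_lit 475) (nat_lit 5) (nat_lit 463) (nat_lit 5) (nat_lit 428) (nat_lit 387) (nat_lit 325)))) (XT.nd (nat_lit 78) (nat_lit 912) (nat_lit 0) (XT.lf (nat_lit 0) (nat_lit 4660971089) (nat_lit 912) (nat_lit 3020804040) (nat_lit 988) (nat_lit 539307743) (nat_lit 450) (nat_lit 5) (nat_lit 462) (nat_lit 5) (nat_lit 463) (nat_lit 5) (nat_lit 429) (nat_lit 387) (nat_lit 324)) (XT.nd (nat_lit 78) (nat_lit 0) (nat_lit 0) (XT.lf (nat_lit 0) (nat_lit 1723421298) (nat_lit 836) (nat_lit 32412969) (nat_lit 912) (nat_lit 6533965180) (nat_lit 438) (nat_lit 5) (nat_lit 449) (nat_lit 5) (nat_lit 450) (nat_lit 5) (nat_lit 430) (nat_lit 387) (nat_lit 323)) (XT.lf (nat_lit 0) (nat_lit 4097365324) (nat_lit 912) (nat_lit 1259193427) (nat_lit 76) (nat_lit 3003106156) (nat_lit 438) (nat_lit 5) (nat_lit 450) (nat_lit 5) (nat_lit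 439) (nat_lit 5) (nat_lit 431) (nat_lit 387) (nat_lit 322))))) (XT.nd (nat_lit 234) (nat_lit 2432) (nat_lit 0) (XT.nd (nat_lit 78) (nat_lit 912) (nat_lit 0) (XT.lf (nat_lit 0) (nat_lit 4172015341) (nat_lit 912) (nat_lit 2305790402) (nat_lit 988) (nat_lit 1953280360) (nat_lit 426) (nat_lit 5) (nat_lit 438) (nat_lit 5) (nat_lit 439) (nat_lit 5) (nat_lit 432) (nat_lit 387) (nat_lit 321)) (XT.nd (nat_lit 78) (nat_lit 0) (nat_lit 0) (XT.lf (nat_lit 0) (nat_lit 383301175) (nat_lit 912) (nat_lit 7308208341) (nat_lit 76) (nat_lit 812640951) (nat_lit 414) (nat_lit 5) (nat_lit 426) (nat_lit 5) (nat_lit 415) (nat_lit 5) (nat_lit 433) (nat_lit 387) (nat_lit 320)) (XT.lf (nat_lit 0) (nat_lit 2749960442) (nat_lit 912) (nat_lit 1825992640) (nat_lit 76) (nat_lit 4002274802) (nat_lit 414) (nat_lit 5) (nat_lit 426) (nat_lit 5) (nat_lit 415) (nat_lit 5) (nat_lit 434) (nat_lit 387) (nat_lit 319)))) (XT.nd (nat_lit 156) (nat_lit 836) (nat_lit 0) (XT.nd (nat_lit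 78) (nat_lit 760) (nat_lit 0) (XT.lf (nat_lit 0) (nat_lit 3778877851) (nat_lit 836) (nat_lit 1375723809) (nat_lit 912) (nat_lit 3499372216) (nat_lit 403) (nat_lit 5) (nat_lit 414) (nat_lit 5) (nat_lit 415) (nat_lit 5) (nat_lit 435) (nat_lit 387) (nat_lit 318)) (XT.lf (nat_lit 0) (nat_lit 750143140) (nat_lit 760) (nat_lit 6853182922) (nat_lit 836) (nat_lit 1127988917) (nat_lit 393) (nat_lit 5) (nat_lit 403) (nat_lit 5) (nat_lit 404) (nat_lit 5) (nat_lit 436) (nat_lit 387) (nat_lit 317))) (XT.nd (nat_lit 78) (nat_lit 760) (nat_lit 0) (XT.lf (nat_lit 0) (nat_lit 1282657577) (nat_lit 836) (nat_lit 2310446024) (nat_lit 76) (nat_lit 5216756389) (nat_lit 392) (nat_lit 5) (nat_lit 403) (nat_lit 5) (nat_lit 393) (nat_lit 5) (nat_lit 437) (nat_lit 387) (nat_lit 316)) (XT.lf (nat_lit 0) (nat_lit 3475373517) (nat_lit 760) (nat_lit 240993778) (nat_lit 836) (nat_lit 5173660404) (nat_lit 382) (nat_lit 5) (nat_lit 392) (nat_lit 5) (nat_lit 393) (nat_lit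 5) (nat_lit 438) (nat_lit 387) (nat_lit 315)))))) (XT.nd (nat_lit 468) (nat_lit 2660) (nat_lit 0) (XT.nd (nat_lit 234) (nat_lit 1444) (nat_lit 0) (XT.nd (nat_lit 78) (nat_lit 836) (nat_lit 0) (XT.lf (nat_lit 0) (nat_lit 384231607) (nat_lit 760) (nat_lit 5821010435) (nat_lit 836) (nat_lit 2766426902) (nat_lit 372) (nat_lit 5) (nat_lit 382) (nat_lit 5) (nat_lit 383) (nat_lit 5) (nat_lit 439) (nat_lit 387) (nat_lit 314)) (XT.nd (nat_lit 78) (nat_lit 836) (nat_lit 0) (XT.lf (nat_lit 0) (nat_lit 6334307403) (nat_lit 760) (nat_lit 2415656844) (nat_lit 836) (nat_lit 304857371) (nat_lit 372) (nat_lit 5) (nat_lit 382) (nat_lit 5) (nat_lit 383) (nat_lit 5) (nat_lit 440) (nat_lit 387) (nat_lit 313)) (XT.lf (nat_lit 0) (nat_lit 2173789831) (nat_lit 836) (nat_lit 5890770398) (nat_lit 76) (nat_lit 1074855112) (nat_lit 361) (nat_lit 5) (nat_lit 372) (nat_lit 5) (nat_lit 362) (nat_lit 5) (nat_lit 441) (nat_lit 387) (nat_lit 312)))) (XT.nd (nat_lit 78)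 (nat_lit 760) (nat_lit 0) (XT.lf (nat_lit 0) (nat_lit 95221680) (nat_lit 684) (nat_lit 4606620126) (nat_lit 760) (nat_lit 4523740555) (nat_lit 352) (nat_lit 5) (nat_lit 361) (nat_lit 5) (nat_lit 362) (nat_lit 5) (nat_lit 442) (nat_lit 387) (nat_lit 311)) (XT.nd (nat_lit 78) (nat_lit 760) (nat_lit 0) (XT.lf (nat_lit 0) (nat_lit 6244407082) (nat_lit 684) (nat_lit 1044868289) (nat_lit 760) (nat_lit 2024020937) (nat_lit 352) (nat_lit 5) (nat_lit 361) (nat_lit 5) (nat_lit 362) (nat_lit 5) (nat_lit 443) (nat_lit 387) (nat_lit 310)) (XT.lf (nat_lit 0) (nat_lit 525640457) (nat_lit 760) (nat_lit 6304633010) (nat_lit 76) (nat_lit 2572285967) (nat_lit 342) (nat_lit 5) (nat_lit 352) (nat_lit 5) (nat_lit 343) (nat_lit 5) (nat_lit 444) (nat_lit 387) (nat_lit 309))))) (XT.nd (nat_lit 234) (nat_lit 1292) (nat_lit 0) (XT.nd (nat_lit 78) (nat_lit 1368) (nat_lit 0) (XT.lf (nat_lit 0) (nat_lit 3096885236) (nat_lit 760) (nat_lit 120368464) (nat_lit 76) (nat_lit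 6276132711) (nat_lit 342) (nat_lit 5) (nat_lit 352) (nat_lit 5) (nat_lit 343) (nat_lit 5) (nat_lit 445) (nat_lit 387) (nat_lit 308)) (XT.nd (nat_lit 78) (nat_lit 684) (nat_lit 0) (XT.lf (nat_lit 0) (nat_lit 5733898428) (nat_lit 760) (nat_lit 3355414239) (nat_lit 76) (nat_lit 496430390) (nat_lit 333) (nat_lit 5) (nat_lit 343) (nat_lit 5) (nat_lit 334) (nat_lit 5) (nat_lit 446) (nat_lit 387) (nat_lit 307)) (XT.lf (nat_lit 0) (nat_lit 3011950009) (nat_lit 684) (nat_lit 5424286086) (nat_lit 760) (nat_lit 1243459056) (nat_lit 324) (nat_lit 5) (nat_lit 333) (nat_lit 5) (nat_lit 334) (nat_lit 5) (nat_lit 447) (nat_lit 387) (nat_lit 306)))) (XT.nd (nat_lit 156) (nat_lit 608) (nat_lit 0) (XT.nd (nat_lit 78) (nat_lit 608) (nat_lit 0) (XT.lf (nat_lit 0) (nat_lit 1392231643) (nat_lit 760) (nat_lit 268410217) (nat_lit 76) (nat_lit 8114825955) (nat_lit 323) (nat_lit 5) (nat_lit 333) (nat_lit 5) (nat_lit 324) (nat_lit 5) (nat_lit 448) (nat_lit 387)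 (nat_lit 305)) (XT.lf (nat_lit 0) (nat_lit 4090938689) (nat_lit 684) (nat_lit 3589310363) (nat_lit 76) (nat_lit 2192203448) (nat_lit 315) (nat_lit 5) (nat_lit 324) (nat_lit 5) (nat_lit 316) (nat_lit 5) (nat_lit 449) (nat_lit 387) (nat_lit 304))) (XT.nd (nat_lit 78) (nat_lit 0) (nat_lit 0) (XT.lf (nat_lit 0) (nat_lit 2990532239) (nat_lit 608) (nat_lit 3857221094) (nat_lit 684) (nat_lit 3123540875) (nat_lit 307) (nat_lit 5) (nat_lit 315) (nat_lit 5) (nat_lit 316) (nat_lit 5) (nat_lit 450) (nat_lit 387) (nat_lit 303)) (XT.lf (nat_lit 0) (nat_lit 9656401201) (nat_lit 684) (nat_lit 357412475) (nat_lit 76) (nat_lit 58365135) (nat_lit 307) (nat_lit 5) (nat_lit 316) (nat_lit 5) (nat_lit 308) (nat_lit 5) (nat_lit 451) (nat_lit 387) (nat_lit 302))))))) (XT.nd (nat_lit 1014) (nat_lit 4256) (nat_lit 0) (XT.nd (nat_lit 468) (nat_lit 2736) (nat_lit 0) (XT.nd (nat_lit 234) (nat_lit 1216) (nat_lit 0) (XT.nd (nat_lit 78) (nat_lit 608) (nat_lit 0) (XT.lf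 (nat_lit 0) (nat_lit 2355597077) (nat_lit 684) (nat_lit 3767964363) (nat_lit 76) (nat_lit 4050410489) (nat_lit 298) (nat_lit 5) (nat_lit 307) (nat_lit 5) (nat_lit 299) (nat_lit 5) (nat_lit 452) (nat_lit 387) (nat_lit 301)) (XT.nd (nat_lit 78) (nat_lit 0) (nat_lit 0) (XT.lf (nat_lit 0) (nat_lit 3033405510) (nat_lit 608) (nat_lit 2138392032) (nat_lit 684) (nat_lit 5106049091) (nat_lit 290) (nat_lit 5) (nat_lit 298) (nat_lit 5) (nat_lit 299) (nat_lit 5) (nat_lit 453) (nat_lit 387) (nat_lit 300)) (XT.lf (nat_lit 0) (nat_lit 8055383644) (nat_lit 684) (nat_lit 409736713) (nat_lit 76) (nat_lit 1918457241) (nat_lit 290) (nat_lit 5) (nat_lit 299) (nat_lit 5) (nat_lit 291) (nat_lit 5) (nat_lit 454) (nat_lit 387) (nat_lit 299)))) (XT.nd (nat_lit 78) (nat_lit 608) (nat_lit 0) (XT.lf (nat_lit 0) (nat_lit 529431009) (nat_lit 608) (nat_lit 3895192636) (nat_lit 76) (nat_lit 6066117157) (nat_lit 282) (nat_lit 5) (nat_lit 290) (nat_lit 5) (nat_lit 283)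 (nat_lit 5) (nat_lit 455) (nat_lit 387) (nat_lit 298)) (XT.nd (nat_lit 78) (nat_lit 0) (nat_lit 0) (XT.lf (nat_lit 0) (nat_lit 3137141335) (nat_lit 608) (nat_lit 272805473) (nat_lit 684) (nat_lit 7189854419) (nat_lit 274) (nat_lit 5) (nat_lit 282) (nat_lit 5) (nat_lit 283) (nat_lit 5) (nat_lit 456) (nat_lit 387) (nat_lit 297)) (XT.lf (nat_lit 0) (nat_lit 6374087595) (nat_lit 684) (nat_lit 408792743) (nat_lit 76) (nat_lit 3927642227) (nat_lit 274) (nat_lit 5) (nat_lit 283) (nat_lit 5) (nat_lit 275) (nat_lit 5) (nat_lit 457) (nat_lit 387) (nat_lit 296))))) (XT.nd (nat_lit 234) (nat_lit 1596) (nat_lit 0) (XT.nd (nat_lit 78) (nat_lit 608) (nat_lit 0) (XT.lf (nat_lit 0) (nat_lit 6839440035) (nat_lit 532) (nat_lit 2578772751) (nat_lit 608) (nat_lit 1404831514) (nat_lit 267) (nat_lit 5) (nat_lit 274) (nat_lit 5) (nat_lit 275) (nat_lit 5) (nat_lit 458) (nat_lit 387) (nat_lit 295)) (XT.nd (nat_lit 78) (nat_lit 0) (nat_lit 0) (XT.lf (nat_lit 0)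 (nat_lit 1574654711) (nat_lit 608) (nat_lit 7650249073) (nat_lit 76) (nat_lit 1712505944) (nat_lit 259) (nat_lit 5) (nat_lit 267) (nat_lit 5) (nat_lit 260) (nat_lit 5) (nat_lit 459) (nat_lit 387) (nat_lit 294)) (XT.lf (nat_lit 0) (nat_lit 4613736666) (nat_lit 608) (nat_lit 357675486) (nat_lit 76) (nat_lit 6082088261) (nat_lit 259) (nat_lit 5) (nat_lit 267) (nat_lit 5) (nat_lit 260) (nat_lit 5) (nat_lit 460) (nat_lit 387) (nat_lit 293)))) (XT.nd (nat_lit 156) (nat_lit 532) (nat_lit 0) (XT.nd (nat_lit 78) (nat_lit 532) (nat_lit 0) (XT.lf (nat_lit 0) (nat_lit 7140149977) (nat_lit 532) (nat_lit 595114788) (nat_lit 608) (nat_lit 3436214855) (nat_lit 252) (nat_lit 5) (nat_lit 259) (nat_lit 5) (nat_lit 260) (nat_lit 5) (nat_lit 461) (nat_lit 387) (nat_lit 292)) (XT.lf (nat_lit 0) (nat_lit 3487165591) (nat_lit 532) (nat_lit 7457740125) (nat_lit 608) (nat_lit 346399050) (nat_lit 245) (nat_lit 5) (nat_lit 252) (nat_lit 5) (nat_lit 253) (nat_lit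 5) (nat_lit 462) (nat_lit 387) (nat_lit 291))) (XT.nd (nat_lit 78) (nat_lit 456) (nat_lit 0) (XT.lf (nat_lit 0) (nat_lit 2775199434) (nat_lit 608) (nat_lit 259185130) (nat_lit 76) (nat_lit 8378642041) (nat_lit 244) (nat_lit 5) (nat_lit 252) (nat_lit 5) (nat_lit 245) (nat_lit 5) (nat_lit 463) (nat_lit 387) (nat_lit 290)) (XT.lf (nat_lit 0) (nat_lit 5989231964) (nat_lit 532) (nat_lit 4047649612) (nat_lit 76) (nat_lit 1499562702) (nat_lit 238) (nat_lit 5) (nat_lit 245) (nat_lit 5) (nat_lit 239) (nat_lit 5) (nat_lit 464) (nat_lit 387) (nat_lit 289)))))) (XT.nd (nat_lit 468) (nat_lit 2204) (nat_lit 0) (XT.nd (nat_lit 234) (nat_lit 988) (nat_lit 0) (XT.nd (nat_lit 78) (nat_lit 532) (nat_lit 0) (XT.lf (nat_lit 0) (nat_lit 3727683250) (nat_lit 532) (nat_lit 5562179220) (nat_lit 608) (nat_lit 2372021489) (nat_lit 231) (nat_lit 5) (nat_lit 238) (nat_lit 5) (nat_lit 239) (nat_lit 5) (nat_lit 465) (nat_lit 387) (nat_lit 288)) (XT.nd (nat_lit 78)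 (nat_lit 456) (nat_lit 0) (XT.lf (nat_lit 0) (nat_lit 859007161) (nat_lit 608) (nat_lit 115847594) (nat_lit 76) (nat_lit 10814791127) (nat_lit 230) (nat_lit 5) (nat_lit 238) (nat_lit 5) (nat_lit 231) (nat_lit 5) (nat_lit 466) (nat_lit 387) (nat_lit 287)) (XT.lf (nat_lit 0) (nat_lit 4175554339) (nat_lit 532) (nat_lit 4030033775) (nat_lit 76) (nat_lit 3713008160) (nat_lit 224) (nat_lit 5) (nat_lit 231) (nat_lit 5) (nat_lit 225) (nat_lit 5) (nat_lit 467) (nat_lit 387) (nat_lit 286)))) (XT.nd (nat_lit 78) (nat_lit 532) (nat_lit 0) (XT.lf (nat_lit 0) (nat_lit 4017101475) (nat_lit 456) (nat_lit 3551645223) (nat_lit 532) (nat_lit 4481172693) (nat_lit 218) (nat_lit 5) (nat_lit 224) (nat_lit 5) (nat_lit 225) (nat_lit 5) (nat_lit 468) (nat_lit 387) (nat_lit 285)) (XT.nd (nat_lit 78) (nat_lit 76) (nat_lit 0) (XT.lf (nat_lit 0) (nat_lit 55458214) (nat_lit 456) (nat_lit 10986847645) (nat_lit 532) (nat_lit 1141313050) (nat_lit 212) (nat_lit 5) (nat_lit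 218) (nat_lit 5) (nat_lit 219) (nat_lit 5) (nat_lit 469) (nat_lit 387) (nat_lit 284)) (XT.lf (nat_lit 0) (nat_lit 2290654662) (nat_lit 532) (nat_lit 3977001845) (nat_lit 76) (nat_lit 6050941326) (nat_lit 211) (nat_lit 5) (nat_lit 218) (nat_lit 5) (nat_lit 212) (nat_lit 5) (nat_lit 470) (nat_lit 387) (nat_lit 283))))) (XT.nd (nat_lit 234) (nat_lit 1292) (nat_lit 0) (XT.nd (nat_lit 78) (nat_lit 456) (nat_lit 0) (XT.lf (nat_lit 0) (nat_lit 4353494748) (nat_lit 456) (nat_lit 1428450173) (nat_lit 532) (nat_lit 6674061222) (nat_lit 205) (nat_lit 5) (nat_lit 211) (nat_lit 5) (nat_lit 212) (nat_lit 5) (nat_lit 471) (nat_lit 387) (nat_lit 282)) (XT.nd (nat_lit 78) (nat_lit 76) (nat_lit 0) (XT.lf (nat_lit 0) (nat_lit 255911697) (nat_lit 380) (nat_lit 9116286336) (nat_lit 456) (nat_lit 3223381847) (nat_lit 200) (nat_lit 5) (nat_lit 205) (nat_lit 5) (nat_lit 206) (nat_lit 5) (nat_lit 472) (nat_lit 387) (nat_lit 281)) (XT.lf (nat_lit 0) (nat_lit 334528737)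 (nat_lit 456) (nat_lit 3890716875) (nat_lit 76) (nat_lit 8511818927) (nat_lit 199) (nat_lit 5) (nat_lit 205) (nat_lit 5) (nat_lit 200) (nat_lit 5) (nat_lit 473) (nat_lit 387) (nat_lit 280)))) (XT.nd (nat_lit 156) (nat_lit 456) (nat_lit 0) (XT.nd (nat_lit 78) (nat_lit 380) (nat_lit 0) (XT.lf (nat_lit 0) (nat_lit 3934796013) (nat_lit 532) (nat_lit 8150825900) (nat_lit 76) (nat_lit 795043655) (nat_lit 193) (nat_lit 5) (nat_lit 200) (nat_lit 5) (nat_lit 194) (nat_lit 5) (nat_lit 474) (nat_lit 387) (nat_lit 279)) (XT.lf (nat_lit 0) (nat_lit 494323888) (nat_lit 380) (nat_lit 7148703201) (nat_lit 456) (nat_lit 5383392360) (nat_lit 188) (nat_lit 5) (nat_lit 193) (nat_lit 5) (nat_lit 194) (nat_lit 5) (nat_lit 475) (nat_lit 387) (nat_lit 278))) (XT.nd (nat_lit 78) (nat_lit 456) (nat_lit 0) (XT.lf (nat_lit 0) (nat_lit 9390144757) (nat_lit 380) (nat_lit 2068669337) (nat_lit 456) (nat_lit 1715606487) (nat_lit 188) (nat_lit 5) (nat_lit 193) (nat_lit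 5) (nat_lit 194) (nat_lit 5) (nat_lit 476) (nat_lit 387) (nat_lit 277)) (XT.lf (nat_lit 0) (nat_lit 2031897631) (nat_lit 456) (nat_lit 8184639958) (nat_lit 76) (nat_lit 3107922570) (nat_lit 182) (nat_lit 5) (nat_lit 188) (nat_lit 5) (nat_lit 183) (nat_lit 5) (nat_lit 477) (nat_lit 387) (nat_lit 276))))))))
noncomputable def xc67 : XT := (XT.nd (nat_lit 54132) (nat_lit 0) (nat_lit 17632) (XT.nd (nat_lit 53118) (nat_lit 0) (nat_lit 38228) (XT.nd (nat_lit 52572) (nat_lit 0) (nat_lit 43244) (XT.nd (nat_lit 52338) (nat_lit 0) (nat_lit 45448) (XT.nd (nat_lit 78) (nat_lit 456) (nat_lit 0) (XT.lf (nat_lit 0) (nat_lit 769072840) (nat_lit 380) (nat_lit 5085688739) (nat_lit 456) (nat_lit 7622044510) (nat_lit 177) (nat_lit 5) (nat_lit 182) (nat_lit 5) (nat_lit 183) (nat_lit 5) (nat_lit 478) (nat_lit 387) (nat_lit 275)) (XT.nd (nat_lit 78) (nat_lit 456) (nat_lit 0) (XT.lf (nat_lit 0) (nat_lit 9789558717) (nat_lit 456) (nat_lit 3652230290) (nat_lit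 76) (nat_lit 189700414) (nat_lit 177) (nat_lit 5) (nat_lit 183) (nat_lit 5) (nat_lit 178) (nat_lit 5) (nat_lit 479) (nat_lit 387) (nat_lit 274)) (XT.lf (nat_lit 0) (nat_lit 63557449) (nat_lit 456) (nat_lit 8196620400) (nat_lit 76) (nat_lit 5528087722) (nat_lit 171) (nat_lit 5) (nat_lit 177) (nat_lit 5) (nat_lit 172) (nat_lit 5) (nat_lit 480) (nat_lit 387) (nat_lit 273)))) (XT.nd (nat_lit 78) (nat_lit 0) (nat_lit 0) (XT.lf (nat_lit 0) (nat_lit 195461714) (nat_lit 684) (nat_lit 1543139516) (nat_lit 684) (nat_lit 1543139516) (nat_lit 769) (nat_lit 3) (nat_lit 778) (nat_lit 3) (nat_lit 778) (nat_lit 5) (nat_lit 388) (nat_lit 388) (nat_lit 364)) (XT.nd (nat_lit 78) (nat_lit 0) (nat_lit 0) (XT.lf (nat_lit 76) (nat_lit 198059297) (nat_lit 0) (nat_lit 2688171357) (nat_lit 684) (nat_lit 3693057694) (nat_lit 770) (nat_lit 5) (nat_lit 769) (nat_lit 3) (nat_lit 778) (nat_lit 5) (nat_lit 389) (nat_lit 388) (nat_lit 363)) (XT.lf (nat_lit 76) (nat_lit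 3556165594) (nat_lit 0) (nat_lit 1830453299) (nat_lit 684) (nat_lit 1209688949) (nat_lit 770) (nat_lit 5) (nat_lit 769) (nat_lit 3) (nat_lit 778) (nat_lit 5) (nat_lit 390) (nat_lit 388) (nat_lit 362))))) (XT.nd (nat_lit 234) (nat_lit 1520) (nat_lit 0) (XT.nd (nat_lit 78) (nat_lit 0) (nat_lit 76) (XT.lf (nat_lit 76) (nat_lit 329544485) (nat_lit 0) (nat_lit 913910192) (nat_lit 760) (nat_lit 5371291941) (nat_lit 761) (nat_lit 5) (nat_lit 760) (nat_lit 5) (nat_lit 770) (nat_lit 5) (nat_lit 391) (nat_lit 388) (nat_lit 361)) (XT.nd (nat_lit 78) (nat_lit 0) (nat_lit 0) (XT.lf (nat_lit 0) (nat_lit 3686717872) (nat_lit 684) (nat_lit 2868788754) (nat_lit 760) (nat_lit 78742533) (nat_lit 761) (nat_lit 5) (nat_lit 770) (nat_lit 5) (nat_lit 771) (nat_lit 5) (nat_lit 392) (nat_lit 388) (nat_lit 360)) (XT.lf (nat_lit 76) (nat_lit 583042225) (nat_lit 0) (nat_lit 5543452887) (nat_lit 760) (nat_lit 528693663) (nat_lit 762) (nat_lit 5) (nat_lit 761) (nat_lit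 5) (nat_lit 771) (nat_lit 5) (nat_lit 393) (nat_lit 388) (nat_lit 359)))) (XT.nd (nat_lit 156) (nat_lit 836) (nat_lit 0) (XT.nd (nat_lit 78) (nat_lit 0) (nat_lit 0) (XT.lf (nat_lit 0) (nat_lit 1870877730) (nat_lit 760) (nat_lit 2581175381) (nat_lit 836) (nat_lit 2225086727) (nat_lit 751) (nat_lit 5) (nat_lit 761) (nat_lit 5) (nat_lit 762) (nat_lit 5) (nat_lit 394) (nat_lit 388) (nat_lit 358)) (XT.lf (nat_lit 76) (nat_lit 954220288) (nat_lit 0) (nat_lit 3302953389) (nat_lit 836) (nat_lit 2443370106) (nat_lit 752) (nat_lit 5) (nat_lit 751) (nat_lit 5) (nat_lit 762) (nat_lit 5) (nat_lit 395) (nat_lit 388) (nat_lit 357))) (XT.nd (nat_lit 78) (nat_lit 836) (nat_lit 0) (XT.lf (nat_lit 76) (nat_lit 4561130345) (nat_lit 0) (nat_lit 2087958710) (nat_lit 836) (nat_lit 76168883) (nat_lit 752) (nat_lit 5) (nat_lit 751) (nat_lit 5) (nat_lit 762) (nat_lit 5) (nat_lit 396) (nat_lit 388) (nat_lit 356)) (XT.lf (nat_lit 76) (nat_lit 1459378746) (nat_lit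 0) (nat_lit 799156515) (nat_lit 912) (nat_lit 4492610926) (nat_lit 741) (nat_lit 5) (nat_lit 740) (nat_lit 5) (nat_lit 752) (nat_lit 5) (nat_lit 397) (nat_lit 388) (nat_lit 355)))))) (XT.nd (nat_lit 468) (nat_lit 3192) (nat_lit 0) (XT.nd (nat_lit 234) (nat_lit 988) (nat_lit 0) (XT.nd (nat_lit 78) (nat_lit 912) (nat_lit 0) (XT.lf (nat_lit 0) (nat_lit 4599313841) (nat_lit 836) (nat_lit 1631891852) (nat_lit 912) (nat_lit 547128432) (nat_lit 741) (nat_lit 5) (nat_lit 752) (nat_lit 5) (nat_lit 753) (nat_lit 5) (nat_lit 398) (nat_lit 388) (nat_lit 354)) (XT.nd (nat_lit 78) (nat_lit 0) (nat_lit 0) (XT.lf (nat_lit 0) (nat_lit 140637474) (nat_lit 912) (nat_lit 4719141517) (nat_lit 988) (nat_lit 1947020007) (nat_lit 729) (nat_lit 5) (nat_lit 741) (nat_lit 5) (nat_lit 742) (nat_lit 5) (nat_lit 399) (nat_lit 388) (nat_lit 353)) (XT.lf (nat_lit 0) (nat_lit 2432639944) (nat_lit 912) (nat_lit 981593732) (nat_lit 988) (nat_lit 3422208854) (nat_lit 729)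 (nat_lit 5) (nat_lit 741) (nat_lit 5) (nat_lit 742) (nat_lit 5) (nat_lit 400) (nat_lit 388) (nat_lit 352)))) (XT.nd (nat_lit 78) (nat_lit 988) (nat_lit 0) (XT.lf (nat_lit 76) (nat_lit 2833360150) (nat_lit 0) (nat_lit 1900692864) (nat_lit 988) (nat_lit 2133354507) (nat_lit 730) (nat_lit 5) (nat_lit 729) (nat_lit 5) (nat_lit 742) (nat_lit 5) (nat_lit 401) (nat_lit 388) (nat_lit 351)) (XT.nd (nat_lit 78) (nat_lit 0) (nat_lit 76) (XT.lf (nat_lit 0) (nat_lit 132409128) (nat_lit 988) (nat_lit 197169656) (nat_lit 1064) (nat_lit 6570343326) (nat_lit 716) (nat_lit 5) (nat_lit 729) (nat_lit 5) (nat_lit 730) (nat_lit 5) (nat_lit 402) (nat_lit 388) (nat_lit 350)) (XT.lf (nat_lit 0) (nat_lit 2394456853) (nat_lit 988) (nat_lit 3225278762) (nat_lit 1064) (nat_lit 1313478659) (nat_lit 717) (nat_lit 5) (nat_lit 730) (nat_lit 5) (nat_lit 731) (nat_lit 5) (nat_lit 403) (nat_lit 388) (nat_lit 349))))) (XT.nd (nat_lit 234) (nat_lit 2204) (nat_lit 0) (XT.nd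 (nat_lit 78) (nat_lit 1064) (nat_lit 0) (XT.lf (nat_lit 76) (nat_lit 698381758) (nat_lit 0) (nat_lit 3959089728) (nat_lit 1064) (nat_lit 2310586275) (nat_lit 718) (nat_lit 5) (nat_lit 717) (nat_lit 5) (nat_lit 731) (nat_lit 5) (nat_lit 404) (nat_lit 388) (nat_lit 348)) (XT.nd (nat_lit 78) (nat_lit 1064) (nat_lit 0) (XT.lf (nat_lit 76) (nat_lit 4709211043) (nat_lit 0) (nat_lit 2226654308) (nat_lit 1064) (nat_lit 68330387) (nat_lit 718) (nat_lit 5) (nat_lit 717) (nat_lit 5) (nat_lit 731) (nat_lit 5) (nat_lit 405) (nat_lit 388) (nat_lit 347)) (XT.lf (nat_lit 76) (nat_lit 1732503851) (nat_lit 0) (nat_lit 417567128) (nat_lit 1140) (nat_lit 4891489384) (nat_lit 704) (nat_lit 5) (nat_lit 703) (nat_lit 5) (nat_lit 718) (nat_lit 5) (nat_lit 406) (nat_lit 388) (nat_lit 346)))) (XT.nd (nat_lit 156) (nat_lit 1216) (nat_lit 0) (XT.nd (nat_lit 78) (nat_lit 1064) (nat_lit 0) (XT.lf (nat_lit 0) (nat_lit 4386720296) (nat_lit 1064) (nat_lit 1253420533)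 (nat_lit 76) (nat_lit 1440026520) (nat_lit 704) (nat_lit 5) (nat_lit 718) (nat_lit 5) (nat_lit 705) (nat_lit 5) (nat_lit 407) (nat_lit 388) (nat_lit 345)) (XT.lf (nat_lit 0) (nat_lit 2883196599) (nat_lit 1064) (nat_lit 3757392810) (nat_lit 1140) (nat_lit 479507330) (nat_lit 690) (nat_lit 5) (nat_lit 704) (nat_lit 5) (nat_lit 705) (nat_lit 5) (nat_lit 408) (nat_lit 388) (nat_lit 344))) (XT.nd (nat_lit 78) (nat_lit 1140) (nat_lit 0) (XT.lf (nat_lit 0) (nat_lit 1715265934) (nat_lit 1140) (nat_lit 88318320) (nat_lit 76) (nat_lit 5357811834) (nat_lit 689) (nat_lit 5) (nat_lit 704) (nat_lit 5) (nat_lit 690) (nat_lit 5) (nat_lit 409) (nat_lit 388) (nat_lit 343)) (XT.lf (nat_lit 0) (nat_lit 3928408031) (nat_lit 1216) (nat_lit 3045663121) (nat_lit 76) (nat_lit 229769002) (nat_lit 674) (nat_lit 5) (nat_lit 690) (nat_lit 5) (nat_lit 675) (nat_lit 5) (nat_lit 410) (nat_lit 388) (nat_lit 342))))))) (XT.nd (nat_lit 1014) (nat_lit 8436) (nat_lit 0)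 (XT.nd (nat_lit 468) (nat_lit 6688) (nat_lit 0) (XT.nd (nat_lit 234) (nat_lit 2888) (nat_lit 0) (XT.nd (nat_lit 78) (nat_lit 1368) (nat_lit 0) (XT.lf (nat_lit 0) (nat_lit 1211940257) (nat_lit 1216) (nat_lit 4947439405) (nat_lit 1292) (nat_lit 1088282104) (nat_lit 658) (nat_lit 5) (nat_lit 674) (nat_lit 5) (nat_lit 675) (nat_lit 5) (nat_lit 411) (nat_lit 388) (nat_lit 341)) (XT.nd (nat_lit 78) (nat_lit 1292) (nat_lit 0) (XT.lf (nat_lit 0) (nat_lit 1101738503) (nat_lit 1292) (nat_lit 1739591777) (nat_lit 76) (nat_lit 4451398897) (nat_lit 657) (nat_lit 5) (nat_lit 674) (nat_lit 5) (nat_lit 658) (nat_lit 5) (nat_lit 412) (nat_lit 388) (nat_lit 340)) (XT.lf (nat_lit 0) (nat_lit 2634444543) (nat_lit 1292) (nat_lit 658111834) (nat_lit 1368) (nat_lit 4046566309) (nat_lit 640) (nat_lit 5) (nat_lit 657) (nat_lit 5) (nat_lit 658) (nat_lit 5) (nat_lit 413) (nat_lit 388) (nat_lit 339)))) (XT.nd (nat_lit 78) (nat_lit 2888) (nat_lit 0) (XT.lf (nat_lit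 0) (nat_lit 5504306162) (nat_lit 1368) (nat_lit 313019642) (nat_lit 76) (nat_lit 1569575950) (nat_lit 640) (nat_lit 5) (nat_lit 658) (nat_lit 5) (nat_lit 641) (nat_lit 5) (nat_lit 414) (nat_lit 388) (nat_lit 338)) (XT.nd (nat_lit 78) (nat_lit 1444) (nat_lit 0) (XT.lf (nat_lit 0) (nat_lit 307880212) (nat_lit 1444) (nat_lit 3256335671) (nat_lit 76) (nat_lit 3871628692) (nat_lit 621) (nat_lit 5) (nat_lit 640) (nat_lit 5) (nat_lit 622) (nat_lit 5) (nat_lit 415) (nat_lit 388) (nat_lit 337)) (XT.lf (nat_lit 0) (nat_lit 1248573248) (nat_lit 1444) (nat_lit 1235033494) (nat_lit 1520) (nat_lit 5002577647) (nat_lit 602) (nat_lit 5) (nat_lit 621) (nat_lit 5) (nat_lit 622) (nat_lit 5) (nat_lit 416) (nat_lit 388) (nat_lit 336))))) (XT.nd (nat_lit 234) (nat_lit 5092) (nat_lit 0) (XT.nd (nat_lit 78) (nat_lit 1596) (nat_lit 0) (XT.lf (nat_lit 0) (nat_lit 4689328163) (nat_lit 1520) (nat_lit 1693324593) (nat_lit 76) (nat_lit 1155148637) (nat_lit 602) (nat_lit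 5) (nat_lit 622) (nat_lit 5) (nat_lit 603) (nat_lit 5) (nat_lit 417) (nat_lit 388) (nat_lit 335)) (XT.nd (nat_lit 78) (nat_lit 76) (nat_lit 0) (XT.lf (nat_lit 0) (nat_lit 2936494688) (nat_lit 1520) (nat_lit 3987833167) (nat_lit 1596) (nat_lit 666419605) (nat_lit 582) (nat_lit 5) (nat_lit 602) (nat_lit 5) (nat_lit 603) (nat_lit 5) (nat_lit 418) (nat_lit 388) (nat_lit 334)) (XT.lf (nat_lit 0) (nat_lit 1508502611) (nat_lit 1596) (nat_lit 8867290) (nat_lit 76) (nat_lit 6127786516) (nat_lit 581) (nat_lit 5) (nat_lit 602) (nat_lit 5) (nat_lit 582) (nat_lit 5) (nat_lit 419) (nat_lit 388) (nat_lit 333)))) (XT.nd (nat_lit 156) (nat_lit 1824) (nat_lit 0) (XT.nd (nat_lit 78) (nat_lit 1672) (nat_lit 0) (XT.lf (nat_lit 0) (nat_lit 3714698890) (nat_lit 1672) (nat_lit 2955510625) (nat_lit 76) (nat_lit 1030421958) (nat_lit 560) (nat_lit 5) (nat_lit 582) (nat_lit 5) (nat_lit 561) (nat_lit 5) (nat_lit 420) (nat_lit 388) (nat_lit 332)) (XT.lf (nat_lit 0)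 (nat_lit 1814937847) (nat_lit 1672) (nat_lit 4131641401) (nat_lit 1748) (nat_lit 1811005579) (nat_lit 538) (nat_lit 5) (nat_lit 560) (nat_lit 5) (nat_lit 561) (nat_lit 5) (nat_lit 421) (nat_lit 388) (nat_lit 331))) (XT.nd (nat_lit 78) (nat_lit 1748) (nat_lit 0) (XT.lf (nat_lit 0) (nat_lit 382004435) (nat_lit 1748) (nat_lit 1133405268) (nat_lit 76) (nat_lit 6300616084) (nat_lit 537) (nat_lit 5) (nat_lit 560) (nat_lit 5) (nat_lit 538) (nat_lit 5) (nat_lit 422) (nat_lit 388) (nat_lit 330)) (XT.lf (nat_lit 0) (nat_lit 2587653038) (nat_lit 1824) (nat_lit 4109414988) (nat_lit 76) (nat_lit 1178467570) (nat_lit 514) (nat_lit 5) (nat_lit 538) (nat_lit 5) (nat_lit 515) (nat_lit 5) (nat_lit 423) (nat_lit 388) (nat_lit 329)))))) (XT.nd (nat_lit 468) (nat_lit 3572) (nat_lit 0) (XT.nd (nat_lit 234) (nat_lit 1824) (nat_lit 0) (XT.nd (nat_lit 78) (nat_lit 1216) (nat_lit 0) (XT.lf (nat_lit 0) (nat_lit 807360343) (nat_lit 1824) (nat_lit 4014299716) (nat_lit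 1900) (nat_lit 3114890633) (nat_lit 490) (nat_lit 5) (nat_lit 514) (nat_lit 5) (nat_lit 515) (nat_lit 5) (nat_lit 424) (nat_lit 388) (nat_lit 328)) (XT.nd (nat_lit 78) (nat_lit 1216) (nat_lit 0) (XT.lf (nat_lit 0) (nat_lit 5842353356) (nat_lit 1824) (nat_lit 1247407806) (nat_lit 1900) (nat_lit 909236650) (nat_lit 490) (nat_lit 5) (nat_lit 514) (nat_lit 5) (nat_lit 515) (nat_lit 5) (nat_lit 425) (nat_lit 388) (nat_lit 327)) (XT.lf (nat_lit 0) (nat_lit 1314596343) (nat_lit 1216) (nat_lit 5164132986) (nat_lit 76) (nat_lit 1583957527) (nat_lit 474) (nat_lit 5) (nat_lit 490) (nat_lit 5) (nat_lit 475) (nat_lit 5) (nat_lit 426) (nat_lit 388) (nat_lit 326)))) (XT.nd (nat_lit 78) (nat_lit 1824) (nat_lit 0) (XT.lf (nat_lit 0) (nat_lit 3556430044) (nat_lit 1216) (nat_lit 93788784) (nat_lit 76) (nat_lit 4477596678) (nat_lit 474) (nat_lit 5) (nat_lit 490) (nat_lit 5) (nat_lit 475) (nat_lit 5) (nat_lit 427) (nat_lit 388) (nat_lit 325)) (XT.nd (nat_lit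 78) (nat_lit 912) (nat_lit 0) (XT.lf (nat_lit 0) (nat_lit 5109543175) (nat_lit 912) (nat_lit 730318360) (nat_lit 988) (nat_lit 2354449972) (nat_lit 462) (nat_lit 5) (nat_lit 474) (nat_lit 5) (nat_lit 475) (nat_lit 5) (nat_lit 428) (nat_lit 388) (nat_lit 324)) (XT.lf (nat_lit 0) (nat_lit 2133548699) (nat_lit 912) (nat_lit 6028571053) (nat_lit 988) (nat_lit 100154513) (nat_lit 450) (nat_lit 5) (nat_lit 462) (nat_lit 5) (nat_lit 463) (nat_lit 5) (nat_lit 429) (nat_lit 388) (nat_lit 323))))) (XT.nd (nat_lit 234) (nat_lit 1748) (nat_lit 0) (XT.nd (nat_lit 78) (nat_lit 1748) (nat_lit 0) (XT.lf (nat_lit 0) (nat_lit 2160372327) (nat_lit 988) (nat_lit 888547633) (nat_lit 76) (nat_lit 5282590967) (nat_lit 449) (nat_lit 5) (nat_lit 462) (nat_lit 5) (nat_lit 450) (nat_lit 5) (nat_lit 430) (nat_lit 388) (nat_lit 322)) (XT.nd (nat_lit 78) (nat_lit 912) (nat_lit 0) (XT.lf (nat_lit 0) (nat_lit 4458996469) (nat_lit 912) (nat_lit 3923304773) (nat_lit 76)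 (nat_lit 19933284) (nat_lit 438) (nat_lit 5) (nat_lit 450) (nat_lit 5) (nat_lit 439) (nat_lit 5) (nat_lit 431) (nat_lit 388) (nat_lit 321)) (XT.lf (nat_lit 0) (nat_lit 1454489064) (nat_lit 912) (nat_lit 5350208419) (nat_lit 988) (nat_lit 1669653026) (nat_lit 426) (nat_lit 5) (nat_lit 438) (nat_lit 5) (nat_lit 439) (nat_lit 5) (nat_lit 432) (nat_lit 388) (nat_lit 320)))) (XT.nd (nat_lit 156) (nat_lit 836) (nat_lit 0) (XT.nd (nat_lit 78) (nat_lit 836) (nat_lit 0) (XT.lf (nat_lit 0) (nat_lit 633075495) (nat_lit 988) (nat_lit 1594876214) (nat_lit 76) (nat_lit 6320028999) (nat_lit 425) (nat_lit 5) (nat_lit 438) (nat_lit 5) (nat_lit 426) (nat_lit 5) (nat_lit 433) (nat_lit 388) (nat_lit 319)) (XT.lf (nat_lit 0) (nat_lit 2957931973) (nat_lit 912) (nat_lit 4685605463) (nat_lit 76) (nat_lit 979356745) (nat_lit 414) (nat_lit 5) (nat_lit 426) (nat_lit 5) (nat_lit 415) (nat_lit 5) (nat_lit 434) (nat_lit 388) (nat_lit 318))) (XT.nd (nat_lit 78) (nat_lit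 0) (nat_lit 0) (XT.lf (nat_lit 0) (nat_lit 863287168) (nat_lit 836) (nat_lit 4463909648) (nat_lit 912) (nat_lit 3372150884) (nat_lit 403) (nat_lit 5) (nat_lit 414) (nat_lit 5) (nat_lit 415) (nat_lit 5) (nat_lit 435) (nat_lit 388) (nat_lit 317)) (XT.lf (nat_lit 0) (nat_lit 6551074498) (nat_lit 836) (nat_lit 1191413838) (nat_lit 912) (nat_lit 1034869124) (nat_lit 403) (nat_lit 5) (nat_lit 414) (nat_lit 5) (nat_lit 415) (nat_lit 5) (nat_lit 436) (nat_lit 388) (nat_lit 316))))))))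
noncomputable def xc68 : XT := (XT.nd (nat_lit 2028) (nat_lit 5700) (nat_lit 0) (XT.nd (nat_lit 1014) (nat_lit 4788) (nat_lit 0) (XT.nd (nat_lit 468) (nat_lit 3496) (nat_lit 0) (XT.nd (nat_lit 234) (nat_lit 1596) (nat_lit 0) (XT.nd (nat_lit 78) (nat_lit 760) (nat_lit 0) (XT.lf (nat_lit 0) (nat_lit 1335926308) (nat_lit 836) (nat_lit 5373600875) (nat_lit 76) (nat_lit 2147135791) (nat_lit 392) (nat_lit 5) (nat_lit 403) (nat_lit 5) (nat_lit 393) (nat_lit 5) (nat_lit 437) (nat_lit 388) (nat_lit 315)) (XT.nd (nat_lit 78) (nat_lit 0) (nat_lit 0) (XT.lf (nat_lit 0) (nat_lit 353594546) (nat_lit 760) (nat_lit 3379938767) (nat_lit 836) (nat_lit 5204019424) (nat_lit 382) (nat_lit 5) (nat_lit 392) (nat_lit 5) (nat_lit 393) (nat_lit 5) (nat_lit 438) (nat_lit 388) (nat_lit 314)) (XT.lf (nat_lit 0) (nat_lit 6183883122) (nat_lit 836) (nat_lit 2787596896) (nat_lit 76) (nat_lit 48484465) (nat_lit 382) (nat_lit 5) (nat_lit 393) (nat_lit 5) (nat_lit 383)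 (nat_lit 5) (nat_lit 439) (nat_lit 388) (nat_lit 313)))) (XT.nd (nat_lit 78) (nat_lit 836) (nat_lit 0) (XT.lf (nat_lit 0) (nat_lit 3107685397) (nat_lit 760) (nat_lit 5587121969) (nat_lit 836) (nat_lit 408985748) (nat_lit 372) (nat_lit 5) (nat_lit 382) (nat_lit 5) (nat_lit 383) (nat_lit 5) (nat_lit 440) (nat_lit 388) (nat_lit 312)) (XT.nd (nat_lit 78) (nat_lit 760) (nat_lit 0) (XT.lf (nat_lit 0) (nat_lit 2027560748) (nat_lit 836) (nat_lit 79363354) (nat_lit 76) (nat_lit 7082345584) (nat_lit 371) (nat_lit 5) (nat_lit 382) (nat_lit 5) (nat_lit 372) (nat_lit 5) (nat_lit 441) (nat_lit 388) (nat_lit 311)) (XT.lf (nat_lit 0) (nat_lit 4525703490) (nat_lit 836) (nat_lit 3289044404) (nat_lit 76) (nat_lit 1461286997) (nat_lit 361) (nat_lit 5) (nat_lit 372) (nat_lit 5) (nat_lit 362) (nat_lit 5) (nat_lit 442) (nat_lit 388) (nat_lit 310))))) (XT.nd (nat_lit 234) (nat_lit 2052) (nat_lit 0) (XT.nd (nat_lit 78) (nat_lit 760) (nat_lit 0) (XT.lf (nat_lit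 0) (nat_lit 2798775796) (nat_lit 684) (nat_lit 4277818123) (nat_lit 760) (nat_lit 2287885784) (nat_lit 352) (nat_lit 5) (nat_lit 361) (nat_lit 5) (nat_lit 362) (nat_lit 5) (nat_lit 443) (nat_lit 388) (nat_lit 309)) (XT.nd (nat_lit 78) (nat_lit 684) (nat_lit 0) (XT.lf (nat_lit 0) (nat_lit 213378236) (nat_lit 760) (nat_lit 438274749) (nat_lit 76) (nat_lit 8803161267) (nat_lit 351) (nat_lit 5) (nat_lit 361) (nat_lit 5) (nat_lit 352) (nat_lit 5) (nat_lit 444) (nat_lit 388) (nat_lit 308)) (XT.lf (nat_lit 0) (nat_lit 2762937328) (nat_lit 760) (nat_lit 3728118297) (nat_lit 76) (nat_lit 3055019317) (nat_lit 342) (nat_lit 5) (nat_lit 352) (nat_lit 5) (nat_lit 343) (nat_lit 5) (nat_lit 445) (nat_lit 388) (nat_lit 307)))) (XT.nd (nat_lit 156) (nat_lit 1368) (nat_lit 0) (XT.nd (nat_lit 78) (nat_lit 0) (nat_lit 0) (XT.lf (nat_lit 0) (nat_lit 2560419602) (nat_lit 684) (nat_lit 2798148910) (nat_lit 760) (nat_lit 4280690715) (nat_lit 333) (nat_lit 5)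 (nat_lit 342) (nat_lit 5) (nat_lit 343) (nat_lit 5) (nat_lit 446) (nat_lit 388) (nat_lit 306)) (XT.lf (nat_lit 0) (nat_lit 8009064175) (nat_lit 760) (nat_lit 750273600) (nat_lit 76) (nat_lit 974910387) (nat_lit 333) (nat_lit 5) (nat_lit 343) (nat_lit 5) (nat_lit 334) (nat_lit 5) (nat_lit 447) (nat_lit 388) (nat_lit 305))) (XT.nd (nat_lit 78) (nat_lit 608) (nat_lit 0) (XT.lf (nat_lit 0) (nat_lit 897808721) (nat_lit 760) (nat_lit 4109631120) (nat_lit 76) (nat_lit 4823023858) (nat_lit 323) (nat_lit 5) (nat_lit 333) (nat_lit 5) (nat_lit 324) (nat_lit 5) (nat_lit 448) (nat_lit 388) (nat_lit 304)) (XT.lf (nat_lit 0) (nat_lit 2388164447) (nat_lit 608) (nat_lit 1154772871) (nat_lit 684) (nat_lit 6385582633) (nat_lit 315) (nat_lit 5) (nat_lit 323) (nat_lit 5) (nat_lit 324) (nat_lit 5) (nat_lit 449) (nat_lit 388) (nat_lit 303)))))) (XT.nd (nat_lit 468) (nat_lit 2356) (nat_lit 0) (XT.nd (nat_lit 234) (nat_lit 1140) (nat_lit 0) (XT.nd (nat_lit 78)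 (nat_lit 1292) (nat_lit 0) (XT.lf (nat_lit 0) (nat_lit 6259202778) (nat_lit 684) (nat_lit 1009564727) (nat_lit 76) (nat_lit 2759405138) (nat_lit 315) (nat_lit 5) (nat_lit 324) (nat_lit 5) (nat_lit 316) (nat_lit 5) (nat_lit 450) (nat_lit 388) (nat_lit 302)) (XT.nd (nat_lit 78) (nat_lit 684) (nat_lit 0) (XT.lf (nat_lit 0) (nat_lit 5684430439) (nat_lit 608) (nat_lit 3362914828) (nat_lit 684) (nat_lit 1082122088) (nat_lit 307) (nat_lit 5) (nat_lit 315) (nat_lit 5) (nat_lit 316) (nat_lit 5) (nat_lit 451) (nat_lit 388) (nat_lit 301)) (XT.lf (nat_lit 0) (nat_lit 1635647169) (nat_lit 684) (nat_lit 7958921951) (nat_lit 76) (nat_lit 638024773) (nat_lit 298) (nat_lit 5) (nat_lit 307) (nat_lit 5) (nat_lit 299) (nat_lit 5) (nat_lit 452) (nat_lit 388) (nat_lit 300)))) (XT.nd (nat_lit 78) (nat_lit 1140) (nat_lit 0) (XT.lf (nat_lit 0) (nat_lit 4418976258) (nat_lit 684) (nat_lit 1214515244) (nat_lit 76) (nat_lit 4703634521) (nat_lit 298) (nat_lit 5) (nat_lit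 307) (nat_lit 5) (nat_lit 299) (nat_lit 5) (nat_lit 453) (nat_lit 388) (nat_lit 299)) (XT.nd (nat_lit 78) (nat_lit 532) (nat_lit 0) (XT.lf (nat_lit 0) (nat_lit 5705587234) (nat_lit 608) (nat_lit 1563334525) (nat_lit 684) (nat_lit 3174608041) (nat_lit 290) (nat_lit 5) (nat_lit 298) (nat_lit 5) (nat_lit 299) (nat_lit 5) (nat_lit 454) (nat_lit 388) (nat_lit 298)) (XT.lf (nat_lit 0) (nat_lit 2206473563) (nat_lit 532) (nat_lit 7982872660) (nat_lit 608) (nat_lit 362445827) (nat_lit 283) (nat_lit 5) (nat_lit 290) (nat_lit 5) (nat_lit 291) (nat_lit 5) (nat_lit 455) (nat_lit 388) (nat_lit 297))))) (XT.nd (nat_lit 234) (nat_lit 1140) (nat_lit 0) (XT.nd (nat_lit 78) (nat_lit 1140) (nat_lit 0) (XT.lf (nat_lit 0) (nat_lit 2489713678) (nat_lit 608) (nat_lit 1368794806) (nat_lit 76) (nat_lit 6803053253) (nat_lit 282) (nat_lit 5) (nat_lit 290) (nat_lit 5) (nat_lit 283) (nat_lit 5) (nat_lit 456) (nat_lit 388) (nat_lit 296)) (XT.nd (nat_lit 78) (nat_lit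 532) (nat_lit 0) (XT.lf (nat_lit 0) (nat_lit 5408879504) (nat_lit 684) (nat_lit 4988651118) (nat_lit 76) (nat_lit 375651953) (nat_lit 274) (nat_lit 5) (nat_lit 283) (nat_lit 5) (nat_lit 275) (nat_lit 5) (nat_lit 457) (nat_lit 388) (nat_lit 295)) (XT.lf (nat_lit 0) (nat_lit 2181699004) (nat_lit 532) (nat_lit 6228682849) (nat_lit 608) (nat_lit 2476174914) (nat_lit 267) (nat_lit 5) (nat_lit 274) (nat_lit 5) (nat_lit 275) (nat_lit 5) (nat_lit 458) (nat_lit 388) (nat_lit 294)))) (XT.nd (nat_lit 156) (nat_lit 532) (nat_lit 0) (XT.nd (nat_lit 78) (nat_lit 532) (nat_lit 0) (XT.lf (nat_lit 0) (nat_lit 472350289) (nat_lit 608) (nat_lit 1475756458) (nat_lit 76) (nat_lit 9053854804) (nat_lit 266) (nat_lit 5) (nat_lit 274) (nat_lit 5) (nat_lit 267) (nat_lit 5) (nat_lit 459) (nat_lit 388) (nat_lit 293)) (XT.lf (nat_lit 0) (nat_lit 3476785826) (nat_lit 608) (nat_lit 5209190378) (nat_lit 76) (nat_lit 2432768959) (nat_lit 259) (nat_lit 5) (nat_lit 267)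 (nat_lit 5) (nat_lit 260) (nat_lit 5) (nat_lit 460) (nat_lit 388) (nat_lit 292))) (XT.nd (nat_lit 78) (nat_lit 0) (nat_lit 0) (XT.lf (nat_lit 0) (nat_lit 2207320087) (nat_lit 532) (nat_lit 4346981542) (nat_lit 608) (nat_lit 4683302987) (nat_lit 252) (nat_lit 5) (nat_lit 259) (nat_lit 5) (nat_lit 260) (nat_lit 5) (nat_lit 461) (nat_lit 388) (nat_lit 291)) (XT.lf (nat_lit 0) (nat_lit 9705054479) (nat_lit 608) (nat_lit 1549882129) (nat_lit 76) (nat_lit 103670916) (nat_lit 252) (nat_lit 5) (nat_lit 260) (nat_lit 5) (nat_lit 253) (nat_lit 5) (nat_lit 462) (nat_lit 388) (nat_lit 290))))))) (XT.nd (nat_lit 1014) (nat_lit 1216) (nat_lit 0) (XT.nd (nat_lit 468) (nat_lit 2356) (nat_lit 0) (XT.nd (nat_lit 234) (nat_lit 1064) (nat_lit 0) (XT.nd (nat_lit 78) (nat_lit 456) (nat_lit 0) (XT.lf (nat_lit 0) (nat_lit 1463084740) (nat_lit 608) (nat_lit 5392547223) (nat_lit 76) (nat_lit 4625309222) (nat_lit 244) (nat_lit 5) (nat_lit 252) (nat_lit 5) (nat_lit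 245) (nat_lit 5) (nat_lit 463) (nat_lit 388) (nat_lit 289)) (XT.nd (nat_lit 78) (nat_lit 0) (nat_lit 0) (XT.lf (nat_lit 0) (nat_lit 2280621041) (nat_lit 456) (nat_lit 2341142454) (nat_lit 532) (nat_lit 6983702439) (nat_lit 238) (nat_lit 5) (nat_lit 244) (nat_lit 5) (nat_lit 245) (nat_lit 5) (nat_lit 464) (nat_lit 388) (nat_lit 288)) (XT.lf (nat_lit 0) (nat_lit 7871473341) (nat_lit 532) (nat_lit 1599727453) (nat_lit 76) (nat_lit 2260723234) (nat_lit 238) (nat_lit 5) (nat_lit 245) (nat_lit 5) (nat_lit 239) (nat_lit 5) (nat_lit 465) (nat_lit 388) (nat_lit 287)))) (XT.nd (nat_lit 78) (nat_lit 532) (nat_lit 0) (XT.lf (nat_lit 0) (nat_lit 6314474729) (nat_lit 532) (nat_lit 4905394868) (nat_lit 608) (nat_lit 640367844) (nat_lit 231) (nat_lit 5) (nat_lit 238) (nat_lit 5) (nat_lit 239) (nat_lit 5) (nat_lit 466) (nat_lit 388) (nat_lit 286)) (XT.nd (nat_lit 78) (nat_lit 0) (nat_lit 0) (XT.lf (nat_lit 0) (nat_lit 2399154674) (nat_lit 456) (nat_lit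 213943784) (nat_lit 532) (nat_lit 9377602118) (nat_lit 224) (nat_lit 5) (nat_lit 230) (nat_lit 5) (nat_lit 231) (nat_lit 5) (nat_lit 467) (nat_lit 388) (nat_lit 285)) (XT.lf (nat_lit 0) (nat_lit 5967654277) (nat_lit 532) (nat_lit 1612035175) (nat_lit 76) (nat_lit 4543106971) (nat_lit 224) (nat_lit 5) (nat_lit 231) (nat_lit 5) (nat_lit 225) (nat_lit 5) (nat_lit 468) (nat_lit 388) (nat_lit 284))))) (XT.nd (nat_lit 234) (nat_lit 1368) (nat_lit 0) (XT.nd (nat_lit 78) (nat_lit 532) (nat_lit 0) (XT.lf (nat_lit 0) (nat_lit 6579604627) (nat_lit 456) (nat_lit 2831719950) (nat_lit 532) (nat_lit 2845769142) (nat_lit 218) (nat_lit 5) (nat_lit 224) (nat_lit 5) (nat_lit 225) (nat_lit 5) (nat_lit 469) (nat_lit 388) (nat_lit 283)) (XT.nd (nat_lit 78) (nat_lit 0) (nat_lit 0) (XT.lf (nat_lit 0) (nat_lit 541521274) (nat_lit 532) (nat_lit 9846370108) (nat_lit 76) (nat_lit 2005743219) (nat_lit 211) (nat_lit 5) (nat_lit 218) (nat_lit 5) (nat_lit 212) (nat_lit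 5) (nat_lit 470) (nat_lit 388) (nat_lit 282)) (XT.lf (nat_lit 0) (nat_lit 3993715490) (nat_lit 532) (nat_lit 1589095375) (nat_lit 76) (nat_lit 6949013970) (nat_lit 211) (nat_lit 5) (nat_lit 218) (nat_lit 5) (nat_lit 212) (nat_lit 5) (nat_lit 471) (nat_lit 388) (nat_lit 281)))) (XT.nd (nat_lit 156) (nat_lit 532) (nat_lit 0) (XT.nd (nat_lit 78) (nat_lit 380) (nat_lit 0) (XT.lf (nat_lit 0) (nat_lit 6891777949) (nat_lit 456) (nat_lit 646473454) (nat_lit 532) (nat_lit 5134061511) (nat_lit 205) (nat_lit 5) (nat_lit 211) (nat_lit 5) (nat_lit 212) (nat_lit 5) (nat_lit 472) (nat_lit 388) (nat_lit 280)) (XT.lf (nat_lit 0) (nat_lit 2723486330) (nat_lit 380) (nat_lit 8465800607) (nat_lit 456) (nat_lit 1625611641) (nat_lit 200) (nat_lit 5) (nat_lit 205) (nat_lit 5) (nat_lit 206) (nat_lit 5) (nat_lit 473) (nat_lit 388) (nat_lit 279))) (XT.nd (nat_lit 78) (nat_lit 456) (nat_lit 0) (XT.lf (nat_lit 0) (nat_lit 1949491169) (nat_lit 456) (nat_lit 1532985185)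 (nat_lit 76) (nat_lit 9477164038) (nat_lit 199) (nat_lit 5) (nat_lit 205) (nat_lit 5) (nat_lit 200) (nat_lit 5) (nat_lit 474) (nat_lit 388) (nat_lit 278)) (XT.lf (nat_lit 0) (nat_lit 5611308123) (nat_lit 532) (nat_lit 5867840724) (nat_lit 76) (nat_lit 1627173709) (nat_lit 193) (nat_lit 5) (nat_lit 200) (nat_lit 5) (nat_lit 194) (nat_lit 5) (nat_lit 475) (nat_lit 388) (nat_lit 277)))))) (XT.nd (nat_lit 52728) (nat_lit 0) (nat_lit 42788) (XT.nd (nat_lit 234) (nat_lit 380) (nat_lit 0) (XT.nd (nat_lit 78) (nat_lit 456) (nat_lit 0) (XT.lf (nat_lit 0) (nat_lit 2934119944) (nat_lit 380) (nat_lit 6444030732) (nat_lit 456) (nat_lit 3877151901) (nat_lit 188) (nat_lit 5) (nat_lit 193) (nat_lit 5) (nat_lit 194) (nat_lit 5) (nat_lit 476) (nat_lit 388) (nat_lit 276)) (XT.nd (nat_lit 78) (nat_lit 456) (nat_lit 0) (XT.lf (nat_lit 0) (nat_lit 11960211945) (nat_lit 380) (nat_lit 1279016711) (nat_lit 456) (nat_lit 167655572) (nat_lit 188) (nat_lit 5) (nat_lit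 193) (nat_lit 5) (nat_lit 194) (nat_lit 5) (nat_lit 477) (nat_lit 388) (nat_lit 275)) (XT.lf (nat_lit 0) (nat_lit 3624387544) (nat_lit 456) (nat_lit 5935657380) (nat_lit 76) (nat_lit 3999867398) (nat_lit 182) (nat_lit 5) (nat_lit 188) (nat_lit 5) (nat_lit 183) (nat_lit 5) (nat_lit 478) (nat_lit 388) (nat_lit 274)))) (XT.nd (nat_lit 52338) (nat_lit 0) (nat_lit 44308) (XT.lf (nat_lit 0) (nat_lit 3181256809) (nat_lit 380) (nat_lit 4327585124) (nat_lit 456) (nat_lit 6206760575) (nat_lit 177) (nat_lit 5) (nat_lit 182) (nat_lit 5) (nat_lit 183) (nat_lit 5) (nat_lit 479) (nat_lit 388) (nat_lit 273)) (XT.nd (nat_lit 78) (nat_lit 684) (nat_lit 0) (XT.lf (nat_lit 0) (nat_lit 2673315549) (nat_lit 684) (nat_lit 312290560) (nat_lit 684) (nat_lit 312290560) (nat_lit 769) (nat_lit 3) (nat_lit 778) (nat_lit 3) (nat_lit 778) (nat_lit 5) (nat_lit 389) (nat_lit 389) (nat_lit 362)) (XT.lf (nat_lit 0) (nat_lit 1181865454) (nat_lit 684) (nat_lit 3912464086)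 (nat_lit 760) (nat_lit 1519046112) (nat_lit 760) (nat_lit 5) (nat_lit 769) (nat_lit 3) (nat_lit 770) (nat_lit 5) (nat_lit 390) (nat_lit 389) (nat_lit 361))))) (XT.nd (nat_lit 234) (nat_lit 760) (nat_lit 0) (XT.nd (nat_lit 78) (nat_lit 760) (nat_lit 0) (XT.lf (nat_lit 0) (nat_lit 3585614065) (nat_lit 684) (nat_lit 571431741) (nat_lit 760) (nat_lit 2475282133) (nat_lit 760) (nat_lit 5) (nat_lit 769) (nat_lit 3) (nat_lit 770) (nat_lit 5) (nat_lit 391) (nat_lit 389) (nat_lit 360)) (XT.nd (nat_lit 78) (nat_lit 760) (nat_lit 0) (XT.lf (nat_lit 76) (nat_lit 2841048712) (nat_lit 0) (nat_lit 3152670186) (nat_lit 760) (nat_lit 658814749) (nat_lit 761) (nat_lit 5) (nat_lit 760) (nat_lit 5) (nat_lit 770) (nat_lit 5) (nat_lit 392) (nat_lit 389) (nat_lit 359)) (XT.lf (nat_lit 0) (nat_lit 1695837455) (nat_lit 760) (nat_lit 388340754) (nat_lit 836) (nat_lit 4589888558) (nat_lit 750) (nat_lit 5) (nat_lit 760) (nat_lit 5) (nat_lit 761) (nat_lit 5) (nat_lit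 393) (nat_lit 389) (nat_lit 358)))) (XT.nd (nat_lit 156) (nat_lit 760) (nat_lit 0) (XT.nd (nat_lit 78) (nat_lit 0) (nat_lit 76) (XT.lf (nat_lit 76) (nat_lit 3107067931) (nat_lit 0) (nat_lit 941520422) (nat_lit 836) (nat_lit 2648158557) (nat_lit 751) (nat_lit 5) (nat_lit 750) (nat_lit 5) (nat_lit 761) (nat_lit 5) (nat_lit 394) (nat_lit 389) (nat_lit 357)) (XT.lf (nat_lit 0) (nat_lit 6393266191) (nat_lit 760) (nat_lit 77384974) (nat_lit 836) (nat_lit 250332053) (nat_lit 751) (nat_lit 5) (nat_lit 761) (nat_lit 5) (nat_lit 762) (nat_lit 5) (nat_lit 395) (nat_lit 389) (nat_lit 356))) (XT.nd (nat_lit 78) (nat_lit 0) (nat_lit 0) (XT.lf (nat_lit 0) (nat_lit 1983189782) (nat_lit 836) (nat_lit 3247425034) (nat_lit 912) (nat_lit 1515408646) (nat_lit 740) (nat_lit 5) (nat_lit 751) (nat_lit 5) (nat_lit 752) (nat_lit 5) (nat_lit 396) (nat_lit 389) (nat_lit 355)) (XT.lf (nat_lit 76) (nat_lit 344319581) (nat_lit 0) (nat_lit 3936871233) (nat_lit 912)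 (nat_lit 2491425088) (nat_lit 741) (nat_lit 5) (nat_lit 740) (nat_lit 5) (nat_lit 752) (nat_lit 5) (nat_lit 397) (nat_lit 389) (nat_lit 354))))))))
noncomputable def xc69 : XT := (XT.nd (nat_lit 2028) (nat_lit 14516) (nat_lit 0) (XT.nd (nat_lit 1014) (nat_lit 12160) (nat_lit 0) (XT.nd (nat_lit 468) (nat_lit 3192) (nat_lit 0) (XT.nd (nat_lit 234) (nat_lit 912) (nat_lit 0) (XT.nd (nat_lit 78) (nat_lit 912) (nat_lit 0) (XT.lf (nat_lit 76) (nat_lit 4018521137) (nat_lit 0) (nat_lit 2571835068) (nat_lit 912) (nat_lit 210079900) (nat_lit 741) (nat_lit 5) (nat_lit 740) (nat_lit 5) (nat_lit 752) (nat_lit 5) (nat_lit 398) (nat_lit 389) (nat_lit 353)) (XT.nd (nat_lit 78) (nat_lit 0) (nat_lit 76) (XT.lf (nat_lit 76) (nat_lit 901994612) (nat_lit 0) (nat_lit 1137145068) (nat_lit 988) (nat_lit 4790397928) (nat_lit 729) (nat_lit 5) (nat_lit 728) (nat_lit 5) (nat_lit 741) (nat_lit 5) (nat_lit 399) (nat_lit 389) (nat_lit 352)) (XT.lf (nat_lit 0) (nat_lit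 4296617713) (nat_lit 912) (nat_lit 2199693739) (nat_lit 988) (nat_lit 363560177) (nat_lit 729) (nat_lit 5) (nat_lit 741) (nat_lit 5) (nat_lit 742) (nat_lit 5) (nat_lit 400) (nat_lit 389) (nat_lit 351)))) (XT.nd (nat_lit 78) (nat_lit 988) (nat_lit 0) (XT.lf (nat_lit 76) (nat_lit 1582102987) (nat_lit 0) (nat_lit 4981194650) (nat_lit 988) (nat_lit 328233646) (nat_lit 730) (nat_lit 5) (nat_lit 729) (nat_lit 5) (nat_lit 742) (nat_lit 5) (nat_lit 401) (nat_lit 389) (nat_lit 350)) (XT.nd (nat_lit 78) (nat_lit 0) (nat_lit 0) (XT.lf (nat_lit 0) (nat_lit 1887486603) (nat_lit 988) (nat_lit 1501257569) (nat_lit 1064) (nat_lit 3535594676) (nat_lit 716) (nat_lit 5) (nat_lit 729) (nat_lit 5) (nat_lit 730) (nat_lit 5) (nat_lit 402) (nat_lit 389) (nat_lit 349)) (XT.lf (nat_lit 76) (nat_lit 2378455900) (nat_lit 0) (nat_lit 1727896166) (nat_lit 1064) (nat_lit 2852142592) (nat_lit 717) (nat_lit 5) (nat_lit 716) (nat_lit 5) (nat_lit 730) (nat_lit 5) (nat_lit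 403) (nat_lit 389) (nat_lit 348))))) (XT.nd (nat_lit 234) (nat_lit 2204) (nat_lit 0) (XT.nd (nat_lit 78) (nat_lit 988) (nat_lit 0) (XT.lf (nat_lit 76) (nat_lit 6322694086) (nat_lit 0) (nat_lit 5561170) (nat_lit 1064) (nat_lit 665905117) (nat_lit 717) (nat_lit 5) (nat_lit 716) (nat_lit 5) (nat_lit 730) (nat_lit 5) (nat_lit 404) (nat_lit 389) (nat_lit 347)) (XT.nd (nat_lit 78) (nat_lit 0) (nat_lit 0) (XT.lf (nat_lit 0) (nat_lit 1526021155) (nat_lit 1064) (nat_lit 3727449639) (nat_lit 1140) (nat_lit 1777215974) (nat_lit 703) (nat_lit 5) (nat_lit 717) (nat_lit 5) (nat_lit 718) (nat_lit 5) (nat_lit 405) (nat_lit 389) (nat_lit 346)) (XT.lf (nat_lit 76) (nat_lit 263333549) (nat_lit 0) (nat_lit 3445974972) (nat_lit 1140) (nat_lit 3359418354) (nat_lit 704) (nat_lit 5) (nat_lit 703) (nat_lit 5) (nat_lit 718) (nat_lit 5) (nat_lit 406) (nat_lit 389) (nat_lit 345)))) (XT.nd (nat_lit 156) (nat_lit 1140) (nat_lit 0) (XT.nd (nat_lit 78) (nat_lit 1064)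 (nat_lit 0) (XT.lf (nat_lit 76) (nat_lit 4350358367) (nat_lit 0) (nat_lit 1561820900) (nat_lit 1140) (nat_lit 1195830165) (nat_lit 704) (nat_lit 5) (nat_lit 703) (nat_lit 5) (nat_lit 718) (nat_lit 5) (nat_lit 407) (nat_lit 389) (nat_lit 344)) (XT.lf (nat_lit 0) (nat_lit 960603238) (nat_lit 1140) (nat_lit 5803186268) (nat_lit 76) (nat_lit 384900184) (nat_lit 689) (nat_lit 5) (nat_lit 704) (nat_lit 5) (nat_lit 690) (nat_lit 5) (nat_lit 408) (nat_lit 389) (nat_lit 343))) (XT.nd (nat_lit 78) (nat_lit 1140) (nat_lit 0) (XT.lf (nat_lit 0) (nat_lit 3125507815) (nat_lit 1140) (nat_lit 1674993048) (nat_lit 76) (nat_lit 2389897508) (nat_lit 689) (nat_lit 5) (nat_lit 704) (nat_lit 5) (nat_lit 690) (nat_lit 5) (nat_lit 409) (nat_lit 389) (nat_lit 342)) (XT.lf (nat_lit 0) (nat_lit 2534796437) (nat_lit 1140) (nat_lit 2768674249) (nat_lit 1216) (nat_lit 1930075335) (nat_lit 674) (nat_lit 5) (nat_lit 689) (nat_lit 5) (nat_lit 690) (nat_lit 5) (nat_lit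 410) (nat_lit 389) (nat_lit 341)))))) (XT.nd (nat_lit 468) (nat_lit 8132) (nat_lit 0) (XT.nd (nat_lit 234) (nat_lit 1444) (nat_lit 0) (XT.nd (nat_lit 78) (nat_lit 2508) (nat_lit 0) (XT.lf (nat_lit 0) (nat_lit 209198484) (nat_lit 1216) (nat_lit 462128323) (nat_lit 76) (nat_lit 6606897537) (nat_lit 673) (nat_lit 5) (nat_lit 689) (nat_lit 5) (nat_lit 674) (nat_lit 5) (nat_lit 411) (nat_lit 389) (nat_lit 340)) (XT.nd (nat_lit 78) (nat_lit 1292) (nat_lit 0) (XT.lf (nat_lit 0) (nat_lit 2354977801) (nat_lit 1292) (nat_lit 3470617178) (nat_lit 76) (nat_lit 1498154825) (nat_lit 657) (nat_lit 5) (nat_lit 674) (nat_lit 5) (nat_lit 658) (nat_lit 5) (nat_lit 412) (nat_lit 389) (nat_lit 339)) (XT.lf (nat_lit 0) (nat_lit 863024913) (nat_lit 1292) (nat_lit 3649162545) (nat_lit 1368) (nat_lit 2858628019) (nat_lit 640) (nat_lit 5) (nat_lit 657) (nat_lit 5) (nat_lit 658) (nat_lit 5) (nat_lit 413) (nat_lit 389) (nat_lit 338)))) (XT.nd (nat_lit 78) (nat_lit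 1444) (nat_lit 0) (XT.lf (nat_lit 0) (nat_lit 5295946327) (nat_lit 1292) (nat_lit 1395880551) (nat_lit 1368) (nat_lit 727409874) (nat_lit 640) (nat_lit 5) (nat_lit 657) (nat_lit 5) (nat_lit 658) (nat_lit 5) (nat_lit 414) (nat_lit 389) (nat_lit 337)) (XT.nd (nat_lit 78) (nat_lit 0) (nat_lit 0) (XT.lf (nat_lit 0) (nat_lit 1405282049) (nat_lit 1444) (nat_lit 5139282414) (nat_lit 76) (nat_lit 924317773) (nat_lit 621) (nat_lit 5) (nat_lit 640) (nat_lit 5) (nat_lit 622) (nat_lit 5) (nat_lit 415) (nat_lit 389) (nat_lit 336)) (XT.lf (nat_lit 0) (nat_lit 3551743306) (nat_lit 1444) (nat_lit 668088801) (nat_lit 76) (nat_lit 3299975249) (nat_lit 621) (nat_lit 5) (nat_lit 640) (nat_lit 5) (nat_lit 622) (nat_lit 5) (nat_lit 416) (nat_lit 389) (nat_lit 335))))) (XT.nd (nat_lit 234) (nat_lit 5092) (nat_lit 0) (XT.nd (nat_lit 78) (nat_lit 1596) (nat_lit 0) (XT.lf (nat_lit 0) (nat_lit 3909461891) (nat_lit 1444) (nat_lit 1815152177) (nat_lit 1520) (nat_lit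 1847467305) (nat_lit 602) (nat_lit 5) (nat_lit 621) (nat_lit 5) (nat_lit 622) (nat_lit 5) (nat_lit 417) (nat_lit 389) (nat_lit 334)) (XT.nd (nat_lit 78) (nat_lit 0) (nat_lit 0) (XT.lf (nat_lit 0) (nat_lit 284697707) (nat_lit 1596) (nat_lit 6692384194) (nat_lit 76) (nat_lit 648812101) (nat_lit 581) (nat_lit 5) (nat_lit 602) (nat_lit 5) (nat_lit 582) (nat_lit 5) (nat_lit 418) (nat_lit 389) (nat_lit 333)) (XT.lf (nat_lit 0) (nat_lit 2430611481) (nat_lit 1596) (nat_lit 2068801196) (nat_lit 76) (nat_lit 3181209110) (nat_lit 581) (nat_lit 5) (nat_lit 602) (nat_lit 5) (nat_lit 582) (nat_lit 5) (nat_lit 419) (nat_lit 389) (nat_lit 332)))) (XT.nd (nat_lit 156) (nat_lit 3496) (nat_lit 0) (XT.nd (nat_lit 78) (nat_lit 0) (nat_lit 0) (XT.lf (nat_lit 0) (nat_lit 2647365505) (nat_lit 1596) (nat_lit 1949127436) (nat_lit 1672) (nat_lit 3140410199) (nat_lit 560) (nat_lit 5) (nat_lit 581) (nat_lit 5) (nat_lit 582) (nat_lit 5) (nat_lit 420) (nat_lit 389)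 (nat_lit 331)) (XT.lf (nat_lit 0) (nat_lit 6784359491) (nat_lit 1672) (nat_lit 347666168) (nat_lit 76) (nat_lit 662711112) (nat_lit 560) (nat_lit 5) (nat_lit 582) (nat_lit 5) (nat_lit 561) (nat_lit 5) (nat_lit 421) (nat_lit 389) (nat_lit 330))) (XT.nd (nat_lit 78) (nat_lit 1748) (nat_lit 0) (XT.lf (nat_lit 0) (nat_lit 1150398495) (nat_lit 1748) (nat_lit 3360582703) (nat_lit 76) (nat_lit 3342527245) (nat_lit 537) (nat_lit 5) (nat_lit 560) (nat_lit 5) (nat_lit 538) (nat_lit 5) (nat_lit 422) (nat_lit 389) (nat_lit 329)) (XT.lf (nat_lit 0) (nat_lit 1499796534) (nat_lit 1748) (nat_lit 1814681241) (nat_lit 1824) (nat_lit 4599371863) (nat_lit 514) (nat_lit 5) (nat_lit 537) (nat_lit 5) (nat_lit 538) (nat_lit 5) (nat_lit 423) (nat_lit 389) (nat_lit 328))))))) (XT.nd (nat_lit 1014) (nat_lit 6080) (nat_lit 0) (XT.nd (nat_lit 468) (nat_lit 4408) (nat_lit 0) (XT.nd (nat_lit 234) (nat_lit 988) (nat_lit 0) (XT.nd (nat_lit 78) (nat_lit 3040) (nat_lit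 0) (XT.lf (nat_lit 0) (nat_lit 5512683627) (nat_lit 1824) (nat_lit 1513585431) (nat_lit 76) (nat_lit 949311699) (nat_lit 514) (nat_lit 5) (nat_lit 538) (nat_lit 5) (nat_lit 515) (nat_lit 5) (nat_lit 424) (nat_lit 389) (nat_lit 327)) (XT.nd (nat_lit 78) (nat_lit 1216) (nat_lit 0) (XT.lf (nat_lit 0) (nat_lit 3483906869) (nat_lit 1824) (nat_lit 4268398222) (nat_lit 1900) (nat_lit 286292378) (nat_lit 490) (nat_lit 5) (nat_lit 514) (nat_lit 5) (nat_lit 515) (nat_lit 5) (nat_lit 425) (nat_lit 389) (nat_lit 326)) (XT.lf (nat_lit 0) (nat_lit 457652103) (nat_lit 1140) (nat_lit 1427101825) (nat_lit 1216) (nat_lit 6218344028) (nat_lit 474) (nat_lit 5) (nat_lit 489) (nat_lit 5) (nat_lit 490) (nat_lit 5) (nat_lit 426) (nat_lit 389) (nat_lit 325)))) (XT.nd (nat_lit 78) (nat_lit 988) (nat_lit 0) (XT.lf (nat_lit 0) (nat_lit 4099295488) (nat_lit 1216) (nat_lit 2583376407) (nat_lit 76) (nat_lit 1486100553) (nat_lit 474) (nat_lit 5) (nat_lit 490) (nat_lit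 5) (nat_lit 475) (nat_lit 5) (nat_lit 427) (nat_lit 389) (nat_lit 324)) (XT.nd (nat_lit 78) (nat_lit 76) (nat_lit 0) (XT.lf (nat_lit 0) (nat_lit 2569445193) (nat_lit 912) (nat_lit 3779116796) (nat_lit 988) (nat_lit 1887389760) (nat_lit 462) (nat_lit 5) (nat_lit 474) (nat_lit 5) (nat_lit 475) (nat_lit 5) (nat_lit 428) (nat_lit 389) (nat_lit 323)) (XT.lf (nat_lit 0) (nat_lit 315895657) (nat_lit 988) (nat_lit 481077509) (nat_lit 76) (nat_lit 7507817657) (nat_lit 461) (nat_lit 5) (nat_lit 474) (nat_lit 5) (nat_lit 462) (nat_lit 5) (nat_lit 429) (nat_lit 389) (nat_lit 322))))) (XT.nd (nat_lit 234) (nat_lit 2660) (nat_lit 0) (XT.nd (nat_lit 78) (nat_lit 836) (nat_lit 0) (XT.lf (nat_lit 0) (nat_lit 2549428922) (nat_lit 988) (nat_lit 3565151694) (nat_lit 76) (nat_lit 2259947465) (nat_lit 449) (nat_lit 5) (nat_lit 462) (nat_lit 5) (nat_lit 450) (nat_lit 5) (nat_lit 430) (nat_lit 389) (nat_lit 321)) (XT.nd (nat_lit 78) (nat_lit 0) (nat_lit 0) (XT.lf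 (nat_lit 0) (nat_lit 1749454360) (nat_lit 836) (nat_lit 3063765121) (nat_lit 912) (nat_lit 3632728871) (nat_lit 438) (nat_lit 5) (nat_lit 449) (nat_lit 5) (nat_lit 450) (nat_lit 5) (nat_lit 431) (nat_lit 389) (nat_lit 320)) (XT.lf (nat_lit 0) (nat_lit 7112824776) (nat_lit 912) (nat_lit 1335309618) (nat_lit 76) (nat_lit 70851855) (nat_lit 438) (nat_lit 5) (nat_lit 450) (nat_lit 5) (nat_lit 439) (nat_lit 5) (nat_lit 432) (nat_lit 389) (nat_lit 319)))) (XT.nd (nat_lit 156) (nat_lit 836) (nat_lit 0) (XT.nd (nat_lit 78) (nat_lit 836) (nat_lit 0) (XT.lf (nat_lit 0) (nat_lit 867614656) (nat_lit 988) (nat_lit 4466416730) (nat_lit 76) (nat_lit 3259060780) (nat_lit 425) (nat_lit 5) (nat_lit 438) (nat_lit 5) (nat_lit 426) (nat_lit 5) (nat_lit 433) (nat_lit 389) (nat_lit 318)) (XT.lf (nat_lit 0) (nat_lit 1016742035) (nat_lit 836) (nat_lit 2133954164) (nat_lit 912) (nat_lit 5518144938) (nat_lit 414) (nat_lit 5) (nat_lit 425) (nat_lit 5) (nat_lit 426)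 (nat_lit 5) (nat_lit 434) (nat_lit 389) (nat_lit 317))) (XT.nd (nat_lit 78) (nat_lit 836) (nat_lit 0) (XT.lf (nat_lit 0) (nat_lit 5484377017) (nat_lit 912) (nat_lit 2118065125) (nat_lit 76) (nat_lit 1143564195) (nat_lit 414) (nat_lit 5) (nat_lit 426) (nat_lit 5) (nat_lit 415) (nat_lit 5) (nat_lit 435) (nat_lit 389) (nat_lit 316)) (XT.lf (nat_lit 0) (nat_lit 3524297118) (nat_lit 836) (nat_lit 4345516814) (nat_lit 912) (nat_lit 954799258) (nat_lit 403) (nat_lit 5) (nat_lit 414) (nat_lit 5) (nat_lit 415) (nat_lit 5) (nat_lit 436) (nat_lit 389) (nat_lit 315)))))) (XT.nd (nat_lit 468) (nat_lit 2888) (nat_lit 0) (XT.nd (nat_lit 234) (nat_lit 1596) (nat_lit 0) (XT.nd (nat_lit 78) (nat_lit 760) (nat_lit 0) (XT.lf (nat_lit 0) (nat_lit 364683326) (nat_lit 760) (nat_lit 1000085519) (nat_lit 836) (nat_lit 7540143005) (nat_lit 392) (nat_lit 5) (nat_lit 402) (nat_lit 5) (nat_lit 403) (nat_lit 5) (nat_lit 437) (nat_lit 389) (nat_lit 314)) (XT.nd (nat_lit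 78) (nat_lit 760) (nat_lit 0) (XT.lf (nat_lit 0) (nat_lit 3738063280) (nat_lit 836) (nat_lit 2828512074) (nat_lit 76) (nat_lit 2419712511) (nat_lit 392) (nat_lit 5) (nat_lit 403) (nat_lit 5) (nat_lit 393) (nat_lit 5) (nat_lit 438) (nat_lit 389) (nat_lit 313)) (XT.lf (nat_lit 0) (nat_lit 2995776198) (nat_lit 760) (nat_lit 3158378276) (nat_lit 836) (nat_lit 2915230309) (nat_lit 382) (nat_lit 5) (nat_lit 392) (nat_lit 5) (nat_lit 393) (nat_lit 5) (nat_lit 439) (nat_lit 389) (nat_lit 312)))) (XT.nd (nat_lit 78) (nat_lit 1596) (nat_lit 0) (XT.lf (nat_lit 0) (nat_lit 8609352851) (nat_lit 836) (nat_lit 215749465) (nat_lit 76) (nat_lit 329225615) (nat_lit 382) (nat_lit 5) (nat_lit 393) (nat_lit 5) (nat_lit 383) (nat_lit 5) (nat_lit 440) (nat_lit 389) (nat_lit 311)) (XT.nd (nat_lit 78) (nat_lit 760) (nat_lit 0) (XT.lf (nat_lit 0) (nat_lit 1876969504) (nat_lit 836) (nat_lit 3472593688) (nat_lit 76) (nat_lit 3890586679) (nat_lit 371) (nat_lit 5)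 (nat_lit 382) (nat_lit 5) (nat_lit 372) (nat_lit 5) (nat_lit 441) (nat_lit 389) (nat_lit 310)) (XT.lf (nat_lit 0) (nat_lit 2541328046) (nat_lit 760) (nat_lit 1787071911) (nat_lit 836) (nat_lit 4999449363) (nat_lit 361) (nat_lit 5) (nat_lit 371) (nat_lit 5) (nat_lit 372) (nat_lit 5) (nat_lit 442) (nat_lit 389) (nat_lit 309))))) (XT.nd (nat_lit 234) (nat_lit 1444) (nat_lit 0) (XT.nd (nat_lit 78) (nat_lit 1444) (nat_lit 0) (XT.lf (nat_lit 0) (nat_lit 6835015967) (nat_lit 836) (nat_lit 740886997) (nat_lit 76) (nat_lit 1841276656) (nat_lit 361) (nat_lit 5) (nat_lit 372) (nat_lit 5) (nat_lit 362) (nat_lit 5) (nat_lit 443) (nat_lit 389) (nat_lit 308)) (XT.nd (nat_lit 78) (nat_lit 760) (nat_lit 0) (XT.lf (nat_lit 0) (nat_lit 5451492644) (nat_lit 684) (nat_lit 3958785476) (nat_lit 760) (nat_lit 97648129) (nat_lit 352) (nat_lit 5) (nat_lit 361) (nat_lit 5) (nat_lit 362) (nat_lit 5) (nat_lit 444) (nat_lit 389) (nat_lit 307)) (XT.lf (nat_lit 0) (nat_lit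 2155808884) (nat_lit 684) (nat_lit 239235708) (nat_lit 760) (nat_lit 7205317968) (nat_lit 342) (nat_lit 5) (nat_lit 351) (nat_lit 5) (nat_lit 352) (nat_lit 5) (nat_lit 445) (nat_lit 389) (nat_lit 306)))) (XT.nd (nat_lit 156) (nat_lit 760) (nat_lit 0) (XT.nd (nat_lit 78) (nat_lit 684) (nat_lit 0) (XT.lf (nat_lit 0) (nat_lit 4958511398) (nat_lit 760) (nat_lit 1205018827) (nat_lit 76) (nat_lit 3530659909) (nat_lit 342) (nat_lit 5) (nat_lit 352) (nat_lit 5) (nat_lit 343) (nat_lit 5) (nat_lit 446) (nat_lit 389) (nat_lit 305)) (XT.lf (nat_lit 0) (nat_lit 5192199949) (nat_lit 684) (nat_lit 2388643074) (nat_lit 760) (nat_lit 2208899326) (nat_lit 333) (nat_lit 5) (nat_lit 342) (nat_lit 5) (nat_lit 343) (nat_lit 5) (nat_lit 447) (nat_lit 389) (nat_lit 304))) (XT.nd (nat_lit 78) (nat_lit 0) (nat_lit 0) (XT.lf (nat_lit 0) (nat_lit 365678374) (nat_lit 760) (nat_lit 8062402984) (nat_lit 76) (nat_lit 1459034520) (nat_lit 323) (nat_lit 5) (nat_lit 333)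 (nat_lit 5) (nat_lit 324) (nat_lit 5) (nat_lit 448) (nat_lit 389) (nat_lit 303)) (XT.lf (nat_lit 0) (nat_lit 2981799694) (nat_lit 760) (nat_lit 1612782896) (nat_lit 76) (nat_lit 5391169686) (nat_lit 323) (nat_lit 5) (nat_lit 333) (nat_lit 5) (nat_lit 324) (nat_lit 5) (nat_lit 449) (nat_lit 389) (nat_lit 302))))))))
noncomputable def xc70 : XT := (XT.nd (nat_lit 2028) (nat_lit 836) (nat_lit 0) (XT.nd (nat_lit 1014) (nat_lit 4484) (nat_lit 0) (XT.nd (nat_lit 468) (nat_lit 2888) (nat_lit 0) (XT.nd (nat_lit 234) (nat_lit 1216) (nat_lit 0) (XT.nd (nat_lit 78) (nat_lit 684) (nat_lit 0) (XT.lf (nat_lit 0) (nat_lit 4998001209) (nat_lit 608) (nat_lit 657953850) (nat_lit 684) (nat_lit 4430292112) (nat_lit 315) (nat_lit 5) (nat_lit 323) (nat_lit 5) (nat_lit 324) (nat_lit 5) (nat_lit 450) (nat_lit 389) (nat_lit 301)) (XT.nd (nat_lit 78) (nat_lit 76) (nat_lit 0) (XT.lf (nat_lit 0) (nat_lit 1538997841) (nat_lit 608) (nat_lit 6860807288) (nat_lit 684)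 (nat_lit 1788622601) (nat_lit 307) (nat_lit 5) (nat_lit 315) (nat_lit 5) (nat_lit 316) (nat_lit 5) (nat_lit 451) (nat_lit 389) (nat_lit 300)) (XT.lf (nat_lit 0) (nat_lit 906383121) (nat_lit 684) (nat_lit 1968447134) (nat_lit 76) (nat_lit 7417456343) (nat_lit 306) (nat_lit 5) (nat_lit 315) (nat_lit 5) (nat_lit 307) (nat_lit 5) (nat_lit 452) (nat_lit 389) (nat_lit 299)))) (XT.nd (nat_lit 78) (nat_lit 608) (nat_lit 0) (XT.lf (nat_lit 0) (nat_lit 3645092700) (nat_lit 684) (nat_lit 5540837246) (nat_lit 76) (nat_lit 1211781173) (nat_lit 298) (nat_lit 5) (nat_lit 307) (nat_lit 5) (nat_lit 299) (nat_lit 5) (nat_lit 453) (nat_lit 389) (nat_lit 298)) (XT.nd (nat_lit 78) (nat_lit 0) (nat_lit 0) (XT.lf (nat_lit 0) (nat_lit 1305038842) (nat_lit 608) (nat_lit 5148763244) (nat_lit 684) (nat_lit 4051137532) (nat_lit 290) (nat_lit 5) (nat_lit 298) (nat_lit 5) (nat_lit 299) (nat_lit 5) (nat_lit 454) (nat_lit 389) (nat_lit 297)) (XT.lf (nat_lit 0) (nat_lit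 8329804337) (nat_lit 608) (nat_lit 1000766778) (nat_lit 684) (nat_lit 1283503862) (nat_lit 290) (nat_lit 5) (nat_lit 298) (nat_lit 5) (nat_lit 299) (nat_lit 5) (nat_lit 455) (nat_lit 389) (nat_lit 296))))) (XT.nd (nat_lit 234) (nat_lit 1672) (nat_lit 0) (XT.nd (nat_lit 78) (nat_lit 608) (nat_lit 0) (XT.lf (nat_lit 0) (nat_lit 1546618622) (nat_lit 608) (nat_lit 5956587611) (nat_lit 76) (nat_lit 3221440370) (nat_lit 282) (nat_lit 5) (nat_lit 290) (nat_lit 5) (nat_lit 283) (nat_lit 5) (nat_lit 456) (nat_lit 389) (nat_lit 295)) (XT.nd (nat_lit 78) (nat_lit 0) (nat_lit 0) (XT.lf (nat_lit 0) (nat_lit 1121714255) (nat_lit 608) (nat_lit 3299061662) (nat_lit 684) (nat_lit 6416391695) (nat_lit 274) (nat_lit 5) (nat_lit 282) (nat_lit 5) (nat_lit 283) (nat_lit 5) (nat_lit 457) (nat_lit 389) (nat_lit 294)) (XT.lf (nat_lit 0) (nat_lit 7374554613) (nat_lit 684) (nat_lit 2568763133) (nat_lit 76) (nat_lit 1008178531) (nat_lit 274) (nat_lit 5) (nat_lit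 283) (nat_lit 5) (nat_lit 275) (nat_lit 5) (nat_lit 458) (nat_lit 389) (nat_lit 293)))) (XT.nd (nat_lit 156) (nat_lit 532) (nat_lit 0) (XT.nd (nat_lit 78) (nat_lit 608) (nat_lit 0) (XT.lf (nat_lit 0) (nat_lit 4728417275) (nat_lit 532) (nat_lit 5687499897) (nat_lit 608) (nat_lit 651624177) (nat_lit 267) (nat_lit 5) (nat_lit 274) (nat_lit 5) (nat_lit 275) (nat_lit 5) (nat_lit 459) (nat_lit 389) (nat_lit 292)) (XT.lf (nat_lit 0) (nat_lit 985757894) (nat_lit 532) (nat_lit 1315670393) (nat_lit 608) (nat_lit 8884179874) (nat_lit 259) (nat_lit 5) (nat_lit 266) (nat_lit 5) (nat_lit 267) (nat_lit 5) (nat_lit 460) (nat_lit 389) (nat_lit 291))) (XT.nd (nat_lit 78) (nat_lit 532) (nat_lit 0) (XT.lf (nat_lit 0) (nat_lit 5344320409) (nat_lit 608) (nat_lit 2820041162) (nat_lit 76) (nat_lit 3140798517) (nat_lit 259) (nat_lit 5) (nat_lit 267) (nat_lit 5) (nat_lit 260) (nat_lit 5) (nat_lit 461) (nat_lit 389) (nat_lit 290)) (XT.lf (nat_lit 0) (nat_lit 4728396004)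 (nat_lit 532) (nat_lit 3735817513) (nat_lit 608) (nat_lit 2962566674) (nat_lit 252) (nat_lit 5) (nat_lit 259) (nat_lit 5) (nat_lit 260) (nat_lit 5) (nat_lit 462) (nat_lit 389) (nat_lit 289)))))) (XT.nd (nat_lit 468) (nat_lit 2356) (nat_lit 0) (XT.nd (nat_lit 234) (nat_lit 1064) (nat_lit 0) (XT.nd (nat_lit 78) (nat_lit 456) (nat_lit 0) (XT.lf (nat_lit 0) (nat_lit 101279638) (nat_lit 608) (nat_lit 10661777838) (nat_lit 76) (nat_lit 787625545) (nat_lit 244) (nat_lit 5) (nat_lit 252) (nat_lit 5) (nat_lit 245) (nat_lit 5) (nat_lit 463) (nat_lit 389) (nat_lit 288)) (XT.nd (nat_lit 78) (nat_lit 456) (nat_lit 0) (XT.lf (nat_lit 0) (nat_lit 3233770719) (nat_lit 608) (nat_lit 3034634325) (nat_lit 76) (nat_lit 5407326481) (nat_lit 244) (nat_lit 5) (nat_lit 252) (nat_lit 5) (nat_lit 245) (nat_lit 5) (nat_lit 464) (nat_lit 389) (nat_lit 287)) (XT.lf (nat_lit 0) (nat_lit 4775775175) (nat_lit 456) (nat_lit 1661606350) (nat_lit 532) (nat_lit 5365730074)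 (nat_lit 238) (nat_lit 5) (nat_lit 244) (nat_lit 5) (nat_lit 245) (nat_lit 5) (nat_lit 465) (nat_lit 389) (nat_lit 286)))) (XT.nd (nat_lit 78) (nat_lit 532) (nat_lit 0) (XT.lf (nat_lit 0) (nat_lit 809571519) (nat_lit 532) (nat_lit 8918605959) (nat_lit 608) (nat_lit 2204399538) (nat_lit 231) (nat_lit 5) (nat_lit 238) (nat_lit 5) (nat_lit 239) (nat_lit 5) (nat_lit 466) (nat_lit 389) (nat_lit 285)) (XT.nd (nat_lit 78) (nat_lit 456) (nat_lit 0) (XT.lf (nat_lit 0) (nat_lit 1042973908) (nat_lit 608) (nat_lit 3215325476) (nat_lit 76) (nat_lit 7805475970) (nat_lit 230) (nat_lit 5) (nat_lit 238) (nat_lit 5) (nat_lit 231) (nat_lit 5) (nat_lit 467) (nat_lit 389) (nat_lit 284)) (XT.lf (nat_lit 0) (nat_lit 4339030690) (nat_lit 532) (nat_lit 7332352841) (nat_lit 76) (nat_lit 525657651) (nat_lit 224) (nat_lit 5) (nat_lit 231) (nat_lit 5) (nat_lit 225) (nat_lit 5) (nat_lit 468) (nat_lit 389) (nat_lit 283))))) (XT.nd (nat_lit 234) (nat_lit 1368) (nat_lit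 0) (XT.nd (nat_lit 78) (nat_lit 532) (nat_lit 0) (XT.lf (nat_lit 0) (nat_lit 767363857) (nat_lit 456) (nat_lit 6966868004) (nat_lit 532) (nat_lit 4598076000) (nat_lit 218) (nat_lit 5) (nat_lit 224) (nat_lit 5) (nat_lit 225) (nat_lit 5) (nat_lit 469) (nat_lit 389) (nat_lit 282)) (XT.nd (nat_lit 78) (nat_lit 532) (nat_lit 0) (XT.lf (nat_lit 0) (nat_lit 9096972500) (nat_lit 456) (nat_lit 2128110041) (nat_lit 532) (nat_lit 1244642422) (nat_lit 218) (nat_lit 5) (nat_lit 224) (nat_lit 5) (nat_lit 225) (nat_lit 5) (nat_lit 470) (nat_lit 389) (nat_lit 281)) (XT.lf (nat_lit 0) (nat_lit 2177104380) (nat_lit 532) (nat_lit 7624232308) (nat_lit 76) (nat_lit 2807675552) (nat_lit 211) (nat_lit 5) (nat_lit 218) (nat_lit 5) (nat_lit 212) (nat_lit 5) (nat_lit 471) (nat_lit 389) (nat_lit 280)))) (XT.nd (nat_lit 156) (nat_lit 912) (nat_lit 0) (XT.nd (nat_lit 78) (nat_lit 0) (nat_lit 0) (XT.lf (nat_lit 0) (nat_lit 760732411) (nat_lit 456) (nat_lit 4910691353)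 (nat_lit 532) (nat_lit 7079080887) (nat_lit 205) (nat_lit 5) (nat_lit 211) (nat_lit 5) (nat_lit 212) (nat_lit 5) (nat_lit 472) (nat_lit 389) (nat_lit 279)) (XT.lf (nat_lit 0) (nat_lit 9266751860) (nat_lit 532) (nat_lit 3509353756) (nat_lit 76) (nat_lit 118098848) (nat_lit 205) (nat_lit 5) (nat_lit 212) (nat_lit 5) (nat_lit 206) (nat_lit 5) (nat_lit 473) (nat_lit 389) (nat_lit 278))) (XT.nd (nat_lit 78) (nat_lit 532) (nat_lit 0) (XT.lf (nat_lit 0) (nat_lit 5144792273) (nat_lit 380) (nat_lit 7834644248) (nat_lit 456) (nat_lit 60432753) (nat_lit 200) (nat_lit 5) (nat_lit 205) (nat_lit 5) (nat_lit 206) (nat_lit 5) (nat_lit 474) (nat_lit 389) (nat_lit 277)) (XT.lf (nat_lit 0) (nat_lit 787656169) (nat_lit 456) (nat_lit 2751759510) (nat_lit 532) (nat_lit 9648398827) (nat_lit 193) (nat_lit 5) (nat_lit 199) (nat_lit 5) (nat_lit 200) (nat_lit 5) (nat_lit 475) (nat_lit 389) (nat_lit 276))))))) (XT.nd (nat_lit 53352) (nat_lit 0) (nat_lit 37316) (XT.nd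 (nat_lit 52806) (nat_lit 0) (nat_lit 41496) (XT.nd (nat_lit 234) (nat_lit 0) (nat_lit 0) (XT.nd (nat_lit 78) (nat_lit 836) (nat_lit 0) (XT.lf (nat_lit 0) (nat_lit 7259305325) (nat_lit 532) (nat_lit 3634177071) (nat_lit 76) (nat_lit 2444251190) (nat_lit 193) (nat_lit 5) (nat_lit 200) (nat_lit 5) (nat_lit 194) (nat_lit 5) (nat_lit 476) (nat_lit 389) (nat_lit 275)) (XT.nd (nat_lit 78) (nat_lit 456) (nat_lit 0) (XT.lf (nat_lit 0) (nat_lit 5328355570) (nat_lit 380) (nat_lit 5758179962) (nat_lit 456) (nat_lit 2403456660) (nat_lit 188) (nat_lit 5) (nat_lit 193) (nat_lit 5) (nat_lit 194) (nat_lit 5) (nat_lit 477) (nat_lit 389) (nat_lit 274)) (XT.lf (nat_lit 0) (nat_lit 846307971) (nat_lit 380) (nat_lit 491296938) (nat_lit 456) (nat_lit 12307311794) (nat_lit 182) (nat_lit 5) (nat_lit 187) (nat_lit 5) (nat_lit 188) (nat_lit 5) (nat_lit 478) (nat_lit 389) (nat_lit 273)))) (XT.nd (nat_lit 52416) (nat_lit 0) (nat_lit 43928) (XT.lf (nat_lit 0) (nat_lit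 5188466953) (nat_lit 456) (nat_lit 3735382276) (nat_lit 76) (nat_lit 4877429507) (nat_lit 182) (nat_lit 5) (nat_lit 188) (nat_lit 5) (nat_lit 183) (nat_lit 5) (nat_lit 479) (nat_lit 389) (nat_lit 272)) (XT.nd (nat_lit 78) (nat_lit 0) (nat_lit 0) (XT.lf (nat_lit 0) (nat_lit 888298796) (nat_lit 0) (nat_lit 888298796) (nat_lit 684) (nat_lit 1539233435) (nat_lit 760) (nat_lit 5) (nat_lit 760) (nat_lit 3) (nat_lit 769) (nat_lit 3) (nat_lit 390) (nat_lit 390) (nat_lit 360)) (XT.lf (nat_lit 0) (nat_lit 5127561650) (nat_lit 0) (nat_lit 792216276) (nat_lit 684) (nat_lit 731579736) (nat_lit 760) (nat_lit 5) (nat_lit 760) (nat_lit 3) (nat_lit 769) (nat_lit 3) (nat_lit 391) (nat_lit 390) (nat_lit 359))))) (XT.nd (nat_lit 234) (nat_lit 1672) (nat_lit 0) (XT.nd (nat_lit 78) (nat_lit 0) (nat_lit 0) (XT.lf (nat_lit 0) (nat_lit 1592669930) (nat_lit 760) (nat_lit 4817683371) (nat_lit 836) (nat_lit 261833521) (nat_lit 750) (nat_lit 5) (nat_lit 760) (nat_lit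 5) (nat_lit 761) (nat_lit 5) (nat_lit 392) (nat_lit 390) (nat_lit 358)) (XT.nd (nat_lit 78) (nat_lit 0) (nat_lit 0) (XT.lf (nat_lit 0) (nat_lit 3908803338) (nat_lit 760) (nat_lit 1414947901) (nat_lit 836) (nat_lit 1370480720) (nat_lit 750) (nat_lit 5) (nat_lit 760) (nat_lit 5) (nat_lit 761) (nat_lit 5) (nat_lit 393) (nat_lit 390) (nat_lit 357)) (XT.lf (nat_lit 76) (nat_lit 2050792593) (nat_lit 0) (nat_lit 4174611128) (nat_lit 836) (nat_lit 492231391) (nat_lit 751) (nat_lit 5) (nat_lit 750) (nat_lit 5) (nat_lit 761) (nat_lit 5) (nat_lit 394) (nat_lit 390) (nat_lit 356)))) (XT.nd (nat_lit 156) (nat_lit 836) (nat_lit 0) (XT.nd (nat_lit 78) (nat_lit 0) (nat_lit 0) (XT.lf (nat_lit 0) (nat_lit 1773564026) (nat_lit 836) (nat_lit 1180857083) (nat_lit 912) (nat_lit 3787826287) (nat_lit 739) (nat_lit 5) (nat_lit 750) (nat_lit 5) (nat_lit 751) (nat_lit 5) (nat_lit 395) (nat_lit 390) (nat_lit 355)) (XT.lf (nat_lit 76) (nat_lit 2370804505) (nat_lit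 0) (nat_lit 1665225749) (nat_lit 912) (nat_lit 2732097682) (nat_lit 740) (nat_lit 5) (nat_lit 739) (nat_lit 5) (nat_lit 751) (nat_lit 5) (nat_lit 396) (nat_lit 390) (nat_lit 354))) (XT.nd (nat_lit 78) (nat_lit 836) (nat_lit 0) (XT.lf (nat_lit 76) (nat_lit 5977838600) (nat_lit 0) (nat_lit 317299189) (nat_lit 912) (nat_lit 500360458) (nat_lit 740) (nat_lit 5) (nat_lit 739) (nat_lit 5) (nat_lit 751) (nat_lit 5) (nat_lit 397) (nat_lit 390) (nat_lit 353)) (XT.lf (nat_lit 0) (nat_lit 1722505458) (nat_lit 912) (nat_lit 4003794697) (nat_lit 988) (nat_lit 1097489455) (nat_lit 728) (nat_lit 5) (nat_lit 740) (nat_lit 5) (nat_lit 741) (nat_lit 5) (nat_lit 398) (nat_lit 390) (nat_lit 352)))))) (XT.nd (nat_lit 468) (nat_lit 2204) (nat_lit 0) (XT.nd (nat_lit 234) (nat_lit 988) (nat_lit 0) (XT.nd (nat_lit 78) (nat_lit 988) (nat_lit 0) (XT.lf (nat_lit 0) (nat_lit 3936009284) (nat_lit 912) (nat_lit 349330591) (nat_lit 988) (nat_lit 2568183169) (nat_lit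 728) (nat_lit 5) (nat_lit 740) (nat_lit 5) (nat_lit 741) (nat_lit 5) (nat_lit 399) (nat_lit 390) (nat_lit 351)) (XT.nd (nat_lit 78) (nat_lit 988) (nat_lit 0) (XT.lf (nat_lit 76) (nat_lit 3390505190) (nat_lit 0) (nat_lit 2771614514) (nat_lit 988) (nat_lit 722364712) (nat_lit 729) (nat_lit 5) (nat_lit 728) (nat_lit 5) (nat_lit 741) (nat_lit 5) (nat_lit 400) (nat_lit 390) (nat_lit 350)) (XT.lf (nat_lit 76) (nat_lit 254652057) (nat_lit 0) (nat_lit 1192974846) (nat_lit 1064) (nat_lit 5469224542) (nat_lit 716) (nat_lit 5) (nat_lit 715) (nat_lit 5) (nat_lit 729) (nat_lit 5) (nat_lit 401) (nat_lit 390) (nat_lit 349)))) (XT.nd (nat_lit 78) (nat_lit 1064) (nat_lit 0) (XT.lf (nat_lit 0) (nat_lit 3625444862) (nat_lit 988) (nat_lit 2865068057) (nat_lit 1064) (nat_lit 459775419) (nat_lit 716) (nat_lit 5) (nat_lit 729) (nat_lit 5) (nat_lit 730) (nat_lit 5) (nat_lit 402) (nat_lit 390) (nat_lit 348)) (XT.nd (nat_lit 78) (nat_lit 1064) (nat_lit 0) (XT.lf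 (nat_lit 76) (nat_lit 979976784) (nat_lit 0) (nat_lit 4829908722) (nat_lit 1064) (nat_lit 1175247137) (nat_lit 717) (nat_lit 5) (nat_lit 716) (nat_lit 5) (nat_lit 730) (nat_lit 5) (nat_lit 403) (nat_lit 390) (nat_lit 347)) (XT.lf (nat_lit 0) (nat_lit 972612448) (nat_lit 1064) (nat_lit 2119701128) (nat_lit 1140) (nat_lit 3928855874) (nat_lit 702) (nat_lit 5) (nat_lit 716) (nat_lit 5) (nat_lit 717) (nat_lit 5) (nat_lit 404) (nat_lit 390) (nat_lit 346))))) (XT.nd (nat_lit 234) (nat_lit 1140) (nat_lit 0) (XT.nd (nat_lit 78) (nat_lit 1064) (nat_lit 0) (XT.lf (nat_lit 76) (nat_lit 1826856298) (nat_lit 0) (nat_lit 1282967623) (nat_lit 1140) (nat_lit 3948705079) (nat_lit 703) (nat_lit 5) (nat_lit 702) (nat_lit 5) (nat_lit 717) (nat_lit 5) (nat_lit 405) (nat_lit 390) (nat_lit 345)) (XT.nd (nat_lit 78) (nat_lit 1140) (nat_lit 0) (XT.lf (nat_lit 0) (nat_lit 5258876570) (nat_lit 1064) (nat_lit 1252673383) (nat_lit 1140) (nat_lit 585703849) (nat_lit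 703) (nat_lit 5) (nat_lit 717) (nat_lit 5) (nat_lit 718) (nat_lit 5) (nat_lit 406) (nat_lit 390) (nat_lit 344)) (XT.lf (nat_lit 0) (nat_lit 288663955) (nat_lit 1140) (nat_lit 4337923262) (nat_lit 1216) (nat_lit 2510552550) (nat_lit 688) (nat_lit 5) (nat_lit 703) (nat_lit 5) (nat_lit 704) (nat_lit 5) (nat_lit 407) (nat_lit 390) (nat_lit 343)))) (XT.nd (nat_lit 156) (nat_lit 1140) (nat_lit 0) (XT.nd (nat_lit 78) (nat_lit 0) (nat_lit 0) (XT.lf (nat_lit 0) (nat_lit 2394613285) (nat_lit 1140) (nat_lit 274168871) (nat_lit 1216) (nat_lit 4509578596) (nat_lit 688) (nat_lit 5) (nat_lit 703) (nat_lit 5) (nat_lit 704) (nat_lit 5) (nat_lit 408) (nat_lit 390) (nat_lit 342)) (XT.lf (nat_lit 76) (nat_lit 3889114397) (nat_lit 0) (nat_lit 632247731) (nat_lit 1216) (nat_lit 2699470420) (nat_lit 689) (nat_lit 5) (nat_lit 688) (nat_lit 5) (nat_lit 704) (nat_lit 5) (nat_lit 409) (nat_lit 390) (nat_lit 341))) (XT.nd (nat_lit 78) (nat_lit 76) (nat_lit 0) (XT.lf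 (nat_lit 0) (nat_lit 843388690) (nat_lit 1140) (nat_lit 5818185368) (nat_lit 1216) (nat_lit 603161158) (nat_lit 674) (nat_lit 5) (nat_lit 689) (nat_lit 5) (nat_lit 690) (nat_lit 5) (nat_lit 410) (nat_lit 390) (nat_lit 340)) (XT.lf (nat_lit 0) (nat_lit 1496235152) (nat_lit 1216) (nat_lit 2210134410) (nat_lit 76) (nat_lit 3603321170) (nat_lit 673) (nat_lit 5) (nat_lit 689) (nat_lit 5) (nat_lit 674) (nat_lit 5) (nat_lit 411) (nat_lit 390) (nat_lit 339))))))))
noncomputable def xc71 : XT := (XT.nd (nat_lit 2028) (nat_lit 12008) (nat_lit 0) (XT.nd (nat_lit 1014) (nat_lit 8512) (nat_lit 0) (XT.nd (nat_lit 468) (nat_lit 6688) (nat_lit 0) (XT.nd (nat_lit 234) (nat_lit 2812) (nat_lit 0) (XT.nd (nat_lit 78) (nat_lit 1368) (nat_lit 0) (XT.lf (nat_lit 0) (nat_lit 2075266416) (nat_lit 1216) (nat_lit 1523249302) (nat_lit 1292) (nat_lit 3757570448) (nat_lit 657) (nat_lit 5) (nat_lit 673) (nat_lit 5) (nat_lit 674) (nat_lit 5) (nat_lit 412) (nat_lit 390)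 (nat_lit 338)) (XT.nd (nat_lit 78) (nat_lit 1368) (nat_lit 0) (XT.lf (nat_lit 0) (nat_lit 5718558587) (nat_lit 1292) (nat_lit 965431678) (nat_lit 76) (nat_lit 719904910) (nat_lit 657) (nat_lit 5) (nat_lit 674) (nat_lit 5) (nat_lit 658) (nat_lit 5) (nat_lit 413) (nat_lit 390) (nat_lit 337)) (XT.lf (nat_lit 0) (nat_lit 412141648) (nat_lit 1368) (nat_lit 4017636970) (nat_lit 76) (nat_lit 3023037775) (nat_lit 639) (nat_lit 5) (nat_lit 657) (nat_lit 5) (nat_lit 640) (nat_lit 5) (nat_lit 414) (nat_lit 390) (nat_lit 336)))) (XT.nd (nat_lit 78) (nat_lit 1444) (nat_lit 0) (XT.lf (nat_lit 0) (nat_lit 394607072) (nat_lit 1368) (nat_lit 2100924858) (nat_lit 1444) (nat_lit 5007630722) (nat_lit 621) (nat_lit 5) (nat_lit 639) (nat_lit 5) (nat_lit 640) (nat_lit 5) (nat_lit 415) (nat_lit 390) (nat_lit 335)) (XT.nd (nat_lit 78) (nat_lit 1444) (nat_lit 0) (XT.lf (nat_lit 0) (nat_lit 4607608759) (nat_lit 1444) (nat_lit 2640721413) (nat_lit 76) (nat_lit 306445289)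 (nat_lit 621) (nat_lit 5) (nat_lit 640) (nat_lit 5) (nat_lit 622) (nat_lit 5) (nat_lit 416) (nat_lit 390) (nat_lit 334)) (XT.lf (nat_lit 0) (nat_lit 1893725830) (nat_lit 1444) (nat_lit 4853329106) (nat_lit 1520) (nat_lit 860663032) (nat_lit 602) (nat_lit 5) (nat_lit 621) (nat_lit 5) (nat_lit 622) (nat_lit 5) (nat_lit 417) (nat_lit 390) (nat_lit 333))))) (XT.nd (nat_lit 234) (nat_lit 3496) (nat_lit 0) (XT.nd (nat_lit 78) (nat_lit 3116) (nat_lit 0) (XT.lf (nat_lit 0) (nat_lit 1228023553) (nat_lit 1520) (nat_lit 1149041438) (nat_lit 76) (nat_lit 5284948192) (nat_lit 601) (nat_lit 5) (nat_lit 621) (nat_lit 5) (nat_lit 602) (nat_lit 5) (nat_lit 418) (nat_lit 390) (nat_lit 332)) (XT.nd (nat_lit 78) (nat_lit 1596) (nat_lit 0) (XT.lf (nat_lit 0) (nat_lit 3331023486) (nat_lit 1596) (nat_lit 4204542411) (nat_lit 76) (nat_lit 182033349) (nat_lit 581) (nat_lit 5) (nat_lit 602) (nat_lit 5) (nat_lit 582) (nat_lit 5) (nat_lit 419) (nat_lit 390) (nat_lit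 331)) (XT.lf (nat_lit 0) (nat_lit 466221145) (nat_lit 1596) (nat_lit 4997041175) (nat_lit 1672) (nat_lit 2311291130) (nat_lit 560) (nat_lit 5) (nat_lit 581) (nat_lit 5) (nat_lit 582) (nat_lit 5) (nat_lit 420) (nat_lit 390) (nat_lit 330)))) (XT.nd (nat_lit 156) (nat_lit 1748) (nat_lit 0) (XT.nd (nat_lit 78) (nat_lit 1748) (nat_lit 0) (XT.lf (nat_lit 0) (nat_lit 5253686846) (nat_lit 1596) (nat_lit 2373874538) (nat_lit 1672) (nat_lit 205297048) (nat_lit 560) (nat_lit 5) (nat_lit 581) (nat_lit 5) (nat_lit 582) (nat_lit 5) (nat_lit 421) (nat_lit 390) (nat_lit 329)) (XT.lf (nat_lit 0) (nat_lit 1895678584) (nat_lit 1748) (nat_lit 5667103868) (nat_lit 76) (nat_lit 329727937) (nat_lit 537) (nat_lit 5) (nat_lit 560) (nat_lit 5) (nat_lit 538) (nat_lit 5) (nat_lit 422) (nat_lit 390) (nat_lit 328))) (XT.nd (nat_lit 78) (nat_lit 1748) (nat_lit 0) (XT.lf (nat_lit 0) (nat_lit 4031343306) (nat_lit 1748) (nat_lit 843284742) (nat_lit 76) (nat_lit 3078791826)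 (nat_lit 537) (nat_lit 5) (nat_lit 560) (nat_lit 5) (nat_lit 538) (nat_lit 5) (nat_lit 423) (nat_lit 390) (nat_lit 327)) (XT.lf (nat_lit 0) (nat_lit 4097298727) (nat_lit 1748) (nat_lit 2102037422) (nat_lit 1824) (nat_lit 1816419106) (nat_lit 514) (nat_lit 5) (nat_lit 537) (nat_lit 5) (nat_lit 538) (nat_lit 5) (nat_lit 424) (nat_lit 390) (nat_lit 326)))))) (XT.nd (nat_lit 468) (nat_lit 3572) (nat_lit 0) (XT.nd (nat_lit 234) (nat_lit 1900) (nat_lit 0) (XT.nd (nat_lit 78) (nat_lit 1140) (nat_lit 0) (XT.lf (nat_lit 0) (nat_lit 307608704) (nat_lit 1900) (nat_lit 7037886036) (nat_lit 76) (nat_lit 734187516) (nat_lit 489) (nat_lit 5) (nat_lit 514) (nat_lit 5) (nat_lit 490) (nat_lit 5) (nat_lit 425) (nat_lit 390) (nat_lit 325)) (XT.nd (nat_lit 78) (nat_lit 1140) (nat_lit 0) (XT.lf (nat_lit 0) (nat_lit 2454008343) (nat_lit 1900) (nat_lit 2050353315) (nat_lit 76) (nat_lit 3640201746) (nat_lit 489) (nat_lit 5) (nat_lit 514) (nat_lit 5) (nat_lit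 490) (nat_lit 5) (nat_lit 426) (nat_lit 390) (nat_lit 324)) (XT.lf (nat_lit 0) (nat_lit 3043277535) (nat_lit 1140) (nat_lit 1584327774) (nat_lit 1216) (nat_lit 3583451479) (nat_lit 474) (nat_lit 5) (nat_lit 489) (nat_lit 5) (nat_lit 490) (nat_lit 5) (nat_lit 427) (nat_lit 390) (nat_lit 323)))) (XT.nd (nat_lit 78) (nat_lit 1900) (nat_lit 0) (XT.lf (nat_lit 0) (nat_lit 6832576302) (nat_lit 1216) (nat_lit 55229212) (nat_lit 76) (nat_lit 1391316485) (nat_lit 474) (nat_lit 5) (nat_lit 490) (nat_lit 5) (nat_lit 475) (nat_lit 5) (nat_lit 428) (nat_lit 390) (nat_lit 322)) (XT.nd (nat_lit 78) (nat_lit 912) (nat_lit 0) (XT.lf (nat_lit 0) (nat_lit 733383532) (nat_lit 988) (nat_lit 3169500353) (nat_lit 76) (nat_lit 4445371433) (nat_lit 461) (nat_lit 5) (nat_lit 474) (nat_lit 5) (nat_lit 462) (nat_lit 5) (nat_lit 429) (nat_lit 390) (nat_lit 321)) (XT.lf (nat_lit 0) (nat_lit 2083525839) (nat_lit 912) (nat_lit 833855130) (nat_lit 988) (nat_lit 5501602323)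 (nat_lit 449) (nat_lit 5) (nat_lit 461) (nat_lit 5) (nat_lit 462) (nat_lit 5) (nat_lit 430) (nat_lit 390) (nat_lit 320))))) (XT.nd (nat_lit 234) (nat_lit 1748) (nat_lit 0) (XT.nd (nat_lit 78) (nat_lit 1824) (nat_lit 0) (XT.lf (nat_lit 0) (nat_lit 5147751902) (nat_lit 988) (nat_lit 1055250279) (nat_lit 76) (nat_lit 2288069774) (nat_lit 449) (nat_lit 5) (nat_lit 462) (nat_lit 5) (nat_lit 450) (nat_lit 5) (nat_lit 431) (nat_lit 390) (nat_lit 319)) (XT.nd (nat_lit 78) (nat_lit 988) (nat_lit 0) (XT.lf (nat_lit 0) (nat_lit 4348666288) (nat_lit 836) (nat_lit 3074852886) (nat_lit 912) (nat_lit 1141067439) (nat_lit 438) (nat_lit 5) (nat_lit 449) (nat_lit 5) (nat_lit 450) (nat_lit 5) (nat_lit 432) (nat_lit 390) (nat_lit 318)) (XT.lf (nat_lit 0) (nat_lit 1073864056) (nat_lit 988) (nat_lit 7430108783) (nat_lit 76) (nat_lit 135792624) (nat_lit 425) (nat_lit 5) (nat_lit 438) (nat_lit 5) (nat_lit 426) (nat_lit 5) (nat_lit 433) (nat_lit 390) (nat_lit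 317)))) (XT.nd (nat_lit 156) (nat_lit 912) (nat_lit 0) (XT.nd (nat_lit 78) (nat_lit 836) (nat_lit 0) (XT.lf (nat_lit 0) (nat_lit 3334337372) (nat_lit 988) (nat_lit 1977136222) (nat_lit 76) (nat_lit 3404493007) (nat_lit 425) (nat_lit 5) (nat_lit 438) (nat_lit 5) (nat_lit 426) (nat_lit 5) (nat_lit 434) (nat_lit 390) (nat_lit 316)) (XT.lf (nat_lit 0) (nat_lit 3598721187) (nat_lit 836) (nat_lit 2032964382) (nat_lit 912) (nat_lit 3162172883) (nat_lit 414) (nat_lit 5) (nat_lit 425) (nat_lit 5) (nat_lit 426) (nat_lit 5) (nat_lit 435) (nat_lit 390) (nat_lit 315))) (XT.nd (nat_lit 78) (nat_lit 76) (nat_lit 0) (XT.lf (nat_lit 0) (nat_lit 402768726) (nat_lit 836) (nat_lit 7565389538) (nat_lit 912) (nat_lit 905286325) (nat_lit 403) (nat_lit 5) (nat_lit 414) (nat_lit 5) (nat_lit 415) (nat_lit 5) (nat_lit 436) (nat_lit 390) (nat_lit 314)) (XT.lf (nat_lit 0) (nat_lit 1395861530) (nat_lit 912) (nat_lit 2827591746) (nat_lit 76) (nat_lit 4730638961) (nat_lit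 402) (nat_lit 5) (nat_lit 414) (nat_lit 5) (nat_lit 403) (nat_lit 5) (nat_lit 437) (nat_lit 390) (nat_lit 313))))))) (XT.nd (nat_lit 1014) (nat_lit 5396) (nat_lit 0) (XT.nd (nat_lit 468) (nat_lit 3496) (nat_lit 0) (XT.nd (nat_lit 234) (nat_lit 1596) (nat_lit 0) (XT.nd (nat_lit 78) (nat_lit 760) (nat_lit 0) (XT.lf (nat_lit 0) (nat_lit 2927460732) (nat_lit 760) (nat_lit 791963976) (nat_lit 836) (nat_lit 5317038169) (nat_lit 392) (nat_lit 5) (nat_lit 402) (nat_lit 5) (nat_lit 403) (nat_lit 5) (nat_lit 438) (nat_lit 390) (nat_lit 312)) (XT.nd (nat_lit 78) (nat_lit 760) (nat_lit 0) (XT.lf (nat_lit 0) (nat_lit 6096002599) (nat_lit 836) (nat_lit 335523666) (nat_lit 76) (nat_lit 2688823796) (nat_lit 392) (nat_lit 5) (nat_lit 403) (nat_lit 5) (nat_lit 393) (nat_lit 5) (nat_lit 439) (nat_lit 390) (nat_lit 311)) (XT.lf (nat_lit 0) (nat_lit 5588476959) (nat_lit 760) (nat_lit 2943614982) (nat_lit 836) (nat_lit 673583450) (nat_lit 382) (nat_lit 5)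 (nat_lit 392) (nat_lit 5) (nat_lit 393) (nat_lit 5) (nat_lit 440) (nat_lit 390) (nat_lit 310)))) (XT.nd (nat_lit 78) (nat_lit 760) (nat_lit 0) (XT.lf (nat_lit 0) (nat_lit 1693746439) (nat_lit 836) (nat_lit 6967865053) (nat_lit 76) (nat_lit 631028567) (nat_lit 371) (nat_lit 5) (nat_lit 382) (nat_lit 5) (nat_lit 372) (nat_lit 5) (nat_lit 441) (nat_lit 390) (nat_lit 309)) (XT.nd (nat_lit 78) (nat_lit 760) (nat_lit 0) (XT.lf (nat_lit 0) (nat_lit 4114301059) (nat_lit 836) (nat_lit 1003860567) (nat_lit 76) (nat_lit 4262795399) (nat_lit 371) (nat_lit 5) (nat_lit 382) (nat_lit 5) (nat_lit 372) (nat_lit 5) (nat_lit 442) (nat_lit 390) (nat_lit 308)) (XT.lf (nat_lit 0) (nat_lit 5113641016) (nat_lit 760) (nat_lit 1474357088) (nat_lit 836) (nat_lit 2882947600) (nat_lit 361) (nat_lit 5) (nat_lit 371) (nat_lit 5) (nat_lit 372) (nat_lit 5) (nat_lit 443) (nat_lit 390) (nat_lit 307))))) (XT.nd (nat_lit 234) (nat_lit 2052) (nat_lit 0) (XT.nd (nat_lit 78)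 (nat_lit 760) (nat_lit 0) (XT.lf (nat_lit 0) (nat_lit 1780077179) (nat_lit 684) (nat_lit 7335836309) (nat_lit 760) (nat_lit 446725780) (nat_lit 352) (nat_lit 5) (nat_lit 361) (nat_lit 5) (nat_lit 362) (nat_lit 5) (nat_lit 444) (nat_lit 390) (nat_lit 306)) (XT.nd (nat_lit 78) (nat_lit 684) (nat_lit 0) (XT.lf (nat_lit 0) (nat_lit 2022687400) (nat_lit 760) (nat_lit 1612822163) (nat_lit 76) (nat_lit 6020168501) (nat_lit 351) (nat_lit 5) (nat_lit 361) (nat_lit 5) (nat_lit 352) (nat_lit 5) (nat_lit 445) (nat_lit 390) (nat_lit 305)) (XT.lf (nat_lit 0) (nat_lit 4539709498) (nat_lit 760) (nat_lit 5045133118) (nat_lit 76) (nat_lit 165591915) (nat_lit 342) (nat_lit 5) (nat_lit 352) (nat_lit 5) (nat_lit 343) (nat_lit 5) (nat_lit 446) (nat_lit 390) (nat_lit 304)))) (XT.nd (nat_lit 156) (nat_lit 1368) (nat_lit 0) (XT.nd (nat_lit 78) (nat_lit 0) (nat_lit 0) (XT.lf (nat_lit 0) (nat_lit 1284518953) (nat_lit 684) (nat_lit 5838706892) (nat_lit 760) (nat_lit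 2723537207) (nat_lit 333) (nat_lit 5) (nat_lit 342) (nat_lit 5) (nat_lit 343) (nat_lit 5) (nat_lit 447) (nat_lit 390) (nat_lit 303)) (XT.lf (nat_lit 0) (nat_lit 7776409150) (nat_lit 684) (nat_lit 1989021843) (nat_lit 760) (nat_lit 179446782) (nat_lit 333) (nat_lit 5) (nat_lit 342) (nat_lit 5) (nat_lit 343) (nat_lit 5) (nat_lit 448) (nat_lit 390) (nat_lit 302))) (XT.nd (nat_lit 78) (nat_lit 608) (nat_lit 0) (XT.lf (nat_lit 0) (nat_lit 2398516255) (nat_lit 760) (nat_lit 5695179626) (nat_lit 76) (nat_lit 1950651829) (nat_lit 323) (nat_lit 5) (nat_lit 333) (nat_lit 5) (nat_lit 324) (nat_lit 5) (nat_lit 449) (nat_lit 390) (nat_lit 301)) (XT.lf (nat_lit 0) (nat_lit 844936487) (nat_lit 608) (nat_lit 4187793239) (nat_lit 684) (nat_lit 5112911715) (nat_lit 315) (nat_lit 5) (nat_lit 323) (nat_lit 5) (nat_lit 324) (nat_lit 5) (nat_lit 450) (nat_lit 390) (nat_lit 300)))))) (XT.nd (nat_lit 546) (nat_lit 2888) (nat_lit 0) (XT.nd (nat_lit 234) (nat_lit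 1216) (nat_lit 0) (XT.nd (nat_lit 78) (nat_lit 1292) (nat_lit 0) (XT.lf (nat_lit 0) (nat_lit 7560546270) (nat_lit 608) (nat_lit 171387361) (nat_lit 684) (nat_lit 2516781294) (nat_lit 315) (nat_lit 5) (nat_lit 323) (nat_lit 5) (nat_lit 324) (nat_lit 5) (nat_lit 451) (nat_lit 390) (nat_lit 299)) (XT.nd (nat_lit 78) (nat_lit 608) (nat_lit 0) (XT.lf (nat_lit 0) (nat_lit 156072982) (nat_lit 684) (nat_lit 6302412373) (nat_lit 76) (nat_lit 3894817018) (nat_lit 306) (nat_lit 5) (nat_lit 315) (nat_lit 5) (nat_lit 307) (nat_lit 5) (nat_lit 452) (nat_lit 390) (nat_lit 298)) (XT.lf (nat_lit 0) (nat_lit 457160976) (nat_lit 608) (nat_lit 2388495221) (nat_lit 684) (nat_lit 7614053224) (nat_lit 298) (nat_lit 5) (nat_lit 306) (nat_lit 5) (nat_lit 307) (nat_lit 5) (nat_lit 453) (nat_lit 390) (nat_lit 297)))) (XT.nd (nat_lit 156) (nat_lit 608) (nat_lit 0) (XT.nd (nat_lit 78) (nat_lit 608) (nat_lit 0) (XT.lf (nat_lit 0) (nat_lit 5617968206) (nat_lit 684)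 (nat_lit 3174469116) (nat_lit 76) (nat_lit 1775228546) (nat_lit 298) (nat_lit 5) (nat_lit 307) (nat_lit 5) (nat_lit 299) (nat_lit 5) (nat_lit 454) (nat_lit 390) (nat_lit 296)) (XT.lf (nat_lit 0) (nat_lit 3792027224) (nat_lit 608) (nat_lit 4669547885) (nat_lit 684) (nat_lit 2215889361) (nat_lit 290) (nat_lit 5) (nat_lit 298) (nat_lit 5) (nat_lit 299) (nat_lit 5) (nat_lit 455) (nat_lit 390) (nat_lit 295))) (XT.nd (nat_lit 78) (nat_lit 0) (nat_lit 0) (XT.lf (nat_lit 0) (nat_lit 117357492) (nat_lit 532) (nat_lit 445458114) (nat_lit 608) (nat_lit 10226614482) (nat_lit 282) (nat_lit 5) (nat_lit 289) (nat_lit 5) (nat_lit 290) (nat_lit 5) (nat_lit 456) (nat_lit 390) (nat_lit 294)) (XT.lf (nat_lit 0) (nat_lit 3414791243) (nat_lit 608) (nat_lit 3621627722) (nat_lit 76) (nat_lit 3865975766) (nat_lit 282) (nat_lit 5) (nat_lit 290) (nat_lit 5) (nat_lit 283) (nat_lit 5) (nat_lit 457) (nat_lit 390) (nat_lit 293))))) (XT.nd (nat_lit 234) (nat_lit 1672)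 (nat_lit 0) (XT.nd (nat_lit 78) (nat_lit 608) (nat_lit 0) (XT.lf (nat_lit 0) (nat_lit 3582094842) (nat_lit 608) (nat_lit 2744141287) (nat_lit 684) (nat_lit 4691333942) (nat_lit 274) (nat_lit 5) (nat_lit 282) (nat_lit 5) (nat_lit 283) (nat_lit 5) (nat_lit 458) (nat_lit 390) (nat_lit 292)) (XT.nd (nat_lit 78) (nat_lit 608) (nat_lit 0) (XT.lf (nat_lit 0) (nat_lit 9307414332) (nat_lit 684) (nat_lit 198318895) (nat_lit 76) (nat_lit 1629085603) (nat_lit 274) (nat_lit 5) (nat_lit 283) (nat_lit 5) (nat_lit 275) (nat_lit 5) (nat_lit 459) (nat_lit 390) (nat_lit 291)) (XT.lf (nat_lit 0) (nat_lit 1121737685) (nat_lit 608) (nat_lit 4032080292) (nat_lit 76) (nat_lit 6099606962) (nat_lit 266) (nat_lit 5) (nat_lit 274) (nat_lit 5) (nat_lit 267) (nat_lit 5) (nat_lit 460) (nat_lit 390) (nat_lit 290)))) (XT.nd (nat_lit 156) (nat_lit 1140) (nat_lit 0) (XT.nd (nat_lit 78) (nat_lit 0) (nat_lit 0) (XT.lf (nat_lit 0) (nat_lit 3419000300) (nat_lit 532) (nat_lit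 686947610) (nat_lit 608) (nat_lit 7268202594) (nat_lit 259) (nat_lit 5) (nat_lit 266) (nat_lit 5) (nat_lit 267) (nat_lit 5) (nat_lit 461) (nat_lit 390) (nat_lit 289)) (XT.lf (nat_lit 0) (nat_lit 7179387197) (nat_lit 608) (nat_lit 479928123) (nat_lit 76) (nat_lit 3837384364) (nat_lit 259) (nat_lit 5) (nat_lit 267) (nat_lit 5) (nat_lit 260) (nat_lit 5) (nat_lit 462) (nat_lit 390) (nat_lit 288))) (XT.nd (nat_lit 78) (nat_lit 608) (nat_lit 0) (XT.lf (nat_lit 0) (nat_lit 7203711249) (nat_lit 532) (nat_lit 3139538420) (nat_lit 608) (nat_lit 1277871090) (nat_lit 252) (nat_lit 5) (nat_lit 259) (nat_lit 5) (nat_lit 260) (nat_lit 5) (nat_lit 463) (nat_lit 390) (nat_lit 287)) (XT.lf (nat_lit 0) (nat_lit 1810583940) (nat_lit 608) (nat_lit 8457597862) (nat_lit 76) (nat_lit 1479369305) (nat_lit 244) (nat_lit 5) (nat_lit 252) (nat_lit 5) (nat_lit 245) (nat_lit 5) (nat_lit 464) (nat_lit 390) (nat_lit 286))))))))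
noncomputable def xc72 : XT := (XT.nd (nat_lit 54444) (nat_lit 0) (nat_lit 22192) (XT.nd (nat_lit 1014) (nat_lit 836) (nat_lit 0) (XT.nd (nat_lit 468) (nat_lit 1900) (nat_lit 0) (XT.nd (nat_lit 234) (nat_lit 988) (nat_lit 0) (XT.nd (nat_lit 78) (nat_lit 988) (nat_lit 0) (XT.lf (nat_lit 0) (nat_lit 4972248789) (nat_lit 608) (nat_lit 725311783) (nat_lit 76) (nat_lit 6178209529) (nat_lit 244) (nat_lit 5) (nat_lit 252) (nat_lit 5) (nat_lit 245) (nat_lit 5) (nat_lit 465) (nat_lit 390) (nat_lit 285)) (XT.nd (nat_lit 78) (nat_lit 532) (nat_lit 0) (XT.lf (nat_lit 0) (nat_lit 7225713701) (nat_lit 456) (nat_lit 996684926) (nat_lit 532) (nat_lit 3783649814) (nat_lit 238) (nat_lit 5) (nat_lit 244) (nat_lit 5) (nat_lit 245) (nat_lit 5) (nat_lit 466) (nat_lit 390) (nat_lit 284)) (XT.lf (nat_lit 0) (nat_lit 3193100752) (nat_lit 532) (nat_lit 8373248199) (nat_lit 608) (nat_lit 572007447) (nat_lit 231) (nat_lit 5) (nat_lit 238) (nat_lit 5) (nat_lit 239)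 (nat_lit 5) (nat_lit 467) (nat_lit 390) (nat_lit 283)))) (XT.nd (nat_lit 78) (nat_lit 912) (nat_lit 0) (XT.lf (nat_lit 0) (nat_lit 2685885096) (nat_lit 608) (nat_lit 937156359) (nat_lit 76) (nat_lit 8649568373) (nat_lit 230) (nat_lit 5) (nat_lit 238) (nat_lit 5) (nat_lit 231) (nat_lit 5) (nat_lit 468) (nat_lit 390) (nat_lit 282)) (XT.nd (nat_lit 78) (nat_lit 456) (nat_lit 0) (XT.lf (nat_lit 0) (nat_lit 6035852739) (nat_lit 532) (nat_lit 5124513995) (nat_lit 76) (nat_lit 1248414443) (nat_lit 224) (nat_lit 5) (nat_lit 231) (nat_lit 5) (nat_lit 225) (nat_lit 5) (nat_lit 469) (nat_lit 390) (nat_lit 281)) (XT.lf (nat_lit 0) (nat_lit 3121706998) (nat_lit 456) (nat_lit 6360867808) (nat_lit 532) (nat_lit 3064506047) (nat_lit 218) (nat_lit 5) (nat_lit 224) (nat_lit 5) (nat_lit 225) (nat_lit 5) (nat_lit 470) (nat_lit 390) (nat_lit 280))))) (XT.nd (nat_lit 234) (nat_lit 912) (nat_lit 0) (XT.nd (nat_lit 78) (nat_lit 912) (nat_lit 0) (XT.lf (nat_lit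 0) (nat_lit 319872104) (nat_lit 532) (nat_lit 1117930533) (nat_lit 76) (nat_lit 11250026536) (nat_lit 217) (nat_lit 5) (nat_lit 224) (nat_lit 5) (nat_lit 218) (nat_lit 5) (nat_lit 471) (nat_lit 390) (nat_lit 279)) (XT.nd (nat_lit 78) (nat_lit 456) (nat_lit 0) (XT.lf (nat_lit 0) (nat_lit 3782308022) (nat_lit 532) (nat_lit 5451587001) (nat_lit 76) (nat_lit 3596064231) (nat_lit 211) (nat_lit 5) (nat_lit 218) (nat_lit 5) (nat_lit 212) (nat_lit 5) (nat_lit 472) (nat_lit 390) (nat_lit 278)) (XT.lf (nat_lit 0) (nat_lit 3085780105) (nat_lit 456) (nat_lit 4245109842) (nat_lit 532) (nat_lit 5643704043) (nat_lit 205) (nat_lit 5) (nat_lit 211) (nat_lit 5) (nat_lit 212) (nat_lit 5) (nat_lit 473) (nat_lit 390) (nat_lit 277)))) (XT.nd (nat_lit 156) (nat_lit 456) (nat_lit 0) (XT.nd (nat_lit 78) (nat_lit 456) (nat_lit 0) (XT.lf (nat_lit 0) (nat_lit 10972671970) (nat_lit 532) (nat_lit 1289545994) (nat_lit 76) (nat_lit 859458888) (nat_lit 205) (nat_lit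 5) (nat_lit 212) (nat_lit 5) (nat_lit 206) (nat_lit 5) (nat_lit 474) (nat_lit 390) (nat_lit 276)) (XT.lf (nat_lit 0) (nat_lit 1454677520) (nat_lit 456) (nat_lit 5757508906) (nat_lit 76) (nat_lit 6058178027) (nat_lit 199) (nat_lit 5) (nat_lit 205) (nat_lit 5) (nat_lit 200) (nat_lit 5) (nat_lit 475) (nat_lit 390) (nat_lit 275))) (XT.nd (nat_lit 78) (nat_lit 0) (nat_lit 0) (XT.lf (nat_lit 0) (nat_lit 3083379569) (nat_lit 456) (nat_lit 2027422102) (nat_lit 532) (nat_lit 8310757172) (nat_lit 193) (nat_lit 5) (nat_lit 199) (nat_lit 5) (nat_lit 200) (nat_lit 5) (nat_lit 476) (nat_lit 390) (nat_lit 274)) (XT.lf (nat_lit 0) (nat_lit 8880626610) (nat_lit 532) (nat_lit 1447133135) (nat_lit 76) (nat_lit 3247205809) (nat_lit 193) (nat_lit 5) (nat_lit 200) (nat_lit 5) (nat_lit 194) (nat_lit 5) (nat_lit 477) (nat_lit 390) (nat_lit 273)))))) (XT.nd (nat_lit 52884) (nat_lit 0) (nat_lit 40508) (XT.nd (nat_lit 52650) (nat_lit 0) (nat_lit 42256) (XT.nd (nat_lit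 78) (nat_lit 456) (nat_lit 0) (XT.lf (nat_lit 0) (nat_lit 7679783531) (nat_lit 380) (nat_lit 5090249190) (nat_lit 456) (nat_lit 960523986) (nat_lit 188) (nat_lit 5) (nat_lit 193) (nat_lit 5) (nat_lit 194) (nat_lit 5) (nat_lit 478) (nat_lit 390) (nat_lit 272)) (XT.nd (nat_lit 52494) (nat_lit 0) (nat_lit 43092) (XT.lf (nat_lit 0) (nat_lit 2823448148) (nat_lit 456) (nat_lit 10777809391) (nat_lit 76) (nat_lit 287375675) (nat_lit 182) (nat_lit 5) (nat_lit 188) (nat_lit 5) (nat_lit 183) (nat_lit 5) (nat_lit 479) (nat_lit 390) (nat_lit 271)) (XT.lf (nat_lit 0) (nat_lit 781826217) (nat_lit 836) (nat_lit 1276950119) (nat_lit 836) (nat_lit 1276950119) (nat_lit 749) (nat_lit 3) (nat_lit 760) (nat_lit 3) (nat_lit 760) (nat_lit 5) (nat_lit 391) (nat_lit 391) (nat_lit 358)))) (XT.nd (nat_lit 78) (nat_lit 836) (nat_lit 0) (XT.lf (nat_lit 76) (nat_lit 792216276) (nat_lit 0) (nat_lit 3047587489) (nat_lit 836) (nat_lit 2853153379) (nat_lit 750) (nat_lit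 5) (nat_lit 749) (nat_lit 3) (nat_lit 760) (nat_lit 5) (nat_lit 392) (nat_lit 391) (nat_lit 357)) (XT.nd (nat_lit 78) (nat_lit 836) (nat_lit 0) (XT.lf (nat_lit 76) (nat_lit 4209301762) (nat_lit 0) (nat_lit 1909956684) (nat_lit 836) (nat_lit 596477411) (nat_lit 750) (nat_lit 5) (nat_lit 749) (nat_lit 3) (nat_lit 760) (nat_lit 5) (nat_lit 393) (nat_lit 391) (nat_lit 356)) (XT.lf (nat_lit 76) (nat_lit 926081205) (nat_lit 0) (nat_lit 704318661) (nat_lit 912) (nat_lit 5109400162) (nat_lit 739) (nat_lit 5) (nat_lit 738) (nat_lit 5) (nat_lit 750) (nat_lit 5) (nat_lit 394) (nat_lit 391) (nat_lit 355))))) (XT.nd (nat_lit 234) (nat_lit 912) (nat_lit 0) (XT.nd (nat_lit 78) (nat_lit 912) (nat_lit 0) (XT.lf (nat_lit 0) (nat_lit 3856724541) (nat_lit 836) (nat_lit 2342137204) (nat_lit 912) (nat_lit 566146951) (nat_lit 739) (nat_lit 5) (nat_lit 750) (nat_lit 5) (nat_lit 751) (nat_lit 5) (nat_lit 395) (nat_lit 391) (nat_lit 354)) (XT.nd (nat_lit 78) (nat_lit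 912) (nat_lit 0) (XT.lf (nat_lit 76) (nat_lit 1178414575) (nat_lit 0) (nat_lit 4905149960) (nat_lit 912) (nat_lit 708037225) (nat_lit 740) (nat_lit 5) (nat_lit 739) (nat_lit 5) (nat_lit 751) (nat_lit 5) (nat_lit 396) (nat_lit 391) (nat_lit 353)) (XT.lf (nat_lit 0) (nat_lit 1476097210) (nat_lit 912) (nat_lit 2059152931) (nat_lit 988) (nat_lit 3284076455) (nat_lit 727) (nat_lit 5) (nat_lit 739) (nat_lit 5) (nat_lit 740) (nat_lit 5) (nat_lit 397) (nat_lit 391) (nat_lit 352)))) (XT.nd (nat_lit 156) (nat_lit 912) (nat_lit 0) (XT.nd (nat_lit 78) (nat_lit 0) (nat_lit 0) (XT.lf (nat_lit 76) (nat_lit 1550442595) (nat_lit 0) (nat_lit 2099369660) (nat_lit 988) (nat_lit 3198592503) (nat_lit 728) (nat_lit 5) (nat_lit 727) (nat_lit 5) (nat_lit 740) (nat_lit 5) (nat_lit 398) (nat_lit 391) (nat_lit 351)) (XT.lf (nat_lit 76) (nat_lit 5229182667) (nat_lit 0) (nat_lit 597811584) (nat_lit 988) (nat_lit 1051870376) (nat_lit 728) (nat_lit 5) (nat_lit 727)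 (nat_lit 5) (nat_lit 740) (nat_lit 5) (nat_lit 399) (nat_lit 391) (nat_lit 350))) (XT.nd (nat_lit 78) (nat_lit 0) (nat_lit 0) (XT.lf (nat_lit 0) (nat_lit 1089463718) (nat_lit 988) (nat_lit 4856787218) (nat_lit 1064) (nat_lit 964203019) (nat_lit 715) (nat_lit 5) (nat_lit 728) (nat_lit 5) (nat_lit 729) (nat_lit 5) (nat_lit 400) (nat_lit 391) (nat_lit 349)) (XT.lf (nat_lit 0) (nat_lit 3222516591) (nat_lit 988) (nat_lit 1132046668) (nat_lit 1064) (nat_lit 2588713219) (nat_lit 715) (nat_lit 5) (nat_lit 728) (nat_lit 5) (nat_lit 729) (nat_lit 5) (nat_lit 401) (nat_lit 391) (nat_lit 348))))))) (XT.nd (nat_lit 1014) (nat_lit 12540) (nat_lit 0) (XT.nd (nat_lit 468) (nat_lit 3648) (nat_lit 0) (XT.nd (nat_lit 234) (nat_lit 1064) (nat_lit 0) (XT.nd (nat_lit 78) (nat_lit 1064) (nat_lit 0) (XT.lf (nat_lit 76) (nat_lit 2670806077) (nat_lit 0) (nat_lit 2693648332) (nat_lit 1064) (nat_lit 1612976565) (nat_lit 716) (nat_lit 5) (nat_lit 715) (nat_lit 5)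 (nat_lit 729) (nat_lit 5) (nat_lit 402) (nat_lit 391) (nat_lit 347)) (XT.nd (nat_lit 78) (nat_lit 0) (nat_lit 76) (XT.lf (nat_lit 0) (nat_lit 486916713) (nat_lit 1064) (nat_lit 482469366) (nat_lit 1140) (nat_lit 6043672822) (nat_lit 701) (nat_lit 5) (nat_lit 715) (nat_lit 5) (nat_lit 716) (nat_lit 5) (nat_lit 403) (nat_lit 391) (nat_lit 346)) (XT.lf (nat_lit 0) (nat_lit 2585247614) (nat_lit 1064) (nat_lit 3634093486) (nat_lit 1140) (nat_lit 830284301) (nat_lit 702) (nat_lit 5) (nat_lit 716) (nat_lit 5) (nat_lit 717) (nat_lit 5) (nat_lit 404) (nat_lit 391) (nat_lit 345)))) (XT.nd (nat_lit 78) (nat_lit 1140) (nat_lit 0) (XT.lf (nat_lit 76) (nat_lit 276216096) (nat_lit 0) (nat_lit 4412032022) (nat_lit 1140) (nat_lit 2399421052) (nat_lit 703) (nat_lit 5) (nat_lit 702) (nat_lit 5) (nat_lit 717) (nat_lit 5) (nat_lit 405) (nat_lit 391) (nat_lit 344)) (XT.nd (nat_lit 78) (nat_lit 1140) (nat_lit 0) (XT.lf (nat_lit 76) (nat_lit 4282064359) (nat_lit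 0) (nat_lit 2527610680) (nat_lit 1140) (nat_lit 317271448) (nat_lit 703) (nat_lit 5) (nat_lit 702) (nat_lit 5) (nat_lit 717) (nat_lit 5) (nat_lit 406) (nat_lit 391) (nat_lit 343)) (XT.lf (nat_lit 76) (nat_lit 1172739441) (nat_lit 0) (nat_lit 570312578) (nat_lit 1216) (nat_lit 5424518275) (nat_lit 688) (nat_lit 5) (nat_lit 687) (nat_lit 5) (nat_lit 703) (nat_lit 5) (nat_lit 407) (nat_lit 391) (nat_lit 342))))) (XT.nd (nat_lit 234) (nat_lit 2508) (nat_lit 0) (XT.nd (nat_lit 78) (nat_lit 1216) (nat_lit 0) (XT.lf (nat_lit 0) (nat_lit 3822243956) (nat_lit 1140) (nat_lit 1943587795) (nat_lit 1216) (nat_lit 1443494677) (nat_lit 688) (nat_lit 5) (nat_lit 703) (nat_lit 5) (nat_lit 704) (nat_lit 5) (nat_lit 408) (nat_lit 391) (nat_lit 341)) (XT.nd (nat_lit 78) (nat_lit 1216) (nat_lit 0) (XT.lf (nat_lit 76) (nat_lit 2181402266) (nat_lit 0) (nat_lit 3733900436) (nat_lit 1216) (nat_lit 1337169322) (nat_lit 689) (nat_lit 5) (nat_lit 688) (nat_lit 5)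 (nat_lit 704) (nat_lit 5) (nat_lit 409) (nat_lit 391) (nat_lit 340)) (XT.lf (nat_lit 0) (nat_lit 711718772) (nat_lit 1216) (nat_lit 918462634) (nat_lit 1292) (nat_lit 5666844009) (nat_lit 672) (nat_lit 5) (nat_lit 688) (nat_lit 5) (nat_lit 689) (nat_lit 5) (nat_lit 410) (nat_lit 391) (nat_lit 339)))) (XT.nd (nat_lit 156) (nat_lit 1368) (nat_lit 0) (XT.nd (nat_lit 78) (nat_lit 1216) (nat_lit 0) (XT.lf (nat_lit 0) (nat_lit 2764503655) (nat_lit 1216) (nat_lit 4026359199) (nat_lit 76) (nat_lit 551813771) (nat_lit 673) (nat_lit 5) (nat_lit 689) (nat_lit 5) (nat_lit 674) (nat_lit 5) (nat_lit 411) (nat_lit 391) (nat_lit 338)) (XT.lf (nat_lit 0) (nat_lit 218548632) (nat_lit 1216) (nat_lit 4614578479) (nat_lit 1292) (nat_lit 2556618090) (nat_lit 657) (nat_lit 5) (nat_lit 673) (nat_lit 5) (nat_lit 674) (nat_lit 5) (nat_lit 412) (nat_lit 391) (nat_lit 337))) (XT.nd (nat_lit 78) (nat_lit 1368) (nat_lit 0) (XT.lf (nat_lit 0) (nat_lit 4570541042) (nat_lit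 1216) (nat_lit 2356610109) (nat_lit 1292) (nat_lit 510923435) (nat_lit 657) (nat_lit 5) (nat_lit 673) (nat_lit 5) (nat_lit 674) (nat_lit 5) (nat_lit 413) (nat_lit 391) (nat_lit 336)) (XT.lf (nat_lit 0) (nat_lit 1499315506) (nat_lit 1292) (nat_lit 23011721) (nat_lit 1368) (nat_lit 5965492575) (nat_lit 639) (nat_lit 5) (nat_lit 656) (nat_lit 5) (nat_lit 657) (nat_lit 5) (nat_lit 414) (nat_lit 391) (nat_lit 335)))))) (XT.nd (nat_lit 468) (nat_lit 8132) (nat_lit 0) (XT.nd (nat_lit 234) (nat_lit 2964) (nat_lit 0) (XT.nd (nat_lit 78) (nat_lit 1444) (nat_lit 0) (XT.lf (nat_lit 0) (nat_lit 3582342362) (nat_lit 1368) (nat_lit 1597626297) (nat_lit 76) (nat_lit 2358664904) (nat_lit 639) (nat_lit 5) (nat_lit 657) (nat_lit 5) (nat_lit 640) (nat_lit 5) (nat_lit 415) (nat_lit 391) (nat_lit 334)) (XT.nd (nat_lit 78) (nat_lit 76) (nat_lit 0) (XT.lf (nat_lit 0) (nat_lit 2886412866) (nat_lit 1368) (nat_lit 2775115624) (nat_lit 1444) (nat_lit 1929375696)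 (nat_lit 621) (nat_lit 5) (nat_lit 639) (nat_lit 5) (nat_lit 640) (nat_lit 5) (nat_lit 416) (nat_lit 391) (nat_lit 333)) (XT.lf (nat_lit 0) (nat_lit 106463504) (nat_lit 1444) (nat_lit 195870662) (nat_lit 76) (nat_lit 7342464200) (nat_lit 620) (nat_lit 5) (nat_lit 639) (nat_lit 5) (nat_lit 621) (nat_lit 5) (nat_lit 417) (nat_lit 391) (nat_lit 332)))) (XT.nd (nat_lit 78) (nat_lit 1520) (nat_lit 0) (XT.lf (nat_lit 0) (nat_lit 2160819311) (nat_lit 1520) (nat_lit 3298458941) (nat_lit 76) (nat_lit 2240164428) (nat_lit 601) (nat_lit 5) (nat_lit 621) (nat_lit 5) (nat_lit 602) (nat_lit 5) (nat_lit 418) (nat_lit 391) (nat_lit 331)) (XT.nd (nat_lit 78) (nat_lit 0) (nat_lit 0) (XT.lf (nat_lit 0) (nat_lit 1319909450) (nat_lit 1520) (nat_lit 2909069889) (nat_lit 1596) (nat_lit 3526746201) (nat_lit 581) (nat_lit 5) (nat_lit 601) (nat_lit 5) (nat_lit 602) (nat_lit 5) (nat_lit 419) (nat_lit 391) (nat_lit 330)) (XT.lf (nat_lit 0) (nat_lit 6042904411) (nat_lit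 1520) (nat_lit 279112112) (nat_lit 1596) (nat_lit 1491447257) (nat_lit 581) (nat_lit 5) (nat_lit 601) (nat_lit 5) (nat_lit 602) (nat_lit 5) (nat_lit 420) (nat_lit 391) (nat_lit 329))))) (XT.nd (nat_lit 234) (nat_lit 4788) (nat_lit 0) (XT.nd (nat_lit 78) (nat_lit 1672) (nat_lit 0) (XT.lf (nat_lit 0) (nat_lit 573993558) (nat_lit 1672) (nat_lit 4897337185) (nat_lit 76) (nat_lit 2401008084) (nat_lit 559) (nat_lit 5) (nat_lit 581) (nat_lit 5) (nat_lit 560) (nat_lit 5) (nat_lit 421) (nat_lit 391) (nat_lit 328)) (XT.nd (nat_lit 78) (nat_lit 1672) (nat_lit 0) (XT.lf (nat_lit 0) (nat_lit 2637060282) (nat_lit 1672) (nat_lit 137380529) (nat_lit 76) (nat_lit 5158227642) (nat_lit 559) (nat_lit 5) (nat_lit 581) (nat_lit 5) (nat_lit 560) (nat_lit 5) (nat_lit 422) (nat_lit 391) (nat_lit 327)) (XT.lf (nat_lit 0) (nat_lit 4735491019) (nat_lit 1748) (nat_lit 3246612989) (nat_lit 76) (nat_lit 12218610) (nat_lit 537) (nat_lit 5) (nat_lit 560) (nat_lit 5)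 (nat_lit 538) (nat_lit 5) (nat_lit 423) (nat_lit 391) (nat_lit 326)))) (XT.nd (nat_lit 156) (nat_lit 2964) (nat_lit 0) (XT.nd (nat_lit 78) (nat_lit 76) (nat_lit 0) (XT.lf (nat_lit 0) (nat_lit 1645581617) (nat_lit 1748) (nat_lit 5224032433) (nat_lit 1824) (nat_lit 1187721345) (nat_lit 514) (nat_lit 5) (nat_lit 537) (nat_lit 5) (nat_lit 538) (nat_lit 5) (nat_lit 424) (nat_lit 391) (nat_lit 325)) (XT.lf (nat_lit 0) (nat_lit 898613178) (nat_lit 1824) (nat_lit 1480748316) (nat_lit 76) (nat_lit 5742408221) (nat_lit 513) (nat_lit 5) (nat_lit 537) (nat_lit 5) (nat_lit 514) (nat_lit 5) (nat_lit 425) (nat_lit 391) (nat_lit 324))) (XT.nd (nat_lit 78) (nat_lit 1140) (nat_lit 0) (XT.lf (nat_lit 0) (nat_lit 3002189014) (nat_lit 1900) (nat_lit 4635962265) (nat_lit 76) (nat_lit 549356059) (nat_lit 489) (nat_lit 5) (nat_lit 514) (nat_lit 5) (nat_lit 490) (nat_lit 5) (nat_lit 426) (nat_lit 391) (nat_lit 323)) (XT.lf (nat_lit 0) (nat_lit 406799863) (nat_lit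 1140) (nat_lit 4734643720) (nat_lit 1216) (nat_lit 3113243989) (nat_lit 474) (nat_lit 5) (nat_lit 489) (nat_lit 5) (nat_lit 490) (nat_lit 5) (nat_lit 427) (nat_lit 391) (nat_lit 322))))))))
noncomputable def xc73 : XT := (XT.nd (nat_lit 2028) (nat_lit 9044) (nat_lit 0) (XT.nd (nat_lit 1014) (nat_lit 5776) (nat_lit 0) (XT.nd (nat_lit 468) (nat_lit 4180) (nat_lit 0) (XT.nd (nat_lit 234) (nat_lit 1824) (nat_lit 0) (XT.nd (nat_lit 78) (nat_lit 988) (nat_lit 0) (XT.lf (nat_lit 0) (nat_lit 5580567913) (nat_lit 1140) (nat_lit 1739701289) (nat_lit 1216) (nat_lit 1003006486) (nat_lit 474) (nat_lit 5) (nat_lit 489) (nat_lit 5) (nat_lit 490) (nat_lit 5) (nat_lit 428) (nat_lit 391) (nat_lit 321)) (XT.nd (nat_lit 78) (nat_lit 0) (nat_lit 0) (XT.lf (nat_lit 0) (nat_lit 1125141224) (nat_lit 988) (nat_lit 5945312986) (nat_lit 76) (nat_lit 1322816491) (nat_lit 461) (nat_lit 5) (nat_lit 474) (nat_lit 5) (nat_lit 462) (nat_lit 5) (nat_lit 429) (nat_lit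 391) (nat_lit 320)) (XT.lf (nat_lit 0) (nat_lit 3279070582) (nat_lit 988) (nat_lit 735930475) (nat_lit 76) (nat_lit 4449598979) (nat_lit 461) (nat_lit 5) (nat_lit 474) (nat_lit 5) (nat_lit 462) (nat_lit 5) (nat_lit 430) (nat_lit 391) (nat_lit 319)))) (XT.nd (nat_lit 78) (nat_lit 912) (nat_lit 0) (XT.lf (nat_lit 0) (nat_lit 4605728873) (nat_lit 912) (nat_lit 867496527) (nat_lit 988) (nat_lit 3064187622) (nat_lit 449) (nat_lit 5) (nat_lit 461) (nat_lit 5) (nat_lit 462) (nat_lit 5) (nat_lit 431) (nat_lit 391) (nat_lit 318)) (XT.nd (nat_lit 78) (nat_lit 76) (nat_lit 0) (XT.lf (nat_lit 0) (nat_lit 1423284481) (nat_lit 836) (nat_lit 6285081667) (nat_lit 912) (nat_lit 903374062) (nat_lit 438) (nat_lit 5) (nat_lit 449) (nat_lit 5) (nat_lit 450) (nat_lit 5) (nat_lit 432) (nat_lit 391) (nat_lit 317)) (XT.lf (nat_lit 0) (nat_lit 1283790800) (nat_lit 912) (nat_lit 1795705536) (nat_lit 76) (nat_lit 5607884844) (nat_lit 437) (nat_lit 5) (nat_lit 449)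 (nat_lit 5) (nat_lit 438) (nat_lit 5) (nat_lit 433) (nat_lit 391) (nat_lit 316))))) (XT.nd (nat_lit 234) (nat_lit 2432) (nat_lit 0) (XT.nd (nat_lit 78) (nat_lit 836) (nat_lit 0) (XT.lf (nat_lit 0) (nat_lit 3496684889) (nat_lit 988) (nat_lit 5050663074) (nat_lit 76) (nat_lit 217185939) (nat_lit 425) (nat_lit 5) (nat_lit 438) (nat_lit 5) (nat_lit 426) (nat_lit 5) (nat_lit 434) (nat_lit 391) (nat_lit 315)) (XT.nd (nat_lit 78) (nat_lit 0) (nat_lit 0) (XT.lf (nat_lit 0) (nat_lit 467936442) (nat_lit 836) (nat_lit 5290384214) (nat_lit 912) (nat_lit 3084819345) (nat_lit 414) (nat_lit 5) (nat_lit 425) (nat_lit 5) (nat_lit 426) (nat_lit 5) (nat_lit 435) (nat_lit 391) (nat_lit 314)) (XT.lf (nat_lit 0) (nat_lit 6132868150) (nat_lit 836) (nat_lit 1935533642) (nat_lit 912) (nat_lit 854852178) (nat_lit 414) (nat_lit 5) (nat_lit 425) (nat_lit 5) (nat_lit 426) (nat_lit 5) (nat_lit 436) (nat_lit 391) (nat_lit 313)))) (XT.nd (nat_lit 156) (nat_lit 1520)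 (nat_lit 0) (XT.nd (nat_lit 78) (nat_lit 0) (nat_lit 0) (XT.lf (nat_lit 0) (nat_lit 1399486991) (nat_lit 912) (nat_lit 6112125996) (nat_lit 76) (nat_lit 1493205027) (nat_lit 402) (nat_lit 5) (nat_lit 414) (nat_lit 5) (nat_lit 403) (nat_lit 5) (nat_lit 437) (nat_lit 391) (nat_lit 312)) (XT.lf (nat_lit 0) (nat_lit 3689238164) (nat_lit 912) (nat_lit 411625825) (nat_lit 76) (nat_lit 4987000905) (nat_lit 402) (nat_lit 5) (nat_lit 414) (nat_lit 5) (nat_lit 403) (nat_lit 5) (nat_lit 438) (nat_lit 391) (nat_lit 311))) (XT.nd (nat_lit 78) (nat_lit 760) (nat_lit 0) (XT.lf (nat_lit 0) (nat_lit 5442261139) (nat_lit 760) (nat_lit 588538306) (nat_lit 836) (nat_lit 3141652966) (nat_lit 392) (nat_lit 5) (nat_lit 402) (nat_lit 5) (nat_lit 403) (nat_lit 5) (nat_lit 439) (nat_lit 391) (nat_lit 310)) (XT.lf (nat_lit 0) (nat_lit 2136340530) (nat_lit 760) (nat_lit 6289972127) (nat_lit 836) (nat_lit 832276606) (nat_lit 382) (nat_lit 5) (nat_lit 392) (nat_lit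 5) (nat_lit 393) (nat_lit 5) (nat_lit 440) (nat_lit 391) (nat_lit 309)))))) (XT.nd (nat_lit 468) (nat_lit 2736) (nat_lit 0) (XT.nd (nat_lit 234) (nat_lit 1444) (nat_lit 0) (XT.nd (nat_lit 78) (nat_lit 1520) (nat_lit 0) (XT.lf (nat_lit 0) (nat_lit 1503604317) (nat_lit 836) (nat_lit 1221654523) (nat_lit 76) (nat_lit 6620986304) (nat_lit 381) (nat_lit 5) (nat_lit 392) (nat_lit 5) (nat_lit 382) (nat_lit 5) (nat_lit 441) (nat_lit 391) (nat_lit 308)) (XT.nd (nat_lit 78) (nat_lit 760) (nat_lit 0) (XT.lf (nat_lit 0) (nat_lit 3884280353) (nat_lit 836) (nat_lit 4618805692) (nat_lit 76) (nat_lit 932273636) (nat_lit 371) (nat_lit 5) (nat_lit 382) (nat_lit 5) (nat_lit 372) (nat_lit 5) (nat_lit 442) (nat_lit 391) (nat_lit 307)) (XT.lf (nat_lit 0) (nat_lit 1434500125) (nat_lit 760) (nat_lit 4885772234) (nat_lit 836) (nat_lit 3205830101) (nat_lit 361) (nat_lit 5) (nat_lit 371) (nat_lit 5) (nat_lit 372) (nat_lit 5) (nat_lit 443) (nat_lit 391) (nat_lit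 306)))) (XT.nd (nat_lit 78) (nat_lit 1444) (nat_lit 0) (XT.lf (nat_lit 0) (nat_lit 7639487856) (nat_lit 760) (nat_lit 1168918948) (nat_lit 836) (nat_lit 810184840) (nat_lit 361) (nat_lit 5) (nat_lit 371) (nat_lit 5) (nat_lit 372) (nat_lit 5) (nat_lit 444) (nat_lit 391) (nat_lit 305)) (XT.nd (nat_lit 78) (nat_lit 684) (nat_lit 0) (XT.lf (nat_lit 0) (nat_lit 1629710091) (nat_lit 760) (nat_lit 5460653472) (nat_lit 76) (nat_lit 2621999774) (nat_lit 351) (nat_lit 5) (nat_lit 361) (nat_lit 5) (nat_lit 352) (nat_lit 5) (nat_lit 445) (nat_lit 391) (nat_lit 304)) (XT.lf (nat_lit 0) (nat_lit 791380302) (nat_lit 684) (nat_lit 3315520894) (nat_lit 760) (nat_lit 5701015228) (nat_lit 342) (nat_lit 5) (nat_lit 351) (nat_lit 5) (nat_lit 352) (nat_lit 5) (nat_lit 446) (nat_lit 391) (nat_lit 303))))) (XT.nd (nat_lit 234) (nat_lit 1292) (nat_lit 0) (XT.nd (nat_lit 78) (nat_lit 1444) (nat_lit 0) (XT.lf (nat_lit 0) (nat_lit 6647370621) (nat_lit 760) (nat_lit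 2698201015) (nat_lit 76) (nat_lit 559534248) (nat_lit 342) (nat_lit 5) (nat_lit 352) (nat_lit 5) (nat_lit 343) (nat_lit 5) (nat_lit 447) (nat_lit 391) (nat_lit 302)) (XT.nd (nat_lit 78) (nat_lit 760) (nat_lit 0) (XT.lf (nat_lit 0) (nat_lit 3741939922) (nat_lit 684) (nat_lit 5516859370) (nat_lit 760) (nat_lit 745036843) (nat_lit 333) (nat_lit 5) (nat_lit 342) (nat_lit 5) (nat_lit 343) (nat_lit 5) (nat_lit 448) (nat_lit 391) (nat_lit 301)) (XT.lf (nat_lit 0) (nat_lit 202191751) (nat_lit 684) (nat_lit 1585454786) (nat_lit 760) (nat_lit 8316786926) (nat_lit 323) (nat_lit 5) (nat_lit 332) (nat_lit 5) (nat_lit 333) (nat_lit 5) (nat_lit 449) (nat_lit 391) (nat_lit 300)))) (XT.nd (nat_lit 156) (nat_lit 684) (nat_lit 0) (XT.nd (nat_lit 78) (nat_lit 608) (nat_lit 0) (XT.lf (nat_lit 0) (nat_lit 4393357315) (nat_lit 760) (nat_lit 3378795427) (nat_lit 76) (nat_lit 2434144507) (nat_lit 323) (nat_lit 5) (nat_lit 333) (nat_lit 5) (nat_lit 324) (nat_lit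 5) (nat_lit 450) (nat_lit 391) (nat_lit 299)) (XT.lf (nat_lit 0) (nat_lit 3276134273) (nat_lit 608) (nat_lit 3781622079) (nat_lit 684) (nat_lit 3252310478) (nat_lit 315) (nat_lit 5) (nat_lit 323) (nat_lit 5) (nat_lit 324) (nat_lit 5) (nat_lit 451) (nat_lit 391) (nat_lit 298))) (XT.nd (nat_lit 78) (nat_lit 684) (nat_lit 0) (XT.lf (nat_lit 0) (nat_lit 9775195094) (nat_lit 684) (nat_lit 339222929) (nat_lit 76) (nat_lit 301498745) (nat_lit 315) (nat_lit 5) (nat_lit 324) (nat_lit 5) (nat_lit 316) (nat_lit 5) (nat_lit 452) (nat_lit 391) (nat_lit 297)) (XT.lf (nat_lit 0) (nat_lit 2039760345) (nat_lit 684) (nat_lit 4017694636) (nat_lit 76) (nat_lit 4465302122) (nat_lit 306) (nat_lit 5) (nat_lit 315) (nat_lit 5) (nat_lit 307) (nat_lit 5) (nat_lit 453) (nat_lit 391) (nat_lit 296))))))) (XT.nd (nat_lit 1014) (nat_lit 3876) (nat_lit 0) (XT.nd (nat_lit 468) (nat_lit 2736) (nat_lit 0) (XT.nd (nat_lit 234) (nat_lit 1216) (nat_lit 0) (XT.nd (nat_lit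 78) (nat_lit 608) (nat_lit 0) (XT.lf (nat_lit 0) (nat_lit 2861209878) (nat_lit 608) (nat_lit 1900600822) (nat_lit 684) (nat_lit 5869908082) (nat_lit 298) (nat_lit 5) (nat_lit 306) (nat_lit 5) (nat_lit 307) (nat_lit 5) (nat_lit 454) (nat_lit 391) (nat_lit 295)) (XT.nd (nat_lit 78) (nat_lit 608) (nat_lit 0) (XT.lf (nat_lit 0) (nat_lit 7556522930) (nat_lit 684) (nat_lit 856965731) (nat_lit 76) (nat_lit 2329006617) (nat_lit 298) (nat_lit 5) (nat_lit 307) (nat_lit 5) (nat_lit 299) (nat_lit 5) (nat_lit 455) (nat_lit 391) (nat_lit 294)) (XT.lf (nat_lit 0) (nat_lit 6233196110) (nat_lit 608) (nat_lit 4203355389) (nat_lit 684) (nat_lit 418347363) (nat_lit 290) (nat_lit 5) (nat_lit 298) (nat_lit 5) (nat_lit 299) (nat_lit 5) (nat_lit 456) (nat_lit 391) (nat_lit 293)))) (XT.nd (nat_lit 78) (nat_lit 608) (nat_lit 0) (XT.lf (nat_lit 0) (nat_lit 2372337794) (nat_lit 608) (nat_lit 8476591797) (nat_lit 76) (nat_lit 120323781) (nat_lit 282) (nat_lit 5)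 (nat_lit 290) (nat_lit 5) (nat_lit 283) (nat_lit 5) (nat_lit 457) (nat_lit 391) (nat_lit 292)) (XT.nd (nat_lit 78) (nat_lit 608) (nat_lit 0) (XT.lf (nat_lit 0) (nat_lit 5248985037) (nat_lit 608) (nat_lit 1335264004) (nat_lit 76) (nat_lit 4500875624) (nat_lit 282) (nat_lit 5) (nat_lit 290) (nat_lit 5) (nat_lit 283) (nat_lit 5) (nat_lit 458) (nat_lit 391) (nat_lit 291)) (XT.lf (nat_lit 0) (nat_lit 5997014614) (nat_lit 608) (nat_lit 2202232871) (nat_lit 684) (nat_lit 3003744254) (nat_lit 274) (nat_lit 5) (nat_lit 282) (nat_lit 5) (nat_lit 283) (nat_lit 5) (nat_lit 459) (nat_lit 391) (nat_lit 290))))) (XT.nd (nat_lit 234) (nat_lit 1596) (nat_lit 0) (XT.nd (nat_lit 78) (nat_lit 608) (nat_lit 0) (XT.lf (nat_lit 0) (nat_lit 2153738694) (nat_lit 532) (nat_lit 9069848011) (nat_lit 608) (nat_lit 99328020) (nat_lit 267) (nat_lit 5) (nat_lit 274) (nat_lit 5) (nat_lit 275) (nat_lit 5) (nat_lit 460) (nat_lit 391) (nat_lit 289)) (XT.nd (nat_lit 78)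 (nat_lit 532) (nat_lit 0) (XT.lf (nat_lit 0) (nat_lit 2852820318) (nat_lit 608) (nat_lit 1777551893) (nat_lit 76) (nat_lit 6813948268) (nat_lit 266) (nat_lit 5) (nat_lit 274) (nat_lit 5) (nat_lit 267) (nat_lit 5) (nat_lit 461) (nat_lit 391) (nat_lit 288)) (XT.lf (nat_lit 0) (nat_lit 5807187350) (nat_lit 532) (nat_lit 71086225) (nat_lit 608) (nat_lit 5689555805) (nat_lit 259) (nat_lit 5) (nat_lit 266) (nat_lit 5) (nat_lit 267) (nat_lit 5) (nat_lit 462) (nat_lit 391) (nat_lit 287)))) (XT.nd (nat_lit 156) (nat_lit 988) (nat_lit 0) (XT.nd (nat_lit 78) (nat_lit 76) (nat_lit 0) (XT.lf (nat_lit 0) (nat_lit 1838033766) (nat_lit 532) (nat_lit 7157947937) (nat_lit 608) (nat_lit 2697191838) (nat_lit 252) (nat_lit 5) (nat_lit 259) (nat_lit 5) (nat_lit 260) (nat_lit 5) (nat_lit 463) (nat_lit 391) (nat_lit 286)) (XT.lf (nat_lit 0) (nat_lit 367909497) (nat_lit 608) (nat_lit 2187010951) (nat_lit 76) (nat_lit 9265707113) (nat_lit 251) (nat_lit 5) (nat_lit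 259) (nat_lit 5) (nat_lit 252) (nat_lit 5) (nat_lit 464) (nat_lit 391) (nat_lit 285))) (XT.nd (nat_lit 78) (nat_lit 456) (nat_lit 0) (XT.lf (nat_lit 0) (nat_lit 3487778615) (nat_lit 608) (nat_lit 6303205478) (nat_lit 76) (nat_lit 2158698376) (nat_lit 244) (nat_lit 5) (nat_lit 252) (nat_lit 5) (nat_lit 245) (nat_lit 5) (nat_lit 465) (nat_lit 391) (nat_lit 284)) (XT.lf (nat_lit 0) (nat_lit 1558608053) (nat_lit 456) (nat_lit 5132012088) (nat_lit 532) (nat_lit 5390286835) (nat_lit 238) (nat_lit 5) (nat_lit 244) (nat_lit 5) (nat_lit 245) (nat_lit 5) (nat_lit 466) (nat_lit 391) (nat_lit 283)))))) (XT.nd (nat_lit 468) (nat_lit 1824) (nat_lit 0) (XT.nd (nat_lit 234) (nat_lit 988) (nat_lit 0) (XT.nd (nat_lit 78) (nat_lit 1064) (nat_lit 0) (XT.lf (nat_lit 0) (nat_lit 9633225882) (nat_lit 456) (nat_lit 345575228) (nat_lit 532) (nat_lit 2235529210) (nat_lit 238) (nat_lit 5) (nat_lit 244) (nat_lit 5) (nat_lit 245) (nat_lit 5) (nat_lit 467) (nat_lit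 391) (nat_lit 282)) (XT.nd (nat_lit 78) (nat_lit 456) (nat_lit 0) (XT.lf (nat_lit 0) (nat_lit 1014451198) (nat_lit 608) (nat_lit 6823827898) (nat_lit 76) (nat_lit 4511115258) (nat_lit 230) (nat_lit 5) (nat_lit 238) (nat_lit 5) (nat_lit 231) (nat_lit 5) (nat_lit 468) (nat_lit 391) (nat_lit 281)) (XT.lf (nat_lit 0) (nat_lit 1312832998) (nat_lit 456) (nat_lit 2994359047) (nat_lit 532) (nat_lit 8179518194) (nat_lit 224) (nat_lit 5) (nat_lit 230) (nat_lit 5) (nat_lit 231) (nat_lit 5) (nat_lit 469) (nat_lit 391) (nat_lit 280)))) (XT.nd (nat_lit 78) (nat_lit 988) (nat_lit 0) (XT.lf (nat_lit 0) (nat_lit 7704091357) (nat_lit 532) (nat_lit 2963945929) (nat_lit 76) (nat_lit 1957969083) (nat_lit 224) (nat_lit 5) (nat_lit 231) (nat_lit 5) (nat_lit 225) (nat_lit 5) (nat_lit 470) (nat_lit 391) (nat_lit 279)) (XT.nd (nat_lit 78) (nat_lit 532) (nat_lit 0) (XT.lf (nat_lit 0) (nat_lit 5432310941) (nat_lit 456) (nat_lit 5771689973) (nat_lit 532) (nat_lit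 1563386062) (nat_lit 218) (nat_lit 5) (nat_lit 224) (nat_lit 5) (nat_lit 225) (nat_lit 5) (nat_lit 471) (nat_lit 391) (nat_lit 278)) (XT.lf (nat_lit 0) (nat_lit 1098292704) (nat_lit 456) (nat_lit 746792800) (nat_lit 532) (nat_lit 11066123934) (nat_lit 211) (nat_lit 5) (nat_lit 217) (nat_lit 5) (nat_lit 218) (nat_lit 5) (nat_lit 472) (nat_lit 391) (nat_lit 277))))) (XT.nd (nat_lit 234) (nat_lit 988) (nat_lit 0) (XT.nd (nat_lit 78) (nat_lit 836) (nat_lit 0) (XT.lf (nat_lit 0) (nat_lit 5358974516) (nat_lit 532) (nat_lit 3325776418) (nat_lit 76) (nat_lit 4371787099) (nat_lit 211) (nat_lit 5) (nat_lit 218) (nat_lit 5) (nat_lit 212) (nat_lit 5) (nat_lit 473) (nat_lit 391) (nat_lit 276)) (XT.nd (nat_lit 78) (nat_lit 380) (nat_lit 0) (XT.lf (nat_lit 0) (nat_lit 5367635120) (nat_lit 456) (nat_lit 3595875805) (nat_lit 532) (nat_lit 4240854881) (nat_lit 205) (nat_lit 5) (nat_lit 211) (nat_lit 5) (nat_lit 212) (nat_lit 5) (nat_lit 474) (nat_lit 391)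 (nat_lit 275)) (XT.lf (nat_lit 0) (nat_lit 897505579) (nat_lit 380) (nat_lit 11761985932) (nat_lit 456) (nat_lit 695271556) (nat_lit 200) (nat_lit 5) (nat_lit 205) (nat_lit 5) (nat_lit 206) (nat_lit 5) (nat_lit 475) (nat_lit 391) (nat_lit 274)))) (XT.nd (nat_lit 156) (nat_lit 456) (nat_lit 0) (XT.nd (nat_lit 78) (nat_lit 456) (nat_lit 0) (XT.lf (nat_lit 0) (nat_lit 2940432442) (nat_lit 456) (nat_lit 3666710009) (nat_lit 76) (nat_lit 6899496064) (nat_lit 199) (nat_lit 5) (nat_lit 205) (nat_lit 5) (nat_lit 200) (nat_lit 5) (nat_lit 476) (nat_lit 391) (nat_lit 273)) (XT.lf (nat_lit 0) (nat_lit 5336483413) (nat_lit 456) (nat_lit 1318861933) (nat_lit 532) (nat_lit 7005798121) (nat_lit 193) (nat_lit 5) (nat_lit 199) (nat_lit 5) (nat_lit 200) (nat_lit 5) (nat_lit 477) (nat_lit 391) (nat_lit 272))) (XT.nd (nat_lit 78) (nat_lit 76) (nat_lit 0) (XT.lf (nat_lit 0) (nat_lit 705151901) (nat_lit 380) (nat_lit 9776480606) (nat_lit 456) (nat_lit 3336364492)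 (nat_lit 188) (nat_lit 5) (nat_lit 193) (nat_lit 5) (nat_lit 194) (nat_lit 5) (nat_lit 478) (nat_lit 391) (nat_lit 271)) (XT.lf (nat_lit 0) (nat_lit 447423895) (nat_lit 456) (nat_lit 3988941965) (nat_lit 76) (nat_lit 9540643023) (nat_lit 187) (nat_lit 5) (nat_lit 193) (nat_lit 5) (nat_lit 188) (nat_lit 5) (nat_lit 479) (nat_lit 391) (nat_lit 270))))))))
noncomputable def xc74 : XT := (XT.nd (nat_lit 2028) (nat_lit 18924) (nat_lit 0) (XT.nd (nat_lit 1014) (nat_lit 6156) (nat_lit 0) (XT.nd (nat_lit 468) (nat_lit 1900) (nat_lit 0) (XT.nd (nat_lit 234) (nat_lit 912) (nat_lit 0) (XT.nd (nat_lit 78) (nat_lit 836) (nat_lit 0) (XT.lf (nat_lit 0) (nat_lit 3038190589) (nat_lit 836) (nat_lit 159717919) (nat_lit 836) (nat_lit 159717919) (nat_lit 749) (nat_lit 3) (nat_lit 760) (nat_lit 3) (nat_lit 760) (nat_lit 5) (nat_lit 392) (nat_lit 392) (nat_lit 356)) (XT.nd (nat_lit 78) (nat_lit 0) (nat_lit 0) (XT.lf (nat_lit 0) (nat_lit 1565471419) (nat_lit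 836) (nat_lit 3670382387) (nat_lit 912) (nat_lit 1502589986) (nat_lit 738) (nat_lit 5) (nat_lit 749) (nat_lit 3) (nat_lit 750) (nat_lit 5) (nat_lit 393) (nat_lit 392) (nat_lit 355)) (XT.lf (nat_lit 0) (nat_lit 3750082068) (nat_lit 836) (nat_lit 268810395) (nat_lit 912) (nat_lit 2744226921) (nat_lit 738) (nat_lit 5) (nat_lit 749) (nat_lit 3) (nat_lit 750) (nat_lit 5) (nat_lit 394) (nat_lit 392) (nat_lit 354)))) (XT.nd (nat_lit 78) (nat_lit 912) (nat_lit 0) (XT.lf (nat_lit 76) (nat_lit 3213380015) (nat_lit 0) (nat_lit 2729563804) (nat_lit 912) (nat_lit 846053490) (nat_lit 739) (nat_lit 5) (nat_lit 738) (nat_lit 5) (nat_lit 750) (nat_lit 5) (nat_lit 395) (nat_lit 392) (nat_lit 353)) (XT.nd (nat_lit 78) (nat_lit 0) (nat_lit 76) (XT.lf (nat_lit 0) (nat_lit 1292435206) (nat_lit 912) (nat_lit 85471996) (nat_lit 988) (nat_lit 5438387280) (nat_lit 726) (nat_lit 5) (nat_lit 738) (nat_lit 5) (nat_lit 739) (nat_lit 5) (nat_lit 396) (nat_lit 392)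 (nat_lit 352)) (XT.lf (nat_lit 0) (nat_lit 3430693643) (nat_lit 912) (nat_lit 3359954483) (nat_lit 988) (nat_lit 54011051) (nat_lit 727) (nat_lit 5) (nat_lit 739) (nat_lit 5) (nat_lit 740) (nat_lit 5) (nat_lit 397) (nat_lit 392) (nat_lit 351))))) (XT.nd (nat_lit 234) (nat_lit 988) (nat_lit 0) (XT.nd (nat_lit 78) (nat_lit 988) (nat_lit 0) (XT.lf (nat_lit 76) (nat_lit 217027478) (nat_lit 0) (nat_lit 5352177092) (nat_lit 988) (nat_lit 1305236850) (nat_lit 728) (nat_lit 5) (nat_lit 727) (nat_lit 5) (nat_lit 740) (nat_lit 5) (nat_lit 398) (nat_lit 392) (nat_lit 350)) (XT.nd (nat_lit 78) (nat_lit 0) (nat_lit 0) (XT.lf (nat_lit 0) (nat_lit 804152303) (nat_lit 988) (nat_lit 3029972766) (nat_lit 1064) (nat_lit 3071192887) (nat_lit 714) (nat_lit 5) (nat_lit 727) (nat_lit 5) (nat_lit 728) (nat_lit 5) (nat_lit 399) (nat_lit 392) (nat_lit 349)) (XT.lf (nat_lit 76) (nat_lit 639308314) (nat_lit 0) (nat_lit 2251033091) (nat_lit 1064) (nat_lit 4047256280)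 (nat_lit 715) (nat_lit 5) (nat_lit 714) (nat_lit 5) (nat_lit 728) (nat_lit 5) (nat_lit 400) (nat_lit 392) (nat_lit 348)))) (XT.nd (nat_lit 156) (nat_lit 0) (nat_lit 0) (XT.nd (nat_lit 78) (nat_lit 988) (nat_lit 0) (XT.lf (nat_lit 76) (nat_lit 4392797813) (nat_lit 0) (nat_lit 594536062) (nat_lit 1064) (nat_lit 1983807541) (nat_lit 715) (nat_lit 5) (nat_lit 714) (nat_lit 5) (nat_lit 728) (nat_lit 5) (nat_lit 401) (nat_lit 392) (nat_lit 347)) (XT.lf (nat_lit 0) (nat_lit 83837168) (nat_lit 1064) (nat_lit 5812860179) (nat_lit 1140) (nat_lit 1109352721) (nat_lit 701) (nat_lit 5) (nat_lit 715) (nat_lit 5) (nat_lit 716) (nat_lit 5) (nat_lit 402) (nat_lit 392) (nat_lit 346))) (XT.nd (nat_lit 78) (nat_lit 0) (nat_lit 0) (XT.lf (nat_lit 0) (nat_lit 2137993223) (nat_lit 1064) (nat_lit 2014648517) (nat_lit 1140) (nat_lit 2889318458) (nat_lit 701) (nat_lit 5) (nat_lit 715) (nat_lit 5) (nat_lit 716) (nat_lit 5) (nat_lit 403) (nat_lit 392) (nat_lit 345))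 (XT.lf (nat_lit 76) (nat_lit 1853192983) (nat_lit 0) (nat_lit 2343388097) (nat_lit 1140) (nat_lit 2882740478) (nat_lit 702) (nat_lit 5) (nat_lit 701) (nat_lit 5) (nat_lit 716) (nat_lit 5) (nat_lit 404) (nat_lit 392) (nat_lit 344)))))) (XT.nd (nat_lit 468) (nat_lit 3952) (nat_lit 0) (XT.nd (nat_lit 234) (nat_lit 1140) (nat_lit 0) (XT.nd (nat_lit 78) (nat_lit 1064) (nat_lit 0) (XT.lf (nat_lit 76) (nat_lit 5795262628) (nat_lit 0) (nat_lit 466670898) (nat_lit 1140) (nat_lit 856184763) (nat_lit 702) (nat_lit 5) (nat_lit 701) (nat_lit 5) (nat_lit 716) (nat_lit 5) (nat_lit 405) (nat_lit 392) (nat_lit 343)) (XT.nd (nat_lit 78) (nat_lit 0) (nat_lit 0) (XT.lf (nat_lit 0) (nat_lit 1174634886) (nat_lit 1140) (nat_lit 4512837420) (nat_lit 1216) (nat_lit 1470469129) (nat_lit 687) (nat_lit 5) (nat_lit 702) (nat_lit 5) (nat_lit 703) (nat_lit 5) (nat_lit 406) (nat_lit 392) (nat_lit 342)) (XT.lf (nat_lit 0) (nat_lit 3200182459) (nat_lit 1140) (nat_lit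 528154606) (nat_lit 1216) (nat_lit 3470799274) (nat_lit 687) (nat_lit 5) (nat_lit 702) (nat_lit 5) (nat_lit 703) (nat_lit 5) (nat_lit 407) (nat_lit 392) (nat_lit 341)))) (XT.nd (nat_lit 78) (nat_lit 1140) (nat_lit 0) (XT.lf (nat_lit 76) (nat_lit 3552116127) (nat_lit 0) (nat_lit 1691637300) (nat_lit 1216) (nat_lit 1997851465) (nat_lit 688) (nat_lit 5) (nat_lit 687) (nat_lit 5) (nat_lit 703) (nat_lit 5) (nat_lit 408) (nat_lit 392) (nat_lit 340)) (XT.nd (nat_lit 78) (nat_lit 0) (nat_lit 0) (XT.lf (nat_lit 0) (nat_lit 6424126) (nat_lit 1216) (nat_lit 6878049226) (nat_lit 1292) (nat_lit 401169472) (nat_lit 672) (nat_lit 5) (nat_lit 688) (nat_lit 5) (nat_lit 689) (nat_lit 5) (nat_lit 409) (nat_lit 392) (nat_lit 339)) (XT.lf (nat_lit 0) (nat_lit 2015805133) (nat_lit 1216) (nat_lit 2749897892) (nat_lit 1292) (nat_lit 2564758950) (nat_lit 672) (nat_lit 5) (nat_lit 688) (nat_lit 5) (nat_lit 689) (nat_lit 5) (nat_lit 410) (nat_lit 392) (nat_lit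 338))))) (XT.nd (nat_lit 234) (nat_lit 2736) (nat_lit 0) (XT.nd (nat_lit 78) (nat_lit 1216) (nat_lit 0) (XT.lf (nat_lit 76) (nat_lit 1448576092) (nat_lit 0) (nat_lit 2582693822) (nat_lit 1292) (nat_lit 3345589674) (nat_lit 673) (nat_lit 5) (nat_lit 672) (nat_lit 5) (nat_lit 689) (nat_lit 5) (nat_lit 411) (nat_lit 392) (nat_lit 337)) (XT.nd (nat_lit 78) (nat_lit 1216) (nat_lit 0) (XT.lf (nat_lit 76) (nat_lit 5737261954) (nat_lit 0) (nat_lit 325377964) (nat_lit 1292) (nat_lit 1362033315) (nat_lit 673) (nat_lit 5) (nat_lit 672) (nat_lit 5) (nat_lit 689) (nat_lit 5) (nat_lit 412) (nat_lit 392) (nat_lit 336)) (XT.lf (nat_lit 0) (nat_lit 640404033) (nat_lit 1292) (nat_lit 4849321333) (nat_lit 76) (nat_lit 1983874297) (nat_lit 656) (nat_lit 5) (nat_lit 673) (nat_lit 5) (nat_lit 657) (nat_lit 5) (nat_lit 413) (nat_lit 392) (nat_lit 335)))) (XT.nd (nat_lit 156) (nat_lit 1444) (nat_lit 0) (XT.nd (nat_lit 78) (nat_lit 1292) (nat_lit 0) (XT.lf (nat_lit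 0) (nat_lit 2636627641) (nat_lit 1292) (nat_lit 521139908) (nat_lit 76) (nat_lit 4366117508) (nat_lit 656) (nat_lit 5) (nat_lit 673) (nat_lit 5) (nat_lit 657) (nat_lit 5) (nat_lit 414) (nat_lit 392) (nat_lit 334)) (XT.lf (nat_lit 0) (nat_lit 3913870679) (nat_lit 1292) (nat_lit 743536939) (nat_lit 1368) (nat_lit 2918075903) (nat_lit 639) (nat_lit 5) (nat_lit 656) (nat_lit 5) (nat_lit 657) (nat_lit 5) (nat_lit 415) (nat_lit 392) (nat_lit 333))) (XT.nd (nat_lit 78) (nat_lit 76) (nat_lit 0) (XT.lf (nat_lit 0) (nat_lit 783974394) (nat_lit 1368) (nat_lit 5914280098) (nat_lit 1444) (nat_lit 930266436) (nat_lit 621) (nat_lit 5) (nat_lit 639) (nat_lit 5) (nat_lit 640) (nat_lit 5) (nat_lit 416) (nat_lit 392) (nat_lit 332)) (XT.lf (nat_lit 0) (nat_lit 1072766485) (nat_lit 1444) (nat_lit 2358276872) (nat_lit 76) (nat_lit 4251636069) (nat_lit 620) (nat_lit 5) (nat_lit 639) (nat_lit 5) (nat_lit 621) (nat_lit 5) (nat_lit 417) (nat_lit 392) (nat_lit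 331))))))) (XT.nd (nat_lit 1014) (nat_lit 6840) (nat_lit 0) (XT.nd (nat_lit 468) (nat_lit 5776) (nat_lit 0) (XT.nd (nat_lit 234) (nat_lit 3344) (nat_lit 0) (XT.nd (nat_lit 78) (nat_lit 1520) (nat_lit 0) (XT.lf (nat_lit 0) (nat_lit 2209113225) (nat_lit 1444) (nat_lit 869626012) (nat_lit 1520) (nat_lit 4659552166) (nat_lit 601) (nat_lit 5) (nat_lit 620) (nat_lit 5) (nat_lit 621) (nat_lit 5) (nat_lit 418) (nat_lit 392) (nat_lit 330)) (XT.nd (nat_lit 78) (nat_lit 1520) (nat_lit 0) (XT.lf (nat_lit 0) (nat_lit 5113668627) (nat_lit 1520) (nat_lit 938329230) (nat_lit 76) (nat_lit 1743241019) (nat_lit 601) (nat_lit 5) (nat_lit 621) (nat_lit 5) (nat_lit 602) (nat_lit 5) (nat_lit 419) (nat_lit 392) (nat_lit 329)) (XT.lf (nat_lit 0) (nat_lit 3756445353) (nat_lit 1520) (nat_lit 3425343090) (nat_lit 1596) (nat_lit 671687019) (nat_lit 581) (nat_lit 5) (nat_lit 601) (nat_lit 5) (nat_lit 602) (nat_lit 5) (nat_lit 420) (nat_lit 392) (nat_lit 328)))) (XT.nd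 (nat_lit 78) (nat_lit 1672) (nat_lit 0) (XT.lf (nat_lit 0) (nat_lit 612436245) (nat_lit 1596) (nat_lit 720827874) (nat_lit 1672) (nat_lit 6579974708) (nat_lit 559) (nat_lit 5) (nat_lit 580) (nat_lit 5) (nat_lit 581) (nat_lit 5) (nat_lit 421) (nat_lit 392) (nat_lit 327)) (XT.nd (nat_lit 78) (nat_lit 1672) (nat_lit 0) (XT.lf (nat_lit 0) (nat_lit 3373431188) (nat_lit 1672) (nat_lit 2552132060) (nat_lit 76) (nat_lit 2048463200) (nat_lit 559) (nat_lit 5) (nat_lit 581) (nat_lit 5) (nat_lit 560) (nat_lit 5) (nat_lit 422) (nat_lit 392) (nat_lit 326)) (XT.lf (nat_lit 0) (nat_lit 2285088131) (nat_lit 1672) (nat_lit 3152841585) (nat_lit 1748) (nat_lit 2598429542) (nat_lit 537) (nat_lit 5) (nat_lit 559) (nat_lit 5) (nat_lit 560) (nat_lit 5) (nat_lit 423) (nat_lit 392) (nat_lit 325))))) (XT.nd (nat_lit 234) (nat_lit 2128) (nat_lit 0) (XT.nd (nat_lit 78) (nat_lit 3648) (nat_lit 0) (XT.lf (nat_lit 0) (nat_lit 7222236182) (nat_lit 1672) (nat_lit 303029844)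 (nat_lit 1748) (nat_lit 575041741) (nat_lit 537) (nat_lit 5) (nat_lit 559) (nat_lit 5) (nat_lit 560) (nat_lit 5) (nat_lit 424) (nat_lit 392) (nat_lit 324)) (XT.nd (nat_lit 78) (nat_lit 1824) (nat_lit 0) (XT.lf (nat_lit 0) (nat_lit 1478002705) (nat_lit 1824) (nat_lit 4077174054) (nat_lit 76) (nat_lit 2609990863) (nat_lit 513) (nat_lit 5) (nat_lit 537) (nat_lit 5) (nat_lit 514) (nat_lit 5) (nat_lit 425) (nat_lit 392) (nat_lit 323)) (XT.lf (nat_lit 0) (nat_lit 908362899) (nat_lit 1824) (nat_lit 2635286663) (nat_lit 1900) (nat_lit 4688014264) (nat_lit 489) (nat_lit 5) (nat_lit 513) (nat_lit 5) (nat_lit 514) (nat_lit 5) (nat_lit 426) (nat_lit 392) (nat_lit 322)))) (XT.nd (nat_lit 156) (nat_lit 988) (nat_lit 0) (XT.nd (nat_lit 78) (nat_lit 1140) (nat_lit 0) (XT.lf (nat_lit 0) (nat_lit 5646265989) (nat_lit 1900) (nat_lit 2284735440) (nat_lit 76) (nat_lit 368575393) (nat_lit 489) (nat_lit 5) (nat_lit 514) (nat_lit 5) (nat_lit 490) (nat_lit 5)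 (nat_lit 427) (nat_lit 392) (nat_lit 321)) (XT.lf (nat_lit 0) (nat_lit 2842803338) (nat_lit 1140) (nat_lit 4950598319) (nat_lit 1216) (nat_lit 575397081) (nat_lit 474) (nat_lit 5) (nat_lit 489) (nat_lit 5) (nat_lit 490) (nat_lit 5) (nat_lit 428) (nat_lit 392) (nat_lit 320))) (XT.nd (nat_lit 78) (nat_lit 912) (nat_lit 0) (XT.lf (nat_lit 0) (nat_lit 1506048001) (nat_lit 1216) (nat_lit 377224983) (nat_lit 76) (nat_lit 6556287128) (nat_lit 473) (nat_lit 5) (nat_lit 489) (nat_lit 5) (nat_lit 474) (nat_lit 5) (nat_lit 429) (nat_lit 392) (nat_lit 319)) (XT.lf (nat_lit 0) (nat_lit 3629035597) (nat_lit 988) (nat_lit 3616219358) (nat_lit 76) (nat_lit 1266253328) (nat_lit 461) (nat_lit 5) (nat_lit 474) (nat_lit 5) (nat_lit 462) (nat_lit 5) (nat_lit 430) (nat_lit 392) (nat_lit 318)))))) (XT.nd (nat_lit 468) (nat_lit 3268) (nat_lit 0) (XT.nd (nat_lit 234) (nat_lit 1748) (nat_lit 0) (XT.nd (nat_lit 78) (nat_lit 912) (nat_lit 0) (XT.lf (nat_lit 0) (nat_lit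 1671269808) (nat_lit 912) (nat_lit 4116969990) (nat_lit 988) (nat_lit 2796780483) (nat_lit 449) (nat_lit 5) (nat_lit 461) (nat_lit 5) (nat_lit 462) (nat_lit 5) (nat_lit 431) (nat_lit 392) (nat_lit 317)) (XT.nd (nat_lit 78) (nat_lit 912) (nat_lit 0) (XT.lf (nat_lit 0) (nat_lit 7082053867) (nat_lit 912) (nat_lit 901152007) (nat_lit 988) (nat_lit 676945089) (nat_lit 449) (nat_lit 5) (nat_lit 461) (nat_lit 5) (nat_lit 462) (nat_lit 5) (nat_lit 432) (nat_lit 392) (nat_lit 316)) (XT.lf (nat_lit 0) (nat_lit 1475363895) (nat_lit 912) (nat_lit 4878226100) (nat_lit 76) (nat_lit 2382810261) (nat_lit 437) (nat_lit 5) (nat_lit 449) (nat_lit 5) (nat_lit 438) (nat_lit 5) (nat_lit 433) (nat_lit 392) (nat_lit 315)))) (XT.nd (nat_lit 78) (nat_lit 836) (nat_lit 0) (XT.lf (nat_lit 0) (nat_lit 575949857) (nat_lit 912) (nat_lit 3075217548) (nat_lit 988) (nat_lit 5163127383) (nat_lit 425) (nat_lit 5) (nat_lit 437) (nat_lit 5) (nat_lit 438) (nat_lit 5) (nat_lit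 434) (nat_lit 392) (nat_lit 314)) (XT.nd (nat_lit 78) (nat_lit 836) (nat_lit 0) (XT.lf (nat_lit 0) (nat_lit 5874715041) (nat_lit 988) (nat_lit 2721795631) (nat_lit 76) (nat_lit 297151978) (nat_lit 425) (nat_lit 5) (nat_lit 438) (nat_lit 5) (nat_lit 426) (nat_lit 5) (nat_lit 435) (nat_lit 392) (nat_lit 313)) (XT.lf (nat_lit 0) (nat_lit 2891189818) (nat_lit 836) (nat_lit 5260809518) (nat_lit 912) (nat_lit 822433220) (nat_lit 414) (nat_lit 5) (nat_lit 425) (nat_lit 5) (nat_lit 426) (nat_lit 5) (nat_lit 436) (nat_lit 392) (nat_lit 312))))) (XT.nd (nat_lit 234) (nat_lit 1596) (nat_lit 0) (XT.nd (nat_lit 78) (nat_lit 1596) (nat_lit 0) (XT.lf (nat_lit 0) (nat_lit 1388115717) (nat_lit 912) (nat_lit 444085786) (nat_lit 76) (nat_lit 7224658189) (nat_lit 413) (nat_lit 5) (nat_lit 425) (nat_lit 5) (nat_lit 414) (nat_lit 5) (nat_lit 437) (nat_lit 392) (nat_lit 311)) (XT.nd (nat_lit 78) (nat_lit 760) (nat_lit 0) (XT.lf (nat_lit 0) (nat_lit 3648515361)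 (nat_lit 912) (nat_lit 3810331500) (nat_lit 76) (nat_lit 1681646741) (nat_lit 402) (nat_lit 5) (nat_lit 414) (nat_lit 5) (nat_lit 403) (nat_lit 5) (nat_lit 438) (nat_lit 392) (nat_lit 310)) (XT.lf (nat_lit 0) (nat_lit 1982651365) (nat_lit 760) (nat_lit 3970733103) (nat_lit 836) (nat_lit 3272430494) (nat_lit 392) (nat_lit 5) (nat_lit 402) (nat_lit 5) (nat_lit 403) (nat_lit 5) (nat_lit 439) (nat_lit 392) (nat_lit 309)))) (XT.nd (nat_lit 156) (nat_lit 760) (nat_lit 0) (XT.nd (nat_lit 78) (nat_lit 836) (nat_lit 0) (XT.lf (nat_lit 0) (nat_lit 7911978326) (nat_lit 760) (nat_lit 389558448) (nat_lit 836) (nat_lit 1011362258) (nat_lit 392) (nat_lit 5) (nat_lit 402) (nat_lit 5) (nat_lit 403) (nat_lit 5) (nat_lit 440) (nat_lit 392) (nat_lit 308)) (XT.lf (nat_lit 0) (nat_lit 1301082790) (nat_lit 836) (nat_lit 4844057372) (nat_lit 76) (nat_lit 3255953697) (nat_lit 381) (nat_lit 5) (nat_lit 392) (nat_lit 5) (nat_lit 382) (nat_lit 5) (nat_lit 441) (nat_lit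 392) (nat_lit 307))) (XT.nd (nat_lit 78) (nat_lit 0) (nat_lit 0) (XT.lf (nat_lit 0) (nat_lit 1136588130) (nat_lit 760) (nat_lit 2501400269) (nat_lit 836) (nat_lit 5853095407) (nat_lit 371) (nat_lit 5) (nat_lit 381) (nat_lit 5) (nat_lit 382) (nat_lit 5) (nat_lit 442) (nat_lit 392) (nat_lit 306)) (XT.lf (nat_lit 0) (nat_lit 6034879248) (nat_lit 836) (nat_lit 2319393397) (nat_lit 76) (nat_lit 1228335964) (nat_lit 371) (nat_lit 5) (nat_lit 382) (nat_lit 5) (nat_lit 372) (nat_lit 5) (nat_lit 443) (nat_lit 392) (nat_lit 305))))))))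
noncomputable def xc75 : XT := (XT.nd (nat_lit 2028) (nat_lit 3192) (nat_lit 0) (XT.nd (nat_lit 1014) (nat_lit 4560) (nat_lit 0) (XT.nd (nat_lit 468) (nat_lit 3192) (nat_lit 0) (XT.nd (nat_lit 234) (nat_lit 1444) (nat_lit 0) (XT.nd (nat_lit 78) (nat_lit 760) (nat_lit 0) (XT.lf (nat_lit 0) (nat_lit 3839243087) (nat_lit 760) (nat_lit 4655129561) (nat_lit 836) (nat_lit 1181297965) (nat_lit 361) (nat_lit 5) (nat_lit 371) (nat_lit 5) (nat_lit 372) (nat_lit 5) (nat_lit 444) (nat_lit 392) (nat_lit 304)) (XT.nd (nat_lit 78) (nat_lit 0) (nat_lit 0) (XT.lf (nat_lit 0) (nat_lit 347557448) (nat_lit 684) (nat_lit 859987777) (nat_lit 760) (nat_lit 8563063651) (nat_lit 351) (nat_lit 5) (nat_lit 360) (nat_lit 5) (nat_lit 361) (nat_lit 5) (nat_lit 445) (nat_lit 392) (nat_lit 303)) (XT.lf (nat_lit 0) (nat_lit 3660953198) (nat_lit 760) (nat_lit 3191356919) (nat_lit 76) (nat_lit 3014327508) (nat_lit 351) (nat_lit 5) (nat_lit 361) (nat_lit 5) (nat_lit 352)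 (nat_lit 5) (nat_lit 446) (nat_lit 392) (nat_lit 302)))) (XT.nd (nat_lit 78) (nat_lit 760) (nat_lit 0) (XT.lf (nat_lit 0) (nat_lit 3170069441) (nat_lit 684) (nat_lit 2993770755) (nat_lit 760) (nat_lit 3800738538) (nat_lit 342) (nat_lit 5) (nat_lit 351) (nat_lit 5) (nat_lit 352) (nat_lit 5) (nat_lit 447) (nat_lit 392) (nat_lit 301)) (XT.nd (nat_lit 78) (nat_lit 760) (nat_lit 0) (XT.lf (nat_lit 0) (nat_lit 8718867564) (nat_lit 760) (nat_lit 399382677) (nat_lit 76) (nat_lit 946186770) (nat_lit 342) (nat_lit 5) (nat_lit 352) (nat_lit 5) (nat_lit 343) (nat_lit 5) (nat_lit 448) (nat_lit 392) (nat_lit 300)) (XT.lf (nat_lit 0) (nat_lit 1178430066) (nat_lit 760) (nat_lit 4019269159) (nat_lit 76) (nat_lit 4967744295) (nat_lit 332) (nat_lit 5) (nat_lit 342) (nat_lit 5) (nat_lit 333) (nat_lit 5) (nat_lit 449) (nat_lit 392) (nat_lit 299))))) (XT.nd (nat_lit 234) (nat_lit 1900) (nat_lit 0) (XT.nd (nat_lit 78) (nat_lit 608) (nat_lit 0) (XT.lf (nat_lit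 0) (nat_lit 2553620948) (nat_lit 684) (nat_lit 1175608449) (nat_lit 760) (nat_lit 6539176137) (nat_lit 323) (nat_lit 5) (nat_lit 332) (nat_lit 5) (nat_lit 333) (nat_lit 5) (nat_lit 450) (nat_lit 392) (nat_lit 298)) (XT.nd (nat_lit 78) (nat_lit 608) (nat_lit 0) (XT.lf (nat_lit 0) (nat_lit 6352495834) (nat_lit 760) (nat_lit 1110454581) (nat_lit 76) (nat_lit 2910047352) (nat_lit 323) (nat_lit 5) (nat_lit 333) (nat_lit 5) (nat_lit 324) (nat_lit 5) (nat_lit 451) (nat_lit 392) (nat_lit 297)) (XT.lf (nat_lit 0) (nat_lit 5662205839) (nat_lit 608) (nat_lit 3386351958) (nat_lit 684) (nat_lit 1430717443) (nat_lit 315) (nat_lit 5) (nat_lit 323) (nat_lit 5) (nat_lit 324) (nat_lit 5) (nat_lit 452) (nat_lit 392) (nat_lit 296)))) (XT.nd (nat_lit 156) (nat_lit 1216) (nat_lit 0) (XT.nd (nat_lit 78) (nat_lit 0) (nat_lit 0) (XT.lf (nat_lit 0) (nat_lit 1196435758) (nat_lit 684) (nat_lit 8607131946) (nat_lit 76) (nat_lit 783924250) (nat_lit 306) (nat_lit 5)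 (nat_lit 315) (nat_lit 5) (nat_lit 307) (nat_lit 5) (nat_lit 453) (nat_lit 392) (nat_lit 295)) (XT.lf (nat_lit 0) (nat_lit 3888096790) (nat_lit 684) (nat_lit 1780895524) (nat_lit 76) (nat_lit 5028069106) (nat_lit 306) (nat_lit 5) (nat_lit 315) (nat_lit 5) (nat_lit 307) (nat_lit 5) (nat_lit 454) (nat_lit 392) (nat_lit 294))) (XT.nd (nat_lit 78) (nat_lit 608) (nat_lit 0) (XT.lf (nat_lit 0) (nat_lit 5220342652) (nat_lit 608) (nat_lit 1423749032) (nat_lit 684) (nat_lit 4164520578) (nat_lit 298) (nat_lit 5) (nat_lit 306) (nat_lit 5) (nat_lit 307) (nat_lit 5) (nat_lit 455) (nat_lit 392) (nat_lit 293)) (XT.lf (nat_lit 0) (nat_lit 1433227911) (nat_lit 608) (nat_lit 8039012911) (nat_lit 684) (nat_lit 1449812613) (nat_lit 290) (nat_lit 5) (nat_lit 298) (nat_lit 5) (nat_lit 299) (nat_lit 5) (nat_lit 456) (nat_lit 392) (nat_lit 292)))))) (XT.nd (nat_lit 468) (nat_lit 2204) (nat_lit 0) (XT.nd (nat_lit 234) (nat_lit 1140) (nat_lit 0) (XT.nd (nat_lit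 78) (nat_lit 1140) (nat_lit 0) (XT.lf (nat_lit 0) (nat_lit 1326001946) (nat_lit 684) (nat_lit 2414668234) (nat_lit 76) (nat_lit 7296439673) (nat_lit 289) (nat_lit 5) (nat_lit 298) (nat_lit 5) (nat_lit 290) (nat_lit 5) (nat_lit 457) (nat_lit 392) (nat_lit 291)) (XT.nd (nat_lit 78) (nat_lit 608) (nat_lit 0) (XT.lf (nat_lit 0) (nat_lit 4151057070) (nat_lit 608) (nat_lit 6333578268) (nat_lit 76) (nat_lit 669377651) (nat_lit 282) (nat_lit 5) (nat_lit 290) (nat_lit 5) (nat_lit 283) (nat_lit 5) (nat_lit 458) (nat_lit 392) (nat_lit 290)) (XT.lf (nat_lit 0) (nat_lit 917262110) (nat_lit 608) (nat_lit 6139984101) (nat_lit 684) (nat_lit 4215515318) (nat_lit 274) (nat_lit 5) (nat_lit 282) (nat_lit 5) (nat_lit 283) (nat_lit 5) (nat_lit 459) (nat_lit 392) (nat_lit 289)))) (XT.nd (nat_lit 78) (nat_lit 1140) (nat_lit 0) (XT.lf (nat_lit 0) (nat_lit 8369240446) (nat_lit 608) (nat_lit 1672660418) (nat_lit 684) (nat_lit 1351577341) (nat_lit 274) (nat_lit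 5) (nat_lit 282) (nat_lit 5) (nat_lit 283) (nat_lit 5) (nat_lit 460) (nat_lit 392) (nat_lit 288)) (XT.nd (nat_lit 78) (nat_lit 532) (nat_lit 0) (XT.lf (nat_lit 0) (nat_lit 1575159158) (nat_lit 608) (nat_lit 7062519394) (nat_lit 76) (nat_lit 2878204725) (nat_lit 266) (nat_lit 5) (nat_lit 274) (nat_lit 5) (nat_lit 267) (nat_lit 5) (nat_lit 461) (nat_lit 392) (nat_lit 287)) (XT.lf (nat_lit 0) (nat_lit 437122515) (nat_lit 532) (nat_lit 4117891299) (nat_lit 608) (nat_lit 7085290334) (nat_lit 259) (nat_lit 5) (nat_lit 266) (nat_lit 5) (nat_lit 267) (nat_lit 5) (nat_lit 462) (nat_lit 392) (nat_lit 286))))) (XT.nd (nat_lit 234) (nat_lit 1596) (nat_lit 0) (XT.nd (nat_lit 78) (nat_lit 608) (nat_lit 0) (XT.lf (nat_lit 0) (nat_lit 7623871247) (nat_lit 608) (nat_lit 3617095563) (nat_lit 76) (nat_lit 525658514) (nat_lit 259) (nat_lit 5) (nat_lit 267) (nat_lit 5) (nat_lit 260) (nat_lit 5) (nat_lit 463) (nat_lit 392) (nat_lit 285)) (XT.nd (nat_lit 78)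 (nat_lit 76) (nat_lit 0) (XT.lf (nat_lit 0) (nat_lit 4118225818) (nat_lit 532) (nat_lit 6668812903) (nat_lit 608) (nat_lit 1107775544) (nat_lit 252) (nat_lit 5) (nat_lit 259) (nat_lit 5) (nat_lit 260) (nat_lit 5) (nat_lit 464) (nat_lit 392) (nat_lit 284)) (XT.lf (nat_lit 0) (nat_lit 1965274714) (nat_lit 608) (nat_lit 10178287) (nat_lit 76) (nat_lit 10049786971) (nat_lit 251) (nat_lit 5) (nat_lit 259) (nat_lit 5) (nat_lit 252) (nat_lit 5) (nat_lit 465) (nat_lit 392) (nat_lit 283)))) (XT.nd (nat_lit 156) (nat_lit 608) (nat_lit 0) (XT.nd (nat_lit 78) (nat_lit 456) (nat_lit 0) (XT.lf (nat_lit 0) (nat_lit 5134795814) (nat_lit 608) (nat_lit 4195951305) (nat_lit 76) (nat_lit 2826383767) (nat_lit 244) (nat_lit 5) (nat_lit 252) (nat_lit 5) (nat_lit 245) (nat_lit 5) (nat_lit 466) (nat_lit 392) (nat_lit 282)) (XT.lf (nat_lit 0) (nat_lit 3808405613) (nat_lit 456) (nat_lit 4576766646) (nat_lit 532) (nat_lit 3906138062) (nat_lit 238) (nat_lit 5) (nat_lit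 244) (nat_lit 5) (nat_lit 245) (nat_lit 5) (nat_lit 467) (nat_lit 392) (nat_lit 281))) (XT.nd (nat_lit 78) (nat_lit 608) (nat_lit 0) (XT.lf (nat_lit 0) (nat_lit 11710413208) (nat_lit 532) (nat_lit 428899946) (nat_lit 76) (nat_lit 288663051) (nat_lit 238) (nat_lit 5) (nat_lit 245) (nat_lit 5) (nat_lit 239) (nat_lit 5) (nat_lit 468) (nat_lit 392) (nat_lit 280)) (XT.lf (nat_lit 0) (nat_lit 2563235776) (nat_lit 608) (nat_lit 4752937354) (nat_lit 76) (nat_lit 5249639200) (nat_lit 230) (nat_lit 5) (nat_lit 238) (nat_lit 5) (nat_lit 231) (nat_lit 5) (nat_lit 469) (nat_lit 392) (nat_lit 279))))))) (XT.nd (nat_lit 53586) (nat_lit 0) (nat_lit 36708) (XT.nd (nat_lit 468) (nat_lit 1292) (nat_lit 0) (XT.nd (nat_lit 234) (nat_lit 988) (nat_lit 0) (XT.nd (nat_lit 78) (nat_lit 456) (nat_lit 0) (XT.lf (nat_lit 0) (nat_lit 3531934608) (nat_lit 456) (nat_lit 2374163735) (nat_lit 532) (nat_lit 6800090852) (nat_lit 224) (nat_lit 5) (nat_lit 230) (nat_lit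 5) (nat_lit 231) (nat_lit 5) (nat_lit 470) (nat_lit 392) (nat_lit 278)) (XT.nd (nat_lit 78) (nat_lit 456) (nat_lit 0) (XT.lf (nat_lit 0) (nat_lit 9345602600) (nat_lit 532) (nat_lit 848043816) (nat_lit 76) (nat_lit 2655131493) (nat_lit 224) (nat_lit 5) (nat_lit 231) (nat_lit 5) (nat_lit 225) (nat_lit 5) (nat_lit 471) (nat_lit 392) (nat_lit 277)) (XT.lf (nat_lit 0) (nat_lit 7701827790) (nat_lit 456) (nat_lit 5198547081) (nat_lit 532) (nat_lit 92913967) (nat_lit 218) (nat_lit 5) (nat_lit 224) (nat_lit 5) (nat_lit 225) (nat_lit 5) (nat_lit 472) (nat_lit 392) (nat_lit 276)))) (XT.nd (nat_lit 78) (nat_lit 456) (nat_lit 0) (XT.lf (nat_lit 0) (nat_lit 3286478946) (nat_lit 456) (nat_lit 62557346) (nat_lit 532) (nat_lit 9791056353) (nat_lit 211) (nat_lit 5) (nat_lit 217) (nat_lit 5) (nat_lit 218) (nat_lit 5) (nat_lit 473) (nat_lit 392) (nat_lit 275)) (XT.nd (nat_lit 78) (nat_lit 456) (nat_lit 0) (XT.lf (nat_lit 0) (nat_lit 6908887890) (nat_lit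 532) (nat_lit 1244231274) (nat_lit 76) (nat_lit 5135694951) (nat_lit 211) (nat_lit 5) (nat_lit 218) (nat_lit 5) (nat_lit 212) (nat_lit 5) (nat_lit 474) (nat_lit 392) (nat_lit 274)) (XT.lf (nat_lit 0) (nat_lit 7608916516) (nat_lit 456) (nat_lit 2962164492) (nat_lit 532) (nat_lit 2868806117) (nat_lit 205) (nat_lit 5) (nat_lit 211) (nat_lit 5) (nat_lit 212) (nat_lit 5) (nat_lit 475) (nat_lit 392) (nat_lit 273))))) (XT.nd (nat_lit 234) (nat_lit 380) (nat_lit 0) (XT.nd (nat_lit 78) (nat_lit 456) (nat_lit 0) (XT.lf (nat_lit 0) (nat_lit 728223379) (nat_lit 456) (nat_lit 10539103019) (nat_lit 76) (nat_lit 2326062031) (nat_lit 199) (nat_lit 5) (nat_lit 205) (nat_lit 5) (nat_lit 200) (nat_lit 5) (nat_lit 476) (nat_lit 392) (nat_lit 272)) (XT.nd (nat_lit 78) (nat_lit 456) (nat_lit 0) (XT.lf (nat_lit 0) (nat_lit 4399338526) (nat_lit 456) (nat_lit 1619754825) (nat_lit 76) (nat_lit 7729675986) (nat_lit 199) (nat_lit 5) (nat_lit 205) (nat_lit 5) (nat_lit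 200) (nat_lit 5) (nat_lit 477) (nat_lit 392) (nat_lit 271)) (XT.lf (nat_lit 0) (nat_lit 7549553194) (nat_lit 456) (nat_lit 625219361) (nat_lit 532) (nat_lit 5731867376) (nat_lit 193) (nat_lit 5) (nat_lit 199) (nat_lit 5) (nat_lit 200) (nat_lit 5) (nat_lit 478) (nat_lit 392) (nat_lit 270)))) (XT.nd (nat_lit 52728) (nat_lit 0) (nat_lit 40888) (XT.nd (nat_lit 52650) (nat_lit 0) (nat_lit 41800) (XT.lf (nat_lit 0) (nat_lit 2834637455) (nat_lit 380) (nat_lit 9234082901) (nat_lit 456) (nat_lit 1998087478) (nat_lit 188) (nat_lit 5) (nat_lit 193) (nat_lit 5) (nat_lit 194) (nat_lit 5) (nat_lit 479) (nat_lit 392) (nat_lit 269)) (XT.lf (nat_lit 0) (nat_lit 929329227) (nat_lit 0) (nat_lit 929329227) (nat_lit 836) (nat_lit 1522558617) (nat_lit 738) (nat_lit 5) (nat_lit 738) (nat_lit 3) (nat_lit 749) (nat_lit 3) (nat_lit 393) (nat_lit 393) (nat_lit 354))) (XT.nd (nat_lit 78) (nat_lit 912) (nat_lit 0) (XT.lf (nat_lit 0) (nat_lit 5279255926) (nat_lit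 0) (nat_lit 586538669) (nat_lit 836) (nat_lit 922037798) (nat_lit 738) (nat_lit 5) (nat_lit 738) (nat_lit 3) (nat_lit 749) (nat_lit 3) (nat_lit 394) (nat_lit 393) (nat_lit 353)) (XT.lf (nat_lit 0) (nat_lit 1188996814) (nat_lit 912) (nat_lit 4875858924) (nat_lit 988) (nat_lit 749485350) (nat_lit 726) (nat_lit 5) (nat_lit 738) (nat_lit 5) (nat_lit 739) (nat_lit 5) (nat_lit 395) (nat_lit 393) (nat_lit 352)))))) (XT.nd (nat_lit 546) (nat_lit 2204) (nat_lit 0) (XT.nd (nat_lit 234) (nat_lit 988) (nat_lit 0) (XT.nd (nat_lit 78) (nat_lit 988) (nat_lit 0) (XT.lf (nat_lit 0) (nat_lit 3289327650) (nat_lit 912) (nat_lit 1405817335) (nat_lit 988) (nat_lit 2146924648) (nat_lit 726) (nat_lit 5) (nat_lit 738) (nat_lit 5) (nat_lit 739) (nat_lit 5) (nat_lit 396) (nat_lit 393) (nat_lit 351)) (XT.nd (nat_lit 78) (nat_lit 988) (nat_lit 0) (XT.lf (nat_lit 76) (nat_lit 2132660657) (nat_lit 0) (nat_lit 3259258277) (nat_lit 988) (nat_lit 1479228737) (nat_lit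 727) (nat_lit 5) (nat_lit 726) (nat_lit 5) (nat_lit 739) (nat_lit 5) (nat_lit 397) (nat_lit 393) (nat_lit 350)) (XT.lf (nat_lit 0) (nat_lit 583835186) (nat_lit 988) (nat_lit 1173294053) (nat_lit 1064) (nat_lit 5144467108) (nat_lit 713) (nat_lit 5) (nat_lit 726) (nat_lit 5) (nat_lit 727) (nat_lit 5) (nat_lit 398) (nat_lit 393) (nat_lit 349)))) (XT.nd (nat_lit 156) (nat_lit 988) (nat_lit 0) (XT.nd (nat_lit 78) (nat_lit 0) (nat_lit 76) (XT.lf (nat_lit 76) (nat_lit 2456755108) (nat_lit 0) (nat_lit 175530749) (nat_lit 1064) (nat_lit 4300893938) (nat_lit 714) (nat_lit 5) (nat_lit 713) (nat_lit 5) (nat_lit 727) (nat_lit 5) (nat_lit 399) (nat_lit 393) (nat_lit 348)) (XT.lf (nat_lit 0) (nat_lit 4687908876) (nat_lit 988) (nat_lit 829167081) (nat_lit 1064) (nat_lit 1448994887) (nat_lit 714) (nat_lit 5) (nat_lit 727) (nat_lit 5) (nat_lit 728) (nat_lit 5) (nat_lit 400) (nat_lit 393) (nat_lit 347))) (XT.nd (nat_lit 78) (nat_lit 1064) (nat_lit 0) (XT.lf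 (nat_lit 76) (nat_lit 2898621955) (nat_lit 0) (nat_lit 3855949016) (nat_lit 1064) (nat_lit 245650213) (nat_lit 715) (nat_lit 5) (nat_lit 714) (nat_lit 5) (nat_lit 728) (nat_lit 5) (nat_lit 401) (nat_lit 393) (nat_lit 346)) (XT.lf (nat_lit 0) (nat_lit 1759555479) (nat_lit 1064) (nat_lit 364372842) (nat_lit 1140) (nat_lit 4911768663) (nat_lit 700) (nat_lit 5) (nat_lit 714) (nat_lit 5) (nat_lit 715) (nat_lit 5) (nat_lit 402) (nat_lit 393) (nat_lit 345))))) (XT.nd (nat_lit 234) (nat_lit 1140) (nat_lit 0) (XT.nd (nat_lit 78) (nat_lit 1064) (nat_lit 0) (XT.lf (nat_lit 76) (nat_lit 3462228329) (nat_lit 0) (nat_lit 313213044) (nat_lit 1140) (nat_lit 3296931146) (nat_lit 701) (nat_lit 5) (nat_lit 700) (nat_lit 5) (nat_lit 715) (nat_lit 5) (nat_lit 403) (nat_lit 393) (nat_lit 344)) (XT.nd (nat_lit 78) (nat_lit 1140) (nat_lit 0) (XT.lf (nat_lit 76) (nat_lit 223486418) (nat_lit 0) (nat_lit 5574299922) (nat_lit 1140) (nat_lit 1312672397) (nat_lit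 702) (nat_lit 5) (nat_lit 701) (nat_lit 5) (nat_lit 716) (nat_lit 5) (nat_lit 404) (nat_lit 393) (nat_lit 343)) (XT.lf (nat_lit 0) (nat_lit 681105779) (nat_lit 1140) (nat_lit 3003418332) (nat_lit 1216) (nat_lit 3465106953) (nat_lit 686) (nat_lit 5) (nat_lit 701) (nat_lit 5) (nat_lit 702) (nat_lit 5) (nat_lit 405) (nat_lit 393) (nat_lit 342)))) (XT.nd (nat_lit 156) (nat_lit 1140) (nat_lit 0) (XT.nd (nat_lit 78) (nat_lit 0) (nat_lit 76) (XT.lf (nat_lit 76) (nat_lit 931457693) (nat_lit 0) (nat_lit 1725418669) (nat_lit 1216) (nat_lit 4533343071) (nat_lit 687) (nat_lit 5) (nat_lit 686) (nat_lit 5) (nat_lit 702) (nat_lit 5) (nat_lit 406) (nat_lit 393) (nat_lit 341)) (XT.lf (nat_lit 0) (nat_lit 4648671744) (nat_lit 1140) (nat_lit 2278070610) (nat_lit 1216) (nat_lit 305347026) (nat_lit 687) (nat_lit 5) (nat_lit 702) (nat_lit 5) (nat_lit 703) (nat_lit 5) (nat_lit 407) (nat_lit 393) (nat_lit 340))) (XT.nd (nat_lit 78) (nat_lit 1216) (nat_lit 0)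 (XT.lf (nat_lit 76) (nat_lit 1763850377) (nat_lit 0) (nat_lit 4894674250) (nat_lit 1216) (nat_lit 616707669) (nat_lit 688) (nat_lit 5) (nat_lit 687) (nat_lit 5) (nat_lit 703) (nat_lit 5) (nat_lit 408) (nat_lit 393) (nat_lit 339)) (XT.lf (nat_lit 0) (nat_lit 1342236601) (nat_lit 1216) (nat_lit 1441045314) (nat_lit 1292) (nat_lit 4536353314) (nat_lit 671) (nat_lit 5) (nat_lit 687) (nat_lit 5) (nat_lit 688) (nat_lit 5) (nat_lit 409) (nat_lit 393) (nat_lit 338))))))))
noncomputable def xc76 : XT := (XT.nd (nat_lit 2028) (nat_lit 11552) (nat_lit 0) (XT.nd (nat_lit 1014) (nat_lit 10184) (nat_lit 0) (XT.nd (nat_lit 468) (nat_lit 6080) (nat_lit 0) (XT.nd (nat_lit 234) (nat_lit 2432) (nat_lit 0) (XT.nd (nat_lit 78) (nat_lit 0) (nat_lit 76) (XT.lf (nat_lit 76) (nat_lit 2712302987) (nat_lit 0) (nat_lit 594018030) (nat_lit 1292) (nat_lit 4059039295) (nat_lit 672) (nat_lit 5) (nat_lit 671) (nat_lit 5) (nat_lit 688) (nat_lit 5) (nat_lit 410) (nat_lit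 393) (nat_lit 337)) (XT.nd (nat_lit 78) (nat_lit 0) (nat_lit 0) (XT.lf (nat_lit 0) (nat_lit 5287407167) (nat_lit 1216) (nat_lit 484886396) (nat_lit 1292) (nat_lit 1640151934) (nat_lit 672) (nat_lit 5) (nat_lit 688) (nat_lit 5) (nat_lit 689) (nat_lit 5) (nat_lit 411) (nat_lit 393) (nat_lit 336)) (XT.lf (nat_lit 76) (nat_lit 3782293848) (nat_lit 0) (nat_lit 3512492789) (nat_lit 1292) (nat_lit 165952316) (nat_lit 673) (nat_lit 5) (nat_lit 672) (nat_lit 5) (nat_lit 689) (nat_lit 5) (nat_lit 412) (nat_lit 393) (nat_lit 335)))) (XT.nd (nat_lit 78) (nat_lit 1216) (nat_lit 0) (XT.lf (nat_lit 76) (nat_lit 596989530) (nat_lit 0) (nat_lit 1176980249) (nat_lit 1368) (nat_lit 5736476856) (nat_lit 656) (nat_lit 5) (nat_lit 655) (nat_lit 5) (nat_lit 673) (nat_lit 5) (nat_lit 413) (nat_lit 393) (nat_lit 334)) (XT.nd (nat_lit 78) (nat_lit 1292) (nat_lit 0) (XT.lf (nat_lit 0) (nat_lit 3742363757) (nat_lit 1292) (nat_lit 2593012947) (nat_lit 76) (nat_lit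 1225911919) (nat_lit 656) (nat_lit 5) (nat_lit 673) (nat_lit 5) (nat_lit 657) (nat_lit 5) (nat_lit 414) (nat_lit 393) (nat_lit 333)) (XT.lf (nat_lit 0) (nat_lit 1799185714) (nat_lit 1292) (nat_lit 3930436029) (nat_lit 1368) (nat_lit 1883935784) (nat_lit 639) (nat_lit 5) (nat_lit 656) (nat_lit 5) (nat_lit 657) (nat_lit 5) (nat_lit 415) (nat_lit 393) (nat_lit 332))))) (XT.nd (nat_lit 234) (nat_lit 4636) (nat_lit 0) (XT.nd (nat_lit 78) (nat_lit 1368) (nat_lit 0) (XT.lf (nat_lit 0) (nat_lit 66438320) (nat_lit 1368) (nat_lit 1383627505) (nat_lit 76) (nat_lit 6217237083) (nat_lit 638) (nat_lit 5) (nat_lit 656) (nat_lit 5) (nat_lit 639) (nat_lit 5) (nat_lit 416) (nat_lit 393) (nat_lit 331)) (XT.nd (nat_lit 78) (nat_lit 0) (nat_lit 0) (XT.lf (nat_lit 0) (nat_lit 2019376294) (nat_lit 1444) (nat_lit 4595348377) (nat_lit 76) (nat_lit 1107373823) (nat_lit 620) (nat_lit 5) (nat_lit 639) (nat_lit 5) (nat_lit 621) (nat_lit 5) (nat_lit 417) (nat_lit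 393) (nat_lit 330)) (XT.lf (nat_lit 0) (nat_lit 3992068320) (nat_lit 1444) (nat_lit 72179288) (nat_lit 76) (nat_lit 3714128476) (nat_lit 620) (nat_lit 5) (nat_lit 639) (nat_lit 5) (nat_lit 621) (nat_lit 5) (nat_lit 418) (nat_lit 393) (nat_lit 329)))) (XT.nd (nat_lit 156) (nat_lit 1596) (nat_lit 0) (XT.nd (nat_lit 78) (nat_lit 1596) (nat_lit 0) (XT.lf (nat_lit 0) (nat_lit 4571208196) (nat_lit 1444) (nat_lit 1425181238) (nat_lit 1520) (nat_lit 1839546288) (nat_lit 601) (nat_lit 5) (nat_lit 620) (nat_lit 5) (nat_lit 621) (nat_lit 5) (nat_lit 419) (nat_lit 393) (nat_lit 328)) (XT.lf (nat_lit 0) (nat_lit 124944793) (nat_lit 1596) (nat_lit 6502786802) (nat_lit 76) (nat_lit 1267281757) (nat_lit 580) (nat_lit 5) (nat_lit 601) (nat_lit 5) (nat_lit 581) (nat_lit 5) (nat_lit 420) (nat_lit 393) (nat_lit 327))) (XT.nd (nat_lit 78) (nat_lit 1596) (nat_lit 0) (XT.lf (nat_lit 0) (nat_lit 2098974692) (nat_lit 1596) (nat_lit 1821093573) (nat_lit 76) (nat_lit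 4035063471) (nat_lit 580) (nat_lit 5) (nat_lit 601) (nat_lit 5) (nat_lit 581) (nat_lit 5) (nat_lit 421) (nat_lit 393) (nat_lit 326)) (XT.lf (nat_lit 0) (nat_lit 2962630765) (nat_lit 1596) (nat_lit 1133174181) (nat_lit 1672) (nat_lit 3920981146) (nat_lit 559) (nat_lit 5) (nat_lit 580) (nat_lit 5) (nat_lit 581) (nat_lit 5) (nat_lit 422) (nat_lit 393) (nat_lit 325)))))) (XT.nd (nat_lit 468) (nat_lit 3724) (nat_lit 0) (XT.nd (nat_lit 234) (nat_lit 2964) (nat_lit 0) (XT.nd (nat_lit 78) (nat_lit 3496) (nat_lit 0) (XT.lf (nat_lit 0) (nat_lit 6120597773) (nat_lit 1672) (nat_lit 254893398) (nat_lit 76) (nat_lit 1704421847) (nat_lit 559) (nat_lit 5) (nat_lit 581) (nat_lit 5) (nat_lit 560) (nat_lit 5) (nat_lit 423) (nat_lit 393) (nat_lit 324)) (XT.nd (nat_lit 78) (nat_lit 1748) (nat_lit 0) (XT.lf (nat_lit 0) (nat_lit 44162155) (nat_lit 1748) (nat_lit 3480908983) (nat_lit 76) (nat_lit 4619163471) (nat_lit 536) (nat_lit 5) (nat_lit 559) (nat_lit 5)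 (nat_lit 537) (nat_lit 5) (nat_lit 424) (nat_lit 393) (nat_lit 323)) (XT.lf (nat_lit 0) (nat_lit 1448922619) (nat_lit 1748) (nat_lit 589281684) (nat_lit 1824) (nat_lit 6171844699) (nat_lit 513) (nat_lit 5) (nat_lit 536) (nat_lit 5) (nat_lit 537) (nat_lit 5) (nat_lit 425) (nat_lit 393) (nat_lit 322)))) (XT.nd (nat_lit 78) (nat_lit 2964) (nat_lit 0) (XT.lf (nat_lit 0) (nat_lit 4077333765) (nat_lit 1824) (nat_lit 1799097105) (nat_lit 76) (nat_lit 2400644684) (nat_lit 513) (nat_lit 5) (nat_lit 537) (nat_lit 5) (nat_lit 514) (nat_lit 5) (nat_lit 426) (nat_lit 393) (nat_lit 321)) (XT.nd (nat_lit 78) (nat_lit 1140) (nat_lit 0) (XT.lf (nat_lit 0) (nat_lit 3270626768) (nat_lit 1824) (nat_lit 2878498554) (nat_lit 1900) (nat_lit 2196479725) (nat_lit 489) (nat_lit 5) (nat_lit 513) (nat_lit 5) (nat_lit 514) (nat_lit 5) (nat_lit 427) (nat_lit 393) (nat_lit 320)) (XT.lf (nat_lit 0) (nat_lit 18861894) (nat_lit 1140) (nat_lit 8224143915) (nat_lit 1216)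 (nat_lit 172886259) (nat_lit 474) (nat_lit 5) (nat_lit 489) (nat_lit 5) (nat_lit 490) (nat_lit 5) (nat_lit 428) (nat_lit 393) (nat_lit 319))))) (XT.nd (nat_lit 234) (nat_lit 2736) (nat_lit 0) (XT.nd (nat_lit 78) (nat_lit 912) (nat_lit 0) (XT.lf (nat_lit 0) (nat_lit 1887161866) (nat_lit 1216) (nat_lit 3266337555) (nat_lit 76) (nat_lit 3333424114) (nat_lit 473) (nat_lit 5) (nat_lit 489) (nat_lit 5) (nat_lit 474) (nat_lit 5) (nat_lit 429) (nat_lit 393) (nat_lit 318)) (XT.nd (nat_lit 78) (nat_lit 0) (nat_lit 0) (XT.lf (nat_lit 0) (nat_lit 1960916104) (nat_lit 912) (nat_lit 2005993762) (nat_lit 988) (nat_lit 4592826631) (nat_lit 461) (nat_lit 5) (nat_lit 473) (nat_lit 5) (nat_lit 474) (nat_lit 5) (nat_lit 430) (nat_lit 393) (nat_lit 317)) (XT.lf (nat_lit 0) (nat_lit 6086652400) (nat_lit 988) (nat_lit 1335602677) (nat_lit 76) (nat_lit 1211782650) (nat_lit 461) (nat_lit 5) (nat_lit 474) (nat_lit 5) (nat_lit 462) (nat_lit 5) (nat_lit 431) (nat_lit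 393) (nat_lit 316)))) (XT.nd (nat_lit 156) (nat_lit 912) (nat_lit 0) (XT.nd (nat_lit 78) (nat_lit 912) (nat_lit 0) (XT.lf (nat_lit 0) (nat_lit 4042156397) (nat_lit 912) (nat_lit 4215295223) (nat_lit 988) (nat_lit 452200127) (nat_lit 449) (nat_lit 5) (nat_lit 461) (nat_lit 5) (nat_lit 462) (nat_lit 5) (nat_lit 432) (nat_lit 393) (nat_lit 315)) (XT.lf (nat_lit 0) (nat_lit 726851328) (nat_lit 836) (nat_lit 919020847) (nat_lit 912) (nat_lit 7141025461) (nat_lit 437) (nat_lit 5) (nat_lit 448) (nat_lit 5) (nat_lit 449) (nat_lit 5) (nat_lit 433) (nat_lit 393) (nat_lit 314))) (XT.nd (nat_lit 78) (nat_lit 912) (nat_lit 0) (XT.lf (nat_lit 0) (nat_lit 3796990134) (nat_lit 912) (nat_lit 2622833937) (nat_lit 76) (nat_lit 2445461811) (nat_lit 437) (nat_lit 5) (nat_lit 449) (nat_lit 5) (nat_lit 438) (nat_lit 5) (nat_lit 434) (nat_lit 393) (nat_lit 313)) (XT.lf (nat_lit 0) (nat_lit 2924945560) (nat_lit 912) (nat_lit 3061597094) (nat_lit 988) (nat_lit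 2958790991) (nat_lit 425) (nat_lit 5) (nat_lit 437) (nat_lit 5) (nat_lit 438) (nat_lit 5) (nat_lit 435) (nat_lit 393) (nat_lit 312))))))) (XT.nd (nat_lit 1014) (nat_lit 5244) (nat_lit 0) (XT.nd (nat_lit 468) (nat_lit 2964) (nat_lit 0) (XT.nd (nat_lit 234) (nat_lit 1596) (nat_lit 0) (XT.nd (nat_lit 78) (nat_lit 1748) (nat_lit 0) (XT.lf (nat_lit 0) (nat_lit 8210679599) (nat_lit 988) (nat_lit 440706069) (nat_lit 76) (nat_lit 375780831) (nat_lit 425) (nat_lit 5) (nat_lit 438) (nat_lit 5) (nat_lit 426) (nat_lit 5) (nat_lit 436) (nat_lit 393) (nat_lit 311)) (XT.nd (nat_lit 78) (nat_lit 836) (nat_lit 0) (XT.lf (nat_lit 0) (nat_lit 1376658602) (nat_lit 912) (nat_lit 3850003685) (nat_lit 76) (nat_lit 3883277084) (nat_lit 413) (nat_lit 5) (nat_lit 425) (nat_lit 5) (nat_lit 414) (nat_lit 5) (nat_lit 437) (nat_lit 393) (nat_lit 310)) (XT.lf (nat_lit 0) (nat_lit 1875013172) (nat_lit 836) (nat_lit 1714350845) (nat_lit 912) (nat_lit 5605163149) (nat_lit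 402) (nat_lit 5) (nat_lit 413) (nat_lit 5) (nat_lit 414) (nat_lit 5) (nat_lit 438) (nat_lit 393) (nat_lit 309)))) (XT.nd (nat_lit 78) (nat_lit 1596) (nat_lit 0) (XT.lf (nat_lit 0) (nat_lit 5856278662) (nat_lit 912) (nat_lit 1556629426) (nat_lit 76) (nat_lit 1867699526) (nat_lit 402) (nat_lit 5) (nat_lit 414) (nat_lit 5) (nat_lit 403) (nat_lit 5) (nat_lit 439) (nat_lit 393) (nat_lit 308)) (XT.nd (nat_lit 78) (nat_lit 836) (nat_lit 0) (XT.lf (nat_lit 0) (nat_lit 4336884749) (nat_lit 760) (nat_lit 3843529506) (nat_lit 836) (nat_lit 1187757764) (nat_lit 392) (nat_lit 5) (nat_lit 402) (nat_lit 5) (nat_lit 403) (nat_lit 5) (nat_lit 440) (nat_lit 393) (nat_lit 307)) (XT.lf (nat_lit 0) (nat_lit 886224365) (nat_lit 760) (nat_lit 181785365) (nat_lit 836) (nat_lit 8389559843) (nat_lit 381) (nat_lit 5) (nat_lit 391) (nat_lit 5) (nat_lit 392) (nat_lit 5) (nat_lit 441) (nat_lit 393) (nat_lit 306))))) (XT.nd (nat_lit 234) (nat_lit 2204) (nat_lit 0)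 (XT.nd (nat_lit 78) (nat_lit 760) (nat_lit 0) (XT.lf (nat_lit 0) (nat_lit 3382920634) (nat_lit 836) (nat_lit 2619596181) (nat_lit 76) (nat_lit 3545482599) (nat_lit 381) (nat_lit 5) (nat_lit 392) (nat_lit 5) (nat_lit 382) (nat_lit 5) (nat_lit 442) (nat_lit 393) (nat_lit 305)) (XT.nd (nat_lit 78) (nat_lit 0) (nat_lit 0) (XT.lf (nat_lit 0) (nat_lit 3465390242) (nat_lit 760) (nat_lit 2275836529) (nat_lit 836) (nat_lit 3899069139) (nat_lit 371) (nat_lit 5) (nat_lit 381) (nat_lit 5) (nat_lit 382) (nat_lit 5) (nat_lit 443) (nat_lit 393) (nat_lit 304)) (XT.lf (nat_lit 0) (nat_lit 8147996371) (nat_lit 836) (nat_lit 66868914) (nat_lit 76) (nat_lit 1519547105) (nat_lit 371) (nat_lit 5) (nat_lit 382) (nat_lit 5) (nat_lit 372) (nat_lit 5) (nat_lit 444) (nat_lit 393) (nat_lit 303)))) (XT.nd (nat_lit 156) (nat_lit 684) (nat_lit 0) (XT.nd (nat_lit 78) (nat_lit 684) (nat_lit 0) (XT.lf (nat_lit 0) (nat_lit 792093530) (nat_lit 836) (nat_lit 3635215684)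 (nat_lit 76) (nat_lit 5402406981) (nat_lit 360) (nat_lit 5) (nat_lit 371) (nat_lit 5) (nat_lit 361) (nat_lit 5) (nat_lit 445) (nat_lit 393) (nat_lit 302)) (XT.lf (nat_lit 0) (nat_lit 2649427684) (nat_lit 684) (nat_lit 539535897) (nat_lit 760) (nat_lit 6737912122) (nat_lit 351) (nat_lit 5) (nat_lit 360) (nat_lit 5) (nat_lit 361) (nat_lit 5) (nat_lit 446) (nat_lit 393) (nat_lit 301))) (XT.nd (nat_lit 78) (nat_lit 684) (nat_lit 0) (XT.lf (nat_lit 0) (nat_lit 5655211194) (nat_lit 760) (nat_lit 969034863) (nat_lit 76) (nat_lit 3401303542) (nat_lit 351) (nat_lit 5) (nat_lit 361) (nat_lit 5) (nat_lit 352) (nat_lit 5) (nat_lit 447) (nat_lit 393) (nat_lit 300)) (XT.lf (nat_lit 0) (nat_lit 5504579569) (nat_lit 684) (nat_lit 2680654477) (nat_lit 760) (nat_lit 1940673921) (nat_lit 342) (nat_lit 5) (nat_lit 351) (nat_lit 5) (nat_lit 352) (nat_lit 5) (nat_lit 448) (nat_lit 393) (nat_lit 299)))))) (XT.nd (nat_lit 468) (nat_lit 2508) (nat_lit 0) (XT.nd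 (nat_lit 234) (nat_lit 1292) (nat_lit 0) (XT.nd (nat_lit 78) (nat_lit 684) (nat_lit 0) (XT.lf (nat_lit 0) (nat_lit 533410825) (nat_lit 760) (nat_lit 8353035636) (nat_lit 76) (nat_lit 1341699684) (nat_lit 332) (nat_lit 5) (nat_lit 342) (nat_lit 5) (nat_lit 333) (nat_lit 5) (nat_lit 449) (nat_lit 393) (nat_lit 298)) (XT.nd (nat_lit 78) (nat_lit 684) (nat_lit 0) (XT.lf (nat_lit 0) (nat_lit 3055517438) (nat_lit 760) (nat_lit 1828479070) (nat_lit 76) (nat_lit 5447685506) (nat_lit 332) (nat_lit 5) (nat_lit 342) (nat_lit 5) (nat_lit 333) (nat_lit 5) (nat_lit 450) (nat_lit 393) (nat_lit 297)) (XT.lf (nat_lit 0) (nat_lit 4860926895) (nat_lit 684) (nat_lit 774711320) (nat_lit 760) (nat_lit 4801498945) (nat_lit 323) (nat_lit 5) (nat_lit 332) (nat_lit 5) (nat_lit 333) (nat_lit 5) (nat_lit 451) (nat_lit 393) (nat_lit 296)))) (XT.nd (nat_lit 78) (nat_lit 684) (nat_lit 0) (XT.lf (nat_lit 0) (nat_lit 1127331745) (nat_lit 608) (nat_lit 7158141014) (nat_lit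 684) (nat_lit 2258866422) (nat_lit 315) (nat_lit 5) (nat_lit 323) (nat_lit 5) (nat_lit 324) (nat_lit 5) (nat_lit 452) (nat_lit 393) (nat_lit 295)) (XT.nd (nat_lit 78) (nat_lit 608) (nat_lit 0) (XT.lf (nat_lit 0) (nat_lit 349403562) (nat_lit 684) (nat_lit 2649713911) (nat_lit 76) (nat_lit 7654140851) (nat_lit 314) (nat_lit 5) (nat_lit 323) (nat_lit 5) (nat_lit 315) (nat_lit 5) (nat_lit 453) (nat_lit 393) (nat_lit 294)) (XT.lf (nat_lit 0) (nat_lit 2992463726) (nat_lit 684) (nat_lit 6507555953) (nat_lit 76) (nat_lit 1263780129) (nat_lit 306) (nat_lit 5) (nat_lit 315) (nat_lit 5) (nat_lit 307) (nat_lit 5) (nat_lit 454) (nat_lit 393) (nat_lit 293))))) (XT.nd (nat_lit 234) (nat_lit 1216) (nat_lit 0) (XT.nd (nat_lit 78) (nat_lit 684) (nat_lit 0) (XT.lf (nat_lit 0) (nat_lit 416119171) (nat_lit 608) (nat_lit 5289793485) (nat_lit 684) (nat_lit 5170288914) (nat_lit 298) (nat_lit 5) (nat_lit 306) (nat_lit 5) (nat_lit 307) (nat_lit 5) (nat_lit 455)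 (nat_lit 393) (nat_lit 292)) (XT.nd (nat_lit 78) (nat_lit 684) (nat_lit 0) (XT.lf (nat_lit 0) (nat_lit 7537272166) (nat_lit 608) (nat_lit 957352996) (nat_lit 684) (nat_lit 2495806313) (nat_lit 298) (nat_lit 5) (nat_lit 306) (nat_lit 5) (nat_lit 307) (nat_lit 5) (nat_lit 456) (nat_lit 393) (nat_lit 291)) (XT.lf (nat_lit 0) (nat_lit 253448549) (nat_lit 684) (nat_lit 7417335861) (nat_lit 76) (nat_lit 3435644871) (nat_lit 289) (nat_lit 5) (nat_lit 298) (nat_lit 5) (nat_lit 290) (nat_lit 5) (nat_lit 457) (nat_lit 393) (nat_lit 290)))) (XT.nd (nat_lit 156) (nat_lit 684) (nat_lit 0) (XT.nd (nat_lit 78) (nat_lit 532) (nat_lit 0) (XT.lf (nat_lit 0) (nat_lit 3031799016) (nat_lit 684) (nat_lit 255447122) (nat_lit 76) (nat_lit 7937020372) (nat_lit 289) (nat_lit 5) (nat_lit 298) (nat_lit 5) (nat_lit 290) (nat_lit 5) (nat_lit 458) (nat_lit 393) (nat_lit 289)) (XT.lf (nat_lit 0) (nat_lit 5898123309) (nat_lit 608) (nat_lit 4237503424) (nat_lit 76) (nat_lit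 1208185614) (nat_lit 282) (nat_lit 5) (nat_lit 290) (nat_lit 5) (nat_lit 283) (nat_lit 5) (nat_lit 459) (nat_lit 393) (nat_lit 288))) (XT.nd (nat_lit 78) (nat_lit 76) (nat_lit 0) (XT.lf (nat_lit 0) (nat_lit 3143730430) (nat_lit 608) (nat_lit 5700414067) (nat_lit 684) (nat_lit 2621157195) (nat_lit 274) (nat_lit 5) (nat_lit 282) (nat_lit 5) (nat_lit 283) (nat_lit 5) (nat_lit 460) (nat_lit 393) (nat_lit 287)) (XT.lf (nat_lit 0) (nat_lit 263640825) (nat_lit 684) (nat_lit 889360774) (nat_lit 76) (nat_lit 10436041808) (nat_lit 273) (nat_lit 5) (nat_lit 282) (nat_lit 5) (nat_lit 274) (nat_lit 5) (nat_lit 461) (nat_lit 393) (nat_lit 286))))))))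
noncomputable def xc77 : XT := (XT.nd (nat_lit 54756) (nat_lit 0) (nat_lit 22420) (XT.nd (nat_lit 1014) (nat_lit 1368) (nat_lit 0) (XT.nd (nat_lit 468) (nat_lit 2508) (nat_lit 0) (XT.nd (nat_lit 234) (nat_lit 1140) (nat_lit 0) (XT.nd (nat_lit 78) (nat_lit 532) (nat_lit 0) (XT.lf (nat_lit 0) (nat_lit 3216759400) (nat_lit 608) (nat_lit 5003286931) (nat_lit 76) (nat_lit 3493952669) (nat_lit 266) (nat_lit 5) (nat_lit 274) (nat_lit 5) (nat_lit 267) (nat_lit 5) (nat_lit 462) (nat_lit 393) (nat_lit 285)) (XT.nd (nat_lit 78) (nat_lit 0) (nat_lit 0) (XT.lf (nat_lit 0) (nat_lit 2631870955) (nat_lit 532) (nat_lit 3606962665) (nat_lit 608) (nat_lit 5602422221) (nat_lit 259) (nat_lit 5) (nat_lit 266) (nat_lit 5) (nat_lit 267) (nat_lit 5) (nat_lit 463) (nat_lit 393) (nat_lit 284)) (XT.lf (nat_lit 0) (nat_lit 9341614886) (nat_lit 608) (nat_lit 1518841033) (nat_lit 76) (nat_lit 1110196587) (nat_lit 259) (nat_lit 5) (nat_lit 267) (nat_lit 5) (nat_lit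 260) (nat_lit 5) (nat_lit 464) (nat_lit 393) (nat_lit 283)))) (XT.nd (nat_lit 78) (nat_lit 532) (nat_lit 0) (XT.lf (nat_lit 0) (nat_lit 443718611) (nat_lit 608) (nat_lit 5747751717) (nat_lit 76) (nat_lit 5910210339) (nat_lit 251) (nat_lit 5) (nat_lit 259) (nat_lit 5) (nat_lit 252) (nat_lit 5) (nat_lit 465) (nat_lit 393) (nat_lit 282)) (XT.nd (nat_lit 78) (nat_lit 0) (nat_lit 0) (XT.lf (nat_lit 0) (nat_lit 2152189834) (nat_lit 532) (nat_lit 1394628934) (nat_lit 608) (nat_lit 8688081233) (nat_lit 244) (nat_lit 5) (nat_lit 251) (nat_lit 5) (nat_lit 252) (nat_lit 5) (nat_lit 466) (nat_lit 393) (nat_lit 281)) (XT.lf (nat_lit 0) (nat_lit 6753506365) (nat_lit 608) (nat_lit 2133274520) (nat_lit 76) (nat_lit 3483172327) (nat_lit 244) (nat_lit 5) (nat_lit 252) (nat_lit 5) (nat_lit 245) (nat_lit 5) (nat_lit 467) (nat_lit 393) (nat_lit 280))))) (XT.nd (nat_lit 234) (nat_lit 1444) (nat_lit 0) (XT.nd (nat_lit 78) (nat_lit 608) (nat_lit 0) (XT.lf (nat_lit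 0) (nat_lit 6017047197) (nat_lit 456) (nat_lit 4035962798) (nat_lit 532) (nat_lit 2454123847) (nat_lit 238) (nat_lit 5) (nat_lit 244) (nat_lit 5) (nat_lit 245) (nat_lit 5) (nat_lit 468) (nat_lit 393) (nat_lit 279)) (XT.nd (nat_lit 78) (nat_lit 0) (nat_lit 0) (XT.lf (nat_lit 0) (nat_lit 773312777) (nat_lit 608) (nat_lit 10951028563) (nat_lit 76) (nat_lit 922376874) (nat_lit 230) (nat_lit 5) (nat_lit 238) (nat_lit 5) (nat_lit 231) (nat_lit 5) (nat_lit 469) (nat_lit 393) (nat_lit 278)) (XT.lf (nat_lit 0) (nat_lit 4083642700) (nat_lit 608) (nat_lit 2726343754) (nat_lit 76) (nat_lit 5977759278) (nat_lit 230) (nat_lit 5) (nat_lit 238) (nat_lit 5) (nat_lit 231) (nat_lit 5) (nat_lit 470) (nat_lit 393) (nat_lit 277)))) (XT.nd (nat_lit 156) (nat_lit 532) (nat_lit 0) (XT.nd (nat_lit 78) (nat_lit 456) (nat_lit 0) (XT.lf (nat_lit 0) (nat_lit 5710267408) (nat_lit 456) (nat_lit 1767972948) (nat_lit 532) (nat_lit 5452992221) (nat_lit 224) (nat_lit 5)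 (nat_lit 230) (nat_lit 5) (nat_lit 231) (nat_lit 5) (nat_lit 471) (nat_lit 393) (nat_lit 276)) (XT.lf (nat_lit 0) (nat_lit 1242000467) (nat_lit 456) (nat_lit 9728248793) (nat_lit 532) (nat_lit 2106749514) (nat_lit 218) (nat_lit 5) (nat_lit 224) (nat_lit 5) (nat_lit 225) (nat_lit 5) (nat_lit 472) (nat_lit 393) (nat_lit 275))) (XT.nd (nat_lit 78) (nat_lit 456) (nat_lit 0) (XT.lf (nat_lit 0) (nat_lit 1330965353) (nat_lit 532) (nat_lit 3300782770) (nat_lit 76) (nat_lit 8592928905) (nat_lit 217) (nat_lit 5) (nat_lit 224) (nat_lit 5) (nat_lit 218) (nat_lit 5) (nat_lit 473) (nat_lit 393) (nat_lit 274)) (XT.lf (nat_lit 0) (nat_lit 4830047715) (nat_lit 532) (nat_lit 7944329851) (nat_lit 76) (nat_lit 600236317) (nat_lit 211) (nat_lit 5) (nat_lit 218) (nat_lit 5) (nat_lit 212) (nat_lit 5) (nat_lit 474) (nat_lit 393) (nat_lit 273)))))) (XT.nd (nat_lit 53196) (nat_lit 0) (nat_lit 38456) (XT.nd (nat_lit 234) (nat_lit 456) (nat_lit 0) (XT.nd (nat_lit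 78) (nat_lit 456) (nat_lit 0) (XT.lf (nat_lit 0) (nat_lit 806105172) (nat_lit 456) (nat_lit 7632905014) (nat_lit 532) (nat_lit 5087741321) (nat_lit 205) (nat_lit 5) (nat_lit 211) (nat_lit 5) (nat_lit 212) (nat_lit 5) (nat_lit 475) (nat_lit 393) (nat_lit 272)) (XT.nd (nat_lit 78) (nat_lit 456) (nat_lit 0) (XT.lf (nat_lit 0) (nat_lit 9812160488) (nat_lit 456) (nat_lit 2343179381) (nat_lit 532) (nat_lit 1525888254) (nat_lit 205) (nat_lit 5) (nat_lit 211) (nat_lit 5) (nat_lit 212) (nat_lit 5) (nat_lit 476) (nat_lit 393) (nat_lit 271)) (XT.lf (nat_lit 0) (nat_lit 2115432391) (nat_lit 456) (nat_lit 8671169997) (nat_lit 76) (nat_lit 3051200919) (nat_lit 199) (nat_lit 5) (nat_lit 205) (nat_lit 5) (nat_lit 200) (nat_lit 5) (nat_lit 477) (nat_lit 393) (nat_lit 270)))) (XT.nd (nat_lit 52806) (nat_lit 0) (nat_lit 40432) (XT.lf (nat_lit 0) (nat_lit 390933200) (nat_lit 456) (nat_lit 5444660239) (nat_lit 532) (nat_lit 8161185921) (nat_lit 193) (nat_lit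 5) (nat_lit 199) (nat_lit 5) (nat_lit 200) (nat_lit 5) (nat_lit 478) (nat_lit 393) (nat_lit 269)) (XT.nd (nat_lit 78) (nat_lit 0) (nat_lit 0) (XT.lf (nat_lit 0) (nat_lit 578846109) (nat_lit 988) (nat_lit 1413983604) (nat_lit 988) (nat_lit 1413983604) (nat_lit 725) (nat_lit 3) (nat_lit 738) (nat_lit 3) (nat_lit 738) (nat_lit 5) (nat_lit 394) (nat_lit 394) (nat_lit 352)) (XT.lf (nat_lit 76) (nat_lit 586538669) (nat_lit 0) (nat_lit 2629297864) (nat_lit 988) (nat_lit 3624995021) (nat_lit 726) (nat_lit 5) (nat_lit 725) (nat_lit 3) (nat_lit 738) (nat_lit 5) (nat_lit 395) (nat_lit 394) (nat_lit 351))))) (XT.nd (nat_lit 234) (nat_lit 1064) (nat_lit 0) (XT.nd (nat_lit 78) (nat_lit 912) (nat_lit 0) (XT.lf (nat_lit 76) (nat_lit 4079978366) (nat_lit 0) (nat_lit 1200380426) (nat_lit 988) (nat_lit 1588917477) (nat_lit 726) (nat_lit 5) (nat_lit 725) (nat_lit 3) (nat_lit 738) (nat_lit 5) (nat_lit 396) (nat_lit 394) (nat_lit 350)) (XT.nd (nat_lit 78)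 (nat_lit 0) (nat_lit 0) (XT.lf (nat_lit 0) (nat_lit 435008281) (nat_lit 988) (nat_lit 6177613407) (nat_lit 1064) (nat_lit 286534333) (nat_lit 713) (nat_lit 5) (nat_lit 726) (nat_lit 5) (nat_lit 727) (nat_lit 5) (nat_lit 397) (nat_lit 394) (nat_lit 349)) (XT.lf (nat_lit 0) (nat_lit 2452910934) (nat_lit 988) (nat_lit 2636317761) (nat_lit 1064) (nat_lit 1840699136) (nat_lit 713) (nat_lit 5) (nat_lit 726) (nat_lit 5) (nat_lit 727) (nat_lit 5) (nat_lit 398) (nat_lit 394) (nat_lit 348)))) (XT.nd (nat_lit 156) (nat_lit 1064) (nat_lit 0) (XT.nd (nat_lit 78) (nat_lit 0) (nat_lit 0) (XT.lf (nat_lit 76) (nat_lit 960089436) (nat_lit 0) (nat_lit 3506299019) (nat_lit 1064) (nat_lit 2495822287) (nat_lit 714) (nat_lit 5) (nat_lit 713) (nat_lit 5) (nat_lit 727) (nat_lit 5) (nat_lit 399) (nat_lit 394) (nat_lit 347)) (XT.lf (nat_lit 76) (nat_lit 4636040877) (nat_lit 0) (nat_lit 1851586762) (nat_lit 1064) (nat_lit 508161830) (nat_lit 714) (nat_lit 5) (nat_lit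 713) (nat_lit 5) (nat_lit 727) (nat_lit 5) (nat_lit 400) (nat_lit 394) (nat_lit 346))) (XT.nd (nat_lit 78) (nat_lit 0) (nat_lit 76) (XT.lf (nat_lit 76) (nat_lit 1334888000) (nat_lit 0) (nat_lit 123564953) (nat_lit 1140) (nat_lit 5572207011) (nat_lit 700) (nat_lit 5) (nat_lit 699) (nat_lit 5) (nat_lit 714) (nat_lit 5) (nat_lit 401) (nat_lit 394) (nat_lit 345)) (XT.lf (nat_lit 0) (nat_lit 3435566904) (nat_lit 1064) (nat_lit 1973769258) (nat_lit 1140) (nat_lit 1657265103) (nat_lit 700) (nat_lit 5) (nat_lit 714) (nat_lit 5) (nat_lit 715) (nat_lit 5) (nat_lit 402) (nat_lit 394) (nat_lit 344))))))) (XT.nd (nat_lit 1014) (nat_lit 12692) (nat_lit 0) (XT.nd (nat_lit 468) (nat_lit 1140) (nat_lit 0) (XT.nd (nat_lit 234) (nat_lit 1140) (nat_lit 0) (XT.nd (nat_lit 78) (nat_lit 1140) (nat_lit 0) (XT.lf (nat_lit 76) (nat_lit 1817107800) (nat_lit 0) (nat_lit 3600067972) (nat_lit 1140) (nat_lit 1686786569) (nat_lit 701) (nat_lit 5) (nat_lit 700) (nat_lit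 5) (nat_lit 715) (nat_lit 5) (nat_lit 403) (nat_lit 394) (nat_lit 343)) (XT.nd (nat_lit 78) (nat_lit 0) (nat_lit 76) (XT.lf (nat_lit 0) (nat_lit 258568311) (nat_lit 1140) (nat_lit 1462278812) (nat_lit 1216) (nat_lit 5421862857) (nat_lit 685) (nat_lit 5) (nat_lit 700) (nat_lit 5) (nat_lit 701) (nat_lit 5) (nat_lit 404) (nat_lit 394) (nat_lit 342)) (XT.lf (nat_lit 0) (nat_lit 2191317991) (nat_lit 1140) (nat_lit 4753134435) (nat_lit 1216) (nat_lit 238135678) (nat_lit 686) (nat_lit 5) (nat_lit 701) (nat_lit 5) (nat_lit 702) (nat_lit 5) (nat_lit 405) (nat_lit 394) (nat_lit 341)))) (XT.nd (nat_lit 78) (nat_lit 1216) (nat_lit 0) (XT.lf (nat_lit 0) (nat_lit 4138535329) (nat_lit 1140) (nat_lit 844972840) (nat_lit 1216) (nat_lit 2240239368) (nat_lit 686) (nat_lit 5) (nat_lit 701) (nat_lit 5) (nat_lit 702) (nat_lit 5) (nat_lit 406) (nat_lit 394) (nat_lit 340)) (XT.nd (nat_lit 78) (nat_lit 1216) (nat_lit 0) (XT.lf (nat_lit 76) (nat_lit 3154005219)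 (nat_lit 0) (nat_lit 2946599768) (nat_lit 1216) (nat_lit 1165607012) (nat_lit 687) (nat_lit 5) (nat_lit 686) (nat_lit 5) (nat_lit 702) (nat_lit 5) (nat_lit 407) (nat_lit 394) (nat_lit 339)) (XT.lf (nat_lit 0) (nat_lit 743533913) (nat_lit 1216) (nat_lit 99288188) (nat_lit 1292) (nat_lit 6467370035) (nat_lit 670) (nat_lit 5) (nat_lit 686) (nat_lit 5) (nat_lit 687) (nat_lit 5) (nat_lit 408) (nat_lit 394) (nat_lit 338))))) (XT.nd (nat_lit 234) (nat_lit 1216) (nat_lit 0) (XT.nd (nat_lit 78) (nat_lit 0) (nat_lit 0) (XT.lf (nat_lit 0) (nat_lit 2666775694) (nat_lit 1216) (nat_lit 3353797536) (nat_lit 1292) (nat_lit 1334494044) (nat_lit 671) (nat_lit 5) (nat_lit 687) (nat_lit 5) (nat_lit 688) (nat_lit 5) (nat_lit 409) (nat_lit 394) (nat_lit 337)) (XT.nd (nat_lit 78) (nat_lit 0) (nat_lit 0) (XT.lf (nat_lit 76) (nat_lit 759434948) (nat_lit 0) (nat_lit 3837682552) (nat_lit 1292) (nat_lit 2804349710) (nat_lit 672) (nat_lit 5) (nat_lit 671) (nat_lit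 5) (nat_lit 688) (nat_lit 5) (nat_lit 410) (nat_lit 394) (nat_lit 336)) (XT.lf (nat_lit 76) (nat_lit 4971289163) (nat_lit 0) (nat_lit 1575380177) (nat_lit 1292) (nat_lit 902513741) (nat_lit 672) (nat_lit 5) (nat_lit 671) (nat_lit 5) (nat_lit 688) (nat_lit 5) (nat_lit 411) (nat_lit 394) (nat_lit 335)))) (XT.nd (nat_lit 156) (nat_lit 0) (nat_lit 0) (XT.nd (nat_lit 78) (nat_lit 0) (nat_lit 0) (XT.lf (nat_lit 0) (nat_lit 998760308) (nat_lit 1292) (nat_lit 5746522398) (nat_lit 1368) (nat_lit 752935728) (nat_lit 655) (nat_lit 5) (nat_lit 672) (nat_lit 5) (nat_lit 673) (nat_lit 5) (nat_lit 412) (nat_lit 394) (nat_lit 334)) (XT.lf (nat_lit 0) (nat_lit 2912504673) (nat_lit 1292) (nat_lit 1494739178) (nat_lit 1368) (nat_lit 3141140741) (nat_lit 655) (nat_lit 5) (nat_lit 672) (nat_lit 5) (nat_lit 673) (nat_lit 5) (nat_lit 413) (nat_lit 394) (nat_lit 333))) (XT.nd (nat_lit 78) (nat_lit 0) (nat_lit 76) (XT.lf (nat_lit 76) (nat_lit 2850261867) (nat_lit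 0) (nat_lit 1992912087) (nat_lit 1368) (nat_lit 2756807119) (nat_lit 656) (nat_lit 5) (nat_lit 655) (nat_lit 5) (nat_lit 673) (nat_lit 5) (nat_lit 414) (nat_lit 394) (nat_lit 332)) (XT.lf (nat_lit 0) (nat_lit 6786407153) (nat_lit 1292) (nat_lit 382959699) (nat_lit 76) (nat_lit 483763622) (nat_lit 656) (nat_lit 5) (nat_lit 673) (nat_lit 5) (nat_lit 657) (nat_lit 5) (nat_lit 415) (nat_lit 394) (nat_lit 331)))))) (XT.nd (nat_lit 468) (nat_lit 6992) (nat_lit 0) (XT.nd (nat_lit 234) (nat_lit 3040) (nat_lit 0) (XT.nd (nat_lit 78) (nat_lit 1368) (nat_lit 0) (XT.lf (nat_lit 0) (nat_lit 1048528241) (nat_lit 1368) (nat_lit 3632013649) (nat_lit 76) (nat_lit 3026637508) (nat_lit 638) (nat_lit 5) (nat_lit 656) (nat_lit 5) (nat_lit 639) (nat_lit 5) (nat_lit 416) (nat_lit 394) (nat_lit 330)) (XT.nd (nat_lit 78) (nat_lit 0) (nat_lit 0) (XT.lf (nat_lit 0) (nat_lit 841073128) (nat_lit 1368) (nat_lit 2119351255) (nat_lit 1444) (nat_lit 4802371437) (nat_lit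 620) (nat_lit 5) (nat_lit 638) (nat_lit 5) (nat_lit 639) (nat_lit 5) (nat_lit 417) (nat_lit 394) (nat_lit 329)) (XT.lf (nat_lit 0) (nat_lit 4900789805) (nat_lit 1444) (nat_lit 2399742480) (nat_lit 76) (nat_lit 519187658) (nat_lit 620) (nat_lit 5) (nat_lit 639) (nat_lit 5) (nat_lit 621) (nat_lit 5) (nat_lit 418) (nat_lit 394) (nat_lit 328)))) (XT.nd (nat_lit 78) (nat_lit 1596) (nat_lit 0) (XT.lf (nat_lit 0) (nat_lit 2197862154) (nat_lit 1444) (nat_lit 4673637105) (nat_lit 1520) (nat_lit 1006452556) (nat_lit 601) (nat_lit 5) (nat_lit 620) (nat_lit 5) (nat_lit 621) (nat_lit 5) (nat_lit 419) (nat_lit 394) (nat_lit 327)) (XT.nd (nat_lit 78) (nat_lit 1520) (nat_lit 0) (XT.lf (nat_lit 0) (nat_lit 911621746) (nat_lit 1520) (nat_lit 1053210848) (nat_lit 76) (nat_lit 5972798483) (nat_lit 600) (nat_lit 5) (nat_lit 620) (nat_lit 5) (nat_lit 601) (nat_lit 5) (nat_lit 420) (nat_lit 394) (nat_lit 326)) (XT.lf (nat_lit 0) (nat_lit 2848139739) (nat_lit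 1596) (nat_lit 4325559323) (nat_lit 76) (nat_lit 824800637) (nat_lit 580) (nat_lit 5) (nat_lit 601) (nat_lit 5) (nat_lit 581) (nat_lit 5) (nat_lit 421) (nat_lit 394) (nat_lit 325))))) (XT.nd (nat_lit 234) (nat_lit 3648) (nat_lit 0) (XT.nd (nat_lit 78) (nat_lit 1748) (nat_lit 0) (XT.lf (nat_lit 0) (nat_lit 409902872) (nat_lit 1596) (nat_lit 4401061743) (nat_lit 1672) (nat_lit 3249869548) (nat_lit 559) (nat_lit 5) (nat_lit 580) (nat_lit 5) (nat_lit 581) (nat_lit 5) (nat_lit 422) (nat_lit 394) (nat_lit 324)) (XT.nd (nat_lit 78) (nat_lit 1748) (nat_lit 0) (XT.lf (nat_lit 0) (nat_lit 5269043891) (nat_lit 1596) (nat_lit 1538315318) (nat_lit 1672) (nat_lit 1317169843) (nat_lit 559) (nat_lit 5) (nat_lit 580) (nat_lit 5) (nat_lit 581) (nat_lit 5) (nat_lit 423) (nat_lit 394) (nat_lit 323)) (XT.lf (nat_lit 0) (nat_lit 633634263) (nat_lit 1748) (nat_lit 6170260442) (nat_lit 76) (nat_lit 1385757583) (nat_lit 536) (nat_lit 5) (nat_lit 559) (nat_lit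 5) (nat_lit 537) (nat_lit 5) (nat_lit 424) (nat_lit 394) (nat_lit 322)))) (XT.nd (nat_lit 156) (nat_lit 1900) (nat_lit 0) (XT.nd (nat_lit 78) (nat_lit 1748) (nat_lit 0) (XT.lf (nat_lit 0) (nat_lit 2601561969) (nat_lit 1748) (nat_lit 1274307031) (nat_lit 76) (nat_lit 4380119969) (nat_lit 536) (nat_lit 5) (nat_lit 559) (nat_lit 5) (nat_lit 537) (nat_lit 5) (nat_lit 425) (nat_lit 394) (nat_lit 321)) (XT.lf (nat_lit 0) (nat_lit 3739146070) (nat_lit 1748) (nat_lit 860892616) (nat_lit 1824) (nat_lit 3723789890) (nat_lit 513) (nat_lit 5) (nat_lit 536) (nat_lit 5) (nat_lit 537) (nat_lit 5) (nat_lit 426) (nat_lit 394) (nat_lit 320))) (XT.nd (nat_lit 78) (nat_lit 76) (nat_lit 0) (XT.lf (nat_lit 0) (nat_lit 438667650) (nat_lit 1824) (nat_lit 6193044577) (nat_lit 1900) (nat_lit 1761448202) (nat_lit 489) (nat_lit 5) (nat_lit 513) (nat_lit 5) (nat_lit 514) (nat_lit 5) (nat_lit 427) (nat_lit 394) (nat_lit 319)) (XT.lf (nat_lit 0) (nat_lit 241288755)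 (nat_lit 1900) (nat_lit 2876269167) (nat_lit 76) (nat_lit 5346203857) (nat_lit 488) (nat_lit 5) (nat_lit 513) (nat_lit 5) (nat_lit 489) (nat_lit 5) (nat_lit 428) (nat_lit 394) (nat_lit 318))))))))
noncomputable def xc78 : XT := (XT.nd (nat_lit 2028) (nat_lit 8740) (nat_lit 0) (XT.nd (nat_lit 1014) (nat_lit 5852) (nat_lit 0) (XT.nd (nat_lit 468) (nat_lit 3496) (nat_lit 0) (XT.nd (nat_lit 234) (nat_lit 1824) (nat_lit 0) (XT.nd (nat_lit 78) (nat_lit 912) (nat_lit 0) (XT.lf (nat_lit 0) (nat_lit 2243978135) (nat_lit 1216) (nat_lit 6243858015) (nat_lit 76) (nat_lit 48036471) (nat_lit 473) (nat_lit 5) (nat_lit 489) (nat_lit 5) (nat_lit 474) (nat_lit 5) (nat_lit 429) (nat_lit 394) (nat_lit 317)) (XT.nd (nat_lit 78) (nat_lit 912) (nat_lit 0) (XT.lf (nat_lit 0) (nat_lit 4295502493) (nat_lit 1216) (nat_lit 1057186050) (nat_lit 76) (nat_lit 3256561514) (nat_lit 473) (nat_lit 5) (nat_lit 489) (nat_lit 5) (nat_lit 474) (nat_lit 5) (nat_lit 430) (nat_lit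 394) (nat_lit 316)) (XT.lf (nat_lit 0) (nat_lit 4259649010) (nat_lit 912) (nat_lit 2125384410) (nat_lit 988) (nat_lit 2299122100) (nat_lit 461) (nat_lit 5) (nat_lit 473) (nat_lit 5) (nat_lit 474) (nat_lit 5) (nat_lit 431) (nat_lit 394) (nat_lit 315)))) (XT.nd (nat_lit 78) (nat_lit 912) (nat_lit 0) (XT.lf (nat_lit 0) (nat_lit 911209443) (nat_lit 912) (nat_lit 7595514414) (nat_lit 988) (nat_lit 254027858) (nat_lit 449) (nat_lit 5) (nat_lit 461) (nat_lit 5) (nat_lit 462) (nat_lit 5) (nat_lit 432) (nat_lit 394) (nat_lit 314)) (XT.nd (nat_lit 78) (nat_lit 836) (nat_lit 0) (XT.lf (nat_lit 0) (nat_lit 1821845507) (nat_lit 988) (nat_lit 2480895161) (nat_lit 76) (nat_lit 4535623201) (nat_lit 448) (nat_lit 5) (nat_lit 461) (nat_lit 5) (nat_lit 449) (nat_lit 5) (nat_lit 433) (nat_lit 394) (nat_lit 313)) (XT.lf (nat_lit 0) (nat_lit 3003363779) (nat_lit 836) (nat_lit 922504573) (nat_lit 912) (nat_lit 4991825663) (nat_lit 437) (nat_lit 5) (nat_lit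 448) (nat_lit 5) (nat_lit 449) (nat_lit 5) (nat_lit 434) (nat_lit 394) (nat_lit 312))))) (XT.nd (nat_lit 234) (nat_lit 1672) (nat_lit 0) (XT.nd (nat_lit 78) (nat_lit 1824) (nat_lit 0) (XT.lf (nat_lit 0) (nat_lit 6076043125) (nat_lit 912) (nat_lit 413702106) (nat_lit 76) (nat_lit 2508784104) (nat_lit 437) (nat_lit 5) (nat_lit 449) (nat_lit 5) (nat_lit 438) (nat_lit 5) (nat_lit 435) (nat_lit 394) (nat_lit 311)) (XT.nd (nat_lit 78) (nat_lit 912) (nat_lit 0) (XT.lf (nat_lit 0) (nat_lit 5230154109) (nat_lit 912) (nat_lit 3050621418) (nat_lit 988) (nat_lit 799974751) (nat_lit 425) (nat_lit 5) (nat_lit 437) (nat_lit 5) (nat_lit 438) (nat_lit 5) (nat_lit 436) (nat_lit 394) (nat_lit 310)) (XT.lf (nat_lit 0) (nat_lit 1336441103) (nat_lit 912) (nat_lit 7354446730) (nat_lit 76) (nat_lit 473763435) (nat_lit 413) (nat_lit 5) (nat_lit 425) (nat_lit 5) (nat_lit 414) (nat_lit 5) (nat_lit 437) (nat_lit 394) (nat_lit 309)))) (XT.nd (nat_lit 156) (nat_lit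 836) (nat_lit 0) (XT.nd (nat_lit 78) (nat_lit 836) (nat_lit 0) (XT.lf (nat_lit 0) (nat_lit 3523125261) (nat_lit 912) (nat_lit 1668778719) (nat_lit 76) (nat_lit 4057855508) (nat_lit 413) (nat_lit 5) (nat_lit 425) (nat_lit 5) (nat_lit 414) (nat_lit 5) (nat_lit 438) (nat_lit 394) (nat_lit 308)) (XT.lf (nat_lit 0) (nat_lit 4155881731) (nat_lit 836) (nat_lit 1597220773) (nat_lit 912) (nat_lit 3583476181) (nat_lit 402) (nat_lit 5) (nat_lit 413) (nat_lit 5) (nat_lit 414) (nat_lit 5) (nat_lit 439) (nat_lit 394) (nat_lit 307))) (XT.nd (nat_lit 78) (nat_lit 76) (nat_lit 0) (XT.lf (nat_lit 0) (nat_lit 660333892) (nat_lit 760) (nat_lit 7369254048) (nat_lit 836) (nat_lit 1395508153) (nat_lit 392) (nat_lit 5) (nat_lit 402) (nat_lit 5) (nat_lit 403) (nat_lit 5) (nat_lit 440) (nat_lit 394) (nat_lit 306)) (XT.lf (nat_lit 0) (nat_lit 843901580) (nat_lit 836) (nat_lit 2872240471) (nat_lit 76) (nat_lit 5798760221) (nat_lit 391) (nat_lit 5) (nat_lit 402)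 (nat_lit 5) (nat_lit 392) (nat_lit 5) (nat_lit 441) (nat_lit 394) (nat_lit 305)))))) (XT.nd (nat_lit 468) (nat_lit 2812) (nat_lit 0) (XT.nd (nat_lit 234) (nat_lit 1520) (nat_lit 0) (XT.nd (nat_lit 78) (nat_lit 760) (nat_lit 0) (XT.lf (nat_lit 0) (nat_lit 3103672115) (nat_lit 836) (nat_lit 6465742413) (nat_lit 76) (nat_lit 37020392) (nat_lit 381) (nat_lit 5) (nat_lit 392) (nat_lit 5) (nat_lit 382) (nat_lit 5) (nat_lit 442) (nat_lit 394) (nat_lit 304)) (XT.nd (nat_lit 78) (nat_lit 760) (nat_lit 0) (XT.lf (nat_lit 0) (nat_lit 5426565386) (nat_lit 836) (nat_lit 440786318) (nat_lit 76) (nat_lit 3832087971) (nat_lit 381) (nat_lit 5) (nat_lit 392) (nat_lit 5) (nat_lit 382) (nat_lit 5) (nat_lit 443) (nat_lit 394) (nat_lit 303)) (XT.lf (nat_lit 0) (nat_lit 5751220875) (nat_lit 760) (nat_lit 2056463078) (nat_lit 836) (nat_lit 1986385222) (nat_lit 371) (nat_lit 5) (nat_lit 381) (nat_lit 5) (nat_lit 382) (nat_lit 5) (nat_lit 444) (nat_lit 394) (nat_lit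 302)))) (XT.nd (nat_lit 78) (nat_lit 684) (nat_lit 0) (XT.lf (nat_lit 0) (nat_lit 344993532) (nat_lit 836) (nat_lit 7722892483) (nat_lit 76) (nat_lit 1822586433) (nat_lit 360) (nat_lit 5) (nat_lit 371) (nat_lit 5) (nat_lit 361) (nat_lit 5) (nat_lit 445) (nat_lit 394) (nat_lit 301)) (XT.nd (nat_lit 78) (nat_lit 684) (nat_lit 0) (XT.lf (nat_lit 0) (nat_lit 2712217083) (nat_lit 836) (nat_lit 1487507438) (nat_lit 76) (nat_lit 5788500365) (nat_lit 360) (nat_lit 5) (nat_lit 371) (nat_lit 5) (nat_lit 361) (nat_lit 5) (nat_lit 446) (nat_lit 394) (nat_lit 300)) (XT.lf (nat_lit 0) (nat_lit 4908220821) (nat_lit 684) (nat_lit 225786404) (nat_lit 760) (nat_lit 4953780705) (nat_lit 351) (nat_lit 5) (nat_lit 360) (nat_lit 5) (nat_lit 361) (nat_lit 5) (nat_lit 447) (nat_lit 394) (nat_lit 299))))) (XT.nd (nat_lit 234) (nat_lit 1368) (nat_lit 0) (XT.nd (nat_lit 78) (nat_lit 760) (nat_lit 0) (XT.lf (nat_lit 0) (nat_lit 1225026111) (nat_lit 684) (nat_lit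 6397685637) (nat_lit 760) (nat_lit 2566260917) (nat_lit 342) (nat_lit 5) (nat_lit 351) (nat_lit 5) (nat_lit 352) (nat_lit 5) (nat_lit 448) (nat_lit 394) (nat_lit 298)) (XT.nd (nat_lit 78) (nat_lit 760) (nat_lit 0) (XT.lf (nat_lit 0) (nat_lit 7797589979) (nat_lit 684) (nat_lit 2375759596) (nat_lit 760) (nat_lit 118588334) (nat_lit 342) (nat_lit 5) (nat_lit 351) (nat_lit 5) (nat_lit 352) (nat_lit 5) (nat_lit 449) (nat_lit 394) (nat_lit 297)) (XT.lf (nat_lit 0) (nat_lit 2361254307) (nat_lit 760) (nat_lit 6293453730) (nat_lit 76) (nat_lit 1741657526) (nat_lit 332) (nat_lit 5) (nat_lit 342) (nat_lit 5) (nat_lit 333) (nat_lit 5) (nat_lit 450) (nat_lit 394) (nat_lit 296)))) (XT.nd (nat_lit 156) (nat_lit 684) (nat_lit 0) (XT.nd (nat_lit 78) (nat_lit 0) (nat_lit 0) (XT.lf (nat_lit 0) (nat_lit 322159486) (nat_lit 684) (nat_lit 4578104350) (nat_lit 760) (nat_lit 5602379097) (nat_lit 323) (nat_lit 5) (nat_lit 332) (nat_lit 5) (nat_lit 333) (nat_lit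 5) (nat_lit 451) (nat_lit 394) (nat_lit 295)) (XT.lf (nat_lit 0) (nat_lit 7126766662) (nat_lit 684) (nat_lit 382276579) (nat_lit 760) (nat_lit 3101622816) (nat_lit 323) (nat_lit 5) (nat_lit 332) (nat_lit 5) (nat_lit 333) (nat_lit 5) (nat_lit 452) (nat_lit 394) (nat_lit 294))) (XT.nd (nat_lit 78) (nat_lit 76) (nat_lit 0) (XT.lf (nat_lit 0) (nat_lit 3336583420) (nat_lit 608) (nat_lit 6857561833) (nat_lit 684) (nat_lit 526221452) (nat_lit 315) (nat_lit 5) (nat_lit 323) (nat_lit 5) (nat_lit 324) (nat_lit 5) (nat_lit 453) (nat_lit 394) (nat_lit 293)) (XT.lf (nat_lit 0) (nat_lit 2076495397) (nat_lit 684) (nat_lit 536020445) (nat_lit 76) (nat_lit 8219405573) (nat_lit 314) (nat_lit 5) (nat_lit 323) (nat_lit 5) (nat_lit 315) (nat_lit 5) (nat_lit 454) (nat_lit 394) (nat_lit 292))))))) (XT.nd (nat_lit 1014) (nat_lit 3420) (nat_lit 0) (XT.nd (nat_lit 468) (nat_lit 2888) (nat_lit 0) (XT.nd (nat_lit 234) (nat_lit 1216) (nat_lit 0) (XT.nd (nat_lit 78)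 (nat_lit 608) (nat_lit 0) (XT.lf (nat_lit 0) (nat_lit 4755599480) (nat_lit 684) (nat_lit 4454202044) (nat_lit 76) (nat_lit 1735208551) (nat_lit 306) (nat_lit 5) (nat_lit 315) (nat_lit 5) (nat_lit 307) (nat_lit 5) (nat_lit 455) (nat_lit 394) (nat_lit 291)) (XT.nd (nat_lit 78) (nat_lit 0) (nat_lit 0) (XT.lf (nat_lit 0) (nat_lit 2593581418) (nat_lit 608) (nat_lit 4910421691) (nat_lit 684) (nat_lit 3556043049) (nat_lit 298) (nat_lit 5) (nat_lit 306) (nat_lit 5) (nat_lit 307) (nat_lit 5) (nat_lit 456) (nat_lit 394) (nat_lit 290)) (XT.lf (nat_lit 0) (nat_lit 9814625319) (nat_lit 608) (nat_lit 500845483) (nat_lit 684) (nat_lit 861750240) (nat_lit 298) (nat_lit 5) (nat_lit 306) (nat_lit 5) (nat_lit 307) (nat_lit 5) (nat_lit 457) (nat_lit 394) (nat_lit 289)))) (XT.nd (nat_lit 78) (nat_lit 532) (nat_lit 0) (XT.lf (nat_lit 0) (nat_lit 1904867550) (nat_lit 684) (nat_lit 5401452699) (nat_lit 76) (nat_lit 3989310617) (nat_lit 289) (nat_lit 5) (nat_lit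 298) (nat_lit 5) (nat_lit 290) (nat_lit 5) (nat_lit 458) (nat_lit 394) (nat_lit 288)) (XT.nd (nat_lit 78) (nat_lit 0) (nat_lit 0) (XT.lf (nat_lit 0) (nat_lit 1885972807) (nat_lit 532) (nat_lit 2832775832) (nat_lit 608) (nat_lit 6697476928) (nat_lit 282) (nat_lit 5) (nat_lit 289) (nat_lit 5) (nat_lit 290) (nat_lit 5) (nat_lit 459) (nat_lit 394) (nat_lit 287)) (XT.lf (nat_lit 0) (nat_lit 7615513973) (nat_lit 608) (nat_lit 2185819035) (nat_lit 76) (nat_lit 1737367022) (nat_lit 282) (nat_lit 5) (nat_lit 290) (nat_lit 5) (nat_lit 283) (nat_lit 5) (nat_lit 460) (nat_lit 394) (nat_lit 286))))) (XT.nd (nat_lit 234) (nat_lit 1672) (nat_lit 0) (XT.nd (nat_lit 78) (nat_lit 608) (nat_lit 0) (XT.lf (nat_lit 0) (nat_lit 5328984007) (nat_lit 608) (nat_lit 5273890134) (nat_lit 684) (nat_lit 1060096651) (nat_lit 274) (nat_lit 5) (nat_lit 282) (nat_lit 5) (nat_lit 283) (nat_lit 5) (nat_lit 461) (nat_lit 394) (nat_lit 285)) (XT.nd (nat_lit 78) (nat_lit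 0) (nat_lit 0) (XT.lf (nat_lit 0) (nat_lit 1210234349) (nat_lit 532) (nat_lit 627637484) (nat_lit 608) (nat_lit 9951573277) (nat_lit 266) (nat_lit 5) (nat_lit 273) (nat_lit 5) (nat_lit 274) (nat_lit 5) (nat_lit 462) (nat_lit 394) (nat_lit 284)) (XT.lf (nat_lit 0) (nat_lit 4828669616) (nat_lit 608) (nat_lit 2988317251) (nat_lit 76) (nat_lit 4100340613) (nat_lit 266) (nat_lit 5) (nat_lit 274) (nat_lit 5) (nat_lit 267) (nat_lit 5) (nat_lit 463) (nat_lit 394) (nat_lit 283)))) (XT.nd (nat_lit 156) (nat_lit 608) (nat_lit 0) (XT.nd (nat_lit 78) (nat_lit 532) (nat_lit 0) (XT.lf (nat_lit 0) (nat_lit 4785629086) (nat_lit 532) (nat_lit 3108853495) (nat_lit 608) (nat_lit 4152980930) (nat_lit 259) (nat_lit 5) (nat_lit 266) (nat_lit 5) (nat_lit 267) (nat_lit 5) (nat_lit 464) (nat_lit 394) (nat_lit 282)) (XT.lf (nat_lit 0) (nat_lit 544229348) (nat_lit 532) (nat_lit 10492236353) (nat_lit 608) (nat_lit 1143439485) (nat_lit 252) (nat_lit 5) (nat_lit 259)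 (nat_lit 5) (nat_lit 260) (nat_lit 5) (nat_lit 465) (nat_lit 394) (nat_lit 281))) (XT.nd (nat_lit 78) (nat_lit 532) (nat_lit 0) (XT.lf (nat_lit 0) (nat_lit 1950892117) (nat_lit 608) (nat_lit 3770211329) (nat_lit 76) (nat_lit 6592644852) (nat_lit 251) (nat_lit 5) (nat_lit 259) (nat_lit 5) (nat_lit 252) (nat_lit 5) (nat_lit 466) (nat_lit 394) (nat_lit 280)) (XT.lf (nat_lit 0) (nat_lit 4273962636) (nat_lit 532) (nat_lit 826209713) (nat_lit 608) (nat_lit 7349777307) (nat_lit 244) (nat_lit 5) (nat_lit 251) (nat_lit 5) (nat_lit 252) (nat_lit 5) (nat_lit 467) (nat_lit 394) (nat_lit 279)))))) (XT.nd (nat_lit 468) (nat_lit 1444) (nat_lit 0) (XT.nd (nat_lit 234) (nat_lit 912) (nat_lit 0) (XT.nd (nat_lit 78) (nat_lit 1064) (nat_lit 0) (XT.lf (nat_lit 0) (nat_lit 8345722432) (nat_lit 608) (nat_lit 112699130) (nat_lit 76) (nat_lit 4129787795) (nat_lit 244) (nat_lit 5) (nat_lit 252) (nat_lit 5) (nat_lit 245) (nat_lit 5) (nat_lit 468) (nat_lit 394)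 (nat_lit 278)) (XT.nd (nat_lit 78) (nat_lit 608) (nat_lit 0) (XT.lf (nat_lit 0) (nat_lit 8187055068) (nat_lit 456) (nat_lit 3508897375) (nat_lit 532) (nat_lit 1032486431) (nat_lit 238) (nat_lit 5) (nat_lit 244) (nat_lit 5) (nat_lit 245) (nat_lit 5) (nat_lit 469) (nat_lit 394) (nat_lit 277)) (XT.lf (nat_lit 0) (nat_lit 2229114531) (nat_lit 608) (nat_lit 9089997813) (nat_lit 76) (nat_lit 1551733523) (nat_lit 230) (nat_lit 5) (nat_lit 238) (nat_lit 5) (nat_lit 231) (nat_lit 5) (nat_lit 470) (nat_lit 394) (nat_lit 276)))) (XT.nd (nat_lit 78) (nat_lit 912) (nat_lit 0) (XT.lf (nat_lit 0) (nat_lit 5577409180) (nat_lit 608) (nat_lit 741604628) (nat_lit 76) (nat_lit 6696244965) (nat_lit 230) (nat_lit 5) (nat_lit 238) (nat_lit 5) (nat_lit 231) (nat_lit 5) (nat_lit 471) (nat_lit 394) (nat_lit 275)) (XT.nd (nat_lit 78) (nat_lit 456) (nat_lit 0) (XT.lf (nat_lit 0) (nat_lit 7850322533) (nat_lit 456) (nat_lit 1175041307) (nat_lit 532) (nat_lit 4136542215)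 (nat_lit 224) (nat_lit 5) (nat_lit 230) (nat_lit 5) (nat_lit 231) (nat_lit 5) (nat_lit 472) (nat_lit 394) (nat_lit 274)) (XT.lf (nat_lit 0) (nat_lit 3303077134) (nat_lit 456) (nat_lit 9273952572) (nat_lit 532) (nat_lit 733761535) (nat_lit 218) (nat_lit 5) (nat_lit 224) (nat_lit 5) (nat_lit 225) (nat_lit 5) (nat_lit 473) (nat_lit 394) (nat_lit 273))))) (XT.nd (nat_lit 234) (nat_lit 456) (nat_lit 0) (XT.nd (nat_lit 78) (nat_lit 912) (nat_lit 0) (XT.lf (nat_lit 0) (nat_lit 2726764442) (nat_lit 532) (nat_lit 1352292299) (nat_lit 76) (nat_lit 9382730232) (nat_lit 217) (nat_lit 5) (nat_lit 224) (nat_lit 5) (nat_lit 218) (nat_lit 5) (nat_lit 474) (nat_lit 394) (nat_lit 272)) (XT.nd (nat_lit 78) (nat_lit 456) (nat_lit 0) (XT.lf (nat_lit 0) (nat_lit 6286169031) (nat_lit 532) (nat_lit 6079050901) (nat_lit 76) (nat_lit 1249695821) (nat_lit 211) (nat_lit 5) (nat_lit 218) (nat_lit 5) (nat_lit 212) (nat_lit 5) (nat_lit 475) (nat_lit 394) (nat_lit 271))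 (XT.lf (nat_lit 0) (nat_lit 2833075944) (nat_lit 456) (nat_lit 7120633309) (nat_lit 532) (nat_lit 3816658907) (nat_lit 205) (nat_lit 5) (nat_lit 211) (nat_lit 5) (nat_lit 212) (nat_lit 5) (nat_lit 476) (nat_lit 394) (nat_lit 270)))) (XT.nd (nat_lit 52962) (nat_lit 0) (nat_lit 38988) (XT.nd (nat_lit 78) (nat_lit 456) (nat_lit 0) (XT.lf (nat_lit 0) (nat_lit 11979823961) (nat_lit 456) (nat_lit 1738151002) (nat_lit 532) (nat_lit 210487156) (nat_lit 205) (nat_lit 5) (nat_lit 211) (nat_lit 5) (nat_lit 212) (nat_lit 5) (nat_lit 477) (nat_lit 394) (nat_lit 269)) (XT.lf (nat_lit 0) (nat_lit 3477084123) (nat_lit 456) (nat_lit 6846597355) (nat_lit 76) (nat_lit 3764491034) (nat_lit 199) (nat_lit 5) (nat_lit 205) (nat_lit 5) (nat_lit 200) (nat_lit 5) (nat_lit 478) (nat_lit 394) (nat_lit 268))) (XT.nd (nat_lit 78) (nat_lit 988) (nat_lit 0) (XT.lf (nat_lit 0) (nat_lit 2619919279) (nat_lit 988) (nat_lit 407220190) (nat_lit 988) (nat_lit 407220190) (nat_lit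 725) (nat_lit 3) (nat_lit 738) (nat_lit 3) (nat_lit 738) (nat_lit 5) (nat_lit 395) (nat_lit 395) (nat_lit 350)) (XT.lf (nat_lit 0) (nat_lit 370196840) (nat_lit 988) (nat_lit 4245491937) (nat_lit 1064) (nat_lit 2282055571) (nat_lit 712) (nat_lit 5) (nat_lit 725) (nat_lit 3) (nat_lit 726) (nat_lit 5) (nat_lit 396) (nat_lit 395) (nat_lit 349))))))))
noncomputable def xc79 : XT := (XT.nd (nat_lit 2028) (nat_lit 18088) (nat_lit 0) (XT.nd (nat_lit 1014) (nat_lit 6840) (nat_lit 0) (XT.nd (nat_lit 468) (nat_lit 2204) (nat_lit 0) (XT.nd (nat_lit 234) (nat_lit 988) (nat_lit 0) (XT.nd (nat_lit 78) (nat_lit 0) (nat_lit 0) (XT.lf (nat_lit 0) (nat_lit 2340950528) (nat_lit 988) (nat_lit 766051213) (nat_lit 1064) (nat_lit 3821062694) (nat_lit 712) (nat_lit 5) (nat_lit 725) (nat_lit 3) (nat_lit 726) (nat_lit 5) (nat_lit 397) (nat_lit 395) (nat_lit 348)) (XT.nd (nat_lit 78) (nat_lit 0) (nat_lit 76) (XT.lf (nat_lit 76) (nat_lit 2792836116) (nat_lit 0) (nat_lit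 1525419393) (nat_lit 1064) (nat_lit 2641392690) (nat_lit 713) (nat_lit 5) (nat_lit 712) (nat_lit 5) (nat_lit 726) (nat_lit 5) (nat_lit 398) (nat_lit 395) (nat_lit 347)) (XT.lf (nat_lit 0) (nat_lit 6290834868) (nat_lit 988) (nat_lit 586830757) (nat_lit 1064) (nat_lit 115083448) (nat_lit 713) (nat_lit 5) (nat_lit 726) (nat_lit 5) (nat_lit 727) (nat_lit 5) (nat_lit 399) (nat_lit 395) (nat_lit 346)))) (XT.nd (nat_lit 78) (nat_lit 0) (nat_lit 0) (XT.lf (nat_lit 0) (nat_lit 1240472111) (nat_lit 1064) (nat_lit 3967379058) (nat_lit 1140) (nat_lit 1818877901) (nat_lit 699) (nat_lit 5) (nat_lit 713) (nat_lit 5) (nat_lit 714) (nat_lit 5) (nat_lit 400) (nat_lit 395) (nat_lit 345)) (XT.nd (nat_lit 78) (nat_lit 0) (nat_lit 0) (XT.lf (nat_lit 0) (nat_lit 3167711117) (nat_lit 1064) (nat_lit 307248793) (nat_lit 1140) (nat_lit 3587227890) (nat_lit 699) (nat_lit 5) (nat_lit 713) (nat_lit 5) (nat_lit 714) (nat_lit 5) (nat_lit 401) (nat_lit 395) (nat_lit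 344)) (XT.lf (nat_lit 76) (nat_lit 3444123580) (nat_lit 0) (nat_lit 1664115980) (nat_lit 1140) (nat_lit 1990621252) (nat_lit 700) (nat_lit 5) (nat_lit 699) (nat_lit 5) (nat_lit 714) (nat_lit 5) (nat_lit 402) (nat_lit 395) (nat_lit 343))))) (XT.nd (nat_lit 234) (nat_lit 1140) (nat_lit 0) (XT.nd (nat_lit 78) (nat_lit 1140) (nat_lit 0) (XT.lf (nat_lit 76) (nat_lit 110693796) (nat_lit 0) (nat_lit 6934137766) (nat_lit 1140) (nat_lit 92290663) (nat_lit 701) (nat_lit 5) (nat_lit 700) (nat_lit 5) (nat_lit 715) (nat_lit 5) (nat_lit 403) (nat_lit 395) (nat_lit 342)) (XT.nd (nat_lit 78) (nat_lit 0) (nat_lit 0) (XT.lf (nat_lit 0) (nat_lit 1809232304) (nat_lit 1140) (nat_lit 3226289212) (nat_lit 1216) (nat_lit 2140599694) (nat_lit 685) (nat_lit 5) (nat_lit 700) (nat_lit 5) (nat_lit 701) (nat_lit 5) (nat_lit 404) (nat_lit 395) (nat_lit 341)) (XT.lf (nat_lit 76) (nat_lit 629607186) (nat_lit 0) (nat_lit 3076641538) (nat_lit 1216) (nat_lit 3510465274)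 (nat_lit 686) (nat_lit 5) (nat_lit 685) (nat_lit 5) (nat_lit 701) (nat_lit 5) (nat_lit 405) (nat_lit 395) (nat_lit 340)))) (XT.nd (nat_lit 156) (nat_lit 0) (nat_lit 0) (XT.nd (nat_lit 78) (nat_lit 1140) (nat_lit 0) (XT.lf (nat_lit 76) (nat_lit 4578646395) (nat_lit 0) (nat_lit 1039529066) (nat_lit 1216) (nat_lit 1640403783) (nat_lit 686) (nat_lit 5) (nat_lit 685) (nat_lit 5) (nat_lit 701) (nat_lit 5) (nat_lit 406) (nat_lit 395) (nat_lit 339)) (XT.lf (nat_lit 0) (nat_lit 234771044) (nat_lit 1216) (nat_lit 6016020101) (nat_lit 1292) (nat_lit 1051031678) (nat_lit 670) (nat_lit 5) (nat_lit 686) (nat_lit 5) (nat_lit 687) (nat_lit 5) (nat_lit 407) (nat_lit 395) (nat_lit 338))) (XT.nd (nat_lit 78) (nat_lit 0) (nat_lit 0) (XT.lf (nat_lit 0) (nat_lit 2107186369) (nat_lit 1216) (nat_lit 2024797842) (nat_lit 1292) (nat_lit 3214096161) (nat_lit 670) (nat_lit 5) (nat_lit 686) (nat_lit 5) (nat_lit 687) (nat_lit 5) (nat_lit 408) (nat_lit 395) (nat_lit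 337)) (XT.lf (nat_lit 76) (nat_lit 2045090743) (nat_lit 0) (nat_lit 1942780790) (nat_lit 1292) (nat_lit 3403935108) (nat_lit 671) (nat_lit 5) (nat_lit 670) (nat_lit 5) (nat_lit 687) (nat_lit 5) (nat_lit 409) (nat_lit 395) (nat_lit 336)))))) (XT.nd (nat_lit 468) (nat_lit 4332) (nat_lit 0) (XT.nd (nat_lit 234) (nat_lit 1292) (nat_lit 0) (XT.nd (nat_lit 78) (nat_lit 1292) (nat_lit 0) (XT.lf (nat_lit 0) (nat_lit 5880018475) (nat_lit 1216) (nat_lit 1245048934) (nat_lit 1292) (nat_lit 313903065) (nat_lit 671) (nat_lit 5) (nat_lit 687) (nat_lit 5) (nat_lit 688) (nat_lit 5) (nat_lit 410) (nat_lit 395) (nat_lit 335)) (XT.nd (nat_lit 78) (nat_lit 0) (nat_lit 0) (XT.lf (nat_lit 0) (nat_lit 309669848) (nat_lit 1292) (nat_lit 4553160646) (nat_lit 1368) (nat_lit 2624385669) (nat_lit 654) (nat_lit 5) (nat_lit 671) (nat_lit 5) (nat_lit 672) (nat_lit 5) (nat_lit 411) (nat_lit 395) (nat_lit 334)) (XT.lf (nat_lit 0) (nat_lit 2162677396) (nat_lit 1292) (nat_lit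 361533308) (nat_lit 1368) (nat_lit 5012652216) (nat_lit 654) (nat_lit 5) (nat_lit 671) (nat_lit 5) (nat_lit 672) (nat_lit 5) (nat_lit 412) (nat_lit 395) (nat_lit 333)))) (XT.nd (nat_lit 78) (nat_lit 1292) (nat_lit 0) (XT.lf (nat_lit 76) (nat_lit 3937615039) (nat_lit 0) (nat_lit 100948460) (nat_lit 1368) (nat_lit 3549222744) (nat_lit 655) (nat_lit 5) (nat_lit 654) (nat_lit 5) (nat_lit 672) (nat_lit 5) (nat_lit 413) (nat_lit 395) (nat_lit 332)) (XT.nd (nat_lit 78) (nat_lit 1368) (nat_lit 0) (XT.lf (nat_lit 76) (nat_lit 652489303) (nat_lit 0) (nat_lit 5282474956) (nat_lit 1368) (nat_lit 1705103836) (nat_lit 656) (nat_lit 5) (nat_lit 655) (nat_lit 5) (nat_lit 673) (nat_lit 5) (nat_lit 414) (nat_lit 395) (nat_lit 331)) (XT.lf (nat_lit 0) (nat_lit 160168166) (nat_lit 1368) (nat_lit 2633150027) (nat_lit 1444) (nat_lit 4900322996) (nat_lit 637) (nat_lit 5) (nat_lit 655) (nat_lit 5) (nat_lit 656) (nat_lit 5) (nat_lit 415) (nat_lit 395) (nat_lit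 330))))) (XT.nd (nat_lit 234) (nat_lit 3040) (nat_lit 0) (XT.nd (nat_lit 78) (nat_lit 1292) (nat_lit 0) (XT.lf (nat_lit 76) (nat_lit 1792194306) (nat_lit 0) (nat_lit 221389501) (nat_lit 1444) (nat_lit 5735003133) (nat_lit 638) (nat_lit 5) (nat_lit 637) (nat_lit 5) (nat_lit 656) (nat_lit 5) (nat_lit 416) (nat_lit 395) (nat_lit 329)) (XT.nd (nat_lit 78) (nat_lit 1368) (nat_lit 0) (XT.lf (nat_lit 0) (nat_lit 3900083602) (nat_lit 1368) (nat_lit 1507259453) (nat_lit 76) (nat_lit 2397368234) (nat_lit 638) (nat_lit 5) (nat_lit 656) (nat_lit 5) (nat_lit 639) (nat_lit 5) (nat_lit 417) (nat_lit 395) (nat_lit 328)) (XT.lf (nat_lit 0) (nat_lit 3040832516) (nat_lit 1368) (nat_lit 2768056568) (nat_lit 1444) (nat_lit 2053377527) (nat_lit 620) (nat_lit 5) (nat_lit 638) (nat_lit 5) (nat_lit 639) (nat_lit 5) (nat_lit 418) (nat_lit 395) (nat_lit 327)))) (XT.nd (nat_lit 156) (nat_lit 1520) (nat_lit 0) (XT.nd (nat_lit 78) (nat_lit 1520) (nat_lit 0) (XT.lf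 (nat_lit 0) (nat_lit 7672065938) (nat_lit 1368) (nat_lit 57820557) (nat_lit 1444) (nat_lit 191606230) (nat_lit 620) (nat_lit 5) (nat_lit 638) (nat_lit 5) (nat_lit 639) (nat_lit 5) (nat_lit 419) (nat_lit 395) (nat_lit 326)) (XT.lf (nat_lit 0) (nat_lit 1696049313) (nat_lit 1520) (nat_lit 3566801888) (nat_lit 76) (nat_lit 2718609613) (nat_lit 600) (nat_lit 5) (nat_lit 620) (nat_lit 5) (nat_lit 601) (nat_lit 5) (nat_lit 420) (nat_lit 395) (nat_lit 325))) (XT.nd (nat_lit 78) (nat_lit 0) (nat_lit 0) (XT.lf (nat_lit 0) (nat_lit 1117065963) (nat_lit 1520) (nat_lit 2476087144) (nat_lit 1596) (nat_lit 4449964612) (nat_lit 580) (nat_lit 5) (nat_lit 600) (nat_lit 5) (nat_lit 601) (nat_lit 5) (nat_lit 421) (nat_lit 395) (nat_lit 324)) (XT.lf (nat_lit 0) (nat_lit 5520150640) (nat_lit 1596) (nat_lit 2194381913) (nat_lit 76) (nat_lit 391636178) (nat_lit 580) (nat_lit 5) (nat_lit 601) (nat_lit 5) (nat_lit 581) (nat_lit 5) (nat_lit 422) (nat_lit 395) (nat_lit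 323))))))) (XT.nd (nat_lit 1014) (nat_lit 7220) (nat_lit 0) (XT.nd (nat_lit 468) (nat_lit 3876) (nat_lit 0) (XT.nd (nat_lit 234) (nat_lit 3648) (nat_lit 0) (XT.nd (nat_lit 78) (nat_lit 1748) (nat_lit 0) (XT.lf (nat_lit 0) (nat_lit 2621199469) (nat_lit 1596) (nat_lit 4864061069) (nat_lit 1672) (nat_lit 685228776) (nat_lit 559) (nat_lit 5) (nat_lit 580) (nat_lit 5) (nat_lit 581) (nat_lit 5) (nat_lit 423) (nat_lit 395) (nat_lit 322)) (XT.nd (nat_lit 78) (nat_lit 1672) (nat_lit 0) (XT.lf (nat_lit 0) (nat_lit 1218371868) (nat_lit 1672) (nat_lit 710159418) (nat_lit 76) (nat_lit 6307777513) (nat_lit 558) (nat_lit 5) (nat_lit 580) (nat_lit 5) (nat_lit 559) (nat_lit 5) (nat_lit 424) (nat_lit 395) (nat_lit 321)) (XT.lf (nat_lit 0) (nat_lit 3152695743) (nat_lit 1748) (nat_lit 4062077287) (nat_lit 76) (nat_lit 1088544527) (nat_lit 536) (nat_lit 5) (nat_lit 559) (nat_lit 5) (nat_lit 537) (nat_lit 5) (nat_lit 425) (nat_lit 395) (nat_lit 320)))) (XT.nd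 (nat_lit 78) (nat_lit 1900) (nat_lit 0) (XT.lf (nat_lit 0) (nat_lit 899840122) (nat_lit 1748) (nat_lit 4216839362) (nat_lit 1824) (nat_lit 3255167540) (nat_lit 513) (nat_lit 5) (nat_lit 536) (nat_lit 5) (nat_lit 537) (nat_lit 5) (nat_lit 426) (nat_lit 395) (nat_lit 319)) (XT.nd (nat_lit 78) (nat_lit 1900) (nat_lit 0) (XT.lf (nat_lit 0) (nat_lit 5987367091) (nat_lit 1748) (nat_lit 1127846434) (nat_lit 1824) (nat_lit 1326628141) (nat_lit 513) (nat_lit 5) (nat_lit 536) (nat_lit 5) (nat_lit 537) (nat_lit 5) (nat_lit 427) (nat_lit 395) (nat_lit 318)) (XT.lf (nat_lit 0) (nat_lit 631116679) (nat_lit 1900) (nat_lit 5861071872) (nat_lit 76) (nat_lit 2020983790) (nat_lit 488) (nat_lit 5) (nat_lit 513) (nat_lit 5) (nat_lit 489) (nat_lit 5) (nat_lit 428) (nat_lit 395) (nat_lit 317))))) (XT.nd (nat_lit 234) (nat_lit 1824) (nat_lit 0) (XT.nd (nat_lit 78) (nat_lit 2052) (nat_lit 0) (XT.lf (nat_lit 0) (nat_lit 2603202865) (nat_lit 1900) (nat_lit 736887154)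 (nat_lit 76) (nat_lit 5245805228) (nat_lit 488) (nat_lit 5) (nat_lit 513) (nat_lit 5) (nat_lit 489) (nat_lit 5) (nat_lit 429) (nat_lit 395) (nat_lit 316)) (XT.nd (nat_lit 78) (nat_lit 912) (nat_lit 0) (XT.lf (nat_lit 0) (nat_lit 4520637754) (nat_lit 1140) (nat_lit 92938450) (nat_lit 1216) (nat_lit 4046519499) (nat_lit 473) (nat_lit 5) (nat_lit 488) (nat_lit 5) (nat_lit 489) (nat_lit 5) (nat_lit 430) (nat_lit 395) (nat_lit 315)) (XT.lf (nat_lit 0) (nat_lit 1122550169) (nat_lit 912) (nat_lit 5544694918) (nat_lit 988) (nat_lit 2068473320) (nat_lit 461) (nat_lit 5) (nat_lit 473) (nat_lit 5) (nat_lit 474) (nat_lit 5) (nat_lit 431) (nat_lit 395) (nat_lit 314)))) (XT.nd (nat_lit 156) (nat_lit 836) (nat_lit 0) (XT.nd (nat_lit 78) (nat_lit 988) (nat_lit 0) (XT.lf (nat_lit 0) (nat_lit 6516616868) (nat_lit 912) (nat_lit 2244084689) (nat_lit 988) (nat_lit 52177723) (nat_lit 461) (nat_lit 5) (nat_lit 473) (nat_lit 5) (nat_lit 474) (nat_lit 5) (nat_lit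 432) (nat_lit 395) (nat_lit 313)) (XT.lf (nat_lit 0) (nat_lit 1976682326) (nat_lit 988) (nat_lit 5772541605) (nat_lit 76) (nat_lit 1142128615) (nat_lit 448) (nat_lit 5) (nat_lit 461) (nat_lit 5) (nat_lit 449) (nat_lit 5) (nat_lit 433) (nat_lit 395) (nat_lit 312))) (XT.nd (nat_lit 78) (nat_lit 836) (nat_lit 0) (XT.lf (nat_lit 0) (nat_lit 4046902504) (nat_lit 988) (nat_lit 341974623) (nat_lit 76) (nat_lit 4582481617) (nat_lit 448) (nat_lit 5) (nat_lit 461) (nat_lit 5) (nat_lit 449) (nat_lit 5) (nat_lit 434) (nat_lit 395) (nat_lit 311)) (XT.lf (nat_lit 0) (nat_lit 5237571216) (nat_lit 836) (nat_lit 926636431) (nat_lit 912) (nat_lit 2888643811) (nat_lit 437) (nat_lit 5) (nat_lit 448) (nat_lit 5) (nat_lit 449) (nat_lit 5) (nat_lit 435) (nat_lit 395) (nat_lit 310)))))) (XT.nd (nat_lit 546) (nat_lit 3724) (nat_lit 0) (XT.nd (nat_lit 234) (nat_lit 1672) (nat_lit 0) (XT.nd (nat_lit 78) (nat_lit 912) (nat_lit 0) (XT.lf (nat_lit 0) (nat_lit 1775072517)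 (nat_lit 912) (nat_lit 6551580037) (nat_lit 988) (nat_lit 809265597) (nat_lit 425) (nat_lit 5) (nat_lit 437) (nat_lit 5) (nat_lit 438) (nat_lit 5) (nat_lit 436) (nat_lit 395) (nat_lit 309)) (XT.nd (nat_lit 78) (nat_lit 836) (nat_lit 0) (XT.lf (nat_lit 0) (nat_lit 1298632338) (nat_lit 988) (nat_lit 1734883294) (nat_lit 76) (nat_lit 6186877510) (nat_lit 424) (nat_lit 5) (nat_lit 437) (nat_lit 5) (nat_lit 425) (nat_lit 5) (nat_lit 437) (nat_lit 395) (nat_lit 308)) (XT.lf (nat_lit 0) (nat_lit 3440555697) (nat_lit 912) (nat_lit 5287589548) (nat_lit 76) (nat_lit 578251333) (nat_lit 413) (nat_lit 5) (nat_lit 425) (nat_lit 5) (nat_lit 414) (nat_lit 5) (nat_lit 438) (nat_lit 395) (nat_lit 307)))) (XT.nd (nat_lit 156) (nat_lit 836) (nat_lit 0) (XT.nd (nat_lit 78) (nat_lit 0) (nat_lit 0) (XT.lf (nat_lit 0) (nat_lit 474605653) (nat_lit 836) (nat_lit 5158716286) (nat_lit 912) (nat_lit 3760638056) (nat_lit 402) (nat_lit 5) (nat_lit 413) (nat_lit 5)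 (nat_lit 414) (nat_lit 5) (nat_lit 439) (nat_lit 395) (nat_lit 306)) (XT.lf (nat_lit 0) (nat_lit 6395254936) (nat_lit 836) (nat_lit 1483627810) (nat_lit 912) (nat_lit 1604213148) (nat_lit 402) (nat_lit 5) (nat_lit 413) (nat_lit 5) (nat_lit 414) (nat_lit 5) (nat_lit 440) (nat_lit 395) (nat_lit 305))) (XT.nd (nat_lit 78) (nat_lit 0) (nat_lit 0) (XT.lf (nat_lit 0) (nat_lit 594784669) (nat_lit 836) (nat_lit 6723162141) (nat_lit 76) (nat_lit 2255845348) (nat_lit 391) (nat_lit 5) (nat_lit 402) (nat_lit 5) (nat_lit 392) (nat_lit 5) (nat_lit 441) (nat_lit 395) (nat_lit 304)) (XT.lf (nat_lit 0) (nat_lit 2821107650) (nat_lit 836) (nat_lit 765319076) (nat_lit 76) (nat_lit 6079567031) (nat_lit 391) (nat_lit 5) (nat_lit 402) (nat_lit 5) (nat_lit 392) (nat_lit 5) (nat_lit 442) (nat_lit 395) (nat_lit 303))))) (XT.nd (nat_lit 234) (nat_lit 2204) (nat_lit 0) (XT.nd (nat_lit 78) (nat_lit 760) (nat_lit 0) (XT.lf (nat_lit 0) (nat_lit 5102987067) (nat_lit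 836) (nat_lit 4407604529) (nat_lit 76) (nat_lit 249227192) (nat_lit 381) (nat_lit 5) (nat_lit 392) (nat_lit 5) (nat_lit 382) (nat_lit 5) (nat_lit 443) (nat_lit 395) (nat_lit 302)) (XT.nd (nat_lit 78) (nat_lit 0) (nat_lit 0) (XT.lf (nat_lit 0) (nat_lit 1717484576) (nat_lit 760) (nat_lit 5728019548) (nat_lit 836) (nat_lit 2409716195) (nat_lit 371) (nat_lit 5) (nat_lit 381) (nat_lit 5) (nat_lit 382) (nat_lit 5) (nat_lit 444) (nat_lit 395) (nat_lit 301)) (XT.lf (nat_lit 0) (nat_lit 7996697837) (nat_lit 760) (nat_lit 1842988166) (nat_lit 836) (nat_lit 112747588) (nat_lit 371) (nat_lit 5) (nat_lit 381) (nat_lit 5) (nat_lit 382) (nat_lit 5) (nat_lit 445) (nat_lit 395) (nat_lit 300)))) (XT.nd (nat_lit 156) (nat_lit 684) (nat_lit 0) (XT.nd (nat_lit 78) (nat_lit 684) (nat_lit 0) (XT.lf (nat_lit 0) (nat_lit 2218836228) (nat_lit 836) (nat_lit 5700475273) (nat_lit 76) (nat_lit 2131631539) (nat_lit 360) (nat_lit 5) (nat_lit 371) (nat_lit 5) (nat_lit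 361) (nat_lit 5) (nat_lit 446) (nat_lit 395) (nat_lit 299)) (XT.lf (nat_lit 0) (nat_lit 625132370) (nat_lit 684) (nat_lit 3975723931) (nat_lit 760) (nat_lit 5550445185) (nat_lit 351) (nat_lit 5) (nat_lit 360) (nat_lit 5) (nat_lit 361) (nat_lit 5) (nat_lit 447) (nat_lit 395) (nat_lit 298))) (XT.nd (nat_lit 78) (nat_lit 684) (nat_lit 0) (XT.lf (nat_lit 0) (nat_lit 7045429987) (nat_lit 760) (nat_lit 3127373732) (nat_lit 76) (nat_lit 80565117) (nat_lit 351) (nat_lit 5) (nat_lit 361) (nat_lit 5) (nat_lit 352) (nat_lit 5) (nat_lit 448) (nat_lit 395) (nat_lit 297)) (XT.lf (nat_lit 0) (nat_lit 3389643123) (nat_lit 684) (nat_lit 6174160947) (nat_lit 760) (nat_lit 793175287) (nat_lit 342) (nat_lit 5) (nat_lit 351) (nat_lit 5) (nat_lit 352) (nat_lit 5) (nat_lit 449) (nat_lit 395) (nat_lit 296))))))))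
noncomputable def xc80 : XT := (XT.nd (nat_lit 2028) (nat_lit 532) (nat_lit 0) (XT.nd (nat_lit 1014) (nat_lit 4712) (nat_lit 0) (XT.nd (nat_lit 468) (nat_lit 2508) (nat_lit 0) (XT.nd (nat_lit 234) (nat_lit 1292) (nat_lit 0) (XT.nd (nat_lit 78) (nat_lit 1368) (nat_lit 0) (XT.lf (nat_lit 0) (nat_lit 1645806088) (nat_lit 760) (nat_lit 421837805) (nat_lit 76) (nat_lit 8394844887) (nat_lit 341) (nat_lit 5) (nat_lit 351) (nat_lit 5) (nat_lit 342) (nat_lit 5) (nat_lit 450) (nat_lit 395) (nat_lit 295)) (XT.nd (nat_lit 78) (nat_lit 684) (nat_lit 0) (XT.lf (nat_lit 0) (nat_lit 4155091528) (nat_lit 760) (nat_lit 4279143433) (nat_lit 76) (nat_lit 2135125671) (nat_lit 332) (nat_lit 5) (nat_lit 342) (nat_lit 5) (nat_lit 333) (nat_lit 5) (nat_lit 451) (nat_lit 395) (nat_lit 294)) (XT.lf (nat_lit 0) (nat_lit 2454701921) (nat_lit 684) (nat_lit 4269736077) (nat_lit 760) (nat_lit 3953734417) (nat_lit 323) (nat_lit 5) (nat_lit 332) (nat_lit 5) (nat_lit 333)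 (nat_lit 5) (nat_lit 452) (nat_lit 395) (nat_lit 293)))) (XT.nd (nat_lit 78) (nat_lit 1292) (nat_lit 0) (XT.lf (nat_lit 0) (nat_lit 9351560609) (nat_lit 760) (nat_lit 1435333978) (nat_lit 76) (nat_lit 2138062) (nat_lit 323) (nat_lit 5) (nat_lit 333) (nat_lit 5) (nat_lit 324) (nat_lit 5) (nat_lit 453) (nat_lit 395) (nat_lit 292)) (XT.nd (nat_lit 78) (nat_lit 608) (nat_lit 0) (XT.lf (nat_lit 0) (nat_lit 1156669875) (nat_lit 684) (nat_lit 5403770371) (nat_lit 76) (nat_lit 4340675966) (nat_lit 314) (nat_lit 5) (nat_lit 323) (nat_lit 5) (nat_lit 315) (nat_lit 5) (nat_lit 454) (nat_lit 395) (nat_lit 291)) (XT.lf (nat_lit 0) (nat_lit 1556221892) (nat_lit 608) (nat_lit 2225217475) (nat_lit 684) (nat_lit 7233852195) (nat_lit 306) (nat_lit 5) (nat_lit 314) (nat_lit 5) (nat_lit 315) (nat_lit 5) (nat_lit 455) (nat_lit 395) (nat_lit 290))))) (XT.nd (nat_lit 234) (nat_lit 1216) (nat_lit 0) (XT.nd (nat_lit 78) (nat_lit 1292) (nat_lit 0) (XT.lf (nat_lit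 0) (nat_lit 6487857258) (nat_lit 684) (nat_lit 2444569218) (nat_lit 76) (nat_lit 2198740884) (nat_lit 306) (nat_lit 5) (nat_lit 315) (nat_lit 5) (nat_lit 307) (nat_lit 5) (nat_lit 456) (nat_lit 395) (nat_lit 289)) (XT.nd (nat_lit 78) (nat_lit 684) (nat_lit 0) (XT.lf (nat_lit 0) (nat_lit 4730362565) (nat_lit 608) (nat_lit 4542302112) (nat_lit 684) (nat_lit 1976210773) (nat_lit 298) (nat_lit 5) (nat_lit 306) (nat_lit 5) (nat_lit 307) (nat_lit 5) (nat_lit 457) (nat_lit 395) (nat_lit 288)) (XT.lf (nat_lit 0) (nat_lit 690167920) (nat_lit 608) (nat_lit 44209430) (nat_lit 684) (nat_lit 10634465560) (nat_lit 289) (nat_lit 5) (nat_lit 297) (nat_lit 5) (nat_lit 298) (nat_lit 5) (nat_lit 458) (nat_lit 395) (nat_lit 287)))) (XT.nd (nat_lit 156) (nat_lit 684) (nat_lit 0) (XT.nd (nat_lit 78) (nat_lit 532) (nat_lit 0) (XT.lf (nat_lit 0) (nat_lit 3525385153) (nat_lit 684) (nat_lit 3429291557) (nat_lit 76) (nat_lit 4535218368) (nat_lit 289) (nat_lit 5)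 (nat_lit 298) (nat_lit 5) (nat_lit 290) (nat_lit 5) (nat_lit 459) (nat_lit 395) (nat_lit 286)) (XT.lf (nat_lit 0) (nat_lit 3990196996) (nat_lit 532) (nat_lit 2387736139) (nat_lit 608) (nat_lit 5235320753) (nat_lit 282) (nat_lit 5) (nat_lit 289) (nat_lit 5) (nat_lit 290) (nat_lit 5) (nat_lit 460) (nat_lit 395) (nat_lit 285))) (XT.nd (nat_lit 78) (nat_lit 684) (nat_lit 0) (XT.lf (nat_lit 0) (nat_lit 9305144705) (nat_lit 608) (nat_lit 176061312) (nat_lit 76) (nat_lit 2257521605) (nat_lit 282) (nat_lit 5) (nat_lit 290) (nat_lit 5) (nat_lit 283) (nat_lit 5) (nat_lit 461) (nat_lit 395) (nat_lit 284)) (XT.lf (nat_lit 0) (nat_lit 463373574) (nat_lit 684) (nat_lit 4393342191) (nat_lit 76) (nat_lit 7009045037) (nat_lit 273) (nat_lit 5) (nat_lit 282) (nat_lit 5) (nat_lit 274) (nat_lit 5) (nat_lit 462) (nat_lit 395) (nat_lit 283)))))) (XT.nd (nat_lit 468) (nat_lit 2508) (nat_lit 0) (XT.nd (nat_lit 234) (nat_lit 1140) (nat_lit 0) (XT.nd (nat_lit 78)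 (nat_lit 532) (nat_lit 0) (XT.lf (nat_lit 0) (nat_lit 3281188228) (nat_lit 532) (nat_lit 107211007) (nat_lit 608) (nat_lit 8606559379) (nat_lit 266) (nat_lit 5) (nat_lit 273) (nat_lit 5) (nat_lit 274) (nat_lit 5) (nat_lit 463) (nat_lit 395) (nat_lit 282)) (XT.nd (nat_lit 78) (nat_lit 532) (nat_lit 0) (XT.lf (nat_lit 0) (nat_lit 6412723812) (nat_lit 608) (nat_lit 1015177580) (nat_lit 76) (nat_lit 4698023021) (nat_lit 266) (nat_lit 5) (nat_lit 274) (nat_lit 5) (nat_lit 267) (nat_lit 5) (nat_lit 464) (nat_lit 395) (nat_lit 281)) (XT.lf (nat_lit 0) (nat_lit 6900873302) (nat_lit 532) (nat_lit 2622925583) (nat_lit 608) (nat_lit 2735185364) (nat_lit 259) (nat_lit 5) (nat_lit 266) (nat_lit 5) (nat_lit 267) (nat_lit 5) (nat_lit 465) (nat_lit 395) (nat_lit 280)))) (XT.nd (nat_lit 78) (nat_lit 532) (nat_lit 0) (XT.lf (nat_lit 0) (nat_lit 317908786) (nat_lit 608) (nat_lit 9809350808) (nat_lit 76) (nat_lit 2267016730) (nat_lit 251) (nat_lit 5) (nat_lit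 259) (nat_lit 5) (nat_lit 252) (nat_lit 5) (nat_lit 466) (nat_lit 395) (nat_lit 279)) (XT.nd (nat_lit 78) (nat_lit 532) (nat_lit 0) (XT.lf (nat_lit 0) (nat_lit 3430028311) (nat_lit 608) (nat_lit 1834374280) (nat_lit 76) (nat_lit 7266818306) (nat_lit 251) (nat_lit 5) (nat_lit 259) (nat_lit 5) (nat_lit 252) (nat_lit 5) (nat_lit 467) (nat_lit 395) (nat_lit 278)) (XT.lf (nat_lit 0) (nat_lit 6357451313) (nat_lit 532) (nat_lit 269577623) (nat_lit 608) (nat_lit 6043422651) (nat_lit 244) (nat_lit 5) (nat_lit 251) (nat_lit 5) (nat_lit 252) (nat_lit 5) (nat_lit 468) (nat_lit 395) (nat_lit 277))))) (XT.nd (nat_lit 234) (nat_lit 1444) (nat_lit 0) (XT.nd (nat_lit 78) (nat_lit 608) (nat_lit 0) (XT.lf (nat_lit 0) (nat_lit 1892996599) (nat_lit 456) (nat_lit 8032494057) (nat_lit 532) (nat_lit 2886225813) (nat_lit 238) (nat_lit 5) (nat_lit 244) (nat_lit 5) (nat_lit 245) (nat_lit 5) (nat_lit 469) (nat_lit 395) (nat_lit 276)) (XT.nd (nat_lit 78) (nat_lit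 532) (nat_lit 0) (XT.lf (nat_lit 0) (nat_lit 355746206) (nat_lit 532) (nat_lit 2636758212) (nat_lit 76) (nat_lit 9962738581) (nat_lit 237) (nat_lit 5) (nat_lit 244) (nat_lit 5) (nat_lit 238) (nat_lit 5) (nat_lit 470) (nat_lit 395) (nat_lit 275)) (XT.lf (nat_lit 0) (nat_lit 3658102338) (nat_lit 608) (nat_lit 7272517377) (nat_lit 76) (nat_lit 2169954960) (nat_lit 230) (nat_lit 5) (nat_lit 238) (nat_lit 5) (nat_lit 231) (nat_lit 5) (nat_lit 471) (nat_lit 395) (nat_lit 274)))) (XT.nd (nat_lit 156) (nat_lit 988) (nat_lit 0) (XT.nd (nat_lit 78) (nat_lit 0) (nat_lit 0) (XT.lf (nat_lit 0) (nat_lit 1219637865) (nat_lit 456) (nat_lit 5834498507) (nat_lit 532) (nat_lit 6194123998) (nat_lit 224) (nat_lit 5) (nat_lit 230) (nat_lit 5) (nat_lit 231) (nat_lit 5) (nat_lit 472) (nat_lit 395) (nat_lit 273)) (XT.lf (nat_lit 0) (nat_lit 9954512545) (nat_lit 456) (nat_lit 594648342) (nat_lit 532) (nat_lit 2849117494) (nat_lit 224) (nat_lit 5) (nat_lit 230)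 (nat_lit 5) (nat_lit 231) (nat_lit 5) (nat_lit 473) (nat_lit 395) (nat_lit 272))) (XT.nd (nat_lit 78) (nat_lit 456) (nat_lit 0) (XT.lf (nat_lit 0) (nat_lit 603712236) (nat_lit 532) (nat_lit 8228003035) (nat_lit 76) (nat_lit 4718542319) (nat_lit 217) (nat_lit 5) (nat_lit 224) (nat_lit 5) (nat_lit 218) (nat_lit 5) (nat_lit 474) (nat_lit 395) (nat_lit 271)) (XT.lf (nat_lit 0) (nat_lit 564343722) (nat_lit 456) (nat_lit 3536632965) (nat_lit 532) (nat_lit 9603652487) (nat_lit 211) (nat_lit 5) (nat_lit 217) (nat_lit 5) (nat_lit 218) (nat_lit 5) (nat_lit 475) (nat_lit 395) (nat_lit 270))))))) (XT.nd (nat_lit 53898) (nat_lit 0) (nat_lit 31616) (XT.nd (nat_lit 53352) (nat_lit 0) (nat_lit 36480) (XT.nd (nat_lit 53118) (nat_lit 0) (nat_lit 38608) (XT.nd (nat_lit 78) (nat_lit 532) (nat_lit 0) (XT.lf (nat_lit 0) (nat_lit 7718620941) (nat_lit 532) (nat_lit 4255067187) (nat_lit 76) (nat_lit 1887391370) (nat_lit 211) (nat_lit 5) (nat_lit 218) (nat_lit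 5) (nat_lit 212) (nat_lit 5) (nat_lit 476) (nat_lit 395) (nat_lit 269)) (XT.nd (nat_lit 78) (nat_lit 76) (nat_lit 0) (XT.lf (nat_lit 0) (nat_lit 4822502426) (nat_lit 456) (nat_lit 6623936205) (nat_lit 532) (nat_lit 2573463788) (nat_lit 205) (nat_lit 5) (nat_lit 211) (nat_lit 5) (nat_lit 212) (nat_lit 5) (nat_lit 477) (nat_lit 395) (nat_lit 268)) (XT.lf (nat_lit 0) (nat_lit 1064807561) (nat_lit 532) (nat_lit 74382835) (nat_lit 76) (nat_lit 13042335071) (nat_lit 204) (nat_lit 5) (nat_lit 211) (nat_lit 5) (nat_lit 205) (nat_lit 5) (nat_lit 478) (nat_lit 395) (nat_lit 267)))) (XT.nd (nat_lit 78) (nat_lit 0) (nat_lit 0) (XT.lf (nat_lit 0) (nat_lit 575674096) (nat_lit 0) (nat_lit 575674096) (nat_lit 988) (nat_lit 2312382888) (nat_lit 712) (nat_lit 5) (nat_lit 712) (nat_lit 3) (nat_lit 725) (nat_lit 3) (nat_lit 396) (nat_lit 396) (nat_lit 348)) (XT.nd (nat_lit 78) (nat_lit 0) (nat_lit 0) (XT.lf (nat_lit 0) (nat_lit 4240728854) (nat_lit 988)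 (nat_lit 2302450779) (nat_lit 1064) (nat_lit 415257040) (nat_lit 712) (nat_lit 5) (nat_lit 725) (nat_lit 3) (nat_lit 726) (nat_lit 5) (nat_lit 397) (nat_lit 396) (nat_lit 347)) (XT.lf (nat_lit 76) (nat_lit 1222852949) (nat_lit 0) (nat_lit 4960236629) (nat_lit 1064) (nat_lit 807629745) (nat_lit 713) (nat_lit 5) (nat_lit 712) (nat_lit 5) (nat_lit 726) (nat_lit 5) (nat_lit 398) (nat_lit 396) (nat_lit 346))))) (XT.nd (nat_lit 234) (nat_lit 1064) (nat_lit 0) (XT.nd (nat_lit 78) (nat_lit 0) (nat_lit 0) (XT.lf (nat_lit 0) (nat_lit 1091731564) (nat_lit 1064) (nat_lit 2207704861) (nat_lit 1140) (nat_lit 3724742253) (nat_lit 698) (nat_lit 5) (nat_lit 712) (nat_lit 5) (nat_lit 713) (nat_lit 5) (nat_lit 399) (nat_lit 396) (nat_lit 345)) (XT.nd (nat_lit 78) (nat_lit 0) (nat_lit 76) (XT.lf (nat_lit 76) (nat_lit 1410604663) (nat_lit 0) (nat_lit 1568289301) (nat_lit 1140) (nat_lit 4080093928) (nat_lit 699) (nat_lit 5) (nat_lit 698) (nat_lit 5) (nat_lit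 713) (nat_lit 5) (nat_lit 400) (nat_lit 396) (nat_lit 344)) (XT.lf (nat_lit 0) (nat_lit 4872377884) (nat_lit 1064) (nat_lit 1991501677) (nat_lit 1140) (nat_lit 231242163) (nat_lit 699) (nat_lit 5) (nat_lit 713) (nat_lit 5) (nat_lit 714) (nat_lit 5) (nat_lit 401) (nat_lit 396) (nat_lit 343)))) (XT.nd (nat_lit 156) (nat_lit 0) (nat_lit 0) (XT.nd (nat_lit 78) (nat_lit 1140) (nat_lit 0) (XT.lf (nat_lit 76) (nat_lit 1724145137) (nat_lit 0) (nat_lit 5054483448) (nat_lit 1140) (nat_lit 353851706) (nat_lit 700) (nat_lit 5) (nat_lit 699) (nat_lit 5) (nat_lit 714) (nat_lit 5) (nat_lit 402) (nat_lit 396) (nat_lit 342)) (XT.lf (nat_lit 0) (nat_lit 1499266901) (nat_lit 1140) (nat_lit 1666424745) (nat_lit 1216) (nat_lit 4005348618) (nat_lit 684) (nat_lit 5) (nat_lit 699) (nat_lit 5) (nat_lit 700) (nat_lit 5) (nat_lit 403) (nat_lit 396) (nat_lit 341))) (XT.nd (nat_lit 78) (nat_lit 0) (nat_lit 76) (XT.lf (nat_lit 76) (nat_lit 2149665515) (nat_lit 0)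 (nat_lit 1203668862) (nat_lit 1216) (nat_lit 3857617791) (nat_lit 685) (nat_lit 5) (nat_lit 684) (nat_lit 5) (nat_lit 700) (nat_lit 5) (nat_lit 404) (nat_lit 396) (nat_lit 340)) (XT.lf (nat_lit 0) (nat_lit 5216418147) (nat_lit 1140) (nat_lit 1219369737) (nat_lit 1216) (nat_lit 816435726) (nat_lit 685) (nat_lit 5) (nat_lit 700) (nat_lit 5) (nat_lit 701) (nat_lit 5) (nat_lit 405) (nat_lit 396) (nat_lit 339)))))) (XT.nd (nat_lit 468) (nat_lit 2508) (nat_lit 0) (XT.nd (nat_lit 234) (nat_lit 1216) (nat_lit 0) (XT.nd (nat_lit 78) (nat_lit 1216) (nat_lit 0) (XT.lf (nat_lit 76) (nat_lit 2700016660) (nat_lit 0) (nat_lit 4398620889) (nat_lit 1216) (nat_lit 196045453) (nat_lit 686) (nat_lit 5) (nat_lit 685) (nat_lit 5) (nat_lit 701) (nat_lit 5) (nat_lit 406) (nat_lit 396) (nat_lit 338)) (XT.nd (nat_lit 78) (nat_lit 0) (nat_lit 0) (XT.lf (nat_lit 0) (nat_lit 1623476837) (nat_lit 1216) (nat_lit 661680308) (nat_lit 1292) (nat_lit 5053316072) (nat_lit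 669) (nat_lit 5) (nat_lit 685) (nat_lit 5) (nat_lit 686) (nat_lit 5) (nat_lit 407) (nat_lit 396) (nat_lit 337)) (XT.lf (nat_lit 76) (nat_lit 3366141281) (nat_lit 0) (nat_lit 90099023) (nat_lit 1292) (nat_lit 3927283498) (nat_lit 670) (nat_lit 5) (nat_lit 669) (nat_lit 5) (nat_lit 686) (nat_lit 5) (nat_lit 408) (nat_lit 396) (nat_lit 336)))) (XT.nd (nat_lit 78) (nat_lit 1292) (nat_lit 0) (XT.lf (nat_lit 76) (nat_lit 12858134) (nat_lit 0) (nat_lit 5289681775) (nat_lit 1292) (nat_lit 2127397874) (nat_lit 671) (nat_lit 5) (nat_lit 670) (nat_lit 5) (nat_lit 687) (nat_lit 5) (nat_lit 409) (nat_lit 396) (nat_lit 335)) (XT.nd (nat_lit 78) (nat_lit 1292) (nat_lit 0) (XT.lf (nat_lit 76) (nat_lit 4150304912) (nat_lit 0) (nat_lit 3022027260) (nat_lit 1292) (nat_lit 305216537) (nat_lit 671) (nat_lit 5) (nat_lit 670) (nat_lit 5) (nat_lit 687) (nat_lit 5) (nat_lit 410) (nat_lit 396) (nat_lit 334)) (XT.lf (nat_lit 76) (nat_lit 817774316) (nat_lit 0)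 (nat_lit 680123093) (nat_lit 1368) (nat_lit 6028715486) (nat_lit 654) (nat_lit 5) (nat_lit 653) (nat_lit 5) (nat_lit 671) (nat_lit 5) (nat_lit 411) (nat_lit 396) (nat_lit 333))))) (XT.nd (nat_lit 234) (nat_lit 2584) (nat_lit 0) (XT.nd (nat_lit 78) (nat_lit 0) (nat_lit 0) (XT.lf (nat_lit 0) (nat_lit 3326812314) (nat_lit 1292) (nat_lit 2526634078) (nat_lit 1368) (nat_lit 1723295113) (nat_lit 654) (nat_lit 5) (nat_lit 671) (nat_lit 5) (nat_lit 672) (nat_lit 5) (nat_lit 412) (nat_lit 396) (nat_lit 332)) (XT.nd (nat_lit 78) (nat_lit 0) (nat_lit 0) (XT.lf (nat_lit 76) (nat_lit 1729993616) (nat_lit 0) (nat_lit 3439080445) (nat_lit 1368) (nat_lit 2459263254) (nat_lit 655) (nat_lit 5) (nat_lit 654) (nat_lit 5) (nat_lit 672) (nat_lit 5) (nat_lit 413) (nat_lit 396) (nat_lit 331)) (XT.lf (nat_lit 76) (nat_lit 6078777409) (nat_lit 0) (nat_lit 947978142) (nat_lit 1368) (nat_lit 654638002) (nat_lit 655) (nat_lit 5) (nat_lit 654) (nat_lit 5) (nat_lit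 672) (nat_lit 5) (nat_lit 414) (nat_lit 396) (nat_lit 330)))) (XT.nd (nat_lit 156) (nat_lit 1292) (nat_lit 0) (XT.nd (nat_lit 78) (nat_lit 0) (nat_lit 0) (XT.lf (nat_lit 0) (nat_lit 1161282797) (nat_lit 1368) (nat_lit 4965737737) (nat_lit 1444) (nat_lit 1608521189) (nat_lit 637) (nat_lit 5) (nat_lit 655) (nat_lit 5) (nat_lit 656) (nat_lit 5) (nat_lit 415) (nat_lit 396) (nat_lit 329)) (XT.lf (nat_lit 0) (nat_lit 2984625169) (nat_lit 1368) (nat_lit 577675231) (nat_lit 1444) (nat_lit 4228788540) (nat_lit 637) (nat_lit 5) (nat_lit 655) (nat_lit 5) (nat_lit 656) (nat_lit 5) (nat_lit 416) (nat_lit 396) (nat_lit 328))) (XT.nd (nat_lit 78) (nat_lit 1292) (nat_lit 0) (XT.lf (nat_lit 76) (nat_lit 3922306661) (nat_lit 0) (nat_lit 911081143) (nat_lit 1444) (nat_lit 3014580228) (nat_lit 638) (nat_lit 5) (nat_lit 637) (nat_lit 5) (nat_lit 656) (nat_lit 5) (nat_lit 417) (nat_lit 396) (nat_lit 327)) (XT.lf (nat_lit 0) (nat_lit 582299280) (nat_lit 1368)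 (nat_lit 6120236405) (nat_lit 1444) (nat_lit 1203780822) (nat_lit 620) (nat_lit 5) (nat_lit 638) (nat_lit 5) (nat_lit 639) (nat_lit 5) (nat_lit 418) (nat_lit 396) (nat_lit 326))))))))
noncomputable def xc81 : XT := (XT.nd (nat_lit 2028) (nat_lit 10868) (nat_lit 0) (XT.nd (nat_lit 1014) (nat_lit 6992) (nat_lit 0) (XT.nd (nat_lit 468) (nat_lit 6460) (nat_lit 0) (XT.nd (nat_lit 234) (nat_lit 3192) (nat_lit 0) (XT.nd (nat_lit 78) (nat_lit 1444) (nat_lit 0) (XT.lf (nat_lit 0) (nat_lit 631724551) (nat_lit 1444) (nat_lit 2770228154) (nat_lit 76) (nat_lit 4563857197) (nat_lit 619) (nat_lit 5) (nat_lit 638) (nat_lit 5) (nat_lit 620) (nat_lit 5) (nat_lit 419) (nat_lit 396) (nat_lit 325)) (XT.nd (nat_lit 78) (nat_lit 0) (nat_lit 0) (XT.lf (nat_lit 0) (nat_lit 1863485795) (nat_lit 1444) (nat_lit 601522952) (nat_lit 1520) (nat_lit 5561781532) (nat_lit 600) (nat_lit 5) (nat_lit 619) (nat_lit 5) (nat_lit 620) (nat_lit 5) (nat_lit 420) (nat_lit 396)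 (nat_lit 324)) (XT.lf (nat_lit 0) (nat_lit 4333937157) (nat_lit 1520) (nat_lit 1504127624) (nat_lit 76) (nat_lit 2250945912) (nat_lit 600) (nat_lit 5) (nat_lit 620) (nat_lit 5) (nat_lit 601) (nat_lit 5) (nat_lit 421) (nat_lit 396) (nat_lit 323)))) (XT.nd (nat_lit 78) (nat_lit 1672) (nat_lit 0) (XT.lf (nat_lit 0) (nat_lit 3259378043) (nat_lit 1520) (nat_lit 2972311067) (nat_lit 1596) (nat_lit 1920957506) (nat_lit 580) (nat_lit 5) (nat_lit 600) (nat_lit 5) (nat_lit 601) (nat_lit 5) (nat_lit 422) (nat_lit 396) (nat_lit 322)) (XT.nd (nat_lit 78) (nat_lit 1672) (nat_lit 0) (XT.lf (nat_lit 0) (nat_lit 8111105907) (nat_lit 1520) (nat_lit 33165680) (nat_lit 1596) (nat_lit 73746160) (nat_lit 580) (nat_lit 5) (nat_lit 600) (nat_lit 5) (nat_lit 601) (nat_lit 5) (nat_lit 423) (nat_lit 396) (nat_lit 321)) (XT.lf (nat_lit 0) (nat_lit 1804610433) (nat_lit 1672) (nat_lit 3505039205) (nat_lit 76) (nat_lit 2974452678) (nat_lit 558) (nat_lit 5) (nat_lit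 580) (nat_lit 5) (nat_lit 559) (nat_lit 5) (nat_lit 424) (nat_lit 396) (nat_lit 320))))) (XT.nd (nat_lit 234) (nat_lit 3040) (nat_lit 0) (XT.nd (nat_lit 78) (nat_lit 1748) (nat_lit 0) (XT.lf (nat_lit 0) (nat_lit 1402560160) (nat_lit 1672) (nat_lit 2294753288) (nat_lit 1748) (nat_lit 4654630043) (nat_lit 536) (nat_lit 5) (nat_lit 558) (nat_lit 5) (nat_lit 559) (nat_lit 5) (nat_lit 425) (nat_lit 396) (nat_lit 319)) (XT.nd (nat_lit 78) (nat_lit 1748) (nat_lit 0) (XT.lf (nat_lit 0) (nat_lit 5624812321) (nat_lit 1748) (nat_lit 1998385765) (nat_lit 76) (nat_lit 798004569) (nat_lit 536) (nat_lit 5) (nat_lit 559) (nat_lit 5) (nat_lit 537) (nat_lit 5) (nat_lit 426) (nat_lit 396) (nat_lit 318)) (XT.lf (nat_lit 0) (nat_lit 3048658590) (nat_lit 1748) (nat_lit 4546015332) (nat_lit 1824) (nat_lit 897096825) (nat_lit 513) (nat_lit 5) (nat_lit 536) (nat_lit 5) (nat_lit 537) (nat_lit 5) (nat_lit 427) (nat_lit 396) (nat_lit 317)))) (XT.nd (nat_lit 156)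 (nat_lit 1140) (nat_lit 0) (XT.nd (nat_lit 78) (nat_lit 1824) (nat_lit 0) (XT.lf (nat_lit 0) (nat_lit 1009089870) (nat_lit 1824) (nat_lit 374580382) (nat_lit 76) (nat_lit 7180293888) (nat_lit 512) (nat_lit 5) (nat_lit 536) (nat_lit 5) (nat_lit 513) (nat_lit 5) (nat_lit 428) (nat_lit 396) (nat_lit 316)) (XT.lf (nat_lit 0) (nat_lit 2954609929) (nat_lit 1900) (nat_lit 3824462529) (nat_lit 76) (nat_lit 1858145911) (nat_lit 488) (nat_lit 5) (nat_lit 513) (nat_lit 5) (nat_lit 489) (nat_lit 5) (nat_lit 429) (nat_lit 396) (nat_lit 315))) (XT.nd (nat_lit 78) (nat_lit 0) (nat_lit 0) (XT.lf (nat_lit 0) (nat_lit 1378047244) (nat_lit 1140) (nat_lit 3551726598) (nat_lit 1216) (nat_lit 3782349172) (nat_lit 473) (nat_lit 5) (nat_lit 488) (nat_lit 5) (nat_lit 489) (nat_lit 5) (nat_lit 430) (nat_lit 396) (nat_lit 314)) (XT.lf (nat_lit 0) (nat_lit 6708757216) (nat_lit 1140) (nat_lit 231847198) (nat_lit 1216) (nat_lit 1847998069) (nat_lit 473) (nat_lit 5)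 (nat_lit 488) (nat_lit 5) (nat_lit 489) (nat_lit 5) (nat_lit 431) (nat_lit 396) (nat_lit 313)))))) (XT.nd (nat_lit 468) (nat_lit 3268) (nat_lit 0) (XT.nd (nat_lit 234) (nat_lit 1824) (nat_lit 0) (XT.nd (nat_lit 78) (nat_lit 912) (nat_lit 0) (XT.lf (nat_lit 0) (nat_lit 136313152) (nat_lit 988) (nat_lit 5593059550) (nat_lit 76) (nat_lit 3136964344) (nat_lit 460) (nat_lit 5) (nat_lit 473) (nat_lit 5) (nat_lit 461) (nat_lit 5) (nat_lit 432) (nat_lit 396) (nat_lit 312)) (XT.nd (nat_lit 78) (nat_lit 912) (nat_lit 0) (XT.lf (nat_lit 0) (nat_lit 2122461995) (nat_lit 988) (nat_lit 225495491) (nat_lit 76) (nat_lit 6597686586) (nat_lit 460) (nat_lit 5) (nat_lit 473) (nat_lit 5) (nat_lit 461) (nat_lit 5) (nat_lit 433) (nat_lit 396) (nat_lit 311)) (XT.lf (nat_lit 0) (nat_lit 4161921939) (nat_lit 988) (nat_lit 3742366515) (nat_lit 76) (nat_lit 1121977023) (nat_lit 448) (nat_lit 5) (nat_lit 461) (nat_lit 5) (nat_lit 449) (nat_lit 5) (nat_lit 434) (nat_lit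 396) (nat_lit 310)))) (XT.nd (nat_lit 78) (nat_lit 988) (nat_lit 0) (XT.lf (nat_lit 0) (nat_lit 1778060289) (nat_lit 836) (nat_lit 4464957912) (nat_lit 912) (nat_lit 2865464165) (nat_lit 437) (nat_lit 5) (nat_lit 448) (nat_lit 5) (nat_lit 449) (nat_lit 5) (nat_lit 435) (nat_lit 396) (nat_lit 309)) (XT.nd (nat_lit 78) (nat_lit 988) (nat_lit 0) (XT.lf (nat_lit 0) (nat_lit 7432038289) (nat_lit 836) (nat_lit 931406919) (nat_lit 912) (nat_lit 828944209) (nat_lit 437) (nat_lit 5) (nat_lit 448) (nat_lit 5) (nat_lit 449) (nat_lit 5) (nat_lit 436) (nat_lit 396) (nat_lit 308)) (XT.lf (nat_lit 0) (nat_lit 1248026925) (nat_lit 988) (nat_lit 5358166943) (nat_lit 76) (nat_lit 2671296794) (nat_lit 424) (nat_lit 5) (nat_lit 437) (nat_lit 5) (nat_lit 425) (nat_lit 5) (nat_lit 437) (nat_lit 396) (nat_lit 307))))) (XT.nd (nat_lit 234) (nat_lit 1596) (nat_lit 0) (XT.nd (nat_lit 78) (nat_lit 836) (nat_lit 0) (XT.lf (nat_lit 0) (nat_lit 337329677) (nat_lit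 836) (nat_lit 3011673218) (nat_lit 912) (nat_lit 6015310151) (nat_lit 413) (nat_lit 5) (nat_lit 424) (nat_lit 5) (nat_lit 425) (nat_lit 5) (nat_lit 438) (nat_lit 396) (nat_lit 306)) (XT.nd (nat_lit 78) (nat_lit 836) (nat_lit 0) (XT.lf (nat_lit 0) (nat_lit 5506085162) (nat_lit 912) (nat_lit 3265365448) (nat_lit 76) (nat_lit 681139533) (nat_lit 413) (nat_lit 5) (nat_lit 425) (nat_lit 5) (nat_lit 414) (nat_lit 5) (nat_lit 439) (nat_lit 396) (nat_lit 305)) (XT.lf (nat_lit 0) (nat_lit 2598073816) (nat_lit 836) (nat_lit 5119206907) (nat_lit 912) (nat_lit 1825132625) (nat_lit 402) (nat_lit 5) (nat_lit 413) (nat_lit 5) (nat_lit 414) (nat_lit 5) (nat_lit 440) (nat_lit 396) (nat_lit 304)))) (XT.nd (nat_lit 156) (nat_lit 760) (nat_lit 0) (XT.nd (nat_lit 78) (nat_lit 760) (nat_lit 0) (XT.lf (nat_lit 0) (nat_lit 330601414) (nat_lit 912) (nat_lit 1040594457) (nat_lit 76) (nat_lit 8262865650) (nat_lit 401) (nat_lit 5) (nat_lit 413) (nat_lit 5) (nat_lit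 402) (nat_lit 5) (nat_lit 441) (nat_lit 396) (nat_lit 303)) (XT.lf (nat_lit 0) (nat_lit 2528570595) (nat_lit 836) (nat_lit 4735697733) (nat_lit 76) (nat_lit 2462561868) (nat_lit 391) (nat_lit 5) (nat_lit 402) (nat_lit 5) (nat_lit 392) (nat_lit 5) (nat_lit 442) (nat_lit 396) (nat_lit 302))) (XT.nd (nat_lit 78) (nat_lit 0) (nat_lit 0) (XT.lf (nat_lit 0) (nat_lit 1316968041) (nat_lit 760) (nat_lit 3453318502) (nat_lit 836) (nat_lit 5051171954) (nat_lit 381) (nat_lit 5) (nat_lit 391) (nat_lit 5) (nat_lit 392) (nat_lit 5) (nat_lit 443) (nat_lit 396) (nat_lit 301)) (XT.lf (nat_lit 0) (nat_lit 7067062869) (nat_lit 836) (nat_lit 2393245343) (nat_lit 76) (nat_lit 457466631) (nat_lit 381) (nat_lit 5) (nat_lit 392) (nat_lit 5) (nat_lit 382) (nat_lit 5) (nat_lit 444) (nat_lit 396) (nat_lit 300))))))) (XT.nd (nat_lit 1014) (nat_lit 5168) (nat_lit 0) (XT.nd (nat_lit 468) (nat_lit 2660) (nat_lit 0) (XT.nd (nat_lit 234) (nat_lit 1444) (nat_lit 0) (XT.nd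 (nat_lit 78) (nat_lit 836) (nat_lit 0) (XT.lf (nat_lit 0) (nat_lit 3840513234) (nat_lit 760) (nat_lit 5592968004) (nat_lit 836) (nat_lit 582062147) (nat_lit 371) (nat_lit 5) (nat_lit 381) (nat_lit 5) (nat_lit 382) (nat_lit 5) (nat_lit 445) (nat_lit 396) (nat_lit 299)) (XT.nd (nat_lit 78) (nat_lit 0) (nat_lit 0) (XT.lf (nat_lit 0) (nat_lit 78773502) (nat_lit 760) (nat_lit 1623191022) (nat_lit 836) (nat_lit 8413223497) (nat_lit 360) (nat_lit 5) (nat_lit 370) (nat_lit 5) (nat_lit 371) (nat_lit 5) (nat_lit 446) (nat_lit 396) (nat_lit 298)) (XT.lf (nat_lit 0) (nat_lit 4057660112) (nat_lit 836) (nat_lit 3722140432) (nat_lit 76) (nat_lit 2436272413) (nat_lit 360) (nat_lit 5) (nat_lit 371) (nat_lit 5) (nat_lit 361) (nat_lit 5) (nat_lit 447) (nat_lit 396) (nat_lit 297)))) (XT.nd (nat_lit 78) (nat_lit 760) (nat_lit 0) (XT.lf (nat_lit 0) (nat_lit 2716213942) (nat_lit 684) (nat_lit 3749416920) (nat_lit 760) (nat_lit 3853241505) (nat_lit 351) (nat_lit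 5) (nat_lit 360) (nat_lit 5) (nat_lit 361) (nat_lit 5) (nat_lit 448) (nat_lit 396) (nat_lit 296)) (XT.nd (nat_lit 78) (nat_lit 760) (nat_lit 0) (XT.lf (nat_lit 0) (nat_lit 8926282735) (nat_lit 760) (nat_lit 1119285445) (nat_lit 76) (nat_lit 378069150) (nat_lit 351) (nat_lit 5) (nat_lit 361) (nat_lit 5) (nat_lit 352) (nat_lit 5) (nat_lit 449) (nat_lit 396) (nat_lit 295)) (XT.lf (nat_lit 0) (nat_lit 932140304) (nat_lit 760) (nat_lit 5021418641) (nat_lit 76) (nat_lit 4576053687) (nat_lit 341) (nat_lit 5) (nat_lit 351) (nat_lit 5) (nat_lit 342) (nat_lit 5) (nat_lit 450) (nat_lit 396) (nat_lit 294))))) (XT.nd (nat_lit 234) (nat_lit 1292) (nat_lit 0) (XT.nd (nat_lit 78) (nat_lit 684) (nat_lit 0) (XT.lf (nat_lit 0) (nat_lit 1630334530) (nat_lit 684) (nat_lit 1755608586) (nat_lit 760) (nat_lit 7251651020) (nat_lit 332) (nat_lit 5) (nat_lit 341) (nat_lit 5) (nat_lit 342) (nat_lit 5) (nat_lit 451) (nat_lit 396) (nat_lit 293)) (XT.nd (nat_lit 78)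 (nat_lit 684) (nat_lit 0) (XT.lf (nat_lit 0) (nat_lit 5916982416) (nat_lit 760) (nat_lit 2307652702) (nat_lit 76) (nat_lit 2522536945) (nat_lit 332) (nat_lit 5) (nat_lit 342) (nat_lit 5) (nat_lit 333) (nat_lit 5) (nat_lit 452) (nat_lit 396) (nat_lit 292)) (XT.lf (nat_lit 0) (nat_lit 4547336179) (nat_lit 684) (nat_lit 3970730222) (nat_lit 760) (nat_lit 2340486669) (nat_lit 323) (nat_lit 5) (nat_lit 332) (nat_lit 5) (nat_lit 333) (nat_lit 5) (nat_lit 453) (nat_lit 396) (nat_lit 291)))) (XT.nd (nat_lit 156) (nat_lit 608) (nat_lit 0) (XT.nd (nat_lit 78) (nat_lit 0) (nat_lit 0) (XT.lf (nat_lit 0) (nat_lit 196622681) (nat_lit 684) (nat_lit 10396366840) (nat_lit 76) (nat_lit 379141887) (nat_lit 314) (nat_lit 5) (nat_lit 323) (nat_lit 5) (nat_lit 315) (nat_lit 5) (nat_lit 454) (nat_lit 396) (nat_lit 290)) (XT.lf (nat_lit 0) (nat_lit 2800695467) (nat_lit 684) (nat_lit 3470127526) (nat_lit 76) (nat_lit 4815897700) (nat_lit 314) (nat_lit 5) (nat_lit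 323) (nat_lit 5) (nat_lit 315) (nat_lit 5) (nat_lit 455) (nat_lit 396) (nat_lit 289))) (XT.nd (nat_lit 78) (nat_lit 0) (nat_lit 0) (XT.lf (nat_lit 0) (nat_lit 3615632226) (nat_lit 608) (nat_lit 1843714901) (nat_lit 684) (nat_lit 5744204688) (nat_lit 306) (nat_lit 5) (nat_lit 314) (nat_lit 5) (nat_lit 315) (nat_lit 5) (nat_lit 456) (nat_lit 396) (nat_lit 288)) (XT.lf (nat_lit 0) (nat_lit 8191187826) (nat_lit 684) (nat_lit 476239469) (nat_lit 76) (nat_lit 2654891943) (nat_lit 306) (nat_lit 5) (nat_lit 315) (nat_lit 5) (nat_lit 307) (nat_lit 5) (nat_lit 457) (nat_lit 396) (nat_lit 287)))))) (XT.nd (nat_lit 468) (nat_lit 2660) (nat_lit 0) (XT.nd (nat_lit 234) (nat_lit 1216) (nat_lit 0) (XT.nd (nat_lit 78) (nat_lit 684) (nat_lit 0) (XT.lf (nat_lit 0) (nat_lit 6828919758) (nat_lit 608) (nat_lit 4184928228) (nat_lit 684) (nat_lit 428890374) (nat_lit 298) (nat_lit 5) (nat_lit 306) (nat_lit 5) (nat_lit 307) (nat_lit 5) (nat_lit 458) (nat_lit 396)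 (nat_lit 286)) (XT.nd (nat_lit 78) (nat_lit 0) (nat_lit 0) (XT.lf (nat_lit 0) (nat_lit 2300164524) (nat_lit 684) (nat_lit 8852553561) (nat_lit 76) (nat_lit 412479692) (nat_lit 289) (nat_lit 5) (nat_lit 298) (nat_lit 5) (nat_lit 290) (nat_lit 5) (nat_lit 459) (nat_lit 396) (nat_lit 285)) (XT.lf (nat_lit 0) (nat_lit 5116865801) (nat_lit 684) (nat_lit 1498463514) (nat_lit 76) (nat_lit 5073944206) (nat_lit 289) (nat_lit 5) (nat_lit 298) (nat_lit 5) (nat_lit 290) (nat_lit 5) (nat_lit 460) (nat_lit 396) (nat_lit 284)))) (XT.nd (nat_lit 78) (nat_lit 684) (nat_lit 0) (XT.lf (nat_lit 0) (nat_lit 6056260772) (nat_lit 532) (nat_lit 1953277087) (nat_lit 608) (nat_lit 3805900185) (nat_lit 282) (nat_lit 5) (nat_lit 289) (nat_lit 5) (nat_lit 290) (nat_lit 5) (nat_lit 461) (nat_lit 396) (nat_lit 283)) (XT.nd (nat_lit 78) (nat_lit 76) (nat_lit 0) (XT.lf (nat_lit 0) (nat_lit 1817996007) (nat_lit 608) (nat_lit 9162679652) (nat_lit 684) (nat_lit 963037953)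 (nat_lit 274) (nat_lit 5) (nat_lit 282) (nat_lit 5) (nat_lit 283) (nat_lit 5) (nat_lit 462) (nat_lit 396) (nat_lit 282)) (XT.lf (nat_lit 0) (nat_lit 1943700959) (nat_lit 684) (nat_lit 2500909322) (nat_lit 76) (nat_lit 7629044540) (nat_lit 273) (nat_lit 5) (nat_lit 282) (nat_lit 5) (nat_lit 274) (nat_lit 5) (nat_lit 463) (nat_lit 396) (nat_lit 281))))) (XT.nd (nat_lit 234) (nat_lit 1596) (nat_lit 0) (XT.nd (nat_lit 78) (nat_lit 532) (nat_lit 0) (XT.lf (nat_lit 0) (nat_lit 4913771727) (nat_lit 608) (nat_lit 6894290674) (nat_lit 76) (nat_lit 397643295) (nat_lit 266) (nat_lit 5) (nat_lit 274) (nat_lit 5) (nat_lit 267) (nat_lit 5) (nat_lit 464) (nat_lit 396) (nat_lit 280)) (XT.nd (nat_lit 78) (nat_lit 0) (nat_lit 0) (XT.lf (nat_lit 0) (nat_lit 930690843) (nat_lit 532) (nat_lit 7046050218) (nat_lit 608) (nat_lit 4362986585) (nat_lit 259) (nat_lit 5) (nat_lit 266) (nat_lit 5) (nat_lit 267) (nat_lit 5) (nat_lit 465) (nat_lit 396) (nat_lit 279))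 (XT.lf (nat_lit 0) (nat_lit 8980001528) (nat_lit 532) (nat_lit 2148562697) (nat_lit 608) (nat_lit 1347313922) (nat_lit 259) (nat_lit 5) (nat_lit 266) (nat_lit 5) (nat_lit 267) (nat_lit 5) (nat_lit 466) (nat_lit 396) (nat_lit 278)))) (XT.nd (nat_lit 156) (nat_lit 456) (nat_lit 0) (XT.nd (nat_lit 78) (nat_lit 532) (nat_lit 0) (XT.lf (nat_lit 0) (nat_lit 1736147699) (nat_lit 608) (nat_lit 8033732652) (nat_lit 76) (nat_lit 2844043885) (nat_lit 251) (nat_lit 5) (nat_lit 259) (nat_lit 5) (nat_lit 252) (nat_lit 5) (nat_lit 467) (nat_lit 396) (nat_lit 277)) (XT.lf (nat_lit 0) (nat_lit 62905576) (nat_lit 532) (nat_lit 4820328526) (nat_lit 608) (nat_lit 7870919108) (nat_lit 244) (nat_lit 5) (nat_lit 251) (nat_lit 5) (nat_lit 252) (nat_lit 5) (nat_lit 468) (nat_lit 396) (nat_lit 276))) (XT.nd (nat_lit 78) (nat_lit 456) (nat_lit 0) (XT.lf (nat_lit 0) (nat_lit 8130885396) (nat_lit 608) (nat_lit 4493237034) (nat_lit 76) (nat_lit 272311871) (nat_lit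 244) (nat_lit 5) (nat_lit 252) (nat_lit 5) (nat_lit 245) (nat_lit 5) (nat_lit 469) (nat_lit 396) (nat_lit 275)) (XT.lf (nat_lit 0) (nat_lit 3862303455) (nat_lit 456) (nat_lit 7620414860) (nat_lit 532) (nat_lit 1558058126) (nat_lit 238) (nat_lit 5) (nat_lit 244) (nat_lit 5) (nat_lit 245) (nat_lit 5) (nat_lit 470) (nat_lit 396) (nat_lit 274))))))))
noncomputable def xc82 : XT := (XT.nd (nat_lit 54990) (nat_lit 0) (nat_lit 15808) (XT.nd (nat_lit 53976) (nat_lit 0) (nat_lit 32756) (XT.nd (nat_lit 468) (nat_lit 456) (nat_lit 0) (XT.nd (nat_lit 234) (nat_lit 988) (nat_lit 0) (XT.nd (nat_lit 78) (nat_lit 988) (nat_lit 0) (XT.lf (nat_lit 0) (nat_lit 1703759147) (nat_lit 532) (nat_lit 778098132) (nat_lit 76) (nat_lit 10705672619) (nat_lit 237) (nat_lit 5) (nat_lit 244) (nat_lit 5) (nat_lit 238) (nat_lit 5) (nat_lit 471) (nat_lit 396) (nat_lit 273)) (XT.nd (nat_lit 78) (nat_lit 456) (nat_lit 0) (XT.lf (nat_lit 0) (nat_lit 5061911747) (nat_lit 608)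 (nat_lit 5496321826) (nat_lit 76) (nat_lit 2777739648) (nat_lit 230) (nat_lit 5) (nat_lit 238) (nat_lit 5) (nat_lit 231) (nat_lit 5) (nat_lit 472) (nat_lit 396) (nat_lit 272)) (XT.lf (nat_lit 0) (nat_lit 3153034113) (nat_lit 456) (nat_lit 5359135740) (nat_lit 532) (nat_lit 4974716708) (nat_lit 224) (nat_lit 5) (nat_lit 230) (nat_lit 5) (nat_lit 231) (nat_lit 5) (nat_lit 473) (nat_lit 396) (nat_lit 271)))) (XT.nd (nat_lit 78) (nat_lit 988) (nat_lit 0) (XT.lf (nat_lit 0) (nat_lit 12025174846) (nat_lit 456) (nat_lit 26097449) (nat_lit 532) (nat_lit 1589149090) (nat_lit 224) (nat_lit 5) (nat_lit 230) (nat_lit 5) (nat_lit 231) (nat_lit 5) (nat_lit 474) (nat_lit 396) (nat_lit 270)) (XT.nd (nat_lit 78) (nat_lit 456) (nat_lit 0) (XT.lf (nat_lit 0) (nat_lit 1905995170) (nat_lit 532) (nat_lit 6494248979) (nat_lit 76) (nat_lit 5395214419) (nat_lit 217) (nat_lit 5) (nat_lit 224) (nat_lit 5) (nat_lit 218) (nat_lit 5) (nat_lit 475) (nat_lit 396) (nat_lit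 269)) (XT.lf (nat_lit 0) (nat_lit 2461455804) (nat_lit 456) (nat_lit 2998694924) (nat_lit 532) (nat_lit 8493027939) (nat_lit 211) (nat_lit 5) (nat_lit 217) (nat_lit 5) (nat_lit 218) (nat_lit 5) (nat_lit 476) (nat_lit 396) (nat_lit 268))))) (XT.nd (nat_lit 53196) (nat_lit 0) (nat_lit 37392) (XT.nd (nat_lit 78) (nat_lit 456) (nat_lit 0) (XT.lf (nat_lit 0) (nat_lit 9128980028) (nat_lit 532) (nat_lit 2470152449) (nat_lit 76) (nat_lit 2514048879) (nat_lit 211) (nat_lit 5) (nat_lit 218) (nat_lit 5) (nat_lit 212) (nat_lit 5) (nat_lit 477) (nat_lit 396) (nat_lit 267)) (XT.nd (nat_lit 53040) (nat_lit 0) (nat_lit 38532) (XT.lf (nat_lit 0) (nat_lit 6776665820) (nat_lit 456) (nat_lit 6142122569) (nat_lit 532) (nat_lit 1356643659) (nat_lit 205) (nat_lit 5) (nat_lit 211) (nat_lit 5) (nat_lit 212) (nat_lit 5) (nat_lit 478) (nat_lit 396) (nat_lit 266)) (XT.lf (nat_lit 0) (nat_lit 1537116479) (nat_lit 0) (nat_lit 1537116479) (nat_lit 988) (nat_lit 420775588)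 (nat_lit 712) (nat_lit 5) (nat_lit 712) (nat_lit 3) (nat_lit 725) (nat_lit 3) (nat_lit 397) (nat_lit 397) (nat_lit 346)))) (XT.nd (nat_lit 156) (nat_lit 0) (nat_lit 76) (XT.nd (nat_lit 78) (nat_lit 0) (nat_lit 76) (XT.lf (nat_lit 0) (nat_lit 1011370717) (nat_lit 1140) (nat_lit 415257040) (nat_lit 1140) (nat_lit 5596396078) (nat_lit 697) (nat_lit 3) (nat_lit 712) (nat_lit 3) (nat_lit 712) (nat_lit 5) (nat_lit 398) (nat_lit 397) (nat_lit 345)) (XT.lf (nat_lit 0) (nat_lit 2864097126) (nat_lit 1064) (nat_lit 3892629281) (nat_lit 1140) (nat_lit 300372765) (nat_lit 698) (nat_lit 5) (nat_lit 712) (nat_lit 5) (nat_lit 713) (nat_lit 5) (nat_lit 399) (nat_lit 397) (nat_lit 344))) (XT.nd (nat_lit 78) (nat_lit 0) (nat_lit 0) (XT.lf (nat_lit 0) (nat_lit 4718542091) (nat_lit 1064) (nat_lit 305539469) (nat_lit 1140) (nat_lit 2068481174) (nat_lit 698) (nat_lit 5) (nat_lit 712) (nat_lit 5) (nat_lit 713) (nat_lit 5) (nat_lit 400) (nat_lit 397) (nat_lit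 343)) (XT.lf (nat_lit 76) (nat_lit 3372331513) (nat_lit 0) (nat_lit 3212984085) (nat_lit 1140) (nat_lit 543915177) (nat_lit 699) (nat_lit 5) (nat_lit 698) (nat_lit 5) (nat_lit 713) (nat_lit 5) (nat_lit 401) (nat_lit 397) (nat_lit 342)))))) (XT.nd (nat_lit 468) (nat_lit 2432) (nat_lit 0) (XT.nd (nat_lit 234) (nat_lit 1140) (nat_lit 0) (XT.nd (nat_lit 78) (nat_lit 0) (nat_lit 76) (XT.lf (nat_lit 0) (nat_lit 1261300228) (nat_lit 1140) (nat_lit 72929324) (nat_lit 1216) (nat_lit 5833113725) (nat_lit 683) (nat_lit 5) (nat_lit 698) (nat_lit 5) (nat_lit 699) (nat_lit 5) (nat_lit 402) (nat_lit 397) (nat_lit 341)) (XT.nd (nat_lit 78) (nat_lit 0) (nat_lit 0) (XT.lf (nat_lit 0) (nat_lit 3078188312) (nat_lit 1140) (nat_lit 3506095421) (nat_lit 1216) (nat_lit 622205363) (nat_lit 684) (nat_lit 5) (nat_lit 699) (nat_lit 5) (nat_lit 700) (nat_lit 5) (nat_lit 403) (nat_lit 397) (nat_lit 340)) (XT.lf (nat_lit 76) (nat_lit 272510040) (nat_lit 0) (nat_lit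 4625554072) (nat_lit 1216) (nat_lit 2349020721) (nat_lit 685) (nat_lit 5) (nat_lit 684) (nat_lit 5) (nat_lit 700) (nat_lit 5) (nat_lit 404) (nat_lit 397) (nat_lit 339)))) (XT.nd (nat_lit 78) (nat_lit 1216) (nat_lit 0) (XT.lf (nat_lit 76) (nat_lit 4148396185) (nat_lit 0) (nat_lit 2585724938) (nat_lit 1216) (nat_lit 554775687) (nat_lit 685) (nat_lit 5) (nat_lit 684) (nat_lit 5) (nat_lit 700) (nat_lit 5) (nat_lit 405) (nat_lit 397) (nat_lit 338)) (XT.nd (nat_lit 78) (nat_lit 0) (nat_lit 76) (XT.lf (nat_lit 76) (nat_lit 745871865) (nat_lit 0) (nat_lit 474428237) (nat_lit 1292) (nat_lit 6111845868) (nat_lit 669) (nat_lit 5) (nat_lit 668) (nat_lit 5) (nat_lit 685) (nat_lit 5) (nat_lit 406) (nat_lit 397) (nat_lit 337)) (XT.lf (nat_lit 0) (nat_lit 3013189783) (nat_lit 1216) (nat_lit 2664685279) (nat_lit 1292) (nat_lit 1698516895) (nat_lit 669) (nat_lit 5) (nat_lit 685) (nat_lit 5) (nat_lit 686) (nat_lit 5) (nat_lit 407) (nat_lit 397) (nat_lit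 336))))) (XT.nd (nat_lit 234) (nat_lit 1292) (nat_lit 0) (XT.nd (nat_lit 78) (nat_lit 1216) (nat_lit 0) (XT.lf (nat_lit 76) (nat_lit 1323399647) (nat_lit 0) (nat_lit 3488721028) (nat_lit 1292) (nat_lit 2609998520) (nat_lit 670) (nat_lit 5) (nat_lit 669) (nat_lit 5) (nat_lit 686) (nat_lit 5) (nat_lit 408) (nat_lit 397) (nat_lit 335)) (XT.nd (nat_lit 78) (nat_lit 1216) (nat_lit 0) (XT.lf (nat_lit 76) (nat_lit 5401388432) (nat_lit 0) (nat_lit 1222618368) (nat_lit 1292) (nat_lit 845214644) (nat_lit 670) (nat_lit 5) (nat_lit 669) (nat_lit 5) (nat_lit 686) (nat_lit 5) (nat_lit 409) (nat_lit 397) (nat_lit 334)) (XT.lf (nat_lit 0) (nat_lit 922497865) (nat_lit 1292) (nat_lit 5486778132) (nat_lit 1368) (nat_lit 1108262627) (nat_lit 653) (nat_lit 5) (nat_lit 670) (nat_lit 5) (nat_lit 671) (nat_lit 5) (nat_lit 410) (nat_lit 397) (nat_lit 333)))) (XT.nd (nat_lit 156) (nat_lit 1292) (nat_lit 0) (XT.nd (nat_lit 78) (nat_lit 0) (nat_lit 0) (XT.lf (nat_lit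 0) (nat_lit 2696668501) (nat_lit 1292) (nat_lit 1367694448) (nat_lit 1368) (nat_lit 3502699034) (nat_lit 653) (nat_lit 5) (nat_lit 670) (nat_lit 5) (nat_lit 671) (nat_lit 5) (nat_lit 411) (nat_lit 397) (nat_lit 332)) (XT.lf (nat_lit 76) (nat_lit 2844886458) (nat_lit 0) (nat_lit 1641030282) (nat_lit 1368) (nat_lit 3132067186) (nat_lit 654) (nat_lit 5) (nat_lit 653) (nat_lit 5) (nat_lit 671) (nat_lit 5) (nat_lit 412) (nat_lit 397) (nat_lit 331))) (XT.nd (nat_lit 78) (nat_lit 1368) (nat_lit 0) (XT.lf (nat_lit 0) (nat_lit 6287378807) (nat_lit 1292) (nat_lit 541805570) (nat_lit 1368) (nat_lit 841211353) (nat_lit 654) (nat_lit 5) (nat_lit 671) (nat_lit 5) (nat_lit 672) (nat_lit 5) (nat_lit 413) (nat_lit 397) (nat_lit 330)) (XT.lf (nat_lit 0) (nat_lit 393739668) (nat_lit 1368) (nat_lit 3939922061) (nat_lit 1444) (nat_lit 3390182275) (nat_lit 636) (nat_lit 5) (nat_lit 654) (nat_lit 5) (nat_lit 655) (nat_lit 5) (nat_lit 414) (nat_lit 397) (nat_lit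 329))))))) (XT.nd (nat_lit 1014) (nat_lit 7600) (nat_lit 0) (XT.nd (nat_lit 468) (nat_lit 8056) (nat_lit 0) (XT.nd (nat_lit 234) (nat_lit 1292) (nat_lit 0) (XT.nd (nat_lit 78) (nat_lit 0) (nat_lit 76) (XT.lf (nat_lit 76) (nat_lit 394549313) (nat_lit 0) (nat_lit 1762067866) (nat_lit 1444) (nat_lit 5622179141) (nat_lit 637) (nat_lit 5) (nat_lit 636) (nat_lit 5) (nat_lit 655) (nat_lit 5) (nat_lit 415) (nat_lit 397) (nat_lit 328)) (XT.nd (nat_lit 78) (nat_lit 0) (nat_lit 0) (XT.lf (nat_lit 0) (nat_lit 3950443394) (nat_lit 1368) (nat_lit 2998250731) (nat_lit 1444) (nat_lit 886239734) (nat_lit 637) (nat_lit 5) (nat_lit 655) (nat_lit 5) (nat_lit 656) (nat_lit 5) (nat_lit 416) (nat_lit 397) (nat_lit 327)) (XT.lf (nat_lit 76) (nat_lit 1456145105) (nat_lit 0) (nat_lit 4309327750) (nat_lit 1444) (nat_lit 2127014761) (nat_lit 638) (nat_lit 5) (nat_lit 637) (nat_lit 5) (nat_lit 656) (nat_lit 5) (nat_lit 417) (nat_lit 397) (nat_lit 326)))) (XT.nd (nat_lit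 78) (nat_lit 1368) (nat_lit 0) (XT.lf (nat_lit 76) (nat_lit 6013698266) (nat_lit 0) (nat_lit 1587956988) (nat_lit 1444) (nat_lit 349840145) (nat_lit 638) (nat_lit 5) (nat_lit 637) (nat_lit 5) (nat_lit 656) (nat_lit 5) (nat_lit 418) (nat_lit 397) (nat_lit 325)) (XT.nd (nat_lit 78) (nat_lit 0) (nat_lit 0) (XT.lf (nat_lit 0) (nat_lit 1434032026) (nat_lit 1444) (nat_lit 5370333262) (nat_lit 76) (nat_lit 1207321292) (nat_lit 619) (nat_lit 5) (nat_lit 638) (nat_lit 5) (nat_lit 620) (nat_lit 5) (nat_lit 419) (nat_lit 397) (nat_lit 324)) (XT.lf (nat_lit 0) (nat_lit 3238265814) (nat_lit 1444) (nat_lit 774463843) (nat_lit 76) (nat_lit 4060518308) (nat_lit 619) (nat_lit 5) (nat_lit 638) (nat_lit 5) (nat_lit 620) (nat_lit 5) (nat_lit 420) (nat_lit 397) (nat_lit 323))))) (XT.nd (nat_lit 234) (nat_lit 5016) (nat_lit 0) (XT.nd (nat_lit 78) (nat_lit 1596) (nat_lit 0) (XT.lf (nat_lit 0) (nat_lit 3938429853) (nat_lit 1444) (nat_lit 1132154857) (nat_lit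 1520) (nat_lit 3065615859) (nat_lit 600) (nat_lit 5) (nat_lit 619) (nat_lit 5) (nat_lit 620) (nat_lit 5) (nat_lit 421) (nat_lit 397) (nat_lit 322)) (XT.nd (nat_lit 78) (nat_lit 76) (nat_lit 0) (XT.lf (nat_lit 0) (nat_lit 523803683) (nat_lit 1520) (nat_lit 6403064748) (nat_lit 1596) (nat_lit 1273797425) (nat_lit 580) (nat_lit 5) (nat_lit 600) (nat_lit 5) (nat_lit 601) (nat_lit 5) (nat_lit 422) (nat_lit 397) (nat_lit 321)) (XT.lf (nat_lit 0) (nat_lit 549664610) (nat_lit 1596) (nat_lit 2907760329) (nat_lit 76) (nat_lit 4808862167) (nat_lit 579) (nat_lit 5) (nat_lit 600) (nat_lit 5) (nat_lit 580) (nat_lit 5) (nat_lit 423) (nat_lit 397) (nat_lit 320)))) (XT.nd (nat_lit 156) (nat_lit 3420) (nat_lit 0) (XT.nd (nat_lit 78) (nat_lit 0) (nat_lit 0) (XT.lf (nat_lit 0) (nat_lit 1947024911) (nat_lit 1596) (nat_lit 426032595) (nat_lit 1672) (nat_lit 5960384522) (nat_lit 558) (nat_lit 5) (nat_lit 579) (nat_lit 5) (nat_lit 580) (nat_lit 5) (nat_lit 424)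 (nat_lit 397) (nat_lit 319)) (XT.lf (nat_lit 0) (nat_lit 4238220085) (nat_lit 1672) (nat_lit 1507955736) (nat_lit 76) (nat_lit 2655658192) (nat_lit 558) (nat_lit 5) (nat_lit 580) (nat_lit 5) (nat_lit 559) (nat_lit 5) (nat_lit 425) (nat_lit 397) (nat_lit 318))) (XT.nd (nat_lit 78) (nat_lit 1748) (nat_lit 0) (XT.lf (nat_lit 0) (nat_lit 3484195721) (nat_lit 1672) (nat_lit 2650904526) (nat_lit 1748) (nat_lit 2336605304) (nat_lit 536) (nat_lit 5) (nat_lit 558) (nat_lit 5) (nat_lit 559) (nat_lit 5) (nat_lit 426) (nat_lit 397) (nat_lit 317)) (XT.lf (nat_lit 0) (nat_lit 23598723) (nat_lit 1748) (nat_lit 8029378887) (nat_lit 1824) (nat_lit 490335717) (nat_lit 513) (nat_lit 5) (nat_lit 536) (nat_lit 5) (nat_lit 537) (nat_lit 5) (nat_lit 427) (nat_lit 397) (nat_lit 316)))))) (XT.nd (nat_lit 468) (nat_lit 3572) (nat_lit 0) (XT.nd (nat_lit 234) (nat_lit 2128) (nat_lit 0) (XT.nd (nat_lit 78) (nat_lit 1824) (nat_lit 0) (XT.lf (nat_lit 0) (nat_lit 1395495105)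 (nat_lit 1824) (nat_lit 3467407805) (nat_lit 76) (nat_lit 3752851414) (nat_lit 512) (nat_lit 5) (nat_lit 536) (nat_lit 5) (nat_lit 513) (nat_lit 5) (nat_lit 428) (nat_lit 397) (nat_lit 315)) (XT.nd (nat_lit 78) (nat_lit 0) (nat_lit 0) (XT.lf (nat_lit 0) (nat_lit 1677800863) (nat_lit 1824) (nat_lit 1615827896) (nat_lit 1900) (nat_lit 5396327522) (nat_lit 488) (nat_lit 5) (nat_lit 512) (nat_lit 5) (nat_lit 513) (nat_lit 5) (nat_lit 429) (nat_lit 397) (nat_lit 314)) (XT.lf (nat_lit 0) (nat_lit 5234839111) (nat_lit 1900) (nat_lit 1830756873) (nat_lit 76) (nat_lit 1699944013) (nat_lit 488) (nat_lit 5) (nat_lit 513) (nat_lit 5) (nat_lit 489) (nat_lit 5) (nat_lit 430) (nat_lit 397) (nat_lit 313)))) (XT.nd (nat_lit 78) (nat_lit 988) (nat_lit 0) (XT.lf (nat_lit 0) (nat_lit 3462183392) (nat_lit 1140) (nat_lit 3757123854) (nat_lit 1216) (nat_lit 1623239469) (nat_lit 473) (nat_lit 5) (nat_lit 488) (nat_lit 5) (nat_lit 489) (nat_lit 5) (nat_lit 431)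 (nat_lit 397) (nat_lit 312)) (XT.nd (nat_lit 78) (nat_lit 912) (nat_lit 0) (XT.lf (nat_lit 0) (nat_lit 301966915) (nat_lit 1216) (nat_lit 64219032) (nat_lit 76) (nat_lit 8555189287) (nat_lit 472) (nat_lit 5) (nat_lit 488) (nat_lit 5) (nat_lit 473) (nat_lit 5) (nat_lit 432) (nat_lit 397) (nat_lit 311)) (XT.lf (nat_lit 0) (nat_lit 2271377912) (nat_lit 988) (nat_lit 3630071111) (nat_lit 76) (nat_lit 3099567993) (nat_lit 460) (nat_lit 5) (nat_lit 473) (nat_lit 5) (nat_lit 461) (nat_lit 5) (nat_lit 433) (nat_lit 397) (nat_lit 310))))) (XT.nd (nat_lit 234) (nat_lit 1824) (nat_lit 0) (XT.nd (nat_lit 78) (nat_lit 836) (nat_lit 0) (XT.lf (nat_lit 0) (nat_lit 1828137250) (nat_lit 912) (nat_lit 2439171402) (nat_lit 988) (nat_lit 4815200353) (nat_lit 448) (nat_lit 5) (nat_lit 460) (nat_lit 5) (nat_lit 461) (nat_lit 5) (nat_lit 434) (nat_lit 397) (nat_lit 309)) (XT.nd (nat_lit 78) (nat_lit 836) (nat_lit 0) (XT.lf (nat_lit 0) (nat_lit 6307545967) (nat_lit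 988) (nat_lit 1754905192) (nat_lit 76) (nat_lit 1103091914) (nat_lit 448) (nat_lit 5) (nat_lit 461) (nat_lit 5) (nat_lit 449) (nat_lit 5) (nat_lit 435) (nat_lit 397) (nat_lit 308)) (XT.lf (nat_lit 0) (nat_lit 3862362327) (nat_lit 836) (nat_lit 4540764679) (nat_lit 912) (nat_lit 846820039) (nat_lit 437) (nat_lit 5) (nat_lit 448) (nat_lit 5) (nat_lit 449) (nat_lit 5) (nat_lit 436) (nat_lit 397) (nat_lit 307)))) (XT.nd (nat_lit 156) (nat_lit 836) (nat_lit 0) (XT.nd (nat_lit 78) (nat_lit 0) (nat_lit 0) (XT.lf (nat_lit 0) (nat_lit 248452131) (nat_lit 912) (nat_lit 927282869) (nat_lit 988) (nat_lit 8160408622) (nat_lit 424) (nat_lit 5) (nat_lit 436) (nat_lit 5) (nat_lit 437) (nat_lit 5) (nat_lit 437) (nat_lit 397) (nat_lit 306)) (XT.lf (nat_lit 0) (nat_lit 3255544075) (nat_lit 988) (nat_lit 3404069009) (nat_lit 76) (nat_lit 2763776260) (nat_lit 424) (nat_lit 5) (nat_lit 437) (nat_lit 5) (nat_lit 425) (nat_lit 5) (nat_lit 438) (nat_lit 397)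 (nat_lit 305))) (XT.nd (nat_lit 78) (nat_lit 0) (nat_lit 0) (XT.lf (nat_lit 0) (nat_lit 2391776615) (nat_lit 836) (nat_lit 2981184320) (nat_lit 912) (nat_lit 4139498814) (nat_lit 413) (nat_lit 5) (nat_lit 424) (nat_lit 5) (nat_lit 425) (nat_lit 5) (nat_lit 439) (nat_lit 397) (nat_lit 304)) (XT.lf (nat_lit 0) (nat_lit 7535390209) (nat_lit 912) (nat_lit 1285328763) (nat_lit 76) (nat_lit 782539307) (nat_lit 413) (nat_lit 5) (nat_lit 425) (nat_lit 5) (nat_lit 414) (nat_lit 5) (nat_lit 440) (nat_lit 397) (nat_lit 303))))))))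
noncomputable def xc83 : XT := (XT.nd (nat_lit 2028) (nat_lit 3648) (nat_lit 0) (XT.nd (nat_lit 1014) (nat_lit 5548) (nat_lit 0) (XT.nd (nat_lit 468) (nat_lit 2888) (nat_lit 0) (XT.nd (nat_lit 234) (nat_lit 1596) (nat_lit 0) (XT.nd (nat_lit 78) (nat_lit 760) (nat_lit 0) (XT.lf (nat_lit 0) (nat_lit 70073041) (nat_lit 912) (nat_lit 5013904654) (nat_lit 76) (nat_lit 4611379806) (nat_lit 401) (nat_lit 5) (nat_lit 413) (nat_lit 5) (nat_lit 402) (nat_lit 5) (nat_lit 441) (nat_lit 397) (nat_lit 302)) (XT.nd (nat_lit 78) (nat_lit 0) (nat_lit 0) (XT.lf (nat_lit 0) (nat_lit 968188380) (nat_lit 760) (nat_lit 1245205927) (nat_lit 836) (nat_lit 7575824828) (nat_lit 391) (nat_lit 5) (nat_lit 401) (nat_lit 5) (nat_lit 402) (nat_lit 5) (nat_lit 442) (nat_lit 397) (nat_lit 301)) (XT.lf (nat_lit 0) (nat_lit 4426402900) (nat_lit 836) (nat_lit 2790881073) (nat_lit 76) (nat_lit 2667137609) (nat_lit 391) (nat_lit 5) (nat_lit 402) (nat_lit 5) (nat_lit 392)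 (nat_lit 5) (nat_lit 443) (nat_lit 397) (nat_lit 300)))) (XT.nd (nat_lit 78) (nat_lit 836) (nat_lit 0) (XT.lf (nat_lit 0) (nat_lit 3369420051) (nat_lit 760) (nat_lit 3320467181) (nat_lit 836) (nat_lit 3291516536) (nat_lit 381) (nat_lit 5) (nat_lit 391) (nat_lit 5) (nat_lit 392) (nat_lit 5) (nat_lit 444) (nat_lit 397) (nat_lit 299)) (XT.nd (nat_lit 78) (nat_lit 836) (nat_lit 0) (XT.lf (nat_lit 0) (nat_lit 8998115834) (nat_lit 836) (nat_lit 420242049) (nat_lit 76) (nat_lit 661978223) (nat_lit 381) (nat_lit 5) (nat_lit 392) (nat_lit 5) (nat_lit 382) (nat_lit 5) (nat_lit 445) (nat_lit 397) (nat_lit 298)) (XT.lf (nat_lit 0) (nat_lit 1193443269) (nat_lit 836) (nat_lit 4263456264) (nat_lit 76) (nat_lit 4723444612) (nat_lit 370) (nat_lit 5) (nat_lit 381) (nat_lit 5) (nat_lit 371) (nat_lit 5) (nat_lit 446) (nat_lit 397) (nat_lit 297))))) (XT.nd (nat_lit 234) (nat_lit 1444) (nat_lit 0) (XT.nd (nat_lit 78) (nat_lit 684) (nat_lit 0) (XT.lf (nat_lit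 0) (nat_lit 2098205459) (nat_lit 760) (nat_lit 1395370337) (nat_lit 836) (nat_lit 6788764545) (nat_lit 360) (nat_lit 5) (nat_lit 370) (nat_lit 5) (nat_lit 371) (nat_lit 5) (nat_lit 447) (nat_lit 397) (nat_lit 296)) (XT.nd (nat_lit 78) (nat_lit 684) (nat_lit 0) (XT.lf (nat_lit 0) (nat_lit 5863579904) (nat_lit 836) (nat_lit 1785487174) (nat_lit 76) (nat_lit 2736832006) (nat_lit 360) (nat_lit 5) (nat_lit 371) (nat_lit 5) (nat_lit 361) (nat_lit 5) (nat_lit 448) (nat_lit 397) (nat_lit 295)) (XT.lf (nat_lit 0) (nat_lit 4768403391) (nat_lit 684) (nat_lit 3530459191) (nat_lit 760) (nat_lit 2192308850) (nat_lit 351) (nat_lit 5) (nat_lit 360) (nat_lit 5) (nat_lit 361) (nat_lit 5) (nat_lit 449) (nat_lit 397) (nat_lit 294)))) (XT.nd (nat_lit 156) (nat_lit 684) (nat_lit 0) (XT.nd (nat_lit 78) (nat_lit 0) (nat_lit 0) (XT.lf (nat_lit 0) (nat_lit 181804105) (nat_lit 760) (nat_lit 9739910703) (nat_lit 76) (nat_lit 676812095) (nat_lit 341) (nat_lit 5)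 (nat_lit 351) (nat_lit 5) (nat_lit 342) (nat_lit 5) (nat_lit 450) (nat_lit 397) (nat_lit 293)) (XT.lf (nat_lit 0) (nat_lit 2614151438) (nat_lit 760) (nat_lit 3122604895) (nat_lit 76) (nat_lit 4970181186) (nat_lit 341) (nat_lit 5) (nat_lit 351) (nat_lit 5) (nat_lit 342) (nat_lit 5) (nat_lit 451) (nat_lit 397) (nat_lit 292))) (XT.nd (nat_lit 78) (nat_lit 0) (nat_lit 0) (XT.lf (nat_lit 0) (nat_lit 3649030432) (nat_lit 684) (nat_lit 1448279818) (nat_lit 760) (nat_lit 5720162804) (nat_lit 332) (nat_lit 5) (nat_lit 341) (nat_lit 5) (nat_lit 342) (nat_lit 5) (nat_lit 452) (nat_lit 397) (nat_lit 291)) (XT.lf (nat_lit 0) (nat_lit 7648921696) (nat_lit 760) (nat_lit 376610832) (nat_lit 76) (nat_lit 2904310983) (nat_lit 332) (nat_lit 5) (nat_lit 342) (nat_lit 5) (nat_lit 333) (nat_lit 5) (nat_lit 453) (nat_lit 397) (nat_lit 290)))))) (XT.nd (nat_lit 468) (nat_lit 2888) (nat_lit 0) (XT.nd (nat_lit 234) (nat_lit 1292) (nat_lit 0) (XT.nd (nat_lit 78)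 (nat_lit 684) (nat_lit 0) (XT.lf (nat_lit 0) (nat_lit 6602469965) (nat_lit 684) (nat_lit 3680670993) (nat_lit 760) (nat_lit 760688909) (nat_lit 323) (nat_lit 5) (nat_lit 332) (nat_lit 5) (nat_lit 333) (nat_lit 5) (nat_lit 454) (nat_lit 397) (nat_lit 289)) (XT.nd (nat_lit 78) (nat_lit 0) (nat_lit 0) (XT.lf (nat_lit 0) (nat_lit 1789665129) (nat_lit 684) (nat_lit 8602609616) (nat_lit 76) (nat_lit 767517091) (nat_lit 314) (nat_lit 5) (nat_lit 323) (nat_lit 5) (nat_lit 315) (nat_lit 5) (nat_lit 455) (nat_lit 397) (nat_lit 288)) (XT.lf (nat_lit 0) (nat_lit 4414660351) (nat_lit 684) (nat_lit 1577094232) (nat_lit 76) (nat_lit 5285541504) (nat_lit 314) (nat_lit 5) (nat_lit 323) (nat_lit 5) (nat_lit 315) (nat_lit 5) (nat_lit 456) (nat_lit 397) (nat_lit 287)))) (XT.nd (nat_lit 78) (nat_lit 684) (nat_lit 0) (XT.lf (nat_lit 0) (nat_lit 5637469953) (nat_lit 608) (nat_lit 1471124643) (nat_lit 684) (nat_lit 4288227044) (nat_lit 306) (nat_lit 5) (nat_lit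 314) (nat_lit 5) (nat_lit 315) (nat_lit 5) (nat_lit 457) (nat_lit 397) (nat_lit 286)) (XT.nd (nat_lit 78) (nat_lit 76) (nat_lit 0) (XT.lf (nat_lit 0) (nat_lit 1472436994) (nat_lit 608) (nat_lit 8404604275) (nat_lit 684) (nat_lit 1641283761) (nat_lit 298) (nat_lit 5) (nat_lit 306) (nat_lit 5) (nat_lit 307) (nat_lit 5) (nat_lit 458) (nat_lit 397) (nat_lit 285)) (XT.lf (nat_lit 0) (nat_lit 1073491189) (nat_lit 684) (nat_lit 2757116911) (nat_lit 76) (nat_lit 7810937395) (nat_lit 297) (nat_lit 5) (nat_lit 306) (nat_lit 5) (nat_lit 298) (nat_lit 5) (nat_lit 459) (nat_lit 397) (nat_lit 284))))) (XT.nd (nat_lit 234) (nat_lit 1748) (nat_lit 0) (XT.nd (nat_lit 78) (nat_lit 532) (nat_lit 0) (XT.lf (nat_lit 0) (nat_lit 3837317760) (nat_lit 684) (nat_lit 7069394951) (nat_lit 76) (nat_lit 859966022) (nat_lit 289) (nat_lit 5) (nat_lit 298) (nat_lit 5) (nat_lit 290) (nat_lit 5) (nat_lit 460) (nat_lit 397) (nat_lit 283)) (XT.nd (nat_lit 78) (nat_lit 0)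 (nat_lit 0) (XT.lf (nat_lit 0) (nat_lit 398568712) (nat_lit 532) (nat_lit 6285133888) (nat_lit 608) (nat_lit 5210066401) (nat_lit 282) (nat_lit 5) (nat_lit 289) (nat_lit 5) (nat_lit 290) (nat_lit 5) (nat_lit 461) (nat_lit 397) (nat_lit 282)) (XT.lf (nat_lit 0) (nat_lit 8086516934) (nat_lit 532) (nat_lit 1528853804) (nat_lit 608) (nat_lit 2407463226) (nat_lit 282) (nat_lit 5) (nat_lit 289) (nat_lit 5) (nat_lit 290) (nat_lit 5) (nat_lit 462) (nat_lit 397) (nat_lit 281)))) (XT.nd (nat_lit 156) (nat_lit 1064) (nat_lit 0) (XT.nd (nat_lit 78) (nat_lit 0) (nat_lit 0) (XT.lf (nat_lit 0) (nat_lit 472799912) (nat_lit 684) (nat_lit 8380383916) (nat_lit 76) (nat_lit 3300687300) (nat_lit 273) (nat_lit 5) (nat_lit 282) (nat_lit 5) (nat_lit 274) (nat_lit 5) (nat_lit 463) (nat_lit 397) (nat_lit 280)) (XT.lf (nat_lit 0) (nat_lit 3396511842) (nat_lit 684) (nat_lit 647525246) (nat_lit 76) (nat_lit 8242812092) (nat_lit 273) (nat_lit 5) (nat_lit 282) (nat_lit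 5) (nat_lit 274) (nat_lit 5) (nat_lit 464) (nat_lit 397) (nat_lit 279))) (XT.nd (nat_lit 78) (nat_lit 532) (nat_lit 0) (XT.lf (nat_lit 0) (nat_lit 6413733545) (nat_lit 608) (nat_lit 5116523744) (nat_lit 76) (nat_lit 891528793) (nat_lit 266) (nat_lit 5) (nat_lit 274) (nat_lit 5) (nat_lit 267) (nat_lit 5) (nat_lit 465) (nat_lit 397) (nat_lit 278)) (XT.lf (nat_lit 0) (nat_lit 2852354424) (nat_lit 532) (nat_lit 6670479656) (nat_lit 608) (nat_lit 3035956955) (nat_lit 259) (nat_lit 5) (nat_lit 266) (nat_lit 5) (nat_lit 267) (nat_lit 5) (nat_lit 466) (nat_lit 397) (nat_lit 277))))))) (XT.nd (nat_lit 54132) (nat_lit 0) (nat_lit 33516) (XT.nd (nat_lit 468) (nat_lit 1444) (nat_lit 0) (XT.nd (nat_lit 234) (nat_lit 1064) (nat_lit 0) (XT.nd (nat_lit 78) (nat_lit 1064) (nat_lit 0) (XT.lf (nat_lit 0) (nat_lit 12136706) (nat_lit 608) (nat_lit 1672951519) (nat_lit 76) (nat_lit 11013118471) (nat_lit 258) (nat_lit 5) (nat_lit 266) (nat_lit 5) (nat_lit 259)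 (nat_lit 5) (nat_lit 467) (nat_lit 397) (nat_lit 276)) (XT.nd (nat_lit 78) (nat_lit 532) (nat_lit 0) (XT.lf (nat_lit 0) (nat_lit 3127926340) (nat_lit 608) (nat_lit 6299169731) (nat_lit 76) (nat_lit 3411965535) (nat_lit 251) (nat_lit 5) (nat_lit 259) (nat_lit 5) (nat_lit 252) (nat_lit 5) (nat_lit 468) (nat_lit 397) (nat_lit 275)) (XT.lf (nat_lit 0) (nat_lit 1946932593) (nat_lit 532) (nat_lit 4376637128) (nat_lit 608) (nat_lit 6658813134) (nat_lit 244) (nat_lit 5) (nat_lit 251) (nat_lit 5) (nat_lit 252) (nat_lit 5) (nat_lit 469) (nat_lit 397) (nat_lit 274)))) (XT.nd (nat_lit 78) (nat_lit 1064) (nat_lit 0) (XT.lf (nat_lit 0) (nat_lit 9613285076) (nat_lit 608) (nat_lit 2714360942) (nat_lit 76) (nat_lit 800321330) (nat_lit 244) (nat_lit 5) (nat_lit 252) (nat_lit 5) (nat_lit 245) (nat_lit 5) (nat_lit 470) (nat_lit 397) (nat_lit 273)) (XT.nd (nat_lit 78) (nat_lit 608) (nat_lit 0) (XT.lf (nat_lit 0) (nat_lit 5795996010) (nat_lit 456) (nat_lit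 7222333847) (nat_lit 532) (nat_lit 257142970) (nat_lit 238) (nat_lit 5) (nat_lit 244) (nat_lit 5) (nat_lit 245) (nat_lit 5) (nat_lit 471) (nat_lit 397) (nat_lit 272)) (XT.lf (nat_lit 0) (nat_lit 1057381085) (nat_lit 532) (nat_lit 1976147776) (nat_lit 608) (nat_lit 10391837744) (nat_lit 230) (nat_lit 5) (nat_lit 237) (nat_lit 5) (nat_lit 238) (nat_lit 5) (nat_lit 472) (nat_lit 397) (nat_lit 271))))) (XT.nd (nat_lit 234) (nat_lit 532) (nat_lit 0) (XT.nd (nat_lit 78) (nat_lit 912) (nat_lit 0) (XT.lf (nat_lit 0) (nat_lit 6442126686) (nat_lit 608) (nat_lit 3759222216) (nat_lit 76) (nat_lit 3375764250) (nat_lit 230) (nat_lit 5) (nat_lit 238) (nat_lit 5) (nat_lit 231) (nat_lit 5) (nat_lit 473) (nat_lit 397) (nat_lit 270)) (XT.nd (nat_lit 78) (nat_lit 456) (nat_lit 0) (XT.lf (nat_lit 0) (nat_lit 5050969355) (nat_lit 456) (nat_lit 4897255848) (nat_lit 532) (nat_lit 3783082851) (nat_lit 224) (nat_lit 5) (nat_lit 230) (nat_lit 5) (nat_lit 231) (nat_lit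 5) (nat_lit 474) (nat_lit 397) (nat_lit 269)) (XT.lf (nat_lit 0) (nat_lit 175010841) (nat_lit 456) (nat_lit 13362864752) (nat_lit 532) (nat_lit 350442663) (nat_lit 218) (nat_lit 5) (nat_lit 224) (nat_lit 5) (nat_lit 225) (nat_lit 5) (nat_lit 475) (nat_lit 397) (nat_lit 268)))) (XT.nd (nat_lit 53274) (nat_lit 0) (nat_lit 36936) (XT.nd (nat_lit 78) (nat_lit 456) (nat_lit 0) (XT.lf (nat_lit 0) (nat_lit 3184223386) (nat_lit 532) (nat_lit 4799533694) (nat_lit 76) (nat_lit 6062808494) (nat_lit 217) (nat_lit 5) (nat_lit 224) (nat_lit 5) (nat_lit 218) (nat_lit 5) (nat_lit 476) (nat_lit 397) (nat_lit 267)) (XT.lf (nat_lit 0) (nat_lit 4323281236) (nat_lit 456) (nat_lit 2473633547) (nat_lit 532) (nat_lit 7410776236) (nat_lit 211) (nat_lit 5) (nat_lit 217) (nat_lit 5) (nat_lit 218) (nat_lit 5) (nat_lit 477) (nat_lit 397) (nat_lit 266))) (XT.nd (nat_lit 78) (nat_lit 0) (nat_lit 0) (XT.lf (nat_lit 0) (nat_lit 1414615098) (nat_lit 1140) (nat_lit 1056792903)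 (nat_lit 1140) (nat_lit 1056792903) (nat_lit 697) (nat_lit 3) (nat_lit 712) (nat_lit 3) (nat_lit 712) (nat_lit 5) (nat_lit 398) (nat_lit 398) (nat_lit 344)) (XT.lf (nat_lit 76) (nat_lit 1433414588) (nat_lit 0) (nat_lit 3211759398) (nat_lit 1140) (nat_lit 2446038810) (nat_lit 698) (nat_lit 5) (nat_lit 697) (nat_lit 3) (nat_lit 712) (nat_lit 5) (nat_lit 399) (nat_lit 398) (nat_lit 343)))))) (XT.nd (nat_lit 468) (nat_lit 1216) (nat_lit 0) (XT.nd (nat_lit 234) (nat_lit 1140) (nat_lit 0) (XT.nd (nat_lit 78) (nat_lit 1064) (nat_lit 0) (XT.lf (nat_lit 76) (nat_lit 5055899270) (nat_lit 0) (nat_lit 1408917519) (nat_lit 1140) (nat_lit 662555612) (nat_lit 698) (nat_lit 5) (nat_lit 697) (nat_lit 3) (nat_lit 712) (nat_lit 5) (nat_lit 400) (nat_lit 398) (nat_lit 342)) (XT.nd (nat_lit 78) (nat_lit 0) (nat_lit 0) (XT.lf (nat_lit 0) (nat_lit 1108519716) (nat_lit 1140) (nat_lit 5592391158) (nat_lit 1216) (nat_lit 463852308) (nat_lit 683) (nat_lit 5) (nat_lit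 698) (nat_lit 5) (nat_lit 699) (nat_lit 5) (nat_lit 401) (nat_lit 398) (nat_lit 341)) (XT.lf (nat_lit 0) (nat_lit 2884175147) (nat_lit 1140) (nat_lit 1924395753) (nat_lit 1216) (nat_lit 2394682684) (nat_lit 683) (nat_lit 5) (nat_lit 698) (nat_lit 5) (nat_lit 699) (nat_lit 5) (nat_lit 402) (nat_lit 398) (nat_lit 340)))) (XT.nd (nat_lit 78) (nat_lit 1140) (nat_lit 0) (XT.lf (nat_lit 76) (nat_lit 1816136345) (nat_lit 0) (nat_lit 2846585775) (nat_lit 1216) (nat_lit 2580444105) (nat_lit 684) (nat_lit 5) (nat_lit 683) (nat_lit 5) (nat_lit 699) (nat_lit 5) (nat_lit 403) (nat_lit 398) (nat_lit 339)) (XT.nd (nat_lit 78) (nat_lit 1140) (nat_lit 0) (XT.lf (nat_lit 76) (nat_lit 5633084727) (nat_lit 0) (nat_lit 812967792) (nat_lit 1216) (nat_lit 838440350) (nat_lit 684) (nat_lit 5) (nat_lit 683) (nat_lit 5) (nat_lit 699) (nat_lit 5) (nat_lit 404) (nat_lit 398) (nat_lit 338)) (XT.lf (nat_lit 0) (nat_lit 905682874) (nat_lit 1216) (nat_lit 5137660258)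 (nat_lit 1292) (nat_lit 1283589326) (nat_lit 668) (nat_lit 5) (nat_lit 684) (nat_lit 5) (nat_lit 685) (nat_lit 5) (nat_lit 405) (nat_lit 398) (nat_lit 337))))) (XT.nd (nat_lit 234) (nat_lit 1216) (nat_lit 0) (XT.nd (nat_lit 78) (nat_lit 0) (nat_lit 0) (XT.lf (nat_lit 0) (nat_lit 2647687580) (nat_lit 1216) (nat_lit 1277235055) (nat_lit 1292) (nat_lit 3445702846) (nat_lit 668) (nat_lit 5) (nat_lit 684) (nat_lit 5) (nat_lit 685) (nat_lit 5) (nat_lit 406) (nat_lit 398) (nat_lit 336)) (XT.nd (nat_lit 78) (nat_lit 0) (nat_lit 76) (XT.lf (nat_lit 76) (nat_lit 2670543496) (nat_lit 0) (nat_lit 1729833842) (nat_lit 1292) (nat_lit 3015298128) (nat_lit 669) (nat_lit 5) (nat_lit 668) (nat_lit 5) (nat_lit 685) (nat_lit 5) (nat_lit 407) (nat_lit 398) (nat_lit 335)) (XT.lf (nat_lit 0) (nat_lit 6159318199) (nat_lit 1216) (nat_lit 775864340) (nat_lit 1292) (nat_lit 527019964) (nat_lit 669) (nat_lit 5) (nat_lit 685) (nat_lit 5) (nat_lit 686) (nat_lit 5)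 (nat_lit 408) (nat_lit 398) (nat_lit 334)))) (XT.nd (nat_lit 156) (nat_lit 0) (nat_lit 76) (XT.nd (nat_lit 78) (nat_lit 0) (nat_lit 0) (XT.lf (nat_lit 0) (nat_lit 430719168) (nat_lit 1292) (nat_lit 4233432363) (nat_lit 1368) (nat_lit 2845595693) (nat_lit 652) (nat_lit 5) (nat_lit 669) (nat_lit 5) (nat_lit 670) (nat_lit 5) (nat_lit 409) (nat_lit 398) (nat_lit 333)) (XT.lf (nat_lit 0) (nat_lit 2147229522) (nat_lit 1292) (nat_lit 172242404) (nat_lit 1368) (nat_lit 5239285064) (nat_lit 652) (nat_lit 5) (nat_lit 669) (nat_lit 5) (nat_lit 670) (nat_lit 5) (nat_lit 410) (nat_lit 398) (nat_lit 332))) (XT.nd (nat_lit 78) (nat_lit 0) (nat_lit 0) (XT.lf (nat_lit 0) (nat_lit 3885954039) (nat_lit 1292) (nat_lit 3612128475) (nat_lit 1368) (nat_lit 110906758) (nat_lit 653) (nat_lit 5) (nat_lit 670) (nat_lit 5) (nat_lit 671) (nat_lit 5) (nat_lit 411) (nat_lit 398) (nat_lit 331)) (XT.lf (nat_lit 76) (nat_lit 557742258) (nat_lit 0) (nat_lit 5083741842)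 (nat_lit 1368) (nat_lit 2019101478) (nat_lit 654) (nat_lit 5) (nat_lit 653) (nat_lit 5) (nat_lit 671) (nat_lit 5) (nat_lit 412) (nat_lit 398) (nat_lit 330))))))))
noncomputable def xc84 : XT := (XT.nd (nat_lit 2028) (nat_lit 11476) (nat_lit 0) (XT.nd (nat_lit 1014) (nat_lit 10184) (nat_lit 0) (XT.nd (nat_lit 468) (nat_lit 4560) (nat_lit 0) (XT.nd (nat_lit 234) (nat_lit 1292) (nat_lit 0) (XT.nd (nat_lit 78) (nat_lit 1368) (nat_lit 0) (XT.lf (nat_lit 76) (nat_lit 4834460710) (nat_lit 0) (nat_lit 2584370618) (nat_lit 1368) (nat_lit 294648351) (nat_lit 654) (nat_lit 5) (nat_lit 653) (nat_lit 5) (nat_lit 671) (nat_lit 5) (nat_lit 413) (nat_lit 398) (nat_lit 329)) (XT.nd (nat_lit 78) (nat_lit 0) (nat_lit 76) (XT.lf (nat_lit 76) (nat_lit 1412798770) (nat_lit 0) (nat_lit 4422947) (nat_lit 1444) (nat_lit 6350577154) (nat_lit 636) (nat_lit 5) (nat_lit 635) (nat_lit 5) (nat_lit 654) (nat_lit 5) (nat_lit 414) (nat_lit 398) (nat_lit 328)) (XT.lf (nat_lit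 0) (nat_lit 3159485890) (nat_lit 1368) (nat_lit 2038614772) (nat_lit 1444) (nat_lit 2625062793) (nat_lit 636) (nat_lit 5) (nat_lit 654) (nat_lit 5) (nat_lit 655) (nat_lit 5) (nat_lit 415) (nat_lit 398) (nat_lit 327)))) (XT.nd (nat_lit 78) (nat_lit 1368) (nat_lit 0) (XT.lf (nat_lit 76) (nat_lit 2369519018) (nat_lit 0) (nat_lit 2546797603) (nat_lit 1444) (nat_lit 2963724284) (nat_lit 637) (nat_lit 5) (nat_lit 636) (nat_lit 5) (nat_lit 655) (nat_lit 5) (nat_lit 416) (nat_lit 398) (nat_lit 326)) (XT.nd (nat_lit 78) (nat_lit 1444) (nat_lit 0) (XT.lf (nat_lit 0) (nat_lit 6687982578) (nat_lit 1368) (nat_lit 1071670415) (nat_lit 1444) (nat_lit 178808937) (nat_lit 637) (nat_lit 5) (nat_lit 655) (nat_lit 5) (nat_lit 656) (nat_lit 5) (nat_lit 417) (nat_lit 398) (nat_lit 325)) (XT.lf (nat_lit 0) (nat_lit 495460230) (nat_lit 1444) (nat_lit 4542468708) (nat_lit 1520) (nat_lit 2959958930) (nat_lit 618) (nat_lit 5) (nat_lit 637) (nat_lit 5) (nat_lit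 638) (nat_lit 5) (nat_lit 418) (nat_lit 398) (nat_lit 324))))) (XT.nd (nat_lit 234) (nat_lit 3192) (nat_lit 0) (XT.nd (nat_lit 78) (nat_lit 1368) (nat_lit 0) (XT.lf (nat_lit 0) (nat_lit 2232706936) (nat_lit 1444) (nat_lit 5104427) (nat_lit 1520) (nat_lit 5821063002) (nat_lit 618) (nat_lit 5) (nat_lit 637) (nat_lit 5) (nat_lit 638) (nat_lit 5) (nat_lit 419) (nat_lit 398) (nat_lit 323)) (XT.nd (nat_lit 78) (nat_lit 1444) (nat_lit 0) (XT.lf (nat_lit 0) (nat_lit 4005758522) (nat_lit 1444) (nat_lit 3466790050) (nat_lit 76) (nat_lit 648510823) (nat_lit 619) (nat_lit 5) (nat_lit 638) (nat_lit 5) (nat_lit 620) (nat_lit 5) (nat_lit 420) (nat_lit 398) (nat_lit 322)) (XT.lf (nat_lit 0) (nat_lit 1197268761) (nat_lit 1444) (nat_lit 4606718042) (nat_lit 1520) (nat_lit 2380707008) (nat_lit 600) (nat_lit 5) (nat_lit 619) (nat_lit 5) (nat_lit 620) (nat_lit 5) (nat_lit 421) (nat_lit 398) (nat_lit 321)))) (XT.nd (nat_lit 156) (nat_lit 1596) (nat_lit 0)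 (XT.nd (nat_lit 78) (nat_lit 1596) (nat_lit 0) (XT.lf (nat_lit 0) (nat_lit 5975747414) (nat_lit 1444) (nat_lit 1653261474) (nat_lit 1520) (nat_lit 620775443) (nat_lit 600) (nat_lit 5) (nat_lit 619) (nat_lit 5) (nat_lit 620) (nat_lit 5) (nat_lit 422) (nat_lit 398) (nat_lit 320)) (XT.lf (nat_lit 0) (nat_lit 1152417504) (nat_lit 1596) (nat_lit 5791912651) (nat_lit 76) (nat_lit 1371824719) (nat_lit 579) (nat_lit 5) (nat_lit 600) (nat_lit 5) (nat_lit 580) (nat_lit 5) (nat_lit 423) (nat_lit 398) (nat_lit 319))) (XT.nd (nat_lit 78) (nat_lit 1596) (nat_lit 0) (XT.lf (nat_lit 0) (nat_lit 2947570329) (nat_lit 1596) (nat_lit 975669435) (nat_lit 76) (nat_lit 4460634835) (nat_lit 579) (nat_lit 5) (nat_lit 600) (nat_lit 5) (nat_lit 580) (nat_lit 5) (nat_lit 424) (nat_lit 398) (nat_lit 318)) (XT.lf (nat_lit 0) (nat_lit 3963117785) (nat_lit 1596) (nat_lit 810348078) (nat_lit 1672) (nat_lit 3679586061) (nat_lit 558) (nat_lit 5) (nat_lit 579) (nat_lit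 5) (nat_lit 580) (nat_lit 5) (nat_lit 425) (nat_lit 398) (nat_lit 317)))))) (XT.nd (nat_lit 468) (nat_lit 3724) (nat_lit 0) (XT.nd (nat_lit 234) (nat_lit 2964) (nat_lit 0) (XT.nd (nat_lit 78) (nat_lit 1824) (nat_lit 0) (XT.lf (nat_lit 0) (nat_lit 454762409) (nat_lit 1672) (nat_lit 6175593616) (nat_lit 1748) (nat_lit 1893367237) (nat_lit 536) (nat_lit 5) (nat_lit 558) (nat_lit 5) (nat_lit 559) (nat_lit 5) (nat_lit 426) (nat_lit 398) (nat_lit 316)) (XT.nd (nat_lit 78) (nat_lit 1824) (nat_lit 0) (XT.lf (nat_lit 0) (nat_lit 5527720809) (nat_lit 1672) (nat_lit 3002131163) (nat_lit 1748) (nat_lit 65846695) (nat_lit 536) (nat_lit 5) (nat_lit 558) (nat_lit 5) (nat_lit 559) (nat_lit 5) (nat_lit 427) (nat_lit 398) (nat_lit 315)) (XT.lf (nat_lit 0) (nat_lit 1759880721) (nat_lit 1824) (nat_lit 6648993447) (nat_lit 76) (nat_lit 260301097) (nat_lit 512) (nat_lit 5) (nat_lit 536) (nat_lit 5) (nat_lit 513) (nat_lit 5) (nat_lit 428) (nat_lit 398) (nat_lit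 314)))) (XT.nd (nat_lit 78) (nat_lit 2964) (nat_lit 0) (XT.lf (nat_lit 0) (nat_lit 3632683140) (nat_lit 1824) (nat_lit 1538845967) (nat_lit 76) (nat_lit 3572354740) (nat_lit 512) (nat_lit 5) (nat_lit 536) (nat_lit 5) (nat_lit 513) (nat_lit 5) (nat_lit 429) (nat_lit 398) (nat_lit 313)) (XT.nd (nat_lit 78) (nat_lit 1140) (nat_lit 0) (XT.lf (nat_lit 0) (nat_lit 3696122729) (nat_lit 1824) (nat_lit 1842223975) (nat_lit 1900) (nat_lit 3281831795) (nat_lit 488) (nat_lit 5) (nat_lit 512) (nat_lit 5) (nat_lit 513) (nat_lit 5) (nat_lit 430) (nat_lit 398) (nat_lit 312)) (XT.lf (nat_lit 0) (nat_lit 124061796) (nat_lit 1140) (nat_lit 7351167115) (nat_lit 1216) (nat_lit 1422908025) (nat_lit 473) (nat_lit 5) (nat_lit 488) (nat_lit 5) (nat_lit 489) (nat_lit 5) (nat_lit 431) (nat_lit 398) (nat_lit 311))))) (XT.nd (nat_lit 234) (nat_lit 2736) (nat_lit 0) (XT.nd (nat_lit 78) (nat_lit 912) (nat_lit 0) (XT.lf (nat_lit 0) (nat_lit 485817837) (nat_lit 1216)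 (nat_lit 3472333657) (nat_lit 76) (nat_lit 5019065010) (nat_lit 472) (nat_lit 5) (nat_lit 488) (nat_lit 5) (nat_lit 473) (nat_lit 5) (nat_lit 432) (nat_lit 398) (nat_lit 310)) (XT.nd (nat_lit 78) (nat_lit 0) (nat_lit 0) (XT.lf (nat_lit 0) (nat_lit 1925323038) (nat_lit 912) (nat_lit 473426078) (nat_lit 988) (nat_lit 6659238764) (nat_lit 460) (nat_lit 5) (nat_lit 472) (nat_lit 5) (nat_lit 473) (nat_lit 5) (nat_lit 433) (nat_lit 398) (nat_lit 309)) (XT.lf (nat_lit 0) (nat_lit 4366342665) (nat_lit 988) (nat_lit 1708391844) (nat_lit 76) (nat_lit 3065312105) (nat_lit 460) (nat_lit 5) (nat_lit 473) (nat_lit 5) (nat_lit 461) (nat_lit 5) (nat_lit 434) (nat_lit 398) (nat_lit 308)))) (XT.nd (nat_lit 156) (nat_lit 988) (nat_lit 0) (XT.nd (nat_lit 78) (nat_lit 836) (nat_lit 0) (XT.lf (nat_lit 0) (nat_lit 3845860418) (nat_lit 912) (nat_lit 2529007606) (nat_lit 988) (nat_lit 2848846898) (nat_lit 448) (nat_lit 5) (nat_lit 460) (nat_lit 5) (nat_lit 461)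 (nat_lit 5) (nat_lit 435) (nat_lit 398) (nat_lit 307)) (XT.lf (nat_lit 0) (nat_lit 194777945) (nat_lit 836) (nat_lit 8222484213) (nat_lit 912) (nat_lit 891920473) (nat_lit 437) (nat_lit 5) (nat_lit 448) (nat_lit 5) (nat_lit 449) (nat_lit 5) (nat_lit 436) (nat_lit 398) (nat_lit 306))) (XT.nd (nat_lit 78) (nat_lit 912) (nat_lit 0) (XT.lf (nat_lit 0) (nat_lit 1116744225) (nat_lit 912) (nat_lit 3494373340) (nat_lit 76) (nat_lit 4784557136) (nat_lit 436) (nat_lit 5) (nat_lit 448) (nat_lit 5) (nat_lit 437) (nat_lit 5) (nat_lit 437) (nat_lit 398) (nat_lit 305)) (XT.lf (nat_lit 0) (nat_lit 2235648831) (nat_lit 912) (nat_lit 907031927) (nat_lit 988) (nat_lit 6341317115) (nat_lit 424) (nat_lit 5) (nat_lit 436) (nat_lit 5) (nat_lit 437) (nat_lit 5) (nat_lit 438) (nat_lit 398) (nat_lit 304))))))) (XT.nd (nat_lit 1014) (nat_lit 5168) (nat_lit 0) (XT.nd (nat_lit 468) (nat_lit 3800) (nat_lit 0) (XT.nd (nat_lit 234) (nat_lit 836) (nat_lit 0) (XT.nd (nat_lit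 78) (nat_lit 1672) (nat_lit 0) (XT.lf (nat_lit 0) (nat_lit 5226226478) (nat_lit 988) (nat_lit 1490930403) (nat_lit 76) (nat_lit 2856588819) (nat_lit 424) (nat_lit 5) (nat_lit 437) (nat_lit 5) (nat_lit 425) (nat_lit 5) (nat_lit 439) (nat_lit 398) (nat_lit 303)) (XT.nd (nat_lit 78) (nat_lit 836) (nat_lit 0) (XT.lf (nat_lit 0) (nat_lit 4407797791) (nat_lit 836) (nat_lit 2953608503) (nat_lit 912) (nat_lit 2303682927) (nat_lit 413) (nat_lit 5) (nat_lit 424) (nat_lit 5) (nat_lit 425) (nat_lit 5) (nat_lit 440) (nat_lit 398) (nat_lit 302)) (XT.lf (nat_lit 0) (nat_lit 663588537) (nat_lit 836) (nat_lit 8871477048) (nat_lit 912) (nat_lit 223278508) (nat_lit 402) (nat_lit 5) (nat_lit 413) (nat_lit 5) (nat_lit 414) (nat_lit 5) (nat_lit 441) (nat_lit 398) (nat_lit 301)))) (XT.nd (nat_lit 78) (nat_lit 760) (nat_lit 0) (XT.lf (nat_lit 0) (nat_lit 1904704643) (nat_lit 912) (nat_lit 3136832979) (nat_lit 76) (nat_lit 4811062426) (nat_lit 401) (nat_lit 5)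 (nat_lit 413) (nat_lit 5) (nat_lit 402) (nat_lit 5) (nat_lit 442) (nat_lit 398) (nat_lit 300)) (XT.nd (nat_lit 78) (nat_lit 0) (nat_lit 0) (XT.lf (nat_lit 0) (nat_lit 2951893036) (nat_lit 760) (nat_lit 1115807413) (nat_lit 836) (nat_lit 5881102303) (nat_lit 391) (nat_lit 5) (nat_lit 401) (nat_lit 5) (nat_lit 402) (nat_lit 5) (nat_lit 443) (nat_lit 398) (nat_lit 299)) (XT.lf (nat_lit 0) (nat_lit 6290460459) (nat_lit 836) (nat_lit 886365540) (nat_lit 76) (nat_lit 2869773425) (nat_lit 391) (nat_lit 5) (nat_lit 402) (nat_lit 5) (nat_lit 392) (nat_lit 5) (nat_lit 444) (nat_lit 398) (nat_lit 298))))) (XT.nd (nat_lit 234) (nat_lit 2204) (nat_lit 0) (XT.nd (nat_lit 78) (nat_lit 836) (nat_lit 0) (XT.lf (nat_lit 0) (nat_lit 5384244679) (nat_lit 760) (nat_lit 3192799543) (nat_lit 836) (nat_lit 1568920437) (nat_lit 381) (nat_lit 5) (nat_lit 391) (nat_lit 5) (nat_lit 392) (nat_lit 5) (nat_lit 445) (nat_lit 398) (nat_lit 297)) (XT.nd (nat_lit 78) (nat_lit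 0) (nat_lit 0) (XT.lf (nat_lit 0) (nat_lit 652244703) (nat_lit 836) (nat_lit 8717764977) (nat_lit 76) (nat_lit 877243848) (nat_lit 370) (nat_lit 5) (nat_lit 381) (nat_lit 5) (nat_lit 371) (nat_lit 5) (nat_lit 446) (nat_lit 398) (nat_lit 296)) (XT.lf (nat_lit 0) (nat_lit 2927577545) (nat_lit 836) (nat_lit 2396380353) (nat_lit 76) (nat_lit 5025787821) (nat_lit 370) (nat_lit 5) (nat_lit 381) (nat_lit 5) (nat_lit 371) (nat_lit 5) (nat_lit 447) (nat_lit 398) (nat_lit 295)))) (XT.nd (nat_lit 156) (nat_lit 760) (nat_lit 0) (XT.nd (nat_lit 78) (nat_lit 684) (nat_lit 0) (XT.lf (nat_lit 0) (nat_lit 4079670229) (nat_lit 760) (nat_lit 1173100403) (nat_lit 836) (nat_lit 5201430050) (nat_lit 360) (nat_lit 5) (nat_lit 370) (nat_lit 5) (nat_lit 371) (nat_lit 5) (nat_lit 448) (nat_lit 398) (nat_lit 294)) (XT.lf (nat_lit 0) (nat_lit 113291677) (nat_lit 684) (nat_lit 7526087191) (nat_lit 760) (nat_lit 2921067651) (nat_lit 351) (nat_lit 5) (nat_lit 360)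 (nat_lit 5) (nat_lit 361) (nat_lit 5) (nat_lit 449) (nat_lit 398) (nat_lit 293))) (XT.nd (nat_lit 78) (nat_lit 760) (nat_lit 0) (XT.lf (nat_lit 0) (nat_lit 6784057091) (nat_lit 684) (nat_lit 3318536591) (nat_lit 760) (nat_lit 565646103) (nat_lit 351) (nat_lit 5) (nat_lit 360) (nat_lit 5) (nat_lit 361) (nat_lit 5) (nat_lit 450) (nat_lit 398) (nat_lit 292)) (XT.lf (nat_lit 0) (nat_lit 1816193449) (nat_lit 760) (nat_lit 7974667623) (nat_lit 76) (nat_lit 987021303) (nat_lit 341) (nat_lit 5) (nat_lit 351) (nat_lit 5) (nat_lit 342) (nat_lit 5) (nat_lit 451) (nat_lit 398) (nat_lit 291)))))) (XT.nd (nat_lit 468) (nat_lit 2508) (nat_lit 0) (XT.nd (nat_lit 234) (nat_lit 1292) (nat_lit 0) (XT.nd (nat_lit 78) (nat_lit 1368) (nat_lit 0) (XT.lf (nat_lit 0) (nat_lit 4265212175) (nat_lit 760) (nat_lit 1263447881) (nat_lit 76) (nat_lit 5360440658) (nat_lit 341) (nat_lit 5) (nat_lit 351) (nat_lit 5) (nat_lit 342) (nat_lit 5) (nat_lit 452) (nat_lit 398)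 (nat_lit 290)) (XT.nd (nat_lit 78) (nat_lit 684) (nat_lit 0) (XT.lf (nat_lit 0) (nat_lit 5630977986) (nat_lit 684) (nat_lit 1148101874) (nat_lit 760) (nat_lit 4223146187) (nat_lit 332) (nat_lit 5) (nat_lit 341) (nat_lit 5) (nat_lit 342) (nat_lit 5) (nat_lit 453) (nat_lit 398) (nat_lit 289)) (XT.lf (nat_lit 0) (nat_lit 1536425482) (nat_lit 684) (nat_lit 7826391733) (nat_lit 760) (nat_lit 1754404826) (nat_lit 323) (nat_lit 5) (nat_lit 332) (nat_lit 5) (nat_lit 333) (nat_lit 5) (nat_lit 454) (nat_lit 398) (nat_lit 288)))) (XT.nd (nat_lit 78) (nat_lit 1216) (nat_lit 0) (XT.lf (nat_lit 0) (nat_lit 777212903) (nat_lit 760) (nat_lit 2616729286) (nat_lit 76) (nat_lit 7840006238) (nat_lit 322) (nat_lit 5) (nat_lit 332) (nat_lit 5) (nat_lit 323) (nat_lit 5) (nat_lit 455) (nat_lit 398) (nat_lit 287)) (XT.nd (nat_lit 78) (nat_lit 608) (nat_lit 0) (XT.lf (nat_lit 0) (nat_lit 3352861348) (nat_lit 684) (nat_lit 6850705098) (nat_lit 76) (nat_lit 1148873169)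 (nat_lit 314) (nat_lit 5) (nat_lit 323) (nat_lit 5) (nat_lit 315) (nat_lit 5) (nat_lit 456) (nat_lit 398) (nat_lit 286)) (XT.lf (nat_lit 0) (nat_lit 281285056) (nat_lit 608) (nat_lit 5720948631) (nat_lit 684) (nat_lit 5470622719) (nat_lit 306) (nat_lit 5) (nat_lit 314) (nat_lit 5) (nat_lit 315) (nat_lit 5) (nat_lit 457) (nat_lit 398) (nat_lit 285))))) (XT.nd (nat_lit 234) (nat_lit 1824) (nat_lit 0) (XT.nd (nat_lit 78) (nat_lit 684) (nat_lit 0) (XT.lf (nat_lit 0) (nat_lit 7624041999) (nat_lit 608) (nat_lit 1106982588) (nat_lit 684) (nat_lit 2864128324) (nat_lit 306) (nat_lit 5) (nat_lit 314) (nat_lit 5) (nat_lit 315) (nat_lit 5) (nat_lit 458) (nat_lit 398) (nat_lit 284)) (XT.nd (nat_lit 78) (nat_lit 76) (nat_lit 0) (XT.lf (nat_lit 0) (nat_lit 3390252521) (nat_lit 608) (nat_lit 8150328712) (nat_lit 684) (nat_lit 178790315) (nat_lit 298) (nat_lit 5) (nat_lit 306) (nat_lit 5) (nat_lit 307) (nat_lit 5) (nat_lit 459) (nat_lit 398) (nat_lit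 283)) (XT.lf (nat_lit 0) (nat_lit 2541733310) (nat_lit 684) (nat_lit 941692419) (nat_lit 76) (nat_lit 8362015230) (nat_lit 297) (nat_lit 5) (nat_lit 306) (nat_lit 5) (nat_lit 298) (nat_lit 5) (nat_lit 460) (nat_lit 398) (nat_lit 282)))) (XT.nd (nat_lit 156) (nat_lit 684) (nat_lit 0) (XT.nd (nat_lit 78) (nat_lit 532) (nat_lit 0) (XT.lf (nat_lit 0) (nat_lit 5347310892) (nat_lit 684) (nat_lit 5326690500) (nat_lit 76) (nat_lit 1299345981) (nat_lit 289) (nat_lit 5) (nat_lit 298) (nat_lit 5) (nat_lit 290) (nat_lit 5) (nat_lit 461) (nat_lit 398) (nat_lit 281)) (XT.lf (nat_lit 0) (nat_lit 2278237092) (nat_lit 532) (nat_lit 5956435756) (nat_lit 608) (nat_lit 3868625609) (nat_lit 282) (nat_lit 5) (nat_lit 289) (nat_lit 5) (nat_lit 290) (nat_lit 5) (nat_lit 462) (nat_lit 398) (nat_lit 280))) (XT.nd (nat_lit 78) (nat_lit 684) (nat_lit 0) (XT.lf (nat_lit 0) (nat_lit 10083244337) (nat_lit 532) (nat_lit 1113939890) (nat_lit 608) (nat_lit 1038316294)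 (nat_lit 282) (nat_lit 5) (nat_lit 289) (nat_lit 5) (nat_lit 290) (nat_lit 5) (nat_lit 463) (nat_lit 398) (nat_lit 279)) (XT.lf (nat_lit 0) (nat_lit 1868468522) (nat_lit 684) (nat_lit 6681910945) (nat_lit 76) (nat_lit 3818844831) (nat_lit 273) (nat_lit 5) (nat_lit 282) (nat_lit 5) (nat_lit 274) (nat_lit 5) (nat_lit 464) (nat_lit 398) (nat_lit 278))))))))
noncomputable def xc85 : XT := (XT.nd (nat_lit 55224) (nat_lit 0) (nat_lit 16644) (XT.nd (nat_lit 54210) (nat_lit 0) (nat_lit 32984) (XT.nd (nat_lit 468) (nat_lit 2052) (nat_lit 0) (XT.nd (nat_lit 234) (nat_lit 1140) (nat_lit 0) (XT.nd (nat_lit 78) (nat_lit 532) (nat_lit 0) (XT.lf (nat_lit 0) (nat_lit 1184550676) (nat_lit 532) (nat_lit 3646614264) (nat_lit 608) (nat_lit 7674086767) (nat_lit 266) (nat_lit 5) (nat_lit 273) (nat_lit 5) (nat_lit 274) (nat_lit 5) (nat_lit 465) (nat_lit 398) (nat_lit 277)) (XT.nd (nat_lit 78) (nat_lit 532) (nat_lit 0) (XT.lf (nat_lit 0) (nat_lit 7889265409)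 (nat_lit 608) (nat_lit 3377588607) (nat_lit 76) (nat_lit 1376422645) (nat_lit 266) (nat_lit 5) (nat_lit 274) (nat_lit 5) (nat_lit 267) (nat_lit 5) (nat_lit 466) (nat_lit 398) (nat_lit 276)) (XT.lf (nat_lit 0) (nat_lit 4738553535) (nat_lit 532) (nat_lit 6307453680) (nat_lit 608) (nat_lit 1737305312) (nat_lit 259) (nat_lit 5) (nat_lit 266) (nat_lit 5) (nat_lit 267) (nat_lit 5) (nat_lit 467) (nat_lit 398) (nat_lit 275)))) (XT.nd (nat_lit 78) (nat_lit 532) (nat_lit 0) (XT.lf (nat_lit 0) (nat_lit 105741379) (nat_lit 532) (nat_lit 1222562241) (nat_lit 608) (nat_lit 11597548726) (nat_lit 251) (nat_lit 5) (nat_lit 258) (nat_lit 5) (nat_lit 259) (nat_lit 5) (nat_lit 468) (nat_lit 398) (nat_lit 274)) (XT.nd (nat_lit 78) (nat_lit 532) (nat_lit 0) (XT.lf (nat_lit 0) (nat_lit 4494844428) (nat_lit 608) (nat_lit 4603509937) (nat_lit 76) (nat_lit 3971401282) (nat_lit 251) (nat_lit 5) (nat_lit 259) (nat_lit 5) (nat_lit 252) (nat_lit 5) (nat_lit 469) (nat_lit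 398) (nat_lit 273)) (XT.lf (nat_lit 0) (nat_lit 3795529939) (nat_lit 532) (nat_lit 3945044564) (nat_lit 608) (nat_lit 5475645341) (nat_lit 244) (nat_lit 5) (nat_lit 251) (nat_lit 5) (nat_lit 252) (nat_lit 5) (nat_lit 470) (nat_lit 398) (nat_lit 272))))) (XT.nd (nat_lit 234) (nat_lit 988) (nat_lit 0) (XT.nd (nat_lit 78) (nat_lit 1064) (nat_lit 0) (XT.lf (nat_lit 0) (nat_lit 11074084006) (nat_lit 608) (nat_lit 972472811) (nat_lit 76) (nat_lit 1318599212) (nat_lit 244) (nat_lit 5) (nat_lit 252) (nat_lit 5) (nat_lit 245) (nat_lit 5) (nat_lit 471) (nat_lit 398) (nat_lit 271)) (XT.nd (nat_lit 78) (nat_lit 532) (nat_lit 0) (XT.lf (nat_lit 0) (nat_lit 1004712245) (nat_lit 532) (nat_lit 5826212991) (nat_lit 76) (nat_lit 6684819942) (nat_lit 237) (nat_lit 5) (nat_lit 244) (nat_lit 5) (nat_lit 238) (nat_lit 5) (nat_lit 472) (nat_lit 398) (nat_lit 270)) (XT.lf (nat_lit 0) (nat_lit 2867829462) (nat_lit 532) (nat_lit 1476769803) (nat_lit 608) (nat_lit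 9324266676) (nat_lit 230) (nat_lit 5) (nat_lit 237) (nat_lit 5) (nat_lit 238) (nat_lit 5) (nat_lit 473) (nat_lit 398) (nat_lit 269)))) (XT.nd (nat_lit 156) (nat_lit 532) (nat_lit 0) (XT.nd (nat_lit 78) (nat_lit 456) (nat_lit 0) (XT.lf (nat_lit 0) (nat_lit 7800281699) (nat_lit 608) (nat_lit 2059102887) (nat_lit 76) (nat_lit 3964684579) (nat_lit 230) (nat_lit 5) (nat_lit 238) (nat_lit 5) (nat_lit 231) (nat_lit 5) (nat_lit 474) (nat_lit 398) (nat_lit 268)) (XT.lf (nat_lit 0) (nat_lit 6915612885) (nat_lit 456) (nat_lit 4448235752) (nat_lit 532) (nat_lit 2617752399) (nat_lit 224) (nat_lit 5) (nat_lit 230) (nat_lit 5) (nat_lit 231) (nat_lit 5) (nat_lit 475) (nat_lit 398) (nat_lit 267))) (XT.nd (nat_lit 78) (nat_lit 0) (nat_lit 0) (XT.lf (nat_lit 0) (nat_lit 863028987) (nat_lit 532) (nat_lit 12196428962) (nat_lit 76) (nat_lit 1082357239) (nat_lit 217) (nat_lit 5) (nat_lit 224) (nat_lit 5) (nat_lit 218) (nat_lit 5) (nat_lit 476) (nat_lit 398)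 (nat_lit 266)) (XT.lf (nat_lit 0) (nat_lit 4439861249) (nat_lit 532) (nat_lit 3141775554) (nat_lit 76) (nat_lit 6722021014) (nat_lit 217) (nat_lit 5) (nat_lit 224) (nat_lit 5) (nat_lit 218) (nat_lit 5) (nat_lit 477) (nat_lit 398) (nat_lit 265)))))) (XT.nd (nat_lit 468) (nat_lit 1216) (nat_lit 0) (XT.nd (nat_lit 234) (nat_lit 1140) (nat_lit 0) (XT.nd (nat_lit 78) (nat_lit 1140) (nat_lit 0) (XT.lf (nat_lit 0) (nat_lit 3209706016) (nat_lit 1140) (nat_lit 176861467) (nat_lit 1140) (nat_lit 176861467) (nat_lit 697) (nat_lit 3) (nat_lit 712) (nat_lit 3) (nat_lit 712) (nat_lit 5) (nat_lit 399) (nat_lit 399) (nat_lit 342)) (XT.nd (nat_lit 78) (nat_lit 0) (nat_lit 0) (XT.lf (nat_lit 0) (nat_lit 1036716378) (nat_lit 1140) (nat_lit 3917977542) (nat_lit 1216) (nat_lit 2208688028) (nat_lit 682) (nat_lit 5) (nat_lit 697) (nat_lit 3) (nat_lit 698) (nat_lit 5) (nat_lit 400) (nat_lit 399) (nat_lit 341)) (XT.lf (nat_lit 0) (nat_lit 2763403780) (nat_lit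 1140) (nat_lit 307752359) (nat_lit 1216) (nat_lit 4130244522) (nat_lit 682) (nat_lit 5) (nat_lit 697) (nat_lit 3) (nat_lit 698) (nat_lit 5) (nat_lit 401) (nat_lit 399) (nat_lit 340)))) (XT.nd (nat_lit 78) (nat_lit 1140) (nat_lit 0) (XT.lf (nat_lit 76) (nat_lit 3395909739) (nat_lit 0) (nat_lit 1106367971) (nat_lit 1216) (nat_lit 2738348983) (nat_lit 683) (nat_lit 5) (nat_lit 682) (nat_lit 5) (nat_lit 698) (nat_lit 5) (nat_lit 402) (nat_lit 399) (nat_lit 339)) (XT.nd (nat_lit 78) (nat_lit 1216) (nat_lit 0) (XT.lf (nat_lit 0) (nat_lit 6240294263) (nat_lit 1140) (nat_lit 132780431) (nat_lit 1216) (nat_lit 908275249) (nat_lit 683) (nat_lit 5) (nat_lit 698) (nat_lit 5) (nat_lit 699) (nat_lit 5) (nat_lit 403) (nat_lit 399) (nat_lit 338)) (XT.lf (nat_lit 0) (nat_lit 669525141) (nat_lit 1216) (nat_lit 3657000875) (nat_lit 1292) (nat_lit 2996504148) (nat_lit 667) (nat_lit 5) (nat_lit 683) (nat_lit 5) (nat_lit 684) (nat_lit 5) (nat_lit 404) (nat_lit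 399) (nat_lit 337))))) (XT.nd (nat_lit 234) (nat_lit 1216) (nat_lit 0) (XT.nd (nat_lit 78) (nat_lit 0) (nat_lit 0) (XT.lf (nat_lit 76) (nat_lit 148038784) (nat_lit 0) (nat_lit 2211927760) (nat_lit 1292) (nat_lit 5006248045) (nat_lit 668) (nat_lit 5) (nat_lit 667) (nat_lit 5) (nat_lit 684) (nat_lit 5) (nat_lit 405) (nat_lit 399) (nat_lit 336)) (XT.nd (nat_lit 78) (nat_lit 0) (nat_lit 76) (XT.lf (nat_lit 76) (nat_lit 4054817972) (nat_lit 0) (nat_lit 12330458) (nat_lit 1292) (nat_lit 3343455639) (nat_lit 668) (nat_lit 5) (nat_lit 667) (nat_lit 5) (nat_lit 684) (nat_lit 5) (nat_lit 406) (nat_lit 399) (nat_lit 335)) (XT.lf (nat_lit 76) (nat_lit 552215018) (nat_lit 0) (nat_lit 5233650720) (nat_lit 1292) (nat_lit 1670467765) (nat_lit 669) (nat_lit 5) (nat_lit 668) (nat_lit 5) (nat_lit 685) (nat_lit 5) (nat_lit 407) (nat_lit 399) (nat_lit 334)))) (XT.nd (nat_lit 156) (nat_lit 0) (nat_lit 76) (XT.nd (nat_lit 78) (nat_lit 0) (nat_lit 0) (XT.lf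 (nat_lit 0) (nat_lit 17952653) (nat_lit 1292) (nat_lit 2943893956) (nat_lit 1368) (nat_lit 4541477350) (nat_lit 651) (nat_lit 5) (nat_lit 668) (nat_lit 5) (nat_lit 669) (nat_lit 5) (nat_lit 408) (nat_lit 399) (nat_lit 333)) (XT.lf (nat_lit 76) (nat_lit 1074280236) (nat_lit 0) (nat_lit 610974615) (nat_lit 1368) (nat_lit 5866428920) (nat_lit 652) (nat_lit 5) (nat_lit 651) (nat_lit 5) (nat_lit 669) (nat_lit 5) (nat_lit 409) (nat_lit 399) (nat_lit 332))) (XT.nd (nat_lit 78) (nat_lit 0) (nat_lit 0) (XT.lf (nat_lit 0) (nat_lit 3378590037) (nat_lit 1292) (nat_lit 2424620794) (nat_lit 1368) (nat_lit 1797946209) (nat_lit 652) (nat_lit 5) (nat_lit 669) (nat_lit 5) (nat_lit 670) (nat_lit 5) (nat_lit 410) (nat_lit 399) (nat_lit 331)) (XT.lf (nat_lit 76) (nat_lit 1703001066) (nat_lit 0) (nat_lit 3379854065) (nat_lit 1368) (nat_lit 2569223380) (nat_lit 653) (nat_lit 5) (nat_lit 652) (nat_lit 5) (nat_lit 670) (nat_lit 5) (nat_lit 411) (nat_lit 399)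 (nat_lit 330))))))) (XT.nd (nat_lit 1014) (nat_lit 10868) (nat_lit 0) (XT.nd (nat_lit 468) (nat_lit 4256) (nat_lit 0) (XT.nd (nat_lit 234) (nat_lit 0) (nat_lit 0) (XT.nd (nat_lit 78) (nat_lit 1292) (nat_lit 0) (XT.lf (nat_lit 76) (nat_lit 5921697445) (nat_lit 0) (nat_lit 878326387) (nat_lit 1368) (nat_lit 904418211) (nat_lit 653) (nat_lit 5) (nat_lit 652) (nat_lit 5) (nat_lit 670) (nat_lit 5) (nat_lit 412) (nat_lit 399) (nat_lit 329)) (XT.nd (nat_lit 78) (nat_lit 0) (nat_lit 0) (XT.lf (nat_lit 0) (nat_lit 773434211) (nat_lit 1368) (nat_lit 5299458719) (nat_lit 1444) (nat_lit 1685053646) (nat_lit 635) (nat_lit 5) (nat_lit 653) (nat_lit 5) (nat_lit 654) (nat_lit 5) (nat_lit 413) (nat_lit 399) (nat_lit 328)) (XT.lf (nat_lit 0) (nat_lit 2454289769) (nat_lit 1368) (nat_lit 1040461824) (nat_lit 1444) (nat_lit 4318018917) (nat_lit 635) (nat_lit 5) (nat_lit 653) (nat_lit 5) (nat_lit 654) (nat_lit 5) (nat_lit 414) (nat_lit 399) (nat_lit 327))))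 (XT.nd (nat_lit 78) (nat_lit 0) (nat_lit 76) (XT.lf (nat_lit 76) (nat_lit 3322779206) (nat_lit 0) (nat_lit 831954776) (nat_lit 1444) (nat_lit 3714237511) (nat_lit 636) (nat_lit 5) (nat_lit 635) (nat_lit 5) (nat_lit 654) (nat_lit 5) (nat_lit 415) (nat_lit 399) (nat_lit 326)) (XT.nd (nat_lit 78) (nat_lit 0) (nat_lit 0) (XT.lf (nat_lit 0) (nat_lit 5873455528) (nat_lit 1368) (nat_lit 176171256) (nat_lit 1444) (nat_lit 1876984342) (nat_lit 636) (nat_lit 5) (nat_lit 654) (nat_lit 5) (nat_lit 655) (nat_lit 5) (nat_lit 416) (nat_lit 399) (nat_lit 325)) (XT.lf (nat_lit 76) (nat_lit 4307604053) (nat_lit 0) (nat_lit 3318118387) (nat_lit 1444) (nat_lit 359697693) (nat_lit 637) (nat_lit 5) (nat_lit 636) (nat_lit 5) (nat_lit 655) (nat_lit 5) (nat_lit 417) (nat_lit 399) (nat_lit 324))))) (XT.nd (nat_lit 234) (nat_lit 2888) (nat_lit 0) (XT.nd (nat_lit 78) (nat_lit 0) (nat_lit 76) (XT.lf (nat_lit 76) (nat_lit 814940422) (nat_lit 0) (nat_lit 507216899)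 (nat_lit 1520) (nat_lit 6723621114) (nat_lit 618) (nat_lit 5) (nat_lit 617) (nat_lit 5) (nat_lit 637) (nat_lit 5) (nat_lit 418) (nat_lit 399) (nat_lit 323)) (XT.nd (nat_lit 78) (nat_lit 0) (nat_lit 0) (XT.lf (nat_lit 0) (nat_lit 3039549734) (nat_lit 1444) (nat_lit 2702796683) (nat_lit 1520) (nat_lit 2364815602) (nat_lit 618) (nat_lit 5) (nat_lit 637) (nat_lit 5) (nat_lit 638) (nat_lit 5) (nat_lit 419) (nat_lit 399) (nat_lit 322)) (XT.lf (nat_lit 76) (nat_lit 1912544891) (nat_lit 0) (nat_lit 2861724183) (nat_lit 1520) (nat_lit 3395844619) (nat_lit 619) (nat_lit 5) (nat_lit 618) (nat_lit 5) (nat_lit 638) (nat_lit 5) (nat_lit 420) (nat_lit 399) (nat_lit 321)))) (XT.nd (nat_lit 156) (nat_lit 1520) (nat_lit 0) (XT.nd (nat_lit 78) (nat_lit 1520) (nat_lit 0) (XT.lf (nat_lit 0) (nat_lit 6530169977) (nat_lit 1444) (nat_lit 1603263609) (nat_lit 76) (nat_lit 101161071) (nat_lit 619) (nat_lit 5) (nat_lit 638) (nat_lit 5) (nat_lit 620) (nat_lit 5)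 (nat_lit 421) (nat_lit 399) (nat_lit 320)) (XT.lf (nat_lit 0) (nat_lit 28315043) (nat_lit 1520) (nat_lit 5159037076) (nat_lit 76) (nat_lit 3112855127) (nat_lit 599) (nat_lit 5) (nat_lit 619) (nat_lit 5) (nat_lit 600) (nat_lit 5) (nat_lit 422) (nat_lit 399) (nat_lit 319))) (XT.nd (nat_lit 78) (nat_lit 1520) (nat_lit 0) (XT.lf (nat_lit 0) (nat_lit 1752356915) (nat_lit 1520) (nat_lit 401318125) (nat_lit 76) (nat_lit 6213642331) (nat_lit 599) (nat_lit 5) (nat_lit 619) (nat_lit 5) (nat_lit 600) (nat_lit 5) (nat_lit 423) (nat_lit 399) (nat_lit 318)) (XT.lf (nat_lit 0) (nat_lit 3515576077) (nat_lit 1596) (nat_lit 3956529237) (nat_lit 76) (nat_lit 963570454) (nat_lit 579) (nat_lit 5) (nat_lit 600) (nat_lit 5) (nat_lit 580) (nat_lit 5) (nat_lit 424) (nat_lit 399) (nat_lit 317)))))) (XT.nd (nat_lit 468) (nat_lit 3952) (nat_lit 0) (XT.nd (nat_lit 234) (nat_lit 3572) (nat_lit 0) (XT.nd (nat_lit 78) (nat_lit 1748) (nat_lit 0) (XT.lf (nat_lit 0) (nat_lit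 929976401) (nat_lit 1596) (nat_lit 4376809066) (nat_lit 1672) (nat_lit 3198761350) (nat_lit 558) (nat_lit 5) (nat_lit 579) (nat_lit 5) (nat_lit 580) (nat_lit 5) (nat_lit 425) (nat_lit 399) (nat_lit 316)) (XT.nd (nat_lit 78) (nat_lit 1748) (nat_lit 0) (XT.lf (nat_lit 0) (nat_lit 5942757280) (nat_lit 1596) (nat_lit 1187757300) (nat_lit 1672) (nat_lit 1446366795) (nat_lit 558) (nat_lit 5) (nat_lit 579) (nat_lit 5) (nat_lit 580) (nat_lit 5) (nat_lit 426) (nat_lit 399) (nat_lit 315)) (XT.lf (nat_lit 0) (nat_lit 336345286) (nat_lit 1748) (nat_lit 6252864468) (nat_lit 76) (nat_lit 2060393723) (nat_lit 535) (nat_lit 5) (nat_lit 558) (nat_lit 5) (nat_lit 536) (nat_lit 5) (nat_lit 427) (nat_lit 399) (nat_lit 314)))) (XT.nd (nat_lit 78) (nat_lit 3572) (nat_lit 0) (XT.lf (nat_lit 0) (nat_lit 2132002900) (nat_lit 1748) (nat_lit 1202492770) (nat_lit 76) (nat_lit 5389159979) (nat_lit 535) (nat_lit 5) (nat_lit 558) (nat_lit 5) (nat_lit 536) (nat_lit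 5) (nat_lit 428) (nat_lit 399) (nat_lit 313)) (XT.nd (nat_lit 78) (nat_lit 1824) (nat_lit 0) (XT.lf (nat_lit 0) (nat_lit 3961037289) (nat_lit 1824) (nat_lit 4823238028) (nat_lit 76) (nat_lit 14964274) (nat_lit 512) (nat_lit 5) (nat_lit 536) (nat_lit 5) (nat_lit 513) (nat_lit 5) (nat_lit 429) (nat_lit 399) (nat_lit 312)) (XT.lf (nat_lit 0) (nat_lit 355366522) (nat_lit 1824) (nat_lit 5475766726) (nat_lit 1900) (nat_lit 3045112347) (nat_lit 488) (nat_lit 5) (nat_lit 512) (nat_lit 5) (nat_lit 513) (nat_lit 5) (nat_lit 430) (nat_lit 399) (nat_lit 311))))) (XT.nd (nat_lit 234) (nat_lit 2736) (nat_lit 0) (XT.nd (nat_lit 78) (nat_lit 1216) (nat_lit 0) (XT.lf (nat_lit 0) (nat_lit 5677740156) (nat_lit 1824) (nat_lit 2065611632) (nat_lit 1900) (nat_lit 1211345518) (nat_lit 488) (nat_lit 5) (nat_lit 512) (nat_lit 5) (nat_lit 513) (nat_lit 5) (nat_lit 431) (nat_lit 399) (nat_lit 310)) (XT.nd (nat_lit 78) (nat_lit 0) (nat_lit 0) (XT.lf (nat_lit 0)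 (nat_lit 645911132) (nat_lit 1216) (nat_lit 6974557917) (nat_lit 76) (nat_lit 1414254243) (nat_lit 472) (nat_lit 5) (nat_lit 488) (nat_lit 5) (nat_lit 473) (nat_lit 5) (nat_lit 432) (nat_lit 399) (nat_lit 309)) (XT.lf (nat_lit 0) (nat_lit 2533026733) (nat_lit 1216) (nat_lit 1614745532) (nat_lit 76) (nat_lit 4968238718) (nat_lit 472) (nat_lit 5) (nat_lit 488) (nat_lit 5) (nat_lit 473) (nat_lit 5) (nat_lit 433) (nat_lit 399) (nat_lit 308)))) (XT.nd (nat_lit 156) (nat_lit 912) (nat_lit 0) (XT.nd (nat_lit 78) (nat_lit 912) (nat_lit 0) (XT.lf (nat_lit 0) (nat_lit 3878186437) (nat_lit 912) (nat_lit 578508643) (nat_lit 988) (nat_lit 4742253140) (nat_lit 460) (nat_lit 5) (nat_lit 472) (nat_lit 5) (nat_lit 473) (nat_lit 5) (nat_lit 434) (nat_lit 399) (nat_lit 307)) (XT.lf (nat_lit 0) (nat_lit 176596757) (nat_lit 912) (nat_lit 6248170511) (nat_lit 988) (nat_lit 2858658323) (nat_lit 448) (nat_lit 5) (nat_lit 460) (nat_lit 5) (nat_lit 461) (nat_lit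 5) (nat_lit 435) (nat_lit 399) (nat_lit 306))) (XT.nd (nat_lit 78) (nat_lit 912) (nat_lit 0) (XT.lf (nat_lit 0) (nat_lit 5827007174) (nat_lit 912) (nat_lit 2619046404) (nat_lit 988) (nat_lit 923261877) (nat_lit 448) (nat_lit 5) (nat_lit 460) (nat_lit 5) (nat_lit 461) (nat_lit 5) (nat_lit 436) (nat_lit 399) (nat_lit 305)) (XT.lf (nat_lit 0) (nat_lit 1032733890) (nat_lit 912) (nat_lit 7334555636) (nat_lit 76) (nat_lit 1089583669) (nat_lit 436) (nat_lit 5) (nat_lit 448) (nat_lit 5) (nat_lit 437) (nat_lit 5) (nat_lit 437) (nat_lit 399) (nat_lit 304))))))))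
noncomputable def xc86 : XT := (XT.nd (nat_lit 2028) (nat_lit 4940) (nat_lit 0) (XT.nd (nat_lit 1014) (nat_lit 5244) (nat_lit 0) (XT.nd (nat_lit 468) (nat_lit 3800) (nat_lit 0) (XT.nd (nat_lit 234) (nat_lit 912) (nat_lit 0) (XT.nd (nat_lit 78) (nat_lit 1748) (nat_lit 0) (XT.lf (nat_lit 0) (nat_lit 3031786092) (nat_lit 912) (nat_lit 1646387880) (nat_lit 76) (nat_lit 4867560084) (nat_lit 436) (nat_lit 5) (nat_lit 448) (nat_lit 5) (nat_lit 437) (nat_lit 5) (nat_lit 438) (nat_lit 399) (nat_lit 303)) (XT.nd (nat_lit 78) (nat_lit 836) (nat_lit 0) (XT.lf (nat_lit 0) (nat_lit 4185617150) (nat_lit 912) (nat_lit 887882486) (nat_lit 988) (nat_lit 4562818890) (nat_lit 424) (nat_lit 5) (nat_lit 436) (nat_lit 5) (nat_lit 437) (nat_lit 5) (nat_lit 439) (nat_lit 399) (nat_lit 302)) (XT.lf (nat_lit 0) (nat_lit 388634802) (nat_lit 836) (nat_lit 6776215337) (nat_lit 912) (nat_lit 2563688493) (nat_lit 413) (nat_lit 5) (nat_lit 424) (nat_lit 5) (nat_lit 425)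 (nat_lit 5) (nat_lit 440) (nat_lit 399) (nat_lit 301)))) (XT.nd (nat_lit 78) (nat_lit 912) (nat_lit 0) (XT.lf (nat_lit 0) (nat_lit 6387712343) (nat_lit 836) (nat_lit 2928867233) (nat_lit 912) (nat_lit 505652526) (nat_lit 413) (nat_lit 5) (nat_lit 424) (nat_lit 5) (nat_lit 425) (nat_lit 5) (nat_lit 441) (nat_lit 399) (nat_lit 300)) (XT.nd (nat_lit 78) (nat_lit 0) (nat_lit 0) (XT.lf (nat_lit 0) (nat_lit 1572527277) (nat_lit 912) (nat_lit 7336593798) (nat_lit 76) (nat_lit 1008473784) (nat_lit 401) (nat_lit 5) (nat_lit 413) (nat_lit 5) (nat_lit 402) (nat_lit 5) (nat_lit 442) (nat_lit 399) (nat_lit 299)) (XT.lf (nat_lit 0) (nat_lit 3704842317) (nat_lit 912) (nat_lit 1299002772) (nat_lit 76) (nat_lit 5010566089) (nat_lit 401) (nat_lit 5) (nat_lit 413) (nat_lit 5) (nat_lit 402) (nat_lit 5) (nat_lit 443) (nat_lit 399) (nat_lit 298))))) (XT.nd (nat_lit 234) (nat_lit 2204) (nat_lit 0) (XT.nd (nat_lit 78) (nat_lit 836) (nat_lit 0) (XT.lf (nat_lit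 0) (nat_lit 4898994034) (nat_lit 760) (nat_lit 989812689) (nat_lit 836) (nat_lit 4224177039) (nat_lit 391) (nat_lit 5) (nat_lit 401) (nat_lit 5) (nat_lit 402) (nat_lit 5) (nat_lit 444) (nat_lit 399) (nat_lit 297)) (XT.nd (nat_lit 78) (nat_lit 76) (nat_lit 0) (XT.lf (nat_lit 0) (nat_lit 993143432) (nat_lit 760) (nat_lit 7136157908) (nat_lit 836) (nat_lit 2083969439) (nat_lit 381) (nat_lit 5) (nat_lit 391) (nat_lit 5) (nat_lit 392) (nat_lit 5) (nat_lit 445) (nat_lit 399) (nat_lit 296)) (XT.lf (nat_lit 0) (nat_lit 117124285) (nat_lit 836) (nat_lit 2952204547) (nat_lit 76) (nat_lit 7245834225) (nat_lit 380) (nat_lit 5) (nat_lit 391) (nat_lit 5) (nat_lit 381) (nat_lit 5) (nat_lit 446) (nat_lit 399) (nat_lit 295)))) (XT.nd (nat_lit 156) (nat_lit 1444) (nat_lit 0) (XT.nd (nat_lit 78) (nat_lit 0) (nat_lit 0) (XT.lf (nat_lit 0) (nat_lit 2342020392) (nat_lit 836) (nat_lit 6978056516) (nat_lit 76) (nat_lit 1098587075) (nat_lit 370) (nat_lit 5) (nat_lit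 381) (nat_lit 5) (nat_lit 371) (nat_lit 5) (nat_lit 447) (nat_lit 399) (nat_lit 294)) (XT.lf (nat_lit 0) (nat_lit 4629982817) (nat_lit 836) (nat_lit 567774861) (nat_lit 76) (nat_lit 5326105881) (nat_lit 370) (nat_lit 5) (nat_lit 381) (nat_lit 5) (nat_lit 371) (nat_lit 5) (nat_lit 448) (nat_lit 399) (nat_lit 293))) (XT.nd (nat_lit 78) (nat_lit 684) (nat_lit 0) (XT.lf (nat_lit 0) (nat_lit 6025451120) (nat_lit 760) (nat_lit 956099761) (nat_lit 836) (nat_lit 3649259318) (nat_lit 360) (nat_lit 5) (nat_lit 370) (nat_lit 5) (nat_lit 371) (nat_lit 5) (nat_lit 449) (nat_lit 399) (nat_lit 292)) (XT.lf (nat_lit 0) (nat_lit 1998190483) (nat_lit 684) (nat_lit 7399616989) (nat_lit 760) (nat_lit 1341735157) (nat_lit 351) (nat_lit 5) (nat_lit 360) (nat_lit 5) (nat_lit 361) (nat_lit 5) (nat_lit 450) (nat_lit 399) (nat_lit 291)))))) (XT.nd (nat_lit 468) (nat_lit 3040) (nat_lit 0) (XT.nd (nat_lit 234) (nat_lit 760) (nat_lit 0) (XT.nd (nat_lit 78) (nat_lit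 1368) (nat_lit 0) (XT.lf (nat_lit 0) (nat_lit 1015190652) (nat_lit 760) (nat_lit 2091343476) (nat_lit 76) (nat_lit 7743453717) (nat_lit 350) (nat_lit 5) (nat_lit 360) (nat_lit 5) (nat_lit 351) (nat_lit 5) (nat_lit 451) (nat_lit 399) (nat_lit 290)) (XT.nd (nat_lit 78) (nat_lit 684) (nat_lit 0) (XT.lf (nat_lit 0) (nat_lit 3419946444) (nat_lit 760) (nat_lit 6250230474) (nat_lit 76) (nat_lit 1291914522) (nat_lit 341) (nat_lit 5) (nat_lit 351) (nat_lit 5) (nat_lit 342) (nat_lit 5) (nat_lit 452) (nat_lit 399) (nat_lit 289)) (XT.lf (nat_lit 0) (nat_lit 565693013) (nat_lit 684) (nat_lit 5325191480) (nat_lit 760) (nat_lit 5185190874) (nat_lit 332) (nat_lit 5) (nat_lit 341) (nat_lit 5) (nat_lit 342) (nat_lit 5) (nat_lit 453) (nat_lit 399) (nat_lit 288)))) (XT.nd (nat_lit 78) (nat_lit 760) (nat_lit 0) (XT.lf (nat_lit 0) (nat_lit 7578436979) (nat_lit 684) (nat_lit 854701415) (nat_lit 760) (nat_lit 2758762635) (nat_lit 332) (nat_lit 5) (nat_lit 341)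 (nat_lit 5) (nat_lit 342) (nat_lit 5) (nat_lit 454) (nat_lit 399) (nat_lit 287)) (XT.nd (nat_lit 78) (nat_lit 76) (nat_lit 0) (XT.lf (nat_lit 0) (nat_lit 3418051330) (nat_lit 684) (nat_lit 7634756122) (nat_lit 760) (nat_lit 256704352) (nat_lit 323) (nat_lit 5) (nat_lit 332) (nat_lit 5) (nat_lit 333) (nat_lit 5) (nat_lit 455) (nat_lit 399) (nat_lit 286)) (XT.lf (nat_lit 0) (nat_lit 2275782429) (nat_lit 760) (nat_lit 834750013) (nat_lit 76) (nat_lit 8318434449) (nat_lit 322) (nat_lit 5) (nat_lit 332) (nat_lit 5) (nat_lit 323) (nat_lit 5) (nat_lit 456) (nat_lit 399) (nat_lit 285))))) (XT.nd (nat_lit 234) (nat_lit 1824) (nat_lit 0) (XT.nd (nat_lit 78) (nat_lit 608) (nat_lit 0) (XT.lf (nat_lit 0) (nat_lit 4888010575) (nat_lit 684) (nat_lit 5138472073) (nat_lit 76) (nat_lit 1523643919) (nat_lit 314) (nat_lit 5) (nat_lit 323) (nat_lit 5) (nat_lit 315) (nat_lit 5) (nat_lit 457) (nat_lit 399) (nat_lit 284)) (XT.nd (nat_lit 78) (nat_lit 0) (nat_lit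 0) (XT.lf (nat_lit 0) (nat_lit 2123991784) (nat_lit 608) (nat_lit 5449520008) (nat_lit 684) (nat_lit 4099777074) (nat_lit 306) (nat_lit 5) (nat_lit 314) (nat_lit 5) (nat_lit 315) (nat_lit 5) (nat_lit 458) (nat_lit 399) (nat_lit 283)) (XT.lf (nat_lit 0) (nat_lit 9577582670) (nat_lit 608) (nat_lit 750840283) (nat_lit 684) (nat_lit 1470177460) (nat_lit 306) (nat_lit 5) (nat_lit 314) (nat_lit 5) (nat_lit 315) (nat_lit 5) (nat_lit 459) (nat_lit 399) (nat_lit 282)))) (XT.nd (nat_lit 156) (nat_lit 532) (nat_lit 0) (XT.nd (nat_lit 78) (nat_lit 608) (nat_lit 0) (XT.lf (nat_lit 0) (nat_lit 1238429855) (nat_lit 684) (nat_lit 6660628317) (nat_lit 76) (nat_lit 4026356403) (nat_lit 297) (nat_lit 5) (nat_lit 306) (nat_lit 5) (nat_lit 298) (nat_lit 5) (nat_lit 460) (nat_lit 399) (nat_lit 281)) (XT.lf (nat_lit 0) (nat_lit 848532832) (nat_lit 608) (nat_lit 3140136746) (nat_lit 684) (nat_lit 8065758168) (nat_lit 289) (nat_lit 5) (nat_lit 297) (nat_lit 5)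 (nat_lit 298) (nat_lit 5) (nat_lit 461) (nat_lit 399) (nat_lit 280))) (XT.nd (nat_lit 78) (nat_lit 532) (nat_lit 0) (XT.lf (nat_lit 0) (nat_lit 6831849167) (nat_lit 684) (nat_lit 3622293562) (nat_lit 76) (nat_lit 1731119750) (nat_lit 289) (nat_lit 5) (nat_lit 298) (nat_lit 5) (nat_lit 290) (nat_lit 5) (nat_lit 462) (nat_lit 399) (nat_lit 279)) (XT.lf (nat_lit 0) (nat_lit 4122818564) (nat_lit 532) (nat_lit 5638808600) (nat_lit 608) (nat_lit 2556492046) (nat_lit 282) (nat_lit 5) (nat_lit 289) (nat_lit 5) (nat_lit 290) (nat_lit 5) (nat_lit 463) (nat_lit 399) (nat_lit 278))))))) (XT.nd (nat_lit 1014) (nat_lit 532) (nat_lit 0) (XT.nd (nat_lit 468) (nat_lit 2052) (nat_lit 0) (XT.nd (nat_lit 234) (nat_lit 1140) (nat_lit 0) (XT.nd (nat_lit 78) (nat_lit 1140) (nat_lit 0) (XT.lf (nat_lit 0) (nat_lit 299202000) (nat_lit 608) (nat_lit 406816853) (nat_lit 76) (nat_lit 11747441312) (nat_lit 281) (nat_lit 5) (nat_lit 289) (nat_lit 5) (nat_lit 282) (nat_lit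 5) (nat_lit 464) (nat_lit 399) (nat_lit 277)) (XT.nd (nat_lit 78) (nat_lit 532) (nat_lit 0) (XT.lf (nat_lit 0) (nat_lit 3238222180) (nat_lit 684) (nat_lit 5021930700) (nat_lit 76) (nat_lit 4329808218) (nat_lit 273) (nat_lit 5) (nat_lit 282) (nat_lit 5) (nat_lit 274) (nat_lit 5) (nat_lit 465) (nat_lit 399) (nat_lit 276)) (XT.lf (nat_lit 0) (nat_lit 2990060031) (nat_lit 532) (nat_lit 3255556058) (nat_lit 608) (nat_lit 6483384094) (nat_lit 266) (nat_lit 5) (nat_lit 273) (nat_lit 5) (nat_lit 274) (nat_lit 5) (nat_lit 466) (nat_lit 399) (nat_lit 275)))) (XT.nd (nat_lit 78) (nat_lit 1140) (nat_lit 0) (XT.lf (nat_lit 0) (nat_lit 9341992271) (nat_lit 608) (nat_lit 1675373355) (nat_lit 76) (nat_lit 1852877737) (nat_lit 266) (nat_lit 5) (nat_lit 274) (nat_lit 5) (nat_lit 267) (nat_lit 5) (nat_lit 467) (nat_lit 399) (nat_lit 274)) (XT.nd (nat_lit 78) (nat_lit 608) (nat_lit 0) (XT.lf (nat_lit 0) (nat_lit 6591448426) (nat_lit 532) (nat_lit 5956444382)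 (nat_lit 608) (nat_lit 465466660) (nat_lit 259) (nat_lit 5) (nat_lit 266) (nat_lit 5) (nat_lit 267) (nat_lit 5) (nat_lit 468) (nat_lit 399) (nat_lit 273)) (XT.lf (nat_lit 0) (nat_lit 1871436780) (nat_lit 532) (nat_lit 759048605) (nat_lit 608) (nat_lit 10528371695) (nat_lit 251) (nat_lit 5) (nat_lit 258) (nat_lit 5) (nat_lit 259) (nat_lit 5) (nat_lit 469) (nat_lit 399) (nat_lit 272))))) (XT.nd (nat_lit 234) (nat_lit 1064) (nat_lit 0) (XT.nd (nat_lit 78) (nat_lit 988) (nat_lit 0) (XT.lf (nat_lit 0) (nat_lit 5838451006) (nat_lit 608) (nat_lit 2944673572) (nat_lit 76) (nat_lit 4522951988) (nat_lit 251) (nat_lit 5) (nat_lit 259) (nat_lit 5) (nat_lit 252) (nat_lit 5) (nat_lit 470) (nat_lit 399) (nat_lit 271)) (XT.nd (nat_lit 78) (nat_lit 456) (nat_lit 0) (XT.lf (nat_lit 0) (nat_lit 5610827980) (nat_lit 532) (nat_lit 3524978418) (nat_lit 608) (nat_lit 4319929436) (nat_lit 244) (nat_lit 5) (nat_lit 251) (nat_lit 5) (nat_lit 252) (nat_lit 5) (nat_lit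 471) (nat_lit 399) (nat_lit 270)) (XT.lf (nat_lit 0) (nat_lit 744266593) (nat_lit 456) (nat_lit 11775405903) (nat_lit 532) (nat_lit 1088304518) (nat_lit 238) (nat_lit 5) (nat_lit 244) (nat_lit 5) (nat_lit 245) (nat_lit 5) (nat_lit 472) (nat_lit 399) (nat_lit 269)))) (XT.nd (nat_lit 156) (nat_lit 456) (nat_lit 0) (XT.nd (nat_lit 78) (nat_lit 532) (nat_lit 0) (XT.lf (nat_lit 0) (nat_lit 2239299137) (nat_lit 532) (nat_lit 4211527688) (nat_lit 76) (nat_lit 7310943404) (nat_lit 237) (nat_lit 5) (nat_lit 244) (nat_lit 5) (nat_lit 238) (nat_lit 5) (nat_lit 473) (nat_lit 399) (nat_lit 268)) (XT.lf (nat_lit 0) (nat_lit 4645006077) (nat_lit 532) (nat_lit 988330451) (nat_lit 608) (nat_lit 8284869826) (nat_lit 230) (nat_lit 5) (nat_lit 237) (nat_lit 5) (nat_lit 238) (nat_lit 5) (nat_lit 474) (nat_lit 399) (nat_lit 267))) (XT.nd (nat_lit 78) (nat_lit 456) (nat_lit 0) (XT.lf (nat_lit 0) (nat_lit 9137864110) (nat_lit 608) (nat_lit 393918380) (nat_lit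 76) (nat_lit 4545136522) (nat_lit 230) (nat_lit 5) (nat_lit 238) (nat_lit 5) (nat_lit 231) (nat_lit 5) (nat_lit 475) (nat_lit 399) (nat_lit 266)) (XT.lf (nat_lit 0) (nat_lit 8749065612) (nat_lit 456) (nat_lit 4011474580) (nat_lit 532) (nat_lit 1477304573) (nat_lit 224) (nat_lit 5) (nat_lit 230) (nat_lit 5) (nat_lit 231) (nat_lit 5) (nat_lit 476) (nat_lit 399) (nat_lit 265)))))) (XT.nd (nat_lit 53742) (nat_lit 0) (nat_lit 32984) (XT.nd (nat_lit 53508) (nat_lit 0) (nat_lit 34124) (XT.nd (nat_lit 53352) (nat_lit 0) (nat_lit 35340) (XT.lf (nat_lit 0) (nat_lit 2048871328) (nat_lit 532) (nat_lit 10720995959) (nat_lit 76) (nat_lit 1631412570) (nat_lit 217) (nat_lit 5) (nat_lit 224) (nat_lit 5) (nat_lit 218) (nat_lit 5) (nat_lit 477) (nat_lit 399) (nat_lit 264)) (XT.nd (nat_lit 78) (nat_lit 0) (nat_lit 0) (XT.lf (nat_lit 0) (nat_lit 681168010) (nat_lit 0) (nat_lit 681168010) (nat_lit 1140) (nat_lit 2238040329) (nat_lit 682) (nat_lit 5) (nat_lit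 682) (nat_lit 3) (nat_lit 697) (nat_lit 3) (nat_lit 400) (nat_lit 400) (nat_lit 340)) (XT.lf (nat_lit 0) (nat_lit 4420536174) (nat_lit 1140) (nat_lit 2230883711) (nat_lit 1216) (nat_lit 587967992) (nat_lit 682) (nat_lit 5) (nat_lit 697) (nat_lit 3) (nat_lit 698) (nat_lit 5) (nat_lit 401) (nat_lit 400) (nat_lit 339)))) (XT.nd (nat_lit 78) (nat_lit 1216) (nat_lit 0) (XT.lf (nat_lit 76) (nat_lit 1435759485) (nat_lit 0) (nat_lit 4689376889) (nat_lit 1216) (nat_lit 1154163010) (nat_lit 683) (nat_lit 5) (nat_lit 682) (nat_lit 5) (nat_lit 698) (nat_lit 5) (nat_lit 402) (nat_lit 400) (nat_lit 338)) (XT.nd (nat_lit 78) (nat_lit 0) (nat_lit 0) (XT.lf (nat_lit 0) (nat_lit 508653992) (nat_lit 1216) (nat_lit 2140635004) (nat_lit 1292) (nat_lit 4671210171) (nat_lit 666) (nat_lit 5) (nat_lit 682) (nat_lit 5) (nat_lit 683) (nat_lit 5) (nat_lit 403) (nat_lit 400) (nat_lit 337)) (XT.lf (nat_lit 76) (nat_lit 1627210908) (nat_lit 0) (nat_lit 530383994) (nat_lit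 1292) (nat_lit 5205409029) (nat_lit 667) (nat_lit 5) (nat_lit 666) (nat_lit 5) (nat_lit 683) (nat_lit 5) (nat_lit 404) (nat_lit 400) (nat_lit 336))))) (XT.nd (nat_lit 234) (nat_lit 1216) (nat_lit 0) (XT.nd (nat_lit 78) (nat_lit 0) (nat_lit 0) (XT.lf (nat_lit 0) (nat_lit 3823110070) (nat_lit 1216) (nat_lit 1940943883) (nat_lit 1292) (nat_lit 1642632926) (nat_lit 667) (nat_lit 5) (nat_lit 683) (nat_lit 5) (nat_lit 684) (nat_lit 5) (nat_lit 405) (nat_lit 400) (nat_lit 335)) (XT.nd (nat_lit 78) (nat_lit 0) (nat_lit 0) (XT.lf (nat_lit 76) (nat_lit 1928425537) (nat_lit 0) (nat_lit 3568902553) (nat_lit 1292) (nat_lit 1954407547) (nat_lit 668) (nat_lit 5) (nat_lit 667) (nat_lit 5) (nat_lit 684) (nat_lit 5) (nat_lit 406) (nat_lit 400) (nat_lit 334)) (XT.lf (nat_lit 76) (nat_lit 5878488818) (nat_lit 0) (nat_lit 1299573379) (nat_lit 1292) (nat_lit 320162536) (nat_lit 668) (nat_lit 5) (nat_lit 667) (nat_lit 5) (nat_lit 684) (nat_lit 5) (nat_lit 407)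 (nat_lit 400) (nat_lit 333)))) (XT.nd (nat_lit 156) (nat_lit 0) (nat_lit 0) (XT.nd (nat_lit 78) (nat_lit 0) (nat_lit 0) (XT.lf (nat_lit 0) (nat_lit 1311822126) (nat_lit 1292) (nat_lit 5191754045) (nat_lit 1368) (nat_lit 1042238203) (nat_lit 651) (nat_lit 5) (nat_lit 668) (nat_lit 5) (nat_lit 669) (nat_lit 5) (nat_lit 408) (nat_lit 400) (nat_lit 332)) (XT.lf (nat_lit 0) (nat_lit 2952971111) (nat_lit 1292) (nat_lit 1199454080) (nat_lit 1368) (nat_lit 3442272059) (nat_lit 651) (nat_lit 5) (nat_lit 668) (nat_lit 5) (nat_lit 669) (nat_lit 5) (nat_lit 409) (nat_lit 400) (nat_lit 331))) (XT.nd (nat_lit 78) (nat_lit 0) (nat_lit 76) (XT.lf (nat_lit 76) (nat_lit 2887219663) (nat_lit 0) (nat_lit 1720488654) (nat_lit 1368) (nat_lit 3037234162) (nat_lit 652) (nat_lit 5) (nat_lit 651) (nat_lit 5) (nat_lit 669) (nat_lit 5) (nat_lit 410) (nat_lit 400) (nat_lit 330)) (XT.lf (nat_lit 0) (nat_lit 6271283412) (nat_lit 1292) (nat_lit 653159138) (nat_lit 1368)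 (nat_lit 772235200) (nat_lit 652) (nat_lit 5) (nat_lit 669) (nat_lit 5) (nat_lit 670) (nat_lit 5) (nat_lit 411) (nat_lit 400) (nat_lit 329))))))))
noncomputable def xc87 : XT := (XT.nd (nat_lit 2028) (nat_lit 12540) (nat_lit 0) (XT.nd (nat_lit 1014) (nat_lit 10032) (nat_lit 0) (XT.nd (nat_lit 468) (nat_lit 2888) (nat_lit 0) (XT.nd (nat_lit 234) (nat_lit 1292) (nat_lit 0) (XT.nd (nat_lit 78) (nat_lit 0) (nat_lit 0) (XT.lf (nat_lit 0) (nat_lit 213647840) (nat_lit 1368) (nat_lit 4205854569) (nat_lit 1444) (nat_lit 3329960247) (nat_lit 634) (nat_lit 5) (nat_lit 652) (nat_lit 5) (nat_lit 653) (nat_lit 5) (nat_lit 412) (nat_lit 400) (nat_lit 328)) (XT.nd (nat_lit 78) (nat_lit 0) (nat_lit 76) (XT.lf (nat_lit 0) (nat_lit 1834578485) (nat_lit 1368) (nat_lit 3400455) (nat_lit 1444) (nat_lit 5965772010) (nat_lit 634) (nat_lit 5) (nat_lit 652) (nat_lit 5) (nat_lit 653) (nat_lit 5) (nat_lit 413) (nat_lit 400) (nat_lit 327)) (XT.lf (nat_lit 0) (nat_lit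 3485853322) (nat_lit 1368) (nat_lit 3548402588) (nat_lit 1444) (nat_lit 824910589) (nat_lit 635) (nat_lit 5) (nat_lit 653) (nat_lit 5) (nat_lit 654) (nat_lit 5) (nat_lit 414) (nat_lit 400) (nat_lit 326)))) (XT.nd (nat_lit 78) (nat_lit 1368) (nat_lit 0) (XT.lf (nat_lit 76) (nat_lit 769453106) (nat_lit 0) (nat_lit 4382987303) (nat_lit 1444) (nat_lit 2763604215) (nat_lit 636) (nat_lit 5) (nat_lit 635) (nat_lit 5) (nat_lit 654) (nat_lit 5) (nat_lit 415) (nat_lit 400) (nat_lit 325)) (XT.nd (nat_lit 78) (nat_lit 1368) (nat_lit 0) (XT.lf (nat_lit 76) (nat_lit 5197889596) (nat_lit 0) (nat_lit 1643906607) (nat_lit 1444) (nat_lit 1132475370) (nat_lit 636) (nat_lit 5) (nat_lit 635) (nat_lit 5) (nat_lit 654) (nat_lit 5) (nat_lit 416) (nat_lit 400) (nat_lit 324)) (XT.lf (nat_lit 0) (nat_lit 508892022) (nat_lit 1444) (nat_lit 6365777849) (nat_lit 1520) (nat_lit 1159232525) (nat_lit 617) (nat_lit 5) (nat_lit 636) (nat_lit 5) (nat_lit 637) (nat_lit 5)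 (nat_lit 417) (nat_lit 400) (nat_lit 323))))) (XT.nd (nat_lit 234) (nat_lit 2888) (nat_lit 0) (XT.nd (nat_lit 78) (nat_lit 0) (nat_lit 0) (XT.lf (nat_lit 0) (nat_lit 2164228741) (nat_lit 1444) (nat_lit 1898140310) (nat_lit 1520) (nat_lit 4032280955) (nat_lit 617) (nat_lit 5) (nat_lit 636) (nat_lit 5) (nat_lit 637) (nat_lit 5) (nat_lit 418) (nat_lit 400) (nat_lit 322)) (XT.nd (nat_lit 78) (nat_lit 0) (nat_lit 76) (XT.lf (nat_lit 76) (nat_lit 2669912574) (nat_lit 0) (nat_lit 1167398858) (nat_lit 1520) (nat_lit 4319608353) (nat_lit 618) (nat_lit 5) (nat_lit 617) (nat_lit 5) (nat_lit 637) (nat_lit 5) (nat_lit 419) (nat_lit 400) (nat_lit 321)) (XT.lf (nat_lit 0) (nat_lit 5536115718) (nat_lit 1444) (nat_lit 901295717) (nat_lit 1520) (nat_lit 1783178325) (nat_lit 618) (nat_lit 5) (nat_lit 637) (nat_lit 5) (nat_lit 638) (nat_lit 5) (nat_lit 420) (nat_lit 400) (nat_lit 320)))) (XT.nd (nat_lit 156) (nat_lit 1444) (nat_lit 0) (XT.nd (nat_lit 78)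 (nat_lit 1520) (nat_lit 0) (XT.lf (nat_lit 76) (nat_lit 3794145078) (nat_lit 0) (nat_lit 3475592319) (nat_lit 1520) (nat_lit 1015778911) (nat_lit 619) (nat_lit 5) (nat_lit 618) (nat_lit 5) (nat_lit 638) (nat_lit 5) (nat_lit 421) (nat_lit 400) (nat_lit 319)) (XT.lf (nat_lit 76) (nat_lit 218184966) (nat_lit 0) (nat_lit 435342767) (nat_lit 1596) (nat_lit 7698599769) (nat_lit 599) (nat_lit 5) (nat_lit 598) (nat_lit 5) (nat_lit 619) (nat_lit 5) (nat_lit 422) (nat_lit 400) (nat_lit 318))) (XT.nd (nat_lit 78) (nat_lit 1520) (nat_lit 0) (XT.lf (nat_lit 0) (nat_lit 2359512181) (nat_lit 1520) (nat_lit 3385660528) (nat_lit 76) (nat_lit 2674426065) (nat_lit 599) (nat_lit 5) (nat_lit 619) (nat_lit 5) (nat_lit 600) (nat_lit 5) (nat_lit 423) (nat_lit 400) (nat_lit 317)) (XT.lf (nat_lit 0) (nat_lit 1449427056) (nat_lit 1520) (nat_lit 2632319831) (nat_lit 1596) (nat_lit 4407029973) (nat_lit 579) (nat_lit 5) (nat_lit 599) (nat_lit 5) (nat_lit 600) (nat_lit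 5) (nat_lit 424) (nat_lit 400) (nat_lit 316)))))) (XT.nd (nat_lit 468) (nat_lit 4940) (nat_lit 0) (XT.nd (nat_lit 234) (nat_lit 3420) (nat_lit 0) (XT.nd (nat_lit 78) (nat_lit 1672) (nat_lit 0) (XT.lf (nat_lit 0) (nat_lit 5835128489) (nat_lit 1596) (nat_lit 2160206470) (nat_lit 76) (nat_lit 564069506) (nat_lit 579) (nat_lit 5) (nat_lit 600) (nat_lit 5) (nat_lit 580) (nat_lit 5) (nat_lit 425) (nat_lit 400) (nat_lit 315)) (XT.nd (nat_lit 78) (nat_lit 76) (nat_lit 0) (XT.lf (nat_lit 0) (nat_lit 2811690771) (nat_lit 1596) (nat_lit 4818465110) (nat_lit 1672) (nat_lit 1001157177) (nat_lit 558) (nat_lit 5) (nat_lit 579) (nat_lit 5) (nat_lit 580) (nat_lit 5) (nat_lit 426) (nat_lit 400) (nat_lit 314)) (XT.lf (nat_lit 0) (nat_lit 732209889) (nat_lit 1672) (nat_lit 821565378) (nat_lit 76) (nat_lit 7151072201) (nat_lit 557) (nat_lit 5) (nat_lit 579) (nat_lit 5) (nat_lit 558) (nat_lit 5) (nat_lit 427) (nat_lit 400) (nat_lit 313)))) (XT.nd (nat_lit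 78) (nat_lit 1748) (nat_lit 0) (XT.lf (nat_lit 0) (nat_lit 2498254218) (nat_lit 1748) (nat_lit 4489285900) (nat_lit 76) (nat_lit 1791951789) (nat_lit 535) (nat_lit 5) (nat_lit 558) (nat_lit 5) (nat_lit 536) (nat_lit 5) (nat_lit 428) (nat_lit 400) (nat_lit 312)) (XT.nd (nat_lit 78) (nat_lit 0) (nat_lit 0) (XT.lf (nat_lit 0) (nat_lit 633367890) (nat_lit 1748) (nat_lit 3658310868) (nat_lit 1824) (nat_lit 4564109289) (nat_lit 512) (nat_lit 5) (nat_lit 535) (nat_lit 5) (nat_lit 536) (nat_lit 5) (nat_lit 429) (nat_lit 400) (nat_lit 311)) (XT.lf (nat_lit 0) (nat_lit 5895046200) (nat_lit 1748) (nat_lit 228547847) (nat_lit 1824) (nat_lit 2809963616) (nat_lit 512) (nat_lit 5) (nat_lit 535) (nat_lit 5) (nat_lit 536) (nat_lit 5) (nat_lit 430) (nat_lit 400) (nat_lit 310))))) (XT.nd (nat_lit 234) (nat_lit 1900) (nat_lit 0) (XT.nd (nat_lit 78) (nat_lit 1216) (nat_lit 0) (XT.lf (nat_lit 0) (nat_lit 2232763041) (nat_lit 1824) (nat_lit 5768167529) (nat_lit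 1900) (nat_lit 1011776445) (nat_lit 488) (nat_lit 5) (nat_lit 512) (nat_lit 5) (nat_lit 513) (nat_lit 5) (nat_lit 431) (nat_lit 400) (nat_lit 309)) (XT.nd (nat_lit 78) (nat_lit 1140) (nat_lit 0) (XT.lf (nat_lit 0) (nat_lit 806879226) (nat_lit 1900) (nat_lit 1473929532) (nat_lit 76) (nat_lit 6812617999) (nat_lit 487) (nat_lit 5) (nat_lit 512) (nat_lit 5) (nat_lit 488) (nat_lit 5) (nat_lit 432) (nat_lit 400) (nat_lit 308)) (XT.lf (nat_lit 0) (nat_lit 2656371060) (nat_lit 1216) (nat_lit 5224799274) (nat_lit 76) (nat_lit 1294296590) (nat_lit 472) (nat_lit 5) (nat_lit 488) (nat_lit 5) (nat_lit 473) (nat_lit 5) (nat_lit 433) (nat_lit 400) (nat_lit 307)))) (XT.nd (nat_lit 156) (nat_lit 988) (nat_lit 0) (XT.nd (nat_lit 78) (nat_lit 0) (nat_lit 0) (XT.lf (nat_lit 0) (nat_lit 207891783) (nat_lit 912) (nat_lit 4335519477) (nat_lit 988) (nat_lit 4715725463) (nat_lit 460) (nat_lit 5) (nat_lit 472) (nat_lit 5) (nat_lit 473) (nat_lit 5) (nat_lit 434)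 (nat_lit 400) (nat_lit 306)) (XT.lf (nat_lit 0) (nat_lit 5795770290) (nat_lit 912) (nat_lit 681980049) (nat_lit 988) (nat_lit 2866538418) (nat_lit 460) (nat_lit 5) (nat_lit 472) (nat_lit 5) (nat_lit 473) (nat_lit 5) (nat_lit 435) (nat_lit 400) (nat_lit 305))) (XT.nd (nat_lit 78) (nat_lit 76) (nat_lit 0) (XT.lf (nat_lit 0) (nat_lit 2047020406) (nat_lit 912) (nat_lit 6411818869) (nat_lit 988) (nat_lit 972143294) (nat_lit 448) (nat_lit 5) (nat_lit 460) (nat_lit 5) (nat_lit 461) (nat_lit 5) (nat_lit 436) (nat_lit 400) (nat_lit 304)) (XT.lf (nat_lit 0) (nat_lit 951208486) (nat_lit 988) (nat_lit 1751762156) (nat_lit 76) (nat_lit 6816241716) (nat_lit 447) (nat_lit 5) (nat_lit 460) (nat_lit 5) (nat_lit 448) (nat_lit 5) (nat_lit 437) (nat_lit 400) (nat_lit 303))))))) (XT.nd (nat_lit 1014) (nat_lit 5928) (nat_lit 0) (XT.nd (nat_lit 468) (nat_lit 3116) (nat_lit 0) (XT.nd (nat_lit 234) (nat_lit 1748) (nat_lit 0) (XT.nd (nat_lit 78) (nat_lit 912)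 (nat_lit 0) (XT.lf (nat_lit 0) (nat_lit 2908983648) (nat_lit 912) (nat_lit 5600979174) (nat_lit 76) (nat_lit 1098935936) (nat_lit 436) (nat_lit 5) (nat_lit 448) (nat_lit 5) (nat_lit 437) (nat_lit 5) (nat_lit 438) (nat_lit 400) (nat_lit 302)) (XT.nd (nat_lit 78) (nat_lit 0) (nat_lit 0) (XT.lf (nat_lit 0) (nat_lit 166264535) (nat_lit 912) (nat_lit 4746447642) (nat_lit 988) (nat_lit 4787530753) (nat_lit 424) (nat_lit 5) (nat_lit 436) (nat_lit 5) (nat_lit 437) (nat_lit 5) (nat_lit 439) (nat_lit 400) (nat_lit 301)) (XT.lf (nat_lit 0) (nat_lit 6100601448) (nat_lit 912) (nat_lit 869798075) (nat_lit 988) (nat_lit 2822736775) (nat_lit 424) (nat_lit 5) (nat_lit 436) (nat_lit 5) (nat_lit 437) (nat_lit 5) (nat_lit 440) (nat_lit 400) (nat_lit 300)))) (XT.nd (nat_lit 78) (nat_lit 912) (nat_lit 0) (XT.lf (nat_lit 0) (nat_lit 2251072789) (nat_lit 836) (nat_lit 6829569604) (nat_lit 912) (nat_lit 807017106) (nat_lit 413) (nat_lit 5) (nat_lit 424) (nat_lit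 5) (nat_lit 425) (nat_lit 5) (nat_lit 441) (nat_lit 400) (nat_lit 299)) (XT.nd (nat_lit 78) (nat_lit 836) (nat_lit 0) (XT.lf (nat_lit 0) (nat_lit 1240247439) (nat_lit 912) (nat_lit 1658315564) (nat_lit 76) (nat_lit 7085195742) (nat_lit 412) (nat_lit 5) (nat_lit 424) (nat_lit 5) (nat_lit 413) (nat_lit 5) (nat_lit 442) (nat_lit 400) (nat_lit 298)) (XT.lf (nat_lit 0) (nat_lit 3331471529) (nat_lit 912) (nat_lit 5620024824) (nat_lit 76) (nat_lit 1129900529) (nat_lit 401) (nat_lit 5) (nat_lit 413) (nat_lit 5) (nat_lit 402) (nat_lit 5) (nat_lit 443) (nat_lit 400) (nat_lit 297))))) (XT.nd (nat_lit 234) (nat_lit 1596) (nat_lit 0) (XT.nd (nat_lit 78) (nat_lit 760) (nat_lit 0) (XT.lf (nat_lit 0) (nat_lit 508451138) (nat_lit 760) (nat_lit 4967410507) (nat_lit 836) (nat_lit 4704899307) (nat_lit 391) (nat_lit 5) (nat_lit 401) (nat_lit 5) (nat_lit 402) (nat_lit 5) (nat_lit 444) (nat_lit 400) (nat_lit 296)) (XT.nd (nat_lit 78) (nat_lit 760) (nat_lit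 0) (XT.lf (nat_lit 0) (nat_lit 6811721259) (nat_lit 760) (nat_lit 867057162) (nat_lit 836) (nat_lit 2603021105) (nat_lit 391) (nat_lit 5) (nat_lit 401) (nat_lit 5) (nat_lit 402) (nat_lit 5) (nat_lit 445) (nat_lit 400) (nat_lit 295)) (XT.lf (nat_lit 0) (nat_lit 2848118952) (nat_lit 760) (nat_lit 7095997992) (nat_lit 836) (nat_lit 440374659) (nat_lit 381) (nat_lit 5) (nat_lit 391) (nat_lit 5) (nat_lit 392) (nat_lit 5) (nat_lit 446) (nat_lit 400) (nat_lit 294)))) (XT.nd (nat_lit 156) (nat_lit 760) (nat_lit 0) (XT.nd (nat_lit 78) (nat_lit 760) (nat_lit 0) (XT.lf (nat_lit 0) (nat_lit 1750027059) (nat_lit 836) (nat_lit 1190449300) (nat_lit 76) (nat_lit 7548378753) (nat_lit 380) (nat_lit 5) (nat_lit 391) (nat_lit 5) (nat_lit 381) (nat_lit 5) (nat_lit 447) (nat_lit 400) (nat_lit 293)) (XT.lf (nat_lit 0) (nat_lit 4000482095) (nat_lit 836) (nat_lit 5277879314) (nat_lit 76) (nat_lit 1316443428) (nat_lit 370) (nat_lit 5) (nat_lit 381) (nat_lit 5)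 (nat_lit 371) (nat_lit 5) (nat_lit 448) (nat_lit 400) (nat_lit 292))) (XT.nd (nat_lit 78) (nat_lit 0) (nat_lit 0) (XT.lf (nat_lit 0) (nat_lit 1240808094) (nat_lit 760) (nat_lit 5069851406) (nat_lit 836) (nat_lit 4391919791) (nat_lit 360) (nat_lit 5) (nat_lit 370) (nat_lit 5) (nat_lit 371) (nat_lit 5) (nat_lit 449) (nat_lit 400) (nat_lit 291)) (XT.lf (nat_lit 0) (nat_lit 7937758957) (nat_lit 760) (nat_lit 744096564) (nat_lit 836) (nat_lit 2130357410) (nat_lit 360) (nat_lit 5) (nat_lit 370) (nat_lit 5) (nat_lit 371) (nat_lit 5) (nat_lit 450) (nat_lit 400) (nat_lit 290)))))) (XT.nd (nat_lit 546) (nat_lit 2432) (nat_lit 0) (XT.nd (nat_lit 234) (nat_lit 2052) (nat_lit 0) (XT.nd (nat_lit 78) (nat_lit 684) (nat_lit 0) (XT.lf (nat_lit 0) (nat_lit 202891685) (nat_lit 760) (nat_lit 7077120124) (nat_lit 76) (nat_lit 3643429136) (nat_lit 350) (nat_lit 5) (nat_lit 360) (nat_lit 5) (nat_lit 351) (nat_lit 5) (nat_lit 451) (nat_lit 400) (nat_lit 289))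 (XT.nd (nat_lit 78) (nat_lit 684) (nat_lit 0) (XT.lf (nat_lit 0) (nat_lit 2558545941) (nat_lit 760) (nat_lit 338882696) (nat_lit 76) (nat_lit 8139097935) (nat_lit 350) (nat_lit 5) (nat_lit 360) (nat_lit 5) (nat_lit 351) (nat_lit 5) (nat_lit 452) (nat_lit 400) (nat_lit 288)) (XT.lf (nat_lit 0) (nat_lit 4994909316) (nat_lit 760) (nat_lit 4564459900) (nat_lit 76) (nat_lit 1591832775) (nat_lit 341) (nat_lit 5) (nat_lit 351) (nat_lit 5) (nat_lit 342) (nat_lit 5) (nat_lit 453) (nat_lit 400) (nat_lit 287)))) (XT.nd (nat_lit 156) (nat_lit 1368) (nat_lit 0) (XT.nd (nat_lit 78) (nat_lit 0) (nat_lit 0) (XT.lf (nat_lit 0) (nat_lit 2375869063) (nat_lit 684) (nat_lit 5121536000) (nat_lit 760) (nat_lit 3770417754) (nat_lit 332) (nat_lit 5) (nat_lit 341) (nat_lit 5) (nat_lit 342) (nat_lit 5) (nat_lit 454) (nat_lit 400) (nat_lit 286)) (XT.lf (nat_lit 0) (nat_lit 9493596100) (nat_lit 684) (nat_lit 567717689) (nat_lit 760) (nat_lit 1325235008) (nat_lit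 332) (nat_lit 5) (nat_lit 341) (nat_lit 5) (nat_lit 342) (nat_lit 5) (nat_lit 455) (nat_lit 400) (nat_lit 285))) (XT.nd (nat_lit 78) (nat_lit 608) (nat_lit 0) (XT.lf (nat_lit 0) (nat_lit 1195541959) (nat_lit 760) (nat_lit 6249242734) (nat_lit 76) (nat_lit 4061872420) (nat_lit 322) (nat_lit 5) (nat_lit 332) (nat_lit 5) (nat_lit 323) (nat_lit 5) (nat_lit 456) (nat_lit 400) (nat_lit 284)) (XT.lf (nat_lit 0) (nat_lit 923755420) (nat_lit 608) (nat_lit 2828977879) (nat_lit 684) (nat_lit 7876184226) (nat_lit 314) (nat_lit 5) (nat_lit 322) (nat_lit 5) (nat_lit 323) (nat_lit 5) (nat_lit 457) (nat_lit 400) (nat_lit 283))))) (XT.nd (nat_lit 234) (nat_lit 1824) (nat_lit 0) (XT.nd (nat_lit 78) (nat_lit 608) (nat_lit 0) (XT.lf (nat_lit 0) (nat_lit 6396854985) (nat_lit 684) (nat_lit 3463802908) (nat_lit 76) (nat_lit 1892249522) (nat_lit 314) (nat_lit 5) (nat_lit 323) (nat_lit 5) (nat_lit 315) (nat_lit 5) (nat_lit 458) (nat_lit 400) (nat_lit 282)) (XT.nd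 (nat_lit 78) (nat_lit 0) (nat_lit 0) (XT.lf (nat_lit 0) (nat_lit 3932216551) (nat_lit 608) (nat_lit 5187645744) (nat_lit 684) (nat_lit 2758994742) (nat_lit 306) (nat_lit 5) (nat_lit 314) (nat_lit 5) (nat_lit 315) (nat_lit 5) (nat_lit 459) (nat_lit 400) (nat_lit 281)) (XT.lf (nat_lit 0) (nat_lit 11500256805) (nat_lit 608) (nat_lit 402264281) (nat_lit 684) (nat_lit 104700741) (nat_lit 306) (nat_lit 5) (nat_lit 314) (nat_lit 5) (nat_lit 315) (nat_lit 5) (nat_lit 460) (nat_lit 400) (nat_lit 280)))) (XT.nd (nat_lit 156) (nat_lit 532) (nat_lit 0) (XT.nd (nat_lit 78) (nat_lit 608) (nat_lit 0) (XT.lf (nat_lit 0) (nat_lit 2626524300) (nat_lit 684) (nat_lit 5031163982) (nat_lit 76) (nat_lit 4478968068) (nat_lit 297) (nat_lit 5) (nat_lit 306) (nat_lit 5) (nat_lit 298) (nat_lit 5) (nat_lit 461) (nat_lit 400) (nat_lit 279)) (XT.lf (nat_lit 0) (nat_lit 2616583832) (nat_lit 608) (nat_lit 2799822282) (nat_lit 684) (nat_lit 6852150925) (nat_lit 289) (nat_lit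 5) (nat_lit 297) (nat_lit 5) (nat_lit 298) (nat_lit 5) (nat_lit 462) (nat_lit 400) (nat_lit 278))) (XT.nd (nat_lit 78) (nat_lit 532) (nat_lit 0) (XT.lf (nat_lit 0) (nat_lit 8292584628) (nat_lit 684) (nat_lit 1954129333) (nat_lit 76) (nat_lit 2155771797) (nat_lit 289) (nat_lit 5) (nat_lit 298) (nat_lit 5) (nat_lit 290) (nat_lit 5) (nat_lit 463) (nat_lit 400) (nat_lit 277)) (XT.lf (nat_lit 0) (nat_lit 5934433653) (nat_lit 532) (nat_lit 5331788662) (nat_lit 608) (nat_lit 1272072026) (nat_lit 282) (nat_lit 5) (nat_lit 289) (nat_lit 5) (nat_lit 290) (nat_lit 5) (nat_lit 464) (nat_lit 400) (nat_lit 276))))))))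
noncomputable def xc88 : XT := (XT.nd (nat_lit 55458) (nat_lit 0) (nat_lit 15200) (XT.nd (nat_lit 54444) (nat_lit 0) (nat_lit 31084) (XT.nd (nat_lit 468) (nat_lit 2052) (nat_lit 0) (XT.nd (nat_lit 234) (nat_lit 1140) (nat_lit 0) (XT.nd (nat_lit 78) (nat_lit 532) (nat_lit 0) (XT.lf (nat_lit 0) (nat_lit 1314715713) (nat_lit 608) (nat_lit 291196416) (nat_lit 684) (nat_lit 11070602718) (nat_lit 273) (nat_lit 5) (nat_lit 281) (nat_lit 5) (nat_lit 282) (nat_lit 5) (nat_lit 465) (nat_lit 400) (nat_lit 275)) (XT.nd (nat_lit 78) (nat_lit 532) (nat_lit 0) (XT.lf (nat_lit 0) (nat_lit 4583632804) (nat_lit 684) (nat_lit 3398399242) (nat_lit 76) (nat_lit 4834115351) (nat_lit 273) (nat_lit 5) (nat_lit 282) (nat_lit 5) (nat_lit 274) (nat_lit 5) (nat_lit 466) (nat_lit 400) (nat_lit 274)) (XT.lf (nat_lit 0) (nat_lit 4762489396) (nat_lit 532) (nat_lit 2874694005) (nat_lit 608) (nat_lit 5321063687) (nat_lit 266) (nat_lit 5) (nat_lit 273) (nat_lit 5) (nat_lit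 274) (nat_lit 5) (nat_lit 467) (nat_lit 400) (nat_lit 273)))) (XT.nd (nat_lit 78) (nat_lit 1140) (nat_lit 0) (XT.lf (nat_lit 0) (nat_lit 10773489512) (nat_lit 608) (nat_lit 7836008) (nat_lit 76) (nat_lit 2321429562) (nat_lit 266) (nat_lit 5) (nat_lit 274) (nat_lit 5) (nat_lit 267) (nat_lit 5) (nat_lit 468) (nat_lit 400) (nat_lit 272)) (XT.nd (nat_lit 78) (nat_lit 532) (nat_lit 0) (XT.lf (nat_lit 0) (nat_lit 770828579) (nat_lit 608) (nat_lit 4840942295) (nat_lit 76) (nat_lit 7637129879) (nat_lit 258) (nat_lit 5) (nat_lit 266) (nat_lit 5) (nat_lit 259) (nat_lit 5) (nat_lit 469) (nat_lit 400) (nat_lit 271)) (XT.lf (nat_lit 0) (nat_lit 3603964105) (nat_lit 532) (nat_lit 305212967) (nat_lit 608) (nat_lit 9488335510) (nat_lit 251) (nat_lit 5) (nat_lit 258) (nat_lit 5) (nat_lit 259) (nat_lit 5) (nat_lit 470) (nat_lit 400) (nat_lit 270))))) (XT.nd (nat_lit 234) (nat_lit 988) (nat_lit 0) (XT.nd (nat_lit 78) (nat_lit 1064) (nat_lit 0) (XT.lf (nat_lit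 0) (nat_lit 7160246641) (nat_lit 608) (nat_lit 1320650316) (nat_lit 76) (nat_lit 5067200609) (nat_lit 251) (nat_lit 5) (nat_lit 259) (nat_lit 5) (nat_lit 252) (nat_lit 5) (nat_lit 471) (nat_lit 400) (nat_lit 269)) (XT.nd (nat_lit 78) (nat_lit 532) (nat_lit 0) (XT.lf (nat_lit 0) (nat_lit 7394889447) (nat_lit 532) (nat_lit 3115886446) (nat_lit 608) (nat_lit 3190229590) (nat_lit 244) (nat_lit 5) (nat_lit 251) (nat_lit 5) (nat_lit 252) (nat_lit 5) (nat_lit 472) (nat_lit 400) (nat_lit 268)) (XT.lf (nat_lit 0) (nat_lit 95167232) (nat_lit 532) (nat_lit 11416513038) (nat_lit 76) (nat_lit 2344786849) (nat_lit 237) (nat_lit 5) (nat_lit 244) (nat_lit 5) (nat_lit 238) (nat_lit 5) (nat_lit 473) (nat_lit 400) (nat_lit 267)))) (XT.nd (nat_lit 156) (nat_lit 456) (nat_lit 0) (XT.nd (nat_lit 78) (nat_lit 532) (nat_lit 0) (XT.lf (nat_lit 0) (nat_lit 3451417537) (nat_lit 532) (nat_lit 2631773657) (nat_lit 76) (nat_lit 7930467792) (nat_lit 237) (nat_lit 5)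 (nat_lit 244) (nat_lit 5) (nat_lit 238) (nat_lit 5) (nat_lit 474) (nat_lit 400) (nat_lit 266)) (XT.lf (nat_lit 0) (nat_lit 6390943517) (nat_lit 532) (nat_lit 510235903) (nat_lit 608) (nat_lit 7272287539) (nat_lit 230) (nat_lit 5) (nat_lit 237) (nat_lit 5) (nat_lit 238) (nat_lit 5) (nat_lit 475) (nat_lit 400) (nat_lit 265))) (XT.nd (nat_lit 53508) (nat_lit 0) (nat_lit 34808) (XT.lf (nat_lit 0) (nat_lit 1254766005) (nat_lit 456) (nat_lit 9209696872) (nat_lit 532) (nat_lit 3871117687) (nat_lit 224) (nat_lit 5) (nat_lit 230) (nat_lit 5) (nat_lit 231) (nat_lit 5) (nat_lit 476) (nat_lit 400) (nat_lit 264)) (XT.lf (nat_lit 0) (nat_lit 1521761644) (nat_lit 0) (nat_lit 1521761644) (nat_lit 1140) (nat_lit 595781777) (nat_lit 682) (nat_lit 5) (nat_lit 682) (nat_lit 3) (nat_lit 697) (nat_lit 3) (nat_lit 401) (nat_lit 401) (nat_lit 338)))))) (XT.nd (nat_lit 468) (nat_lit 1292) (nat_lit 0) (XT.nd (nat_lit 234) (nat_lit 1140) (nat_lit 0) (XT.nd (nat_lit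 78) (nat_lit 0) (nat_lit 76) (XT.lf (nat_lit 0) (nat_lit 423006339) (nat_lit 1292) (nat_lit 587967992) (nat_lit 1292) (nat_lit 6308364143) (nat_lit 665) (nat_lit 3) (nat_lit 682) (nat_lit 3) (nat_lit 682) (nat_lit 5) (nat_lit 402) (nat_lit 401) (nat_lit 337)) (XT.nd (nat_lit 78) (nat_lit 0) (nat_lit 0) (XT.lf (nat_lit 0) (nat_lit 2039308954) (nat_lit 1216) (nat_lit 4224491226) (nat_lit 1292) (nat_lit 1097215752) (nat_lit 666) (nat_lit 5) (nat_lit 682) (nat_lit 5) (nat_lit 683) (nat_lit 5) (nat_lit 403) (nat_lit 401) (nat_lit 336)) (XT.lf (nat_lit 0) (nat_lit 3657175531) (nat_lit 1216) (nat_lit 489059462) (nat_lit 1292) (nat_lit 3257907188) (nat_lit 666) (nat_lit 5) (nat_lit 682) (nat_lit 5) (nat_lit 683) (nat_lit 5) (nat_lit 404) (nat_lit 401) (nat_lit 335)))) (XT.nd (nat_lit 78) (nat_lit 1216) (nat_lit 0) (XT.lf (nat_lit 76) (nat_lit 3342996078) (nat_lit 0) (nat_lit 1945491654) (nat_lit 1292) (nat_lit 2160021458) (nat_lit 667) (nat_lit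 5) (nat_lit 666) (nat_lit 5) (nat_lit 683) (nat_lit 5) (nat_lit 405) (nat_lit 401) (nat_lit 334)) (XT.nd (nat_lit 78) (nat_lit 1292) (nat_lit 0) (XT.lf (nat_lit 0) (nat_lit 6917829122) (nat_lit 1216) (nat_lit 260042451) (nat_lit 1292) (nat_lit 316583907) (nat_lit 667) (nat_lit 5) (nat_lit 683) (nat_lit 5) (nat_lit 684) (nat_lit 5) (nat_lit 406) (nat_lit 401) (nat_lit 333)) (XT.lf (nat_lit 0) (nat_lit 1022486789) (nat_lit 1292) (nat_lit 3872693480) (nat_lit 1368) (nat_lit 2646052193) (nat_lit 650) (nat_lit 5) (nat_lit 667) (nat_lit 5) (nat_lit 668) (nat_lit 5) (nat_lit 407) (nat_lit 401) (nat_lit 332))))) (XT.nd (nat_lit 234) (nat_lit 1292) (nat_lit 0) (XT.nd (nat_lit 78) (nat_lit 0) (nat_lit 0) (XT.lf (nat_lit 76) (nat_lit 64700684) (nat_lit 0) (nat_lit 2544649746) (nat_lit 1368) (nat_lit 4980248539) (nat_lit 651) (nat_lit 5) (nat_lit 650) (nat_lit 5) (nat_lit 668) (nat_lit 5) (nat_lit 408) (nat_lit 401) (nat_lit 331)) (XT.nd (nat_lit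 78) (nat_lit 0) (nat_lit 76) (XT.lf (nat_lit 76) (nat_lit 4110862449) (nat_lit 0) (nat_lit 104994879) (nat_lit 1368) (nat_lit 3423317359) (nat_lit 651) (nat_lit 5) (nat_lit 650) (nat_lit 5) (nat_lit 668) (nat_lit 5) (nat_lit 409) (nat_lit 401) (nat_lit 330)) (XT.lf (nat_lit 76) (nat_lit 516625198) (nat_lit 0) (nat_lit 5319462611) (nat_lit 1368) (nat_lit 1854022241) (nat_lit 652) (nat_lit 5) (nat_lit 651) (nat_lit 5) (nat_lit 669) (nat_lit 5) (nat_lit 410) (nat_lit 401) (nat_lit 329)))) (XT.nd (nat_lit 156) (nat_lit 0) (nat_lit 76) (XT.nd (nat_lit 78) (nat_lit 1368) (nat_lit 0) (XT.lf (nat_lit 76) (nat_lit 4666853543) (nat_lit 0) (nat_lit 2809583690) (nat_lit 1368) (nat_lit 265872601) (nat_lit 652) (nat_lit 5) (nat_lit 651) (nat_lit 5) (nat_lit 669) (nat_lit 5) (nat_lit 411) (nat_lit 401) (nat_lit 328)) (XT.lf (nat_lit 76) (nat_lit 1087235311) (nat_lit 0) (nat_lit 219932754) (nat_lit 1444) (nat_lit 6488791991) (nat_lit 634) (nat_lit 5)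 (nat_lit 633) (nat_lit 5) (nat_lit 652) (nat_lit 5) (nat_lit 412) (nat_lit 401) (nat_lit 327))) (XT.nd (nat_lit 78) (nat_lit 0) (nat_lit 0) (XT.lf (nat_lit 0) (nat_lit 2909083759) (nat_lit 1368) (nat_lit 2516432924) (nat_lit 1444) (nat_lit 2425111966) (nat_lit 634) (nat_lit 5) (nat_lit 652) (nat_lit 5) (nat_lit 653) (nat_lit 5) (nat_lit 413) (nat_lit 401) (nat_lit 326)) (XT.lf (nat_lit 76) (nat_lit 1758356158) (nat_lit 0) (nat_lit 2762725371) (nat_lit 1444) (nat_lit 3385748211) (nat_lit 635) (nat_lit 5) (nat_lit 634) (nat_lit 5) (nat_lit 653) (nat_lit 5) (nat_lit 414) (nat_lit 401) (nat_lit 325))))))) (XT.nd (nat_lit 1014) (nat_lit 10108) (nat_lit 0) (XT.nd (nat_lit 468) (nat_lit 4484) (nat_lit 0) (XT.nd (nat_lit 234) (nat_lit 0) (nat_lit 76) (XT.nd (nat_lit 78) (nat_lit 1368) (nat_lit 0) (XT.lf (nat_lit 76) (nat_lit 6129949719) (nat_lit 0) (nat_lit 17961843) (nat_lit 1444) (nat_lit 1816591444) (nat_lit 635) (nat_lit 5) (nat_lit 634)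 (nat_lit 5) (nat_lit 653) (nat_lit 5) (nat_lit 415) (nat_lit 401) (nat_lit 324)) (XT.nd (nat_lit 78) (nat_lit 1444) (nat_lit 0) (XT.lf (nat_lit 76) (nat_lit 2558033155) (nat_lit 0) (nat_lit 5250365417) (nat_lit 1444) (nat_lit 214908758) (nat_lit 636) (nat_lit 5) (nat_lit 635) (nat_lit 5) (nat_lit 654) (nat_lit 5) (nat_lit 416) (nat_lit 401) (nat_lit 323)) (XT.lf (nat_lit 0) (nat_lit 1379452281) (nat_lit 1444) (nat_lit 1052505379) (nat_lit 1520) (nat_lit 5651560791) (nat_lit 616) (nat_lit 5) (nat_lit 635) (nat_lit 5) (nat_lit 636) (nat_lit 5) (nat_lit 417) (nat_lit 401) (nat_lit 322)))) (XT.nd (nat_lit 78) (nat_lit 0) (nat_lit 0) (XT.lf (nat_lit 0) (nat_lit 2995842940) (nat_lit 1444) (nat_lit 4678534594) (nat_lit 1520) (nat_lit 470667448) (nat_lit 617) (nat_lit 5) (nat_lit 636) (nat_lit 5) (nat_lit 637) (nat_lit 5) (nat_lit 418) (nat_lit 401) (nat_lit 321)) (XT.nd (nat_lit 78) (nat_lit 0) (nat_lit 0) (XT.lf (nat_lit 0) (nat_lit 4635722216)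 (nat_lit 1444) (nat_lit 157123889) (nat_lit 1520) (nat_lit 3415132724) (nat_lit 617) (nat_lit 5) (nat_lit 636) (nat_lit 5) (nat_lit 637) (nat_lit 5) (nat_lit 419) (nat_lit 401) (nat_lit 320)) (XT.lf (nat_lit 76) (nat_lit 4490586241) (nat_lit 0) (nat_lit 1815542704) (nat_lit 1520) (nat_lit 1966087810) (nat_lit 618) (nat_lit 5) (nat_lit 617) (nat_lit 5) (nat_lit 637) (nat_lit 5) (nat_lit 420) (nat_lit 401) (nat_lit 319))))) (XT.nd (nat_lit 234) (nat_lit 3116) (nat_lit 0) (XT.nd (nat_lit 78) (nat_lit 1520) (nat_lit 0) (XT.lf (nat_lit 76) (nat_lit 875666252) (nat_lit 0) (nat_lit 7118048063) (nat_lit 1520) (nat_lit 344349714) (nat_lit 619) (nat_lit 5) (nat_lit 618) (nat_lit 5) (nat_lit 638) (nat_lit 5) (nat_lit 421) (nat_lit 401) (nat_lit 318)) (XT.nd (nat_lit 78) (nat_lit 0) (nat_lit 0) (XT.lf (nat_lit 0) (nat_lit 1299559500) (nat_lit 1520) (nat_lit 2771842826) (nat_lit 1596) (nat_lit 4333517540) (nat_lit 598) (nat_lit 5) (nat_lit 618) (nat_lit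 5) (nat_lit 619) (nat_lit 5) (nat_lit 422) (nat_lit 401) (nat_lit 317)) (XT.lf (nat_lit 76) (nat_lit 2013318082) (nat_lit 0) (nat_lit 941441799) (nat_lit 1596) (nat_lit 5518646939) (nat_lit 599) (nat_lit 5) (nat_lit 598) (nat_lit 5) (nat_lit 619) (nat_lit 5) (nat_lit 423) (nat_lit 401) (nat_lit 316)))) (XT.nd (nat_lit 156) (nat_lit 1672) (nat_lit 0) (XT.nd (nat_lit 78) (nat_lit 1520) (nat_lit 0) (XT.lf (nat_lit 0) (nat_lit 4646832026) (nat_lit 1520) (nat_lit 1649685456) (nat_lit 76) (nat_lit 2246670676) (nat_lit 599) (nat_lit 5) (nat_lit 619) (nat_lit 5) (nat_lit 600) (nat_lit 5) (nat_lit 424) (nat_lit 401) (nat_lit 315)) (XT.lf (nat_lit 0) (nat_lit 3270237510) (nat_lit 1520) (nat_lit 3100983504) (nat_lit 1596) (nat_lit 2243174601) (nat_lit 579) (nat_lit 5) (nat_lit 599) (nat_lit 5) (nat_lit 600) (nat_lit 5) (nat_lit 425) (nat_lit 401) (nat_lit 314))) (XT.nd (nat_lit 78) (nat_lit 1672) (nat_lit 0) (XT.lf (nat_lit 0) (nat_lit 8113731184)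 (nat_lit 1596) (nat_lit 400783388) (nat_lit 76) (nat_lit 172839980) (nat_lit 579) (nat_lit 5) (nat_lit 600) (nat_lit 5) (nat_lit 580) (nat_lit 5) (nat_lit 426) (nat_lit 401) (nat_lit 313)) (XT.lf (nat_lit 0) (nat_lit 1137462910) (nat_lit 1672) (nat_lit 4110107484) (nat_lit 76) (nat_lit 3513596524) (nat_lit 557) (nat_lit 5) (nat_lit 579) (nat_lit 5) (nat_lit 558) (nat_lit 5) (nat_lit 427) (nat_lit 401) (nat_lit 312)))))) (XT.nd (nat_lit 468) (nat_lit 3648) (nat_lit 0) (XT.nd (nat_lit 234) (nat_lit 3040) (nat_lit 0) (XT.nd (nat_lit 78) (nat_lit 1748) (nat_lit 0) (XT.lf (nat_lit 0) (nat_lit 958174920) (nat_lit 1672) (nat_lit 1898086811) (nat_lit 1748) (nat_lit 5980494535) (nat_lit 535) (nat_lit 5) (nat_lit 557) (nat_lit 5) (nat_lit 558) (nat_lit 5) (nat_lit 428) (nat_lit 401) (nat_lit 311)) (XT.nd (nat_lit 78) (nat_lit 1748) (nat_lit 0) (XT.lf (nat_lit 0) (nat_lit 4619712984) (nat_lit 1748) (nat_lit 2763773792) (nat_lit 76) (nat_lit 1530165095)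 (nat_lit 535) (nat_lit 5) (nat_lit 558) (nat_lit 5) (nat_lit 536) (nat_lit 5) (nat_lit 429) (nat_lit 401) (nat_lit 310)) (XT.lf (nat_lit 0) (nat_lit 2449390324) (nat_lit 1748) (nat_lit 3970706744) (nat_lit 1824) (nat_lit 2571955044) (nat_lit 512) (nat_lit 5) (nat_lit 535) (nat_lit 5) (nat_lit 536) (nat_lit 5) (nat_lit 430) (nat_lit 401) (nat_lit 309)))) (XT.nd (nat_lit 78) (nat_lit 3040) (nat_lit 0) (XT.lf (nat_lit 0) (nat_lit 7780942298) (nat_lit 1748) (nat_lit 467657685) (nat_lit 1824) (nat_lit 823578153) (nat_lit 512) (nat_lit 5) (nat_lit 535) (nat_lit 5) (nat_lit 536) (nat_lit 5) (nat_lit 431) (nat_lit 401) (nat_lit 308)) (XT.nd (nat_lit 78) (nat_lit 1140) (nat_lit 0) (XT.lf (nat_lit 0) (nat_lit 968039618) (nat_lit 1900) (nat_lit 5084779008) (nat_lit 76) (nat_lit 3100546208) (nat_lit 487) (nat_lit 5) (nat_lit 512) (nat_lit 5) (nat_lit 488) (nat_lit 5) (nat_lit 432) (nat_lit 401) (nat_lit 307)) (XT.lf (nat_lit 0) (nat_lit 288675296)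 (nat_lit 1140) (nat_lit 2483781050) (nat_lit 1216) (nat_lit 6463850156) (nat_lit 472) (nat_lit 5) (nat_lit 487) (nat_lit 5) (nat_lit 488) (nat_lit 5) (nat_lit 433) (nat_lit 401) (nat_lit 306))))) (XT.nd (nat_lit 234) (nat_lit 2736) (nat_lit 0) (XT.nd (nat_lit 78) (nat_lit 912) (nat_lit 0) (XT.lf (nat_lit 0) (nat_lit 4629473207) (nat_lit 1216) (nat_lit 3513407330) (nat_lit 76) (nat_lit 1177696231) (nat_lit 472) (nat_lit 5) (nat_lit 488) (nat_lit 5) (nat_lit 473) (nat_lit 5) (nat_lit 434) (nat_lit 401) (nat_lit 305)) (XT.nd (nat_lit 78) (nat_lit 0) (nat_lit 0) (XT.lf (nat_lit 0) (nat_lit 2015990917) (nat_lit 912) (nat_lit 4512329114) (nat_lit 988) (nat_lit 2878118615) (nat_lit 460) (nat_lit 5) (nat_lit 472) (nat_lit 5) (nat_lit 473) (nat_lit 5) (nat_lit 435) (nat_lit 401) (nat_lit 304)) (XT.lf (nat_lit 0) (nat_lit 7680255596) (nat_lit 912) (nat_lit 783952246) (nat_lit 988) (nat_lit 1029828640) (nat_lit 460) (nat_lit 5) (nat_lit 472) (nat_lit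 5) (nat_lit 473) (nat_lit 5) (nat_lit 436) (nat_lit 401) (nat_lit 303)))) (XT.nd (nat_lit 156) (nat_lit 1748) (nat_lit 0) (XT.nd (nat_lit 78) (nat_lit 0) (nat_lit 0) (XT.lf (nat_lit 0) (nat_lit 865129142) (nat_lit 988) (nat_lit 5706303397) (nat_lit 76) (nat_lit 3011424234) (nat_lit 447) (nat_lit 5) (nat_lit 460) (nat_lit 5) (nat_lit 448) (nat_lit 5) (nat_lit 437) (nat_lit 401) (nat_lit 302)) (XT.lf (nat_lit 0) (nat_lit 2777791941) (nat_lit 988) (nat_lit 3562129) (nat_lit 76) (nat_lit 6892091349) (nat_lit 447) (nat_lit 5) (nat_lit 460) (nat_lit 5) (nat_lit 448) (nat_lit 5) (nat_lit 438) (nat_lit 401) (nat_lit 301))) (XT.nd (nat_lit 78) (nat_lit 912) (nat_lit 0) (XT.lf (nat_lit 0) (nat_lit 4750703383) (nat_lit 912) (nat_lit 3905744264) (nat_lit 76) (nat_lit 1108958285) (nat_lit 436) (nat_lit 5) (nat_lit 448) (nat_lit 5) (nat_lit 437) (nat_lit 5) (nat_lit 439) (nat_lit 401) (nat_lit 300)) (XT.lf (nat_lit 0) (nat_lit 1964954487) (nat_lit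 912) (nat_lit 4806237320) (nat_lit 988) (nat_lit 3087851473) (nat_lit 424) (nat_lit 5) (nat_lit 436) (nat_lit 5) (nat_lit 437) (nat_lit 5) (nat_lit 440) (nat_lit 401) (nat_lit 299))))))))
noncomputable def xc89 : XT := (XT.nd (nat_lit 2028) (nat_lit 3268) (nat_lit 0) (XT.nd (nat_lit 1014) (nat_lit 5168) (nat_lit 0) (XT.nd (nat_lit 468) (nat_lit 3800) (nat_lit 0) (XT.nd (nat_lit 234) (nat_lit 760) (nat_lit 0) (XT.nd (nat_lit 78) (nat_lit 1748) (nat_lit 0) (XT.lf (nat_lit 0) (nat_lit 7982774909) (nat_lit 912) (nat_lit 852743767) (nat_lit 988) (nat_lit 1118966124) (nat_lit 424) (nat_lit 5) (nat_lit 436) (nat_lit 5) (nat_lit 437) (nat_lit 5) (nat_lit 441) (nat_lit 401) (nat_lit 298)) (XT.nd (nat_lit 78) (nat_lit 836) (nat_lit 0) (XT.lf (nat_lit 0) (nat_lit 902588072) (nat_lit 912) (nat_lit 5978536806) (nat_lit 76) (nat_lit 3170095708) (nat_lit 412) (nat_lit 5) (nat_lit 424) (nat_lit 5) (nat_lit 413) (nat_lit 5) (nat_lit 442) (nat_lit 401)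 (nat_lit 297)) (XT.lf (nat_lit 0) (nat_lit 79598500) (nat_lit 836) (nat_lit 2867293894) (nat_lit 912) (nat_lit 7202904726) (nat_lit 401) (nat_lit 5) (nat_lit 412) (nat_lit 5) (nat_lit 413) (nat_lit 5) (nat_lit 443) (nat_lit 401) (nat_lit 296)))) (XT.nd (nat_lit 78) (nat_lit 760) (nat_lit 0) (XT.lf (nat_lit 0) (nat_lit 5058513980) (nat_lit 912) (nat_lit 3941478714) (nat_lit 76) (nat_lit 1249823865) (nat_lit 401) (nat_lit 5) (nat_lit 413) (nat_lit 5) (nat_lit 402) (nat_lit 5) (nat_lit 444) (nat_lit 401) (nat_lit 295)) (XT.nd (nat_lit 78) (nat_lit 0) (nat_lit 0) (XT.lf (nat_lit 0) (nat_lit 2297784224) (nat_lit 760) (nat_lit 4927002069) (nat_lit 836) (nat_lit 3126801729) (nat_lit 391) (nat_lit 5) (nat_lit 401) (nat_lit 5) (nat_lit 402) (nat_lit 5) (nat_lit 445) (nat_lit 401) (nat_lit 294)) (XT.lf (nat_lit 0) (nat_lit 8692234178) (nat_lit 760) (nat_lit 747381984) (nat_lit 836) (nat_lit 1015674112) (nat_lit 391) (nat_lit 5) (nat_lit 401) (nat_lit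 5) (nat_lit 402) (nat_lit 5) (nat_lit 446) (nat_lit 401) (nat_lit 293))))) (XT.nd (nat_lit 234) (nat_lit 2204) (nat_lit 0) (XT.nd (nat_lit 78) (nat_lit 760) (nat_lit 0) (XT.lf (nat_lit 0) (nat_lit 1155297470) (nat_lit 836) (nat_lit 5899086326) (nat_lit 76) (nat_lit 3505884197) (nat_lit 380) (nat_lit 5) (nat_lit 391) (nat_lit 5) (nat_lit 381) (nat_lit 5) (nat_lit 447) (nat_lit 401) (nat_lit 292)) (XT.nd (nat_lit 78) (nat_lit 0) (nat_lit 0) (XT.lf (nat_lit 0) (nat_lit 542958188) (nat_lit 760) (nat_lit 2812838303) (nat_lit 836) (nat_lit 7311420347) (nat_lit 370) (nat_lit 5) (nat_lit 380) (nat_lit 5) (nat_lit 381) (nat_lit 5) (nat_lit 448) (nat_lit 401) (nat_lit 291)) (XT.lf (nat_lit 0) (nat_lit 5629531813) (nat_lit 836) (nat_lit 3615137850) (nat_lit 76) (nat_lit 1531050469) (nat_lit 370) (nat_lit 5) (nat_lit 381) (nat_lit 5) (nat_lit 371) (nat_lit 5) (nat_lit 449) (nat_lit 401) (nat_lit 290)))) (XT.nd (nat_lit 156) (nat_lit 1444) (nat_lit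 0) (XT.nd (nat_lit 78) (nat_lit 0) (nat_lit 0) (XT.lf (nat_lit 0) (nat_lit 3022289760) (nat_lit 760) (nat_lit 4944655108) (nat_lit 836) (nat_lit 2919084564) (nat_lit 360) (nat_lit 5) (nat_lit 370) (nat_lit 5) (nat_lit 371) (nat_lit 5) (nat_lit 450) (nat_lit 401) (nat_lit 289)) (XT.lf (nat_lit 0) (nat_lit 9818735219) (nat_lit 760) (nat_lit 536828177) (nat_lit 836) (nat_lit 642892379) (nat_lit 360) (nat_lit 5) (nat_lit 370) (nat_lit 5) (nat_lit 371) (nat_lit 5) (nat_lit 451) (nat_lit 401) (nat_lit 288))) (XT.nd (nat_lit 78) (nat_lit 684) (nat_lit 0) (XT.lf (nat_lit 0) (nat_lit 1700137241) (nat_lit 760) (nat_lit 5459556987) (nat_lit 76) (nat_lit 3952351781) (nat_lit 350) (nat_lit 5) (nat_lit 360) (nat_lit 5) (nat_lit 351) (nat_lit 5) (nat_lit 452) (nat_lit 401) (nat_lit 287)) (XT.lf (nat_lit 0) (nat_lit 1397278482) (nat_lit 684) (nat_lit 2685419968) (nat_lit 760) (nat_lit 7145099022) (nat_lit 341) (nat_lit 5) (nat_lit 350) (nat_lit 5) (nat_lit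 351) (nat_lit 5) (nat_lit 453) (nat_lit 401) (nat_lit 286)))))) (XT.nd (nat_lit 468) (nat_lit 3116) (nat_lit 0) (XT.nd (nat_lit 234) (nat_lit 1292) (nat_lit 0) (XT.nd (nat_lit 78) (nat_lit 760) (nat_lit 0) (XT.lf (nat_lit 0) (nat_lit 6542869730) (nat_lit 760) (nat_lit 2915288522) (nat_lit 76) (nat_lit 1887106534) (nat_lit 341) (nat_lit 5) (nat_lit 351) (nat_lit 5) (nat_lit 342) (nat_lit 5) (nat_lit 454) (nat_lit 401) (nat_lit 285)) (XT.nd (nat_lit 78) (nat_lit 76) (nat_lit 0) (XT.lf (nat_lit 0) (nat_lit 4152396622) (nat_lit 684) (nat_lit 4925851274) (nat_lit 760) (nat_lit 2386313482) (nat_lit 332) (nat_lit 5) (nat_lit 341) (nat_lit 5) (nat_lit 342) (nat_lit 5) (nat_lit 455) (nat_lit 401) (nat_lit 284)) (XT.lf (nat_lit 0) (nat_lit 78116891) (nat_lit 760) (nat_lit 208160901) (nat_lit 76) (nat_lit 11299934943) (nat_lit 331) (nat_lit 5) (nat_lit 341) (nat_lit 5) (nat_lit 332) (nat_lit 5) (nat_lit 456) (nat_lit 401) (nat_lit 283)))) (XT.nd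 (nat_lit 78) (nat_lit 608) (nat_lit 0) (XT.lf (nat_lit 0) (nat_lit 2616940630) (nat_lit 760) (nat_lit 4645712671) (nat_lit 76) (nat_lit 4446187198) (nat_lit 322) (nat_lit 5) (nat_lit 332) (nat_lit 5) (nat_lit 323) (nat_lit 5) (nat_lit 457) (nat_lit 401) (nat_lit 282)) (XT.nd (nat_lit 78) (nat_lit 0) (nat_lit 0) (XT.lf (nat_lit 0) (nat_lit 2659373638) (nat_lit 608) (nat_lit 2549649269) (nat_lit 684) (nat_lit 6624848270) (nat_lit 314) (nat_lit 5) (nat_lit 322) (nat_lit 5) (nat_lit 323) (nat_lit 5) (nat_lit 458) (nat_lit 401) (nat_lit 281)) (XT.lf (nat_lit 0) (nat_lit 7881082163) (nat_lit 684) (nat_lit 1824660467) (nat_lit 76) (nat_lit 2255097131) (nat_lit 314) (nat_lit 5) (nat_lit 323) (nat_lit 5) (nat_lit 315) (nat_lit 5) (nat_lit 459) (nat_lit 401) (nat_lit 280))))) (XT.nd (nat_lit 234) (nat_lit 1824) (nat_lit 0) (XT.nd (nat_lit 78) (nat_lit 684) (nat_lit 0) (XT.lf (nat_lit 0) (nat_lit 5708039786) (nat_lit 608) (nat_lit 4934935122) (nat_lit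 684) (nat_lit 1446644963) (nat_lit 306) (nat_lit 5) (nat_lit 314) (nat_lit 5) (nat_lit 315) (nat_lit 5) (nat_lit 460) (nat_lit 401) (nat_lit 279)) (XT.nd (nat_lit 78) (nat_lit 0) (nat_lit 0) (XT.lf (nat_lit 0) (nat_lit 1180556884) (nat_lit 608) (nat_lit 44845593) (nat_lit 684) (nat_lit 10995361722) (nat_lit 297) (nat_lit 5) (nat_lit 305) (nat_lit 5) (nat_lit 306) (nat_lit 5) (nat_lit 461) (nat_lit 401) (nat_lit 278)) (XT.lf (nat_lit 0) (nat_lit 3989441030) (nat_lit 684) (nat_lit 3437557252) (nat_lit 76) (nat_lit 4926183470) (nat_lit 297) (nat_lit 5) (nat_lit 306) (nat_lit 5) (nat_lit 298) (nat_lit 5) (nat_lit 462) (nat_lit 401) (nat_lit 277)))) (XT.nd (nat_lit 156) (nat_lit 1216) (nat_lit 0) (XT.nd (nat_lit 78) (nat_lit 0) (nat_lit 0) (XT.lf (nat_lit 0) (nat_lit 4351999268) (nat_lit 608) (nat_lit 2468355060) (nat_lit 684) (nat_lit 5667661449) (nat_lit 289) (nat_lit 5) (nat_lit 297) (nat_lit 5) (nat_lit 298) (nat_lit 5) (nat_lit 463) (nat_lit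 401) (nat_lit 276)) (XT.lf (nat_lit 0) (nat_lit 9731118442) (nat_lit 684) (nat_lit 320191831) (nat_lit 76) (nat_lit 2573771558) (nat_lit 289) (nat_lit 5) (nat_lit 298) (nat_lit 5) (nat_lit 290) (nat_lit 5) (nat_lit 464) (nat_lit 401) (nat_lit 275))) (XT.nd (nat_lit 78) (nat_lit 684) (nat_lit 0) (XT.lf (nat_lit 0) (nat_lit 7715135704) (nat_lit 532) (nat_lit 5034929521) (nat_lit 608) (nat_lit 13824635) (nat_lit 282) (nat_lit 5) (nat_lit 289) (nat_lit 5) (nat_lit 290) (nat_lit 5) (nat_lit 465) (nat_lit 401) (nat_lit 274)) (XT.lf (nat_lit 0) (nat_lit 2891637390) (nat_lit 684) (nat_lit 9896939927) (nat_lit 76) (nat_lit 116395687) (nat_lit 273) (nat_lit 5) (nat_lit 282) (nat_lit 5) (nat_lit 274) (nat_lit 5) (nat_lit 466) (nat_lit 401) (nat_lit 273))))))) (XT.nd (nat_lit 54522) (nat_lit 0) (nat_lit 29260) (XT.nd (nat_lit 468) (nat_lit 1064) (nat_lit 0) (XT.nd (nat_lit 234) (nat_lit 1140) (nat_lit 0) (XT.nd (nat_lit 78) (nat_lit 1064) (nat_lit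 0) (XT.lf (nat_lit 0) (nat_lit 5906222589) (nat_lit 684) (nat_lit 1809341013) (nat_lit 76) (nat_lit 5332288400) (nat_lit 273) (nat_lit 5) (nat_lit 282) (nat_lit 5) (nat_lit 274) (nat_lit 5) (nat_lit 467) (nat_lit 401) (nat_lit 272)) (XT.nd (nat_lit 78) (nat_lit 532) (nat_lit 0) (XT.lf (nat_lit 0) (nat_lit 6503863909) (nat_lit 532) (nat_lit 2503532392) (nat_lit 608) (nat_lit 4185666343) (nat_lit 266) (nat_lit 5) (nat_lit 273) (nat_lit 5) (nat_lit 274) (nat_lit 5) (nat_lit 468) (nat_lit 401) (nat_lit 271)) (XT.lf (nat_lit 0) (nat_lit 1648620394) (nat_lit 532) (nat_lit 10547368676) (nat_lit 608) (nat_lit 1144680518) (nat_lit 259) (nat_lit 5) (nat_lit 266) (nat_lit 5) (nat_lit 267) (nat_lit 5) (nat_lit 469) (nat_lit 401) (nat_lit 270)))) (XT.nd (nat_lit 78) (nat_lit 1064) (nat_lit 0) (XT.lf (nat_lit 0) (nat_lit 1977496401) (nat_lit 608) (nat_lit 3297695389) (nat_lit 76) (nat_lit 8214861953) (nat_lit 258) (nat_lit 5) (nat_lit 266) (nat_lit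 5) (nat_lit 259) (nat_lit 5) (nat_lit 470) (nat_lit 401) (nat_lit 269)) (XT.nd (nat_lit 78) (nat_lit 532) (nat_lit 0) (XT.lf (nat_lit 0) (nat_lit 5166737978) (nat_lit 608) (nat_lit 8337479808) (nat_lit 76) (nat_lit 137657500) (nat_lit 251) (nat_lit 5) (nat_lit 259) (nat_lit 5) (nat_lit 252) (nat_lit 5) (nat_lit 471) (nat_lit 401) (nat_lit 268)) (XT.lf (nat_lit 0) (nat_lit 274098549) (nat_lit 532) (nat_lit 8189366616) (nat_lit 608) (nat_lit 5332394080) (nat_lit 244) (nat_lit 5) (nat_lit 251) (nat_lit 5) (nat_lit 252) (nat_lit 5) (nat_lit 472) (nat_lit 401) (nat_lit 267))))) (XT.nd (nat_lit 234) (nat_lit 532) (nat_lit 0) (XT.nd (nat_lit 78) (nat_lit 532) (nat_lit 0) (XT.lf (nat_lit 0) (nat_lit 9149712368) (nat_lit 532) (nat_lit 2717235760) (nat_lit 608) (nat_lit 2085158331) (nat_lit 244) (nat_lit 5) (nat_lit 251) (nat_lit 5) (nat_lit 252) (nat_lit 5) (nat_lit 473) (nat_lit 401) (nat_lit 266)) (XT.nd (nat_lit 78) (nat_lit 0) (nat_lit 0)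 (XT.lf (nat_lit 0) (nat_lit 1241514122) (nat_lit 532) (nat_lit 10013485863) (nat_lit 76) (nat_lit 2855707606) (nat_lit 237) (nat_lit 5) (nat_lit 244) (nat_lit 5) (nat_lit 238) (nat_lit 5) (nat_lit 474) (nat_lit 401) (nat_lit 265)) (XT.lf (nat_lit 0) (nat_lit 4642449364) (nat_lit 532) (nat_lit 1085039094) (nat_lit 76) (nat_lit 8544003638) (nat_lit 237) (nat_lit 5) (nat_lit 244) (nat_lit 5) (nat_lit 238) (nat_lit 5) (nat_lit 475) (nat_lit 401) (nat_lit 264)))) (XT.nd (nat_lit 53664) (nat_lit 0) (nat_lit 33060) (XT.nd (nat_lit 53586) (nat_lit 0) (nat_lit 33060) (XT.lf (nat_lit 0) (nat_lit 8107610252) (nat_lit 532) (nat_lit 41912019) (nat_lit 608) (nat_lit 6285207642) (nat_lit 230) (nat_lit 5) (nat_lit 237) (nat_lit 5) (nat_lit 238) (nat_lit 5) (nat_lit 476) (nat_lit 401) (nat_lit 263)) (XT.lf (nat_lit 0) (nat_lit 1000516588) (nat_lit 1292) (nat_lit 1339824305) (nat_lit 1292) (nat_lit 1339824305) (nat_lit 665) (nat_lit 3) (nat_lit 682) (nat_lit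 3) (nat_lit 682) (nat_lit 5) (nat_lit 402) (nat_lit 402) (nat_lit 336))) (XT.nd (nat_lit 78) (nat_lit 0) (nat_lit 0) (XT.lf (nat_lit 76) (nat_lit 1013812927) (nat_lit 0) (nat_lit 2561969102) (nat_lit 1292) (nat_lit 3827056903) (nat_lit 666) (nat_lit 5) (nat_lit 665) (nat_lit 3) (nat_lit 682) (nat_lit 5) (nat_lit 403) (nat_lit 402) (nat_lit 335)) (XT.lf (nat_lit 76) (nat_lit 4796481374) (nat_lit 0) (nat_lit 362781391) (nat_lit 1292) (nat_lit 2287390133) (nat_lit 666) (nat_lit 5) (nat_lit 665) (nat_lit 3) (nat_lit 682) (nat_lit 5) (nat_lit 404) (nat_lit 402) (nat_lit 334)))))) (XT.nd (nat_lit 468) (nat_lit 2584) (nat_lit 0) (XT.nd (nat_lit 234) (nat_lit 0) (nat_lit 76) (XT.nd (nat_lit 78) (nat_lit 1292) (nat_lit 0) (XT.lf (nat_lit 76) (nat_lit 1144766245) (nat_lit 0) (nat_lit 5609467943) (nat_lit 1292) (nat_lit 737512535) (nat_lit 667) (nat_lit 5) (nat_lit 666) (nat_lit 5) (nat_lit 683) (nat_lit 5) (nat_lit 405) (nat_lit 402) (nat_lit 333))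 (XT.nd (nat_lit 78) (nat_lit 0) (nat_lit 0) (XT.lf (nat_lit 0) (nat_lit 813168522) (nat_lit 1292) (nat_lit 2515737711) (nat_lit 1368) (nat_lit 4209109342) (nat_lit 649) (nat_lit 5) (nat_lit 666) (nat_lit 5) (nat_lit 667) (nat_lit 5) (nat_lit 406) (nat_lit 402) (nat_lit 332)) (XT.lf (nat_lit 76) (nat_lit 1383943904) (nat_lit 0) (nat_lit 971374416) (nat_lit 1368) (nat_lit 5230387375) (nat_lit 650) (nat_lit 5) (nat_lit 649) (nat_lit 5) (nat_lit 667) (nat_lit 5) (nat_lit 407) (nat_lit 402) (nat_lit 331)))) (XT.nd (nat_lit 78) (nat_lit 0) (nat_lit 0) (XT.lf (nat_lit 0) (nat_lit 3916674927) (nat_lit 1292) (nat_lit 2269890020) (nat_lit 1368) (nat_lit 1448017397) (nat_lit 650) (nat_lit 5) (nat_lit 667) (nat_lit 5) (nat_lit 668) (nat_lit 5) (nat_lit 408) (nat_lit 402) (nat_lit 330)) (XT.nd (nat_lit 78) (nat_lit 0) (nat_lit 0) (XT.lf (nat_lit 76) (nat_lit 1735197702) (nat_lit 0) (nat_lit 3754567899) (nat_lit 1368) (nat_lit 2195060784) (nat_lit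 651) (nat_lit 5) (nat_lit 650) (nat_lit 5) (nat_lit 668) (nat_lit 5) (nat_lit 409) (nat_lit 402) (nat_lit 329)) (XT.lf (nat_lit 76) (nat_lit 5829553232) (nat_lit 0) (nat_lit 1243393951) (nat_lit 1368) (nat_lit 663555543) (nat_lit 651) (nat_lit 5) (nat_lit 650) (nat_lit 5) (nat_lit 668) (nat_lit 5) (nat_lit 410) (nat_lit 402) (nat_lit 328))))) (XT.nd (nat_lit 234) (nat_lit 1368) (nat_lit 0) (XT.nd (nat_lit 78) (nat_lit 0) (nat_lit 0) (XT.lf (nat_lit 0) (nat_lit 873858937) (nat_lit 1368) (nat_lit 5580134032) (nat_lit 1444) (nat_lit 1335361659) (nat_lit 633) (nat_lit 5) (nat_lit 651) (nat_lit 5) (nat_lit 652) (nat_lit 5) (nat_lit 411) (nat_lit 402) (nat_lit 327)) (XT.nd (nat_lit 78) (nat_lit 0) (nat_lit 0) (XT.lf (nat_lit 0) (nat_lit 2418797508) (nat_lit 1368) (nat_lit 1444477000) (nat_lit 1444) (nat_lit 3980188121) (nat_lit 633) (nat_lit 5) (nat_lit 651) (nat_lit 5) (nat_lit 652) (nat_lit 5) (nat_lit 412) (nat_lit 402) (nat_lit 326)) (XT.lf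 (nat_lit 76) (nat_lit 2788584481) (nat_lit 0) (nat_lit 1189387792) (nat_lit 1444) (nat_lit 3921013767) (nat_lit 634) (nat_lit 5) (nat_lit 633) (nat_lit 5) (nat_lit 652) (nat_lit 5) (nat_lit 413) (nat_lit 402) (nat_lit 325)))) (XT.nd (nat_lit 156) (nat_lit 1444) (nat_lit 0) (XT.nd (nat_lit 78) (nat_lit 0) (nat_lit 0) (XT.lf (nat_lit 0) (nat_lit 5553927258) (nat_lit 1368) (nat_lit 862091518) (nat_lit 1444) (nat_lit 1539889210) (nat_lit 634) (nat_lit 5) (nat_lit 652) (nat_lit 5) (nat_lit 653) (nat_lit 5) (nat_lit 414) (nat_lit 402) (nat_lit 324)) (XT.lf (nat_lit 76) (nat_lit 3486978412) (nat_lit 0) (nat_lit 3671462746) (nat_lit 1444) (nat_lit 855586416) (nat_lit 635) (nat_lit 5) (nat_lit 634) (nat_lit 5) (nat_lit 653) (nat_lit 5) (nat_lit 415) (nat_lit 402) (nat_lit 323))) (XT.nd (nat_lit 78) (nat_lit 0) (nat_lit 76) (XT.lf (nat_lit 0) (nat_lit 684912597) (nat_lit 1444) (nat_lit 165560268) (nat_lit 1520) (nat_lit 7223290119) (nat_lit 615)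 (nat_lit 5) (nat_lit 634) (nat_lit 5) (nat_lit 635) (nat_lit 5) (nat_lit 416) (nat_lit 402) (nat_lit 322)) (XT.lf (nat_lit 0) (nat_lit 2253694954) (nat_lit 1444) (nat_lit 3835995245) (nat_lit 1520) (nat_lit 2044711203) (nat_lit 616) (nat_lit 5) (nat_lit 635) (nat_lit 5) (nat_lit 636) (nat_lit 5) (nat_lit 417) (nat_lit 402) (nat_lit 321))))))))
noncomputable def xc90 : XT := (XT.nd (nat_lit 2028) (nat_lit 11096) (nat_lit 0) (XT.nd (nat_lit 1014) (nat_lit 9348) (nat_lit 0) (XT.nd (nat_lit 468) (nat_lit 4712) (nat_lit 0) (XT.nd (nat_lit 234) (nat_lit 1444) (nat_lit 0) (XT.nd (nat_lit 78) (nat_lit 0) (nat_lit 0) (XT.lf (nat_lit 76) (nat_lit 637910011) (nat_lit 0) (nat_lit 3194868099) (nat_lit 1520) (nat_lit 4363895974) (nat_lit 617) (nat_lit 5) (nat_lit 616) (nat_lit 5) (nat_lit 636) (nat_lit 5) (nat_lit 418) (nat_lit 402) (nat_lit 320)) (XT.nd (nat_lit 78) (nat_lit 0) (nat_lit 76) (XT.lf (nat_lit 76) (nat_lit 5230956785) (nat_lit 0) (nat_lit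 206742282) (nat_lit 1520) (nat_lit 2822608030) (nat_lit 617) (nat_lit 5) (nat_lit 616) (nat_lit 5) (nat_lit 636) (nat_lit 5) (nat_lit 419) (nat_lit 402) (nat_lit 319)) (XT.lf (nat_lit 76) (nat_lit 1570226734) (nat_lit 0) (nat_lit 5502323468) (nat_lit 1520) (nat_lit 1252705933) (nat_lit 618) (nat_lit 5) (nat_lit 617) (nat_lit 5) (nat_lit 637) (nat_lit 5) (nat_lit 420) (nat_lit 402) (nat_lit 318)))) (XT.nd (nat_lit 78) (nat_lit 0) (nat_lit 76) (XT.lf (nat_lit 0) (nat_lit 335302367) (nat_lit 1520) (nat_lit 2114835418) (nat_lit 1596) (nat_lit 5941495501) (nat_lit 597) (nat_lit 5) (nat_lit 617) (nat_lit 5) (nat_lit 618) (nat_lit 5) (nat_lit 421) (nat_lit 402) (nat_lit 317)) (XT.nd (nat_lit 78) (nat_lit 0) (nat_lit 0) (XT.lf (nat_lit 0) (nat_lit 1929904554) (nat_lit 1520) (nat_lit 5842082118) (nat_lit 1596) (nat_lit 687353552) (nat_lit 598) (nat_lit 5) (nat_lit 618) (nat_lit 5) (nat_lit 619) (nat_lit 5) (nat_lit 422) (nat_lit 402) (nat_lit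 316)) (XT.lf (nat_lit 0) (nat_lit 3557447485) (nat_lit 1520) (nat_lit 1094649140) (nat_lit 1596) (nat_lit 3876283702) (nat_lit 598) (nat_lit 5) (nat_lit 618) (nat_lit 5) (nat_lit 619) (nat_lit 5) (nat_lit 423) (nat_lit 402) (nat_lit 315))))) (XT.nd (nat_lit 234) (nat_lit 3344) (nat_lit 0) (XT.nd (nat_lit 78) (nat_lit 1444) (nat_lit 0) (XT.lf (nat_lit 76) (nat_lit 3774816101) (nat_lit 0) (nat_lit 1438348468) (nat_lit 1596) (nat_lit 3385724198) (nat_lit 599) (nat_lit 5) (nat_lit 598) (nat_lit 5) (nat_lit 619) (nat_lit 5) (nat_lit 424) (nat_lit 402) (nat_lit 314)) (XT.nd (nat_lit 78) (nat_lit 0) (nat_lit 0) (XT.lf (nat_lit 0) (nat_lit 51647063) (nat_lit 1520) (nat_lit 6841599569) (nat_lit 1596) (nat_lit 1777735730) (nat_lit 579) (nat_lit 5) (nat_lit 599) (nat_lit 5) (nat_lit 600) (nat_lit 5) (nat_lit 425) (nat_lit 402) (nat_lit 313)) (XT.lf (nat_lit 0) (nat_lit 5057885544) (nat_lit 1520) (nat_lit 3562865991) (nat_lit 1596) (nat_lit 123489869)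 (nat_lit 579) (nat_lit 5) (nat_lit 599) (nat_lit 5) (nat_lit 600) (nat_lit 5) (nat_lit 426) (nat_lit 402) (nat_lit 312)))) (XT.nd (nat_lit 156) (nat_lit 1672) (nat_lit 0) (XT.nd (nat_lit 78) (nat_lit 0) (nat_lit 0) (XT.lf (nat_lit 0) (nat_lit 1329914987) (nat_lit 1596) (nat_lit 194404273) (nat_lit 1672) (nat_lit 7294823531) (nat_lit 557) (nat_lit 5) (nat_lit 578) (nat_lit 5) (nat_lit 579) (nat_lit 5) (nat_lit 427) (nat_lit 402) (nat_lit 311)) (XT.lf (nat_lit 0) (nat_lit 3222159753) (nat_lit 1672) (nat_lit 2443677310) (nat_lit 76) (nat_lit 3229314241) (nat_lit 557) (nat_lit 5) (nat_lit 579) (nat_lit 5) (nat_lit 558) (nat_lit 5) (nat_lit 428) (nat_lit 402) (nat_lit 310))) (XT.nd (nat_lit 78) (nat_lit 0) (nat_lit 0) (XT.lf (nat_lit 0) (nat_lit 2714466582) (nat_lit 1672) (nat_lit 2231716213) (nat_lit 1748) (nat_lit 4026652680) (nat_lit 535) (nat_lit 5) (nat_lit 557) (nat_lit 5) (nat_lit 558) (nat_lit 5) (nat_lit 429) (nat_lit 402) (nat_lit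 309)) (XT.lf (nat_lit 0) (nat_lit 6703162301) (nat_lit 1748) (nat_lit 1074241669) (nat_lit 76) (nat_lit 1274699837) (nat_lit 535) (nat_lit 5) (nat_lit 558) (nat_lit 5) (nat_lit 536) (nat_lit 5) (nat_lit 430) (nat_lit 402) (nat_lit 308)))))) (XT.nd (nat_lit 468) (nat_lit 3648) (nat_lit 0) (XT.nd (nat_lit 234) (nat_lit 2052) (nat_lit 0) (XT.nd (nat_lit 78) (nat_lit 1900) (nat_lit 0) (XT.lf (nat_lit 0) (nat_lit 4231706732) (nat_lit 1748) (nat_lit 4280060958) (nat_lit 1824) (nat_lit 620860090) (nat_lit 512) (nat_lit 5) (nat_lit 535) (nat_lit 5) (nat_lit 536) (nat_lit 5) (nat_lit 431) (nat_lit 402) (nat_lit 307)) (XT.nd (nat_lit 78) (nat_lit 0) (nat_lit 0) (XT.lf (nat_lit 0) (nat_lit 418978976) (nat_lit 1824) (nat_lit 692229058) (nat_lit 1900) (nat_lit 8103717940) (nat_lit 487) (nat_lit 5) (nat_lit 511) (nat_lit 5) (nat_lit 512) (nat_lit 5) (nat_lit 432) (nat_lit 402) (nat_lit 306)) (XT.lf (nat_lit 0) (nat_lit 2896778120) (nat_lit 1900) (nat_lit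 3433241851) (nat_lit 76) (nat_lit 2968224604) (nat_lit 487) (nat_lit 5) (nat_lit 512) (nat_lit 5) (nat_lit 488) (nat_lit 5) (nat_lit 433) (nat_lit 402) (nat_lit 305)))) (XT.nd (nat_lit 78) (nat_lit 912) (nat_lit 0) (XT.lf (nat_lit 0) (nat_lit 2036147113) (nat_lit 1140) (nat_lit 2675005552) (nat_lit 1216) (nat_lit 4672215023) (nat_lit 472) (nat_lit 5) (nat_lit 487) (nat_lit 5) (nat_lit 488) (nat_lit 5) (nat_lit 434) (nat_lit 402) (nat_lit 304)) (XT.nd (nat_lit 78) (nat_lit 912) (nat_lit 0) (XT.lf (nat_lit 0) (nat_lit 6567482439) (nat_lit 1216) (nat_lit 1838300688) (nat_lit 76) (nat_lit 1064296780) (nat_lit 472) (nat_lit 5) (nat_lit 488) (nat_lit 5) (nat_lit 473) (nat_lit 5) (nat_lit 435) (nat_lit 402) (nat_lit 303)) (XT.lf (nat_lit 0) (nat_lit 3790202795) (nat_lit 912) (nat_lit 4689176281) (nat_lit 988) (nat_lit 1078778491) (nat_lit 460) (nat_lit 5) (nat_lit 472) (nat_lit 5) (nat_lit 473) (nat_lit 5) (nat_lit 436) (nat_lit 402) (nat_lit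 302))))) (XT.nd (nat_lit 234) (nat_lit 1824) (nat_lit 0) (XT.nd (nat_lit 78) (nat_lit 1748) (nat_lit 0) (XT.lf (nat_lit 0) (nat_lit 759967857) (nat_lit 988) (nat_lit 119466182) (nat_lit 76) (nat_lit 8768687242) (nat_lit 459) (nat_lit 5) (nat_lit 472) (nat_lit 5) (nat_lit 460) (nat_lit 5) (nat_lit 437) (nat_lit 402) (nat_lit 301)) (XT.nd (nat_lit 78) (nat_lit 836) (nat_lit 0) (XT.lf (nat_lit 0) (nat_lit 2654548671) (nat_lit 988) (nat_lit 4072159592) (nat_lit 76) (nat_lit 3012363305) (nat_lit 447) (nat_lit 5) (nat_lit 460) (nat_lit 5) (nat_lit 448) (nat_lit 5) (nat_lit 438) (nat_lit 402) (nat_lit 300)) (XT.lf (nat_lit 0) (nat_lit 1733086439) (nat_lit 836) (nat_lit 2848883244) (nat_lit 912) (nat_lit 5249972207) (nat_lit 436) (nat_lit 5) (nat_lit 447) (nat_lit 5) (nat_lit 448) (nat_lit 5) (nat_lit 439) (nat_lit 402) (nat_lit 299)))) (XT.nd (nat_lit 156) (nat_lit 912) (nat_lit 0) (XT.nd (nat_lit 78) (nat_lit 912) (nat_lit 0) (XT.lf (nat_lit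 0) (nat_lit 6560000479) (nat_lit 912) (nat_lit 2246782550) (nat_lit 76) (nat_lit 1119645361) (nat_lit 436) (nat_lit 5) (nat_lit 448) (nat_lit 5) (nat_lit 437) (nat_lit 5) (nat_lit 440) (nat_lit 402) (nat_lit 298)) (XT.lf (nat_lit 0) (nat_lit 3729902040) (nat_lit 912) (nat_lit 4868587292) (nat_lit 988) (nat_lit 1423897339) (nat_lit 424) (nat_lit 5) (nat_lit 436) (nat_lit 5) (nat_lit 437) (nat_lit 5) (nat_lit 441) (nat_lit 402) (nat_lit 297))) (XT.nd (nat_lit 78) (nat_lit 836) (nat_lit 0) (XT.lf (nat_lit 0) (nat_lit 543307965) (nat_lit 988) (nat_lit 289732271) (nat_lit 76) (nat_lit 9287288779) (nat_lit 423) (nat_lit 5) (nat_lit 436) (nat_lit 5) (nat_lit 424) (nat_lit 5) (nat_lit 442) (nat_lit 402) (nat_lit 296)) (XT.lf (nat_lit 0) (nat_lit 2568995912) (nat_lit 912) (nat_lit 4362777712) (nat_lit 76) (nat_lit 3287504252) (nat_lit 412) (nat_lit 5) (nat_lit 424) (nat_lit 5) (nat_lit 413) (nat_lit 5) (nat_lit 443) (nat_lit 402) (nat_lit 295)))))))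 (XT.nd (nat_lit 1014) (nat_lit 5016) (nat_lit 0) (XT.nd (nat_lit 468) (nat_lit 2888) (nat_lit 0) (XT.nd (nat_lit 234) (nat_lit 1596) (nat_lit 0) (XT.nd (nat_lit 78) (nat_lit 760) (nat_lit 0) (XT.lf (nat_lit 0) (nat_lit 1805103656) (nat_lit 836) (nat_lit 2827954744) (nat_lit 912) (nat_lit 5687190098) (nat_lit 401) (nat_lit 5) (nat_lit 412) (nat_lit 5) (nat_lit 413) (nat_lit 5) (nat_lit 444) (nat_lit 402) (nat_lit 294)) (XT.nd (nat_lit 78) (nat_lit 760) (nat_lit 0) (XT.lf (nat_lit 0) (nat_lit 6755621419) (nat_lit 912) (nat_lit 2298906321) (nat_lit 76) (nat_lit 1368366407) (nat_lit 401) (nat_lit 5) (nat_lit 413) (nat_lit 5) (nat_lit 402) (nat_lit 5) (nat_lit 445) (nat_lit 402) (nat_lit 293)) (XT.lf (nat_lit 0) (nat_lit 4053816863) (nat_lit 760) (nat_lit 4891212384) (nat_lit 836) (nat_lit 1582075592) (nat_lit 391) (nat_lit 5) (nat_lit 401) (nat_lit 5) (nat_lit 402) (nat_lit 5) (nat_lit 446) (nat_lit 402) (nat_lit 292)))) (XT.nd (nat_lit 78)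 (nat_lit 1520) (nat_lit 0) (XT.lf (nat_lit 0) (nat_lit 532680588) (nat_lit 836) (nat_lit 94378658) (nat_lit 76) (nat_lit 10006369739) (nat_lit 390) (nat_lit 5) (nat_lit 401) (nat_lit 5) (nat_lit 391) (nat_lit 5) (nat_lit 447) (nat_lit 402) (nat_lit 291)) (XT.nd (nat_lit 78) (nat_lit 760) (nat_lit 0) (XT.lf (nat_lit 0) (nat_lit 2714916797) (nat_lit 836) (nat_lit 4301288170) (nat_lit 76) (nat_lit 3724538119) (nat_lit 380) (nat_lit 5) (nat_lit 391) (nat_lit 5) (nat_lit 381) (nat_lit 5) (nat_lit 448) (nat_lit 402) (nat_lit 290)) (XT.lf (nat_lit 0) (nat_lit 2258309209) (nat_lit 760) (nat_lit 2682055567) (nat_lit 836) (nat_lit 5909847350) (nat_lit 370) (nat_lit 5) (nat_lit 380) (nat_lit 5) (nat_lit 381) (nat_lit 5) (nat_lit 449) (nat_lit 402) (nat_lit 289))))) (XT.nd (nat_lit 234) (nat_lit 1368) (nat_lit 0) (XT.nd (nat_lit 78) (nat_lit 1520) (nat_lit 0) (XT.lf (nat_lit 0) (nat_lit 7231011411) (nat_lit 836) (nat_lit 1987806764) (nat_lit 76)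 (nat_lit 1742638581) (nat_lit 370) (nat_lit 5) (nat_lit 381) (nat_lit 5) (nat_lit 371) (nat_lit 5) (nat_lit 450) (nat_lit 402) (nat_lit 288)) (XT.nd (nat_lit 78) (nat_lit 760) (nat_lit 0) (XT.lf (nat_lit 0) (nat_lit 4771187597) (nat_lit 760) (nat_lit 4825753780) (nat_lit 836) (nat_lit 1477395492) (nat_lit 360) (nat_lit 5) (nat_lit 370) (nat_lit 5) (nat_lit 371) (nat_lit 5) (nat_lit 451) (nat_lit 402) (nat_lit 287)) (XT.lf (nat_lit 0) (nat_lit 481895825) (nat_lit 684) (nat_lit 325452688) (nat_lit 760) (nat_lit 10382071559) (nat_lit 350) (nat_lit 5) (nat_lit 359) (nat_lit 5) (nat_lit 360) (nat_lit 5) (nat_lit 452) (nat_lit 402) (nat_lit 286)))) (XT.nd (nat_lit 156) (nat_lit 684) (nat_lit 0) (XT.nd (nat_lit 78) (nat_lit 684) (nat_lit 0) (XT.lf (nat_lit 0) (nat_lit 3169345408) (nat_lit 760) (nat_lit 3877950800) (nat_lit 76) (nat_lit 4258286613) (nat_lit 350) (nat_lit 5) (nat_lit 360) (nat_lit 5) (nat_lit 351) (nat_lit 5) (nat_lit 453) (nat_lit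 402) (nat_lit 285)) (XT.lf (nat_lit 0) (nat_lit 3104897712) (nat_lit 684) (nat_lit 2477424403) (nat_lit 760) (nat_lit 5841671912) (nat_lit 341) (nat_lit 5) (nat_lit 350) (nat_lit 5) (nat_lit 351) (nat_lit 5) (nat_lit 454) (nat_lit 402) (nat_lit 284))) (XT.nd (nat_lit 78) (nat_lit 684) (nat_lit 0) (XT.lf (nat_lit 0) (nat_lit 8065559332) (nat_lit 760) (nat_lit 1300717921) (nat_lit 76) (nat_lit 2178056185) (nat_lit 341) (nat_lit 5) (nat_lit 351) (nat_lit 5) (nat_lit 342) (nat_lit 5) (nat_lit 455) (nat_lit 402) (nat_lit 283)) (XT.lf (nat_lit 0) (nat_lit 5897315160) (nat_lit 684) (nat_lit 4737829040) (nat_lit 760) (nat_lit 1031201779) (nat_lit 332) (nat_lit 5) (nat_lit 341) (nat_lit 5) (nat_lit 342) (nat_lit 5) (nat_lit 456) (nat_lit 402) (nat_lit 282)))))) (XT.nd (nat_lit 468) (nat_lit 2356) (nat_lit 0) (XT.nd (nat_lit 234) (nat_lit 1292) (nat_lit 0) (XT.nd (nat_lit 78) (nat_lit 608) (nat_lit 0) (XT.lf (nat_lit 0) (nat_lit 1446463339) (nat_lit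 760) (nat_lit 10336583125) (nat_lit 76) (nat_lit 7554844) (nat_lit 322) (nat_lit 5) (nat_lit 332) (nat_lit 5) (nat_lit 323) (nat_lit 5) (nat_lit 457) (nat_lit 402) (nat_lit 281)) (XT.nd (nat_lit 78) (nat_lit 608) (nat_lit 0) (XT.lf (nat_lit 0) (nat_lit 4012501119) (nat_lit 760) (nat_lit 3077232348) (nat_lit 76) (nat_lit 4826419408) (nat_lit 322) (nat_lit 5) (nat_lit 332) (nat_lit 5) (nat_lit 323) (nat_lit 5) (nat_lit 458) (nat_lit 402) (nat_lit 280)) (XT.lf (nat_lit 0) (nat_lit 4363025460) (nat_lit 608) (nat_lit 2277777811) (nat_lit 684) (nat_lit 5403193331) (nat_lit 314) (nat_lit 5) (nat_lit 322) (nat_lit 5) (nat_lit 323) (nat_lit 5) (nat_lit 459) (nat_lit 402) (nat_lit 279)))) (XT.nd (nat_lit 78) (nat_lit 1292) (nat_lit 0) (XT.lf (nat_lit 0) (nat_lit 9342327489) (nat_lit 684) (nat_lit 219075149) (nat_lit 76) (nat_lit 2612581444) (nat_lit 314) (nat_lit 5) (nat_lit 323) (nat_lit 5) (nat_lit 315) (nat_lit 5) (nat_lit 460) (nat_lit 402)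 (nat_lit 278)) (XT.nd (nat_lit 78) (nat_lit 684) (nat_lit 0) (XT.lf (nat_lit 0) (nat_lit 7453475961) (nat_lit 608) (nat_lit 4691012201) (nat_lit 684) (nat_lit 161151032) (nat_lit 306) (nat_lit 5) (nat_lit 314) (nat_lit 5) (nat_lit 315) (nat_lit 5) (nat_lit 461) (nat_lit 402) (nat_lit 277)) (XT.lf (nat_lit 0) (nat_lit 2534305933) (nat_lit 684) (nat_lit 9599704658) (nat_lit 76) (nat_lit 305480984) (nat_lit 297) (nat_lit 5) (nat_lit 306) (nat_lit 5) (nat_lit 298) (nat_lit 5) (nat_lit 462) (nat_lit 402) (nat_lit 276))))) (XT.nd (nat_lit 234) (nat_lit 1216) (nat_lit 0) (XT.nd (nat_lit 78) (nat_lit 1140) (nat_lit 0) (XT.lf (nat_lit 0) (nat_lit 5328732200) (nat_lit 684) (nat_lit 1877867404) (nat_lit 76) (nat_lit 5368455737) (nat_lit 297) (nat_lit 5) (nat_lit 306) (nat_lit 5) (nat_lit 298) (nat_lit 5) (nat_lit 463) (nat_lit 402) (nat_lit 275)) (XT.nd (nat_lit 78) (nat_lit 532) (nat_lit 0) (XT.lf (nat_lit 0) (nat_lit 6056766819) (nat_lit 608)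 (nat_lit 2145304180) (nat_lit 684) (nat_lit 4510798902) (nat_lit 289) (nat_lit 5) (nat_lit 297) (nat_lit 5) (nat_lit 298) (nat_lit 5) (nat_lit 464) (nat_lit 402) (nat_lit 274)) (XT.lf (nat_lit 0) (nat_lit 1298488926) (nat_lit 532) (nat_lit 9858944858) (nat_lit 608) (nat_lit 1695515824) (nat_lit 282) (nat_lit 5) (nat_lit 289) (nat_lit 5) (nat_lit 290) (nat_lit 5) (nat_lit 465) (nat_lit 402) (nat_lit 273)))) (XT.nd (nat_lit 156) (nat_lit 532) (nat_lit 0) (XT.nd (nat_lit 78) (nat_lit 608) (nat_lit 0) (XT.lf (nat_lit 0) (nat_lit 1203743386) (nat_lit 608) (nat_lit 3535980258) (nat_lit 76) (nat_lit 8255092652) (nat_lit 281) (nat_lit 5) (nat_lit 289) (nat_lit 5) (nat_lit 282) (nat_lit 5) (nat_lit 466) (nat_lit 402) (nat_lit 272)) (XT.lf (nat_lit 0) (nat_lit 4156251637) (nat_lit 684) (nat_lit 8470343222) (nat_lit 76) (nat_lit 512341975) (nat_lit 273) (nat_lit 5) (nat_lit 282) (nat_lit 5) (nat_lit 274) (nat_lit 5) (nat_lit 467) (nat_lit 402) (nat_lit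 271))) (XT.nd (nat_lit 78) (nat_lit 532) (nat_lit 0) (XT.lf (nat_lit 0) (nat_lit 7207466157) (nat_lit 684) (nat_lit 252845968) (nat_lit 76) (nat_lit 5824834535) (nat_lit 273) (nat_lit 5) (nat_lit 282) (nat_lit 5) (nat_lit 274) (nat_lit 5) (nat_lit 468) (nat_lit 402) (nat_lit 270)) (XT.lf (nat_lit 0) (nat_lit 8216144883) (nat_lit 532) (nat_lit 2141592763) (nat_lit 608) (nat_lit 3075782383) (nat_lit 266) (nat_lit 5) (nat_lit 273) (nat_lit 5) (nat_lit 274) (nat_lit 5) (nat_lit 469) (nat_lit 402) (nat_lit 269))))))))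
noncomputable def xc91 : XT := (XT.nd (nat_lit 55614) (nat_lit 0) (nat_lit 11400) (XT.nd (nat_lit 54600) (nat_lit 0) (nat_lit 27892) (XT.nd (nat_lit 468) (nat_lit 532) (nat_lit 0) (XT.nd (nat_lit 234) (nat_lit 1064) (nat_lit 0) (XT.nd (nat_lit 78) (nat_lit 532) (nat_lit 0) (XT.lf (nat_lit 0) (nat_lit 15632198) (nat_lit 608) (nat_lit 10310401912) (nat_lit 76) (nat_lit 3258242615) (nat_lit 258) (nat_lit 5) (nat_lit 266) (nat_lit 5) (nat_lit 259) (nat_lit 5) (nat_lit 470) (nat_lit 402) (nat_lit 268)) (XT.nd (nat_lit 78) (nat_lit 532) (nat_lit 0) (XT.lf (nat_lit 0) (nat_lit 3162039842) (nat_lit 608) (nat_lit 1787269296) (nat_lit 76) (nat_lit 8787645809) (nat_lit 258) (nat_lit 5) (nat_lit 266) (nat_lit 5) (nat_lit 259) (nat_lit 5) (nat_lit 471) (nat_lit 402) (nat_lit 267)) (XT.lf (nat_lit 0) (nat_lit 6405596230) (nat_lit 608) (nat_lit 6918379385) (nat_lit 76) (nat_lit 568026708) (nat_lit 251) (nat_lit 5) (nat_lit 259) (nat_lit 5) (nat_lit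 252) (nat_lit 5) (nat_lit 472) (nat_lit 402) (nat_lit 266)))) (XT.nd (nat_lit 78) (nat_lit 532) (nat_lit 0) (XT.lf (nat_lit 0) (nat_lit 1854997316) (nat_lit 532) (nat_lit 7901224129) (nat_lit 608) (nat_lit 4293085245) (nat_lit 244) (nat_lit 5) (nat_lit 251) (nat_lit 5) (nat_lit 252) (nat_lit 5) (nat_lit 473) (nat_lit 402) (nat_lit 265)) (XT.nd (nat_lit 78) (nat_lit 532) (nat_lit 0) (XT.lf (nat_lit 0) (nat_lit 10877232886) (nat_lit 532) (nat_lit 2328512024) (nat_lit 608) (nat_lit 1003374521) (nat_lit 244) (nat_lit 5) (nat_lit 251) (nat_lit 5) (nat_lit 252) (nat_lit 5) (nat_lit 474) (nat_lit 402) (nat_lit 264)) (XT.lf (nat_lit 0) (nat_lit 2366347813) (nat_lit 532) (nat_lit 8645745741) (nat_lit 76) (nat_lit 3358828121) (nat_lit 237) (nat_lit 5) (nat_lit 244) (nat_lit 5) (nat_lit 238) (nat_lit 5) (nat_lit 475) (nat_lit 402) (nat_lit 263))))) (XT.nd (nat_lit 53820) (nat_lit 0) (nat_lit 31768) (XT.nd (nat_lit 53664) (nat_lit 0) (nat_lit 33060)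 (XT.lf (nat_lit 0) (nat_lit 436246117) (nat_lit 532) (nat_lit 5380319347) (nat_lit 608) (nat_lit 8718731132) (nat_lit 230) (nat_lit 5) (nat_lit 237) (nat_lit 5) (nat_lit 238) (nat_lit 5) (nat_lit 476) (nat_lit 402) (nat_lit 262)) (XT.nd (nat_lit 78) (nat_lit 0) (nat_lit 0) (XT.lf (nat_lit 0) (nat_lit 2558631438) (nat_lit 1292) (nat_lit 582187487) (nat_lit 1292) (nat_lit 582187487) (nat_lit 665) (nat_lit 3) (nat_lit 682) (nat_lit 3) (nat_lit 682) (nat_lit 5) (nat_lit 403) (nat_lit 403) (nat_lit 334)) (XT.lf (nat_lit 76) (nat_lit 2592634304) (nat_lit 0) (nat_lit 4080673688) (nat_lit 1292) (nat_lit 817067513) (nat_lit 666) (nat_lit 5) (nat_lit 665) (nat_lit 3) (nat_lit 682) (nat_lit 5) (nat_lit 404) (nat_lit 403) (nat_lit 333)))) (XT.nd (nat_lit 156) (nat_lit 0) (nat_lit 76) (XT.nd (nat_lit 78) (nat_lit 0) (nat_lit 76) (XT.lf (nat_lit 0) (nat_lit 683785239) (nat_lit 1292) (nat_lit 1120354596) (nat_lit 1368) (nat_lit 5732022613) (nat_lit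 648) (nat_lit 5) (nat_lit 665) (nat_lit 3) (nat_lit 666) (nat_lit 5) (nat_lit 405) (nat_lit 403) (nat_lit 332)) (XT.lf (nat_lit 0) (nat_lit 2186519706) (nat_lit 1292) (nat_lit 4843956598) (nat_lit 1368) (nat_lit 552624709) (nat_lit 649) (nat_lit 5) (nat_lit 666) (nat_lit 5) (nat_lit 667) (nat_lit 5) (nat_lit 406) (nat_lit 403) (nat_lit 331))) (XT.nd (nat_lit 78) (nat_lit 0) (nat_lit 0) (XT.lf (nat_lit 0) (nat_lit 3700918589) (nat_lit 1292) (nat_lit 972837464) (nat_lit 1368) (nat_lit 2957590099) (nat_lit 649) (nat_lit 5) (nat_lit 666) (nat_lit 5) (nat_lit 667) (nat_lit 5) (nat_lit 407) (nat_lit 403) (nat_lit 330)) (XT.lf (nat_lit 76) (nat_lit 2994356106) (nat_lit 0) (nat_lit 2233527772) (nat_lit 1368) (nat_lit 2453026748) (nat_lit 650) (nat_lit 5) (nat_lit 649) (nat_lit 5) (nat_lit 667) (nat_lit 5) (nat_lit 408) (nat_lit 403) (nat_lit 329)))))) (XT.nd (nat_lit 468) (nat_lit 2660) (nat_lit 0) (XT.nd (nat_lit 234) (nat_lit 0) (nat_lit 76)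 (XT.nd (nat_lit 78) (nat_lit 1368) (nat_lit 0) (XT.lf (nat_lit 0) (nat_lit 6757156063) (nat_lit 1292) (nat_lit 700276931) (nat_lit 1368) (nat_lit 274598045) (nat_lit 650) (nat_lit 5) (nat_lit 667) (nat_lit 5) (nat_lit 668) (nat_lit 5) (nat_lit 409) (nat_lit 403) (nat_lit 328)) (XT.nd (nat_lit 78) (nat_lit 0) (nat_lit 0) (XT.lf (nat_lit 0) (nat_lit 526809685) (nat_lit 1368) (nat_lit 4413333200) (nat_lit 1444) (nat_lit 2843942619) (nat_lit 632) (nat_lit 5) (nat_lit 650) (nat_lit 5) (nat_lit 651) (nat_lit 5) (nat_lit 410) (nat_lit 403) (nat_lit 327)) (XT.lf (nat_lit 0) (nat_lit 2014802299) (nat_lit 1368) (nat_lit 332114439) (nat_lit 1444) (nat_lit 5490748886) (nat_lit 632) (nat_lit 5) (nat_lit 650) (nat_lit 5) (nat_lit 651) (nat_lit 5) (nat_lit 411) (nat_lit 403) (nat_lit 326)))) (XT.nd (nat_lit 78) (nat_lit 0) (nat_lit 0) (XT.lf (nat_lit 0) (nat_lit 3525091856) (nat_lit 1368) (nat_lit 4034160563) (nat_lit 1444) (nat_lit 333214185) (nat_lit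 633) (nat_lit 5) (nat_lit 651) (nat_lit 5) (nat_lit 652) (nat_lit 5) (nat_lit 412) (nat_lit 403) (nat_lit 325)) (XT.nd (nat_lit 78) (nat_lit 0) (nat_lit 0) (XT.lf (nat_lit 76) (nat_lit 153724236) (nat_lit 0) (nat_lit 4896560772) (nat_lit 1444) (nat_lit 2898384641) (nat_lit 634) (nat_lit 5) (nat_lit 633) (nat_lit 5) (nat_lit 652) (nat_lit 5) (nat_lit 413) (nat_lit 403) (nat_lit 324)) (XT.lf (nat_lit 76) (nat_lit 4458739545) (nat_lit 0) (nat_lit 2140757616) (nat_lit 1444) (nat_lit 1406629291) (nat_lit 634) (nat_lit 5) (nat_lit 633) (nat_lit 5) (nat_lit 652) (nat_lit 5) (nat_lit 414) (nat_lit 403) (nat_lit 323))))) (XT.nd (nat_lit 234) (nat_lit 1368) (nat_lit 0) (XT.nd (nat_lit 78) (nat_lit 0) (nat_lit 0) (XT.lf (nat_lit 0) (nat_lit 89823163) (nat_lit 1444) (nat_lit 7296561928) (nat_lit 1520) (nat_lit 678804978) (nat_lit 615) (nat_lit 5) (nat_lit 634) (nat_lit 5) (nat_lit 635) (nat_lit 5) (nat_lit 415) (nat_lit 403) (nat_lit 322)) (XT.nd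 (nat_lit 78) (nat_lit 0) (nat_lit 0) (XT.lf (nat_lit 0) (nat_lit 1602996907) (nat_lit 1444) (nat_lit 2951479229) (nat_lit 1520) (nat_lit 3570660323) (nat_lit 615) (nat_lit 5) (nat_lit 634) (nat_lit 5) (nat_lit 635) (nat_lit 5) (nat_lit 416) (nat_lit 403) (nat_lit 321)) (XT.lf (nat_lit 76) (nat_lit 1478405116) (nat_lit 0) (nat_lit 1645735363) (nat_lit 1520) (nat_lit 5062587174) (nat_lit 616) (nat_lit 5) (nat_lit 615) (nat_lit 5) (nat_lit 635) (nat_lit 5) (nat_lit 417) (nat_lit 403) (nat_lit 320)))) (XT.nd (nat_lit 156) (nat_lit 1444) (nat_lit 0) (XT.nd (nat_lit 78) (nat_lit 0) (nat_lit 0) (XT.lf (nat_lit 0) (nat_lit 4672881646) (nat_lit 1444) (nat_lit 2243010058) (nat_lit 1520) (nat_lit 1333715470) (nat_lit 616) (nat_lit 5) (nat_lit 635) (nat_lit 5) (nat_lit 636) (nat_lit 5) (nat_lit 418) (nat_lit 403) (nat_lit 319)) (XT.lf (nat_lit 76) (nat_lit 2309388400) (nat_lit 0) (nat_lit 3938376345) (nat_lit 1520) (nat_lit 2066076199) (nat_lit 617)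 (nat_lit 5) (nat_lit 616) (nat_lit 5) (nat_lit 636) (nat_lit 5) (nat_lit 419) (nat_lit 403) (nat_lit 318))) (XT.nd (nat_lit 78) (nat_lit 1444) (nat_lit 0) (XT.lf (nat_lit 76) (nat_lit 6961772185) (nat_lit 0) (nat_lit 877162308) (nat_lit 1520) (nat_lit 540729117) (nat_lit 617) (nat_lit 5) (nat_lit 616) (nat_lit 5) (nat_lit 636) (nat_lit 5) (nat_lit 420) (nat_lit 403) (nat_lit 317)) (XT.lf (nat_lit 0) (nat_lit 1008028027) (nat_lit 1520) (nat_lit 5186336612) (nat_lit 1596) (nat_lit 2252181939) (nat_lit 597) (nat_lit 5) (nat_lit 617) (nat_lit 5) (nat_lit 618) (nat_lit 5) (nat_lit 421) (nat_lit 403) (nat_lit 316))))))) (XT.nd (nat_lit 1014) (nat_lit 8132) (nat_lit 0) (XT.nd (nat_lit 468) (nat_lit 6916) (nat_lit 0) (XT.nd (nat_lit 234) (nat_lit 1444) (nat_lit 0) (XT.nd (nat_lit 78) (nat_lit 0) (nat_lit 76) (XT.lf (nat_lit 0) (nat_lit 2566547656) (nat_lit 1520) (nat_lit 494879861) (nat_lit 1596) (nat_lit 5453547651) (nat_lit 597) (nat_lit 5)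 (nat_lit 617) (nat_lit 5) (nat_lit 618) (nat_lit 5) (nat_lit 422) (nat_lit 403) (nat_lit 315)) (XT.nd (nat_lit 78) (nat_lit 0) (nat_lit 0) (XT.lf (nat_lit 0) (nat_lit 4156636758) (nat_lit 1520) (nat_lit 4260266365) (nat_lit 1596) (nat_lit 167861224) (nat_lit 598) (nat_lit 5) (nat_lit 618) (nat_lit 5) (nat_lit 619) (nat_lit 5) (nat_lit 423) (nat_lit 403) (nat_lit 314)) (XT.lf (nat_lit 76) (nat_lit 556101636) (nat_lit 0) (nat_lit 5221334901) (nat_lit 1596) (nat_lit 2878534595) (nat_lit 599) (nat_lit 5) (nat_lit 598) (nat_lit 5) (nat_lit 619) (nat_lit 5) (nat_lit 424) (nat_lit 403) (nat_lit 313)))) (XT.nd (nat_lit 78) (nat_lit 1520) (nat_lit 0) (XT.lf (nat_lit 76) (nat_lit 5504706558) (nat_lit 0) (nat_lit 1926628925) (nat_lit 1596) (nat_lit 1297252907) (nat_lit 599) (nat_lit 5) (nat_lit 598) (nat_lit 5) (nat_lit 619) (nat_lit 5) (nat_lit 425) (nat_lit 403) (nat_lit 312)) (XT.nd (nat_lit 78) (nat_lit 0) (nat_lit 0) (XT.lf (nat_lit 0) (nat_lit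 304765483) (nat_lit 1596) (nat_lit 7063643310) (nat_lit 76) (nat_lit 1434343191) (nat_lit 578) (nat_lit 5) (nat_lit 599) (nat_lit 5) (nat_lit 579) (nat_lit 5) (nat_lit 426) (nat_lit 403) (nat_lit 311)) (XT.lf (nat_lit 0) (nat_lit 1928902412) (nat_lit 1596) (nat_lit 2076612605) (nat_lit 76) (nat_lit 4872563370) (nat_lit 578) (nat_lit 5) (nat_lit 599) (nat_lit 5) (nat_lit 579) (nat_lit 5) (nat_lit 427) (nat_lit 403) (nat_lit 310))))) (XT.nd (nat_lit 234) (nat_lit 3648) (nat_lit 0) (XT.nd (nat_lit 78) (nat_lit 1672) (nat_lit 0) (XT.lf (nat_lit 0) (nat_lit 3028095764) (nat_lit 1596) (nat_lit 550513979) (nat_lit 1672) (nat_lit 5376439822) (nat_lit 557) (nat_lit 5) (nat_lit 578) (nat_lit 5) (nat_lit 579) (nat_lit 5) (nat_lit 428) (nat_lit 403) (nat_lit 309)) (XT.nd (nat_lit 78) (nat_lit 1672) (nat_lit 0) (XT.lf (nat_lit 0) (nat_lit 5268482596) (nat_lit 1672) (nat_lit 811820057) (nat_lit 76) (nat_lit 2953114085) (nat_lit 557) (nat_lit 5) (nat_lit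 579) (nat_lit 5) (nat_lit 558) (nat_lit 5) (nat_lit 429) (nat_lit 403) (nat_lit 308)) (XT.lf (nat_lit 0) (nat_lit 4438429273) (nat_lit 1672) (nat_lit 2560537067) (nat_lit 1748) (nat_lit 2114248646) (nat_lit 535) (nat_lit 5) (nat_lit 557) (nat_lit 5) (nat_lit 558) (nat_lit 5) (nat_lit 430) (nat_lit 403) (nat_lit 307)))) (XT.nd (nat_lit 156) (nat_lit 1824) (nat_lit 0) (XT.nd (nat_lit 78) (nat_lit 76) (nat_lit 0) (XT.lf (nat_lit 0) (nat_lit 589053634) (nat_lit 1748) (nat_lit 8165736402) (nat_lit 1824) (nat_lit 440004558) (nat_lit 512) (nat_lit 5) (nat_lit 535) (nat_lit 5) (nat_lit 536) (nat_lit 5) (nat_lit 431) (nat_lit 403) (nat_lit 306)) (XT.lf (nat_lit 0) (nat_lit 1274557722) (nat_lit 1824) (nat_lit 3303562728) (nat_lit 76) (nat_lit 4699251530) (nat_lit 511) (nat_lit 5) (nat_lit 535) (nat_lit 5) (nat_lit 512) (nat_lit 5) (nat_lit 432) (nat_lit 403) (nat_lit 305))) (XT.nd (nat_lit 78) (nat_lit 0) (nat_lit 0) (XT.lf (nat_lit 0) (nat_lit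 2107496898) (nat_lit 1824) (nat_lit 899127663) (nat_lit 1900) (nat_lit 6355136085) (nat_lit 487) (nat_lit 5) (nat_lit 511) (nat_lit 5) (nat_lit 512) (nat_lit 5) (nat_lit 433) (nat_lit 403) (nat_lit 304)) (XT.lf (nat_lit 0) (nat_lit 4789947929) (nat_lit 1900) (nat_lit 1816754115) (nat_lit 76) (nat_lit 2840802738) (nat_lit 487) (nat_lit 5) (nat_lit 512) (nat_lit 5) (nat_lit 488) (nat_lit 5) (nat_lit 434) (nat_lit 403) (nat_lit 303)))))) (XT.nd (nat_lit 546) (nat_lit 4256) (nat_lit 0) (XT.nd (nat_lit 234) (nat_lit 1748) (nat_lit 0) (XT.nd (nat_lit 78) (nat_lit 988) (nat_lit 0) (XT.lf (nat_lit 0) (nat_lit 3750936098) (nat_lit 1140) (nat_lit 2864558029) (nat_lit 1216) (nat_lit 2919338546) (nat_lit 472) (nat_lit 5) (nat_lit 487) (nat_lit 5) (nat_lit 488) (nat_lit 5) (nat_lit 435) (nat_lit 403) (nat_lit 302)) (XT.nd (nat_lit 78) (nat_lit 988) (nat_lit 0) (XT.lf (nat_lit 0) (nat_lit 8472591957) (nat_lit 1216) (nat_lit 197466944) (nat_lit 76)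 (nat_lit 953947408) (nat_lit 472) (nat_lit 5) (nat_lit 488) (nat_lit 5) (nat_lit 473) (nat_lit 5) (nat_lit 436) (nat_lit 403) (nat_lit 301)) (XT.lf (nat_lit 0) (nat_lit 675466060) (nat_lit 988) (nat_lit 4186198792) (nat_lit 76) (nat_lit 4852570975) (nat_lit 459) (nat_lit 5) (nat_lit 472) (nat_lit 5) (nat_lit 460) (nat_lit 5) (nat_lit 437) (nat_lit 403) (nat_lit 300)))) (XT.nd (nat_lit 156) (nat_lit 836) (nat_lit 0) (XT.nd (nat_lit 78) (nat_lit 0) (nat_lit 0) (XT.lf (nat_lit 0) (nat_lit 1555377716) (nat_lit 912) (nat_lit 956739787) (nat_lit 988) (nat_lit 7294227199) (nat_lit 447) (nat_lit 5) (nat_lit 459) (nat_lit 5) (nat_lit 460) (nat_lit 5) (nat_lit 438) (nat_lit 403) (nat_lit 299)) (XT.lf (nat_lit 0) (nat_lit 4410943131) (nat_lit 988) (nat_lit 2473220362) (nat_lit 76) (nat_lit 3015623438) (nat_lit 447) (nat_lit 5) (nat_lit 460) (nat_lit 5) (nat_lit 448) (nat_lit 5) (nat_lit 439) (nat_lit 403) (nat_lit 298))) (XT.nd (nat_lit 78) (nat_lit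 0) (nat_lit 0) (XT.lf (nat_lit 0) (nat_lit 3437075443) (nat_lit 836) (nat_lit 2917277392) (nat_lit 912) (nat_lit 3640613018) (nat_lit 436) (nat_lit 5) (nat_lit 447) (nat_lit 5) (nat_lit 448) (nat_lit 5) (nat_lit 440) (nat_lit 403) (nat_lit 297)) (XT.lf (nat_lit 0) (nat_lit 8338915817) (nat_lit 912) (nat_lit 622094403) (nat_lit 76) (nat_lit 1130992431) (nat_lit 436) (nat_lit 5) (nat_lit 448) (nat_lit 5) (nat_lit 437) (nat_lit 5) (nat_lit 441) (nat_lit 403) (nat_lit 296))))) (XT.nd (nat_lit 234) (nat_lit 2432) (nat_lit 0) (XT.nd (nat_lit 78) (nat_lit 836) (nat_lit 0) (XT.lf (nat_lit 0) (nat_lit 203618427) (nat_lit 988) (nat_lit 4728510965) (nat_lit 76) (nat_lit 5258154698) (nat_lit 423) (nat_lit 5) (nat_lit 436) (nat_lit 5) (nat_lit 424) (nat_lit 5) (nat_lit 442) (nat_lit 403) (nat_lit 295)) (XT.nd (nat_lit 78) (nat_lit 0) (nat_lit 0) (XT.lf (nat_lit 0) (nat_lit 1369884040) (nat_lit 836) (nat_lit 798032859) (nat_lit 912) (nat_lit 8122543841)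 (nat_lit 412) (nat_lit 5) (nat_lit 423) (nat_lit 5) (nat_lit 424) (nat_lit 5) (nat_lit 443) (nat_lit 403) (nat_lit 294)) (XT.lf (nat_lit 0) (nat_lit 4204724234) (nat_lit 912) (nat_lit 2782088408) (nat_lit 76) (nat_lit 3405163824) (nat_lit 412) (nat_lit 5) (nat_lit 424) (nat_lit 5) (nat_lit 413) (nat_lit 5) (nat_lit 444) (nat_lit 403) (nat_lit 293)))) (XT.nd (nat_lit 156) (nat_lit 1596) (nat_lit 0) (XT.nd (nat_lit 78) (nat_lit 0) (nat_lit 0) (XT.lf (nat_lit 0) (nat_lit 3498177266) (nat_lit 836) (nat_lit 2791583208) (nat_lit 912) (nat_lit 4205612176) (nat_lit 401) (nat_lit 5) (nat_lit 412) (nat_lit 5) (nat_lit 413) (nat_lit 5) (nat_lit 445) (nat_lit 403) (nat_lit 292)) (XT.lf (nat_lit 0) (nat_lit 8424698821) (nat_lit 912) (nat_lit 690326617) (nat_lit 76) (nat_lit 1485647293) (nat_lit 401) (nat_lit 5) (nat_lit 413) (nat_lit 5) (nat_lit 402) (nat_lit 5) (nat_lit 446) (nat_lit 403) (nat_lit 291))) (XT.nd (nat_lit 78) (nat_lit 836) (nat_lit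 0) (XT.lf (nat_lit 0) (nat_lit 5778565782) (nat_lit 760) (nat_lit 4859923092) (nat_lit 836) (nat_lit 68866880) (nat_lit 391) (nat_lit 5) (nat_lit 401) (nat_lit 5) (nat_lit 402) (nat_lit 5) (nat_lit 447) (nat_lit 403) (nat_lit 290)) (XT.lf (nat_lit 0) (nat_lit 1555441080) (nat_lit 760) (nat_lit 492687403) (nat_lit 836) (nat_lit 8767873196) (nat_lit 380) (nat_lit 5) (nat_lit 390) (nat_lit 5) (nat_lit 391) (nat_lit 5) (nat_lit 448) (nat_lit 403) (nat_lit 289))))))))
noncomputable def xc92 : XT := (XT.nd (nat_lit 2028) (nat_lit 532) (nat_lit 0) (XT.nd (nat_lit 1014) (nat_lit 4712) (nat_lit 0) (XT.nd (nat_lit 468) (nat_lit 3344) (nat_lit 0) (XT.nd (nat_lit 234) (nat_lit 1520) (nat_lit 0) (XT.nd (nat_lit 78) (nat_lit 760) (nat_lit 0) (XT.lf (nat_lit 0) (nat_lit 4246063824) (nat_lit 836) (nat_lit 2738159874) (nat_lit 76) (nat_lit 3941797275) (nat_lit 380) (nat_lit 5) (nat_lit 391) (nat_lit 5) (nat_lit 381) (nat_lit 5) (nat_lit 449) (nat_lit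 403) (nat_lit 288)) (XT.nd (nat_lit 78) (nat_lit 0) (nat_lit 0) (XT.lf (nat_lit 0) (nat_lit 3941779755) (nat_lit 760) (nat_lit 2555920150) (nat_lit 836) (nat_lit 4540345909) (nat_lit 370) (nat_lit 5) (nat_lit 380) (nat_lit 5) (nat_lit 381) (nat_lit 5) (nat_lit 450) (nat_lit 403) (nat_lit 287)) (XT.lf (nat_lit 0) (nat_lit 8806705228) (nat_lit 836) (nat_lit 393927909) (nat_lit 76) (nat_lit 1951431282) (nat_lit 370) (nat_lit 5) (nat_lit 381) (nat_lit 5) (nat_lit 371) (nat_lit 5) (nat_lit 451) (nat_lit 403) (nat_lit 286)))) (XT.nd (nat_lit 78) (nat_lit 760) (nat_lit 0) (XT.lf (nat_lit 0) (nat_lit 6489498740) (nat_lit 760) (nat_lit 4712931648) (nat_lit 836) (nat_lit 65122215) (nat_lit 360) (nat_lit 5) (nat_lit 370) (nat_lit 5) (nat_lit 371) (nat_lit 5) (nat_lit 452) (nat_lit 403) (nat_lit 285)) (XT.nd (nat_lit 78) (nat_lit 0) (nat_lit 0) (XT.lf (nat_lit 0) (nat_lit 2122529580) (nat_lit 684) (nat_lit 106566629) (nat_lit 760) (nat_lit 9156000250)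 (nat_lit 350) (nat_lit 5) (nat_lit 359) (nat_lit 5) (nat_lit 360) (nat_lit 5) (nat_lit 453) (nat_lit 403) (nat_lit 284)) (XT.lf (nat_lit 0) (nat_lit 4612206964) (nat_lit 760) (nat_lit 2330368210) (nat_lit 76) (nat_lit 4561529811) (nat_lit 350) (nat_lit 5) (nat_lit 360) (nat_lit 5) (nat_lit 351) (nat_lit 5) (nat_lit 454) (nat_lit 403) (nat_lit 283))))) (XT.nd (nat_lit 234) (nat_lit 1900) (nat_lit 0) (XT.nd (nat_lit 78) (nat_lit 760) (nat_lit 0) (XT.lf (nat_lit 0) (nat_lit 4781445551) (nat_lit 684) (nat_lit 2275431210) (nat_lit 760) (nat_lit 4568338982) (nat_lit 341) (nat_lit 5) (nat_lit 350) (nat_lit 5) (nat_lit 351) (nat_lit 5) (nat_lit 455) (nat_lit 403) (nat_lit 282)) (XT.nd (nat_lit 78) (nat_lit 76) (nat_lit 0) (XT.lf (nat_lit 0) (nat_lit 284921053) (nat_lit 684) (nat_lit 9281585028) (nat_lit 760) (nat_lit 2181921314) (nat_lit 332) (nat_lit 5) (nat_lit 341) (nat_lit 5) (nat_lit 342) (nat_lit 5) (nat_lit 456) (nat_lit 403) (nat_lit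 281)) (XT.lf (nat_lit 0) (nat_lit 292649096) (nat_lit 760) (nat_lit 4262560103) (nat_lit 76) (nat_lit 7317986681) (nat_lit 331) (nat_lit 5) (nat_lit 341) (nat_lit 5) (nat_lit 332) (nat_lit 5) (nat_lit 457) (nat_lit 403) (nat_lit 280)))) (XT.nd (nat_lit 156) (nat_lit 1216) (nat_lit 0) (XT.nd (nat_lit 78) (nat_lit 0) (nat_lit 0) (XT.lf (nat_lit 0) (nat_lit 2792276602) (nat_lit 760) (nat_lit 8914496575) (nat_lit 76) (nat_lit 293302477) (nat_lit 322) (nat_lit 5) (nat_lit 332) (nat_lit 5) (nat_lit 323) (nat_lit 5) (nat_lit 458) (nat_lit 403) (nat_lit 279)) (XT.lf (nat_lit 0) (nat_lit 5383813883) (nat_lit 760) (nat_lit 1541896394) (nat_lit 76) (nat_lit 5202944401) (nat_lit 322) (nat_lit 5) (nat_lit 332) (nat_lit 5) (nat_lit 323) (nat_lit 5) (nat_lit 459) (nat_lit 403) (nat_lit 278))) (XT.nd (nat_lit 78) (nat_lit 608) (nat_lit 0) (XT.lf (nat_lit 0) (nat_lit 6036660776) (nat_lit 608) (nat_lit 2013006143) (nat_lit 684) (nat_lit 4209688663) (nat_lit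 314) (nat_lit 5) (nat_lit 322) (nat_lit 5) (nat_lit 323) (nat_lit 5) (nat_lit 460) (nat_lit 403) (nat_lit 277)) (XT.lf (nat_lit 0) (nat_lit 1372863312) (nat_lit 608) (nat_lit 9418226651) (nat_lit 684) (nat_lit 1601135482) (nat_lit 306) (nat_lit 5) (nat_lit 314) (nat_lit 5) (nat_lit 315) (nat_lit 5) (nat_lit 461) (nat_lit 403) (nat_lit 276)))))) (XT.nd (nat_lit 468) (nat_lit 2812) (nat_lit 0) (XT.nd (nat_lit 234) (nat_lit 1216) (nat_lit 0) (XT.nd (nat_lit 78) (nat_lit 608) (nat_lit 0) (XT.lf (nat_lit 0) (nat_lit 1084598241) (nat_lit 684) (nat_lit 3363638770) (nat_lit 76) (nat_lit 8078599980) (nat_lit 305) (nat_lit 5) (nat_lit 314) (nat_lit 5) (nat_lit 306) (nat_lit 5) (nat_lit 462) (nat_lit 403) (nat_lit 275)) (XT.nd (nat_lit 78) (nat_lit 0) (nat_lit 0) (XT.lf (nat_lit 0) (nat_lit 3819798276) (nat_lit 684) (nat_lit 8195187973) (nat_lit 76) (nat_lit 648599033) (nat_lit 297) (nat_lit 5) (nat_lit 306) (nat_lit 5) (nat_lit 298) (nat_lit 5)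 (nat_lit 463) (nat_lit 403) (nat_lit 274)) (XT.lf (nat_lit 0) (nat_lit 6645901181) (nat_lit 684) (nat_lit 350218107) (nat_lit 76) (nat_lit 5806225272) (nat_lit 297) (nat_lit 5) (nat_lit 306) (nat_lit 5) (nat_lit 298) (nat_lit 5) (nat_lit 464) (nat_lit 403) (nat_lit 273)))) (XT.nd (nat_lit 78) (nat_lit 608) (nat_lit 0) (XT.lf (nat_lit 0) (nat_lit 7732811388) (nat_lit 608) (nat_lit 1830253727) (nat_lit 684) (nat_lit 3380123130) (nat_lit 289) (nat_lit 5) (nat_lit 297) (nat_lit 5) (nat_lit 298) (nat_lit 5) (nat_lit 465) (nat_lit 403) (nat_lit 272)) (XT.nd (nat_lit 78) (nat_lit 76) (nat_lit 0) (XT.lf (nat_lit 0) (nat_lit 2890611030) (nat_lit 532) (nat_lit 9675901486) (nat_lit 608) (nat_lit 519777484) (nat_lit 282) (nat_lit 5) (nat_lit 289) (nat_lit 5) (nat_lit 290) (nat_lit 5) (nat_lit 466) (nat_lit 403) (nat_lit 271)) (XT.lf (nat_lit 0) (nat_lit 2398194623) (nat_lit 608) (nat_lit 2055702721) (nat_lit 76) (nat_lit 8777407750) (nat_lit 281)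 (nat_lit 5) (nat_lit 289) (nat_lit 5) (nat_lit 282) (nat_lit 5) (nat_lit 467) (nat_lit 403) (nat_lit 270))))) (XT.nd (nat_lit 234) (nat_lit 1672) (nat_lit 0) (XT.nd (nat_lit 78) (nat_lit 532) (nat_lit 0) (XT.lf (nat_lit 0) (nat_lit 5399297372) (nat_lit 684) (nat_lit 7078297276) (nat_lit 76) (nat_lit 900922508) (nat_lit 273) (nat_lit 5) (nat_lit 282) (nat_lit 5) (nat_lit 274) (nat_lit 5) (nat_lit 468) (nat_lit 403) (nat_lit 269)) (XT.nd (nat_lit 78) (nat_lit 0) (nat_lit 0) (XT.lf (nat_lit 0) (nat_lit 1289849812) (nat_lit 532) (nat_lit 7207317388) (nat_lit 608) (nat_lit 5030771359) (nat_lit 266) (nat_lit 5) (nat_lit 273) (nat_lit 5) (nat_lit 274) (nat_lit 5) (nat_lit 469) (nat_lit 403) (nat_lit 268)) (XT.lf (nat_lit 0) (nat_lit 9901232579) (nat_lit 532) (nat_lit 1788413202) (nat_lit 608) (nat_lit 1990049581) (nat_lit 266) (nat_lit 5) (nat_lit 273) (nat_lit 5) (nat_lit 274) (nat_lit 5) (nat_lit 470) (nat_lit 403) (nat_lit 267)))) (XT.nd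 (nat_lit 156) (nat_lit 1064) (nat_lit 0) (XT.nd (nat_lit 78) (nat_lit 0) (nat_lit 0) (XT.lf (nat_lit 0) (nat_lit 1138487501) (nat_lit 608) (nat_lit 8971139363) (nat_lit 76) (nat_lit 3723884543) (nat_lit 258) (nat_lit 5) (nat_lit 266) (nat_lit 5) (nat_lit 259) (nat_lit 5) (nat_lit 471) (nat_lit 403) (nat_lit 266)) (XT.lf (nat_lit 0) (nat_lit 4325812658) (nat_lit 608) (nat_lit 307847439) (nat_lit 76) (nat_lit 9356023309) (nat_lit 258) (nat_lit 5) (nat_lit 266) (nat_lit 5) (nat_lit 259) (nat_lit 5) (nat_lit 472) (nat_lit 403) (nat_lit 265))) (XT.nd (nat_lit 78) (nat_lit 532) (nat_lit 0) (XT.lf (nat_lit 0) (nat_lit 7625137886) (nat_lit 608) (nat_lit 5532477442) (nat_lit 76) (nat_lit 990398447) (nat_lit 251) (nat_lit 5) (nat_lit 259) (nat_lit 5) (nat_lit 252) (nat_lit 5) (nat_lit 473) (nat_lit 403) (nat_lit 264)) (XT.lf (nat_lit 0) (nat_lit 3406338704) (nat_lit 532) (nat_lit 7624867778) (nat_lit 608) (nat_lit 3277489130) (nat_lit 244) (nat_lit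 5) (nat_lit 251) (nat_lit 5) (nat_lit 252) (nat_lit 5) (nat_lit 474) (nat_lit 403) (nat_lit 263))))))) (XT.nd (nat_lit 54678) (nat_lit 0) (nat_lit 25840) (XT.nd (nat_lit 54132) (nat_lit 0) (nat_lit 29944) (XT.nd (nat_lit 53898) (nat_lit 0) (nat_lit 31236) (XT.nd (nat_lit 78) (nat_lit 456) (nat_lit 0) (XT.lf (nat_lit 0) (nat_lit 55678656) (nat_lit 608) (nat_lit 1893166413) (nat_lit 76) (nat_lit 12523275687) (nat_lit 243) (nat_lit 5) (nat_lit 251) (nat_lit 5) (nat_lit 244) (nat_lit 5) (nat_lit 475) (nat_lit 403) (nat_lit 262)) (XT.nd (nat_lit 53742) (nat_lit 0) (nat_lit 31236) (XT.lf (nat_lit 0) (nat_lit 3470963705) (nat_lit 532) (nat_lit 7311538550) (nat_lit 76) (nat_lit 3854692075) (nat_lit 237) (nat_lit 5) (nat_lit 244) (nat_lit 5) (nat_lit 238) (nat_lit 5) (nat_lit 476) (nat_lit 403) (nat_lit 261)) (XT.lf (nat_lit 0) (nat_lit 159088003) (nat_lit 0) (nat_lit 159088003) (nat_lit 1292) (nat_lit 3449639516) (nat_lit 648) (nat_lit 5) (nat_lit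 648) (nat_lit 3) (nat_lit 665) (nat_lit 3) (nat_lit 404) (nat_lit 404) (nat_lit 332)))) (XT.nd (nat_lit 78) (nat_lit 0) (nat_lit 0) (XT.lf (nat_lit 0) (nat_lit 2105289729) (nat_lit 1292) (nat_lit 3453351571) (nat_lit 1368) (nat_lit 2023094570) (nat_lit 648) (nat_lit 5) (nat_lit 665) (nat_lit 3) (nat_lit 666) (nat_lit 5) (nat_lit 405) (nat_lit 404) (nat_lit 331)) (XT.nd (nat_lit 78) (nat_lit 0) (nat_lit 0) (XT.lf (nat_lit 76) (nat_lit 368873616) (nat_lit 0) (nat_lit 3201343364) (nat_lit 1368) (nat_lit 4059213597) (nat_lit 649) (nat_lit 5) (nat_lit 648) (nat_lit 5) (nat_lit 666) (nat_lit 5) (nat_lit 406) (nat_lit 404) (nat_lit 330)) (XT.lf (nat_lit 76) (nat_lit 4294594195) (nat_lit 0) (nat_lit 755745743) (nat_lit 1368) (nat_lit 2628021298) (nat_lit 649) (nat_lit 5) (nat_lit 648) (nat_lit 5) (nat_lit 666) (nat_lit 5) (nat_lit 407) (nat_lit 404) (nat_lit 329))))) (XT.nd (nat_lit 234) (nat_lit 0) (nat_lit 76) (XT.nd (nat_lit 78) (nat_lit 1368)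 (nat_lit 0) (XT.lf (nat_lit 76) (nat_lit 546218054) (nat_lit 0) (nat_lit 5992248685) (nat_lit 1368) (nat_lit 1190235740) (nat_lit 650) (nat_lit 5) (nat_lit 649) (nat_lit 5) (nat_lit 667) (nat_lit 5) (nat_lit 408) (nat_lit 404) (nat_lit 328)) (XT.nd (nat_lit 78) (nat_lit 0) (nat_lit 0) (XT.lf (nat_lit 0) (nat_lit 264456261) (nat_lit 1368) (nat_lit 3206436733) (nat_lit 1444) (nat_lit 4309286185) (nat_lit 631) (nat_lit 5) (nat_lit 649) (nat_lit 5) (nat_lit 650) (nat_lit 5) (nat_lit 409) (nat_lit 404) (nat_lit 327)) (XT.lf (nat_lit 76) (nat_lit 832002843) (nat_lit 0) (nat_lit 870338774) (nat_lit 1444) (nat_lit 6130785710) (nat_lit 632) (nat_lit 5) (nat_lit 631) (nat_lit 5) (nat_lit 650) (nat_lit 5) (nat_lit 410) (nat_lit 404) (nat_lit 326)))) (XT.nd (nat_lit 156) (nat_lit 0) (nat_lit 0) (XT.nd (nat_lit 78) (nat_lit 0) (nat_lit 0) (XT.lf (nat_lit 0) (nat_lit 3167495144) (nat_lit 1368) (nat_lit 2924561003) (nat_lit 1444) (nat_lit 1795108081)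 (nat_lit 632) (nat_lit 5) (nat_lit 650) (nat_lit 5) (nat_lit 651) (nat_lit 5) (nat_lit 411) (nat_lit 404) (nat_lit 325)) (XT.lf (nat_lit 76) (nat_lit 1223404977) (nat_lit 0) (nat_lit 3418214235) (nat_lit 1444) (nat_lit 3301069307) (nat_lit 633) (nat_lit 5) (nat_lit 632) (nat_lit 5) (nat_lit 651) (nat_lit 5) (nat_lit 412) (nat_lit 404) (nat_lit 324))) (XT.nd (nat_lit 78) (nat_lit 0) (nat_lit 76) (XT.lf (nat_lit 76) (nat_lit 5473697638) (nat_lit 0) (nat_lit 657649749) (nat_lit 1444) (nat_lit 1868253477) (nat_lit 633) (nat_lit 5) (nat_lit 632) (nat_lit 5) (nat_lit 651) (nat_lit 5) (nat_lit 413) (nat_lit 404) (nat_lit 323)) (XT.lf (nat_lit 76) (nat_lit 1739527520) (nat_lit 0) (nat_lit 5903886172) (nat_lit 1444) (nat_lit 414386891) (nat_lit 634) (nat_lit 5) (nat_lit 633) (nat_lit 5) (nat_lit 652) (nat_lit 5) (nat_lit 414) (nat_lit 404) (nat_lit 322)))))) (XT.nd (nat_lit 468) (nat_lit 1444) (nat_lit 0) (XT.nd (nat_lit 234) (nat_lit 1368) (nat_lit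 0) (XT.nd (nat_lit 78) (nat_lit 0) (nat_lit 0) (XT.lf (nat_lit 0) (nat_lit 1043493624) (nat_lit 1444) (nat_lit 2024639678) (nat_lit 1520) (nat_lit 5049113221) (nat_lit 614) (nat_lit 5) (nat_lit 633) (nat_lit 5) (nat_lit 634) (nat_lit 5) (nat_lit 415) (nat_lit 404) (nat_lit 321)) (XT.nd (nat_lit 78) (nat_lit 0) (nat_lit 76) (XT.lf (nat_lit 76) (nat_lit 2362602938) (nat_lit 0) (nat_lit 145894776) (nat_lit 1520) (nat_lit 5669658594) (nat_lit 615) (nat_lit 5) (nat_lit 614) (nat_lit 5) (nat_lit 634) (nat_lit 5) (nat_lit 416) (nat_lit 404) (nat_lit 320)) (XT.lf (nat_lit 0) (nat_lit 4003616495) (nat_lit 1444) (nat_lit 1414541126) (nat_lit 1520) (nat_lit 2822110375) (nat_lit 615) (nat_lit 5) (nat_lit 634) (nat_lit 5) (nat_lit 635) (nat_lit 5) (nat_lit 417) (nat_lit 404) (nat_lit 319)))) (XT.nd (nat_lit 78) (nat_lit 1444) (nat_lit 0) (XT.lf (nat_lit 76) (nat_lit 3093441118) (nat_lit 0) (nat_lit 2425593383) (nat_lit 1520) (nat_lit 2784779480) (nat_lit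 616) (nat_lit 5) (nat_lit 615) (nat_lit 5) (nat_lit 635) (nat_lit 5) (nat_lit 418) (nat_lit 404) (nat_lit 318)) (XT.nd (nat_lit 78) (nat_lit 1520) (nat_lit 0) (XT.lf (nat_lit 0) (nat_lit 7048262378) (nat_lit 1444) (nat_lit 683001852) (nat_lit 1520) (nat_lit 637696625) (nat_lit 616) (nat_lit 5) (nat_lit 635) (nat_lit 5) (nat_lit 636) (nat_lit 5) (nat_lit 419) (nat_lit 404) (nat_lit 317)) (XT.lf (nat_lit 0) (nat_lit 182656314) (nat_lit 1520) (nat_lit 4486482602) (nat_lit 1596) (nat_lit 3766004196) (nat_lit 596) (nat_lit 5) (nat_lit 616) (nat_lit 5) (nat_lit 617) (nat_lit 5) (nat_lit 420) (nat_lit 404) (nat_lit 316))))) (XT.nd (nat_lit 234) (nat_lit 1444) (nat_lit 0) (XT.nd (nat_lit 78) (nat_lit 0) (nat_lit 76) (XT.lf (nat_lit 76) (nat_lit 151849113) (nat_lit 0) (nat_lit 1522880743) (nat_lit 1596) (nat_lit 6828217846) (nat_lit 597) (nat_lit 5) (nat_lit 596) (nat_lit 5) (nat_lit 617) (nat_lit 5) (nat_lit 421) (nat_lit 404) (nat_lit 315))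 (XT.nd (nat_lit 78) (nat_lit 0) (nat_lit 0) (XT.lf (nat_lit 0) (nat_lit 3209109412) (nat_lit 1520) (nat_lit 3660404260) (nat_lit 1596) (nat_lit 1702345420) (nat_lit 597) (nat_lit 5) (nat_lit 617) (nat_lit 5) (nat_lit 618) (nat_lit 5) (nat_lit 422) (nat_lit 404) (nat_lit 314)) (XT.lf (nat_lit 76) (nat_lit 1107451957) (nat_lit 0) (nat_lit 3655774636) (nat_lit 1596) (nat_lit 3879141118) (nat_lit 598) (nat_lit 5) (nat_lit 597) (nat_lit 5) (nat_lit 618) (nat_lit 5) (nat_lit 423) (nat_lit 404) (nat_lit 313)))) (XT.nd (nat_lit 156) (nat_lit 1520) (nat_lit 0) (XT.nd (nat_lit 78) (nat_lit 0) (nat_lit 76) (XT.lf (nat_lit 76) (nat_lit 5999330675) (nat_lit 0) (nat_lit 345850507) (nat_lit 1596) (nat_lit 2369170219) (nat_lit 598) (nat_lit 5) (nat_lit 597) (nat_lit 5) (nat_lit 618) (nat_lit 5) (nat_lit 424) (nat_lit 404) (nat_lit 312)) (XT.lf (nat_lit 76) (nat_lit 2189178703) (nat_lit 0) (nat_lit 5776265018) (nat_lit 1596) (nat_lit 822197665) (nat_lit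 599) (nat_lit 5) (nat_lit 598) (nat_lit 5) (nat_lit 619) (nat_lit 5) (nat_lit 425) (nat_lit 404) (nat_lit 311))) (XT.nd (nat_lit 78) (nat_lit 0) (nat_lit 76) (XT.lf (nat_lit 0) (nat_lit 739433801) (nat_lit 1596) (nat_lit 1662435731) (nat_lit 1672) (nat_lit 6460556892) (nat_lit 577) (nat_lit 5) (nat_lit 598) (nat_lit 5) (nat_lit 599) (nat_lit 5) (nat_lit 426) (nat_lit 404) (nat_lit 310)) (XT.lf (nat_lit 0) (nat_lit 2323811868) (nat_lit 1596) (nat_lit 5555256805) (nat_lit 76) (nat_lit 1059479330) (nat_lit 578) (nat_lit 5) (nat_lit 599) (nat_lit 5) (nat_lit 579) (nat_lit 5) (nat_lit 427) (nat_lit 404) (nat_lit 309))))))))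
noncomputable def xc93 : XT := (XT.nd (nat_lit 2028) (nat_lit 8740) (nat_lit 0) (XT.nd (nat_lit 1014) (nat_lit 6688) (nat_lit 0) (XT.nd (nat_lit 468) (nat_lit 4864) (nat_lit 0) (XT.nd (nat_lit 234) (nat_lit 1824) (nat_lit 0) (XT.nd (nat_lit 78) (nat_lit 3268) (nat_lit 0) (XT.lf (nat_lit 0) (nat_lit 3940961907) (nat_lit 1596) (nat_lit 500831747) (nat_lit 76) (nat_lit 4574376672) (nat_lit 578) (nat_lit 5) (nat_lit 599) (nat_lit 5) (nat_lit 579) (nat_lit 5) (nat_lit 428) (nat_lit 404) (nat_lit 308)) (XT.nd (nat_lit 78) (nat_lit 1672) (nat_lit 0) (XT.lf (nat_lit 0) (nat_lit 4695330571) (nat_lit 1596) (nat_lit 900068684) (nat_lit 1672) (nat_lit 3499846955) (nat_lit 557) (nat_lit 5) (nat_lit 578) (nat_lit 5) (nat_lit 579) (nat_lit 5) (nat_lit 429) (nat_lit 404) (nat_lit 307)) (XT.lf (nat_lit 0) (nat_lit 797873773) (nat_lit 1672) (nat_lit 6486079646) (nat_lit 1748) (nat_lit 1891929630) (nat_lit 535) (nat_lit 5) (nat_lit 557) (nat_lit 5) (nat_lit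 558) (nat_lit 5) (nat_lit 430) (nat_lit 404) (nat_lit 306)))) (XT.nd (nat_lit 78) (nat_lit 1824) (nat_lit 0) (XT.lf (nat_lit 0) (nat_lit 6132035767) (nat_lit 1672) (nat_lit 2884899029) (nat_lit 1748) (nat_lit 240984708) (nat_lit 535) (nat_lit 5) (nat_lit 557) (nat_lit 5) (nat_lit 558) (nat_lit 5) (nat_lit 431) (nat_lit 404) (nat_lit 305)) (XT.nd (nat_lit 78) (nat_lit 0) (nat_lit 0) (XT.lf (nat_lit 0) (nat_lit 1419365298) (nat_lit 1824) (nat_lit 7116838816) (nat_lit 76) (nat_lit 805298975) (nat_lit 511) (nat_lit 5) (nat_lit 535) (nat_lit 5) (nat_lit 512) (nat_lit 5) (nat_lit 432) (nat_lit 404) (nat_lit 304)) (XT.lf (nat_lit 0) (nat_lit 3125817302) (nat_lit 1824) (nat_lit 1744042781) (nat_lit 76) (nat_lit 4556543969) (nat_lit 511) (nat_lit 5) (nat_lit 535) (nat_lit 5) (nat_lit 512) (nat_lit 5) (nat_lit 433) (nat_lit 404) (nat_lit 303))))) (XT.nd (nat_lit 234) (nat_lit 1900) (nat_lit 0) (XT.nd (nat_lit 78) (nat_lit 1140) (nat_lit 0) (XT.lf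 (nat_lit 0) (nat_lit 3764543359) (nat_lit 1824) (nat_lit 1102667718) (nat_lit 1900) (nat_lit 4645775703) (nat_lit 487) (nat_lit 5) (nat_lit 511) (nat_lit 5) (nat_lit 512) (nat_lit 5) (nat_lit 434) (nat_lit 404) (nat_lit 302)) (XT.nd (nat_lit 78) (nat_lit 1140) (nat_lit 0) (XT.lf (nat_lit 0) (nat_lit 6649716752) (nat_lit 1900) (nat_lit 233373153) (nat_lit 76) (nat_lit 2718085576) (nat_lit 487) (nat_lit 5) (nat_lit 512) (nat_lit 5) (nat_lit 488) (nat_lit 5) (nat_lit 435) (nat_lit 404) (nat_lit 301)) (XT.lf (nat_lit 0) (nat_lit 5435014838) (nat_lit 1140) (nat_lit 3052618476) (nat_lit 1216) (nat_lit 1203099427) (nat_lit 472) (nat_lit 5) (nat_lit 487) (nat_lit 5) (nat_lit 488) (nat_lit 5) (nat_lit 436) (nat_lit 404) (nat_lit 300)))) (XT.nd (nat_lit 156) (nat_lit 912) (nat_lit 0) (XT.nd (nat_lit 78) (nat_lit 0) (nat_lit 0) (XT.lf (nat_lit 0) (nat_lit 566478249) (nat_lit 988) (nat_lit 8356137737) (nat_lit 76) (nat_lit 859512597) (nat_lit 459)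 (nat_lit 5) (nat_lit 472) (nat_lit 5) (nat_lit 460) (nat_lit 5) (nat_lit 437) (nat_lit 404) (nat_lit 299)) (XT.lf (nat_lit 0) (nat_lit 2381967288) (nat_lit 988) (nat_lit 2645575548) (nat_lit 76) (nat_lit 4847117869) (nat_lit 459) (nat_lit 5) (nat_lit 472) (nat_lit 5) (nat_lit 460) (nat_lit 5) (nat_lit 438) (nat_lit 404) (nat_lit 298))) (XT.nd (nat_lit 78) (nat_lit 0) (nat_lit 0) (XT.lf (nat_lit 0) (nat_lit 3200145995) (nat_lit 912) (nat_lit 1032486801) (nat_lit 988) (nat_lit 5736433341) (nat_lit 447) (nat_lit 5) (nat_lit 459) (nat_lit 5) (nat_lit 460) (nat_lit 5) (nat_lit 439) (nat_lit 404) (nat_lit 297)) (XT.lf (nat_lit 0) (nat_lit 6136324130) (nat_lit 988) (nat_lit 907553644) (nat_lit 76) (nat_lit 3021161653) (nat_lit 447) (nat_lit 5) (nat_lit 460) (nat_lit 5) (nat_lit 448) (nat_lit 5) (nat_lit 440) (nat_lit 404) (nat_lit 296)))))) (XT.nd (nat_lit 468) (nat_lit 3192) (nat_lit 0) (XT.nd (nat_lit 234) (nat_lit 1672) (nat_lit 0) (XT.nd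 (nat_lit 78) (nat_lit 988) (nat_lit 0) (XT.lf (nat_lit 0) (nat_lit 5110322214) (nat_lit 836) (nat_lit 2986596107) (nat_lit 912) (nat_lit 2065637280) (nat_lit 436) (nat_lit 5) (nat_lit 447) (nat_lit 5) (nat_lit 448) (nat_lit 5) (nat_lit 441) (nat_lit 404) (nat_lit 295)) (XT.nd (nat_lit 78) (nat_lit 76) (nat_lit 0) (XT.lf (nat_lit 0) (nat_lit 983148143) (nat_lit 912) (nat_lit 9112661774) (nat_lit 988) (nat_lit 166230472) (nat_lit 424) (nat_lit 5) (nat_lit 436) (nat_lit 5) (nat_lit 437) (nat_lit 5) (nat_lit 442) (nat_lit 404) (nat_lit 294)) (XT.lf (nat_lit 0) (nat_lit 1781071755) (nat_lit 988) (nat_lit 3207939340) (nat_lit 76) (nat_lit 5373611057) (nat_lit 423) (nat_lit 5) (nat_lit 436) (nat_lit 5) (nat_lit 424) (nat_lit 5) (nat_lit 443) (nat_lit 404) (nat_lit 293)))) (XT.nd (nat_lit 78) (nat_lit 836) (nat_lit 0) (XT.lf (nat_lit 0) (nat_lit 3001797632) (nat_lit 836) (nat_lit 762425539) (nat_lit 912) (nat_lit 6700987825) (nat_lit 412) (nat_lit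 5) (nat_lit 423) (nat_lit 5) (nat_lit 424) (nat_lit 5) (nat_lit 444) (nat_lit 404) (nat_lit 292)) (XT.nd (nat_lit 78) (nat_lit 836) (nat_lit 0) (XT.lf (nat_lit 0) (nat_lit 5811644942) (nat_lit 912) (nat_lit 1234553650) (nat_lit 76) (nat_lit 3523160879) (nat_lit 412) (nat_lit 5) (nat_lit 424) (nat_lit 5) (nat_lit 413) (nat_lit 5) (nat_lit 445) (nat_lit 404) (nat_lit 291)) (XT.lf (nat_lit 0) (nat_lit 5160770124) (nat_lit 836) (nat_lit 2758092852) (nat_lit 912) (nat_lit 2756350982) (nat_lit 401) (nat_lit 5) (nat_lit 412) (nat_lit 5) (nat_lit 413) (nat_lit 5) (nat_lit 446) (nat_lit 404) (nat_lit 290))))) (XT.nd (nat_lit 234) (nat_lit 1596) (nat_lit 0) (XT.nd (nat_lit 78) (nat_lit 836) (nat_lit 0) (XT.lf (nat_lit 0) (nat_lit 897952999) (nat_lit 760) (nat_lit 9175469150) (nat_lit 836) (nat_lit 709659450) (nat_lit 391) (nat_lit 5) (nat_lit 401) (nat_lit 5) (nat_lit 402) (nat_lit 5) (nat_lit 447) (nat_lit 404) (nat_lit 289)) (XT.nd (nat_lit 78)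 (nat_lit 760) (nat_lit 0) (XT.lf (nat_lit 0) (nat_lit 1396064623) (nat_lit 836) (nat_lit 3427588698) (nat_lit 76) (nat_lit 6068550918) (nat_lit 390) (nat_lit 5) (nat_lit 401) (nat_lit 5) (nat_lit 391) (nat_lit 5) (nat_lit 448) (nat_lit 404) (nat_lit 288)) (XT.lf (nat_lit 0) (nat_lit 3175349054) (nat_lit 760) (nat_lit 360712022) (nat_lit 836) (nat_lit 7467321235) (nat_lit 380) (nat_lit 5) (nat_lit 390) (nat_lit 5) (nat_lit 391) (nat_lit 5) (nat_lit 449) (nat_lit 404) (nat_lit 287)))) (XT.nd (nat_lit 156) (nat_lit 836) (nat_lit 0) (XT.nd (nat_lit 78) (nat_lit 760) (nat_lit 0) (XT.lf (nat_lit 0) (nat_lit 5750485957) (nat_lit 836) (nat_lit 1207807674) (nat_lit 76) (nat_lit 4157857744) (nat_lit 380) (nat_lit 5) (nat_lit 391) (nat_lit 5) (nat_lit 381) (nat_lit 5) (nat_lit 450) (nat_lit 404) (nat_lit 286)) (XT.lf (nat_lit 0) (nat_lit 5595302356) (nat_lit 760) (nat_lit 2434242965) (nat_lit 836) (nat_lit 3201223580) (nat_lit 370) (nat_lit 5) (nat_lit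 380) (nat_lit 5) (nat_lit 381) (nat_lit 5) (nat_lit 451) (nat_lit 404) (nat_lit 285))) (XT.nd (nat_lit 78) (nat_lit 76) (nat_lit 0) (XT.lf (nat_lit 0) (nat_lit 1183919805) (nat_lit 760) (nat_lit 9182109577) (nat_lit 836) (nat_lit 981412525) (nat_lit 360) (nat_lit 5) (nat_lit 370) (nat_lit 5) (nat_lit 371) (nat_lit 5) (nat_lit 452) (nat_lit 404) (nat_lit 284)) (XT.lf (nat_lit 0) (nat_lit 1302104569) (nat_lit 836) (nat_lit 3295139516) (nat_lit 76) (nat_lit 6868315034) (nat_lit 359) (nat_lit 5) (nat_lit 370) (nat_lit 5) (nat_lit 360) (nat_lit 5) (nat_lit 453) (nat_lit 404) (nat_lit 283))))))) (XT.nd (nat_lit 1014) (nat_lit 3420) (nat_lit 0) (XT.nd (nat_lit 468) (nat_lit 2508) (nat_lit 0) (XT.nd (nat_lit 234) (nat_lit 1444) (nat_lit 0) (XT.nd (nat_lit 78) (nat_lit 684) (nat_lit 0) (XT.lf (nat_lit 0) (nat_lit 3625398519) (nat_lit 760) (nat_lit 7853836393) (nat_lit 76) (nat_lit 106529068) (nat_lit 350) (nat_lit 5) (nat_lit 360) (nat_lit 5)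 (nat_lit 351) (nat_lit 5) (nat_lit 454) (nat_lit 404) (nat_lit 282)) (XT.nd (nat_lit 78) (nat_lit 684) (nat_lit 0) (XT.lf (nat_lit 0) (nat_lit 6030359069) (nat_lit 760) (nat_lit 814940197) (nat_lit 76) (nat_lit 4862369659) (nat_lit 350) (nat_lit 5) (nat_lit 360) (nat_lit 5) (nat_lit 351) (nat_lit 5) (nat_lit 455) (nat_lit 404) (nat_lit 281)) (XT.lf (nat_lit 0) (nat_lit 6428833290) (nat_lit 684) (nat_lit 2079165824) (nat_lit 760) (nat_lit 3323521248) (nat_lit 341) (nat_lit 5) (nat_lit 350) (nat_lit 5) (nat_lit 351) (nat_lit 5) (nat_lit 456) (nat_lit 404) (nat_lit 280)))) (XT.nd (nat_lit 78) (nat_lit 760) (nat_lit 0) (XT.lf (nat_lit 0) (nat_lit 1856637263) (nat_lit 684) (nat_lit 9197204384) (nat_lit 760) (nat_lit 903634187) (nat_lit 332) (nat_lit 5) (nat_lit 341) (nat_lit 5) (nat_lit 342) (nat_lit 5) (nat_lit 457) (nat_lit 404) (nat_lit 279)) (XT.nd (nat_lit 78) (nat_lit 684) (nat_lit 0) (XT.lf (nat_lit 0) (nat_lit 1577510179) (nat_lit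 760) (nat_lit 2795502403) (nat_lit 76) (nat_lit 7712067055) (nat_lit 331) (nat_lit 5) (nat_lit 341) (nat_lit 5) (nat_lit 332) (nat_lit 5) (nat_lit 458) (nat_lit 404) (nat_lit 278)) (XT.lf (nat_lit 0) (nat_lit 4113869920) (nat_lit 760) (nat_lit 7527217291) (nat_lit 76) (nat_lit 573675001) (nat_lit 322) (nat_lit 5) (nat_lit 332) (nat_lit 5) (nat_lit 323) (nat_lit 5) (nat_lit 459) (nat_lit 404) (nat_lit 277))))) (XT.nd (nat_lit 234) (nat_lit 1292) (nat_lit 0) (XT.nd (nat_lit 78) (nat_lit 1216) (nat_lit 0) (XT.lf (nat_lit 0) (nat_lit 6732419363) (nat_lit 760) (nat_lit 37862541) (nat_lit 76) (nat_lit 5576127284) (nat_lit 322) (nat_lit 5) (nat_lit 332) (nat_lit 5) (nat_lit 323) (nat_lit 5) (nat_lit 460) (nat_lit 404) (nat_lit 276)) (XT.nd (nat_lit 78) (nat_lit 608) (nat_lit 0) (XT.lf (nat_lit 0) (nat_lit 7682167932) (nat_lit 608) (nat_lit 1754989427) (nat_lit 684) (nat_lit 3042855394) (nat_lit 314) (nat_lit 5) (nat_lit 322) (nat_lit 5) (nat_lit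 323) (nat_lit 5) (nat_lit 461) (nat_lit 404) (nat_lit 275)) (XT.lf (nat_lit 0) (nat_lit 2937507802) (nat_lit 608) (nat_lit 9283731176) (nat_lit 684) (nat_lit 394544433) (nat_lit 306) (nat_lit 5) (nat_lit 314) (nat_lit 5) (nat_lit 315) (nat_lit 5) (nat_lit 462) (nat_lit 404) (nat_lit 274)))) (XT.nd (nat_lit 156) (nat_lit 608) (nat_lit 0) (XT.nd (nat_lit 78) (nat_lit 608) (nat_lit 0) (XT.lf (nat_lit 0) (nat_lit 2304691302) (nat_lit 684) (nat_lit 1907939128) (nat_lit 76) (nat_lit 8540775280) (nat_lit 305) (nat_lit 5) (nat_lit 314) (nat_lit 5) (nat_lit 306) (nat_lit 5) (nat_lit 463) (nat_lit 404) (nat_lit 273)) (XT.lf (nat_lit 0) (nat_lit 5083051435) (nat_lit 684) (nat_lit 6824575414) (nat_lit 76) (nat_lit 985492994) (nat_lit 297) (nat_lit 5) (nat_lit 306) (nat_lit 5) (nat_lit 298) (nat_lit 5) (nat_lit 464) (nat_lit 404) (nat_lit 272))) (XT.nd (nat_lit 78) (nat_lit 0) (nat_lit 0) (XT.lf (nat_lit 0) (nat_lit 1162451048) (nat_lit 608) (nat_lit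 6787501044) (nat_lit 684) (nat_lit 5085016702) (nat_lit 289) (nat_lit 5) (nat_lit 297) (nat_lit 5) (nat_lit 298) (nat_lit 5) (nat_lit 465) (nat_lit 404) (nat_lit 271)) (XT.lf (nat_lit 0) (nat_lit 9381997828) (nat_lit 608) (nat_lit 1522802153) (nat_lit 684) (nat_lit 2274242557) (nat_lit 289) (nat_lit 5) (nat_lit 297) (nat_lit 5) (nat_lit 298) (nat_lit 5) (nat_lit 466) (nat_lit 404) (nat_lit 270)))))) (XT.nd (nat_lit 468) (nat_lit 1064) (nat_lit 0) (XT.nd (nat_lit 234) (nat_lit 1140) (nat_lit 0) (XT.nd (nat_lit 78) (nat_lit 608) (nat_lit 0) (XT.lf (nat_lit 0) (nat_lit 624208094) (nat_lit 608) (nat_lit 8875564880) (nat_lit 76) (nat_lit 3825363114) (nat_lit 281) (nat_lit 5) (nat_lit 289) (nat_lit 5) (nat_lit 282) (nat_lit 5) (nat_lit 467) (nat_lit 404) (nat_lit 269)) (XT.nd (nat_lit 78) (nat_lit 608) (nat_lit 0) (XT.lf (nat_lit 0) (nat_lit 3571087745) (nat_lit 608) (nat_lit 606046742) (nat_lit 76) (nat_lit 9296298125) (nat_lit 281) (nat_lit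 5) (nat_lit 289) (nat_lit 5) (nat_lit 282) (nat_lit 5) (nat_lit 468) (nat_lit 404) (nat_lit 268)) (XT.lf (nat_lit 0) (nat_lit 6622162888) (nat_lit 684) (nat_lit 5719043528) (nat_lit 76) (nat_lit 1282583493) (nat_lit 273) (nat_lit 5) (nat_lit 282) (nat_lit 5) (nat_lit 274) (nat_lit 5) (nat_lit 469) (nat_lit 404) (nat_lit 267)))) (XT.nd (nat_lit 78) (nat_lit 608) (nat_lit 0) (XT.lf (nat_lit 0) (nat_lit 2806592689) (nat_lit 532) (nat_lit 6963217249) (nat_lit 608) (nat_lit 4006633404) (nat_lit 266) (nat_lit 5) (nat_lit 273) (nat_lit 5) (nat_lit 274) (nat_lit 5) (nat_lit 470) (nat_lit 404) (nat_lit 266)) (XT.nd (nat_lit 78) (nat_lit 608) (nat_lit 0) (XT.lf (nat_lit 0) (nat_lit 11560968878) (nat_lit 532) (nat_lit 1443547655) (nat_lit 608) (nat_lit 927151179) (nat_lit 266) (nat_lit 5) (nat_lit 273) (nat_lit 5) (nat_lit 274) (nat_lit 5) (nat_lit 471) (nat_lit 404) (nat_lit 265)) (XT.lf (nat_lit 0) (nat_lit 2240210211) (nat_lit 608) (nat_lit 7665104068)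 (nat_lit 76) (nat_lit 4183288297) (nat_lit 258) (nat_lit 5) (nat_lit 266) (nat_lit 5) (nat_lit 259) (nat_lit 5) (nat_lit 472) (nat_lit 404) (nat_lit 264))))) (XT.nd (nat_lit 54054) (nat_lit 0) (nat_lit 29336) (XT.nd (nat_lit 78) (nat_lit 532) (nat_lit 0) (XT.lf (nat_lit 0) (nat_lit 1157507989) (nat_lit 532) (nat_lit 4320133250) (nat_lit 608) (nat_lit 8770529589) (nat_lit 251) (nat_lit 5) (nat_lit 258) (nat_lit 5) (nat_lit 259) (nat_lit 5) (nat_lit 473) (nat_lit 404) (nat_lit 263)) (XT.nd (nat_lit 78) (nat_lit 532) (nat_lit 0) (XT.lf (nat_lit 0) (nat_lit 8826688828) (nat_lit 608) (nat_lit 4178046703) (nat_lit 76) (nat_lit 1405257555) (nat_lit 251) (nat_lit 5) (nat_lit 259) (nat_lit 5) (nat_lit 252) (nat_lit 5) (nat_lit 474) (nat_lit 404) (nat_lit 262)) (XT.lf (nat_lit 0) (nat_lit 4929907080) (nat_lit 532) (nat_lit 7359851837) (nat_lit 608) (nat_lit 2284352042) (nat_lit 244) (nat_lit 5) (nat_lit 251) (nat_lit 5) (nat_lit 252) (nat_lit 5)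 (nat_lit 475) (nat_lit 404) (nat_lit 261)))) (XT.nd (nat_lit 156) (nat_lit 1368) (nat_lit 0) (XT.nd (nat_lit 78) (nat_lit 0) (nat_lit 0) (XT.lf (nat_lit 0) (nat_lit 882197152) (nat_lit 0) (nat_lit 882197152) (nat_lit 1292) (nat_lit 2049980432) (nat_lit 648) (nat_lit 5) (nat_lit 648) (nat_lit 3) (nat_lit 665) (nat_lit 3) (nat_lit 405) (nat_lit 405) (nat_lit 330)) (XT.lf (nat_lit 0) (nat_lit 4961474999) (nat_lit 1292) (nat_lit 2045166189) (nat_lit 1368) (nat_lit 670447810) (nat_lit 648) (nat_lit 5) (nat_lit 665) (nat_lit 3) (nat_lit 666) (nat_lit 5) (nat_lit 406) (nat_lit 405) (nat_lit 329))) (XT.nd (nat_lit 78) (nat_lit 1368) (nat_lit 0) (XT.lf (nat_lit 76) (nat_lit 1843784737) (nat_lit 0) (nat_lit 4566266232) (nat_lit 1368) (nat_lit 1316599627) (nat_lit 649) (nat_lit 5) (nat_lit 648) (nat_lit 5) (nat_lit 666) (nat_lit 5) (nat_lit 407) (nat_lit 405) (nat_lit 328)) (XT.lf (nat_lit 0) (nat_lit 86695783) (nat_lit 1368) (nat_lit 1958971337)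 (nat_lit 1444) (nat_lit 5731967000) (nat_lit 630) (nat_lit 5) (nat_lit 648) (nat_lit 5) (nat_lit 649) (nat_lit 5) (nat_lit 408) (nat_lit 405) (nat_lit 327))))))))
noncomputable def xc94 : XT := (XT.nd (nat_lit 2028) (nat_lit 14364) (nat_lit 0) (XT.nd (nat_lit 1014) (nat_lit 6384) (nat_lit 0) (XT.nd (nat_lit 468) (nat_lit 1368) (nat_lit 0) (XT.nd (nat_lit 234) (nat_lit 1368) (nat_lit 0) (XT.nd (nat_lit 78) (nat_lit 0) (nat_lit 0) (XT.lf (nat_lit 0) (nat_lit 1482007609) (nat_lit 1368) (nat_lit 5791189338) (nat_lit 1444) (nat_lit 556634714) (nat_lit 631) (nat_lit 5) (nat_lit 649) (nat_lit 5) (nat_lit 650) (nat_lit 5) (nat_lit 409) (nat_lit 405) (nat_lit 326)) (XT.nd (nat_lit 78) (nat_lit 0) (nat_lit 0) (XT.lf (nat_lit 0) (nat_lit 2897319609) (nat_lit 1368) (nat_lit 1773445448) (nat_lit 1444) (nat_lit 3212466221) (nat_lit 631) (nat_lit 5) (nat_lit 649) (nat_lit 5) (nat_lit 650) (nat_lit 5) (nat_lit 410) (nat_lit 405) (nat_lit 325)) (XT.lf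 (nat_lit 76) (nat_lit 2335913446) (nat_lit 0) (nat_lit 1986184510) (nat_lit 1444) (nat_lit 3615977728) (nat_lit 632) (nat_lit 5) (nat_lit 631) (nat_lit 5) (nat_lit 650) (nat_lit 5) (nat_lit 411) (nat_lit 405) (nat_lit 324)))) (XT.nd (nat_lit 78) (nat_lit 1444) (nat_lit 0) (XT.lf (nat_lit 0) (nat_lit 5758862411) (nat_lit 1368) (nat_lit 1467251703) (nat_lit 1444) (nat_lit 768233051) (nat_lit 632) (nat_lit 5) (nat_lit 650) (nat_lit 5) (nat_lit 651) (nat_lit 5) (nat_lit 412) (nat_lit 405) (nat_lit 323)) (XT.nd (nat_lit 78) (nat_lit 1444) (nat_lit 0) (XT.lf (nat_lit 76) (nat_lit 2753701225) (nat_lit 0) (nat_lit 4468975604) (nat_lit 1444) (nat_lit 829100957) (nat_lit 633) (nat_lit 5) (nat_lit 632) (nat_lit 5) (nat_lit 651) (nat_lit 5) (nat_lit 413) (nat_lit 405) (nat_lit 322)) (XT.lf (nat_lit 0) (nat_lit 574965693) (nat_lit 1444) (nat_lit 1055113124) (nat_lit 1520) (nat_lit 6480649681) (nat_lit 613) (nat_lit 5) (nat_lit 632) (nat_lit 5) (nat_lit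 633) (nat_lit 5) (nat_lit 414) (nat_lit 405) (nat_lit 321))))) (XT.nd (nat_lit 234) (nat_lit 1444) (nat_lit 0) (XT.nd (nat_lit 78) (nat_lit 0) (nat_lit 0) (XT.lf (nat_lit 0) (nat_lit 1994082885) (nat_lit 1444) (nat_lit 4888580964) (nat_lit 1520) (nat_lit 1288123350) (nat_lit 614) (nat_lit 5) (nat_lit 633) (nat_lit 5) (nat_lit 634) (nat_lit 5) (nat_lit 415) (nat_lit 405) (nat_lit 320)) (XT.nd (nat_lit 78) (nat_lit 0) (nat_lit 0) (XT.lf (nat_lit 0) (nat_lit 3428298851) (nat_lit 1444) (nat_lit 542276318) (nat_lit 1520) (nat_lit 4261737578) (nat_lit 614) (nat_lit 5) (nat_lit 633) (nat_lit 5) (nat_lit 634) (nat_lit 5) (nat_lit 416) (nat_lit 405) (nat_lit 319)) (XT.lf (nat_lit 76) (nat_lit 3922692360) (nat_lit 0) (nat_lit 963381333) (nat_lit 1520) (nat_lit 3409097621) (nat_lit 615) (nat_lit 5) (nat_lit 614) (nat_lit 5) (nat_lit 634) (nat_lit 5) (nat_lit 417) (nat_lit 405) (nat_lit 318)))) (XT.nd (nat_lit 156) (nat_lit 1520) (nat_lit 0) (XT.nd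 (nat_lit 78) (nat_lit 0) (nat_lit 0) (XT.lf (nat_lit 76) (nat_lit 92373868) (nat_lit 0) (nat_lit 6268500301) (nat_lit 1520) (nat_lit 1998655480) (nat_lit 616) (nat_lit 5) (nat_lit 615) (nat_lit 5) (nat_lit 635) (nat_lit 5) (nat_lit 418) (nat_lit 405) (nat_lit 317)) (XT.lf (nat_lit 76) (nat_lit 4679212190) (nat_lit 0) (nat_lit 3192043844) (nat_lit 1520) (nat_lit 553797410) (nat_lit 616) (nat_lit 5) (nat_lit 615) (nat_lit 5) (nat_lit 635) (nat_lit 5) (nat_lit 419) (nat_lit 405) (nat_lit 316))) (XT.nd (nat_lit 78) (nat_lit 0) (nat_lit 76) (XT.lf (nat_lit 76) (nat_lit 850976749) (nat_lit 0) (nat_lit 33234607) (nat_lit 1596) (nat_lit 7608030520) (nat_lit 596) (nat_lit 5) (nat_lit 595) (nat_lit 5) (nat_lit 616) (nat_lit 5) (nat_lit 420) (nat_lit 405) (nat_lit 315)) (XT.lf (nat_lit 0) (nat_lit 2360872241) (nat_lit 1520) (nat_lit 3014912399) (nat_lit 1596) (nat_lit 3184570079) (nat_lit 596) (nat_lit 5) (nat_lit 616) (nat_lit 5) (nat_lit 617)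 (nat_lit 5) (nat_lit 421) (nat_lit 405) (nat_lit 314)))))) (XT.nd (nat_lit 468) (nat_lit 5016) (nat_lit 0) (XT.nd (nat_lit 234) (nat_lit 1444) (nat_lit 0) (XT.nd (nat_lit 78) (nat_lit 0) (nat_lit 76) (XT.lf (nat_lit 76) (nat_lit 1705914241) (nat_lit 0) (nat_lit 2144304830) (nat_lit 1596) (nat_lit 4779947693) (nat_lit 597) (nat_lit 5) (nat_lit 596) (nat_lit 5) (nat_lit 617) (nat_lit 5) (nat_lit 422) (nat_lit 405) (nat_lit 313)) (XT.nd (nat_lit 78) (nat_lit 0) (nat_lit 0) (XT.lf (nat_lit 0) (nat_lit 5369524612) (nat_lit 1520) (nat_lit 2167234910) (nat_lit 1596) (nat_lit 1164612093) (nat_lit 597) (nat_lit 5) (nat_lit 617) (nat_lit 5) (nat_lit 618) (nat_lit 5) (nat_lit 423) (nat_lit 405) (nat_lit 312)) (XT.lf (nat_lit 76) (nat_lit 2685673317) (nat_lit 0) (nat_lit 4238051265) (nat_lit 1596) (nat_lit 1850185814) (nat_lit 598) (nat_lit 5) (nat_lit 597) (nat_lit 5) (nat_lit 618) (nat_lit 5) (nat_lit 424) (nat_lit 405) (nat_lit 311)))) (XT.nd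 (nat_lit 78) (nat_lit 1520) (nat_lit 0) (XT.lf (nat_lit 76) (nat_lit 7644878387) (nat_lit 0) (nat_lit 851945101) (nat_lit 1596) (nat_lit 351320166) (nat_lit 598) (nat_lit 5) (nat_lit 597) (nat_lit 5) (nat_lit 618) (nat_lit 5) (nat_lit 425) (nat_lit 405) (nat_lit 310)) (XT.nd (nat_lit 78) (nat_lit 0) (nat_lit 0) (XT.lf (nat_lit 0) (nat_lit 1177531618) (nat_lit 1596) (nat_lit 5139366665) (nat_lit 1672) (nat_lit 2606501344) (nat_lit 577) (nat_lit 5) (nat_lit 598) (nat_lit 5) (nat_lit 599) (nat_lit 5) (nat_lit 426) (nat_lit 405) (nat_lit 309)) (XT.lf (nat_lit 0) (nat_lit 2720079635) (nat_lit 1596) (nat_lit 141154784) (nat_lit 1672) (nat_lit 6139123389) (nat_lit 577) (nat_lit 5) (nat_lit 598) (nat_lit 5) (nat_lit 599) (nat_lit 5) (nat_lit 427) (nat_lit 405) (nat_lit 308))))) (XT.nd (nat_lit 234) (nat_lit 3496) (nat_lit 0) (XT.nd (nat_lit 78) (nat_lit 1596) (nat_lit 0) (XT.lf (nat_lit 0) (nat_lit 4305073837) (nat_lit 1596) (nat_lit 4080760853)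 (nat_lit 76) (nat_lit 692788559) (nat_lit 578) (nat_lit 5) (nat_lit 599) (nat_lit 5) (nat_lit 579) (nat_lit 5) (nat_lit 428) (nat_lit 405) (nat_lit 307)) (XT.nd (nat_lit 78) (nat_lit 0) (nat_lit 0) (XT.lf (nat_lit 0) (nat_lit 1057532213) (nat_lit 1596) (nat_lit 4865963889) (nat_lit 1672) (nat_lit 3234923332) (nat_lit 557) (nat_lit 5) (nat_lit 578) (nat_lit 5) (nat_lit 579) (nat_lit 5) (nat_lit 429) (nat_lit 405) (nat_lit 306)) (XT.lf (nat_lit 0) (nat_lit 6333521008) (nat_lit 1596) (nat_lit 1243468390) (nat_lit 1672) (nat_lit 1662768092) (nat_lit 557) (nat_lit 5) (nat_lit 578) (nat_lit 5) (nat_lit 579) (nat_lit 5) (nat_lit 430) (nat_lit 405) (nat_lit 305)))) (XT.nd (nat_lit 156) (nat_lit 1748) (nat_lit 0) (XT.nd (nat_lit 78) (nat_lit 76) (nat_lit 0) (XT.lf (nat_lit 0) (nat_lit 2387201747) (nat_lit 1672) (nat_lit 6883596553) (nat_lit 1748) (nat_lit 51779094) (nat_lit 535) (nat_lit 5) (nat_lit 557) (nat_lit 5) (nat_lit 558) (nat_lit 5) (nat_lit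 431) (nat_lit 405) (nat_lit 304)) (XT.lf (nat_lit 0) (nat_lit 1574437958) (nat_lit 1748) (nat_lit 1620138169) (nat_lit 76) (nat_lit 6212193313) (nat_lit 534) (nat_lit 5) (nat_lit 557) (nat_lit 5) (nat_lit 535) (nat_lit 5) (nat_lit 432) (nat_lit 405) (nat_lit 303))) (XT.nd (nat_lit 78) (nat_lit 0) (nat_lit 0) (XT.lf (nat_lit 0) (nat_lit 3237721648) (nat_lit 1824) (nat_lit 5665458728) (nat_lit 76) (nat_lit 589353393) (nat_lit 511) (nat_lit 5) (nat_lit 535) (nat_lit 5) (nat_lit 512) (nat_lit 5) (nat_lit 433) (nat_lit 405) (nat_lit 302)) (XT.lf (nat_lit 0) (nat_lit 4943205260) (nat_lit 1824) (nat_lit 216456122) (nat_lit 76) (nat_lit 4420173318) (nat_lit 511) (nat_lit 5) (nat_lit 535) (nat_lit 5) (nat_lit 512) (nat_lit 5) (nat_lit 434) (nat_lit 405) (nat_lit 301))))))) (XT.nd (nat_lit 1014) (nat_lit 6004) (nat_lit 0) (XT.nd (nat_lit 468) (nat_lit 3496) (nat_lit 0) (XT.nd (nat_lit 234) (nat_lit 1824) (nat_lit 0) (XT.nd (nat_lit 78) (nat_lit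 1216) (nat_lit 0) (XT.lf (nat_lit 0) (nat_lit 5392022349) (nat_lit 1824) (nat_lit 1303073149) (nat_lit 1900) (nat_lit 2973540213) (nat_lit 487) (nat_lit 5) (nat_lit 511) (nat_lit 5) (nat_lit 512) (nat_lit 5) (nat_lit 435) (nat_lit 405) (nat_lit 300)) (XT.nd (nat_lit 78) (nat_lit 76) (nat_lit 0) (XT.lf (nat_lit 0) (nat_lit 1336305770) (nat_lit 1140) (nat_lit 7150554265) (nat_lit 1216) (nat_lit 1272255977) (nat_lit 472) (nat_lit 5) (nat_lit 487) (nat_lit 5) (nat_lit 488) (nat_lit 5) (nat_lit 436) (nat_lit 405) (nat_lit 299)) (XT.lf (nat_lit 0) (nat_lit 472277272) (nat_lit 1216) (nat_lit 2763915700) (nat_lit 76) (nat_lit 6614846890) (nat_lit 471) (nat_lit 5) (nat_lit 487) (nat_lit 5) (nat_lit 472) (nat_lit 5) (nat_lit 437) (nat_lit 405) (nat_lit 298)))) (XT.nd (nat_lit 78) (nat_lit 912) (nat_lit 0) (XT.lf (nat_lit 0) (nat_lit 2237603800) (nat_lit 988) (nat_lit 6930763218) (nat_lit 76) (nat_lit 776208216) (nat_lit 459) (nat_lit 5) (nat_lit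 472) (nat_lit 5) (nat_lit 460) (nat_lit 5) (nat_lit 438) (nat_lit 405) (nat_lit 297)) (XT.nd (nat_lit 78) (nat_lit 912) (nat_lit 0) (XT.lf (nat_lit 0) (nat_lit 4056857601) (nat_lit 988) (nat_lit 1137215222) (nat_lit 76) (nat_lit 4845536077) (nat_lit 459) (nat_lit 5) (nat_lit 472) (nat_lit 5) (nat_lit 460) (nat_lit 5) (nat_lit 439) (nat_lit 405) (nat_lit 296)) (XT.lf (nat_lit 0) (nat_lit 4815149227) (nat_lit 912) (nat_lit 1107550433) (nat_lit 988) (nat_lit 4213639515) (nat_lit 447) (nat_lit 5) (nat_lit 459) (nat_lit 5) (nat_lit 460) (nat_lit 5) (nat_lit 440) (nat_lit 405) (nat_lit 295))))) (XT.nd (nat_lit 234) (nat_lit 1672) (nat_lit 0) (XT.nd (nat_lit 78) (nat_lit 988) (nat_lit 0) (XT.lf (nat_lit 0) (nat_lit 635037529) (nat_lit 836) (nat_lit 7201725302) (nat_lit 912) (nat_lit 2398023139) (nat_lit 436) (nat_lit 5) (nat_lit 447) (nat_lit 5) (nat_lit 448) (nat_lit 5) (nat_lit 441) (nat_lit 405) (nat_lit 294)) (XT.nd (nat_lit 78) (nat_lit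 988) (nat_lit 0) (XT.lf (nat_lit 0) (nat_lit 6754729026) (nat_lit 836) (nat_lit 3056875095) (nat_lit 912) (nat_lit 523147643) (nat_lit 436) (nat_lit 5) (nat_lit 447) (nat_lit 5) (nat_lit 448) (nat_lit 5) (nat_lit 442) (nat_lit 405) (nat_lit 293)) (XT.lf (nat_lit 0) (nat_lit 1375199016) (nat_lit 988) (nat_lit 7879896830) (nat_lit 76) (nat_lit 1181356761) (nat_lit 423) (nat_lit 5) (nat_lit 436) (nat_lit 5) (nat_lit 424) (nat_lit 5) (nat_lit 443) (nat_lit 405) (nat_lit 292)))) (XT.nd (nat_lit 156) (nat_lit 836) (nat_lit 0) (XT.nd (nat_lit 78) (nat_lit 836) (nat_lit 0) (XT.lf (nat_lit 0) (nat_lit 3328977850) (nat_lit 988) (nat_lit 1719674208) (nat_lit 76) (nat_lit 5490976844) (nat_lit 423) (nat_lit 5) (nat_lit 436) (nat_lit 5) (nat_lit 424) (nat_lit 5) (nat_lit 444) (nat_lit 405) (nat_lit 291)) (XT.lf (nat_lit 0) (nat_lit 4604044188) (nat_lit 836) (nat_lit 728108520) (nat_lit 912) (nat_lit 5312509606) (nat_lit 412) (nat_lit 5) (nat_lit 423)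 (nat_lit 5) (nat_lit 424) (nat_lit 5) (nat_lit 445) (nat_lit 405) (nat_lit 290))) (XT.nd (nat_lit 78) (nat_lit 0) (nat_lit 0) (XT.lf (nat_lit 0) (nat_lit 285421863) (nat_lit 836) (nat_lit 7108002150) (nat_lit 912) (nat_lit 3358011723) (nat_lit 401) (nat_lit 5) (nat_lit 412) (nat_lit 5) (nat_lit 413) (nat_lit 5) (nat_lit 446) (nat_lit 405) (nat_lit 289)) (XT.lf (nat_lit 0) (nat_lit 6794771101) (nat_lit 836) (nat_lit 2727401171) (nat_lit 912) (nat_lit 1337647323) (nat_lit 401) (nat_lit 5) (nat_lit 412) (nat_lit 5) (nat_lit 413) (nat_lit 5) (nat_lit 447) (nat_lit 405) (nat_lit 288)))))) (XT.nd (nat_lit 468) (nat_lit 2812) (nat_lit 0) (XT.nd (nat_lit 234) (nat_lit 1596) (nat_lit 0) (XT.nd (nat_lit 78) (nat_lit 760) (nat_lit 0) (XT.lf (nat_lit 0) (nat_lit 722295304) (nat_lit 836) (nat_lit 8510169675) (nat_lit 76) (nat_lit 1737639157) (nat_lit 390) (nat_lit 5) (nat_lit 401) (nat_lit 5) (nat_lit 391) (nat_lit 5) (nat_lit 448) (nat_lit 405) (nat_lit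 287)) (XT.nd (nat_lit 78) (nat_lit 760) (nat_lit 0) (XT.lf (nat_lit 0) (nat_lit 2832470706) (nat_lit 836) (nat_lit 1958923054) (nat_lit 76) (nat_lit 6290484868) (nat_lit 390) (nat_lit 5) (nat_lit 401) (nat_lit 5) (nat_lit 391) (nat_lit 5) (nat_lit 449) (nat_lit 405) (nat_lit 286)) (XT.lf (nat_lit 0) (nat_lit 4765960181) (nat_lit 760) (nat_lit 231604532) (nat_lit 836) (nat_lit 6198069597) (nat_lit 380) (nat_lit 5) (nat_lit 390) (nat_lit 5) (nat_lit 391) (nat_lit 5) (nat_lit 450) (nat_lit 405) (nat_lit 285)))) (XT.nd (nat_lit 78) (nat_lit 836) (nat_lit 0) (XT.lf (nat_lit 0) (nat_lit 295474811) (nat_lit 760) (nat_lit 6936319191) (nat_lit 836) (nat_lit 4079354435) (nat_lit 370) (nat_lit 5) (nat_lit 380) (nat_lit 5) (nat_lit 381) (nat_lit 5) (nat_lit 451) (nat_lit 405) (nat_lit 284)) (XT.nd (nat_lit 78) (nat_lit 836) (nat_lit 0) (XT.lf (nat_lit 0) (nat_lit 7220748394) (nat_lit 760) (nat_lit 2316842100) (nat_lit 836) (nat_lit 1890844700) (nat_lit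 370) (nat_lit 5) (nat_lit 380) (nat_lit 5) (nat_lit 381) (nat_lit 5) (nat_lit 452) (nat_lit 405) (nat_lit 283)) (XT.lf (nat_lit 0) (nat_lit 352929286) (nat_lit 836) (nat_lit 8813191014) (nat_lit 76) (nat_lit 2381583608) (nat_lit 359) (nat_lit 5) (nat_lit 370) (nat_lit 5) (nat_lit 360) (nat_lit 5) (nat_lit 453) (nat_lit 405) (nat_lit 282))))) (XT.nd (nat_lit 234) (nat_lit 1444) (nat_lit 0) (XT.nd (nat_lit 78) (nat_lit 1368) (nat_lit 0) (XT.lf (nat_lit 0) (nat_lit 2642696889) (nat_lit 836) (nat_lit 1844275533) (nat_lit 76) (nat_lit 7181606876) (nat_lit 359) (nat_lit 5) (nat_lit 370) (nat_lit 5) (nat_lit 360) (nat_lit 5) (nat_lit 454) (nat_lit 405) (nat_lit 281)) (XT.nd (nat_lit 78) (nat_lit 684) (nat_lit 0) (XT.lf (nat_lit 0) (nat_lit 4997816260) (nat_lit 760) (nat_lit 6479505889) (nat_lit 76) (nat_lit 314158916) (nat_lit 350) (nat_lit 5) (nat_lit 360) (nat_lit 5) (nat_lit 351) (nat_lit 5) (nat_lit 455) (nat_lit 405) (nat_lit 280)) (XT.lf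 (nat_lit 0) (nat_lit 679046454) (nat_lit 684) (nat_lit 6750749959) (nat_lit 760) (nat_lit 4486449287) (nat_lit 341) (nat_lit 5) (nat_lit 350) (nat_lit 5) (nat_lit 351) (nat_lit 5) (nat_lit 456) (nat_lit 405) (nat_lit 279)))) (XT.nd (nat_lit 156) (nat_lit 684) (nat_lit 0) (XT.nd (nat_lit 78) (nat_lit 760) (nat_lit 0) (XT.lf (nat_lit 0) (nat_lit 8048912098) (nat_lit 684) (nat_lit 1888363509) (nat_lit 760) (nat_lit 2105692832) (nat_lit 341) (nat_lit 5) (nat_lit 350) (nat_lit 5) (nat_lit 351) (nat_lit 5) (nat_lit 457) (nat_lit 405) (nat_lit 278)) (XT.lf (nat_lit 0) (nat_lit 344310989) (nat_lit 760) (nat_lit 8774999538) (nat_lit 76) (nat_lit 3052355920) (nat_lit 331) (nat_lit 5) (nat_lit 341) (nat_lit 5) (nat_lit 332) (nat_lit 5) (nat_lit 458) (nat_lit 405) (nat_lit 277))) (XT.nd (nat_lit 78) (nat_lit 684) (nat_lit 0) (XT.lf (nat_lit 0) (nat_lit 2838403039) (nat_lit 760) (nat_lit 1359381596) (nat_lit 76) (nat_lit 8104409741) (nat_lit 331)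 (nat_lit 5) (nat_lit 341) (nat_lit 5) (nat_lit 332) (nat_lit 5) (nat_lit 459) (nat_lit 405) (nat_lit 276)) (XT.lf (nat_lit 0) (nat_lit 5412744575) (nat_lit 760) (nat_lit 6172985381) (nat_lit 76) (nat_lit 848995555) (nat_lit 322) (nat_lit 5) (nat_lit 332) (nat_lit 5) (nat_lit 323) (nat_lit 5) (nat_lit 460) (nat_lit 405) (nat_lit 275))))))))
noncomputable def xc95 : XT := (XT.nd (nat_lit 55926) (nat_lit 0) (nat_lit 13984) (XT.nd (nat_lit 1014) (nat_lit 532) (nat_lit 0) (XT.nd (nat_lit 468) (nat_lit 2356) (nat_lit 0) (XT.nd (nat_lit 234) (nat_lit 1216) (nat_lit 0) (XT.nd (nat_lit 78) (nat_lit 684) (nat_lit 0) (XT.lf (nat_lit 0) (nat_lit 1455743382) (nat_lit 608) (nat_lit 6613518428) (nat_lit 684) (nat_lit 4500031681) (nat_lit 314) (nat_lit 5) (nat_lit 322) (nat_lit 5) (nat_lit 323) (nat_lit 5) (nat_lit 461) (nat_lit 405) (nat_lit 274)) (XT.nd (nat_lit 78) (nat_lit 684) (nat_lit 0) (XT.lf (nat_lit 0) (nat_lit 9301376400) (nat_lit 608) (nat_lit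 1503394829) (nat_lit 684) (nat_lit 1901264364) (nat_lit 314) (nat_lit 5) (nat_lit 322) (nat_lit 5) (nat_lit 323) (nat_lit 5) (nat_lit 462) (nat_lit 405) (nat_lit 273)) (XT.lf (nat_lit 0) (nat_lit 777745724) (nat_lit 684) (nat_lit 8376118032) (nat_lit 76) (nat_lit 3690789520) (nat_lit 305) (nat_lit 5) (nat_lit 314) (nat_lit 5) (nat_lit 306) (nat_lit 5) (nat_lit 463) (nat_lit 405) (nat_lit 272)))) (XT.nd (nat_lit 78) (nat_lit 1216) (nat_lit 0) (XT.lf (nat_lit 0) (nat_lit 3502650848) (nat_lit 684) (nat_lit 482264369) (nat_lit 76) (nat_lit 9000521293) (nat_lit 305) (nat_lit 5) (nat_lit 314) (nat_lit 5) (nat_lit 306) (nat_lit 5) (nat_lit 464) (nat_lit 405) (nat_lit 271)) (XT.nd (nat_lit 78) (nat_lit 608) (nat_lit 0) (XT.lf (nat_lit 0) (nat_lit 6325482546) (nat_lit 684) (nat_lit 5486137743) (nat_lit 76) (nat_lit 1316546550) (nat_lit 297) (nat_lit 5) (nat_lit 306) (nat_lit 5) (nat_lit 298) (nat_lit 5) (nat_lit 465) (nat_lit 405) (nat_lit 270))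 (XT.lf (nat_lit 0) (nat_lit 2650925767) (nat_lit 608) (nat_lit 6585940626) (nat_lit 684) (nat_lit 4036243472) (nat_lit 289) (nat_lit 5) (nat_lit 297) (nat_lit 5) (nat_lit 298) (nat_lit 5) (nat_lit 466) (nat_lit 405) (nat_lit 269))))) (XT.nd (nat_lit 234) (nat_lit 1140) (nat_lit 0) (XT.nd (nat_lit 78) (nat_lit 1216) (nat_lit 0) (XT.lf (nat_lit 0) (nat_lit 11006133568) (nat_lit 608) (nat_lit 1222561687) (nat_lit 684) (nat_lit 1191812150) (nat_lit 289) (nat_lit 5) (nat_lit 297) (nat_lit 5) (nat_lit 298) (nat_lit 5) (nat_lit 467) (nat_lit 405) (nat_lit 268)) (XT.nd (nat_lit 78) (nat_lit 608) (nat_lit 0) (XT.lf (nat_lit 0) (nat_lit 1739564049) (nat_lit 608) (nat_lit 7591536930) (nat_lit 76) (nat_lit 4238480396) (nat_lit 281) (nat_lit 5) (nat_lit 289) (nat_lit 5) (nat_lit 282) (nat_lit 5) (nat_lit 468) (nat_lit 405) (nat_lit 267)) (XT.lf (nat_lit 0) (nat_lit 825541057) (nat_lit 608) (nat_lit 3903575258) (nat_lit 684) (nat_lit 8992052813) (nat_lit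 273) (nat_lit 5) (nat_lit 281) (nat_lit 5) (nat_lit 282) (nat_lit 5) (nat_lit 469) (nat_lit 405) (nat_lit 266)))) (XT.nd (nat_lit 156) (nat_lit 608) (nat_lit 0) (XT.nd (nat_lit 78) (nat_lit 532) (nat_lit 0) (XT.lf (nat_lit 0) (nat_lit 7826193581) (nat_lit 684) (nat_lit 4390883362) (nat_lit 76) (nat_lit 1657757014) (nat_lit 273) (nat_lit 5) (nat_lit 282) (nat_lit 5) (nat_lit 274) (nat_lit 5) (nat_lit 470) (nat_lit 405) (nat_lit 265)) (XT.lf (nat_lit 0) (nat_lit 4295775177) (nat_lit 532) (nat_lit 6729311192) (nat_lit 608) (nat_lit 3005688235) (nat_lit 266) (nat_lit 5) (nat_lit 273) (nat_lit 5) (nat_lit 274) (nat_lit 5) (nat_lit 471) (nat_lit 405) (nat_lit 264))) (XT.nd (nat_lit 78) (nat_lit 532) (nat_lit 0) (XT.lf (nat_lit 0) (nat_lit 112688458) (nat_lit 608) (nat_lit 993120615) (nat_lit 76) (nat_lit 13083695201) (nat_lit 265) (nat_lit 5) (nat_lit 273) (nat_lit 5) (nat_lit 266) (nat_lit 5) (nat_lit 472) (nat_lit 405) (nat_lit 263)) (XT.lf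 (nat_lit 0) (nat_lit 3322070317) (nat_lit 608) (nat_lit 6390630216) (nat_lit 76) (nat_lit 4636932977) (nat_lit 258) (nat_lit 5) (nat_lit 266) (nat_lit 5) (nat_lit 259) (nat_lit 5) (nat_lit 473) (nat_lit 405) (nat_lit 262)))))) (XT.nd (nat_lit 54366) (nat_lit 0) (nat_lit 27436) (XT.nd (nat_lit 54132) (nat_lit 0) (nat_lit 28804) (XT.nd (nat_lit 78) (nat_lit 0) (nat_lit 0) (XT.lf (nat_lit 0) (nat_lit 2599040820) (nat_lit 532) (nat_lit 4014083797) (nat_lit 608) (nat_lit 7899491016) (nat_lit 251) (nat_lit 5) (nat_lit 258) (nat_lit 5) (nat_lit 259) (nat_lit 5) (nat_lit 474) (nat_lit 405) (nat_lit 261)) (XT.nd (nat_lit 53976) (nat_lit 0) (nat_lit 30172) (XT.lf (nat_lit 0) (nat_lit 10011534970) (nat_lit 608) (nat_lit 2853418203) (nat_lit 76) (nat_lit 1813073528) (nat_lit 251) (nat_lit 5) (nat_lit 259) (nat_lit 5) (nat_lit 252) (nat_lit 5) (nat_lit 475) (nat_lit 405) (nat_lit 260)) (XT.lf (nat_lit 0) (nat_lit 1591812826) (nat_lit 0) (nat_lit 1591812826)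 (nat_lit 1292) (nat_lit 679357708) (nat_lit 648) (nat_lit 5) (nat_lit 648) (nat_lit 3) (nat_lit 665) (nat_lit 3) (nat_lit 406) (nat_lit 406) (nat_lit 328)))) (XT.nd (nat_lit 78) (nat_lit 1368) (nat_lit 0) (XT.lf (nat_lit 0) (nat_lit 7105957621) (nat_lit 0) (nat_lit 663862453) (nat_lit 1292) (nat_lit 6628393) (nat_lit 648) (nat_lit 5) (nat_lit 648) (nat_lit 3) (nat_lit 665) (nat_lit 3) (nat_lit 407) (nat_lit 406) (nat_lit 327)) (XT.nd (nat_lit 78) (nat_lit 0) (nat_lit 0) (XT.lf (nat_lit 0) (nat_lit 1353231361) (nat_lit 1368) (nat_lit 4545659924) (nat_lit 1444) (nat_lit 1928895703) (nat_lit 630) (nat_lit 5) (nat_lit 648) (nat_lit 5) (nat_lit 649) (nat_lit 5) (nat_lit 408) (nat_lit 406) (nat_lit 326)) (XT.lf (nat_lit 0) (nat_lit 2714459298) (nat_lit 1368) (nat_lit 580362479) (nat_lit 1444) (nat_lit 4585844432) (nat_lit 630) (nat_lit 5) (nat_lit 648) (nat_lit 5) (nat_lit 649) (nat_lit 5) (nat_lit 409) (nat_lit 406) (nat_lit 325))))) (XT.nd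 (nat_lit 234) (nat_lit 1368) (nat_lit 0) (XT.nd (nat_lit 78) (nat_lit 0) (nat_lit 76) (XT.lf (nat_lit 76) (nat_lit 3491685919) (nat_lit 0) (nat_lit 599910015) (nat_lit 1444) (nat_lit 3843233398) (nat_lit 631) (nat_lit 5) (nat_lit 630) (nat_lit 5) (nat_lit 649) (nat_lit 5) (nat_lit 410) (nat_lit 406) (nat_lit 324)) (XT.nd (nat_lit 78) (nat_lit 0) (nat_lit 0) (XT.lf (nat_lit 0) (nat_lit 5480808313) (nat_lit 1368) (nat_lit 369929332) (nat_lit 1444) (nat_lit 2139647411) (nat_lit 631) (nat_lit 5) (nat_lit 649) (nat_lit 5) (nat_lit 650) (nat_lit 5) (nat_lit 411) (nat_lit 406) (nat_lit 323)) (XT.lf (nat_lit 76) (nat_lit 3812149733) (nat_lit 0) (nat_lit 3081693436) (nat_lit 1444) (nat_lit 1153287963) (nat_lit 632) (nat_lit 5) (nat_lit 631) (nat_lit 5) (nat_lit 650) (nat_lit 5) (nat_lit 412) (nat_lit 406) (nat_lit 322)))) (XT.nd (nat_lit 156) (nat_lit 0) (nat_lit 76) (XT.nd (nat_lit 78) (nat_lit 0) (nat_lit 76) (XT.lf (nat_lit 0) (nat_lit 197229375)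 (nat_lit 1444) (nat_lit 42519362) (nat_lit 1520) (nat_lit 7865831090) (nat_lit 612) (nat_lit 5) (nat_lit 631) (nat_lit 5) (nat_lit 632) (nat_lit 5) (nat_lit 413) (nat_lit 406) (nat_lit 321)) (XT.lf (nat_lit 0) (nat_lit 1572851161) (nat_lit 1444) (nat_lit 3919198703) (nat_lit 1520) (nat_lit 2672724435) (nat_lit 613) (nat_lit 5) (nat_lit 632) (nat_lit 5) (nat_lit 633) (nat_lit 5) (nat_lit 414) (nat_lit 406) (nat_lit 320))) (XT.nd (nat_lit 78) (nat_lit 0) (nat_lit 76) (XT.lf (nat_lit 76) (nat_lit 379098374) (nat_lit 0) (nat_lit 2570066082) (nat_lit 1520) (nat_lit 5276524623) (nat_lit 614) (nat_lit 5) (nat_lit 613) (nat_lit 5) (nat_lit 633) (nat_lit 5) (nat_lit 415) (nat_lit 406) (nat_lit 319)) (XT.lf (nat_lit 0) (nat_lit 4351548222) (nat_lit 1444) (nat_lit 3493356355) (nat_lit 1520) (nat_lit 442946692) (nat_lit 614) (nat_lit 5) (nat_lit 633) (nat_lit 5) (nat_lit 634) (nat_lit 5) (nat_lit 416) (nat_lit 406) (nat_lit 318))))))) (XT.nd (nat_lit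 1014) (nat_lit 10716) (nat_lit 0) (XT.nd (nat_lit 468) (nat_lit 1444) (nat_lit 0) (XT.nd (nat_lit 234) (nat_lit 0) (nat_lit 0) (XT.nd (nat_lit 78) (nat_lit 1444) (nat_lit 0) (XT.lf (nat_lit 76) (nat_lit 922701342) (nat_lit 0) (nat_lit 4852295137) (nat_lit 1520) (nat_lit 2576399889) (nat_lit 615) (nat_lit 5) (nat_lit 614) (nat_lit 5) (nat_lit 634) (nat_lit 5) (nat_lit 417) (nat_lit 406) (nat_lit 317)) (XT.nd (nat_lit 78) (nat_lit 1444) (nat_lit 0) (XT.lf (nat_lit 76) (nat_lit 5455238251) (nat_lit 0) (nat_lit 1765586926) (nat_lit 1520) (nat_lit 1195508962) (nat_lit 615) (nat_lit 5) (nat_lit 614) (nat_lit 5) (nat_lit 634) (nat_lit 5) (nat_lit 418) (nat_lit 406) (nat_lit 316)) (XT.lf (nat_lit 0) (nat_lit 200547087) (nat_lit 1520) (nat_lit 6895838810) (nat_lit 1596) (nat_lit 1386350294) (nat_lit 595) (nat_lit 5) (nat_lit 615) (nat_lit 5) (nat_lit 616) (nat_lit 5) (nat_lit 419) (nat_lit 406) (nat_lit 315)))) (XT.nd (nat_lit 78) (nat_lit 0)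 (nat_lit 0) (XT.lf (nat_lit 0) (nat_lit 1611592603) (nat_lit 1520) (nat_lit 2323537646) (nat_lit 1596) (nat_lit 4615116464) (nat_lit 595) (nat_lit 5) (nat_lit 615) (nat_lit 5) (nat_lit 616) (nat_lit 5) (nat_lit 420) (nat_lit 406) (nat_lit 314)) (XT.nd (nat_lit 78) (nat_lit 0) (nat_lit 76) (XT.lf (nat_lit 76) (nat_lit 2351723179) (nat_lit 0) (nat_lit 686332749) (nat_lit 1596) (nat_lit 5581307578) (nat_lit 596) (nat_lit 5) (nat_lit 595) (nat_lit 5) (nat_lit 616) (nat_lit 5) (nat_lit 421) (nat_lit 406) (nat_lit 313)) (XT.lf (nat_lit 0) (nat_lit 4498211563) (nat_lit 1520) (nat_lit 1574537968) (nat_lit 1596) (nat_lit 2617009845) (nat_lit 596) (nat_lit 5) (nat_lit 616) (nat_lit 5) (nat_lit 617) (nat_lit 5) (nat_lit 422) (nat_lit 406) (nat_lit 312))))) (XT.nd (nat_lit 234) (nat_lit 0) (nat_lit 0) (XT.nd (nat_lit 78) (nat_lit 1520) (nat_lit 0) (XT.lf (nat_lit 76) (nat_lit 3230832358) (nat_lit 0) (nat_lit 2755209450) (nat_lit 1596) (nat_lit 2775551923)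 (nat_lit 597) (nat_lit 5) (nat_lit 596) (nat_lit 5) (nat_lit 617) (nat_lit 5) (nat_lit 423) (nat_lit 406) (nat_lit 311)) (XT.nd (nat_lit 78) (nat_lit 1596) (nat_lit 0) (XT.lf (nat_lit 0) (nat_lit 7491748833) (nat_lit 1520) (nat_lit 705026517) (nat_lit 1596) (nat_lit 638327022) (nat_lit 597) (nat_lit 5) (nat_lit 617) (nat_lit 5) (nat_lit 618) (nat_lit 5) (nat_lit 424) (nat_lit 406) (nat_lit 310)) (XT.lf (nat_lit 0) (nat_lit 135745170) (nat_lit 1596) (nat_lit 4675545987) (nat_lit 1672) (nat_lit 4098378828) (nat_lit 576) (nat_lit 5) (nat_lit 597) (nat_lit 5) (nat_lit 598) (nat_lit 5) (nat_lit 425) (nat_lit 406) (nat_lit 309)))) (XT.nd (nat_lit 156) (nat_lit 0) (nat_lit 76) (XT.nd (nat_lit 78) (nat_lit 0) (nat_lit 76) (XT.lf (nat_lit 76) (nat_lit 270904847) (nat_lit 0) (nat_lit 1336211051) (nat_lit 1672) (nat_lit 7378821908) (nat_lit 577) (nat_lit 5) (nat_lit 576) (nat_lit 5) (nat_lit 598) (nat_lit 5) (nat_lit 426) (nat_lit 406) (nat_lit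 308)) (XT.lf (nat_lit 0) (nat_lit 3128393190) (nat_lit 1596) (nat_lit 3718105311) (nat_lit 1672) (nat_lit 2216822900) (nat_lit 577) (nat_lit 5) (nat_lit 598) (nat_lit 5) (nat_lit 599) (nat_lit 5) (nat_lit 427) (nat_lit 406) (nat_lit 307))) (XT.nd (nat_lit 78) (nat_lit 0) (nat_lit 76) (XT.lf (nat_lit 76) (nat_lit 1368130780) (nat_lit 0) (nat_lit 3304753789) (nat_lit 1672) (nat_lit 4469512329) (nat_lit 578) (nat_lit 5) (nat_lit 577) (nat_lit 5) (nat_lit 599) (nat_lit 5) (nat_lit 428) (nat_lit 406) (nat_lit 306)) (XT.lf (nat_lit 0) (nat_lit 6250830957) (nat_lit 1596) (nat_lit 2638345804) (nat_lit 76) (nat_lit 333825839) (nat_lit 578) (nat_lit 5) (nat_lit 599) (nat_lit 5) (nat_lit 579) (nat_lit 5) (nat_lit 429) (nat_lit 406) (nat_lit 305)))))) (XT.nd (nat_lit 546) (nat_lit 3952) (nat_lit 0) (XT.nd (nat_lit 234) (nat_lit 3572) (nat_lit 0) (XT.nd (nat_lit 78) (nat_lit 1748) (nat_lit 0) (XT.lf (nat_lit 0) (nat_lit 2592686607) (nat_lit 1596)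 (nat_lit 5282301140) (nat_lit 1672) (nat_lit 1429939641) (nat_lit 557) (nat_lit 5) (nat_lit 578) (nat_lit 5) (nat_lit 579) (nat_lit 5) (nat_lit 430) (nat_lit 406) (nat_lit 304)) (XT.nd (nat_lit 78) (nat_lit 1672) (nat_lit 0) (XT.lf (nat_lit 0) (nat_lit 135201512) (nat_lit 1672) (nat_lit 1444991691) (nat_lit 76) (nat_lit 7808400045) (nat_lit 556) (nat_lit 5) (nat_lit 578) (nat_lit 5) (nat_lit 557) (nat_lit 5) (nat_lit 431) (nat_lit 406) (nat_lit 303)) (XT.lf (nat_lit 0) (nat_lit 1729268773) (nat_lit 1748) (nat_lit 5537791903) (nat_lit 76) (nat_lit 2206347309) (nat_lit 534) (nat_lit 5) (nat_lit 557) (nat_lit 5) (nat_lit 535) (nat_lit 5) (nat_lit 432) (nat_lit 406) (nat_lit 302)))) (XT.nd (nat_lit 156) (nat_lit 1824) (nat_lit 0) (XT.nd (nat_lit 78) (nat_lit 1748) (nat_lit 0) (XT.lf (nat_lit 0) (nat_lit 3352388262) (nat_lit 1748) (nat_lit 146709217) (nat_lit 76) (nat_lit 6060878119) (nat_lit 534) (nat_lit 5) (nat_lit 557) (nat_lit 5) (nat_lit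 535) (nat_lit 5) (nat_lit 433) (nat_lit 406) (nat_lit 301)) (XT.lf (nat_lit 0) (nat_lit 5022938446) (nat_lit 1824) (nat_lit 4246937007) (nat_lit 76) (nat_lit 378099745) (nat_lit 511) (nat_lit 5) (nat_lit 535) (nat_lit 5) (nat_lit 512) (nat_lit 5) (nat_lit 434) (nat_lit 406) (nat_lit 300))) (XT.nd (nat_lit 78) (nat_lit 0) (nat_lit 0) (XT.lf (nat_lit 0) (nat_lit 1298033696) (nat_lit 1824) (nat_lit 5439191174) (nat_lit 1900) (nat_lit 3000303414) (nat_lit 487) (nat_lit 5) (nat_lit 511) (nat_lit 5) (nat_lit 512) (nat_lit 5) (nat_lit 435) (nat_lit 406) (nat_lit 299)) (XT.lf (nat_lit 0) (nat_lit 6991777562) (nat_lit 1824) (nat_lit 1500561061) (nat_lit 1900) (nat_lit 1336402978) (nat_lit 487) (nat_lit 5) (nat_lit 511) (nat_lit 5) (nat_lit 512) (nat_lit 5) (nat_lit 436) (nat_lit 406) (nat_lit 298))))) (XT.nd (nat_lit 234) (nat_lit 1824) (nat_lit 0) (XT.nd (nat_lit 78) (nat_lit 912) (nat_lit 0) (XT.lf (nat_lit 0) (nat_lit 369655981) (nat_lit 1216)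 (nat_lit 7044655601) (nat_lit 76) (nat_lit 2507148510) (nat_lit 471) (nat_lit 5) (nat_lit 487) (nat_lit 5) (nat_lit 472) (nat_lit 5) (nat_lit 437) (nat_lit 406) (nat_lit 297)) (XT.nd (nat_lit 78) (nat_lit 912) (nat_lit 0) (XT.lf (nat_lit 0) (nat_lit 2099700754) (nat_lit 1216) (nat_lit 1311169201) (nat_lit 76) (nat_lit 6604831145) (nat_lit 471) (nat_lit 5) (nat_lit 487) (nat_lit 5) (nat_lit 472) (nat_lit 5) (nat_lit 438) (nat_lit 406) (nat_lit 296)) (XT.lf (nat_lit 0) (nat_lit 3877699962) (nat_lit 988) (nat_lit 5538719818) (nat_lit 76) (nat_lit 695140077) (nat_lit 459) (nat_lit 5) (nat_lit 472) (nat_lit 5) (nat_lit 460) (nat_lit 5) (nat_lit 439) (nat_lit 406) (nat_lit 295)))) (XT.nd (nat_lit 156) (nat_lit 912) (nat_lit 0) (XT.nd (nat_lit 78) (nat_lit 0) (nat_lit 0) (XT.lf (nat_lit 0) (nat_lit 345213762) (nat_lit 912) (nat_lit 5359085176) (nat_lit 988) (nat_lit 4504776056) (nat_lit 447) (nat_lit 5) (nat_lit 459) (nat_lit 5) (nat_lit 460)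 (nat_lit 5) (nat_lit 440) (nat_lit 406) (nat_lit 294)) (XT.lf (nat_lit 0) (nat_lit 6402225291) (nat_lit 912) (nat_lit 1182002380) (nat_lit 988) (nat_lit 2723976807) (nat_lit 447) (nat_lit 5) (nat_lit 459) (nat_lit 5) (nat_lit 460) (nat_lit 5) (nat_lit 441) (nat_lit 406) (nat_lit 293))) (XT.nd (nat_lit 78) (nat_lit 76) (nat_lit 0) (XT.lf (nat_lit 0) (nat_lit 2159699424) (nat_lit 836) (nat_lit 7356100069) (nat_lit 912) (nat_lit 893236168) (nat_lit 436) (nat_lit 5) (nat_lit 447) (nat_lit 5) (nat_lit 448) (nat_lit 5) (nat_lit 442) (nat_lit 406) (nat_lit 292)) (XT.lf (nat_lit 0) (nat_lit 975723951) (nat_lit 912) (nat_lit 2145878535) (nat_lit 76) (nat_lit 7389866881) (nat_lit 435) (nat_lit 5) (nat_lit 447) (nat_lit 5) (nat_lit 436) (nat_lit 5) (nat_lit 443) (nat_lit 406) (nat_lit 291))))))))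
noncomputable def xc96 : XT := (XT.nd (nat_lit 2028) (nat_lit 2280) (nat_lit 0) (XT.nd (nat_lit 1014) (nat_lit 5244) (nat_lit 0) (XT.nd (nat_lit 468) (nat_lit 3040) (nat_lit 0) (XT.nd (nat_lit 234) (nat_lit 1672) (nat_lit 0) (XT.nd (nat_lit 78) (nat_lit 836) (nat_lit 0) (XT.lf (nat_lit 0) (nat_lit 2885335016) (nat_lit 988) (nat_lit 6515510533) (nat_lit 76) (nat_lit 1214683470) (nat_lit 423) (nat_lit 5) (nat_lit 436) (nat_lit 5) (nat_lit 424) (nat_lit 5) (nat_lit 444) (nat_lit 406) (nat_lit 290)) (XT.nd (nat_lit 78) (nat_lit 836) (nat_lit 0) (XT.lf (nat_lit 0) (nat_lit 4849118211) (nat_lit 988) (nat_lit 261926286) (nat_lit 76) (nat_lit 5610305767) (nat_lit 423) (nat_lit 5) (nat_lit 436) (nat_lit 5) (nat_lit 424) (nat_lit 5) (nat_lit 445) (nat_lit 406) (nat_lit 289)) (XT.lf (nat_lit 0) (nat_lit 6178449758) (nat_lit 836) (nat_lit 695029851) (nat_lit 912) (nat_lit 3955382275) (nat_lit 412) (nat_lit 5) (nat_lit 423) (nat_lit 5) (nat_lit 424)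 (nat_lit 5) (nat_lit 446) (nat_lit 406) (nat_lit 288)))) (XT.nd (nat_lit 78) (nat_lit 836) (nat_lit 0) (XT.lf (nat_lit 0) (nat_lit 1791900472) (nat_lit 836) (nat_lit 7165992058) (nat_lit 912) (nat_lit 1980239920) (nat_lit 401) (nat_lit 5) (nat_lit 412) (nat_lit 5) (nat_lit 413) (nat_lit 5) (nat_lit 447) (nat_lit 406) (nat_lit 287)) (XT.nd (nat_lit 78) (nat_lit 760) (nat_lit 0) (XT.lf (nat_lit 0) (nat_lit 51515157) (nat_lit 912) (nat_lit 2647568604) (nat_lit 76) (nat_lit 8350148978) (nat_lit 400) (nat_lit 5) (nat_lit 412) (nat_lit 5) (nat_lit 401) (nat_lit 5) (nat_lit 448) (nat_lit 406) (nat_lit 286)) (XT.lf (nat_lit 0) (nat_lit 2117608652) (nat_lit 836) (nat_lit 7173297168) (nat_lit 76) (nat_lit 1870983050) (nat_lit 390) (nat_lit 5) (nat_lit 401) (nat_lit 5) (nat_lit 391) (nat_lit 5) (nat_lit 449) (nat_lit 406) (nat_lit 285))))) (XT.nd (nat_lit 234) (nat_lit 1520) (nat_lit 0) (XT.nd (nat_lit 78) (nat_lit 1520) (nat_lit 0) (XT.lf (nat_lit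 0) (nat_lit 4242911730) (nat_lit 836) (nat_lit 520576123) (nat_lit 76) (nat_lit 6512952516) (nat_lit 390) (nat_lit 5) (nat_lit 401) (nat_lit 5) (nat_lit 391) (nat_lit 5) (nat_lit 450) (nat_lit 406) (nat_lit 284)) (XT.nd (nat_lit 78) (nat_lit 760) (nat_lit 0) (XT.lf (nat_lit 0) (nat_lit 6329084216) (nat_lit 760) (nat_lit 105208431) (nat_lit 836) (nat_lit 4958518817) (nat_lit 380) (nat_lit 5) (nat_lit 390) (nat_lit 5) (nat_lit 391) (nat_lit 5) (nat_lit 451) (nat_lit 406) (nat_lit 283)) (XT.lf (nat_lit 0) (nat_lit 1785247043) (nat_lit 760) (nat_lit 6912216434) (nat_lit 836) (nat_lit 2813487257) (nat_lit 370) (nat_lit 5) (nat_lit 380) (nat_lit 5) (nat_lit 381) (nat_lit 5) (nat_lit 452) (nat_lit 406) (nat_lit 282)))) (XT.nd (nat_lit 156) (nat_lit 684) (nat_lit 0) (XT.nd (nat_lit 78) (nat_lit 836) (nat_lit 0) (XT.lf (nat_lit 0) (nat_lit 8819930750) (nat_lit 760) (nat_lit 2203542529) (nat_lit 836) (nat_lit 607627999) (nat_lit 370) (nat_lit 5)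 (nat_lit 380) (nat_lit 5) (nat_lit 381) (nat_lit 5) (nat_lit 453) (nat_lit 406) (nat_lit 281)) (XT.lf (nat_lit 0) (nat_lit 1648762606) (nat_lit 836) (nat_lit 7502428586) (nat_lit 76) (nat_lit 2601691300) (nat_lit 359) (nat_lit 5) (nat_lit 370) (nat_lit 5) (nat_lit 360) (nat_lit 5) (nat_lit 454) (nat_lit 406) (nat_lit 280))) (XT.nd (nat_lit 78) (nat_lit 684) (nat_lit 0) (XT.lf (nat_lit 0) (nat_lit 3959055467) (nat_lit 836) (nat_lit 423292172) (nat_lit 76) (nat_lit 7494333151) (nat_lit 359) (nat_lit 5) (nat_lit 370) (nat_lit 5) (nat_lit 360) (nat_lit 5) (nat_lit 455) (nat_lit 406) (nat_lit 279)) (XT.lf (nat_lit 0) (nat_lit 6347205274) (nat_lit 760) (nat_lit 5137155183) (nat_lit 76) (nat_lit 517961575) (nat_lit 350) (nat_lit 5) (nat_lit 360) (nat_lit 5) (nat_lit 351) (nat_lit 5) (nat_lit 456) (nat_lit 406) (nat_lit 278)))))) (XT.nd (nat_lit 468) (nat_lit 2508) (nat_lit 0) (XT.nd (nat_lit 234) (nat_lit 1292) (nat_lit 0) (XT.nd (nat_lit 78)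 (nat_lit 760) (nat_lit 0) (XT.lf (nat_lit 0) (nat_lit 2154884385) (nat_lit 684) (nat_lit 6657935907) (nat_lit 760) (nat_lit 3317061763) (nat_lit 341) (nat_lit 5) (nat_lit 350) (nat_lit 5) (nat_lit 351) (nat_lit 5) (nat_lit 457) (nat_lit 406) (nat_lit 277)) (XT.nd (nat_lit 78) (nat_lit 760) (nat_lit 0) (XT.lf (nat_lit 0) (nat_lit 9643475636) (nat_lit 684) (nat_lit 1702768965) (nat_lit 760) (nat_lit 913378738) (nat_lit 341) (nat_lit 5) (nat_lit 350) (nat_lit 5) (nat_lit 351) (nat_lit 5) (nat_lit 458) (nat_lit 406) (nat_lit 276)) (XT.lf (nat_lit 0) (nat_lit 1556435108) (nat_lit 760) (nat_lit 7487724181) (nat_lit 76) (nat_lit 3346835730) (nat_lit 331) (nat_lit 5) (nat_lit 341) (nat_lit 5) (nat_lit 332) (nat_lit 5) (nat_lit 459) (nat_lit 406) (nat_lit 275)))) (XT.nd (nat_lit 78) (nat_lit 608) (nat_lit 0) (XT.lf (nat_lit 0) (nat_lit 48155822) (nat_lit 684) (nat_lit 4028933720) (nat_lit 760) (nat_lit 8447510353) (nat_lit 322) (nat_lit 5) (nat_lit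 331) (nat_lit 5) (nat_lit 332) (nat_lit 5) (nat_lit 460) (nat_lit 406) (nat_lit 274)) (XT.nd (nat_lit 78) (nat_lit 608) (nat_lit 0) (XT.lf (nat_lit 0) (nat_lit 6690354769) (nat_lit 760) (nat_lit 4850101129) (nat_lit 76) (nat_lit 1119577017) (nat_lit 322) (nat_lit 5) (nat_lit 332) (nat_lit 5) (nat_lit 323) (nat_lit 5) (nat_lit 461) (nat_lit 406) (nat_lit 273)) (XT.lf (nat_lit 0) (nat_lit 2921686788) (nat_lit 608) (nat_lit 6464715869) (nat_lit 684) (nat_lit 3411161591) (nat_lit 314) (nat_lit 5) (nat_lit 322) (nat_lit 5) (nat_lit 323) (nat_lit 5) (nat_lit 462) (nat_lit 406) (nat_lit 272))))) (XT.nd (nat_lit 234) (nat_lit 1216) (nat_lit 0) (XT.nd (nat_lit 78) (nat_lit 1292) (nat_lit 0) (XT.lf (nat_lit 0) (nat_lit 10896059358) (nat_lit 608) (nat_lit 1257901032) (nat_lit 684) (nat_lit 783534040) (nat_lit 314) (nat_lit 5) (nat_lit 322) (nat_lit 5) (nat_lit 323) (nat_lit 5) (nat_lit 463) (nat_lit 406) (nat_lit 271)) (XT.nd (nat_lit 78) (nat_lit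 608) (nat_lit 0) (XT.lf (nat_lit 0) (nat_lit 1922580756) (nat_lit 684) (nat_lit 7108509469) (nat_lit 76) (nat_lit 4047870514) (nat_lit 305) (nat_lit 5) (nat_lit 314) (nat_lit 5) (nat_lit 306) (nat_lit 5) (nat_lit 464) (nat_lit 406) (nat_lit 270)) (XT.lf (nat_lit 0) (nat_lit 927242395) (nat_lit 608) (nat_lit 3758619113) (nat_lit 684) (nat_lit 8537020579) (nat_lit 297) (nat_lit 5) (nat_lit 305) (nat_lit 5) (nat_lit 306) (nat_lit 5) (nat_lit 465) (nat_lit 406) (nat_lit 269)))) (XT.nd (nat_lit 156) (nat_lit 608) (nat_lit 0) (XT.nd (nat_lit 78) (nat_lit 608) (nat_lit 0) (XT.lf (nat_lit 0) (nat_lit 7548464787) (nat_lit 684) (nat_lit 4178204616) (nat_lit 76) (nat_lit 1642131321) (nat_lit 297) (nat_lit 5) (nat_lit 306) (nat_lit 5) (nat_lit 298) (nat_lit 5) (nat_lit 466) (nat_lit 406) (nat_lit 268)) (XT.lf (nat_lit 0) (nat_lit 4112273481) (nat_lit 608) (nat_lit 6393447174) (nat_lit 684) (nat_lit 3011169068) (nat_lit 289) (nat_lit 5) (nat_lit 297)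 (nat_lit 5) (nat_lit 298) (nat_lit 5) (nat_lit 467) (nat_lit 406) (nat_lit 267))) (XT.nd (nat_lit 78) (nat_lit 608) (nat_lit 0) (XT.lf (nat_lit 0) (nat_lit 12606971139) (nat_lit 608) (nat_lit 929157760) (nat_lit 684) (nat_lit 131531458) (nat_lit 289) (nat_lit 5) (nat_lit 297) (nat_lit 5) (nat_lit 298) (nat_lit 5) (nat_lit 468) (nat_lit 406) (nat_lit 266)) (XT.lf (nat_lit 0) (nat_lit 2834401267) (nat_lit 608) (nat_lit 6338581770) (nat_lit 76) (nat_lit 4646789046) (nat_lit 281) (nat_lit 5) (nat_lit 289) (nat_lit 5) (nat_lit 282) (nat_lit 5) (nat_lit 469) (nat_lit 406) (nat_lit 265))))))) (XT.nd (nat_lit 54990) (nat_lit 0) (nat_lit 24700) (XT.nd (nat_lit 54444) (nat_lit 0) (nat_lit 27436) (XT.nd (nat_lit 234) (nat_lit 1140) (nat_lit 0) (XT.nd (nat_lit 78) (nat_lit 532) (nat_lit 0) (XT.lf (nat_lit 0) (nat_lit 2237595764) (nat_lit 608) (nat_lit 3634424397) (nat_lit 684) (nat_lit 8102605919) (nat_lit 273) (nat_lit 5) (nat_lit 281) (nat_lit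 5) (nat_lit 282) (nat_lit 5) (nat_lit 470) (nat_lit 406) (nat_lit 264)) (XT.nd (nat_lit 78) (nat_lit 532) (nat_lit 0) (XT.lf (nat_lit 0) (nat_lit 9012693842) (nat_lit 684) (nat_lit 3092175619) (nat_lit 76) (nat_lit 2026861647) (nat_lit 273) (nat_lit 5) (nat_lit 282) (nat_lit 5) (nat_lit 274) (nat_lit 5) (nat_lit 471) (nat_lit 406) (nat_lit 263)) (XT.lf (nat_lit 0) (nat_lit 5759094213) (nat_lit 532) (nat_lit 6505217675) (nat_lit 608) (nat_lit 2026703733) (nat_lit 266) (nat_lit 5) (nat_lit 273) (nat_lit 5) (nat_lit 274) (nat_lit 5) (nat_lit 472) (nat_lit 406) (nat_lit 262)))) (XT.nd (nat_lit 78) (nat_lit 532) (nat_lit 0) (XT.lf (nat_lit 0) (nat_lit 355434930) (nat_lit 532) (nat_lit 767178062) (nat_lit 608) (nat_lit 13330527952) (nat_lit 258) (nat_lit 5) (nat_lit 265) (nat_lit 5) (nat_lit 266) (nat_lit 5) (nat_lit 473) (nat_lit 406) (nat_lit 261)) (XT.nd (nat_lit 78) (nat_lit 532) (nat_lit 0) (XT.lf (nat_lit 0) (nat_lit 4385297480) (nat_lit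 608) (nat_lit 5146109166) (nat_lit 76) (nat_lit 5085283819) (nat_lit 258) (nat_lit 5) (nat_lit 266) (nat_lit 5) (nat_lit 259) (nat_lit 5) (nat_lit 474) (nat_lit 406) (nat_lit 260)) (XT.lf (nat_lit 0) (nat_lit 4014326780) (nat_lit 532) (nat_lit 3717152749) (nat_lit 608) (nat_lit 7051666569) (nat_lit 251) (nat_lit 5) (nat_lit 258) (nat_lit 5) (nat_lit 259) (nat_lit 5) (nat_lit 475) (nat_lit 406) (nat_lit 259))))) (XT.nd (nat_lit 234) (nat_lit 1292) (nat_lit 0) (XT.nd (nat_lit 78) (nat_lit 0) (nat_lit 0) (XT.lf (nat_lit 0) (nat_lit 655155777) (nat_lit 1444) (nat_lit 1629198491) (nat_lit 1444) (nat_lit 1629198491) (nat_lit 629) (nat_lit 3) (nat_lit 648) (nat_lit 3) (nat_lit 648) (nat_lit 5) (nat_lit 407) (nat_lit 407) (nat_lit 326)) (XT.nd (nat_lit 78) (nat_lit 0) (nat_lit 76) (XT.lf (nat_lit 76) (nat_lit 663862453) (nat_lit 0) (nat_lit 1959290285) (nat_lit 1444) (nat_lit 5256229075) (nat_lit 630) (nat_lit 5) (nat_lit 629) (nat_lit 3) (nat_lit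 648) (nat_lit 5) (nat_lit 408) (nat_lit 407) (nat_lit 325)) (XT.lf (nat_lit 0) (nat_lit 3954834811) (nat_lit 1368) (nat_lit 3246584608) (nat_lit 1444) (nat_lit 731432532) (nat_lit 630) (nat_lit 5) (nat_lit 648) (nat_lit 5) (nat_lit 649) (nat_lit 5) (nat_lit 409) (nat_lit 407) (nat_lit 324)))) (XT.nd (nat_lit 156) (nat_lit 1368) (nat_lit 0) (XT.nd (nat_lit 78) (nat_lit 0) (nat_lit 0) (XT.lf (nat_lit 76) (nat_lit 781007157) (nat_lit 0) (nat_lit 4516869813) (nat_lit 1444) (nat_lit 2689819994) (nat_lit 631) (nat_lit 5) (nat_lit 630) (nat_lit 5) (nat_lit 649) (nat_lit 5) (nat_lit 410) (nat_lit 407) (nat_lit 323)) (XT.lf (nat_lit 76) (nat_lit 4915288120) (nat_lit 0) (nat_lit 1741495638) (nat_lit 1444) (nat_lit 1387075042) (nat_lit 631) (nat_lit 5) (nat_lit 630) (nat_lit 5) (nat_lit 649) (nat_lit 5) (nat_lit 411) (nat_lit 407) (nat_lit 322))) (XT.nd (nat_lit 78) (nat_lit 1444) (nat_lit 0) (XT.lf (nat_lit 76) (nat_lit 1019145844) (nat_lit 0)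 (nat_lit 7005368033) (nat_lit 1444) (nat_lit 76997093) (nat_lit 632) (nat_lit 5) (nat_lit 631) (nat_lit 5) (nat_lit 650) (nat_lit 5) (nat_lit 412) (nat_lit 407) (nat_lit 321)) (XT.lf (nat_lit 0) (nat_lit 1243690108) (nat_lit 1444) (nat_lit 2906079190) (nat_lit 1520) (nat_lit 4010364895) (nat_lit 612) (nat_lit 5) (nat_lit 631) (nat_lit 5) (nat_lit 632) (nat_lit 5) (nat_lit 413) (nat_lit 407) (nat_lit 320)))))) (XT.nd (nat_lit 468) (nat_lit 1368) (nat_lit 0) (XT.nd (nat_lit 234) (nat_lit 1368) (nat_lit 0) (XT.nd (nat_lit 78) (nat_lit 0) (nat_lit 76) (XT.lf (nat_lit 76) (nat_lit 1352768293) (nat_lit 0) (nat_lit 1214655150) (nat_lit 1520) (nat_lit 5652942990) (nat_lit 613) (nat_lit 5) (nat_lit 612) (nat_lit 5) (nat_lit 632) (nat_lit 5) (nat_lit 414) (nat_lit 407) (nat_lit 319)) (XT.nd (nat_lit 78) (nat_lit 0) (nat_lit 0) (XT.lf (nat_lit 0) (nat_lit 3918267097) (nat_lit 1444) (nat_lit 2575678934) (nat_lit 1520) (nat_lit 1787844576) (nat_lit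 613) (nat_lit 5) (nat_lit 632) (nat_lit 5) (nat_lit 633) (nat_lit 5) (nat_lit 415) (nat_lit 407) (nat_lit 318)) (XT.lf (nat_lit 76) (nat_lit 1799229454) (nat_lit 0) (nat_lit 3486676665) (nat_lit 1520) (nat_lit 3058741573) (nat_lit 614) (nat_lit 5) (nat_lit 613) (nat_lit 5) (nat_lit 633) (nat_lit 5) (nat_lit 416) (nat_lit 407) (nat_lit 317)))) (XT.nd (nat_lit 78) (nat_lit 1444) (nat_lit 0) (XT.lf (nat_lit 76) (nat_lit 6278268739) (nat_lit 0) (nat_lit 390434488) (nat_lit 1520) (nat_lit 1740302587) (nat_lit 614) (nat_lit 5) (nat_lit 613) (nat_lit 5) (nat_lit 633) (nat_lit 5) (nat_lit 417) (nat_lit 407) (nat_lit 316)) (XT.nd (nat_lit 78) (nat_lit 1520) (nat_lit 0) (XT.lf (nat_lit 76) (nat_lit 2366735805) (nat_lit 0) (nat_lit 5716927282) (nat_lit 1520) (nat_lit 390897875) (nat_lit 615) (nat_lit 5) (nat_lit 614) (nat_lit 5) (nat_lit 634) (nat_lit 5) (nat_lit 418) (nat_lit 407) (nat_lit 315)) (XT.lf (nat_lit 0) (nat_lit 960976661) (nat_lit 1520)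 (nat_lit 1586008875) (nat_lit 1596) (nat_lit 5994545573) (nat_lit 594) (nat_lit 5) (nat_lit 614) (nat_lit 5) (nat_lit 615) (nat_lit 5) (nat_lit 419) (nat_lit 407) (nat_lit 314))))) (XT.nd (nat_lit 234) (nat_lit 1444) (nat_lit 0) (XT.nd (nat_lit 78) (nat_lit 0) (nat_lit 0) (XT.lf (nat_lit 0) (nat_lit 2331085035) (nat_lit 1520) (nat_lit 5569488036) (nat_lit 1596) (nat_lit 709287304) (nat_lit 595) (nat_lit 5) (nat_lit 615) (nat_lit 5) (nat_lit 616) (nat_lit 5) (nat_lit 420) (nat_lit 407) (nat_lit 313)) (XT.nd (nat_lit 78) (nat_lit 0) (nat_lit 0) (XT.lf (nat_lit 0) (nat_lit 3728654853) (nat_lit 1520) (nat_lit 934451977) (nat_lit 1596) (nat_lit 4016448208) (nat_lit 595) (nat_lit 5) (nat_lit 615) (nat_lit 5) (nat_lit 616) (nat_lit 5) (nat_lit 421) (nat_lit 407) (nat_lit 312)) (XT.lf (nat_lit 76) (nat_lit 3824869614) (nat_lit 0) (nat_lit 1327158068) (nat_lit 1596) (nat_lit 3598658881) (nat_lit 596) (nat_lit 5) (nat_lit 595) (nat_lit 5) (nat_lit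 616) (nat_lit 5) (nat_lit 422) (nat_lit 407) (nat_lit 311)))) (XT.nd (nat_lit 156) (nat_lit 1520) (nat_lit 0) (XT.nd (nat_lit 78) (nat_lit 0) (nat_lit 0) (XT.lf (nat_lit 0) (nat_lit 6597135691) (nat_lit 1520) (nat_lit 163628997) (nat_lit 1596) (nat_lit 2062610677) (nat_lit 596) (nat_lit 5) (nat_lit 616) (nat_lit 5) (nat_lit 617) (nat_lit 5) (nat_lit 423) (nat_lit 407) (nat_lit 310)) (XT.lf (nat_lit 76) (nat_lit 4728359264) (nat_lit 0) (nat_lit 3356275312) (nat_lit 1596) (nat_lit 812613593) (nat_lit 597) (nat_lit 5) (nat_lit 596) (nat_lit 5) (nat_lit 617) (nat_lit 5) (nat_lit 424) (nat_lit 407) (nat_lit 309))) (XT.nd (nat_lit 78) (nat_lit 0) (nat_lit 0) (XT.lf (nat_lit 0) (nat_lit 601991443) (nat_lit 1596) (nat_lit 8239299367) (nat_lit 1672) (nat_lit 131606711) (nat_lit 576) (nat_lit 5) (nat_lit 597) (nat_lit 5) (nat_lit 598) (nat_lit 5) (nat_lit 425) (nat_lit 407) (nat_lit 308)) (XT.lf (nat_lit 0) (nat_lit 2059052030) (nat_lit 1596) (nat_lit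 3305962954) (nat_lit 1672) (nat_lit 3684436562) (nat_lit 576) (nat_lit 5) (nat_lit 597) (nat_lit 5) (nat_lit 598) (nat_lit 5) (nat_lit 426) (nat_lit 407) (nat_lit 307))))))))
noncomputable def xc97 : XT := (XT.nd (nat_lit 2028) (nat_lit 9272) (nat_lit 0) (XT.nd (nat_lit 1014) (nat_lit 6004) (nat_lit 0) (XT.nd (nat_lit 468) (nat_lit 7372) (nat_lit 0) (XT.nd (nat_lit 234) (nat_lit 1520) (nat_lit 0) (XT.nd (nat_lit 78) (nat_lit 0) (nat_lit 76) (XT.lf (nat_lit 76) (nat_lit 1729791278) (nat_lit 0) (nat_lit 1801837109) (nat_lit 1672) (nat_lit 5596180772) (nat_lit 577) (nat_lit 5) (nat_lit 576) (nat_lit 5) (nat_lit 598) (nat_lit 5) (nat_lit 427) (nat_lit 407) (nat_lit 306)) (XT.nd (nat_lit 78) (nat_lit 0) (nat_lit 0) (XT.lf (nat_lit 0) (nat_lit 5043432161) (nat_lit 1596) (nat_lit 2327599398) (nat_lit 1672) (nat_lit 1836506848) (nat_lit 577) (nat_lit 5) (nat_lit 598) (nat_lit 5) (nat_lit 599) (nat_lit 5) (nat_lit 428) (nat_lit 407) (nat_lit 305))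 (XT.lf (nat_lit 76) (nat_lit 2850724125) (nat_lit 0) (nat_lit 3741214603) (nat_lit 1672) (nat_lit 2696794179) (nat_lit 578) (nat_lit 5) (nat_lit 577) (nat_lit 5) (nat_lit 599) (nat_lit 5) (nat_lit 429) (nat_lit 407) (nat_lit 304)))) (XT.nd (nat_lit 78) (nat_lit 1596) (nat_lit 0) (XT.lf (nat_lit 76) (nat_lit 8145331677) (nat_lit 0) (nat_lit 18076210) (nat_lit 1672) (nat_lit 1208303560) (nat_lit 578) (nat_lit 5) (nat_lit 577) (nat_lit 5) (nat_lit 599) (nat_lit 5) (nat_lit 430) (nat_lit 407) (nat_lit 303)) (XT.nd (nat_lit 78) (nat_lit 0) (nat_lit 0) (XT.lf (nat_lit 0) (nat_lit 334101652) (nat_lit 1672) (nat_lit 5358233629) (nat_lit 76) (nat_lit 3763409829) (nat_lit 556) (nat_lit 5) (nat_lit 578) (nat_lit 5) (nat_lit 557) (nat_lit 5) (nat_lit 431) (nat_lit 407) (nat_lit 302)) (XT.lf (nat_lit 0) (nat_lit 1876641907) (nat_lit 1672) (nat_lit 24105085) (nat_lit 76) (nat_lit 7640843394) (nat_lit 556) (nat_lit 5) (nat_lit 578) (nat_lit 5) (nat_lit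 557) (nat_lit 5) (nat_lit 432) (nat_lit 407) (nat_lit 301))))) (XT.nd (nat_lit 234) (nat_lit 3952) (nat_lit 0) (XT.nd (nat_lit 78) (nat_lit 1748) (nat_lit 0) (XT.lf (nat_lit 0) (nat_lit 3476071350) (nat_lit 1748) (nat_lit 4172242137) (nat_lit 76) (nat_lit 1980318313) (nat_lit 534) (nat_lit 5) (nat_lit 557) (nat_lit 5) (nat_lit 535) (nat_lit 5) (nat_lit 433) (nat_lit 407) (nat_lit 300)) (XT.nd (nat_lit 78) (nat_lit 0) (nat_lit 0) (XT.lf (nat_lit 0) (nat_lit 1314960983) (nat_lit 1748) (nat_lit 3791656958) (nat_lit 1824) (nat_lit 4610813531) (nat_lit 511) (nat_lit 5) (nat_lit 534) (nat_lit 5) (nat_lit 535) (nat_lit 5) (nat_lit 434) (nat_lit 407) (nat_lit 299)) (XT.lf (nat_lit 0) (nat_lit 6777051929) (nat_lit 1824) (nat_lit 2859527711) (nat_lit 76) (nat_lit 171281966) (nat_lit 511) (nat_lit 5) (nat_lit 535) (nat_lit 5) (nat_lit 512) (nat_lit 5) (nat_lit 435) (nat_lit 407) (nat_lit 298)))) (XT.nd (nat_lit 156) (nat_lit 2052) (nat_lit 0) (XT.nd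 (nat_lit 78) (nat_lit 76) (nat_lit 0) (XT.lf (nat_lit 0) (nat_lit 2786655905) (nat_lit 1824) (nat_lit 5716040143) (nat_lit 1900) (nat_lit 1396968268) (nat_lit 487) (nat_lit 5) (nat_lit 511) (nat_lit 5) (nat_lit 512) (nat_lit 5) (nat_lit 436) (nat_lit 407) (nat_lit 297)) (XT.lf (nat_lit 0) (nat_lit 264086077) (nat_lit 1900) (nat_lit 1429483798) (nat_lit 76) (nat_lit 8299736776) (nat_lit 486) (nat_lit 5) (nat_lit 511) (nat_lit 5) (nat_lit 487) (nat_lit 5) (nat_lit 437) (nat_lit 407) (nat_lit 296))) (XT.nd (nat_lit 78) (nat_lit 912) (nat_lit 0) (XT.lf (nat_lit 0) (nat_lit 1963301980) (nat_lit 1216) (nat_lit 5707093014) (nat_lit 76) (nat_lit 2417769242) (nat_lit 471) (nat_lit 5) (nat_lit 487) (nat_lit 5) (nat_lit 472) (nat_lit 5) (nat_lit 438) (nat_lit 407) (nat_lit 295)) (XT.lf (nat_lit 0) (nat_lit 113563187) (nat_lit 912) (nat_lit 3584018791) (nat_lit 988) (nat_lit 6487315400) (nat_lit 459) (nat_lit 5) (nat_lit 471) (nat_lit 5) (nat_lit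 472) (nat_lit 5) (nat_lit 439) (nat_lit 407) (nat_lit 294)))))) (XT.nd (nat_lit 468) (nat_lit 3268) (nat_lit 0) (XT.nd (nat_lit 234) (nat_lit 1824) (nat_lit 0) (XT.nd (nat_lit 78) (nat_lit 912) (nat_lit 0) (XT.lf (nat_lit 0) (nat_lit 5488648892) (nat_lit 988) (nat_lit 4178272892) (nat_lit 76) (nat_lit 616201372) (nat_lit 459) (nat_lit 5) (nat_lit 472) (nat_lit 5) (nat_lit 460) (nat_lit 5) (nat_lit 440) (nat_lit 407) (nat_lit 293)) (XT.nd (nat_lit 78) (nat_lit 0) (nat_lit 0) (XT.lf (nat_lit 0) (nat_lit 1813660273) (nat_lit 912) (nat_lit 5517542310) (nat_lit 988) (nat_lit 3051797559) (nat_lit 447) (nat_lit 5) (nat_lit 459) (nat_lit 5) (nat_lit 460) (nat_lit 5) (nat_lit 441) (nat_lit 407) (nat_lit 292)) (XT.lf (nat_lit 0) (nat_lit 7963154341) (nat_lit 912) (nat_lit 1255912457) (nat_lit 988) (nat_lit 1265638678) (nat_lit 447) (nat_lit 5) (nat_lit 459) (nat_lit 5) (nat_lit 460) (nat_lit 5) (nat_lit 442) (nat_lit 407) (nat_lit 291)))) (XT.nd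 (nat_lit 78) (nat_lit 912) (nat_lit 0) (XT.lf (nat_lit 0) (nat_lit 573726937) (nat_lit 912) (nat_lit 6935583859) (nat_lit 76) (nat_lit 3078566317) (nat_lit 435) (nat_lit 5) (nat_lit 447) (nat_lit 5) (nat_lit 436) (nat_lit 5) (nat_lit 443) (nat_lit 407) (nat_lit 290)) (XT.nd (nat_lit 78) (nat_lit 912) (nat_lit 0) (XT.lf (nat_lit 0) (nat_lit 2439237035) (nat_lit 912) (nat_lit 744851369) (nat_lit 76) (nat_lit 7508730379) (nat_lit 435) (nat_lit 5) (nat_lit 447) (nat_lit 5) (nat_lit 436) (nat_lit 5) (nat_lit 444) (nat_lit 407) (nat_lit 289)) (XT.lf (nat_lit 0) (nat_lit 4368101328) (nat_lit 988) (nat_lit 5182937012) (nat_lit 76) (nat_lit 1248300067) (nat_lit 423) (nat_lit 5) (nat_lit 436) (nat_lit 5) (nat_lit 424) (nat_lit 5) (nat_lit 445) (nat_lit 407) (nat_lit 288))))) (XT.nd (nat_lit 234) (nat_lit 1596) (nat_lit 0) (XT.nd (nat_lit 78) (nat_lit 836) (nat_lit 0) (XT.lf (nat_lit 0) (nat_lit 1182544203) (nat_lit 836) (nat_lit 5168351498) (nat_lit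 912) (nat_lit 4556785666) (nat_lit 412) (nat_lit 5) (nat_lit 423) (nat_lit 5) (nat_lit 424) (nat_lit 5) (nat_lit 446) (nat_lit 407) (nat_lit 287)) (XT.nd (nat_lit 78) (nat_lit 836) (nat_lit 0) (XT.lf (nat_lit 0) (nat_lit 7726782965) (nat_lit 836) (nat_lit 663139560) (nat_lit 912) (nat_lit 2627937130) (nat_lit 412) (nat_lit 5) (nat_lit 423) (nat_lit 5) (nat_lit 424) (nat_lit 5) (nat_lit 447) (nat_lit 407) (nat_lit 286)) (XT.lf (nat_lit 0) (nat_lit 3270231919) (nat_lit 836) (nat_lit 7228410194) (nat_lit 912) (nat_lit 631021153) (nat_lit 401) (nat_lit 5) (nat_lit 412) (nat_lit 5) (nat_lit 413) (nat_lit 5) (nat_lit 448) (nat_lit 407) (nat_lit 285)))) (XT.nd (nat_lit 156) (nat_lit 760) (nat_lit 0) (XT.nd (nat_lit 78) (nat_lit 760) (nat_lit 0) (XT.lf (nat_lit 0) (nat_lit 1396279670) (nat_lit 912) (nat_lit 1268453203) (nat_lit 76) (nat_lit 8578609835) (nat_lit 400) (nat_lit 5) (nat_lit 412) (nat_lit 5) (nat_lit 401) (nat_lit 5) (nat_lit 449)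 (nat_lit 407) (nat_lit 284)) (XT.lf (nat_lit 0) (nat_lit 3487207502) (nat_lit 836) (nat_lit 5868208805) (nat_lit 76) (nat_lit 2003165407) (nat_lit 390) (nat_lit 5) (nat_lit 401) (nat_lit 5) (nat_lit 391) (nat_lit 5) (nat_lit 450) (nat_lit 407) (nat_lit 283))) (XT.nd (nat_lit 78) (nat_lit 0) (nat_lit 0) (XT.lf (nat_lit 0) (nat_lit 900980151) (nat_lit 760) (nat_lit 4733861806) (nat_lit 836) (nat_lit 5840985780) (nat_lit 380) (nat_lit 5) (nat_lit 390) (nat_lit 5) (nat_lit 391) (nat_lit 5) (nat_lit 451) (nat_lit 407) (nat_lit 282)) (XT.lf (nat_lit 0) (nat_lit 7847967415) (nat_lit 836) (nat_lit 3728617196) (nat_lit 76) (nat_lit 18383302) (nat_lit 380) (nat_lit 5) (nat_lit 391) (nat_lit 5) (nat_lit 381) (nat_lit 5) (nat_lit 452) (nat_lit 407) (nat_lit 281))))))) (XT.nd (nat_lit 1014) (nat_lit 3572) (nat_lit 0) (XT.nd (nat_lit 468) (nat_lit 2736) (nat_lit 0) (XT.nd (nat_lit 234) (nat_lit 1368) (nat_lit 0) (XT.nd (nat_lit 78) (nat_lit 836) (nat_lit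 0) (XT.lf (nat_lit 0) (nat_lit 3247194521) (nat_lit 760) (nat_lit 6893954475) (nat_lit 836) (nat_lit 1574626027) (nat_lit 370) (nat_lit 5) (nat_lit 380) (nat_lit 5) (nat_lit 381) (nat_lit 5) (nat_lit 453) (nat_lit 407) (nat_lit 280)) (XT.nd (nat_lit 78) (nat_lit 760) (nat_lit 0) (XT.lf (nat_lit 0) (nat_lit 641431404) (nat_lit 836) (nat_lit 1448440096) (nat_lit 76) (nat_lit 9748870616) (nat_lit 369) (nat_lit 5) (nat_lit 380) (nat_lit 5) (nat_lit 370) (nat_lit 5) (nat_lit 454) (nat_lit 407) (nat_lit 279)) (XT.lf (nat_lit 0) (nat_lit 2920467898) (nat_lit 836) (nat_lit 6223193950) (nat_lit 76) (nat_lit 2819503693) (nat_lit 359) (nat_lit 5) (nat_lit 370) (nat_lit 5) (nat_lit 360) (nat_lit 5) (nat_lit 455) (nat_lit 407) (nat_lit 278)))) (XT.nd (nat_lit 78) (nat_lit 684) (nat_lit 0) (XT.lf (nat_lit 0) (nat_lit 982384175) (nat_lit 684) (nat_lit 4276671906) (nat_lit 760) (nat_lit 6830741934) (nat_lit 350) (nat_lit 5) (nat_lit 359) (nat_lit 5)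 (nat_lit 360) (nat_lit 5) (nat_lit 456) (nat_lit 407) (nat_lit 277)) (XT.nd (nat_lit 78) (nat_lit 684) (nat_lit 0) (XT.lf (nat_lit 0) (nat_lit 7675065075) (nat_lit 760) (nat_lit 3825114720) (nat_lit 76) (nat_lit 718170364) (nat_lit 350) (nat_lit 5) (nat_lit 360) (nat_lit 5) (nat_lit 351) (nat_lit 5) (nat_lit 457) (nat_lit 407) (nat_lit 276)) (XT.lf (nat_lit 0) (nat_lit 3603457853) (nat_lit 684) (nat_lit 6572112455) (nat_lit 760) (nat_lit 2173179516) (nat_lit 341) (nat_lit 5) (nat_lit 350) (nat_lit 5) (nat_lit 351) (nat_lit 5) (nat_lit 458) (nat_lit 407) (nat_lit 275))))) (XT.nd (nat_lit 234) (nat_lit 1292) (nat_lit 0) (XT.nd (nat_lit 78) (nat_lit 1368) (nat_lit 0) (XT.lf (nat_lit 0) (nat_lit 251504928) (nat_lit 760) (nat_lit 1268943283) (nat_lit 76) (nat_lit 10961069921) (nat_lit 340) (nat_lit 5) (nat_lit 350) (nat_lit 5) (nat_lit 341) (nat_lit 5) (nat_lit 459) (nat_lit 407) (nat_lit 274)) (XT.nd (nat_lit 78) (nat_lit 684) (nat_lit 0)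 (XT.lf (nat_lit 0) (nat_lit 2746000853) (nat_lit 760) (nat_lit 6231504665) (nat_lit 76) (nat_lit 3638140661) (nat_lit 331) (nat_lit 5) (nat_lit 341) (nat_lit 5) (nat_lit 332) (nat_lit 5) (nat_lit 460) (nat_lit 407) (nat_lit 273)) (XT.lf (nat_lit 0) (nat_lit 1445843109) (nat_lit 684) (nat_lit 3857579274) (nat_lit 760) (nat_lit 7448773689) (nat_lit 322) (nat_lit 5) (nat_lit 331) (nat_lit 5) (nat_lit 332) (nat_lit 5) (nat_lit 461) (nat_lit 407) (nat_lit 272)))) (XT.nd (nat_lit 156) (nat_lit 684) (nat_lit 0) (XT.nd (nat_lit 78) (nat_lit 608) (nat_lit 0) (XT.lf (nat_lit 0) (nat_lit 7948109676) (nat_lit 760) (nat_lit 3556922490) (nat_lit 76) (nat_lit 1385722451) (nat_lit 322) (nat_lit 5) (nat_lit 332) (nat_lit 5) (nat_lit 323) (nat_lit 5) (nat_lit 462) (nat_lit 407) (nat_lit 271)) (XT.lf (nat_lit 0) (nat_lit 4361155260) (nat_lit 608) (nat_lit 6323851663) (nat_lit 684) (nat_lit 2346291086) (nat_lit 314) (nat_lit 5) (nat_lit 322) (nat_lit 5)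 (nat_lit 323) (nat_lit 5) (nat_lit 463) (nat_lit 407) (nat_lit 270))) (XT.nd (nat_lit 78) (nat_lit 608) (nat_lit 0) (XT.lf (nat_lit 0) (nat_lit 307583863) (nat_lit 684) (nat_lit 708549842) (nat_lit 76) (nat_lit 12158288256) (nat_lit 313) (nat_lit 5) (nat_lit 322) (nat_lit 5) (nat_lit 314) (nat_lit 5) (nat_lit 464) (nat_lit 407) (nat_lit 269)) (XT.lf (nat_lit 0) (nat_lit 3046461166) (nat_lit 684) (nat_lit 5871276618) (nat_lit 76) (nat_lit 4401093594) (nat_lit 305) (nat_lit 5) (nat_lit 314) (nat_lit 5) (nat_lit 306) (nat_lit 5) (nat_lit 465) (nat_lit 407) (nat_lit 268)))))) (XT.nd (nat_lit 468) (nat_lit 1140) (nat_lit 0) (XT.nd (nat_lit 234) (nat_lit 1216) (nat_lit 0) (XT.nd (nat_lit 78) (nat_lit 608) (nat_lit 0) (XT.lf (nat_lit 0) (nat_lit 2316115263) (nat_lit 608) (nat_lit 3536506430) (nat_lit 684) (nat_lit 7613257176) (nat_lit 297) (nat_lit 5) (nat_lit 305) (nat_lit 5) (nat_lit 306) (nat_lit 5) (nat_lit 466) (nat_lit 407) (nat_lit 267))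 (XT.nd (nat_lit 78) (nat_lit 608) (nat_lit 0) (XT.lf (nat_lit 0) (nat_lit 8753329306) (nat_lit 684) (nat_lit 2899162132) (nat_lit 76) (nat_lit 1962607397) (nat_lit 297) (nat_lit 5) (nat_lit 306) (nat_lit 5) (nat_lit 298) (nat_lit 5) (nat_lit 467) (nat_lit 407) (nat_lit 266)) (XT.lf (nat_lit 0) (nat_lit 5548161010) (nat_lit 608) (nat_lit 6209693411) (nat_lit 684) (nat_lit 2008532710) (nat_lit 289) (nat_lit 5) (nat_lit 297) (nat_lit 5) (nat_lit 298) (nat_lit 5) (nat_lit 468) (nat_lit 407) (nat_lit 265)))) (XT.nd (nat_lit 78) (nat_lit 608) (nat_lit 0) (XT.lf (nat_lit 0) (nat_lit 263186128) (nat_lit 532) (nat_lit 634473204) (nat_lit 608) (nat_lit 13022770417) (nat_lit 281) (nat_lit 5) (nat_lit 288) (nat_lit 5) (nat_lit 289) (nat_lit 5) (nat_lit 469) (nat_lit 407) (nat_lit 264)) (XT.nd (nat_lit 78) (nat_lit 608) (nat_lit 0) (XT.lf (nat_lit 0) (nat_lit 3909972354) (nat_lit 608) (nat_lit 5115117056) (nat_lit 76) (nat_lit 5050700453) (nat_lit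 281) (nat_lit 5) (nat_lit 289) (nat_lit 5) (nat_lit 282) (nat_lit 5) (nat_lit 470) (nat_lit 407) (nat_lit 263)) (XT.lf (nat_lit 0) (nat_lit 3623700895) (nat_lit 608) (nat_lit 3373373586) (nat_lit 684) (nat_lit 7236891842) (nat_lit 273) (nat_lit 5) (nat_lit 281) (nat_lit 5) (nat_lit 282) (nat_lit 5) (nat_lit 471) (nat_lit 407) (nat_lit 262))))) (XT.nd (nat_lit 54366) (nat_lit 0) (nat_lit 28196) (XT.nd (nat_lit 78) (nat_lit 1140) (nat_lit 0) (XT.lf (nat_lit 0) (nat_lit 10182928870) (nat_lit 684) (nat_lit 1821334194) (nat_lit 76) (nat_lit 2390303044) (nat_lit 273) (nat_lit 5) (nat_lit 282) (nat_lit 5) (nat_lit 274) (nat_lit 5) (nat_lit 472) (nat_lit 407) (nat_lit 261)) (XT.nd (nat_lit 78) (nat_lit 608) (nat_lit 0) (XT.lf (nat_lit 0) (nat_lit 7198193371) (nat_lit 532) (nat_lit 6290570259) (nat_lit 608) (nat_lit 1068488992) (nat_lit 266) (nat_lit 5) (nat_lit 273) (nat_lit 5) (nat_lit 274) (nat_lit 5) (nat_lit 473) (nat_lit 407) (nat_lit 260))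 (XT.lf (nat_lit 0) (nat_lit 1690763515) (nat_lit 532) (nat_lit 429248995) (nat_lit 608) (nat_lit 12602692308) (nat_lit 258) (nat_lit 5) (nat_lit 265) (nat_lit 5) (nat_lit 266) (nat_lit 5) (nat_lit 474) (nat_lit 407) (nat_lit 259)))) (XT.nd (nat_lit 156) (nat_lit 0) (nat_lit 0) (XT.nd (nat_lit 78) (nat_lit 0) (nat_lit 0) (XT.lf (nat_lit 0) (nat_lit 1955275948) (nat_lit 1444) (nat_lit 1005403762) (nat_lit 1444) (nat_lit 1005403762) (nat_lit 629) (nat_lit 3) (nat_lit 648) (nat_lit 3) (nat_lit 648) (nat_lit 5) (nat_lit 408) (nat_lit 408) (nat_lit 324)) (XT.lf (nat_lit 76) (nat_lit 1981260537) (nat_lit 0) (nat_lit 3226385327) (nat_lit 1444) (nat_lit 2778682984) (nat_lit 630) (nat_lit 5) (nat_lit 629) (nat_lit 3) (nat_lit 648) (nat_lit 5) (nat_lit 409) (nat_lit 408) (nat_lit 323))) (XT.nd (nat_lit 78) (nat_lit 0) (nat_lit 76) (XT.lf (nat_lit 76) (nat_lit 6063548991) (nat_lit 0) (nat_lit 447856641) (nat_lit 1444) (nat_lit 1530553875) (nat_lit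 630) (nat_lit 5) (nat_lit 629) (nat_lit 3) (nat_lit 648) (nat_lit 5) (nat_lit 410) (nat_lit 408) (nat_lit 322)) (XT.lf (nat_lit 76) (nat_lit 2123851303) (nat_lit 0) (nat_lit 5714645859) (nat_lit 1444) (nat_lit 260260488) (nat_lit 631) (nat_lit 5) (nat_lit 630) (nat_lit 5) (nat_lit 649) (nat_lit 5) (nat_lit 411) (nat_lit 408) (nat_lit 321))))))))
noncomputable def xc98 : XT := (XT.nd (nat_lit 2028) (nat_lit 12464) (nat_lit 0) (XT.nd (nat_lit 1014) (nat_lit 8132) (nat_lit 0) (XT.nd (nat_lit 468) (nat_lit 1368) (nat_lit 0) (XT.nd (nat_lit 234) (nat_lit 0) (nat_lit 76) (XT.nd (nat_lit 78) (nat_lit 0) (nat_lit 76) (XT.lf (nat_lit 0) (nat_lit 1006470644) (nat_lit 1444) (nat_lit 1848825125) (nat_lit 1520) (nat_lit 5301569294) (nat_lit 611) (nat_lit 5) (nat_lit 630) (nat_lit 5) (nat_lit 631) (nat_lit 5) (nat_lit 412) (nat_lit 408) (nat_lit 320)) (XT.nd (nat_lit 78) (nat_lit 0) (nat_lit 0) (XT.lf (nat_lit 0) (nat_lit 2279959403) (nat_lit 1444)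 (nat_lit 5845106271) (nat_lit 1520) (nat_lit 91336385) (nat_lit 612) (nat_lit 5) (nat_lit 631) (nat_lit 5) (nat_lit 632) (nat_lit 5) (nat_lit 413) (nat_lit 408) (nat_lit 319)) (XT.lf (nat_lit 0) (nat_lit 3579805491) (nat_lit 1444) (nat_lit 1612831908) (nat_lit 1520) (nat_lit 3084474647) (nat_lit 612) (nat_lit 5) (nat_lit 631) (nat_lit 5) (nat_lit 632) (nat_lit 5) (nat_lit 414) (nat_lit 408) (nat_lit 318)))) (XT.nd (nat_lit 78) (nat_lit 0) (nat_lit 76) (XT.lf (nat_lit 76) (nat_lit 2722301941) (nat_lit 0) (nat_lit 2171109349) (nat_lit 1520) (nat_lit 3445869685) (nat_lit 613) (nat_lit 5) (nat_lit 612) (nat_lit 5) (nat_lit 632) (nat_lit 5) (nat_lit 415) (nat_lit 408) (nat_lit 317)) (XT.nd (nat_lit 78) (nat_lit 0) (nat_lit 0) (XT.lf (nat_lit 0) (nat_lit 6220737507) (nat_lit 1444) (nat_lit 1260503025) (nat_lit 1520) (nat_lit 921703786) (nat_lit 613) (nat_lit 5) (nat_lit 632) (nat_lit 5) (nat_lit 633) (nat_lit 5) (nat_lit 416) (nat_lit 408)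 (nat_lit 316)) (XT.lf (nat_lit 76) (nat_lit 3192912153) (nat_lit 0) (nat_lit 4388022331) (nat_lit 1520) (nat_lit 886819958) (nat_lit 614) (nat_lit 5) (nat_lit 613) (nat_lit 5) (nat_lit 633) (nat_lit 5) (nat_lit 417) (nat_lit 408) (nat_lit 315))))) (XT.nd (nat_lit 234) (nat_lit 0) (nat_lit 152) (XT.nd (nat_lit 78) (nat_lit 0) (nat_lit 76) (XT.lf (nat_lit 0) (nat_lit 408769273) (nat_lit 1520) (nat_lit 802036859) (nat_lit 1596) (nat_lit 7323398361) (nat_lit 593) (nat_lit 5) (nat_lit 613) (nat_lit 5) (nat_lit 614) (nat_lit 5) (nat_lit 418) (nat_lit 408) (nat_lit 314)) (XT.nd (nat_lit 78) (nat_lit 0) (nat_lit 0) (XT.lf (nat_lit 0) (nat_lit 1728477026) (nat_lit 1520) (nat_lit 4828969744) (nat_lit 1596) (nat_lit 2044217914) (nat_lit 594) (nat_lit 5) (nat_lit 614) (nat_lit 5) (nat_lit 615) (nat_lit 5) (nat_lit 419) (nat_lit 408) (nat_lit 313)) (XT.lf (nat_lit 0) (nat_lit 3060552694) (nat_lit 1520) (nat_lit 246725925) (nat_lit 1596) (nat_lit 5363475982)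 (nat_lit 594) (nat_lit 5) (nat_lit 614) (nat_lit 5) (nat_lit 615) (nat_lit 5) (nat_lit 420) (nat_lit 408) (nat_lit 312)))) (XT.nd (nat_lit 156) (nat_lit 0) (nat_lit 0) (XT.nd (nat_lit 78) (nat_lit 0) (nat_lit 0) (XT.lf (nat_lit 0) (nat_lit 4421658106) (nat_lit 1520) (nat_lit 4273469540) (nat_lit 1596) (nat_lit 46050908) (nat_lit 595) (nat_lit 5) (nat_lit 615) (nat_lit 5) (nat_lit 616) (nat_lit 5) (nat_lit 421) (nat_lit 408) (nat_lit 311)) (XT.lf (nat_lit 76) (nat_lit 432341231) (nat_lit 0) (nat_lit 5377567657) (nat_lit 1596) (nat_lit 3003103632) (nat_lit 596) (nat_lit 5) (nat_lit 595) (nat_lit 5) (nat_lit 616) (nat_lit 5) (nat_lit 422) (nat_lit 408) (nat_lit 310))) (XT.nd (nat_lit 78) (nat_lit 0) (nat_lit 76) (XT.lf (nat_lit 76) (nat_lit 5272101312) (nat_lit 0) (nat_lit 1956448889) (nat_lit 1596) (nat_lit 1657680456) (nat_lit 596) (nat_lit 5) (nat_lit 595) (nat_lit 5) (nat_lit 616) (nat_lit 5) (nat_lit 423) (nat_lit 408) (nat_lit 309))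 (XT.lf (nat_lit 76) (nat_lit 1235694366) (nat_lit 0) (nat_lit 7432356522) (nat_lit 1596) (nat_lit 293012535) (nat_lit 597) (nat_lit 5) (nat_lit 596) (nat_lit 5) (nat_lit 617) (nat_lit 5) (nat_lit 424) (nat_lit 408) (nat_lit 308)))))) (XT.nd (nat_lit 468) (nat_lit 6764) (nat_lit 0) (XT.nd (nat_lit 234) (nat_lit 0) (nat_lit 76) (XT.nd (nat_lit 78) (nat_lit 0) (nat_lit 0) (XT.lf (nat_lit 0) (nat_lit 1096631005) (nat_lit 1596) (nat_lit 2844172156) (nat_lit 1672) (nat_lit 5096205078) (nat_lit 575) (nat_lit 5) (nat_lit 596) (nat_lit 5) (nat_lit 597) (nat_lit 5) (nat_lit 425) (nat_lit 408) (nat_lit 307)) (XT.nd (nat_lit 78) (nat_lit 0) (nat_lit 76) (XT.lf (nat_lit 76) (nat_lit 2142655536) (nat_lit 0) (nat_lit 356624469) (nat_lit 1672) (nat_lit 6615370492) (nat_lit 576) (nat_lit 5) (nat_lit 575) (nat_lit 5) (nat_lit 597) (nat_lit 5) (nat_lit 426) (nat_lit 408) (nat_lit 306)) (XT.lf (nat_lit 0) (nat_lit 3946246100) (nat_lit 1596) (nat_lit 1965801982)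 (nat_lit 1672) (nat_lit 3281472233) (nat_lit 576) (nat_lit 5) (nat_lit 597) (nat_lit 5) (nat_lit 598) (nat_lit 5) (nat_lit 427) (nat_lit 408) (nat_lit 305)))) (XT.nd (nat_lit 78) (nat_lit 0) (nat_lit 76) (XT.lf (nat_lit 76) (nat_lit 3161415492) (nat_lit 0) (nat_lit 2259732594) (nat_lit 1672) (nat_lit 3852839514) (nat_lit 577) (nat_lit 5) (nat_lit 576) (nat_lit 5) (nat_lit 598) (nat_lit 5) (nat_lit 428) (nat_lit 408) (nat_lit 304)) (XT.nd (nat_lit 78) (nat_lit 0) (nat_lit 0) (XT.lf (nat_lit 0) (nat_lit 6924838201) (nat_lit 1596) (nat_lit 966165977) (nat_lit 1672) (nat_lit 1465074250) (nat_lit 577) (nat_lit 5) (nat_lit 598) (nat_lit 5) (nat_lit 599) (nat_lit 5) (nat_lit 429) (nat_lit 408) (nat_lit 303)) (XT.lf (nat_lit 76) (nat_lit 4306460955) (nat_lit 0) (nat_lit 4172022879) (nat_lit 1672) (nat_lit 960929604) (nat_lit 578) (nat_lit 5) (nat_lit 577) (nat_lit 5) (nat_lit 599) (nat_lit 5) (nat_lit 430) (nat_lit 408) (nat_lit 302))))) (XT.nd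 (nat_lit 234) (nat_lit 3648) (nat_lit 0) (XT.nd (nat_lit 78) (nat_lit 1596) (nat_lit 0) (XT.lf (nat_lit 76) (nat_lit 153416435) (nat_lit 0) (nat_lit 362967117) (nat_lit 1748) (nat_lit 9008268381) (nat_lit 556) (nat_lit 5) (nat_lit 555) (nat_lit 5) (nat_lit 578) (nat_lit 5) (nat_lit 431) (nat_lit 408) (nat_lit 301)) (XT.nd (nat_lit 78) (nat_lit 1672) (nat_lit 0) (XT.lf (nat_lit 0) (nat_lit 2045427180) (nat_lit 1672) (nat_lit 4044039047) (nat_lit 76) (nat_lit 3521300915) (nat_lit 556) (nat_lit 5) (nat_lit 578) (nat_lit 5) (nat_lit 557) (nat_lit 5) (nat_lit 432) (nat_lit 408) (nat_lit 300)) (XT.lf (nat_lit 0) (nat_lit 1387094268) (nat_lit 1672) (nat_lit 2207305525) (nat_lit 1748) (nat_lit 6104417899) (nat_lit 534) (nat_lit 5) (nat_lit 556) (nat_lit 5) (nat_lit 557) (nat_lit 5) (nat_lit 433) (nat_lit 408) (nat_lit 299)))) (XT.nd (nat_lit 156) (nat_lit 1900) (nat_lit 0) (XT.nd (nat_lit 78) (nat_lit 1748) (nat_lit 0) (XT.lf (nat_lit 0) (nat_lit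 5191322497) (nat_lit 1748) (nat_lit 2836708122) (nat_lit 76) (nat_lit 1760259223) (nat_lit 534) (nat_lit 5) (nat_lit 557) (nat_lit 5) (nat_lit 535) (nat_lit 5) (nat_lit 434) (nat_lit 408) (nat_lit 298)) (XT.lf (nat_lit 0) (nat_lit 2750903673) (nat_lit 1748) (nat_lit 4080459477) (nat_lit 1824) (nat_lit 3047964694) (nat_lit 511) (nat_lit 5) (nat_lit 534) (nat_lit 5) (nat_lit 535) (nat_lit 5) (nat_lit 435) (nat_lit 408) (nat_lit 297))) (XT.nd (nat_lit 78) (nat_lit 1900) (nat_lit 0) (XT.lf (nat_lit 0) (nat_lit 8470476357) (nat_lit 1748) (nat_lit 31764131) (nat_lit 1824) (nat_lit 1469985401) (nat_lit 511) (nat_lit 5) (nat_lit 534) (nat_lit 5) (nat_lit 535) (nat_lit 5) (nat_lit 436) (nat_lit 408) (nat_lit 296)) (XT.lf (nat_lit 0) (nat_lit 171564018) (nat_lit 1900) (nat_lit 5819184614) (nat_lit 76) (nat_lit 4075538325) (nat_lit 486) (nat_lit 5) (nat_lit 511) (nat_lit 5) (nat_lit 487) (nat_lit 5) (nat_lit 437) (nat_lit 408) (nat_lit 295)))))))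 (XT.nd (nat_lit 1014) (nat_lit 5168) (nat_lit 0) (XT.nd (nat_lit 468) (nat_lit 4256) (nat_lit 0) (XT.nd (nat_lit 234) (nat_lit 988) (nat_lit 0) (XT.nd (nat_lit 78) (nat_lit 2052) (nat_lit 0) (XT.lf (nat_lit 0) (nat_lit 1816214596) (nat_lit 1900) (nat_lit 59218062) (nat_lit 76) (nat_lit 8286803191) (nat_lit 486) (nat_lit 5) (nat_lit 511) (nat_lit 5) (nat_lit 487) (nat_lit 5) (nat_lit 438) (nat_lit 408) (nat_lit 294)) (XT.nd (nat_lit 78) (nat_lit 912) (nat_lit 0) (XT.lf (nat_lit 0) (nat_lit 3527224767) (nat_lit 1216) (nat_lit 4400189412) (nat_lit 76) (nat_lit 2332020208) (nat_lit 471) (nat_lit 5) (nat_lit 487) (nat_lit 5) (nat_lit 472) (nat_lit 5) (nat_lit 439) (nat_lit 408) (nat_lit 293)) (XT.lf (nat_lit 0) (nat_lit 1527530930) (nat_lit 912) (nat_lit 3747929874) (nat_lit 988) (nat_lit 5083055978) (nat_lit 459) (nat_lit 5) (nat_lit 471) (nat_lit 5) (nat_lit 472) (nat_lit 5) (nat_lit 440) (nat_lit 408) (nat_lit 292)))) (XT.nd (nat_lit 78)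 (nat_lit 988) (nat_lit 0) (XT.lf (nat_lit 0) (nat_lit 7072273207) (nat_lit 988) (nat_lit 2847746344) (nat_lit 76) (nat_lit 539289042) (nat_lit 459) (nat_lit 5) (nat_lit 472) (nat_lit 5) (nat_lit 460) (nat_lit 5) (nat_lit 441) (nat_lit 408) (nat_lit 291)) (XT.nd (nat_lit 78) (nat_lit 76) (nat_lit 0) (XT.lf (nat_lit 0) (nat_lit 3254722247) (nat_lit 912) (nat_lit 5677177498) (nat_lit 988) (nat_lit 1629678936) (nat_lit 447) (nat_lit 5) (nat_lit 459) (nat_lit 5) (nat_lit 460) (nat_lit 5) (nat_lit 442) (nat_lit 408) (nat_lit 290)) (XT.lf (nat_lit 0) (nat_lit 160982289) (nat_lit 988) (nat_lit 1167286124) (nat_lit 76) (nat_lit 9337598754) (nat_lit 446) (nat_lit 5) (nat_lit 459) (nat_lit 5) (nat_lit 447) (nat_lit 5) (nat_lit 443) (nat_lit 408) (nat_lit 289))))) (XT.nd (nat_lit 234) (nat_lit 2508) (nat_lit 0) (XT.nd (nat_lit 78) (nat_lit 912) (nat_lit 0) (XT.lf (nat_lit 0) (nat_lit 2000886383) (nat_lit 912) (nat_lit 5658663441) (nat_lit 76) (nat_lit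 3111771133) (nat_lit 435) (nat_lit 5) (nat_lit 447) (nat_lit 5) (nat_lit 436) (nat_lit 5) (nat_lit 444) (nat_lit 408) (nat_lit 288)) (XT.nd (nat_lit 78) (nat_lit 0) (nat_lit 0) (XT.lf (nat_lit 0) (nat_lit 636473673) (nat_lit 912) (nat_lit 3243606891) (nat_lit 988) (nat_lit 6998753419) (nat_lit 423) (nat_lit 5) (nat_lit 435) (nat_lit 5) (nat_lit 436) (nat_lit 5) (nat_lit 445) (nat_lit 408) (nat_lit 287)) (XT.lf (nat_lit 0) (nat_lit 5825186164) (nat_lit 988) (nat_lit 3880517579) (nat_lit 76) (nat_lit 1282226976) (nat_lit 423) (nat_lit 5) (nat_lit 436) (nat_lit 5) (nat_lit 424) (nat_lit 5) (nat_lit 446) (nat_lit 408) (nat_lit 286)))) (XT.nd (nat_lit 156) (nat_lit 1672) (nat_lit 0) (XT.nd (nat_lit 78) (nat_lit 0) (nat_lit 0) (XT.lf (nat_lit 0) (nat_lit 2603022746) (nat_lit 836) (nat_lit 5226825501) (nat_lit 912) (nat_lit 3268948055) (nat_lit 412) (nat_lit 5) (nat_lit 423) (nat_lit 5) (nat_lit 424) (nat_lit 5) (nat_lit 447) (nat_lit 408) (nat_lit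 285)) (XT.lf (nat_lit 0) (nat_lit 9250757505) (nat_lit 836) (nat_lit 632389579) (nat_lit 912) (nat_lit 1328561242) (nat_lit 412) (nat_lit 5) (nat_lit 423) (nat_lit 5) (nat_lit 424) (nat_lit 5) (nat_lit 448) (nat_lit 408) (nat_lit 284))) (XT.nd (nat_lit 78) (nat_lit 760) (nat_lit 0) (XT.lf (nat_lit 0) (nat_lit 682186379) (nat_lit 912) (nat_lit 6608453994) (nat_lit 76) (nat_lit 4035352006) (nat_lit 400) (nat_lit 5) (nat_lit 412) (nat_lit 5) (nat_lit 401) (nat_lit 5) (nat_lit 449) (nat_lit 408) (nat_lit 283)) (XT.lf (nat_lit 0) (nat_lit 83733789) (nat_lit 760) (nat_lit 2632570502) (nat_lit 836) (nat_lit 8726063291) (nat_lit 390) (nat_lit 5) (nat_lit 400) (nat_lit 5) (nat_lit 401) (nat_lit 5) (nat_lit 450) (nat_lit 408) (nat_lit 282)))))) (XT.nd (nat_lit 468) (nat_lit 2812) (nat_lit 0) (XT.nd (nat_lit 234) (nat_lit 1596) (nat_lit 0) (XT.nd (nat_lit 78) (nat_lit 760) (nat_lit 0) (XT.lf (nat_lit 0) (nat_lit 4832659722) (nat_lit 836) (nat_lit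 4593267804) (nat_lit 76) (nat_lit 2134311661) (nat_lit 390) (nat_lit 5) (nat_lit 401) (nat_lit 5) (nat_lit 391) (nat_lit 5) (nat_lit 451) (nat_lit 408) (nat_lit 281)) (XT.nd (nat_lit 78) (nat_lit 0) (nat_lit 0) (XT.lf (nat_lit 0) (nat_lit 2302145029) (nat_lit 760) (nat_lit 4705068250) (nat_lit 836) (nat_lit 4672937523) (nat_lit 380) (nat_lit 5) (nat_lit 390) (nat_lit 5) (nat_lit 391) (nat_lit 5) (nat_lit 452) (nat_lit 408) (nat_lit 280)) (XT.lf (nat_lit 0) (nat_lit 9240687683) (nat_lit 836) (nat_lit 2423251197) (nat_lit 76) (nat_lit 138213174) (nat_lit 380) (nat_lit 5) (nat_lit 391) (nat_lit 5) (nat_lit 381) (nat_lit 5) (nat_lit 453) (nat_lit 408) (nat_lit 279)))) (XT.nd (nat_lit 78) (nat_lit 836) (nat_lit 0) (XT.lf (nat_lit 0) (nat_lit 4682998213) (nat_lit 760) (nat_lit 6881404607) (nat_lit 836) (nat_lit 361279087) (nat_lit 370) (nat_lit 5) (nat_lit 380) (nat_lit 5) (nat_lit 381) (nat_lit 5) (nat_lit 454) (nat_lit 408) (nat_lit 278))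 (XT.nd (nat_lit 78) (nat_lit 760) (nat_lit 0) (XT.lf (nat_lit 0) (nat_lit 1858684706) (nat_lit 836) (nat_lit 117422530) (nat_lit 76) (nat_lit 10075321228) (nat_lit 369) (nat_lit 5) (nat_lit 380) (nat_lit 5) (nat_lit 370) (nat_lit 5) (nat_lit 455) (nat_lit 408) (nat_lit 277)) (XT.lf (nat_lit 0) (nat_lit 4169505899) (nat_lit 836) (nat_lit 4973875431) (nat_lit 76) (nat_lit 3035234949) (nat_lit 359) (nat_lit 5) (nat_lit 370) (nat_lit 5) (nat_lit 360) (nat_lit 5) (nat_lit 456) (nat_lit 408) (nat_lit 276))))) (XT.nd (nat_lit 234) (nat_lit 1444) (nat_lit 0) (XT.nd (nat_lit 78) (nat_lit 684) (nat_lit 0) (XT.lf (nat_lit 0) (nat_lit 2366776215) (nat_lit 684) (nat_lit 4173604797) (nat_lit 760) (nat_lit 5767690088) (nat_lit 350) (nat_lit 5) (nat_lit 359) (nat_lit 5) (nat_lit 360) (nat_lit 5) (nat_lit 457) (nat_lit 408) (nat_lit 275)) (XT.nd (nat_lit 78) (nat_lit 684) (nat_lit 0) (XT.lf (nat_lit 0) (nat_lit 8982849052) (nat_lit 760) (nat_lit 2541771218)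 (nat_lit 76) (nat_lit 915011239) (nat_lit 350) (nat_lit 5) (nat_lit 360) (nat_lit 5) (nat_lit 351) (nat_lit 5) (nat_lit 458) (nat_lit 408) (nat_lit 274)) (XT.lf (nat_lit 0) (nat_lit 5026426453) (nat_lit 684) (nat_lit 6493075878) (nat_lit 760) (nat_lit 1053414077) (nat_lit 341) (nat_lit 5) (nat_lit 350) (nat_lit 5) (nat_lit 351) (nat_lit 5) (nat_lit 459) (nat_lit 408) (nat_lit 273)))) (XT.nd (nat_lit 156) (nat_lit 684) (nat_lit 0) (XT.nd (nat_lit 78) (nat_lit 0) (nat_lit 0) (XT.lf (nat_lit 0) (nat_lit 45644527) (nat_lit 684) (nat_lit 1336650649) (nat_lit 760) (nat_lit 11326338115) (nat_lit 331) (nat_lit 5) (nat_lit 340) (nat_lit 5) (nat_lit 341) (nat_lit 5) (nat_lit 460) (nat_lit 408) (nat_lit 272)) (XT.lf (nat_lit 0) (nat_lit 3914374390) (nat_lit 760) (nat_lit 5004756443) (nat_lit 76) (nat_lit 3926559198) (nat_lit 331) (nat_lit 5) (nat_lit 341) (nat_lit 5) (nat_lit 332) (nat_lit 5) (nat_lit 461) (nat_lit 408) (nat_lit 271))) (XT.nd (nat_lit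 78) (nat_lit 0) (nat_lit 0) (XT.lf (nat_lit 0) (nat_lit 2817247639) (nat_lit 684) (nat_lit 3692580610) (nat_lit 760) (nat_lit 6475404996) (nat_lit 322) (nat_lit 5) (nat_lit 331) (nat_lit 5) (nat_lit 332) (nat_lit 5) (nat_lit 462) (nat_lit 408) (nat_lit 270)) (XT.lf (nat_lit 0) (nat_lit 9187375417) (nat_lit 760) (nat_lit 2291862689) (nat_lit 76) (nat_lit 1647725533) (nat_lit 322) (nat_lit 5) (nat_lit 332) (nat_lit 5) (nat_lit 323) (nat_lit 5) (nat_lit 463) (nat_lit 408) (nat_lit 269))))))))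
noncomputable def xc99 : XT := (XT.nd (nat_lit 56238) (nat_lit 0) (nat_lit 11096) (XT.nd (nat_lit 55224) (nat_lit 0) (nat_lit 24852) (XT.nd (nat_lit 468) (nat_lit 1748) (nat_lit 0) (XT.nd (nat_lit 234) (nat_lit 1216) (nat_lit 0) (XT.nd (nat_lit 78) (nat_lit 684) (nat_lit 0) (XT.lf (nat_lit 0) (nat_lit 5775785838) (nat_lit 608) (nat_lit 6190660757) (nat_lit 684) (nat_lit 1304122582) (nat_lit 314) (nat_lit 5) (nat_lit 322) (nat_lit 5) (nat_lit 323) (nat_lit 5) (nat_lit 464) (nat_lit 408) (nat_lit 268)) (XT.nd (nat_lit 78) (nat_lit 0) (nat_lit 0) (XT.lf (nat_lit 0) (nat_lit 600538807) (nat_lit 608) (nat_lit 770831768) (nat_lit 684) (nat_lit 12045387124) (nat_lit 305) (nat_lit 5) (nat_lit 313) (nat_lit 5) (nat_lit 314) (nat_lit 5) (nat_lit 465) (nat_lit 408) (nat_lit 267)) (XT.lf (nat_lit 0) (nat_lit 4150670661) (nat_lit 684) (nat_lit 4662863011) (nat_lit 76) (nat_lit 4750808728) (nat_lit 305) (nat_lit 5) (nat_lit 314) (nat_lit 5) (nat_lit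 306) (nat_lit 5) (nat_lit 466) (nat_lit 408) (nat_lit 266)))) (XT.nd (nat_lit 78) (nat_lit 608) (nat_lit 0) (XT.lf (nat_lit 0) (nat_lit 3679554082) (nat_lit 608) (nat_lit 3321495435) (nat_lit 684) (nat_lit 6713519422) (nat_lit 297) (nat_lit 5) (nat_lit 305) (nat_lit 5) (nat_lit 306) (nat_lit 5) (nat_lit 467) (nat_lit 408) (nat_lit 265)) (XT.nd (nat_lit 78) (nat_lit 608) (nat_lit 0) (XT.lf (nat_lit 0) (nat_lit 9941367079) (nat_lit 684) (nat_lit 1647450472) (nat_lit 76) (nat_lit 2278323836) (nat_lit 297) (nat_lit 5) (nat_lit 306) (nat_lit 5) (nat_lit 298) (nat_lit 5) (nat_lit 468) (nat_lit 408) (nat_lit 264)) (XT.lf (nat_lit 0) (nat_lit 6960202718) (nat_lit 608) (nat_lit 6034365262) (nat_lit 684) (nat_lit 1027115763) (nat_lit 289) (nat_lit 5) (nat_lit 297) (nat_lit 5) (nat_lit 298) (nat_lit 5) (nat_lit 469) (nat_lit 408) (nat_lit 263))))) (XT.nd (nat_lit 234) (nat_lit 532) (nat_lit 0) (XT.nd (nat_lit 78) (nat_lit 608) (nat_lit 0) (XT.lf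 (nat_lit 0) (nat_lit 1574278771) (nat_lit 532) (nat_lit 338232933) (nat_lit 608) (nat_lit 12266388656) (nat_lit 281) (nat_lit 5) (nat_lit 288) (nat_lit 5) (nat_lit 289) (nat_lit 5) (nat_lit 470) (nat_lit 408) (nat_lit 262)) (XT.nd (nat_lit 78) (nat_lit 608) (nat_lit 0) (XT.lf (nat_lit 0) (nat_lit 4967490391) (nat_lit 608) (nat_lit 3919614371) (nat_lit 76) (nat_lit 5450614526) (nat_lit 281) (nat_lit 5) (nat_lit 289) (nat_lit 5) (nat_lit 282) (nat_lit 5) (nat_lit 471) (nat_lit 408) (nat_lit 261)) (XT.lf (nat_lit 0) (nat_lit 4985441748) (nat_lit 608) (nat_lit 3120061263) (nat_lit 684) (nat_lit 6393772898) (nat_lit 273) (nat_lit 5) (nat_lit 281) (nat_lit 5) (nat_lit 282) (nat_lit 5) (nat_lit 472) (nat_lit 408) (nat_lit 260)))) (XT.nd (nat_lit 54366) (nat_lit 0) (nat_lit 27588) (XT.nd (nat_lit 78) (nat_lit 532) (nat_lit 0) (XT.lf (nat_lit 0) (nat_lit 11338126424) (nat_lit 684) (nat_lit 576825720) (nat_lit 76) (nat_lit 2748474507) (nat_lit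 273) (nat_lit 5) (nat_lit 282) (nat_lit 5) (nat_lit 274) (nat_lit 5) (nat_lit 473) (nat_lit 408) (nat_lit 259)) (XT.lf (nat_lit 0) (nat_lit 8614665192) (nat_lit 532) (nat_lit 6085017026) (nat_lit 608) (nat_lit 129892591) (nat_lit 266) (nat_lit 5) (nat_lit 273) (nat_lit 5) (nat_lit 274) (nat_lit 5) (nat_lit 474) (nat_lit 408) (nat_lit 258))) (XT.nd (nat_lit 78) (nat_lit 0) (nat_lit 0) (XT.lf (nat_lit 0) (nat_lit 3231422082) (nat_lit 1444) (nat_lit 394621124) (nat_lit 1444) (nat_lit 394621124) (nat_lit 629) (nat_lit 3) (nat_lit 648) (nat_lit 3) (nat_lit 648) (nat_lit 5) (nat_lit 409) (nat_lit 409) (nat_lit 322)) (XT.lf (nat_lit 76) (nat_lit 3274365980) (nat_lit 0) (nat_lit 4471141058) (nat_lit 1444) (nat_lit 351874221) (nat_lit 630) (nat_lit 5) (nat_lit 629) (nat_lit 3) (nat_lit 648) (nat_lit 5) (nat_lit 410) (nat_lit 409) (nat_lit 321)))))) (XT.nd (nat_lit 468) (nat_lit 1292) (nat_lit 0) (XT.nd (nat_lit 234) (nat_lit 0) (nat_lit 76) (XT.nd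 (nat_lit 78) (nat_lit 0) (nat_lit 76) (XT.lf (nat_lit 0) (nat_lit 861099741) (nat_lit 1444) (nat_lit 747021898) (nat_lit 1520) (nat_lit 6546843986) (nat_lit 610) (nat_lit 5) (nat_lit 629) (nat_lit 3) (nat_lit 630) (nat_lit 5) (nat_lit 411) (nat_lit 409) (nat_lit 320)) (XT.nd (nat_lit 78) (nat_lit 0) (nat_lit 0) (XT.lf (nat_lit 0) (nat_lit 2093635162) (nat_lit 1444) (nat_lit 4785689678) (nat_lit 1520) (nat_lit 1334330051) (nat_lit 611) (nat_lit 5) (nat_lit 630) (nat_lit 5) (nat_lit 631) (nat_lit 5) (nat_lit 412) (nat_lit 409) (nat_lit 319)) (XT.lf (nat_lit 0) (nat_lit 3336030674) (nat_lit 1444) (nat_lit 604437689) (nat_lit 1520) (nat_lit 4333345388) (nat_lit 611) (nat_lit 5) (nat_lit 630) (nat_lit 5) (nat_lit 631) (nat_lit 5) (nat_lit 413) (nat_lit 409) (nat_lit 318)))) (XT.nd (nat_lit 78) (nat_lit 0) (nat_lit 76) (XT.lf (nat_lit 76) (nat_lit 3692280791) (nat_lit 0) (nat_lit 905077280) (nat_lit 1520) (nat_lit 3737936040) (nat_lit 612)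 (nat_lit 5) (nat_lit 611) (nat_lit 5) (nat_lit 631) (nat_lit 5) (nat_lit 414) (nat_lit 409) (nat_lit 317)) (XT.nd (nat_lit 78) (nat_lit 0) (nat_lit 0) (XT.lf (nat_lit 0) (nat_lit 5872894854) (nat_lit 1444) (nat_lit 346194979) (nat_lit 1520) (nat_lit 2179134588) (nat_lit 612) (nat_lit 5) (nat_lit 631) (nat_lit 5) (nat_lit 632) (nat_lit 5) (nat_lit 415) (nat_lit 409) (nat_lit 316)) (XT.lf (nat_lit 76) (nat_lit 4067096194) (nat_lit 0) (nat_lit 3110495681) (nat_lit 1520) (nat_lit 1284748473) (nat_lit 613) (nat_lit 5) (nat_lit 612) (nat_lit 5) (nat_lit 632) (nat_lit 5) (nat_lit 416) (nat_lit 409) (nat_lit 315))))) (XT.nd (nat_lit 234) (nat_lit 0) (nat_lit 76) (XT.nd (nat_lit 78) (nat_lit 1520) (nat_lit 0) (XT.lf (nat_lit 76) (nat_lit 28277042) (nat_lit 0) (nat_lit 8454799166) (nat_lit 1520) (nat_lit 45168517) (nat_lit 614) (nat_lit 5) (nat_lit 613) (nat_lit 5) (nat_lit 633) (nat_lit 5) (nat_lit 417) (nat_lit 409) (nat_lit 314)) (XT.nd (nat_lit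 78) (nat_lit 0) (nat_lit 0) (XT.lf (nat_lit 0) (nat_lit 1225539458) (nat_lit 1520) (nat_lit 4041338924) (nat_lit 1596) (nat_lit 3327983961) (nat_lit 593) (nat_lit 5) (nat_lit 613) (nat_lit 5) (nat_lit 614) (nat_lit 5) (nat_lit 418) (nat_lit 409) (nat_lit 313)) (XT.lf (nat_lit 76) (nat_lit 495407239) (nat_lit 0) (nat_lit 2001452359) (nat_lit 1596) (nat_lit 6166430686) (nat_lit 594) (nat_lit 5) (nat_lit 593) (nat_lit 5) (nat_lit 614) (nat_lit 5) (nat_lit 419) (nat_lit 409) (nat_lit 312)))) (XT.nd (nat_lit 156) (nat_lit 0) (nat_lit 0) (XT.nd (nat_lit 78) (nat_lit 0) (nat_lit 0) (XT.lf (nat_lit 0) (nat_lit 3802611762) (nat_lit 1520) (nat_lit 3581428426) (nat_lit 1596) (nat_lit 1348866486) (nat_lit 594) (nat_lit 5) (nat_lit 614) (nat_lit 5) (nat_lit 615) (nat_lit 5) (nat_lit 420) (nat_lit 409) (nat_lit 311)) (XT.lf (nat_lit 76) (nat_lit 1080272934) (nat_lit 0) (nat_lit 4048078384) (nat_lit 1596) (nat_lit 3675686625) (nat_lit 595) (nat_lit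 5) (nat_lit 594) (nat_lit 5) (nat_lit 615) (nat_lit 5) (nat_lit 421) (nat_lit 409) (nat_lit 310))) (XT.nd (nat_lit 78) (nat_lit 0) (nat_lit 76) (XT.lf (nat_lit 76) (nat_lit 5866474297) (nat_lit 0) (nat_lit 612173857) (nat_lit 1596) (nat_lit 2397982834) (nat_lit 595) (nat_lit 5) (nat_lit 594) (nat_lit 5) (nat_lit 615) (nat_lit 5) (nat_lit 422) (nat_lit 409) (nat_lit 309)) (XT.lf (nat_lit 76) (nat_lit 1784845218) (nat_lit 0) (nat_lit 6076048088) (nat_lit 1596) (nat_lit 1089683741) (nat_lit 596) (nat_lit 5) (nat_lit 595) (nat_lit 5) (nat_lit 616) (nat_lit 5) (nat_lit 423) (nat_lit 409) (nat_lit 308))))))) (XT.nd (nat_lit 1014) (nat_lit 7524) (nat_lit 0) (XT.nd (nat_lit 468) (nat_lit 4788) (nat_lit 0) (XT.nd (nat_lit 234) (nat_lit 0) (nat_lit 76) (XT.nd (nat_lit 78) (nat_lit 0) (nat_lit 76) (XT.lf (nat_lit 0) (nat_lit 240752697) (nat_lit 1596) (nat_lit 2332551824) (nat_lit 1672) (nat_lit 6452682085) (nat_lit 574) (nat_lit 5) (nat_lit 595)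 (nat_lit 5) (nat_lit 596) (nat_lit 5) (nat_lit 424) (nat_lit 409) (nat_lit 307)) (XT.nd (nat_lit 78) (nat_lit 0) (nat_lit 0) (XT.lf (nat_lit 0) (nat_lit 1582131441) (nat_lit 1596) (nat_lit 6502727154) (nat_lit 1672) (nat_lit 1017923217) (nat_lit 575) (nat_lit 5) (nat_lit 596) (nat_lit 5) (nat_lit 597) (nat_lit 5) (nat_lit 425) (nat_lit 409) (nat_lit 306)) (XT.lf (nat_lit 0) (nat_lit 2958842505) (nat_lit 1596) (nat_lit 1552811674) (nat_lit 1672) (nat_lit 4669288648) (nat_lit 575) (nat_lit 5) (nat_lit 596) (nat_lit 5) (nat_lit 597) (nat_lit 5) (nat_lit 426) (nat_lit 409) (nat_lit 305)))) (XT.nd (nat_lit 78) (nat_lit 0) (nat_lit 76) (XT.lf (nat_lit 76) (nat_lit 3524882546) (nat_lit 0) (nat_lit 837274142) (nat_lit 1672) (nat_lit 4898528997) (nat_lit 576) (nat_lit 5) (nat_lit 575) (nat_lit 5) (nat_lit 597) (nat_lit 5) (nat_lit 427) (nat_lit 409) (nat_lit 304)) (XT.nd (nat_lit 78) (nat_lit 0) (nat_lit 0) (XT.lf (nat_lit 0) (nat_lit 5799501116)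 (nat_lit 1596) (nat_lit 653445366) (nat_lit 1672) (nat_lit 2888957638) (nat_lit 576) (nat_lit 5) (nat_lit 597) (nat_lit 5) (nat_lit 598) (nat_lit 5) (nat_lit 428) (nat_lit 409) (nat_lit 303)) (XT.lf (nat_lit 76) (nat_lit 4567423874) (nat_lit 0) (nat_lit 2710404701) (nat_lit 1672) (nat_lit 2146673627) (nat_lit 577) (nat_lit 5) (nat_lit 576) (nat_lit 5) (nat_lit 598) (nat_lit 5) (nat_lit 429) (nat_lit 409) (nat_lit 302))))) (XT.nd (nat_lit 234) (nat_lit 3344) (nat_lit 0) (XT.nd (nat_lit 78) (nat_lit 1672) (nat_lit 0) (XT.lf (nat_lit 76) (nat_lit 372710487) (nat_lit 0) (nat_lit 8404441320) (nat_lit 1672) (nat_lit 731771853) (nat_lit 578) (nat_lit 5) (nat_lit 577) (nat_lit 5) (nat_lit 599) (nat_lit 5) (nat_lit 430) (nat_lit 409) (nat_lit 301)) (XT.nd (nat_lit 78) (nat_lit 0) (nat_lit 0) (XT.lf (nat_lit 0) (nat_lit 730444899) (nat_lit 1672) (nat_lit 3862277460) (nat_lit 1748) (nat_lit 5001651857) (nat_lit 555) (nat_lit 5) (nat_lit 577) (nat_lit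 5) (nat_lit 578) (nat_lit 5) (nat_lit 431) (nat_lit 409) (nat_lit 300)) (XT.lf (nat_lit 76) (nat_lit 1514461840) (nat_lit 0) (nat_lit 685515562) (nat_lit 1748) (nat_lit 7481702246) (nat_lit 556) (nat_lit 5) (nat_lit 555) (nat_lit 5) (nat_lit 578) (nat_lit 5) (nat_lit 432) (nat_lit 409) (nat_lit 299)))) (XT.nd (nat_lit 156) (nat_lit 1748) (nat_lit 0) (XT.nd (nat_lit 78) (nat_lit 1672) (nat_lit 0) (XT.lf (nat_lit 0) (nat_lit 3724785834) (nat_lit 1672) (nat_lit 2758753685) (nat_lit 76) (nat_lit 3286673963) (nat_lit 556) (nat_lit 5) (nat_lit 578) (nat_lit 5) (nat_lit 557) (nat_lit 5) (nat_lit 433) (nat_lit 409) (nat_lit 298)) (XT.lf (nat_lit 0) (nat_lit 2772014361) (nat_lit 1672) (nat_lit 2509408767) (nat_lit 1748) (nat_lit 4579068211) (nat_lit 534) (nat_lit 5) (nat_lit 556) (nat_lit 5) (nat_lit 557) (nat_lit 5) (nat_lit 434) (nat_lit 409) (nat_lit 297))) (XT.nd (nat_lit 78) (nat_lit 1748) (nat_lit 0) (XT.lf (nat_lit 0) (nat_lit 6876972977)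 (nat_lit 1748) (nat_lit 1529564105) (nat_lit 76) (nat_lit 1545882076) (nat_lit 534) (nat_lit 5) (nat_lit 557) (nat_lit 5) (nat_lit 535) (nat_lit 5) (nat_lit 435) (nat_lit 409) (nat_lit 296)) (XT.lf (nat_lit 0) (nat_lit 4160827043) (nat_lit 1748) (nat_lit 4366768186) (nat_lit 1824) (nat_lit 1518127075) (nat_lit 511) (nat_lit 5) (nat_lit 534) (nat_lit 5) (nat_lit 535) (nat_lit 5) (nat_lit 436) (nat_lit 409) (nat_lit 295)))))) (XT.nd (nat_lit 468) (nat_lit 3572) (nat_lit 0) (XT.nd (nat_lit 234) (nat_lit 912) (nat_lit 0) (XT.nd (nat_lit 78) (nat_lit 2964) (nat_lit 0) (XT.lf (nat_lit 0) (nat_lit 59429914) (nat_lit 1824) (nat_lit 173256497) (nat_lit 76) (nat_lit 9908395690) (nat_lit 510) (nat_lit 5) (nat_lit 534) (nat_lit 5) (nat_lit 511) (nat_lit 5) (nat_lit 437) (nat_lit 409) (nat_lit 294)) (XT.nd (nat_lit 78) (nat_lit 1140) (nat_lit 0) (XT.lf (nat_lit 0) (nat_lit 1691511766) (nat_lit 1900) (nat_lit 4564141431) (nat_lit 76) (nat_lit 3981629170)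 (nat_lit 486) (nat_lit 5) (nat_lit 511) (nat_lit 5) (nat_lit 487) (nat_lit 5) (nat_lit 438) (nat_lit 409) (nat_lit 293)) (XT.lf (nat_lit 0) (nat_lit 1301199189) (nat_lit 1140) (nat_lit 2046568797) (nat_lit 1216) (nat_lit 6987807998) (nat_lit 471) (nat_lit 5) (nat_lit 486) (nat_lit 5) (nat_lit 487) (nat_lit 5) (nat_lit 439) (nat_lit 409) (nat_lit 292)))) (XT.nd (nat_lit 78) (nat_lit 912) (nat_lit 0) (XT.lf (nat_lit 0) (nat_lit 5063221729) (nat_lit 1216) (nat_lit 3122328665) (nat_lit 76) (nat_lit 2249763631) (nat_lit 471) (nat_lit 5) (nat_lit 487) (nat_lit 5) (nat_lit 472) (nat_lit 5) (nat_lit 440) (nat_lit 409) (nat_lit 291)) (XT.nd (nat_lit 78) (nat_lit 0) (nat_lit 0) (XT.lf (nat_lit 0) (nat_lit 2914960133) (nat_lit 912) (nat_lit 3911537748) (nat_lit 988) (nat_lit 3710278680) (nat_lit 459) (nat_lit 5) (nat_lit 471) (nat_lit 5) (nat_lit 472) (nat_lit 5) (nat_lit 441) (nat_lit 409) (nat_lit 290)) (XT.lf (nat_lit 0) (nat_lit 8630338564)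 (nat_lit 988) (nat_lit 1545520181) (nat_lit 76) (nat_lit 464303621) (nat_lit 459) (nat_lit 5) (nat_lit 472) (nat_lit 5) (nat_lit 460) (nat_lit 5) (nat_lit 442) (nat_lit 409) (nat_lit 289))))) (XT.nd (nat_lit 234) (nat_lit 1748) (nat_lit 0) (XT.nd (nat_lit 78) (nat_lit 912) (nat_lit 0) (XT.lf (nat_lit 0) (nat_lit 4670055801) (nat_lit 912) (nat_lit 5838091620) (nat_lit 988) (nat_lit 236710641) (nat_lit 447) (nat_lit 5) (nat_lit 459) (nat_lit 5) (nat_lit 460) (nat_lit 5) (nat_lit 443) (nat_lit 409) (nat_lit 288)) (XT.nd (nat_lit 78) (nat_lit 0) (nat_lit 0) (XT.lf (nat_lit 0) (nat_lit 153474735) (nat_lit 836) (nat_lit 1391003436) (nat_lit 912) (nat_lit 9307100814) (nat_lit 435) (nat_lit 5) (nat_lit 446) (nat_lit 5) (nat_lit 447) (nat_lit 5) (nat_lit 444) (nat_lit 409) (nat_lit 287)) (XT.lf (nat_lit 0) (nat_lit 3401616247) (nat_lit 912) (nat_lit 4411175334) (nat_lit 76) (nat_lit 3146741552) (nat_lit 435) (nat_lit 5) (nat_lit 447) (nat_lit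 5) (nat_lit 436) (nat_lit 5) (nat_lit 445) (nat_lit 409) (nat_lit 286)))) (XT.nd (nat_lit 156) (nat_lit 836) (nat_lit 0) (XT.nd (nat_lit 78) (nat_lit 0) (nat_lit 0) (XT.lf (nat_lit 0) (nat_lit 2000912802) (nat_lit 912) (nat_lit 3299577075) (nat_lit 988) (nat_lit 5769064631) (nat_lit 423) (nat_lit 5) (nat_lit 435) (nat_lit 5) (nat_lit 436) (nat_lit 5) (nat_lit 446) (nat_lit 409) (nat_lit 285)) (XT.lf (nat_lit 0) (nat_lit 7258224691) (nat_lit 988) (nat_lit 2606649487) (nat_lit 76) (nat_lit 1316484459) (nat_lit 423) (nat_lit 5) (nat_lit 436) (nat_lit 5) (nat_lit 424) (nat_lit 5) (nat_lit 447) (nat_lit 409) (nat_lit 284))) (XT.nd (nat_lit 78) (nat_lit 0) (nat_lit 0) (XT.lf (nat_lit 0) (nat_lit 3997670339) (nat_lit 836) (nat_lit 5288212234) (nat_lit 912) (nat_lit 2008900907) (nat_lit 412) (nat_lit 5) (nat_lit 423) (nat_lit 5) (nat_lit 424) (nat_lit 5) (nat_lit 448) (nat_lit 409) (nat_lit 283)) (XT.lf (nat_lit 0) (nat_lit 10752034556) (nat_lit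 836) (nat_lit 602733668) (nat_lit 912) (nat_lit 55695105) (nat_lit 412) (nat_lit 5) (nat_lit 423) (nat_lit 5) (nat_lit 424) (nat_lit 5) (nat_lit 449) (nat_lit 409) (nat_lit 282))))))))
noncomputable def xc100 : XT := (XT.nd (nat_lit 56316) (nat_lit 0) (nat_lit 20368) (XT.nd (nat_lit 1014) (nat_lit 4940) (nat_lit 0) (XT.nd (nat_lit 468) (nat_lit 2888) (nat_lit 0) (XT.nd (nat_lit 234) (nat_lit 1596) (nat_lit 0) (XT.nd (nat_lit 78) (nat_lit 760) (nat_lit 0) (XT.lf (nat_lit 0) (nat_lit 1962060865) (nat_lit 912) (nat_lit 5391154570) (nat_lit 76) (nat_lit 4173972177) (nat_lit 400) (nat_lit 5) (nat_lit 412) (nat_lit 5) (nat_lit 401) (nat_lit 5) (nat_lit 450) (nat_lit 409) (nat_lit 281)) (XT.nd (nat_lit 78) (nat_lit 0) (nat_lit 0) (XT.lf (nat_lit 0) (nat_lit 1425998887) (nat_lit 760) (nat_lit 2594738197) (nat_lit 836) (nat_lit 7625475716) (nat_lit 390) (nat_lit 5) (nat_lit 400) (nat_lit 5) (nat_lit 401) (nat_lit 5) (nat_lit 451) (nat_lit 409)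 (nat_lit 280)) (XT.lf (nat_lit 0) (nat_lit 6155483687) (nat_lit 836) (nat_lit 3346892890) (nat_lit 76) (nat_lit 2264543977) (nat_lit 390) (nat_lit 5) (nat_lit 401) (nat_lit 5) (nat_lit 391) (nat_lit 5) (nat_lit 452) (nat_lit 409) (nat_lit 279)))) (XT.nd (nat_lit 78) (nat_lit 836) (nat_lit 0) (XT.lf (nat_lit 0) (nat_lit 3677623987) (nat_lit 760) (nat_lit 4680493345) (nat_lit 836) (nat_lit 3531421290) (nat_lit 380) (nat_lit 5) (nat_lit 390) (nat_lit 5) (nat_lit 391) (nat_lit 5) (nat_lit 453) (nat_lit 409) (nat_lit 278)) (XT.nd (nat_lit 78) (nat_lit 836) (nat_lit 0) (XT.lf (nat_lit 0) (nat_lit 10613276253) (nat_lit 836) (nat_lit 1145362566) (nat_lit 76) (nat_lit 255800780) (nat_lit 380) (nat_lit 5) (nat_lit 391) (nat_lit 5) (nat_lit 381) (nat_lit 5) (nat_lit 454) (nat_lit 409) (nat_lit 277)) (XT.lf (nat_lit 0) (nat_lit 817136839) (nat_lit 836) (nat_lit 6051824823) (nat_lit 76) (nat_lit 5271665564) (nat_lit 369) (nat_lit 5) (nat_lit 380)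 (nat_lit 5) (nat_lit 370) (nat_lit 5) (nat_lit 455) (nat_lit 409) (nat_lit 276))))) (XT.nd (nat_lit 234) (nat_lit 1444) (nat_lit 0) (XT.nd (nat_lit 78) (nat_lit 684) (nat_lit 0) (XT.lf (nat_lit 0) (nat_lit 1203185451) (nat_lit 760) (nat_lit 1858140222) (nat_lit 836) (nat_lit 9207822015) (nat_lit 359) (nat_lit 5) (nat_lit 369) (nat_lit 5) (nat_lit 370) (nat_lit 5) (nat_lit 456) (nat_lit 409) (nat_lit 275)) (XT.nd (nat_lit 78) (nat_lit 684) (nat_lit 0) (XT.lf (nat_lit 0) (nat_lit 5397291099) (nat_lit 836) (nat_lit 3752916186) (nat_lit 76) (nat_lit 3249093419) (nat_lit 359) (nat_lit 5) (nat_lit 370) (nat_lit 5) (nat_lit 360) (nat_lit 5) (nat_lit 457) (nat_lit 409) (nat_lit 274)) (XT.lf (nat_lit 0) (nat_lit 3725861409) (nat_lit 684) (nat_lit 4075799934) (nat_lit 760) (nat_lit 4729961724) (nat_lit 350) (nat_lit 5) (nat_lit 359) (nat_lit 5) (nat_lit 360) (nat_lit 5) (nat_lit 458) (nat_lit 409) (nat_lit 273)))) (XT.nd (nat_lit 156) (nat_lit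 684) (nat_lit 0) (XT.nd (nat_lit 78) (nat_lit 760) (nat_lit 0) (XT.lf (nat_lit 0) (nat_lit 10271966505) (nat_lit 760) (nat_lit 1285565315) (nat_lit 76) (nat_lit 1108703110) (nat_lit 350) (nat_lit 5) (nat_lit 360) (nat_lit 5) (nat_lit 351) (nat_lit 5) (nat_lit 459) (nat_lit 409) (nat_lit 272)) (XT.lf (nat_lit 0) (nat_lit 43005547) (nat_lit 760) (nat_lit 6377337581) (nat_lit 76) (nat_lit 6382103215) (nat_lit 340) (nat_lit 5) (nat_lit 350) (nat_lit 5) (nat_lit 341) (nat_lit 5) (nat_lit 460) (nat_lit 409) (nat_lit 271))) (XT.nd (nat_lit 78) (nat_lit 0) (nat_lit 0) (XT.lf (nat_lit 0) (nat_lit 1351024484) (nat_lit 684) (nat_lit 1149146725) (nat_lit 760) (nat_lit 10440830145) (nat_lit 331) (nat_lit 5) (nat_lit 340) (nat_lit 5) (nat_lit 341) (nat_lit 5) (nat_lit 461) (nat_lit 409) (nat_lit 270)) (XT.lf (nat_lit 0) (nat_lit 5062878641) (nat_lit 760) (nat_lit 3805948924) (nat_lit 76) (nat_lit 4212371932) (nat_lit 331) (nat_lit 5) (nat_lit 341)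 (nat_lit 5) (nat_lit 332) (nat_lit 5) (nat_lit 462) (nat_lit 409) (nat_lit 269)))))) (XT.nd (nat_lit 468) (nat_lit 2356) (nat_lit 0) (XT.nd (nat_lit 234) (nat_lit 1292) (nat_lit 0) (XT.nd (nat_lit 78) (nat_lit 608) (nat_lit 0) (XT.lf (nat_lit 0) (nat_lit 4163949828) (nat_lit 684) (nat_lit 3533684962) (nat_lit 760) (nat_lit 5526150921) (nat_lit 322) (nat_lit 5) (nat_lit 331) (nat_lit 5) (nat_lit 332) (nat_lit 5) (nat_lit 463) (nat_lit 409) (nat_lit 268)) (XT.nd (nat_lit 78) (nat_lit 608) (nat_lit 0) (XT.lf (nat_lit 0) (nat_lit 10409476970) (nat_lit 760) (nat_lit 1053387898) (nat_lit 76) (nat_lit 1905870963) (nat_lit 322) (nat_lit 5) (nat_lit 332) (nat_lit 5) (nat_lit 323) (nat_lit 5) (nat_lit 464) (nat_lit 409) (nat_lit 267)) (XT.lf (nat_lit 0) (nat_lit 7167164179) (nat_lit 608) (nat_lit 6064889256) (nat_lit 684) (nat_lit 283401568) (nat_lit 314) (nat_lit 5) (nat_lit 322) (nat_lit 5) (nat_lit 323) (nat_lit 5) (nat_lit 465) (nat_lit 409)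 (nat_lit 266)))) (XT.nd (nat_lit 78) (nat_lit 608) (nat_lit 0) (XT.lf (nat_lit 0) (nat_lit 1893657067) (nat_lit 608) (nat_lit 526276807) (nat_lit 684) (nat_lit 11244736261) (nat_lit 305) (nat_lit 5) (nat_lit 313) (nat_lit 5) (nat_lit 314) (nat_lit 5) (nat_lit 466) (nat_lit 409) (nat_lit 265)) (XT.nd (nat_lit 78) (nat_lit 608) (nat_lit 0) (XT.lf (nat_lit 0) (nat_lit 5236452501) (nat_lit 684) (nat_lit 3481765081) (nat_lit 76) (nat_lit 5097356297) (nat_lit 305) (nat_lit 5) (nat_lit 314) (nat_lit 5) (nat_lit 306) (nat_lit 5) (nat_lit 467) (nat_lit 409) (nat_lit 264)) (XT.lf (nat_lit 0) (nat_lit 5019116438) (nat_lit 608) (nat_lit 3113279896) (nat_lit 684) (nat_lit 5836637468) (nat_lit 297) (nat_lit 5) (nat_lit 305) (nat_lit 5) (nat_lit 306) (nat_lit 5) (nat_lit 468) (nat_lit 409) (nat_lit 263))))) (XT.nd (nat_lit 234) (nat_lit 1140) (nat_lit 0) (XT.nd (nat_lit 78) (nat_lit 1216) (nat_lit 0) (XT.lf (nat_lit 0) (nat_lit 11113830702) (nat_lit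 684) (nat_lit 421561628) (nat_lit 76) (nat_lit 2589619159) (nat_lit 297) (nat_lit 5) (nat_lit 306) (nat_lit 5) (nat_lit 298) (nat_lit 5) (nat_lit 469) (nat_lit 409) (nat_lit 262)) (XT.nd (nat_lit 78) (nat_lit 608) (nat_lit 0) (XT.lf (nat_lit 0) (nat_lit 8349962798) (nat_lit 608) (nat_lit 5867161355) (nat_lit 684) (nat_lit 65739970) (nat_lit 289) (nat_lit 5) (nat_lit 297) (nat_lit 5) (nat_lit 298) (nat_lit 5) (nat_lit 470) (nat_lit 409) (nat_lit 261)) (XT.lf (nat_lit 0) (nat_lit 2860886338) (nat_lit 532) (nat_lit 48063976) (nat_lit 608) (nat_lit 11534364287) (nat_lit 281) (nat_lit 5) (nat_lit 288) (nat_lit 5) (nat_lit 289) (nat_lit 5) (nat_lit 471) (nat_lit 409) (nat_lit 260)))) (XT.nd (nat_lit 156) (nat_lit 532) (nat_lit 0) (XT.nd (nat_lit 78) (nat_lit 608) (nat_lit 0) (XT.lf (nat_lit 0) (nat_lit 6008130655) (nat_lit 608) (nat_lit 2750596983) (nat_lit 76) (nat_lit 5846920227) (nat_lit 281) (nat_lit 5) (nat_lit 289) (nat_lit 5) (nat_lit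 282) (nat_lit 5) (nat_lit 472) (nat_lit 409) (nat_lit 259)) (XT.lf (nat_lit 0) (nat_lit 6324353616) (nat_lit 608) (nat_lit 2874138964) (nat_lit 684) (nat_lit 5572151257) (nat_lit 273) (nat_lit 5) (nat_lit 281) (nat_lit 5) (nat_lit 282) (nat_lit 5) (nat_lit 473) (nat_lit 409) (nat_lit 258))) (XT.nd (nat_lit 54366) (nat_lit 0) (nat_lit 26144) (XT.lf (nat_lit 0) (nat_lit 651375557) (nat_lit 532) (nat_lit 11832332115) (nat_lit 608) (nat_lit 2454611137) (nat_lit 266) (nat_lit 5) (nat_lit 273) (nat_lit 5) (nat_lit 274) (nat_lit 5) (nat_lit 474) (nat_lit 409) (nat_lit 257)) (XT.lf (nat_lit 0) (nat_lit 202537602) (nat_lit 0) (nat_lit 202537602) (nat_lit 1444) (nat_lit 3672116064) (nat_lit 610) (nat_lit 5) (nat_lit 610) (nat_lit 3) (nat_lit 629) (nat_lit 3) (nat_lit 410) (nat_lit 410) (nat_lit 320))))))) (XT.nd (nat_lit 1014) (nat_lit 4408) (nat_lit 0) (XT.nd (nat_lit 468) (nat_lit 1368) (nat_lit 0) (XT.nd (nat_lit 234) (nat_lit 0) (nat_lit 76)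 (XT.nd (nat_lit 78) (nat_lit 0) (nat_lit 0) (XT.lf (nat_lit 0) (nat_lit 2000491305) (nat_lit 1444) (nat_lit 3681046556) (nat_lit 1520) (nat_lit 2530743714) (nat_lit 610) (nat_lit 5) (nat_lit 629) (nat_lit 3) (nat_lit 630) (nat_lit 5) (nat_lit 411) (nat_lit 410) (nat_lit 319)) (XT.nd (nat_lit 78) (nat_lit 0) (nat_lit 76) (XT.lf (nat_lit 76) (nat_lit 455878092) (nat_lit 0) (nat_lit 2733928820) (nat_lit 1520) (nat_lit 5082028323) (nat_lit 611) (nat_lit 5) (nat_lit 610) (nat_lit 5) (nat_lit 630) (nat_lit 5) (nat_lit 412) (nat_lit 410) (nat_lit 318)) (XT.lf (nat_lit 0) (nat_lit 4399655529) (nat_lit 1444) (nat_lit 3625164316) (nat_lit 1520) (nat_lit 307825189) (nat_lit 611) (nat_lit 5) (nat_lit 630) (nat_lit 5) (nat_lit 631) (nat_lit 5) (nat_lit 413) (nat_lit 410) (nat_lit 317)))) (XT.nd (nat_lit 78) (nat_lit 0) (nat_lit 0) (XT.lf (nat_lit 76) (nat_lit 623254668) (nat_lit 0) (nat_lit 5003295814) (nat_lit 1520) (nat_lit 2768263561) (nat_lit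 612) (nat_lit 5) (nat_lit 611) (nat_lit 5) (nat_lit 631) (nat_lit 5) (nat_lit 414) (nat_lit 410) (nat_lit 316)) (XT.nd (nat_lit 78) (nat_lit 0) (nat_lit 76) (XT.lf (nat_lit 76) (nat_lit 4989630744) (nat_lit 0) (nat_lit 1883846341) (nat_lit 1520) (nat_lit 1584839471) (nat_lit 612) (nat_lit 5) (nat_lit 611) (nat_lit 5) (nat_lit 631) (nat_lit 5) (nat_lit 415) (nat_lit 410) (nat_lit 315)) (XT.lf (nat_lit 76) (nat_lit 907235624) (nat_lit 0) (nat_lit 7224237464) (nat_lit 1520) (nat_lit 391893415) (nat_lit 613) (nat_lit 5) (nat_lit 612) (nat_lit 5) (nat_lit 632) (nat_lit 5) (nat_lit 416) (nat_lit 410) (nat_lit 314))))) (XT.nd (nat_lit 234) (nat_lit 0) (nat_lit 76) (XT.nd (nat_lit 78) (nat_lit 0) (nat_lit 0) (XT.lf (nat_lit 0) (nat_lit 822075100) (nat_lit 1520) (nat_lit 3206286702) (nat_lit 1596) (nat_lit 4561088881) (nat_lit 592) (nat_lit 5) (nat_lit 612) (nat_lit 5) (nat_lit 613) (nat_lit 5) (nat_lit 417) (nat_lit 410) (nat_lit 313)) (XT.nd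 (nat_lit 78) (nat_lit 0) (nat_lit 76) (XT.lf (nat_lit 76) (nat_lit 1289658035) (nat_lit 0) (nat_lit 746418992) (nat_lit 1596) (nat_lit 6621107681) (nat_lit 593) (nat_lit 5) (nat_lit 592) (nat_lit 5) (nat_lit 613) (nat_lit 5) (nat_lit 418) (nat_lit 410) (nat_lit 312)) (XT.lf (nat_lit 0) (nat_lit 3286029097) (nat_lit 1520) (nat_lit 2840805427) (nat_lit 1596) (nat_lit 2599205488) (nat_lit 593) (nat_lit 5) (nat_lit 613) (nat_lit 5) (nat_lit 614) (nat_lit 5) (nat_lit 419) (nat_lit 410) (nat_lit 311)))) (XT.nd (nat_lit 156) (nat_lit 0) (nat_lit 76) (XT.nd (nat_lit 78) (nat_lit 0) (nat_lit 76) (XT.lf (nat_lit 76) (nat_lit 1778245658) (nat_lit 0) (nat_lit 2772873537) (nat_lit 1596) (nat_lit 4245350447) (nat_lit 594) (nat_lit 5) (nat_lit 593) (nat_lit 5) (nat_lit 614) (nat_lit 5) (nat_lit 420) (nat_lit 410) (nat_lit 310)) (XT.lf (nat_lit 0) (nat_lit 5839030391) (nat_lit 1520) (nat_lit 2361130127) (nat_lit 1596) (nat_lit 668196961) (nat_lit 594)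 (nat_lit 5) (nat_lit 614) (nat_lit 5) (nat_lit 615) (nat_lit 5) (nat_lit 421) (nat_lit 410) (nat_lit 309))) (XT.nd (nat_lit 78) (nat_lit 0) (nat_lit 0) (XT.lf (nat_lit 76) (nat_lit 2385305741) (nat_lit 0) (nat_lit 4775873301) (nat_lit 1596) (nat_lit 1780334445) (nat_lit 595) (nat_lit 5) (nat_lit 594) (nat_lit 5) (nat_lit 615) (nat_lit 5) (nat_lit 422) (nat_lit 410) (nat_lit 308)) (XT.lf (nat_lit 76) (nat_lit 7242065889) (nat_lit 0) (nat_lit 1258567677) (nat_lit 1596) (nat_lit 515681792) (nat_lit 595) (nat_lit 5) (nat_lit 594) (nat_lit 5) (nat_lit 615) (nat_lit 5) (nat_lit 423) (nat_lit 410) (nat_lit 307)))))) (XT.nd (nat_lit 468) (nat_lit 3040) (nat_lit 0) (XT.nd (nat_lit 234) (nat_lit 0) (nat_lit 76) (XT.nd (nat_lit 78) (nat_lit 0) (nat_lit 0) (XT.lf (nat_lit 0) (nat_lit 775071545) (nat_lit 1596) (nat_lit 5985278947) (nat_lit 1672) (nat_lit 2331942990) (nat_lit 574) (nat_lit 5) (nat_lit 595) (nat_lit 5) (nat_lit 596) (nat_lit 5) (nat_lit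 424) (nat_lit 410) (nat_lit 306)) (XT.nd (nat_lit 78) (nat_lit 0) (nat_lit 76) (XT.lf (nat_lit 0) (nat_lit 2080834158) (nat_lit 1596) (nat_lit 1088466517) (nat_lit 1672) (nat_lit 6000500334) (nat_lit 574) (nat_lit 5) (nat_lit 595) (nat_lit 5) (nat_lit 596) (nat_lit 5) (nat_lit 425) (nat_lit 410) (nat_lit 305)) (XT.lf (nat_lit 0) (nat_lit 3417969050) (nat_lit 1596) (nat_lit 5310973927) (nat_lit 1672) (nat_lit 519810572) (nat_lit 575) (nat_lit 5) (nat_lit 596) (nat_lit 5) (nat_lit 597) (nat_lit 5) (nat_lit 426) (nat_lit 410) (nat_lit 304)))) (XT.nd (nat_lit 78) (nat_lit 0) (nat_lit 0) (XT.lf (nat_lit 0) (nat_lit 4786837963) (nat_lit 1596) (nat_lit 287977937) (nat_lit 1672) (nat_lit 4254369412) (nat_lit 575) (nat_lit 5) (nat_lit 596) (nat_lit 5) (nat_lit 597) (nat_lit 5) (nat_lit 427) (nat_lit 410) (nat_lit 303)) (XT.nd (nat_lit 78) (nat_lit 0) (nat_lit 76) (XT.lf (nat_lit 76) (nat_lit 4882744576) (nat_lit 0) (nat_lit 1309149559) (nat_lit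 1672) (nat_lit 3219155377) (nat_lit 576) (nat_lit 5) (nat_lit 575) (nat_lit 5) (nat_lit 597) (nat_lit 5) (nat_lit 428) (nat_lit 410) (nat_lit 302)) (XT.lf (nat_lit 76) (nat_lit 641079154) (nat_lit 0) (nat_lit 6984004989) (nat_lit 1672) (nat_lit 1869466199) (nat_lit 577) (nat_lit 5) (nat_lit 576) (nat_lit 5) (nat_lit 598) (nat_lit 5) (nat_lit 429) (nat_lit 410) (nat_lit 301))))) (XT.nd (nat_lit 234) (nat_lit 1596) (nat_lit 0) (XT.nd (nat_lit 78) (nat_lit 1596) (nat_lit 0) (XT.lf (nat_lit 76) (nat_lit 5949410637) (nat_lit 0) (nat_lit 3154345065) (nat_lit 1672) (nat_lit 475629132) (nat_lit 577) (nat_lit 5) (nat_lit 576) (nat_lit 5) (nat_lit 598) (nat_lit 5) (nat_lit 430) (nat_lit 410) (nat_lit 300)) (XT.nd (nat_lit 78) (nat_lit 0) (nat_lit 0) (XT.lf (nat_lit 0) (nat_lit 927831266) (nat_lit 1672) (nat_lit 7973924303) (nat_lit 1748) (nat_lit 764154501) (nat_lit 555) (nat_lit 5) (nat_lit 577) (nat_lit 5) (nat_lit 578) (nat_lit 5) (nat_lit 431)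 (nat_lit 410) (nat_lit 299)) (XT.lf (nat_lit 0) (nat_lit 2376866828) (nat_lit 1672) (nat_lit 2625633830) (nat_lit 1748) (nat_lit 4751124782) (nat_lit 555) (nat_lit 5) (nat_lit 577) (nat_lit 5) (nat_lit 578) (nat_lit 5) (nat_lit 432) (nat_lit 410) (nat_lit 298)))) (XT.nd (nat_lit 156) (nat_lit 1596) (nat_lit 0) (XT.nd (nat_lit 78) (nat_lit 0) (nat_lit 76) (XT.lf (nat_lit 76) (nat_lit 2849996248) (nat_lit 0) (nat_lit 1002271916) (nat_lit 1748) (nat_lit 5990879253) (nat_lit 556) (nat_lit 5) (nat_lit 555) (nat_lit 5) (nat_lit 578) (nat_lit 5) (nat_lit 433) (nat_lit 410) (nat_lit 297)) (XT.lf (nat_lit 0) (nat_lit 5374108647) (nat_lit 1672) (nat_lit 1500812512) (nat_lit 76) (nat_lit 3059200051) (nat_lit 556) (nat_lit 5) (nat_lit 578) (nat_lit 5) (nat_lit 557) (nat_lit 5) (nat_lit 434) (nat_lit 410) (nat_lit 296))) (XT.nd (nat_lit 78) (nat_lit 0) (nat_lit 0) (XT.lf (nat_lit 0) (nat_lit 4131931972) (nat_lit 1672) (nat_lit 2807537285) (nat_lit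 1748) (nat_lit 3087183557) (nat_lit 534) (nat_lit 5) (nat_lit 556) (nat_lit 5) (nat_lit 557) (nat_lit 5) (nat_lit 435) (nat_lit 410) (nat_lit 295)) (XT.lf (nat_lit 0) (nat_lit 8534912311) (nat_lit 1748) (nat_lit 249238259) (nat_lit 76) (nat_lit 1336908973) (nat_lit 534) (nat_lit 5) (nat_lit 557) (nat_lit 5) (nat_lit 535) (nat_lit 5) (nat_lit 436) (nat_lit 410) (nat_lit 294))))))))
noncomputable def xc101 : XT := (XT.nd (nat_lit 2028) (nat_lit 3800) (nat_lit 0) (XT.nd (nat_lit 1014) (nat_lit 6156) (nat_lit 0) (XT.nd (nat_lit 468) (nat_lit 3572) (nat_lit 0) (XT.nd (nat_lit 234) (nat_lit 2052) (nat_lit 0) (XT.nd (nat_lit 78) (nat_lit 1900) (nat_lit 0) (XT.lf (nat_lit 0) (nat_lit 5546336257) (nat_lit 1748) (nat_lit 4650854337) (nat_lit 1824) (nat_lit 19465287) (nat_lit 511) (nat_lit 5) (nat_lit 534) (nat_lit 5) (nat_lit 535) (nat_lit 5) (nat_lit 437) (nat_lit 410) (nat_lit 293)) (XT.nd (nat_lit 78) (nat_lit 0) (nat_lit 0) (XT.lf (nat_lit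 0) (nat_lit 1134576291) (nat_lit 1824) (nat_lit 412791878) (nat_lit 1900) (nat_lit 8766800580) (nat_lit 486) (nat_lit 5) (nat_lit 510) (nat_lit 5) (nat_lit 511) (nat_lit 5) (nat_lit 438) (nat_lit 410) (nat_lit 292)) (XT.lf (nat_lit 0) (nat_lit 3182970286) (nat_lit 1900) (nat_lit 3337251562) (nat_lit 76) (nat_lit 3892653600) (nat_lit 486) (nat_lit 5) (nat_lit 511) (nat_lit 5) (nat_lit 487) (nat_lit 5) (nat_lit 439) (nat_lit 410) (nat_lit 291)))) (XT.nd (nat_lit 78) (nat_lit 912) (nat_lit 0) (XT.lf (nat_lit 0) (nat_lit 2636723682) (nat_lit 1140) (nat_lit 2215549148) (nat_lit 1216) (nat_lit 5661263684) (nat_lit 471) (nat_lit 5) (nat_lit 486) (nat_lit 5) (nat_lit 487) (nat_lit 5) (nat_lit 440) (nat_lit 410) (nat_lit 290)) (XT.nd (nat_lit 78) (nat_lit 912) (nat_lit 0) (XT.lf (nat_lit 0) (nat_lit 6573033326) (nat_lit 1216) (nat_lit 1871948888) (nat_lit 76) (nat_lit 2170867149) (nat_lit 471) (nat_lit 5) (nat_lit 487) (nat_lit 5) (nat_lit 472)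 (nat_lit 5) (nat_lit 441) (nat_lit 410) (nat_lit 289)) (XT.lf (nat_lit 0) (nat_lit 4277448671) (nat_lit 912) (nat_lit 4074975420) (nat_lit 988) (nat_lit 2367300076) (nat_lit 459) (nat_lit 5) (nat_lit 471) (nat_lit 5) (nat_lit 472) (nat_lit 5) (nat_lit 442) (nat_lit 410) (nat_lit 288))))) (XT.nd (nat_lit 234) (nat_lit 1748) (nat_lit 0) (XT.nd (nat_lit 78) (nat_lit 1824) (nat_lit 0) (XT.lf (nat_lit 0) (nat_lit 10164556151) (nat_lit 988) (nat_lit 270028154) (nat_lit 76) (nat_lit 391149093) (nat_lit 459) (nat_lit 5) (nat_lit 472) (nat_lit 5) (nat_lit 460) (nat_lit 5) (nat_lit 443) (nat_lit 410) (nat_lit 287)) (XT.nd (nat_lit 78) (nat_lit 836) (nat_lit 0) (XT.lf (nat_lit 0) (nat_lit 1113956814) (nat_lit 988) (nat_lit 4878952516) (nat_lit 76) (nat_lit 4939832544) (nat_lit 446) (nat_lit 5) (nat_lit 459) (nat_lit 5) (nat_lit 447) (nat_lit 5) (nat_lit 444) (nat_lit 410) (nat_lit 286)) (XT.lf (nat_lit 0) (nat_lit 1463665966) (nat_lit 836) (nat_lit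 1445909134) (nat_lit 912) (nat_lit 8132351318) (nat_lit 435) (nat_lit 5) (nat_lit 446) (nat_lit 5) (nat_lit 447) (nat_lit 5) (nat_lit 445) (nat_lit 410) (nat_lit 285)))) (XT.nd (nat_lit 156) (nat_lit 836) (nat_lit 0) (XT.nd (nat_lit 78) (nat_lit 912) (nat_lit 0) (XT.lf (nat_lit 0) (nat_lit 4777522598) (nat_lit 912) (nat_lit 3191573605) (nat_lit 76) (nat_lit 3183470112) (nat_lit 435) (nat_lit 5) (nat_lit 447) (nat_lit 5) (nat_lit 436) (nat_lit 5) (nat_lit 446) (nat_lit 410) (nat_lit 284)) (XT.lf (nat_lit 0) (nat_lit 3340152181) (nat_lit 912) (nat_lit 3357012337) (nat_lit 988) (nat_lit 4567967784) (nat_lit 423) (nat_lit 5) (nat_lit 435) (nat_lit 5) (nat_lit 436) (nat_lit 5) (nat_lit 447) (nat_lit 410) (nat_lit 283))) (XT.nd (nat_lit 78) (nat_lit 836) (nat_lit 0) (XT.lf (nat_lit 0) (nat_lit 8668801337) (nat_lit 988) (nat_lit 1359783588) (nat_lit 76) (nat_lit 1351092642) (nat_lit 423) (nat_lit 5) (nat_lit 436) (nat_lit 5) (nat_lit 424) (nat_lit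 5) (nat_lit 448) (nat_lit 410) (nat_lit 282)) (XT.lf (nat_lit 0) (nat_lit 5368076589) (nat_lit 836) (nat_lit 5352502261) (nat_lit 912) (nat_lit 775120727) (nat_lit 412) (nat_lit 5) (nat_lit 423) (nat_lit 5) (nat_lit 424) (nat_lit 5) (nat_lit 449) (nat_lit 410) (nat_lit 281)))))) (XT.nd (nat_lit 468) (nat_lit 2964) (nat_lit 0) (XT.nd (nat_lit 234) (nat_lit 1520) (nat_lit 0) (XT.nd (nat_lit 78) (nat_lit 760) (nat_lit 0) (XT.lf (nat_lit 0) (nat_lit 618412509) (nat_lit 836) (nat_lit 562136734) (nat_lit 912) (nat_lit 10433398466) (nat_lit 400) (nat_lit 5) (nat_lit 411) (nat_lit 5) (nat_lit 412) (nat_lit 5) (nat_lit 450) (nat_lit 410) (nat_lit 280)) (XT.nd (nat_lit 78) (nat_lit 760) (nat_lit 0) (XT.lf (nat_lit 0) (nat_lit 3218363557) (nat_lit 912) (nat_lit 4201910664) (nat_lit 76) (nat_lit 4313115914) (nat_lit 400) (nat_lit 5) (nat_lit 412) (nat_lit 5) (nat_lit 401) (nat_lit 5) (nat_lit 451) (nat_lit 410) (nat_lit 279)) (XT.lf (nat_lit 0) (nat_lit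 2743052527) (nat_lit 760) (nat_lit 2559662838) (nat_lit 836) (nat_lit 6552390421) (nat_lit 390) (nat_lit 5) (nat_lit 400) (nat_lit 5) (nat_lit 401) (nat_lit 5) (nat_lit 452) (nat_lit 410) (nat_lit 278)))) (XT.nd (nat_lit 78) (nat_lit 1520) (nat_lit 0) (XT.lf (nat_lit 0) (nat_lit 7457150427) (nat_lit 836) (nat_lit 2127555978) (nat_lit 76) (nat_lit 2393981420) (nat_lit 390) (nat_lit 5) (nat_lit 401) (nat_lit 5) (nat_lit 391) (nat_lit 5) (nat_lit 453) (nat_lit 410) (nat_lit 277)) (XT.nd (nat_lit 78) (nat_lit 760) (nat_lit 0) (XT.lf (nat_lit 0) (nat_lit 5028988903) (nat_lit 760) (nat_lit 4660035286) (nat_lit 836) (nat_lit 2415030316) (nat_lit 380) (nat_lit 5) (nat_lit 390) (nat_lit 5) (nat_lit 391) (nat_lit 5) (nat_lit 454) (nat_lit 410) (nat_lit 276)) (XT.lf (nat_lit 0) (nat_lit 107996299) (nat_lit 760) (nat_lit 11859898734) (nat_lit 836) (nat_lit 263986292) (nat_lit 370) (nat_lit 5) (nat_lit 380) (nat_lit 5) (nat_lit 381) (nat_lit 5) (nat_lit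 455) (nat_lit 410) (nat_lit 275))))) (XT.nd (nat_lit 234) (nat_lit 2128) (nat_lit 0) (XT.nd (nat_lit 78) (nat_lit 760) (nat_lit 0) (XT.lf (nat_lit 0) (nat_lit 1968435846) (nat_lit 836) (nat_lit 4891315791) (nat_lit 76) (nat_lit 5500989008) (nat_lit 369) (nat_lit 5) (nat_lit 380) (nat_lit 5) (nat_lit 370) (nat_lit 5) (nat_lit 456) (nat_lit 410) (nat_lit 274)) (XT.nd (nat_lit 78) (nat_lit 0) (nat_lit 0) (XT.lf (nat_lit 0) (nat_lit 2500363468) (nat_lit 760) (nat_lit 1743156847) (nat_lit 836) (nat_lit 8248590964) (nat_lit 359) (nat_lit 5) (nat_lit 369) (nat_lit 5) (nat_lit 370) (nat_lit 5) (nat_lit 457) (nat_lit 410) (nat_lit 273)) (XT.lf (nat_lit 0) (nat_lit 6605193746) (nat_lit 836) (nat_lit 2558811924) (nat_lit 76) (nat_lit 3461281910) (nat_lit 359) (nat_lit 5) (nat_lit 370) (nat_lit 5) (nat_lit 360) (nat_lit 5) (nat_lit 458) (nat_lit 410) (nat_lit 272)))) (XT.nd (nat_lit 156) (nat_lit 1444) (nat_lit 0) (XT.nd (nat_lit 78) (nat_lit 0)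 (nat_lit 0) (XT.lf (nat_lit 0) (nat_lit 5061191469) (nat_lit 684) (nat_lit 3983078180) (nat_lit 760) (nat_lit 3716254379) (nat_lit 350) (nat_lit 5) (nat_lit 359) (nat_lit 5) (nat_lit 360) (nat_lit 5) (nat_lit 459) (nat_lit 410) (nat_lit 271)) (XT.lf (nat_lit 0) (nat_lit 11543784605) (nat_lit 760) (nat_lit 54989302) (nat_lit 76) (nat_lit 1299458146) (nat_lit 350) (nat_lit 5) (nat_lit 360) (nat_lit 5) (nat_lit 351) (nat_lit 5) (nat_lit 460) (nat_lit 410) (nat_lit 270))) (XT.nd (nat_lit 78) (nat_lit 684) (nat_lit 0) (XT.lf (nat_lit 0) (nat_lit 1104415329) (nat_lit 760) (nat_lit 5242767915) (nat_lit 76) (nat_lit 6690101033) (nat_lit 340) (nat_lit 5) (nat_lit 350) (nat_lit 5) (nat_lit 341) (nat_lit 5) (nat_lit 461) (nat_lit 410) (nat_lit 269)) (XT.lf (nat_lit 0) (nat_lit 2631857995) (nat_lit 684) (nat_lit 966211804) (nat_lit 760) (nat_lit 9580793679) (nat_lit 331) (nat_lit 5) (nat_lit 340) (nat_lit 5) (nat_lit 341) (nat_lit 5) (nat_lit 462)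 (nat_lit 410) (nat_lit 268))))))) (XT.nd (nat_lit 55458) (nat_lit 0) (nat_lit 22192) (XT.nd (nat_lit 468) (nat_lit 1824) (nat_lit 0) (XT.nd (nat_lit 234) (nat_lit 684) (nat_lit 0) (XT.nd (nat_lit 78) (nat_lit 1292) (nat_lit 0) (XT.lf (nat_lit 0) (nat_lit 6192795155) (nat_lit 760) (nat_lit 2633603228) (nat_lit 76) (nat_lit 4495851925) (nat_lit 331) (nat_lit 5) (nat_lit 341) (nat_lit 5) (nat_lit 332) (nat_lit 5) (nat_lit 463) (nat_lit 410) (nat_lit 267)) (XT.nd (nat_lit 78) (nat_lit 608) (nat_lit 0) (XT.lf (nat_lit 0) (nat_lit 5487479916) (nat_lit 684) (nat_lit 3380649261) (nat_lit 760) (nat_lit 4599801414) (nat_lit 322) (nat_lit 5) (nat_lit 331) (nat_lit 5) (nat_lit 332) (nat_lit 5) (nat_lit 464) (nat_lit 410) (nat_lit 266)) (XT.lf (nat_lit 0) (nat_lit 162111103) (nat_lit 608) (nat_lit 11454641430) (nat_lit 684) (nat_lit 1999376294) (nat_lit 314) (nat_lit 5) (nat_lit 322) (nat_lit 5) (nat_lit 323) (nat_lit 5) (nat_lit 465) (nat_lit 410)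 (nat_lit 265)))) (XT.nd (nat_lit 78) (nat_lit 608) (nat_lit 0) (XT.lf (nat_lit 0) (nat_lit 707680509) (nat_lit 684) (nat_lit 5233864586) (nat_lit 76) (nat_lit 7824397367) (nat_lit 313) (nat_lit 5) (nat_lit 322) (nat_lit 5) (nat_lit 314) (nat_lit 5) (nat_lit 466) (nat_lit 410) (nat_lit 264)) (XT.nd (nat_lit 78) (nat_lit 0) (nat_lit 0) (XT.lf (nat_lit 0) (nat_lit 3162890727) (nat_lit 608) (nat_lit 286925761) (nat_lit 684) (nat_lit 10468517371) (nat_lit 305) (nat_lit 5) (nat_lit 313) (nat_lit 5) (nat_lit 314) (nat_lit 5) (nat_lit 467) (nat_lit 410) (nat_lit 263)) (XT.lf (nat_lit 0) (nat_lit 6305011259) (nat_lit 684) (nat_lit 2326529958) (nat_lit 76) (nat_lit 5441067546) (nat_lit 305) (nat_lit 5) (nat_lit 314) (nat_lit 5) (nat_lit 306) (nat_lit 5) (nat_lit 468) (nat_lit 410) (nat_lit 262))))) (XT.nd (nat_lit 234) (nat_lit 532) (nat_lit 0) (XT.nd (nat_lit 78) (nat_lit 684) (nat_lit 0) (XT.lf (nat_lit 0) (nat_lit 6336310833) (nat_lit 608) (nat_lit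 2911564864) (nat_lit 684) (nat_lit 4981482152) (nat_lit 297) (nat_lit 5) (nat_lit 305) (nat_lit 5) (nat_lit 306) (nat_lit 5) (nat_lit 469) (nat_lit 410) (nat_lit 261)) (XT.nd (nat_lit 78) (nat_lit 76) (nat_lit 0) (XT.lf (nat_lit 0) (nat_lit 790328078) (nat_lit 608) (nat_lit 11486739369) (nat_lit 684) (nat_lit 2111625069) (nat_lit 289) (nat_lit 5) (nat_lit 297) (nat_lit 5) (nat_lit 298) (nat_lit 5) (nat_lit 470) (nat_lit 410) (nat_lit 260)) (XT.lf (nat_lit 0) (nat_lit 865235735) (nat_lit 684) (nat_lit 4836750614) (nat_lit 76) (nat_lit 8847915542) (nat_lit 288) (nat_lit 5) (nat_lit 297) (nat_lit 5) (nat_lit 289) (nat_lit 5) (nat_lit 471) (nat_lit 410) (nat_lit 259)))) (XT.nd (nat_lit 54600) (nat_lit 0) (nat_lit 25004) (XT.nd (nat_lit 78) (nat_lit 0) (nat_lit 0) (XT.lf (nat_lit 0) (nat_lit 3889644796) (nat_lit 608) (nat_lit 10590807861) (nat_lit 76) (nat_lit 233277925) (nat_lit 281) (nat_lit 5) (nat_lit 289) (nat_lit 5) (nat_lit 282) (nat_lit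 5) (nat_lit 472) (nat_lit 410) (nat_lit 258)) (XT.lf (nat_lit 0) (nat_lit 7033032269) (nat_lit 608) (nat_lit 1606637685) (nat_lit 76) (nat_lit 6239996089) (nat_lit 281) (nat_lit 5) (nat_lit 289) (nat_lit 5) (nat_lit 282) (nat_lit 5) (nat_lit 473) (nat_lit 410) (nat_lit 257))) (XT.nd (nat_lit 78) (nat_lit 0) (nat_lit 0) (XT.lf (nat_lit 0) (nat_lit 785599344) (nat_lit 0) (nat_lit 785599344) (nat_lit 1444) (nat_lit 2564375966) (nat_lit 610) (nat_lit 5) (nat_lit 610) (nat_lit 3) (nat_lit 629) (nat_lit 3) (nat_lit 411) (nat_lit 411) (nat_lit 318)) (XT.lf (nat_lit 0) (nat_lit 4303761242) (nat_lit 1444) (nat_lit 2566567972) (nat_lit 1520) (nat_lit 1460932790) (nat_lit 610) (nat_lit 5) (nat_lit 629) (nat_lit 3) (nat_lit 630) (nat_lit 5) (nat_lit 412) (nat_lit 411) (nat_lit 317)))))) (XT.nd (nat_lit 468) (nat_lit 1368) (nat_lit 0) (XT.nd (nat_lit 234) (nat_lit 1444) (nat_lit 0) (XT.nd (nat_lit 78) (nat_lit 0) (nat_lit 0) (XT.lf (nat_lit 76) (nat_lit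 1645278726) (nat_lit 0) (nat_lit 3834869967) (nat_lit 1520) (nat_lit 2912592334) (nat_lit 611) (nat_lit 5) (nat_lit 610) (nat_lit 5) (nat_lit 630) (nat_lit 5) (nat_lit 413) (nat_lit 411) (nat_lit 316)) (XT.nd (nat_lit 78) (nat_lit 0) (nat_lit 76) (XT.lf (nat_lit 76) (nat_lit 5960877582) (nat_lit 0) (nat_lit 707593273) (nat_lit 1520) (nat_lit 1787210636) (nat_lit 611) (nat_lit 5) (nat_lit 610) (nat_lit 5) (nat_lit 630) (nat_lit 5) (nat_lit 414) (nat_lit 411) (nat_lit 315)) (XT.lf (nat_lit 76) (nat_lit 1835233818) (nat_lit 0) (nat_lit 6045192628) (nat_lit 1520) (nat_lit 639456980) (nat_lit 612) (nat_lit 5) (nat_lit 611) (nat_lit 5) (nat_lit 631) (nat_lit 5) (nat_lit 415) (nat_lit 411) (nat_lit 314)))) (XT.nd (nat_lit 78) (nat_lit 0) (nat_lit 76) (XT.lf (nat_lit 0) (nat_lit 517925731) (nat_lit 1520) (nat_lit 2323485607) (nat_lit 1596) (nat_lit 5744016246) (nat_lit 591) (nat_lit 5) (nat_lit 611) (nat_lit 5) (nat_lit 612) (nat_lit 5) (nat_lit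 416) (nat_lit 411) (nat_lit 313)) (XT.nd (nat_lit 78) (nat_lit 0) (nat_lit 0) (XT.lf (nat_lit 0) (nat_lit 1679366011) (nat_lit 1520) (nat_lit 6522373796) (nat_lit 1596) (nat_lit 450668837) (nat_lit 592) (nat_lit 5) (nat_lit 612) (nat_lit 5) (nat_lit 613) (nat_lit 5) (nat_lit 417) (nat_lit 411) (nat_lit 312)) (XT.lf (nat_lit 0) (nat_lit 2871707530) (nat_lit 1520) (nat_lit 2051310103) (nat_lit 1596) (nat_lit 3797558244) (nat_lit 592) (nat_lit 5) (nat_lit 612) (nat_lit 5) (nat_lit 613) (nat_lit 5) (nat_lit 418) (nat_lit 411) (nat_lit 311))))) (XT.nd (nat_lit 234) (nat_lit 1444) (nat_lit 0) (XT.nd (nat_lit 78) (nat_lit 0) (nat_lit 76) (XT.lf (nat_lit 76) (nat_lit 2526533118) (nat_lit 0) (nat_lit 1551453036) (nat_lit 1596) (nat_lit 4712318496) (nat_lit 593) (nat_lit 5) (nat_lit 592) (nat_lit 5) (nat_lit 613) (nat_lit 5) (nat_lit 419) (nat_lit 411) (nat_lit 310)) (XT.nd (nat_lit 78) (nat_lit 0) (nat_lit 0) (XT.lf (nat_lit 0) (nat_lit 5308668990)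 (nat_lit 1520) (nat_lit 1666018041) (nat_lit 1596) (nat_lit 1886735396) (nat_lit 593) (nat_lit 5) (nat_lit 613) (nat_lit 5) (nat_lit 614) (nat_lit 5) (nat_lit 420) (nat_lit 411) (nat_lit 309)) (XT.lf (nat_lit 76) (nat_lit 3037311411) (nat_lit 0) (nat_lit 3531322290) (nat_lit 1596) (nat_lit 2365235491) (nat_lit 594) (nat_lit 5) (nat_lit 593) (nat_lit 5) (nat_lit 614) (nat_lit 5) (nat_lit 421) (nat_lit 411) (nat_lit 308)))) (XT.nd (nat_lit 156) (nat_lit 0) (nat_lit 0) (XT.nd (nat_lit 78) (nat_lit 1596) (nat_lit 0) (XT.lf (nat_lit 0) (nat_lit 7840053976) (nat_lit 1520) (nat_lit 1166592956) (nat_lit 1596) (nat_lit 1392837) (nat_lit 594) (nat_lit 5) (nat_lit 614) (nat_lit 5) (nat_lit 615) (nat_lit 5) (nat_lit 422) (nat_lit 411) (nat_lit 307)) (XT.lf (nat_lit 0) (nat_lit 75468379) (nat_lit 1596) (nat_lit 5417131977) (nat_lit 1672) (nat_lit 3590627344) (nat_lit 573) (nat_lit 5) (nat_lit 594) (nat_lit 5) (nat_lit 595) (nat_lit 5) (nat_lit 423)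 (nat_lit 411) (nat_lit 306))) (XT.nd (nat_lit 78) (nat_lit 0) (nat_lit 76) (XT.lf (nat_lit 0) (nat_lit 1311876743) (nat_lit 1596) (nat_lit 572584416) (nat_lit 1672) (nat_lit 7275629336) (nat_lit 573) (nat_lit 5) (nat_lit 594) (nat_lit 5) (nat_lit 595) (nat_lit 5) (nat_lit 424) (nat_lit 411) (nat_lit 305)) (XT.lf (nat_lit 0) (nat_lit 2589853767) (nat_lit 1596) (nat_lit 4839556739) (nat_lit 1672) (nat_lit 1808743230) (nat_lit 574) (nat_lit 5) (nat_lit 595) (nat_lit 5) (nat_lit 596) (nat_lit 5) (nat_lit 425) (nat_lit 411) (nat_lit 304))))))))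
noncomputable def xc102 : XT := (XT.nd (nat_lit 2028) (nat_lit 9044) (nat_lit 0) (XT.nd (nat_lit 1014) (nat_lit 8360) (nat_lit 0) (XT.nd (nat_lit 468) (nat_lit 3344) (nat_lit 0) (XT.nd (nat_lit 234) (nat_lit 1520) (nat_lit 0) (XT.nd (nat_lit 78) (nat_lit 0) (nat_lit 76) (XT.lf (nat_lit 76) (nat_lit 132112305) (nat_lit 0) (nat_lit 3755197072) (nat_lit 1672) (nat_lit 5430590482) (nat_lit 575) (nat_lit 5) (nat_lit 574) (nat_lit 5) (nat_lit 596) (nat_lit 5) (nat_lit 426) (nat_lit 411) (nat_lit 303)) (XT.nd (nat_lit 78) (nat_lit 0) (nat_lit 0) (XT.lf (nat_lit 0) (nat_lit 5220464320) (nat_lit 1596) (nat_lit 4146713042) (nat_lit 1672) (nat_lit 31868539) (nat_lit 575) (nat_lit 5) (nat_lit 596) (nat_lit 5) (nat_lit 597) (nat_lit 5) (nat_lit 427) (nat_lit 411) (nat_lit 302)) (XT.lf (nat_lit 76) (nat_lit 964480827) (nat_lit 0) (nat_lit 5624489169) (nat_lit 1672) (nat_lit 2892671116) (nat_lit 576) (nat_lit 5) (nat_lit 575) (nat_lit 5) (nat_lit 597)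 (nat_lit 5) (nat_lit 428) (nat_lit 411) (nat_lit 301)))) (XT.nd (nat_lit 78) (nat_lit 1596) (nat_lit 0) (XT.lf (nat_lit 76) (nat_lit 6217773918) (nat_lit 0) (nat_lit 1772789235) (nat_lit 1672) (nat_lit 1575210726) (nat_lit 576) (nat_lit 5) (nat_lit 575) (nat_lit 5) (nat_lit 597) (nat_lit 5) (nat_lit 429) (nat_lit 411) (nat_lit 300)) (XT.nd (nat_lit 78) (nat_lit 1672) (nat_lit 0) (XT.lf (nat_lit 76) (nat_lit 1919232390) (nat_lit 0) (nat_lit 7505775550) (nat_lit 1672) (nat_lit 226484967) (nat_lit 577) (nat_lit 5) (nat_lit 576) (nat_lit 5) (nat_lit 598) (nat_lit 5) (nat_lit 430) (nat_lit 411) (nat_lit 299)) (XT.lf (nat_lit 0) (nat_lit 1147036882) (nat_lit 1672) (nat_lit 2437296354) (nat_lit 1748) (nat_lit 6154185974) (nat_lit 554) (nat_lit 5) (nat_lit 576) (nat_lit 5) (nat_lit 577) (nat_lit 5) (nat_lit 431) (nat_lit 411) (nat_lit 298))))) (XT.nd (nat_lit 234) (nat_lit 3420) (nat_lit 0) (XT.nd (nat_lit 78) (nat_lit 0) (nat_lit 0) (XT.lf (nat_lit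 0) (nat_lit 2546204588) (nat_lit 1672) (nat_lit 6845276143) (nat_lit 1748) (nat_lit 435751206) (nat_lit 555) (nat_lit 5) (nat_lit 577) (nat_lit 5) (nat_lit 578) (nat_lit 5) (nat_lit 432) (nat_lit 411) (nat_lit 297)) (XT.nd (nat_lit 78) (nat_lit 0) (nat_lit 0) (XT.lf (nat_lit 0) (nat_lit 3992851906) (nat_lit 1672) (nat_lit 1415277246) (nat_lit 1748) (nat_lit 4509199842) (nat_lit 555) (nat_lit 5) (nat_lit 577) (nat_lit 5) (nat_lit 578) (nat_lit 5) (nat_lit 433) (nat_lit 411) (nat_lit 296)) (XT.lf (nat_lit 76) (nat_lit 4161557083) (nat_lit 0) (nat_lit 1313595750) (nat_lit 1748) (nat_lit 4533940746) (nat_lit 556) (nat_lit 5) (nat_lit 555) (nat_lit 5) (nat_lit 578) (nat_lit 5) (nat_lit 434) (nat_lit 411) (nat_lit 295)))) (XT.nd (nat_lit 156) (nat_lit 1824) (nat_lit 0) (XT.nd (nat_lit 78) (nat_lit 1672) (nat_lit 0) (XT.lf (nat_lit 0) (nat_lit 6995265460) (nat_lit 1672) (nat_lit 268702421) (nat_lit 76) (nat_lit 2838562261) (nat_lit 556) (nat_lit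 5) (nat_lit 578) (nat_lit 5) (nat_lit 557) (nat_lit 5) (nat_lit 435) (nat_lit 411) (nat_lit 294)) (XT.lf (nat_lit 0) (nat_lit 5468393491) (nat_lit 1672) (nat_lit 3102000546) (nat_lit 1748) (nat_lit 1626949125) (nat_lit 534) (nat_lit 5) (nat_lit 556) (nat_lit 5) (nat_lit 557) (nat_lit 5) (nat_lit 436) (nat_lit 411) (nat_lit 293))) (XT.nd (nat_lit 78) (nat_lit 76) (nat_lit 0) (XT.lf (nat_lit 0) (nat_lit 1019156006) (nat_lit 1748) (nat_lit 9154432482) (nat_lit 1824) (nat_lit 120532688) (nat_lit 511) (nat_lit 5) (nat_lit 534) (nat_lit 5) (nat_lit 535) (nat_lit 5) (nat_lit 437) (nat_lit 411) (nat_lit 292)) (XT.lf (nat_lit 0) (nat_lit 1430781524) (nat_lit 1824) (nat_lit 3492599317) (nat_lit 76) (nat_lit 5468603222) (nat_lit 510) (nat_lit 5) (nat_lit 534) (nat_lit 5) (nat_lit 511) (nat_lit 5) (nat_lit 438) (nat_lit 411) (nat_lit 291)))))) (XT.nd (nat_lit 468) (nat_lit 3496) (nat_lit 0) (XT.nd (nat_lit 234) (nat_lit 1900) (nat_lit 0) (XT.nd (nat_lit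 78) (nat_lit 1140) (nat_lit 0) (XT.lf (nat_lit 0) (nat_lit 2419903781) (nat_lit 1824) (nat_lit 588546604) (nat_lit 1900) (nat_lit 7483399043) (nat_lit 486) (nat_lit 5) (nat_lit 510) (nat_lit 5) (nat_lit 511) (nat_lit 5) (nat_lit 439) (nat_lit 411) (nat_lit 290)) (XT.nd (nat_lit 78) (nat_lit 1140) (nat_lit 0) (XT.lf (nat_lit 0) (nat_lit 4647656494) (nat_lit 1900) (nat_lit 2137010148) (nat_lit 76) (nat_lit 3808445780) (nat_lit 486) (nat_lit 5) (nat_lit 511) (nat_lit 5) (nat_lit 487) (nat_lit 5) (nat_lit 440) (nat_lit 411) (nat_lit 289)) (XT.lf (nat_lit 0) (nat_lit 3948109164) (nat_lit 1140) (nat_lit 2382936808) (nat_lit 1216) (nat_lit 4365126719) (nat_lit 471) (nat_lit 5) (nat_lit 486) (nat_lit 5) (nat_lit 487) (nat_lit 5) (nat_lit 441) (nat_lit 411) (nat_lit 288)))) (XT.nd (nat_lit 78) (nat_lit 1900) (nat_lit 0) (XT.lf (nat_lit 0) (nat_lit 8058345551) (nat_lit 1216) (nat_lit 647540162) (nat_lit 76) (nat_lit 2095203605) (nat_lit 471) (nat_lit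 5) (nat_lit 487) (nat_lit 5) (nat_lit 472) (nat_lit 5) (nat_lit 442) (nat_lit 411) (nat_lit 287)) (XT.nd (nat_lit 78) (nat_lit 988) (nat_lit 0) (XT.lf (nat_lit 0) (nat_lit 5616543718) (nat_lit 912) (nat_lit 4238373157) (nat_lit 988) (nat_lit 1052492889) (nat_lit 459) (nat_lit 5) (nat_lit 471) (nat_lit 5) (nat_lit 472) (nat_lit 5) (nat_lit 443) (nat_lit 411) (nat_lit 286)) (XT.lf (nat_lit 0) (nat_lit 658340727) (nat_lit 988) (nat_lit 10027004071) (nat_lit 76) (nat_lit 330512909) (nat_lit 446) (nat_lit 5) (nat_lit 459) (nat_lit 5) (nat_lit 447) (nat_lit 5) (nat_lit 444) (nat_lit 411) (nat_lit 285))))) (XT.nd (nat_lit 234) (nat_lit 2660) (nat_lit 0) (XT.nd (nat_lit 78) (nat_lit 836) (nat_lit 0) (XT.lf (nat_lit 0) (nat_lit 2435962091) (nat_lit 988) (nat_lit 3711846665) (nat_lit 76) (nat_lit 4977593433) (nat_lit 446) (nat_lit 5) (nat_lit 459) (nat_lit 5) (nat_lit 447) (nat_lit 5) (nat_lit 445) (nat_lit 411) (nat_lit 284)) (XT.nd (nat_lit 78)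 (nat_lit 0) (nat_lit 0) (XT.lf (nat_lit 0) (nat_lit 2749303891) (nat_lit 836) (nat_lit 1500861177) (nat_lit 912) (nat_lit 6986951909) (nat_lit 435) (nat_lit 5) (nat_lit 446) (nat_lit 5) (nat_lit 447) (nat_lit 5) (nat_lit 446) (nat_lit 411) (nat_lit 283)) (XT.lf (nat_lit 0) (nat_lit 6130160734) (nat_lit 912) (nat_lit 1998364289) (nat_lit 76) (nat_lit 3221950866) (nat_lit 435) (nat_lit 5) (nat_lit 447) (nat_lit 5) (nat_lit 436) (nat_lit 5) (nat_lit 447) (nat_lit 411) (nat_lit 282)))) (XT.nd (nat_lit 156) (nat_lit 1748) (nat_lit 0) (XT.nd (nat_lit 78) (nat_lit 0) (nat_lit 0) (XT.lf (nat_lit 0) (nat_lit 4655726008) (nat_lit 912) (nat_lit 3415928554) (nat_lit 988) (nat_lit 3393969451) (nat_lit 423) (nat_lit 5) (nat_lit 435) (nat_lit 5) (nat_lit 436) (nat_lit 5) (nat_lit 448) (nat_lit 411) (nat_lit 281)) (XT.lf (nat_lit 0) (nat_lit 10058452020) (nat_lit 988) (nat_lit 138422081) (nat_lit 76) (nat_lit 1386071524) (nat_lit 423) (nat_lit 5) (nat_lit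 436) (nat_lit 5) (nat_lit 424) (nat_lit 5) (nat_lit 449) (nat_lit 411) (nat_lit 280))) (XT.nd (nat_lit 78) (nat_lit 836) (nat_lit 0) (XT.lf (nat_lit 0) (nat_lit 428175479) (nat_lit 912) (nat_lit 4988639820) (nat_lit 76) (nat_lit 6284732346) (nat_lit 411) (nat_lit 5) (nat_lit 423) (nat_lit 5) (nat_lit 412) (nat_lit 5) (nat_lit 450) (nat_lit 411) (nat_lit 279)) (XT.lf (nat_lit 0) (nat_lit 1878917332) (nat_lit 836) (nat_lit 518081387) (nat_lit 912) (nat_lit 9425371173) (nat_lit 400) (nat_lit 5) (nat_lit 411) (nat_lit 5) (nat_lit 412) (nat_lit 5) (nat_lit 451) (nat_lit 411) (nat_lit 278))))))) (XT.nd (nat_lit 1014) (nat_lit 3800) (nat_lit 0) (XT.nd (nat_lit 468) (nat_lit 2888) (nat_lit 0) (XT.nd (nat_lit 234) (nat_lit 1596) (nat_lit 0) (XT.nd (nat_lit 78) (nat_lit 760) (nat_lit 0) (XT.lf (nat_lit 0) (nat_lit 4452532322) (nat_lit 912) (nat_lit 3039248572) (nat_lit 76) (nat_lit 4452881013) (nat_lit 400) (nat_lit 5) (nat_lit 412) (nat_lit 5)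 (nat_lit 401) (nat_lit 5) (nat_lit 452) (nat_lit 411) (nat_lit 277)) (XT.nd (nat_lit 78) (nat_lit 0) (nat_lit 0) (XT.lf (nat_lit 0) (nat_lit 4036411906) (nat_lit 760) (nat_lit 2527263128) (nat_lit 836) (nat_lit 5505434759) (nat_lit 390) (nat_lit 5) (nat_lit 400) (nat_lit 5) (nat_lit 401) (nat_lit 5) (nat_lit 453) (nat_lit 411) (nat_lit 276)) (XT.lf (nat_lit 0) (nat_lit 8739085694) (nat_lit 836) (nat_lit 933779945) (nat_lit 76) (nat_lit 2522740097) (nat_lit 390) (nat_lit 5) (nat_lit 401) (nat_lit 5) (nat_lit 391) (nat_lit 5) (nat_lit 454) (nat_lit 411) (nat_lit 275)))) (XT.nd (nat_lit 78) (nat_lit 836) (nat_lit 0) (XT.lf (nat_lit 0) (nat_lit 6357762102) (nat_lit 760) (nat_lit 4643597462) (nat_lit 836) (nat_lit 1322404933) (nat_lit 380) (nat_lit 5) (nat_lit 390) (nat_lit 5) (nat_lit 391) (nat_lit 5) (nat_lit 455) (nat_lit 411) (nat_lit 274)) (XT.nd (nat_lit 78) (nat_lit 0) (nat_lit 0) (XT.lf (nat_lit 0) (nat_lit 846967679) (nat_lit 836)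 (nat_lit 11108197289) (nat_lit 76) (nat_lit 499134905) (nat_lit 369) (nat_lit 5) (nat_lit 380) (nat_lit 5) (nat_lit 370) (nat_lit 5) (nat_lit 456) (nat_lit 411) (nat_lit 273)) (XT.lf (nat_lit 0) (nat_lit 3098689098) (nat_lit 836) (nat_lit 3757360553) (nat_lit 76) (nat_lit 5730088117) (nat_lit 369) (nat_lit 5) (nat_lit 380) (nat_lit 5) (nat_lit 370) (nat_lit 5) (nat_lit 457) (nat_lit 411) (nat_lit 272))))) (XT.nd (nat_lit 234) (nat_lit 1444) (nat_lit 0) (XT.nd (nat_lit 78) (nat_lit 684) (nat_lit 0) (XT.lf (nat_lit 0) (nat_lit 3774048465) (nat_lit 760) (nat_lit 1631781826) (nat_lit 836) (nat_lit 7314574422) (nat_lit 359) (nat_lit 5) (nat_lit 369) (nat_lit 5) (nat_lit 370) (nat_lit 5) (nat_lit 458) (nat_lit 411) (nat_lit 271)) (XT.nd (nat_lit 78) (nat_lit 684) (nat_lit 0) (XT.lf (nat_lit 0) (nat_lit 7794541783) (nat_lit 836) (nat_lit 1390108708) (nat_lit 76) (nat_lit 3671997958) (nat_lit 359) (nat_lit 5) (nat_lit 370) (nat_lit 5) (nat_lit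 360) (nat_lit 5) (nat_lit 459) (nat_lit 411) (nat_lit 270)) (XT.lf (nat_lit 0) (nat_lit 6374269230) (nat_lit 684) (nat_lit 3895267855) (nat_lit 760) (nat_lit 2725309782) (nat_lit 350) (nat_lit 5) (nat_lit 359) (nat_lit 5) (nat_lit 360) (nat_lit 5) (nat_lit 460) (nat_lit 411) (nat_lit 269)))) (XT.nd (nat_lit 156) (nat_lit 684) (nat_lit 0) (XT.nd (nat_lit 78) (nat_lit 76) (nat_lit 0) (XT.lf (nat_lit 0) (nat_lit 1166716763) (nat_lit 684) (nat_lit 11640488615) (nat_lit 760) (nat_lit 328340414) (nat_lit 341) (nat_lit 5) (nat_lit 350) (nat_lit 5) (nat_lit 351) (nat_lit 5) (nat_lit 461) (nat_lit 411) (nat_lit 268)) (XT.lf (nat_lit 0) (nat_lit 2145870871) (nat_lit 760) (nat_lit 4134516374) (nat_lit 76) (nat_lit 6997255374) (nat_lit 340) (nat_lit 5) (nat_lit 350) (nat_lit 5) (nat_lit 341) (nat_lit 5) (nat_lit 462) (nat_lit 411) (nat_lit 267))) (XT.nd (nat_lit 78) (nat_lit 0) (nat_lit 0) (XT.lf (nat_lit 0) (nat_lit 3889621087) (nat_lit 684) (nat_lit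 787614226) (nat_lit 760) (nat_lit 8745061352) (nat_lit 331) (nat_lit 5) (nat_lit 340) (nat_lit 5) (nat_lit 341) (nat_lit 5) (nat_lit 463) (nat_lit 411) (nat_lit 266)) (XT.lf (nat_lit 0) (nat_lit 7305365919) (nat_lit 760) (nat_lit 1486290022) (nat_lit 76) (nat_lit 4777265076) (nat_lit 331) (nat_lit 5) (nat_lit 341) (nat_lit 5) (nat_lit 332) (nat_lit 5) (nat_lit 464) (nat_lit 411) (nat_lit 265)))))) (XT.nd (nat_lit 468) (nat_lit 1216) (nat_lit 0) (XT.nd (nat_lit 234) (nat_lit 1216) (nat_lit 0) (XT.nd (nat_lit 78) (nat_lit 684) (nat_lit 0) (XT.lf (nat_lit 0) (nat_lit 6789320145) (nat_lit 684) (nat_lit 3233239754) (nat_lit 760) (nat_lit 3695187941) (nat_lit 322) (nat_lit 5) (nat_lit 331) (nat_lit 5) (nat_lit 332) (nat_lit 5) (nat_lit 465) (nat_lit 411) (nat_lit 264)) (XT.nd (nat_lit 78) (nat_lit 76) (nat_lit 0) (XT.lf (nat_lit 0) (nat_lit 1367627171) (nat_lit 608) (nat_lit 11448545006) (nat_lit 684) (nat_lit 1052937534) (nat_lit 314) (nat_lit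 5) (nat_lit 322) (nat_lit 5) (nat_lit 323) (nat_lit 5) (nat_lit 466) (nat_lit 411) (nat_lit 263)) (XT.lf (nat_lit 0) (nat_lit 1676235224) (nat_lit 684) (nat_lit 4147158540) (nat_lit 76) (nat_lit 8198779525) (nat_lit 313) (nat_lit 5) (nat_lit 322) (nat_lit 5) (nat_lit 314) (nat_lit 5) (nat_lit 467) (nat_lit 411) (nat_lit 262)))) (XT.nd (nat_lit 78) (nat_lit 608) (nat_lit 0) (XT.lf (nat_lit 0) (nat_lit 4409693831) (nat_lit 608) (nat_lit 52490706) (nat_lit 684) (nat_lit 9715648565) (nat_lit 305) (nat_lit 5) (nat_lit 313) (nat_lit 5) (nat_lit 314) (nat_lit 5) (nat_lit 468) (nat_lit 411) (nat_lit 261)) (XT.nd (nat_lit 78) (nat_lit 608) (nat_lit 0) (XT.lf (nat_lit 0) (nat_lit 7357514508) (nat_lit 684) (nat_lit 1195753344) (nat_lit 76) (nat_lit 5782265025) (nat_lit 305) (nat_lit 5) (nat_lit 314) (nat_lit 5) (nat_lit 306) (nat_lit 5) (nat_lit 469) (nat_lit 411) (nat_lit 260)) (XT.lf (nat_lit 0) (nat_lit 7632598820) (nat_lit 608) (nat_lit 2716066221)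 (nat_lit 684) (nat_lit 4146963328) (nat_lit 297) (nat_lit 5) (nat_lit 305) (nat_lit 5) (nat_lit 306) (nat_lit 5) (nat_lit 470) (nat_lit 411) (nat_lit 259))))) (XT.nd (nat_lit 54756) (nat_lit 0) (nat_lit 23484) (XT.nd (nat_lit 78) (nat_lit 608) (nat_lit 0) (XT.lf (nat_lit 0) (nat_lit 1984561512) (nat_lit 608) (nat_lit 11445187837) (nat_lit 684) (nat_lit 1228574206) (nat_lit 289) (nat_lit 5) (nat_lit 297) (nat_lit 5) (nat_lit 298) (nat_lit 5) (nat_lit 471) (nat_lit 411) (nat_lit 258)) (XT.nd (nat_lit 78) (nat_lit 532) (nat_lit 0) (XT.lf (nat_lit 0) (nat_lit 1777783692) (nat_lit 684) (nat_lit 3766267851) (nat_lit 76) (nat_lit 9278943521) (nat_lit 288) (nat_lit 5) (nat_lit 297) (nat_lit 5) (nat_lit 289) (nat_lit 5) (nat_lit 472) (nat_lit 411) (nat_lit 257)) (XT.lf (nat_lit 0) (nat_lit 4854436712) (nat_lit 608) (nat_lit 9627162021) (nat_lit 76) (nat_lit 508666481) (nat_lit 281) (nat_lit 5) (nat_lit 289) (nat_lit 5) (nat_lit 282) (nat_lit 5)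 (nat_lit 473) (nat_lit 411) (nat_lit 256)))) (XT.nd (nat_lit 156) (nat_lit 1520) (nat_lit 0) (XT.nd (nat_lit 78) (nat_lit 0) (nat_lit 0) (XT.lf (nat_lit 0) (nat_lit 1357838618) (nat_lit 0) (nat_lit 1357838618) (nat_lit 1444) (nat_lit 1480347818) (nat_lit 610) (nat_lit 5) (nat_lit 610) (nat_lit 3) (nat_lit 629) (nat_lit 3) (nat_lit 412) (nat_lit 412) (nat_lit 316)) (XT.lf (nat_lit 0) (nat_lit 6565211429) (nat_lit 1444) (nat_lit 1475935167) (nat_lit 1520) (nat_lit 413233148) (nat_lit 610) (nat_lit 5) (nat_lit 629) (nat_lit 3) (nat_lit 630) (nat_lit 5) (nat_lit 413) (nat_lit 412) (nat_lit 315))) (XT.nd (nat_lit 78) (nat_lit 1520) (nat_lit 0) (XT.lf (nat_lit 76) (nat_lit 2812635542) (nat_lit 0) (nat_lit 4917202287) (nat_lit 1520) (nat_lit 787956296) (nat_lit 611) (nat_lit 5) (nat_lit 610) (nat_lit 5) (nat_lit 630) (nat_lit 5) (nat_lit 414) (nat_lit 412) (nat_lit 314)) (XT.lf (nat_lit 0) (nat_lit 312972078) (nat_lit 1520) (nat_lit 1392589441)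 (nat_lit 1596) (nat_lit 6877229948) (nat_lit 590) (nat_lit 5) (nat_lit 610) (nat_lit 5) (nat_lit 611) (nat_lit 5) (nat_lit 415) (nat_lit 412) (nat_lit 313))))))))
noncomputable def xc103 : XT := (XT.nd (nat_lit 2028) (nat_lit 13148) (nat_lit 0) (XT.nd (nat_lit 1014) (nat_lit 6536) (nat_lit 0) (XT.nd (nat_lit 468) (nat_lit 1444) (nat_lit 0) (XT.nd (nat_lit 234) (nat_lit 0) (nat_lit 76) (XT.nd (nat_lit 78) (nat_lit 0) (nat_lit 0) (XT.lf (nat_lit 0) (nat_lit 1428132548) (nat_lit 1520) (nat_lit 5633638867) (nat_lit 1596) (nat_lit 1587157888) (nat_lit 591) (nat_lit 5) (nat_lit 611) (nat_lit 5) (nat_lit 612) (nat_lit 5) (nat_lit 416) (nat_lit 412) (nat_lit 312)) (XT.nd (nat_lit 78) (nat_lit 0) (nat_lit 0) (XT.lf (nat_lit 0) (nat_lit 2559484582) (nat_lit 1520) (nat_lit 1212632850) (nat_lit 1596) (nat_lit 4944394697) (nat_lit 591) (nat_lit 5) (nat_lit 611) (nat_lit 5) (nat_lit 612) (nat_lit 5) (nat_lit 417) (nat_lit 412) (nat_lit 311)) (XT.lf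 (nat_lit 76) (nat_lit 3325428761) (nat_lit 0) (nat_lit 383337893) (nat_lit 1596) (nat_lit 5076773897) (nat_lit 592) (nat_lit 5) (nat_lit 591) (nat_lit 5) (nat_lit 612) (nat_lit 5) (nat_lit 418) (nat_lit 412) (nat_lit 310)))) (XT.nd (nat_lit 78) (nat_lit 0) (nat_lit 0) (XT.lf (nat_lit 0) (nat_lit 4883381327) (nat_lit 1520) (nat_lit 920573202) (nat_lit 1596) (nat_lit 3051948073) (nat_lit 592) (nat_lit 5) (nat_lit 612) (nat_lit 5) (nat_lit 613) (nat_lit 5) (nat_lit 419) (nat_lit 412) (nat_lit 309)) (XT.nd (nat_lit 78) (nat_lit 0) (nat_lit 76) (XT.lf (nat_lit 76) (nat_lit 3741117916) (nat_lit 0) (nat_lit 2341906995) (nat_lit 1596) (nat_lit 2844616252) (nat_lit 593) (nat_lit 5) (nat_lit 592) (nat_lit 5) (nat_lit 613) (nat_lit 5) (nat_lit 420) (nat_lit 412) (nat_lit 308)) (XT.lf (nat_lit 0) (nat_lit 7295772118) (nat_lit 1520) (nat_lit 515559572) (nat_lit 1596) (nat_lit 1189700590) (nat_lit 593) (nat_lit 5) (nat_lit 613) (nat_lit 5) (nat_lit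 614) (nat_lit 5) (nat_lit 421) (nat_lit 412) (nat_lit 307))))) (XT.nd (nat_lit 234) (nat_lit 0) (nat_lit 76) (XT.nd (nat_lit 78) (nat_lit 1596) (nat_lit 0) (XT.lf (nat_lit 76) (nat_lit 4274048451) (nat_lit 0) (nat_lit 4277642010) (nat_lit 1596) (nat_lit 523822434) (nat_lit 594) (nat_lit 5) (nat_lit 593) (nat_lit 5) (nat_lit 614) (nat_lit 5) (nat_lit 422) (nat_lit 412) (nat_lit 306)) (XT.nd (nat_lit 78) (nat_lit 0) (nat_lit 76) (XT.lf (nat_lit 0) (nat_lit 651668707) (nat_lit 1596) (nat_lit 4963064) (nat_lit 1672) (nat_lit 8495175703) (nat_lit 572) (nat_lit 5) (nat_lit 593) (nat_lit 5) (nat_lit 594) (nat_lit 5) (nat_lit 423) (nat_lit 412) (nat_lit 305)) (XT.lf (nat_lit 0) (nat_lit 1872049950) (nat_lit 1596) (nat_lit 4315930566) (nat_lit 1672) (nat_lit 3041010295) (nat_lit 573) (nat_lit 5) (nat_lit 594) (nat_lit 5) (nat_lit 595) (nat_lit 5) (nat_lit 424) (nat_lit 412) (nat_lit 304)))) (XT.nd (nat_lit 156) (nat_lit 0) (nat_lit 76) (XT.nd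 (nat_lit 78) (nat_lit 0) (nat_lit 76) (XT.lf (nat_lit 76) (nat_lit 609788886) (nat_lit 0) (nat_lit 2492159254) (nat_lit 1672) (nat_lit 6206067488) (nat_lit 574) (nat_lit 5) (nat_lit 573) (nat_lit 5) (nat_lit 595) (nat_lit 5) (nat_lit 425) (nat_lit 412) (nat_lit 303)) (XT.lf (nat_lit 0) (nat_lit 4371063367) (nat_lit 1596) (nat_lit 3720058190) (nat_lit 1672) (nat_lit 1297207003) (nat_lit 574) (nat_lit 5) (nat_lit 595) (nat_lit 5) (nat_lit 596) (nat_lit 5) (nat_lit 426) (nat_lit 412) (nat_lit 302))) (XT.nd (nat_lit 78) (nat_lit 0) (nat_lit 0) (XT.lf (nat_lit 76) (nat_lit 1343042330) (nat_lit 0) (nat_lit 4325360716) (nat_lit 1672) (nat_lit 3801787861) (nat_lit 575) (nat_lit 5) (nat_lit 574) (nat_lit 5) (nat_lit 596) (nat_lit 5) (nat_lit 427) (nat_lit 412) (nat_lit 301)) (XT.lf (nat_lit 76) (nat_lit 6542193510) (nat_lit 0) (nat_lit 452414753) (nat_lit 1672) (nat_lit 2559023864) (nat_lit 575) (nat_lit 5) (nat_lit 574) (nat_lit 5) (nat_lit 596)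 (nat_lit 5) (nat_lit 428) (nat_lit 412) (nat_lit 300)))))) (XT.nd (nat_lit 468) (nat_lit 5092) (nat_lit 0) (XT.nd (nat_lit 234) (nat_lit 0) (nat_lit 76) (XT.nd (nat_lit 78) (nat_lit 1672) (nat_lit 0) (XT.lf (nat_lit 76) (nat_lit 2196882650) (nat_lit 0) (nat_lit 6165858055) (nat_lit 1672) (nat_lit 1275693403) (nat_lit 576) (nat_lit 5) (nat_lit 575) (nat_lit 5) (nat_lit 597) (nat_lit 5) (nat_lit 429) (nat_lit 412) (nat_lit 299)) (XT.nd (nat_lit 78) (nat_lit 0) (nat_lit 76) (XT.lf (nat_lit 0) (nat_lit 34813712) (nat_lit 1672) (nat_lit 2193667398) (nat_lit 1748) (nat_lit 7496407759) (nat_lit 553) (nat_lit 5) (nat_lit 575) (nat_lit 5) (nat_lit 576) (nat_lit 5) (nat_lit 430) (nat_lit 412) (nat_lit 298)) (XT.lf (nat_lit 0) (nat_lit 1365952266) (nat_lit 1672) (nat_lit 6648025959) (nat_lit 1748) (nat_lit 1798695795) (nat_lit 554) (nat_lit 5) (nat_lit 576) (nat_lit 5) (nat_lit 577) (nat_lit 5) (nat_lit 431) (nat_lit 412) (nat_lit 297)))) (XT.nd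 (nat_lit 78) (nat_lit 0) (nat_lit 76) (XT.lf (nat_lit 0) (nat_lit 2732661085) (nat_lit 1672) (nat_lit 1272924763) (nat_lit 1748) (nat_lit 5896450078) (nat_lit 554) (nat_lit 5) (nat_lit 576) (nat_lit 5) (nat_lit 577) (nat_lit 5) (nat_lit 432) (nat_lit 412) (nat_lit 296)) (XT.nd (nat_lit 78) (nat_lit 0) (nat_lit 0) (XT.lf (nat_lit 0) (nat_lit 4134822544) (nat_lit 1672) (nat_lit 5744074548) (nat_lit 1748) (nat_lit 114125607) (nat_lit 555) (nat_lit 5) (nat_lit 577) (nat_lit 5) (nat_lit 578) (nat_lit 5) (nat_lit 433) (nat_lit 412) (nat_lit 295)) (XT.lf (nat_lit 0) (nat_lit 5580251948) (nat_lit 1672) (nat_lit 229752283) (nat_lit 1748) (nat_lit 4275520483) (nat_lit 555) (nat_lit 5) (nat_lit 577) (nat_lit 5) (nat_lit 578) (nat_lit 5) (nat_lit 434) (nat_lit 412) (nat_lit 294))))) (XT.nd (nat_lit 234) (nat_lit 3648) (nat_lit 0) (XT.nd (nat_lit 78) (nat_lit 1596) (nat_lit 0) (XT.lf (nat_lit 76) (nat_lit 5450633006) (nat_lit 0) (nat_lit 1619835366)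 (nat_lit 1748) (nat_lit 3109090830) (nat_lit 556) (nat_lit 5) (nat_lit 555) (nat_lit 5) (nat_lit 578) (nat_lit 5) (nat_lit 435) (nat_lit 412) (nat_lit 293)) (XT.nd (nat_lit 78) (nat_lit 0) (nat_lit 0) (XT.lf (nat_lit 0) (nat_lit 951519315) (nat_lit 1672) (nat_lit 7644726158) (nat_lit 1748) (nat_lit 1679113777) (nat_lit 534) (nat_lit 5) (nat_lit 556) (nat_lit 5) (nat_lit 557) (nat_lit 5) (nat_lit 436) (nat_lit 412) (nat_lit 292)) (XT.lf (nat_lit 0) (nat_lit 6782896769) (nat_lit 1672) (nat_lit 3393099108) (nat_lit 1748) (nat_lit 196610269) (nat_lit 534) (nat_lit 5) (nat_lit 556) (nat_lit 5) (nat_lit 557) (nat_lit 5) (nat_lit 437) (nat_lit 412) (nat_lit 291)))) (XT.nd (nat_lit 156) (nat_lit 1824) (nat_lit 0) (XT.nd (nat_lit 78) (nat_lit 0) (nat_lit 0) (XT.lf (nat_lit 0) (nat_lit 1300606063) (nat_lit 1824) (nat_lit 8213589978) (nat_lit 76) (nat_lit 957384783) (nat_lit 510) (nat_lit 5) (nat_lit 534) (nat_lit 5) (nat_lit 511) (nat_lit 5) (nat_lit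 438) (nat_lit 412) (nat_lit 290)) (XT.lf (nat_lit 0) (nat_lit 2853453019) (nat_lit 1824) (nat_lit 2340807906) (nat_lit 76) (nat_lit 5377681702) (nat_lit 510) (nat_lit 5) (nat_lit 534) (nat_lit 5) (nat_lit 511) (nat_lit 5) (nat_lit 439) (nat_lit 412) (nat_lit 289))) (XT.nd (nat_lit 78) (nat_lit 0) (nat_lit 0) (XT.lf (nat_lit 0) (nat_lit 3681908127) (nat_lit 1824) (nat_lit 761312238) (nat_lit 1900) (nat_lit 6230974032) (nat_lit 486) (nat_lit 5) (nat_lit 510) (nat_lit 5) (nat_lit 511) (nat_lit 5) (nat_lit 440) (nat_lit 412) (nat_lit 288)) (XT.lf (nat_lit 0) (nat_lit 6087232847) (nat_lit 1900) (nat_lit 961962533) (nat_lit 76) (nat_lit 3728846825) (nat_lit 486) (nat_lit 5) (nat_lit 511) (nat_lit 5) (nat_lit 487) (nat_lit 5) (nat_lit 441) (nat_lit 412) (nat_lit 287))))))) (XT.nd (nat_lit 1014) (nat_lit 5852) (nat_lit 0) (XT.nd (nat_lit 468) (nat_lit 3420) (nat_lit 0) (XT.nd (nat_lit 234) (nat_lit 1748) (nat_lit 0) (XT.nd (nat_lit 78) (nat_lit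 988) (nat_lit 0) (XT.lf (nat_lit 0) (nat_lit 5236847403) (nat_lit 1140) (nat_lit 2548893003) (nat_lit 1216) (nat_lit 3097794268) (nat_lit 471) (nat_lit 5) (nat_lit 486) (nat_lit 5) (nat_lit 487) (nat_lit 5) (nat_lit 442) (nat_lit 412) (nat_lit 286)) (XT.nd (nat_lit 78) (nat_lit 76) (nat_lit 0) (XT.lf (nat_lit 0) (nat_lit 559698195) (nat_lit 912) (nat_lit 8964728051) (nat_lit 988) (nat_lit 1466586583) (nat_lit 459) (nat_lit 5) (nat_lit 471) (nat_lit 5) (nat_lit 472) (nat_lit 5) (nat_lit 443) (nat_lit 412) (nat_lit 285)) (XT.lf (nat_lit 0) (nat_lit 232624909) (nat_lit 988) (nat_lit 4167672695) (nat_lit 76) (nat_lit 6699557999) (nat_lit 458) (nat_lit 5) (nat_lit 471) (nat_lit 5) (nat_lit 459) (nat_lit 5) (nat_lit 444) (nat_lit 412) (nat_lit 284)))) (XT.nd (nat_lit 78) (nat_lit 836) (nat_lit 0) (XT.lf (nat_lit 0) (nat_lit 1945748855) (nat_lit 988) (nat_lit 8987656994) (nat_lit 76) (nat_lit 277284185) (nat_lit 446) (nat_lit 5) (nat_lit 459)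 (nat_lit 5) (nat_lit 447) (nat_lit 5) (nat_lit 445) (nat_lit 412) (nat_lit 283)) (XT.nd (nat_lit 78) (nat_lit 836) (nat_lit 0) (XT.lf (nat_lit 0) (nat_lit 3733937523) (nat_lit 988) (nat_lit 2570507953) (nat_lit 76) (nat_lit 5018479633) (nat_lit 446) (nat_lit 5) (nat_lit 459) (nat_lit 5) (nat_lit 447) (nat_lit 5) (nat_lit 446) (nat_lit 412) (nat_lit 282)) (XT.lf (nat_lit 0) (nat_lit 4011868405) (nat_lit 836) (nat_lit 1555901335) (nat_lit 912) (nat_lit 5869437548) (nat_lit 435) (nat_lit 5) (nat_lit 446) (nat_lit 5) (nat_lit 447) (nat_lit 5) (nat_lit 447) (nat_lit 412) (nat_lit 281))))) (XT.nd (nat_lit 234) (nat_lit 1672) (nat_lit 0) (XT.nd (nat_lit 78) (nat_lit 1748) (nat_lit 0) (XT.lf (nat_lit 0) (nat_lit 7461037385) (nat_lit 912) (nat_lit 830103212) (nat_lit 76) (nat_lit 3262179340) (nat_lit 435) (nat_lit 5) (nat_lit 447) (nat_lit 5) (nat_lit 436) (nat_lit 5) (nat_lit 448) (nat_lit 412) (nat_lit 280)) (XT.nd (nat_lit 78) (nat_lit 836)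 (nat_lit 0) (XT.lf (nat_lit 0) (nat_lit 5949120019) (nat_lit 912) (nat_lit 3476342445) (nat_lit 988) (nat_lit 2245626532) (nat_lit 423) (nat_lit 5) (nat_lit 435) (nat_lit 5) (nat_lit 436) (nat_lit 5) (nat_lit 449) (nat_lit 412) (nat_lit 279)) (XT.lf (nat_lit 0) (nat_lit 1072955665) (nat_lit 836) (nat_lit 10362676964) (nat_lit 912) (nat_lit 355451677) (nat_lit 412) (nat_lit 5) (nat_lit 423) (nat_lit 5) (nat_lit 424) (nat_lit 5) (nat_lit 450) (nat_lit 412) (nat_lit 278)))) (XT.nd (nat_lit 156) (nat_lit 760) (nat_lit 0) (XT.nd (nat_lit 78) (nat_lit 836) (nat_lit 0) (XT.lf (nat_lit 0) (nat_lit 1598243657) (nat_lit 912) (nat_lit 3880797874) (nat_lit 76) (nat_lit 6433306974) (nat_lit 411) (nat_lit 5) (nat_lit 423) (nat_lit 5) (nat_lit 412) (nat_lit 5) (nat_lit 451) (nat_lit 412) (nat_lit 277)) (XT.lf (nat_lit 0) (nat_lit 3116165588) (nat_lit 836) (nat_lit 475292226) (nat_lit 912) (nat_lit 8444429094) (nat_lit 400) (nat_lit 5) (nat_lit 411)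 (nat_lit 5) (nat_lit 412) (nat_lit 5) (nat_lit 452) (nat_lit 412) (nat_lit 276))) (XT.nd (nat_lit 78) (nat_lit 760) (nat_lit 0) (XT.lf (nat_lit 0) (nat_lit 5665959645) (nat_lit 912) (nat_lit 1901744131) (nat_lit 76) (nat_lit 4593363836) (nat_lit 400) (nat_lit 5) (nat_lit 412) (nat_lit 5) (nat_lit 401) (nat_lit 5) (nat_lit 453) (nat_lit 412) (nat_lit 275)) (XT.lf (nat_lit 0) (nat_lit 5307546074) (nat_lit 760) (nat_lit 2497461441) (nat_lit 836) (nat_lit 4483283295) (nat_lit 390) (nat_lit 5) (nat_lit 400) (nat_lit 5) (nat_lit 401) (nat_lit 5) (nat_lit 454) (nat_lit 412) (nat_lit 274)))))) (XT.nd (nat_lit 546) (nat_lit 2812) (nat_lit 0) (XT.nd (nat_lit 234) (nat_lit 1444) (nat_lit 0) (XT.nd (nat_lit 78) (nat_lit 836) (nat_lit 0) (XT.lf (nat_lit 0) (nat_lit 238998019) (nat_lit 760) (nat_lit 9765225676) (nat_lit 836) (nat_lit 2413487029) (nat_lit 380) (nat_lit 5) (nat_lit 390) (nat_lit 5) (nat_lit 391) (nat_lit 5) (nat_lit 455) (nat_lit 412)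 (nat_lit 273)) (XT.nd (nat_lit 78) (nat_lit 836) (nat_lit 0) (XT.lf (nat_lit 0) (nat_lit 7665418518) (nat_lit 760) (nat_lit 4631088280) (nat_lit 836) (nat_lit 252230588) (nat_lit 380) (nat_lit 5) (nat_lit 390) (nat_lit 5) (nat_lit 391) (nat_lit 5) (nat_lit 456) (nat_lit 412) (nat_lit 272)) (XT.lf (nat_lit 0) (nat_lit 1933401675) (nat_lit 836) (nat_lit 10122732260) (nat_lit 76) (nat_lit 625862042) (nat_lit 369) (nat_lit 5) (nat_lit 380) (nat_lit 5) (nat_lit 370) (nat_lit 5) (nat_lit 457) (nat_lit 412) (nat_lit 271)))) (XT.nd (nat_lit 156) (nat_lit 684) (nat_lit 0) (XT.nd (nat_lit 78) (nat_lit 760) (nat_lit 0) (XT.lf (nat_lit 0) (nat_lit 4209187039) (nat_lit 836) (nat_lit 2648557789) (nat_lit 76) (nat_lit 5959145212) (nat_lit 369) (nat_lit 5) (nat_lit 380) (nat_lit 5) (nat_lit 370) (nat_lit 5) (nat_lit 458) (nat_lit 412) (nat_lit 270)) (XT.lf (nat_lit 0) (nat_lit 5025690265) (nat_lit 760) (nat_lit 1523857910) (nat_lit 836) (nat_lit 6404552607)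 (nat_lit 359) (nat_lit 5) (nat_lit 369) (nat_lit 5) (nat_lit 370) (nat_lit 5) (nat_lit 459) (nat_lit 412) (nat_lit 269))) (XT.nd (nat_lit 78) (nat_lit 684) (nat_lit 0) (XT.lf (nat_lit 0) (nat_lit 8966622701) (nat_lit 836) (nat_lit 245400833) (nat_lit 76) (nat_lit 3881434082) (nat_lit 359) (nat_lit 5) (nat_lit 370) (nat_lit 5) (nat_lit 360) (nat_lit 5) (nat_lit 460) (nat_lit 412) (nat_lit 268)) (XT.lf (nat_lit 0) (nat_lit 7666550782) (nat_lit 684) (nat_lit 3812204461) (nat_lit 760) (nat_lit 1755912013) (nat_lit 350) (nat_lit 5) (nat_lit 359) (nat_lit 5) (nat_lit 360) (nat_lit 5) (nat_lit 461) (nat_lit 412) (nat_lit 267))))) (XT.nd (nat_lit 234) (nat_lit 1368) (nat_lit 0) (XT.nd (nat_lit 78) (nat_lit 684) (nat_lit 0) (XT.lf (nat_lit 0) (nat_lit 668864787) (nat_lit 760) (nat_lit 11016710681) (nat_lit 76) (nat_lit 1692737136) (nat_lit 340) (nat_lit 5) (nat_lit 350) (nat_lit 5) (nat_lit 341) (nat_lit 5) (nat_lit 462) (nat_lit 412) (nat_lit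 266)) (XT.nd (nat_lit 78) (nat_lit 684) (nat_lit 0) (XT.lf (nat_lit 0) (nat_lit 3168572251) (nat_lit 760) (nat_lit 3051206221) (nat_lit 76) (nat_lit 7303821319) (nat_lit 340) (nat_lit 5) (nat_lit 350) (nat_lit 5) (nat_lit 341) (nat_lit 5) (nat_lit 463) (nat_lit 412) (nat_lit 265)) (XT.lf (nat_lit 0) (nat_lit 5125742933) (nat_lit 684) (nat_lit 613130242) (nat_lit 760) (nat_lit 7932507561) (nat_lit 331) (nat_lit 5) (nat_lit 340) (nat_lit 5) (nat_lit 341) (nat_lit 5) (nat_lit 464) (nat_lit 412) (nat_lit 264)))) (XT.nd (nat_lit 156) (nat_lit 684) (nat_lit 0) (XT.nd (nat_lit 78) (nat_lit 684) (nat_lit 0) (XT.lf (nat_lit 0) (nat_lit 8401795096) (nat_lit 760) (nat_lit 362627443) (nat_lit 76) (nat_lit 5056870462) (nat_lit 331) (nat_lit 5) (nat_lit 341) (nat_lit 5) (nat_lit 332) (nat_lit 5) (nat_lit 465) (nat_lit 412) (nat_lit 263)) (XT.lf (nat_lit 0) (nat_lit 8070906846) (nat_lit 684) (nat_lit 3091231643) (nat_lit 760) (nat_lit 2811181760) (nat_lit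 322) (nat_lit 5) (nat_lit 331) (nat_lit 5) (nat_lit 332) (nat_lit 5) (nat_lit 466) (nat_lit 412) (nat_lit 262))) (XT.nd (nat_lit 78) (nat_lit 76) (nat_lit 0) (XT.lf (nat_lit 0) (nat_lit 2550567802) (nat_lit 608) (nat_lit 11451459339) (nat_lit 684) (nat_lit 125874134) (nat_lit 314) (nat_lit 5) (nat_lit 322) (nat_lit 5) (nat_lit 323) (nat_lit 5) (nat_lit 467) (nat_lit 412) (nat_lit 261)) (XT.lf (nat_lit 0) (nat_lit 2627100476) (nat_lit 684) (nat_lit 3084981241) (nat_lit 76) (nat_lit 8572188227) (nat_lit 313) (nat_lit 5) (nat_lit 322) (nat_lit 5) (nat_lit 314) (nat_lit 5) (nat_lit 468) (nat_lit 412) (nat_lit 260))))))))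
noncomputable def xc104 : XT := (XT.nd (nat_lit 56628) (nat_lit 0) (nat_lit 6156) (XT.nd (nat_lit 55614) (nat_lit 0) (nat_lit 20140) (XT.nd (nat_lit 55068) (nat_lit 0) (nat_lit 22876) (XT.nd (nat_lit 234) (nat_lit 684) (nat_lit 0) (XT.nd (nat_lit 78) (nat_lit 608) (nat_lit 0) (XT.lf (nat_lit 0) (nat_lit 5459318867) (nat_lit 684) (nat_lit 8808931679) (nat_lit 76) (nat_lit 174981405) (nat_lit 305) (nat_lit 5) (nat_lit 314) (nat_lit 5) (nat_lit 306) (nat_lit 5) (nat_lit 469) (nat_lit 412) (nat_lit 259)) (XT.nd (nat_lit 78) (nat_lit 608) (nat_lit 0) (XT.lf (nat_lit 0) (nat_lit 8395094465) (nat_lit 684) (nat_lit 88077472) (nat_lit 76) (nat_lit 6121263005) (nat_lit 305) (nat_lit 5) (nat_lit 314) (nat_lit 5) (nat_lit 306) (nat_lit 5) (nat_lit 470) (nat_lit 412) (nat_lit 258)) (XT.lf (nat_lit 0) (nat_lit 8909397059) (nat_lit 608) (nat_lit 2526510247) (nat_lit 684) (nat_lit 3332028251) (nat_lit 297) (nat_lit 5) (nat_lit 305) (nat_lit 5) (nat_lit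 306) (nat_lit 5) (nat_lit 471) (nat_lit 412) (nat_lit 257)))) (XT.nd (nat_lit 78) (nat_lit 76) (nat_lit 0) (XT.lf (nat_lit 0) (nat_lit 3156919864) (nat_lit 608) (nat_lit 11413339653) (nat_lit 684) (nat_lit 363792206) (nat_lit 289) (nat_lit 5) (nat_lit 297) (nat_lit 5) (nat_lit 298) (nat_lit 5) (nat_lit 472) (nat_lit 412) (nat_lit 256)) (XT.nd (nat_lit 54678) (nat_lit 0) (nat_lit 24472) (XT.lf (nat_lit 0) (nat_lit 2673819222) (nat_lit 684) (nat_lit 2719699922) (nat_lit 76) (nat_lit 9708726224) (nat_lit 288) (nat_lit 5) (nat_lit 297) (nat_lit 5) (nat_lit 289) (nat_lit 5) (nat_lit 473) (nat_lit 412) (nat_lit 255)) (XT.lf (nat_lit 0) (nat_lit 1919912046) (nat_lit 0) (nat_lit 1919912046) (nat_lit 1444) (nat_lit 418724799) (nat_lit 610) (nat_lit 5) (nat_lit 610) (nat_lit 3) (nat_lit 629) (nat_lit 3) (nat_lit 413) (nat_lit 413) (nat_lit 314))))) (XT.nd (nat_lit 234) (nat_lit 0) (nat_lit 152) (XT.nd (nat_lit 78) (nat_lit 0) (nat_lit 76) (XT.lf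 (nat_lit 0) (nat_lit 207133765) (nat_lit 1596) (nat_lit 413233148) (nat_lit 1596) (nat_lit 7961174385) (nat_lit 589) (nat_lit 3) (nat_lit 610) (nat_lit 3) (nat_lit 610) (nat_lit 5) (nat_lit 414) (nat_lit 413) (nat_lit 313)) (XT.nd (nat_lit 78) (nat_lit 0) (nat_lit 0) (XT.lf (nat_lit 0) (nat_lit 1277431868) (nat_lit 1520) (nat_lit 4696127114) (nat_lit 1596) (nat_lit 2673283261) (nat_lit 590) (nat_lit 5) (nat_lit 610) (nat_lit 5) (nat_lit 611) (nat_lit 5) (nat_lit 415) (nat_lit 413) (nat_lit 312)) (XT.lf (nat_lit 0) (nat_lit 2349237812) (nat_lit 1520) (nat_lit 324444772) (nat_lit 1596) (nat_lit 6040164586) (nat_lit 590) (nat_lit 5) (nat_lit 610) (nat_lit 5) (nat_lit 611) (nat_lit 5) (nat_lit 416) (nat_lit 413) (nat_lit 311)))) (XT.nd (nat_lit 156) (nat_lit 0) (nat_lit 0) (XT.nd (nat_lit 78) (nat_lit 0) (nat_lit 0) (XT.lf (nat_lit 0) (nat_lit 3448068077) (nat_lit 1520) (nat_lit 4611681772) (nat_lit 1596) (nat_lit 722330582) (nat_lit 591)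 (nat_lit 5) (nat_lit 611) (nat_lit 5) (nat_lit 612) (nat_lit 5) (nat_lit 417) (nat_lit 413) (nat_lit 310)) (XT.lf (nat_lit 0) (nat_lit 4563000625) (nat_lit 1520) (nat_lit 124503279) (nat_lit 1596) (nat_lit 4164291940) (nat_lit 591) (nat_lit 5) (nat_lit 611) (nat_lit 5) (nat_lit 612) (nat_lit 5) (nat_lit 418) (nat_lit 413) (nat_lit 309))) (XT.nd (nat_lit 78) (nat_lit 0) (nat_lit 76) (XT.lf (nat_lit 76) (nat_lit 4497001259) (nat_lit 0) (nat_lit 1207160978) (nat_lit 1596) (nat_lit 3218664720) (nat_lit 592) (nat_lit 5) (nat_lit 591) (nat_lit 5) (nat_lit 612) (nat_lit 5) (nat_lit 419) (nat_lit 413) (nat_lit 308)) (XT.lf (nat_lit 76) (nat_lit 189766266) (nat_lit 0) (nat_lit 6670868915) (nat_lit 1596) (nat_lit 2134793749) (nat_lit 593) (nat_lit 5) (nat_lit 592) (nat_lit 5) (nat_lit 613) (nat_lit 5) (nat_lit 420) (nat_lit 413) (nat_lit 307)))))) (XT.nd (nat_lit 468) (nat_lit 1444) (nat_lit 0) (XT.nd (nat_lit 234) (nat_lit 0) (nat_lit 0) (XT.nd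 (nat_lit 78) (nat_lit 1520) (nat_lit 0) (XT.lf (nat_lit 76) (nat_lit 4934792769) (nat_lit 0) (nat_lit 3118680638) (nat_lit 1596) (nat_lit 1015744819) (nat_lit 593) (nat_lit 5) (nat_lit 592) (nat_lit 5) (nat_lit 613) (nat_lit 5) (nat_lit 421) (nat_lit 413) (nat_lit 306)) (XT.nd (nat_lit 78) (nat_lit 0) (nat_lit 0) (XT.lf (nat_lit 0) (nat_lit 107363051) (nat_lit 1596) (nat_lit 8525448066) (nat_lit 1672) (nat_lit 511989344) (nat_lit 572) (nat_lit 5) (nat_lit 593) (nat_lit 5) (nat_lit 594) (nat_lit 5) (nat_lit 422) (nat_lit 413) (nat_lit 305)) (XT.lf (nat_lit 0) (nat_lit 1264276107) (nat_lit 1596) (nat_lit 3739890066) (nat_lit 1672) (nat_lit 4217095009) (nat_lit 572) (nat_lit 5) (nat_lit 593) (nat_lit 5) (nat_lit 594) (nat_lit 5) (nat_lit 423) (nat_lit 413) (nat_lit 304)))) (XT.nd (nat_lit 78) (nat_lit 0) (nat_lit 76) (XT.lf (nat_lit 76) (nat_lit 1141412052) (nat_lit 0) (nat_lit 1287139622) (nat_lit 1672) (nat_lit 6871014958) (nat_lit 573)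 (nat_lit 5) (nat_lit 572) (nat_lit 5) (nat_lit 594) (nat_lit 5) (nat_lit 424) (nat_lit 413) (nat_lit 303)) (XT.nd (nat_lit 78) (nat_lit 0) (nat_lit 0) (XT.lf (nat_lit 0) (nat_lit 3634858310) (nat_lit 1596) (nat_lit 3239673197) (nat_lit 1672) (nat_lit 2504531773) (nat_lit 573) (nat_lit 5) (nat_lit 594) (nat_lit 5) (nat_lit 595) (nat_lit 5) (nat_lit 425) (nat_lit 413) (nat_lit 302)) (XT.lf (nat_lit 76) (nat_lit 1776912118) (nat_lit 0) (nat_lit 3086110169) (nat_lit 1672) (nat_lit 4597172950) (nat_lit 574) (nat_lit 5) (nat_lit 573) (nat_lit 5) (nat_lit 595) (nat_lit 5) (nat_lit 426) (nat_lit 413) (nat_lit 301))))) (XT.nd (nat_lit 234) (nat_lit 1596) (nat_lit 0) (XT.nd (nat_lit 78) (nat_lit 0) (nat_lit 0) (XT.lf (nat_lit 0) (nat_lit 6120741964) (nat_lit 1596) (nat_lit 2625399680) (nat_lit 1672) (nat_lit 796708340) (nat_lit 574) (nat_lit 5) (nat_lit 595) (nat_lit 5) (nat_lit 596) (nat_lit 5) (nat_lit 427) (nat_lit 413) (nat_lit 300)) (XT.nd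 (nat_lit 78) (nat_lit 0) (nat_lit 0) (XT.lf (nat_lit 76) (nat_lit 2531271667) (nat_lit 0) (nat_lit 4887703862) (nat_lit 1672) (nat_lit 2207875107) (nat_lit 575) (nat_lit 5) (nat_lit 574) (nat_lit 5) (nat_lit 596) (nat_lit 5) (nat_lit 428) (nat_lit 413) (nat_lit 299)) (XT.lf (nat_lit 76) (nat_lit 7811633940) (nat_lit 0) (nat_lit 927968863) (nat_lit 1672) (nat_lit 972999919) (nat_lit 575) (nat_lit 5) (nat_lit 574) (nat_lit 5) (nat_lit 596) (nat_lit 5) (nat_lit 429) (nat_lit 413) (nat_lit 298)))) (XT.nd (nat_lit 156) (nat_lit 0) (nat_lit 76) (XT.nd (nat_lit 78) (nat_lit 0) (nat_lit 0) (XT.lf (nat_lit 0) (nat_lit 304540940) (nat_lit 1672) (nat_lit 6394815850) (nat_lit 1748) (nat_lit 3100241314) (nat_lit 553) (nat_lit 5) (nat_lit 575) (nat_lit 5) (nat_lit 576) (nat_lit 5) (nat_lit 430) (nat_lit 413) (nat_lit 297)) (XT.lf (nat_lit 0) (nat_lit 1593041991) (nat_lit 1672) (nat_lit 1073699238) (nat_lit 1748) (nat_lit 7221494777) (nat_lit 553) (nat_lit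 5) (nat_lit 575) (nat_lit 5) (nat_lit 576) (nat_lit 5) (nat_lit 431) (nat_lit 413) (nat_lit 296))) (XT.nd (nat_lit 78) (nat_lit 0) (nat_lit 0) (XT.lf (nat_lit 0) (nat_lit 2925313924) (nat_lit 1672) (nat_lit 5591655579) (nat_lit 1748) (nat_lit 1461317146) (nat_lit 554) (nat_lit 5) (nat_lit 576) (nat_lit 5) (nat_lit 577) (nat_lit 5) (nat_lit 432) (nat_lit 413) (nat_lit 295)) (XT.lf (nat_lit 0) (nat_lit 4289316868) (nat_lit 1672) (nat_lit 132372572) (nat_lit 1748) (nat_lit 5648347153) (nat_lit 554) (nat_lit 5) (nat_lit 576) (nat_lit 5) (nat_lit 577) (nat_lit 5) (nat_lit 433) (nat_lit 413) (nat_lit 294))))))) (XT.nd (nat_lit 1014) (nat_lit 5852) (nat_lit 0) (XT.nd (nat_lit 468) (nat_lit 4864) (nat_lit 0) (XT.nd (nat_lit 234) (nat_lit 3344) (nat_lit 0) (XT.nd (nat_lit 78) (nat_lit 0) (nat_lit 76) (XT.lf (nat_lit 76) (nat_lit 5493047838) (nat_lit 0) (nat_lit 203777553) (nat_lit 1748) (nat_lit 4466471634) (nat_lit 555) (nat_lit 5) (nat_lit 554)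 (nat_lit 5) (nat_lit 577) (nat_lit 5) (nat_lit 434) (nat_lit 413) (nat_lit 293)) (XT.nd (nat_lit 78) (nat_lit 0) (nat_lit 0) (XT.lf (nat_lit 76) (nat_lit 944739083) (nat_lit 0) (nat_lit 6202255048) (nat_lit 1748) (nat_lit 3111138334) (nat_lit 556) (nat_lit 5) (nat_lit 555) (nat_lit 5) (nat_lit 578) (nat_lit 5) (nat_lit 435) (nat_lit 413) (nat_lit 292)) (XT.lf (nat_lit 76) (nat_lit 6718666025) (nat_lit 0) (nat_lit 1921328286) (nat_lit 1748) (nat_lit 1714593743) (nat_lit 556) (nat_lit 5) (nat_lit 555) (nat_lit 5) (nat_lit 578) (nat_lit 5) (nat_lit 436) (nat_lit 413) (nat_lit 291)))) (XT.nd (nat_lit 78) (nat_lit 1824) (nat_lit 0) (XT.lf (nat_lit 0) (nat_lit 2152055004) (nat_lit 1672) (nat_lit 8022187888) (nat_lit 1748) (nat_lit 278502093) (nat_lit 534) (nat_lit 5) (nat_lit 556) (nat_lit 5) (nat_lit 557) (nat_lit 5) (nat_lit 437) (nat_lit 413) (nat_lit 290)) (XT.nd (nat_lit 78) (nat_lit 1748) (nat_lit 0) (XT.lf (nat_lit 0) (nat_lit 1189719291)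 (nat_lit 1748) (nat_lit 2483422084) (nat_lit 76) (nat_lit 6879190302) (nat_lit 533) (nat_lit 5) (nat_lit 556) (nat_lit 5) (nat_lit 534) (nat_lit 5) (nat_lit 438) (nat_lit 413) (nat_lit 289)) (XT.lf (nat_lit 0) (nat_lit 2693339620) (nat_lit 1824) (nat_lit 7180172172) (nat_lit 76) (nat_lit 780166220) (nat_lit 510) (nat_lit 5) (nat_lit 534) (nat_lit 5) (nat_lit 511) (nat_lit 5) (nat_lit 439) (nat_lit 413) (nat_lit 288))))) (XT.nd (nat_lit 234) (nat_lit 1900) (nat_lit 0) (XT.nd (nat_lit 78) (nat_lit 2964) (nat_lit 0) (XT.lf (nat_lit 0) (nat_lit 4250445055) (nat_lit 1824) (nat_lit 1213418568) (nat_lit 76) (nat_lit 5292719396) (nat_lit 510) (nat_lit 5) (nat_lit 534) (nat_lit 5) (nat_lit 511) (nat_lit 5) (nat_lit 440) (nat_lit 413) (nat_lit 287)) (XT.nd (nat_lit 78) (nat_lit 1140) (nat_lit 0) (XT.lf (nat_lit 0) (nat_lit 4922026749) (nat_lit 1824) (nat_lit 931281565) (nat_lit 1900) (nat_lit 5007945500) (nat_lit 486) (nat_lit 5) (nat_lit 510)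 (nat_lit 5) (nat_lit 511) (nat_lit 5) (nat_lit 441) (nat_lit 413) (nat_lit 286)) (XT.lf (nat_lit 0) (nat_lit 191813517) (nat_lit 1140) (nat_lit 7312741570) (nat_lit 1216) (nat_lit 3463136411) (nat_lit 471) (nat_lit 5) (nat_lit 486) (nat_lit 5) (nat_lit 487) (nat_lit 5) (nat_lit 442) (nat_lit 413) (nat_lit 285)))) (XT.nd (nat_lit 156) (nat_lit 988) (nat_lit 0) (XT.nd (nat_lit 78) (nat_lit 912) (nat_lit 0) (XT.lf (nat_lit 0) (nat_lit 6504383328) (nat_lit 1140) (nat_lit 2713574689) (nat_lit 1216) (nat_lit 1857717295) (nat_lit 471) (nat_lit 5) (nat_lit 486) (nat_lit 5) (nat_lit 487) (nat_lit 5) (nat_lit 443) (nat_lit 413) (nat_lit 284)) (XT.lf (nat_lit 0) (nat_lit 1752136622) (nat_lit 912) (nat_lit 9221197142) (nat_lit 988) (nat_lit 212330942) (nat_lit 459) (nat_lit 5) (nat_lit 471) (nat_lit 5) (nat_lit 472) (nat_lit 5) (nat_lit 444) (nat_lit 413) (nat_lit 283))) (XT.nd (nat_lit 78) (nat_lit 912) (nat_lit 0) (XT.lf (nat_lit 0) (nat_lit 1479192009)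 (nat_lit 988) (nat_lit 3076438951) (nat_lit 76) (nat_lit 6741383464) (nat_lit 458) (nat_lit 5) (nat_lit 471) (nat_lit 5) (nat_lit 459) (nat_lit 5) (nat_lit 445) (nat_lit 413) (nat_lit 282)) (XT.lf (nat_lit 0) (nat_lit 3209424803) (nat_lit 988) (nat_lit 7975669306) (nat_lit 76) (nat_lit 225314506) (nat_lit 446) (nat_lit 5) (nat_lit 459) (nat_lit 5) (nat_lit 447) (nat_lit 5) (nat_lit 446) (nat_lit 413) (nat_lit 281)))))) (XT.nd (nat_lit 468) (nat_lit 3192) (nat_lit 0) (XT.nd (nat_lit 234) (nat_lit 912) (nat_lit 0) (XT.nd (nat_lit 78) (nat_lit 1748) (nat_lit 0) (XT.lf (nat_lit 0) (nat_lit 5009362323) (nat_lit 988) (nat_lit 1453544751) (nat_lit 76) (nat_lit 5062461616) (nat_lit 446) (nat_lit 5) (nat_lit 459) (nat_lit 5) (nat_lit 447) (nat_lit 5) (nat_lit 447) (nat_lit 413) (nat_lit 280)) (XT.nd (nat_lit 78) (nat_lit 912) (nat_lit 0) (XT.lf (nat_lit 0) (nat_lit 5252792468) (nat_lit 836) (nat_lit 1611070625) (nat_lit 912) (nat_lit 4778393583)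 (nat_lit 435) (nat_lit 5) (nat_lit 446) (nat_lit 5) (nat_lit 447) (nat_lit 5) (nat_lit 448) (nat_lit 413) (nat_lit 279)) (XT.lf (nat_lit 0) (nat_lit 318787055) (nat_lit 912) (nat_lit 8454895561) (nat_lit 988) (nat_lit 2987435230) (nat_lit 423) (nat_lit 5) (nat_lit 435) (nat_lit 5) (nat_lit 436) (nat_lit 5) (nat_lit 449) (nat_lit 413) (nat_lit 278)))) (XT.nd (nat_lit 78) (nat_lit 912) (nat_lit 0) (XT.lf (nat_lit 0) (nat_lit 7221773596) (nat_lit 912) (nat_lit 3538271562) (nat_lit 988) (nat_lit 1121544150) (nat_lit 423) (nat_lit 5) (nat_lit 435) (nat_lit 5) (nat_lit 436) (nat_lit 5) (nat_lit 450) (nat_lit 413) (nat_lit 277)) (XT.nd (nat_lit 78) (nat_lit 0) (nat_lit 0) (XT.lf (nat_lit 0) (nat_lit 780924404) (nat_lit 912) (nat_lit 9746201208) (nat_lit 76) (nat_lit 1477052858) (nat_lit 411) (nat_lit 5) (nat_lit 423) (nat_lit 5) (nat_lit 412) (nat_lit 5) (nat_lit 451) (nat_lit 413) (nat_lit 276)) (XT.lf (nat_lit 0) (nat_lit 2746610556) (nat_lit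 912) (nat_lit 2797692241) (nat_lit 76) (nat_lit 6583964636) (nat_lit 411) (nat_lit 5) (nat_lit 423) (nat_lit 5) (nat_lit 412) (nat_lit 5) (nat_lit 452) (nat_lit 413) (nat_lit 275))))) (XT.nd (nat_lit 234) (nat_lit 1596) (nat_lit 0) (XT.nd (nat_lit 78) (nat_lit 760) (nat_lit 0) (XT.lf (nat_lit 0) (nat_lit 4331574163) (nat_lit 836) (nat_lit 433711192) (nat_lit 912) (nat_lit 7489279324) (nat_lit 400) (nat_lit 5) (nat_lit 411) (nat_lit 5) (nat_lit 412) (nat_lit 5) (nat_lit 453) (nat_lit 413) (nat_lit 274)) (XT.nd (nat_lit 78) (nat_lit 760) (nat_lit 0) (XT.lf (nat_lit 0) (nat_lit 6859994598) (nat_lit 912) (nat_lit 788020639) (nat_lit 76) (nat_lit 4734659413) (nat_lit 400) (nat_lit 5) (nat_lit 412) (nat_lit 5) (nat_lit 401) (nat_lit 5) (nat_lit 454) (nat_lit 413) (nat_lit 273)) (XT.lf (nat_lit 0) (nat_lit 6557878013) (nat_lit 760) (nat_lit 2470183690) (nat_lit 836) (nat_lit 3484655843) (nat_lit 390) (nat_lit 5) (nat_lit 400) (nat_lit 5) (nat_lit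 401) (nat_lit 5) (nat_lit 455) (nat_lit 413) (nat_lit 272)))) (XT.nd (nat_lit 156) (nat_lit 760) (nat_lit 0) (XT.nd (nat_lit 78) (nat_lit 76) (nat_lit 0) (XT.lf (nat_lit 0) (nat_lit 1401132072) (nat_lit 760) (nat_lit 9857215354) (nat_lit 836) (nat_lit 1386636728) (nat_lit 380) (nat_lit 5) (nat_lit 390) (nat_lit 5) (nat_lit 391) (nat_lit 5) (nat_lit 456) (nat_lit 413) (nat_lit 271)) (XT.lf (nat_lit 0) (nat_lit 786314352) (nat_lit 836) (nat_lit 3830830056) (nat_lit 76) (nat_lit 8161796827) (nat_lit 379) (nat_lit 5) (nat_lit 390) (nat_lit 5) (nat_lit 380) (nat_lit 5) (nat_lit 457) (nat_lit 413) (nat_lit 270))) (XT.nd (nat_lit 78) (nat_lit 0) (nat_lit 0) (XT.lf (nat_lit 0) (nat_lit 3000034571) (nat_lit 836) (nat_lit 9164451636) (nat_lit 76) (nat_lit 750590394) (nat_lit 369) (nat_lit 5) (nat_lit 380) (nat_lit 5) (nat_lit 370) (nat_lit 5) (nat_lit 458) (nat_lit 413) (nat_lit 269)) (XT.lf (nat_lit 0) (nat_lit 5301179468) (nat_lit 836) (nat_lit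 1563553190) (nat_lit 76) (nat_lit 6188339009) (nat_lit 369) (nat_lit 5) (nat_lit 380) (nat_lit 5) (nat_lit 370) (nat_lit 5) (nat_lit 459) (nat_lit 413) (nat_lit 268))))))))
noncomputable def xc105 : XT := (XT.nd (nat_lit 56784) (nat_lit 0) (nat_lit 8664) (XT.nd (nat_lit 55770) (nat_lit 0) (nat_lit 20824) (XT.nd (nat_lit 468) (nat_lit 2584) (nat_lit 0) (XT.nd (nat_lit 234) (nat_lit 1444) (nat_lit 0) (XT.nd (nat_lit 78) (nat_lit 684) (nat_lit 0) (XT.lf (nat_lit 0) (nat_lit 6256693142) (nat_lit 760) (nat_lit 1419233615) (nat_lit 836) (nat_lit 5517348288) (nat_lit 359) (nat_lit 5) (nat_lit 369) (nat_lit 5) (nat_lit 370) (nat_lit 5) (nat_lit 460) (nat_lit 413) (nat_lit 267)) (XT.nd (nat_lit 78) (nat_lit 0) (nat_lit 0) (XT.lf (nat_lit 0) (nat_lit 888321704) (nat_lit 684) (nat_lit 9240131208) (nat_lit 760) (nat_lit 3207223902) (nat_lit 350) (nat_lit 5) (nat_lit 359) (nat_lit 5) (nat_lit 360) (nat_lit 5) (nat_lit 461) (nat_lit 413) (nat_lit 266))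 (XT.lf (nat_lit 0) (nat_lit 8939447510) (nat_lit 684) (nat_lit 3733730411) (nat_lit 760) (nat_lit 806885728) (nat_lit 350) (nat_lit 5) (nat_lit 359) (nat_lit 5) (nat_lit 360) (nat_lit 5) (nat_lit 462) (nat_lit 413) (nat_lit 265)))) (XT.nd (nat_lit 78) (nat_lit 684) (nat_lit 0) (XT.lf (nat_lit 0) (nat_lit 1642814595) (nat_lit 760) (nat_lit 10093907169) (nat_lit 76) (nat_lit 1889945642) (nat_lit 340) (nat_lit 5) (nat_lit 350) (nat_lit 5) (nat_lit 341) (nat_lit 5) (nat_lit 463) (nat_lit 413) (nat_lit 264)) (XT.nd (nat_lit 78) (nat_lit 684) (nat_lit 0) (XT.lf (nat_lit 0) (nat_lit 4173681453) (nat_lit 760) (nat_lit 1991507085) (nat_lit 76) (nat_lit 7610048494) (nat_lit 340) (nat_lit 5) (nat_lit 350) (nat_lit 5) (nat_lit 341) (nat_lit 5) (nat_lit 464) (nat_lit 413) (nat_lit 263)) (XT.lf (nat_lit 0) (nat_lit 6341607873) (nat_lit 684) (nat_lit 442543684) (nat_lit 760) (nat_lit 7142046775) (nat_lit 331) (nat_lit 5) (nat_lit 340) (nat_lit 5) (nat_lit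 341) (nat_lit 5) (nat_lit 465) (nat_lit 413) (nat_lit 262))))) (XT.nd (nat_lit 234) (nat_lit 1216) (nat_lit 0) (XT.nd (nat_lit 78) (nat_lit 684) (nat_lit 0) (XT.lf (nat_lit 0) (nat_lit 748538123) (nat_lit 684) (nat_lit 8739572583) (nat_lit 760) (nat_lit 4591242560) (nat_lit 322) (nat_lit 5) (nat_lit 331) (nat_lit 5) (nat_lit 332) (nat_lit 5) (nat_lit 466) (nat_lit 413) (nat_lit 261)) (XT.nd (nat_lit 78) (nat_lit 684) (nat_lit 0) (XT.lf (nat_lit 0) (nat_lit 9333632459) (nat_lit 684) (nat_lit 2954408730) (nat_lit 760) (nat_lit 1946692266) (nat_lit 322) (nat_lit 5) (nat_lit 331) (nat_lit 5) (nat_lit 332) (nat_lit 5) (nat_lit 467) (nat_lit 413) (nat_lit 260)) (XT.lf (nat_lit 0) (nat_lit 772645739) (nat_lit 684) (nat_lit 10685379412) (nat_lit 76) (nat_lit 2934463752) (nat_lit 313) (nat_lit 5) (nat_lit 322) (nat_lit 5) (nat_lit 314) (nat_lit 5) (nat_lit 468) (nat_lit 413) (nat_lit 259)))) (XT.nd (nat_lit 156) (nat_lit 608) (nat_lit 0) (XT.nd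 (nat_lit 78) (nat_lit 608) (nat_lit 0) (XT.lf (nat_lit 0) (nat_lit 3561361581) (nat_lit 684) (nat_lit 2046026819) (nat_lit 76) (nat_lit 8944932561) (nat_lit 313) (nat_lit 5) (nat_lit 322) (nat_lit 5) (nat_lit 314) (nat_lit 5) (nat_lit 469) (nat_lit 413) (nat_lit 258)) (XT.lf (nat_lit 0) (nat_lit 6441475506) (nat_lit 684) (nat_lit 7875707431) (nat_lit 76) (nat_lit 397454249) (nat_lit 305) (nat_lit 5) (nat_lit 314) (nat_lit 5) (nat_lit 306) (nat_lit 5) (nat_lit 470) (nat_lit 413) (nat_lit 257))) (XT.nd (nat_lit 78) (nat_lit 0) (nat_lit 0) (XT.lf (nat_lit 0) (nat_lit 1011071243) (nat_lit 608) (nat_lit 8414342853) (nat_lit 684) (nat_lit 5453861190) (nat_lit 297) (nat_lit 5) (nat_lit 305) (nat_lit 5) (nat_lit 306) (nat_lit 5) (nat_lit 471) (nat_lit 413) (nat_lit 256)) (XT.lf (nat_lit 0) (nat_lit 10168079293) (nat_lit 608) (nat_lit 2342633207) (nat_lit 684) (nat_lit 2535660028) (nat_lit 297) (nat_lit 5) (nat_lit 305) (nat_lit 5) (nat_lit 306)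 (nat_lit 5) (nat_lit 472) (nat_lit 413) (nat_lit 255)))))) (XT.nd (nat_lit 468) (nat_lit 1368) (nat_lit 0) (XT.nd (nat_lit 234) (nat_lit 0) (nat_lit 76) (XT.nd (nat_lit 78) (nat_lit 0) (nat_lit 0) (XT.lf (nat_lit 0) (nat_lit 613602437) (nat_lit 1596) (nat_lit 1854735443) (nat_lit 1596) (nat_lit 1854735443) (nat_lit 589) (nat_lit 3) (nat_lit 610) (nat_lit 3) (nat_lit 610) (nat_lit 5) (nat_lit 414) (nat_lit 414) (nat_lit 312)) (XT.nd (nat_lit 78) (nat_lit 0) (nat_lit 76) (XT.lf (nat_lit 76) (nat_lit 621756890) (nat_lit 0) (nat_lit 1623164738) (nat_lit 1596) (nat_lit 6467577592) (nat_lit 590) (nat_lit 5) (nat_lit 589) (nat_lit 3) (nat_lit 610) (nat_lit 5) (nat_lit 415) (nat_lit 414) (nat_lit 311)) (XT.lf (nat_lit 0) (nat_lit 3293182753) (nat_lit 1520) (nat_lit 3715543326) (nat_lit 1596) (nat_lit 1771248965) (nat_lit 590) (nat_lit 5) (nat_lit 610) (nat_lit 5) (nat_lit 611) (nat_lit 5) (nat_lit 416) (nat_lit 414) (nat_lit 310)))) (XT.nd (nat_lit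 78) (nat_lit 0) (nat_lit 0) (XT.lf (nat_lit 76) (nat_lit 732105607) (nat_lit 0) (nat_lit 3620048950) (nat_lit 1596) (nat_lit 4496850917) (nat_lit 591) (nat_lit 5) (nat_lit 590) (nat_lit 5) (nat_lit 611) (nat_lit 5) (nat_lit 417) (nat_lit 414) (nat_lit 309)) (XT.nd (nat_lit 78) (nat_lit 0) (nat_lit 76) (XT.lf (nat_lit 76) (nat_lit 5305257864) (nat_lit 0) (nat_lit 126639242) (nat_lit 1596) (nat_lit 3487527580) (nat_lit 591) (nat_lit 5) (nat_lit 590) (nat_lit 5) (nat_lit 611) (nat_lit 5) (nat_lit 418) (nat_lit 414) (nat_lit 308)) (XT.lf (nat_lit 76) (nat_lit 954714982) (nat_lit 0) (nat_lit 5582259437) (nat_lit 1596) (nat_lit 2454203066) (nat_lit 592) (nat_lit 5) (nat_lit 591) (nat_lit 5) (nat_lit 612) (nat_lit 5) (nat_lit 419) (nat_lit 414) (nat_lit 307))))) (XT.nd (nat_lit 234) (nat_lit 0) (nat_lit 0) (XT.nd (nat_lit 78) (nat_lit 1520) (nat_lit 0) (XT.lf (nat_lit 76) (nat_lit 5649094228) (nat_lit 0) (nat_lit 2015768180) (nat_lit 1596) (nat_lit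 1399488749) (nat_lit 592) (nat_lit 5) (nat_lit 591) (nat_lit 5) (nat_lit 612) (nat_lit 5) (nat_lit 420) (nat_lit 414) (nat_lit 306)) (XT.nd (nat_lit 78) (nat_lit 1596) (nat_lit 0) (XT.lf (nat_lit 76) (nat_lit 1290475802) (nat_lit 0) (nat_lit 7519909337) (nat_lit 1596) (nat_lit 328701625) (nat_lit 593) (nat_lit 5) (nat_lit 592) (nat_lit 5) (nat_lit 613) (nat_lit 5) (nat_lit 421) (nat_lit 414) (nat_lit 305)) (XT.lf (nat_lit 0) (nat_lit 766293895) (nat_lit 1596) (nat_lit 3111209339) (nat_lit 1672) (nat_lit 5337458583) (nat_lit 571) (nat_lit 5) (nat_lit 592) (nat_lit 5) (nat_lit 593) (nat_lit 5) (nat_lit 422) (nat_lit 414) (nat_lit 304)))) (XT.nd (nat_lit 156) (nat_lit 0) (nat_lit 76) (XT.nd (nat_lit 78) (nat_lit 0) (nat_lit 76) (XT.lf (nat_lit 76) (nat_lit 1727190284) (nat_lit 0) (nat_lit 139665618) (nat_lit 1672) (nat_lit 7425693656) (nat_lit 572) (nat_lit 5) (nat_lit 571) (nat_lit 5) (nat_lit 593) (nat_lit 5) (nat_lit 423) (nat_lit 414)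 (nat_lit 303)) (XT.lf (nat_lit 0) (nat_lit 3011560441) (nat_lit 1596) (nat_lit 2705369677) (nat_lit 1672) (nat_lit 3654316311) (nat_lit 572) (nat_lit 5) (nat_lit 593) (nat_lit 5) (nat_lit 594) (nat_lit 5) (nat_lit 424) (nat_lit 414) (nat_lit 302))) (XT.nd (nat_lit 78) (nat_lit 0) (nat_lit 76) (XT.lf (nat_lit 76) (nat_lit 2266260337) (nat_lit 0) (nat_lit 1906251545) (nat_lit 1672) (nat_lit 5279138299) (nat_lit 573) (nat_lit 5) (nat_lit 572) (nat_lit 5) (nat_lit 594) (nat_lit 5) (nat_lit 425) (nat_lit 414) (nat_lit 301)) (XT.lf (nat_lit 0) (nat_lit 5365924720) (nat_lit 1596) (nat_lit 2187034922) (nat_lit 1672) (nat_lit 1980517518) (nat_lit 573) (nat_lit 5) (nat_lit 594) (nat_lit 5) (nat_lit 595) (nat_lit 5) (nat_lit 426) (nat_lit 414) (nat_lit 300))))))) (XT.nd (nat_lit 1014) (nat_lit 9272) (nat_lit 0) (XT.nd (nat_lit 468) (nat_lit 1444) (nat_lit 0) (XT.nd (nat_lit 234) (nat_lit 1596) (nat_lit 0) (XT.nd (nat_lit 78) (nat_lit 0) (nat_lit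 76) (XT.lf (nat_lit 76) (nat_lit 2922530574) (nat_lit 0) (nat_lit 3670811735) (nat_lit 1672) (nat_lit 3023395641) (nat_lit 574) (nat_lit 5) (nat_lit 573) (nat_lit 5) (nat_lit 595) (nat_lit 5) (nat_lit 427) (nat_lit 414) (nat_lit 299)) (XT.nd (nat_lit 78) (nat_lit 0) (nat_lit 0) (XT.lf (nat_lit 0) (nat_lit 7840866654) (nat_lit 1596) (nat_lit 1554244013) (nat_lit 1672) (nat_lit 306642120) (nat_lit 574) (nat_lit 5) (nat_lit 595) (nat_lit 5) (nat_lit 596) (nat_lit 5) (nat_lit 428) (nat_lit 414) (nat_lit 298)) (XT.lf (nat_lit 76) (nat_lit 3698168238) (nat_lit 0) (nat_lit 5442816582) (nat_lit 1672) (nat_lit 646930234) (nat_lit 575) (nat_lit 5) (nat_lit 574) (nat_lit 5) (nat_lit 596) (nat_lit 5) (nat_lit 429) (nat_lit 414) (nat_lit 297)))) (XT.nd (nat_lit 78) (nat_lit 0) (nat_lit 76) (XT.lf (nat_lit 0) (nat_lit 573547714) (nat_lit 1672) (nat_lit 817522544) (nat_lit 1748) (nat_lit 8484853565) (nat_lit 552) (nat_lit 5) (nat_lit 574) (nat_lit 5)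 (nat_lit 575) (nat_lit 5) (nat_lit 430) (nat_lit 414) (nat_lit 296)) (XT.nd (nat_lit 78) (nat_lit 0) (nat_lit 0) (XT.lf (nat_lit 0) (nat_lit 1837623921) (nat_lit 1672) (nat_lit 5381691081) (nat_lit 1748) (nat_lit 2745735221) (nat_lit 553) (nat_lit 5) (nat_lit 575) (nat_lit 5) (nat_lit 576) (nat_lit 5) (nat_lit 431) (nat_lit 414) (nat_lit 295)) (XT.lf (nat_lit 76) (nat_lit 23786868) (nat_lit 0) (nat_lit 3098321541) (nat_lit 1748) (nat_lit 6933948205) (nat_lit 554) (nat_lit 5) (nat_lit 553) (nat_lit 5) (nat_lit 576) (nat_lit 5) (nat_lit 432) (nat_lit 414) (nat_lit 294))))) (XT.nd (nat_lit 234) (nat_lit 1596) (nat_lit 0) (XT.nd (nat_lit 78) (nat_lit 0) (nat_lit 0) (XT.lf (nat_lit 0) (nat_lit 4456371733) (nat_lit 1672) (nat_lit 4560340959) (nat_lit 1748) (nat_lit 1131688659) (nat_lit 554) (nat_lit 5) (nat_lit 576) (nat_lit 5) (nat_lit 577) (nat_lit 5) (nat_lit 433) (nat_lit 414) (nat_lit 293)) (XT.nd (nat_lit 78) (nat_lit 0) (nat_lit 0) (XT.lf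 (nat_lit 76) (nat_lit 998812653) (nat_lit 0) (nat_lit 4826453477) (nat_lit 1748) (nat_lit 4417167936) (nat_lit 555) (nat_lit 5) (nat_lit 554) (nat_lit 5) (nat_lit 577) (nat_lit 5) (nat_lit 434) (nat_lit 414) (nat_lit 292)) (XT.lf (nat_lit 76) (nat_lit 6716268621) (nat_lit 0) (nat_lit 517092509) (nat_lit 1748) (nat_lit 3104749852) (nat_lit 555) (nat_lit 5) (nat_lit 554) (nat_lit 5) (nat_lit 577) (nat_lit 5) (nat_lit 435) (nat_lit 414) (nat_lit 291)))) (XT.nd (nat_lit 156) (nat_lit 1672) (nat_lit 0) (XT.nd (nat_lit 78) (nat_lit 0) (nat_lit 0) (XT.lf (nat_lit 76) (nat_lit 2099928334) (nat_lit 0) (nat_lit 6590119967) (nat_lit 1748) (nat_lit 1745244529) (nat_lit 556) (nat_lit 5) (nat_lit 555) (nat_lit 5) (nat_lit 578) (nat_lit 5) (nat_lit 436) (nat_lit 414) (nat_lit 290)) (XT.lf (nat_lit 76) (nat_lit 7967053531) (nat_lit 0) (nat_lit 2218401732) (nat_lit 1748) (nat_lit 348771331) (nat_lit 556) (nat_lit 5) (nat_lit 555) (nat_lit 5) (nat_lit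 578) (nat_lit 5) (nat_lit 437) (nat_lit 414) (nat_lit 289))) (XT.nd (nat_lit 78) (nat_lit 0) (nat_lit 0) (XT.lf (nat_lit 0) (nat_lit 1080076673) (nat_lit 1748) (nat_lit 7311154078) (nat_lit 76) (nat_lit 2243397559) (nat_lit 533) (nat_lit 5) (nat_lit 556) (nat_lit 5) (nat_lit 534) (nat_lit 5) (nat_lit 438) (nat_lit 414) (nat_lit 288)) (XT.lf (nat_lit 0) (nat_lit 2547261866) (nat_lit 1748) (nat_lit 1402006879) (nat_lit 76) (nat_lit 6787434603) (nat_lit 533) (nat_lit 5) (nat_lit 556) (nat_lit 5) (nat_lit 534) (nat_lit 5) (nat_lit 439) (nat_lit 414) (nat_lit 287)))))) (XT.nd (nat_lit 468) (nat_lit 3572) (nat_lit 0) (XT.nd (nat_lit 234) (nat_lit 2128) (nat_lit 0) (XT.nd (nat_lit 78) (nat_lit 1824) (nat_lit 0) (XT.lf (nat_lit 0) (nat_lit 4060856389) (nat_lit 1824) (nat_lit 6172593757) (nat_lit 76) (nat_lit 607028427) (nat_lit 510) (nat_lit 5) (nat_lit 534) (nat_lit 5) (nat_lit 511) (nat_lit 5) (nat_lit 440) (nat_lit 414) (nat_lit 286)) (XT.nd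 (nat_lit 78) (nat_lit 1824) (nat_lit 0) (XT.lf (nat_lit 0) (nat_lit 5623346090) (nat_lit 1824) (nat_lit 109077275) (nat_lit 76) (nat_lit 5213533473) (nat_lit 510) (nat_lit 5) (nat_lit 534) (nat_lit 5) (nat_lit 511) (nat_lit 5) (nat_lit 441) (nat_lit 414) (nat_lit 285)) (XT.lf (nat_lit 0) (nat_lit 6141651885) (nat_lit 1824) (nat_lit 1098641416) (nat_lit 1900) (nat_lit 3812787212) (nat_lit 486) (nat_lit 5) (nat_lit 510) (nat_lit 5) (nat_lit 511) (nat_lit 5) (nat_lit 442) (nat_lit 414) (nat_lit 284)))) (XT.nd (nat_lit 78) (nat_lit 988) (nat_lit 0) (XT.lf (nat_lit 0) (nat_lit 1335648784) (nat_lit 1140) (nat_lit 7570470740) (nat_lit 1216) (nat_lit 2255896337) (nat_lit 471) (nat_lit 5) (nat_lit 486) (nat_lit 5) (nat_lit 487) (nat_lit 5) (nat_lit 443) (nat_lit 414) (nat_lit 283)) (XT.nd (nat_lit 78) (nat_lit 988) (nat_lit 0) (XT.lf (nat_lit 0) (nat_lit 7752117070) (nat_lit 1140) (nat_lit 2877134749) (nat_lit 1216) (nat_lit 643398305) (nat_lit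 471) (nat_lit 5) (nat_lit 486) (nat_lit 5) (nat_lit 487) (nat_lit 5) (nat_lit 444) (nat_lit 414) (nat_lit 282)) (XT.lf (nat_lit 0) (nat_lit 1003826226) (nat_lit 988) (nat_lit 8469236405) (nat_lit 76) (nat_lit 1911992226) (nat_lit 458) (nat_lit 5) (nat_lit 471) (nat_lit 5) (nat_lit 459) (nat_lit 5) (nat_lit 445) (nat_lit 414) (nat_lit 281))))) (XT.nd (nat_lit 234) (nat_lit 2660) (nat_lit 0) (XT.nd (nat_lit 78) (nat_lit 912) (nat_lit 0) (XT.lf (nat_lit 0) (nat_lit 2702465393) (nat_lit 988) (nat_lit 2008991185) (nat_lit 76) (nat_lit 6787624344) (nat_lit 458) (nat_lit 5) (nat_lit 471) (nat_lit 5) (nat_lit 459) (nat_lit 5) (nat_lit 446) (nat_lit 414) (nat_lit 280)) (XT.nd (nat_lit 78) (nat_lit 0) (nat_lit 0) (XT.lf (nat_lit 0) (nat_lit 4450815309) (nat_lit 988) (nat_lit 6989718612) (nat_lit 76) (nat_lit 174538826) (nat_lit 446) (nat_lit 5) (nat_lit 459) (nat_lit 5) (nat_lit 447) (nat_lit 5) (nat_lit 447) (nat_lit 414) (nat_lit 279)) (XT.lf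 (nat_lit 0) (nat_lit 6263669187) (nat_lit 988) (nat_lit 359611647) (nat_lit 76) (nat_lit 5109512838) (nat_lit 446) (nat_lit 5) (nat_lit 459) (nat_lit 5) (nat_lit 447) (nat_lit 5) (nat_lit 448) (nat_lit 414) (nat_lit 278)))) (XT.nd (nat_lit 156) (nat_lit 912) (nat_lit 0) (XT.nd (nat_lit 78) (nat_lit 912) (nat_lit 0) (XT.lf (nat_lit 0) (nat_lit 6473464132) (nat_lit 836) (nat_lit 1666409361) (nat_lit 912) (nat_lit 3712453653) (nat_lit 435) (nat_lit 5) (nat_lit 446) (nat_lit 5) (nat_lit 447) (nat_lit 5) (nat_lit 449) (nat_lit 414) (nat_lit 277)) (XT.lf (nat_lit 0) (nat_lit 1456212968) (nat_lit 912) (nat_lit 8616544716) (nat_lit 988) (nat_lit 1901110491) (nat_lit 423) (nat_lit 5) (nat_lit 435) (nat_lit 5) (nat_lit 436) (nat_lit 5) (nat_lit 450) (nat_lit 414) (nat_lit 276))) (XT.nd (nat_lit 78) (nat_lit 912) (nat_lit 0) (XT.lf (nat_lit 0) (nat_lit 8475081786) (nat_lit 912) (nat_lit 3601734291) (nat_lit 988) (nat_lit 20373617) (nat_lit 423)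 (nat_lit 5) (nat_lit 435) (nat_lit 5) (nat_lit 436) (nat_lit 5) (nat_lit 451) (nat_lit 414) (nat_lit 275)) (XT.lf (nat_lit 0) (nat_lit 1891054683) (nat_lit 912) (nat_lit 8803162889) (nat_lit 76) (nat_lit 1528154232) (nat_lit 411) (nat_lit 5) (nat_lit 423) (nat_lit 5) (nat_lit 412) (nat_lit 5) (nat_lit 452) (nat_lit 414) (nat_lit 274))))))))
noncomputable def xc106 : XT := (XT.nd (nat_lit 56862) (nat_lit 0) (nat_lit 12236) (XT.nd (nat_lit 1014) (nat_lit 3268) (nat_lit 0) (XT.nd (nat_lit 468) (nat_lit 2964) (nat_lit 0) (XT.nd (nat_lit 234) (nat_lit 836) (nat_lit 0) (XT.nd (nat_lit 78) (nat_lit 1596) (nat_lit 0) (XT.lf (nat_lit 0) (nat_lit 3874593543) (nat_lit 912) (nat_lit 1737996730) (nat_lit 76) (nat_lit 6736781495) (nat_lit 411) (nat_lit 5) (nat_lit 423) (nat_lit 5) (nat_lit 412) (nat_lit 5) (nat_lit 453) (nat_lit 414) (nat_lit 273)) (XT.nd (nat_lit 78) (nat_lit 760) (nat_lit 0) (XT.lf (nat_lit 0) (nat_lit 5526515205) (nat_lit 836) (nat_lit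 393282302) (nat_lit 912) (nat_lit 6558674337) (nat_lit 400) (nat_lit 5) (nat_lit 411) (nat_lit 5) (nat_lit 412) (nat_lit 5) (nat_lit 454) (nat_lit 414) (nat_lit 272)) (XT.lf (nat_lit 0) (nat_lit 307283215) (nat_lit 760) (nat_lit 7730656610) (nat_lit 836) (nat_lit 4571573410) (nat_lit 390) (nat_lit 5) (nat_lit 400) (nat_lit 5) (nat_lit 401) (nat_lit 5) (nat_lit 455) (nat_lit 414) (nat_lit 271)))) (XT.nd (nat_lit 78) (nat_lit 836) (nat_lit 0) (XT.lf (nat_lit 0) (nat_lit 7788786646) (nat_lit 760) (nat_lit 2445359201) (nat_lit 836) (nat_lit 2508315591) (nat_lit 390) (nat_lit 5) (nat_lit 400) (nat_lit 5) (nat_lit 401) (nat_lit 5) (nat_lit 456) (nat_lit 414) (nat_lit 270)) (XT.nd (nat_lit 78) (nat_lit 76) (nat_lit 0) (XT.lf (nat_lit 0) (nat_lit 2541567335) (nat_lit 760) (nat_lit 9955056667) (nat_lit 836) (nat_lit 380997642) (nat_lit 380) (nat_lit 5) (nat_lit 390) (nat_lit 5) (nat_lit 391) (nat_lit 5) (nat_lit 457) (nat_lit 414) (nat_lit 269))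 (XT.lf (nat_lit 0) (nat_lit 1801863152) (nat_lit 836) (nat_lit 2803558932) (nat_lit 76) (nat_lit 8409101525) (nat_lit 379) (nat_lit 5) (nat_lit 390) (nat_lit 5) (nat_lit 380) (nat_lit 5) (nat_lit 458) (nat_lit 414) (nat_lit 268))))) (XT.nd (nat_lit 234) (nat_lit 1444) (nat_lit 0) (XT.nd (nat_lit 78) (nat_lit 760) (nat_lit 0) (XT.lf (nat_lit 0) (nat_lit 4048082995) (nat_lit 836) (nat_lit 8232078164) (nat_lit 76) (nat_lit 873456018) (nat_lit 369) (nat_lit 5) (nat_lit 380) (nat_lit 5) (nat_lit 370) (nat_lit 5) (nat_lit 459) (nat_lit 414) (nat_lit 267)) (XT.nd (nat_lit 78) (nat_lit 760) (nat_lit 0) (XT.lf (nat_lit 0) (nat_lit 6375877306) (nat_lit 836) (nat_lit 501037485) (nat_lit 76) (nat_lit 6417844824) (nat_lit 369) (nat_lit 5) (nat_lit 380) (nat_lit 5) (nat_lit 370) (nat_lit 5) (nat_lit 460) (nat_lit 414) (nat_lit 266)) (XT.lf (nat_lit 0) (nat_lit 7468417809) (nat_lit 760) (nat_lit 1317762988) (nat_lit 836) (nat_lit 4651825040) (nat_lit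 359) (nat_lit 5) (nat_lit 369) (nat_lit 5) (nat_lit 370) (nat_lit 5) (nat_lit 461) (nat_lit 414) (nat_lit 265)))) (XT.nd (nat_lit 156) (nat_lit 684) (nat_lit 0) (XT.nd (nat_lit 78) (nat_lit 76) (nat_lit 0) (XT.lf (nat_lit 0) (nat_lit 2003701581) (nat_lit 684) (nat_lit 9273249382) (nat_lit 760) (nat_lit 2306520806) (nat_lit 350) (nat_lit 5) (nat_lit 359) (nat_lit 5) (nat_lit 360) (nat_lit 5) (nat_lit 462) (nat_lit 414) (nat_lit 264)) (XT.lf (nat_lit 0) (nat_lit 121293622) (nat_lit 760) (nat_lit 3537587208) (nat_lit 76) (nat_lit 10072220505) (nat_lit 349) (nat_lit 5) (nat_lit 359) (nat_lit 5) (nat_lit 350) (nat_lit 5) (nat_lit 463) (nat_lit 414) (nat_lit 263))) (XT.nd (nat_lit 78) (nat_lit 0) (nat_lit 0) (XT.lf (nat_lit 0) (nat_lit 2598943198) (nat_lit 760) (nat_lit 9197037018) (nat_lit 76) (nat_lit 2084755092) (nat_lit 340) (nat_lit 5) (nat_lit 350) (nat_lit 5) (nat_lit 341) (nat_lit 5) (nat_lit 464) (nat_lit 414) (nat_lit 262)) (XT.lf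 (nat_lit 0) (nat_lit 5162324015) (nat_lit 760) (nat_lit 954133017) (nat_lit 76) (nat_lit 7916181363) (nat_lit 340) (nat_lit 5) (nat_lit 350) (nat_lit 5) (nat_lit 341) (nat_lit 5) (nat_lit 465) (nat_lit 414) (nat_lit 261)))))) (XT.nd (nat_lit 468) (nat_lit 608) (nat_lit 0) (XT.nd (nat_lit 234) (nat_lit 1292) (nat_lit 0) (XT.nd (nat_lit 78) (nat_lit 684) (nat_lit 0) (XT.lf (nat_lit 0) (nat_lit 7538557371) (nat_lit 684) (nat_lit 275645651) (nat_lit 760) (nat_lit 6372631908) (nat_lit 331) (nat_lit 5) (nat_lit 340) (nat_lit 5) (nat_lit 341) (nat_lit 5) (nat_lit 466) (nat_lit 414) (nat_lit 260)) (XT.nd (nat_lit 78) (nat_lit 0) (nat_lit 0) (XT.lf (nat_lit 0) (nat_lit 1843222097) (nat_lit 684) (nat_lit 8719611539) (nat_lit 760) (nat_lit 3780407481) (nat_lit 322) (nat_lit 5) (nat_lit 331) (nat_lit 5) (nat_lit 332) (nat_lit 5) (nat_lit 467) (nat_lit 414) (nat_lit 259)) (XT.lf (nat_lit 0) (nat_lit 10578847473) (nat_lit 684) (nat_lit 2822563085)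 (nat_lit 760) (nat_lit 1100665395) (nat_lit 322) (nat_lit 5) (nat_lit 331) (nat_lit 5) (nat_lit 332) (nat_lit 5) (nat_lit 468) (nat_lit 414) (nat_lit 258)))) (XT.nd (nat_lit 78) (nat_lit 608) (nat_lit 0) (XT.lf (nat_lit 0) (nat_lit 1652529140) (nat_lit 684) (nat_lit 9820014405) (nat_lit 76) (nat_lit 3190506527) (nat_lit 313) (nat_lit 5) (nat_lit 322) (nat_lit 5) (nat_lit 314) (nat_lit 5) (nat_lit 469) (nat_lit 414) (nat_lit 257)) (XT.nd (nat_lit 78) (nat_lit 608) (nat_lit 0) (XT.lf (nat_lit 0) (nat_lit 4480069682) (nat_lit 684) (nat_lit 1029033046) (nat_lit 76) (nat_lit 9317315035) (nat_lit 313) (nat_lit 5) (nat_lit 322) (nat_lit 5) (nat_lit 314) (nat_lit 5) (nat_lit 470) (nat_lit 414) (nat_lit 256)) (XT.lf (nat_lit 0) (nat_lit 7409376778) (nat_lit 684) (nat_lit 6966898164) (nat_lit 76) (nat_lit 615873552) (nat_lit 305) (nat_lit 5) (nat_lit 314) (nat_lit 5) (nat_lit 306) (nat_lit 5) (nat_lit 471) (nat_lit 414) (nat_lit 255))))) (XT.nd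 (nat_lit 55068) (nat_lit 0) (nat_lit 22268) (XT.nd (nat_lit 54912) (nat_lit 0) (nat_lit 22192) (XT.lf (nat_lit 0) (nat_lit 2090600798) (nat_lit 608) (nat_lit 8352818686) (nat_lit 684) (nat_lit 4716851366) (nat_lit 297) (nat_lit 5) (nat_lit 305) (nat_lit 5) (nat_lit 306) (nat_lit 5) (nat_lit 472) (nat_lit 414) (nat_lit 254)) (XT.nd (nat_lit 78) (nat_lit 0) (nat_lit 0) (XT.lf (nat_lit 0) (nat_lit 1620780530) (nat_lit 1596) (nat_lit 1384428070) (nat_lit 1596) (nat_lit 1384428070) (nat_lit 589) (nat_lit 3) (nat_lit 610) (nat_lit 3) (nat_lit 610) (nat_lit 5) (nat_lit 415) (nat_lit 415) (nat_lit 310)) (XT.lf (nat_lit 76) (nat_lit 1642319850) (nat_lit 0) (nat_lit 2604841811) (nat_lit 1596) (nat_lit 4600440712) (nat_lit 590) (nat_lit 5) (nat_lit 589) (nat_lit 3) (nat_lit 610) (nat_lit 5) (nat_lit 416) (nat_lit 415) (nat_lit 309)))) (XT.nd (nat_lit 156) (nat_lit 0) (nat_lit 0) (XT.nd (nat_lit 78) (nat_lit 0) (nat_lit 0) (XT.lf (nat_lit 0) (nat_lit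 5271966677) (nat_lit 1520) (nat_lit 2757072252) (nat_lit 1596) (nat_lit 888277210) (nat_lit 590) (nat_lit 5) (nat_lit 610) (nat_lit 5) (nat_lit 611) (nat_lit 5) (nat_lit 417) (nat_lit 415) (nat_lit 308)) (XT.lf (nat_lit 76) (nat_lit 1772735042) (nat_lit 0) (nat_lit 4548536025) (nat_lit 1596) (nat_lit 2667073048) (nat_lit 591) (nat_lit 5) (nat_lit 590) (nat_lit 5) (nat_lit 611) (nat_lit 5) (nat_lit 418) (nat_lit 415) (nat_lit 307))) (XT.nd (nat_lit 78) (nat_lit 0) (nat_lit 76) (XT.lf (nat_lit 76) (nat_lit 6417232945) (nat_lit 0) (nat_lit 968472121) (nat_lit 1596) (nat_lit 1675204714) (nat_lit 591) (nat_lit 5) (nat_lit 590) (nat_lit 5) (nat_lit 611) (nat_lit 5) (nat_lit 419) (nat_lit 415) (nat_lit 306)) (XT.lf (nat_lit 76) (nat_lit 2015135698) (nat_lit 0) (nat_lit 6462986961) (nat_lit 1596) (nat_lit 656670201) (nat_lit 592) (nat_lit 5) (nat_lit 591) (nat_lit 5) (nat_lit 612) (nat_lit 5) (nat_lit 420) (nat_lit 415) (nat_lit 305))))))) (XT.nd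 (nat_lit 1014) (nat_lit 7144) (nat_lit 0) (XT.nd (nat_lit 468) (nat_lit 1368) (nat_lit 0) (XT.nd (nat_lit 234) (nat_lit 0) (nat_lit 76) (XT.nd (nat_lit 78) (nat_lit 0) (nat_lit 76) (XT.lf (nat_lit 0) (nat_lit 377908027) (nat_lit 1596) (nat_lit 2429641844) (nat_lit 1672) (nat_lit 6402540374) (nat_lit 570) (nat_lit 5) (nat_lit 591) (nat_lit 5) (nat_lit 592) (nat_lit 5) (nat_lit 421) (nat_lit 415) (nat_lit 304)) (XT.nd (nat_lit 78) (nat_lit 0) (nat_lit 0) (XT.lf (nat_lit 0) (nat_lit 1422813210) (nat_lit 1596) (nat_lit 6925781016) (nat_lit 1672) (nat_lit 938243977) (nat_lit 571) (nat_lit 5) (nat_lit 592) (nat_lit 5) (nat_lit 593) (nat_lit 5) (nat_lit 422) (nat_lit 415) (nat_lit 303)) (XT.lf (nat_lit 0) (nat_lit 2500925330) (nat_lit 1596) (nat_lit 2116938100) (nat_lit 1672) (nat_lit 4747011512) (nat_lit 571) (nat_lit 5) (nat_lit 592) (nat_lit 5) (nat_lit 593) (nat_lit 5) (nat_lit 423) (nat_lit 415) (nat_lit 302)))) (XT.nd (nat_lit 78) (nat_lit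 0) (nat_lit 76) (XT.lf (nat_lit 76) (nat_lit 2811278887) (nat_lit 0) (nat_lit 785322157) (nat_lit 1672) (nat_lit 5847951345) (nat_lit 572) (nat_lit 5) (nat_lit 571) (nat_lit 5) (nat_lit 593) (nat_lit 5) (nat_lit 424) (nat_lit 415) (nat_lit 301)) (XT.nd (nat_lit 78) (nat_lit 0) (nat_lit 0) (XT.lf (nat_lit 0) (nat_lit 4726923150) (nat_lit 1596) (nat_lit 1693235058) (nat_lit 1672) (nat_lit 3105410520) (nat_lit 572) (nat_lit 5) (nat_lit 593) (nat_lit 5) (nat_lit 594) (nat_lit 5) (nat_lit 425) (nat_lit 415) (nat_lit 300)) (XT.lf (nat_lit 76) (nat_lit 3370812806) (nat_lit 0) (nat_lit 2514704461) (nat_lit 1672) (nat_lit 3722574815) (nat_lit 573) (nat_lit 5) (nat_lit 572) (nat_lit 5) (nat_lit 594) (nat_lit 5) (nat_lit 426) (nat_lit 415) (nat_lit 299))))) (XT.nd (nat_lit 234) (nat_lit 1596) (nat_lit 0) (XT.nd (nat_lit 78) (nat_lit 0) (nat_lit 0) (XT.lf (nat_lit 0) (nat_lit 7067215960) (nat_lit 1596) (nat_lit 1156735118) (nat_lit 1672) (nat_lit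 1468316171) (nat_lit 573) (nat_lit 5) (nat_lit 594) (nat_lit 5) (nat_lit 595) (nat_lit 5) (nat_lit 427) (nat_lit 415) (nat_lit 298)) (XT.nd (nat_lit 78) (nat_lit 0) (nat_lit 0) (XT.lf (nat_lit 76) (nat_lit 4047955632) (nat_lit 0) (nat_lit 4246899407) (nat_lit 1672) (nat_lit 1482824752) (nat_lit 574) (nat_lit 5) (nat_lit 573) (nat_lit 5) (nat_lit 595) (nat_lit 5) (nat_lit 428) (nat_lit 415) (nat_lit 297)) (XT.lf (nat_lit 76) (nat_lit 9358611214) (nat_lit 0) (nat_lit 175883556) (nat_lit 1672) (nat_lit 330556857) (nat_lit 574) (nat_lit 5) (nat_lit 573) (nat_lit 5) (nat_lit 595) (nat_lit 5) (nat_lit 429) (nat_lit 415) (nat_lit 296)))) (XT.nd (nat_lit 156) (nat_lit 0) (nat_lit 76) (XT.nd (nat_lit 78) (nat_lit 0) (nat_lit 0) (XT.lf (nat_lit 0) (nat_lit 871325990) (nat_lit 1672) (nat_lit 5114098716) (nat_lit 1748) (nat_lit 3967883525) (nat_lit 552) (nat_lit 5) (nat_lit 574) (nat_lit 5) (nat_lit 575) (nat_lit 5) (nat_lit 430) (nat_lit 415) (nat_lit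 295)) (XT.lf (nat_lit 76) (nat_lit 241012168) (nat_lit 0) (nat_lit 1838258107) (nat_lit 1748) (nat_lit 7964286993) (nat_lit 553) (nat_lit 5) (nat_lit 552) (nat_lit 5) (nat_lit 575) (nat_lit 5) (nat_lit 431) (nat_lit 415) (nat_lit 294))) (XT.nd (nat_lit 78) (nat_lit 0) (nat_lit 0) (XT.lf (nat_lit 0) (nat_lit 3342073594) (nat_lit 1672) (nat_lit 4392611056) (nat_lit 1748) (nat_lit 2400312632) (nat_lit 553) (nat_lit 5) (nat_lit 575) (nat_lit 5) (nat_lit 576) (nat_lit 5) (nat_lit 432) (nat_lit 415) (nat_lit 293)) (XT.lf (nat_lit 76) (nat_lit 1113761229) (nat_lit 0) (nat_lit 3516781914) (nat_lit 1748) (nat_lit 5597714751) (nat_lit 554) (nat_lit 5) (nat_lit 553) (nat_lit 5) (nat_lit 576) (nat_lit 5) (nat_lit 433) (nat_lit 415) (nat_lit 292)))))) (XT.nd (nat_lit 468) (nat_lit 5624) (nat_lit 0) (XT.nd (nat_lit 234) (nat_lit 1672) (nat_lit 0) (XT.nd (nat_lit 78) (nat_lit 0) (nat_lit 0) (XT.lf (nat_lit 0) (nat_lit 5960869728) (nat_lit 1672) (nat_lit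 3552789866) (nat_lit 1748) (nat_lit 809402373) (nat_lit 554) (nat_lit 5) (nat_lit 576) (nat_lit 5) (nat_lit 577) (nat_lit 5) (nat_lit 434) (nat_lit 415) (nat_lit 291)) (XT.nd (nat_lit 78) (nat_lit 0) (nat_lit 0) (XT.lf (nat_lit 76) (nat_lit 2110318147) (nat_lit 0) (nat_lit 5226158433) (nat_lit 1748) (nat_lit 3082912064) (nat_lit 555) (nat_lit 5) (nat_lit 554) (nat_lit 5) (nat_lit 577) (nat_lit 5) (nat_lit 435) (nat_lit 415) (nat_lit 290)) (XT.lf (nat_lit 76) (nat_lit 7920720700) (nat_lit 0) (nat_lit 824665620) (nat_lit 1748) (nat_lit 1772139721) (nat_lit 555) (nat_lit 5) (nat_lit 554) (nat_lit 5) (nat_lit 577) (nat_lit 5) (nat_lit 436) (nat_lit 415) (nat_lit 289)))) (XT.nd (nat_lit 78) (nat_lit 1748) (nat_lit 0) (XT.lf (nat_lit 76) (nat_lit 3234097671) (nat_lit 0) (nat_lit 6975497738) (nat_lit 1748) (nat_lit 407488354) (nat_lit 556) (nat_lit 5) (nat_lit 555) (nat_lit 5) (nat_lit 578) (nat_lit 5) (nat_lit 437) (nat_lit 415) (nat_lit 288))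 (XT.nd (nat_lit 78) (nat_lit 0) (nat_lit 76) (XT.lf (nat_lit 0) (nat_lit 977015364) (nat_lit 1748) (nat_lit 1527801421) (nat_lit 1824) (nat_lit 8213578607) (nat_lit 532) (nat_lit 5) (nat_lit 555) (nat_lit 5) (nat_lit 556) (nat_lit 5) (nat_lit 438) (nat_lit 415) (nat_lit 287)) (XT.lf (nat_lit 0) (nat_lit 2409274470) (nat_lit 1748) (nat_lit 6348471623) (nat_lit 76) (nat_lit 2063422858) (nat_lit 533) (nat_lit 5) (nat_lit 556) (nat_lit 5) (nat_lit 534) (nat_lit 5) (nat_lit 439) (nat_lit 415) (nat_lit 286))))) (XT.nd (nat_lit 234) (nat_lit 2128) (nat_lit 0) (XT.nd (nat_lit 78) (nat_lit 3572) (nat_lit 0) (XT.lf (nat_lit 0) (nat_lit 3880164224) (nat_lit 1748) (nat_lit 342884727) (nat_lit 76) (nat_lit 6702749321) (nat_lit 533) (nat_lit 5) (nat_lit 556) (nat_lit 5) (nat_lit 534) (nat_lit 5) (nat_lit 440) (nat_lit 415) (nat_lit 285)) (XT.nd (nat_lit 78) (nat_lit 1824) (nat_lit 0) (XT.lf (nat_lit 0) (nat_lit 5404712864) (nat_lit 1824) (nat_lit 5189565568)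 (nat_lit 76) (nat_lit 437756926) (nat_lit 510) (nat_lit 5) (nat_lit 534) (nat_lit 5) (nat_lit 511) (nat_lit 5) (nat_lit 441) (nat_lit 415) (nat_lit 284)) (XT.lf (nat_lit 0) (nat_lit 986463198) (nat_lit 1824) (nat_lit 5993636300) (nat_lit 1900) (nat_lit 4159890747) (nat_lit 486) (nat_lit 5) (nat_lit 510) (nat_lit 5) (nat_lit 511) (nat_lit 5) (nat_lit 442) (nat_lit 415) (nat_lit 283)))) (XT.nd (nat_lit 156) (nat_lit 988) (nat_lit 0) (XT.nd (nat_lit 78) (nat_lit 1140) (nat_lit 0) (XT.lf (nat_lit 0) (nat_lit 7342132560) (nat_lit 1824) (nat_lit 1263572932) (nat_lit 1900) (nat_lit 2644024505) (nat_lit 486) (nat_lit 5) (nat_lit 510) (nat_lit 5) (nat_lit 511) (nat_lit 5) (nat_lit 443) (nat_lit 415) (nat_lit 282)) (XT.lf (nat_lit 0) (nat_lit 2458093206) (nat_lit 1140) (nat_lit 7829025809) (nat_lit 1216) (nat_lit 1074079621) (nat_lit 471) (nat_lit 5) (nat_lit 486) (nat_lit 5) (nat_lit 487) (nat_lit 5) (nat_lit 444) (nat_lit 415) (nat_lit 281)))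 (XT.nd (nat_lit 78) (nat_lit 912) (nat_lit 0) (XT.lf (nat_lit 0) (nat_lit 539441929) (nat_lit 1216) (nat_lit 2496660335) (nat_lit 76) (nat_lit 8438344059) (nat_lit 470) (nat_lit 5) (nat_lit 486) (nat_lit 5) (nat_lit 471) (nat_lit 5) (nat_lit 445) (nat_lit 415) (nat_lit 280)) (XT.lf (nat_lit 0) (nat_lit 2194186617) (nat_lit 988) (nat_lit 7531781382) (nat_lit 76) (nat_lit 1863382277) (nat_lit 458) (nat_lit 5) (nat_lit 471) (nat_lit 5) (nat_lit 459) (nat_lit 5) (nat_lit 446) (nat_lit 415) (nat_lit 279))))))))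
noncomputable def xc107 : XT := (XT.nd (nat_lit 56940) (nat_lit 0) (nat_lit 15580) (XT.nd (nat_lit 1014) (nat_lit 5624) (nat_lit 0) (XT.nd (nat_lit 468) (nat_lit 3268) (nat_lit 0) (XT.nd (nat_lit 234) (nat_lit 988) (nat_lit 0) (XT.nd (nat_lit 78) (nat_lit 1748) (nat_lit 0) (XT.lf (nat_lit 0) (nat_lit 3903851824) (nat_lit 988) (nat_lit 964033998) (nat_lit 76) (nat_lit 6838229975) (nat_lit 458) (nat_lit 5) (nat_lit 471) (nat_lit 5) (nat_lit 459) (nat_lit 5) (nat_lit 447) (nat_lit 415) (nat_lit 278)) (XT.nd (nat_lit 78) (nat_lit 836) (nat_lit 0) (XT.lf (nat_lit 0) (nat_lit 5671321436) (nat_lit 988) (nat_lit 6028528671) (nat_lit 76) (nat_lit 124894299) (nat_lit 446) (nat_lit 5) (nat_lit 459) (nat_lit 5) (nat_lit 447) (nat_lit 5) (nat_lit 448) (nat_lit 415) (nat_lit 277)) (XT.lf (nat_lit 0) (nat_lit 722062484) (nat_lit 836) (nat_lit 6780871940) (nat_lit 912) (nat_lit 4442235283) (nat_lit 435) (nat_lit 5) (nat_lit 446) (nat_lit 5) (nat_lit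 447) (nat_lit 5) (nat_lit 449) (nat_lit 415) (nat_lit 276)))) (XT.nd (nat_lit 78) (nat_lit 988) (nat_lit 0) (XT.lf (nat_lit 0) (nat_lit 7675228509) (nat_lit 836) (nat_lit 1721957198) (nat_lit 912) (nat_lit 2670297688) (nat_lit 435) (nat_lit 5) (nat_lit 446) (nat_lit 5) (nat_lit 447) (nat_lit 5) (nat_lit 450) (nat_lit 415) (nat_lit 275)) (XT.nd (nat_lit 78) (nat_lit 76) (nat_lit 0) (XT.lf (nat_lit 0) (nat_lit 2572467344) (nat_lit 912) (nat_lit 8781716098) (nat_lit 988) (nat_lit 837562685) (nat_lit 423) (nat_lit 5) (nat_lit 435) (nat_lit 5) (nat_lit 436) (nat_lit 5) (nat_lit 451) (nat_lit 415) (nat_lit 274)) (XT.lf (nat_lit 0) (nat_lit 1045298052) (nat_lit 988) (nat_lit 2614437294) (nat_lit 76) (nat_lit 8658084708) (nat_lit 422) (nat_lit 5) (nat_lit 435) (nat_lit 5) (nat_lit 423) (nat_lit 5) (nat_lit 452) (nat_lit 415) (nat_lit 273))))) (XT.nd (nat_lit 234) (nat_lit 1596) (nat_lit 0) (XT.nd (nat_lit 78) (nat_lit 836) (nat_lit 0) (XT.lf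 (nat_lit 0) (nat_lit 2980886341) (nat_lit 912) (nat_lit 7885452268) (nat_lit 76) (nat_lit 1579440421) (nat_lit 411) (nat_lit 5) (nat_lit 423) (nat_lit 5) (nat_lit 412) (nat_lit 5) (nat_lit 453) (nat_lit 415) (nat_lit 272)) (XT.nd (nat_lit 78) (nat_lit 836) (nat_lit 0) (XT.lf (nat_lit 0) (nat_lit 4983468319) (nat_lit 912) (nat_lit 700429332) (nat_lit 76) (nat_lit 6891833893) (nat_lit 411) (nat_lit 5) (nat_lit 423) (nat_lit 5) (nat_lit 412) (nat_lit 5) (nat_lit 454) (nat_lit 415) (nat_lit 271)) (XT.lf (nat_lit 0) (nat_lit 6702318056) (nat_lit 836) (nat_lit 353951569) (nat_lit 912) (nat_lit 5651410132) (nat_lit 400) (nat_lit 5) (nat_lit 411) (nat_lit 5) (nat_lit 412) (nat_lit 5) (nat_lit 455) (nat_lit 415) (nat_lit 270)))) (XT.nd (nat_lit 156) (nat_lit 836) (nat_lit 0) (XT.nd (nat_lit 78) (nat_lit 0) (nat_lit 0) (XT.lf (nat_lit 0) (nat_lit 1391616206) (nat_lit 760) (nat_lit 7812497034) (nat_lit 836) (nat_lit 3637481967) (nat_lit 390) (nat_lit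 5) (nat_lit 400) (nat_lit 5) (nat_lit 401) (nat_lit 5) (nat_lit 456) (nat_lit 415) (nat_lit 269)) (XT.lf (nat_lit 0) (nat_lit 9001608778) (nat_lit 760) (nat_lit 2422920593) (nat_lit 836) (nat_lit 1553067284) (nat_lit 390) (nat_lit 5) (nat_lit 400) (nat_lit 5) (nat_lit 401) (nat_lit 5) (nat_lit 457) (nat_lit 415) (nat_lit 268))) (XT.nd (nat_lit 78) (nat_lit 0) (nat_lit 0) (XT.lf (nat_lit 0) (nat_lit 596697344) (nat_lit 836) (nat_lit 9458009365) (nat_lit 76) (nat_lit 3060913469) (nat_lit 379) (nat_lit 5) (nat_lit 390) (nat_lit 5) (nat_lit 380) (nat_lit 5) (nat_lit 458) (nat_lit 415) (nat_lit 267)) (XT.lf (nat_lit 0) (nat_lit 2798898602) (nat_lit 836) (nat_lit 1798607692) (nat_lit 76) (nat_lit 8658087825) (nat_lit 379) (nat_lit 5) (nat_lit 390) (nat_lit 5) (nat_lit 380) (nat_lit 5) (nat_lit 459) (nat_lit 415) (nat_lit 266)))))) (XT.nd (nat_lit 468) (nat_lit 2660) (nat_lit 0) (XT.nd (nat_lit 234) (nat_lit 1444) (nat_lit 0) (XT.nd (nat_lit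 78) (nat_lit 760) (nat_lit 0) (XT.lf (nat_lit 0) (nat_lit 5078725291) (nat_lit 836) (nat_lit 7324379758) (nat_lit 76) (nat_lit 994590859) (nat_lit 369) (nat_lit 5) (nat_lit 380) (nat_lit 5) (nat_lit 370) (nat_lit 5) (nat_lit 460) (nat_lit 415) (nat_lit 265)) (XT.nd (nat_lit 78) (nat_lit 0) (nat_lit 0) (XT.lf (nat_lit 0) (nat_lit 547435171) (nat_lit 760) (nat_lit 6890573440) (nat_lit 836) (nat_lit 6103953922) (nat_lit 359) (nat_lit 5) (nat_lit 369) (nat_lit 5) (nat_lit 370) (nat_lit 5) (nat_lit 461) (nat_lit 415) (nat_lit 264)) (XT.lf (nat_lit 0) (nat_lit 8662183323) (nat_lit 760) (nat_lit 1219305388) (nat_lit 836) (nat_lit 3806885556) (nat_lit 359) (nat_lit 5) (nat_lit 369) (nat_lit 5) (nat_lit 370) (nat_lit 5) (nat_lit 462) (nat_lit 415) (nat_lit 263)))) (XT.nd (nat_lit 78) (nat_lit 760) (nat_lit 0) (XT.lf (nat_lit 0) (nat_lit 3098767389) (nat_lit 684) (nat_lit 9312920013) (nat_lit 760) (nat_lit 1425269855) (nat_lit 350) (nat_lit 5)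 (nat_lit 359) (nat_lit 5) (nat_lit 360) (nat_lit 5) (nat_lit 463) (nat_lit 415) (nat_lit 262)) (XT.nd (nat_lit 78) (nat_lit 684) (nat_lit 0) (XT.lf (nat_lit 0) (nat_lit 1020992625) (nat_lit 760) (nat_lit 2562109002) (nat_lit 76) (nat_lit 10404676272) (nat_lit 349) (nat_lit 5) (nat_lit 359) (nat_lit 5) (nat_lit 350) (nat_lit 5) (nat_lit 464) (nat_lit 415) (nat_lit 261)) (XT.lf (nat_lit 0) (nat_lit 3538342584) (nat_lit 760) (nat_lit 8324895199) (nat_lit 76) (nat_lit 2277363820) (nat_lit 340) (nat_lit 5) (nat_lit 350) (nat_lit 5) (nat_lit 341) (nat_lit 5) (nat_lit 465) (nat_lit 415) (nat_lit 260))))) (XT.nd (nat_lit 234) (nat_lit 1292) (nat_lit 0) (XT.nd (nat_lit 78) (nat_lit 684) (nat_lit 0) (XT.lf (nat_lit 0) (nat_lit 62985446) (nat_lit 684) (nat_lit 6073014112) (nat_lit 760) (nat_lit 8159883023) (nat_lit 331) (nat_lit 5) (nat_lit 340) (nat_lit 5) (nat_lit 341) (nat_lit 5) (nat_lit 466) (nat_lit 415) (nat_lit 259)) (XT.nd (nat_lit 78)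 (nat_lit 684) (nat_lit 0) (XT.lf (nat_lit 0) (nat_lit 8717891898) (nat_lit 684) (nat_lit 112234201) (nat_lit 760) (nat_lit 5623252749) (nat_lit 331) (nat_lit 5) (nat_lit 340) (nat_lit 5) (nat_lit 341) (nat_lit 5) (nat_lit 467) (nat_lit 415) (nat_lit 258)) (XT.lf (nat_lit 0) (nat_lit 2917873172) (nat_lit 684) (nat_lit 8706813750) (nat_lit 760) (nat_lit 2988407085) (nat_lit 322) (nat_lit 5) (nat_lit 331) (nat_lit 5) (nat_lit 332) (nat_lit 5) (nat_lit 468) (nat_lit 415) (nat_lit 257)))) (XT.nd (nat_lit 156) (nat_lit 608) (nat_lit 0) (XT.nd (nat_lit 78) (nat_lit 684) (nat_lit 0) (XT.lf (nat_lit 0) (nat_lit 11807862297) (nat_lit 684) (nat_lit 2695494720) (nat_lit 760) (nat_lit 272082090) (nat_lit 322) (nat_lit 5) (nat_lit 331) (nat_lit 5) (nat_lit 332) (nat_lit 5) (nat_lit 469) (nat_lit 415) (nat_lit 256)) (XT.lf (nat_lit 0) (nat_lit 2516443319) (nat_lit 684) (nat_lit 8979243802) (nat_lit 76) (nat_lit 3444006679) (nat_lit 313) (nat_lit 5)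 (nat_lit 322) (nat_lit 5) (nat_lit 314) (nat_lit 5) (nat_lit 470) (nat_lit 415) (nat_lit 255))) (XT.nd (nat_lit 78) (nat_lit 608) (nat_lit 0) (XT.lf (nat_lit 0) (nat_lit 5384243229) (nat_lit 684) (nat_lit 32779500) (nat_lit 76) (nat_lit 9689631946) (nat_lit 313) (nat_lit 5) (nat_lit 322) (nat_lit 5) (nat_lit 314) (nat_lit 5) (nat_lit 471) (nat_lit 415) (nat_lit 254)) (XT.lf (nat_lit 0) (nat_lit 8364053896) (nat_lit 684) (nat_lit 6081319349) (nat_lit 76) (nat_lit 830488427) (nat_lit 305) (nat_lit 5) (nat_lit 314) (nat_lit 5) (nat_lit 306) (nat_lit 5) (nat_lit 472) (nat_lit 415) (nat_lit 253))))))) (XT.nd (nat_lit 1014) (nat_lit 4484) (nat_lit 0) (XT.nd (nat_lit 468) (nat_lit 0) (nat_lit 76) (XT.nd (nat_lit 234) (nat_lit 1520) (nat_lit 0) (XT.nd (nat_lit 78) (nat_lit 0) (nat_lit 0) (XT.lf (nat_lit 0) (nat_lit 2609468770) (nat_lit 1596) (nat_lit 924417590) (nat_lit 1596) (nat_lit 924417590) (nat_lit 589) (nat_lit 3) (nat_lit 610) (nat_lit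 3) (nat_lit 610) (nat_lit 5) (nat_lit 416) (nat_lit 416) (nat_lit 308)) (XT.nd (nat_lit 78) (nat_lit 0) (nat_lit 76) (XT.lf (nat_lit 76) (nat_lit 2644147237) (nat_lit 0) (nat_lit 3569293297) (nat_lit 1596) (nat_lit 2773487174) (nat_lit 590) (nat_lit 5) (nat_lit 589) (nat_lit 3) (nat_lit 610) (nat_lit 5) (nat_lit 417) (nat_lit 416) (nat_lit 307)) (XT.lf (nat_lit 0) (nat_lit 7216045253) (nat_lit 1520) (nat_lit 1819535938) (nat_lit 1596) (nat_lit 23308485) (nat_lit 590) (nat_lit 5) (nat_lit 610) (nat_lit 5) (nat_lit 611) (nat_lit 5) (nat_lit 418) (nat_lit 416) (nat_lit 306)))) (XT.nd (nat_lit 78) (nat_lit 1596) (nat_lit 0) (XT.lf (nat_lit 76) (nat_lit 2794336727) (nat_lit 0) (nat_lit 5462349974) (nat_lit 1596) (nat_lit 875244491) (nat_lit 591) (nat_lit 5) (nat_lit 590) (nat_lit 5) (nat_lit 611) (nat_lit 5) (nat_lit 419) (nat_lit 416) (nat_lit 305)) (XT.nd (nat_lit 78) (nat_lit 0) (nat_lit 76) (XT.lf (nat_lit 0) (nat_lit 98966196) (nat_lit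 1596) (nat_lit 1694920300) (nat_lit 1672) (nat_lit 7412758061) (nat_lit 569) (nat_lit 5) (nat_lit 590) (nat_lit 5) (nat_lit 591) (nat_lit 5) (nat_lit 420) (nat_lit 416) (nat_lit 304)) (XT.lf (nat_lit 0) (nat_lit 1090613258) (nat_lit 1596) (nat_lit 6233532784) (nat_lit 1672) (nat_lit 1958397006) (nat_lit 570) (nat_lit 5) (nat_lit 591) (nat_lit 5) (nat_lit 592) (nat_lit 5) (nat_lit 421) (nat_lit 416) (nat_lit 303))))) (XT.nd (nat_lit 234) (nat_lit 0) (nat_lit 76) (XT.nd (nat_lit 78) (nat_lit 0) (nat_lit 76) (XT.lf (nat_lit 0) (nat_lit 2102752727) (nat_lit 1596) (nat_lit 1474147707) (nat_lit 1672) (nat_lit 5783045885) (nat_lit 570) (nat_lit 5) (nat_lit 591) (nat_lit 5) (nat_lit 592) (nat_lit 5) (nat_lit 422) (nat_lit 416) (nat_lit 302)) (XT.nd (nat_lit 78) (nat_lit 0) (nat_lit 0) (XT.lf (nat_lit 0) (nat_lit 3136863157) (nat_lit 1596) (nat_lit 6028516807) (nat_lit 1672) (nat_lit 273483129) (nat_lit 571) (nat_lit 5) (nat_lit 592) (nat_lit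 5) (nat_lit 593) (nat_lit 5) (nat_lit 423) (nat_lit 416) (nat_lit 301)) (XT.lf (nat_lit 0) (nat_lit 4203486663) (nat_lit 1596) (nat_lit 1143806441) (nat_lit 1672) (nat_lit 4171828480) (nat_lit 571) (nat_lit 5) (nat_lit 592) (nat_lit 5) (nat_lit 593) (nat_lit 5) (nat_lit 424) (nat_lit 416) (nat_lit 300)))) (XT.nd (nat_lit 156) (nat_lit 0) (nat_lit 76) (XT.nd (nat_lit 78) (nat_lit 0) (nat_lit 76) (XT.lf (nat_lit 76) (nat_lit 3876294159) (nat_lit 0) (nat_lit 1418928664) (nat_lit 1672) (nat_lit 4305686819) (nat_lit 572) (nat_lit 5) (nat_lit 571) (nat_lit 5) (nat_lit 593) (nat_lit 5) (nat_lit 425) (nat_lit 416) (nat_lit 299)) (XT.lf (nat_lit 0) (nat_lit 6412322339) (nat_lit 1596) (nat_lit 702261223) (nat_lit 1672) (nat_lit 2569679325) (nat_lit 572) (nat_lit 5) (nat_lit 593) (nat_lit 5) (nat_lit 594) (nat_lit 5) (nat_lit 426) (nat_lit 416) (nat_lit 298))) (XT.nd (nat_lit 78) (nat_lit 0) (nat_lit 76) (XT.lf (nat_lit 76) (nat_lit 4456325239)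 (nat_lit 0) (nat_lit 3113179907) (nat_lit 1672) (nat_lit 2199423226) (nat_lit 573) (nat_lit 5) (nat_lit 572) (nat_lit 5) (nat_lit 594) (nat_lit 5) (nat_lit 427) (nat_lit 416) (nat_lit 297)) (XT.lf (nat_lit 0) (nat_lit 8740637120) (nat_lit 1596) (nat_lit 147535620) (nat_lit 1672) (nat_lit 967298317) (nat_lit 573) (nat_lit 5) (nat_lit 594) (nat_lit 5) (nat_lit 595) (nat_lit 5) (nat_lit 428) (nat_lit 416) (nat_lit 296)))))) (XT.nd (nat_lit 546) (nat_lit 3116) (nat_lit 0) (XT.nd (nat_lit 234) (nat_lit 0) (nat_lit 76) (XT.nd (nat_lit 78) (nat_lit 0) (nat_lit 0) (XT.lf (nat_lit 0) (nat_lit 26041191) (nat_lit 1672) (nat_lit 4788773546) (nat_lit 1748) (nat_lit 5128241332) (nat_lit 551) (nat_lit 5) (nat_lit 573) (nat_lit 5) (nat_lit 574) (nat_lit 5) (nat_lit 429) (nat_lit 416) (nat_lit 295)) (XT.nd (nat_lit 78) (nat_lit 0) (nat_lit 76) (XT.lf (nat_lit 76) (nat_lit 517629350) (nat_lit 0) (nat_lit 641893286) (nat_lit 1748) (nat_lit 8873028434) (nat_lit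 552) (nat_lit 5) (nat_lit 551) (nat_lit 5) (nat_lit 574) (nat_lit 5) (nat_lit 430) (nat_lit 416) (nat_lit 294)) (XT.lf (nat_lit 0) (nat_lit 2352170937) (nat_lit 1672) (nat_lit 4165670645) (nat_lit 1748) (nat_lit 3605264445) (nat_lit 552) (nat_lit 5) (nat_lit 574) (nat_lit 5) (nat_lit 575) (nat_lit 5) (nat_lit 431) (nat_lit 416) (nat_lit 293)))) (XT.nd (nat_lit 156) (nat_lit 0) (nat_lit 76) (XT.nd (nat_lit 78) (nat_lit 0) (nat_lit 76) (XT.lf (nat_lit 76) (nat_lit 1289629890) (nat_lit 0) (nat_lit 2272726764) (nat_lit 1748) (nat_lit 6653241740) (nat_lit 553) (nat_lit 5) (nat_lit 552) (nat_lit 5) (nat_lit 575) (nat_lit 5) (nat_lit 432) (nat_lit 416) (nat_lit 292)) (XT.lf (nat_lit 0) (nat_lit 4819619790) (nat_lit 1672) (nat_lit 3426336166) (nat_lit 1748) (nat_lit 2063527177) (nat_lit 553) (nat_lit 5) (nat_lit 575) (nat_lit 5) (nat_lit 576) (nat_lit 5) (nat_lit 433) (nat_lit 416) (nat_lit 291))) (XT.nd (nat_lit 78) (nat_lit 0) (nat_lit 76)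 (XT.lf (nat_lit 76) (nat_lit 2183228518) (nat_lit 0) (nat_lit 3929768401) (nat_lit 1748) (nat_lit 4292029275) (nat_lit 554) (nat_lit 5) (nat_lit 553) (nat_lit 5) (nat_lit 576) (nat_lit 5) (nat_lit 434) (nat_lit 416) (nat_lit 290)) (XT.lf (nat_lit 0) (nat_lit 7440497119) (nat_lit 1672) (nat_lit 2567753860) (nat_lit 1748) (nat_lit 494064027) (nat_lit 554) (nat_lit 5) (nat_lit 576) (nat_lit 5) (nat_lit 577) (nat_lit 5) (nat_lit 435) (nat_lit 416) (nat_lit 289))))) (XT.nd (nat_lit 234) (nat_lit 1672) (nat_lit 0) (XT.nd (nat_lit 78) (nat_lit 1672) (nat_lit 0) (XT.lf (nat_lit 76) (nat_lit 3201668341) (nat_lit 0) (nat_lit 5622084799) (nat_lit 1748) (nat_lit 1777212337) (nat_lit 555) (nat_lit 5) (nat_lit 554) (nat_lit 5) (nat_lit 577) (nat_lit 5) (nat_lit 436) (nat_lit 416) (nat_lit 288)) (XT.nd (nat_lit 78) (nat_lit 1672) (nat_lit 0) (XT.lf (nat_lit 76) (nat_lit 9107707497) (nat_lit 0) (nat_lit 1126848342) (nat_lit 1748) (nat_lit 467035487)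 (nat_lit 555) (nat_lit 5) (nat_lit 554) (nat_lit 5) (nat_lit 577) (nat_lit 5) (nat_lit 437) (nat_lit 416) (nat_lit 287)) (XT.lf (nat_lit 0) (nat_lit 891868380) (nat_lit 1748) (nat_lit 6460883138) (nat_lit 1824) (nat_lit 3450686786) (nat_lit 532) (nat_lit 5) (nat_lit 555) (nat_lit 5) (nat_lit 556) (nat_lit 5) (nat_lit 438) (nat_lit 416) (nat_lit 286)))) (XT.nd (nat_lit 156) (nat_lit 1672) (nat_lit 0) (XT.nd (nat_lit 78) (nat_lit 0) (nat_lit 76) (XT.lf (nat_lit 0) (nat_lit 2273080507) (nat_lit 1748) (nat_lit 512216197) (nat_lit 1824) (nat_lit 8121936099) (nat_lit 532) (nat_lit 5) (nat_lit 555) (nat_lit 5) (nat_lit 556) (nat_lit 5) (nat_lit 439) (nat_lit 416) (nat_lit 285)) (XT.lf (nat_lit 0) (nat_lit 3714280666) (nat_lit 1748) (nat_lit 5409595673) (nat_lit 76) (nat_lit 1888579576) (nat_lit 533) (nat_lit 5) (nat_lit 556) (nat_lit 5) (nat_lit 534) (nat_lit 5) (nat_lit 440) (nat_lit 416) (nat_lit 284))) (XT.nd (nat_lit 78) (nat_lit 0) (nat_lit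 0) (XT.lf (nat_lit 0) (nat_lit 704442927) (nat_lit 1748) (nat_lit 4490075455) (nat_lit 1824) (nat_lit 5925060838) (nat_lit 510) (nat_lit 5) (nat_lit 533) (nat_lit 5) (nat_lit 534) (nat_lit 5) (nat_lit 441) (nat_lit 416) (nat_lit 283)) (XT.lf (nat_lit 0) (nat_lit 6726416644) (nat_lit 1824) (nat_lit 4229842785) (nat_lit 76) (nat_lit 272144446) (nat_lit 510) (nat_lit 5) (nat_lit 534) (nat_lit 5) (nat_lit 511) (nat_lit 5) (nat_lit 442) (nat_lit 416) (nat_lit 282))))))))
noncomputable def xc108 : XT := (XT.nd (nat_lit 2028) (nat_lit 1368) (nat_lit 0) (XT.nd (nat_lit 1014) (nat_lit 5244) (nat_lit 0) (XT.nd (nat_lit 468) (nat_lit 3496) (nat_lit 0) (XT.nd (nat_lit 234) (nat_lit 1824) (nat_lit 0) (XT.nd (nat_lit 78) (nat_lit 1216) (nat_lit 0) (XT.lf (nat_lit 0) (nat_lit 2062709753) (nat_lit 1824) (nat_lit 6253664603) (nat_lit 1900) (nat_lit 3022482237) (nat_lit 486) (nat_lit 5) (nat_lit 510) (nat_lit 5) (nat_lit 511) (nat_lit 5) (nat_lit 443)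 (nat_lit 416) (nat_lit 281)) (XT.nd (nat_lit 78) (nat_lit 1216) (nat_lit 0) (XT.lf (nat_lit 0) (nat_lit 8524776477) (nat_lit 1824) (nat_lit 1426251819) (nat_lit 1900) (nat_lit 1500232126) (nat_lit 486) (nat_lit 5) (nat_lit 510) (nat_lit 5) (nat_lit 511) (nat_lit 5) (nat_lit 444) (nat_lit 416) (nat_lit 280)) (XT.lf (nat_lit 0) (nat_lit 82631926) (nat_lit 1216) (nat_lit 8005404952) (nat_lit 76) (nat_lit 3477251500) (nat_lit 470) (nat_lit 5) (nat_lit 486) (nat_lit 5) (nat_lit 471) (nat_lit 5) (nat_lit 445) (nat_lit 416) (nat_lit 279)))) (XT.nd (nat_lit 78) (nat_lit 1824) (nat_lit 0) (XT.lf (nat_lit 0) (nat_lit 1691235334) (nat_lit 1216) (nat_lit 1498897976) (nat_lit 76) (nat_lit 8490981847) (nat_lit 470) (nat_lit 5) (nat_lit 486) (nat_lit 5) (nat_lit 471) (nat_lit 5) (nat_lit 446) (nat_lit 416) (nat_lit 278)) (XT.nd (nat_lit 78) (nat_lit 912) (nat_lit 0) (XT.lf (nat_lit 0) (nat_lit 3362910667) (nat_lit 988) (nat_lit 6618557196) (nat_lit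 76) (nat_lit 1817172613) (nat_lit 458) (nat_lit 5) (nat_lit 471) (nat_lit 5) (nat_lit 459) (nat_lit 5) (nat_lit 447) (nat_lit 416) (nat_lit 277)) (XT.lf (nat_lit 0) (nat_lit 60478323) (nat_lit 912) (nat_lit 5024627828) (nat_lit 988) (nat_lit 6833068416) (nat_lit 446) (nat_lit 5) (nat_lit 458) (nat_lit 5) (nat_lit 459) (nat_lit 5) (nat_lit 448) (nat_lit 416) (nat_lit 276))))) (XT.nd (nat_lit 234) (nat_lit 2660) (nat_lit 0) (XT.nd (nat_lit 78) (nat_lit 836) (nat_lit 0) (XT.lf (nat_lit 0) (nat_lit 6872300557) (nat_lit 988) (nat_lit 5090867494) (nat_lit 76) (nat_lit 76320189) (nat_lit 446) (nat_lit 5) (nat_lit 459) (nat_lit 5) (nat_lit 447) (nat_lit 5) (nat_lit 449) (nat_lit 416) (nat_lit 275)) (XT.nd (nat_lit 78) (nat_lit 0) (nat_lit 0) (XT.lf (nat_lit 0) (nat_lit 1787773434) (nat_lit 836) (nat_lit 6938273349) (nat_lit 912) (nat_lit 3436565246) (nat_lit 435) (nat_lit 5) (nat_lit 446) (nat_lit 5) (nat_lit 447) (nat_lit 5) (nat_lit 450) (nat_lit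 416) (nat_lit 274)) (XT.lf (nat_lit 0) (nat_lit 8859389647) (nat_lit 836) (nat_lit 1777753175) (nat_lit 912) (nat_lit 1650649972) (nat_lit 435) (nat_lit 5) (nat_lit 446) (nat_lit 5) (nat_lit 447) (nat_lit 5) (nat_lit 451) (nat_lit 416) (nat_lit 273)))) (XT.nd (nat_lit 156) (nat_lit 1672) (nat_lit 0) (XT.nd (nat_lit 78) (nat_lit 0) (nat_lit 0) (XT.lf (nat_lit 0) (nat_lit 201798968) (nat_lit 988) (nat_lit 8747315774) (nat_lit 76) (nat_lit 3465679074) (nat_lit 422) (nat_lit 5) (nat_lit 435) (nat_lit 5) (nat_lit 423) (nat_lit 5) (nat_lit 452) (nat_lit 416) (nat_lit 272)) (XT.lf (nat_lit 0) (nat_lit 2090624039) (nat_lit 988) (nat_lit 1628685048) (nat_lit 76) (nat_lit 8824378968) (nat_lit 422) (nat_lit 5) (nat_lit 435) (nat_lit 5) (nat_lit 423) (nat_lit 5) (nat_lit 453) (nat_lit 416) (nat_lit 271))) (XT.nd (nat_lit 78) (nat_lit 836) (nat_lit 0) (XT.lf (nat_lit 0) (nat_lit 4051663779) (nat_lit 912) (nat_lit 6991860007) (nat_lit 76) (nat_lit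 1630947629) (nat_lit 411) (nat_lit 5) (nat_lit 423) (nat_lit 5) (nat_lit 412) (nat_lit 5) (nat_lit 454) (nat_lit 416) (nat_lit 270)) (XT.lf (nat_lit 0) (nat_lit 320452426) (nat_lit 836) (nat_lit 5756098899) (nat_lit 912) (nat_lit 6730826577) (nat_lit 400) (nat_lit 5) (nat_lit 411) (nat_lit 5) (nat_lit 412) (nat_lit 5) (nat_lit 455) (nat_lit 416) (nat_lit 269)))))) (XT.nd (nat_lit 468) (nat_lit 2888) (nat_lit 0) (XT.nd (nat_lit 234) (nat_lit 1596) (nat_lit 0) (XT.nd (nat_lit 78) (nat_lit 760) (nat_lit 0) (XT.lf (nat_lit 0) (nat_lit 7860271133) (nat_lit 836) (nat_lit 315666913) (nat_lit 912) (nat_lit 4766324445) (nat_lit 400) (nat_lit 5) (nat_lit 411) (nat_lit 5) (nat_lit 412) (nat_lit 5) (nat_lit 456) (nat_lit 416) (nat_lit 268)) (XT.nd (nat_lit 78) (nat_lit 0) (nat_lit 0) (XT.lf (nat_lit 0) (nat_lit 2455768529) (nat_lit 760) (nat_lit 7898800120) (nat_lit 836) (nat_lit 2724531000) (nat_lit 390) (nat_lit 5) (nat_lit 400) (nat_lit 5) (nat_lit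 401) (nat_lit 5) (nat_lit 457) (nat_lit 416) (nat_lit 267)) (XT.lf (nat_lit 0) (nat_lit 10197640952) (nat_lit 760) (nat_lit 2402803657) (nat_lit 836) (nat_lit 617755486) (nat_lit 390) (nat_lit 5) (nat_lit 400) (nat_lit 5) (nat_lit 401) (nat_lit 5) (nat_lit 458) (nat_lit 416) (nat_lit 266)))) (XT.nd (nat_lit 78) (nat_lit 760) (nat_lit 0) (XT.lf (nat_lit 0) (nat_lit 1550786376) (nat_lit 836) (nat_lit 8606951495) (nat_lit 76) (nat_lit 3201351610) (nat_lit 379) (nat_lit 5) (nat_lit 390) (nat_lit 5) (nat_lit 380) (nat_lit 5) (nat_lit 459) (nat_lit 416) (nat_lit 265)) (XT.nd (nat_lit 78) (nat_lit 760) (nat_lit 0) (XT.lf (nat_lit 0) (nat_lit 3778558029) (nat_lit 836) (nat_lit 814758220) (nat_lit 76) (nat_lit 8908916122) (nat_lit 379) (nat_lit 5) (nat_lit 390) (nat_lit 5) (nat_lit 380) (nat_lit 5) (nat_lit 460) (nat_lit 416) (nat_lit 264)) (XT.lf (nat_lit 0) (nat_lit 6093103176) (nat_lit 836) (nat_lit 6440167651) (nat_lit 76) (nat_lit 1114122931)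 (nat_lit 369) (nat_lit 5) (nat_lit 380) (nat_lit 5) (nat_lit 370) (nat_lit 5) (nat_lit 461) (nat_lit 416) (nat_lit 263))))) (XT.nd (nat_lit 234) (nat_lit 1444) (nat_lit 0) (XT.nd (nat_lit 78) (nat_lit 684) (nat_lit 0) (XT.lf (nat_lit 0) (nat_lit 1582302657) (nat_lit 760) (nat_lit 6906019360) (nat_lit 836) (nat_lit 5306448702) (nat_lit 359) (nat_lit 5) (nat_lit 369) (nat_lit 5) (nat_lit 370) (nat_lit 5) (nat_lit 462) (nat_lit 416) (nat_lit 262)) (XT.nd (nat_lit 78) (nat_lit 684) (nat_lit 0) (XT.lf (nat_lit 0) (nat_lit 9839268933) (nat_lit 760) (nat_lit 1123725271) (nat_lit 836) (nat_lit 2981470034) (nat_lit 359) (nat_lit 5) (nat_lit 369) (nat_lit 5) (nat_lit 370) (nat_lit 5) (nat_lit 463) (nat_lit 416) (nat_lit 261)) (XT.lf (nat_lit 0) (nat_lit 4174767896) (nat_lit 684) (nat_lit 9359045428) (nat_lit 760) (nat_lit 562405234) (nat_lit 350) (nat_lit 5) (nat_lit 359) (nat_lit 5) (nat_lit 360) (nat_lit 5) (nat_lit 464) (nat_lit 416) (nat_lit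 260)))) (XT.nd (nat_lit 156) (nat_lit 684) (nat_lit 0) (XT.nd (nat_lit 78) (nat_lit 684) (nat_lit 0) (XT.lf (nat_lit 0) (nat_lit 1903843399) (nat_lit 760) (nat_lit 1607747616) (nat_lit 76) (nat_lit 10738693824) (nat_lit 349) (nat_lit 5) (nat_lit 359) (nat_lit 5) (nat_lit 350) (nat_lit 5) (nat_lit 465) (nat_lit 416) (nat_lit 259)) (XT.lf (nat_lit 0) (nat_lit 4462070337) (nat_lit 760) (nat_lit 7476319517) (nat_lit 76) (nat_lit 2467964563) (nat_lit 340) (nat_lit 5) (nat_lit 350) (nat_lit 5) (nat_lit 341) (nat_lit 5) (nat_lit 466) (nat_lit 416) (nat_lit 258))) (XT.nd (nat_lit 78) (nat_lit 0) (nat_lit 0) (XT.lf (nat_lit 0) (nat_lit 1072640625) (nat_lit 684) (nat_lit 6028862274) (nat_lit 760) (nat_lit 7463441667) (nat_lit 331) (nat_lit 5) (nat_lit 340) (nat_lit 5) (nat_lit 341) (nat_lit 5) (nat_lit 467) (nat_lit 416) (nat_lit 257)) (XT.lf (nat_lit 0) (nat_lit 9833297716) (nat_lit 760) (nat_lit 4845359423) (nat_lit 76) (nat_lit 47257905) (nat_lit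 331) (nat_lit 5) (nat_lit 341) (nat_lit 5) (nat_lit 332) (nat_lit 5) (nat_lit 468) (nat_lit 416) (nat_lit 256))))))) (XT.nd (nat_lit 56082) (nat_lit 0) (nat_lit 16568) (XT.nd (nat_lit 55536) (nat_lit 0) (nat_lit 19456) (XT.nd (nat_lit 55302) (nat_lit 0) (nat_lit 20976) (XT.nd (nat_lit 78) (nat_lit 684) (nat_lit 0) (XT.lf (nat_lit 0) (nat_lit 3973718747) (nat_lit 684) (nat_lit 8701028823) (nat_lit 760) (nat_lit 2214256979) (nat_lit 322) (nat_lit 5) (nat_lit 331) (nat_lit 5) (nat_lit 332) (nat_lit 5) (nat_lit 469) (nat_lit 416) (nat_lit 255)) (XT.nd (nat_lit 78) (nat_lit 608) (nat_lit 0) (XT.lf (nat_lit 0) (nat_lit 532960414) (nat_lit 760) (nat_lit 2036474420) (nat_lit 76) (nat_lit 12485412206) (nat_lit 321) (nat_lit 5) (nat_lit 331) (nat_lit 5) (nat_lit 322) (nat_lit 5) (nat_lit 470) (nat_lit 416) (nat_lit 254)) (XT.lf (nat_lit 0) (nat_lit 3365372336) (nat_lit 684) (nat_lit 8161932397) (nat_lit 76) (nat_lit 3695210941) (nat_lit 313) (nat_lit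 5) (nat_lit 322) (nat_lit 5) (nat_lit 314) (nat_lit 5) (nat_lit 471) (nat_lit 416) (nat_lit 253)))) (XT.nd (nat_lit 78) (nat_lit 0) (nat_lit 0) (XT.lf (nat_lit 0) (nat_lit 3580797544) (nat_lit 1596) (nat_lit 474144848) (nat_lit 1596) (nat_lit 474144848) (nat_lit 589) (nat_lit 3) (nat_lit 610) (nat_lit 3) (nat_lit 610) (nat_lit 5) (nat_lit 417) (nat_lit 417) (nat_lit 306)) (XT.nd (nat_lit 78) (nat_lit 0) (nat_lit 0) (XT.lf (nat_lit 76) (nat_lit 3628384458) (nat_lit 0) (nat_lit 4517605969) (nat_lit 1596) (nat_lit 984510212) (nat_lit 590) (nat_lit 5) (nat_lit 589) (nat_lit 3) (nat_lit 610) (nat_lit 5) (nat_lit 418) (nat_lit 417) (nat_lit 305)) (XT.lf (nat_lit 76) (nat_lit 8297392783) (nat_lit 0) (nat_lit 835641555) (nat_lit 1596) (nat_lit 71579769) (nat_lit 590) (nat_lit 5) (nat_lit 589) (nat_lit 3) (nat_lit 610) (nat_lit 5) (nat_lit 419) (nat_lit 417) (nat_lit 304))))) (XT.nd (nat_lit 234) (nat_lit 0) (nat_lit 76) (XT.nd (nat_lit 78) (nat_lit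 0) (nat_lit 0) (XT.lf (nat_lit 0) (nat_lit 869218973) (nat_lit 1596) (nat_lit 5487436308) (nat_lit 1672) (nat_lit 2923025267) (nat_lit 569) (nat_lit 5) (nat_lit 590) (nat_lit 5) (nat_lit 591) (nat_lit 5) (nat_lit 420) (nat_lit 417) (nat_lit 303)) (XT.nd (nat_lit 78) (nat_lit 0) (nat_lit 76) (XT.lf (nat_lit 0) (nat_lit 1816886487) (nat_lit 1596) (nat_lit 776746425) (nat_lit 1672) (nat_lit 6762825717) (nat_lit 569) (nat_lit 5) (nat_lit 590) (nat_lit 5) (nat_lit 591) (nat_lit 5) (nat_lit 421) (nat_lit 417) (nat_lit 302)) (XT.lf (nat_lit 0) (nat_lit 2796039777) (nat_lit 1596) (nat_lit 5373804446) (nat_lit 1672) (nat_lit 1264677401) (nat_lit 570) (nat_lit 5) (nat_lit 591) (nat_lit 5) (nat_lit 592) (nat_lit 5) (nat_lit 422) (nat_lit 417) (nat_lit 301)))) (XT.nd (nat_lit 156) (nat_lit 0) (nat_lit 76) (XT.nd (nat_lit 78) (nat_lit 0) (nat_lit 0) (XT.lf (nat_lit 0) (nat_lit 3795409991) (nat_lit 1596) (nat_lit 538533609) (nat_lit 1672) (nat_lit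 5180189601) (nat_lit 570) (nat_lit 5) (nat_lit 591) (nat_lit 5) (nat_lit 592) (nat_lit 5) (nat_lit 423) (nat_lit 417) (nat_lit 300)) (XT.lf (nat_lit 76) (nat_lit 4439172862) (nat_lit 0) (nat_lit 383054629) (nat_lit 1672) (nat_lit 4772960323) (nat_lit 571) (nat_lit 5) (nat_lit 570) (nat_lit 5) (nat_lit 592) (nat_lit 5) (nat_lit 424) (nat_lit 417) (nat_lit 299))) (XT.nd (nat_lit 78) (nat_lit 0) (nat_lit 0) (XT.lf (nat_lit 0) (nat_lit 5875928971) (nat_lit 1596) (nat_lit 190644103) (nat_lit 1672) (nat_lit 3611163490) (nat_lit 571) (nat_lit 5) (nat_lit 592) (nat_lit 5) (nat_lit 593) (nat_lit 5) (nat_lit 425) (nat_lit 417) (nat_lit 298)) (XT.lf (nat_lit 76) (nat_lit 4923437203) (nat_lit 0) (nat_lit 2041213488) (nat_lit 1672) (nat_lit 2797006675) (nat_lit 572) (nat_lit 5) (nat_lit 571) (nat_lit 5) (nat_lit 593) (nat_lit 5) (nat_lit 426) (nat_lit 417) (nat_lit 297)))))) (XT.nd (nat_lit 468) (nat_lit 1520) (nat_lit 0) (XT.nd (nat_lit 234) (nat_lit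 0) (nat_lit 0) (XT.nd (nat_lit 78) (nat_lit 1596) (nat_lit 0) (XT.lf (nat_lit 76) (nat_lit 272307722) (nat_lit 0) (nat_lit 7799114731) (nat_lit 1672) (nat_lit 1775908619) (nat_lit 573) (nat_lit 5) (nat_lit 572) (nat_lit 5) (nat_lit 594) (nat_lit 5) (nat_lit 427) (nat_lit 417) (nat_lit 296)) (XT.nd (nat_lit 78) (nat_lit 1596) (nat_lit 0) (XT.lf (nat_lit 76) (nat_lit 5524014006) (nat_lit 0) (nat_lit 3702338313) (nat_lit 1672) (nat_lit 707845480) (nat_lit 573) (nat_lit 5) (nat_lit 572) (nat_lit 5) (nat_lit 594) (nat_lit 5) (nat_lit 428) (nat_lit 417) (nat_lit 295)) (XT.lf (nat_lit 0) (nat_lit 365694276) (nat_lit 1672) (nat_lit 9172476282) (nat_lit 1748) (nat_lit 484799356) (nat_lit 551) (nat_lit 5) (nat_lit 573) (nat_lit 5) (nat_lit 574) (nat_lit 5) (nat_lit 429) (nat_lit 417) (nat_lit 294)))) (XT.nd (nat_lit 78) (nat_lit 0) (nat_lit 0) (XT.lf (nat_lit 0) (nat_lit 1486275563) (nat_lit 1672) (nat_lit 3879430730) (nat_lit 1748) (nat_lit 4747016626)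 (nat_lit 551) (nat_lit 5) (nat_lit 573) (nat_lit 5) (nat_lit 574) (nat_lit 5) (nat_lit 430) (nat_lit 417) (nat_lit 293)) (XT.nd (nat_lit 78) (nat_lit 0) (nat_lit 76) (XT.lf (nat_lit 76) (nat_lit 1526487603) (nat_lit 0) (nat_lit 1093800160) (nat_lit 1748) (nat_lit 7584162834) (nat_lit 552) (nat_lit 5) (nat_lit 551) (nat_lit 5) (nat_lit 574) (nat_lit 5) (nat_lit 431) (nat_lit 417) (nat_lit 292)) (XT.lf (nat_lit 0) (nat_lit 3805806461) (nat_lit 1672) (nat_lit 3239074365) (nat_lit 1748) (nat_lit 3252555479) (nat_lit 552) (nat_lit 5) (nat_lit 574) (nat_lit 5) (nat_lit 575) (nat_lit 5) (nat_lit 432) (nat_lit 417) (nat_lit 291))))) (XT.nd (nat_lit 234) (nat_lit 1596) (nat_lit 0) (XT.nd (nat_lit 78) (nat_lit 0) (nat_lit 76) (XT.lf (nat_lit 76) (nat_lit 2318688038) (nat_lit 0) (nat_lit 2700441482) (nat_lit 1748) (nat_lit 5373070326) (nat_lit 553) (nat_lit 5) (nat_lit 552) (nat_lit 5) (nat_lit 575) (nat_lit 5) (nat_lit 433) (nat_lit 417) (nat_lit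 290)) (XT.nd (nat_lit 78) (nat_lit 0) (nat_lit 0) (XT.lf (nat_lit 0) (nat_lit 6271937527) (nat_lit 1672) (nat_lit 2481668819) (nat_lit 1748) (nat_lit 1734947944) (nat_lit 553) (nat_lit 5) (nat_lit 575) (nat_lit 5) (nat_lit 576) (nat_lit 5) (nat_lit 434) (nat_lit 417) (nat_lit 289)) (XT.lf (nat_lit 76) (nat_lit 3233421409) (nat_lit 0) (nat_lit 4337709068) (nat_lit 1748) (nat_lit 3015278770) (nat_lit 554) (nat_lit 5) (nat_lit 553) (nat_lit 5) (nat_lit 576) (nat_lit 5) (nat_lit 435) (nat_lit 417) (nat_lit 288)))) (XT.nd (nat_lit 156) (nat_lit 1748) (nat_lit 0) (XT.nd (nat_lit 78) (nat_lit 0) (nat_lit 0) (XT.lf (nat_lit 0) (nat_lit 8896890679) (nat_lit 1672) (nat_lit 1604026466) (nat_lit 1748) (nat_lit 185292488) (nat_lit 554) (nat_lit 5) (nat_lit 576) (nat_lit 5) (nat_lit 577) (nat_lit 5) (nat_lit 436) (nat_lit 417) (nat_lit 287)) (XT.lf (nat_lit 76) (nat_lit 4274106005) (nat_lit 0) (nat_lit 6014614151) (nat_lit 1748) (nat_lit 498494791)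 (nat_lit 555) (nat_lit 5) (nat_lit 554) (nat_lit 5) (nat_lit 577) (nat_lit 5) (nat_lit 437) (nat_lit 417) (nat_lit 286))) (XT.nd (nat_lit 78) (nat_lit 0) (nat_lit 76) (XT.lf (nat_lit 0) (nat_lit 801464711) (nat_lit 1748) (nat_lit 617138089) (nat_lit 1824) (nat_lit 9471650349) (nat_lit 531) (nat_lit 5) (nat_lit 554) (nat_lit 5) (nat_lit 555) (nat_lit 5) (nat_lit 438) (nat_lit 417) (nat_lit 285)) (XT.lf (nat_lit 0) (nat_lit 2161200685) (nat_lit 1748) (nat_lit 5564472121) (nat_lit 1824) (nat_lit 3268804365) (nat_lit 532) (nat_lit 5) (nat_lit 555) (nat_lit 5) (nat_lit 556) (nat_lit 5) (nat_lit 439) (nat_lit 417) (nat_lit 284))))))))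
noncomputable def xc109 : XT := (XT.nd (nat_lit 2028) (nat_lit 2128) (nat_lit 0) (XT.nd (nat_lit 1014) (nat_lit 6536) (nat_lit 0) (XT.nd (nat_lit 468) (nat_lit 3876) (nat_lit 0) (XT.nd (nat_lit 234) (nat_lit 1824) (nat_lit 0) (XT.nd (nat_lit 78) (nat_lit 1672) (nat_lit 0) (XT.lf (nat_lit 76) (nat_lit 489477376) (nat_lit 0) (nat_lit 3059198574) (nat_lit 1824) (nat_lit 7552098833) (nat_lit 533) (nat_lit 5) (nat_lit 532) (nat_lit 5) (nat_lit 556) (nat_lit 5) (nat_lit 440) (nat_lit 417) (nat_lit 283)) (XT.nd (nat_lit 78) (nat_lit 1748) (nat_lit 0) (XT.lf (nat_lit 0) (nat_lit 4996583107) (nat_lit 1748) (nat_lit 4493330280) (nat_lit 76) (nat_lit 1718631311) (nat_lit 533) (nat_lit 5) (nat_lit 556) (nat_lit 5) (nat_lit 534) (nat_lit 5) (nat_lit 441) (nat_lit 417) (nat_lit 282)) (XT.lf (nat_lit 0) (nat_lit 1736249242) (nat_lit 1748) (nat_lit 4753097427) (nat_lit 1824) (nat_lit 4828805377) (nat_lit 510) (nat_lit 5) (nat_lit 533) (nat_lit 5) (nat_lit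 534) (nat_lit 5) (nat_lit 442) (nat_lit 417) (nat_lit 281)))) (XT.nd (nat_lit 78) (nat_lit 1824) (nat_lit 0) (XT.lf (nat_lit 0) (nat_lit 8027428562) (nat_lit 1824) (nat_lit 3292223095) (nat_lit 76) (nat_lit 109990624) (nat_lit 510) (nat_lit 5) (nat_lit 534) (nat_lit 5) (nat_lit 511) (nat_lit 5) (nat_lit 443) (nat_lit 417) (nat_lit 280)) (XT.nd (nat_lit 78) (nat_lit 0) (nat_lit 0) (XT.lf (nat_lit 0) (nat_lit 3119455385) (nat_lit 1824) (nat_lit 6513451060) (nat_lit 1900) (nat_lit 1909723187) (nat_lit 486) (nat_lit 5) (nat_lit 510) (nat_lit 5) (nat_lit 511) (nat_lit 5) (nat_lit 444) (nat_lit 417) (nat_lit 279)) (XT.lf (nat_lit 0) (nat_lit 9690851847) (nat_lit 1824) (nat_lit 1586848586) (nat_lit 1900) (nat_lit 380032167) (nat_lit 486) (nat_lit 5) (nat_lit 510) (nat_lit 5) (nat_lit 511) (nat_lit 5) (nat_lit 445) (nat_lit 417) (nat_lit 278))))) (XT.nd (nat_lit 234) (nat_lit 1748) (nat_lit 0) (XT.nd (nat_lit 78) (nat_lit 912) (nat_lit 0) (XT.lf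 (nat_lit 0) (nat_lit 1202916492) (nat_lit 1216) (nat_lit 7138360537) (nat_lit 76) (nat_lit 3432944478) (nat_lit 470) (nat_lit 5) (nat_lit 486) (nat_lit 5) (nat_lit 471) (nat_lit 5) (nat_lit 446) (nat_lit 417) (nat_lit 277)) (XT.nd (nat_lit 78) (nat_lit 912) (nat_lit 0) (XT.lf (nat_lit 0) (nat_lit 2821758009) (nat_lit 1216) (nat_lit 521863667) (nat_lit 76) (nat_lit 8549181826) (nat_lit 470) (nat_lit 5) (nat_lit 486) (nat_lit 5) (nat_lit 471) (nat_lit 5) (nat_lit 447) (nat_lit 417) (nat_lit 276)) (XT.lf (nat_lit 0) (nat_lit 4511330277) (nat_lit 988) (nat_lit 5728379499) (nat_lit 76) (nat_lit 1773280281) (nat_lit 458) (nat_lit 5) (nat_lit 471) (nat_lit 5) (nat_lit 459) (nat_lit 5) (nat_lit 448) (nat_lit 417) (nat_lit 275)))) (XT.nd (nat_lit 156) (nat_lit 836) (nat_lit 0) (XT.nd (nat_lit 78) (nat_lit 0) (nat_lit 0) (XT.lf (nat_lit 0) (nat_lit 1077509435) (nat_lit 912) (nat_lit 5175856380) (nat_lit 988) (nat_lit 5881841093) (nat_lit 446) (nat_lit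 5) (nat_lit 458) (nat_lit 5) (nat_lit 459) (nat_lit 5) (nat_lit 449) (nat_lit 417) (nat_lit 274)) (XT.lf (nat_lit 0) (nat_lit 8055068264) (nat_lit 988) (nat_lit 4175545522) (nat_lit 76) (nat_lit 28757786) (nat_lit 446) (nat_lit 5) (nat_lit 459) (nat_lit 5) (nat_lit 447) (nat_lit 5) (nat_lit 450) (nat_lit 417) (nat_lit 273))) (XT.nd (nat_lit 78) (nat_lit 0) (nat_lit 0) (XT.lf (nat_lit 0) (nat_lit 2833976518) (nat_lit 836) (nat_lit 7097976888) (nat_lit 912) (nat_lit 2453283149) (nat_lit 435) (nat_lit 5) (nat_lit 446) (nat_lit 5) (nat_lit 447) (nat_lit 5) (nat_lit 451) (nat_lit 417) (nat_lit 272)) (XT.lf (nat_lit 0) (nat_lit 10027212358) (nat_lit 836) (nat_lit 1833835760) (nat_lit 912) (nat_lit 652277284) (nat_lit 435) (nat_lit 5) (nat_lit 446) (nat_lit 5) (nat_lit 447) (nat_lit 5) (nat_lit 452) (nat_lit 417) (nat_lit 271)))))) (XT.nd (nat_lit 468) (nat_lit 3116) (nat_lit 0) (XT.nd (nat_lit 234) (nat_lit 1596) (nat_lit 0) (XT.nd (nat_lit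 78) (nat_lit 836) (nat_lit 0) (XT.lf (nat_lit 0) (nat_lit 1210168305) (nat_lit 988) (nat_lit 7904574843) (nat_lit 76) (nat_lit 3528259877) (nat_lit 422) (nat_lit 5) (nat_lit 435) (nat_lit 5) (nat_lit 423) (nat_lit 5) (nat_lit 453) (nat_lit 417) (nat_lit 270)) (XT.nd (nat_lit 78) (nat_lit 836) (nat_lit 0) (XT.lf (nat_lit 0) (nat_lit 3117077067) (nat_lit 988) (nat_lit 663526154) (nat_lit 76) (nat_lit 8994265784) (nat_lit 422) (nat_lit 5) (nat_lit 435) (nat_lit 5) (nat_lit 423) (nat_lit 5) (nat_lit 454) (nat_lit 417) (nat_lit 269)) (XT.lf (nat_lit 0) (nat_lit 5104592202) (nat_lit 912) (nat_lit 6121219212) (nat_lit 76) (nat_lit 1682711526) (nat_lit 411) (nat_lit 5) (nat_lit 423) (nat_lit 5) (nat_lit 412) (nat_lit 5) (nat_lit 455) (nat_lit 417) (nat_lit 268)))) (XT.nd (nat_lit 78) (nat_lit 760) (nat_lit 0) (XT.lf (nat_lit 0) (nat_lit 1330691588) (nat_lit 836) (nat_lit 5826746675) (nat_lit 912) (nat_lit 5886900080) (nat_lit 400) (nat_lit 5)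 (nat_lit 411) (nat_lit 5) (nat_lit 412) (nat_lit 5) (nat_lit 456) (nat_lit 417) (nat_lit 267)) (XT.nd (nat_lit 78) (nat_lit 760) (nat_lit 0) (XT.lf (nat_lit 0) (nat_lit 9001623726) (nat_lit 836) (nat_lit 278378092) (nat_lit 912) (nat_lit 3902295023) (nat_lit 400) (nat_lit 5) (nat_lit 411) (nat_lit 5) (nat_lit 412) (nat_lit 5) (nat_lit 457) (nat_lit 417) (nat_lit 266)) (XT.lf (nat_lit 0) (nat_lit 3500962330) (nat_lit 760) (nat_lit 7989545389) (nat_lit 836) (nat_lit 1831596969) (nat_lit 390) (nat_lit 5) (nat_lit 400) (nat_lit 5) (nat_lit 401) (nat_lit 5) (nat_lit 458) (nat_lit 417) (nat_lit 265))))) (XT.nd (nat_lit 234) (nat_lit 1520) (nat_lit 0) (XT.nd (nat_lit 78) (nat_lit 1520) (nat_lit 0) (XT.lf (nat_lit 0) (nat_lit 294819109) (nat_lit 836) (nat_lit 2088149745) (nat_lit 76) (nat_lit 11081343751) (nat_lit 389) (nat_lit 5) (nat_lit 400) (nat_lit 5) (nat_lit 390) (nat_lit 5) (nat_lit 459) (nat_lit 417) (nat_lit 264)) (XT.nd (nat_lit 78)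 (nat_lit 760) (nat_lit 0) (XT.lf (nat_lit 0) (nat_lit 2487372158) (nat_lit 836) (nat_lit 7779265401) (nat_lit 76) (nat_lit 3341522309) (nat_lit 379) (nat_lit 5) (nat_lit 390) (nat_lit 5) (nat_lit 380) (nat_lit 5) (nat_lit 460) (nat_lit 417) (nat_lit 263)) (XT.lf (nat_lit 0) (nat_lit 151149679) (nat_lit 760) (nat_lit 4591774653) (nat_lit 836) (nat_lit 9011576784) (nat_lit 369) (nat_lit 5) (nat_lit 379) (nat_lit 5) (nat_lit 380) (nat_lit 5) (nat_lit 461) (nat_lit 417) (nat_lit 262)))) (XT.nd (nat_lit 156) (nat_lit 760) (nat_lit 0) (XT.nd (nat_lit 78) (nat_lit 760) (nat_lit 0) (XT.lf (nat_lit 0) (nat_lit 7092323351) (nat_lit 836) (nat_lit 5578294628) (nat_lit 76) (nat_lit 1232176492) (nat_lit 369) (nat_lit 5) (nat_lit 380) (nat_lit 5) (nat_lit 370) (nat_lit 5) (nat_lit 462) (nat_lit 417) (nat_lit 261)) (XT.lf (nat_lit 0) (nat_lit 2598107478) (nat_lit 760) (nat_lit 6926525802) (nat_lit 836) (nat_lit 4528701956) (nat_lit 359) (nat_lit 5) (nat_lit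 369) (nat_lit 5) (nat_lit 370) (nat_lit 5) (nat_lit 463) (nat_lit 417) (nat_lit 260))) (XT.nd (nat_lit 78) (nat_lit 760) (nat_lit 0) (XT.lf (nat_lit 0) (nat_lit 11000915850) (nat_lit 760) (nat_lit 1030891987) (nat_lit 836) (nat_lit 2174554612) (nat_lit 359) (nat_lit 5) (nat_lit 369) (nat_lit 5) (nat_lit 370) (nat_lit 5) (nat_lit 464) (nat_lit 417) (nat_lit 259)) (XT.lf (nat_lit 0) (nat_lit 279390738) (nat_lit 760) (nat_lit 9130269289) (nat_lit 76) (nat_lit 4951646983) (nat_lit 349) (nat_lit 5) (nat_lit 359) (nat_lit 5) (nat_lit 350) (nat_lit 5) (nat_lit 465) (nat_lit 417) (nat_lit 258))))))) (XT.nd (nat_lit 56160) (nat_lit 0) (nat_lit 17404) (XT.nd (nat_lit 55614) (nat_lit 0) (nat_lit 18772) (XT.nd (nat_lit 234) (nat_lit 760) (nat_lit 0) (XT.nd (nat_lit 78) (nat_lit 1368) (nat_lit 0) (XT.lf (nat_lit 0) (nat_lit 2770861945) (nat_lit 760) (nat_lit 673347814) (nat_lit 76) (nat_lit 11074501943) (nat_lit 349) (nat_lit 5) (nat_lit 359) (nat_lit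 5) (nat_lit 350) (nat_lit 5) (nat_lit 466) (nat_lit 417) (nat_lit 257)) (XT.nd (nat_lit 78) (nat_lit 684) (nat_lit 0) (XT.lf (nat_lit 0) (nat_lit 5371151134) (nat_lit 760) (nat_lit 6650188865) (nat_lit 76) (nat_lit 2656744718) (nat_lit 340) (nat_lit 5) (nat_lit 350) (nat_lit 5) (nat_lit 341) (nat_lit 5) (nat_lit 467) (nat_lit 417) (nat_lit 256)) (XT.lf (nat_lit 0) (nat_lit 2063331683) (nat_lit 684) (nat_lit 5990258319) (nat_lit 760) (nat_lit 6786452313) (nat_lit 331) (nat_lit 5) (nat_lit 340) (nat_lit 5) (nat_lit 341) (nat_lit 5) (nat_lit 468) (nat_lit 417) (nat_lit 255)))) (XT.nd (nat_lit 78) (nat_lit 760) (nat_lit 0) (XT.lf (nat_lit 0) (nat_lit 10825150489) (nat_lit 760) (nat_lit 3977162811) (nat_lit 76) (nat_lit 202216308) (nat_lit 331) (nat_lit 5) (nat_lit 341) (nat_lit 5) (nat_lit 332) (nat_lit 5) (nat_lit 469) (nat_lit 417) (nat_lit 254)) (XT.nd (nat_lit 78) (nat_lit 76) (nat_lit 0) (XT.lf (nat_lit 0) (nat_lit 5011947555) (nat_lit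 684) (nat_lit 8702114757) (nat_lit 760) (nat_lit 1457005932) (nat_lit 322) (nat_lit 5) (nat_lit 331) (nat_lit 5) (nat_lit 332) (nat_lit 5) (nat_lit 470) (nat_lit 417) (nat_lit 253)) (XT.lf (nat_lit 0) (nat_lit 1319133245) (nat_lit 760) (nat_lit 1126942414) (nat_lit 76) (nat_lit 12894358050) (nat_lit 321) (nat_lit 5) (nat_lit 331) (nat_lit 5) (nat_lit 322) (nat_lit 5) (nat_lit 471) (nat_lit 417) (nat_lit 252))))) (XT.nd (nat_lit 234) (nat_lit 0) (nat_lit 76) (XT.nd (nat_lit 78) (nat_lit 1596) (nat_lit 0) (XT.lf (nat_lit 0) (nat_lit 4535861590) (nat_lit 1596) (nat_lit 33069217) (nat_lit 1596) (nat_lit 33069217) (nat_lit 589) (nat_lit 3) (nat_lit 610) (nat_lit 3) (nat_lit 610) (nat_lit 5) (nat_lit 418) (nat_lit 418) (nat_lit 304)) (XT.nd (nat_lit 78) (nat_lit 0) (nat_lit 0) (XT.lf (nat_lit 0) (nat_lit 758543531) (nat_lit 1596) (nat_lit 4687199001) (nat_lit 1672) (nat_lit 3832507045) (nat_lit 568) (nat_lit 5) (nat_lit 589) (nat_lit 3) (nat_lit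 590) (nat_lit 5) (nat_lit 419) (nat_lit 418) (nat_lit 303)) (XT.lf (nat_lit 0) (nat_lit 1643214505) (nat_lit 1596) (nat_lit 24460762) (nat_lit 1672) (nat_lit 7686735236) (nat_lit 568) (nat_lit 5) (nat_lit 589) (nat_lit 3) (nat_lit 590) (nat_lit 5) (nat_lit 420) (nat_lit 418) (nat_lit 302)))) (XT.nd (nat_lit 156) (nat_lit 0) (nat_lit 76) (XT.nd (nat_lit 78) (nat_lit 0) (nat_lit 0) (XT.lf (nat_lit 0) (nat_lit 2568898417) (nat_lit 1596) (nat_lit 4663780837) (nat_lit 1672) (nat_lit 2198949002) (nat_lit 569) (nat_lit 5) (nat_lit 590) (nat_lit 5) (nat_lit 591) (nat_lit 5) (nat_lit 421) (nat_lit 418) (nat_lit 301)) (XT.lf (nat_lit 76) (nat_lit 124453023) (nat_lit 0) (nat_lit 3378888112) (nat_lit 1672) (nat_lit 6007244328) (nat_lit 570) (nat_lit 5) (nat_lit 569) (nat_lit 5) (nat_lit 591) (nat_lit 5) (nat_lit 422) (nat_lit 418) (nat_lit 300))) (XT.nd (nat_lit 78) (nat_lit 0) (nat_lit 0) (XT.lf (nat_lit 0) (nat_lit 4470198033) (nat_lit 1596) (nat_lit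 4535106954) (nat_lit 1672) (nat_lit 585542320) (nat_lit 570) (nat_lit 5) (nat_lit 591) (nat_lit 5) (nat_lit 592) (nat_lit 5) (nat_lit 423) (nat_lit 418) (nat_lit 299)) (XT.lf (nat_lit 76) (nat_lit 383344508) (nat_lit 0) (nat_lit 5076969924) (nat_lit 1672) (nat_lit 4212321509) (nat_lit 571) (nat_lit 5) (nat_lit 570) (nat_lit 5) (nat_lit 592) (nat_lit 5) (nat_lit 424) (nat_lit 418) (nat_lit 298)))))) (XT.nd (nat_lit 468) (nat_lit 0) (nat_lit 76) (XT.nd (nat_lit 234) (nat_lit 1520) (nat_lit 0) (XT.nd (nat_lit 78) (nat_lit 0) (nat_lit 76) (XT.lf (nat_lit 76) (nat_lit 5449474706) (nat_lit 0) (nat_lit 1030579771) (nat_lit 1672) (nat_lit 3275809444) (nat_lit 571) (nat_lit 5) (nat_lit 570) (nat_lit 5) (nat_lit 592) (nat_lit 5) (nat_lit 425) (nat_lit 418) (nat_lit 297)) (XT.nd (nat_lit 78) (nat_lit 0) (nat_lit 0) (XT.lf (nat_lit 76) (nat_lit 753563842) (nat_lit 0) (nat_lit 6771470476) (nat_lit 1672) (nat_lit 2315625242) (nat_lit 572) (nat_lit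 5) (nat_lit 571) (nat_lit 5) (nat_lit 593) (nat_lit 5) (nat_lit 426) (nat_lit 418) (nat_lit 296)) (XT.lf (nat_lit 76) (nat_lit 5953871692) (nat_lit 0) (nat_lit 2652881906) (nat_lit 1672) (nat_lit 1320080718) (nat_lit 572) (nat_lit 5) (nat_lit 571) (nat_lit 5) (nat_lit 593) (nat_lit 5) (nat_lit 427) (nat_lit 418) (nat_lit 295)))) (XT.nd (nat_lit 78) (nat_lit 1672) (nat_lit 0) (XT.lf (nat_lit 76) (nat_lit 1237128643) (nat_lit 0) (nat_lit 8471660562) (nat_lit 1672) (nat_lit 305969722) (nat_lit 573) (nat_lit 5) (nat_lit 572) (nat_lit 5) (nat_lit 594) (nat_lit 5) (nat_lit 428) (nat_lit 418) (nat_lit 294)) (XT.nd (nat_lit 78) (nat_lit 0) (nat_lit 76) (XT.lf (nat_lit 0) (nat_lit 744047907) (nat_lit 1672) (nat_lit 3533779058) (nat_lit 1748) (nat_lit 5826016922) (nat_lit 550) (nat_lit 5) (nat_lit 572) (nat_lit 5) (nat_lit 573) (nat_lit 5) (nat_lit 429) (nat_lit 418) (nat_lit 293)) (XT.lf (nat_lit 0) (nat_lit 1804099876) (nat_lit 1672) (nat_lit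 8370515722) (nat_lit 1748) (nat_lit 20191880) (nat_lit 551) (nat_lit 5) (nat_lit 573) (nat_lit 5) (nat_lit 574) (nat_lit 5) (nat_lit 430) (nat_lit 418) (nat_lit 292))))) (XT.nd (nat_lit 234) (nat_lit 0) (nat_lit 76) (XT.nd (nat_lit 78) (nat_lit 0) (nat_lit 0) (XT.lf (nat_lit 0) (nat_lit 2919032167) (nat_lit 1672) (nat_lit 2990931026) (nat_lit 1748) (nat_lit 4376953563) (nat_lit 551) (nat_lit 5) (nat_lit 573) (nat_lit 5) (nat_lit 574) (nat_lit 5) (nat_lit 431) (nat_lit 418) (nat_lit 291)) (XT.nd (nat_lit 78) (nat_lit 0) (nat_lit 76) (XT.lf (nat_lit 76) (nat_lit 2516749830) (nat_lit 0) (nat_lit 1537695587) (nat_lit 1748) (nat_lit 6326459155) (nat_lit 552) (nat_lit 5) (nat_lit 551) (nat_lit 5) (nat_lit 574) (nat_lit 5) (nat_lit 432) (nat_lit 418) (nat_lit 290)) (XT.lf (nat_lit 0) (nat_lit 5233895011) (nat_lit 1672) (nat_lit 2333162183) (nat_lit 1748) (nat_lit 2909288389) (nat_lit 552) (nat_lit 5) (nat_lit 574) (nat_lit 5) (nat_lit 575) (nat_lit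 5) (nat_lit 433) (nat_lit 418) (nat_lit 289)))) (XT.nd (nat_lit 156) (nat_lit 0) (nat_lit 76) (XT.nd (nat_lit 78) (nat_lit 0) (nat_lit 76) (XT.lf (nat_lit 76) (nat_lit 3329369326) (nat_lit 0) (nat_lit 3121866866) (nat_lit 1748) (nat_lit 4122173170) (nat_lit 553) (nat_lit 5) (nat_lit 552) (nat_lit 5) (nat_lit 575) (nat_lit 5) (nat_lit 434) (nat_lit 418) (nat_lit 288)) (XT.lf (nat_lit 0) (nat_lit 7700649384) (nat_lit 1672) (nat_lit 1557451686) (nat_lit 1748) (nat_lit 1414158844) (nat_lit 553) (nat_lit 5) (nat_lit 575) (nat_lit 5) (nat_lit 576) (nat_lit 5) (nat_lit 435) (nat_lit 418) (nat_lit 287))) (XT.nd (nat_lit 78) (nat_lit 0) (nat_lit 0) (XT.lf (nat_lit 76) (nat_lit 4265533435) (nat_lit 0) (nat_lit 4741019668) (nat_lit 1748) (nat_lit 1765904327) (nat_lit 554) (nat_lit 5) (nat_lit 553) (nat_lit 5) (nat_lit 576) (nat_lit 5) (nat_lit 436) (nat_lit 418) (nat_lit 286)) (XT.lf (nat_lit 76) (nat_lit 10213569226) (nat_lit 0) (nat_lit 118839403)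 (nat_lit 1748) (nat_lit 542373595) (nat_lit 554) (nat_lit 5) (nat_lit 553) (nat_lit 5) (nat_lit 576) (nat_lit 5) (nat_lit 437) (nat_lit 418) (nat_lit 285))))))))
noncomputable def xc110 : XT := (XT.nd (nat_lit 2028) (nat_lit 3572) (nat_lit 0) (XT.nd (nat_lit 1014) (nat_lit 5852) (nat_lit 0) (XT.nd (nat_lit 468) (nat_lit 4864) (nat_lit 0) (XT.nd (nat_lit 234) (nat_lit 1596) (nat_lit 0) (XT.nd (nat_lit 78) (nat_lit 0) (nat_lit 0) (XT.lf (nat_lit 0) (nat_lit 744863868) (nat_lit 1748) (nat_lit 5654255648) (nat_lit 1824) (nat_lit 4578972557) (nat_lit 531) (nat_lit 5) (nat_lit 554) (nat_lit 5) (nat_lit 555) (nat_lit 5) (nat_lit 438) (nat_lit 418) (nat_lit 284)) (XT.nd (nat_lit 78) (nat_lit 0) (nat_lit 76) (XT.lf (nat_lit 76) (nat_lit 341482243) (nat_lit 0) (nat_lit 1700444528) (nat_lit 1824) (nat_lit 9041642785) (nat_lit 532) (nat_lit 5) (nat_lit 531) (nat_lit 5) (nat_lit 555) (nat_lit 5) (nat_lit 439) (nat_lit 418) (nat_lit 283)) (XT.lf (nat_lit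 0) (nat_lit 3407322562) (nat_lit 1748) (nat_lit 4689959296) (nat_lit 1824) (nat_lit 3093026899) (nat_lit 532) (nat_lit 5) (nat_lit 555) (nat_lit 5) (nat_lit 556) (nat_lit 5) (nat_lit 440) (nat_lit 418) (nat_lit 282)))) (XT.nd (nat_lit 78) (nat_lit 1672) (nat_lit 0) (XT.lf (nat_lit 76) (nat_lit 1478583650) (nat_lit 0) (nat_lit 3326735824) (nat_lit 1824) (nat_lit 6493757404) (nat_lit 533) (nat_lit 5) (nat_lit 532) (nat_lit 5) (nat_lit 556) (nat_lit 5) (nat_lit 441) (nat_lit 418) (nat_lit 281)) (XT.nd (nat_lit 78) (nat_lit 1748) (nat_lit 0) (XT.lf (nat_lit 0) (nat_lit 6257622830) (nat_lit 1748) (nat_lit 3598520504) (nat_lit 76) (nat_lit 1553350097) (nat_lit 533) (nat_lit 5) (nat_lit 556) (nat_lit 5) (nat_lit 534) (nat_lit 5) (nat_lit 442) (nat_lit 418) (nat_lit 280)) (XT.lf (nat_lit 0) (nat_lit 2749172474) (nat_lit 1748) (nat_lit 5014653477) (nat_lit 1824) (nat_lit 3757795289) (nat_lit 510) (nat_lit 5) (nat_lit 533) (nat_lit 5) (nat_lit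 534) (nat_lit 5) (nat_lit 443) (nat_lit 418) (nat_lit 279))))) (XT.nd (nat_lit 234) (nat_lit 2964) (nat_lit 0) (XT.nd (nat_lit 78) (nat_lit 1900) (nat_lit 0) (XT.lf (nat_lit 0) (nat_lit 9259938316) (nat_lit 1748) (nat_lit 49548122) (nat_lit 1824) (nat_lit 2326318502) (nat_lit 510) (nat_lit 5) (nat_lit 533) (nat_lit 5) (nat_lit 534) (nat_lit 5) (nat_lit 444) (nat_lit 418) (nat_lit 278)) (XT.nd (nat_lit 78) (nat_lit 76) (nat_lit 0) (XT.lf (nat_lit 0) (nat_lit 4157903160) (nat_lit 1824) (nat_lit 6773202170) (nat_lit 1900) (nat_lit 820266080) (nat_lit 486) (nat_lit 5) (nat_lit 510) (nat_lit 5) (nat_lit 511) (nat_lit 5) (nat_lit 445) (nat_lit 418) (nat_lit 277)) (XT.lf (nat_lit 0) (nat_lit 708492453) (nat_lit 1900) (nat_lit 1032281971) (nat_lit 76) (nat_lit 10128342336) (nat_lit 485) (nat_lit 5) (nat_lit 510) (nat_lit 5) (nat_lit 486) (nat_lit 5) (nat_lit 446) (nat_lit 418) (nat_lit 276)))) (XT.nd (nat_lit 156) (nat_lit 912) (nat_lit 0) (XT.nd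 (nat_lit 78) (nat_lit 912) (nat_lit 0) (XT.lf (nat_lit 0) (nat_lit 2302168909) (nat_lit 1216) (nat_lit 6293860817) (nat_lit 76) (nat_lit 3392172329) (nat_lit 470) (nat_lit 5) (nat_lit 486) (nat_lit 5) (nat_lit 471) (nat_lit 5) (nat_lit 447) (nat_lit 418) (nat_lit 275)) (XT.lf (nat_lit 0) (nat_lit 441396813) (nat_lit 912) (nat_lit 3493774046) (nat_lit 988) (nat_lit 8174349158) (nat_lit 458) (nat_lit 5) (nat_lit 470) (nat_lit 5) (nat_lit 471) (nat_lit 5) (nat_lit 448) (nat_lit 418) (nat_lit 274))) (XT.nd (nat_lit 78) (nat_lit 912) (nat_lit 0) (XT.lf (nat_lit 0) (nat_lit 5640735465) (nat_lit 988) (nat_lit 4860105066) (nat_lit 76) (nat_lit 1731625756) (nat_lit 458) (nat_lit 5) (nat_lit 471) (nat_lit 5) (nat_lit 459) (nat_lit 5) (nat_lit 449) (nat_lit 418) (nat_lit 273)) (XT.lf (nat_lit 0) (nat_lit 2075435581) (nat_lit 912) (nat_lit 5328139362) (nat_lit 988) (nat_lit 4953833266) (nat_lit 446) (nat_lit 5) (nat_lit 458) (nat_lit 5) (nat_lit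 459) (nat_lit 5) (nat_lit 450) (nat_lit 418) (nat_lit 272)))))) (XT.nd (nat_lit 468) (nat_lit 3192) (nat_lit 0) (XT.nd (nat_lit 234) (nat_lit 1748) (nat_lit 0) (XT.nd (nat_lit 78) (nat_lit 912) (nat_lit 0) (XT.lf (nat_lit 0) (nat_lit 9202930741) (nat_lit 912) (nat_lit 18086900) (nat_lit 988) (nat_lit 3263444402) (nat_lit 446) (nat_lit 5) (nat_lit 458) (nat_lit 5) (nat_lit 459) (nat_lit 5) (nat_lit 451) (nat_lit 418) (nat_lit 271)) (XT.nd (nat_lit 78) (nat_lit 76) (nat_lit 0) (XT.lf (nat_lit 0) (nat_lit 3861866752) (nat_lit 836) (nat_lit 7260061447) (nat_lit 912) (nat_lit 1491186373) (nat_lit 435) (nat_lit 5) (nat_lit 446) (nat_lit 5) (nat_lit 447) (nat_lit 5) (nat_lit 452) (nat_lit 418) (nat_lit 270)) (XT.lf (nat_lit 0) (nat_lit 321737177) (nat_lit 912) (nat_lit 1566346685) (nat_lit 76) (nat_lit 10856027758) (nat_lit 434) (nat_lit 5) (nat_lit 446) (nat_lit 5) (nat_lit 435) (nat_lit 5) (nat_lit 453) (nat_lit 418) (nat_lit 269)))) (XT.nd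 (nat_lit 78) (nat_lit 836) (nat_lit 0) (XT.lf (nat_lit 0) (nat_lit 2199705542) (nat_lit 988) (nat_lit 7084497129) (nat_lit 76) (nat_lit 3592353737) (nat_lit 422) (nat_lit 5) (nat_lit 435) (nat_lit 5) (nat_lit 423) (nat_lit 5) (nat_lit 454) (nat_lit 418) (nat_lit 268)) (XT.nd (nat_lit 78) (nat_lit 0) (nat_lit 0) (XT.lf (nat_lit 0) (nat_lit 285942937) (nat_lit 836) (nat_lit 3841737957) (nat_lit 912) (nat_lit 8883720245) (nat_lit 411) (nat_lit 5) (nat_lit 422) (nat_lit 5) (nat_lit 423) (nat_lit 5) (nat_lit 455) (nat_lit 418) (nat_lit 267)) (XT.lf (nat_lit 0) (nat_lit 6140839321) (nat_lit 912) (nat_lit 5272403693) (nat_lit 76) (nat_lit 1734767280) (nat_lit 411) (nat_lit 5) (nat_lit 423) (nat_lit 5) (nat_lit 412) (nat_lit 5) (nat_lit 456) (nat_lit 418) (nat_lit 266))))) (XT.nd (nat_lit 234) (nat_lit 1596) (nat_lit 0) (XT.nd (nat_lit 78) (nat_lit 760) (nat_lit 0) (XT.lf (nat_lit 0) (nat_lit 2322155587) (nat_lit 836) (nat_lit 5900534393) (nat_lit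 912) (nat_lit 5064093071) (nat_lit 400) (nat_lit 5) (nat_lit 411) (nat_lit 5) (nat_lit 412) (nat_lit 5) (nat_lit 457) (nat_lit 418) (nat_lit 265)) (XT.nd (nat_lit 78) (nat_lit 760) (nat_lit 0) (XT.lf (nat_lit 0) (nat_lit 10127587736) (nat_lit 836) (nat_lit 242036620) (nat_lit 912) (nat_lit 3058237972) (nat_lit 400) (nat_lit 5) (nat_lit 411) (nat_lit 5) (nat_lit 412) (nat_lit 5) (nat_lit 458) (nat_lit 418) (nat_lit 264)) (XT.lf (nat_lit 0) (nat_lit 4528381067) (nat_lit 760) (nat_lit 8084716215) (nat_lit 836) (nat_lit 957593912) (nat_lit 390) (nat_lit 5) (nat_lit 400) (nat_lit 5) (nat_lit 401) (nat_lit 5) (nat_lit 459) (nat_lit 418) (nat_lit 263)))) (XT.nd (nat_lit 156) (nat_lit 760) (nat_lit 0) (XT.nd (nat_lit 78) (nat_lit 760) (nat_lit 0) (XT.lf (nat_lit 0) (nat_lit 1181785938) (nat_lit 836) (nat_lit 1179576825) (nat_lit 76) (nat_lit 11354614685) (nat_lit 389) (nat_lit 5) (nat_lit 400) (nat_lit 5) (nat_lit 390) (nat_lit 5) (nat_lit 460)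 (nat_lit 418) (nat_lit 262)) (XT.lf (nat_lit 0) (nat_lit 3407525266) (nat_lit 836) (nat_lit 6973850015) (nat_lit 76) (nat_lit 3481539672) (nat_lit 379) (nat_lit 5) (nat_lit 390) (nat_lit 5) (nat_lit 380) (nat_lit 5) (nat_lit 461) (nat_lit 418) (nat_lit 261))) (XT.nd (nat_lit 78) (nat_lit 0) (nat_lit 0) (XT.lf (nat_lit 0) (nat_lit 1108850994) (nat_lit 760) (nat_lit 4588469117) (nat_lit 836) (nat_lit 8315080281) (nat_lit 369) (nat_lit 5) (nat_lit 379) (nat_lit 5) (nat_lit 380) (nat_lit 5) (nat_lit 462) (nat_lit 418) (nat_lit 260)) (XT.lf (nat_lit 0) (nat_lit 8077459045) (nat_lit 836) (nat_lit 4737653316) (nat_lit 76) (nat_lit 1348872216) (nat_lit 369) (nat_lit 5) (nat_lit 380) (nat_lit 5) (nat_lit 370) (nat_lit 5) (nat_lit 463) (nat_lit 418) (nat_lit 259))))))) (XT.nd (nat_lit 56238) (nat_lit 0) (nat_lit 17252) (XT.nd (nat_lit 468) (nat_lit 684) (nat_lit 0) (XT.nd (nat_lit 234) (nat_lit 1368) (nat_lit 0) (XT.nd (nat_lit 78) (nat_lit 760)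 (nat_lit 0) (XT.lf (nat_lit 0) (nat_lit 3596012312) (nat_lit 760) (nat_lit 6952009465) (nat_lit 836) (nat_lit 3769722248) (nat_lit 359) (nat_lit 5) (nat_lit 369) (nat_lit 5) (nat_lit 370) (nat_lit 5) (nat_lit 464) (nat_lit 418) (nat_lit 258)) (XT.nd (nat_lit 78) (nat_lit 760) (nat_lit 0) (XT.lf (nat_lit 0) (nat_lit 12148328955) (nat_lit 760) (nat_lit 940679579) (nat_lit 836) (nat_lit 1385149873) (nat_lit 359) (nat_lit 5) (nat_lit 369) (nat_lit 5) (nat_lit 370) (nat_lit 5) (nat_lit 465) (nat_lit 418) (nat_lit 257)) (XT.lf (nat_lit 0) (nat_lit 1097666472) (nat_lit 760) (nat_lit 8365271975) (nat_lit 76) (nat_lit 5169340945) (nat_lit 349) (nat_lit 5) (nat_lit 359) (nat_lit 5) (nat_lit 350) (nat_lit 5) (nat_lit 466) (nat_lit 418) (nat_lit 256)))) (XT.nd (nat_lit 78) (nat_lit 684) (nat_lit 0) (XT.lf (nat_lit 0) (nat_lit 245426293) (nat_lit 684) (nat_lit 3379199222) (nat_lit 760) (nat_lit 11168493494) (nat_lit 340) (nat_lit 5) (nat_lit 349)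 (nat_lit 5) (nat_lit 350) (nat_lit 5) (nat_lit 467) (nat_lit 418) (nat_lit 255)) (XT.nd (nat_lit 78) (nat_lit 684) (nat_lit 0) (XT.lf (nat_lit 0) (nat_lit 6266578184) (nat_lit 760) (nat_lit 5845421553) (nat_lit 76) (nat_lit 2843886594) (nat_lit 340) (nat_lit 5) (nat_lit 350) (nat_lit 5) (nat_lit 341) (nat_lit 5) (nat_lit 468) (nat_lit 418) (nat_lit 254)) (XT.lf (nat_lit 0) (nat_lit 3036199859) (nat_lit 684) (nat_lit 5957063486) (nat_lit 760) (nat_lit 6128007786) (nat_lit 331) (nat_lit 5) (nat_lit 340) (nat_lit 5) (nat_lit 341) (nat_lit 5) (nat_lit 469) (nat_lit 418) (nat_lit 253))))) (XT.nd (nat_lit 55458) (nat_lit 0) (nat_lit 18696) (XT.nd (nat_lit 78) (nat_lit 684) (nat_lit 0) (XT.lf (nat_lit 0) (nat_lit 11805962245) (nat_lit 760) (nat_lit 3129078424) (nat_lit 76) (nat_lit 354293357) (nat_lit 331) (nat_lit 5) (nat_lit 341) (nat_lit 5) (nat_lit 332) (nat_lit 5) (nat_lit 470) (nat_lit 418) (nat_lit 252)) (XT.nd (nat_lit 55302) (nat_lit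 0) (nat_lit 18696) (XT.lf (nat_lit 0) (nat_lit 6033711337) (nat_lit 684) (nat_lit 8709937672) (nat_lit 760) (nat_lit 715734492) (nat_lit 322) (nat_lit 5) (nat_lit 331) (nat_lit 5) (nat_lit 332) (nat_lit 5) (nat_lit 471) (nat_lit 418) (nat_lit 251)) (XT.lf (nat_lit 0) (nat_lit 396705004) (nat_lit 0) (nat_lit 396705004) (nat_lit 1596) (nat_lit 3883439047) (nat_lit 568) (nat_lit 5) (nat_lit 568) (nat_lit 3) (nat_lit 589) (nat_lit 3) (nat_lit 419) (nat_lit 419) (nat_lit 302)))) (XT.nd (nat_lit 156) (nat_lit 0) (nat_lit 76) (XT.nd (nat_lit 78) (nat_lit 0) (nat_lit 0) (XT.lf (nat_lit 0) (nat_lit 2455350002) (nat_lit 1596) (nat_lit 3898167541) (nat_lit 1672) (nat_lit 3076664315) (nat_lit 568) (nat_lit 5) (nat_lit 589) (nat_lit 3) (nat_lit 590) (nat_lit 5) (nat_lit 420) (nat_lit 419) (nat_lit 301)) (XT.lf (nat_lit 76) (nat_lit 851686157) (nat_lit 0) (nat_lit 2478584702) (nat_lit 1672) (nat_lit 6178144013) (nat_lit 569) (nat_lit 5) (nat_lit 568)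 (nat_lit 5) (nat_lit 590) (nat_lit 5) (nat_lit 421) (nat_lit 419) (nat_lit 300))) (XT.nd (nat_lit 78) (nat_lit 0) (nat_lit 0) (XT.lf (nat_lit 0) (nat_lit 4237245883) (nat_lit 1596) (nat_lit 3859897480) (nat_lit 1672) (nat_lit 1490778069) (nat_lit 569) (nat_lit 5) (nat_lit 590) (nat_lit 5) (nat_lit 591) (nat_lit 5) (nat_lit 422) (nat_lit 419) (nat_lit 299)) (XT.lf (nat_lit 76) (nat_lit 1018198696) (nat_lit 0) (nat_lit 4146260104) (nat_lit 1672) (nat_lit 4504517355) (nat_lit 570) (nat_lit 5) (nat_lit 569) (nat_lit 5) (nat_lit 591) (nat_lit 5) (nat_lit 423) (nat_lit 419) (nat_lit 298)))))) (XT.nd (nat_lit 468) (nat_lit 0) (nat_lit 76) (XT.nd (nat_lit 234) (nat_lit 1520) (nat_lit 0) (XT.nd (nat_lit 78) (nat_lit 0) (nat_lit 76) (XT.lf (nat_lit 76) (nat_lit 6034644037) (nat_lit 0) (nat_lit 80882427) (nat_lit 1672) (nat_lit 3636019300) (nat_lit 570) (nat_lit 5) (nat_lit 569) (nat_lit 5) (nat_lit 591) (nat_lit 5) (nat_lit 424) (nat_lit 419) (nat_lit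 297)) (XT.nd (nat_lit 78) (nat_lit 0) (nat_lit 0) (XT.lf (nat_lit 76) (nat_lit 1294460797) (nat_lit 0) (nat_lit 5805827018) (nat_lit 1672) (nat_lit 2735185503) (nat_lit 571) (nat_lit 5) (nat_lit 570) (nat_lit 5) (nat_lit 592) (nat_lit 5) (nat_lit 425) (nat_lit 419) (nat_lit 296)) (XT.lf (nat_lit 76) (nat_lit 6444198905) (nat_lit 0) (nat_lit 1666208714) (nat_lit 1672) (nat_lit 1810558539) (nat_lit 571) (nat_lit 5) (nat_lit 570) (nat_lit 5) (nat_lit 592) (nat_lit 5) (nat_lit 426) (nat_lit 419) (nat_lit 295)))) (XT.nd (nat_lit 78) (nat_lit 1672) (nat_lit 0) (XT.lf (nat_lit 76) (nat_lit 1682327026) (nat_lit 0) (nat_lit 7466551010) (nat_lit 1672) (nat_lit 859127855) (nat_lit 572) (nat_lit 5) (nat_lit 571) (nat_lit 5) (nat_lit 593) (nat_lit 5) (nat_lit 427) (nat_lit 419) (nat_lit 294)) (XT.nd (nat_lit 78) (nat_lit 0) (nat_lit 76) (XT.lf (nat_lit 0) (nat_lit 125196898) (nat_lit 1672) (nat_lit 3128580082) (nat_lit 1748) (nat_lit 6842688470) (nat_lit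 549) (nat_lit 5) (nat_lit 571) (nat_lit 5) (nat_lit 572) (nat_lit 5) (nat_lit 428) (nat_lit 419) (nat_lit 293)) (XT.lf (nat_lit 0) (nat_lit 1120024680) (nat_lit 1672) (nat_lit 8010057883) (nat_lit 1748) (nat_lit 1056451655) (nat_lit 550) (nat_lit 5) (nat_lit 572) (nat_lit 5) (nat_lit 573) (nat_lit 5) (nat_lit 429) (nat_lit 419) (nat_lit 292))))) (XT.nd (nat_lit 234) (nat_lit 0) (nat_lit 76) (XT.nd (nat_lit 78) (nat_lit 0) (nat_lit 0) (XT.lf (nat_lit 0) (nat_lit 2158949152) (nat_lit 1672) (nat_lit 2681808837) (nat_lit 1748) (nat_lit 5437162370) (nat_lit 550) (nat_lit 5) (nat_lit 572) (nat_lit 5) (nat_lit 573) (nat_lit 5) (nat_lit 430) (nat_lit 419) (nat_lit 291)) (XT.nd (nat_lit 78) (nat_lit 0) (nat_lit 76) (XT.lf (nat_lit 76) (nat_lit 2777491563) (nat_lit 0) (nat_lit 441074738) (nat_lit 1748) (nat_lit 7152569638) (nat_lit 551) (nat_lit 5) (nat_lit 550) (nat_lit 5) (nat_lit 573) (nat_lit 5) (nat_lit 431) (nat_lit 419) (nat_lit 290)) (XT.lf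 (nat_lit 0) (nat_lit 4325962495) (nat_lit 1672) (nat_lit 2122175714) (nat_lit 1748) (nat_lit 4017545887) (nat_lit 551) (nat_lit 5) (nat_lit 573) (nat_lit 5) (nat_lit 574) (nat_lit 5) (nat_lit 432) (nat_lit 419) (nat_lit 289)))) (XT.nd (nat_lit 156) (nat_lit 0) (nat_lit 76) (XT.nd (nat_lit 78) (nat_lit 0) (nat_lit 76) (XT.lf (nat_lit 76) (nat_lit 3489549719) (nat_lit 0) (nat_lit 1974081395) (nat_lit 1748) (nat_lit 5098329614) (nat_lit 552) (nat_lit 5) (nat_lit 551) (nat_lit 5) (nat_lit 574) (nat_lit 5) (nat_lit 433) (nat_lit 419) (nat_lit 288)) (XT.lf (nat_lit 0) (nat_lit 6638046594) (nat_lit 1672) (nat_lit 1446824976) (nat_lit 1748) (nat_lit 2575011451) (nat_lit 552) (nat_lit 5) (nat_lit 574) (nat_lit 5) (nat_lit 575) (nat_lit 5) (nat_lit 434) (nat_lit 419) (nat_lit 287))) (XT.nd (nat_lit 78) (nat_lit 0) (nat_lit 76) (XT.lf (nat_lit 76) (nat_lit 4322819002) (nat_lit 0) (nat_lit 3537453526) (nat_lit 1748) (nat_lit 2899004790) (nat_lit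 553) (nat_lit 5) (nat_lit 552) (nat_lit 5) (nat_lit 575) (nat_lit 5) (nat_lit 435) (nat_lit 419) (nat_lit 286)) (XT.lf (nat_lit 0) (nat_lit 9107327796) (nat_lit 1672) (nat_lit 652566011) (nat_lit 1748) (nat_lit 1100757997) (nat_lit 553) (nat_lit 5) (nat_lit 575) (nat_lit 5) (nat_lit 576) (nat_lit 5) (nat_lit 436) (nat_lit 419) (nat_lit 285))))))))
noncomputable def xc111 : XT := (XT.nd (nat_lit 2028) (nat_lit 3648) (nat_lit 0) (XT.nd (nat_lit 1014) (nat_lit 6004) (nat_lit 0) (XT.nd (nat_lit 468) (nat_lit 5472) (nat_lit 0) (XT.nd (nat_lit 234) (nat_lit 0) (nat_lit 76) (XT.nd (nat_lit 78) (nat_lit 1748) (nat_lit 0) (XT.lf (nat_lit 76) (nat_lit 5280720689) (nat_lit 0) (nat_lit 5140104209) (nat_lit 1748) (nat_lit 542398867) (nat_lit 554) (nat_lit 5) (nat_lit 553) (nat_lit 5) (nat_lit 576) (nat_lit 5) (nat_lit 437) (nat_lit 419) (nat_lit 284)) (XT.nd (nat_lit 78) (nat_lit 0) (nat_lit 76) (XT.lf (nat_lit 76) (nat_lit 260399493) (nat_lit 0)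 (nat_lit 413280473) (nat_lit 1824) (nat_lit 10394276831) (nat_lit 531) (nat_lit 5) (nat_lit 530) (nat_lit 5) (nat_lit 554) (nat_lit 5) (nat_lit 438) (nat_lit 419) (nat_lit 283)) (XT.lf (nat_lit 0) (nat_lit 1958011771) (nat_lit 1748) (nat_lit 4819806944) (nat_lit 1824) (nat_lit 4395870188) (nat_lit 531) (nat_lit 5) (nat_lit 554) (nat_lit 5) (nat_lit 555) (nat_lit 5) (nat_lit 439) (nat_lit 419) (nat_lit 282)))) (XT.nd (nat_lit 78) (nat_lit 0) (nat_lit 76) (XT.lf (nat_lit 76) (nat_lit 1289611931) (nat_lit 0) (nat_lit 1974020435) (nat_lit 1824) (nat_lit 8017991241) (nat_lit 532) (nat_lit 5) (nat_lit 531) (nat_lit 5) (nat_lit 555) (nat_lit 5) (nat_lit 440) (nat_lit 419) (nat_lit 281)) (XT.nd (nat_lit 78) (nat_lit 0) (nat_lit 0) (XT.lf (nat_lit 0) (nat_lit 4631656887) (nat_lit 1748) (nat_lit 3836236118) (nat_lit 1824) (nat_lit 2923098170) (nat_lit 532) (nat_lit 5) (nat_lit 555) (nat_lit 5) (nat_lit 556) (nat_lit 5) (nat_lit 441) (nat_lit 419)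 (nat_lit 280)) (XT.lf (nat_lit 76) (nat_lit 2449443987) (nat_lit 0) (nat_lit 3591610869) (nat_lit 1824) (nat_lit 5461210979) (nat_lit 533) (nat_lit 5) (nat_lit 532) (nat_lit 5) (nat_lit 556) (nat_lit 5) (nat_lit 442) (nat_lit 419) (nat_lit 279))))) (XT.nd (nat_lit 234) (nat_lit 3952) (nat_lit 0) (XT.nd (nat_lit 78) (nat_lit 1748) (nat_lit 0) (XT.lf (nat_lit 0) (nat_lit 7498796107) (nat_lit 1748) (nat_lit 2724050716) (nat_lit 76) (nat_lit 1392516059) (nat_lit 533) (nat_lit 5) (nat_lit 556) (nat_lit 5) (nat_lit 534) (nat_lit 5) (nat_lit 443) (nat_lit 419) (nat_lit 278)) (XT.nd (nat_lit 78) (nat_lit 0) (nat_lit 0) (XT.lf (nat_lit 0) (nat_lit 3744369541) (nat_lit 1748) (nat_lit 5274975479) (nat_lit 1824) (nat_lit 2710703794) (nat_lit 510) (nat_lit 5) (nat_lit 533) (nat_lit 5) (nat_lit 534) (nat_lit 5) (nat_lit 444) (nat_lit 419) (nat_lit 277)) (XT.lf (nat_lit 0) (nat_lit 10366915139) (nat_lit 1748) (nat_lit 207430194) (nat_lit 1824) (nat_lit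 1272602322) (nat_lit 510) (nat_lit 5) (nat_lit 533) (nat_lit 5) (nat_lit 534) (nat_lit 5) (nat_lit 445) (nat_lit 419) (nat_lit 276)))) (XT.nd (nat_lit 156) (nat_lit 2052) (nat_lit 0) (XT.nd (nat_lit 78) (nat_lit 0) (nat_lit 0) (XT.lf (nat_lit 0) (nat_lit 243950115) (nat_lit 1900) (nat_lit 6787533205) (nat_lit 76) (nat_lit 4933631194) (nat_lit 485) (nat_lit 5) (nat_lit 510) (nat_lit 5) (nat_lit 486) (nat_lit 5) (nat_lit 446) (nat_lit 419) (nat_lit 275)) (XT.lf (nat_lit 0) (nat_lit 1771337225) (nat_lit 1900) (nat_lit 119229391) (nat_lit 76) (nat_lit 10194958981) (nat_lit 485) (nat_lit 5) (nat_lit 510) (nat_lit 5) (nat_lit 486) (nat_lit 5) (nat_lit 447) (nat_lit 419) (nat_lit 274))) (XT.nd (nat_lit 78) (nat_lit 912) (nat_lit 0) (XT.lf (nat_lit 0) (nat_lit 3381655277) (nat_lit 1216) (nat_lit 5470807881) (nat_lit 76) (nat_lit 3354834079) (nat_lit 470) (nat_lit 5) (nat_lit 486) (nat_lit 5) (nat_lit 471) (nat_lit 5) (nat_lit 448) (nat_lit 419)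 (nat_lit 273)) (XT.lf (nat_lit 0) (nat_lit 1392911941) (nat_lit 912) (nat_lit 3640262289) (nat_lit 988) (nat_lit 7298150189) (nat_lit 458) (nat_lit 5) (nat_lit 470) (nat_lit 5) (nat_lit 471) (nat_lit 5) (nat_lit 449) (nat_lit 419) (nat_lit 272)))))) (XT.nd (nat_lit 468) (nat_lit 3268) (nat_lit 0) (XT.nd (nat_lit 234) (nat_lit 1824) (nat_lit 0) (XT.nd (nat_lit 78) (nat_lit 912) (nat_lit 0) (XT.lf (nat_lit 0) (nat_lit 6752376186) (nat_lit 988) (nat_lit 4012630098) (nat_lit 76) (nat_lit 1692132809) (nat_lit 458) (nat_lit 5) (nat_lit 471) (nat_lit 5) (nat_lit 459) (nat_lit 5) (nat_lit 450) (nat_lit 419) (nat_lit 271)) (XT.nd (nat_lit 78) (nat_lit 0) (nat_lit 0) (XT.lf (nat_lit 0) (nat_lit 3055406382) (nat_lit 912) (nat_lit 5481574367) (nat_lit 988) (nat_lit 4047868939) (nat_lit 446) (nat_lit 5) (nat_lit 458) (nat_lit 5) (nat_lit 459) (nat_lit 5) (nat_lit 451) (nat_lit 419) (nat_lit 270)) (XT.lf (nat_lit 0) (nat_lit 10307050227) (nat_lit 912)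 (nat_lit 64401792) (nat_lit 988) (nat_lit 2343378984) (nat_lit 446) (nat_lit 5) (nat_lit 458) (nat_lit 5) (nat_lit 459) (nat_lit 5) (nat_lit 452) (nat_lit 419) (nat_lit 269)))) (XT.nd (nat_lit 78) (nat_lit 988) (nat_lit 0) (XT.lf (nat_lit 0) (nat_lit 4872601495) (nat_lit 836) (nat_lit 7424606218) (nat_lit 912) (nat_lit 549112331) (nat_lit 435) (nat_lit 5) (nat_lit 446) (nat_lit 5) (nat_lit 447) (nat_lit 5) (nat_lit 453) (nat_lit 419) (nat_lit 268)) (XT.nd (nat_lit 78) (nat_lit 912) (nat_lit 0) (XT.lf (nat_lit 0) (nat_lit 1268516190) (nat_lit 912) (nat_lit 669983401) (nat_lit 76) (nat_lit 11041687376) (nat_lit 434) (nat_lit 5) (nat_lit 446) (nat_lit 5) (nat_lit 435) (nat_lit 5) (nat_lit 454) (nat_lit 419) (nat_lit 267)) (XT.lf (nat_lit 0) (nat_lit 3171548432) (nat_lit 988) (nat_lit 6286001364) (nat_lit 76) (nat_lit 3657980765) (nat_lit 422) (nat_lit 5) (nat_lit 435) (nat_lit 5) (nat_lit 423) (nat_lit 5) (nat_lit 455) (nat_lit 419) (nat_lit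 266))))) (XT.nd (nat_lit 234) (nat_lit 1596) (nat_lit 0) (XT.nd (nat_lit 78) (nat_lit 836) (nat_lit 0) (XT.lf (nat_lit 0) (nat_lit 1225662072) (nat_lit 836) (nat_lit 3900292256) (nat_lit 912) (nat_lit 8127360438) (nat_lit 411) (nat_lit 5) (nat_lit 422) (nat_lit 5) (nat_lit 423) (nat_lit 5) (nat_lit 456) (nat_lit 419) (nat_lit 265)) (XT.nd (nat_lit 78) (nat_lit 836) (nat_lit 0) (XT.lf (nat_lit 0) (nat_lit 7161536994) (nat_lit 912) (nat_lit 4444326293) (nat_lit 76) (nat_lit 1787149595) (nat_lit 411) (nat_lit 5) (nat_lit 423) (nat_lit 5) (nat_lit 412) (nat_lit 5) (nat_lit 457) (nat_lit 419) (nat_lit 264)) (XT.lf (nat_lit 0) (nat_lit 3295982557) (nat_lit 836) (nat_lit 5977457792) (nat_lit 912) (nat_lit 4261352430) (nat_lit 400) (nat_lit 5) (nat_lit 411) (nat_lit 5) (nat_lit 412) (nat_lit 5) (nat_lit 458) (nat_lit 419) (nat_lit 263)))) (XT.nd (nat_lit 156) (nat_lit 836) (nat_lit 0) (XT.nd (nat_lit 78) (nat_lit 760) (nat_lit 0) (XT.lf (nat_lit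 0) (nat_lit 11239339353) (nat_lit 836) (nat_lit 206595697) (nat_lit 912) (nat_lit 2233106161) (nat_lit 400) (nat_lit 5) (nat_lit 411) (nat_lit 5) (nat_lit 412) (nat_lit 5) (nat_lit 459) (nat_lit 419) (nat_lit 262)) (XT.lf (nat_lit 0) (nat_lit 5539171191) (nat_lit 760) (nat_lit 8184299733) (nat_lit 836) (nat_lit 101471860) (nat_lit 390) (nat_lit 5) (nat_lit 400) (nat_lit 5) (nat_lit 401) (nat_lit 5) (nat_lit 460) (nat_lit 419) (nat_lit 261))) (XT.nd (nat_lit 78) (nat_lit 760) (nat_lit 0) (XT.lf (nat_lit 0) (nat_lit 2052279064) (nat_lit 836) (nat_lit 289735149) (nat_lit 76) (nat_lit 11631345636) (nat_lit 389) (nat_lit 5) (nat_lit 400) (nat_lit 5) (nat_lit 390) (nat_lit 5) (nat_lit 461) (nat_lit 419) (nat_lit 260)) (XT.lf (nat_lit 0) (nat_lit 4312282524) (nat_lit 836) (nat_lit 6189643148) (nat_lit 76) (nat_lit 3621515444) (nat_lit 379) (nat_lit 5) (nat_lit 390) (nat_lit 5) (nat_lit 380) (nat_lit 5) (nat_lit 462) (nat_lit 419) (nat_lit 259)))))))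 (XT.nd (nat_lit 56394) (nat_lit 0) (nat_lit 15124) (XT.nd (nat_lit 468) (nat_lit 684) (nat_lit 0) (XT.nd (nat_lit 234) (nat_lit 1444) (nat_lit 0) (XT.nd (nat_lit 78) (nat_lit 760) (nat_lit 0) (XT.lf (nat_lit 0) (nat_lit 2048635013) (nat_lit 760) (nat_lit 4588791912) (nat_lit 836) (nat_lit 7638698266) (nat_lit 369) (nat_lit 5) (nat_lit 379) (nat_lit 5) (nat_lit 380) (nat_lit 5) (nat_lit 463) (nat_lit 419) (nat_lit 258)) (XT.nd (nat_lit 78) (nat_lit 760) (nat_lit 0) (XT.lf (nat_lit 0) (nat_lit 9049551505) (nat_lit 836) (nat_lit 3917174543) (nat_lit 76) (nat_lit 1464327355) (nat_lit 369) (nat_lit 5) (nat_lit 380) (nat_lit 5) (nat_lit 370) (nat_lit 5) (nat_lit 464) (nat_lit 419) (nat_lit 257)) (XT.lf (nat_lit 0) (nat_lit 4577143135) (nat_lit 760) (nat_lit 6982392549) (nat_lit 836) (nat_lit 3028552152) (nat_lit 359) (nat_lit 5) (nat_lit 369) (nat_lit 5) (nat_lit 370) (nat_lit 5) (nat_lit 465) (nat_lit 419) (nat_lit 256)))) (XT.nd (nat_lit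 78) (nat_lit 1444) (nat_lit 0) (XT.lf (nat_lit 0) (nat_lit 13282678452) (nat_lit 760) (nat_lit 852966596) (nat_lit 836) (nat_lit 612299399) (nat_lit 359) (nat_lit 5) (nat_lit 369) (nat_lit 5) (nat_lit 370) (nat_lit 5) (nat_lit 466) (nat_lit 419) (nat_lit 255)) (XT.nd (nat_lit 78) (nat_lit 684) (nat_lit 0) (XT.lf (nat_lit 0) (nat_lit 1900750058) (nat_lit 760) (nat_lit 7621771282) (nat_lit 76) (nat_lit 5386781035) (nat_lit 349) (nat_lit 5) (nat_lit 359) (nat_lit 5) (nat_lit 350) (nat_lit 5) (nat_lit 467) (nat_lit 419) (nat_lit 254)) (XT.lf (nat_lit 0) (nat_lit 1155148806) (nat_lit 684) (nat_lit 3313657850) (nat_lit 760) (nat_lit 10604740962) (nat_lit 340) (nat_lit 5) (nat_lit 349) (nat_lit 5) (nat_lit 350) (nat_lit 5) (nat_lit 468) (nat_lit 419) (nat_lit 253))))) (XT.nd (nat_lit 55614) (nat_lit 0) (nat_lit 18012) (XT.nd (nat_lit 78) (nat_lit 684) (nat_lit 0) (XT.lf (nat_lit 0) (nat_lit 7149314619) (nat_lit 760) (nat_lit 5060973689) (nat_lit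 76) (nat_lit 3029567654) (nat_lit 340) (nat_lit 5) (nat_lit 350) (nat_lit 5) (nat_lit 341) (nat_lit 5) (nat_lit 469) (nat_lit 419) (nat_lit 252)) (XT.nd (nat_lit 55458) (nat_lit 0) (nat_lit 18012) (XT.lf (nat_lit 0) (nat_lit 3992350176) (nat_lit 684) (nat_lit 5929145932) (nat_lit 760) (nat_lit 5487233095) (nat_lit 331) (nat_lit 5) (nat_lit 340) (nat_lit 5) (nat_lit 341) (nat_lit 5) (nat_lit 470) (nat_lit 419) (nat_lit 251)) (XT.lf (nat_lit 0) (nat_lit 818147077) (nat_lit 0) (nat_lit 818147077) (nat_lit 1596) (nat_lit 3117551564) (nat_lit 568) (nat_lit 5) (nat_lit 568) (nat_lit 3) (nat_lit 589) (nat_lit 3) (nat_lit 420) (nat_lit 420) (nat_lit 300)))) (XT.nd (nat_lit 156) (nat_lit 0) (nat_lit 76) (XT.nd (nat_lit 78) (nat_lit 0) (nat_lit 0) (XT.lf (nat_lit 0) (nat_lit 4120792642) (nat_lit 1596) (nat_lit 3127634697) (nat_lit 1672) (nat_lit 2338031442) (nat_lit 568) (nat_lit 5) (nat_lit 589) (nat_lit 3) (nat_lit 590) (nat_lit 5) (nat_lit 421)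 (nat_lit 420) (nat_lit 299)) (XT.lf (nat_lit 76) (nat_lit 1711633863) (nat_lit 0) (nat_lit 3275357955) (nat_lit 1672) (nat_lit 4679789041) (nat_lit 569) (nat_lit 5) (nat_lit 568) (nat_lit 5) (nat_lit 590) (nat_lit 5) (nat_lit 422) (nat_lit 420) (nat_lit 298))) (XT.nd (nat_lit 78) (nat_lit 0) (nat_lit 0) (XT.lf (nat_lit 0) (nat_lit 5876171402) (nat_lit 1596) (nat_lit 3074774232) (nat_lit 1672) (nat_lit 797650615) (nat_lit 569) (nat_lit 5) (nat_lit 590) (nat_lit 5) (nat_lit 591) (nat_lit 5) (nat_lit 423) (nat_lit 420) (nat_lit 297)) (XT.lf (nat_lit 76) (nat_lit 1895210702) (nat_lit 0) (nat_lit 4901805674) (nat_lit 1672) (nat_lit 3034753935) (nat_lit 570) (nat_lit 5) (nat_lit 569) (nat_lit 5) (nat_lit 591) (nat_lit 5) (nat_lit 424) (nat_lit 420) (nat_lit 296)))))) (XT.nd (nat_lit 546) (nat_lit 1444) (nat_lit 0) (XT.nd (nat_lit 234) (nat_lit 1520) (nat_lit 0) (XT.nd (nat_lit 78) (nat_lit 0) (nat_lit 76) (XT.lf (nat_lit 76) (nat_lit 6995187929)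 (nat_lit 0) (nat_lit 741931808) (nat_lit 1672) (nat_lit 2179471287) (nat_lit 570) (nat_lit 5) (nat_lit 569) (nat_lit 5) (nat_lit 591) (nat_lit 5) (nat_lit 425) (nat_lit 420) (nat_lit 295)) (XT.nd (nat_lit 78) (nat_lit 0) (nat_lit 0) (XT.lf (nat_lit 76) (nat_lit 2188717371) (nat_lit 0) (nat_lit 6524901743) (nat_lit 1672) (nat_lit 1289137160) (nat_lit 571) (nat_lit 5) (nat_lit 570) (nat_lit 5) (nat_lit 592) (nat_lit 5) (nat_lit 426) (nat_lit 420) (nat_lit 294)) (XT.lf (nat_lit 76) (nat_lit 7424423430) (nat_lit 0) (nat_lit 2290668364) (nat_lit 1672) (nat_lit 375444167) (nat_lit 571) (nat_lit 5) (nat_lit 570) (nat_lit 5) (nat_lit 592) (nat_lit 5) (nat_lit 427) (nat_lit 420) (nat_lit 293)))) (XT.nd (nat_lit 156) (nat_lit 0) (nat_lit 76) (XT.nd (nat_lit 78) (nat_lit 0) (nat_lit 0) (XT.lf (nat_lit 0) (nat_lit 560692235) (nat_lit 1672) (nat_lit 7589346444) (nat_lit 1748) (nat_lit 2029730927) (nat_lit 549) (nat_lit 5) (nat_lit 571) (nat_lit 5)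 (nat_lit 572) (nat_lit 5) (nat_lit 428) (nat_lit 420) (nat_lit 292)) (XT.lf (nat_lit 0) (nat_lit 1525259345) (nat_lit 1672) (nat_lit 2311586576) (nat_lit 1748) (nat_lit 6433597668) (nat_lit 549) (nat_lit 5) (nat_lit 571) (nat_lit 5) (nat_lit 572) (nat_lit 5) (nat_lit 429) (nat_lit 420) (nat_lit 291))) (XT.nd (nat_lit 78) (nat_lit 0) (nat_lit 0) (XT.lf (nat_lit 0) (nat_lit 2514994082) (nat_lit 1672) (nat_lit 7265704333) (nat_lit 1748) (nat_lit 582115110) (nat_lit 550) (nat_lit 5) (nat_lit 572) (nat_lit 5) (nat_lit 573) (nat_lit 5) (nat_lit 430) (nat_lit 420) (nat_lit 290)) (XT.lf (nat_lit 0) (nat_lit 3547783928) (nat_lit 1672) (nat_lit 1848626673) (nat_lit 1748) (nat_lit 5060155050) (nat_lit 550) (nat_lit 5) (nat_lit 572) (nat_lit 5) (nat_lit 573) (nat_lit 5) (nat_lit 431) (nat_lit 420) (nat_lit 289))))) (XT.nd (nat_lit 234) (nat_lit 1520) (nat_lit 0) (XT.nd (nat_lit 78) (nat_lit 0) (nat_lit 76) (XT.lf (nat_lit 76) (nat_lit 3714025405)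 (nat_lit 0) (nat_lit 893902540) (nat_lit 1748) (nat_lit 5944130907) (nat_lit 551) (nat_lit 5) (nat_lit 550) (nat_lit 5) (nat_lit 573) (nat_lit 5) (nat_lit 432) (nat_lit 420) (nat_lit 288)) (XT.nd (nat_lit 78) (nat_lit 0) (nat_lit 0) (XT.lf (nat_lit 0) (nat_lit 5708665602) (nat_lit 1672) (nat_lit 1272102954) (nat_lit 1748) (nat_lit 3668305545) (nat_lit 551) (nat_lit 5) (nat_lit 573) (nat_lit 5) (nat_lit 574) (nat_lit 5) (nat_lit 433) (nat_lit 420) (nat_lit 287)) (XT.lf (nat_lit 76) (nat_lit 4445985170) (nat_lit 0) (nat_lit 2403443737) (nat_lit 1748) (nat_lit 3898240531) (nat_lit 552) (nat_lit 5) (nat_lit 551) (nat_lit 5) (nat_lit 574) (nat_lit 5) (nat_lit 434) (nat_lit 420) (nat_lit 286)))) (XT.nd (nat_lit 156) (nat_lit 1672) (nat_lit 0) (XT.nd (nat_lit 78) (nat_lit 0) (nat_lit 0) (XT.lf (nat_lit 0) (nat_lit 8019821063) (nat_lit 1672) (nat_lit 578990569) (nat_lit 1748) (nat_lit 2249288779) (nat_lit 552) (nat_lit 5) (nat_lit 574) (nat_lit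 5) (nat_lit 575) (nat_lit 5) (nat_lit 435) (nat_lit 420) (nat_lit 285)) (XT.lf (nat_lit 76) (nat_lit 5300146480) (nat_lit 0) (nat_lit 3947638699) (nat_lit 1748) (nat_lit 1702071540) (nat_lit 553) (nat_lit 5) (nat_lit 552) (nat_lit 5) (nat_lit 575) (nat_lit 5) (nat_lit 436) (nat_lit 420) (nat_lit 284))) (XT.nd (nat_lit 78) (nat_lit 1748) (nat_lit 0) (XT.lf (nat_lit 76) (nat_lit 237180674) (nat_lit 0) (nat_lit 10257856510) (nat_lit 1748) (nat_lit 558716399) (nat_lit 554) (nat_lit 5) (nat_lit 553) (nat_lit 5) (nat_lit 576) (nat_lit 5) (nat_lit 437) (nat_lit 420) (nat_lit 283)) (XT.lf (nat_lit 0) (nat_lit 648082375) (nat_lit 1748) (nat_lit 4882924144) (nat_lit 1824) (nat_lit 5627672097) (nat_lit 530) (nat_lit 5) (nat_lit 553) (nat_lit 5) (nat_lit 554) (nat_lit 5) (nat_lit 438) (nat_lit 420) (nat_lit 282))))))))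
noncomputable def xc112 : XT := (XT.nd (nat_lit 2028) (nat_lit 2204) (nat_lit 0) (XT.nd (nat_lit 1014) (nat_lit 6764) (nat_lit 0) (XT.nd (nat_lit 468) (nat_lit 5472) (nat_lit 0) (XT.nd (nat_lit 234) (nat_lit 0) (nat_lit 152) (XT.nd (nat_lit 78) (nat_lit 0) (nat_lit 76) (XT.lf (nat_lit 76) (nat_lit 1169259979) (nat_lit 0) (nat_lit 694420785) (nat_lit 1824) (nat_lit 9402104625) (nat_lit 531) (nat_lit 5) (nat_lit 530) (nat_lit 5) (nat_lit 554) (nat_lit 5) (nat_lit 439) (nat_lit 420) (nat_lit 281)) (XT.nd (nat_lit 78) (nat_lit 0) (nat_lit 0) (XT.lf (nat_lit 0) (nat_lit 3148893099) (nat_lit 1748) (nat_lit 4005463158) (nat_lit 1824) (nat_lit 4219772001) (nat_lit 531) (nat_lit 5) (nat_lit 554) (nat_lit 5) (nat_lit 555) (nat_lit 5) (nat_lit 440) (nat_lit 420) (nat_lit 280)) (XT.lf (nat_lit 76) (nat_lit 2220152384) (nat_lit 0) (nat_lit 2243765182) (nat_lit 1824) (nat_lit 7020638262) (nat_lit 532) (nat_lit 5) (nat_lit 531) (nat_lit 5) (nat_lit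 555) (nat_lit 5) (nat_lit 441) (nat_lit 420) (nat_lit 279)))) (XT.nd (nat_lit 78) (nat_lit 0) (nat_lit 0) (XT.lf (nat_lit 0) (nat_lit 5835581714) (nat_lit 1748) (nat_lit 3002231924) (nat_lit 1824) (nat_lit 2758771527) (nat_lit 532) (nat_lit 5) (nat_lit 555) (nat_lit 5) (nat_lit 556) (nat_lit 5) (nat_lit 442) (nat_lit 420) (nat_lit 278)) (XT.nd (nat_lit 78) (nat_lit 0) (nat_lit 76) (XT.lf (nat_lit 76) (nat_lit 3403170145) (nat_lit 0) (nat_lit 3854081619) (nat_lit 1824) (nat_lit 4453151871) (nat_lit 533) (nat_lit 5) (nat_lit 532) (nat_lit 5) (nat_lit 556) (nat_lit 5) (nat_lit 443) (nat_lit 420) (nat_lit 277)) (XT.lf (nat_lit 0) (nat_lit 8721456400) (nat_lit 1748) (nat_lit 1868842960) (nat_lit 76) (nat_lit 1235917093) (nat_lit 533) (nat_lit 5) (nat_lit 556) (nat_lit 5) (nat_lit 534) (nat_lit 5) (nat_lit 444) (nat_lit 420) (nat_lit 276))))) (XT.nd (nat_lit 234) (nat_lit 2052) (nat_lit 0) (XT.nd (nat_lit 78) (nat_lit 1900) (nat_lit 0) (XT.lf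 (nat_lit 0) (nat_lit 4722960908) (nat_lit 1748) (nat_lit 5534289802) (nat_lit 1824) (nat_lit 1686248704) (nat_lit 510) (nat_lit 5) (nat_lit 533) (nat_lit 5) (nat_lit 534) (nat_lit 5) (nat_lit 445) (nat_lit 420) (nat_lit 275)) (XT.nd (nat_lit 78) (nat_lit 1900) (nat_lit 0) (XT.lf (nat_lit 0) (nat_lit 11460237732) (nat_lit 1748) (nat_lit 362377635) (nat_lit 1824) (nat_lit 240535578) (nat_lit 510) (nat_lit 5) (nat_lit 533) (nat_lit 5) (nat_lit 534) (nat_lit 5) (nat_lit 446) (nat_lit 420) (nat_lit 274)) (XT.lf (nat_lit 0) (nat_lit 1276941787) (nat_lit 1900) (nat_lit 6007893458) (nat_lit 76) (nat_lit 4899019306) (nat_lit 485) (nat_lit 5) (nat_lit 510) (nat_lit 5) (nat_lit 486) (nat_lit 5) (nat_lit 447) (nat_lit 420) (nat_lit 273)))) (XT.nd (nat_lit 156) (nat_lit 912) (nat_lit 0) (XT.nd (nat_lit 78) (nat_lit 0) (nat_lit 0) (XT.lf (nat_lit 0) (nat_lit 786137940) (nat_lit 1140) (nat_lit 2033683755) (nat_lit 1216) (nat_lit 9487153259) (nat_lit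 470) (nat_lit 5) (nat_lit 485) (nat_lit 5) (nat_lit 486) (nat_lit 5) (nat_lit 448) (nat_lit 420) (nat_lit 272)) (XT.lf (nat_lit 0) (nat_lit 4442601522) (nat_lit 1216) (nat_lit 4668142000) (nat_lit 76) (nat_lit 3320833396) (nat_lit 470) (nat_lit 5) (nat_lit 486) (nat_lit 5) (nat_lit 471) (nat_lit 5) (nat_lit 449) (nat_lit 420) (nat_lit 271))) (XT.nd (nat_lit 78) (nat_lit 0) (nat_lit 0) (XT.lf (nat_lit 0) (nat_lit 2326851678) (nat_lit 912) (nat_lit 3786705329) (nat_lit 988) (nat_lit 6444799514) (nat_lit 458) (nat_lit 5) (nat_lit 470) (nat_lit 5) (nat_lit 471) (nat_lit 5) (nat_lit 450) (nat_lit 420) (nat_lit 270)) (XT.lf (nat_lit 0) (nat_lit 7847464090) (nat_lit 988) (nat_lit 3184888592) (nat_lit 76) (nat_lit 1654728385) (nat_lit 458) (nat_lit 5) (nat_lit 471) (nat_lit 5) (nat_lit 459) (nat_lit 5) (nat_lit 451) (nat_lit 420) (nat_lit 269)))))) (XT.nd (nat_lit 468) (nat_lit 3192) (nat_lit 0) (XT.nd (nat_lit 234) (nat_lit 1748) (nat_lit 0)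 (XT.nd (nat_lit 78) (nat_lit 912) (nat_lit 0) (XT.lf (nat_lit 0) (nat_lit 4018534971) (nat_lit 912) (nat_lit 5636257966) (nat_lit 988) (nat_lit 3162812293) (nat_lit 446) (nat_lit 5) (nat_lit 458) (nat_lit 5) (nat_lit 459) (nat_lit 5) (nat_lit 452) (nat_lit 420) (nat_lit 268)) (XT.nd (nat_lit 78) (nat_lit 912) (nat_lit 0) (XT.lf (nat_lit 0) (nat_lit 11397525018) (nat_lit 912) (nat_lit 109858565) (nat_lit 988) (nat_lit 1443173989) (nat_lit 446) (nat_lit 5) (nat_lit 458) (nat_lit 5) (nat_lit 459) (nat_lit 5) (nat_lit 453) (nat_lit 420) (nat_lit 267)) (XT.lf (nat_lit 0) (nat_lit 369157309) (nat_lit 912) (nat_lit 7220056201) (nat_lit 76) (nat_lit 5495667542) (nat_lit 434) (nat_lit 5) (nat_lit 446) (nat_lit 5) (nat_lit 435) (nat_lit 5) (nat_lit 454) (nat_lit 420) (nat_lit 266)))) (XT.nd (nat_lit 78) (nat_lit 836) (nat_lit 0) (XT.lf (nat_lit 0) (nat_lit 211051788) (nat_lit 912) (nat_lit 1988034569) (nat_lit 988) (nat_lit 11022600353) (nat_lit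 422) (nat_lit 5) (nat_lit 434) (nat_lit 5) (nat_lit 435) (nat_lit 5) (nat_lit 455) (nat_lit 420) (nat_lit 265)) (XT.nd (nat_lit 78) (nat_lit 836) (nat_lit 0) (XT.lf (nat_lit 0) (nat_lit 4126798682) (nat_lit 988) (nat_lit 5508044240) (nat_lit 76) (nat_lit 3725161865) (nat_lit 422) (nat_lit 5) (nat_lit 435) (nat_lit 5) (nat_lit 423) (nat_lit 5) (nat_lit 456) (nat_lit 420) (nat_lit 264)) (XT.lf (nat_lit 0) (nat_lit 2147907220) (nat_lit 836) (nat_lit 3960727494) (nat_lit 912) (nat_lit 7392143122) (nat_lit 411) (nat_lit 5) (nat_lit 422) (nat_lit 5) (nat_lit 423) (nat_lit 5) (nat_lit 457) (nat_lit 420) (nat_lit 263))))) (XT.nd (nat_lit 234) (nat_lit 2356) (nat_lit 0) (XT.nd (nat_lit 78) (nat_lit 836) (nat_lit 0) (XT.lf (nat_lit 0) (nat_lit 8167782811) (nat_lit 912) (nat_lit 3635937277) (nat_lit 76) (nat_lit 1839892750) (nat_lit 411) (nat_lit 5) (nat_lit 423) (nat_lit 5) (nat_lit 412) (nat_lit 5) (nat_lit 458) (nat_lit 420) (nat_lit 262)) (XT.nd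 (nat_lit 78) (nat_lit 0) (nat_lit 0) (XT.lf (nat_lit 0) (nat_lit 4253274622) (nat_lit 836) (nat_lit 6057515129) (nat_lit 912) (nat_lit 3477661273) (nat_lit 400) (nat_lit 5) (nat_lit 411) (nat_lit 5) (nat_lit 412) (nat_lit 5) (nat_lit 459) (nat_lit 420) (nat_lit 261)) (XT.lf (nat_lit 0) (nat_lit 12338020662) (nat_lit 836) (nat_lit 172010141) (nat_lit 912) (nat_lit 1425887690) (nat_lit 400) (nat_lit 5) (nat_lit 411) (nat_lit 5) (nat_lit 412) (nat_lit 5) (nat_lit 460) (nat_lit 420) (nat_lit 260)))) (XT.nd (nat_lit 156) (nat_lit 760) (nat_lit 0) (XT.nd (nat_lit 78) (nat_lit 760) (nat_lit 0) (XT.lf (nat_lit 0) (nat_lit 728108500) (nat_lit 836) (nat_lit 7555292269) (nat_lit 76) (nat_lit 5801449264) (nat_lit 389) (nat_lit 5) (nat_lit 400) (nat_lit 5) (nat_lit 390) (nat_lit 5) (nat_lit 461) (nat_lit 420) (nat_lit 259)) (XT.lf (nat_lit 0) (nat_lit 590173871) (nat_lit 760) (nat_lit 2320955476) (nat_lit 836) (nat_lit 11325341606) (nat_lit 379) (nat_lit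 5) (nat_lit 389) (nat_lit 5) (nat_lit 390) (nat_lit 5) (nat_lit 462) (nat_lit 420) (nat_lit 258))) (XT.nd (nat_lit 78) (nat_lit 760) (nat_lit 0) (XT.lf (nat_lit 0) (nat_lit 5202648468) (nat_lit 836) (nat_lit 5425619915) (nat_lit 76) (nat_lit 3761559151) (nat_lit 379) (nat_lit 5) (nat_lit 390) (nat_lit 5) (nat_lit 380) (nat_lit 5) (nat_lit 463) (nat_lit 420) (nat_lit 257)) (XT.lf (nat_lit 0) (nat_lit 2971582915) (nat_lit 760) (nat_lit 4592672146) (nat_lit 836) (nat_lit 6981511043) (nat_lit 369) (nat_lit 5) (nat_lit 379) (nat_lit 5) (nat_lit 380) (nat_lit 5) (nat_lit 464) (nat_lit 420) (nat_lit 256))))))) (XT.nd (nat_lit 56472) (nat_lit 0) (nat_lit 14440) (XT.nd (nat_lit 55926) (nat_lit 0) (nat_lit 15808) (XT.nd (nat_lit 234) (nat_lit 1368) (nat_lit 0) (XT.nd (nat_lit 78) (nat_lit 836) (nat_lit 0) (XT.lf (nat_lit 0) (nat_lit 10009611430) (nat_lit 836) (nat_lit 3115825763) (nat_lit 76) (nat_lit 1578655900) (nat_lit 369) (nat_lit 5) (nat_lit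 380) (nat_lit 5) (nat_lit 370) (nat_lit 5) (nat_lit 465) (nat_lit 420) (nat_lit 255)) (XT.nd (nat_lit 78) (nat_lit 76) (nat_lit 0) (XT.lf (nat_lit 0) (nat_lit 5542590819) (nat_lit 760) (nat_lit 7017602582) (nat_lit 836) (nat_lit 2304266851) (nat_lit 359) (nat_lit 5) (nat_lit 369) (nat_lit 5) (nat_lit 370) (nat_lit 5) (nat_lit 466) (nat_lit 420) (nat_lit 254)) (XT.lf (nat_lit 0) (nat_lit 143020943) (nat_lit 836) (nat_lit 623655221) (nat_lit 76) (nat_lit 14261120765) (nat_lit 358) (nat_lit 5) (nat_lit 369) (nat_lit 5) (nat_lit 359) (nat_lit 5) (nat_lit 467) (nat_lit 420) (nat_lit 253)))) (XT.nd (nat_lit 78) (nat_lit 684) (nat_lit 0) (XT.lf (nat_lit 0) (nat_lit 2689563077) (nat_lit 760) (nat_lit 6898768287) (nat_lit 76) (nat_lit 5604141098) (nat_lit 349) (nat_lit 5) (nat_lit 359) (nat_lit 5) (nat_lit 350) (nat_lit 5) (nat_lit 468) (nat_lit 420) (nat_lit 252)) (XT.nd (nat_lit 78) (nat_lit 0) (nat_lit 0) (XT.lf (nat_lit 0) (nat_lit 2047930739)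 (nat_lit 684) (nat_lit 3251975070) (nat_lit 760) (nat_lit 10060278301) (nat_lit 340) (nat_lit 5) (nat_lit 349) (nat_lit 5) (nat_lit 350) (nat_lit 5) (nat_lit 469) (nat_lit 420) (nat_lit 251)) (XT.lf (nat_lit 0) (nat_lit 8020294827) (nat_lit 760) (nat_lit 4295837631) (nat_lit 76) (nat_lit 3213960744) (nat_lit 340) (nat_lit 5) (nat_lit 350) (nat_lit 5) (nat_lit 341) (nat_lit 5) (nat_lit 470) (nat_lit 420) (nat_lit 250))))) (XT.nd (nat_lit 234) (nat_lit 1520) (nat_lit 0) (XT.nd (nat_lit 78) (nat_lit 0) (nat_lit 0) (XT.lf (nat_lit 0) (nat_lit 1231960972) (nat_lit 0) (nat_lit 1231960972) (nat_lit 1596) (nat_lit 2369102650) (nat_lit 568) (nat_lit 5) (nat_lit 568) (nat_lit 3) (nat_lit 589) (nat_lit 3) (nat_lit 421) (nat_lit 421) (nat_lit 298)) (XT.nd (nat_lit 78) (nat_lit 0) (nat_lit 0) (XT.lf (nat_lit 0) (nat_lit 5756779853) (nat_lit 1596) (nat_lit 2374639337) (nat_lit 1672) (nat_lit 1615697340) (nat_lit 568) (nat_lit 5) (nat_lit 589) (nat_lit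 3) (nat_lit 590) (nat_lit 5) (nat_lit 422) (nat_lit 421) (nat_lit 297)) (XT.lf (nat_lit 76) (nat_lit 2556049146) (nat_lit 0) (nat_lit 4059051925) (nat_lit 1672) (nat_lit 3214448017) (nat_lit 569) (nat_lit 5) (nat_lit 568) (nat_lit 5) (nat_lit 590) (nat_lit 5) (nat_lit 423) (nat_lit 421) (nat_lit 296)))) (XT.nd (nat_lit 156) (nat_lit 1596) (nat_lit 0) (XT.nd (nat_lit 78) (nat_lit 0) (nat_lit 0) (XT.lf (nat_lit 0) (nat_lit 7487524705) (nat_lit 1596) (nat_lit 2307433502) (nat_lit 1672) (nat_lit 118733370) (nat_lit 569) (nat_lit 5) (nat_lit 590) (nat_lit 5) (nat_lit 591) (nat_lit 5) (nat_lit 424) (nat_lit 421) (nat_lit 295)) (XT.lf (nat_lit 76) (nat_lit 2756498261) (nat_lit 0) (nat_lit 5646343486) (nat_lit 1672) (nat_lit 1596166270) (nat_lit 570) (nat_lit 5) (nat_lit 569) (nat_lit 5) (nat_lit 591) (nat_lit 5) (nat_lit 425) (nat_lit 421) (nat_lit 294))) (XT.nd (nat_lit 78) (nat_lit 1596) (nat_lit 0) (XT.lf (nat_lit 76) (nat_lit 7942330261)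 (nat_lit 0) (nat_lit 1390595639) (nat_lit 1672) (nat_lit 753175670) (nat_lit 570) (nat_lit 5) (nat_lit 569) (nat_lit 5) (nat_lit 591) (nat_lit 5) (nat_lit 426) (nat_lit 421) (nat_lit 293)) (XT.lf (nat_lit 0) (nat_lit 125883196) (nat_lit 1672) (nat_lit 7108216422) (nat_lit 1748) (nat_lit 2940411374) (nat_lit 548) (nat_lit 5) (nat_lit 570) (nat_lit 5) (nat_lit 571) (nat_lit 5) (nat_lit 427) (nat_lit 421) (nat_lit 292)))))) (XT.nd (nat_lit 468) (nat_lit 1368) (nat_lit 0) (XT.nd (nat_lit 234) (nat_lit 0) (nat_lit 152) (XT.nd (nat_lit 78) (nat_lit 0) (nat_lit 76) (XT.lf (nat_lit 0) (nat_lit 1017714240) (nat_lit 1672) (nat_lit 1880119056) (nat_lit 1748) (nat_lit 7366650215) (nat_lit 548) (nat_lit 5) (nat_lit 570) (nat_lit 5) (nat_lit 571) (nat_lit 5) (nat_lit 428) (nat_lit 421) (nat_lit 291)) (XT.nd (nat_lit 78) (nat_lit 0) (nat_lit 0) (XT.lf (nat_lit 0) (nat_lit 1942061481) (nat_lit 1672) (nat_lit 6878814640) (nat_lit 1748) (nat_lit 1535085769)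 (nat_lit 549) (nat_lit 5) (nat_lit 571) (nat_lit 5) (nat_lit 572) (nat_lit 5) (nat_lit 429) (nat_lit 421) (nat_lit 290)) (XT.lf (nat_lit 0) (nat_lit 2899054141) (nat_lit 1672) (nat_lit 1512407785) (nat_lit 1748) (nat_lit 6037524742) (nat_lit 549) (nat_lit 5) (nat_lit 571) (nat_lit 5) (nat_lit 572) (nat_lit 5) (nat_lit 430) (nat_lit 421) (nat_lit 289)))) (XT.nd (nat_lit 78) (nat_lit 0) (nat_lit 0) (XT.lf (nat_lit 0) (nat_lit 3884564349) (nat_lit 1672) (nat_lit 6541588673) (nat_lit 1748) (nat_lit 117531365) (nat_lit 550) (nat_lit 5) (nat_lit 572) (nat_lit 5) (nat_lit 573) (nat_lit 5) (nat_lit 431) (nat_lit 421) (nat_lit 288)) (XT.nd (nat_lit 78) (nat_lit 0) (nat_lit 0) (XT.lf (nat_lit 0) (nat_lit 4912141945) (nat_lit 1672) (nat_lit 1033217102) (nat_lit 1748) (nat_lit 4694469870) (nat_lit 550) (nat_lit 5) (nat_lit 572) (nat_lit 5) (nat_lit 573) (nat_lit 5) (nat_lit 432) (nat_lit 421) (nat_lit 287)) (XT.lf (nat_lit 76) (nat_lit 4635080240)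 (nat_lit 0) (nat_lit 1338545593) (nat_lit 1748) (nat_lit 4764003409) (nat_lit 551) (nat_lit 5) (nat_lit 550) (nat_lit 5) (nat_lit 573) (nat_lit 5) (nat_lit 433) (nat_lit 421) (nat_lit 286))))) (XT.nd (nat_lit 234) (nat_lit 1596) (nat_lit 0) (XT.nd (nat_lit 78) (nat_lit 0) (nat_lit 0) (XT.lf (nat_lit 0) (nat_lit 7068690373) (nat_lit 1672) (nat_lit 439686234) (nat_lit 1748) (nat_lit 3328761948) (nat_lit 551) (nat_lit 5) (nat_lit 573) (nat_lit 5) (nat_lit 574) (nat_lit 5) (nat_lit 434) (nat_lit 421) (nat_lit 285)) (XT.nd (nat_lit 78) (nat_lit 0) (nat_lit 76) (XT.lf (nat_lit 76) (nat_lit 5387119846) (nat_lit 0) (nat_lit 2826253783) (nat_lit 1748) (nat_lit 2724710076) (nat_lit 552) (nat_lit 5) (nat_lit 551) (nat_lit 5) (nat_lit 574) (nat_lit 5) (nat_lit 435) (nat_lit 421) (nat_lit 284)) (XT.lf (nat_lit 76) (nat_lit 274984286) (nat_lit 0) (nat_lit 9107531396) (nat_lit 1748) (nat_lit 1658500773) (nat_lit 553) (nat_lit 5) (nat_lit 552) (nat_lit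 5) (nat_lit 575) (nat_lit 5) (nat_lit 436) (nat_lit 421) (nat_lit 283)))) (XT.nd (nat_lit 156) (nat_lit 0) (nat_lit 0) (XT.nd (nat_lit 78) (nat_lit 1672) (nat_lit 0) (XT.lf (nat_lit 76) (nat_lit 6262426897) (nat_lit 0) (nat_lit 4352846859) (nat_lit 1748) (nat_lit 529929441) (nat_lit 553) (nat_lit 5) (nat_lit 552) (nat_lit 5) (nat_lit 575) (nat_lit 5) (nat_lit 437) (nat_lit 421) (nat_lit 282)) (XT.lf (nat_lit 0) (nat_lit 608243578) (nat_lit 1748) (nat_lit 10137403329) (nat_lit 1824) (nat_lit 505842548) (nat_lit 530) (nat_lit 5) (nat_lit 553) (nat_lit 5) (nat_lit 554) (nat_lit 5) (nat_lit 438) (nat_lit 421) (nat_lit 281))) (XT.nd (nat_lit 78) (nat_lit 0) (nat_lit 0) (XT.lf (nat_lit 0) (nat_lit 1808749991) (nat_lit 1748) (nat_lit 4106267989) (nat_lit 1824) (nat_lit 5443880089) (nat_lit 530) (nat_lit 5) (nat_lit 553) (nat_lit 5) (nat_lit 554) (nat_lit 5) (nat_lit 439) (nat_lit 421) (nat_lit 280)) (XT.lf (nat_lit 76) (nat_lit 2061207746) (nat_lit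 0) (nat_lit 970587847) (nat_lit 1824) (nat_lit 8436688680) (nat_lit 531) (nat_lit 5) (nat_lit 530) (nat_lit 5) (nat_lit 554) (nat_lit 5) (nat_lit 440) (nat_lit 421) (nat_lit 279))))))))
noncomputable def xc113 : XT := (XT.nd (nat_lit 2028) (nat_lit 1520) (nat_lit 0) (XT.nd (nat_lit 1014) (nat_lit 5852) (nat_lit 0) (XT.nd (nat_lit 468) (nat_lit 4864) (nat_lit 0) (XT.nd (nat_lit 234) (nat_lit 1596) (nat_lit 0) (XT.nd (nat_lit 78) (nat_lit 0) (nat_lit 0) (XT.lf (nat_lit 0) (nat_lit 4318869320) (nat_lit 1748) (nat_lit 3210197638) (nat_lit 1824) (nat_lit 4050403898) (nat_lit 531) (nat_lit 5) (nat_lit 554) (nat_lit 5) (nat_lit 555) (nat_lit 5) (nat_lit 441) (nat_lit 421) (nat_lit 278)) (XT.nd (nat_lit 78) (nat_lit 0) (nat_lit 76) (XT.lf (nat_lit 76) (nat_lit 3134171170) (nat_lit 0) (nat_lit 2509963378) (nat_lit 1824) (nat_lit 6048293624) (nat_lit 532) (nat_lit 5) (nat_lit 531) (nat_lit 5) (nat_lit 555) (nat_lit 5) (nat_lit 442) (nat_lit 421)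 (nat_lit 277)) (XT.lf (nat_lit 0) (nat_lit 7020432227) (nat_lit 1748) (nat_lit 2186912360) (nat_lit 1824) (nat_lit 2599809503) (nat_lit 532) (nat_lit 5) (nat_lit 555) (nat_lit 5) (nat_lit 556) (nat_lit 5) (nat_lit 443) (nat_lit 421) (nat_lit 276)))) (XT.nd (nat_lit 78) (nat_lit 1672) (nat_lit 0) (XT.lf (nat_lit 76) (nat_lit 4340838776) (nat_lit 0) (nat_lit 4114399057) (nat_lit 1824) (nat_lit 3468317055) (nat_lit 533) (nat_lit 5) (nat_lit 532) (nat_lit 5) (nat_lit 556) (nat_lit 5) (nat_lit 444) (nat_lit 421) (nat_lit 275)) (XT.nd (nat_lit 78) (nat_lit 1748) (nat_lit 0) (XT.lf (nat_lit 0) (nat_lit 9926916259) (nat_lit 1748) (nat_lit 1031855371) (nat_lit 76) (nat_lit 1083348537) (nat_lit 533) (nat_lit 5) (nat_lit 556) (nat_lit 5) (nat_lit 534) (nat_lit 5) (nat_lit 445) (nat_lit 421) (nat_lit 274)) (XT.lf (nat_lit 0) (nat_lit 5686032176) (nat_lit 1748) (nat_lit 5792817595) (nat_lit 1824) (nat_lit 683190551) (nat_lit 510) (nat_lit 5) (nat_lit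 533) (nat_lit 5) (nat_lit 534) (nat_lit 5) (nat_lit 446) (nat_lit 421) (nat_lit 273))))) (XT.nd (nat_lit 234) (nat_lit 1824) (nat_lit 0) (XT.nd (nat_lit 78) (nat_lit 1140) (nat_lit 0) (XT.lf (nat_lit 0) (nat_lit 254875630) (nat_lit 1824) (nat_lit 507773730) (nat_lit 1900) (nat_lit 11521700906) (nat_lit 485) (nat_lit 5) (nat_lit 509) (nat_lit 5) (nat_lit 510) (nat_lit 5) (nat_lit 447) (nat_lit 421) (nat_lit 272)) (XT.nd (nat_lit 78) (nat_lit 1140) (nat_lit 0) (XT.lf (nat_lit 0) (nat_lit 2290670424) (nat_lit 1900) (nat_lit 5248206641) (nat_lit 76) (nat_lit 4868890781) (nat_lit 485) (nat_lit 5) (nat_lit 510) (nat_lit 5) (nat_lit 486) (nat_lit 5) (nat_lit 448) (nat_lit 421) (nat_lit 271)) (XT.lf (nat_lit 0) (nat_lit 1675916933) (nat_lit 1140) (nat_lit 2174789680) (nat_lit 1216) (nat_lit 8682918070) (nat_lit 470) (nat_lit 5) (nat_lit 485) (nat_lit 5) (nat_lit 486) (nat_lit 5) (nat_lit 449) (nat_lit 421) (nat_lit 270)))) (XT.nd (nat_lit 156)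 (nat_lit 912) (nat_lit 0) (XT.nd (nat_lit 78) (nat_lit 912) (nat_lit 0) (XT.lf (nat_lit 0) (nat_lit 5486195132) (nat_lit 1216) (nat_lit 3884840059) (nat_lit 76) (nat_lit 3290078434) (nat_lit 470) (nat_lit 5) (nat_lit 486) (nat_lit 5) (nat_lit 471) (nat_lit 5) (nat_lit 450) (nat_lit 421) (nat_lit 269)) (XT.lf (nat_lit 0) (nat_lit 3244285961) (nat_lit 912) (nat_lit 3933217785) (nat_lit 988) (nat_lit 5613186394) (nat_lit 458) (nat_lit 5) (nat_lit 470) (nat_lit 5) (nat_lit 471) (nat_lit 5) (nat_lit 451) (nat_lit 421) (nat_lit 268))) (XT.nd (nat_lit 78) (nat_lit 912) (nat_lit 0) (XT.lf (nat_lit 0) (nat_lit 8927174214) (nat_lit 988) (nat_lit 2375850774) (nat_lit 76) (nat_lit 1619342483) (nat_lit 458) (nat_lit 5) (nat_lit 471) (nat_lit 5) (nat_lit 459) (nat_lit 5) (nat_lit 452) (nat_lit 421) (nat_lit 267)) (XT.lf (nat_lit 0) (nat_lit 4965899579) (nat_lit 912) (nat_lit 5792285809) (nat_lit 988) (nat_lit 2297566015) (nat_lit 446) (nat_lit 5) (nat_lit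 458) (nat_lit 5) (nat_lit 459) (nat_lit 5) (nat_lit 453) (nat_lit 421) (nat_lit 266)))))) (XT.nd (nat_lit 468) (nat_lit 3192) (nat_lit 0) (XT.nd (nat_lit 234) (nat_lit 836) (nat_lit 0) (XT.nd (nat_lit 78) (nat_lit 1824) (nat_lit 0) (XT.lf (nat_lit 0) (nat_lit 12475469546) (nat_lit 912) (nat_lit 154509348) (nat_lit 988) (nat_lit 561740877) (nat_lit 446) (nat_lit 5) (nat_lit 458) (nat_lit 5) (nat_lit 459) (nat_lit 5) (nat_lit 454) (nat_lit 421) (nat_lit 265)) (XT.nd (nat_lit 78) (nat_lit 912) (nat_lit 0) (XT.lf (nat_lit 0) (nat_lit 1262647863) (nat_lit 912) (nat_lit 6490274113) (nat_lit 76) (nat_lit 5575934549) (nat_lit 434) (nat_lit 5) (nat_lit 446) (nat_lit 5) (nat_lit 435) (nat_lit 5) (nat_lit 455) (nat_lit 421) (nat_lit 264)) (XT.lf (nat_lit 0) (nat_lit 1083704830) (nat_lit 912) (nat_lit 2033734443) (nat_lit 988) (nat_lit 10351193747) (nat_lit 422) (nat_lit 5) (nat_lit 434) (nat_lit 5) (nat_lit 435) (nat_lit 5) (nat_lit 456) (nat_lit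 421) (nat_lit 263)))) (XT.nd (nat_lit 78) (nat_lit 836) (nat_lit 0) (XT.lf (nat_lit 0) (nat_lit 5066523506) (nat_lit 988) (nat_lit 4749618858) (nat_lit 76) (nat_lit 3793918741) (nat_lit 422) (nat_lit 5) (nat_lit 435) (nat_lit 5) (nat_lit 423) (nat_lit 5) (nat_lit 457) (nat_lit 421) (nat_lit 262)) (XT.nd (nat_lit 78) (nat_lit 0) (nat_lit 0) (XT.lf (nat_lit 0) (nat_lit 3053737247) (nat_lit 836) (nat_lit 4023053724) (nat_lit 912) (nat_lit 6677082750) (nat_lit 411) (nat_lit 5) (nat_lit 422) (nat_lit 5) (nat_lit 423) (nat_lit 5) (nat_lit 458) (nat_lit 421) (nat_lit 261)) (XT.lf (nat_lit 0) (nat_lit 9160641618) (nat_lit 912) (nat_lit 2846222784) (nat_lit 76) (nat_lit 1893030630) (nat_lit 411) (nat_lit 5) (nat_lit 423) (nat_lit 5) (nat_lit 412) (nat_lit 5) (nat_lit 459) (nat_lit 421) (nat_lit 260))))) (XT.nd (nat_lit 234) (nat_lit 1520) (nat_lit 0) (XT.nd (nat_lit 78) (nat_lit 836) (nat_lit 0) (XT.lf (nat_lit 0) (nat_lit 5195099451) (nat_lit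 836) (nat_lit 6140707128) (nat_lit 912) (nat_lit 2712037445) (nat_lit 400) (nat_lit 5) (nat_lit 411) (nat_lit 5) (nat_lit 412) (nat_lit 5) (nat_lit 460) (nat_lit 421) (nat_lit 259)) (XT.nd (nat_lit 78) (nat_lit 836) (nat_lit 0) (XT.lf (nat_lit 0) (nat_lit 13424741209) (nat_lit 836) (nat_lit 138236321) (nat_lit 912) (nat_lit 635604412) (nat_lit 400) (nat_lit 5) (nat_lit 411) (nat_lit 5) (nat_lit 412) (nat_lit 5) (nat_lit 461) (nat_lit 421) (nat_lit 258)) (XT.lf (nat_lit 0) (nat_lit 1540683318) (nat_lit 836) (nat_lit 6845649597) (nat_lit 76) (nat_lit 5964253864) (nat_lit 389) (nat_lit 5) (nat_lit 400) (nat_lit 5) (nat_lit 390) (nat_lit 5) (nat_lit 462) (nat_lit 421) (nat_lit 257)))) (XT.nd (nat_lit 156) (nat_lit 760) (nat_lit 0) (XT.nd (nat_lit 78) (nat_lit 0) (nat_lit 0) (XT.lf (nat_lit 0) (nat_lit 1457063046) (nat_lit 760) (nat_lit 2300206012) (nat_lit 836) (nat_lit 10748172970) (nat_lit 379) (nat_lit 5) (nat_lit 389) (nat_lit 5) (nat_lit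 390) (nat_lit 5) (nat_lit 463) (nat_lit 421) (nat_lit 256)) (XT.lf (nat_lit 0) (nat_lit 6079596759) (nat_lit 836) (nat_lit 4680791198) (nat_lit 76) (nat_lit 3901778221) (nat_lit 379) (nat_lit 5) (nat_lit 390) (nat_lit 5) (nat_lit 380) (nat_lit 5) (nat_lit 464) (nat_lit 421) (nat_lit 255))) (XT.nd (nat_lit 78) (nat_lit 0) (nat_lit 0) (XT.lf (nat_lit 0) (nat_lit 3878741602) (nat_lit 760) (nat_lit 4600043078) (nat_lit 836) (nat_lit 6342631856) (nat_lit 369) (nat_lit 5) (nat_lit 379) (nat_lit 5) (nat_lit 380) (nat_lit 5) (nat_lit 465) (nat_lit 421) (nat_lit 254)) (XT.lf (nat_lit 0) (nat_lit 10958620359) (nat_lit 836) (nat_lit 2332609531) (nat_lit 76) (nat_lit 1691968732) (nat_lit 369) (nat_lit 5) (nat_lit 380) (nat_lit 5) (nat_lit 370) (nat_lit 5) (nat_lit 466) (nat_lit 421) (nat_lit 253))))))) (XT.nd (nat_lit 56628) (nat_lit 0) (nat_lit 13680) (XT.nd (nat_lit 56082) (nat_lit 0) (nat_lit 15048) (XT.nd (nat_lit 55848) (nat_lit 0) (nat_lit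 16644) (XT.nd (nat_lit 78) (nat_lit 760) (nat_lit 0) (XT.lf (nat_lit 0) (nat_lit 6493412668) (nat_lit 760) (nat_lit 7057572264) (nat_lit 836) (nat_lit 1595972772) (nat_lit 359) (nat_lit 5) (nat_lit 369) (nat_lit 5) (nat_lit 370) (nat_lit 5) (nat_lit 467) (nat_lit 421) (nat_lit 252)) (XT.nd (nat_lit 78) (nat_lit 0) (nat_lit 0) (XT.lf (nat_lit 0) (nat_lit 199690507) (nat_lit 684) (nat_lit 677375215) (nat_lit 760) (nat_lit 14436663459) (nat_lit 349) (nat_lit 5) (nat_lit 358) (nat_lit 5) (nat_lit 359) (nat_lit 5) (nat_lit 468) (nat_lit 421) (nat_lit 251)) (XT.lf (nat_lit 0) (nat_lit 3464997953) (nat_lit 760) (nat_lit 6195299574) (nat_lit 76) (nat_lit 5821591512) (nat_lit 349) (nat_lit 5) (nat_lit 359) (nat_lit 5) (nat_lit 350) (nat_lit 5) (nat_lit 469) (nat_lit 421) (nat_lit 250)))) (XT.nd (nat_lit 78) (nat_lit 0) (nat_lit 0) (XT.lf (nat_lit 0) (nat_lit 1638617640) (nat_lit 0) (nat_lit 1638617640) (nat_lit 1596) (nat_lit 1637169107) (nat_lit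 568) (nat_lit 5) (nat_lit 568) (nat_lit 3) (nat_lit 589) (nat_lit 3) (nat_lit 422) (nat_lit 422) (nat_lit 296)) (XT.nd (nat_lit 78) (nat_lit 0) (nat_lit 0) (XT.lf (nat_lit 0) (nat_lit 7365159738) (nat_lit 1596) (nat_lit 1638252796) (nat_lit 1672) (nat_lit 908781441) (nat_lit 568) (nat_lit 5) (nat_lit 589) (nat_lit 3) (nat_lit 590) (nat_lit 5) (nat_lit 423) (nat_lit 422) (nat_lit 295)) (XT.lf (nat_lit 76) (nat_lit 3385892356) (nat_lit 0) (nat_lit 4830531706) (nat_lit 1672) (nat_lit 1780335588) (nat_lit 569) (nat_lit 5) (nat_lit 568) (nat_lit 5) (nat_lit 590) (nat_lit 5) (nat_lit 424) (nat_lit 422) (nat_lit 294))))) (XT.nd (nat_lit 234) (nat_lit 0) (nat_lit 76) (XT.nd (nat_lit 78) (nat_lit 1596) (nat_lit 0) (XT.lf (nat_lit 76) (nat_lit 8522649100) (nat_lit 0) (nat_lit 554045972) (nat_lit 1672) (nat_lit 1006481938) (nat_lit 569) (nat_lit 5) (nat_lit 568) (nat_lit 5) (nat_lit 590) (nat_lit 5) (nat_lit 425) (nat_lit 422) (nat_lit 293)) (XT.nd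 (nat_lit 78) (nat_lit 1672) (nat_lit 0) (XT.lf (nat_lit 76) (nat_lit 3603038592) (nat_lit 0) (nat_lit 6380667605) (nat_lit 1672) (nat_lit 187025827) (nat_lit 570) (nat_lit 5) (nat_lit 569) (nat_lit 5) (nat_lit 591) (nat_lit 5) (nat_lit 426) (nat_lit 422) (nat_lit 292)) (XT.lf (nat_lit 0) (nat_lit 636114801) (nat_lit 1672) (nat_lit 1387237075) (nat_lit 1748) (nat_lit 8236685916) (nat_lit 547) (nat_lit 5) (nat_lit 569) (nat_lit 5) (nat_lit 570) (nat_lit 5) (nat_lit 427) (nat_lit 422) (nat_lit 291)))) (XT.nd (nat_lit 156) (nat_lit 0) (nat_lit 76) (XT.nd (nat_lit 78) (nat_lit 0) (nat_lit 0) (XT.lf (nat_lit 0) (nat_lit 1496680070) (nat_lit 1672) (nat_lit 6429959828) (nat_lit 1748) (nat_lit 2423995730) (nat_lit 548) (nat_lit 5) (nat_lit 570) (nat_lit 5) (nat_lit 571) (nat_lit 5) (nat_lit 428) (nat_lit 422) (nat_lit 290)) (XT.lf (nat_lit 0) (nat_lit 2379518731) (nat_lit 1672) (nat_lit 1113387200) (nat_lit 1748) (nat_lit 6950038248) (nat_lit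 548) (nat_lit 5) (nat_lit 570) (nat_lit 5) (nat_lit 571) (nat_lit 5) (nat_lit 429) (nat_lit 422) (nat_lit 289))) (XT.nd (nat_lit 78) (nat_lit 0) (nat_lit 0) (XT.lf (nat_lit 0) (nat_lit 3297853308) (nat_lit 1672) (nat_lit 6187557088) (nat_lit 1748) (nat_lit 1051331721) (nat_lit 549) (nat_lit 5) (nat_lit 571) (nat_lit 5) (nat_lit 572) (nat_lit 5) (nat_lit 430) (nat_lit 422) (nat_lit 288)) (XT.lf (nat_lit 0) (nat_lit 4248163260) (nat_lit 1672) (nat_lit 730073739) (nat_lit 1748) (nat_lit 5653906842) (nat_lit 549) (nat_lit 5) (nat_lit 571) (nat_lit 5) (nat_lit 572) (nat_lit 5) (nat_lit 431) (nat_lit 422) (nat_lit 287)))))) (XT.nd (nat_lit 468) (nat_lit 1520) (nat_lit 0) (XT.nd (nat_lit 234) (nat_lit 0) (nat_lit 152) (XT.nd (nat_lit 78) (nat_lit 0) (nat_lit 76) (XT.lf (nat_lit 76) (nat_lit 4890178366) (nat_lit 0) (nat_lit 342341486) (nat_lit 1748) (nat_lit 5496632939) (nat_lit 550) (nat_lit 5) (nat_lit 549) (nat_lit 5) (nat_lit 572) (nat_lit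 5) (nat_lit 432) (nat_lit 422) (nat_lit 286)) (XT.nd (nat_lit 78) (nat_lit 0) (nat_lit 0) (XT.lf (nat_lit 0) (nat_lit 6253562733) (nat_lit 1672) (nat_lit 234598376) (nat_lit 1748) (nat_lit 4339600827) (nat_lit 550) (nat_lit 5) (nat_lit 572) (nat_lit 5) (nat_lit 573) (nat_lit 5) (nat_lit 433) (nat_lit 422) (nat_lit 285)) (XT.lf (nat_lit 76) (nat_lit 5541674893) (nat_lit 0) (nat_lit 1775509701) (nat_lit 1748) (nat_lit 3610715508) (nat_lit 551) (nat_lit 5) (nat_lit 550) (nat_lit 5) (nat_lit 573) (nat_lit 5) (nat_lit 434) (nat_lit 422) (nat_lit 284)))) (XT.nd (nat_lit 78) (nat_lit 0) (nat_lit 0) (XT.lf (nat_lit 76) (nat_lit 381064853) (nat_lit 0) (nat_lit 8028946980) (nat_lit 1748) (nat_lit 2619870539) (nat_lit 552) (nat_lit 5) (nat_lit 551) (nat_lit 5) (nat_lit 574) (nat_lit 5) (nat_lit 435) (nat_lit 422) (nat_lit 283)) (XT.nd (nat_lit 78) (nat_lit 0) (nat_lit 76) (XT.lf (nat_lit 76) (nat_lit 6313984669) (nat_lit 0) (nat_lit 3242968374)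 (nat_lit 1748) (nat_lit 1576306098) (nat_lit 552) (nat_lit 5) (nat_lit 551) (nat_lit 5) (nat_lit 574) (nat_lit 5) (nat_lit 436) (nat_lit 422) (nat_lit 282)) (XT.lf (nat_lit 76) (nat_lit 1119971704) (nat_lit 0) (nat_lit 9609540245) (nat_lit 1748) (nat_lit 509137915) (nat_lit 553) (nat_lit 5) (nat_lit 552) (nat_lit 5) (nat_lit 575) (nat_lit 5) (nat_lit 437) (nat_lit 422) (nat_lit 281))))) (XT.nd (nat_lit 234) (nat_lit 0) (nat_lit 76) (XT.nd (nat_lit 78) (nat_lit 0) (nat_lit 76) (XT.lf (nat_lit 0) (nat_lit 610702015) (nat_lit 1748) (nat_lit 4138690140) (nat_lit 1824) (nat_lit 6595902476) (nat_lit 529) (nat_lit 5) (nat_lit 552) (nat_lit 5) (nat_lit 553) (nat_lit 5) (nat_lit 438) (nat_lit 422) (nat_lit 280)) (XT.nd (nat_lit 78) (nat_lit 0) (nat_lit 0) (XT.lf (nat_lit 0) (nat_lit 1745610379) (nat_lit 1748) (nat_lit 9482980182) (nat_lit 1824) (nat_lit 225424645) (nat_lit 530) (nat_lit 5) (nat_lit 553) (nat_lit 5) (nat_lit 554) (nat_lit 5) (nat_lit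 439) (nat_lit 422) (nat_lit 279)) (XT.lf (nat_lit 0) (nat_lit 2948064137) (nat_lit 1748) (nat_lit 3348029414) (nat_lit 1824) (nat_lit 5267919697) (nat_lit 530) (nat_lit 5) (nat_lit 553) (nat_lit 5) (nat_lit 554) (nat_lit 5) (nat_lit 440) (nat_lit 422) (nat_lit 278)))) (XT.nd (nat_lit 156) (nat_lit 0) (nat_lit 76) (XT.nd (nat_lit 78) (nat_lit 0) (nat_lit 76) (XT.lf (nat_lit 76) (nat_lit 2937267126) (nat_lit 0) (nat_lit 1242093650) (nat_lit 1824) (nat_lit 7496754597) (nat_lit 531) (nat_lit 5) (nat_lit 530) (nat_lit 5) (nat_lit 554) (nat_lit 5) (nat_lit 441) (nat_lit 422) (nat_lit 277)) (XT.lf (nat_lit 0) (nat_lit 5469258971) (nat_lit 1748) (nat_lit 2433018677) (nat_lit 1824) (nat_lit 3887502381) (nat_lit 531) (nat_lit 5) (nat_lit 554) (nat_lit 5) (nat_lit 555) (nat_lit 5) (nat_lit 442) (nat_lit 422) (nat_lit 276))) (XT.nd (nat_lit 78) (nat_lit 0) (nat_lit 76) (XT.lf (nat_lit 76) (nat_lit 4032702093) (nat_lit 0) (nat_lit 2772891300) (nat_lit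 1824) (nat_lit 5099711819) (nat_lit 532) (nat_lit 5) (nat_lit 531) (nat_lit 5) (nat_lit 555) (nat_lit 5) (nat_lit 443) (nat_lit 422) (nat_lit 275)) (XT.lf (nat_lit 0) (nat_lit 8187502616) (nat_lit 1748) (nat_lit 1389277864) (nat_lit 1824) (nat_lit 2445983458) (nat_lit 532) (nat_lit 5) (nat_lit 555) (nat_lit 5) (nat_lit 556) (nat_lit 5) (nat_lit 444) (nat_lit 422) (nat_lit 274))))))))
noncomputable def xc114 : XT := (XT.nd (nat_lit 57720) (nat_lit 0) (nat_lit 10336) (XT.nd (nat_lit 1014) (nat_lit 5548) (nat_lit 0) (XT.nd (nat_lit 468) (nat_lit 3648) (nat_lit 0) (XT.nd (nat_lit 234) (nat_lit 2964) (nat_lit 0) (XT.nd (nat_lit 78) (nat_lit 1748) (nat_lit 0) (XT.lf (nat_lit 76) (nat_lit 5263492948) (nat_lit 0) (nat_lit 4372807574) (nat_lit 1824) (nat_lit 2505486305) (nat_lit 533) (nat_lit 5) (nat_lit 532) (nat_lit 5) (nat_lit 556) (nat_lit 5) (nat_lit 445) (nat_lit 422) (nat_lit 273)) (XT.nd (nat_lit 78) (nat_lit 1824) (nat_lit 0) (XT.lf (nat_lit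 0) (nat_lit 11116449134) (nat_lit 1748) (nat_lit 212080669) (nat_lit 76) (nat_lit 934612877) (nat_lit 533) (nat_lit 5) (nat_lit 556) (nat_lit 5) (nat_lit 534) (nat_lit 5) (nat_lit 446) (nat_lit 422) (nat_lit 272)) (XT.lf (nat_lit 0) (nat_lit 295738997) (nat_lit 1824) (nat_lit 5753051497) (nat_lit 76) (nat_lit 6336912043) (nat_lit 509) (nat_lit 5) (nat_lit 533) (nat_lit 5) (nat_lit 510) (nat_lit 5) (nat_lit 447) (nat_lit 422) (nat_lit 271)))) (XT.nd (nat_lit 78) (nat_lit 1140) (nat_lit 0) (XT.lf (nat_lit 0) (nat_lit 1102346879) (nat_lit 1824) (nat_lit 645195295) (nat_lit 1900) (nat_lit 10763102301) (nat_lit 485) (nat_lit 5) (nat_lit 509) (nat_lit 5) (nat_lit 510) (nat_lit 5) (nat_lit 448) (nat_lit 422) (nat_lit 270)) (XT.nd (nat_lit 78) (nat_lit 1140) (nat_lit 0) (XT.lf (nat_lit 0) (nat_lit 3286301020) (nat_lit 1900) (nat_lit 4507491529) (nat_lit 76) (nat_lit 4843134310) (nat_lit 485) (nat_lit 5) (nat_lit 510) (nat_lit 5) (nat_lit 486)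 (nat_lit 5) (nat_lit 449) (nat_lit 422) (nat_lit 269)) (XT.lf (nat_lit 0) (nat_lit 2549550837) (nat_lit 1140) (nat_lit 2314817817) (nat_lit 1216) (nat_lit 7901195565) (nat_lit 470) (nat_lit 5) (nat_lit 485) (nat_lit 5) (nat_lit 486) (nat_lit 5) (nat_lit 450) (nat_lit 422) (nat_lit 268))))) (XT.nd (nat_lit 234) (nat_lit 2736) (nat_lit 0) (XT.nd (nat_lit 78) (nat_lit 912) (nat_lit 0) (XT.lf (nat_lit 0) (nat_lit 6513586835) (nat_lit 1216) (nat_lit 3119914041) (nat_lit 76) (nat_lit 3262481666) (nat_lit 470) (nat_lit 5) (nat_lit 486) (nat_lit 5) (nat_lit 471) (nat_lit 5) (nat_lit 451) (nat_lit 422) (nat_lit 267)) (XT.nd (nat_lit 78) (nat_lit 0) (nat_lit 0) (XT.lf (nat_lit 0) (nat_lit 4146250928) (nat_lit 912) (nat_lit 4079912081) (nat_lit 988) (nat_lit 4802238750) (nat_lit 458) (nat_lit 5) (nat_lit 470) (nat_lit 5) (nat_lit 471) (nat_lit 5) (nat_lit 452) (nat_lit 422) (nat_lit 266)) (XT.lf (nat_lit 0) (nat_lit 9992646612) (nat_lit 988) (nat_lit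 1584521586) (nat_lit 76) (nat_lit 1585908044) (nat_lit 458) (nat_lit 5) (nat_lit 471) (nat_lit 5) (nat_lit 459) (nat_lit 5) (nat_lit 453) (nat_lit 422) (nat_lit 265)))) (XT.nd (nat_lit 156) (nat_lit 912) (nat_lit 0) (XT.nd (nat_lit 78) (nat_lit 912) (nat_lit 0) (XT.lf (nat_lit 0) (nat_lit 5898545049) (nat_lit 912) (nat_lit 5949752713) (nat_lit 988) (nat_lit 1451069696) (nat_lit 446) (nat_lit 5) (nat_lit 458) (nat_lit 5) (nat_lit 459) (nat_lit 5) (nat_lit 454) (nat_lit 422) (nat_lit 264)) (XT.lf (nat_lit 0) (nat_lit 102958053) (nat_lit 836) (nat_lit 195722958) (nat_lit 912) (nat_lit 13139664718) (nat_lit 434) (nat_lit 5) (nat_lit 445) (nat_lit 5) (nat_lit 446) (nat_lit 5) (nat_lit 455) (nat_lit 422) (nat_lit 263))) (XT.nd (nat_lit 78) (nat_lit 912) (nat_lit 0) (XT.lf (nat_lit 0) (nat_lit 2139599598) (nat_lit 912) (nat_lit 5779841983) (nat_lit 76) (nat_lit 5658958099) (nat_lit 434) (nat_lit 5) (nat_lit 446) (nat_lit 5) (nat_lit 435) (nat_lit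 5) (nat_lit 456) (nat_lit 422) (nat_lit 262)) (XT.lf (nat_lit 0) (nat_lit 1940088660) (nat_lit 912) (nat_lit 2080117689) (nat_lit 988) (nat_lit 9700990966) (nat_lit 422) (nat_lit 5) (nat_lit 434) (nat_lit 5) (nat_lit 435) (nat_lit 5) (nat_lit 457) (nat_lit 422) (nat_lit 261)))))) (XT.nd (nat_lit 468) (nat_lit 3040) (nat_lit 0) (XT.nd (nat_lit 234) (nat_lit 1672) (nat_lit 0) (XT.nd (nat_lit 78) (nat_lit 836) (nat_lit 0) (XT.lf (nat_lit 0) (nat_lit 5991757140) (nat_lit 988) (nat_lit 4009753233) (nat_lit 76) (nat_lit 3864273892) (nat_lit 422) (nat_lit 5) (nat_lit 435) (nat_lit 5) (nat_lit 423) (nat_lit 5) (nat_lit 458) (nat_lit 422) (nat_lit 260)) (XT.nd (nat_lit 78) (nat_lit 0) (nat_lit 0) (XT.lf (nat_lit 0) (nat_lit 3944177508) (nat_lit 836) (nat_lit 4087282273) (nat_lit 912) (nat_lit 5981228755) (nat_lit 411) (nat_lit 5) (nat_lit 422) (nat_lit 5) (nat_lit 423) (nat_lit 5) (nat_lit 459) (nat_lit 422) (nat_lit 259)) (XT.lf (nat_lit 0) (nat_lit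 10141146982) (nat_lit 912) (nat_lit 2074203334) (nat_lit 76) (nat_lit 1946596766) (nat_lit 411) (nat_lit 5) (nat_lit 423) (nat_lit 5) (nat_lit 412) (nat_lit 5) (nat_lit 460) (nat_lit 422) (nat_lit 258)))) (XT.nd (nat_lit 78) (nat_lit 836) (nat_lit 0) (XT.lf (nat_lit 0) (nat_lit 6122491767) (nat_lit 836) (nat_lit 6227036934) (nat_lit 912) (nat_lit 1963532084) (nat_lit 400) (nat_lit 5) (nat_lit 411) (nat_lit 5) (nat_lit 412) (nat_lit 5) (nat_lit 461) (nat_lit 422) (nat_lit 257)) (XT.nd (nat_lit 78) (nat_lit 0) (nat_lit 0) (XT.lf (nat_lit 0) (nat_lit 32989600) (nat_lit 760) (nat_lit 104095142) (nat_lit 836) (nat_lit 14330015055) (nat_lit 389) (nat_lit 5) (nat_lit 399) (nat_lit 5) (nat_lit 400) (nat_lit 5) (nat_lit 462) (nat_lit 422) (nat_lit 256)) (XT.lf (nat_lit 0) (nat_lit 2338521830) (nat_lit 836) (nat_lit 6155237986) (nat_lit 76) (nat_lit 6128498203) (nat_lit 389) (nat_lit 5) (nat_lit 400) (nat_lit 5) (nat_lit 390) (nat_lit 5) (nat_lit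 463) (nat_lit 422) (nat_lit 255))))) (XT.nd (nat_lit 234) (nat_lit 1520) (nat_lit 0) (XT.nd (nat_lit 78) (nat_lit 760) (nat_lit 0) (XT.lf (nat_lit 0) (nat_lit 2308085985) (nat_lit 760) (nat_lit 2281649798) (nat_lit 836) (nat_lit 10190668659) (nat_lit 379) (nat_lit 5) (nat_lit 389) (nat_lit 5) (nat_lit 390) (nat_lit 5) (nat_lit 464) (nat_lit 422) (nat_lit 254)) (XT.nd (nat_lit 78) (nat_lit 760) (nat_lit 0) (XT.lf (nat_lit 0) (nat_lit 6944071549) (nat_lit 836) (nat_lit 3954202182) (nat_lit 76) (nat_lit 4042278113) (nat_lit 379) (nat_lit 5) (nat_lit 390) (nat_lit 5) (nat_lit 380) (nat_lit 5) (nat_lit 465) (nat_lit 422) (nat_lit 253)) (XT.lf (nat_lit 0) (nat_lit 4771125189) (nat_lit 760) (nat_lit 4610841987) (nat_lit 836) (nat_lit 5721205554) (nat_lit 369) (nat_lit 5) (nat_lit 379) (nat_lit 5) (nat_lit 380) (nat_lit 5) (nat_lit 466) (nat_lit 422) (nat_lit 252)))) (XT.nd (nat_lit 156) (nat_lit 760) (nat_lit 0) (XT.nd (nat_lit 78) (nat_lit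 760) (nat_lit 0) (XT.lf (nat_lit 0) (nat_lit 11897532001) (nat_lit 836) (nat_lit 1566562040) (nat_lit 76) (nat_lit 1804373767) (nat_lit 369) (nat_lit 5) (nat_lit 380) (nat_lit 5) (nat_lit 370) (nat_lit 5) (nat_lit 467) (nat_lit 422) (nat_lit 251)) (XT.lf (nat_lit 0) (nat_lit 7430633894) (nat_lit 760) (nat_lit 7102239309) (nat_lit 836) (nat_lit 902806284) (nat_lit 359) (nat_lit 5) (nat_lit 369) (nat_lit 5) (nat_lit 370) (nat_lit 5) (nat_lit 468) (nat_lit 422) (nat_lit 250))) (XT.nd (nat_lit 55770) (nat_lit 0) (nat_lit 16644) (XT.lf (nat_lit 0) (nat_lit 1015172826) (nat_lit 684) (nat_lit 586248335) (nat_lit 760) (nat_lit 14004446321) (nat_lit 349) (nat_lit 5) (nat_lit 358) (nat_lit 5) (nat_lit 359) (nat_lit 5) (nat_lit 469) (nat_lit 422) (nat_lit 249)) (XT.lf (nat_lit 0) (nat_lit 2038573239) (nat_lit 0) (nat_lit 2038573239) (nat_lit 1596) (nat_lit 920858668) (nat_lit 568) (nat_lit 5) (nat_lit 568) (nat_lit 3) (nat_lit 589) (nat_lit 3) (nat_lit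 423) (nat_lit 423) (nat_lit 294))))))) (XT.nd (nat_lit 1014) (nat_lit 4636) (nat_lit 0) (XT.nd (nat_lit 468) (nat_lit 0) (nat_lit 152) (XT.nd (nat_lit 234) (nat_lit 0) (nat_lit 76) (XT.nd (nat_lit 78) (nat_lit 1672) (nat_lit 0) (XT.lf (nat_lit 0) (nat_lit 8947722726) (nat_lit 1596) (nat_lit 917577513) (nat_lit 1672) (nat_lit 216432420) (nat_lit 568) (nat_lit 5) (nat_lit 589) (nat_lit 3) (nat_lit 590) (nat_lit 5) (nat_lit 424) (nat_lit 423) (nat_lit 293)) (XT.nd (nat_lit 78) (nat_lit 1672) (nat_lit 0) (XT.lf (nat_lit 76) (nat_lit 4202093698) (nat_lit 0) (nat_lit 5590635941) (nat_lit 1672) (nat_lit 375725662) (nat_lit 569) (nat_lit 5) (nat_lit 568) (nat_lit 5) (nat_lit 590) (nat_lit 5) (nat_lit 425) (nat_lit 423) (nat_lit 292)) (XT.lf (nat_lit 0) (nat_lit 380311379) (nat_lit 1672) (nat_lit 832747345) (nat_lit 1748) (nat_lit 9044045960) (nat_lit 546) (nat_lit 5) (nat_lit 568) (nat_lit 5) (nat_lit 569) (nat_lit 5) (nat_lit 426) (nat_lit 423)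 (nat_lit 291)))) (XT.nd (nat_lit 78) (nat_lit 0) (nat_lit 0) (XT.lf (nat_lit 0) (nat_lit 1178675188) (nat_lit 1672) (nat_lit 5918963875) (nat_lit 1748) (nat_lit 3249193582) (nat_lit 547) (nat_lit 5) (nat_lit 569) (nat_lit 5) (nat_lit 570) (nat_lit 5) (nat_lit 427) (nat_lit 423) (nat_lit 290)) (XT.nd (nat_lit 78) (nat_lit 0) (nat_lit 76) (XT.lf (nat_lit 0) (nat_lit 1988973957) (nat_lit 1672) (nat_lit 651408439) (nat_lit 1748) (nat_lit 7798053414) (nat_lit 547) (nat_lit 5) (nat_lit 569) (nat_lit 5) (nat_lit 570) (nat_lit 5) (nat_lit 428) (nat_lit 423) (nat_lit 289)) (XT.lf (nat_lit 0) (nat_lit 2841760931) (nat_lit 1672) (nat_lit 5769996047) (nat_lit 1748) (nat_lit 1919588417) (nat_lit 548) (nat_lit 5) (nat_lit 570) (nat_lit 5) (nat_lit 571) (nat_lit 5) (nat_lit 429) (nat_lit 423) (nat_lit 288))))) (XT.nd (nat_lit 234) (nat_lit 0) (nat_lit 76) (XT.nd (nat_lit 78) (nat_lit 0) (nat_lit 76) (XT.lf (nat_lit 0) (nat_lit 3716469164) (nat_lit 1672)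 (nat_lit 362553985) (nat_lit 1748) (nat_lit 6546992711) (nat_lit 548) (nat_lit 5) (nat_lit 570) (nat_lit 5) (nat_lit 571) (nat_lit 5) (nat_lit 430) (nat_lit 423) (nat_lit 287)) (XT.nd (nat_lit 78) (nat_lit 0) (nat_lit 0) (XT.lf (nat_lit 0) (nat_lit 4629622174) (nat_lit 1672) (nat_lit 5514659012) (nat_lit 1748) (nat_lit 577879537) (nat_lit 549) (nat_lit 5) (nat_lit 571) (nat_lit 5) (nat_lit 572) (nat_lit 5) (nat_lit 431) (nat_lit 423) (nat_lit 286)) (XT.lf (nat_lit 76) (nat_lit 36836547) (nat_lit 0) (nat_lit 5537521106) (nat_lit 1748) (nat_lit 5245604442) (nat_lit 550) (nat_lit 5) (nat_lit 549) (nat_lit 5) (nat_lit 572) (nat_lit 5) (nat_lit 432) (nat_lit 423) (nat_lit 285)))) (XT.nd (nat_lit 156) (nat_lit 0) (nat_lit 76) (XT.nd (nat_lit 78) (nat_lit 0) (nat_lit 76) (XT.lf (nat_lit 76) (nat_lit 5763872232) (nat_lit 0) (nat_lit 794994397) (nat_lit 1748) (nat_lit 4360435290) (nat_lit 550) (nat_lit 5) (nat_lit 549) (nat_lit 5) (nat_lit 572)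 (nat_lit 5) (nat_lit 433) (nat_lit 423) (nat_lit 284)) (XT.lf (nat_lit 76) (nat_lit 555463974) (nat_lit 0) (nat_lit 7021680289) (nat_lit 1748) (nat_lit 3443202707) (nat_lit 551) (nat_lit 5) (nat_lit 550) (nat_lit 5) (nat_lit 573) (nat_lit 5) (nat_lit 434) (nat_lit 423) (nat_lit 283))) (XT.nd (nat_lit 78) (nat_lit 0) (nat_lit 76) (XT.lf (nat_lit 76) (nat_lit 6434796980) (nat_lit 0) (nat_lit 2205284790) (nat_lit 1748) (nat_lit 2482845265) (nat_lit 551) (nat_lit 5) (nat_lit 550) (nat_lit 5) (nat_lit 573) (nat_lit 5) (nat_lit 435) (nat_lit 423) (nat_lit 282)) (XT.lf (nat_lit 76) (nat_lit 1191747352) (nat_lit 0) (nat_lit 8542652895) (nat_lit 1748) (nat_lit 1492956009) (nat_lit 552) (nat_lit 5) (nat_lit 551) (nat_lit 5) (nat_lit 574) (nat_lit 5) (nat_lit 436) (nat_lit 423) (nat_lit 281)))))) (XT.nd (nat_lit 468) (nat_lit 3344) (nat_lit 0) (XT.nd (nat_lit 234) (nat_lit 0) (nat_lit 0) (XT.nd (nat_lit 78) (nat_lit 1672) (nat_lit 0) (XT.lf (nat_lit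 76) (nat_lit 7227579266) (nat_lit 0) (nat_lit 3654030658) (nat_lit 1748) (nat_lit 451644043) (nat_lit 552) (nat_lit 5) (nat_lit 551) (nat_lit 5) (nat_lit 574) (nat_lit 5) (nat_lit 437) (nat_lit 423) (nat_lit 280)) (XT.nd (nat_lit 78) (nat_lit 0) (nat_lit 0) (XT.lf (nat_lit 0) (nat_lit 609197097) (nat_lit 1748) (nat_lit 9495883657) (nat_lit 1824) (nat_lit 1335975409) (nat_lit 529) (nat_lit 5) (nat_lit 552) (nat_lit 5) (nat_lit 553) (nat_lit 5) (nat_lit 438) (nat_lit 423) (nat_lit 279)) (XT.lf (nat_lit 0) (nat_lit 1722628592) (nat_lit 1748) (nat_lit 3415781303) (nat_lit 1824) (nat_lit 6411796379) (nat_lit 529) (nat_lit 5) (nat_lit 552) (nat_lit 5) (nat_lit 553) (nat_lit 5) (nat_lit 439) (nat_lit 423) (nat_lit 278)))) (XT.nd (nat_lit 78) (nat_lit 0) (nat_lit 76) (XT.lf (nat_lit 76) (nat_lit 2812380794) (nat_lit 0) (nat_lit 49975231) (nat_lit 1824) (nat_lit 8799102816) (nat_lit 530) (nat_lit 5) (nat_lit 529) (nat_lit 5) (nat_lit 553) (nat_lit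 5) (nat_lit 440) (nat_lit 423) (nat_lit 277)) (XT.nd (nat_lit 78) (nat_lit 0) (nat_lit 0) (XT.lf (nat_lit 0) (nat_lit 4067328328) (nat_lit 1748) (nat_lit 2607258423) (nat_lit 1824) (nat_lit 5099500703) (nat_lit 530) (nat_lit 5) (nat_lit 553) (nat_lit 5) (nat_lit 554) (nat_lit 5) (nat_lit 441) (nat_lit 423) (nat_lit 276)) (XT.lf (nat_lit 76) (nat_lit 3798430024) (nat_lit 0) (nat_lit 1509240450) (nat_lit 1824) (nat_lit 6581072757) (nat_lit 531) (nat_lit 5) (nat_lit 530) (nat_lit 5) (nat_lit 554) (nat_lit 5) (nat_lit 442) (nat_lit 423) (nat_lit 275))))) (XT.nd (nat_lit 234) (nat_lit 3496) (nat_lit 0) (XT.nd (nat_lit 78) (nat_lit 0) (nat_lit 0) (XT.lf (nat_lit 0) (nat_lit 6601339521) (nat_lit 1748) (nat_lit 1672968061) (nat_lit 1824) (nat_lit 3730814140) (nat_lit 531) (nat_lit 5) (nat_lit 554) (nat_lit 5) (nat_lit 555) (nat_lit 5) (nat_lit 443) (nat_lit 423) (nat_lit 274)) (XT.nd (nat_lit 78) (nat_lit 0) (nat_lit 76) (XT.lf (nat_lit 76) (nat_lit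 4916746658) (nat_lit 0) (nat_lit 3032817268) (nat_lit 1824) (nat_lit 4173690217) (nat_lit 532) (nat_lit 5) (nat_lit 531) (nat_lit 5) (nat_lit 555) (nat_lit 5) (nat_lit 444) (nat_lit 423) (nat_lit 273)) (XT.lf (nat_lit 0) (nat_lit 9338047886) (nat_lit 1748) (nat_lit 608362207) (nat_lit 1824) (nat_lit 2297073219) (nat_lit 532) (nat_lit 5) (nat_lit 555) (nat_lit 5) (nat_lit 556) (nat_lit 5) (nat_lit 445) (nat_lit 423) (nat_lit 272)))) (XT.nd (nat_lit 156) (nat_lit 1900) (nat_lit 0) (XT.nd (nat_lit 78) (nat_lit 1672) (nat_lit 0) (XT.lf (nat_lit 76) (nat_lit 6172143618) (nat_lit 0) (nat_lit 4629545287) (nat_lit 1824) (nat_lit 1563480411) (nat_lit 533) (nat_lit 5) (nat_lit 532) (nat_lit 5) (nat_lit 556) (nat_lit 5) (nat_lit 446) (nat_lit 423) (nat_lit 271)) (XT.lf (nat_lit 0) (nat_lit 599315442) (nat_lit 1748) (nat_lit 11695866851) (nat_lit 1824) (nat_lit 194095156) (nat_lit 510) (nat_lit 5) (nat_lit 533) (nat_lit 5) (nat_lit 534) (nat_lit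 5) (nat_lit 447) (nat_lit 423) (nat_lit 270))) (XT.nd (nat_lit 78) (nat_lit 1824) (nat_lit 0) (XT.lf (nat_lit 0) (nat_lit 1246919049) (nat_lit 1824) (nat_lit 5053087180) (nat_lit 76) (nat_lit 6314505053) (nat_lit 509) (nat_lit 5) (nat_lit 533) (nat_lit 5) (nat_lit 510) (nat_lit 5) (nat_lit 448) (nat_lit 423) (nat_lit 269)) (XT.lf (nat_lit 0) (nat_lit 1934057155) (nat_lit 1824) (nat_lit 780423393) (nat_lit 1900) (nat_lit 10027737065) (nat_lit 485) (nat_lit 5) (nat_lit 509) (nat_lit 5) (nat_lit 510) (nat_lit 5) (nat_lit 449) (nat_lit 423) (nat_lit 268))))))))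
noncomputable def xc115 : XT := (XT.nd (nat_lit 57876) (nat_lit 0) (nat_lit 4940) (XT.nd (nat_lit 1014) (nat_lit 2356) (nat_lit 0) (XT.nd (nat_lit 468) (nat_lit 3496) (nat_lit 0) (XT.nd (nat_lit 234) (nat_lit 1824) (nat_lit 0) (XT.nd (nat_lit 78) (nat_lit 1140) (nat_lit 0) (XT.lf (nat_lit 0) (nat_lit 4264961669) (nat_lit 1900) (nat_lit 3784800871) (nat_lit 76) (nat_lit 4821644164) (nat_lit 485) (nat_lit 5) (nat_lit 510) (nat_lit 5) (nat_lit 486) (nat_lit 5) (nat_lit 450) (nat_lit 423) (nat_lit 267)) (XT.nd (nat_lit 78) (nat_lit 0) (nat_lit 0) (XT.lf (nat_lit 0) (nat_lit 3408034708) (nat_lit 1140) (nat_lit 2453898047) (nat_lit 1216) (nat_lit 7140937213) (nat_lit 470) (nat_lit 5) (nat_lit 485) (nat_lit 5) (nat_lit 486) (nat_lit 5) (nat_lit 451) (nat_lit 423) (nat_lit 266)) (XT.lf (nat_lit 0) (nat_lit 7525892213) (nat_lit 1216) (nat_lit 2372409574) (nat_lit 76) (nat_lit 3237959733) (nat_lit 470) (nat_lit 5) (nat_lit 486) (nat_lit 5) (nat_lit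 471) (nat_lit 5) (nat_lit 452) (nat_lit 423) (nat_lit 265)))) (XT.nd (nat_lit 78) (nat_lit 912) (nat_lit 0) (XT.lf (nat_lit 0) (nat_lit 5033750387) (nat_lit 912) (nat_lit 4226898577) (nat_lit 988) (nat_lit 4010921576) (nat_lit 458) (nat_lit 5) (nat_lit 470) (nat_lit 5) (nat_lit 471) (nat_lit 5) (nat_lit 453) (nat_lit 423) (nat_lit 264)) (XT.nd (nat_lit 78) (nat_lit 912) (nat_lit 0) (XT.lf (nat_lit 0) (nat_lit 11044987927) (nat_lit 988) (nat_lit 809939235) (nat_lit 76) (nat_lit 1554360837) (nat_lit 458) (nat_lit 5) (nat_lit 471) (nat_lit 5) (nat_lit 459) (nat_lit 5) (nat_lit 454) (nat_lit 423) (nat_lit 263)) (XT.lf (nat_lit 0) (nat_lit 6817484306) (nat_lit 912) (nat_lit 6108752753) (nat_lit 988) (nat_lit 622298281) (nat_lit 446) (nat_lit 5) (nat_lit 458) (nat_lit 5) (nat_lit 459) (nat_lit 5) (nat_lit 455) (nat_lit 423) (nat_lit 262))))) (XT.nd (nat_lit 234) (nat_lit 1672) (nat_lit 0) (XT.nd (nat_lit 78) (nat_lit 912) (nat_lit 0) (XT.lf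 (nat_lit 0) (nat_lit 911892135) (nat_lit 836) (nat_lit 227945089) (nat_lit 912) (nat_lit 12550571767) (nat_lit 434) (nat_lit 5) (nat_lit 445) (nat_lit 5) (nat_lit 446) (nat_lit 5) (nat_lit 456) (nat_lit 423) (nat_lit 261)) (XT.nd (nat_lit 78) (nat_lit 912) (nat_lit 0) (XT.lf (nat_lit 0) (nat_lit 3001017865) (nat_lit 912) (nat_lit 5087828661) (nat_lit 76) (nat_lit 5744748622) (nat_lit 434) (nat_lit 5) (nat_lit 446) (nat_lit 5) (nat_lit 435) (nat_lit 5) (nat_lit 457) (nat_lit 423) (nat_lit 260)) (XT.lf (nat_lit 0) (nat_lit 2781187370) (nat_lit 912) (nat_lit 2127206930) (nat_lit 988) (nat_lit 9071071285) (nat_lit 422) (nat_lit 5) (nat_lit 434) (nat_lit 5) (nat_lit 435) (nat_lit 5) (nat_lit 458) (nat_lit 423) (nat_lit 259)))) (XT.nd (nat_lit 156) (nat_lit 836) (nat_lit 0) (XT.nd (nat_lit 78) (nat_lit 836) (nat_lit 0) (XT.lf (nat_lit 0) (nat_lit 6903502282) (nat_lit 988) (nat_lit 3287508848) (nat_lit 76) (nat_lit 3936250619) (nat_lit 422)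 (nat_lit 5) (nat_lit 435) (nat_lit 5) (nat_lit 423) (nat_lit 5) (nat_lit 459) (nat_lit 423) (nat_lit 258)) (XT.lf (nat_lit 0) (nat_lit 4820221301) (nat_lit 836) (nat_lit 4153425721) (nat_lit 912) (nat_lit 5303664124) (nat_lit 411) (nat_lit 5) (nat_lit 422) (nat_lit 5) (nat_lit 423) (nat_lit 5) (nat_lit 460) (nat_lit 423) (nat_lit 257))) (XT.nd (nat_lit 78) (nat_lit 836) (nat_lit 0) (XT.lf (nat_lit 0) (nat_lit 11110302613) (nat_lit 912) (nat_lit 1318932398) (nat_lit 76) (nat_lit 2000624359) (nat_lit 411) (nat_lit 5) (nat_lit 423) (nat_lit 5) (nat_lit 412) (nat_lit 5) (nat_lit 461) (nat_lit 423) (nat_lit 256)) (XT.lf (nat_lit 0) (nat_lit 7036454796) (nat_lit 836) (nat_lit 6316510068) (nat_lit 912) (nat_lit 1231228225) (nat_lit 400) (nat_lit 5) (nat_lit 411) (nat_lit 5) (nat_lit 412) (nat_lit 5) (nat_lit 462) (nat_lit 423) (nat_lit 255)))))) (XT.nd (nat_lit 56316) (nat_lit 0) (nat_lit 13376) (XT.nd (nat_lit 234) (nat_lit 760) (nat_lit 0)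 (XT.nd (nat_lit 78) (nat_lit 760) (nat_lit 0) (XT.lf (nat_lit 0) (nat_lit 830008026) (nat_lit 760) (nat_lit 61513568) (nat_lit 836) (nat_lit 13849886296) (nat_lit 389) (nat_lit 5) (nat_lit 399) (nat_lit 5) (nat_lit 400) (nat_lit 5) (nat_lit 463) (nat_lit 423) (nat_lit 254)) (XT.nd (nat_lit 78) (nat_lit 760) (nat_lit 0) (XT.lf (nat_lit 0) (nat_lit 3122532602) (nat_lit 836) (nat_lit 5483144165) (nat_lit 76) (nat_lit 6294281606) (nat_lit 389) (nat_lit 5) (nat_lit 400) (nat_lit 5) (nat_lit 390) (nat_lit 5) (nat_lit 464) (nat_lit 423) (nat_lit 253)) (XT.lf (nat_lit 0) (nat_lit 3144214716) (nat_lit 760) (nat_lit 2265229415) (nat_lit 836) (nat_lit 9652010128) (nat_lit 379) (nat_lit 5) (nat_lit 389) (nat_lit 5) (nat_lit 390) (nat_lit 5) (nat_lit 465) (nat_lit 423) (nat_lit 252)))) (XT.nd (nat_lit 78) (nat_lit 760) (nat_lit 0) (XT.lf (nat_lit 0) (nat_lit 7796988788) (nat_lit 836) (nat_lit 3244930939) (nat_lit 76) (nat_lit 4183162438) (nat_lit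 379) (nat_lit 5) (nat_lit 390) (nat_lit 5) (nat_lit 380) (nat_lit 5) (nat_lit 466) (nat_lit 423) (nat_lit 251)) (XT.nd (nat_lit 78) (nat_lit 0) (nat_lit 0) (XT.lf (nat_lit 0) (nat_lit 5649716432) (nat_lit 760) (nat_lit 4625010045) (nat_lit 836) (nat_lit 5116407309) (nat_lit 369) (nat_lit 5) (nat_lit 379) (nat_lit 5) (nat_lit 380) (nat_lit 5) (nat_lit 467) (nat_lit 423) (nat_lit 250)) (XT.lf (nat_lit 0) (nat_lit 12827273525) (nat_lit 836) (nat_lit 816751719) (nat_lit 76) (nat_lit 1915976103) (nat_lit 369) (nat_lit 5) (nat_lit 380) (nat_lit 5) (nat_lit 370) (nat_lit 5) (nat_lit 468) (nat_lit 423) (nat_lit 249))))) (XT.nd (nat_lit 234) (nat_lit 0) (nat_lit 76) (XT.nd (nat_lit 78) (nat_lit 1748) (nat_lit 0) (XT.lf (nat_lit 0) (nat_lit 2432269776) (nat_lit 0) (nat_lit 2432269776) (nat_lit 1596) (nat_lit 219308693) (nat_lit 568) (nat_lit 5) (nat_lit 568) (nat_lit 3) (nat_lit 589) (nat_lit 3) (nat_lit 424) (nat_lit 424) (nat_lit 292)) (XT.nd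 (nat_lit 78) (nat_lit 0) (nat_lit 76) (XT.lf (nat_lit 0) (nat_lit 250203661) (nat_lit 1748) (nat_lit 216432420) (nat_lit 1748) (nat_lit 9789046960) (nat_lit 545) (nat_lit 3) (nat_lit 568) (nat_lit 3) (nat_lit 568) (nat_lit 5) (nat_lit 425) (nat_lit 424) (nat_lit 291)) (XT.lf (nat_lit 0) (nat_lit 987922128) (nat_lit 1672) (nat_lit 5345626389) (nat_lit 1748) (nat_lit 4011002934) (nat_lit 546) (nat_lit 5) (nat_lit 568) (nat_lit 5) (nat_lit 569) (nat_lit 5) (nat_lit 426) (nat_lit 424) (nat_lit 290)))) (XT.nd (nat_lit 156) (nat_lit 0) (nat_lit 76) (XT.nd (nat_lit 78) (nat_lit 0) (nat_lit 76) (XT.lf (nat_lit 0) (nat_lit 1727266666) (nat_lit 1672) (nat_lit 126290334) (nat_lit 1748) (nat_lit 8581902796) (nat_lit 546) (nat_lit 5) (nat_lit 568) (nat_lit 5) (nat_lit 569) (nat_lit 5) (nat_lit 427) (nat_lit 424) (nat_lit 289)) (XT.lf (nat_lit 0) (nat_lit 2516108359) (nat_lit 1672) (nat_lit 5288741802) (nat_lit 1748) (nat_lit 2722641943) (nat_lit 547)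 (nat_lit 5) (nat_lit 569) (nat_lit 5) (nat_lit 570) (nat_lit 5) (nat_lit 428) (nat_lit 424) (nat_lit 288))) (XT.nd (nat_lit 78) (nat_lit 0) (nat_lit 76) (XT.lf (nat_lit 76) (nat_lit 70409720) (nat_lit 0) (nat_lit 3246898576) (nat_lit 1748) (nat_lit 7304125134) (nat_lit 548) (nat_lit 5) (nat_lit 547) (nat_lit 5) (nat_lit 570) (nat_lit 5) (nat_lit 429) (nat_lit 424) (nat_lit 287)) (XT.lf (nat_lit 0) (nat_lit 4162674639) (nat_lit 1672) (nat_lit 5127453852) (nat_lit 1748) (nat_lit 1426562242) (nat_lit 548) (nat_lit 5) (nat_lit 570) (nat_lit 5) (nat_lit 571) (nat_lit 5) (nat_lit 430) (nat_lit 424) (nat_lit 286))))))) (XT.nd (nat_lit 1014) (nat_lit 7144) (nat_lit 0) (XT.nd (nat_lit 468) (nat_lit 1520) (nat_lit 0) (XT.nd (nat_lit 234) (nat_lit 0) (nat_lit 76) (XT.nd (nat_lit 78) (nat_lit 0) (nat_lit 76) (XT.lf (nat_lit 76) (nat_lit 378236074) (nat_lit 0) (nat_lit 4654310869) (nat_lit 1748) (nat_lit 5781154267) (nat_lit 549) (nat_lit 5) (nat_lit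 548) (nat_lit 5) (nat_lit 571) (nat_lit 5) (nat_lit 431) (nat_lit 424) (nat_lit 285)) (XT.nd (nat_lit 78) (nat_lit 0) (nat_lit 0) (XT.lf (nat_lit 0) (nat_lit 5938873403) (nat_lit 1672) (nat_lit 4859237835) (nat_lit 1748) (nat_lit 114159524) (nat_lit 549) (nat_lit 5) (nat_lit 571) (nat_lit 5) (nat_lit 572) (nat_lit 5) (nat_lit 432) (nat_lit 424) (nat_lit 284)) (XT.lf (nat_lit 76) (nat_lit 798250041) (nat_lit 0) (nat_lit 6085336314) (nat_lit 1748) (nat_lit 4128820151) (nat_lit 550) (nat_lit 5) (nat_lit 549) (nat_lit 5) (nat_lit 572) (nat_lit 5) (nat_lit 433) (nat_lit 424) (nat_lit 283)))) (XT.nd (nat_lit 78) (nat_lit 0) (nat_lit 76) (XT.lf (nat_lit 76) (nat_lit 6624911208) (nat_lit 0) (nat_lit 1239389173) (nat_lit 1748) (nat_lit 3249902447) (nat_lit 550) (nat_lit 5) (nat_lit 549) (nat_lit 5) (nat_lit 572) (nat_lit 5) (nat_lit 434) (nat_lit 424) (nat_lit 282)) (XT.nd (nat_lit 78) (nat_lit 0) (nat_lit 0) (XT.lf (nat_lit 76) (nat_lit 1333522850)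 (nat_lit 0) (nat_lit 7548648105) (nat_lit 1748) (nat_lit 2335513277) (nat_lit 551) (nat_lit 5) (nat_lit 550) (nat_lit 5) (nat_lit 573) (nat_lit 5) (nat_lit 435) (nat_lit 424) (nat_lit 281)) (XT.lf (nat_lit 76) (nat_lit 7315404289) (nat_lit 0) (nat_lit 2628345594) (nat_lit 1748) (nat_lit 1379018362) (nat_lit 551) (nat_lit 5) (nat_lit 550) (nat_lit 5) (nat_lit 573) (nat_lit 5) (nat_lit 436) (nat_lit 424) (nat_lit 280))))) (XT.nd (nat_lit 234) (nat_lit 0) (nat_lit 76) (XT.nd (nat_lit 78) (nat_lit 1748) (nat_lit 0) (XT.lf (nat_lit 76) (nat_lit 1987459655) (nat_lit 0) (nat_lit 9052920578) (nat_lit 1748) (nat_lit 389297309) (nat_lit 552) (nat_lit 5) (nat_lit 551) (nat_lit 5) (nat_lit 574) (nat_lit 5) (nat_lit 437) (nat_lit 424) (nat_lit 279)) (XT.nd (nat_lit 78) (nat_lit 0) (nat_lit 76) (XT.lf (nat_lit 0) (nat_lit 642082123) (nat_lit 1748) (nat_lit 3413479874) (nat_lit 1824) (nat_lit 7482482525) (nat_lit 528) (nat_lit 5) (nat_lit 551) (nat_lit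 5) (nat_lit 552) (nat_lit 5) (nat_lit 438) (nat_lit 424) (nat_lit 278)) (XT.lf (nat_lit 0) (nat_lit 1699530585) (nat_lit 1748) (nat_lit 8895916388) (nat_lit 1824) (nat_lit 1052867322) (nat_lit 529) (nat_lit 5) (nat_lit 552) (nat_lit 5) (nat_lit 553) (nat_lit 5) (nat_lit 439) (nat_lit 424) (nat_lit 277)))) (XT.nd (nat_lit 156) (nat_lit 0) (nat_lit 76) (XT.nd (nat_lit 78) (nat_lit 0) (nat_lit 0) (XT.lf (nat_lit 0) (nat_lit 2814090522) (nat_lit 1748) (nat_lit 2709699927) (nat_lit 1824) (nat_lit 6236279763) (nat_lit 529) (nat_lit 5) (nat_lit 552) (nat_lit 5) (nat_lit 553) (nat_lit 5) (nat_lit 440) (nat_lit 424) (nat_lit 276)) (XT.lf (nat_lit 76) (nat_lit 3637930695) (nat_lit 0) (nat_lit 322950957) (nat_lit 1824) (nat_lit 7912980796) (nat_lit 530) (nat_lit 5) (nat_lit 529) (nat_lit 5) (nat_lit 553) (nat_lit 5) (nat_lit 441) (nat_lit 424) (nat_lit 275))) (XT.nd (nat_lit 78) (nat_lit 0) (nat_lit 0) (XT.lf (nat_lit 0) (nat_lit 5167804949) (nat_lit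 1748) (nat_lit 1883037214) (nat_lit 1824) (nat_lit 4938344439) (nat_lit 530) (nat_lit 5) (nat_lit 553) (nat_lit 5) (nat_lit 554) (nat_lit 5) (nat_lit 442) (nat_lit 424) (nat_lit 274)) (XT.lf (nat_lit 76) (nat_lit 4645657328) (nat_lit 0) (nat_lit 1772321190) (nat_lit 1824) (nat_lit 5688456484) (nat_lit 531) (nat_lit 5) (nat_lit 530) (nat_lit 5) (nat_lit 554) (nat_lit 5) (nat_lit 443) (nat_lit 424) (nat_lit 273)))))) (XT.nd (nat_lit 546) (nat_lit 3876) (nat_lit 0) (XT.nd (nat_lit 234) (nat_lit 3496) (nat_lit 0) (XT.nd (nat_lit 78) (nat_lit 0) (nat_lit 0) (XT.lf (nat_lit 0) (nat_lit 7716349175) (nat_lit 1748) (nat_lit 929119666) (nat_lit 1824) (nat_lit 3580095658) (nat_lit 531) (nat_lit 5) (nat_lit 554) (nat_lit 5) (nat_lit 555) (nat_lit 5) (nat_lit 444) (nat_lit 424) (nat_lit 272)) (XT.nd (nat_lit 78) (nat_lit 0) (nat_lit 76) (XT.lf (nat_lit 76) (nat_lit 5787275481) (nat_lit 0) (nat_lit 3290002009) (nat_lit 1824) (nat_lit 3269067291) (nat_lit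 532) (nat_lit 5) (nat_lit 531) (nat_lit 5) (nat_lit 555) (nat_lit 5) (nat_lit 445) (nat_lit 424) (nat_lit 271)) (XT.lf (nat_lit 76) (nat_lit 158852285) (nat_lit 0) (nat_lit 10315464689) (nat_lit 1824) (nat_lit 1995045842) (nat_lit 533) (nat_lit 5) (nat_lit 532) (nat_lit 5) (nat_lit 556) (nat_lit 5) (nat_lit 446) (nat_lit 424) (nat_lit 270)))) (XT.nd (nat_lit 156) (nat_lit 1824) (nat_lit 0) (XT.nd (nat_lit 78) (nat_lit 1748) (nat_lit 0) (XT.lf (nat_lit 76) (nat_lit 7067771046) (nat_lit 0) (nat_lit 4884844344) (nat_lit 1824) (nat_lit 641159458) (nat_lit 533) (nat_lit 5) (nat_lit 532) (nat_lit 5) (nat_lit 556) (nat_lit 5) (nat_lit 447) (nat_lit 424) (nat_lit 269)) (XT.lf (nat_lit 0) (nat_lit 731350104) (nat_lit 1824) (nat_lit 11327431392) (nat_lit 76) (nat_lit 661772598) (nat_lit 509) (nat_lit 5) (nat_lit 533) (nat_lit 5) (nat_lit 510) (nat_lit 5) (nat_lit 448) (nat_lit 424) (nat_lit 268))) (XT.nd (nat_lit 78) (nat_lit 1824) (nat_lit 0)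 (XT.lf (nat_lit 0) (nat_lit 2180416900) (nat_lit 1824) (nat_lit 4370772004) (nat_lit 76) (nat_lit 6297441414) (nat_lit 509) (nat_lit 5) (nat_lit 533) (nat_lit 5) (nat_lit 510) (nat_lit 5) (nat_lit 449) (nat_lit 424) (nat_lit 267)) (XT.lf (nat_lit 0) (nat_lit 2750961422) (nat_lit 1824) (nat_lit 913606056) (nat_lit 1900) (nat_lit 9314578541) (nat_lit 485) (nat_lit 5) (nat_lit 509) (nat_lit 5) (nat_lit 510) (nat_lit 5) (nat_lit 450) (nat_lit 424) (nat_lit 266))))) (XT.nd (nat_lit 234) (nat_lit 2736) (nat_lit 0) (XT.nd (nat_lit 78) (nat_lit 1140) (nat_lit 0) (XT.lf (nat_lit 0) (nat_lit 5227745166) (nat_lit 1900) (nat_lit 3079219987) (nat_lit 76) (nat_lit 4804320000) (nat_lit 485) (nat_lit 5) (nat_lit 510) (nat_lit 5) (nat_lit 486) (nat_lit 5) (nat_lit 451) (nat_lit 424) (nat_lit 265)) (XT.nd (nat_lit 78) (nat_lit 0) (nat_lit 0) (XT.lf (nat_lit 0) (nat_lit 4252332325) (nat_lit 1140) (nat_lit 2592156972) (nat_lit 1216) (nat_lit 6401131714)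 (nat_lit 470) (nat_lit 5) (nat_lit 485) (nat_lit 5) (nat_lit 486) (nat_lit 5) (nat_lit 452) (nat_lit 424) (nat_lit 264)) (XT.lf (nat_lit 0) (nat_lit 8524193257) (nat_lit 1216) (nat_lit 1641404528) (nat_lit 76) (nat_lit 3216433301) (nat_lit 470) (nat_lit 5) (nat_lit 486) (nat_lit 5) (nat_lit 471) (nat_lit 5) (nat_lit 453) (nat_lit 424) (nat_lit 263)))) (XT.nd (nat_lit 156) (nat_lit 1824) (nat_lit 0) (XT.nd (nat_lit 78) (nat_lit 0) (nat_lit 0) (XT.lf (nat_lit 0) (nat_lit 5907757230) (nat_lit 912) (nat_lit 4374285697) (nat_lit 988) (nat_lit 3238235405) (nat_lit 458) (nat_lit 5) (nat_lit 470) (nat_lit 5) (nat_lit 471) (nat_lit 5) (nat_lit 454) (nat_lit 424) (nat_lit 262)) (XT.lf (nat_lit 0) (nat_lit 12085272906) (nat_lit 988) (nat_lit 51173792) (nat_lit 76) (nat_lit 1524639357) (nat_lit 458) (nat_lit 5) (nat_lit 471) (nat_lit 5) (nat_lit 459) (nat_lit 5) (nat_lit 455) (nat_lit 424) (nat_lit 261))) (XT.nd (nat_lit 78) (nat_lit 836) (nat_lit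 0) (XT.lf (nat_lit 0) (nat_lit 187250955) (nat_lit 988) (nat_lit 6080871844) (nat_lit 76) (nat_lit 7535192263) (nat_lit 445) (nat_lit 5) (nat_lit 458) (nat_lit 5) (nat_lit 446) (nat_lit 5) (nat_lit 456) (nat_lit 424) (nat_lit 260)) (XT.lf (nat_lit 0) (nat_lit 1705672962) (nat_lit 836) (nat_lit 259712442) (nat_lit 912) (nat_lit 11982776738) (nat_lit 434) (nat_lit 5) (nat_lit 445) (nat_lit 5) (nat_lit 446) (nat_lit 5) (nat_lit 457) (nat_lit 424) (nat_lit 259))))))))
noncomputable def xc116 : XT := (XT.nd (nat_lit 57954) (nat_lit 0) (nat_lit 1520) (XT.nd (nat_lit 56940) (nat_lit 0) (nat_lit 12084) (XT.nd (nat_lit 468) (nat_lit 2356) (nat_lit 0) (XT.nd (nat_lit 234) (nat_lit 1672) (nat_lit 0) (XT.nd (nat_lit 78) (nat_lit 912) (nat_lit 0) (XT.lf (nat_lit 0) (nat_lit 3847876242) (nat_lit 912) (nat_lit 4413335560) (nat_lit 76) (nat_lit 5833318490) (nat_lit 434) (nat_lit 5) (nat_lit 446) (nat_lit 5) (nat_lit 435) (nat_lit 5) (nat_lit 458) (nat_lit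 424) (nat_lit 258)) (XT.nd (nat_lit 78) (nat_lit 0) (nat_lit 0) (XT.lf (nat_lit 0) (nat_lit 3607953887) (nat_lit 912) (nat_lit 2175024892) (nat_lit 988) (nat_lit 8460547785) (nat_lit 422) (nat_lit 5) (nat_lit 434) (nat_lit 5) (nat_lit 435) (nat_lit 5) (nat_lit 459) (nat_lit 424) (nat_lit 257)) (XT.lf (nat_lit 0) (nat_lit 7802731496) (nat_lit 988) (nat_lit 2581979278) (nat_lit 76) (nat_lit 4009873027) (nat_lit 422) (nat_lit 5) (nat_lit 435) (nat_lit 5) (nat_lit 423) (nat_lit 5) (nat_lit 460) (nat_lit 424) (nat_lit 256)))) (XT.nd (nat_lit 78) (nat_lit 836) (nat_lit 0) (XT.lf (nat_lit 0) (nat_lit 5682831265) (nat_lit 836) (nat_lit 4221497891) (nat_lit 912) (nat_lit 4643504028) (nat_lit 411) (nat_lit 5) (nat_lit 422) (nat_lit 5) (nat_lit 423) (nat_lit 5) (nat_lit 461) (nat_lit 424) (nat_lit 255)) (XT.nd (nat_lit 78) (nat_lit 836) (nat_lit 0) (XT.lf (nat_lit 0) (nat_lit 12069083724) (nat_lit 912) (nat_lit 579495010) (nat_lit 76) (nat_lit 2055146322)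 (nat_lit 411) (nat_lit 5) (nat_lit 423) (nat_lit 5) (nat_lit 412) (nat_lit 5) (nat_lit 462) (nat_lit 424) (nat_lit 254)) (XT.lf (nat_lit 0) (nat_lit 7937961664) (nat_lit 836) (nat_lit 6409134382) (nat_lit 912) (nat_lit 514239467) (nat_lit 400) (nat_lit 5) (nat_lit 411) (nat_lit 5) (nat_lit 412) (nat_lit 5) (nat_lit 463) (nat_lit 424) (nat_lit 253))))) (XT.nd (nat_lit 234) (nat_lit 760) (nat_lit 0) (XT.nd (nat_lit 78) (nat_lit 760) (nat_lit 0) (XT.lf (nat_lit 0) (nat_lit 1612043244) (nat_lit 760) (nat_lit 19814700) (nat_lit 836) (nat_lit 13389927986) (nat_lit 389) (nat_lit 5) (nat_lit 399) (nat_lit 5) (nat_lit 400) (nat_lit 5) (nat_lit 464) (nat_lit 424) (nat_lit 252)) (XT.nd (nat_lit 78) (nat_lit 760) (nat_lit 0) (XT.lf (nat_lit 0) (nat_lit 3893595648) (nat_lit 836) (nat_lit 4828486998) (nat_lit 76) (nat_lit 6461702646) (nat_lit 389) (nat_lit 5) (nat_lit 400) (nat_lit 5) (nat_lit 390) (nat_lit 5) (nat_lit 465) (nat_lit 424) (nat_lit 251))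 (XT.lf (nat_lit 0) (nat_lit 3966390640) (nat_lit 760) (nat_lit 2250890233) (nat_lit 836) (nat_lit 9131409514) (nat_lit 379) (nat_lit 5) (nat_lit 389) (nat_lit 5) (nat_lit 390) (nat_lit 5) (nat_lit 466) (nat_lit 424) (nat_lit 250)))) (XT.nd (nat_lit 56082) (nat_lit 0) (nat_lit 13376) (XT.nd (nat_lit 78) (nat_lit 760) (nat_lit 0) (XT.lf (nat_lit 0) (nat_lit 8639237491) (nat_lit 836) (nat_lit 2552087068) (nat_lit 76) (nat_lit 4324533070) (nat_lit 379) (nat_lit 5) (nat_lit 390) (nat_lit 5) (nat_lit 380) (nat_lit 5) (nat_lit 467) (nat_lit 424) (nat_lit 249)) (XT.lf (nat_lit 0) (nat_lit 6515468102) (nat_lit 760) (nat_lit 4642492194) (nat_lit 836) (nat_lit 4527441380) (nat_lit 369) (nat_lit 5) (nat_lit 379) (nat_lit 5) (nat_lit 380) (nat_lit 5) (nat_lit 468) (nat_lit 424) (nat_lit 248))) (XT.nd (nat_lit 78) (nat_lit 0) (nat_lit 0) (XT.lf (nat_lit 0) (nat_lit 462173043) (nat_lit 1748) (nat_lit 2354861267) (nat_lit 1748) (nat_lit 2354861267) (nat_lit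 545) (nat_lit 3) (nat_lit 568) (nat_lit 3) (nat_lit 568) (nat_lit 5) (nat_lit 425) (nat_lit 425) (nat_lit 290)) (XT.lf (nat_lit 76) (nat_lit 468315079) (nat_lit 0) (nat_lit 1129019760) (nat_lit 1748) (nat_lit 8836619320) (nat_lit 546) (nat_lit 5) (nat_lit 545) (nat_lit 3) (nat_lit 568) (nat_lit 5) (nat_lit 426) (nat_lit 425) (nat_lit 289)))))) (XT.nd (nat_lit 468) (nat_lit 1368) (nat_lit 0) (XT.nd (nat_lit 234) (nat_lit 0) (nat_lit 76) (XT.nd (nat_lit 78) (nat_lit 0) (nat_lit 0) (XT.lf (nat_lit 0) (nat_lit 2320767884) (nat_lit 1672) (nat_lit 4743605625) (nat_lit 1748) (nat_lit 3460807225) (nat_lit 546) (nat_lit 5) (nat_lit 568) (nat_lit 5) (nat_lit 569) (nat_lit 5) (nat_lit 427) (nat_lit 425) (nat_lit 288)) (XT.nd (nat_lit 78) (nat_lit 0) (nat_lit 76) (XT.lf (nat_lit 76) (nat_lit 573741217) (nat_lit 0) (nat_lit 2479136394) (nat_lit 1748) (nat_lit 7565470070) (nat_lit 547) (nat_lit 5) (nat_lit 546) (nat_lit 5) (nat_lit 569) (nat_lit 5)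 (nat_lit 428) (nat_lit 425) (nat_lit 287)) (XT.lf (nat_lit 0) (nat_lit 3829271421) (nat_lit 1672) (nat_lit 4674984390) (nat_lit 1748) (nat_lit 2208529317) (nat_lit 547) (nat_lit 5) (nat_lit 569) (nat_lit 5) (nat_lit 570) (nat_lit 5) (nat_lit 429) (nat_lit 425) (nat_lit 286)))) (XT.nd (nat_lit 78) (nat_lit 0) (nat_lit 76) (XT.lf (nat_lit 76) (nat_lit 786616397) (nat_lit 0) (nat_lit 3839758319) (nat_lit 1748) (nat_lit 6182632977) (nat_lit 548) (nat_lit 5) (nat_lit 547) (nat_lit 5) (nat_lit 570) (nat_lit 5) (nat_lit 430) (nat_lit 425) (nat_lit 285)) (XT.nd (nat_lit 78) (nat_lit 0) (nat_lit 0) (XT.lf (nat_lit 0) (nat_lit 5460920913) (nat_lit 1672) (nat_lit 4501492629) (nat_lit 1748) (nat_lit 944311151) (nat_lit 548) (nat_lit 5) (nat_lit 570) (nat_lit 5) (nat_lit 571) (nat_lit 5) (nat_lit 431) (nat_lit 425) (nat_lit 284)) (XT.lf (nat_lit 76) (nat_lit 1109518265) (nat_lit 0) (nat_lit 5219547864) (nat_lit 1748) (nat_lit 4676991740) (nat_lit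 549) (nat_lit 5) (nat_lit 548) (nat_lit 5) (nat_lit 571) (nat_lit 5) (nat_lit 432) (nat_lit 425) (nat_lit 283))))) (XT.nd (nat_lit 234) (nat_lit 1520) (nat_lit 0) (XT.nd (nat_lit 78) (nat_lit 0) (nat_lit 76) (XT.lf (nat_lit 76) (nat_lit 6884401909) (nat_lit 0) (nat_lit 344902742) (nat_lit 1748) (nat_lit 3877778451) (nat_lit 549) (nat_lit 5) (nat_lit 548) (nat_lit 5) (nat_lit 571) (nat_lit 5) (nat_lit 433) (nat_lit 425) (nat_lit 282)) (XT.nd (nat_lit 78) (nat_lit 0) (nat_lit 0) (XT.lf (nat_lit 76) (nat_lit 1545353799) (nat_lit 0) (nat_lit 6627136068) (nat_lit 1748) (nat_lit 3037140133) (nat_lit 550) (nat_lit 5) (nat_lit 549) (nat_lit 5) (nat_lit 572) (nat_lit 5) (nat_lit 434) (nat_lit 425) (nat_lit 281)) (XT.lf (nat_lit 76) (nat_lit 7474212135) (nat_lit 0) (nat_lit 1676032867) (nat_lit 1748) (nat_lit 2163668711) (nat_lit 550) (nat_lit 5) (nat_lit 549) (nat_lit 5) (nat_lit 572) (nat_lit 5) (nat_lit 435) (nat_lit 425) (nat_lit 280)))) (XT.nd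 (nat_lit 156) (nat_lit 1672) (nat_lit 0) (XT.nd (nat_lit 78) (nat_lit 0) (nat_lit 0) (XT.lf (nat_lit 76) (nat_lit 2097361317) (nat_lit 0) (nat_lit 8071145683) (nat_lit 1748) (nat_lit 1251357065) (nat_lit 551) (nat_lit 5) (nat_lit 550) (nat_lit 5) (nat_lit 573) (nat_lit 5) (nat_lit 436) (nat_lit 425) (nat_lit 279)) (XT.lf (nat_lit 76) (nat_lit 8184426110) (nat_lit 0) (nat_lit 3045152326) (nat_lit 1748) (nat_lit 297906104) (nat_lit 551) (nat_lit 5) (nat_lit 550) (nat_lit 5) (nat_lit 573) (nat_lit 5) (nat_lit 437) (nat_lit 425) (nat_lit 278))) (XT.nd (nat_lit 78) (nat_lit 0) (nat_lit 0) (XT.lf (nat_lit 0) (nat_lit 683337491) (nat_lit 1748) (nat_lit 8872290685) (nat_lit 1824) (nat_lit 2081190221) (nat_lit 528) (nat_lit 5) (nat_lit 551) (nat_lit 5) (nat_lit 552) (nat_lit 5) (nat_lit 438) (nat_lit 425) (nat_lit 277)) (XT.lf (nat_lit 0) (nat_lit 1709054088) (nat_lit 1748) (nat_lit 2740383362) (nat_lit 1824) (nat_lit 7298285357) (nat_lit 528)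 (nat_lit 5) (nat_lit 551) (nat_lit 5) (nat_lit 552) (nat_lit 5) (nat_lit 439) (nat_lit 425) (nat_lit 276))))))) (XT.nd (nat_lit 1014) (nat_lit 7296) (nat_lit 0) (XT.nd (nat_lit 468) (nat_lit 3344) (nat_lit 0) (XT.nd (nat_lit 234) (nat_lit 0) (nat_lit 76) (XT.nd (nat_lit 78) (nat_lit 0) (nat_lit 0) (XT.lf (nat_lit 0) (nat_lit 2769804881) (nat_lit 1748) (nat_lit 8314621969) (nat_lit 1824) (nat_lit 776128057) (nat_lit 529) (nat_lit 5) (nat_lit 552) (nat_lit 5) (nat_lit 553) (nat_lit 5) (nat_lit 440) (nat_lit 425) (nat_lit 275)) (XT.nd (nat_lit 78) (nat_lit 0) (nat_lit 0) (XT.lf (nat_lit 0) (nat_lit 3886336730) (nat_lit 1748) (nat_lit 2019567703) (nat_lit 1824) (nat_lit 6069047896) (nat_lit 529) (nat_lit 5) (nat_lit 552) (nat_lit 5) (nat_lit 553) (nat_lit 5) (nat_lit 441) (nat_lit 425) (nat_lit 274)) (XT.lf (nat_lit 76) (nat_lit 4450118648) (nat_lit 0) (nat_lit 590825028) (nat_lit 1824) (nat_lit 7050379132) (nat_lit 530) (nat_lit 5) (nat_lit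 529) (nat_lit 5) (nat_lit 553) (nat_lit 5) (nat_lit 442) (nat_lit 425) (nat_lit 273)))) (XT.nd (nat_lit 78) (nat_lit 0) (nat_lit 0) (XT.lf (nat_lit 0) (nat_lit 6250717040) (nat_lit 1748) (nat_lit 1174478833) (nat_lit 1824) (nat_lit 4784183340) (nat_lit 530) (nat_lit 5) (nat_lit 553) (nat_lit 5) (nat_lit 554) (nat_lit 5) (nat_lit 443) (nat_lit 425) (nat_lit 272)) (XT.nd (nat_lit 78) (nat_lit 0) (nat_lit 76) (XT.lf (nat_lit 76) (nat_lit 5479880263) (nat_lit 0) (nat_lit 2031619913) (nat_lit 1824) (nat_lit 4817760285) (nat_lit 531) (nat_lit 5) (nat_lit 530) (nat_lit 5) (nat_lit 554) (nat_lit 5) (nat_lit 444) (nat_lit 425) (nat_lit 271)) (XT.lf (nat_lit 0) (nat_lit 8815488599) (nat_lit 1748) (nat_lit 200578110) (nat_lit 1824) (nat_lit 3435112831) (nat_lit 531) (nat_lit 5) (nat_lit 554) (nat_lit 5) (nat_lit 555) (nat_lit 5) (nat_lit 445) (nat_lit 425) (nat_lit 270))))) (XT.nd (nat_lit 234) (nat_lit 1748) (nat_lit 0) (XT.nd (nat_lit 78) (nat_lit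 1748) (nat_lit 0) (XT.lf (nat_lit 76) (nat_lit 6645229650) (nat_lit 0) (nat_lit 3544699007) (nat_lit 1824) (nat_lit 2384720907) (nat_lit 532) (nat_lit 5) (nat_lit 531) (nat_lit 5) (nat_lit 555) (nat_lit 5) (nat_lit 446) (nat_lit 425) (nat_lit 269)) (XT.nd (nat_lit 78) (nat_lit 1824) (nat_lit 0) (XT.lf (nat_lit 76) (nat_lit 919073013) (nat_lit 0) (nat_lit 10681291778) (nat_lit 1824) (nat_lit 1100054051) (nat_lit 533) (nat_lit 5) (nat_lit 532) (nat_lit 5) (nat_lit 556) (nat_lit 5) (nat_lit 447) (nat_lit 425) (nat_lit 268)) (XT.lf (nat_lit 0) (nat_lit 259135061) (nat_lit 1824) (nat_lit 4878057233) (nat_lit 1900) (nat_lit 7690452161) (nat_lit 508) (nat_lit 5) (nat_lit 532) (nat_lit 5) (nat_lit 533) (nat_lit 5) (nat_lit 448) (nat_lit 425) (nat_lit 267)))) (XT.nd (nat_lit 156) (nat_lit 1824) (nat_lit 0) (XT.nd (nat_lit 78) (nat_lit 0) (nat_lit 0) (XT.lf (nat_lit 0) (nat_lit 1636721684) (nat_lit 1824) (nat_lit 10785963432) (nat_lit 76) (nat_lit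 534465168) (nat_lit 509) (nat_lit 5) (nat_lit 533) (nat_lit 5) (nat_lit 510) (nat_lit 5) (nat_lit 449) (nat_lit 425) (nat_lit 266)) (XT.lf (nat_lit 0) (nat_lit 3097304237) (nat_lit 1824) (nat_lit 3705230005) (nat_lit 76) (nat_lit 6285603103) (nat_lit 509) (nat_lit 5) (nat_lit 533) (nat_lit 5) (nat_lit 510) (nat_lit 5) (nat_lit 450) (nat_lit 425) (nat_lit 265))) (XT.nd (nat_lit 78) (nat_lit 0) (nat_lit 0) (XT.lf (nat_lit 0) (nat_lit 3553984422) (nat_lit 1824) (nat_lit 1044886823) (nat_lit 1900) (nat_lit 8622637447) (nat_lit 485) (nat_lit 5) (nat_lit 509) (nat_lit 5) (nat_lit 510) (nat_lit 5) (nat_lit 451) (nat_lit 425) (nat_lit 264)) (XT.lf (nat_lit 0) (nat_lit 6175710550) (nat_lit 1900) (nat_lit 2389865419) (nat_lit 76) (nat_lit 4791066677) (nat_lit 485) (nat_lit 5) (nat_lit 510) (nat_lit 5) (nat_lit 486) (nat_lit 5) (nat_lit 452) (nat_lit 425) (nat_lit 263)))))) (XT.nd (nat_lit 468) (nat_lit 3420) (nat_lit 0) (XT.nd (nat_lit 234) (nat_lit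 1824) (nat_lit 0) (XT.nd (nat_lit 78) (nat_lit 912) (nat_lit 0) (XT.lf (nat_lit 0) (nat_lit 5083377551) (nat_lit 1140) (nat_lit 2729718069) (nat_lit 1216) (nat_lit 5680803480) (nat_lit 470) (nat_lit 5) (nat_lit 485) (nat_lit 5) (nat_lit 486) (nat_lit 5) (nat_lit 453) (nat_lit 425) (nat_lit 262)) (XT.nd (nat_lit 78) (nat_lit 912) (nat_lit 0) (XT.lf (nat_lit 0) (nat_lit 9509539868) (nat_lit 1216) (nat_lit 926007669) (nat_lit 76) (nat_lit 3197826917) (nat_lit 470) (nat_lit 5) (nat_lit 486) (nat_lit 5) (nat_lit 471) (nat_lit 5) (nat_lit 454) (nat_lit 425) (nat_lit 261)) (XT.lf (nat_lit 0) (nat_lit 6769214791) (nat_lit 912) (nat_lit 4522180051) (nat_lit 988) (nat_lit 2483214835) (nat_lit 458) (nat_lit 5) (nat_lit 470) (nat_lit 5) (nat_lit 471) (nat_lit 5) (nat_lit 455) (nat_lit 425) (nat_lit 260)))) (XT.nd (nat_lit 78) (nat_lit 912) (nat_lit 0) (XT.lf (nat_lit 0) (nat_lit 701879428) (nat_lit 912) (nat_lit 12417223496) (nat_lit 988) (nat_lit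 799362361) (nat_lit 446) (nat_lit 5) (nat_lit 458) (nat_lit 5) (nat_lit 459) (nat_lit 5) (nat_lit 456) (nat_lit 425) (nat_lit 259)) (XT.nd (nat_lit 78) (nat_lit 836) (nat_lit 0) (XT.lf (nat_lit 0) (nat_lit 973070578) (nat_lit 988) (nat_lit 5452124968) (nat_lit 76) (nat_lit 7638544325) (nat_lit 445) (nat_lit 5) (nat_lit 458) (nat_lit 5) (nat_lit 446) (nat_lit 5) (nat_lit 457) (nat_lit 425) (nat_lit 258)) (XT.lf (nat_lit 0) (nat_lit 2485214127) (nat_lit 836) (nat_lit 291058604) (nat_lit 912) (nat_lit 11435421062) (nat_lit 434) (nat_lit 5) (nat_lit 445) (nat_lit 5) (nat_lit 446) (nat_lit 5) (nat_lit 458) (nat_lit 425) (nat_lit 257))))) (XT.nd (nat_lit 234) (nat_lit 2508) (nat_lit 0) (XT.nd (nat_lit 78) (nat_lit 912) (nat_lit 0) (XT.lf (nat_lit 0) (nat_lit 4681117907) (nat_lit 912) (nat_lit 3755495317) (nat_lit 76) (nat_lit 5924681990) (nat_lit 434) (nat_lit 5) (nat_lit 446) (nat_lit 5) (nat_lit 435) (nat_lit 5) (nat_lit 459) (nat_lit 425)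 (nat_lit 256)) (XT.nd (nat_lit 78) (nat_lit 0) (nat_lit 0) (XT.lf (nat_lit 0) (nat_lit 4421311320) (nat_lit 912) (nat_lit 2223594426) (nat_lit 988) (nat_lit 7868566002) (nat_lit 422) (nat_lit 5) (nat_lit 434) (nat_lit 5) (nat_lit 435) (nat_lit 5) (nat_lit 460) (nat_lit 425) (nat_lit 255)) (XT.lf (nat_lit 0) (nat_lit 8690388557) (nat_lit 988) (nat_lit 1892288849) (nat_lit 76) (nat_lit 4085166023) (nat_lit 422) (nat_lit 5) (nat_lit 435) (nat_lit 5) (nat_lit 423) (nat_lit 5) (nat_lit 461) (nat_lit 425) (nat_lit 254)))) (XT.nd (nat_lit 156) (nat_lit 836) (nat_lit 0) (XT.nd (nat_lit 78) (nat_lit 836) (nat_lit 0) (XT.lf (nat_lit 0) (nat_lit 6532940734) (nat_lit 836) (nat_lit 4291513831) (nat_lit 912) (nat_lit 3999894507) (nat_lit 411) (nat_lit 5) (nat_lit 422) (nat_lit 5) (nat_lit 423) (nat_lit 5) (nat_lit 462) (nat_lit 425) (nat_lit 253)) (XT.lf (nat_lit 0) (nat_lit 146920442) (nat_lit 836) (nat_lit 12872471813) (nat_lit 912) (nat_lit 1964228765)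 (nat_lit 400) (nat_lit 5) (nat_lit 411) (nat_lit 5) (nat_lit 412) (nat_lit 5) (nat_lit 463) (nat_lit 425) (nat_lit 252))) (XT.nd (nat_lit 78) (nat_lit 760) (nat_lit 0) (XT.lf (nat_lit 0) (nat_lit 185821841) (nat_lit 912) (nat_lit 6317851219) (nat_lit 76) (nat_lit 8640887937) (nat_lit 399) (nat_lit 5) (nat_lit 411) (nat_lit 5) (nat_lit 400) (nat_lit 5) (nat_lit 464) (nat_lit 425) (nat_lit 251)) (XT.lf (nat_lit 0) (nat_lit 2359081914) (nat_lit 836) (nat_lit 12928472934) (nat_lit 76) (nat_lit 20775064) (nat_lit 389) (nat_lit 5) (nat_lit 400) (nat_lit 5) (nat_lit 390) (nat_lit 5) (nat_lit 465) (nat_lit 425) (nat_lit 250))))))))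
noncomputable def xc117 : XT := (XT.nd (nat_lit 58032) (nat_lit 0) (nat_lit 760) (XT.nd (nat_lit 57018) (nat_lit 0) (nat_lit 11248) (XT.nd (nat_lit 56472) (nat_lit 0) (nat_lit 12692) (XT.nd (nat_lit 56238) (nat_lit 0) (nat_lit 12616) (XT.nd (nat_lit 78) (nat_lit 760) (nat_lit 0) (XT.lf (nat_lit 0) (nat_lit 4652563673) (nat_lit 836) (nat_lit 4190416166) (nat_lit 76) (nat_lit 6630859236) (nat_lit 389) (nat_lit 5) (nat_lit 400) (nat_lit 5) (nat_lit 390) (nat_lit 5) (nat_lit 466) (nat_lit 425) (nat_lit 249)) (XT.nd (nat_lit 78) (nat_lit 0) (nat_lit 0) (XT.lf (nat_lit 0) (nat_lit 4775525862) (nat_lit 760) (nat_lit 2238580308) (nat_lit 836) (nat_lit 8628108431) (nat_lit 379) (nat_lit 5) (nat_lit 389) (nat_lit 5) (nat_lit 390) (nat_lit 5) (nat_lit 467) (nat_lit 425) (nat_lit 248)) (XT.lf (nat_lit 0) (nat_lit 9471680956) (nat_lit 836) (nat_lit 1874810384) (nat_lit 76) (nat_lit 4466490267) (nat_lit 379) (nat_lit 5) (nat_lit 390) (nat_lit 5) (nat_lit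 380) (nat_lit 5) (nat_lit 468) (nat_lit 425) (nat_lit 247)))) (XT.nd (nat_lit 78) (nat_lit 0) (nat_lit 0) (XT.lf (nat_lit 0) (nat_lit 1127831451) (nat_lit 1748) (nat_lit 2067186868) (nat_lit 1748) (nat_lit 2067186868) (nat_lit 545) (nat_lit 3) (nat_lit 568) (nat_lit 3) (nat_lit 568) (nat_lit 5) (nat_lit 426) (nat_lit 426) (nat_lit 288)) (XT.nd (nat_lit 78) (nat_lit 0) (nat_lit 76) (XT.lf (nat_lit 76) (nat_lit 1142819738) (nat_lit 0) (nat_lit 1777868451) (nat_lit 1748) (nat_lit 7696116920) (nat_lit 546) (nat_lit 5) (nat_lit 545) (nat_lit 3) (nat_lit 568) (nat_lit 5) (nat_lit 427) (nat_lit 426) (nat_lit 287)) (XT.lf (nat_lit 0) (nat_lit 3629281775) (nat_lit 1672) (nat_lit 4157073189) (nat_lit 1748) (nat_lit 2924087414) (nat_lit 546) (nat_lit 5) (nat_lit 568) (nat_lit 5) (nat_lit 569) (nat_lit 5) (nat_lit 428) (nat_lit 426) (nat_lit 286))))) (XT.nd (nat_lit 234) (nat_lit 0) (nat_lit 152) (XT.nd (nat_lit 78) (nat_lit 0) (nat_lit 76) (XT.lf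 (nat_lit 76) (nat_lit 1262137665) (nat_lit 0) (nat_lit 3093544025) (nat_lit 1748) (nat_lit 6450198014) (nat_lit 547) (nat_lit 5) (nat_lit 546) (nat_lit 5) (nat_lit 569) (nat_lit 5) (nat_lit 429) (nat_lit 426) (nat_lit 285)) (XT.nd (nat_lit 78) (nat_lit 0) (nat_lit 0) (XT.lf (nat_lit 0) (nat_lit 5119660094) (nat_lit 1672) (nat_lit 4076892145) (nat_lit 1748) (nat_lit 1706212528) (nat_lit 547) (nat_lit 5) (nat_lit 569) (nat_lit 5) (nat_lit 570) (nat_lit 5) (nat_lit 430) (nat_lit 426) (nat_lit 284)) (XT.lf (nat_lit 76) (nat_lit 1489390712) (nat_lit 0) (nat_lit 4423975412) (nat_lit 1748) (nat_lit 5087932445) (nat_lit 548) (nat_lit 5) (nat_lit 547) (nat_lit 5) (nat_lit 570) (nat_lit 5) (nat_lit 431) (nat_lit 426) (nat_lit 283)))) (XT.nd (nat_lit 156) (nat_lit 0) (nat_lit 0) (XT.nd (nat_lit 78) (nat_lit 0) (nat_lit 0) (XT.lf (nat_lit 0) (nat_lit 6737952461) (nat_lit 1672) (nat_lit 3891301124) (nat_lit 1748) (nat_lit 472249338) (nat_lit 548)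 (nat_lit 5) (nat_lit 570) (nat_lit 5) (nat_lit 571) (nat_lit 5) (nat_lit 432) (nat_lit 426) (nat_lit 282)) (XT.lf (nat_lit 76) (nat_lit 1827323268) (nat_lit 0) (nat_lit 5777755408) (nat_lit 1748) (nat_lit 3598111725) (nat_lit 549) (nat_lit 5) (nat_lit 548) (nat_lit 5) (nat_lit 571) (nat_lit 5) (nat_lit 433) (nat_lit 426) (nat_lit 281))) (XT.nd (nat_lit 78) (nat_lit 0) (nat_lit 76) (XT.lf (nat_lit 76) (nat_lit 7704065082) (nat_lit 0) (nat_lit 796719020) (nat_lit 1748) (nat_lit 2805902795) (nat_lit 549) (nat_lit 5) (nat_lit 548) (nat_lit 5) (nat_lit 571) (nat_lit 5) (nat_lit 434) (nat_lit 426) (nat_lit 280)) (XT.lf (nat_lit 76) (nat_lit 2279008623) (nat_lit 0) (nat_lit 7163459093) (nat_lit 1748) (nat_lit 1969224323) (nat_lit 550) (nat_lit 5) (nat_lit 549) (nat_lit 5) (nat_lit 572) (nat_lit 5) (nat_lit 435) (nat_lit 426) (nat_lit 279)))))) (XT.nd (nat_lit 468) (nat_lit 0) (nat_lit 152) (XT.nd (nat_lit 234) (nat_lit 0) (nat_lit 76) (XT.nd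 (nat_lit 78) (nat_lit 1672) (nat_lit 0) (XT.lf (nat_lit 76) (nat_lit 8312664759) (nat_lit 0) (nat_lit 2105416567) (nat_lit 1748) (nat_lit 1100414034) (nat_lit 550) (nat_lit 5) (nat_lit 549) (nat_lit 5) (nat_lit 572) (nat_lit 5) (nat_lit 436) (nat_lit 426) (nat_lit 278)) (XT.nd (nat_lit 78) (nat_lit 1748) (nat_lit 0) (XT.lf (nat_lit 76) (nat_lit 2847851421) (nat_lit 0) (nat_lit 8589666459) (nat_lit 1748) (nat_lit 189430651) (nat_lit 551) (nat_lit 5) (nat_lit 550) (nat_lit 5) (nat_lit 573) (nat_lit 5) (nat_lit 437) (nat_lit 426) (nat_lit 277)) (XT.lf (nat_lit 0) (nat_lit 751785677) (nat_lit 1748) (nat_lit 2699320761) (nat_lit 1824) (nat_lit 8285933957) (nat_lit 527) (nat_lit 5) (nat_lit 550) (nat_lit 5) (nat_lit 551) (nat_lit 5) (nat_lit 438) (nat_lit 426) (nat_lit 276)))) (XT.nd (nat_lit 78) (nat_lit 0) (nat_lit 0) (XT.lf (nat_lit 0) (nat_lit 1730465341) (nat_lit 1748) (nat_lit 8322906979) (nat_lit 1824) (nat_lit 1795513223) (nat_lit 528)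 (nat_lit 5) (nat_lit 551) (nat_lit 5) (nat_lit 552) (nat_lit 5) (nat_lit 439) (nat_lit 426) (nat_lit 275)) (XT.nd (nat_lit 78) (nat_lit 0) (nat_lit 76) (XT.lf (nat_lit 0) (nat_lit 2756432326) (nat_lit 1748) (nat_lit 2082613069) (nat_lit 1824) (nat_lit 7123367924) (nat_lit 528) (nat_lit 5) (nat_lit 551) (nat_lit 5) (nat_lit 552) (nat_lit 5) (nat_lit 440) (nat_lit 426) (nat_lit 274)) (XT.lf (nat_lit 0) (nat_lit 3821244505) (nat_lit 1748) (nat_lit 7751182817) (nat_lit 1824) (nat_lit 505417812) (nat_lit 529) (nat_lit 5) (nat_lit 552) (nat_lit 5) (nat_lit 553) (nat_lit 5) (nat_lit 441) (nat_lit 426) (nat_lit 273))))) (XT.nd (nat_lit 234) (nat_lit 0) (nat_lit 76) (XT.nd (nat_lit 78) (nat_lit 0) (nat_lit 0) (XT.lf (nat_lit 0) (nat_lit 4940576725) (nat_lit 1748) (nat_lit 1344535929) (nat_lit 1824) (nat_lit 5909808456) (nat_lit 529) (nat_lit 5) (nat_lit 552) (nat_lit 5) (nat_lit 553) (nat_lit 5) (nat_lit 442) (nat_lit 426) (nat_lit 272)) (XT.nd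 (nat_lit 78) (nat_lit 0) (nat_lit 76) (XT.lf (nat_lit 76) (nat_lit 5249837418) (nat_lit 0) (nat_lit 853905517) (nat_lit 1824) (nat_lit 6210166723) (nat_lit 530) (nat_lit 5) (nat_lit 529) (nat_lit 5) (nat_lit 553) (nat_lit 5) (nat_lit 443) (nat_lit 426) (nat_lit 271)) (XT.lf (nat_lit 0) (nat_lit 7317250021) (nat_lit 1748) (nat_lit 480725883) (nat_lit 1824) (nat_lit 4636760521) (nat_lit 530) (nat_lit 5) (nat_lit 553) (nat_lit 5) (nat_lit 554) (nat_lit 5) (nat_lit 444) (nat_lit 426) (nat_lit 270)))) (XT.nd (nat_lit 156) (nat_lit 0) (nat_lit 76) (XT.nd (nat_lit 78) (nat_lit 0) (nat_lit 76) (XT.lf (nat_lit 76) (nat_lit 6302001694) (nat_lit 0) (nat_lit 2287412152) (nat_lit 1824) (nat_lit 3967878151) (nat_lit 531) (nat_lit 5) (nat_lit 530) (nat_lit 5) (nat_lit 554) (nat_lit 5) (nat_lit 445) (nat_lit 426) (nat_lit 269)) (XT.lf (nat_lit 76) (nat_lit 520346986) (nat_lit 0) (nat_lit 9382954044) (nat_lit 1824) (nat_lit 2778672048) (nat_lit 532) (nat_lit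 5) (nat_lit 531) (nat_lit 5) (nat_lit 555) (nat_lit 5) (nat_lit 446) (nat_lit 426) (nat_lit 268))) (XT.nd (nat_lit 78) (nat_lit 0) (nat_lit 76) (XT.lf (nat_lit 76) (nat_lit 7491522036) (nat_lit 0) (nat_lit 3797154845) (nat_lit 1824) (nat_lit 1519566681) (nat_lit 532) (nat_lit 5) (nat_lit 531) (nat_lit 5) (nat_lit 555) (nat_lit 5) (nat_lit 447) (nat_lit 426) (nat_lit 267)) (XT.lf (nat_lit 76) (nat_lit 1665101226) (nat_lit 0) (nat_lit 11048241139) (nat_lit 1824) (nat_lit 223465448) (nat_lit 533) (nat_lit 5) (nat_lit 532) (nat_lit 5) (nat_lit 556) (nat_lit 5) (nat_lit 448) (nat_lit 426) (nat_lit 266))))))) (XT.nd (nat_lit 1014) (nat_lit 2508) (nat_lit 0) (XT.nd (nat_lit 468) (nat_lit 3648) (nat_lit 0) (XT.nd (nat_lit 234) (nat_lit 2888) (nat_lit 0) (XT.nd (nat_lit 78) (nat_lit 0) (nat_lit 76) (XT.lf (nat_lit 0) (nat_lit 1133733957) (nat_lit 1824) (nat_lit 4250685124) (nat_lit 1900) (nat_lit 7682389939) (nat_lit 508) (nat_lit 5) (nat_lit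 532) (nat_lit 5) (nat_lit 533) (nat_lit 5) (nat_lit 449) (nat_lit 426) (nat_lit 265)) (XT.nd (nat_lit 78) (nat_lit 0) (nat_lit 0) (XT.lf (nat_lit 0) (nat_lit 2525611998) (nat_lit 1824) (nat_lit 10263489133) (nat_lit 76) (nat_lit 410069041) (nat_lit 509) (nat_lit 5) (nat_lit 533) (nat_lit 5) (nat_lit 510) (nat_lit 5) (nat_lit 450) (nat_lit 426) (nat_lit 264)) (XT.lf (nat_lit 0) (nat_lit 3998618832) (nat_lit 1824) (nat_lit 3055615421) (nat_lit 76) (nat_lit 6278878469) (nat_lit 509) (nat_lit 5) (nat_lit 533) (nat_lit 5) (nat_lit 510) (nat_lit 5) (nat_lit 451) (nat_lit 426) (nat_lit 263)))) (XT.nd (nat_lit 78) (nat_lit 1140) (nat_lit 0) (XT.lf (nat_lit 0) (nat_lit 4344021984) (nat_lit 1824) (nat_lit 1174404941) (nat_lit 1900) (nat_lit 7950960375) (nat_lit 485) (nat_lit 5) (nat_lit 509) (nat_lit 5) (nat_lit 510) (nat_lit 5) (nat_lit 452) (nat_lit 426) (nat_lit 262)) (XT.nd (nat_lit 78) (nat_lit 1140) (nat_lit 0) (XT.lf (nat_lit 0) (nat_lit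 7109884585) (nat_lit 1900) (nat_lit 1715883635) (nat_lit 76) (nat_lit 4781794083) (nat_lit 485) (nat_lit 5) (nat_lit 510) (nat_lit 5) (nat_lit 486) (nat_lit 5) (nat_lit 453) (nat_lit 426) (nat_lit 261)) (XT.lf (nat_lit 0) (nat_lit 5902075648) (nat_lit 1140) (nat_lit 2866701856) (nat_lit 1216) (nat_lit 4979011179) (nat_lit 470) (nat_lit 5) (nat_lit 485) (nat_lit 5) (nat_lit 486) (nat_lit 5) (nat_lit 454) (nat_lit 426) (nat_lit 260))))) (XT.nd (nat_lit 234) (nat_lit 1824) (nat_lit 0) (XT.nd (nat_lit 78) (nat_lit 1824) (nat_lit 0) (XT.lf (nat_lit 0) (nat_lit 10482951296) (nat_lit 1216) (nat_lit 225357360) (nat_lit 76) (nat_lit 3182068874) (nat_lit 470) (nat_lit 5) (nat_lit 486) (nat_lit 5) (nat_lit 471) (nat_lit 5) (nat_lit 455) (nat_lit 426) (nat_lit 259)) (XT.nd (nat_lit 78) (nat_lit 912) (nat_lit 0) (XT.lf (nat_lit 0) (nat_lit 7619038165) (nat_lit 912) (nat_lit 4670686550) (nat_lit 988) (nat_lit 1744927116) (nat_lit 458) (nat_lit 5) (nat_lit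 470) (nat_lit 5) (nat_lit 471) (nat_lit 5) (nat_lit 456) (nat_lit 426) (nat_lit 258)) (XT.lf (nat_lit 0) (nat_lit 1441378735) (nat_lit 912) (nat_lit 12701801715) (nat_lit 988) (nat_lit 38420232) (nat_lit 446) (nat_lit 5) (nat_lit 458) (nat_lit 5) (nat_lit 459) (nat_lit 5) (nat_lit 457) (nat_lit 426) (nat_lit 257)))) (XT.nd (nat_lit 156) (nat_lit 912) (nat_lit 0) (XT.nd (nat_lit 78) (nat_lit 836) (nat_lit 0) (XT.lf (nat_lit 0) (nat_lit 1744237683) (nat_lit 988) (nat_lit 4839940716) (nat_lit 76) (nat_lit 7745802156) (nat_lit 445) (nat_lit 5) (nat_lit 458) (nat_lit 5) (nat_lit 446) (nat_lit 5) (nat_lit 458) (nat_lit 426) (nat_lit 256)) (XT.lf (nat_lit 0) (nat_lit 3251400248) (nat_lit 836) (nat_lit 322016179) (nat_lit 912) (nat_lit 10907678877) (nat_lit 434) (nat_lit 5) (nat_lit 445) (nat_lit 5) (nat_lit 446) (nat_lit 5) (nat_lit 459) (nat_lit 426) (nat_lit 255))) (XT.nd (nat_lit 78) (nat_lit 912) (nat_lit 0) (XT.lf (nat_lit 0) (nat_lit 5501656970)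 (nat_lit 912) (nat_lit 3113470511) (nat_lit 76) (nat_lit 6018855302) (nat_lit 434) (nat_lit 5) (nat_lit 446) (nat_lit 5) (nat_lit 435) (nat_lit 5) (nat_lit 460) (nat_lit 426) (nat_lit 254)) (XT.lf (nat_lit 0) (nat_lit 5222154267) (nat_lit 912) (nat_lit 2272938512) (nat_lit 988) (nat_lit 7294302625) (nat_lit 422) (nat_lit 5) (nat_lit 434) (nat_lit 5) (nat_lit 435) (nat_lit 5) (nat_lit 461) (nat_lit 426) (nat_lit 253)))))) (XT.nd (nat_lit 56628) (nat_lit 0) (nat_lit 11856) (XT.nd (nat_lit 234) (nat_lit 836) (nat_lit 0) (XT.nd (nat_lit 78) (nat_lit 1672) (nat_lit 0) (XT.lf (nat_lit 0) (nat_lit 9567389745) (nat_lit 988) (nat_lit 1217591359) (nat_lit 76) (nat_lit 4162155325) (nat_lit 422) (nat_lit 5) (nat_lit 435) (nat_lit 5) (nat_lit 423) (nat_lit 5) (nat_lit 462) (nat_lit 426) (nat_lit 252)) (XT.nd (nat_lit 78) (nat_lit 836) (nat_lit 0) (XT.lf (nat_lit 0) (nat_lit 7371455031) (nat_lit 836) (nat_lit 4363489803) (nat_lit 912) (nat_lit 3372011196)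 (nat_lit 411) (nat_lit 5) (nat_lit 422) (nat_lit 5) (nat_lit 423) (nat_lit 5) (nat_lit 463) (nat_lit 426) (nat_lit 251)) (XT.lf (nat_lit 0) (nat_lit 866756737) (nat_lit 836) (nat_lit 13098159439) (nat_lit 912) (nat_lit 1304674544) (nat_lit 400) (nat_lit 5) (nat_lit 411) (nat_lit 5) (nat_lit 412) (nat_lit 5) (nat_lit 464) (nat_lit 426) (nat_lit 250)))) (XT.nd (nat_lit 78) (nat_lit 760) (nat_lit 0) (XT.lf (nat_lit 0) (nat_lit 865688671) (nat_lit 912) (nat_lit 5732381495) (nat_lit 76) (nat_lit 8835859043) (nat_lit 399) (nat_lit 5) (nat_lit 411) (nat_lit 5) (nat_lit 400) (nat_lit 5) (nat_lit 465) (nat_lit 426) (nat_lit 249)) (XT.nd (nat_lit 78) (nat_lit 0) (nat_lit 0) (XT.lf (nat_lit 0) (nat_lit 3074004839) (nat_lit 836) (nat_lit 12466806538) (nat_lit 76) (nat_lit 60330308) (nat_lit 389) (nat_lit 5) (nat_lit 400) (nat_lit 5) (nat_lit 390) (nat_lit 5) (nat_lit 466) (nat_lit 426) (nat_lit 248)) (XT.lf (nat_lit 0) (nat_lit 5400263266) (nat_lit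 836) (nat_lit 3568110907) (nat_lit 76) (nat_lit 6801848718) (nat_lit 389) (nat_lit 5) (nat_lit 400) (nat_lit 5) (nat_lit 390) (nat_lit 5) (nat_lit 467) (nat_lit 426) (nat_lit 247))))) (XT.nd (nat_lit 234) (nat_lit 0) (nat_lit 76) (XT.nd (nat_lit 78) (nat_lit 0) (nat_lit 0) (XT.lf (nat_lit 0) (nat_lit 1781313636) (nat_lit 1748) (nat_lit 1786758573) (nat_lit 1748) (nat_lit 1786758573) (nat_lit 545) (nat_lit 3) (nat_lit 568) (nat_lit 3) (nat_lit 568) (nat_lit 5) (nat_lit 427) (nat_lit 427) (nat_lit 286)) (XT.nd (nat_lit 78) (nat_lit 0) (nat_lit 76) (XT.lf (nat_lit 76) (nat_lit 1804986357) (nat_lit 0) (nat_lit 2415375354) (nat_lit 1748) (nat_lit 6583954305) (nat_lit 546) (nat_lit 5) (nat_lit 545) (nat_lit 3) (nat_lit 568) (nat_lit 5) (nat_lit 428) (nat_lit 427) (nat_lit 285)) (XT.lf (nat_lit 0) (nat_lit 4914957119) (nat_lit 1672) (nat_lit 3585269874) (nat_lit 1748) (nat_lit 2400162439) (nat_lit 546) (nat_lit 5) (nat_lit 568) (nat_lit 5) (nat_lit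 569) (nat_lit 5) (nat_lit 429) (nat_lit 427) (nat_lit 284)))) (XT.nd (nat_lit 156) (nat_lit 0) (nat_lit 76) (XT.nd (nat_lit 78) (nat_lit 0) (nat_lit 76) (XT.lf (nat_lit 76) (nat_lit 1938016350) (nat_lit 0) (nat_lit 3698306970) (nat_lit 1748) (nat_lit 5361803418) (nat_lit 547) (nat_lit 5) (nat_lit 546) (nat_lit 5) (nat_lit 569) (nat_lit 5) (nat_lit 430) (nat_lit 427) (nat_lit 283)) (XT.lf (nat_lit 0) (nat_lit 6388723080) (nat_lit 1672) (nat_lit 3493693412) (nat_lit 1748) (nat_lit 1215070174) (nat_lit 547) (nat_lit 5) (nat_lit 569) (nat_lit 5) (nat_lit 570) (nat_lit 5) (nat_lit 431) (nat_lit 427) (nat_lit 282))) (XT.nd (nat_lit 78) (nat_lit 0) (nat_lit 76) (XT.lf (nat_lit 76) (nat_lit 2179541835) (nat_lit 0) (nat_lit 5000173034) (nat_lit 1748) (nat_lit 4018648042) (nat_lit 548) (nat_lit 5) (nat_lit 547) (nat_lit 5) (nat_lit 570) (nat_lit 5) (nat_lit 432) (nat_lit 427) (nat_lit 281)) (XT.lf (nat_lit 0) (nat_lit 7995177034) (nat_lit 1672)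 (nat_lit 3296096238) (nat_lit 1748) (nat_lit 9810400) (nat_lit 548) (nat_lit 5) (nat_lit 570) (nat_lit 5) (nat_lit 571) (nat_lit 5) (nat_lit 433) (nat_lit 427) (nat_lit 280))))))))
noncomputable def xc118 : XT := (XT.nd (nat_lit 2028) (nat_lit 4256) (nat_lit 0) (XT.nd (nat_lit 1014) (nat_lit 6232) (nat_lit 0) (XT.nd (nat_lit 468) (nat_lit 0) (nat_lit 76) (XT.nd (nat_lit 234) (nat_lit 1596) (nat_lit 0) (XT.nd (nat_lit 78) (nat_lit 0) (nat_lit 0) (XT.lf (nat_lit 76) (nat_lit 2532472807) (nat_lit 0) (nat_lit 6329504853) (nat_lit 1748) (nat_lit 2543180602) (nat_lit 549) (nat_lit 5) (nat_lit 548) (nat_lit 5) (nat_lit 571) (nat_lit 5) (nat_lit 434) (nat_lit 427) (nat_lit 279)) (XT.nd (nat_lit 78) (nat_lit 0) (nat_lit 76) (XT.lf (nat_lit 76) (nat_lit 8513639593) (nat_lit 0) (nat_lit 1240294906) (nat_lit 1748) (nat_lit 1757223441) (nat_lit 549) (nat_lit 5) (nat_lit 548) (nat_lit 5) (nat_lit 571) (nat_lit 5) (nat_lit 435) (nat_lit 427) (nat_lit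 278)) (XT.lf (nat_lit 76) (nat_lit 3000047992) (nat_lit 0) (nat_lit 7694829297) (nat_lit 1748) (nat_lit 923777387) (nat_lit 550) (nat_lit 5) (nat_lit 549) (nat_lit 5) (nat_lit 572) (nat_lit 5) (nat_lit 436) (nat_lit 427) (nat_lit 277)))) (XT.nd (nat_lit 78) (nat_lit 1672) (nat_lit 0) (XT.lf (nat_lit 76) (nat_lit 9141132952) (nat_lit 0) (nat_lit 2528016096) (nat_lit 1748) (nat_lit 58862096) (nat_lit 550) (nat_lit 5) (nat_lit 549) (nat_lit 5) (nat_lit 572) (nat_lit 5) (nat_lit 437) (nat_lit 427) (nat_lit 276)) (XT.nd (nat_lit 78) (nat_lit 0) (nat_lit 0) (XT.lf (nat_lit 0) (nat_lit 840358634) (nat_lit 1748) (nat_lit 8258693223) (nat_lit 1824) (nat_lit 2739839860) (nat_lit 527) (nat_lit 5) (nat_lit 550) (nat_lit 5) (nat_lit 551) (nat_lit 5) (nat_lit 438) (nat_lit 427) (nat_lit 275)) (XT.lf (nat_lit 0) (nat_lit 1777648639) (nat_lit 1748) (nat_lit 2072198036) (nat_lit 1824) (nat_lit 8101717983) (nat_lit 527) (nat_lit 5) (nat_lit 550) (nat_lit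 5) (nat_lit 551) (nat_lit 5) (nat_lit 439) (nat_lit 427) (nat_lit 274))))) (XT.nd (nat_lit 234) (nat_lit 0) (nat_lit 76) (XT.nd (nat_lit 78) (nat_lit 0) (nat_lit 0) (XT.lf (nat_lit 0) (nat_lit 2758405193) (nat_lit 1748) (nat_lit 7790759275) (nat_lit 1824) (nat_lit 1516832174) (nat_lit 528) (nat_lit 5) (nat_lit 551) (nat_lit 5) (nat_lit 552) (nat_lit 5) (nat_lit 440) (nat_lit 427) (nat_lit 273)) (XT.nd (nat_lit 78) (nat_lit 0) (nat_lit 76) (XT.lf (nat_lit 0) (nat_lit 3785414449) (nat_lit 1748) (nat_lit 1439357640) (nat_lit 1824) (nat_lit 6957412426) (nat_lit 528) (nat_lit 5) (nat_lit 551) (nat_lit 5) (nat_lit 552) (nat_lit 5) (nat_lit 441) (nat_lit 427) (nat_lit 272)) (XT.lf (nat_lit 0) (nat_lit 4855035338) (nat_lit 1748) (nat_lit 7204811250) (nat_lit 1824) (nat_lit 240408130) (nat_lit 529) (nat_lit 5) (nat_lit 552) (nat_lit 5) (nat_lit 553) (nat_lit 5) (nat_lit 442) (nat_lit 427) (nat_lit 271)))) (XT.nd (nat_lit 156) (nat_lit 0) (nat_lit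 76) (XT.nd (nat_lit 78) (nat_lit 0) (nat_lit 0) (XT.lf (nat_lit 0) (nat_lit 5977982321) (nat_lit 1748) (nat_lit 683784271) (nat_lit 1824) (nat_lit 5758281058) (nat_lit 529) (nat_lit 5) (nat_lit 552) (nat_lit 5) (nat_lit 553) (nat_lit 5) (nat_lit 443) (nat_lit 427) (nat_lit 270)) (XT.lf (nat_lit 76) (nat_lit 6037952580) (nat_lit 0) (nat_lit 1112490728) (nat_lit 1824) (nat_lit 5391252033) (nat_lit 530) (nat_lit 5) (nat_lit 529) (nat_lit 5) (nat_lit 553) (nat_lit 5) (nat_lit 444) (nat_lit 427) (nat_lit 269))) (XT.nd (nat_lit 78) (nat_lit 0) (nat_lit 0) (XT.lf (nat_lit 76) (nat_lit 201696002) (nat_lit 0) (nat_lit 8168166885) (nat_lit 1824) (nat_lit 4295442909) (nat_lit 531) (nat_lit 5) (nat_lit 530) (nat_lit 5) (nat_lit 554) (nat_lit 5) (nat_lit 445) (nat_lit 427) (nat_lit 268)) (XT.lf (nat_lit 76) (nat_lit 7112897385) (nat_lit 0) (nat_lit 2539965317) (nat_lit 1824) (nat_lit 3137741923) (nat_lit 531) (nat_lit 5) (nat_lit 530) (nat_lit 5)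 (nat_lit 554) (nat_lit 5) (nat_lit 446) (nat_lit 427) (nat_lit 267)))))) (XT.nd (nat_lit 468) (nat_lit 4788) (nat_lit 0) (XT.nd (nat_lit 234) (nat_lit 0) (nat_lit 0) (XT.nd (nat_lit 78) (nat_lit 1748) (nat_lit 0) (XT.lf (nat_lit 76) (nat_lit 1230153722) (nat_lit 0) (nat_lit 9748614947) (nat_lit 1824) (nat_lit 1939295837) (nat_lit 532) (nat_lit 5) (nat_lit 531) (nat_lit 5) (nat_lit 555) (nat_lit 5) (nat_lit 447) (nat_lit 427) (nat_lit 266)) (XT.nd (nat_lit 78) (nat_lit 1748) (nat_lit 0) (XT.lf (nat_lit 76) (nat_lit 8327038552) (nat_lit 0) (nat_lit 4047609533) (nat_lit 1824) (nat_lit 672556396) (nat_lit 532) (nat_lit 5) (nat_lit 531) (nat_lit 5) (nat_lit 555) (nat_lit 5) (nat_lit 448) (nat_lit 427) (nat_lit 265)) (XT.lf (nat_lit 0) (nat_lit 627423466) (nat_lit 1824) (nat_lit 10784941940) (nat_lit 1900) (nat_lit 1766160786) (nat_lit 508) (nat_lit 5) (nat_lit 532) (nat_lit 5) (nat_lit 533) (nat_lit 5) (nat_lit 449) (nat_lit 427) (nat_lit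 264)))) (XT.nd (nat_lit 78) (nat_lit 0) (nat_lit 76) (XT.lf (nat_lit 0) (nat_lit 1992064341) (nat_lit 1824) (nat_lit 3638915615) (nat_lit 1900) (nat_lit 7680452131) (nat_lit 508) (nat_lit 5) (nat_lit 532) (nat_lit 5) (nat_lit 533) (nat_lit 5) (nat_lit 450) (nat_lit 427) (nat_lit 263)) (XT.nd (nat_lit 78) (nat_lit 0) (nat_lit 0) (XT.lf (nat_lit 0) (nat_lit 3399034543) (nat_lit 1824) (nat_lit 9759230304) (nat_lit 76) (nat_lit 288430523) (nat_lit 509) (nat_lit 5) (nat_lit 533) (nat_lit 5) (nat_lit 510) (nat_lit 5) (nat_lit 451) (nat_lit 427) (nat_lit 262)) (XT.lf (nat_lit 0) (nat_lit 4885366017) (nat_lit 1824) (nat_lit 2421111444) (nat_lit 76) (nat_lit 6277162020) (nat_lit 509) (nat_lit 5) (nat_lit 533) (nat_lit 5) (nat_lit 510) (nat_lit 5) (nat_lit 452) (nat_lit 427) (nat_lit 261))))) (XT.nd (nat_lit 234) (nat_lit 1900) (nat_lit 0) (XT.nd (nat_lit 78) (nat_lit 1140) (nat_lit 0) (XT.lf (nat_lit 0) (nat_lit 5121942287) (nat_lit 1824) (nat_lit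 1302295561) (nat_lit 1900) (nat_lit 7298628351) (nat_lit 485) (nat_lit 5) (nat_lit 509) (nat_lit 5) (nat_lit 510) (nat_lit 5) (nat_lit 453) (nat_lit 427) (nat_lit 260)) (XT.nd (nat_lit 78) (nat_lit 1140) (nat_lit 0) (XT.lf (nat_lit 0) (nat_lit 8031263191) (nat_lit 1900) (nat_lit 1056449777) (nat_lit 76) (nat_lit 4776416962) (nat_lit 485) (nat_lit 5) (nat_lit 510) (nat_lit 5) (nat_lit 486) (nat_lit 5) (nat_lit 454) (nat_lit 427) (nat_lit 259)) (XT.lf (nat_lit 0) (nat_lit 6709304536) (nat_lit 1140) (nat_lit 3003226037) (nat_lit 1216) (nat_lit 4294846333) (nat_lit 470) (nat_lit 5) (nat_lit 485) (nat_lit 5) (nat_lit 486) (nat_lit 5) (nat_lit 455) (nat_lit 427) (nat_lit 258)))) (XT.nd (nat_lit 156) (nat_lit 988) (nat_lit 0) (XT.nd (nat_lit 78) (nat_lit 0) (nat_lit 0) (XT.lf (nat_lit 0) (nat_lit 467511182) (nat_lit 912) (nat_lit 10980941752) (nat_lit 988) (nat_lit 2704615294) (nat_lit 458) (nat_lit 5) (nat_lit 470) (nat_lit 5) (nat_lit 471)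 (nat_lit 5) (nat_lit 456) (nat_lit 427) (nat_lit 257)) (XT.lf (nat_lit 0) (nat_lit 8458115466) (nat_lit 912) (nat_lit 4819908527) (nat_lit 988) (nat_lit 1022470779) (nat_lit 458) (nat_lit 5) (nat_lit 470) (nat_lit 5) (nat_lit 471) (nat_lit 5) (nat_lit 457) (nat_lit 427) (nat_lit 256))) (XT.nd (nat_lit 78) (nat_lit 0) (nat_lit 0) (XT.lf (nat_lit 0) (nat_lit 698291695) (nat_lit 988) (nat_lit 12287686897) (nat_lit 76) (nat_lit 1464519865) (nat_lit 445) (nat_lit 5) (nat_lit 458) (nat_lit 5) (nat_lit 446) (nat_lit 5) (nat_lit 458) (nat_lit 427) (nat_lit 255)) (XT.lf (nat_lit 0) (nat_lit 2501638483) (nat_lit 988) (nat_lit 4243518892) (nat_lit 76) (nat_lit 7856972470) (nat_lit 445) (nat_lit 5) (nat_lit 458) (nat_lit 5) (nat_lit 446) (nat_lit 5) (nat_lit 459) (nat_lit 427) (nat_lit 254))))))) (XT.nd (nat_lit 57252) (nat_lit 0) (nat_lit 10412) (XT.nd (nat_lit 468) (nat_lit 836) (nat_lit 0) (XT.nd (nat_lit 234) (nat_lit 1672) (nat_lit 0) (XT.nd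 (nat_lit 78) (nat_lit 912) (nat_lit 0) (XT.lf (nat_lit 0) (nat_lit 4005088229) (nat_lit 836) (nat_lit 352616829) (nat_lit 912) (nat_lit 10398755747) (nat_lit 434) (nat_lit 5) (nat_lit 445) (nat_lit 5) (nat_lit 446) (nat_lit 5) (nat_lit 460) (nat_lit 427) (nat_lit 253)) (XT.nd (nat_lit 78) (nat_lit 912) (nat_lit 0) (XT.lf (nat_lit 0) (nat_lit 6310379754) (nat_lit 912) (nat_lit 2486452425) (nat_lit 76) (nat_lit 6115856469) (nat_lit 434) (nat_lit 5) (nat_lit 446) (nat_lit 5) (nat_lit 435) (nat_lit 5) (nat_lit 461) (nat_lit 427) (nat_lit 252)) (XT.lf (nat_lit 0) (nat_lit 6011350063) (nat_lit 912) (nat_lit 2323080288) (nat_lit 988) (nat_lit 6736964248) (nat_lit 422) (nat_lit 5) (nat_lit 434) (nat_lit 5) (nat_lit 435) (nat_lit 5) (nat_lit 462) (nat_lit 427) (nat_lit 251)))) (XT.nd (nat_lit 78) (nat_lit 1672) (nat_lit 0) (XT.lf (nat_lit 0) (nat_lit 10434625099) (nat_lit 988) (nat_lit 557068843) (nat_lit 76) (nat_lit 4240867464) (nat_lit 422)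 (nat_lit 5) (nat_lit 435) (nat_lit 5) (nat_lit 423) (nat_lit 5) (nat_lit 463) (nat_lit 427) (nat_lit 250)) (XT.nd (nat_lit 78) (nat_lit 836) (nat_lit 0) (XT.lf (nat_lit 0) (nat_lit 8199252722) (nat_lit 836) (nat_lit 4437443274) (nat_lit 912) (nat_lit 2759058108) (nat_lit 411) (nat_lit 5) (nat_lit 422) (nat_lit 5) (nat_lit 423) (nat_lit 5) (nat_lit 464) (nat_lit 427) (nat_lit 249)) (XT.lf (nat_lit 0) (nat_lit 1573151739) (nat_lit 836) (nat_lit 13329594167) (nat_lit 912) (nat_lit 659066000) (nat_lit 400) (nat_lit 5) (nat_lit 411) (nat_lit 5) (nat_lit 412) (nat_lit 5) (nat_lit 465) (nat_lit 427) (nat_lit 248))))) (XT.nd (nat_lit 56472) (nat_lit 0) (nat_lit 11856) (XT.nd (nat_lit 78) (nat_lit 760) (nat_lit 0) (XT.lf (nat_lit 0) (nat_lit 1532897093) (nat_lit 912) (nat_lit 5162843478) (nat_lit 76) (nat_lit 9033869329) (nat_lit 399) (nat_lit 5) (nat_lit 411) (nat_lit 5) (nat_lit 400) (nat_lit 5) (nat_lit 466) (nat_lit 427) (nat_lit 247)) (XT.nd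 (nat_lit 56316) (nat_lit 0) (nat_lit 11856) (XT.lf (nat_lit 0) (nat_lit 3777297013) (nat_lit 836) (nat_lit 12023874450) (nat_lit 76) (nat_lit 99156813) (nat_lit 389) (nat_lit 5) (nat_lit 400) (nat_lit 5) (nat_lit 390) (nat_lit 5) (nat_lit 467) (nat_lit 427) (nat_lit 246)) (XT.lf (nat_lit 0) (nat_lit 2423365856) (nat_lit 1748) (nat_lit 1513216511) (nat_lit 1748) (nat_lit 1513216511) (nat_lit 545) (nat_lit 3) (nat_lit 568) (nat_lit 3) (nat_lit 568) (nat_lit 5) (nat_lit 428) (nat_lit 428) (nat_lit 284)))) (XT.nd (nat_lit 156) (nat_lit 0) (nat_lit 76) (XT.nd (nat_lit 78) (nat_lit 0) (nat_lit 76) (XT.lf (nat_lit 76) (nat_lit 2455571112) (nat_lit 0) (nat_lit 3042257961) (nat_lit 1748) (nat_lit 5498712060) (nat_lit 546) (nat_lit 5) (nat_lit 545) (nat_lit 3) (nat_lit 568) (nat_lit 5) (nat_lit 429) (nat_lit 428) (nat_lit 283)) (XT.lf (nat_lit 0) (nat_lit 6179240218) (nat_lit 1672) (nat_lit 3027462796) (nat_lit 1748) (nat_lit 1888374528) (nat_lit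 546) (nat_lit 5) (nat_lit 568) (nat_lit 5) (nat_lit 569) (nat_lit 5) (nat_lit 430) (nat_lit 428) (nat_lit 282))) (XT.nd (nat_lit 78) (nat_lit 0) (nat_lit 76) (XT.lf (nat_lit 76) (nat_lit 2602147623) (nat_lit 0) (nat_lit 4294084012) (nat_lit 1748) (nat_lit 4298914000) (nat_lit 547) (nat_lit 5) (nat_lit 546) (nat_lit 5) (nat_lit 569) (nat_lit 5) (nat_lit 431) (nat_lit 428) (nat_lit 281)) (XT.lf (nat_lit 0) (nat_lit 7637864117) (nat_lit 1672) (nat_lit 2924643236) (nat_lit 1748) (nat_lit 734501715) (nat_lit 547) (nat_lit 5) (nat_lit 569) (nat_lit 5) (nat_lit 570) (nat_lit 5) (nat_lit 432) (nat_lit 428) (nat_lit 280)))))) (XT.nd (nat_lit 468) (nat_lit 0) (nat_lit 76) (XT.nd (nat_lit 234) (nat_lit 1596) (nat_lit 0) (XT.nd (nat_lit 78) (nat_lit 0) (nat_lit 0) (XT.lf (nat_lit 76) (nat_lit 2857853268) (nat_lit 0) (nat_lit 5568955921) (nat_lit 1748) (nat_lit 2973450981) (nat_lit 548) (nat_lit 5) (nat_lit 547) (nat_lit 5) (nat_lit 570) (nat_lit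 5) (nat_lit 433) (nat_lit 428) (nat_lit 279)) (XT.nd (nat_lit 78) (nat_lit 0) (nat_lit 76) (XT.lf (nat_lit 76) (nat_lit 8787429427) (nat_lit 0) (nat_lit 449448081) (nat_lit 1748) (nat_lit 2268591898) (nat_lit 548) (nat_lit 5) (nat_lit 547) (nat_lit 5) (nat_lit 570) (nat_lit 5) (nat_lit 434) (nat_lit 428) (nat_lit 278)) (XT.lf (nat_lit 76) (nat_lit 3225762665) (nat_lit 0) (nat_lit 6875351328) (nat_lit 1748) (nat_lit 1510909498) (nat_lit 549) (nat_lit 5) (nat_lit 548) (nat_lit 5) (nat_lit 571) (nat_lit 5) (nat_lit 435) (nat_lit 428) (nat_lit 277)))) (XT.nd (nat_lit 78) (nat_lit 1672) (nat_lit 0) (XT.lf (nat_lit 76) (nat_lit 9313951994) (nat_lit 0) (nat_lit 1676136469) (nat_lit 1748) (nat_lit 730471130) (nat_lit 549) (nat_lit 5) (nat_lit 548) (nat_lit 5) (nat_lit 571) (nat_lit 5) (nat_lit 436) (nat_lit 428) (nat_lit 276)) (XT.nd (nat_lit 78) (nat_lit 0) (nat_lit 0) (XT.lf (nat_lit 0) (nat_lit 99135700) (nat_lit 1748) (nat_lit 8121955517)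 (nat_lit 1824) (nat_lit 3609478291) (nat_lit 526) (nat_lit 5) (nat_lit 549) (nat_lit 5) (nat_lit 550) (nat_lit 5) (nat_lit 437) (nat_lit 428) (nat_lit 275)) (XT.lf (nat_lit 0) (nat_lit 949601832) (nat_lit 1748) (nat_lit 1988318519) (nat_lit 1824) (nat_lit 9004481738) (nat_lit 526) (nat_lit 5) (nat_lit 549) (nat_lit 5) (nat_lit 550) (nat_lit 5) (nat_lit 438) (nat_lit 428) (nat_lit 274))))) (XT.nd (nat_lit 234) (nat_lit 0) (nat_lit 76) (XT.nd (nat_lit 78) (nat_lit 0) (nat_lit 0) (XT.lf (nat_lit 0) (nat_lit 1848172913) (nat_lit 1748) (nat_lit 7756113028) (nat_lit 1824) (nat_lit 2451563467) (nat_lit 527) (nat_lit 5) (nat_lit 550) (nat_lit 5) (nat_lit 551) (nat_lit 5) (nat_lit 439) (nat_lit 428) (nat_lit 273)) (XT.nd (nat_lit 78) (nat_lit 0) (nat_lit 76) (XT.lf (nat_lit 0) (nat_lit 2784777207) (nat_lit 1748) (nat_lit 1458981154) (nat_lit 1824) (nat_lit 7927406078) (nat_lit 527) (nat_lit 5) (nat_lit 550) (nat_lit 5) (nat_lit 551) (nat_lit 5)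 (nat_lit 440) (nat_lit 428) (nat_lit 272)) (XT.lf (nat_lit 0) (nat_lit 3768331607) (nat_lit 1748) (nat_lit 7275096334) (nat_lit 1824) (nat_lit 1244793468) (nat_lit 528) (nat_lit 5) (nat_lit 551) (nat_lit 5) (nat_lit 552) (nat_lit 5) (nat_lit 441) (nat_lit 428) (nat_lit 271)))) (XT.nd (nat_lit 156) (nat_lit 0) (nat_lit 76) (XT.nd (nat_lit 78) (nat_lit 0) (nat_lit 0) (XT.lf (nat_lit 0) (nat_lit 4797160297) (nat_lit 1748) (nat_lit 809832904) (nat_lit 1824) (nat_lit 6800114254) (nat_lit 528) (nat_lit 5) (nat_lit 551) (nat_lit 5) (nat_lit 552) (nat_lit 5) (nat_lit 442) (nat_lit 428) (nat_lit 270)) (XT.lf (nat_lit 76) (nat_lit 5852978759) (nat_lit 0) (nat_lit 19473980) (nat_lit 1824) (nat_lit 6655400741) (nat_lit 529) (nat_lit 5) (nat_lit 528) (nat_lit 5) (nat_lit 552) (nat_lit 5) (nat_lit 443) (nat_lit 428) (nat_lit 269))) (XT.nd (nat_lit 78) (nat_lit 0) (nat_lit 0) (XT.lf (nat_lit 0) (nat_lit 6999689277) (nat_lit 1748) (nat_lit 36519572)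 (nat_lit 1824) (nat_lit 5614196808) (nat_lit 529) (nat_lit 5) (nat_lit 552) (nat_lit 5) (nat_lit 553) (nat_lit 5) (nat_lit 444) (nat_lit 428) (nat_lit 268)) (XT.lf (nat_lit 76) (nat_lit 6815303724) (nat_lit 0) (nat_lit 1366869628) (nat_lit 1824) (nat_lit 4592581472) (nat_lit 530) (nat_lit 5) (nat_lit 529) (nat_lit 5) (nat_lit 553) (nat_lit 5) (nat_lit 445) (nat_lit 428) (nat_lit 267))))))))
noncomputable def xc119 : XT := (XT.nd (nat_lit 58422) (nat_lit 0) (nat_lit 3420) (XT.nd (nat_lit 1014) (nat_lit 4408) (nat_lit 0) (XT.nd (nat_lit 468) (nat_lit 3724) (nat_lit 0) (XT.nd (nat_lit 234) (nat_lit 1748) (nat_lit 0) (XT.nd (nat_lit 78) (nat_lit 0) (nat_lit 0) (XT.lf (nat_lit 76) (nat_lit 877157037) (nat_lit 0) (nat_lit 8534280147) (nat_lit 1824) (nat_lit 3489691188) (nat_lit 531) (nat_lit 5) (nat_lit 530) (nat_lit 5) (nat_lit 554) (nat_lit 5) (nat_lit 446) (nat_lit 428) (nat_lit 266)) (XT.nd (nat_lit 78) (nat_lit 0) (nat_lit 76) (XT.lf (nat_lit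 76) (nat_lit 7913417210) (nat_lit 0) (nat_lit 2789539059) (nat_lit 1824) (nat_lit 2326319722) (nat_lit 531) (nat_lit 5) (nat_lit 530) (nat_lit 5) (nat_lit 554) (nat_lit 5) (nat_lit 447) (nat_lit 428) (nat_lit 265)) (XT.lf (nat_lit 76) (nat_lit 1926998047) (nat_lit 0) (nat_lit 10114677041) (nat_lit 1824) (nat_lit 1117884088) (nat_lit 532) (nat_lit 5) (nat_lit 531) (nat_lit 5) (nat_lit 555) (nat_lit 5) (nat_lit 448) (nat_lit 428) (nat_lit 264)))) (XT.nd (nat_lit 78) (nat_lit 0) (nat_lit 76) (XT.lf (nat_lit 0) (nat_lit 155260194) (nat_lit 1824) (nat_lit 4139994744) (nat_lit 1900) (nat_lit 8996337300) (nat_lit 507) (nat_lit 5) (nat_lit 531) (nat_lit 5) (nat_lit 532) (nat_lit 5) (nat_lit 449) (nat_lit 428) (nat_lit 263)) (XT.nd (nat_lit 78) (nat_lit 0) (nat_lit 0) (XT.lf (nat_lit 0) (nat_lit 1459242234) (nat_lit 1824) (nat_lit 10317519983) (nat_lit 1900) (nat_lit 1648949093) (nat_lit 508) (nat_lit 5) (nat_lit 532) (nat_lit 5) (nat_lit 533)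 (nat_lit 5) (nat_lit 450) (nat_lit 428) (nat_lit 262)) (XT.lf (nat_lit 0) (nat_lit 2835111803) (nat_lit 1824) (nat_lit 3041967657) (nat_lit 1900) (nat_lit 7684517145) (nat_lit 508) (nat_lit 5) (nat_lit 532) (nat_lit 5) (nat_lit 533) (nat_lit 5) (nat_lit 451) (nat_lit 428) (nat_lit 261))))) (XT.nd (nat_lit 234) (nat_lit 2052) (nat_lit 0) (XT.nd (nat_lit 78) (nat_lit 1824) (nat_lit 0) (XT.lf (nat_lit 0) (nat_lit 4257970928) (nat_lit 1824) (nat_lit 9272438159) (nat_lit 76) (nat_lit 169401076) (nat_lit 509) (nat_lit 5) (nat_lit 533) (nat_lit 5) (nat_lit 510) (nat_lit 5) (nat_lit 452) (nat_lit 428) (nat_lit 260)) (XT.nd (nat_lit 78) (nat_lit 1824) (nat_lit 0) (XT.lf (nat_lit 0) (nat_lit 5758520096) (nat_lit 1824) (nat_lit 1800929015) (nat_lit 76) (nat_lit 6280354224) (nat_lit 509) (nat_lit 5) (nat_lit 533) (nat_lit 5) (nat_lit 510) (nat_lit 5) (nat_lit 453) (nat_lit 428) (nat_lit 259)) (XT.lf (nat_lit 0) (nat_lit 5888587076) (nat_lit 1824)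 (nat_lit 1428689915) (nat_lit 1900) (nat_lit 6664755444) (nat_lit 485) (nat_lit 5) (nat_lit 509) (nat_lit 5) (nat_lit 510) (nat_lit 5) (nat_lit 454) (nat_lit 428) (nat_lit 258)))) (XT.nd (nat_lit 156) (nat_lit 912) (nat_lit 0) (XT.nd (nat_lit 78) (nat_lit 1140) (nat_lit 0) (XT.lf (nat_lit 0) (nat_lit 8940812825) (nat_lit 1900) (nat_lit 410766459) (nat_lit 76) (nat_lit 4774854757) (nat_lit 485) (nat_lit 5) (nat_lit 510) (nat_lit 5) (nat_lit 486) (nat_lit 5) (nat_lit 455) (nat_lit 428) (nat_lit 257)) (XT.lf (nat_lit 0) (nat_lit 7505916017) (nat_lit 1140) (nat_lit 3139405651) (nat_lit 1216) (nat_lit 3627431966) (nat_lit 470) (nat_lit 5) (nat_lit 485) (nat_lit 5) (nat_lit 486) (nat_lit 5) (nat_lit 456) (nat_lit 428) (nat_lit 256))) (XT.nd (nat_lit 78) (nat_lit 0) (nat_lit 0) (XT.lf (nat_lit 0) (nat_lit 1150093306) (nat_lit 912) (nat_lit 11255274553) (nat_lit 988) (nat_lit 2016202816) (nat_lit 458) (nat_lit 5) (nat_lit 470) (nat_lit 5) (nat_lit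 471) (nat_lit 5) (nat_lit 457) (nat_lit 428) (nat_lit 255)) (XT.lf (nat_lit 0) (nat_lit 9287309050) (nat_lit 912) (nat_lit 4969947841) (nat_lit 988) (nat_lit 314974329) (nat_lit 458) (nat_lit 5) (nat_lit 470) (nat_lit 5) (nat_lit 471) (nat_lit 5) (nat_lit 458) (nat_lit 428) (nat_lit 254)))))) (XT.nd (nat_lit 468) (nat_lit 836) (nat_lit 0) (XT.nd (nat_lit 234) (nat_lit 1748) (nat_lit 0) (XT.nd (nat_lit 78) (nat_lit 836) (nat_lit 0) (XT.lf (nat_lit 0) (nat_lit 1420606593) (nat_lit 988) (nat_lit 11853812558) (nat_lit 76) (nat_lit 1450922293) (nat_lit 445) (nat_lit 5) (nat_lit 458) (nat_lit 5) (nat_lit 446) (nat_lit 5) (nat_lit 459) (nat_lit 428) (nat_lit 253)) (XT.nd (nat_lit 78) (nat_lit 836) (nat_lit 0) (XT.lf (nat_lit 0) (nat_lit 3246131119) (nat_lit 988) (nat_lit 3662087234) (nat_lit 76) (nat_lit 7972064891) (nat_lit 445) (nat_lit 5) (nat_lit 458) (nat_lit 5) (nat_lit 446) (nat_lit 5) (nat_lit 460) (nat_lit 428) (nat_lit 252)) (XT.lf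 (nat_lit 0) (nat_lit 4747108463) (nat_lit 836) (nat_lit 382891316) (nat_lit 912) (nat_lit 9907887429) (nat_lit 434) (nat_lit 5) (nat_lit 445) (nat_lit 5) (nat_lit 446) (nat_lit 5) (nat_lit 461) (nat_lit 428) (nat_lit 251)))) (XT.nd (nat_lit 78) (nat_lit 1748) (nat_lit 0) (XT.lf (nat_lit 0) (nat_lit 7108146022) (nat_lit 912) (nat_lit 1873659850) (nat_lit 76) (nat_lit 6215705374) (nat_lit 434) (nat_lit 5) (nat_lit 446) (nat_lit 5) (nat_lit 435) (nat_lit 5) (nat_lit 462) (nat_lit 428) (nat_lit 250)) (XT.nd (nat_lit 78) (nat_lit 836) (nat_lit 0) (XT.lf (nat_lit 0) (nat_lit 6789739992) (nat_lit 912) (nat_lit 2374043052) (nat_lit 988) (nat_lit 6195786165) (nat_lit 422) (nat_lit 5) (nat_lit 434) (nat_lit 5) (nat_lit 435) (nat_lit 5) (nat_lit 463) (nat_lit 428) (nat_lit 249)) (XT.lf (nat_lit 0) (nat_lit 91266594) (nat_lit 836) (nat_lit 11202285591) (nat_lit 912) (nat_lit 4230655758) (nat_lit 411) (nat_lit 5) (nat_lit 422) (nat_lit 5) (nat_lit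 423) (nat_lit 5) (nat_lit 464) (nat_lit 428) (nat_lit 248))))) (XT.nd (nat_lit 56628) (nat_lit 0) (nat_lit 11020) (XT.nd (nat_lit 78) (nat_lit 836) (nat_lit 0) (XT.lf (nat_lit 0) (nat_lit 9017186826) (nat_lit 836) (nat_lit 4513392904) (nat_lit 912) (nat_lit 2160266461) (nat_lit 411) (nat_lit 5) (nat_lit 422) (nat_lit 5) (nat_lit 423) (nat_lit 5) (nat_lit 465) (nat_lit 428) (nat_lit 247)) (XT.nd (nat_lit 56472) (nat_lit 0) (nat_lit 11020) (XT.lf (nat_lit 0) (nat_lit 2266917607) (nat_lit 836) (nat_lit 13566843047) (nat_lit 912) (nat_lit 26628293) (nat_lit 400) (nat_lit 5) (nat_lit 411) (nat_lit 5) (nat_lit 412) (nat_lit 5) (nat_lit 466) (nat_lit 428) (nat_lit 246)) (XT.lf (nat_lit 0) (nat_lit 3054710861) (nat_lit 1748) (nat_lit 1246213220) (nat_lit 1748) (nat_lit 1246213220) (nat_lit 545) (nat_lit 3) (nat_lit 568) (nat_lit 3) (nat_lit 568) (nat_lit 5) (nat_lit 429) (nat_lit 429) (nat_lit 282)))) (XT.nd (nat_lit 156) (nat_lit 0) (nat_lit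 76) (XT.nd (nat_lit 78) (nat_lit 0) (nat_lit 76) (XT.lf (nat_lit 76) (nat_lit 3095306361) (nat_lit 0) (nat_lit 3659211444) (nat_lit 1748) (nat_lit 4439019508) (nat_lit 546) (nat_lit 5) (nat_lit 545) (nat_lit 3) (nat_lit 568) (nat_lit 5) (nat_lit 430) (nat_lit 429) (nat_lit 281)) (XT.lf (nat_lit 0) (nat_lit 7423532400) (nat_lit 1672) (nat_lit 2482944313) (nat_lit 1748) (nat_lit 1388088231) (nat_lit 546) (nat_lit 5) (nat_lit 568) (nat_lit 5) (nat_lit 569) (nat_lit 5) (nat_lit 431) (nat_lit 429) (nat_lit 280))) (XT.nd (nat_lit 78) (nat_lit 0) (nat_lit 76) (XT.lf (nat_lit 76) (nat_lit 3255277605) (nat_lit 0) (nat_lit 4881514043) (nat_lit 1748) (nat_lit 3260204193) (nat_lit 547) (nat_lit 5) (nat_lit 546) (nat_lit 5) (nat_lit 569) (nat_lit 5) (nat_lit 432) (nat_lit 429) (nat_lit 279)) (XT.lf (nat_lit 0) (nat_lit 8868443944) (nat_lit 1672) (nat_lit 2369022255) (nat_lit 1748) (nat_lit 263926599) (nat_lit 547) (nat_lit 5) (nat_lit 569) (nat_lit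 5) (nat_lit 570) (nat_lit 5) (nat_lit 433) (nat_lit 429) (nat_lit 278))))))) (XT.nd (nat_lit 1014) (nat_lit 6080) (nat_lit 0) (XT.nd (nat_lit 468) (nat_lit 0) (nat_lit 152) (XT.nd (nat_lit 234) (nat_lit 1672) (nat_lit 0) (XT.nd (nat_lit 78) (nat_lit 0) (nat_lit 0) (XT.lf (nat_lit 76) (nat_lit 3525083956) (nat_lit 0) (nat_lit 6130911188) (nat_lit 1748) (nat_lit 1951057233) (nat_lit 548) (nat_lit 5) (nat_lit 547) (nat_lit 5) (nat_lit 570) (nat_lit 5) (nat_lit 434) (nat_lit 429) (nat_lit 277)) (XT.nd (nat_lit 78) (nat_lit 0) (nat_lit 76) (XT.lf (nat_lit 76) (nat_lit 9561289410) (nat_lit 0) (nat_lit 900178365) (nat_lit 1748) (nat_lit 1253313965) (nat_lit 548) (nat_lit 5) (nat_lit 547) (nat_lit 5) (nat_lit 570) (nat_lit 5) (nat_lit 435) (nat_lit 429) (nat_lit 276)) (XT.lf (nat_lit 76) (nat_lit 3907963810) (nat_lit 0) (nat_lit 7415834497) (nat_lit 1748) (nat_lit 500052414) (nat_lit 549) (nat_lit 5) (nat_lit 548) (nat_lit 5) (nat_lit 571) (nat_lit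 5) (nat_lit 436) (nat_lit 429) (nat_lit 275)))) (XT.nd (nat_lit 78) (nat_lit 0) (nat_lit 76) (XT.lf (nat_lit 0) (nat_lit 271967180) (nat_lit 1748) (nat_lit 1830941625) (nat_lit 1824) (nat_lit 9832013214) (nat_lit 525) (nat_lit 5) (nat_lit 548) (nat_lit 5) (nat_lit 549) (nat_lit 5) (nat_lit 437) (nat_lit 429) (nat_lit 274)) (XT.nd (nat_lit 78) (nat_lit 0) (nat_lit 0) (XT.lf (nat_lit 0) (nat_lit 1090190712) (nat_lit 1748) (nat_lit 7647230488) (nat_lit 1824) (nat_lit 3309978252) (nat_lit 526) (nat_lit 5) (nat_lit 549) (nat_lit 5) (nat_lit 550) (nat_lit 5) (nat_lit 438) (nat_lit 429) (nat_lit 273)) (XT.lf (nat_lit 0) (nat_lit 1938272592) (nat_lit 1748) (nat_lit 1403414165) (nat_lit 1824) (nat_lit 8820169799) (nat_lit 526) (nat_lit 5) (nat_lit 549) (nat_lit 5) (nat_lit 550) (nat_lit 5) (nat_lit 439) (nat_lit 429) (nat_lit 272))))) (XT.nd (nat_lit 234) (nat_lit 0) (nat_lit 76) (XT.nd (nat_lit 78) (nat_lit 0) (nat_lit 0) (XT.lf (nat_lit 0) (nat_lit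 2837661465) (nat_lit 1748) (nat_lit 7269410933) (nat_lit 1824) (nat_lit 2170843497) (nat_lit 527) (nat_lit 5) (nat_lit 550) (nat_lit 5) (nat_lit 551) (nat_lit 5) (nat_lit 440) (nat_lit 429) (nat_lit 271)) (XT.nd (nat_lit 78) (nat_lit 0) (nat_lit 76) (XT.lf (nat_lit 0) (nat_lit 3774320882) (nat_lit 1748) (nat_lit 858921213) (nat_lit 1824) (nat_lit 7762668670) (nat_lit 527) (nat_lit 5) (nat_lit 550) (nat_lit 5) (nat_lit 551) (nat_lit 5) (nat_lit 441) (nat_lit 429) (nat_lit 270)) (XT.lf (nat_lit 0) (nat_lit 4761382121) (nat_lit 1748) (nat_lit 6775194447) (nat_lit 1824) (nat_lit 979055592) (nat_lit 528) (nat_lit 5) (nat_lit 551) (nat_lit 5) (nat_lit 552) (nat_lit 5) (nat_lit 442) (nat_lit 429) (nat_lit 269)))) (XT.nd (nat_lit 156) (nat_lit 0) (nat_lit 76) (XT.nd (nat_lit 78) (nat_lit 0) (nat_lit 0) (XT.lf (nat_lit 0) (nat_lit 5792793583) (nat_lit 1748) (nat_lit 193280726) (nat_lit 1824) (nat_lit 6651181494) (nat_lit 528) (nat_lit 5) (nat_lit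 551) (nat_lit 5) (nat_lit 552) (nat_lit 5) (nat_lit 443) (nat_lit 429) (nat_lit 268)) (XT.lf (nat_lit 76) (nat_lit 6598624349) (nat_lit 0) (nat_lit 277407739) (nat_lit 1824) (nat_lit 5884655854) (nat_lit 529) (nat_lit 5) (nat_lit 528) (nat_lit 5) (nat_lit 552) (nat_lit 5) (nat_lit 444) (nat_lit 429) (nat_lit 267))) (XT.nd (nat_lit 78) (nat_lit 0) (nat_lit 0) (XT.lf (nat_lit 76) (nat_lit 605972741) (nat_lit 0) (nat_lit 7404760529) (nat_lit 1824) (nat_lit 4875259497) (nat_lit 530) (nat_lit 5) (nat_lit 529) (nat_lit 5) (nat_lit 553) (nat_lit 5) (nat_lit 445) (nat_lit 429) (nat_lit 266)) (XT.lf (nat_lit 76) (nat_lit 7582705620) (nat_lit 0) (nat_lit 1617322251) (nat_lit 1824) (nat_lit 3813137829) (nat_lit 530) (nat_lit 5) (nat_lit 529) (nat_lit 5) (nat_lit 553) (nat_lit 5) (nat_lit 446) (nat_lit 429) (nat_lit 265)))))) (XT.nd (nat_lit 546) (nat_lit 4712) (nat_lit 0) (XT.nd (nat_lit 234) (nat_lit 1748) (nat_lit 0) (XT.nd (nat_lit 78) (nat_lit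 0) (nat_lit 0) (XT.lf (nat_lit 76) (nat_lit 1540054960) (nat_lit 0) (nat_lit 8899842647) (nat_lit 1824) (nat_lit 2702448699) (nat_lit 531) (nat_lit 5) (nat_lit 530) (nat_lit 5) (nat_lit 554) (nat_lit 5) (nat_lit 447) (nat_lit 429) (nat_lit 264)) (XT.nd (nat_lit 78) (nat_lit 0) (nat_lit 76) (XT.lf (nat_lit 76) (nat_lit 8704386321) (nat_lit 0) (nat_lit 3036385621) (nat_lit 1824) (nat_lit 1532614438) (nat_lit 531) (nat_lit 5) (nat_lit 530) (nat_lit 5) (nat_lit 554) (nat_lit 5) (nat_lit 448) (nat_lit 429) (nat_lit 263)) (XT.lf (nat_lit 76) (nat_lit 2611675311) (nat_lit 0) (nat_lit 10481416751) (nat_lit 1824) (nat_lit 313446628) (nat_lit 532) (nat_lit 5) (nat_lit 531) (nat_lit 5) (nat_lit 555) (nat_lit 5) (nat_lit 449) (nat_lit 429) (nat_lit 262)))) (XT.nd (nat_lit 156) (nat_lit 0) (nat_lit 76) (XT.nd (nat_lit 78) (nat_lit 0) (nat_lit 76) (XT.lf (nat_lit 0) (nat_lit 958317922) (nat_lit 1824) (nat_lit 3578695746) (nat_lit 1900) (nat_lit 9004411363)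 (nat_lit 507) (nat_lit 5) (nat_lit 531) (nat_lit 5) (nat_lit 532) (nat_lit 5) (nat_lit 450) (nat_lit 429) (nat_lit 261)) (XT.lf (nat_lit 0) (nat_lit 2275884112) (nat_lit 1824) (nat_lit 9867276000) (nat_lit 1900) (nat_lit 1535316282) (nat_lit 508) (nat_lit 5) (nat_lit 532) (nat_lit 5) (nat_lit 533) (nat_lit 5) (nat_lit 451) (nat_lit 429) (nat_lit 260))) (XT.nd (nat_lit 78) (nat_lit 0) (nat_lit 76) (XT.lf (nat_lit 0) (nat_lit 3663830739) (nat_lit 1824) (nat_lit 2459087027) (nat_lit 1900) (nat_lit 7694470437) (nat_lit 508) (nat_lit 5) (nat_lit 532) (nat_lit 5) (nat_lit 533) (nat_lit 5) (nat_lit 452) (nat_lit 429) (nat_lit 259)) (XT.lf (nat_lit 0) (nat_lit 5103372267) (nat_lit 1824) (nat_lit 8802392160) (nat_lit 76) (nat_lit 52837101) (nat_lit 509) (nat_lit 5) (nat_lit 533) (nat_lit 5) (nat_lit 510) (nat_lit 5) (nat_lit 453) (nat_lit 429) (nat_lit 258))))) (XT.nd (nat_lit 234) (nat_lit 1900) (nat_lit 0) (XT.nd (nat_lit 78) (nat_lit 2964)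 (nat_lit 0) (XT.lf (nat_lit 0) (nat_lit 6619025714) (nat_lit 1824) (nat_lit 1194305671) (nat_lit 76) (nat_lit 6288361312) (nat_lit 509) (nat_lit 5) (nat_lit 533) (nat_lit 5) (nat_lit 510) (nat_lit 5) (nat_lit 454) (nat_lit 429) (nat_lit 257)) (XT.nd (nat_lit 78) (nat_lit 1140) (nat_lit 0) (XT.lf (nat_lit 0) (nat_lit 6644772834) (nat_lit 1824) (nat_lit 1553715504) (nat_lit 1900) (nat_lit 6048487429) (nat_lit 485) (nat_lit 5) (nat_lit 509) (nat_lit 5) (nat_lit 510) (nat_lit 5) (nat_lit 455) (nat_lit 429) (nat_lit 256)) (XT.lf (nat_lit 0) (nat_lit 224886820) (nat_lit 1140) (nat_lit 9616045100) (nat_lit 1216) (nat_lit 4553604746) (nat_lit 470) (nat_lit 5) (nat_lit 485) (nat_lit 5) (nat_lit 486) (nat_lit 5) (nat_lit 456) (nat_lit 429) (nat_lit 255)))) (XT.nd (nat_lit 156) (nat_lit 988) (nat_lit 0) (XT.nd (nat_lit 78) (nat_lit 912) (nat_lit 0) (XT.lf (nat_lit 0) (nat_lit 8292736942) (nat_lit 1140) (nat_lit 3275353216) (nat_lit 1216) (nat_lit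 2975921308) (nat_lit 470) (nat_lit 5) (nat_lit 485) (nat_lit 5) (nat_lit 486) (nat_lit 5) (nat_lit 457) (nat_lit 429) (nat_lit 254)) (XT.lf (nat_lit 0) (nat_lit 1820184657) (nat_lit 912) (nat_lit 11532969401) (nat_lit 988) (nat_lit 1342854455) (nat_lit 458) (nat_lit 5) (nat_lit 470) (nat_lit 5) (nat_lit 471) (nat_lit 5) (nat_lit 458) (nat_lit 429) (nat_lit 253))) (XT.nd (nat_lit 78) (nat_lit 912) (nat_lit 0) (XT.lf (nat_lit 0) (nat_lit 373442175) (nat_lit 988) (nat_lit 4744956821) (nat_lit 76) (nat_lit 9731508518) (nat_lit 457) (nat_lit 5) (nat_lit 470) (nat_lit 5) (nat_lit 458) (nat_lit 5) (nat_lit 459) (nat_lit 429) (nat_lit 252)) (XT.lf (nat_lit 0) (nat_lit 2129861731) (nat_lit 988) (nat_lit 11437651519) (nat_lit 76) (nat_lit 1438718162) (nat_lit 445) (nat_lit 5) (nat_lit 458) (nat_lit 5) (nat_lit 446) (nat_lit 5) (nat_lit 460) (nat_lit 429) (nat_lit 251))))))))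
noncomputable def xc120 : XT := (XT.nd (nat_lit 58500) (nat_lit 0) (nat_lit 836) (XT.nd (nat_lit 57486) (nat_lit 0) (nat_lit 8664) (XT.nd (nat_lit 56940) (nat_lit 0) (nat_lit 10184) (XT.nd (nat_lit 234) (nat_lit 1748) (nat_lit 0) (XT.nd (nat_lit 78) (nat_lit 836) (nat_lit 0) (XT.lf (nat_lit 0) (nat_lit 3978546885) (nat_lit 988) (nat_lit 3094900264) (nat_lit 76) (nat_lit 8091091898) (nat_lit 445) (nat_lit 5) (nat_lit 458) (nat_lit 5) (nat_lit 446) (nat_lit 5) (nat_lit 461) (nat_lit 429) (nat_lit 250)) (XT.nd (nat_lit 78) (nat_lit 0) (nat_lit 0) (XT.lf (nat_lit 0) (nat_lit 5478266001) (nat_lit 836) (nat_lit 412869549) (nat_lit 912) (nat_lit 9434338687) (nat_lit 434) (nat_lit 5) (nat_lit 445) (nat_lit 5) (nat_lit 446) (nat_lit 5) (nat_lit 462) (nat_lit 429) (nat_lit 249)) (XT.lf (nat_lit 0) (nat_lit 7895790174) (nat_lit 912) (nat_lit 1274337946) (nat_lit 76) (nat_lit 6318423727) (nat_lit 434) (nat_lit 5) (nat_lit 446) (nat_lit 5) (nat_lit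 435) (nat_lit 5) (nat_lit 463) (nat_lit 429) (nat_lit 248)))) (XT.nd (nat_lit 78) (nat_lit 836) (nat_lit 0) (XT.lf (nat_lit 0) (nat_lit 7558140452) (nat_lit 912) (nat_lit 2425850285) (nat_lit 988) (nat_lit 5670031215) (nat_lit 422) (nat_lit 5) (nat_lit 434) (nat_lit 5) (nat_lit 435) (nat_lit 5) (nat_lit 464) (nat_lit 429) (nat_lit 247)) (XT.nd (nat_lit 78) (nat_lit 0) (nat_lit 0) (XT.lf (nat_lit 0) (nat_lit 734218445) (nat_lit 836) (nat_lit 11413783032) (nat_lit 912) (nat_lit 3674119059) (nat_lit 411) (nat_lit 5) (nat_lit 422) (nat_lit 5) (nat_lit 423) (nat_lit 5) (nat_lit 465) (nat_lit 429) (nat_lit 246)) (XT.lf (nat_lit 0) (nat_lit 9826085973) (nat_lit 836) (nat_lit 4591358537) (nat_lit 912) (nat_lit 1574893541) (nat_lit 411) (nat_lit 5) (nat_lit 422) (nat_lit 5) (nat_lit 423) (nat_lit 5) (nat_lit 466) (nat_lit 429) (nat_lit 245))))) (XT.nd (nat_lit 234) (nat_lit 0) (nat_lit 76) (XT.nd (nat_lit 78) (nat_lit 0) (nat_lit 0) (XT.lf (nat_lit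 0) (nat_lit 3676048916) (nat_lit 1748) (nat_lit 985413127) (nat_lit 1748) (nat_lit 985413127) (nat_lit 545) (nat_lit 3) (nat_lit 568) (nat_lit 3) (nat_lit 568) (nat_lit 5) (nat_lit 430) (nat_lit 430) (nat_lit 280)) (XT.nd (nat_lit 78) (nat_lit 0) (nat_lit 76) (XT.lf (nat_lit 76) (nat_lit 3724901672) (nat_lit 0) (nat_lit 4266909633) (nat_lit 1748) (nat_lit 3403552692) (nat_lit 546) (nat_lit 5) (nat_lit 545) (nat_lit 3) (nat_lit 568) (nat_lit 5) (nat_lit 431) (nat_lit 430) (nat_lit 279)) (XT.lf (nat_lit 0) (nat_lit 8649191994) (nat_lit 1672) (nat_lit 1951030979) (nat_lit 1748) (nat_lit 898689492) (nat_lit 546) (nat_lit 5) (nat_lit 568) (nat_lit 5) (nat_lit 569) (nat_lit 5) (nat_lit 432) (nat_lit 430) (nat_lit 278)))) (XT.nd (nat_lit 156) (nat_lit 0) (nat_lit 76) (XT.nd (nat_lit 78) (nat_lit 0) (nat_lit 0) (XT.lf (nat_lit 76) (nat_lit 3898129245) (nat_lit 0) (nat_lit 5461216940) (nat_lit 1748) (nat_lit 2244393199) (nat_lit 547) (nat_lit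 5) (nat_lit 546) (nat_lit 5) (nat_lit 569) (nat_lit 5) (nat_lit 433) (nat_lit 430) (nat_lit 277)) (XT.lf (nat_lit 76) (nat_lit 9883242195) (nat_lit 0) (nat_lit 199837485) (nat_lit 1748) (nat_lit 1627595636) (nat_lit 547) (nat_lit 5) (nat_lit 546) (nat_lit 5) (nat_lit 569) (nat_lit 5) (nat_lit 434) (nat_lit 430) (nat_lit 276))) (XT.nd (nat_lit 78) (nat_lit 0) (nat_lit 0) (XT.lf (nat_lit 76) (nat_lit 4181969355) (nat_lit 0) (nat_lit 6686609140) (nat_lit 1748) (nat_lit 950225661) (nat_lit 548) (nat_lit 5) (nat_lit 547) (nat_lit 5) (nat_lit 570) (nat_lit 5) (nat_lit 435) (nat_lit 430) (nat_lit 275)) (XT.lf (nat_lit 76) (nat_lit 10327401199) (nat_lit 0) (nat_lit 1342769901) (nat_lit 1748) (nat_lit 258916796) (nat_lit 548) (nat_lit 5) (nat_lit 547) (nat_lit 5) (nat_lit 570) (nat_lit 5) (nat_lit 436) (nat_lit 430) (nat_lit 274)))))) (XT.nd (nat_lit 468) (nat_lit 0) (nat_lit 228) (XT.nd (nat_lit 234) (nat_lit 0) (nat_lit 76) (XT.nd (nat_lit 78)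 (nat_lit 0) (nat_lit 0) (XT.lf (nat_lit 0) (nat_lit 484161341) (nat_lit 1748) (nat_lit 7464068957) (nat_lit 1824) (nat_lit 4092413163) (nat_lit 525) (nat_lit 5) (nat_lit 548) (nat_lit 5) (nat_lit 549) (nat_lit 5) (nat_lit 437) (nat_lit 430) (nat_lit 273)) (XT.nd (nat_lit 78) (nat_lit 0) (nat_lit 76) (XT.lf (nat_lit 0) (nat_lit 1245568641) (nat_lit 1748) (nat_lit 1272634881) (nat_lit 1824) (nat_lit 9636053695) (nat_lit 525) (nat_lit 5) (nat_lit 548) (nat_lit 5) (nat_lit 549) (nat_lit 5) (nat_lit 438) (nat_lit 430) (nat_lit 272)) (XT.lf (nat_lit 0) (nat_lit 2062659941) (nat_lit 1748) (nat_lit 7187752818) (nat_lit 1824) (nat_lit 3018921373) (nat_lit 526) (nat_lit 5) (nat_lit 549) (nat_lit 5) (nat_lit 550) (nat_lit 5) (nat_lit 439) (nat_lit 430) (nat_lit 271)))) (XT.nd (nat_lit 78) (nat_lit 0) (nat_lit 76) (XT.lf (nat_lit 0) (nat_lit 2909062961) (nat_lit 1748) (nat_lit 831068449) (nat_lit 1824) (nat_lit 8646321779) (nat_lit 526) (nat_lit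 5) (nat_lit 549) (nat_lit 5) (nat_lit 550) (nat_lit 5) (nat_lit 440) (nat_lit 430) (nat_lit 270)) (XT.nd (nat_lit 78) (nat_lit 0) (nat_lit 0) (XT.lf (nat_lit 0) (nat_lit 3809952077) (nat_lit 1748) (nat_lit 6797897618) (nat_lit 1824) (nat_lit 1897313770) (nat_lit 527) (nat_lit 5) (nat_lit 550) (nat_lit 5) (nat_lit 551) (nat_lit 5) (nat_lit 441) (nat_lit 430) (nat_lit 269)) (XT.lf (nat_lit 0) (nat_lit 4747392969) (nat_lit 1748) (nat_lit 271294213) (nat_lit 1824) (nat_lit 7607190086) (nat_lit 527) (nat_lit 5) (nat_lit 550) (nat_lit 5) (nat_lit 551) (nat_lit 5) (nat_lit 442) (nat_lit 430) (nat_lit 268))))) (XT.nd (nat_lit 234) (nat_lit 0) (nat_lit 76) (XT.nd (nat_lit 78) (nat_lit 0) (nat_lit 0) (XT.lf (nat_lit 0) (nat_lit 5738658861) (nat_lit 1748) (nat_lit 6290356340) (nat_lit 1824) (nat_lit 719288620) (nat_lit 528) (nat_lit 5) (nat_lit 551) (nat_lit 5) (nat_lit 552) (nat_lit 5) (nat_lit 443) (nat_lit 430) (nat_lit 267)) (XT.nd (nat_lit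 78) (nat_lit 0) (nat_lit 0) (XT.lf (nat_lit 76) (nat_lit 416494487) (nat_lit 0) (nat_lit 6359613143) (nat_lit 1824) (nat_lit 6096544125) (nat_lit 529) (nat_lit 5) (nat_lit 528) (nat_lit 5) (nat_lit 552) (nat_lit 5) (nat_lit 444) (nat_lit 430) (nat_lit 266)) (XT.lf (nat_lit 76) (nat_lit 7334774090) (nat_lit 0) (nat_lit 530499416) (nat_lit 1824) (nat_lit 5133593780) (nat_lit 529) (nat_lit 5) (nat_lit 528) (nat_lit 5) (nat_lit 552) (nat_lit 5) (nat_lit 445) (nat_lit 430) (nat_lit 265)))) (XT.nd (nat_lit 156) (nat_lit 0) (nat_lit 76) (XT.nd (nat_lit 78) (nat_lit 0) (nat_lit 0) (XT.lf (nat_lit 76) (nat_lit 1236813589) (nat_lit 0) (nat_lit 7771596161) (nat_lit 1824) (nat_lit 4118553635) (nat_lit 530) (nat_lit 5) (nat_lit 529) (nat_lit 5) (nat_lit 553) (nat_lit 5) (nat_lit 446) (nat_lit 430) (nat_lit 264)) (XT.lf (nat_lit 76) (nat_lit 8340949334) (nat_lit 0) (nat_lit 1864120090) (nat_lit 1824) (nat_lit 3051938770) (nat_lit 530) (nat_lit 5) (nat_lit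 529) (nat_lit 5) (nat_lit 553) (nat_lit 5) (nat_lit 447) (nat_lit 430) (nat_lit 263))) (XT.nd (nat_lit 78) (nat_lit 0) (nat_lit 0) (XT.lf (nat_lit 76) (nat_lit 2191150928) (nat_lit 0) (nat_lit 9265149089) (nat_lit 1824) (nat_lit 1932741125) (nat_lit 531) (nat_lit 5) (nat_lit 530) (nat_lit 5) (nat_lit 554) (nat_lit 5) (nat_lit 448) (nat_lit 430) (nat_lit 262)) (XT.lf (nat_lit 76) (nat_lit 9486606272) (nat_lit 0) (nat_lit 3280750186) (nat_lit 1824) (nat_lit 755662268) (nat_lit 531) (nat_lit 5) (nat_lit 530) (nat_lit 5) (nat_lit 554) (nat_lit 5) (nat_lit 449) (nat_lit 430) (nat_lit 261))))))) (XT.nd (nat_lit 1014) (nat_lit 1748) (nat_lit 0) (XT.nd (nat_lit 468) (nat_lit 4712) (nat_lit 0) (XT.nd (nat_lit 234) (nat_lit 0) (nat_lit 76) (XT.nd (nat_lit 78) (nat_lit 0) (nat_lit 0) (XT.lf (nat_lit 0) (nat_lit 468744746) (nat_lit 1824) (nat_lit 10377215339) (nat_lit 1900) (nat_lit 2813065551) (nat_lit 507) (nat_lit 5) (nat_lit 531) (nat_lit 5)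 (nat_lit 532) (nat_lit 5) (nat_lit 450) (nat_lit 430) (nat_lit 260)) (XT.nd (nat_lit 78) (nat_lit 0) (nat_lit 76) (XT.lf (nat_lit 0) (nat_lit 1746373674) (nat_lit 1824) (nat_lit 3031181914) (nat_lit 1900) (nat_lit 9019320157) (nat_lit 507) (nat_lit 5) (nat_lit 531) (nat_lit 5) (nat_lit 532) (nat_lit 5) (nat_lit 451) (nat_lit 430) (nat_lit 259)) (XT.lf (nat_lit 0) (nat_lit 3078280913) (nat_lit 1824) (nat_lit 9433523498) (nat_lit 1900) (nat_lit 1425103930) (nat_lit 508) (nat_lit 5) (nat_lit 532) (nat_lit 5) (nat_lit 533) (nat_lit 5) (nat_lit 452) (nat_lit 430) (nat_lit 258)))) (XT.nd (nat_lit 78) (nat_lit 0) (nat_lit 0) (XT.lf (nat_lit 0) (nat_lit 4479145705) (nat_lit 1824) (nat_lit 1889545216) (nat_lit 1900) (nat_lit 7710204279) (nat_lit 508) (nat_lit 5) (nat_lit 532) (nat_lit 5) (nat_lit 533) (nat_lit 5) (nat_lit 453) (nat_lit 430) (nat_lit 257)) (XT.nd (nat_lit 78) (nat_lit 0) (nat_lit 76) (XT.lf (nat_lit 76) (nat_lit 5874348214) (nat_lit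 0) (nat_lit 62216248) (nat_lit 1900) (nat_lit 8286586602) (nat_lit 509) (nat_lit 5) (nat_lit 508) (nat_lit 5) (nat_lit 533) (nat_lit 5) (nat_lit 454) (nat_lit 430) (nat_lit 256)) (XT.lf (nat_lit 0) (nat_lit 7467799170) (nat_lit 1824) (nat_lit 600504430) (nat_lit 76) (nat_lit 6301095092) (nat_lit 509) (nat_lit 5) (nat_lit 533) (nat_lit 5) (nat_lit 510) (nat_lit 5) (nat_lit 455) (nat_lit 430) (nat_lit 255))))) (XT.nd (nat_lit 234) (nat_lit 1900) (nat_lit 0) (XT.nd (nat_lit 78) (nat_lit 1140) (nat_lit 0) (XT.lf (nat_lit 0) (nat_lit 7391291913) (nat_lit 1824) (nat_lit 1677496265) (nat_lit 1900) (nat_lit 5449000504) (nat_lit 485) (nat_lit 5) (nat_lit 509) (nat_lit 5) (nat_lit 510) (nat_lit 5) (nat_lit 456) (nat_lit 430) (nat_lit 254)) (XT.nd (nat_lit 78) (nat_lit 0) (nat_lit 0) (XT.lf (nat_lit 0) (nat_lit 853602796) (nat_lit 1140) (nat_lit 9880090955) (nat_lit 1216) (nat_lit 3934814784) (nat_lit 470) (nat_lit 5) (nat_lit 485) (nat_lit 5) (nat_lit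 486) (nat_lit 5) (nat_lit 457) (nat_lit 430) (nat_lit 253)) (XT.lf (nat_lit 0) (nat_lit 9070570348) (nat_lit 1140) (nat_lit 3411178861) (nat_lit 1216) (nat_lit 2339496541) (nat_lit 470) (nat_lit 5) (nat_lit 485) (nat_lit 5) (nat_lit 486) (nat_lit 5) (nat_lit 458) (nat_lit 430) (nat_lit 252)))) (XT.nd (nat_lit 156) (nat_lit 912) (nat_lit 0) (XT.nd (nat_lit 78) (nat_lit 76) (nat_lit 0) (XT.lf (nat_lit 0) (nat_lit 2478550561) (nat_lit 912) (nat_lit 11814176036) (nat_lit 988) (nat_lit 683751896) (nat_lit 458) (nat_lit 5) (nat_lit 470) (nat_lit 5) (nat_lit 471) (nat_lit 5) (nat_lit 459) (nat_lit 430) (nat_lit 251)) (XT.lf (nat_lit 0) (nat_lit 1044600394) (nat_lit 988) (nat_lit 4221269001) (nat_lit 76) (nat_lit 9867762481) (nat_lit 457) (nat_lit 5) (nat_lit 470) (nat_lit 5) (nat_lit 458) (nat_lit 5) (nat_lit 460) (nat_lit 430) (nat_lit 250))) (XT.nd (nat_lit 78) (nat_lit 0) (nat_lit 0) (XT.lf (nat_lit 0) (nat_lit 2826864009) (nat_lit 988) (nat_lit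 11038533260) (nat_lit 76) (nat_lit 1427870672) (nat_lit 445) (nat_lit 5) (nat_lit 458) (nat_lit 5) (nat_lit 446) (nat_lit 5) (nat_lit 461) (nat_lit 430) (nat_lit 249)) (XT.lf (nat_lit 0) (nat_lit 4699691394) (nat_lit 988) (nat_lit 2541238181) (nat_lit 76) (nat_lit 8214068781) (nat_lit 445) (nat_lit 5) (nat_lit 458) (nat_lit 5) (nat_lit 446) (nat_lit 5) (nat_lit 462) (nat_lit 430) (nat_lit 248)))))) (XT.nd (nat_lit 57096) (nat_lit 0) (nat_lit 7752) (XT.nd (nat_lit 56862) (nat_lit 0) (nat_lit 9348) (XT.nd (nat_lit 78) (nat_lit 912) (nat_lit 0) (XT.lf (nat_lit 0) (nat_lit 6199341672) (nat_lit 836) (nat_lit 442580617) (nat_lit 912) (nat_lit 8977402152) (nat_lit 434) (nat_lit 5) (nat_lit 445) (nat_lit 5) (nat_lit 446) (nat_lit 5) (nat_lit 463) (nat_lit 430) (nat_lit 247)) (XT.nd (nat_lit 78) (nat_lit 912) (nat_lit 0) (XT.lf (nat_lit 0) (nat_lit 8674122386) (nat_lit 912) (nat_lit 687757134) (nat_lit 76) (nat_lit 6424035036) (nat_lit 434) (nat_lit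 5) (nat_lit 446) (nat_lit 5) (nat_lit 435) (nat_lit 5) (nat_lit 464) (nat_lit 430) (nat_lit 246)) (XT.lf (nat_lit 0) (nat_lit 8317344072) (nat_lit 912) (nat_lit 2478525666) (nat_lit 988) (nat_lit 5158988670) (nat_lit 422) (nat_lit 5) (nat_lit 434) (nat_lit 5) (nat_lit 435) (nat_lit 5) (nat_lit 465) (nat_lit 430) (nat_lit 245)))) (XT.nd (nat_lit 78) (nat_lit 0) (nat_lit 0) (XT.lf (nat_lit 0) (nat_lit 4288058781) (nat_lit 1748) (nat_lit 730492058) (nat_lit 1748) (nat_lit 730492058) (nat_lit 545) (nat_lit 3) (nat_lit 568) (nat_lit 3) (nat_lit 568) (nat_lit 5) (nat_lit 431) (nat_lit 431) (nat_lit 278)) (XT.nd (nat_lit 78) (nat_lit 0) (nat_lit 76) (XT.lf (nat_lit 76) (nat_lit 4345044825) (nat_lit 0) (nat_lit 4866005957) (nat_lit 1748) (nat_lit 2391032429) (nat_lit 546) (nat_lit 5) (nat_lit 545) (nat_lit 3) (nat_lit 568) (nat_lit 5) (nat_lit 432) (nat_lit 431) (nat_lit 277)) (XT.lf (nat_lit 0) (nat_lit 9857536219) (nat_lit 1672) (nat_lit 1431062536)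 (nat_lit 1748) (nat_lit 419584751) (nat_lit 546) (nat_lit 5) (nat_lit 568) (nat_lit 5) (nat_lit 569) (nat_lit 5) (nat_lit 433) (nat_lit 431) (nat_lit 276))))) (XT.nd (nat_lit 234) (nat_lit 0) (nat_lit 0) (XT.nd (nat_lit 78) (nat_lit 1672) (nat_lit 0) (XT.lf (nat_lit 76) (nat_lit 4531403333) (nat_lit 0) (nat_lit 6033794427) (nat_lit 1748) (nat_lit 1250243118) (nat_lit 547) (nat_lit 5) (nat_lit 546) (nat_lit 5) (nat_lit 569) (nat_lit 5) (nat_lit 434) (nat_lit 431) (nat_lit 275)) (XT.nd (nat_lit 78) (nat_lit 1672) (nat_lit 0) (XT.lf (nat_lit 76) (nat_lit 10625330082) (nat_lit 0) (nat_lit 658102028) (nat_lit 1748) (nat_lit 641482897) (nat_lit 547) (nat_lit 5) (nat_lit 546) (nat_lit 5) (nat_lit 569) (nat_lit 5) (nat_lit 435) (nat_lit 431) (nat_lit 274)) (XT.lf (nat_lit 0) (nat_lit 29847141) (nat_lit 1748) (nat_lit 7206556606) (nat_lit 1824) (nat_lit 4799175036) (nat_lit 524) (nat_lit 5) (nat_lit 547) (nat_lit 5) (nat_lit 548) (nat_lit 5) (nat_lit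 436) (nat_lit 431) (nat_lit 273)))) (XT.nd (nat_lit 156) (nat_lit 0) (nat_lit 76) (XT.nd (nat_lit 78) (nat_lit 0) (nat_lit 76) (XT.lf (nat_lit 0) (nat_lit 706393707) (nat_lit 1748) (nat_lit 1066592019) (nat_lit 1824) (nat_lit 10375377718) (nat_lit 524) (nat_lit 5) (nat_lit 547) (nat_lit 5) (nat_lit 548) (nat_lit 5) (nat_lit 437) (nat_lit 431) (nat_lit 272)) (XT.lf (nat_lit 0) (nat_lit 1443023115) (nat_lit 1748) (nat_lit 7030089967) (nat_lit 1824) (nat_lit 3789359677) (nat_lit 525) (nat_lit 5) (nat_lit 548) (nat_lit 5) (nat_lit 549) (nat_lit 5) (nat_lit 438) (nat_lit 431) (nat_lit 271))) (XT.nd (nat_lit 78) (nat_lit 0) (nat_lit 76) (XT.lf (nat_lit 0) (nat_lit 2201047217) (nat_lit 1748) (nat_lit 726263688) (nat_lit 1824) (nat_lit 9451420112) (nat_lit 525) (nat_lit 5) (nat_lit 548) (nat_lit 5) (nat_lit 549) (nat_lit 5) (nat_lit 439) (nat_lit 431) (nat_lit 270)) (XT.lf (nat_lit 0) (nat_lit 3017663058) (nat_lit 1748) (nat_lit 6742866699) (nat_lit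 1824) (nat_lit 2735916060) (nat_lit 526) (nat_lit 5) (nat_lit 549) (nat_lit 5) (nat_lit 550) (nat_lit 5) (nat_lit 440) (nat_lit 431) (nat_lit 269))))))))
noncomputable def xc121 : XT := (XT.nd (nat_lit 58734) (nat_lit 0) (nat_lit 3876) (XT.nd (nat_lit 1014) (nat_lit 5472) (nat_lit 0) (XT.nd (nat_lit 468) (nat_lit 1520) (nat_lit 0) (XT.nd (nat_lit 234) (nat_lit 0) (nat_lit 152) (XT.nd (nat_lit 78) (nat_lit 0) (nat_lit 76) (XT.lf (nat_lit 0) (nat_lit 3863077473) (nat_lit 1748) (nat_lit 270590626) (nat_lit 1824) (nat_lit 8482597489) (nat_lit 526) (nat_lit 5) (nat_lit 549) (nat_lit 5) (nat_lit 550) (nat_lit 5) (nat_lit 441) (nat_lit 431) (nat_lit 268)) (XT.nd (nat_lit 78) (nat_lit 0) (nat_lit 0) (XT.lf (nat_lit 0) (nat_lit 4766137069) (nat_lit 1748) (nat_lit 6340909076) (nat_lit 1824) (nat_lit 1630620871) (nat_lit 527) (nat_lit 5) (nat_lit 550) (nat_lit 5) (nat_lit 551) (nat_lit 5) (nat_lit 442) (nat_lit 431) (nat_lit 267)) (XT.lf (nat_lit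 76) (nat_lit 308647969) (nat_lit 0) (nat_lit 5398428130) (nat_lit 1824) (nat_lit 7154024008) (nat_lit 528) (nat_lit 5) (nat_lit 527) (nat_lit 5) (nat_lit 551) (nat_lit 5) (nat_lit 443) (nat_lit 431) (nat_lit 266)))) (XT.nd (nat_lit 78) (nat_lit 0) (nat_lit 0) (XT.lf (nat_lit 0) (nat_lit 6701230095) (nat_lit 1748) (nat_lit 5819910106) (nat_lit 1824) (nat_lit 465173736) (nat_lit 528) (nat_lit 5) (nat_lit 551) (nat_lit 5) (nat_lit 552) (nat_lit 5) (nat_lit 444) (nat_lit 431) (nat_lit 265)) (XT.nd (nat_lit 78) (nat_lit 0) (nat_lit 0) (XT.lf (nat_lit 76) (nat_lit 1017155018) (nat_lit 0) (nat_lit 6729495134) (nat_lit 1824) (nat_lit 5366754232) (nat_lit 529) (nat_lit 5) (nat_lit 528) (nat_lit 5) (nat_lit 552) (nat_lit 5) (nat_lit 445) (nat_lit 431) (nat_lit 264)) (XT.lf (nat_lit 76) (nat_lit 8062185886) (nat_lit 0) (nat_lit 779040509) (nat_lit 1824) (nat_lit 4401245287) (nat_lit 529) (nat_lit 5) (nat_lit 528) (nat_lit 5) (nat_lit 552) (nat_lit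 5) (nat_lit 446) (nat_lit 431) (nat_lit 263))))) (XT.nd (nat_lit 234) (nat_lit 1748) (nat_lit 0) (XT.nd (nat_lit 78) (nat_lit 0) (nat_lit 0) (XT.lf (nat_lit 76) (nat_lit 1856245549) (nat_lit 0) (nat_lit 8137274549) (nat_lit 1824) (nat_lit 3379883712) (nat_lit 530) (nat_lit 5) (nat_lit 529) (nat_lit 5) (nat_lit 553) (nat_lit 5) (nat_lit 447) (nat_lit 431) (nat_lit 262)) (XT.nd (nat_lit 78) (nat_lit 0) (nat_lit 76) (XT.lf (nat_lit 76) (nat_lit 9090803309) (nat_lit 0) (nat_lit 2107526477) (nat_lit 1824) (nat_lit 2308035393) (nat_lit 530) (nat_lit 5) (nat_lit 529) (nat_lit 5) (nat_lit 553) (nat_lit 5) (nat_lit 448) (nat_lit 431) (nat_lit 261)) (XT.lf (nat_lit 76) (nat_lit 2831182010) (nat_lit 0) (nat_lit 9630488201) (nat_lit 1824) (nat_lit 1179626870) (nat_lit 531) (nat_lit 5) (nat_lit 530) (nat_lit 5) (nat_lit 554) (nat_lit 5) (nat_lit 449) (nat_lit 431) (nat_lit 260)))) (XT.nd (nat_lit 156) (nat_lit 0) (nat_lit 76) (XT.nd (nat_lit 78) (nat_lit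 0) (nat_lit 76) (XT.lf (nat_lit 0) (nat_lit 5396956) (nat_lit 1824) (nat_lit 3517438027) (nat_lit 1900) (nat_lit 10255422933) (nat_lit 506) (nat_lit 5) (nat_lit 530) (nat_lit 5) (nat_lit 531) (nat_lit 5) (nat_lit 450) (nat_lit 431) (nat_lit 259)) (XT.lf (nat_lit 0) (nat_lit 1231932772) (nat_lit 1824) (nat_lit 9977810874) (nat_lit 1900) (nat_lit 2707386241) (nat_lit 507) (nat_lit 5) (nat_lit 531) (nat_lit 5) (nat_lit 532) (nat_lit 5) (nat_lit 451) (nat_lit 431) (nat_lit 258))) (XT.nd (nat_lit 78) (nat_lit 0) (nat_lit 76) (XT.lf (nat_lit 0) (nat_lit 2520333628) (nat_lit 1824) (nat_lit 2496757736) (nat_lit 1900) (nat_lit 9040941245) (nat_lit 507) (nat_lit 5) (nat_lit 531) (nat_lit 5) (nat_lit 532) (nat_lit 5) (nat_lit 452) (nat_lit 431) (nat_lit 257)) (XT.lf (nat_lit 0) (nat_lit 3867335110) (nat_lit 1824) (nat_lit 9015602250) (nat_lit 1900) (nat_lit 1318159375) (nat_lit 508) (nat_lit 5) (nat_lit 532) (nat_lit 5) (nat_lit 533) (nat_lit 5)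 (nat_lit 453) (nat_lit 431) (nat_lit 256)))))) (XT.nd (nat_lit 468) (nat_lit 2736) (nat_lit 0) (XT.nd (nat_lit 234) (nat_lit 2888) (nat_lit 0) (XT.nd (nat_lit 78) (nat_lit 0) (nat_lit 0) (XT.lf (nat_lit 0) (nat_lit 5281952716) (nat_lit 1824) (nat_lit 1332638358) (nat_lit 1900) (nat_lit 7731617547) (nat_lit 508) (nat_lit 5) (nat_lit 532) (nat_lit 5) (nat_lit 533) (nat_lit 5) (nat_lit 454) (nat_lit 431) (nat_lit 255)) (XT.nd (nat_lit 78) (nat_lit 0) (nat_lit 76) (XT.lf (nat_lit 76) (nat_lit 6582620455) (nat_lit 0) (nat_lit 175750377) (nat_lit 1900) (nat_lit 7735181751) (nat_lit 509) (nat_lit 5) (nat_lit 508) (nat_lit 5) (nat_lit 533) (nat_lit 5) (nat_lit 455) (nat_lit 431) (nat_lit 254)) (XT.lf (nat_lit 0) (nat_lit 8305729684) (nat_lit 1824) (nat_lit 18812716) (nat_lit 76) (nat_lit 6318472775) (nat_lit 509) (nat_lit 5) (nat_lit 533) (nat_lit 5) (nat_lit 510) (nat_lit 5) (nat_lit 456) (nat_lit 431) (nat_lit 253)))) (XT.nd (nat_lit 78) (nat_lit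 1140) (nat_lit 0) (XT.lf (nat_lit 0) (nat_lit 8128913621) (nat_lit 1824) (nat_lit 1800152736) (nat_lit 1900) (nat_lit 4865500050) (nat_lit 485) (nat_lit 5) (nat_lit 509) (nat_lit 5) (nat_lit 510) (nat_lit 5) (nat_lit 457) (nat_lit 431) (nat_lit 252)) (XT.nd (nat_lit 78) (nat_lit 0) (nat_lit 0) (XT.lf (nat_lit 0) (nat_lit 1470653937) (nat_lit 1140) (nat_lit 10146632559) (nat_lit 1216) (nat_lit 3331213832) (nat_lit 470) (nat_lit 5) (nat_lit 485) (nat_lit 5) (nat_lit 486) (nat_lit 5) (nat_lit 458) (nat_lit 431) (nat_lit 251)) (XT.lf (nat_lit 0) (nat_lit 9840196544) (nat_lit 1140) (nat_lit 3546990463) (nat_lit 1216) (nat_lit 1717367602) (nat_lit 470) (nat_lit 5) (nat_lit 485) (nat_lit 5) (nat_lit 486) (nat_lit 5) (nat_lit 459) (nat_lit 431) (nat_lit 250))))) (XT.nd (nat_lit 234) (nat_lit 836) (nat_lit 0) (XT.nd (nat_lit 78) (nat_lit 988) (nat_lit 0) (XT.lf (nat_lit 0) (nat_lit 3125932233) (nat_lit 912) (nat_lit 12099043993) (nat_lit 988)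 (nat_lit 38103935) (nat_lit 458) (nat_lit 5) (nat_lit 470) (nat_lit 5) (nat_lit 471) (nat_lit 5) (nat_lit 460) (nat_lit 431) (nat_lit 249)) (XT.nd (nat_lit 78) (nat_lit 912) (nat_lit 0) (XT.lf (nat_lit 0) (nat_lit 1703409911) (nat_lit 988) (nat_lit 3711127910) (nat_lit 76) (nat_lit 10009008343) (nat_lit 457) (nat_lit 5) (nat_lit 470) (nat_lit 5) (nat_lit 458) (nat_lit 5) (nat_lit 461) (nat_lit 431) (nat_lit 248)) (XT.lf (nat_lit 0) (nat_lit 3512394987) (nat_lit 988) (nat_lit 10655813643) (nat_lit 76) (nat_lit 1418344796) (nat_lit 445) (nat_lit 5) (nat_lit 458) (nat_lit 5) (nat_lit 446) (nat_lit 5) (nat_lit 462) (nat_lit 431) (nat_lit 247)))) (XT.nd (nat_lit 156) (nat_lit 0) (nat_lit 0) (XT.nd (nat_lit 78) (nat_lit 836) (nat_lit 0) (XT.lf (nat_lit 0) (nat_lit 5410345710) (nat_lit 988) (nat_lit 2000405805) (nat_lit 76) (nat_lit 8341013599) (nat_lit 445) (nat_lit 5) (nat_lit 458) (nat_lit 5) (nat_lit 446) (nat_lit 5) (nat_lit 463) (nat_lit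 431) (nat_lit 246)) (XT.lf (nat_lit 0) (nat_lit 6911093164) (nat_lit 836) (nat_lit 472052835) (nat_lit 912) (nat_lit 8536397226) (nat_lit 434) (nat_lit 5) (nat_lit 445) (nat_lit 5) (nat_lit 446) (nat_lit 5) (nat_lit 464) (nat_lit 431) (nat_lit 245))) (XT.nd (nat_lit 56784) (nat_lit 0) (nat_lit 8436) (XT.lf (nat_lit 0) (nat_lit 9443929717) (nat_lit 912) (nat_lit 113212035) (nat_lit 76) (nat_lit 6532564597) (nat_lit 434) (nat_lit 5) (nat_lit 446) (nat_lit 5) (nat_lit 435) (nat_lit 5) (nat_lit 465) (nat_lit 431) (nat_lit 244)) (XT.lf (nat_lit 0) (nat_lit 4891398663) (nat_lit 1748) (nat_lit 481136758) (nat_lit 1748) (nat_lit 481136758) (nat_lit 545) (nat_lit 3) (nat_lit 568) (nat_lit 3) (nat_lit 568) (nat_lit 5) (nat_lit 432) (nat_lit 432) (nat_lit 276))))))) (XT.nd (nat_lit 1014) (nat_lit 2888) (nat_lit 0) (XT.nd (nat_lit 468) (nat_lit 0) (nat_lit 152) (XT.nd (nat_lit 234) (nat_lit 1672) (nat_lit 0) (XT.nd (nat_lit 78) (nat_lit 0) (nat_lit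 0) (XT.lf (nat_lit 76) (nat_lit 4956402777) (nat_lit 0) (nat_lit 5457134354) (nat_lit 1748) (nat_lit 1400222438) (nat_lit 546) (nat_lit 5) (nat_lit 545) (nat_lit 3) (nat_lit 568) (nat_lit 5) (nat_lit 433) (nat_lit 432) (nat_lit 275)) (XT.nd (nat_lit 78) (nat_lit 0) (nat_lit 76) (XT.lf (nat_lit 76) (nat_lit 10999708921) (nat_lit 0) (nat_lit 50461733) (nat_lit 1748) (nat_lit 872266848) (nat_lit 546) (nat_lit 5) (nat_lit 545) (nat_lit 3) (nat_lit 568) (nat_lit 5) (nat_lit 434) (nat_lit 432) (nat_lit 274)) (XT.lf (nat_lit 76) (nat_lit 5155779481) (nat_lit 0) (nat_lit 6599830898) (nat_lit 1748) (nat_lit 276557145) (nat_lit 547) (nat_lit 5) (nat_lit 546) (nat_lit 5) (nat_lit 569) (nat_lit 5) (nat_lit 435) (nat_lit 432) (nat_lit 273)))) (XT.nd (nat_lit 78) (nat_lit 0) (nat_lit 76) (XT.lf (nat_lit 0) (nat_lit 320536347) (nat_lit 1748) (nat_lit 785204775) (nat_lit 1824) (nat_lit 11038431800) (nat_lit 523) (nat_lit 5) (nat_lit 546) (nat_lit 5)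 (nat_lit 547) (nat_lit 5) (nat_lit 436) (nat_lit 432) (nat_lit 272)) (XT.nd (nat_lit 78) (nat_lit 0) (nat_lit 0) (XT.lf (nat_lit 0) (nat_lit 978507990) (nat_lit 1748) (nat_lit 6796360550) (nat_lit 1824) (nat_lit 4482460541) (nat_lit 524) (nat_lit 5) (nat_lit 547) (nat_lit 5) (nat_lit 548) (nat_lit 5) (nat_lit 437) (nat_lit 432) (nat_lit 271)) (XT.lf (nat_lit 0) (nat_lit 1649995999) (nat_lit 1748) (nat_lit 544465831) (nat_lit 1824) (nat_lit 10178279393) (nat_lit 524) (nat_lit 5) (nat_lit 547) (nat_lit 5) (nat_lit 548) (nat_lit 5) (nat_lit 438) (nat_lit 432) (nat_lit 270))))) (XT.nd (nat_lit 234) (nat_lit 0) (nat_lit 76) (XT.nd (nat_lit 78) (nat_lit 0) (nat_lit 0) (XT.lf (nat_lit 0) (nat_lit 2384204364) (nat_lit 1748) (nat_lit 6610080108) (nat_lit 1824) (nat_lit 3495191325) (nat_lit 525) (nat_lit 5) (nat_lit 548) (nat_lit 5) (nat_lit 549) (nat_lit 5) (nat_lit 439) (nat_lit 432) (nat_lit 269)) (XT.nd (nat_lit 78) (nat_lit 0) (nat_lit 76)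 (XT.lf (nat_lit 0) (nat_lit 3139500306) (nat_lit 1748) (nat_lit 191169689) (nat_lit 1824) (nat_lit 9277747000) (nat_lit 525) (nat_lit 5) (nat_lit 548) (nat_lit 5) (nat_lit 549) (nat_lit 5) (nat_lit 440) (nat_lit 432) (nat_lit 268)) (XT.lf (nat_lit 0) (nat_lit 3956284215) (nat_lit 1748) (nat_lit 6311940512) (nat_lit 1824) (nat_lit 2460584649) (nat_lit 526) (nat_lit 5) (nat_lit 549) (nat_lit 5) (nat_lit 550) (nat_lit 5) (nat_lit 441) (nat_lit 432) (nat_lit 267)))) (XT.nd (nat_lit 156) (nat_lit 0) (nat_lit 76) (XT.nd (nat_lit 78) (nat_lit 0) (nat_lit 76) (XT.lf (nat_lit 76) (nat_lit 282390895) (nat_lit 0) (nat_lit 4520828552) (nat_lit 1824) (nat_lit 8048113843) (nat_lit 527) (nat_lit 5) (nat_lit 526) (nat_lit 5) (nat_lit 550) (nat_lit 5) (nat_lit 442) (nat_lit 432) (nat_lit 266)) (XT.lf (nat_lit 0) (nat_lit 5707274833) (nat_lit 1748) (nat_lit 5897805598) (nat_lit 1824) (nat_lit 1370423624) (nat_lit 527) (nat_lit 5) (nat_lit 550) (nat_lit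 5) (nat_lit 551) (nat_lit 5) (nat_lit 443) (nat_lit 432) (nat_lit 265))) (XT.nd (nat_lit 78) (nat_lit 0) (nat_lit 76) (XT.lf (nat_lit 76) (nat_lit 880993104) (nat_lit 0) (nat_lit 5773130898) (nat_lit 1824) (nat_lit 6447539980) (nat_lit 528) (nat_lit 5) (nat_lit 527) (nat_lit 5) (nat_lit 551) (nat_lit 5) (nat_lit 444) (nat_lit 432) (nat_lit 264)) (XT.lf (nat_lit 0) (nat_lit 7650131721) (nat_lit 1748) (nat_lit 5363208192) (nat_lit 1824) (nat_lit 216402761) (nat_lit 528) (nat_lit 5) (nat_lit 551) (nat_lit 5) (nat_lit 552) (nat_lit 5) (nat_lit 445) (nat_lit 432) (nat_lit 263)))))) (XT.nd (nat_lit 468) (nat_lit 1596) (nat_lit 0) (XT.nd (nat_lit 234) (nat_lit 1672) (nat_lit 0) (XT.nd (nat_lit 78) (nat_lit 0) (nat_lit 0) (XT.lf (nat_lit 76) (nat_lit 1606827838) (nat_lit 0) (nat_lit 7097350826) (nat_lit 1824) (nat_lit 4655441897) (nat_lit 529) (nat_lit 5) (nat_lit 528) (nat_lit 5) (nat_lit 552) (nat_lit 5) (nat_lit 446) (nat_lit 432) (nat_lit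 262)) (XT.nd (nat_lit 78) (nat_lit 0) (nat_lit 76) (XT.lf (nat_lit 76) (nat_lit 8781595997) (nat_lit 0) (nat_lit 1023313270) (nat_lit 1824) (nat_lit 3686674683) (nat_lit 529) (nat_lit 5) (nat_lit 528) (nat_lit 5) (nat_lit 552) (nat_lit 5) (nat_lit 447) (nat_lit 432) (nat_lit 261)) (XT.lf (nat_lit 76) (nat_lit 2464973389) (nat_lit 0) (nat_lit 8502102378) (nat_lit 1824) (nat_lit 2658322413) (nat_lit 530) (nat_lit 5) (nat_lit 529) (nat_lit 5) (nat_lit 553) (nat_lit 5) (nat_lit 448) (nat_lit 432) (nat_lit 260)))) (XT.nd (nat_lit 78) (nat_lit 1748) (nat_lit 0) (XT.lf (nat_lit 76) (nat_lit 9833014404) (nat_lit 0) (nat_lit 2347796946) (nat_lit 1824) (nat_lit 1580510833) (nat_lit 530) (nat_lit 5) (nat_lit 529) (nat_lit 5) (nat_lit 553) (nat_lit 5) (nat_lit 449) (nat_lit 432) (nat_lit 259)) (XT.nd (nat_lit 78) (nat_lit 1824) (nat_lit 0) (XT.lf (nat_lit 76) (nat_lit 3460862228) (nat_lit 0) (nat_lit 9996143073) (nat_lit 1824) (nat_lit 442195689)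 (nat_lit 531) (nat_lit 5) (nat_lit 530) (nat_lit 5) (nat_lit 554) (nat_lit 5) (nat_lit 450) (nat_lit 432) (nat_lit 258)) (XT.lf (nat_lit 0) (nat_lit 741821323) (nat_lit 1824) (nat_lit 3016181355) (nat_lit 1900) (nat_lit 10281094068) (nat_lit 506) (nat_lit 5) (nat_lit 530) (nat_lit 5) (nat_lit 531) (nat_lit 5) (nat_lit 451) (nat_lit 432) (nat_lit 257))))) (XT.nd (nat_lit 234) (nat_lit 1672) (nat_lit 0) (XT.nd (nat_lit 78) (nat_lit 0) (nat_lit 0) (XT.lf (nat_lit 0) (nat_lit 1981113075) (nat_lit 1824) (nat_lit 9593986880) (nat_lit 1900) (nat_lit 2605881697) (nat_lit 507) (nat_lit 5) (nat_lit 531) (nat_lit 5) (nat_lit 532) (nat_lit 5) (nat_lit 452) (nat_lit 432) (nat_lit 256)) (XT.nd (nat_lit 78) (nat_lit 0) (nat_lit 76) (XT.lf (nat_lit 0) (nat_lit 3281075250) (nat_lit 1824) (nat_lit 1974751507) (nat_lit 1900) (nat_lit 9069159806) (nat_lit 507) (nat_lit 5) (nat_lit 531) (nat_lit 5) (nat_lit 532) (nat_lit 5) (nat_lit 453) (nat_lit 432) (nat_lit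 255)) (XT.lf (nat_lit 0) (nat_lit 4643921124) (nat_lit 1824) (nat_lit 8612877274) (nat_lit 1900) (nat_lit 1214335487) (nat_lit 508) (nat_lit 5) (nat_lit 532) (nat_lit 5) (nat_lit 533) (nat_lit 5) (nat_lit 454) (nat_lit 432) (nat_lit 254)))) (XT.nd (nat_lit 156) (nat_lit 1748) (nat_lit 0) (XT.nd (nat_lit 78) (nat_lit 0) (nat_lit 0) (XT.lf (nat_lit 0) (nat_lit 6073120507) (nat_lit 1824) (nat_lit 787686202) (nat_lit 1900) (nat_lit 7758615510) (nat_lit 508) (nat_lit 5) (nat_lit 532) (nat_lit 5) (nat_lit 533) (nat_lit 5) (nat_lit 455) (nat_lit 432) (nat_lit 253)) (XT.lf (nat_lit 76) (nat_lit 7282117228) (nat_lit 0) (nat_lit 287194839) (nat_lit 1900) (nat_lit 7200596091) (nat_lit 509) (nat_lit 5) (nat_lit 508) (nat_lit 5) (nat_lit 533) (nat_lit 5) (nat_lit 456) (nat_lit 432) (nat_lit 252))) (XT.nd (nat_lit 78) (nat_lit 0) (nat_lit 0) (XT.lf (nat_lit 0) (nat_lit 558787262) (nat_lit 1824) (nat_lit 8578521376) (nat_lit 1900) (nat_lit 5785257555)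 (nat_lit 485) (nat_lit 5) (nat_lit 509) (nat_lit 5) (nat_lit 510) (nat_lit 5) (nat_lit 457) (nat_lit 432) (nat_lit 251)) (XT.lf (nat_lit 0) (nat_lit 8858385270) (nat_lit 1824) (nat_lit 1921802221) (nat_lit 1900) (nat_lit 4297219448) (nat_lit 485) (nat_lit 5) (nat_lit 509) (nat_lit 5) (nat_lit 510) (nat_lit 5) (nat_lit 458) (nat_lit 432) (nat_lit 250))))))))
noncomputable def xc122 : XT := (XT.nd (nat_lit 58890) (nat_lit 0) (nat_lit 912) (XT.nd (nat_lit 57876) (nat_lit 0) (nat_lit 4636) (XT.nd (nat_lit 57330) (nat_lit 0) (nat_lit 5852) (XT.nd (nat_lit 234) (nat_lit 912) (nat_lit 0) (XT.nd (nat_lit 78) (nat_lit 988) (nat_lit 0) (XT.lf (nat_lit 0) (nat_lit 2076748182) (nat_lit 1140) (nat_lit 10415827980) (nat_lit 1216) (nat_lit 2742035295) (nat_lit 470) (nat_lit 5) (nat_lit 485) (nat_lit 5) (nat_lit 486) (nat_lit 5) (nat_lit 459) (nat_lit 432) (nat_lit 249)) (XT.nd (nat_lit 78) (nat_lit 988) (nat_lit 0) (XT.lf (nat_lit 0) (nat_lit 10602374167)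 (nat_lit 1140) (nat_lit 3682893772) (nat_lit 1216) (nat_lit 1108771019) (nat_lit 470) (nat_lit 5) (nat_lit 485) (nat_lit 5) (nat_lit 486) (nat_lit 5) (nat_lit 460) (nat_lit 432) (nat_lit 248)) (XT.lf (nat_lit 0) (nat_lit 587053042) (nat_lit 988) (nat_lit 11796730238) (nat_lit 76) (nat_lit 3172055344) (nat_lit 457) (nat_lit 5) (nat_lit 470) (nat_lit 5) (nat_lit 458) (nat_lit 5) (nat_lit 461) (nat_lit 432) (nat_lit 247)))) (XT.nd (nat_lit 78) (nat_lit 912) (nat_lit 0) (XT.lf (nat_lit 0) (nat_lit 2350624504) (nat_lit 988) (nat_lit 3213871738) (nat_lit 76) (nat_lit 10155257917) (nat_lit 457) (nat_lit 5) (nat_lit 470) (nat_lit 5) (nat_lit 458) (nat_lit 5) (nat_lit 462) (nat_lit 432) (nat_lit 246)) (XT.nd (nat_lit 78) (nat_lit 0) (nat_lit 0) (XT.lf (nat_lit 0) (nat_lit 4187211992) (nat_lit 988) (nat_lit 10288873897) (nat_lit 76) (nat_lit 1410107223) (nat_lit 445) (nat_lit 5) (nat_lit 458) (nat_lit 5) (nat_lit 446) (nat_lit 5) (nat_lit 463)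 (nat_lit 432) (nat_lit 245)) (XT.lf (nat_lit 0) (nat_lit 6111267434) (nat_lit 988) (nat_lit 1471731549) (nat_lit 76) (nat_lit 8471947137) (nat_lit 445) (nat_lit 5) (nat_lit 458) (nat_lit 5) (nat_lit 446) (nat_lit 5) (nat_lit 464) (nat_lit 432) (nat_lit 244))))) (XT.nd (nat_lit 234) (nat_lit 0) (nat_lit 76) (XT.nd (nat_lit 78) (nat_lit 1748) (nat_lit 0) (XT.lf (nat_lit 0) (nat_lit 5486707131) (nat_lit 1748) (nat_lit 237044441) (nat_lit 1748) (nat_lit 237044441) (nat_lit 545) (nat_lit 3) (nat_lit 568) (nat_lit 3) (nat_lit 568) (nat_lit 5) (nat_lit 433) (nat_lit 433) (nat_lit 274)) (XT.nd (nat_lit 78) (nat_lit 1748) (nat_lit 0) (XT.lf (nat_lit 76) (nat_lit 5559622582) (nat_lit 0) (nat_lit 6040910140) (nat_lit 1748) (nat_lit 429927542) (nat_lit 546) (nat_lit 5) (nat_lit 545) (nat_lit 3) (nat_lit 568) (nat_lit 5) (nat_lit 434) (nat_lit 433) (nat_lit 273)) (XT.lf (nat_lit 0) (nat_lit 87845246) (nat_lit 1748) (nat_lit 428362802) (nat_lit 1824)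 (nat_lit 11625475963) (nat_lit 522) (nat_lit 5) (nat_lit 545) (nat_lit 3) (nat_lit 546) (nat_lit 5) (nat_lit 435) (nat_lit 433) (nat_lit 272)))) (XT.nd (nat_lit 156) (nat_lit 0) (nat_lit 76) (XT.nd (nat_lit 78) (nat_lit 0) (nat_lit 0) (XT.lf (nat_lit 0) (nat_lit 668932405) (nat_lit 1748) (nat_lit 6486472909) (nat_lit 1824) (nat_lit 5098495768) (nat_lit 523) (nat_lit 5) (nat_lit 546) (nat_lit 5) (nat_lit 547) (nat_lit 5) (nat_lit 436) (nat_lit 433) (nat_lit 271)) (XT.lf (nat_lit 0) (nat_lit 1255693206) (nat_lit 1748) (nat_lit 285603585) (nat_lit 1824) (nat_lit 10827184666) (nat_lit 523) (nat_lit 5) (nat_lit 546) (nat_lit 5) (nat_lit 547) (nat_lit 5) (nat_lit 437) (nat_lit 433) (nat_lit 270))) (XT.nd (nat_lit 78) (nat_lit 0) (nat_lit 0) (XT.lf (nat_lit 0) (nat_lit 1909327579) (nat_lit 1748) (nat_lit 6399485773) (nat_lit 1824) (nat_lit 4175437321) (nat_lit 524) (nat_lit 5) (nat_lit 547) (nat_lit 5) (nat_lit 548) (nat_lit 5) (nat_lit 438)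 (nat_lit 433) (nat_lit 269)) (XT.lf (nat_lit 0) (nat_lit 2576377712) (nat_lit 1748) (nat_lit 33000258) (nat_lit 1824) (nat_lit 9992950442) (nat_lit 524) (nat_lit 5) (nat_lit 547) (nat_lit 5) (nat_lit 548) (nat_lit 5) (nat_lit 439) (nat_lit 433) (nat_lit 268)))))) (XT.nd (nat_lit 468) (nat_lit 1444) (nat_lit 0) (XT.nd (nat_lit 234) (nat_lit 0) (nat_lit 76) (XT.nd (nat_lit 78) (nat_lit 0) (nat_lit 0) (XT.lf (nat_lit 0) (nat_lit 3308782711) (nat_lit 1748) (nat_lit 6203439287) (nat_lit 1824) (nat_lit 3209505431) (nat_lit 525) (nat_lit 5) (nat_lit 548) (nat_lit 5) (nat_lit 549) (nat_lit 5) (nat_lit 440) (nat_lit 433) (nat_lit 267)) (XT.nd (nat_lit 78) (nat_lit 0) (nat_lit 76) (XT.lf (nat_lit 76) (nat_lit 337712968) (nat_lit 0) (nat_lit 3726470254) (nat_lit 1824) (nat_lit 8779164254) (nat_lit 526) (nat_lit 5) (nat_lit 525) (nat_lit 5) (nat_lit 549) (nat_lit 5) (nat_lit 441) (nat_lit 433) (nat_lit 266)) (XT.lf (nat_lit 0) (nat_lit 4879573582)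 (nat_lit 1748) (nat_lit 5894365864) (nat_lit 1824) (nat_lit 2192562844) (nat_lit 526) (nat_lit 5) (nat_lit 549) (nat_lit 5) (nat_lit 550) (nat_lit 5) (nat_lit 442) (nat_lit 433) (nat_lit 265)))) (XT.nd (nat_lit 78) (nat_lit 0) (nat_lit 76) (XT.lf (nat_lit 76) (nat_lit 828274451) (nat_lit 0) (nat_lit 4902128408) (nat_lit 1824) (nat_lit 7361334717) (nat_lit 527) (nat_lit 5) (nat_lit 526) (nat_lit 5) (nat_lit 550) (nat_lit 5) (nat_lit 443) (nat_lit 433) (nat_lit 264)) (XT.nd (nat_lit 78) (nat_lit 0) (nat_lit 0) (XT.lf (nat_lit 0) (nat_lit 6634391325) (nat_lit 1748) (nat_lit 5467970802) (nat_lit 1824) (nat_lit 1116392589) (nat_lit 527) (nat_lit 5) (nat_lit 550) (nat_lit 5) (nat_lit 551) (nat_lit 5) (nat_lit 444) (nat_lit 433) (nat_lit 263)) (XT.lf (nat_lit 76) (nat_lit 1442799985) (nat_lit 0) (nat_lit 6144970106) (nat_lit 1824) (nat_lit 5759915897) (nat_lit 528) (nat_lit 5) (nat_lit 527) (nat_lit 5) (nat_lit 551) (nat_lit 5) (nat_lit 445)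 (nat_lit 433) (nat_lit 262))))) (XT.nd (nat_lit 234) (nat_lit 1596) (nat_lit 0) (XT.nd (nat_lit 78) (nat_lit 0) (nat_lit 76) (XT.lf (nat_lit 76) (nat_lit 8558863079) (nat_lit 0) (nat_lit 27685385) (nat_lit 1824) (nat_lit 4892120783) (nat_lit 528) (nat_lit 5) (nat_lit 527) (nat_lit 5) (nat_lit 551) (nat_lit 5) (nat_lit 446) (nat_lit 433) (nat_lit 261)) (XT.nd (nat_lit 78) (nat_lit 0) (nat_lit 0) (XT.lf (nat_lit 76) (nat_lit 2186186349) (nat_lit 0) (nat_lit 7463505637) (nat_lit 1824) (nat_lit 3961692391) (nat_lit 529) (nat_lit 5) (nat_lit 528) (nat_lit 5) (nat_lit 552) (nat_lit 5) (nat_lit 447) (nat_lit 433) (nat_lit 260)) (XT.lf (nat_lit 76) (nat_lit 9493720028) (nat_lit 0) (nat_lit 1263591099) (nat_lit 1824) (nat_lit 2988978429) (nat_lit 529) (nat_lit 5) (nat_lit 528) (nat_lit 5) (nat_lit 552) (nat_lit 5) (nat_lit 448) (nat_lit 433) (nat_lit 259)))) (XT.nd (nat_lit 156) (nat_lit 1748) (nat_lit 0) (XT.nd (nat_lit 78) (nat_lit 0) (nat_lit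 0) (XT.lf (nat_lit 76) (nat_lit 3063679748) (nat_lit 0) (nat_lit 8866379661) (nat_lit 1824) (nat_lit 1952973893) (nat_lit 530) (nat_lit 5) (nat_lit 529) (nat_lit 5) (nat_lit 553) (nat_lit 5) (nat_lit 449) (nat_lit 433) (nat_lit 258)) (XT.lf (nat_lit 76) (nat_lit 10568308899) (nat_lit 0) (nat_lit 2585179585) (nat_lit 1824) (nat_lit 868478924) (nat_lit 530) (nat_lit 5) (nat_lit 529) (nat_lit 5) (nat_lit 553) (nat_lit 5) (nat_lit 450) (nat_lit 433) (nat_lit 257))) (XT.nd (nat_lit 78) (nat_lit 0) (nat_lit 0) (XT.lf (nat_lit 0) (nat_lit 276754712) (nat_lit 1824) (nat_lit 10083779607) (nat_lit 1900) (nat_lit 3802271682) (nat_lit 506) (nat_lit 5) (nat_lit 530) (nat_lit 5) (nat_lit 531) (nat_lit 5) (nat_lit 451) (nat_lit 433) (nat_lit 256)) (XT.lf (nat_lit 0) (nat_lit 1464382112) (nat_lit 1824) (nat_lit 2527095686) (nat_lit 1900) (nat_lit 10314246395) (nat_lit 506) (nat_lit 5) (nat_lit 530) (nat_lit 5) (nat_lit 531) (nat_lit 5) (nat_lit 452)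 (nat_lit 433) (nat_lit 255))))))) (XT.nd (nat_lit 58032) (nat_lit 0) (nat_lit 4940) (XT.nd (nat_lit 468) (nat_lit 2128) (nat_lit 0) (XT.nd (nat_lit 234) (nat_lit 1672) (nat_lit 0) (XT.nd (nat_lit 78) (nat_lit 0) (nat_lit 0) (XT.lf (nat_lit 0) (nat_lit 2717142149) (nat_lit 1824) (nat_lit 9225139771) (nat_lit 1900) (nat_lit 2508391229) (nat_lit 507) (nat_lit 5) (nat_lit 531) (nat_lit 5) (nat_lit 532) (nat_lit 5) (nat_lit 453) (nat_lit 433) (nat_lit 254)) (XT.nd (nat_lit 78) (nat_lit 0) (nat_lit 76) (XT.lf (nat_lit 0) (nat_lit 4029448532) (nat_lit 1824) (nat_lit 1464514335) (nat_lit 1900) (nat_lit 9103868393) (nat_lit 507) (nat_lit 5) (nat_lit 531) (nat_lit 5) (nat_lit 532) (nat_lit 5) (nat_lit 454) (nat_lit 433) (nat_lit 253)) (XT.lf (nat_lit 0) (nat_lit 5408886543) (nat_lit 1824) (nat_lit 8224737836) (nat_lit 1900) (nat_lit 1113490444) (nat_lit 508) (nat_lit 5) (nat_lit 532) (nat_lit 5) (nat_lit 533) (nat_lit 5) (nat_lit 455) (nat_lit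 433) (nat_lit 252)))) (XT.nd (nat_lit 78) (nat_lit 1748) (nat_lit 0) (XT.lf (nat_lit 0) (nat_lit 6853491737) (nat_lit 1824) (nat_lit 254031119) (nat_lit 1900) (nat_lit 7791109631) (nat_lit 508) (nat_lit 5) (nat_lit 532) (nat_lit 5) (nat_lit 533) (nat_lit 5) (nat_lit 456) (nat_lit 433) (nat_lit 251)) (XT.nd (nat_lit 78) (nat_lit 1748) (nat_lit 0) (XT.lf (nat_lit 76) (nat_lit 7973553849) (nat_lit 0) (nat_lit 396677158) (nat_lit 1900) (nat_lit 6682084661) (nat_lit 509) (nat_lit 5) (nat_lit 508) (nat_lit 5) (nat_lit 533) (nat_lit 5) (nat_lit 457) (nat_lit 433) (nat_lit 250)) (XT.lf (nat_lit 0) (nat_lit 1125740827) (nat_lit 1824) (nat_lit 8834058891) (nat_lit 1900) (nat_lit 5248422899) (nat_lit 485) (nat_lit 5) (nat_lit 509) (nat_lit 5) (nat_lit 510) (nat_lit 5) (nat_lit 458) (nat_lit 433) (nat_lit 249))))) (XT.nd (nat_lit 234) (nat_lit 988) (nat_lit 0) (XT.nd (nat_lit 78) (nat_lit 1140) (nat_lit 0) (XT.lf (nat_lit 0) (nat_lit 9580433191)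 (nat_lit 1824) (nat_lit 2042558940) (nat_lit 1900) (nat_lit 3743418929) (nat_lit 485) (nat_lit 5) (nat_lit 509) (nat_lit 5) (nat_lit 510) (nat_lit 5) (nat_lit 459) (nat_lit 433) (nat_lit 248)) (XT.nd (nat_lit 78) (nat_lit 0) (nat_lit 0) (XT.lf (nat_lit 0) (nat_lit 2672571079) (nat_lit 1140) (nat_lit 10687834245) (nat_lit 1216) (nat_lit 2166538809) (nat_lit 470) (nat_lit 5) (nat_lit 485) (nat_lit 5) (nat_lit 486) (nat_lit 5) (nat_lit 460) (nat_lit 433) (nat_lit 247)) (XT.lf (nat_lit 0) (nat_lit 11357841193) (nat_lit 1140) (nat_lit 3818992535) (nat_lit 1216) (nat_lit 512968800) (nat_lit 470) (nat_lit 5) (nat_lit 485) (nat_lit 5) (nat_lit 486) (nat_lit 5) (nat_lit 461) (nat_lit 433) (nat_lit 246)))) (XT.nd (nat_lit 57174) (nat_lit 0) (nat_lit 4940) (XT.nd (nat_lit 78) (nat_lit 0) (nat_lit 0) (XT.lf (nat_lit 0) (nat_lit 1199918019) (nat_lit 988) (nat_lit 11472391578) (nat_lit 76) (nat_lit 3182623322) (nat_lit 457) (nat_lit 5) (nat_lit 470)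 (nat_lit 5) (nat_lit 458) (nat_lit 5) (nat_lit 462) (nat_lit 433) (nat_lit 245)) (XT.lf (nat_lit 0) (nat_lit 2986974167) (nat_lit 988) (nat_lit 2728861658) (nat_lit 76) (nat_lit 10306526674) (nat_lit 457) (nat_lit 5) (nat_lit 470) (nat_lit 5) (nat_lit 458) (nat_lit 5) (nat_lit 463) (nat_lit 433) (nat_lit 244))) (XT.nd (nat_lit 78) (nat_lit 0) (nat_lit 0) (XT.lf (nat_lit 0) (nat_lit 2063988) (nat_lit 0) (nat_lit 2063988) (nat_lit 1748) (nat_lit 6066319622) (nat_lit 522) (nat_lit 5) (nat_lit 522) (nat_lit 3) (nat_lit 545) (nat_lit 3) (nat_lit 434) (nat_lit 434) (nat_lit 272)) (XT.lf (nat_lit 0) (nat_lit 514174957) (nat_lit 1748) (nat_lit 6100305519) (nat_lit 1824) (nat_lit 5637706943) (nat_lit 522) (nat_lit 5) (nat_lit 545) (nat_lit 3) (nat_lit 546) (nat_lit 5) (nat_lit 435) (nat_lit 434) (nat_lit 271)))))) (XT.nd (nat_lit 468) (nat_lit 0) (nat_lit 228) (XT.nd (nat_lit 234) (nat_lit 0) (nat_lit 152) (XT.nd (nat_lit 78) (nat_lit 0) (nat_lit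 76) (XT.lf (nat_lit 76) (nat_lit 51094679) (nat_lit 0) (nat_lit 967221272) (nat_lit 1824) (nat_lit 11347627463) (nat_lit 523) (nat_lit 5) (nat_lit 522) (nat_lit 5) (nat_lit 546) (nat_lit 5) (nat_lit 436) (nat_lit 434) (nat_lit 270)) (XT.nd (nat_lit 78) (nat_lit 0) (nat_lit 0) (XT.lf (nat_lit 0) (nat_lit 1592846477) (nat_lit 1748) (nat_lit 6111001107) (nat_lit 1824) (nat_lit 4776920811) (nat_lit 523) (nat_lit 5) (nat_lit 546) (nat_lit 5) (nat_lit 547) (nat_lit 5) (nat_lit 437) (nat_lit 434) (nat_lit 269)) (XT.lf (nat_lit 76) (nat_lit 206690477) (nat_lit 0) (nat_lit 1968140353) (nat_lit 1824) (nat_lit 10423139782) (nat_lit 524) (nat_lit 5) (nat_lit 523) (nat_lit 5) (nat_lit 547) (nat_lit 5) (nat_lit 438) (nat_lit 434) (nat_lit 268)))) (XT.nd (nat_lit 78) (nat_lit 0) (nat_lit 0) (XT.lf (nat_lit 0) (nat_lit 2823378634) (nat_lit 1748) (nat_lit 6015362851) (nat_lit 1824) (nat_lit 3877676912) (nat_lit 524) (nat_lit 5) (nat_lit 547) (nat_lit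 5) (nat_lit 548) (nat_lit 5) (nat_lit 439) (nat_lit 434) (nat_lit 267)) (XT.nd (nat_lit 78) (nat_lit 0) (nat_lit 76) (XT.lf (nat_lit 76) (nat_lit 474635884) (nat_lit 0) (nat_lit 3015041723) (nat_lit 1824) (nat_lit 9347461927) (nat_lit 525) (nat_lit 5) (nat_lit 524) (nat_lit 5) (nat_lit 548) (nat_lit 5) (nat_lit 440) (nat_lit 434) (nat_lit 266)) (XT.lf (nat_lit 0) (nat_lit 4217801752) (nat_lit 1748) (nat_lit 5809589556) (nat_lit 1824) (nat_lit 2931913801) (nat_lit 525) (nat_lit 5) (nat_lit 548) (nat_lit 5) (nat_lit 549) (nat_lit 5) (nat_lit 441) (nat_lit 434) (nat_lit 265))))) (XT.nd (nat_lit 234) (nat_lit 0) (nat_lit 152) (XT.nd (nat_lit 78) (nat_lit 0) (nat_lit 76) (XT.lf (nat_lit 76) (nat_lit 858978385) (nat_lit 0) (nat_lit 4116146096) (nat_lit 1824) (nat_lit 8108496794) (nat_lit 526) (nat_lit 5) (nat_lit 525) (nat_lit 5) (nat_lit 549) (nat_lit 5) (nat_lit 442) (nat_lit 434) (nat_lit 264)) (XT.nd (nat_lit 78) (nat_lit 0) (nat_lit 0)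 (XT.lf (nat_lit 0) (nat_lit 5788548832) (nat_lit 1748) (nat_lit 5489556663) (nat_lit 1824) (nat_lit 1931499165) (nat_lit 526) (nat_lit 5) (nat_lit 549) (nat_lit 5) (nat_lit 550) (nat_lit 5) (nat_lit 443) (nat_lit 434) (nat_lit 263)) (XT.lf (nat_lit 76) (nat_lit 1364097665) (nat_lit 0) (nat_lit 5279758908) (nat_lit 1824) (nat_lit 6693738841) (nat_lit 527) (nat_lit 5) (nat_lit 526) (nat_lit 5) (nat_lit 550) (nat_lit 5) (nat_lit 444) (nat_lit 434) (nat_lit 262)))) (XT.nd (nat_lit 156) (nat_lit 0) (nat_lit 0) (XT.nd (nat_lit 78) (nat_lit 0) (nat_lit 0) (XT.lf (nat_lit 0) (nat_lit 7548481493) (nat_lit 1748) (nat_lit 5050810700) (nat_lit 1824) (nat_lit 868209572) (nat_lit 527) (nat_lit 5) (nat_lit 550) (nat_lit 5) (nat_lit 551) (nat_lit 5) (nat_lit 445) (nat_lit 434) (nat_lit 261)) (XT.lf (nat_lit 76) (nat_lit 1994711560) (nat_lit 0) (nat_lit 6514290684) (nat_lit 1824) (nat_lit 5090247930) (nat_lit 528) (nat_lit 5) (nat_lit 527) (nat_lit 5)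 (nat_lit 551) (nat_lit 5) (nat_lit 446) (nat_lit 434) (nat_lit 260))) (XT.nd (nat_lit 78) (nat_lit 0) (nat_lit 76) (XT.lf (nat_lit 76) (nat_lit 9242839923) (nat_lit 0) (nat_lit 269828480) (nat_lit 1824) (nat_lit 4220486448) (nat_lit 528) (nat_lit 5) (nat_lit 527) (nat_lit 5) (nat_lit 551) (nat_lit 5) (nat_lit 447) (nat_lit 434) (nat_lit 259)) (XT.lf (nat_lit 76) (nat_lit 2755882734) (nat_lit 0) (nat_lit 7828277282) (nat_lit 1824) (nat_lit 3284622565) (nat_lit 529) (nat_lit 5) (nat_lit 528) (nat_lit 5) (nat_lit 552) (nat_lit 5) (nat_lit 448) (nat_lit 434) (nat_lit 258))))))))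
noncomputable def xc123 : XT := (XT.nd (nat_lit 59124) (nat_lit 0) (nat_lit 988) (XT.nd (nat_lit 1014) (nat_lit 988) (nat_lit 0) (XT.nd (nat_lit 468) (nat_lit 2736) (nat_lit 0) (XT.nd (nat_lit 234) (nat_lit 1672) (nat_lit 0) (XT.nd (nat_lit 78) (nat_lit 0) (nat_lit 76) (XT.lf (nat_lit 76) (nat_lit 10199253897) (nat_lit 0) (nat_lit 1500138933) (nat_lit 1824) (nat_lit 2307283807) (nat_lit 529) (nat_lit 5) (nat_lit 528) (nat_lit 5) (nat_lit 552) (nat_lit 5) (nat_lit 449) (nat_lit 434) (nat_lit 257)) (XT.nd (nat_lit 78) (nat_lit 0) (nat_lit 0) (XT.lf (nat_lit 76) (nat_lit 3653026095) (nat_lit 0) (nat_lit 9230400098) (nat_lit 1824) (nat_lit 1262972464) (nat_lit 530) (nat_lit 5) (nat_lit 529) (nat_lit 5) (nat_lit 553) (nat_lit 5) (nat_lit 450) (nat_lit 434) (nat_lit 256)) (XT.lf (nat_lit 76) (nat_lit 11297393461) (nat_lit 0) (nat_lit 2819915377) (nat_lit 1824) (nat_lit 171082906) (nat_lit 530) (nat_lit 5) (nat_lit 529) (nat_lit 5) (nat_lit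 553) (nat_lit 5) (nat_lit 451) (nat_lit 434) (nat_lit 255)))) (XT.nd (nat_lit 78) (nat_lit 0) (nat_lit 0) (XT.lf (nat_lit 0) (nat_lit 976137221) (nat_lit 1824) (nat_lit 9746818634) (nat_lit 1900) (nat_lit 3709229318) (nat_lit 506) (nat_lit 5) (nat_lit 530) (nat_lit 5) (nat_lit 531) (nat_lit 5) (nat_lit 452) (nat_lit 434) (nat_lit 254)) (XT.nd (nat_lit 78) (nat_lit 0) (nat_lit 76) (XT.lf (nat_lit 0) (nat_lit 2173912318) (nat_lit 1824) (nat_lit 2049562536) (nat_lit 1900) (nat_lit 10354758972) (nat_lit 506) (nat_lit 5) (nat_lit 530) (nat_lit 5) (nat_lit 531) (nat_lit 5) (nat_lit 453) (nat_lit 434) (nat_lit 253)) (XT.lf (nat_lit 0) (nat_lit 3440849479) (nat_lit 1824) (nat_lit 8870689426) (nat_lit 1900) (nat_lit 2414760416) (nat_lit 507) (nat_lit 5) (nat_lit 531) (nat_lit 5) (nat_lit 532) (nat_lit 5) (nat_lit 454) (nat_lit 434) (nat_lit 252))))) (XT.nd (nat_lit 234) (nat_lit 2812) (nat_lit 0) (XT.nd (nat_lit 78) (nat_lit 0) (nat_lit 76) (XT.lf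 (nat_lit 0) (nat_lit 4766277196) (nat_lit 1824) (nat_lit 965419190) (nat_lit 1900) (nat_lit 9144966704) (nat_lit 507) (nat_lit 5) (nat_lit 531) (nat_lit 5) (nat_lit 532) (nat_lit 5) (nat_lit 455) (nat_lit 434) (nat_lit 251)) (XT.nd (nat_lit 78) (nat_lit 0) (nat_lit 0) (XT.lf (nat_lit 0) (nat_lit 6163053313) (nat_lit 1824) (nat_lit 7850596507) (nat_lit 1900) (nat_lit 1015487518) (nat_lit 508) (nat_lit 5) (nat_lit 532) (nat_lit 5) (nat_lit 533) (nat_lit 5) (nat_lit 456) (nat_lit 434) (nat_lit 250)) (XT.lf (nat_lit 76) (nat_lit 272537226) (nat_lit 0) (nat_lit 7353116426) (nat_lit 1900) (nat_lit 7558249644) (nat_lit 509) (nat_lit 5) (nat_lit 508) (nat_lit 5) (nat_lit 533) (nat_lit 5) (nat_lit 457) (nat_lit 434) (nat_lit 249)))) (XT.nd (nat_lit 156) (nat_lit 1140) (nat_lit 0) (XT.nd (nat_lit 78) (nat_lit 1748) (nat_lit 0) (XT.lf (nat_lit 76) (nat_lit 8657625344) (nat_lit 0) (nat_lit 504320834) (nat_lit 1900) (nat_lit 6178929592) (nat_lit 509)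 (nat_lit 5) (nat_lit 508) (nat_lit 5) (nat_lit 533) (nat_lit 5) (nat_lit 458) (nat_lit 434) (nat_lit 248)) (XT.lf (nat_lit 0) (nat_lit 1682451934) (nat_lit 1824) (nat_lit 9091446613) (nat_lit 1900) (nat_lit 4726190466) (nat_lit 485) (nat_lit 5) (nat_lit 509) (nat_lit 5) (nat_lit 510) (nat_lit 5) (nat_lit 459) (nat_lit 434) (nat_lit 247))) (XT.nd (nat_lit 78) (nat_lit 1140) (nat_lit 0) (XT.lf (nat_lit 0) (nat_lit 10295763709) (nat_lit 1824) (nat_lit 2162534182) (nat_lit 1900) (nat_lit 3203384473) (nat_lit 485) (nat_lit 5) (nat_lit 509) (nat_lit 5) (nat_lit 510) (nat_lit 5) (nat_lit 460) (nat_lit 434) (nat_lit 246)) (XT.lf (nat_lit 0) (nat_lit 3258786758) (nat_lit 1140) (nat_lit 10962807486) (nat_lit 1216) (nat_lit 1604009155) (nat_lit 470) (nat_lit 5) (nat_lit 485) (nat_lit 5) (nat_lit 486) (nat_lit 5) (nat_lit 461) (nat_lit 434) (nat_lit 245)))))) (XT.nd (nat_lit 57564) (nat_lit 0) (nat_lit 5016) (XT.nd (nat_lit 57330) (nat_lit 0) (nat_lit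 4940) (XT.nd (nat_lit 78) (nat_lit 912) (nat_lit 0) (XT.lf (nat_lit 0) (nat_lit 69824703) (nat_lit 1216) (nat_lit 3885095354) (nat_lit 76) (nat_lit 12037022652) (nat_lit 469) (nat_lit 5) (nat_lit 485) (nat_lit 5) (nat_lit 470) (nat_lit 5) (nat_lit 462) (nat_lit 434) (nat_lit 244)) (XT.nd (nat_lit 57174) (nat_lit 0) (nat_lit 4940) (XT.lf (nat_lit 0) (nat_lit 1801697922) (nat_lit 988) (nat_lit 11163322239) (nat_lit 76) (nat_lit 3195455787) (nat_lit 457) (nat_lit 5) (nat_lit 470) (nat_lit 5) (nat_lit 458) (nat_lit 5) (nat_lit 463) (nat_lit 434) (nat_lit 243)) (XT.lf (nat_lit 0) (nat_lit 234956696) (nat_lit 0) (nat_lit 234956696) (nat_lit 1748) (nat_lit 5712629101) (nat_lit 522) (nat_lit 5) (nat_lit 522) (nat_lit 3) (nat_lit 545) (nat_lit 3) (nat_lit 435) (nat_lit 435) (nat_lit 270)))) (XT.nd (nat_lit 78) (nat_lit 0) (nat_lit 0) (XT.lf (nat_lit 0) (nat_lit 1434636947) (nat_lit 1748) (nat_lit 5744512980) (nat_lit 1824) (nat_lit 5299877670)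 (nat_lit 522) (nat_lit 5) (nat_lit 545) (nat_lit 3) (nat_lit 546) (nat_lit 5) (nat_lit 436) (nat_lit 435) (nat_lit 269)) (XT.nd (nat_lit 78) (nat_lit 0) (nat_lit 76) (XT.lf (nat_lit 76) (nat_lit 526771810) (nat_lit 0) (nat_lit 1407324091) (nat_lit 1824) (nat_lit 10661258109) (nat_lit 523) (nat_lit 5) (nat_lit 522) (nat_lit 5) (nat_lit 546) (nat_lit 5) (nat_lit 437) (nat_lit 435) (nat_lit 268)) (XT.lf (nat_lit 0) (nat_lit 2499881630) (nat_lit 1748) (nat_lit 5747637451) (nat_lit 1824) (nat_lit 4465361118) (nat_lit 523) (nat_lit 5) (nat_lit 546) (nat_lit 5) (nat_lit 547) (nat_lit 5) (nat_lit 438) (nat_lit 435) (nat_lit 267))))) (XT.nd (nat_lit 234) (nat_lit 0) (nat_lit 152) (XT.nd (nat_lit 78) (nat_lit 0) (nat_lit 76) (XT.lf (nat_lit 76) (nat_lit 693213336) (nat_lit 0) (nat_lit 2386263966) (nat_lit 1824) (nat_lit 9753229725) (nat_lit 524) (nat_lit 5) (nat_lit 523) (nat_lit 5) (nat_lit 547) (nat_lit 5) (nat_lit 439) (nat_lit 435) (nat_lit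 266)) (XT.nd (nat_lit 78) (nat_lit 0) (nat_lit 0) (XT.lf (nat_lit 0) (nat_lit 3721699824) (nat_lit 1748) (nat_lit 5643443429) (nat_lit 1824) (nat_lit 3588766440) (nat_lit 524) (nat_lit 5) (nat_lit 547) (nat_lit 5) (nat_lit 548) (nat_lit 5) (nat_lit 440) (nat_lit 435) (nat_lit 265)) (XT.lf (nat_lit 76) (nat_lit 973116947) (nat_lit 0) (nat_lit 3414875732) (nat_lit 1824) (nat_lit 8689319215) (nat_lit 525) (nat_lit 5) (nat_lit 524) (nat_lit 5) (nat_lit 548) (nat_lit 5) (nat_lit 441) (nat_lit 435) (nat_lit 264)))) (XT.nd (nat_lit 156) (nat_lit 0) (nat_lit 76) (XT.nd (nat_lit 78) (nat_lit 0) (nat_lit 0) (XT.lf (nat_lit 0) (nat_lit 5112272537) (nat_lit 1748) (nat_lit 5427974239) (nat_lit 1824) (nat_lit 2662042141) (nat_lit 525) (nat_lit 5) (nat_lit 548) (nat_lit 5) (nat_lit 549) (nat_lit 5) (nat_lit 442) (nat_lit 435) (nat_lit 263)) (XT.lf (nat_lit 76) (nat_lit 1370690015) (nat_lit 0) (nat_lit 4501377933) (nat_lit 1824) (nat_lit 7457276933)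 (nat_lit 526) (nat_lit 5) (nat_lit 525) (nat_lit 5) (nat_lit 549) (nat_lit 5) (nat_lit 443) (nat_lit 435) (nat_lit 262))) (XT.nd (nat_lit 78) (nat_lit 0) (nat_lit 0) (XT.lf (nat_lit 0) (nat_lit 6684196565) (nat_lit 1748) (nat_lit 5096948220) (nat_lit 1824) (nat_lit 1677054432) (nat_lit 526) (nat_lit 5) (nat_lit 549) (nat_lit 5) (nat_lit 550) (nat_lit 5) (nat_lit 444) (nat_lit 435) (nat_lit 261)) (XT.lf (nat_lit 76) (nat_lit 1890473934) (nat_lit 0) (nat_lit 5654085279) (nat_lit 1824) (nat_lit 6044431600) (nat_lit 527) (nat_lit 5) (nat_lit 526) (nat_lit 5) (nat_lit 550) (nat_lit 5) (nat_lit 445) (nat_lit 435) (nat_lit 260))))))) (XT.nd (nat_lit 1014) (nat_lit 2660) (nat_lit 0) (XT.nd (nat_lit 468) (nat_lit 1672) (nat_lit 0) (XT.nd (nat_lit 234) (nat_lit 0) (nat_lit 76) (XT.nd (nat_lit 78) (nat_lit 0) (nat_lit 0) (XT.lf (nat_lit 0) (nat_lit 8450510658) (nat_lit 1748) (nat_lit 4645752790) (nat_lit 1824) (nat_lit 625567161) (nat_lit 527) (nat_lit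 5) (nat_lit 550) (nat_lit 5) (nat_lit 551) (nat_lit 5) (nat_lit 446) (nat_lit 435) (nat_lit 259)) (XT.nd (nat_lit 78) (nat_lit 0) (nat_lit 0) (XT.lf (nat_lit 76) (nat_lit 2537350480) (nat_lit 0) (nat_lit 6881428839) (nat_lit 1824) (nat_lit 4437663918) (nat_lit 528) (nat_lit 5) (nat_lit 527) (nat_lit 5) (nat_lit 551) (nat_lit 5) (nat_lit 447) (nat_lit 435) (nat_lit 258)) (XT.lf (nat_lit 76) (nat_lit 9920583671) (nat_lit 0) (nat_lit 507433227) (nat_lit 1824) (nat_lit 3565299148) (nat_lit 528) (nat_lit 5) (nat_lit 527) (nat_lit 5) (nat_lit 551) (nat_lit 5) (nat_lit 448) (nat_lit 435) (nat_lit 257)))) (XT.nd (nat_lit 78) (nat_lit 0) (nat_lit 0) (XT.lf (nat_lit 76) (nat_lit 3316548887) (nat_lit 0) (nat_lit 8191976173) (nat_lit 1824) (nat_lit 2623379535) (nat_lit 529) (nat_lit 5) (nat_lit 528) (nat_lit 5) (nat_lit 552) (nat_lit 5) (nat_lit 449) (nat_lit 435) (nat_lit 256)) (XT.nd (nat_lit 78) (nat_lit 0) (nat_lit 76) (XT.lf (nat_lit 76) (nat_lit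 10898874758) (nat_lit 0) (nat_lit 1733213619) (nat_lit 1824) (nat_lit 1640747639) (nat_lit 529) (nat_lit 5) (nat_lit 528) (nat_lit 5) (nat_lit 552) (nat_lit 5) (nat_lit 450) (nat_lit 435) (nat_lit 255)) (XT.lf (nat_lit 76) (nat_lit 4233653660) (nat_lit 0) (nat_lit 9594451433) (nat_lit 1824) (nat_lit 587481329) (nat_lit 530) (nat_lit 5) (nat_lit 529) (nat_lit 5) (nat_lit 553) (nat_lit 5) (nat_lit 451) (nat_lit 435) (nat_lit 254))))) (XT.nd (nat_lit 234) (nat_lit 0) (nat_lit 152) (XT.nd (nat_lit 78) (nat_lit 0) (nat_lit 76) (XT.lf (nat_lit 0) (nat_lit 505784205) (nat_lit 1824) (nat_lit 2543060237) (nat_lit 1900) (nat_lit 11511777794) (nat_lit 505) (nat_lit 5) (nat_lit 529) (nat_lit 5) (nat_lit 530) (nat_lit 5) (nat_lit 452) (nat_lit 435) (nat_lit 253)) (XT.nd (nat_lit 78) (nat_lit 0) (nat_lit 0) (XT.lf (nat_lit 0) (nat_lit 1662564440) (nat_lit 1824) (nat_lit 9424034356) (nat_lit 1900) (nat_lit 3620891991) (nat_lit 506) (nat_lit 5) (nat_lit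 530) (nat_lit 5) (nat_lit 531) (nat_lit 5) (nat_lit 453) (nat_lit 435) (nat_lit 252)) (XT.lf (nat_lit 0) (nat_lit 2871218480) (nat_lit 1824) (nat_lit 1582984521) (nat_lit 1900) (nat_lit 10402518943) (nat_lit 506) (nat_lit 5) (nat_lit 530) (nat_lit 5) (nat_lit 531) (nat_lit 5) (nat_lit 454) (nat_lit 435) (nat_lit 251)))) (XT.nd (nat_lit 156) (nat_lit 0) (nat_lit 76) (XT.nd (nat_lit 78) (nat_lit 0) (nat_lit 0) (XT.lf (nat_lit 0) (nat_lit 4153038718) (nat_lit 1824) (nat_lit 8530078282) (nat_lit 1900) (nat_lit 2324840864) (nat_lit 507) (nat_lit 5) (nat_lit 531) (nat_lit 5) (nat_lit 532) (nat_lit 5) (nat_lit 455) (nat_lit 435) (nat_lit 250)) (XT.lf (nat_lit 0) (nat_lit 5492359846) (nat_lit 1824) (nat_lit 476859993) (nat_lit 1900) (nat_lit 9192361371) (nat_lit 507) (nat_lit 5) (nat_lit 531) (nat_lit 5) (nat_lit 532) (nat_lit 5) (nat_lit 456) (nat_lit 435) (nat_lit 249))) (XT.nd (nat_lit 78) (nat_lit 0) (nat_lit 0) (XT.lf (nat_lit 0) (nat_lit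 6907218877) (nat_lit 1824) (nat_lit 7489888247) (nat_lit 1900) (nat_lit 920194871) (nat_lit 508) (nat_lit 5) (nat_lit 532) (nat_lit 5) (nat_lit 533) (nat_lit 5) (nat_lit 457) (nat_lit 435) (nat_lit 248)) (XT.lf (nat_lit 76) (nat_lit 792302106) (nat_lit 0) (nat_lit 7597933786) (nat_lit 1900) (nat_lit 7085104086) (nat_lit 509) (nat_lit 5) (nat_lit 508) (nat_lit 5) (nat_lit 533) (nat_lit 5) (nat_lit 458) (nat_lit 435) (nat_lit 247)))))) (XT.nd (nat_lit 57798) (nat_lit 0) (nat_lit 4028) (XT.nd (nat_lit 234) (nat_lit 1140) (nat_lit 0) (XT.nd (nat_lit 78) (nat_lit 1748) (nat_lit 0) (XT.lf (nat_lit 76) (nat_lit 9335007396) (nat_lit 0) (nat_lit 610245517) (nat_lit 1900) (nat_lit 5690439015) (nat_lit 509) (nat_lit 5) (nat_lit 508) (nat_lit 5) (nat_lit 533) (nat_lit 5) (nat_lit 459) (nat_lit 435) (nat_lit 246)) (XT.nd (nat_lit 78) (nat_lit 0) (nat_lit 0) (XT.lf (nat_lit 0) (nat_lit 2229553770) (nat_lit 1824) (nat_lit 9350848156) (nat_lit 1900)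 (nat_lit 4217868359) (nat_lit 485) (nat_lit 5) (nat_lit 509) (nat_lit 5) (nat_lit 510) (nat_lit 5) (nat_lit 460) (nat_lit 435) (nat_lit 245)) (XT.lf (nat_lit 0) (nat_lit 11005064078) (nat_lit 1824) (nat_lit 2281836444) (nat_lit 1900) (nat_lit 2676426755) (nat_lit 485) (nat_lit 5) (nat_lit 509) (nat_lit 5) (nat_lit 510) (nat_lit 5) (nat_lit 461) (nat_lit 435) (nat_lit 244)))) (XT.nd (nat_lit 57408) (nat_lit 0) (nat_lit 3952) (XT.nd (nat_lit 57330) (nat_lit 0) (nat_lit 3952) (XT.lf (nat_lit 0) (nat_lit 3836038865) (nat_lit 1140) (nat_lit 11240903079) (nat_lit 1216) (nat_lit 1053755207) (nat_lit 470) (nat_lit 5) (nat_lit 485) (nat_lit 5) (nat_lit 486) (nat_lit 5) (nat_lit 462) (nat_lit 435) (nat_lit 243)) (XT.lf (nat_lit 0) (nat_lit 463465353) (nat_lit 0) (nat_lit 463465353) (nat_lit 1748) (nat_lit 5370310255) (nat_lit 522) (nat_lit 5) (nat_lit 522) (nat_lit 3) (nat_lit 545) (nat_lit 3) (nat_lit 436) (nat_lit 436) (nat_lit 268))) (XT.nd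 (nat_lit 78) (nat_lit 0) (nat_lit 0) (XT.lf (nat_lit 0) (nat_lit 2338164837) (nat_lit 1748) (nat_lit 5400158094) (nat_lit 1824) (nat_lit 4972788515) (nat_lit 522) (nat_lit 5) (nat_lit 545) (nat_lit 3) (nat_lit 546) (nat_lit 5) (nat_lit 437) (nat_lit 436) (nat_lit 267)) (XT.lf (nat_lit 76) (nat_lit 993531042) (nat_lit 0) (nat_lit 1839890405) (nat_lit 1824) (nat_lit 9996626771) (nat_lit 523) (nat_lit 5) (nat_lit 522) (nat_lit 5) (nat_lit 546) (nat_lit 5) (nat_lit 438) (nat_lit 436) (nat_lit 266))))) (XT.nd (nat_lit 234) (nat_lit 0) (nat_lit 76) (XT.nd (nat_lit 78) (nat_lit 0) (nat_lit 0) (XT.lf (nat_lit 0) (nat_lit 3391073249) (nat_lit 1748) (nat_lit 5395862327) (nat_lit 1824) (nat_lit 4163378347) (nat_lit 523) (nat_lit 5) (nat_lit 546) (nat_lit 5) (nat_lit 547) (nat_lit 5) (nat_lit 439) (nat_lit 436) (nat_lit 265)) (XT.nd (nat_lit 78) (nat_lit 0) (nat_lit 76) (XT.lf (nat_lit 76) (nat_lit 1170734898) (nat_lit 0) (nat_lit 2798042308) (nat_lit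 1824) (nat_lit 9104029755) (nat_lit 524) (nat_lit 5) (nat_lit 523) (nat_lit 5) (nat_lit 547) (nat_lit 5) (nat_lit 440) (nat_lit 436) (nat_lit 264)) (XT.lf (nat_lit 0) (nat_lit 4605297236) (nat_lit 1748) (nat_lit 5283199380) (nat_lit 1824) (nat_lit 3308308002) (nat_lit 524) (nat_lit 5) (nat_lit 547) (nat_lit 5) (nat_lit 548) (nat_lit 5) (nat_lit 441) (nat_lit 436) (nat_lit 263)))) (XT.nd (nat_lit 156) (nat_lit 0) (nat_lit 76) (XT.nd (nat_lit 78) (nat_lit 0) (nat_lit 76) (XT.lf (nat_lit 76) (nat_lit 1462579619) (nat_lit 0) (nat_lit 3809521933) (nat_lit 1824) (nat_lit 8050829599) (nat_lit 525) (nat_lit 5) (nat_lit 524) (nat_lit 5) (nat_lit 548) (nat_lit 5) (nat_lit 442) (nat_lit 436) (nat_lit 262)) (XT.lf (nat_lit 0) (nat_lit 5993174996) (nat_lit 1748) (nat_lit 5058057072) (nat_lit 1824) (nat_lit 2399529488) (nat_lit 525) (nat_lit 5) (nat_lit 548) (nat_lit 5) (nat_lit 549) (nat_lit 5) (nat_lit 443) (nat_lit 436) (nat_lit 261))) (XT.nd (nat_lit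 78) (nat_lit 0) (nat_lit 76) (XT.lf (nat_lit 76) (nat_lit 1873432594) (nat_lit 0) (nat_lit 4882552085) (nat_lit 1824) (nat_lit 6824617591) (nat_lit 526) (nat_lit 5) (nat_lit 525) (nat_lit 5) (nat_lit 549) (nat_lit 5) (nat_lit 444) (nat_lit 436) (nat_lit 260)) (XT.lf (nat_lit 0) (nat_lit 7567473689) (nat_lit 1748) (nat_lit 4715996397) (nat_lit 1824) (nat_lit 1428901252) (nat_lit 526) (nat_lit 5) (nat_lit 549) (nat_lit 5) (nat_lit 550) (nat_lit 5) (nat_lit 445) (nat_lit 436) (nat_lit 259))))))))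
noncomputable def xc124 : XT := (XT.nd (nat_lit 59358) (nat_lit 0) (nat_lit 1520) (XT.nd (nat_lit 1014) (nat_lit 1520) (nat_lit 0) (XT.nd (nat_lit 468) (nat_lit 1596) (nat_lit 0) (XT.nd (nat_lit 234) (nat_lit 0) (nat_lit 76) (XT.nd (nat_lit 78) (nat_lit 0) (nat_lit 76) (XT.lf (nat_lit 76) (nat_lit 2407997287) (nat_lit 0) (nat_lit 6025463017) (nat_lit 1824) (nat_lit 5412550127) (nat_lit 527) (nat_lit 5) (nat_lit 526) (nat_lit 5) (nat_lit 550) (nat_lit 5) (nat_lit 446) (nat_lit 436) (nat_lit 258)) (XT.nd (nat_lit 78) (nat_lit 0) (nat_lit 0) (XT.lf (nat_lit 0) (nat_lit 9341415849) (nat_lit 1748) (nat_lit 4252245196) (nat_lit 1824) (nat_lit 388168275) (nat_lit 527) (nat_lit 5) (nat_lit 550) (nat_lit 5) (nat_lit 551) (nat_lit 5) (nat_lit 447) (nat_lit 436) (nat_lit 257)) (XT.lf (nat_lit 76) (nat_lit 3071319989) (nat_lit 0) (nat_lit 7246712491) (nat_lit 1824) (nat_lit 3801322069) (nat_lit 528) (nat_lit 5) (nat_lit 527) (nat_lit 5) (nat_lit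 551) (nat_lit 5) (nat_lit 448) (nat_lit 436) (nat_lit 256)))) (XT.nd (nat_lit 78) (nat_lit 0) (nat_lit 76) (XT.lf (nat_lit 76) (nat_lit 10592742894) (nat_lit 0) (nat_lit 740773143) (nat_lit 1824) (nat_lit 2925727555) (nat_lit 528) (nat_lit 5) (nat_lit 527) (nat_lit 5) (nat_lit 551) (nat_lit 5) (nat_lit 449) (nat_lit 436) (nat_lit 255)) (XT.nd (nat_lit 78) (nat_lit 0) (nat_lit 0) (XT.lf (nat_lit 76) (nat_lit 3868797299) (nat_lit 0) (nat_lit 8554905802) (nat_lit 1824) (nat_lit 1977139435) (nat_lit 529) (nat_lit 5) (nat_lit 528) (nat_lit 5) (nat_lit 552) (nat_lit 5) (nat_lit 450) (nat_lit 436) (nat_lit 254)) (XT.lf (nat_lit 76) (nat_lit 11593241895) (nat_lit 0) (nat_lit 1963064269) (nat_lit 1824) (nat_lit 988555052) (nat_lit 529) (nat_lit 5) (nat_lit 528) (nat_lit 5) (nat_lit 552) (nat_lit 5) (nat_lit 451) (nat_lit 436) (nat_lit 253))))) (XT.nd (nat_lit 234) (nat_lit 0) (nat_lit 76) (XT.nd (nat_lit 78) (nat_lit 0) (nat_lit 0) (XT.lf (nat_lit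 0) (nat_lit 73334057) (nat_lit 1824) (nat_lit 9884989623) (nat_lit 1900) (nat_lit 4732358162) (nat_lit 505) (nat_lit 5) (nat_lit 529) (nat_lit 5) (nat_lit 530) (nat_lit 5) (nat_lit 452) (nat_lit 436) (nat_lit 252)) (XT.nd (nat_lit 78) (nat_lit 0) (nat_lit 76) (XT.lf (nat_lit 0) (nat_lit 1167572430) (nat_lit 1824) (nat_lit 2106969296) (nat_lit 1900) (nat_lit 11564259505) (nat_lit 505) (nat_lit 5) (nat_lit 529) (nat_lit 5) (nat_lit 530) (nat_lit 5) (nat_lit 453) (nat_lit 436) (nat_lit 251)) (XT.lf (nat_lit 0) (nat_lit 2336823489) (nat_lit 1824) (nat_lit 9114898116) (nat_lit 1900) (nat_lit 3537098842) (nat_lit 506) (nat_lit 5) (nat_lit 530) (nat_lit 5) (nat_lit 531) (nat_lit 5) (nat_lit 454) (nat_lit 436) (nat_lit 250)))) (XT.nd (nat_lit 156) (nat_lit 0) (nat_lit 76) (XT.nd (nat_lit 78) (nat_lit 0) (nat_lit 76) (XT.lf (nat_lit 0) (nat_lit 3557081831) (nat_lit 1824) (nat_lit 1126784480) (nat_lit 1900) (nat_lit 10457421293) (nat_lit 506) (nat_lit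 5) (nat_lit 530) (nat_lit 5) (nat_lit 531) (nat_lit 5) (nat_lit 455) (nat_lit 436) (nat_lit 249)) (XT.lf (nat_lit 0) (nat_lit 4854488812) (nat_lit 1824) (nat_lit 8202770454) (nat_lit 1900) (nat_lit 2238489968) (nat_lit 507) (nat_lit 5) (nat_lit 531) (nat_lit 5) (nat_lit 532) (nat_lit 5) (nat_lit 456) (nat_lit 436) (nat_lit 248))) (XT.nd (nat_lit 78) (nat_lit 0) (nat_lit 76) (XT.lf (nat_lit 76) (nat_lit 1772517) (nat_lit 0) (nat_lit 6206710073) (nat_lit 1900) (nat_lit 9244204733) (nat_lit 508) (nat_lit 5) (nat_lit 507) (nat_lit 5) (nat_lit 532) (nat_lit 5) (nat_lit 457) (nat_lit 436) (nat_lit 247)) (XT.lf (nat_lit 0) (nat_lit 7642157273) (nat_lit 1824) (nat_lit 7142069528) (nat_lit 1900) (nat_lit 827485352) (nat_lit 508) (nat_lit 5) (nat_lit 532) (nat_lit 5) (nat_lit 533) (nat_lit 5) (nat_lit 458) (nat_lit 436) (nat_lit 246)))))) (XT.nd (nat_lit 57798) (nat_lit 0) (nat_lit 2812) (XT.nd (nat_lit 234) (nat_lit 0) (nat_lit 0) (XT.nd (nat_lit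 78) (nat_lit 1748) (nat_lit 0) (XT.lf (nat_lit 76) (nat_lit 1302490840) (nat_lit 0) (nat_lit 7843851547) (nat_lit 1900) (nat_lit 6626738356) (nat_lit 509) (nat_lit 5) (nat_lit 508) (nat_lit 5) (nat_lit 533) (nat_lit 5) (nat_lit 459) (nat_lit 436) (nat_lit 245)) (XT.nd (nat_lit 78) (nat_lit 1748) (nat_lit 0) (XT.lf (nat_lit 76) (nat_lit 10006357242) (nat_lit 0) (nat_lit 714567178) (nat_lit 1900) (nat_lit 5215946019) (nat_lit 509) (nat_lit 5) (nat_lit 508) (nat_lit 5) (nat_lit 533) (nat_lit 5) (nat_lit 460) (nat_lit 436) (nat_lit 244)) (XT.lf (nat_lit 0) (nat_lit 2767659645) (nat_lit 1824) (nat_lit 9612425491) (nat_lit 1900) (nat_lit 3722789052) (nat_lit 485) (nat_lit 5) (nat_lit 509) (nat_lit 5) (nat_lit 510) (nat_lit 5) (nat_lit 461) (nat_lit 436) (nat_lit 243)))) (XT.nd (nat_lit 57408) (nat_lit 0) (nat_lit 2812) (XT.lf (nat_lit 0) (nat_lit 11709003398) (nat_lit 1824) (nat_lit 2400571576) (nat_lit 1900) (nat_lit 2161880119) (nat_lit 485)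 (nat_lit 5) (nat_lit 509) (nat_lit 5) (nat_lit 510) (nat_lit 5) (nat_lit 462) (nat_lit 436) (nat_lit 242)) (XT.nd (nat_lit 78) (nat_lit 0) (nat_lit 0) (XT.lf (nat_lit 0) (nat_lit 687853387) (nat_lit 0) (nat_lit 687853387) (nat_lit 1748) (nat_lit 5038874257) (nat_lit 522) (nat_lit 5) (nat_lit 522) (nat_lit 3) (nat_lit 545) (nat_lit 3) (nat_lit 437) (nat_lit 437) (nat_lit 266)) (XT.lf (nat_lit 0) (nat_lit 3225792370) (nat_lit 1748) (nat_lit 5066749159) (nat_lit 1824) (nat_lit 4655974862) (nat_lit 522) (nat_lit 5) (nat_lit 545) (nat_lit 3) (nat_lit 546) (nat_lit 5) (nat_lit 438) (nat_lit 437) (nat_lit 265))))) (XT.nd (nat_lit 234) (nat_lit 0) (nat_lit 152) (XT.nd (nat_lit 78) (nat_lit 0) (nat_lit 76) (XT.lf (nat_lit 76) (nat_lit 1451909733) (nat_lit 0) (nat_lit 2265403930) (nat_lit 1824) (nat_lit 9352791043) (nat_lit 523) (nat_lit 5) (nat_lit 522) (nat_lit 5) (nat_lit 546) (nat_lit 5) (nat_lit 439) (nat_lit 437) (nat_lit 264)) (XT.nd (nat_lit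 78) (nat_lit 0) (nat_lit 0) (XT.lf (nat_lit 0) (nat_lit 4267424113) (nat_lit 1748) (nat_lit 5055175313) (nat_lit 1824) (nat_lit 3870550188) (nat_lit 523) (nat_lit 5) (nat_lit 546) (nat_lit 5) (nat_lit 547) (nat_lit 5) (nat_lit 440) (nat_lit 437) (nat_lit 263)) (XT.lf (nat_lit 76) (nat_lit 1639802512) (nat_lit 0) (nat_lit 3203919593) (nat_lit 1824) (nat_lit 8474629607) (nat_lit 524) (nat_lit 5) (nat_lit 523) (nat_lit 5) (nat_lit 547) (nat_lit 5) (nat_lit 441) (nat_lit 437) (nat_lit 262)))) (XT.nd (nat_lit 156) (nat_lit 0) (nat_lit 76) (XT.nd (nat_lit 78) (nat_lit 0) (nat_lit 0) (XT.lf (nat_lit 0) (nat_lit 5475145794) (nat_lit 1748) (nat_lit 4934122002) (nat_lit 1824) (nat_lit 3035918063) (nat_lit 524) (nat_lit 5) (nat_lit 547) (nat_lit 5) (nat_lit 548) (nat_lit 5) (nat_lit 442) (nat_lit 437) (nat_lit 261)) (XT.lf (nat_lit 76) (nat_lit 1943580858) (nat_lit 0) (nat_lit 4199388542) (nat_lit 1824) (nat_lit 7431111858) (nat_lit 525) (nat_lit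 5) (nat_lit 524) (nat_lit 5) (nat_lit 548) (nat_lit 5) (nat_lit 443) (nat_lit 437) (nat_lit 260))) (XT.nd (nat_lit 78) (nat_lit 0) (nat_lit 0) (XT.lf (nat_lit 0) (nat_lit 6861459302) (nat_lit 1748) (nat_lit 4699321393) (nat_lit 1824) (nat_lit 2144027675) (nat_lit 525) (nat_lit 5) (nat_lit 548) (nat_lit 5) (nat_lit 549) (nat_lit 5) (nat_lit 444) (nat_lit 437) (nat_lit 259)) (XT.lf (nat_lit 76) (nat_lit 2367772430) (nat_lit 0) (nat_lit 5260044144) (nat_lit 1824) (nat_lit 6209663499) (nat_lit 526) (nat_lit 5) (nat_lit 525) (nat_lit 5) (nat_lit 549) (nat_lit 5) (nat_lit 445) (nat_lit 437) (nat_lit 258))))))) (XT.nd (nat_lit 1014) (nat_lit 0) (nat_lit 228) (XT.nd (nat_lit 468) (nat_lit 1596) (nat_lit 0) (XT.nd (nat_lit 234) (nat_lit 0) (nat_lit 76) (XT.nd (nat_lit 78) (nat_lit 0) (nat_lit 0) (XT.lf (nat_lit 0) (nat_lit 8439308738) (nat_lit 1748) (nat_lit 4346176775) (nat_lit 1824) (nat_lit 1186723541) (nat_lit 526) (nat_lit 5) (nat_lit 549)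 (nat_lit 5) (nat_lit 550) (nat_lit 5) (nat_lit 446) (nat_lit 437) (nat_lit 257)) (XT.nd (nat_lit 78) (nat_lit 0) (nat_lit 76) (XT.lf (nat_lit 76) (nat_lit 2917243233) (nat_lit 0) (nat_lit 6394238360) (nat_lit 1824) (nat_lit 4797262005) (nat_lit 527) (nat_lit 5) (nat_lit 526) (nat_lit 5) (nat_lit 550) (nat_lit 5) (nat_lit 447) (nat_lit 437) (nat_lit 256)) (XT.lf (nat_lit 0) (nat_lit 10222107083) (nat_lit 1748) (nat_lit 3869755836) (nat_lit 1824) (nat_lit 155725731) (nat_lit 527) (nat_lit 5) (nat_lit 550) (nat_lit 5) (nat_lit 551) (nat_lit 5) (nat_lit 448) (nat_lit 437) (nat_lit 255)))) (XT.nd (nat_lit 78) (nat_lit 0) (nat_lit 0) (XT.lf (nat_lit 76) (nat_lit 3597204771) (nat_lit 0) (nat_lit 7610461693) (nat_lit 1824) (nat_lit 3180409711) (nat_lit 528) (nat_lit 5) (nat_lit 527) (nat_lit 5) (nat_lit 551) (nat_lit 5) (nat_lit 449) (nat_lit 437) (nat_lit 254)) (XT.nd (nat_lit 78) (nat_lit 0) (nat_lit 76) (XT.lf (nat_lit 76) (nat_lit 11259949106)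 (nat_lit 0) (nat_lit 970113068) (nat_lit 1824) (nat_lit 2300968773) (nat_lit 528) (nat_lit 5) (nat_lit 527) (nat_lit 5) (nat_lit 551) (nat_lit 5) (nat_lit 450) (nat_lit 437) (nat_lit 253)) (XT.lf (nat_lit 76) (nat_lit 4413221914) (nat_lit 0) (nat_lit 8917363112) (nat_lit 1824) (nat_lit 1345106205) (nat_lit 529) (nat_lit 5) (nat_lit 528) (nat_lit 5) (nat_lit 552) (nat_lit 5) (nat_lit 451) (nat_lit 437) (nat_lit 252))))) (XT.nd (nat_lit 234) (nat_lit 0) (nat_lit 76) (XT.nd (nat_lit 78) (nat_lit 1748) (nat_lit 0) (XT.lf (nat_lit 76) (nat_lit 12282997584) (nat_lit 0) (nat_lit 2189932607) (nat_lit 1824) (nat_lit 349918291) (nat_lit 529) (nat_lit 5) (nat_lit 528) (nat_lit 5) (nat_lit 552) (nat_lit 5) (nat_lit 452) (nat_lit 437) (nat_lit 251)) (XT.nd (nat_lit 78) (nat_lit 0) (nat_lit 0) (XT.lf (nat_lit 0) (nat_lit 713695387) (nat_lit 1824) (nat_lit 9605285351) (nat_lit 1900) (nat_lit 4652736849) (nat_lit 505) (nat_lit 5) (nat_lit 529) (nat_lit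 5) (nat_lit 530) (nat_lit 5) (nat_lit 453) (nat_lit 437) (nat_lit 250)) (XT.lf (nat_lit 0) (nat_lit 1817291181) (nat_lit 1824) (nat_lit 1681065481) (nat_lit 1900) (nat_lit 11624693247) (nat_lit 505) (nat_lit 5) (nat_lit 529) (nat_lit 5) (nat_lit 530) (nat_lit 5) (nat_lit 454) (nat_lit 437) (nat_lit 249)))) (XT.nd (nat_lit 156) (nat_lit 0) (nat_lit 76) (XT.nd (nat_lit 78) (nat_lit 0) (nat_lit 0) (XT.lf (nat_lit 0) (nat_lit 2999676607) (nat_lit 1824) (nat_lit 8818902223) (nat_lit 1900) (nat_lit 3457695693) (nat_lit 506) (nat_lit 5) (nat_lit 530) (nat_lit 5) (nat_lit 531) (nat_lit 5) (nat_lit 455) (nat_lit 437) (nat_lit 248)) (XT.lf (nat_lit 0) (nat_lit 4232259397) (nat_lit 1824) (nat_lit 680404625) (nat_lit 1900) (nat_lit 10519368616) (nat_lit 506) (nat_lit 5) (nat_lit 530) (nat_lit 5) (nat_lit 531) (nat_lit 5) (nat_lit 456) (nat_lit 437) (nat_lit 247))) (XT.nd (nat_lit 78) (nat_lit 0) (nat_lit 0) (XT.lf (nat_lit 0) (nat_lit 5545955097)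 (nat_lit 1824) (nat_lit 7888250899) (nat_lit 1900) (nat_lit 2155570692) (nat_lit 507) (nat_lit 5) (nat_lit 531) (nat_lit 5) (nat_lit 532) (nat_lit 5) (nat_lit 457) (nat_lit 437) (nat_lit 246)) (XT.lf (nat_lit 76) (nat_lit 477234413) (nat_lit 0) (nat_lit 6441226681) (nat_lit 1900) (nat_lit 8831563799) (nat_lit 508) (nat_lit 5) (nat_lit 507) (nat_lit 5) (nat_lit 532) (nat_lit 5) (nat_lit 458) (nat_lit 437) (nat_lit 245)))))) (XT.nd (nat_lit 57954) (nat_lit 0) (nat_lit 1140) (XT.nd (nat_lit 57720) (nat_lit 0) (nat_lit 1064) (XT.nd (nat_lit 78) (nat_lit 0) (nat_lit 0) (XT.lf (nat_lit 0) (nat_lit 8368620199) (nat_lit 1824) (nat_lit 6806617490) (nat_lit 1900) (nat_lit 737236313) (nat_lit 508) (nat_lit 5) (nat_lit 532) (nat_lit 5) (nat_lit 533) (nat_lit 5) (nat_lit 459) (nat_lit 437) (nat_lit 244)) (XT.nd (nat_lit 78) (nat_lit 0) (nat_lit 0) (XT.lf (nat_lit 76) (nat_lit 1803687419) (nat_lit 0) (nat_lit 8091039118) (nat_lit 1900) (nat_lit 6182506675)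 (nat_lit 509) (nat_lit 5) (nat_lit 508) (nat_lit 5) (nat_lit 533) (nat_lit 5) (nat_lit 460) (nat_lit 437) (nat_lit 243)) (XT.lf (nat_lit 76) (nat_lit 10672314545) (nat_lit 0) (nat_lit 817398266) (nat_lit 1900) (nat_lit 4754807638) (nat_lit 509) (nat_lit 5) (nat_lit 508) (nat_lit 5) (nat_lit 533) (nat_lit 5) (nat_lit 461) (nat_lit 437) (nat_lit 242)))) (XT.nd (nat_lit 78) (nat_lit 0) (nat_lit 0) (XT.lf (nat_lit 0) (nat_lit 908375859) (nat_lit 0) (nat_lit 908375859) (nat_lit 1748) (nat_lit 4717850317) (nat_lit 522) (nat_lit 5) (nat_lit 522) (nat_lit 3) (nat_lit 545) (nat_lit 3) (nat_lit 438) (nat_lit 438) (nat_lit 264)) (XT.nd (nat_lit 78) (nat_lit 0) (nat_lit 0) (XT.lf (nat_lit 0) (nat_lit 4098520670) (nat_lit 1748) (nat_lit 4743812615) (nat_lit 1824) (nat_lit 4348989184) (nat_lit 522) (nat_lit 5) (nat_lit 545) (nat_lit 3) (nat_lit 546) (nat_lit 5) (nat_lit 439) (nat_lit 438) (nat_lit 263)) (XT.lf (nat_lit 76) (nat_lit 1902428195) (nat_lit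 0) (nat_lit 2684333421) (nat_lit 1824) (nat_lit 8728843151) (nat_lit 523) (nat_lit 5) (nat_lit 522) (nat_lit 5) (nat_lit 546) (nat_lit 5) (nat_lit 440) (nat_lit 438) (nat_lit 262))))) (XT.nd (nat_lit 234) (nat_lit 0) (nat_lit 76) (XT.nd (nat_lit 78) (nat_lit 0) (nat_lit 0) (XT.lf (nat_lit 0) (nat_lit 5129905812) (nat_lit 1748) (nat_lit 4725094409) (nat_lit 1824) (nat_lit 3586469721) (nat_lit 523) (nat_lit 5) (nat_lit 546) (nat_lit 5) (nat_lit 547) (nat_lit 5) (nat_lit 441) (nat_lit 438) (nat_lit 261)) (XT.nd (nat_lit 78) (nat_lit 0) (nat_lit 76) (XT.lf (nat_lit 76) (nat_lit 2100946234) (nat_lit 0) (nat_lit 3604326742) (nat_lit 1824) (nat_lit 7864152243) (nat_lit 524) (nat_lit 5) (nat_lit 523) (nat_lit 5) (nat_lit 547) (nat_lit 5) (nat_lit 442) (nat_lit 438) (nat_lit 260)) (XT.lf (nat_lit 0) (nat_lit 6332190630) (nat_lit 1748) (nat_lit 4595721237) (nat_lit 1824) (nat_lit 2771226870) (nat_lit 524) (nat_lit 5) (nat_lit 547) (nat_lit 5) (nat_lit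 548) (nat_lit 5) (nat_lit 443) (nat_lit 438) (nat_lit 259)))) (XT.nd (nat_lit 156) (nat_lit 0) (nat_lit 76) (XT.nd (nat_lit 78) (nat_lit 0) (nat_lit 76) (XT.lf (nat_lit 76) (nat_lit 2416660132) (nat_lit 0) (nat_lit 4584872055) (nat_lit 1824) (nat_lit 6829316628) (nat_lit 525) (nat_lit 5) (nat_lit 524) (nat_lit 5) (nat_lit 548) (nat_lit 5) (nat_lit 444) (nat_lit 438) (nat_lit 258)) (XT.lf (nat_lit 0) (nat_lit 7718047203) (nat_lit 1748) (nat_lit 4351269354) (nat_lit 1824) (nat_lit 1895200806) (nat_lit 525) (nat_lit 5) (nat_lit 548) (nat_lit 5) (nat_lit 549) (nat_lit 5) (nat_lit 445) (nat_lit 438) (nat_lit 257))) (XT.nd (nat_lit 78) (nat_lit 0) (nat_lit 76) (XT.lf (nat_lit 76) (nat_lit 2854258197) (nat_lit 0) (nat_lit 5634219475) (nat_lit 1824) (nat_lit 5611589906) (nat_lit 526) (nat_lit 5) (nat_lit 525) (nat_lit 5) (nat_lit 549) (nat_lit 5) (nat_lit 446) (nat_lit 438) (nat_lit 256)) (XT.lf (nat_lit 0) (nat_lit 9300603154) (nat_lit 1748)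 (nat_lit 3986983865) (nat_lit 1824) (nat_lit 950216051) (nat_lit 526) (nat_lit 5) (nat_lit 549) (nat_lit 5) (nat_lit 550) (nat_lit 5) (nat_lit 447) (nat_lit 438) (nat_lit 255))))))))
noncomputable def xc125 : XT := (XT.nd (nat_lit 59670) (nat_lit 0) (nat_lit 0) (XT.nd (nat_lit 58656) (nat_lit 0) (nat_lit 1368) (XT.nd (nat_lit 468) (nat_lit 0) (nat_lit 76) (XT.nd (nat_lit 234) (nat_lit 1672) (nat_lit 0) (XT.nd (nat_lit 78) (nat_lit 0) (nat_lit 0) (XT.lf (nat_lit 76) (nat_lit 3418769567) (nat_lit 0) (nat_lit 6760748735) (nat_lit 1824) (nat_lit 4197764027) (nat_lit 527) (nat_lit 5) (nat_lit 526) (nat_lit 5) (nat_lit 550) (nat_lit 5) (nat_lit 448) (nat_lit 438) (nat_lit 254)) (XT.nd (nat_lit 78) (nat_lit 0) (nat_lit 76) (XT.lf (nat_lit 76) (nat_lit 11020947008) (nat_lit 0) (nat_lit 72995525) (nat_lit 1824) (nat_lit 3425250023) (nat_lit 527) (nat_lit 5) (nat_lit 526) (nat_lit 5) (nat_lit 550) (nat_lit 5) (nat_lit 449) (nat_lit 438) (nat_lit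 253)) (XT.lf (nat_lit 76) (nat_lit 4115571762) (nat_lit 0) (nat_lit 7972989027) (nat_lit 1824) (nat_lit 2574142088) (nat_lit 528) (nat_lit 5) (nat_lit 527) (nat_lit 5) (nat_lit 551) (nat_lit 5) (nat_lit 450) (nat_lit 438) (nat_lit 252)))) (XT.nd (nat_lit 78) (nat_lit 1748) (nat_lit 0) (XT.lf (nat_lit 76) (nat_lit 11922817595) (nat_lit 0) (nat_lit 1195709545) (nat_lit 1824) (nat_lit 1690247151) (nat_lit 528) (nat_lit 5) (nat_lit 527) (nat_lit 5) (nat_lit 551) (nat_lit 5) (nat_lit 451) (nat_lit 438) (nat_lit 251)) (XT.nd (nat_lit 78) (nat_lit 1824) (nat_lit 0) (XT.lf (nat_lit 76) (nat_lit 4950398951) (nat_lit 0) (nat_lit 9279638857) (nat_lit 1824) (nat_lit 726510425) (nat_lit 529) (nat_lit 5) (nat_lit 528) (nat_lit 5) (nat_lit 552) (nat_lit 5) (nat_lit 452) (nat_lit 438) (nat_lit 250)) (XT.lf (nat_lit 0) (nat_lit 272305626) (nat_lit 1824) (nat_lit 2139920361) (nat_lit 1900) (nat_lit 12694634986) (nat_lit 504) (nat_lit 5) (nat_lit 528) (nat_lit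 5) (nat_lit 529) (nat_lit 5) (nat_lit 453) (nat_lit 438) (nat_lit 249))))) (XT.nd (nat_lit 234) (nat_lit 0) (nat_lit 76) (XT.nd (nat_lit 78) (nat_lit 0) (nat_lit 0) (XT.lf (nat_lit 0) (nat_lit 1342054885) (nat_lit 1824) (nat_lit 9338525175) (nat_lit 1900) (nat_lit 4578290167) (nat_lit 505) (nat_lit 5) (nat_lit 529) (nat_lit 5) (nat_lit 530) (nat_lit 5) (nat_lit 454) (nat_lit 438) (nat_lit 248)) (XT.nd (nat_lit 78) (nat_lit 0) (nat_lit 76) (XT.lf (nat_lit 0) (nat_lit 2455681701) (nat_lit 1824) (nat_lit 1264818277) (nat_lit 1900) (nat_lit 11692970035) (nat_lit 505) (nat_lit 5) (nat_lit 529) (nat_lit 5) (nat_lit 530) (nat_lit 5) (nat_lit 455) (nat_lit 438) (nat_lit 247)) (XT.lf (nat_lit 0) (nat_lit 3651862227) (nat_lit 1824) (nat_lit 8535559146) (nat_lit 1900) (nat_lit 3382534799) (nat_lit 506) (nat_lit 5) (nat_lit 530) (nat_lit 5) (nat_lit 531) (nat_lit 5) (nat_lit 456) (nat_lit 438) (nat_lit 246)))) (XT.nd (nat_lit 156) (nat_lit 0) (nat_lit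 76) (XT.nd (nat_lit 78) (nat_lit 0) (nat_lit 76) (XT.lf (nat_lit 0) (nat_lit 4897485063) (nat_lit 1824) (nat_lit 243305735) (nat_lit 1900) (nat_lit 10588270882) (nat_lit 506) (nat_lit 5) (nat_lit 530) (nat_lit 5) (nat_lit 531) (nat_lit 5) (nat_lit 457) (nat_lit 438) (nat_lit 245)) (XT.lf (nat_lit 0) (nat_lit 6228170344) (nat_lit 1824) (nat_lit 7586024601) (nat_lit 1900) (nat_lit 2075951354) (nat_lit 507) (nat_lit 5) (nat_lit 531) (nat_lit 5) (nat_lit 532) (nat_lit 5) (nat_lit 458) (nat_lit 438) (nat_lit 244))) (XT.nd (nat_lit 78) (nat_lit 0) (nat_lit 76) (XT.lf (nat_lit 76) (nat_lit 943744158) (nat_lit 0) (nat_lit 6676147338) (nat_lit 1900) (nat_lit 8433872672) (nat_lit 508) (nat_lit 5) (nat_lit 507) (nat_lit 5) (nat_lit 532) (nat_lit 5) (nat_lit 459) (nat_lit 438) (nat_lit 243)) (XT.lf (nat_lit 0) (nat_lit 9087338028) (nat_lit 1824) (nat_lit 6483029127) (nat_lit 1900) (nat_lit 649329419) (nat_lit 508) (nat_lit 5) (nat_lit 532) (nat_lit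 5) (nat_lit 533) (nat_lit 5) (nat_lit 460) (nat_lit 438) (nat_lit 242)))))) (XT.nd (nat_lit 468) (nat_lit 0) (nat_lit 152) (XT.nd (nat_lit 234) (nat_lit 0) (nat_lit 76) (XT.nd (nat_lit 78) (nat_lit 0) (nat_lit 0) (XT.lf (nat_lit 0) (nat_lit 1125279828) (nat_lit 0) (nat_lit 1125279828) (nat_lit 1748) (nat_lit 4406784962) (nat_lit 522) (nat_lit 5) (nat_lit 522) (nat_lit 3) (nat_lit 545) (nat_lit 3) (nat_lit 439) (nat_lit 439) (nat_lit 262)) (XT.nd (nat_lit 78) (nat_lit 0) (nat_lit 0) (XT.lf (nat_lit 0) (nat_lit 4957319661) (nat_lit 1748) (nat_lit 4430892321) (nat_lit 1824) (nat_lit 4051400365) (nat_lit 522) (nat_lit 5) (nat_lit 545) (nat_lit 3) (nat_lit 546) (nat_lit 5) (nat_lit 440) (nat_lit 439) (nat_lit 261)) (XT.lf (nat_lit 76) (nat_lit 2345590434) (nat_lit 0) (nat_lit 3097133326) (nat_lit 1824) (nat_lit 8123908564) (nat_lit 523) (nat_lit 5) (nat_lit 522) (nat_lit 5) (nat_lit 546) (nat_lit 5) (nat_lit 441) (nat_lit 439) (nat_lit 260))))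 (XT.nd (nat_lit 78) (nat_lit 0) (nat_lit 0) (XT.lf (nat_lit 0) (nat_lit 5979460115) (nat_lit 1748) (nat_lit 4405155302) (nat_lit 1824) (nat_lit 3310744799) (nat_lit 523) (nat_lit 5) (nat_lit 546) (nat_lit 5) (nat_lit 547) (nat_lit 5) (nat_lit 442) (nat_lit 439) (nat_lit 259)) (XT.nd (nat_lit 78) (nat_lit 0) (nat_lit 76) (XT.lf (nat_lit 76) (nat_lit 2554679567) (nat_lit 0) (nat_lit 3999681978) (nat_lit 1824) (nat_lit 7271752515) (nat_lit 524) (nat_lit 5) (nat_lit 523) (nat_lit 5) (nat_lit 547) (nat_lit 5) (nat_lit 443) (nat_lit 439) (nat_lit 258)) (XT.lf (nat_lit 0) (nat_lit 7177348399) (nat_lit 1748) (nat_lit 4267524930) (nat_lit 1824) (nat_lit 2513877904) (nat_lit 524) (nat_lit 5) (nat_lit 547) (nat_lit 5) (nat_lit 548) (nat_lit 5) (nat_lit 444) (nat_lit 439) (nat_lit 257))))) (XT.nd (nat_lit 234) (nat_lit 0) (nat_lit 152) (XT.nd (nat_lit 78) (nat_lit 0) (nat_lit 76) (XT.lf (nat_lit 76) (nat_lit 2882340180) (nat_lit 0) (nat_lit 4966357791)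 (nat_lit 1824) (nat_lit 6244625118) (nat_lit 525) (nat_lit 5) (nat_lit 524) (nat_lit 5) (nat_lit 548) (nat_lit 5) (nat_lit 445) (nat_lit 439) (nat_lit 256)) (XT.nd (nat_lit 78) (nat_lit 0) (nat_lit 0) (XT.lf (nat_lit 0) (nat_lit 8563833287) (nat_lit 1748) (nat_lit 4013421167) (nat_lit 1824) (nat_lit 1652724754) (nat_lit 525) (nat_lit 5) (nat_lit 548) (nat_lit 5) (nat_lit 549) (nat_lit 5) (nat_lit 446) (nat_lit 439) (nat_lit 255)) (XT.lf (nat_lit 76) (nat_lit 3333421714) (nat_lit 0) (nat_lit 6005433708) (nat_lit 1824) (nat_lit 5029601344) (nat_lit 526) (nat_lit 5) (nat_lit 525) (nat_lit 5) (nat_lit 549) (nat_lit 5) (nat_lit 447) (nat_lit 439) (nat_lit 254)))) (XT.nd (nat_lit 156) (nat_lit 0) (nat_lit 0) (XT.nd (nat_lit 78) (nat_lit 0) (nat_lit 0) (XT.lf (nat_lit 0) (nat_lit 10152232520) (nat_lit 1748) (nat_lit 3637930342) (nat_lit 1824) (nat_lit 719083923) (nat_lit 526) (nat_lit 5) (nat_lit 549) (nat_lit 5) (nat_lit 550) (nat_lit 5) (nat_lit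 448) (nat_lit 439) (nat_lit 253)) (XT.lf (nat_lit 76) (nat_lit 3913117151) (nat_lit 0) (nat_lit 7125323194) (nat_lit 1824) (nat_lit 3613280996) (nat_lit 527) (nat_lit 5) (nat_lit 526) (nat_lit 5) (nat_lit 550) (nat_lit 5) (nat_lit 449) (nat_lit 439) (nat_lit 252))) (XT.nd (nat_lit 78) (nat_lit 0) (nat_lit 76) (XT.lf (nat_lit 76) (nat_lit 11658985745) (nat_lit 0) (nat_lit 299317675) (nat_lit 1824) (nat_lit 2838423346) (nat_lit 527) (nat_lit 5) (nat_lit 526) (nat_lit 5) (nat_lit 550) (nat_lit 5) (nat_lit 450) (nat_lit 439) (nat_lit 251)) (XT.lf (nat_lit 76) (nat_lit 4626970949) (nat_lit 0) (nat_lit 8334600000) (nat_lit 1824) (nat_lit 1981761208) (nat_lit 528) (nat_lit 5) (nat_lit 527) (nat_lit 5) (nat_lit 551) (nat_lit 5) (nat_lit 451) (nat_lit 439) (nat_lit 250))))))) (XT.nd (nat_lit 58734) (nat_lit 0) (nat_lit 0) (XT.nd (nat_lit 468) (nat_lit 0) (nat_lit 152) (XT.nd (nat_lit 234) (nat_lit 0) (nat_lit 76) (XT.nd (nat_lit 78) (nat_lit 1748)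 (nat_lit 0) (XT.lf (nat_lit 76) (nat_lit 12581948212) (nat_lit 0) (nat_lit 1417811180) (nat_lit 1824) (nat_lit 1092813151) (nat_lit 528) (nat_lit 5) (nat_lit 527) (nat_lit 5) (nat_lit 551) (nat_lit 5) (nat_lit 452) (nat_lit 439) (nat_lit 249)) (XT.nd (nat_lit 78) (nat_lit 1824) (nat_lit 0) (XT.lf (nat_lit 76) (nat_lit 5480887706) (nat_lit 0) (nat_lit 9642017950) (nat_lit 1824) (nat_lit 120608200) (nat_lit 529) (nat_lit 5) (nat_lit 528) (nat_lit 5) (nat_lit 552) (nat_lit 5) (nat_lit 453) (nat_lit 439) (nat_lit 248)) (XT.lf (nat_lit 0) (nat_lit 878041298) (nat_lit 1824) (nat_lit 1751720867) (nat_lit 1900) (nat_lit 12767230236) (nat_lit 504) (nat_lit 5) (nat_lit 528) (nat_lit 5) (nat_lit 529) (nat_lit 5) (nat_lit 454) (nat_lit 439) (nat_lit 247)))) (XT.nd (nat_lit 78) (nat_lit 0) (nat_lit 0) (XT.lf (nat_lit 0) (nat_lit 1959135881) (nat_lit 1824) (nat_lit 9084248116) (nat_lit 1900) (nat_lit 4508858836) (nat_lit 505) (nat_lit 5) (nat_lit 529)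 (nat_lit 5) (nat_lit 530) (nat_lit 5) (nat_lit 455) (nat_lit 439) (nat_lit 246)) (XT.nd (nat_lit 78) (nat_lit 0) (nat_lit 76) (XT.lf (nat_lit 0) (nat_lit 3083461903) (nat_lit 1824) (nat_lit 857715072) (nat_lit 1900) (nat_lit 11768989107) (nat_lit 505) (nat_lit 5) (nat_lit 529) (nat_lit 5) (nat_lit 530) (nat_lit 5) (nat_lit 456) (nat_lit 439) (nat_lit 245)) (XT.lf (nat_lit 0) (nat_lit 4294096019) (nat_lit 1824) (nat_lit 8264400739) (nat_lit 1900) (nat_lit 3311474608) (nat_lit 506) (nat_lit 5) (nat_lit 530) (nat_lit 5) (nat_lit 531) (nat_lit 5) (nat_lit 457) (nat_lit 439) (nat_lit 244))))) (XT.nd (nat_lit 57954) (nat_lit 0) (nat_lit 1216) (XT.nd (nat_lit 78) (nat_lit 0) (nat_lit 76) (XT.lf (nat_lit 76) (nat_lit 187492629) (nat_lit 0) (nat_lit 5367195292) (nat_lit 1900) (nat_lit 10477769930) (nat_lit 507) (nat_lit 5) (nat_lit 506) (nat_lit 5) (nat_lit 531) (nat_lit 5) (nat_lit 458) (nat_lit 439) (nat_lit 243)) (XT.nd (nat_lit 78) (nat_lit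 0) (nat_lit 0) (XT.lf (nat_lit 0) (nat_lit 6901845770) (nat_lit 1824) (nat_lit 7295615801) (nat_lit 1900) (nat_lit 1999505414) (nat_lit 507) (nat_lit 5) (nat_lit 531) (nat_lit 5) (nat_lit 532) (nat_lit 5) (nat_lit 459) (nat_lit 439) (nat_lit 242)) (XT.lf (nat_lit 76) (nat_lit 1401839588) (nat_lit 0) (nat_lit 6911646566) (nat_lit 1900) (nat_lit 8050529361) (nat_lit 508) (nat_lit 5) (nat_lit 507) (nat_lit 5) (nat_lit 532) (nat_lit 5) (nat_lit 460) (nat_lit 439) (nat_lit 241)))) (XT.nd (nat_lit 156) (nat_lit 0) (nat_lit 0) (XT.nd (nat_lit 78) (nat_lit 0) (nat_lit 0) (XT.lf (nat_lit 0) (nat_lit 1338804698) (nat_lit 0) (nat_lit 1338804698) (nat_lit 1748) (nat_lit 4105241344) (nat_lit 522) (nat_lit 5) (nat_lit 522) (nat_lit 3) (nat_lit 545) (nat_lit 3) (nat_lit 440) (nat_lit 440) (nat_lit 260)) (XT.lf (nat_lit 0) (nat_lit 5803129432) (nat_lit 1748) (nat_lit 4127548857) (nat_lit 1824) (nat_lit 3762793037) (nat_lit 522) (nat_lit 5) (nat_lit 545)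 (nat_lit 3) (nat_lit 546) (nat_lit 5) (nat_lit 441) (nat_lit 440) (nat_lit 259))) (XT.nd (nat_lit 78) (nat_lit 0) (nat_lit 76) (XT.lf (nat_lit 76) (nat_lit 2781884859) (nat_lit 0) (nat_lit 3504244425) (nat_lit 1824) (nat_lit 7537144665) (nat_lit 523) (nat_lit 5) (nat_lit 522) (nat_lit 5) (nat_lit 546) (nat_lit 5) (nat_lit 442) (nat_lit 440) (nat_lit 258)) (XT.lf (nat_lit 0) (nat_lit 6817000285) (nat_lit 1748) (nat_lit 4094910663) (nat_lit 1824) (nat_lit 3042997453) (nat_lit 523) (nat_lit 5) (nat_lit 546) (nat_lit 5) (nat_lit 547) (nat_lit 5) (nat_lit 443) (nat_lit 440) (nat_lit 257)))))) (XT.nd (nat_lit 468) (nat_lit 1444) (nat_lit 0) (XT.nd (nat_lit 234) (nat_lit 0) (nat_lit 152) (XT.nd (nat_lit 78) (nat_lit 0) (nat_lit 76) (XT.lf (nat_lit 76) (nat_lit 3001500195) (nat_lit 0) (nat_lit 4390391401) (nat_lit 1824) (nat_lit 6696615889) (nat_lit 524) (nat_lit 5) (nat_lit 523) (nat_lit 5) (nat_lit 547) (nat_lit 5) (nat_lit 444) (nat_lit 440)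 (nat_lit 256)) (XT.nd (nat_lit 78) (nat_lit 0) (nat_lit 0) (XT.lf (nat_lit 0) (nat_lit 8011508550) (nat_lit 1748) (nat_lit 3949078109) (nat_lit 1824) (nat_lit 2263527334) (nat_lit 524) (nat_lit 5) (nat_lit 547) (nat_lit 5) (nat_lit 548) (nat_lit 5) (nat_lit 445) (nat_lit 440) (nat_lit 255)) (XT.lf (nat_lit 76) (nat_lit 3341127742) (nat_lit 0) (nat_lit 5344220409) (nat_lit 1824) (nat_lit 5676247876) (nat_lit 525) (nat_lit 5) (nat_lit 524) (nat_lit 5) (nat_lit 548) (nat_lit 5) (nat_lit 446) (nat_lit 440) (nat_lit 254)))) (XT.nd (nat_lit 78) (nat_lit 0) (nat_lit 0) (XT.lf (nat_lit 0) (nat_lit 9399686211) (nat_lit 1748) (nat_lit 3685314375) (nat_lit 1824) (nat_lit 1416286681) (nat_lit 525) (nat_lit 5) (nat_lit 548) (nat_lit 5) (nat_lit 549) (nat_lit 5) (nat_lit 447) (nat_lit 440) (nat_lit 253)) (XT.nd (nat_lit 78) (nat_lit 0) (nat_lit 76) (XT.lf (nat_lit 76) (nat_lit 3805778684) (nat_lit 0) (nat_lit 6374033196) (nat_lit 1824) (nat_lit 4462930434)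 (nat_lit 526) (nat_lit 5) (nat_lit 525) (nat_lit 5) (nat_lit 549) (nat_lit 5) (nat_lit 448) (nat_lit 440) (nat_lit 252)) (XT.lf (nat_lit 0) (nat_lit 10995047742) (nat_lit 1748) (nat_lit 3298546311) (nat_lit 1824) (nat_lit 493042256) (nat_lit 526) (nat_lit 5) (nat_lit 549) (nat_lit 5) (nat_lit 550) (nat_lit 5) (nat_lit 449) (nat_lit 440) (nat_lit 251))))) (XT.nd (nat_lit 234) (nat_lit 1672) (nat_lit 0) (XT.nd (nat_lit 78) (nat_lit 0) (nat_lit 0) (XT.lf (nat_lit 76) (nat_lit 4400810667) (nat_lit 0) (nat_lit 7488282835) (nat_lit 1824) (nat_lit 3043064580) (nat_lit 527) (nat_lit 5) (nat_lit 526) (nat_lit 5) (nat_lit 550) (nat_lit 5) (nat_lit 450) (nat_lit 440) (nat_lit 250)) (XT.nd (nat_lit 78) (nat_lit 0) (nat_lit 76) (XT.lf (nat_lit 76) (nat_lit 12293568571) (nat_lit 0) (nat_lit 521434594) (nat_lit 1824) (nat_lit 2265307464) (nat_lit 527) (nat_lit 5) (nat_lit 526) (nat_lit 5) (nat_lit 550) (nat_lit 5) (nat_lit 451) (nat_lit 440) (nat_lit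 249)) (XT.lf (nat_lit 76) (nat_lit 5131936119) (nat_lit 0) (nat_lit 8695593415) (nat_lit 1824) (nat_lit 1402534723) (nat_lit 528) (nat_lit 5) (nat_lit 527) (nat_lit 5) (nat_lit 551) (nat_lit 5) (nat_lit 452) (nat_lit 440) (nat_lit 248)))) (XT.nd (nat_lit 156) (nat_lit 0) (nat_lit 0) (XT.nd (nat_lit 78) (nat_lit 1748) (nat_lit 0) (XT.lf (nat_lit 76) (nat_lit 13237926148) (nat_lit 0) (nat_lit 1636658987) (nat_lit 1824) (nat_lit 507942248) (nat_lit 528) (nat_lit 5) (nat_lit 527) (nat_lit 5) (nat_lit 551) (nat_lit 5) (nat_lit 453) (nat_lit 440) (nat_lit 247)) (XT.lf (nat_lit 0) (nat_lit 467112245) (nat_lit 1824) (nat_lit 9534532982) (nat_lit 1900) (nat_lit 5534984497) (nat_lit 504) (nat_lit 5) (nat_lit 528) (nat_lit 5) (nat_lit 529) (nat_lit 5) (nat_lit 454) (nat_lit 440) (nat_lit 246))) (XT.nd (nat_lit 78) (nat_lit 0) (nat_lit 76) (XT.lf (nat_lit 0) (nat_lit 1472581708) (nat_lit 1824) (nat_lit 1372493557) (nat_lit 1900) (nat_lit 12848317392)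 (nat_lit 504) (nat_lit 5) (nat_lit 528) (nat_lit 5) (nat_lit 529) (nat_lit 5) (nat_lit 455) (nat_lit 440) (nat_lit 245)) (XT.lf (nat_lit 0) (nat_lit 2565638763) (nat_lit 1824) (nat_lit 8842011931) (nat_lit 1900) (nat_lit 4444290593) (nat_lit 505) (nat_lit 5) (nat_lit 529) (nat_lit 5) (nat_lit 530) (nat_lit 5) (nat_lit 456) (nat_lit 440) (nat_lit 244))))))))
noncomputable def xc126 : XT := (XT.nd (nat_lit 117936) (nat_lit 0) (nat_lit 0) (XT.nd (nat_lit 58890) (nat_lit 152) (nat_lit 0) (XT.nd (nat_lit 58344) (nat_lit 0) (nat_lit 1368) (XT.nd (nat_lit 58110) (nat_lit 0) (nat_lit 1292) (XT.nd (nat_lit 78) (nat_lit 0) (nat_lit 76) (XT.lf (nat_lit 0) (nat_lit 3701327380) (nat_lit 1824) (nat_lit 459260406) (nat_lit 1900) (nat_lit 11852657694) (nat_lit 505) (nat_lit 5) (nat_lit 529) (nat_lit 5) (nat_lit 530) (nat_lit 5) (nat_lit 457) (nat_lit 440) (nat_lit 243)) (XT.nd (nat_lit 78) (nat_lit 0) (nat_lit 0) (XT.lf (nat_lit 0) (nat_lit 4927071891)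 (nat_lit 1824) (nat_lit 8004977498) (nat_lit 1900) (nat_lit 3244379525) (nat_lit 506) (nat_lit 5) (nat_lit 530) (nat_lit 5) (nat_lit 531) (nat_lit 5) (nat_lit 458) (nat_lit 440) (nat_lit 242)) (XT.lf (nat_lit 76) (nat_lit 613159584) (nat_lit 0) (nat_lit 5591728080) (nat_lit 1900) (nat_lit 10137437224) (nat_lit 507) (nat_lit 5) (nat_lit 506) (nat_lit 5) (nat_lit 531) (nat_lit 5) (nat_lit 459) (nat_lit 440) (nat_lit 241)))) (XT.nd (nat_lit 78) (nat_lit 0) (nat_lit 0) (XT.lf (nat_lit 0) (nat_lit 1549182554) (nat_lit 0) (nat_lit 1549182554) (nat_lit 1748) (nat_lit 3812798576) (nat_lit 522) (nat_lit 5) (nat_lit 522) (nat_lit 3) (nat_lit 545) (nat_lit 3) (nat_lit 441) (nat_lit 441) (nat_lit 258)) (XT.nd (nat_lit 78) (nat_lit 0) (nat_lit 0) (XT.lf (nat_lit 0) (nat_lit 6636861550) (nat_lit 1748) (nat_lit 3833358860) (nat_lit 1824) (nat_lit 3482766953) (nat_lit 522) (nat_lit 5) (nat_lit 545) (nat_lit 3) (nat_lit 546) (nat_lit 5) (nat_lit 442)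 (nat_lit 441) (nat_lit 257)) (XT.lf (nat_lit 76) (nat_lit 3211784972) (nat_lit 0) (nat_lit 3906094436) (nat_lit 1824) (nat_lit 6967739471) (nat_lit 523) (nat_lit 5) (nat_lit 522) (nat_lit 5) (nat_lit 546) (nat_lit 5) (nat_lit 443) (nat_lit 441) (nat_lit 256))))) (XT.nd (nat_lit 234) (nat_lit 0) (nat_lit 76) (XT.nd (nat_lit 78) (nat_lit 0) (nat_lit 0) (XT.lf (nat_lit 0) (nat_lit 7643412348) (nat_lit 1748) (nat_lit 3793929459) (nat_lit 1824) (nat_lit 2782863322) (nat_lit 523) (nat_lit 5) (nat_lit 546) (nat_lit 5) (nat_lit 547) (nat_lit 5) (nat_lit 444) (nat_lit 441) (nat_lit 255)) (XT.nd (nat_lit 78) (nat_lit 0) (nat_lit 76) (XT.lf (nat_lit 76) (nat_lit 3441890672) (nat_lit 0) (nat_lit 4776849540) (nat_lit 1824) (nat_lit 6137957207) (nat_lit 524) (nat_lit 5) (nat_lit 523) (nat_lit 5) (nat_lit 547) (nat_lit 5) (nat_lit 445) (nat_lit 441) (nat_lit 254)) (XT.lf (nat_lit 0) (nat_lit 8835534553) (nat_lit 1748) (nat_lit 3639942294) (nat_lit 1824)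 (nat_lit 2019843510) (nat_lit 524) (nat_lit 5) (nat_lit 547) (nat_lit 5) (nat_lit 548) (nat_lit 5) (nat_lit 446) (nat_lit 441) (nat_lit 253)))) (XT.nd (nat_lit 156) (nat_lit 0) (nat_lit 76) (XT.nd (nat_lit 78) (nat_lit 0) (nat_lit 76) (XT.lf (nat_lit 76) (nat_lit 3793514270) (nat_lit 0) (nat_lit 5718824408) (nat_lit 1824) (nat_lit 5123423597) (nat_lit 525) (nat_lit 5) (nat_lit 524) (nat_lit 5) (nat_lit 548) (nat_lit 5) (nat_lit 447) (nat_lit 441) (nat_lit 252)) (XT.lf (nat_lit 0) (nat_lit 10226449887) (nat_lit 1748) (nat_lit 3366503155) (nat_lit 1824) (nat_lit 1185584571) (nat_lit 525) (nat_lit 5) (nat_lit 548) (nat_lit 5) (nat_lit 549) (nat_lit 5) (nat_lit 448) (nat_lit 441) (nat_lit 251))) (XT.nd (nat_lit 78) (nat_lit 0) (nat_lit 76) (XT.lf (nat_lit 76) (nat_lit 4271829414) (nat_lit 0) (nat_lit 6740355473) (nat_lit 1824) (nat_lit 3910836738) (nat_lit 526) (nat_lit 5) (nat_lit 525) (nat_lit 5) (nat_lit 549) (nat_lit 5) (nat_lit 449)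 (nat_lit 441) (nat_lit 250)) (XT.lf (nat_lit 0) (nat_lit 11829876198) (nat_lit 1748) (nat_lit 2968378601) (nat_lit 1824) (nat_lit 271815687) (nat_lit 526) (nat_lit 5) (nat_lit 549) (nat_lit 5) (nat_lit 550) (nat_lit 5) (nat_lit 450) (nat_lit 441) (nat_lit 249)))))) (XT.nd (nat_lit 468) (nat_lit 0) (nat_lit 152) (XT.nd (nat_lit 234) (nat_lit 1748) (nat_lit 0) (XT.nd (nat_lit 78) (nat_lit 0) (nat_lit 0) (XT.lf (nat_lit 76) (nat_lit 4882359342) (nat_lit 0) (nat_lit 7849941203) (nat_lit 1824) (nat_lit 2486392195) (nat_lit 527) (nat_lit 5) (nat_lit 526) (nat_lit 5) (nat_lit 550) (nat_lit 5) (nat_lit 451) (nat_lit 441) (nat_lit 248)) (XT.nd (nat_lit 78) (nat_lit 0) (nat_lit 76) (XT.lf (nat_lit 76) (nat_lit 12925256081) (nat_lit 0) (nat_lit 739601238) (nat_lit 1824) (nat_lit 1705188440) (nat_lit 527) (nat_lit 5) (nat_lit 526) (nat_lit 5) (nat_lit 550) (nat_lit 5) (nat_lit 452) (nat_lit 441) (nat_lit 247)) (XT.lf (nat_lit 76) (nat_lit 5630985598)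 (nat_lit 0) (nat_lit 9056261738) (nat_lit 1824) (nat_lit 835754862) (nat_lit 528) (nat_lit 5) (nat_lit 527) (nat_lit 5) (nat_lit 551) (nat_lit 5) (nat_lit 453) (nat_lit 441) (nat_lit 246)))) (XT.nd (nat_lit 78) (nat_lit 0) (nat_lit 76) (XT.lf (nat_lit 0) (nat_lit 64212763) (nat_lit 1824) (nat_lit 1787843065) (nat_lit 1900) (nat_lit 13826679002) (nat_lit 503) (nat_lit 5) (nat_lit 527) (nat_lit 5) (nat_lit 528) (nat_lit 5) (nat_lit 454) (nat_lit 441) (nat_lit 245)) (XT.nd (nat_lit 78) (nat_lit 0) (nat_lit 0) (XT.lf (nat_lit 0) (nat_lit 1042120749) (nat_lit 1824) (nat_lit 9319084694) (nat_lit 1900) (nat_lit 5474843551) (nat_lit 504) (nat_lit 5) (nat_lit 528) (nat_lit 5) (nat_lit 529) (nat_lit 5) (nat_lit 455) (nat_lit 441) (nat_lit 244)) (XT.lf (nat_lit 0) (nat_lit 2056608106) (nat_lit 1824) (nat_lit 1001767989) (nat_lit 1900) (nat_lit 12937792920) (nat_lit 504) (nat_lit 5) (nat_lit 528) (nat_lit 5) (nat_lit 529) (nat_lit 5) (nat_lit 456)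 (nat_lit 441) (nat_lit 243))))) (XT.nd (nat_lit 58266) (nat_lit 0) (nat_lit 1292) (XT.nd (nat_lit 78) (nat_lit 0) (nat_lit 0) (XT.lf (nat_lit 0) (nat_lit 3162241968) (nat_lit 1824) (nat_lit 8611392397) (nat_lit 1900) (nat_lit 4384439938) (nat_lit 505) (nat_lit 5) (nat_lit 529) (nat_lit 5) (nat_lit 530) (nat_lit 5) (nat_lit 457) (nat_lit 441) (nat_lit 242)) (XT.nd (nat_lit 58110) (nat_lit 0) (nat_lit 1292) (XT.lf (nat_lit 0) (nat_lit 4309952389) (nat_lit 1824) (nat_lit 68975249) (nat_lit 1900) (nat_lit 11943890783) (nat_lit 505) (nat_lit 5) (nat_lit 529) (nat_lit 5) (nat_lit 530) (nat_lit 5) (nat_lit 458) (nat_lit 441) (nat_lit 241)) (XT.lf (nat_lit 0) (nat_lit 1756638487) (nat_lit 0) (nat_lit 1756638487) (nat_lit 1748) (nat_lit 3529051093) (nat_lit 522) (nat_lit 5) (nat_lit 522) (nat_lit 3) (nat_lit 545) (nat_lit 3) (nat_lit 442) (nat_lit 442) (nat_lit 256)))) (XT.nd (nat_lit 156) (nat_lit 0) (nat_lit 76) (XT.nd (nat_lit 78) (nat_lit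 0) (nat_lit 0) (XT.lf (nat_lit 0) (nat_lit 7459400327) (nat_lit 1748) (nat_lit 3547914374) (nat_lit 1824) (nat_lit 3210936378) (nat_lit 522) (nat_lit 5) (nat_lit 545) (nat_lit 3) (nat_lit 546) (nat_lit 5) (nat_lit 443) (nat_lit 442) (nat_lit 255)) (XT.lf (nat_lit 76) (nat_lit 3635750021) (nat_lit 0) (nat_lit 4303098602) (nat_lit 1824) (nat_lit 6414910400) (nat_lit 523) (nat_lit 5) (nat_lit 522) (nat_lit 5) (nat_lit 546) (nat_lit 5) (nat_lit 444) (nat_lit 442) (nat_lit 254))) (XT.nd (nat_lit 78) (nat_lit 0) (nat_lit 0) (XT.lf (nat_lit 0) (nat_lit 8459556312) (nat_lit 1748) (nat_lit 3501796306) (nat_lit 1824) (nat_lit 2529991099) (nat_lit 523) (nat_lit 5) (nat_lit 546) (nat_lit 5) (nat_lit 547) (nat_lit 5) (nat_lit 445) (nat_lit 442) (nat_lit 253)) (XT.lf (nat_lit 76) (nat_lit 3876319099) (nat_lit 0) (nat_lit 5159439886) (nat_lit 1824) (nat_lit 5595019503) (nat_lit 524) (nat_lit 5) (nat_lit 523) (nat_lit 5) (nat_lit 547) (nat_lit 5) (nat_lit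 446) (nat_lit 442) (nat_lit 252))))))) (XT.nd (nat_lit 59124) (nat_lit 0) (nat_lit 0) (XT.nd (nat_lit 468) (nat_lit 1596) (nat_lit 0) (XT.nd (nat_lit 234) (nat_lit 0) (nat_lit 76) (XT.nd (nat_lit 78) (nat_lit 0) (nat_lit 0) (XT.lf (nat_lit 0) (nat_lit 9650265075) (nat_lit 1748) (nat_lit 3339694833) (nat_lit 1824) (nat_lit 1782506459) (nat_lit 524) (nat_lit 5) (nat_lit 547) (nat_lit 5) (nat_lit 548) (nat_lit 5) (nat_lit 447) (nat_lit 442) (nat_lit 251)) (XT.nd (nat_lit 78) (nat_lit 0) (nat_lit 76) (XT.lf (nat_lit 76) (nat_lit 4239976610) (nat_lit 0) (nat_lit 6090524609) (nat_lit 1824) (nat_lit 4585417986) (nat_lit 525) (nat_lit 5) (nat_lit 524) (nat_lit 5) (nat_lit 548) (nat_lit 5) (nat_lit 448) (nat_lit 442) (nat_lit 250)) (XT.lf (nat_lit 0) (nat_lit 11044944621) (nat_lit 1748) (nat_lit 3056557643) (nat_lit 1824) (nat_lit 960326786) (nat_lit 525) (nat_lit 5) (nat_lit 548) (nat_lit 5) (nat_lit 549) (nat_lit 5) (nat_lit 449) (nat_lit 442)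 (nat_lit 249)))) (XT.nd (nat_lit 78) (nat_lit 0) (nat_lit 76) (XT.lf (nat_lit 76) (nat_lit 4732059501) (nat_lit 0) (nat_lit 7104729684) (nat_lit 1824) (nat_lit 3372605660) (nat_lit 526) (nat_lit 5) (nat_lit 525) (nat_lit 5) (nat_lit 549) (nat_lit 5) (nat_lit 450) (nat_lit 442) (nat_lit 248)) (XT.nd (nat_lit 78) (nat_lit 0) (nat_lit 0) (XT.lf (nat_lit 0) (nat_lit 12657522838) (nat_lit 1748) (nat_lit 2646990082) (nat_lit 1824) (nat_lit 55137993) (nat_lit 526) (nat_lit 5) (nat_lit 549) (nat_lit 5) (nat_lit 550) (nat_lit 5) (nat_lit 451) (nat_lit 442) (nat_lit 247)) (XT.lf (nat_lit 76) (nat_lit 5358257645) (nat_lit 0) (nat_lit 8210604685) (nat_lit 1824) (nat_lit 1942565949) (nat_lit 527) (nat_lit 5) (nat_lit 526) (nat_lit 5) (nat_lit 550) (nat_lit 5) (nat_lit 452) (nat_lit 442) (nat_lit 246))))) (XT.nd (nat_lit 234) (nat_lit 0) (nat_lit 76) (XT.nd (nat_lit 78) (nat_lit 1748) (nat_lit 0) (XT.lf (nat_lit 76) (nat_lit 13554595630) (nat_lit 0)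 (nat_lit 954064497) (nat_lit 1824) (nat_lit 1157376434) (nat_lit 527) (nat_lit 5) (nat_lit 526) (nat_lit 5) (nat_lit 550) (nat_lit 5) (nat_lit 453) (nat_lit 442) (nat_lit 245)) (XT.nd (nat_lit 78) (nat_lit 1824) (nat_lit 0) (XT.lf (nat_lit 76) (nat_lit 6124622953) (nat_lit 0) (nat_lit 9416891446) (nat_lit 1824) (nat_lit 280737400) (nat_lit 528) (nat_lit 5) (nat_lit 527) (nat_lit 5) (nat_lit 551) (nat_lit 5) (nat_lit 454) (nat_lit 442) (nat_lit 244)) (XT.lf (nat_lit 0) (nat_lit 618667787) (nat_lit 1824) (nat_lit 1442701868) (nat_lit 1900) (nat_lit 13919876456) (nat_lit 503) (nat_lit 5) (nat_lit 527) (nat_lit 5) (nat_lit 528) (nat_lit 5) (nat_lit 455) (nat_lit 442) (nat_lit 243)))) (XT.nd (nat_lit 156) (nat_lit 0) (nat_lit 76) (XT.nd (nat_lit 78) (nat_lit 0) (nat_lit 0) (XT.lf (nat_lit 0) (nat_lit 1606663913) (nat_lit 1824) (nat_lit 9115098310) (nat_lit 1900) (nat_lit 5420133736) (nat_lit 504) (nat_lit 5) (nat_lit 528) (nat_lit 5) (nat_lit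 529) (nat_lit 5) (nat_lit 456) (nat_lit 442) (nat_lit 242)) (XT.lf (nat_lit 0) (nat_lit 2630780218) (nat_lit 1824) (nat_lit 639089547) (nat_lit 1900) (nat_lit 13035561831) (nat_lit 504) (nat_lit 5) (nat_lit 528) (nat_lit 5) (nat_lit 529) (nat_lit 5) (nat_lit 457) (nat_lit 442) (nat_lit 241))) (XT.nd (nat_lit 58188) (nat_lit 0) (nat_lit 1292) (XT.lf (nat_lit 0) (nat_lit 3749602946) (nat_lit 1824) (nat_lit 8391982632) (nat_lit 1900) (nat_lit 4329167889) (nat_lit 505) (nat_lit 5) (nat_lit 529) (nat_lit 5) (nat_lit 530) (nat_lit 5) (nat_lit 458) (nat_lit 442) (nat_lit 240)) (XT.lf (nat_lit 0) (nat_lit 1961390905) (nat_lit 0) (nat_lit 1961390905) (nat_lit 1748) (nat_lit 3253608032) (nat_lit 522) (nat_lit 5) (nat_lit 522) (nat_lit 3) (nat_lit 545) (nat_lit 3) (nat_lit 443) (nat_lit 443) (nat_lit 254)))))) (XT.nd (nat_lit 468) (nat_lit 1444) (nat_lit 0) (XT.nd (nat_lit 234) (nat_lit 0) (nat_lit 76) (XT.nd (nat_lit 78) (nat_lit 0) (nat_lit 0)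 (XT.lf (nat_lit 0) (nat_lit 8271604045) (nat_lit 1748) (nat_lit 3270822236) (nat_lit 1824) (nat_lit 2946929506) (nat_lit 522) (nat_lit 5) (nat_lit 545) (nat_lit 3) (nat_lit 546) (nat_lit 5) (nat_lit 444) (nat_lit 443) (nat_lit 253)) (XT.nd (nat_lit 78) (nat_lit 0) (nat_lit 76) (XT.lf (nat_lit 76) (nat_lit 4054225642) (nat_lit 0) (nat_lit 4695660264) (nat_lit 1824) (nat_lit 5877903091) (nat_lit 523) (nat_lit 5) (nat_lit 522) (nat_lit 5) (nat_lit 546) (nat_lit 5) (nat_lit 445) (nat_lit 443) (nat_lit 252)) (XT.lf (nat_lit 0) (nat_lit 9266267352) (nat_lit 1748) (nat_lit 3218110834) (nat_lit 1824) (nat_lit 2284042007) (nat_lit 523) (nat_lit 5) (nat_lit 546) (nat_lit 5) (nat_lit 547) (nat_lit 5) (nat_lit 446) (nat_lit 443) (nat_lit 251)))) (XT.nd (nat_lit 78) (nat_lit 0) (nat_lit 76) (XT.lf (nat_lit 76) (nat_lit 4305239764) (nat_lit 0) (nat_lit 5538535408) (nat_lit 1824) (nat_lit 5067072866) (nat_lit 524) (nat_lit 5) (nat_lit 523) (nat_lit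 5) (nat_lit 547) (nat_lit 5) (nat_lit 447) (nat_lit 443) (nat_lit 250)) (XT.nd (nat_lit 78) (nat_lit 0) (nat_lit 0) (XT.lf (nat_lit 0) (nat_lit 10456515120) (nat_lit 1748) (nat_lit 3047928266) (nat_lit 1824) (nat_lit 1551207414) (nat_lit 524) (nat_lit 5) (nat_lit 547) (nat_lit 5) (nat_lit 548) (nat_lit 5) (nat_lit 448) (nat_lit 443) (nat_lit 249)) (XT.lf (nat_lit 76) (nat_lit 4680977656) (nat_lit 0) (nat_lit 6459666621) (nat_lit 1824) (nat_lit 4061522653) (nat_lit 525) (nat_lit 5) (nat_lit 524) (nat_lit 5) (nat_lit 548) (nat_lit 5) (nat_lit 449) (nat_lit 443) (nat_lit 248))))) (XT.nd (nat_lit 234) (nat_lit 1672) (nat_lit 0) (XT.nd (nat_lit 78) (nat_lit 0) (nat_lit 0) (XT.lf (nat_lit 0) (nat_lit 11855968213) (nat_lit 1748) (nat_lit 2755063291) (nat_lit 1824) (nat_lit 740231634) (nat_lit 525) (nat_lit 5) (nat_lit 548) (nat_lit 5) (nat_lit 549) (nat_lit 5) (nat_lit 450) (nat_lit 443) (nat_lit 247)) (XT.nd (nat_lit 78) (nat_lit 0) (nat_lit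 0) (XT.lf (nat_lit 76) (nat_lit 5186940501) (nat_lit 0) (nat_lit 7467477010) (nat_lit 1824) (nat_lit 2847547381) (nat_lit 526) (nat_lit 5) (nat_lit 525) (nat_lit 5) (nat_lit 549) (nat_lit 5) (nat_lit 451) (nat_lit 443) (nat_lit 246)) (XT.lf (nat_lit 76) (nat_lit 13320467738) (nat_lit 0) (nat_lit 159338044) (nat_lit 1824) (nat_lit 2175655500) (nat_lit 526) (nat_lit 5) (nat_lit 525) (nat_lit 5) (nat_lit 549) (nat_lit 5) (nat_lit 452) (nat_lit 443) (nat_lit 245)))) (XT.nd (nat_lit 156) (nat_lit 1748) (nat_lit 0) (XT.nd (nat_lit 78) (nat_lit 0) (nat_lit 0) (XT.lf (nat_lit 76) (nat_lit 5828985962) (nat_lit 0) (nat_lit 8570572891) (nat_lit 1824) (nat_lit 1410911606) (nat_lit 527) (nat_lit 5) (nat_lit 526) (nat_lit 5) (nat_lit 550) (nat_lit 5) (nat_lit 453) (nat_lit 443) (nat_lit 244)) (XT.lf (nat_lit 76) (nat_lit 14182122018) (nat_lit 0) (nat_lit 1165063544) (nat_lit 1824) (nat_lit 621204686) (nat_lit 527) (nat_lit 5) (nat_lit 526) (nat_lit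 5) (nat_lit 550) (nat_lit 5) (nat_lit 454) (nat_lit 443) (nat_lit 243))) (XT.nd (nat_lit 78) (nat_lit 0) (nat_lit 0) (XT.lf (nat_lit 0) (nat_lit 259727694) (nat_lit 1824) (nat_lit 9516292767) (nat_lit 1900) (nat_lit 6351867072) (nat_lit 503) (nat_lit 5) (nat_lit 527) (nat_lit 5) (nat_lit 528) (nat_lit 5) (nat_lit 455) (nat_lit 443) (nat_lit 242)) (XT.lf (nat_lit 0) (nat_lit 1162731617) (nat_lit 1824) (nat_lit 1105448584) (nat_lit 1900) (nat_lit 14022057024) (nat_lit 503) (nat_lit 5) (nat_lit 527) (nat_lit 5) (nat_lit 528) (nat_lit 5) (nat_lit 456) (nat_lit 443) (nat_lit 241))))))))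
noncomputable def xc127 : XT := (XT.nd (nat_lit 177294) (nat_lit 0) (nat_lit 1444) (XT.nd (nat_lit 59280) (nat_lit 76) (nat_lit 0) (XT.nd (nat_lit 58734) (nat_lit 0) (nat_lit 1520) (XT.nd (nat_lit 58500) (nat_lit 0) (nat_lit 1368) (XT.nd (nat_lit 58344) (nat_lit 0) (nat_lit 1368) (XT.lf (nat_lit 0) (nat_lit 2161385378) (nat_lit 1824) (nat_lit 8922190667) (nat_lit 1900) (nat_lit 5370706070) (nat_lit 504) (nat_lit 5) (nat_lit 528) (nat_lit 5) (nat_lit 529) (nat_lit 5) (nat_lit 457) (nat_lit 443) (nat_lit 240)) (XT.nd (nat_lit 78) (nat_lit 0) (nat_lit 0) (XT.lf (nat_lit 0) (nat_lit 2163651833) (nat_lit 0) (nat_lit 2163651833) (nat_lit 1748) (nat_lit 2986092648) (nat_lit 522) (nat_lit 5) (nat_lit 522) (nat_lit 3) (nat_lit 545) (nat_lit 3) (nat_lit 444) (nat_lit 444) (nat_lit 252)) (XT.lf (nat_lit 0) (nat_lit 9074306129) (nat_lit 1748) (nat_lit 3001703477) (nat_lit 1824) (nat_lit 2690387896) (nat_lit 522) (nat_lit 5) (nat_lit 545) (nat_lit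 3) (nat_lit 546) (nat_lit 5) (nat_lit 445) (nat_lit 444) (nat_lit 251)))) (XT.nd (nat_lit 78) (nat_lit 0) (nat_lit 76) (XT.lf (nat_lit 76) (nat_lit 4467644469) (nat_lit 0) (nat_lit 5084171403) (nat_lit 1824) (nat_lit 5355990260) (nat_lit 523) (nat_lit 5) (nat_lit 522) (nat_lit 5) (nat_lit 546) (nat_lit 5) (nat_lit 446) (nat_lit 444) (nat_lit 250)) (XT.nd (nat_lit 78) (nat_lit 0) (nat_lit 0) (XT.lf (nat_lit 0) (nat_lit 10064356937) (nat_lit 1748) (nat_lit 2942487085) (nat_lit 1824) (nat_lit 2044689290) (nat_lit 523) (nat_lit 5) (nat_lit 546) (nat_lit 5) (nat_lit 547) (nat_lit 5) (nat_lit 447) (nat_lit 444) (nat_lit 249)) (XT.lf (nat_lit 76) (nat_lit 4729093775) (nat_lit 0) (nat_lit 5914499046) (nat_lit 1824) (nat_lit 4553413335) (nat_lit 524) (nat_lit 5) (nat_lit 523) (nat_lit 5) (nat_lit 547) (nat_lit 5) (nat_lit 448) (nat_lit 444) (nat_lit 248))))) (XT.nd (nat_lit 234) (nat_lit 0) (nat_lit 76) (XT.nd (nat_lit 78) (nat_lit 0) (nat_lit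 0) (XT.lf (nat_lit 0) (nat_lit 11255077125) (nat_lit 1748) (nat_lit 2764249707) (nat_lit 1824) (nat_lit 1325648350) (nat_lit 524) (nat_lit 5) (nat_lit 547) (nat_lit 5) (nat_lit 548) (nat_lit 5) (nat_lit 449) (nat_lit 444) (nat_lit 247)) (XT.nd (nat_lit 78) (nat_lit 0) (nat_lit 76) (XT.lf (nat_lit 76) (nat_lit 5116966984) (nat_lit 0) (nat_lit 6826587288) (nat_lit 1824) (nat_lit 3551054054) (nat_lit 525) (nat_lit 5) (nat_lit 524) (nat_lit 5) (nat_lit 548) (nat_lit 5) (nat_lit 450) (nat_lit 444) (nat_lit 246)) (XT.lf (nat_lit 0) (nat_lit 12660297014) (nat_lit 1748) (nat_lit 2461620243) (nat_lit 1824) (nat_lit 525026954) (nat_lit 525) (nat_lit 5) (nat_lit 548) (nat_lit 5) (nat_lit 549) (nat_lit 5) (nat_lit 451) (nat_lit 444) (nat_lit 245)))) (XT.nd (nat_lit 156) (nat_lit 0) (nat_lit 76) (XT.nd (nat_lit 78) (nat_lit 0) (nat_lit 0) (XT.lf (nat_lit 76) (nat_lit 5636930571) (nat_lit 0) (nat_lit 7828911067) (nat_lit 1824) (nat_lit 2334995836)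 (nat_lit 526) (nat_lit 5) (nat_lit 525) (nat_lit 5) (nat_lit 549) (nat_lit 5) (nat_lit 452) (nat_lit 444) (nat_lit 244)) (XT.lf (nat_lit 76) (nat_lit 13926339112) (nat_lit 0) (nat_lit 370450802) (nat_lit 1824) (nat_lit 1660832833) (nat_lit 526) (nat_lit 5) (nat_lit 525) (nat_lit 5) (nat_lit 549) (nat_lit 5) (nat_lit 453) (nat_lit 444) (nat_lit 243))) (XT.nd (nat_lit 78) (nat_lit 0) (nat_lit 0) (XT.lf (nat_lit 76) (nat_lit 6295011245) (nat_lit 0) (nat_lit 8930139012) (nat_lit 1824) (nat_lit 890777606) (nat_lit 527) (nat_lit 5) (nat_lit 526) (nat_lit 5) (nat_lit 550) (nat_lit 5) (nat_lit 454) (nat_lit 444) (nat_lit 242)) (XT.lf (nat_lit 76) (nat_lit 14808358148) (nat_lit 0) (nat_lit 1372830171) (nat_lit 1824) (nat_lit 96028553) (nat_lit 527) (nat_lit 5) (nat_lit 526) (nat_lit 5) (nat_lit 550) (nat_lit 5) (nat_lit 455) (nat_lit 444) (nat_lit 241)))))) (XT.nd (nat_lit 58890) (nat_lit 0) (nat_lit 1444) (XT.nd (nat_lit 58656) (nat_lit 0) (nat_lit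 1444) (XT.nd (nat_lit 58500) (nat_lit 0) (nat_lit 1444) (XT.lf (nat_lit 0) (nat_lit 786187418) (nat_lit 1824) (nat_lit 9347689875) (nat_lit 1900) (nat_lit 6306142687) (nat_lit 503) (nat_lit 5) (nat_lit 527) (nat_lit 5) (nat_lit 528) (nat_lit 5) (nat_lit 456) (nat_lit 444) (nat_lit 240)) (XT.nd (nat_lit 78) (nat_lit 0) (nat_lit 0) (XT.lf (nat_lit 0) (nat_lit 2363627206) (nat_lit 0) (nat_lit 2363627206) (nat_lit 1748) (nat_lit 2726141735) (nat_lit 522) (nat_lit 5) (nat_lit 522) (nat_lit 3) (nat_lit 545) (nat_lit 3) (nat_lit 445) (nat_lit 445) (nat_lit 250)) (XT.lf (nat_lit 0) (nat_lit 9868316285) (nat_lit 1748) (nat_lit 2740192752) (nat_lit 1824) (nat_lit 2440965935) (nat_lit 522) (nat_lit 5) (nat_lit 545) (nat_lit 3) (nat_lit 546) (nat_lit 5) (nat_lit 446) (nat_lit 445) (nat_lit 249)))) (XT.nd (nat_lit 78) (nat_lit 0) (nat_lit 76) (XT.lf (nat_lit 76) (nat_lit 4876426726) (nat_lit 0) (nat_lit 5469013168) (nat_lit 1824) (nat_lit 4848470607)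 (nat_lit 523) (nat_lit 5) (nat_lit 522) (nat_lit 5) (nat_lit 546) (nat_lit 5) (nat_lit 447) (nat_lit 445) (nat_lit 248)) (XT.nd (nat_lit 78) (nat_lit 0) (nat_lit 0) (XT.lf (nat_lit 0) (nat_lit 10854613931) (nat_lit 1748) (nat_lit 2674552931) (nat_lit 1824) (nat_lit 1811617718) (nat_lit 523) (nat_lit 5) (nat_lit 546) (nat_lit 5) (nat_lit 547) (nat_lit 5) (nat_lit 448) (nat_lit 445) (nat_lit 247)) (XT.lf (nat_lit 76) (nat_lit 5148309652) (nat_lit 0) (nat_lit 6287684191) (nat_lit 1824) (nat_lit 4053361852) (nat_lit 524) (nat_lit 5) (nat_lit 523) (nat_lit 5) (nat_lit 547) (nat_lit 5) (nat_lit 449) (nat_lit 445) (nat_lit 246))))) (XT.nd (nat_lit 234) (nat_lit 152) (nat_lit 0) (XT.nd (nat_lit 78) (nat_lit 0) (nat_lit 0) (XT.lf (nat_lit 0) (nat_lit 12046722018) (nat_lit 1748) (nat_lit 2488280257) (nat_lit 1824) (nat_lit 1105541544) (nat_lit 524) (nat_lit 5) (nat_lit 547) (nat_lit 5) (nat_lit 548) (nat_lit 5) (nat_lit 450) (nat_lit 445) (nat_lit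 245)) (XT.nd (nat_lit 78) (nat_lit 0) (nat_lit 76) (XT.lf (nat_lit 76) (nat_lit 5548381463) (nat_lit 0) (nat_lit 7191615127) (nat_lit 1824) (nat_lit 3053352478) (nat_lit 525) (nat_lit 5) (nat_lit 524) (nat_lit 5) (nat_lit 548) (nat_lit 5) (nat_lit 451) (nat_lit 445) (nat_lit 244)) (XT.lf (nat_lit 0) (nat_lit 13458686958) (nat_lit 1748) (nat_lit 2175842734) (nat_lit 1824) (nat_lit 314449723) (nat_lit 525) (nat_lit 5) (nat_lit 548) (nat_lit 5) (nat_lit 549) (nat_lit 5) (nat_lit 452) (nat_lit 445) (nat_lit 243)))) (XT.nd (nat_lit 156) (nat_lit 228) (nat_lit 0) (XT.nd (nat_lit 78) (nat_lit 0) (nat_lit 0) (XT.lf (nat_lit 76) (nat_lit 6082475083) (nat_lit 0) (nat_lit 8189338305) (nat_lit 1824) (nat_lit 1834307737) (nat_lit 526) (nat_lit 5) (nat_lit 525) (nat_lit 5) (nat_lit 549) (nat_lit 5) (nat_lit 453) (nat_lit 445) (nat_lit 242)) (XT.lf (nat_lit 76) (nat_lit 14531146189) (nat_lit 0) (nat_lit 577711795) (nat_lit 1824) (nat_lit 1157394572)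 (nat_lit 526) (nat_lit 5) (nat_lit 525) (nat_lit 5) (nat_lit 549) (nat_lit 5) (nat_lit 454) (nat_lit 445) (nat_lit 241))) (XT.nd (nat_lit 58656) (nat_lit 304) (nat_lit 0) (XT.lf (nat_lit 76) (nat_lit 6756787637) (nat_lit 0) (nat_lit 9289590181) (nat_lit 1824) (nat_lit 381534112) (nat_lit 527) (nat_lit 5) (nat_lit 526) (nat_lit 5) (nat_lit 550) (nat_lit 5) (nat_lit 455) (nat_lit 445) (nat_lit 240)) (XT.lf (nat_lit 0) (nat_lit 2561517144) (nat_lit 0) (nat_lit 2561517144) (nat_lit 1748) (nat_lit 2473405088) (nat_lit 522) (nat_lit 5) (nat_lit 522) (nat_lit 3) (nat_lit 545) (nat_lit 3) (nat_lit 446) (nat_lit 446) (nat_lit 248))))))) (XT.nd (nat_lit 59670) (nat_lit 0) (nat_lit 0) (XT.nd (nat_lit 468) (nat_lit 0) (nat_lit 0) (XT.nd (nat_lit 234) (nat_lit 0) (nat_lit 76) (XT.nd (nat_lit 78) (nat_lit 0) (nat_lit 0) (XT.lf (nat_lit 0) (nat_lit 10654421588) (nat_lit 1748) (nat_lit 2485937789) (nat_lit 1824) (nat_lit 2198330314) (nat_lit 522) (nat_lit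 5) (nat_lit 545) (nat_lit 3) (nat_lit 546) (nat_lit 5) (nat_lit 447) (nat_lit 446) (nat_lit 247)) (XT.nd (nat_lit 78) (nat_lit 0) (nat_lit 76) (XT.lf (nat_lit 76) (nat_lit 5280980797) (nat_lit 0) (nat_lit 5850556385) (nat_lit 1824) (nat_lit 4354667759) (nat_lit 523) (nat_lit 5) (nat_lit 522) (nat_lit 5) (nat_lit 546) (nat_lit 5) (nat_lit 448) (nat_lit 446) (nat_lit 246)) (XT.lf (nat_lit 0) (nat_lit 11637805648) (nat_lit 1748) (nat_lit 2413949511) (nat_lit 1824) (nat_lit 1584523124) (nat_lit 523) (nat_lit 5) (nat_lit 546) (nat_lit 5) (nat_lit 547) (nat_lit 5) (nat_lit 449) (nat_lit 446) (nat_lit 245)))) (XT.nd (nat_lit 78) (nat_lit 0) (nat_lit 76) (XT.lf (nat_lit 76) (nat_lit 5563303913) (nat_lit 0) (nat_lit 6658435150) (nat_lit 1824) (nat_lit 3566263240) (nat_lit 524) (nat_lit 5) (nat_lit 523) (nat_lit 5) (nat_lit 547) (nat_lit 5) (nat_lit 450) (nat_lit 446) (nat_lit 244)) (XT.nd (nat_lit 78) (nat_lit 0) (nat_lit 0) (XT.lf (nat_lit 0)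 (nat_lit 12832200241) (nat_lit 1748) (nat_lit 2219654431) (nat_lit 1824) (nat_lit 890609148) (nat_lit 524) (nat_lit 5) (nat_lit 547) (nat_lit 5) (nat_lit 548) (nat_lit 5) (nat_lit 451) (nat_lit 446) (nat_lit 243)) (XT.lf (nat_lit 76) (nat_lit 5975645842) (nat_lit 0) (nat_lit 7555070741) (nat_lit 1824) (nat_lit 2567781065) (nat_lit 525) (nat_lit 5) (nat_lit 524) (nat_lit 5) (nat_lit 548) (nat_lit 5) (nat_lit 452) (nat_lit 446) (nat_lit 242))))) (XT.nd (nat_lit 58890) (nat_lit 228) (nat_lit 0) (XT.nd (nat_lit 78) (nat_lit 0) (nat_lit 0) (XT.lf (nat_lit 0) (nat_lit 14251874542) (nat_lit 1748) (nat_lit 1897358519) (nat_lit 1824) (nat_lit 108245667) (nat_lit 525) (nat_lit 5) (nat_lit 548) (nat_lit 5) (nat_lit 549) (nat_lit 5) (nat_lit 453) (nat_lit 446) (nat_lit 241)) (XT.nd (nat_lit 78) (nat_lit 0) (nat_lit 0) (XT.lf (nat_lit 76) (nat_lit 6524007227) (nat_lit 0) (nat_lit 8549058383) (nat_lit 1824) (nat_lit 1344861619) (nat_lit 526) (nat_lit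 5) (nat_lit 525) (nat_lit 5) (nat_lit 549) (nat_lit 5) (nat_lit 454) (nat_lit 446) (nat_lit 240)) (XT.lf (nat_lit 76) (nat_lit 15135379547) (nat_lit 0) (nat_lit 781357513) (nat_lit 1824) (nat_lit 664726510) (nat_lit 526) (nat_lit 5) (nat_lit 525) (nat_lit 5) (nat_lit 549) (nat_lit 5) (nat_lit 455) (nat_lit 446) (nat_lit 239)))) (XT.nd (nat_lit 156) (nat_lit 0) (nat_lit 0) (XT.nd (nat_lit 78) (nat_lit 0) (nat_lit 0) (XT.lf (nat_lit 0) (nat_lit 2757516223) (nat_lit 0) (nat_lit 2757516223) (nat_lit 1748) (nat_lit 2227544967) (nat_lit 522) (nat_lit 5) (nat_lit 522) (nat_lit 3) (nat_lit 545) (nat_lit 3) (nat_lit 447) (nat_lit 447) (nat_lit 246)) (XT.lf (nat_lit 0) (nat_lit 11433387546) (nat_lit 1748) (nat_lit 2238598858) (nat_lit 1824) (nat_lit 1962159531) (nat_lit 522) (nat_lit 5) (nat_lit 545) (nat_lit 3) (nat_lit 546) (nat_lit 5) (nat_lit 448) (nat_lit 447) (nat_lit 245))) (XT.nd (nat_lit 78) (nat_lit 0) (nat_lit 76) (XT.lf (nat_lit 76)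 (nat_lit 5681703773) (nat_lit 0) (nat_lit 6229162047) (nat_lit 1824) (nat_lit 3873929262) (nat_lit 523) (nat_lit 5) (nat_lit 522) (nat_lit 5) (nat_lit 546) (nat_lit 5) (nat_lit 449) (nat_lit 447) (nat_lit 244)) (XT.lf (nat_lit 0) (nat_lit 12414678869) (nat_lit 1748) (nat_lit 2160330694) (nat_lit 1824) (nat_lit 1363111945) (nat_lit 523) (nat_lit 5) (nat_lit 546) (nat_lit 5) (nat_lit 547) (nat_lit 5) (nat_lit 450) (nat_lit 447) (nat_lit 243)))))) (XT.nd (nat_lit 59358) (nat_lit 0) (nat_lit 0) (XT.nd (nat_lit 234) (nat_lit 76) (nat_lit 0) (XT.nd (nat_lit 78) (nat_lit 0) (nat_lit 76) (XT.lf (nat_lit 76) (nat_lit 5974481629) (nat_lit 0) (nat_lit 7027087585) (nat_lit 1824) (nat_lit 3091485227) (nat_lit 524) (nat_lit 5) (nat_lit 523) (nat_lit 5) (nat_lit 547) (nat_lit 5) (nat_lit 451) (nat_lit 447) (nat_lit 242)) (XT.nd (nat_lit 78) (nat_lit 0) (nat_lit 0) (XT.lf (nat_lit 0) (nat_lit 13612242729) (nat_lit 1748) (nat_lit 1958019616) (nat_lit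 1824) (nat_lit 680582781) (nat_lit 524) (nat_lit 5) (nat_lit 547) (nat_lit 5) (nat_lit 548) (nat_lit 5) (nat_lit 452) (nat_lit 447) (nat_lit 241)) (XT.lf (nat_lit 76) (nat_lit 6399173321) (nat_lit 0) (nat_lit 7917267226) (nat_lit 1824) (nat_lit 2093724861) (nat_lit 525) (nat_lit 5) (nat_lit 524) (nat_lit 5) (nat_lit 548) (nat_lit 5) (nat_lit 453) (nat_lit 447) (nat_lit 240)))) (XT.nd (nat_lit 58968) (nat_lit 0) (nat_lit 0) (XT.nd (nat_lit 58890) (nat_lit 152) (nat_lit 0) (XT.lf (nat_lit 76) (nat_lit 14946117018) (nat_lit 0) (nat_lit 95078072) (nat_lit 1824) (nat_lit 1531347550) (nat_lit 525) (nat_lit 5) (nat_lit 524) (nat_lit 5) (nat_lit 548) (nat_lit 5) (nat_lit 454) (nat_lit 447) (nat_lit 239)) (XT.lf (nat_lit 0) (nat_lit 2951813737) (nat_lit 0) (nat_lit 2951813737) (nat_lit 1748) (nat_lit 1988235599) (nat_lit 522) (nat_lit 5) (nat_lit 522) (nat_lit 3) (nat_lit 545) (nat_lit 3) (nat_lit 448) (nat_lit 448) (nat_lit 244))) (XT.nd (nat_lit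 78) (nat_lit 0) (nat_lit 0) (XT.lf (nat_lit 0) (nat_lit 12205959108) (nat_lit 1748) (nat_lit 1997848260) (nat_lit 1824) (nat_lit 1732143409) (nat_lit 522) (nat_lit 5) (nat_lit 545) (nat_lit 3) (nat_lit 546) (nat_lit 5) (nat_lit 449) (nat_lit 448) (nat_lit 243)) (XT.lf (nat_lit 76) (nat_lit 6078981986) (nat_lit 0) (nat_lit 6605181788) (nat_lit 1824) (nat_lit 3405625597) (nat_lit 523) (nat_lit 5) (nat_lit 522) (nat_lit 5) (nat_lit 546) (nat_lit 5) (nat_lit 450) (nat_lit 448) (nat_lit 242))))) (XT.nd (nat_lit 59280) (nat_lit 76) (nat_lit 0) (XT.nd (nat_lit 78) (nat_lit 0) (nat_lit 0) (XT.lf (nat_lit 0) (nat_lit 13185960823) (nat_lit 1748) (nat_lit 1913362561) (nat_lit 1824) (nat_lit 1147100787) (nat_lit 523) (nat_lit 5) (nat_lit 546) (nat_lit 5) (nat_lit 547) (nat_lit 5) (nat_lit 451) (nat_lit 448) (nat_lit 241)) (XT.nd (nat_lit 78) (nat_lit 0) (nat_lit 76) (XT.lf (nat_lit 76) (nat_lit 6382236964) (nat_lit 0) (nat_lit 7393968949) (nat_lit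 1824) (nat_lit 2628417510) (nat_lit 524) (nat_lit 5) (nat_lit 523) (nat_lit 5) (nat_lit 547) (nat_lit 5) (nat_lit 452) (nat_lit 448) (nat_lit 240)) (XT.lf (nat_lit 0) (nat_lit 14387561866) (nat_lit 1748) (nat_lit 1703035541) (nat_lit 1824) (nat_lit 475203136) (nat_lit 524) (nat_lit 5) (nat_lit 547) (nat_lit 5) (nat_lit 548) (nat_lit 5) (nat_lit 453) (nat_lit 448) (nat_lit 239)))) (XT.nd (nat_lit 156) (nat_lit 0) (nat_lit 0) (XT.nd (nat_lit 78) (nat_lit 0) (nat_lit 0) (XT.lf (nat_lit 0) (nat_lit 12972861654) (nat_lit 1748) (nat_lit 1763369839) (nat_lit 1824) (nat_lit 1507982632) (nat_lit 522) (nat_lit 5) (nat_lit 545) (nat_lit 3) (nat_lit 546) (nat_lit 5) (nat_lit 450) (nat_lit 449) (nat_lit 241)) (XT.lf (nat_lit 76) (nat_lit 6473191515) (nat_lit 0) (nat_lit 6978958338) (nat_lit 1824) (nat_lit 2949149249) (nat_lit 523) (nat_lit 5) (nat_lit 522) (nat_lit 5) (nat_lit 546) (nat_lit 5) (nat_lit 451) (nat_lit 449) (nat_lit 240))) (XT.nd (nat_lit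 59280) (nat_lit 76) (nat_lit 0) (XT.lf (nat_lit 0) (nat_lit 13952360140) (nat_lit 1748) (nat_lit 1672722903) (nat_lit 1824) (nat_lit 936216008) (nat_lit 523) (nat_lit 5) (nat_lit 546) (nat_lit 5) (nat_lit 547) (nat_lit 5) (nat_lit 452) (nat_lit 449) (nat_lit 239)) (XT.lf (nat_lit 0) (nat_lit 13734801936) (nat_lit 1748) (nat_lit 1534858511) (nat_lit 1824) (nat_lit 1289388300) (nat_lit 522) (nat_lit 5) (nat_lit 545) (nat_lit 3) (nat_lit 546) (nat_lit 5) (nat_lit 451) (nat_lit 450) (nat_lit 239))))))))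
noncomputable def ec0 : XT := (XT.nd (nat_lit 236808) (nat_lit 0) (nat_lit 0) (XT.nd (nat_lit 118716) (nat_lit 0) (nat_lit 0) (XT.nd (nat_lit 59436) (nat_lit 0) (nat_lit 0) (XT.nd (nat_lit 59202) (nat_lit 0) (nat_lit 0) (XT.nd (nat_lit 78) (nat_lit 0) (nat_lit 0) (XT.lf (nat_lit 1900) (nat_lit 387418670) (nat_lit 0) (nat_lit 390658391) (nat_lit 1900) (nat_lit 387418670) (nat_lit 522) (nat_lit 1) (nat_lit 497) (nat_lit 0) (nat_lit 522) (nat_lit 0) (nat_lit 436) (nat_lit 352) (nat_lit 352)) (XT.nd (nat_lit 78) (nat_lit 0) (nat_lit 76) (XT.lf (nat_lit 1900) (nat_lit 1531911670) (nat_lit 76) (nat_lit 388088270) (nat_lit 0) (nat_lit 388088270) (nat_lit 522) (nat_lit 1) (nat_lit 498) (nat_lit 1) (nat_lit 497) (nat_lit 0) (nat_lit 437) (nat_lit 352) (nat_lit 351)) (XT.lf (nat_lit 1900) (nat_lit 752175922) (nat_lit 0) (nat_lit 781083274) (nat_lit 1824) (nat_lit 752175922) (nat_lit 523) (nat_lit 1) (nat_lit 498) (nat_lit 1) (nat_lit 522) (nat_lit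 1) (nat_lit 438) (nat_lit 352) (nat_lit 350)))) (XT.nd (nat_lit 78) (nat_lit 0) (nat_lit 0) (XT.lf (nat_lit 1900) (nat_lit 395167043) (nat_lit 0) (nat_lit 398471559) (nat_lit 1900) (nat_lit 395167043) (nat_lit 522) (nat_lit 1) (nat_lit 497) (nat_lit 0) (nat_lit 522) (nat_lit 0) (nat_lit 434) (nat_lit 353) (nat_lit 353)) (XT.nd (nat_lit 78) (nat_lit 0) (nat_lit 76) (XT.lf (nat_lit 1900) (nat_lit 1562549904) (nat_lit 76) (nat_lit 395850035) (nat_lit 0) (nat_lit 395850035) (nat_lit 522) (nat_lit 1) (nat_lit 498) (nat_lit 1) (nat_lit 497) (nat_lit 0) (nat_lit 435) (nat_lit 353) (nat_lit 352)) (XT.lf (nat_lit 1900) (nat_lit 767219440) (nat_lit 0) (nat_lit 796704939) (nat_lit 1824) (nat_lit 767219440) (nat_lit 523) (nat_lit 1) (nat_lit 498) (nat_lit 1) (nat_lit 522) (nat_lit 1) (nat_lit 436) (nat_lit 353) (nat_lit 351))))) (XT.nd (nat_lit 59046) (nat_lit 0) (nat_lit 0) (XT.nd (nat_lit 78) (nat_lit 76) (nat_lit 0) (XT.lf (nat_lit 1900) (nat_lit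 1501637575) (nat_lit 76) (nat_lit 403375189) (nat_lit 0) (nat_lit 403375189) (nat_lit 523) (nat_lit 1) (nat_lit 499) (nat_lit 1) (nat_lit 498) (nat_lit 1) (nat_lit 437) (nat_lit 353) (nat_lit 350)) (XT.nd (nat_lit 58890) (nat_lit 152) (nat_lit 0) (XT.lf (nat_lit 1900) (nat_lit 729767406) (nat_lit 0) (nat_lit 826348476) (nat_lit 1824) (nat_lit 729767406) (nat_lit 524) (nat_lit 1) (nat_lit 499) (nat_lit 1) (nat_lit 523) (nat_lit 1) (nat_lit 438) (nat_lit 353) (nat_lit 349)) (XT.lf (nat_lit 1900) (nat_lit 403070384) (nat_lit 0) (nat_lit 406440990) (nat_lit 1900) (nat_lit 403070384) (nat_lit 522) (nat_lit 1) (nat_lit 497) (nat_lit 0) (nat_lit 522) (nat_lit 0) (nat_lit 432) (nat_lit 354) (nat_lit 354)))) (XT.nd (nat_lit 78) (nat_lit 0) (nat_lit 76) (XT.lf (nat_lit 1900) (nat_lit 1593800902) (nat_lit 76) (nat_lit 403767036) (nat_lit 0) (nat_lit 403767036) (nat_lit 522) (nat_lit 1) (nat_lit 498) (nat_lit 1) (nat_lit 497) (nat_lit 0) (nat_lit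 433) (nat_lit 354) (nat_lit 353)) (XT.nd (nat_lit 78) (nat_lit 0) (nat_lit 0) (XT.lf (nat_lit 1900) (nat_lit 782563829) (nat_lit 0) (nat_lit 812639038) (nat_lit 1824) (nat_lit 782563829) (nat_lit 523) (nat_lit 1) (nat_lit 498) (nat_lit 1) (nat_lit 522) (nat_lit 1) (nat_lit 434) (nat_lit 354) (nat_lit 352)) (XT.lf (nat_lit 1900) (nat_lit 1531670327) (nat_lit 76) (nat_lit 411442693) (nat_lit 0) (nat_lit 411442693) (nat_lit 523) (nat_lit 1) (nat_lit 499) (nat_lit 1) (nat_lit 498) (nat_lit 1) (nat_lit 435) (nat_lit 354) (nat_lit 351)))))) (XT.nd (nat_lit 59124) (nat_lit 0) (nat_lit 76) (XT.nd (nat_lit 58890) (nat_lit 152) (nat_lit 0) (XT.nd (nat_lit 78) (nat_lit 0) (nat_lit 0) (XT.lf (nat_lit 1900) (nat_lit 744362754) (nat_lit 0) (nat_lit 842875446) (nat_lit 1824) (nat_lit 744362754) (nat_lit 524) (nat_lit 1) (nat_lit 499) (nat_lit 1) (nat_lit 523) (nat_lit 1) (nat_lit 436) (nat_lit 354) (nat_lit 350)) (XT.nd (nat_lit 78) (nat_lit 0) (nat_lit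 76) (XT.lf (nat_lit 1900) (nat_lit 1441077512) (nat_lit 76) (nat_lit 433955023) (nat_lit 0) (nat_lit 433955023) (nat_lit 524) (nat_lit 1) (nat_lit 500) (nat_lit 1) (nat_lit 499) (nat_lit 1) (nat_lit 437) (nat_lit 354) (nat_lit 349)) (XT.lf (nat_lit 1900) (nat_lit 692410115) (nat_lit 0) (nat_lit 901810203) (nat_lit 1824) (nat_lit 692410115) (nat_lit 525) (nat_lit 1) (nat_lit 500) (nat_lit 1) (nat_lit 524) (nat_lit 1) (nat_lit 438) (nat_lit 354) (nat_lit 348)))) (XT.nd (nat_lit 78) (nat_lit 0) (nat_lit 0) (XT.lf (nat_lit 1900) (nat_lit 411131792) (nat_lit 0) (nat_lit 414569810) (nat_lit 1900) (nat_lit 411131792) (nat_lit 522) (nat_lit 1) (nat_lit 497) (nat_lit 0) (nat_lit 522) (nat_lit 0) (nat_lit 430) (nat_lit 355) (nat_lit 355)) (XT.nd (nat_lit 78) (nat_lit 0) (nat_lit 76) (XT.lf (nat_lit 1900) (nat_lit 1625676920) (nat_lit 76) (nat_lit 411842377) (nat_lit 0) (nat_lit 411842377) (nat_lit 522) (nat_lit 1) (nat_lit 498) (nat_lit 1) (nat_lit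 497) (nat_lit 0) (nat_lit 431) (nat_lit 355) (nat_lit 354)) (XT.lf (nat_lit 1900) (nat_lit 798215106) (nat_lit 0) (nat_lit 828891819) (nat_lit 1824) (nat_lit 798215106) (nat_lit 523) (nat_lit 1) (nat_lit 498) (nat_lit 1) (nat_lit 522) (nat_lit 1) (nat_lit 432) (nat_lit 355) (nat_lit 353))))) (XT.nd (nat_lit 234) (nat_lit 0) (nat_lit 152) (XT.nd (nat_lit 78) (nat_lit 0) (nat_lit 76) (XT.lf (nat_lit 1900) (nat_lit 1562303733) (nat_lit 76) (nat_lit 419671547) (nat_lit 0) (nat_lit 419671547) (nat_lit 523) (nat_lit 1) (nat_lit 499) (nat_lit 1) (nat_lit 498) (nat_lit 1) (nat_lit 433) (nat_lit 355) (nat_lit 352)) (XT.nd (nat_lit 78) (nat_lit 0) (nat_lit 0) (XT.lf (nat_lit 1900) (nat_lit 759250009) (nat_lit 0) (nat_lit 859732954) (nat_lit 1824) (nat_lit 759250009) (nat_lit 524) (nat_lit 1) (nat_lit 499) (nat_lit 1) (nat_lit 523) (nat_lit 1) (nat_lit 434) (nat_lit 355) (nat_lit 351)) (XT.lf (nat_lit 1900) (nat_lit 1469899063) (nat_lit 76) (nat_lit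 442634123) (nat_lit 0) (nat_lit 442634123) (nat_lit 524) (nat_lit 1) (nat_lit 500) (nat_lit 1) (nat_lit 499) (nat_lit 1) (nat_lit 435) (nat_lit 355) (nat_lit 350)))) (XT.nd (nat_lit 78) (nat_lit 0) (nat_lit 0) (XT.lf (nat_lit 1900) (nat_lit 706258318) (nat_lit 0) (nat_lit 919846407) (nat_lit 1824) (nat_lit 706258318) (nat_lit 525) (nat_lit 1) (nat_lit 500) (nat_lit 1) (nat_lit 524) (nat_lit 1) (nat_lit 436) (nat_lit 355) (nat_lit 349)) (XT.nd (nat_lit 78) (nat_lit 0) (nat_lit 76) (XT.lf (nat_lit 1900) (nat_lit 1350207733) (nat_lit 76) (nat_lit 479839763) (nat_lit 0) (nat_lit 479839763) (nat_lit 525) (nat_lit 1) (nat_lit 501) (nat_lit 1) (nat_lit 500) (nat_lit 1) (nat_lit 437) (nat_lit 355) (nat_lit 348)) (XT.lf (nat_lit 1900) (nat_lit 640089400) (nat_lit 0) (nat_lit 1007498047) (nat_lit 1824) (nat_lit 640089400) (nat_lit 526) (nat_lit 1) (nat_lit 501) (nat_lit 1) (nat_lit 525) (nat_lit 1) (nat_lit 438) (nat_lit 355) (nat_lit 347)))))))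 (XT.nd (nat_lit 59280) (nat_lit 0) (nat_lit 0) (XT.nd (nat_lit 468) (nat_lit 0) (nat_lit 0) (XT.nd (nat_lit 234) (nat_lit 0) (nat_lit 76) (XT.nd (nat_lit 78) (nat_lit 0) (nat_lit 0) (XT.lf (nat_lit 1900) (nat_lit 419354427) (nat_lit 0) (nat_lit 422861206) (nat_lit 1900) (nat_lit 419354427) (nat_lit 522) (nat_lit 1) (nat_lit 497) (nat_lit 0) (nat_lit 522) (nat_lit 0) (nat_lit 428) (nat_lit 356) (nat_lit 356)) (XT.nd (nat_lit 78) (nat_lit 0) (nat_lit 76) (XT.lf (nat_lit 1900) (nat_lit 1658190458) (nat_lit 76) (nat_lit 420079224) (nat_lit 0) (nat_lit 420079224) (nat_lit 522) (nat_lit 1) (nat_lit 498) (nat_lit 1) (nat_lit 497) (nat_lit 0) (nat_lit 429) (nat_lit 356) (nat_lit 355)) (XT.lf (nat_lit 1900) (nat_lit 814179408) (nat_lit 0) (nat_lit 845469655) (nat_lit 1824) (nat_lit 814179408) (nat_lit 523) (nat_lit 1) (nat_lit 498) (nat_lit 1) (nat_lit 522) (nat_lit 1) (nat_lit 430) (nat_lit 356) (nat_lit 354)))) (XT.nd (nat_lit 78) (nat_lit 0)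 (nat_lit 76) (XT.lf (nat_lit 1900) (nat_lit 1593549808) (nat_lit 76) (nat_lit 428064978) (nat_lit 0) (nat_lit 428064978) (nat_lit 523) (nat_lit 1) (nat_lit 499) (nat_lit 1) (nat_lit 498) (nat_lit 1) (nat_lit 431) (nat_lit 356) (nat_lit 353)) (XT.nd (nat_lit 78) (nat_lit 0) (nat_lit 0) (XT.lf (nat_lit 1900) (nat_lit 774435009) (nat_lit 0) (nat_lit 876927614) (nat_lit 1824) (nat_lit 774435009) (nat_lit 524) (nat_lit 1) (nat_lit 499) (nat_lit 1) (nat_lit 523) (nat_lit 1) (nat_lit 432) (nat_lit 356) (nat_lit 352)) (XT.lf (nat_lit 1900) (nat_lit 1499297044) (nat_lit 76) (nat_lit 451486806) (nat_lit 0) (nat_lit 451486806) (nat_lit 524) (nat_lit 1) (nat_lit 500) (nat_lit 1) (nat_lit 499) (nat_lit 1) (nat_lit 433) (nat_lit 356) (nat_lit 351))))) (XT.nd (nat_lit 234) (nat_lit 228) (nat_lit 0) (XT.nd (nat_lit 78) (nat_lit 0) (nat_lit 0) (XT.lf (nat_lit 1900) (nat_lit 720383484) (nat_lit 0) (nat_lit 938243335) (nat_lit 1824) (nat_lit 720383484)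 (nat_lit 525) (nat_lit 1) (nat_lit 500) (nat_lit 1) (nat_lit 524) (nat_lit 1) (nat_lit 434) (nat_lit 356) (nat_lit 350)) (XT.nd (nat_lit 78) (nat_lit 0) (nat_lit 76) (XT.lf (nat_lit 1900) (nat_lit 1377211888) (nat_lit 76) (nat_lit 489436558) (nat_lit 0) (nat_lit 489436558) (nat_lit 525) (nat_lit 1) (nat_lit 501) (nat_lit 1) (nat_lit 500) (nat_lit 1) (nat_lit 435) (nat_lit 356) (nat_lit 349)) (XT.lf (nat_lit 1900) (nat_lit 652891188) (nat_lit 0) (nat_lit 1027648008) (nat_lit 1824) (nat_lit 652891188) (nat_lit 526) (nat_lit 1) (nat_lit 501) (nat_lit 1) (nat_lit 525) (nat_lit 1) (nat_lit 436) (nat_lit 356) (nat_lit 348)))) (XT.nd (nat_lit 78) (nat_lit 304) (nat_lit 0) (XT.lf (nat_lit 1900) (nat_lit 1228992603) (nat_lit 76) (nat_lit 541047403) (nat_lit 0) (nat_lit 541047403) (nat_lit 526) (nat_lit 1) (nat_lit 502) (nat_lit 1) (nat_lit 501) (nat_lit 1) (nat_lit 437) (nat_lit 356) (nat_lit 347)) (XT.nd (nat_lit 58422) (nat_lit 380) (nat_lit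 0) (XT.lf (nat_lit 1900) (nat_lit 572784743) (nat_lit 0) (nat_lit 1143453455) (nat_lit 1824) (nat_lit 572784743) (nat_lit 527) (nat_lit 1) (nat_lit 502) (nat_lit 1) (nat_lit 526) (nat_lit 1) (nat_lit 438) (nat_lit 356) (nat_lit 346)) (XT.lf (nat_lit 1900) (nat_lit 427741516) (nat_lit 0) (nat_lit 431318430) (nat_lit 1900) (nat_lit 427741516) (nat_lit 522) (nat_lit 1) (nat_lit 497) (nat_lit 0) (nat_lit 522) (nat_lit 0) (nat_lit 426) (nat_lit 357) (nat_lit 357)))))) (XT.nd (nat_lit 468) (nat_lit 0) (nat_lit 228) (XT.nd (nat_lit 234) (nat_lit 0) (nat_lit 152) (XT.nd (nat_lit 78) (nat_lit 0) (nat_lit 76) (XT.lf (nat_lit 1900) (nat_lit 1691354267) (nat_lit 76) (nat_lit 428480809) (nat_lit 0) (nat_lit 428480809) (nat_lit 522) (nat_lit 1) (nat_lit 498) (nat_lit 1) (nat_lit 497) (nat_lit 0) (nat_lit 427) (nat_lit 357) (nat_lit 356)) (XT.nd (nat_lit 78) (nat_lit 0) (nat_lit 0) (XT.lf (nat_lit 1900) (nat_lit 830462996) (nat_lit 0) (nat_lit 862379048)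 (nat_lit 1824) (nat_lit 830462996) (nat_lit 523) (nat_lit 1) (nat_lit 498) (nat_lit 1) (nat_lit 522) (nat_lit 1) (nat_lit 428) (nat_lit 357) (nat_lit 355)) (XT.lf (nat_lit 1900) (nat_lit 1625420804) (nat_lit 76) (nat_lit 436626277) (nat_lit 0) (nat_lit 436626277) (nat_lit 523) (nat_lit 1) (nat_lit 499) (nat_lit 1) (nat_lit 498) (nat_lit 1) (nat_lit 429) (nat_lit 357) (nat_lit 354)))) (XT.nd (nat_lit 78) (nat_lit 0) (nat_lit 0) (XT.lf (nat_lit 1900) (nat_lit 789923709) (nat_lit 0) (nat_lit 894466166) (nat_lit 1824) (nat_lit 789923709) (nat_lit 524) (nat_lit 1) (nat_lit 499) (nat_lit 1) (nat_lit 523) (nat_lit 1) (nat_lit 430) (nat_lit 357) (nat_lit 353)) (XT.nd (nat_lit 78) (nat_lit 0) (nat_lit 76) (XT.lf (nat_lit 1900) (nat_lit 1529282985) (nat_lit 76) (nat_lit 460516542) (nat_lit 0) (nat_lit 460516542) (nat_lit 524) (nat_lit 1) (nat_lit 500) (nat_lit 1) (nat_lit 499) (nat_lit 1) (nat_lit 431) (nat_lit 357) (nat_lit 352)) (XT.lf (nat_lit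 1900) (nat_lit 734791154) (nat_lit 0) (nat_lit 957008202) (nat_lit 1824) (nat_lit 734791154) (nat_lit 525) (nat_lit 1) (nat_lit 500) (nat_lit 1) (nat_lit 524) (nat_lit 1) (nat_lit 432) (nat_lit 357) (nat_lit 351))))) (XT.nd (nat_lit 234) (nat_lit 0) (nat_lit 152) (XT.nd (nat_lit 78) (nat_lit 0) (nat_lit 76) (XT.lf (nat_lit 1900) (nat_lit 1404756126) (nat_lit 76) (nat_lit 499225289) (nat_lit 0) (nat_lit 499225289) (nat_lit 525) (nat_lit 1) (nat_lit 501) (nat_lit 1) (nat_lit 500) (nat_lit 1) (nat_lit 433) (nat_lit 357) (nat_lit 350)) (XT.nd (nat_lit 78) (nat_lit 0) (nat_lit 0) (XT.lf (nat_lit 1900) (nat_lit 665949012) (nat_lit 0) (nat_lit 1048200968) (nat_lit 1824) (nat_lit 665949012) (nat_lit 526) (nat_lit 1) (nat_lit 501) (nat_lit 1) (nat_lit 525) (nat_lit 1) (nat_lit 434) (nat_lit 357) (nat_lit 349)) (XT.lf (nat_lit 1900) (nat_lit 1253572455) (nat_lit 76) (nat_lit 551868351) (nat_lit 0) (nat_lit 551868351) (nat_lit 526) (nat_lit 1) (nat_lit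 502) (nat_lit 1) (nat_lit 501) (nat_lit 1) (nat_lit 435) (nat_lit 357) (nat_lit 348)))) (XT.nd (nat_lit 78) (nat_lit 0) (nat_lit 0) (XT.lf (nat_lit 1900) (nat_lit 584240438) (nat_lit 0) (nat_lit 1166322524) (nat_lit 1824) (nat_lit 584240438) (nat_lit 527) (nat_lit 1) (nat_lit 502) (nat_lit 1) (nat_lit 526) (nat_lit 1) (nat_lit 436) (nat_lit 357) (nat_lit 347)) (XT.nd (nat_lit 78) (nat_lit 0) (nat_lit 76) (XT.lf (nat_lit 1900) (nat_lit 1077384585) (nat_lit 76) (nat_lit 617601946) (nat_lit 0) (nat_lit 617601946) (nat_lit 527) (nat_lit 1) (nat_lit 503) (nat_lit 1) (nat_lit 502) (nat_lit 1) (nat_lit 437) (nat_lit 357) (nat_lit 346)) (XT.lf (nat_lit 1900) (nat_lit 490469749) (nat_lit 0) (nat_lit 1309729743) (nat_lit 1824) (nat_lit 490469749) (nat_lit 528) (nat_lit 1) (nat_lit 503) (nat_lit 1) (nat_lit 527) (nat_lit 1) (nat_lit 438) (nat_lit 357) (nat_lit 345))))))))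
noncomputable def ec1 : XT := (XT.nd (nat_lit 59982) (nat_lit 0) (nat_lit 0) (XT.nd (nat_lit 936) (nat_lit 0) (nat_lit 0) (XT.nd (nat_lit 468) (nat_lit 0) (nat_lit 228) (XT.nd (nat_lit 234) (nat_lit 0) (nat_lit 76) (XT.nd (nat_lit 78) (nat_lit 0) (nat_lit 0) (XT.lf (nat_lit 1900) (nat_lit 436296346) (nat_lit 0) (nat_lit 439944799) (nat_lit 1900) (nat_lit 436296346) (nat_lit 522) (nat_lit 1) (nat_lit 497) (nat_lit 0) (nat_lit 522) (nat_lit 0) (nat_lit 424) (nat_lit 358) (nat_lit 358)) (XT.nd (nat_lit 78) (nat_lit 0) (nat_lit 76) (XT.lf (nat_lit 1900) (nat_lit 1725181353) (nat_lit 76) (nat_lit 437050425) (nat_lit 0) (nat_lit 437050425) (nat_lit 522) (nat_lit 1) (nat_lit 498) (nat_lit 1) (nat_lit 497) (nat_lit 0) (nat_lit 425) (nat_lit 358) (nat_lit 357)) (XT.lf (nat_lit 1900) (nat_lit 847072256) (nat_lit 0) (nat_lit 879626629) (nat_lit 1824) (nat_lit 847072256) (nat_lit 523) (nat_lit 1) (nat_lit 498) (nat_lit 1) (nat_lit 522) (nat_lit 1)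 (nat_lit 426) (nat_lit 358) (nat_lit 356)))) (XT.nd (nat_lit 78) (nat_lit 0) (nat_lit 76) (XT.lf (nat_lit 1900) (nat_lit 1657929220) (nat_lit 76) (nat_lit 445358803) (nat_lit 0) (nat_lit 445358803) (nat_lit 523) (nat_lit 1) (nat_lit 499) (nat_lit 1) (nat_lit 498) (nat_lit 1) (nat_lit 427) (nat_lit 358) (nat_lit 355)) (XT.nd (nat_lit 78) (nat_lit 0) (nat_lit 0) (XT.lf (nat_lit 1900) (nat_lit 805722184) (nat_lit 0) (nat_lit 912355489) (nat_lit 1824) (nat_lit 805722184) (nat_lit 524) (nat_lit 1) (nat_lit 499) (nat_lit 1) (nat_lit 523) (nat_lit 1) (nat_lit 428) (nat_lit 358) (nat_lit 354)) (XT.lf (nat_lit 1900) (nat_lit 1559868645) (nat_lit 76) (nat_lit 469726873) (nat_lit 0) (nat_lit 469726873) (nat_lit 524) (nat_lit 1) (nat_lit 500) (nat_lit 1) (nat_lit 499) (nat_lit 1) (nat_lit 429) (nat_lit 358) (nat_lit 353))))) (XT.nd (nat_lit 234) (nat_lit 0) (nat_lit 76) (XT.nd (nat_lit 78) (nat_lit 0) (nat_lit 0) (XT.lf (nat_lit 1900) (nat_lit 749486977)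 (nat_lit 0) (nat_lit 976148366) (nat_lit 1824) (nat_lit 749486977) (nat_lit 525) (nat_lit 1) (nat_lit 500) (nat_lit 1) (nat_lit 524) (nat_lit 1) (nat_lit 430) (nat_lit 358) (nat_lit 352)) (XT.nd (nat_lit 78) (nat_lit 0) (nat_lit 76) (XT.lf (nat_lit 1900) (nat_lit 1432851248) (nat_lit 76) (nat_lit 509209795) (nat_lit 0) (nat_lit 509209795) (nat_lit 525) (nat_lit 1) (nat_lit 501) (nat_lit 1) (nat_lit 500) (nat_lit 1) (nat_lit 431) (nat_lit 358) (nat_lit 351)) (XT.lf (nat_lit 1900) (nat_lit 679267992) (nat_lit 0) (nat_lit 1069164988) (nat_lit 1824) (nat_lit 679267992) (nat_lit 526) (nat_lit 1) (nat_lit 501) (nat_lit 1) (nat_lit 525) (nat_lit 1) (nat_lit 432) (nat_lit 358) (nat_lit 350)))) (XT.nd (nat_lit 78) (nat_lit 0) (nat_lit 76) (XT.lf (nat_lit 1900) (nat_lit 1278643904) (nat_lit 76) (nat_lit 562905718) (nat_lit 0) (nat_lit 562905718) (nat_lit 526) (nat_lit 1) (nat_lit 502) (nat_lit 1) (nat_lit 501) (nat_lit 1) (nat_lit 433) (nat_lit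 358) (nat_lit 349)) (XT.nd (nat_lit 78) (nat_lit 0) (nat_lit 0) (XT.lf (nat_lit 1900) (nat_lit 595925247) (nat_lit 0) (nat_lit 1189648975) (nat_lit 1824) (nat_lit 595925247) (nat_lit 527) (nat_lit 1) (nat_lit 502) (nat_lit 1) (nat_lit 526) (nat_lit 1) (nat_lit 434) (nat_lit 358) (nat_lit 348)) (XT.lf (nat_lit 1900) (nat_lit 1098932277) (nat_lit 76) (nat_lit 629953985) (nat_lit 0) (nat_lit 629953985) (nat_lit 527) (nat_lit 1) (nat_lit 503) (nat_lit 1) (nat_lit 502) (nat_lit 1) (nat_lit 435) (nat_lit 358) (nat_lit 347)))))) (XT.nd (nat_lit 58578) (nat_lit 0) (nat_lit 152) (XT.nd (nat_lit 58344) (nat_lit 0) (nat_lit 0) (XT.nd (nat_lit 78) (nat_lit 456) (nat_lit 0) (XT.lf (nat_lit 1900) (nat_lit 500279144) (nat_lit 0) (nat_lit 1335924338) (nat_lit 1824) (nat_lit 500279144) (nat_lit 528) (nat_lit 1) (nat_lit 503) (nat_lit 1) (nat_lit 527) (nat_lit 1) (nat_lit 436) (nat_lit 358) (nat_lit 346)) (XT.nd (nat_lit 58188) (nat_lit 456) (nat_lit 0)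 (XT.lf (nat_lit 1900) (nat_lit 895324226) (nat_lit 76) (nat_lit 709533415) (nat_lit 0) (nat_lit 709533415) (nat_lit 528) (nat_lit 1) (nat_lit 504) (nat_lit 1) (nat_lit 503) (nat_lit 1) (nat_lit 437) (nat_lit 358) (nat_lit 345)) (XT.lf (nat_lit 1900) (nat_lit 445022273) (nat_lit 0) (nat_lit 448743695) (nat_lit 1900) (nat_lit 445022273) (nat_lit 522) (nat_lit 1) (nat_lit 497) (nat_lit 0) (nat_lit 522) (nat_lit 0) (nat_lit 422) (nat_lit 359) (nat_lit 359)))) (XT.nd (nat_lit 78) (nat_lit 0) (nat_lit 76) (XT.lf (nat_lit 1900) (nat_lit 1759684980) (nat_lit 76) (nat_lit 445791433) (nat_lit 0) (nat_lit 445791433) (nat_lit 522) (nat_lit 1) (nat_lit 498) (nat_lit 1) (nat_lit 497) (nat_lit 0) (nat_lit 423) (nat_lit 359) (nat_lit 358)) (XT.nd (nat_lit 78) (nat_lit 0) (nat_lit 0) (XT.lf (nat_lit 1900) (nat_lit 864013701) (nat_lit 0) (nat_lit 897219162) (nat_lit 1824) (nat_lit 864013701) (nat_lit 523) (nat_lit 1) (nat_lit 498) (nat_lit 1) (nat_lit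 522) (nat_lit 1) (nat_lit 424) (nat_lit 359) (nat_lit 357)) (XT.lf (nat_lit 1900) (nat_lit 1691087804) (nat_lit 76) (nat_lit 454265979) (nat_lit 0) (nat_lit 454265979) (nat_lit 523) (nat_lit 1) (nat_lit 499) (nat_lit 1) (nat_lit 498) (nat_lit 1) (nat_lit 425) (nat_lit 359) (nat_lit 356))))) (XT.nd (nat_lit 234) (nat_lit 0) (nat_lit 76) (XT.nd (nat_lit 78) (nat_lit 0) (nat_lit 0) (XT.lf (nat_lit 1900) (nat_lit 821836627) (nat_lit 0) (nat_lit 930602599) (nat_lit 1824) (nat_lit 821836627) (nat_lit 524) (nat_lit 1) (nat_lit 499) (nat_lit 1) (nat_lit 523) (nat_lit 1) (nat_lit 426) (nat_lit 359) (nat_lit 355)) (XT.nd (nat_lit 78) (nat_lit 0) (nat_lit 76) (XT.lf (nat_lit 1900) (nat_lit 1591066017) (nat_lit 76) (nat_lit 479121410) (nat_lit 0) (nat_lit 479121410) (nat_lit 524) (nat_lit 1) (nat_lit 500) (nat_lit 1) (nat_lit 499) (nat_lit 1) (nat_lit 427) (nat_lit 359) (nat_lit 354)) (XT.lf (nat_lit 1900) (nat_lit 764476716) (nat_lit 0) (nat_lit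 995671333) (nat_lit 1824) (nat_lit 764476716) (nat_lit 525) (nat_lit 1) (nat_lit 500) (nat_lit 1) (nat_lit 524) (nat_lit 1) (nat_lit 428) (nat_lit 359) (nat_lit 353)))) (XT.nd (nat_lit 78) (nat_lit 0) (nat_lit 76) (XT.lf (nat_lit 1900) (nat_lit 1461508273) (nat_lit 76) (nat_lit 519393991) (nat_lit 0) (nat_lit 519393991) (nat_lit 525) (nat_lit 1) (nat_lit 501) (nat_lit 1) (nat_lit 500) (nat_lit 1) (nat_lit 429) (nat_lit 359) (nat_lit 352)) (XT.nd (nat_lit 78) (nat_lit 0) (nat_lit 0) (XT.lf (nat_lit 1900) (nat_lit 692853352) (nat_lit 0) (nat_lit 1090548287) (nat_lit 1824) (nat_lit 692853352) (nat_lit 526) (nat_lit 1) (nat_lit 501) (nat_lit 1) (nat_lit 525) (nat_lit 1) (nat_lit 430) (nat_lit 359) (nat_lit 351)) (XT.lf (nat_lit 1900) (nat_lit 1304216782) (nat_lit 76) (nat_lit 574163832) (nat_lit 0) (nat_lit 574163832) (nat_lit 526) (nat_lit 1) (nat_lit 502) (nat_lit 1) (nat_lit 501) (nat_lit 1) (nat_lit 431) (nat_lit 359) (nat_lit 350)))))))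 (XT.nd (nat_lit 58890) (nat_lit 0) (nat_lit 228) (XT.nd (nat_lit 58422) (nat_lit 380) (nat_lit 0) (XT.nd (nat_lit 234) (nat_lit 0) (nat_lit 76) (XT.nd (nat_lit 78) (nat_lit 0) (nat_lit 0) (XT.lf (nat_lit 1900) (nat_lit 607843751) (nat_lit 0) (nat_lit 1213441954) (nat_lit 1824) (nat_lit 607843751) (nat_lit 527) (nat_lit 1) (nat_lit 502) (nat_lit 1) (nat_lit 526) (nat_lit 1) (nat_lit 432) (nat_lit 359) (nat_lit 349)) (XT.nd (nat_lit 78) (nat_lit 0) (nat_lit 76) (XT.lf (nat_lit 1900) (nat_lit 1120910922) (nat_lit 76) (nat_lit 642553065) (nat_lit 0) (nat_lit 642553065) (nat_lit 527) (nat_lit 1) (nat_lit 503) (nat_lit 1) (nat_lit 502) (nat_lit 1) (nat_lit 433) (nat_lit 359) (nat_lit 348)) (XT.lf (nat_lit 1900) (nat_lit 510284727) (nat_lit 0) (nat_lit 1362642824) (nat_lit 1824) (nat_lit 510284727) (nat_lit 528) (nat_lit 1) (nat_lit 503) (nat_lit 1) (nat_lit 527) (nat_lit 1) (nat_lit 434) (nat_lit 359) (nat_lit 347)))) (XT.nd (nat_lit 78) (nat_lit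 0) (nat_lit 76) (XT.lf (nat_lit 1900) (nat_lit 913230711) (nat_lit 76) (nat_lit 723724083) (nat_lit 0) (nat_lit 723724083) (nat_lit 528) (nat_lit 1) (nat_lit 504) (nat_lit 1) (nat_lit 503) (nat_lit 1) (nat_lit 435) (nat_lit 359) (nat_lit 346)) (XT.nd (nat_lit 78) (nat_lit 0) (nat_lit 0) (XT.lf (nat_lit 1900) (nat_lit 400974381) (nat_lit 0) (nat_lit 1536519958) (nat_lit 1824) (nat_lit 400974381) (nat_lit 529) (nat_lit 1) (nat_lit 504) (nat_lit 1) (nat_lit 528) (nat_lit 1) (nat_lit 436) (nat_lit 359) (nat_lit 345)) (XT.lf (nat_lit 1900) (nat_lit 682740130) (nat_lit 76) (nat_lit 816877859) (nat_lit 0) (nat_lit 816877859) (nat_lit 529) (nat_lit 1) (nat_lit 505) (nat_lit 1) (nat_lit 504) (nat_lit 1) (nat_lit 437) (nat_lit 359) (nat_lit 344))))) (XT.nd (nat_lit 234) (nat_lit 0) (nat_lit 76) (XT.nd (nat_lit 78) (nat_lit 0) (nat_lit 0) (XT.lf (nat_lit 1900) (nat_lit 453922719) (nat_lit 0) (nat_lit 457718568) (nat_lit 1900) (nat_lit 453922719)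 (nat_lit 522) (nat_lit 1) (nat_lit 497) (nat_lit 0) (nat_lit 522) (nat_lit 0) (nat_lit 420) (nat_lit 360) (nat_lit 360)) (XT.nd (nat_lit 78) (nat_lit 0) (nat_lit 76) (XT.lf (nat_lit 1900) (nat_lit 1794878679) (nat_lit 76) (nat_lit 454707262) (nat_lit 0) (nat_lit 454707262) (nat_lit 522) (nat_lit 1) (nat_lit 498) (nat_lit 1) (nat_lit 497) (nat_lit 0) (nat_lit 421) (nat_lit 360) (nat_lit 359)) (XT.lf (nat_lit 1900) (nat_lit 881293975) (nat_lit 0) (nat_lit 915163545) (nat_lit 1824) (nat_lit 881293975) (nat_lit 523) (nat_lit 1) (nat_lit 498) (nat_lit 1) (nat_lit 522) (nat_lit 1) (nat_lit 422) (nat_lit 360) (nat_lit 358)))) (XT.nd (nat_lit 78) (nat_lit 0) (nat_lit 76) (XT.lf (nat_lit 1900) (nat_lit 1724909560) (nat_lit 76) (nat_lit 463351299) (nat_lit 0) (nat_lit 463351299) (nat_lit 523) (nat_lit 1) (nat_lit 499) (nat_lit 1) (nat_lit 498) (nat_lit 1) (nat_lit 423) (nat_lit 360) (nat_lit 357)) (XT.nd (nat_lit 78) (nat_lit 0) (nat_lit 0) (XT.lf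 (nat_lit 1900) (nat_lit 838273360) (nat_lit 0) (nat_lit 949214651) (nat_lit 1824) (nat_lit 838273360) (nat_lit 524) (nat_lit 1) (nat_lit 499) (nat_lit 1) (nat_lit 523) (nat_lit 1) (nat_lit 424) (nat_lit 360) (nat_lit 356)) (XT.lf (nat_lit 1900) (nat_lit 1622887338) (nat_lit 76) (nat_lit 488703838) (nat_lit 0) (nat_lit 488703838) (nat_lit 524) (nat_lit 1) (nat_lit 500) (nat_lit 1) (nat_lit 499) (nat_lit 1) (nat_lit 425) (nat_lit 360) (nat_lit 355)))))) (XT.nd (nat_lit 468) (nat_lit 0) (nat_lit 228) (XT.nd (nat_lit 234) (nat_lit 0) (nat_lit 76) (XT.nd (nat_lit 78) (nat_lit 0) (nat_lit 0) (XT.lf (nat_lit 1900) (nat_lit 779766251) (nat_lit 0) (nat_lit 1015584760) (nat_lit 1824) (nat_lit 779766251) (nat_lit 525) (nat_lit 1) (nat_lit 500) (nat_lit 1) (nat_lit 524) (nat_lit 1) (nat_lit 426) (nat_lit 360) (nat_lit 354)) (XT.nd (nat_lit 78) (nat_lit 0) (nat_lit 76) (XT.lf (nat_lit 1900) (nat_lit 1490738439) (nat_lit 76) (nat_lit 529781871) (nat_lit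 0) (nat_lit 529781871) (nat_lit 525) (nat_lit 1) (nat_lit 501) (nat_lit 1) (nat_lit 500) (nat_lit 1) (nat_lit 427) (nat_lit 360) (nat_lit 353)) (XT.lf (nat_lit 1900) (nat_lit 706710419) (nat_lit 0) (nat_lit 1112359253) (nat_lit 1824) (nat_lit 706710419) (nat_lit 526) (nat_lit 1) (nat_lit 501) (nat_lit 1) (nat_lit 525) (nat_lit 1) (nat_lit 428) (nat_lit 360) (nat_lit 352)))) (XT.nd (nat_lit 78) (nat_lit 0) (nat_lit 76) (XT.lf (nat_lit 1900) (nat_lit 1330301118) (nat_lit 76) (nat_lit 585647109) (nat_lit 0) (nat_lit 585647109) (nat_lit 526) (nat_lit 1) (nat_lit 502) (nat_lit 1) (nat_lit 501) (nat_lit 1) (nat_lit 429) (nat_lit 360) (nat_lit 351)) (XT.nd (nat_lit 78) (nat_lit 0) (nat_lit 0) (XT.lf (nat_lit 1900) (nat_lit 620000627) (nat_lit 0) (nat_lit 1237710793) (nat_lit 1824) (nat_lit 620000627) (nat_lit 527) (nat_lit 1) (nat_lit 502) (nat_lit 1) (nat_lit 526) (nat_lit 1) (nat_lit 430) (nat_lit 360) (nat_lit 350)) (XT.lf (nat_lit 1900)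 (nat_lit 1143329141) (nat_lit 76) (nat_lit 655404126) (nat_lit 0) (nat_lit 655404126) (nat_lit 527) (nat_lit 1) (nat_lit 503) (nat_lit 1) (nat_lit 502) (nat_lit 1) (nat_lit 431) (nat_lit 360) (nat_lit 349))))) (XT.nd (nat_lit 234) (nat_lit 0) (nat_lit 76) (XT.nd (nat_lit 78) (nat_lit 0) (nat_lit 0) (XT.lf (nat_lit 1900) (nat_lit 520490422) (nat_lit 0) (nat_lit 1389895681) (nat_lit 1824) (nat_lit 520490422) (nat_lit 528) (nat_lit 1) (nat_lit 503) (nat_lit 1) (nat_lit 527) (nat_lit 1) (nat_lit 432) (nat_lit 360) (nat_lit 348)) (XT.nd (nat_lit 78) (nat_lit 0) (nat_lit 76) (XT.lf (nat_lit 1900) (nat_lit 931495325) (nat_lit 76) (nat_lit 738198565) (nat_lit 0) (nat_lit 738198565) (nat_lit 528) (nat_lit 1) (nat_lit 504) (nat_lit 1) (nat_lit 503) (nat_lit 1) (nat_lit 433) (nat_lit 360) (nat_lit 347)) (XT.lf (nat_lit 1900) (nat_lit 408993869) (nat_lit 0) (nat_lit 1567250358) (nat_lit 1824) (nat_lit 408993869) (nat_lit 529) (nat_lit 1) (nat_lit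 504) (nat_lit 1) (nat_lit 528) (nat_lit 1) (nat_lit 434) (nat_lit 360) (nat_lit 346)))) (XT.nd (nat_lit 78) (nat_lit 0) (nat_lit 76) (XT.lf (nat_lit 1900) (nat_lit 696394933) (nat_lit 76) (nat_lit 833215416) (nat_lit 0) (nat_lit 833215416) (nat_lit 529) (nat_lit 1) (nat_lit 505) (nat_lit 1) (nat_lit 504) (nat_lit 1) (nat_lit 435) (nat_lit 360) (nat_lit 345)) (XT.nd (nat_lit 78) (nat_lit 0) (nat_lit 0) (XT.lf (nat_lit 1900) (nat_lit 286287206) (nat_lit 0) (nat_lit 1768188052) (nat_lit 1824) (nat_lit 286287206) (nat_lit 530) (nat_lit 1) (nat_lit 505) (nat_lit 1) (nat_lit 529) (nat_lit 1) (nat_lit 436) (nat_lit 360) (nat_lit 344)) (XT.lf (nat_lit 1900) (nat_lit 439548931) (nat_lit 76) (nat_lit 939677376) (nat_lit 0) (nat_lit 939677376) (nat_lit 530) (nat_lit 1) (nat_lit 506) (nat_lit 1) (nat_lit 505) (nat_lit 1) (nat_lit 437) (nat_lit 360) (nat_lit 343))))))))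
noncomputable def ec2 : XT := (XT.nd (nat_lit 59514) (nat_lit 1140) (nat_lit 0) (XT.nd (nat_lit 936) (nat_lit 0) (nat_lit 0) (XT.nd (nat_lit 468) (nat_lit 0) (nat_lit 228) (XT.nd (nat_lit 234) (nat_lit 0) (nat_lit 76) (XT.nd (nat_lit 78) (nat_lit 0) (nat_lit 0) (XT.lf (nat_lit 1900) (nat_lit 463001173) (nat_lit 0) (nat_lit 466872940) (nat_lit 1900) (nat_lit 463001173) (nat_lit 522) (nat_lit 1) (nat_lit 497) (nat_lit 0) (nat_lit 522) (nat_lit 0) (nat_lit 418) (nat_lit 361) (nat_lit 361)) (XT.nd (nat_lit 78) (nat_lit 0) (nat_lit 76) (XT.lf (nat_lit 1900) (nat_lit 1830776253) (nat_lit 76) (nat_lit 463801407) (nat_lit 0) (nat_lit 463801407) (nat_lit 522) (nat_lit 1) (nat_lit 498) (nat_lit 1) (nat_lit 497) (nat_lit 0) (nat_lit 419) (nat_lit 361) (nat_lit 360)) (XT.lf (nat_lit 1900) (nat_lit 898919855) (nat_lit 0) (nat_lit 933466816) (nat_lit 1824) (nat_lit 898919855) (nat_lit 523) (nat_lit 1) (nat_lit 498) (nat_lit 1) (nat_lit 522) (nat_lit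 1) (nat_lit 420) (nat_lit 361) (nat_lit 359)))) (XT.nd (nat_lit 78) (nat_lit 0) (nat_lit 76) (XT.lf (nat_lit 1900) (nat_lit 1759407752) (nat_lit 76) (nat_lit 472618325) (nat_lit 0) (nat_lit 472618325) (nat_lit 523) (nat_lit 1) (nat_lit 499) (nat_lit 1) (nat_lit 498) (nat_lit 1) (nat_lit 421) (nat_lit 361) (nat_lit 358)) (XT.nd (nat_lit 78) (nat_lit 0) (nat_lit 0) (XT.lf (nat_lit 1900) (nat_lit 855038827) (nat_lit 0) (nat_lit 968198944) (nat_lit 1824) (nat_lit 855038827) (nat_lit 524) (nat_lit 1) (nat_lit 499) (nat_lit 1) (nat_lit 523) (nat_lit 1) (nat_lit 422) (nat_lit 361) (nat_lit 357)) (XT.lf (nat_lit 1900) (nat_lit 1655345085) (nat_lit 76) (nat_lit 498477915) (nat_lit 0) (nat_lit 498477915) (nat_lit 524) (nat_lit 1) (nat_lit 500) (nat_lit 1) (nat_lit 499) (nat_lit 1) (nat_lit 423) (nat_lit 361) (nat_lit 356))))) (XT.nd (nat_lit 234) (nat_lit 0) (nat_lit 76) (XT.nd (nat_lit 78) (nat_lit 0) (nat_lit 0) (XT.lf (nat_lit 1900) (nat_lit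 795361576) (nat_lit 0) (nat_lit 1035896455) (nat_lit 1824) (nat_lit 795361576) (nat_lit 525) (nat_lit 1) (nat_lit 500) (nat_lit 1) (nat_lit 524) (nat_lit 1) (nat_lit 424) (nat_lit 361) (nat_lit 355)) (XT.nd (nat_lit 78) (nat_lit 0) (nat_lit 76) (XT.lf (nat_lit 1900) (nat_lit 1520553208) (nat_lit 76) (nat_lit 540377508) (nat_lit 0) (nat_lit 540377508) (nat_lit 525) (nat_lit 1) (nat_lit 501) (nat_lit 1) (nat_lit 500) (nat_lit 1) (nat_lit 425) (nat_lit 361) (nat_lit 354)) (XT.lf (nat_lit 1900) (nat_lit 720844628) (nat_lit 0) (nat_lit 1134606438) (nat_lit 1824) (nat_lit 720844628) (nat_lit 526) (nat_lit 1) (nat_lit 501) (nat_lit 1) (nat_lit 525) (nat_lit 1) (nat_lit 426) (nat_lit 361) (nat_lit 353)))) (XT.nd (nat_lit 78) (nat_lit 0) (nat_lit 76) (XT.lf (nat_lit 1900) (nat_lit 1356907140) (nat_lit 76) (nat_lit 597360051) (nat_lit 0) (nat_lit 597360051) (nat_lit 526) (nat_lit 1) (nat_lit 502) (nat_lit 1) (nat_lit 501) (nat_lit 1) (nat_lit 427)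 (nat_lit 361) (nat_lit 352)) (XT.nd (nat_lit 78) (nat_lit 0) (nat_lit 0) (XT.lf (nat_lit 1900) (nat_lit 632400639) (nat_lit 0) (nat_lit 1262465009) (nat_lit 1824) (nat_lit 632400639) (nat_lit 527) (nat_lit 1) (nat_lit 502) (nat_lit 1) (nat_lit 526) (nat_lit 1) (nat_lit 428) (nat_lit 361) (nat_lit 351)) (XT.lf (nat_lit 1900) (nat_lit 1166195724) (nat_lit 76) (nat_lit 668512209) (nat_lit 0) (nat_lit 668512209) (nat_lit 527) (nat_lit 1) (nat_lit 503) (nat_lit 1) (nat_lit 502) (nat_lit 1) (nat_lit 429) (nat_lit 361) (nat_lit 350)))))) (XT.nd (nat_lit 468) (nat_lit 456) (nat_lit 0) (XT.nd (nat_lit 234) (nat_lit 0) (nat_lit 76) (XT.nd (nat_lit 78) (nat_lit 0) (nat_lit 0) (XT.lf (nat_lit 1900) (nat_lit 530900230) (nat_lit 0) (nat_lit 1417693594) (nat_lit 1824) (nat_lit 530900230) (nat_lit 528) (nat_lit 1) (nat_lit 503) (nat_lit 1) (nat_lit 527) (nat_lit 1) (nat_lit 430) (nat_lit 361) (nat_lit 349)) (XT.nd (nat_lit 78) (nat_lit 0) (nat_lit 76)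 (XT.lf (nat_lit 1900) (nat_lit 950125232) (nat_lit 76) (nat_lit 752962536) (nat_lit 0) (nat_lit 752962536) (nat_lit 528) (nat_lit 1) (nat_lit 504) (nat_lit 1) (nat_lit 503) (nat_lit 1) (nat_lit 431) (nat_lit 361) (nat_lit 348)) (XT.lf (nat_lit 1900) (nat_lit 417173746) (nat_lit 0) (nat_lit 1598595365) (nat_lit 1824) (nat_lit 417173746) (nat_lit 529) (nat_lit 1) (nat_lit 504) (nat_lit 1) (nat_lit 528) (nat_lit 1) (nat_lit 432) (nat_lit 361) (nat_lit 347)))) (XT.nd (nat_lit 78) (nat_lit 0) (nat_lit 76) (XT.lf (nat_lit 1900) (nat_lit 710322832) (nat_lit 76) (nat_lit 849879725) (nat_lit 0) (nat_lit 849879725) (nat_lit 529) (nat_lit 1) (nat_lit 505) (nat_lit 1) (nat_lit 504) (nat_lit 1) (nat_lit 433) (nat_lit 361) (nat_lit 346)) (XT.nd (nat_lit 78) (nat_lit 0) (nat_lit 0) (XT.lf (nat_lit 1900) (nat_lit 292012950) (nat_lit 0) (nat_lit 1803551813) (nat_lit 1824) (nat_lit 292012950) (nat_lit 530) (nat_lit 1) (nat_lit 505) (nat_lit 1) (nat_lit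 529) (nat_lit 1) (nat_lit 434) (nat_lit 361) (nat_lit 345)) (XT.lf (nat_lit 1900) (nat_lit 448339909) (nat_lit 76) (nat_lit 958470923) (nat_lit 0) (nat_lit 958470923) (nat_lit 530) (nat_lit 1) (nat_lit 506) (nat_lit 1) (nat_lit 505) (nat_lit 1) (nat_lit 435) (nat_lit 361) (nat_lit 344))))) (XT.nd (nat_lit 57876) (nat_lit 0) (nat_lit 0) (XT.nd (nat_lit 78) (nat_lit 684) (nat_lit 0) (XT.lf (nat_lit 1900) (nat_lit 156172644) (nat_lit 0) (nat_lit 2031019468) (nat_lit 1824) (nat_lit 156172644) (nat_lit 531) (nat_lit 1) (nat_lit 506) (nat_lit 1) (nat_lit 530) (nat_lit 1) (nat_lit 436) (nat_lit 361) (nat_lit 343)) (XT.nd (nat_lit 57720) (nat_lit 684) (nat_lit 0) (XT.lf (nat_lit 1900) (nat_lit 165655258) (nat_lit 76) (nat_lit 1077980121) (nat_lit 0) (nat_lit 1077980121) (nat_lit 531) (nat_lit 1) (nat_lit 507) (nat_lit 1) (nat_lit 506) (nat_lit 1) (nat_lit 437) (nat_lit 361) (nat_lit 342)) (XT.lf (nat_lit 1900) (nat_lit 472261197) (nat_lit 0)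 (nat_lit 476210399) (nat_lit 1900) (nat_lit 472261197) (nat_lit 522) (nat_lit 1) (nat_lit 497) (nat_lit 0) (nat_lit 522) (nat_lit 0) (nat_lit 416) (nat_lit 362) (nat_lit 362)))) (XT.nd (nat_lit 78) (nat_lit 0) (nat_lit 76) (XT.lf (nat_lit 1900) (nat_lit 1867391778) (nat_lit 76) (nat_lit 473077435) (nat_lit 0) (nat_lit 473077435) (nat_lit 522) (nat_lit 1) (nat_lit 498) (nat_lit 1) (nat_lit 497) (nat_lit 0) (nat_lit 417) (nat_lit 362) (nat_lit 361)) (XT.nd (nat_lit 78) (nat_lit 0) (nat_lit 0) (XT.lf (nat_lit 1900) (nat_lit 916898252) (nat_lit 0) (nat_lit 952136152) (nat_lit 1824) (nat_lit 916898252) (nat_lit 523) (nat_lit 1) (nat_lit 498) (nat_lit 1) (nat_lit 522) (nat_lit 1) (nat_lit 418) (nat_lit 362) (nat_lit 360)) (XT.lf (nat_lit 1900) (nat_lit 1794595907) (nat_lit 76) (nat_lit 482070691) (nat_lit 0) (nat_lit 482070691) (nat_lit 523) (nat_lit 1) (nat_lit 499) (nat_lit 1) (nat_lit 498) (nat_lit 1) (nat_lit 419) (nat_lit 362) (nat_lit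 359))))))) (XT.nd (nat_lit 936) (nat_lit 1292) (nat_lit 0) (XT.nd (nat_lit 468) (nat_lit 0) (nat_lit 228) (XT.nd (nat_lit 234) (nat_lit 0) (nat_lit 76) (XT.nd (nat_lit 78) (nat_lit 0) (nat_lit 0) (XT.lf (nat_lit 1900) (nat_lit 872139604) (nat_lit 0) (nat_lit 987562923) (nat_lit 1824) (nat_lit 872139604) (nat_lit 524) (nat_lit 1) (nat_lit 499) (nat_lit 1) (nat_lit 523) (nat_lit 1) (nat_lit 420) (nat_lit 362) (nat_lit 358)) (XT.nd (nat_lit 78) (nat_lit 0) (nat_lit 76) (XT.lf (nat_lit 1900) (nat_lit 1688451986) (nat_lit 76) (nat_lit 508447473) (nat_lit 0) (nat_lit 508447473) (nat_lit 524) (nat_lit 1) (nat_lit 500) (nat_lit 1) (nat_lit 499) (nat_lit 1) (nat_lit 421) (nat_lit 362) (nat_lit 357)) (XT.lf (nat_lit 1900) (nat_lit 811268807) (nat_lit 0) (nat_lit 1056614384) (nat_lit 1824) (nat_lit 811268807) (nat_lit 525) (nat_lit 1) (nat_lit 500) (nat_lit 1) (nat_lit 524) (nat_lit 1) (nat_lit 422) (nat_lit 362) (nat_lit 356)))) (XT.nd (nat_lit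 78) (nat_lit 0) (nat_lit 76) (XT.lf (nat_lit 1900) (nat_lit 1550964272) (nat_lit 76) (nat_lit 551185058) (nat_lit 0) (nat_lit 551185058) (nat_lit 525) (nat_lit 1) (nat_lit 501) (nat_lit 1) (nat_lit 500) (nat_lit 1) (nat_lit 423) (nat_lit 362) (nat_lit 355)) (XT.nd (nat_lit 78) (nat_lit 0) (nat_lit 0) (XT.lf (nat_lit 1900) (nat_lit 735261520) (nat_lit 0) (nat_lit 1157298567) (nat_lit 1824) (nat_lit 735261520) (nat_lit 526) (nat_lit 1) (nat_lit 501) (nat_lit 1) (nat_lit 525) (nat_lit 1) (nat_lit 424) (nat_lit 362) (nat_lit 354)) (XT.lf (nat_lit 1900) (nat_lit 1384045283) (nat_lit 76) (nat_lit 609307252) (nat_lit 0) (nat_lit 609307252) (nat_lit 526) (nat_lit 1) (nat_lit 502) (nat_lit 1) (nat_lit 501) (nat_lit 1) (nat_lit 425) (nat_lit 362) (nat_lit 353))))) (XT.nd (nat_lit 234) (nat_lit 0) (nat_lit 76) (XT.nd (nat_lit 78) (nat_lit 0) (nat_lit 0) (XT.lf (nat_lit 1900) (nat_lit 645048652) (nat_lit 0) (nat_lit 1287714309) (nat_lit 1824) (nat_lit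 645048652) (nat_lit 527) (nat_lit 1) (nat_lit 502) (nat_lit 1) (nat_lit 526) (nat_lit 1) (nat_lit 426) (nat_lit 362) (nat_lit 352)) (XT.nd (nat_lit 78) (nat_lit 0) (nat_lit 76) (XT.lf (nat_lit 1900) (nat_lit 1189519638) (nat_lit 76) (nat_lit 681882453) (nat_lit 0) (nat_lit 681882453) (nat_lit 527) (nat_lit 1) (nat_lit 503) (nat_lit 1) (nat_lit 502) (nat_lit 1) (nat_lit 427) (nat_lit 362) (nat_lit 351)) (XT.lf (nat_lit 1900) (nat_lit 541518235) (nat_lit 0) (nat_lit 1446047466) (nat_lit 1824) (nat_lit 541518235) (nat_lit 528) (nat_lit 1) (nat_lit 503) (nat_lit 1) (nat_lit 527) (nat_lit 1) (nat_lit 428) (nat_lit 362) (nat_lit 350)))) (XT.nd (nat_lit 78) (nat_lit 0) (nat_lit 76) (XT.lf (nat_lit 1900) (nat_lit 969127736) (nat_lit 76) (nat_lit 768021787) (nat_lit 0) (nat_lit 768021787) (nat_lit 528) (nat_lit 1) (nat_lit 504) (nat_lit 1) (nat_lit 503) (nat_lit 1) (nat_lit 429) (nat_lit 362) (nat_lit 349)) (XT.nd (nat_lit 78) (nat_lit 0) (nat_lit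 0) (XT.lf (nat_lit 1900) (nat_lit 425517221) (nat_lit 0) (nat_lit 1630567272) (nat_lit 1824) (nat_lit 425517221) (nat_lit 529) (nat_lit 1) (nat_lit 504) (nat_lit 1) (nat_lit 528) (nat_lit 1) (nat_lit 430) (nat_lit 362) (nat_lit 348)) (XT.lf (nat_lit 1900) (nat_lit 724529288) (nat_lit 76) (nat_lit 866877319) (nat_lit 0) (nat_lit 866877319) (nat_lit 529) (nat_lit 1) (nat_lit 505) (nat_lit 1) (nat_lit 504) (nat_lit 1) (nat_lit 431) (nat_lit 362) (nat_lit 347)))))) (XT.nd (nat_lit 57954) (nat_lit 0) (nat_lit 1140) (XT.nd (nat_lit 234) (nat_lit 1748) (nat_lit 0) (XT.nd (nat_lit 78) (nat_lit 0) (nat_lit 0) (XT.lf (nat_lit 1900) (nat_lit 297853209) (nat_lit 0) (nat_lit 1839622849) (nat_lit 1824) (nat_lit 297853209) (nat_lit 530) (nat_lit 1) (nat_lit 505) (nat_lit 1) (nat_lit 529) (nat_lit 1) (nat_lit 432) (nat_lit 362) (nat_lit 346)) (XT.nd (nat_lit 78) (nat_lit 0) (nat_lit 76) (XT.lf (nat_lit 1900) (nat_lit 457306707) (nat_lit 76) (nat_lit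 977640342) (nat_lit 0) (nat_lit 977640342) (nat_lit 530) (nat_lit 1) (nat_lit 506) (nat_lit 1) (nat_lit 505) (nat_lit 1) (nat_lit 433) (nat_lit 362) (nat_lit 345)) (XT.lf (nat_lit 1900) (nat_lit 159296097) (nat_lit 0) (nat_lit 2071639857) (nat_lit 1824) (nat_lit 159296097) (nat_lit 531) (nat_lit 1) (nat_lit 506) (nat_lit 1) (nat_lit 530) (nat_lit 1) (nat_lit 434) (nat_lit 362) (nat_lit 344)))) (XT.nd (nat_lit 78) (nat_lit 1824) (nat_lit 0) (XT.lf (nat_lit 1900) (nat_lit 168968363) (nat_lit 76) (nat_lit 1099539724) (nat_lit 0) (nat_lit 1099539724) (nat_lit 531) (nat_lit 1) (nat_lit 507) (nat_lit 1) (nat_lit 506) (nat_lit 1) (nat_lit 435) (nat_lit 362) (nat_lit 343)) (XT.nd (nat_lit 78) (nat_lit 1900) (nat_lit 0) (XT.lf (nat_lit 1900) (nat_lit 10579668) (nat_lit 0) (nat_lit 2325117278) (nat_lit 1824) (nat_lit 10579668) (nat_lit 532) (nat_lit 1) (nat_lit 507) (nat_lit 1) (nat_lit 531) (nat_lit 1) (nat_lit 436) (nat_lit 362) (nat_lit 342))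 (XT.lf (nat_lit 1976) (nat_lit 1093694830) (nat_lit 0) (nat_lit 137224652) (nat_lit 1900) (nat_lit 1093694830) (nat_lit 508) (nat_lit 1) (nat_lit 482) (nat_lit 1) (nat_lit 507) (nat_lit 1) (nat_lit 437) (nat_lit 362) (nat_lit 341))))) (XT.nd (nat_lit 234) (nat_lit 0) (nat_lit 76) (XT.nd (nat_lit 78) (nat_lit 0) (nat_lit 0) (XT.lf (nat_lit 1900) (nat_lit 481706421) (nat_lit 0) (nat_lit 485734607) (nat_lit 1900) (nat_lit 481706421) (nat_lit 522) (nat_lit 1) (nat_lit 497) (nat_lit 0) (nat_lit 522) (nat_lit 0) (nat_lit 414) (nat_lit 363) (nat_lit 363)) (XT.nd (nat_lit 78) (nat_lit 0) (nat_lit 76) (XT.lf (nat_lit 1900) (nat_lit 1904739614) (nat_lit 76) (nat_lit 482538984) (nat_lit 0) (nat_lit 482538984) (nat_lit 522) (nat_lit 1) (nat_lit 498) (nat_lit 1) (nat_lit 497) (nat_lit 0) (nat_lit 415) (nat_lit 363) (nat_lit 362)) (XT.lf (nat_lit 1900) (nat_lit 935236217) (nat_lit 0) (nat_lit 971178875) (nat_lit 1824) (nat_lit 935236217) (nat_lit 523)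 (nat_lit 1) (nat_lit 498) (nat_lit 1) (nat_lit 522) (nat_lit 1) (nat_lit 416) (nat_lit 363) (nat_lit 361)))) (XT.nd (nat_lit 78) (nat_lit 0) (nat_lit 76) (XT.lf (nat_lit 1900) (nat_lit 1830487825) (nat_lit 76) (nat_lit 491712105) (nat_lit 0) (nat_lit 491712105) (nat_lit 523) (nat_lit 1) (nat_lit 499) (nat_lit 1) (nat_lit 498) (nat_lit 1) (nat_lit 417) (nat_lit 363) (nat_lit 360)) (XT.nd (nat_lit 78) (nat_lit 0) (nat_lit 0) (XT.lf (nat_lit 1900) (nat_lit 889582396) (nat_lit 0) (nat_lit 1007314181) (nat_lit 1824) (nat_lit 889582396) (nat_lit 524) (nat_lit 1) (nat_lit 499) (nat_lit 1) (nat_lit 523) (nat_lit 1) (nat_lit 418) (nat_lit 363) (nat_lit 359)) (XT.lf (nat_lit 1900) (nat_lit 1722221026) (nat_lit 76) (nat_lit 518616423) (nat_lit 0) (nat_lit 518616423) (nat_lit 524) (nat_lit 1) (nat_lit 500) (nat_lit 1) (nat_lit 499) (nat_lit 1) (nat_lit 419) (nat_lit 363) (nat_lit 358))))))))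
noncomputable def ec3 : XT := (XT.nd (nat_lit 59202) (nat_lit 0) (nat_lit 0) (XT.nd (nat_lit 936) (nat_lit 1368) (nat_lit 0) (XT.nd (nat_lit 468) (nat_lit 0) (nat_lit 228) (XT.nd (nat_lit 234) (nat_lit 0) (nat_lit 76) (XT.nd (nat_lit 78) (nat_lit 0) (nat_lit 0) (XT.lf (nat_lit 1900) (nat_lit 827494183) (nat_lit 0) (nat_lit 1077746672) (nat_lit 1824) (nat_lit 827494183) (nat_lit 525) (nat_lit 1) (nat_lit 500) (nat_lit 1) (nat_lit 524) (nat_lit 1) (nat_lit 420) (nat_lit 363) (nat_lit 357)) (XT.nd (nat_lit 78) (nat_lit 0) (nat_lit 76) (XT.lf (nat_lit 1900) (nat_lit 1581983557) (nat_lit 76) (nat_lit 562208759) (nat_lit 0) (nat_lit 562208759) (nat_lit 525) (nat_lit 1) (nat_lit 501) (nat_lit 1) (nat_lit 500) (nat_lit 1) (nat_lit 421) (nat_lit 363) (nat_lit 356)) (XT.lf (nat_lit 1900) (nat_lit 749966751) (nat_lit 0) (nat_lit 1180444538) (nat_lit 1824) (nat_lit 749966751) (nat_lit 526) (nat_lit 1) (nat_lit 501) (nat_lit 1) (nat_lit 525) (nat_lit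 1) (nat_lit 422) (nat_lit 363) (nat_lit 355)))) (XT.nd (nat_lit 78) (nat_lit 0) (nat_lit 76) (XT.lf (nat_lit 1900) (nat_lit 1411726188) (nat_lit 76) (nat_lit 621493397) (nat_lit 0) (nat_lit 621493397) (nat_lit 526) (nat_lit 1) (nat_lit 502) (nat_lit 1) (nat_lit 501) (nat_lit 1) (nat_lit 423) (nat_lit 363) (nat_lit 354)) (XT.nd (nat_lit 78) (nat_lit 0) (nat_lit 0) (XT.lf (nat_lit 1900) (nat_lit 657949625) (nat_lit 0) (nat_lit 1313468596) (nat_lit 1824) (nat_lit 657949625) (nat_lit 527) (nat_lit 1) (nat_lit 502) (nat_lit 1) (nat_lit 526) (nat_lit 1) (nat_lit 424) (nat_lit 363) (nat_lit 353)) (XT.lf (nat_lit 1900) (nat_lit 1213310031) (nat_lit 76) (nat_lit 695520102) (nat_lit 0) (nat_lit 695520102) (nat_lit 527) (nat_lit 1) (nat_lit 503) (nat_lit 1) (nat_lit 502) (nat_lit 1) (nat_lit 425) (nat_lit 363) (nat_lit 352))))) (XT.nd (nat_lit 234) (nat_lit 0) (nat_lit 76) (XT.nd (nat_lit 78) (nat_lit 0) (nat_lit 0) (XT.lf (nat_lit 1900) (nat_lit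 552348599) (nat_lit 0) (nat_lit 1474968416) (nat_lit 1824) (nat_lit 552348599) (nat_lit 528) (nat_lit 1) (nat_lit 503) (nat_lit 1) (nat_lit 527) (nat_lit 1) (nat_lit 426) (nat_lit 363) (nat_lit 351)) (XT.nd (nat_lit 78) (nat_lit 0) (nat_lit 76) (XT.lf (nat_lit 1900) (nat_lit 988510291) (nat_lit 76) (nat_lit 783382222) (nat_lit 0) (nat_lit 783382222) (nat_lit 528) (nat_lit 1) (nat_lit 504) (nat_lit 1) (nat_lit 503) (nat_lit 1) (nat_lit 427) (nat_lit 363) (nat_lit 350)) (XT.lf (nat_lit 1900) (nat_lit 434027566) (nat_lit 0) (nat_lit 1663178617) (nat_lit 1824) (nat_lit 434027566) (nat_lit 529) (nat_lit 1) (nat_lit 504) (nat_lit 1) (nat_lit 528) (nat_lit 1) (nat_lit 428) (nat_lit 363) (nat_lit 349)))) (XT.nd (nat_lit 78) (nat_lit 0) (nat_lit 76) (XT.lf (nat_lit 1900) (nat_lit 739019874) (nat_lit 76) (nat_lit 884214866) (nat_lit 0) (nat_lit 884214866) (nat_lit 529) (nat_lit 1) (nat_lit 505) (nat_lit 1) (nat_lit 504) (nat_lit 1) (nat_lit 429)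 (nat_lit 363) (nat_lit 348)) (XT.nd (nat_lit 78) (nat_lit 0) (nat_lit 0) (XT.lf (nat_lit 1900) (nat_lit 303810274) (nat_lit 0) (nat_lit 1876415306) (nat_lit 1824) (nat_lit 303810274) (nat_lit 530) (nat_lit 1) (nat_lit 505) (nat_lit 1) (nat_lit 529) (nat_lit 1) (nat_lit 430) (nat_lit 363) (nat_lit 347)) (XT.lf (nat_lit 1900) (nat_lit 466452842) (nat_lit 76) (nat_lit 997193149) (nat_lit 0) (nat_lit 997193149) (nat_lit 530) (nat_lit 1) (nat_lit 506) (nat_lit 1) (nat_lit 505) (nat_lit 1) (nat_lit 431) (nat_lit 363) (nat_lit 346)))))) (XT.nd (nat_lit 57798) (nat_lit 0) (nat_lit 1140) (XT.nd (nat_lit 234) (nat_lit 1824) (nat_lit 0) (XT.nd (nat_lit 78) (nat_lit 0) (nat_lit 0) (XT.lf (nat_lit 1900) (nat_lit 162482019) (nat_lit 0) (nat_lit 2113072655) (nat_lit 1824) (nat_lit 162482019) (nat_lit 531) (nat_lit 1) (nat_lit 506) (nat_lit 1) (nat_lit 530) (nat_lit 1) (nat_lit 432) (nat_lit 363) (nat_lit 345)) (XT.nd (nat_lit 78) (nat_lit 0) (nat_lit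 76) (XT.lf (nat_lit 1900) (nat_lit 172347731) (nat_lit 76) (nat_lit 1121530518) (nat_lit 0) (nat_lit 1121530518) (nat_lit 531) (nat_lit 1) (nat_lit 507) (nat_lit 1) (nat_lit 506) (nat_lit 1) (nat_lit 433) (nat_lit 363) (nat_lit 344)) (XT.lf (nat_lit 1900) (nat_lit 10791262) (nat_lit 0) (nat_lit 2371619624) (nat_lit 1824) (nat_lit 10791262) (nat_lit 532) (nat_lit 1) (nat_lit 507) (nat_lit 1) (nat_lit 531) (nat_lit 1) (nat_lit 434) (nat_lit 363) (nat_lit 343)))) (XT.nd (nat_lit 78) (nat_lit 0) (nat_lit 0) (XT.lf (nat_lit 1976) (nat_lit 1115568727) (nat_lit 0) (nat_lit 139969145) (nat_lit 1900) (nat_lit 1115568727) (nat_lit 508) (nat_lit 1) (nat_lit 482) (nat_lit 1) (nat_lit 507) (nat_lit 1) (nat_lit 435) (nat_lit 363) (nat_lit 342)) (XT.nd (nat_lit 78) (nat_lit 0) (nat_lit 76) (XT.lf (nat_lit 1976) (nat_lit 2050304003) (nat_lit 76) (nat_lit 149558361) (nat_lit 0) (nat_lit 149558361) (nat_lit 508) (nat_lit 1) (nat_lit 483) (nat_lit 1) (nat_lit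 482) (nat_lit 1) (nat_lit 436) (nat_lit 363) (nat_lit 341)) (XT.lf (nat_lit 1976) (nat_lit 929719067) (nat_lit 0) (nat_lit 468455694) (nat_lit 1900) (nat_lit 929719067) (nat_lit 509) (nat_lit 1) (nat_lit 483) (nat_lit 1) (nat_lit 508) (nat_lit 1) (nat_lit 437) (nat_lit 363) (nat_lit 340))))) (XT.nd (nat_lit 234) (nat_lit 0) (nat_lit 76) (XT.nd (nat_lit 78) (nat_lit 0) (nat_lit 0) (XT.lf (nat_lit 1900) (nat_lit 491340549) (nat_lit 0) (nat_lit 495449299) (nat_lit 1900) (nat_lit 491340549) (nat_lit 522) (nat_lit 1) (nat_lit 497) (nat_lit 0) (nat_lit 522) (nat_lit 0) (nat_lit 412) (nat_lit 364) (nat_lit 364)) (XT.nd (nat_lit 78) (nat_lit 0) (nat_lit 76) (XT.lf (nat_lit 1900) (nat_lit 1942834406) (nat_lit 76) (nat_lit 492189764) (nat_lit 0) (nat_lit 492189764) (nat_lit 522) (nat_lit 1) (nat_lit 498) (nat_lit 1) (nat_lit 497) (nat_lit 0) (nat_lit 413) (nat_lit 364) (nat_lit 363)) (XT.lf (nat_lit 1900) (nat_lit 953940941) (nat_lit 0) (nat_lit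 990602453) (nat_lit 1824) (nat_lit 953940941) (nat_lit 523) (nat_lit 1) (nat_lit 498) (nat_lit 1) (nat_lit 522) (nat_lit 1) (nat_lit 414) (nat_lit 364) (nat_lit 362)))) (XT.nd (nat_lit 78) (nat_lit 0) (nat_lit 76) (XT.lf (nat_lit 1900) (nat_lit 1867097581) (nat_lit 76) (nat_lit 501546347) (nat_lit 0) (nat_lit 501546347) (nat_lit 523) (nat_lit 1) (nat_lit 499) (nat_lit 1) (nat_lit 498) (nat_lit 1) (nat_lit 415) (nat_lit 364) (nat_lit 361)) (XT.nd (nat_lit 78) (nat_lit 0) (nat_lit 0) (XT.lf (nat_lit 1900) (nat_lit 907374044) (nat_lit 0) (nat_lit 1027460465) (nat_lit 1824) (nat_lit 907374044) (nat_lit 524) (nat_lit 1) (nat_lit 499) (nat_lit 1) (nat_lit 523) (nat_lit 1) (nat_lit 416) (nat_lit 364) (nat_lit 360)) (XT.lf (nat_lit 1900) (nat_lit 1756665447) (nat_lit 76) (nat_lit 528988751) (nat_lit 0) (nat_lit 528988751) (nat_lit 524) (nat_lit 1) (nat_lit 500) (nat_lit 1) (nat_lit 499) (nat_lit 1) (nat_lit 417) (nat_lit 364) (nat_lit 359)))))))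 (XT.nd (nat_lit 936) (nat_lit 1368) (nat_lit 0) (XT.nd (nat_lit 468) (nat_lit 0) (nat_lit 228) (XT.nd (nat_lit 234) (nat_lit 0) (nat_lit 76) (XT.nd (nat_lit 78) (nat_lit 0) (nat_lit 0) (XT.lf (nat_lit 1900) (nat_lit 844044067) (nat_lit 0) (nat_lit 1099301605) (nat_lit 1824) (nat_lit 844044067) (nat_lit 525) (nat_lit 1) (nat_lit 500) (nat_lit 1) (nat_lit 524) (nat_lit 1) (nat_lit 418) (nat_lit 364) (nat_lit 358)) (XT.nd (nat_lit 78) (nat_lit 0) (nat_lit 76) (XT.lf (nat_lit 1900) (nat_lit 1613623228) (nat_lit 76) (nat_lit 573452935) (nat_lit 0) (nat_lit 573452935) (nat_lit 525) (nat_lit 1) (nat_lit 501) (nat_lit 1) (nat_lit 500) (nat_lit 1) (nat_lit 419) (nat_lit 364) (nat_lit 357)) (XT.lf (nat_lit 1900) (nat_lit 764966086) (nat_lit 0) (nat_lit 1204053429) (nat_lit 1824) (nat_lit 764966086) (nat_lit 526) (nat_lit 1) (nat_lit 501) (nat_lit 1) (nat_lit 525) (nat_lit 1) (nat_lit 420) (nat_lit 364) (nat_lit 356)))) (XT.nd (nat_lit 78) (nat_lit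 0) (nat_lit 76) (XT.lf (nat_lit 1900) (nat_lit 1439960712) (nat_lit 76) (nat_lit 633923265) (nat_lit 0) (nat_lit 633923265) (nat_lit 526) (nat_lit 1) (nat_lit 502) (nat_lit 1) (nat_lit 501) (nat_lit 1) (nat_lit 421) (nat_lit 364) (nat_lit 355)) (XT.nd (nat_lit 78) (nat_lit 0) (nat_lit 0) (XT.lf (nat_lit 1900) (nat_lit 671108617) (nat_lit 0) (nat_lit 1339737968) (nat_lit 1824) (nat_lit 671108617) (nat_lit 527) (nat_lit 1) (nat_lit 502) (nat_lit 1) (nat_lit 526) (nat_lit 1) (nat_lit 422) (nat_lit 364) (nat_lit 354)) (XT.lf (nat_lit 1900) (nat_lit 1237576232) (nat_lit 76) (nat_lit 709430504) (nat_lit 0) (nat_lit 709430504) (nat_lit 527) (nat_lit 1) (nat_lit 503) (nat_lit 1) (nat_lit 502) (nat_lit 1) (nat_lit 423) (nat_lit 364) (nat_lit 353))))) (XT.nd (nat_lit 234) (nat_lit 0) (nat_lit 76) (XT.nd (nat_lit 78) (nat_lit 0) (nat_lit 0) (XT.lf (nat_lit 1900) (nat_lit 563395571) (nat_lit 0) (nat_lit 1504467784) (nat_lit 1824) (nat_lit 563395571)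 (nat_lit 528) (nat_lit 1) (nat_lit 503) (nat_lit 1) (nat_lit 527) (nat_lit 1) (nat_lit 424) (nat_lit 364) (nat_lit 352)) (XT.nd (nat_lit 78) (nat_lit 0) (nat_lit 76) (XT.lf (nat_lit 1900) (nat_lit 1008280497) (nat_lit 76) (nat_lit 799049867) (nat_lit 0) (nat_lit 799049867) (nat_lit 528) (nat_lit 1) (nat_lit 504) (nat_lit 1) (nat_lit 503) (nat_lit 1) (nat_lit 425) (nat_lit 364) (nat_lit 351)) (XT.lf (nat_lit 1900) (nat_lit 442708117) (nat_lit 0) (nat_lit 1696442190) (nat_lit 1824) (nat_lit 442708117) (nat_lit 529) (nat_lit 1) (nat_lit 504) (nat_lit 1) (nat_lit 528) (nat_lit 1) (nat_lit 426) (nat_lit 364) (nat_lit 350)))) (XT.nd (nat_lit 78) (nat_lit 0) (nat_lit 76) (XT.lf (nat_lit 1900) (nat_lit 753800271) (nat_lit 76) (nat_lit 901899163) (nat_lit 0) (nat_lit 901899163) (nat_lit 529) (nat_lit 1) (nat_lit 505) (nat_lit 1) (nat_lit 504) (nat_lit 1) (nat_lit 427) (nat_lit 364) (nat_lit 349)) (XT.nd (nat_lit 78) (nat_lit 0) (nat_lit 0) (XT.lf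 (nat_lit 1900) (nat_lit 309886479) (nat_lit 0) (nat_lit 1913943612) (nat_lit 1824) (nat_lit 309886479) (nat_lit 530) (nat_lit 1) (nat_lit 505) (nat_lit 1) (nat_lit 529) (nat_lit 1) (nat_lit 428) (nat_lit 364) (nat_lit 348)) (XT.lf (nat_lit 1900) (nat_lit 475781898) (nat_lit 76) (nat_lit 1017137012) (nat_lit 0) (nat_lit 1017137012) (nat_lit 530) (nat_lit 1) (nat_lit 506) (nat_lit 1) (nat_lit 505) (nat_lit 1) (nat_lit 429) (nat_lit 364) (nat_lit 347)))))) (XT.nd (nat_lit 468) (nat_lit 0) (nat_lit 76) (XT.nd (nat_lit 234) (nat_lit 1824) (nat_lit 0) (XT.nd (nat_lit 78) (nat_lit 0) (nat_lit 0) (XT.lf (nat_lit 1900) (nat_lit 165731659) (nat_lit 0) (nat_lit 2155334108) (nat_lit 1824) (nat_lit 165731659) (nat_lit 531) (nat_lit 1) (nat_lit 506) (nat_lit 1) (nat_lit 530) (nat_lit 1) (nat_lit 430) (nat_lit 364) (nat_lit 346)) (XT.nd (nat_lit 78) (nat_lit 0) (nat_lit 76) (XT.lf (nat_lit 1900) (nat_lit 175794685) (nat_lit 76) (nat_lit 1143961129)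 (nat_lit 0) (nat_lit 1143961129) (nat_lit 531) (nat_lit 1) (nat_lit 507) (nat_lit 1) (nat_lit 506) (nat_lit 1) (nat_lit 431) (nat_lit 364) (nat_lit 345)) (XT.lf (nat_lit 1900) (nat_lit 11007087) (nat_lit 0) (nat_lit 2419052016) (nat_lit 1824) (nat_lit 11007087) (nat_lit 532) (nat_lit 1) (nat_lit 507) (nat_lit 1) (nat_lit 531) (nat_lit 1) (nat_lit 432) (nat_lit 364) (nat_lit 344)))) (XT.nd (nat_lit 78) (nat_lit 0) (nat_lit 0) (XT.lf (nat_lit 1976) (nat_lit 1137880101) (nat_lit 0) (nat_lit 142768528) (nat_lit 1900) (nat_lit 1137880101) (nat_lit 508) (nat_lit 1) (nat_lit 482) (nat_lit 1) (nat_lit 507) (nat_lit 1) (nat_lit 433) (nat_lit 364) (nat_lit 343)) (XT.nd (nat_lit 78) (nat_lit 0) (nat_lit 76) (XT.lf (nat_lit 1976) (nat_lit 2091310083) (nat_lit 76) (nat_lit 152549529) (nat_lit 0) (nat_lit 152549529) (nat_lit 508) (nat_lit 1) (nat_lit 483) (nat_lit 1) (nat_lit 482) (nat_lit 1) (nat_lit 434) (nat_lit 364) (nat_lit 342)) (XT.lf (nat_lit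 1976) (nat_lit 948313448) (nat_lit 0) (nat_lit 477824808) (nat_lit 1900) (nat_lit 948313448) (nat_lit 509) (nat_lit 1) (nat_lit 483) (nat_lit 1) (nat_lit 508) (nat_lit 1) (nat_lit 435) (nat_lit 364) (nat_lit 341))))) (XT.nd (nat_lit 57408) (nat_lit 0) (nat_lit 1064) (XT.nd (nat_lit 78) (nat_lit 0) (nat_lit 76) (XT.lf (nat_lit 1976) (nat_lit 1702617443) (nat_lit 76) (nat_lit 325122862) (nat_lit 0) (nat_lit 325122862) (nat_lit 509) (nat_lit 1) (nat_lit 484) (nat_lit 1) (nat_lit 483) (nat_lit 1) (nat_lit 436) (nat_lit 364) (nat_lit 340)) (XT.nd (nat_lit 57252) (nat_lit 0) (nat_lit 988) (XT.lf (nat_lit 76) (nat_lit 750568242) (nat_lit 0) (nat_lit 830340360) (nat_lit 1900) (nat_lit 750568242) (nat_lit 485) (nat_lit 1) (nat_lit 484) (nat_lit 1) (nat_lit 509) (nat_lit 1) (nat_lit 437) (nat_lit 364) (nat_lit 339)) (XT.lf (nat_lit 1900) (nat_lit 501167360) (nat_lit 0) (nat_lit 505358285) (nat_lit 1900) (nat_lit 501167360) (nat_lit 522) (nat_lit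 1) (nat_lit 497) (nat_lit 0) (nat_lit 522) (nat_lit 0) (nat_lit 410) (nat_lit 365) (nat_lit 365)))) (XT.nd (nat_lit 156) (nat_lit 0) (nat_lit 76) (XT.nd (nat_lit 78) (nat_lit 0) (nat_lit 76) (XT.lf (nat_lit 1900) (nat_lit 1981691094) (nat_lit 76) (nat_lit 502033559) (nat_lit 0) (nat_lit 502033559) (nat_lit 522) (nat_lit 1) (nat_lit 498) (nat_lit 1) (nat_lit 497) (nat_lit 0) (nat_lit 411) (nat_lit 365) (nat_lit 364)) (XT.lf (nat_lit 1900) (nat_lit 973019760) (nat_lit 0) (nat_lit 1010414502) (nat_lit 1824) (nat_lit 973019760) (nat_lit 523) (nat_lit 1) (nat_lit 498) (nat_lit 1) (nat_lit 522) (nat_lit 1) (nat_lit 412) (nat_lit 365) (nat_lit 363))) (XT.nd (nat_lit 78) (nat_lit 0) (nat_lit 76) (XT.lf (nat_lit 1900) (nat_lit 1904439533) (nat_lit 76) (nat_lit 511577274) (nat_lit 0) (nat_lit 511577274) (nat_lit 523) (nat_lit 1) (nat_lit 499) (nat_lit 1) (nat_lit 498) (nat_lit 1) (nat_lit 413) (nat_lit 365) (nat_lit 362)) (XT.lf (nat_lit 1900)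 (nat_lit 925521525) (nat_lit 0) (nat_lit 1048009674) (nat_lit 1824) (nat_lit 925521525) (nat_lit 524) (nat_lit 1) (nat_lit 499) (nat_lit 1) (nat_lit 523) (nat_lit 1) (nat_lit 414) (nat_lit 365) (nat_lit 361))))))))
noncomputable def ec4 : XT := (XT.nd (nat_lit 58890) (nat_lit 0) (nat_lit 988) (XT.nd (nat_lit 936) (nat_lit 2280) (nat_lit 0) (XT.nd (nat_lit 468) (nat_lit 0) (nat_lit 228) (XT.nd (nat_lit 234) (nat_lit 0) (nat_lit 152) (XT.nd (nat_lit 78) (nat_lit 0) (nat_lit 76) (XT.lf (nat_lit 1900) (nat_lit 1791798755) (nat_lit 76) (nat_lit 539568526) (nat_lit 0) (nat_lit 539568526) (nat_lit 524) (nat_lit 1) (nat_lit 500) (nat_lit 1) (nat_lit 499) (nat_lit 1) (nat_lit 415) (nat_lit 365) (nat_lit 360)) (XT.nd (nat_lit 78) (nat_lit 0) (nat_lit 0) (XT.lf (nat_lit 1900) (nat_lit 860924948) (nat_lit 0) (nat_lit 1121287637) (nat_lit 1824) (nat_lit 860924948) (nat_lit 525) (nat_lit 1) (nat_lit 500) (nat_lit 1) (nat_lit 524) (nat_lit 1) (nat_lit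 416) (nat_lit 365) (nat_lit 359)) (XT.lf (nat_lit 1900) (nat_lit 1645895693) (nat_lit 76) (nat_lit 584921993) (nat_lit 0) (nat_lit 584921993) (nat_lit 525) (nat_lit 1) (nat_lit 501) (nat_lit 1) (nat_lit 500) (nat_lit 1) (nat_lit 417) (nat_lit 365) (nat_lit 358)))) (XT.nd (nat_lit 78) (nat_lit 0) (nat_lit 0) (XT.lf (nat_lit 1900) (nat_lit 780265407) (nat_lit 0) (nat_lit 1228134498) (nat_lit 1824) (nat_lit 780265407) (nat_lit 526) (nat_lit 1) (nat_lit 501) (nat_lit 1) (nat_lit 525) (nat_lit 1) (nat_lit 418) (nat_lit 365) (nat_lit 357)) (XT.nd (nat_lit 78) (nat_lit 0) (nat_lit 76) (XT.lf (nat_lit 1900) (nat_lit 1468759927) (nat_lit 76) (nat_lit 646601731) (nat_lit 0) (nat_lit 646601731) (nat_lit 526) (nat_lit 1) (nat_lit 502) (nat_lit 1) (nat_lit 501) (nat_lit 1) (nat_lit 419) (nat_lit 365) (nat_lit 356)) (XT.lf (nat_lit 1900) (nat_lit 684530790) (nat_lit 0) (nat_lit 1366532727) (nat_lit 1824) (nat_lit 684530790) (nat_lit 527) (nat_lit 1)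 (nat_lit 502) (nat_lit 1) (nat_lit 526) (nat_lit 1) (nat_lit 420) (nat_lit 365) (nat_lit 355))))) (XT.nd (nat_lit 234) (nat_lit 0) (nat_lit 152) (XT.nd (nat_lit 78) (nat_lit 0) (nat_lit 76) (XT.lf (nat_lit 1900) (nat_lit 1262327756) (nat_lit 76) (nat_lit 723619114) (nat_lit 0) (nat_lit 723619114) (nat_lit 527) (nat_lit 1) (nat_lit 503) (nat_lit 1) (nat_lit 502) (nat_lit 1) (nat_lit 421) (nat_lit 365) (nat_lit 354)) (XT.nd (nat_lit 78) (nat_lit 0) (nat_lit 0) (XT.lf (nat_lit 1900) (nat_lit 574663483) (nat_lit 0) (nat_lit 1534557140) (nat_lit 1824) (nat_lit 574663483) (nat_lit 528) (nat_lit 1) (nat_lit 503) (nat_lit 1) (nat_lit 527) (nat_lit 1) (nat_lit 422) (nat_lit 365) (nat_lit 353)) (XT.lf (nat_lit 1900) (nat_lit 1028446107) (nat_lit 76) (nat_lit 815030864) (nat_lit 0) (nat_lit 815030864) (nat_lit 528) (nat_lit 1) (nat_lit 504) (nat_lit 1) (nat_lit 503) (nat_lit 1) (nat_lit 423) (nat_lit 365) (nat_lit 352)))) (XT.nd (nat_lit 78) (nat_lit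 0) (nat_lit 0) (XT.lf (nat_lit 1900) (nat_lit 451562279) (nat_lit 0) (nat_lit 1730371034) (nat_lit 1824) (nat_lit 451562279) (nat_lit 529) (nat_lit 1) (nat_lit 504) (nat_lit 1) (nat_lit 528) (nat_lit 1) (nat_lit 424) (nat_lit 365) (nat_lit 351)) (XT.nd (nat_lit 78) (nat_lit 0) (nat_lit 76) (XT.lf (nat_lit 1900) (nat_lit 768876277) (nat_lit 76) (nat_lit 919937146) (nat_lit 0) (nat_lit 919937146) (nat_lit 529) (nat_lit 1) (nat_lit 505) (nat_lit 1) (nat_lit 504) (nat_lit 1) (nat_lit 425) (nat_lit 365) (nat_lit 350)) (XT.lf (nat_lit 1900) (nat_lit 316084209) (nat_lit 0) (nat_lit 1952222485) (nat_lit 1824) (nat_lit 316084209) (nat_lit 530) (nat_lit 1) (nat_lit 505) (nat_lit 1) (nat_lit 529) (nat_lit 1) (nat_lit 426) (nat_lit 365) (nat_lit 349)))))) (XT.nd (nat_lit 468) (nat_lit 988) (nat_lit 0) (XT.nd (nat_lit 234) (nat_lit 1748) (nat_lit 0) (XT.nd (nat_lit 78) (nat_lit 0) (nat_lit 76) (XT.lf (nat_lit 1900) (nat_lit 485297536) (nat_lit 76)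 (nat_lit 1037479752) (nat_lit 0) (nat_lit 1037479752) (nat_lit 530) (nat_lit 1) (nat_lit 506) (nat_lit 1) (nat_lit 505) (nat_lit 1) (nat_lit 427) (nat_lit 365) (nat_lit 348)) (XT.nd (nat_lit 78) (nat_lit 0) (nat_lit 0) (XT.lf (nat_lit 1900) (nat_lit 169046292) (nat_lit 0) (nat_lit 2198440790) (nat_lit 1824) (nat_lit 169046292) (nat_lit 531) (nat_lit 1) (nat_lit 506) (nat_lit 1) (nat_lit 530) (nat_lit 1) (nat_lit 428) (nat_lit 365) (nat_lit 347)) (XT.lf (nat_lit 1900) (nat_lit 179310579) (nat_lit 76) (nat_lit 1166840351) (nat_lit 0) (nat_lit 1166840351) (nat_lit 531) (nat_lit 1) (nat_lit 507) (nat_lit 1) (nat_lit 506) (nat_lit 1) (nat_lit 429) (nat_lit 365) (nat_lit 346)))) (XT.nd (nat_lit 78) (nat_lit 1900) (nat_lit 0) (XT.lf (nat_lit 1900) (nat_lit 11227229) (nat_lit 0) (nat_lit 2467433057) (nat_lit 1824) (nat_lit 11227229) (nat_lit 532) (nat_lit 1) (nat_lit 507) (nat_lit 1) (nat_lit 531) (nat_lit 1) (nat_lit 430) (nat_lit 365) (nat_lit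 345)) (XT.nd (nat_lit 78) (nat_lit 0) (nat_lit 0) (XT.lf (nat_lit 1976) (nat_lit 1160637703) (nat_lit 0) (nat_lit 145623899) (nat_lit 1900) (nat_lit 1160637703) (nat_lit 508) (nat_lit 1) (nat_lit 482) (nat_lit 1) (nat_lit 507) (nat_lit 1) (nat_lit 431) (nat_lit 365) (nat_lit 344)) (XT.lf (nat_lit 1976) (nat_lit 2133136285) (nat_lit 76) (nat_lit 155600519) (nat_lit 0) (nat_lit 155600519) (nat_lit 508) (nat_lit 1) (nat_lit 483) (nat_lit 1) (nat_lit 482) (nat_lit 1) (nat_lit 432) (nat_lit 365) (nat_lit 343))))) (XT.nd (nat_lit 234) (nat_lit 1064) (nat_lit 0) (XT.nd (nat_lit 78) (nat_lit 0) (nat_lit 0) (XT.lf (nat_lit 1976) (nat_lit 967279717) (nat_lit 0) (nat_lit 487381304) (nat_lit 1900) (nat_lit 967279717) (nat_lit 509) (nat_lit 1) (nat_lit 483) (nat_lit 1) (nat_lit 508) (nat_lit 1) (nat_lit 433) (nat_lit 365) (nat_lit 342)) (XT.nd (nat_lit 78) (nat_lit 0) (nat_lit 76) (XT.lf (nat_lit 1976) (nat_lit 1736669792) (nat_lit 76) (nat_lit 331625319)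 (nat_lit 0) (nat_lit 331625319) (nat_lit 509) (nat_lit 1) (nat_lit 484) (nat_lit 1) (nat_lit 483) (nat_lit 1) (nat_lit 434) (nat_lit 365) (nat_lit 341)) (XT.lf (nat_lit 76) (nat_lit 765579607) (nat_lit 0) (nat_lit 846947167) (nat_lit 1900) (nat_lit 765579607) (nat_lit 485) (nat_lit 1) (nat_lit 484) (nat_lit 1) (nat_lit 509) (nat_lit 1) (nat_lit 435) (nat_lit 365) (nat_lit 340)))) (XT.nd (nat_lit 78) (nat_lit 0) (nat_lit 0) (XT.lf (nat_lit 1216) (nat_lit 1324106235) (nat_lit 0) (nat_lit 516252284) (nat_lit 1140) (nat_lit 516252284) (nat_lit 485) (nat_lit 1) (nat_lit 469) (nat_lit 1) (nat_lit 484) (nat_lit 1) (nat_lit 436) (nat_lit 365) (nat_lit 339)) (XT.nd (nat_lit 57096) (nat_lit 0) (nat_lit 2128) (XT.lf (nat_lit 76) (nat_lit 556172101) (nat_lit 0) (nat_lit 1223020565) (nat_lit 1216) (nat_lit 556172101) (nat_lit 470) (nat_lit 1) (nat_lit 469) (nat_lit 1) (nat_lit 485) (nat_lit 1) (nat_lit 437) (nat_lit 365) (nat_lit 338)) (XT.lf (nat_lit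 1900) (nat_lit 511190707) (nat_lit 0) (nat_lit 515465450) (nat_lit 1900) (nat_lit 511190707) (nat_lit 522) (nat_lit 1) (nat_lit 497) (nat_lit 0) (nat_lit 522) (nat_lit 0) (nat_lit 408) (nat_lit 366) (nat_lit 366))))))) (XT.nd (nat_lit 936) (nat_lit 1140) (nat_lit 0) (XT.nd (nat_lit 468) (nat_lit 0) (nat_lit 228) (XT.nd (nat_lit 234) (nat_lit 0) (nat_lit 152) (XT.nd (nat_lit 78) (nat_lit 0) (nat_lit 76) (XT.lf (nat_lit 1900) (nat_lit 2021324916) (nat_lit 76) (nat_lit 512074230) (nat_lit 0) (nat_lit 512074230) (nat_lit 522) (nat_lit 1) (nat_lit 498) (nat_lit 1) (nat_lit 497) (nat_lit 0) (nat_lit 409) (nat_lit 366) (nat_lit 365)) (XT.nd (nat_lit 78) (nat_lit 0) (nat_lit 0) (XT.lf (nat_lit 1900) (nat_lit 992480155) (nat_lit 0) (nat_lit 1030622792) (nat_lit 1824) (nat_lit 992480155) (nat_lit 523) (nat_lit 1) (nat_lit 498) (nat_lit 1) (nat_lit 522) (nat_lit 1) (nat_lit 410) (nat_lit 366) (nat_lit 364)) (XT.lf (nat_lit 1900) (nat_lit 1942528324)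 (nat_lit 76) (nat_lit 521808819) (nat_lit 0) (nat_lit 521808819) (nat_lit 523) (nat_lit 1) (nat_lit 499) (nat_lit 1) (nat_lit 498) (nat_lit 1) (nat_lit 411) (nat_lit 366) (nat_lit 363)))) (XT.nd (nat_lit 78) (nat_lit 0) (nat_lit 0) (XT.lf (nat_lit 1900) (nat_lit 944031955) (nat_lit 0) (nat_lit 1068969868) (nat_lit 1824) (nat_lit 944031955) (nat_lit 524) (nat_lit 1) (nat_lit 499) (nat_lit 1) (nat_lit 523) (nat_lit 1) (nat_lit 412) (nat_lit 366) (nat_lit 362)) (XT.nd (nat_lit 78) (nat_lit 0) (nat_lit 76) (XT.lf (nat_lit 1900) (nat_lit 1827634731) (nat_lit 76) (nat_lit 550359897) (nat_lit 0) (nat_lit 550359897) (nat_lit 524) (nat_lit 1) (nat_lit 500) (nat_lit 1) (nat_lit 499) (nat_lit 1) (nat_lit 413) (nat_lit 366) (nat_lit 361)) (XT.lf (nat_lit 1900) (nat_lit 878143447) (nat_lit 0) (nat_lit 1143713390) (nat_lit 1824) (nat_lit 878143447) (nat_lit 525) (nat_lit 1) (nat_lit 500) (nat_lit 1) (nat_lit 524) (nat_lit 1) (nat_lit 414) (nat_lit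 366) (nat_lit 360))))) (XT.nd (nat_lit 234) (nat_lit 0) (nat_lit 152) (XT.nd (nat_lit 78) (nat_lit 0) (nat_lit 76) (XT.lf (nat_lit 1900) (nat_lit 1678813607) (nat_lit 76) (nat_lit 596620433) (nat_lit 0) (nat_lit 596620433) (nat_lit 525) (nat_lit 1) (nat_lit 501) (nat_lit 1) (nat_lit 500) (nat_lit 1) (nat_lit 415) (nat_lit 366) (nat_lit 359)) (XT.nd (nat_lit 78) (nat_lit 0) (nat_lit 0) (XT.lf (nat_lit 1900) (nat_lit 795870716) (nat_lit 0) (nat_lit 1252697188) (nat_lit 1824) (nat_lit 795870716) (nat_lit 526) (nat_lit 1) (nat_lit 501) (nat_lit 1) (nat_lit 525) (nat_lit 1) (nat_lit 416) (nat_lit 366) (nat_lit 358)) (XT.lf (nat_lit 1900) (nat_lit 1498135125) (nat_lit 76) (nat_lit 659533765) (nat_lit 0) (nat_lit 659533765) (nat_lit 526) (nat_lit 1) (nat_lit 502) (nat_lit 1) (nat_lit 501) (nat_lit 1) (nat_lit 417) (nat_lit 366) (nat_lit 357)))) (XT.nd (nat_lit 78) (nat_lit 0) (nat_lit 0) (XT.lf (nat_lit 1900) (nat_lit 698221406) (nat_lit 0)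 (nat_lit 1393863381) (nat_lit 1824) (nat_lit 698221406) (nat_lit 527) (nat_lit 1) (nat_lit 502) (nat_lit 1) (nat_lit 526) (nat_lit 1) (nat_lit 418) (nat_lit 366) (nat_lit 356)) (XT.nd (nat_lit 78) (nat_lit 0) (nat_lit 76) (XT.lf (nat_lit 1900) (nat_lit 1287574311) (nat_lit 76) (nat_lit 738091497) (nat_lit 0) (nat_lit 738091497) (nat_lit 527) (nat_lit 1) (nat_lit 503) (nat_lit 1) (nat_lit 502) (nat_lit 1) (nat_lit 419) (nat_lit 366) (nat_lit 355)) (XT.lf (nat_lit 1900) (nat_lit 586156752) (nat_lit 0) (nat_lit 1565248282) (nat_lit 1824) (nat_lit 586156752) (nat_lit 528) (nat_lit 1) (nat_lit 503) (nat_lit 1) (nat_lit 527) (nat_lit 1) (nat_lit 420) (nat_lit 366) (nat_lit 354)))))) (XT.nd (nat_lit 468) (nat_lit 1596) (nat_lit 0) (XT.nd (nat_lit 234) (nat_lit 0) (nat_lit 152) (XT.nd (nat_lit 78) (nat_lit 0) (nat_lit 76) (XT.lf (nat_lit 1900) (nat_lit 1049015029) (nat_lit 76) (nat_lit 831331482) (nat_lit 0) (nat_lit 831331482) (nat_lit 528)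 (nat_lit 1) (nat_lit 504) (nat_lit 1) (nat_lit 503) (nat_lit 1) (nat_lit 421) (nat_lit 366) (nat_lit 353)) (XT.nd (nat_lit 78) (nat_lit 0) (nat_lit 0) (XT.lf (nat_lit 1900) (nat_lit 460593525) (nat_lit 0) (nat_lit 1764978454) (nat_lit 1824) (nat_lit 460593525) (nat_lit 529) (nat_lit 1) (nat_lit 504) (nat_lit 1) (nat_lit 528) (nat_lit 1) (nat_lit 422) (nat_lit 366) (nat_lit 352)) (XT.lf (nat_lit 1900) (nat_lit 784253802) (nat_lit 76) (nat_lit 938335889) (nat_lit 0) (nat_lit 938335889) (nat_lit 529) (nat_lit 1) (nat_lit 505) (nat_lit 1) (nat_lit 504) (nat_lit 1) (nat_lit 423) (nat_lit 366) (nat_lit 351)))) (XT.nd (nat_lit 78) (nat_lit 0) (nat_lit 0) (XT.lf (nat_lit 1900) (nat_lit 322405893) (nat_lit 0) (nat_lit 1991266934) (nat_lit 1824) (nat_lit 322405893) (nat_lit 530) (nat_lit 1) (nat_lit 505) (nat_lit 1) (nat_lit 529) (nat_lit 1) (nat_lit 424) (nat_lit 366) (nat_lit 350)) (XT.nd (nat_lit 78) (nat_lit 0) (nat_lit 76) (XT.lf (nat_lit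 1900) (nat_lit 495003487) (nat_lit 76) (nat_lit 1058229347) (nat_lit 0) (nat_lit 1058229347) (nat_lit 530) (nat_lit 1) (nat_lit 506) (nat_lit 1) (nat_lit 505) (nat_lit 1) (nat_lit 425) (nat_lit 366) (nat_lit 349)) (XT.lf (nat_lit 1900) (nat_lit 172427218) (nat_lit 0) (nat_lit 2242409606) (nat_lit 1824) (nat_lit 172427218) (nat_lit 531) (nat_lit 1) (nat_lit 506) (nat_lit 1) (nat_lit 530) (nat_lit 1) (nat_lit 426) (nat_lit 366) (nat_lit 348))))) (XT.nd (nat_lit 234) (nat_lit 0) (nat_lit 0) (XT.nd (nat_lit 78) (nat_lit 1824) (nat_lit 0) (XT.lf (nat_lit 1900) (nat_lit 182896790) (nat_lit 76) (nat_lit 1190177158) (nat_lit 0) (nat_lit 1190177158) (nat_lit 531) (nat_lit 1) (nat_lit 507) (nat_lit 1) (nat_lit 506) (nat_lit 1) (nat_lit 427) (nat_lit 366) (nat_lit 347)) (XT.nd (nat_lit 78) (nat_lit 1900) (nat_lit 0) (XT.lf (nat_lit 1900) (nat_lit 11451773) (nat_lit 0) (nat_lit 2516781718) (nat_lit 1824) (nat_lit 11451773) (nat_lit 532) (nat_lit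 1) (nat_lit 507) (nat_lit 1) (nat_lit 531) (nat_lit 1) (nat_lit 428) (nat_lit 366) (nat_lit 346)) (XT.lf (nat_lit 1976) (nat_lit 1183850457) (nat_lit 0) (nat_lit 148536377) (nat_lit 1900) (nat_lit 1183850457) (nat_lit 508) (nat_lit 1) (nat_lit 482) (nat_lit 1) (nat_lit 507) (nat_lit 1) (nat_lit 429) (nat_lit 366) (nat_lit 345)))) (XT.nd (nat_lit 78) (nat_lit 0) (nat_lit 76) (XT.lf (nat_lit 1976) (nat_lit 2175799010) (nat_lit 76) (nat_lit 158712529) (nat_lit 0) (nat_lit 158712529) (nat_lit 508) (nat_lit 1) (nat_lit 483) (nat_lit 1) (nat_lit 482) (nat_lit 1) (nat_lit 430) (nat_lit 366) (nat_lit 344)) (XT.nd (nat_lit 78) (nat_lit 0) (nat_lit 0) (XT.lf (nat_lit 1976) (nat_lit 986625311) (nat_lit 0) (nat_lit 497128930) (nat_lit 1900) (nat_lit 986625311) (nat_lit 509) (nat_lit 1) (nat_lit 483) (nat_lit 1) (nat_lit 508) (nat_lit 1) (nat_lit 431) (nat_lit 366) (nat_lit 343)) (XT.lf (nat_lit 1976) (nat_lit 1771403188) (nat_lit 76) (nat_lit 338257825)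 (nat_lit 0) (nat_lit 338257825) (nat_lit 509) (nat_lit 1) (nat_lit 484) (nat_lit 1) (nat_lit 483) (nat_lit 1) (nat_lit 432) (nat_lit 366) (nat_lit 342))))))))
noncomputable def ec5 : XT := (XT.nd (nat_lit 58734) (nat_lit 912) (nat_lit 0) (XT.nd (nat_lit 57798) (nat_lit 0) (nat_lit 3268) (XT.nd (nat_lit 57330) (nat_lit 0) (nat_lit 3040) (XT.nd (nat_lit 234) (nat_lit 912) (nat_lit 0) (XT.nd (nat_lit 78) (nat_lit 1140) (nat_lit 0) (XT.lf (nat_lit 76) (nat_lit 780891199) (nat_lit 0) (nat_lit 863886110) (nat_lit 1900) (nat_lit 780891199) (nat_lit 485) (nat_lit 1) (nat_lit 484) (nat_lit 1) (nat_lit 509) (nat_lit 1) (nat_lit 433) (nat_lit 366) (nat_lit 341)) (XT.nd (nat_lit 78) (nat_lit 0) (nat_lit 0) (XT.lf (nat_lit 1216) (nat_lit 1350588360) (nat_lit 0) (nat_lit 526577329) (nat_lit 1140) (nat_lit 526577329) (nat_lit 485) (nat_lit 1) (nat_lit 469) (nat_lit 1) (nat_lit 484) (nat_lit 1) (nat_lit 434) (nat_lit 366) (nat_lit 340)) (XT.lf (nat_lit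 76) (nat_lit 567295543) (nat_lit 0) (nat_lit 1247480976) (nat_lit 1216) (nat_lit 567295543) (nat_lit 470) (nat_lit 1) (nat_lit 469) (nat_lit 1) (nat_lit 485) (nat_lit 1) (nat_lit 435) (nat_lit 366) (nat_lit 339)))) (XT.nd (nat_lit 78) (nat_lit 0) (nat_lit 0) (XT.lf (nat_lit 988) (nat_lit 914621942) (nat_lit 0) (nat_lit 723021580) (nat_lit 912) (nat_lit 723021580) (nat_lit 470) (nat_lit 1) (nat_lit 457) (nat_lit 1) (nat_lit 469) (nat_lit 1) (nat_lit 436) (nat_lit 366) (nat_lit 338)) (XT.nd (nat_lit 56940) (nat_lit 0) (nat_lit 3040) (XT.lf (nat_lit 76) (nat_lit 346454409) (nat_lit 0) (nat_lit 1646650302) (nat_lit 988) (nat_lit 346454409) (nat_lit 458) (nat_lit 1) (nat_lit 457) (nat_lit 1) (nat_lit 470) (nat_lit 1) (nat_lit 437) (nat_lit 366) (nat_lit 337)) (XT.lf (nat_lit 1900) (nat_lit 521414521) (nat_lit 0) (nat_lit 525774759) (nat_lit 1900) (nat_lit 521414521) (nat_lit 522) (nat_lit 1) (nat_lit 497) (nat_lit 0) (nat_lit 522) (nat_lit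 0) (nat_lit 406) (nat_lit 367) (nat_lit 367))))) (XT.nd (nat_lit 234) (nat_lit 0) (nat_lit 152) (XT.nd (nat_lit 78) (nat_lit 0) (nat_lit 76) (XT.lf (nat_lit 1900) (nat_lit 2061751414) (nat_lit 76) (nat_lit 522315715) (nat_lit 0) (nat_lit 522315715) (nat_lit 522) (nat_lit 1) (nat_lit 498) (nat_lit 1) (nat_lit 497) (nat_lit 0) (nat_lit 407) (nat_lit 367) (nat_lit 366)) (XT.nd (nat_lit 78) (nat_lit 0) (nat_lit 0) (XT.lf (nat_lit 1900) (nat_lit 1012329758) (nat_lit 0) (nat_lit 1051235248) (nat_lit 1824) (nat_lit 1012329758) (nat_lit 523) (nat_lit 1) (nat_lit 498) (nat_lit 1) (nat_lit 522) (nat_lit 1) (nat_lit 408) (nat_lit 367) (nat_lit 365)) (XT.lf (nat_lit 1900) (nat_lit 1981378890) (nat_lit 76) (nat_lit 532244996) (nat_lit 0) (nat_lit 532244996) (nat_lit 523) (nat_lit 1) (nat_lit 499) (nat_lit 1) (nat_lit 498) (nat_lit 1) (nat_lit 409) (nat_lit 367) (nat_lit 364)))) (XT.nd (nat_lit 78) (nat_lit 0) (nat_lit 0) (XT.lf (nat_lit 1900) (nat_lit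 962912594) (nat_lit 0) (nat_lit 1090349265) (nat_lit 1824) (nat_lit 962912594) (nat_lit 524) (nat_lit 1) (nat_lit 499) (nat_lit 1) (nat_lit 523) (nat_lit 1) (nat_lit 410) (nat_lit 367) (nat_lit 363)) (XT.nd (nat_lit 78) (nat_lit 0) (nat_lit 76) (XT.lf (nat_lit 1900) (nat_lit 1864187425) (nat_lit 76) (nat_lit 561367095) (nat_lit 0) (nat_lit 561367095) (nat_lit 524) (nat_lit 1) (nat_lit 500) (nat_lit 1) (nat_lit 499) (nat_lit 1) (nat_lit 411) (nat_lit 367) (nat_lit 362)) (XT.lf (nat_lit 1900) (nat_lit 895706316) (nat_lit 0) (nat_lit 1166587658) (nat_lit 1824) (nat_lit 895706316) (nat_lit 525) (nat_lit 1) (nat_lit 500) (nat_lit 1) (nat_lit 524) (nat_lit 1) (nat_lit 412) (nat_lit 367) (nat_lit 361)))))) (XT.nd (nat_lit 468) (nat_lit 0) (nat_lit 228) (XT.nd (nat_lit 234) (nat_lit 0) (nat_lit 152) (XT.nd (nat_lit 78) (nat_lit 0) (nat_lit 76) (XT.lf (nat_lit 1900) (nat_lit 1712389879) (nat_lit 76) (nat_lit 608552842) (nat_lit 0) (nat_lit 608552842)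 (nat_lit 525) (nat_lit 1) (nat_lit 501) (nat_lit 1) (nat_lit 500) (nat_lit 1) (nat_lit 413) (nat_lit 367) (nat_lit 360)) (XT.nd (nat_lit 78) (nat_lit 0) (nat_lit 0) (XT.lf (nat_lit 1900) (nat_lit 811788130) (nat_lit 0) (nat_lit 1277751132) (nat_lit 1824) (nat_lit 811788130) (nat_lit 526) (nat_lit 1) (nat_lit 501) (nat_lit 1) (nat_lit 525) (nat_lit 1) (nat_lit 414) (nat_lit 367) (nat_lit 359)) (XT.lf (nat_lit 1900) (nat_lit 1528097828) (nat_lit 76) (nat_lit 672724440) (nat_lit 0) (nat_lit 672724440) (nat_lit 526) (nat_lit 1) (nat_lit 502) (nat_lit 1) (nat_lit 501) (nat_lit 1) (nat_lit 415) (nat_lit 367) (nat_lit 358)))) (XT.nd (nat_lit 78) (nat_lit 0) (nat_lit 0) (XT.lf (nat_lit 1900) (nat_lit 712185834) (nat_lit 0) (nat_lit 1421740649) (nat_lit 1824) (nat_lit 712185834) (nat_lit 527) (nat_lit 1) (nat_lit 502) (nat_lit 1) (nat_lit 526) (nat_lit 1) (nat_lit 416) (nat_lit 367) (nat_lit 357)) (XT.nd (nat_lit 78) (nat_lit 0) (nat_lit 76) (XT.lf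 (nat_lit 1900) (nat_lit 1313325798) (nat_lit 76) (nat_lit 752853327) (nat_lit 0) (nat_lit 752853327) (nat_lit 527) (nat_lit 1) (nat_lit 503) (nat_lit 1) (nat_lit 502) (nat_lit 1) (nat_lit 417) (nat_lit 367) (nat_lit 356)) (XT.lf (nat_lit 1900) (nat_lit 597879887) (nat_lit 0) (nat_lit 1596553248) (nat_lit 1824) (nat_lit 597879887) (nat_lit 528) (nat_lit 1) (nat_lit 503) (nat_lit 1) (nat_lit 527) (nat_lit 1) (nat_lit 418) (nat_lit 367) (nat_lit 355))))) (XT.nd (nat_lit 234) (nat_lit 0) (nat_lit 152) (XT.nd (nat_lit 78) (nat_lit 0) (nat_lit 76) (XT.lf (nat_lit 1900) (nat_lit 1069995330) (nat_lit 76) (nat_lit 847958111) (nat_lit 0) (nat_lit 847958111) (nat_lit 528) (nat_lit 1) (nat_lit 504) (nat_lit 1) (nat_lit 503) (nat_lit 1) (nat_lit 419) (nat_lit 367) (nat_lit 354)) (XT.nd (nat_lit 78) (nat_lit 0) (nat_lit 0) (XT.lf (nat_lit 1900) (nat_lit 469805395) (nat_lit 0) (nat_lit 1800278023) (nat_lit 1824) (nat_lit 469805395) (nat_lit 529) (nat_lit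 1) (nat_lit 504) (nat_lit 1) (nat_lit 528) (nat_lit 1) (nat_lit 420) (nat_lit 367) (nat_lit 353)) (XT.lf (nat_lit 1900) (nat_lit 799938878) (nat_lit 76) (nat_lit 957102607) (nat_lit 0) (nat_lit 957102607) (nat_lit 529) (nat_lit 1) (nat_lit 505) (nat_lit 1) (nat_lit 504) (nat_lit 1) (nat_lit 421) (nat_lit 367) (nat_lit 352)))) (XT.nd (nat_lit 78) (nat_lit 0) (nat_lit 0) (XT.lf (nat_lit 1900) (nat_lit 328854011) (nat_lit 0) (nat_lit 2031092273) (nat_lit 1824) (nat_lit 328854011) (nat_lit 530) (nat_lit 1) (nat_lit 505) (nat_lit 1) (nat_lit 529) (nat_lit 1) (nat_lit 422) (nat_lit 367) (nat_lit 351)) (XT.nd (nat_lit 78) (nat_lit 0) (nat_lit 76) (XT.lf (nat_lit 1900) (nat_lit 504903557) (nat_lit 76) (nat_lit 1079393934) (nat_lit 0) (nat_lit 1079393934) (nat_lit 530) (nat_lit 1) (nat_lit 506) (nat_lit 1) (nat_lit 505) (nat_lit 1) (nat_lit 423) (nat_lit 367) (nat_lit 350)) (XT.lf (nat_lit 1900) (nat_lit 175875762) (nat_lit 0) (nat_lit 2287257798)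 (nat_lit 1824) (nat_lit 175875762) (nat_lit 531) (nat_lit 1) (nat_lit 506) (nat_lit 1) (nat_lit 530) (nat_lit 1) (nat_lit 424) (nat_lit 367) (nat_lit 349))))))) (XT.nd (nat_lit 936) (nat_lit 0) (nat_lit 0) (XT.nd (nat_lit 468) (nat_lit 2812) (nat_lit 0) (XT.nd (nat_lit 234) (nat_lit 0) (nat_lit 0) (XT.nd (nat_lit 78) (nat_lit 1824) (nat_lit 0) (XT.lf (nat_lit 1900) (nat_lit 186554726) (nat_lit 76) (nat_lit 1213980702) (nat_lit 0) (nat_lit 1213980702) (nat_lit 531) (nat_lit 1) (nat_lit 507) (nat_lit 1) (nat_lit 506) (nat_lit 1) (nat_lit 425) (nat_lit 367) (nat_lit 348)) (XT.nd (nat_lit 78) (nat_lit 1900) (nat_lit 0) (XT.lf (nat_lit 1900) (nat_lit 11680809) (nat_lit 0) (nat_lit 2567117352) (nat_lit 1824) (nat_lit 11680809) (nat_lit 532) (nat_lit 1) (nat_lit 507) (nat_lit 1) (nat_lit 531) (nat_lit 1) (nat_lit 426) (nat_lit 367) (nat_lit 347)) (XT.lf (nat_lit 1976) (nat_lit 1207527466) (nat_lit 0) (nat_lit 151507104) (nat_lit 1900) (nat_lit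 1207527466) (nat_lit 508) (nat_lit 1) (nat_lit 482) (nat_lit 1) (nat_lit 507) (nat_lit 1) (nat_lit 427) (nat_lit 367) (nat_lit 346)))) (XT.nd (nat_lit 78) (nat_lit 0) (nat_lit 76) (XT.lf (nat_lit 1976) (nat_lit 2219314991) (nat_lit 76) (nat_lit 161886780) (nat_lit 0) (nat_lit 161886780) (nat_lit 508) (nat_lit 1) (nat_lit 483) (nat_lit 1) (nat_lit 482) (nat_lit 1) (nat_lit 428) (nat_lit 367) (nat_lit 345)) (XT.nd (nat_lit 78) (nat_lit 0) (nat_lit 0) (XT.lf (nat_lit 1976) (nat_lit 1006357818) (nat_lit 0) (nat_lit 507071509) (nat_lit 1900) (nat_lit 1006357818) (nat_lit 509) (nat_lit 1) (nat_lit 483) (nat_lit 1) (nat_lit 508) (nat_lit 1) (nat_lit 429) (nat_lit 367) (nat_lit 344)) (XT.lf (nat_lit 1976) (nat_lit 1806831252) (nat_lit 76) (nat_lit 345022982) (nat_lit 0) (nat_lit 345022982) (nat_lit 509) (nat_lit 1) (nat_lit 484) (nat_lit 1) (nat_lit 483) (nat_lit 1) (nat_lit 430) (nat_lit 367) (nat_lit 343))))) (XT.nd (nat_lit 234) (nat_lit 1824)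 (nat_lit 0) (XT.nd (nat_lit 78) (nat_lit 1140) (nat_lit 0) (XT.lf (nat_lit 76) (nat_lit 796509023) (nat_lit 0) (nat_lit 881163832) (nat_lit 1900) (nat_lit 796509023) (nat_lit 485) (nat_lit 1) (nat_lit 484) (nat_lit 1) (nat_lit 509) (nat_lit 1) (nat_lit 431) (nat_lit 367) (nat_lit 342)) (XT.nd (nat_lit 78) (nat_lit 0) (nat_lit 0) (XT.lf (nat_lit 1216) (nat_lit 1377600127) (nat_lit 0) (nat_lit 537108876) (nat_lit 1140) (nat_lit 537108876) (nat_lit 485) (nat_lit 1) (nat_lit 469) (nat_lit 1) (nat_lit 484) (nat_lit 1) (nat_lit 432) (nat_lit 367) (nat_lit 341)) (XT.lf (nat_lit 76) (nat_lit 578641454) (nat_lit 0) (nat_lit 1272430596) (nat_lit 1216) (nat_lit 578641454) (nat_lit 470) (nat_lit 1) (nat_lit 469) (nat_lit 1) (nat_lit 485) (nat_lit 1) (nat_lit 433) (nat_lit 367) (nat_lit 340)))) (XT.nd (nat_lit 78) (nat_lit 912) (nat_lit 0) (XT.lf (nat_lit 988) (nat_lit 932914381) (nat_lit 0) (nat_lit 737482012) (nat_lit 912) (nat_lit 737482012) (nat_lit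 470) (nat_lit 1) (nat_lit 457) (nat_lit 1) (nat_lit 469) (nat_lit 1) (nat_lit 434) (nat_lit 367) (nat_lit 339)) (XT.nd (nat_lit 78) (nat_lit 912) (nat_lit 0) (XT.lf (nat_lit 76) (nat_lit 353383498) (nat_lit 0) (nat_lit 1679583308) (nat_lit 988) (nat_lit 353383498) (nat_lit 458) (nat_lit 1) (nat_lit 457) (nat_lit 1) (nat_lit 470) (nat_lit 1) (nat_lit 435) (nat_lit 367) (nat_lit 338)) (XT.lf (nat_lit 988) (nat_lit 474003983) (nat_lit 0) (nat_lit 945511837) (nat_lit 912) (nat_lit 945511837) (nat_lit 458) (nat_lit 1) (nat_lit 445) (nat_lit 1) (nat_lit 457) (nat_lit 1) (nat_lit 436) (nat_lit 367) (nat_lit 337)))))) (XT.nd (nat_lit 57174) (nat_lit 0) (nat_lit 4104) (XT.nd (nat_lit 56940) (nat_lit 0) (nat_lit 4028) (XT.nd (nat_lit 56784) (nat_lit 0) (nat_lit 3952) (XT.lf (nat_lit 76) (nat_lit 121332925) (nat_lit 0) (nat_lit 2101395699) (nat_lit 988) (nat_lit 121332925) (nat_lit 446) (nat_lit 1) (nat_lit 445) (nat_lit 1) (nat_lit 458) (nat_lit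 1) (nat_lit 437) (nat_lit 367) (nat_lit 336)) (XT.nd (nat_lit 78) (nat_lit 0) (nat_lit 0) (XT.lf (nat_lit 1900) (nat_lit 531842812) (nat_lit 0) (nat_lit 536290255) (nat_lit 1900) (nat_lit 531842812) (nat_lit 522) (nat_lit 1) (nat_lit 497) (nat_lit 0) (nat_lit 522) (nat_lit 0) (nat_lit 404) (nat_lit 368) (nat_lit 368)) (XT.lf (nat_lit 1900) (nat_lit 2102986442) (nat_lit 76) (nat_lit 532762029) (nat_lit 0) (nat_lit 532762029) (nat_lit 522) (nat_lit 1) (nat_lit 498) (nat_lit 1) (nat_lit 497) (nat_lit 0) (nat_lit 405) (nat_lit 368) (nat_lit 367)))) (XT.nd (nat_lit 78) (nat_lit 0) (nat_lit 0) (XT.lf (nat_lit 1900) (nat_lit 1032576353) (nat_lit 0) (nat_lit 1072259953) (nat_lit 1824) (nat_lit 1032576353) (nat_lit 523) (nat_lit 1) (nat_lit 498) (nat_lit 1) (nat_lit 522) (nat_lit 1) (nat_lit 406) (nat_lit 368) (nat_lit 366)) (XT.nd (nat_lit 78) (nat_lit 0) (nat_lit 76) (XT.lf (nat_lit 1900) (nat_lit 2021006468) (nat_lit 76) (nat_lit 542889896)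 (nat_lit 0) (nat_lit 542889896) (nat_lit 523) (nat_lit 1) (nat_lit 499) (nat_lit 1) (nat_lit 498) (nat_lit 1) (nat_lit 407) (nat_lit 368) (nat_lit 365)) (XT.lf (nat_lit 1900) (nat_lit 982170846) (nat_lit 0) (nat_lit 1112156250) (nat_lit 1824) (nat_lit 982170846) (nat_lit 524) (nat_lit 1) (nat_lit 499) (nat_lit 1) (nat_lit 523) (nat_lit 1) (nat_lit 408) (nat_lit 368) (nat_lit 364))))) (XT.nd (nat_lit 234) (nat_lit 0) (nat_lit 152) (XT.nd (nat_lit 78) (nat_lit 0) (nat_lit 76) (XT.lf (nat_lit 1900) (nat_lit 1901471174) (nat_lit 76) (nat_lit 572594437) (nat_lit 0) (nat_lit 572594437) (nat_lit 524) (nat_lit 1) (nat_lit 500) (nat_lit 1) (nat_lit 499) (nat_lit 1) (nat_lit 409) (nat_lit 368) (nat_lit 363)) (XT.nd (nat_lit 78) (nat_lit 0) (nat_lit 0) (XT.lf (nat_lit 1900) (nat_lit 913620443) (nat_lit 0) (nat_lit 1189919411) (nat_lit 1824) (nat_lit 913620443) (nat_lit 525) (nat_lit 1) (nat_lit 500) (nat_lit 1) (nat_lit 524) (nat_lit 1) (nat_lit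 410) (nat_lit 368) (nat_lit 362)) (XT.lf (nat_lit 1900) (nat_lit 1746637677) (nat_lit 76) (nat_lit 620723899) (nat_lit 0) (nat_lit 620723899) (nat_lit 525) (nat_lit 1) (nat_lit 501) (nat_lit 1) (nat_lit 500) (nat_lit 1) (nat_lit 411) (nat_lit 368) (nat_lit 361)))) (XT.nd (nat_lit 156) (nat_lit 0) (nat_lit 76) (XT.nd (nat_lit 78) (nat_lit 0) (nat_lit 0) (XT.lf (nat_lit 1900) (nat_lit 828023892) (nat_lit 0) (nat_lit 1303306154) (nat_lit 1824) (nat_lit 828023892) (nat_lit 526) (nat_lit 1) (nat_lit 501) (nat_lit 1) (nat_lit 525) (nat_lit 1) (nat_lit 412) (nat_lit 368) (nat_lit 360)) (XT.lf (nat_lit 1900) (nat_lit 1558659784) (nat_lit 76) (nat_lit 686178929) (nat_lit 0) (nat_lit 686178929) (nat_lit 526) (nat_lit 1) (nat_lit 502) (nat_lit 1) (nat_lit 501) (nat_lit 1) (nat_lit 413) (nat_lit 368) (nat_lit 359))) (XT.nd (nat_lit 78) (nat_lit 0) (nat_lit 0) (XT.lf (nat_lit 1900) (nat_lit 726429550) (nat_lit 0) (nat_lit 1450175462) (nat_lit 1824)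 (nat_lit 726429550) (nat_lit 527) (nat_lit 1) (nat_lit 502) (nat_lit 1) (nat_lit 526) (nat_lit 1) (nat_lit 414) (nat_lit 368) (nat_lit 358)) (XT.lf (nat_lit 1900) (nat_lit 1339592313) (nat_lit 76) (nat_lit 767910393) (nat_lit 0) (nat_lit 767910393) (nat_lit 527) (nat_lit 1) (nat_lit 503) (nat_lit 1) (nat_lit 502) (nat_lit 1) (nat_lit 415) (nat_lit 368) (nat_lit 357))))))))
noncomputable def ec6 : XT := (XT.nd (nat_lit 58422) (nat_lit 0) (nat_lit 4636) (XT.nd (nat_lit 936) (nat_lit 4636) (nat_lit 0) (XT.nd (nat_lit 468) (nat_lit 1596) (nat_lit 0) (XT.nd (nat_lit 234) (nat_lit 0) (nat_lit 76) (XT.nd (nat_lit 78) (nat_lit 0) (nat_lit 0) (XT.lf (nat_lit 1900) (nat_lit 609837485) (nat_lit 0) (nat_lit 1628484313) (nat_lit 1824) (nat_lit 609837485) (nat_lit 528) (nat_lit 1) (nat_lit 503) (nat_lit 1) (nat_lit 527) (nat_lit 1) (nat_lit 416) (nat_lit 368) (nat_lit 356)) (XT.nd (nat_lit 78) (nat_lit 0) (nat_lit 76) (XT.lf (nat_lit 1900) (nat_lit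 1091395236) (nat_lit 76) (nat_lit 864917273) (nat_lit 0) (nat_lit 864917273) (nat_lit 528) (nat_lit 1) (nat_lit 504) (nat_lit 1) (nat_lit 503) (nat_lit 1) (nat_lit 417) (nat_lit 368) (nat_lit 355)) (XT.lf (nat_lit 1900) (nat_lit 479201503) (nat_lit 0) (nat_lit 1836283584) (nat_lit 1824) (nat_lit 479201503) (nat_lit 529) (nat_lit 1) (nat_lit 504) (nat_lit 1) (nat_lit 528) (nat_lit 1) (nat_lit 418) (nat_lit 368) (nat_lit 354)))) (XT.nd (nat_lit 78) (nat_lit 0) (nat_lit 76) (XT.lf (nat_lit 1900) (nat_lit 815937656) (nat_lit 76) (nat_lit 976244659) (nat_lit 0) (nat_lit 976244659) (nat_lit 529) (nat_lit 1) (nat_lit 505) (nat_lit 1) (nat_lit 504) (nat_lit 1) (nat_lit 419) (nat_lit 368) (nat_lit 353)) (XT.nd (nat_lit 78) (nat_lit 0) (nat_lit 0) (XT.lf (nat_lit 1900) (nat_lit 335431091) (nat_lit 0) (nat_lit 2071714118) (nat_lit 1824) (nat_lit 335431091) (nat_lit 530) (nat_lit 1) (nat_lit 505) (nat_lit 1) (nat_lit 529) (nat_lit 1) (nat_lit 420)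 (nat_lit 368) (nat_lit 352)) (XT.lf (nat_lit 1900) (nat_lit 515001628) (nat_lit 76) (nat_lit 1100981813) (nat_lit 0) (nat_lit 1100981813) (nat_lit 530) (nat_lit 1) (nat_lit 506) (nat_lit 1) (nat_lit 505) (nat_lit 1) (nat_lit 421) (nat_lit 368) (nat_lit 351))))) (XT.nd (nat_lit 234) (nat_lit 1824) (nat_lit 0) (XT.nd (nat_lit 78) (nat_lit 0) (nat_lit 0) (XT.lf (nat_lit 1900) (nat_lit 179393278) (nat_lit 0) (nat_lit 2333002954) (nat_lit 1824) (nat_lit 179393278) (nat_lit 531) (nat_lit 1) (nat_lit 506) (nat_lit 1) (nat_lit 530) (nat_lit 1) (nat_lit 422) (nat_lit 368) (nat_lit 350)) (XT.nd (nat_lit 78) (nat_lit 0) (nat_lit 76) (XT.lf (nat_lit 1900) (nat_lit 190285821) (nat_lit 76) (nat_lit 1238260316) (nat_lit 0) (nat_lit 1238260316) (nat_lit 531) (nat_lit 1) (nat_lit 507) (nat_lit 1) (nat_lit 506) (nat_lit 1) (nat_lit 423) (nat_lit 368) (nat_lit 349)) (XT.lf (nat_lit 1900) (nat_lit 11914425) (nat_lit 0) (nat_lit 2618459699) (nat_lit 1824)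 (nat_lit 11914425) (nat_lit 532) (nat_lit 1) (nat_lit 507) (nat_lit 1) (nat_lit 531) (nat_lit 1) (nat_lit 424) (nat_lit 368) (nat_lit 348)))) (XT.nd (nat_lit 78) (nat_lit 0) (nat_lit 0) (XT.lf (nat_lit 1976) (nat_lit 1231678016) (nat_lit 0) (nat_lit 154537246) (nat_lit 1900) (nat_lit 1231678016) (nat_lit 508) (nat_lit 1) (nat_lit 482) (nat_lit 1) (nat_lit 507) (nat_lit 1) (nat_lit 425) (nat_lit 368) (nat_lit 347)) (XT.nd (nat_lit 78) (nat_lit 0) (nat_lit 76) (XT.lf (nat_lit 1976) (nat_lit 2263701290) (nat_lit 76) (nat_lit 165124516) (nat_lit 0) (nat_lit 165124516) (nat_lit 508) (nat_lit 1) (nat_lit 483) (nat_lit 1) (nat_lit 482) (nat_lit 1) (nat_lit 426) (nat_lit 368) (nat_lit 346)) (XT.lf (nat_lit 1976) (nat_lit 1026484974) (nat_lit 0) (nat_lit 517212939) (nat_lit 1900) (nat_lit 1026484974) (nat_lit 509) (nat_lit 1) (nat_lit 483) (nat_lit 1) (nat_lit 508) (nat_lit 1) (nat_lit 427) (nat_lit 368) (nat_lit 345)))))) (XT.nd (nat_lit 468)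 (nat_lit 2736) (nat_lit 0) (XT.nd (nat_lit 234) (nat_lit 912) (nat_lit 0) (XT.nd (nat_lit 78) (nat_lit 1064) (nat_lit 0) (XT.lf (nat_lit 1976) (nat_lit 1842967877) (nat_lit 76) (nat_lit 351923442) (nat_lit 0) (nat_lit 351923442) (nat_lit 509) (nat_lit 1) (nat_lit 484) (nat_lit 1) (nat_lit 483) (nat_lit 1) (nat_lit 428) (nat_lit 368) (nat_lit 344)) (XT.nd (nat_lit 78) (nat_lit 1140) (nat_lit 0) (XT.lf (nat_lit 76) (nat_lit 812439204) (nat_lit 0) (nat_lit 898787109) (nat_lit 1900) (nat_lit 812439204) (nat_lit 485) (nat_lit 1) (nat_lit 484) (nat_lit 1) (nat_lit 509) (nat_lit 1) (nat_lit 429) (nat_lit 368) (nat_lit 343)) (XT.lf (nat_lit 1216) (nat_lit 1405152129) (nat_lit 0) (nat_lit 547851054) (nat_lit 1140) (nat_lit 547851054) (nat_lit 485) (nat_lit 1) (nat_lit 469) (nat_lit 1) (nat_lit 484) (nat_lit 1) (nat_lit 430) (nat_lit 368) (nat_lit 342)))) (XT.nd (nat_lit 78) (nat_lit 912) (nat_lit 0) (XT.lf (nat_lit 76) (nat_lit 590214283) (nat_lit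 0) (nat_lit 1297879208) (nat_lit 1216) (nat_lit 590214283) (nat_lit 470) (nat_lit 1) (nat_lit 469) (nat_lit 1) (nat_lit 485) (nat_lit 1) (nat_lit 431) (nat_lit 368) (nat_lit 341)) (XT.nd (nat_lit 78) (nat_lit 0) (nat_lit 0) (XT.lf (nat_lit 988) (nat_lit 951572669) (nat_lit 0) (nat_lit 752231652) (nat_lit 912) (nat_lit 752231652) (nat_lit 470) (nat_lit 1) (nat_lit 457) (nat_lit 1) (nat_lit 469) (nat_lit 1) (nat_lit 432) (nat_lit 368) (nat_lit 340)) (XT.lf (nat_lit 76) (nat_lit 360451168) (nat_lit 0) (nat_lit 1713174974) (nat_lit 988) (nat_lit 360451168) (nat_lit 458) (nat_lit 1) (nat_lit 457) (nat_lit 1) (nat_lit 470) (nat_lit 1) (nat_lit 433) (nat_lit 368) (nat_lit 339))))) (XT.nd (nat_lit 234) (nat_lit 988) (nat_lit 0) (XT.nd (nat_lit 78) (nat_lit 836) (nat_lit 0) (XT.lf (nat_lit 988) (nat_lit 483484063) (nat_lit 0) (nat_lit 964422074) (nat_lit 912) (nat_lit 964422074) (nat_lit 458) (nat_lit 1) (nat_lit 445) (nat_lit 1) (nat_lit 457)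 (nat_lit 1) (nat_lit 434) (nat_lit 368) (nat_lit 338)) (XT.nd (nat_lit 78) (nat_lit 836) (nat_lit 0) (XT.lf (nat_lit 76) (nat_lit 123759584) (nat_lit 0) (nat_lit 2143423613) (nat_lit 988) (nat_lit 123759584) (nat_lit 446) (nat_lit 1) (nat_lit 445) (nat_lit 1) (nat_lit 458) (nat_lit 1) (nat_lit 435) (nat_lit 368) (nat_lit 337)) (XT.lf (nat_lit 912) (nat_lit 2079566) (nat_lit 0) (nat_lit 1183810305) (nat_lit 836) (nat_lit 1183810305) (nat_lit 446) (nat_lit 1) (nat_lit 434) (nat_lit 1) (nat_lit 445) (nat_lit 1) (nat_lit 436) (nat_lit 368) (nat_lit 336)))) (XT.nd (nat_lit 56628) (nat_lit 0) (nat_lit 5776) (XT.lf (nat_lit 988) (nat_lit 2111819873) (nat_lit 0) (nat_lit 118495892) (nat_lit 912) (nat_lit 118495892) (nat_lit 434) (nat_lit 1) (nat_lit 421) (nat_lit 1) (nat_lit 433) (nat_lit 1) (nat_lit 437) (nat_lit 368) (nat_lit 335)) (XT.nd (nat_lit 78) (nat_lit 0) (nat_lit 0) (XT.lf (nat_lit 1900) (nat_lit 542479668) (nat_lit 0) (nat_lit 547016060)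 (nat_lit 1900) (nat_lit 542479668) (nat_lit 522) (nat_lit 1) (nat_lit 497) (nat_lit 0) (nat_lit 522) (nat_lit 0) (nat_lit 402) (nat_lit 369) (nat_lit 369)) (XT.lf (nat_lit 1900) (nat_lit 2145046171) (nat_lit 76) (nat_lit 543417270) (nat_lit 0) (nat_lit 543417270) (nat_lit 522) (nat_lit 1) (nat_lit 498) (nat_lit 1) (nat_lit 497) (nat_lit 0) (nat_lit 403) (nat_lit 369) (nat_lit 368))))))) (XT.nd (nat_lit 936) (nat_lit 1216) (nat_lit 0) (XT.nd (nat_lit 468) (nat_lit 0) (nat_lit 228) (XT.nd (nat_lit 234) (nat_lit 0) (nat_lit 76) (XT.nd (nat_lit 78) (nat_lit 0) (nat_lit 0) (XT.lf (nat_lit 1900) (nat_lit 1053227880) (nat_lit 0) (nat_lit 1093705152) (nat_lit 1824) (nat_lit 1053227880) (nat_lit 523) (nat_lit 1) (nat_lit 498) (nat_lit 1) (nat_lit 522) (nat_lit 1) (nat_lit 404) (nat_lit 369) (nat_lit 367)) (XT.nd (nat_lit 78) (nat_lit 0) (nat_lit 76) (XT.lf (nat_lit 1900) (nat_lit 2061426597) (nat_lit 76) (nat_lit 553747694) (nat_lit 0) (nat_lit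 553747694) (nat_lit 523) (nat_lit 1) (nat_lit 499) (nat_lit 1) (nat_lit 498) (nat_lit 1) (nat_lit 405) (nat_lit 369) (nat_lit 366)) (XT.lf (nat_lit 1900) (nat_lit 1001814263) (nat_lit 0) (nat_lit 1134399376) (nat_lit 1824) (nat_lit 1001814263) (nat_lit 524) (nat_lit 1) (nat_lit 499) (nat_lit 1) (nat_lit 523) (nat_lit 1) (nat_lit 406) (nat_lit 369) (nat_lit 365)))) (XT.nd (nat_lit 78) (nat_lit 0) (nat_lit 76) (XT.lf (nat_lit 1900) (nat_lit 1939500597) (nat_lit 76) (nat_lit 584046326) (nat_lit 0) (nat_lit 584046326) (nat_lit 524) (nat_lit 1) (nat_lit 500) (nat_lit 1) (nat_lit 499) (nat_lit 1) (nat_lit 407) (nat_lit 369) (nat_lit 364)) (XT.nd (nat_lit 78) (nat_lit 0) (nat_lit 0) (XT.lf (nat_lit 1900) (nat_lit 931892852) (nat_lit 0) (nat_lit 1213717799) (nat_lit 1824) (nat_lit 931892852) (nat_lit 525) (nat_lit 1) (nat_lit 500) (nat_lit 1) (nat_lit 524) (nat_lit 1) (nat_lit 408) (nat_lit 369) (nat_lit 363)) (XT.lf (nat_lit 1900) (nat_lit 1781570430)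 (nat_lit 76) (nat_lit 633138377) (nat_lit 0) (nat_lit 633138377) (nat_lit 525) (nat_lit 1) (nat_lit 501) (nat_lit 1) (nat_lit 500) (nat_lit 1) (nat_lit 409) (nat_lit 369) (nat_lit 362))))) (XT.nd (nat_lit 234) (nat_lit 0) (nat_lit 76) (XT.nd (nat_lit 78) (nat_lit 0) (nat_lit 0) (XT.lf (nat_lit 1900) (nat_lit 844584370) (nat_lit 0) (nat_lit 1329372277) (nat_lit 1824) (nat_lit 844584370) (nat_lit 526) (nat_lit 1) (nat_lit 501) (nat_lit 1) (nat_lit 525) (nat_lit 1) (nat_lit 410) (nat_lit 369) (nat_lit 361)) (XT.nd (nat_lit 78) (nat_lit 0) (nat_lit 76) (XT.lf (nat_lit 1900) (nat_lit 1589832980) (nat_lit 76) (nat_lit 699902508) (nat_lit 0) (nat_lit 699902508) (nat_lit 526) (nat_lit 1) (nat_lit 502) (nat_lit 1) (nat_lit 501) (nat_lit 1) (nat_lit 411) (nat_lit 369) (nat_lit 360)) (XT.lf (nat_lit 1900) (nat_lit 740958141) (nat_lit 0) (nat_lit 1479178971) (nat_lit 1824) (nat_lit 740958141) (nat_lit 527) (nat_lit 1) (nat_lit 502) (nat_lit 1) (nat_lit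 526) (nat_lit 1) (nat_lit 412) (nat_lit 369) (nat_lit 359)))) (XT.nd (nat_lit 78) (nat_lit 0) (nat_lit 76) (XT.lf (nat_lit 1900) (nat_lit 1366384160) (nat_lit 76) (nat_lit 783268601) (nat_lit 0) (nat_lit 783268601) (nat_lit 527) (nat_lit 1) (nat_lit 503) (nat_lit 1) (nat_lit 502) (nat_lit 1) (nat_lit 413) (nat_lit 369) (nat_lit 358)) (XT.nd (nat_lit 78) (nat_lit 0) (nat_lit 0) (XT.lf (nat_lit 1900) (nat_lit 622034235) (nat_lit 0) (nat_lit 1661053999) (nat_lit 1824) (nat_lit 622034235) (nat_lit 528) (nat_lit 1) (nat_lit 503) (nat_lit 1) (nat_lit 527) (nat_lit 1) (nat_lit 414) (nat_lit 369) (nat_lit 357)) (XT.lf (nat_lit 1900) (nat_lit 1113223141) (nat_lit 76) (nat_lit 882215619) (nat_lit 0) (nat_lit 882215619) (nat_lit 528) (nat_lit 1) (nat_lit 504) (nat_lit 1) (nat_lit 503) (nat_lit 1) (nat_lit 415) (nat_lit 369) (nat_lit 356)))))) (XT.nd (nat_lit 468) (nat_lit 1672) (nat_lit 0) (XT.nd (nat_lit 234) (nat_lit 0) (nat_lit 76) (XT.nd (nat_lit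 78) (nat_lit 0) (nat_lit 0) (XT.lf (nat_lit 1900) (nat_lit 488785533) (nat_lit 0) (nat_lit 1873009256) (nat_lit 1824) (nat_lit 488785533) (nat_lit 529) (nat_lit 1) (nat_lit 504) (nat_lit 1) (nat_lit 528) (nat_lit 1) (nat_lit 416) (nat_lit 369) (nat_lit 355)) (XT.nd (nat_lit 78) (nat_lit 0) (nat_lit 76) (XT.lf (nat_lit 1900) (nat_lit 832256409) (nat_lit 76) (nat_lit 995769552) (nat_lit 0) (nat_lit 995769552) (nat_lit 529) (nat_lit 1) (nat_lit 505) (nat_lit 1) (nat_lit 504) (nat_lit 1) (nat_lit 417) (nat_lit 369) (nat_lit 354)) (XT.lf (nat_lit 1900) (nat_lit 342139713) (nat_lit 0) (nat_lit 2113148401) (nat_lit 1824) (nat_lit 342139713) (nat_lit 530) (nat_lit 1) (nat_lit 505) (nat_lit 1) (nat_lit 529) (nat_lit 1) (nat_lit 418) (nat_lit 369) (nat_lit 353)))) (XT.nd (nat_lit 78) (nat_lit 0) (nat_lit 76) (XT.lf (nat_lit 1900) (nat_lit 525301661) (nat_lit 76) (nat_lit 1123001449) (nat_lit 0) (nat_lit 1123001449) (nat_lit 530) (nat_lit 1) (nat_lit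 506) (nat_lit 1) (nat_lit 505) (nat_lit 1) (nat_lit 419) (nat_lit 369) (nat_lit 352)) (XT.nd (nat_lit 78) (nat_lit 0) (nat_lit 0) (XT.lf (nat_lit 1900) (nat_lit 182981143) (nat_lit 0) (nat_lit 2379663013) (nat_lit 1824) (nat_lit 182981143) (nat_lit 531) (nat_lit 1) (nat_lit 506) (nat_lit 1) (nat_lit 530) (nat_lit 1) (nat_lit 420) (nat_lit 369) (nat_lit 351)) (XT.lf (nat_lit 1900) (nat_lit 194091537) (nat_lit 76) (nat_lit 1263025522) (nat_lit 0) (nat_lit 1263025522) (nat_lit 531) (nat_lit 1) (nat_lit 507) (nat_lit 1) (nat_lit 506) (nat_lit 1) (nat_lit 421) (nat_lit 369) (nat_lit 350))))) (XT.nd (nat_lit 234) (nat_lit 0) (nat_lit 76) (XT.nd (nat_lit 78) (nat_lit 1900) (nat_lit 0) (XT.lf (nat_lit 1900) (nat_lit 12152714) (nat_lit 0) (nat_lit 2670828893) (nat_lit 1824) (nat_lit 12152714) (nat_lit 532) (nat_lit 1) (nat_lit 507) (nat_lit 1) (nat_lit 531) (nat_lit 1) (nat_lit 422) (nat_lit 369) (nat_lit 349)) (XT.nd (nat_lit 78) (nat_lit 0)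 (nat_lit 0) (XT.lf (nat_lit 1976) (nat_lit 1256311576) (nat_lit 0) (nat_lit 157627991) (nat_lit 1900) (nat_lit 1256311576) (nat_lit 508) (nat_lit 1) (nat_lit 482) (nat_lit 1) (nat_lit 507) (nat_lit 1) (nat_lit 423) (nat_lit 369) (nat_lit 348)) (XT.lf (nat_lit 1976) (nat_lit 2308975316) (nat_lit 76) (nat_lit 168427006) (nat_lit 0) (nat_lit 168427006) (nat_lit 508) (nat_lit 1) (nat_lit 483) (nat_lit 1) (nat_lit 482) (nat_lit 1) (nat_lit 424) (nat_lit 369) (nat_lit 347)))) (XT.nd (nat_lit 78) (nat_lit 0) (nat_lit 0) (XT.lf (nat_lit 1976) (nat_lit 1047014673) (nat_lit 0) (nat_lit 527557198) (nat_lit 1900) (nat_lit 1047014673) (nat_lit 509) (nat_lit 1) (nat_lit 483) (nat_lit 1) (nat_lit 508) (nat_lit 1) (nat_lit 425) (nat_lit 369) (nat_lit 346)) (XT.nd (nat_lit 78) (nat_lit 0) (nat_lit 76) (XT.lf (nat_lit 1976) (nat_lit 1879827234) (nat_lit 76) (nat_lit 358961910) (nat_lit 0) (nat_lit 358961910) (nat_lit 509) (nat_lit 1) (nat_lit 484) (nat_lit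 1) (nat_lit 483) (nat_lit 1) (nat_lit 426) (nat_lit 369) (nat_lit 345)) (XT.lf (nat_lit 76) (nat_lit 828687988) (nat_lit 0) (nat_lit 916762851) (nat_lit 1900) (nat_lit 828687988) (nat_lit 485) (nat_lit 1) (nat_lit 484) (nat_lit 1) (nat_lit 509) (nat_lit 1) (nat_lit 427) (nat_lit 369) (nat_lit 344))))))))
noncomputable def ec7 : XT := (XT.nd (nat_lit 58344) (nat_lit 836) (nat_lit 0) (XT.nd (nat_lit 57408) (nat_lit 0) (nat_lit 5852) (XT.nd (nat_lit 468) (nat_lit 1824) (nat_lit 0) (XT.nd (nat_lit 234) (nat_lit 912) (nat_lit 0) (XT.nd (nat_lit 78) (nat_lit 912) (nat_lit 0) (XT.lf (nat_lit 1216) (nat_lit 1433255172) (nat_lit 0) (nat_lit 558808075) (nat_lit 1140) (nat_lit 558808075) (nat_lit 485) (nat_lit 1) (nat_lit 469) (nat_lit 1) (nat_lit 484) (nat_lit 1) (nat_lit 428) (nat_lit 369) (nat_lit 343)) (XT.nd (nat_lit 78) (nat_lit 912) (nat_lit 0) (XT.lf (nat_lit 76) (nat_lit 602018569) (nat_lit 0) (nat_lit 1323836792) (nat_lit 1216) (nat_lit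 602018569) (nat_lit 470) (nat_lit 1) (nat_lit 469) (nat_lit 1) (nat_lit 485) (nat_lit 1) (nat_lit 429) (nat_lit 369) (nat_lit 342)) (XT.lf (nat_lit 988) (nat_lit 970604122) (nat_lit 0) (nat_lit 767276285) (nat_lit 912) (nat_lit 767276285) (nat_lit 470) (nat_lit 1) (nat_lit 457) (nat_lit 1) (nat_lit 469) (nat_lit 1) (nat_lit 430) (nat_lit 369) (nat_lit 341)))) (XT.nd (nat_lit 78) (nat_lit 912) (nat_lit 0) (XT.lf (nat_lit 76) (nat_lit 367660191) (nat_lit 0) (nat_lit 1747438473) (nat_lit 988) (nat_lit 367660191) (nat_lit 458) (nat_lit 1) (nat_lit 457) (nat_lit 1) (nat_lit 470) (nat_lit 1) (nat_lit 431) (nat_lit 369) (nat_lit 340)) (XT.nd (nat_lit 78) (nat_lit 0) (nat_lit 0) (XT.lf (nat_lit 988) (nat_lit 493153744) (nat_lit 0) (nat_lit 983710515) (nat_lit 912) (nat_lit 983710515) (nat_lit 458) (nat_lit 1) (nat_lit 445) (nat_lit 1) (nat_lit 457) (nat_lit 1) (nat_lit 432) (nat_lit 369) (nat_lit 339)) (XT.lf (nat_lit 76) (nat_lit 126234776)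 (nat_lit 0) (nat_lit 2186292085) (nat_lit 988) (nat_lit 126234776) (nat_lit 446) (nat_lit 1) (nat_lit 445) (nat_lit 1) (nat_lit 458) (nat_lit 1) (nat_lit 433) (nat_lit 369) (nat_lit 338))))) (XT.nd (nat_lit 56706) (nat_lit 0) (nat_lit 5776) (XT.nd (nat_lit 78) (nat_lit 988) (nat_lit 0) (XT.lf (nat_lit 912) (nat_lit 2121157) (nat_lit 0) (nat_lit 1207486511) (nat_lit 836) (nat_lit 1207486511) (nat_lit 446) (nat_lit 1) (nat_lit 434) (nat_lit 1) (nat_lit 445) (nat_lit 1) (nat_lit 434) (nat_lit 369) (nat_lit 337)) (XT.nd (nat_lit 78) (nat_lit 0) (nat_lit 0) (XT.lf (nat_lit 988) (nat_lit 2154056271) (nat_lit 0) (nat_lit 120865810) (nat_lit 912) (nat_lit 120865810) (nat_lit 434) (nat_lit 1) (nat_lit 421) (nat_lit 1) (nat_lit 433) (nat_lit 1) (nat_lit 435) (nat_lit 369) (nat_lit 336)) (XT.lf (nat_lit 76) (nat_lit 939929066) (nat_lit 0) (nat_lit 494761260) (nat_lit 988) (nat_lit 939929066) (nat_lit 422) (nat_lit 1) (nat_lit 421) (nat_lit 1) (nat_lit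 434) (nat_lit 1) (nat_lit 436) (nat_lit 369) (nat_lit 335)))) (XT.nd (nat_lit 78) (nat_lit 0) (nat_lit 0) (XT.lf (nat_lit 1900) (nat_lit 553329261) (nat_lit 0) (nat_lit 557956381) (nat_lit 1900) (nat_lit 553329261) (nat_lit 522) (nat_lit 1) (nat_lit 497) (nat_lit 0) (nat_lit 522) (nat_lit 0) (nat_lit 400) (nat_lit 370) (nat_lit 370)) (XT.nd (nat_lit 78) (nat_lit 0) (nat_lit 76) (XT.lf (nat_lit 1900) (nat_lit 2187947095) (nat_lit 76) (nat_lit 554285615) (nat_lit 0) (nat_lit 554285615) (nat_lit 522) (nat_lit 1) (nat_lit 498) (nat_lit 1) (nat_lit 497) (nat_lit 0) (nat_lit 401) (nat_lit 370) (nat_lit 369)) (XT.lf (nat_lit 1900) (nat_lit 1074292438) (nat_lit 0) (nat_lit 1115579255) (nat_lit 1824) (nat_lit 1074292438) (nat_lit 523) (nat_lit 1) (nat_lit 498) (nat_lit 1) (nat_lit 522) (nat_lit 1) (nat_lit 402) (nat_lit 370) (nat_lit 368)))))) (XT.nd (nat_lit 468) (nat_lit 0) (nat_lit 228) (XT.nd (nat_lit 234) (nat_lit 0) (nat_lit 152) (XT.nd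 (nat_lit 78) (nat_lit 0) (nat_lit 76) (XT.lf (nat_lit 1900) (nat_lit 2102655129) (nat_lit 76) (nat_lit 564822648) (nat_lit 0) (nat_lit 564822648) (nat_lit 523) (nat_lit 1) (nat_lit 499) (nat_lit 1) (nat_lit 498) (nat_lit 1) (nat_lit 403) (nat_lit 370) (nat_lit 367)) (XT.nd (nat_lit 78) (nat_lit 0) (nat_lit 0) (XT.lf (nat_lit 1900) (nat_lit 1021850548) (nat_lit 0) (nat_lit 1157087363) (nat_lit 1824) (nat_lit 1021850548) (nat_lit 524) (nat_lit 1) (nat_lit 499) (nat_lit 1) (nat_lit 523) (nat_lit 1) (nat_lit 404) (nat_lit 370) (nat_lit 366)) (XT.lf (nat_lit 1900) (nat_lit 1978290609) (nat_lit 76) (nat_lit 595727252) (nat_lit 0) (nat_lit 595727252) (nat_lit 524) (nat_lit 1) (nat_lit 500) (nat_lit 1) (nat_lit 499) (nat_lit 1) (nat_lit 405) (nat_lit 370) (nat_lit 365)))) (XT.nd (nat_lit 78) (nat_lit 0) (nat_lit 0) (XT.lf (nat_lit 1900) (nat_lit 950530709) (nat_lit 0) (nat_lit 1237992155) (nat_lit 1824) (nat_lit 950530709) (nat_lit 525) (nat_lit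 1) (nat_lit 500) (nat_lit 1) (nat_lit 524) (nat_lit 1) (nat_lit 406) (nat_lit 370) (nat_lit 364)) (XT.nd (nat_lit 78) (nat_lit 0) (nat_lit 76) (XT.lf (nat_lit 1900) (nat_lit 1817201839) (nat_lit 76) (nat_lit 645801144) (nat_lit 0) (nat_lit 645801144) (nat_lit 525) (nat_lit 1) (nat_lit 501) (nat_lit 1) (nat_lit 500) (nat_lit 1) (nat_lit 407) (nat_lit 370) (nat_lit 363)) (XT.lf (nat_lit 1900) (nat_lit 861476058) (nat_lit 0) (nat_lit 1355959723) (nat_lit 1824) (nat_lit 861476058) (nat_lit 526) (nat_lit 1) (nat_lit 501) (nat_lit 1) (nat_lit 525) (nat_lit 1) (nat_lit 408) (nat_lit 370) (nat_lit 362))))) (XT.nd (nat_lit 234) (nat_lit 0) (nat_lit 152) (XT.nd (nat_lit 78) (nat_lit 0) (nat_lit 76) (XT.lf (nat_lit 1900) (nat_lit 1621629639) (nat_lit 76) (nat_lit 713900558) (nat_lit 0) (nat_lit 713900558) (nat_lit 526) (nat_lit 1) (nat_lit 502) (nat_lit 1) (nat_lit 501) (nat_lit 1) (nat_lit 409) (nat_lit 370) (nat_lit 361)) (XT.nd (nat_lit 78) (nat_lit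 0) (nat_lit 0) (XT.lf (nat_lit 1900) (nat_lit 755777304) (nat_lit 0) (nat_lit 1508762551) (nat_lit 1824) (nat_lit 755777304) (nat_lit 527) (nat_lit 1) (nat_lit 502) (nat_lit 1) (nat_lit 526) (nat_lit 1) (nat_lit 410) (nat_lit 370) (nat_lit 360)) (XT.lf (nat_lit 1900) (nat_lit 1393711843) (nat_lit 76) (nat_lit 798933973) (nat_lit 0) (nat_lit 798933973) (nat_lit 527) (nat_lit 1) (nat_lit 503) (nat_lit 1) (nat_lit 502) (nat_lit 1) (nat_lit 411) (nat_lit 370) (nat_lit 359)))) (XT.nd (nat_lit 78) (nat_lit 0) (nat_lit 0) (XT.lf (nat_lit 1900) (nat_lit 634474920) (nat_lit 0) (nat_lit 1694275079) (nat_lit 1824) (nat_lit 634474920) (nat_lit 528) (nat_lit 1) (nat_lit 503) (nat_lit 1) (nat_lit 527) (nat_lit 1) (nat_lit 412) (nat_lit 370) (nat_lit 358)) (XT.nd (nat_lit 78) (nat_lit 0) (nat_lit 76) (XT.lf (nat_lit 1900) (nat_lit 1135487604) (nat_lit 76) (nat_lit 899859931) (nat_lit 0) (nat_lit 899859931) (nat_lit 528) (nat_lit 1) (nat_lit 504) (nat_lit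 1) (nat_lit 503) (nat_lit 1) (nat_lit 413) (nat_lit 370) (nat_lit 357)) (XT.lf (nat_lit 1900) (nat_lit 498561244) (nat_lit 0) (nat_lit 1910469441) (nat_lit 1824) (nat_lit 498561244) (nat_lit 529) (nat_lit 1) (nat_lit 504) (nat_lit 1) (nat_lit 528) (nat_lit 1) (nat_lit 414) (nat_lit 370) (nat_lit 356))))))) (XT.nd (nat_lit 936) (nat_lit 4484) (nat_lit 0) (XT.nd (nat_lit 468) (nat_lit 2660) (nat_lit 0) (XT.nd (nat_lit 234) (nat_lit 0) (nat_lit 152) (XT.nd (nat_lit 78) (nat_lit 0) (nat_lit 76) (XT.lf (nat_lit 1900) (nat_lit 848901537) (nat_lit 76) (nat_lit 1015684943) (nat_lit 0) (nat_lit 1015684943) (nat_lit 529) (nat_lit 1) (nat_lit 505) (nat_lit 1) (nat_lit 504) (nat_lit 1) (nat_lit 415) (nat_lit 370) (nat_lit 355)) (XT.nd (nat_lit 78) (nat_lit 0) (nat_lit 0) (XT.lf (nat_lit 1900) (nat_lit 348982507) (nat_lit 0) (nat_lit 2155411369) (nat_lit 1824) (nat_lit 348982507) (nat_lit 530) (nat_lit 1) (nat_lit 505) (nat_lit 1) (nat_lit 529) (nat_lit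 1) (nat_lit 416) (nat_lit 370) (nat_lit 354)) (XT.lf (nat_lit 1900) (nat_lit 535807694) (nat_lit 76) (nat_lit 1145461478) (nat_lit 0) (nat_lit 1145461478) (nat_lit 530) (nat_lit 1) (nat_lit 506) (nat_lit 1) (nat_lit 505) (nat_lit 1) (nat_lit 417) (nat_lit 370) (nat_lit 353)))) (XT.nd (nat_lit 78) (nat_lit 0) (nat_lit 0) (XT.lf (nat_lit 1900) (nat_lit 186640766) (nat_lit 0) (nat_lit 2427256273) (nat_lit 1824) (nat_lit 186640766) (nat_lit 531) (nat_lit 1) (nat_lit 506) (nat_lit 1) (nat_lit 530) (nat_lit 1) (nat_lit 418) (nat_lit 370) (nat_lit 352)) (XT.nd (nat_lit 78) (nat_lit 0) (nat_lit 76) (XT.lf (nat_lit 1900) (nat_lit 197973368) (nat_lit 76) (nat_lit 1288286032) (nat_lit 0) (nat_lit 1288286032) (nat_lit 531) (nat_lit 1) (nat_lit 507) (nat_lit 1) (nat_lit 506) (nat_lit 1) (nat_lit 419) (nat_lit 370) (nat_lit 351)) (XT.lf (nat_lit 1900) (nat_lit 12395768) (nat_lit 0) (nat_lit 2724245471) (nat_lit 1824) (nat_lit 12395768) (nat_lit 532)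 (nat_lit 1) (nat_lit 507) (nat_lit 1) (nat_lit 531) (nat_lit 1) (nat_lit 420) (nat_lit 370) (nat_lit 350))))) (XT.nd (nat_lit 234) (nat_lit 988) (nat_lit 0) (XT.nd (nat_lit 78) (nat_lit 0) (nat_lit 0) (XT.lf (nat_lit 1976) (nat_lit 1281437808) (nat_lit 0) (nat_lit 160780551) (nat_lit 1900) (nat_lit 1281437808) (nat_lit 508) (nat_lit 1) (nat_lit 482) (nat_lit 1) (nat_lit 507) (nat_lit 1) (nat_lit 421) (nat_lit 370) (nat_lit 349)) (XT.nd (nat_lit 78) (nat_lit 0) (nat_lit 76) (XT.lf (nat_lit 1976) (nat_lit 2355154823) (nat_lit 76) (nat_lit 171795546) (nat_lit 0) (nat_lit 171795546) (nat_lit 508) (nat_lit 1) (nat_lit 483) (nat_lit 1) (nat_lit 482) (nat_lit 1) (nat_lit 422) (nat_lit 370) (nat_lit 348)) (XT.lf (nat_lit 1976) (nat_lit 1067954967) (nat_lit 0) (nat_lit 538108342) (nat_lit 1900) (nat_lit 1067954967) (nat_lit 509) (nat_lit 1) (nat_lit 483) (nat_lit 1) (nat_lit 508) (nat_lit 1) (nat_lit 423) (nat_lit 370) (nat_lit 347)))) (XT.nd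 (nat_lit 78) (nat_lit 1064) (nat_lit 0) (XT.lf (nat_lit 1976) (nat_lit 1917423779) (nat_lit 76) (nat_lit 366141149) (nat_lit 0) (nat_lit 366141149) (nat_lit 509) (nat_lit 1) (nat_lit 484) (nat_lit 1) (nat_lit 483) (nat_lit 1) (nat_lit 424) (nat_lit 370) (nat_lit 346)) (XT.nd (nat_lit 78) (nat_lit 1140) (nat_lit 0) (XT.lf (nat_lit 76) (nat_lit 845261747) (nat_lit 0) (nat_lit 935098108) (nat_lit 1900) (nat_lit 845261747) (nat_lit 485) (nat_lit 1) (nat_lit 484) (nat_lit 1) (nat_lit 509) (nat_lit 1) (nat_lit 425) (nat_lit 370) (nat_lit 345)) (XT.lf (nat_lit 1216) (nat_lit 1461920275) (nat_lit 0) (nat_lit 569984236) (nat_lit 1140) (nat_lit 569984236) (nat_lit 485) (nat_lit 1) (nat_lit 469) (nat_lit 1) (nat_lit 484) (nat_lit 1) (nat_lit 426) (nat_lit 370) (nat_lit 344)))))) (XT.nd (nat_lit 468) (nat_lit 1824) (nat_lit 0) (XT.nd (nat_lit 234) (nat_lit 1748) (nat_lit 0) (XT.nd (nat_lit 78) (nat_lit 912) (nat_lit 0) (XT.lf (nat_lit 76) (nat_lit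 614058940) (nat_lit 0) (nat_lit 1350313528) (nat_lit 1216) (nat_lit 614058940) (nat_lit 470) (nat_lit 1) (nat_lit 469) (nat_lit 1) (nat_lit 485) (nat_lit 1) (nat_lit 427) (nat_lit 370) (nat_lit 343)) (XT.nd (nat_lit 78) (nat_lit 0) (nat_lit 0) (XT.lf (nat_lit 988) (nat_lit 990016204) (nat_lit 0) (nat_lit 782621811) (nat_lit 912) (nat_lit 782621811) (nat_lit 470) (nat_lit 1) (nat_lit 457) (nat_lit 1) (nat_lit 469) (nat_lit 1) (nat_lit 428) (nat_lit 370) (nat_lit 342)) (XT.lf (nat_lit 76) (nat_lit 375013395) (nat_lit 0) (nat_lit 1782387243) (nat_lit 988) (nat_lit 375013395) (nat_lit 458) (nat_lit 1) (nat_lit 457) (nat_lit 1) (nat_lit 470) (nat_lit 1) (nat_lit 429) (nat_lit 370) (nat_lit 341)))) (XT.nd (nat_lit 78) (nat_lit 836) (nat_lit 0) (XT.lf (nat_lit 988) (nat_lit 503016819) (nat_lit 0) (nat_lit 1003384725) (nat_lit 912) (nat_lit 1003384725) (nat_lit 458) (nat_lit 1) (nat_lit 445) (nat_lit 1) (nat_lit 457) (nat_lit 1) (nat_lit 430)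 (nat_lit 370) (nat_lit 340)) (XT.nd (nat_lit 78) (nat_lit 836) (nat_lit 0) (XT.lf (nat_lit 76) (nat_lit 128759471) (nat_lit 0) (nat_lit 2230017927) (nat_lit 988) (nat_lit 128759471) (nat_lit 446) (nat_lit 1) (nat_lit 445) (nat_lit 1) (nat_lit 458) (nat_lit 1) (nat_lit 431) (nat_lit 370) (nat_lit 339)) (XT.lf (nat_lit 912) (nat_lit 2163580) (nat_lit 0) (nat_lit 1231636241) (nat_lit 836) (nat_lit 1231636241) (nat_lit 446) (nat_lit 1) (nat_lit 434) (nat_lit 1) (nat_lit 445) (nat_lit 1) (nat_lit 432) (nat_lit 370) (nat_lit 338))))) (XT.nd (nat_lit 234) (nat_lit 0) (nat_lit 0) (XT.nd (nat_lit 78) (nat_lit 836) (nat_lit 0) (XT.lf (nat_lit 988) (nat_lit 2197137396) (nat_lit 0) (nat_lit 123283126) (nat_lit 912) (nat_lit 123283126) (nat_lit 434) (nat_lit 1) (nat_lit 421) (nat_lit 1) (nat_lit 433) (nat_lit 1) (nat_lit 433) (nat_lit 370) (nat_lit 337)) (XT.nd (nat_lit 78) (nat_lit 836) (nat_lit 0) (XT.lf (nat_lit 76) (nat_lit 958727647) (nat_lit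 0) (nat_lit 504656485) (nat_lit 988) (nat_lit 958727647) (nat_lit 422) (nat_lit 1) (nat_lit 421) (nat_lit 1) (nat_lit 434) (nat_lit 1) (nat_lit 434) (nat_lit 370) (nat_lit 336)) (XT.lf (nat_lit 912) (nat_lit 1639937048) (nat_lit 0) (nat_lit 380470566) (nat_lit 836) (nat_lit 380470566) (nat_lit 422) (nat_lit 1) (nat_lit 410) (nat_lit 1) (nat_lit 421) (nat_lit 1) (nat_lit 435) (nat_lit 370) (nat_lit 335)))) (XT.nd (nat_lit 56472) (nat_lit 0) (nat_lit 6612) (XT.nd (nat_lit 56394) (nat_lit 0) (nat_lit 6612) (XT.lf (nat_lit 76) (nat_lit 678499912) (nat_lit 0) (nat_lit 1022848151) (nat_lit 912) (nat_lit 678499912) (nat_lit 411) (nat_lit 1) (nat_lit 410) (nat_lit 1) (nat_lit 422) (nat_lit 1) (nat_lit 436) (nat_lit 370) (nat_lit 334)) (XT.lf (nat_lit 1900) (nat_lit 564395847) (nat_lit 0) (nat_lit 569115509) (nat_lit 1900) (nat_lit 564395847) (nat_lit 522) (nat_lit 1) (nat_lit 497) (nat_lit 0) (nat_lit 522) (nat_lit 0) (nat_lit 398) (nat_lit 371)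 (nat_lit 371))) (XT.nd (nat_lit 78) (nat_lit 0) (nat_lit 76) (XT.lf (nat_lit 1900) (nat_lit 2231706037) (nat_lit 76) (nat_lit 565371328) (nat_lit 0) (nat_lit 565371328) (nat_lit 522) (nat_lit 1) (nat_lit 498) (nat_lit 1) (nat_lit 497) (nat_lit 0) (nat_lit 399) (nat_lit 371) (nat_lit 370)) (XT.lf (nat_lit 1900) (nat_lit 1095778287) (nat_lit 0) (nat_lit 1137890840) (nat_lit 1824) (nat_lit 1095778287) (nat_lit 523) (nat_lit 1) (nat_lit 498) (nat_lit 1) (nat_lit 522) (nat_lit 1) (nat_lit 400) (nat_lit 371) (nat_lit 369))))))))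
noncomputable def ec8 : XT := (XT.nd (nat_lit 1872) (nat_lit 5320) (nat_lit 0) (XT.nd (nat_lit 936) (nat_lit 2204) (nat_lit 0) (XT.nd (nat_lit 468) (nat_lit 0) (nat_lit 228) (XT.nd (nat_lit 234) (nat_lit 0) (nat_lit 152) (XT.nd (nat_lit 78) (nat_lit 0) (nat_lit 76) (XT.lf (nat_lit 1900) (nat_lit 2144708232) (nat_lit 76) (nat_lit 576119100) (nat_lit 0) (nat_lit 576119100) (nat_lit 523) (nat_lit 1) (nat_lit 499) (nat_lit 1) (nat_lit 498) (nat_lit 1) (nat_lit 401) (nat_lit 371) (nat_lit 368)) (XT.nd (nat_lit 78) (nat_lit 0) (nat_lit 0) (XT.lf (nat_lit 1900) (nat_lit 1042287559) (nat_lit 0) (nat_lit 1180229110) (nat_lit 1824) (nat_lit 1042287559) (nat_lit 524) (nat_lit 1) (nat_lit 499) (nat_lit 1) (nat_lit 523) (nat_lit 1) (nat_lit 402) (nat_lit 371) (nat_lit 367)) (XT.lf (nat_lit 1900) (nat_lit 2017856421) (nat_lit 76) (nat_lit 607641797) (nat_lit 0) (nat_lit 607641797) (nat_lit 524) (nat_lit 1) (nat_lit 500) (nat_lit 1) (nat_lit 499) (nat_lit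 1) (nat_lit 403) (nat_lit 371) (nat_lit 366)))) (XT.nd (nat_lit 78) (nat_lit 0) (nat_lit 0) (XT.lf (nat_lit 1900) (nat_lit 969541323) (nat_lit 0) (nat_lit 1262751999) (nat_lit 1824) (nat_lit 969541323) (nat_lit 525) (nat_lit 1) (nat_lit 500) (nat_lit 1) (nat_lit 524) (nat_lit 1) (nat_lit 404) (nat_lit 371) (nat_lit 365)) (XT.nd (nat_lit 78) (nat_lit 0) (nat_lit 76) (XT.lf (nat_lit 1900) (nat_lit 1853545875) (nat_lit 76) (nat_lit 658717167) (nat_lit 0) (nat_lit 658717167) (nat_lit 525) (nat_lit 1) (nat_lit 501) (nat_lit 1) (nat_lit 500) (nat_lit 1) (nat_lit 405) (nat_lit 371) (nat_lit 364)) (XT.lf (nat_lit 1900) (nat_lit 878705579) (nat_lit 0) (nat_lit 1383078917) (nat_lit 1824) (nat_lit 878705579) (nat_lit 526) (nat_lit 1) (nat_lit 501) (nat_lit 1) (nat_lit 525) (nat_lit 1) (nat_lit 406) (nat_lit 371) (nat_lit 363))))) (XT.nd (nat_lit 234) (nat_lit 0) (nat_lit 152) (XT.nd (nat_lit 78) (nat_lit 0) (nat_lit 76) (XT.lf (nat_lit 1900) (nat_lit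 1654062232) (nat_lit 76) (nat_lit 728178569) (nat_lit 0) (nat_lit 728178569) (nat_lit 526) (nat_lit 1) (nat_lit 502) (nat_lit 1) (nat_lit 501) (nat_lit 1) (nat_lit 407) (nat_lit 371) (nat_lit 362)) (XT.nd (nat_lit 78) (nat_lit 0) (nat_lit 0) (XT.lf (nat_lit 1900) (nat_lit 770892850) (nat_lit 0) (nat_lit 1538937802) (nat_lit 1824) (nat_lit 770892850) (nat_lit 527) (nat_lit 1) (nat_lit 502) (nat_lit 1) (nat_lit 526) (nat_lit 1) (nat_lit 408) (nat_lit 371) (nat_lit 361)) (XT.lf (nat_lit 1900) (nat_lit 1421586080) (nat_lit 76) (nat_lit 814912652) (nat_lit 0) (nat_lit 814912652) (nat_lit 527) (nat_lit 1) (nat_lit 503) (nat_lit 1) (nat_lit 502) (nat_lit 1) (nat_lit 409) (nat_lit 371) (nat_lit 360)))) (XT.nd (nat_lit 78) (nat_lit 0) (nat_lit 0) (XT.lf (nat_lit 1900) (nat_lit 647164418) (nat_lit 0) (nat_lit 1728160581) (nat_lit 1824) (nat_lit 647164418) (nat_lit 528) (nat_lit 1) (nat_lit 503) (nat_lit 1) (nat_lit 527) (nat_lit 1) (nat_lit 410)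 (nat_lit 371) (nat_lit 359)) (XT.nd (nat_lit 78) (nat_lit 0) (nat_lit 76) (XT.lf (nat_lit 1900) (nat_lit 1158197356) (nat_lit 76) (nat_lit 917857130) (nat_lit 0) (nat_lit 917857130) (nat_lit 528) (nat_lit 1) (nat_lit 504) (nat_lit 1) (nat_lit 503) (nat_lit 1) (nat_lit 411) (nat_lit 371) (nat_lit 358)) (XT.lf (nat_lit 1900) (nat_lit 508532469) (nat_lit 0) (nat_lit 1948678830) (nat_lit 1824) (nat_lit 508532469) (nat_lit 529) (nat_lit 1) (nat_lit 504) (nat_lit 1) (nat_lit 528) (nat_lit 1) (nat_lit 412) (nat_lit 371) (nat_lit 357)))))) (XT.nd (nat_lit 468) (nat_lit 2660) (nat_lit 0) (XT.nd (nat_lit 234) (nat_lit 0) (nat_lit 152) (XT.nd (nat_lit 78) (nat_lit 0) (nat_lit 76) (XT.lf (nat_lit 1900) (nat_lit 865879568) (nat_lit 76) (nat_lit 1035998642) (nat_lit 0) (nat_lit 1035998642) (nat_lit 529) (nat_lit 1) (nat_lit 505) (nat_lit 1) (nat_lit 504) (nat_lit 1) (nat_lit 413) (nat_lit 371) (nat_lit 356)) (XT.nd (nat_lit 78) (nat_lit 0) (nat_lit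 0) (XT.lf (nat_lit 1900) (nat_lit 355962157) (nat_lit 0) (nat_lit 2198519596) (nat_lit 1824) (nat_lit 355962157) (nat_lit 530) (nat_lit 1) (nat_lit 505) (nat_lit 1) (nat_lit 529) (nat_lit 1) (nat_lit 414) (nat_lit 371) (nat_lit 355)) (XT.lf (nat_lit 1900) (nat_lit 546523848) (nat_lit 76) (nat_lit 1168370708) (nat_lit 0) (nat_lit 1168370708) (nat_lit 530) (nat_lit 1) (nat_lit 506) (nat_lit 1) (nat_lit 505) (nat_lit 1) (nat_lit 415) (nat_lit 371) (nat_lit 354)))) (XT.nd (nat_lit 78) (nat_lit 0) (nat_lit 0) (XT.lf (nat_lit 1900) (nat_lit 190373581) (nat_lit 0) (nat_lit 2475801399) (nat_lit 1824) (nat_lit 190373581) (nat_lit 531) (nat_lit 1) (nat_lit 506) (nat_lit 1) (nat_lit 530) (nat_lit 1) (nat_lit 416) (nat_lit 371) (nat_lit 353)) (XT.nd (nat_lit 78) (nat_lit 0) (nat_lit 76) (XT.lf (nat_lit 1900) (nat_lit 201932835) (nat_lit 76) (nat_lit 1314051753) (nat_lit 0) (nat_lit 1314051753) (nat_lit 531) (nat_lit 1) (nat_lit 507) (nat_lit 1) (nat_lit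 506) (nat_lit 1) (nat_lit 417) (nat_lit 371) (nat_lit 352)) (XT.lf (nat_lit 1900) (nat_lit 12643683) (nat_lit 0) (nat_lit 2778730381) (nat_lit 1824) (nat_lit 12643683) (nat_lit 532) (nat_lit 1) (nat_lit 507) (nat_lit 1) (nat_lit 531) (nat_lit 1) (nat_lit 418) (nat_lit 371) (nat_lit 351))))) (XT.nd (nat_lit 234) (nat_lit 988) (nat_lit 0) (XT.nd (nat_lit 78) (nat_lit 0) (nat_lit 0) (XT.lf (nat_lit 1976) (nat_lit 1307066564) (nat_lit 0) (nat_lit 163996162) (nat_lit 1900) (nat_lit 1307066564) (nat_lit 508) (nat_lit 1) (nat_lit 482) (nat_lit 1) (nat_lit 507) (nat_lit 1) (nat_lit 419) (nat_lit 371) (nat_lit 350)) (XT.nd (nat_lit 78) (nat_lit 0) (nat_lit 76) (XT.lf (nat_lit 1976) (nat_lit 2402257919) (nat_lit 76) (nat_lit 175231457) (nat_lit 0) (nat_lit 175231457) (nat_lit 508) (nat_lit 1) (nat_lit 483) (nat_lit 1) (nat_lit 482) (nat_lit 1) (nat_lit 420) (nat_lit 371) (nat_lit 349)) (XT.lf (nat_lit 1976) (nat_lit 1089314066) (nat_lit 0) (nat_lit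 548870508) (nat_lit 1900) (nat_lit 1089314066) (nat_lit 509) (nat_lit 1) (nat_lit 483) (nat_lit 1) (nat_lit 508) (nat_lit 1) (nat_lit 421) (nat_lit 371) (nat_lit 348)))) (XT.nd (nat_lit 78) (nat_lit 1064) (nat_lit 0) (XT.lf (nat_lit 1976) (nat_lit 1955772255) (nat_lit 76) (nat_lit 373463972) (nat_lit 0) (nat_lit 373463972) (nat_lit 509) (nat_lit 1) (nat_lit 484) (nat_lit 1) (nat_lit 483) (nat_lit 1) (nat_lit 422) (nat_lit 371) (nat_lit 347)) (XT.nd (nat_lit 78) (nat_lit 1140) (nat_lit 0) (XT.lf (nat_lit 76) (nat_lit 862166982) (nat_lit 0) (nat_lit 953800070) (nat_lit 1900) (nat_lit 862166982) (nat_lit 485) (nat_lit 1) (nat_lit 484) (nat_lit 1) (nat_lit 509) (nat_lit 1) (nat_lit 423) (nat_lit 371) (nat_lit 346)) (XT.lf (nat_lit 1216) (nat_lit 1491158681) (nat_lit 0) (nat_lit 581383921) (nat_lit 1140) (nat_lit 581383921) (nat_lit 485) (nat_lit 1) (nat_lit 469) (nat_lit 1) (nat_lit 484) (nat_lit 1) (nat_lit 424) (nat_lit 371) (nat_lit 345)))))))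 (XT.nd (nat_lit 57096) (nat_lit 0) (nat_lit 7448) (XT.nd (nat_lit 468) (nat_lit 2660) (nat_lit 0) (XT.nd (nat_lit 234) (nat_lit 1748) (nat_lit 0) (XT.nd (nat_lit 78) (nat_lit 912) (nat_lit 0) (XT.lf (nat_lit 76) (nat_lit 626340119) (nat_lit 0) (nat_lit 1377319798) (nat_lit 1216) (nat_lit 626340119) (nat_lit 470) (nat_lit 1) (nat_lit 469) (nat_lit 1) (nat_lit 485) (nat_lit 1) (nat_lit 425) (nat_lit 371) (nat_lit 344)) (XT.nd (nat_lit 78) (nat_lit 0) (nat_lit 0) (XT.lf (nat_lit 988) (nat_lit 1009816529) (nat_lit 0) (nat_lit 798274247) (nat_lit 912) (nat_lit 798274247) (nat_lit 470) (nat_lit 1) (nat_lit 457) (nat_lit 1) (nat_lit 469) (nat_lit 1) (nat_lit 426) (nat_lit 371) (nat_lit 343)) (XT.lf (nat_lit 76) (nat_lit 382513663) (nat_lit 0) (nat_lit 1818034988) (nat_lit 988) (nat_lit 382513663) (nat_lit 458) (nat_lit 1) (nat_lit 457) (nat_lit 1) (nat_lit 470) (nat_lit 1) (nat_lit 427) (nat_lit 371) (nat_lit 342)))) (XT.nd (nat_lit 78) (nat_lit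 836) (nat_lit 0) (XT.lf (nat_lit 988) (nat_lit 513077155) (nat_lit 0) (nat_lit 1023452420) (nat_lit 912) (nat_lit 1023452420) (nat_lit 458) (nat_lit 1) (nat_lit 445) (nat_lit 1) (nat_lit 457) (nat_lit 1) (nat_lit 428) (nat_lit 371) (nat_lit 341)) (XT.nd (nat_lit 78) (nat_lit 836) (nat_lit 0) (XT.lf (nat_lit 76) (nat_lit 131334661) (nat_lit 0) (nat_lit 2274618286) (nat_lit 988) (nat_lit 131334661) (nat_lit 446) (nat_lit 1) (nat_lit 445) (nat_lit 1) (nat_lit 458) (nat_lit 1) (nat_lit 429) (nat_lit 371) (nat_lit 340)) (XT.lf (nat_lit 912) (nat_lit 2206852) (nat_lit 0) (nat_lit 1256268966) (nat_lit 836) (nat_lit 1256268966) (nat_lit 446) (nat_lit 1) (nat_lit 434) (nat_lit 1) (nat_lit 445) (nat_lit 1) (nat_lit 430) (nat_lit 371) (nat_lit 339))))) (XT.nd (nat_lit 234) (nat_lit 836) (nat_lit 0) (XT.nd (nat_lit 78) (nat_lit 836) (nat_lit 0) (XT.lf (nat_lit 988) (nat_lit 2241080144) (nat_lit 0) (nat_lit 125748789) (nat_lit 912) (nat_lit 125748789)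 (nat_lit 434) (nat_lit 1) (nat_lit 421) (nat_lit 1) (nat_lit 433) (nat_lit 1) (nat_lit 431) (nat_lit 371) (nat_lit 338)) (XT.nd (nat_lit 78) (nat_lit 836) (nat_lit 0) (XT.lf (nat_lit 76) (nat_lit 977902200) (nat_lit 0) (nat_lit 514749615) (nat_lit 988) (nat_lit 977902200) (nat_lit 422) (nat_lit 1) (nat_lit 421) (nat_lit 1) (nat_lit 434) (nat_lit 1) (nat_lit 432) (nat_lit 371) (nat_lit 337)) (XT.lf (nat_lit 912) (nat_lit 1672735789) (nat_lit 0) (nat_lit 388079978) (nat_lit 836) (nat_lit 388079978) (nat_lit 422) (nat_lit 1) (nat_lit 410) (nat_lit 1) (nat_lit 421) (nat_lit 1) (nat_lit 433) (nat_lit 371) (nat_lit 336)))) (XT.nd (nat_lit 78) (nat_lit 836) (nat_lit 0) (XT.lf (nat_lit 76) (nat_lit 692069910) (nat_lit 0) (nat_lit 1043305114) (nat_lit 912) (nat_lit 692069910) (nat_lit 411) (nat_lit 1) (nat_lit 410) (nat_lit 1) (nat_lit 422) (nat_lit 1) (nat_lit 434) (nat_lit 371) (nat_lit 335)) (XT.nd (nat_lit 78) (nat_lit 0) (nat_lit 0) (XT.lf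 (nat_lit 912) (nat_lit 1094338748) (nat_lit 0) (nat_lit 655970698) (nat_lit 836) (nat_lit 655970698) (nat_lit 411) (nat_lit 1) (nat_lit 399) (nat_lit 1) (nat_lit 410) (nat_lit 1) (nat_lit 435) (nat_lit 371) (nat_lit 334)) (XT.lf (nat_lit 76) (nat_lit 401486386) (nat_lit 0) (nat_lit 1582415472) (nat_lit 912) (nat_lit 401486386) (nat_lit 400) (nat_lit 1) (nat_lit 399) (nat_lit 1) (nat_lit 411) (nat_lit 1) (nat_lit 436) (nat_lit 371) (nat_lit 333)))))) (XT.nd (nat_lit 468) (nat_lit 0) (nat_lit 228) (XT.nd (nat_lit 234) (nat_lit 0) (nat_lit 76) (XT.nd (nat_lit 78) (nat_lit 0) (nat_lit 0) (XT.lf (nat_lit 1900) (nat_lit 575683764) (nat_lit 0) (nat_lit 580497819) (nat_lit 1900) (nat_lit 575683764) (nat_lit 522) (nat_lit 1) (nat_lit 497) (nat_lit 0) (nat_lit 522) (nat_lit 0) (nat_lit 396) (nat_lit 372) (nat_lit 372)) (XT.nd (nat_lit 78) (nat_lit 0) (nat_lit 76) (XT.lf (nat_lit 1900) (nat_lit 2276340157) (nat_lit 76) (nat_lit 576678754) (nat_lit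 0) (nat_lit 576678754) (nat_lit 522) (nat_lit 1) (nat_lit 498) (nat_lit 1) (nat_lit 497) (nat_lit 0) (nat_lit 397) (nat_lit 372) (nat_lit 371)) (XT.lf (nat_lit 1900) (nat_lit 1117693853) (nat_lit 0) (nat_lit 1160648657) (nat_lit 1824) (nat_lit 1117693853) (nat_lit 523) (nat_lit 1) (nat_lit 498) (nat_lit 1) (nat_lit 522) (nat_lit 1) (nat_lit 398) (nat_lit 372) (nat_lit 370)))) (XT.nd (nat_lit 78) (nat_lit 0) (nat_lit 76) (XT.lf (nat_lit 1900) (nat_lit 2187602397) (nat_lit 76) (nat_lit 587641482) (nat_lit 0) (nat_lit 587641482) (nat_lit 523) (nat_lit 1) (nat_lit 499) (nat_lit 1) (nat_lit 498) (nat_lit 1) (nat_lit 399) (nat_lit 372) (nat_lit 369)) (XT.nd (nat_lit 78) (nat_lit 0) (nat_lit 0) (XT.lf (nat_lit 1900) (nat_lit 1063133310) (nat_lit 0) (nat_lit 1203833693) (nat_lit 1824) (nat_lit 1063133310) (nat_lit 524) (nat_lit 1) (nat_lit 499) (nat_lit 1) (nat_lit 523) (nat_lit 1) (nat_lit 400) (nat_lit 372) (nat_lit 368)) (XT.lf (nat_lit 1900)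 (nat_lit 2058213550) (nat_lit 76) (nat_lit 619794633) (nat_lit 0) (nat_lit 619794633) (nat_lit 524) (nat_lit 1) (nat_lit 500) (nat_lit 1) (nat_lit 499) (nat_lit 1) (nat_lit 401) (nat_lit 372) (nat_lit 367))))) (XT.nd (nat_lit 234) (nat_lit 0) (nat_lit 76) (XT.nd (nat_lit 78) (nat_lit 0) (nat_lit 0) (XT.lf (nat_lit 1900) (nat_lit 988932149) (nat_lit 0) (nat_lit 1288007039) (nat_lit 1824) (nat_lit 988932149) (nat_lit 525) (nat_lit 1) (nat_lit 500) (nat_lit 1) (nat_lit 524) (nat_lit 1) (nat_lit 402) (nat_lit 372) (nat_lit 366)) (XT.nd (nat_lit 78) (nat_lit 0) (nat_lit 76) (XT.lf (nat_lit 1900) (nat_lit 1890616793) (nat_lit 76) (nat_lit 671891510) (nat_lit 0) (nat_lit 671891510) (nat_lit 525) (nat_lit 1) (nat_lit 501) (nat_lit 1) (nat_lit 500) (nat_lit 1) (nat_lit 403) (nat_lit 372) (nat_lit 365)) (XT.lf (nat_lit 1900) (nat_lit 896279691) (nat_lit 0) (nat_lit 1410740496) (nat_lit 1824) (nat_lit 896279691) (nat_lit 526) (nat_lit 1) (nat_lit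 501) (nat_lit 1) (nat_lit 525) (nat_lit 1) (nat_lit 404) (nat_lit 372) (nat_lit 364)))) (XT.nd (nat_lit 78) (nat_lit 0) (nat_lit 76) (XT.lf (nat_lit 1900) (nat_lit 1687143477) (nat_lit 76) (nat_lit 742742141) (nat_lit 0) (nat_lit 742742141) (nat_lit 526) (nat_lit 1) (nat_lit 502) (nat_lit 1) (nat_lit 501) (nat_lit 1) (nat_lit 405) (nat_lit 372) (nat_lit 363)) (XT.nd (nat_lit 78) (nat_lit 0) (nat_lit 0) (XT.lf (nat_lit 1900) (nat_lit 786310707) (nat_lit 0) (nat_lit 1569716558) (nat_lit 1824) (nat_lit 786310707) (nat_lit 527) (nat_lit 1) (nat_lit 502) (nat_lit 1) (nat_lit 526) (nat_lit 1) (nat_lit 406) (nat_lit 372) (nat_lit 362)) (XT.lf (nat_lit 1900) (nat_lit 1450017801) (nat_lit 76) (nat_lit 831210906) (nat_lit 0) (nat_lit 831210906) (nat_lit 527) (nat_lit 1) (nat_lit 503) (nat_lit 1) (nat_lit 502) (nat_lit 1) (nat_lit 407) (nat_lit 372) (nat_lit 361))))))))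
noncomputable def ec9 : XT := (XT.nd (nat_lit 1872) (nat_lit 1596) (nat_lit 0) (XT.nd (nat_lit 936) (nat_lit 5472) (nat_lit 0) (XT.nd (nat_lit 468) (nat_lit 1596) (nat_lit 0) (XT.nd (nat_lit 234) (nat_lit 0) (nat_lit 76) (XT.nd (nat_lit 78) (nat_lit 0) (nat_lit 0) (XT.lf (nat_lit 1900) (nat_lit 660107706) (nat_lit 0) (nat_lit 1762723793) (nat_lit 1824) (nat_lit 660107706) (nat_lit 528) (nat_lit 1) (nat_lit 503) (nat_lit 1) (nat_lit 527) (nat_lit 1) (nat_lit 408) (nat_lit 372) (nat_lit 360)) (XT.nd (nat_lit 78) (nat_lit 0) (nat_lit 76) (XT.lf (nat_lit 1900) (nat_lit 1181361303) (nat_lit 76) (nat_lit 936214273) (nat_lit 0) (nat_lit 936214273) (nat_lit 528) (nat_lit 1) (nat_lit 504) (nat_lit 1) (nat_lit 503) (nat_lit 1) (nat_lit 409) (nat_lit 372) (nat_lit 359)) (XT.lf (nat_lit 1900) (nat_lit 518703118) (nat_lit 0) (nat_lit 1987652406) (nat_lit 1824) (nat_lit 518703118) (nat_lit 529) (nat_lit 1) (nat_lit 504) (nat_lit 1) (nat_lit 528) (nat_lit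 1) (nat_lit 410) (nat_lit 372) (nat_lit 358)))) (XT.nd (nat_lit 78) (nat_lit 0) (nat_lit 76) (XT.lf (nat_lit 1900) (nat_lit 883197160) (nat_lit 76) (nat_lit 1056718615) (nat_lit 0) (nat_lit 1056718615) (nat_lit 529) (nat_lit 1) (nat_lit 505) (nat_lit 1) (nat_lit 504) (nat_lit 1) (nat_lit 411) (nat_lit 372) (nat_lit 357)) (XT.nd (nat_lit 78) (nat_lit 0) (nat_lit 0) (XT.lf (nat_lit 1900) (nat_lit 363081400) (nat_lit 0) (nat_lit 2242489988) (nat_lit 1824) (nat_lit 363081400) (nat_lit 530) (nat_lit 1) (nat_lit 505) (nat_lit 1) (nat_lit 529) (nat_lit 1) (nat_lit 412) (nat_lit 372) (nat_lit 356)) (XT.lf (nat_lit 1900) (nat_lit 557454325) (nat_lit 76) (nat_lit 1191738122) (nat_lit 0) (nat_lit 1191738122) (nat_lit 530) (nat_lit 1) (nat_lit 506) (nat_lit 1) (nat_lit 505) (nat_lit 1) (nat_lit 413) (nat_lit 372) (nat_lit 355))))) (XT.nd (nat_lit 234) (nat_lit 1824) (nat_lit 0) (XT.nd (nat_lit 78) (nat_lit 0) (nat_lit 0) (XT.lf (nat_lit 1900) (nat_lit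 194181053) (nat_lit 0) (nat_lit 2525317427) (nat_lit 1824) (nat_lit 194181053) (nat_lit 531) (nat_lit 1) (nat_lit 506) (nat_lit 1) (nat_lit 530) (nat_lit 1) (nat_lit 414) (nat_lit 372) (nat_lit 354)) (XT.nd (nat_lit 78) (nat_lit 0) (nat_lit 76) (XT.lf (nat_lit 1900) (nat_lit 205971492) (nat_lit 76) (nat_lit 1340332788) (nat_lit 0) (nat_lit 1340332788) (nat_lit 531) (nat_lit 1) (nat_lit 507) (nat_lit 1) (nat_lit 506) (nat_lit 1) (nat_lit 415) (nat_lit 372) (nat_lit 353)) (XT.lf (nat_lit 1900) (nat_lit 12896557) (nat_lit 0) (nat_lit 2834304988) (nat_lit 1824) (nat_lit 12896557) (nat_lit 532) (nat_lit 1) (nat_lit 507) (nat_lit 1) (nat_lit 531) (nat_lit 1) (nat_lit 416) (nat_lit 372) (nat_lit 352)))) (XT.nd (nat_lit 78) (nat_lit 0) (nat_lit 0) (XT.lf (nat_lit 1976) (nat_lit 1333207895) (nat_lit 0) (nat_lit 167276085) (nat_lit 1900) (nat_lit 1333207895) (nat_lit 508) (nat_lit 1) (nat_lit 482) (nat_lit 1) (nat_lit 507) (nat_lit 1) (nat_lit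 417) (nat_lit 372) (nat_lit 351)) (XT.nd (nat_lit 78) (nat_lit 0) (nat_lit 76) (XT.lf (nat_lit 1976) (nat_lit 2450303077) (nat_lit 76) (nat_lit 178736086) (nat_lit 0) (nat_lit 178736086) (nat_lit 508) (nat_lit 1) (nat_lit 483) (nat_lit 1) (nat_lit 482) (nat_lit 1) (nat_lit 418) (nat_lit 372) (nat_lit 350)) (XT.lf (nat_lit 1976) (nat_lit 1111100348) (nat_lit 0) (nat_lit 559847919) (nat_lit 1900) (nat_lit 1111100348) (nat_lit 509) (nat_lit 1) (nat_lit 483) (nat_lit 1) (nat_lit 508) (nat_lit 1) (nat_lit 419) (nat_lit 372) (nat_lit 349)))))) (XT.nd (nat_lit 468) (nat_lit 3572) (nat_lit 0) (XT.nd (nat_lit 234) (nat_lit 912) (nat_lit 0) (XT.nd (nat_lit 78) (nat_lit 1064) (nat_lit 0) (XT.lf (nat_lit 1976) (nat_lit 1994887700) (nat_lit 76) (nat_lit 380933251) (nat_lit 0) (nat_lit 380933251) (nat_lit 509) (nat_lit 1) (nat_lit 484) (nat_lit 1) (nat_lit 483) (nat_lit 1) (nat_lit 420) (nat_lit 372) (nat_lit 348)) (XT.nd (nat_lit 78) (nat_lit 1140)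 (nat_lit 0) (XT.lf (nat_lit 76) (nat_lit 879410322) (nat_lit 0) (nat_lit 972876072) (nat_lit 1900) (nat_lit 879410322) (nat_lit 485) (nat_lit 1) (nat_lit 484) (nat_lit 1) (nat_lit 509) (nat_lit 1) (nat_lit 421) (nat_lit 372) (nat_lit 347)) (XT.lf (nat_lit 1216) (nat_lit 1520981855) (nat_lit 0) (nat_lit 593011599) (nat_lit 1140) (nat_lit 593011599) (nat_lit 485) (nat_lit 1) (nat_lit 469) (nat_lit 1) (nat_lit 484) (nat_lit 1) (nat_lit 422) (nat_lit 372) (nat_lit 346)))) (XT.nd (nat_lit 78) (nat_lit 912) (nat_lit 0) (XT.lf (nat_lit 76) (nat_lit 638866921) (nat_lit 0) (nat_lit 1404866194) (nat_lit 1216) (nat_lit 638866921) (nat_lit 470) (nat_lit 1) (nat_lit 469) (nat_lit 1) (nat_lit 485) (nat_lit 1) (nat_lit 423) (nat_lit 372) (nat_lit 345)) (XT.nd (nat_lit 78) (nat_lit 0) (nat_lit 0) (XT.lf (nat_lit 988) (nat_lit 1030012859) (nat_lit 0) (nat_lit 814239732) (nat_lit 912) (nat_lit 814239732) (nat_lit 470) (nat_lit 1) (nat_lit 457) (nat_lit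 1) (nat_lit 469) (nat_lit 1) (nat_lit 424) (nat_lit 372) (nat_lit 344)) (XT.lf (nat_lit 76) (nat_lit 390163936) (nat_lit 0) (nat_lit 1854395687) (nat_lit 988) (nat_lit 390163936) (nat_lit 458) (nat_lit 1) (nat_lit 457) (nat_lit 1) (nat_lit 470) (nat_lit 1) (nat_lit 425) (nat_lit 372) (nat_lit 343))))) (XT.nd (nat_lit 234) (nat_lit 1824) (nat_lit 0) (XT.nd (nat_lit 78) (nat_lit 836) (nat_lit 0) (XT.lf (nat_lit 988) (nat_lit 523338698) (nat_lit 0) (nat_lit 1043921468) (nat_lit 912) (nat_lit 1043921468) (nat_lit 458) (nat_lit 1) (nat_lit 445) (nat_lit 1) (nat_lit 457) (nat_lit 1) (nat_lit 426) (nat_lit 372) (nat_lit 342)) (XT.nd (nat_lit 78) (nat_lit 836) (nat_lit 0) (XT.lf (nat_lit 76) (nat_lit 133961354) (nat_lit 0) (nat_lit 2320110651) (nat_lit 988) (nat_lit 133961354) (nat_lit 446) (nat_lit 1) (nat_lit 445) (nat_lit 1) (nat_lit 458) (nat_lit 1) (nat_lit 427) (nat_lit 372) (nat_lit 341)) (XT.lf (nat_lit 912) (nat_lit 2250989) (nat_lit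 0) (nat_lit 1281394345) (nat_lit 836) (nat_lit 1281394345) (nat_lit 446) (nat_lit 1) (nat_lit 434) (nat_lit 1) (nat_lit 445) (nat_lit 1) (nat_lit 428) (nat_lit 372) (nat_lit 340)))) (XT.nd (nat_lit 78) (nat_lit 836) (nat_lit 0) (XT.lf (nat_lit 988) (nat_lit 2285901747) (nat_lit 0) (nat_lit 128263764) (nat_lit 912) (nat_lit 128263764) (nat_lit 434) (nat_lit 1) (nat_lit 421) (nat_lit 1) (nat_lit 433) (nat_lit 1) (nat_lit 429) (nat_lit 372) (nat_lit 339)) (XT.nd (nat_lit 78) (nat_lit 836) (nat_lit 0) (XT.lf (nat_lit 76) (nat_lit 997460244) (nat_lit 0) (nat_lit 525044607) (nat_lit 988) (nat_lit 997460244) (nat_lit 422) (nat_lit 1) (nat_lit 421) (nat_lit 1) (nat_lit 434) (nat_lit 1) (nat_lit 430) (nat_lit 372) (nat_lit 338)) (XT.lf (nat_lit 912) (nat_lit 1706190504) (nat_lit 0) (nat_lit 395841577) (nat_lit 836) (nat_lit 395841577) (nat_lit 422) (nat_lit 1) (nat_lit 410) (nat_lit 1) (nat_lit 421) (nat_lit 1) (nat_lit 431) (nat_lit 372) (nat_lit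 337))))))) (XT.nd (nat_lit 56940) (nat_lit 0) (nat_lit 8436) (XT.nd (nat_lit 56472) (nat_lit 0) (nat_lit 8208) (XT.nd (nat_lit 234) (nat_lit 760) (nat_lit 0) (XT.nd (nat_lit 78) (nat_lit 836) (nat_lit 0) (XT.lf (nat_lit 76) (nat_lit 705911308) (nat_lit 0) (nat_lit 1064171216) (nat_lit 912) (nat_lit 705911308) (nat_lit 411) (nat_lit 1) (nat_lit 410) (nat_lit 1) (nat_lit 422) (nat_lit 1) (nat_lit 432) (nat_lit 372) (nat_lit 336)) (XT.nd (nat_lit 78) (nat_lit 0) (nat_lit 0) (XT.lf (nat_lit 912) (nat_lit 1116225523) (nat_lit 0) (nat_lit 669090111) (nat_lit 836) (nat_lit 669090111) (nat_lit 411) (nat_lit 1) (nat_lit 399) (nat_lit 1) (nat_lit 410) (nat_lit 1) (nat_lit 433) (nat_lit 372) (nat_lit 335)) (XT.lf (nat_lit 76) (nat_lit 409516114) (nat_lit 0) (nat_lit 1614063782) (nat_lit 912) (nat_lit 409516114) (nat_lit 400) (nat_lit 1) (nat_lit 399) (nat_lit 1) (nat_lit 411) (nat_lit 1) (nat_lit 434) (nat_lit 372) (nat_lit 334)))) (XT.nd (nat_lit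 78) (nat_lit 0) (nat_lit 0) (XT.lf (nat_lit 836) (nat_lit 517047413) (nat_lit 0) (nat_lit 947474243) (nat_lit 760) (nat_lit 947474243) (nat_lit 400) (nat_lit 1) (nat_lit 389) (nat_lit 1) (nat_lit 399) (nat_lit 1) (nat_lit 435) (nat_lit 372) (nat_lit 333)) (XT.nd (nat_lit 56082) (nat_lit 0) (nat_lit 8208) (XT.lf (nat_lit 76) (nat_lit 108779856) (nat_lit 0) (nat_lit 2173682663) (nat_lit 836) (nat_lit 108779856) (nat_lit 390) (nat_lit 1) (nat_lit 389) (nat_lit 1) (nat_lit 400) (nat_lit 1) (nat_lit 436) (nat_lit 372) (nat_lit 332)) (XT.lf (nat_lit 1900) (nat_lit 587197439) (nat_lit 0) (nat_lit 592107775) (nat_lit 1900) (nat_lit 587197439) (nat_lit 522) (nat_lit 1) (nat_lit 497) (nat_lit 0) (nat_lit 522) (nat_lit 0) (nat_lit 394) (nat_lit 373) (nat_lit 373))))) (XT.nd (nat_lit 234) (nat_lit 0) (nat_lit 152) (XT.nd (nat_lit 78) (nat_lit 0) (nat_lit 76) (XT.lf (nat_lit 1900) (nat_lit 2321866961) (nat_lit 76) (nat_lit 588212329) (nat_lit 0) (nat_lit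 588212329) (nat_lit 522) (nat_lit 1) (nat_lit 498) (nat_lit 1) (nat_lit 497) (nat_lit 0) (nat_lit 395) (nat_lit 373) (nat_lit 372)) (XT.nd (nat_lit 78) (nat_lit 0) (nat_lit 0) (XT.lf (nat_lit 1900) (nat_lit 1140047730) (nat_lit 0) (nat_lit 1183861630) (nat_lit 1824) (nat_lit 1140047730) (nat_lit 523) (nat_lit 1) (nat_lit 498) (nat_lit 1) (nat_lit 522) (nat_lit 1) (nat_lit 396) (nat_lit 373) (nat_lit 371)) (XT.lf (nat_lit 1900) (nat_lit 2231354445) (nat_lit 76) (nat_lit 599394312) (nat_lit 0) (nat_lit 599394312) (nat_lit 523) (nat_lit 1) (nat_lit 499) (nat_lit 1) (nat_lit 498) (nat_lit 1) (nat_lit 397) (nat_lit 373) (nat_lit 370)))) (XT.nd (nat_lit 78) (nat_lit 0) (nat_lit 0) (XT.lf (nat_lit 1900) (nat_lit 1084395977) (nat_lit 0) (nat_lit 1227910366) (nat_lit 1824) (nat_lit 1084395977) (nat_lit 524) (nat_lit 1) (nat_lit 499) (nat_lit 1) (nat_lit 523) (nat_lit 1) (nat_lit 398) (nat_lit 373) (nat_lit 369)) (XT.nd (nat_lit 78) (nat_lit 0)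 (nat_lit 76) (XT.lf (nat_lit 1900) (nat_lit 2099377821) (nat_lit 76) (nat_lit 632190526) (nat_lit 0) (nat_lit 632190526) (nat_lit 524) (nat_lit 1) (nat_lit 500) (nat_lit 1) (nat_lit 499) (nat_lit 1) (nat_lit 399) (nat_lit 373) (nat_lit 368)) (XT.lf (nat_lit 1900) (nat_lit 1008710792) (nat_lit 0) (nat_lit 1313767179) (nat_lit 1824) (nat_lit 1008710792) (nat_lit 525) (nat_lit 1) (nat_lit 500) (nat_lit 1) (nat_lit 524) (nat_lit 1) (nat_lit 400) (nat_lit 373) (nat_lit 367)))))) (XT.nd (nat_lit 468) (nat_lit 0) (nat_lit 228) (XT.nd (nat_lit 234) (nat_lit 0) (nat_lit 152) (XT.nd (nat_lit 78) (nat_lit 0) (nat_lit 76) (XT.lf (nat_lit 1900) (nat_lit 1928429129) (nat_lit 76) (nat_lit 685329341) (nat_lit 0) (nat_lit 685329341) (nat_lit 525) (nat_lit 1) (nat_lit 501) (nat_lit 1) (nat_lit 500) (nat_lit 1) (nat_lit 401) (nat_lit 373) (nat_lit 366)) (XT.nd (nat_lit 78) (nat_lit 0) (nat_lit 0) (XT.lf (nat_lit 1900) (nat_lit 914205284) (nat_lit 0) (nat_lit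 1438955306) (nat_lit 1824) (nat_lit 914205284) (nat_lit 526) (nat_lit 1) (nat_lit 501) (nat_lit 1) (nat_lit 525) (nat_lit 1) (nat_lit 402) (nat_lit 373) (nat_lit 365)) (XT.lf (nat_lit 1900) (nat_lit 1720886346) (nat_lit 76) (nat_lit 757596983) (nat_lit 0) (nat_lit 757596983) (nat_lit 526) (nat_lit 1) (nat_lit 502) (nat_lit 1) (nat_lit 501) (nat_lit 1) (nat_lit 403) (nat_lit 373) (nat_lit 364)))) (XT.nd (nat_lit 78) (nat_lit 0) (nat_lit 0) (XT.lf (nat_lit 1900) (nat_lit 802036921) (nat_lit 0) (nat_lit 1601110889) (nat_lit 1824) (nat_lit 802036921) (nat_lit 527) (nat_lit 1) (nat_lit 502) (nat_lit 1) (nat_lit 526) (nat_lit 1) (nat_lit 404) (nat_lit 373) (nat_lit 363)) (XT.nd (nat_lit 78) (nat_lit 0) (nat_lit 76) (XT.lf (nat_lit 1900) (nat_lit 1479018157) (nat_lit 76) (nat_lit 847835124) (nat_lit 0) (nat_lit 847835124) (nat_lit 527) (nat_lit 1) (nat_lit 503) (nat_lit 1) (nat_lit 502) (nat_lit 1) (nat_lit 405) (nat_lit 373) (nat_lit 362))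 (XT.lf (nat_lit 1900) (nat_lit 673309861) (nat_lit 0) (nat_lit 1797978268) (nat_lit 1824) (nat_lit 673309861) (nat_lit 528) (nat_lit 1) (nat_lit 503) (nat_lit 1) (nat_lit 527) (nat_lit 1) (nat_lit 406) (nat_lit 373) (nat_lit 361))))) (XT.nd (nat_lit 234) (nat_lit 0) (nat_lit 152) (XT.nd (nat_lit 78) (nat_lit 0) (nat_lit 76) (XT.lf (nat_lit 1900) (nat_lit 1204988529) (nat_lit 76) (nat_lit 954938558) (nat_lit 0) (nat_lit 954938558) (nat_lit 528) (nat_lit 1) (nat_lit 504) (nat_lit 1) (nat_lit 503) (nat_lit 1) (nat_lit 407) (nat_lit 373) (nat_lit 360)) (XT.nd (nat_lit 78) (nat_lit 0) (nat_lit 0) (XT.lf (nat_lit 1900) (nat_lit 529077181) (nat_lit 0) (nat_lit 2027405454) (nat_lit 1824) (nat_lit 529077181) (nat_lit 529) (nat_lit 1) (nat_lit 504) (nat_lit 1) (nat_lit 528) (nat_lit 1) (nat_lit 408) (nat_lit 373) (nat_lit 359)) (XT.lf (nat_lit 1900) (nat_lit 900861103) (nat_lit 76) (nat_lit 1077852987) (nat_lit 0) (nat_lit 1077852987) (nat_lit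 529) (nat_lit 1) (nat_lit 505) (nat_lit 1) (nat_lit 504) (nat_lit 1) (nat_lit 409) (nat_lit 373) (nat_lit 358)))) (XT.nd (nat_lit 156) (nat_lit 0) (nat_lit 76) (XT.nd (nat_lit 78) (nat_lit 0) (nat_lit 0) (XT.lf (nat_lit 1900) (nat_lit 370343028) (nat_lit 0) (nat_lit 2287339788) (nat_lit 1824) (nat_lit 370343028) (nat_lit 530) (nat_lit 1) (nat_lit 505) (nat_lit 1) (nat_lit 529) (nat_lit 1) (nat_lit 410) (nat_lit 373) (nat_lit 357)) (XT.lf (nat_lit 1900) (nat_lit 568603411) (nat_lit 76) (nat_lit 1215572884) (nat_lit 0) (nat_lit 1215572884) (nat_lit 530) (nat_lit 1) (nat_lit 506) (nat_lit 1) (nat_lit 505) (nat_lit 1) (nat_lit 411) (nat_lit 373) (nat_lit 356))) (XT.nd (nat_lit 78) (nat_lit 0) (nat_lit 0) (XT.lf (nat_lit 1900) (nat_lit 198064674) (nat_lit 0) (nat_lit 2575823775) (nat_lit 1824) (nat_lit 198064674) (nat_lit 531) (nat_lit 1) (nat_lit 506) (nat_lit 1) (nat_lit 530) (nat_lit 1) (nat_lit 412) (nat_lit 373) (nat_lit 355)) (XT.lf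 (nat_lit 1900) (nat_lit 210090922) (nat_lit 76) (nat_lit 1367139444) (nat_lit 0) (nat_lit 1367139444) (nat_lit 531) (nat_lit 1) (nat_lit 507) (nat_lit 1) (nat_lit 506) (nat_lit 1) (nat_lit 413) (nat_lit 373) (nat_lit 354))))))))
noncomputable def ec10 : XT := (XT.nd (nat_lit 57720) (nat_lit 0) (nat_lit 8664) (XT.nd (nat_lit 936) (nat_lit 5852) (nat_lit 0) (XT.nd (nat_lit 468) (nat_lit 2812) (nat_lit 0) (XT.nd (nat_lit 234) (nat_lit 0) (nat_lit 76) (XT.nd (nat_lit 78) (nat_lit 1900) (nat_lit 0) (XT.lf (nat_lit 1900) (nat_lit 13154488) (nat_lit 0) (nat_lit 2890991088) (nat_lit 1824) (nat_lit 13154488) (nat_lit 532) (nat_lit 1) (nat_lit 507) (nat_lit 1) (nat_lit 531) (nat_lit 1) (nat_lit 414) (nat_lit 373) (nat_lit 353)) (XT.nd (nat_lit 78) (nat_lit 0) (nat_lit 0) (XT.lf (nat_lit 1976) (nat_lit 1359872053) (nat_lit 0) (nat_lit 170621607) (nat_lit 1900) (nat_lit 1359872053) (nat_lit 508) (nat_lit 1) (nat_lit 482) (nat_lit 1) (nat_lit 507)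 (nat_lit 1) (nat_lit 415) (nat_lit 373) (nat_lit 352)) (XT.lf (nat_lit 1976) (nat_lit 2499309139) (nat_lit 76) (nat_lit 182310808) (nat_lit 0) (nat_lit 182310808) (nat_lit 508) (nat_lit 1) (nat_lit 483) (nat_lit 1) (nat_lit 482) (nat_lit 1) (nat_lit 416) (nat_lit 373) (nat_lit 351)))) (XT.nd (nat_lit 78) (nat_lit 0) (nat_lit 0) (XT.lf (nat_lit 1976) (nat_lit 1133322355) (nat_lit 0) (nat_lit 571044877) (nat_lit 1900) (nat_lit 1133322355) (nat_lit 509) (nat_lit 1) (nat_lit 483) (nat_lit 1) (nat_lit 508) (nat_lit 1) (nat_lit 417) (nat_lit 373) (nat_lit 350)) (XT.nd (nat_lit 78) (nat_lit 0) (nat_lit 76) (XT.lf (nat_lit 1976) (nat_lit 2034785454) (nat_lit 76) (nat_lit 388551916) (nat_lit 0) (nat_lit 388551916) (nat_lit 509) (nat_lit 1) (nat_lit 484) (nat_lit 1) (nat_lit 483) (nat_lit 1) (nat_lit 418) (nat_lit 373) (nat_lit 349)) (XT.lf (nat_lit 76) (nat_lit 896998528) (nat_lit 0) (nat_lit 992333593) (nat_lit 1900) (nat_lit 896998528) (nat_lit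 485) (nat_lit 1) (nat_lit 484) (nat_lit 1) (nat_lit 509) (nat_lit 1) (nat_lit 419) (nat_lit 373) (nat_lit 348))))) (XT.nd (nat_lit 234) (nat_lit 912) (nat_lit 0) (XT.nd (nat_lit 78) (nat_lit 912) (nat_lit 0) (XT.lf (nat_lit 1216) (nat_lit 1551401492) (nat_lit 0) (nat_lit 604871831) (nat_lit 1140) (nat_lit 604871831) (nat_lit 485) (nat_lit 1) (nat_lit 469) (nat_lit 1) (nat_lit 484) (nat_lit 1) (nat_lit 420) (nat_lit 373) (nat_lit 347)) (XT.nd (nat_lit 78) (nat_lit 912) (nat_lit 0) (XT.lf (nat_lit 76) (nat_lit 651644260) (nat_lit 0) (nat_lit 1432963518) (nat_lit 1216) (nat_lit 651644260) (nat_lit 470) (nat_lit 1) (nat_lit 469) (nat_lit 1) (nat_lit 485) (nat_lit 1) (nat_lit 421) (nat_lit 373) (nat_lit 346)) (XT.lf (nat_lit 988) (nat_lit 1050613116) (nat_lit 0) (nat_lit 830524527) (nat_lit 912) (nat_lit 830524527) (nat_lit 470) (nat_lit 1) (nat_lit 457) (nat_lit 1) (nat_lit 469) (nat_lit 1) (nat_lit 422) (nat_lit 373) (nat_lit 345)))) (XT.nd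 (nat_lit 78) (nat_lit 912) (nat_lit 0) (XT.lf (nat_lit 76) (nat_lit 397967215) (nat_lit 0) (nat_lit 1891483601) (nat_lit 988) (nat_lit 397967215) (nat_lit 458) (nat_lit 1) (nat_lit 457) (nat_lit 1) (nat_lit 470) (nat_lit 1) (nat_lit 423) (nat_lit 373) (nat_lit 344)) (XT.nd (nat_lit 78) (nat_lit 0) (nat_lit 0) (XT.lf (nat_lit 988) (nat_lit 533805472) (nat_lit 0) (nat_lit 1064799898) (nat_lit 912) (nat_lit 1064799898) (nat_lit 458) (nat_lit 1) (nat_lit 445) (nat_lit 1) (nat_lit 457) (nat_lit 1) (nat_lit 424) (nat_lit 373) (nat_lit 343)) (XT.lf (nat_lit 76) (nat_lit 136640581) (nat_lit 0) (nat_lit 2366512865) (nat_lit 988) (nat_lit 136640581) (nat_lit 446) (nat_lit 1) (nat_lit 445) (nat_lit 1) (nat_lit 458) (nat_lit 1) (nat_lit 425) (nat_lit 373) (nat_lit 342)))))) (XT.nd (nat_lit 468) (nat_lit 2356) (nat_lit 0) (XT.nd (nat_lit 234) (nat_lit 1672) (nat_lit 0) (XT.nd (nat_lit 78) (nat_lit 988) (nat_lit 0) (XT.lf (nat_lit 912) (nat_lit 2296009)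 (nat_lit 0) (nat_lit 1307022232) (nat_lit 836) (nat_lit 1307022232) (nat_lit 446) (nat_lit 1) (nat_lit 434) (nat_lit 1) (nat_lit 445) (nat_lit 1) (nat_lit 426) (nat_lit 373) (nat_lit 341)) (XT.nd (nat_lit 78) (nat_lit 0) (nat_lit 0) (XT.lf (nat_lit 988) (nat_lit 2331619782) (nat_lit 0) (nat_lit 130829040) (nat_lit 912) (nat_lit 130829040) (nat_lit 434) (nat_lit 1) (nat_lit 421) (nat_lit 1) (nat_lit 433) (nat_lit 1) (nat_lit 427) (nat_lit 373) (nat_lit 340)) (XT.lf (nat_lit 76) (nat_lit 1017409449) (nat_lit 0) (nat_lit 535545499) (nat_lit 988) (nat_lit 1017409449) (nat_lit 422) (nat_lit 1) (nat_lit 421) (nat_lit 1) (nat_lit 434) (nat_lit 1) (nat_lit 428) (nat_lit 373) (nat_lit 339)))) (XT.nd (nat_lit 78) (nat_lit 836) (nat_lit 0) (XT.lf (nat_lit 912) (nat_lit 1740314314) (nat_lit 0) (nat_lit 403758409) (nat_lit 836) (nat_lit 403758409) (nat_lit 422) (nat_lit 1) (nat_lit 410) (nat_lit 1) (nat_lit 421) (nat_lit 1) (nat_lit 429) (nat_lit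 373) (nat_lit 338)) (XT.nd (nat_lit 78) (nat_lit 836) (nat_lit 0) (XT.lf (nat_lit 76) (nat_lit 720029535) (nat_lit 0) (nat_lit 1085454640) (nat_lit 912) (nat_lit 720029535) (nat_lit 411) (nat_lit 1) (nat_lit 410) (nat_lit 1) (nat_lit 422) (nat_lit 1) (nat_lit 430) (nat_lit 373) (nat_lit 337)) (XT.lf (nat_lit 912) (nat_lit 1138550034) (nat_lit 0) (nat_lit 682471914) (nat_lit 836) (nat_lit 682471914) (nat_lit 411) (nat_lit 1) (nat_lit 399) (nat_lit 1) (nat_lit 410) (nat_lit 1) (nat_lit 431) (nat_lit 373) (nat_lit 336))))) (XT.nd (nat_lit 234) (nat_lit 1596) (nat_lit 0) (XT.nd (nat_lit 78) (nat_lit 760) (nat_lit 0) (XT.lf (nat_lit 76) (nat_lit 417706436) (nat_lit 0) (nat_lit 1646345058) (nat_lit 912) (nat_lit 417706436) (nat_lit 400) (nat_lit 1) (nat_lit 399) (nat_lit 1) (nat_lit 411) (nat_lit 1) (nat_lit 432) (nat_lit 373) (nat_lit 335)) (XT.nd (nat_lit 78) (nat_lit 0) (nat_lit 0) (XT.lf (nat_lit 836) (nat_lit 527388361) (nat_lit 0) (nat_lit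 966423728) (nat_lit 760) (nat_lit 966423728) (nat_lit 400) (nat_lit 1) (nat_lit 389) (nat_lit 1) (nat_lit 399) (nat_lit 1) (nat_lit 433) (nat_lit 373) (nat_lit 334)) (XT.lf (nat_lit 76) (nat_lit 110955453) (nat_lit 0) (nat_lit 2217156317) (nat_lit 836) (nat_lit 110955453) (nat_lit 390) (nat_lit 1) (nat_lit 389) (nat_lit 1) (nat_lit 400) (nat_lit 1) (nat_lit 434) (nat_lit 373) (nat_lit 333)))) (XT.nd (nat_lit 78) (nat_lit 760) (nat_lit 0) (XT.lf (nat_lit 76) (nat_lit 1163530557) (nat_lit 0) (nat_lit 90954608) (nat_lit 836) (nat_lit 1163530557) (nat_lit 379) (nat_lit 1) (nat_lit 378) (nat_lit 1) (nat_lit 389) (nat_lit 1) (nat_lit 435) (nat_lit 373) (nat_lit 332)) (XT.nd (nat_lit 55926) (nat_lit 0) (nat_lit 9804) (XT.lf (nat_lit 836) (nat_lit 2000467726) (nat_lit 0) (nat_lit 198420422) (nat_lit 760) (nat_lit 198420422) (nat_lit 379) (nat_lit 1) (nat_lit 368) (nat_lit 1) (nat_lit 378) (nat_lit 1) (nat_lit 436) (nat_lit 373) (nat_lit 331))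 (XT.lf (nat_lit 1900) (nat_lit 598941388) (nat_lit 0) (nat_lit 603949931) (nat_lit 1900) (nat_lit 598941388) (nat_lit 522) (nat_lit 1) (nat_lit 497) (nat_lit 0) (nat_lit 522) (nat_lit 0) (nat_lit 392) (nat_lit 374) (nat_lit 374))))))) (XT.nd (nat_lit 936) (nat_lit 1140) (nat_lit 0) (XT.nd (nat_lit 468) (nat_lit 0) (nat_lit 228) (XT.nd (nat_lit 234) (nat_lit 0) (nat_lit 152) (XT.nd (nat_lit 78) (nat_lit 0) (nat_lit 76) (XT.lf (nat_lit 1900) (nat_lit 2368304300) (nat_lit 76) (nat_lit 599976576) (nat_lit 0) (nat_lit 599976576) (nat_lit 522) (nat_lit 1) (nat_lit 498) (nat_lit 1) (nat_lit 497) (nat_lit 0) (nat_lit 393) (nat_lit 374) (nat_lit 373)) (XT.nd (nat_lit 78) (nat_lit 0) (nat_lit 0) (XT.lf (nat_lit 1900) (nat_lit 1162848684) (nat_lit 0) (nat_lit 1207538863) (nat_lit 1824) (nat_lit 1162848684) (nat_lit 523) (nat_lit 1) (nat_lit 498) (nat_lit 1) (nat_lit 522) (nat_lit 1) (nat_lit 394) (nat_lit 374) (nat_lit 372)) (XT.lf (nat_lit 1900)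 (nat_lit 2275981533) (nat_lit 76) (nat_lit 611382198) (nat_lit 0) (nat_lit 611382198) (nat_lit 523) (nat_lit 1) (nat_lit 499) (nat_lit 1) (nat_lit 498) (nat_lit 1) (nat_lit 395) (nat_lit 374) (nat_lit 371)))) (XT.nd (nat_lit 78) (nat_lit 0) (nat_lit 0) (XT.lf (nat_lit 1900) (nat_lit 1106083896) (nat_lit 0) (nat_lit 1252468574) (nat_lit 1824) (nat_lit 1106083896) (nat_lit 524) (nat_lit 1) (nat_lit 499) (nat_lit 1) (nat_lit 523) (nat_lit 1) (nat_lit 396) (nat_lit 374) (nat_lit 370)) (XT.nd (nat_lit 78) (nat_lit 0) (nat_lit 76) (XT.lf (nat_lit 1900) (nat_lit 2141365377) (nat_lit 76) (nat_lit 644834336) (nat_lit 0) (nat_lit 644834336) (nat_lit 524) (nat_lit 1) (nat_lit 500) (nat_lit 1) (nat_lit 499) (nat_lit 1) (nat_lit 397) (nat_lit 374) (nat_lit 369)) (XT.lf (nat_lit 1900) (nat_lit 1028885008) (nat_lit 0) (nat_lit 1340042523) (nat_lit 1824) (nat_lit 1028885008) (nat_lit 525) (nat_lit 1) (nat_lit 500) (nat_lit 1) (nat_lit 524) (nat_lit 1)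 (nat_lit 398) (nat_lit 374) (nat_lit 368))))) (XT.nd (nat_lit 234) (nat_lit 0) (nat_lit 152) (XT.nd (nat_lit 78) (nat_lit 0) (nat_lit 76) (XT.lf (nat_lit 1900) (nat_lit 1966997711) (nat_lit 76) (nat_lit 699035927) (nat_lit 0) (nat_lit 699035927) (nat_lit 525) (nat_lit 1) (nat_lit 501) (nat_lit 1) (nat_lit 500) (nat_lit 1) (nat_lit 399) (nat_lit 374) (nat_lit 367)) (XT.nd (nat_lit 78) (nat_lit 0) (nat_lit 0) (XT.lf (nat_lit 1900) (nat_lit 932489390) (nat_lit 0) (nat_lit 1467734412) (nat_lit 1824) (nat_lit 932489390) (nat_lit 526) (nat_lit 1) (nat_lit 501) (nat_lit 1) (nat_lit 525) (nat_lit 1) (nat_lit 400) (nat_lit 374) (nat_lit 366)) (XT.lf (nat_lit 1900) (nat_lit 1755304073) (nat_lit 76) (nat_lit 772748923) (nat_lit 0) (nat_lit 772748923) (nat_lit 526) (nat_lit 1) (nat_lit 502) (nat_lit 1) (nat_lit 501) (nat_lit 1) (nat_lit 401) (nat_lit 374) (nat_lit 365)))) (XT.nd (nat_lit 78) (nat_lit 0) (nat_lit 0) (XT.lf (nat_lit 1900) (nat_lit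 818077660) (nat_lit 0) (nat_lit 1633133107) (nat_lit 1824) (nat_lit 818077660) (nat_lit 527) (nat_lit 1) (nat_lit 502) (nat_lit 1) (nat_lit 526) (nat_lit 1) (nat_lit 402) (nat_lit 374) (nat_lit 364)) (XT.nd (nat_lit 78) (nat_lit 0) (nat_lit 76) (XT.lf (nat_lit 1900) (nat_lit 1508598521) (nat_lit 76) (nat_lit 864791826) (nat_lit 0) (nat_lit 864791826) (nat_lit 527) (nat_lit 1) (nat_lit 503) (nat_lit 1) (nat_lit 502) (nat_lit 1) (nat_lit 403) (nat_lit 374) (nat_lit 363)) (XT.lf (nat_lit 1900) (nat_lit 686776058) (nat_lit 0) (nat_lit 1833937834) (nat_lit 1824) (nat_lit 686776058) (nat_lit 528) (nat_lit 1) (nat_lit 503) (nat_lit 1) (nat_lit 527) (nat_lit 1) (nat_lit 404) (nat_lit 374) (nat_lit 362)))))) (XT.nd (nat_lit 468) (nat_lit 1596) (nat_lit 0) (XT.nd (nat_lit 234) (nat_lit 0) (nat_lit 152) (XT.nd (nat_lit 78) (nat_lit 0) (nat_lit 76) (XT.lf (nat_lit 1900) (nat_lit 1229088300) (nat_lit 76) (nat_lit 974037329) (nat_lit 0) (nat_lit 974037329)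 (nat_lit 528) (nat_lit 1) (nat_lit 504) (nat_lit 1) (nat_lit 503) (nat_lit 1) (nat_lit 405) (nat_lit 374) (nat_lit 361)) (XT.nd (nat_lit 78) (nat_lit 0) (nat_lit 0) (XT.lf (nat_lit 1900) (nat_lit 539658724) (nat_lit 0) (nat_lit 2067953563) (nat_lit 1824) (nat_lit 539658724) (nat_lit 529) (nat_lit 1) (nat_lit 504) (nat_lit 1) (nat_lit 528) (nat_lit 1) (nat_lit 406) (nat_lit 374) (nat_lit 360)) (XT.lf (nat_lit 1900) (nat_lit 918878325) (nat_lit 76) (nat_lit 1099410047) (nat_lit 0) (nat_lit 1099410047) (nat_lit 529) (nat_lit 1) (nat_lit 505) (nat_lit 1) (nat_lit 504) (nat_lit 1) (nat_lit 407) (nat_lit 374) (nat_lit 359)))) (XT.nd (nat_lit 78) (nat_lit 0) (nat_lit 0) (XT.lf (nat_lit 1900) (nat_lit 377749889) (nat_lit 0) (nat_lit 2333086584) (nat_lit 1824) (nat_lit 377749889) (nat_lit 530) (nat_lit 1) (nat_lit 505) (nat_lit 1) (nat_lit 529) (nat_lit 1) (nat_lit 408) (nat_lit 374) (nat_lit 358)) (XT.nd (nat_lit 78) (nat_lit 0) (nat_lit 76)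 (XT.lf (nat_lit 1900) (nat_lit 579975479) (nat_lit 76) (nat_lit 1239884342) (nat_lit 0) (nat_lit 1239884342) (nat_lit 530) (nat_lit 1) (nat_lit 506) (nat_lit 1) (nat_lit 505) (nat_lit 1) (nat_lit 409) (nat_lit 374) (nat_lit 357)) (XT.lf (nat_lit 1900) (nat_lit 202025968) (nat_lit 0) (nat_lit 2627340251) (nat_lit 1824) (nat_lit 202025968) (nat_lit 531) (nat_lit 1) (nat_lit 506) (nat_lit 1) (nat_lit 530) (nat_lit 1) (nat_lit 410) (nat_lit 374) (nat_lit 356))))) (XT.nd (nat_lit 234) (nat_lit 0) (nat_lit 0) (XT.nd (nat_lit 78) (nat_lit 1824) (nat_lit 0) (XT.lf (nat_lit 1900) (nat_lit 214292740) (nat_lit 76) (nat_lit 1394482233) (nat_lit 0) (nat_lit 1394482233) (nat_lit 531) (nat_lit 1) (nat_lit 507) (nat_lit 1) (nat_lit 506) (nat_lit 1) (nat_lit 411) (nat_lit 374) (nat_lit 355)) (XT.nd (nat_lit 78) (nat_lit 1900) (nat_lit 0) (XT.lf (nat_lit 1900) (nat_lit 13417578) (nat_lit 0) (nat_lit 2948810910) (nat_lit 1824) (nat_lit 13417578) (nat_lit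 532) (nat_lit 1) (nat_lit 507) (nat_lit 1) (nat_lit 531) (nat_lit 1) (nat_lit 412) (nat_lit 374) (nat_lit 354)) (XT.lf (nat_lit 1976) (nat_lit 1387069494) (nat_lit 0) (nat_lit 174034039) (nat_lit 1900) (nat_lit 1387069494) (nat_lit 508) (nat_lit 1) (nat_lit 482) (nat_lit 1) (nat_lit 507) (nat_lit 1) (nat_lit 413) (nat_lit 374) (nat_lit 353)))) (XT.nd (nat_lit 78) (nat_lit 0) (nat_lit 76) (XT.lf (nat_lit 1976) (nat_lit 2549295322) (nat_lit 76) (nat_lit 185957024) (nat_lit 0) (nat_lit 185957024) (nat_lit 508) (nat_lit 1) (nat_lit 483) (nat_lit 1) (nat_lit 482) (nat_lit 1) (nat_lit 414) (nat_lit 374) (nat_lit 352)) (XT.nd (nat_lit 78) (nat_lit 0) (nat_lit 0) (XT.lf (nat_lit 1976) (nat_lit 1155988802) (nat_lit 0) (nat_lit 582465775) (nat_lit 1900) (nat_lit 1155988802) (nat_lit 509) (nat_lit 1) (nat_lit 483) (nat_lit 1) (nat_lit 508) (nat_lit 1) (nat_lit 415) (nat_lit 374) (nat_lit 351)) (XT.lf (nat_lit 1976) (nat_lit 2075481163) (nat_lit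 76) (nat_lit 396322954) (nat_lit 0) (nat_lit 396322954) (nat_lit 509) (nat_lit 1) (nat_lit 484) (nat_lit 1) (nat_lit 483) (nat_lit 1) (nat_lit 416) (nat_lit 374) (nat_lit 350))))))))
noncomputable def ec11 : XT := (XT.nd (nat_lit 57564) (nat_lit 0) (nat_lit 7524) (XT.nd (nat_lit 936) (nat_lit 3952) (nat_lit 0) (XT.nd (nat_lit 468) (nat_lit 2660) (nat_lit 0) (XT.nd (nat_lit 234) (nat_lit 1824) (nat_lit 0) (XT.nd (nat_lit 78) (nat_lit 1140) (nat_lit 0) (XT.lf (nat_lit 76) (nat_lit 914938499) (nat_lit 0) (nat_lit 1012180265) (nat_lit 1900) (nat_lit 914938499) (nat_lit 485) (nat_lit 1) (nat_lit 484) (nat_lit 1) (nat_lit 509) (nat_lit 1) (nat_lit 417) (nat_lit 374) (nat_lit 349)) (XT.nd (nat_lit 78) (nat_lit 0) (nat_lit 0) (XT.lf (nat_lit 1216) (nat_lit 1582429521) (nat_lit 0) (nat_lit 616969268) (nat_lit 1140) (nat_lit 616969268) (nat_lit 485) (nat_lit 1) (nat_lit 469) (nat_lit 1) (nat_lit 484) (nat_lit 1) (nat_lit 418) (nat_lit 374) (nat_lit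 348)) (XT.lf (nat_lit 76) (nat_lit 664677145) (nat_lit 0) (nat_lit 1461622788) (nat_lit 1216) (nat_lit 664677145) (nat_lit 470) (nat_lit 1) (nat_lit 469) (nat_lit 1) (nat_lit 485) (nat_lit 1) (nat_lit 419) (nat_lit 374) (nat_lit 347)))) (XT.nd (nat_lit 78) (nat_lit 912) (nat_lit 0) (XT.lf (nat_lit 988) (nat_lit 1071625379) (nat_lit 0) (nat_lit 847135017) (nat_lit 912) (nat_lit 847135017) (nat_lit 470) (nat_lit 1) (nat_lit 457) (nat_lit 1) (nat_lit 469) (nat_lit 1) (nat_lit 420) (nat_lit 374) (nat_lit 346)) (XT.nd (nat_lit 78) (nat_lit 912) (nat_lit 0) (XT.lf (nat_lit 76) (nat_lit 405926559) (nat_lit 0) (nat_lit 1929313273) (nat_lit 988) (nat_lit 405926559) (nat_lit 458) (nat_lit 1) (nat_lit 457) (nat_lit 1) (nat_lit 470) (nat_lit 1) (nat_lit 421) (nat_lit 374) (nat_lit 345)) (XT.lf (nat_lit 988) (nat_lit 544481582) (nat_lit 0) (nat_lit 1086095896) (nat_lit 912) (nat_lit 1086095896) (nat_lit 458) (nat_lit 1) (nat_lit 445) (nat_lit 1) (nat_lit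 457) (nat_lit 1) (nat_lit 422) (nat_lit 374) (nat_lit 344))))) (XT.nd (nat_lit 234) (nat_lit 836) (nat_lit 0) (XT.nd (nat_lit 78) (nat_lit 1824) (nat_lit 0) (XT.lf (nat_lit 76) (nat_lit 139373393) (nat_lit 0) (nat_lit 2413843122) (nat_lit 988) (nat_lit 139373393) (nat_lit 446) (nat_lit 1) (nat_lit 445) (nat_lit 1) (nat_lit 458) (nat_lit 1) (nat_lit 423) (nat_lit 374) (nat_lit 343)) (XT.nd (nat_lit 78) (nat_lit 988) (nat_lit 0) (XT.lf (nat_lit 912) (nat_lit 2341929) (nat_lit 0) (nat_lit 1333162677) (nat_lit 836) (nat_lit 1333162677) (nat_lit 446) (nat_lit 1) (nat_lit 434) (nat_lit 1) (nat_lit 445) (nat_lit 1) (nat_lit 424) (nat_lit 374) (nat_lit 342)) (XT.lf (nat_lit 988) (nat_lit 2378252178) (nat_lit 0) (nat_lit 133445621) (nat_lit 912) (nat_lit 133445621) (nat_lit 434) (nat_lit 1) (nat_lit 421) (nat_lit 1) (nat_lit 433) (nat_lit 1) (nat_lit 425) (nat_lit 374) (nat_lit 341)))) (XT.nd (nat_lit 78) (nat_lit 836) (nat_lit 0) (XT.lf (nat_lit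 76) (nat_lit 1037757638) (nat_lit 0) (nat_lit 546256409) (nat_lit 988) (nat_lit 1037757638) (nat_lit 422) (nat_lit 1) (nat_lit 421) (nat_lit 1) (nat_lit 434) (nat_lit 1) (nat_lit 426) (nat_lit 374) (nat_lit 340)) (XT.nd (nat_lit 78) (nat_lit 0) (nat_lit 0) (XT.lf (nat_lit 912) (nat_lit 1775120601) (nat_lit 0) (nat_lit 411833577) (nat_lit 836) (nat_lit 411833577) (nat_lit 422) (nat_lit 1) (nat_lit 410) (nat_lit 1) (nat_lit 421) (nat_lit 1) (nat_lit 427) (nat_lit 374) (nat_lit 339)) (XT.lf (nat_lit 76) (nat_lit 734430125) (nat_lit 0) (nat_lit 1107163733) (nat_lit 912) (nat_lit 734430125) (nat_lit 411) (nat_lit 1) (nat_lit 410) (nat_lit 1) (nat_lit 422) (nat_lit 1) (nat_lit 428) (nat_lit 374) (nat_lit 338)))))) (XT.nd (nat_lit 468) (nat_lit 760) (nat_lit 0) (XT.nd (nat_lit 234) (nat_lit 1596) (nat_lit 0) (XT.nd (nat_lit 78) (nat_lit 760) (nat_lit 0) (XT.lf (nat_lit 912) (nat_lit 1161321034) (nat_lit 0) (nat_lit 696121352) (nat_lit 836) (nat_lit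 696121352) (nat_lit 411) (nat_lit 1) (nat_lit 399) (nat_lit 1) (nat_lit 410) (nat_lit 1) (nat_lit 429) (nat_lit 374) (nat_lit 337)) (XT.nd (nat_lit 78) (nat_lit 760) (nat_lit 0) (XT.lf (nat_lit 76) (nat_lit 426060565) (nat_lit 0) (nat_lit 1679271959) (nat_lit 912) (nat_lit 426060565) (nat_lit 400) (nat_lit 1) (nat_lit 399) (nat_lit 1) (nat_lit 411) (nat_lit 1) (nat_lit 430) (nat_lit 374) (nat_lit 336)) (XT.lf (nat_lit 836) (nat_lit 537936128) (nat_lit 0) (nat_lit 985752203) (nat_lit 760) (nat_lit 985752203) (nat_lit 400) (nat_lit 1) (nat_lit 389) (nat_lit 1) (nat_lit 399) (nat_lit 1) (nat_lit 431) (nat_lit 374) (nat_lit 335)))) (XT.nd (nat_lit 78) (nat_lit 1596) (nat_lit 0) (XT.lf (nat_lit 76) (nat_lit 113174562) (nat_lit 0) (nat_lit 2261499443) (nat_lit 836) (nat_lit 113174562) (nat_lit 390) (nat_lit 1) (nat_lit 389) (nat_lit 1) (nat_lit 400) (nat_lit 1) (nat_lit 432) (nat_lit 374) (nat_lit 334)) (XT.nd (nat_lit 78) (nat_lit 760) (nat_lit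 0) (XT.lf (nat_lit 76) (nat_lit 1186801168) (nat_lit 0) (nat_lit 92773700) (nat_lit 836) (nat_lit 1186801168) (nat_lit 379) (nat_lit 1) (nat_lit 378) (nat_lit 1) (nat_lit 389) (nat_lit 1) (nat_lit 433) (nat_lit 374) (nat_lit 333)) (XT.lf (nat_lit 836) (nat_lit 2040477080) (nat_lit 0) (nat_lit 202388830) (nat_lit 760) (nat_lit 202388830) (nat_lit 379) (nat_lit 1) (nat_lit 368) (nat_lit 1) (nat_lit 378) (nat_lit 1) (nat_lit 434) (nat_lit 374) (nat_lit 332))))) (XT.nd (nat_lit 55926) (nat_lit 0) (nat_lit 10564) (XT.nd (nat_lit 78) (nat_lit 760) (nat_lit 0) (XT.lf (nat_lit 76) (nat_lit 850185299) (nat_lit 0) (nat_lit 723912028) (nat_lit 836) (nat_lit 850185299) (nat_lit 369) (nat_lit 1) (nat_lit 368) (nat_lit 1) (nat_lit 379) (nat_lit 1) (nat_lit 435) (nat_lit 374) (nat_lit 331)) (XT.nd (nat_lit 55770) (nat_lit 0) (nat_lit 10564) (XT.lf (nat_lit 836) (nat_lit 1362170293) (nat_lit 0) (nat_lit 520729027) (nat_lit 760) (nat_lit 520729027) (nat_lit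 369) (nat_lit 1) (nat_lit 358) (nat_lit 1) (nat_lit 368) (nat_lit 1) (nat_lit 436) (nat_lit 374) (nat_lit 330)) (XT.lf (nat_lit 1900) (nat_lit 610920215) (nat_lit 0) (nat_lit 616028929) (nat_lit 1900) (nat_lit 610920215) (nat_lit 522) (nat_lit 1) (nat_lit 497) (nat_lit 0) (nat_lit 522) (nat_lit 0) (nat_lit 390) (nat_lit 375) (nat_lit 375)))) (XT.nd (nat_lit 78) (nat_lit 0) (nat_lit 76) (XT.lf (nat_lit 1900) (nat_lit 2415670386) (nat_lit 76) (nat_lit 611976107) (nat_lit 0) (nat_lit 611976107) (nat_lit 522) (nat_lit 1) (nat_lit 498) (nat_lit 1) (nat_lit 497) (nat_lit 0) (nat_lit 391) (nat_lit 375) (nat_lit 374)) (XT.nd (nat_lit 78) (nat_lit 0) (nat_lit 0) (XT.lf (nat_lit 1900) (nat_lit 1186105658) (nat_lit 0) (nat_lit 1231689640) (nat_lit 1824) (nat_lit 1186105658) (nat_lit 523) (nat_lit 1) (nat_lit 498) (nat_lit 1) (nat_lit 522) (nat_lit 1) (nat_lit 392) (nat_lit 375) (nat_lit 373)) (XT.lf (nat_lit 1900) (nat_lit 2321501164) (nat_lit 76)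 (nat_lit 623609842) (nat_lit 0) (nat_lit 623609842) (nat_lit 523) (nat_lit 1) (nat_lit 499) (nat_lit 1) (nat_lit 498) (nat_lit 1) (nat_lit 393) (nat_lit 375) (nat_lit 372))))))) (XT.nd (nat_lit 936) (nat_lit 3192) (nat_lit 0) (XT.nd (nat_lit 468) (nat_lit 0) (nat_lit 228) (XT.nd (nat_lit 234) (nat_lit 0) (nat_lit 76) (XT.nd (nat_lit 78) (nat_lit 0) (nat_lit 0) (XT.lf (nat_lit 1900) (nat_lit 1128205574) (nat_lit 0) (nat_lit 1277517945) (nat_lit 1824) (nat_lit 1128205574) (nat_lit 524) (nat_lit 1) (nat_lit 499) (nat_lit 1) (nat_lit 523) (nat_lit 1) (nat_lit 394) (nat_lit 375) (nat_lit 371)) (XT.nd (nat_lit 78) (nat_lit 0) (nat_lit 76) (XT.lf (nat_lit 1900) (nat_lit 2184192685) (nat_lit 76) (nat_lit 657731023) (nat_lit 0) (nat_lit 657731023) (nat_lit 524) (nat_lit 1) (nat_lit 500) (nat_lit 1) (nat_lit 499) (nat_lit 1) (nat_lit 395) (nat_lit 375) (nat_lit 370)) (XT.lf (nat_lit 1900) (nat_lit 1049462708) (nat_lit 0) (nat_lit 1366843373) (nat_lit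 1824) (nat_lit 1049462708) (nat_lit 525) (nat_lit 1) (nat_lit 500) (nat_lit 1) (nat_lit 524) (nat_lit 1) (nat_lit 396) (nat_lit 375) (nat_lit 369)))) (XT.nd (nat_lit 78) (nat_lit 0) (nat_lit 76) (XT.lf (nat_lit 1900) (nat_lit 2006337666) (nat_lit 76) (nat_lit 713016646) (nat_lit 0) (nat_lit 713016646) (nat_lit 525) (nat_lit 1) (nat_lit 501) (nat_lit 1) (nat_lit 500) (nat_lit 1) (nat_lit 397) (nat_lit 375) (nat_lit 368)) (XT.nd (nat_lit 78) (nat_lit 0) (nat_lit 0) (XT.lf (nat_lit 1900) (nat_lit 951139178) (nat_lit 0) (nat_lit 1497089100) (nat_lit 1824) (nat_lit 951139178) (nat_lit 526) (nat_lit 1) (nat_lit 501) (nat_lit 1) (nat_lit 525) (nat_lit 1) (nat_lit 398) (nat_lit 375) (nat_lit 367)) (XT.lf (nat_lit 1900) (nat_lit 1790410155) (nat_lit 76) (nat_lit 788203902) (nat_lit 0) (nat_lit 788203902) (nat_lit 526) (nat_lit 1) (nat_lit 502) (nat_lit 1) (nat_lit 501) (nat_lit 1) (nat_lit 399) (nat_lit 375) (nat_lit 366))))) (XT.nd (nat_lit 234)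 (nat_lit 0) (nat_lit 76) (XT.nd (nat_lit 78) (nat_lit 0) (nat_lit 0) (XT.lf (nat_lit 1900) (nat_lit 834439213) (nat_lit 0) (nat_lit 1665795769) (nat_lit 1824) (nat_lit 834439213) (nat_lit 527) (nat_lit 1) (nat_lit 502) (nat_lit 1) (nat_lit 526) (nat_lit 1) (nat_lit 400) (nat_lit 375) (nat_lit 365)) (XT.nd (nat_lit 78) (nat_lit 0) (nat_lit 76) (XT.lf (nat_lit 1900) (nat_lit 1538770491) (nat_lit 76) (nat_lit 882087663) (nat_lit 0) (nat_lit 882087663) (nat_lit 527) (nat_lit 1) (nat_lit 503) (nat_lit 1) (nat_lit 502) (nat_lit 1) (nat_lit 401) (nat_lit 375) (nat_lit 364)) (XT.lf (nat_lit 1900) (nat_lit 700511579) (nat_lit 0) (nat_lit 1870616591) (nat_lit 1824) (nat_lit 700511579) (nat_lit 528) (nat_lit 1) (nat_lit 503) (nat_lit 1) (nat_lit 527) (nat_lit 1) (nat_lit 402) (nat_lit 375) (nat_lit 363)))) (XT.nd (nat_lit 78) (nat_lit 0) (nat_lit 76) (XT.lf (nat_lit 1900) (nat_lit 1253670066) (nat_lit 76) (nat_lit 993518076) (nat_lit 0) (nat_lit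 993518076) (nat_lit 528) (nat_lit 1) (nat_lit 504) (nat_lit 1) (nat_lit 503) (nat_lit 1) (nat_lit 403) (nat_lit 375) (nat_lit 362)) (XT.nd (nat_lit 78) (nat_lit 0) (nat_lit 0) (XT.lf (nat_lit 1900) (nat_lit 550451899) (nat_lit 0) (nat_lit 2109312635) (nat_lit 1824) (nat_lit 550451899) (nat_lit 529) (nat_lit 1) (nat_lit 504) (nat_lit 1) (nat_lit 528) (nat_lit 1) (nat_lit 404) (nat_lit 375) (nat_lit 361)) (XT.lf (nat_lit 1900) (nat_lit 937255891) (nat_lit 76) (nat_lit 1121398248) (nat_lit 0) (nat_lit 1121398248) (nat_lit 529) (nat_lit 1) (nat_lit 505) (nat_lit 1) (nat_lit 504) (nat_lit 1) (nat_lit 405) (nat_lit 375) (nat_lit 360)))))) (XT.nd (nat_lit 468) (nat_lit 1900) (nat_lit 0) (XT.nd (nat_lit 234) (nat_lit 1748) (nat_lit 0) (XT.nd (nat_lit 78) (nat_lit 0) (nat_lit 0) (XT.lf (nat_lit 1900) (nat_lit 385304887) (nat_lit 0) (nat_lit 2379748315) (nat_lit 1824) (nat_lit 385304887) (nat_lit 530) (nat_lit 1) (nat_lit 505) (nat_lit 1) (nat_lit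 529) (nat_lit 1) (nat_lit 406) (nat_lit 375) (nat_lit 359)) (XT.nd (nat_lit 78) (nat_lit 0) (nat_lit 76) (XT.lf (nat_lit 1900) (nat_lit 591574989) (nat_lit 76) (nat_lit 1264682029) (nat_lit 0) (nat_lit 1264682029) (nat_lit 530) (nat_lit 1) (nat_lit 506) (nat_lit 1) (nat_lit 505) (nat_lit 1) (nat_lit 407) (nat_lit 375) (nat_lit 358)) (XT.lf (nat_lit 1900) (nat_lit 206066487) (nat_lit 0) (nat_lit 2679887056) (nat_lit 1824) (nat_lit 206066487) (nat_lit 531) (nat_lit 1) (nat_lit 506) (nat_lit 1) (nat_lit 530) (nat_lit 1) (nat_lit 408) (nat_lit 375) (nat_lit 357)))) (XT.nd (nat_lit 78) (nat_lit 1824) (nat_lit 0) (XT.lf (nat_lit 1900) (nat_lit 218578595) (nat_lit 76) (nat_lit 1422371877) (nat_lit 0) (nat_lit 1422371877) (nat_lit 531) (nat_lit 1) (nat_lit 507) (nat_lit 1) (nat_lit 506) (nat_lit 1) (nat_lit 409) (nat_lit 375) (nat_lit 356)) (XT.nd (nat_lit 78) (nat_lit 1900) (nat_lit 0) (XT.lf (nat_lit 1900) (nat_lit 13685929) (nat_lit 0) (nat_lit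 3007787128) (nat_lit 1824) (nat_lit 13685929) (nat_lit 532) (nat_lit 1) (nat_lit 507) (nat_lit 1) (nat_lit 531) (nat_lit 1) (nat_lit 410) (nat_lit 375) (nat_lit 355)) (XT.lf (nat_lit 1976) (nat_lit 1414810884) (nat_lit 0) (nat_lit 177514720) (nat_lit 1900) (nat_lit 1414810884) (nat_lit 508) (nat_lit 1) (nat_lit 482) (nat_lit 1) (nat_lit 507) (nat_lit 1) (nat_lit 411) (nat_lit 375) (nat_lit 354))))) (XT.nd (nat_lit 234) (nat_lit 1900) (nat_lit 0) (XT.nd (nat_lit 78) (nat_lit 0) (nat_lit 76) (XT.lf (nat_lit 1976) (nat_lit 2600281228) (nat_lit 76) (nat_lit 189676165) (nat_lit 0) (nat_lit 189676165) (nat_lit 508) (nat_lit 1) (nat_lit 483) (nat_lit 1) (nat_lit 482) (nat_lit 1) (nat_lit 412) (nat_lit 375) (nat_lit 353)) (XT.nd (nat_lit 78) (nat_lit 0) (nat_lit 0) (XT.lf (nat_lit 1976) (nat_lit 1179108578) (nat_lit 0) (nat_lit 594115090) (nat_lit 1900) (nat_lit 1179108578) (nat_lit 509) (nat_lit 1) (nat_lit 483) (nat_lit 1) (nat_lit 508) (nat_lit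 1) (nat_lit 413) (nat_lit 375) (nat_lit 352)) (XT.lf (nat_lit 1976) (nat_lit 2116990786) (nat_lit 76) (nat_lit 404249413) (nat_lit 0) (nat_lit 404249413) (nat_lit 509) (nat_lit 1) (nat_lit 484) (nat_lit 1) (nat_lit 483) (nat_lit 1) (nat_lit 414) (nat_lit 375) (nat_lit 351)))) (XT.nd (nat_lit 156) (nat_lit 912) (nat_lit 0) (XT.nd (nat_lit 78) (nat_lit 1140) (nat_lit 0) (XT.lf (nat_lit 76) (nat_lit 933237269) (nat_lit 0) (nat_lit 1032423870) (nat_lit 1900) (nat_lit 933237269) (nat_lit 485) (nat_lit 1) (nat_lit 484) (nat_lit 1) (nat_lit 509) (nat_lit 1) (nat_lit 415) (nat_lit 375) (nat_lit 350)) (XT.lf (nat_lit 1216) (nat_lit 1614078112) (nat_lit 0) (nat_lit 629308653) (nat_lit 1140) (nat_lit 629308653) (nat_lit 485) (nat_lit 1) (nat_lit 469) (nat_lit 1) (nat_lit 484) (nat_lit 1) (nat_lit 416) (nat_lit 375) (nat_lit 349))) (XT.nd (nat_lit 78) (nat_lit 912) (nat_lit 0) (XT.lf (nat_lit 76) (nat_lit 677970688) (nat_lit 0) (nat_lit 1490855244)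 (nat_lit 1216) (nat_lit 677970688) (nat_lit 470) (nat_lit 1) (nat_lit 469) (nat_lit 1) (nat_lit 485) (nat_lit 1) (nat_lit 417) (nat_lit 375) (nat_lit 348)) (XT.lf (nat_lit 988) (nat_lit 1093057886) (nat_lit 0) (nat_lit 864077717) (nat_lit 912) (nat_lit 864077717) (nat_lit 470) (nat_lit 1) (nat_lit 457) (nat_lit 1) (nat_lit 469) (nat_lit 1) (nat_lit 418) (nat_lit 375) (nat_lit 347))))))))
noncomputable def ec12 : XT := (XT.nd (nat_lit 57486) (nat_lit 0) (nat_lit 6612) (XT.nd (nat_lit 936) (nat_lit 2356) (nat_lit 0) (XT.nd (nat_lit 468) (nat_lit 2432) (nat_lit 0) (XT.nd (nat_lit 234) (nat_lit 1824) (nat_lit 0) (XT.nd (nat_lit 78) (nat_lit 912) (nat_lit 0) (XT.lf (nat_lit 76) (nat_lit 414045090) (nat_lit 0) (nat_lit 1967899539) (nat_lit 988) (nat_lit 414045090) (nat_lit 458) (nat_lit 1) (nat_lit 457) (nat_lit 1) (nat_lit 470) (nat_lit 1) (nat_lit 419) (nat_lit 375) (nat_lit 346)) (XT.nd (nat_lit 78) (nat_lit 0) (nat_lit 0) (XT.lf (nat_lit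 988) (nat_lit 555371213) (nat_lit 0) (nat_lit 1107817813) (nat_lit 912) (nat_lit 1107817813) (nat_lit 458) (nat_lit 1) (nat_lit 445) (nat_lit 1) (nat_lit 457) (nat_lit 1) (nat_lit 420) (nat_lit 375) (nat_lit 345)) (XT.lf (nat_lit 76) (nat_lit 142160860) (nat_lit 0) (nat_lit 2462119984) (nat_lit 988) (nat_lit 142160860) (nat_lit 446) (nat_lit 1) (nat_lit 445) (nat_lit 1) (nat_lit 458) (nat_lit 1) (nat_lit 421) (nat_lit 375) (nat_lit 344)))) (XT.nd (nat_lit 78) (nat_lit 988) (nat_lit 0) (XT.lf (nat_lit 912) (nat_lit 2388767) (nat_lit 0) (nat_lit 1359825930) (nat_lit 836) (nat_lit 1359825930) (nat_lit 446) (nat_lit 1) (nat_lit 434) (nat_lit 1) (nat_lit 445) (nat_lit 1) (nat_lit 422) (nat_lit 375) (nat_lit 343)) (XT.nd (nat_lit 78) (nat_lit 0) (nat_lit 0) (XT.lf (nat_lit 988) (nat_lit 2425817221) (nat_lit 0) (nat_lit 136114533) (nat_lit 912) (nat_lit 136114533) (nat_lit 434) (nat_lit 1) (nat_lit 421) (nat_lit 1) (nat_lit 433) (nat_lit 1)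 (nat_lit 423) (nat_lit 375) (nat_lit 342)) (XT.lf (nat_lit 76) (nat_lit 1058512791) (nat_lit 0) (nat_lit 557181537) (nat_lit 988) (nat_lit 1058512791) (nat_lit 422) (nat_lit 1) (nat_lit 421) (nat_lit 1) (nat_lit 434) (nat_lit 1) (nat_lit 424) (nat_lit 375) (nat_lit 341))))) (XT.nd (nat_lit 234) (nat_lit 760) (nat_lit 0) (XT.nd (nat_lit 78) (nat_lit 836) (nat_lit 0) (XT.lf (nat_lit 912) (nat_lit 1810623013) (nat_lit 0) (nat_lit 420070248) (nat_lit 836) (nat_lit 420070248) (nat_lit 422) (nat_lit 1) (nat_lit 410) (nat_lit 1) (nat_lit 421) (nat_lit 1) (nat_lit 425) (nat_lit 375) (nat_lit 340)) (XT.nd (nat_lit 78) (nat_lit 836) (nat_lit 0) (XT.lf (nat_lit 76) (nat_lit 749118728) (nat_lit 0) (nat_lit 1129307008) (nat_lit 912) (nat_lit 749118728) (nat_lit 411) (nat_lit 1) (nat_lit 410) (nat_lit 1) (nat_lit 422) (nat_lit 1) (nat_lit 426) (nat_lit 375) (nat_lit 339)) (XT.lf (nat_lit 912) (nat_lit 1184547455) (nat_lit 0) (nat_lit 710043779) (nat_lit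 836) (nat_lit 710043779) (nat_lit 411) (nat_lit 1) (nat_lit 399) (nat_lit 1) (nat_lit 410) (nat_lit 1) (nat_lit 427) (nat_lit 375) (nat_lit 338)))) (XT.nd (nat_lit 78) (nat_lit 760) (nat_lit 0) (XT.lf (nat_lit 76) (nat_lit 434581776) (nat_lit 0) (nat_lit 1712857398) (nat_lit 912) (nat_lit 434581776) (nat_lit 400) (nat_lit 1) (nat_lit 399) (nat_lit 1) (nat_lit 411) (nat_lit 1) (nat_lit 428) (nat_lit 375) (nat_lit 337)) (XT.nd (nat_lit 78) (nat_lit 0) (nat_lit 0) (XT.lf (nat_lit 836) (nat_lit 548694851) (nat_lit 0) (nat_lit 1005467247) (nat_lit 760) (nat_lit 1005467247) (nat_lit 400) (nat_lit 1) (nat_lit 389) (nat_lit 1) (nat_lit 399) (nat_lit 1) (nat_lit 429) (nat_lit 375) (nat_lit 336)) (XT.lf (nat_lit 76) (nat_lit 115438054) (nat_lit 0) (nat_lit 2306729432) (nat_lit 836) (nat_lit 115438054) (nat_lit 390) (nat_lit 1) (nat_lit 389) (nat_lit 1) (nat_lit 400) (nat_lit 1) (nat_lit 430) (nat_lit 375) (nat_lit 335)))))) (XT.nd (nat_lit 56082)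 (nat_lit 0) (nat_lit 10564) (XT.nd (nat_lit 234) (nat_lit 760) (nat_lit 0) (XT.nd (nat_lit 78) (nat_lit 760) (nat_lit 0) (XT.lf (nat_lit 76) (nat_lit 1210537191) (nat_lit 0) (nat_lit 94629174) (nat_lit 836) (nat_lit 1210537191) (nat_lit 379) (nat_lit 1) (nat_lit 378) (nat_lit 1) (nat_lit 389) (nat_lit 1) (nat_lit 431) (nat_lit 375) (nat_lit 334)) (XT.nd (nat_lit 78) (nat_lit 0) (nat_lit 0) (XT.lf (nat_lit 836) (nat_lit 2081286622) (nat_lit 0) (nat_lit 206436607) (nat_lit 760) (nat_lit 206436607) (nat_lit 379) (nat_lit 1) (nat_lit 368) (nat_lit 1) (nat_lit 378) (nat_lit 1) (nat_lit 432) (nat_lit 375) (nat_lit 333)) (XT.lf (nat_lit 76) (nat_lit 867189005) (nat_lit 0) (nat_lit 738390269) (nat_lit 836) (nat_lit 867189005) (nat_lit 369) (nat_lit 1) (nat_lit 368) (nat_lit 1) (nat_lit 379) (nat_lit 1) (nat_lit 433) (nat_lit 375) (nat_lit 332)))) (XT.nd (nat_lit 78) (nat_lit 0) (nat_lit 0) (XT.lf (nat_lit 836) (nat_lit 1389413698) (nat_lit 0)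 (nat_lit 531143607) (nat_lit 760) (nat_lit 531143607) (nat_lit 369) (nat_lit 1) (nat_lit 358) (nat_lit 1) (nat_lit 368) (nat_lit 1) (nat_lit 434) (nat_lit 375) (nat_lit 331)) (XT.nd (nat_lit 55692) (nat_lit 0) (nat_lit 10564) (XT.lf (nat_lit 76) (nat_lit 521005988) (nat_lit 0) (nat_lit 1388854236) (nat_lit 836) (nat_lit 521005988) (nat_lit 359) (nat_lit 1) (nat_lit 358) (nat_lit 1) (nat_lit 369) (nat_lit 1) (nat_lit 435) (nat_lit 375) (nat_lit 330)) (XT.lf (nat_lit 1900) (nat_lit 623138620) (nat_lit 0) (nat_lit 628349508) (nat_lit 1900) (nat_lit 623138620) (nat_lit 522) (nat_lit 1) (nat_lit 497) (nat_lit 0) (nat_lit 522) (nat_lit 0) (nat_lit 388) (nat_lit 376) (nat_lit 376))))) (XT.nd (nat_lit 234) (nat_lit 0) (nat_lit 152) (XT.nd (nat_lit 78) (nat_lit 0) (nat_lit 76) (XT.lf (nat_lit 1900) (nat_lit 2463983794) (nat_lit 76) (nat_lit 624215630) (nat_lit 0) (nat_lit 624215630) (nat_lit 522) (nat_lit 1) (nat_lit 498) (nat_lit 1) (nat_lit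 497) (nat_lit 0) (nat_lit 389) (nat_lit 376) (nat_lit 375)) (XT.nd (nat_lit 78) (nat_lit 0) (nat_lit 0) (XT.lf (nat_lit 1900) (nat_lit 1209827771) (nat_lit 0) (nat_lit 1256323433) (nat_lit 1824) (nat_lit 1209827771) (nat_lit 523) (nat_lit 1) (nat_lit 498) (nat_lit 1) (nat_lit 522) (nat_lit 1) (nat_lit 390) (nat_lit 376) (nat_lit 374)) (XT.lf (nat_lit 1900) (nat_lit 2367931187) (nat_lit 76) (nat_lit 636082039) (nat_lit 0) (nat_lit 636082039) (nat_lit 523) (nat_lit 1) (nat_lit 499) (nat_lit 1) (nat_lit 498) (nat_lit 1) (nat_lit 391) (nat_lit 376) (nat_lit 373)))) (XT.nd (nat_lit 78) (nat_lit 0) (nat_lit 0) (XT.lf (nat_lit 1900) (nat_lit 1150769686) (nat_lit 0) (nat_lit 1303068304) (nat_lit 1824) (nat_lit 1150769686) (nat_lit 524) (nat_lit 1) (nat_lit 499) (nat_lit 1) (nat_lit 523) (nat_lit 1) (nat_lit 392) (nat_lit 376) (nat_lit 372)) (XT.nd (nat_lit 78) (nat_lit 0) (nat_lit 76) (XT.lf (nat_lit 1900) (nat_lit 2227876538) (nat_lit 76) (nat_lit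 670885643) (nat_lit 0) (nat_lit 670885643) (nat_lit 524) (nat_lit 1) (nat_lit 500) (nat_lit 1) (nat_lit 499) (nat_lit 1) (nat_lit 393) (nat_lit 376) (nat_lit 371)) (XT.lf (nat_lit 1900) (nat_lit 1070451962) (nat_lit 0) (nat_lit 1394180241) (nat_lit 1824) (nat_lit 1070451962) (nat_lit 525) (nat_lit 1) (nat_lit 500) (nat_lit 1) (nat_lit 524) (nat_lit 1) (nat_lit 394) (nat_lit 376) (nat_lit 370))))))) (XT.nd (nat_lit 936) (nat_lit 4180) (nat_lit 0) (XT.nd (nat_lit 468) (nat_lit 0) (nat_lit 228) (XT.nd (nat_lit 234) (nat_lit 0) (nat_lit 152) (XT.nd (nat_lit 78) (nat_lit 0) (nat_lit 76) (XT.lf (nat_lit 1900) (nat_lit 2046464419) (nat_lit 76) (nat_lit 727276979) (nat_lit 0) (nat_lit 727276979) (nat_lit 525) (nat_lit 1) (nat_lit 501) (nat_lit 1) (nat_lit 500) (nat_lit 1) (nat_lit 395) (nat_lit 376) (nat_lit 369)) (XT.nd (nat_lit 78) (nat_lit 0) (nat_lit 0) (XT.lf (nat_lit 1900) (nat_lit 970161961) (nat_lit 0) (nat_lit 1527030882) (nat_lit 1824)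 (nat_lit 970161961) (nat_lit 526) (nat_lit 1) (nat_lit 501) (nat_lit 1) (nat_lit 525) (nat_lit 1) (nat_lit 396) (nat_lit 376) (nat_lit 368)) (XT.lf (nat_lit 1900) (nat_lit 1826218358) (nat_lit 76) (nat_lit 803967980) (nat_lit 0) (nat_lit 803967980) (nat_lit 526) (nat_lit 1) (nat_lit 502) (nat_lit 1) (nat_lit 501) (nat_lit 1) (nat_lit 397) (nat_lit 376) (nat_lit 367)))) (XT.nd (nat_lit 78) (nat_lit 0) (nat_lit 0) (XT.lf (nat_lit 1900) (nat_lit 851127997) (nat_lit 0) (nat_lit 1699111684) (nat_lit 1824) (nat_lit 851127997) (nat_lit 527) (nat_lit 1) (nat_lit 502) (nat_lit 1) (nat_lit 526) (nat_lit 1) (nat_lit 398) (nat_lit 376) (nat_lit 366)) (XT.nd (nat_lit 78) (nat_lit 0) (nat_lit 76) (XT.lf (nat_lit 1900) (nat_lit 1569545901) (nat_lit 76) (nat_lit 899729416) (nat_lit 0) (nat_lit 899729416) (nat_lit 527) (nat_lit 1) (nat_lit 503) (nat_lit 1) (nat_lit 502) (nat_lit 1) (nat_lit 399) (nat_lit 376) (nat_lit 365)) (XT.lf (nat_lit 1900) (nat_lit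 714521810) (nat_lit 0) (nat_lit 1908028922) (nat_lit 1824) (nat_lit 714521810) (nat_lit 528) (nat_lit 1) (nat_lit 503) (nat_lit 1) (nat_lit 527) (nat_lit 1) (nat_lit 400) (nat_lit 376) (nat_lit 364))))) (XT.nd (nat_lit 234) (nat_lit 0) (nat_lit 152) (XT.nd (nat_lit 78) (nat_lit 0) (nat_lit 76) (XT.lf (nat_lit 1900) (nat_lit 1278743467) (nat_lit 76) (nat_lit 1013388437) (nat_lit 0) (nat_lit 1013388437) (nat_lit 528) (nat_lit 1) (nat_lit 504) (nat_lit 1) (nat_lit 503) (nat_lit 1) (nat_lit 401) (nat_lit 376) (nat_lit 363)) (XT.nd (nat_lit 78) (nat_lit 0) (nat_lit 0) (XT.lf (nat_lit 1900) (nat_lit 561460937) (nat_lit 0) (nat_lit 2151498887) (nat_lit 1824) (nat_lit 561460937) (nat_lit 529) (nat_lit 1) (nat_lit 504) (nat_lit 1) (nat_lit 528) (nat_lit 1) (nat_lit 402) (nat_lit 376) (nat_lit 362)) (XT.lf (nat_lit 1900) (nat_lit 956001009) (nat_lit 76) (nat_lit 1143826213) (nat_lit 0) (nat_lit 1143826213) (nat_lit 529) (nat_lit 1) (nat_lit 505)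 (nat_lit 1) (nat_lit 504) (nat_lit 1) (nat_lit 403) (nat_lit 376) (nat_lit 361)))) (XT.nd (nat_lit 78) (nat_lit 0) (nat_lit 0) (XT.lf (nat_lit 1900) (nat_lit 393010985) (nat_lit 0) (nat_lit 2427343282) (nat_lit 1824) (nat_lit 393010985) (nat_lit 530) (nat_lit 1) (nat_lit 505) (nat_lit 1) (nat_lit 529) (nat_lit 1) (nat_lit 404) (nat_lit 376) (nat_lit 360)) (XT.nd (nat_lit 78) (nat_lit 0) (nat_lit 76) (XT.lf (nat_lit 1900) (nat_lit 603406489) (nat_lit 76) (nat_lit 1289975669) (nat_lit 0) (nat_lit 1289975669) (nat_lit 530) (nat_lit 1) (nat_lit 506) (nat_lit 1) (nat_lit 505) (nat_lit 1) (nat_lit 405) (nat_lit 376) (nat_lit 359)) (XT.lf (nat_lit 1900) (nat_lit 210187817) (nat_lit 0) (nat_lit 2733484797) (nat_lit 1824) (nat_lit 210187817) (nat_lit 531) (nat_lit 1) (nat_lit 506) (nat_lit 1) (nat_lit 530) (nat_lit 1) (nat_lit 406) (nat_lit 376) (nat_lit 358)))))) (XT.nd (nat_lit 468) (nat_lit 2812) (nat_lit 0) (XT.nd (nat_lit 234) (nat_lit 0)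 (nat_lit 0) (XT.nd (nat_lit 78) (nat_lit 1824) (nat_lit 0) (XT.lf (nat_lit 1900) (nat_lit 222950167) (nat_lit 76) (nat_lit 1450819315) (nat_lit 0) (nat_lit 1450819315) (nat_lit 531) (nat_lit 1) (nat_lit 507) (nat_lit 1) (nat_lit 506) (nat_lit 1) (nat_lit 407) (nat_lit 376) (nat_lit 357)) (XT.nd (nat_lit 78) (nat_lit 1900) (nat_lit 0) (XT.lf (nat_lit 1900) (nat_lit 13959648) (nat_lit 0) (nat_lit 3067942870) (nat_lit 1824) (nat_lit 13959648) (nat_lit 532) (nat_lit 1) (nat_lit 507) (nat_lit 1) (nat_lit 531) (nat_lit 1) (nat_lit 408) (nat_lit 376) (nat_lit 356)) (XT.lf (nat_lit 1976) (nat_lit 1443107102) (nat_lit 0) (nat_lit 181065014) (nat_lit 1900) (nat_lit 1443107102) (nat_lit 508) (nat_lit 1) (nat_lit 482) (nat_lit 1) (nat_lit 507) (nat_lit 1) (nat_lit 409) (nat_lit 376) (nat_lit 355)))) (XT.nd (nat_lit 78) (nat_lit 0) (nat_lit 76) (XT.lf (nat_lit 1976) (nat_lit 2652286853) (nat_lit 76) (nat_lit 193469688) (nat_lit 0) (nat_lit 193469688)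 (nat_lit 508) (nat_lit 1) (nat_lit 483) (nat_lit 1) (nat_lit 482) (nat_lit 1) (nat_lit 410) (nat_lit 376) (nat_lit 354)) (XT.nd (nat_lit 78) (nat_lit 0) (nat_lit 0) (XT.lf (nat_lit 1976) (nat_lit 1202690749) (nat_lit 0) (nat_lit 605997392) (nat_lit 1900) (nat_lit 1202690749) (nat_lit 509) (nat_lit 1) (nat_lit 483) (nat_lit 1) (nat_lit 508) (nat_lit 1) (nat_lit 411) (nat_lit 376) (nat_lit 353)) (XT.lf (nat_lit 1976) (nat_lit 2159330602) (nat_lit 76) (nat_lit 412334402) (nat_lit 0) (nat_lit 412334402) (nat_lit 509) (nat_lit 1) (nat_lit 484) (nat_lit 1) (nat_lit 483) (nat_lit 1) (nat_lit 412) (nat_lit 376) (nat_lit 352))))) (XT.nd (nat_lit 234) (nat_lit 1824) (nat_lit 0) (XT.nd (nat_lit 78) (nat_lit 1140) (nat_lit 0) (XT.lf (nat_lit 76) (nat_lit 951902014) (nat_lit 0) (nat_lit 1053072348) (nat_lit 1900) (nat_lit 951902014) (nat_lit 485) (nat_lit 1) (nat_lit 484) (nat_lit 1) (nat_lit 509) (nat_lit 1) (nat_lit 413) (nat_lit 376) (nat_lit 351))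 (XT.nd (nat_lit 78) (nat_lit 0) (nat_lit 0) (XT.lf (nat_lit 1216) (nat_lit 1646359674) (nat_lit 0) (nat_lit 641894826) (nat_lit 1140) (nat_lit 641894826) (nat_lit 485) (nat_lit 1) (nat_lit 469) (nat_lit 1) (nat_lit 484) (nat_lit 1) (nat_lit 414) (nat_lit 376) (nat_lit 350)) (XT.lf (nat_lit 76) (nat_lit 691530101) (nat_lit 0) (nat_lit 1520672349) (nat_lit 1216) (nat_lit 691530101) (nat_lit 470) (nat_lit 1) (nat_lit 469) (nat_lit 1) (nat_lit 485) (nat_lit 1) (nat_lit 415) (nat_lit 376) (nat_lit 349)))) (XT.nd (nat_lit 78) (nat_lit 912) (nat_lit 0) (XT.lf (nat_lit 988) (nat_lit 1114919044) (nat_lit 0) (nat_lit 881359272) (nat_lit 912) (nat_lit 881359272) (nat_lit 470) (nat_lit 1) (nat_lit 457) (nat_lit 1) (nat_lit 469) (nat_lit 1) (nat_lit 416) (nat_lit 376) (nat_lit 348)) (XT.nd (nat_lit 78) (nat_lit 912) (nat_lit 0) (XT.lf (nat_lit 76) (nat_lit 422325992) (nat_lit 0) (nat_lit 2007257529) (nat_lit 988) (nat_lit 422325992) (nat_lit 458)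 (nat_lit 1) (nat_lit 457) (nat_lit 1) (nat_lit 470) (nat_lit 1) (nat_lit 417) (nat_lit 376) (nat_lit 347)) (XT.lf (nat_lit 988) (nat_lit 566478638) (nat_lit 0) (nat_lit 1129974170) (nat_lit 912) (nat_lit 1129974170) (nat_lit 458) (nat_lit 1) (nat_lit 445) (nat_lit 1) (nat_lit 457) (nat_lit 1) (nat_lit 418) (nat_lit 376) (nat_lit 346))))))))
noncomputable def ec13 : XT := (XT.nd (nat_lit 57330) (nat_lit 0) (nat_lit 7296) (XT.nd (nat_lit 936) (nat_lit 1444) (nat_lit 0) (XT.nd (nat_lit 468) (nat_lit 3192) (nat_lit 0) (XT.nd (nat_lit 234) (nat_lit 836) (nat_lit 0) (XT.nd (nat_lit 78) (nat_lit 1824) (nat_lit 0) (XT.lf (nat_lit 76) (nat_lit 145004078) (nat_lit 0) (nat_lit 2511362384) (nat_lit 988) (nat_lit 145004078) (nat_lit 446) (nat_lit 1) (nat_lit 445) (nat_lit 1) (nat_lit 458) (nat_lit 1) (nat_lit 419) (nat_lit 376) (nat_lit 345)) (XT.nd (nat_lit 78) (nat_lit 988) (nat_lit 0) (XT.lf (nat_lit 912) (nat_lit 2436543) (nat_lit 0) (nat_lit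 1387022449) (nat_lit 836) (nat_lit 1387022449) (nat_lit 446) (nat_lit 1) (nat_lit 434) (nat_lit 1) (nat_lit 445) (nat_lit 1) (nat_lit 420) (nat_lit 376) (nat_lit 344)) (XT.lf (nat_lit 988) (nat_lit 2474333566) (nat_lit 0) (nat_lit 138836824) (nat_lit 912) (nat_lit 138836824) (nat_lit 434) (nat_lit 1) (nat_lit 421) (nat_lit 1) (nat_lit 433) (nat_lit 1) (nat_lit 421) (nat_lit 376) (nat_lit 343)))) (XT.nd (nat_lit 78) (nat_lit 836) (nat_lit 0) (XT.lf (nat_lit 76) (nat_lit 1079683047) (nat_lit 0) (nat_lit 568325168) (nat_lit 988) (nat_lit 1079683047) (nat_lit 422) (nat_lit 1) (nat_lit 421) (nat_lit 1) (nat_lit 434) (nat_lit 1) (nat_lit 422) (nat_lit 376) (nat_lit 342)) (XT.nd (nat_lit 78) (nat_lit 0) (nat_lit 0) (XT.lf (nat_lit 912) (nat_lit 1846835473) (nat_lit 0) (nat_lit 428471653) (nat_lit 836) (nat_lit 428471653) (nat_lit 422) (nat_lit 1) (nat_lit 410) (nat_lit 1) (nat_lit 421) (nat_lit 1) (nat_lit 423) (nat_lit 376) (nat_lit 341)) (XT.lf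 (nat_lit 76) (nat_lit 764101102) (nat_lit 0) (nat_lit 1151893148) (nat_lit 912) (nat_lit 764101102) (nat_lit 411) (nat_lit 1) (nat_lit 410) (nat_lit 1) (nat_lit 422) (nat_lit 1) (nat_lit 424) (nat_lit 376) (nat_lit 340))))) (XT.nd (nat_lit 234) (nat_lit 1596) (nat_lit 0) (XT.nd (nat_lit 78) (nat_lit 760) (nat_lit 0) (XT.lf (nat_lit 912) (nat_lit 1208238404) (nat_lit 0) (nat_lit 724244655) (nat_lit 836) (nat_lit 724244655) (nat_lit 411) (nat_lit 1) (nat_lit 399) (nat_lit 1) (nat_lit 410) (nat_lit 1) (nat_lit 425) (nat_lit 376) (nat_lit 339)) (XT.nd (nat_lit 78) (nat_lit 760) (nat_lit 0) (XT.lf (nat_lit 76) (nat_lit 443273412) (nat_lit 0) (nat_lit 1747114546) (nat_lit 912) (nat_lit 443273412) (nat_lit 400) (nat_lit 1) (nat_lit 399) (nat_lit 1) (nat_lit 411) (nat_lit 1) (nat_lit 426) (nat_lit 376) (nat_lit 338)) (XT.lf (nat_lit 836) (nat_lit 559668748) (nat_lit 0) (nat_lit 1025576592) (nat_lit 760) (nat_lit 1025576592) (nat_lit 400) (nat_lit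 1) (nat_lit 389) (nat_lit 1) (nat_lit 399) (nat_lit 1) (nat_lit 427) (nat_lit 376) (nat_lit 337)))) (XT.nd (nat_lit 78) (nat_lit 1596) (nat_lit 0) (XT.lf (nat_lit 76) (nat_lit 117746815) (nat_lit 0) (nat_lit 2352864020) (nat_lit 836) (nat_lit 117746815) (nat_lit 390) (nat_lit 1) (nat_lit 389) (nat_lit 1) (nat_lit 400) (nat_lit 1) (nat_lit 428) (nat_lit 376) (nat_lit 336)) (XT.nd (nat_lit 78) (nat_lit 760) (nat_lit 0) (XT.lf (nat_lit 76) (nat_lit 1234747935) (nat_lit 0) (nat_lit 96521757) (nat_lit 836) (nat_lit 1234747935) (nat_lit 379) (nat_lit 1) (nat_lit 378) (nat_lit 1) (nat_lit 389) (nat_lit 1) (nat_lit 429) (nat_lit 376) (nat_lit 335)) (XT.lf (nat_lit 836) (nat_lit 2122912354) (nat_lit 0) (nat_lit 210565339) (nat_lit 760) (nat_lit 210565339) (nat_lit 379) (nat_lit 1) (nat_lit 368) (nat_lit 1) (nat_lit 378) (nat_lit 1) (nat_lit 430) (nat_lit 376) (nat_lit 334)))))) (XT.nd (nat_lit 55926) (nat_lit 0) (nat_lit 11248) (XT.nd (nat_lit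 234) (nat_lit 684) (nat_lit 0) (XT.nd (nat_lit 78) (nat_lit 760) (nat_lit 0) (XT.lf (nat_lit 76) (nat_lit 884532785) (nat_lit 0) (nat_lit 753158074) (nat_lit 836) (nat_lit 884532785) (nat_lit 369) (nat_lit 1) (nat_lit 368) (nat_lit 1) (nat_lit 379) (nat_lit 1) (nat_lit 431) (nat_lit 376) (nat_lit 333)) (XT.nd (nat_lit 78) (nat_lit 0) (nat_lit 0) (XT.lf (nat_lit 836) (nat_lit 1417201972) (nat_lit 0) (nat_lit 541766479) (nat_lit 760) (nat_lit 541766479) (nat_lit 369) (nat_lit 1) (nat_lit 358) (nat_lit 1) (nat_lit 368) (nat_lit 1) (nat_lit 432) (nat_lit 376) (nat_lit 332)) (XT.lf (nat_lit 76) (nat_lit 531426108) (nat_lit 0) (nat_lit 1416631321) (nat_lit 836) (nat_lit 531426108) (nat_lit 359) (nat_lit 1) (nat_lit 358) (nat_lit 1) (nat_lit 369) (nat_lit 1) (nat_lit 433) (nat_lit 376) (nat_lit 331)))) (XT.nd (nat_lit 78) (nat_lit 0) (nat_lit 0) (XT.lf (nat_lit 760) (nat_lit 706130552) (nat_lit 0) (nat_lit 876167770) (nat_lit 684) (nat_lit 876167770)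 (nat_lit 359) (nat_lit 1) (nat_lit 349) (nat_lit 1) (nat_lit 358) (nat_lit 1) (nat_lit 434) (nat_lit 376) (nat_lit 330)) (XT.nd (nat_lit 55536) (nat_lit 0) (nat_lit 11248) (XT.lf (nat_lit 76) (nat_lit 175863534) (nat_lit 0) (nat_lit 2086041993) (nat_lit 760) (nat_lit 175863534) (nat_lit 350) (nat_lit 1) (nat_lit 349) (nat_lit 1) (nat_lit 359) (nat_lit 1) (nat_lit 435) (nat_lit 376) (nat_lit 329)) (XT.lf (nat_lit 1900) (nat_lit 635601392) (nat_lit 0) (nat_lit 640916498) (nat_lit 1900) (nat_lit 635601392) (nat_lit 522) (nat_lit 1) (nat_lit 497) (nat_lit 0) (nat_lit 522) (nat_lit 0) (nat_lit 386) (nat_lit 377) (nat_lit 377))))) (XT.nd (nat_lit 234) (nat_lit 0) (nat_lit 152) (XT.nd (nat_lit 78) (nat_lit 0) (nat_lit 76) (XT.lf (nat_lit 1900) (nat_lit 2513263469) (nat_lit 76) (nat_lit 636699942) (nat_lit 0) (nat_lit 636699942) (nat_lit 522) (nat_lit 1) (nat_lit 498) (nat_lit 1) (nat_lit 497) (nat_lit 0) (nat_lit 387) (nat_lit 377) (nat_lit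 376)) (XT.nd (nat_lit 78) (nat_lit 0) (nat_lit 0) (XT.lf (nat_lit 1900) (nat_lit 1234024327) (nat_lit 0) (nat_lit 1281449902) (nat_lit 1824) (nat_lit 1234024327) (nat_lit 523) (nat_lit 1) (nat_lit 498) (nat_lit 1) (nat_lit 522) (nat_lit 1) (nat_lit 388) (nat_lit 377) (nat_lit 375)) (XT.lf (nat_lit 1900) (nat_lit 2415289811) (nat_lit 76) (nat_lit 648803680) (nat_lit 0) (nat_lit 648803680) (nat_lit 523) (nat_lit 1) (nat_lit 499) (nat_lit 1) (nat_lit 498) (nat_lit 1) (nat_lit 389) (nat_lit 377) (nat_lit 374)))) (XT.nd (nat_lit 78) (nat_lit 0) (nat_lit 0) (XT.lf (nat_lit 1900) (nat_lit 1173785079) (nat_lit 0) (nat_lit 1329129670) (nat_lit 1824) (nat_lit 1173785079) (nat_lit 524) (nat_lit 1) (nat_lit 499) (nat_lit 1) (nat_lit 523) (nat_lit 1) (nat_lit 390) (nat_lit 377) (nat_lit 373)) (XT.nd (nat_lit 78) (nat_lit 0) (nat_lit 76) (XT.lf (nat_lit 1900) (nat_lit 2272434069) (nat_lit 76) (nat_lit 684303356) (nat_lit 0) (nat_lit 684303356) (nat_lit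 524) (nat_lit 1) (nat_lit 500) (nat_lit 1) (nat_lit 499) (nat_lit 1) (nat_lit 391) (nat_lit 377) (nat_lit 372)) (XT.lf (nat_lit 1900) (nat_lit 1091861002) (nat_lit 0) (nat_lit 1422063846) (nat_lit 1824) (nat_lit 1091861002) (nat_lit 525) (nat_lit 1) (nat_lit 500) (nat_lit 1) (nat_lit 524) (nat_lit 1) (nat_lit 392) (nat_lit 377) (nat_lit 371))))))) (XT.nd (nat_lit 936) (nat_lit 4180) (nat_lit 0) (XT.nd (nat_lit 468) (nat_lit 0) (nat_lit 228) (XT.nd (nat_lit 234) (nat_lit 0) (nat_lit 152) (XT.nd (nat_lit 78) (nat_lit 0) (nat_lit 76) (XT.lf (nat_lit 1900) (nat_lit 2087393707) (nat_lit 76) (nat_lit 741822519) (nat_lit 0) (nat_lit 741822519) (nat_lit 525) (nat_lit 1) (nat_lit 501) (nat_lit 1) (nat_lit 500) (nat_lit 1) (nat_lit 393) (nat_lit 377) (nat_lit 370)) (XT.nd (nat_lit 78) (nat_lit 0) (nat_lit 0) (XT.lf (nat_lit 1900) (nat_lit 989565201) (nat_lit 0) (nat_lit 1557571500) (nat_lit 1824) (nat_lit 989565201) (nat_lit 526) (nat_lit 1) (nat_lit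 501) (nat_lit 1) (nat_lit 525) (nat_lit 1) (nat_lit 394) (nat_lit 377) (nat_lit 369)) (XT.lf (nat_lit 1900) (nat_lit 1862742725) (nat_lit 76) (nat_lit 820047339) (nat_lit 0) (nat_lit 820047339) (nat_lit 526) (nat_lit 1) (nat_lit 502) (nat_lit 1) (nat_lit 501) (nat_lit 1) (nat_lit 395) (nat_lit 377) (nat_lit 368)))) (XT.nd (nat_lit 78) (nat_lit 0) (nat_lit 0) (XT.lf (nat_lit 1900) (nat_lit 868150557) (nat_lit 0) (nat_lit 1733093918) (nat_lit 1824) (nat_lit 868150557) (nat_lit 527) (nat_lit 1) (nat_lit 502) (nat_lit 1) (nat_lit 526) (nat_lit 1) (nat_lit 396) (nat_lit 377) (nat_lit 367)) (XT.nd (nat_lit 78) (nat_lit 0) (nat_lit 76) (XT.lf (nat_lit 1900) (nat_lit 1600936819) (nat_lit 76) (nat_lit 917724004) (nat_lit 0) (nat_lit 917724004) (nat_lit 527) (nat_lit 1) (nat_lit 503) (nat_lit 1) (nat_lit 502) (nat_lit 1) (nat_lit 397) (nat_lit 377) (nat_lit 366)) (XT.lf (nat_lit 1900) (nat_lit 728812247) (nat_lit 0) (nat_lit 1946189501) (nat_lit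 1824) (nat_lit 728812247) (nat_lit 528) (nat_lit 1) (nat_lit 503) (nat_lit 1) (nat_lit 527) (nat_lit 1) (nat_lit 398) (nat_lit 377) (nat_lit 365))))) (XT.nd (nat_lit 234) (nat_lit 0) (nat_lit 152) (XT.nd (nat_lit 78) (nat_lit 0) (nat_lit 76) (XT.lf (nat_lit 1900) (nat_lit 1304318336) (nat_lit 76) (nat_lit 1033656206) (nat_lit 0) (nat_lit 1033656206) (nat_lit 528) (nat_lit 1) (nat_lit 504) (nat_lit 1) (nat_lit 503) (nat_lit 1) (nat_lit 399) (nat_lit 377) (nat_lit 364)) (XT.nd (nat_lit 78) (nat_lit 0) (nat_lit 0) (XT.lf (nat_lit 1900) (nat_lit 572690156) (nat_lit 0) (nat_lit 2194528865) (nat_lit 1824) (nat_lit 572690156) (nat_lit 529) (nat_lit 1) (nat_lit 504) (nat_lit 1) (nat_lit 528) (nat_lit 1) (nat_lit 400) (nat_lit 377) (nat_lit 363)) (XT.lf (nat_lit 1900) (nat_lit 975121029) (nat_lit 76) (nat_lit 1166702737) (nat_lit 0) (nat_lit 1166702737) (nat_lit 529) (nat_lit 1) (nat_lit 505) (nat_lit 1) (nat_lit 504) (nat_lit 1) (nat_lit 401)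 (nat_lit 377) (nat_lit 362)))) (XT.nd (nat_lit 78) (nat_lit 0) (nat_lit 0) (XT.lf (nat_lit 1900) (nat_lit 400871204) (nat_lit 0) (nat_lit 2475890147) (nat_lit 1824) (nat_lit 400871204) (nat_lit 530) (nat_lit 1) (nat_lit 505) (nat_lit 1) (nat_lit 529) (nat_lit 1) (nat_lit 402) (nat_lit 377) (nat_lit 361)) (XT.nd (nat_lit 78) (nat_lit 0) (nat_lit 76) (XT.lf (nat_lit 1900) (nat_lit 615474618) (nat_lit 76) (nat_lit 1315775183) (nat_lit 0) (nat_lit 1315775183) (nat_lit 530) (nat_lit 1) (nat_lit 506) (nat_lit 1) (nat_lit 505) (nat_lit 1) (nat_lit 403) (nat_lit 377) (nat_lit 360)) (XT.lf (nat_lit 1900) (nat_lit 214391573) (nat_lit 0) (nat_lit 2788154493) (nat_lit 1824) (nat_lit 214391573) (nat_lit 531) (nat_lit 1) (nat_lit 506) (nat_lit 1) (nat_lit 530) (nat_lit 1) (nat_lit 404) (nat_lit 377) (nat_lit 359)))))) (XT.nd (nat_lit 468) (nat_lit 2812) (nat_lit 0) (XT.nd (nat_lit 234) (nat_lit 0) (nat_lit 0) (XT.nd (nat_lit 78) (nat_lit 1824) (nat_lit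 0) (XT.lf (nat_lit 1900) (nat_lit 227409170) (nat_lit 76) (nat_lit 1479835701) (nat_lit 0) (nat_lit 1479835701) (nat_lit 531) (nat_lit 1) (nat_lit 507) (nat_lit 1) (nat_lit 506) (nat_lit 1) (nat_lit 405) (nat_lit 377) (nat_lit 358)) (XT.nd (nat_lit 78) (nat_lit 1900) (nat_lit 0) (XT.lf (nat_lit 1900) (nat_lit 14238841) (nat_lit 0) (nat_lit 3129301728) (nat_lit 1824) (nat_lit 14238841) (nat_lit 532) (nat_lit 1) (nat_lit 507) (nat_lit 1) (nat_lit 531) (nat_lit 1) (nat_lit 406) (nat_lit 377) (nat_lit 357)) (XT.lf (nat_lit 1976) (nat_lit 1471969244) (nat_lit 0) (nat_lit 184686315) (nat_lit 1900) (nat_lit 1471969244) (nat_lit 508) (nat_lit 1) (nat_lit 482) (nat_lit 1) (nat_lit 507) (nat_lit 1) (nat_lit 407) (nat_lit 377) (nat_lit 356)))) (XT.nd (nat_lit 78) (nat_lit 0) (nat_lit 76) (XT.lf (nat_lit 1976) (nat_lit 2705332590) (nat_lit 76) (nat_lit 197339082) (nat_lit 0) (nat_lit 197339082) (nat_lit 508) (nat_lit 1) (nat_lit 483) (nat_lit 1)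 (nat_lit 482) (nat_lit 1) (nat_lit 408) (nat_lit 377) (nat_lit 355)) (XT.nd (nat_lit 78) (nat_lit 0) (nat_lit 0) (XT.lf (nat_lit 1976) (nat_lit 1226744564) (nat_lit 0) (nat_lit 618117340) (nat_lit 1900) (nat_lit 1226744564) (nat_lit 509) (nat_lit 1) (nat_lit 483) (nat_lit 1) (nat_lit 508) (nat_lit 1) (nat_lit 409) (nat_lit 377) (nat_lit 354)) (XT.lf (nat_lit 1976) (nat_lit 2202517214) (nat_lit 76) (nat_lit 420581090) (nat_lit 0) (nat_lit 420581090) (nat_lit 509) (nat_lit 1) (nat_lit 484) (nat_lit 1) (nat_lit 483) (nat_lit 1) (nat_lit 410) (nat_lit 377) (nat_lit 353))))) (XT.nd (nat_lit 234) (nat_lit 1824) (nat_lit 0) (XT.nd (nat_lit 78) (nat_lit 1140) (nat_lit 0) (XT.lf (nat_lit 76) (nat_lit 970940055) (nat_lit 0) (nat_lit 1074133795) (nat_lit 1900) (nat_lit 970940055) (nat_lit 485) (nat_lit 1) (nat_lit 484) (nat_lit 1) (nat_lit 509) (nat_lit 1) (nat_lit 411) (nat_lit 377) (nat_lit 352)) (XT.nd (nat_lit 78) (nat_lit 0) (nat_lit 0) (XT.lf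 (nat_lit 1216) (nat_lit 1679286868) (nat_lit 0) (nat_lit 654732723) (nat_lit 1140) (nat_lit 654732723) (nat_lit 485) (nat_lit 1) (nat_lit 469) (nat_lit 1) (nat_lit 484) (nat_lit 1) (nat_lit 412) (nat_lit 377) (nat_lit 351)) (XT.lf (nat_lit 76) (nat_lit 705360703) (nat_lit 0) (nat_lit 1551085796) (nat_lit 1216) (nat_lit 705360703) (nat_lit 470) (nat_lit 1) (nat_lit 469) (nat_lit 1) (nat_lit 485) (nat_lit 1) (nat_lit 413) (nat_lit 377) (nat_lit 350)))) (XT.nd (nat_lit 156) (nat_lit 912) (nat_lit 0) (XT.nd (nat_lit 78) (nat_lit 0) (nat_lit 0) (XT.lf (nat_lit 988) (nat_lit 1137217425) (nat_lit 0) (nat_lit 898986457) (nat_lit 912) (nat_lit 898986457) (nat_lit 470) (nat_lit 1) (nat_lit 457) (nat_lit 1) (nat_lit 469) (nat_lit 1) (nat_lit 414) (nat_lit 377) (nat_lit 349)) (XT.lf (nat_lit 76) (nat_lit 430772512) (nat_lit 0) (nat_lit 2047402680) (nat_lit 988) (nat_lit 430772512) (nat_lit 458) (nat_lit 1) (nat_lit 457) (nat_lit 1) (nat_lit 470)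 (nat_lit 1) (nat_lit 415) (nat_lit 377) (nat_lit 348))) (XT.nd (nat_lit 78) (nat_lit 0) (nat_lit 0) (XT.lf (nat_lit 988) (nat_lit 577808210) (nat_lit 0) (nat_lit 1152573653) (nat_lit 912) (nat_lit 1152573653) (nat_lit 458) (nat_lit 1) (nat_lit 445) (nat_lit 1) (nat_lit 457) (nat_lit 1) (nat_lit 416) (nat_lit 377) (nat_lit 347)) (XT.lf (nat_lit 76) (nat_lit 147904159) (nat_lit 0) (nat_lit 2561589632) (nat_lit 988) (nat_lit 147904159) (nat_lit 446) (nat_lit 1) (nat_lit 445) (nat_lit 1) (nat_lit 458) (nat_lit 1) (nat_lit 417) (nat_lit 377) (nat_lit 346))))))))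
noncomputable def ec14 : XT := (XT.nd (nat_lit 57174) (nat_lit 0) (nat_lit 9652) (XT.nd (nat_lit 936) (nat_lit 2888) (nat_lit 0) (XT.nd (nat_lit 468) (nat_lit 2356) (nat_lit 0) (XT.nd (nat_lit 234) (nat_lit 1672) (nat_lit 0) (XT.nd (nat_lit 78) (nat_lit 988) (nat_lit 0) (XT.lf (nat_lit 912) (nat_lit 2485274) (nat_lit 0) (nat_lit 1414762898) (nat_lit 836) (nat_lit 1414762898) (nat_lit 446) (nat_lit 1) (nat_lit 434) (nat_lit 1) (nat_lit 445) (nat_lit 1) (nat_lit 418) (nat_lit 377) (nat_lit 345)) (XT.nd (nat_lit 78) (nat_lit 0) (nat_lit 0) (XT.lf (nat_lit 988) (nat_lit 2523820237) (nat_lit 0) (nat_lit 141613560) (nat_lit 912) (nat_lit 141613560) (nat_lit 434) (nat_lit 1) (nat_lit 421) (nat_lit 1) (nat_lit 433) (nat_lit 1) (nat_lit 419) (nat_lit 377) (nat_lit 344)) (XT.lf (nat_lit 76) (nat_lit 1101276708) (nat_lit 0) (nat_lit 579691672) (nat_lit 988) (nat_lit 1101276708) (nat_lit 422) (nat_lit 1) (nat_lit 421) (nat_lit 1) (nat_lit 434) (nat_lit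 1) (nat_lit 420) (nat_lit 377) (nat_lit 343)))) (XT.nd (nat_lit 78) (nat_lit 836) (nat_lit 0) (XT.lf (nat_lit 912) (nat_lit 1883772182) (nat_lit 0) (nat_lit 437041086) (nat_lit 836) (nat_lit 437041086) (nat_lit 422) (nat_lit 1) (nat_lit 410) (nat_lit 1) (nat_lit 421) (nat_lit 1) (nat_lit 421) (nat_lit 377) (nat_lit 342)) (XT.nd (nat_lit 78) (nat_lit 836) (nat_lit 0) (XT.lf (nat_lit 76) (nat_lit 779383124) (nat_lit 0) (nat_lit 1174931011) (nat_lit 912) (nat_lit 779383124) (nat_lit 411) (nat_lit 1) (nat_lit 410) (nat_lit 1) (nat_lit 422) (nat_lit 1) (nat_lit 422) (nat_lit 377) (nat_lit 341)) (XT.lf (nat_lit 912) (nat_lit 1232403172) (nat_lit 0) (nat_lit 738729548) (nat_lit 836) (nat_lit 738729548) (nat_lit 411) (nat_lit 1) (nat_lit 399) (nat_lit 1) (nat_lit 410) (nat_lit 1) (nat_lit 423) (nat_lit 377) (nat_lit 340))))) (XT.nd (nat_lit 234) (nat_lit 1596) (nat_lit 0) (XT.nd (nat_lit 78) (nat_lit 760) (nat_lit 0) (XT.lf (nat_lit 76) (nat_lit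 452138880) (nat_lit 0) (nat_lit 1782056837) (nat_lit 912) (nat_lit 452138880) (nat_lit 400) (nat_lit 1) (nat_lit 399) (nat_lit 1) (nat_lit 411) (nat_lit 1) (nat_lit 424) (nat_lit 377) (nat_lit 339)) (XT.nd (nat_lit 78) (nat_lit 0) (nat_lit 0) (XT.lf (nat_lit 836) (nat_lit 570862123) (nat_lit 0) (nat_lit 1046088123) (nat_lit 760) (nat_lit 1046088123) (nat_lit 400) (nat_lit 1) (nat_lit 389) (nat_lit 1) (nat_lit 399) (nat_lit 1) (nat_lit 425) (nat_lit 377) (nat_lit 338)) (XT.lf (nat_lit 76) (nat_lit 120101751) (nat_lit 0) (nat_lit 2399921301) (nat_lit 836) (nat_lit 120101751) (nat_lit 390) (nat_lit 1) (nat_lit 389) (nat_lit 1) (nat_lit 400) (nat_lit 1) (nat_lit 426) (nat_lit 377) (nat_lit 337)))) (XT.nd (nat_lit 78) (nat_lit 760) (nat_lit 0) (XT.lf (nat_lit 76) (nat_lit 1259442894) (nat_lit 0) (nat_lit 98452192) (nat_lit 836) (nat_lit 1259442894) (nat_lit 379) (nat_lit 1) (nat_lit 378) (nat_lit 1) (nat_lit 389) (nat_lit 1) (nat_lit 427)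 (nat_lit 377) (nat_lit 336)) (XT.nd (nat_lit 78) (nat_lit 0) (nat_lit 0) (XT.lf (nat_lit 836) (nat_lit 2165370601) (nat_lit 0) (nat_lit 214776646) (nat_lit 760) (nat_lit 214776646) (nat_lit 379) (nat_lit 1) (nat_lit 368) (nat_lit 1) (nat_lit 378) (nat_lit 1) (nat_lit 428) (nat_lit 377) (nat_lit 335)) (XT.lf (nat_lit 76) (nat_lit 902223441) (nat_lit 0) (nat_lit 768221236) (nat_lit 836) (nat_lit 902223441) (nat_lit 369) (nat_lit 1) (nat_lit 368) (nat_lit 1) (nat_lit 379) (nat_lit 1) (nat_lit 429) (nat_lit 377) (nat_lit 334)))))) (XT.nd (nat_lit 55770) (nat_lit 0) (nat_lit 12692) (XT.nd (nat_lit 234) (nat_lit 1444) (nat_lit 0) (XT.nd (nat_lit 78) (nat_lit 684) (nat_lit 0) (XT.lf (nat_lit 836) (nat_lit 1445546012) (nat_lit 0) (nat_lit 552601809) (nat_lit 760) (nat_lit 552601809) (nat_lit 369) (nat_lit 1) (nat_lit 358) (nat_lit 1) (nat_lit 368) (nat_lit 1) (nat_lit 430) (nat_lit 377) (nat_lit 333)) (XT.nd (nat_lit 78) (nat_lit 684) (nat_lit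 0) (XT.lf (nat_lit 76) (nat_lit 542054630) (nat_lit 0) (nat_lit 1444963947) (nat_lit 836) (nat_lit 542054630) (nat_lit 359) (nat_lit 1) (nat_lit 358) (nat_lit 1) (nat_lit 369) (nat_lit 1) (nat_lit 431) (nat_lit 377) (nat_lit 332)) (XT.lf (nat_lit 760) (nat_lit 720253163) (nat_lit 0) (nat_lit 893691125) (nat_lit 684) (nat_lit 893691125) (nat_lit 359) (nat_lit 1) (nat_lit 349) (nat_lit 1) (nat_lit 358) (nat_lit 1) (nat_lit 432) (nat_lit 377) (nat_lit 331)))) (XT.nd (nat_lit 78) (nat_lit 1444) (nat_lit 0) (XT.lf (nat_lit 76) (nat_lit 179380805) (nat_lit 0) (nat_lit 2127762833) (nat_lit 760) (nat_lit 179380805) (nat_lit 350) (nat_lit 1) (nat_lit 349) (nat_lit 1) (nat_lit 359) (nat_lit 1) (nat_lit 433) (nat_lit 377) (nat_lit 330)) (XT.nd (nat_lit 78) (nat_lit 684) (nat_lit 0) (XT.lf (nat_lit 76) (nat_lit 1228018902) (nat_lit 0) (nat_lit 9513877) (nat_lit 760) (nat_lit 1228018902) (nat_lit 340) (nat_lit 1) (nat_lit 339) (nat_lit 1) (nat_lit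 349) (nat_lit 1) (nat_lit 434) (nat_lit 377) (nat_lit 329)) (XT.lf (nat_lit 760) (nat_lit 2076581623) (nat_lit 0) (nat_lit 184157823) (nat_lit 684) (nat_lit 184157823) (nat_lit 340) (nat_lit 1) (nat_lit 330) (nat_lit 1) (nat_lit 339) (nat_lit 1) (nat_lit 435) (nat_lit 377) (nat_lit 328))))) (XT.nd (nat_lit 234) (nat_lit 0) (nat_lit 76) (XT.nd (nat_lit 78) (nat_lit 0) (nat_lit 0) (XT.lf (nat_lit 1900) (nat_lit 648313420) (nat_lit 0) (nat_lit 653734828) (nat_lit 1900) (nat_lit 648313420) (nat_lit 522) (nat_lit 1) (nat_lit 497) (nat_lit 0) (nat_lit 522) (nat_lit 0) (nat_lit 384) (nat_lit 378) (nat_lit 378)) (XT.nd (nat_lit 78) (nat_lit 0) (nat_lit 76) (XT.lf (nat_lit 1900) (nat_lit 2563528739) (nat_lit 76) (nat_lit 649433941) (nat_lit 0) (nat_lit 649433941) (nat_lit 522) (nat_lit 1) (nat_lit 498) (nat_lit 1) (nat_lit 497) (nat_lit 0) (nat_lit 385) (nat_lit 378) (nat_lit 377)) (XT.lf (nat_lit 1900) (nat_lit 1258704813) (nat_lit 0) (nat_lit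 1307078900) (nat_lit 1824) (nat_lit 1258704813) (nat_lit 523) (nat_lit 1) (nat_lit 498) (nat_lit 1) (nat_lit 522) (nat_lit 1) (nat_lit 386) (nat_lit 378) (nat_lit 376)))) (XT.nd (nat_lit 78) (nat_lit 0) (nat_lit 76) (XT.lf (nat_lit 1900) (nat_lit 2463595607) (nat_lit 76) (nat_lit 661779754) (nat_lit 0) (nat_lit 661779754) (nat_lit 523) (nat_lit 1) (nat_lit 499) (nat_lit 1) (nat_lit 498) (nat_lit 1) (nat_lit 387) (nat_lit 378) (nat_lit 375)) (XT.nd (nat_lit 78) (nat_lit 0) (nat_lit 0) (XT.lf (nat_lit 1900) (nat_lit 1197260781) (nat_lit 0) (nat_lit 1355712264) (nat_lit 1824) (nat_lit 1197260781) (nat_lit 524) (nat_lit 1) (nat_lit 499) (nat_lit 1) (nat_lit 523) (nat_lit 1) (nat_lit 388) (nat_lit 378) (nat_lit 374)) (XT.lf (nat_lit 1900) (nat_lit 2317882751) (nat_lit 76) (nat_lit 697989423) (nat_lit 0) (nat_lit 697989423) (nat_lit 524) (nat_lit 1) (nat_lit 500) (nat_lit 1) (nat_lit 499) (nat_lit 1) (nat_lit 389) (nat_lit 378) (nat_lit 373)))))))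 (XT.nd (nat_lit 936) (nat_lit 3268) (nat_lit 0) (XT.nd (nat_lit 468) (nat_lit 0) (nat_lit 228) (XT.nd (nat_lit 234) (nat_lit 0) (nat_lit 76) (XT.nd (nat_lit 78) (nat_lit 0) (nat_lit 0) (XT.lf (nat_lit 1900) (nat_lit 1113698222) (nat_lit 0) (nat_lit 1450505123) (nat_lit 1824) (nat_lit 1113698222) (nat_lit 525) (nat_lit 1) (nat_lit 500) (nat_lit 1) (nat_lit 524) (nat_lit 1) (nat_lit 390) (nat_lit 378) (nat_lit 372)) (XT.nd (nat_lit 78) (nat_lit 0) (nat_lit 76) (XT.lf (nat_lit 1900) (nat_lit 2129141582) (nat_lit 76) (nat_lit 756658969) (nat_lit 0) (nat_lit 756658969) (nat_lit 525) (nat_lit 1) (nat_lit 501) (nat_lit 1) (nat_lit 500) (nat_lit 1) (nat_lit 391) (nat_lit 378) (nat_lit 371)) (XT.lf (nat_lit 1900) (nat_lit 1009356505) (nat_lit 0) (nat_lit 1588722930) (nat_lit 1824) (nat_lit 1009356505) (nat_lit 526) (nat_lit 1) (nat_lit 501) (nat_lit 1) (nat_lit 525) (nat_lit 1) (nat_lit 392) (nat_lit 378) (nat_lit 370)))) (XT.nd (nat_lit 78) (nat_lit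 0) (nat_lit 76) (XT.lf (nat_lit 1900) (nat_lit 1899997580) (nat_lit 76) (nat_lit 836448286) (nat_lit 0) (nat_lit 836448286) (nat_lit 526) (nat_lit 1) (nat_lit 502) (nat_lit 1) (nat_lit 501) (nat_lit 1) (nat_lit 393) (nat_lit 378) (nat_lit 369)) (XT.nd (nat_lit 78) (nat_lit 0) (nat_lit 0) (XT.lf (nat_lit 1900) (nat_lit 885513569) (nat_lit 0) (nat_lit 1767755796) (nat_lit 1824) (nat_lit 885513569) (nat_lit 527) (nat_lit 1) (nat_lit 502) (nat_lit 1) (nat_lit 526) (nat_lit 1) (nat_lit 394) (nat_lit 378) (nat_lit 368)) (XT.lf (nat_lit 1900) (nat_lit 1632955555) (nat_lit 76) (nat_lit 936078484) (nat_lit 0) (nat_lit 936078484) (nat_lit 527) (nat_lit 1) (nat_lit 503) (nat_lit 1) (nat_lit 502) (nat_lit 1) (nat_lit 395) (nat_lit 378) (nat_lit 367))))) (XT.nd (nat_lit 234) (nat_lit 0) (nat_lit 76) (XT.nd (nat_lit 78) (nat_lit 0) (nat_lit 0) (XT.lf (nat_lit 1900) (nat_lit 743388492) (nat_lit 0) (nat_lit 1985113291) (nat_lit 1824) (nat_lit 743388492)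 (nat_lit 528) (nat_lit 1) (nat_lit 503) (nat_lit 1) (nat_lit 527) (nat_lit 1) (nat_lit 396) (nat_lit 378) (nat_lit 366)) (XT.nd (nat_lit 78) (nat_lit 0) (nat_lit 76) (XT.lf (nat_lit 1900) (nat_lit 1330404703) (nat_lit 76) (nat_lit 1054329330) (nat_lit 0) (nat_lit 1054329330) (nat_lit 528) (nat_lit 1) (nat_lit 504) (nat_lit 1) (nat_lit 503) (nat_lit 1) (nat_lit 397) (nat_lit 378) (nat_lit 365)) (XT.lf (nat_lit 1900) (nat_lit 584143959) (nat_lit 0) (nat_lit 2238419442) (nat_lit 1824) (nat_lit 584143959) (nat_lit 529) (nat_lit 1) (nat_lit 504) (nat_lit 1) (nat_lit 528) (nat_lit 1) (nat_lit 398) (nat_lit 378) (nat_lit 364)))) (XT.nd (nat_lit 78) (nat_lit 0) (nat_lit 76) (XT.lf (nat_lit 1900) (nat_lit 994623450) (nat_lit 76) (nat_lit 1190036792) (nat_lit 0) (nat_lit 1190036792) (nat_lit 529) (nat_lit 1) (nat_lit 505) (nat_lit 1) (nat_lit 504) (nat_lit 1) (nat_lit 399) (nat_lit 378) (nat_lit 363)) (XT.nd (nat_lit 78) (nat_lit 0) (nat_lit 0)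 (XT.lf (nat_lit 1900) (nat_lit 408888628) (nat_lit 0) (nat_lit 2525407950) (nat_lit 1824) (nat_lit 408888628) (nat_lit 530) (nat_lit 1) (nat_lit 505) (nat_lit 1) (nat_lit 529) (nat_lit 1) (nat_lit 400) (nat_lit 378) (nat_lit 362)) (XT.lf (nat_lit 1900) (nat_lit 627784111) (nat_lit 76) (nat_lit 1342090686) (nat_lit 0) (nat_lit 1342090686) (nat_lit 530) (nat_lit 1) (nat_lit 506) (nat_lit 1) (nat_lit 505) (nat_lit 1) (nat_lit 401) (nat_lit 378) (nat_lit 361)))))) (XT.nd (nat_lit 468) (nat_lit 1900) (nat_lit 0) (XT.nd (nat_lit 234) (nat_lit 1824) (nat_lit 0) (XT.nd (nat_lit 78) (nat_lit 0) (nat_lit 0) (XT.lf (nat_lit 1900) (nat_lit 218679405) (nat_lit 0) (nat_lit 2843917583) (nat_lit 1824) (nat_lit 218679405) (nat_lit 531) (nat_lit 1) (nat_lit 506) (nat_lit 1) (nat_lit 530) (nat_lit 1) (nat_lit 402) (nat_lit 378) (nat_lit 360)) (XT.nd (nat_lit 78) (nat_lit 0) (nat_lit 76) (XT.lf (nat_lit 1900) (nat_lit 231957354) (nat_lit 76) (nat_lit 1509432415)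 (nat_lit 0) (nat_lit 1509432415) (nat_lit 531) (nat_lit 1) (nat_lit 507) (nat_lit 1) (nat_lit 506) (nat_lit 1) (nat_lit 403) (nat_lit 378) (nat_lit 359)) (XT.lf (nat_lit 1900) (nat_lit 14523618) (nat_lit 0) (nat_lit 3191887762) (nat_lit 1824) (nat_lit 14523618) (nat_lit 532) (nat_lit 1) (nat_lit 507) (nat_lit 1) (nat_lit 531) (nat_lit 1) (nat_lit 404) (nat_lit 378) (nat_lit 358)))) (XT.nd (nat_lit 78) (nat_lit 0) (nat_lit 0) (XT.lf (nat_lit 1976) (nat_lit 1501408629) (nat_lit 0) (nat_lit 188380041) (nat_lit 1900) (nat_lit 1501408629) (nat_lit 508) (nat_lit 1) (nat_lit 482) (nat_lit 1) (nat_lit 507) (nat_lit 1) (nat_lit 405) (nat_lit 378) (nat_lit 357)) (XT.nd (nat_lit 78) (nat_lit 0) (nat_lit 76) (XT.lf (nat_lit 1976) (nat_lit 2759439242) (nat_lit 76) (nat_lit 201285863) (nat_lit 0) (nat_lit 201285863) (nat_lit 508) (nat_lit 1) (nat_lit 483) (nat_lit 1) (nat_lit 482) (nat_lit 1) (nat_lit 406) (nat_lit 378) (nat_lit 356)) (XT.lf (nat_lit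 1976) (nat_lit 1251279456) (nat_lit 0) (nat_lit 630479686) (nat_lit 1900) (nat_lit 1251279456) (nat_lit 509) (nat_lit 1) (nat_lit 483) (nat_lit 1) (nat_lit 508) (nat_lit 1) (nat_lit 407) (nat_lit 378) (nat_lit 355))))) (XT.nd (nat_lit 234) (nat_lit 912) (nat_lit 0) (XT.nd (nat_lit 78) (nat_lit 1064) (nat_lit 0) (XT.lf (nat_lit 1976) (nat_lit 2246567558) (nat_lit 76) (nat_lit 428992712) (nat_lit 0) (nat_lit 428992712) (nat_lit 509) (nat_lit 1) (nat_lit 484) (nat_lit 1) (nat_lit 483) (nat_lit 1) (nat_lit 408) (nat_lit 378) (nat_lit 354)) (XT.nd (nat_lit 78) (nat_lit 1140) (nat_lit 0) (XT.lf (nat_lit 76) (nat_lit 990358856) (nat_lit 0) (nat_lit 1095616471) (nat_lit 1900) (nat_lit 990358856) (nat_lit 485) (nat_lit 1) (nat_lit 484) (nat_lit 1) (nat_lit 509) (nat_lit 1) (nat_lit 409) (nat_lit 378) (nat_lit 353)) (XT.lf (nat_lit 1216) (nat_lit 1712872605) (nat_lit 0) (nat_lit 667827377) (nat_lit 1140) (nat_lit 667827377) (nat_lit 485) (nat_lit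 1) (nat_lit 469) (nat_lit 1) (nat_lit 484) (nat_lit 1) (nat_lit 410) (nat_lit 378) (nat_lit 352)))) (XT.nd (nat_lit 78) (nat_lit 912) (nat_lit 0) (XT.lf (nat_lit 76) (nat_lit 719467918) (nat_lit 0) (nat_lit 1582107512) (nat_lit 1216) (nat_lit 719467918) (nat_lit 470) (nat_lit 1) (nat_lit 469) (nat_lit 1) (nat_lit 485) (nat_lit 1) (nat_lit 411) (nat_lit 378) (nat_lit 351)) (XT.nd (nat_lit 78) (nat_lit 0) (nat_lit 0) (XT.lf (nat_lit 988) (nat_lit 1159961773) (nat_lit 0) (nat_lit 916966186) (nat_lit 912) (nat_lit 916966186) (nat_lit 470) (nat_lit 1) (nat_lit 457) (nat_lit 1) (nat_lit 469) (nat_lit 1) (nat_lit 412) (nat_lit 378) (nat_lit 350)) (XT.lf (nat_lit 76) (nat_lit 439387962) (nat_lit 0) (nat_lit 2088350734) (nat_lit 988) (nat_lit 439387962) (nat_lit 458) (nat_lit 1) (nat_lit 457) (nat_lit 1) (nat_lit 470) (nat_lit 1) (nat_lit 413) (nat_lit 378) (nat_lit 349))))))))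
noncomputable def ec15 : XT := (XT.nd (nat_lit 57018) (nat_lit 0) (nat_lit 11248) (XT.nd (nat_lit 936) (nat_lit 4332) (nat_lit 0) (XT.nd (nat_lit 468) (nat_lit 2432) (nat_lit 0) (XT.nd (nat_lit 234) (nat_lit 1824) (nat_lit 0) (XT.nd (nat_lit 78) (nat_lit 836) (nat_lit 0) (XT.lf (nat_lit 988) (nat_lit 589364374) (nat_lit 0) (nat_lit 1175625126) (nat_lit 912) (nat_lit 1175625126) (nat_lit 458) (nat_lit 1) (nat_lit 445) (nat_lit 1) (nat_lit 457) (nat_lit 1) (nat_lit 414) (nat_lit 378) (nat_lit 348)) (XT.nd (nat_lit 78) (nat_lit 836) (nat_lit 0) (XT.lf (nat_lit 76) (nat_lit 150862242) (nat_lit 0) (nat_lit 2612821424) (nat_lit 988) (nat_lit 150862242) (nat_lit 446) (nat_lit 1) (nat_lit 445) (nat_lit 1) (nat_lit 458) (nat_lit 1) (nat_lit 415) (nat_lit 378) (nat_lit 347)) (XT.lf (nat_lit 912) (nat_lit 2534979) (nat_lit 0) (nat_lit 1443058156) (nat_lit 836) (nat_lit 1443058156) (nat_lit 446) (nat_lit 1) (nat_lit 434) (nat_lit 1) (nat_lit 445)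 (nat_lit 1) (nat_lit 416) (nat_lit 378) (nat_lit 346)))) (XT.nd (nat_lit 78) (nat_lit 836) (nat_lit 0) (XT.lf (nat_lit 988) (nat_lit 2574296642) (nat_lit 0) (nat_lit 144445831) (nat_lit 912) (nat_lit 144445831) (nat_lit 434) (nat_lit 1) (nat_lit 421) (nat_lit 1) (nat_lit 433) (nat_lit 1) (nat_lit 417) (nat_lit 378) (nat_lit 345)) (XT.nd (nat_lit 78) (nat_lit 836) (nat_lit 0) (XT.lf (nat_lit 76) (nat_lit 1123302242) (nat_lit 0) (nat_lit 591285505) (nat_lit 988) (nat_lit 1123302242) (nat_lit 422) (nat_lit 1) (nat_lit 421) (nat_lit 1) (nat_lit 434) (nat_lit 1) (nat_lit 418) (nat_lit 378) (nat_lit 344)) (XT.lf (nat_lit 912) (nat_lit 1921447626) (nat_lit 0) (nat_lit 445781908) (nat_lit 836) (nat_lit 445781908) (nat_lit 422) (nat_lit 1) (nat_lit 410) (nat_lit 1) (nat_lit 421) (nat_lit 1) (nat_lit 419) (nat_lit 378) (nat_lit 343))))) (XT.nd (nat_lit 234) (nat_lit 1596) (nat_lit 0) (XT.nd (nat_lit 78) (nat_lit 836) (nat_lit 0) (XT.lf (nat_lit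 76) (nat_lit 794970787) (nat_lit 0) (nat_lit 1198429631) (nat_lit 912) (nat_lit 794970787) (nat_lit 411) (nat_lit 1) (nat_lit 410) (nat_lit 1) (nat_lit 422) (nat_lit 1) (nat_lit 420) (nat_lit 378) (nat_lit 342)) (XT.nd (nat_lit 78) (nat_lit 0) (nat_lit 0) (XT.lf (nat_lit 912) (nat_lit 1257051236) (nat_lit 0) (nat_lit 753504139) (nat_lit 836) (nat_lit 753504139) (nat_lit 411) (nat_lit 1) (nat_lit 399) (nat_lit 1) (nat_lit 410) (nat_lit 1) (nat_lit 421) (nat_lit 378) (nat_lit 341)) (XT.lf (nat_lit 76) (nat_lit 461181658) (nat_lit 0) (nat_lit 1817697973) (nat_lit 912) (nat_lit 461181658) (nat_lit 400) (nat_lit 1) (nat_lit 399) (nat_lit 1) (nat_lit 411) (nat_lit 1) (nat_lit 422) (nat_lit 378) (nat_lit 340)))) (XT.nd (nat_lit 78) (nat_lit 836) (nat_lit 0) (XT.lf (nat_lit 836) (nat_lit 582279365) (nat_lit 0) (nat_lit 1067009886) (nat_lit 760) (nat_lit 1067009886) (nat_lit 400) (nat_lit 1) (nat_lit 389) (nat_lit 1) (nat_lit 399) (nat_lit 1)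 (nat_lit 423) (nat_lit 378) (nat_lit 339)) (XT.nd (nat_lit 78) (nat_lit 836) (nat_lit 0) (XT.lf (nat_lit 76) (nat_lit 122503786) (nat_lit 0) (nat_lit 2447919727) (nat_lit 836) (nat_lit 122503786) (nat_lit 390) (nat_lit 1) (nat_lit 389) (nat_lit 1) (nat_lit 400) (nat_lit 1) (nat_lit 424) (nat_lit 378) (nat_lit 338)) (XT.lf (nat_lit 76) (nat_lit 1284631752) (nat_lit 0) (nat_lit 100421236) (nat_lit 836) (nat_lit 1284631752) (nat_lit 379) (nat_lit 1) (nat_lit 378) (nat_lit 1) (nat_lit 389) (nat_lit 1) (nat_lit 425) (nat_lit 378) (nat_lit 337)))))) (XT.nd (nat_lit 468) (nat_lit 2128) (nat_lit 0) (XT.nd (nat_lit 234) (nat_lit 684) (nat_lit 0) (XT.nd (nat_lit 78) (nat_lit 760) (nat_lit 0) (XT.lf (nat_lit 836) (nat_lit 2208678013) (nat_lit 0) (nat_lit 219072179) (nat_lit 760) (nat_lit 219072179) (nat_lit 379) (nat_lit 1) (nat_lit 368) (nat_lit 1) (nat_lit 378) (nat_lit 1) (nat_lit 426) (nat_lit 378) (nat_lit 336)) (XT.nd (nat_lit 78) (nat_lit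 760) (nat_lit 0) (XT.lf (nat_lit 76) (nat_lit 920267910) (nat_lit 0) (nat_lit 783585660) (nat_lit 836) (nat_lit 920267910) (nat_lit 369) (nat_lit 1) (nat_lit 368) (nat_lit 1) (nat_lit 379) (nat_lit 1) (nat_lit 427) (nat_lit 378) (nat_lit 335)) (XT.lf (nat_lit 836) (nat_lit 1474456932) (nat_lit 0) (nat_lit 563653845) (nat_lit 760) (nat_lit 563653845) (nat_lit 369) (nat_lit 1) (nat_lit 358) (nat_lit 1) (nat_lit 368) (nat_lit 1) (nat_lit 428) (nat_lit 378) (nat_lit 334)))) (XT.nd (nat_lit 78) (nat_lit 684) (nat_lit 0) (XT.lf (nat_lit 76) (nat_lit 552895723) (nat_lit 0) (nat_lit 1473863226) (nat_lit 836) (nat_lit 552895723) (nat_lit 359) (nat_lit 1) (nat_lit 358) (nat_lit 1) (nat_lit 369) (nat_lit 1) (nat_lit 429) (nat_lit 378) (nat_lit 333)) (XT.nd (nat_lit 78) (nat_lit 0) (nat_lit 0) (XT.lf (nat_lit 760) (nat_lit 734658227) (nat_lit 0) (nat_lit 911564948) (nat_lit 684) (nat_lit 911564948) (nat_lit 359) (nat_lit 1) (nat_lit 349) (nat_lit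 1) (nat_lit 358) (nat_lit 1) (nat_lit 430) (nat_lit 378) (nat_lit 332)) (XT.lf (nat_lit 76) (nat_lit 182968421) (nat_lit 0) (nat_lit 2170318089) (nat_lit 760) (nat_lit 182968421) (nat_lit 350) (nat_lit 1) (nat_lit 349) (nat_lit 1) (nat_lit 359) (nat_lit 1) (nat_lit 431) (nat_lit 378) (nat_lit 331))))) (XT.nd (nat_lit 234) (nat_lit 684) (nat_lit 0) (XT.nd (nat_lit 78) (nat_lit 684) (nat_lit 0) (XT.lf (nat_lit 76) (nat_lit 1252579280) (nat_lit 0) (nat_lit 9704154) (nat_lit 760) (nat_lit 1252579280) (nat_lit 340) (nat_lit 1) (nat_lit 339) (nat_lit 1) (nat_lit 349) (nat_lit 1) (nat_lit 432) (nat_lit 378) (nat_lit 330)) (XT.nd (nat_lit 78) (nat_lit 0) (nat_lit 0) (XT.lf (nat_lit 760) (nat_lit 2118113256) (nat_lit 0) (nat_lit 187840980) (nat_lit 684) (nat_lit 187840980) (nat_lit 340) (nat_lit 1) (nat_lit 330) (nat_lit 1) (nat_lit 339) (nat_lit 1) (nat_lit 433) (nat_lit 378) (nat_lit 329)) (XT.lf (nat_lit 76) (nat_lit 862314917) (nat_lit 0)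 (nat_lit 748235927) (nat_lit 760) (nat_lit 862314917) (nat_lit 331) (nat_lit 1) (nat_lit 330) (nat_lit 1) (nat_lit 340) (nat_lit 1) (nat_lit 434) (nat_lit 378) (nat_lit 328)))) (XT.nd (nat_lit 55224) (nat_lit 0) (nat_lit 13376) (XT.lf (nat_lit 760) (nat_lit 1333939169) (nat_lit 0) (nat_lit 559155498) (nat_lit 684) (nat_lit 559155498) (nat_lit 331) (nat_lit 1) (nat_lit 321) (nat_lit 1) (nat_lit 330) (nat_lit 1) (nat_lit 435) (nat_lit 378) (nat_lit 327)) (XT.nd (nat_lit 78) (nat_lit 0) (nat_lit 0) (XT.lf (nat_lit 1900) (nat_lit 661279688) (nat_lit 0) (nat_lit 666809525) (nat_lit 1900) (nat_lit 661279688) (nat_lit 522) (nat_lit 1) (nat_lit 497) (nat_lit 0) (nat_lit 522) (nat_lit 0) (nat_lit 382) (nat_lit 379) (nat_lit 379)) (XT.lf (nat_lit 1900) (nat_lit 2614799314) (nat_lit 76) (nat_lit 662422620) (nat_lit 0) (nat_lit 662422620) (nat_lit 522) (nat_lit 1) (nat_lit 498) (nat_lit 1) (nat_lit 497) (nat_lit 0) (nat_lit 383) (nat_lit 379) (nat_lit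 378))))))) (XT.nd (nat_lit 936) (nat_lit 2204) (nat_lit 0) (XT.nd (nat_lit 468) (nat_lit 0) (nat_lit 228) (XT.nd (nat_lit 234) (nat_lit 0) (nat_lit 76) (XT.nd (nat_lit 78) (nat_lit 0) (nat_lit 0) (XT.lf (nat_lit 1900) (nat_lit 1283878909) (nat_lit 0) (nat_lit 1333220478) (nat_lit 1824) (nat_lit 1283878909) (nat_lit 523) (nat_lit 1) (nat_lit 498) (nat_lit 1) (nat_lit 522) (nat_lit 1) (nat_lit 384) (nat_lit 379) (nat_lit 377)) (XT.nd (nat_lit 78) (nat_lit 0) (nat_lit 76) (XT.lf (nat_lit 1900) (nat_lit 2512867520) (nat_lit 76) (nat_lit 675015349) (nat_lit 0) (nat_lit 675015349) (nat_lit 523) (nat_lit 1) (nat_lit 499) (nat_lit 1) (nat_lit 498) (nat_lit 1) (nat_lit 385) (nat_lit 379) (nat_lit 376)) (XT.lf (nat_lit 1900) (nat_lit 1221205997) (nat_lit 0) (nat_lit 1382826509) (nat_lit 1824) (nat_lit 1221205997) (nat_lit 524) (nat_lit 1) (nat_lit 499) (nat_lit 1) (nat_lit 523) (nat_lit 1) (nat_lit 386) (nat_lit 379) (nat_lit 375)))) (XT.nd (nat_lit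 78) (nat_lit 0) (nat_lit 76) (XT.lf (nat_lit 1900) (nat_lit 2364240406) (nat_lit 76) (nat_lit 711949212) (nat_lit 0) (nat_lit 711949212) (nat_lit 524) (nat_lit 1) (nat_lit 500) (nat_lit 1) (nat_lit 499) (nat_lit 1) (nat_lit 387) (nat_lit 379) (nat_lit 374)) (XT.nd (nat_lit 78) (nat_lit 0) (nat_lit 0) (XT.lf (nat_lit 1900) (nat_lit 1135972186) (nat_lit 0) (nat_lit 1479515225) (nat_lit 1824) (nat_lit 1135972186) (nat_lit 525) (nat_lit 1) (nat_lit 500) (nat_lit 1) (nat_lit 524) (nat_lit 1) (nat_lit 388) (nat_lit 379) (nat_lit 373)) (XT.lf (nat_lit 1900) (nat_lit 2171724413) (nat_lit 76) (nat_lit 771792148) (nat_lit 0) (nat_lit 771792148) (nat_lit 525) (nat_lit 1) (nat_lit 501) (nat_lit 1) (nat_lit 500) (nat_lit 1) (nat_lit 389) (nat_lit 379) (nat_lit 372))))) (XT.nd (nat_lit 234) (nat_lit 0) (nat_lit 76) (XT.nd (nat_lit 78) (nat_lit 0) (nat_lit 0) (XT.lf (nat_lit 1900) (nat_lit 1029543635) (nat_lit 0) (nat_lit 1620497388) (nat_lit 1824)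 (nat_lit 1029543635) (nat_lit 526) (nat_lit 1) (nat_lit 501) (nat_lit 1) (nat_lit 525) (nat_lit 1) (nat_lit 390) (nat_lit 379) (nat_lit 371)) (XT.nd (nat_lit 78) (nat_lit 0) (nat_lit 76) (XT.lf (nat_lit 1900) (nat_lit 1937997531) (nat_lit 76) (nat_lit 853177252) (nat_lit 0) (nat_lit 853177252) (nat_lit 526) (nat_lit 1) (nat_lit 502) (nat_lit 1) (nat_lit 501) (nat_lit 1) (nat_lit 391) (nat_lit 379) (nat_lit 370)) (XT.lf (nat_lit 1900) (nat_lit 903223840) (nat_lit 0) (nat_lit 1803110912) (nat_lit 1824) (nat_lit 903223840) (nat_lit 527) (nat_lit 1) (nat_lit 502) (nat_lit 1) (nat_lit 526) (nat_lit 1) (nat_lit 392) (nat_lit 379) (nat_lit 369)))) (XT.nd (nat_lit 78) (nat_lit 0) (nat_lit 76) (XT.lf (nat_lit 1900) (nat_lit 1665614666) (nat_lit 76) (nat_lit 954800054) (nat_lit 0) (nat_lit 954800054) (nat_lit 527) (nat_lit 1) (nat_lit 503) (nat_lit 1) (nat_lit 502) (nat_lit 1) (nat_lit 393) (nat_lit 379) (nat_lit 368)) (XT.nd (nat_lit 78) (nat_lit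 0) (nat_lit 0) (XT.lf (nat_lit 1900) (nat_lit 758256261) (nat_lit 0) (nat_lit 2024815557) (nat_lit 1824) (nat_lit 758256261) (nat_lit 528) (nat_lit 1) (nat_lit 503) (nat_lit 1) (nat_lit 527) (nat_lit 1) (nat_lit 394) (nat_lit 379) (nat_lit 367)) (XT.lf (nat_lit 1900) (nat_lit 1357012797) (nat_lit 76) (nat_lit 1075415917) (nat_lit 0) (nat_lit 1075415917) (nat_lit 528) (nat_lit 1) (nat_lit 504) (nat_lit 1) (nat_lit 503) (nat_lit 1) (nat_lit 395) (nat_lit 379) (nat_lit 366)))))) (XT.nd (nat_lit 468) (nat_lit 2660) (nat_lit 0) (XT.nd (nat_lit 234) (nat_lit 0) (nat_lit 76) (XT.nd (nat_lit 78) (nat_lit 0) (nat_lit 0) (XT.lf (nat_lit 1900) (nat_lit 595826838) (nat_lit 0) (nat_lit 2283187831) (nat_lit 1824) (nat_lit 595826838) (nat_lit 529) (nat_lit 1) (nat_lit 504) (nat_lit 1) (nat_lit 528) (nat_lit 1) (nat_lit 396) (nat_lit 379) (nat_lit 365)) (XT.nd (nat_lit 78) (nat_lit 0) (nat_lit 76) (XT.lf (nat_lit 1900) (nat_lit 1014515919) (nat_lit 76)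 (nat_lit 1213837528) (nat_lit 0) (nat_lit 1213837528) (nat_lit 529) (nat_lit 1) (nat_lit 505) (nat_lit 1) (nat_lit 504) (nat_lit 1) (nat_lit 397) (nat_lit 379) (nat_lit 364)) (XT.lf (nat_lit 1900) (nat_lit 417066401) (nat_lit 0) (nat_lit 2575916109) (nat_lit 1824) (nat_lit 417066401) (nat_lit 530) (nat_lit 1) (nat_lit 505) (nat_lit 1) (nat_lit 529) (nat_lit 1) (nat_lit 398) (nat_lit 379) (nat_lit 363)))) (XT.nd (nat_lit 78) (nat_lit 0) (nat_lit 76) (XT.lf (nat_lit 1900) (nat_lit 640339793) (nat_lit 76) (nat_lit 1368932500) (nat_lit 0) (nat_lit 1368932500) (nat_lit 530) (nat_lit 1) (nat_lit 506) (nat_lit 1) (nat_lit 505) (nat_lit 1) (nat_lit 399) (nat_lit 379) (nat_lit 362)) (XT.nd (nat_lit 78) (nat_lit 0) (nat_lit 0) (XT.lf (nat_lit 1900) (nat_lit 223052993) (nat_lit 0) (nat_lit 2900795934) (nat_lit 1824) (nat_lit 223052993) (nat_lit 531) (nat_lit 1) (nat_lit 506) (nat_lit 1) (nat_lit 530) (nat_lit 1) (nat_lit 400) (nat_lit 379) (nat_lit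 361)) (XT.lf (nat_lit 1900) (nat_lit 236596501) (nat_lit 76) (nat_lit 1539621064) (nat_lit 0) (nat_lit 1539621064) (nat_lit 531) (nat_lit 1) (nat_lit 507) (nat_lit 1) (nat_lit 506) (nat_lit 1) (nat_lit 401) (nat_lit 379) (nat_lit 360))))) (XT.nd (nat_lit 234) (nat_lit 988) (nat_lit 0) (XT.nd (nat_lit 78) (nat_lit 1900) (nat_lit 0) (XT.lf (nat_lit 1900) (nat_lit 14814090) (nat_lit 0) (nat_lit 3255725518) (nat_lit 1824) (nat_lit 14814090) (nat_lit 532) (nat_lit 1) (nat_lit 507) (nat_lit 1) (nat_lit 531) (nat_lit 1) (nat_lit 402) (nat_lit 379) (nat_lit 359)) (XT.nd (nat_lit 78) (nat_lit 0) (nat_lit 0) (XT.lf (nat_lit 1976) (nat_lit 1531436801) (nat_lit 0) (nat_lit 192147642) (nat_lit 1900) (nat_lit 1531436801) (nat_lit 508) (nat_lit 1) (nat_lit 482) (nat_lit 1) (nat_lit 507) (nat_lit 1) (nat_lit 403) (nat_lit 379) (nat_lit 358)) (XT.lf (nat_lit 1976) (nat_lit 2814628026) (nat_lit 76) (nat_lit 205311581) (nat_lit 0) (nat_lit 205311581) (nat_lit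 508) (nat_lit 1) (nat_lit 483) (nat_lit 1) (nat_lit 482) (nat_lit 1) (nat_lit 404) (nat_lit 379) (nat_lit 357)))) (XT.nd (nat_lit 156) (nat_lit 1064) (nat_lit 0) (XT.nd (nat_lit 78) (nat_lit 0) (nat_lit 0) (XT.lf (nat_lit 1976) (nat_lit 1276305045) (nat_lit 0) (nat_lit 643089280) (nat_lit 1900) (nat_lit 1276305045) (nat_lit 509) (nat_lit 1) (nat_lit 483) (nat_lit 1) (nat_lit 508) (nat_lit 1) (nat_lit 405) (nat_lit 379) (nat_lit 356)) (XT.lf (nat_lit 1976) (nat_lit 2291498909) (nat_lit 76) (nat_lit 437572566) (nat_lit 0) (nat_lit 437572566) (nat_lit 509) (nat_lit 1) (nat_lit 484) (nat_lit 1) (nat_lit 483) (nat_lit 1) (nat_lit 406) (nat_lit 379) (nat_lit 355))) (XT.nd (nat_lit 78) (nat_lit 1140) (nat_lit 0) (XT.lf (nat_lit 76) (nat_lit 1010166033) (nat_lit 0) (nat_lit 1117528800) (nat_lit 1900) (nat_lit 1010166033) (nat_lit 485) (nat_lit 1) (nat_lit 484) (nat_lit 1) (nat_lit 509) (nat_lit 1) (nat_lit 407) (nat_lit 379) (nat_lit 354)) (XT.lf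 (nat_lit 1216) (nat_lit 1747130057) (nat_lit 0) (nat_lit 681183925) (nat_lit 1140) (nat_lit 681183925) (nat_lit 485) (nat_lit 1) (nat_lit 469) (nat_lit 1) (nat_lit 484) (nat_lit 1) (nat_lit 408) (nat_lit 379) (nat_lit 353))))))))
noncomputable def ec16 : XT := (XT.nd (nat_lit 1872) (nat_lit 1292) (nat_lit 0) (XT.nd (nat_lit 936) (nat_lit 5244) (nat_lit 0) (XT.nd (nat_lit 468) (nat_lit 2660) (nat_lit 0) (XT.nd (nat_lit 234) (nat_lit 1748) (nat_lit 0) (XT.nd (nat_lit 78) (nat_lit 912) (nat_lit 0) (XT.lf (nat_lit 76) (nat_lit 733857276) (nat_lit 0) (nat_lit 1613749662) (nat_lit 1216) (nat_lit 733857276) (nat_lit 470) (nat_lit 1) (nat_lit 469) (nat_lit 1) (nat_lit 485) (nat_lit 1) (nat_lit 409) (nat_lit 379) (nat_lit 352)) (XT.nd (nat_lit 78) (nat_lit 0) (nat_lit 0) (XT.lf (nat_lit 988) (nat_lit 1183161009) (nat_lit 0) (nat_lit 935305510) (nat_lit 912) (nat_lit 935305510) (nat_lit 470) (nat_lit 1) (nat_lit 457) (nat_lit 1) (nat_lit 469) (nat_lit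 1) (nat_lit 410) (nat_lit 379) (nat_lit 351)) (XT.lf (nat_lit 76) (nat_lit 448175721) (nat_lit 0) (nat_lit 2130117748) (nat_lit 988) (nat_lit 448175721) (nat_lit 458) (nat_lit 1) (nat_lit 457) (nat_lit 1) (nat_lit 470) (nat_lit 1) (nat_lit 411) (nat_lit 379) (nat_lit 350)))) (XT.nd (nat_lit 78) (nat_lit 836) (nat_lit 0) (XT.lf (nat_lit 988) (nat_lit 601151662) (nat_lit 0) (nat_lit 1199137629) (nat_lit 912) (nat_lit 1199137629) (nat_lit 458) (nat_lit 1) (nat_lit 445) (nat_lit 1) (nat_lit 457) (nat_lit 1) (nat_lit 412) (nat_lit 379) (nat_lit 349)) (XT.nd (nat_lit 78) (nat_lit 836) (nat_lit 0) (XT.lf (nat_lit 76) (nat_lit 153879487) (nat_lit 0) (nat_lit 2665077853) (nat_lit 988) (nat_lit 153879487) (nat_lit 446) (nat_lit 1) (nat_lit 445) (nat_lit 1) (nat_lit 458) (nat_lit 1) (nat_lit 413) (nat_lit 379) (nat_lit 348)) (XT.lf (nat_lit 912) (nat_lit 2585679) (nat_lit 0) (nat_lit 1471919319) (nat_lit 836) (nat_lit 1471919319) (nat_lit 446) (nat_lit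 1) (nat_lit 434) (nat_lit 1) (nat_lit 445) (nat_lit 1) (nat_lit 414) (nat_lit 379) (nat_lit 347))))) (XT.nd (nat_lit 234) (nat_lit 836) (nat_lit 0) (XT.nd (nat_lit 78) (nat_lit 836) (nat_lit 0) (XT.lf (nat_lit 988) (nat_lit 2625782575) (nat_lit 0) (nat_lit 147334748) (nat_lit 912) (nat_lit 147334748) (nat_lit 434) (nat_lit 1) (nat_lit 421) (nat_lit 1) (nat_lit 433) (nat_lit 1) (nat_lit 415) (nat_lit 379) (nat_lit 346)) (XT.nd (nat_lit 78) (nat_lit 836) (nat_lit 0) (XT.lf (nat_lit 76) (nat_lit 1145768287) (nat_lit 0) (nat_lit 603111215) (nat_lit 988) (nat_lit 1145768287) (nat_lit 422) (nat_lit 1) (nat_lit 421) (nat_lit 1) (nat_lit 434) (nat_lit 1) (nat_lit 416) (nat_lit 379) (nat_lit 345)) (XT.lf (nat_lit 912) (nat_lit 1959876579) (nat_lit 0) (nat_lit 454697546) (nat_lit 836) (nat_lit 454697546) (nat_lit 422) (nat_lit 1) (nat_lit 410) (nat_lit 1) (nat_lit 421) (nat_lit 1) (nat_lit 417) (nat_lit 379) (nat_lit 344)))) (XT.nd (nat_lit 78)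 (nat_lit 836) (nat_lit 0) (XT.lf (nat_lit 76) (nat_lit 810870203) (nat_lit 0) (nat_lit 1222398224) (nat_lit 912) (nat_lit 810870203) (nat_lit 411) (nat_lit 1) (nat_lit 410) (nat_lit 1) (nat_lit 422) (nat_lit 1) (nat_lit 418) (nat_lit 379) (nat_lit 343)) (XT.nd (nat_lit 78) (nat_lit 0) (nat_lit 0) (XT.lf (nat_lit 912) (nat_lit 1282192260) (nat_lit 0) (nat_lit 768574222) (nat_lit 836) (nat_lit 768574222) (nat_lit 411) (nat_lit 1) (nat_lit 399) (nat_lit 1) (nat_lit 410) (nat_lit 1) (nat_lit 419) (nat_lit 379) (nat_lit 342)) (XT.lf (nat_lit 76) (nat_lit 470405291) (nat_lit 0) (nat_lit 1854051933) (nat_lit 912) (nat_lit 470405291) (nat_lit 400) (nat_lit 1) (nat_lit 399) (nat_lit 1) (nat_lit 411) (nat_lit 1) (nat_lit 420) (nat_lit 379) (nat_lit 341)))))) (XT.nd (nat_lit 468) (nat_lit 2128) (nat_lit 0) (XT.nd (nat_lit 234) (nat_lit 1520) (nat_lit 0) (XT.nd (nat_lit 78) (nat_lit 836) (nat_lit 0) (XT.lf (nat_lit 836) (nat_lit 593924953) (nat_lit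 0) (nat_lit 1088350084) (nat_lit 760) (nat_lit 1088350084) (nat_lit 400) (nat_lit 1) (nat_lit 389) (nat_lit 1) (nat_lit 399) (nat_lit 1) (nat_lit 421) (nat_lit 379) (nat_lit 340)) (XT.nd (nat_lit 78) (nat_lit 836) (nat_lit 0) (XT.lf (nat_lit 76) (nat_lit 124953862) (nat_lit 0) (nat_lit 2496878121) (nat_lit 836) (nat_lit 124953862) (nat_lit 390) (nat_lit 1) (nat_lit 389) (nat_lit 1) (nat_lit 400) (nat_lit 1) (nat_lit 422) (nat_lit 379) (nat_lit 339)) (XT.lf (nat_lit 76) (nat_lit 1310324387) (nat_lit 0) (nat_lit 102429661) (nat_lit 836) (nat_lit 1310324387) (nat_lit 379) (nat_lit 1) (nat_lit 378) (nat_lit 1) (nat_lit 389) (nat_lit 1) (nat_lit 423) (nat_lit 379) (nat_lit 338)))) (XT.nd (nat_lit 78) (nat_lit 760) (nat_lit 0) (XT.lf (nat_lit 836) (nat_lit 2252851574) (nat_lit 0) (nat_lit 223453622) (nat_lit 760) (nat_lit 223453622) (nat_lit 379) (nat_lit 1) (nat_lit 368) (nat_lit 1) (nat_lit 378) (nat_lit 1) (nat_lit 424) (nat_lit 379) (nat_lit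 337)) (XT.nd (nat_lit 78) (nat_lit 760) (nat_lit 0) (XT.lf (nat_lit 76) (nat_lit 938673268) (nat_lit 0) (nat_lit 799257374) (nat_lit 836) (nat_lit 938673268) (nat_lit 369) (nat_lit 1) (nat_lit 368) (nat_lit 1) (nat_lit 379) (nat_lit 1) (nat_lit 425) (nat_lit 379) (nat_lit 336)) (XT.lf (nat_lit 836) (nat_lit 1503946071) (nat_lit 0) (nat_lit 574926922) (nat_lit 760) (nat_lit 574926922) (nat_lit 369) (nat_lit 1) (nat_lit 358) (nat_lit 1) (nat_lit 368) (nat_lit 1) (nat_lit 426) (nat_lit 379) (nat_lit 335))))) (XT.nd (nat_lit 234) (nat_lit 1444) (nat_lit 0) (XT.nd (nat_lit 78) (nat_lit 684) (nat_lit 0) (XT.lf (nat_lit 76) (nat_lit 563953637) (nat_lit 0) (nat_lit 1503340491) (nat_lit 836) (nat_lit 563953637) (nat_lit 359) (nat_lit 1) (nat_lit 358) (nat_lit 1) (nat_lit 369) (nat_lit 1) (nat_lit 427) (nat_lit 379) (nat_lit 334)) (XT.nd (nat_lit 78) (nat_lit 0) (nat_lit 0) (XT.lf (nat_lit 760) (nat_lit 749351391) (nat_lit 0) (nat_lit 929796247)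 (nat_lit 684) (nat_lit 929796247) (nat_lit 359) (nat_lit 1) (nat_lit 349) (nat_lit 1) (nat_lit 358) (nat_lit 1) (nat_lit 428) (nat_lit 379) (nat_lit 333)) (XT.lf (nat_lit 76) (nat_lit 186627790) (nat_lit 0) (nat_lit 2213724451) (nat_lit 760) (nat_lit 186627790) (nat_lit 350) (nat_lit 1) (nat_lit 349) (nat_lit 1) (nat_lit 359) (nat_lit 1) (nat_lit 429) (nat_lit 379) (nat_lit 332)))) (XT.nd (nat_lit 78) (nat_lit 684) (nat_lit 0) (XT.lf (nat_lit 76) (nat_lit 1277630866) (nat_lit 0) (nat_lit 9898237) (nat_lit 760) (nat_lit 1277630866) (nat_lit 340) (nat_lit 1) (nat_lit 339) (nat_lit 1) (nat_lit 349) (nat_lit 1) (nat_lit 430) (nat_lit 379) (nat_lit 331)) (XT.nd (nat_lit 78) (nat_lit 0) (nat_lit 0) (XT.lf (nat_lit 760) (nat_lit 2160475521) (nat_lit 0) (nat_lit 191597799) (nat_lit 684) (nat_lit 191597799) (nat_lit 340) (nat_lit 1) (nat_lit 330) (nat_lit 1) (nat_lit 339) (nat_lit 1) (nat_lit 431) (nat_lit 379) (nat_lit 330)) (XT.lf (nat_lit 76)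 (nat_lit 879561215) (nat_lit 0) (nat_lit 763200645) (nat_lit 760) (nat_lit 879561215) (nat_lit 331) (nat_lit 1) (nat_lit 330) (nat_lit 1) (nat_lit 340) (nat_lit 1) (nat_lit 432) (nat_lit 379) (nat_lit 329))))))) (XT.nd (nat_lit 55926) (nat_lit 0) (nat_lit 14288) (XT.nd (nat_lit 55458) (nat_lit 0) (nat_lit 14060) (XT.nd (nat_lit 55224) (nat_lit 0) (nat_lit 13984) (XT.nd (nat_lit 78) (nat_lit 608) (nat_lit 0) (XT.lf (nat_lit 760) (nat_lit 1360617952) (nat_lit 0) (nat_lit 570338608) (nat_lit 684) (nat_lit 570338608) (nat_lit 331) (nat_lit 1) (nat_lit 321) (nat_lit 1) (nat_lit 330) (nat_lit 1) (nat_lit 433) (nat_lit 379) (nat_lit 328)) (XT.nd (nat_lit 78) (nat_lit 608) (nat_lit 0) (XT.lf (nat_lit 76) (nat_lit 480458286) (nat_lit 0) (nat_lit 1519586321) (nat_lit 760) (nat_lit 480458286) (nat_lit 322) (nat_lit 1) (nat_lit 321) (nat_lit 1) (nat_lit 331) (nat_lit 1) (nat_lit 434) (nat_lit 379) (nat_lit 327)) (XT.lf (nat_lit 684) (nat_lit 559055196)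 (nat_lit 0) (nat_lit 950433544) (nat_lit 608) (nat_lit 950433544) (nat_lit 322) (nat_lit 1) (nat_lit 313) (nat_lit 1) (nat_lit 321) (nat_lit 1) (nat_lit 435) (nat_lit 379) (nat_lit 326)))) (XT.nd (nat_lit 78) (nat_lit 0) (nat_lit 0) (XT.lf (nat_lit 1900) (nat_lit 674505282) (nat_lit 0) (nat_lit 680145715) (nat_lit 1900) (nat_lit 674505282) (nat_lit 522) (nat_lit 1) (nat_lit 497) (nat_lit 0) (nat_lit 522) (nat_lit 0) (nat_lit 380) (nat_lit 380) (nat_lit 380)) (XT.nd (nat_lit 78) (nat_lit 0) (nat_lit 76) (XT.lf (nat_lit 1900) (nat_lit 2667095300) (nat_lit 76) (nat_lit 675671072) (nat_lit 0) (nat_lit 675671072) (nat_lit 522) (nat_lit 1) (nat_lit 498) (nat_lit 1) (nat_lit 497) (nat_lit 0) (nat_lit 381) (nat_lit 380) (nat_lit 379)) (XT.lf (nat_lit 1900) (nat_lit 1309556488) (nat_lit 0) (nat_lit 1359884887) (nat_lit 1824) (nat_lit 1309556488) (nat_lit 523) (nat_lit 1) (nat_lit 498) (nat_lit 1) (nat_lit 522) (nat_lit 1) (nat_lit 382) (nat_lit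 380) (nat_lit 378))))) (XT.nd (nat_lit 234) (nat_lit 0) (nat_lit 152) (XT.nd (nat_lit 78) (nat_lit 0) (nat_lit 76) (XT.lf (nat_lit 1900) (nat_lit 2563124870) (nat_lit 76) (nat_lit 688515656) (nat_lit 0) (nat_lit 688515656) (nat_lit 523) (nat_lit 1) (nat_lit 499) (nat_lit 1) (nat_lit 498) (nat_lit 1) (nat_lit 383) (nat_lit 380) (nat_lit 377)) (XT.nd (nat_lit 78) (nat_lit 0) (nat_lit 0) (XT.lf (nat_lit 1900) (nat_lit 1245630116) (nat_lit 0) (nat_lit 1410483039) (nat_lit 1824) (nat_lit 1245630116) (nat_lit 524) (nat_lit 1) (nat_lit 499) (nat_lit 1) (nat_lit 523) (nat_lit 1) (nat_lit 384) (nat_lit 380) (nat_lit 376)) (XT.lf (nat_lit 1900) (nat_lit 2411525214) (nat_lit 76) (nat_lit 726188196) (nat_lit 0) (nat_lit 726188196) (nat_lit 524) (nat_lit 1) (nat_lit 500) (nat_lit 1) (nat_lit 499) (nat_lit 1) (nat_lit 385) (nat_lit 380) (nat_lit 375)))) (XT.nd (nat_lit 78) (nat_lit 0) (nat_lit 0) (XT.lf (nat_lit 1900) (nat_lit 1158691630) (nat_lit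 0) (nat_lit 1509105530) (nat_lit 1824) (nat_lit 1158691630) (nat_lit 525) (nat_lit 1) (nat_lit 500) (nat_lit 1) (nat_lit 524) (nat_lit 1) (nat_lit 386) (nat_lit 380) (nat_lit 374)) (XT.nd (nat_lit 78) (nat_lit 0) (nat_lit 76) (XT.lf (nat_lit 1900) (nat_lit 2215158902) (nat_lit 76) (nat_lit 787227991) (nat_lit 0) (nat_lit 787227991) (nat_lit 525) (nat_lit 1) (nat_lit 501) (nat_lit 1) (nat_lit 500) (nat_lit 1) (nat_lit 387) (nat_lit 380) (nat_lit 373)) (XT.lf (nat_lit 1900) (nat_lit 1050134507) (nat_lit 0) (nat_lit 1652907336) (nat_lit 1824) (nat_lit 1050134507) (nat_lit 526) (nat_lit 1) (nat_lit 501) (nat_lit 1) (nat_lit 525) (nat_lit 1) (nat_lit 388) (nat_lit 380) (nat_lit 372)))))) (XT.nd (nat_lit 468) (nat_lit 0) (nat_lit 228) (XT.nd (nat_lit 234) (nat_lit 0) (nat_lit 152) (XT.nd (nat_lit 78) (nat_lit 0) (nat_lit 76) (XT.lf (nat_lit 1900) (nat_lit 1976757482) (nat_lit 76) (nat_lit 870240797) (nat_lit 0) (nat_lit 870240797) (nat_lit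 526) (nat_lit 1) (nat_lit 502) (nat_lit 1) (nat_lit 501) (nat_lit 1) (nat_lit 389) (nat_lit 380) (nat_lit 371)) (XT.nd (nat_lit 78) (nat_lit 0) (nat_lit 0) (XT.lf (nat_lit 1900) (nat_lit 921288317) (nat_lit 0) (nat_lit 1839173131) (nat_lit 1824) (nat_lit 921288317) (nat_lit 527) (nat_lit 1) (nat_lit 502) (nat_lit 1) (nat_lit 526) (nat_lit 1) (nat_lit 390) (nat_lit 380) (nat_lit 370)) (XT.lf (nat_lit 1900) (nat_lit 1698926960) (nat_lit 76) (nat_lit 973896055) (nat_lit 0) (nat_lit 973896055) (nat_lit 527) (nat_lit 1) (nat_lit 503) (nat_lit 1) (nat_lit 502) (nat_lit 1) (nat_lit 391) (nat_lit 380) (nat_lit 369)))) (XT.nd (nat_lit 78) (nat_lit 0) (nat_lit 0) (XT.lf (nat_lit 1900) (nat_lit 773421387) (nat_lit 0) (nat_lit 2065311868) (nat_lit 1824) (nat_lit 773421387) (nat_lit 528) (nat_lit 1) (nat_lit 503) (nat_lit 1) (nat_lit 527) (nat_lit 1) (nat_lit 392) (nat_lit 380) (nat_lit 368)) (XT.nd (nat_lit 78) (nat_lit 0) (nat_lit 76) (XT.lf (nat_lit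 1900) (nat_lit 1384153053) (nat_lit 76) (nat_lit 1096924235) (nat_lit 0) (nat_lit 1096924235) (nat_lit 528) (nat_lit 1) (nat_lit 504) (nat_lit 1) (nat_lit 503) (nat_lit 1) (nat_lit 393) (nat_lit 380) (nat_lit 367)) (XT.lf (nat_lit 1900) (nat_lit 607743375) (nat_lit 0) (nat_lit 2328851588) (nat_lit 1824) (nat_lit 607743375) (nat_lit 529) (nat_lit 1) (nat_lit 504) (nat_lit 1) (nat_lit 528) (nat_lit 1) (nat_lit 394) (nat_lit 380) (nat_lit 366))))) (XT.nd (nat_lit 234) (nat_lit 0) (nat_lit 152) (XT.nd (nat_lit 78) (nat_lit 0) (nat_lit 76) (XT.lf (nat_lit 1900) (nat_lit 1034806237) (nat_lit 76) (nat_lit 1238114279) (nat_lit 0) (nat_lit 1238114279) (nat_lit 529) (nat_lit 1) (nat_lit 505) (nat_lit 1) (nat_lit 504) (nat_lit 1) (nat_lit 395) (nat_lit 380) (nat_lit 365)) (XT.nd (nat_lit 78) (nat_lit 0) (nat_lit 0) (XT.lf (nat_lit 1900) (nat_lit 425407729) (nat_lit 0) (nat_lit 2627434431) (nat_lit 1824) (nat_lit 425407729) (nat_lit 530) (nat_lit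 1) (nat_lit 505) (nat_lit 1) (nat_lit 529) (nat_lit 1) (nat_lit 396) (nat_lit 380) (nat_lit 364)) (XT.lf (nat_lit 1900) (nat_lit 653146589) (nat_lit 76) (nat_lit 1396311150) (nat_lit 0) (nat_lit 1396311150) (nat_lit 530) (nat_lit 1) (nat_lit 506) (nat_lit 1) (nat_lit 505) (nat_lit 1) (nat_lit 397) (nat_lit 380) (nat_lit 363)))) (XT.nd (nat_lit 78) (nat_lit 0) (nat_lit 0) (XT.lf (nat_lit 1900) (nat_lit 227514053) (nat_lit 0) (nat_lit 2958811853) (nat_lit 1824) (nat_lit 227514053) (nat_lit 531) (nat_lit 1) (nat_lit 506) (nat_lit 1) (nat_lit 530) (nat_lit 1) (nat_lit 398) (nat_lit 380) (nat_lit 362)) (XT.nd (nat_lit 78) (nat_lit 0) (nat_lit 76) (XT.lf (nat_lit 1900) (nat_lit 241328431) (nat_lit 76) (nat_lit 1570413485) (nat_lit 0) (nat_lit 1570413485) (nat_lit 531) (nat_lit 1) (nat_lit 507) (nat_lit 1) (nat_lit 506) (nat_lit 1) (nat_lit 399) (nat_lit 380) (nat_lit 361)) (XT.lf (nat_lit 1900) (nat_lit 15110372) (nat_lit 0) (nat_lit 3320840028)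 (nat_lit 1824) (nat_lit 15110372) (nat_lit 532) (nat_lit 1) (nat_lit 507) (nat_lit 1) (nat_lit 531) (nat_lit 1) (nat_lit 400) (nat_lit 380) (nat_lit 360))))))))
noncomputable def ec17 : XT := (XT.nd (nat_lit 1872) (nat_lit 3420) (nat_lit 0) (XT.nd (nat_lit 936) (nat_lit 5776) (nat_lit 0) (XT.nd (nat_lit 468) (nat_lit 2660) (nat_lit 0) (XT.nd (nat_lit 234) (nat_lit 988) (nat_lit 0) (XT.nd (nat_lit 78) (nat_lit 0) (nat_lit 0) (XT.lf (nat_lit 1976) (nat_lit 1562065537) (nat_lit 0) (nat_lit 195990595) (nat_lit 1900) (nat_lit 1562065537) (nat_lit 508) (nat_lit 1) (nat_lit 482) (nat_lit 1) (nat_lit 507) (nat_lit 1) (nat_lit 401) (nat_lit 380) (nat_lit 359)) (XT.nd (nat_lit 78) (nat_lit 0) (nat_lit 76) (XT.lf (nat_lit 1976) (nat_lit 2870920587) (nat_lit 76) (nat_lit 209417812) (nat_lit 0) (nat_lit 209417812) (nat_lit 508) (nat_lit 1) (nat_lit 483) (nat_lit 1) (nat_lit 482) (nat_lit 1) (nat_lit 402) (nat_lit 380) (nat_lit 358)) (XT.lf (nat_lit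 1976) (nat_lit 1301831146) (nat_lit 0) (nat_lit 655951066) (nat_lit 1900) (nat_lit 1301831146) (nat_lit 509) (nat_lit 1) (nat_lit 483) (nat_lit 1) (nat_lit 508) (nat_lit 1) (nat_lit 403) (nat_lit 380) (nat_lit 357)))) (XT.nd (nat_lit 78) (nat_lit 1064) (nat_lit 0) (XT.lf (nat_lit 1976) (nat_lit 2337328887) (nat_lit 76) (nat_lit 446324017) (nat_lit 0) (nat_lit 446324017) (nat_lit 509) (nat_lit 1) (nat_lit 484) (nat_lit 1) (nat_lit 483) (nat_lit 1) (nat_lit 404) (nat_lit 380) (nat_lit 356)) (XT.nd (nat_lit 78) (nat_lit 1140) (nat_lit 0) (XT.lf (nat_lit 76) (nat_lit 1030369354) (nat_lit 0) (nat_lit 1139879376) (nat_lit 1900) (nat_lit 1030369354) (nat_lit 485) (nat_lit 1) (nat_lit 484) (nat_lit 1) (nat_lit 509) (nat_lit 1) (nat_lit 405) (nat_lit 380) (nat_lit 355)) (XT.lf (nat_lit 1216) (nat_lit 1782072658) (nat_lit 0) (nat_lit 694807603) (nat_lit 1140) (nat_lit 694807603) (nat_lit 485) (nat_lit 1) (nat_lit 469) (nat_lit 1) (nat_lit 484)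 (nat_lit 1) (nat_lit 406) (nat_lit 380) (nat_lit 354))))) (XT.nd (nat_lit 234) (nat_lit 1748) (nat_lit 0) (XT.nd (nat_lit 78) (nat_lit 912) (nat_lit 0) (XT.lf (nat_lit 76) (nat_lit 748534421) (nat_lit 0) (nat_lit 1646024655) (nat_lit 1216) (nat_lit 748534421) (nat_lit 470) (nat_lit 1) (nat_lit 469) (nat_lit 1) (nat_lit 485) (nat_lit 1) (nat_lit 407) (nat_lit 380) (nat_lit 353)) (XT.nd (nat_lit 78) (nat_lit 0) (nat_lit 0) (XT.lf (nat_lit 988) (nat_lit 1206824229) (nat_lit 0) (nat_lit 954011620) (nat_lit 912) (nat_lit 954011620) (nat_lit 470) (nat_lit 1) (nat_lit 457) (nat_lit 1) (nat_lit 469) (nat_lit 1) (nat_lit 408) (nat_lit 380) (nat_lit 352)) (XT.lf (nat_lit 76) (nat_lit 457139236) (nat_lit 0) (nat_lit 2172720103) (nat_lit 988) (nat_lit 457139236) (nat_lit 458) (nat_lit 1) (nat_lit 457) (nat_lit 1) (nat_lit 470) (nat_lit 1) (nat_lit 409) (nat_lit 380) (nat_lit 351)))) (XT.nd (nat_lit 78) (nat_lit 836) (nat_lit 0) (XT.lf (nat_lit 988)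 (nat_lit 613174695) (nat_lit 0) (nat_lit 1223120381) (nat_lit 912) (nat_lit 1223120381) (nat_lit 458) (nat_lit 1) (nat_lit 445) (nat_lit 1) (nat_lit 457) (nat_lit 1) (nat_lit 410) (nat_lit 380) (nat_lit 350)) (XT.nd (nat_lit 78) (nat_lit 836) (nat_lit 0) (XT.lf (nat_lit 76) (nat_lit 156957077) (nat_lit 0) (nat_lit 2718379410) (nat_lit 988) (nat_lit 156957077) (nat_lit 446) (nat_lit 1) (nat_lit 445) (nat_lit 1) (nat_lit 458) (nat_lit 1) (nat_lit 411) (nat_lit 380) (nat_lit 349)) (XT.lf (nat_lit 912) (nat_lit 2637392) (nat_lit 0) (nat_lit 1501357706) (nat_lit 836) (nat_lit 1501357706) (nat_lit 446) (nat_lit 1) (nat_lit 434) (nat_lit 1) (nat_lit 445) (nat_lit 1) (nat_lit 412) (nat_lit 380) (nat_lit 348)))))) (XT.nd (nat_lit 468) (nat_lit 3116) (nat_lit 0) (XT.nd (nat_lit 234) (nat_lit 836) (nat_lit 0) (XT.nd (nat_lit 78) (nat_lit 836) (nat_lit 0) (XT.lf (nat_lit 988) (nat_lit 2678298226) (nat_lit 0) (nat_lit 150281443) (nat_lit 912) (nat_lit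 150281443) (nat_lit 434) (nat_lit 1) (nat_lit 421) (nat_lit 1) (nat_lit 433) (nat_lit 1) (nat_lit 413) (nat_lit 380) (nat_lit 347)) (XT.nd (nat_lit 78) (nat_lit 836) (nat_lit 0) (XT.lf (nat_lit 76) (nat_lit 1168683652) (nat_lit 0) (nat_lit 615173439) (nat_lit 988) (nat_lit 1168683652) (nat_lit 422) (nat_lit 1) (nat_lit 421) (nat_lit 1) (nat_lit 434) (nat_lit 1) (nat_lit 414) (nat_lit 380) (nat_lit 346)) (XT.lf (nat_lit 912) (nat_lit 1999074110) (nat_lit 0) (nat_lit 463791497) (nat_lit 836) (nat_lit 463791497) (nat_lit 422) (nat_lit 1) (nat_lit 410) (nat_lit 1) (nat_lit 421) (nat_lit 1) (nat_lit 415) (nat_lit 380) (nat_lit 345)))) (XT.nd (nat_lit 78) (nat_lit 836) (nat_lit 0) (XT.lf (nat_lit 76) (nat_lit 827087607) (nat_lit 0) (nat_lit 1246846188) (nat_lit 912) (nat_lit 827087607) (nat_lit 411) (nat_lit 1) (nat_lit 410) (nat_lit 1) (nat_lit 422) (nat_lit 1) (nat_lit 416) (nat_lit 380) (nat_lit 344)) (XT.nd (nat_lit 78) (nat_lit 0) (nat_lit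 0) (XT.lf (nat_lit 912) (nat_lit 1307836106) (nat_lit 0) (nat_lit 783945706) (nat_lit 836) (nat_lit 783945706) (nat_lit 411) (nat_lit 1) (nat_lit 399) (nat_lit 1) (nat_lit 410) (nat_lit 1) (nat_lit 417) (nat_lit 380) (nat_lit 343)) (XT.lf (nat_lit 76) (nat_lit 479813397) (nat_lit 0) (nat_lit 1891132972) (nat_lit 912) (nat_lit 479813397) (nat_lit 400) (nat_lit 1) (nat_lit 399) (nat_lit 1) (nat_lit 411) (nat_lit 1) (nat_lit 418) (nat_lit 380) (nat_lit 342))))) (XT.nd (nat_lit 234) (nat_lit 1520) (nat_lit 0) (XT.nd (nat_lit 78) (nat_lit 836) (nat_lit 0) (XT.lf (nat_lit 836) (nat_lit 605803452) (nat_lit 0) (nat_lit 1110117085) (nat_lit 760) (nat_lit 1110117085) (nat_lit 400) (nat_lit 1) (nat_lit 389) (nat_lit 1) (nat_lit 399) (nat_lit 1) (nat_lit 419) (nat_lit 380) (nat_lit 341)) (XT.nd (nat_lit 78) (nat_lit 836) (nat_lit 0) (XT.lf (nat_lit 76) (nat_lit 127452939) (nat_lit 0) (nat_lit 2546815684) (nat_lit 836) (nat_lit 127452939) (nat_lit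 390) (nat_lit 1) (nat_lit 389) (nat_lit 1) (nat_lit 400) (nat_lit 1) (nat_lit 420) (nat_lit 380) (nat_lit 340)) (XT.lf (nat_lit 76) (nat_lit 1336530874) (nat_lit 0) (nat_lit 104478254) (nat_lit 836) (nat_lit 1336530874) (nat_lit 379) (nat_lit 1) (nat_lit 378) (nat_lit 1) (nat_lit 389) (nat_lit 1) (nat_lit 421) (nat_lit 380) (nat_lit 339)))) (XT.nd (nat_lit 78) (nat_lit 760) (nat_lit 0) (XT.lf (nat_lit 836) (nat_lit 2297908605) (nat_lit 0) (nat_lit 227922695) (nat_lit 760) (nat_lit 227922695) (nat_lit 379) (nat_lit 1) (nat_lit 368) (nat_lit 1) (nat_lit 378) (nat_lit 1) (nat_lit 422) (nat_lit 380) (nat_lit 338)) (XT.nd (nat_lit 78) (nat_lit 760) (nat_lit 0) (XT.lf (nat_lit 76) (nat_lit 957446733) (nat_lit 0) (nat_lit 815242521) (nat_lit 836) (nat_lit 957446733) (nat_lit 369) (nat_lit 1) (nat_lit 368) (nat_lit 1) (nat_lit 379) (nat_lit 1) (nat_lit 423) (nat_lit 380) (nat_lit 337)) (XT.lf (nat_lit 836) (nat_lit 1534024992) (nat_lit 0) (nat_lit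 586425461) (nat_lit 760) (nat_lit 586425461) (nat_lit 369) (nat_lit 1) (nat_lit 358) (nat_lit 1) (nat_lit 368) (nat_lit 1) (nat_lit 424) (nat_lit 380) (nat_lit 336))))))) (XT.nd (nat_lit 55848) (nat_lit 0) (nat_lit 14060) (XT.nd (nat_lit 468) (nat_lit 1292) (nat_lit 0) (XT.nd (nat_lit 234) (nat_lit 1444) (nat_lit 0) (XT.nd (nat_lit 78) (nat_lit 684) (nat_lit 0) (XT.lf (nat_lit 76) (nat_lit 575232710) (nat_lit 0) (nat_lit 1533407300) (nat_lit 836) (nat_lit 575232710) (nat_lit 359) (nat_lit 1) (nat_lit 358) (nat_lit 1) (nat_lit 369) (nat_lit 1) (nat_lit 425) (nat_lit 380) (nat_lit 335)) (XT.nd (nat_lit 78) (nat_lit 0) (nat_lit 0) (XT.lf (nat_lit 760) (nat_lit 764338419) (nat_lit 0) (nat_lit 948392172) (nat_lit 684) (nat_lit 948392172) (nat_lit 359) (nat_lit 1) (nat_lit 349) (nat_lit 1) (nat_lit 358) (nat_lit 1) (nat_lit 426) (nat_lit 380) (nat_lit 334)) (XT.lf (nat_lit 76) (nat_lit 190360345) (nat_lit 0) (nat_lit 2257998940) (nat_lit 760)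 (nat_lit 190360345) (nat_lit 350) (nat_lit 1) (nat_lit 349) (nat_lit 1) (nat_lit 359) (nat_lit 1) (nat_lit 427) (nat_lit 380) (nat_lit 333)))) (XT.nd (nat_lit 78) (nat_lit 684) (nat_lit 0) (XT.lf (nat_lit 76) (nat_lit 1303183483) (nat_lit 0) (nat_lit 10096202) (nat_lit 760) (nat_lit 1303183483) (nat_lit 340) (nat_lit 1) (nat_lit 339) (nat_lit 1) (nat_lit 349) (nat_lit 1) (nat_lit 428) (nat_lit 380) (nat_lit 332)) (XT.nd (nat_lit 78) (nat_lit 0) (nat_lit 0) (XT.lf (nat_lit 760) (nat_lit 2203685031) (nat_lit 0) (nat_lit 195429755) (nat_lit 684) (nat_lit 195429755) (nat_lit 340) (nat_lit 1) (nat_lit 330) (nat_lit 1) (nat_lit 339) (nat_lit 1) (nat_lit 429) (nat_lit 380) (nat_lit 331)) (XT.lf (nat_lit 76) (nat_lit 897152439) (nat_lit 0) (nat_lit 778464658) (nat_lit 760) (nat_lit 897152439) (nat_lit 331) (nat_lit 1) (nat_lit 330) (nat_lit 1) (nat_lit 340) (nat_lit 1) (nat_lit 430) (nat_lit 380) (nat_lit 330))))) (XT.nd (nat_lit 234) (nat_lit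 0) (nat_lit 0) (XT.nd (nat_lit 78) (nat_lit 608) (nat_lit 0) (XT.lf (nat_lit 760) (nat_lit 1387830312) (nat_lit 0) (nat_lit 581745380) (nat_lit 684) (nat_lit 581745380) (nat_lit 331) (nat_lit 1) (nat_lit 321) (nat_lit 1) (nat_lit 330) (nat_lit 1) (nat_lit 431) (nat_lit 380) (nat_lit 329)) (XT.nd (nat_lit 78) (nat_lit 608) (nat_lit 0) (XT.lf (nat_lit 76) (nat_lit 490067452) (nat_lit 0) (nat_lit 1549978048) (nat_lit 760) (nat_lit 490067452) (nat_lit 322) (nat_lit 1) (nat_lit 321) (nat_lit 1) (nat_lit 331) (nat_lit 1) (nat_lit 432) (nat_lit 380) (nat_lit 328)) (XT.lf (nat_lit 684) (nat_lit 570236300) (nat_lit 0) (nat_lit 969442215) (nat_lit 608) (nat_lit 969442215) (nat_lit 322) (nat_lit 1) (nat_lit 313) (nat_lit 1) (nat_lit 321) (nat_lit 1) (nat_lit 433) (nat_lit 380) (nat_lit 327)))) (XT.nd (nat_lit 54990) (nat_lit 0) (nat_lit 13984) (XT.lf (nat_lit 76) (nat_lit 82299262) (nat_lit 0) (nat_lit 2323867550) (nat_lit 684) (nat_lit 82299262)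 (nat_lit 314) (nat_lit 1) (nat_lit 313) (nat_lit 1) (nat_lit 322) (nat_lit 1) (nat_lit 434) (nat_lit 380) (nat_lit 326)) (XT.nd (nat_lit 78) (nat_lit 0) (nat_lit 0) (XT.lf (nat_lit 1900) (nat_lit 687995388) (nat_lit 0) (nat_lit 693748629) (nat_lit 1900) (nat_lit 687995388) (nat_lit 522) (nat_lit 1) (nat_lit 497) (nat_lit 0) (nat_lit 522) (nat_lit 0) (nat_lit 378) (nat_lit 381) (nat_lit 381)) (XT.lf (nat_lit 1900) (nat_lit 2720437206) (nat_lit 76) (nat_lit 689184494) (nat_lit 0) (nat_lit 689184494) (nat_lit 522) (nat_lit 1) (nat_lit 498) (nat_lit 1) (nat_lit 497) (nat_lit 0) (nat_lit 379) (nat_lit 381) (nat_lit 380)))))) (XT.nd (nat_lit 468) (nat_lit 0) (nat_lit 228) (XT.nd (nat_lit 234) (nat_lit 0) (nat_lit 76) (XT.nd (nat_lit 78) (nat_lit 0) (nat_lit 0) (XT.lf (nat_lit 1900) (nat_lit 1335747617) (nat_lit 0) (nat_lit 1387082585) (nat_lit 1824) (nat_lit 1335747617) (nat_lit 523) (nat_lit 1) (nat_lit 498) (nat_lit 1) (nat_lit 522) (nat_lit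 1) (nat_lit 380) (nat_lit 381) (nat_lit 379)) (XT.nd (nat_lit 78) (nat_lit 0) (nat_lit 76) (XT.lf (nat_lit 1900) (nat_lit 2614387367) (nat_lit 76) (nat_lit 702285969) (nat_lit 0) (nat_lit 702285969) (nat_lit 523) (nat_lit 1) (nat_lit 499) (nat_lit 1) (nat_lit 498) (nat_lit 1) (nat_lit 381) (nat_lit 381) (nat_lit 378)) (XT.lf (nat_lit 1900) (nat_lit 1270542719) (nat_lit 0) (nat_lit 1438692700) (nat_lit 1824) (nat_lit 1270542719) (nat_lit 524) (nat_lit 1) (nat_lit 499) (nat_lit 1) (nat_lit 523) (nat_lit 1) (nat_lit 382) (nat_lit 381) (nat_lit 377)))) (XT.nd (nat_lit 78) (nat_lit 0) (nat_lit 76) (XT.lf (nat_lit 1900) (nat_lit 2459755718) (nat_lit 76) (nat_lit 740711960) (nat_lit 0) (nat_lit 740711960) (nat_lit 524) (nat_lit 1) (nat_lit 500) (nat_lit 1) (nat_lit 499) (nat_lit 1) (nat_lit 383) (nat_lit 381) (nat_lit 376)) (XT.nd (nat_lit 78) (nat_lit 0) (nat_lit 0) (XT.lf (nat_lit 1900) (nat_lit 1181865462) (nat_lit 0) (nat_lit 1539287640)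 (nat_lit 1824) (nat_lit 1181865462) (nat_lit 525) (nat_lit 1) (nat_lit 500) (nat_lit 1) (nat_lit 524) (nat_lit 1) (nat_lit 384) (nat_lit 381) (nat_lit 375)) (XT.lf (nat_lit 1900) (nat_lit 2259462080) (nat_lit 76) (nat_lit 802972551) (nat_lit 0) (nat_lit 802972551) (nat_lit 525) (nat_lit 1) (nat_lit 501) (nat_lit 1) (nat_lit 500) (nat_lit 1) (nat_lit 385) (nat_lit 381) (nat_lit 374))))) (XT.nd (nat_lit 234) (nat_lit 0) (nat_lit 76) (XT.nd (nat_lit 78) (nat_lit 0) (nat_lit 0) (XT.lf (nat_lit 1900) (nat_lit 1071137198) (nat_lit 0) (nat_lit 1685965483) (nat_lit 1824) (nat_lit 1071137198) (nat_lit 526) (nat_lit 1) (nat_lit 501) (nat_lit 1) (nat_lit 525) (nat_lit 1) (nat_lit 386) (nat_lit 381) (nat_lit 373)) (XT.nd (nat_lit 78) (nat_lit 0) (nat_lit 76) (XT.lf (nat_lit 1900) (nat_lit 2016292632) (nat_lit 76) (nat_lit 887645613) (nat_lit 0) (nat_lit 887645613) (nat_lit 526) (nat_lit 1) (nat_lit 502) (nat_lit 1) (nat_lit 501) (nat_lit 1) (nat_lit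 387) (nat_lit 381) (nat_lit 372)) (XT.lf (nat_lit 1900) (nat_lit 939714083) (nat_lit 0) (nat_lit 1875956593) (nat_lit 1824) (nat_lit 939714083) (nat_lit 527) (nat_lit 1) (nat_lit 502) (nat_lit 1) (nat_lit 526) (nat_lit 1) (nat_lit 388) (nat_lit 381) (nat_lit 371)))) (XT.nd (nat_lit 156) (nat_lit 0) (nat_lit 76) (XT.nd (nat_lit 78) (nat_lit 0) (nat_lit 76) (XT.lf (nat_lit 1900) (nat_lit 1732905499) (nat_lit 76) (nat_lit 993373976) (nat_lit 0) (nat_lit 993373976) (nat_lit 527) (nat_lit 1) (nat_lit 503) (nat_lit 1) (nat_lit 502) (nat_lit 1) (nat_lit 389) (nat_lit 381) (nat_lit 370)) (XT.lf (nat_lit 1900) (nat_lit 788889814) (nat_lit 0) (nat_lit 2106618105) (nat_lit 1824) (nat_lit 788889814) (nat_lit 528) (nat_lit 1) (nat_lit 503) (nat_lit 1) (nat_lit 527) (nat_lit 1) (nat_lit 390) (nat_lit 381) (nat_lit 369))) (XT.nd (nat_lit 78) (nat_lit 0) (nat_lit 76) (XT.lf (nat_lit 1900) (nat_lit 1411836114) (nat_lit 76) (nat_lit 1118862720) (nat_lit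 0) (nat_lit 1118862720) (nat_lit 528) (nat_lit 1) (nat_lit 504) (nat_lit 1) (nat_lit 503) (nat_lit 1) (nat_lit 391) (nat_lit 381) (nat_lit 368)) (XT.lf (nat_lit 1900) (nat_lit 619898242) (nat_lit 0) (nat_lit 2375428620) (nat_lit 1824) (nat_lit 619898242) (nat_lit 529) (nat_lit 1) (nat_lit 504) (nat_lit 1) (nat_lit 528) (nat_lit 1) (nat_lit 392) (nat_lit 381) (nat_lit 367))))))))
noncomputable def ec18 : XT := (XT.nd (nat_lit 1872) (nat_lit 7828) (nat_lit 0) (XT.nd (nat_lit 936) (nat_lit 5320) (nat_lit 0) (XT.nd (nat_lit 468) (nat_lit 2660) (nat_lit 0) (XT.nd (nat_lit 234) (nat_lit 0) (nat_lit 152) (XT.nd (nat_lit 78) (nat_lit 0) (nat_lit 76) (XT.lf (nat_lit 1900) (nat_lit 1055502362) (nat_lit 76) (nat_lit 1262876564) (nat_lit 0) (nat_lit 1262876564) (nat_lit 529) (nat_lit 1) (nat_lit 505) (nat_lit 1) (nat_lit 504) (nat_lit 1) (nat_lit 393) (nat_lit 381) (nat_lit 366)) (XT.nd (nat_lit 78) (nat_lit 0) (nat_lit 0) (XT.lf (nat_lit 1900) (nat_lit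 433915884) (nat_lit 0) (nat_lit 2679983120) (nat_lit 1824) (nat_lit 433915884) (nat_lit 530) (nat_lit 1) (nat_lit 505) (nat_lit 1) (nat_lit 529) (nat_lit 1) (nat_lit 394) (nat_lit 381) (nat_lit 365)) (XT.lf (nat_lit 1900) (nat_lit 666209521) (nat_lit 76) (nat_lit 1424237373) (nat_lit 0) (nat_lit 1424237373) (nat_lit 530) (nat_lit 1) (nat_lit 506) (nat_lit 1) (nat_lit 505) (nat_lit 1) (nat_lit 395) (nat_lit 381) (nat_lit 364)))) (XT.nd (nat_lit 78) (nat_lit 0) (nat_lit 0) (XT.lf (nat_lit 1900) (nat_lit 232064334) (nat_lit 0) (nat_lit 3017988090) (nat_lit 1824) (nat_lit 232064334) (nat_lit 531) (nat_lit 1) (nat_lit 506) (nat_lit 1) (nat_lit 530) (nat_lit 1) (nat_lit 396) (nat_lit 381) (nat_lit 363)) (XT.nd (nat_lit 78) (nat_lit 0) (nat_lit 76) (XT.lf (nat_lit 1900) (nat_lit 246155000) (nat_lit 76) (nat_lit 1601821755) (nat_lit 0) (nat_lit 1601821755) (nat_lit 531) (nat_lit 1) (nat_lit 507) (nat_lit 1) (nat_lit 506) (nat_lit 1) (nat_lit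 397) (nat_lit 381) (nat_lit 362)) (XT.lf (nat_lit 1900) (nat_lit 15412579) (nat_lit 0) (nat_lit 3387256829) (nat_lit 1824) (nat_lit 15412579) (nat_lit 532) (nat_lit 1) (nat_lit 507) (nat_lit 1) (nat_lit 531) (nat_lit 1) (nat_lit 398) (nat_lit 381) (nat_lit 361))))) (XT.nd (nat_lit 234) (nat_lit 988) (nat_lit 0) (XT.nd (nat_lit 78) (nat_lit 0) (nat_lit 0) (XT.lf (nat_lit 1976) (nat_lit 1593306848) (nat_lit 0) (nat_lit 199910406) (nat_lit 1900) (nat_lit 1593306848) (nat_lit 508) (nat_lit 1) (nat_lit 482) (nat_lit 1) (nat_lit 507) (nat_lit 1) (nat_lit 399) (nat_lit 381) (nat_lit 360)) (XT.nd (nat_lit 78) (nat_lit 0) (nat_lit 76) (XT.lf (nat_lit 1976) (nat_lit 2928338999) (nat_lit 76) (nat_lit 213606169) (nat_lit 0) (nat_lit 213606169) (nat_lit 508) (nat_lit 1) (nat_lit 483) (nat_lit 1) (nat_lit 482) (nat_lit 1) (nat_lit 400) (nat_lit 381) (nat_lit 359)) (XT.lf (nat_lit 1976) (nat_lit 1327867768) (nat_lit 0) (nat_lit 669070087) (nat_lit 1900)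 (nat_lit 1327867768) (nat_lit 509) (nat_lit 1) (nat_lit 483) (nat_lit 1) (nat_lit 508) (nat_lit 1) (nat_lit 401) (nat_lit 381) (nat_lit 358)))) (XT.nd (nat_lit 78) (nat_lit 1064) (nat_lit 0) (XT.lf (nat_lit 1976) (nat_lit 2384075465) (nat_lit 76) (nat_lit 455250498) (nat_lit 0) (nat_lit 455250498) (nat_lit 509) (nat_lit 1) (nat_lit 484) (nat_lit 1) (nat_lit 483) (nat_lit 1) (nat_lit 402) (nat_lit 381) (nat_lit 357)) (XT.nd (nat_lit 78) (nat_lit 1140) (nat_lit 0) (XT.lf (nat_lit 76) (nat_lit 1050976741) (nat_lit 0) (nat_lit 1162676964) (nat_lit 1900) (nat_lit 1050976741) (nat_lit 485) (nat_lit 1) (nat_lit 484) (nat_lit 1) (nat_lit 509) (nat_lit 1) (nat_lit 403) (nat_lit 381) (nat_lit 356)) (XT.lf (nat_lit 1216) (nat_lit 1817714111) (nat_lit 0) (nat_lit 708703756) (nat_lit 1140) (nat_lit 708703756) (nat_lit 485) (nat_lit 1) (nat_lit 469) (nat_lit 1) (nat_lit 484) (nat_lit 1) (nat_lit 404) (nat_lit 381) (nat_lit 355)))))) (XT.nd (nat_lit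 468) (nat_lit 2660) (nat_lit 0) (XT.nd (nat_lit 234) (nat_lit 1748) (nat_lit 0) (XT.nd (nat_lit 78) (nat_lit 912) (nat_lit 0) (XT.lf (nat_lit 76) (nat_lit 763505110) (nat_lit 0) (nat_lit 1678945149) (nat_lit 1216) (nat_lit 763505110) (nat_lit 470) (nat_lit 1) (nat_lit 469) (nat_lit 1) (nat_lit 485) (nat_lit 1) (nat_lit 405) (nat_lit 381) (nat_lit 354)) (XT.nd (nat_lit 78) (nat_lit 0) (nat_lit 0) (XT.lf (nat_lit 988) (nat_lit 1230960714) (nat_lit 0) (nat_lit 973091853) (nat_lit 912) (nat_lit 973091853) (nat_lit 470) (nat_lit 1) (nat_lit 457) (nat_lit 1) (nat_lit 469) (nat_lit 1) (nat_lit 406) (nat_lit 381) (nat_lit 353)) (XT.lf (nat_lit 76) (nat_lit 466282021) (nat_lit 0) (nat_lit 2216174505) (nat_lit 988) (nat_lit 466282021) (nat_lit 458) (nat_lit 1) (nat_lit 457) (nat_lit 1) (nat_lit 470) (nat_lit 1) (nat_lit 407) (nat_lit 381) (nat_lit 352)))) (XT.nd (nat_lit 78) (nat_lit 836) (nat_lit 0) (XT.lf (nat_lit 988) (nat_lit 625438189) (nat_lit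 0) (nat_lit 1247582789) (nat_lit 912) (nat_lit 1247582789) (nat_lit 458) (nat_lit 1) (nat_lit 445) (nat_lit 1) (nat_lit 457) (nat_lit 1) (nat_lit 408) (nat_lit 381) (nat_lit 351)) (XT.nd (nat_lit 78) (nat_lit 836) (nat_lit 0) (XT.lf (nat_lit 76) (nat_lit 160096219) (nat_lit 0) (nat_lit 2772746998) (nat_lit 988) (nat_lit 160096219) (nat_lit 446) (nat_lit 1) (nat_lit 445) (nat_lit 1) (nat_lit 458) (nat_lit 1) (nat_lit 409) (nat_lit 381) (nat_lit 350)) (XT.lf (nat_lit 912) (nat_lit 2690140) (nat_lit 0) (nat_lit 1531384860) (nat_lit 836) (nat_lit 1531384860) (nat_lit 446) (nat_lit 1) (nat_lit 434) (nat_lit 1) (nat_lit 445) (nat_lit 1) (nat_lit 410) (nat_lit 381) (nat_lit 349))))) (XT.nd (nat_lit 234) (nat_lit 836) (nat_lit 0) (XT.nd (nat_lit 78) (nat_lit 836) (nat_lit 0) (XT.lf (nat_lit 988) (nat_lit 2731864191) (nat_lit 0) (nat_lit 153287072) (nat_lit 912) (nat_lit 153287072) (nat_lit 434) (nat_lit 1) (nat_lit 421) (nat_lit 1) (nat_lit 433)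 (nat_lit 1) (nat_lit 411) (nat_lit 381) (nat_lit 348)) (XT.nd (nat_lit 78) (nat_lit 836) (nat_lit 0) (XT.lf (nat_lit 76) (nat_lit 1192057325) (nat_lit 0) (nat_lit 627476908) (nat_lit 988) (nat_lit 1192057325) (nat_lit 422) (nat_lit 1) (nat_lit 421) (nat_lit 1) (nat_lit 434) (nat_lit 1) (nat_lit 412) (nat_lit 381) (nat_lit 347)) (XT.lf (nat_lit 912) (nat_lit 2039055592) (nat_lit 0) (nat_lit 473067327) (nat_lit 836) (nat_lit 473067327) (nat_lit 422) (nat_lit 1) (nat_lit 410) (nat_lit 1) (nat_lit 421) (nat_lit 1) (nat_lit 413) (nat_lit 381) (nat_lit 346)))) (XT.nd (nat_lit 78) (nat_lit 836) (nat_lit 0) (XT.lf (nat_lit 76) (nat_lit 843629359) (nat_lit 0) (nat_lit 1271783112) (nat_lit 912) (nat_lit 843629359) (nat_lit 411) (nat_lit 1) (nat_lit 410) (nat_lit 1) (nat_lit 422) (nat_lit 1) (nat_lit 414) (nat_lit 381) (nat_lit 345)) (XT.nd (nat_lit 78) (nat_lit 0) (nat_lit 0) (XT.lf (nat_lit 912) (nat_lit 1333992828) (nat_lit 0) (nat_lit 799624620)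 (nat_lit 836) (nat_lit 799624620) (nat_lit 411) (nat_lit 1) (nat_lit 399) (nat_lit 1) (nat_lit 410) (nat_lit 1) (nat_lit 415) (nat_lit 381) (nat_lit 344)) (XT.lf (nat_lit 76) (nat_lit 489409665) (nat_lit 0) (nat_lit 1928955631) (nat_lit 912) (nat_lit 489409665) (nat_lit 400) (nat_lit 1) (nat_lit 399) (nat_lit 1) (nat_lit 411) (nat_lit 1) (nat_lit 416) (nat_lit 381) (nat_lit 343))))))) (XT.nd (nat_lit 936) (nat_lit 2584) (nat_lit 0) (XT.nd (nat_lit 468) (nat_lit 2128) (nat_lit 0) (XT.nd (nat_lit 234) (nat_lit 1520) (nat_lit 0) (XT.nd (nat_lit 78) (nat_lit 836) (nat_lit 0) (XT.lf (nat_lit 836) (nat_lit 617919521) (nat_lit 0) (nat_lit 1132319427) (nat_lit 760) (nat_lit 1132319427) (nat_lit 400) (nat_lit 1) (nat_lit 389) (nat_lit 1) (nat_lit 399) (nat_lit 1) (nat_lit 417) (nat_lit 381) (nat_lit 342)) (XT.nd (nat_lit 78) (nat_lit 836) (nat_lit 0) (XT.lf (nat_lit 76) (nat_lit 130001998) (nat_lit 0) (nat_lit 2597751998) (nat_lit 836) (nat_lit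 130001998) (nat_lit 390) (nat_lit 1) (nat_lit 389) (nat_lit 1) (nat_lit 400) (nat_lit 1) (nat_lit 418) (nat_lit 381) (nat_lit 341)) (XT.lf (nat_lit 76) (nat_lit 1363261492) (nat_lit 0) (nat_lit 106567819) (nat_lit 836) (nat_lit 1363261492) (nat_lit 379) (nat_lit 1) (nat_lit 378) (nat_lit 1) (nat_lit 389) (nat_lit 1) (nat_lit 419) (nat_lit 381) (nat_lit 340)))) (XT.nd (nat_lit 78) (nat_lit 760) (nat_lit 0) (XT.lf (nat_lit 836) (nat_lit 2343866777) (nat_lit 0) (nat_lit 232481149) (nat_lit 760) (nat_lit 232481149) (nat_lit 379) (nat_lit 1) (nat_lit 368) (nat_lit 1) (nat_lit 378) (nat_lit 1) (nat_lit 420) (nat_lit 381) (nat_lit 339)) (XT.nd (nat_lit 78) (nat_lit 760) (nat_lit 0) (XT.lf (nat_lit 76) (nat_lit 976595668) (nat_lit 0) (nat_lit 831547371) (nat_lit 836) (nat_lit 976595668) (nat_lit 369) (nat_lit 1) (nat_lit 368) (nat_lit 1) (nat_lit 379) (nat_lit 1) (nat_lit 421) (nat_lit 381) (nat_lit 338)) (XT.lf (nat_lit 836) (nat_lit 1564705492)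 (nat_lit 0) (nat_lit 598153970) (nat_lit 760) (nat_lit 598153970) (nat_lit 369) (nat_lit 1) (nat_lit 358) (nat_lit 1) (nat_lit 368) (nat_lit 1) (nat_lit 422) (nat_lit 381) (nat_lit 337))))) (XT.nd (nat_lit 234) (nat_lit 1444) (nat_lit 0) (XT.nd (nat_lit 78) (nat_lit 684) (nat_lit 0) (XT.lf (nat_lit 76) (nat_lit 586737364) (nat_lit 0) (nat_lit 1564075446) (nat_lit 836) (nat_lit 586737364) (nat_lit 359) (nat_lit 1) (nat_lit 358) (nat_lit 1) (nat_lit 369) (nat_lit 1) (nat_lit 423) (nat_lit 381) (nat_lit 336)) (XT.nd (nat_lit 78) (nat_lit 0) (nat_lit 0) (XT.lf (nat_lit 760) (nat_lit 779625187) (nat_lit 0) (nat_lit 967360015) (nat_lit 684) (nat_lit 967360015) (nat_lit 359) (nat_lit 1) (nat_lit 349) (nat_lit 1) (nat_lit 358) (nat_lit 1) (nat_lit 424) (nat_lit 381) (nat_lit 335)) (XT.lf (nat_lit 76) (nat_lit 194167552) (nat_lit 0) (nat_lit 2303158919) (nat_lit 760) (nat_lit 194167552) (nat_lit 350) (nat_lit 1) (nat_lit 349) (nat_lit 1) (nat_lit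 359) (nat_lit 1) (nat_lit 425) (nat_lit 381) (nat_lit 334)))) (XT.nd (nat_lit 78) (nat_lit 684) (nat_lit 0) (XT.lf (nat_lit 76) (nat_lit 1329247153) (nat_lit 0) (nat_lit 10298126) (nat_lit 760) (nat_lit 1329247153) (nat_lit 340) (nat_lit 1) (nat_lit 339) (nat_lit 1) (nat_lit 349) (nat_lit 1) (nat_lit 426) (nat_lit 381) (nat_lit 333)) (XT.nd (nat_lit 78) (nat_lit 0) (nat_lit 0) (XT.lf (nat_lit 760) (nat_lit 2247758732) (nat_lit 0) (nat_lit 199338351) (nat_lit 684) (nat_lit 199338351) (nat_lit 340) (nat_lit 1) (nat_lit 330) (nat_lit 1) (nat_lit 339) (nat_lit 1) (nat_lit 427) (nat_lit 381) (nat_lit 332)) (XT.lf (nat_lit 76) (nat_lit 915095488) (nat_lit 0) (nat_lit 794033952) (nat_lit 760) (nat_lit 915095488) (nat_lit 331) (nat_lit 1) (nat_lit 330) (nat_lit 1) (nat_lit 340) (nat_lit 1) (nat_lit 428) (nat_lit 381) (nat_lit 331)))))) (XT.nd (nat_lit 55224) (nat_lit 0) (nat_lit 15276) (XT.nd (nat_lit 234) (nat_lit 1292) (nat_lit 0) (XT.nd (nat_lit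 78) (nat_lit 608) (nat_lit 0) (XT.lf (nat_lit 760) (nat_lit 1415586918) (nat_lit 0) (nat_lit 593380288) (nat_lit 684) (nat_lit 593380288) (nat_lit 331) (nat_lit 1) (nat_lit 321) (nat_lit 1) (nat_lit 330) (nat_lit 1) (nat_lit 429) (nat_lit 381) (nat_lit 330)) (XT.nd (nat_lit 78) (nat_lit 608) (nat_lit 0) (XT.lf (nat_lit 76) (nat_lit 499868801) (nat_lit 0) (nat_lit 1580977609) (nat_lit 760) (nat_lit 499868801) (nat_lit 322) (nat_lit 1) (nat_lit 321) (nat_lit 1) (nat_lit 331) (nat_lit 1) (nat_lit 430) (nat_lit 381) (nat_lit 329)) (XT.lf (nat_lit 684) (nat_lit 581641026) (nat_lit 0) (nat_lit 988831059) (nat_lit 608) (nat_lit 988831059) (nat_lit 322) (nat_lit 1) (nat_lit 313) (nat_lit 1) (nat_lit 321) (nat_lit 1) (nat_lit 431) (nat_lit 381) (nat_lit 328)))) (XT.nd (nat_lit 78) (nat_lit 1292) (nat_lit 0) (XT.lf (nat_lit 76) (nat_lit 83945247) (nat_lit 0) (nat_lit 2370344901) (nat_lit 684) (nat_lit 83945247) (nat_lit 314) (nat_lit 1) (nat_lit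 313) (nat_lit 1) (nat_lit 322) (nat_lit 1) (nat_lit 432) (nat_lit 381) (nat_lit 327)) (XT.nd (nat_lit 78) (nat_lit 608) (nat_lit 0) (XT.lf (nat_lit 76) (nat_lit 1133611518) (nat_lit 0) (nat_lit 250019033) (nat_lit 684) (nat_lit 1133611518) (nat_lit 305) (nat_lit 1) (nat_lit 304) (nat_lit 1) (nat_lit 313) (nat_lit 1) (nat_lit 433) (nat_lit 381) (nat_lit 326)) (XT.lf (nat_lit 684) (nat_lit 1836321253) (nat_lit 0) (nat_lit 330131991) (nat_lit 608) (nat_lit 330131991) (nat_lit 305) (nat_lit 1) (nat_lit 296) (nat_lit 1) (nat_lit 304) (nat_lit 1) (nat_lit 434) (nat_lit 381) (nat_lit 325))))) (XT.nd (nat_lit 234) (nat_lit 0) (nat_lit 76) (XT.nd (nat_lit 78) (nat_lit 0) (nat_lit 0) (XT.lf (nat_lit 1900) (nat_lit 701755296) (nat_lit 0) (nat_lit 707623602) (nat_lit 1900) (nat_lit 701755296) (nat_lit 522) (nat_lit 1) (nat_lit 497) (nat_lit 0) (nat_lit 522) (nat_lit 0) (nat_lit 376) (nat_lit 382) (nat_lit 382)) (XT.nd (nat_lit 78) (nat_lit 0) (nat_lit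 76) (XT.lf (nat_lit 1900) (nat_lit 2774845950) (nat_lit 76) (nat_lit 702968184) (nat_lit 0) (nat_lit 702968184) (nat_lit 522) (nat_lit 1) (nat_lit 498) (nat_lit 1) (nat_lit 497) (nat_lit 0) (nat_lit 377) (nat_lit 382) (nat_lit 381)) (XT.lf (nat_lit 1900) (nat_lit 1362462570) (nat_lit 0) (nat_lit 1414824237) (nat_lit 1824) (nat_lit 1362462570) (nat_lit 523) (nat_lit 1) (nat_lit 498) (nat_lit 1) (nat_lit 522) (nat_lit 1) (nat_lit 378) (nat_lit 382) (nat_lit 380)))) (XT.nd (nat_lit 78) (nat_lit 0) (nat_lit 76) (XT.lf (nat_lit 1900) (nat_lit 2666675115) (nat_lit 76) (nat_lit 716331688) (nat_lit 0) (nat_lit 716331688) (nat_lit 523) (nat_lit 1) (nat_lit 499) (nat_lit 1) (nat_lit 498) (nat_lit 1) (nat_lit 379) (nat_lit 382) (nat_lit 379)) (XT.nd (nat_lit 78) (nat_lit 0) (nat_lit 0) (XT.lf (nat_lit 1900) (nat_lit 1295953573) (nat_lit 0) (nat_lit 1467466554) (nat_lit 1824) (nat_lit 1295953573) (nat_lit 524) (nat_lit 1) (nat_lit 499) (nat_lit 1)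 (nat_lit 523) (nat_lit 1) (nat_lit 380) (nat_lit 382) (nat_lit 378)) (XT.lf (nat_lit 1900) (nat_lit 2508950832) (nat_lit 76) (nat_lit 755526199) (nat_lit 0) (nat_lit 755526199) (nat_lit 524) (nat_lit 1) (nat_lit 500) (nat_lit 1) (nat_lit 499) (nat_lit 1) (nat_lit 381) (nat_lit 382) (nat_lit 377))))))))
noncomputable def ec19 : XT := (XT.nd (nat_lit 1872) (nat_lit 10944) (nat_lit 0) (XT.nd (nat_lit 936) (nat_lit 3268) (nat_lit 0) (XT.nd (nat_lit 468) (nat_lit 0) (nat_lit 228) (XT.nd (nat_lit 234) (nat_lit 0) (nat_lit 76) (XT.nd (nat_lit 78) (nat_lit 0) (nat_lit 0) (XT.lf (nat_lit 1900) (nat_lit 1205502772) (nat_lit 0) (nat_lit 1570073393) (nat_lit 1824) (nat_lit 1205502772) (nat_lit 525) (nat_lit 1) (nat_lit 500) (nat_lit 1) (nat_lit 524) (nat_lit 1) (nat_lit 382) (nat_lit 382) (nat_lit 376)) (XT.nd (nat_lit 78) (nat_lit 0) (nat_lit 76) (XT.lf (nat_lit 1900) (nat_lit 2304651321) (nat_lit 76) (nat_lit 819032002) (nat_lit 0) (nat_lit 819032002)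 (nat_lit 525) (nat_lit 1) (nat_lit 501) (nat_lit 1) (nat_lit 500) (nat_lit 1) (nat_lit 383) (nat_lit 382) (nat_lit 375)) (XT.lf (nat_lit 1900) (nat_lit 1092559942) (nat_lit 0) (nat_lit 1719684792) (nat_lit 1824) (nat_lit 1092559942) (nat_lit 526) (nat_lit 1) (nat_lit 501) (nat_lit 1) (nat_lit 525) (nat_lit 1) (nat_lit 384) (nat_lit 382) (nat_lit 374)))) (XT.nd (nat_lit 78) (nat_lit 0) (nat_lit 76) (XT.lf (nat_lit 1900) (nat_lit 2056618484) (nat_lit 76) (nat_lit 905398525) (nat_lit 0) (nat_lit 905398525) (nat_lit 526) (nat_lit 1) (nat_lit 502) (nat_lit 1) (nat_lit 501) (nat_lit 1) (nat_lit 385) (nat_lit 382) (nat_lit 373)) (XT.nd (nat_lit 78) (nat_lit 0) (nat_lit 0) (XT.lf (nat_lit 1900) (nat_lit 958508365) (nat_lit 0) (nat_lit 1913475725) (nat_lit 1824) (nat_lit 958508365) (nat_lit 527) (nat_lit 1) (nat_lit 502) (nat_lit 1) (nat_lit 526) (nat_lit 1) (nat_lit 386) (nat_lit 382) (nat_lit 372)) (XT.lf (nat_lit 1900) (nat_lit 1767563609)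 (nat_lit 76) (nat_lit 1013241456) (nat_lit 0) (nat_lit 1013241456) (nat_lit 527) (nat_lit 1) (nat_lit 503) (nat_lit 1) (nat_lit 502) (nat_lit 1) (nat_lit 387) (nat_lit 382) (nat_lit 371))))) (XT.nd (nat_lit 234) (nat_lit 0) (nat_lit 76) (XT.nd (nat_lit 78) (nat_lit 0) (nat_lit 0) (XT.lf (nat_lit 1900) (nat_lit 804667611) (nat_lit 0) (nat_lit 2148750467) (nat_lit 1824) (nat_lit 804667611) (nat_lit 528) (nat_lit 1) (nat_lit 503) (nat_lit 1) (nat_lit 527) (nat_lit 1) (nat_lit 388) (nat_lit 382) (nat_lit 370)) (XT.nd (nat_lit 78) (nat_lit 0) (nat_lit 76) (XT.lf (nat_lit 1900) (nat_lit 1440072836) (nat_lit 76) (nat_lit 1141239974) (nat_lit 0) (nat_lit 1141239974) (nat_lit 528) (nat_lit 1) (nat_lit 504) (nat_lit 1) (nat_lit 503) (nat_lit 1) (nat_lit 389) (nat_lit 382) (nat_lit 369)) (XT.lf (nat_lit 1900) (nat_lit 632296207) (nat_lit 0) (nat_lit 2422937192) (nat_lit 1824) (nat_lit 632296207) (nat_lit 529) (nat_lit 1) (nat_lit 504) (nat_lit 1)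 (nat_lit 528) (nat_lit 1) (nat_lit 390) (nat_lit 382) (nat_lit 368)))) (XT.nd (nat_lit 78) (nat_lit 0) (nat_lit 76) (XT.lf (nat_lit 1900) (nat_lit 1076612409) (nat_lit 76) (nat_lit 1288134095) (nat_lit 0) (nat_lit 1288134095) (nat_lit 529) (nat_lit 1) (nat_lit 505) (nat_lit 1) (nat_lit 504) (nat_lit 1) (nat_lit 391) (nat_lit 382) (nat_lit 367)) (XT.nd (nat_lit 78) (nat_lit 0) (nat_lit 0) (XT.lf (nat_lit 1900) (nat_lit 442594201) (nat_lit 0) (nat_lit 2733582783) (nat_lit 1824) (nat_lit 442594201) (nat_lit 530) (nat_lit 1) (nat_lit 505) (nat_lit 1) (nat_lit 529) (nat_lit 1) (nat_lit 392) (nat_lit 382) (nat_lit 366)) (XT.lf (nat_lit 1900) (nat_lit 679533711) (nat_lit 76) (nat_lit 1452722121) (nat_lit 0) (nat_lit 1452722121) (nat_lit 530) (nat_lit 1) (nat_lit 506) (nat_lit 1) (nat_lit 505) (nat_lit 1) (nat_lit 393) (nat_lit 382) (nat_lit 365)))))) (XT.nd (nat_lit 468) (nat_lit 1900) (nat_lit 0) (XT.nd (nat_lit 234) (nat_lit 1824) (nat_lit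 0) (XT.nd (nat_lit 78) (nat_lit 0) (nat_lit 0) (XT.lf (nat_lit 1900) (nat_lit 236705620) (nat_lit 0) (nat_lit 3078347852) (nat_lit 1824) (nat_lit 236705620) (nat_lit 531) (nat_lit 1) (nat_lit 506) (nat_lit 1) (nat_lit 530) (nat_lit 1) (nat_lit 394) (nat_lit 382) (nat_lit 364)) (XT.nd (nat_lit 78) (nat_lit 0) (nat_lit 76) (XT.lf (nat_lit 1900) (nat_lit 251078100) (nat_lit 76) (nat_lit 1633858190) (nat_lit 0) (nat_lit 1633858190) (nat_lit 531) (nat_lit 1) (nat_lit 507) (nat_lit 1) (nat_lit 506) (nat_lit 1) (nat_lit 395) (nat_lit 382) (nat_lit 363)) (XT.lf (nat_lit 1900) (nat_lit 15720831) (nat_lit 0) (nat_lit 3455001965) (nat_lit 1824) (nat_lit 15720831) (nat_lit 532) (nat_lit 1) (nat_lit 507) (nat_lit 1) (nat_lit 531) (nat_lit 1) (nat_lit 396) (nat_lit 382) (nat_lit 362)))) (XT.nd (nat_lit 78) (nat_lit 0) (nat_lit 0) (XT.lf (nat_lit 1976) (nat_lit 1625172985) (nat_lit 0) (nat_lit 203908615) (nat_lit 1900) (nat_lit 1625172985) (nat_lit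 508) (nat_lit 1) (nat_lit 482) (nat_lit 1) (nat_lit 507) (nat_lit 1) (nat_lit 397) (nat_lit 382) (nat_lit 361)) (XT.nd (nat_lit 78) (nat_lit 0) (nat_lit 76) (XT.lf (nat_lit 1976) (nat_lit 2986905779) (nat_lit 76) (nat_lit 217878292) (nat_lit 0) (nat_lit 217878292) (nat_lit 508) (nat_lit 1) (nat_lit 483) (nat_lit 1) (nat_lit 482) (nat_lit 1) (nat_lit 398) (nat_lit 382) (nat_lit 360)) (XT.lf (nat_lit 1976) (nat_lit 1354425124) (nat_lit 0) (nat_lit 682451489) (nat_lit 1900) (nat_lit 1354425124) (nat_lit 509) (nat_lit 1) (nat_lit 483) (nat_lit 1) (nat_lit 508) (nat_lit 1) (nat_lit 399) (nat_lit 382) (nat_lit 359))))) (XT.nd (nat_lit 234) (nat_lit 912) (nat_lit 0) (XT.nd (nat_lit 78) (nat_lit 1064) (nat_lit 0) (XT.lf (nat_lit 1976) (nat_lit 2431756975) (nat_lit 76) (nat_lit 464355507) (nat_lit 0) (nat_lit 464355507) (nat_lit 509) (nat_lit 1) (nat_lit 484) (nat_lit 1) (nat_lit 483) (nat_lit 1) (nat_lit 400) (nat_lit 382) (nat_lit 358)) (XT.nd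 (nat_lit 78) (nat_lit 1140) (nat_lit 0) (XT.lf (nat_lit 76) (nat_lit 1071996275) (nat_lit 0) (nat_lit 1185930503) (nat_lit 1900) (nat_lit 1071996275) (nat_lit 485) (nat_lit 1) (nat_lit 484) (nat_lit 1) (nat_lit 509) (nat_lit 1) (nat_lit 401) (nat_lit 382) (nat_lit 357)) (XT.lf (nat_lit 1216) (nat_lit 1854068394) (nat_lit 0) (nat_lit 722877831) (nat_lit 1140) (nat_lit 722877831) (nat_lit 485) (nat_lit 1) (nat_lit 469) (nat_lit 1) (nat_lit 484) (nat_lit 1) (nat_lit 402) (nat_lit 382) (nat_lit 356)))) (XT.nd (nat_lit 78) (nat_lit 912) (nat_lit 0) (XT.lf (nat_lit 76) (nat_lit 778775212) (nat_lit 0) (nat_lit 1712524051) (nat_lit 1216) (nat_lit 778775212) (nat_lit 470) (nat_lit 1) (nat_lit 469) (nat_lit 1) (nat_lit 485) (nat_lit 1) (nat_lit 403) (nat_lit 382) (nat_lit 355)) (XT.nd (nat_lit 78) (nat_lit 0) (nat_lit 0) (XT.lf (nat_lit 988) (nat_lit 1255579928) (nat_lit 0) (nat_lit 992553690) (nat_lit 912) (nat_lit 992553690) (nat_lit 470) (nat_lit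 1) (nat_lit 457) (nat_lit 1) (nat_lit 469) (nat_lit 1) (nat_lit 404) (nat_lit 382) (nat_lit 354)) (XT.lf (nat_lit 76) (nat_lit 475607661) (nat_lit 0) (nat_lit 2260497995) (nat_lit 988) (nat_lit 475607661) (nat_lit 458) (nat_lit 1) (nat_lit 457) (nat_lit 1) (nat_lit 470) (nat_lit 1) (nat_lit 405) (nat_lit 382) (nat_lit 353))))))) (XT.nd (nat_lit 936) (nat_lit 4940) (nat_lit 0) (XT.nd (nat_lit 468) (nat_lit 2432) (nat_lit 0) (XT.nd (nat_lit 234) (nat_lit 1824) (nat_lit 0) (XT.nd (nat_lit 78) (nat_lit 836) (nat_lit 0) (XT.lf (nat_lit 988) (nat_lit 637946953) (nat_lit 0) (nat_lit 1272534445) (nat_lit 912) (nat_lit 1272534445) (nat_lit 458) (nat_lit 1) (nat_lit 445) (nat_lit 1) (nat_lit 457) (nat_lit 1) (nat_lit 406) (nat_lit 382) (nat_lit 352)) (XT.nd (nat_lit 78) (nat_lit 836) (nat_lit 0) (XT.lf (nat_lit 76) (nat_lit 163298143) (nat_lit 0) (nat_lit 2828201938) (nat_lit 988) (nat_lit 163298143) (nat_lit 446) (nat_lit 1) (nat_lit 445) (nat_lit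 1) (nat_lit 458) (nat_lit 1) (nat_lit 407) (nat_lit 382) (nat_lit 351)) (XT.lf (nat_lit 912) (nat_lit 2743943) (nat_lit 0) (nat_lit 1562012557) (nat_lit 836) (nat_lit 1562012557) (nat_lit 446) (nat_lit 1) (nat_lit 434) (nat_lit 1) (nat_lit 445) (nat_lit 1) (nat_lit 408) (nat_lit 382) (nat_lit 350)))) (XT.nd (nat_lit 78) (nat_lit 836) (nat_lit 0) (XT.lf (nat_lit 988) (nat_lit 2786501474) (nat_lit 0) (nat_lit 156352813) (nat_lit 912) (nat_lit 156352813) (nat_lit 434) (nat_lit 1) (nat_lit 421) (nat_lit 1) (nat_lit 433) (nat_lit 1) (nat_lit 409) (nat_lit 382) (nat_lit 349)) (XT.nd (nat_lit 78) (nat_lit 836) (nat_lit 0) (XT.lf (nat_lit 76) (nat_lit 1215898472) (nat_lit 0) (nat_lit 640026446) (nat_lit 988) (nat_lit 1215898472) (nat_lit 422) (nat_lit 1) (nat_lit 421) (nat_lit 1) (nat_lit 434) (nat_lit 1) (nat_lit 410) (nat_lit 382) (nat_lit 348)) (XT.lf (nat_lit 912) (nat_lit 2079836704) (nat_lit 0) (nat_lit 482528674) (nat_lit 836) (nat_lit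 482528674) (nat_lit 422) (nat_lit 1) (nat_lit 410) (nat_lit 1) (nat_lit 421) (nat_lit 1) (nat_lit 411) (nat_lit 382) (nat_lit 347))))) (XT.nd (nat_lit 234) (nat_lit 1596) (nat_lit 0) (XT.nd (nat_lit 78) (nat_lit 836) (nat_lit 0) (XT.lf (nat_lit 76) (nat_lit 860501946) (nat_lit 0) (nat_lit 1297218774) (nat_lit 912) (nat_lit 860501946) (nat_lit 411) (nat_lit 1) (nat_lit 410) (nat_lit 1) (nat_lit 422) (nat_lit 1) (nat_lit 412) (nat_lit 382) (nat_lit 346)) (XT.nd (nat_lit 78) (nat_lit 0) (nat_lit 0) (XT.lf (nat_lit 912) (nat_lit 1360672684) (nat_lit 0) (nat_lit 815617112) (nat_lit 836) (nat_lit 815617112) (nat_lit 411) (nat_lit 1) (nat_lit 399) (nat_lit 1) (nat_lit 410) (nat_lit 1) (nat_lit 413) (nat_lit 382) (nat_lit 345)) (XT.lf (nat_lit 76) (nat_lit 499197858) (nat_lit 0) (nat_lit 1967534744) (nat_lit 912) (nat_lit 499197858) (nat_lit 400) (nat_lit 1) (nat_lit 399) (nat_lit 1) (nat_lit 411) (nat_lit 1) (nat_lit 414) (nat_lit 382) (nat_lit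 344)))) (XT.nd (nat_lit 78) (nat_lit 836) (nat_lit 0) (XT.lf (nat_lit 836) (nat_lit 630277911) (nat_lit 0) (nat_lit 1154965816) (nat_lit 760) (nat_lit 1154965816) (nat_lit 400) (nat_lit 1) (nat_lit 389) (nat_lit 1) (nat_lit 399) (nat_lit 1) (nat_lit 415) (nat_lit 382) (nat_lit 343)) (XT.nd (nat_lit 78) (nat_lit 836) (nat_lit 0) (XT.lf (nat_lit 76) (nat_lit 132602038) (nat_lit 0) (nat_lit 2649707037) (nat_lit 836) (nat_lit 132602038) (nat_lit 390) (nat_lit 1) (nat_lit 389) (nat_lit 1) (nat_lit 400) (nat_lit 1) (nat_lit 416) (nat_lit 382) (nat_lit 342)) (XT.lf (nat_lit 76) (nat_lit 1390526722) (nat_lit 0) (nat_lit 108699176) (nat_lit 836) (nat_lit 1390526722) (nat_lit 379) (nat_lit 1) (nat_lit 378) (nat_lit 1) (nat_lit 389) (nat_lit 1) (nat_lit 417) (nat_lit 382) (nat_lit 341)))))) (XT.nd (nat_lit 468) (nat_lit 2736) (nat_lit 0) (XT.nd (nat_lit 234) (nat_lit 684) (nat_lit 0) (XT.nd (nat_lit 78) (nat_lit 760) (nat_lit 0) (XT.lf (nat_lit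 836) (nat_lit 2390744113) (nat_lit 0) (nat_lit 237130772) (nat_lit 760) (nat_lit 237130772) (nat_lit 379) (nat_lit 1) (nat_lit 368) (nat_lit 1) (nat_lit 378) (nat_lit 1) (nat_lit 418) (nat_lit 382) (nat_lit 340)) (XT.nd (nat_lit 78) (nat_lit 760) (nat_lit 0) (XT.lf (nat_lit 76) (nat_lit 996127581) (nat_lit 0) (nat_lit 848178319) (nat_lit 836) (nat_lit 996127581) (nat_lit 369) (nat_lit 1) (nat_lit 368) (nat_lit 1) (nat_lit 379) (nat_lit 1) (nat_lit 419) (nat_lit 382) (nat_lit 339)) (XT.lf (nat_lit 836) (nat_lit 1595999602) (nat_lit 0) (nat_lit 610117049) (nat_lit 760) (nat_lit 610117049) (nat_lit 369) (nat_lit 1) (nat_lit 358) (nat_lit 1) (nat_lit 368) (nat_lit 1) (nat_lit 420) (nat_lit 382) (nat_lit 338)))) (XT.nd (nat_lit 78) (nat_lit 684) (nat_lit 0) (XT.lf (nat_lit 76) (nat_lit 598472112) (nat_lit 0) (nat_lit 1595356955) (nat_lit 836) (nat_lit 598472112) (nat_lit 359) (nat_lit 1) (nat_lit 358) (nat_lit 1) (nat_lit 369) (nat_lit 1)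 (nat_lit 421) (nat_lit 382) (nat_lit 337)) (XT.nd (nat_lit 78) (nat_lit 0) (nat_lit 0) (XT.lf (nat_lit 760) (nat_lit 795217691) (nat_lit 0) (nat_lit 986707216) (nat_lit 684) (nat_lit 986707216) (nat_lit 359) (nat_lit 1) (nat_lit 349) (nat_lit 1) (nat_lit 358) (nat_lit 1) (nat_lit 422) (nat_lit 382) (nat_lit 336)) (XT.lf (nat_lit 76) (nat_lit 198050903) (nat_lit 0) (nat_lit 2349222097) (nat_lit 760) (nat_lit 198050903) (nat_lit 350) (nat_lit 1) (nat_lit 349) (nat_lit 1) (nat_lit 359) (nat_lit 1) (nat_lit 423) (nat_lit 382) (nat_lit 335))))) (XT.nd (nat_lit 234) (nat_lit 1292) (nat_lit 0) (XT.nd (nat_lit 78) (nat_lit 684) (nat_lit 0) (XT.lf (nat_lit 76) (nat_lit 1355832096) (nat_lit 0) (nat_lit 10504089) (nat_lit 760) (nat_lit 1355832096) (nat_lit 340) (nat_lit 1) (nat_lit 339) (nat_lit 1) (nat_lit 349) (nat_lit 1) (nat_lit 424) (nat_lit 382) (nat_lit 334)) (XT.nd (nat_lit 78) (nat_lit 0) (nat_lit 0) (XT.lf (nat_lit 760) (nat_lit 2292713907)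 (nat_lit 0) (nat_lit 203325118) (nat_lit 684) (nat_lit 203325118) (nat_lit 340) (nat_lit 1) (nat_lit 330) (nat_lit 1) (nat_lit 339) (nat_lit 1) (nat_lit 425) (nat_lit 382) (nat_lit 333)) (XT.lf (nat_lit 76) (nat_lit 933397398) (nat_lit 0) (nat_lit 809914631) (nat_lit 760) (nat_lit 933397398) (nat_lit 331) (nat_lit 1) (nat_lit 330) (nat_lit 1) (nat_lit 340) (nat_lit 1) (nat_lit 426) (nat_lit 382) (nat_lit 332)))) (XT.nd (nat_lit 156) (nat_lit 608) (nat_lit 0) (XT.nd (nat_lit 78) (nat_lit 0) (nat_lit 0) (XT.lf (nat_lit 760) (nat_lit 1443898656) (nat_lit 0) (nat_lit 605247894) (nat_lit 684) (nat_lit 605247894) (nat_lit 331) (nat_lit 1) (nat_lit 321) (nat_lit 1) (nat_lit 330) (nat_lit 1) (nat_lit 427) (nat_lit 382) (nat_lit 331)) (XT.lf (nat_lit 76) (nat_lit 509866177) (nat_lit 0) (nat_lit 1612597161) (nat_lit 760) (nat_lit 509866177) (nat_lit 322) (nat_lit 1) (nat_lit 321) (nat_lit 1) (nat_lit 331) (nat_lit 1) (nat_lit 428) (nat_lit 382)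 (nat_lit 330))) (XT.nd (nat_lit 78) (nat_lit 0) (nat_lit 0) (XT.lf (nat_lit 684) (nat_lit 593273846) (nat_lit 0) (nat_lit 1008607680) (nat_lit 608) (nat_lit 1008607680) (nat_lit 322) (nat_lit 1) (nat_lit 313) (nat_lit 1) (nat_lit 321) (nat_lit 1) (nat_lit 429) (nat_lit 382) (nat_lit 329)) (XT.lf (nat_lit 76) (nat_lit 85624152) (nat_lit 0) (nat_lit 2417751799) (nat_lit 684) (nat_lit 85624152) (nat_lit 314) (nat_lit 1) (nat_lit 313) (nat_lit 1) (nat_lit 322) (nat_lit 1) (nat_lit 430) (nat_lit 382) (nat_lit 328))))))))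
noncomputable def ec20 : XT := (XT.nd (nat_lit 56472) (nat_lit 0) (nat_lit 6080) (XT.nd (nat_lit 55536) (nat_lit 0) (nat_lit 16188) (XT.nd (nat_lit 55068) (nat_lit 0) (nat_lit 15960) (XT.nd (nat_lit 234) (nat_lit 608) (nat_lit 0) (XT.nd (nat_lit 78) (nat_lit 608) (nat_lit 0) (XT.lf (nat_lit 76) (nat_lit 1156283749) (nat_lit 0) (nat_lit 255019414) (nat_lit 684) (nat_lit 1156283749) (nat_lit 305) (nat_lit 1) (nat_lit 304) (nat_lit 1) (nat_lit 313) (nat_lit 1) (nat_lit 431) (nat_lit 382) (nat_lit 327)) (XT.nd (nat_lit 78) (nat_lit 0) (nat_lit 0) (XT.lf (nat_lit 684) (nat_lit 1873047678) (nat_lit 0) (nat_lit 336734631) (nat_lit 608) (nat_lit 336734631) (nat_lit 305) (nat_lit 1) (nat_lit 296) (nat_lit 1) (nat_lit 304) (nat_lit 1) (nat_lit 432) (nat_lit 382) (nat_lit 326)) (XT.lf (nat_lit 76) (nat_lit 714870802) (nat_lit 0) (nat_lit 1095875279) (nat_lit 684) (nat_lit 714870802) (nat_lit 297) (nat_lit 1) (nat_lit 296) (nat_lit 1) (nat_lit 305)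 (nat_lit 1) (nat_lit 433) (nat_lit 382) (nat_lit 325)))) (XT.nd (nat_lit 54678) (nat_lit 0) (nat_lit 15884) (XT.lf (nat_lit 684) (nat_lit 987918103) (nat_lit 0) (nat_lit 758533582) (nat_lit 608) (nat_lit 758533582) (nat_lit 297) (nat_lit 1) (nat_lit 288) (nat_lit 1) (nat_lit 296) (nat_lit 1) (nat_lit 434) (nat_lit 382) (nat_lit 324)) (XT.nd (nat_lit 78) (nat_lit 0) (nat_lit 0) (XT.lf (nat_lit 1900) (nat_lit 715790402) (nat_lit 0) (nat_lit 721776074) (nat_lit 1900) (nat_lit 715790402) (nat_lit 522) (nat_lit 1) (nat_lit 497) (nat_lit 0) (nat_lit 522) (nat_lit 0) (nat_lit 374) (nat_lit 383) (nat_lit 383)) (XT.lf (nat_lit 1900) (nat_lit 2830342869) (nat_lit 76) (nat_lit 717027547) (nat_lit 0) (nat_lit 717027547) (nat_lit 522) (nat_lit 1) (nat_lit 498) (nat_lit 1) (nat_lit 497) (nat_lit 0) (nat_lit 375) (nat_lit 383) (nat_lit 382))))) (XT.nd (nat_lit 234) (nat_lit 0) (nat_lit 76) (XT.nd (nat_lit 78) (nat_lit 0) (nat_lit 0) (XT.lf (nat_lit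 1900) (nat_lit 1389711821) (nat_lit 0) (nat_lit 1443120721) (nat_lit 1824) (nat_lit 1389711821) (nat_lit 523) (nat_lit 1) (nat_lit 498) (nat_lit 1) (nat_lit 522) (nat_lit 1) (nat_lit 376) (nat_lit 383) (nat_lit 381)) (XT.nd (nat_lit 78) (nat_lit 0) (nat_lit 76) (XT.lf (nat_lit 1900) (nat_lit 2720008617) (nat_lit 76) (nat_lit 730658322) (nat_lit 0) (nat_lit 730658322) (nat_lit 523) (nat_lit 1) (nat_lit 499) (nat_lit 1) (nat_lit 498) (nat_lit 1) (nat_lit 377) (nat_lit 383) (nat_lit 380)) (XT.lf (nat_lit 1900) (nat_lit 1321872645) (nat_lit 0) (nat_lit 1496815885) (nat_lit 1824) (nat_lit 1321872645) (nat_lit 524) (nat_lit 1) (nat_lit 499) (nat_lit 1) (nat_lit 523) (nat_lit 1) (nat_lit 378) (nat_lit 383) (nat_lit 379)))) (XT.nd (nat_lit 78) (nat_lit 0) (nat_lit 76) (XT.lf (nat_lit 1900) (nat_lit 2559129849) (nat_lit 76) (nat_lit 770636723) (nat_lit 0) (nat_lit 770636723) (nat_lit 524) (nat_lit 1) (nat_lit 500) (nat_lit 1) (nat_lit 499) (nat_lit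 1) (nat_lit 379) (nat_lit 383) (nat_lit 378)) (XT.nd (nat_lit 78) (nat_lit 0) (nat_lit 0) (XT.lf (nat_lit 1900) (nat_lit 1229612827) (nat_lit 0) (nat_lit 1601474861) (nat_lit 1824) (nat_lit 1229612827) (nat_lit 525) (nat_lit 1) (nat_lit 500) (nat_lit 1) (nat_lit 524) (nat_lit 1) (nat_lit 380) (nat_lit 383) (nat_lit 377)) (XT.lf (nat_lit 1900) (nat_lit 2350744348) (nat_lit 76) (nat_lit 835412642) (nat_lit 0) (nat_lit 835412642) (nat_lit 525) (nat_lit 1) (nat_lit 501) (nat_lit 1) (nat_lit 500) (nat_lit 1) (nat_lit 381) (nat_lit 383) (nat_lit 376)))))) (XT.nd (nat_lit 468) (nat_lit 0) (nat_lit 228) (XT.nd (nat_lit 234) (nat_lit 0) (nat_lit 76) (XT.nd (nat_lit 78) (nat_lit 0) (nat_lit 0) (XT.lf (nat_lit 1900) (nat_lit 1114411140) (nat_lit 0) (nat_lit 1754078488) (nat_lit 1824) (nat_lit 1114411140) (nat_lit 526) (nat_lit 1) (nat_lit 501) (nat_lit 1) (nat_lit 525) (nat_lit 1) (nat_lit 382) (nat_lit 383) (nat_lit 375)) (XT.nd (nat_lit 78) (nat_lit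 0) (nat_lit 76) (XT.lf (nat_lit 1900) (nat_lit 2097750854) (nat_lit 76) (nat_lit 923506496) (nat_lit 0) (nat_lit 923506496) (nat_lit 526) (nat_lit 1) (nat_lit 502) (nat_lit 1) (nat_lit 501) (nat_lit 1) (nat_lit 383) (nat_lit 383) (nat_lit 374)) (XT.lf (nat_lit 1900) (nat_lit 977678532) (nat_lit 0) (nat_lit 1951745240) (nat_lit 1824) (nat_lit 977678532) (nat_lit 527) (nat_lit 1) (nat_lit 502) (nat_lit 1) (nat_lit 526) (nat_lit 1) (nat_lit 384) (nat_lit 383) (nat_lit 373)))) (XT.nd (nat_lit 78) (nat_lit 0) (nat_lit 76) (XT.lf (nat_lit 1900) (nat_lit 1802914881) (nat_lit 76) (nat_lit 1033506285) (nat_lit 0) (nat_lit 1033506285) (nat_lit 527) (nat_lit 1) (nat_lit 503) (nat_lit 1) (nat_lit 502) (nat_lit 1) (nat_lit 385) (nat_lit 383) (nat_lit 372)) (XT.nd (nat_lit 78) (nat_lit 0) (nat_lit 0) (XT.lf (nat_lit 1900) (nat_lit 820760963) (nat_lit 0) (nat_lit 2191725477) (nat_lit 1824) (nat_lit 820760963) (nat_lit 528) (nat_lit 1) (nat_lit 503)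 (nat_lit 1) (nat_lit 527) (nat_lit 1) (nat_lit 386) (nat_lit 383) (nat_lit 371)) (XT.lf (nat_lit 1900) (nat_lit 1468874293) (nat_lit 76) (nat_lit 1164064774) (nat_lit 0) (nat_lit 1164064774) (nat_lit 528) (nat_lit 1) (nat_lit 504) (nat_lit 1) (nat_lit 503) (nat_lit 1) (nat_lit 387) (nat_lit 383) (nat_lit 370))))) (XT.nd (nat_lit 234) (nat_lit 0) (nat_lit 76) (XT.nd (nat_lit 78) (nat_lit 0) (nat_lit 0) (XT.lf (nat_lit 1900) (nat_lit 644942131) (nat_lit 0) (nat_lit 2471395936) (nat_lit 1824) (nat_lit 644942131) (nat_lit 529) (nat_lit 1) (nat_lit 504) (nat_lit 1) (nat_lit 528) (nat_lit 1) (nat_lit 388) (nat_lit 383) (nat_lit 369)) (XT.nd (nat_lit 78) (nat_lit 0) (nat_lit 76) (XT.lf (nat_lit 1900) (nat_lit 1098144658) (nat_lit 76) (nat_lit 1313896777) (nat_lit 0) (nat_lit 1313896777) (nat_lit 529) (nat_lit 1) (nat_lit 505) (nat_lit 1) (nat_lit 504) (nat_lit 1) (nat_lit 389) (nat_lit 383) (nat_lit 368)) (XT.lf (nat_lit 1900) (nat_lit 451446085)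 (nat_lit 0) (nat_lit 2788254438) (nat_lit 1824) (nat_lit 451446085) (nat_lit 530) (nat_lit 1) (nat_lit 505) (nat_lit 1) (nat_lit 529) (nat_lit 1) (nat_lit 390) (nat_lit 383) (nat_lit 367)))) (XT.nd (nat_lit 78) (nat_lit 0) (nat_lit 76) (XT.lf (nat_lit 1900) (nat_lit 693124385) (nat_lit 76) (nat_lit 1481776563) (nat_lit 0) (nat_lit 1481776563) (nat_lit 530) (nat_lit 1) (nat_lit 506) (nat_lit 1) (nat_lit 505) (nat_lit 1) (nat_lit 391) (nat_lit 383) (nat_lit 366)) (XT.nd (nat_lit 78) (nat_lit 0) (nat_lit 0) (XT.lf (nat_lit 1900) (nat_lit 241439733) (nat_lit 0) (nat_lit 3139914809) (nat_lit 1824) (nat_lit 241439733) (nat_lit 531) (nat_lit 1) (nat_lit 506) (nat_lit 1) (nat_lit 530) (nat_lit 1) (nat_lit 392) (nat_lit 383) (nat_lit 365)) (XT.lf (nat_lit 1900) (nat_lit 256099662) (nat_lit 76) (nat_lit 1666535354) (nat_lit 0) (nat_lit 1666535354) (nat_lit 531) (nat_lit 1) (nat_lit 507) (nat_lit 1) (nat_lit 506) (nat_lit 1) (nat_lit 393) (nat_lit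 383) (nat_lit 364))))))) (XT.nd (nat_lit 936) (nat_lit 5852) (nat_lit 0) (XT.nd (nat_lit 468) (nat_lit 2812) (nat_lit 0) (XT.nd (nat_lit 234) (nat_lit 0) (nat_lit 76) (XT.nd (nat_lit 78) (nat_lit 1900) (nat_lit 0) (XT.lf (nat_lit 1900) (nat_lit 16035248) (nat_lit 0) (nat_lit 3524102005) (nat_lit 1824) (nat_lit 16035248) (nat_lit 532) (nat_lit 1) (nat_lit 507) (nat_lit 1) (nat_lit 531) (nat_lit 1) (nat_lit 394) (nat_lit 383) (nat_lit 363)) (XT.nd (nat_lit 78) (nat_lit 0) (nat_lit 0) (XT.lf (nat_lit 1976) (nat_lit 1657676445) (nat_lit 0) (nat_lit 207986787) (nat_lit 1900) (nat_lit 1657676445) (nat_lit 508) (nat_lit 1) (nat_lit 482) (nat_lit 1) (nat_lit 507) (nat_lit 1) (nat_lit 395) (nat_lit 383) (nat_lit 362)) (XT.lf (nat_lit 1976) (nat_lit 3046643894) (nat_lit 76) (nat_lit 222235858) (nat_lit 0) (nat_lit 222235858) (nat_lit 508) (nat_lit 1) (nat_lit 483) (nat_lit 1) (nat_lit 482) (nat_lit 1) (nat_lit 396) (nat_lit 383) (nat_lit 361))))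 (XT.nd (nat_lit 78) (nat_lit 0) (nat_lit 0) (XT.lf (nat_lit 1976) (nat_lit 1381513626) (nat_lit 0) (nat_lit 696100519) (nat_lit 1900) (nat_lit 1381513626) (nat_lit 509) (nat_lit 1) (nat_lit 483) (nat_lit 1) (nat_lit 508) (nat_lit 1) (nat_lit 397) (nat_lit 383) (nat_lit 360)) (XT.nd (nat_lit 78) (nat_lit 0) (nat_lit 76) (XT.lf (nat_lit 1976) (nat_lit 2480392114) (nat_lit 76) (nat_lit 473642618) (nat_lit 0) (nat_lit 473642618) (nat_lit 509) (nat_lit 1) (nat_lit 484) (nat_lit 1) (nat_lit 483) (nat_lit 1) (nat_lit 398) (nat_lit 383) (nat_lit 359)) (XT.lf (nat_lit 76) (nat_lit 1093436201) (nat_lit 0) (nat_lit 1209649113) (nat_lit 1900) (nat_lit 1093436201) (nat_lit 485) (nat_lit 1) (nat_lit 484) (nat_lit 1) (nat_lit 509) (nat_lit 1) (nat_lit 399) (nat_lit 383) (nat_lit 358))))) (XT.nd (nat_lit 234) (nat_lit 912) (nat_lit 0) (XT.nd (nat_lit 78) (nat_lit 912) (nat_lit 0) (XT.lf (nat_lit 1216) (nat_lit 1891149762) (nat_lit 0) (nat_lit 737335387)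 (nat_lit 1140) (nat_lit 737335387) (nat_lit 485) (nat_lit 1) (nat_lit 469) (nat_lit 1) (nat_lit 484) (nat_lit 1) (nat_lit 400) (nat_lit 383) (nat_lit 357)) (XT.nd (nat_lit 78) (nat_lit 912) (nat_lit 0) (XT.lf (nat_lit 76) (nat_lit 794350716) (nat_lit 0) (nat_lit 1746774533) (nat_lit 1216) (nat_lit 794350716) (nat_lit 470) (nat_lit 1) (nat_lit 469) (nat_lit 1) (nat_lit 485) (nat_lit 1) (nat_lit 401) (nat_lit 383) (nat_lit 356)) (XT.lf (nat_lit 988) (nat_lit 1280691526) (nat_lit 0) (nat_lit 1012404764) (nat_lit 912) (nat_lit 1012404764) (nat_lit 470) (nat_lit 1) (nat_lit 457) (nat_lit 1) (nat_lit 469) (nat_lit 1) (nat_lit 402) (nat_lit 383) (nat_lit 355)))) (XT.nd (nat_lit 78) (nat_lit 912) (nat_lit 0) (XT.lf (nat_lit 76) (nat_lit 485119814) (nat_lit 0) (nat_lit 2305707955) (nat_lit 988) (nat_lit 485119814) (nat_lit 458) (nat_lit 1) (nat_lit 457) (nat_lit 1) (nat_lit 470) (nat_lit 1) (nat_lit 403) (nat_lit 383) (nat_lit 354)) (XT.nd (nat_lit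 78) (nat_lit 0) (nat_lit 0) (XT.lf (nat_lit 988) (nat_lit 650705892) (nat_lit 0) (nat_lit 1297985134) (nat_lit 912) (nat_lit 1297985134) (nat_lit 458) (nat_lit 1) (nat_lit 445) (nat_lit 1) (nat_lit 457) (nat_lit 1) (nat_lit 404) (nat_lit 383) (nat_lit 353)) (XT.lf (nat_lit 76) (nat_lit 166564106) (nat_lit 0) (nat_lit 2884765977) (nat_lit 988) (nat_lit 166564106) (nat_lit 446) (nat_lit 1) (nat_lit 445) (nat_lit 1) (nat_lit 458) (nat_lit 1) (nat_lit 405) (nat_lit 383) (nat_lit 352)))))) (XT.nd (nat_lit 468) (nat_lit 2356) (nat_lit 0) (XT.nd (nat_lit 234) (nat_lit 1672) (nat_lit 0) (XT.nd (nat_lit 78) (nat_lit 988) (nat_lit 0) (XT.lf (nat_lit 912) (nat_lit 2798822) (nat_lit 0) (nat_lit 1593252808) (nat_lit 836) (nat_lit 1593252808) (nat_lit 446) (nat_lit 1) (nat_lit 434) (nat_lit 1) (nat_lit 445) (nat_lit 1) (nat_lit 406) (nat_lit 383) (nat_lit 351)) (XT.nd (nat_lit 78) (nat_lit 0) (nat_lit 0) (XT.lf (nat_lit 988) (nat_lit 2842231504) (nat_lit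 0) (nat_lit 159479870) (nat_lit 912) (nat_lit 159479870) (nat_lit 434) (nat_lit 1) (nat_lit 421) (nat_lit 1) (nat_lit 433) (nat_lit 1) (nat_lit 407) (nat_lit 383) (nat_lit 350)) (XT.lf (nat_lit 76) (nat_lit 1240216441) (nat_lit 0) (nat_lit 652826975) (nat_lit 988) (nat_lit 1240216441) (nat_lit 422) (nat_lit 1) (nat_lit 421) (nat_lit 1) (nat_lit 434) (nat_lit 1) (nat_lit 408) (nat_lit 383) (nat_lit 349)))) (XT.nd (nat_lit 78) (nat_lit 836) (nat_lit 0) (XT.lf (nat_lit 912) (nat_lit 2121433438) (nat_lit 0) (nat_lit 492179247) (nat_lit 836) (nat_lit 492179247) (nat_lit 422) (nat_lit 1) (nat_lit 410) (nat_lit 1) (nat_lit 421) (nat_lit 1) (nat_lit 409) (nat_lit 383) (nat_lit 348)) (XT.nd (nat_lit 78) (nat_lit 836) (nat_lit 0) (XT.lf (nat_lit 76) (nat_lit 877711985) (nat_lit 0) (nat_lit 1323163150) (nat_lit 912) (nat_lit 877711985) (nat_lit 411) (nat_lit 1) (nat_lit 410) (nat_lit 1) (nat_lit 422) (nat_lit 1) (nat_lit 410) (nat_lit 383) (nat_lit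 347)) (XT.lf (nat_lit 912) (nat_lit 1387886138) (nat_lit 0) (nat_lit 831929455) (nat_lit 836) (nat_lit 831929455) (nat_lit 411) (nat_lit 1) (nat_lit 399) (nat_lit 1) (nat_lit 410) (nat_lit 1) (nat_lit 411) (nat_lit 383) (nat_lit 346))))) (XT.nd (nat_lit 234) (nat_lit 1596) (nat_lit 0) (XT.nd (nat_lit 78) (nat_lit 760) (nat_lit 0) (XT.lf (nat_lit 76) (nat_lit 509181815) (nat_lit 0) (nat_lit 2006885439) (nat_lit 912) (nat_lit 509181815) (nat_lit 400) (nat_lit 1) (nat_lit 399) (nat_lit 1) (nat_lit 411) (nat_lit 1) (nat_lit 412) (nat_lit 383) (nat_lit 345)) (XT.nd (nat_lit 78) (nat_lit 0) (nat_lit 0) (XT.lf (nat_lit 836) (nat_lit 642883469) (nat_lit 0) (nat_lit 1178065132) (nat_lit 760) (nat_lit 1178065132) (nat_lit 400) (nat_lit 1) (nat_lit 389) (nat_lit 1) (nat_lit 399) (nat_lit 1) (nat_lit 413) (nat_lit 383) (nat_lit 344)) (XT.lf (nat_lit 76) (nat_lit 135254079) (nat_lit 0) (nat_lit 2702701178) (nat_lit 836) (nat_lit 135254079) (nat_lit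 390) (nat_lit 1) (nat_lit 389) (nat_lit 1) (nat_lit 400) (nat_lit 1) (nat_lit 414) (nat_lit 383) (nat_lit 343)))) (XT.nd (nat_lit 78) (nat_lit 760) (nat_lit 0) (XT.lf (nat_lit 76) (nat_lit 1418337256) (nat_lit 0) (nat_lit 110873159) (nat_lit 836) (nat_lit 1418337256) (nat_lit 379) (nat_lit 1) (nat_lit 378) (nat_lit 1) (nat_lit 389) (nat_lit 1) (nat_lit 415) (nat_lit 383) (nat_lit 342)) (XT.nd (nat_lit 78) (nat_lit 0) (nat_lit 0) (XT.lf (nat_lit 836) (nat_lit 2438558995) (nat_lit 0) (nat_lit 241873387) (nat_lit 760) (nat_lit 241873387) (nat_lit 379) (nat_lit 1) (nat_lit 368) (nat_lit 1) (nat_lit 378) (nat_lit 1) (nat_lit 416) (nat_lit 383) (nat_lit 341)) (XT.lf (nat_lit 76) (nat_lit 1016050133) (nat_lit 0) (nat_lit 865141885) (nat_lit 836) (nat_lit 1016050133) (nat_lit 369) (nat_lit 1) (nat_lit 368) (nat_lit 1) (nat_lit 379) (nat_lit 1) (nat_lit 417) (nat_lit 383) (nat_lit 340))))))))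
noncomputable def ec21 : XT := (XT.nd (nat_lit 56316) (nat_lit 0) (nat_lit 12464) (XT.nd (nat_lit 936) (nat_lit 1748) (nat_lit 0) (XT.nd (nat_lit 468) (nat_lit 1976) (nat_lit 0) (XT.nd (nat_lit 234) (nat_lit 1444) (nat_lit 0) (XT.nd (nat_lit 78) (nat_lit 684) (nat_lit 0) (XT.lf (nat_lit 836) (nat_lit 1627919594) (nat_lit 0) (nat_lit 622319390) (nat_lit 760) (nat_lit 622319390) (nat_lit 369) (nat_lit 1) (nat_lit 358) (nat_lit 1) (nat_lit 368) (nat_lit 1) (nat_lit 418) (nat_lit 383) (nat_lit 339)) (XT.nd (nat_lit 78) (nat_lit 684) (nat_lit 0) (XT.lf (nat_lit 76) (nat_lit 610441554) (nat_lit 0) (nat_lit 1627264095) (nat_lit 836) (nat_lit 610441554) (nat_lit 359) (nat_lit 1) (nat_lit 358) (nat_lit 1) (nat_lit 369) (nat_lit 1) (nat_lit 419) (nat_lit 383) (nat_lit 338)) (XT.lf (nat_lit 760) (nat_lit 811122045) (nat_lit 0) (nat_lit 1006441360) (nat_lit 684) (nat_lit 1006441360) (nat_lit 359) (nat_lit 1) (nat_lit 349) (nat_lit 1) (nat_lit 358)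 (nat_lit 1) (nat_lit 420) (nat_lit 383) (nat_lit 337)))) (XT.nd (nat_lit 78) (nat_lit 1444) (nat_lit 0) (XT.lf (nat_lit 76) (nat_lit 202011921) (nat_lit 0) (nat_lit 2396206539) (nat_lit 760) (nat_lit 202011921) (nat_lit 350) (nat_lit 1) (nat_lit 349) (nat_lit 1) (nat_lit 359) (nat_lit 1) (nat_lit 421) (nat_lit 383) (nat_lit 336)) (XT.nd (nat_lit 78) (nat_lit 684) (nat_lit 0) (XT.lf (nat_lit 76) (nat_lit 1382948738) (nat_lit 0) (nat_lit 10714171) (nat_lit 760) (nat_lit 1382948738) (nat_lit 340) (nat_lit 1) (nat_lit 339) (nat_lit 1) (nat_lit 349) (nat_lit 1) (nat_lit 422) (nat_lit 383) (nat_lit 335)) (XT.lf (nat_lit 760) (nat_lit 2338568185) (nat_lit 0) (nat_lit 207391620) (nat_lit 684) (nat_lit 207391620) (nat_lit 340) (nat_lit 1) (nat_lit 330) (nat_lit 1) (nat_lit 339) (nat_lit 1) (nat_lit 423) (nat_lit 383) (nat_lit 334))))) (XT.nd (nat_lit 234) (nat_lit 1292) (nat_lit 0) (XT.nd (nat_lit 78) (nat_lit 684) (nat_lit 0) (XT.lf (nat_lit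 76) (nat_lit 952065346) (nat_lit 0) (nat_lit 826112923) (nat_lit 760) (nat_lit 952065346) (nat_lit 331) (nat_lit 1) (nat_lit 330) (nat_lit 1) (nat_lit 340) (nat_lit 1) (nat_lit 424) (nat_lit 383) (nat_lit 333)) (XT.nd (nat_lit 78) (nat_lit 0) (nat_lit 0) (XT.lf (nat_lit 760) (nat_lit 1472776629) (nat_lit 0) (nat_lit 617352852) (nat_lit 684) (nat_lit 617352852) (nat_lit 331) (nat_lit 1) (nat_lit 321) (nat_lit 1) (nat_lit 330) (nat_lit 1) (nat_lit 425) (nat_lit 383) (nat_lit 332)) (XT.lf (nat_lit 76) (nat_lit 520063500) (nat_lit 0) (nat_lit 1644849104) (nat_lit 760) (nat_lit 520063500) (nat_lit 322) (nat_lit 1) (nat_lit 321) (nat_lit 1) (nat_lit 331) (nat_lit 1) (nat_lit 426) (nat_lit 383) (nat_lit 331)))) (XT.nd (nat_lit 78) (nat_lit 684) (nat_lit 0) (XT.lf (nat_lit 684) (nat_lit 605139323) (nat_lit 0) (nat_lit 1028779834) (nat_lit 608) (nat_lit 1028779834) (nat_lit 322) (nat_lit 1) (nat_lit 313) (nat_lit 1) (nat_lit 321) (nat_lit 1) (nat_lit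 427) (nat_lit 383) (nat_lit 330)) (XT.nd (nat_lit 78) (nat_lit 684) (nat_lit 0) (XT.lf (nat_lit 76) (nat_lit 87336635) (nat_lit 0) (nat_lit 2466106835) (nat_lit 684) (nat_lit 87336635) (nat_lit 314) (nat_lit 1) (nat_lit 313) (nat_lit 1) (nat_lit 322) (nat_lit 1) (nat_lit 428) (nat_lit 383) (nat_lit 329)) (XT.lf (nat_lit 76) (nat_lit 1179409424) (nat_lit 0) (nat_lit 260119802) (nat_lit 684) (nat_lit 1179409424) (nat_lit 305) (nat_lit 1) (nat_lit 304) (nat_lit 1) (nat_lit 313) (nat_lit 1) (nat_lit 429) (nat_lit 383) (nat_lit 328)))))) (XT.nd (nat_lit 54912) (nat_lit 0) (nat_lit 16416) (XT.nd (nat_lit 234) (nat_lit 532) (nat_lit 0) (XT.nd (nat_lit 78) (nat_lit 608) (nat_lit 0) (XT.lf (nat_lit 684) (nat_lit 1910508632) (nat_lit 0) (nat_lit 343469323) (nat_lit 608) (nat_lit 343469323) (nat_lit 305) (nat_lit 1) (nat_lit 296) (nat_lit 1) (nat_lit 304) (nat_lit 1) (nat_lit 430) (nat_lit 383) (nat_lit 327)) (XT.nd (nat_lit 78) (nat_lit 608) (nat_lit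 0) (XT.lf (nat_lit 76) (nat_lit 729168219) (nat_lit 0) (nat_lit 1117792785) (nat_lit 684) (nat_lit 729168219) (nat_lit 297) (nat_lit 1) (nat_lit 296) (nat_lit 1) (nat_lit 305) (nat_lit 1) (nat_lit 431) (nat_lit 383) (nat_lit 326)) (XT.lf (nat_lit 684) (nat_lit 1007676465) (nat_lit 0) (nat_lit 773704254) (nat_lit 608) (nat_lit 773704254) (nat_lit 297) (nat_lit 1) (nat_lit 288) (nat_lit 1) (nat_lit 296) (nat_lit 1) (nat_lit 432) (nat_lit 383) (nat_lit 325)))) (XT.nd (nat_lit 78) (nat_lit 532) (nat_lit 0) (XT.lf (nat_lit 76) (nat_lit 279589804) (nat_lit 0) (nat_lit 1975142897) (nat_lit 684) (nat_lit 279589804) (nat_lit 289) (nat_lit 1) (nat_lit 288) (nat_lit 1) (nat_lit 297) (nat_lit 1) (nat_lit 433) (nat_lit 383) (nat_lit 324)) (XT.nd (nat_lit 54522) (nat_lit 0) (nat_lit 16416) (XT.lf (nat_lit 608) (nat_lit 106482446) (nat_lit 0) (nat_lit 1203614953) (nat_lit 532) (nat_lit 1203614953) (nat_lit 289) (nat_lit 1) (nat_lit 281) (nat_lit 1)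 (nat_lit 288) (nat_lit 1) (nat_lit 434) (nat_lit 383) (nat_lit 323)) (XT.lf (nat_lit 1900) (nat_lit 730106210) (nat_lit 0) (nat_lit 736211596) (nat_lit 1900) (nat_lit 730106210) (nat_lit 522) (nat_lit 1) (nat_lit 497) (nat_lit 0) (nat_lit 522) (nat_lit 0) (nat_lit 372) (nat_lit 384) (nat_lit 384))))) (XT.nd (nat_lit 234) (nat_lit 0) (nat_lit 152) (XT.nd (nat_lit 78) (nat_lit 0) (nat_lit 76) (XT.lf (nat_lit 1900) (nat_lit 2886949726) (nat_lit 76) (nat_lit 731368098) (nat_lit 0) (nat_lit 731368098) (nat_lit 522) (nat_lit 1) (nat_lit 498) (nat_lit 1) (nat_lit 497) (nat_lit 0) (nat_lit 373) (nat_lit 384) (nat_lit 383)) (XT.nd (nat_lit 78) (nat_lit 0) (nat_lit 0) (XT.lf (nat_lit 1900) (nat_lit 1417506057) (nat_lit 0) (nat_lit 1471983136) (nat_lit 1824) (nat_lit 1417506057) (nat_lit 523) (nat_lit 1) (nat_lit 498) (nat_lit 1) (nat_lit 522) (nat_lit 1) (nat_lit 374) (nat_lit 384) (nat_lit 382)) (XT.lf (nat_lit 1900) (nat_lit 2774408789) (nat_lit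 76) (nat_lit 745271488) (nat_lit 0) (nat_lit 745271488) (nat_lit 523) (nat_lit 1) (nat_lit 499) (nat_lit 1) (nat_lit 498) (nat_lit 1) (nat_lit 375) (nat_lit 384) (nat_lit 381)))) (XT.nd (nat_lit 78) (nat_lit 0) (nat_lit 0) (XT.lf (nat_lit 1900) (nat_lit 1348310098) (nat_lit 0) (nat_lit 1526752203) (nat_lit 1824) (nat_lit 1348310098) (nat_lit 524) (nat_lit 1) (nat_lit 499) (nat_lit 1) (nat_lit 523) (nat_lit 1) (nat_lit 376) (nat_lit 384) (nat_lit 380)) (XT.nd (nat_lit 78) (nat_lit 0) (nat_lit 76) (XT.lf (nat_lit 1900) (nat_lit 2610312446) (nat_lit 76) (nat_lit 786049458) (nat_lit 0) (nat_lit 786049458) (nat_lit 524) (nat_lit 1) (nat_lit 500) (nat_lit 1) (nat_lit 499) (nat_lit 1) (nat_lit 377) (nat_lit 384) (nat_lit 379)) (XT.lf (nat_lit 1900) (nat_lit 1254205084) (nat_lit 0) (nat_lit 1633504358) (nat_lit 1824) (nat_lit 1254205084) (nat_lit 525) (nat_lit 1) (nat_lit 500) (nat_lit 1) (nat_lit 524) (nat_lit 1) (nat_lit 378) (nat_lit 384)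 (nat_lit 378))))))) (XT.nd (nat_lit 936) (nat_lit 4180) (nat_lit 0) (XT.nd (nat_lit 468) (nat_lit 0) (nat_lit 228) (XT.nd (nat_lit 234) (nat_lit 0) (nat_lit 152) (XT.nd (nat_lit 78) (nat_lit 0) (nat_lit 76) (XT.lf (nat_lit 1900) (nat_lit 2397759235) (nat_lit 76) (nat_lit 852120895) (nat_lit 0) (nat_lit 852120895) (nat_lit 525) (nat_lit 1) (nat_lit 501) (nat_lit 1) (nat_lit 500) (nat_lit 1) (nat_lit 379) (nat_lit 384) (nat_lit 377)) (XT.nd (nat_lit 78) (nat_lit 0) (nat_lit 0) (XT.lf (nat_lit 1900) (nat_lit 1136699363) (nat_lit 0) (nat_lit 1789160058) (nat_lit 1824) (nat_lit 1136699363) (nat_lit 526) (nat_lit 1) (nat_lit 501) (nat_lit 1) (nat_lit 525) (nat_lit 1) (nat_lit 380) (nat_lit 384) (nat_lit 376)) (XT.lf (nat_lit 1900) (nat_lit 2139705871) (nat_lit 76) (nat_lit 941976625) (nat_lit 0) (nat_lit 941976625) (nat_lit 526) (nat_lit 1) (nat_lit 502) (nat_lit 1) (nat_lit 501) (nat_lit 1) (nat_lit 381) (nat_lit 384) (nat_lit 375)))) (XT.nd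 (nat_lit 78) (nat_lit 0) (nat_lit 0) (XT.lf (nat_lit 1900) (nat_lit 997232103) (nat_lit 0) (nat_lit 1990780144) (nat_lit 1824) (nat_lit 997232103) (nat_lit 527) (nat_lit 1) (nat_lit 502) (nat_lit 1) (nat_lit 526) (nat_lit 1) (nat_lit 382) (nat_lit 384) (nat_lit 374)) (XT.nd (nat_lit 78) (nat_lit 0) (nat_lit 76) (XT.lf (nat_lit 1900) (nat_lit 1838973179) (nat_lit 76) (nat_lit 1054176411) (nat_lit 0) (nat_lit 1054176411) (nat_lit 527) (nat_lit 1) (nat_lit 503) (nat_lit 1) (nat_lit 502) (nat_lit 1) (nat_lit 383) (nat_lit 384) (nat_lit 373)) (XT.lf (nat_lit 1900) (nat_lit 837176182) (nat_lit 0) (nat_lit 2235559986) (nat_lit 1824) (nat_lit 837176182) (nat_lit 528) (nat_lit 1) (nat_lit 503) (nat_lit 1) (nat_lit 527) (nat_lit 1) (nat_lit 384) (nat_lit 384) (nat_lit 372))))) (XT.nd (nat_lit 234) (nat_lit 0) (nat_lit 152) (XT.nd (nat_lit 78) (nat_lit 0) (nat_lit 76) (XT.lf (nat_lit 1900) (nat_lit 1498251779) (nat_lit 76) (nat_lit 1187346069) (nat_lit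 0) (nat_lit 1187346069) (nat_lit 528) (nat_lit 1) (nat_lit 504) (nat_lit 1) (nat_lit 503) (nat_lit 1) (nat_lit 385) (nat_lit 384) (nat_lit 371)) (XT.nd (nat_lit 78) (nat_lit 0) (nat_lit 0) (XT.lf (nat_lit 1900) (nat_lit 657840974) (nat_lit 0) (nat_lit 2520823855) (nat_lit 1824) (nat_lit 657840974) (nat_lit 529) (nat_lit 1) (nat_lit 504) (nat_lit 1) (nat_lit 528) (nat_lit 1) (nat_lit 386) (nat_lit 384) (nat_lit 370)) (XT.lf (nat_lit 1900) (nat_lit 1120107551) (nat_lit 76) (nat_lit 1340174713) (nat_lit 0) (nat_lit 1340174713) (nat_lit 529) (nat_lit 1) (nat_lit 505) (nat_lit 1) (nat_lit 504) (nat_lit 1) (nat_lit 387) (nat_lit 384) (nat_lit 369)))) (XT.nd (nat_lit 78) (nat_lit 0) (nat_lit 0) (XT.lf (nat_lit 1900) (nat_lit 460475007) (nat_lit 0) (nat_lit 2844019527) (nat_lit 1824) (nat_lit 460475007) (nat_lit 530) (nat_lit 1) (nat_lit 505) (nat_lit 1) (nat_lit 529) (nat_lit 1) (nat_lit 388) (nat_lit 384) (nat_lit 368)) (XT.nd (nat_lit 78)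 (nat_lit 0) (nat_lit 76) (XT.lf (nat_lit 1900) (nat_lit 706986873) (nat_lit 76) (nat_lit 1511412094) (nat_lit 0) (nat_lit 1511412094) (nat_lit 530) (nat_lit 1) (nat_lit 506) (nat_lit 1) (nat_lit 505) (nat_lit 1) (nat_lit 389) (nat_lit 384) (nat_lit 367)) (XT.lf (nat_lit 1900) (nat_lit 246268527) (nat_lit 0) (nat_lit 3202713105) (nat_lit 1824) (nat_lit 246268527) (nat_lit 531) (nat_lit 1) (nat_lit 506) (nat_lit 1) (nat_lit 530) (nat_lit 1) (nat_lit 390) (nat_lit 384) (nat_lit 366)))))) (XT.nd (nat_lit 468) (nat_lit 2812) (nat_lit 0) (XT.nd (nat_lit 234) (nat_lit 0) (nat_lit 0) (XT.nd (nat_lit 78) (nat_lit 1824) (nat_lit 0) (XT.lf (nat_lit 1900) (nat_lit 261221655) (nat_lit 76) (nat_lit 1699866061) (nat_lit 0) (nat_lit 1699866061) (nat_lit 531) (nat_lit 1) (nat_lit 507) (nat_lit 1) (nat_lit 506) (nat_lit 1) (nat_lit 391) (nat_lit 384) (nat_lit 365)) (XT.nd (nat_lit 78) (nat_lit 1900) (nat_lit 0) (XT.lf (nat_lit 1900) (nat_lit 16355953)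 (nat_lit 0) (nat_lit 3594584045) (nat_lit 1824) (nat_lit 16355953) (nat_lit 532) (nat_lit 1) (nat_lit 507) (nat_lit 1) (nat_lit 531) (nat_lit 1) (nat_lit 392) (nat_lit 384) (nat_lit 364)) (XT.lf (nat_lit 1976) (nat_lit 1690829973) (nat_lit 0) (nat_lit 212146523) (nat_lit 1900) (nat_lit 1690829973) (nat_lit 508) (nat_lit 1) (nat_lit 482) (nat_lit 1) (nat_lit 507) (nat_lit 1) (nat_lit 393) (nat_lit 384) (nat_lit 363)))) (XT.nd (nat_lit 78) (nat_lit 0) (nat_lit 76) (XT.lf (nat_lit 1976) (nat_lit 3107576772) (nat_lit 76) (nat_lit 226680575) (nat_lit 0) (nat_lit 226680575) (nat_lit 508) (nat_lit 1) (nat_lit 483) (nat_lit 1) (nat_lit 482) (nat_lit 1) (nat_lit 394) (nat_lit 384) (nat_lit 362)) (XT.nd (nat_lit 78) (nat_lit 0) (nat_lit 0) (XT.lf (nat_lit 1976) (nat_lit 1409143899) (nat_lit 0) (nat_lit 710022529) (nat_lit 1900) (nat_lit 1409143899) (nat_lit 509) (nat_lit 1) (nat_lit 483) (nat_lit 1) (nat_lit 508) (nat_lit 1) (nat_lit 395) (nat_lit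 384) (nat_lit 361)) (XT.lf (nat_lit 1976) (nat_lit 2529999956) (nat_lit 76) (nat_lit 483115470) (nat_lit 0) (nat_lit 483115470) (nat_lit 509) (nat_lit 1) (nat_lit 484) (nat_lit 1) (nat_lit 483) (nat_lit 1) (nat_lit 396) (nat_lit 384) (nat_lit 360))))) (XT.nd (nat_lit 234) (nat_lit 1824) (nat_lit 0) (XT.nd (nat_lit 78) (nat_lit 1140) (nat_lit 0) (XT.lf (nat_lit 76) (nat_lit 1115304925) (nat_lit 0) (nat_lit 1233842095) (nat_lit 1900) (nat_lit 1115304925) (nat_lit 485) (nat_lit 1) (nat_lit 484) (nat_lit 1) (nat_lit 509) (nat_lit 1) (nat_lit 397) (nat_lit 384) (nat_lit 359)) (XT.nd (nat_lit 78) (nat_lit 0) (nat_lit 0) (XT.lf (nat_lit 1216) (nat_lit 1928972757) (nat_lit 0) (nat_lit 752082095) (nat_lit 1140) (nat_lit 752082095) (nat_lit 485) (nat_lit 1) (nat_lit 469) (nat_lit 1) (nat_lit 484) (nat_lit 1) (nat_lit 398) (nat_lit 384) (nat_lit 358)) (XT.lf (nat_lit 76) (nat_lit 810237731) (nat_lit 0) (nat_lit 1781710023) (nat_lit 1216) (nat_lit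 810237731) (nat_lit 470) (nat_lit 1) (nat_lit 469) (nat_lit 1) (nat_lit 485) (nat_lit 1) (nat_lit 399) (nat_lit 384) (nat_lit 357)))) (XT.nd (nat_lit 156) (nat_lit 912) (nat_lit 0) (XT.nd (nat_lit 78) (nat_lit 0) (nat_lit 0) (XT.lf (nat_lit 988) (nat_lit 1306305357) (nat_lit 0) (nat_lit 1032652859) (nat_lit 912) (nat_lit 1032652859) (nat_lit 470) (nat_lit 1) (nat_lit 457) (nat_lit 1) (nat_lit 469) (nat_lit 1) (nat_lit 400) (nat_lit 384) (nat_lit 356)) (XT.lf (nat_lit 76) (nat_lit 494822210) (nat_lit 0) (nat_lit 2351822114) (nat_lit 988) (nat_lit 494822210) (nat_lit 458) (nat_lit 1) (nat_lit 457) (nat_lit 1) (nat_lit 470) (nat_lit 1) (nat_lit 401) (nat_lit 384) (nat_lit 355))) (XT.nd (nat_lit 78) (nat_lit 0) (nat_lit 0) (XT.lf (nat_lit 988) (nat_lit 663720010) (nat_lit 0) (nat_lit 1323944836) (nat_lit 912) (nat_lit 1323944836) (nat_lit 458) (nat_lit 1) (nat_lit 445) (nat_lit 1) (nat_lit 457) (nat_lit 1) (nat_lit 402) (nat_lit 384) (nat_lit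 354)) (XT.lf (nat_lit 76) (nat_lit 169895388) (nat_lit 0) (nat_lit 2942461296) (nat_lit 988) (nat_lit 169895388) (nat_lit 446) (nat_lit 1) (nat_lit 445) (nat_lit 1) (nat_lit 458) (nat_lit 1) (nat_lit 403) (nat_lit 384) (nat_lit 353))))))))
noncomputable def ec22 : XT := (XT.nd (nat_lit 1872) (nat_lit 2432) (nat_lit 0) (XT.nd (nat_lit 936) (nat_lit 4864) (nat_lit 0) (XT.nd (nat_lit 468) (nat_lit 2356) (nat_lit 0) (XT.nd (nat_lit 234) (nat_lit 1672) (nat_lit 0) (XT.nd (nat_lit 78) (nat_lit 988) (nat_lit 0) (XT.lf (nat_lit 912) (nat_lit 2854798) (nat_lit 0) (nat_lit 1625117864) (nat_lit 836) (nat_lit 1625117864) (nat_lit 446) (nat_lit 1) (nat_lit 434) (nat_lit 1) (nat_lit 445) (nat_lit 1) (nat_lit 404) (nat_lit 384) (nat_lit 352)) (XT.nd (nat_lit 78) (nat_lit 0) (nat_lit 0) (XT.lf (nat_lit 988) (nat_lit 2899076134) (nat_lit 0) (nat_lit 162669467) (nat_lit 912) (nat_lit 162669467) (nat_lit 434) (nat_lit 1) (nat_lit 421) (nat_lit 1) (nat_lit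 433) (nat_lit 1) (nat_lit 405) (nat_lit 384) (nat_lit 351)) (XT.lf (nat_lit 76) (nat_lit 1265020770) (nat_lit 0) (nat_lit 665883515) (nat_lit 988) (nat_lit 1265020770) (nat_lit 422) (nat_lit 1) (nat_lit 421) (nat_lit 1) (nat_lit 434) (nat_lit 1) (nat_lit 406) (nat_lit 384) (nat_lit 350)))) (XT.nd (nat_lit 78) (nat_lit 836) (nat_lit 0) (XT.lf (nat_lit 912) (nat_lit 2163862107) (nat_lit 0) (nat_lit 502022832) (nat_lit 836) (nat_lit 502022832) (nat_lit 422) (nat_lit 1) (nat_lit 410) (nat_lit 1) (nat_lit 421) (nat_lit 1) (nat_lit 407) (nat_lit 384) (nat_lit 349)) (XT.nd (nat_lit 78) (nat_lit 836) (nat_lit 0) (XT.lf (nat_lit 76) (nat_lit 895266225) (nat_lit 0) (nat_lit 1349626413) (nat_lit 912) (nat_lit 895266225) (nat_lit 411) (nat_lit 1) (nat_lit 410) (nat_lit 1) (nat_lit 422) (nat_lit 1) (nat_lit 408) (nat_lit 384) (nat_lit 348)) (XT.lf (nat_lit 912) (nat_lit 1415643861) (nat_lit 0) (nat_lit 848568044) (nat_lit 836) (nat_lit 848568044)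 (nat_lit 411) (nat_lit 1) (nat_lit 399) (nat_lit 1) (nat_lit 410) (nat_lit 1) (nat_lit 409) (nat_lit 384) (nat_lit 347))))) (XT.nd (nat_lit 234) (nat_lit 1596) (nat_lit 0) (XT.nd (nat_lit 78) (nat_lit 760) (nat_lit 0) (XT.lf (nat_lit 76) (nat_lit 519365452) (nat_lit 0) (nat_lit 2047023147) (nat_lit 912) (nat_lit 519365452) (nat_lit 400) (nat_lit 1) (nat_lit 399) (nat_lit 1) (nat_lit 411) (nat_lit 1) (nat_lit 410) (nat_lit 384) (nat_lit 346)) (XT.nd (nat_lit 78) (nat_lit 0) (nat_lit 0) (XT.lf (nat_lit 836) (nat_lit 655741139) (nat_lit 0) (nat_lit 1201626435) (nat_lit 760) (nat_lit 1201626435) (nat_lit 400) (nat_lit 1) (nat_lit 389) (nat_lit 1) (nat_lit 399) (nat_lit 1) (nat_lit 411) (nat_lit 384) (nat_lit 345)) (XT.lf (nat_lit 76) (nat_lit 137959160) (nat_lit 0) (nat_lit 2756755202) (nat_lit 836) (nat_lit 137959160) (nat_lit 390) (nat_lit 1) (nat_lit 389) (nat_lit 1) (nat_lit 400) (nat_lit 1) (nat_lit 412) (nat_lit 384) (nat_lit 344))))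 (XT.nd (nat_lit 78) (nat_lit 760) (nat_lit 0) (XT.lf (nat_lit 76) (nat_lit 1446704001) (nat_lit 0) (nat_lit 113090623) (nat_lit 836) (nat_lit 1446704001) (nat_lit 379) (nat_lit 1) (nat_lit 378) (nat_lit 1) (nat_lit 389) (nat_lit 1) (nat_lit 413) (nat_lit 384) (nat_lit 343)) (XT.nd (nat_lit 78) (nat_lit 0) (nat_lit 0) (XT.lf (nat_lit 836) (nat_lit 2487330175) (nat_lit 0) (nat_lit 246710855) (nat_lit 760) (nat_lit 246710855) (nat_lit 379) (nat_lit 1) (nat_lit 368) (nat_lit 1) (nat_lit 378) (nat_lit 1) (nat_lit 414) (nat_lit 384) (nat_lit 342)) (XT.lf (nat_lit 76) (nat_lit 1036371136) (nat_lit 0) (nat_lit 882444723) (nat_lit 836) (nat_lit 1036371136) (nat_lit 369) (nat_lit 1) (nat_lit 368) (nat_lit 1) (nat_lit 379) (nat_lit 1) (nat_lit 415) (nat_lit 384) (nat_lit 341)))))) (XT.nd (nat_lit 468) (nat_lit 1976) (nat_lit 0) (XT.nd (nat_lit 234) (nat_lit 1444) (nat_lit 0) (XT.nd (nat_lit 78) (nat_lit 684) (nat_lit 0) (XT.lf (nat_lit 836) (nat_lit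 1660477986) (nat_lit 0) (nat_lit 634765778) (nat_lit 760) (nat_lit 634765778) (nat_lit 369) (nat_lit 1) (nat_lit 358) (nat_lit 1) (nat_lit 368) (nat_lit 1) (nat_lit 416) (nat_lit 384) (nat_lit 340)) (XT.nd (nat_lit 78) (nat_lit 684) (nat_lit 0) (XT.lf (nat_lit 76) (nat_lit 622650385) (nat_lit 0) (nat_lit 1659809376) (nat_lit 836) (nat_lit 622650385) (nat_lit 359) (nat_lit 1) (nat_lit 358) (nat_lit 1) (nat_lit 369) (nat_lit 1) (nat_lit 417) (nat_lit 384) (nat_lit 339)) (XT.lf (nat_lit 760) (nat_lit 827344486) (nat_lit 0) (nat_lit 1026570187) (nat_lit 684) (nat_lit 1026570187) (nat_lit 359) (nat_lit 1) (nat_lit 349) (nat_lit 1) (nat_lit 358) (nat_lit 1) (nat_lit 418) (nat_lit 384) (nat_lit 338)))) (XT.nd (nat_lit 78) (nat_lit 1444) (nat_lit 0) (XT.lf (nat_lit 76) (nat_lit 206052160) (nat_lit 0) (nat_lit 2444130670) (nat_lit 760) (nat_lit 206052160) (nat_lit 350) (nat_lit 1) (nat_lit 349) (nat_lit 1) (nat_lit 359) (nat_lit 1) (nat_lit 419)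 (nat_lit 384) (nat_lit 337)) (XT.nd (nat_lit 78) (nat_lit 684) (nat_lit 0) (XT.lf (nat_lit 76) (nat_lit 1410607712) (nat_lit 0) (nat_lit 10928454) (nat_lit 760) (nat_lit 1410607712) (nat_lit 340) (nat_lit 1) (nat_lit 339) (nat_lit 1) (nat_lit 349) (nat_lit 1) (nat_lit 420) (nat_lit 384) (nat_lit 336)) (XT.lf (nat_lit 760) (nat_lit 2385339548) (nat_lit 0) (nat_lit 211539452) (nat_lit 684) (nat_lit 211539452) (nat_lit 340) (nat_lit 1) (nat_lit 330) (nat_lit 1) (nat_lit 339) (nat_lit 1) (nat_lit 421) (nat_lit 384) (nat_lit 335))))) (XT.nd (nat_lit 234) (nat_lit 1292) (nat_lit 0) (XT.nd (nat_lit 78) (nat_lit 684) (nat_lit 0) (XT.lf (nat_lit 76) (nat_lit 971106653) (nat_lit 0) (nat_lit 842635182) (nat_lit 760) (nat_lit 971106653) (nat_lit 331) (nat_lit 1) (nat_lit 330) (nat_lit 1) (nat_lit 340) (nat_lit 1) (nat_lit 422) (nat_lit 384) (nat_lit 334)) (XT.nd (nat_lit 78) (nat_lit 0) (nat_lit 0) (XT.lf (nat_lit 760) (nat_lit 1502232162) (nat_lit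 0) (nat_lit 629699909) (nat_lit 684) (nat_lit 629699909) (nat_lit 331) (nat_lit 1) (nat_lit 321) (nat_lit 1) (nat_lit 330) (nat_lit 1) (nat_lit 423) (nat_lit 384) (nat_lit 333)) (XT.lf (nat_lit 76) (nat_lit 530464770) (nat_lit 0) (nat_lit 1677746086) (nat_lit 760) (nat_lit 530464770) (nat_lit 322) (nat_lit 1) (nat_lit 321) (nat_lit 1) (nat_lit 331) (nat_lit 1) (nat_lit 424) (nat_lit 384) (nat_lit 332)))) (XT.nd (nat_lit 78) (nat_lit 684) (nat_lit 0) (XT.lf (nat_lit 684) (nat_lit 617242110) (nat_lit 0) (nat_lit 1049355431) (nat_lit 608) (nat_lit 1049355431) (nat_lit 322) (nat_lit 1) (nat_lit 313) (nat_lit 1) (nat_lit 321) (nat_lit 1) (nat_lit 425) (nat_lit 384) (nat_lit 331)) (XT.nd (nat_lit 78) (nat_lit 684) (nat_lit 0) (XT.lf (nat_lit 76) (nat_lit 89083368) (nat_lit 0) (nat_lit 2515428972) (nat_lit 684) (nat_lit 89083368) (nat_lit 314) (nat_lit 1) (nat_lit 313) (nat_lit 1) (nat_lit 322) (nat_lit 1) (nat_lit 426) (nat_lit 384) (nat_lit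 330)) (XT.lf (nat_lit 76) (nat_lit 1202997612) (nat_lit 0) (nat_lit 265322198) (nat_lit 684) (nat_lit 1202997612) (nat_lit 305) (nat_lit 1) (nat_lit 304) (nat_lit 1) (nat_lit 313) (nat_lit 1) (nat_lit 427) (nat_lit 384) (nat_lit 329))))))) (XT.nd (nat_lit 55302) (nat_lit 0) (nat_lit 17328) (XT.nd (nat_lit 54834) (nat_lit 0) (nat_lit 17100) (XT.nd (nat_lit 234) (nat_lit 1216) (nat_lit 0) (XT.nd (nat_lit 78) (nat_lit 608) (nat_lit 0) (XT.lf (nat_lit 684) (nat_lit 1948718805) (nat_lit 0) (nat_lit 350338710) (nat_lit 608) (nat_lit 350338710) (nat_lit 305) (nat_lit 1) (nat_lit 296) (nat_lit 1) (nat_lit 304) (nat_lit 1) (nat_lit 428) (nat_lit 384) (nat_lit 328)) (XT.nd (nat_lit 78) (nat_lit 608) (nat_lit 0) (XT.lf (nat_lit 76) (nat_lit 743751583) (nat_lit 0) (nat_lit 1140148640) (nat_lit 684) (nat_lit 743751583) (nat_lit 297) (nat_lit 1) (nat_lit 296) (nat_lit 1) (nat_lit 305) (nat_lit 1) (nat_lit 429) (nat_lit 384) (nat_lit 327)) (XT.lf (nat_lit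 684) (nat_lit 1027829994) (nat_lit 0) (nat_lit 789178339) (nat_lit 608) (nat_lit 789178339) (nat_lit 297) (nat_lit 1) (nat_lit 288) (nat_lit 1) (nat_lit 296) (nat_lit 1) (nat_lit 430) (nat_lit 384) (nat_lit 326)))) (XT.nd (nat_lit 78) (nat_lit 1216) (nat_lit 0) (XT.lf (nat_lit 76) (nat_lit 285181600) (nat_lit 0) (nat_lit 2014645755) (nat_lit 684) (nat_lit 285181600) (nat_lit 289) (nat_lit 1) (nat_lit 288) (nat_lit 1) (nat_lit 297) (nat_lit 1) (nat_lit 431) (nat_lit 384) (nat_lit 325)) (XT.nd (nat_lit 78) (nat_lit 684) (nat_lit 0) (XT.lf (nat_lit 608) (nat_lit 108612095) (nat_lit 0) (nat_lit 1227687252) (nat_lit 532) (nat_lit 1227687252) (nat_lit 289) (nat_lit 1) (nat_lit 281) (nat_lit 1) (nat_lit 288) (nat_lit 1) (nat_lit 432) (nat_lit 384) (nat_lit 324)) (XT.lf (nat_lit 684) (nat_lit 2200736594) (nat_lit 0) (nat_lit 171267951) (nat_lit 608) (nat_lit 171267951) (nat_lit 281) (nat_lit 1) (nat_lit 272) (nat_lit 1) (nat_lit 280) (nat_lit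 1) (nat_lit 433) (nat_lit 384) (nat_lit 323))))) (XT.nd (nat_lit 234) (nat_lit 0) (nat_lit 76) (XT.nd (nat_lit 78) (nat_lit 0) (nat_lit 0) (XT.lf (nat_lit 1900) (nat_lit 744708334) (nat_lit 0) (nat_lit 750935827) (nat_lit 1900) (nat_lit 744708334) (nat_lit 522) (nat_lit 1) (nat_lit 497) (nat_lit 0) (nat_lit 522) (nat_lit 0) (nat_lit 370) (nat_lit 385) (nat_lit 385)) (XT.nd (nat_lit 78) (nat_lit 0) (nat_lit 76) (XT.lf (nat_lit 1900) (nat_lit 2944688721) (nat_lit 76) (nat_lit 745995460) (nat_lit 0) (nat_lit 745995460) (nat_lit 522) (nat_lit 1) (nat_lit 498) (nat_lit 1) (nat_lit 497) (nat_lit 0) (nat_lit 371) (nat_lit 385) (nat_lit 384)) (XT.lf (nat_lit 1900) (nat_lit 1445856179) (nat_lit 0) (nat_lit 1501422798) (nat_lit 1824) (nat_lit 1445856179) (nat_lit 523) (nat_lit 1) (nat_lit 498) (nat_lit 1) (nat_lit 522) (nat_lit 1) (nat_lit 372) (nat_lit 385) (nat_lit 383)))) (XT.nd (nat_lit 78) (nat_lit 0) (nat_lit 76) (XT.lf (nat_lit 1900) (nat_lit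 2829896965) (nat_lit 76) (nat_lit 760176918) (nat_lit 0) (nat_lit 760176918) (nat_lit 523) (nat_lit 1) (nat_lit 499) (nat_lit 1) (nat_lit 498) (nat_lit 1) (nat_lit 373) (nat_lit 385) (nat_lit 382)) (XT.nd (nat_lit 78) (nat_lit 0) (nat_lit 0) (XT.lf (nat_lit 1900) (nat_lit 1375276300) (nat_lit 0) (nat_lit 1557287247) (nat_lit 1824) (nat_lit 1375276300) (nat_lit 524) (nat_lit 1) (nat_lit 499) (nat_lit 1) (nat_lit 523) (nat_lit 1) (nat_lit 374) (nat_lit 385) (nat_lit 381)) (XT.lf (nat_lit 1900) (nat_lit 2662518695) (nat_lit 76) (nat_lit 801770447) (nat_lit 0) (nat_lit 801770447) (nat_lit 524) (nat_lit 1) (nat_lit 500) (nat_lit 1) (nat_lit 499) (nat_lit 1) (nat_lit 375) (nat_lit 385) (nat_lit 380)))))) (XT.nd (nat_lit 468) (nat_lit 0) (nat_lit 228) (XT.nd (nat_lit 234) (nat_lit 0) (nat_lit 76) (XT.nd (nat_lit 78) (nat_lit 0) (nat_lit 0) (XT.lf (nat_lit 1900) (nat_lit 1279289185) (nat_lit 0) (nat_lit 1666174445) (nat_lit 1824) (nat_lit 1279289185)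 (nat_lit 525) (nat_lit 1) (nat_lit 500) (nat_lit 1) (nat_lit 524) (nat_lit 1) (nat_lit 376) (nat_lit 385) (nat_lit 379)) (XT.nd (nat_lit 78) (nat_lit 0) (nat_lit 76) (XT.lf (nat_lit 1900) (nat_lit 2445714419) (nat_lit 76) (nat_lit 869163313) (nat_lit 0) (nat_lit 869163313) (nat_lit 525) (nat_lit 1) (nat_lit 501) (nat_lit 1) (nat_lit 500) (nat_lit 1) (nat_lit 377) (nat_lit 385) (nat_lit 378)) (XT.lf (nat_lit 1900) (nat_lit 1159433351) (nat_lit 0) (nat_lit 1824943259) (nat_lit 1824) (nat_lit 1159433351) (nat_lit 526) (nat_lit 1) (nat_lit 501) (nat_lit 1) (nat_lit 525) (nat_lit 1) (nat_lit 378) (nat_lit 385) (nat_lit 377)))) (XT.nd (nat_lit 78) (nat_lit 0) (nat_lit 76) (XT.lf (nat_lit 1900) (nat_lit 2182499988) (nat_lit 76) (nat_lit 960816158) (nat_lit 0) (nat_lit 960816158) (nat_lit 526) (nat_lit 1) (nat_lit 502) (nat_lit 1) (nat_lit 501) (nat_lit 1) (nat_lit 379) (nat_lit 385) (nat_lit 376)) (XT.nd (nat_lit 78) (nat_lit 0) (nat_lit 0)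 (XT.lf (nat_lit 1900) (nat_lit 1017176745) (nat_lit 0) (nat_lit 2030595747) (nat_lit 1824) (nat_lit 1017176745) (nat_lit 527) (nat_lit 1) (nat_lit 502) (nat_lit 1) (nat_lit 526) (nat_lit 1) (nat_lit 380) (nat_lit 385) (nat_lit 375)) (XT.lf (nat_lit 1900) (nat_lit 1875752642) (nat_lit 76) (nat_lit 1075259939) (nat_lit 0) (nat_lit 1075259939) (nat_lit 527) (nat_lit 1) (nat_lit 503) (nat_lit 1) (nat_lit 502) (nat_lit 1) (nat_lit 381) (nat_lit 385) (nat_lit 374))))) (XT.nd (nat_lit 234) (nat_lit 0) (nat_lit 76) (XT.nd (nat_lit 78) (nat_lit 0) (nat_lit 0) (XT.lf (nat_lit 1900) (nat_lit 853919706) (nat_lit 0) (nat_lit 2280271186) (nat_lit 1824) (nat_lit 853919706) (nat_lit 528) (nat_lit 1) (nat_lit 503) (nat_lit 1) (nat_lit 527) (nat_lit 1) (nat_lit 382) (nat_lit 385) (nat_lit 373)) (XT.nd (nat_lit 78) (nat_lit 0) (nat_lit 76) (XT.lf (nat_lit 1900) (nat_lit 1528216815) (nat_lit 76) (nat_lit 1211092991) (nat_lit 0) (nat_lit 1211092991) (nat_lit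 528) (nat_lit 1) (nat_lit 504) (nat_lit 1) (nat_lit 503) (nat_lit 1) (nat_lit 383) (nat_lit 385) (nat_lit 372)) (XT.lf (nat_lit 1900) (nat_lit 670997793) (nat_lit 0) (nat_lit 2571240332) (nat_lit 1824) (nat_lit 670997793) (nat_lit 529) (nat_lit 1) (nat_lit 504) (nat_lit 1) (nat_lit 528) (nat_lit 1) (nat_lit 384) (nat_lit 385) (nat_lit 371)))) (XT.nd (nat_lit 78) (nat_lit 0) (nat_lit 76) (XT.lf (nat_lit 1900) (nat_lit 1142509702) (nat_lit 76) (nat_lit 1366978207) (nat_lit 0) (nat_lit 1366978207) (nat_lit 529) (nat_lit 1) (nat_lit 505) (nat_lit 1) (nat_lit 504) (nat_lit 1) (nat_lit 385) (nat_lit 385) (nat_lit 370)) (XT.nd (nat_lit 78) (nat_lit 0) (nat_lit 0) (XT.lf (nat_lit 1900) (nat_lit 469684507) (nat_lit 0) (nat_lit 2900899918) (nat_lit 1824) (nat_lit 469684507) (nat_lit 530) (nat_lit 1) (nat_lit 505) (nat_lit 1) (nat_lit 529) (nat_lit 1) (nat_lit 386) (nat_lit 385) (nat_lit 369)) (XT.lf (nat_lit 1900) (nat_lit 721126611) (nat_lit 76)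 (nat_lit 1541640336) (nat_lit 0) (nat_lit 1541640336) (nat_lit 530) (nat_lit 1) (nat_lit 506) (nat_lit 1) (nat_lit 505) (nat_lit 1) (nat_lit 387) (nat_lit 385) (nat_lit 368))))))))
noncomputable def ec23 : XT := (XT.nd (nat_lit 1872) (nat_lit 8588) (nat_lit 0) (XT.nd (nat_lit 936) (nat_lit 6004) (nat_lit 0) (XT.nd (nat_lit 468) (nat_lit 1900) (nat_lit 0) (XT.nd (nat_lit 234) (nat_lit 1824) (nat_lit 0) (XT.nd (nat_lit 78) (nat_lit 0) (nat_lit 0) (XT.lf (nat_lit 1900) (nat_lit 251193898) (nat_lit 0) (nat_lit 3266767367) (nat_lit 1824) (nat_lit 251193898) (nat_lit 531) (nat_lit 1) (nat_lit 506) (nat_lit 1) (nat_lit 530) (nat_lit 1) (nat_lit 388) (nat_lit 385) (nat_lit 367)) (XT.nd (nat_lit 78) (nat_lit 0) (nat_lit 76) (XT.lf (nat_lit 1900) (nat_lit 266446088) (nat_lit 76) (nat_lit 1733863382) (nat_lit 0) (nat_lit 1733863382) (nat_lit 531) (nat_lit 1) (nat_lit 507) (nat_lit 1) (nat_lit 506) (nat_lit 1) (nat_lit 389) (nat_lit 385) (nat_lit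 366)) (XT.lf (nat_lit 1900) (nat_lit 16683072) (nat_lit 0) (nat_lit 3666475726) (nat_lit 1824) (nat_lit 16683072) (nat_lit 532) (nat_lit 1) (nat_lit 507) (nat_lit 1) (nat_lit 531) (nat_lit 1) (nat_lit 390) (nat_lit 385) (nat_lit 365)))) (XT.nd (nat_lit 78) (nat_lit 0) (nat_lit 0) (XT.lf (nat_lit 1976) (nat_lit 1724646573) (nat_lit 0) (nat_lit 216389453) (nat_lit 1900) (nat_lit 1724646573) (nat_lit 508) (nat_lit 1) (nat_lit 482) (nat_lit 1) (nat_lit 507) (nat_lit 1) (nat_lit 391) (nat_lit 385) (nat_lit 364)) (XT.nd (nat_lit 78) (nat_lit 0) (nat_lit 76) (XT.lf (nat_lit 1976) (nat_lit 3169728308) (nat_lit 76) (nat_lit 231214186) (nat_lit 0) (nat_lit 231214186) (nat_lit 508) (nat_lit 1) (nat_lit 483) (nat_lit 1) (nat_lit 482) (nat_lit 1) (nat_lit 392) (nat_lit 385) (nat_lit 363)) (XT.lf (nat_lit 1976) (nat_lit 1437326777) (nat_lit 0) (nat_lit 724222980) (nat_lit 1900) (nat_lit 1437326777) (nat_lit 509) (nat_lit 1) (nat_lit 483) (nat_lit 1)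 (nat_lit 508) (nat_lit 1) (nat_lit 393) (nat_lit 385) (nat_lit 362))))) (XT.nd (nat_lit 234) (nat_lit 912) (nat_lit 0) (XT.nd (nat_lit 78) (nat_lit 1064) (nat_lit 0) (XT.lf (nat_lit 1976) (nat_lit 2580599955) (nat_lit 76) (nat_lit 492777779) (nat_lit 0) (nat_lit 492777779) (nat_lit 509) (nat_lit 1) (nat_lit 484) (nat_lit 1) (nat_lit 483) (nat_lit 1) (nat_lit 394) (nat_lit 385) (nat_lit 361)) (XT.nd (nat_lit 78) (nat_lit 1140) (nat_lit 0) (XT.lf (nat_lit 76) (nat_lit 1137611024) (nat_lit 0) (nat_lit 1258518937) (nat_lit 1900) (nat_lit 1137611024) (nat_lit 485) (nat_lit 1) (nat_lit 484) (nat_lit 1) (nat_lit 509) (nat_lit 1) (nat_lit 395) (nat_lit 385) (nat_lit 360)) (XT.lf (nat_lit 1216) (nat_lit 1967552212) (nat_lit 0) (nat_lit 767123737) (nat_lit 1140) (nat_lit 767123737) (nat_lit 485) (nat_lit 1) (nat_lit 469) (nat_lit 1) (nat_lit 484) (nat_lit 1) (nat_lit 396) (nat_lit 385) (nat_lit 359)))) (XT.nd (nat_lit 78) (nat_lit 912) (nat_lit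 0) (XT.lf (nat_lit 76) (nat_lit 826442485) (nat_lit 0) (nat_lit 1817344224) (nat_lit 1216) (nat_lit 826442485) (nat_lit 470) (nat_lit 1) (nat_lit 469) (nat_lit 1) (nat_lit 485) (nat_lit 1) (nat_lit 397) (nat_lit 385) (nat_lit 358)) (XT.nd (nat_lit 78) (nat_lit 0) (nat_lit 0) (XT.lf (nat_lit 988) (nat_lit 1332431464) (nat_lit 0) (nat_lit 1053305916) (nat_lit 912) (nat_lit 1053305916) (nat_lit 470) (nat_lit 1) (nat_lit 457) (nat_lit 1) (nat_lit 469) (nat_lit 1) (nat_lit 398) (nat_lit 385) (nat_lit 357)) (XT.lf (nat_lit 76) (nat_lit 504718655) (nat_lit 0) (nat_lit 2398858557) (nat_lit 988) (nat_lit 504718655) (nat_lit 458) (nat_lit 1) (nat_lit 457) (nat_lit 1) (nat_lit 470) (nat_lit 1) (nat_lit 399) (nat_lit 385) (nat_lit 356)))))) (XT.nd (nat_lit 468) (nat_lit 2432) (nat_lit 0) (XT.nd (nat_lit 234) (nat_lit 1824) (nat_lit 0) (XT.nd (nat_lit 78) (nat_lit 836) (nat_lit 0) (XT.lf (nat_lit 988) (nat_lit 676994410) (nat_lit 0) (nat_lit 1350423733)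 (nat_lit 912) (nat_lit 1350423733) (nat_lit 458) (nat_lit 1) (nat_lit 445) (nat_lit 1) (nat_lit 457) (nat_lit 1) (nat_lit 400) (nat_lit 385) (nat_lit 355)) (XT.nd (nat_lit 78) (nat_lit 836) (nat_lit 0) (XT.lf (nat_lit 76) (nat_lit 173293296) (nat_lit 0) (nat_lit 3001310522) (nat_lit 988) (nat_lit 173293296) (nat_lit 446) (nat_lit 1) (nat_lit 445) (nat_lit 1) (nat_lit 458) (nat_lit 1) (nat_lit 401) (nat_lit 385) (nat_lit 354)) (XT.lf (nat_lit 912) (nat_lit 2911894) (nat_lit 0) (nat_lit 1657620221) (nat_lit 836) (nat_lit 1657620221) (nat_lit 446) (nat_lit 1) (nat_lit 434) (nat_lit 1) (nat_lit 445) (nat_lit 1) (nat_lit 402) (nat_lit 385) (nat_lit 353)))) (XT.nd (nat_lit 78) (nat_lit 836) (nat_lit 0) (XT.lf (nat_lit 988) (nat_lit 2957057657) (nat_lit 0) (nat_lit 165922856) (nat_lit 912) (nat_lit 165922856) (nat_lit 434) (nat_lit 1) (nat_lit 421) (nat_lit 1) (nat_lit 433) (nat_lit 1) (nat_lit 403) (nat_lit 385) (nat_lit 352)) (XT.nd (nat_lit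 78) (nat_lit 836) (nat_lit 0) (XT.lf (nat_lit 76) (nat_lit 1290321186) (nat_lit 0) (nat_lit 679201185) (nat_lit 988) (nat_lit 1290321186) (nat_lit 422) (nat_lit 1) (nat_lit 421) (nat_lit 1) (nat_lit 434) (nat_lit 1) (nat_lit 404) (nat_lit 385) (nat_lit 351)) (XT.lf (nat_lit 912) (nat_lit 2207139349) (nat_lit 0) (nat_lit 512063289) (nat_lit 836) (nat_lit 512063289) (nat_lit 422) (nat_lit 1) (nat_lit 410) (nat_lit 1) (nat_lit 421) (nat_lit 1) (nat_lit 405) (nat_lit 385) (nat_lit 350))))) (XT.nd (nat_lit 234) (nat_lit 1596) (nat_lit 0) (XT.nd (nat_lit 78) (nat_lit 836) (nat_lit 0) (XT.lf (nat_lit 76) (nat_lit 913171549) (nat_lit 0) (nat_lit 1376618941) (nat_lit 912) (nat_lit 913171549) (nat_lit 411) (nat_lit 1) (nat_lit 410) (nat_lit 1) (nat_lit 422) (nat_lit 1) (nat_lit 406) (nat_lit 385) (nat_lit 349)) (XT.nd (nat_lit 78) (nat_lit 0) (nat_lit 0) (XT.lf (nat_lit 912) (nat_lit 1443956738) (nat_lit 0) (nat_lit 865539405) (nat_lit 836) (nat_lit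 865539405) (nat_lit 411) (nat_lit 1) (nat_lit 399) (nat_lit 1) (nat_lit 410) (nat_lit 1) (nat_lit 407) (nat_lit 385) (nat_lit 348)) (XT.lf (nat_lit 76) (nat_lit 529752761) (nat_lit 0) (nat_lit 2087963610) (nat_lit 912) (nat_lit 529752761) (nat_lit 400) (nat_lit 1) (nat_lit 399) (nat_lit 1) (nat_lit 411) (nat_lit 1) (nat_lit 408) (nat_lit 385) (nat_lit 347)))) (XT.nd (nat_lit 78) (nat_lit 836) (nat_lit 0) (XT.lf (nat_lit 836) (nat_lit 668855962) (nat_lit 0) (nat_lit 1225658963) (nat_lit 760) (nat_lit 1225658963) (nat_lit 400) (nat_lit 1) (nat_lit 389) (nat_lit 1) (nat_lit 399) (nat_lit 1) (nat_lit 409) (nat_lit 385) (nat_lit 346)) (XT.nd (nat_lit 78) (nat_lit 836) (nat_lit 0) (XT.lf (nat_lit 76) (nat_lit 140718343) (nat_lit 0) (nat_lit 2811890306) (nat_lit 836) (nat_lit 140718343) (nat_lit 390) (nat_lit 1) (nat_lit 389) (nat_lit 1) (nat_lit 400) (nat_lit 1) (nat_lit 410) (nat_lit 385) (nat_lit 345)) (XT.lf (nat_lit 76) (nat_lit 1475638081)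 (nat_lit 0) (nat_lit 115352435) (nat_lit 836) (nat_lit 1475638081) (nat_lit 379) (nat_lit 1) (nat_lit 378) (nat_lit 1) (nat_lit 389) (nat_lit 1) (nat_lit 411) (nat_lit 385) (nat_lit 344))))))) (XT.nd (nat_lit 936) (nat_lit 3648) (nat_lit 0) (XT.nd (nat_lit 468) (nat_lit 2736) (nat_lit 0) (XT.nd (nat_lit 234) (nat_lit 684) (nat_lit 0) (XT.nd (nat_lit 78) (nat_lit 760) (nat_lit 0) (XT.lf (nat_lit 836) (nat_lit 2537076779) (nat_lit 0) (nat_lit 251645072) (nat_lit 760) (nat_lit 251645072) (nat_lit 379) (nat_lit 1) (nat_lit 368) (nat_lit 1) (nat_lit 378) (nat_lit 1) (nat_lit 412) (nat_lit 385) (nat_lit 343)) (XT.nd (nat_lit 78) (nat_lit 760) (nat_lit 0) (XT.lf (nat_lit 76) (nat_lit 1057098558) (nat_lit 0) (nat_lit 900093617) (nat_lit 836) (nat_lit 1057098558) (nat_lit 369) (nat_lit 1) (nat_lit 368) (nat_lit 1) (nat_lit 379) (nat_lit 1) (nat_lit 413) (nat_lit 385) (nat_lit 342)) (XT.lf (nat_lit 836) (nat_lit 1693687546) (nat_lit 0) (nat_lit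 647461094) (nat_lit 760) (nat_lit 647461094) (nat_lit 369) (nat_lit 1) (nat_lit 358) (nat_lit 1) (nat_lit 368) (nat_lit 1) (nat_lit 414) (nat_lit 385) (nat_lit 341)))) (XT.nd (nat_lit 78) (nat_lit 684) (nat_lit 0) (XT.lf (nat_lit 76) (nat_lit 635103393) (nat_lit 0) (nat_lit 1693005564) (nat_lit 836) (nat_lit 635103393) (nat_lit 359) (nat_lit 1) (nat_lit 358) (nat_lit 1) (nat_lit 369) (nat_lit 1) (nat_lit 415) (nat_lit 385) (nat_lit 340)) (XT.nd (nat_lit 78) (nat_lit 0) (nat_lit 0) (XT.lf (nat_lit 760) (nat_lit 843891376) (nat_lit 0) (nat_lit 1047101591) (nat_lit 684) (nat_lit 1047101591) (nat_lit 359) (nat_lit 1) (nat_lit 349) (nat_lit 1) (nat_lit 358) (nat_lit 1) (nat_lit 416) (nat_lit 385) (nat_lit 339)) (XT.lf (nat_lit 76) (nat_lit 210173203) (nat_lit 0) (nat_lit 2493013284) (nat_lit 760) (nat_lit 210173203) (nat_lit 350) (nat_lit 1) (nat_lit 349) (nat_lit 1) (nat_lit 359) (nat_lit 1) (nat_lit 417) (nat_lit 385) (nat_lit 338))))) (XT.nd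 (nat_lit 234) (nat_lit 1292) (nat_lit 0) (XT.nd (nat_lit 78) (nat_lit 684) (nat_lit 0) (XT.lf (nat_lit 76) (nat_lit 1438819867) (nat_lit 0) (nat_lit 11147023) (nat_lit 760) (nat_lit 1438819867) (nat_lit 340) (nat_lit 1) (nat_lit 339) (nat_lit 1) (nat_lit 349) (nat_lit 1) (nat_lit 418) (nat_lit 385) (nat_lit 337)) (XT.nd (nat_lit 78) (nat_lit 0) (nat_lit 0) (XT.lf (nat_lit 760) (nat_lit 2433046339) (nat_lit 0) (nat_lit 215770241) (nat_lit 684) (nat_lit 215770241) (nat_lit 340) (nat_lit 1) (nat_lit 330) (nat_lit 1) (nat_lit 339) (nat_lit 1) (nat_lit 419) (nat_lit 385) (nat_lit 336)) (XT.lf (nat_lit 76) (nat_lit 990528786) (nat_lit 0) (nat_lit 859487885) (nat_lit 760) (nat_lit 990528786) (nat_lit 331) (nat_lit 1) (nat_lit 330) (nat_lit 1) (nat_lit 340) (nat_lit 1) (nat_lit 420) (nat_lit 385) (nat_lit 335)))) (XT.nd (nat_lit 78) (nat_lit 608) (nat_lit 0) (XT.lf (nat_lit 760) (nat_lit 1532276805) (nat_lit 0) (nat_lit 642293907) (nat_lit 684)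 (nat_lit 642293907) (nat_lit 331) (nat_lit 1) (nat_lit 321) (nat_lit 1) (nat_lit 330) (nat_lit 1) (nat_lit 421) (nat_lit 385) (nat_lit 334)) (XT.nd (nat_lit 78) (nat_lit 608) (nat_lit 0) (XT.lf (nat_lit 76) (nat_lit 541074066) (nat_lit 0) (nat_lit 1711301008) (nat_lit 760) (nat_lit 541074066) (nat_lit 322) (nat_lit 1) (nat_lit 321) (nat_lit 1) (nat_lit 331) (nat_lit 1) (nat_lit 422) (nat_lit 385) (nat_lit 333)) (XT.lf (nat_lit 684) (nat_lit 629586952) (nat_lit 0) (nat_lit 1070342539) (nat_lit 608) (nat_lit 1070342539) (nat_lit 322) (nat_lit 1) (nat_lit 313) (nat_lit 1) (nat_lit 321) (nat_lit 1) (nat_lit 423) (nat_lit 385) (nat_lit 332)))))) (XT.nd (nat_lit 468) (nat_lit 1748) (nat_lit 0) (XT.nd (nat_lit 234) (nat_lit 608) (nat_lit 0) (XT.nd (nat_lit 78) (nat_lit 1292) (nat_lit 0) (XT.lf (nat_lit 76) (nat_lit 90865035) (nat_lit 0) (nat_lit 2565737551) (nat_lit 684) (nat_lit 90865035) (nat_lit 314) (nat_lit 1) (nat_lit 313) (nat_lit 1)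 (nat_lit 322) (nat_lit 1) (nat_lit 424) (nat_lit 385) (nat_lit 331)) (XT.nd (nat_lit 78) (nat_lit 608) (nat_lit 0) (XT.lf (nat_lit 76) (nat_lit 1227057564) (nat_lit 0) (nat_lit 270628642) (nat_lit 684) (nat_lit 1227057564) (nat_lit 305) (nat_lit 1) (nat_lit 304) (nat_lit 1) (nat_lit 313) (nat_lit 1) (nat_lit 425) (nat_lit 385) (nat_lit 330)) (XT.lf (nat_lit 684) (nat_lit 1987693181) (nat_lit 0) (nat_lit 357345484) (nat_lit 608) (nat_lit 357345484) (nat_lit 305) (nat_lit 1) (nat_lit 296) (nat_lit 1) (nat_lit 304) (nat_lit 1) (nat_lit 426) (nat_lit 385) (nat_lit 329)))) (XT.nd (nat_lit 78) (nat_lit 608) (nat_lit 0) (XT.lf (nat_lit 76) (nat_lit 758626615) (nat_lit 0) (nat_lit 1162951613) (nat_lit 684) (nat_lit 758626615) (nat_lit 297) (nat_lit 1) (nat_lit 296) (nat_lit 1) (nat_lit 305) (nat_lit 1) (nat_lit 427) (nat_lit 385) (nat_lit 328)) (XT.nd (nat_lit 78) (nat_lit 0) (nat_lit 0) (XT.lf (nat_lit 684) (nat_lit 1048386594) (nat_lit 0) (nat_lit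 804961905) (nat_lit 608) (nat_lit 804961905) (nat_lit 297) (nat_lit 1) (nat_lit 288) (nat_lit 1) (nat_lit 296) (nat_lit 1) (nat_lit 428) (nat_lit 385) (nat_lit 327)) (XT.lf (nat_lit 76) (nat_lit 290885232) (nat_lit 0) (nat_lit 2054938670) (nat_lit 684) (nat_lit 290885232) (nat_lit 289) (nat_lit 1) (nat_lit 288) (nat_lit 1) (nat_lit 297) (nat_lit 1) (nat_lit 429) (nat_lit 385) (nat_lit 326))))) (XT.nd (nat_lit 234) (nat_lit 532) (nat_lit 0) (XT.nd (nat_lit 78) (nat_lit 684) (nat_lit 0) (XT.lf (nat_lit 608) (nat_lit 110784337) (nat_lit 0) (nat_lit 1252240997) (nat_lit 532) (nat_lit 1252240997) (nat_lit 289) (nat_lit 1) (nat_lit 281) (nat_lit 1) (nat_lit 288) (nat_lit 1) (nat_lit 430) (nat_lit 385) (nat_lit 325)) (XT.nd (nat_lit 78) (nat_lit 0) (nat_lit 0) (XT.lf (nat_lit 684) (nat_lit 2244751326) (nat_lit 0) (nat_lit 174693310) (nat_lit 608) (nat_lit 174693310) (nat_lit 281) (nat_lit 1) (nat_lit 272) (nat_lit 1) (nat_lit 280) (nat_lit 1)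 (nat_lit 431) (nat_lit 385) (nat_lit 324)) (XT.lf (nat_lit 76) (nat_lit 879716842) (nat_lit 0) (nat_lit 813684565) (nat_lit 684) (nat_lit 879716842) (nat_lit 273) (nat_lit 1) (nat_lit 272) (nat_lit 1) (nat_lit 281) (nat_lit 1) (nat_lit 432) (nat_lit 385) (nat_lit 323)))) (XT.nd (nat_lit 54366) (nat_lit 0) (nat_lit 17632) (XT.nd (nat_lit 54288) (nat_lit 0) (nat_lit 17632) (XT.lf (nat_lit 608) (nat_lit 1278278888) (nat_lit 0) (nat_lit 637063426) (nat_lit 532) (nat_lit 637063426) (nat_lit 273) (nat_lit 1) (nat_lit 265) (nat_lit 1) (nat_lit 272) (nat_lit 1) (nat_lit 433) (nat_lit 385) (nat_lit 322)) (XT.lf (nat_lit 1900) (nat_lit 759602500) (nat_lit 0) (nat_lit 765954544) (nat_lit 1900) (nat_lit 759602500) (nat_lit 522) (nat_lit 1) (nat_lit 497) (nat_lit 0) (nat_lit 522) (nat_lit 0) (nat_lit 368) (nat_lit 386) (nat_lit 386))) (XT.nd (nat_lit 78) (nat_lit 0) (nat_lit 76) (XT.lf (nat_lit 1900) (nat_lit 3003582495) (nat_lit 76) (nat_lit 760915369)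 (nat_lit 0) (nat_lit 760915369) (nat_lit 522) (nat_lit 1) (nat_lit 498) (nat_lit 1) (nat_lit 497) (nat_lit 0) (nat_lit 369) (nat_lit 386) (nat_lit 385)) (XT.lf (nat_lit 1900) (nat_lit 1474773302) (nat_lit 0) (nat_lit 1531451254) (nat_lit 1824) (nat_lit 1474773302) (nat_lit 523) (nat_lit 1) (nat_lit 498) (nat_lit 1) (nat_lit 522) (nat_lit 1) (nat_lit 370) (nat_lit 386) (nat_lit 384))))))))
noncomputable def ec24 : XT := (XT.nd (nat_lit 1872) (nat_lit 10564) (nat_lit 0) (XT.nd (nat_lit 936) (nat_lit 2204) (nat_lit 0) (XT.nd (nat_lit 468) (nat_lit 0) (nat_lit 228) (XT.nd (nat_lit 234) (nat_lit 0) (nat_lit 152) (XT.nd (nat_lit 78) (nat_lit 0) (nat_lit 76) (XT.lf (nat_lit 1900) (nat_lit 2886494904) (nat_lit 76) (nat_lit 775380457) (nat_lit 0) (nat_lit 775380457) (nat_lit 523) (nat_lit 1) (nat_lit 499) (nat_lit 1) (nat_lit 498) (nat_lit 1) (nat_lit 371) (nat_lit 386) (nat_lit 383)) (XT.nd (nat_lit 78) (nat_lit 0) (nat_lit 0) (XT.lf (nat_lit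 1900) (nat_lit 1402781826) (nat_lit 0) (nat_lit 1588432992) (nat_lit 1824) (nat_lit 1402781826) (nat_lit 524) (nat_lit 1) (nat_lit 499) (nat_lit 1) (nat_lit 523) (nat_lit 1) (nat_lit 372) (nat_lit 386) (nat_lit 382)) (XT.lf (nat_lit 1900) (nat_lit 2715769069) (nat_lit 76) (nat_lit 817805856) (nat_lit 0) (nat_lit 817805856) (nat_lit 524) (nat_lit 1) (nat_lit 500) (nat_lit 1) (nat_lit 499) (nat_lit 1) (nat_lit 373) (nat_lit 386) (nat_lit 381)))) (XT.nd (nat_lit 78) (nat_lit 0) (nat_lit 0) (XT.lf (nat_lit 1900) (nat_lit 1304874969) (nat_lit 0) (nat_lit 1699497934) (nat_lit 1824) (nat_lit 1304874969) (nat_lit 525) (nat_lit 1) (nat_lit 500) (nat_lit 1) (nat_lit 524) (nat_lit 1) (nat_lit 374) (nat_lit 386) (nat_lit 380)) (XT.nd (nat_lit 78) (nat_lit 0) (nat_lit 76) (XT.lf (nat_lit 1900) (nat_lit 2494628708) (nat_lit 76) (nat_lit 886546579) (nat_lit 0) (nat_lit 886546579) (nat_lit 525) (nat_lit 1) (nat_lit 501) (nat_lit 1) (nat_lit 500) (nat_lit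 1) (nat_lit 375) (nat_lit 386) (nat_lit 379)) (XT.lf (nat_lit 1900) (nat_lit 1182622018) (nat_lit 0) (nat_lit 1861442124) (nat_lit 1824) (nat_lit 1182622018) (nat_lit 526) (nat_lit 1) (nat_lit 501) (nat_lit 1) (nat_lit 525) (nat_lit 1) (nat_lit 376) (nat_lit 386) (nat_lit 378))))) (XT.nd (nat_lit 234) (nat_lit 0) (nat_lit 152) (XT.nd (nat_lit 78) (nat_lit 0) (nat_lit 76) (XT.lf (nat_lit 1900) (nat_lit 2226149988) (nat_lit 76) (nat_lit 980032481) (nat_lit 0) (nat_lit 980032481) (nat_lit 526) (nat_lit 1) (nat_lit 502) (nat_lit 1) (nat_lit 501) (nat_lit 1) (nat_lit 377) (nat_lit 386) (nat_lit 377)) (XT.nd (nat_lit 78) (nat_lit 0) (nat_lit 0) (XT.lf (nat_lit 1900) (nat_lit 1037520280) (nat_lit 0) (nat_lit 2071207662) (nat_lit 1824) (nat_lit 1037520280) (nat_lit 527) (nat_lit 1) (nat_lit 502) (nat_lit 1) (nat_lit 526) (nat_lit 1) (nat_lit 378) (nat_lit 386) (nat_lit 376)) (XT.lf (nat_lit 1900) (nat_lit 1913267695) (nat_lit 76) (nat_lit 1096765138)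 (nat_lit 0) (nat_lit 1096765138) (nat_lit 527) (nat_lit 1) (nat_lit 503) (nat_lit 1) (nat_lit 502) (nat_lit 1) (nat_lit 379) (nat_lit 386) (nat_lit 375)))) (XT.nd (nat_lit 78) (nat_lit 0) (nat_lit 0) (XT.lf (nat_lit 1900) (nat_lit 870998100) (nat_lit 0) (nat_lit 2325876610) (nat_lit 1824) (nat_lit 870998100) (nat_lit 528) (nat_lit 1) (nat_lit 503) (nat_lit 1) (nat_lit 527) (nat_lit 1) (nat_lit 380) (nat_lit 386) (nat_lit 374)) (XT.nd (nat_lit 78) (nat_lit 0) (nat_lit 76) (XT.lf (nat_lit 1900) (nat_lit 1558781151) (nat_lit 76) (nat_lit 1235314850) (nat_lit 0) (nat_lit 1235314850) (nat_lit 528) (nat_lit 1) (nat_lit 504) (nat_lit 1) (nat_lit 503) (nat_lit 1) (nat_lit 381) (nat_lit 386) (nat_lit 373)) (XT.lf (nat_lit 1900) (nat_lit 684417749) (nat_lit 0) (nat_lit 2622665138) (nat_lit 1824) (nat_lit 684417749) (nat_lit 529) (nat_lit 1) (nat_lit 504) (nat_lit 1) (nat_lit 528) (nat_lit 1) (nat_lit 382) (nat_lit 386) (nat_lit 372)))))) (XT.nd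 (nat_lit 468) (nat_lit 2660) (nat_lit 0) (XT.nd (nat_lit 234) (nat_lit 0) (nat_lit 152) (XT.nd (nat_lit 78) (nat_lit 0) (nat_lit 76) (XT.lf (nat_lit 1900) (nat_lit 1165359896) (nat_lit 76) (nat_lit 1394317771) (nat_lit 0) (nat_lit 1394317771) (nat_lit 529) (nat_lit 1) (nat_lit 505) (nat_lit 1) (nat_lit 504) (nat_lit 1) (nat_lit 383) (nat_lit 386) (nat_lit 371)) (XT.nd (nat_lit 78) (nat_lit 0) (nat_lit 0) (XT.lf (nat_lit 1900) (nat_lit 479078197) (nat_lit 0) (nat_lit 2958917916) (nat_lit 1824) (nat_lit 479078197) (nat_lit 530) (nat_lit 1) (nat_lit 505) (nat_lit 1) (nat_lit 529) (nat_lit 1) (nat_lit 384) (nat_lit 386) (nat_lit 370)) (XT.lf (nat_lit 1900) (nat_lit 735549143) (nat_lit 76) (nat_lit 1572473143) (nat_lit 0) (nat_lit 1572473143) (nat_lit 530) (nat_lit 1) (nat_lit 506) (nat_lit 1) (nat_lit 505) (nat_lit 1) (nat_lit 385) (nat_lit 386) (nat_lit 369)))) (XT.nd (nat_lit 78) (nat_lit 0) (nat_lit 0) (XT.lf (nat_lit 1900) (nat_lit 256217776)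 (nat_lit 0) (nat_lit 3332102715) (nat_lit 1824) (nat_lit 256217776) (nat_lit 531) (nat_lit 1) (nat_lit 506) (nat_lit 1) (nat_lit 530) (nat_lit 1) (nat_lit 386) (nat_lit 386) (nat_lit 368)) (XT.nd (nat_lit 78) (nat_lit 0) (nat_lit 76) (XT.lf (nat_lit 1900) (nat_lit 271775010) (nat_lit 76) (nat_lit 1768540649) (nat_lit 0) (nat_lit 1768540649) (nat_lit 531) (nat_lit 1) (nat_lit 507) (nat_lit 1) (nat_lit 506) (nat_lit 1) (nat_lit 387) (nat_lit 386) (nat_lit 367)) (XT.lf (nat_lit 1900) (nat_lit 17016733) (nat_lit 0) (nat_lit 3739805240) (nat_lit 1824) (nat_lit 17016733) (nat_lit 532) (nat_lit 1) (nat_lit 507) (nat_lit 1) (nat_lit 531) (nat_lit 1) (nat_lit 388) (nat_lit 386) (nat_lit 366))))) (XT.nd (nat_lit 234) (nat_lit 988) (nat_lit 0) (XT.nd (nat_lit 78) (nat_lit 0) (nat_lit 0) (XT.lf (nat_lit 1976) (nat_lit 1759139504) (nat_lit 0) (nat_lit 220717242) (nat_lit 1900) (nat_lit 1759139504) (nat_lit 508) (nat_lit 1) (nat_lit 482) (nat_lit 1)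 (nat_lit 507) (nat_lit 1) (nat_lit 389) (nat_lit 386) (nat_lit 365)) (XT.nd (nat_lit 78) (nat_lit 0) (nat_lit 76) (XT.lf (nat_lit 1976) (nat_lit 3233122874) (nat_lit 76) (nat_lit 235838470) (nat_lit 0) (nat_lit 235838470) (nat_lit 508) (nat_lit 1) (nat_lit 483) (nat_lit 1) (nat_lit 482) (nat_lit 1) (nat_lit 390) (nat_lit 386) (nat_lit 364)) (XT.lf (nat_lit 1976) (nat_lit 1466073312) (nat_lit 0) (nat_lit 738707439) (nat_lit 1900) (nat_lit 1466073312) (nat_lit 509) (nat_lit 1) (nat_lit 483) (nat_lit 1) (nat_lit 508) (nat_lit 1) (nat_lit 391) (nat_lit 386) (nat_lit 363)))) (XT.nd (nat_lit 78) (nat_lit 1064) (nat_lit 0) (XT.lf (nat_lit 1976) (nat_lit 2632211955) (nat_lit 76) (nat_lit 502633335) (nat_lit 0) (nat_lit 502633335) (nat_lit 509) (nat_lit 1) (nat_lit 484) (nat_lit 1) (nat_lit 483) (nat_lit 1) (nat_lit 392) (nat_lit 386) (nat_lit 362)) (XT.nd (nat_lit 78) (nat_lit 1140) (nat_lit 0) (XT.lf (nat_lit 76) (nat_lit 1160363244) (nat_lit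 0) (nat_lit 1283689316) (nat_lit 1900) (nat_lit 1160363244) (nat_lit 485) (nat_lit 1) (nat_lit 484) (nat_lit 1) (nat_lit 509) (nat_lit 1) (nat_lit 393) (nat_lit 386) (nat_lit 361)) (XT.lf (nat_lit 1216) (nat_lit 2006903256) (nat_lit 0) (nat_lit 782466212) (nat_lit 1140) (nat_lit 782466212) (nat_lit 485) (nat_lit 1) (nat_lit 469) (nat_lit 1) (nat_lit 484) (nat_lit 1) (nat_lit 394) (nat_lit 386) (nat_lit 360))))))) (XT.nd (nat_lit 936) (nat_lit 5244) (nat_lit 0) (XT.nd (nat_lit 468) (nat_lit 2660) (nat_lit 0) (XT.nd (nat_lit 234) (nat_lit 1748) (nat_lit 0) (XT.nd (nat_lit 78) (nat_lit 912) (nat_lit 0) (XT.lf (nat_lit 76) (nat_lit 842971335) (nat_lit 0) (nat_lit 1853691108) (nat_lit 1216) (nat_lit 842971335) (nat_lit 470) (nat_lit 1) (nat_lit 469) (nat_lit 1) (nat_lit 485) (nat_lit 1) (nat_lit 395) (nat_lit 386) (nat_lit 359)) (XT.nd (nat_lit 78) (nat_lit 0) (nat_lit 0) (XT.lf (nat_lit 988) (nat_lit 1359080093) (nat_lit 0) (nat_lit 1074372034)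 (nat_lit 912) (nat_lit 1074372034) (nat_lit 470) (nat_lit 1) (nat_lit 457) (nat_lit 1) (nat_lit 469) (nat_lit 1) (nat_lit 396) (nat_lit 386) (nat_lit 358)) (XT.lf (nat_lit 76) (nat_lit 514813028) (nat_lit 0) (nat_lit 2446835728) (nat_lit 988) (nat_lit 514813028) (nat_lit 458) (nat_lit 1) (nat_lit 457) (nat_lit 1) (nat_lit 470) (nat_lit 1) (nat_lit 397) (nat_lit 386) (nat_lit 357)))) (XT.nd (nat_lit 78) (nat_lit 836) (nat_lit 0) (XT.lf (nat_lit 988) (nat_lit 690534298) (nat_lit 0) (nat_lit 1377432208) (nat_lit 912) (nat_lit 1377432208) (nat_lit 458) (nat_lit 1) (nat_lit 445) (nat_lit 1) (nat_lit 457) (nat_lit 1) (nat_lit 398) (nat_lit 386) (nat_lit 356)) (XT.nd (nat_lit 78) (nat_lit 836) (nat_lit 0) (XT.lf (nat_lit 76) (nat_lit 176759162) (nat_lit 0) (nat_lit 3061336733) (nat_lit 988) (nat_lit 176759162) (nat_lit 446) (nat_lit 1) (nat_lit 445) (nat_lit 1) (nat_lit 458) (nat_lit 1) (nat_lit 399) (nat_lit 386) (nat_lit 355)) (XT.lf (nat_lit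 912) (nat_lit 2970132) (nat_lit 0) (nat_lit 1690772626) (nat_lit 836) (nat_lit 1690772626) (nat_lit 446) (nat_lit 1) (nat_lit 434) (nat_lit 1) (nat_lit 445) (nat_lit 1) (nat_lit 400) (nat_lit 386) (nat_lit 354))))) (XT.nd (nat_lit 234) (nat_lit 836) (nat_lit 0) (XT.nd (nat_lit 78) (nat_lit 836) (nat_lit 0) (XT.lf (nat_lit 988) (nat_lit 3016198810) (nat_lit 0) (nat_lit 169241313) (nat_lit 912) (nat_lit 169241313) (nat_lit 434) (nat_lit 1) (nat_lit 421) (nat_lit 1) (nat_lit 433) (nat_lit 1) (nat_lit 401) (nat_lit 386) (nat_lit 353)) (XT.nd (nat_lit 78) (nat_lit 836) (nat_lit 0) (XT.lf (nat_lit 76) (nat_lit 1316127609) (nat_lit 0) (nat_lit 692785209) (nat_lit 988) (nat_lit 1316127609) (nat_lit 422) (nat_lit 1) (nat_lit 421) (nat_lit 1) (nat_lit 434) (nat_lit 1) (nat_lit 402) (nat_lit 386) (nat_lit 352)) (XT.lf (nat_lit 912) (nat_lit 2251282136) (nat_lit 0) (nat_lit 522304555) (nat_lit 836) (nat_lit 522304555) (nat_lit 422) (nat_lit 1) (nat_lit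 410) (nat_lit 1) (nat_lit 421) (nat_lit 1) (nat_lit 403) (nat_lit 386) (nat_lit 351)))) (XT.nd (nat_lit 78) (nat_lit 836) (nat_lit 0) (XT.lf (nat_lit 76) (nat_lit 931434980) (nat_lit 0) (nat_lit 1404151320) (nat_lit 912) (nat_lit 931434980) (nat_lit 411) (nat_lit 1) (nat_lit 410) (nat_lit 1) (nat_lit 422) (nat_lit 1) (nat_lit 404) (nat_lit 386) (nat_lit 350)) (XT.nd (nat_lit 78) (nat_lit 0) (nat_lit 0) (XT.lf (nat_lit 912) (nat_lit 1472835873) (nat_lit 0) (nat_lit 882850193) (nat_lit 836) (nat_lit 882850193) (nat_lit 411) (nat_lit 1) (nat_lit 399) (nat_lit 1) (nat_lit 410) (nat_lit 1) (nat_lit 405) (nat_lit 386) (nat_lit 349)) (XT.lf (nat_lit 76) (nat_lit 540347816) (nat_lit 0) (nat_lit 2129722883) (nat_lit 912) (nat_lit 540347816) (nat_lit 400) (nat_lit 1) (nat_lit 399) (nat_lit 1) (nat_lit 411) (nat_lit 1) (nat_lit 406) (nat_lit 386) (nat_lit 348)))))) (XT.nd (nat_lit 468) (nat_lit 2128) (nat_lit 0) (XT.nd (nat_lit 234) (nat_lit 1520)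 (nat_lit 0) (XT.nd (nat_lit 78) (nat_lit 836) (nat_lit 0) (XT.lf (nat_lit 836) (nat_lit 682233081) (nat_lit 0) (nat_lit 1250172143) (nat_lit 760) (nat_lit 1250172143) (nat_lit 400) (nat_lit 1) (nat_lit 389) (nat_lit 1) (nat_lit 399) (nat_lit 1) (nat_lit 407) (nat_lit 386) (nat_lit 347)) (XT.nd (nat_lit 78) (nat_lit 836) (nat_lit 0) (XT.lf (nat_lit 76) (nat_lit 143532710) (nat_lit 0) (nat_lit 2868128112) (nat_lit 836) (nat_lit 143532710) (nat_lit 390) (nat_lit 1) (nat_lit 389) (nat_lit 1) (nat_lit 400) (nat_lit 1) (nat_lit 408) (nat_lit 386) (nat_lit 346)) (XT.lf (nat_lit 76) (nat_lit 1505150843) (nat_lit 0) (nat_lit 117659484) (nat_lit 836) (nat_lit 1505150843) (nat_lit 379) (nat_lit 1) (nat_lit 378) (nat_lit 1) (nat_lit 389) (nat_lit 1) (nat_lit 409) (nat_lit 386) (nat_lit 345)))) (XT.nd (nat_lit 78) (nat_lit 760) (nat_lit 0) (XT.lf (nat_lit 836) (nat_lit 2587818314) (nat_lit 0) (nat_lit 256677973) (nat_lit 760) (nat_lit 256677973) (nat_lit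 379) (nat_lit 1) (nat_lit 368) (nat_lit 1) (nat_lit 378) (nat_lit 1) (nat_lit 410) (nat_lit 386) (nat_lit 344)) (XT.nd (nat_lit 78) (nat_lit 760) (nat_lit 0) (XT.lf (nat_lit 76) (nat_lit 1078240530) (nat_lit 0) (nat_lit 918095490) (nat_lit 836) (nat_lit 1078240530) (nat_lit 369) (nat_lit 1) (nat_lit 368) (nat_lit 1) (nat_lit 379) (nat_lit 1) (nat_lit 411) (nat_lit 386) (nat_lit 343)) (XT.lf (nat_lit 836) (nat_lit 1727561296) (nat_lit 0) (nat_lit 660410315) (nat_lit 760) (nat_lit 660410315) (nat_lit 369) (nat_lit 1) (nat_lit 358) (nat_lit 1) (nat_lit 368) (nat_lit 1) (nat_lit 412) (nat_lit 386) (nat_lit 342))))) (XT.nd (nat_lit 234) (nat_lit 1444) (nat_lit 0) (XT.nd (nat_lit 78) (nat_lit 684) (nat_lit 0) (XT.lf (nat_lit 76) (nat_lit 647805460) (nat_lit 0) (nat_lit 1726865675) (nat_lit 836) (nat_lit 647805460) (nat_lit 359) (nat_lit 1) (nat_lit 358) (nat_lit 1) (nat_lit 369) (nat_lit 1) (nat_lit 413) (nat_lit 386) (nat_lit 341)) (XT.nd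 (nat_lit 78) (nat_lit 0) (nat_lit 0) (XT.lf (nat_lit 760) (nat_lit 860769203) (nat_lit 0) (nat_lit 1068043623) (nat_lit 684) (nat_lit 1068043623) (nat_lit 359) (nat_lit 1) (nat_lit 349) (nat_lit 1) (nat_lit 358) (nat_lit 1) (nat_lit 414) (nat_lit 386) (nat_lit 340)) (XT.lf (nat_lit 76) (nat_lit 214376667) (nat_lit 0) (nat_lit 2542873549) (nat_lit 760) (nat_lit 214376667) (nat_lit 350) (nat_lit 1) (nat_lit 349) (nat_lit 1) (nat_lit 359) (nat_lit 1) (nat_lit 415) (nat_lit 386) (nat_lit 339)))) (XT.nd (nat_lit 78) (nat_lit 684) (nat_lit 0) (XT.lf (nat_lit 76) (nat_lit 1467596264) (nat_lit 0) (nat_lit 11369964) (nat_lit 760) (nat_lit 1467596264) (nat_lit 340) (nat_lit 1) (nat_lit 339) (nat_lit 1) (nat_lit 349) (nat_lit 1) (nat_lit 416) (nat_lit 386) (nat_lit 338)) (XT.nd (nat_lit 78) (nat_lit 0) (nat_lit 0) (XT.lf (nat_lit 760) (nat_lit 2481707266) (nat_lit 0) (nat_lit 220085646) (nat_lit 684) (nat_lit 220085646) (nat_lit 340) (nat_lit 1)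 (nat_lit 330) (nat_lit 1) (nat_lit 339) (nat_lit 1) (nat_lit 417) (nat_lit 386) (nat_lit 337)) (XT.lf (nat_lit 76) (nat_lit 1010339362) (nat_lit 0) (nat_lit 876677643) (nat_lit 760) (nat_lit 1010339362) (nat_lit 331) (nat_lit 1) (nat_lit 330) (nat_lit 1) (nat_lit 340) (nat_lit 1) (nat_lit 418) (nat_lit 386) (nat_lit 336))))))))
noncomputable def ec25 : XT := (XT.nd (nat_lit 55926) (nat_lit 0) (nat_lit 12388) (XT.nd (nat_lit 936) (nat_lit 1064) (nat_lit 0) (XT.nd (nat_lit 468) (nat_lit 1824) (nat_lit 0) (XT.nd (nat_lit 234) (nat_lit 1292) (nat_lit 0) (XT.nd (nat_lit 78) (nat_lit 608) (nat_lit 0) (XT.lf (nat_lit 760) (nat_lit 1562922341) (nat_lit 0) (nat_lit 655139785) (nat_lit 684) (nat_lit 655139785) (nat_lit 331) (nat_lit 1) (nat_lit 321) (nat_lit 1) (nat_lit 330) (nat_lit 1) (nat_lit 419) (nat_lit 386) (nat_lit 335)) (XT.nd (nat_lit 78) (nat_lit 608) (nat_lit 0) (XT.lf (nat_lit 76) (nat_lit 551895547) (nat_lit 0) (nat_lit 1745527028)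 (nat_lit 760) (nat_lit 551895547) (nat_lit 322) (nat_lit 1) (nat_lit 321) (nat_lit 1) (nat_lit 331) (nat_lit 1) (nat_lit 420) (nat_lit 386) (nat_lit 334)) (XT.lf (nat_lit 684) (nat_lit 642178691) (nat_lit 0) (nat_lit 1091749390) (nat_lit 608) (nat_lit 1091749390) (nat_lit 322) (nat_lit 1) (nat_lit 313) (nat_lit 1) (nat_lit 321) (nat_lit 1) (nat_lit 421) (nat_lit 386) (nat_lit 333)))) (XT.nd (nat_lit 78) (nat_lit 1292) (nat_lit 0) (XT.lf (nat_lit 76) (nat_lit 92682336) (nat_lit 0) (nat_lit 2617052302) (nat_lit 684) (nat_lit 92682336) (nat_lit 314) (nat_lit 1) (nat_lit 313) (nat_lit 1) (nat_lit 322) (nat_lit 1) (nat_lit 422) (nat_lit 386) (nat_lit 332)) (XT.nd (nat_lit 78) (nat_lit 608) (nat_lit 0) (XT.lf (nat_lit 76) (nat_lit 1251598716) (nat_lit 0) (nat_lit 276041215) (nat_lit 684) (nat_lit 1251598716) (nat_lit 305) (nat_lit 1) (nat_lit 304) (nat_lit 1) (nat_lit 313) (nat_lit 1) (nat_lit 423) (nat_lit 386) (nat_lit 331)) (XT.lf (nat_lit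 684) (nat_lit 2027447044) (nat_lit 0) (nat_lit 364492394) (nat_lit 608) (nat_lit 364492394) (nat_lit 305) (nat_lit 1) (nat_lit 296) (nat_lit 1) (nat_lit 304) (nat_lit 1) (nat_lit 424) (nat_lit 386) (nat_lit 330))))) (XT.nd (nat_lit 234) (nat_lit 1216) (nat_lit 0) (XT.nd (nat_lit 78) (nat_lit 608) (nat_lit 0) (XT.lf (nat_lit 76) (nat_lit 773799147) (nat_lit 0) (nat_lit 1186210646) (nat_lit 684) (nat_lit 773799147) (nat_lit 297) (nat_lit 1) (nat_lit 296) (nat_lit 1) (nat_lit 305) (nat_lit 1) (nat_lit 425) (nat_lit 386) (nat_lit 329)) (XT.nd (nat_lit 78) (nat_lit 0) (nat_lit 0) (XT.lf (nat_lit 684) (nat_lit 1069354326) (nat_lit 0) (nat_lit 821061144) (nat_lit 608) (nat_lit 821061144) (nat_lit 297) (nat_lit 1) (nat_lit 288) (nat_lit 1) (nat_lit 296) (nat_lit 1) (nat_lit 426) (nat_lit 386) (nat_lit 328)) (XT.lf (nat_lit 76) (nat_lit 296702936) (nat_lit 0) (nat_lit 2096037443) (nat_lit 684) (nat_lit 296702936) (nat_lit 289) (nat_lit 1) (nat_lit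 288) (nat_lit 1) (nat_lit 297) (nat_lit 1) (nat_lit 427) (nat_lit 386) (nat_lit 327)))) (XT.nd (nat_lit 78) (nat_lit 684) (nat_lit 0) (XT.lf (nat_lit 608) (nat_lit 113000023) (nat_lit 0) (nat_lit 1277285817) (nat_lit 532) (nat_lit 1277285817) (nat_lit 289) (nat_lit 1) (nat_lit 281) (nat_lit 1) (nat_lit 288) (nat_lit 1) (nat_lit 428) (nat_lit 386) (nat_lit 326)) (XT.nd (nat_lit 78) (nat_lit 0) (nat_lit 0) (XT.lf (nat_lit 684) (nat_lit 2289646352) (nat_lit 0) (nat_lit 178187176) (nat_lit 608) (nat_lit 178187176) (nat_lit 281) (nat_lit 1) (nat_lit 272) (nat_lit 1) (nat_lit 280) (nat_lit 1) (nat_lit 429) (nat_lit 386) (nat_lit 325)) (XT.lf (nat_lit 76) (nat_lit 897311179) (nat_lit 0) (nat_lit 829958256) (nat_lit 684) (nat_lit 897311179) (nat_lit 273) (nat_lit 1) (nat_lit 272) (nat_lit 1) (nat_lit 281) (nat_lit 1) (nat_lit 430) (nat_lit 386) (nat_lit 324)))))) (XT.nd (nat_lit 54522) (nat_lit 0) (nat_lit 18240) (XT.nd (nat_lit 54288) (nat_lit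 0) (nat_lit 18164) (XT.nd (nat_lit 78) (nat_lit 532) (nat_lit 0) (XT.lf (nat_lit 608) (nat_lit 1303844466) (nat_lit 0) (nat_lit 649804695) (nat_lit 532) (nat_lit 649804695) (nat_lit 273) (nat_lit 1) (nat_lit 265) (nat_lit 1) (nat_lit 272) (nat_lit 1) (nat_lit 431) (nat_lit 386) (nat_lit 323)) (XT.nd (nat_lit 78) (nat_lit 532) (nat_lit 0) (XT.lf (nat_lit 76) (nat_lit 407027468) (nat_lit 0) (nat_lit 1768517100) (nat_lit 608) (nat_lit 407027468) (nat_lit 266) (nat_lit 1) (nat_lit 265) (nat_lit 1) (nat_lit 273) (nat_lit 1) (nat_lit 432) (nat_lit 386) (nat_lit 322)) (XT.lf (nat_lit 608) (nat_lit 322234144) (nat_lit 0) (nat_lit 1119818693) (nat_lit 532) (nat_lit 1119818693) (nat_lit 266) (nat_lit 1) (nat_lit 258) (nat_lit 1) (nat_lit 265) (nat_lit 1) (nat_lit 433) (nat_lit 386) (nat_lit 321)))) (XT.nd (nat_lit 78) (nat_lit 0) (nat_lit 0) (XT.lf (nat_lit 1900) (nat_lit 774794550) (nat_lit 0) (nat_lit 781273635) (nat_lit 1900) (nat_lit 774794550)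 (nat_lit 522) (nat_lit 1) (nat_lit 497) (nat_lit 0) (nat_lit 522) (nat_lit 0) (nat_lit 366) (nat_lit 387) (nat_lit 387)) (XT.nd (nat_lit 78) (nat_lit 0) (nat_lit 76) (XT.lf (nat_lit 1900) (nat_lit 3063654145) (nat_lit 76) (nat_lit 776133677) (nat_lit 0) (nat_lit 776133677) (nat_lit 522) (nat_lit 1) (nat_lit 498) (nat_lit 1) (nat_lit 497) (nat_lit 0) (nat_lit 367) (nat_lit 387) (nat_lit 386)) (XT.lf (nat_lit 1900) (nat_lit 1504268768) (nat_lit 0) (nat_lit 1562080280) (nat_lit 1824) (nat_lit 1504268768) (nat_lit 523) (nat_lit 1) (nat_lit 498) (nat_lit 1) (nat_lit 522) (nat_lit 1) (nat_lit 368) (nat_lit 387) (nat_lit 385))))) (XT.nd (nat_lit 234) (nat_lit 0) (nat_lit 152) (XT.nd (nat_lit 78) (nat_lit 0) (nat_lit 76) (XT.lf (nat_lit 1900) (nat_lit 2944224803) (nat_lit 76) (nat_lit 790888066) (nat_lit 0) (nat_lit 790888066) (nat_lit 523) (nat_lit 1) (nat_lit 499) (nat_lit 1) (nat_lit 498) (nat_lit 1) (nat_lit 369) (nat_lit 387) (nat_lit 384))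 (XT.nd (nat_lit 78) (nat_lit 0) (nat_lit 0) (XT.lf (nat_lit 1900) (nat_lit 1430837462) (nat_lit 0) (nat_lit 1620201652) (nat_lit 1824) (nat_lit 1430837462) (nat_lit 524) (nat_lit 1) (nat_lit 499) (nat_lit 1) (nat_lit 523) (nat_lit 1) (nat_lit 370) (nat_lit 387) (nat_lit 383)) (XT.lf (nat_lit 1900) (nat_lit 2770084450) (nat_lit 76) (nat_lit 834161973) (nat_lit 0) (nat_lit 834161973) (nat_lit 524) (nat_lit 1) (nat_lit 500) (nat_lit 1) (nat_lit 499) (nat_lit 1) (nat_lit 371) (nat_lit 387) (nat_lit 382)))) (XT.nd (nat_lit 78) (nat_lit 0) (nat_lit 0) (XT.lf (nat_lit 1900) (nat_lit 1330972469) (nat_lit 0) (nat_lit 1733487893) (nat_lit 1824) (nat_lit 1330972469) (nat_lit 525) (nat_lit 1) (nat_lit 500) (nat_lit 1) (nat_lit 524) (nat_lit 1) (nat_lit 372) (nat_lit 387) (nat_lit 381)) (XT.nd (nat_lit 78) (nat_lit 0) (nat_lit 76) (XT.lf (nat_lit 1900) (nat_lit 2544521282) (nat_lit 76) (nat_lit 904277511) (nat_lit 0) (nat_lit 904277511) (nat_lit 525)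 (nat_lit 1) (nat_lit 501) (nat_lit 1) (nat_lit 500) (nat_lit 1) (nat_lit 373) (nat_lit 387) (nat_lit 380)) (XT.lf (nat_lit 1900) (nat_lit 1206274458) (nat_lit 0) (nat_lit 1898670967) (nat_lit 1824) (nat_lit 1206274458) (nat_lit 526) (nat_lit 1) (nat_lit 501) (nat_lit 1) (nat_lit 525) (nat_lit 1) (nat_lit 374) (nat_lit 387) (nat_lit 379))))))) (XT.nd (nat_lit 936) (nat_lit 6080) (nat_lit 0) (XT.nd (nat_lit 468) (nat_lit 0) (nat_lit 228) (XT.nd (nat_lit 234) (nat_lit 0) (nat_lit 152) (XT.nd (nat_lit 78) (nat_lit 0) (nat_lit 76) (XT.lf (nat_lit 1900) (nat_lit 2270672988) (nat_lit 76) (nat_lit 999633131) (nat_lit 0) (nat_lit 999633131) (nat_lit 526) (nat_lit 1) (nat_lit 502) (nat_lit 1) (nat_lit 501) (nat_lit 1) (nat_lit 375) (nat_lit 387) (nat_lit 378)) (XT.nd (nat_lit 78) (nat_lit 0) (nat_lit 0) (XT.lf (nat_lit 1900) (nat_lit 1058270685) (nat_lit 0) (nat_lit 2112631816) (nat_lit 1824) (nat_lit 1058270685) (nat_lit 527) (nat_lit 1) (nat_lit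 502) (nat_lit 1) (nat_lit 526) (nat_lit 1) (nat_lit 376) (nat_lit 387) (nat_lit 377)) (XT.lf (nat_lit 1900) (nat_lit 1951533049) (nat_lit 76) (nat_lit 1118700440) (nat_lit 0) (nat_lit 1118700440) (nat_lit 527) (nat_lit 1) (nat_lit 503) (nat_lit 1) (nat_lit 502) (nat_lit 1) (nat_lit 377) (nat_lit 387) (nat_lit 376)))) (XT.nd (nat_lit 78) (nat_lit 0) (nat_lit 0) (XT.lf (nat_lit 1900) (nat_lit 888418062) (nat_lit 0) (nat_lit 2372394142) (nat_lit 1824) (nat_lit 888418062) (nat_lit 528) (nat_lit 1) (nat_lit 503) (nat_lit 1) (nat_lit 527) (nat_lit 1) (nat_lit 378) (nat_lit 387) (nat_lit 375)) (XT.nd (nat_lit 78) (nat_lit 0) (nat_lit 76) (XT.lf (nat_lit 1900) (nat_lit 1589956774) (nat_lit 76) (nat_lit 1260021147) (nat_lit 0) (nat_lit 1260021147) (nat_lit 528) (nat_lit 1) (nat_lit 504) (nat_lit 1) (nat_lit 503) (nat_lit 1) (nat_lit 379) (nat_lit 387) (nat_lit 374)) (XT.lf (nat_lit 1900) (nat_lit 698106104) (nat_lit 0) (nat_lit 2675118441) (nat_lit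 1824) (nat_lit 698106104) (nat_lit 529) (nat_lit 1) (nat_lit 504) (nat_lit 1) (nat_lit 528) (nat_lit 1) (nat_lit 380) (nat_lit 387) (nat_lit 373))))) (XT.nd (nat_lit 234) (nat_lit 0) (nat_lit 152) (XT.nd (nat_lit 78) (nat_lit 0) (nat_lit 76) (XT.lf (nat_lit 1900) (nat_lit 1188667094) (nat_lit 76) (nat_lit 1422204127) (nat_lit 0) (nat_lit 1422204127) (nat_lit 529) (nat_lit 1) (nat_lit 505) (nat_lit 1) (nat_lit 504) (nat_lit 1) (nat_lit 381) (nat_lit 387) (nat_lit 372)) (XT.nd (nat_lit 78) (nat_lit 0) (nat_lit 0) (XT.lf (nat_lit 1900) (nat_lit 488659761) (nat_lit 0) (nat_lit 3018096274) (nat_lit 1824) (nat_lit 488659761) (nat_lit 530) (nat_lit 1) (nat_lit 505) (nat_lit 1) (nat_lit 529) (nat_lit 1) (nat_lit 382) (nat_lit 387) (nat_lit 371)) (XT.lf (nat_lit 1900) (nat_lit 750260126) (nat_lit 76) (nat_lit 1603922606) (nat_lit 0) (nat_lit 1603922606) (nat_lit 530) (nat_lit 1) (nat_lit 506) (nat_lit 1) (nat_lit 505) (nat_lit 1) (nat_lit 383)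 (nat_lit 387) (nat_lit 370)))) (XT.nd (nat_lit 78) (nat_lit 0) (nat_lit 0) (XT.lf (nat_lit 1900) (nat_lit 261342131) (nat_lit 0) (nat_lit 3398744769) (nat_lit 1824) (nat_lit 261342131) (nat_lit 531) (nat_lit 1) (nat_lit 506) (nat_lit 1) (nat_lit 530) (nat_lit 1) (nat_lit 384) (nat_lit 387) (nat_lit 369)) (XT.nd (nat_lit 78) (nat_lit 0) (nat_lit 76) (XT.lf (nat_lit 1900) (nat_lit 277210510) (nat_lit 76) (nat_lit 1803911462) (nat_lit 0) (nat_lit 1803911462) (nat_lit 531) (nat_lit 1) (nat_lit 507) (nat_lit 1) (nat_lit 506) (nat_lit 1) (nat_lit 385) (nat_lit 387) (nat_lit 368)) (XT.lf (nat_lit 1900) (nat_lit 17357068) (nat_lit 0) (nat_lit 3814601345) (nat_lit 1824) (nat_lit 17357068) (nat_lit 532) (nat_lit 1) (nat_lit 507) (nat_lit 1) (nat_lit 531) (nat_lit 1) (nat_lit 386) (nat_lit 387) (nat_lit 367)))))) (XT.nd (nat_lit 468) (nat_lit 3648) (nat_lit 0) (XT.nd (nat_lit 234) (nat_lit 988) (nat_lit 0) (XT.nd (nat_lit 78) (nat_lit 0) (nat_lit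 0) (XT.lf (nat_lit 1976) (nat_lit 1794322295) (nat_lit 0) (nat_lit 225131587) (nat_lit 1900) (nat_lit 1794322295) (nat_lit 508) (nat_lit 1) (nat_lit 482) (nat_lit 1) (nat_lit 507) (nat_lit 1) (nat_lit 387) (nat_lit 387) (nat_lit 366)) (XT.nd (nat_lit 78) (nat_lit 0) (nat_lit 76) (XT.lf (nat_lit 1976) (nat_lit 3297785331) (nat_lit 76) (nat_lit 240555240) (nat_lit 0) (nat_lit 240555240) (nat_lit 508) (nat_lit 1) (nat_lit 483) (nat_lit 1) (nat_lit 482) (nat_lit 1) (nat_lit 388) (nat_lit 387) (nat_lit 365)) (XT.lf (nat_lit 1976) (nat_lit 1495394779) (nat_lit 0) (nat_lit 753481588) (nat_lit 1900) (nat_lit 1495394779) (nat_lit 509) (nat_lit 1) (nat_lit 483) (nat_lit 1) (nat_lit 508) (nat_lit 1) (nat_lit 389) (nat_lit 387) (nat_lit 364)))) (XT.nd (nat_lit 78) (nat_lit 1064) (nat_lit 0) (XT.lf (nat_lit 1976) (nat_lit 2684856194) (nat_lit 76) (nat_lit 512686002) (nat_lit 0) (nat_lit 512686002) (nat_lit 509) (nat_lit 1) (nat_lit 484) (nat_lit 1)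 (nat_lit 483) (nat_lit 1) (nat_lit 390) (nat_lit 387) (nat_lit 363)) (XT.nd (nat_lit 78) (nat_lit 1140) (nat_lit 0) (XT.lf (nat_lit 76) (nat_lit 1183570509) (nat_lit 0) (nat_lit 1309363102) (nat_lit 1900) (nat_lit 1183570509) (nat_lit 485) (nat_lit 1) (nat_lit 484) (nat_lit 1) (nat_lit 509) (nat_lit 1) (nat_lit 391) (nat_lit 387) (nat_lit 362)) (XT.lf (nat_lit 1216) (nat_lit 2047041321) (nat_lit 0) (nat_lit 798115536) (nat_lit 1140) (nat_lit 798115536) (nat_lit 485) (nat_lit 1) (nat_lit 469) (nat_lit 1) (nat_lit 484) (nat_lit 1) (nat_lit 392) (nat_lit 387) (nat_lit 361))))) (XT.nd (nat_lit 234) (nat_lit 2736) (nat_lit 0) (XT.nd (nat_lit 78) (nat_lit 912) (nat_lit 0) (XT.lf (nat_lit 76) (nat_lit 859830762) (nat_lit 0) (nat_lit 1890764930) (nat_lit 1216) (nat_lit 859830762) (nat_lit 470) (nat_lit 1) (nat_lit 469) (nat_lit 1) (nat_lit 485) (nat_lit 1) (nat_lit 393) (nat_lit 387) (nat_lit 360)) (XT.nd (nat_lit 78) (nat_lit 0) (nat_lit 0)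 (XT.lf (nat_lit 988) (nat_lit 1386261695) (nat_lit 0) (nat_lit 1095859475) (nat_lit 912) (nat_lit 1095859475) (nat_lit 470) (nat_lit 1) (nat_lit 457) (nat_lit 1) (nat_lit 469) (nat_lit 1) (nat_lit 394) (nat_lit 387) (nat_lit 359)) (XT.lf (nat_lit 76) (nat_lit 525109288) (nat_lit 0) (nat_lit 2495772442) (nat_lit 988) (nat_lit 525109288) (nat_lit 458) (nat_lit 1) (nat_lit 457) (nat_lit 1) (nat_lit 470) (nat_lit 1) (nat_lit 395) (nat_lit 387) (nat_lit 358)))) (XT.nd (nat_lit 156) (nat_lit 1824) (nat_lit 0) (XT.nd (nat_lit 78) (nat_lit 0) (nat_lit 0) (XT.lf (nat_lit 988) (nat_lit 704344984) (nat_lit 0) (nat_lit 1404980852) (nat_lit 912) (nat_lit 1404980852) (nat_lit 458) (nat_lit 1) (nat_lit 445) (nat_lit 1) (nat_lit 457) (nat_lit 1) (nat_lit 396) (nat_lit 387) (nat_lit 357)) (XT.lf (nat_lit 76) (nat_lit 180294345) (nat_lit 0) (nat_lit 3122563467) (nat_lit 988) (nat_lit 180294345) (nat_lit 446) (nat_lit 1) (nat_lit 445) (nat_lit 1) (nat_lit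 458) (nat_lit 1) (nat_lit 397) (nat_lit 387) (nat_lit 356))) (XT.nd (nat_lit 78) (nat_lit 988) (nat_lit 0) (XT.lf (nat_lit 912) (nat_lit 3029535) (nat_lit 0) (nat_lit 1724588078) (nat_lit 836) (nat_lit 1724588078) (nat_lit 446) (nat_lit 1) (nat_lit 434) (nat_lit 1) (nat_lit 445) (nat_lit 1) (nat_lit 398) (nat_lit 387) (nat_lit 355)) (XT.lf (nat_lit 988) (nat_lit 3076522786) (nat_lit 0) (nat_lit 172626140) (nat_lit 912) (nat_lit 172626140) (nat_lit 434) (nat_lit 1) (nat_lit 421) (nat_lit 1) (nat_lit 433) (nat_lit 1) (nat_lit 399) (nat_lit 387) (nat_lit 354))))))))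
noncomputable def ec26 : XT := (XT.nd (nat_lit 1872) (nat_lit 3496) (nat_lit 0) (XT.nd (nat_lit 936) (nat_lit 4712) (nat_lit 0) (XT.nd (nat_lit 468) (nat_lit 2356) (nat_lit 0) (XT.nd (nat_lit 234) (nat_lit 1596) (nat_lit 0) (XT.nd (nat_lit 78) (nat_lit 836) (nat_lit 0) (XT.lf (nat_lit 76) (nat_lit 1342450161) (nat_lit 0) (nat_lit 706640913) (nat_lit 988) (nat_lit 1342450161) (nat_lit 422) (nat_lit 1) (nat_lit 421) (nat_lit 1) (nat_lit 434) (nat_lit 1) (nat_lit 400) (nat_lit 387) (nat_lit 353)) (XT.nd (nat_lit 78) (nat_lit 0) (nat_lit 0) (XT.lf (nat_lit 912) (nat_lit 2296307779) (nat_lit 0) (nat_lit 532750646) (nat_lit 836) (nat_lit 532750646) (nat_lit 422) (nat_lit 1) (nat_lit 410) (nat_lit 1) (nat_lit 421) (nat_lit 1) (nat_lit 401) (nat_lit 387) (nat_lit 352)) (XT.lf (nat_lit 76) (nat_lit 950063680) (nat_lit 0) (nat_lit 1432234346) (nat_lit 912) (nat_lit 950063680) (nat_lit 411) (nat_lit 1) (nat_lit 410) (nat_lit 1) (nat_lit 422) (nat_lit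 1) (nat_lit 402) (nat_lit 387) (nat_lit 351)))) (XT.nd (nat_lit 78) (nat_lit 760) (nat_lit 0) (XT.lf (nat_lit 912) (nat_lit 1502292590) (nat_lit 0) (nat_lit 900507197) (nat_lit 836) (nat_lit 900507197) (nat_lit 411) (nat_lit 1) (nat_lit 399) (nat_lit 1) (nat_lit 410) (nat_lit 1) (nat_lit 403) (nat_lit 387) (nat_lit 350)) (XT.nd (nat_lit 78) (nat_lit 760) (nat_lit 0) (XT.lf (nat_lit 76) (nat_lit 551154772) (nat_lit 0) (nat_lit 2172317340) (nat_lit 912) (nat_lit 551154772) (nat_lit 400) (nat_lit 1) (nat_lit 399) (nat_lit 1) (nat_lit 411) (nat_lit 1) (nat_lit 404) (nat_lit 387) (nat_lit 349)) (XT.lf (nat_lit 836) (nat_lit 695877743) (nat_lit 0) (nat_lit 1275175585) (nat_lit 760) (nat_lit 1275175585) (nat_lit 400) (nat_lit 1) (nat_lit 389) (nat_lit 1) (nat_lit 399) (nat_lit 1) (nat_lit 405) (nat_lit 387) (nat_lit 348))))) (XT.nd (nat_lit 234) (nat_lit 760) (nat_lit 0) (XT.nd (nat_lit 78) (nat_lit 1596) (nat_lit 0) (XT.lf (nat_lit 76) (nat_lit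 146403364) (nat_lit 0) (nat_lit 2925490674) (nat_lit 836) (nat_lit 146403364) (nat_lit 390) (nat_lit 1) (nat_lit 389) (nat_lit 1) (nat_lit 400) (nat_lit 1) (nat_lit 406) (nat_lit 387) (nat_lit 347)) (XT.nd (nat_lit 78) (nat_lit 760) (nat_lit 0) (XT.lf (nat_lit 76) (nat_lit 1535253860) (nat_lit 0) (nat_lit 120012673) (nat_lit 836) (nat_lit 1535253860) (nat_lit 379) (nat_lit 1) (nat_lit 378) (nat_lit 1) (nat_lit 389) (nat_lit 1) (nat_lit 407) (nat_lit 387) (nat_lit 346)) (XT.lf (nat_lit 836) (nat_lit 2639574680) (nat_lit 0) (nat_lit 261811533) (nat_lit 760) (nat_lit 261811533) (nat_lit 379) (nat_lit 1) (nat_lit 368) (nat_lit 1) (nat_lit 378) (nat_lit 1) (nat_lit 408) (nat_lit 387) (nat_lit 345)))) (XT.nd (nat_lit 78) (nat_lit 760) (nat_lit 0) (XT.lf (nat_lit 76) (nat_lit 1099805340) (nat_lit 0) (nat_lit 936457400) (nat_lit 836) (nat_lit 1099805340) (nat_lit 369) (nat_lit 1) (nat_lit 368) (nat_lit 1) (nat_lit 379) (nat_lit 1) (nat_lit 409)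 (nat_lit 387) (nat_lit 344)) (XT.nd (nat_lit 78) (nat_lit 0) (nat_lit 0) (XT.lf (nat_lit 836) (nat_lit 1762112522) (nat_lit 0) (nat_lit 673618522) (nat_lit 760) (nat_lit 673618522) (nat_lit 369) (nat_lit 1) (nat_lit 358) (nat_lit 1) (nat_lit 368) (nat_lit 1) (nat_lit 410) (nat_lit 387) (nat_lit 343)) (XT.lf (nat_lit 76) (nat_lit 660761570) (nat_lit 0) (nat_lit 1761402989) (nat_lit 836) (nat_lit 660761570) (nat_lit 359) (nat_lit 1) (nat_lit 358) (nat_lit 1) (nat_lit 369) (nat_lit 1) (nat_lit 411) (nat_lit 387) (nat_lit 342)))))) (XT.nd (nat_lit 468) (nat_lit 1900) (nat_lit 0) (XT.nd (nat_lit 234) (nat_lit 1368) (nat_lit 0) (XT.nd (nat_lit 78) (nat_lit 760) (nat_lit 0) (XT.lf (nat_lit 760) (nat_lit 877984587) (nat_lit 0) (nat_lit 1089404495) (nat_lit 684) (nat_lit 1089404495) (nat_lit 359) (nat_lit 1) (nat_lit 349) (nat_lit 1) (nat_lit 358) (nat_lit 1) (nat_lit 412) (nat_lit 387) (nat_lit 341)) (XT.nd (nat_lit 78) (nat_lit 760) (nat_lit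 0) (XT.lf (nat_lit 76) (nat_lit 218664201) (nat_lit 0) (nat_lit 2593731020) (nat_lit 760) (nat_lit 218664201) (nat_lit 350) (nat_lit 1) (nat_lit 349) (nat_lit 1) (nat_lit 359) (nat_lit 1) (nat_lit 413) (nat_lit 387) (nat_lit 340)) (XT.lf (nat_lit 76) (nat_lit 1496948189) (nat_lit 0) (nat_lit 11597363) (nat_lit 760) (nat_lit 1496948189) (nat_lit 340) (nat_lit 1) (nat_lit 339) (nat_lit 1) (nat_lit 349) (nat_lit 1) (nat_lit 414) (nat_lit 387) (nat_lit 339)))) (XT.nd (nat_lit 78) (nat_lit 684) (nat_lit 0) (XT.lf (nat_lit 760) (nat_lit 2531341411) (nat_lit 0) (nat_lit 224487359) (nat_lit 684) (nat_lit 224487359) (nat_lit 340) (nat_lit 1) (nat_lit 330) (nat_lit 1) (nat_lit 339) (nat_lit 1) (nat_lit 415) (nat_lit 387) (nat_lit 338)) (XT.nd (nat_lit 78) (nat_lit 684) (nat_lit 0) (XT.lf (nat_lit 76) (nat_lit 1030546149) (nat_lit 0) (nat_lit 894211196) (nat_lit 760) (nat_lit 1030546149) (nat_lit 331) (nat_lit 1) (nat_lit 330) (nat_lit 1) (nat_lit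 340) (nat_lit 1) (nat_lit 416) (nat_lit 387) (nat_lit 337)) (XT.lf (nat_lit 760) (nat_lit 1594180788) (nat_lit 0) (nat_lit 668242581) (nat_lit 684) (nat_lit 668242581) (nat_lit 331) (nat_lit 1) (nat_lit 321) (nat_lit 1) (nat_lit 330) (nat_lit 1) (nat_lit 417) (nat_lit 387) (nat_lit 336))))) (XT.nd (nat_lit 234) (nat_lit 1292) (nat_lit 0) (XT.nd (nat_lit 78) (nat_lit 608) (nat_lit 0) (XT.lf (nat_lit 76) (nat_lit 562933458) (nat_lit 0) (nat_lit 1780437569) (nat_lit 760) (nat_lit 562933458) (nat_lit 322) (nat_lit 1) (nat_lit 321) (nat_lit 1) (nat_lit 331) (nat_lit 1) (nat_lit 418) (nat_lit 387) (nat_lit 335)) (XT.nd (nat_lit 78) (nat_lit 0) (nat_lit 0) (XT.lf (nat_lit 684) (nat_lit 655022265) (nat_lit 0) (nat_lit 1113584378) (nat_lit 608) (nat_lit 1113584378) (nat_lit 322) (nat_lit 1) (nat_lit 313) (nat_lit 1) (nat_lit 321) (nat_lit 1) (nat_lit 419) (nat_lit 387) (nat_lit 334)) (XT.lf (nat_lit 76) (nat_lit 94535983) (nat_lit 0) (nat_lit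 2669393348) (nat_lit 684) (nat_lit 94535983) (nat_lit 314) (nat_lit 1) (nat_lit 313) (nat_lit 1) (nat_lit 322) (nat_lit 1) (nat_lit 420) (nat_lit 387) (nat_lit 333)))) (XT.nd (nat_lit 78) (nat_lit 608) (nat_lit 0) (XT.lf (nat_lit 76) (nat_lit 1276630690) (nat_lit 0) (nat_lit 281562039) (nat_lit 684) (nat_lit 1276630690) (nat_lit 305) (nat_lit 1) (nat_lit 304) (nat_lit 1) (nat_lit 313) (nat_lit 1) (nat_lit 421) (nat_lit 387) (nat_lit 332)) (XT.nd (nat_lit 78) (nat_lit 0) (nat_lit 0) (XT.lf (nat_lit 684) (nat_lit 2067995985) (nat_lit 0) (nat_lit 371782242) (nat_lit 608) (nat_lit 371782242) (nat_lit 305) (nat_lit 1) (nat_lit 296) (nat_lit 1) (nat_lit 304) (nat_lit 1) (nat_lit 422) (nat_lit 387) (nat_lit 331)) (XT.lf (nat_lit 76) (nat_lit 789275130) (nat_lit 0) (nat_lit 1209934858) (nat_lit 684) (nat_lit 789275130) (nat_lit 297) (nat_lit 1) (nat_lit 296) (nat_lit 1) (nat_lit 305) (nat_lit 1) (nat_lit 423) (nat_lit 387) (nat_lit 330)))))))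 (XT.nd (nat_lit 54834) (nat_lit 0) (nat_lit 18848) (XT.nd (nat_lit 468) (nat_lit 1140) (nat_lit 0) (XT.nd (nat_lit 234) (nat_lit 1216) (nat_lit 0) (XT.nd (nat_lit 78) (nat_lit 532) (nat_lit 0) (XT.lf (nat_lit 684) (nat_lit 1090741412) (nat_lit 0) (nat_lit 837482366) (nat_lit 608) (nat_lit 837482366) (nat_lit 297) (nat_lit 1) (nat_lit 288) (nat_lit 1) (nat_lit 296) (nat_lit 1) (nat_lit 424) (nat_lit 387) (nat_lit 329)) (XT.nd (nat_lit 78) (nat_lit 532) (nat_lit 0) (XT.lf (nat_lit 76) (nat_lit 302636995) (nat_lit 0) (nat_lit 2137958192) (nat_lit 684) (nat_lit 302636995) (nat_lit 289) (nat_lit 1) (nat_lit 288) (nat_lit 1) (nat_lit 297) (nat_lit 1) (nat_lit 425) (nat_lit 387) (nat_lit 328)) (XT.lf (nat_lit 608) (nat_lit 115260024) (nat_lit 0) (nat_lit 1302831534) (nat_lit 532) (nat_lit 1302831534) (nat_lit 289) (nat_lit 1) (nat_lit 281) (nat_lit 1) (nat_lit 288) (nat_lit 1) (nat_lit 426) (nat_lit 387) (nat_lit 327)))) (XT.nd (nat_lit 78)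 (nat_lit 532) (nat_lit 0) (XT.lf (nat_lit 684) (nat_lit 2335439279) (nat_lit 0) (nat_lit 181750920) (nat_lit 608) (nat_lit 181750920) (nat_lit 281) (nat_lit 1) (nat_lit 272) (nat_lit 1) (nat_lit 280) (nat_lit 1) (nat_lit 427) (nat_lit 387) (nat_lit 326)) (XT.nd (nat_lit 78) (nat_lit 532) (nat_lit 0) (XT.lf (nat_lit 76) (nat_lit 915257403) (nat_lit 0) (nat_lit 846557422) (nat_lit 684) (nat_lit 915257403) (nat_lit 273) (nat_lit 1) (nat_lit 272) (nat_lit 1) (nat_lit 281) (nat_lit 1) (nat_lit 428) (nat_lit 387) (nat_lit 325)) (XT.lf (nat_lit 608) (nat_lit 1329921355) (nat_lit 0) (nat_lit 662800788) (nat_lit 532) (nat_lit 662800788) (nat_lit 273) (nat_lit 1) (nat_lit 265) (nat_lit 1) (nat_lit 272) (nat_lit 1) (nat_lit 429) (nat_lit 387) (nat_lit 324))))) (XT.nd (nat_lit 234) (nat_lit 0) (nat_lit 0) (XT.nd (nat_lit 78) (nat_lit 1140) (nat_lit 0) (XT.lf (nat_lit 76) (nat_lit 415168018) (nat_lit 0) (nat_lit 1803887442) (nat_lit 608) (nat_lit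 415168018) (nat_lit 266) (nat_lit 1) (nat_lit 265) (nat_lit 1) (nat_lit 273) (nat_lit 1) (nat_lit 430) (nat_lit 387) (nat_lit 323)) (XT.nd (nat_lit 78) (nat_lit 608) (nat_lit 0) (XT.lf (nat_lit 608) (nat_lit 328678827) (nat_lit 0) (nat_lit 1142215066) (nat_lit 532) (nat_lit 1142215066) (nat_lit 266) (nat_lit 1) (nat_lit 258) (nat_lit 1) (nat_lit 265) (nat_lit 1) (nat_lit 431) (nat_lit 387) (nat_lit 322)) (XT.lf (nat_lit 608) (nat_lit 2428091672) (nat_lit 0) (nat_lit 82115511) (nat_lit 532) (nat_lit 82115511) (nat_lit 258) (nat_lit 1) (nat_lit 250) (nat_lit 1) (nat_lit 257) (nat_lit 1) (nat_lit 432) (nat_lit 387) (nat_lit 321)))) (XT.nd (nat_lit 53976) (nat_lit 0) (nat_lit 18772) (XT.lf (nat_lit 76) (nat_lit 956286133) (nat_lit 0) (nat_lit 659014598) (nat_lit 608) (nat_lit 956286133) (nat_lit 251) (nat_lit 1) (nat_lit 250) (nat_lit 1) (nat_lit 258) (nat_lit 1) (nat_lit 433) (nat_lit 387) (nat_lit 320)) (XT.nd (nat_lit 78) (nat_lit 0) (nat_lit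 0) (XT.lf (nat_lit 1900) (nat_lit 790290442) (nat_lit 0) (nat_lit 796899108) (nat_lit 1900) (nat_lit 790290442) (nat_lit 522) (nat_lit 1) (nat_lit 497) (nat_lit 0) (nat_lit 522) (nat_lit 0) (nat_lit 364) (nat_lit 388) (nat_lit 388)) (XT.lf (nat_lit 1900) (nat_lit 3124927228) (nat_lit 76) (nat_lit 791656350) (nat_lit 0) (nat_lit 791656350) (nat_lit 522) (nat_lit 1) (nat_lit 498) (nat_lit 1) (nat_lit 497) (nat_lit 0) (nat_lit 365) (nat_lit 388) (nat_lit 387)))))) (XT.nd (nat_lit 468) (nat_lit 0) (nat_lit 228) (XT.nd (nat_lit 234) (nat_lit 0) (nat_lit 76) (XT.nd (nat_lit 78) (nat_lit 0) (nat_lit 0) (XT.lf (nat_lit 1900) (nat_lit 1534354144) (nat_lit 0) (nat_lit 1593321885) (nat_lit 1824) (nat_lit 1534354144) (nat_lit 523) (nat_lit 1) (nat_lit 498) (nat_lit 1) (nat_lit 522) (nat_lit 1) (nat_lit 366) (nat_lit 388) (nat_lit 386)) (XT.nd (nat_lit 78) (nat_lit 0) (nat_lit 76) (XT.lf (nat_lit 1900) (nat_lit 3003109299) (nat_lit 76) (nat_lit 806705827)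 (nat_lit 0) (nat_lit 806705827) (nat_lit 523) (nat_lit 1) (nat_lit 499) (nat_lit 1) (nat_lit 498) (nat_lit 1) (nat_lit 367) (nat_lit 388) (nat_lit 385)) (XT.lf (nat_lit 1900) (nat_lit 1459454211) (nat_lit 0) (nat_lit 1652605685) (nat_lit 1824) (nat_lit 1459454211) (nat_lit 524) (nat_lit 1) (nat_lit 499) (nat_lit 1) (nat_lit 523) (nat_lit 1) (nat_lit 368) (nat_lit 388) (nat_lit 384)))) (XT.nd (nat_lit 78) (nat_lit 0) (nat_lit 76) (XT.lf (nat_lit 1900) (nat_lit 2825486139) (nat_lit 76) (nat_lit 850845213) (nat_lit 0) (nat_lit 850845213) (nat_lit 524) (nat_lit 1) (nat_lit 500) (nat_lit 1) (nat_lit 499) (nat_lit 1) (nat_lit 369) (nat_lit 388) (nat_lit 383)) (XT.nd (nat_lit 78) (nat_lit 0) (nat_lit 0) (XT.lf (nat_lit 1900) (nat_lit 1357591918) (nat_lit 0) (nat_lit 1768157651) (nat_lit 1824) (nat_lit 1357591918) (nat_lit 525) (nat_lit 1) (nat_lit 500) (nat_lit 1) (nat_lit 524) (nat_lit 1) (nat_lit 370) (nat_lit 388) (nat_lit 382)) (XT.lf (nat_lit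 1900) (nat_lit 2595411707) (nat_lit 76) (nat_lit 922363061) (nat_lit 0) (nat_lit 922363061) (nat_lit 525) (nat_lit 1) (nat_lit 501) (nat_lit 1) (nat_lit 500) (nat_lit 1) (nat_lit 371) (nat_lit 388) (nat_lit 381))))) (XT.nd (nat_lit 234) (nat_lit 0) (nat_lit 76) (XT.nd (nat_lit 78) (nat_lit 0) (nat_lit 0) (XT.lf (nat_lit 1900) (nat_lit 1230399947) (nat_lit 0) (nat_lit 1936644386) (nat_lit 1824) (nat_lit 1230399947) (nat_lit 526) (nat_lit 1) (nat_lit 501) (nat_lit 1) (nat_lit 525) (nat_lit 1) (nat_lit 372) (nat_lit 388) (nat_lit 380)) (XT.nd (nat_lit 78) (nat_lit 0) (nat_lit 76) (XT.lf (nat_lit 1900) (nat_lit 2316086448) (nat_lit 76) (nat_lit 1019625793) (nat_lit 0) (nat_lit 1019625793) (nat_lit 526) (nat_lit 1) (nat_lit 502) (nat_lit 1) (nat_lit 501) (nat_lit 1) (nat_lit 373) (nat_lit 388) (nat_lit 379)) (XT.lf (nat_lit 1900) (nat_lit 1079436099) (nat_lit 0) (nat_lit 2154884452) (nat_lit 1824) (nat_lit 1079436099) (nat_lit 527) (nat_lit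 1) (nat_lit 502) (nat_lit 1) (nat_lit 526) (nat_lit 1) (nat_lit 374) (nat_lit 388) (nat_lit 378)))) (XT.nd (nat_lit 78) (nat_lit 0) (nat_lit 76) (XT.lf (nat_lit 1900) (nat_lit 1990563710) (nat_lit 76) (nat_lit 1141074449) (nat_lit 0) (nat_lit 1141074449) (nat_lit 527) (nat_lit 1) (nat_lit 503) (nat_lit 1) (nat_lit 502) (nat_lit 1) (nat_lit 375) (nat_lit 388) (nat_lit 377)) (XT.nd (nat_lit 78) (nat_lit 0) (nat_lit 0) (XT.lf (nat_lit 1900) (nat_lit 906186423) (nat_lit 0) (nat_lit 2419842025) (nat_lit 1824) (nat_lit 906186423) (nat_lit 528) (nat_lit 1) (nat_lit 503) (nat_lit 1) (nat_lit 527) (nat_lit 1) (nat_lit 376) (nat_lit 388) (nat_lit 376)) (XT.lf (nat_lit 1900) (nat_lit 1621755909) (nat_lit 76) (nat_lit 1285221570) (nat_lit 0) (nat_lit 1285221570) (nat_lit 528) (nat_lit 1) (nat_lit 504) (nat_lit 1) (nat_lit 503) (nat_lit 1) (nat_lit 377) (nat_lit 388) (nat_lit 375))))))))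
noncomputable def ec27 : XT := (XT.nd (nat_lit 1872) (nat_lit 9652) (nat_lit 0) (XT.nd (nat_lit 936) (nat_lit 6308) (nat_lit 0) (XT.nd (nat_lit 468) (nat_lit 1672) (nat_lit 0) (XT.nd (nat_lit 234) (nat_lit 0) (nat_lit 76) (XT.nd (nat_lit 78) (nat_lit 0) (nat_lit 0) (XT.lf (nat_lit 1900) (nat_lit 712068226) (nat_lit 0) (nat_lit 2728620810) (nat_lit 1824) (nat_lit 712068226) (nat_lit 529) (nat_lit 1) (nat_lit 504) (nat_lit 1) (nat_lit 528) (nat_lit 1) (nat_lit 378) (nat_lit 388) (nat_lit 374)) (XT.nd (nat_lit 78) (nat_lit 0) (nat_lit 76) (XT.lf (nat_lit 1900) (nat_lit 1212440436) (nat_lit 76) (nat_lit 1450648209) (nat_lit 0) (nat_lit 1450648209) (nat_lit 529) (nat_lit 1) (nat_lit 505) (nat_lit 1) (nat_lit 504) (nat_lit 1) (nat_lit 379) (nat_lit 388) (nat_lit 373)) (XT.lf (nat_lit 1900) (nat_lit 498432956) (nat_lit 0) (nat_lit 3078458200) (nat_lit 1824) (nat_lit 498432956) (nat_lit 530) (nat_lit 1) (nat_lit 505) (nat_lit 1) (nat_lit 529)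 (nat_lit 1) (nat_lit 380) (nat_lit 388) (nat_lit 372)))) (XT.nd (nat_lit 78) (nat_lit 0) (nat_lit 76) (XT.lf (nat_lit 1900) (nat_lit 765265328) (nat_lit 76) (nat_lit 1636001058) (nat_lit 0) (nat_lit 1636001058) (nat_lit 530) (nat_lit 1) (nat_lit 506) (nat_lit 1) (nat_lit 505) (nat_lit 1) (nat_lit 381) (nat_lit 388) (nat_lit 371)) (XT.nd (nat_lit 78) (nat_lit 0) (nat_lit 0) (XT.lf (nat_lit 1900) (nat_lit 266568974) (nat_lit 0) (nat_lit 3466719664) (nat_lit 1824) (nat_lit 266568974) (nat_lit 531) (nat_lit 1) (nat_lit 506) (nat_lit 1) (nat_lit 530) (nat_lit 1) (nat_lit 382) (nat_lit 388) (nat_lit 370)) (XT.lf (nat_lit 1900) (nat_lit 282754720) (nat_lit 76) (nat_lit 1839989692) (nat_lit 0) (nat_lit 1839989692) (nat_lit 531) (nat_lit 1) (nat_lit 507) (nat_lit 1) (nat_lit 506) (nat_lit 1) (nat_lit 383) (nat_lit 388) (nat_lit 369))))) (XT.nd (nat_lit 234) (nat_lit 0) (nat_lit 76) (XT.nd (nat_lit 78) (nat_lit 1900) (nat_lit 0) (XT.lf (nat_lit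 1900) (nat_lit 17704209) (nat_lit 0) (nat_lit 3890893372) (nat_lit 1824) (nat_lit 17704209) (nat_lit 532) (nat_lit 1) (nat_lit 507) (nat_lit 1) (nat_lit 531) (nat_lit 1) (nat_lit 384) (nat_lit 388) (nat_lit 368)) (XT.nd (nat_lit 78) (nat_lit 0) (nat_lit 0) (XT.lf (nat_lit 1976) (nat_lit 1830208740) (nat_lit 0) (nat_lit 229634219) (nat_lit 1900) (nat_lit 1830208740) (nat_lit 508) (nat_lit 1) (nat_lit 482) (nat_lit 1) (nat_lit 507) (nat_lit 1) (nat_lit 385) (nat_lit 388) (nat_lit 367)) (XT.lf (nat_lit 1976) (nat_lit 3363741038) (nat_lit 76) (nat_lit 245366344) (nat_lit 0) (nat_lit 245366344) (nat_lit 508) (nat_lit 1) (nat_lit 483) (nat_lit 1) (nat_lit 482) (nat_lit 1) (nat_lit 386) (nat_lit 388) (nat_lit 366)))) (XT.nd (nat_lit 78) (nat_lit 0) (nat_lit 0) (XT.lf (nat_lit 1976) (nat_lit 1525302674) (nat_lit 0) (nat_lit 768551220) (nat_lit 1900) (nat_lit 1525302674) (nat_lit 509) (nat_lit 1) (nat_lit 483) (nat_lit 1) (nat_lit 508) (nat_lit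 1) (nat_lit 387) (nat_lit 388) (nat_lit 365)) (XT.nd (nat_lit 78) (nat_lit 0) (nat_lit 76) (XT.lf (nat_lit 1976) (nat_lit 2738553318) (nat_lit 76) (nat_lit 522939722) (nat_lit 0) (nat_lit 522939722) (nat_lit 509) (nat_lit 1) (nat_lit 484) (nat_lit 1) (nat_lit 483) (nat_lit 1) (nat_lit 388) (nat_lit 388) (nat_lit 364)) (XT.lf (nat_lit 76) (nat_lit 1207241919) (nat_lit 0) (nat_lit 1335550364) (nat_lit 1900) (nat_lit 1207241919) (nat_lit 485) (nat_lit 1) (nat_lit 484) (nat_lit 1) (nat_lit 509) (nat_lit 1) (nat_lit 389) (nat_lit 388) (nat_lit 363)))))) (XT.nd (nat_lit 468) (nat_lit 3496) (nat_lit 0) (XT.nd (nat_lit 234) (nat_lit 912) (nat_lit 0) (XT.nd (nat_lit 78) (nat_lit 912) (nat_lit 0) (XT.lf (nat_lit 1216) (nat_lit 2087982148) (nat_lit 0) (nat_lit 814077847) (nat_lit 1140) (nat_lit 814077847) (nat_lit 485) (nat_lit 1) (nat_lit 469) (nat_lit 1) (nat_lit 484) (nat_lit 1) (nat_lit 390) (nat_lit 388) (nat_lit 362)) (XT.nd (nat_lit 78) (nat_lit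 912) (nat_lit 0) (XT.lf (nat_lit 76) (nat_lit 877027377) (nat_lit 0) (nat_lit 1928580229) (nat_lit 1216) (nat_lit 877027377) (nat_lit 470) (nat_lit 1) (nat_lit 469) (nat_lit 1) (nat_lit 485) (nat_lit 1) (nat_lit 391) (nat_lit 388) (nat_lit 361)) (XT.lf (nat_lit 988) (nat_lit 1413986929) (nat_lit 0) (nat_lit 1117776665) (nat_lit 912) (nat_lit 1117776665) (nat_lit 470) (nat_lit 1) (nat_lit 457) (nat_lit 1) (nat_lit 469) (nat_lit 1) (nat_lit 392) (nat_lit 388) (nat_lit 360)))) (XT.nd (nat_lit 78) (nat_lit 912) (nat_lit 0) (XT.lf (nat_lit 76) (nat_lit 535611474) (nat_lit 0) (nat_lit 2545687891) (nat_lit 988) (nat_lit 535611474) (nat_lit 458) (nat_lit 1) (nat_lit 457) (nat_lit 1) (nat_lit 470) (nat_lit 1) (nat_lit 393) (nat_lit 388) (nat_lit 359)) (XT.nd (nat_lit 78) (nat_lit 0) (nat_lit 0) (XT.lf (nat_lit 988) (nat_lit 718431884) (nat_lit 0) (nat_lit 1433080469) (nat_lit 912) (nat_lit 1433080469) (nat_lit 458) (nat_lit 1) (nat_lit 445) (nat_lit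 1) (nat_lit 457) (nat_lit 1) (nat_lit 394) (nat_lit 388) (nat_lit 358)) (XT.lf (nat_lit 76) (nat_lit 183900232) (nat_lit 0) (nat_lit 3185014737) (nat_lit 988) (nat_lit 183900232) (nat_lit 446) (nat_lit 1) (nat_lit 445) (nat_lit 1) (nat_lit 458) (nat_lit 1) (nat_lit 395) (nat_lit 388) (nat_lit 357))))) (XT.nd (nat_lit 234) (nat_lit 1672) (nat_lit 0) (XT.nd (nat_lit 78) (nat_lit 988) (nat_lit 0) (XT.lf (nat_lit 912) (nat_lit 3090126) (nat_lit 0) (nat_lit 1759079840) (nat_lit 836) (nat_lit 1759079840) (nat_lit 446) (nat_lit 1) (nat_lit 434) (nat_lit 1) (nat_lit 445) (nat_lit 1) (nat_lit 396) (nat_lit 388) (nat_lit 356)) (XT.nd (nat_lit 78) (nat_lit 0) (nat_lit 0) (XT.lf (nat_lit 988) (nat_lit 3138053242) (nat_lit 0) (nat_lit 176078662) (nat_lit 912) (nat_lit 176078662) (nat_lit 434) (nat_lit 1) (nat_lit 421) (nat_lit 1) (nat_lit 433) (nat_lit 1) (nat_lit 397) (nat_lit 388) (nat_lit 355)) (XT.lf (nat_lit 76) (nat_lit 1369299165) (nat_lit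 0) (nat_lit 720773731) (nat_lit 988) (nat_lit 1369299165) (nat_lit 422) (nat_lit 1) (nat_lit 421) (nat_lit 1) (nat_lit 434) (nat_lit 1) (nat_lit 398) (nat_lit 388) (nat_lit 354)))) (XT.nd (nat_lit 78) (nat_lit 836) (nat_lit 0) (XT.lf (nat_lit 912) (nat_lit 2342233935) (nat_lit 0) (nat_lit 543405659) (nat_lit 836) (nat_lit 543405659) (nat_lit 422) (nat_lit 1) (nat_lit 410) (nat_lit 1) (nat_lit 421) (nat_lit 1) (nat_lit 399) (nat_lit 388) (nat_lit 353)) (XT.nd (nat_lit 78) (nat_lit 836) (nat_lit 0) (XT.lf (nat_lit 76) (nat_lit 969064953) (nat_lit 0) (nat_lit 1460879033) (nat_lit 912) (nat_lit 969064953) (nat_lit 411) (nat_lit 1) (nat_lit 410) (nat_lit 1) (nat_lit 422) (nat_lit 1) (nat_lit 400) (nat_lit 388) (nat_lit 352)) (XT.lf (nat_lit 912) (nat_lit 1532338442) (nat_lit 0) (nat_lit 918517341) (nat_lit 836) (nat_lit 918517341) (nat_lit 411) (nat_lit 1) (nat_lit 399) (nat_lit 1) (nat_lit 410) (nat_lit 1) (nat_lit 401) (nat_lit 388) (nat_lit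 351))))))) (XT.nd (nat_lit 936) (nat_lit 4408) (nat_lit 0) (XT.nd (nat_lit 468) (nat_lit 2888) (nat_lit 0) (XT.nd (nat_lit 234) (nat_lit 1596) (nat_lit 0) (XT.nd (nat_lit 78) (nat_lit 760) (nat_lit 0) (XT.lf (nat_lit 76) (nat_lit 562177868) (nat_lit 0) (nat_lit 2215763687) (nat_lit 912) (nat_lit 562177868) (nat_lit 400) (nat_lit 1) (nat_lit 399) (nat_lit 1) (nat_lit 411) (nat_lit 1) (nat_lit 402) (nat_lit 388) (nat_lit 350)) (XT.nd (nat_lit 78) (nat_lit 0) (nat_lit 0) (XT.lf (nat_lit 836) (nat_lit 709795297) (nat_lit 0) (nat_lit 1300679097) (nat_lit 760) (nat_lit 1300679097) (nat_lit 400) (nat_lit 1) (nat_lit 389) (nat_lit 1) (nat_lit 399) (nat_lit 1) (nat_lit 403) (nat_lit 388) (nat_lit 349)) (XT.lf (nat_lit 76) (nat_lit 149331432) (nat_lit 0) (nat_lit 2984000488) (nat_lit 836) (nat_lit 149331432) (nat_lit 390) (nat_lit 1) (nat_lit 389) (nat_lit 1) (nat_lit 400) (nat_lit 1) (nat_lit 404) (nat_lit 388) (nat_lit 348)))) (XT.nd (nat_lit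 78) (nat_lit 760) (nat_lit 0) (XT.lf (nat_lit 76) (nat_lit 1565958937) (nat_lit 0) (nat_lit 122412927) (nat_lit 836) (nat_lit 1565958937) (nat_lit 379) (nat_lit 1) (nat_lit 378) (nat_lit 1) (nat_lit 389) (nat_lit 1) (nat_lit 405) (nat_lit 388) (nat_lit 347)) (XT.nd (nat_lit 78) (nat_lit 0) (nat_lit 0) (XT.lf (nat_lit 836) (nat_lit 2692366174) (nat_lit 0) (nat_lit 267047764) (nat_lit 760) (nat_lit 267047764) (nat_lit 379) (nat_lit 1) (nat_lit 368) (nat_lit 1) (nat_lit 378) (nat_lit 1) (nat_lit 406) (nat_lit 388) (nat_lit 346)) (XT.lf (nat_lit 76) (nat_lit 1121801447) (nat_lit 0) (nat_lit 955186548) (nat_lit 836) (nat_lit 1121801447) (nat_lit 369) (nat_lit 1) (nat_lit 368) (nat_lit 1) (nat_lit 379) (nat_lit 1) (nat_lit 407) (nat_lit 388) (nat_lit 345))))) (XT.nd (nat_lit 234) (nat_lit 1444) (nat_lit 0) (XT.nd (nat_lit 78) (nat_lit 684) (nat_lit 0) (XT.lf (nat_lit 836) (nat_lit 1797354773) (nat_lit 0) (nat_lit 687090892) (nat_lit 760) (nat_lit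 687090892) (nat_lit 369) (nat_lit 1) (nat_lit 358) (nat_lit 1) (nat_lit 368) (nat_lit 1) (nat_lit 408) (nat_lit 388) (nat_lit 344)) (XT.nd (nat_lit 78) (nat_lit 684) (nat_lit 0) (XT.lf (nat_lit 76) (nat_lit 673976801) (nat_lit 0) (nat_lit 1796631049) (nat_lit 836) (nat_lit 673976801) (nat_lit 359) (nat_lit 1) (nat_lit 358) (nat_lit 1) (nat_lit 369) (nat_lit 1) (nat_lit 409) (nat_lit 388) (nat_lit 343)) (XT.lf (nat_lit 760) (nat_lit 895544279) (nat_lit 0) (nat_lit 1111192585) (nat_lit 684) (nat_lit 1111192585) (nat_lit 359) (nat_lit 1) (nat_lit 349) (nat_lit 1) (nat_lit 358) (nat_lit 1) (nat_lit 410) (nat_lit 388) (nat_lit 342)))) (XT.nd (nat_lit 78) (nat_lit 1444) (nat_lit 0) (XT.lf (nat_lit 76) (nat_lit 223037485) (nat_lit 0) (nat_lit 2645605641) (nat_lit 760) (nat_lit 223037485) (nat_lit 350) (nat_lit 1) (nat_lit 349) (nat_lit 1) (nat_lit 359) (nat_lit 1) (nat_lit 411) (nat_lit 388) (nat_lit 341)) (XT.nd (nat_lit 78) (nat_lit 684) (nat_lit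 0) (XT.lf (nat_lit 76) (nat_lit 1526887153) (nat_lit 0) (nat_lit 11829310) (nat_lit 760) (nat_lit 1526887153) (nat_lit 340) (nat_lit 1) (nat_lit 339) (nat_lit 1) (nat_lit 349) (nat_lit 1) (nat_lit 412) (nat_lit 388) (nat_lit 340)) (XT.lf (nat_lit 760) (nat_lit 2581968240) (nat_lit 0) (nat_lit 228977106) (nat_lit 684) (nat_lit 228977106) (nat_lit 340) (nat_lit 1) (nat_lit 330) (nat_lit 1) (nat_lit 339) (nat_lit 1) (nat_lit 413) (nat_lit 388) (nat_lit 339)))))) (XT.nd (nat_lit 468) (nat_lit 2432) (nat_lit 0) (XT.nd (nat_lit 234) (nat_lit 1292) (nat_lit 0) (XT.nd (nat_lit 78) (nat_lit 684) (nat_lit 0) (XT.lf (nat_lit 76) (nat_lit 1051157072) (nat_lit 0) (nat_lit 912095420) (nat_lit 760) (nat_lit 1051157072) (nat_lit 331) (nat_lit 1) (nat_lit 330) (nat_lit 1) (nat_lit 340) (nat_lit 1) (nat_lit 414) (nat_lit 388) (nat_lit 338)) (XT.nd (nat_lit 78) (nat_lit 0) (nat_lit 0) (XT.lf (nat_lit 760) (nat_lit 1626064404) (nat_lit 0) (nat_lit 681607432)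 (nat_lit 684) (nat_lit 681607432) (nat_lit 331) (nat_lit 1) (nat_lit 321) (nat_lit 1) (nat_lit 330) (nat_lit 1) (nat_lit 415) (nat_lit 388) (nat_lit 337)) (XT.lf (nat_lit 76) (nat_lit 574192127) (nat_lit 0) (nat_lit 1816046320) (nat_lit 760) (nat_lit 574192127) (nat_lit 322) (nat_lit 1) (nat_lit 321) (nat_lit 1) (nat_lit 331) (nat_lit 1) (nat_lit 416) (nat_lit 388) (nat_lit 336)))) (XT.nd (nat_lit 78) (nat_lit 684) (nat_lit 0) (XT.lf (nat_lit 684) (nat_lit 668122710) (nat_lit 0) (nat_lit 1135856066) (nat_lit 608) (nat_lit 1135856066) (nat_lit 322) (nat_lit 1) (nat_lit 313) (nat_lit 1) (nat_lit 321) (nat_lit 1) (nat_lit 417) (nat_lit 388) (nat_lit 335)) (XT.nd (nat_lit 78) (nat_lit 684) (nat_lit 0) (XT.lf (nat_lit 76) (nat_lit 96426702) (nat_lit 0) (nat_lit 2722781215) (nat_lit 684) (nat_lit 96426702) (nat_lit 314) (nat_lit 1) (nat_lit 313) (nat_lit 1) (nat_lit 322) (nat_lit 1) (nat_lit 418) (nat_lit 388) (nat_lit 334)) (XT.lf (nat_lit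 76) (nat_lit 1302163304) (nat_lit 0) (nat_lit 287193280) (nat_lit 684) (nat_lit 1302163304) (nat_lit 305) (nat_lit 1) (nat_lit 304) (nat_lit 1) (nat_lit 313) (nat_lit 1) (nat_lit 419) (nat_lit 388) (nat_lit 333))))) (XT.nd (nat_lit 234) (nat_lit 1216) (nat_lit 0) (XT.nd (nat_lit 78) (nat_lit 608) (nat_lit 0) (XT.lf (nat_lit 684) (nat_lit 2109355905) (nat_lit 0) (nat_lit 379217887) (nat_lit 608) (nat_lit 379217887) (nat_lit 305) (nat_lit 1) (nat_lit 296) (nat_lit 1) (nat_lit 304) (nat_lit 1) (nat_lit 420) (nat_lit 388) (nat_lit 332)) (XT.nd (nat_lit 78) (nat_lit 608) (nat_lit 0) (XT.lf (nat_lit 76) (nat_lit 805060632) (nat_lit 0) (nat_lit 1234133556) (nat_lit 684) (nat_lit 805060632) (nat_lit 297) (nat_lit 1) (nat_lit 296) (nat_lit 1) (nat_lit 305) (nat_lit 1) (nat_lit 421) (nat_lit 388) (nat_lit 331)) (XT.lf (nat_lit 684) (nat_lit 1112556241) (nat_lit 0) (nat_lit 854232014) (nat_lit 608) (nat_lit 854232014) (nat_lit 297) (nat_lit 1) (nat_lit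 288) (nat_lit 1) (nat_lit 296) (nat_lit 1) (nat_lit 422) (nat_lit 388) (nat_lit 330)))) (XT.nd (nat_lit 156) (nat_lit 684) (nat_lit 0) (XT.nd (nat_lit 78) (nat_lit 532) (nat_lit 0) (XT.lf (nat_lit 76) (nat_lit 308689735) (nat_lit 0) (nat_lit 2180717356) (nat_lit 684) (nat_lit 308689735) (nat_lit 289) (nat_lit 1) (nat_lit 288) (nat_lit 1) (nat_lit 297) (nat_lit 1) (nat_lit 423) (nat_lit 388) (nat_lit 329)) (XT.lf (nat_lit 608) (nat_lit 117565224) (nat_lit 0) (nat_lit 1328888164) (nat_lit 532) (nat_lit 1328888164) (nat_lit 289) (nat_lit 1) (nat_lit 281) (nat_lit 1) (nat_lit 288) (nat_lit 1) (nat_lit 424) (nat_lit 388) (nat_lit 328))) (XT.nd (nat_lit 78) (nat_lit 0) (nat_lit 0) (XT.lf (nat_lit 684) (nat_lit 2382148065) (nat_lit 0) (nat_lit 185385938) (nat_lit 608) (nat_lit 185385938) (nat_lit 281) (nat_lit 1) (nat_lit 272) (nat_lit 1) (nat_lit 280) (nat_lit 1) (nat_lit 425) (nat_lit 388) (nat_lit 327)) (XT.lf (nat_lit 76) (nat_lit 933562551)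 (nat_lit 0) (nat_lit 863488570) (nat_lit 684) (nat_lit 933562551) (nat_lit 273) (nat_lit 1) (nat_lit 272) (nat_lit 1) (nat_lit 281) (nat_lit 1) (nat_lit 426) (nat_lit 388) (nat_lit 326))))))))
noncomputable def ec28 : XT := (XT.nd (nat_lit 55692) (nat_lit 0) (nat_lit 10260) (XT.nd (nat_lit 54756) (nat_lit 0) (nat_lit 19532) (XT.nd (nat_lit 54288) (nat_lit 0) (nat_lit 19304) (XT.nd (nat_lit 234) (nat_lit 1140) (nat_lit 0) (XT.nd (nat_lit 78) (nat_lit 532) (nat_lit 0) (XT.lf (nat_lit 608) (nat_lit 1356519782) (nat_lit 0) (nat_lit 676056804) (nat_lit 532) (nat_lit 676056804) (nat_lit 273) (nat_lit 1) (nat_lit 265) (nat_lit 1) (nat_lit 272) (nat_lit 1) (nat_lit 427) (nat_lit 388) (nat_lit 325)) (XT.nd (nat_lit 78) (nat_lit 532) (nat_lit 0) (XT.lf (nat_lit 76) (nat_lit 423471378) (nat_lit 0) (nat_lit 1839965191) (nat_lit 608) (nat_lit 423471378) (nat_lit 266) (nat_lit 1) (nat_lit 265) (nat_lit 1) (nat_lit 273) (nat_lit 1) (nat_lit 428) (nat_lit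 388) (nat_lit 324)) (XT.lf (nat_lit 608) (nat_lit 335252404) (nat_lit 0) (nat_lit 1165059368) (nat_lit 532) (nat_lit 1165059368) (nat_lit 266) (nat_lit 1) (nat_lit 258) (nat_lit 1) (nat_lit 265) (nat_lit 1) (nat_lit 429) (nat_lit 388) (nat_lit 323)))) (XT.nd (nat_lit 78) (nat_lit 532) (nat_lit 0) (XT.lf (nat_lit 608) (nat_lit 2476653505) (nat_lit 0) (nat_lit 83757821) (nat_lit 532) (nat_lit 83757821) (nat_lit 258) (nat_lit 1) (nat_lit 250) (nat_lit 1) (nat_lit 257) (nat_lit 1) (nat_lit 430) (nat_lit 388) (nat_lit 322)) (XT.nd (nat_lit 78) (nat_lit 532) (nat_lit 0) (XT.lf (nat_lit 76) (nat_lit 975411855) (nat_lit 0) (nat_lit 672194890) (nat_lit 608) (nat_lit 975411855) (nat_lit 251) (nat_lit 1) (nat_lit 250) (nat_lit 1) (nat_lit 258) (nat_lit 1) (nat_lit 431) (nat_lit 388) (nat_lit 321)) (XT.lf (nat_lit 608) (nat_lit 1430881971) (nat_lit 0) (nat_lit 585657044) (nat_lit 532) (nat_lit 585657044) (nat_lit 251) (nat_lit 1) (nat_lit 243) (nat_lit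 1) (nat_lit 250) (nat_lit 1) (nat_lit 432) (nat_lit 388) (nat_lit 320))))) (XT.nd (nat_lit 234) (nat_lit 0) (nat_lit 76) (XT.nd (nat_lit 78) (nat_lit 0) (nat_lit 0) (XT.lf (nat_lit 1900) (nat_lit 806096250) (nat_lit 0) (nat_lit 812837090) (nat_lit 1900) (nat_lit 806096250) (nat_lit 522) (nat_lit 1) (nat_lit 497) (nat_lit 0) (nat_lit 522) (nat_lit 0) (nat_lit 362) (nat_lit 389) (nat_lit 389)) (XT.nd (nat_lit 78) (nat_lit 0) (nat_lit 76) (XT.lf (nat_lit 1900) (nat_lit 3187425773) (nat_lit 76) (nat_lit 807489477) (nat_lit 0) (nat_lit 807489477) (nat_lit 522) (nat_lit 1) (nat_lit 498) (nat_lit 1) (nat_lit 497) (nat_lit 0) (nat_lit 363) (nat_lit 389) (nat_lit 388)) (XT.lf (nat_lit 1900) (nat_lit 1565041227) (nat_lit 0) (nat_lit 1625188323) (nat_lit 1824) (nat_lit 1565041227) (nat_lit 523) (nat_lit 1) (nat_lit 498) (nat_lit 1) (nat_lit 522) (nat_lit 1) (nat_lit 364) (nat_lit 389) (nat_lit 387)))) (XT.nd (nat_lit 78) (nat_lit 0) (nat_lit 76)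 (XT.lf (nat_lit 1900) (nat_lit 3063171485) (nat_lit 76) (nat_lit 822839944) (nat_lit 0) (nat_lit 822839944) (nat_lit 523) (nat_lit 1) (nat_lit 499) (nat_lit 1) (nat_lit 498) (nat_lit 1) (nat_lit 365) (nat_lit 389) (nat_lit 386)) (XT.nd (nat_lit 78) (nat_lit 0) (nat_lit 0) (XT.lf (nat_lit 1900) (nat_lit 1488643296) (nat_lit 0) (nat_lit 1685657798) (nat_lit 1824) (nat_lit 1488643296) (nat_lit 524) (nat_lit 1) (nat_lit 499) (nat_lit 1) (nat_lit 523) (nat_lit 1) (nat_lit 366) (nat_lit 389) (nat_lit 385)) (XT.lf (nat_lit 1900) (nat_lit 2881995862) (nat_lit 76) (nat_lit 867862117) (nat_lit 0) (nat_lit 867862117) (nat_lit 524) (nat_lit 1) (nat_lit 500) (nat_lit 1) (nat_lit 499) (nat_lit 1) (nat_lit 367) (nat_lit 389) (nat_lit 384)))))) (XT.nd (nat_lit 468) (nat_lit 0) (nat_lit 228) (XT.nd (nat_lit 234) (nat_lit 0) (nat_lit 76) (XT.nd (nat_lit 78) (nat_lit 0) (nat_lit 0) (XT.lf (nat_lit 1900) (nat_lit 1384743756) (nat_lit 0) (nat_lit 1803520804)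 (nat_lit 1824) (nat_lit 1384743756) (nat_lit 525) (nat_lit 1) (nat_lit 500) (nat_lit 1) (nat_lit 524) (nat_lit 1) (nat_lit 368) (nat_lit 389) (nat_lit 383)) (XT.nd (nat_lit 78) (nat_lit 0) (nat_lit 76) (XT.lf (nat_lit 1900) (nat_lit 2647319942) (nat_lit 76) (nat_lit 940810322) (nat_lit 0) (nat_lit 940810322) (nat_lit 525) (nat_lit 1) (nat_lit 501) (nat_lit 1) (nat_lit 500) (nat_lit 1) (nat_lit 369) (nat_lit 389) (nat_lit 382)) (XT.lf (nat_lit 1900) (nat_lit 1255007946) (nat_lit 0) (nat_lit 1975377274) (nat_lit 1824) (nat_lit 1255007946) (nat_lit 526) (nat_lit 1) (nat_lit 501) (nat_lit 1) (nat_lit 525) (nat_lit 1) (nat_lit 370) (nat_lit 389) (nat_lit 381)))) (XT.nd (nat_lit 78) (nat_lit 0) (nat_lit 76) (XT.lf (nat_lit 1900) (nat_lit 2362408177) (nat_lit 76) (nat_lit 1040018309) (nat_lit 0) (nat_lit 1040018309) (nat_lit 526) (nat_lit 1) (nat_lit 502) (nat_lit 1) (nat_lit 501) (nat_lit 1) (nat_lit 371) (nat_lit 389) (nat_lit 380)) (XT.nd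 (nat_lit 78) (nat_lit 0) (nat_lit 0) (XT.lf (nat_lit 1900) (nat_lit 1101024821) (nat_lit 0) (nat_lit 2197982141) (nat_lit 1824) (nat_lit 1101024821) (nat_lit 527) (nat_lit 1) (nat_lit 502) (nat_lit 1) (nat_lit 526) (nat_lit 1) (nat_lit 372) (nat_lit 389) (nat_lit 379)) (XT.lf (nat_lit 1900) (nat_lit 2030374984) (nat_lit 76) (nat_lit 1163895938) (nat_lit 0) (nat_lit 1163895938) (nat_lit 527) (nat_lit 1) (nat_lit 503) (nat_lit 1) (nat_lit 502) (nat_lit 1) (nat_lit 373) (nat_lit 389) (nat_lit 378))))) (XT.nd (nat_lit 234) (nat_lit 0) (nat_lit 76) (XT.nd (nat_lit 78) (nat_lit 0) (nat_lit 0) (XT.lf (nat_lit 1900) (nat_lit 924310152) (nat_lit 0) (nat_lit 2468238865) (nat_lit 1824) (nat_lit 924310152) (nat_lit 528) (nat_lit 1) (nat_lit 503) (nat_lit 1) (nat_lit 527) (nat_lit 1) (nat_lit 374) (nat_lit 389) (nat_lit 377)) (XT.nd (nat_lit 78) (nat_lit 0) (nat_lit 76) (XT.lf (nat_lit 1900) (nat_lit 1654191028) (nat_lit 76) (nat_lit 1310926002) (nat_lit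 0) (nat_lit 1310926002) (nat_lit 528) (nat_lit 1) (nat_lit 504) (nat_lit 1) (nat_lit 503) (nat_lit 1) (nat_lit 375) (nat_lit 389) (nat_lit 376)) (XT.lf (nat_lit 1900) (nat_lit 726309591) (nat_lit 0) (nat_lit 2783193226) (nat_lit 1824) (nat_lit 726309591) (nat_lit 529) (nat_lit 1) (nat_lit 504) (nat_lit 1) (nat_lit 528) (nat_lit 1) (nat_lit 376) (nat_lit 389) (nat_lit 375)))) (XT.nd (nat_lit 78) (nat_lit 0) (nat_lit 76) (XT.lf (nat_lit 1900) (nat_lit 1236689244) (nat_lit 76) (nat_lit 1479661174) (nat_lit 0) (nat_lit 1479661174) (nat_lit 529) (nat_lit 1) (nat_lit 505) (nat_lit 1) (nat_lit 504) (nat_lit 1) (nat_lit 377) (nat_lit 389) (nat_lit 374)) (XT.nd (nat_lit 78) (nat_lit 0) (nat_lit 0) (XT.lf (nat_lit 1900) (nat_lit 508401616) (nat_lit 0) (nat_lit 3140027364) (nat_lit 1824) (nat_lit 508401616) (nat_lit 530) (nat_lit 1) (nat_lit 505) (nat_lit 1) (nat_lit 529) (nat_lit 1) (nat_lit 378) (nat_lit 389) (nat_lit 373)) (XT.lf (nat_lit 1900)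 (nat_lit 780570635) (nat_lit 76) (nat_lit 1668721079) (nat_lit 0) (nat_lit 1668721079) (nat_lit 530) (nat_lit 1) (nat_lit 506) (nat_lit 1) (nat_lit 505) (nat_lit 1) (nat_lit 379) (nat_lit 389) (nat_lit 372))))))) (XT.nd (nat_lit 936) (nat_lit 6004) (nat_lit 0) (XT.nd (nat_lit 468) (nat_lit 1900) (nat_lit 0) (XT.nd (nat_lit 234) (nat_lit 1824) (nat_lit 0) (XT.nd (nat_lit 78) (nat_lit 0) (nat_lit 0) (XT.lf (nat_lit 1900) (nat_lit 271900354) (nat_lit 0) (nat_lit 3536054058) (nat_lit 1824) (nat_lit 271900354) (nat_lit 531) (nat_lit 1) (nat_lit 506) (nat_lit 1) (nat_lit 530) (nat_lit 1) (nat_lit 380) (nat_lit 389) (nat_lit 371)) (XT.nd (nat_lit 78) (nat_lit 0) (nat_lit 76) (XT.lf (nat_lit 1900) (nat_lit 288409815) (nat_lit 76) (nat_lit 1876789486) (nat_lit 0) (nat_lit 1876789486) (nat_lit 531) (nat_lit 1) (nat_lit 507) (nat_lit 1) (nat_lit 506) (nat_lit 1) (nat_lit 381) (nat_lit 389) (nat_lit 370)) (XT.lf (nat_lit 1900) (nat_lit 18058293)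 (nat_lit 0) (nat_lit 3968711239) (nat_lit 1824) (nat_lit 18058293) (nat_lit 532) (nat_lit 1) (nat_lit 507) (nat_lit 1) (nat_lit 531) (nat_lit 1) (nat_lit 382) (nat_lit 389) (nat_lit 369)))) (XT.nd (nat_lit 78) (nat_lit 0) (nat_lit 0) (XT.lf (nat_lit 1976) (nat_lit 1866812915) (nat_lit 0) (nat_lit 234226903) (nat_lit 1900) (nat_lit 1866812915) (nat_lit 508) (nat_lit 1) (nat_lit 482) (nat_lit 1) (nat_lit 507) (nat_lit 1) (nat_lit 383) (nat_lit 389) (nat_lit 368)) (XT.nd (nat_lit 78) (nat_lit 0) (nat_lit 76) (XT.lf (nat_lit 1976) (nat_lit 3431015859) (nat_lit 76) (nat_lit 250273671) (nat_lit 0) (nat_lit 250273671) (nat_lit 508) (nat_lit 1) (nat_lit 483) (nat_lit 1) (nat_lit 482) (nat_lit 1) (nat_lit 384) (nat_lit 389) (nat_lit 367)) (XT.lf (nat_lit 1976) (nat_lit 1555808728) (nat_lit 0) (nat_lit 783922244) (nat_lit 1900) (nat_lit 1555808728) (nat_lit 509) (nat_lit 1) (nat_lit 483) (nat_lit 1) (nat_lit 508) (nat_lit 1) (nat_lit 385) (nat_lit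 389) (nat_lit 366))))) (XT.nd (nat_lit 234) (nat_lit 912) (nat_lit 0) (XT.nd (nat_lit 78) (nat_lit 1064) (nat_lit 0) (XT.lf (nat_lit 1976) (nat_lit 2793324384) (nat_lit 76) (nat_lit 533398516) (nat_lit 0) (nat_lit 533398516) (nat_lit 509) (nat_lit 1) (nat_lit 484) (nat_lit 1) (nat_lit 483) (nat_lit 1) (nat_lit 386) (nat_lit 389) (nat_lit 365)) (XT.nd (nat_lit 78) (nat_lit 1140) (nat_lit 0) (XT.lf (nat_lit 76) (nat_lit 1231386757) (nat_lit 0) (nat_lit 1362261372) (nat_lit 1900) (nat_lit 1231386757) (nat_lit 485) (nat_lit 1) (nat_lit 484) (nat_lit 1) (nat_lit 509) (nat_lit 1) (nat_lit 387) (nat_lit 389) (nat_lit 364)) (XT.lf (nat_lit 1216) (nat_lit 2129741791) (nat_lit 0) (nat_lit 830359404) (nat_lit 1140) (nat_lit 830359404) (nat_lit 485) (nat_lit 1) (nat_lit 469) (nat_lit 1) (nat_lit 484) (nat_lit 1) (nat_lit 388) (nat_lit 389) (nat_lit 363)))) (XT.nd (nat_lit 78) (nat_lit 912) (nat_lit 0) (XT.lf (nat_lit 76) (nat_lit 894567925) (nat_lit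 0) (nat_lit 1967151834) (nat_lit 1216) (nat_lit 894567925) (nat_lit 470) (nat_lit 1) (nat_lit 469) (nat_lit 1) (nat_lit 485) (nat_lit 1) (nat_lit 389) (nat_lit 389) (nat_lit 362)) (XT.nd (nat_lit 78) (nat_lit 0) (nat_lit 0) (XT.lf (nat_lit 988) (nat_lit 1442266668) (nat_lit 0) (nat_lit 1140132198) (nat_lit 912) (nat_lit 1140132198) (nat_lit 470) (nat_lit 1) (nat_lit 457) (nat_lit 1) (nat_lit 469) (nat_lit 1) (nat_lit 390) (nat_lit 389) (nat_lit 361)) (XT.lf (nat_lit 76) (nat_lit 546323704) (nat_lit 0) (nat_lit 2596601649) (nat_lit 988) (nat_lit 546323704) (nat_lit 458) (nat_lit 1) (nat_lit 457) (nat_lit 1) (nat_lit 470) (nat_lit 1) (nat_lit 391) (nat_lit 389) (nat_lit 360)))))) (XT.nd (nat_lit 468) (nat_lit 2432) (nat_lit 0) (XT.nd (nat_lit 234) (nat_lit 1824) (nat_lit 0) (XT.nd (nat_lit 78) (nat_lit 836) (nat_lit 0) (XT.lf (nat_lit 988) (nat_lit 732800522) (nat_lit 0) (nat_lit 1461742078) (nat_lit 912) (nat_lit 1461742078) (nat_lit 458)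 (nat_lit 1) (nat_lit 445) (nat_lit 1) (nat_lit 457) (nat_lit 1) (nat_lit 392) (nat_lit 389) (nat_lit 359)) (XT.nd (nat_lit 78) (nat_lit 836) (nat_lit 0) (XT.lf (nat_lit 76) (nat_lit 187578236) (nat_lit 0) (nat_lit 3248715032) (nat_lit 988) (nat_lit 187578236) (nat_lit 446) (nat_lit 1) (nat_lit 445) (nat_lit 1) (nat_lit 458) (nat_lit 1) (nat_lit 393) (nat_lit 389) (nat_lit 358)) (XT.lf (nat_lit 912) (nat_lit 3151928) (nat_lit 0) (nat_lit 1794261437) (nat_lit 836) (nat_lit 1794261437) (nat_lit 446) (nat_lit 1) (nat_lit 434) (nat_lit 1) (nat_lit 445) (nat_lit 1) (nat_lit 394) (nat_lit 389) (nat_lit 357)))) (XT.nd (nat_lit 78) (nat_lit 836) (nat_lit 0) (XT.lf (nat_lit 988) (nat_lit 3200814307) (nat_lit 0) (nat_lit 179600236) (nat_lit 912) (nat_lit 179600236) (nat_lit 434) (nat_lit 1) (nat_lit 421) (nat_lit 1) (nat_lit 433) (nat_lit 1) (nat_lit 395) (nat_lit 389) (nat_lit 356)) (XT.nd (nat_lit 78) (nat_lit 836) (nat_lit 0) (XT.lf (nat_lit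 76) (nat_lit 1396685148) (nat_lit 0) (nat_lit 735189206) (nat_lit 988) (nat_lit 1396685148) (nat_lit 422) (nat_lit 1) (nat_lit 421) (nat_lit 1) (nat_lit 434) (nat_lit 1) (nat_lit 396) (nat_lit 389) (nat_lit 355)) (XT.lf (nat_lit 912) (nat_lit 2389078613) (nat_lit 0) (nat_lit 554273772) (nat_lit 836) (nat_lit 554273772) (nat_lit 422) (nat_lit 1) (nat_lit 410) (nat_lit 1) (nat_lit 421) (nat_lit 1) (nat_lit 397) (nat_lit 389) (nat_lit 354))))) (XT.nd (nat_lit 234) (nat_lit 1596) (nat_lit 0) (XT.nd (nat_lit 78) (nat_lit 836) (nat_lit 0) (XT.lf (nat_lit 76) (nat_lit 988446253) (nat_lit 0) (nat_lit 1490096614) (nat_lit 912) (nat_lit 988446253) (nat_lit 411) (nat_lit 1) (nat_lit 410) (nat_lit 1) (nat_lit 422) (nat_lit 1) (nat_lit 398) (nat_lit 389) (nat_lit 353)) (XT.nd (nat_lit 78) (nat_lit 0) (nat_lit 0) (XT.lf (nat_lit 912) (nat_lit 1562985211) (nat_lit 0) (nat_lit 936887687) (nat_lit 836) (nat_lit 936887687) (nat_lit 411) (nat_lit 1) (nat_lit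 399) (nat_lit 1) (nat_lit 410) (nat_lit 1) (nat_lit 399) (nat_lit 389) (nat_lit 352)) (XT.lf (nat_lit 76) (nat_lit 573421425) (nat_lit 0) (nat_lit 2260078961) (nat_lit 912) (nat_lit 573421425) (nat_lit 400) (nat_lit 1) (nat_lit 399) (nat_lit 1) (nat_lit 411) (nat_lit 1) (nat_lit 400) (nat_lit 389) (nat_lit 351)))) (XT.nd (nat_lit 78) (nat_lit 836) (nat_lit 0) (XT.lf (nat_lit 836) (nat_lit 723991203) (nat_lit 0) (nat_lit 1326692679) (nat_lit 760) (nat_lit 1326692679) (nat_lit 400) (nat_lit 1) (nat_lit 389) (nat_lit 1) (nat_lit 399) (nat_lit 1) (nat_lit 401) (nat_lit 389) (nat_lit 350)) (XT.nd (nat_lit 78) (nat_lit 836) (nat_lit 0) (XT.lf (nat_lit 76) (nat_lit 152318060) (nat_lit 0) (nat_lit 3043680497) (nat_lit 836) (nat_lit 152318060) (nat_lit 390) (nat_lit 1) (nat_lit 389) (nat_lit 1) (nat_lit 400) (nat_lit 1) (nat_lit 402) (nat_lit 389) (nat_lit 349)) (XT.lf (nat_lit 76) (nat_lit 1597278116) (nat_lit 0) (nat_lit 124861185) (nat_lit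 836) (nat_lit 1597278116) (nat_lit 379) (nat_lit 1) (nat_lit 378) (nat_lit 1) (nat_lit 389) (nat_lit 1) (nat_lit 403) (nat_lit 389) (nat_lit 348))))))))
noncomputable def ec29 : XT := (XT.nd (nat_lit 1872) (nat_lit 1596) (nat_lit 0) (XT.nd (nat_lit 936) (nat_lit 4180) (nat_lit 0) (XT.nd (nat_lit 468) (nat_lit 2736) (nat_lit 0) (XT.nd (nat_lit 234) (nat_lit 684) (nat_lit 0) (XT.nd (nat_lit 78) (nat_lit 760) (nat_lit 0) (XT.lf (nat_lit 836) (nat_lit 2746213497) (nat_lit 0) (nat_lit 272388719) (nat_lit 760) (nat_lit 272388719) (nat_lit 379) (nat_lit 1) (nat_lit 368) (nat_lit 1) (nat_lit 378) (nat_lit 1) (nat_lit 404) (nat_lit 389) (nat_lit 347)) (XT.nd (nat_lit 78) (nat_lit 760) (nat_lit 0) (XT.lf (nat_lit 76) (nat_lit 1144237476) (nat_lit 0) (nat_lit 974290279) (nat_lit 836) (nat_lit 1144237476) (nat_lit 369) (nat_lit 1) (nat_lit 368) (nat_lit 1) (nat_lit 379) (nat_lit 1) (nat_lit 405) (nat_lit 389) (nat_lit 346)) (XT.lf (nat_lit 836) (nat_lit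 1833301868) (nat_lit 0) (nat_lit 700832710) (nat_lit 760) (nat_lit 700832710) (nat_lit 369) (nat_lit 1) (nat_lit 358) (nat_lit 1) (nat_lit 368) (nat_lit 1) (nat_lit 406) (nat_lit 389) (nat_lit 345)))) (XT.nd (nat_lit 78) (nat_lit 684) (nat_lit 0) (XT.lf (nat_lit 76) (nat_lit 687456337) (nat_lit 0) (nat_lit 1832563670) (nat_lit 836) (nat_lit 687456337) (nat_lit 359) (nat_lit 1) (nat_lit 358) (nat_lit 1) (nat_lit 369) (nat_lit 1) (nat_lit 407) (nat_lit 389) (nat_lit 344)) (XT.nd (nat_lit 78) (nat_lit 0) (nat_lit 0) (XT.lf (nat_lit 760) (nat_lit 913455165) (nat_lit 0) (nat_lit 1133416437) (nat_lit 684) (nat_lit 1133416437) (nat_lit 359) (nat_lit 1) (nat_lit 349) (nat_lit 1) (nat_lit 358) (nat_lit 1) (nat_lit 408) (nat_lit 389) (nat_lit 343)) (XT.lf (nat_lit 76) (nat_lit 227498234) (nat_lit 0) (nat_lit 2698517754) (nat_lit 760) (nat_lit 227498234) (nat_lit 350) (nat_lit 1) (nat_lit 349) (nat_lit 1) (nat_lit 359) (nat_lit 1) (nat_lit 409)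 (nat_lit 389) (nat_lit 342))))) (XT.nd (nat_lit 234) (nat_lit 1292) (nat_lit 0) (XT.nd (nat_lit 78) (nat_lit 684) (nat_lit 0) (XT.lf (nat_lit 76) (nat_lit 1557424896) (nat_lit 0) (nat_lit 12065896) (nat_lit 760) (nat_lit 1557424896) (nat_lit 340) (nat_lit 1) (nat_lit 339) (nat_lit 1) (nat_lit 349) (nat_lit 1) (nat_lit 410) (nat_lit 389) (nat_lit 341)) (XT.nd (nat_lit 78) (nat_lit 0) (nat_lit 0) (XT.lf (nat_lit 760) (nat_lit 2633607605) (nat_lit 0) (nat_lit 233556649) (nat_lit 684) (nat_lit 233556649) (nat_lit 340) (nat_lit 1) (nat_lit 330) (nat_lit 1) (nat_lit 339) (nat_lit 1) (nat_lit 411) (nat_lit 389) (nat_lit 340)) (XT.lf (nat_lit 76) (nat_lit 1072180213) (nat_lit 0) (nat_lit 930337328) (nat_lit 760) (nat_lit 1072180213) (nat_lit 331) (nat_lit 1) (nat_lit 330) (nat_lit 1) (nat_lit 340) (nat_lit 1) (nat_lit 412) (nat_lit 389) (nat_lit 339)))) (XT.nd (nat_lit 78) (nat_lit 608) (nat_lit 0) (XT.lf (nat_lit 760) (nat_lit 1658585692) (nat_lit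 0) (nat_lit 695239581) (nat_lit 684) (nat_lit 695239581) (nat_lit 331) (nat_lit 1) (nat_lit 321) (nat_lit 1) (nat_lit 330) (nat_lit 1) (nat_lit 413) (nat_lit 389) (nat_lit 338)) (XT.nd (nat_lit 78) (nat_lit 608) (nat_lit 0) (XT.lf (nat_lit 76) (nat_lit 585675970) (nat_lit 0) (nat_lit 1852367246) (nat_lit 760) (nat_lit 585675970) (nat_lit 322) (nat_lit 1) (nat_lit 321) (nat_lit 1) (nat_lit 331) (nat_lit 1) (nat_lit 414) (nat_lit 389) (nat_lit 337)) (XT.lf (nat_lit 684) (nat_lit 681485164) (nat_lit 0) (nat_lit 1158573187) (nat_lit 608) (nat_lit 1158573187) (nat_lit 322) (nat_lit 1) (nat_lit 313) (nat_lit 1) (nat_lit 321) (nat_lit 1) (nat_lit 415) (nat_lit 389) (nat_lit 336)))))) (XT.nd (nat_lit 468) (nat_lit 2280) (nat_lit 0) (XT.nd (nat_lit 234) (nat_lit 608) (nat_lit 0) (XT.nd (nat_lit 78) (nat_lit 1292) (nat_lit 0) (XT.lf (nat_lit 76) (nat_lit 98355236) (nat_lit 0) (nat_lit 2777236840) (nat_lit 684) (nat_lit 98355236) (nat_lit 314) (nat_lit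 1) (nat_lit 313) (nat_lit 1) (nat_lit 322) (nat_lit 1) (nat_lit 416) (nat_lit 389) (nat_lit 335)) (XT.nd (nat_lit 78) (nat_lit 608) (nat_lit 0) (XT.lf (nat_lit 76) (nat_lit 1328206570) (nat_lit 0) (nat_lit 292937146) (nat_lit 684) (nat_lit 1328206570) (nat_lit 305) (nat_lit 1) (nat_lit 304) (nat_lit 1) (nat_lit 313) (nat_lit 1) (nat_lit 417) (nat_lit 389) (nat_lit 334)) (XT.lf (nat_lit 684) (nat_lit 2151543023) (nat_lit 0) (nat_lit 386802244) (nat_lit 608) (nat_lit 386802244) (nat_lit 305) (nat_lit 1) (nat_lit 296) (nat_lit 1) (nat_lit 304) (nat_lit 1) (nat_lit 418) (nat_lit 389) (nat_lit 333)))) (XT.nd (nat_lit 78) (nat_lit 608) (nat_lit 0) (XT.lf (nat_lit 76) (nat_lit 821161845) (nat_lit 0) (nat_lit 1258816227) (nat_lit 684) (nat_lit 821161845) (nat_lit 297) (nat_lit 1) (nat_lit 296) (nat_lit 1) (nat_lit 305) (nat_lit 1) (nat_lit 419) (nat_lit 389) (nat_lit 332)) (XT.nd (nat_lit 78) (nat_lit 0) (nat_lit 0) (XT.lf (nat_lit 684) (nat_lit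 1134807365) (nat_lit 0) (nat_lit 871316654) (nat_lit 608) (nat_lit 871316654) (nat_lit 297) (nat_lit 1) (nat_lit 288) (nat_lit 1) (nat_lit 296) (nat_lit 1) (nat_lit 420) (nat_lit 389) (nat_lit 331)) (XT.lf (nat_lit 76) (nat_lit 314863530) (nat_lit 0) (nat_lit 2224331703) (nat_lit 684) (nat_lit 314863530) (nat_lit 289) (nat_lit 1) (nat_lit 288) (nat_lit 1) (nat_lit 297) (nat_lit 1) (nat_lit 421) (nat_lit 389) (nat_lit 330))))) (XT.nd (nat_lit 234) (nat_lit 1064) (nat_lit 0) (XT.nd (nat_lit 78) (nat_lit 684) (nat_lit 0) (XT.lf (nat_lit 608) (nat_lit 119916529) (nat_lit 0) (nat_lit 1355465928) (nat_lit 532) (nat_lit 1355465928) (nat_lit 289) (nat_lit 1) (nat_lit 281) (nat_lit 1) (nat_lit 288) (nat_lit 1) (nat_lit 422) (nat_lit 389) (nat_lit 329)) (XT.nd (nat_lit 78) (nat_lit 0) (nat_lit 0) (XT.lf (nat_lit 684) (nat_lit 2429791026) (nat_lit 0) (nat_lit 189093657) (nat_lit 608) (nat_lit 189093657) (nat_lit 281) (nat_lit 1) (nat_lit 272) (nat_lit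 1) (nat_lit 280) (nat_lit 1) (nat_lit 423) (nat_lit 389) (nat_lit 328)) (XT.lf (nat_lit 76) (nat_lit 952233802) (nat_lit 0) (nat_lit 880758341) (nat_lit 684) (nat_lit 952233802) (nat_lit 273) (nat_lit 1) (nat_lit 272) (nat_lit 1) (nat_lit 281) (nat_lit 1) (nat_lit 424) (nat_lit 389) (nat_lit 327)))) (XT.nd (nat_lit 78) (nat_lit 532) (nat_lit 0) (XT.lf (nat_lit 608) (nat_lit 1383650178) (nat_lit 0) (nat_lit 689577940) (nat_lit 532) (nat_lit 689577940) (nat_lit 273) (nat_lit 1) (nat_lit 265) (nat_lit 1) (nat_lit 272) (nat_lit 1) (nat_lit 425) (nat_lit 389) (nat_lit 326)) (XT.nd (nat_lit 78) (nat_lit 532) (nat_lit 0) (XT.lf (nat_lit 76) (nat_lit 431940806) (nat_lit 0) (nat_lit 1876764495) (nat_lit 608) (nat_lit 431940806) (nat_lit 266) (nat_lit 1) (nat_lit 265) (nat_lit 1) (nat_lit 273) (nat_lit 1) (nat_lit 426) (nat_lit 389) (nat_lit 325)) (XT.lf (nat_lit 608) (nat_lit 341957452) (nat_lit 0) (nat_lit 1188360555) (nat_lit 532) (nat_lit 1188360555)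 (nat_lit 266) (nat_lit 1) (nat_lit 258) (nat_lit 1) (nat_lit 265) (nat_lit 1) (nat_lit 427) (nat_lit 389) (nat_lit 324))))))) (XT.nd (nat_lit 54600) (nat_lit 0) (nat_lit 19988) (XT.nd (nat_lit 54132) (nat_lit 0) (nat_lit 19760) (XT.nd (nat_lit 234) (nat_lit 456) (nat_lit 0) (XT.nd (nat_lit 78) (nat_lit 532) (nat_lit 0) (XT.lf (nat_lit 608) (nat_lit 2526186575) (nat_lit 0) (nat_lit 85432978) (nat_lit 532) (nat_lit 85432978) (nat_lit 258) (nat_lit 1) (nat_lit 250) (nat_lit 1) (nat_lit 257) (nat_lit 1) (nat_lit 428) (nat_lit 389) (nat_lit 323)) (XT.nd (nat_lit 78) (nat_lit 532) (nat_lit 0) (XT.lf (nat_lit 76) (nat_lit 994920092) (nat_lit 0) (nat_lit 685638788) (nat_lit 608) (nat_lit 994920092) (nat_lit 251) (nat_lit 1) (nat_lit 250) (nat_lit 1) (nat_lit 258) (nat_lit 1) (nat_lit 429) (nat_lit 389) (nat_lit 322)) (XT.lf (nat_lit 608) (nat_lit 1459499610) (nat_lit 0) (nat_lit 597370184) (nat_lit 532) (nat_lit 597370184) (nat_lit 251) (nat_lit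 1) (nat_lit 243) (nat_lit 1) (nat_lit 250) (nat_lit 1) (nat_lit 430) (nat_lit 389) (nat_lit 321)))) (XT.nd (nat_lit 78) (nat_lit 456) (nat_lit 0) (XT.lf (nat_lit 76) (nat_lit 464946154) (nat_lit 0) (nat_lit 1703335606) (nat_lit 608) (nat_lit 464946154) (nat_lit 244) (nat_lit 1) (nat_lit 243) (nat_lit 1) (nat_lit 251) (nat_lit 1) (nat_lit 431) (nat_lit 389) (nat_lit 320)) (XT.nd (nat_lit 53742) (nat_lit 0) (nat_lit 19760) (XT.lf (nat_lit 532) (nat_lit 399463309) (nat_lit 0) (nat_lit 1106472407) (nat_lit 456) (nat_lit 1106472407) (nat_lit 244) (nat_lit 1) (nat_lit 237) (nat_lit 1) (nat_lit 243) (nat_lit 1) (nat_lit 432) (nat_lit 389) (nat_lit 319)) (XT.lf (nat_lit 1900) (nat_lit 822218175) (nat_lit 0) (nat_lit 829093832) (nat_lit 1900) (nat_lit 822218175) (nat_lit 522) (nat_lit 1) (nat_lit 497) (nat_lit 0) (nat_lit 522) (nat_lit 0) (nat_lit 360) (nat_lit 390) (nat_lit 390))))) (XT.nd (nat_lit 234) (nat_lit 0) (nat_lit 152) (XT.nd (nat_lit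 78) (nat_lit 0) (nat_lit 76) (XT.lf (nat_lit 1900) (nat_lit 3251174288) (nat_lit 76) (nat_lit 823639267) (nat_lit 0) (nat_lit 823639267) (nat_lit 522) (nat_lit 1) (nat_lit 498) (nat_lit 1) (nat_lit 497) (nat_lit 0) (nat_lit 361) (nat_lit 390) (nat_lit 389)) (XT.nd (nat_lit 78) (nat_lit 0) (nat_lit 0) (XT.lf (nat_lit 1900) (nat_lit 1596342051) (nat_lit 0) (nat_lit 1657692089) (nat_lit 1824) (nat_lit 1596342051) (nat_lit 523) (nat_lit 1) (nat_lit 498) (nat_lit 1) (nat_lit 522) (nat_lit 1) (nat_lit 362) (nat_lit 390) (nat_lit 388)) (XT.lf (nat_lit 1900) (nat_lit 3124434914) (nat_lit 76) (nat_lit 839296743) (nat_lit 0) (nat_lit 839296743) (nat_lit 523) (nat_lit 1) (nat_lit 499) (nat_lit 1) (nat_lit 498) (nat_lit 1) (nat_lit 363) (nat_lit 390) (nat_lit 387)))) (XT.nd (nat_lit 78) (nat_lit 0) (nat_lit 0) (XT.lf (nat_lit 1900) (nat_lit 1518416161) (nat_lit 0) (nat_lit 1719370954) (nat_lit 1824) (nat_lit 1518416161) (nat_lit 524) (nat_lit 1)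 (nat_lit 499) (nat_lit 1) (nat_lit 523) (nat_lit 1) (nat_lit 364) (nat_lit 390) (nat_lit 386)) (XT.nd (nat_lit 78) (nat_lit 0) (nat_lit 76) (XT.lf (nat_lit 1900) (nat_lit 2939635779) (nat_lit 76) (nat_lit 885219359) (nat_lit 0) (nat_lit 885219359) (nat_lit 524) (nat_lit 1) (nat_lit 500) (nat_lit 1) (nat_lit 499) (nat_lit 1) (nat_lit 365) (nat_lit 390) (nat_lit 385)) (XT.lf (nat_lit 1900) (nat_lit 1412438631) (nat_lit 0) (nat_lit 1839591220) (nat_lit 1824) (nat_lit 1412438631) (nat_lit 525) (nat_lit 1) (nat_lit 500) (nat_lit 1) (nat_lit 524) (nat_lit 1) (nat_lit 366) (nat_lit 390) (nat_lit 384)))))) (XT.nd (nat_lit 468) (nat_lit 0) (nat_lit 228) (XT.nd (nat_lit 234) (nat_lit 0) (nat_lit 152) (XT.nd (nat_lit 78) (nat_lit 0) (nat_lit 76) (XT.lf (nat_lit 1900) (nat_lit 2700266340) (nat_lit 76) (nat_lit 959626529) (nat_lit 0) (nat_lit 959626529) (nat_lit 525) (nat_lit 1) (nat_lit 501) (nat_lit 1) (nat_lit 500) (nat_lit 1) (nat_lit 367) (nat_lit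 390) (nat_lit 383)) (XT.nd (nat_lit 78) (nat_lit 0) (nat_lit 0) (XT.lf (nat_lit 1900) (nat_lit 1280108105) (nat_lit 0) (nat_lit 2014884819) (nat_lit 1824) (nat_lit 1280108105) (nat_lit 526) (nat_lit 1) (nat_lit 501) (nat_lit 1) (nat_lit 525) (nat_lit 1) (nat_lit 368) (nat_lit 390) (nat_lit 382)) (XT.lf (nat_lit 1900) (nat_lit 2409656340) (nat_lit 76) (nat_lit 1060818675) (nat_lit 0) (nat_lit 1060818675) (nat_lit 526) (nat_lit 1) (nat_lit 502) (nat_lit 1) (nat_lit 501) (nat_lit 1) (nat_lit 369) (nat_lit 390) (nat_lit 381)))) (XT.nd (nat_lit 78) (nat_lit 0) (nat_lit 0) (XT.lf (nat_lit 1900) (nat_lit 1123045317) (nat_lit 0) (nat_lit 2241941784) (nat_lit 1824) (nat_lit 1123045317) (nat_lit 527) (nat_lit 1) (nat_lit 502) (nat_lit 1) (nat_lit 526) (nat_lit 1) (nat_lit 370) (nat_lit 390) (nat_lit 380)) (XT.nd (nat_lit 78) (nat_lit 0) (nat_lit 76) (XT.lf (nat_lit 1900) (nat_lit 2070982484) (nat_lit 76) (nat_lit 1187173857) (nat_lit 0) (nat_lit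 1187173857) (nat_lit 527) (nat_lit 1) (nat_lit 503) (nat_lit 1) (nat_lit 502) (nat_lit 1) (nat_lit 371) (nat_lit 390) (nat_lit 379)) (XT.lf (nat_lit 1900) (nat_lit 942796355) (nat_lit 0) (nat_lit 2517603642) (nat_lit 1824) (nat_lit 942796355) (nat_lit 528) (nat_lit 1) (nat_lit 503) (nat_lit 1) (nat_lit 527) (nat_lit 1) (nat_lit 372) (nat_lit 390) (nat_lit 378))))) (XT.nd (nat_lit 234) (nat_lit 0) (nat_lit 152) (XT.nd (nat_lit 78) (nat_lit 0) (nat_lit 76) (XT.lf (nat_lit 1900) (nat_lit 1687274848) (nat_lit 76) (nat_lit 1337144522) (nat_lit 0) (nat_lit 1337144522) (nat_lit 528) (nat_lit 1) (nat_lit 504) (nat_lit 1) (nat_lit 503) (nat_lit 1) (nat_lit 373) (nat_lit 390) (nat_lit 377)) (XT.nd (nat_lit 78) (nat_lit 0) (nat_lit 0) (XT.lf (nat_lit 1900) (nat_lit 740835783) (nat_lit 0) (nat_lit 2838857091) (nat_lit 1824) (nat_lit 740835783) (nat_lit 529) (nat_lit 1) (nat_lit 504) (nat_lit 1) (nat_lit 528) (nat_lit 1) (nat_lit 374) (nat_lit 390)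 (nat_lit 376)) (XT.lf (nat_lit 1900) (nat_lit 1261423029) (nat_lit 76) (nat_lit 1509254397) (nat_lit 0) (nat_lit 1509254397) (nat_lit 529) (nat_lit 1) (nat_lit 505) (nat_lit 1) (nat_lit 504) (nat_lit 1) (nat_lit 375) (nat_lit 390) (nat_lit 375)))) (XT.nd (nat_lit 156) (nat_lit 0) (nat_lit 76) (XT.nd (nat_lit 78) (nat_lit 0) (nat_lit 0) (XT.lf (nat_lit 1900) (nat_lit 518569648) (nat_lit 0) (nat_lit 3202827911) (nat_lit 1824) (nat_lit 518569648) (nat_lit 530) (nat_lit 1) (nat_lit 505) (nat_lit 1) (nat_lit 529) (nat_lit 1) (nat_lit 376) (nat_lit 390) (nat_lit 374)) (XT.lf (nat_lit 1900) (nat_lit 796182048) (nat_lit 76) (nat_lit 1702095501) (nat_lit 0) (nat_lit 1702095501) (nat_lit 530) (nat_lit 1) (nat_lit 506) (nat_lit 1) (nat_lit 505) (nat_lit 1) (nat_lit 377) (nat_lit 390) (nat_lit 373))) (XT.nd (nat_lit 78) (nat_lit 0) (nat_lit 0) (XT.lf (nat_lit 1900) (nat_lit 277338361) (nat_lit 0) (nat_lit 3606775139) (nat_lit 1824) (nat_lit 277338361)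 (nat_lit 531) (nat_lit 1) (nat_lit 506) (nat_lit 1) (nat_lit 530) (nat_lit 1) (nat_lit 378) (nat_lit 390) (nat_lit 372)) (XT.lf (nat_lit 1900) (nat_lit 294178011) (nat_lit 76) (nat_lit 1914325275) (nat_lit 0) (nat_lit 1914325275) (nat_lit 531) (nat_lit 1) (nat_lit 507) (nat_lit 1) (nat_lit 506) (nat_lit 1) (nat_lit 379) (nat_lit 390) (nat_lit 371))))))))
noncomputable def ec30 : XT := (XT.nd (nat_lit 1872) (nat_lit 8968) (nat_lit 0) (XT.nd (nat_lit 936) (nat_lit 5852) (nat_lit 0) (XT.nd (nat_lit 468) (nat_lit 2812) (nat_lit 0) (XT.nd (nat_lit 234) (nat_lit 0) (nat_lit 76) (XT.nd (nat_lit 78) (nat_lit 1900) (nat_lit 0) (XT.lf (nat_lit 1900) (nat_lit 18419459) (nat_lit 0) (nat_lit 4048085464) (nat_lit 1824) (nat_lit 18419459) (nat_lit 532) (nat_lit 1) (nat_lit 507) (nat_lit 1) (nat_lit 531) (nat_lit 1) (nat_lit 380) (nat_lit 390) (nat_lit 370)) (XT.nd (nat_lit 78) (nat_lit 0) (nat_lit 0) (XT.lf (nat_lit 1976) (nat_lit 1904149174) (nat_lit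 0) (nat_lit 238911441) (nat_lit 1900) (nat_lit 1904149174) (nat_lit 508) (nat_lit 1) (nat_lit 482) (nat_lit 1) (nat_lit 507) (nat_lit 1) (nat_lit 381) (nat_lit 390) (nat_lit 369)) (XT.lf (nat_lit 1976) (nat_lit 3499636176) (nat_lit 76) (nat_lit 255279145) (nat_lit 0) (nat_lit 255279145) (nat_lit 508) (nat_lit 1) (nat_lit 483) (nat_lit 1) (nat_lit 482) (nat_lit 1) (nat_lit 382) (nat_lit 390) (nat_lit 368)))) (XT.nd (nat_lit 78) (nat_lit 0) (nat_lit 0) (XT.lf (nat_lit 1976) (nat_lit 1586924902) (nat_lit 0) (nat_lit 799600689) (nat_lit 1900) (nat_lit 1586924902) (nat_lit 509) (nat_lit 1) (nat_lit 483) (nat_lit 1) (nat_lit 508) (nat_lit 1) (nat_lit 383) (nat_lit 390) (nat_lit 367)) (XT.nd (nat_lit 78) (nat_lit 0) (nat_lit 76) (XT.lf (nat_lit 1976) (nat_lit 2849190872) (nat_lit 76) (nat_lit 544066487) (nat_lit 0) (nat_lit 544066487) (nat_lit 509) (nat_lit 1) (nat_lit 484) (nat_lit 1) (nat_lit 483) (nat_lit 1) (nat_lit 384) (nat_lit 390) (nat_lit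 366)) (XT.lf (nat_lit 76) (nat_lit 1256014493) (nat_lit 0) (nat_lit 1389506599) (nat_lit 1900) (nat_lit 1256014493) (nat_lit 485) (nat_lit 1) (nat_lit 484) (nat_lit 1) (nat_lit 509) (nat_lit 1) (nat_lit 385) (nat_lit 390) (nat_lit 365))))) (XT.nd (nat_lit 234) (nat_lit 912) (nat_lit 0) (XT.nd (nat_lit 78) (nat_lit 912) (nat_lit 0) (XT.lf (nat_lit 1216) (nat_lit 2172336627) (nat_lit 0) (nat_lit 846966592) (nat_lit 1140) (nat_lit 846966592) (nat_lit 485) (nat_lit 1) (nat_lit 469) (nat_lit 1) (nat_lit 484) (nat_lit 1) (nat_lit 386) (nat_lit 390) (nat_lit 364)) (XT.nd (nat_lit 78) (nat_lit 912) (nat_lit 0) (XT.lf (nat_lit 76) (nat_lit 912459283) (nat_lit 0) (nat_lit 2006494870) (nat_lit 1216) (nat_lit 912459283) (nat_lit 470) (nat_lit 1) (nat_lit 469) (nat_lit 1) (nat_lit 485) (nat_lit 1) (nat_lit 387) (nat_lit 390) (nat_lit 363)) (XT.lf (nat_lit 988) (nat_lit 1471112001) (nat_lit 0) (nat_lit 1162934842) (nat_lit 912) (nat_lit 1162934842)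 (nat_lit 470) (nat_lit 1) (nat_lit 457) (nat_lit 1) (nat_lit 469) (nat_lit 1) (nat_lit 388) (nat_lit 390) (nat_lit 362)))) (XT.nd (nat_lit 78) (nat_lit 912) (nat_lit 0) (XT.lf (nat_lit 76) (nat_lit 557250178) (nat_lit 0) (nat_lit 2648533682) (nat_lit 988) (nat_lit 557250178) (nat_lit 458) (nat_lit 1) (nat_lit 457) (nat_lit 1) (nat_lit 470) (nat_lit 1) (nat_lit 389) (nat_lit 390) (nat_lit 361)) (XT.nd (nat_lit 78) (nat_lit 0) (nat_lit 0) (XT.lf (nat_lit 988) (nat_lit 747456532) (nat_lit 0) (nat_lit 1490976920) (nat_lit 912) (nat_lit 1490976920) (nat_lit 458) (nat_lit 1) (nat_lit 445) (nat_lit 1) (nat_lit 457) (nat_lit 1) (nat_lit 390) (nat_lit 390) (nat_lit 360)) (XT.lf (nat_lit 76) (nat_lit 191329801) (nat_lit 0) (nat_lit 3313689332) (nat_lit 988) (nat_lit 191329801) (nat_lit 446) (nat_lit 1) (nat_lit 445) (nat_lit 1) (nat_lit 458) (nat_lit 1) (nat_lit 391) (nat_lit 390) (nat_lit 359)))))) (XT.nd (nat_lit 468) (nat_lit 2356) (nat_lit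 0) (XT.nd (nat_lit 234) (nat_lit 1672) (nat_lit 0) (XT.nd (nat_lit 78) (nat_lit 988) (nat_lit 0) (XT.lf (nat_lit 912) (nat_lit 3214967) (nat_lit 0) (nat_lit 1830146666) (nat_lit 836) (nat_lit 1830146666) (nat_lit 446) (nat_lit 1) (nat_lit 434) (nat_lit 1) (nat_lit 445) (nat_lit 1) (nat_lit 392) (nat_lit 390) (nat_lit 358)) (XT.nd (nat_lit 78) (nat_lit 0) (nat_lit 0) (XT.lf (nat_lit 988) (nat_lit 3264830593) (nat_lit 0) (nat_lit 183192240) (nat_lit 912) (nat_lit 183192240) (nat_lit 434) (nat_lit 1) (nat_lit 421) (nat_lit 1) (nat_lit 433) (nat_lit 1) (nat_lit 393) (nat_lit 390) (nat_lit 357)) (XT.lf (nat_lit 76) (nat_lit 1424618851) (nat_lit 0) (nat_lit 749892990) (nat_lit 988) (nat_lit 1424618851) (nat_lit 422) (nat_lit 1) (nat_lit 421) (nat_lit 1) (nat_lit 434) (nat_lit 1) (nat_lit 394) (nat_lit 390) (nat_lit 356)))) (XT.nd (nat_lit 78) (nat_lit 836) (nat_lit 0) (XT.lf (nat_lit 912) (nat_lit 2436860186) (nat_lit 0) (nat_lit 565359247)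 (nat_lit 836) (nat_lit 565359247) (nat_lit 422) (nat_lit 1) (nat_lit 410) (nat_lit 1) (nat_lit 421) (nat_lit 1) (nat_lit 395) (nat_lit 390) (nat_lit 355)) (XT.nd (nat_lit 78) (nat_lit 836) (nat_lit 0) (XT.lf (nat_lit 76) (nat_lit 1008215178) (nat_lit 0) (nat_lit 1519898546) (nat_lit 912) (nat_lit 1008215178) (nat_lit 411) (nat_lit 1) (nat_lit 410) (nat_lit 1) (nat_lit 422) (nat_lit 1) (nat_lit 396) (nat_lit 390) (nat_lit 354)) (XT.lf (nat_lit 912) (nat_lit 1594244915) (nat_lit 0) (nat_lit 955625441) (nat_lit 836) (nat_lit 955625441) (nat_lit 411) (nat_lit 1) (nat_lit 399) (nat_lit 1) (nat_lit 410) (nat_lit 1) (nat_lit 397) (nat_lit 390) (nat_lit 353))))) (XT.nd (nat_lit 234) (nat_lit 1596) (nat_lit 0) (XT.nd (nat_lit 78) (nat_lit 760) (nat_lit 0) (XT.lf (nat_lit 76) (nat_lit 584889853) (nat_lit 0) (nat_lit 2305280540) (nat_lit 912) (nat_lit 584889853) (nat_lit 400) (nat_lit 1) (nat_lit 399) (nat_lit 1) (nat_lit 411) (nat_lit 1) (nat_lit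 398) (nat_lit 390) (nat_lit 352)) (XT.nd (nat_lit 78) (nat_lit 0) (nat_lit 0) (XT.lf (nat_lit 836) (nat_lit 738471027) (nat_lit 0) (nat_lit 1353226533) (nat_lit 760) (nat_lit 1353226533) (nat_lit 400) (nat_lit 1) (nat_lit 389) (nat_lit 1) (nat_lit 399) (nat_lit 1) (nat_lit 399) (nat_lit 390) (nat_lit 351)) (XT.lf (nat_lit 76) (nat_lit 155364422) (nat_lit 0) (nat_lit 3104554107) (nat_lit 836) (nat_lit 155364422) (nat_lit 390) (nat_lit 1) (nat_lit 389) (nat_lit 1) (nat_lit 400) (nat_lit 1) (nat_lit 400) (nat_lit 390) (nat_lit 350)))) (XT.nd (nat_lit 78) (nat_lit 760) (nat_lit 0) (XT.lf (nat_lit 76) (nat_lit 1629223678) (nat_lit 0) (nat_lit 127358409) (nat_lit 836) (nat_lit 1629223678) (nat_lit 379) (nat_lit 1) (nat_lit 378) (nat_lit 1) (nat_lit 389) (nat_lit 1) (nat_lit 401) (nat_lit 390) (nat_lit 349)) (XT.nd (nat_lit 78) (nat_lit 0) (nat_lit 0) (XT.lf (nat_lit 836) (nat_lit 2801137767) (nat_lit 0) (nat_lit 277836493) (nat_lit 760) (nat_lit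 277836493) (nat_lit 379) (nat_lit 1) (nat_lit 368) (nat_lit 1) (nat_lit 378) (nat_lit 1) (nat_lit 402) (nat_lit 390) (nat_lit 348)) (XT.lf (nat_lit 76) (nat_lit 1167122225) (nat_lit 0) (nat_lit 993776084) (nat_lit 836) (nat_lit 1167122225) (nat_lit 369) (nat_lit 1) (nat_lit 368) (nat_lit 1) (nat_lit 379) (nat_lit 1) (nat_lit 403) (nat_lit 390) (nat_lit 347))))))) (XT.nd (nat_lit 936) (nat_lit 4104) (nat_lit 0) (XT.nd (nat_lit 468) (nat_lit 1976) (nat_lit 0) (XT.nd (nat_lit 234) (nat_lit 1444) (nat_lit 0) (XT.nd (nat_lit 78) (nat_lit 684) (nat_lit 0) (XT.lf (nat_lit 836) (nat_lit 1869967906) (nat_lit 0) (nat_lit 714849364) (nat_lit 760) (nat_lit 714849364) (nat_lit 369) (nat_lit 1) (nat_lit 358) (nat_lit 1) (nat_lit 368) (nat_lit 1) (nat_lit 404) (nat_lit 390) (nat_lit 346)) (XT.nd (nat_lit 78) (nat_lit 684) (nat_lit 0) (XT.lf (nat_lit 76) (nat_lit 701205464) (nat_lit 0) (nat_lit 1869214943) (nat_lit 836) (nat_lit 701205464) (nat_lit 359)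 (nat_lit 1) (nat_lit 358) (nat_lit 1) (nat_lit 369) (nat_lit 1) (nat_lit 405) (nat_lit 390) (nat_lit 345)) (XT.lf (nat_lit 760) (nat_lit 931724268) (nat_lit 0) (nat_lit 1156084766) (nat_lit 684) (nat_lit 1156084766) (nat_lit 359) (nat_lit 1) (nat_lit 349) (nat_lit 1) (nat_lit 358) (nat_lit 1) (nat_lit 406) (nat_lit 390) (nat_lit 344)))) (XT.nd (nat_lit 78) (nat_lit 1444) (nat_lit 0) (XT.lf (nat_lit 76) (nat_lit 232048199) (nat_lit 0) (nat_lit 2752488109) (nat_lit 760) (nat_lit 232048199) (nat_lit 350) (nat_lit 1) (nat_lit 349) (nat_lit 1) (nat_lit 359) (nat_lit 1) (nat_lit 407) (nat_lit 390) (nat_lit 343)) (XT.nd (nat_lit 78) (nat_lit 684) (nat_lit 0) (XT.lf (nat_lit 76) (nat_lit 1588573394) (nat_lit 0) (nat_lit 12307214) (nat_lit 760) (nat_lit 1588573394) (nat_lit 340) (nat_lit 1) (nat_lit 339) (nat_lit 1) (nat_lit 349) (nat_lit 1) (nat_lit 408) (nat_lit 390) (nat_lit 342)) (XT.lf (nat_lit 760) (nat_lit 2686279757) (nat_lit 0) (nat_lit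 238227782) (nat_lit 684) (nat_lit 238227782) (nat_lit 340) (nat_lit 1) (nat_lit 330) (nat_lit 1) (nat_lit 339) (nat_lit 1) (nat_lit 409) (nat_lit 390) (nat_lit 341))))) (XT.nd (nat_lit 234) (nat_lit 1292) (nat_lit 0) (XT.nd (nat_lit 78) (nat_lit 684) (nat_lit 0) (XT.lf (nat_lit 76) (nat_lit 1093623818) (nat_lit 0) (nat_lit 948944075) (nat_lit 760) (nat_lit 1093623818) (nat_lit 331) (nat_lit 1) (nat_lit 330) (nat_lit 1) (nat_lit 340) (nat_lit 1) (nat_lit 410) (nat_lit 390) (nat_lit 340)) (XT.nd (nat_lit 78) (nat_lit 0) (nat_lit 0) (XT.lf (nat_lit 760) (nat_lit 1691757406) (nat_lit 0) (nat_lit 709144373) (nat_lit 684) (nat_lit 709144373) (nat_lit 331) (nat_lit 1) (nat_lit 321) (nat_lit 1) (nat_lit 330) (nat_lit 1) (nat_lit 411) (nat_lit 390) (nat_lit 339)) (XT.lf (nat_lit 76) (nat_lit 597389489) (nat_lit 0) (nat_lit 1889414591) (nat_lit 760) (nat_lit 597389489) (nat_lit 322) (nat_lit 1) (nat_lit 321) (nat_lit 1) (nat_lit 331) (nat_lit 1)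 (nat_lit 412) (nat_lit 390) (nat_lit 338)))) (XT.nd (nat_lit 78) (nat_lit 684) (nat_lit 0) (XT.lf (nat_lit 684) (nat_lit 695114868) (nat_lit 0) (nat_lit 1181744651) (nat_lit 608) (nat_lit 1181744651) (nat_lit 322) (nat_lit 1) (nat_lit 313) (nat_lit 1) (nat_lit 321) (nat_lit 1) (nat_lit 413) (nat_lit 390) (nat_lit 337)) (XT.nd (nat_lit 78) (nat_lit 684) (nat_lit 0) (XT.lf (nat_lit 76) (nat_lit 100322341) (nat_lit 0) (nat_lit 2832781577) (nat_lit 684) (nat_lit 100322341) (nat_lit 314) (nat_lit 1) (nat_lit 313) (nat_lit 1) (nat_lit 322) (nat_lit 1) (nat_lit 414) (nat_lit 390) (nat_lit 336)) (XT.lf (nat_lit 76) (nat_lit 1354770701) (nat_lit 0) (nat_lit 298795889) (nat_lit 684) (nat_lit 1354770701) (nat_lit 305) (nat_lit 1) (nat_lit 304) (nat_lit 1) (nat_lit 313) (nat_lit 1) (nat_lit 415) (nat_lit 390) (nat_lit 335)))))) (XT.nd (nat_lit 468) (nat_lit 1672) (nat_lit 0) (XT.nd (nat_lit 234) (nat_lit 1216) (nat_lit 0) (XT.nd (nat_lit 78) (nat_lit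 608) (nat_lit 0) (XT.lf (nat_lit 684) (nat_lit 2194573884) (nat_lit 0) (nat_lit 394538289) (nat_lit 608) (nat_lit 394538289) (nat_lit 305) (nat_lit 1) (nat_lit 296) (nat_lit 1) (nat_lit 304) (nat_lit 1) (nat_lit 416) (nat_lit 390) (nat_lit 334)) (XT.nd (nat_lit 78) (nat_lit 608) (nat_lit 0) (XT.lf (nat_lit 76) (nat_lit 837585082) (nat_lit 0) (nat_lit 1283992551) (nat_lit 684) (nat_lit 837585082) (nat_lit 297) (nat_lit 1) (nat_lit 296) (nat_lit 1) (nat_lit 305) (nat_lit 1) (nat_lit 417) (nat_lit 390) (nat_lit 333)) (XT.lf (nat_lit 684) (nat_lit 1157503513) (nat_lit 0) (nat_lit 888742987) (nat_lit 608) (nat_lit 888742987) (nat_lit 297) (nat_lit 1) (nat_lit 288) (nat_lit 1) (nat_lit 296) (nat_lit 1) (nat_lit 418) (nat_lit 390) (nat_lit 332)))) (XT.nd (nat_lit 78) (nat_lit 1216) (nat_lit 0) (XT.lf (nat_lit 76) (nat_lit 321160800) (nat_lit 0) (nat_lit 2268818337) (nat_lit 684) (nat_lit 321160800) (nat_lit 289) (nat_lit 1) (nat_lit 288) (nat_lit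 1) (nat_lit 297) (nat_lit 1) (nat_lit 419) (nat_lit 390) (nat_lit 331)) (XT.nd (nat_lit 78) (nat_lit 684) (nat_lit 0) (XT.lf (nat_lit 608) (nat_lit 122314859) (nat_lit 0) (nat_lit 1382575246) (nat_lit 532) (nat_lit 1382575246) (nat_lit 289) (nat_lit 1) (nat_lit 281) (nat_lit 1) (nat_lit 288) (nat_lit 1) (nat_lit 420) (nat_lit 390) (nat_lit 330)) (XT.lf (nat_lit 684) (nat_lit 2478386847) (nat_lit 0) (nat_lit 192875530) (nat_lit 608) (nat_lit 192875530) (nat_lit 281) (nat_lit 1) (nat_lit 272) (nat_lit 1) (nat_lit 280) (nat_lit 1) (nat_lit 421) (nat_lit 390) (nat_lit 329))))) (XT.nd (nat_lit 234) (nat_lit 1140) (nat_lit 0) (XT.nd (nat_lit 78) (nat_lit 532) (nat_lit 0) (XT.lf (nat_lit 76) (nat_lit 971278478) (nat_lit 0) (nat_lit 898373508) (nat_lit 684) (nat_lit 971278478) (nat_lit 273) (nat_lit 1) (nat_lit 272) (nat_lit 1) (nat_lit 281) (nat_lit 1) (nat_lit 422) (nat_lit 390) (nat_lit 328)) (XT.nd (nat_lit 78) (nat_lit 0) (nat_lit 0) (XT.lf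 (nat_lit 608) (nat_lit 1411323181) (nat_lit 0) (nat_lit 703369499) (nat_lit 532) (nat_lit 703369499) (nat_lit 273) (nat_lit 1) (nat_lit 265) (nat_lit 1) (nat_lit 272) (nat_lit 1) (nat_lit 423) (nat_lit 390) (nat_lit 327)) (XT.lf (nat_lit 76) (nat_lit 440579622) (nat_lit 0) (nat_lit 1914299784) (nat_lit 608) (nat_lit 440579622) (nat_lit 266) (nat_lit 1) (nat_lit 265) (nat_lit 1) (nat_lit 273) (nat_lit 1) (nat_lit 424) (nat_lit 390) (nat_lit 326)))) (XT.nd (nat_lit 78) (nat_lit 608) (nat_lit 0) (XT.lf (nat_lit 608) (nat_lit 348796601) (nat_lit 0) (nat_lit 1212127766) (nat_lit 532) (nat_lit 1212127766) (nat_lit 266) (nat_lit 1) (nat_lit 258) (nat_lit 1) (nat_lit 265) (nat_lit 1) (nat_lit 425) (nat_lit 390) (nat_lit 325)) (XT.nd (nat_lit 78) (nat_lit 0) (nat_lit 0) (XT.lf (nat_lit 608) (nat_lit 2576710307) (nat_lit 0) (nat_lit 87141637) (nat_lit 532) (nat_lit 87141637) (nat_lit 258) (nat_lit 1) (nat_lit 250) (nat_lit 1) (nat_lit 257) (nat_lit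 1) (nat_lit 426) (nat_lit 390) (nat_lit 324)) (XT.lf (nat_lit 76) (nat_lit 1014818494) (nat_lit 0) (nat_lit 699351564) (nat_lit 608) (nat_lit 1014818494) (nat_lit 251) (nat_lit 1) (nat_lit 250) (nat_lit 1) (nat_lit 258) (nat_lit 1) (nat_lit 427) (nat_lit 390) (nat_lit 323))))))))
noncomputable def ec31 : XT := (XT.nd (nat_lit 55380) (nat_lit 0) (nat_lit 10564) (XT.nd (nat_lit 54444) (nat_lit 0) (nat_lit 20596) (XT.nd (nat_lit 53976) (nat_lit 0) (nat_lit 20368) (XT.nd (nat_lit 234) (nat_lit 608) (nat_lit 0) (XT.nd (nat_lit 78) (nat_lit 456) (nat_lit 0) (XT.lf (nat_lit 608) (nat_lit 1488689602) (nat_lit 0) (nat_lit 609317588) (nat_lit 532) (nat_lit 609317588) (nat_lit 251) (nat_lit 1) (nat_lit 243) (nat_lit 1) (nat_lit 250) (nat_lit 1) (nat_lit 428) (nat_lit 390) (nat_lit 322)) (XT.nd (nat_lit 78) (nat_lit 456) (nat_lit 0) (XT.lf (nat_lit 76) (nat_lit 474245077) (nat_lit 0) (nat_lit 1737402319) (nat_lit 608) (nat_lit 474245077) (nat_lit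 244) (nat_lit 1) (nat_lit 243) (nat_lit 1) (nat_lit 251) (nat_lit 1) (nat_lit 429) (nat_lit 390) (nat_lit 321)) (XT.lf (nat_lit 532) (nat_lit 407452576) (nat_lit 0) (nat_lit 1128601855) (nat_lit 456) (nat_lit 1128601855) (nat_lit 244) (nat_lit 1) (nat_lit 237) (nat_lit 1) (nat_lit 243) (nat_lit 1) (nat_lit 430) (nat_lit 390) (nat_lit 320)))) (XT.nd (nat_lit 78) (nat_lit 0) (nat_lit 0) (XT.lf (nat_lit 608) (nat_lit 2518902862) (nat_lit 0) (nat_lit 62423988) (nat_lit 532) (nat_lit 62423988) (nat_lit 237) (nat_lit 1) (nat_lit 229) (nat_lit 1) (nat_lit 236) (nat_lit 1) (nat_lit 431) (nat_lit 390) (nat_lit 319)) (XT.nd (nat_lit 53586) (nat_lit 0) (nat_lit 20368) (XT.lf (nat_lit 76) (nat_lit 982524861) (nat_lit 0) (nat_lit 657826619) (nat_lit 608) (nat_lit 982524861) (nat_lit 230) (nat_lit 1) (nat_lit 229) (nat_lit 1) (nat_lit 237) (nat_lit 1) (nat_lit 432) (nat_lit 390) (nat_lit 318)) (XT.lf (nat_lit 1900) (nat_lit 838662539) (nat_lit 0) (nat_lit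 845675708) (nat_lit 1900) (nat_lit 838662539) (nat_lit 522) (nat_lit 1) (nat_lit 497) (nat_lit 0) (nat_lit 522) (nat_lit 0) (nat_lit 358) (nat_lit 391) (nat_lit 391))))) (XT.nd (nat_lit 234) (nat_lit 0) (nat_lit 152) (XT.nd (nat_lit 78) (nat_lit 0) (nat_lit 76) (XT.lf (nat_lit 1900) (nat_lit 3316197774) (nat_lit 76) (nat_lit 840112052) (nat_lit 0) (nat_lit 840112052) (nat_lit 522) (nat_lit 1) (nat_lit 498) (nat_lit 1) (nat_lit 497) (nat_lit 0) (nat_lit 359) (nat_lit 391) (nat_lit 390)) (XT.nd (nat_lit 78) (nat_lit 0) (nat_lit 0) (XT.lf (nat_lit 1900) (nat_lit 1628268892) (nat_lit 0) (nat_lit 1690845931) (nat_lit 1824) (nat_lit 1628268892) (nat_lit 523) (nat_lit 1) (nat_lit 498) (nat_lit 1) (nat_lit 522) (nat_lit 1) (nat_lit 360) (nat_lit 391) (nat_lit 389)) (XT.lf (nat_lit 1900) (nat_lit 3186923613) (nat_lit 76) (nat_lit 856082677) (nat_lit 0) (nat_lit 856082677) (nat_lit 523) (nat_lit 1) (nat_lit 499) (nat_lit 1) (nat_lit 498) (nat_lit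 1) (nat_lit 361) (nat_lit 391) (nat_lit 388)))) (XT.nd (nat_lit 78) (nat_lit 0) (nat_lit 0) (XT.lf (nat_lit 1900) (nat_lit 1548784485) (nat_lit 0) (nat_lit 1753758373) (nat_lit 1824) (nat_lit 1548784485) (nat_lit 524) (nat_lit 1) (nat_lit 499) (nat_lit 1) (nat_lit 523) (nat_lit 1) (nat_lit 362) (nat_lit 391) (nat_lit 387)) (XT.nd (nat_lit 78) (nat_lit 0) (nat_lit 76) (XT.lf (nat_lit 1900) (nat_lit 2998428495) (nat_lit 76) (nat_lit 902923746) (nat_lit 0) (nat_lit 902923746) (nat_lit 524) (nat_lit 1) (nat_lit 500) (nat_lit 1) (nat_lit 499) (nat_lit 1) (nat_lit 363) (nat_lit 391) (nat_lit 386)) (XT.lf (nat_lit 1900) (nat_lit 1440687404) (nat_lit 0) (nat_lit 1876383044) (nat_lit 1824) (nat_lit 1440687404) (nat_lit 525) (nat_lit 1) (nat_lit 500) (nat_lit 1) (nat_lit 524) (nat_lit 1) (nat_lit 364) (nat_lit 391) (nat_lit 385)))))) (XT.nd (nat_lit 468) (nat_lit 0) (nat_lit 228) (XT.nd (nat_lit 234) (nat_lit 0) (nat_lit 152) (XT.nd (nat_lit 78)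 (nat_lit 0) (nat_lit 76) (XT.lf (nat_lit 1900) (nat_lit 2754271667) (nat_lit 76) (nat_lit 978819059) (nat_lit 0) (nat_lit 978819059) (nat_lit 525) (nat_lit 1) (nat_lit 501) (nat_lit 1) (nat_lit 500) (nat_lit 1) (nat_lit 365) (nat_lit 391) (nat_lit 384)) (XT.nd (nat_lit 78) (nat_lit 0) (nat_lit 0) (XT.lf (nat_lit 1900) (nat_lit 1305710267) (nat_lit 0) (nat_lit 2055182516) (nat_lit 1824) (nat_lit 1305710267) (nat_lit 526) (nat_lit 1) (nat_lit 501) (nat_lit 1) (nat_lit 525) (nat_lit 1) (nat_lit 366) (nat_lit 391) (nat_lit 383)) (XT.lf (nat_lit 1900) (nat_lit 2457849467) (nat_lit 76) (nat_lit 1082035049) (nat_lit 0) (nat_lit 1082035049) (nat_lit 526) (nat_lit 1) (nat_lit 502) (nat_lit 1) (nat_lit 501) (nat_lit 1) (nat_lit 367) (nat_lit 391) (nat_lit 382)))) (XT.nd (nat_lit 78) (nat_lit 0) (nat_lit 0) (XT.lf (nat_lit 1900) (nat_lit 1145506224) (nat_lit 0) (nat_lit 2286780619) (nat_lit 1824) (nat_lit 1145506224) (nat_lit 527) (nat_lit 1) (nat_lit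 502) (nat_lit 1) (nat_lit 526) (nat_lit 1) (nat_lit 368) (nat_lit 391) (nat_lit 381)) (XT.nd (nat_lit 78) (nat_lit 0) (nat_lit 76) (XT.lf (nat_lit 1900) (nat_lit 2112402134) (nat_lit 76) (nat_lit 1210917334) (nat_lit 0) (nat_lit 1210917334) (nat_lit 527) (nat_lit 1) (nat_lit 503) (nat_lit 1) (nat_lit 502) (nat_lit 1) (nat_lit 369) (nat_lit 391) (nat_lit 380)) (XT.lf (nat_lit 1900) (nat_lit 961652282) (nat_lit 0) (nat_lit 2567955715) (nat_lit 1824) (nat_lit 961652282) (nat_lit 528) (nat_lit 1) (nat_lit 503) (nat_lit 1) (nat_lit 527) (nat_lit 1) (nat_lit 370) (nat_lit 391) (nat_lit 379))))) (XT.nd (nat_lit 234) (nat_lit 0) (nat_lit 152) (XT.nd (nat_lit 78) (nat_lit 0) (nat_lit 76) (XT.lf (nat_lit 1900) (nat_lit 1721020345) (nat_lit 76) (nat_lit 1363887412) (nat_lit 0) (nat_lit 1363887412) (nat_lit 528) (nat_lit 1) (nat_lit 504) (nat_lit 1) (nat_lit 503) (nat_lit 1) (nat_lit 371) (nat_lit 391) (nat_lit 378)) (XT.nd (nat_lit 78) (nat_lit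 0) (nat_lit 0) (XT.lf (nat_lit 1900) (nat_lit 755652498) (nat_lit 0) (nat_lit 2895634233) (nat_lit 1824) (nat_lit 755652498) (nat_lit 529) (nat_lit 1) (nat_lit 504) (nat_lit 1) (nat_lit 528) (nat_lit 1) (nat_lit 372) (nat_lit 391) (nat_lit 377)) (XT.lf (nat_lit 1900) (nat_lit 1286651490) (nat_lit 76) (nat_lit 1539439485) (nat_lit 0) (nat_lit 1539439485) (nat_lit 529) (nat_lit 1) (nat_lit 505) (nat_lit 1) (nat_lit 504) (nat_lit 1) (nat_lit 373) (nat_lit 391) (nat_lit 376)))) (XT.nd (nat_lit 78) (nat_lit 0) (nat_lit 0) (XT.lf (nat_lit 1900) (nat_lit 528941041) (nat_lit 0) (nat_lit 3266884469) (nat_lit 1824) (nat_lit 528941041) (nat_lit 530) (nat_lit 1) (nat_lit 505) (nat_lit 1) (nat_lit 529) (nat_lit 1) (nat_lit 374) (nat_lit 391) (nat_lit 375)) (XT.nd (nat_lit 78) (nat_lit 0) (nat_lit 76) (XT.lf (nat_lit 1900) (nat_lit 812105688) (nat_lit 76) (nat_lit 1736137411) (nat_lit 0) (nat_lit 1736137411) (nat_lit 530) (nat_lit 1) (nat_lit 506)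 (nat_lit 1) (nat_lit 505) (nat_lit 1) (nat_lit 375) (nat_lit 391) (nat_lit 374)) (XT.lf (nat_lit 1900) (nat_lit 282885128) (nat_lit 0) (nat_lit 3678910641) (nat_lit 1824) (nat_lit 282885128) (nat_lit 531) (nat_lit 1) (nat_lit 506) (nat_lit 1) (nat_lit 530) (nat_lit 1) (nat_lit 376) (nat_lit 391) (nat_lit 373))))))) (XT.nd (nat_lit 936) (nat_lit 5852) (nat_lit 0) (XT.nd (nat_lit 468) (nat_lit 2812) (nat_lit 0) (XT.nd (nat_lit 234) (nat_lit 0) (nat_lit 0) (XT.nd (nat_lit 78) (nat_lit 1824) (nat_lit 0) (XT.lf (nat_lit 1900) (nat_lit 300061571) (nat_lit 76) (nat_lit 1952611781) (nat_lit 0) (nat_lit 1952611781) (nat_lit 531) (nat_lit 1) (nat_lit 507) (nat_lit 1) (nat_lit 506) (nat_lit 1) (nat_lit 377) (nat_lit 391) (nat_lit 372)) (XT.nd (nat_lit 78) (nat_lit 1900) (nat_lit 0) (XT.lf (nat_lit 1900) (nat_lit 18787848) (nat_lit 0) (nat_lit 4129047173) (nat_lit 1824) (nat_lit 18787848) (nat_lit 532) (nat_lit 1) (nat_lit 507) (nat_lit 1) (nat_lit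 531) (nat_lit 1) (nat_lit 378) (nat_lit 391) (nat_lit 371)) (XT.lf (nat_lit 1976) (nat_lit 1942232157) (nat_lit 0) (nat_lit 243689670) (nat_lit 1900) (nat_lit 1942232157) (nat_lit 508) (nat_lit 1) (nat_lit 482) (nat_lit 1) (nat_lit 507) (nat_lit 1) (nat_lit 379) (nat_lit 391) (nat_lit 370)))) (XT.nd (nat_lit 78) (nat_lit 0) (nat_lit 76) (XT.lf (nat_lit 1976) (nat_lit 3569628899) (nat_lit 76) (nat_lit 260384728) (nat_lit 0) (nat_lit 260384728) (nat_lit 508) (nat_lit 1) (nat_lit 483) (nat_lit 1) (nat_lit 482) (nat_lit 1) (nat_lit 380) (nat_lit 391) (nat_lit 369)) (XT.nd (nat_lit 78) (nat_lit 0) (nat_lit 0) (XT.lf (nat_lit 1976) (nat_lit 1618663400) (nat_lit 0) (nat_lit 815592703) (nat_lit 1900) (nat_lit 1618663400) (nat_lit 509) (nat_lit 1) (nat_lit 483) (nat_lit 1) (nat_lit 508) (nat_lit 1) (nat_lit 381) (nat_lit 391) (nat_lit 368)) (XT.lf (nat_lit 1976) (nat_lit 2906174689) (nat_lit 76) (nat_lit 554947816) (nat_lit 0) (nat_lit 554947816)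 (nat_lit 509) (nat_lit 1) (nat_lit 484) (nat_lit 1) (nat_lit 483) (nat_lit 1) (nat_lit 382) (nat_lit 391) (nat_lit 367))))) (XT.nd (nat_lit 234) (nat_lit 1824) (nat_lit 0) (XT.nd (nat_lit 78) (nat_lit 1140) (nat_lit 0) (XT.lf (nat_lit 76) (nat_lit 1281134783) (nat_lit 0) (nat_lit 1417296731) (nat_lit 1900) (nat_lit 1281134783) (nat_lit 485) (nat_lit 1) (nat_lit 484) (nat_lit 1) (nat_lit 509) (nat_lit 1) (nat_lit 383) (nat_lit 391) (nat_lit 366)) (XT.nd (nat_lit 78) (nat_lit 0) (nat_lit 0) (XT.lf (nat_lit 1216) (nat_lit 2215783359) (nat_lit 0) (nat_lit 863905924) (nat_lit 1140) (nat_lit 863905924) (nat_lit 485) (nat_lit 1) (nat_lit 469) (nat_lit 1) (nat_lit 484) (nat_lit 1) (nat_lit 384) (nat_lit 391) (nat_lit 365)) (XT.lf (nat_lit 76) (nat_lit 930708469) (nat_lit 0) (nat_lit 2046624768) (nat_lit 1216) (nat_lit 930708469) (nat_lit 470) (nat_lit 1) (nat_lit 469) (nat_lit 1) (nat_lit 485) (nat_lit 1) (nat_lit 385) (nat_lit 391) (nat_lit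 364)))) (XT.nd (nat_lit 78) (nat_lit 912) (nat_lit 0) (XT.lf (nat_lit 988) (nat_lit 1500534241) (nat_lit 0) (nat_lit 1186193539) (nat_lit 912) (nat_lit 1186193539) (nat_lit 470) (nat_lit 1) (nat_lit 457) (nat_lit 1) (nat_lit 469) (nat_lit 1) (nat_lit 386) (nat_lit 391) (nat_lit 363)) (XT.nd (nat_lit 78) (nat_lit 912) (nat_lit 0) (XT.lf (nat_lit 76) (nat_lit 568395181) (nat_lit 0) (nat_lit 2701504356) (nat_lit 988) (nat_lit 568395181) (nat_lit 458) (nat_lit 1) (nat_lit 457) (nat_lit 1) (nat_lit 470) (nat_lit 1) (nat_lit 387) (nat_lit 391) (nat_lit 362)) (XT.lf (nat_lit 988) (nat_lit 762405663) (nat_lit 0) (nat_lit 1520796458) (nat_lit 912) (nat_lit 1520796458) (nat_lit 458) (nat_lit 1) (nat_lit 445) (nat_lit 1) (nat_lit 457) (nat_lit 1) (nat_lit 388) (nat_lit 391) (nat_lit 361)))))) (XT.nd (nat_lit 468) (nat_lit 3192) (nat_lit 0) (XT.nd (nat_lit 234) (nat_lit 836) (nat_lit 0) (XT.nd (nat_lit 78) (nat_lit 1824) (nat_lit 0) (XT.lf (nat_lit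 76) (nat_lit 195156397) (nat_lit 0) (nat_lit 3379963119) (nat_lit 988) (nat_lit 195156397) (nat_lit 446) (nat_lit 1) (nat_lit 445) (nat_lit 1) (nat_lit 458) (nat_lit 1) (nat_lit 389) (nat_lit 391) (nat_lit 360)) (XT.nd (nat_lit 78) (nat_lit 988) (nat_lit 0) (XT.lf (nat_lit 912) (nat_lit 3279266) (nat_lit 0) (nat_lit 1866749599) (nat_lit 836) (nat_lit 1866749599) (nat_lit 446) (nat_lit 1) (nat_lit 434) (nat_lit 1) (nat_lit 445) (nat_lit 1) (nat_lit 390) (nat_lit 391) (nat_lit 359)) (XT.lf (nat_lit 988) (nat_lit 3330127205) (nat_lit 0) (nat_lit 186856085) (nat_lit 912) (nat_lit 186856085) (nat_lit 434) (nat_lit 1) (nat_lit 421) (nat_lit 1) (nat_lit 433) (nat_lit 1) (nat_lit 391) (nat_lit 391) (nat_lit 358)))) (XT.nd (nat_lit 78) (nat_lit 836) (nat_lit 0) (XT.lf (nat_lit 76) (nat_lit 1453111228) (nat_lit 0) (nat_lit 764890850) (nat_lit 988) (nat_lit 1453111228) (nat_lit 422) (nat_lit 1) (nat_lit 421) (nat_lit 1) (nat_lit 434) (nat_lit 1)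 (nat_lit 392) (nat_lit 391) (nat_lit 357)) (XT.nd (nat_lit 78) (nat_lit 0) (nat_lit 0) (XT.lf (nat_lit 912) (nat_lit 2485597389) (nat_lit 0) (nat_lit 576666432) (nat_lit 836) (nat_lit 576666432) (nat_lit 422) (nat_lit 1) (nat_lit 410) (nat_lit 1) (nat_lit 421) (nat_lit 1) (nat_lit 393) (nat_lit 391) (nat_lit 356)) (XT.lf (nat_lit 76) (nat_lit 1028379481) (nat_lit 0) (nat_lit 1550296517) (nat_lit 912) (nat_lit 1028379481) (nat_lit 411) (nat_lit 1) (nat_lit 410) (nat_lit 1) (nat_lit 422) (nat_lit 1) (nat_lit 394) (nat_lit 391) (nat_lit 355))))) (XT.nd (nat_lit 234) (nat_lit 1596) (nat_lit 0) (XT.nd (nat_lit 78) (nat_lit 760) (nat_lit 0) (XT.lf (nat_lit 912) (nat_lit 1626129814) (nat_lit 0) (nat_lit 974737950) (nat_lit 836) (nat_lit 974737950) (nat_lit 411) (nat_lit 1) (nat_lit 399) (nat_lit 1) (nat_lit 410) (nat_lit 1) (nat_lit 395) (nat_lit 391) (nat_lit 354)) (XT.nd (nat_lit 78) (nat_lit 760) (nat_lit 0) (XT.lf (nat_lit 76) (nat_lit 596587651)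 (nat_lit 0) (nat_lit 2351386151) (nat_lit 912) (nat_lit 596587651) (nat_lit 400) (nat_lit 1) (nat_lit 399) (nat_lit 1) (nat_lit 411) (nat_lit 1) (nat_lit 396) (nat_lit 391) (nat_lit 353)) (XT.lf (nat_lit 836) (nat_lit 753240448) (nat_lit 0) (nat_lit 1380291063) (nat_lit 760) (nat_lit 1380291063) (nat_lit 400) (nat_lit 1) (nat_lit 389) (nat_lit 1) (nat_lit 399) (nat_lit 1) (nat_lit 397) (nat_lit 391) (nat_lit 352)))) (XT.nd (nat_lit 156) (nat_lit 760) (nat_lit 0) (XT.nd (nat_lit 78) (nat_lit 836) (nat_lit 0) (XT.lf (nat_lit 76) (nat_lit 158471710) (nat_lit 0) (nat_lit 3166645190) (nat_lit 836) (nat_lit 158471710) (nat_lit 390) (nat_lit 1) (nat_lit 389) (nat_lit 1) (nat_lit 400) (nat_lit 1) (nat_lit 398) (nat_lit 391) (nat_lit 351)) (XT.lf (nat_lit 76) (nat_lit 1661808152) (nat_lit 0) (nat_lit 129905577) (nat_lit 836) (nat_lit 1661808152) (nat_lit 379) (nat_lit 1) (nat_lit 378) (nat_lit 1) (nat_lit 389) (nat_lit 1) (nat_lit 399) (nat_lit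 391) (nat_lit 350))) (XT.nd (nat_lit 78) (nat_lit 0) (nat_lit 0) (XT.lf (nat_lit 836) (nat_lit 2857160523) (nat_lit 0) (nat_lit 283393223) (nat_lit 760) (nat_lit 283393223) (nat_lit 379) (nat_lit 1) (nat_lit 368) (nat_lit 1) (nat_lit 378) (nat_lit 1) (nat_lit 400) (nat_lit 391) (nat_lit 349)) (XT.lf (nat_lit 76) (nat_lit 1190464670) (nat_lit 0) (nat_lit 1013651606) (nat_lit 836) (nat_lit 1190464670) (nat_lit 369) (nat_lit 1) (nat_lit 368) (nat_lit 1) (nat_lit 379) (nat_lit 1) (nat_lit 401) (nat_lit 391) (nat_lit 348))))))))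
noncomputable def ec32 : XT := (XT.nd (nat_lit 1872) (nat_lit 2052) (nat_lit 0) (XT.nd (nat_lit 936) (nat_lit 4104) (nat_lit 0) (XT.nd (nat_lit 468) (nat_lit 1976) (nat_lit 0) (XT.nd (nat_lit 234) (nat_lit 1444) (nat_lit 0) (XT.nd (nat_lit 78) (nat_lit 684) (nat_lit 0) (XT.lf (nat_lit 836) (nat_lit 1907367264) (nat_lit 0) (nat_lit 729146352) (nat_lit 760) (nat_lit 729146352) (nat_lit 369) (nat_lit 1) (nat_lit 358) (nat_lit 1) (nat_lit 368) (nat_lit 1) (nat_lit 402) (nat_lit 391) (nat_lit 347)) (XT.nd (nat_lit 78) (nat_lit 684) (nat_lit 0) (XT.lf (nat_lit 76) (nat_lit 715229573) (nat_lit 0) (nat_lit 1906599242) (nat_lit 836) (nat_lit 715229573) (nat_lit 359) (nat_lit 1) (nat_lit 358) (nat_lit 1) (nat_lit 369) (nat_lit 1) (nat_lit 403) (nat_lit 391) (nat_lit 346)) (XT.lf (nat_lit 760) (nat_lit 950358753) (nat_lit 0) (nat_lit 1179206461) (nat_lit 684) (nat_lit 1179206461) (nat_lit 359) (nat_lit 1) (nat_lit 349) (nat_lit 1) (nat_lit 358)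 (nat_lit 1) (nat_lit 404) (nat_lit 391) (nat_lit 345)))) (XT.nd (nat_lit 78) (nat_lit 1444) (nat_lit 0) (XT.lf (nat_lit 76) (nat_lit 236689163) (nat_lit 0) (nat_lit 2807537871) (nat_lit 760) (nat_lit 236689163) (nat_lit 350) (nat_lit 1) (nat_lit 349) (nat_lit 1) (nat_lit 359) (nat_lit 1) (nat_lit 405) (nat_lit 391) (nat_lit 344)) (XT.nd (nat_lit 78) (nat_lit 684) (nat_lit 0) (XT.lf (nat_lit 76) (nat_lit 1620344862) (nat_lit 0) (nat_lit 12553359) (nat_lit 760) (nat_lit 1620344862) (nat_lit 340) (nat_lit 1) (nat_lit 339) (nat_lit 1) (nat_lit 349) (nat_lit 1) (nat_lit 406) (nat_lit 391) (nat_lit 343)) (XT.lf (nat_lit 760) (nat_lit 2740005352) (nat_lit 0) (nat_lit 242992337) (nat_lit 684) (nat_lit 242992337) (nat_lit 340) (nat_lit 1) (nat_lit 330) (nat_lit 1) (nat_lit 339) (nat_lit 1) (nat_lit 407) (nat_lit 391) (nat_lit 342))))) (XT.nd (nat_lit 234) (nat_lit 1292) (nat_lit 0) (XT.nd (nat_lit 78) (nat_lit 684) (nat_lit 0) (XT.lf (nat_lit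 76) (nat_lit 1115496294) (nat_lit 0) (nat_lit 967922956) (nat_lit 760) (nat_lit 1115496294) (nat_lit 331) (nat_lit 1) (nat_lit 330) (nat_lit 1) (nat_lit 340) (nat_lit 1) (nat_lit 408) (nat_lit 391) (nat_lit 341)) (XT.nd (nat_lit 78) (nat_lit 0) (nat_lit 0) (XT.lf (nat_lit 760) (nat_lit 1725592554) (nat_lit 0) (nat_lit 723327260) (nat_lit 684) (nat_lit 723327260) (nat_lit 331) (nat_lit 1) (nat_lit 321) (nat_lit 1) (nat_lit 330) (nat_lit 1) (nat_lit 409) (nat_lit 391) (nat_lit 340)) (XT.lf (nat_lit 76) (nat_lit 609337279) (nat_lit 0) (nat_lit 1927202883) (nat_lit 760) (nat_lit 609337279) (nat_lit 322) (nat_lit 1) (nat_lit 321) (nat_lit 1) (nat_lit 331) (nat_lit 1) (nat_lit 410) (nat_lit 391) (nat_lit 339)))) (XT.nd (nat_lit 78) (nat_lit 684) (nat_lit 0) (XT.lf (nat_lit 684) (nat_lit 709017165) (nat_lit 0) (nat_lit 1205379544) (nat_lit 608) (nat_lit 1205379544) (nat_lit 322) (nat_lit 1) (nat_lit 313) (nat_lit 1) (nat_lit 321) (nat_lit 1)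 (nat_lit 411) (nat_lit 391) (nat_lit 338)) (XT.nd (nat_lit 78) (nat_lit 684) (nat_lit 0) (XT.lf (nat_lit 76) (nat_lit 102328788) (nat_lit 0) (nat_lit 2889437208) (nat_lit 684) (nat_lit 102328788) (nat_lit 314) (nat_lit 1) (nat_lit 313) (nat_lit 1) (nat_lit 322) (nat_lit 1) (nat_lit 412) (nat_lit 391) (nat_lit 337)) (XT.lf (nat_lit 76) (nat_lit 1381866115) (nat_lit 0) (nat_lit 304771807) (nat_lit 684) (nat_lit 1381866115) (nat_lit 305) (nat_lit 1) (nat_lit 304) (nat_lit 1) (nat_lit 313) (nat_lit 1) (nat_lit 413) (nat_lit 391) (nat_lit 336)))))) (XT.nd (nat_lit 468) (nat_lit 1672) (nat_lit 0) (XT.nd (nat_lit 234) (nat_lit 1216) (nat_lit 0) (XT.nd (nat_lit 78) (nat_lit 608) (nat_lit 0) (XT.lf (nat_lit 684) (nat_lit 2238465361) (nat_lit 0) (nat_lit 402429055) (nat_lit 608) (nat_lit 402429055) (nat_lit 305) (nat_lit 1) (nat_lit 296) (nat_lit 1) (nat_lit 304) (nat_lit 1) (nat_lit 414) (nat_lit 391) (nat_lit 335)) (XT.nd (nat_lit 78) (nat_lit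 608) (nat_lit 0) (XT.lf (nat_lit 76) (nat_lit 854336784) (nat_lit 0) (nat_lit 1309672402) (nat_lit 684) (nat_lit 854336784) (nat_lit 297) (nat_lit 1) (nat_lit 296) (nat_lit 1) (nat_lit 305) (nat_lit 1) (nat_lit 415) (nat_lit 391) (nat_lit 334)) (XT.lf (nat_lit 684) (nat_lit 1180653583) (nat_lit 0) (nat_lit 906517847) (nat_lit 608) (nat_lit 906517847) (nat_lit 297) (nat_lit 1) (nat_lit 288) (nat_lit 1) (nat_lit 296) (nat_lit 1) (nat_lit 416) (nat_lit 391) (nat_lit 333)))) (XT.nd (nat_lit 78) (nat_lit 1216) (nat_lit 0) (XT.lf (nat_lit 76) (nat_lit 327584016) (nat_lit 0) (nat_lit 2314194704) (nat_lit 684) (nat_lit 327584016) (nat_lit 289) (nat_lit 1) (nat_lit 288) (nat_lit 1) (nat_lit 297) (nat_lit 1) (nat_lit 417) (nat_lit 391) (nat_lit 332)) (XT.nd (nat_lit 78) (nat_lit 684) (nat_lit 0) (XT.lf (nat_lit 608) (nat_lit 124761157) (nat_lit 0) (nat_lit 1410226751) (nat_lit 532) (nat_lit 1410226751) (nat_lit 289) (nat_lit 1) (nat_lit 281) (nat_lit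 1) (nat_lit 288) (nat_lit 1) (nat_lit 418) (nat_lit 391) (nat_lit 331)) (XT.lf (nat_lit 684) (nat_lit 2527954584) (nat_lit 0) (nat_lit 196733040) (nat_lit 608) (nat_lit 196733040) (nat_lit 281) (nat_lit 1) (nat_lit 272) (nat_lit 1) (nat_lit 280) (nat_lit 1) (nat_lit 419) (nat_lit 391) (nat_lit 330))))) (XT.nd (nat_lit 234) (nat_lit 1140) (nat_lit 0) (XT.nd (nat_lit 78) (nat_lit 532) (nat_lit 0) (XT.lf (nat_lit 76) (nat_lit 990704047) (nat_lit 0) (nat_lit 916340978) (nat_lit 684) (nat_lit 990704047) (nat_lit 273) (nat_lit 1) (nat_lit 272) (nat_lit 1) (nat_lit 281) (nat_lit 1) (nat_lit 420) (nat_lit 391) (nat_lit 329)) (XT.nd (nat_lit 78) (nat_lit 0) (nat_lit 0) (XT.lf (nat_lit 608) (nat_lit 1439549645) (nat_lit 0) (nat_lit 717436889) (nat_lit 532) (nat_lit 717436889) (nat_lit 273) (nat_lit 1) (nat_lit 265) (nat_lit 1) (nat_lit 272) (nat_lit 1) (nat_lit 421) (nat_lit 391) (nat_lit 328)) (XT.lf (nat_lit 76) (nat_lit 449391214) (nat_lit 0)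 (nat_lit 1952585780) (nat_lit 608) (nat_lit 449391214) (nat_lit 266) (nat_lit 1) (nat_lit 265) (nat_lit 1) (nat_lit 273) (nat_lit 1) (nat_lit 422) (nat_lit 391) (nat_lit 327)))) (XT.nd (nat_lit 78) (nat_lit 608) (nat_lit 0) (XT.lf (nat_lit 608) (nat_lit 355772533) (nat_lit 0) (nat_lit 1236370322) (nat_lit 532) (nat_lit 1236370322) (nat_lit 266) (nat_lit 1) (nat_lit 258) (nat_lit 1) (nat_lit 265) (nat_lit 1) (nat_lit 423) (nat_lit 391) (nat_lit 326)) (XT.nd (nat_lit 78) (nat_lit 0) (nat_lit 0) (XT.lf (nat_lit 608) (nat_lit 2628244513) (nat_lit 0) (nat_lit 88884470) (nat_lit 532) (nat_lit 88884470) (nat_lit 258) (nat_lit 1) (nat_lit 250) (nat_lit 1) (nat_lit 257) (nat_lit 1) (nat_lit 424) (nat_lit 391) (nat_lit 325)) (XT.lf (nat_lit 76) (nat_lit 1035114864) (nat_lit 0) (nat_lit 713338595) (nat_lit 608) (nat_lit 1035114864) (nat_lit 251) (nat_lit 1) (nat_lit 250) (nat_lit 1) (nat_lit 258) (nat_lit 1) (nat_lit 425) (nat_lit 391) (nat_lit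 324))))))) (XT.nd (nat_lit 54288) (nat_lit 0) (nat_lit 20976) (XT.nd (nat_lit 468) (nat_lit 0) (nat_lit 0) (XT.nd (nat_lit 234) (nat_lit 1064) (nat_lit 0) (XT.nd (nat_lit 78) (nat_lit 456) (nat_lit 0) (XT.lf (nat_lit 608) (nat_lit 1518463394) (nat_lit 0) (nat_lit 621503940) (nat_lit 532) (nat_lit 621503940) (nat_lit 251) (nat_lit 1) (nat_lit 243) (nat_lit 1) (nat_lit 250) (nat_lit 1) (nat_lit 426) (nat_lit 391) (nat_lit 323)) (XT.nd (nat_lit 78) (nat_lit 456) (nat_lit 0) (XT.lf (nat_lit 76) (nat_lit 483729979) (nat_lit 0) (nat_lit 1772150365) (nat_lit 608) (nat_lit 483729979) (nat_lit 244) (nat_lit 1) (nat_lit 243) (nat_lit 1) (nat_lit 251) (nat_lit 1) (nat_lit 427) (nat_lit 391) (nat_lit 322)) (XT.lf (nat_lit 532) (nat_lit 415601627) (nat_lit 0) (nat_lit 1151173892) (nat_lit 456) (nat_lit 1151173892) (nat_lit 244) (nat_lit 1) (nat_lit 237) (nat_lit 1) (nat_lit 243) (nat_lit 1) (nat_lit 428) (nat_lit 391) (nat_lit 321)))) (XT.nd (nat_lit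 78) (nat_lit 456) (nat_lit 0) (XT.lf (nat_lit 608) (nat_lit 2569280919) (nat_lit 0) (nat_lit 63672468) (nat_lit 532) (nat_lit 63672468) (nat_lit 237) (nat_lit 1) (nat_lit 229) (nat_lit 1) (nat_lit 236) (nat_lit 1) (nat_lit 429) (nat_lit 391) (nat_lit 320)) (XT.nd (nat_lit 78) (nat_lit 456) (nat_lit 0) (XT.lf (nat_lit 76) (nat_lit 1002175358) (nat_lit 0) (nat_lit 670983151) (nat_lit 608) (nat_lit 1002175358) (nat_lit 230) (nat_lit 1) (nat_lit 229) (nat_lit 1) (nat_lit 237) (nat_lit 1) (nat_lit 430) (nat_lit 391) (nat_lit 319)) (XT.lf (nat_lit 532) (nat_lit 1446083215) (nat_lit 0) (nat_lit 604144800) (nat_lit 456) (nat_lit 604144800) (nat_lit 230) (nat_lit 1) (nat_lit 223) (nat_lit 1) (nat_lit 229) (nat_lit 1) (nat_lit 431) (nat_lit 391) (nat_lit 318))))) (XT.nd (nat_lit 53586) (nat_lit 0) (nat_lit 20900) (XT.nd (nat_lit 53430) (nat_lit 0) (nat_lit 20824) (XT.lf (nat_lit 76) (nat_lit 444592712) (nat_lit 0) (nat_lit 1744449560) (nat_lit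 532) (nat_lit 444592712) (nat_lit 224) (nat_lit 1) (nat_lit 223) (nat_lit 1) (nat_lit 230) (nat_lit 1) (nat_lit 432) (nat_lit 391) (nat_lit 317)) (XT.nd (nat_lit 78) (nat_lit 0) (nat_lit 0) (XT.lf (nat_lit 1900) (nat_lit 855435790) (nat_lit 0) (nat_lit 862589222) (nat_lit 1900) (nat_lit 855435790) (nat_lit 522) (nat_lit 1) (nat_lit 497) (nat_lit 0) (nat_lit 522) (nat_lit 0) (nat_lit 356) (nat_lit 392) (nat_lit 392)) (XT.lf (nat_lit 1900) (nat_lit 3382521730) (nat_lit 76) (nat_lit 856914293) (nat_lit 0) (nat_lit 856914293) (nat_lit 522) (nat_lit 1) (nat_lit 498) (nat_lit 1) (nat_lit 497) (nat_lit 0) (nat_lit 357) (nat_lit 392) (nat_lit 391)))) (XT.nd (nat_lit 78) (nat_lit 0) (nat_lit 0) (XT.lf (nat_lit 1900) (nat_lit 1660834270) (nat_lit 0) (nat_lit 1724662850) (nat_lit 1824) (nat_lit 1660834270) (nat_lit 523) (nat_lit 1) (nat_lit 498) (nat_lit 1) (nat_lit 522) (nat_lit 1) (nat_lit 358) (nat_lit 392) (nat_lit 390)) (XT.nd (nat_lit 78)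 (nat_lit 0) (nat_lit 76) (XT.lf (nat_lit 1900) (nat_lit 3250662085) (nat_lit 76) (nat_lit 873204331) (nat_lit 0) (nat_lit 873204331) (nat_lit 523) (nat_lit 1) (nat_lit 499) (nat_lit 1) (nat_lit 498) (nat_lit 1) (nat_lit 359) (nat_lit 392) (nat_lit 389)) (XT.lf (nat_lit 1900) (nat_lit 1579760174) (nat_lit 0) (nat_lit 1788833541) (nat_lit 1824) (nat_lit 1579760174) (nat_lit 524) (nat_lit 1) (nat_lit 499) (nat_lit 1) (nat_lit 523) (nat_lit 1) (nat_lit 360) (nat_lit 392) (nat_lit 388)))))) (XT.nd (nat_lit 468) (nat_lit 0) (nat_lit 228) (XT.nd (nat_lit 234) (nat_lit 0) (nat_lit 152) (XT.nd (nat_lit 78) (nat_lit 0) (nat_lit 76) (XT.lf (nat_lit 1900) (nat_lit 3058397065) (nat_lit 76) (nat_lit 920982221) (nat_lit 0) (nat_lit 920982221) (nat_lit 524) (nat_lit 1) (nat_lit 500) (nat_lit 1) (nat_lit 499) (nat_lit 1) (nat_lit 361) (nat_lit 392) (nat_lit 387)) (XT.nd (nat_lit 78) (nat_lit 0) (nat_lit 0) (XT.lf (nat_lit 1900) (nat_lit 1469501152) (nat_lit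 0) (nat_lit 1913910705) (nat_lit 1824) (nat_lit 1469501152) (nat_lit 525) (nat_lit 1) (nat_lit 500) (nat_lit 1) (nat_lit 524) (nat_lit 1) (nat_lit 362) (nat_lit 392) (nat_lit 386)) (XT.lf (nat_lit 1900) (nat_lit 2809357101) (nat_lit 76) (nat_lit 998395441) (nat_lit 0) (nat_lit 998395441) (nat_lit 525) (nat_lit 1) (nat_lit 501) (nat_lit 1) (nat_lit 500) (nat_lit 1) (nat_lit 363) (nat_lit 392) (nat_lit 385)))) (XT.nd (nat_lit 78) (nat_lit 0) (nat_lit 0) (XT.lf (nat_lit 1900) (nat_lit 1331824472) (nat_lit 0) (nat_lit 2096286166) (nat_lit 1824) (nat_lit 1331824472) (nat_lit 526) (nat_lit 1) (nat_lit 501) (nat_lit 1) (nat_lit 525) (nat_lit 1) (nat_lit 364) (nat_lit 392) (nat_lit 384)) (XT.nd (nat_lit 78) (nat_lit 0) (nat_lit 76) (XT.lf (nat_lit 1900) (nat_lit 2507006456) (nat_lit 76) (nat_lit 1103675750) (nat_lit 0) (nat_lit 1103675750) (nat_lit 526) (nat_lit 1) (nat_lit 502) (nat_lit 1) (nat_lit 501) (nat_lit 1) (nat_lit 365) (nat_lit 392)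 (nat_lit 383)) (XT.lf (nat_lit 1900) (nat_lit 1168416348) (nat_lit 0) (nat_lit 2332516232) (nat_lit 1824) (nat_lit 1168416348) (nat_lit 527) (nat_lit 1) (nat_lit 502) (nat_lit 1) (nat_lit 526) (nat_lit 1) (nat_lit 366) (nat_lit 392) (nat_lit 382))))) (XT.nd (nat_lit 234) (nat_lit 0) (nat_lit 152) (XT.nd (nat_lit 78) (nat_lit 0) (nat_lit 76) (XT.lf (nat_lit 1900) (nat_lit 2154650176) (nat_lit 76) (nat_lit 1235135681) (nat_lit 0) (nat_lit 1235135681) (nat_lit 527) (nat_lit 1) (nat_lit 503) (nat_lit 1) (nat_lit 502) (nat_lit 1) (nat_lit 367) (nat_lit 392) (nat_lit 381)) (XT.nd (nat_lit 78) (nat_lit 0) (nat_lit 0) (XT.lf (nat_lit 1900) (nat_lit 980885328) (nat_lit 0) (nat_lit 2619314830) (nat_lit 1824) (nat_lit 980885328) (nat_lit 528) (nat_lit 1) (nat_lit 503) (nat_lit 1) (nat_lit 527) (nat_lit 1) (nat_lit 368) (nat_lit 392) (nat_lit 380)) (XT.lf (nat_lit 1900) (nat_lit 1755440752) (nat_lit 76) (nat_lit 1391165161) (nat_lit 0) (nat_lit 1391165161)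 (nat_lit 528) (nat_lit 1) (nat_lit 504) (nat_lit 1) (nat_lit 503) (nat_lit 1) (nat_lit 369) (nat_lit 392) (nat_lit 379)))) (XT.nd (nat_lit 78) (nat_lit 0) (nat_lit 0) (XT.lf (nat_lit 1900) (nat_lit 770765548) (nat_lit 0) (nat_lit 2953546917) (nat_lit 1824) (nat_lit 770765548) (nat_lit 529) (nat_lit 1) (nat_lit 504) (nat_lit 1) (nat_lit 528) (nat_lit 1) (nat_lit 370) (nat_lit 392) (nat_lit 378)) (XT.nd (nat_lit 78) (nat_lit 0) (nat_lit 76) (XT.lf (nat_lit 1900) (nat_lit 1312384520) (nat_lit 76) (nat_lit 1570228275) (nat_lit 0) (nat_lit 1570228275) (nat_lit 529) (nat_lit 1) (nat_lit 505) (nat_lit 1) (nat_lit 504) (nat_lit 1) (nat_lit 371) (nat_lit 392) (nat_lit 377)) (XT.lf (nat_lit 1900) (nat_lit 539519862) (nat_lit 0) (nat_lit 3332222159) (nat_lit 1824) (nat_lit 539519862) (nat_lit 530) (nat_lit 1) (nat_lit 505) (nat_lit 1) (nat_lit 529) (nat_lit 1) (nat_lit 372) (nat_lit 392) (nat_lit 376))))))))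
noncomputable def ec33 : XT := (XT.nd (nat_lit 1872) (nat_lit 9956) (nat_lit 0) (XT.nd (nat_lit 936) (nat_lit 5168) (nat_lit 0) (XT.nd (nat_lit 468) (nat_lit 1900) (nat_lit 0) (XT.nd (nat_lit 234) (nat_lit 1748) (nat_lit 0) (XT.nd (nat_lit 78) (nat_lit 0) (nat_lit 76) (XT.lf (nat_lit 1900) (nat_lit 828347802) (nat_lit 76) (nat_lit 1770860159) (nat_lit 0) (nat_lit 1770860159) (nat_lit 530) (nat_lit 1) (nat_lit 506) (nat_lit 1) (nat_lit 505) (nat_lit 1) (nat_lit 373) (nat_lit 392) (nat_lit 375)) (XT.nd (nat_lit 78) (nat_lit 0) (nat_lit 0) (XT.lf (nat_lit 1900) (nat_lit 288542830) (nat_lit 0) (nat_lit 3752488854) (nat_lit 1824) (nat_lit 288542830) (nat_lit 531) (nat_lit 1) (nat_lit 506) (nat_lit 1) (nat_lit 530) (nat_lit 1) (nat_lit 374) (nat_lit 392) (nat_lit 374)) (XT.lf (nat_lit 1900) (nat_lit 306062803) (nat_lit 76) (nat_lit 1991664016) (nat_lit 0) (nat_lit 1991664016) (nat_lit 531) (nat_lit 1) (nat_lit 507) (nat_lit 1) (nat_lit 506)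 (nat_lit 1) (nat_lit 375) (nat_lit 392) (nat_lit 373)))) (XT.nd (nat_lit 78) (nat_lit 1900) (nat_lit 0) (XT.lf (nat_lit 1900) (nat_lit 19163605) (nat_lit 0) (nat_lit 4211628117) (nat_lit 1824) (nat_lit 19163605) (nat_lit 532) (nat_lit 1) (nat_lit 507) (nat_lit 1) (nat_lit 531) (nat_lit 1) (nat_lit 376) (nat_lit 392) (nat_lit 372)) (XT.nd (nat_lit 78) (nat_lit 0) (nat_lit 0) (XT.lf (nat_lit 1976) (nat_lit 1981076800) (nat_lit 0) (nat_lit 248563463) (nat_lit 1900) (nat_lit 1981076800) (nat_lit 508) (nat_lit 1) (nat_lit 482) (nat_lit 1) (nat_lit 507) (nat_lit 1) (nat_lit 377) (nat_lit 392) (nat_lit 371)) (XT.lf (nat_lit 1976) (nat_lit 3641021477) (nat_lit 76) (nat_lit 265592422) (nat_lit 0) (nat_lit 265592422) (nat_lit 508) (nat_lit 1) (nat_lit 483) (nat_lit 1) (nat_lit 482) (nat_lit 1) (nat_lit 378) (nat_lit 392) (nat_lit 370))))) (XT.nd (nat_lit 234) (nat_lit 1976) (nat_lit 0) (XT.nd (nat_lit 78) (nat_lit 0) (nat_lit 0) (XT.lf (nat_lit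 1976) (nat_lit 1651036668) (nat_lit 0) (nat_lit 831904557) (nat_lit 1900) (nat_lit 1651036668) (nat_lit 509) (nat_lit 1) (nat_lit 483) (nat_lit 1) (nat_lit 508) (nat_lit 1) (nat_lit 379) (nat_lit 392) (nat_lit 369)) (XT.nd (nat_lit 78) (nat_lit 0) (nat_lit 76) (XT.lf (nat_lit 1976) (nat_lit 2964298183) (nat_lit 76) (nat_lit 566046773) (nat_lit 0) (nat_lit 566046773) (nat_lit 509) (nat_lit 1) (nat_lit 484) (nat_lit 1) (nat_lit 483) (nat_lit 1) (nat_lit 380) (nat_lit 392) (nat_lit 368)) (XT.lf (nat_lit 76) (nat_lit 1306757478) (nat_lit 0) (nat_lit 1445642666) (nat_lit 1900) (nat_lit 1306757478) (nat_lit 485) (nat_lit 1) (nat_lit 484) (nat_lit 1) (nat_lit 509) (nat_lit 1) (nat_lit 381) (nat_lit 392) (nat_lit 367)))) (XT.nd (nat_lit 78) (nat_lit 912) (nat_lit 0) (XT.lf (nat_lit 1216) (nat_lit 2260099026) (nat_lit 0) (nat_lit 881184042) (nat_lit 1140) (nat_lit 881184042) (nat_lit 485) (nat_lit 1) (nat_lit 469) (nat_lit 1) (nat_lit 484) (nat_lit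 1) (nat_lit 382) (nat_lit 392) (nat_lit 366)) (XT.nd (nat_lit 78) (nat_lit 912) (nat_lit 0) (XT.lf (nat_lit 76) (nat_lit 949322638) (nat_lit 0) (nat_lit 2087557263) (nat_lit 1216) (nat_lit 949322638) (nat_lit 470) (nat_lit 1) (nat_lit 469) (nat_lit 1) (nat_lit 485) (nat_lit 1) (nat_lit 383) (nat_lit 392) (nat_lit 365)) (XT.lf (nat_lit 988) (nat_lit 1530544926) (nat_lit 0) (nat_lit 1209917410) (nat_lit 912) (nat_lit 1209917410) (nat_lit 470) (nat_lit 1) (nat_lit 457) (nat_lit 1) (nat_lit 469) (nat_lit 1) (nat_lit 384) (nat_lit 392) (nat_lit 364)))))) (XT.nd (nat_lit 468) (nat_lit 2432) (nat_lit 0) (XT.nd (nat_lit 234) (nat_lit 1824) (nat_lit 0) (XT.nd (nat_lit 78) (nat_lit 912) (nat_lit 0) (XT.lf (nat_lit 76) (nat_lit 579763085) (nat_lit 0) (nat_lit 2755534443) (nat_lit 988) (nat_lit 579763085) (nat_lit 458) (nat_lit 1) (nat_lit 457) (nat_lit 1) (nat_lit 470) (nat_lit 1) (nat_lit 385) (nat_lit 392) (nat_lit 363)) (XT.nd (nat_lit 78) (nat_lit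 0) (nat_lit 0) (XT.lf (nat_lit 988) (nat_lit 777653776) (nat_lit 0) (nat_lit 1551212388) (nat_lit 912) (nat_lit 1551212388) (nat_lit 458) (nat_lit 1) (nat_lit 445) (nat_lit 1) (nat_lit 457) (nat_lit 1) (nat_lit 386) (nat_lit 392) (nat_lit 362)) (XT.lf (nat_lit 76) (nat_lit 199059525) (nat_lit 0) (nat_lit 3447562381) (nat_lit 988) (nat_lit 199059525) (nat_lit 446) (nat_lit 1) (nat_lit 445) (nat_lit 1) (nat_lit 458) (nat_lit 1) (nat_lit 387) (nat_lit 392) (nat_lit 361)))) (XT.nd (nat_lit 78) (nat_lit 988) (nat_lit 0) (XT.lf (nat_lit 912) (nat_lit 3344851) (nat_lit 0) (nat_lit 1904084591) (nat_lit 836) (nat_lit 1904084591) (nat_lit 446) (nat_lit 1) (nat_lit 434) (nat_lit 1) (nat_lit 445) (nat_lit 1) (nat_lit 388) (nat_lit 392) (nat_lit 360)) (XT.nd (nat_lit 78) (nat_lit 0) (nat_lit 0) (XT.lf (nat_lit 988) (nat_lit 3396729749) (nat_lit 0) (nat_lit 190593207) (nat_lit 912) (nat_lit 190593207) (nat_lit 434) (nat_lit 1) (nat_lit 421) (nat_lit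 1) (nat_lit 433) (nat_lit 1) (nat_lit 389) (nat_lit 392) (nat_lit 359)) (XT.lf (nat_lit 76) (nat_lit 1482173453) (nat_lit 0) (nat_lit 780188667) (nat_lit 988) (nat_lit 1482173453) (nat_lit 422) (nat_lit 1) (nat_lit 421) (nat_lit 1) (nat_lit 434) (nat_lit 1) (nat_lit 390) (nat_lit 392) (nat_lit 358))))) (XT.nd (nat_lit 234) (nat_lit 760) (nat_lit 0) (XT.nd (nat_lit 78) (nat_lit 836) (nat_lit 0) (XT.lf (nat_lit 912) (nat_lit 2535309337) (nat_lit 0) (nat_lit 588199761) (nat_lit 836) (nat_lit 588199761) (nat_lit 422) (nat_lit 1) (nat_lit 410) (nat_lit 1) (nat_lit 421) (nat_lit 1) (nat_lit 391) (nat_lit 392) (nat_lit 357)) (XT.nd (nat_lit 78) (nat_lit 836) (nat_lit 0) (XT.lf (nat_lit 76) (nat_lit 1048947071) (nat_lit 0) (nat_lit 1581302447) (nat_lit 912) (nat_lit 1048947071) (nat_lit 411) (nat_lit 1) (nat_lit 410) (nat_lit 1) (nat_lit 422) (nat_lit 1) (nat_lit 392) (nat_lit 392) (nat_lit 356)) (XT.lf (nat_lit 912) (nat_lit 1658652410) (nat_lit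 0) (nat_lit 994232709) (nat_lit 836) (nat_lit 994232709) (nat_lit 411) (nat_lit 1) (nat_lit 399) (nat_lit 1) (nat_lit 410) (nat_lit 1) (nat_lit 393) (nat_lit 392) (nat_lit 355)))) (XT.nd (nat_lit 78) (nat_lit 760) (nat_lit 0) (XT.lf (nat_lit 76) (nat_lit 608519404) (nat_lit 0) (nat_lit 2398413874) (nat_lit 912) (nat_lit 608519404) (nat_lit 400) (nat_lit 1) (nat_lit 399) (nat_lit 1) (nat_lit 411) (nat_lit 1) (nat_lit 394) (nat_lit 392) (nat_lit 354)) (XT.nd (nat_lit 78) (nat_lit 0) (nat_lit 0) (XT.lf (nat_lit 836) (nat_lit 768305257) (nat_lit 0) (nat_lit 1407896885) (nat_lit 760) (nat_lit 1407896885) (nat_lit 400) (nat_lit 1) (nat_lit 389) (nat_lit 1) (nat_lit 399) (nat_lit 1) (nat_lit 395) (nat_lit 392) (nat_lit 353)) (XT.lf (nat_lit 76) (nat_lit 161641144) (nat_lit 0) (nat_lit 3229978093) (nat_lit 836) (nat_lit 161641144) (nat_lit 390) (nat_lit 1) (nat_lit 389) (nat_lit 1) (nat_lit 400) (nat_lit 1) (nat_lit 396) (nat_lit 392) (nat_lit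 352))))))) (XT.nd (nat_lit 936) (nat_lit 4788) (nat_lit 0) (XT.nd (nat_lit 468) (nat_lit 2128) (nat_lit 0) (XT.nd (nat_lit 234) (nat_lit 1444) (nat_lit 0) (XT.nd (nat_lit 78) (nat_lit 760) (nat_lit 0) (XT.lf (nat_lit 76) (nat_lit 1695044315) (nat_lit 0) (nat_lit 132503689) (nat_lit 836) (nat_lit 1695044315) (nat_lit 379) (nat_lit 1) (nat_lit 378) (nat_lit 1) (nat_lit 389) (nat_lit 1) (nat_lit 397) (nat_lit 392) (nat_lit 351)) (XT.nd (nat_lit 78) (nat_lit 0) (nat_lit 0) (XT.lf (nat_lit 836) (nat_lit 2914303733) (nat_lit 0) (nat_lit 289061088) (nat_lit 760) (nat_lit 289061088) (nat_lit 379) (nat_lit 1) (nat_lit 368) (nat_lit 1) (nat_lit 378) (nat_lit 1) (nat_lit 398) (nat_lit 392) (nat_lit 350)) (XT.lf (nat_lit 76) (nat_lit 1214273963) (nat_lit 0) (nat_lit 1033924638) (nat_lit 836) (nat_lit 1214273963) (nat_lit 369) (nat_lit 1) (nat_lit 368) (nat_lit 1) (nat_lit 379) (nat_lit 1) (nat_lit 399) (nat_lit 392) (nat_lit 349)))) (XT.nd (nat_lit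 78) (nat_lit 684) (nat_lit 0) (XT.lf (nat_lit 836) (nat_lit 1945514609) (nat_lit 0) (nat_lit 743729279) (nat_lit 760) (nat_lit 743729279) (nat_lit 369) (nat_lit 1) (nat_lit 358) (nat_lit 1) (nat_lit 368) (nat_lit 1) (nat_lit 400) (nat_lit 392) (nat_lit 348)) (XT.nd (nat_lit 78) (nat_lit 684) (nat_lit 0) (XT.lf (nat_lit 76) (nat_lit 729534165) (nat_lit 0) (nat_lit 1944731227) (nat_lit 836) (nat_lit 729534165) (nat_lit 359) (nat_lit 1) (nat_lit 358) (nat_lit 1) (nat_lit 369) (nat_lit 1) (nat_lit 401) (nat_lit 392) (nat_lit 347)) (XT.lf (nat_lit 760) (nat_lit 969365928) (nat_lit 0) (nat_lit 1202790590) (nat_lit 684) (nat_lit 1202790590) (nat_lit 359) (nat_lit 1) (nat_lit 349) (nat_lit 1) (nat_lit 358) (nat_lit 1) (nat_lit 402) (nat_lit 392) (nat_lit 346))))) (XT.nd (nat_lit 234) (nat_lit 684) (nat_lit 0) (XT.nd (nat_lit 78) (nat_lit 1444) (nat_lit 0) (XT.lf (nat_lit 76) (nat_lit 241422946) (nat_lit 0) (nat_lit 2863688628) (nat_lit 760) (nat_lit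 241422946) (nat_lit 350) (nat_lit 1) (nat_lit 349) (nat_lit 1) (nat_lit 359) (nat_lit 1) (nat_lit 403) (nat_lit 392) (nat_lit 345)) (XT.nd (nat_lit 78) (nat_lit 684) (nat_lit 0) (XT.lf (nat_lit 76) (nat_lit 1652751759) (nat_lit 0) (nat_lit 12804426) (nat_lit 760) (nat_lit 1652751759) (nat_lit 340) (nat_lit 1) (nat_lit 339) (nat_lit 1) (nat_lit 349) (nat_lit 1) (nat_lit 404) (nat_lit 392) (nat_lit 344)) (XT.lf (nat_lit 760) (nat_lit 2794805459) (nat_lit 0) (nat_lit 247852184) (nat_lit 684) (nat_lit 247852184) (nat_lit 340) (nat_lit 1) (nat_lit 330) (nat_lit 1) (nat_lit 339) (nat_lit 1) (nat_lit 405) (nat_lit 392) (nat_lit 343)))) (XT.nd (nat_lit 78) (nat_lit 684) (nat_lit 0) (XT.lf (nat_lit 76) (nat_lit 1137806220) (nat_lit 0) (nat_lit 987281416) (nat_lit 760) (nat_lit 1137806220) (nat_lit 331) (nat_lit 1) (nat_lit 330) (nat_lit 1) (nat_lit 340) (nat_lit 1) (nat_lit 406) (nat_lit 392) (nat_lit 342)) (XT.nd (nat_lit 78) (nat_lit 0) (nat_lit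 0) (XT.lf (nat_lit 760) (nat_lit 1760104405) (nat_lit 0) (nat_lit 737793805) (nat_lit 684) (nat_lit 737793805) (nat_lit 331) (nat_lit 1) (nat_lit 321) (nat_lit 1) (nat_lit 330) (nat_lit 1) (nat_lit 407) (nat_lit 392) (nat_lit 341)) (XT.lf (nat_lit 76) (nat_lit 621524025) (nat_lit 0) (nat_lit 1965746941) (nat_lit 760) (nat_lit 621524025) (nat_lit 322) (nat_lit 1) (nat_lit 321) (nat_lit 1) (nat_lit 331) (nat_lit 1) (nat_lit 408) (nat_lit 392) (nat_lit 340)))))) (XT.nd (nat_lit 468) (nat_lit 2280) (nat_lit 0) (XT.nd (nat_lit 234) (nat_lit 1216) (nat_lit 0) (XT.nd (nat_lit 78) (nat_lit 684) (nat_lit 0) (XT.lf (nat_lit 684) (nat_lit 723197508) (nat_lit 0) (nat_lit 1229487135) (nat_lit 608) (nat_lit 1229487135) (nat_lit 322) (nat_lit 1) (nat_lit 313) (nat_lit 1) (nat_lit 321) (nat_lit 1) (nat_lit 409) (nat_lit 392) (nat_lit 339)) (XT.nd (nat_lit 78) (nat_lit 684) (nat_lit 0) (XT.lf (nat_lit 76) (nat_lit 104375364) (nat_lit 0) (nat_lit 2947225952)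 (nat_lit 684) (nat_lit 104375364) (nat_lit 314) (nat_lit 1) (nat_lit 313) (nat_lit 1) (nat_lit 322) (nat_lit 1) (nat_lit 410) (nat_lit 392) (nat_lit 338)) (XT.lf (nat_lit 76) (nat_lit 1409503438) (nat_lit 0) (nat_lit 310867243) (nat_lit 684) (nat_lit 1409503438) (nat_lit 305) (nat_lit 1) (nat_lit 304) (nat_lit 1) (nat_lit 313) (nat_lit 1) (nat_lit 411) (nat_lit 392) (nat_lit 337)))) (XT.nd (nat_lit 78) (nat_lit 608) (nat_lit 0) (XT.lf (nat_lit 684) (nat_lit 2283234668) (nat_lit 0) (nat_lit 410477636) (nat_lit 608) (nat_lit 410477636) (nat_lit 305) (nat_lit 1) (nat_lit 296) (nat_lit 1) (nat_lit 304) (nat_lit 1) (nat_lit 412) (nat_lit 392) (nat_lit 336)) (XT.nd (nat_lit 78) (nat_lit 608) (nat_lit 0) (XT.lf (nat_lit 76) (nat_lit 871423519) (nat_lit 0) (nat_lit 1335865850) (nat_lit 684) (nat_lit 871423519) (nat_lit 297) (nat_lit 1) (nat_lit 296) (nat_lit 1) (nat_lit 305) (nat_lit 1) (nat_lit 413) (nat_lit 392) (nat_lit 335)) (XT.lf (nat_lit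 684) (nat_lit 1204266655) (nat_lit 0) (nat_lit 924648204) (nat_lit 608) (nat_lit 924648204) (nat_lit 297) (nat_lit 1) (nat_lit 288) (nat_lit 1) (nat_lit 296) (nat_lit 1) (nat_lit 414) (nat_lit 392) (nat_lit 334))))) (XT.nd (nat_lit 234) (nat_lit 1064) (nat_lit 0) (XT.nd (nat_lit 78) (nat_lit 1216) (nat_lit 0) (XT.lf (nat_lit 76) (nat_lit 334135697) (nat_lit 0) (nat_lit 2360478598) (nat_lit 684) (nat_lit 334135697) (nat_lit 289) (nat_lit 1) (nat_lit 288) (nat_lit 1) (nat_lit 297) (nat_lit 1) (nat_lit 415) (nat_lit 392) (nat_lit 333)) (XT.nd (nat_lit 78) (nat_lit 684) (nat_lit 0) (XT.lf (nat_lit 608) (nat_lit 127256380) (nat_lit 0) (nat_lit 1438431286) (nat_lit 532) (nat_lit 1438431286) (nat_lit 289) (nat_lit 1) (nat_lit 281) (nat_lit 1) (nat_lit 288) (nat_lit 1) (nat_lit 416) (nat_lit 392) (nat_lit 332)) (XT.lf (nat_lit 684) (nat_lit 2578513675) (nat_lit 0) (nat_lit 200667701) (nat_lit 608) (nat_lit 200667701) (nat_lit 281) (nat_lit 1)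 (nat_lit 272) (nat_lit 1) (nat_lit 280) (nat_lit 1) (nat_lit 417) (nat_lit 392) (nat_lit 331)))) (XT.nd (nat_lit 156) (nat_lit 532) (nat_lit 0) (XT.nd (nat_lit 78) (nat_lit 532) (nat_lit 0) (XT.lf (nat_lit 76) (nat_lit 1010518128) (nat_lit 0) (nat_lit 934667798) (nat_lit 684) (nat_lit 1010518128) (nat_lit 273) (nat_lit 1) (nat_lit 272) (nat_lit 1) (nat_lit 281) (nat_lit 1) (nat_lit 418) (nat_lit 392) (nat_lit 330)) (XT.lf (nat_lit 608) (nat_lit 1468340638) (nat_lit 0) (nat_lit 731785627) (nat_lit 532) (nat_lit 731785627) (nat_lit 273) (nat_lit 1) (nat_lit 265) (nat_lit 1) (nat_lit 272) (nat_lit 1) (nat_lit 419) (nat_lit 392) (nat_lit 329))) (XT.nd (nat_lit 78) (nat_lit 532) (nat_lit 0) (XT.lf (nat_lit 76) (nat_lit 458379039) (nat_lit 0) (nat_lit 1991637496) (nat_lit 608) (nat_lit 458379039) (nat_lit 266) (nat_lit 1) (nat_lit 265) (nat_lit 1) (nat_lit 273) (nat_lit 1) (nat_lit 420) (nat_lit 392) (nat_lit 328)) (XT.lf (nat_lit 608) (nat_lit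 362887984) (nat_lit 0) (nat_lit 1261097728) (nat_lit 532) (nat_lit 1261097728) (nat_lit 266) (nat_lit 1) (nat_lit 258) (nat_lit 1) (nat_lit 265) (nat_lit 1) (nat_lit 421) (nat_lit 392) (nat_lit 327))))))))
noncomputable def ec34 : XT := (XT.nd (nat_lit 54990) (nat_lit 0) (nat_lit 15200) (XT.nd (nat_lit 54054) (nat_lit 0) (nat_lit 21812) (XT.nd (nat_lit 468) (nat_lit 1444) (nat_lit 0) (XT.nd (nat_lit 234) (nat_lit 1064) (nat_lit 0) (XT.nd (nat_lit 78) (nat_lit 532) (nat_lit 0) (XT.lf (nat_lit 608) (nat_lit 2680809403) (nat_lit 0) (nat_lit 90662160) (nat_lit 532) (nat_lit 90662160) (nat_lit 258) (nat_lit 1) (nat_lit 250) (nat_lit 1) (nat_lit 257) (nat_lit 1) (nat_lit 422) (nat_lit 392) (nat_lit 326)) (XT.nd (nat_lit 78) (nat_lit 532) (nat_lit 0) (XT.lf (nat_lit 76) (nat_lit 1055817162) (nat_lit 0) (nat_lit 727605367) (nat_lit 608) (nat_lit 1055817162) (nat_lit 251) (nat_lit 1) (nat_lit 250) (nat_lit 1) (nat_lit 258) (nat_lit 1) (nat_lit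 423) (nat_lit 392) (nat_lit 325)) (XT.lf (nat_lit 608) (nat_lit 1548832662) (nat_lit 0) (nat_lit 633934019) (nat_lit 532) (nat_lit 633934019) (nat_lit 251) (nat_lit 1) (nat_lit 243) (nat_lit 1) (nat_lit 250) (nat_lit 1) (nat_lit 424) (nat_lit 392) (nat_lit 324)))) (XT.nd (nat_lit 78) (nat_lit 1064) (nat_lit 0) (XT.lf (nat_lit 76) (nat_lit 493404578) (nat_lit 0) (nat_lit 1807593372) (nat_lit 608) (nat_lit 493404578) (nat_lit 244) (nat_lit 1) (nat_lit 243) (nat_lit 1) (nat_lit 251) (nat_lit 1) (nat_lit 425) (nat_lit 392) (nat_lit 323)) (XT.nd (nat_lit 78) (nat_lit 608) (nat_lit 0) (XT.lf (nat_lit 532) (nat_lit 423913660) (nat_lit 0) (nat_lit 1174197370) (nat_lit 456) (nat_lit 1174197370) (nat_lit 244) (nat_lit 1) (nat_lit 237) (nat_lit 1) (nat_lit 243) (nat_lit 1) (nat_lit 426) (nat_lit 392) (nat_lit 322)) (XT.lf (nat_lit 608) (nat_lit 2620666537) (nat_lit 0) (nat_lit 64945917) (nat_lit 532) (nat_lit 64945917) (nat_lit 237) (nat_lit 1)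 (nat_lit 229) (nat_lit 1) (nat_lit 236) (nat_lit 1) (nat_lit 427) (nat_lit 392) (nat_lit 321))))) (XT.nd (nat_lit 234) (nat_lit 988) (nat_lit 0) (XT.nd (nat_lit 78) (nat_lit 456) (nat_lit 0) (XT.lf (nat_lit 76) (nat_lit 1022218865) (nat_lit 0) (nat_lit 684402814) (nat_lit 608) (nat_lit 1022218865) (nat_lit 230) (nat_lit 1) (nat_lit 229) (nat_lit 1) (nat_lit 237) (nat_lit 1) (nat_lit 428) (nat_lit 392) (nat_lit 320)) (XT.nd (nat_lit 78) (nat_lit 0) (nat_lit 0) (XT.lf (nat_lit 532) (nat_lit 1475004879) (nat_lit 0) (nat_lit 616227696) (nat_lit 456) (nat_lit 616227696) (nat_lit 230) (nat_lit 1) (nat_lit 223) (nat_lit 1) (nat_lit 229) (nat_lit 1) (nat_lit 429) (nat_lit 392) (nat_lit 319)) (XT.lf (nat_lit 76) (nat_lit 453484566) (nat_lit 0) (nat_lit 1779338551) (nat_lit 532) (nat_lit 453484566) (nat_lit 224) (nat_lit 1) (nat_lit 223) (nat_lit 1) (nat_lit 230) (nat_lit 1) (nat_lit 430) (nat_lit 392) (nat_lit 318)))) (XT.nd (nat_lit 78) (nat_lit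 532) (nat_lit 0) (XT.lf (nat_lit 532) (nat_lit 338365167) (nat_lit 0) (nat_lit 1163487576) (nat_lit 456) (nat_lit 1163487576) (nat_lit 224) (nat_lit 1) (nat_lit 217) (nat_lit 1) (nat_lit 223) (nat_lit 1) (nat_lit 431) (nat_lit 392) (nat_lit 317)) (XT.nd (nat_lit 78) (nat_lit 0) (nat_lit 0) (XT.lf (nat_lit 532) (nat_lit 2424808063) (nat_lit 0) (nat_lit 109937203) (nat_lit 456) (nat_lit 109937203) (nat_lit 217) (nat_lit 1) (nat_lit 210) (nat_lit 1) (nat_lit 216) (nat_lit 1) (nat_lit 432) (nat_lit 392) (nat_lit 316)) (XT.lf (nat_lit 76) (nat_lit 922755433) (nat_lit 0) (nat_lit 778560864) (nat_lit 532) (nat_lit 922755433) (nat_lit 211) (nat_lit 1) (nat_lit 210) (nat_lit 1) (nat_lit 217) (nat_lit 1) (nat_lit 433) (nat_lit 392) (nat_lit 315)))))) (XT.nd (nat_lit 468) (nat_lit 0) (nat_lit 228) (XT.nd (nat_lit 234) (nat_lit 0) (nat_lit 76) (XT.nd (nat_lit 78) (nat_lit 0) (nat_lit 0) (XT.lf (nat_lit 1900) (nat_lit 872544505) (nat_lit 0) (nat_lit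 879841007) (nat_lit 1900) (nat_lit 872544505) (nat_lit 522) (nat_lit 1) (nat_lit 497) (nat_lit 0) (nat_lit 522) (nat_lit 0) (nat_lit 354) (nat_lit 393) (nat_lit 393)) (XT.nd (nat_lit 78) (nat_lit 0) (nat_lit 76) (XT.lf (nat_lit 1900) (nat_lit 3450172164) (nat_lit 76) (nat_lit 874052579) (nat_lit 0) (nat_lit 874052579) (nat_lit 522) (nat_lit 1) (nat_lit 498) (nat_lit 1) (nat_lit 497) (nat_lit 0) (nat_lit 355) (nat_lit 393) (nat_lit 392)) (XT.lf (nat_lit 1900) (nat_lit 1694050955) (nat_lit 0) (nat_lit 1759156107) (nat_lit 1824) (nat_lit 1694050955) (nat_lit 523) (nat_lit 1) (nat_lit 498) (nat_lit 1) (nat_lit 522) (nat_lit 1) (nat_lit 356) (nat_lit 393) (nat_lit 391)))) (XT.nd (nat_lit 78) (nat_lit 0) (nat_lit 76) (XT.lf (nat_lit 1900) (nat_lit 3315675327) (nat_lit 76) (nat_lit 890668418) (nat_lit 0) (nat_lit 890668418) (nat_lit 523) (nat_lit 1) (nat_lit 499) (nat_lit 1) (nat_lit 498) (nat_lit 1) (nat_lit 357) (nat_lit 393) (nat_lit 390))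 (XT.nd (nat_lit 78) (nat_lit 0) (nat_lit 0) (XT.lf (nat_lit 1900) (nat_lit 1611355378) (nat_lit 0) (nat_lit 1824610212) (nat_lit 1824) (nat_lit 1611355378) (nat_lit 524) (nat_lit 1) (nat_lit 499) (nat_lit 1) (nat_lit 523) (nat_lit 1) (nat_lit 358) (nat_lit 393) (nat_lit 389)) (XT.lf (nat_lit 1900) (nat_lit 3119565006) (nat_lit 76) (nat_lit 939401866) (nat_lit 0) (nat_lit 939401866) (nat_lit 524) (nat_lit 1) (nat_lit 500) (nat_lit 1) (nat_lit 499) (nat_lit 1) (nat_lit 359) (nat_lit 393) (nat_lit 388))))) (XT.nd (nat_lit 234) (nat_lit 0) (nat_lit 76) (XT.nd (nat_lit 78) (nat_lit 0) (nat_lit 0) (XT.lf (nat_lit 1900) (nat_lit 1498891175) (nat_lit 0) (nat_lit 1952188919) (nat_lit 1824) (nat_lit 1498891175) (nat_lit 525) (nat_lit 1) (nat_lit 500) (nat_lit 1) (nat_lit 524) (nat_lit 1) (nat_lit 360) (nat_lit 393) (nat_lit 387)) (XT.nd (nat_lit 78) (nat_lit 0) (nat_lit 76) (XT.lf (nat_lit 1900) (nat_lit 2865544243) (nat_lit 76) (nat_lit 1018363349)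 (nat_lit 0) (nat_lit 1018363349) (nat_lit 525) (nat_lit 1) (nat_lit 501) (nat_lit 1) (nat_lit 500) (nat_lit 1) (nat_lit 361) (nat_lit 393) (nat_lit 386)) (XT.lf (nat_lit 1900) (nat_lit 1358460962) (nat_lit 0) (nat_lit 2138211889) (nat_lit 1824) (nat_lit 1358460962) (nat_lit 526) (nat_lit 1) (nat_lit 501) (nat_lit 1) (nat_lit 525) (nat_lit 1) (nat_lit 362) (nat_lit 393) (nat_lit 385)))) (XT.nd (nat_lit 78) (nat_lit 0) (nat_lit 76) (XT.lf (nat_lit 1900) (nat_lit 2557146586) (nat_lit 76) (nat_lit 1125749265) (nat_lit 0) (nat_lit 1125749265) (nat_lit 526) (nat_lit 1) (nat_lit 502) (nat_lit 1) (nat_lit 501) (nat_lit 1) (nat_lit 363) (nat_lit 393) (nat_lit 384)) (XT.nd (nat_lit 78) (nat_lit 0) (nat_lit 0) (XT.lf (nat_lit 1900) (nat_lit 1191784675) (nat_lit 0) (nat_lit 2379166556) (nat_lit 1824) (nat_lit 1191784675) (nat_lit 527) (nat_lit 1) (nat_lit 502) (nat_lit 1) (nat_lit 526) (nat_lit 1) (nat_lit 364) (nat_lit 393) (nat_lit 383)) (XT.lf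 (nat_lit 1900) (nat_lit 2197743180) (nat_lit 76) (nat_lit 1259838394) (nat_lit 0) (nat_lit 1259838394) (nat_lit 527) (nat_lit 1) (nat_lit 503) (nat_lit 1) (nat_lit 502) (nat_lit 1) (nat_lit 365) (nat_lit 393) (nat_lit 382))))))) (XT.nd (nat_lit 936) (nat_lit 5472) (nat_lit 0) (XT.nd (nat_lit 468) (nat_lit 1596) (nat_lit 0) (XT.nd (nat_lit 234) (nat_lit 0) (nat_lit 76) (XT.nd (nat_lit 78) (nat_lit 0) (nat_lit 0) (XT.lf (nat_lit 1900) (nat_lit 1000503034) (nat_lit 0) (nat_lit 2671701126) (nat_lit 1824) (nat_lit 1000503034) (nat_lit 528) (nat_lit 1) (nat_lit 503) (nat_lit 1) (nat_lit 527) (nat_lit 1) (nat_lit 366) (nat_lit 393) (nat_lit 381)) (XT.nd (nat_lit 78) (nat_lit 0) (nat_lit 76) (XT.lf (nat_lit 1900) (nat_lit 1790549567) (nat_lit 76) (nat_lit 1418988464) (nat_lit 0) (nat_lit 1418988464) (nat_lit 528) (nat_lit 1) (nat_lit 504) (nat_lit 1) (nat_lit 503) (nat_lit 1) (nat_lit 367) (nat_lit 393) (nat_lit 380)) (XT.lf (nat_lit 1900) (nat_lit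 786180859) (nat_lit 0) (nat_lit 3012617856) (nat_lit 1824) (nat_lit 786180859) (nat_lit 529) (nat_lit 1) (nat_lit 504) (nat_lit 1) (nat_lit 528) (nat_lit 1) (nat_lit 368) (nat_lit 393) (nat_lit 379)))) (XT.nd (nat_lit 78) (nat_lit 0) (nat_lit 76) (XT.lf (nat_lit 1900) (nat_lit 1338632210) (nat_lit 76) (nat_lit 1601632840) (nat_lit 0) (nat_lit 1601632840) (nat_lit 529) (nat_lit 1) (nat_lit 505) (nat_lit 1) (nat_lit 504) (nat_lit 1) (nat_lit 369) (nat_lit 393) (nat_lit 378)) (XT.nd (nat_lit 78) (nat_lit 0) (nat_lit 0) (XT.lf (nat_lit 1900) (nat_lit 550310259) (nat_lit 0) (nat_lit 3398866602) (nat_lit 1824) (nat_lit 550310259) (nat_lit 530) (nat_lit 1) (nat_lit 505) (nat_lit 1) (nat_lit 529) (nat_lit 1) (nat_lit 370) (nat_lit 393) (nat_lit 377)) (XT.lf (nat_lit 1900) (nat_lit 844914758) (nat_lit 76) (nat_lit 1806277362) (nat_lit 0) (nat_lit 1806277362) (nat_lit 530) (nat_lit 1) (nat_lit 506) (nat_lit 1) (nat_lit 505) (nat_lit 1) (nat_lit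 371) (nat_lit 393) (nat_lit 376))))) (XT.nd (nat_lit 234) (nat_lit 1824) (nat_lit 0) (XT.nd (nat_lit 78) (nat_lit 0) (nat_lit 0) (XT.lf (nat_lit 1900) (nat_lit 294313687) (nat_lit 0) (nat_lit 3827538631) (nat_lit 1824) (nat_lit 294313687) (nat_lit 531) (nat_lit 1) (nat_lit 506) (nat_lit 1) (nat_lit 530) (nat_lit 1) (nat_lit 372) (nat_lit 393) (nat_lit 375)) (XT.nd (nat_lit 78) (nat_lit 0) (nat_lit 76) (XT.lf (nat_lit 1900) (nat_lit 312184059) (nat_lit 76) (nat_lit 2031497297) (nat_lit 0) (nat_lit 2031497297) (nat_lit 531) (nat_lit 1) (nat_lit 507) (nat_lit 1) (nat_lit 506) (nat_lit 1) (nat_lit 373) (nat_lit 393) (nat_lit 374)) (XT.lf (nat_lit 1900) (nat_lit 19546878) (nat_lit 0) (nat_lit 4295860679) (nat_lit 1824) (nat_lit 19546878) (nat_lit 532) (nat_lit 1) (nat_lit 507) (nat_lit 1) (nat_lit 531) (nat_lit 1) (nat_lit 374) (nat_lit 393) (nat_lit 373)))) (XT.nd (nat_lit 78) (nat_lit 0) (nat_lit 0) (XT.lf (nat_lit 1976) (nat_lit 2020698336)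 (nat_lit 0) (nat_lit 253534733) (nat_lit 1900) (nat_lit 2020698336) (nat_lit 508) (nat_lit 1) (nat_lit 482) (nat_lit 1) (nat_lit 507) (nat_lit 1) (nat_lit 375) (nat_lit 393) (nat_lit 372)) (XT.nd (nat_lit 78) (nat_lit 0) (nat_lit 76) (XT.lf (nat_lit 1976) (nat_lit 3713841907) (nat_lit 76) (nat_lit 270904271) (nat_lit 0) (nat_lit 270904271) (nat_lit 508) (nat_lit 1) (nat_lit 483) (nat_lit 1) (nat_lit 482) (nat_lit 1) (nat_lit 376) (nat_lit 393) (nat_lit 371)) (XT.lf (nat_lit 1976) (nat_lit 1684057402) (nat_lit 0) (nat_lit 848542648) (nat_lit 1900) (nat_lit 1684057402) (nat_lit 509) (nat_lit 1) (nat_lit 483) (nat_lit 1) (nat_lit 508) (nat_lit 1) (nat_lit 377) (nat_lit 393) (nat_lit 370)))))) (XT.nd (nat_lit 468) (nat_lit 3572) (nat_lit 0) (XT.nd (nat_lit 234) (nat_lit 912) (nat_lit 0) (XT.nd (nat_lit 78) (nat_lit 1064) (nat_lit 0) (XT.lf (nat_lit 1976) (nat_lit 3023584147) (nat_lit 76) (nat_lit 577367708) (nat_lit 0) (nat_lit 577367708)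 (nat_lit 509) (nat_lit 1) (nat_lit 484) (nat_lit 1) (nat_lit 483) (nat_lit 1) (nat_lit 378) (nat_lit 393) (nat_lit 369)) (XT.nd (nat_lit 78) (nat_lit 1140) (nat_lit 0) (XT.lf (nat_lit 76) (nat_lit 1332892628) (nat_lit 0) (nat_lit 1474555519) (nat_lit 1900) (nat_lit 1332892628) (nat_lit 485) (nat_lit 1) (nat_lit 484) (nat_lit 1) (nat_lit 509) (nat_lit 1) (nat_lit 379) (nat_lit 393) (nat_lit 368)) (XT.lf (nat_lit 1216) (nat_lit 2305301007) (nat_lit 0) (nat_lit 898807723) (nat_lit 1140) (nat_lit 898807723) (nat_lit 485) (nat_lit 1) (nat_lit 469) (nat_lit 1) (nat_lit 484) (nat_lit 1) (nat_lit 380) (nat_lit 393) (nat_lit 367)))) (XT.nd (nat_lit 78) (nat_lit 912) (nat_lit 0) (XT.lf (nat_lit 76) (nat_lit 968309091) (nat_lit 0) (nat_lit 2129308408) (nat_lit 1216) (nat_lit 968309091) (nat_lit 470) (nat_lit 1) (nat_lit 469) (nat_lit 1) (nat_lit 485) (nat_lit 1) (nat_lit 381) (nat_lit 393) (nat_lit 366)) (XT.nd (nat_lit 78) (nat_lit 0) (nat_lit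 0) (XT.lf (nat_lit 988) (nat_lit 1561155825) (nat_lit 0) (nat_lit 1234115758) (nat_lit 912) (nat_lit 1234115758) (nat_lit 470) (nat_lit 1) (nat_lit 457) (nat_lit 1) (nat_lit 469) (nat_lit 1) (nat_lit 382) (nat_lit 393) (nat_lit 365)) (XT.lf (nat_lit 76) (nat_lit 591358347) (nat_lit 0) (nat_lit 2810645132) (nat_lit 988) (nat_lit 591358347) (nat_lit 458) (nat_lit 1) (nat_lit 457) (nat_lit 1) (nat_lit 470) (nat_lit 1) (nat_lit 383) (nat_lit 393) (nat_lit 364))))) (XT.nd (nat_lit 234) (nat_lit 1824) (nat_lit 0) (XT.nd (nat_lit 78) (nat_lit 836) (nat_lit 0) (XT.lf (nat_lit 988) (nat_lit 793206852) (nat_lit 0) (nat_lit 1582236635) (nat_lit 912) (nat_lit 1582236635) (nat_lit 458) (nat_lit 1) (nat_lit 445) (nat_lit 1) (nat_lit 457) (nat_lit 1) (nat_lit 384) (nat_lit 393) (nat_lit 363)) (XT.nd (nat_lit 78) (nat_lit 836) (nat_lit 0) (XT.lf (nat_lit 76) (nat_lit 203040716) (nat_lit 0) (nat_lit 3516513629) (nat_lit 988) (nat_lit 203040716) (nat_lit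 446) (nat_lit 1) (nat_lit 445) (nat_lit 1) (nat_lit 458) (nat_lit 1) (nat_lit 385) (nat_lit 393) (nat_lit 362)) (XT.lf (nat_lit 912) (nat_lit 3411748) (nat_lit 0) (nat_lit 1942166283) (nat_lit 836) (nat_lit 1942166283) (nat_lit 446) (nat_lit 1) (nat_lit 434) (nat_lit 1) (nat_lit 445) (nat_lit 1) (nat_lit 386) (nat_lit 393) (nat_lit 361)))) (XT.nd (nat_lit 78) (nat_lit 836) (nat_lit 0) (XT.lf (nat_lit 988) (nat_lit 3464664344) (nat_lit 0) (nat_lit 194405071) (nat_lit 912) (nat_lit 194405071) (nat_lit 434) (nat_lit 1) (nat_lit 421) (nat_lit 1) (nat_lit 433) (nat_lit 1) (nat_lit 387) (nat_lit 393) (nat_lit 360)) (XT.nd (nat_lit 78) (nat_lit 836) (nat_lit 0) (XT.lf (nat_lit 76) (nat_lit 1511816922) (nat_lit 0) (nat_lit 795792440) (nat_lit 988) (nat_lit 1511816922) (nat_lit 422) (nat_lit 1) (nat_lit 421) (nat_lit 1) (nat_lit 434) (nat_lit 1) (nat_lit 388) (nat_lit 393) (nat_lit 359)) (XT.lf (nat_lit 912) (nat_lit 2586015524) (nat_lit 0) (nat_lit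 599963756) (nat_lit 836) (nat_lit 599963756) (nat_lit 422) (nat_lit 1) (nat_lit 410) (nat_lit 1) (nat_lit 421) (nat_lit 1) (nat_lit 389) (nat_lit 393) (nat_lit 358))))))))
noncomputable def ec35 : XT := (XT.nd (nat_lit 1872) (nat_lit 6384) (nat_lit 0) (XT.nd (nat_lit 936) (nat_lit 4636) (nat_lit 0) (XT.nd (nat_lit 468) (nat_lit 2204) (nat_lit 0) (XT.nd (nat_lit 234) (nat_lit 1596) (nat_lit 0) (XT.nd (nat_lit 78) (nat_lit 836) (nat_lit 0) (XT.lf (nat_lit 76) (nat_lit 1069926012) (nat_lit 0) (nat_lit 1612928496) (nat_lit 912) (nat_lit 1069926012) (nat_lit 411) (nat_lit 1) (nat_lit 410) (nat_lit 1) (nat_lit 422) (nat_lit 1) (nat_lit 390) (nat_lit 393) (nat_lit 357)) (XT.nd (nat_lit 78) (nat_lit 0) (nat_lit 0) (XT.lf (nat_lit 912) (nat_lit 1691825458) (nat_lit 0) (nat_lit 1014117363) (nat_lit 836) (nat_lit 1014117363) (nat_lit 411) (nat_lit 1) (nat_lit 399) (nat_lit 1) (nat_lit 410) (nat_lit 1) (nat_lit 391) (nat_lit 393) (nat_lit 356)) (XT.lf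 (nat_lit 76) (nat_lit 620689792) (nat_lit 0) (nat_lit 2446382151) (nat_lit 912) (nat_lit 620689792) (nat_lit 400) (nat_lit 1) (nat_lit 399) (nat_lit 1) (nat_lit 411) (nat_lit 1) (nat_lit 392) (nat_lit 393) (nat_lit 355)))) (XT.nd (nat_lit 78) (nat_lit 836) (nat_lit 0) (XT.lf (nat_lit 836) (nat_lit 783671362) (nat_lit 0) (nat_lit 1436054822) (nat_lit 760) (nat_lit 1436054822) (nat_lit 400) (nat_lit 1) (nat_lit 389) (nat_lit 1) (nat_lit 399) (nat_lit 1) (nat_lit 393) (nat_lit 393) (nat_lit 354)) (XT.nd (nat_lit 78) (nat_lit 836) (nat_lit 0) (XT.lf (nat_lit 76) (nat_lit 164873967) (nat_lit 0) (nat_lit 3294577655) (nat_lit 836) (nat_lit 164873967) (nat_lit 390) (nat_lit 1) (nat_lit 389) (nat_lit 1) (nat_lit 400) (nat_lit 1) (nat_lit 394) (nat_lit 393) (nat_lit 353)) (XT.lf (nat_lit 76) (nat_lit 1728945201) (nat_lit 0) (nat_lit 135153763) (nat_lit 836) (nat_lit 1728945201) (nat_lit 379) (nat_lit 1) (nat_lit 378) (nat_lit 1) (nat_lit 389) (nat_lit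 1) (nat_lit 395) (nat_lit 393) (nat_lit 352))))) (XT.nd (nat_lit 234) (nat_lit 684) (nat_lit 0) (XT.nd (nat_lit 78) (nat_lit 760) (nat_lit 0) (XT.lf (nat_lit 836) (nat_lit 2972589808) (nat_lit 0) (nat_lit 294842309) (nat_lit 760) (nat_lit 294842309) (nat_lit 379) (nat_lit 1) (nat_lit 368) (nat_lit 1) (nat_lit 378) (nat_lit 1) (nat_lit 396) (nat_lit 393) (nat_lit 351)) (XT.nd (nat_lit 78) (nat_lit 760) (nat_lit 0) (XT.lf (nat_lit 76) (nat_lit 1238559443) (nat_lit 0) (nat_lit 1054603131) (nat_lit 836) (nat_lit 1238559443) (nat_lit 369) (nat_lit 1) (nat_lit 368) (nat_lit 1) (nat_lit 379) (nat_lit 1) (nat_lit 397) (nat_lit 393) (nat_lit 350)) (XT.lf (nat_lit 836) (nat_lit 1984424901) (nat_lit 0) (nat_lit 758603864) (nat_lit 760) (nat_lit 758603864) (nat_lit 369) (nat_lit 1) (nat_lit 358) (nat_lit 1) (nat_lit 368) (nat_lit 1) (nat_lit 398) (nat_lit 393) (nat_lit 349)))) (XT.nd (nat_lit 78) (nat_lit 684) (nat_lit 0) (XT.lf (nat_lit 76) (nat_lit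 744124848) (nat_lit 0) (nat_lit 1983625851) (nat_lit 836) (nat_lit 744124848) (nat_lit 359) (nat_lit 1) (nat_lit 358) (nat_lit 1) (nat_lit 369) (nat_lit 1) (nat_lit 399) (nat_lit 393) (nat_lit 348)) (XT.nd (nat_lit 78) (nat_lit 0) (nat_lit 0) (XT.lf (nat_lit 760) (nat_lit 988753247) (nat_lit 0) (nat_lit 1226846402) (nat_lit 684) (nat_lit 1226846402) (nat_lit 359) (nat_lit 1) (nat_lit 349) (nat_lit 1) (nat_lit 358) (nat_lit 1) (nat_lit 400) (nat_lit 393) (nat_lit 347)) (XT.lf (nat_lit 76) (nat_lit 246251405) (nat_lit 0) (nat_lit 2920962401) (nat_lit 760) (nat_lit 246251405) (nat_lit 350) (nat_lit 1) (nat_lit 349) (nat_lit 1) (nat_lit 359) (nat_lit 1) (nat_lit 401) (nat_lit 393) (nat_lit 346)))))) (XT.nd (nat_lit 468) (nat_lit 1900) (nat_lit 0) (XT.nd (nat_lit 234) (nat_lit 1292) (nat_lit 0) (XT.nd (nat_lit 78) (nat_lit 684) (nat_lit 0) (XT.lf (nat_lit 76) (nat_lit 1685806795) (nat_lit 0) (nat_lit 13060514) (nat_lit 760) (nat_lit 1685806795)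 (nat_lit 340) (nat_lit 1) (nat_lit 339) (nat_lit 1) (nat_lit 349) (nat_lit 1) (nat_lit 402) (nat_lit 393) (nat_lit 345)) (XT.nd (nat_lit 78) (nat_lit 0) (nat_lit 0) (XT.lf (nat_lit 760) (nat_lit 2850701568) (nat_lit 0) (nat_lit 252809228) (nat_lit 684) (nat_lit 252809228) (nat_lit 340) (nat_lit 1) (nat_lit 330) (nat_lit 1) (nat_lit 339) (nat_lit 1) (nat_lit 403) (nat_lit 393) (nat_lit 344)) (XT.lf (nat_lit 76) (nat_lit 1160562344) (nat_lit 0) (nat_lit 1007027044) (nat_lit 760) (nat_lit 1160562344) (nat_lit 331) (nat_lit 1) (nat_lit 330) (nat_lit 1) (nat_lit 340) (nat_lit 1) (nat_lit 404) (nat_lit 393) (nat_lit 343)))) (XT.nd (nat_lit 78) (nat_lit 608) (nat_lit 0) (XT.lf (nat_lit 760) (nat_lit 1795306493) (nat_lit 0) (nat_lit 752549681) (nat_lit 684) (nat_lit 752549681) (nat_lit 331) (nat_lit 1) (nat_lit 321) (nat_lit 1) (nat_lit 330) (nat_lit 1) (nat_lit 405) (nat_lit 393) (nat_lit 342)) (XT.nd (nat_lit 78) (nat_lit 608) (nat_lit 0) (XT.lf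 (nat_lit 76) (nat_lit 633954505) (nat_lit 0) (nat_lit 2005061880) (nat_lit 760) (nat_lit 633954505) (nat_lit 322) (nat_lit 1) (nat_lit 321) (nat_lit 1) (nat_lit 331) (nat_lit 1) (nat_lit 406) (nat_lit 393) (nat_lit 341)) (XT.lf (nat_lit 684) (nat_lit 737661459) (nat_lit 0) (nat_lit 1254076877) (nat_lit 608) (nat_lit 1254076877) (nat_lit 322) (nat_lit 1) (nat_lit 313) (nat_lit 1) (nat_lit 321) (nat_lit 1) (nat_lit 407) (nat_lit 393) (nat_lit 340))))) (XT.nd (nat_lit 234) (nat_lit 608) (nat_lit 0) (XT.nd (nat_lit 78) (nat_lit 1292) (nat_lit 0) (XT.lf (nat_lit 76) (nat_lit 106462871) (nat_lit 0) (nat_lit 3006170471) (nat_lit 684) (nat_lit 106462871) (nat_lit 314) (nat_lit 1) (nat_lit 313) (nat_lit 1) (nat_lit 322) (nat_lit 1) (nat_lit 408) (nat_lit 393) (nat_lit 339)) (XT.nd (nat_lit 78) (nat_lit 608) (nat_lit 0) (XT.lf (nat_lit 76) (nat_lit 1437693506) (nat_lit 0) (nat_lit 317084588) (nat_lit 684) (nat_lit 1437693506) (nat_lit 305) (nat_lit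 1) (nat_lit 304) (nat_lit 1) (nat_lit 313) (nat_lit 1) (nat_lit 409) (nat_lit 393) (nat_lit 338)) (XT.lf (nat_lit 684) (nat_lit 2328899362) (nat_lit 0) (nat_lit 418687189) (nat_lit 608) (nat_lit 418687189) (nat_lit 305) (nat_lit 1) (nat_lit 296) (nat_lit 1) (nat_lit 304) (nat_lit 1) (nat_lit 410) (nat_lit 393) (nat_lit 337)))) (XT.nd (nat_lit 78) (nat_lit 608) (nat_lit 0) (XT.lf (nat_lit 76) (nat_lit 888851990) (nat_lit 0) (nat_lit 1362583167) (nat_lit 684) (nat_lit 888851990) (nat_lit 297) (nat_lit 1) (nat_lit 296) (nat_lit 1) (nat_lit 305) (nat_lit 1) (nat_lit 411) (nat_lit 393) (nat_lit 336)) (XT.nd (nat_lit 78) (nat_lit 0) (nat_lit 0) (XT.lf (nat_lit 684) (nat_lit 1228351988) (nat_lit 0) (nat_lit 943141168) (nat_lit 608) (nat_lit 943141168) (nat_lit 297) (nat_lit 1) (nat_lit 288) (nat_lit 1) (nat_lit 296) (nat_lit 1) (nat_lit 412) (nat_lit 393) (nat_lit 335)) (XT.lf (nat_lit 76) (nat_lit 340818411) (nat_lit 0) (nat_lit 2407688170)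 (nat_lit 684) (nat_lit 340818411) (nat_lit 289) (nat_lit 1) (nat_lit 288) (nat_lit 1) (nat_lit 297) (nat_lit 1) (nat_lit 413) (nat_lit 393) (nat_lit 334))))))) (XT.nd (nat_lit 936) (nat_lit 1900) (nat_lit 0) (XT.nd (nat_lit 468) (nat_lit 2204) (nat_lit 0) (XT.nd (nat_lit 234) (nat_lit 1064) (nat_lit 0) (XT.nd (nat_lit 78) (nat_lit 684) (nat_lit 0) (XT.lf (nat_lit 608) (nat_lit 129801507) (nat_lit 0) (nat_lit 1467199912) (nat_lit 532) (nat_lit 1467199912) (nat_lit 289) (nat_lit 1) (nat_lit 281) (nat_lit 1) (nat_lit 288) (nat_lit 1) (nat_lit 414) (nat_lit 393) (nat_lit 333)) (XT.nd (nat_lit 78) (nat_lit 0) (nat_lit 0) (XT.lf (nat_lit 684) (nat_lit 2630083949) (nat_lit 0) (nat_lit 204681055) (nat_lit 608) (nat_lit 204681055) (nat_lit 281) (nat_lit 1) (nat_lit 272) (nat_lit 1) (nat_lit 280) (nat_lit 1) (nat_lit 415) (nat_lit 393) (nat_lit 332)) (XT.lf (nat_lit 76) (nat_lit 1030728491) (nat_lit 0) (nat_lit 953361154) (nat_lit 684) (nat_lit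 1030728491) (nat_lit 273) (nat_lit 1) (nat_lit 272) (nat_lit 1) (nat_lit 281) (nat_lit 1) (nat_lit 416) (nat_lit 393) (nat_lit 331)))) (XT.nd (nat_lit 78) (nat_lit 532) (nat_lit 0) (XT.lf (nat_lit 608) (nat_lit 1497707451) (nat_lit 0) (nat_lit 746421339) (nat_lit 532) (nat_lit 746421339) (nat_lit 273) (nat_lit 1) (nat_lit 265) (nat_lit 1) (nat_lit 272) (nat_lit 1) (nat_lit 417) (nat_lit 393) (nat_lit 330)) (XT.nd (nat_lit 78) (nat_lit 532) (nat_lit 0) (XT.lf (nat_lit 76) (nat_lit 467546619) (nat_lit 0) (nat_lit 2031470246) (nat_lit 608) (nat_lit 467546619) (nat_lit 266) (nat_lit 1) (nat_lit 265) (nat_lit 1) (nat_lit 273) (nat_lit 1) (nat_lit 418) (nat_lit 393) (nat_lit 329)) (XT.lf (nat_lit 608) (nat_lit 370145743) (nat_lit 0) (nat_lit 1286319683) (nat_lit 532) (nat_lit 1286319683) (nat_lit 266) (nat_lit 1) (nat_lit 258) (nat_lit 1) (nat_lit 265) (nat_lit 1) (nat_lit 419) (nat_lit 393) (nat_lit 328))))) (XT.nd (nat_lit 234) (nat_lit 1064)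 (nat_lit 0) (XT.nd (nat_lit 78) (nat_lit 532) (nat_lit 0) (XT.lf (nat_lit 608) (nat_lit 2734425591) (nat_lit 0) (nat_lit 92475403) (nat_lit 532) (nat_lit 92475403) (nat_lit 258) (nat_lit 1) (nat_lit 250) (nat_lit 1) (nat_lit 257) (nat_lit 1) (nat_lit 420) (nat_lit 393) (nat_lit 327)) (XT.nd (nat_lit 78) (nat_lit 532) (nat_lit 0) (XT.lf (nat_lit 76) (nat_lit 1076933505) (nat_lit 0) (nat_lit 742157474) (nat_lit 608) (nat_lit 1076933505) (nat_lit 251) (nat_lit 1) (nat_lit 250) (nat_lit 1) (nat_lit 258) (nat_lit 1) (nat_lit 421) (nat_lit 393) (nat_lit 326)) (XT.lf (nat_lit 608) (nat_lit 1579809315) (nat_lit 0) (nat_lit 646612699) (nat_lit 532) (nat_lit 646612699) (nat_lit 251) (nat_lit 1) (nat_lit 243) (nat_lit 1) (nat_lit 250) (nat_lit 1) (nat_lit 422) (nat_lit 393) (nat_lit 325)))) (XT.nd (nat_lit 78) (nat_lit 1064) (nat_lit 0) (XT.lf (nat_lit 76) (nat_lit 503272670) (nat_lit 0) (nat_lit 1843745240) (nat_lit 608) (nat_lit 503272670) (nat_lit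 244) (nat_lit 1) (nat_lit 243) (nat_lit 1) (nat_lit 251) (nat_lit 1) (nat_lit 423) (nat_lit 393) (nat_lit 324)) (XT.nd (nat_lit 78) (nat_lit 608) (nat_lit 0) (XT.lf (nat_lit 532) (nat_lit 432391933) (nat_lit 0) (nat_lit 1197681318) (nat_lit 456) (nat_lit 1197681318) (nat_lit 244) (nat_lit 1) (nat_lit 237) (nat_lit 1) (nat_lit 243) (nat_lit 1) (nat_lit 424) (nat_lit 393) (nat_lit 323)) (XT.lf (nat_lit 608) (nat_lit 2673079868) (nat_lit 0) (nat_lit 66244835) (nat_lit 532) (nat_lit 66244835) (nat_lit 237) (nat_lit 1) (nat_lit 229) (nat_lit 1) (nat_lit 236) (nat_lit 1) (nat_lit 425) (nat_lit 393) (nat_lit 322)))))) (XT.nd (nat_lit 468) (nat_lit 456) (nat_lit 0) (XT.nd (nat_lit 234) (nat_lit 988) (nat_lit 0) (XT.nd (nat_lit 78) (nat_lit 456) (nat_lit 0) (XT.lf (nat_lit 76) (nat_lit 1042663243) (nat_lit 0) (nat_lit 698090870) (nat_lit 608) (nat_lit 1042663243) (nat_lit 230) (nat_lit 1) (nat_lit 229) (nat_lit 1) (nat_lit 237) (nat_lit 1) (nat_lit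 426) (nat_lit 393) (nat_lit 321)) (XT.nd (nat_lit 78) (nat_lit 0) (nat_lit 0) (XT.lf (nat_lit 532) (nat_lit 1504504977) (nat_lit 0) (nat_lit 628552250) (nat_lit 456) (nat_lit 628552250) (nat_lit 230) (nat_lit 1) (nat_lit 223) (nat_lit 1) (nat_lit 229) (nat_lit 1) (nat_lit 427) (nat_lit 393) (nat_lit 320)) (XT.lf (nat_lit 76) (nat_lit 462554257) (nat_lit 0) (nat_lit 1814925322) (nat_lit 532) (nat_lit 462554257) (nat_lit 224) (nat_lit 1) (nat_lit 223) (nat_lit 1) (nat_lit 230) (nat_lit 1) (nat_lit 428) (nat_lit 393) (nat_lit 319)))) (XT.nd (nat_lit 78) (nat_lit 532) (nat_lit 0) (XT.lf (nat_lit 532) (nat_lit 345132471) (nat_lit 0) (nat_lit 1186757328) (nat_lit 456) (nat_lit 1186757328) (nat_lit 224) (nat_lit 1) (nat_lit 217) (nat_lit 1) (nat_lit 223) (nat_lit 1) (nat_lit 429) (nat_lit 393) (nat_lit 318)) (XT.nd (nat_lit 78) (nat_lit 0) (nat_lit 0) (XT.lf (nat_lit 532) (nat_lit 2473304225) (nat_lit 0) (nat_lit 112135947) (nat_lit 456) (nat_lit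 112135947) (nat_lit 217) (nat_lit 1) (nat_lit 210) (nat_lit 1) (nat_lit 216) (nat_lit 1) (nat_lit 430) (nat_lit 393) (nat_lit 317)) (XT.lf (nat_lit 76) (nat_lit 941210541) (nat_lit 0) (nat_lit 794132081) (nat_lit 532) (nat_lit 941210541) (nat_lit 211) (nat_lit 1) (nat_lit 210) (nat_lit 1) (nat_lit 217) (nat_lit 1) (nat_lit 431) (nat_lit 393) (nat_lit 316))))) (XT.nd (nat_lit 53196) (nat_lit 0) (nat_lit 22268) (XT.nd (nat_lit 78) (nat_lit 0) (nat_lit 0) (XT.lf (nat_lit 532) (nat_lit 1297899333) (nat_lit 0) (nat_lit 678970325) (nat_lit 456) (nat_lit 678970325) (nat_lit 211) (nat_lit 1) (nat_lit 204) (nat_lit 1) (nat_lit 210) (nat_lit 1) (nat_lit 432) (nat_lit 393) (nat_lit 315)) (XT.nd (nat_lit 53040) (nat_lit 0) (nat_lit 22268) (XT.lf (nat_lit 76) (nat_lit 358121716) (nat_lit 0) (nat_lit 1919120971) (nat_lit 532) (nat_lit 358121716) (nat_lit 205) (nat_lit 1) (nat_lit 204) (nat_lit 1) (nat_lit 211) (nat_lit 1) (nat_lit 433) (nat_lit 393)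 (nat_lit 314)) (XT.lf (nat_lit 1900) (nat_lit 889995396) (nat_lit 0) (nat_lit 897437827) (nat_lit 1900) (nat_lit 889995396) (nat_lit 522) (nat_lit 1) (nat_lit 497) (nat_lit 0) (nat_lit 522) (nat_lit 0) (nat_lit 352) (nat_lit 394) (nat_lit 394)))) (XT.nd (nat_lit 156) (nat_lit 0) (nat_lit 76) (XT.nd (nat_lit 78) (nat_lit 0) (nat_lit 76) (XT.lf (nat_lit 1900) (nat_lit 3519175607) (nat_lit 76) (nat_lit 891533631) (nat_lit 0) (nat_lit 891533631) (nat_lit 522) (nat_lit 1) (nat_lit 498) (nat_lit 1) (nat_lit 497) (nat_lit 0) (nat_lit 353) (nat_lit 394) (nat_lit 393)) (XT.lf (nat_lit 1900) (nat_lit 1727931974) (nat_lit 0) (nat_lit 1794339229) (nat_lit 1824) (nat_lit 1727931974) (nat_lit 523) (nat_lit 1) (nat_lit 498) (nat_lit 1) (nat_lit 522) (nat_lit 1) (nat_lit 354) (nat_lit 394) (nat_lit 392))) (XT.nd (nat_lit 78) (nat_lit 0) (nat_lit 76) (XT.lf (nat_lit 1900) (nat_lit 3381988833) (nat_lit 76) (nat_lit 908481786) (nat_lit 0) (nat_lit 908481786)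 (nat_lit 523) (nat_lit 1) (nat_lit 499) (nat_lit 1) (nat_lit 498) (nat_lit 1) (nat_lit 355) (nat_lit 394) (nat_lit 391)) (XT.lf (nat_lit 1900) (nat_lit 1643582485) (nat_lit 0) (nat_lit 1861102416) (nat_lit 1824) (nat_lit 1643582485) (nat_lit 524) (nat_lit 1) (nat_lit 499) (nat_lit 1) (nat_lit 523) (nat_lit 1) (nat_lit 356) (nat_lit 394) (nat_lit 390))))))))
noncomputable def ec36 : XT := (XT.nd (nat_lit 1872) (nat_lit 10336) (nat_lit 0) (XT.nd (nat_lit 936) (nat_lit 3192) (nat_lit 0) (XT.nd (nat_lit 468) (nat_lit 0) (nat_lit 228) (XT.nd (nat_lit 234) (nat_lit 0) (nat_lit 152) (XT.nd (nat_lit 78) (nat_lit 0) (nat_lit 76) (XT.lf (nat_lit 1900) (nat_lit 3181956306) (nat_lit 76) (nat_lit 958189903) (nat_lit 0) (nat_lit 958189903) (nat_lit 524) (nat_lit 1) (nat_lit 500) (nat_lit 1) (nat_lit 499) (nat_lit 1) (nat_lit 357) (nat_lit 394) (nat_lit 389)) (XT.nd (nat_lit 78) (nat_lit 0) (nat_lit 0) (XT.lf (nat_lit 1900) (nat_lit 1528868999) (nat_lit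 0) (nat_lit 1991232698) (nat_lit 1824) (nat_lit 1528868999) (nat_lit 525) (nat_lit 1) (nat_lit 500) (nat_lit 1) (nat_lit 524) (nat_lit 1) (nat_lit 358) (nat_lit 394) (nat_lit 388)) (XT.lf (nat_lit 1900) (nat_lit 2922855128) (nat_lit 76) (nat_lit 1038730616) (nat_lit 0) (nat_lit 1038730616) (nat_lit 525) (nat_lit 1) (nat_lit 501) (nat_lit 1) (nat_lit 500) (nat_lit 1) (nat_lit 359) (nat_lit 394) (nat_lit 387)))) (XT.nd (nat_lit 78) (nat_lit 0) (nat_lit 0) (XT.lf (nat_lit 1900) (nat_lit 1385630181) (nat_lit 0) (nat_lit 2180976127) (nat_lit 1824) (nat_lit 1385630181) (nat_lit 526) (nat_lit 1) (nat_lit 501) (nat_lit 1) (nat_lit 525) (nat_lit 1) (nat_lit 360) (nat_lit 394) (nat_lit 386)) (XT.nd (nat_lit 78) (nat_lit 0) (nat_lit 76) (XT.lf (nat_lit 1900) (nat_lit 2608289517) (nat_lit 76) (nat_lit 1148264250) (nat_lit 0) (nat_lit 1148264250) (nat_lit 526) (nat_lit 1) (nat_lit 502) (nat_lit 1) (nat_lit 501) (nat_lit 1) (nat_lit 361) (nat_lit 394)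 (nat_lit 385)) (XT.lf (nat_lit 1900) (nat_lit 1215620369) (nat_lit 0) (nat_lit 2426749888) (nat_lit 1824) (nat_lit 1215620369) (nat_lit 527) (nat_lit 1) (nat_lit 502) (nat_lit 1) (nat_lit 526) (nat_lit 1) (nat_lit 362) (nat_lit 394) (nat_lit 384))))) (XT.nd (nat_lit 234) (nat_lit 0) (nat_lit 152) (XT.nd (nat_lit 78) (nat_lit 0) (nat_lit 76) (XT.lf (nat_lit 1900) (nat_lit 2241698044) (nat_lit 76) (nat_lit 1285035162) (nat_lit 0) (nat_lit 1285035162) (nat_lit 527) (nat_lit 1) (nat_lit 503) (nat_lit 1) (nat_lit 502) (nat_lit 1) (nat_lit 363) (nat_lit 394) (nat_lit 383)) (XT.nd (nat_lit 78) (nat_lit 0) (nat_lit 0) (XT.lf (nat_lit 1900) (nat_lit 1020513095) (nat_lit 0) (nat_lit 2725135149) (nat_lit 1824) (nat_lit 1020513095) (nat_lit 528) (nat_lit 1) (nat_lit 503) (nat_lit 1) (nat_lit 527) (nat_lit 1) (nat_lit 364) (nat_lit 394) (nat_lit 382)) (XT.lf (nat_lit 1900) (nat_lit 1826360558) (nat_lit 76) (nat_lit 1447368233) (nat_lit 0) (nat_lit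 1447368233) (nat_lit 528) (nat_lit 1) (nat_lit 504) (nat_lit 1) (nat_lit 503) (nat_lit 1) (nat_lit 365) (nat_lit 394) (nat_lit 381)))) (XT.nd (nat_lit 78) (nat_lit 0) (nat_lit 0) (XT.lf (nat_lit 1900) (nat_lit 801904477) (nat_lit 0) (nat_lit 3072870213) (nat_lit 1824) (nat_lit 801904477) (nat_lit 529) (nat_lit 1) (nat_lit 504) (nat_lit 1) (nat_lit 528) (nat_lit 1) (nat_lit 366) (nat_lit 394) (nat_lit 380)) (XT.nd (nat_lit 78) (nat_lit 0) (nat_lit 76) (XT.lf (nat_lit 1900) (nat_lit 1365404854) (nat_lit 76) (nat_lit 1633665497) (nat_lit 0) (nat_lit 1633665497) (nat_lit 529) (nat_lit 1) (nat_lit 505) (nat_lit 1) (nat_lit 504) (nat_lit 1) (nat_lit 367) (nat_lit 394) (nat_lit 379)) (XT.lf (nat_lit 1900) (nat_lit 561316464) (nat_lit 0) (nat_lit 3466843934) (nat_lit 1824) (nat_lit 561316464) (nat_lit 530) (nat_lit 1) (nat_lit 505) (nat_lit 1) (nat_lit 529) (nat_lit 1) (nat_lit 368) (nat_lit 394) (nat_lit 378)))))) (XT.nd (nat_lit 468) (nat_lit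 1900) (nat_lit 0) (XT.nd (nat_lit 234) (nat_lit 1748) (nat_lit 0) (XT.nd (nat_lit 78) (nat_lit 0) (nat_lit 76) (XT.lf (nat_lit 1900) (nat_lit 861813053) (nat_lit 76) (nat_lit 1842402909) (nat_lit 0) (nat_lit 1842402909) (nat_lit 530) (nat_lit 1) (nat_lit 506) (nat_lit 1) (nat_lit 505) (nat_lit 1) (nat_lit 369) (nat_lit 394) (nat_lit 377)) (XT.nd (nat_lit 78) (nat_lit 0) (nat_lit 0) (XT.lf (nat_lit 1900) (nat_lit 300199961) (nat_lit 0) (nat_lit 3904089404) (nat_lit 1824) (nat_lit 300199961) (nat_lit 531) (nat_lit 1) (nat_lit 506) (nat_lit 1) (nat_lit 530) (nat_lit 1) (nat_lit 370) (nat_lit 394) (nat_lit 376)) (XT.lf (nat_lit 1900) (nat_lit 318427740) (nat_lit 76) (nat_lit 2072127243) (nat_lit 0) (nat_lit 2072127243) (nat_lit 531) (nat_lit 1) (nat_lit 507) (nat_lit 1) (nat_lit 506) (nat_lit 1) (nat_lit 371) (nat_lit 394) (nat_lit 375)))) (XT.nd (nat_lit 78) (nat_lit 1900) (nat_lit 0) (XT.lf (nat_lit 1900) (nat_lit 19937815) (nat_lit 0)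 (nat_lit 4381777893) (nat_lit 1824) (nat_lit 19937815) (nat_lit 532) (nat_lit 1) (nat_lit 507) (nat_lit 1) (nat_lit 531) (nat_lit 1) (nat_lit 372) (nat_lit 394) (nat_lit 374)) (XT.nd (nat_lit 78) (nat_lit 0) (nat_lit 0) (XT.lf (nat_lit 1976) (nat_lit 2061112303) (nat_lit 0) (nat_lit 258605427) (nat_lit 1900) (nat_lit 2061112303) (nat_lit 508) (nat_lit 1) (nat_lit 482) (nat_lit 1) (nat_lit 507) (nat_lit 1) (nat_lit 373) (nat_lit 394) (nat_lit 373)) (XT.lf (nat_lit 1976) (nat_lit 3788118745) (nat_lit 76) (nat_lit 276322356) (nat_lit 0) (nat_lit 276322356) (nat_lit 508) (nat_lit 1) (nat_lit 483) (nat_lit 1) (nat_lit 482) (nat_lit 1) (nat_lit 374) (nat_lit 394) (nat_lit 372))))) (XT.nd (nat_lit 234) (nat_lit 1976) (nat_lit 0) (XT.nd (nat_lit 78) (nat_lit 0) (nat_lit 0) (XT.lf (nat_lit 1976) (nat_lit 1717738550) (nat_lit 0) (nat_lit 865513501) (nat_lit 1900) (nat_lit 1717738550) (nat_lit 509) (nat_lit 1) (nat_lit 483) (nat_lit 1) (nat_lit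 508) (nat_lit 1) (nat_lit 375) (nat_lit 394) (nat_lit 371)) (XT.nd (nat_lit 78) (nat_lit 0) (nat_lit 76) (XT.lf (nat_lit 1976) (nat_lit 3084055829) (nat_lit 76) (nat_lit 588915062) (nat_lit 0) (nat_lit 588915062) (nat_lit 509) (nat_lit 1) (nat_lit 484) (nat_lit 1) (nat_lit 483) (nat_lit 1) (nat_lit 376) (nat_lit 394) (nat_lit 370)) (XT.lf (nat_lit 76) (nat_lit 1359550480) (nat_lit 0) (nat_lit 1504046630) (nat_lit 1900) (nat_lit 1359550480) (nat_lit 485) (nat_lit 1) (nat_lit 484) (nat_lit 1) (nat_lit 509) (nat_lit 1) (nat_lit 377) (nat_lit 394) (nat_lit 369)))) (XT.nd (nat_lit 78) (nat_lit 912) (nat_lit 0) (XT.lf (nat_lit 1216) (nat_lit 2351407027) (nat_lit 0) (nat_lit 916783877) (nat_lit 1140) (nat_lit 916783877) (nat_lit 485) (nat_lit 1) (nat_lit 469) (nat_lit 1) (nat_lit 484) (nat_lit 1) (nat_lit 378) (nat_lit 394) (nat_lit 368)) (XT.nd (nat_lit 78) (nat_lit 912) (nat_lit 0) (XT.lf (nat_lit 76) (nat_lit 987675273) (nat_lit 0) (nat_lit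 2171894576) (nat_lit 1216) (nat_lit 987675273) (nat_lit 470) (nat_lit 1) (nat_lit 469) (nat_lit 1) (nat_lit 485) (nat_lit 1) (nat_lit 379) (nat_lit 394) (nat_lit 367)) (XT.lf (nat_lit 988) (nat_lit 1592378941) (nat_lit 0) (nat_lit 1258798073) (nat_lit 912) (nat_lit 1258798073) (nat_lit 470) (nat_lit 1) (nat_lit 457) (nat_lit 1) (nat_lit 469) (nat_lit 1) (nat_lit 380) (nat_lit 394) (nat_lit 366))))))) (XT.nd (nat_lit 936) (nat_lit 5168) (nat_lit 0) (XT.nd (nat_lit 468) (nat_lit 2432) (nat_lit 0) (XT.nd (nat_lit 234) (nat_lit 1824) (nat_lit 0) (XT.nd (nat_lit 78) (nat_lit 912) (nat_lit 0) (XT.lf (nat_lit 76) (nat_lit 603185514) (nat_lit 0) (nat_lit 2866858034) (nat_lit 988) (nat_lit 603185514) (nat_lit 458) (nat_lit 1) (nat_lit 457) (nat_lit 1) (nat_lit 470) (nat_lit 1) (nat_lit 381) (nat_lit 394) (nat_lit 365)) (XT.nd (nat_lit 78) (nat_lit 0) (nat_lit 0) (XT.lf (nat_lit 988) (nat_lit 809070989) (nat_lit 0) (nat_lit 1613881368) (nat_lit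 912) (nat_lit 1613881368) (nat_lit 458) (nat_lit 1) (nat_lit 445) (nat_lit 1) (nat_lit 457) (nat_lit 1) (nat_lit 382) (nat_lit 394) (nat_lit 364)) (XT.lf (nat_lit 76) (nat_lit 207101530) (nat_lit 0) (nat_lit 3586843901) (nat_lit 988) (nat_lit 207101530) (nat_lit 446) (nat_lit 1) (nat_lit 445) (nat_lit 1) (nat_lit 458) (nat_lit 1) (nat_lit 383) (nat_lit 394) (nat_lit 363)))) (XT.nd (nat_lit 78) (nat_lit 988) (nat_lit 0) (XT.lf (nat_lit 912) (nat_lit 3479983) (nat_lit 0) (nat_lit 1981009608) (nat_lit 836) (nat_lit 1981009608) (nat_lit 446) (nat_lit 1) (nat_lit 434) (nat_lit 1) (nat_lit 445) (nat_lit 1) (nat_lit 384) (nat_lit 394) (nat_lit 362)) (XT.nd (nat_lit 78) (nat_lit 0) (nat_lit 0) (XT.lf (nat_lit 988) (nat_lit 3533957631) (nat_lit 0) (nat_lit 198293173) (nat_lit 912) (nat_lit 198293173) (nat_lit 434) (nat_lit 1) (nat_lit 421) (nat_lit 1) (nat_lit 433) (nat_lit 1) (nat_lit 385) (nat_lit 394) (nat_lit 361)) (XT.lf (nat_lit 76) (nat_lit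 1542053260) (nat_lit 0) (nat_lit 811708289) (nat_lit 988) (nat_lit 1542053260) (nat_lit 422) (nat_lit 1) (nat_lit 421) (nat_lit 1) (nat_lit 434) (nat_lit 1) (nat_lit 386) (nat_lit 394) (nat_lit 360))))) (XT.nd (nat_lit 234) (nat_lit 760) (nat_lit 0) (XT.nd (nat_lit 78) (nat_lit 836) (nat_lit 0) (XT.lf (nat_lit 912) (nat_lit 2637735834) (nat_lit 0) (nat_lit 611963031) (nat_lit 836) (nat_lit 611963031) (nat_lit 422) (nat_lit 1) (nat_lit 410) (nat_lit 1) (nat_lit 421) (nat_lit 1) (nat_lit 387) (nat_lit 394) (nat_lit 359)) (XT.nd (nat_lit 78) (nat_lit 836) (nat_lit 0) (XT.lf (nat_lit 76) (nat_lit 1091324532) (nat_lit 0) (nat_lit 1645187066) (nat_lit 912) (nat_lit 1091324532) (nat_lit 411) (nat_lit 1) (nat_lit 410) (nat_lit 1) (nat_lit 422) (nat_lit 1) (nat_lit 388) (nat_lit 394) (nat_lit 358)) (XT.lf (nat_lit 912) (nat_lit 1725661967) (nat_lit 0) (nat_lit 1034399711) (nat_lit 836) (nat_lit 1034399711) (nat_lit 411) (nat_lit 1) (nat_lit 399)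 (nat_lit 1) (nat_lit 410) (nat_lit 1) (nat_lit 389) (nat_lit 394) (nat_lit 357)))) (XT.nd (nat_lit 78) (nat_lit 760) (nat_lit 0) (XT.lf (nat_lit 76) (nat_lit 633103587) (nat_lit 0) (nat_lit 2495309794) (nat_lit 912) (nat_lit 633103587) (nat_lit 400) (nat_lit 1) (nat_lit 399) (nat_lit 1) (nat_lit 411) (nat_lit 1) (nat_lit 390) (nat_lit 394) (nat_lit 356)) (XT.nd (nat_lit 78) (nat_lit 0) (nat_lit 0) (XT.lf (nat_lit 836) (nat_lit 799344789) (nat_lit 0) (nat_lit 1464775919) (nat_lit 760) (nat_lit 1464775919) (nat_lit 400) (nat_lit 1) (nat_lit 389) (nat_lit 1) (nat_lit 399) (nat_lit 1) (nat_lit 391) (nat_lit 394) (nat_lit 355)) (XT.lf (nat_lit 76) (nat_lit 168171447) (nat_lit 0) (nat_lit 3360469208) (nat_lit 836) (nat_lit 168171447) (nat_lit 390) (nat_lit 1) (nat_lit 389) (nat_lit 1) (nat_lit 400) (nat_lit 1) (nat_lit 392) (nat_lit 394) (nat_lit 354)))))) (XT.nd (nat_lit 468) (nat_lit 2128) (nat_lit 0) (XT.nd (nat_lit 234) (nat_lit 1444) (nat_lit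 0) (XT.nd (nat_lit 78) (nat_lit 760) (nat_lit 0) (XT.lf (nat_lit 76) (nat_lit 1763524105) (nat_lit 0) (nat_lit 137856838) (nat_lit 836) (nat_lit 1763524105) (nat_lit 379) (nat_lit 1) (nat_lit 378) (nat_lit 1) (nat_lit 389) (nat_lit 1) (nat_lit 393) (nat_lit 394) (nat_lit 353)) (XT.nd (nat_lit 78) (nat_lit 0) (nat_lit 0) (XT.lf (nat_lit 836) (nat_lit 3032041604) (nat_lit 0) (nat_lit 300739156) (nat_lit 760) (nat_lit 300739156) (nat_lit 379) (nat_lit 1) (nat_lit 368) (nat_lit 1) (nat_lit 378) (nat_lit 1) (nat_lit 394) (nat_lit 394) (nat_lit 352)) (XT.lf (nat_lit 76) (nat_lit 1263330632) (nat_lit 0) (nat_lit 1075695193) (nat_lit 836) (nat_lit 1263330632) (nat_lit 369) (nat_lit 1) (nat_lit 368) (nat_lit 1) (nat_lit 379) (nat_lit 1) (nat_lit 395) (nat_lit 394) (nat_lit 351)))) (XT.nd (nat_lit 78) (nat_lit 684) (nat_lit 0) (XT.lf (nat_lit 836) (nat_lit 2024113399) (nat_lit 0) (nat_lit 773775941) (nat_lit 760) (nat_lit 773775941) (nat_lit 369)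 (nat_lit 1) (nat_lit 358) (nat_lit 1) (nat_lit 368) (nat_lit 1) (nat_lit 396) (nat_lit 394) (nat_lit 350)) (XT.nd (nat_lit 78) (nat_lit 684) (nat_lit 0) (XT.lf (nat_lit 76) (nat_lit 759007345) (nat_lit 0) (nat_lit 2023298368) (nat_lit 836) (nat_lit 759007345) (nat_lit 359) (nat_lit 1) (nat_lit 358) (nat_lit 1) (nat_lit 369) (nat_lit 1) (nat_lit 397) (nat_lit 394) (nat_lit 349)) (XT.lf (nat_lit 760) (nat_lit 1008528312) (nat_lit 0) (nat_lit 1251383330) (nat_lit 684) (nat_lit 1251383330) (nat_lit 359) (nat_lit 1) (nat_lit 349) (nat_lit 1) (nat_lit 358) (nat_lit 1) (nat_lit 398) (nat_lit 394) (nat_lit 348))))) (XT.nd (nat_lit 234) (nat_lit 684) (nat_lit 0) (XT.nd (nat_lit 78) (nat_lit 1444) (nat_lit 0) (XT.lf (nat_lit 76) (nat_lit 251176433) (nat_lit 0) (nat_lit 2979381649) (nat_lit 760) (nat_lit 251176433) (nat_lit 350) (nat_lit 1) (nat_lit 349) (nat_lit 1) (nat_lit 359) (nat_lit 1) (nat_lit 399) (nat_lit 394) (nat_lit 347)) (XT.nd (nat_lit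 78) (nat_lit 684) (nat_lit 0) (XT.lf (nat_lit 76) (nat_lit 1719522930) (nat_lit 0) (nat_lit 13321725) (nat_lit 760) (nat_lit 1719522930) (nat_lit 340) (nat_lit 1) (nat_lit 339) (nat_lit 1) (nat_lit 349) (nat_lit 1) (nat_lit 400) (nat_lit 394) (nat_lit 346)) (XT.lf (nat_lit 760) (nat_lit 2907715599) (nat_lit 0) (nat_lit 257865412) (nat_lit 684) (nat_lit 257865412) (nat_lit 340) (nat_lit 1) (nat_lit 330) (nat_lit 1) (nat_lit 339) (nat_lit 1) (nat_lit 401) (nat_lit 394) (nat_lit 345)))) (XT.nd (nat_lit 78) (nat_lit 684) (nat_lit 0) (XT.lf (nat_lit 76) (nat_lit 1183773591) (nat_lit 0) (nat_lit 1027167585) (nat_lit 760) (nat_lit 1183773591) (nat_lit 331) (nat_lit 1) (nat_lit 330) (nat_lit 1) (nat_lit 340) (nat_lit 1) (nat_lit 402) (nat_lit 394) (nat_lit 344)) (XT.nd (nat_lit 78) (nat_lit 0) (nat_lit 0) (XT.lf (nat_lit 760) (nat_lit 1831212623) (nat_lit 0) (nat_lit 767600675) (nat_lit 684) (nat_lit 767600675) (nat_lit 331) (nat_lit 1) (nat_lit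 321) (nat_lit 1) (nat_lit 330) (nat_lit 1) (nat_lit 403) (nat_lit 394) (nat_lit 343)) (XT.lf (nat_lit 76) (nat_lit 646633595) (nat_lit 0) (nat_lit 2045163117) (nat_lit 760) (nat_lit 646633595) (nat_lit 322) (nat_lit 1) (nat_lit 321) (nat_lit 1) (nat_lit 331) (nat_lit 1) (nat_lit 404) (nat_lit 394) (nat_lit 342))))))))
noncomputable def ec37 : XT := (XT.nd (nat_lit 1872) (nat_lit 1368) (nat_lit 0) (XT.nd (nat_lit 936) (nat_lit 4180) (nat_lit 0) (XT.nd (nat_lit 468) (nat_lit 1748) (nat_lit 0) (XT.nd (nat_lit 234) (nat_lit 1216) (nat_lit 0) (XT.nd (nat_lit 78) (nat_lit 684) (nat_lit 0) (XT.lf (nat_lit 684) (nat_lit 752414688) (nat_lit 0) (nat_lit 1279158415) (nat_lit 608) (nat_lit 1279158415) (nat_lit 322) (nat_lit 1) (nat_lit 313) (nat_lit 1) (nat_lit 321) (nat_lit 1) (nat_lit 405) (nat_lit 394) (nat_lit 341)) (XT.nd (nat_lit 78) (nat_lit 684) (nat_lit 0) (XT.lf (nat_lit 76) (nat_lit 108592128) (nat_lit 0) (nat_lit 3066293881) (nat_lit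 684) (nat_lit 108592128) (nat_lit 314) (nat_lit 1) (nat_lit 313) (nat_lit 1) (nat_lit 322) (nat_lit 1) (nat_lit 406) (nat_lit 394) (nat_lit 340)) (XT.lf (nat_lit 76) (nat_lit 1466447377) (nat_lit 0) (nat_lit 323426279) (nat_lit 684) (nat_lit 1466447377) (nat_lit 305) (nat_lit 1) (nat_lit 304) (nat_lit 1) (nat_lit 313) (nat_lit 1) (nat_lit 407) (nat_lit 394) (nat_lit 339)))) (XT.nd (nat_lit 78) (nat_lit 608) (nat_lit 0) (XT.lf (nat_lit 684) (nat_lit 2375477349) (nat_lit 0) (nat_lit 427060933) (nat_lit 608) (nat_lit 427060933) (nat_lit 305) (nat_lit 1) (nat_lit 296) (nat_lit 1) (nat_lit 304) (nat_lit 1) (nat_lit 408) (nat_lit 394) (nat_lit 338)) (XT.nd (nat_lit 78) (nat_lit 608) (nat_lit 0) (XT.lf (nat_lit 76) (nat_lit 906629030) (nat_lit 0) (nat_lit 1389834831) (nat_lit 684) (nat_lit 906629030) (nat_lit 297) (nat_lit 1) (nat_lit 296) (nat_lit 1) (nat_lit 305) (nat_lit 1) (nat_lit 409) (nat_lit 394) (nat_lit 337)) (XT.lf (nat_lit 684) (nat_lit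 1252919028) (nat_lit 0) (nat_lit 962003991) (nat_lit 608) (nat_lit 962003991) (nat_lit 297) (nat_lit 1) (nat_lit 288) (nat_lit 1) (nat_lit 296) (nat_lit 1) (nat_lit 410) (nat_lit 394) (nat_lit 336))))) (XT.nd (nat_lit 234) (nat_lit 532) (nat_lit 0) (XT.nd (nat_lit 78) (nat_lit 1216) (nat_lit 0) (XT.lf (nat_lit 76) (nat_lit 347634779) (nat_lit 0) (nat_lit 2455841933) (nat_lit 684) (nat_lit 347634779) (nat_lit 289) (nat_lit 1) (nat_lit 288) (nat_lit 1) (nat_lit 297) (nat_lit 1) (nat_lit 411) (nat_lit 394) (nat_lit 335)) (XT.nd (nat_lit 78) (nat_lit 684) (nat_lit 0) (XT.lf (nat_lit 608) (nat_lit 132397538) (nat_lit 0) (nat_lit 1496543910) (nat_lit 532) (nat_lit 1496543910) (nat_lit 289) (nat_lit 1) (nat_lit 281) (nat_lit 1) (nat_lit 288) (nat_lit 1) (nat_lit 412) (nat_lit 394) (nat_lit 334)) (XT.lf (nat_lit 684) (nat_lit 2682685628) (nat_lit 0) (nat_lit 208774676) (nat_lit 608) (nat_lit 208774676) (nat_lit 281) (nat_lit 1) (nat_lit 272)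 (nat_lit 1) (nat_lit 280) (nat_lit 1) (nat_lit 413) (nat_lit 394) (nat_lit 333)))) (XT.nd (nat_lit 78) (nat_lit 532) (nat_lit 0) (XT.lf (nat_lit 76) (nat_lit 1051343061) (nat_lit 0) (nat_lit 972428377) (nat_lit 684) (nat_lit 1051343061) (nat_lit 273) (nat_lit 1) (nat_lit 272) (nat_lit 1) (nat_lit 281) (nat_lit 1) (nat_lit 414) (nat_lit 394) (nat_lit 332)) (XT.nd (nat_lit 78) (nat_lit 0) (nat_lit 0) (XT.lf (nat_lit 608) (nat_lit 1527661600) (nat_lit 0) (nat_lit 761349766) (nat_lit 532) (nat_lit 761349766) (nat_lit 273) (nat_lit 1) (nat_lit 265) (nat_lit 1) (nat_lit 272) (nat_lit 1) (nat_lit 415) (nat_lit 394) (nat_lit 331)) (XT.lf (nat_lit 76) (nat_lit 476897552) (nat_lit 0) (nat_lit 2072099651) (nat_lit 608) (nat_lit 476897552) (nat_lit 266) (nat_lit 1) (nat_lit 265) (nat_lit 1) (nat_lit 273) (nat_lit 1) (nat_lit 416) (nat_lit 394) (nat_lit 330)))))) (XT.nd (nat_lit 468) (nat_lit 2052) (nat_lit 0) (XT.nd (nat_lit 234) (nat_lit 988) (nat_lit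 0) (XT.nd (nat_lit 78) (nat_lit 608) (nat_lit 0) (XT.lf (nat_lit 608) (nat_lit 377548658) (nat_lit 0) (nat_lit 1312046076) (nat_lit 532) (nat_lit 1312046076) (nat_lit 266) (nat_lit 1) (nat_lit 258) (nat_lit 1) (nat_lit 265) (nat_lit 1) (nat_lit 417) (nat_lit 394) (nat_lit 329)) (XT.nd (nat_lit 78) (nat_lit 0) (nat_lit 0) (XT.lf (nat_lit 608) (nat_lit 2789114103) (nat_lit 0) (nat_lit 94324911) (nat_lit 532) (nat_lit 94324911) (nat_lit 258) (nat_lit 1) (nat_lit 250) (nat_lit 1) (nat_lit 257) (nat_lit 1) (nat_lit 418) (nat_lit 394) (nat_lit 328)) (XT.lf (nat_lit 76) (nat_lit 1098472175) (nat_lit 0) (nat_lit 757000624) (nat_lit 608) (nat_lit 1098472175) (nat_lit 251) (nat_lit 1) (nat_lit 250) (nat_lit 1) (nat_lit 258) (nat_lit 1) (nat_lit 419) (nat_lit 394) (nat_lit 327)))) (XT.nd (nat_lit 78) (nat_lit 456) (nat_lit 0) (XT.lf (nat_lit 608) (nat_lit 1611405502) (nat_lit 0) (nat_lit 659544953) (nat_lit 532) (nat_lit 659544953) (nat_lit 251)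 (nat_lit 1) (nat_lit 243) (nat_lit 1) (nat_lit 250) (nat_lit 1) (nat_lit 420) (nat_lit 394) (nat_lit 326)) (XT.nd (nat_lit 78) (nat_lit 456) (nat_lit 0) (XT.lf (nat_lit 76) (nat_lit 513338123) (nat_lit 0) (nat_lit 1880620145) (nat_lit 608) (nat_lit 513338123) (nat_lit 244) (nat_lit 1) (nat_lit 243) (nat_lit 1) (nat_lit 251) (nat_lit 1) (nat_lit 421) (nat_lit 394) (nat_lit 325)) (XT.lf (nat_lit 532) (nat_lit 441039772) (nat_lit 0) (nat_lit 1221634944) (nat_lit 456) (nat_lit 1221634944) (nat_lit 244) (nat_lit 1) (nat_lit 237) (nat_lit 1) (nat_lit 243) (nat_lit 1) (nat_lit 422) (nat_lit 394) (nat_lit 324))))) (XT.nd (nat_lit 234) (nat_lit 988) (nat_lit 0) (XT.nd (nat_lit 78) (nat_lit 456) (nat_lit 0) (XT.lf (nat_lit 608) (nat_lit 2726541466) (nat_lit 0) (nat_lit 67569732) (nat_lit 532) (nat_lit 67569732) (nat_lit 237) (nat_lit 1) (nat_lit 229) (nat_lit 1) (nat_lit 236) (nat_lit 1) (nat_lit 423) (nat_lit 394) (nat_lit 323)) (XT.nd (nat_lit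 78) (nat_lit 456) (nat_lit 0) (XT.lf (nat_lit 76) (nat_lit 1063516508) (nat_lit 0) (nat_lit 712052688) (nat_lit 608) (nat_lit 1063516508) (nat_lit 230) (nat_lit 1) (nat_lit 229) (nat_lit 1) (nat_lit 237) (nat_lit 1) (nat_lit 424) (nat_lit 394) (nat_lit 322)) (XT.lf (nat_lit 532) (nat_lit 1534595076) (nat_lit 0) (nat_lit 641123295) (nat_lit 456) (nat_lit 641123295) (nat_lit 230) (nat_lit 1) (nat_lit 223) (nat_lit 1) (nat_lit 229) (nat_lit 1) (nat_lit 425) (nat_lit 394) (nat_lit 321)))) (XT.nd (nat_lit 78) (nat_lit 988) (nat_lit 0) (XT.lf (nat_lit 76) (nat_lit 471805343) (nat_lit 0) (nat_lit 1851223829) (nat_lit 532) (nat_lit 471805343) (nat_lit 224) (nat_lit 1) (nat_lit 223) (nat_lit 1) (nat_lit 230) (nat_lit 1) (nat_lit 426) (nat_lit 394) (nat_lit 320)) (XT.nd (nat_lit 78) (nat_lit 532) (nat_lit 0) (XT.lf (nat_lit 532) (nat_lit 352035120) (nat_lit 0) (nat_lit 1210492474) (nat_lit 456) (nat_lit 1210492474) (nat_lit 224) (nat_lit 1) (nat_lit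 217) (nat_lit 1) (nat_lit 223) (nat_lit 1) (nat_lit 427) (nat_lit 394) (nat_lit 319)) (XT.lf (nat_lit 532) (nat_lit 2522770309) (nat_lit 0) (nat_lit 114378666) (nat_lit 456) (nat_lit 114378666) (nat_lit 217) (nat_lit 1) (nat_lit 210) (nat_lit 1) (nat_lit 216) (nat_lit 1) (nat_lit 428) (nat_lit 394) (nat_lit 318))))))) (XT.nd (nat_lit 53742) (nat_lit 0) (nat_lit 23408) (XT.nd (nat_lit 53274) (nat_lit 0) (nat_lit 23180) (XT.nd (nat_lit 234) (nat_lit 912) (nat_lit 0) (XT.nd (nat_lit 78) (nat_lit 456) (nat_lit 0) (XT.lf (nat_lit 76) (nat_lit 960034752) (nat_lit 0) (nat_lit 810014723) (nat_lit 532) (nat_lit 960034752) (nat_lit 211) (nat_lit 1) (nat_lit 210) (nat_lit 1) (nat_lit 217) (nat_lit 1) (nat_lit 429) (nat_lit 394) (nat_lit 317)) (XT.nd (nat_lit 78) (nat_lit 0) (nat_lit 0) (XT.lf (nat_lit 532) (nat_lit 1323857319) (nat_lit 0) (nat_lit 692549731) (nat_lit 456) (nat_lit 692549731) (nat_lit 211) (nat_lit 1) (nat_lit 204) (nat_lit 1) (nat_lit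 210) (nat_lit 1) (nat_lit 430) (nat_lit 394) (nat_lit 316)) (XT.lf (nat_lit 76) (nat_lit 365284151) (nat_lit 0) (nat_lit 1957503391) (nat_lit 532) (nat_lit 365284151) (nat_lit 205) (nat_lit 1) (nat_lit 204) (nat_lit 1) (nat_lit 211) (nat_lit 1) (nat_lit 431) (nat_lit 394) (nat_lit 315)))) (XT.nd (nat_lit 78) (nat_lit 532) (nat_lit 0) (XT.lf (nat_lit 456) (nat_lit 136034090) (nat_lit 0) (nat_lit 1265654754) (nat_lit 380) (nat_lit 1265654754) (nat_lit 205) (nat_lit 1) (nat_lit 199) (nat_lit 1) (nat_lit 204) (nat_lit 1) (nat_lit 432) (nat_lit 394) (nat_lit 314)) (XT.nd (nat_lit 52884) (nat_lit 0) (nat_lit 23180) (XT.lf (nat_lit 532) (nat_lit 2202089807) (nat_lit 0) (nat_lit 222398897) (nat_lit 456) (nat_lit 222398897) (nat_lit 199) (nat_lit 1) (nat_lit 192) (nat_lit 1) (nat_lit 198) (nat_lit 1) (nat_lit 433) (nat_lit 394) (nat_lit 313)) (XT.lf (nat_lit 1900) (nat_lit 907795304) (nat_lit 0) (nat_lit 915386584) (nat_lit 1900) (nat_lit 907795304)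 (nat_lit 522) (nat_lit 1) (nat_lit 497) (nat_lit 0) (nat_lit 522) (nat_lit 0) (nat_lit 350) (nat_lit 395) (nat_lit 395))))) (XT.nd (nat_lit 234) (nat_lit 0) (nat_lit 152) (XT.nd (nat_lit 78) (nat_lit 0) (nat_lit 76) (XT.lf (nat_lit 1900) (nat_lit 3589559120) (nat_lit 76) (nat_lit 909364303) (nat_lit 0) (nat_lit 909364303) (nat_lit 522) (nat_lit 1) (nat_lit 498) (nat_lit 1) (nat_lit 497) (nat_lit 0) (nat_lit 351) (nat_lit 395) (nat_lit 394)) (XT.nd (nat_lit 78) (nat_lit 0) (nat_lit 0) (XT.lf (nat_lit 1900) (nat_lit 1762490614) (nat_lit 0) (nat_lit 1830226013) (nat_lit 1824) (nat_lit 1762490614) (nat_lit 523) (nat_lit 1) (nat_lit 498) (nat_lit 1) (nat_lit 522) (nat_lit 1) (nat_lit 352) (nat_lit 395) (nat_lit 393)) (XT.lf (nat_lit 1900) (nat_lit 3449628610) (nat_lit 76) (nat_lit 926651422) (nat_lit 0) (nat_lit 926651422) (nat_lit 523) (nat_lit 1) (nat_lit 499) (nat_lit 1) (nat_lit 498) (nat_lit 1) (nat_lit 353) (nat_lit 395) (nat_lit 392))))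 (XT.nd (nat_lit 78) (nat_lit 0) (nat_lit 0) (XT.lf (nat_lit 1900) (nat_lit 1676454135) (nat_lit 0) (nat_lit 1898324464) (nat_lit 1824) (nat_lit 1676454135) (nat_lit 524) (nat_lit 1) (nat_lit 499) (nat_lit 1) (nat_lit 523) (nat_lit 1) (nat_lit 354) (nat_lit 395) (nat_lit 391)) (XT.nd (nat_lit 78) (nat_lit 0) (nat_lit 76) (XT.lf (nat_lit 1900) (nat_lit 3245595432) (nat_lit 76) (nat_lit 977353701) (nat_lit 0) (nat_lit 977353701) (nat_lit 524) (nat_lit 1) (nat_lit 500) (nat_lit 1) (nat_lit 499) (nat_lit 1) (nat_lit 355) (nat_lit 395) (nat_lit 390)) (XT.lf (nat_lit 1900) (nat_lit 1559446379) (nat_lit 0) (nat_lit 2031057352) (nat_lit 1824) (nat_lit 1559446379) (nat_lit 525) (nat_lit 1) (nat_lit 500) (nat_lit 1) (nat_lit 524) (nat_lit 1) (nat_lit 356) (nat_lit 395) (nat_lit 389)))))) (XT.nd (nat_lit 468) (nat_lit 0) (nat_lit 228) (XT.nd (nat_lit 234) (nat_lit 0) (nat_lit 152) (XT.nd (nat_lit 78) (nat_lit 0) (nat_lit 76) (XT.lf (nat_lit 1900)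 (nat_lit 2981312230) (nat_lit 76) (nat_lit 1059505229) (nat_lit 0) (nat_lit 1059505229) (nat_lit 525) (nat_lit 1) (nat_lit 501) (nat_lit 1) (nat_lit 500) (nat_lit 1) (nat_lit 357) (nat_lit 395) (nat_lit 388)) (XT.nd (nat_lit 78) (nat_lit 0) (nat_lit 0) (XT.lf (nat_lit 1900) (nat_lit 1413342785) (nat_lit 0) (nat_lit 2224595650) (nat_lit 1824) (nat_lit 1413342785) (nat_lit 526) (nat_lit 1) (nat_lit 501) (nat_lit 1) (nat_lit 525) (nat_lit 1) (nat_lit 358) (nat_lit 395) (nat_lit 387)) (XT.lf (nat_lit 1900) (nat_lit 2660455308) (nat_lit 76) (nat_lit 1171229535) (nat_lit 0) (nat_lit 1171229535) (nat_lit 526) (nat_lit 1) (nat_lit 502) (nat_lit 1) (nat_lit 501) (nat_lit 1) (nat_lit 359) (nat_lit 395) (nat_lit 386)))) (XT.nd (nat_lit 78) (nat_lit 0) (nat_lit 0) (XT.lf (nat_lit 1900) (nat_lit 1239932776) (nat_lit 0) (nat_lit 2475284885) (nat_lit 1824) (nat_lit 1239932776) (nat_lit 527) (nat_lit 1) (nat_lit 502) (nat_lit 1) (nat_lit 526) (nat_lit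 1) (nat_lit 360) (nat_lit 395) (nat_lit 385)) (XT.nd (nat_lit 78) (nat_lit 0) (nat_lit 76) (XT.lf (nat_lit 1900) (nat_lit 2286532004) (nat_lit 76) (nat_lit 1310735866) (nat_lit 0) (nat_lit 1310735866) (nat_lit 527) (nat_lit 1) (nat_lit 503) (nat_lit 1) (nat_lit 502) (nat_lit 1) (nat_lit 361) (nat_lit 395) (nat_lit 384)) (XT.lf (nat_lit 1900) (nat_lit 1040923357) (nat_lit 0) (nat_lit 2779637852) (nat_lit 1824) (nat_lit 1040923357) (nat_lit 528) (nat_lit 1) (nat_lit 503) (nat_lit 1) (nat_lit 527) (nat_lit 1) (nat_lit 362) (nat_lit 395) (nat_lit 383))))) (XT.nd (nat_lit 234) (nat_lit 0) (nat_lit 152) (XT.nd (nat_lit 78) (nat_lit 0) (nat_lit 76) (XT.lf (nat_lit 1900) (nat_lit 1862887770) (nat_lit 76) (nat_lit 1476315598) (nat_lit 0) (nat_lit 1476315598) (nat_lit 528) (nat_lit 1) (nat_lit 504) (nat_lit 1) (nat_lit 503) (nat_lit 1) (nat_lit 363) (nat_lit 395) (nat_lit 382)) (XT.nd (nat_lit 78) (nat_lit 0) (nat_lit 0) (XT.lf (nat_lit 1900) (nat_lit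 817942566) (nat_lit 0) (nat_lit 3134327617) (nat_lit 1824) (nat_lit 817942566) (nat_lit 529) (nat_lit 1) (nat_lit 504) (nat_lit 1) (nat_lit 528) (nat_lit 1) (nat_lit 364) (nat_lit 395) (nat_lit 381)) (XT.lf (nat_lit 1900) (nat_lit 1392712951) (nat_lit 76) (nat_lit 1666338807) (nat_lit 0) (nat_lit 1666338807) (nat_lit 529) (nat_lit 1) (nat_lit 505) (nat_lit 1) (nat_lit 504) (nat_lit 1) (nat_lit 365) (nat_lit 395) (nat_lit 380)))) (XT.nd (nat_lit 156) (nat_lit 0) (nat_lit 76) (XT.nd (nat_lit 78) (nat_lit 0) (nat_lit 0) (XT.lf (nat_lit 1900) (nat_lit 572542793) (nat_lit 0) (nat_lit 3536180813) (nat_lit 1824) (nat_lit 572542793) (nat_lit 530) (nat_lit 1) (nat_lit 505) (nat_lit 1) (nat_lit 529) (nat_lit 1) (nat_lit 366) (nat_lit 395) (nat_lit 379)) (XT.lf (nat_lit 1900) (nat_lit 879049315) (nat_lit 76) (nat_lit 1879250968) (nat_lit 0) (nat_lit 1879250968) (nat_lit 530) (nat_lit 1) (nat_lit 506) (nat_lit 1) (nat_lit 505) (nat_lit 1) (nat_lit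 367) (nat_lit 395) (nat_lit 378))) (XT.nd (nat_lit 78) (nat_lit 0) (nat_lit 0) (XT.lf (nat_lit 1900) (nat_lit 306203960) (nat_lit 0) (nat_lit 3982171192) (nat_lit 1824) (nat_lit 306203960) (nat_lit 531) (nat_lit 1) (nat_lit 506) (nat_lit 1) (nat_lit 530) (nat_lit 1) (nat_lit 368) (nat_lit 395) (nat_lit 377)) (XT.lf (nat_lit 1900) (nat_lit 324796295) (nat_lit 76) (nat_lit 2113569788) (nat_lit 0) (nat_lit 2113569788) (nat_lit 531) (nat_lit 1) (nat_lit 507) (nat_lit 1) (nat_lit 506) (nat_lit 1) (nat_lit 369) (nat_lit 395) (nat_lit 376))))))))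
noncomputable def ec38 : XT := (XT.nd (nat_lit 1872) (nat_lit 8968) (nat_lit 0) (XT.nd (nat_lit 936) (nat_lit 5852) (nat_lit 0) (XT.nd (nat_lit 468) (nat_lit 2812) (nat_lit 0) (XT.nd (nat_lit 234) (nat_lit 0) (nat_lit 76) (XT.nd (nat_lit 78) (nat_lit 1900) (nat_lit 0) (XT.lf (nat_lit 1900) (nat_lit 20336571) (nat_lit 0) (nat_lit 4469413451) (nat_lit 1824) (nat_lit 20336571) (nat_lit 532) (nat_lit 1) (nat_lit 507) (nat_lit 1) (nat_lit 531) (nat_lit 1) (nat_lit 370) (nat_lit 395) (nat_lit 375)) (XT.nd (nat_lit 78) (nat_lit 0) (nat_lit 0) (XT.lf (nat_lit 1976) (nat_lit 2102334549) (nat_lit 0) (nat_lit 263777536) (nat_lit 1900) (nat_lit 2102334549) (nat_lit 508) (nat_lit 1) (nat_lit 482) (nat_lit 1) (nat_lit 507) (nat_lit 1) (nat_lit 371) (nat_lit 395) (nat_lit 374)) (XT.lf (nat_lit 1976) (nat_lit 3863881120) (nat_lit 76) (nat_lit 281848803) (nat_lit 0) (nat_lit 281848803) (nat_lit 508) (nat_lit 1) (nat_lit 483) (nat_lit 1) (nat_lit 482)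 (nat_lit 1) (nat_lit 372) (nat_lit 395) (nat_lit 373)))) (XT.nd (nat_lit 78) (nat_lit 0) (nat_lit 0) (XT.lf (nat_lit 1976) (nat_lit 1752093321) (nat_lit 0) (nat_lit 882823771) (nat_lit 1900) (nat_lit 1752093321) (nat_lit 509) (nat_lit 1) (nat_lit 483) (nat_lit 1) (nat_lit 508) (nat_lit 1) (nat_lit 373) (nat_lit 395) (nat_lit 372)) (XT.nd (nat_lit 78) (nat_lit 0) (nat_lit 76) (XT.lf (nat_lit 1976) (nat_lit 3145736946) (nat_lit 76) (nat_lit 600693364) (nat_lit 0) (nat_lit 600693364) (nat_lit 509) (nat_lit 1) (nat_lit 484) (nat_lit 1) (nat_lit 483) (nat_lit 1) (nat_lit 374) (nat_lit 395) (nat_lit 371)) (XT.lf (nat_lit 76) (nat_lit 1386741490) (nat_lit 0) (nat_lit 1534127562) (nat_lit 1900) (nat_lit 1386741490) (nat_lit 485) (nat_lit 1) (nat_lit 484) (nat_lit 1) (nat_lit 509) (nat_lit 1) (nat_lit 375) (nat_lit 395) (nat_lit 370))))) (XT.nd (nat_lit 234) (nat_lit 912) (nat_lit 0) (XT.nd (nat_lit 78) (nat_lit 912) (nat_lit 0) (XT.lf (nat_lit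 1216) (nat_lit 2398435168) (nat_lit 0) (nat_lit 935119555) (nat_lit 1140) (nat_lit 935119555) (nat_lit 485) (nat_lit 1) (nat_lit 469) (nat_lit 1) (nat_lit 484) (nat_lit 1) (nat_lit 376) (nat_lit 395) (nat_lit 369)) (XT.nd (nat_lit 78) (nat_lit 912) (nat_lit 0) (XT.lf (nat_lit 76) (nat_lit 1007428778) (nat_lit 0) (nat_lit 2215332468) (nat_lit 1216) (nat_lit 1007428778) (nat_lit 470) (nat_lit 1) (nat_lit 469) (nat_lit 1) (nat_lit 485) (nat_lit 1) (nat_lit 377) (nat_lit 395) (nat_lit 368)) (XT.lf (nat_lit 988) (nat_lit 1624226520) (nat_lit 0) (nat_lit 1283974034) (nat_lit 912) (nat_lit 1283974034) (nat_lit 470) (nat_lit 1) (nat_lit 457) (nat_lit 1) (nat_lit 469) (nat_lit 1) (nat_lit 378) (nat_lit 395) (nat_lit 367)))) (XT.nd (nat_lit 78) (nat_lit 912) (nat_lit 0) (XT.lf (nat_lit 76) (nat_lit 615249224) (nat_lit 0) (nat_lit 2924195195) (nat_lit 988) (nat_lit 615249224) (nat_lit 458) (nat_lit 1) (nat_lit 457) (nat_lit 1) (nat_lit 470) (nat_lit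 1) (nat_lit 379) (nat_lit 395) (nat_lit 366)) (XT.nd (nat_lit 78) (nat_lit 0) (nat_lit 0) (XT.lf (nat_lit 988) (nat_lit 825252408) (nat_lit 0) (nat_lit 1646158995) (nat_lit 912) (nat_lit 1646158995) (nat_lit 458) (nat_lit 1) (nat_lit 445) (nat_lit 1) (nat_lit 457) (nat_lit 1) (nat_lit 380) (nat_lit 395) (nat_lit 365)) (XT.lf (nat_lit 76) (nat_lit 211243561) (nat_lit 0) (nat_lit 3658580779) (nat_lit 988) (nat_lit 211243561) (nat_lit 446) (nat_lit 1) (nat_lit 445) (nat_lit 1) (nat_lit 458) (nat_lit 1) (nat_lit 381) (nat_lit 395) (nat_lit 364)))))) (XT.nd (nat_lit 468) (nat_lit 2356) (nat_lit 0) (XT.nd (nat_lit 234) (nat_lit 1672) (nat_lit 0) (XT.nd (nat_lit 78) (nat_lit 988) (nat_lit 0) (XT.lf (nat_lit 912) (nat_lit 3549583) (nat_lit 0) (nat_lit 2020629801) (nat_lit 836) (nat_lit 2020629801) (nat_lit 446) (nat_lit 1) (nat_lit 434) (nat_lit 1) (nat_lit 445) (nat_lit 1) (nat_lit 382) (nat_lit 395) (nat_lit 363)) (XT.nd (nat_lit 78) (nat_lit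 0) (nat_lit 0) (XT.lf (nat_lit 988) (nat_lit 3604636783) (nat_lit 0) (nat_lit 202259036) (nat_lit 912) (nat_lit 202259036) (nat_lit 434) (nat_lit 1) (nat_lit 421) (nat_lit 1) (nat_lit 433) (nat_lit 1) (nat_lit 383) (nat_lit 395) (nat_lit 362)) (XT.lf (nat_lit 76) (nat_lit 1572894325) (nat_lit 0) (nat_lit 827942455) (nat_lit 988) (nat_lit 1572894325) (nat_lit 422) (nat_lit 1) (nat_lit 421) (nat_lit 1) (nat_lit 434) (nat_lit 1) (nat_lit 384) (nat_lit 395) (nat_lit 361)))) (XT.nd (nat_lit 78) (nat_lit 836) (nat_lit 0) (XT.lf (nat_lit 912) (nat_lit 2690490551) (nat_lit 0) (nat_lit 624202292) (nat_lit 836) (nat_lit 624202292) (nat_lit 422) (nat_lit 1) (nat_lit 410) (nat_lit 1) (nat_lit 421) (nat_lit 1) (nat_lit 385) (nat_lit 395) (nat_lit 360)) (XT.nd (nat_lit 78) (nat_lit 836) (nat_lit 0) (XT.lf (nat_lit 76) (nat_lit 1113151023) (nat_lit 0) (nat_lit 1678090808) (nat_lit 912) (nat_lit 1113151023) (nat_lit 411) (nat_lit 1) (nat_lit 410) (nat_lit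 1) (nat_lit 422) (nat_lit 1) (nat_lit 386) (nat_lit 395) (nat_lit 359)) (XT.lf (nat_lit 912) (nat_lit 1760175207) (nat_lit 0) (nat_lit 1055087705) (nat_lit 836) (nat_lit 1055087705) (nat_lit 411) (nat_lit 1) (nat_lit 399) (nat_lit 1) (nat_lit 410) (nat_lit 1) (nat_lit 387) (nat_lit 395) (nat_lit 358))))) (XT.nd (nat_lit 234) (nat_lit 1596) (nat_lit 0) (XT.nd (nat_lit 78) (nat_lit 760) (nat_lit 0) (XT.lf (nat_lit 76) (nat_lit 645765659) (nat_lit 0) (nat_lit 2545215990) (nat_lit 912) (nat_lit 645765659) (nat_lit 400) (nat_lit 1) (nat_lit 399) (nat_lit 1) (nat_lit 411) (nat_lit 1) (nat_lit 388) (nat_lit 395) (nat_lit 357)) (XT.nd (nat_lit 78) (nat_lit 0) (nat_lit 0) (XT.lf (nat_lit 836) (nat_lit 815331685) (nat_lit 0) (nat_lit 1494071437) (nat_lit 760) (nat_lit 1494071437) (nat_lit 400) (nat_lit 1) (nat_lit 389) (nat_lit 1) (nat_lit 399) (nat_lit 1) (nat_lit 389) (nat_lit 395) (nat_lit 356)) (XT.lf (nat_lit 76) (nat_lit 171534875) (nat_lit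 0) (nat_lit 3427678593) (nat_lit 836) (nat_lit 171534875) (nat_lit 390) (nat_lit 1) (nat_lit 389) (nat_lit 1) (nat_lit 400) (nat_lit 1) (nat_lit 390) (nat_lit 395) (nat_lit 355)))) (XT.nd (nat_lit 78) (nat_lit 760) (nat_lit 0) (XT.lf (nat_lit 76) (nat_lit 1798794587) (nat_lit 0) (nat_lit 140613975) (nat_lit 836) (nat_lit 1798794587) (nat_lit 379) (nat_lit 1) (nat_lit 378) (nat_lit 1) (nat_lit 389) (nat_lit 1) (nat_lit 391) (nat_lit 395) (nat_lit 354)) (XT.nd (nat_lit 78) (nat_lit 0) (nat_lit 0) (XT.lf (nat_lit 836) (nat_lit 3092682436) (nat_lit 0) (nat_lit 306753939) (nat_lit 760) (nat_lit 306753939) (nat_lit 379) (nat_lit 1) (nat_lit 368) (nat_lit 1) (nat_lit 378) (nat_lit 1) (nat_lit 392) (nat_lit 395) (nat_lit 353)) (XT.lf (nat_lit 76) (nat_lit 1288597244) (nat_lit 0) (nat_lit 1097209097) (nat_lit 836) (nat_lit 1288597244) (nat_lit 369) (nat_lit 1) (nat_lit 368) (nat_lit 1) (nat_lit 379) (nat_lit 1) (nat_lit 393) (nat_lit 395) (nat_lit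 352))))))) (XT.nd (nat_lit 936) (nat_lit 4104) (nat_lit 0) (XT.nd (nat_lit 468) (nat_lit 1976) (nat_lit 0) (XT.nd (nat_lit 234) (nat_lit 1444) (nat_lit 0) (XT.nd (nat_lit 78) (nat_lit 684) (nat_lit 0) (XT.lf (nat_lit 836) (nat_lit 2064595667) (nat_lit 0) (nat_lit 789251460) (nat_lit 760) (nat_lit 789251460) (nat_lit 369) (nat_lit 1) (nat_lit 358) (nat_lit 1) (nat_lit 368) (nat_lit 1) (nat_lit 394) (nat_lit 395) (nat_lit 351)) (XT.nd (nat_lit 78) (nat_lit 684) (nat_lit 0) (XT.lf (nat_lit 76) (nat_lit 774187492) (nat_lit 0) (nat_lit 2063764336) (nat_lit 836) (nat_lit 774187492) (nat_lit 359) (nat_lit 1) (nat_lit 358) (nat_lit 1) (nat_lit 369) (nat_lit 1) (nat_lit 395) (nat_lit 395) (nat_lit 350)) (XT.lf (nat_lit 760) (nat_lit 1028698878) (nat_lit 0) (nat_lit 1276410997) (nat_lit 684) (nat_lit 1276410997) (nat_lit 359) (nat_lit 1) (nat_lit 349) (nat_lit 1) (nat_lit 358) (nat_lit 1) (nat_lit 396) (nat_lit 395) (nat_lit 349)))) (XT.nd (nat_lit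 78) (nat_lit 1444) (nat_lit 0) (XT.lf (nat_lit 76) (nat_lit 256199962) (nat_lit 0) (nat_lit 3038969282) (nat_lit 760) (nat_lit 256199962) (nat_lit 350) (nat_lit 1) (nat_lit 349) (nat_lit 1) (nat_lit 359) (nat_lit 1) (nat_lit 397) (nat_lit 395) (nat_lit 348)) (XT.nd (nat_lit 78) (nat_lit 684) (nat_lit 0) (XT.lf (nat_lit 76) (nat_lit 1753913389) (nat_lit 0) (nat_lit 13588159) (nat_lit 760) (nat_lit 1753913389) (nat_lit 340) (nat_lit 1) (nat_lit 339) (nat_lit 1) (nat_lit 349) (nat_lit 1) (nat_lit 398) (nat_lit 395) (nat_lit 347)) (XT.lf (nat_lit 760) (nat_lit 2965869911) (nat_lit 0) (nat_lit 263022720) (nat_lit 684) (nat_lit 263022720) (nat_lit 340) (nat_lit 1) (nat_lit 330) (nat_lit 1) (nat_lit 339) (nat_lit 1) (nat_lit 399) (nat_lit 395) (nat_lit 346))))) (XT.nd (nat_lit 234) (nat_lit 1292) (nat_lit 0) (XT.nd (nat_lit 78) (nat_lit 684) (nat_lit 0) (XT.lf (nat_lit 76) (nat_lit 1207449063) (nat_lit 0) (nat_lit 1047710936) (nat_lit 760) (nat_lit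 1207449063) (nat_lit 331) (nat_lit 1) (nat_lit 330) (nat_lit 1) (nat_lit 340) (nat_lit 1) (nat_lit 400) (nat_lit 395) (nat_lit 345)) (XT.nd (nat_lit 78) (nat_lit 0) (nat_lit 0) (XT.lf (nat_lit 760) (nat_lit 1867836875) (nat_lit 0) (nat_lit 782952689) (nat_lit 684) (nat_lit 782952689) (nat_lit 331) (nat_lit 1) (nat_lit 321) (nat_lit 1) (nat_lit 330) (nat_lit 1) (nat_lit 401) (nat_lit 395) (nat_lit 344)) (XT.lf (nat_lit 76) (nat_lit 659566267) (nat_lit 0) (nat_lit 2086066380) (nat_lit 760) (nat_lit 659566267) (nat_lit 322) (nat_lit 1) (nat_lit 321) (nat_lit 1) (nat_lit 331) (nat_lit 1) (nat_lit 402) (nat_lit 395) (nat_lit 343)))) (XT.nd (nat_lit 78) (nat_lit 684) (nat_lit 0) (XT.lf (nat_lit 684) (nat_lit 767462982) (nat_lit 0) (nat_lit 1304741583) (nat_lit 608) (nat_lit 1304741583) (nat_lit 322) (nat_lit 1) (nat_lit 313) (nat_lit 1) (nat_lit 321) (nat_lit 1) (nat_lit 403) (nat_lit 395) (nat_lit 342)) (XT.nd (nat_lit 78) (nat_lit 684) (nat_lit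 0) (XT.lf (nat_lit 76) (nat_lit 110763971) (nat_lit 0) (nat_lit 3127619758) (nat_lit 684) (nat_lit 110763971) (nat_lit 314) (nat_lit 1) (nat_lit 313) (nat_lit 1) (nat_lit 322) (nat_lit 1) (nat_lit 404) (nat_lit 395) (nat_lit 341)) (XT.lf (nat_lit 76) (nat_lit 1495776324) (nat_lit 0) (nat_lit 329894805) (nat_lit 684) (nat_lit 1495776324) (nat_lit 305) (nat_lit 1) (nat_lit 304) (nat_lit 1) (nat_lit 313) (nat_lit 1) (nat_lit 405) (nat_lit 395) (nat_lit 340)))))) (XT.nd (nat_lit 468) (nat_lit 1672) (nat_lit 0) (XT.nd (nat_lit 234) (nat_lit 1216) (nat_lit 0) (XT.nd (nat_lit 78) (nat_lit 608) (nat_lit 0) (XT.lf (nat_lit 684) (nat_lit 2422986896) (nat_lit 0) (nat_lit 435602151) (nat_lit 608) (nat_lit 435602151) (nat_lit 305) (nat_lit 1) (nat_lit 296) (nat_lit 1) (nat_lit 304) (nat_lit 1) (nat_lit 406) (nat_lit 395) (nat_lit 339)) (XT.nd (nat_lit 78) (nat_lit 608) (nat_lit 0) (XT.lf (nat_lit 76) (nat_lit 924761610) (nat_lit 0) (nat_lit 1417631527)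 (nat_lit 684) (nat_lit 924761610) (nat_lit 297) (nat_lit 1) (nat_lit 296) (nat_lit 1) (nat_lit 305) (nat_lit 1) (nat_lit 407) (nat_lit 395) (nat_lit 338)) (XT.lf (nat_lit 684) (nat_lit 1277977408) (nat_lit 0) (nat_lit 981244071) (nat_lit 608) (nat_lit 981244071) (nat_lit 297) (nat_lit 1) (nat_lit 288) (nat_lit 1) (nat_lit 296) (nat_lit 1) (nat_lit 408) (nat_lit 395) (nat_lit 337)))) (XT.nd (nat_lit 78) (nat_lit 1216) (nat_lit 0) (XT.lf (nat_lit 76) (nat_lit 354587474) (nat_lit 0) (nat_lit 2504958772) (nat_lit 684) (nat_lit 354587474) (nat_lit 289) (nat_lit 1) (nat_lit 288) (nat_lit 1) (nat_lit 297) (nat_lit 1) (nat_lit 409) (nat_lit 395) (nat_lit 336)) (XT.nd (nat_lit 78) (nat_lit 684) (nat_lit 0) (XT.lf (nat_lit 608) (nat_lit 135045488) (nat_lit 0) (nat_lit 1526474788) (nat_lit 532) (nat_lit 1526474788) (nat_lit 289) (nat_lit 1) (nat_lit 281) (nat_lit 1) (nat_lit 288) (nat_lit 1) (nat_lit 410) (nat_lit 395) (nat_lit 335)) (XT.lf (nat_lit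 684) (nat_lit 2736339340) (nat_lit 0) (nat_lit 212950170) (nat_lit 608) (nat_lit 212950170) (nat_lit 281) (nat_lit 1) (nat_lit 272) (nat_lit 1) (nat_lit 280) (nat_lit 1) (nat_lit 411) (nat_lit 395) (nat_lit 334))))) (XT.nd (nat_lit 234) (nat_lit 1140) (nat_lit 0) (XT.nd (nat_lit 78) (nat_lit 532) (nat_lit 0) (XT.lf (nat_lit 76) (nat_lit 1072369922) (nat_lit 0) (nat_lit 991876945) (nat_lit 684) (nat_lit 1072369922) (nat_lit 273) (nat_lit 1) (nat_lit 272) (nat_lit 1) (nat_lit 281) (nat_lit 1) (nat_lit 412) (nat_lit 395) (nat_lit 333)) (XT.nd (nat_lit 78) (nat_lit 0) (nat_lit 0) (XT.lf (nat_lit 608) (nat_lit 1558214832) (nat_lit 0) (nat_lit 776576762) (nat_lit 532) (nat_lit 776576762) (nat_lit 273) (nat_lit 1) (nat_lit 265) (nat_lit 1) (nat_lit 272) (nat_lit 1) (nat_lit 413) (nat_lit 395) (nat_lit 332)) (XT.lf (nat_lit 76) (nat_lit 486435503) (nat_lit 0) (nat_lit 2113541644) (nat_lit 608) (nat_lit 486435503) (nat_lit 266) (nat_lit 1) (nat_lit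 265) (nat_lit 1) (nat_lit 273) (nat_lit 1) (nat_lit 414) (nat_lit 395) (nat_lit 331)))) (XT.nd (nat_lit 78) (nat_lit 608) (nat_lit 0) (XT.lf (nat_lit 608) (nat_lit 385099631) (nat_lit 0) (nat_lit 1338286998) (nat_lit 532) (nat_lit 1338286998) (nat_lit 266) (nat_lit 1) (nat_lit 258) (nat_lit 1) (nat_lit 265) (nat_lit 1) (nat_lit 415) (nat_lit 395) (nat_lit 330)) (XT.nd (nat_lit 78) (nat_lit 0) (nat_lit 0) (XT.lf (nat_lit 608) (nat_lit 2844896385) (nat_lit 0) (nat_lit 96211409) (nat_lit 532) (nat_lit 96211409) (nat_lit 258) (nat_lit 1) (nat_lit 250) (nat_lit 1) (nat_lit 257) (nat_lit 1) (nat_lit 416) (nat_lit 395) (nat_lit 329)) (XT.lf (nat_lit 76) (nat_lit 1120441618) (nat_lit 0) (nat_lit 772140636) (nat_lit 608) (nat_lit 1120441618) (nat_lit 251) (nat_lit 1) (nat_lit 250) (nat_lit 1) (nat_lit 258) (nat_lit 1) (nat_lit 417) (nat_lit 395) (nat_lit 328))))))))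
noncomputable def ec39 : XT := (XT.nd (nat_lit 54522) (nat_lit 0) (nat_lit 18772) (XT.nd (nat_lit 936) (nat_lit 1292) (nat_lit 0) (XT.nd (nat_lit 468) (nat_lit 1444) (nat_lit 0) (XT.nd (nat_lit 234) (nat_lit 1064) (nat_lit 0) (XT.nd (nat_lit 78) (nat_lit 456) (nat_lit 0) (XT.lf (nat_lit 608) (nat_lit 1643633612) (nat_lit 0) (nat_lit 672735852) (nat_lit 532) (nat_lit 672735852) (nat_lit 251) (nat_lit 1) (nat_lit 243) (nat_lit 1) (nat_lit 250) (nat_lit 1) (nat_lit 418) (nat_lit 395) (nat_lit 327)) (XT.nd (nat_lit 78) (nat_lit 456) (nat_lit 0) (XT.lf (nat_lit 76) (nat_lit 523604886) (nat_lit 0) (nat_lit 1918232547) (nat_lit 608) (nat_lit 523604886) (nat_lit 244) (nat_lit 1) (nat_lit 243) (nat_lit 1) (nat_lit 251) (nat_lit 1) (nat_lit 419) (nat_lit 395) (nat_lit 326)) (XT.lf (nat_lit 532) (nat_lit 449860567) (nat_lit 0) (nat_lit 1246067643) (nat_lit 456) (nat_lit 1246067643) (nat_lit 244) (nat_lit 1) (nat_lit 237) (nat_lit 1) (nat_lit 243)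 (nat_lit 1) (nat_lit 420) (nat_lit 395) (nat_lit 325)))) (XT.nd (nat_lit 78) (nat_lit 456) (nat_lit 0) (XT.lf (nat_lit 608) (nat_lit 2781072295) (nat_lit 0) (nat_lit 68921127) (nat_lit 532) (nat_lit 68921127) (nat_lit 237) (nat_lit 1) (nat_lit 229) (nat_lit 1) (nat_lit 236) (nat_lit 1) (nat_lit 421) (nat_lit 395) (nat_lit 324)) (XT.nd (nat_lit 78) (nat_lit 456) (nat_lit 0) (XT.lf (nat_lit 76) (nat_lit 1084786838) (nat_lit 0) (nat_lit 726293742) (nat_lit 608) (nat_lit 1084786838) (nat_lit 230) (nat_lit 1) (nat_lit 229) (nat_lit 1) (nat_lit 237) (nat_lit 1) (nat_lit 422) (nat_lit 395) (nat_lit 323)) (XT.lf (nat_lit 532) (nat_lit 1565286978) (nat_lit 0) (nat_lit 653945761) (nat_lit 456) (nat_lit 653945761) (nat_lit 230) (nat_lit 1) (nat_lit 223) (nat_lit 1) (nat_lit 229) (nat_lit 1) (nat_lit 423) (nat_lit 395) (nat_lit 322))))) (XT.nd (nat_lit 234) (nat_lit 456) (nat_lit 0) (XT.nd (nat_lit 78) (nat_lit 988) (nat_lit 0) (XT.lf (nat_lit 76)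 (nat_lit 481241449) (nat_lit 0) (nat_lit 1888248305) (nat_lit 532) (nat_lit 481241449) (nat_lit 224) (nat_lit 1) (nat_lit 223) (nat_lit 1) (nat_lit 230) (nat_lit 1) (nat_lit 424) (nat_lit 395) (nat_lit 321)) (XT.nd (nat_lit 78) (nat_lit 532) (nat_lit 0) (XT.lf (nat_lit 532) (nat_lit 359075823) (nat_lit 0) (nat_lit 1234702324) (nat_lit 456) (nat_lit 1234702324) (nat_lit 224) (nat_lit 1) (nat_lit 217) (nat_lit 1) (nat_lit 223) (nat_lit 1) (nat_lit 425) (nat_lit 395) (nat_lit 320)) (XT.lf (nat_lit 532) (nat_lit 2573225715) (nat_lit 0) (nat_lit 116666239) (nat_lit 456) (nat_lit 116666239) (nat_lit 217) (nat_lit 1) (nat_lit 210) (nat_lit 1) (nat_lit 216) (nat_lit 1) (nat_lit 426) (nat_lit 395) (nat_lit 319)))) (XT.nd (nat_lit 78) (nat_lit 456) (nat_lit 0) (XT.lf (nat_lit 76) (nat_lit 979235447) (nat_lit 0) (nat_lit 826215017) (nat_lit 532) (nat_lit 979235447) (nat_lit 211) (nat_lit 1) (nat_lit 210) (nat_lit 1) (nat_lit 217) (nat_lit 1) (nat_lit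 427) (nat_lit 395) (nat_lit 318)) (XT.nd (nat_lit 78) (nat_lit 0) (nat_lit 0) (XT.lf (nat_lit 532) (nat_lit 1350334466) (nat_lit 0) (nat_lit 706400726) (nat_lit 456) (nat_lit 706400726) (nat_lit 211) (nat_lit 1) (nat_lit 204) (nat_lit 1) (nat_lit 210) (nat_lit 1) (nat_lit 428) (nat_lit 395) (nat_lit 317)) (XT.lf (nat_lit 76) (nat_lit 372589834) (nat_lit 0) (nat_lit 1996653458) (nat_lit 532) (nat_lit 372589834) (nat_lit 205) (nat_lit 1) (nat_lit 204) (nat_lit 1) (nat_lit 211) (nat_lit 1) (nat_lit 429) (nat_lit 395) (nat_lit 316)))))) (XT.nd (nat_lit 53118) (nat_lit 0) (nat_lit 23636) (XT.nd (nat_lit 234) (nat_lit 380) (nat_lit 0) (XT.nd (nat_lit 78) (nat_lit 532) (nat_lit 0) (XT.lf (nat_lit 456) (nat_lit 138754772) (nat_lit 0) (nat_lit 1290967849) (nat_lit 380) (nat_lit 1290967849) (nat_lit 205) (nat_lit 1) (nat_lit 199) (nat_lit 1) (nat_lit 204) (nat_lit 1) (nat_lit 430) (nat_lit 395) (nat_lit 315)) (XT.nd (nat_lit 78) (nat_lit 0) (nat_lit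 0) (XT.lf (nat_lit 532) (nat_lit 2246131603) (nat_lit 0) (nat_lit 226846875) (nat_lit 456) (nat_lit 226846875) (nat_lit 199) (nat_lit 1) (nat_lit 192) (nat_lit 1) (nat_lit 198) (nat_lit 1) (nat_lit 431) (nat_lit 395) (nat_lit 314)) (XT.lf (nat_lit 76) (nat_lit 815867562) (nat_lit 0) (nat_lit 1047324900) (nat_lit 532) (nat_lit 815867562) (nat_lit 193) (nat_lit 1) (nat_lit 192) (nat_lit 1) (nat_lit 199) (nat_lit 1) (nat_lit 432) (nat_lit 395) (nat_lit 313)))) (XT.nd (nat_lit 52728) (nat_lit 0) (nat_lit 23560) (XT.lf (nat_lit 456) (nat_lit 1022495340) (nat_lit 0) (nat_lit 818035707) (nat_lit 380) (nat_lit 818035707) (nat_lit 193) (nat_lit 1) (nat_lit 187) (nat_lit 1) (nat_lit 192) (nat_lit 1) (nat_lit 433) (nat_lit 395) (nat_lit 312)) (XT.nd (nat_lit 78) (nat_lit 0) (nat_lit 0) (XT.lf (nat_lit 1900) (nat_lit 925951210) (nat_lit 0) (nat_lit 933694315) (nat_lit 1900) (nat_lit 925951210) (nat_lit 522) (nat_lit 1) (nat_lit 497) (nat_lit 0) (nat_lit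 522) (nat_lit 0) (nat_lit 348) (nat_lit 396) (nat_lit 396)) (XT.lf (nat_lit 1900) (nat_lit 3661350302) (nat_lit 76) (nat_lit 927551589) (nat_lit 0) (nat_lit 927551589) (nat_lit 522) (nat_lit 1) (nat_lit 498) (nat_lit 1) (nat_lit 497) (nat_lit 0) (nat_lit 349) (nat_lit 396) (nat_lit 395))))) (XT.nd (nat_lit 234) (nat_lit 0) (nat_lit 76) (XT.nd (nat_lit 78) (nat_lit 0) (nat_lit 0) (XT.lf (nat_lit 1900) (nat_lit 1797740426) (nat_lit 0) (nat_lit 1866830534) (nat_lit 1824) (nat_lit 1797740426) (nat_lit 523) (nat_lit 1) (nat_lit 498) (nat_lit 1) (nat_lit 522) (nat_lit 1) (nat_lit 350) (nat_lit 396) (nat_lit 394)) (XT.nd (nat_lit 78) (nat_lit 0) (nat_lit 76) (XT.lf (nat_lit 1900) (nat_lit 3518621182) (nat_lit 76) (nat_lit 945184450) (nat_lit 0) (nat_lit 945184450) (nat_lit 523) (nat_lit 1) (nat_lit 499) (nat_lit 1) (nat_lit 498) (nat_lit 1) (nat_lit 351) (nat_lit 396) (nat_lit 393)) (XT.lf (nat_lit 1900) (nat_lit 1709983218) (nat_lit 0) (nat_lit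 1936290954) (nat_lit 1824) (nat_lit 1709983218) (nat_lit 524) (nat_lit 1) (nat_lit 499) (nat_lit 1) (nat_lit 523) (nat_lit 1) (nat_lit 352) (nat_lit 396) (nat_lit 392)))) (XT.nd (nat_lit 78) (nat_lit 0) (nat_lit 76) (XT.lf (nat_lit 1900) (nat_lit 3310507341) (nat_lit 76) (nat_lit 996900775) (nat_lit 0) (nat_lit 996900775) (nat_lit 524) (nat_lit 1) (nat_lit 500) (nat_lit 1) (nat_lit 499) (nat_lit 1) (nat_lit 353) (nat_lit 396) (nat_lit 391)) (XT.nd (nat_lit 78) (nat_lit 0) (nat_lit 0) (XT.lf (nat_lit 1900) (nat_lit 1590635306) (nat_lit 0) (nat_lit 2071678499) (nat_lit 1824) (nat_lit 1590635306) (nat_lit 525) (nat_lit 1) (nat_lit 500) (nat_lit 1) (nat_lit 524) (nat_lit 1) (nat_lit 354) (nat_lit 396) (nat_lit 390)) (XT.lf (nat_lit 1900) (nat_lit 3040938475) (nat_lit 76) (nat_lit 1080695333) (nat_lit 0) (nat_lit 1080695333) (nat_lit 525) (nat_lit 1) (nat_lit 501) (nat_lit 1) (nat_lit 500) (nat_lit 1) (nat_lit 355) (nat_lit 396) (nat_lit 389)))))))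 (XT.nd (nat_lit 936) (nat_lit 5092) (nat_lit 0) (XT.nd (nat_lit 468) (nat_lit 0) (nat_lit 228) (XT.nd (nat_lit 234) (nat_lit 0) (nat_lit 76) (XT.nd (nat_lit 78) (nat_lit 0) (nat_lit 0) (XT.lf (nat_lit 1900) (nat_lit 1441609640) (nat_lit 0) (nat_lit 2269087563) (nat_lit 1824) (nat_lit 1441609640) (nat_lit 526) (nat_lit 1) (nat_lit 501) (nat_lit 1) (nat_lit 525) (nat_lit 1) (nat_lit 356) (nat_lit 396) (nat_lit 388)) (XT.nd (nat_lit 78) (nat_lit 0) (nat_lit 76) (XT.lf (nat_lit 1900) (nat_lit 2713664414) (nat_lit 76) (nat_lit 1194654126) (nat_lit 0) (nat_lit 1194654126) (nat_lit 526) (nat_lit 1) (nat_lit 502) (nat_lit 1) (nat_lit 501) (nat_lit 1) (nat_lit 357) (nat_lit 396) (nat_lit 387)) (XT.lf (nat_lit 1900) (nat_lit 1264731432) (nat_lit 0) (nat_lit 2524790583) (nat_lit 1824) (nat_lit 1264731432) (nat_lit 527) (nat_lit 1) (nat_lit 502) (nat_lit 1) (nat_lit 526) (nat_lit 1) (nat_lit 358) (nat_lit 396) (nat_lit 386)))) (XT.nd (nat_lit 78)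 (nat_lit 0) (nat_lit 76) (XT.lf (nat_lit 1900) (nat_lit 2332262645) (nat_lit 76) (nat_lit 1336950583) (nat_lit 0) (nat_lit 1336950583) (nat_lit 527) (nat_lit 1) (nat_lit 503) (nat_lit 1) (nat_lit 502) (nat_lit 1) (nat_lit 359) (nat_lit 396) (nat_lit 385)) (XT.nd (nat_lit 78) (nat_lit 0) (nat_lit 0) (XT.lf (nat_lit 1900) (nat_lit 1061741824) (nat_lit 0) (nat_lit 2835230609) (nat_lit 1824) (nat_lit 1061741824) (nat_lit 528) (nat_lit 1) (nat_lit 503) (nat_lit 1) (nat_lit 527) (nat_lit 1) (nat_lit 360) (nat_lit 396) (nat_lit 384)) (XT.lf (nat_lit 1900) (nat_lit 1900145525) (nat_lit 76) (nat_lit 1505841910) (nat_lit 0) (nat_lit 1505841910) (nat_lit 528) (nat_lit 1) (nat_lit 504) (nat_lit 1) (nat_lit 503) (nat_lit 1) (nat_lit 361) (nat_lit 396) (nat_lit 383))))) (XT.nd (nat_lit 234) (nat_lit 0) (nat_lit 76) (XT.nd (nat_lit 78) (nat_lit 0) (nat_lit 0) (XT.lf (nat_lit 1900) (nat_lit 834301417) (nat_lit 0) (nat_lit 3197014169) (nat_lit 1824) (nat_lit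 834301417) (nat_lit 529) (nat_lit 1) (nat_lit 504) (nat_lit 1) (nat_lit 528) (nat_lit 1) (nat_lit 362) (nat_lit 396) (nat_lit 382)) (XT.nd (nat_lit 78) (nat_lit 0) (nat_lit 76) (XT.lf (nat_lit 1900) (nat_lit 1420567210) (nat_lit 76) (nat_lit 1699665583) (nat_lit 0) (nat_lit 1699665583) (nat_lit 529) (nat_lit 1) (nat_lit 505) (nat_lit 1) (nat_lit 504) (nat_lit 1) (nat_lit 363) (nat_lit 396) (nat_lit 381)) (XT.lf (nat_lit 1900) (nat_lit 583993649) (nat_lit 0) (nat_lit 3606904429) (nat_lit 1824) (nat_lit 583993649) (nat_lit 530) (nat_lit 1) (nat_lit 505) (nat_lit 1) (nat_lit 529) (nat_lit 1) (nat_lit 364) (nat_lit 396) (nat_lit 380)))) (XT.nd (nat_lit 78) (nat_lit 0) (nat_lit 76) (XT.lf (nat_lit 1900) (nat_lit 896630301) (nat_lit 76) (nat_lit 1916835987) (nat_lit 0) (nat_lit 1916835987) (nat_lit 530) (nat_lit 1) (nat_lit 506) (nat_lit 1) (nat_lit 505) (nat_lit 1) (nat_lit 365) (nat_lit 396) (nat_lit 379)) (XT.nd (nat_lit 78) (nat_lit 0)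 (nat_lit 0) (XT.lf (nat_lit 1900) (nat_lit 312328039) (nat_lit 0) (nat_lit 4061814616) (nat_lit 1824) (nat_lit 312328039) (nat_lit 531) (nat_lit 1) (nat_lit 506) (nat_lit 1) (nat_lit 530) (nat_lit 1) (nat_lit 366) (nat_lit 396) (nat_lit 378)) (XT.lf (nat_lit 1900) (nat_lit 331292220) (nat_lit 76) (nat_lit 2155841183) (nat_lit 0) (nat_lit 2155841183) (nat_lit 531) (nat_lit 1) (nat_lit 507) (nat_lit 1) (nat_lit 506) (nat_lit 1) (nat_lit 367) (nat_lit 396) (nat_lit 377)))))) (XT.nd (nat_lit 468) (nat_lit 3648) (nat_lit 0) (XT.nd (nat_lit 234) (nat_lit 0) (nat_lit 76) (XT.nd (nat_lit 78) (nat_lit 1900) (nat_lit 0) (XT.lf (nat_lit 1900) (nat_lit 20743303) (nat_lit 0) (nat_lit 4558801720) (nat_lit 1824) (nat_lit 20743303) (nat_lit 532) (nat_lit 1) (nat_lit 507) (nat_lit 1) (nat_lit 531) (nat_lit 1) (nat_lit 368) (nat_lit 396) (nat_lit 376)) (XT.nd (nat_lit 78) (nat_lit 0) (nat_lit 0) (XT.lf (nat_lit 1976) (nat_lit 2144381240) (nat_lit 0) (nat_lit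 269053087) (nat_lit 1900) (nat_lit 2144381240) (nat_lit 508) (nat_lit 1) (nat_lit 482) (nat_lit 1) (nat_lit 507) (nat_lit 1) (nat_lit 369) (nat_lit 396) (nat_lit 375)) (XT.lf (nat_lit 1976) (nat_lit 3941158742) (nat_lit 76) (nat_lit 287485779) (nat_lit 0) (nat_lit 287485779) (nat_lit 508) (nat_lit 1) (nat_lit 483) (nat_lit 1) (nat_lit 482) (nat_lit 1) (nat_lit 370) (nat_lit 396) (nat_lit 374)))) (XT.nd (nat_lit 78) (nat_lit 0) (nat_lit 0) (XT.lf (nat_lit 1976) (nat_lit 1787135187) (nat_lit 0) (nat_lit 900480247) (nat_lit 1900) (nat_lit 1787135187) (nat_lit 509) (nat_lit 1) (nat_lit 483) (nat_lit 1) (nat_lit 508) (nat_lit 1) (nat_lit 371) (nat_lit 396) (nat_lit 373)) (XT.nd (nat_lit 78) (nat_lit 0) (nat_lit 76) (XT.lf (nat_lit 1976) (nat_lit 3208651685) (nat_lit 76) (nat_lit 612707231) (nat_lit 0) (nat_lit 612707231) (nat_lit 509) (nat_lit 1) (nat_lit 484) (nat_lit 1) (nat_lit 483) (nat_lit 1) (nat_lit 372) (nat_lit 396) (nat_lit 372))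 (XT.lf (nat_lit 76) (nat_lit 1414476320) (nat_lit 0) (nat_lit 1564810113) (nat_lit 1900) (nat_lit 1414476320) (nat_lit 485) (nat_lit 1) (nat_lit 484) (nat_lit 1) (nat_lit 509) (nat_lit 1) (nat_lit 373) (nat_lit 396) (nat_lit 371))))) (XT.nd (nat_lit 234) (nat_lit 1748) (nat_lit 0) (XT.nd (nat_lit 78) (nat_lit 912) (nat_lit 0) (XT.lf (nat_lit 1216) (nat_lit 2446403871) (nat_lit 0) (nat_lit 953821946) (nat_lit 1140) (nat_lit 953821946) (nat_lit 485) (nat_lit 1) (nat_lit 469) (nat_lit 1) (nat_lit 484) (nat_lit 1) (nat_lit 374) (nat_lit 396) (nat_lit 370)) (XT.nd (nat_lit 78) (nat_lit 912) (nat_lit 0) (XT.lf (nat_lit 76) (nat_lit 1027577354) (nat_lit 0) (nat_lit 2259639117) (nat_lit 1216) (nat_lit 1027577354) (nat_lit 470) (nat_lit 1) (nat_lit 469) (nat_lit 1) (nat_lit 485) (nat_lit 1) (nat_lit 375) (nat_lit 396) (nat_lit 369)) (XT.lf (nat_lit 988) (nat_lit 1656711050) (nat_lit 0) (nat_lit 1309653515) (nat_lit 912) (nat_lit 1309653515) (nat_lit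 470) (nat_lit 1) (nat_lit 457) (nat_lit 1) (nat_lit 469) (nat_lit 1) (nat_lit 376) (nat_lit 396) (nat_lit 368)))) (XT.nd (nat_lit 156) (nat_lit 836) (nat_lit 0) (XT.nd (nat_lit 78) (nat_lit 912) (nat_lit 0) (XT.lf (nat_lit 76) (nat_lit 627554208) (nat_lit 0) (nat_lit 2982679099) (nat_lit 988) (nat_lit 627554208) (nat_lit 458) (nat_lit 1) (nat_lit 457) (nat_lit 1) (nat_lit 470) (nat_lit 1) (nat_lit 377) (nat_lit 396) (nat_lit 367)) (XT.lf (nat_lit 988) (nat_lit 841757457) (nat_lit 0) (nat_lit 1679082175) (nat_lit 912) (nat_lit 1679082175) (nat_lit 458) (nat_lit 1) (nat_lit 445) (nat_lit 1) (nat_lit 457) (nat_lit 1) (nat_lit 378) (nat_lit 396) (nat_lit 366))) (XT.nd (nat_lit 78) (nat_lit 836) (nat_lit 0) (XT.lf (nat_lit 76) (nat_lit 215468432) (nat_lit 0) (nat_lit 3731752395) (nat_lit 988) (nat_lit 215468432) (nat_lit 446) (nat_lit 1) (nat_lit 445) (nat_lit 1) (nat_lit 458) (nat_lit 1) (nat_lit 379) (nat_lit 396) (nat_lit 365)) (XT.lf (nat_lit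 912) (nat_lit 3620575) (nat_lit 0) (nat_lit 2061042397) (nat_lit 836) (nat_lit 2061042397) (nat_lit 446) (nat_lit 1) (nat_lit 434) (nat_lit 1) (nat_lit 445) (nat_lit 1) (nat_lit 380) (nat_lit 396) (nat_lit 364))))))))
noncomputable def ec40 : XT := (XT.nd (nat_lit 1872) (nat_lit 7372) (nat_lit 0) (XT.nd (nat_lit 936) (nat_lit 4712) (nat_lit 0) (XT.nd (nat_lit 468) (nat_lit 3116) (nat_lit 0) (XT.nd (nat_lit 234) (nat_lit 836) (nat_lit 0) (XT.nd (nat_lit 78) (nat_lit 836) (nat_lit 0) (XT.lf (nat_lit 988) (nat_lit 3676729519) (nat_lit 0) (nat_lit 206304217) (nat_lit 912) (nat_lit 206304217) (nat_lit 434) (nat_lit 1) (nat_lit 421) (nat_lit 1) (nat_lit 433) (nat_lit 1) (nat_lit 381) (nat_lit 396) (nat_lit 363)) (XT.nd (nat_lit 78) (nat_lit 836) (nat_lit 0) (XT.lf (nat_lit 76) (nat_lit 1604352212) (nat_lit 0) (nat_lit 844501304) (nat_lit 988) (nat_lit 1604352212) (nat_lit 422) (nat_lit 1) (nat_lit 421) (nat_lit 1) (nat_lit 434) (nat_lit 1)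 (nat_lit 382) (nat_lit 396) (nat_lit 362)) (XT.lf (nat_lit 912) (nat_lit 2744300362) (nat_lit 0) (nat_lit 636686338) (nat_lit 836) (nat_lit 636686338) (nat_lit 422) (nat_lit 1) (nat_lit 410) (nat_lit 1) (nat_lit 421) (nat_lit 1) (nat_lit 383) (nat_lit 396) (nat_lit 361)))) (XT.nd (nat_lit 78) (nat_lit 836) (nat_lit 0) (XT.lf (nat_lit 76) (nat_lit 1135414044) (nat_lit 0) (nat_lit 1711652624) (nat_lit 912) (nat_lit 1135414044) (nat_lit 411) (nat_lit 1) (nat_lit 410) (nat_lit 1) (nat_lit 422) (nat_lit 1) (nat_lit 384) (nat_lit 396) (nat_lit 360)) (XT.nd (nat_lit 78) (nat_lit 0) (nat_lit 0) (XT.lf (nat_lit 912) (nat_lit 1795378711) (nat_lit 0) (nat_lit 1076189459) (nat_lit 836) (nat_lit 1076189459) (nat_lit 411) (nat_lit 1) (nat_lit 399) (nat_lit 1) (nat_lit 410) (nat_lit 1) (nat_lit 385) (nat_lit 396) (nat_lit 359)) (XT.lf (nat_lit 76) (nat_lit 658680972) (nat_lit 0) (nat_lit 2596120310) (nat_lit 912) (nat_lit 658680972) (nat_lit 400) (nat_lit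 1) (nat_lit 399) (nat_lit 1) (nat_lit 411) (nat_lit 1) (nat_lit 386) (nat_lit 396) (nat_lit 358))))) (XT.nd (nat_lit 234) (nat_lit 1520) (nat_lit 0) (XT.nd (nat_lit 78) (nat_lit 836) (nat_lit 0) (XT.lf (nat_lit 836) (nat_lit 831638319) (nat_lit 0) (nat_lit 1523952866) (nat_lit 760) (nat_lit 1523952866) (nat_lit 400) (nat_lit 1) (nat_lit 389) (nat_lit 1) (nat_lit 399) (nat_lit 1) (nat_lit 387) (nat_lit 396) (nat_lit 357)) (XT.nd (nat_lit 78) (nat_lit 836) (nat_lit 0) (XT.lf (nat_lit 76) (nat_lit 174965573) (nat_lit 0) (nat_lit 3496232164) (nat_lit 836) (nat_lit 174965573) (nat_lit 390) (nat_lit 1) (nat_lit 389) (nat_lit 1) (nat_lit 400) (nat_lit 1) (nat_lit 388) (nat_lit 396) (nat_lit 356)) (XT.lf (nat_lit 76) (nat_lit 1834770479) (nat_lit 0) (nat_lit 143426254) (nat_lit 836) (nat_lit 1834770479) (nat_lit 379) (nat_lit 1) (nat_lit 378) (nat_lit 1) (nat_lit 389) (nat_lit 1) (nat_lit 389) (nat_lit 396) (nat_lit 355)))) (XT.nd (nat_lit 78)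 (nat_lit 760) (nat_lit 0) (XT.lf (nat_lit 836) (nat_lit 3154536085) (nat_lit 0) (nat_lit 312889017) (nat_lit 760) (nat_lit 312889017) (nat_lit 379) (nat_lit 1) (nat_lit 368) (nat_lit 1) (nat_lit 378) (nat_lit 1) (nat_lit 390) (nat_lit 396) (nat_lit 354)) (XT.nd (nat_lit 78) (nat_lit 760) (nat_lit 0) (XT.lf (nat_lit 76) (nat_lit 1314369189) (nat_lit 0) (nat_lit 1119153279) (nat_lit 836) (nat_lit 1314369189) (nat_lit 369) (nat_lit 1) (nat_lit 368) (nat_lit 1) (nat_lit 379) (nat_lit 1) (nat_lit 391) (nat_lit 396) (nat_lit 353)) (XT.lf (nat_lit 836) (nat_lit 2105887581) (nat_lit 0) (nat_lit 805036489) (nat_lit 760) (nat_lit 805036489) (nat_lit 369) (nat_lit 1) (nat_lit 358) (nat_lit 1) (nat_lit 368) (nat_lit 1) (nat_lit 392) (nat_lit 396) (nat_lit 352)))))) (XT.nd (nat_lit 468) (nat_lit 2584) (nat_lit 0) (XT.nd (nat_lit 234) (nat_lit 1444) (nat_lit 0) (XT.nd (nat_lit 78) (nat_lit 684) (nat_lit 0) (XT.lf (nat_lit 76) (nat_lit 789671242) (nat_lit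 0) (nat_lit 2105039622) (nat_lit 836) (nat_lit 789671242) (nat_lit 359) (nat_lit 1) (nat_lit 358) (nat_lit 1) (nat_lit 369) (nat_lit 1) (nat_lit 393) (nat_lit 396) (nat_lit 351)) (XT.nd (nat_lit 78) (nat_lit 0) (nat_lit 0) (XT.lf (nat_lit 760) (nat_lit 1049272856) (nat_lit 0) (nat_lit 1301939217) (nat_lit 684) (nat_lit 1301939217) (nat_lit 359) (nat_lit 1) (nat_lit 349) (nat_lit 1) (nat_lit 358) (nat_lit 1) (nat_lit 394) (nat_lit 396) (nat_lit 350)) (XT.lf (nat_lit 76) (nat_lit 261323961) (nat_lit 0) (nat_lit 3099748667) (nat_lit 760) (nat_lit 261323961) (nat_lit 350) (nat_lit 1) (nat_lit 349) (nat_lit 1) (nat_lit 359) (nat_lit 1) (nat_lit 395) (nat_lit 396) (nat_lit 349)))) (XT.nd (nat_lit 78) (nat_lit 684) (nat_lit 0) (XT.lf (nat_lit 76) (nat_lit 1788991657) (nat_lit 0) (nat_lit 13859922) (nat_lit 760) (nat_lit 1788991657) (nat_lit 340) (nat_lit 1) (nat_lit 339) (nat_lit 1) (nat_lit 349) (nat_lit 1) (nat_lit 396) (nat_lit 396) (nat_lit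 348)) (XT.nd (nat_lit 78) (nat_lit 0) (nat_lit 0) (XT.lf (nat_lit 760) (nat_lit 3025187310) (nat_lit 0) (nat_lit 268283175) (nat_lit 684) (nat_lit 268283175) (nat_lit 340) (nat_lit 1) (nat_lit 330) (nat_lit 1) (nat_lit 339) (nat_lit 1) (nat_lit 397) (nat_lit 396) (nat_lit 347)) (XT.lf (nat_lit 76) (nat_lit 1231598044) (nat_lit 0) (nat_lit 1068665155) (nat_lit 760) (nat_lit 1231598044) (nat_lit 331) (nat_lit 1) (nat_lit 330) (nat_lit 1) (nat_lit 340) (nat_lit 1) (nat_lit 398) (nat_lit 396) (nat_lit 346))))) (XT.nd (nat_lit 234) (nat_lit 1292) (nat_lit 0) (XT.nd (nat_lit 78) (nat_lit 608) (nat_lit 0) (XT.lf (nat_lit 760) (nat_lit 1905193613) (nat_lit 0) (nat_lit 798611742) (nat_lit 684) (nat_lit 798611742) (nat_lit 331) (nat_lit 1) (nat_lit 321) (nat_lit 1) (nat_lit 330) (nat_lit 1) (nat_lit 399) (nat_lit 396) (nat_lit 345)) (XT.nd (nat_lit 78) (nat_lit 608) (nat_lit 0) (XT.lf (nat_lit 76) (nat_lit 672757592) (nat_lit 0) (nat_lit 2127787707)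 (nat_lit 760) (nat_lit 672757592) (nat_lit 322) (nat_lit 1) (nat_lit 321) (nat_lit 1) (nat_lit 331) (nat_lit 1) (nat_lit 400) (nat_lit 396) (nat_lit 344)) (XT.lf (nat_lit 684) (nat_lit 782812241) (nat_lit 0) (nat_lit 1330836415) (nat_lit 608) (nat_lit 1330836415) (nat_lit 322) (nat_lit 1) (nat_lit 313) (nat_lit 1) (nat_lit 321) (nat_lit 1) (nat_lit 401) (nat_lit 396) (nat_lit 343)))) (XT.nd (nat_lit 78) (nat_lit 1292) (nat_lit 0) (XT.lf (nat_lit 76) (nat_lit 112979250) (nat_lit 0) (nat_lit 3190172154) (nat_lit 684) (nat_lit 112979250) (nat_lit 314) (nat_lit 1) (nat_lit 313) (nat_lit 1) (nat_lit 322) (nat_lit 1) (nat_lit 402) (nat_lit 396) (nat_lit 342)) (XT.nd (nat_lit 78) (nat_lit 608) (nat_lit 0) (XT.lf (nat_lit 76) (nat_lit 1525691851) (nat_lit 0) (nat_lit 336492701) (nat_lit 684) (nat_lit 1525691851) (nat_lit 305) (nat_lit 1) (nat_lit 304) (nat_lit 1) (nat_lit 313) (nat_lit 1) (nat_lit 403) (nat_lit 396) (nat_lit 341)) (XT.lf (nat_lit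 684) (nat_lit 2471446634) (nat_lit 0) (nat_lit 444314194) (nat_lit 608) (nat_lit 444314194) (nat_lit 305) (nat_lit 1) (nat_lit 296) (nat_lit 1) (nat_lit 304) (nat_lit 1) (nat_lit 404) (nat_lit 396) (nat_lit 340))))))) (XT.nd (nat_lit 936) (nat_lit 3344) (nat_lit 0) (XT.nd (nat_lit 468) (nat_lit 2204) (nat_lit 0) (XT.nd (nat_lit 234) (nat_lit 1216) (nat_lit 0) (XT.nd (nat_lit 78) (nat_lit 608) (nat_lit 0) (XT.lf (nat_lit 76) (nat_lit 943256842) (nat_lit 0) (nat_lit 1445984158) (nat_lit 684) (nat_lit 943256842) (nat_lit 297) (nat_lit 1) (nat_lit 296) (nat_lit 1) (nat_lit 305) (nat_lit 1) (nat_lit 405) (nat_lit 396) (nat_lit 339)) (XT.nd (nat_lit 78) (nat_lit 0) (nat_lit 0) (XT.lf (nat_lit 684) (nat_lit 1303536956) (nat_lit 0) (nat_lit 1000868953) (nat_lit 608) (nat_lit 1000868953) (nat_lit 297) (nat_lit 1) (nat_lit 288) (nat_lit 1) (nat_lit 296) (nat_lit 1) (nat_lit 406) (nat_lit 396) (nat_lit 338)) (XT.lf (nat_lit 76) (nat_lit 361679224)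 (nat_lit 0) (nat_lit 2555057947) (nat_lit 684) (nat_lit 361679224) (nat_lit 289) (nat_lit 1) (nat_lit 288) (nat_lit 1) (nat_lit 297) (nat_lit 1) (nat_lit 407) (nat_lit 396) (nat_lit 337)))) (XT.nd (nat_lit 78) (nat_lit 684) (nat_lit 0) (XT.lf (nat_lit 608) (nat_lit 137746398) (nat_lit 0) (nat_lit 1557004284) (nat_lit 532) (nat_lit 1557004284) (nat_lit 289) (nat_lit 1) (nat_lit 281) (nat_lit 1) (nat_lit 288) (nat_lit 1) (nat_lit 408) (nat_lit 396) (nat_lit 336)) (XT.nd (nat_lit 78) (nat_lit 0) (nat_lit 0) (XT.lf (nat_lit 684) (nat_lit 2791066127) (nat_lit 0) (nat_lit 217209173) (nat_lit 608) (nat_lit 217209173) (nat_lit 281) (nat_lit 1) (nat_lit 272) (nat_lit 1) (nat_lit 280) (nat_lit 1) (nat_lit 409) (nat_lit 396) (nat_lit 335)) (XT.lf (nat_lit 76) (nat_lit 1093817320) (nat_lit 0) (nat_lit 1011714484) (nat_lit 684) (nat_lit 1093817320) (nat_lit 273) (nat_lit 1) (nat_lit 272) (nat_lit 1) (nat_lit 281) (nat_lit 1) (nat_lit 410) (nat_lit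 396) (nat_lit 334))))) (XT.nd (nat_lit 234) (nat_lit 1140) (nat_lit 0) (XT.nd (nat_lit 78) (nat_lit 532) (nat_lit 0) (XT.lf (nat_lit 608) (nat_lit 1589379128) (nat_lit 0) (nat_lit 792108297) (nat_lit 532) (nat_lit 792108297) (nat_lit 273) (nat_lit 1) (nat_lit 265) (nat_lit 1) (nat_lit 272) (nat_lit 1) (nat_lit 411) (nat_lit 396) (nat_lit 333)) (XT.nd (nat_lit 78) (nat_lit 532) (nat_lit 0) (XT.lf (nat_lit 76) (nat_lit 496164213) (nat_lit 0) (nat_lit 2155812477) (nat_lit 608) (nat_lit 496164213) (nat_lit 266) (nat_lit 1) (nat_lit 265) (nat_lit 1) (nat_lit 273) (nat_lit 1) (nat_lit 412) (nat_lit 396) (nat_lit 332)) (XT.lf (nat_lit 608) (nat_lit 392801624) (nat_lit 0) (nat_lit 1365052738) (nat_lit 532) (nat_lit 1365052738) (nat_lit 266) (nat_lit 1) (nat_lit 258) (nat_lit 1) (nat_lit 265) (nat_lit 1) (nat_lit 413) (nat_lit 396) (nat_lit 331)))) (XT.nd (nat_lit 78) (nat_lit 532) (nat_lit 0) (XT.lf (nat_lit 608) (nat_lit 2901794313) (nat_lit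 0) (nat_lit 98135637) (nat_lit 532) (nat_lit 98135637) (nat_lit 258) (nat_lit 1) (nat_lit 250) (nat_lit 1) (nat_lit 257) (nat_lit 1) (nat_lit 414) (nat_lit 396) (nat_lit 330)) (XT.nd (nat_lit 78) (nat_lit 532) (nat_lit 0) (XT.lf (nat_lit 76) (nat_lit 1142850451) (nat_lit 0) (nat_lit 787583449) (nat_lit 608) (nat_lit 1142850451) (nat_lit 251) (nat_lit 1) (nat_lit 250) (nat_lit 1) (nat_lit 258) (nat_lit 1) (nat_lit 415) (nat_lit 396) (nat_lit 329)) (XT.lf (nat_lit 608) (nat_lit 1676506284) (nat_lit 0) (nat_lit 686190569) (nat_lit 532) (nat_lit 686190569) (nat_lit 251) (nat_lit 1) (nat_lit 243) (nat_lit 1) (nat_lit 250) (nat_lit 1) (nat_lit 416) (nat_lit 396) (nat_lit 328)))))) (XT.nd (nat_lit 468) (nat_lit 1824) (nat_lit 0) (XT.nd (nat_lit 234) (nat_lit 456) (nat_lit 0) (XT.nd (nat_lit 78) (nat_lit 1064) (nat_lit 0) (XT.lf (nat_lit 76) (nat_lit 534076984) (nat_lit 0) (nat_lit 1956597198) (nat_lit 608) (nat_lit 534076984) (nat_lit 244) (nat_lit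 1) (nat_lit 243) (nat_lit 1) (nat_lit 251) (nat_lit 1) (nat_lit 417) (nat_lit 396) (nat_lit 327)) (XT.nd (nat_lit 78) (nat_lit 608) (nat_lit 0) (XT.lf (nat_lit 532) (nat_lit 458857778) (nat_lit 0) (nat_lit 1270988996) (nat_lit 456) (nat_lit 1270988996) (nat_lit 244) (nat_lit 1) (nat_lit 237) (nat_lit 1) (nat_lit 243) (nat_lit 1) (nat_lit 418) (nat_lit 396) (nat_lit 326)) (XT.lf (nat_lit 608) (nat_lit 2836693741) (nat_lit 0) (nat_lit 70299549) (nat_lit 532) (nat_lit 70299549) (nat_lit 237) (nat_lit 1) (nat_lit 229) (nat_lit 1) (nat_lit 236) (nat_lit 1) (nat_lit 419) (nat_lit 396) (nat_lit 325)))) (XT.nd (nat_lit 78) (nat_lit 456) (nat_lit 0) (XT.lf (nat_lit 76) (nat_lit 1106482574) (nat_lit 0) (nat_lit 740819617) (nat_lit 608) (nat_lit 1106482574) (nat_lit 230) (nat_lit 1) (nat_lit 229) (nat_lit 1) (nat_lit 237) (nat_lit 1) (nat_lit 420) (nat_lit 396) (nat_lit 324)) (XT.nd (nat_lit 78) (nat_lit 0) (nat_lit 0) (XT.lf (nat_lit 532) (nat_lit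 1596592717) (nat_lit 0) (nat_lit 667024676) (nat_lit 456) (nat_lit 667024676) (nat_lit 230) (nat_lit 1) (nat_lit 223) (nat_lit 1) (nat_lit 229) (nat_lit 1) (nat_lit 421) (nat_lit 396) (nat_lit 323)) (XT.lf (nat_lit 76) (nat_lit 490866278) (nat_lit 0) (nat_lit 1926013271) (nat_lit 532) (nat_lit 490866278) (nat_lit 224) (nat_lit 1) (nat_lit 223) (nat_lit 1) (nat_lit 230) (nat_lit 1) (nat_lit 422) (nat_lit 396) (nat_lit 322))))) (XT.nd (nat_lit 234) (nat_lit 836) (nat_lit 0) (XT.nd (nat_lit 78) (nat_lit 532) (nat_lit 0) (XT.lf (nat_lit 532) (nat_lit 366257339) (nat_lit 0) (nat_lit 1259396370) (nat_lit 456) (nat_lit 1259396370) (nat_lit 224) (nat_lit 1) (nat_lit 217) (nat_lit 1) (nat_lit 223) (nat_lit 1) (nat_lit 423) (nat_lit 396) (nat_lit 321)) (XT.nd (nat_lit 78) (nat_lit 0) (nat_lit 0) (XT.lf (nat_lit 532) (nat_lit 2624690230) (nat_lit 0) (nat_lit 118999564) (nat_lit 456) (nat_lit 118999564) (nat_lit 217) (nat_lit 1) (nat_lit 210) (nat_lit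 1) (nat_lit 216) (nat_lit 1) (nat_lit 424) (nat_lit 396) (nat_lit 320)) (XT.lf (nat_lit 76) (nat_lit 998820156) (nat_lit 0) (nat_lit 842739318) (nat_lit 532) (nat_lit 998820156) (nat_lit 211) (nat_lit 1) (nat_lit 210) (nat_lit 1) (nat_lit 217) (nat_lit 1) (nat_lit 425) (nat_lit 396) (nat_lit 319)))) (XT.nd (nat_lit 78) (nat_lit 380) (nat_lit 0) (XT.lf (nat_lit 532) (nat_lit 1377341155) (nat_lit 0) (nat_lit 720528740) (nat_lit 456) (nat_lit 720528740) (nat_lit 211) (nat_lit 1) (nat_lit 204) (nat_lit 1) (nat_lit 210) (nat_lit 1) (nat_lit 426) (nat_lit 396) (nat_lit 318)) (XT.nd (nat_lit 78) (nat_lit 380) (nat_lit 0) (XT.lf (nat_lit 76) (nat_lit 380041630) (nat_lit 0) (nat_lit 2036586528) (nat_lit 532) (nat_lit 380041630) (nat_lit 205) (nat_lit 1) (nat_lit 204) (nat_lit 1) (nat_lit 211) (nat_lit 1) (nat_lit 427) (nat_lit 396) (nat_lit 317)) (XT.lf (nat_lit 456) (nat_lit 141529867) (nat_lit 0) (nat_lit 1316787206) (nat_lit 380) (nat_lit 1316787206)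 (nat_lit 205) (nat_lit 1) (nat_lit 199) (nat_lit 1) (nat_lit 204) (nat_lit 1) (nat_lit 428) (nat_lit 396) (nat_lit 316))))))))
noncomputable def ec41 : XT := (XT.nd (nat_lit 54444) (nat_lit 0) (nat_lit 12996) (XT.nd (nat_lit 53508) (nat_lit 0) (nat_lit 23864) (XT.nd (nat_lit 53040) (nat_lit 0) (nat_lit 23636) (XT.nd (nat_lit 234) (nat_lit 0) (nat_lit 0) (XT.nd (nat_lit 78) (nat_lit 380) (nat_lit 0) (XT.lf (nat_lit 532) (nat_lit 2291054235) (nat_lit 0) (nat_lit 231383812) (nat_lit 456) (nat_lit 231383812) (nat_lit 199) (nat_lit 1) (nat_lit 192) (nat_lit 1) (nat_lit 198) (nat_lit 1) (nat_lit 429) (nat_lit 396) (nat_lit 315)) (XT.nd (nat_lit 78) (nat_lit 380) (nat_lit 0) (XT.lf (nat_lit 76) (nat_lit 832184913) (nat_lit 0) (nat_lit 1068271398) (nat_lit 532) (nat_lit 832184913) (nat_lit 193) (nat_lit 1) (nat_lit 192) (nat_lit 1) (nat_lit 199) (nat_lit 1) (nat_lit 430) (nat_lit 396) (nat_lit 314)) (XT.lf (nat_lit 456) (nat_lit 1042945247) (nat_lit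 0) (nat_lit 834396421) (nat_lit 380) (nat_lit 834396421) (nat_lit 193) (nat_lit 1) (nat_lit 187) (nat_lit 1) (nat_lit 192) (nat_lit 1) (nat_lit 431) (nat_lit 396) (nat_lit 313)))) (XT.nd (nat_lit 52650) (nat_lit 0) (nat_lit 23560) (XT.lf (nat_lit 76) (nat_lit 213399270) (nat_lit 0) (nat_lit 2264310850) (nat_lit 456) (nat_lit 213399270) (nat_lit 188) (nat_lit 1) (nat_lit 187) (nat_lit 1) (nat_lit 193) (nat_lit 1) (nat_lit 432) (nat_lit 396) (nat_lit 312)) (XT.nd (nat_lit 78) (nat_lit 0) (nat_lit 0) (XT.lf (nat_lit 1900) (nat_lit 944470234) (nat_lit 0) (nat_lit 952368202) (nat_lit 1900) (nat_lit 944470234) (nat_lit 522) (nat_lit 1) (nat_lit 497) (nat_lit 0) (nat_lit 522) (nat_lit 0) (nat_lit 346) (nat_lit 397) (nat_lit 397)) (XT.lf (nat_lit 1900) (nat_lit 3734577308) (nat_lit 76) (nat_lit 946102621) (nat_lit 0) (nat_lit 946102621) (nat_lit 522) (nat_lit 1) (nat_lit 498) (nat_lit 1) (nat_lit 497) (nat_lit 0) (nat_lit 347) (nat_lit 397) (nat_lit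 396))))) (XT.nd (nat_lit 234) (nat_lit 0) (nat_lit 76) (XT.nd (nat_lit 78) (nat_lit 0) (nat_lit 0) (XT.lf (nat_lit 1900) (nat_lit 1833695235) (nat_lit 0) (nat_lit 1904167144) (nat_lit 1824) (nat_lit 1833695235) (nat_lit 523) (nat_lit 1) (nat_lit 498) (nat_lit 1) (nat_lit 522) (nat_lit 1) (nat_lit 348) (nat_lit 397) (nat_lit 395)) (XT.nd (nat_lit 78) (nat_lit 0) (nat_lit 76) (XT.lf (nat_lit 1900) (nat_lit 3588993606) (nat_lit 76) (nat_lit 964088139) (nat_lit 0) (nat_lit 964088139) (nat_lit 523) (nat_lit 1) (nat_lit 499) (nat_lit 1) (nat_lit 498) (nat_lit 1) (nat_lit 349) (nat_lit 397) (nat_lit 394)) (XT.lf (nat_lit 1900) (nat_lit 1744182882) (nat_lit 0) (nat_lit 1975016773) (nat_lit 1824) (nat_lit 1744182882) (nat_lit 524) (nat_lit 1) (nat_lit 499) (nat_lit 1) (nat_lit 523) (nat_lit 1) (nat_lit 350) (nat_lit 397) (nat_lit 393)))) (XT.nd (nat_lit 78) (nat_lit 0) (nat_lit 76) (XT.lf (nat_lit 1900) (nat_lit 3376717488) (nat_lit 76) (nat_lit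 1016838791) (nat_lit 0) (nat_lit 1016838791) (nat_lit 524) (nat_lit 1) (nat_lit 500) (nat_lit 1) (nat_lit 499) (nat_lit 1) (nat_lit 351) (nat_lit 397) (nat_lit 392)) (XT.nd (nat_lit 78) (nat_lit 0) (nat_lit 0) (XT.lf (nat_lit 1900) (nat_lit 1622448012) (nat_lit 0) (nat_lit 2113112069) (nat_lit 1824) (nat_lit 1622448012) (nat_lit 525) (nat_lit 1) (nat_lit 500) (nat_lit 1) (nat_lit 524) (nat_lit 1) (nat_lit 352) (nat_lit 397) (nat_lit 391)) (XT.lf (nat_lit 1900) (nat_lit 3101757244) (nat_lit 76) (nat_lit 1102309240) (nat_lit 0) (nat_lit 1102309240) (nat_lit 525) (nat_lit 1) (nat_lit 501) (nat_lit 1) (nat_lit 500) (nat_lit 1) (nat_lit 353) (nat_lit 397) (nat_lit 390)))))) (XT.nd (nat_lit 468) (nat_lit 0) (nat_lit 228) (XT.nd (nat_lit 234) (nat_lit 0) (nat_lit 76) (XT.nd (nat_lit 78) (nat_lit 0) (nat_lit 0) (XT.lf (nat_lit 1900) (nat_lit 1470441833) (nat_lit 0) (nat_lit 2314469314) (nat_lit 1824) (nat_lit 1470441833) (nat_lit 526) (nat_lit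 1) (nat_lit 501) (nat_lit 1) (nat_lit 525) (nat_lit 1) (nat_lit 354) (nat_lit 397) (nat_lit 389)) (XT.nd (nat_lit 78) (nat_lit 0) (nat_lit 76) (XT.lf (nat_lit 1900) (nat_lit 2767937702) (nat_lit 76) (nat_lit 1218547209) (nat_lit 0) (nat_lit 1218547209) (nat_lit 526) (nat_lit 1) (nat_lit 502) (nat_lit 1) (nat_lit 501) (nat_lit 1) (nat_lit 355) (nat_lit 397) (nat_lit 388)) (XT.lf (nat_lit 1900) (nat_lit 1290026060) (nat_lit 0) (nat_lit 2575286395) (nat_lit 1824) (nat_lit 1290026060) (nat_lit 527) (nat_lit 1) (nat_lit 502) (nat_lit 1) (nat_lit 526) (nat_lit 1) (nat_lit 356) (nat_lit 397) (nat_lit 387)))) (XT.nd (nat_lit 78) (nat_lit 0) (nat_lit 76) (XT.lf (nat_lit 1900) (nat_lit 2378907897) (nat_lit 76) (nat_lit 1363689595) (nat_lit 0) (nat_lit 1363689595) (nat_lit 527) (nat_lit 1) (nat_lit 503) (nat_lit 1) (nat_lit 502) (nat_lit 1) (nat_lit 357) (nat_lit 397) (nat_lit 386)) (XT.nd (nat_lit 78) (nat_lit 0) (nat_lit 0) (XT.lf (nat_lit 1900)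 (nat_lit 1082976660) (nat_lit 0) (nat_lit 2891935221) (nat_lit 1824) (nat_lit 1082976660) (nat_lit 528) (nat_lit 1) (nat_lit 503) (nat_lit 1) (nat_lit 527) (nat_lit 1) (nat_lit 358) (nat_lit 397) (nat_lit 385)) (XT.lf (nat_lit 1900) (nat_lit 1938148435) (nat_lit 76) (nat_lit 1535958748) (nat_lit 0) (nat_lit 1535958748) (nat_lit 528) (nat_lit 1) (nat_lit 504) (nat_lit 1) (nat_lit 503) (nat_lit 1) (nat_lit 359) (nat_lit 397) (nat_lit 384))))) (XT.nd (nat_lit 234) (nat_lit 0) (nat_lit 76) (XT.nd (nat_lit 78) (nat_lit 0) (nat_lit 0) (XT.lf (nat_lit 1900) (nat_lit 850987446) (nat_lit 0) (nat_lit 3260954453) (nat_lit 1824) (nat_lit 850987446) (nat_lit 529) (nat_lit 1) (nat_lit 504) (nat_lit 1) (nat_lit 528) (nat_lit 1) (nat_lit 360) (nat_lit 397) (nat_lit 383)) (XT.nd (nat_lit 78) (nat_lit 0) (nat_lit 76) (XT.lf (nat_lit 1900) (nat_lit 1448978555) (nat_lit 76) (nat_lit 1733658895) (nat_lit 0) (nat_lit 1733658895) (nat_lit 529) (nat_lit 1) (nat_lit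 505) (nat_lit 1) (nat_lit 504) (nat_lit 1) (nat_lit 361) (nat_lit 397) (nat_lit 382)) (XT.lf (nat_lit 1900) (nat_lit 595673522) (nat_lit 0) (nat_lit 3679042517) (nat_lit 1824) (nat_lit 595673522) (nat_lit 530) (nat_lit 1) (nat_lit 505) (nat_lit 1) (nat_lit 529) (nat_lit 1) (nat_lit 362) (nat_lit 397) (nat_lit 381)))) (XT.nd (nat_lit 78) (nat_lit 0) (nat_lit 76) (XT.lf (nat_lit 1900) (nat_lit 914562907) (nat_lit 76) (nat_lit 1955172707) (nat_lit 0) (nat_lit 1955172707) (nat_lit 530) (nat_lit 1) (nat_lit 506) (nat_lit 1) (nat_lit 505) (nat_lit 1) (nat_lit 363) (nat_lit 397) (nat_lit 380)) (XT.nd (nat_lit 78) (nat_lit 0) (nat_lit 0) (XT.lf (nat_lit 1900) (nat_lit 318574600) (nat_lit 0) (nat_lit 4143050908) (nat_lit 1824) (nat_lit 318574600) (nat_lit 531) (nat_lit 1) (nat_lit 506) (nat_lit 1) (nat_lit 530) (nat_lit 1) (nat_lit 364) (nat_lit 397) (nat_lit 379)) (XT.lf (nat_lit 1900) (nat_lit 337918065) (nat_lit 76) (nat_lit 2198958007) (nat_lit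 0) (nat_lit 2198958007) (nat_lit 531) (nat_lit 1) (nat_lit 507) (nat_lit 1) (nat_lit 506) (nat_lit 1) (nat_lit 365) (nat_lit 397) (nat_lit 378))))))) (XT.nd (nat_lit 936) (nat_lit 6612) (nat_lit 0) (XT.nd (nat_lit 468) (nat_lit 2812) (nat_lit 0) (XT.nd (nat_lit 234) (nat_lit 0) (nat_lit 76) (XT.nd (nat_lit 78) (nat_lit 1900) (nat_lit 0) (XT.lf (nat_lit 1900) (nat_lit 21158169) (nat_lit 0) (nat_lit 4649977754) (nat_lit 1824) (nat_lit 21158169) (nat_lit 532) (nat_lit 1) (nat_lit 507) (nat_lit 1) (nat_lit 531) (nat_lit 1) (nat_lit 366) (nat_lit 397) (nat_lit 377)) (XT.nd (nat_lit 78) (nat_lit 0) (nat_lit 0) (XT.lf (nat_lit 1976) (nat_lit 2187268865) (nat_lit 0) (nat_lit 274434148) (nat_lit 1900) (nat_lit 2187268865) (nat_lit 508) (nat_lit 1) (nat_lit 482) (nat_lit 1) (nat_lit 507) (nat_lit 1) (nat_lit 367) (nat_lit 397) (nat_lit 376)) (XT.lf (nat_lit 1976) (nat_lit 4019981917) (nat_lit 76) (nat_lit 293235495) (nat_lit 0) (nat_lit 293235495)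 (nat_lit 508) (nat_lit 1) (nat_lit 483) (nat_lit 1) (nat_lit 482) (nat_lit 1) (nat_lit 368) (nat_lit 397) (nat_lit 375)))) (XT.nd (nat_lit 78) (nat_lit 0) (nat_lit 0) (XT.lf (nat_lit 1976) (nat_lit 1822877891) (nat_lit 0) (nat_lit 918489852) (nat_lit 1900) (nat_lit 1822877891) (nat_lit 509) (nat_lit 1) (nat_lit 483) (nat_lit 1) (nat_lit 508) (nat_lit 1) (nat_lit 369) (nat_lit 397) (nat_lit 374)) (XT.nd (nat_lit 78) (nat_lit 0) (nat_lit 76) (XT.lf (nat_lit 1976) (nat_lit 3272824719) (nat_lit 76) (nat_lit 624961375) (nat_lit 0) (nat_lit 624961375) (nat_lit 509) (nat_lit 1) (nat_lit 484) (nat_lit 1) (nat_lit 483) (nat_lit 1) (nat_lit 370) (nat_lit 397) (nat_lit 373)) (XT.lf (nat_lit 76) (nat_lit 1442765846) (nat_lit 0) (nat_lit 1596106316) (nat_lit 1900) (nat_lit 1442765846) (nat_lit 485) (nat_lit 1) (nat_lit 484) (nat_lit 1) (nat_lit 509) (nat_lit 1) (nat_lit 371) (nat_lit 397) (nat_lit 372))))) (XT.nd (nat_lit 234) (nat_lit 912) (nat_lit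 0) (XT.nd (nat_lit 78) (nat_lit 912) (nat_lit 0) (XT.lf (nat_lit 1216) (nat_lit 2495331948) (nat_lit 0) (nat_lit 972898385) (nat_lit 1140) (nat_lit 972898385) (nat_lit 485) (nat_lit 1) (nat_lit 469) (nat_lit 1) (nat_lit 484) (nat_lit 1) (nat_lit 372) (nat_lit 397) (nat_lit 371)) (XT.nd (nat_lit 78) (nat_lit 912) (nat_lit 0) (XT.lf (nat_lit 76) (nat_lit 1048128901) (nat_lit 0) (nat_lit 2304831900) (nat_lit 1216) (nat_lit 1048128901) (nat_lit 470) (nat_lit 1) (nat_lit 469) (nat_lit 1) (nat_lit 485) (nat_lit 1) (nat_lit 373) (nat_lit 397) (nat_lit 370)) (XT.lf (nat_lit 988) (nat_lit 1689845271) (nat_lit 0) (nat_lit 1335846585) (nat_lit 912) (nat_lit 1335846585) (nat_lit 470) (nat_lit 1) (nat_lit 457) (nat_lit 1) (nat_lit 469) (nat_lit 1) (nat_lit 374) (nat_lit 397) (nat_lit 369)))) (XT.nd (nat_lit 78) (nat_lit 912) (nat_lit 0) (XT.lf (nat_lit 76) (nat_lit 640105292) (nat_lit 0) (nat_lit 3042332681) (nat_lit 988) (nat_lit 640105292) (nat_lit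 458) (nat_lit 1) (nat_lit 457) (nat_lit 1) (nat_lit 470) (nat_lit 1) (nat_lit 375) (nat_lit 397) (nat_lit 368)) (XT.nd (nat_lit 78) (nat_lit 0) (nat_lit 0) (XT.lf (nat_lit 988) (nat_lit 858592606) (nat_lit 0) (nat_lit 1712663819) (nat_lit 912) (nat_lit 1712663819) (nat_lit 458) (nat_lit 1) (nat_lit 445) (nat_lit 1) (nat_lit 457) (nat_lit 1) (nat_lit 376) (nat_lit 397) (nat_lit 367)) (XT.lf (nat_lit 76) (nat_lit 219777800) (nat_lit 0) (nat_lit 3806387443) (nat_lit 988) (nat_lit 219777800) (nat_lit 446) (nat_lit 1) (nat_lit 445) (nat_lit 1) (nat_lit 458) (nat_lit 1) (nat_lit 377) (nat_lit 397) (nat_lit 366)))))) (XT.nd (nat_lit 468) (nat_lit 3116) (nat_lit 0) (XT.nd (nat_lit 234) (nat_lit 1672) (nat_lit 0) (XT.nd (nat_lit 78) (nat_lit 988) (nat_lit 0) (XT.lf (nat_lit 912) (nat_lit 3692986) (nat_lit 0) (nat_lit 2102263244) (nat_lit 836) (nat_lit 2102263244) (nat_lit 446) (nat_lit 1) (nat_lit 434) (nat_lit 1) (nat_lit 445) (nat_lit 1) (nat_lit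 378) (nat_lit 397) (nat_lit 365)) (XT.nd (nat_lit 78) (nat_lit 0) (nat_lit 0) (XT.lf (nat_lit 988) (nat_lit 3750264109) (nat_lit 0) (nat_lit 210430301) (nat_lit 912) (nat_lit 210430301) (nat_lit 434) (nat_lit 1) (nat_lit 421) (nat_lit 1) (nat_lit 433) (nat_lit 1) (nat_lit 379) (nat_lit 397) (nat_lit 364)) (XT.lf (nat_lit 76) (nat_lit 1636439256) (nat_lit 0) (nat_lit 861391330) (nat_lit 988) (nat_lit 1636439256) (nat_lit 422) (nat_lit 1) (nat_lit 421) (nat_lit 1) (nat_lit 434) (nat_lit 1) (nat_lit 380) (nat_lit 397) (nat_lit 363)))) (XT.nd (nat_lit 78) (nat_lit 836) (nat_lit 0) (XT.lf (nat_lit 912) (nat_lit 2799186369) (nat_lit 0) (nat_lit 649420065) (nat_lit 836) (nat_lit 649420065) (nat_lit 422) (nat_lit 1) (nat_lit 410) (nat_lit 1) (nat_lit 421) (nat_lit 1) (nat_lit 381) (nat_lit 397) (nat_lit 362)) (XT.nd (nat_lit 78) (nat_lit 836) (nat_lit 0) (XT.lf (nat_lit 76) (nat_lit 1158122324) (nat_lit 0) (nat_lit 1745885676) (nat_lit 912) (nat_lit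 1158122324) (nat_lit 411) (nat_lit 1) (nat_lit 410) (nat_lit 1) (nat_lit 422) (nat_lit 1) (nat_lit 382) (nat_lit 397) (nat_lit 361)) (XT.lf (nat_lit 912) (nat_lit 1831286285) (nat_lit 0) (nat_lit 1097713248) (nat_lit 836) (nat_lit 1097713248) (nat_lit 411) (nat_lit 1) (nat_lit 399) (nat_lit 1) (nat_lit 410) (nat_lit 1) (nat_lit 383) (nat_lit 397) (nat_lit 360))))) (XT.nd (nat_lit 234) (nat_lit 2356) (nat_lit 0) (XT.nd (nat_lit 78) (nat_lit 760) (nat_lit 0) (XT.lf (nat_lit 76) (nat_lit 671854592) (nat_lit 0) (nat_lit 2648042716) (nat_lit 912) (nat_lit 671854592) (nat_lit 400) (nat_lit 1) (nat_lit 399) (nat_lit 1) (nat_lit 411) (nat_lit 1) (nat_lit 384) (nat_lit 397) (nat_lit 359)) (XT.nd (nat_lit 78) (nat_lit 0) (nat_lit 0) (XT.lf (nat_lit 836) (nat_lit 848271085) (nat_lit 0) (nat_lit 1554431923) (nat_lit 760) (nat_lit 1554431923) (nat_lit 400) (nat_lit 1) (nat_lit 389) (nat_lit 1) (nat_lit 399) (nat_lit 1) (nat_lit 385) (nat_lit 397)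 (nat_lit 358)) (XT.lf (nat_lit 76) (nat_lit 178464884) (nat_lit 0) (nat_lit 3566156808) (nat_lit 836) (nat_lit 178464884) (nat_lit 390) (nat_lit 1) (nat_lit 389) (nat_lit 1) (nat_lit 400) (nat_lit 1) (nat_lit 386) (nat_lit 397) (nat_lit 357)))) (XT.nd (nat_lit 156) (nat_lit 760) (nat_lit 0) (XT.nd (nat_lit 78) (nat_lit 760) (nat_lit 0) (XT.lf (nat_lit 76) (nat_lit 1871465889) (nat_lit 0) (nat_lit 146294779) (nat_lit 836) (nat_lit 1871465889) (nat_lit 379) (nat_lit 1) (nat_lit 378) (nat_lit 1) (nat_lit 389) (nat_lit 1) (nat_lit 387) (nat_lit 397) (nat_lit 356)) (XT.lf (nat_lit 836) (nat_lit 3217626807) (nat_lit 0) (nat_lit 319146798) (nat_lit 760) (nat_lit 319146798) (nat_lit 379) (nat_lit 1) (nat_lit 368) (nat_lit 1) (nat_lit 378) (nat_lit 1) (nat_lit 388) (nat_lit 397) (nat_lit 355))) (XT.nd (nat_lit 78) (nat_lit 760) (nat_lit 0) (XT.lf (nat_lit 76) (nat_lit 1340656573) (nat_lit 0) (nat_lit 1141536345) (nat_lit 836) (nat_lit 1340656573)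 (nat_lit 369) (nat_lit 1) (nat_lit 368) (nat_lit 1) (nat_lit 379) (nat_lit 1) (nat_lit 389) (nat_lit 397) (nat_lit 354)) (XT.lf (nat_lit 836) (nat_lit 2148005332) (nat_lit 0) (nat_lit 821137219) (nat_lit 760) (nat_lit 821137219) (nat_lit 369) (nat_lit 1) (nat_lit 358) (nat_lit 1) (nat_lit 368) (nat_lit 1) (nat_lit 390) (nat_lit 397) (nat_lit 353))))))))
noncomputable def ec42 : XT := (XT.nd (nat_lit 1872) (nat_lit 5092) (nat_lit 0) (XT.nd (nat_lit 936) (nat_lit 4028) (nat_lit 0) (XT.nd (nat_lit 468) (nat_lit 2584) (nat_lit 0) (XT.nd (nat_lit 234) (nat_lit 1444) (nat_lit 0) (XT.nd (nat_lit 78) (nat_lit 684) (nat_lit 0) (XT.lf (nat_lit 76) (nat_lit 805464666) (nat_lit 0) (nat_lit 2147140415) (nat_lit 836) (nat_lit 805464666) (nat_lit 359) (nat_lit 1) (nat_lit 358) (nat_lit 1) (nat_lit 369) (nat_lit 1) (nat_lit 391) (nat_lit 397) (nat_lit 352)) (XT.nd (nat_lit 78) (nat_lit 0) (nat_lit 0) (XT.lf (nat_lit 760) (nat_lit 1070258313) (nat_lit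 0) (nat_lit 1327978001) (nat_lit 684) (nat_lit 1327978001) (nat_lit 359) (nat_lit 1) (nat_lit 349) (nat_lit 1) (nat_lit 358) (nat_lit 1) (nat_lit 392) (nat_lit 397) (nat_lit 351)) (XT.lf (nat_lit 76) (nat_lit 266550440) (nat_lit 0) (nat_lit 3161743641) (nat_lit 760) (nat_lit 266550440) (nat_lit 350) (nat_lit 1) (nat_lit 349) (nat_lit 1) (nat_lit 359) (nat_lit 1) (nat_lit 393) (nat_lit 397) (nat_lit 350)))) (XT.nd (nat_lit 78) (nat_lit 684) (nat_lit 0) (XT.lf (nat_lit 76) (nat_lit 1824771490) (nat_lit 0) (nat_lit 14137121) (nat_lit 760) (nat_lit 1824771490) (nat_lit 340) (nat_lit 1) (nat_lit 339) (nat_lit 1) (nat_lit 349) (nat_lit 1) (nat_lit 394) (nat_lit 397) (nat_lit 349)) (XT.nd (nat_lit 78) (nat_lit 0) (nat_lit 0) (XT.lf (nat_lit 760) (nat_lit 3085691056) (nat_lit 0) (nat_lit 273648838) (nat_lit 684) (nat_lit 273648838) (nat_lit 340) (nat_lit 1) (nat_lit 330) (nat_lit 1) (nat_lit 339) (nat_lit 1) (nat_lit 395) (nat_lit 397) (nat_lit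 348)) (XT.lf (nat_lit 76) (nat_lit 1256230005) (nat_lit 0) (nat_lit 1090038458) (nat_lit 760) (nat_lit 1256230005) (nat_lit 331) (nat_lit 1) (nat_lit 330) (nat_lit 1) (nat_lit 340) (nat_lit 1) (nat_lit 396) (nat_lit 397) (nat_lit 347))))) (XT.nd (nat_lit 234) (nat_lit 1292) (nat_lit 0) (XT.nd (nat_lit 78) (nat_lit 608) (nat_lit 0) (XT.lf (nat_lit 760) (nat_lit 1943297485) (nat_lit 0) (nat_lit 814583977) (nat_lit 684) (nat_lit 814583977) (nat_lit 331) (nat_lit 1) (nat_lit 321) (nat_lit 1) (nat_lit 330) (nat_lit 1) (nat_lit 397) (nat_lit 397) (nat_lit 346)) (XT.nd (nat_lit 78) (nat_lit 608) (nat_lit 0) (XT.lf (nat_lit 76) (nat_lit 686212744) (nat_lit 0) (nat_lit 2170343461) (nat_lit 760) (nat_lit 686212744) (nat_lit 322) (nat_lit 1) (nat_lit 321) (nat_lit 1) (nat_lit 331) (nat_lit 1) (nat_lit 398) (nat_lit 397) (nat_lit 345)) (XT.lf (nat_lit 684) (nat_lit 798468486) (nat_lit 0) (nat_lit 1357453143) (nat_lit 608) (nat_lit 1357453143) (nat_lit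 322) (nat_lit 1) (nat_lit 313) (nat_lit 1) (nat_lit 321) (nat_lit 1) (nat_lit 399) (nat_lit 397) (nat_lit 344)))) (XT.nd (nat_lit 78) (nat_lit 1292) (nat_lit 0) (XT.lf (nat_lit 76) (nat_lit 115238835) (nat_lit 0) (nat_lit 3253975597) (nat_lit 684) (nat_lit 115238835) (nat_lit 314) (nat_lit 1) (nat_lit 313) (nat_lit 1) (nat_lit 322) (nat_lit 1) (nat_lit 400) (nat_lit 397) (nat_lit 343)) (XT.nd (nat_lit 78) (nat_lit 608) (nat_lit 0) (XT.lf (nat_lit 76) (nat_lit 1556205688) (nat_lit 0) (nat_lit 343222555) (nat_lit 684) (nat_lit 1556205688) (nat_lit 305) (nat_lit 1) (nat_lit 304) (nat_lit 1) (nat_lit 313) (nat_lit 1) (nat_lit 401) (nat_lit 397) (nat_lit 342)) (XT.lf (nat_lit 684) (nat_lit 2520875567) (nat_lit 0) (nat_lit 453200478) (nat_lit 608) (nat_lit 453200478) (nat_lit 305) (nat_lit 1) (nat_lit 296) (nat_lit 1) (nat_lit 304) (nat_lit 1) (nat_lit 402) (nat_lit 397) (nat_lit 341)))))) (XT.nd (nat_lit 468) (nat_lit 2204) (nat_lit 0) (XT.nd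 (nat_lit 234) (nat_lit 1216) (nat_lit 0) (XT.nd (nat_lit 78) (nat_lit 608) (nat_lit 0) (XT.lf (nat_lit 76) (nat_lit 962121979) (nat_lit 0) (nat_lit 1474903841) (nat_lit 684) (nat_lit 962121979) (nat_lit 297) (nat_lit 1) (nat_lit 296) (nat_lit 1) (nat_lit 305) (nat_lit 1) (nat_lit 403) (nat_lit 397) (nat_lit 340)) (XT.nd (nat_lit 78) (nat_lit 0) (nat_lit 0) (XT.lf (nat_lit 684) (nat_lit 1329607695) (nat_lit 0) (nat_lit 1020886332) (nat_lit 608) (nat_lit 1020886332) (nat_lit 297) (nat_lit 1) (nat_lit 288) (nat_lit 1) (nat_lit 296) (nat_lit 1) (nat_lit 404) (nat_lit 397) (nat_lit 339)) (XT.lf (nat_lit 76) (nat_lit 368912808) (nat_lit 0) (nat_lit 2606159106) (nat_lit 684) (nat_lit 368912808) (nat_lit 289) (nat_lit 1) (nat_lit 288) (nat_lit 1) (nat_lit 297) (nat_lit 1) (nat_lit 405) (nat_lit 397) (nat_lit 338)))) (XT.nd (nat_lit 78) (nat_lit 684) (nat_lit 0) (XT.lf (nat_lit 608) (nat_lit 140501326) (nat_lit 0) (nat_lit 1588144370) (nat_lit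 532) (nat_lit 1588144370) (nat_lit 289) (nat_lit 1) (nat_lit 281) (nat_lit 1) (nat_lit 288) (nat_lit 1) (nat_lit 406) (nat_lit 397) (nat_lit 337)) (XT.nd (nat_lit 78) (nat_lit 0) (nat_lit 0) (XT.lf (nat_lit 684) (nat_lit 2846887450) (nat_lit 0) (nat_lit 221553357) (nat_lit 608) (nat_lit 221553357) (nat_lit 281) (nat_lit 1) (nat_lit 272) (nat_lit 1) (nat_lit 280) (nat_lit 1) (nat_lit 407) (nat_lit 397) (nat_lit 336)) (XT.lf (nat_lit 76) (nat_lit 1115693667) (nat_lit 0) (nat_lit 1031948773) (nat_lit 684) (nat_lit 1115693667) (nat_lit 273) (nat_lit 1) (nat_lit 272) (nat_lit 1) (nat_lit 281) (nat_lit 1) (nat_lit 408) (nat_lit 397) (nat_lit 335))))) (XT.nd (nat_lit 234) (nat_lit 1140) (nat_lit 0) (XT.nd (nat_lit 78) (nat_lit 532) (nat_lit 0) (XT.lf (nat_lit 608) (nat_lit 1621166711) (nat_lit 0) (nat_lit 807950463) (nat_lit 532) (nat_lit 807950463) (nat_lit 273) (nat_lit 1) (nat_lit 265) (nat_lit 1) (nat_lit 272) (nat_lit 1) (nat_lit 409) (nat_lit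 397) (nat_lit 334)) (XT.nd (nat_lit 78) (nat_lit 532) (nat_lit 0) (XT.lf (nat_lit 76) (nat_lit 506087497) (nat_lit 0) (nat_lit 2198928726) (nat_lit 608) (nat_lit 506087497) (nat_lit 266) (nat_lit 1) (nat_lit 265) (nat_lit 1) (nat_lit 273) (nat_lit 1) (nat_lit 410) (nat_lit 397) (nat_lit 333)) (XT.lf (nat_lit 608) (nat_lit 400657657) (nat_lit 0) (nat_lit 1392353792) (nat_lit 532) (nat_lit 1392353792) (nat_lit 266) (nat_lit 1) (nat_lit 258) (nat_lit 1) (nat_lit 265) (nat_lit 1) (nat_lit 411) (nat_lit 397) (nat_lit 332)))) (XT.nd (nat_lit 78) (nat_lit 532) (nat_lit 0) (XT.lf (nat_lit 608) (nat_lit 2959830199) (nat_lit 0) (nat_lit 100098350) (nat_lit 532) (nat_lit 100098350) (nat_lit 258) (nat_lit 1) (nat_lit 250) (nat_lit 1) (nat_lit 257) (nat_lit 1) (nat_lit 412) (nat_lit 397) (nat_lit 331)) (XT.nd (nat_lit 78) (nat_lit 532) (nat_lit 0) (XT.lf (nat_lit 76) (nat_lit 1165707460) (nat_lit 0) (nat_lit 803335118) (nat_lit 608) (nat_lit 1165707460)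 (nat_lit 251) (nat_lit 1) (nat_lit 250) (nat_lit 1) (nat_lit 258) (nat_lit 1) (nat_lit 413) (nat_lit 397) (nat_lit 330)) (XT.lf (nat_lit 608) (nat_lit 1710036410) (nat_lit 0) (nat_lit 699914381) (nat_lit 532) (nat_lit 699914381) (nat_lit 251) (nat_lit 1) (nat_lit 243) (nat_lit 1) (nat_lit 250) (nat_lit 1) (nat_lit 414) (nat_lit 397) (nat_lit 329))))))) (XT.nd (nat_lit 936) (nat_lit 1748) (nat_lit 0) (XT.nd (nat_lit 468) (nat_lit 1824) (nat_lit 0) (XT.nd (nat_lit 234) (nat_lit 456) (nat_lit 0) (XT.nd (nat_lit 78) (nat_lit 1064) (nat_lit 0) (XT.lf (nat_lit 76) (nat_lit 544758523) (nat_lit 0) (nat_lit 1995729142) (nat_lit 608) (nat_lit 544758523) (nat_lit 244) (nat_lit 1) (nat_lit 243) (nat_lit 1) (nat_lit 251) (nat_lit 1) (nat_lit 415) (nat_lit 397) (nat_lit 328)) (XT.nd (nat_lit 78) (nat_lit 608) (nat_lit 0) (XT.lf (nat_lit 532) (nat_lit 468034934) (nat_lit 0) (nat_lit 1296408776) (nat_lit 456) (nat_lit 1296408776) (nat_lit 244) (nat_lit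 1) (nat_lit 237) (nat_lit 1) (nat_lit 243) (nat_lit 1) (nat_lit 416) (nat_lit 397) (nat_lit 327)) (XT.lf (nat_lit 608) (nat_lit 2893427616) (nat_lit 0) (nat_lit 71705540) (nat_lit 532) (nat_lit 71705540) (nat_lit 237) (nat_lit 1) (nat_lit 229) (nat_lit 1) (nat_lit 236) (nat_lit 1) (nat_lit 417) (nat_lit 397) (nat_lit 326)))) (XT.nd (nat_lit 78) (nat_lit 456) (nat_lit 0) (XT.lf (nat_lit 76) (nat_lit 1128612226) (nat_lit 0) (nat_lit 755636009) (nat_lit 608) (nat_lit 1128612226) (nat_lit 230) (nat_lit 1) (nat_lit 229) (nat_lit 1) (nat_lit 237) (nat_lit 1) (nat_lit 418) (nat_lit 397) (nat_lit 325)) (XT.nd (nat_lit 78) (nat_lit 0) (nat_lit 0) (XT.lf (nat_lit 532) (nat_lit 1628524572) (nat_lit 0) (nat_lit 680365169) (nat_lit 456) (nat_lit 680365169) (nat_lit 230) (nat_lit 1) (nat_lit 223) (nat_lit 1) (nat_lit 229) (nat_lit 1) (nat_lit 419) (nat_lit 397) (nat_lit 324)) (XT.lf (nat_lit 76) (nat_lit 500683604) (nat_lit 0) (nat_lit 1964533537)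 (nat_lit 532) (nat_lit 500683604) (nat_lit 224) (nat_lit 1) (nat_lit 223) (nat_lit 1) (nat_lit 230) (nat_lit 1) (nat_lit 420) (nat_lit 397) (nat_lit 323))))) (XT.nd (nat_lit 234) (nat_lit 836) (nat_lit 0) (XT.nd (nat_lit 78) (nat_lit 532) (nat_lit 0) (XT.lf (nat_lit 532) (nat_lit 373582486) (nat_lit 0) (nat_lit 1284584298) (nat_lit 456) (nat_lit 1284584298) (nat_lit 224) (nat_lit 1) (nat_lit 217) (nat_lit 1) (nat_lit 223) (nat_lit 1) (nat_lit 421) (nat_lit 397) (nat_lit 322)) (XT.nd (nat_lit 78) (nat_lit 0) (nat_lit 0) (XT.lf (nat_lit 532) (nat_lit 2677184034) (nat_lit 0) (nat_lit 121379556) (nat_lit 456) (nat_lit 121379556) (nat_lit 217) (nat_lit 1) (nat_lit 210) (nat_lit 1) (nat_lit 216) (nat_lit 1) (nat_lit 422) (nat_lit 397) (nat_lit 321)) (XT.lf (nat_lit 76) (nat_lit 1018796559) (nat_lit 0) (nat_lit 859594104) (nat_lit 532) (nat_lit 1018796559) (nat_lit 211) (nat_lit 1) (nat_lit 210) (nat_lit 1) (nat_lit 217) (nat_lit 1) (nat_lit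 423) (nat_lit 397) (nat_lit 320)))) (XT.nd (nat_lit 78) (nat_lit 380) (nat_lit 0) (XT.lf (nat_lit 532) (nat_lit 1404887978) (nat_lit 0) (nat_lit 734939315) (nat_lit 456) (nat_lit 734939315) (nat_lit 211) (nat_lit 1) (nat_lit 204) (nat_lit 1) (nat_lit 210) (nat_lit 1) (nat_lit 424) (nat_lit 397) (nat_lit 319)) (XT.nd (nat_lit 78) (nat_lit 380) (nat_lit 0) (XT.lf (nat_lit 76) (nat_lit 387642463) (nat_lit 0) (nat_lit 2077318258) (nat_lit 532) (nat_lit 387642463) (nat_lit 205) (nat_lit 1) (nat_lit 204) (nat_lit 1) (nat_lit 211) (nat_lit 1) (nat_lit 425) (nat_lit 397) (nat_lit 318)) (XT.lf (nat_lit 456) (nat_lit 144360465) (nat_lit 0) (nat_lit 1343122950) (nat_lit 380) (nat_lit 1343122950) (nat_lit 205) (nat_lit 1) (nat_lit 199) (nat_lit 1) (nat_lit 204) (nat_lit 1) (nat_lit 426) (nat_lit 397) (nat_lit 317)))))) (XT.nd (nat_lit 52884) (nat_lit 0) (nat_lit 24396) (XT.nd (nat_lit 234) (nat_lit 836) (nat_lit 0) (XT.nd (nat_lit 78) (nat_lit 380)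 (nat_lit 0) (XT.lf (nat_lit 532) (nat_lit 2336875320) (nat_lit 0) (nat_lit 236011488) (nat_lit 456) (nat_lit 236011488) (nat_lit 199) (nat_lit 1) (nat_lit 192) (nat_lit 1) (nat_lit 198) (nat_lit 1) (nat_lit 427) (nat_lit 397) (nat_lit 316)) (XT.nd (nat_lit 78) (nat_lit 380) (nat_lit 0) (XT.lf (nat_lit 76) (nat_lit 848828611) (nat_lit 0) (nat_lit 1089636826) (nat_lit 532) (nat_lit 848828611) (nat_lit 193) (nat_lit 1) (nat_lit 192) (nat_lit 1) (nat_lit 199) (nat_lit 1) (nat_lit 428) (nat_lit 397) (nat_lit 315)) (XT.lf (nat_lit 456) (nat_lit 1063804152) (nat_lit 0) (nat_lit 851084350) (nat_lit 380) (nat_lit 851084350) (nat_lit 193) (nat_lit 1) (nat_lit 187) (nat_lit 1) (nat_lit 192) (nat_lit 1) (nat_lit 429) (nat_lit 397) (nat_lit 314)))) (XT.nd (nat_lit 78) (nat_lit 836) (nat_lit 0) (XT.lf (nat_lit 76) (nat_lit 217667255) (nat_lit 0) (nat_lit 2309597067) (nat_lit 456) (nat_lit 217667255) (nat_lit 188) (nat_lit 1) (nat_lit 187) (nat_lit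 1) (nat_lit 193) (nat_lit 1) (nat_lit 430) (nat_lit 397) (nat_lit 313)) (XT.nd (nat_lit 78) (nat_lit 380) (nat_lit 0) (XT.lf (nat_lit 76) (nat_lit 1265271622) (nat_lit 0) (nat_lit 193436247) (nat_lit 456) (nat_lit 1265271622) (nat_lit 182) (nat_lit 1) (nat_lit 181) (nat_lit 1) (nat_lit 187) (nat_lit 1) (nat_lit 431) (nat_lit 397) (nat_lit 312)) (XT.lf (nat_lit 456) (nat_lit 1894984126) (nat_lit 0) (nat_lit 404158967) (nat_lit 380) (nat_lit 404158967) (nat_lit 182) (nat_lit 1) (nat_lit 176) (nat_lit 1) (nat_lit 181) (nat_lit 1) (nat_lit 432) (nat_lit 397) (nat_lit 311))))) (XT.nd (nat_lit 234) (nat_lit 0) (nat_lit 76) (XT.nd (nat_lit 78) (nat_lit 0) (nat_lit 0) (XT.lf (nat_lit 1900) (nat_lit 963359638) (nat_lit 0) (nat_lit 971415566) (nat_lit 1900) (nat_lit 963359638) (nat_lit 522) (nat_lit 1) (nat_lit 497) (nat_lit 0) (nat_lit 522) (nat_lit 0) (nat_lit 344) (nat_lit 398) (nat_lit 398)) (XT.nd (nat_lit 78) (nat_lit 0) (nat_lit 76) (XT.lf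 (nat_lit 1900) (nat_lit 3809268854) (nat_lit 76) (nat_lit 965024674) (nat_lit 0) (nat_lit 965024674) (nat_lit 522) (nat_lit 1) (nat_lit 498) (nat_lit 1) (nat_lit 497) (nat_lit 0) (nat_lit 345) (nat_lit 398) (nat_lit 397)) (XT.lf (nat_lit 1900) (nat_lit 1870369139) (nat_lit 0) (nat_lit 1942250487) (nat_lit 1824) (nat_lit 1870369139) (nat_lit 523) (nat_lit 1) (nat_lit 498) (nat_lit 1) (nat_lit 522) (nat_lit 1) (nat_lit 346) (nat_lit 398) (nat_lit 396)))) (XT.nd (nat_lit 78) (nat_lit 0) (nat_lit 76) (XT.lf (nat_lit 1900) (nat_lit 3660773478) (nat_lit 76) (nat_lit 983369902) (nat_lit 0) (nat_lit 983369902) (nat_lit 523) (nat_lit 1) (nat_lit 499) (nat_lit 1) (nat_lit 498) (nat_lit 1) (nat_lit 347) (nat_lit 398) (nat_lit 395)) (XT.nd (nat_lit 78) (nat_lit 0) (nat_lit 0) (XT.lf (nat_lit 1900) (nat_lit 1779066540) (nat_lit 0) (nat_lit 2014517108) (nat_lit 1824) (nat_lit 1779066540) (nat_lit 524) (nat_lit 1) (nat_lit 499) (nat_lit 1) (nat_lit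 523) (nat_lit 1) (nat_lit 348) (nat_lit 398) (nat_lit 394)) (XT.lf (nat_lit 1900) (nat_lit 3444251838) (nat_lit 76) (nat_lit 1037175566) (nat_lit 0) (nat_lit 1037175566) (nat_lit 524) (nat_lit 1) (nat_lit 500) (nat_lit 1) (nat_lit 499) (nat_lit 1) (nat_lit 349) (nat_lit 398) (nat_lit 393))))))))
noncomputable def ec43 : XT := (XT.nd (nat_lit 1872) (nat_lit 10944) (nat_lit 0) (XT.nd (nat_lit 936) (nat_lit 3268) (nat_lit 0) (XT.nd (nat_lit 468) (nat_lit 0) (nat_lit 228) (XT.nd (nat_lit 234) (nat_lit 0) (nat_lit 76) (XT.nd (nat_lit 78) (nat_lit 0) (nat_lit 0) (XT.lf (nat_lit 1900) (nat_lit 1654896973) (nat_lit 0) (nat_lit 2155374310) (nat_lit 1824) (nat_lit 1654896973) (nat_lit 525) (nat_lit 1) (nat_lit 500) (nat_lit 1) (nat_lit 524) (nat_lit 1) (nat_lit 350) (nat_lit 398) (nat_lit 392)) (XT.nd (nat_lit 78) (nat_lit 0) (nat_lit 76) (XT.lf (nat_lit 1900) (nat_lit 3163792389) (nat_lit 76) (nat_lit 1124355425) (nat_lit 0) (nat_lit 1124355425)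 (nat_lit 525) (nat_lit 1) (nat_lit 501) (nat_lit 1) (nat_lit 500) (nat_lit 1) (nat_lit 351) (nat_lit 398) (nat_lit 391)) (XT.lf (nat_lit 1900) (nat_lit 1499850670) (nat_lit 0) (nat_lit 2360758700) (nat_lit 1824) (nat_lit 1499850670) (nat_lit 526) (nat_lit 1) (nat_lit 501) (nat_lit 1) (nat_lit 525) (nat_lit 1) (nat_lit 352) (nat_lit 398) (nat_lit 390)))) (XT.nd (nat_lit 78) (nat_lit 0) (nat_lit 76) (XT.lf (nat_lit 1900) (nat_lit 2823296456) (nat_lit 76) (nat_lit 1242918153) (nat_lit 0) (nat_lit 1242918153) (nat_lit 526) (nat_lit 1) (nat_lit 502) (nat_lit 1) (nat_lit 501) (nat_lit 1) (nat_lit 353) (nat_lit 398) (nat_lit 389)) (XT.nd (nat_lit 78) (nat_lit 0) (nat_lit 0) (XT.lf (nat_lit 1900) (nat_lit 1315826582) (nat_lit 0) (nat_lit 2626792123) (nat_lit 1824) (nat_lit 1315826582) (nat_lit 527) (nat_lit 1) (nat_lit 502) (nat_lit 1) (nat_lit 526) (nat_lit 1) (nat_lit 354) (nat_lit 398) (nat_lit 388)) (XT.lf (nat_lit 1900) (nat_lit 2426486055)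 (nat_lit 76) (nat_lit 1390963387) (nat_lit 0) (nat_lit 1390963387) (nat_lit 527) (nat_lit 1) (nat_lit 503) (nat_lit 1) (nat_lit 502) (nat_lit 1) (nat_lit 355) (nat_lit 398) (nat_lit 387))))) (XT.nd (nat_lit 234) (nat_lit 0) (nat_lit 76) (XT.nd (nat_lit 78) (nat_lit 0) (nat_lit 0) (XT.lf (nat_lit 1900) (nat_lit 1104636194) (nat_lit 0) (nat_lit 2949773925) (nat_lit 1824) (nat_lit 1104636194) (nat_lit 528) (nat_lit 1) (nat_lit 503) (nat_lit 1) (nat_lit 527) (nat_lit 1) (nat_lit 356) (nat_lit 398) (nat_lit 386)) (XT.nd (nat_lit 78) (nat_lit 0) (nat_lit 76) (XT.lf (nat_lit 1900) (nat_lit 1976911404) (nat_lit 76) (nat_lit 1566677923) (nat_lit 0) (nat_lit 1566677923) (nat_lit 528) (nat_lit 1) (nat_lit 504) (nat_lit 1) (nat_lit 503) (nat_lit 1) (nat_lit 357) (nat_lit 398) (nat_lit 385)) (XT.lf (nat_lit 1900) (nat_lit 868007195) (nat_lit 0) (nat_lit 3326173542) (nat_lit 1824) (nat_lit 868007195) (nat_lit 529) (nat_lit 1) (nat_lit 504) (nat_lit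 1) (nat_lit 528) (nat_lit 1) (nat_lit 358) (nat_lit 398) (nat_lit 384)))) (XT.nd (nat_lit 78) (nat_lit 0) (nat_lit 76) (XT.lf (nat_lit 1900) (nat_lit 1477958126) (nat_lit 76) (nat_lit 1768332073) (nat_lit 0) (nat_lit 1768332073) (nat_lit 529) (nat_lit 1) (nat_lit 505) (nat_lit 1) (nat_lit 504) (nat_lit 1) (nat_lit 359) (nat_lit 398) (nat_lit 383)) (XT.nd (nat_lit 78) (nat_lit 0) (nat_lit 0) (XT.lf (nat_lit 1900) (nat_lit 607586993) (nat_lit 0) (nat_lit 3752623368) (nat_lit 1824) (nat_lit 607586993) (nat_lit 530) (nat_lit 1) (nat_lit 505) (nat_lit 1) (nat_lit 529) (nat_lit 1) (nat_lit 360) (nat_lit 398) (nat_lit 382)) (XT.lf (nat_lit 1900) (nat_lit 932854165) (nat_lit 76) (nat_lit 1994276161) (nat_lit 0) (nat_lit 1994276161) (nat_lit 530) (nat_lit 1) (nat_lit 506) (nat_lit 1) (nat_lit 505) (nat_lit 1) (nat_lit 361) (nat_lit 398) (nat_lit 381)))))) (XT.nd (nat_lit 468) (nat_lit 1900) (nat_lit 0) (XT.nd (nat_lit 234) (nat_lit 1824) (nat_lit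 0) (XT.nd (nat_lit 78) (nat_lit 0) (nat_lit 0) (XT.lf (nat_lit 1900) (nat_lit 324946092) (nat_lit 0) (nat_lit 4225911926) (nat_lit 1824) (nat_lit 324946092) (nat_lit 531) (nat_lit 1) (nat_lit 506) (nat_lit 1) (nat_lit 530) (nat_lit 1) (nat_lit 362) (nat_lit 398) (nat_lit 380)) (XT.nd (nat_lit 78) (nat_lit 0) (nat_lit 76) (XT.lf (nat_lit 1900) (nat_lit 344676426) (nat_lit 76) (nat_lit 2242937167) (nat_lit 0) (nat_lit 2242937167) (nat_lit 531) (nat_lit 1) (nat_lit 507) (nat_lit 1) (nat_lit 506) (nat_lit 1) (nat_lit 363) (nat_lit 398) (nat_lit 379)) (XT.lf (nat_lit 1900) (nat_lit 21581332) (nat_lit 0) (nat_lit 4742977309) (nat_lit 1824) (nat_lit 21581332) (nat_lit 532) (nat_lit 1) (nat_lit 507) (nat_lit 1) (nat_lit 531) (nat_lit 1) (nat_lit 364) (nat_lit 398) (nat_lit 378)))) (XT.nd (nat_lit 78) (nat_lit 0) (nat_lit 0) (XT.lf (nat_lit 1976) (nat_lit 2231014242) (nat_lit 0) (nat_lit 279922831) (nat_lit 1900) (nat_lit 2231014242) (nat_lit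 508) (nat_lit 1) (nat_lit 482) (nat_lit 1) (nat_lit 507) (nat_lit 1) (nat_lit 365) (nat_lit 398) (nat_lit 377)) (XT.nd (nat_lit 78) (nat_lit 0) (nat_lit 76) (XT.lf (nat_lit 1976) (nat_lit 4100381556) (nat_lit 76) (nat_lit 299100205) (nat_lit 0) (nat_lit 299100205) (nat_lit 508) (nat_lit 1) (nat_lit 483) (nat_lit 1) (nat_lit 482) (nat_lit 1) (nat_lit 366) (nat_lit 398) (nat_lit 376)) (XT.lf (nat_lit 1976) (nat_lit 1859335449) (nat_lit 0) (nat_lit 936859649) (nat_lit 1900) (nat_lit 1859335449) (nat_lit 509) (nat_lit 1) (nat_lit 483) (nat_lit 1) (nat_lit 508) (nat_lit 1) (nat_lit 367) (nat_lit 398) (nat_lit 375))))) (XT.nd (nat_lit 234) (nat_lit 912) (nat_lit 0) (XT.nd (nat_lit 78) (nat_lit 1064) (nat_lit 0) (XT.lf (nat_lit 1976) (nat_lit 3338281213) (nat_lit 76) (nat_lit 637460603) (nat_lit 0) (nat_lit 637460603) (nat_lit 509) (nat_lit 1) (nat_lit 484) (nat_lit 1) (nat_lit 483) (nat_lit 1) (nat_lit 368) (nat_lit 398) (nat_lit 374)) (XT.nd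 (nat_lit 78) (nat_lit 1140) (nat_lit 0) (XT.lf (nat_lit 76) (nat_lit 1471621163) (nat_lit 0) (nat_lit 1628028442) (nat_lit 1900) (nat_lit 1471621163) (nat_lit 485) (nat_lit 1) (nat_lit 484) (nat_lit 1) (nat_lit 509) (nat_lit 1) (nat_lit 369) (nat_lit 398) (nat_lit 373)) (XT.lf (nat_lit 1216) (nat_lit 2545238587) (nat_lit 0) (nat_lit 992356353) (nat_lit 1140) (nat_lit 992356353) (nat_lit 485) (nat_lit 1) (nat_lit 469) (nat_lit 1) (nat_lit 484) (nat_lit 1) (nat_lit 370) (nat_lit 398) (nat_lit 372)))) (XT.nd (nat_lit 78) (nat_lit 912) (nat_lit 0) (XT.lf (nat_lit 76) (nat_lit 1069091479) (nat_lit 0) (nat_lit 2350928538) (nat_lit 1216) (nat_lit 1069091479) (nat_lit 470) (nat_lit 1) (nat_lit 469) (nat_lit 1) (nat_lit 485) (nat_lit 1) (nat_lit 371) (nat_lit 398) (nat_lit 371)) (XT.nd (nat_lit 78) (nat_lit 0) (nat_lit 0) (XT.lf (nat_lit 988) (nat_lit 1723642177) (nat_lit 0) (nat_lit 1362563517) (nat_lit 912) (nat_lit 1362563517) (nat_lit 470)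 (nat_lit 1) (nat_lit 457) (nat_lit 1) (nat_lit 469) (nat_lit 1) (nat_lit 372) (nat_lit 398) (nat_lit 370)) (XT.lf (nat_lit 76) (nat_lit 652907398) (nat_lit 0) (nat_lit 3103179335) (nat_lit 988) (nat_lit 652907398) (nat_lit 458) (nat_lit 1) (nat_lit 457) (nat_lit 1) (nat_lit 470) (nat_lit 1) (nat_lit 373) (nat_lit 398) (nat_lit 369))))))) (XT.nd (nat_lit 936) (nat_lit 4940) (nat_lit 0) (XT.nd (nat_lit 468) (nat_lit 2432) (nat_lit 0) (XT.nd (nat_lit 234) (nat_lit 1824) (nat_lit 0) (XT.nd (nat_lit 78) (nat_lit 836) (nat_lit 0) (XT.lf (nat_lit 988) (nat_lit 875764458) (nat_lit 0) (nat_lit 1746917095) (nat_lit 912) (nat_lit 1746917095) (nat_lit 458) (nat_lit 1) (nat_lit 445) (nat_lit 1) (nat_lit 457) (nat_lit 1) (nat_lit 374) (nat_lit 398) (nat_lit 368)) (XT.nd (nat_lit 78) (nat_lit 836) (nat_lit 0) (XT.lf (nat_lit 76) (nat_lit 224173356) (nat_lit 0) (nat_lit 3882515192) (nat_lit 988) (nat_lit 224173356) (nat_lit 446) (nat_lit 1) (nat_lit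 445) (nat_lit 1) (nat_lit 458) (nat_lit 1) (nat_lit 375) (nat_lit 398) (nat_lit 367)) (XT.lf (nat_lit 912) (nat_lit 3766846) (nat_lit 0) (nat_lit 2144308509) (nat_lit 836) (nat_lit 2144308509) (nat_lit 446) (nat_lit 1) (nat_lit 434) (nat_lit 1) (nat_lit 445) (nat_lit 1) (nat_lit 376) (nat_lit 398) (nat_lit 366)))) (XT.nd (nat_lit 78) (nat_lit 836) (nat_lit 0) (XT.lf (nat_lit 988) (nat_lit 3825269392) (nat_lit 0) (nat_lit 214638907) (nat_lit 912) (nat_lit 214638907) (nat_lit 434) (nat_lit 1) (nat_lit 421) (nat_lit 1) (nat_lit 433) (nat_lit 1) (nat_lit 377) (nat_lit 398) (nat_lit 365)) (XT.nd (nat_lit 78) (nat_lit 836) (nat_lit 0) (XT.lf (nat_lit 76) (nat_lit 1669168041) (nat_lit 0) (nat_lit 878619157) (nat_lit 988) (nat_lit 1669168041) (nat_lit 422) (nat_lit 1) (nat_lit 421) (nat_lit 1) (nat_lit 434) (nat_lit 1) (nat_lit 378) (nat_lit 398) (nat_lit 364)) (XT.lf (nat_lit 912) (nat_lit 2855170097) (nat_lit 0) (nat_lit 662408466) (nat_lit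 836) (nat_lit 662408466) (nat_lit 422) (nat_lit 1) (nat_lit 410) (nat_lit 1) (nat_lit 421) (nat_lit 1) (nat_lit 379) (nat_lit 398) (nat_lit 363))))) (XT.nd (nat_lit 234) (nat_lit 1596) (nat_lit 0) (XT.nd (nat_lit 78) (nat_lit 836) (nat_lit 0) (XT.lf (nat_lit 76) (nat_lit 1181284771) (nat_lit 0) (nat_lit 1780803390) (nat_lit 912) (nat_lit 1181284771) (nat_lit 411) (nat_lit 1) (nat_lit 410) (nat_lit 1) (nat_lit 422) (nat_lit 1) (nat_lit 380) (nat_lit 398) (nat_lit 362)) (XT.nd (nat_lit 78) (nat_lit 0) (nat_lit 0) (XT.lf (nat_lit 912) (nat_lit 1867912011) (nat_lit 0) (nat_lit 1119667513) (nat_lit 836) (nat_lit 1119667513) (nat_lit 411) (nat_lit 1) (nat_lit 399) (nat_lit 1) (nat_lit 410) (nat_lit 1) (nat_lit 381) (nat_lit 398) (nat_lit 361)) (XT.lf (nat_lit 76) (nat_lit 685291684) (nat_lit 0) (nat_lit 2701003571) (nat_lit 912) (nat_lit 685291684) (nat_lit 400) (nat_lit 1) (nat_lit 399) (nat_lit 1) (nat_lit 411) (nat_lit 1) (nat_lit 382) (nat_lit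 398) (nat_lit 360)))) (XT.nd (nat_lit 78) (nat_lit 836) (nat_lit 0) (XT.lf (nat_lit 836) (nat_lit 865236507) (nat_lit 0) (nat_lit 1585520562) (nat_lit 760) (nat_lit 1585520562) (nat_lit 400) (nat_lit 1) (nat_lit 389) (nat_lit 1) (nat_lit 399) (nat_lit 1) (nat_lit 383) (nat_lit 398) (nat_lit 359)) (XT.nd (nat_lit 78) (nat_lit 836) (nat_lit 0) (XT.lf (nat_lit 76) (nat_lit 182034182) (nat_lit 0) (nat_lit 3637479944) (nat_lit 836) (nat_lit 182034182) (nat_lit 390) (nat_lit 1) (nat_lit 389) (nat_lit 1) (nat_lit 400) (nat_lit 1) (nat_lit 384) (nat_lit 398) (nat_lit 358)) (XT.lf (nat_lit 76) (nat_lit 1908895206) (nat_lit 0) (nat_lit 149220675) (nat_lit 836) (nat_lit 1908895206) (nat_lit 379) (nat_lit 1) (nat_lit 378) (nat_lit 1) (nat_lit 389) (nat_lit 1) (nat_lit 385) (nat_lit 398) (nat_lit 357)))))) (XT.nd (nat_lit 468) (nat_lit 2736) (nat_lit 0) (XT.nd (nat_lit 234) (nat_lit 684) (nat_lit 0) (XT.nd (nat_lit 78) (nat_lit 760) (nat_lit 0) (XT.lf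 (nat_lit 836) (nat_lit 3281979343) (nat_lit 0) (nat_lit 325529734) (nat_lit 760) (nat_lit 325529734) (nat_lit 379) (nat_lit 1) (nat_lit 368) (nat_lit 1) (nat_lit 378) (nat_lit 1) (nat_lit 386) (nat_lit 398) (nat_lit 356)) (XT.nd (nat_lit 78) (nat_lit 760) (nat_lit 0) (XT.lf (nat_lit 76) (nat_lit 1367469704) (nat_lit 0) (nat_lit 1164367072) (nat_lit 836) (nat_lit 1367469704) (nat_lit 369) (nat_lit 1) (nat_lit 368) (nat_lit 1) (nat_lit 379) (nat_lit 1) (nat_lit 387) (nat_lit 398) (nat_lit 355)) (XT.lf (nat_lit 836) (nat_lit 2190965439) (nat_lit 0) (nat_lit 837559964) (nat_lit 760) (nat_lit 837559964) (nat_lit 369) (nat_lit 1) (nat_lit 358) (nat_lit 1) (nat_lit 368) (nat_lit 1) (nat_lit 388) (nat_lit 398) (nat_lit 354)))) (XT.nd (nat_lit 78) (nat_lit 684) (nat_lit 0) (XT.lf (nat_lit 76) (nat_lit 821573960) (nat_lit 0) (nat_lit 2190083223) (nat_lit 836) (nat_lit 821573960) (nat_lit 359) (nat_lit 1) (nat_lit 358) (nat_lit 1) (nat_lit 369)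 (nat_lit 1) (nat_lit 389) (nat_lit 398) (nat_lit 353)) (XT.nd (nat_lit 78) (nat_lit 0) (nat_lit 0) (XT.lf (nat_lit 760) (nat_lit 1091663479) (nat_lit 0) (nat_lit 1354537561) (nat_lit 684) (nat_lit 1354537561) (nat_lit 359) (nat_lit 1) (nat_lit 349) (nat_lit 1) (nat_lit 358) (nat_lit 1) (nat_lit 390) (nat_lit 398) (nat_lit 352)) (XT.lf (nat_lit 76) (nat_lit 271881449) (nat_lit 0) (nat_lit 3224978514) (nat_lit 760) (nat_lit 271881449) (nat_lit 350) (nat_lit 1) (nat_lit 349) (nat_lit 1) (nat_lit 359) (nat_lit 1) (nat_lit 391) (nat_lit 398) (nat_lit 351))))) (XT.nd (nat_lit 234) (nat_lit 1292) (nat_lit 0) (XT.nd (nat_lit 78) (nat_lit 684) (nat_lit 0) (XT.lf (nat_lit 76) (nat_lit 1861266920) (nat_lit 0) (nat_lit 14419863) (nat_lit 760) (nat_lit 1861266920) (nat_lit 340) (nat_lit 1) (nat_lit 339) (nat_lit 1) (nat_lit 349) (nat_lit 1) (nat_lit 392) (nat_lit 398) (nat_lit 350)) (XT.nd (nat_lit 78) (nat_lit 0) (nat_lit 0) (XT.lf (nat_lit 760)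 (nat_lit 3147404877) (nat_lit 0) (nat_lit 279121815) (nat_lit 684) (nat_lit 279121815) (nat_lit 340) (nat_lit 1) (nat_lit 330) (nat_lit 1) (nat_lit 339) (nat_lit 1) (nat_lit 393) (nat_lit 398) (nat_lit 349)) (XT.lf (nat_lit 76) (nat_lit 1281354605) (nat_lit 0) (nat_lit 1111839227) (nat_lit 760) (nat_lit 1281354605) (nat_lit 331) (nat_lit 1) (nat_lit 330) (nat_lit 1) (nat_lit 340) (nat_lit 1) (nat_lit 394) (nat_lit 398) (nat_lit 348)))) (XT.nd (nat_lit 156) (nat_lit 608) (nat_lit 0) (XT.nd (nat_lit 78) (nat_lit 0) (nat_lit 0) (XT.lf (nat_lit 760) (nat_lit 1982163435) (nat_lit 0) (nat_lit 830875657) (nat_lit 684) (nat_lit 830875657) (nat_lit 331) (nat_lit 1) (nat_lit 321) (nat_lit 1) (nat_lit 330) (nat_lit 1) (nat_lit 395) (nat_lit 398) (nat_lit 347)) (XT.lf (nat_lit 76) (nat_lit 699936999) (nat_lit 0) (nat_lit 2213750331) (nat_lit 760) (nat_lit 699936999) (nat_lit 322) (nat_lit 1) (nat_lit 321) (nat_lit 1) (nat_lit 331) (nat_lit 1) (nat_lit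 396) (nat_lit 398) (nat_lit 346))) (XT.nd (nat_lit 78) (nat_lit 0) (nat_lit 0) (XT.lf (nat_lit 684) (nat_lit 814437856) (nat_lit 0) (nat_lit 1384602206) (nat_lit 608) (nat_lit 1384602206) (nat_lit 322) (nat_lit 1) (nat_lit 313) (nat_lit 1) (nat_lit 321) (nat_lit 1) (nat_lit 397) (nat_lit 398) (nat_lit 345)) (XT.lf (nat_lit 76) (nat_lit 117543612) (nat_lit 0) (nat_lit 3319055109) (nat_lit 684) (nat_lit 117543612) (nat_lit 314) (nat_lit 1) (nat_lit 313) (nat_lit 1) (nat_lit 322) (nat_lit 1) (nat_lit 398) (nat_lit 398) (nat_lit 344))))))))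
noncomputable def ec44 : XT := (XT.nd (nat_lit 1872) (nat_lit 2128) (nat_lit 0) (XT.nd (nat_lit 936) (nat_lit 3496) (nat_lit 0) (XT.nd (nat_lit 468) (nat_lit 2356) (nat_lit 0) (XT.nd (nat_lit 234) (nat_lit 1140) (nat_lit 0) (XT.nd (nat_lit 78) (nat_lit 608) (nat_lit 0) (XT.lf (nat_lit 76) (nat_lit 1587329801) (nat_lit 0) (nat_lit 350087006) (nat_lit 684) (nat_lit 1587329801) (nat_lit 305) (nat_lit 1) (nat_lit 304) (nat_lit 1) (nat_lit 313) (nat_lit 1) (nat_lit 399) (nat_lit 398) (nat_lit 343)) (XT.nd (nat_lit 78) (nat_lit 0) (nat_lit 0) (XT.lf (nat_lit 684) (nat_lit 2571293078) (nat_lit 0) (nat_lit 462264488) (nat_lit 608) (nat_lit 462264488) (nat_lit 305) (nat_lit 1) (nat_lit 296) (nat_lit 1) (nat_lit 304) (nat_lit 1) (nat_lit 400) (nat_lit 398) (nat_lit 342)) (XT.lf (nat_lit 76) (nat_lit 981364419) (nat_lit 0) (nat_lit 1504401918) (nat_lit 684) (nat_lit 981364419) (nat_lit 297) (nat_lit 1) (nat_lit 296) (nat_lit 1) (nat_lit 305) (nat_lit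 1) (nat_lit 401) (nat_lit 398) (nat_lit 341)))) (XT.nd (nat_lit 78) (nat_lit 532) (nat_lit 0) (XT.lf (nat_lit 684) (nat_lit 1356199849) (nat_lit 0) (nat_lit 1041304058) (nat_lit 608) (nat_lit 1041304058) (nat_lit 297) (nat_lit 1) (nat_lit 288) (nat_lit 1) (nat_lit 296) (nat_lit 1) (nat_lit 402) (nat_lit 398) (nat_lit 340)) (XT.nd (nat_lit 78) (nat_lit 532) (nat_lit 0) (XT.lf (nat_lit 76) (nat_lit 376291065) (nat_lit 0) (nat_lit 2658282289) (nat_lit 684) (nat_lit 376291065) (nat_lit 289) (nat_lit 1) (nat_lit 288) (nat_lit 1) (nat_lit 297) (nat_lit 1) (nat_lit 403) (nat_lit 398) (nat_lit 339)) (XT.lf (nat_lit 608) (nat_lit 143311353) (nat_lit 0) (nat_lit 1619907257) (nat_lit 532) (nat_lit 1619907257) (nat_lit 289) (nat_lit 1) (nat_lit 281) (nat_lit 1) (nat_lit 288) (nat_lit 1) (nat_lit 404) (nat_lit 398) (nat_lit 338))))) (XT.nd (nat_lit 234) (nat_lit 1140) (nat_lit 0) (XT.nd (nat_lit 78) (nat_lit 532) (nat_lit 0) (XT.lf (nat_lit 684) (nat_lit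 2903825199) (nat_lit 0) (nat_lit 225984424) (nat_lit 608) (nat_lit 225984424) (nat_lit 281) (nat_lit 1) (nat_lit 272) (nat_lit 1) (nat_lit 280) (nat_lit 1) (nat_lit 405) (nat_lit 398) (nat_lit 337)) (XT.nd (nat_lit 78) (nat_lit 532) (nat_lit 0) (XT.lf (nat_lit 76) (nat_lit 1138007540) (nat_lit 0) (nat_lit 1052587749) (nat_lit 684) (nat_lit 1138007540) (nat_lit 273) (nat_lit 1) (nat_lit 272) (nat_lit 1) (nat_lit 281) (nat_lit 1) (nat_lit 406) (nat_lit 398) (nat_lit 336)) (XT.lf (nat_lit 608) (nat_lit 1653590045) (nat_lit 0) (nat_lit 824109472) (nat_lit 532) (nat_lit 824109472) (nat_lit 273) (nat_lit 1) (nat_lit 265) (nat_lit 1) (nat_lit 272) (nat_lit 1) (nat_lit 407) (nat_lit 398) (nat_lit 335)))) (XT.nd (nat_lit 78) (nat_lit 1140) (nat_lit 0) (XT.lf (nat_lit 76) (nat_lit 516209247) (nat_lit 0) (nat_lit 2242907301) (nat_lit 608) (nat_lit 516209247) (nat_lit 266) (nat_lit 1) (nat_lit 265) (nat_lit 1) (nat_lit 273) (nat_lit 1) (nat_lit 408)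 (nat_lit 398) (nat_lit 334)) (XT.nd (nat_lit 78) (nat_lit 608) (nat_lit 0) (XT.lf (nat_lit 608) (nat_lit 408670810) (nat_lit 0) (nat_lit 1420200868) (nat_lit 532) (nat_lit 1420200868) (nat_lit 266) (nat_lit 1) (nat_lit 258) (nat_lit 1) (nat_lit 265) (nat_lit 1) (nat_lit 409) (nat_lit 398) (nat_lit 333)) (XT.lf (nat_lit 608) (nat_lit 3019026803) (nat_lit 0) (nat_lit 102100317) (nat_lit 532) (nat_lit 102100317) (nat_lit 258) (nat_lit 1) (nat_lit 250) (nat_lit 1) (nat_lit 257) (nat_lit 1) (nat_lit 410) (nat_lit 398) (nat_lit 332)))))) (XT.nd (nat_lit 468) (nat_lit 1900) (nat_lit 0) (XT.nd (nat_lit 234) (nat_lit 1064) (nat_lit 0) (XT.nd (nat_lit 78) (nat_lit 532) (nat_lit 0) (XT.lf (nat_lit 76) (nat_lit 1189021609) (nat_lit 0) (nat_lit 819401820) (nat_lit 608) (nat_lit 1189021609) (nat_lit 251) (nat_lit 1) (nat_lit 250) (nat_lit 1) (nat_lit 258) (nat_lit 1) (nat_lit 411) (nat_lit 398) (nat_lit 331)) (XT.nd (nat_lit 78) (nat_lit 0) (nat_lit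 0) (XT.lf (nat_lit 608) (nat_lit 1744237138) (nat_lit 0) (nat_lit 713912668) (nat_lit 532) (nat_lit 713912668) (nat_lit 251) (nat_lit 1) (nat_lit 243) (nat_lit 1) (nat_lit 250) (nat_lit 1) (nat_lit 412) (nat_lit 398) (nat_lit 330)) (XT.lf (nat_lit 76) (nat_lit 555653694) (nat_lit 0) (nat_lit 2035643725) (nat_lit 608) (nat_lit 555653694) (nat_lit 244) (nat_lit 1) (nat_lit 243) (nat_lit 1) (nat_lit 251) (nat_lit 1) (nat_lit 413) (nat_lit 398) (nat_lit 329)))) (XT.nd (nat_lit 78) (nat_lit 608) (nat_lit 0) (XT.lf (nat_lit 532) (nat_lit 477395633) (nat_lit 0) (nat_lit 1322336951) (nat_lit 456) (nat_lit 1322336951) (nat_lit 244) (nat_lit 1) (nat_lit 237) (nat_lit 1) (nat_lit 243) (nat_lit 1) (nat_lit 414) (nat_lit 398) (nat_lit 328)) (XT.nd (nat_lit 78) (nat_lit 0) (nat_lit 0) (XT.lf (nat_lit 608) (nat_lit 2951296168) (nat_lit 0) (nat_lit 73139651) (nat_lit 532) (nat_lit 73139651) (nat_lit 237) (nat_lit 1) (nat_lit 229) (nat_lit 1) (nat_lit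 236) (nat_lit 1) (nat_lit 415) (nat_lit 398) (nat_lit 327)) (XT.lf (nat_lit 76) (nat_lit 1151184471) (nat_lit 0) (nat_lit 770748729) (nat_lit 608) (nat_lit 1151184471) (nat_lit 230) (nat_lit 1) (nat_lit 229) (nat_lit 1) (nat_lit 237) (nat_lit 1) (nat_lit 416) (nat_lit 398) (nat_lit 326))))) (XT.nd (nat_lit 234) (nat_lit 988) (nat_lit 0) (XT.nd (nat_lit 78) (nat_lit 456) (nat_lit 0) (XT.lf (nat_lit 532) (nat_lit 1661095063) (nat_lit 0) (nat_lit 693972473) (nat_lit 456) (nat_lit 693972473) (nat_lit 230) (nat_lit 1) (nat_lit 223) (nat_lit 1) (nat_lit 229) (nat_lit 1) (nat_lit 417) (nat_lit 398) (nat_lit 325)) (XT.nd (nat_lit 78) (nat_lit 456) (nat_lit 0) (XT.lf (nat_lit 76) (nat_lit 510697276) (nat_lit 0) (nat_lit 2003824208) (nat_lit 532) (nat_lit 510697276) (nat_lit 224) (nat_lit 1) (nat_lit 223) (nat_lit 1) (nat_lit 230) (nat_lit 1) (nat_lit 418) (nat_lit 398) (nat_lit 324)) (XT.lf (nat_lit 532) (nat_lit 381054135) (nat_lit 0) (nat_lit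 1310275984) (nat_lit 456) (nat_lit 1310275984) (nat_lit 224) (nat_lit 1) (nat_lit 217) (nat_lit 1) (nat_lit 223) (nat_lit 1) (nat_lit 419) (nat_lit 398) (nat_lit 323)))) (XT.nd (nat_lit 78) (nat_lit 456) (nat_lit 0) (XT.lf (nat_lit 532) (nat_lit 2730727715) (nat_lit 0) (nat_lit 123807147) (nat_lit 456) (nat_lit 123807147) (nat_lit 217) (nat_lit 1) (nat_lit 210) (nat_lit 1) (nat_lit 216) (nat_lit 1) (nat_lit 420) (nat_lit 398) (nat_lit 322)) (XT.nd (nat_lit 78) (nat_lit 456) (nat_lit 0) (XT.lf (nat_lit 76) (nat_lit 1039172490) (nat_lit 0) (nat_lit 876785986) (nat_lit 532) (nat_lit 1039172490) (nat_lit 211) (nat_lit 1) (nat_lit 210) (nat_lit 1) (nat_lit 217) (nat_lit 1) (nat_lit 421) (nat_lit 398) (nat_lit 321)) (XT.lf (nat_lit 532) (nat_lit 1432985738) (nat_lit 0) (nat_lit 749638101) (nat_lit 456) (nat_lit 749638101) (nat_lit 211) (nat_lit 1) (nat_lit 204) (nat_lit 1) (nat_lit 210) (nat_lit 1) (nat_lit 422) (nat_lit 398) (nat_lit 320)))))))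 (XT.nd (nat_lit 53274) (nat_lit 0) (nat_lit 24472) (XT.nd (nat_lit 468) (nat_lit 836) (nat_lit 0) (XT.nd (nat_lit 234) (nat_lit 380) (nat_lit 0) (XT.nd (nat_lit 78) (nat_lit 912) (nat_lit 0) (XT.lf (nat_lit 76) (nat_lit 395395312) (nat_lit 0) (nat_lit 2118864623) (nat_lit 532) (nat_lit 395395312) (nat_lit 205) (nat_lit 1) (nat_lit 204) (nat_lit 1) (nat_lit 211) (nat_lit 1) (nat_lit 423) (nat_lit 398) (nat_lit 319)) (XT.nd (nat_lit 78) (nat_lit 532) (nat_lit 0) (XT.lf (nat_lit 456) (nat_lit 147247674) (nat_lit 0) (nat_lit 1369985409) (nat_lit 380) (nat_lit 1369985409) (nat_lit 205) (nat_lit 1) (nat_lit 199) (nat_lit 1) (nat_lit 204) (nat_lit 1) (nat_lit 424) (nat_lit 398) (nat_lit 318)) (XT.lf (nat_lit 532) (nat_lit 2383612827) (nat_lit 0) (nat_lit 240731718) (nat_lit 456) (nat_lit 240731718) (nat_lit 199) (nat_lit 1) (nat_lit 192) (nat_lit 1) (nat_lit 198) (nat_lit 1) (nat_lit 425) (nat_lit 398) (nat_lit 317)))) (XT.nd (nat_lit 78) (nat_lit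 380) (nat_lit 0) (XT.lf (nat_lit 76) (nat_lit 865805184) (nat_lit 0) (nat_lit 1111429562) (nat_lit 532) (nat_lit 865805184) (nat_lit 193) (nat_lit 1) (nat_lit 192) (nat_lit 1) (nat_lit 199) (nat_lit 1) (nat_lit 426) (nat_lit 398) (nat_lit 316)) (XT.nd (nat_lit 78) (nat_lit 0) (nat_lit 0) (XT.lf (nat_lit 456) (nat_lit 1085080235) (nat_lit 0) (nat_lit 868106037) (nat_lit 380) (nat_lit 868106037) (nat_lit 193) (nat_lit 1) (nat_lit 187) (nat_lit 1) (nat_lit 192) (nat_lit 1) (nat_lit 427) (nat_lit 398) (nat_lit 315)) (XT.lf (nat_lit 76) (nat_lit 222020600) (nat_lit 0) (nat_lit 2355789008) (nat_lit 456) (nat_lit 222020600) (nat_lit 188) (nat_lit 1) (nat_lit 187) (nat_lit 1) (nat_lit 193) (nat_lit 1) (nat_lit 428) (nat_lit 398) (nat_lit 314))))) (XT.nd (nat_lit 52572) (nat_lit 0) (nat_lit 24396) (XT.nd (nat_lit 78) (nat_lit 380) (nat_lit 0) (XT.lf (nat_lit 76) (nat_lit 1290577054) (nat_lit 0) (nat_lit 197304972) (nat_lit 456) (nat_lit 1290577054)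 (nat_lit 182) (nat_lit 1) (nat_lit 181) (nat_lit 1) (nat_lit 187) (nat_lit 1) (nat_lit 429) (nat_lit 398) (nat_lit 313)) (XT.nd (nat_lit 78) (nat_lit 0) (nat_lit 0) (XT.lf (nat_lit 456) (nat_lit 1932883808) (nat_lit 0) (nat_lit 412242147) (nat_lit 380) (nat_lit 412242147) (nat_lit 182) (nat_lit 1) (nat_lit 176) (nat_lit 1) (nat_lit 181) (nat_lit 1) (nat_lit 430) (nat_lit 398) (nat_lit 312)) (XT.lf (nat_lit 76) (nat_lit 642262067) (nat_lit 0) (nat_lit 1451915546) (nat_lit 456) (nat_lit 642262067) (nat_lit 177) (nat_lit 1) (nat_lit 176) (nat_lit 1) (nat_lit 182) (nat_lit 1) (nat_lit 431) (nat_lit 398) (nat_lit 311)))) (XT.nd (nat_lit 78) (nat_lit 0) (nat_lit 0) (XT.lf (nat_lit 1900) (nat_lit 982626831) (nat_lit 0) (nat_lit 990843877) (nat_lit 1900) (nat_lit 982626831) (nat_lit 522) (nat_lit 1) (nat_lit 497) (nat_lit 0) (nat_lit 522) (nat_lit 0) (nat_lit 342) (nat_lit 399) (nat_lit 399)) (XT.nd (nat_lit 78) (nat_lit 0) (nat_lit 76) (XT.lf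 (nat_lit 1900) (nat_lit 3885454231) (nat_lit 76) (nat_lit 984325167) (nat_lit 0) (nat_lit 984325167) (nat_lit 522) (nat_lit 1) (nat_lit 498) (nat_lit 1) (nat_lit 497) (nat_lit 0) (nat_lit 343) (nat_lit 399) (nat_lit 398)) (XT.lf (nat_lit 1900) (nat_lit 1907776522) (nat_lit 0) (nat_lit 1981095497) (nat_lit 1824) (nat_lit 1907776522) (nat_lit 523) (nat_lit 1) (nat_lit 498) (nat_lit 1) (nat_lit 522) (nat_lit 1) (nat_lit 344) (nat_lit 399) (nat_lit 397)))))) (XT.nd (nat_lit 468) (nat_lit 0) (nat_lit 228) (XT.nd (nat_lit 234) (nat_lit 0) (nat_lit 152) (XT.nd (nat_lit 78) (nat_lit 0) (nat_lit 76) (XT.lf (nat_lit 1900) (nat_lit 3733988947) (nat_lit 76) (nat_lit 1003037300) (nat_lit 0) (nat_lit 1003037300) (nat_lit 523) (nat_lit 1) (nat_lit 499) (nat_lit 1) (nat_lit 498) (nat_lit 1) (nat_lit 345) (nat_lit 399) (nat_lit 396)) (XT.nd (nat_lit 78) (nat_lit 0) (nat_lit 0) (XT.lf (nat_lit 1900) (nat_lit 1814647871) (nat_lit 0) (nat_lit 2054807450)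 (nat_lit 1824) (nat_lit 1814647871) (nat_lit 524) (nat_lit 1) (nat_lit 499) (nat_lit 1) (nat_lit 523) (nat_lit 1) (nat_lit 346) (nat_lit 399) (nat_lit 395)) (XT.lf (nat_lit 1900) (nat_lit 3513136875) (nat_lit 76) (nat_lit 1057919078) (nat_lit 0) (nat_lit 1057919078) (nat_lit 524) (nat_lit 1) (nat_lit 500) (nat_lit 1) (nat_lit 499) (nat_lit 1) (nat_lit 347) (nat_lit 399) (nat_lit 394)))) (XT.nd (nat_lit 78) (nat_lit 0) (nat_lit 0) (XT.lf (nat_lit 1900) (nat_lit 1687994912) (nat_lit 0) (nat_lit 2198481796) (nat_lit 1824) (nat_lit 1687994912) (nat_lit 525) (nat_lit 1) (nat_lit 500) (nat_lit 1) (nat_lit 524) (nat_lit 1) (nat_lit 348) (nat_lit 399) (nat_lit 393)) (XT.nd (nat_lit 78) (nat_lit 0) (nat_lit 76) (XT.lf (nat_lit 1900) (nat_lit 3227068237) (nat_lit 76) (nat_lit 1146842533) (nat_lit 0) (nat_lit 1146842533) (nat_lit 525) (nat_lit 1) (nat_lit 501) (nat_lit 1) (nat_lit 500) (nat_lit 1) (nat_lit 349) (nat_lit 399) (nat_lit 392)) (XT.lf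 (nat_lit 1900) (nat_lit 1529847683) (nat_lit 0) (nat_lit 2407973874) (nat_lit 1824) (nat_lit 1529847683) (nat_lit 526) (nat_lit 1) (nat_lit 501) (nat_lit 1) (nat_lit 525) (nat_lit 1) (nat_lit 350) (nat_lit 399) (nat_lit 391))))) (XT.nd (nat_lit 234) (nat_lit 0) (nat_lit 152) (XT.nd (nat_lit 78) (nat_lit 0) (nat_lit 76) (XT.lf (nat_lit 1900) (nat_lit 2879762385) (nat_lit 76) (nat_lit 1267776516) (nat_lit 0) (nat_lit 1267776516) (nat_lit 526) (nat_lit 1) (nat_lit 502) (nat_lit 1) (nat_lit 501) (nat_lit 1) (nat_lit 351) (nat_lit 399) (nat_lit 390)) (XT.nd (nat_lit 78) (nat_lit 0) (nat_lit 0) (XT.lf (nat_lit 1900) (nat_lit 1342143113) (nat_lit 0) (nat_lit 2679327965) (nat_lit 1824) (nat_lit 1342143113) (nat_lit 527) (nat_lit 1) (nat_lit 502) (nat_lit 1) (nat_lit 526) (nat_lit 1) (nat_lit 352) (nat_lit 399) (nat_lit 389)) (XT.lf (nat_lit 1900) (nat_lit 2475015777) (nat_lit 76) (nat_lit 1418782654) (nat_lit 0) (nat_lit 1418782654) (nat_lit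 527) (nat_lit 1) (nat_lit 503) (nat_lit 1) (nat_lit 502) (nat_lit 1) (nat_lit 353) (nat_lit 399) (nat_lit 388)))) (XT.nd (nat_lit 78) (nat_lit 0) (nat_lit 0) (XT.lf (nat_lit 1900) (nat_lit 1126728918) (nat_lit 0) (nat_lit 3008769404) (nat_lit 1824) (nat_lit 1126728918) (nat_lit 528) (nat_lit 1) (nat_lit 503) (nat_lit 1) (nat_lit 527) (nat_lit 1) (nat_lit 354) (nat_lit 399) (nat_lit 387)) (XT.nd (nat_lit 78) (nat_lit 0) (nat_lit 76) (XT.lf (nat_lit 1900) (nat_lit 2016449632) (nat_lit 76) (nat_lit 1598011481) (nat_lit 0) (nat_lit 1598011481) (nat_lit 528) (nat_lit 1) (nat_lit 504) (nat_lit 1) (nat_lit 503) (nat_lit 1) (nat_lit 355) (nat_lit 399) (nat_lit 386)) (XT.lf (nat_lit 1900) (nat_lit 885367339) (nat_lit 0) (nat_lit 3392697013) (nat_lit 1824) (nat_lit 885367339) (nat_lit 529) (nat_lit 1) (nat_lit 504) (nat_lit 1) (nat_lit 528) (nat_lit 1) (nat_lit 356) (nat_lit 399) (nat_lit 385))))))))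
noncomputable def ec45 : XT := (XT.nd (nat_lit 1872) (nat_lit 10184) (nat_lit 0) (XT.nd (nat_lit 936) (nat_lit 5320) (nat_lit 0) (XT.nd (nat_lit 468) (nat_lit 2660) (nat_lit 0) (XT.nd (nat_lit 234) (nat_lit 0) (nat_lit 152) (XT.nd (nat_lit 78) (nat_lit 0) (nat_lit 76) (XT.lf (nat_lit 1900) (nat_lit 1507517288) (nat_lit 76) (nat_lit 1803698714) (nat_lit 0) (nat_lit 1803698714) (nat_lit 529) (nat_lit 1) (nat_lit 505) (nat_lit 1) (nat_lit 504) (nat_lit 1) (nat_lit 357) (nat_lit 399) (nat_lit 384)) (XT.nd (nat_lit 78) (nat_lit 0) (nat_lit 0) (XT.lf (nat_lit 1900) (nat_lit 619738733) (nat_lit 0) (nat_lit 3827675835) (nat_lit 1824) (nat_lit 619738733) (nat_lit 530) (nat_lit 1) (nat_lit 505) (nat_lit 1) (nat_lit 529) (nat_lit 1) (nat_lit 358) (nat_lit 399) (nat_lit 383)) (XT.lf (nat_lit 1900) (nat_lit 951511248) (nat_lit 76) (nat_lit 2034161684) (nat_lit 0) (nat_lit 2034161684) (nat_lit 530) (nat_lit 1) (nat_lit 506) (nat_lit 1) (nat_lit 505)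 (nat_lit 1) (nat_lit 359) (nat_lit 399) (nat_lit 382)))) (XT.nd (nat_lit 78) (nat_lit 0) (nat_lit 0) (XT.lf (nat_lit 1900) (nat_lit 331445014) (nat_lit 0) (nat_lit 4310430165) (nat_lit 1824) (nat_lit 331445014) (nat_lit 531) (nat_lit 1) (nat_lit 506) (nat_lit 1) (nat_lit 530) (nat_lit 1) (nat_lit 360) (nat_lit 399) (nat_lit 381)) (XT.nd (nat_lit 78) (nat_lit 0) (nat_lit 76) (XT.lf (nat_lit 1900) (nat_lit 351569955) (nat_lit 76) (nat_lit 2287795911) (nat_lit 0) (nat_lit 2287795911) (nat_lit 531) (nat_lit 1) (nat_lit 507) (nat_lit 1) (nat_lit 506) (nat_lit 1) (nat_lit 361) (nat_lit 399) (nat_lit 380)) (XT.lf (nat_lit 1900) (nat_lit 22012959) (nat_lit 0) (nat_lit 4837836855) (nat_lit 1824) (nat_lit 22012959) (nat_lit 532) (nat_lit 1) (nat_lit 507) (nat_lit 1) (nat_lit 531) (nat_lit 1) (nat_lit 362) (nat_lit 399) (nat_lit 379))))) (XT.nd (nat_lit 234) (nat_lit 988) (nat_lit 0) (XT.nd (nat_lit 78) (nat_lit 0) (nat_lit 0) (XT.lf (nat_lit 1976)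 (nat_lit 2275634527) (nat_lit 0) (nat_lit 285521288) (nat_lit 1900) (nat_lit 2275634527) (nat_lit 508) (nat_lit 1) (nat_lit 482) (nat_lit 1) (nat_lit 507) (nat_lit 1) (nat_lit 363) (nat_lit 399) (nat_lit 378)) (XT.nd (nat_lit 78) (nat_lit 0) (nat_lit 76) (XT.lf (nat_lit 1976) (nat_lit 4182389187) (nat_lit 76) (nat_lit 305082209) (nat_lit 0) (nat_lit 305082209) (nat_lit 508) (nat_lit 1) (nat_lit 483) (nat_lit 1) (nat_lit 482) (nat_lit 1) (nat_lit 364) (nat_lit 399) (nat_lit 377)) (XT.lf (nat_lit 1976) (nat_lit 1896522158) (nat_lit 0) (nat_lit 955596842) (nat_lit 1900) (nat_lit 1896522158) (nat_lit 509) (nat_lit 1) (nat_lit 483) (nat_lit 1) (nat_lit 508) (nat_lit 1) (nat_lit 365) (nat_lit 399) (nat_lit 376)))) (XT.nd (nat_lit 78) (nat_lit 1064) (nat_lit 0) (XT.lf (nat_lit 1976) (nat_lit 3405046837) (nat_lit 76) (nat_lit 650209815) (nat_lit 0) (nat_lit 650209815) (nat_lit 509) (nat_lit 1) (nat_lit 484) (nat_lit 1) (nat_lit 483) (nat_lit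 1) (nat_lit 366) (nat_lit 399) (nat_lit 375)) (XT.nd (nat_lit 78) (nat_lit 1140) (nat_lit 0) (XT.lf (nat_lit 76) (nat_lit 1501053586) (nat_lit 0) (nat_lit 1660589011) (nat_lit 1900) (nat_lit 1501053586) (nat_lit 485) (nat_lit 1) (nat_lit 484) (nat_lit 1) (nat_lit 509) (nat_lit 1) (nat_lit 367) (nat_lit 399) (nat_lit 374)) (XT.lf (nat_lit 1216) (nat_lit 2596143359) (nat_lit 0) (nat_lit 1012203480) (nat_lit 1140) (nat_lit 1012203480) (nat_lit 485) (nat_lit 1) (nat_lit 469) (nat_lit 1) (nat_lit 484) (nat_lit 1) (nat_lit 368) (nat_lit 399) (nat_lit 373)))))) (XT.nd (nat_lit 468) (nat_lit 2660) (nat_lit 0) (XT.nd (nat_lit 234) (nat_lit 1748) (nat_lit 0) (XT.nd (nat_lit 78) (nat_lit 912) (nat_lit 0) (XT.lf (nat_lit 76) (nat_lit 1090473308) (nat_lit 0) (nat_lit 2397947108) (nat_lit 1216) (nat_lit 1090473308) (nat_lit 470) (nat_lit 1) (nat_lit 469) (nat_lit 1) (nat_lit 485) (nat_lit 1) (nat_lit 369) (nat_lit 399) (nat_lit 372)) (XT.nd (nat_lit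 78) (nat_lit 0) (nat_lit 0) (XT.lf (nat_lit 988) (nat_lit 1758115020) (nat_lit 0) (nat_lit 1389814787) (nat_lit 912) (nat_lit 1389814787) (nat_lit 470) (nat_lit 1) (nat_lit 457) (nat_lit 1) (nat_lit 469) (nat_lit 1) (nat_lit 370) (nat_lit 399) (nat_lit 371)) (XT.lf (nat_lit 76) (nat_lit 665965546) (nat_lit 0) (nat_lit 3165242921) (nat_lit 988) (nat_lit 665965546) (nat_lit 458) (nat_lit 1) (nat_lit 457) (nat_lit 1) (nat_lit 470) (nat_lit 1) (nat_lit 371) (nat_lit 399) (nat_lit 370)))) (XT.nd (nat_lit 78) (nat_lit 836) (nat_lit 0) (XT.lf (nat_lit 988) (nat_lit 893279747) (nat_lit 0) (nat_lit 1781855437) (nat_lit 912) (nat_lit 1781855437) (nat_lit 458) (nat_lit 1) (nat_lit 445) (nat_lit 1) (nat_lit 457) (nat_lit 1) (nat_lit 372) (nat_lit 399) (nat_lit 369)) (XT.nd (nat_lit 78) (nat_lit 836) (nat_lit 0) (XT.lf (nat_lit 76) (nat_lit 228656824) (nat_lit 0) (nat_lit 3960165496) (nat_lit 988) (nat_lit 228656824) (nat_lit 446) (nat_lit 1) (nat_lit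 445) (nat_lit 1) (nat_lit 458) (nat_lit 1) (nat_lit 373) (nat_lit 399) (nat_lit 368)) (XT.lf (nat_lit 912) (nat_lit 3842183) (nat_lit 0) (nat_lit 2187194680) (nat_lit 836) (nat_lit 2187194680) (nat_lit 446) (nat_lit 1) (nat_lit 434) (nat_lit 1) (nat_lit 445) (nat_lit 1) (nat_lit 374) (nat_lit 399) (nat_lit 367))))) (XT.nd (nat_lit 234) (nat_lit 836) (nat_lit 0) (XT.nd (nat_lit 78) (nat_lit 836) (nat_lit 0) (XT.lf (nat_lit 988) (nat_lit 3901774779) (nat_lit 0) (nat_lit 218931685) (nat_lit 912) (nat_lit 218931685) (nat_lit 434) (nat_lit 1) (nat_lit 421) (nat_lit 1) (nat_lit 433) (nat_lit 1) (nat_lit 375) (nat_lit 399) (nat_lit 366)) (XT.nd (nat_lit 78) (nat_lit 836) (nat_lit 0) (XT.lf (nat_lit 76) (nat_lit 1702551402) (nat_lit 0) (nat_lit 896191540) (nat_lit 988) (nat_lit 1702551402) (nat_lit 422) (nat_lit 1) (nat_lit 421) (nat_lit 1) (nat_lit 434) (nat_lit 1) (nat_lit 376) (nat_lit 399) (nat_lit 365)) (XT.lf (nat_lit 912) (nat_lit 2912273499)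 (nat_lit 0) (nat_lit 675656635) (nat_lit 836) (nat_lit 675656635) (nat_lit 422) (nat_lit 1) (nat_lit 410) (nat_lit 1) (nat_lit 421) (nat_lit 1) (nat_lit 377) (nat_lit 399) (nat_lit 364)))) (XT.nd (nat_lit 78) (nat_lit 836) (nat_lit 0) (XT.lf (nat_lit 76) (nat_lit 1204910466) (nat_lit 0) (nat_lit 1816419458) (nat_lit 912) (nat_lit 1204910466) (nat_lit 411) (nat_lit 1) (nat_lit 410) (nat_lit 1) (nat_lit 422) (nat_lit 1) (nat_lit 378) (nat_lit 399) (nat_lit 363)) (XT.nd (nat_lit 78) (nat_lit 0) (nat_lit 0) (XT.lf (nat_lit 912) (nat_lit 1905270251) (nat_lit 0) (nat_lit 1142060863) (nat_lit 836) (nat_lit 1142060863) (nat_lit 411) (nat_lit 1) (nat_lit 399) (nat_lit 1) (nat_lit 410) (nat_lit 1) (nat_lit 379) (nat_lit 399) (nat_lit 362)) (XT.lf (nat_lit 76) (nat_lit 698997517) (nat_lit 0) (nat_lit 2755023642) (nat_lit 912) (nat_lit 698997517) (nat_lit 400) (nat_lit 1) (nat_lit 399) (nat_lit 1) (nat_lit 411) (nat_lit 1) (nat_lit 380) (nat_lit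 399) (nat_lit 361))))))) (XT.nd (nat_lit 936) (nat_lit 4940) (nat_lit 0) (XT.nd (nat_lit 468) (nat_lit 2128) (nat_lit 0) (XT.nd (nat_lit 234) (nat_lit 1520) (nat_lit 0) (XT.nd (nat_lit 78) (nat_lit 836) (nat_lit 0) (XT.lf (nat_lit 836) (nat_lit 882541237) (nat_lit 0) (nat_lit 1617230973) (nat_lit 760) (nat_lit 1617230973) (nat_lit 400) (nat_lit 1) (nat_lit 389) (nat_lit 1) (nat_lit 399) (nat_lit 1) (nat_lit 381) (nat_lit 399) (nat_lit 360)) (XT.nd (nat_lit 78) (nat_lit 836) (nat_lit 0) (XT.lf (nat_lit 76) (nat_lit 185674866) (nat_lit 0) (nat_lit 3710229543) (nat_lit 836) (nat_lit 185674866) (nat_lit 390) (nat_lit 1) (nat_lit 389) (nat_lit 1) (nat_lit 400) (nat_lit 1) (nat_lit 382) (nat_lit 399) (nat_lit 359)) (XT.lf (nat_lit 76) (nat_lit 1947073111) (nat_lit 0) (nat_lit 152205088) (nat_lit 836) (nat_lit 1947073111) (nat_lit 379) (nat_lit 1) (nat_lit 378) (nat_lit 1) (nat_lit 389) (nat_lit 1) (nat_lit 383) (nat_lit 399) (nat_lit 358))))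 (XT.nd (nat_lit 78) (nat_lit 760) (nat_lit 0) (XT.lf (nat_lit 836) (nat_lit 3347618930) (nat_lit 0) (nat_lit 332040328) (nat_lit 760) (nat_lit 332040328) (nat_lit 379) (nat_lit 1) (nat_lit 368) (nat_lit 1) (nat_lit 378) (nat_lit 1) (nat_lit 384) (nat_lit 399) (nat_lit 357)) (XT.nd (nat_lit 78) (nat_lit 760) (nat_lit 0) (XT.lf (nat_lit 76) (nat_lit 1394819098) (nat_lit 0) (nat_lit 1187654413) (nat_lit 836) (nat_lit 1394819098) (nat_lit 369) (nat_lit 1) (nat_lit 368) (nat_lit 1) (nat_lit 379) (nat_lit 1) (nat_lit 385) (nat_lit 399) (nat_lit 356)) (XT.lf (nat_lit 836) (nat_lit 2234784748) (nat_lit 0) (nat_lit 854311163) (nat_lit 760) (nat_lit 854311163) (nat_lit 369) (nat_lit 1) (nat_lit 358) (nat_lit 1) (nat_lit 368) (nat_lit 1) (nat_lit 386) (nat_lit 399) (nat_lit 355))))) (XT.nd (nat_lit 234) (nat_lit 1444) (nat_lit 0) (XT.nd (nat_lit 78) (nat_lit 684) (nat_lit 0) (XT.lf (nat_lit 76) (nat_lit 838005439) (nat_lit 0) (nat_lit 2233884888)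 (nat_lit 836) (nat_lit 838005439) (nat_lit 359) (nat_lit 1) (nat_lit 358) (nat_lit 1) (nat_lit 369) (nat_lit 1) (nat_lit 387) (nat_lit 399) (nat_lit 354)) (XT.nd (nat_lit 78) (nat_lit 0) (nat_lit 0) (XT.lf (nat_lit 760) (nat_lit 1113496749) (nat_lit 0) (nat_lit 1381628312) (nat_lit 684) (nat_lit 1381628312) (nat_lit 359) (nat_lit 1) (nat_lit 349) (nat_lit 1) (nat_lit 358) (nat_lit 1) (nat_lit 388) (nat_lit 399) (nat_lit 353)) (XT.lf (nat_lit 76) (nat_lit 277319078) (nat_lit 0) (nat_lit 3289478084) (nat_lit 760) (nat_lit 277319078) (nat_lit 350) (nat_lit 1) (nat_lit 349) (nat_lit 1) (nat_lit 359) (nat_lit 1) (nat_lit 389) (nat_lit 399) (nat_lit 352)))) (XT.nd (nat_lit 78) (nat_lit 684) (nat_lit 0) (XT.lf (nat_lit 76) (nat_lit 1898492258) (nat_lit 0) (nat_lit 14708260) (nat_lit 760) (nat_lit 1898492258) (nat_lit 340) (nat_lit 1) (nat_lit 339) (nat_lit 1) (nat_lit 349) (nat_lit 1) (nat_lit 390) (nat_lit 399) (nat_lit 351)) (XT.nd (nat_lit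 78) (nat_lit 0) (nat_lit 0) (XT.lf (nat_lit 760) (nat_lit 3210352974) (nat_lit 0) (nat_lit 284704251) (nat_lit 684) (nat_lit 284704251) (nat_lit 340) (nat_lit 1) (nat_lit 330) (nat_lit 1) (nat_lit 339) (nat_lit 1) (nat_lit 391) (nat_lit 399) (nat_lit 350)) (XT.lf (nat_lit 76) (nat_lit 1306981698) (nat_lit 0) (nat_lit 1134076012) (nat_lit 760) (nat_lit 1306981698) (nat_lit 331) (nat_lit 1) (nat_lit 330) (nat_lit 1) (nat_lit 340) (nat_lit 1) (nat_lit 392) (nat_lit 399) (nat_lit 349)))))) (XT.nd (nat_lit 468) (nat_lit 2356) (nat_lit 0) (XT.nd (nat_lit 234) (nat_lit 1292) (nat_lit 0) (XT.nd (nat_lit 78) (nat_lit 608) (nat_lit 0) (XT.lf (nat_lit 760) (nat_lit 2021806704) (nat_lit 0) (nat_lit 847493170) (nat_lit 684) (nat_lit 847493170) (nat_lit 331) (nat_lit 1) (nat_lit 321) (nat_lit 1) (nat_lit 330) (nat_lit 1) (nat_lit 393) (nat_lit 399) (nat_lit 348)) (XT.nd (nat_lit 78) (nat_lit 608) (nat_lit 0) (XT.lf (nat_lit 76) (nat_lit 713935739)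 (nat_lit 0) (nat_lit 2258025337) (nat_lit 760) (nat_lit 713935739) (nat_lit 322) (nat_lit 1) (nat_lit 321) (nat_lit 1) (nat_lit 331) (nat_lit 1) (nat_lit 394) (nat_lit 399) (nat_lit 347)) (XT.lf (nat_lit 684) (nat_lit 830726613) (nat_lit 0) (nat_lit 1412294250) (nat_lit 608) (nat_lit 1412294250) (nat_lit 322) (nat_lit 1) (nat_lit 313) (nat_lit 1) (nat_lit 321) (nat_lit 1) (nat_lit 395) (nat_lit 399) (nat_lit 346)))) (XT.nd (nat_lit 78) (nat_lit 1292) (nat_lit 0) (XT.lf (nat_lit 76) (nat_lit 119894484) (nat_lit 0) (nat_lit 3385436211) (nat_lit 684) (nat_lit 119894484) (nat_lit 314) (nat_lit 1) (nat_lit 313) (nat_lit 1) (nat_lit 322) (nat_lit 1) (nat_lit 396) (nat_lit 399) (nat_lit 345)) (XT.nd (nat_lit 78) (nat_lit 608) (nat_lit 0) (XT.lf (nat_lit 76) (nat_lit 1619076397) (nat_lit 0) (nat_lit 357088746) (nat_lit 684) (nat_lit 1619076397) (nat_lit 305) (nat_lit 1) (nat_lit 304) (nat_lit 1) (nat_lit 313) (nat_lit 1) (nat_lit 397) (nat_lit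 399) (nat_lit 344)) (XT.lf (nat_lit 684) (nat_lit 2622718940) (nat_lit 0) (nat_lit 471509778) (nat_lit 608) (nat_lit 471509778) (nat_lit 305) (nat_lit 1) (nat_lit 296) (nat_lit 1) (nat_lit 304) (nat_lit 1) (nat_lit 398) (nat_lit 399) (nat_lit 343))))) (XT.nd (nat_lit 234) (nat_lit 1748) (nat_lit 0) (XT.nd (nat_lit 78) (nat_lit 608) (nat_lit 0) (XT.lf (nat_lit 76) (nat_lit 1000991707) (nat_lit 0) (nat_lit 1534489956) (nat_lit 684) (nat_lit 1000991707) (nat_lit 297) (nat_lit 1) (nat_lit 296) (nat_lit 1) (nat_lit 305) (nat_lit 1) (nat_lit 399) (nat_lit 399) (nat_lit 342)) (XT.nd (nat_lit 78) (nat_lit 0) (nat_lit 0) (XT.lf (nat_lit 684) (nat_lit 1383323846) (nat_lit 0) (nat_lit 1062130139) (nat_lit 608) (nat_lit 1062130139) (nat_lit 297) (nat_lit 1) (nat_lit 288) (nat_lit 1) (nat_lit 296) (nat_lit 1) (nat_lit 400) (nat_lit 399) (nat_lit 341)) (XT.lf (nat_lit 76) (nat_lit 383816886) (nat_lit 0) (nat_lit 2711447934) (nat_lit 684) (nat_lit 383816886)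 (nat_lit 289) (nat_lit 1) (nat_lit 288) (nat_lit 1) (nat_lit 297) (nat_lit 1) (nat_lit 401) (nat_lit 399) (nat_lit 340)))) (XT.nd (nat_lit 156) (nat_lit 532) (nat_lit 0) (XT.nd (nat_lit 78) (nat_lit 684) (nat_lit 0) (XT.lf (nat_lit 608) (nat_lit 146177580) (nat_lit 0) (nat_lit 1652305402) (nat_lit 532) (nat_lit 1652305402) (nat_lit 289) (nat_lit 1) (nat_lit 281) (nat_lit 1) (nat_lit 288) (nat_lit 1) (nat_lit 402) (nat_lit 399) (nat_lit 339)) (XT.lf (nat_lit 684) (nat_lit 2961901703) (nat_lit 0) (nat_lit 230504112) (nat_lit 608) (nat_lit 230504112) (nat_lit 281) (nat_lit 1) (nat_lit 272) (nat_lit 1) (nat_lit 280) (nat_lit 1) (nat_lit 403) (nat_lit 399) (nat_lit 338))) (XT.nd (nat_lit 78) (nat_lit 532) (nat_lit 0) (XT.lf (nat_lit 76) (nat_lit 1160767691) (nat_lit 0) (nat_lit 1073639504) (nat_lit 684) (nat_lit 1160767691) (nat_lit 273) (nat_lit 1) (nat_lit 272) (nat_lit 1) (nat_lit 281) (nat_lit 1) (nat_lit 404) (nat_lit 399) (nat_lit 337))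 (XT.lf (nat_lit 608) (nat_lit 1686661846) (nat_lit 0) (nat_lit 840591661) (nat_lit 532) (nat_lit 840591661) (nat_lit 273) (nat_lit 1) (nat_lit 265) (nat_lit 1) (nat_lit 272) (nat_lit 1) (nat_lit 405) (nat_lit 399) (nat_lit 336))))))))
noncomputable def ec46 : XT := (XT.nd (nat_lit 1872) (nat_lit 380) (nat_lit 0) (XT.nd (nat_lit 936) (nat_lit 3116) (nat_lit 0) (XT.nd (nat_lit 468) (nat_lit 1976) (nat_lit 0) (XT.nd (nat_lit 234) (nat_lit 532) (nat_lit 0) (XT.nd (nat_lit 78) (nat_lit 1140) (nat_lit 0) (XT.lf (nat_lit 76) (nat_lit 526533432) (nat_lit 0) (nat_lit 2287765447) (nat_lit 608) (nat_lit 526533432) (nat_lit 266) (nat_lit 1) (nat_lit 265) (nat_lit 1) (nat_lit 273) (nat_lit 1) (nat_lit 406) (nat_lit 399) (nat_lit 335)) (XT.nd (nat_lit 78) (nat_lit 608) (nat_lit 0) (XT.lf (nat_lit 608) (nat_lit 416844226) (nat_lit 0) (nat_lit 1448604886) (nat_lit 532) (nat_lit 1448604886) (nat_lit 266) (nat_lit 1) (nat_lit 258) (nat_lit 1) (nat_lit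 265) (nat_lit 1) (nat_lit 407) (nat_lit 399) (nat_lit 334)) (XT.lf (nat_lit 608) (nat_lit 3079407339) (nat_lit 0) (nat_lit 104142323) (nat_lit 532) (nat_lit 104142323) (nat_lit 258) (nat_lit 1) (nat_lit 250) (nat_lit 1) (nat_lit 257) (nat_lit 1) (nat_lit 408) (nat_lit 399) (nat_lit 333)))) (XT.nd (nat_lit 78) (nat_lit 532) (nat_lit 0) (XT.lf (nat_lit 76) (nat_lit 1212802041) (nat_lit 0) (nat_lit 835789857) (nat_lit 608) (nat_lit 1212802041) (nat_lit 251) (nat_lit 1) (nat_lit 250) (nat_lit 1) (nat_lit 258) (nat_lit 1) (nat_lit 409) (nat_lit 399) (nat_lit 332)) (XT.nd (nat_lit 78) (nat_lit 0) (nat_lit 0) (XT.lf (nat_lit 608) (nat_lit 1779121881) (nat_lit 0) (nat_lit 728190922) (nat_lit 532) (nat_lit 728190922) (nat_lit 251) (nat_lit 1) (nat_lit 243) (nat_lit 1) (nat_lit 250) (nat_lit 1) (nat_lit 410) (nat_lit 399) (nat_lit 331)) (XT.lf (nat_lit 76) (nat_lit 566766768) (nat_lit 0) (nat_lit 2076356600) (nat_lit 608) (nat_lit 566766768) (nat_lit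 244) (nat_lit 1) (nat_lit 243) (nat_lit 1) (nat_lit 251) (nat_lit 1) (nat_lit 411) (nat_lit 399) (nat_lit 330))))) (XT.nd (nat_lit 234) (nat_lit 912) (nat_lit 0) (XT.nd (nat_lit 78) (nat_lit 608) (nat_lit 0) (XT.lf (nat_lit 532) (nat_lit 486943545) (nat_lit 0) (nat_lit 1348783690) (nat_lit 456) (nat_lit 1348783690) (nat_lit 244) (nat_lit 1) (nat_lit 237) (nat_lit 1) (nat_lit 243) (nat_lit 1) (nat_lit 412) (nat_lit 399) (nat_lit 329)) (XT.nd (nat_lit 78) (nat_lit 0) (nat_lit 0) (XT.lf (nat_lit 608) (nat_lit 3010322091) (nat_lit 0) (nat_lit 74602444) (nat_lit 532) (nat_lit 74602444) (nat_lit 237) (nat_lit 1) (nat_lit 229) (nat_lit 1) (nat_lit 236) (nat_lit 1) (nat_lit 413) (nat_lit 399) (nat_lit 328)) (XT.lf (nat_lit 76) (nat_lit 1174208160) (nat_lit 0) (nat_lit 786163704) (nat_lit 608) (nat_lit 1174208160) (nat_lit 230) (nat_lit 1) (nat_lit 229) (nat_lit 1) (nat_lit 237) (nat_lit 1) (nat_lit 414) (nat_lit 399) (nat_lit 327)))) (XT.nd (nat_lit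 78) (nat_lit 456) (nat_lit 0) (XT.lf (nat_lit 532) (nat_lit 1694316964) (nat_lit 0) (nat_lit 707851922) (nat_lit 456) (nat_lit 707851922) (nat_lit 230) (nat_lit 1) (nat_lit 223) (nat_lit 1) (nat_lit 229) (nat_lit 1) (nat_lit 415) (nat_lit 399) (nat_lit 326)) (XT.nd (nat_lit 78) (nat_lit 456) (nat_lit 0) (XT.lf (nat_lit 76) (nat_lit 520911222) (nat_lit 0) (nat_lit 2043900692) (nat_lit 532) (nat_lit 520911222) (nat_lit 224) (nat_lit 1) (nat_lit 223) (nat_lit 1) (nat_lit 230) (nat_lit 1) (nat_lit 416) (nat_lit 399) (nat_lit 325)) (XT.lf (nat_lit 532) (nat_lit 388675218) (nat_lit 0) (nat_lit 1336481503) (nat_lit 456) (nat_lit 1336481503) (nat_lit 224) (nat_lit 1) (nat_lit 217) (nat_lit 1) (nat_lit 223) (nat_lit 1) (nat_lit 417) (nat_lit 399) (nat_lit 324)))))) (XT.nd (nat_lit 468) (nat_lit 1216) (nat_lit 0) (XT.nd (nat_lit 234) (nat_lit 912) (nat_lit 0) (XT.nd (nat_lit 78) (nat_lit 456) (nat_lit 0) (XT.lf (nat_lit 532) (nat_lit 2785342269)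 (nat_lit 0) (nat_lit 126283290) (nat_lit 456) (nat_lit 126283290) (nat_lit 217) (nat_lit 1) (nat_lit 210) (nat_lit 1) (nat_lit 216) (nat_lit 1) (nat_lit 418) (nat_lit 399) (nat_lit 323)) (XT.nd (nat_lit 78) (nat_lit 456) (nat_lit 0) (XT.lf (nat_lit 76) (nat_lit 1059955940) (nat_lit 0) (nat_lit 894321706) (nat_lit 532) (nat_lit 1059955940) (nat_lit 211) (nat_lit 1) (nat_lit 210) (nat_lit 1) (nat_lit 217) (nat_lit 1) (nat_lit 419) (nat_lit 399) (nat_lit 322)) (XT.lf (nat_lit 532) (nat_lit 1461645452) (nat_lit 0) (nat_lit 764630863) (nat_lit 456) (nat_lit 764630863) (nat_lit 211) (nat_lit 1) (nat_lit 204) (nat_lit 1) (nat_lit 210) (nat_lit 1) (nat_lit 420) (nat_lit 399) (nat_lit 321)))) (XT.nd (nat_lit 78) (nat_lit 912) (nat_lit 0) (XT.lf (nat_lit 76) (nat_lit 403303218) (nat_lit 0) (nat_lit 2161241916) (nat_lit 532) (nat_lit 403303218) (nat_lit 205) (nat_lit 1) (nat_lit 204) (nat_lit 1) (nat_lit 211) (nat_lit 1) (nat_lit 421) (nat_lit 399)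 (nat_lit 320)) (XT.nd (nat_lit 78) (nat_lit 532) (nat_lit 0) (XT.lf (nat_lit 456) (nat_lit 150192628) (nat_lit 0) (nat_lit 1397385117) (nat_lit 380) (nat_lit 1397385117) (nat_lit 205) (nat_lit 1) (nat_lit 199) (nat_lit 1) (nat_lit 204) (nat_lit 1) (nat_lit 422) (nat_lit 399) (nat_lit 319)) (XT.lf (nat_lit 532) (nat_lit 2431285083) (nat_lit 0) (nat_lit 245546353) (nat_lit 456) (nat_lit 245546353) (nat_lit 199) (nat_lit 1) (nat_lit 192) (nat_lit 1) (nat_lit 198) (nat_lit 1) (nat_lit 423) (nat_lit 399) (nat_lit 318))))) (XT.nd (nat_lit 234) (nat_lit 836) (nat_lit 0) (XT.nd (nat_lit 78) (nat_lit 380) (nat_lit 0) (XT.lf (nat_lit 76) (nat_lit 883121287) (nat_lit 0) (nat_lit 1133658153) (nat_lit 532) (nat_lit 883121287) (nat_lit 193) (nat_lit 1) (nat_lit 192) (nat_lit 1) (nat_lit 199) (nat_lit 1) (nat_lit 424) (nat_lit 399) (nat_lit 317)) (XT.nd (nat_lit 78) (nat_lit 0) (nat_lit 0) (XT.lf (nat_lit 456) (nat_lit 1106781839) (nat_lit 0) (nat_lit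 885468157) (nat_lit 380) (nat_lit 885468157) (nat_lit 193) (nat_lit 1) (nat_lit 187) (nat_lit 1) (nat_lit 192) (nat_lit 1) (nat_lit 425) (nat_lit 399) (nat_lit 316)) (XT.lf (nat_lit 76) (nat_lit 226461012) (nat_lit 0) (nat_lit 2402904788) (nat_lit 456) (nat_lit 226461012) (nat_lit 188) (nat_lit 1) (nat_lit 187) (nat_lit 1) (nat_lit 193) (nat_lit 1) (nat_lit 426) (nat_lit 399) (nat_lit 315)))) (XT.nd (nat_lit 78) (nat_lit 380) (nat_lit 0) (XT.lf (nat_lit 76) (nat_lit 1316388595) (nat_lit 0) (nat_lit 201251071) (nat_lit 456) (nat_lit 1316388595) (nat_lit 182) (nat_lit 1) (nat_lit 181) (nat_lit 1) (nat_lit 187) (nat_lit 1) (nat_lit 427) (nat_lit 399) (nat_lit 314)) (XT.nd (nat_lit 78) (nat_lit 0) (nat_lit 0) (XT.lf (nat_lit 456) (nat_lit 1971541484) (nat_lit 0) (nat_lit 420486990) (nat_lit 380) (nat_lit 420486990) (nat_lit 182) (nat_lit 1) (nat_lit 176) (nat_lit 1) (nat_lit 181) (nat_lit 1) (nat_lit 428) (nat_lit 399) (nat_lit 313)) (XT.lf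 (nat_lit 76) (nat_lit 655107309) (nat_lit 0) (nat_lit 1480953857) (nat_lit 456) (nat_lit 655107309) (nat_lit 177) (nat_lit 1) (nat_lit 176) (nat_lit 1) (nat_lit 182) (nat_lit 1) (nat_lit 429) (nat_lit 399) (nat_lit 312))))))) (XT.nd (nat_lit 53118) (nat_lit 0) (nat_lit 23636) (XT.nd (nat_lit 52650) (nat_lit 0) (nat_lit 24928) (XT.nd (nat_lit 52416) (nat_lit 0) (nat_lit 24776) (XT.nd (nat_lit 78) (nat_lit 0) (nat_lit 0) (XT.lf (nat_lit 456) (nat_lit 652111827) (nat_lit 0) (nat_lit 1058968593) (nat_lit 380) (nat_lit 1058968593) (nat_lit 177) (nat_lit 1) (nat_lit 171) (nat_lit 1) (nat_lit 176) (nat_lit 1) (nat_lit 430) (nat_lit 399) (nat_lit 311)) (XT.nd (nat_lit 52260) (nat_lit 0) (nat_lit 24776) (XT.lf (nat_lit 76) (nat_lit 1297195) (nat_lit 0) (nat_lit 2746664587) (nat_lit 456) (nat_lit 1297195) (nat_lit 172) (nat_lit 1) (nat_lit 171) (nat_lit 1) (nat_lit 177) (nat_lit 1) (nat_lit 431) (nat_lit 399) (nat_lit 310)) (XT.lf (nat_lit 1900)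 (nat_lit 1002279368) (nat_lit 0) (nat_lit 1010660754) (nat_lit 1900) (nat_lit 1002279368) (nat_lit 522) (nat_lit 1) (nat_lit 497) (nat_lit 0) (nat_lit 522) (nat_lit 0) (nat_lit 340) (nat_lit 400) (nat_lit 400)))) (XT.nd (nat_lit 78) (nat_lit 0) (nat_lit 76) (XT.lf (nat_lit 1900) (nat_lit 3963163316) (nat_lit 76) (nat_lit 1004011671) (nat_lit 0) (nat_lit 1004011671) (nat_lit 522) (nat_lit 1) (nat_lit 498) (nat_lit 1) (nat_lit 497) (nat_lit 0) (nat_lit 341) (nat_lit 400) (nat_lit 399)) (XT.nd (nat_lit 78) (nat_lit 0) (nat_lit 0) (XT.lf (nat_lit 1900) (nat_lit 1945932053) (nat_lit 0) (nat_lit 2020717407) (nat_lit 1824) (nat_lit 1945932053) (nat_lit 523) (nat_lit 1) (nat_lit 498) (nat_lit 1) (nat_lit 522) (nat_lit 1) (nat_lit 342) (nat_lit 400) (nat_lit 398)) (XT.lf (nat_lit 1900) (nat_lit 3808668726) (nat_lit 76) (nat_lit 1023098046) (nat_lit 0) (nat_lit 1023098046) (nat_lit 523) (nat_lit 1) (nat_lit 499) (nat_lit 1) (nat_lit 498) (nat_lit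 1) (nat_lit 343) (nat_lit 400) (nat_lit 397))))) (XT.nd (nat_lit 234) (nat_lit 0) (nat_lit 76) (XT.nd (nat_lit 78) (nat_lit 0) (nat_lit 0) (XT.lf (nat_lit 1900) (nat_lit 1850940828) (nat_lit 0) (nat_lit 2095903599) (nat_lit 1824) (nat_lit 1850940828) (nat_lit 524) (nat_lit 1) (nat_lit 499) (nat_lit 1) (nat_lit 523) (nat_lit 1) (nat_lit 344) (nat_lit 400) (nat_lit 396)) (XT.nd (nat_lit 78) (nat_lit 0) (nat_lit 76) (XT.lf (nat_lit 1900) (nat_lit 3583399612) (nat_lit 76) (nat_lit 1079077459) (nat_lit 0) (nat_lit 1079077459) (nat_lit 524) (nat_lit 1) (nat_lit 500) (nat_lit 1) (nat_lit 499) (nat_lit 1) (nat_lit 345) (nat_lit 400) (nat_lit 395)) (XT.lf (nat_lit 1900) (nat_lit 1721754810) (nat_lit 0) (nat_lit 2242451432) (nat_lit 1824) (nat_lit 1721754810) (nat_lit 525) (nat_lit 1) (nat_lit 500) (nat_lit 1) (nat_lit 524) (nat_lit 1) (nat_lit 346) (nat_lit 400) (nat_lit 394)))) (XT.nd (nat_lit 78) (nat_lit 0) (nat_lit 76) (XT.lf (nat_lit 1900)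 (nat_lit 3291609602) (nat_lit 76) (nat_lit 1169779384) (nat_lit 0) (nat_lit 1169779384) (nat_lit 525) (nat_lit 1) (nat_lit 501) (nat_lit 1) (nat_lit 500) (nat_lit 1) (nat_lit 347) (nat_lit 400) (nat_lit 393)) (XT.nd (nat_lit 78) (nat_lit 0) (nat_lit 0) (XT.lf (nat_lit 1900) (nat_lit 1560444637) (nat_lit 0) (nat_lit 2456133352) (nat_lit 1824) (nat_lit 1560444637) (nat_lit 526) (nat_lit 1) (nat_lit 501) (nat_lit 1) (nat_lit 525) (nat_lit 1) (nat_lit 348) (nat_lit 400) (nat_lit 392)) (XT.lf (nat_lit 1900) (nat_lit 2937357633) (nat_lit 76) (nat_lit 1293132046) (nat_lit 0) (nat_lit 1293132046) (nat_lit 526) (nat_lit 1) (nat_lit 502) (nat_lit 1) (nat_lit 501) (nat_lit 1) (nat_lit 349) (nat_lit 400) (nat_lit 391)))))) (XT.nd (nat_lit 468) (nat_lit 1520) (nat_lit 0) (XT.nd (nat_lit 234) (nat_lit 0) (nat_lit 76) (XT.nd (nat_lit 78) (nat_lit 0) (nat_lit 0) (XT.lf (nat_lit 1900) (nat_lit 1368985975) (nat_lit 0) (nat_lit 2732914524) (nat_lit 1824)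 (nat_lit 1368985975) (nat_lit 527) (nat_lit 1) (nat_lit 502) (nat_lit 1) (nat_lit 526) (nat_lit 1) (nat_lit 350) (nat_lit 400) (nat_lit 390)) (XT.nd (nat_lit 78) (nat_lit 0) (nat_lit 76) (XT.lf (nat_lit 1900) (nat_lit 2524516092) (nat_lit 76) (nat_lit 1447158307) (nat_lit 0) (nat_lit 1447158307) (nat_lit 527) (nat_lit 1) (nat_lit 503) (nat_lit 1) (nat_lit 502) (nat_lit 1) (nat_lit 351) (nat_lit 400) (nat_lit 389)) (XT.lf (nat_lit 1900) (nat_lit 1149263496) (nat_lit 0) (nat_lit 3068944792) (nat_lit 1824) (nat_lit 1149263496) (nat_lit 528) (nat_lit 1) (nat_lit 503) (nat_lit 1) (nat_lit 527) (nat_lit 1) (nat_lit 352) (nat_lit 400) (nat_lit 388)))) (XT.nd (nat_lit 78) (nat_lit 0) (nat_lit 76) (XT.lf (nat_lit 1900) (nat_lit 2056778625) (nat_lit 76) (nat_lit 1629971711) (nat_lit 0) (nat_lit 1629971711) (nat_lit 528) (nat_lit 1) (nat_lit 504) (nat_lit 1) (nat_lit 503) (nat_lit 1) (nat_lit 353) (nat_lit 400) (nat_lit 387)) (XT.nd (nat_lit 78)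 (nat_lit 0) (nat_lit 0) (XT.lf (nat_lit 1900) (nat_lit 903074685) (nat_lit 0) (nat_lit 3460550953) (nat_lit 1824) (nat_lit 903074685) (nat_lit 529) (nat_lit 1) (nat_lit 504) (nat_lit 1) (nat_lit 528) (nat_lit 1) (nat_lit 354) (nat_lit 400) (nat_lit 386)) (XT.lf (nat_lit 1900) (nat_lit 1537667634) (nat_lit 76) (nat_lit 1839772688) (nat_lit 0) (nat_lit 1839772688) (nat_lit 529) (nat_lit 1) (nat_lit 505) (nat_lit 1) (nat_lit 504) (nat_lit 1) (nat_lit 355) (nat_lit 400) (nat_lit 385))))) (XT.nd (nat_lit 234) (nat_lit 1748) (nat_lit 0) (XT.nd (nat_lit 78) (nat_lit 0) (nat_lit 0) (XT.lf (nat_lit 1900) (nat_lit 632133507) (nat_lit 0) (nat_lit 3904229352) (nat_lit 1824) (nat_lit 632133507) (nat_lit 530) (nat_lit 1) (nat_lit 505) (nat_lit 1) (nat_lit 529) (nat_lit 1) (nat_lit 356) (nat_lit 400) (nat_lit 384)) (XT.nd (nat_lit 78) (nat_lit 0) (nat_lit 76) (XT.lf (nat_lit 1900) (nat_lit 970541473) (nat_lit 76) (nat_lit 2074844918) (nat_lit 0) (nat_lit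 2074844918) (nat_lit 530) (nat_lit 1) (nat_lit 506) (nat_lit 1) (nat_lit 505) (nat_lit 1) (nat_lit 357) (nat_lit 400) (nat_lit 383)) (XT.lf (nat_lit 1900) (nat_lit 338073914) (nat_lit 0) (nat_lit 4396638768) (nat_lit 1824) (nat_lit 338073914) (nat_lit 531) (nat_lit 1) (nat_lit 506) (nat_lit 1) (nat_lit 530) (nat_lit 1) (nat_lit 358) (nat_lit 400) (nat_lit 382)))) (XT.nd (nat_lit 78) (nat_lit 1824) (nat_lit 0) (XT.lf (nat_lit 1900) (nat_lit 358601354) (nat_lit 76) (nat_lit 2333551829) (nat_lit 0) (nat_lit 2333551829) (nat_lit 531) (nat_lit 1) (nat_lit 507) (nat_lit 1) (nat_lit 506) (nat_lit 1) (nat_lit 359) (nat_lit 400) (nat_lit 381)) (XT.nd (nat_lit 78) (nat_lit 1900) (nat_lit 0) (XT.lf (nat_lit 1900) (nat_lit 22453218) (nat_lit 0) (nat_lit 4934593592) (nat_lit 1824) (nat_lit 22453218) (nat_lit 532) (nat_lit 1) (nat_lit 507) (nat_lit 1) (nat_lit 531) (nat_lit 1) (nat_lit 360) (nat_lit 400) (nat_lit 380)) (XT.lf (nat_lit 1976) (nat_lit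 2321147217) (nat_lit 0) (nat_lit 291231714) (nat_lit 1900) (nat_lit 2321147217) (nat_lit 508) (nat_lit 1) (nat_lit 482) (nat_lit 1) (nat_lit 507) (nat_lit 1) (nat_lit 361) (nat_lit 400) (nat_lit 379))))))))
noncomputable def ec47 : XT := (XT.nd (nat_lit 1872) (nat_lit 9196) (nat_lit 0) (XT.nd (nat_lit 936) (nat_lit 4788) (nat_lit 0) (XT.nd (nat_lit 468) (nat_lit 3648) (nat_lit 0) (XT.nd (nat_lit 234) (nat_lit 988) (nat_lit 0) (XT.nd (nat_lit 78) (nat_lit 0) (nat_lit 76) (XT.lf (nat_lit 1976) (nat_lit 4266036971) (nat_lit 76) (nat_lit 311183853) (nat_lit 0) (nat_lit 311183853) (nat_lit 508) (nat_lit 1) (nat_lit 483) (nat_lit 1) (nat_lit 482) (nat_lit 1) (nat_lit 362) (nat_lit 400) (nat_lit 378)) (XT.nd (nat_lit 78) (nat_lit 0) (nat_lit 0) (XT.lf (nat_lit 1976) (nat_lit 1934452601) (nat_lit 0) (nat_lit 974708778) (nat_lit 1900) (nat_lit 1934452601) (nat_lit 509) (nat_lit 1) (nat_lit 483) (nat_lit 1) (nat_lit 508) (nat_lit 1) (nat_lit 363)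 (nat_lit 400) (nat_lit 377)) (XT.lf (nat_lit 1976) (nat_lit 3473147774) (nat_lit 76) (nat_lit 663214011) (nat_lit 0) (nat_lit 663214011) (nat_lit 509) (nat_lit 1) (nat_lit 484) (nat_lit 1) (nat_lit 483) (nat_lit 1) (nat_lit 364) (nat_lit 400) (nat_lit 376)))) (XT.nd (nat_lit 78) (nat_lit 1140) (nat_lit 0) (XT.lf (nat_lit 76) (nat_lit 1531074658) (nat_lit 0) (nat_lit 1693800791) (nat_lit 1900) (nat_lit 1531074658) (nat_lit 485) (nat_lit 1) (nat_lit 484) (nat_lit 1) (nat_lit 509) (nat_lit 1) (nat_lit 365) (nat_lit 400) (nat_lit 375)) (XT.nd (nat_lit 78) (nat_lit 0) (nat_lit 0) (XT.lf (nat_lit 1216) (nat_lit 2648066226) (nat_lit 0) (nat_lit 1032447549) (nat_lit 1140) (nat_lit 1032447549) (nat_lit 485) (nat_lit 1) (nat_lit 469) (nat_lit 1) (nat_lit 484) (nat_lit 1) (nat_lit 366) (nat_lit 400) (nat_lit 374)) (XT.lf (nat_lit 76) (nat_lit 1112282775) (nat_lit 0) (nat_lit 2445906051) (nat_lit 1216) (nat_lit 1112282775) (nat_lit 470) (nat_lit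 1) (nat_lit 469) (nat_lit 1) (nat_lit 485) (nat_lit 1) (nat_lit 367) (nat_lit 400) (nat_lit 373))))) (XT.nd (nat_lit 234) (nat_lit 1824) (nat_lit 0) (XT.nd (nat_lit 78) (nat_lit 912) (nat_lit 0) (XT.lf (nat_lit 988) (nat_lit 1793277321) (nat_lit 0) (nat_lit 1417611083) (nat_lit 912) (nat_lit 1417611083) (nat_lit 470) (nat_lit 1) (nat_lit 457) (nat_lit 1) (nat_lit 469) (nat_lit 1) (nat_lit 368) (nat_lit 400) (nat_lit 372)) (XT.nd (nat_lit 78) (nat_lit 912) (nat_lit 0) (XT.lf (nat_lit 76) (nat_lit 679284857) (nat_lit 0) (nat_lit 3228547780) (nat_lit 988) (nat_lit 679284857) (nat_lit 458) (nat_lit 1) (nat_lit 457) (nat_lit 1) (nat_lit 470) (nat_lit 1) (nat_lit 369) (nat_lit 400) (nat_lit 371)) (XT.lf (nat_lit 988) (nat_lit 911145342) (nat_lit 0) (nat_lit 1817492546) (nat_lit 912) (nat_lit 1817492546) (nat_lit 458) (nat_lit 1) (nat_lit 445) (nat_lit 1) (nat_lit 457) (nat_lit 1) (nat_lit 370) (nat_lit 400) (nat_lit 370)))) (XT.nd (nat_lit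 78) (nat_lit 1824) (nat_lit 0) (XT.lf (nat_lit 76) (nat_lit 233229960) (nat_lit 0) (nat_lit 4039368806) (nat_lit 988) (nat_lit 233229960) (nat_lit 446) (nat_lit 1) (nat_lit 445) (nat_lit 1) (nat_lit 458) (nat_lit 1) (nat_lit 371) (nat_lit 400) (nat_lit 369)) (XT.nd (nat_lit 78) (nat_lit 988) (nat_lit 0) (XT.lf (nat_lit 912) (nat_lit 3919027) (nat_lit 0) (nat_lit 2230938573) (nat_lit 836) (nat_lit 2230938573) (nat_lit 446) (nat_lit 1) (nat_lit 434) (nat_lit 1) (nat_lit 445) (nat_lit 1) (nat_lit 372) (nat_lit 400) (nat_lit 368)) (XT.lf (nat_lit 988) (nat_lit 3979810275) (nat_lit 0) (nat_lit 223310319) (nat_lit 912) (nat_lit 223310319) (nat_lit 434) (nat_lit 1) (nat_lit 421) (nat_lit 1) (nat_lit 433) (nat_lit 1) (nat_lit 373) (nat_lit 400) (nat_lit 367)))))) (XT.nd (nat_lit 468) (nat_lit 2356) (nat_lit 0) (XT.nd (nat_lit 234) (nat_lit 1596) (nat_lit 0) (XT.nd (nat_lit 78) (nat_lit 836) (nat_lit 0) (XT.lf (nat_lit 76) (nat_lit 1736602430)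 (nat_lit 0) (nat_lit 914115371) (nat_lit 988) (nat_lit 1736602430) (nat_lit 422) (nat_lit 1) (nat_lit 421) (nat_lit 1) (nat_lit 434) (nat_lit 1) (nat_lit 374) (nat_lit 400) (nat_lit 366)) (XT.nd (nat_lit 78) (nat_lit 0) (nat_lit 0) (XT.lf (nat_lit 912) (nat_lit 2970518969) (nat_lit 0) (nat_lit 689169768) (nat_lit 836) (nat_lit 689169768) (nat_lit 422) (nat_lit 1) (nat_lit 410) (nat_lit 1) (nat_lit 421) (nat_lit 1) (nat_lit 375) (nat_lit 400) (nat_lit 365)) (XT.lf (nat_lit 76) (nat_lit 1229008676) (nat_lit 0) (nat_lit 1852747847) (nat_lit 912) (nat_lit 1229008676) (nat_lit 411) (nat_lit 1) (nat_lit 410) (nat_lit 1) (nat_lit 422) (nat_lit 1) (nat_lit 376) (nat_lit 400) (nat_lit 364)))) (XT.nd (nat_lit 78) (nat_lit 760) (nat_lit 0) (XT.lf (nat_lit 912) (nat_lit 1943375656) (nat_lit 0) (nat_lit 1164902081) (nat_lit 836) (nat_lit 1164902081) (nat_lit 411) (nat_lit 1) (nat_lit 399) (nat_lit 1) (nat_lit 410) (nat_lit 1) (nat_lit 377) (nat_lit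 400) (nat_lit 363)) (XT.nd (nat_lit 78) (nat_lit 760) (nat_lit 0) (XT.lf (nat_lit 76) (nat_lit 712977468) (nat_lit 0) (nat_lit 2810124115) (nat_lit 912) (nat_lit 712977468) (nat_lit 400) (nat_lit 1) (nat_lit 399) (nat_lit 1) (nat_lit 411) (nat_lit 1) (nat_lit 378) (nat_lit 400) (nat_lit 362)) (XT.lf (nat_lit 836) (nat_lit 900192062) (nat_lit 0) (nat_lit 1649575592) (nat_lit 760) (nat_lit 1649575592) (nat_lit 400) (nat_lit 1) (nat_lit 389) (nat_lit 1) (nat_lit 399) (nat_lit 1) (nat_lit 379) (nat_lit 400) (nat_lit 361))))) (XT.nd (nat_lit 234) (nat_lit 760) (nat_lit 0) (XT.nd (nat_lit 78) (nat_lit 1596) (nat_lit 0) (XT.lf (nat_lit 76) (nat_lit 189388363) (nat_lit 0) (nat_lit 3784434134) (nat_lit 836) (nat_lit 189388363) (nat_lit 390) (nat_lit 1) (nat_lit 389) (nat_lit 1) (nat_lit 400) (nat_lit 1) (nat_lit 380) (nat_lit 400) (nat_lit 360)) (XT.nd (nat_lit 78) (nat_lit 760) (nat_lit 0) (XT.lf (nat_lit 76) (nat_lit 1986014573) (nat_lit 0)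 (nat_lit 155249190) (nat_lit 836) (nat_lit 1986014573) (nat_lit 379) (nat_lit 1) (nat_lit 378) (nat_lit 1) (nat_lit 389) (nat_lit 1) (nat_lit 381) (nat_lit 400) (nat_lit 359)) (XT.lf (nat_lit 836) (nat_lit 3414571308) (nat_lit 0) (nat_lit 338681135) (nat_lit 760) (nat_lit 338681135) (nat_lit 379) (nat_lit 1) (nat_lit 368) (nat_lit 1) (nat_lit 378) (nat_lit 1) (nat_lit 382) (nat_lit 400) (nat_lit 358)))) (XT.nd (nat_lit 78) (nat_lit 760) (nat_lit 0) (XT.lf (nat_lit 76) (nat_lit 1422715480) (nat_lit 0) (nat_lit 1211407501) (nat_lit 836) (nat_lit 1422715480) (nat_lit 369) (nat_lit 1) (nat_lit 368) (nat_lit 1) (nat_lit 379) (nat_lit 1) (nat_lit 383) (nat_lit 400) (nat_lit 357)) (XT.nd (nat_lit 78) (nat_lit 0) (nat_lit 0) (XT.lf (nat_lit 836) (nat_lit 2279480443) (nat_lit 0) (nat_lit 871397386) (nat_lit 760) (nat_lit 871397386) (nat_lit 369) (nat_lit 1) (nat_lit 358) (nat_lit 1) (nat_lit 368) (nat_lit 1) (nat_lit 384) (nat_lit 400) (nat_lit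 356)) (XT.lf (nat_lit 76) (nat_lit 854765548) (nat_lit 0) (nat_lit 2278562585) (nat_lit 836) (nat_lit 854765548) (nat_lit 359) (nat_lit 1) (nat_lit 358) (nat_lit 1) (nat_lit 369) (nat_lit 1) (nat_lit 385) (nat_lit 400) (nat_lit 355))))))) (XT.nd (nat_lit 936) (nat_lit 4484) (nat_lit 0) (XT.nd (nat_lit 468) (nat_lit 1900) (nat_lit 0) (XT.nd (nat_lit 234) (nat_lit 1368) (nat_lit 0) (XT.nd (nat_lit 78) (nat_lit 760) (nat_lit 0) (XT.lf (nat_lit 760) (nat_lit 1135766684) (nat_lit 0) (nat_lit 1409260879) (nat_lit 684) (nat_lit 1409260879) (nat_lit 359) (nat_lit 1) (nat_lit 349) (nat_lit 1) (nat_lit 358) (nat_lit 1) (nat_lit 386) (nat_lit 400) (nat_lit 354)) (XT.nd (nat_lit 78) (nat_lit 760) (nat_lit 0) (XT.lf (nat_lit 76) (nat_lit 282865460) (nat_lit 0) (nat_lit 3355267646) (nat_lit 760) (nat_lit 282865460) (nat_lit 350) (nat_lit 1) (nat_lit 349) (nat_lit 1) (nat_lit 359) (nat_lit 1) (nat_lit 387) (nat_lit 400) (nat_lit 353)) (XT.lf (nat_lit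 76) (nat_lit 1936462103) (nat_lit 0) (nat_lit 15002426) (nat_lit 760) (nat_lit 1936462103) (nat_lit 340) (nat_lit 1) (nat_lit 339) (nat_lit 1) (nat_lit 349) (nat_lit 1) (nat_lit 388) (nat_lit 400) (nat_lit 352)))) (XT.nd (nat_lit 78) (nat_lit 684) (nat_lit 0) (XT.lf (nat_lit 760) (nat_lit 3274560034) (nat_lit 0) (nat_lit 290398336) (nat_lit 684) (nat_lit 290398336) (nat_lit 340) (nat_lit 1) (nat_lit 330) (nat_lit 1) (nat_lit 339) (nat_lit 1) (nat_lit 389) (nat_lit 400) (nat_lit 351)) (XT.nd (nat_lit 78) (nat_lit 684) (nat_lit 0) (XT.lf (nat_lit 76) (nat_lit 1333121332) (nat_lit 0) (nat_lit 1156757532) (nat_lit 760) (nat_lit 1333121332) (nat_lit 331) (nat_lit 1) (nat_lit 330) (nat_lit 1) (nat_lit 340) (nat_lit 1) (nat_lit 390) (nat_lit 400) (nat_lit 350)) (XT.lf (nat_lit 760) (nat_lit 2062242838) (nat_lit 0) (nat_lit 864443033) (nat_lit 684) (nat_lit 864443033) (nat_lit 331) (nat_lit 1) (nat_lit 321) (nat_lit 1) (nat_lit 330) (nat_lit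 1) (nat_lit 391) (nat_lit 400) (nat_lit 349))))) (XT.nd (nat_lit 234) (nat_lit 1292) (nat_lit 0) (XT.nd (nat_lit 78) (nat_lit 608) (nat_lit 0) (XT.lf (nat_lit 76) (nat_lit 728214454) (nat_lit 0) (nat_lit 2303185844) (nat_lit 760) (nat_lit 728214454) (nat_lit 322) (nat_lit 1) (nat_lit 321) (nat_lit 1) (nat_lit 331) (nat_lit 1) (nat_lit 392) (nat_lit 400) (nat_lit 348)) (XT.nd (nat_lit 78) (nat_lit 0) (nat_lit 0) (XT.lf (nat_lit 684) (nat_lit 847341145) (nat_lit 0) (nat_lit 1440540135) (nat_lit 608) (nat_lit 1440540135) (nat_lit 322) (nat_lit 1) (nat_lit 313) (nat_lit 1) (nat_lit 321) (nat_lit 1) (nat_lit 393) (nat_lit 400) (nat_lit 347)) (XT.lf (nat_lit 76) (nat_lit 122292374) (nat_lit 0) (nat_lit 3453144935) (nat_lit 684) (nat_lit 122292374) (nat_lit 314) (nat_lit 1) (nat_lit 313) (nat_lit 1) (nat_lit 322) (nat_lit 1) (nat_lit 394) (nat_lit 400) (nat_lit 346)))) (XT.nd (nat_lit 78) (nat_lit 608) (nat_lit 0) (XT.lf (nat_lit 76) (nat_lit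 1651457925) (nat_lit 0) (nat_lit 364230521) (nat_lit 684) (nat_lit 1651457925) (nat_lit 305) (nat_lit 1) (nat_lit 304) (nat_lit 1) (nat_lit 313) (nat_lit 1) (nat_lit 395) (nat_lit 400) (nat_lit 345)) (XT.nd (nat_lit 78) (nat_lit 0) (nat_lit 0) (XT.lf (nat_lit 684) (nat_lit 2675173318) (nat_lit 0) (nat_lit 480939973) (nat_lit 608) (nat_lit 480939973) (nat_lit 305) (nat_lit 1) (nat_lit 296) (nat_lit 1) (nat_lit 304) (nat_lit 1) (nat_lit 396) (nat_lit 400) (nat_lit 344)) (XT.lf (nat_lit 76) (nat_lit 1021011541) (nat_lit 0) (nat_lit 1565179755) (nat_lit 684) (nat_lit 1021011541) (nat_lit 297) (nat_lit 1) (nat_lit 296) (nat_lit 1) (nat_lit 305) (nat_lit 1) (nat_lit 397) (nat_lit 400) (nat_lit 343)))))) (XT.nd (nat_lit 468) (nat_lit 2128) (nat_lit 0) (XT.nd (nat_lit 234) (nat_lit 1216) (nat_lit 0) (XT.nd (nat_lit 78) (nat_lit 532) (nat_lit 0) (XT.lf (nat_lit 684) (nat_lit 1410990323) (nat_lit 0) (nat_lit 1083372742) (nat_lit 608) (nat_lit 1083372742)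 (nat_lit 297) (nat_lit 1) (nat_lit 288) (nat_lit 1) (nat_lit 296) (nat_lit 1) (nat_lit 398) (nat_lit 400) (nat_lit 342)) (XT.nd (nat_lit 78) (nat_lit 532) (nat_lit 0) (XT.lf (nat_lit 76) (nat_lit 391493224) (nat_lit 0) (nat_lit 2765676893) (nat_lit 684) (nat_lit 391493224) (nat_lit 289) (nat_lit 1) (nat_lit 288) (nat_lit 1) (nat_lit 297) (nat_lit 1) (nat_lit 399) (nat_lit 400) (nat_lit 341)) (XT.lf (nat_lit 608) (nat_lit 149101131) (nat_lit 0) (nat_lit 1685351510) (nat_lit 532) (nat_lit 1685351510) (nat_lit 289) (nat_lit 1) (nat_lit 281) (nat_lit 1) (nat_lit 288) (nat_lit 1) (nat_lit 400) (nat_lit 400) (nat_lit 340)))) (XT.nd (nat_lit 78) (nat_lit 532) (nat_lit 0) (XT.lf (nat_lit 684) (nat_lit 3021139737) (nat_lit 0) (nat_lit 235114195) (nat_lit 608) (nat_lit 235114195) (nat_lit 281) (nat_lit 1) (nat_lit 272) (nat_lit 1) (nat_lit 280) (nat_lit 1) (nat_lit 401) (nat_lit 400) (nat_lit 339)) (XT.nd (nat_lit 78) (nat_lit 532) (nat_lit 0)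 (XT.lf (nat_lit 76) (nat_lit 1183983045) (nat_lit 0) (nat_lit 1095112294) (nat_lit 684) (nat_lit 1183983045) (nat_lit 273) (nat_lit 1) (nat_lit 272) (nat_lit 1) (nat_lit 281) (nat_lit 1) (nat_lit 402) (nat_lit 400) (nat_lit 338)) (XT.lf (nat_lit 608) (nat_lit 1720395083) (nat_lit 0) (nat_lit 857403495) (nat_lit 532) (nat_lit 857403495) (nat_lit 273) (nat_lit 1) (nat_lit 265) (nat_lit 1) (nat_lit 272) (nat_lit 1) (nat_lit 403) (nat_lit 400) (nat_lit 337))))) (XT.nd (nat_lit 234) (nat_lit 988) (nat_lit 0) (XT.nd (nat_lit 78) (nat_lit 1140) (nat_lit 0) (XT.lf (nat_lit 76) (nat_lit 537064101) (nat_lit 0) (nat_lit 2333520756) (nat_lit 608) (nat_lit 537064101) (nat_lit 266) (nat_lit 1) (nat_lit 265) (nat_lit 1) (nat_lit 273) (nat_lit 1) (nat_lit 404) (nat_lit 400) (nat_lit 336)) (XT.nd (nat_lit 78) (nat_lit 608) (nat_lit 0) (XT.lf (nat_lit 608) (nat_lit 425181110) (nat_lit 0) (nat_lit 1477576983) (nat_lit 532) (nat_lit 1477576983) (nat_lit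 266) (nat_lit 1) (nat_lit 258) (nat_lit 1) (nat_lit 265) (nat_lit 1) (nat_lit 405) (nat_lit 400) (nat_lit 335)) (XT.lf (nat_lit 608) (nat_lit 3140995486) (nat_lit 0) (nat_lit 106225170) (nat_lit 532) (nat_lit 106225170) (nat_lit 258) (nat_lit 1) (nat_lit 250) (nat_lit 1) (nat_lit 257) (nat_lit 1) (nat_lit 406) (nat_lit 400) (nat_lit 334)))) (XT.nd (nat_lit 156) (nat_lit 456) (nat_lit 0) (XT.nd (nat_lit 78) (nat_lit 532) (nat_lit 0) (XT.lf (nat_lit 76) (nat_lit 1237058082) (nat_lit 0) (nat_lit 852505654) (nat_lit 608) (nat_lit 1237058082) (nat_lit 251) (nat_lit 1) (nat_lit 250) (nat_lit 1) (nat_lit 258) (nat_lit 1) (nat_lit 407) (nat_lit 400) (nat_lit 333)) (XT.lf (nat_lit 608) (nat_lit 1814704318) (nat_lit 0) (nat_lit 742754740) (nat_lit 532) (nat_lit 742754740) (nat_lit 251) (nat_lit 1) (nat_lit 243) (nat_lit 1) (nat_lit 250) (nat_lit 1) (nat_lit 408) (nat_lit 400) (nat_lit 332))) (XT.nd (nat_lit 78) (nat_lit 456) (nat_lit 0) (XT.lf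 (nat_lit 76) (nat_lit 578102103) (nat_lit 0) (nat_lit 2117883732) (nat_lit 608) (nat_lit 578102103) (nat_lit 244) (nat_lit 1) (nat_lit 243) (nat_lit 1) (nat_lit 251) (nat_lit 1) (nat_lit 409) (nat_lit 400) (nat_lit 331)) (XT.lf (nat_lit 532) (nat_lit 496682416) (nat_lit 0) (nat_lit 1375759364) (nat_lit 456) (nat_lit 1375759364) (nat_lit 244) (nat_lit 1) (nat_lit 237) (nat_lit 1) (nat_lit 243) (nat_lit 1) (nat_lit 410) (nat_lit 400) (nat_lit 330))))))))
noncomputable def ec48 : XT := (XT.nd (nat_lit 53898) (nat_lit 0) (nat_lit 23408) (XT.nd (nat_lit 936) (nat_lit 2356) (nat_lit 0) (XT.nd (nat_lit 468) (nat_lit 1368) (nat_lit 0) (XT.nd (nat_lit 234) (nat_lit 988) (nat_lit 0) (XT.nd (nat_lit 78) (nat_lit 456) (nat_lit 0) (XT.lf (nat_lit 608) (nat_lit 3070528533) (nat_lit 0) (nat_lit 76094493) (nat_lit 532) (nat_lit 76094493) (nat_lit 237) (nat_lit 1) (nat_lit 229) (nat_lit 1) (nat_lit 236) (nat_lit 1) (nat_lit 411) (nat_lit 400) (nat_lit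 329)) (XT.nd (nat_lit 78) (nat_lit 456) (nat_lit 0) (XT.lf (nat_lit 76) (nat_lit 1197692323) (nat_lit 0) (nat_lit 801886978) (nat_lit 608) (nat_lit 1197692323) (nat_lit 230) (nat_lit 1) (nat_lit 229) (nat_lit 1) (nat_lit 237) (nat_lit 1) (nat_lit 412) (nat_lit 400) (nat_lit 328)) (XT.lf (nat_lit 532) (nat_lit 1728203304) (nat_lit 0) (nat_lit 722008961) (nat_lit 456) (nat_lit 722008961) (nat_lit 230) (nat_lit 1) (nat_lit 223) (nat_lit 1) (nat_lit 229) (nat_lit 1) (nat_lit 413) (nat_lit 400) (nat_lit 327)))) (XT.nd (nat_lit 78) (nat_lit 988) (nat_lit 0) (XT.lf (nat_lit 76) (nat_lit 531329446) (nat_lit 0) (nat_lit 2084778706) (nat_lit 532) (nat_lit 531329446) (nat_lit 224) (nat_lit 1) (nat_lit 223) (nat_lit 1) (nat_lit 230) (nat_lit 1) (nat_lit 414) (nat_lit 400) (nat_lit 326)) (XT.nd (nat_lit 78) (nat_lit 532) (nat_lit 0) (XT.lf (nat_lit 532) (nat_lit 396448723) (nat_lit 0) (nat_lit 1363211133) (nat_lit 456) (nat_lit 1363211133) (nat_lit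 224) (nat_lit 1) (nat_lit 217) (nat_lit 1) (nat_lit 223) (nat_lit 1) (nat_lit 415) (nat_lit 400) (nat_lit 325)) (XT.lf (nat_lit 532) (nat_lit 2841049115) (nat_lit 0) (nat_lit 128808955) (nat_lit 456) (nat_lit 128808955) (nat_lit 217) (nat_lit 1) (nat_lit 210) (nat_lit 1) (nat_lit 216) (nat_lit 1) (nat_lit 416) (nat_lit 400) (nat_lit 324))))) (XT.nd (nat_lit 234) (nat_lit 912) (nat_lit 0) (XT.nd (nat_lit 78) (nat_lit 456) (nat_lit 0) (XT.lf (nat_lit 76) (nat_lit 1081155059) (nat_lit 0) (nat_lit 912208140) (nat_lit 532) (nat_lit 1081155059) (nat_lit 211) (nat_lit 1) (nat_lit 210) (nat_lit 1) (nat_lit 217) (nat_lit 1) (nat_lit 417) (nat_lit 400) (nat_lit 323)) (XT.nd (nat_lit 78) (nat_lit 0) (nat_lit 0) (XT.lf (nat_lit 532) (nat_lit 1490878361) (nat_lit 0) (nat_lit 779923481) (nat_lit 456) (nat_lit 779923481) (nat_lit 211) (nat_lit 1) (nat_lit 204) (nat_lit 1) (nat_lit 210) (nat_lit 1) (nat_lit 418) (nat_lit 400) (nat_lit 322)) (XT.lf (nat_lit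 76) (nat_lit 411369283) (nat_lit 0) (nat_lit 2204466754) (nat_lit 532) (nat_lit 411369283) (nat_lit 205) (nat_lit 1) (nat_lit 204) (nat_lit 1) (nat_lit 211) (nat_lit 1) (nat_lit 419) (nat_lit 400) (nat_lit 321)))) (XT.nd (nat_lit 78) (nat_lit 532) (nat_lit 0) (XT.lf (nat_lit 456) (nat_lit 153196480) (nat_lit 0) (nat_lit 1425332820) (nat_lit 380) (nat_lit 1425332820) (nat_lit 205) (nat_lit 1) (nat_lit 199) (nat_lit 1) (nat_lit 204) (nat_lit 1) (nat_lit 420) (nat_lit 400) (nat_lit 320)) (XT.nd (nat_lit 78) (nat_lit 0) (nat_lit 0) (XT.lf (nat_lit 532) (nat_lit 2479910785) (nat_lit 0) (nat_lit 250457280) (nat_lit 456) (nat_lit 250457280) (nat_lit 199) (nat_lit 1) (nat_lit 192) (nat_lit 1) (nat_lit 198) (nat_lit 1) (nat_lit 421) (nat_lit 400) (nat_lit 319)) (XT.lf (nat_lit 76) (nat_lit 900783713) (nat_lit 0) (nat_lit 1156331316) (nat_lit 532) (nat_lit 900783713) (nat_lit 193) (nat_lit 1) (nat_lit 192) (nat_lit 1) (nat_lit 199) (nat_lit 1)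 (nat_lit 422) (nat_lit 400) (nat_lit 318)))))) (XT.nd (nat_lit 468) (nat_lit 760) (nat_lit 0) (XT.nd (nat_lit 234) (nat_lit 760) (nat_lit 0) (XT.nd (nat_lit 78) (nat_lit 456) (nat_lit 0) (XT.lf (nat_lit 456) (nat_lit 1128917476) (nat_lit 0) (nat_lit 903177520) (nat_lit 380) (nat_lit 903177520) (nat_lit 193) (nat_lit 1) (nat_lit 187) (nat_lit 1) (nat_lit 192) (nat_lit 1) (nat_lit 423) (nat_lit 400) (nat_lit 317)) (XT.nd (nat_lit 78) (nat_lit 456) (nat_lit 0) (XT.lf (nat_lit 76) (nat_lit 230990232) (nat_lit 0) (nat_lit 2450962884) (nat_lit 456) (nat_lit 230990232) (nat_lit 188) (nat_lit 1) (nat_lit 187) (nat_lit 1) (nat_lit 193) (nat_lit 1) (nat_lit 424) (nat_lit 400) (nat_lit 316)) (XT.lf (nat_lit 76) (nat_lit 1342716367) (nat_lit 0) (nat_lit 205276092) (nat_lit 456) (nat_lit 1342716367) (nat_lit 182) (nat_lit 1) (nat_lit 181) (nat_lit 1) (nat_lit 187) (nat_lit 1) (nat_lit 425) (nat_lit 400) (nat_lit 315)))) (XT.nd (nat_lit 78) (nat_lit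 380) (nat_lit 0) (XT.lf (nat_lit 456) (nat_lit 2010972314) (nat_lit 0) (nat_lit 428896730) (nat_lit 380) (nat_lit 428896730) (nat_lit 182) (nat_lit 1) (nat_lit 176) (nat_lit 1) (nat_lit 181) (nat_lit 1) (nat_lit 426) (nat_lit 400) (nat_lit 314)) (XT.nd (nat_lit 78) (nat_lit 380) (nat_lit 0) (XT.lf (nat_lit 76) (nat_lit 668209455) (nat_lit 0) (nat_lit 1510572934) (nat_lit 456) (nat_lit 668209455) (nat_lit 177) (nat_lit 1) (nat_lit 176) (nat_lit 1) (nat_lit 182) (nat_lit 1) (nat_lit 427) (nat_lit 400) (nat_lit 313)) (XT.lf (nat_lit 456) (nat_lit 665154064) (nat_lit 0) (nat_lit 1080147964) (nat_lit 380) (nat_lit 1080147964) (nat_lit 177) (nat_lit 1) (nat_lit 171) (nat_lit 1) (nat_lit 176) (nat_lit 1) (nat_lit 428) (nat_lit 400) (nat_lit 312))))) (XT.nd (nat_lit 52260) (nat_lit 0) (nat_lit 25536) (XT.nd (nat_lit 78) (nat_lit 760) (nat_lit 0) (XT.lf (nat_lit 76) (nat_lit 1323139) (nat_lit 0) (nat_lit 2801597879) (nat_lit 456) (nat_lit 1323139)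 (nat_lit 172) (nat_lit 1) (nat_lit 171) (nat_lit 1) (nat_lit 177) (nat_lit 1) (nat_lit 429) (nat_lit 400) (nat_lit 311)) (XT.nd (nat_lit 78) (nat_lit 380) (nat_lit 0) (XT.lf (nat_lit 76) (nat_lit 1063214587) (nat_lit 0) (nat_lit 656577156) (nat_lit 380) (nat_lit 1063214587) (nat_lit 167) (nat_lit 1) (nat_lit 166) (nat_lit 1) (nat_lit 171) (nat_lit 1) (nat_lit 430) (nat_lit 400) (nat_lit 310)) (XT.lf (nat_lit 456) (nat_lit 1455007093) (nat_lit 0) (nat_lit 653546231) (nat_lit 380) (nat_lit 653546231) (nat_lit 167) (nat_lit 1) (nat_lit 161) (nat_lit 1) (nat_lit 166) (nat_lit 1) (nat_lit 431) (nat_lit 400) (nat_lit 309)))) (XT.nd (nat_lit 78) (nat_lit 0) (nat_lit 0) (XT.lf (nat_lit 1900) (nat_lit 1022324955) (nat_lit 0) (nat_lit 1030873970) (nat_lit 1900) (nat_lit 1022324955) (nat_lit 522) (nat_lit 1) (nat_lit 497) (nat_lit 0) (nat_lit 522) (nat_lit 0) (nat_lit 338) (nat_lit 401) (nat_lit 401)) (XT.nd (nat_lit 78) (nat_lit 0) (nat_lit 76)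 (XT.lf (nat_lit 1900) (nat_lit 4042426582) (nat_lit 76) (nat_lit 1024091904) (nat_lit 0) (nat_lit 1024091904) (nat_lit 522) (nat_lit 1) (nat_lit 498) (nat_lit 1) (nat_lit 497) (nat_lit 0) (nat_lit 339) (nat_lit 401) (nat_lit 400)) (XT.lf (nat_lit 1900) (nat_lit 1984850694) (nat_lit 0) (nat_lit 2061131755) (nat_lit 1824) (nat_lit 1984850694) (nat_lit 523) (nat_lit 1) (nat_lit 498) (nat_lit 1) (nat_lit 522) (nat_lit 1) (nat_lit 340) (nat_lit 401) (nat_lit 399))))))) (XT.nd (nat_lit 936) (nat_lit 2204) (nat_lit 0) (XT.nd (nat_lit 468) (nat_lit 0) (nat_lit 228) (XT.nd (nat_lit 234) (nat_lit 0) (nat_lit 152) (XT.nd (nat_lit 78) (nat_lit 0) (nat_lit 76) (XT.lf (nat_lit 1900) (nat_lit 3884842101) (nat_lit 76) (nat_lit 1043560007) (nat_lit 0) (nat_lit 1043560007) (nat_lit 523) (nat_lit 1) (nat_lit 499) (nat_lit 1) (nat_lit 498) (nat_lit 1) (nat_lit 341) (nat_lit 401) (nat_lit 398)) (XT.nd (nat_lit 78) (nat_lit 0) (nat_lit 0) (XT.lf (nat_lit 1900)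 (nat_lit 1887959645) (nat_lit 0) (nat_lit 2137821671) (nat_lit 1824) (nat_lit 1887959645) (nat_lit 524) (nat_lit 1) (nat_lit 499) (nat_lit 1) (nat_lit 523) (nat_lit 1) (nat_lit 342) (nat_lit 401) (nat_lit 397)) (XT.lf (nat_lit 1900) (nat_lit 3655067604) (nat_lit 76) (nat_lit 1100659009) (nat_lit 0) (nat_lit 1100659009) (nat_lit 524) (nat_lit 1) (nat_lit 500) (nat_lit 1) (nat_lit 499) (nat_lit 1) (nat_lit 343) (nat_lit 401) (nat_lit 396)))) (XT.nd (nat_lit 78) (nat_lit 0) (nat_lit 0) (XT.lf (nat_lit 1900) (nat_lit 1756189907) (nat_lit 0) (nat_lit 2287300461) (nat_lit 1824) (nat_lit 1756189907) (nat_lit 525) (nat_lit 1) (nat_lit 500) (nat_lit 1) (nat_lit 524) (nat_lit 1) (nat_lit 344) (nat_lit 401) (nat_lit 395)) (XT.nd (nat_lit 78) (nat_lit 0) (nat_lit 76) (XT.lf (nat_lit 1900) (nat_lit 3357441794) (nat_lit 76) (nat_lit 1193174972) (nat_lit 0) (nat_lit 1193174972) (nat_lit 525) (nat_lit 1) (nat_lit 501) (nat_lit 1) (nat_lit 500) (nat_lit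 1) (nat_lit 345) (nat_lit 401) (nat_lit 394)) (XT.lf (nat_lit 1900) (nat_lit 1591653530) (nat_lit 0) (nat_lit 2505256019) (nat_lit 1824) (nat_lit 1591653530) (nat_lit 526) (nat_lit 1) (nat_lit 501) (nat_lit 1) (nat_lit 525) (nat_lit 1) (nat_lit 346) (nat_lit 401) (nat_lit 393))))) (XT.nd (nat_lit 234) (nat_lit 0) (nat_lit 152) (XT.nd (nat_lit 78) (nat_lit 0) (nat_lit 76) (XT.lf (nat_lit 1900) (nat_lit 2996104786) (nat_lit 76) (nat_lit 1318994687) (nat_lit 0) (nat_lit 1318994687) (nat_lit 526) (nat_lit 1) (nat_lit 502) (nat_lit 1) (nat_lit 501) (nat_lit 1) (nat_lit 347) (nat_lit 401) (nat_lit 392)) (XT.nd (nat_lit 78) (nat_lit 0) (nat_lit 0) (XT.lf (nat_lit 1900) (nat_lit 1396365695) (nat_lit 0) (nat_lit 2787572815) (nat_lit 1824) (nat_lit 1396365695) (nat_lit 527) (nat_lit 1) (nat_lit 502) (nat_lit 1) (nat_lit 526) (nat_lit 1) (nat_lit 348) (nat_lit 401) (nat_lit 391)) (XT.lf (nat_lit 1900) (nat_lit 2575006414) (nat_lit 76) (nat_lit 1476101474)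 (nat_lit 0) (nat_lit 1476101474) (nat_lit 527) (nat_lit 1) (nat_lit 503) (nat_lit 1) (nat_lit 502) (nat_lit 1) (nat_lit 349) (nat_lit 401) (nat_lit 390)))) (XT.nd (nat_lit 78) (nat_lit 0) (nat_lit 0) (XT.lf (nat_lit 1900) (nat_lit 1172248766) (nat_lit 0) (nat_lit 3130323688) (nat_lit 1824) (nat_lit 1172248766) (nat_lit 528) (nat_lit 1) (nat_lit 503) (nat_lit 1) (nat_lit 527) (nat_lit 1) (nat_lit 350) (nat_lit 401) (nat_lit 389)) (XT.nd (nat_lit 78) (nat_lit 0) (nat_lit 76) (XT.lf (nat_lit 1900) (nat_lit 2097914197) (nat_lit 76) (nat_lit 1662571145) (nat_lit 0) (nat_lit 1662571145) (nat_lit 528) (nat_lit 1) (nat_lit 504) (nat_lit 1) (nat_lit 503) (nat_lit 1) (nat_lit 351) (nat_lit 401) (nat_lit 388)) (XT.lf (nat_lit 1900) (nat_lit 921136179) (nat_lit 0) (nat_lit 3529761972) (nat_lit 1824) (nat_lit 921136179) (nat_lit 529) (nat_lit 1) (nat_lit 504) (nat_lit 1) (nat_lit 528) (nat_lit 1) (nat_lit 352) (nat_lit 401) (nat_lit 387)))))) (XT.nd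 (nat_lit 468) (nat_lit 2660) (nat_lit 0) (XT.nd (nat_lit 234) (nat_lit 0) (nat_lit 152) (XT.nd (nat_lit 78) (nat_lit 0) (nat_lit 76) (XT.lf (nat_lit 1900) (nat_lit 1568420987) (nat_lit 76) (nat_lit 1876568142) (nat_lit 0) (nat_lit 1876568142) (nat_lit 529) (nat_lit 1) (nat_lit 505) (nat_lit 1) (nat_lit 504) (nat_lit 1) (nat_lit 353) (nat_lit 401) (nat_lit 386)) (XT.nd (nat_lit 78) (nat_lit 0) (nat_lit 0) (XT.lf (nat_lit 1900) (nat_lit 644776177) (nat_lit 0) (nat_lit 3982313939) (nat_lit 1824) (nat_lit 644776177) (nat_lit 530) (nat_lit 1) (nat_lit 505) (nat_lit 1) (nat_lit 529) (nat_lit 1) (nat_lit 354) (nat_lit 401) (nat_lit 385)) (XT.lf (nat_lit 1900) (nat_lit 989952303) (nat_lit 76) (nat_lit 2116341816) (nat_lit 0) (nat_lit 2116341816) (nat_lit 530) (nat_lit 1) (nat_lit 506) (nat_lit 1) (nat_lit 505) (nat_lit 1) (nat_lit 355) (nat_lit 401) (nat_lit 384)))) (XT.nd (nat_lit 78) (nat_lit 0) (nat_lit 0) (XT.lf (nat_lit 1900) (nat_lit 344835392)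 (nat_lit 0) (nat_lit 4484571544) (nat_lit 1824) (nat_lit 344835392) (nat_lit 531) (nat_lit 1) (nat_lit 506) (nat_lit 1) (nat_lit 530) (nat_lit 1) (nat_lit 356) (nat_lit 401) (nat_lit 383)) (XT.nd (nat_lit 78) (nat_lit 0) (nat_lit 76) (XT.lf (nat_lit 1900) (nat_lit 365773381) (nat_lit 76) (nat_lit 2380222865) (nat_lit 0) (nat_lit 2380222865) (nat_lit 531) (nat_lit 1) (nat_lit 507) (nat_lit 1) (nat_lit 506) (nat_lit 1) (nat_lit 357) (nat_lit 401) (nat_lit 382)) (XT.lf (nat_lit 1900) (nat_lit 22902283) (nat_lit 0) (nat_lit 5033285464) (nat_lit 1824) (nat_lit 22902283) (nat_lit 532) (nat_lit 1) (nat_lit 507) (nat_lit 1) (nat_lit 531) (nat_lit 1) (nat_lit 358) (nat_lit 401) (nat_lit 381))))) (XT.nd (nat_lit 234) (nat_lit 988) (nat_lit 0) (XT.nd (nat_lit 78) (nat_lit 0) (nat_lit 0) (XT.lf (nat_lit 1976) (nat_lit 2367570162) (nat_lit 0) (nat_lit 297056348) (nat_lit 1900) (nat_lit 2367570162) (nat_lit 508) (nat_lit 1) (nat_lit 482) (nat_lit 1)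 (nat_lit 507) (nat_lit 1) (nat_lit 359) (nat_lit 401) (nat_lit 380)) (XT.nd (nat_lit 78) (nat_lit 0) (nat_lit 76) (XT.lf (nat_lit 1976) (nat_lit 4351357710) (nat_lit 76) (nat_lit 317407530) (nat_lit 0) (nat_lit 317407530) (nat_lit 508) (nat_lit 1) (nat_lit 483) (nat_lit 1) (nat_lit 482) (nat_lit 1) (nat_lit 360) (nat_lit 401) (nat_lit 379)) (XT.lf (nat_lit 1976) (nat_lit 1973141653) (nat_lit 0) (nat_lit 994202954) (nat_lit 1900) (nat_lit 1973141653) (nat_lit 509) (nat_lit 1) (nat_lit 483) (nat_lit 1) (nat_lit 508) (nat_lit 1) (nat_lit 361) (nat_lit 401) (nat_lit 378)))) (XT.nd (nat_lit 78) (nat_lit 1064) (nat_lit 0) (XT.lf (nat_lit 1976) (nat_lit 3542610730) (nat_lit 76) (nat_lit 676478292) (nat_lit 0) (nat_lit 676478292) (nat_lit 509) (nat_lit 1) (nat_lit 484) (nat_lit 1) (nat_lit 483) (nat_lit 1) (nat_lit 362) (nat_lit 401) (nat_lit 377)) (XT.nd (nat_lit 78) (nat_lit 1140) (nat_lit 0) (XT.lf (nat_lit 76) (nat_lit 1561696151) (nat_lit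 0) (nat_lit 1727676807) (nat_lit 1900) (nat_lit 1561696151) (nat_lit 485) (nat_lit 1) (nat_lit 484) (nat_lit 1) (nat_lit 509) (nat_lit 1) (nat_lit 363) (nat_lit 401) (nat_lit 376)) (XT.lf (nat_lit 1216) (nat_lit 2701027551) (nat_lit 0) (nat_lit 1053096500) (nat_lit 1140) (nat_lit 1053096500) (nat_lit 485) (nat_lit 1) (nat_lit 469) (nat_lit 1) (nat_lit 484) (nat_lit 1) (nat_lit 364) (nat_lit 401) (nat_lit 375))))))))
noncomputable def ec49 : XT := (XT.nd (nat_lit 1872) (nat_lit 8588) (nat_lit 0) (XT.nd (nat_lit 936) (nat_lit 5244) (nat_lit 0) (XT.nd (nat_lit 468) (nat_lit 2660) (nat_lit 0) (XT.nd (nat_lit 234) (nat_lit 1748) (nat_lit 0) (XT.nd (nat_lit 78) (nat_lit 912) (nat_lit 0) (XT.lf (nat_lit 76) (nat_lit 1134528430) (nat_lit 0) (nat_lit 2494824172) (nat_lit 1216) (nat_lit 1134528430) (nat_lit 470) (nat_lit 1) (nat_lit 469) (nat_lit 1) (nat_lit 485) (nat_lit 1) (nat_lit 365) (nat_lit 401) (nat_lit 374)) (XT.nd (nat_lit 78) (nat_lit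 0) (nat_lit 0) (XT.lf (nat_lit 988) (nat_lit 1829142867) (nat_lit 0) (nat_lit 1445963305) (nat_lit 912) (nat_lit 1445963305) (nat_lit 470) (nat_lit 1) (nat_lit 457) (nat_lit 1) (nat_lit 469) (nat_lit 1) (nat_lit 366) (nat_lit 401) (nat_lit 373)) (XT.lf (nat_lit 76) (nat_lit 692870554) (nat_lit 0) (nat_lit 3293118735) (nat_lit 988) (nat_lit 692870554) (nat_lit 458) (nat_lit 1) (nat_lit 457) (nat_lit 1) (nat_lit 470) (nat_lit 1) (nat_lit 367) (nat_lit 401) (nat_lit 372)))) (XT.nd (nat_lit 78) (nat_lit 836) (nat_lit 0) (XT.lf (nat_lit 988) (nat_lit 929368249) (nat_lit 0) (nat_lit 1853842397) (nat_lit 912) (nat_lit 1853842397) (nat_lit 458) (nat_lit 1) (nat_lit 445) (nat_lit 1) (nat_lit 457) (nat_lit 1) (nat_lit 368) (nat_lit 401) (nat_lit 371)) (XT.nd (nat_lit 78) (nat_lit 836) (nat_lit 0) (XT.lf (nat_lit 76) (nat_lit 237894559) (nat_lit 0) (nat_lit 4120156182) (nat_lit 988) (nat_lit 237894559) (nat_lit 446) (nat_lit 1) (nat_lit 445) (nat_lit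 1) (nat_lit 458) (nat_lit 1) (nat_lit 369) (nat_lit 401) (nat_lit 370)) (XT.lf (nat_lit 912) (nat_lit 3997407) (nat_lit 0) (nat_lit 2275557345) (nat_lit 836) (nat_lit 2275557345) (nat_lit 446) (nat_lit 1) (nat_lit 434) (nat_lit 1) (nat_lit 445) (nat_lit 1) (nat_lit 370) (nat_lit 401) (nat_lit 369))))) (XT.nd (nat_lit 234) (nat_lit 836) (nat_lit 0) (XT.nd (nat_lit 78) (nat_lit 836) (nat_lit 0) (XT.lf (nat_lit 988) (nat_lit 4059406480) (nat_lit 0) (nat_lit 227776525) (nat_lit 912) (nat_lit 227776525) (nat_lit 434) (nat_lit 1) (nat_lit 421) (nat_lit 1) (nat_lit 433) (nat_lit 1) (nat_lit 371) (nat_lit 401) (nat_lit 368)) (XT.nd (nat_lit 78) (nat_lit 836) (nat_lit 0) (XT.lf (nat_lit 76) (nat_lit 1771334479) (nat_lit 0) (nat_lit 932397678) (nat_lit 988) (nat_lit 1771334479) (nat_lit 422) (nat_lit 1) (nat_lit 421) (nat_lit 1) (nat_lit 434) (nat_lit 1) (nat_lit 372) (nat_lit 401) (nat_lit 367)) (XT.lf (nat_lit 912) (nat_lit 3029929348) (nat_lit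 0) (nat_lit 702953163) (nat_lit 836) (nat_lit 702953163) (nat_lit 422) (nat_lit 1) (nat_lit 410) (nat_lit 1) (nat_lit 421) (nat_lit 1) (nat_lit 373) (nat_lit 401) (nat_lit 366)))) (XT.nd (nat_lit 78) (nat_lit 836) (nat_lit 0) (XT.lf (nat_lit 76) (nat_lit 1253588849) (nat_lit 0) (nat_lit 1889802804) (nat_lit 912) (nat_lit 1253588849) (nat_lit 411) (nat_lit 1) (nat_lit 410) (nat_lit 1) (nat_lit 422) (nat_lit 1) (nat_lit 374) (nat_lit 401) (nat_lit 365)) (XT.nd (nat_lit 78) (nat_lit 0) (nat_lit 0) (XT.lf (nat_lit 912) (nat_lit 1982243169) (nat_lit 0) (nat_lit 1188200122) (nat_lit 836) (nat_lit 1188200122) (nat_lit 411) (nat_lit 1) (nat_lit 399) (nat_lit 1) (nat_lit 410) (nat_lit 1) (nat_lit 375) (nat_lit 401) (nat_lit 364)) (XT.lf (nat_lit 76) (nat_lit 727237017) (nat_lit 0) (nat_lit 2866326597) (nat_lit 912) (nat_lit 727237017) (nat_lit 400) (nat_lit 1) (nat_lit 399) (nat_lit 1) (nat_lit 411) (nat_lit 1) (nat_lit 376) (nat_lit 401) (nat_lit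 363)))))) (XT.nd (nat_lit 468) (nat_lit 2128) (nat_lit 0) (XT.nd (nat_lit 234) (nat_lit 1520) (nat_lit 0) (XT.nd (nat_lit 78) (nat_lit 836) (nat_lit 0) (XT.lf (nat_lit 836) (nat_lit 918195903) (nat_lit 0) (nat_lit 1682567104) (nat_lit 760) (nat_lit 1682567104) (nat_lit 400) (nat_lit 1) (nat_lit 389) (nat_lit 1) (nat_lit 399) (nat_lit 1) (nat_lit 377) (nat_lit 401) (nat_lit 362)) (XT.nd (nat_lit 78) (nat_lit 836) (nat_lit 0) (XT.lf (nat_lit 76) (nat_lit 193176130) (nat_lit 0) (nat_lit 3860122816) (nat_lit 836) (nat_lit 193176130) (nat_lit 390) (nat_lit 1) (nat_lit 389) (nat_lit 1) (nat_lit 400) (nat_lit 1) (nat_lit 378) (nat_lit 401) (nat_lit 361)) (XT.lf (nat_lit 76) (nat_lit 2025734864) (nat_lit 0) (nat_lit 158354174) (nat_lit 836) (nat_lit 2025734864) (nat_lit 379) (nat_lit 1) (nat_lit 378) (nat_lit 1) (nat_lit 389) (nat_lit 1) (nat_lit 379) (nat_lit 401) (nat_lit 360)))) (XT.nd (nat_lit 78) (nat_lit 760) (nat_lit 0) (XT.lf (nat_lit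 836) (nat_lit 3482862734) (nat_lit 0) (nat_lit 345454758) (nat_lit 760) (nat_lit 345454758) (nat_lit 379) (nat_lit 1) (nat_lit 368) (nat_lit 1) (nat_lit 378) (nat_lit 1) (nat_lit 380) (nat_lit 401) (nat_lit 359)) (XT.nd (nat_lit 78) (nat_lit 760) (nat_lit 0) (XT.lf (nat_lit 76) (nat_lit 1451169790) (nat_lit 0) (nat_lit 1235635651) (nat_lit 836) (nat_lit 1451169790) (nat_lit 369) (nat_lit 1) (nat_lit 368) (nat_lit 1) (nat_lit 379) (nat_lit 1) (nat_lit 381) (nat_lit 401) (nat_lit 358)) (XT.lf (nat_lit 836) (nat_lit 2325070052) (nat_lit 0) (nat_lit 888825334) (nat_lit 760) (nat_lit 888825334) (nat_lit 369) (nat_lit 1) (nat_lit 358) (nat_lit 1) (nat_lit 368) (nat_lit 1) (nat_lit 382) (nat_lit 401) (nat_lit 357))))) (XT.nd (nat_lit 234) (nat_lit 1444) (nat_lit 0) (XT.nd (nat_lit 78) (nat_lit 684) (nat_lit 0) (XT.lf (nat_lit 76) (nat_lit 871860859) (nat_lit 0) (nat_lit 2324133837) (nat_lit 836) (nat_lit 871860859) (nat_lit 359) (nat_lit 1)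 (nat_lit 358) (nat_lit 1) (nat_lit 369) (nat_lit 1) (nat_lit 383) (nat_lit 401) (nat_lit 356)) (XT.nd (nat_lit 78) (nat_lit 0) (nat_lit 0) (XT.lf (nat_lit 760) (nat_lit 1158482017) (nat_lit 0) (nat_lit 1437446096) (nat_lit 684) (nat_lit 1437446096) (nat_lit 359) (nat_lit 1) (nat_lit 349) (nat_lit 1) (nat_lit 358) (nat_lit 1) (nat_lit 384) (nat_lit 401) (nat_lit 355)) (XT.lf (nat_lit 76) (nat_lit 288522769) (nat_lit 0) (nat_lit 3422372999) (nat_lit 760) (nat_lit 288522769) (nat_lit 350) (nat_lit 1) (nat_lit 349) (nat_lit 1) (nat_lit 359) (nat_lit 1) (nat_lit 385) (nat_lit 401) (nat_lit 354)))) (XT.nd (nat_lit 78) (nat_lit 684) (nat_lit 0) (XT.lf (nat_lit 76) (nat_lit 1975191345) (nat_lit 0) (nat_lit 15302474) (nat_lit 760) (nat_lit 1975191345) (nat_lit 340) (nat_lit 1) (nat_lit 339) (nat_lit 1) (nat_lit 349) (nat_lit 1) (nat_lit 386) (nat_lit 401) (nat_lit 353)) (XT.nd (nat_lit 78) (nat_lit 0) (nat_lit 0) (XT.lf (nat_lit 760) (nat_lit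 3340051235) (nat_lit 0) (nat_lit 296206303) (nat_lit 684) (nat_lit 296206303) (nat_lit 340) (nat_lit 1) (nat_lit 330) (nat_lit 1) (nat_lit 339) (nat_lit 1) (nat_lit 387) (nat_lit 401) (nat_lit 352)) (XT.lf (nat_lit 76) (nat_lit 1359783758) (nat_lit 0) (nat_lit 1179892683) (nat_lit 760) (nat_lit 1359783758) (nat_lit 331) (nat_lit 1) (nat_lit 330) (nat_lit 1) (nat_lit 340) (nat_lit 1) (nat_lit 388) (nat_lit 401) (nat_lit 351))))))) (XT.nd (nat_lit 936) (nat_lit 4180) (nat_lit 0) (XT.nd (nat_lit 468) (nat_lit 1824) (nat_lit 0) (XT.nd (nat_lit 234) (nat_lit 1292) (nat_lit 0) (XT.nd (nat_lit 78) (nat_lit 608) (nat_lit 0) (XT.lf (nat_lit 760) (nat_lit 2103487694) (nat_lit 0) (nat_lit 881731894) (nat_lit 684) (nat_lit 881731894) (nat_lit 331) (nat_lit 1) (nat_lit 321) (nat_lit 1) (nat_lit 330) (nat_lit 1) (nat_lit 389) (nat_lit 401) (nat_lit 350)) (XT.nd (nat_lit 78) (nat_lit 608) (nat_lit 0) (XT.lf (nat_lit 76) (nat_lit 742778743) (nat_lit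 0) (nat_lit 2349249561) (nat_lit 760) (nat_lit 742778743) (nat_lit 322) (nat_lit 1) (nat_lit 321) (nat_lit 1) (nat_lit 331) (nat_lit 1) (nat_lit 390) (nat_lit 401) (nat_lit 349)) (XT.lf (nat_lit 684) (nat_lit 864287968) (nat_lit 0) (nat_lit 1469350938) (nat_lit 608) (nat_lit 1469350938) (nat_lit 322) (nat_lit 1) (nat_lit 313) (nat_lit 1) (nat_lit 321) (nat_lit 1) (nat_lit 391) (nat_lit 401) (nat_lit 348)))) (XT.nd (nat_lit 78) (nat_lit 1292) (nat_lit 0) (XT.lf (nat_lit 76) (nat_lit 124738221) (nat_lit 0) (nat_lit 3522207834) (nat_lit 684) (nat_lit 124738221) (nat_lit 314) (nat_lit 1) (nat_lit 313) (nat_lit 1) (nat_lit 322) (nat_lit 1) (nat_lit 392) (nat_lit 401) (nat_lit 347)) (XT.nd (nat_lit 78) (nat_lit 608) (nat_lit 0) (XT.lf (nat_lit 76) (nat_lit 1684487084) (nat_lit 0) (nat_lit 371515132) (nat_lit 684) (nat_lit 1684487084) (nat_lit 305) (nat_lit 1) (nat_lit 304) (nat_lit 1) (nat_lit 313) (nat_lit 1) (nat_lit 393) (nat_lit 401) (nat_lit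 346)) (XT.lf (nat_lit 684) (nat_lit 2728676785) (nat_lit 0) (nat_lit 490558773) (nat_lit 608) (nat_lit 490558773) (nat_lit 305) (nat_lit 1) (nat_lit 296) (nat_lit 1) (nat_lit 304) (nat_lit 1) (nat_lit 394) (nat_lit 401) (nat_lit 345))))) (XT.nd (nat_lit 234) (nat_lit 1216) (nat_lit 0) (XT.nd (nat_lit 78) (nat_lit 608) (nat_lit 0) (XT.lf (nat_lit 76) (nat_lit 1041431772) (nat_lit 0) (nat_lit 1596483351) (nat_lit 684) (nat_lit 1041431772) (nat_lit 297) (nat_lit 1) (nat_lit 296) (nat_lit 1) (nat_lit 305) (nat_lit 1) (nat_lit 395) (nat_lit 401) (nat_lit 344)) (XT.nd (nat_lit 78) (nat_lit 0) (nat_lit 0) (XT.lf (nat_lit 684) (nat_lit 1439210130) (nat_lit 0) (nat_lit 1105040197) (nat_lit 608) (nat_lit 1105040197) (nat_lit 297) (nat_lit 1) (nat_lit 288) (nat_lit 1) (nat_lit 296) (nat_lit 1) (nat_lit 396) (nat_lit 401) (nat_lit 343)) (XT.lf (nat_lit 76) (nat_lit 399323088) (nat_lit 0) (nat_lit 2820990431) (nat_lit 684) (nat_lit 399323088) (nat_lit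 289) (nat_lit 1) (nat_lit 288) (nat_lit 1) (nat_lit 297) (nat_lit 1) (nat_lit 397) (nat_lit 401) (nat_lit 342)))) (XT.nd (nat_lit 78) (nat_lit 684) (nat_lit 0) (XT.lf (nat_lit 608) (nat_lit 152083154) (nat_lit 0) (nat_lit 1719058541) (nat_lit 532) (nat_lit 1719058541) (nat_lit 289) (nat_lit 1) (nat_lit 281) (nat_lit 1) (nat_lit 288) (nat_lit 1) (nat_lit 398) (nat_lit 401) (nat_lit 341)) (XT.nd (nat_lit 78) (nat_lit 0) (nat_lit 0) (XT.lf (nat_lit 684) (nat_lit 3081562532) (nat_lit 0) (nat_lit 239816479) (nat_lit 608) (nat_lit 239816479) (nat_lit 281) (nat_lit 1) (nat_lit 272) (nat_lit 1) (nat_lit 280) (nat_lit 1) (nat_lit 399) (nat_lit 401) (nat_lit 340)) (XT.lf (nat_lit 76) (nat_lit 1207662706) (nat_lit 0) (nat_lit 1117014540) (nat_lit 684) (nat_lit 1207662706) (nat_lit 273) (nat_lit 1) (nat_lit 272) (nat_lit 1) (nat_lit 281) (nat_lit 1) (nat_lit 400) (nat_lit 401) (nat_lit 339)))))) (XT.nd (nat_lit 468) (nat_lit 1976) (nat_lit 0) (XT.nd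 (nat_lit 234) (nat_lit 1140) (nat_lit 0) (XT.nd (nat_lit 78) (nat_lit 532) (nat_lit 0) (XT.lf (nat_lit 608) (nat_lit 1754802985) (nat_lit 0) (nat_lit 874551565) (nat_lit 532) (nat_lit 874551565) (nat_lit 273) (nat_lit 1) (nat_lit 265) (nat_lit 1) (nat_lit 272) (nat_lit 1) (nat_lit 401) (nat_lit 401) (nat_lit 338)) (XT.nd (nat_lit 78) (nat_lit 532) (nat_lit 0) (XT.lf (nat_lit 76) (nat_lit 547805383) (nat_lit 0) (nat_lit 2380191171) (nat_lit 608) (nat_lit 547805383) (nat_lit 266) (nat_lit 1) (nat_lit 265) (nat_lit 1) (nat_lit 273) (nat_lit 1) (nat_lit 402) (nat_lit 401) (nat_lit 337)) (XT.lf (nat_lit 608) (nat_lit 433684733) (nat_lit 0) (nat_lit 1507128523) (nat_lit 532) (nat_lit 1507128523) (nat_lit 266) (nat_lit 1) (nat_lit 258) (nat_lit 1) (nat_lit 265) (nat_lit 1) (nat_lit 403) (nat_lit 401) (nat_lit 336)))) (XT.nd (nat_lit 78) (nat_lit 532) (nat_lit 0) (XT.lf (nat_lit 608) (nat_lit 3203815396) (nat_lit 0) (nat_lit 108349673) (nat_lit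 532) (nat_lit 108349673) (nat_lit 258) (nat_lit 1) (nat_lit 250) (nat_lit 1) (nat_lit 257) (nat_lit 1) (nat_lit 404) (nat_lit 401) (nat_lit 335)) (XT.nd (nat_lit 78) (nat_lit 532) (nat_lit 0) (XT.lf (nat_lit 76) (nat_lit 1261799244) (nat_lit 0) (nat_lit 869555767) (nat_lit 608) (nat_lit 1261799244) (nat_lit 251) (nat_lit 1) (nat_lit 250) (nat_lit 1) (nat_lit 258) (nat_lit 1) (nat_lit 405) (nat_lit 401) (nat_lit 334)) (XT.lf (nat_lit 608) (nat_lit 1850998405) (nat_lit 0) (nat_lit 757609835) (nat_lit 532) (nat_lit 757609835) (nat_lit 251) (nat_lit 1) (nat_lit 243) (nat_lit 1) (nat_lit 250) (nat_lit 1) (nat_lit 406) (nat_lit 401) (nat_lit 333))))) (XT.nd (nat_lit 234) (nat_lit 912) (nat_lit 0) (XT.nd (nat_lit 78) (nat_lit 1064) (nat_lit 0) (XT.lf (nat_lit 76) (nat_lit 589664145) (nat_lit 0) (nat_lit 2160241406) (nat_lit 608) (nat_lit 589664145) (nat_lit 244) (nat_lit 1) (nat_lit 243) (nat_lit 1) (nat_lit 251) (nat_lit 1) (nat_lit 407) (nat_lit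 401) (nat_lit 332)) (XT.nd (nat_lit 78) (nat_lit 608) (nat_lit 0) (XT.lf (nat_lit 532) (nat_lit 506616065) (nat_lit 0) (nat_lit 1403274551) (nat_lit 456) (nat_lit 1403274551) (nat_lit 244) (nat_lit 1) (nat_lit 237) (nat_lit 1) (nat_lit 243) (nat_lit 1) (nat_lit 408) (nat_lit 401) (nat_lit 331)) (XT.lf (nat_lit 608) (nat_lit 3131939104) (nat_lit 0) (nat_lit 77616383) (nat_lit 532) (nat_lit 77616383) (nat_lit 237) (nat_lit 1) (nat_lit 229) (nat_lit 1) (nat_lit 236) (nat_lit 1) (nat_lit 409) (nat_lit 401) (nat_lit 330)))) (XT.nd (nat_lit 156) (nat_lit 456) (nat_lit 0) (XT.nd (nat_lit 78) (nat_lit 456) (nat_lit 0) (XT.lf (nat_lit 76) (nat_lit 1221646170) (nat_lit 0) (nat_lit 817924717) (nat_lit 608) (nat_lit 1221646170) (nat_lit 230) (nat_lit 1) (nat_lit 229) (nat_lit 1) (nat_lit 237) (nat_lit 1) (nat_lit 410) (nat_lit 401) (nat_lit 329)) (XT.lf (nat_lit 532) (nat_lit 1762767370) (nat_lit 0) (nat_lit 736449140) (nat_lit 456) (nat_lit 736449140)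 (nat_lit 230) (nat_lit 1) (nat_lit 223) (nat_lit 1) (nat_lit 229) (nat_lit 1) (nat_lit 411) (nat_lit 401) (nat_lit 328))) (XT.nd (nat_lit 78) (nat_lit 456) (nat_lit 0) (XT.lf (nat_lit 76) (nat_lit 541956035) (nat_lit 0) (nat_lit 2126474280) (nat_lit 532) (nat_lit 541956035) (nat_lit 224) (nat_lit 1) (nat_lit 223) (nat_lit 1) (nat_lit 230) (nat_lit 1) (nat_lit 412) (nat_lit 401) (nat_lit 327)) (XT.lf (nat_lit 532) (nat_lit 404377697) (nat_lit 0) (nat_lit 1390475356) (nat_lit 456) (nat_lit 1390475356) (nat_lit 224) (nat_lit 1) (nat_lit 217) (nat_lit 1) (nat_lit 223) (nat_lit 1) (nat_lit 413) (nat_lit 401) (nat_lit 326))))))))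
noncomputable def ec50 : XT := (XT.nd (nat_lit 53820) (nat_lit 0) (nat_lit 21584) (XT.nd (nat_lit 936) (nat_lit 1140) (nat_lit 0) (XT.nd (nat_lit 468) (nat_lit 1216) (nat_lit 0) (XT.nd (nat_lit 234) (nat_lit 912) (nat_lit 0) (XT.nd (nat_lit 78) (nat_lit 456) (nat_lit 0) (XT.lf (nat_lit 532) (nat_lit 2897870097) (nat_lit 0) (nat_lit 131385134) (nat_lit 456) (nat_lit 131385134) (nat_lit 217) (nat_lit 1) (nat_lit 210) (nat_lit 1) (nat_lit 216) (nat_lit 1) (nat_lit 414) (nat_lit 401) (nat_lit 325)) (XT.nd (nat_lit 78) (nat_lit 456) (nat_lit 0) (XT.lf (nat_lit 76) (nat_lit 1102778160) (nat_lit 0) (nat_lit 930452303) (nat_lit 532) (nat_lit 1102778160) (nat_lit 211) (nat_lit 1) (nat_lit 210) (nat_lit 1) (nat_lit 217) (nat_lit 1) (nat_lit 415) (nat_lit 401) (nat_lit 324)) (XT.lf (nat_lit 532) (nat_lit 1520695929) (nat_lit 0) (nat_lit 795521950) (nat_lit 456) (nat_lit 795521950) (nat_lit 211) (nat_lit 1) (nat_lit 204) (nat_lit 1) (nat_lit 210)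 (nat_lit 1) (nat_lit 416) (nat_lit 401) (nat_lit 323)))) (XT.nd (nat_lit 78) (nat_lit 912) (nat_lit 0) (XT.lf (nat_lit 76) (nat_lit 419596668) (nat_lit 0) (nat_lit 2248556089) (nat_lit 532) (nat_lit 419596668) (nat_lit 205) (nat_lit 1) (nat_lit 204) (nat_lit 1) (nat_lit 211) (nat_lit 1) (nat_lit 417) (nat_lit 401) (nat_lit 322)) (XT.nd (nat_lit 78) (nat_lit 532) (nat_lit 0) (XT.lf (nat_lit 456) (nat_lit 156260410) (nat_lit 0) (nat_lit 1453839476) (nat_lit 380) (nat_lit 1453839476) (nat_lit 205) (nat_lit 1) (nat_lit 199) (nat_lit 1) (nat_lit 204) (nat_lit 1) (nat_lit 418) (nat_lit 401) (nat_lit 321)) (XT.lf (nat_lit 532) (nat_lit 2529509000) (nat_lit 0) (nat_lit 255466425) (nat_lit 456) (nat_lit 255466425) (nat_lit 199) (nat_lit 1) (nat_lit 192) (nat_lit 1) (nat_lit 198) (nat_lit 1) (nat_lit 419) (nat_lit 401) (nat_lit 320))))) (XT.nd (nat_lit 234) (nat_lit 836) (nat_lit 0) (XT.nd (nat_lit 78) (nat_lit 380) (nat_lit 0) (XT.lf (nat_lit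 76) (nat_lit 918799387) (nat_lit 0) (nat_lit 1179457943) (nat_lit 532) (nat_lit 918799387) (nat_lit 193) (nat_lit 1) (nat_lit 192) (nat_lit 1) (nat_lit 199) (nat_lit 1) (nat_lit 420) (nat_lit 401) (nat_lit 319)) (XT.nd (nat_lit 78) (nat_lit 0) (nat_lit 0) (XT.lf (nat_lit 456) (nat_lit 1151495826) (nat_lit 0) (nat_lit 921241071) (nat_lit 380) (nat_lit 921241071) (nat_lit 193) (nat_lit 1) (nat_lit 187) (nat_lit 1) (nat_lit 192) (nat_lit 1) (nat_lit 421) (nat_lit 401) (nat_lit 318)) (XT.lf (nat_lit 76) (nat_lit 235610037) (nat_lit 0) (nat_lit 2499982142) (nat_lit 456) (nat_lit 235610037) (nat_lit 188) (nat_lit 1) (nat_lit 187) (nat_lit 1) (nat_lit 193) (nat_lit 1) (nat_lit 422) (nat_lit 401) (nat_lit 317)))) (XT.nd (nat_lit 78) (nat_lit 380) (nat_lit 0) (XT.lf (nat_lit 76) (nat_lit 1369570694) (nat_lit 0) (nat_lit 209381614) (nat_lit 456) (nat_lit 1369570694) (nat_lit 182) (nat_lit 1) (nat_lit 181) (nat_lit 1) (nat_lit 187) (nat_lit 1) (nat_lit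 423) (nat_lit 401) (nat_lit 316)) (XT.nd (nat_lit 78) (nat_lit 0) (nat_lit 0) (XT.lf (nat_lit 456) (nat_lit 2051191760) (nat_lit 0) (nat_lit 437474664) (nat_lit 380) (nat_lit 437474664) (nat_lit 182) (nat_lit 1) (nat_lit 176) (nat_lit 1) (nat_lit 181) (nat_lit 1) (nat_lit 424) (nat_lit 401) (nat_lit 315)) (XT.lf (nat_lit 76) (nat_lit 681573644) (nat_lit 0) (nat_lit 1540784393) (nat_lit 456) (nat_lit 681573644) (nat_lit 177) (nat_lit 1) (nat_lit 176) (nat_lit 1) (nat_lit 182) (nat_lit 1) (nat_lit 425) (nat_lit 401) (nat_lit 314)))))) (XT.nd (nat_lit 52416) (nat_lit 0) (nat_lit 25536) (XT.nd (nat_lit 234) (nat_lit 380) (nat_lit 0) (XT.nd (nat_lit 78) (nat_lit 380) (nat_lit 0) (XT.lf (nat_lit 456) (nat_lit 678457145) (nat_lit 0) (nat_lit 1101750924) (nat_lit 380) (nat_lit 1101750924) (nat_lit 177) (nat_lit 1) (nat_lit 171) (nat_lit 1) (nat_lit 176) (nat_lit 1) (nat_lit 426) (nat_lit 401) (nat_lit 313)) (XT.nd (nat_lit 78) (nat_lit 380) (nat_lit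 0) (XT.lf (nat_lit 76) (nat_lit 1349602) (nat_lit 0) (nat_lit 2857629837) (nat_lit 456) (nat_lit 1349602) (nat_lit 172) (nat_lit 1) (nat_lit 171) (nat_lit 1) (nat_lit 177) (nat_lit 1) (nat_lit 427) (nat_lit 401) (nat_lit 312)) (XT.lf (nat_lit 76) (nat_lit 1084478878) (nat_lit 0) (nat_lit 669708699) (nat_lit 380) (nat_lit 1084478878) (nat_lit 167) (nat_lit 1) (nat_lit 166) (nat_lit 1) (nat_lit 171) (nat_lit 1) (nat_lit 428) (nat_lit 401) (nat_lit 311)))) (XT.nd (nat_lit 78) (nat_lit 0) (nat_lit 0) (XT.lf (nat_lit 456) (nat_lit 1484107235) (nat_lit 0) (nat_lit 666617155) (nat_lit 380) (nat_lit 666617155) (nat_lit 167) (nat_lit 1) (nat_lit 161) (nat_lit 1) (nat_lit 166) (nat_lit 1) (nat_lit 429) (nat_lit 401) (nat_lit 310)) (XT.nd (nat_lit 52026) (nat_lit 0) (nat_lit 25536) (XT.lf (nat_lit 76) (nat_lit 401428314) (nat_lit 0) (nat_lit 1993385426) (nat_lit 456) (nat_lit 401428314) (nat_lit 162) (nat_lit 1) (nat_lit 161) (nat_lit 1) (nat_lit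 167) (nat_lit 1) (nat_lit 430) (nat_lit 401) (nat_lit 309)) (XT.lf (nat_lit 1900) (nat_lit 1042771454) (nat_lit 0) (nat_lit 1051491449) (nat_lit 1900) (nat_lit 1042771454) (nat_lit 522) (nat_lit 1) (nat_lit 497) (nat_lit 0) (nat_lit 522) (nat_lit 0) (nat_lit 336) (nat_lit 402) (nat_lit 402))))) (XT.nd (nat_lit 234) (nat_lit 0) (nat_lit 152) (XT.nd (nat_lit 78) (nat_lit 0) (nat_lit 76) (XT.lf (nat_lit 1900) (nat_lit 4123275114) (nat_lit 76) (nat_lit 1044573742) (nat_lit 0) (nat_lit 1044573742) (nat_lit 522) (nat_lit 1) (nat_lit 498) (nat_lit 1) (nat_lit 497) (nat_lit 0) (nat_lit 337) (nat_lit 402) (nat_lit 401)) (XT.nd (nat_lit 78) (nat_lit 0) (nat_lit 0) (XT.lf (nat_lit 1900) (nat_lit 2024547708) (nat_lit 0) (nat_lit 2102354390) (nat_lit 1824) (nat_lit 2024547708) (nat_lit 523) (nat_lit 1) (nat_lit 498) (nat_lit 1) (nat_lit 522) (nat_lit 1) (nat_lit 338) (nat_lit 402) (nat_lit 400)) (XT.lf (nat_lit 1900) (nat_lit 3962538943) (nat_lit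 76) (nat_lit 1064431207) (nat_lit 0) (nat_lit 1064431207) (nat_lit 523) (nat_lit 1) (nat_lit 499) (nat_lit 1) (nat_lit 498) (nat_lit 1) (nat_lit 339) (nat_lit 402) (nat_lit 399)))) (XT.nd (nat_lit 78) (nat_lit 0) (nat_lit 0) (XT.lf (nat_lit 1900) (nat_lit 1925718838) (nat_lit 0) (nat_lit 2180578105) (nat_lit 1824) (nat_lit 1925718838) (nat_lit 524) (nat_lit 1) (nat_lit 499) (nat_lit 1) (nat_lit 523) (nat_lit 1) (nat_lit 340) (nat_lit 402) (nat_lit 398)) (XT.nd (nat_lit 78) (nat_lit 0) (nat_lit 76) (XT.lf (nat_lit 1900) (nat_lit 3728168956) (nat_lit 76) (nat_lit 1122672189) (nat_lit 0) (nat_lit 1122672189) (nat_lit 524) (nat_lit 1) (nat_lit 500) (nat_lit 1) (nat_lit 499) (nat_lit 1) (nat_lit 341) (nat_lit 402) (nat_lit 397)) (XT.lf (nat_lit 1900) (nat_lit 1791313705) (nat_lit 0) (nat_lit 2333046470) (nat_lit 1824) (nat_lit 1791313705) (nat_lit 525) (nat_lit 1) (nat_lit 500) (nat_lit 1) (nat_lit 524) (nat_lit 1) (nat_lit 342) (nat_lit 402)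 (nat_lit 396))))))) (XT.nd (nat_lit 936) (nat_lit 4180) (nat_lit 0) (XT.nd (nat_lit 468) (nat_lit 0) (nat_lit 228) (XT.nd (nat_lit 234) (nat_lit 0) (nat_lit 152) (XT.nd (nat_lit 78) (nat_lit 0) (nat_lit 76) (XT.lf (nat_lit 1900) (nat_lit 3424590630) (nat_lit 76) (nat_lit 1217038471) (nat_lit 0) (nat_lit 1217038471) (nat_lit 525) (nat_lit 1) (nat_lit 501) (nat_lit 1) (nat_lit 500) (nat_lit 1) (nat_lit 343) (nat_lit 402) (nat_lit 395)) (XT.nd (nat_lit 78) (nat_lit 0) (nat_lit 0) (XT.lf (nat_lit 1900) (nat_lit 1623486600) (nat_lit 0) (nat_lit 2555361139) (nat_lit 1824) (nat_lit 1623486600) (nat_lit 526) (nat_lit 1) (nat_lit 501) (nat_lit 1) (nat_lit 525) (nat_lit 1) (nat_lit 344) (nat_lit 402) (nat_lit 394)) (XT.lf (nat_lit 1900) (nat_lit 3056026881) (nat_lit 76) (nat_lit 1345374581) (nat_lit 0) (nat_lit 1345374581) (nat_lit 526) (nat_lit 1) (nat_lit 502) (nat_lit 1) (nat_lit 501) (nat_lit 1) (nat_lit 345) (nat_lit 402) (nat_lit 393))))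 (XT.nd (nat_lit 78) (nat_lit 0) (nat_lit 0) (XT.lf (nat_lit 1900) (nat_lit 1424293009) (nat_lit 0) (nat_lit 2843324271) (nat_lit 1824) (nat_lit 1424293009) (nat_lit 527) (nat_lit 1) (nat_lit 502) (nat_lit 1) (nat_lit 526) (nat_lit 1) (nat_lit 346) (nat_lit 402) (nat_lit 392)) (XT.nd (nat_lit 78) (nat_lit 0) (nat_lit 76) (XT.lf (nat_lit 1900) (nat_lit 2626506542) (nat_lit 76) (nat_lit 1505623503) (nat_lit 0) (nat_lit 1505623503) (nat_lit 527) (nat_lit 1) (nat_lit 503) (nat_lit 1) (nat_lit 502) (nat_lit 1) (nat_lit 347) (nat_lit 402) (nat_lit 391)) (XT.lf (nat_lit 1900) (nat_lit 1195693741) (nat_lit 0) (nat_lit 3192930162) (nat_lit 1824) (nat_lit 1195693741) (nat_lit 528) (nat_lit 1) (nat_lit 503) (nat_lit 1) (nat_lit 527) (nat_lit 1) (nat_lit 348) (nat_lit 402) (nat_lit 390))))) (XT.nd (nat_lit 234) (nat_lit 0) (nat_lit 152) (XT.nd (nat_lit 78) (nat_lit 0) (nat_lit 76) (XT.lf (nat_lit 1900) (nat_lit 2139872481) (nat_lit 76) (nat_lit 1695822568)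 (nat_lit 0) (nat_lit 1695822568) (nat_lit 528) (nat_lit 1) (nat_lit 504) (nat_lit 1) (nat_lit 503) (nat_lit 1) (nat_lit 349) (nat_lit 402) (nat_lit 389)) (XT.nd (nat_lit 78) (nat_lit 0) (nat_lit 0) (XT.lf (nat_lit 1900) (nat_lit 939558903) (nat_lit 0) (nat_lit 3600357211) (nat_lit 1824) (nat_lit 939558903) (nat_lit 529) (nat_lit 1) (nat_lit 504) (nat_lit 1) (nat_lit 528) (nat_lit 1) (nat_lit 350) (nat_lit 402) (nat_lit 388)) (XT.lf (nat_lit 1900) (nat_lit 1599789406) (nat_lit 76) (nat_lit 1914099505) (nat_lit 0) (nat_lit 1914099505) (nat_lit 529) (nat_lit 1) (nat_lit 505) (nat_lit 1) (nat_lit 504) (nat_lit 1) (nat_lit 351) (nat_lit 402) (nat_lit 387)))) (XT.nd (nat_lit 78) (nat_lit 0) (nat_lit 0) (XT.lf (nat_lit 1900) (nat_lit 657671701) (nat_lit 0) (nat_lit 4061960218) (nat_lit 1824) (nat_lit 657671701) (nat_lit 530) (nat_lit 1) (nat_lit 505) (nat_lit 1) (nat_lit 529) (nat_lit 1) (nat_lit 352) (nat_lit 402) (nat_lit 386)) (XT.nd (nat_lit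 78) (nat_lit 0) (nat_lit 76) (XT.lf (nat_lit 1900) (nat_lit 1009751349) (nat_lit 76) (nat_lit 2158668652) (nat_lit 0) (nat_lit 2158668652) (nat_lit 530) (nat_lit 1) (nat_lit 506) (nat_lit 1) (nat_lit 505) (nat_lit 1) (nat_lit 353) (nat_lit 402) (nat_lit 385)) (XT.lf (nat_lit 1900) (nat_lit 351732100) (nat_lit 0) (nat_lit 4574262975) (nat_lit 1824) (nat_lit 351732100) (nat_lit 531) (nat_lit 1) (nat_lit 506) (nat_lit 1) (nat_lit 530) (nat_lit 1) (nat_lit 354) (nat_lit 402) (nat_lit 384)))))) (XT.nd (nat_lit 468) (nat_lit 2812) (nat_lit 0) (XT.nd (nat_lit 234) (nat_lit 0) (nat_lit 0) (XT.nd (nat_lit 78) (nat_lit 1824) (nat_lit 0) (XT.lf (nat_lit 1900) (nat_lit 373088849) (nat_lit 76) (nat_lit 2427827323) (nat_lit 0) (nat_lit 2427827323) (nat_lit 531) (nat_lit 1) (nat_lit 507) (nat_lit 1) (nat_lit 506) (nat_lit 1) (nat_lit 355) (nat_lit 402) (nat_lit 383)) (XT.nd (nat_lit 78) (nat_lit 1900) (nat_lit 0) (XT.lf (nat_lit 1900) (nat_lit 23360328)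 (nat_lit 0) (nat_lit 5133951174) (nat_lit 1824) (nat_lit 23360328) (nat_lit 532) (nat_lit 1) (nat_lit 507) (nat_lit 1) (nat_lit 531) (nat_lit 1) (nat_lit 356) (nat_lit 402) (nat_lit 382)) (XT.lf (nat_lit 1976) (nat_lit 2414921565) (nat_lit 0) (nat_lit 302997475) (nat_lit 1900) (nat_lit 2414921565) (nat_lit 508) (nat_lit 1) (nat_lit 482) (nat_lit 1) (nat_lit 507) (nat_lit 1) (nat_lit 357) (nat_lit 402) (nat_lit 381)))) (XT.nd (nat_lit 78) (nat_lit 0) (nat_lit 76) (XT.lf (nat_lit 1976) (nat_lit 4438384864) (nat_lit 76) (nat_lit 323755681) (nat_lit 0) (nat_lit 323755681) (nat_lit 508) (nat_lit 1) (nat_lit 483) (nat_lit 1) (nat_lit 482) (nat_lit 1) (nat_lit 358) (nat_lit 402) (nat_lit 380)) (XT.nd (nat_lit 78) (nat_lit 0) (nat_lit 0) (XT.lf (nat_lit 1976) (nat_lit 2012604486) (nat_lit 0) (nat_lit 1014087013) (nat_lit 1900) (nat_lit 2012604486) (nat_lit 509) (nat_lit 1) (nat_lit 483) (nat_lit 1) (nat_lit 508) (nat_lit 1) (nat_lit 359) (nat_lit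 402) (nat_lit 379)) (XT.lf (nat_lit 1976) (nat_lit 3613462944) (nat_lit 76) (nat_lit 690007857) (nat_lit 0) (nat_lit 690007857) (nat_lit 509) (nat_lit 1) (nat_lit 484) (nat_lit 1) (nat_lit 483) (nat_lit 1) (nat_lit 360) (nat_lit 402) (nat_lit 378))))) (XT.nd (nat_lit 234) (nat_lit 1824) (nat_lit 0) (XT.nd (nat_lit 78) (nat_lit 1140) (nat_lit 0) (XT.lf (nat_lit 76) (nat_lit 1592930074) (nat_lit 0) (nat_lit 1762230343) (nat_lit 1900) (nat_lit 1592930074) (nat_lit 485) (nat_lit 1) (nat_lit 484) (nat_lit 1) (nat_lit 509) (nat_lit 1) (nat_lit 361) (nat_lit 402) (nat_lit 377)) (XT.nd (nat_lit 78) (nat_lit 0) (nat_lit 0) (XT.lf (nat_lit 1216) (nat_lit 2755048102) (nat_lit 0) (nat_lit 1074158430) (nat_lit 1140) (nat_lit 1074158430) (nat_lit 485) (nat_lit 1) (nat_lit 469) (nat_lit 1) (nat_lit 484) (nat_lit 1) (nat_lit 362) (nat_lit 402) (nat_lit 376)) (XT.lf (nat_lit 76) (nat_lit 1157218999) (nat_lit 0) (nat_lit 2544720655) (nat_lit 1216) (nat_lit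 1157218999) (nat_lit 470) (nat_lit 1) (nat_lit 469) (nat_lit 1) (nat_lit 485) (nat_lit 1) (nat_lit 363) (nat_lit 402) (nat_lit 375)))) (XT.nd (nat_lit 78) (nat_lit 912) (nat_lit 0) (XT.lf (nat_lit 988) (nat_lit 1865725725) (nat_lit 0) (nat_lit 1474882571) (nat_lit 912) (nat_lit 1474882571) (nat_lit 470) (nat_lit 1) (nat_lit 457) (nat_lit 1) (nat_lit 469) (nat_lit 1) (nat_lit 364) (nat_lit 402) (nat_lit 374)) (XT.nd (nat_lit 78) (nat_lit 912) (nat_lit 0) (XT.lf (nat_lit 76) (nat_lit 706727966) (nat_lit 0) (nat_lit 3358981110) (nat_lit 988) (nat_lit 706727966) (nat_lit 458) (nat_lit 1) (nat_lit 457) (nat_lit 1) (nat_lit 470) (nat_lit 1) (nat_lit 365) (nat_lit 402) (nat_lit 373)) (XT.lf (nat_lit 988) (nat_lit 947955614) (nat_lit 0) (nat_lit 1890919245) (nat_lit 912) (nat_lit 1890919245) (nat_lit 458) (nat_lit 1) (nat_lit 445) (nat_lit 1) (nat_lit 457) (nat_lit 1) (nat_lit 366) (nat_lit 402) (nat_lit 372))))))))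
noncomputable def ec51 : XT := (XT.nd (nat_lit 1872) (nat_lit 8284) (nat_lit 0) (XT.nd (nat_lit 936) (nat_lit 4180) (nat_lit 0) (XT.nd (nat_lit 468) (nat_lit 3192) (nat_lit 0) (XT.nd (nat_lit 234) (nat_lit 836) (nat_lit 0) (XT.nd (nat_lit 78) (nat_lit 1824) (nat_lit 0) (XT.lf (nat_lit 76) (nat_lit 242652450) (nat_lit 0) (nat_lit 4202559305) (nat_lit 988) (nat_lit 242652450) (nat_lit 446) (nat_lit 1) (nat_lit 445) (nat_lit 1) (nat_lit 458) (nat_lit 1) (nat_lit 367) (nat_lit 402) (nat_lit 371)) (XT.nd (nat_lit 78) (nat_lit 988) (nat_lit 0) (XT.lf (nat_lit 912) (nat_lit 4077355) (nat_lit 0) (nat_lit 2321068492) (nat_lit 836) (nat_lit 2321068492) (nat_lit 446) (nat_lit 1) (nat_lit 434) (nat_lit 1) (nat_lit 445) (nat_lit 1) (nat_lit 368) (nat_lit 402) (nat_lit 370)) (XT.lf (nat_lit 988) (nat_lit 4140594610) (nat_lit 0) (nat_lit 232332056) (nat_lit 912) (nat_lit 232332056) (nat_lit 434) (nat_lit 1) (nat_lit 421) (nat_lit 1) (nat_lit 433) (nat_lit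 1) (nat_lit 369) (nat_lit 402) (nat_lit 369)))) (XT.nd (nat_lit 78) (nat_lit 836) (nat_lit 0) (XT.lf (nat_lit 76) (nat_lit 1806761168) (nat_lit 0) (nat_lit 951045632) (nat_lit 988) (nat_lit 1806761168) (nat_lit 422) (nat_lit 1) (nat_lit 421) (nat_lit 1) (nat_lit 434) (nat_lit 1) (nat_lit 370) (nat_lit 402) (nat_lit 368)) (XT.nd (nat_lit 78) (nat_lit 0) (nat_lit 0) (XT.lf (nat_lit 912) (nat_lit 3090527935) (nat_lit 0) (nat_lit 717012227) (nat_lit 836) (nat_lit 717012227) (nat_lit 422) (nat_lit 1) (nat_lit 410) (nat_lit 1) (nat_lit 421) (nat_lit 1) (nat_lit 371) (nat_lit 402) (nat_lit 367)) (XT.lf (nat_lit 76) (nat_lit 1278660626) (nat_lit 0) (nat_lit 1927598860) (nat_lit 912) (nat_lit 1278660626) (nat_lit 411) (nat_lit 1) (nat_lit 410) (nat_lit 1) (nat_lit 422) (nat_lit 1) (nat_lit 372) (nat_lit 402) (nat_lit 366))))) (XT.nd (nat_lit 234) (nat_lit 1596) (nat_lit 0) (XT.nd (nat_lit 78) (nat_lit 760) (nat_lit 0) (XT.lf (nat_lit 912) (nat_lit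 2021888032) (nat_lit 0) (nat_lit 1211964125) (nat_lit 836) (nat_lit 1211964125) (nat_lit 411) (nat_lit 1) (nat_lit 399) (nat_lit 1) (nat_lit 410) (nat_lit 1) (nat_lit 373) (nat_lit 402) (nat_lit 365)) (XT.nd (nat_lit 78) (nat_lit 760) (nat_lit 0) (XT.lf (nat_lit 76) (nat_lit 741781757) (nat_lit 0) (nat_lit 2923653129) (nat_lit 912) (nat_lit 741781757) (nat_lit 400) (nat_lit 1) (nat_lit 399) (nat_lit 1) (nat_lit 411) (nat_lit 1) (nat_lit 374) (nat_lit 402) (nat_lit 364)) (XT.lf (nat_lit 836) (nat_lit 936559821) (nat_lit 0) (nat_lit 1716218446) (nat_lit 760) (nat_lit 1716218446) (nat_lit 400) (nat_lit 1) (nat_lit 389) (nat_lit 1) (nat_lit 399) (nat_lit 1) (nat_lit 375) (nat_lit 402) (nat_lit 363)))) (XT.nd (nat_lit 78) (nat_lit 1596) (nat_lit 0) (XT.lf (nat_lit 76) (nat_lit 197039653) (nat_lit 0) (nat_lit 3937325273) (nat_lit 836) (nat_lit 197039653) (nat_lit 390) (nat_lit 1) (nat_lit 389) (nat_lit 1) (nat_lit 400) (nat_lit 1) (nat_lit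 376) (nat_lit 402) (nat_lit 362)) (XT.nd (nat_lit 78) (nat_lit 760) (nat_lit 0) (XT.lf (nat_lit 76) (nat_lit 2066249562) (nat_lit 0) (nat_lit 161521257) (nat_lit 836) (nat_lit 2066249562) (nat_lit 379) (nat_lit 1) (nat_lit 378) (nat_lit 1) (nat_lit 389) (nat_lit 1) (nat_lit 377) (nat_lit 402) (nat_lit 361)) (XT.lf (nat_lit 836) (nat_lit 3552519989) (nat_lit 0) (nat_lit 352363853) (nat_lit 760) (nat_lit 352363853) (nat_lit 379) (nat_lit 1) (nat_lit 368) (nat_lit 1) (nat_lit 378) (nat_lit 1) (nat_lit 378) (nat_lit 402) (nat_lit 360)))))) (XT.nd (nat_lit 468) (nat_lit 1976) (nat_lit 0) (XT.nd (nat_lit 234) (nat_lit 1444) (nat_lit 0) (XT.nd (nat_lit 78) (nat_lit 760) (nat_lit 0) (XT.lf (nat_lit 76) (nat_lit 1480193186) (nat_lit 0) (nat_lit 1260348364) (nat_lit 836) (nat_lit 1480193186) (nat_lit 369) (nat_lit 1) (nat_lit 368) (nat_lit 1) (nat_lit 379) (nat_lit 1) (nat_lit 379) (nat_lit 402) (nat_lit 359)) (XT.nd (nat_lit 78) (nat_lit 0) (nat_lit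 0) (XT.lf (nat_lit 836) (nat_lit 2371571453) (nat_lit 0) (nat_lit 906601841) (nat_lit 760) (nat_lit 906601841) (nat_lit 369) (nat_lit 1) (nat_lit 358) (nat_lit 1) (nat_lit 368) (nat_lit 1) (nat_lit 380) (nat_lit 402) (nat_lit 358)) (XT.lf (nat_lit 76) (nat_lit 889298076) (nat_lit 0) (nat_lit 2370616514) (nat_lit 836) (nat_lit 889298076) (nat_lit 359) (nat_lit 1) (nat_lit 358) (nat_lit 1) (nat_lit 369) (nat_lit 1) (nat_lit 381) (nat_lit 402) (nat_lit 357)))) (XT.nd (nat_lit 78) (nat_lit 760) (nat_lit 0) (XT.lf (nat_lit 760) (nat_lit 1181651658) (nat_lit 0) (nat_lit 1466195018) (nat_lit 684) (nat_lit 1466195018) (nat_lit 359) (nat_lit 1) (nat_lit 349) (nat_lit 1) (nat_lit 358) (nat_lit 1) (nat_lit 382) (nat_lit 402) (nat_lit 356)) (XT.nd (nat_lit 78) (nat_lit 760) (nat_lit 0) (XT.lf (nat_lit 76) (nat_lit 294293224) (nat_lit 0) (nat_lit 3490820459) (nat_lit 760) (nat_lit 294293224) (nat_lit 350) (nat_lit 1) (nat_lit 349) (nat_lit 1) (nat_lit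 359) (nat_lit 1) (nat_lit 383) (nat_lit 402) (nat_lit 355)) (XT.lf (nat_lit 76) (nat_lit 2014695172) (nat_lit 0) (nat_lit 15608524) (nat_lit 760) (nat_lit 2014695172) (nat_lit 340) (nat_lit 1) (nat_lit 339) (nat_lit 1) (nat_lit 349) (nat_lit 1) (nat_lit 384) (nat_lit 402) (nat_lit 354))))) (XT.nd (nat_lit 234) (nat_lit 608) (nat_lit 0) (XT.nd (nat_lit 78) (nat_lit 684) (nat_lit 0) (XT.lf (nat_lit 760) (nat_lit 3406852259) (nat_lit 0) (nat_lit 302130429) (nat_lit 684) (nat_lit 302130429) (nat_lit 340) (nat_lit 1) (nat_lit 330) (nat_lit 1) (nat_lit 339) (nat_lit 1) (nat_lit 385) (nat_lit 402) (nat_lit 353)) (XT.nd (nat_lit 78) (nat_lit 684) (nat_lit 0) (XT.lf (nat_lit 76) (nat_lit 1386979433) (nat_lit 0) (nat_lit 1203490537) (nat_lit 760) (nat_lit 1386979433) (nat_lit 331) (nat_lit 1) (nat_lit 330) (nat_lit 1) (nat_lit 340) (nat_lit 1) (nat_lit 386) (nat_lit 402) (nat_lit 352)) (XT.lf (nat_lit 760) (nat_lit 2145557448) (nat_lit 0) (nat_lit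 899366532) (nat_lit 684) (nat_lit 899366532) (nat_lit 331) (nat_lit 1) (nat_lit 321) (nat_lit 1) (nat_lit 330) (nat_lit 1) (nat_lit 387) (nat_lit 402) (nat_lit 351)))) (XT.nd (nat_lit 78) (nat_lit 608) (nat_lit 0) (XT.lf (nat_lit 76) (nat_lit 757634318) (nat_lit 0) (nat_lit 2396234552) (nat_lit 760) (nat_lit 757634318) (nat_lit 322) (nat_lit 1) (nat_lit 321) (nat_lit 1) (nat_lit 331) (nat_lit 1) (nat_lit 388) (nat_lit 402) (nat_lit 350)) (XT.nd (nat_lit 78) (nat_lit 0) (nat_lit 0) (XT.lf (nat_lit 684) (nat_lit 881573727) (nat_lit 0) (nat_lit 1498737957) (nat_lit 608) (nat_lit 1498737957) (nat_lit 322) (nat_lit 1) (nat_lit 313) (nat_lit 1) (nat_lit 321) (nat_lit 1) (nat_lit 389) (nat_lit 402) (nat_lit 349)) (XT.lf (nat_lit 76) (nat_lit 127232986) (nat_lit 0) (nat_lit 3592651990) (nat_lit 684) (nat_lit 127232986) (nat_lit 314) (nat_lit 1) (nat_lit 313) (nat_lit 1) (nat_lit 322) (nat_lit 1) (nat_lit 390) (nat_lit 402) (nat_lit 348)))))))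 (XT.nd (nat_lit 936) (nat_lit 3496) (nat_lit 0) (XT.nd (nat_lit 468) (nat_lit 2356) (nat_lit 0) (XT.nd (nat_lit 234) (nat_lit 1140) (nat_lit 0) (XT.nd (nat_lit 78) (nat_lit 608) (nat_lit 0) (XT.lf (nat_lit 76) (nat_lit 1718176826) (nat_lit 0) (nat_lit 378945434) (nat_lit 684) (nat_lit 1718176826) (nat_lit 305) (nat_lit 1) (nat_lit 304) (nat_lit 1) (nat_lit 313) (nat_lit 1) (nat_lit 391) (nat_lit 402) (nat_lit 347)) (XT.nd (nat_lit 78) (nat_lit 0) (nat_lit 0) (XT.lf (nat_lit 684) (nat_lit 2783250321) (nat_lit 0) (nat_lit 500369948) (nat_lit 608) (nat_lit 500369948) (nat_lit 305) (nat_lit 1) (nat_lit 296) (nat_lit 1) (nat_lit 304) (nat_lit 1) (nat_lit 392) (nat_lit 402) (nat_lit 346)) (XT.lf (nat_lit 76) (nat_lit 1062260408) (nat_lit 0) (nat_lit 1628413018) (nat_lit 684) (nat_lit 1062260408) (nat_lit 297) (nat_lit 1) (nat_lit 296) (nat_lit 1) (nat_lit 305) (nat_lit 1) (nat_lit 393) (nat_lit 402) (nat_lit 345)))) (XT.nd (nat_lit 78) (nat_lit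 532) (nat_lit 0) (XT.lf (nat_lit 684) (nat_lit 1467994332) (nat_lit 0) (nat_lit 1127141001) (nat_lit 608) (nat_lit 1127141001) (nat_lit 297) (nat_lit 1) (nat_lit 288) (nat_lit 1) (nat_lit 296) (nat_lit 1) (nat_lit 394) (nat_lit 402) (nat_lit 344)) (XT.nd (nat_lit 78) (nat_lit 532) (nat_lit 0) (XT.lf (nat_lit 76) (nat_lit 407309550) (nat_lit 0) (nat_lit 2877410240) (nat_lit 684) (nat_lit 407309550) (nat_lit 289) (nat_lit 1) (nat_lit 288) (nat_lit 1) (nat_lit 297) (nat_lit 1) (nat_lit 395) (nat_lit 402) (nat_lit 343)) (XT.lf (nat_lit 608) (nat_lit 155124817) (nat_lit 0) (nat_lit 1753439711) (nat_lit 532) (nat_lit 1753439711) (nat_lit 289) (nat_lit 1) (nat_lit 281) (nat_lit 1) (nat_lit 288) (nat_lit 1) (nat_lit 396) (nat_lit 402) (nat_lit 342))))) (XT.nd (nat_lit 234) (nat_lit 1140) (nat_lit 0) (XT.nd (nat_lit 78) (nat_lit 532) (nat_lit 0) (XT.lf (nat_lit 684) (nat_lit 3143193782) (nat_lit 0) (nat_lit 244612808) (nat_lit 608) (nat_lit 244612808)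 (nat_lit 281) (nat_lit 1) (nat_lit 272) (nat_lit 1) (nat_lit 280) (nat_lit 1) (nat_lit 397) (nat_lit 402) (nat_lit 341)) (XT.nd (nat_lit 78) (nat_lit 532) (nat_lit 0) (XT.lf (nat_lit 76) (nat_lit 1231815960) (nat_lit 0) (nat_lit 1139354830) (nat_lit 684) (nat_lit 1231815960) (nat_lit 273) (nat_lit 1) (nat_lit 272) (nat_lit 1) (nat_lit 281) (nat_lit 1) (nat_lit 398) (nat_lit 402) (nat_lit 340)) (XT.lf (nat_lit 608) (nat_lit 1789899044) (nat_lit 0) (nat_lit 892042596) (nat_lit 532) (nat_lit 892042596) (nat_lit 273) (nat_lit 1) (nat_lit 265) (nat_lit 1) (nat_lit 272) (nat_lit 1) (nat_lit 399) (nat_lit 402) (nat_lit 339)))) (XT.nd (nat_lit 78) (nat_lit 1140) (nat_lit 0) (XT.lf (nat_lit 76) (nat_lit 558761490) (nat_lit 0) (nat_lit 2427794994) (nat_lit 608) (nat_lit 558761490) (nat_lit 266) (nat_lit 1) (nat_lit 265) (nat_lit 1) (nat_lit 273) (nat_lit 1) (nat_lit 400) (nat_lit 402) (nat_lit 338)) (XT.nd (nat_lit 78) (nat_lit 608) (nat_lit 0)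 (XT.lf (nat_lit 608) (nat_lit 442358427) (nat_lit 0) (nat_lit 1537271094) (nat_lit 532) (nat_lit 1537271094) (nat_lit 266) (nat_lit 1) (nat_lit 258) (nat_lit 1) (nat_lit 265) (nat_lit 1) (nat_lit 401) (nat_lit 402) (nat_lit 337)) (XT.lf (nat_lit 608) (nat_lit 3267891704) (nat_lit 0) (nat_lit 110516667) (nat_lit 532) (nat_lit 110516667) (nat_lit 258) (nat_lit 1) (nat_lit 250) (nat_lit 1) (nat_lit 257) (nat_lit 1) (nat_lit 402) (nat_lit 402) (nat_lit 336)))))) (XT.nd (nat_lit 468) (nat_lit 1900) (nat_lit 0) (XT.nd (nat_lit 234) (nat_lit 1064) (nat_lit 0) (XT.nd (nat_lit 78) (nat_lit 532) (nat_lit 0) (XT.lf (nat_lit 76) (nat_lit 1287035229) (nat_lit 0) (nat_lit 886946882) (nat_lit 608) (nat_lit 1287035229) (nat_lit 251) (nat_lit 1) (nat_lit 250) (nat_lit 1) (nat_lit 258) (nat_lit 1) (nat_lit 403) (nat_lit 402) (nat_lit 335)) (XT.nd (nat_lit 78) (nat_lit 0) (nat_lit 0) (XT.lf (nat_lit 608) (nat_lit 1888018373) (nat_lit 0) (nat_lit 772762032)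 (nat_lit 532) (nat_lit 772762032) (nat_lit 251) (nat_lit 1) (nat_lit 243) (nat_lit 1) (nat_lit 250) (nat_lit 1) (nat_lit 404) (nat_lit 402) (nat_lit 334)) (XT.lf (nat_lit 76) (nat_lit 601457428) (nat_lit 0) (nat_lit 2203446235) (nat_lit 608) (nat_lit 601457428) (nat_lit 244) (nat_lit 1) (nat_lit 243) (nat_lit 1) (nat_lit 251) (nat_lit 1) (nat_lit 405) (nat_lit 402) (nat_lit 333)))) (XT.nd (nat_lit 78) (nat_lit 608) (nat_lit 0) (XT.lf (nat_lit 532) (nat_lit 516748386) (nat_lit 0) (nat_lit 1431340042) (nat_lit 456) (nat_lit 1431340042) (nat_lit 244) (nat_lit 1) (nat_lit 237) (nat_lit 1) (nat_lit 243) (nat_lit 1) (nat_lit 406) (nat_lit 402) (nat_lit 332)) (XT.nd (nat_lit 78) (nat_lit 0) (nat_lit 0) (XT.lf (nat_lit 608) (nat_lit 3194577886) (nat_lit 0) (nat_lit 79168711) (nat_lit 532) (nat_lit 79168711) (nat_lit 237) (nat_lit 1) (nat_lit 229) (nat_lit 1) (nat_lit 236) (nat_lit 1) (nat_lit 407) (nat_lit 402) (nat_lit 331)) (XT.lf (nat_lit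 76) (nat_lit 1246079093) (nat_lit 0) (nat_lit 834283212) (nat_lit 608) (nat_lit 1246079093) (nat_lit 230) (nat_lit 1) (nat_lit 229) (nat_lit 1) (nat_lit 237) (nat_lit 1) (nat_lit 408) (nat_lit 402) (nat_lit 330))))) (XT.nd (nat_lit 234) (nat_lit 988) (nat_lit 0) (XT.nd (nat_lit 78) (nat_lit 456) (nat_lit 0) (XT.lf (nat_lit 532) (nat_lit 1798022717) (nat_lit 0) (nat_lit 751178123) (nat_lit 456) (nat_lit 751178123) (nat_lit 230) (nat_lit 1) (nat_lit 223) (nat_lit 1) (nat_lit 229) (nat_lit 1) (nat_lit 409) (nat_lit 402) (nat_lit 329)) (XT.nd (nat_lit 78) (nat_lit 456) (nat_lit 0) (XT.lf (nat_lit 76) (nat_lit 552795156) (nat_lit 0) (nat_lit 2169003765) (nat_lit 532) (nat_lit 552795156) (nat_lit 224) (nat_lit 1) (nat_lit 223) (nat_lit 1) (nat_lit 230) (nat_lit 1) (nat_lit 410) (nat_lit 402) (nat_lit 328)) (XT.lf (nat_lit 532) (nat_lit 412465251) (nat_lit 0) (nat_lit 1418284863) (nat_lit 456) (nat_lit 1418284863) (nat_lit 224) (nat_lit 1) (nat_lit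 217) (nat_lit 1) (nat_lit 223) (nat_lit 1) (nat_lit 411) (nat_lit 402) (nat_lit 327)))) (XT.nd (nat_lit 156) (nat_lit 456) (nat_lit 0) (XT.nd (nat_lit 78) (nat_lit 0) (nat_lit 0) (XT.lf (nat_lit 532) (nat_lit 2955827499) (nat_lit 0) (nat_lit 134012837) (nat_lit 456) (nat_lit 134012837) (nat_lit 217) (nat_lit 1) (nat_lit 210) (nat_lit 1) (nat_lit 216) (nat_lit 1) (nat_lit 412) (nat_lit 402) (nat_lit 326)) (XT.lf (nat_lit 76) (nat_lit 1124833724) (nat_lit 0) (nat_lit 949061349) (nat_lit 532) (nat_lit 1124833724) (nat_lit 211) (nat_lit 1) (nat_lit 210) (nat_lit 1) (nat_lit 217) (nat_lit 1) (nat_lit 413) (nat_lit 402) (nat_lit 325))) (XT.nd (nat_lit 78) (nat_lit 0) (nat_lit 0) (XT.lf (nat_lit 532) (nat_lit 1551109847) (nat_lit 0) (nat_lit 811432389) (nat_lit 456) (nat_lit 811432389) (nat_lit 211) (nat_lit 1) (nat_lit 204) (nat_lit 1) (nat_lit 210) (nat_lit 1) (nat_lit 414) (nat_lit 402) (nat_lit 324)) (XT.lf (nat_lit 76) (nat_lit 427988602)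 (nat_lit 0) (nat_lit 2293527211) (nat_lit 532) (nat_lit 427988602) (nat_lit 205) (nat_lit 1) (nat_lit 204) (nat_lit 1) (nat_lit 211) (nat_lit 1) (nat_lit 415) (nat_lit 402) (nat_lit 323))))))))
noncomputable def ec52 : XT := (XT.nd (nat_lit 53664) (nat_lit 0) (nat_lit 21508) (XT.nd (nat_lit 936) (nat_lit 760) (nat_lit 0) (XT.nd (nat_lit 468) (nat_lit 1520) (nat_lit 0) (XT.nd (nat_lit 234) (nat_lit 836) (nat_lit 0) (XT.nd (nat_lit 78) (nat_lit 532) (nat_lit 0) (XT.lf (nat_lit 456) (nat_lit 159385618) (nat_lit 0) (nat_lit 1482916266) (nat_lit 380) (nat_lit 1482916266) (nat_lit 205) (nat_lit 1) (nat_lit 199) (nat_lit 1) (nat_lit 204) (nat_lit 1) (nat_lit 416) (nat_lit 402) (nat_lit 322)) (XT.nd (nat_lit 78) (nat_lit 0) (nat_lit 0) (XT.lf (nat_lit 532) (nat_lit 2580099180) (nat_lit 0) (nat_lit 260575754) (nat_lit 456) (nat_lit 260575754) (nat_lit 199) (nat_lit 1) (nat_lit 192) (nat_lit 1) (nat_lit 198) (nat_lit 1) (nat_lit 417) (nat_lit 402)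 (nat_lit 321)) (XT.lf (nat_lit 76) (nat_lit 937175375) (nat_lit 0) (nat_lit 1203047102) (nat_lit 532) (nat_lit 937175375) (nat_lit 193) (nat_lit 1) (nat_lit 192) (nat_lit 1) (nat_lit 199) (nat_lit 1) (nat_lit 418) (nat_lit 402) (nat_lit 320)))) (XT.nd (nat_lit 78) (nat_lit 456) (nat_lit 0) (XT.lf (nat_lit 456) (nat_lit 1174525742) (nat_lit 0) (nat_lit 939665892) (nat_lit 380) (nat_lit 939665892) (nat_lit 193) (nat_lit 1) (nat_lit 187) (nat_lit 1) (nat_lit 192) (nat_lit 1) (nat_lit 419) (nat_lit 402) (nat_lit 319)) (XT.nd (nat_lit 78) (nat_lit 456) (nat_lit 0) (XT.lf (nat_lit 76) (nat_lit 240322238) (nat_lit 0) (nat_lit 2549981785) (nat_lit 456) (nat_lit 240322238) (nat_lit 188) (nat_lit 1) (nat_lit 187) (nat_lit 1) (nat_lit 193) (nat_lit 1) (nat_lit 420) (nat_lit 402) (nat_lit 318)) (XT.lf (nat_lit 76) (nat_lit 1396962108) (nat_lit 0) (nat_lit 213569247) (nat_lit 456) (nat_lit 1396962108) (nat_lit 182) (nat_lit 1) (nat_lit 181) (nat_lit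 1) (nat_lit 187) (nat_lit 1) (nat_lit 421) (nat_lit 402) (nat_lit 317))))) (XT.nd (nat_lit 234) (nat_lit 760) (nat_lit 0) (XT.nd (nat_lit 78) (nat_lit 380) (nat_lit 0) (XT.lf (nat_lit 456) (nat_lit 2092215595) (nat_lit 0) (nat_lit 446224157) (nat_lit 380) (nat_lit 446224157) (nat_lit 182) (nat_lit 1) (nat_lit 176) (nat_lit 1) (nat_lit 181) (nat_lit 1) (nat_lit 422) (nat_lit 402) (nat_lit 316)) (XT.nd (nat_lit 78) (nat_lit 380) (nat_lit 0) (XT.lf (nat_lit 76) (nat_lit 695205117) (nat_lit 0) (nat_lit 1571600081) (nat_lit 456) (nat_lit 695205117) (nat_lit 177) (nat_lit 1) (nat_lit 176) (nat_lit 1) (nat_lit 182) (nat_lit 1) (nat_lit 423) (nat_lit 402) (nat_lit 315)) (XT.lf (nat_lit 456) (nat_lit 692026288) (nat_lit 0) (nat_lit 1123785942) (nat_lit 380) (nat_lit 1123785942) (nat_lit 177) (nat_lit 1) (nat_lit 171) (nat_lit 1) (nat_lit 176) (nat_lit 1) (nat_lit 424) (nat_lit 402) (nat_lit 314)))) (XT.nd (nat_lit 78) (nat_lit 760) (nat_lit 0)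 (XT.lf (nat_lit 76) (nat_lit 1376594) (nat_lit 0) (nat_lit 2914782433) (nat_lit 456) (nat_lit 1376594) (nat_lit 172) (nat_lit 1) (nat_lit 171) (nat_lit 1) (nat_lit 177) (nat_lit 1) (nat_lit 425) (nat_lit 402) (nat_lit 313)) (XT.nd (nat_lit 78) (nat_lit 380) (nat_lit 0) (XT.lf (nat_lit 76) (nat_lit 1106168456) (nat_lit 0) (nat_lit 683102873) (nat_lit 380) (nat_lit 1106168456) (nat_lit 167) (nat_lit 1) (nat_lit 166) (nat_lit 1) (nat_lit 171) (nat_lit 1) (nat_lit 426) (nat_lit 402) (nat_lit 312)) (XT.lf (nat_lit 456) (nat_lit 1513789379) (nat_lit 0) (nat_lit 679949499) (nat_lit 380) (nat_lit 679949499) (nat_lit 167) (nat_lit 1) (nat_lit 161) (nat_lit 1) (nat_lit 166) (nat_lit 1) (nat_lit 427) (nat_lit 402) (nat_lit 311)))))) (XT.nd (nat_lit 52260) (nat_lit 0) (nat_lit 26372) (XT.nd (nat_lit 52026) (nat_lit 0) (nat_lit 26296) (XT.nd (nat_lit 78) (nat_lit 760) (nat_lit 0) (XT.lf (nat_lit 76) (nat_lit 409456880) (nat_lit 0) (nat_lit 2033253135)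 (nat_lit 456) (nat_lit 409456880) (nat_lit 162) (nat_lit 1) (nat_lit 161) (nat_lit 1) (nat_lit 167) (nat_lit 1) (nat_lit 428) (nat_lit 402) (nat_lit 310)) (XT.nd (nat_lit 78) (nat_lit 456) (nat_lit 0) (XT.lf (nat_lit 380) (nat_lit 124286490) (nat_lit 0) (nat_lit 1353259314) (nat_lit 304) (nat_lit 1353259314) (nat_lit 162) (nat_lit 1) (nat_lit 157) (nat_lit 1) (nat_lit 161) (nat_lit 1) (nat_lit 429) (nat_lit 402) (nat_lit 309)) (XT.lf (nat_lit 456) (nat_lit 2255825098) (nat_lit 0) (nat_lit 276937838) (nat_lit 380) (nat_lit 276937838) (nat_lit 157) (nat_lit 1) (nat_lit 151) (nat_lit 1) (nat_lit 156) (nat_lit 1) (nat_lit 430) (nat_lit 402) (nat_lit 308)))) (XT.nd (nat_lit 78) (nat_lit 0) (nat_lit 0) (XT.lf (nat_lit 1900) (nat_lit 1063626883) (nat_lit 0) (nat_lit 1072521278) (nat_lit 1900) (nat_lit 1063626883) (nat_lit 522) (nat_lit 1) (nat_lit 497) (nat_lit 0) (nat_lit 522) (nat_lit 0) (nat_lit 334) (nat_lit 403) (nat_lit 403)) (XT.nd (nat_lit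 78) (nat_lit 0) (nat_lit 76) (XT.lf (nat_lit 1900) (nat_lit 4205740616) (nat_lit 76) (nat_lit 1065465217) (nat_lit 0) (nat_lit 1065465217) (nat_lit 522) (nat_lit 1) (nat_lit 498) (nat_lit 1) (nat_lit 497) (nat_lit 0) (nat_lit 335) (nat_lit 403) (nat_lit 402)) (XT.lf (nat_lit 1900) (nat_lit 2065038662) (nat_lit 0) (nat_lit 2144401478) (nat_lit 1824) (nat_lit 2065038662) (nat_lit 523) (nat_lit 1) (nat_lit 498) (nat_lit 1) (nat_lit 522) (nat_lit 1) (nat_lit 336) (nat_lit 403) (nat_lit 401))))) (XT.nd (nat_lit 234) (nat_lit 0) (nat_lit 152) (XT.nd (nat_lit 78) (nat_lit 0) (nat_lit 76) (XT.lf (nat_lit 1900) (nat_lit 4041789722) (nat_lit 76) (nat_lit 1085719831) (nat_lit 0) (nat_lit 1085719831) (nat_lit 523) (nat_lit 1) (nat_lit 499) (nat_lit 1) (nat_lit 498) (nat_lit 1) (nat_lit 337) (nat_lit 403) (nat_lit 400)) (XT.nd (nat_lit 78) (nat_lit 0) (nat_lit 0) (XT.lf (nat_lit 1900) (nat_lit 1964233214) (nat_lit 0) (nat_lit 2224189667) (nat_lit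 1824) (nat_lit 1964233214) (nat_lit 524) (nat_lit 1) (nat_lit 499) (nat_lit 1) (nat_lit 523) (nat_lit 1) (nat_lit 338) (nat_lit 403) (nat_lit 399)) (XT.lf (nat_lit 1900) (nat_lit 3802732336) (nat_lit 76) (nat_lit 1145125633) (nat_lit 0) (nat_lit 1145125633) (nat_lit 524) (nat_lit 1) (nat_lit 500) (nat_lit 1) (nat_lit 499) (nat_lit 1) (nat_lit 339) (nat_lit 403) (nat_lit 398)))) (XT.nd (nat_lit 78) (nat_lit 0) (nat_lit 0) (XT.lf (nat_lit 1900) (nat_lit 1827139979) (nat_lit 0) (nat_lit 2379707399) (nat_lit 1824) (nat_lit 1827139979) (nat_lit 525) (nat_lit 1) (nat_lit 500) (nat_lit 1) (nat_lit 524) (nat_lit 1) (nat_lit 340) (nat_lit 403) (nat_lit 397)) (XT.nd (nat_lit 78) (nat_lit 0) (nat_lit 76) (XT.lf (nat_lit 1900) (nat_lit 3493082442) (nat_lit 76) (nat_lit 1241379240) (nat_lit 0) (nat_lit 1241379240) (nat_lit 525) (nat_lit 1) (nat_lit 501) (nat_lit 1) (nat_lit 500) (nat_lit 1) (nat_lit 341) (nat_lit 403) (nat_lit 396)) (XT.lf (nat_lit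 1900) (nat_lit 1655956332) (nat_lit 0) (nat_lit 2606468362) (nat_lit 1824) (nat_lit 1655956332) (nat_lit 526) (nat_lit 1) (nat_lit 501) (nat_lit 1) (nat_lit 525) (nat_lit 1) (nat_lit 342) (nat_lit 403) (nat_lit 395))))))) (XT.nd (nat_lit 936) (nat_lit 5092) (nat_lit 0) (XT.nd (nat_lit 468) (nat_lit 0) (nat_lit 228) (XT.nd (nat_lit 234) (nat_lit 0) (nat_lit 152) (XT.nd (nat_lit 78) (nat_lit 0) (nat_lit 76) (XT.lf (nat_lit 1900) (nat_lit 3117147419) (nat_lit 76) (nat_lit 1372282072) (nat_lit 0) (nat_lit 1372282072) (nat_lit 526) (nat_lit 1) (nat_lit 502) (nat_lit 1) (nat_lit 501) (nat_lit 1) (nat_lit 343) (nat_lit 403) (nat_lit 394)) (XT.nd (nat_lit 78) (nat_lit 0) (nat_lit 0) (XT.lf (nat_lit 1900) (nat_lit 1452778869) (nat_lit 0) (nat_lit 2900190757) (nat_lit 1824) (nat_lit 1452778869) (nat_lit 527) (nat_lit 1) (nat_lit 502) (nat_lit 1) (nat_lit 526) (nat_lit 1) (nat_lit 344) (nat_lit 403) (nat_lit 393)) (XT.lf (nat_lit 1900) (nat_lit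 2679036673) (nat_lit 76) (nat_lit 1535735973) (nat_lit 0) (nat_lit 1535735973) (nat_lit 527) (nat_lit 1) (nat_lit 503) (nat_lit 1) (nat_lit 502) (nat_lit 1) (nat_lit 345) (nat_lit 403) (nat_lit 392)))) (XT.nd (nat_lit 78) (nat_lit 0) (nat_lit 0) (XT.lf (nat_lit 1900) (nat_lit 1219607616) (nat_lit 0) (nat_lit 3256788765) (nat_lit 1824) (nat_lit 1219607616) (nat_lit 528) (nat_lit 1) (nat_lit 503) (nat_lit 1) (nat_lit 527) (nat_lit 1) (nat_lit 346) (nat_lit 403) (nat_lit 391)) (XT.nd (nat_lit 78) (nat_lit 0) (nat_lit 76) (XT.lf (nat_lit 1900) (nat_lit 2182669931) (nat_lit 76) (nat_lit 1729739020) (nat_lit 0) (nat_lit 1729739020) (nat_lit 528) (nat_lit 1) (nat_lit 504) (nat_lit 1) (nat_lit 503) (nat_lit 1) (nat_lit 347) (nat_lit 403) (nat_lit 390)) (XT.lf (nat_lit 1900) (nat_lit 958350081) (nat_lit 0) (nat_lit 3672364356) (nat_lit 1824) (nat_lit 958350081) (nat_lit 529) (nat_lit 1) (nat_lit 504) (nat_lit 1) (nat_lit 528) (nat_lit 1) (nat_lit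 348) (nat_lit 403) (nat_lit 389))))) (XT.nd (nat_lit 234) (nat_lit 0) (nat_lit 152) (XT.nd (nat_lit 78) (nat_lit 0) (nat_lit 76) (XT.lf (nat_lit 1900) (nat_lit 1631785195) (nat_lit 76) (nat_lit 1952381495) (nat_lit 0) (nat_lit 1952381495) (nat_lit 529) (nat_lit 1) (nat_lit 505) (nat_lit 1) (nat_lit 504) (nat_lit 1) (nat_lit 349) (nat_lit 403) (nat_lit 388)) (XT.nd (nat_lit 78) (nat_lit 0) (nat_lit 0) (XT.lf (nat_lit 1900) (nat_lit 670825135) (nat_lit 0) (nat_lit 4143199422) (nat_lit 1824) (nat_lit 670825135) (nat_lit 530) (nat_lit 1) (nat_lit 505) (nat_lit 1) (nat_lit 529) (nat_lit 1) (nat_lit 350) (nat_lit 403) (nat_lit 387)) (XT.lf (nat_lit 1900) (nat_lit 1029946376) (nat_lit 76) (nat_lit 2201842025) (nat_lit 0) (nat_lit 2201842025) (nat_lit 530) (nat_lit 1) (nat_lit 506) (nat_lit 1) (nat_lit 505) (nat_lit 1) (nat_lit 351) (nat_lit 403) (nat_lit 386)))) (XT.nd (nat_lit 78) (nat_lit 0) (nat_lit 0) (XT.lf (nat_lit 1900) (nat_lit 358766742)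 (nat_lit 0) (nat_lit 4665748234) (nat_lit 1824) (nat_lit 358766742) (nat_lit 531) (nat_lit 1) (nat_lit 506) (nat_lit 1) (nat_lit 530) (nat_lit 1) (nat_lit 352) (nat_lit 403) (nat_lit 385)) (XT.nd (nat_lit 78) (nat_lit 0) (nat_lit 76) (XT.lf (nat_lit 1900) (nat_lit 380550626) (nat_lit 76) (nat_lit 2476383869) (nat_lit 0) (nat_lit 2476383869) (nat_lit 531) (nat_lit 1) (nat_lit 507) (nat_lit 1) (nat_lit 506) (nat_lit 1) (nat_lit 353) (nat_lit 403) (nat_lit 384)) (XT.lf (nat_lit 1900) (nat_lit 23827535) (nat_lit 0) (nat_lit 5236630197) (nat_lit 1824) (nat_lit 23827535) (nat_lit 532) (nat_lit 1) (nat_lit 507) (nat_lit 1) (nat_lit 531) (nat_lit 1) (nat_lit 354) (nat_lit 403) (nat_lit 383)))))) (XT.nd (nat_lit 468) (nat_lit 2660) (nat_lit 0) (XT.nd (nat_lit 234) (nat_lit 988) (nat_lit 0) (XT.nd (nat_lit 78) (nat_lit 0) (nat_lit 0) (XT.lf (nat_lit 1976) (nat_lit 2463219996) (nat_lit 0) (nat_lit 309057425) (nat_lit 1900) (nat_lit 2463219996) (nat_lit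 508) (nat_lit 1) (nat_lit 482) (nat_lit 1) (nat_lit 507) (nat_lit 1) (nat_lit 355) (nat_lit 403) (nat_lit 382)) (XT.nd (nat_lit 78) (nat_lit 0) (nat_lit 76) (XT.lf (nat_lit 1976) (nat_lit 4527152561) (nat_lit 76) (nat_lit 330230794) (nat_lit 0) (nat_lit 330230794) (nat_lit 508) (nat_lit 1) (nat_lit 483) (nat_lit 1) (nat_lit 482) (nat_lit 1) (nat_lit 356) (nat_lit 403) (nat_lit 381)) (XT.lf (nat_lit 1976) (nat_lit 2052856576) (nat_lit 0) (nat_lit 1034368753) (nat_lit 1900) (nat_lit 2052856576) (nat_lit 509) (nat_lit 1) (nat_lit 483) (nat_lit 1) (nat_lit 508) (nat_lit 1) (nat_lit 357) (nat_lit 403) (nat_lit 380)))) (XT.nd (nat_lit 78) (nat_lit 1064) (nat_lit 0) (XT.lf (nat_lit 1976) (nat_lit 3685732203) (nat_lit 76) (nat_lit 703808015) (nat_lit 0) (nat_lit 703808015) (nat_lit 509) (nat_lit 1) (nat_lit 484) (nat_lit 1) (nat_lit 483) (nat_lit 1) (nat_lit 358) (nat_lit 403) (nat_lit 379)) (XT.nd (nat_lit 78) (nat_lit 1140) (nat_lit 0) (XT.lf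 (nat_lit 76) (nat_lit 1624788676) (nat_lit 0) (nat_lit 1797474950) (nat_lit 1900) (nat_lit 1624788676) (nat_lit 485) (nat_lit 1) (nat_lit 484) (nat_lit 1) (nat_lit 509) (nat_lit 1) (nat_lit 359) (nat_lit 403) (nat_lit 378)) (XT.lf (nat_lit 1216) (nat_lit 2810149064) (nat_lit 0) (nat_lit 1095641599) (nat_lit 1140) (nat_lit 1095641599) (nat_lit 485) (nat_lit 1) (nat_lit 469) (nat_lit 1) (nat_lit 484) (nat_lit 1) (nat_lit 360) (nat_lit 403) (nat_lit 377))))) (XT.nd (nat_lit 234) (nat_lit 1748) (nat_lit 0) (XT.nd (nat_lit 78) (nat_lit 912) (nat_lit 0) (XT.lf (nat_lit 76) (nat_lit 1180363379) (nat_lit 0) (nat_lit 2595615068) (nat_lit 1216) (nat_lit 1180363379) (nat_lit 470) (nat_lit 1) (nat_lit 469) (nat_lit 1) (nat_lit 485) (nat_lit 1) (nat_lit 361) (nat_lit 403) (nat_lit 376)) (XT.nd (nat_lit 78) (nat_lit 0) (nat_lit 0) (XT.lf (nat_lit 988) (nat_lit 1903040239) (nat_lit 0) (nat_lit 1504380222) (nat_lit 912) (nat_lit 1504380222) (nat_lit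 470) (nat_lit 1) (nat_lit 457) (nat_lit 1) (nat_lit 469) (nat_lit 1) (nat_lit 362) (nat_lit 403) (nat_lit 375)) (XT.lf (nat_lit 76) (nat_lit 720862525) (nat_lit 0) (nat_lit 3426160732) (nat_lit 988) (nat_lit 720862525) (nat_lit 458) (nat_lit 1) (nat_lit 457) (nat_lit 1) (nat_lit 470) (nat_lit 1) (nat_lit 363) (nat_lit 403) (nat_lit 374)))) (XT.nd (nat_lit 78) (nat_lit 836) (nat_lit 0) (XT.lf (nat_lit 988) (nat_lit 966914726) (nat_lit 0) (nat_lit 1928737630) (nat_lit 912) (nat_lit 1928737630) (nat_lit 458) (nat_lit 1) (nat_lit 445) (nat_lit 1) (nat_lit 457) (nat_lit 1) (nat_lit 364) (nat_lit 403) (nat_lit 373)) (XT.nd (nat_lit 78) (nat_lit 836) (nat_lit 0) (XT.lf (nat_lit 76) (nat_lit 247505499) (nat_lit 0) (nat_lit 4286610491) (nat_lit 988) (nat_lit 247505499) (nat_lit 446) (nat_lit 1) (nat_lit 445) (nat_lit 1) (nat_lit 458) (nat_lit 1) (nat_lit 365) (nat_lit 403) (nat_lit 372)) (XT.lf (nat_lit 912) (nat_lit 4158902) (nat_lit 0) (nat_lit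 2367489861) (nat_lit 836) (nat_lit 2367489861) (nat_lit 446) (nat_lit 1) (nat_lit 434) (nat_lit 1) (nat_lit 445) (nat_lit 1) (nat_lit 366) (nat_lit 403) (nat_lit 371))))))))
noncomputable def ec53 : XT := (XT.nd (nat_lit 1872) (nat_lit 7904) (nat_lit 0) (XT.nd (nat_lit 936) (nat_lit 4712) (nat_lit 0) (XT.nd (nat_lit 468) (nat_lit 3116) (nat_lit 0) (XT.nd (nat_lit 234) (nat_lit 836) (nat_lit 0) (XT.nd (nat_lit 78) (nat_lit 836) (nat_lit 0) (XT.lf (nat_lit 988) (nat_lit 4223406502) (nat_lit 0) (nat_lit 236978697) (nat_lit 912) (nat_lit 236978697) (nat_lit 434) (nat_lit 1) (nat_lit 421) (nat_lit 1) (nat_lit 433) (nat_lit 1) (nat_lit 367) (nat_lit 403) (nat_lit 370)) (XT.nd (nat_lit 78) (nat_lit 836) (nat_lit 0) (XT.lf (nat_lit 76) (nat_lit 1842896392) (nat_lit 0) (nat_lit 970066544) (nat_lit 988) (nat_lit 1842896392) (nat_lit 422) (nat_lit 1) (nat_lit 421) (nat_lit 1) (nat_lit 434) (nat_lit 1) (nat_lit 368) (nat_lit 403) (nat_lit 369)) (XT.lf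 (nat_lit 912) (nat_lit 3152338494) (nat_lit 0) (nat_lit 731352471) (nat_lit 836) (nat_lit 731352471) (nat_lit 422) (nat_lit 1) (nat_lit 410) (nat_lit 1) (nat_lit 421) (nat_lit 1) (nat_lit 369) (nat_lit 403) (nat_lit 368)))) (XT.nd (nat_lit 78) (nat_lit 836) (nat_lit 0) (XT.lf (nat_lit 76) (nat_lit 1304233839) (nat_lit 0) (nat_lit 1966150837) (nat_lit 912) (nat_lit 1304233839) (nat_lit 411) (nat_lit 1) (nat_lit 410) (nat_lit 1) (nat_lit 422) (nat_lit 1) (nat_lit 370) (nat_lit 403) (nat_lit 367)) (XT.nd (nat_lit 78) (nat_lit 0) (nat_lit 0) (XT.lf (nat_lit 912) (nat_lit 2062325793) (nat_lit 0) (nat_lit 1236203407) (nat_lit 836) (nat_lit 1236203407) (nat_lit 411) (nat_lit 1) (nat_lit 399) (nat_lit 1) (nat_lit 410) (nat_lit 1) (nat_lit 371) (nat_lit 403) (nat_lit 366)) (XT.lf (nat_lit 76) (nat_lit 756617393) (nat_lit 0) (nat_lit 2982126192) (nat_lit 912) (nat_lit 756617393) (nat_lit 400) (nat_lit 1) (nat_lit 399) (nat_lit 1) (nat_lit 411)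 (nat_lit 1) (nat_lit 372) (nat_lit 403) (nat_lit 365))))) (XT.nd (nat_lit 234) (nat_lit 1520) (nat_lit 0) (XT.nd (nat_lit 78) (nat_lit 836) (nat_lit 0) (XT.lf (nat_lit 836) (nat_lit 955291018) (nat_lit 0) (nat_lit 1750542815) (nat_lit 760) (nat_lit 1750542815) (nat_lit 400) (nat_lit 1) (nat_lit 389) (nat_lit 1) (nat_lit 399) (nat_lit 1) (nat_lit 373) (nat_lit 403) (nat_lit 364)) (XT.nd (nat_lit 78) (nat_lit 836) (nat_lit 0) (XT.lf (nat_lit 76) (nat_lit 200980446) (nat_lit 0) (nat_lit 4016071778) (nat_lit 836) (nat_lit 200980446) (nat_lit 390) (nat_lit 1) (nat_lit 389) (nat_lit 1) (nat_lit 400) (nat_lit 1) (nat_lit 374) (nat_lit 403) (nat_lit 363)) (XT.lf (nat_lit 76) (nat_lit 2107574553) (nat_lit 0) (nat_lit 164751683) (nat_lit 836) (nat_lit 2107574553) (nat_lit 379) (nat_lit 1) (nat_lit 378) (nat_lit 1) (nat_lit 389) (nat_lit 1) (nat_lit 375) (nat_lit 403) (nat_lit 362)))) (XT.nd (nat_lit 78) (nat_lit 760) (nat_lit 0) (XT.lf (nat_lit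 836) (nat_lit 3623570389) (nat_lit 0) (nat_lit 359411130) (nat_lit 760) (nat_lit 359411130) (nat_lit 379) (nat_lit 1) (nat_lit 368) (nat_lit 1) (nat_lit 378) (nat_lit 1) (nat_lit 376) (nat_lit 403) (nat_lit 361)) (XT.nd (nat_lit 78) (nat_lit 760) (nat_lit 0) (XT.lf (nat_lit 76) (nat_lit 1509797050) (nat_lit 0) (nat_lit 1285555332) (nat_lit 836) (nat_lit 1509797050) (nat_lit 369) (nat_lit 1) (nat_lit 368) (nat_lit 1) (nat_lit 379) (nat_lit 1) (nat_lit 377) (nat_lit 403) (nat_lit 360)) (XT.lf (nat_lit 836) (nat_lit 2419002882) (nat_lit 0) (nat_lit 924733877) (nat_lit 760) (nat_lit 924733877) (nat_lit 369) (nat_lit 1) (nat_lit 358) (nat_lit 1) (nat_lit 368) (nat_lit 1) (nat_lit 378) (nat_lit 403) (nat_lit 359)))))) (XT.nd (nat_lit 468) (nat_lit 2584) (nat_lit 0) (XT.nd (nat_lit 234) (nat_lit 1444) (nat_lit 0) (XT.nd (nat_lit 78) (nat_lit 684) (nat_lit 0) (XT.lf (nat_lit 76) (nat_lit 907084037) (nat_lit 0) (nat_lit 2418028844) (nat_lit 836)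 (nat_lit 907084037) (nat_lit 359) (nat_lit 1) (nat_lit 358) (nat_lit 1) (nat_lit 369) (nat_lit 1) (nat_lit 379) (nat_lit 403) (nat_lit 358)) (XT.nd (nat_lit 78) (nat_lit 0) (nat_lit 0) (XT.lf (nat_lit 760) (nat_lit 1205284691) (nat_lit 0) (nat_lit 1495518918) (nat_lit 684) (nat_lit 1495518918) (nat_lit 359) (nat_lit 1) (nat_lit 349) (nat_lit 1) (nat_lit 358) (nat_lit 1) (nat_lit 380) (nat_lit 403) (nat_lit 357)) (XT.lf (nat_lit 76) (nat_lit 300179089) (nat_lit 0) (nat_lit 3560636868) (nat_lit 760) (nat_lit 300179089) (nat_lit 350) (nat_lit 1) (nat_lit 349) (nat_lit 1) (nat_lit 359) (nat_lit 1) (nat_lit 381) (nat_lit 403) (nat_lit 356)))) (XT.nd (nat_lit 78) (nat_lit 684) (nat_lit 0) (XT.lf (nat_lit 76) (nat_lit 2054989076) (nat_lit 0) (nat_lit 15920694) (nat_lit 760) (nat_lit 2054989076) (nat_lit 340) (nat_lit 1) (nat_lit 339) (nat_lit 1) (nat_lit 349) (nat_lit 1) (nat_lit 382) (nat_lit 403) (nat_lit 355)) (XT.nd (nat_lit 78) (nat_lit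 0) (nat_lit 0) (XT.lf (nat_lit 760) (nat_lit 3474989305) (nat_lit 0) (nat_lit 308173038) (nat_lit 684) (nat_lit 308173038) (nat_lit 340) (nat_lit 1) (nat_lit 330) (nat_lit 1) (nat_lit 339) (nat_lit 1) (nat_lit 383) (nat_lit 403) (nat_lit 354)) (XT.lf (nat_lit 76) (nat_lit 1414719022) (nat_lit 0) (nat_lit 1227560347) (nat_lit 760) (nat_lit 1414719022) (nat_lit 331) (nat_lit 1) (nat_lit 330) (nat_lit 1) (nat_lit 340) (nat_lit 1) (nat_lit 384) (nat_lit 403) (nat_lit 353))))) (XT.nd (nat_lit 234) (nat_lit 1292) (nat_lit 0) (XT.nd (nat_lit 78) (nat_lit 608) (nat_lit 0) (XT.lf (nat_lit 760) (nat_lit 2188468597) (nat_lit 0) (nat_lit 917353863) (nat_lit 684) (nat_lit 917353863) (nat_lit 331) (nat_lit 1) (nat_lit 321) (nat_lit 1) (nat_lit 330) (nat_lit 1) (nat_lit 385) (nat_lit 403) (nat_lit 352)) (XT.nd (nat_lit 78) (nat_lit 608) (nat_lit 0) (XT.lf (nat_lit 76) (nat_lit 772787004) (nat_lit 0) (nat_lit 2444159243) (nat_lit 760) (nat_lit 772787004)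 (nat_lit 322) (nat_lit 1) (nat_lit 321) (nat_lit 1) (nat_lit 331) (nat_lit 1) (nat_lit 386) (nat_lit 403) (nat_lit 351)) (XT.lf (nat_lit 684) (nat_lit 899205202) (nat_lit 0) (nat_lit 1528712716) (nat_lit 608) (nat_lit 1528712716) (nat_lit 322) (nat_lit 1) (nat_lit 313) (nat_lit 1) (nat_lit 321) (nat_lit 1) (nat_lit 387) (nat_lit 403) (nat_lit 350)))) (XT.nd (nat_lit 78) (nat_lit 1292) (nat_lit 0) (XT.lf (nat_lit 76) (nat_lit 129777646) (nat_lit 0) (nat_lit 3664505030) (nat_lit 684) (nat_lit 129777646) (nat_lit 314) (nat_lit 1) (nat_lit 313) (nat_lit 1) (nat_lit 322) (nat_lit 1) (nat_lit 388) (nat_lit 403) (nat_lit 349)) (XT.nd (nat_lit 78) (nat_lit 608) (nat_lit 0) (XT.lf (nat_lit 76) (nat_lit 1752540362) (nat_lit 0) (nat_lit 386524343) (nat_lit 684) (nat_lit 1752540362) (nat_lit 305) (nat_lit 1) (nat_lit 304) (nat_lit 1) (nat_lit 313) (nat_lit 1) (nat_lit 389) (nat_lit 403) (nat_lit 348)) (XT.lf (nat_lit 684) (nat_lit 2838915327) (nat_lit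 0) (nat_lit 510377347) (nat_lit 608) (nat_lit 510377347) (nat_lit 305) (nat_lit 1) (nat_lit 296) (nat_lit 1) (nat_lit 304) (nat_lit 1) (nat_lit 390) (nat_lit 403) (nat_lit 347))))))) (XT.nd (nat_lit 936) (nat_lit 3876) (nat_lit 0) (XT.nd (nat_lit 468) (nat_lit 2204) (nat_lit 0) (XT.nd (nat_lit 234) (nat_lit 1216) (nat_lit 0) (XT.nd (nat_lit 78) (nat_lit 608) (nat_lit 0) (XT.lf (nat_lit 76) (nat_lit 1083505616) (nat_lit 0) (nat_lit 1660981278) (nat_lit 684) (nat_lit 1083505616) (nat_lit 297) (nat_lit 1) (nat_lit 296) (nat_lit 1) (nat_lit 305) (nat_lit 1) (nat_lit 391) (nat_lit 403) (nat_lit 346)) (XT.nd (nat_lit 78) (nat_lit 0) (nat_lit 0) (XT.lf (nat_lit 684) (nat_lit 1497354219) (nat_lit 0) (nat_lit 1149683821) (nat_lit 608) (nat_lit 1149683821) (nat_lit 297) (nat_lit 1) (nat_lit 288) (nat_lit 1) (nat_lit 296) (nat_lit 1) (nat_lit 392) (nat_lit 403) (nat_lit 345)) (XT.lf (nat_lit 76) (nat_lit 415455741) (nat_lit 0) (nat_lit 2934958444)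 (nat_lit 684) (nat_lit 415455741) (nat_lit 289) (nat_lit 1) (nat_lit 288) (nat_lit 1) (nat_lit 297) (nat_lit 1) (nat_lit 393) (nat_lit 403) (nat_lit 344)))) (XT.nd (nat_lit 78) (nat_lit 684) (nat_lit 0) (XT.lf (nat_lit 608) (nat_lit 158227313) (nat_lit 0) (nat_lit 1788508506) (nat_lit 532) (nat_lit 1788508506) (nat_lit 289) (nat_lit 1) (nat_lit 281) (nat_lit 1) (nat_lit 288) (nat_lit 1) (nat_lit 394) (nat_lit 403) (nat_lit 343)) (XT.nd (nat_lit 78) (nat_lit 0) (nat_lit 0) (XT.lf (nat_lit 684) (nat_lit 3206057658) (nat_lit 0) (nat_lit 249505064) (nat_lit 608) (nat_lit 249505064) (nat_lit 281) (nat_lit 1) (nat_lit 272) (nat_lit 1) (nat_lit 280) (nat_lit 1) (nat_lit 395) (nat_lit 403) (nat_lit 342)) (XT.lf (nat_lit 76) (nat_lit 1256452279) (nat_lit 0) (nat_lit 1162141927) (nat_lit 684) (nat_lit 1256452279) (nat_lit 273) (nat_lit 1) (nat_lit 272) (nat_lit 1) (nat_lit 281) (nat_lit 1) (nat_lit 396) (nat_lit 403) (nat_lit 341))))) (XT.nd (nat_lit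 234) (nat_lit 1140) (nat_lit 0) (XT.nd (nat_lit 78) (nat_lit 532) (nat_lit 0) (XT.lf (nat_lit 608) (nat_lit 1825697025) (nat_lit 0) (nat_lit 909883448) (nat_lit 532) (nat_lit 909883448) (nat_lit 273) (nat_lit 1) (nat_lit 265) (nat_lit 1) (nat_lit 272) (nat_lit 1) (nat_lit 397) (nat_lit 403) (nat_lit 340)) (XT.nd (nat_lit 78) (nat_lit 532) (nat_lit 0) (XT.lf (nat_lit 76) (nat_lit 569936720) (nat_lit 0) (nat_lit 2476350894) (nat_lit 608) (nat_lit 569936720) (nat_lit 266) (nat_lit 1) (nat_lit 265) (nat_lit 1) (nat_lit 273) (nat_lit 1) (nat_lit 398) (nat_lit 403) (nat_lit 339)) (XT.lf (nat_lit 608) (nat_lit 451205596) (nat_lit 0) (nat_lit 1568016515) (nat_lit 532) (nat_lit 1568016515) (nat_lit 266) (nat_lit 1) (nat_lit 258) (nat_lit 1) (nat_lit 265) (nat_lit 1) (nat_lit 399) (nat_lit 403) (nat_lit 338)))) (XT.nd (nat_lit 78) (nat_lit 532) (nat_lit 0) (XT.lf (nat_lit 608) (nat_lit 3333249538) (nat_lit 0) (nat_lit 112727000) (nat_lit 532) (nat_lit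 112727000) (nat_lit 258) (nat_lit 1) (nat_lit 250) (nat_lit 1) (nat_lit 257) (nat_lit 1) (nat_lit 400) (nat_lit 403) (nat_lit 337)) (XT.nd (nat_lit 78) (nat_lit 532) (nat_lit 0) (XT.lf (nat_lit 76) (nat_lit 1312775933) (nat_lit 0) (nat_lit 904685820) (nat_lit 608) (nat_lit 1312775933) (nat_lit 251) (nat_lit 1) (nat_lit 250) (nat_lit 1) (nat_lit 258) (nat_lit 1) (nat_lit 401) (nat_lit 403) (nat_lit 336)) (XT.lf (nat_lit 608) (nat_lit 1925778740) (nat_lit 0) (nat_lit 788217272) (nat_lit 532) (nat_lit 788217272) (nat_lit 251) (nat_lit 1) (nat_lit 243) (nat_lit 1) (nat_lit 250) (nat_lit 1) (nat_lit 402) (nat_lit 403) (nat_lit 335)))))) (XT.nd (nat_lit 468) (nat_lit 2356) (nat_lit 0) (XT.nd (nat_lit 234) (nat_lit 456) (nat_lit 0) (XT.nd (nat_lit 78) (nat_lit 1064) (nat_lit 0) (XT.lf (nat_lit 76) (nat_lit 613486577) (nat_lit 0) (nat_lit 2247515159) (nat_lit 608) (nat_lit 613486577) (nat_lit 244) (nat_lit 1) (nat_lit 243) (nat_lit 1) (nat_lit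 251) (nat_lit 1) (nat_lit 403) (nat_lit 403) (nat_lit 334)) (XT.nd (nat_lit 78) (nat_lit 608) (nat_lit 0) (XT.lf (nat_lit 532) (nat_lit 527083354) (nat_lit 0) (nat_lit 1459966843) (nat_lit 456) (nat_lit 1459966843) (nat_lit 244) (nat_lit 1) (nat_lit 237) (nat_lit 1) (nat_lit 243) (nat_lit 1) (nat_lit 404) (nat_lit 403) (nat_lit 333)) (XT.lf (nat_lit 608) (nat_lit 3258469444) (nat_lit 0) (nat_lit 80752085) (nat_lit 532) (nat_lit 80752085) (nat_lit 237) (nat_lit 1) (nat_lit 229) (nat_lit 1) (nat_lit 236) (nat_lit 1) (nat_lit 405) (nat_lit 403) (nat_lit 332)))) (XT.nd (nat_lit 78) (nat_lit 456) (nat_lit 0) (XT.lf (nat_lit 76) (nat_lit 1271000675) (nat_lit 0) (nat_lit 850968876) (nat_lit 608) (nat_lit 1271000675) (nat_lit 230) (nat_lit 1) (nat_lit 229) (nat_lit 1) (nat_lit 237) (nat_lit 1) (nat_lit 406) (nat_lit 403) (nat_lit 331)) (XT.nd (nat_lit 78) (nat_lit 0) (nat_lit 0) (XT.lf (nat_lit 532) (nat_lit 1833983171) (nat_lit 0) (nat_lit 766201685)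 (nat_lit 456) (nat_lit 766201685) (nat_lit 230) (nat_lit 1) (nat_lit 223) (nat_lit 1) (nat_lit 229) (nat_lit 1) (nat_lit 407) (nat_lit 403) (nat_lit 330)) (XT.lf (nat_lit 76) (nat_lit 563851059) (nat_lit 0) (nat_lit 2212383841) (nat_lit 532) (nat_lit 563851059) (nat_lit 224) (nat_lit 1) (nat_lit 223) (nat_lit 1) (nat_lit 230) (nat_lit 1) (nat_lit 408) (nat_lit 403) (nat_lit 329))))) (XT.nd (nat_lit 234) (nat_lit 1368) (nat_lit 0) (XT.nd (nat_lit 78) (nat_lit 532) (nat_lit 0) (XT.lf (nat_lit 532) (nat_lit 420714556) (nat_lit 0) (nat_lit 1446650561) (nat_lit 456) (nat_lit 1446650561) (nat_lit 224) (nat_lit 1) (nat_lit 217) (nat_lit 1) (nat_lit 223) (nat_lit 1) (nat_lit 409) (nat_lit 403) (nat_lit 328)) (XT.nd (nat_lit 78) (nat_lit 0) (nat_lit 0) (XT.lf (nat_lit 532) (nat_lit 3014944049) (nat_lit 0) (nat_lit 136693094) (nat_lit 456) (nat_lit 136693094) (nat_lit 217) (nat_lit 1) (nat_lit 210) (nat_lit 1) (nat_lit 216) (nat_lit 1) (nat_lit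 410) (nat_lit 403) (nat_lit 327)) (XT.lf (nat_lit 76) (nat_lit 1147330398) (nat_lit 0) (nat_lit 968042576) (nat_lit 532) (nat_lit 1147330398) (nat_lit 211) (nat_lit 1) (nat_lit 210) (nat_lit 1) (nat_lit 217) (nat_lit 1) (nat_lit 411) (nat_lit 403) (nat_lit 326)))) (XT.nd (nat_lit 156) (nat_lit 912) (nat_lit 0) (XT.nd (nat_lit 78) (nat_lit 0) (nat_lit 0) (XT.lf (nat_lit 532) (nat_lit 1582132044) (nat_lit 0) (nat_lit 827661037) (nat_lit 456) (nat_lit 827661037) (nat_lit 211) (nat_lit 1) (nat_lit 204) (nat_lit 1) (nat_lit 210) (nat_lit 1) (nat_lit 412) (nat_lit 403) (nat_lit 325)) (XT.lf (nat_lit 76) (nat_lit 436548374) (nat_lit 0) (nat_lit 2339397755) (nat_lit 532) (nat_lit 436548374) (nat_lit 205) (nat_lit 1) (nat_lit 204) (nat_lit 1) (nat_lit 211) (nat_lit 1) (nat_lit 413) (nat_lit 403) (nat_lit 324))) (XT.nd (nat_lit 78) (nat_lit 532) (nat_lit 0) (XT.lf (nat_lit 456) (nat_lit 162573330) (nat_lit 0) (nat_lit 1512574591) (nat_lit 380)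 (nat_lit 1512574591) (nat_lit 205) (nat_lit 1) (nat_lit 199) (nat_lit 1) (nat_lit 204) (nat_lit 1) (nat_lit 414) (nat_lit 403) (nat_lit 323)) (XT.lf (nat_lit 532) (nat_lit 2631701164) (nat_lit 0) (nat_lit 265787269) (nat_lit 456) (nat_lit 265787269) (nat_lit 199) (nat_lit 1) (nat_lit 192) (nat_lit 1) (nat_lit 198) (nat_lit 1) (nat_lit 415) (nat_lit 403) (nat_lit 322))))))))
noncomputable def ec54 : XT := (XT.nd (nat_lit 53586) (nat_lit 0) (nat_lit 20520) (XT.nd (nat_lit 936) (nat_lit 456) (nat_lit 0) (XT.nd (nat_lit 468) (nat_lit 1444) (nat_lit 0) (XT.nd (nat_lit 234) (nat_lit 836) (nat_lit 0) (XT.nd (nat_lit 78) (nat_lit 380) (nat_lit 0) (XT.lf (nat_lit 76) (nat_lit 955918883) (nat_lit 0) (nat_lit 1227108044) (nat_lit 532) (nat_lit 955918883) (nat_lit 193) (nat_lit 1) (nat_lit 192) (nat_lit 1) (nat_lit 199) (nat_lit 1) (nat_lit 416) (nat_lit 403) (nat_lit 321)) (XT.nd (nat_lit 78) (nat_lit 0) (nat_lit 0) (XT.lf (nat_lit 456) (nat_lit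 1198016257) (nat_lit 0) (nat_lit 958459210) (nat_lit 380) (nat_lit 958459210) (nat_lit 193) (nat_lit 1) (nat_lit 187) (nat_lit 1) (nat_lit 192) (nat_lit 1) (nat_lit 417) (nat_lit 403) (nat_lit 320)) (XT.lf (nat_lit 76) (nat_lit 245128683) (nat_lit 0) (nat_lit 2600981420) (nat_lit 456) (nat_lit 245128683) (nat_lit 188) (nat_lit 1) (nat_lit 187) (nat_lit 1) (nat_lit 193) (nat_lit 1) (nat_lit 418) (nat_lit 403) (nat_lit 319)))) (XT.nd (nat_lit 78) (nat_lit 380) (nat_lit 0) (XT.lf (nat_lit 76) (nat_lit 1424901350) (nat_lit 0) (nat_lit 217840632) (nat_lit 456) (nat_lit 1424901350) (nat_lit 182) (nat_lit 1) (nat_lit 181) (nat_lit 1) (nat_lit 187) (nat_lit 1) (nat_lit 419) (nat_lit 403) (nat_lit 318)) (XT.nd (nat_lit 78) (nat_lit 0) (nat_lit 0) (XT.lf (nat_lit 456) (nat_lit 2134059907) (nat_lit 0) (nat_lit 455148641) (nat_lit 380) (nat_lit 455148641) (nat_lit 182) (nat_lit 1) (nat_lit 176) (nat_lit 1) (nat_lit 181) (nat_lit 1) (nat_lit 420)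 (nat_lit 403) (nat_lit 317)) (XT.lf (nat_lit 76) (nat_lit 709109219) (nat_lit 0) (nat_lit 1603032083) (nat_lit 456) (nat_lit 709109219) (nat_lit 177) (nat_lit 1) (nat_lit 176) (nat_lit 1) (nat_lit 182) (nat_lit 1) (nat_lit 421) (nat_lit 403) (nat_lit 316))))) (XT.nd (nat_lit 234) (nat_lit 684) (nat_lit 0) (XT.nd (nat_lit 78) (nat_lit 380) (nat_lit 0) (XT.lf (nat_lit 456) (nat_lit 705866814) (nat_lit 0) (nat_lit 1146261661) (nat_lit 380) (nat_lit 1146261661) (nat_lit 177) (nat_lit 1) (nat_lit 171) (nat_lit 1) (nat_lit 176) (nat_lit 1) (nat_lit 422) (nat_lit 403) (nat_lit 315)) (XT.nd (nat_lit 78) (nat_lit 380) (nat_lit 0) (XT.lf (nat_lit 76) (nat_lit 1404126) (nat_lit 0) (nat_lit 2973078082) (nat_lit 456) (nat_lit 1404126) (nat_lit 172) (nat_lit 1) (nat_lit 171) (nat_lit 1) (nat_lit 177) (nat_lit 1) (nat_lit 423) (nat_lit 403) (nat_lit 314)) (XT.lf (nat_lit 76) (nat_lit 1128291825) (nat_lit 0) (nat_lit 696764930) (nat_lit 380) (nat_lit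 1128291825) (nat_lit 167) (nat_lit 1) (nat_lit 166) (nat_lit 1) (nat_lit 171) (nat_lit 1) (nat_lit 424) (nat_lit 403) (nat_lit 313)))) (XT.nd (nat_lit 78) (nat_lit 304) (nat_lit 0) (XT.lf (nat_lit 456) (nat_lit 1544065167) (nat_lit 0) (nat_lit 693548489) (nat_lit 380) (nat_lit 693548489) (nat_lit 167) (nat_lit 1) (nat_lit 161) (nat_lit 1) (nat_lit 166) (nat_lit 1) (nat_lit 425) (nat_lit 403) (nat_lit 312)) (XT.nd (nat_lit 78) (nat_lit 304) (nat_lit 0) (XT.lf (nat_lit 76) (nat_lit 417646018) (nat_lit 0) (nat_lit 2073918198) (nat_lit 456) (nat_lit 417646018) (nat_lit 162) (nat_lit 1) (nat_lit 161) (nat_lit 1) (nat_lit 167) (nat_lit 1) (nat_lit 426) (nat_lit 403) (nat_lit 311)) (XT.lf (nat_lit 380) (nat_lit 126772220) (nat_lit 0) (nat_lit 1380324500) (nat_lit 304) (nat_lit 1380324500) (nat_lit 162) (nat_lit 1) (nat_lit 157) (nat_lit 1) (nat_lit 161) (nat_lit 1) (nat_lit 427) (nat_lit 403) (nat_lit 310)))))) (XT.nd (nat_lit 52182) (nat_lit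 0) (nat_lit 26448) (XT.nd (nat_lit 51948) (nat_lit 0) (nat_lit 26296) (XT.nd (nat_lit 78) (nat_lit 0) (nat_lit 0) (XT.lf (nat_lit 456) (nat_lit 2300941600) (nat_lit 0) (nat_lit 282476595) (nat_lit 380) (nat_lit 282476595) (nat_lit 157) (nat_lit 1) (nat_lit 151) (nat_lit 1) (nat_lit 156) (nat_lit 1) (nat_lit 428) (nat_lit 403) (nat_lit 309)) (XT.nd (nat_lit 51792) (nat_lit 0) (nat_lit 26296) (XT.lf (nat_lit 76) (nat_lit 794025483) (nat_lit 0) (nat_lit 1256424557) (nat_lit 456) (nat_lit 794025483) (nat_lit 152) (nat_lit 1) (nat_lit 151) (nat_lit 1) (nat_lit 157) (nat_lit 1) (nat_lit 429) (nat_lit 403) (nat_lit 308)) (XT.lf (nat_lit 1900) (nat_lit 1084899421) (nat_lit 0) (nat_lit 1093971703) (nat_lit 1900) (nat_lit 1084899421) (nat_lit 522) (nat_lit 1) (nat_lit 497) (nat_lit 0) (nat_lit 522) (nat_lit 0) (nat_lit 332) (nat_lit 404) (nat_lit 404)))) (XT.nd (nat_lit 78) (nat_lit 0) (nat_lit 76) (XT.lf (nat_lit 1900) (nat_lit 4289855429) (nat_lit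 76) (nat_lit 1086774521) (nat_lit 0) (nat_lit 1086774521) (nat_lit 522) (nat_lit 1) (nat_lit 498) (nat_lit 1) (nat_lit 497) (nat_lit 0) (nat_lit 333) (nat_lit 404) (nat_lit 403)) (XT.nd (nat_lit 78) (nat_lit 0) (nat_lit 0) (XT.lf (nat_lit 1900) (nat_lit 2106339435) (nat_lit 0) (nat_lit 2187289508) (nat_lit 1824) (nat_lit 2106339435) (nat_lit 523) (nat_lit 1) (nat_lit 498) (nat_lit 1) (nat_lit 522) (nat_lit 1) (nat_lit 334) (nat_lit 404) (nat_lit 402)) (XT.lf (nat_lit 1900) (nat_lit 4122625516) (nat_lit 76) (nat_lit 1107434228) (nat_lit 0) (nat_lit 1107434228) (nat_lit 523) (nat_lit 1) (nat_lit 499) (nat_lit 1) (nat_lit 498) (nat_lit 1) (nat_lit 335) (nat_lit 404) (nat_lit 401))))) (XT.nd (nat_lit 234) (nat_lit 0) (nat_lit 76) (XT.nd (nat_lit 78) (nat_lit 0) (nat_lit 0) (XT.lf (nat_lit 1900) (nat_lit 2003517879) (nat_lit 0) (nat_lit 2268673460) (nat_lit 1824) (nat_lit 2003517879) (nat_lit 524) (nat_lit 1) (nat_lit 499) (nat_lit 1) (nat_lit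 523) (nat_lit 1) (nat_lit 336) (nat_lit 404) (nat_lit 400)) (XT.nd (nat_lit 78) (nat_lit 0) (nat_lit 76) (XT.lf (nat_lit 1900) (nat_lit 3878786982) (nat_lit 76) (nat_lit 1168028145) (nat_lit 0) (nat_lit 1168028145) (nat_lit 524) (nat_lit 1) (nat_lit 500) (nat_lit 1) (nat_lit 499) (nat_lit 1) (nat_lit 337) (nat_lit 404) (nat_lit 399)) (XT.lf (nat_lit 1900) (nat_lit 1863682778) (nat_lit 0) (nat_lit 2427301547) (nat_lit 1824) (nat_lit 1863682778) (nat_lit 525) (nat_lit 1) (nat_lit 500) (nat_lit 1) (nat_lit 524) (nat_lit 1) (nat_lit 338) (nat_lit 404) (nat_lit 398)))) (XT.nd (nat_lit 78) (nat_lit 0) (nat_lit 76) (XT.lf (nat_lit 1900) (nat_lit 3562944091) (nat_lit 76) (nat_lit 1266206825) (nat_lit 0) (nat_lit 1266206825) (nat_lit 525) (nat_lit 1) (nat_lit 501) (nat_lit 1) (nat_lit 500) (nat_lit 1) (nat_lit 339) (nat_lit 404) (nat_lit 397)) (XT.nd (nat_lit 78) (nat_lit 0) (nat_lit 0) (XT.lf (nat_lit 1900) (nat_lit 1689075459) (nat_lit 0) (nat_lit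 2658597729) (nat_lit 1824) (nat_lit 1689075459) (nat_lit 526) (nat_lit 1) (nat_lit 501) (nat_lit 1) (nat_lit 525) (nat_lit 1) (nat_lit 340) (nat_lit 404) (nat_lit 396)) (XT.lf (nat_lit 1900) (nat_lit 3179490367) (nat_lit 76) (nat_lit 1399727714) (nat_lit 0) (nat_lit 1399727714) (nat_lit 526) (nat_lit 1) (nat_lit 502) (nat_lit 1) (nat_lit 501) (nat_lit 1) (nat_lit 341) (nat_lit 404) (nat_lit 395))))))) (XT.nd (nat_lit 936) (nat_lit 4636) (nat_lit 0) (XT.nd (nat_lit 468) (nat_lit 1520) (nat_lit 0) (XT.nd (nat_lit 234) (nat_lit 0) (nat_lit 76) (XT.nd (nat_lit 78) (nat_lit 0) (nat_lit 0) (XT.lf (nat_lit 1900) (nat_lit 1481834446) (nat_lit 0) (nat_lit 2958194572) (nat_lit 1824) (nat_lit 1481834446) (nat_lit 527) (nat_lit 1) (nat_lit 502) (nat_lit 1) (nat_lit 526) (nat_lit 1) (nat_lit 342) (nat_lit 404) (nat_lit 394)) (XT.nd (nat_lit 78) (nat_lit 0) (nat_lit 76) (XT.lf (nat_lit 1900) (nat_lit 2732617407) (nat_lit 76) (nat_lit 1566450693) (nat_lit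 0) (nat_lit 1566450693) (nat_lit 527) (nat_lit 1) (nat_lit 503) (nat_lit 1) (nat_lit 502) (nat_lit 1) (nat_lit 343) (nat_lit 404) (nat_lit 393)) (XT.lf (nat_lit 1900) (nat_lit 1243999768) (nat_lit 0) (nat_lit 3321924540) (nat_lit 1824) (nat_lit 1243999768) (nat_lit 528) (nat_lit 1) (nat_lit 503) (nat_lit 1) (nat_lit 527) (nat_lit 1) (nat_lit 344) (nat_lit 404) (nat_lit 392)))) (XT.nd (nat_lit 78) (nat_lit 0) (nat_lit 76) (XT.lf (nat_lit 1900) (nat_lit 2226323330) (nat_lit 76) (nat_lit 1764333800) (nat_lit 0) (nat_lit 1764333800) (nat_lit 528) (nat_lit 1) (nat_lit 504) (nat_lit 1) (nat_lit 503) (nat_lit 1) (nat_lit 345) (nat_lit 404) (nat_lit 391)) (XT.nd (nat_lit 78) (nat_lit 0) (nat_lit 0) (XT.lf (nat_lit 1900) (nat_lit 977517082) (nat_lit 0) (nat_lit 3745811643) (nat_lit 1824) (nat_lit 977517082) (nat_lit 529) (nat_lit 1) (nat_lit 504) (nat_lit 1) (nat_lit 528) (nat_lit 1) (nat_lit 346) (nat_lit 404) (nat_lit 390)) (XT.lf (nat_lit 1900)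 (nat_lit 1664420898) (nat_lit 76) (nat_lit 1991429125) (nat_lit 0) (nat_lit 1991429125) (nat_lit 529) (nat_lit 1) (nat_lit 505) (nat_lit 1) (nat_lit 504) (nat_lit 1) (nat_lit 347) (nat_lit 404) (nat_lit 389))))) (XT.nd (nat_lit 234) (nat_lit 1748) (nat_lit 0) (XT.nd (nat_lit 78) (nat_lit 0) (nat_lit 0) (XT.lf (nat_lit 1900) (nat_lit 684241638) (nat_lit 0) (nat_lit 4226063410) (nat_lit 1824) (nat_lit 684241638) (nat_lit 530) (nat_lit 1) (nat_lit 505) (nat_lit 1) (nat_lit 529) (nat_lit 1) (nat_lit 348) (nat_lit 404) (nat_lit 388)) (XT.nd (nat_lit 78) (nat_lit 0) (nat_lit 76) (XT.lf (nat_lit 1900) (nat_lit 1050545303) (nat_lit 76) (nat_lit 2245878866) (nat_lit 0) (nat_lit 2245878866) (nat_lit 530) (nat_lit 1) (nat_lit 506) (nat_lit 1) (nat_lit 505) (nat_lit 1) (nat_lit 349) (nat_lit 404) (nat_lit 387)) (XT.lf (nat_lit 1900) (nat_lit 365942077) (nat_lit 0) (nat_lit 4759063199) (nat_lit 1824) (nat_lit 365942077) (nat_lit 531) (nat_lit 1) (nat_lit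 506) (nat_lit 1) (nat_lit 530) (nat_lit 1) (nat_lit 350) (nat_lit 404) (nat_lit 386)))) (XT.nd (nat_lit 78) (nat_lit 1824) (nat_lit 0) (XT.lf (nat_lit 1900) (nat_lit 388161638) (nat_lit 76) (nat_lit 2525911547) (nat_lit 0) (nat_lit 2525911547) (nat_lit 531) (nat_lit 1) (nat_lit 507) (nat_lit 1) (nat_lit 506) (nat_lit 1) (nat_lit 351) (nat_lit 404) (nat_lit 385)) (XT.nd (nat_lit 78) (nat_lit 1900) (nat_lit 0) (XT.lf (nat_lit 1900) (nat_lit 24304085) (nat_lit 0) (nat_lit 5341362801) (nat_lit 1824) (nat_lit 24304085) (nat_lit 532) (nat_lit 1) (nat_lit 507) (nat_lit 1) (nat_lit 531) (nat_lit 1) (nat_lit 352) (nat_lit 404) (nat_lit 384)) (XT.lf (nat_lit 1976) (nat_lit 2512484396) (nat_lit 0) (nat_lit 315238573) (nat_lit 1900) (nat_lit 2512484396) (nat_lit 508) (nat_lit 1) (nat_lit 482) (nat_lit 1) (nat_lit 507) (nat_lit 1) (nat_lit 353) (nat_lit 404) (nat_lit 383)))))) (XT.nd (nat_lit 468) (nat_lit 3648) (nat_lit 0) (XT.nd (nat_lit 234) (nat_lit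 988) (nat_lit 0) (XT.nd (nat_lit 78) (nat_lit 0) (nat_lit 76) (XT.lf (nat_lit 1976) (nat_lit 4617695613) (nat_lit 76) (nat_lit 336835410) (nat_lit 0) (nat_lit 336835410) (nat_lit 508) (nat_lit 1) (nat_lit 483) (nat_lit 1) (nat_lit 482) (nat_lit 1) (nat_lit 354) (nat_lit 404) (nat_lit 382)) (XT.nd (nat_lit 78) (nat_lit 0) (nat_lit 0) (XT.lf (nat_lit 1976) (nat_lit 2093913707) (nat_lit 0) (nat_lit 1055056128) (nat_lit 1900) (nat_lit 2093913707) (nat_lit 509) (nat_lit 1) (nat_lit 483) (nat_lit 1) (nat_lit 508) (nat_lit 1) (nat_lit 355) (nat_lit 404) (nat_lit 381)) (XT.lf (nat_lit 1976) (nat_lit 3759446847) (nat_lit 76) (nat_lit 717884175) (nat_lit 0) (nat_lit 717884175) (nat_lit 509) (nat_lit 1) (nat_lit 484) (nat_lit 1) (nat_lit 483) (nat_lit 1) (nat_lit 356) (nat_lit 404) (nat_lit 380)))) (XT.nd (nat_lit 78) (nat_lit 1140) (nat_lit 0) (XT.lf (nat_lit 76) (nat_lit 1657284449) (nat_lit 0) (nat_lit 1833424449) (nat_lit 1900) (nat_lit 1657284449)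 (nat_lit 485) (nat_lit 1) (nat_lit 484) (nat_lit 1) (nat_lit 509) (nat_lit 1) (nat_lit 357) (nat_lit 404) (nat_lit 379)) (XT.nd (nat_lit 78) (nat_lit 0) (nat_lit 0) (XT.lf (nat_lit 1216) (nat_lit 2866352045) (nat_lit 0) (nat_lit 1117554431) (nat_lit 1140) (nat_lit 1117554431) (nat_lit 485) (nat_lit 1) (nat_lit 469) (nat_lit 1) (nat_lit 484) (nat_lit 1) (nat_lit 358) (nat_lit 404) (nat_lit 378)) (XT.lf (nat_lit 76) (nat_lit 1203970646) (nat_lit 0) (nat_lit 2647527370) (nat_lit 1216) (nat_lit 1203970646) (nat_lit 470) (nat_lit 1) (nat_lit 469) (nat_lit 1) (nat_lit 485) (nat_lit 1) (nat_lit 359) (nat_lit 404) (nat_lit 377))))) (XT.nd (nat_lit 234) (nat_lit 1824) (nat_lit 0) (XT.nd (nat_lit 78) (nat_lit 912) (nat_lit 0) (XT.lf (nat_lit 988) (nat_lit 1941101044) (nat_lit 0) (nat_lit 1534467827) (nat_lit 912) (nat_lit 1534467827) (nat_lit 470) (nat_lit 1) (nat_lit 457) (nat_lit 1) (nat_lit 469) (nat_lit 1) (nat_lit 360) (nat_lit 404) (nat_lit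 376)) (XT.nd (nat_lit 78) (nat_lit 912) (nat_lit 0) (XT.lf (nat_lit 76) (nat_lit 735279775) (nat_lit 0) (nat_lit 3494683947) (nat_lit 988) (nat_lit 735279775) (nat_lit 458) (nat_lit 1) (nat_lit 457) (nat_lit 1) (nat_lit 470) (nat_lit 1) (nat_lit 361) (nat_lit 404) (nat_lit 375)) (XT.lf (nat_lit 988) (nat_lit 986253021) (nat_lit 0) (nat_lit 1967312382) (nat_lit 912) (nat_lit 1967312382) (nat_lit 458) (nat_lit 1) (nat_lit 445) (nat_lit 1) (nat_lit 457) (nat_lit 1) (nat_lit 362) (nat_lit 404) (nat_lit 374)))) (XT.nd (nat_lit 78) (nat_lit 1824) (nat_lit 0) (XT.lf (nat_lit 76) (nat_lit 252455609) (nat_lit 0) (nat_lit 4372342701) (nat_lit 988) (nat_lit 252455609) (nat_lit 446) (nat_lit 1) (nat_lit 445) (nat_lit 1) (nat_lit 458) (nat_lit 1) (nat_lit 363) (nat_lit 404) (nat_lit 373)) (XT.nd (nat_lit 78) (nat_lit 988) (nat_lit 0) (XT.lf (nat_lit 912) (nat_lit 4242080) (nat_lit 0) (nat_lit 2414839659) (nat_lit 836) (nat_lit 2414839659) (nat_lit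 446) (nat_lit 1) (nat_lit 434) (nat_lit 1) (nat_lit 445) (nat_lit 1) (nat_lit 364) (nat_lit 404) (nat_lit 372)) (XT.lf (nat_lit 988) (nat_lit 4307874632) (nat_lit 0) (nat_lit 241718271) (nat_lit 912) (nat_lit 241718271) (nat_lit 434) (nat_lit 1) (nat_lit 421) (nat_lit 1) (nat_lit 433) (nat_lit 1) (nat_lit 365) (nat_lit 404) (nat_lit 371))))))))
noncomputable def ec55 : XT := (XT.nd (nat_lit 1872) (nat_lit 7904) (nat_lit 0) (XT.nd (nat_lit 936) (nat_lit 4712) (nat_lit 0) (XT.nd (nat_lit 468) (nat_lit 2356) (nat_lit 0) (XT.nd (nat_lit 234) (nat_lit 1596) (nat_lit 0) (XT.nd (nat_lit 78) (nat_lit 836) (nat_lit 0) (XT.lf (nat_lit 76) (nat_lit 1879754319) (nat_lit 0) (nat_lit 989467875) (nat_lit 988) (nat_lit 1879754319) (nat_lit 422) (nat_lit 1) (nat_lit 421) (nat_lit 1) (nat_lit 434) (nat_lit 1) (nat_lit 366) (nat_lit 404) (nat_lit 370)) (XT.nd (nat_lit 78) (nat_lit 0) (nat_lit 0) (XT.lf (nat_lit 912) (nat_lit 3215385264) (nat_lit 0) (nat_lit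 745979521) (nat_lit 836) (nat_lit 745979521) (nat_lit 422) (nat_lit 1) (nat_lit 410) (nat_lit 1) (nat_lit 421) (nat_lit 1) (nat_lit 367) (nat_lit 404) (nat_lit 369)) (XT.lf (nat_lit 76) (nat_lit 1330318516) (nat_lit 0) (nat_lit 2005473854) (nat_lit 912) (nat_lit 1330318516) (nat_lit 411) (nat_lit 1) (nat_lit 410) (nat_lit 1) (nat_lit 422) (nat_lit 1) (nat_lit 368) (nat_lit 404) (nat_lit 368)))) (XT.nd (nat_lit 78) (nat_lit 760) (nat_lit 0) (XT.lf (nat_lit 912) (nat_lit 2103572309) (nat_lit 0) (nat_lit 1260927475) (nat_lit 836) (nat_lit 1260927475) (nat_lit 411) (nat_lit 1) (nat_lit 399) (nat_lit 1) (nat_lit 410) (nat_lit 1) (nat_lit 369) (nat_lit 404) (nat_lit 367)) (XT.nd (nat_lit 78) (nat_lit 760) (nat_lit 0) (XT.lf (nat_lit 76) (nat_lit 771749741) (nat_lit 0) (nat_lit 3041768716) (nat_lit 912) (nat_lit 771749741) (nat_lit 400) (nat_lit 1) (nat_lit 399) (nat_lit 1) (nat_lit 411) (nat_lit 1) (nat_lit 370) (nat_lit 404) (nat_lit 366))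 (XT.lf (nat_lit 836) (nat_lit 974396838) (nat_lit 0) (nat_lit 1785553672) (nat_lit 760) (nat_lit 1785553672) (nat_lit 400) (nat_lit 1) (nat_lit 389) (nat_lit 1) (nat_lit 399) (nat_lit 1) (nat_lit 371) (nat_lit 404) (nat_lit 365))))) (XT.nd (nat_lit 234) (nat_lit 760) (nat_lit 0) (XT.nd (nat_lit 78) (nat_lit 1596) (nat_lit 0) (XT.lf (nat_lit 76) (nat_lit 205000055) (nat_lit 0) (nat_lit 4096393214) (nat_lit 836) (nat_lit 205000055) (nat_lit 390) (nat_lit 1) (nat_lit 389) (nat_lit 1) (nat_lit 400) (nat_lit 1) (nat_lit 372) (nat_lit 404) (nat_lit 364)) (XT.nd (nat_lit 78) (nat_lit 760) (nat_lit 0) (XT.lf (nat_lit 76) (nat_lit 2149726044) (nat_lit 0) (nat_lit 168046716) (nat_lit 836) (nat_lit 2149726044) (nat_lit 379) (nat_lit 1) (nat_lit 378) (nat_lit 1) (nat_lit 389) (nat_lit 1) (nat_lit 373) (nat_lit 404) (nat_lit 363)) (XT.lf (nat_lit 836) (nat_lit 3696041797) (nat_lit 0) (nat_lit 366599353) (nat_lit 760) (nat_lit 366599353) (nat_lit 379)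 (nat_lit 1) (nat_lit 368) (nat_lit 1) (nat_lit 378) (nat_lit 1) (nat_lit 374) (nat_lit 404) (nat_lit 362)))) (XT.nd (nat_lit 78) (nat_lit 760) (nat_lit 0) (XT.lf (nat_lit 76) (nat_lit 1539992991) (nat_lit 0) (nat_lit 1311266438) (nat_lit 836) (nat_lit 1539992991) (nat_lit 369) (nat_lit 1) (nat_lit 368) (nat_lit 1) (nat_lit 379) (nat_lit 1) (nat_lit 375) (nat_lit 404) (nat_lit 361)) (XT.nd (nat_lit 78) (nat_lit 0) (nat_lit 0) (XT.lf (nat_lit 836) (nat_lit 2467382939) (nat_lit 0) (nat_lit 943228555) (nat_lit 760) (nat_lit 943228555) (nat_lit 369) (nat_lit 1) (nat_lit 358) (nat_lit 1) (nat_lit 368) (nat_lit 1) (nat_lit 376) (nat_lit 404) (nat_lit 360)) (XT.lf (nat_lit 76) (nat_lit 925225718) (nat_lit 0) (nat_lit 2466389421) (nat_lit 836) (nat_lit 925225718) (nat_lit 359) (nat_lit 1) (nat_lit 358) (nat_lit 1) (nat_lit 369) (nat_lit 1) (nat_lit 377) (nat_lit 404) (nat_lit 359)))))) (XT.nd (nat_lit 468) (nat_lit 1900) (nat_lit 0) (XT.nd (nat_lit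 234) (nat_lit 1368) (nat_lit 0) (XT.nd (nat_lit 78) (nat_lit 760) (nat_lit 0) (XT.lf (nat_lit 760) (nat_lit 1229390385) (nat_lit 0) (nat_lit 1525429297) (nat_lit 684) (nat_lit 1525429297) (nat_lit 359) (nat_lit 1) (nat_lit 349) (nat_lit 1) (nat_lit 358) (nat_lit 1) (nat_lit 378) (nat_lit 404) (nat_lit 358)) (XT.nd (nat_lit 78) (nat_lit 760) (nat_lit 0) (XT.lf (nat_lit 76) (nat_lit 306182671) (nat_lit 0) (nat_lit 3631849605) (nat_lit 760) (nat_lit 306182671) (nat_lit 350) (nat_lit 1) (nat_lit 349) (nat_lit 1) (nat_lit 359) (nat_lit 1) (nat_lit 379) (nat_lit 404) (nat_lit 357)) (XT.lf (nat_lit 76) (nat_lit 2096088857) (nat_lit 0) (nat_lit 16239108) (nat_lit 760) (nat_lit 2096088857) (nat_lit 340) (nat_lit 1) (nat_lit 339) (nat_lit 1) (nat_lit 349) (nat_lit 1) (nat_lit 380) (nat_lit 404) (nat_lit 356)))) (XT.nd (nat_lit 78) (nat_lit 684) (nat_lit 0) (XT.lf (nat_lit 760) (nat_lit 3544489091) (nat_lit 0) (nat_lit 314336499) (nat_lit 684) (nat_lit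 314336499) (nat_lit 340) (nat_lit 1) (nat_lit 330) (nat_lit 1) (nat_lit 339) (nat_lit 1) (nat_lit 381) (nat_lit 404) (nat_lit 355)) (XT.nd (nat_lit 78) (nat_lit 684) (nat_lit 0) (XT.lf (nat_lit 76) (nat_lit 1443013402) (nat_lit 0) (nat_lit 1252111554) (nat_lit 760) (nat_lit 1443013402) (nat_lit 331) (nat_lit 1) (nat_lit 330) (nat_lit 1) (nat_lit 340) (nat_lit 1) (nat_lit 382) (nat_lit 404) (nat_lit 354)) (XT.lf (nat_lit 760) (nat_lit 2232237969) (nat_lit 0) (nat_lit 935700940) (nat_lit 684) (nat_lit 935700940) (nat_lit 331) (nat_lit 1) (nat_lit 321) (nat_lit 1) (nat_lit 330) (nat_lit 1) (nat_lit 383) (nat_lit 404) (nat_lit 353))))) (XT.nd (nat_lit 234) (nat_lit 1292) (nat_lit 0) (XT.nd (nat_lit 78) (nat_lit 608) (nat_lit 0) (XT.lf (nat_lit 76) (nat_lit 788242744) (nat_lit 0) (nat_lit 2493042428) (nat_lit 760) (nat_lit 788242744) (nat_lit 322) (nat_lit 1) (nat_lit 321) (nat_lit 1) (nat_lit 331) (nat_lit 1) (nat_lit 384) (nat_lit 404) (nat_lit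 352)) (XT.nd (nat_lit 78) (nat_lit 0) (nat_lit 0) (XT.lf (nat_lit 684) (nat_lit 917189306) (nat_lit 0) (nat_lit 1559286970) (nat_lit 608) (nat_lit 1559286970) (nat_lit 322) (nat_lit 1) (nat_lit 313) (nat_lit 1) (nat_lit 321) (nat_lit 1) (nat_lit 385) (nat_lit 404) (nat_lit 351)) (XT.lf (nat_lit 76) (nat_lit 132373199) (nat_lit 0) (nat_lit 3737795131) (nat_lit 684) (nat_lit 132373199) (nat_lit 314) (nat_lit 1) (nat_lit 313) (nat_lit 1) (nat_lit 322) (nat_lit 1) (nat_lit 386) (nat_lit 404) (nat_lit 350)))) (XT.nd (nat_lit 78) (nat_lit 608) (nat_lit 0) (XT.lf (nat_lit 76) (nat_lit 1787591169) (nat_lit 0) (nat_lit 394254830) (nat_lit 684) (nat_lit 1787591169) (nat_lit 305) (nat_lit 1) (nat_lit 304) (nat_lit 1) (nat_lit 313) (nat_lit 1) (nat_lit 387) (nat_lit 404) (nat_lit 349)) (XT.nd (nat_lit 78) (nat_lit 0) (nat_lit 0) (XT.lf (nat_lit 684) (nat_lit 2895693633) (nat_lit 0) (nat_lit 520584894) (nat_lit 608) (nat_lit 520584894) (nat_lit 305)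 (nat_lit 1) (nat_lit 296) (nat_lit 1) (nat_lit 304) (nat_lit 1) (nat_lit 388) (nat_lit 404) (nat_lit 348)) (XT.lf (nat_lit 76) (nat_lit 1105175728) (nat_lit 0) (nat_lit 1694200904) (nat_lit 684) (nat_lit 1105175728) (nat_lit 297) (nat_lit 1) (nat_lit 296) (nat_lit 1) (nat_lit 305) (nat_lit 1) (nat_lit 389) (nat_lit 404) (nat_lit 347))))))) (XT.nd (nat_lit 936) (nat_lit 3876) (nat_lit 0) (XT.nd (nat_lit 468) (nat_lit 1672) (nat_lit 0) (XT.nd (nat_lit 234) (nat_lit 1216) (nat_lit 0) (XT.nd (nat_lit 78) (nat_lit 532) (nat_lit 0) (XT.lf (nat_lit 684) (nat_lit 1527301303) (nat_lit 0) (nat_lit 1172677497) (nat_lit 608) (nat_lit 1172677497) (nat_lit 297) (nat_lit 1) (nat_lit 288) (nat_lit 1) (nat_lit 296) (nat_lit 1) (nat_lit 390) (nat_lit 404) (nat_lit 346)) (XT.nd (nat_lit 78) (nat_lit 532) (nat_lit 0) (XT.lf (nat_lit 76) (nat_lit 423764856) (nat_lit 0) (nat_lit 2993657613) (nat_lit 684) (nat_lit 423764856) (nat_lit 289) (nat_lit 1) (nat_lit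 288) (nat_lit 1) (nat_lit 297) (nat_lit 1) (nat_lit 391) (nat_lit 404) (nat_lit 345)) (XT.lf (nat_lit 608) (nat_lit 161391860) (nat_lit 0) (nat_lit 1824278676) (nat_lit 532) (nat_lit 1824278676) (nat_lit 289) (nat_lit 1) (nat_lit 281) (nat_lit 1) (nat_lit 288) (nat_lit 1) (nat_lit 392) (nat_lit 404) (nat_lit 344)))) (XT.nd (nat_lit 78) (nat_lit 532) (nat_lit 0) (XT.lf (nat_lit 684) (nat_lit 3270178811) (nat_lit 0) (nat_lit 254495166) (nat_lit 608) (nat_lit 254495166) (nat_lit 281) (nat_lit 1) (nat_lit 272) (nat_lit 1) (nat_lit 280) (nat_lit 1) (nat_lit 393) (nat_lit 404) (nat_lit 343)) (XT.nd (nat_lit 78) (nat_lit 532) (nat_lit 0) (XT.lf (nat_lit 76) (nat_lit 1281581324) (nat_lit 0) (nat_lit 1185384766) (nat_lit 684) (nat_lit 1281581324) (nat_lit 273) (nat_lit 1) (nat_lit 272) (nat_lit 1) (nat_lit 281) (nat_lit 1) (nat_lit 394) (nat_lit 404) (nat_lit 342)) (XT.lf (nat_lit 608) (nat_lit 1862210966) (nat_lit 0) (nat_lit 928081117) (nat_lit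 532) (nat_lit 928081117) (nat_lit 273) (nat_lit 1) (nat_lit 265) (nat_lit 1) (nat_lit 272) (nat_lit 1) (nat_lit 395) (nat_lit 404) (nat_lit 341))))) (XT.nd (nat_lit 234) (nat_lit 532) (nat_lit 0) (XT.nd (nat_lit 78) (nat_lit 1140) (nat_lit 0) (XT.lf (nat_lit 76) (nat_lit 581335455) (nat_lit 0) (nat_lit 2525877912) (nat_lit 608) (nat_lit 581335455) (nat_lit 266) (nat_lit 1) (nat_lit 265) (nat_lit 1) (nat_lit 273) (nat_lit 1) (nat_lit 396) (nat_lit 404) (nat_lit 340)) (XT.nd (nat_lit 78) (nat_lit 608) (nat_lit 0) (XT.lf (nat_lit 608) (nat_lit 460229708) (nat_lit 0) (nat_lit 1599376846) (nat_lit 532) (nat_lit 1599376846) (nat_lit 266) (nat_lit 1) (nat_lit 258) (nat_lit 1) (nat_lit 265) (nat_lit 1) (nat_lit 397) (nat_lit 404) (nat_lit 339)) (XT.lf (nat_lit 608) (nat_lit 3399914529) (nat_lit 0) (nat_lit 114981540) (nat_lit 532) (nat_lit 114981540) (nat_lit 258) (nat_lit 1) (nat_lit 250) (nat_lit 1) (nat_lit 257) (nat_lit 1) (nat_lit 398) (nat_lit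 404) (nat_lit 338)))) (XT.nd (nat_lit 78) (nat_lit 532) (nat_lit 0) (XT.lf (nat_lit 76) (nat_lit 1339031452) (nat_lit 0) (nat_lit 922779536) (nat_lit 608) (nat_lit 1339031452) (nat_lit 251) (nat_lit 1) (nat_lit 250) (nat_lit 1) (nat_lit 258) (nat_lit 1) (nat_lit 399) (nat_lit 404) (nat_lit 337)) (XT.nd (nat_lit 78) (nat_lit 0) (nat_lit 0) (XT.lf (nat_lit 608) (nat_lit 1964294315) (nat_lit 0) (nat_lit 803981618) (nat_lit 532) (nat_lit 803981618) (nat_lit 251) (nat_lit 1) (nat_lit 243) (nat_lit 1) (nat_lit 250) (nat_lit 1) (nat_lit 400) (nat_lit 404) (nat_lit 336)) (XT.lf (nat_lit 76) (nat_lit 625756308) (nat_lit 0) (nat_lit 2292465462) (nat_lit 608) (nat_lit 625756308) (nat_lit 244) (nat_lit 1) (nat_lit 243) (nat_lit 1) (nat_lit 251) (nat_lit 1) (nat_lit 401) (nat_lit 404) (nat_lit 335)))))) (XT.nd (nat_lit 468) (nat_lit 1900) (nat_lit 0) (XT.nd (nat_lit 234) (nat_lit 912) (nat_lit 0) (XT.nd (nat_lit 78) (nat_lit 608) (nat_lit 0) (XT.lf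 (nat_lit 532) (nat_lit 537625021) (nat_lit 0) (nat_lit 1489166180) (nat_lit 456) (nat_lit 1489166180) (nat_lit 244) (nat_lit 1) (nat_lit 237) (nat_lit 1) (nat_lit 243) (nat_lit 1) (nat_lit 402) (nat_lit 404) (nat_lit 334)) (XT.nd (nat_lit 78) (nat_lit 0) (nat_lit 0) (XT.lf (nat_lit 608) (nat_lit 3323638833) (nat_lit 0) (nat_lit 82367127) (nat_lit 532) (nat_lit 82367127) (nat_lit 237) (nat_lit 1) (nat_lit 229) (nat_lit 1) (nat_lit 236) (nat_lit 1) (nat_lit 403) (nat_lit 404) (nat_lit 333)) (XT.lf (nat_lit 76) (nat_lit 1296420688) (nat_lit 0) (nat_lit 867988253) (nat_lit 608) (nat_lit 1296420688) (nat_lit 230) (nat_lit 1) (nat_lit 229) (nat_lit 1) (nat_lit 237) (nat_lit 1) (nat_lit 404) (nat_lit 404) (nat_lit 332)))) (XT.nd (nat_lit 78) (nat_lit 456) (nat_lit 0) (XT.lf (nat_lit 532) (nat_lit 1870662835) (nat_lit 0) (nat_lit 781525719) (nat_lit 456) (nat_lit 781525719) (nat_lit 230) (nat_lit 1) (nat_lit 223) (nat_lit 1) (nat_lit 229) (nat_lit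 1) (nat_lit 405) (nat_lit 404) (nat_lit 331)) (XT.nd (nat_lit 78) (nat_lit 456) (nat_lit 0) (XT.lf (nat_lit 76) (nat_lit 575128080) (nat_lit 0) (nat_lit 2256631518) (nat_lit 532) (nat_lit 575128080) (nat_lit 224) (nat_lit 1) (nat_lit 223) (nat_lit 1) (nat_lit 230) (nat_lit 1) (nat_lit 406) (nat_lit 404) (nat_lit 330)) (XT.lf (nat_lit 532) (nat_lit 429128847) (nat_lit 0) (nat_lit 1475583572) (nat_lit 456) (nat_lit 1475583572) (nat_lit 224) (nat_lit 1) (nat_lit 217) (nat_lit 1) (nat_lit 223) (nat_lit 1) (nat_lit 407) (nat_lit 404) (nat_lit 329))))) (XT.nd (nat_lit 234) (nat_lit 912) (nat_lit 0) (XT.nd (nat_lit 78) (nat_lit 456) (nat_lit 0) (XT.lf (nat_lit 532) (nat_lit 3075242930) (nat_lit 0) (nat_lit 139426956) (nat_lit 456) (nat_lit 139426956) (nat_lit 217) (nat_lit 1) (nat_lit 210) (nat_lit 1) (nat_lit 216) (nat_lit 1) (nat_lit 408) (nat_lit 404) (nat_lit 328)) (XT.nd (nat_lit 78) (nat_lit 456) (nat_lit 0) (XT.lf (nat_lit 76) (nat_lit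 1170277006) (nat_lit 0) (nat_lit 987403427) (nat_lit 532) (nat_lit 1170277006) (nat_lit 211) (nat_lit 1) (nat_lit 210) (nat_lit 1) (nat_lit 217) (nat_lit 1) (nat_lit 409) (nat_lit 404) (nat_lit 327)) (XT.lf (nat_lit 532) (nat_lit 1613774685) (nat_lit 0) (nat_lit 844214258) (nat_lit 456) (nat_lit 844214258) (nat_lit 211) (nat_lit 1) (nat_lit 204) (nat_lit 1) (nat_lit 210) (nat_lit 1) (nat_lit 410) (nat_lit 404) (nat_lit 326)))) (XT.nd (nat_lit 156) (nat_lit 532) (nat_lit 0) (XT.nd (nat_lit 78) (nat_lit 380) (nat_lit 0) (XT.lf (nat_lit 76) (nat_lit 445279341) (nat_lit 0) (nat_lit 2386185710) (nat_lit 532) (nat_lit 445279341) (nat_lit 205) (nat_lit 1) (nat_lit 204) (nat_lit 1) (nat_lit 211) (nat_lit 1) (nat_lit 411) (nat_lit 404) (nat_lit 325)) (XT.lf (nat_lit 456) (nat_lit 165824797) (nat_lit 0) (nat_lit 1542826083) (nat_lit 380) (nat_lit 1542826083) (nat_lit 205) (nat_lit 1) (nat_lit 199) (nat_lit 1) (nat_lit 204) (nat_lit 1) (nat_lit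 412) (nat_lit 404) (nat_lit 324))) (XT.nd (nat_lit 78) (nat_lit 0) (nat_lit 0) (XT.lf (nat_lit 532) (nat_lit 2684335187) (nat_lit 0) (nat_lit 271103014) (nat_lit 456) (nat_lit 271103014) (nat_lit 199) (nat_lit 1) (nat_lit 192) (nat_lit 1) (nat_lit 198) (nat_lit 1) (nat_lit 413) (nat_lit 404) (nat_lit 323)) (XT.lf (nat_lit 76) (nat_lit 975037260) (nat_lit 0) (nat_lit 1251650205) (nat_lit 532) (nat_lit 975037260) (nat_lit 193) (nat_lit 1) (nat_lit 192) (nat_lit 1) (nat_lit 199) (nat_lit 1) (nat_lit 414) (nat_lit 404) (nat_lit 322))))))))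
noncomputable def ec56 : XT := (XT.nd (nat_lit 53430) (nat_lit 0) (nat_lit 21812) (XT.nd (nat_lit 936) (nat_lit 304) (nat_lit 0) (XT.nd (nat_lit 468) (nat_lit 1520) (nat_lit 0) (XT.nd (nat_lit 234) (nat_lit 760) (nat_lit 0) (XT.nd (nat_lit 78) (nat_lit 456) (nat_lit 0) (XT.lf (nat_lit 456) (nat_lit 1221976582) (nat_lit 0) (nat_lit 977628394) (nat_lit 380) (nat_lit 977628394) (nat_lit 193) (nat_lit 1) (nat_lit 187) (nat_lit 1) (nat_lit 192) (nat_lit 1) (nat_lit 415) (nat_lit 404) (nat_lit 321)) (XT.nd (nat_lit 78) (nat_lit 456) (nat_lit 0) (XT.lf (nat_lit 76) (nat_lit 250031256) (nat_lit 0) (nat_lit 2653001049) (nat_lit 456) (nat_lit 250031256) (nat_lit 188) (nat_lit 1) (nat_lit 187) (nat_lit 1) (nat_lit 193) (nat_lit 1) (nat_lit 416) (nat_lit 404) (nat_lit 320)) (XT.lf (nat_lit 76) (nat_lit 1453399377) (nat_lit 0) (nat_lit 222197444) (nat_lit 456) (nat_lit 1453399377) (nat_lit 182) (nat_lit 1) (nat_lit 181) (nat_lit 1) (nat_lit 187) (nat_lit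 1) (nat_lit 417) (nat_lit 404) (nat_lit 319)))) (XT.nd (nat_lit 78) (nat_lit 380) (nat_lit 0) (XT.lf (nat_lit 456) (nat_lit 2176741106) (nat_lit 0) (nat_lit 464251613) (nat_lit 380) (nat_lit 464251613) (nat_lit 182) (nat_lit 1) (nat_lit 176) (nat_lit 1) (nat_lit 181) (nat_lit 1) (nat_lit 418) (nat_lit 404) (nat_lit 318)) (XT.nd (nat_lit 78) (nat_lit 380) (nat_lit 0) (XT.lf (nat_lit 76) (nat_lit 723291404) (nat_lit 0) (nat_lit 1635092724) (nat_lit 456) (nat_lit 723291404) (nat_lit 177) (nat_lit 1) (nat_lit 176) (nat_lit 1) (nat_lit 182) (nat_lit 1) (nat_lit 419) (nat_lit 404) (nat_lit 317)) (XT.lf (nat_lit 456) (nat_lit 719984150) (nat_lit 0) (nat_lit 1169186894) (nat_lit 380) (nat_lit 1169186894) (nat_lit 177) (nat_lit 1) (nat_lit 171) (nat_lit 1) (nat_lit 176) (nat_lit 1) (nat_lit 420) (nat_lit 404) (nat_lit 316))))) (XT.nd (nat_lit 234) (nat_lit 760) (nat_lit 0) (XT.nd (nat_lit 78) (nat_lit 760) (nat_lit 0) (XT.lf (nat_lit 76) (nat_lit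 1432209) (nat_lit 0) (nat_lit 3032539644) (nat_lit 456) (nat_lit 1432209) (nat_lit 172) (nat_lit 1) (nat_lit 171) (nat_lit 1) (nat_lit 177) (nat_lit 1) (nat_lit 421) (nat_lit 404) (nat_lit 315)) (XT.nd (nat_lit 78) (nat_lit 380) (nat_lit 0) (XT.lf (nat_lit 76) (nat_lit 1150857662) (nat_lit 0) (nat_lit 710700229) (nat_lit 380) (nat_lit 1150857662) (nat_lit 167) (nat_lit 1) (nat_lit 166) (nat_lit 1) (nat_lit 171) (nat_lit 1) (nat_lit 422) (nat_lit 404) (nat_lit 314)) (XT.lf (nat_lit 456) (nat_lit 1574946470) (nat_lit 0) (nat_lit 707419458) (nat_lit 380) (nat_lit 707419458) (nat_lit 167) (nat_lit 1) (nat_lit 161) (nat_lit 1) (nat_lit 166) (nat_lit 1) (nat_lit 423) (nat_lit 404) (nat_lit 313)))) (XT.nd (nat_lit 78) (nat_lit 760) (nat_lit 0) (XT.lf (nat_lit 76) (nat_lit 425998938) (nat_lit 0) (nat_lit 2115396562) (nat_lit 456) (nat_lit 425998938) (nat_lit 162) (nat_lit 1) (nat_lit 161) (nat_lit 1) (nat_lit 167) (nat_lit 1) (nat_lit 424) (nat_lit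 404) (nat_lit 312)) (XT.nd (nat_lit 78) (nat_lit 456) (nat_lit 0) (XT.lf (nat_lit 380) (nat_lit 129307664) (nat_lit 0) (nat_lit 1407930990) (nat_lit 304) (nat_lit 1407930990) (nat_lit 162) (nat_lit 1) (nat_lit 157) (nat_lit 1) (nat_lit 161) (nat_lit 1) (nat_lit 425) (nat_lit 404) (nat_lit 311)) (XT.lf (nat_lit 456) (nat_lit 2346960432) (nat_lit 0) (nat_lit 288126127) (nat_lit 380) (nat_lit 288126127) (nat_lit 157) (nat_lit 1) (nat_lit 151) (nat_lit 1) (nat_lit 156) (nat_lit 1) (nat_lit 426) (nat_lit 404) (nat_lit 310)))))) (XT.nd (nat_lit 52026) (nat_lit 0) (nat_lit 26676) (XT.nd (nat_lit 51792) (nat_lit 0) (nat_lit 26600) (XT.nd (nat_lit 78) (nat_lit 304) (nat_lit 0) (XT.lf (nat_lit 76) (nat_lit 809905993) (nat_lit 0) (nat_lit 1281553048) (nat_lit 456) (nat_lit 809905993) (nat_lit 152) (nat_lit 1) (nat_lit 151) (nat_lit 1) (nat_lit 157) (nat_lit 1) (nat_lit 427) (nat_lit 404) (nat_lit 309)) (XT.nd (nat_lit 78) (nat_lit 0) (nat_lit 0)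 (XT.lf (nat_lit 380) (nat_lit 898490083) (nat_lit 0) (nat_lit 990645183) (nat_lit 304) (nat_lit 990645183) (nat_lit 152) (nat_lit 1) (nat_lit 147) (nat_lit 1) (nat_lit 151) (nat_lit 1) (nat_lit 428) (nat_lit 404) (nat_lit 308)) (XT.lf (nat_lit 76) (nat_lit 92680740) (nat_lit 0) (nat_lit 2673140937) (nat_lit 380) (nat_lit 92680740) (nat_lit 148) (nat_lit 1) (nat_lit 147) (nat_lit 1) (nat_lit 152) (nat_lit 1) (nat_lit 429) (nat_lit 404) (nat_lit 307)))) (XT.nd (nat_lit 78) (nat_lit 0) (nat_lit 0) (XT.lf (nat_lit 1900) (nat_lit 1106597410) (nat_lit 0) (nat_lit 1115851138) (nat_lit 1900) (nat_lit 1106597410) (nat_lit 522) (nat_lit 1) (nat_lit 497) (nat_lit 0) (nat_lit 522) (nat_lit 0) (nat_lit 330) (nat_lit 405) (nat_lit 405)) (XT.nd (nat_lit 78) (nat_lit 0) (nat_lit 76) (XT.lf (nat_lit 1900) (nat_lit 4375652537) (nat_lit 76) (nat_lit 1108510012) (nat_lit 0) (nat_lit 1108510012) (nat_lit 522) (nat_lit 1) (nat_lit 498) (nat_lit 1) (nat_lit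 497) (nat_lit 0) (nat_lit 331) (nat_lit 405) (nat_lit 404)) (XT.lf (nat_lit 1900) (nat_lit 2148466224) (nat_lit 0) (nat_lit 2231035298) (nat_lit 1824) (nat_lit 2148466224) (nat_lit 523) (nat_lit 1) (nat_lit 498) (nat_lit 1) (nat_lit 522) (nat_lit 1) (nat_lit 332) (nat_lit 405) (nat_lit 403))))) (XT.nd (nat_lit 234) (nat_lit 0) (nat_lit 152) (XT.nd (nat_lit 78) (nat_lit 0) (nat_lit 76) (XT.lf (nat_lit 1900) (nat_lit 4205078026) (nat_lit 76) (nat_lit 1129582912) (nat_lit 0) (nat_lit 1129582912) (nat_lit 523) (nat_lit 1) (nat_lit 499) (nat_lit 1) (nat_lit 498) (nat_lit 1) (nat_lit 333) (nat_lit 405) (nat_lit 402)) (XT.nd (nat_lit 78) (nat_lit 0) (nat_lit 0) (XT.lf (nat_lit 1900) (nat_lit 2043588236) (nat_lit 0) (nat_lit 2314046929) (nat_lit 1824) (nat_lit 2043588236) (nat_lit 524) (nat_lit 1) (nat_lit 499) (nat_lit 1) (nat_lit 523) (nat_lit 1) (nat_lit 334) (nat_lit 405) (nat_lit 401)) (XT.lf (nat_lit 1900) (nat_lit 3956362722) (nat_lit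 76) (nat_lit 1191388708) (nat_lit 0) (nat_lit 1191388708) (nat_lit 524) (nat_lit 1) (nat_lit 500) (nat_lit 1) (nat_lit 499) (nat_lit 1) (nat_lit 335) (nat_lit 405) (nat_lit 400)))) (XT.nd (nat_lit 78) (nat_lit 0) (nat_lit 0) (XT.lf (nat_lit 1900) (nat_lit 1900956434) (nat_lit 0) (nat_lit 2475847578) (nat_lit 1824) (nat_lit 1900956434) (nat_lit 525) (nat_lit 1) (nat_lit 500) (nat_lit 1) (nat_lit 524) (nat_lit 1) (nat_lit 336) (nat_lit 405) (nat_lit 399)) (XT.nd (nat_lit 78) (nat_lit 0) (nat_lit 76) (XT.lf (nat_lit 1900) (nat_lit 3634202973) (nat_lit 76) (nat_lit 1291530962) (nat_lit 0) (nat_lit 1291530962) (nat_lit 525) (nat_lit 1) (nat_lit 501) (nat_lit 1) (nat_lit 500) (nat_lit 1) (nat_lit 337) (nat_lit 405) (nat_lit 398)) (XT.lf (nat_lit 1900) (nat_lit 1722856968) (nat_lit 0) (nat_lit 2711769684) (nat_lit 1824) (nat_lit 1722856968) (nat_lit 526) (nat_lit 1) (nat_lit 501) (nat_lit 1) (nat_lit 525) (nat_lit 1) (nat_lit 338) (nat_lit 405)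 (nat_lit 397))))))) (XT.nd (nat_lit 936) (nat_lit 5092) (nat_lit 0) (XT.nd (nat_lit 468) (nat_lit 0) (nat_lit 228) (XT.nd (nat_lit 234) (nat_lit 0) (nat_lit 152) (XT.nd (nat_lit 78) (nat_lit 0) (nat_lit 76) (XT.lf (nat_lit 1900) (nat_lit 3243080175) (nat_lit 76) (nat_lit 1427722268) (nat_lit 0) (nat_lit 1427722268) (nat_lit 526) (nat_lit 1) (nat_lit 502) (nat_lit 1) (nat_lit 501) (nat_lit 1) (nat_lit 339) (nat_lit 405) (nat_lit 396)) (XT.nd (nat_lit 78) (nat_lit 0) (nat_lit 0) (XT.lf (nat_lit 1900) (nat_lit 1511471135) (nat_lit 0) (nat_lit 3017358463) (nat_lit 1824) (nat_lit 1511471135) (nat_lit 527) (nat_lit 1) (nat_lit 502) (nat_lit 1) (nat_lit 526) (nat_lit 1) (nat_lit 340) (nat_lit 405) (nat_lit 395)) (XT.lf (nat_lit 1900) (nat_lit 2787269755) (nat_lit 76) (nat_lit 1597779706) (nat_lit 0) (nat_lit 1597779706) (nat_lit 527) (nat_lit 1) (nat_lit 503) (nat_lit 1) (nat_lit 502) (nat_lit 1) (nat_lit 341) (nat_lit 405) (nat_lit 394))))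 (XT.nd (nat_lit 78) (nat_lit 0) (nat_lit 0) (XT.lf (nat_lit 1900) (nat_lit 1268879764) (nat_lit 0) (nat_lit 3388363031) (nat_lit 1824) (nat_lit 1268879764) (nat_lit 528) (nat_lit 1) (nat_lit 503) (nat_lit 1) (nat_lit 527) (nat_lit 1) (nat_lit 342) (nat_lit 405) (nat_lit 393)) (XT.nd (nat_lit 78) (nat_lit 0) (nat_lit 76) (XT.lf (nat_lit 1900) (nat_lit 2270849796) (nat_lit 76) (nat_lit 1799620476) (nat_lit 0) (nat_lit 1799620476) (nat_lit 528) (nat_lit 1) (nat_lit 504) (nat_lit 1) (nat_lit 503) (nat_lit 1) (nat_lit 343) (nat_lit 405) (nat_lit 392)) (XT.lf (nat_lit 1900) (nat_lit 997067424) (nat_lit 0) (nat_lit 3820727876) (nat_lit 1824) (nat_lit 997067424) (nat_lit 529) (nat_lit 1) (nat_lit 504) (nat_lit 1) (nat_lit 528) (nat_lit 1) (nat_lit 344) (nat_lit 405) (nat_lit 391))))) (XT.nd (nat_lit 234) (nat_lit 0) (nat_lit 152) (XT.nd (nat_lit 78) (nat_lit 0) (nat_lit 76) (XT.lf (nat_lit 1900) (nat_lit 1697709316) (nat_lit 76) (nat_lit 2031257708)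 (nat_lit 0) (nat_lit 2031257708) (nat_lit 529) (nat_lit 1) (nat_lit 505) (nat_lit 1) (nat_lit 504) (nat_lit 1) (nat_lit 345) (nat_lit 405) (nat_lit 390)) (XT.nd (nat_lit 78) (nat_lit 0) (nat_lit 0) (XT.lf (nat_lit 1900) (nat_lit 697926471) (nat_lit 0) (nat_lit 4310584679) (nat_lit 1824) (nat_lit 697926471) (nat_lit 530) (nat_lit 1) (nat_lit 505) (nat_lit 1) (nat_lit 529) (nat_lit 1) (nat_lit 346) (nat_lit 405) (nat_lit 389)) (XT.lf (nat_lit 1900) (nat_lit 1071556209) (nat_lit 76) (nat_lit 2290796443) (nat_lit 0) (nat_lit 2290796443) (nat_lit 530) (nat_lit 1) (nat_lit 506) (nat_lit 1) (nat_lit 505) (nat_lit 1) (nat_lit 347) (nat_lit 405) (nat_lit 388)))) (XT.nd (nat_lit 78) (nat_lit 0) (nat_lit 0) (XT.lf (nat_lit 1900) (nat_lit 373260919) (nat_lit 0) (nat_lit 4854244463) (nat_lit 1824) (nat_lit 373260919) (nat_lit 531) (nat_lit 1) (nat_lit 506) (nat_lit 1) (nat_lit 530) (nat_lit 1) (nat_lit 348) (nat_lit 405) (nat_lit 387)) (XT.nd (nat_lit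 78) (nat_lit 0) (nat_lit 76) (XT.lf (nat_lit 1900) (nat_lit 395924871) (nat_lit 76) (nat_lit 2576429777) (nat_lit 0) (nat_lit 2576429777) (nat_lit 531) (nat_lit 1) (nat_lit 507) (nat_lit 1) (nat_lit 506) (nat_lit 1) (nat_lit 349) (nat_lit 405) (nat_lit 386)) (XT.lf (nat_lit 1900) (nat_lit 24790167) (nat_lit 0) (nat_lit 5448190057) (nat_lit 1824) (nat_lit 24790167) (nat_lit 532) (nat_lit 1) (nat_lit 507) (nat_lit 1) (nat_lit 531) (nat_lit 1) (nat_lit 350) (nat_lit 405) (nat_lit 385)))))) (XT.nd (nat_lit 468) (nat_lit 2660) (nat_lit 0) (XT.nd (nat_lit 234) (nat_lit 988) (nat_lit 0) (XT.nd (nat_lit 78) (nat_lit 0) (nat_lit 0) (XT.lf (nat_lit 1976) (nat_lit 2562734084) (nat_lit 0) (nat_lit 321543345) (nat_lit 1900) (nat_lit 2562734084) (nat_lit 508) (nat_lit 1) (nat_lit 482) (nat_lit 1) (nat_lit 507) (nat_lit 1) (nat_lit 351) (nat_lit 405) (nat_lit 384)) (XT.nd (nat_lit 78) (nat_lit 0) (nat_lit 76) (XT.lf (nat_lit 1976) (nat_lit 4710049525)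 (nat_lit 76) (nat_lit 343572118) (nat_lit 0) (nat_lit 343572118) (nat_lit 508) (nat_lit 1) (nat_lit 483) (nat_lit 1) (nat_lit 482) (nat_lit 1) (nat_lit 352) (nat_lit 405) (nat_lit 383)) (XT.lf (nat_lit 1976) (nat_lit 2135791982) (nat_lit 0) (nat_lit 1076157251) (nat_lit 1900) (nat_lit 2135791982) (nat_lit 509) (nat_lit 1) (nat_lit 483) (nat_lit 1) (nat_lit 508) (nat_lit 1) (nat_lit 353) (nat_lit 405) (nat_lit 382)))) (XT.nd (nat_lit 78) (nat_lit 1064) (nat_lit 0) (XT.lf (nat_lit 1976) (nat_lit 3834635784) (nat_lit 76) (nat_lit 732241858) (nat_lit 0) (nat_lit 732241858) (nat_lit 509) (nat_lit 1) (nat_lit 484) (nat_lit 1) (nat_lit 483) (nat_lit 1) (nat_lit 354) (nat_lit 405) (nat_lit 381)) (XT.nd (nat_lit 78) (nat_lit 1140) (nat_lit 0) (XT.lf (nat_lit 76) (nat_lit 1690430138) (nat_lit 0) (nat_lit 1870092938) (nat_lit 1900) (nat_lit 1690430138) (nat_lit 485) (nat_lit 1) (nat_lit 484) (nat_lit 1) (nat_lit 509) (nat_lit 1) (nat_lit 355) (nat_lit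 405) (nat_lit 380)) (XT.lf (nat_lit 1216) (nat_lit 2923679086) (nat_lit 0) (nat_lit 1139905520) (nat_lit 1140) (nat_lit 1139905520) (nat_lit 485) (nat_lit 1) (nat_lit 469) (nat_lit 1) (nat_lit 484) (nat_lit 1) (nat_lit 356) (nat_lit 405) (nat_lit 379))))) (XT.nd (nat_lit 234) (nat_lit 1748) (nat_lit 0) (XT.nd (nat_lit 78) (nat_lit 912) (nat_lit 0) (XT.lf (nat_lit 76) (nat_lit 1228050059) (nat_lit 0) (nat_lit 2700477917) (nat_lit 1216) (nat_lit 1228050059) (nat_lit 470) (nat_lit 1) (nat_lit 469) (nat_lit 1) (nat_lit 485) (nat_lit 1) (nat_lit 357) (nat_lit 405) (nat_lit 378)) (XT.nd (nat_lit 78) (nat_lit 0) (nat_lit 0) (XT.lf (nat_lit 988) (nat_lit 1979923065) (nat_lit 0) (nat_lit 1565157183) (nat_lit 912) (nat_lit 1565157183) (nat_lit 470) (nat_lit 1) (nat_lit 457) (nat_lit 1) (nat_lit 469) (nat_lit 1) (nat_lit 358) (nat_lit 405) (nat_lit 377)) (XT.lf (nat_lit 76) (nat_lit 749985371) (nat_lit 0) (nat_lit 3564577626) (nat_lit 988) (nat_lit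 749985371) (nat_lit 458) (nat_lit 1) (nat_lit 457) (nat_lit 1) (nat_lit 470) (nat_lit 1) (nat_lit 359) (nat_lit 405) (nat_lit 376)))) (XT.nd (nat_lit 78) (nat_lit 836) (nat_lit 0) (XT.lf (nat_lit 988) (nat_lit 1005978081) (nat_lit 0) (nat_lit 2006658630) (nat_lit 912) (nat_lit 2006658630) (nat_lit 458) (nat_lit 1) (nat_lit 445) (nat_lit 1) (nat_lit 457) (nat_lit 1) (nat_lit 360) (nat_lit 405) (nat_lit 375)) (XT.nd (nat_lit 78) (nat_lit 836) (nat_lit 0) (XT.lf (nat_lit 76) (nat_lit 257504722) (nat_lit 0) (nat_lit 4459789555) (nat_lit 988) (nat_lit 257504722) (nat_lit 446) (nat_lit 1) (nat_lit 445) (nat_lit 1) (nat_lit 458) (nat_lit 1) (nat_lit 361) (nat_lit 405) (nat_lit 374)) (XT.lf (nat_lit 912) (nat_lit 4326922) (nat_lit 0) (nat_lit 2463136452) (nat_lit 836) (nat_lit 2463136452) (nat_lit 446) (nat_lit 1) (nat_lit 434) (nat_lit 1) (nat_lit 445) (nat_lit 1) (nat_lit 362) (nat_lit 405) (nat_lit 373))))))))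
noncomputable def ec57 : XT := (XT.nd (nat_lit 1872) (nat_lit 7904) (nat_lit 0) (XT.nd (nat_lit 936) (nat_lit 4712) (nat_lit 0) (XT.nd (nat_lit 468) (nat_lit 3116) (nat_lit 0) (XT.nd (nat_lit 234) (nat_lit 836) (nat_lit 0) (XT.nd (nat_lit 78) (nat_lit 836) (nat_lit 0) (XT.lf (nat_lit 988) (nat_lit 4394032125) (nat_lit 0) (nat_lit 246552636) (nat_lit 912) (nat_lit 246552636) (nat_lit 434) (nat_lit 1) (nat_lit 421) (nat_lit 1) (nat_lit 433) (nat_lit 1) (nat_lit 363) (nat_lit 405) (nat_lit 372)) (XT.nd (nat_lit 78) (nat_lit 836) (nat_lit 0) (XT.lf (nat_lit 76) (nat_lit 1917349406) (nat_lit 0) (nat_lit 1009257233) (nat_lit 988) (nat_lit 1917349406) (nat_lit 422) (nat_lit 1) (nat_lit 421) (nat_lit 1) (nat_lit 434) (nat_lit 1) (nat_lit 364) (nat_lit 405) (nat_lit 371)) (XT.lf (nat_lit 912) (nat_lit 3279692969) (nat_lit 0) (nat_lit 760899111) (nat_lit 836) (nat_lit 760899111) (nat_lit 422) (nat_lit 1) (nat_lit 410) (nat_lit 1) (nat_lit 421)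 (nat_lit 1) (nat_lit 365) (nat_lit 405) (nat_lit 370)))) (XT.nd (nat_lit 78) (nat_lit 836) (nat_lit 0) (XT.lf (nat_lit 76) (nat_lit 1356924886) (nat_lit 0) (nat_lit 2045583331) (nat_lit 912) (nat_lit 1356924886) (nat_lit 411) (nat_lit 1) (nat_lit 410) (nat_lit 1) (nat_lit 422) (nat_lit 1) (nat_lit 366) (nat_lit 405) (nat_lit 369)) (XT.nd (nat_lit 78) (nat_lit 0) (nat_lit 0) (XT.lf (nat_lit 912) (nat_lit 2145643755) (nat_lit 0) (nat_lit 1286146025) (nat_lit 836) (nat_lit 1286146025) (nat_lit 411) (nat_lit 1) (nat_lit 399) (nat_lit 1) (nat_lit 410) (nat_lit 1) (nat_lit 367) (nat_lit 405) (nat_lit 368)) (XT.lf (nat_lit 76) (nat_lit 787184735) (nat_lit 0) (nat_lit 3102604090) (nat_lit 912) (nat_lit 787184735) (nat_lit 400) (nat_lit 1) (nat_lit 399) (nat_lit 1) (nat_lit 411) (nat_lit 1) (nat_lit 368) (nat_lit 405) (nat_lit 367))))) (XT.nd (nat_lit 234) (nat_lit 1520) (nat_lit 0) (XT.nd (nat_lit 78) (nat_lit 836) (nat_lit 0) (XT.lf (nat_lit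 836) (nat_lit 993884775) (nat_lit 0) (nat_lit 1821264745) (nat_lit 760) (nat_lit 1821264745) (nat_lit 400) (nat_lit 1) (nat_lit 389) (nat_lit 1) (nat_lit 399) (nat_lit 1) (nat_lit 369) (nat_lit 405) (nat_lit 366)) (XT.nd (nat_lit 78) (nat_lit 836) (nat_lit 0) (XT.lf (nat_lit 76) (nat_lit 209100056) (nat_lit 0) (nat_lit 4178321078) (nat_lit 836) (nat_lit 209100056) (nat_lit 390) (nat_lit 1) (nat_lit 389) (nat_lit 1) (nat_lit 400) (nat_lit 1) (nat_lit 370) (nat_lit 405) (nat_lit 365)) (XT.lf (nat_lit 76) (nat_lit 2192720565) (nat_lit 0) (nat_lit 171407651) (nat_lit 836) (nat_lit 2192720565) (nat_lit 379) (nat_lit 1) (nat_lit 378) (nat_lit 1) (nat_lit 389) (nat_lit 1) (nat_lit 371) (nat_lit 405) (nat_lit 364)))) (XT.nd (nat_lit 78) (nat_lit 760) (nat_lit 0) (XT.lf (nat_lit 836) (nat_lit 3769962633) (nat_lit 0) (nat_lit 373931340) (nat_lit 760) (nat_lit 373931340) (nat_lit 379) (nat_lit 1) (nat_lit 368) (nat_lit 1) (nat_lit 378) (nat_lit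 1) (nat_lit 372) (nat_lit 405) (nat_lit 363)) (XT.nd (nat_lit 78) (nat_lit 760) (nat_lit 0) (XT.lf (nat_lit 76) (nat_lit 1570792850) (nat_lit 0) (nat_lit 1337491767) (nat_lit 836) (nat_lit 1570792850) (nat_lit 369) (nat_lit 1) (nat_lit 368) (nat_lit 1) (nat_lit 379) (nat_lit 1) (nat_lit 373) (nat_lit 405) (nat_lit 362)) (XT.lf (nat_lit 836) (nat_lit 2516730598) (nat_lit 0) (nat_lit 962093126) (nat_lit 760) (nat_lit 962093126) (nat_lit 369) (nat_lit 1) (nat_lit 358) (nat_lit 1) (nat_lit 368) (nat_lit 1) (nat_lit 374) (nat_lit 405) (nat_lit 361)))))) (XT.nd (nat_lit 468) (nat_lit 2584) (nat_lit 0) (XT.nd (nat_lit 234) (nat_lit 1444) (nat_lit 0) (XT.nd (nat_lit 78) (nat_lit 684) (nat_lit 0) (XT.lf (nat_lit 76) (nat_lit 943730233) (nat_lit 0) (nat_lit 2515717209) (nat_lit 836) (nat_lit 943730233) (nat_lit 359) (nat_lit 1) (nat_lit 358) (nat_lit 1) (nat_lit 369) (nat_lit 1) (nat_lit 375) (nat_lit 405) (nat_lit 360)) (XT.nd (nat_lit 78) (nat_lit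 0) (nat_lit 0) (XT.lf (nat_lit 760) (nat_lit 1253978192) (nat_lit 0) (nat_lit 1555937883) (nat_lit 684) (nat_lit 1555937883) (nat_lit 359) (nat_lit 1) (nat_lit 349) (nat_lit 1) (nat_lit 358) (nat_lit 1) (nat_lit 376) (nat_lit 405) (nat_lit 359)) (XT.lf (nat_lit 76) (nat_lit 312306324) (nat_lit 0) (nat_lit 3704486597) (nat_lit 760) (nat_lit 312306324) (nat_lit 350) (nat_lit 1) (nat_lit 349) (nat_lit 1) (nat_lit 359) (nat_lit 1) (nat_lit 377) (nat_lit 405) (nat_lit 358)))) (XT.nd (nat_lit 78) (nat_lit 684) (nat_lit 0) (XT.lf (nat_lit 76) (nat_lit 2138010634) (nat_lit 0) (nat_lit 16563890) (nat_lit 760) (nat_lit 2138010634) (nat_lit 340) (nat_lit 1) (nat_lit 339) (nat_lit 1) (nat_lit 349) (nat_lit 1) (nat_lit 378) (nat_lit 405) (nat_lit 357)) (XT.nd (nat_lit 78) (nat_lit 0) (nat_lit 0) (XT.lf (nat_lit 760) (nat_lit 3615378872) (nat_lit 0) (nat_lit 320623229) (nat_lit 684) (nat_lit 320623229) (nat_lit 340) (nat_lit 1) (nat_lit 330) (nat_lit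 1) (nat_lit 339) (nat_lit 1) (nat_lit 379) (nat_lit 405) (nat_lit 356)) (XT.lf (nat_lit 76) (nat_lit 1471873671) (nat_lit 0) (nat_lit 1277153785) (nat_lit 760) (nat_lit 1471873671) (nat_lit 331) (nat_lit 1) (nat_lit 330) (nat_lit 1) (nat_lit 340) (nat_lit 1) (nat_lit 380) (nat_lit 405) (nat_lit 355))))) (XT.nd (nat_lit 234) (nat_lit 1292) (nat_lit 0) (XT.nd (nat_lit 78) (nat_lit 608) (nat_lit 0) (XT.lf (nat_lit 760) (nat_lit 2276882729) (nat_lit 0) (nat_lit 954414959) (nat_lit 684) (nat_lit 954414959) (nat_lit 331) (nat_lit 1) (nat_lit 321) (nat_lit 1) (nat_lit 330) (nat_lit 1) (nat_lit 381) (nat_lit 405) (nat_lit 354)) (XT.nd (nat_lit 78) (nat_lit 608) (nat_lit 0) (XT.lf (nat_lit 76) (nat_lit 804007599) (nat_lit 0) (nat_lit 2542903277) (nat_lit 760) (nat_lit 804007599) (nat_lit 322) (nat_lit 1) (nat_lit 321) (nat_lit 1) (nat_lit 331) (nat_lit 1) (nat_lit 382) (nat_lit 405) (nat_lit 353)) (XT.lf (nat_lit 684) (nat_lit 935533092) (nat_lit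 0) (nat_lit 1590472709) (nat_lit 608) (nat_lit 1590472709) (nat_lit 322) (nat_lit 1) (nat_lit 313) (nat_lit 1) (nat_lit 321) (nat_lit 1) (nat_lit 383) (nat_lit 405) (nat_lit 352)))) (XT.nd (nat_lit 78) (nat_lit 1292) (nat_lit 0) (XT.lf (nat_lit 76) (nat_lit 135020663) (nat_lit 0) (nat_lit 3812551033) (nat_lit 684) (nat_lit 135020663) (nat_lit 314) (nat_lit 1) (nat_lit 313) (nat_lit 1) (nat_lit 322) (nat_lit 1) (nat_lit 384) (nat_lit 405) (nat_lit 351)) (XT.nd (nat_lit 78) (nat_lit 608) (nat_lit 0) (XT.lf (nat_lit 76) (nat_lit 1823342993) (nat_lit 0) (nat_lit 402139926) (nat_lit 684) (nat_lit 1823342993) (nat_lit 305) (nat_lit 1) (nat_lit 304) (nat_lit 1) (nat_lit 313) (nat_lit 1) (nat_lit 385) (nat_lit 405) (nat_lit 350)) (XT.lf (nat_lit 684) (nat_lit 2953607506) (nat_lit 0) (nat_lit 530996592) (nat_lit 608) (nat_lit 530996592) (nat_lit 305) (nat_lit 1) (nat_lit 296) (nat_lit 1) (nat_lit 304) (nat_lit 1) (nat_lit 386) (nat_lit 405) (nat_lit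 349))))))) (XT.nd (nat_lit 936) (nat_lit 3876) (nat_lit 0) (XT.nd (nat_lit 468) (nat_lit 2204) (nat_lit 0) (XT.nd (nat_lit 234) (nat_lit 1216) (nat_lit 0) (XT.nd (nat_lit 78) (nat_lit 608) (nat_lit 0) (XT.lf (nat_lit 76) (nat_lit 1127279243) (nat_lit 0) (nat_lit 1728084922) (nat_lit 684) (nat_lit 1127279243) (nat_lit 297) (nat_lit 1) (nat_lit 296) (nat_lit 1) (nat_lit 305) (nat_lit 1) (nat_lit 387) (nat_lit 405) (nat_lit 348)) (XT.nd (nat_lit 78) (nat_lit 0) (nat_lit 0) (XT.lf (nat_lit 684) (nat_lit 1557847329) (nat_lit 0) (nat_lit 1196131047) (nat_lit 608) (nat_lit 1196131047) (nat_lit 297) (nat_lit 1) (nat_lit 288) (nat_lit 1) (nat_lit 296) (nat_lit 1) (nat_lit 388) (nat_lit 405) (nat_lit 347)) (XT.lf (nat_lit 76) (nat_lit 432240153) (nat_lit 0) (nat_lit 3053530765) (nat_lit 684) (nat_lit 432240153) (nat_lit 289) (nat_lit 1) (nat_lit 288) (nat_lit 1) (nat_lit 297) (nat_lit 1) (nat_lit 389) (nat_lit 405) (nat_lit 346)))) (XT.nd (nat_lit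 78) (nat_lit 684) (nat_lit 0) (XT.lf (nat_lit 608) (nat_lit 164619697) (nat_lit 0) (nat_lit 1860764249) (nat_lit 532) (nat_lit 1860764249) (nat_lit 289) (nat_lit 1) (nat_lit 281) (nat_lit 1) (nat_lit 288) (nat_lit 1) (nat_lit 390) (nat_lit 405) (nat_lit 345)) (XT.nd (nat_lit 78) (nat_lit 0) (nat_lit 0) (XT.lf (nat_lit 684) (nat_lit 3335582387) (nat_lit 0) (nat_lit 259585069) (nat_lit 608) (nat_lit 259585069) (nat_lit 281) (nat_lit 1) (nat_lit 272) (nat_lit 1) (nat_lit 280) (nat_lit 1) (nat_lit 391) (nat_lit 405) (nat_lit 344)) (XT.lf (nat_lit 76) (nat_lit 1307212951) (nat_lit 0) (nat_lit 1209092461) (nat_lit 684) (nat_lit 1307212951) (nat_lit 273) (nat_lit 1) (nat_lit 272) (nat_lit 1) (nat_lit 281) (nat_lit 1) (nat_lit 392) (nat_lit 405) (nat_lit 343))))) (XT.nd (nat_lit 234) (nat_lit 1140) (nat_lit 0) (XT.nd (nat_lit 78) (nat_lit 532) (nat_lit 0) (XT.lf (nat_lit 608) (nat_lit 1899455185) (nat_lit 0) (nat_lit 946642739) (nat_lit 532)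 (nat_lit 946642739) (nat_lit 273) (nat_lit 1) (nat_lit 265) (nat_lit 1) (nat_lit 272) (nat_lit 1) (nat_lit 393) (nat_lit 405) (nat_lit 342)) (XT.nd (nat_lit 78) (nat_lit 532) (nat_lit 0) (XT.lf (nat_lit 76) (nat_lit 592962164) (nat_lit 0) (nat_lit 2576395470) (nat_lit 608) (nat_lit 592962164) (nat_lit 266) (nat_lit 1) (nat_lit 265) (nat_lit 1) (nat_lit 273) (nat_lit 1) (nat_lit 394) (nat_lit 405) (nat_lit 341)) (XT.lf (nat_lit 608) (nat_lit 469434302) (nat_lit 0) (nat_lit 1631364383) (nat_lit 532) (nat_lit 1631364383) (nat_lit 266) (nat_lit 1) (nat_lit 258) (nat_lit 1) (nat_lit 265) (nat_lit 1) (nat_lit 395) (nat_lit 405) (nat_lit 340)))) (XT.nd (nat_lit 78) (nat_lit 532) (nat_lit 0) (XT.lf (nat_lit 608) (nat_lit 3467912819) (nat_lit 0) (nat_lit 117281171) (nat_lit 532) (nat_lit 117281171) (nat_lit 258) (nat_lit 1) (nat_lit 250) (nat_lit 1) (nat_lit 257) (nat_lit 1) (nat_lit 396) (nat_lit 405) (nat_lit 339)) (XT.nd (nat_lit 78) (nat_lit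 532) (nat_lit 0) (XT.lf (nat_lit 76) (nat_lit 1365812081) (nat_lit 0) (nat_lit 941235127) (nat_lit 608) (nat_lit 1365812081) (nat_lit 251) (nat_lit 1) (nat_lit 250) (nat_lit 1) (nat_lit 258) (nat_lit 1) (nat_lit 397) (nat_lit 405) (nat_lit 338)) (XT.lf (nat_lit 608) (nat_lit 2003580201) (nat_lit 0) (nat_lit 820061250) (nat_lit 532) (nat_lit 820061250) (nat_lit 251) (nat_lit 1) (nat_lit 243) (nat_lit 1) (nat_lit 250) (nat_lit 1) (nat_lit 398) (nat_lit 405) (nat_lit 337)))))) (XT.nd (nat_lit 468) (nat_lit 2356) (nat_lit 0) (XT.nd (nat_lit 234) (nat_lit 456) (nat_lit 0) (XT.nd (nat_lit 78) (nat_lit 1064) (nat_lit 0) (XT.lf (nat_lit 76) (nat_lit 638271434) (nat_lit 0) (nat_lit 2338314772) (nat_lit 608) (nat_lit 638271434) (nat_lit 244) (nat_lit 1) (nat_lit 243) (nat_lit 1) (nat_lit 251) (nat_lit 1) (nat_lit 399) (nat_lit 405) (nat_lit 336)) (XT.nd (nat_lit 78) (nat_lit 608) (nat_lit 0) (XT.lf (nat_lit 532) (nat_lit 548377521) (nat_lit 0)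 (nat_lit 1518949504) (nat_lit 456) (nat_lit 1518949504) (nat_lit 244) (nat_lit 1) (nat_lit 237) (nat_lit 1) (nat_lit 243) (nat_lit 1) (nat_lit 400) (nat_lit 405) (nat_lit 335)) (XT.lf (nat_lit 608) (nat_lit 3390111609) (nat_lit 0) (nat_lit 84014469) (nat_lit 532) (nat_lit 84014469) (nat_lit 237) (nat_lit 1) (nat_lit 229) (nat_lit 1) (nat_lit 236) (nat_lit 1) (nat_lit 401) (nat_lit 405) (nat_lit 334)))) (XT.nd (nat_lit 78) (nat_lit 456) (nat_lit 0) (XT.lf (nat_lit 76) (nat_lit 1322349102) (nat_lit 0) (nat_lit 885348018) (nat_lit 608) (nat_lit 1322349102) (nat_lit 230) (nat_lit 1) (nat_lit 229) (nat_lit 1) (nat_lit 237) (nat_lit 1) (nat_lit 402) (nat_lit 405) (nat_lit 333)) (XT.nd (nat_lit 78) (nat_lit 0) (nat_lit 0) (XT.lf (nat_lit 532) (nat_lit 1908076092) (nat_lit 0) (nat_lit 797156233) (nat_lit 456) (nat_lit 797156233) (nat_lit 230) (nat_lit 1) (nat_lit 223) (nat_lit 1) (nat_lit 229) (nat_lit 1) (nat_lit 403) (nat_lit 405) (nat_lit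 332)) (XT.lf (nat_lit 76) (nat_lit 586630642) (nat_lit 0) (nat_lit 2301764148) (nat_lit 532) (nat_lit 586630642) (nat_lit 224) (nat_lit 1) (nat_lit 223) (nat_lit 1) (nat_lit 230) (nat_lit 1) (nat_lit 404) (nat_lit 405) (nat_lit 331))))) (XT.nd (nat_lit 234) (nat_lit 1368) (nat_lit 0) (XT.nd (nat_lit 78) (nat_lit 532) (nat_lit 0) (XT.lf (nat_lit 532) (nat_lit 437711424) (nat_lit 0) (nat_lit 1505095243) (nat_lit 456) (nat_lit 1505095243) (nat_lit 224) (nat_lit 1) (nat_lit 217) (nat_lit 1) (nat_lit 223) (nat_lit 1) (nat_lit 405) (nat_lit 405) (nat_lit 330)) (XT.nd (nat_lit 78) (nat_lit 0) (nat_lit 0) (XT.lf (nat_lit 532) (nat_lit 3136747788) (nat_lit 0) (nat_lit 142215495) (nat_lit 456) (nat_lit 142215495) (nat_lit 217) (nat_lit 1) (nat_lit 210) (nat_lit 1) (nat_lit 216) (nat_lit 1) (nat_lit 406) (nat_lit 405) (nat_lit 329)) (XT.lf (nat_lit 76) (nat_lit 1193682546) (nat_lit 0) (nat_lit 1007151496) (nat_lit 532) (nat_lit 1193682546) (nat_lit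 211) (nat_lit 1) (nat_lit 210) (nat_lit 1) (nat_lit 217) (nat_lit 1) (nat_lit 407) (nat_lit 405) (nat_lit 328)))) (XT.nd (nat_lit 156) (nat_lit 912) (nat_lit 0) (XT.nd (nat_lit 78) (nat_lit 0) (nat_lit 0) (XT.lf (nat_lit 532) (nat_lit 1646050179) (nat_lit 0) (nat_lit 861098543) (nat_lit 456) (nat_lit 861098543) (nat_lit 211) (nat_lit 1) (nat_lit 204) (nat_lit 1) (nat_lit 210) (nat_lit 1) (nat_lit 408) (nat_lit 405) (nat_lit 327)) (XT.lf (nat_lit 76) (nat_lit 454184928) (nat_lit 0) (nat_lit 2433909425) (nat_lit 532) (nat_lit 454184928) (nat_lit 205) (nat_lit 1) (nat_lit 204) (nat_lit 1) (nat_lit 211) (nat_lit 1) (nat_lit 409) (nat_lit 405) (nat_lit 326))) (XT.nd (nat_lit 78) (nat_lit 532) (nat_lit 0) (XT.lf (nat_lit 456) (nat_lit 169141293) (nat_lit 0) (nat_lit 1573682604) (nat_lit 380) (nat_lit 1573682604) (nat_lit 205) (nat_lit 1) (nat_lit 199) (nat_lit 1) (nat_lit 204) (nat_lit 1) (nat_lit 410) (nat_lit 405) (nat_lit 325)) (XT.lf (nat_lit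 532) (nat_lit 2738021891) (nat_lit 0) (nat_lit 276525075) (nat_lit 456) (nat_lit 276525075) (nat_lit 199) (nat_lit 1) (nat_lit 192) (nat_lit 1) (nat_lit 198) (nat_lit 1) (nat_lit 411) (nat_lit 405) (nat_lit 324))))))))
noncomputable def ec58 : XT := (XT.nd (nat_lit 53352) (nat_lit 0) (nat_lit 23028) (XT.nd (nat_lit 936) (nat_lit 1140) (nat_lit 0) (XT.nd (nat_lit 468) (nat_lit 1444) (nat_lit 0) (XT.nd (nat_lit 234) (nat_lit 836) (nat_lit 0) (XT.nd (nat_lit 78) (nat_lit 380) (nat_lit 0) (XT.lf (nat_lit 76) (nat_lit 994538006) (nat_lit 0) (nat_lit 1276683209) (nat_lit 532) (nat_lit 994538006) (nat_lit 193) (nat_lit 1) (nat_lit 192) (nat_lit 1) (nat_lit 199) (nat_lit 1) (nat_lit 412) (nat_lit 405) (nat_lit 323)) (XT.nd (nat_lit 78) (nat_lit 0) (nat_lit 0) (XT.lf (nat_lit 456) (nat_lit 1246416114) (nat_lit 0) (nat_lit 997180962) (nat_lit 380) (nat_lit 997180962) (nat_lit 193) (nat_lit 1) (nat_lit 187) (nat_lit 1) (nat_lit 192) (nat_lit 1)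 (nat_lit 413) (nat_lit 405) (nat_lit 322)) (XT.lf (nat_lit 76) (nat_lit 255031881) (nat_lit 0) (nat_lit 2706061070) (nat_lit 456) (nat_lit 255031881) (nat_lit 188) (nat_lit 1) (nat_lit 187) (nat_lit 1) (nat_lit 193) (nat_lit 1) (nat_lit 414) (nat_lit 405) (nat_lit 321)))) (XT.nd (nat_lit 78) (nat_lit 380) (nat_lit 0) (XT.lf (nat_lit 76) (nat_lit 1482467365) (nat_lit 0) (nat_lit 226641393) (nat_lit 456) (nat_lit 1482467365) (nat_lit 182) (nat_lit 1) (nat_lit 181) (nat_lit 1) (nat_lit 187) (nat_lit 1) (nat_lit 415) (nat_lit 405) (nat_lit 320)) (XT.nd (nat_lit 78) (nat_lit 0) (nat_lit 0) (XT.lf (nat_lit 456) (nat_lit 2220275928) (nat_lit 0) (nat_lit 473536646) (nat_lit 380) (nat_lit 473536646) (nat_lit 182) (nat_lit 1) (nat_lit 176) (nat_lit 1) (nat_lit 181) (nat_lit 1) (nat_lit 416) (nat_lit 405) (nat_lit 319)) (XT.lf (nat_lit 76) (nat_lit 737757232) (nat_lit 0) (nat_lit 1667794579) (nat_lit 456) (nat_lit 737757232) (nat_lit 177) (nat_lit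 1) (nat_lit 176) (nat_lit 1) (nat_lit 182) (nat_lit 1) (nat_lit 417) (nat_lit 405) (nat_lit 318))))) (XT.nd (nat_lit 234) (nat_lit 684) (nat_lit 0) (XT.nd (nat_lit 78) (nat_lit 380) (nat_lit 0) (XT.lf (nat_lit 456) (nat_lit 734383833) (nat_lit 0) (nat_lit 1192570632) (nat_lit 380) (nat_lit 1192570632) (nat_lit 177) (nat_lit 1) (nat_lit 171) (nat_lit 1) (nat_lit 176) (nat_lit 1) (nat_lit 418) (nat_lit 405) (nat_lit 317)) (XT.nd (nat_lit 78) (nat_lit 380) (nat_lit 0) (XT.lf (nat_lit 76) (nat_lit 1460853) (nat_lit 0) (nat_lit 3093190437) (nat_lit 456) (nat_lit 1460853) (nat_lit 172) (nat_lit 1) (nat_lit 171) (nat_lit 1) (nat_lit 177) (nat_lit 1) (nat_lit 419) (nat_lit 405) (nat_lit 316)) (XT.lf (nat_lit 76) (nat_lit 1173874815) (nat_lit 0) (nat_lit 724914233) (nat_lit 380) (nat_lit 1173874815) (nat_lit 167) (nat_lit 1) (nat_lit 166) (nat_lit 1) (nat_lit 171) (nat_lit 1) (nat_lit 420) (nat_lit 405) (nat_lit 315)))) (XT.nd (nat_lit 78) (nat_lit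 304) (nat_lit 0) (XT.lf (nat_lit 456) (nat_lit 1606445400) (nat_lit 0) (nat_lit 721567847) (nat_lit 380) (nat_lit 721567847) (nat_lit 167) (nat_lit 1) (nat_lit 161) (nat_lit 1) (nat_lit 166) (nat_lit 1) (nat_lit 421) (nat_lit 405) (nat_lit 314)) (XT.nd (nat_lit 78) (nat_lit 304) (nat_lit 0) (XT.lf (nat_lit 76) (nat_lit 434518917) (nat_lit 0) (nat_lit 2157704493) (nat_lit 456) (nat_lit 434518917) (nat_lit 162) (nat_lit 1) (nat_lit 161) (nat_lit 1) (nat_lit 167) (nat_lit 1) (nat_lit 422) (nat_lit 405) (nat_lit 313)) (XT.lf (nat_lit 380) (nat_lit 131893817) (nat_lit 0) (nat_lit 1436089610) (nat_lit 304) (nat_lit 1436089610) (nat_lit 162) (nat_lit 1) (nat_lit 157) (nat_lit 1) (nat_lit 161) (nat_lit 1) (nat_lit 423) (nat_lit 405) (nat_lit 312)))))) (XT.nd (nat_lit 51948) (nat_lit 0) (nat_lit 26980) (XT.nd (nat_lit 234) (nat_lit 380) (nat_lit 0) (XT.nd (nat_lit 78) (nat_lit 304) (nat_lit 0) (XT.lf (nat_lit 456) (nat_lit 2393899641) (nat_lit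 0) (nat_lit 293888649) (nat_lit 380) (nat_lit 293888649) (nat_lit 157) (nat_lit 1) (nat_lit 151) (nat_lit 1) (nat_lit 156) (nat_lit 1) (nat_lit 424) (nat_lit 405) (nat_lit 311)) (XT.nd (nat_lit 78) (nat_lit 304) (nat_lit 0) (XT.lf (nat_lit 76) (nat_lit 826104113) (nat_lit 0) (nat_lit 1307184109) (nat_lit 456) (nat_lit 826104113) (nat_lit 152) (nat_lit 1) (nat_lit 151) (nat_lit 1) (nat_lit 157) (nat_lit 1) (nat_lit 425) (nat_lit 405) (nat_lit 310)) (XT.lf (nat_lit 380) (nat_lit 916459885) (nat_lit 0) (nat_lit 1010458086) (nat_lit 304) (nat_lit 1010458086) (nat_lit 152) (nat_lit 1) (nat_lit 147) (nat_lit 1) (nat_lit 151) (nat_lit 1) (nat_lit 426) (nat_lit 405) (nat_lit 309)))) (XT.nd (nat_lit 78) (nat_lit 380) (nat_lit 0) (XT.lf (nat_lit 76) (nat_lit 94534355) (nat_lit 0) (nat_lit 2726603756) (nat_lit 380) (nat_lit 94534355) (nat_lit 148) (nat_lit 1) (nat_lit 147) (nat_lit 1) (nat_lit 152) (nat_lit 1) (nat_lit 427) (nat_lit 405) (nat_lit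 308)) (XT.nd (nat_lit 51558) (nat_lit 0) (nat_lit 26980) (XT.lf (nat_lit 76) (nat_lit 1179541329) (nat_lit 0) (nat_lit 534889670) (nat_lit 380) (nat_lit 1179541329) (nat_lit 143) (nat_lit 1) (nat_lit 142) (nat_lit 1) (nat_lit 147) (nat_lit 1) (nat_lit 428) (nat_lit 405) (nat_lit 307)) (XT.lf (nat_lit 1900) (nat_lit 1128729358) (nat_lit 0) (nat_lit 1138168160) (nat_lit 1900) (nat_lit 1128729358) (nat_lit 522) (nat_lit 1) (nat_lit 497) (nat_lit 0) (nat_lit 522) (nat_lit 0) (nat_lit 328) (nat_lit 406) (nat_lit 406))))) (XT.nd (nat_lit 234) (nat_lit 0) (nat_lit 152) (XT.nd (nat_lit 78) (nat_lit 0) (nat_lit 76) (XT.lf (nat_lit 1900) (nat_lit 4463165588) (nat_lit 76) (nat_lit 1130680212) (nat_lit 0) (nat_lit 1130680212) (nat_lit 522) (nat_lit 1) (nat_lit 498) (nat_lit 1) (nat_lit 497) (nat_lit 0) (nat_lit 329) (nat_lit 406) (nat_lit 405)) (XT.nd (nat_lit 78) (nat_lit 0) (nat_lit 0) (XT.lf (nat_lit 1900) (nat_lit 2191435548) (nat_lit 0) (nat_lit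 2275656004) (nat_lit 1824) (nat_lit 2191435548) (nat_lit 523) (nat_lit 1) (nat_lit 498) (nat_lit 1) (nat_lit 522) (nat_lit 1) (nat_lit 330) (nat_lit 406) (nat_lit 404)) (XT.lf (nat_lit 1900) (nat_lit 4289179587) (nat_lit 76) (nat_lit 1152174571) (nat_lit 0) (nat_lit 1152174571) (nat_lit 523) (nat_lit 1) (nat_lit 499) (nat_lit 1) (nat_lit 498) (nat_lit 1) (nat_lit 331) (nat_lit 406) (nat_lit 403)))) (XT.nd (nat_lit 78) (nat_lit 0) (nat_lit 0) (XT.lf (nat_lit 1900) (nat_lit 2084460001) (nat_lit 0) (nat_lit 2360327868) (nat_lit 1824) (nat_lit 2084460001) (nat_lit 524) (nat_lit 1) (nat_lit 499) (nat_lit 1) (nat_lit 523) (nat_lit 1) (nat_lit 332) (nat_lit 406) (nat_lit 402)) (XT.nd (nat_lit 78) (nat_lit 0) (nat_lit 76) (XT.lf (nat_lit 1900) (nat_lit 4035489976) (nat_lit 76) (nat_lit 1215216482) (nat_lit 0) (nat_lit 1215216482) (nat_lit 524) (nat_lit 1) (nat_lit 500) (nat_lit 1) (nat_lit 499) (nat_lit 1) (nat_lit 333) (nat_lit 406) (nat_lit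 401)) (XT.lf (nat_lit 1900) (nat_lit 1938975563) (nat_lit 0) (nat_lit 2525364530) (nat_lit 1824) (nat_lit 1938975563) (nat_lit 525) (nat_lit 1) (nat_lit 500) (nat_lit 1) (nat_lit 524) (nat_lit 1) (nat_lit 334) (nat_lit 406) (nat_lit 400))))))) (XT.nd (nat_lit 936) (nat_lit 4180) (nat_lit 0) (XT.nd (nat_lit 468) (nat_lit 0) (nat_lit 228) (XT.nd (nat_lit 234) (nat_lit 0) (nat_lit 152) (XT.nd (nat_lit 78) (nat_lit 0) (nat_lit 76) (XT.lf (nat_lit 1900) (nat_lit 3706887032) (nat_lit 76) (nat_lit 1317361581) (nat_lit 0) (nat_lit 1317361581) (nat_lit 525) (nat_lit 1) (nat_lit 501) (nat_lit 1) (nat_lit 500) (nat_lit 1) (nat_lit 335) (nat_lit 406) (nat_lit 399)) (XT.nd (nat_lit 78) (nat_lit 0) (nat_lit 0) (XT.lf (nat_lit 1900) (nat_lit 1757314108) (nat_lit 0) (nat_lit 2766005078) (nat_lit 1824) (nat_lit 1757314108) (nat_lit 526) (nat_lit 1) (nat_lit 501) (nat_lit 1) (nat_lit 525) (nat_lit 1) (nat_lit 336) (nat_lit 406) (nat_lit 398)) (XT.lf (nat_lit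 1900) (nat_lit 3307941778) (nat_lit 76) (nat_lit 1456276714) (nat_lit 0) (nat_lit 1456276714) (nat_lit 526) (nat_lit 1) (nat_lit 502) (nat_lit 1) (nat_lit 501) (nat_lit 1) (nat_lit 337) (nat_lit 406) (nat_lit 397)))) (XT.nd (nat_lit 78) (nat_lit 0) (nat_lit 0) (XT.lf (nat_lit 1900) (nat_lit 1541700558) (nat_lit 0) (nat_lit 3077705633) (nat_lit 1824) (nat_lit 1541700558) (nat_lit 527) (nat_lit 1) (nat_lit 502) (nat_lit 1) (nat_lit 526) (nat_lit 1) (nat_lit 338) (nat_lit 406) (nat_lit 396)) (XT.nd (nat_lit 78) (nat_lit 0) (nat_lit 76) (XT.lf (nat_lit 1900) (nat_lit 2843015150) (nat_lit 76) (nat_lit 1629735301) (nat_lit 0) (nat_lit 1629735301) (nat_lit 527) (nat_lit 1) (nat_lit 503) (nat_lit 1) (nat_lit 502) (nat_lit 1) (nat_lit 339) (nat_lit 406) (nat_lit 395)) (XT.lf (nat_lit 1900) (nat_lit 1294257359) (nat_lit 0) (nat_lit 3456130292) (nat_lit 1824) (nat_lit 1294257359) (nat_lit 528) (nat_lit 1) (nat_lit 503) (nat_lit 1) (nat_lit 527)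 (nat_lit 1) (nat_lit 340) (nat_lit 406) (nat_lit 394))))) (XT.nd (nat_lit 234) (nat_lit 0) (nat_lit 152) (XT.nd (nat_lit 78) (nat_lit 0) (nat_lit 76) (XT.lf (nat_lit 1900) (nat_lit 2316266792) (nat_lit 76) (nat_lit 1835612885) (nat_lit 0) (nat_lit 1835612885) (nat_lit 528) (nat_lit 1) (nat_lit 504) (nat_lit 1) (nat_lit 503) (nat_lit 1) (nat_lit 341) (nat_lit 406) (nat_lit 393)) (XT.nd (nat_lit 78) (nat_lit 0) (nat_lit 0) (XT.lf (nat_lit 1900) (nat_lit 1017008772) (nat_lit 0) (nat_lit 3897142433) (nat_lit 1824) (nat_lit 1017008772) (nat_lit 529) (nat_lit 1) (nat_lit 504) (nat_lit 1) (nat_lit 528) (nat_lit 1) (nat_lit 342) (nat_lit 406) (nat_lit 392)) (XT.lf (nat_lit 1900) (nat_lit 1731663503) (nat_lit 76) (nat_lit 2071882862) (nat_lit 0) (nat_lit 2071882862) (nat_lit 529) (nat_lit 1) (nat_lit 505) (nat_lit 1) (nat_lit 504) (nat_lit 1) (nat_lit 343) (nat_lit 406) (nat_lit 391)))) (XT.nd (nat_lit 78) (nat_lit 0) (nat_lit 0) (XT.lf (nat_lit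 1900) (nat_lit 711885000) (nat_lit 0) (nat_lit 4396796372) (nat_lit 1824) (nat_lit 711885000) (nat_lit 530) (nat_lit 1) (nat_lit 505) (nat_lit 1) (nat_lit 529) (nat_lit 1) (nat_lit 344) (nat_lit 406) (nat_lit 390)) (XT.nd (nat_lit 78) (nat_lit 0) (nat_lit 76) (XT.lf (nat_lit 1900) (nat_lit 1092987334) (nat_lit 76) (nat_lit 2336612372) (nat_lit 0) (nat_lit 2336612372) (nat_lit 530) (nat_lit 1) (nat_lit 506) (nat_lit 1) (nat_lit 505) (nat_lit 1) (nat_lit 345) (nat_lit 406) (nat_lit 389)) (XT.lf (nat_lit 1900) (nat_lit 380726137) (nat_lit 0) (nat_lit 4951329352) (nat_lit 1824) (nat_lit 380726137) (nat_lit 531) (nat_lit 1) (nat_lit 506) (nat_lit 1) (nat_lit 530) (nat_lit 1) (nat_lit 346) (nat_lit 406) (nat_lit 388)))))) (XT.nd (nat_lit 468) (nat_lit 2812) (nat_lit 0) (XT.nd (nat_lit 234) (nat_lit 0) (nat_lit 0) (XT.nd (nat_lit 78) (nat_lit 1824) (nat_lit 0) (XT.lf (nat_lit 1900) (nat_lit 403843368) (nat_lit 76) (nat_lit 2627958373) (nat_lit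 0) (nat_lit 2627958373) (nat_lit 531) (nat_lit 1) (nat_lit 507) (nat_lit 1) (nat_lit 506) (nat_lit 1) (nat_lit 347) (nat_lit 406) (nat_lit 387)) (XT.nd (nat_lit 78) (nat_lit 1900) (nat_lit 0) (XT.lf (nat_lit 1900) (nat_lit 25285971) (nat_lit 0) (nat_lit 5557153858) (nat_lit 1824) (nat_lit 25285971) (nat_lit 532) (nat_lit 1) (nat_lit 507) (nat_lit 1) (nat_lit 531) (nat_lit 1) (nat_lit 348) (nat_lit 406) (nat_lit 386)) (XT.lf (nat_lit 1976) (nat_lit 2613988766) (nat_lit 0) (nat_lit 327974211) (nat_lit 1900) (nat_lit 2613988766) (nat_lit 508) (nat_lit 1) (nat_lit 482) (nat_lit 1) (nat_lit 507) (nat_lit 1) (nat_lit 349) (nat_lit 406) (nat_lit 385)))) (XT.nd (nat_lit 78) (nat_lit 0) (nat_lit 76) (XT.lf (nat_lit 1976) (nat_lit 4804250515) (nat_lit 76) (nat_lit 350443561) (nat_lit 0) (nat_lit 350443561) (nat_lit 508) (nat_lit 1) (nat_lit 483) (nat_lit 1) (nat_lit 482) (nat_lit 1) (nat_lit 350) (nat_lit 406) (nat_lit 384)) (XT.nd (nat_lit 78)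 (nat_lit 0) (nat_lit 0) (XT.lf (nat_lit 1976) (nat_lit 2178507821) (nat_lit 0) (nat_lit 1097680396) (nat_lit 1900) (nat_lit 2178507821) (nat_lit 509) (nat_lit 1) (nat_lit 483) (nat_lit 1) (nat_lit 508) (nat_lit 1) (nat_lit 351) (nat_lit 406) (nat_lit 383)) (XT.lf (nat_lit 1976) (nat_lit 3911328500) (nat_lit 76) (nat_lit 746886696) (nat_lit 0) (nat_lit 746886696) (nat_lit 509) (nat_lit 1) (nat_lit 484) (nat_lit 1) (nat_lit 483) (nat_lit 1) (nat_lit 352) (nat_lit 406) (nat_lit 382))))) (XT.nd (nat_lit 234) (nat_lit 1824) (nat_lit 0) (XT.nd (nat_lit 78) (nat_lit 1140) (nat_lit 0) (XT.lf (nat_lit 76) (nat_lit 1724238741) (nat_lit 0) (nat_lit 1907494797) (nat_lit 1900) (nat_lit 1724238741) (nat_lit 485) (nat_lit 1) (nat_lit 484) (nat_lit 1) (nat_lit 509) (nat_lit 1) (nat_lit 353) (nat_lit 406) (nat_lit 381)) (XT.nd (nat_lit 78) (nat_lit 0) (nat_lit 0) (XT.lf (nat_lit 1216) (nat_lit 2982152668) (nat_lit 0) (nat_lit 1162703630) (nat_lit 1140)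 (nat_lit 1162703630) (nat_lit 485) (nat_lit 1) (nat_lit 469) (nat_lit 1) (nat_lit 484) (nat_lit 1) (nat_lit 354) (nat_lit 406) (nat_lit 380)) (XT.lf (nat_lit 76) (nat_lit 1252611060) (nat_lit 0) (nat_lit 2754487475) (nat_lit 1216) (nat_lit 1252611060) (nat_lit 470) (nat_lit 1) (nat_lit 469) (nat_lit 1) (nat_lit 485) (nat_lit 1) (nat_lit 355) (nat_lit 406) (nat_lit 379)))) (XT.nd (nat_lit 78) (nat_lit 912) (nat_lit 0) (XT.lf (nat_lit 988) (nat_lit 2019521526) (nat_lit 0) (nat_lit 1596460327) (nat_lit 912) (nat_lit 1596460327) (nat_lit 470) (nat_lit 1) (nat_lit 457) (nat_lit 1) (nat_lit 469) (nat_lit 1) (nat_lit 356) (nat_lit 406) (nat_lit 378)) (XT.nd (nat_lit 78) (nat_lit 912) (nat_lit 0) (XT.lf (nat_lit 76) (nat_lit 764985078) (nat_lit 0) (nat_lit 3635869178) (nat_lit 988) (nat_lit 764985078) (nat_lit 458) (nat_lit 1) (nat_lit 457) (nat_lit 1) (nat_lit 470) (nat_lit 1) (nat_lit 357) (nat_lit 406) (nat_lit 377)) (XT.lf (nat_lit 988) (nat_lit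 1026097643) (nat_lit 0) (nat_lit 2046791803) (nat_lit 912) (nat_lit 2046791803) (nat_lit 458) (nat_lit 1) (nat_lit 445) (nat_lit 1) (nat_lit 457) (nat_lit 1) (nat_lit 358) (nat_lit 406) (nat_lit 376))))))))
noncomputable def ec59 : XT := (XT.nd (nat_lit 1872) (nat_lit 8284) (nat_lit 0) (XT.nd (nat_lit 936) (nat_lit 4180) (nat_lit 0) (XT.nd (nat_lit 468) (nat_lit 3192) (nat_lit 0) (XT.nd (nat_lit 234) (nat_lit 836) (nat_lit 0) (XT.nd (nat_lit 78) (nat_lit 1824) (nat_lit 0) (XT.lf (nat_lit 76) (nat_lit 262654816) (nat_lit 0) (nat_lit 4548985346) (nat_lit 988) (nat_lit 262654816) (nat_lit 446) (nat_lit 1) (nat_lit 445) (nat_lit 1) (nat_lit 458) (nat_lit 1) (nat_lit 359) (nat_lit 406) (nat_lit 375)) (XT.nd (nat_lit 78) (nat_lit 988) (nat_lit 0) (XT.lf (nat_lit 912) (nat_lit 4413460) (nat_lit 0) (nat_lit 2512399181) (nat_lit 836) (nat_lit 2512399181) (nat_lit 446) (nat_lit 1) (nat_lit 434) (nat_lit 1) (nat_lit 445) (nat_lit 1) (nat_lit 360)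 (nat_lit 406) (nat_lit 374)) (XT.lf (nat_lit 988) (nat_lit 4481912768) (nat_lit 0) (nat_lit 251483689) (nat_lit 912) (nat_lit 251483689) (nat_lit 434) (nat_lit 1) (nat_lit 421) (nat_lit 1) (nat_lit 433) (nat_lit 1) (nat_lit 361) (nat_lit 406) (nat_lit 373)))) (XT.nd (nat_lit 78) (nat_lit 836) (nat_lit 0) (XT.lf (nat_lit 76) (nat_lit 1955696394) (nat_lit 0) (nat_lit 1029442377) (nat_lit 988) (nat_lit 1955696394) (nat_lit 422) (nat_lit 1) (nat_lit 421) (nat_lit 1) (nat_lit 434) (nat_lit 1) (nat_lit 362) (nat_lit 406) (nat_lit 372)) (XT.nd (nat_lit 78) (nat_lit 0) (nat_lit 0) (XT.lf (nat_lit 912) (nat_lit 3345286828) (nat_lit 0) (nat_lit 776117093) (nat_lit 836) (nat_lit 776117093) (nat_lit 422) (nat_lit 1) (nat_lit 410) (nat_lit 1) (nat_lit 421) (nat_lit 1) (nat_lit 363) (nat_lit 406) (nat_lit 371)) (XT.lf (nat_lit 76) (nat_lit 1384063384) (nat_lit 0) (nat_lit 2086494998) (nat_lit 912) (nat_lit 1384063384) (nat_lit 411) (nat_lit 1) (nat_lit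 410) (nat_lit 1) (nat_lit 422) (nat_lit 1) (nat_lit 364) (nat_lit 406) (nat_lit 370))))) (XT.nd (nat_lit 234) (nat_lit 1596) (nat_lit 0) (XT.nd (nat_lit 78) (nat_lit 760) (nat_lit 0) (XT.lf (nat_lit 912) (nat_lit 2188556630) (nat_lit 0) (nat_lit 1311868945) (nat_lit 836) (nat_lit 1311868945) (nat_lit 411) (nat_lit 1) (nat_lit 399) (nat_lit 1) (nat_lit 410) (nat_lit 1) (nat_lit 365) (nat_lit 406) (nat_lit 369)) (XT.nd (nat_lit 78) (nat_lit 760) (nat_lit 0) (XT.lf (nat_lit 76) (nat_lit 802928430) (nat_lit 0) (nat_lit 3164656172) (nat_lit 912) (nat_lit 802928430) (nat_lit 400) (nat_lit 1) (nat_lit 399) (nat_lit 1) (nat_lit 411) (nat_lit 1) (nat_lit 366) (nat_lit 406) (nat_lit 368)) (XT.lf (nat_lit 836) (nat_lit 1013762470) (nat_lit 0) (nat_lit 1857690040) (nat_lit 760) (nat_lit 1857690040) (nat_lit 400) (nat_lit 1) (nat_lit 389) (nat_lit 1) (nat_lit 399) (nat_lit 1) (nat_lit 367) (nat_lit 406) (nat_lit 367)))) (XT.nd (nat_lit 78) (nat_lit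 1596) (nat_lit 0) (XT.lf (nat_lit 76) (nat_lit 213282057) (nat_lit 0) (nat_lit 4261887500) (nat_lit 836) (nat_lit 213282057) (nat_lit 390) (nat_lit 1) (nat_lit 389) (nat_lit 1) (nat_lit 400) (nat_lit 1) (nat_lit 368) (nat_lit 406) (nat_lit 366)) (XT.nd (nat_lit 78) (nat_lit 760) (nat_lit 0) (XT.lf (nat_lit 76) (nat_lit 2236574976) (nat_lit 0) (nat_lit 174835804) (nat_lit 836) (nat_lit 2236574976) (nat_lit 379) (nat_lit 1) (nat_lit 378) (nat_lit 1) (nat_lit 389) (nat_lit 1) (nat_lit 369) (nat_lit 406) (nat_lit 365)) (XT.lf (nat_lit 836) (nat_lit 3845361885) (nat_lit 0) (nat_lit 381409966) (nat_lit 760) (nat_lit 381409966) (nat_lit 379) (nat_lit 1) (nat_lit 368) (nat_lit 1) (nat_lit 378) (nat_lit 1) (nat_lit 370) (nat_lit 406) (nat_lit 364)))))) (XT.nd (nat_lit 468) (nat_lit 1976) (nat_lit 0) (XT.nd (nat_lit 234) (nat_lit 1444) (nat_lit 0) (XT.nd (nat_lit 78) (nat_lit 760) (nat_lit 0) (XT.lf (nat_lit 76) (nat_lit 1602208707) (nat_lit 0)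 (nat_lit 1364241603) (nat_lit 836) (nat_lit 1602208707) (nat_lit 369) (nat_lit 1) (nat_lit 368) (nat_lit 1) (nat_lit 379) (nat_lit 1) (nat_lit 371) (nat_lit 406) (nat_lit 363)) (XT.nd (nat_lit 78) (nat_lit 0) (nat_lit 0) (XT.lf (nat_lit 836) (nat_lit 2567065210) (nat_lit 0) (nat_lit 981334989) (nat_lit 760) (nat_lit 981334989) (nat_lit 369) (nat_lit 1) (nat_lit 358) (nat_lit 1) (nat_lit 368) (nat_lit 1) (nat_lit 372) (nat_lit 406) (nat_lit 362)) (XT.lf (nat_lit 76) (nat_lit 962604837) (nat_lit 0) (nat_lit 2566031554) (nat_lit 836) (nat_lit 962604837) (nat_lit 359) (nat_lit 1) (nat_lit 358) (nat_lit 1) (nat_lit 369) (nat_lit 1) (nat_lit 373) (nat_lit 406) (nat_lit 361)))) (XT.nd (nat_lit 78) (nat_lit 760) (nat_lit 0) (XT.lf (nat_lit 760) (nat_lit 1279057756) (nat_lit 0) (nat_lit 1587056640) (nat_lit 684) (nat_lit 1587056640) (nat_lit 359) (nat_lit 1) (nat_lit 349) (nat_lit 1) (nat_lit 358) (nat_lit 1) (nat_lit 374) (nat_lit 406) (nat_lit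 360)) (XT.nd (nat_lit 78) (nat_lit 760) (nat_lit 0) (XT.lf (nat_lit 76) (nat_lit 318552451) (nat_lit 0) (nat_lit 3778576329) (nat_lit 760) (nat_lit 318552451) (nat_lit 350) (nat_lit 1) (nat_lit 349) (nat_lit 1) (nat_lit 359) (nat_lit 1) (nat_lit 375) (nat_lit 406) (nat_lit 359)) (XT.lf (nat_lit 76) (nat_lit 2180770847) (nat_lit 0) (nat_lit 16895168) (nat_lit 760) (nat_lit 2180770847) (nat_lit 340) (nat_lit 1) (nat_lit 339) (nat_lit 1) (nat_lit 349) (nat_lit 1) (nat_lit 376) (nat_lit 406) (nat_lit 358))))) (XT.nd (nat_lit 234) (nat_lit 608) (nat_lit 0) (XT.nd (nat_lit 78) (nat_lit 684) (nat_lit 0) (XT.lf (nat_lit 760) (nat_lit 3687686450) (nat_lit 0) (nat_lit 327035693) (nat_lit 684) (nat_lit 327035693) (nat_lit 340) (nat_lit 1) (nat_lit 330) (nat_lit 1) (nat_lit 339) (nat_lit 1) (nat_lit 377) (nat_lit 406) (nat_lit 357)) (XT.nd (nat_lit 78) (nat_lit 684) (nat_lit 0) (XT.lf (nat_lit 76) (nat_lit 1501311144) (nat_lit 0) (nat_lit 1302696861)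 (nat_lit 760) (nat_lit 1501311144) (nat_lit 331) (nat_lit 1) (nat_lit 330) (nat_lit 1) (nat_lit 340) (nat_lit 1) (nat_lit 378) (nat_lit 406) (nat_lit 356)) (XT.lf (nat_lit 760) (nat_lit 2322420383) (nat_lit 0) (nat_lit 973503258) (nat_lit 684) (nat_lit 973503258) (nat_lit 331) (nat_lit 1) (nat_lit 321) (nat_lit 1) (nat_lit 330) (nat_lit 1) (nat_lit 379) (nat_lit 406) (nat_lit 355)))) (XT.nd (nat_lit 78) (nat_lit 608) (nat_lit 0) (XT.lf (nat_lit 76) (nat_lit 820087751) (nat_lit 0) (nat_lit 2593761342) (nat_lit 760) (nat_lit 820087751) (nat_lit 322) (nat_lit 1) (nat_lit 321) (nat_lit 1) (nat_lit 331) (nat_lit 1) (nat_lit 380) (nat_lit 406) (nat_lit 354)) (XT.nd (nat_lit 78) (nat_lit 0) (nat_lit 0) (XT.lf (nat_lit 684) (nat_lit 954243754) (nat_lit 0) (nat_lit 1622282164) (nat_lit 608) (nat_lit 1622282164) (nat_lit 322) (nat_lit 1) (nat_lit 313) (nat_lit 1) (nat_lit 321) (nat_lit 1) (nat_lit 381) (nat_lit 406) (nat_lit 353)) (XT.lf (nat_lit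 76) (nat_lit 137721076) (nat_lit 0) (nat_lit 3888802054) (nat_lit 684) (nat_lit 137721076) (nat_lit 314) (nat_lit 1) (nat_lit 313) (nat_lit 1) (nat_lit 322) (nat_lit 1) (nat_lit 382) (nat_lit 406) (nat_lit 352))))))) (XT.nd (nat_lit 936) (nat_lit 3496) (nat_lit 0) (XT.nd (nat_lit 468) (nat_lit 2356) (nat_lit 0) (XT.nd (nat_lit 234) (nat_lit 1140) (nat_lit 0) (XT.nd (nat_lit 78) (nat_lit 608) (nat_lit 0) (XT.lf (nat_lit 76) (nat_lit 1859809853) (nat_lit 0) (nat_lit 410182725) (nat_lit 684) (nat_lit 1859809853) (nat_lit 305) (nat_lit 1) (nat_lit 304) (nat_lit 1) (nat_lit 313) (nat_lit 1) (nat_lit 383) (nat_lit 406) (nat_lit 351)) (XT.nd (nat_lit 78) (nat_lit 0) (nat_lit 0) (XT.lf (nat_lit 684) (nat_lit 3012679656) (nat_lit 0) (nat_lit 541616524) (nat_lit 608) (nat_lit 541616524) (nat_lit 305) (nat_lit 1) (nat_lit 296) (nat_lit 1) (nat_lit 304) (nat_lit 1) (nat_lit 384) (nat_lit 406) (nat_lit 350)) (XT.lf (nat_lit 76) (nat_lit 1149824828)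 (nat_lit 0) (nat_lit 1762646620) (nat_lit 684) (nat_lit 1149824828) (nat_lit 297) (nat_lit 1) (nat_lit 296) (nat_lit 1) (nat_lit 305) (nat_lit 1) (nat_lit 385) (nat_lit 406) (nat_lit 349)))) (XT.nd (nat_lit 78) (nat_lit 532) (nat_lit 0) (XT.lf (nat_lit 684) (nat_lit 1589004276) (nat_lit 0) (nat_lit 1220053668) (nat_lit 608) (nat_lit 1220053668) (nat_lit 297) (nat_lit 1) (nat_lit 288) (nat_lit 1) (nat_lit 296) (nat_lit 1) (nat_lit 386) (nat_lit 406) (nat_lit 348)) (XT.nd (nat_lit 78) (nat_lit 532) (nat_lit 0) (XT.lf (nat_lit 76) (nat_lit 440884956) (nat_lit 0) (nat_lit 3114601381) (nat_lit 684) (nat_lit 440884956) (nat_lit 289) (nat_lit 1) (nat_lit 288) (nat_lit 1) (nat_lit 297) (nat_lit 1) (nat_lit 387) (nat_lit 406) (nat_lit 347)) (XT.lf (nat_lit 608) (nat_lit 167912091) (nat_lit 0) (nat_lit 1897979534) (nat_lit 532) (nat_lit 1897979534) (nat_lit 289) (nat_lit 1) (nat_lit 281) (nat_lit 1) (nat_lit 288) (nat_lit 1) (nat_lit 388) (nat_lit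 406) (nat_lit 346))))) (XT.nd (nat_lit 234) (nat_lit 1140) (nat_lit 0) (XT.nd (nat_lit 78) (nat_lit 532) (nat_lit 0) (XT.lf (nat_lit 684) (nat_lit 3402294035) (nat_lit 0) (nat_lit 264776770) (nat_lit 608) (nat_lit 264776770) (nat_lit 281) (nat_lit 1) (nat_lit 272) (nat_lit 1) (nat_lit 280) (nat_lit 1) (nat_lit 389) (nat_lit 406) (nat_lit 345)) (XT.nd (nat_lit 78) (nat_lit 532) (nat_lit 0) (XT.lf (nat_lit 76) (nat_lit 1333357210) (nat_lit 0) (nat_lit 1233274310) (nat_lit 684) (nat_lit 1333357210) (nat_lit 273) (nat_lit 1) (nat_lit 272) (nat_lit 1) (nat_lit 281) (nat_lit 1) (nat_lit 390) (nat_lit 406) (nat_lit 344)) (XT.lf (nat_lit 608) (nat_lit 1937444289) (nat_lit 0) (nat_lit 965575594) (nat_lit 532) (nat_lit 965575594) (nat_lit 273) (nat_lit 1) (nat_lit 265) (nat_lit 1) (nat_lit 272) (nat_lit 1) (nat_lit 391) (nat_lit 406) (nat_lit 343)))) (XT.nd (nat_lit 78) (nat_lit 1140) (nat_lit 0) (XT.lf (nat_lit 76) (nat_lit 604821407) (nat_lit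 0) (nat_lit 2627923380) (nat_lit 608) (nat_lit 604821407) (nat_lit 266) (nat_lit 1) (nat_lit 265) (nat_lit 1) (nat_lit 273) (nat_lit 1) (nat_lit 392) (nat_lit 406) (nat_lit 342)) (XT.nd (nat_lit 78) (nat_lit 608) (nat_lit 0) (XT.lf (nat_lit 608) (nat_lit 478822988) (nat_lit 0) (nat_lit 1663991670) (nat_lit 532) (nat_lit 1663991670) (nat_lit 266) (nat_lit 1) (nat_lit 258) (nat_lit 1) (nat_lit 265) (nat_lit 1) (nat_lit 393) (nat_lit 406) (nat_lit 341)) (XT.lf (nat_lit 608) (nat_lit 3537271076) (nat_lit 0) (nat_lit 119626794) (nat_lit 532) (nat_lit 119626794) (nat_lit 258) (nat_lit 1) (nat_lit 250) (nat_lit 1) (nat_lit 257) (nat_lit 1) (nat_lit 394) (nat_lit 406) (nat_lit 340)))))) (XT.nd (nat_lit 468) (nat_lit 1900) (nat_lit 0) (XT.nd (nat_lit 234) (nat_lit 1064) (nat_lit 0) (XT.nd (nat_lit 78) (nat_lit 532) (nat_lit 0) (XT.lf (nat_lit 76) (nat_lit 1393128322) (nat_lit 0) (nat_lit 960059830) (nat_lit 608) (nat_lit 1393128322) (nat_lit 251)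 (nat_lit 1) (nat_lit 250) (nat_lit 1) (nat_lit 258) (nat_lit 1) (nat_lit 395) (nat_lit 406) (nat_lit 339)) (XT.nd (nat_lit 78) (nat_lit 0) (nat_lit 0) (XT.lf (nat_lit 608) (nat_lit 2043651805) (nat_lit 0) (nat_lit 836462475) (nat_lit 532) (nat_lit 836462475) (nat_lit 251) (nat_lit 1) (nat_lit 243) (nat_lit 1) (nat_lit 250) (nat_lit 1) (nat_lit 396) (nat_lit 406) (nat_lit 338)) (XT.lf (nat_lit 76) (nat_lit 651036863) (nat_lit 0) (nat_lit 2385081067) (nat_lit 608) (nat_lit 651036863) (nat_lit 244) (nat_lit 1) (nat_lit 243) (nat_lit 1) (nat_lit 251) (nat_lit 1) (nat_lit 397) (nat_lit 406) (nat_lit 337)))) (XT.nd (nat_lit 78) (nat_lit 608) (nat_lit 0) (XT.lf (nat_lit 532) (nat_lit 559345072) (nat_lit 0) (nat_lit 1549328494) (nat_lit 456) (nat_lit 1549328494) (nat_lit 244) (nat_lit 1) (nat_lit 237) (nat_lit 1) (nat_lit 243) (nat_lit 1) (nat_lit 398) (nat_lit 406) (nat_lit 336)) (XT.nd (nat_lit 78) (nat_lit 0) (nat_lit 0) (XT.lf (nat_lit 608)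 (nat_lit 3457913841) (nat_lit 0) (nat_lit 85694759) (nat_lit 532) (nat_lit 85694759) (nat_lit 237) (nat_lit 1) (nat_lit 229) (nat_lit 1) (nat_lit 236) (nat_lit 1) (nat_lit 399) (nat_lit 406) (nat_lit 335)) (XT.lf (nat_lit 76) (nat_lit 1348796084) (nat_lit 0) (nat_lit 903054979) (nat_lit 608) (nat_lit 1348796084) (nat_lit 230) (nat_lit 1) (nat_lit 229) (nat_lit 1) (nat_lit 237) (nat_lit 1) (nat_lit 400) (nat_lit 406) (nat_lit 334))))) (XT.nd (nat_lit 234) (nat_lit 988) (nat_lit 0) (XT.nd (nat_lit 78) (nat_lit 456) (nat_lit 0) (XT.lf (nat_lit 532) (nat_lit 1946237613) (nat_lit 0) (nat_lit 813099358) (nat_lit 456) (nat_lit 813099358) (nat_lit 230) (nat_lit 1) (nat_lit 223) (nat_lit 1) (nat_lit 229) (nat_lit 1) (nat_lit 401) (nat_lit 406) (nat_lit 333)) (XT.nd (nat_lit 78) (nat_lit 456) (nat_lit 0) (XT.lf (nat_lit 76) (nat_lit 598363254) (nat_lit 0) (nat_lit 2347799431) (nat_lit 532) (nat_lit 598363254) (nat_lit 224) (nat_lit 1) (nat_lit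 223) (nat_lit 1) (nat_lit 230) (nat_lit 1) (nat_lit 402) (nat_lit 406) (nat_lit 332)) (XT.lf (nat_lit 532) (nat_lit 446465653) (nat_lit 0) (nat_lit 1535197148) (nat_lit 456) (nat_lit 1535197148) (nat_lit 224) (nat_lit 1) (nat_lit 217) (nat_lit 1) (nat_lit 223) (nat_lit 1) (nat_lit 403) (nat_lit 406) (nat_lit 331)))) (XT.nd (nat_lit 156) (nat_lit 456) (nat_lit 0) (XT.nd (nat_lit 78) (nat_lit 0) (nat_lit 0) (XT.lf (nat_lit 532) (nat_lit 3199482744) (nat_lit 0) (nat_lit 145059805) (nat_lit 456) (nat_lit 145059805) (nat_lit 217) (nat_lit 1) (nat_lit 210) (nat_lit 1) (nat_lit 216) (nat_lit 1) (nat_lit 404) (nat_lit 406) (nat_lit 330)) (XT.lf (nat_lit 76) (nat_lit 1217556197) (nat_lit 0) (nat_lit 1027294526) (nat_lit 532) (nat_lit 1217556197) (nat_lit 211) (nat_lit 1) (nat_lit 210) (nat_lit 1) (nat_lit 217) (nat_lit 1) (nat_lit 405) (nat_lit 406) (nat_lit 329))) (XT.nd (nat_lit 78) (nat_lit 0) (nat_lit 0) (XT.lf (nat_lit 532) (nat_lit 1678971182)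 (nat_lit 0) (nat_lit 878320514) (nat_lit 456) (nat_lit 878320514) (nat_lit 211) (nat_lit 1) (nat_lit 204) (nat_lit 1) (nat_lit 210) (nat_lit 1) (nat_lit 406) (nat_lit 406) (nat_lit 328)) (XT.lf (nat_lit 76) (nat_lit 463268627) (nat_lit 0) (nat_lit 2482587613) (nat_lit 532) (nat_lit 463268627) (nat_lit 205) (nat_lit 1) (nat_lit 204) (nat_lit 1) (nat_lit 211) (nat_lit 1) (nat_lit 407) (nat_lit 406) (nat_lit 327))))))))
noncomputable def ec60 : XT := (XT.nd (nat_lit 53196) (nat_lit 0) (nat_lit 25156) (XT.nd (nat_lit 936) (nat_lit 1748) (nat_lit 0) (XT.nd (nat_lit 468) (nat_lit 1520) (nat_lit 0) (XT.nd (nat_lit 234) (nat_lit 836) (nat_lit 0) (XT.nd (nat_lit 78) (nat_lit 532) (nat_lit 0) (XT.lf (nat_lit 456) (nat_lit 172524119) (nat_lit 0) (nat_lit 1605156256) (nat_lit 380) (nat_lit 1605156256) (nat_lit 205) (nat_lit 1) (nat_lit 199) (nat_lit 1) (nat_lit 204) (nat_lit 1) (nat_lit 408) (nat_lit 406) (nat_lit 326)) (XT.nd (nat_lit 78) (nat_lit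 0) (nat_lit 0) (XT.lf (nat_lit 532) (nat_lit 2792782329) (nat_lit 0) (nat_lit 282055576) (nat_lit 456) (nat_lit 282055576) (nat_lit 199) (nat_lit 1) (nat_lit 192) (nat_lit 1) (nat_lit 198) (nat_lit 1) (nat_lit 409) (nat_lit 406) (nat_lit 325)) (XT.lf (nat_lit 76) (nat_lit 1014428766) (nat_lit 0) (nat_lit 1302216873) (nat_lit 532) (nat_lit 1014428766) (nat_lit 193) (nat_lit 1) (nat_lit 192) (nat_lit 1) (nat_lit 199) (nat_lit 1) (nat_lit 410) (nat_lit 406) (nat_lit 324)))) (XT.nd (nat_lit 78) (nat_lit 456) (nat_lit 0) (XT.lf (nat_lit 456) (nat_lit 1271344436) (nat_lit 0) (nat_lit 1017124582) (nat_lit 380) (nat_lit 1017124582) (nat_lit 193) (nat_lit 1) (nat_lit 187) (nat_lit 1) (nat_lit 192) (nat_lit 1) (nat_lit 411) (nat_lit 406) (nat_lit 323)) (XT.nd (nat_lit 78) (nat_lit 456) (nat_lit 0) (XT.lf (nat_lit 76) (nat_lit 260132519) (nat_lit 0) (nat_lit 2760182291) (nat_lit 456) (nat_lit 260132519) (nat_lit 188) (nat_lit 1) (nat_lit 187) (nat_lit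 1) (nat_lit 193) (nat_lit 1) (nat_lit 412) (nat_lit 406) (nat_lit 322)) (XT.lf (nat_lit 76) (nat_lit 1512116712) (nat_lit 0) (nat_lit 231174221) (nat_lit 456) (nat_lit 1512116712) (nat_lit 182) (nat_lit 1) (nat_lit 181) (nat_lit 1) (nat_lit 187) (nat_lit 1) (nat_lit 413) (nat_lit 406) (nat_lit 321))))) (XT.nd (nat_lit 234) (nat_lit 760) (nat_lit 0) (XT.nd (nat_lit 78) (nat_lit 380) (nat_lit 0) (XT.lf (nat_lit 456) (nat_lit 2264681446) (nat_lit 0) (nat_lit 483007379) (nat_lit 380) (nat_lit 483007379) (nat_lit 182) (nat_lit 1) (nat_lit 176) (nat_lit 1) (nat_lit 181) (nat_lit 1) (nat_lit 414) (nat_lit 406) (nat_lit 320)) (XT.nd (nat_lit 78) (nat_lit 380) (nat_lit 0) (XT.lf (nat_lit 76) (nat_lit 752512376) (nat_lit 0) (nat_lit 1701150470) (nat_lit 456) (nat_lit 752512376) (nat_lit 177) (nat_lit 1) (nat_lit 176) (nat_lit 1) (nat_lit 182) (nat_lit 1) (nat_lit 415) (nat_lit 406) (nat_lit 319)) (XT.lf (nat_lit 456) (nat_lit 749071510) (nat_lit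 0) (nat_lit 1216422045) (nat_lit 380) (nat_lit 1216422045) (nat_lit 177) (nat_lit 1) (nat_lit 171) (nat_lit 1) (nat_lit 176) (nat_lit 1) (nat_lit 416) (nat_lit 406) (nat_lit 318)))) (XT.nd (nat_lit 78) (nat_lit 760) (nat_lit 0) (XT.lf (nat_lit 76) (nat_lit 1490070) (nat_lit 0) (nat_lit 3155054245) (nat_lit 456) (nat_lit 1490070) (nat_lit 172) (nat_lit 1) (nat_lit 171) (nat_lit 1) (nat_lit 177) (nat_lit 1) (nat_lit 417) (nat_lit 406) (nat_lit 317)) (XT.nd (nat_lit 78) (nat_lit 380) (nat_lit 0) (XT.lf (nat_lit 76) (nat_lit 1197352311) (nat_lit 0) (nat_lit 739412518) (nat_lit 380) (nat_lit 1197352311) (nat_lit 167) (nat_lit 1) (nat_lit 166) (nat_lit 1) (nat_lit 171) (nat_lit 1) (nat_lit 418) (nat_lit 406) (nat_lit 316)) (XT.lf (nat_lit 456) (nat_lit 1638574308) (nat_lit 0) (nat_lit 735999204) (nat_lit 380) (nat_lit 735999204) (nat_lit 167) (nat_lit 1) (nat_lit 161) (nat_lit 1) (nat_lit 166) (nat_lit 1) (nat_lit 419) (nat_lit 406) (nat_lit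 315)))))) (XT.nd (nat_lit 468) (nat_lit 684) (nat_lit 0) (XT.nd (nat_lit 234) (nat_lit 304) (nat_lit 0) (XT.nd (nat_lit 78) (nat_lit 760) (nat_lit 0) (XT.lf (nat_lit 76) (nat_lit 443209295) (nat_lit 0) (nat_lit 2200858583) (nat_lit 456) (nat_lit 443209295) (nat_lit 162) (nat_lit 1) (nat_lit 161) (nat_lit 1) (nat_lit 167) (nat_lit 1) (nat_lit 420) (nat_lit 406) (nat_lit 314)) (XT.nd (nat_lit 78) (nat_lit 456) (nat_lit 0) (XT.lf (nat_lit 380) (nat_lit 134531694) (nat_lit 0) (nat_lit 1464811402) (nat_lit 304) (nat_lit 1464811402) (nat_lit 162) (nat_lit 1) (nat_lit 157) (nat_lit 1) (nat_lit 161) (nat_lit 1) (nat_lit 421) (nat_lit 406) (nat_lit 313)) (XT.lf (nat_lit 456) (nat_lit 2441777634) (nat_lit 0) (nat_lit 299766422) (nat_lit 380) (nat_lit 299766422) (nat_lit 157) (nat_lit 1) (nat_lit 151) (nat_lit 1) (nat_lit 156) (nat_lit 1) (nat_lit 422) (nat_lit 406) (nat_lit 312)))) (XT.nd (nat_lit 78) (nat_lit 304) (nat_lit 0) (XT.lf (nat_lit 76)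 (nat_lit 842626195) (nat_lit 0) (nat_lit 1333327791) (nat_lit 456) (nat_lit 842626195) (nat_lit 152) (nat_lit 1) (nat_lit 151) (nat_lit 1) (nat_lit 157) (nat_lit 1) (nat_lit 423) (nat_lit 406) (nat_lit 311)) (XT.nd (nat_lit 78) (nat_lit 0) (nat_lit 0) (XT.lf (nat_lit 380) (nat_lit 934789083) (nat_lit 0) (nat_lit 1030667248) (nat_lit 304) (nat_lit 1030667248) (nat_lit 152) (nat_lit 1) (nat_lit 147) (nat_lit 1) (nat_lit 151) (nat_lit 1) (nat_lit 424) (nat_lit 406) (nat_lit 310)) (XT.lf (nat_lit 76) (nat_lit 96425042) (nat_lit 0) (nat_lit 2781135831) (nat_lit 380) (nat_lit 96425042) (nat_lit 148) (nat_lit 1) (nat_lit 147) (nat_lit 1) (nat_lit 152) (nat_lit 1) (nat_lit 425) (nat_lit 406) (nat_lit 309))))) (XT.nd (nat_lit 51558) (nat_lit 0) (nat_lit 27284) (XT.nd (nat_lit 78) (nat_lit 304) (nat_lit 0) (XT.lf (nat_lit 76) (nat_lit 1203132155) (nat_lit 0) (nat_lit 545587464) (nat_lit 380) (nat_lit 1203132155) (nat_lit 143) (nat_lit 1) (nat_lit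 142) (nat_lit 1) (nat_lit 147) (nat_lit 1) (nat_lit 426) (nat_lit 406) (nat_lit 308)) (XT.nd (nat_lit 78) (nat_lit 0) (nat_lit 0) (XT.lf (nat_lit 380) (nat_lit 1658211004) (nat_lit 0) (nat_lit 635910492) (nat_lit 304) (nat_lit 635910492) (nat_lit 143) (nat_lit 1) (nat_lit 138) (nat_lit 1) (nat_lit 142) (nat_lit 1) (nat_lit 427) (nat_lit 406) (nat_lit 307)) (XT.lf (nat_lit 76) (nat_lit 456921939) (nat_lit 0) (nat_lit 1994580837) (nat_lit 380) (nat_lit 456921939) (nat_lit 139) (nat_lit 1) (nat_lit 138) (nat_lit 1) (nat_lit 143) (nat_lit 1) (nat_lit 428) (nat_lit 406) (nat_lit 306)))) (XT.nd (nat_lit 78) (nat_lit 0) (nat_lit 0) (XT.lf (nat_lit 1900) (nat_lit 1151303945) (nat_lit 0) (nat_lit 1160931524) (nat_lit 1900) (nat_lit 1151303945) (nat_lit 522) (nat_lit 1) (nat_lit 497) (nat_lit 0) (nat_lit 522) (nat_lit 0) (nat_lit 326) (nat_lit 407) (nat_lit 407)) (XT.nd (nat_lit 78) (nat_lit 0) (nat_lit 76) (XT.lf (nat_lit 1900) (nat_lit 4552428900)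 (nat_lit 76) (nat_lit 1153293816) (nat_lit 0) (nat_lit 1153293816) (nat_lit 522) (nat_lit 1) (nat_lit 498) (nat_lit 1) (nat_lit 497) (nat_lit 0) (nat_lit 327) (nat_lit 407) (nat_lit 406)) (XT.lf (nat_lit 1900) (nat_lit 2235264259) (nat_lit 0) (nat_lit 2321169124) (nat_lit 1824) (nat_lit 2235264259) (nat_lit 523) (nat_lit 1) (nat_lit 498) (nat_lit 1) (nat_lit 522) (nat_lit 1) (nat_lit 328) (nat_lit 407) (nat_lit 405))))))) (XT.nd (nat_lit 936) (nat_lit 2204) (nat_lit 0) (XT.nd (nat_lit 468) (nat_lit 0) (nat_lit 228) (XT.nd (nat_lit 234) (nat_lit 0) (nat_lit 152) (XT.nd (nat_lit 78) (nat_lit 0) (nat_lit 76) (XT.lf (nat_lit 1900) (nat_lit 4374963179) (nat_lit 76) (nat_lit 1175218062) (nat_lit 0) (nat_lit 1175218062) (nat_lit 523) (nat_lit 1) (nat_lit 499) (nat_lit 1) (nat_lit 498) (nat_lit 1) (nat_lit 329) (nat_lit 407) (nat_lit 404)) (XT.nd (nat_lit 78) (nat_lit 0) (nat_lit 0) (XT.lf (nat_lit 1900) (nat_lit 2126149201) (nat_lit 0) (nat_lit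 2407534425) (nat_lit 1824) (nat_lit 2126149201) (nat_lit 524) (nat_lit 1) (nat_lit 499) (nat_lit 1) (nat_lit 523) (nat_lit 1) (nat_lit 330) (nat_lit 407) (nat_lit 403)) (XT.lf (nat_lit 1900) (nat_lit 4116199776) (nat_lit 76) (nat_lit 1239520812) (nat_lit 0) (nat_lit 1239520812) (nat_lit 524) (nat_lit 1) (nat_lit 500) (nat_lit 1) (nat_lit 499) (nat_lit 1) (nat_lit 331) (nat_lit 407) (nat_lit 402)))) (XT.nd (nat_lit 78) (nat_lit 0) (nat_lit 0) (XT.lf (nat_lit 1900) (nat_lit 1977755074) (nat_lit 0) (nat_lit 2575871821) (nat_lit 1824) (nat_lit 1977755074) (nat_lit 525) (nat_lit 1) (nat_lit 500) (nat_lit 1) (nat_lit 524) (nat_lit 1) (nat_lit 332) (nat_lit 407) (nat_lit 401)) (XT.nd (nat_lit 78) (nat_lit 0) (nat_lit 76) (XT.lf (nat_lit 1900) (nat_lit 3781024773) (nat_lit 76) (nat_lit 1343708813) (nat_lit 0) (nat_lit 1343708813) (nat_lit 525) (nat_lit 1) (nat_lit 501) (nat_lit 1) (nat_lit 500) (nat_lit 1) (nat_lit 333) (nat_lit 407) (nat_lit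 400)) (XT.lf (nat_lit 1900) (nat_lit 1792460390) (nat_lit 0) (nat_lit 2821325179) (nat_lit 1824) (nat_lit 1792460390) (nat_lit 526) (nat_lit 1) (nat_lit 501) (nat_lit 1) (nat_lit 525) (nat_lit 1) (nat_lit 334) (nat_lit 407) (nat_lit 399))))) (XT.nd (nat_lit 234) (nat_lit 0) (nat_lit 152) (XT.nd (nat_lit 78) (nat_lit 0) (nat_lit 76) (XT.lf (nat_lit 1900) (nat_lit 3374100614) (nat_lit 76) (nat_lit 1485402248) (nat_lit 0) (nat_lit 1485402248) (nat_lit 526) (nat_lit 1) (nat_lit 502) (nat_lit 1) (nat_lit 501) (nat_lit 1) (nat_lit 335) (nat_lit 407) (nat_lit 398)) (XT.nd (nat_lit 78) (nat_lit 0) (nat_lit 0) (XT.lf (nat_lit 1900) (nat_lit 1572534569) (nat_lit 0) (nat_lit 3139259745) (nat_lit 1824) (nat_lit 1572534569) (nat_lit 527) (nat_lit 1) (nat_lit 502) (nat_lit 1) (nat_lit 526) (nat_lit 1) (nat_lit 336) (nat_lit 407) (nat_lit 397)) (XT.lf (nat_lit 1900) (nat_lit 2899875453) (nat_lit 76) (nat_lit 1662330007) (nat_lit 0) (nat_lit 1662330007)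 (nat_lit 527) (nat_lit 1) (nat_lit 503) (nat_lit 1) (nat_lit 502) (nat_lit 1) (nat_lit 337) (nat_lit 407) (nat_lit 396)))) (XT.nd (nat_lit 78) (nat_lit 0) (nat_lit 0) (XT.lf (nat_lit 1900) (nat_lit 1320142506) (nat_lit 0) (nat_lit 3525252898) (nat_lit 1824) (nat_lit 1320142506) (nat_lit 528) (nat_lit 1) (nat_lit 503) (nat_lit 1) (nat_lit 527) (nat_lit 1) (nat_lit 338) (nat_lit 407) (nat_lit 395)) (XT.nd (nat_lit 78) (nat_lit 0) (nat_lit 76) (XT.lf (nat_lit 1900) (nat_lit 2362592128) (nat_lit 76) (nat_lit 1872325143) (nat_lit 0) (nat_lit 1872325143) (nat_lit 528) (nat_lit 1) (nat_lit 504) (nat_lit 1) (nat_lit 503) (nat_lit 1) (nat_lit 339) (nat_lit 407) (nat_lit 394)) (XT.lf (nat_lit 1900) (nat_lit 1037348948) (nat_lit 0) (nat_lit 3975085282) (nat_lit 1824) (nat_lit 1037348948) (nat_lit 529) (nat_lit 1) (nat_lit 504) (nat_lit 1) (nat_lit 528) (nat_lit 1) (nat_lit 340) (nat_lit 407) (nat_lit 393)))))) (XT.nd (nat_lit 468) (nat_lit 2660)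 (nat_lit 0) (XT.nd (nat_lit 234) (nat_lit 0) (nat_lit 152) (XT.nd (nat_lit 78) (nat_lit 0) (nat_lit 76) (XT.lf (nat_lit 1900) (nat_lit 1766296773) (nat_lit 76) (nat_lit 2113320519) (nat_lit 0) (nat_lit 2113320519) (nat_lit 529) (nat_lit 1) (nat_lit 505) (nat_lit 1) (nat_lit 504) (nat_lit 1) (nat_lit 341) (nat_lit 407) (nat_lit 392)) (XT.nd (nat_lit 78) (nat_lit 0) (nat_lit 0) (XT.lf (nat_lit 1900) (nat_lit 726122700) (nat_lit 0) (nat_lit 4484732300) (nat_lit 1824) (nat_lit 726122700) (nat_lit 530) (nat_lit 1) (nat_lit 505) (nat_lit 1) (nat_lit 529) (nat_lit 1) (nat_lit 342) (nat_lit 407) (nat_lit 391)) (XT.lf (nat_lit 1900) (nat_lit 1114847080) (nat_lit 76) (nat_lit 2383344620) (nat_lit 0) (nat_lit 2383344620) (nat_lit 530) (nat_lit 1) (nat_lit 506) (nat_lit 1) (nat_lit 505) (nat_lit 1) (nat_lit 343) (nat_lit 407) (nat_lit 390)))) (XT.nd (nat_lit 78) (nat_lit 0) (nat_lit 0) (XT.lf (nat_lit 1900) (nat_lit 388340660) (nat_lit 0) (nat_lit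 5050355939) (nat_lit 1824) (nat_lit 388340660) (nat_lit 531) (nat_lit 1) (nat_lit 506) (nat_lit 1) (nat_lit 530) (nat_lit 1) (nat_lit 344) (nat_lit 407) (nat_lit 389)) (XT.nd (nat_lit 78) (nat_lit 0) (nat_lit 76) (XT.lf (nat_lit 1900) (nat_lit 411920236) (nat_lit 76) (nat_lit 2680517541) (nat_lit 0) (nat_lit 2680517541) (nat_lit 531) (nat_lit 1) (nat_lit 507) (nat_lit 1) (nat_lit 506) (nat_lit 1) (nat_lit 345) (nat_lit 407) (nat_lit 388)) (XT.lf (nat_lit 1900) (nat_lit 25791690) (nat_lit 0) (nat_lit 5668296935) (nat_lit 1824) (nat_lit 25791690) (nat_lit 532) (nat_lit 1) (nat_lit 507) (nat_lit 1) (nat_lit 531) (nat_lit 1) (nat_lit 346) (nat_lit 407) (nat_lit 387))))) (XT.nd (nat_lit 234) (nat_lit 988) (nat_lit 0) (XT.nd (nat_lit 78) (nat_lit 0) (nat_lit 0) (XT.lf (nat_lit 1976) (nat_lit 2666268541) (nat_lit 0) (nat_lit 334533696) (nat_lit 1900) (nat_lit 2666268541) (nat_lit 508) (nat_lit 1) (nat_lit 482) (nat_lit 1) (nat_lit 507) (nat_lit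 1) (nat_lit 347) (nat_lit 407) (nat_lit 386)) (XT.nd (nat_lit 78) (nat_lit 0) (nat_lit 76) (XT.lf (nat_lit 1976) (nat_lit 4900335526) (nat_lit 76) (nat_lit 357452432) (nat_lit 0) (nat_lit 357452432) (nat_lit 508) (nat_lit 1) (nat_lit 483) (nat_lit 1) (nat_lit 482) (nat_lit 1) (nat_lit 348) (nat_lit 407) (nat_lit 385)) (XT.lf (nat_lit 1976) (nat_lit 2222077978) (nat_lit 0) (nat_lit 1119634004) (nat_lit 1900) (nat_lit 2222077978) (nat_lit 509) (nat_lit 1) (nat_lit 483) (nat_lit 1) (nat_lit 508) (nat_lit 1) (nat_lit 349) (nat_lit 407) (nat_lit 384)))) (XT.nd (nat_lit 78) (nat_lit 1064) (nat_lit 0) (XT.lf (nat_lit 1976) (nat_lit 3989555070) (nat_lit 76) (nat_lit 761824429) (nat_lit 0) (nat_lit 761824429) (nat_lit 509) (nat_lit 1) (nat_lit 484) (nat_lit 1) (nat_lit 483) (nat_lit 1) (nat_lit 350) (nat_lit 407) (nat_lit 383)) (XT.nd (nat_lit 78) (nat_lit 1140) (nat_lit 0) (XT.lf (nat_lit 76) (nat_lit 1758723516) (nat_lit 0) (nat_lit 1945644693)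 (nat_lit 1900) (nat_lit 1758723516) (nat_lit 485) (nat_lit 1) (nat_lit 484) (nat_lit 1) (nat_lit 509) (nat_lit 1) (nat_lit 351) (nat_lit 407) (nat_lit 382)) (XT.lf (nat_lit 1216) (nat_lit 3041795721) (nat_lit 0) (nat_lit 1185957703) (nat_lit 1140) (nat_lit 1185957703) (nat_lit 485) (nat_lit 1) (nat_lit 469) (nat_lit 1) (nat_lit 484) (nat_lit 1) (nat_lit 352) (nat_lit 407) (nat_lit 381))))))))
noncomputable def ec61 : XT := (XT.nd (nat_lit 1872) (nat_lit 8588) (nat_lit 0) (XT.nd (nat_lit 936) (nat_lit 5244) (nat_lit 0) (XT.nd (nat_lit 468) (nat_lit 2660) (nat_lit 0) (XT.nd (nat_lit 234) (nat_lit 1748) (nat_lit 0) (XT.nd (nat_lit 78) (nat_lit 912) (nat_lit 0) (XT.lf (nat_lit 76) (nat_lit 1277663282) (nat_lit 0) (nat_lit 2809577225) (nat_lit 1216) (nat_lit 1277663282) (nat_lit 470) (nat_lit 1) (nat_lit 469) (nat_lit 1) (nat_lit 485) (nat_lit 1) (nat_lit 353) (nat_lit 407) (nat_lit 380)) (XT.nd (nat_lit 78) (nat_lit 0) (nat_lit 0) (XT.lf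 (nat_lit 988) (nat_lit 2059911957) (nat_lit 0) (nat_lit 1628389534) (nat_lit 912) (nat_lit 1628389534) (nat_lit 470) (nat_lit 1) (nat_lit 457) (nat_lit 1) (nat_lit 469) (nat_lit 1) (nat_lit 354) (nat_lit 407) (nat_lit 379)) (XT.lf (nat_lit 76) (nat_lit 780284780) (nat_lit 0) (nat_lit 3708586562) (nat_lit 988) (nat_lit 780284780) (nat_lit 458) (nat_lit 1) (nat_lit 457) (nat_lit 1) (nat_lit 470) (nat_lit 1) (nat_lit 355) (nat_lit 407) (nat_lit 378)))) (XT.nd (nat_lit 78) (nat_lit 836) (nat_lit 0) (XT.lf (nat_lit 988) (nat_lit 1046619595) (nat_lit 0) (nat_lit 2087727639) (nat_lit 912) (nat_lit 2087727639) (nat_lit 458) (nat_lit 1) (nat_lit 445) (nat_lit 1) (nat_lit 457) (nat_lit 1) (nat_lit 356) (nat_lit 407) (nat_lit 377)) (XT.nd (nat_lit 78) (nat_lit 836) (nat_lit 0) (XT.lf (nat_lit 76) (nat_lit 267907912) (nat_lit 0) (nat_lit 4639965053) (nat_lit 988) (nat_lit 267907912) (nat_lit 446) (nat_lit 1) (nat_lit 445) (nat_lit 1) (nat_lit 458)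 (nat_lit 1) (nat_lit 357) (nat_lit 407) (nat_lit 376)) (XT.lf (nat_lit 912) (nat_lit 4501730) (nat_lit 0) (nat_lit 2562647165) (nat_lit 836) (nat_lit 2562647165) (nat_lit 446) (nat_lit 1) (nat_lit 434) (nat_lit 1) (nat_lit 445) (nat_lit 1) (nat_lit 358) (nat_lit 407) (nat_lit 375))))) (XT.nd (nat_lit 234) (nat_lit 836) (nat_lit 0) (XT.nd (nat_lit 78) (nat_lit 836) (nat_lit 0) (XT.lf (nat_lit 988) (nat_lit 4571551023) (nat_lit 0) (nat_lit 256513363) (nat_lit 912) (nat_lit 256513363) (nat_lit 434) (nat_lit 1) (nat_lit 421) (nat_lit 1) (nat_lit 433) (nat_lit 1) (nat_lit 359) (nat_lit 407) (nat_lit 374)) (XT.nd (nat_lit 78) (nat_lit 836) (nat_lit 0) (XT.lf (nat_lit 76) (nat_lit 1994810322) (nat_lit 0) (nat_lit 1050031225) (nat_lit 988) (nat_lit 1994810322) (nat_lit 422) (nat_lit 1) (nat_lit 421) (nat_lit 1) (nat_lit 434) (nat_lit 1) (nat_lit 360) (nat_lit 407) (nat_lit 373)) (XT.lf (nat_lit 912) (nat_lit 3412192565) (nat_lit 0) (nat_lit 791639435)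 (nat_lit 836) (nat_lit 791639435) (nat_lit 422) (nat_lit 1) (nat_lit 410) (nat_lit 1) (nat_lit 421) (nat_lit 1) (nat_lit 361) (nat_lit 407) (nat_lit 372)))) (XT.nd (nat_lit 78) (nat_lit 836) (nat_lit 0) (XT.lf (nat_lit 76) (nat_lit 1411744651) (nat_lit 0) (nat_lit 2128224898) (nat_lit 912) (nat_lit 1411744651) (nat_lit 411) (nat_lit 1) (nat_lit 410) (nat_lit 1) (nat_lit 422) (nat_lit 1) (nat_lit 362) (nat_lit 407) (nat_lit 371)) (XT.nd (nat_lit 78) (nat_lit 0) (nat_lit 0) (XT.lf (nat_lit 912) (nat_lit 2232327763) (nat_lit 0) (nat_lit 1338106324) (nat_lit 836) (nat_lit 1338106324) (nat_lit 411) (nat_lit 1) (nat_lit 399) (nat_lit 1) (nat_lit 410) (nat_lit 1) (nat_lit 363) (nat_lit 407) (nat_lit 370)) (XT.lf (nat_lit 76) (nat_lit 818986999) (nat_lit 0) (nat_lit 3227949295) (nat_lit 912) (nat_lit 818986999) (nat_lit 400) (nat_lit 1) (nat_lit 399) (nat_lit 1) (nat_lit 411) (nat_lit 1) (nat_lit 364) (nat_lit 407) (nat_lit 369)))))) (XT.nd (nat_lit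 468) (nat_lit 2128) (nat_lit 0) (XT.nd (nat_lit 234) (nat_lit 1520) (nat_lit 0) (XT.nd (nat_lit 78) (nat_lit 836) (nat_lit 0) (XT.lf (nat_lit 836) (nat_lit 1034037720) (nat_lit 0) (nat_lit 1894843841) (nat_lit 760) (nat_lit 1894843841) (nat_lit 400) (nat_lit 1) (nat_lit 389) (nat_lit 1) (nat_lit 399) (nat_lit 1) (nat_lit 365) (nat_lit 407) (nat_lit 368)) (XT.nd (nat_lit 78) (nat_lit 836) (nat_lit 0) (XT.lf (nat_lit 76) (nat_lit 217547698) (nat_lit 0) (nat_lit 4347125250) (nat_lit 836) (nat_lit 217547698) (nat_lit 390) (nat_lit 1) (nat_lit 389) (nat_lit 1) (nat_lit 400) (nat_lit 1) (nat_lit 366) (nat_lit 407) (nat_lit 367)) (XT.lf (nat_lit 76) (nat_lit 2281306476) (nat_lit 0) (nat_lit 178332520) (nat_lit 836) (nat_lit 2281306476) (nat_lit 379) (nat_lit 1) (nat_lit 378) (nat_lit 1) (nat_lit 389) (nat_lit 1) (nat_lit 367) (nat_lit 407) (nat_lit 366)))) (XT.nd (nat_lit 78) (nat_lit 760) (nat_lit 0) (XT.lf (nat_lit 836) (nat_lit 3922269123)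 (nat_lit 0) (nat_lit 389038166) (nat_lit 760) (nat_lit 389038166) (nat_lit 379) (nat_lit 1) (nat_lit 368) (nat_lit 1) (nat_lit 378) (nat_lit 1) (nat_lit 368) (nat_lit 407) (nat_lit 365)) (XT.nd (nat_lit 78) (nat_lit 760) (nat_lit 0) (XT.lf (nat_lit 76) (nat_lit 1634252882) (nat_lit 0) (nat_lit 1391526435) (nat_lit 836) (nat_lit 1634252882) (nat_lit 369) (nat_lit 1) (nat_lit 368) (nat_lit 1) (nat_lit 379) (nat_lit 1) (nat_lit 369) (nat_lit 407) (nat_lit 364)) (XT.lf (nat_lit 836) (nat_lit 2618406514) (nat_lit 0) (nat_lit 1000961688) (nat_lit 760) (nat_lit 1000961688) (nat_lit 369) (nat_lit 1) (nat_lit 358) (nat_lit 1) (nat_lit 368) (nat_lit 1) (nat_lit 370) (nat_lit 407) (nat_lit 363))))) (XT.nd (nat_lit 234) (nat_lit 1444) (nat_lit 0) (XT.nd (nat_lit 78) (nat_lit 684) (nat_lit 0) (XT.lf (nat_lit 76) (nat_lit 981856934) (nat_lit 0) (nat_lit 2617352185) (nat_lit 836) (nat_lit 981856934) (nat_lit 359) (nat_lit 1) (nat_lit 358) (nat_lit 1)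 (nat_lit 369) (nat_lit 1) (nat_lit 371) (nat_lit 407) (nat_lit 362)) (XT.nd (nat_lit 78) (nat_lit 0) (nat_lit 0) (XT.lf (nat_lit 760) (nat_lit 1304638911) (nat_lit 0) (nat_lit 1618797773) (nat_lit 684) (nat_lit 1618797773) (nat_lit 359) (nat_lit 1) (nat_lit 349) (nat_lit 1) (nat_lit 358) (nat_lit 1) (nat_lit 372) (nat_lit 407) (nat_lit 361)) (XT.lf (nat_lit 76) (nat_lit 324923500) (nat_lit 0) (nat_lit 3854147856) (nat_lit 760) (nat_lit 324923500) (nat_lit 350) (nat_lit 1) (nat_lit 349) (nat_lit 1) (nat_lit 359) (nat_lit 1) (nat_lit 373) (nat_lit 407) (nat_lit 360)))) (XT.nd (nat_lit 78) (nat_lit 684) (nat_lit 0) (XT.lf (nat_lit 76) (nat_lit 2224386264) (nat_lit 0) (nat_lit 17233071) (nat_lit 760) (nat_lit 2224386264) (nat_lit 340) (nat_lit 1) (nat_lit 339) (nat_lit 1) (nat_lit 349) (nat_lit 1) (nat_lit 374) (nat_lit 407) (nat_lit 359)) (XT.nd (nat_lit 78) (nat_lit 0) (nat_lit 0) (XT.lf (nat_lit 760) (nat_lit 3761440179) (nat_lit 0) (nat_lit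 333576407) (nat_lit 684) (nat_lit 333576407) (nat_lit 340) (nat_lit 1) (nat_lit 330) (nat_lit 1) (nat_lit 339) (nat_lit 1) (nat_lit 375) (nat_lit 407) (nat_lit 358)) (XT.lf (nat_lit 76) (nat_lit 1531337367) (nat_lit 0) (nat_lit 1328750798) (nat_lit 760) (nat_lit 1531337367) (nat_lit 331) (nat_lit 1) (nat_lit 330) (nat_lit 1) (nat_lit 340) (nat_lit 1) (nat_lit 376) (nat_lit 407) (nat_lit 357))))))) (XT.nd (nat_lit 936) (nat_lit 4180) (nat_lit 0) (XT.nd (nat_lit 468) (nat_lit 1824) (nat_lit 0) (XT.nd (nat_lit 234) (nat_lit 1292) (nat_lit 0) (XT.nd (nat_lit 78) (nat_lit 608) (nat_lit 0) (XT.lf (nat_lit 760) (nat_lit 2368868791) (nat_lit 0) (nat_lit 992973323) (nat_lit 684) (nat_lit 992973323) (nat_lit 331) (nat_lit 1) (nat_lit 321) (nat_lit 1) (nat_lit 330) (nat_lit 1) (nat_lit 377) (nat_lit 407) (nat_lit 356)) (XT.nd (nat_lit 78) (nat_lit 608) (nat_lit 0) (XT.lf (nat_lit 76) (nat_lit 836489506) (nat_lit 0) (nat_lit 2645636569) (nat_lit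 760) (nat_lit 836489506) (nat_lit 322) (nat_lit 1) (nat_lit 321) (nat_lit 1) (nat_lit 331) (nat_lit 1) (nat_lit 378) (nat_lit 407) (nat_lit 355)) (XT.lf (nat_lit 684) (nat_lit 973328629) (nat_lit 0) (nat_lit 1654727807) (nat_lit 608) (nat_lit 1654727807) (nat_lit 322) (nat_lit 1) (nat_lit 313) (nat_lit 1) (nat_lit 321) (nat_lit 1) (nat_lit 379) (nat_lit 407) (nat_lit 354)))) (XT.nd (nat_lit 78) (nat_lit 1292) (nat_lit 0) (XT.lf (nat_lit 76) (nat_lit 140475497) (nat_lit 0) (nat_lit 3966578095) (nat_lit 684) (nat_lit 140475497) (nat_lit 314) (nat_lit 1) (nat_lit 313) (nat_lit 1) (nat_lit 322) (nat_lit 1) (nat_lit 380) (nat_lit 407) (nat_lit 353)) (XT.nd (nat_lit 78) (nat_lit 608) (nat_lit 0) (XT.lf (nat_lit 76) (nat_lit 1897006050) (nat_lit 0) (nat_lit 418386380) (nat_lit 684) (nat_lit 1897006050) (nat_lit 305) (nat_lit 1) (nat_lit 304) (nat_lit 1) (nat_lit 313) (nat_lit 1) (nat_lit 381) (nat_lit 407) (nat_lit 352)) (XT.lf (nat_lit 684)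 (nat_lit 3072933249) (nat_lit 0) (nat_lit 552448854) (nat_lit 608) (nat_lit 552448854) (nat_lit 305) (nat_lit 1) (nat_lit 296) (nat_lit 1) (nat_lit 304) (nat_lit 1) (nat_lit 382) (nat_lit 407) (nat_lit 351))))) (XT.nd (nat_lit 234) (nat_lit 1216) (nat_lit 0) (XT.nd (nat_lit 78) (nat_lit 608) (nat_lit 0) (XT.lf (nat_lit 76) (nat_lit 1172821324) (nat_lit 0) (nat_lit 1797899552) (nat_lit 684) (nat_lit 1172821324) (nat_lit 297) (nat_lit 1) (nat_lit 296) (nat_lit 1) (nat_lit 305) (nat_lit 1) (nat_lit 383) (nat_lit 407) (nat_lit 350)) (XT.nd (nat_lit 78) (nat_lit 0) (nat_lit 0) (XT.lf (nat_lit 684) (nat_lit 1620784362) (nat_lit 0) (nat_lit 1244454742) (nat_lit 608) (nat_lit 1244454742) (nat_lit 297) (nat_lit 1) (nat_lit 288) (nat_lit 1) (nat_lit 296) (nat_lit 1) (nat_lit 384) (nat_lit 407) (nat_lit 349)) (XT.lf (nat_lit 76) (nat_lit 449702655) (nat_lit 0) (nat_lit 3176893408) (nat_lit 684) (nat_lit 449702655) (nat_lit 289) (nat_lit 1) (nat_lit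 288) (nat_lit 1) (nat_lit 297) (nat_lit 1) (nat_lit 385) (nat_lit 407) (nat_lit 348)))) (XT.nd (nat_lit 78) (nat_lit 684) (nat_lit 0) (XT.lf (nat_lit 608) (nat_lit 171270333) (nat_lit 0) (nat_lit 1935939125) (nat_lit 532) (nat_lit 1935939125) (nat_lit 289) (nat_lit 1) (nat_lit 281) (nat_lit 1) (nat_lit 288) (nat_lit 1) (nat_lit 386) (nat_lit 407) (nat_lit 347)) (XT.nd (nat_lit 78) (nat_lit 0) (nat_lit 0) (XT.lf (nat_lit 684) (nat_lit 3470339916) (nat_lit 0) (nat_lit 270072306) (nat_lit 608) (nat_lit 270072306) (nat_lit 281) (nat_lit 1) (nat_lit 272) (nat_lit 1) (nat_lit 280) (nat_lit 1) (nat_lit 387) (nat_lit 407) (nat_lit 346)) (XT.lf (nat_lit 76) (nat_lit 1360024354) (nat_lit 0) (nat_lit 1257939796) (nat_lit 684) (nat_lit 1360024354) (nat_lit 273) (nat_lit 1) (nat_lit 272) (nat_lit 1) (nat_lit 281) (nat_lit 1) (nat_lit 388) (nat_lit 407) (nat_lit 345)))))) (XT.nd (nat_lit 468) (nat_lit 1976) (nat_lit 0) (XT.nd (nat_lit 234) (nat_lit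 1140) (nat_lit 0) (XT.nd (nat_lit 78) (nat_lit 532) (nat_lit 0) (XT.lf (nat_lit 608) (nat_lit 1976193175) (nat_lit 0) (nat_lit 984887106) (nat_lit 532) (nat_lit 984887106) (nat_lit 273) (nat_lit 1) (nat_lit 265) (nat_lit 1) (nat_lit 272) (nat_lit 1) (nat_lit 389) (nat_lit 407) (nat_lit 344)) (XT.nd (nat_lit 78) (nat_lit 532) (nat_lit 0) (XT.lf (nat_lit 76) (nat_lit 616917835) (nat_lit 0) (nat_lit 2680481847) (nat_lit 608) (nat_lit 616917835) (nat_lit 266) (nat_lit 1) (nat_lit 265) (nat_lit 1) (nat_lit 273) (nat_lit 1) (nat_lit 390) (nat_lit 407) (nat_lit 343)) (XT.lf (nat_lit 608) (nat_lit 488399448) (nat_lit 0) (nat_lit 1697271504) (nat_lit 532) (nat_lit 1697271504) (nat_lit 266) (nat_lit 1) (nat_lit 258) (nat_lit 1) (nat_lit 265) (nat_lit 1) (nat_lit 391) (nat_lit 407) (nat_lit 342)))) (XT.nd (nat_lit 78) (nat_lit 532) (nat_lit 0) (XT.lf (nat_lit 608) (nat_lit 3608016497) (nat_lit 0) (nat_lit 122019330) (nat_lit 532) (nat_lit 122019330)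 (nat_lit 258) (nat_lit 1) (nat_lit 250) (nat_lit 1) (nat_lit 257) (nat_lit 1) (nat_lit 392) (nat_lit 407) (nat_lit 341)) (XT.nd (nat_lit 78) (nat_lit 532) (nat_lit 0) (XT.lf (nat_lit 76) (nat_lit 1420990889) (nat_lit 0) (nat_lit 979261026) (nat_lit 608) (nat_lit 1420990889) (nat_lit 251) (nat_lit 1) (nat_lit 250) (nat_lit 1) (nat_lit 258) (nat_lit 1) (nat_lit 393) (nat_lit 407) (nat_lit 340)) (XT.lf (nat_lit 608) (nat_lit 2084524841) (nat_lit 0) (nat_lit 853191725) (nat_lit 532) (nat_lit 853191725) (nat_lit 251) (nat_lit 1) (nat_lit 243) (nat_lit 1) (nat_lit 250) (nat_lit 1) (nat_lit 394) (nat_lit 407) (nat_lit 339))))) (XT.nd (nat_lit 234) (nat_lit 912) (nat_lit 0) (XT.nd (nat_lit 78) (nat_lit 1064) (nat_lit 0) (XT.lf (nat_lit 76) (nat_lit 664057600) (nat_lit 0) (nat_lit 2432782688) (nat_lit 608) (nat_lit 664057600) (nat_lit 244) (nat_lit 1) (nat_lit 243) (nat_lit 1) (nat_lit 251) (nat_lit 1) (nat_lit 395) (nat_lit 407) (nat_lit 338))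 (XT.nd (nat_lit 78) (nat_lit 608) (nat_lit 0) (XT.lf (nat_lit 532) (nat_lit 570531973) (nat_lit 0) (nat_lit 1580315064) (nat_lit 456) (nat_lit 1580315064) (nat_lit 244) (nat_lit 1) (nat_lit 237) (nat_lit 1) (nat_lit 243) (nat_lit 1) (nat_lit 396) (nat_lit 407) (nat_lit 337)) (XT.lf (nat_lit 608) (nat_lit 3527072118) (nat_lit 0) (nat_lit 87408654) (nat_lit 532) (nat_lit 87408654) (nat_lit 237) (nat_lit 1) (nat_lit 229) (nat_lit 1) (nat_lit 236) (nat_lit 1) (nat_lit 397) (nat_lit 407) (nat_lit 336)))) (XT.nd (nat_lit 156) (nat_lit 456) (nat_lit 0) (XT.nd (nat_lit 78) (nat_lit 456) (nat_lit 0) (XT.lf (nat_lit 76) (nat_lit 1375772006) (nat_lit 0) (nat_lit 921116078) (nat_lit 608) (nat_lit 1375772006) (nat_lit 230) (nat_lit 1) (nat_lit 229) (nat_lit 1) (nat_lit 237) (nat_lit 1) (nat_lit 398) (nat_lit 407) (nat_lit 335)) (XT.lf (nat_lit 532) (nat_lit 1985162366) (nat_lit 0) (nat_lit 829361345) (nat_lit 456) (nat_lit 829361345) (nat_lit 230)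 (nat_lit 1) (nat_lit 223) (nat_lit 1) (nat_lit 229) (nat_lit 1) (nat_lit 399) (nat_lit 407) (nat_lit 334))) (XT.nd (nat_lit 78) (nat_lit 456) (nat_lit 0) (XT.lf (nat_lit 76) (nat_lit 610330520) (nat_lit 0) (nat_lit 2394755420) (nat_lit 532) (nat_lit 610330520) (nat_lit 224) (nat_lit 1) (nat_lit 223) (nat_lit 1) (nat_lit 230) (nat_lit 1) (nat_lit 400) (nat_lit 407) (nat_lit 333)) (XT.lf (nat_lit 532) (nat_lit 455394966) (nat_lit 0) (nat_lit 1565901091) (nat_lit 456) (nat_lit 1565901091) (nat_lit 224) (nat_lit 1) (nat_lit 217) (nat_lit 1) (nat_lit 223) (nat_lit 1) (nat_lit 401) (nat_lit 407) (nat_lit 332))))))))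
noncomputable def ec62 : XT := (XT.nd (nat_lit 1872) (nat_lit 304) (nat_lit 0) (XT.nd (nat_lit 936) (nat_lit 2888) (nat_lit 0) (XT.nd (nat_lit 468) (nat_lit 1216) (nat_lit 0) (XT.nd (nat_lit 234) (nat_lit 912) (nat_lit 0) (XT.nd (nat_lit 78) (nat_lit 456) (nat_lit 0) (XT.lf (nat_lit 532) (nat_lit 3263472399) (nat_lit 0) (nat_lit 147961001) (nat_lit 456) (nat_lit 147961001) (nat_lit 217) (nat_lit 1) (nat_lit 210) (nat_lit 1) (nat_lit 216) (nat_lit 1) (nat_lit 402) (nat_lit 407) (nat_lit 331)) (XT.nd (nat_lit 78) (nat_lit 456) (nat_lit 0) (XT.lf (nat_lit 76) (nat_lit 1241907321) (nat_lit 0) (nat_lit 1047840416) (nat_lit 532) (nat_lit 1241907321) (nat_lit 211) (nat_lit 1) (nat_lit 210) (nat_lit 1) (nat_lit 217) (nat_lit 1) (nat_lit 403) (nat_lit 407) (nat_lit 330)) (XT.lf (nat_lit 532) (nat_lit 1712550606) (nat_lit 0) (nat_lit 895886924) (nat_lit 456) (nat_lit 895886924) (nat_lit 211) (nat_lit 1) (nat_lit 204) (nat_lit 1) (nat_lit 210) (nat_lit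 1) (nat_lit 404) (nat_lit 407) (nat_lit 329)))) (XT.nd (nat_lit 78) (nat_lit 912) (nat_lit 0) (XT.lf (nat_lit 76) (nat_lit 472533999) (nat_lit 0) (nat_lit 2532239365) (nat_lit 532) (nat_lit 472533999) (nat_lit 205) (nat_lit 1) (nat_lit 204) (nat_lit 1) (nat_lit 211) (nat_lit 1) (nat_lit 405) (nat_lit 407) (nat_lit 328)) (XT.nd (nat_lit 78) (nat_lit 532) (nat_lit 0) (XT.lf (nat_lit 456) (nat_lit 175974601) (nat_lit 0) (nat_lit 1637259382) (nat_lit 380) (nat_lit 1637259382) (nat_lit 205) (nat_lit 1) (nat_lit 199) (nat_lit 1) (nat_lit 204) (nat_lit 1) (nat_lit 406) (nat_lit 407) (nat_lit 327)) (XT.lf (nat_lit 532) (nat_lit 2848637976) (nat_lit 0) (nat_lit 287696688) (nat_lit 456) (nat_lit 287696688) (nat_lit 199) (nat_lit 1) (nat_lit 192) (nat_lit 1) (nat_lit 198) (nat_lit 1) (nat_lit 407) (nat_lit 407) (nat_lit 326))))) (XT.nd (nat_lit 234) (nat_lit 836) (nat_lit 0) (XT.nd (nat_lit 78) (nat_lit 380) (nat_lit 0) (XT.lf (nat_lit 76) (nat_lit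 1034717341) (nat_lit 0) (nat_lit 1328261210) (nat_lit 532) (nat_lit 1034717341) (nat_lit 193) (nat_lit 1) (nat_lit 192) (nat_lit 1) (nat_lit 199) (nat_lit 1) (nat_lit 408) (nat_lit 407) (nat_lit 325)) (XT.nd (nat_lit 78) (nat_lit 0) (nat_lit 0) (XT.lf (nat_lit 456) (nat_lit 1296771325) (nat_lit 0) (nat_lit 1037467073) (nat_lit 380) (nat_lit 1037467073) (nat_lit 193) (nat_lit 1) (nat_lit 187) (nat_lit 1) (nat_lit 192) (nat_lit 1) (nat_lit 409) (nat_lit 407) (nat_lit 324)) (XT.lf (nat_lit 76) (nat_lit 265335170) (nat_lit 0) (nat_lit 2815385937) (nat_lit 456) (nat_lit 265335170) (nat_lit 188) (nat_lit 1) (nat_lit 187) (nat_lit 1) (nat_lit 193) (nat_lit 1) (nat_lit 410) (nat_lit 407) (nat_lit 323)))) (XT.nd (nat_lit 78) (nat_lit 380) (nat_lit 0) (XT.lf (nat_lit 76) (nat_lit 1542359047) (nat_lit 0) (nat_lit 235797705) (nat_lit 456) (nat_lit 1542359047) (nat_lit 182) (nat_lit 1) (nat_lit 181) (nat_lit 1) (nat_lit 187) (nat_lit 1) (nat_lit 411)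 (nat_lit 407) (nat_lit 322)) (XT.nd (nat_lit 78) (nat_lit 0) (nat_lit 0) (XT.lf (nat_lit 456) (nat_lit 2309975075) (nat_lit 0) (nat_lit 492667526) (nat_lit 380) (nat_lit 492667526) (nat_lit 182) (nat_lit 1) (nat_lit 176) (nat_lit 1) (nat_lit 181) (nat_lit 1) (nat_lit 412) (nat_lit 407) (nat_lit 321)) (XT.lf (nat_lit 76) (nat_lit 767562624) (nat_lit 0) (nat_lit 1735173480) (nat_lit 456) (nat_lit 767562624) (nat_lit 177) (nat_lit 1) (nat_lit 176) (nat_lit 1) (nat_lit 182) (nat_lit 1) (nat_lit 413) (nat_lit 407) (nat_lit 320)))))) (XT.nd (nat_lit 468) (nat_lit 1444) (nat_lit 0) (XT.nd (nat_lit 234) (nat_lit 684) (nat_lit 0) (XT.nd (nat_lit 78) (nat_lit 380) (nat_lit 0) (XT.lf (nat_lit 456) (nat_lit 764052940) (nat_lit 0) (nat_lit 1240750486) (nat_lit 380) (nat_lit 1240750486) (nat_lit 177) (nat_lit 1) (nat_lit 171) (nat_lit 1) (nat_lit 176) (nat_lit 1) (nat_lit 414) (nat_lit 407) (nat_lit 319)) (XT.nd (nat_lit 78) (nat_lit 380) (nat_lit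 0) (XT.lf (nat_lit 76) (nat_lit 1519871) (nat_lit 0) (nat_lit 3218155330) (nat_lit 456) (nat_lit 1519871) (nat_lit 172) (nat_lit 1) (nat_lit 171) (nat_lit 1) (nat_lit 177) (nat_lit 1) (nat_lit 415) (nat_lit 407) (nat_lit 318)) (XT.lf (nat_lit 76) (nat_lit 1221299357) (nat_lit 0) (nat_lit 754200768) (nat_lit 380) (nat_lit 1221299357) (nat_lit 167) (nat_lit 1) (nat_lit 166) (nat_lit 1) (nat_lit 171) (nat_lit 1) (nat_lit 416) (nat_lit 407) (nat_lit 317)))) (XT.nd (nat_lit 78) (nat_lit 304) (nat_lit 0) (XT.lf (nat_lit 456) (nat_lit 1671345794) (nat_lit 0) (nat_lit 750719189) (nat_lit 380) (nat_lit 750719189) (nat_lit 167) (nat_lit 1) (nat_lit 161) (nat_lit 1) (nat_lit 166) (nat_lit 1) (nat_lit 417) (nat_lit 407) (nat_lit 316)) (XT.nd (nat_lit 78) (nat_lit 304) (nat_lit 0) (XT.lf (nat_lit 76) (nat_lit 452073481) (nat_lit 0) (nat_lit 2244875754) (nat_lit 456) (nat_lit 452073481) (nat_lit 162) (nat_lit 1) (nat_lit 161) (nat_lit 1) (nat_lit 167)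 (nat_lit 1) (nat_lit 418) (nat_lit 407) (nat_lit 315)) (XT.lf (nat_lit 380) (nat_lit 137222327) (nat_lit 0) (nat_lit 1494107630) (nat_lit 304) (nat_lit 1494107630) (nat_lit 162) (nat_lit 1) (nat_lit 157) (nat_lit 1) (nat_lit 161) (nat_lit 1) (nat_lit 419) (nat_lit 407) (nat_lit 314))))) (XT.nd (nat_lit 234) (nat_lit 684) (nat_lit 0) (XT.nd (nat_lit 78) (nat_lit 304) (nat_lit 0) (XT.lf (nat_lit 456) (nat_lit 2490613187) (nat_lit 0) (nat_lit 305761751) (nat_lit 380) (nat_lit 305761751) (nat_lit 157) (nat_lit 1) (nat_lit 151) (nat_lit 1) (nat_lit 156) (nat_lit 1) (nat_lit 420) (nat_lit 407) (nat_lit 313)) (XT.nd (nat_lit 78) (nat_lit 304) (nat_lit 0) (XT.lf (nat_lit 76) (nat_lit 859478719) (nat_lit 0) (nat_lit 1359994347) (nat_lit 456) (nat_lit 859478719) (nat_lit 152) (nat_lit 1) (nat_lit 151) (nat_lit 1) (nat_lit 157) (nat_lit 1) (nat_lit 421) (nat_lit 407) (nat_lit 312)) (XT.lf (nat_lit 380) (nat_lit 953484864) (nat_lit 0) (nat_lit 1051280593)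 (nat_lit 304) (nat_lit 1051280593) (nat_lit 152) (nat_lit 1) (nat_lit 147) (nat_lit 1) (nat_lit 151) (nat_lit 1) (nat_lit 422) (nat_lit 407) (nat_lit 311)))) (XT.nd (nat_lit 78) (nat_lit 684) (nat_lit 0) (XT.lf (nat_lit 76) (nat_lit 98353543) (nat_lit 0) (nat_lit 2836758548) (nat_lit 380) (nat_lit 98353543) (nat_lit 148) (nat_lit 1) (nat_lit 147) (nat_lit 1) (nat_lit 152) (nat_lit 1) (nat_lit 423) (nat_lit 407) (nat_lit 310)) (XT.nd (nat_lit 78) (nat_lit 304) (nat_lit 0) (XT.lf (nat_lit 76) (nat_lit 1227194798) (nat_lit 0) (nat_lit 556499213) (nat_lit 380) (nat_lit 1227194798) (nat_lit 143) (nat_lit 1) (nat_lit 142) (nat_lit 1) (nat_lit 147) (nat_lit 1) (nat_lit 424) (nat_lit 407) (nat_lit 309)) (XT.lf (nat_lit 380) (nat_lit 1691375224) (nat_lit 0) (nat_lit 648628702) (nat_lit 304) (nat_lit 648628702) (nat_lit 143) (nat_lit 1) (nat_lit 138) (nat_lit 1) (nat_lit 142) (nat_lit 1) (nat_lit 425) (nat_lit 407) (nat_lit 308))))))) (XT.nd (nat_lit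 52182) (nat_lit 0) (nat_lit 26448) (XT.nd (nat_lit 51714) (nat_lit 0) (nat_lit 27740) (XT.nd (nat_lit 51480) (nat_lit 0) (nat_lit 27588) (XT.nd (nat_lit 78) (nat_lit 304) (nat_lit 0) (XT.lf (nat_lit 76) (nat_lit 466060378) (nat_lit 0) (nat_lit 2034472454) (nat_lit 380) (nat_lit 466060378) (nat_lit 139) (nat_lit 1) (nat_lit 138) (nat_lit 1) (nat_lit 143) (nat_lit 1) (nat_lit 426) (nat_lit 407) (nat_lit 307)) (XT.nd (nat_lit 51324) (nat_lit 0) (nat_lit 27588) (XT.lf (nat_lit 380) (nat_lit 174368944) (nat_lit 0) (nat_lit 1385177274) (nat_lit 304) (nat_lit 1385177274) (nat_lit 139) (nat_lit 1) (nat_lit 134) (nat_lit 1) (nat_lit 138) (nat_lit 1) (nat_lit 427) (nat_lit 407) (nat_lit 306)) (XT.lf (nat_lit 1900) (nat_lit 1174330024) (nat_lit 0) (nat_lit 1184150154) (nat_lit 1900) (nat_lit 1174330024) (nat_lit 522) (nat_lit 1) (nat_lit 497) (nat_lit 0) (nat_lit 522) (nat_lit 0) (nat_lit 324) (nat_lit 408) (nat_lit 408)))) (XT.nd (nat_lit 78) (nat_lit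 0) (nat_lit 76) (XT.lf (nat_lit 1900) (nat_lit 4643477478) (nat_lit 76) (nat_lit 1176359692) (nat_lit 0) (nat_lit 1176359692) (nat_lit 522) (nat_lit 1) (nat_lit 498) (nat_lit 1) (nat_lit 497) (nat_lit 0) (nat_lit 325) (nat_lit 408) (nat_lit 407)) (XT.nd (nat_lit 78) (nat_lit 0) (nat_lit 0) (XT.lf (nat_lit 1900) (nat_lit 2279969544) (nat_lit 0) (nat_lit 2367592506) (nat_lit 1824) (nat_lit 2279969544) (nat_lit 523) (nat_lit 1) (nat_lit 498) (nat_lit 1) (nat_lit 522) (nat_lit 1) (nat_lit 326) (nat_lit 408) (nat_lit 406)) (XT.lf (nat_lit 1900) (nat_lit 4462462442) (nat_lit 76) (nat_lit 1198722423) (nat_lit 0) (nat_lit 1198722423) (nat_lit 523) (nat_lit 1) (nat_lit 499) (nat_lit 1) (nat_lit 498) (nat_lit 1) (nat_lit 327) (nat_lit 408) (nat_lit 405))))) (XT.nd (nat_lit 234) (nat_lit 0) (nat_lit 76) (XT.nd (nat_lit 78) (nat_lit 0) (nat_lit 0) (XT.lf (nat_lit 1900) (nat_lit 2168672185) (nat_lit 0) (nat_lit 2455685114) (nat_lit 1824) (nat_lit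 2168672185) (nat_lit 524) (nat_lit 1) (nat_lit 499) (nat_lit 1) (nat_lit 523) (nat_lit 1) (nat_lit 328) (nat_lit 408) (nat_lit 404)) (XT.nd (nat_lit 78) (nat_lit 0) (nat_lit 76) (XT.lf (nat_lit 1900) (nat_lit 4198523771) (nat_lit 76) (nat_lit 1264311228) (nat_lit 0) (nat_lit 1264311228) (nat_lit 524) (nat_lit 1) (nat_lit 500) (nat_lit 1) (nat_lit 499) (nat_lit 1) (nat_lit 329) (nat_lit 408) (nat_lit 403)) (XT.lf (nat_lit 1900) (nat_lit 2017310175) (nat_lit 0) (nat_lit 2627389257) (nat_lit 1824) (nat_lit 2017310175) (nat_lit 525) (nat_lit 1) (nat_lit 500) (nat_lit 1) (nat_lit 524) (nat_lit 1) (nat_lit 330) (nat_lit 408) (nat_lit 402)))) (XT.nd (nat_lit 78) (nat_lit 0) (nat_lit 76) (XT.lf (nat_lit 1900) (nat_lit 3856645268) (nat_lit 76) (nat_lit 1370582989) (nat_lit 0) (nat_lit 1370582989) (nat_lit 525) (nat_lit 1) (nat_lit 501) (nat_lit 1) (nat_lit 500) (nat_lit 1) (nat_lit 331) (nat_lit 408) (nat_lit 401)) (XT.nd (nat_lit 78) (nat_lit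 0) (nat_lit 0) (XT.lf (nat_lit 1900) (nat_lit 1828309598) (nat_lit 0) (nat_lit 2877751683) (nat_lit 1824) (nat_lit 1828309598) (nat_lit 526) (nat_lit 1) (nat_lit 501) (nat_lit 1) (nat_lit 525) (nat_lit 1) (nat_lit 332) (nat_lit 408) (nat_lit 400)) (XT.lf (nat_lit 1900) (nat_lit 3441582626) (nat_lit 76) (nat_lit 1515110293) (nat_lit 0) (nat_lit 1515110293) (nat_lit 526) (nat_lit 1) (nat_lit 502) (nat_lit 1) (nat_lit 501) (nat_lit 1) (nat_lit 333) (nat_lit 408) (nat_lit 399)))))) (XT.nd (nat_lit 468) (nat_lit 1520) (nat_lit 0) (XT.nd (nat_lit 234) (nat_lit 0) (nat_lit 76) (XT.nd (nat_lit 78) (nat_lit 0) (nat_lit 0) (XT.lf (nat_lit 1900) (nat_lit 1603985261) (nat_lit 0) (nat_lit 3202044940) (nat_lit 1824) (nat_lit 1603985261) (nat_lit 527) (nat_lit 1) (nat_lit 502) (nat_lit 1) (nat_lit 526) (nat_lit 1) (nat_lit 334) (nat_lit 408) (nat_lit 398)) (XT.nd (nat_lit 78) (nat_lit 0) (nat_lit 76) (XT.lf (nat_lit 1900) (nat_lit 2957872962) (nat_lit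 76) (nat_lit 1695576607) (nat_lit 0) (nat_lit 1695576607) (nat_lit 527) (nat_lit 1) (nat_lit 503) (nat_lit 1) (nat_lit 502) (nat_lit 1) (nat_lit 335) (nat_lit 408) (nat_lit 397)) (XT.lf (nat_lit 1900) (nat_lit 1346545356) (nat_lit 0) (nat_lit 3595757955) (nat_lit 1824) (nat_lit 1346545356) (nat_lit 528) (nat_lit 1) (nat_lit 503) (nat_lit 1) (nat_lit 527) (nat_lit 1) (nat_lit 336) (nat_lit 408) (nat_lit 396)))) (XT.nd (nat_lit 78) (nat_lit 0) (nat_lit 76) (XT.lf (nat_lit 1900) (nat_lit 2409843971) (nat_lit 76) (nat_lit 1909771646) (nat_lit 0) (nat_lit 1909771646) (nat_lit 528) (nat_lit 1) (nat_lit 504) (nat_lit 1) (nat_lit 503) (nat_lit 1) (nat_lit 337) (nat_lit 408) (nat_lit 395)) (XT.nd (nat_lit 78) (nat_lit 0) (nat_lit 0) (XT.lf (nat_lit 1900) (nat_lit 1058095927) (nat_lit 0) (nat_lit 4054586988) (nat_lit 1824) (nat_lit 1058095927) (nat_lit 529) (nat_lit 1) (nat_lit 504) (nat_lit 1) (nat_lit 528) (nat_lit 1) (nat_lit 338) (nat_lit 408)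 (nat_lit 394)) (XT.lf (nat_lit 1900) (nat_lit 1801622708) (nat_lit 76) (nat_lit 2155586929) (nat_lit 0) (nat_lit 2155586929) (nat_lit 529) (nat_lit 1) (nat_lit 505) (nat_lit 1) (nat_lit 504) (nat_lit 1) (nat_lit 339) (nat_lit 408) (nat_lit 393))))) (XT.nd (nat_lit 234) (nat_lit 1748) (nat_lit 0) (XT.nd (nat_lit 78) (nat_lit 0) (nat_lit 0) (XT.lf (nat_lit 1900) (nat_lit 740645154) (nat_lit 0) (nat_lit 4574426946) (nat_lit 1824) (nat_lit 740645154) (nat_lit 530) (nat_lit 1) (nat_lit 505) (nat_lit 1) (nat_lit 529) (nat_lit 1) (nat_lit 340) (nat_lit 408) (nat_lit 392)) (XT.nd (nat_lit 78) (nat_lit 0) (nat_lit 76) (XT.lf (nat_lit 1900) (nat_lit 1137144022) (nat_lit 76) (nat_lit 2431011512) (nat_lit 0) (nat_lit 2431011512) (nat_lit 530) (nat_lit 1) (nat_lit 506) (nat_lit 1) (nat_lit 505) (nat_lit 1) (nat_lit 341) (nat_lit 408) (nat_lit 391)) (XT.lf (nat_lit 1900) (nat_lit 396107473) (nat_lit 0) (nat_lit 5151363058) (nat_lit 1824) (nat_lit 396107473)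 (nat_lit 531) (nat_lit 1) (nat_lit 506) (nat_lit 1) (nat_lit 530) (nat_lit 1) (nat_lit 342) (nat_lit 408) (nat_lit 390)))) (XT.nd (nat_lit 78) (nat_lit 1824) (nat_lit 0) (XT.lf (nat_lit 1900) (nat_lit 420158640) (nat_lit 76) (nat_lit 2734127891) (nat_lit 0) (nat_lit 2734127891) (nat_lit 531) (nat_lit 1) (nat_lit 507) (nat_lit 1) (nat_lit 506) (nat_lit 1) (nat_lit 343) (nat_lit 408) (nat_lit 389)) (XT.nd (nat_lit 78) (nat_lit 1900) (nat_lit 0) (XT.lf (nat_lit 1900) (nat_lit 26307524) (nat_lit 0) (nat_lit 5781662874) (nat_lit 1824) (nat_lit 26307524) (nat_lit 532) (nat_lit 1) (nat_lit 507) (nat_lit 1) (nat_lit 531) (nat_lit 1) (nat_lit 344) (nat_lit 408) (nat_lit 388)) (XT.lf (nat_lit 1976) (nat_lit 2719593912) (nat_lit 0) (nat_lit 341224370) (nat_lit 1900) (nat_lit 2719593912) (nat_lit 508) (nat_lit 1) (nat_lit 482) (nat_lit 1) (nat_lit 507) (nat_lit 1) (nat_lit 345) (nat_lit 408) (nat_lit 387))))))))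
noncomputable def ec63 : XT := (XT.nd (nat_lit 1872) (nat_lit 9196) (nat_lit 0) (XT.nd (nat_lit 936) (nat_lit 4788) (nat_lit 0) (XT.nd (nat_lit 468) (nat_lit 3648) (nat_lit 0) (XT.nd (nat_lit 234) (nat_lit 988) (nat_lit 0) (XT.nd (nat_lit 78) (nat_lit 0) (nat_lit 76) (XT.lf (nat_lit 1976) (nat_lit 4998342236) (nat_lit 76) (nat_lit 364601481) (nat_lit 0) (nat_lit 364601481) (nat_lit 508) (nat_lit 1) (nat_lit 483) (nat_lit 1) (nat_lit 482) (nat_lit 1) (nat_lit 346) (nat_lit 408) (nat_lit 386)) (XT.nd (nat_lit 78) (nat_lit 0) (nat_lit 0) (XT.lf (nat_lit 1976) (nat_lit 2266519537) (nat_lit 0) (nat_lit 1142026684) (nat_lit 1900) (nat_lit 2266519537) (nat_lit 509) (nat_lit 1) (nat_lit 483) (nat_lit 1) (nat_lit 508) (nat_lit 1) (nat_lit 347) (nat_lit 408) (nat_lit 385)) (XT.lf (nat_lit 1976) (nat_lit 4069346171) (nat_lit 76) (nat_lit 777060918) (nat_lit 0) (nat_lit 777060918) (nat_lit 509) (nat_lit 1) (nat_lit 484) (nat_lit 1) (nat_lit 483)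 (nat_lit 1) (nat_lit 348) (nat_lit 408) (nat_lit 384)))) (XT.nd (nat_lit 78) (nat_lit 1140) (nat_lit 0) (XT.lf (nat_lit 76) (nat_lit 1793897986) (nat_lit 0) (nat_lit 1984557587) (nat_lit 1900) (nat_lit 1793897986) (nat_lit 485) (nat_lit 1) (nat_lit 484) (nat_lit 1) (nat_lit 509) (nat_lit 1) (nat_lit 349) (nat_lit 408) (nat_lit 383)) (XT.nd (nat_lit 78) (nat_lit 0) (nat_lit 0) (XT.lf (nat_lit 1216) (nat_lit 3102631636) (nat_lit 0) (nat_lit 1209676857) (nat_lit 1140) (nat_lit 1209676857) (nat_lit 485) (nat_lit 1) (nat_lit 469) (nat_lit 1) (nat_lit 484) (nat_lit 1) (nat_lit 350) (nat_lit 408) (nat_lit 382)) (XT.lf (nat_lit 76) (nat_lit 1303216547) (nat_lit 0) (nat_lit 2865768769) (nat_lit 1216) (nat_lit 1303216547) (nat_lit 470) (nat_lit 1) (nat_lit 469) (nat_lit 1) (nat_lit 485) (nat_lit 1) (nat_lit 351) (nat_lit 408) (nat_lit 381))))) (XT.nd (nat_lit 234) (nat_lit 1824) (nat_lit 0) (XT.nd (nat_lit 78) (nat_lit 912) (nat_lit 0) (XT.lf (nat_lit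 988) (nat_lit 2101110196) (nat_lit 0) (nat_lit 1660957324) (nat_lit 912) (nat_lit 1660957324) (nat_lit 470) (nat_lit 1) (nat_lit 457) (nat_lit 1) (nat_lit 469) (nat_lit 1) (nat_lit 352) (nat_lit 408) (nat_lit 380)) (XT.nd (nat_lit 78) (nat_lit 912) (nat_lit 0) (XT.lf (nat_lit 76) (nat_lit 795890475) (nat_lit 0) (nat_lit 3782758293) (nat_lit 988) (nat_lit 795890475) (nat_lit 458) (nat_lit 1) (nat_lit 457) (nat_lit 1) (nat_lit 470) (nat_lit 1) (nat_lit 353) (nat_lit 408) (nat_lit 379)) (XT.lf (nat_lit 988) (nat_lit 1067551987) (nat_lit 0) (nat_lit 2129482191) (nat_lit 912) (nat_lit 2129482191) (nat_lit 458) (nat_lit 1) (nat_lit 445) (nat_lit 1) (nat_lit 457) (nat_lit 1) (nat_lit 354) (nat_lit 408) (nat_lit 378)))) (XT.nd (nat_lit 78) (nat_lit 1824) (nat_lit 0) (XT.lf (nat_lit 76) (nat_lit 273266071) (nat_lit 0) (nat_lit 4732764354) (nat_lit 988) (nat_lit 273266071) (nat_lit 446) (nat_lit 1) (nat_lit 445) (nat_lit 1) (nat_lit 458) (nat_lit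 1) (nat_lit 355) (nat_lit 408) (nat_lit 377)) (XT.nd (nat_lit 78) (nat_lit 988) (nat_lit 0) (XT.lf (nat_lit 912) (nat_lit 4591764) (nat_lit 0) (nat_lit 2613900108) (nat_lit 836) (nat_lit 2613900108) (nat_lit 446) (nat_lit 1) (nat_lit 434) (nat_lit 1) (nat_lit 445) (nat_lit 1) (nat_lit 356) (nat_lit 408) (nat_lit 376)) (XT.lf (nat_lit 988) (nat_lit 4662982043) (nat_lit 0) (nat_lit 261643630) (nat_lit 912) (nat_lit 261643630) (nat_lit 434) (nat_lit 1) (nat_lit 421) (nat_lit 1) (nat_lit 433) (nat_lit 1) (nat_lit 357) (nat_lit 408) (nat_lit 375)))))) (XT.nd (nat_lit 468) (nat_lit 2356) (nat_lit 0) (XT.nd (nat_lit 234) (nat_lit 1596) (nat_lit 0) (XT.nd (nat_lit 78) (nat_lit 836) (nat_lit 0) (XT.lf (nat_lit 76) (nat_lit 2034706528) (nat_lit 0) (nat_lit 1071031849) (nat_lit 988) (nat_lit 2034706528) (nat_lit 422) (nat_lit 1) (nat_lit 421) (nat_lit 1) (nat_lit 434) (nat_lit 1) (nat_lit 358) (nat_lit 408) (nat_lit 374)) (XT.nd (nat_lit 78) (nat_lit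 0) (nat_lit 0) (XT.lf (nat_lit 912) (nat_lit 3480436416) (nat_lit 0) (nat_lit 807472224) (nat_lit 836) (nat_lit 807472224) (nat_lit 422) (nat_lit 1) (nat_lit 410) (nat_lit 1) (nat_lit 421) (nat_lit 1) (nat_lit 359) (nat_lit 408) (nat_lit 373)) (XT.lf (nat_lit 76) (nat_lit 1439979544) (nat_lit 0) (nat_lit 2170789395) (nat_lit 912) (nat_lit 1439979544) (nat_lit 411) (nat_lit 1) (nat_lit 410) (nat_lit 1) (nat_lit 422) (nat_lit 1) (nat_lit 360) (nat_lit 408) (nat_lit 372)))) (XT.nd (nat_lit 78) (nat_lit 760) (nat_lit 0) (XT.lf (nat_lit 912) (nat_lit 2276974318) (nat_lit 0) (nat_lit 1364868451) (nat_lit 836) (nat_lit 1364868451) (nat_lit 411) (nat_lit 1) (nat_lit 399) (nat_lit 1) (nat_lit 410) (nat_lit 1) (nat_lit 361) (nat_lit 408) (nat_lit 371)) (XT.nd (nat_lit 78) (nat_lit 760) (nat_lit 0) (XT.lf (nat_lit 76) (nat_lit 835366739) (nat_lit 0) (nat_lit 3292508281) (nat_lit 912) (nat_lit 835366739) (nat_lit 400) (nat_lit 1) (nat_lit 399) (nat_lit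 1) (nat_lit 411) (nat_lit 1) (nat_lit 362) (nat_lit 408) (nat_lit 370)) (XT.lf (nat_lit 836) (nat_lit 1054718474) (nat_lit 0) (nat_lit 1932740718) (nat_lit 760) (nat_lit 1932740718) (nat_lit 400) (nat_lit 1) (nat_lit 389) (nat_lit 1) (nat_lit 399) (nat_lit 1) (nat_lit 363) (nat_lit 408) (nat_lit 369))))) (XT.nd (nat_lit 234) (nat_lit 760) (nat_lit 0) (XT.nd (nat_lit 78) (nat_lit 1596) (nat_lit 0) (XT.lf (nat_lit 76) (nat_lit 221898652) (nat_lit 0) (nat_lit 4434067755) (nat_lit 836) (nat_lit 221898652) (nat_lit 390) (nat_lit 1) (nat_lit 389) (nat_lit 1) (nat_lit 400) (nat_lit 1) (nat_lit 364) (nat_lit 408) (nat_lit 368)) (XT.nd (nat_lit 78) (nat_lit 760) (nat_lit 0) (XT.lf (nat_lit 76) (nat_lit 2326932605) (nat_lit 0) (nat_lit 181899170) (nat_lit 836) (nat_lit 2326932605) (nat_lit 379) (nat_lit 1) (nat_lit 378) (nat_lit 1) (nat_lit 389) (nat_lit 1) (nat_lit 365) (nat_lit 408) (nat_lit 367)) (XT.lf (nat_lit 836) (nat_lit 4000714506) (nat_lit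 0) (nat_lit 396818929) (nat_lit 760) (nat_lit 396818929) (nat_lit 379) (nat_lit 1) (nat_lit 368) (nat_lit 1) (nat_lit 378) (nat_lit 1) (nat_lit 366) (nat_lit 408) (nat_lit 366)))) (XT.nd (nat_lit 78) (nat_lit 760) (nat_lit 0) (XT.lf (nat_lit 76) (nat_lit 1666937939) (nat_lit 0) (nat_lit 1419356963) (nat_lit 836) (nat_lit 1666937939) (nat_lit 369) (nat_lit 1) (nat_lit 368) (nat_lit 1) (nat_lit 379) (nat_lit 1) (nat_lit 367) (nat_lit 408) (nat_lit 365)) (XT.nd (nat_lit 78) (nat_lit 0) (nat_lit 0) (XT.lf (nat_lit 836) (nat_lit 2670774645) (nat_lit 0) (nat_lit 1020980922) (nat_lit 760) (nat_lit 1020980922) (nat_lit 369) (nat_lit 1) (nat_lit 358) (nat_lit 1) (nat_lit 368) (nat_lit 1) (nat_lit 368) (nat_lit 408) (nat_lit 364)) (XT.lf (nat_lit 76) (nat_lit 1001494073) (nat_lit 0) (nat_lit 2669699228) (nat_lit 836) (nat_lit 1001494073) (nat_lit 359) (nat_lit 1) (nat_lit 358) (nat_lit 1) (nat_lit 369) (nat_lit 1) (nat_lit 369) (nat_lit 408) (nat_lit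 363))))))) (XT.nd (nat_lit 936) (nat_lit 4484) (nat_lit 0) (XT.nd (nat_lit 468) (nat_lit 1900) (nat_lit 0) (XT.nd (nat_lit 234) (nat_lit 1368) (nat_lit 0) (XT.nd (nat_lit 78) (nat_lit 760) (nat_lit 0) (XT.lf (nat_lit 760) (nat_lit 1330731690) (nat_lit 0) (nat_lit 1651173729) (nat_lit 684) (nat_lit 1651173729) (nat_lit 359) (nat_lit 1) (nat_lit 349) (nat_lit 1) (nat_lit 358) (nat_lit 1) (nat_lit 370) (nat_lit 408) (nat_lit 362)) (XT.nd (nat_lit 78) (nat_lit 760) (nat_lit 0) (XT.lf (nat_lit 76) (nat_lit 331421970) (nat_lit 0) (nat_lit 3931230813) (nat_lit 760) (nat_lit 331421970) (nat_lit 350) (nat_lit 1) (nat_lit 349) (nat_lit 1) (nat_lit 359) (nat_lit 1) (nat_lit 371) (nat_lit 408) (nat_lit 361)) (XT.lf (nat_lit 76) (nat_lit 2268873989) (nat_lit 0) (nat_lit 17577733) (nat_lit 760) (nat_lit 2268873989) (nat_lit 340) (nat_lit 1) (nat_lit 339) (nat_lit 1) (nat_lit 349) (nat_lit 1) (nat_lit 372) (nat_lit 408) (nat_lit 360)))) (XT.nd (nat_lit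 78) (nat_lit 684) (nat_lit 0) (XT.lf (nat_lit 760) (nat_lit 3836668983) (nat_lit 0) (nat_lit 340247935) (nat_lit 684) (nat_lit 340247935) (nat_lit 340) (nat_lit 1) (nat_lit 330) (nat_lit 1) (nat_lit 339) (nat_lit 1) (nat_lit 373) (nat_lit 408) (nat_lit 359)) (XT.nd (nat_lit 78) (nat_lit 684) (nat_lit 0) (XT.lf (nat_lit 76) (nat_lit 1561964114) (nat_lit 0) (nat_lit 1355325814) (nat_lit 760) (nat_lit 1561964114) (nat_lit 331) (nat_lit 1) (nat_lit 330) (nat_lit 1) (nat_lit 340) (nat_lit 1) (nat_lit 374) (nat_lit 408) (nat_lit 358)) (XT.lf (nat_lit 760) (nat_lit 2416246167) (nat_lit 0) (nat_lit 1012832789) (nat_lit 684) (nat_lit 1012832789) (nat_lit 331) (nat_lit 1) (nat_lit 321) (nat_lit 1) (nat_lit 330) (nat_lit 1) (nat_lit 375) (nat_lit 408) (nat_lit 357))))) (XT.nd (nat_lit 234) (nat_lit 1292) (nat_lit 0) (XT.nd (nat_lit 78) (nat_lit 608) (nat_lit 0) (XT.lf (nat_lit 76) (nat_lit 853219296) (nat_lit 0) (nat_lit 2698549300) (nat_lit 760)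 (nat_lit 853219296) (nat_lit 322) (nat_lit 1) (nat_lit 321) (nat_lit 1) (nat_lit 331) (nat_lit 1) (nat_lit 376) (nat_lit 408) (nat_lit 356)) (XT.nd (nat_lit 78) (nat_lit 0) (nat_lit 0) (XT.lf (nat_lit 684) (nat_lit 992795202) (nat_lit 0) (nat_lit 1687822363) (nat_lit 608) (nat_lit 1687822363) (nat_lit 322) (nat_lit 1) (nat_lit 313) (nat_lit 1) (nat_lit 321) (nat_lit 1) (nat_lit 377) (nat_lit 408) (nat_lit 355)) (XT.lf (nat_lit 76) (nat_lit 143285007) (nat_lit 0) (nat_lit 4045909657) (nat_lit 684) (nat_lit 143285007) (nat_lit 314) (nat_lit 1) (nat_lit 313) (nat_lit 1) (nat_lit 322) (nat_lit 1) (nat_lit 378) (nat_lit 408) (nat_lit 354)))) (XT.nd (nat_lit 78) (nat_lit 608) (nat_lit 0) (XT.lf (nat_lit 76) (nat_lit 1934946171) (nat_lit 0) (nat_lit 426754107) (nat_lit 684) (nat_lit 1934946171) (nat_lit 305) (nat_lit 1) (nat_lit 304) (nat_lit 1) (nat_lit 313) (nat_lit 1) (nat_lit 379) (nat_lit 408) (nat_lit 353)) (XT.nd (nat_lit 78) (nat_lit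 0) (nat_lit 0) (XT.lf (nat_lit 684) (nat_lit 3134391914) (nat_lit 0) (nat_lit 563497831) (nat_lit 608) (nat_lit 563497831) (nat_lit 305) (nat_lit 1) (nat_lit 296) (nat_lit 1) (nat_lit 304) (nat_lit 1) (nat_lit 380) (nat_lit 408) (nat_lit 352)) (XT.lf (nat_lit 76) (nat_lit 1196277751) (nat_lit 0) (nat_lit 1833857544) (nat_lit 684) (nat_lit 1196277751) (nat_lit 297) (nat_lit 1) (nat_lit 296) (nat_lit 1) (nat_lit 305) (nat_lit 1) (nat_lit 381) (nat_lit 408) (nat_lit 351)))))) (XT.nd (nat_lit 468) (nat_lit 2128) (nat_lit 0) (XT.nd (nat_lit 234) (nat_lit 1216) (nat_lit 0) (XT.nd (nat_lit 78) (nat_lit 532) (nat_lit 0) (XT.lf (nat_lit 684) (nat_lit 1653200049) (nat_lit 0) (nat_lit 1269343837) (nat_lit 608) (nat_lit 1269343837) (nat_lit 297) (nat_lit 1) (nat_lit 288) (nat_lit 1) (nat_lit 296) (nat_lit 1) (nat_lit 382) (nat_lit 408) (nat_lit 350)) (XT.nd (nat_lit 78) (nat_lit 532) (nat_lit 0) (XT.lf (nat_lit 76) (nat_lit 458696708) (nat_lit 0)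 (nat_lit 3240431277) (nat_lit 684) (nat_lit 458696708) (nat_lit 289) (nat_lit 1) (nat_lit 288) (nat_lit 1) (nat_lit 297) (nat_lit 1) (nat_lit 383) (nat_lit 408) (nat_lit 349)) (XT.lf (nat_lit 608) (nat_lit 174695739) (nat_lit 0) (nat_lit 1974657908) (nat_lit 532) (nat_lit 1974657908) (nat_lit 289) (nat_lit 1) (nat_lit 281) (nat_lit 1) (nat_lit 288) (nat_lit 1) (nat_lit 384) (nat_lit 408) (nat_lit 348)))) (XT.nd (nat_lit 78) (nat_lit 532) (nat_lit 0) (XT.lf (nat_lit 684) (nat_lit 3539746714) (nat_lit 0) (nat_lit 275473752) (nat_lit 608) (nat_lit 275473752) (nat_lit 281) (nat_lit 1) (nat_lit 272) (nat_lit 1) (nat_lit 280) (nat_lit 1) (nat_lit 385) (nat_lit 408) (nat_lit 347)) (XT.nd (nat_lit 78) (nat_lit 532) (nat_lit 0) (XT.lf (nat_lit 76) (nat_lit 1387224841) (nat_lit 0) (nat_lit 1283098592) (nat_lit 684) (nat_lit 1387224841) (nat_lit 273) (nat_lit 1) (nat_lit 272) (nat_lit 1) (nat_lit 281) (nat_lit 1) (nat_lit 386) (nat_lit 408) (nat_lit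 346)) (XT.lf (nat_lit 608) (nat_lit 2015717038) (nat_lit 0) (nat_lit 1004584848) (nat_lit 532) (nat_lit 1004584848) (nat_lit 273) (nat_lit 1) (nat_lit 265) (nat_lit 1) (nat_lit 272) (nat_lit 1) (nat_lit 387) (nat_lit 408) (nat_lit 345))))) (XT.nd (nat_lit 234) (nat_lit 988) (nat_lit 0) (XT.nd (nat_lit 78) (nat_lit 1140) (nat_lit 0) (XT.lf (nat_lit 76) (nat_lit 629256192) (nat_lit 0) (nat_lit 2734091484) (nat_lit 608) (nat_lit 629256192) (nat_lit 266) (nat_lit 1) (nat_lit 265) (nat_lit 1) (nat_lit 273) (nat_lit 1) (nat_lit 388) (nat_lit 408) (nat_lit 344)) (XT.nd (nat_lit 78) (nat_lit 608) (nat_lit 0) (XT.lf (nat_lit 608) (nat_lit 498167437) (nat_lit 0) (nat_lit 1731216934) (nat_lit 532) (nat_lit 1731216934) (nat_lit 266) (nat_lit 1) (nat_lit 258) (nat_lit 1) (nat_lit 265) (nat_lit 1) (nat_lit 389) (nat_lit 408) (nat_lit 343)) (XT.lf (nat_lit 608) (nat_lit 3680176827) (nat_lit 0) (nat_lit 124459717) (nat_lit 532) (nat_lit 124459717) (nat_lit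 258) (nat_lit 1) (nat_lit 250) (nat_lit 1) (nat_lit 257) (nat_lit 1) (nat_lit 390) (nat_lit 408) (nat_lit 342)))) (XT.nd (nat_lit 156) (nat_lit 456) (nat_lit 0) (XT.nd (nat_lit 78) (nat_lit 532) (nat_lit 0) (XT.lf (nat_lit 76) (nat_lit 1449410707) (nat_lit 0) (nat_lit 998846247) (nat_lit 608) (nat_lit 1449410707) (nat_lit 251) (nat_lit 1) (nat_lit 250) (nat_lit 1) (nat_lit 258) (nat_lit 1) (nat_lit 391) (nat_lit 408) (nat_lit 341)) (XT.lf (nat_lit 608) (nat_lit 2126215338) (nat_lit 0) (nat_lit 870255559) (nat_lit 532) (nat_lit 870255559) (nat_lit 251) (nat_lit 1) (nat_lit 243) (nat_lit 1) (nat_lit 250) (nat_lit 1) (nat_lit 392) (nat_lit 408) (nat_lit 340))) (XT.nd (nat_lit 78) (nat_lit 456) (nat_lit 0) (XT.lf (nat_lit 76) (nat_lit 677338752) (nat_lit 0) (nat_lit 2481438342) (nat_lit 608) (nat_lit 677338752) (nat_lit 244) (nat_lit 1) (nat_lit 243) (nat_lit 1) (nat_lit 251) (nat_lit 1) (nat_lit 393) (nat_lit 408) (nat_lit 339)) (XT.lf (nat_lit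 532) (nat_lit 581942612) (nat_lit 0) (nat_lit 1611921365) (nat_lit 456) (nat_lit 1611921365) (nat_lit 244) (nat_lit 1) (nat_lit 237) (nat_lit 1) (nat_lit 243) (nat_lit 1) (nat_lit 394) (nat_lit 408) (nat_lit 338))))))))
noncomputable def ec64 : XT := (XT.nd (nat_lit 1872) (nat_lit 1672) (nat_lit 0) (XT.nd (nat_lit 936) (nat_lit 3116) (nat_lit 0) (XT.nd (nat_lit 468) (nat_lit 1368) (nat_lit 0) (XT.nd (nat_lit 234) (nat_lit 988) (nat_lit 0) (XT.nd (nat_lit 78) (nat_lit 456) (nat_lit 0) (XT.lf (nat_lit 608) (nat_lit 3597613561) (nat_lit 0) (nat_lit 89156827) (nat_lit 532) (nat_lit 89156827) (nat_lit 237) (nat_lit 1) (nat_lit 229) (nat_lit 1) (nat_lit 236) (nat_lit 1) (nat_lit 395) (nat_lit 408) (nat_lit 337)) (XT.nd (nat_lit 78) (nat_lit 456) (nat_lit 0) (XT.lf (nat_lit 76) (nat_lit 1403287446) (nat_lit 0) (nat_lit 939538400) (nat_lit 608) (nat_lit 1403287446) (nat_lit 230) (nat_lit 1) (nat_lit 229) (nat_lit 1) (nat_lit 237) (nat_lit 1)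 (nat_lit 396) (nat_lit 408) (nat_lit 336)) (XT.lf (nat_lit 532) (nat_lit 2024865613) (nat_lit 0) (nat_lit 845948572) (nat_lit 456) (nat_lit 845948572) (nat_lit 230) (nat_lit 1) (nat_lit 223) (nat_lit 1) (nat_lit 229) (nat_lit 1) (nat_lit 397) (nat_lit 408) (nat_lit 335)))) (XT.nd (nat_lit 78) (nat_lit 988) (nat_lit 0) (XT.lf (nat_lit 76) (nat_lit 622537130) (nat_lit 0) (nat_lit 2442650528) (nat_lit 532) (nat_lit 622537130) (nat_lit 224) (nat_lit 1) (nat_lit 223) (nat_lit 1) (nat_lit 230) (nat_lit 1) (nat_lit 398) (nat_lit 408) (nat_lit 334)) (XT.nd (nat_lit 78) (nat_lit 532) (nat_lit 0) (XT.lf (nat_lit 532) (nat_lit 464502865) (nat_lit 0) (nat_lit 1597219113) (nat_lit 456) (nat_lit 1597219113) (nat_lit 224) (nat_lit 1) (nat_lit 217) (nat_lit 1) (nat_lit 223) (nat_lit 1) (nat_lit 399) (nat_lit 408) (nat_lit 333)) (XT.lf (nat_lit 532) (nat_lit 3328741847) (nat_lit 0) (nat_lit 150920221) (nat_lit 456) (nat_lit 150920221) (nat_lit 217) (nat_lit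 1) (nat_lit 210) (nat_lit 1) (nat_lit 216) (nat_lit 1) (nat_lit 400) (nat_lit 408) (nat_lit 332))))) (XT.nd (nat_lit 234) (nat_lit 912) (nat_lit 0) (XT.nd (nat_lit 78) (nat_lit 456) (nat_lit 0) (XT.lf (nat_lit 76) (nat_lit 1266745467) (nat_lit 0) (nat_lit 1068797225) (nat_lit 532) (nat_lit 1266745467) (nat_lit 211) (nat_lit 1) (nat_lit 210) (nat_lit 1) (nat_lit 217) (nat_lit 1) (nat_lit 401) (nat_lit 408) (nat_lit 331)) (XT.nd (nat_lit 78) (nat_lit 0) (nat_lit 0) (XT.lf (nat_lit 532) (nat_lit 1746801618) (nat_lit 0) (nat_lit 913804663) (nat_lit 456) (nat_lit 913804663) (nat_lit 211) (nat_lit 1) (nat_lit 204) (nat_lit 1) (nat_lit 210) (nat_lit 1) (nat_lit 402) (nat_lit 408) (nat_lit 330)) (XT.lf (nat_lit 76) (nat_lit 481984679) (nat_lit 0) (nat_lit 2582884153) (nat_lit 532) (nat_lit 481984679) (nat_lit 205) (nat_lit 1) (nat_lit 204) (nat_lit 1) (nat_lit 211) (nat_lit 1) (nat_lit 403) (nat_lit 408) (nat_lit 329)))) (XT.nd (nat_lit 78) (nat_lit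 532) (nat_lit 0) (XT.lf (nat_lit 456) (nat_lit 179494093) (nat_lit 0) (nat_lit 1670004569) (nat_lit 380) (nat_lit 1670004569) (nat_lit 205) (nat_lit 1) (nat_lit 199) (nat_lit 1) (nat_lit 204) (nat_lit 1) (nat_lit 404) (nat_lit 408) (nat_lit 328)) (XT.nd (nat_lit 78) (nat_lit 0) (nat_lit 0) (XT.lf (nat_lit 532) (nat_lit 2905610735) (nat_lit 0) (nat_lit 293450621) (nat_lit 456) (nat_lit 293450621) (nat_lit 199) (nat_lit 1) (nat_lit 192) (nat_lit 1) (nat_lit 198) (nat_lit 1) (nat_lit 405) (nat_lit 408) (nat_lit 327)) (XT.lf (nat_lit 76) (nat_lit 1055411688) (nat_lit 0) (nat_lit 1354826434) (nat_lit 532) (nat_lit 1055411688) (nat_lit 193) (nat_lit 1) (nat_lit 192) (nat_lit 1) (nat_lit 199) (nat_lit 1) (nat_lit 406) (nat_lit 408) (nat_lit 326)))))) (XT.nd (nat_lit 468) (nat_lit 1520) (nat_lit 0) (XT.nd (nat_lit 234) (nat_lit 760) (nat_lit 0) (XT.nd (nat_lit 78) (nat_lit 456) (nat_lit 0) (XT.lf (nat_lit 456) (nat_lit 1322706751) (nat_lit 0)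 (nat_lit 1058216415) (nat_lit 380) (nat_lit 1058216415) (nat_lit 193) (nat_lit 1) (nat_lit 187) (nat_lit 1) (nat_lit 192) (nat_lit 1) (nat_lit 407) (nat_lit 408) (nat_lit 325)) (XT.nd (nat_lit 78) (nat_lit 456) (nat_lit 0) (XT.lf (nat_lit 76) (nat_lit 270641873) (nat_lit 0) (nat_lit 2871693656) (nat_lit 456) (nat_lit 270641873) (nat_lit 188) (nat_lit 1) (nat_lit 187) (nat_lit 1) (nat_lit 193) (nat_lit 1) (nat_lit 408) (nat_lit 408) (nat_lit 324)) (XT.lf (nat_lit 76) (nat_lit 1573206228) (nat_lit 0) (nat_lit 240513660) (nat_lit 456) (nat_lit 1573206228) (nat_lit 182) (nat_lit 1) (nat_lit 181) (nat_lit 1) (nat_lit 187) (nat_lit 1) (nat_lit 409) (nat_lit 408) (nat_lit 323)))) (XT.nd (nat_lit 78) (nat_lit 380) (nat_lit 0) (XT.lf (nat_lit 456) (nat_lit 2356174577) (nat_lit 0) (nat_lit 502520877) (nat_lit 380) (nat_lit 502520877) (nat_lit 182) (nat_lit 1) (nat_lit 176) (nat_lit 1) (nat_lit 181) (nat_lit 1) (nat_lit 410) (nat_lit 408) (nat_lit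 322)) (XT.nd (nat_lit 78) (nat_lit 380) (nat_lit 0) (XT.lf (nat_lit 76) (nat_lit 782913876) (nat_lit 0) (nat_lit 1769876949) (nat_lit 456) (nat_lit 782913876) (nat_lit 177) (nat_lit 1) (nat_lit 176) (nat_lit 1) (nat_lit 182) (nat_lit 1) (nat_lit 411) (nat_lit 408) (nat_lit 321)) (XT.lf (nat_lit 456) (nat_lit 779333999) (nat_lit 0) (nat_lit 1265565496) (nat_lit 380) (nat_lit 1265565496) (nat_lit 177) (nat_lit 1) (nat_lit 171) (nat_lit 1) (nat_lit 176) (nat_lit 1) (nat_lit 412) (nat_lit 408) (nat_lit 320))))) (XT.nd (nat_lit 234) (nat_lit 760) (nat_lit 0) (XT.nd (nat_lit 78) (nat_lit 760) (nat_lit 0) (XT.lf (nat_lit 76) (nat_lit 1550269) (nat_lit 0) (nat_lit 3282518437) (nat_lit 456) (nat_lit 1550269) (nat_lit 172) (nat_lit 1) (nat_lit 171) (nat_lit 1) (nat_lit 177) (nat_lit 1) (nat_lit 413) (nat_lit 408) (nat_lit 319)) (XT.nd (nat_lit 78) (nat_lit 380) (nat_lit 0) (XT.lf (nat_lit 76) (nat_lit 1245725345) (nat_lit 0) (nat_lit 769284784)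 (nat_lit 380) (nat_lit 1245725345) (nat_lit 167) (nat_lit 1) (nat_lit 166) (nat_lit 1) (nat_lit 171) (nat_lit 1) (nat_lit 414) (nat_lit 408) (nat_lit 318)) (XT.lf (nat_lit 456) (nat_lit 1704772710) (nat_lit 0) (nat_lit 765733572) (nat_lit 380) (nat_lit 765733572) (nat_lit 167) (nat_lit 1) (nat_lit 161) (nat_lit 1) (nat_lit 166) (nat_lit 1) (nat_lit 415) (nat_lit 408) (nat_lit 317)))) (XT.nd (nat_lit 78) (nat_lit 760) (nat_lit 0) (XT.lf (nat_lit 76) (nat_lit 461114951) (nat_lit 0) (nat_lit 2289773270) (nat_lit 456) (nat_lit 461114951) (nat_lit 162) (nat_lit 1) (nat_lit 161) (nat_lit 1) (nat_lit 167) (nat_lit 1) (nat_lit 416) (nat_lit 408) (nat_lit 316)) (XT.nd (nat_lit 78) (nat_lit 456) (nat_lit 0) (XT.lf (nat_lit 380) (nat_lit 139966774) (nat_lit 0) (nat_lit 1523989783) (nat_lit 304) (nat_lit 1523989783) (nat_lit 162) (nat_lit 1) (nat_lit 157) (nat_lit 1) (nat_lit 161) (nat_lit 1) (nat_lit 417) (nat_lit 408) (nat_lit 315)) (XT.lf (nat_lit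 456) (nat_lit 2540425450) (nat_lit 0) (nat_lit 311876986) (nat_lit 380) (nat_lit 311876986) (nat_lit 157) (nat_lit 1) (nat_lit 151) (nat_lit 1) (nat_lit 156) (nat_lit 1) (nat_lit 418) (nat_lit 408) (nat_lit 314))))))) (XT.nd (nat_lit 52026) (nat_lit 0) (nat_lit 28044) (XT.nd (nat_lit 468) (nat_lit 684) (nat_lit 0) (XT.nd (nat_lit 234) (nat_lit 684) (nat_lit 0) (XT.nd (nat_lit 78) (nat_lit 304) (nat_lit 0) (XT.lf (nat_lit 76) (nat_lit 876668293) (nat_lit 0) (nat_lit 1387194234) (nat_lit 456) (nat_lit 876668293) (nat_lit 152) (nat_lit 1) (nat_lit 151) (nat_lit 1) (nat_lit 157) (nat_lit 1) (nat_lit 419) (nat_lit 408) (nat_lit 313)) (XT.nd (nat_lit 78) (nat_lit 0) (nat_lit 0) (XT.lf (nat_lit 380) (nat_lit 972554562) (nat_lit 0) (nat_lit 1072306205) (nat_lit 304) (nat_lit 1072306205) (nat_lit 152) (nat_lit 1) (nat_lit 147) (nat_lit 1) (nat_lit 151) (nat_lit 1) (nat_lit 420) (nat_lit 408) (nat_lit 312)) (XT.lf (nat_lit 76) (nat_lit 100320614)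 (nat_lit 0) (nat_lit 2893493719) (nat_lit 380) (nat_lit 100320614) (nat_lit 148) (nat_lit 1) (nat_lit 147) (nat_lit 1) (nat_lit 152) (nat_lit 1) (nat_lit 421) (nat_lit 408) (nat_lit 311)))) (XT.nd (nat_lit 78) (nat_lit 304) (nat_lit 0) (XT.lf (nat_lit 76) (nat_lit 1251738694) (nat_lit 0) (nat_lit 567629197) (nat_lit 380) (nat_lit 1251738694) (nat_lit 143) (nat_lit 1) (nat_lit 142) (nat_lit 1) (nat_lit 147) (nat_lit 1) (nat_lit 422) (nat_lit 408) (nat_lit 310)) (XT.nd (nat_lit 78) (nat_lit 0) (nat_lit 0) (XT.lf (nat_lit 380) (nat_lit 1725202728) (nat_lit 0) (nat_lit 661601276) (nat_lit 304) (nat_lit 661601276) (nat_lit 143) (nat_lit 1) (nat_lit 138) (nat_lit 1) (nat_lit 142) (nat_lit 1) (nat_lit 423) (nat_lit 408) (nat_lit 309)) (XT.lf (nat_lit 76) (nat_lit 475381585) (nat_lit 0) (nat_lit 2075161903) (nat_lit 380) (nat_lit 475381585) (nat_lit 139) (nat_lit 1) (nat_lit 138) (nat_lit 1) (nat_lit 143) (nat_lit 1) (nat_lit 424) (nat_lit 408)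 (nat_lit 308))))) (XT.nd (nat_lit 51324) (nat_lit 0) (nat_lit 27968) (XT.nd (nat_lit 78) (nat_lit 380) (nat_lit 0) (XT.lf (nat_lit 380) (nat_lit 177856323) (nat_lit 0) (nat_lit 1412880820) (nat_lit 304) (nat_lit 1412880820) (nat_lit 139) (nat_lit 1) (nat_lit 134) (nat_lit 1) (nat_lit 138) (nat_lit 1) (nat_lit 425) (nat_lit 408) (nat_lit 307)) (XT.nd (nat_lit 78) (nat_lit 0) (nat_lit 0) (XT.lf (nat_lit 380) (nat_lit 2404323242) (nat_lit 0) (nat_lit 288625247) (nat_lit 304) (nat_lit 288625247) (nat_lit 134) (nat_lit 1) (nat_lit 129) (nat_lit 1) (nat_lit 133) (nat_lit 1) (nat_lit 426) (nat_lit 408) (nat_lit 306)) (XT.lf (nat_lit 76) (nat_lit 814376010) (nat_lit 0) (nat_lit 1330874876) (nat_lit 380) (nat_lit 814376010) (nat_lit 130) (nat_lit 1) (nat_lit 129) (nat_lit 1) (nat_lit 134) (nat_lit 1) (nat_lit 427) (nat_lit 408) (nat_lit 305)))) (XT.nd (nat_lit 78) (nat_lit 0) (nat_lit 0) (XT.lf (nat_lit 1900) (nat_lit 1197816624) (nat_lit 0) (nat_lit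 1207833157) (nat_lit 1900) (nat_lit 1197816624) (nat_lit 522) (nat_lit 1) (nat_lit 497) (nat_lit 0) (nat_lit 522) (nat_lit 0) (nat_lit 322) (nat_lit 409) (nat_lit 409)) (XT.nd (nat_lit 78) (nat_lit 0) (nat_lit 76) (XT.lf (nat_lit 1900) (nat_lit 4736347027) (nat_lit 76) (nat_lit 1199886886) (nat_lit 0) (nat_lit 1199886886) (nat_lit 522) (nat_lit 1) (nat_lit 498) (nat_lit 1) (nat_lit 497) (nat_lit 0) (nat_lit 323) (nat_lit 409) (nat_lit 408)) (XT.lf (nat_lit 1900) (nat_lit 2325568935) (nat_lit 0) (nat_lit 2414944357) (nat_lit 1824) (nat_lit 2325568935) (nat_lit 523) (nat_lit 1) (nat_lit 498) (nat_lit 1) (nat_lit 522) (nat_lit 1) (nat_lit 324) (nat_lit 409) (nat_lit 407)))))) (XT.nd (nat_lit 468) (nat_lit 0) (nat_lit 228) (XT.nd (nat_lit 234) (nat_lit 0) (nat_lit 152) (XT.nd (nat_lit 78) (nat_lit 0) (nat_lit 76) (XT.lf (nat_lit 1900) (nat_lit 4551711691) (nat_lit 76) (nat_lit 1222696872) (nat_lit 0) (nat_lit 1222696872) (nat_lit 523) (nat_lit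 1) (nat_lit 499) (nat_lit 1) (nat_lit 498) (nat_lit 1) (nat_lit 325) (nat_lit 409) (nat_lit 406)) (XT.nd (nat_lit 78) (nat_lit 0) (nat_lit 0) (XT.lf (nat_lit 1900) (nat_lit 2212045629) (nat_lit 0) (nat_lit 2504798816) (nat_lit 1824) (nat_lit 2212045629) (nat_lit 524) (nat_lit 1) (nat_lit 499) (nat_lit 1) (nat_lit 523) (nat_lit 1) (nat_lit 326) (nat_lit 409) (nat_lit 405)) (XT.lf (nat_lit 1900) (nat_lit 4282494247) (nat_lit 76) (nat_lit 1289597453) (nat_lit 0) (nat_lit 1289597453) (nat_lit 524) (nat_lit 1) (nat_lit 500) (nat_lit 1) (nat_lit 499) (nat_lit 1) (nat_lit 327) (nat_lit 409) (nat_lit 404)))) (XT.nd (nat_lit 78) (nat_lit 0) (nat_lit 0) (XT.lf (nat_lit 1900) (nat_lit 2057656379) (nat_lit 0) (nat_lit 2679937042) (nat_lit 1824) (nat_lit 2057656379) (nat_lit 525) (nat_lit 1) (nat_lit 500) (nat_lit 1) (nat_lit 524) (nat_lit 1) (nat_lit 328) (nat_lit 409) (nat_lit 403)) (XT.nd (nat_lit 78) (nat_lit 0) (nat_lit 76) (XT.lf (nat_lit 1900)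 (nat_lit 3933778174) (nat_lit 76) (nat_lit 1397994649) (nat_lit 0) (nat_lit 1397994649) (nat_lit 525) (nat_lit 1) (nat_lit 501) (nat_lit 1) (nat_lit 500) (nat_lit 1) (nat_lit 329) (nat_lit 409) (nat_lit 402)) (XT.lf (nat_lit 1900) (nat_lit 1864875790) (nat_lit 0) (nat_lit 2935306716) (nat_lit 1824) (nat_lit 1864875790) (nat_lit 526) (nat_lit 1) (nat_lit 501) (nat_lit 1) (nat_lit 525) (nat_lit 1) (nat_lit 330) (nat_lit 409) (nat_lit 401))))) (XT.nd (nat_lit 234) (nat_lit 0) (nat_lit 152) (XT.nd (nat_lit 78) (nat_lit 0) (nat_lit 76) (XT.lf (nat_lit 1900) (nat_lit 3510414279) (nat_lit 76) (nat_lit 1545412499) (nat_lit 0) (nat_lit 1545412499) (nat_lit 526) (nat_lit 1) (nat_lit 502) (nat_lit 1) (nat_lit 501) (nat_lit 1) (nat_lit 331) (nat_lit 409) (nat_lit 400)) (XT.nd (nat_lit 78) (nat_lit 0) (nat_lit 0) (XT.lf (nat_lit 1900) (nat_lit 1636064966) (nat_lit 0) (nat_lit 3266085839) (nat_lit 1824) (nat_lit 1636064966) (nat_lit 527) (nat_lit 1)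 (nat_lit 502) (nat_lit 1) (nat_lit 526) (nat_lit 1) (nat_lit 332) (nat_lit 409) (nat_lit 399)) (XT.lf (nat_lit 1900) (nat_lit 3017030421) (nat_lit 76) (nat_lit 1729488139) (nat_lit 0) (nat_lit 1729488139) (nat_lit 527) (nat_lit 1) (nat_lit 503) (nat_lit 1) (nat_lit 502) (nat_lit 1) (nat_lit 333) (nat_lit 409) (nat_lit 398)))) (XT.nd (nat_lit 78) (nat_lit 0) (nat_lit 0) (XT.lf (nat_lit 1900) (nat_lit 1373476263) (nat_lit 0) (nat_lit 3667673115) (nat_lit 1824) (nat_lit 1373476263) (nat_lit 528) (nat_lit 1) (nat_lit 503) (nat_lit 1) (nat_lit 527) (nat_lit 1) (nat_lit 334) (nat_lit 409) (nat_lit 397)) (XT.nd (nat_lit 78) (nat_lit 0) (nat_lit 76) (XT.lf (nat_lit 1900) (nat_lit 2458040850) (nat_lit 76) (nat_lit 1947967079) (nat_lit 0) (nat_lit 1947967079) (nat_lit 528) (nat_lit 1) (nat_lit 504) (nat_lit 1) (nat_lit 503) (nat_lit 1) (nat_lit 335) (nat_lit 409) (nat_lit 396)) (XT.lf (nat_lit 1900) (nat_lit 1079257845) (nat_lit 0) (nat_lit 4135678727)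 (nat_lit 1824) (nat_lit 1079257845) (nat_lit 529) (nat_lit 1) (nat_lit 504) (nat_lit 1) (nat_lit 528) (nat_lit 1) (nat_lit 336) (nat_lit 409) (nat_lit 395))))))))
noncomputable def ec65 : XT := (XT.nd (nat_lit 1872) (nat_lit 9652) (nat_lit 0) (XT.nd (nat_lit 936) (nat_lit 5320) (nat_lit 0) (XT.nd (nat_lit 468) (nat_lit 2660) (nat_lit 0) (XT.nd (nat_lit 234) (nat_lit 0) (nat_lit 152) (XT.nd (nat_lit 78) (nat_lit 0) (nat_lit 76) (XT.lf (nat_lit 1900) (nat_lit 1837655162) (nat_lit 76) (nat_lit 2198698668) (nat_lit 0) (nat_lit 2198698668) (nat_lit 529) (nat_lit 1) (nat_lit 505) (nat_lit 1) (nat_lit 504) (nat_lit 1) (nat_lit 337) (nat_lit 409) (nat_lit 394)) (XT.nd (nat_lit 78) (nat_lit 0) (nat_lit 0) (XT.lf (nat_lit 1900) (nat_lit 755458057) (nat_lit 0) (nat_lit 4665915485) (nat_lit 1824) (nat_lit 755458057) (nat_lit 530) (nat_lit 1) (nat_lit 505) (nat_lit 1) (nat_lit 529) (nat_lit 1) (nat_lit 338) (nat_lit 409) (nat_lit 393)) (XT.lf (nat_lit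 1900) (nat_lit 1159886902) (nat_lit 76) (nat_lit 2479631742) (nat_lit 0) (nat_lit 2479631742) (nat_lit 530) (nat_lit 1) (nat_lit 506) (nat_lit 1) (nat_lit 505) (nat_lit 1) (nat_lit 339) (nat_lit 409) (nat_lit 392)))) (XT.nd (nat_lit 78) (nat_lit 0) (nat_lit 0) (XT.lf (nat_lit 1900) (nat_lit 404029623) (nat_lit 0) (nat_lit 5254390319) (nat_lit 1824) (nat_lit 404029623) (nat_lit 531) (nat_lit 1) (nat_lit 506) (nat_lit 1) (nat_lit 530) (nat_lit 1) (nat_lit 340) (nat_lit 409) (nat_lit 391)) (XT.nd (nat_lit 78) (nat_lit 0) (nat_lit 76) (XT.lf (nat_lit 1900) (nat_lit 428561813) (nat_lit 76) (nat_lit 2788810449) (nat_lit 0) (nat_lit 2788810449) (nat_lit 531) (nat_lit 1) (nat_lit 507) (nat_lit 1) (nat_lit 506) (nat_lit 1) (nat_lit 341) (nat_lit 409) (nat_lit 390)) (XT.lf (nat_lit 1900) (nat_lit 26833674) (nat_lit 0) (nat_lit 5897296132) (nat_lit 1824) (nat_lit 26833674) (nat_lit 532) (nat_lit 1) (nat_lit 507) (nat_lit 1) (nat_lit 531) (nat_lit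 1) (nat_lit 342) (nat_lit 409) (nat_lit 389))))) (XT.nd (nat_lit 234) (nat_lit 988) (nat_lit 0) (XT.nd (nat_lit 78) (nat_lit 0) (nat_lit 0) (XT.lf (nat_lit 1976) (nat_lit 2773985790) (nat_lit 0) (nat_lit 348048857) (nat_lit 1900) (nat_lit 2773985790) (nat_lit 508) (nat_lit 1) (nat_lit 482) (nat_lit 1) (nat_lit 507) (nat_lit 1) (nat_lit 343) (nat_lit 409) (nat_lit 388)) (XT.nd (nat_lit 78) (nat_lit 0) (nat_lit 76) (XT.lf (nat_lit 1976) (nat_lit 5098309081) (nat_lit 76) (nat_lit 371893510) (nat_lit 0) (nat_lit 371893510) (nat_lit 508) (nat_lit 1) (nat_lit 483) (nat_lit 1) (nat_lit 482) (nat_lit 1) (nat_lit 344) (nat_lit 409) (nat_lit 387)) (XT.lf (nat_lit 1976) (nat_lit 2311849928) (nat_lit 0) (nat_lit 1164867218) (nat_lit 1900) (nat_lit 2311849928) (nat_lit 509) (nat_lit 1) (nat_lit 483) (nat_lit 1) (nat_lit 508) (nat_lit 1) (nat_lit 345) (nat_lit 409) (nat_lit 386)))) (XT.nd (nat_lit 78) (nat_lit 1064) (nat_lit 0) (XT.lf (nat_lit 1976)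 (nat_lit 4150733095) (nat_lit 76) (nat_lit 792602136) (nat_lit 0) (nat_lit 792602136) (nat_lit 509) (nat_lit 1) (nat_lit 484) (nat_lit 1) (nat_lit 483) (nat_lit 1) (nat_lit 346) (nat_lit 409) (nat_lit 385)) (XT.nd (nat_lit 78) (nat_lit 1140) (nat_lit 0) (XT.lf (nat_lit 76) (nat_lit 1829775946) (nat_lit 0) (nat_lit 2024248738) (nat_lit 1900) (nat_lit 1829775946) (nat_lit 485) (nat_lit 1) (nat_lit 484) (nat_lit 1) (nat_lit 509) (nat_lit 1) (nat_lit 347) (nat_lit 409) (nat_lit 384)) (XT.lf (nat_lit 1216) (nat_lit 3164684268) (nat_lit 0) (nat_lit 1233870394) (nat_lit 1140) (nat_lit 1233870394) (nat_lit 485) (nat_lit 1) (nat_lit 469) (nat_lit 1) (nat_lit 484) (nat_lit 1) (nat_lit 348) (nat_lit 409) (nat_lit 383)))))) (XT.nd (nat_lit 468) (nat_lit 2660) (nat_lit 0) (XT.nd (nat_lit 234) (nat_lit 1748) (nat_lit 0) (XT.nd (nat_lit 78) (nat_lit 912) (nat_lit 0) (XT.lf (nat_lit 76) (nat_lit 1329280878) (nat_lit 0) (nat_lit 2923084145) (nat_lit 1216)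 (nat_lit 1329280878) (nat_lit 470) (nat_lit 1) (nat_lit 469) (nat_lit 1) (nat_lit 485) (nat_lit 1) (nat_lit 349) (nat_lit 409) (nat_lit 382)) (XT.nd (nat_lit 78) (nat_lit 0) (nat_lit 0) (XT.lf (nat_lit 988) (nat_lit 2143132400) (nat_lit 0) (nat_lit 1694176471) (nat_lit 912) (nat_lit 1694176471) (nat_lit 470) (nat_lit 1) (nat_lit 457) (nat_lit 1) (nat_lit 469) (nat_lit 1) (nat_lit 350) (nat_lit 409) (nat_lit 381)) (XT.lf (nat_lit 76) (nat_lit 811808285) (nat_lit 0) (nat_lit 3858413459) (nat_lit 988) (nat_lit 811808285) (nat_lit 458) (nat_lit 1) (nat_lit 457) (nat_lit 1) (nat_lit 470) (nat_lit 1) (nat_lit 351) (nat_lit 409) (nat_lit 380)))) (XT.nd (nat_lit 78) (nat_lit 836) (nat_lit 0) (XT.lf (nat_lit 988) (nat_lit 1088903027) (nat_lit 0) (nat_lit 2172071835) (nat_lit 912) (nat_lit 2172071835) (nat_lit 458) (nat_lit 1) (nat_lit 445) (nat_lit 1) (nat_lit 457) (nat_lit 1) (nat_lit 352) (nat_lit 409) (nat_lit 379)) (XT.nd (nat_lit 78) (nat_lit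 836) (nat_lit 0) (XT.lf (nat_lit 76) (nat_lit 278731392) (nat_lit 0) (nat_lit 4827419642) (nat_lit 988) (nat_lit 278731392) (nat_lit 446) (nat_lit 1) (nat_lit 445) (nat_lit 1) (nat_lit 458) (nat_lit 1) (nat_lit 353) (nat_lit 409) (nat_lit 378)) (XT.lf (nat_lit 912) (nat_lit 4683600) (nat_lit 0) (nat_lit 2666178110) (nat_lit 836) (nat_lit 2666178110) (nat_lit 446) (nat_lit 1) (nat_lit 434) (nat_lit 1) (nat_lit 445) (nat_lit 1) (nat_lit 354) (nat_lit 409) (nat_lit 377))))) (XT.nd (nat_lit 234) (nat_lit 836) (nat_lit 0) (XT.nd (nat_lit 78) (nat_lit 836) (nat_lit 0) (XT.lf (nat_lit 988) (nat_lit 4756241684) (nat_lit 0) (nat_lit 266876503) (nat_lit 912) (nat_lit 266876503) (nat_lit 434) (nat_lit 1) (nat_lit 421) (nat_lit 1) (nat_lit 433) (nat_lit 1) (nat_lit 355) (nat_lit 409) (nat_lit 376)) (XT.nd (nat_lit 78) (nat_lit 836) (nat_lit 0) (XT.lf (nat_lit 76) (nat_lit 2075400659) (nat_lit 0) (nat_lit 1092452486) (nat_lit 988) (nat_lit 2075400659)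 (nat_lit 422) (nat_lit 1) (nat_lit 421) (nat_lit 1) (nat_lit 434) (nat_lit 1) (nat_lit 356) (nat_lit 409) (nat_lit 375)) (XT.lf (nat_lit 912) (nat_lit 3550045145) (nat_lit 0) (nat_lit 823621668) (nat_lit 836) (nat_lit 823621668) (nat_lit 422) (nat_lit 1) (nat_lit 410) (nat_lit 1) (nat_lit 421) (nat_lit 1) (nat_lit 357) (nat_lit 409) (nat_lit 374)))) (XT.nd (nat_lit 78) (nat_lit 836) (nat_lit 0) (XT.lf (nat_lit 76) (nat_lit 1468779135) (nat_lit 0) (nat_lit 2214205183) (nat_lit 912) (nat_lit 1468779135) (nat_lit 411) (nat_lit 1) (nat_lit 410) (nat_lit 1) (nat_lit 422) (nat_lit 1) (nat_lit 358) (nat_lit 409) (nat_lit 373)) (XT.nd (nat_lit 78) (nat_lit 0) (nat_lit 0) (XT.lf (nat_lit 912) (nat_lit 2322513805) (nat_lit 0) (nat_lit 1392165820) (nat_lit 836) (nat_lit 1392165820) (nat_lit 411) (nat_lit 1) (nat_lit 399) (nat_lit 1) (nat_lit 410) (nat_lit 1) (nat_lit 359) (nat_lit 409) (nat_lit 372)) (XT.lf (nat_lit 76) (nat_lit 852074073) (nat_lit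 0) (nat_lit 3358358447) (nat_lit 912) (nat_lit 852074073) (nat_lit 400) (nat_lit 1) (nat_lit 399) (nat_lit 1) (nat_lit 411) (nat_lit 1) (nat_lit 360) (nat_lit 409) (nat_lit 371))))))) (XT.nd (nat_lit 936) (nat_lit 4408) (nat_lit 0) (XT.nd (nat_lit 468) (nat_lit 2128) (nat_lit 0) (XT.nd (nat_lit 234) (nat_lit 1520) (nat_lit 0) (XT.nd (nat_lit 78) (nat_lit 836) (nat_lit 0) (XT.lf (nat_lit 836) (nat_lit 1075812844) (nat_lit 0) (nat_lit 1971395532) (nat_lit 760) (nat_lit 1971395532) (nat_lit 400) (nat_lit 1) (nat_lit 389) (nat_lit 1) (nat_lit 399) (nat_lit 1) (nat_lit 361) (nat_lit 409) (nat_lit 370)) (XT.nd (nat_lit 78) (nat_lit 836) (nat_lit 0) (XT.lf (nat_lit 76) (nat_lit 226336625) (nat_lit 0) (nat_lit 4522749110) (nat_lit 836) (nat_lit 226336625) (nat_lit 390) (nat_lit 1) (nat_lit 389) (nat_lit 1) (nat_lit 400) (nat_lit 1) (nat_lit 362) (nat_lit 409) (nat_lit 369)) (XT.lf (nat_lit 76) (nat_lit 2373471257) (nat_lit 0) (nat_lit 185537154)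 (nat_lit 836) (nat_lit 2373471257) (nat_lit 379) (nat_lit 1) (nat_lit 378) (nat_lit 1) (nat_lit 389) (nat_lit 1) (nat_lit 363) (nat_lit 409) (nat_lit 368)))) (XT.nd (nat_lit 78) (nat_lit 760) (nat_lit 0) (XT.lf (nat_lit 836) (nat_lit 4080728796) (nat_lit 0) (nat_lit 404755308) (nat_lit 760) (nat_lit 404755308) (nat_lit 379) (nat_lit 1) (nat_lit 368) (nat_lit 1) (nat_lit 378) (nat_lit 1) (nat_lit 364) (nat_lit 409) (nat_lit 367)) (XT.nd (nat_lit 78) (nat_lit 760) (nat_lit 0) (XT.lf (nat_lit 76) (nat_lit 1700276698) (nat_lit 0) (nat_lit 1447744103) (nat_lit 836) (nat_lit 1700276698) (nat_lit 369) (nat_lit 1) (nat_lit 368) (nat_lit 1) (nat_lit 379) (nat_lit 1) (nat_lit 365) (nat_lit 409) (nat_lit 366)) (XT.lf (nat_lit 836) (nat_lit 2724190137) (nat_lit 0) (nat_lit 1041400541) (nat_lit 760) (nat_lit 1041400541) (nat_lit 369) (nat_lit 1) (nat_lit 358) (nat_lit 1) (nat_lit 368) (nat_lit 1) (nat_lit 366) (nat_lit 409) (nat_lit 365))))) (XT.nd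 (nat_lit 234) (nat_lit 1444) (nat_lit 0) (XT.nd (nat_lit 78) (nat_lit 684) (nat_lit 0) (XT.lf (nat_lit 76) (nat_lit 1021523954) (nat_lit 0) (nat_lit 2723093213) (nat_lit 836) (nat_lit 1021523954) (nat_lit 359) (nat_lit 1) (nat_lit 358) (nat_lit 1) (nat_lit 369) (nat_lit 1) (nat_lit 367) (nat_lit 409) (nat_lit 364)) (XT.nd (nat_lit 78) (nat_lit 0) (nat_lit 0) (XT.lf (nat_lit 760) (nat_lit 1357346323) (nat_lit 0) (nat_lit 1684197203) (nat_lit 684) (nat_lit 1684197203) (nat_lit 359) (nat_lit 1) (nat_lit 349) (nat_lit 1) (nat_lit 358) (nat_lit 1) (nat_lit 368) (nat_lit 409) (nat_lit 363)) (XT.lf (nat_lit 76) (nat_lit 338050409) (nat_lit 0) (nat_lit 4009855429) (nat_lit 760) (nat_lit 338050409) (nat_lit 350) (nat_lit 1) (nat_lit 349) (nat_lit 1) (nat_lit 359) (nat_lit 1) (nat_lit 369) (nat_lit 409) (nat_lit 362)))) (XT.nd (nat_lit 78) (nat_lit 684) (nat_lit 0) (XT.lf (nat_lit 76) (nat_lit 2314251469) (nat_lit 0) (nat_lit 17929287) (nat_lit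 760) (nat_lit 2314251469) (nat_lit 340) (nat_lit 1) (nat_lit 339) (nat_lit 1) (nat_lit 349) (nat_lit 1) (nat_lit 370) (nat_lit 409) (nat_lit 361)) (XT.nd (nat_lit 78) (nat_lit 0) (nat_lit 0) (XT.lf (nat_lit 760) (nat_lit 3913402362) (nat_lit 0) (nat_lit 347052894) (nat_lit 684) (nat_lit 347052894) (nat_lit 340) (nat_lit 1) (nat_lit 330) (nat_lit 1) (nat_lit 339) (nat_lit 1) (nat_lit 371) (nat_lit 409) (nat_lit 360)) (XT.lf (nat_lit 76) (nat_lit 1593203396) (nat_lit 0) (nat_lit 1382432331) (nat_lit 760) (nat_lit 1593203396) (nat_lit 331) (nat_lit 1) (nat_lit 330) (nat_lit 1) (nat_lit 340) (nat_lit 1) (nat_lit 372) (nat_lit 409) (nat_lit 359)))))) (XT.nd (nat_lit 468) (nat_lit 1824) (nat_lit 0) (XT.nd (nat_lit 234) (nat_lit 1292) (nat_lit 0) (XT.nd (nat_lit 78) (nat_lit 608) (nat_lit 0) (XT.lf (nat_lit 760) (nat_lit 2464571090) (nat_lit 0) (nat_lit 1033089445) (nat_lit 684) (nat_lit 1033089445) (nat_lit 331) (nat_lit 1) (nat_lit 321) (nat_lit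 1) (nat_lit 330) (nat_lit 1) (nat_lit 373) (nat_lit 409) (nat_lit 358)) (XT.nd (nat_lit 78) (nat_lit 608) (nat_lit 0) (XT.lf (nat_lit 76) (nat_lit 870283682) (nat_lit 0) (nat_lit 2752520286) (nat_lit 760) (nat_lit 870283682) (nat_lit 322) (nat_lit 1) (nat_lit 321) (nat_lit 1) (nat_lit 331) (nat_lit 1) (nat_lit 374) (nat_lit 409) (nat_lit 357)) (XT.lf (nat_lit 684) (nat_lit 1012651106) (nat_lit 0) (nat_lit 1721578810) (nat_lit 608) (nat_lit 1721578810) (nat_lit 322) (nat_lit 1) (nat_lit 313) (nat_lit 1) (nat_lit 321) (nat_lit 1) (nat_lit 375) (nat_lit 409) (nat_lit 356)))) (XT.nd (nat_lit 78) (nat_lit 1292) (nat_lit 0) (XT.lf (nat_lit 76) (nat_lit 146150707) (nat_lit 0) (nat_lit 4126827850) (nat_lit 684) (nat_lit 146150707) (nat_lit 314) (nat_lit 1) (nat_lit 313) (nat_lit 1) (nat_lit 322) (nat_lit 1) (nat_lit 376) (nat_lit 409) (nat_lit 355)) (XT.nd (nat_lit 78) (nat_lit 608) (nat_lit 0) (XT.lf (nat_lit 76) (nat_lit 1973645094) (nat_lit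 0) (nat_lit 435289189) (nat_lit 684) (nat_lit 1973645094) (nat_lit 305) (nat_lit 1) (nat_lit 304) (nat_lit 1) (nat_lit 313) (nat_lit 1) (nat_lit 377) (nat_lit 409) (nat_lit 354)) (XT.lf (nat_lit 684) (nat_lit 3197079753) (nat_lit 0) (nat_lit 574767788) (nat_lit 608) (nat_lit 574767788) (nat_lit 305) (nat_lit 1) (nat_lit 296) (nat_lit 1) (nat_lit 304) (nat_lit 1) (nat_lit 378) (nat_lit 409) (nat_lit 353))))) (XT.nd (nat_lit 234) (nat_lit 1216) (nat_lit 0) (XT.nd (nat_lit 78) (nat_lit 608) (nat_lit 0) (XT.lf (nat_lit 76) (nat_lit 1220203306) (nat_lit 0) (nat_lit 1870534694) (nat_lit 684) (nat_lit 1220203306) (nat_lit 297) (nat_lit 1) (nat_lit 296) (nat_lit 1) (nat_lit 305) (nat_lit 1) (nat_lit 379) (nat_lit 409) (nat_lit 352)) (XT.nd (nat_lit 78) (nat_lit 0) (nat_lit 0) (XT.lf (nat_lit 684) (nat_lit 1686264050) (nat_lit 0) (nat_lit 1294730713) (nat_lit 608) (nat_lit 1294730713) (nat_lit 297) (nat_lit 1) (nat_lit 288) (nat_lit 1) (nat_lit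 296) (nat_lit 1) (nat_lit 380) (nat_lit 409) (nat_lit 351)) (XT.lf (nat_lit 76) (nat_lit 467870642) (nat_lit 0) (nat_lit 3305239902) (nat_lit 684) (nat_lit 467870642) (nat_lit 289) (nat_lit 1) (nat_lit 288) (nat_lit 1) (nat_lit 297) (nat_lit 1) (nat_lit 381) (nat_lit 409) (nat_lit 350)))) (XT.nd (nat_lit 78) (nat_lit 684) (nat_lit 0) (XT.lf (nat_lit 608) (nat_lit 178189654) (nat_lit 0) (nat_lit 2014151066) (nat_lit 532) (nat_lit 2014151066) (nat_lit 289) (nat_lit 1) (nat_lit 281) (nat_lit 1) (nat_lit 288) (nat_lit 1) (nat_lit 382) (nat_lit 409) (nat_lit 349)) (XT.nd (nat_lit 78) (nat_lit 0) (nat_lit 0) (XT.lf (nat_lit 684) (nat_lit 3610541648) (nat_lit 0) (nat_lit 280983227) (nat_lit 608) (nat_lit 280983227) (nat_lit 281) (nat_lit 1) (nat_lit 272) (nat_lit 1) (nat_lit 280) (nat_lit 1) (nat_lit 383) (nat_lit 409) (nat_lit 348)) (XT.lf (nat_lit 76) (nat_lit 1414969338) (nat_lit 0) (nat_lit 1308760564) (nat_lit 684) (nat_lit 1414969338)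 (nat_lit 273) (nat_lit 1) (nat_lit 272) (nat_lit 1) (nat_lit 281) (nat_lit 1) (nat_lit 384) (nat_lit 409) (nat_lit 347))))))))
noncomputable def ec66 : XT := (XT.nd (nat_lit 1872) (nat_lit 3876) (nat_lit 0) (XT.nd (nat_lit 936) (nat_lit 3572) (nat_lit 0) (XT.nd (nat_lit 468) (nat_lit 1520) (nat_lit 0) (XT.nd (nat_lit 234) (nat_lit 1140) (nat_lit 0) (XT.nd (nat_lit 78) (nat_lit 532) (nat_lit 0) (XT.lf (nat_lit 608) (nat_lit 2056031379) (nat_lit 0) (nat_lit 1024676545) (nat_lit 532) (nat_lit 1024676545) (nat_lit 273) (nat_lit 1) (nat_lit 265) (nat_lit 1) (nat_lit 272) (nat_lit 1) (nat_lit 385) (nat_lit 409) (nat_lit 346)) (XT.nd (nat_lit 78) (nat_lit 532) (nat_lit 0) (XT.lf (nat_lit 76) (nat_lit 641841316) (nat_lit 0) (nat_lit 2788773314) (nat_lit 608) (nat_lit 641841316) (nat_lit 266) (nat_lit 1) (nat_lit 265) (nat_lit 1) (nat_lit 273) (nat_lit 1) (nat_lit 386) (nat_lit 409) (nat_lit 345)) (XT.lf (nat_lit 608) (nat_lit 508130786) (nat_lit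 0) (nat_lit 1765841273) (nat_lit 532) (nat_lit 1765841273) (nat_lit 266) (nat_lit 1) (nat_lit 258) (nat_lit 1) (nat_lit 265) (nat_lit 1) (nat_lit 387) (nat_lit 409) (nat_lit 344)))) (XT.nd (nat_lit 78) (nat_lit 532) (nat_lit 0) (XT.lf (nat_lit 608) (nat_lit 3753780364) (nat_lit 0) (nat_lit 126948911) (nat_lit 532) (nat_lit 126948911) (nat_lit 258) (nat_lit 1) (nat_lit 250) (nat_lit 1) (nat_lit 257) (nat_lit 1) (nat_lit 388) (nat_lit 409) (nat_lit 343)) (XT.nd (nat_lit 78) (nat_lit 532) (nat_lit 0) (XT.lf (nat_lit 76) (nat_lit 1478398921) (nat_lit 0) (nat_lit 1018823172) (nat_lit 608) (nat_lit 1478398921) (nat_lit 251) (nat_lit 1) (nat_lit 250) (nat_lit 1) (nat_lit 258) (nat_lit 1) (nat_lit 389) (nat_lit 409) (nat_lit 342)) (XT.lf (nat_lit 608) (nat_lit 2168739645) (nat_lit 0) (nat_lit 887660670) (nat_lit 532) (nat_lit 887660670) (nat_lit 251) (nat_lit 1) (nat_lit 243) (nat_lit 1) (nat_lit 250) (nat_lit 1) (nat_lit 390) (nat_lit 409) (nat_lit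 341))))) (XT.nd (nat_lit 234) (nat_lit 456) (nat_lit 0) (XT.nd (nat_lit 78) (nat_lit 1064) (nat_lit 0) (XT.lf (nat_lit 76) (nat_lit 690885527) (nat_lit 0) (nat_lit 2531067109) (nat_lit 608) (nat_lit 690885527) (nat_lit 244) (nat_lit 1) (nat_lit 243) (nat_lit 1) (nat_lit 251) (nat_lit 1) (nat_lit 391) (nat_lit 409) (nat_lit 340)) (XT.nd (nat_lit 78) (nat_lit 608) (nat_lit 0) (XT.lf (nat_lit 532) (nat_lit 593581465) (nat_lit 0) (nat_lit 1644159792) (nat_lit 456) (nat_lit 1644159792) (nat_lit 244) (nat_lit 1) (nat_lit 237) (nat_lit 1) (nat_lit 243) (nat_lit 1) (nat_lit 392) (nat_lit 409) (nat_lit 339)) (XT.lf (nat_lit 608) (nat_lit 3669565832) (nat_lit 0) (nat_lit 90939963) (nat_lit 532) (nat_lit 90939963) (nat_lit 237) (nat_lit 1) (nat_lit 229) (nat_lit 1) (nat_lit 236) (nat_lit 1) (nat_lit 393) (nat_lit 409) (nat_lit 338)))) (XT.nd (nat_lit 78) (nat_lit 456) (nat_lit 0) (XT.lf (nat_lit 76) (nat_lit 1431353195) (nat_lit 0) (nat_lit 958329168)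 (nat_lit 608) (nat_lit 1431353195) (nat_lit 230) (nat_lit 1) (nat_lit 229) (nat_lit 1) (nat_lit 237) (nat_lit 1) (nat_lit 394) (nat_lit 409) (nat_lit 337)) (XT.nd (nat_lit 78) (nat_lit 0) (nat_lit 0) (XT.lf (nat_lit 532) (nat_lit 2065362925) (nat_lit 0) (nat_lit 862867544) (nat_lit 456) (nat_lit 862867544) (nat_lit 230) (nat_lit 1) (nat_lit 223) (nat_lit 1) (nat_lit 229) (nat_lit 1) (nat_lit 395) (nat_lit 409) (nat_lit 336)) (XT.lf (nat_lit 76) (nat_lit 634987873) (nat_lit 0) (nat_lit 2491503538) (nat_lit 532) (nat_lit 634987873) (nat_lit 224) (nat_lit 1) (nat_lit 223) (nat_lit 1) (nat_lit 230) (nat_lit 1) (nat_lit 396) (nat_lit 409) (nat_lit 335)))))) (XT.nd (nat_lit 468) (nat_lit 1748) (nat_lit 0) (XT.nd (nat_lit 234) (nat_lit 836) (nat_lit 0) (XT.nd (nat_lit 78) (nat_lit 532) (nat_lit 0) (XT.lf (nat_lit 532) (nat_lit 473792922) (nat_lit 0) (nat_lit 1629163495) (nat_lit 456) (nat_lit 1629163495) (nat_lit 224) (nat_lit 1) (nat_lit 217)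 (nat_lit 1) (nat_lit 223) (nat_lit 1) (nat_lit 397) (nat_lit 409) (nat_lit 334)) (XT.nd (nat_lit 78) (nat_lit 0) (nat_lit 0) (XT.lf (nat_lit 532) (nat_lit 3395316684) (nat_lit 0) (nat_lit 153938625) (nat_lit 456) (nat_lit 153938625) (nat_lit 217) (nat_lit 1) (nat_lit 210) (nat_lit 1) (nat_lit 216) (nat_lit 1) (nat_lit 398) (nat_lit 409) (nat_lit 333)) (XT.lf (nat_lit 76) (nat_lit 1292080377) (nat_lit 0) (nat_lit 1090173169) (nat_lit 532) (nat_lit 1292080377) (nat_lit 211) (nat_lit 1) (nat_lit 210) (nat_lit 1) (nat_lit 217) (nat_lit 1) (nat_lit 399) (nat_lit 409) (nat_lit 332)))) (XT.nd (nat_lit 78) (nat_lit 380) (nat_lit 0) (XT.lf (nat_lit 532) (nat_lit 1781737651) (nat_lit 0) (nat_lit 932080756) (nat_lit 456) (nat_lit 932080756) (nat_lit 211) (nat_lit 1) (nat_lit 204) (nat_lit 1) (nat_lit 210) (nat_lit 1) (nat_lit 400) (nat_lit 409) (nat_lit 331)) (XT.nd (nat_lit 78) (nat_lit 380) (nat_lit 0) (XT.lf (nat_lit 76) (nat_lit 491624373) (nat_lit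 0) (nat_lit 2634541836) (nat_lit 532) (nat_lit 491624373) (nat_lit 205) (nat_lit 1) (nat_lit 204) (nat_lit 1) (nat_lit 211) (nat_lit 1) (nat_lit 401) (nat_lit 409) (nat_lit 330)) (XT.lf (nat_lit 456) (nat_lit 183083975) (nat_lit 0) (nat_lit 1703404661) (nat_lit 380) (nat_lit 1703404661) (nat_lit 205) (nat_lit 1) (nat_lit 199) (nat_lit 1) (nat_lit 204) (nat_lit 1) (nat_lit 402) (nat_lit 409) (nat_lit 329))))) (XT.nd (nat_lit 234) (nat_lit 836) (nat_lit 0) (XT.nd (nat_lit 78) (nat_lit 380) (nat_lit 0) (XT.lf (nat_lit 532) (nat_lit 2963722950) (nat_lit 0) (nat_lit 299319634) (nat_lit 456) (nat_lit 299319634) (nat_lit 199) (nat_lit 1) (nat_lit 192) (nat_lit 1) (nat_lit 198) (nat_lit 1) (nat_lit 403) (nat_lit 409) (nat_lit 328)) (XT.nd (nat_lit 78) (nat_lit 380) (nat_lit 0) (XT.lf (nat_lit 76) (nat_lit 1076519922) (nat_lit 0) (nat_lit 1381922963) (nat_lit 532) (nat_lit 1076519922) (nat_lit 193) (nat_lit 1) (nat_lit 192) (nat_lit 1) (nat_lit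 199) (nat_lit 1) (nat_lit 404) (nat_lit 409) (nat_lit 327)) (XT.lf (nat_lit 456) (nat_lit 1349160886) (nat_lit 0) (nat_lit 1079380743) (nat_lit 380) (nat_lit 1079380743) (nat_lit 193) (nat_lit 1) (nat_lit 187) (nat_lit 1) (nat_lit 192) (nat_lit 1) (nat_lit 405) (nat_lit 409) (nat_lit 326)))) (XT.nd (nat_lit 78) (nat_lit 836) (nat_lit 0) (XT.lf (nat_lit 76) (nat_lit 276054710) (nat_lit 0) (nat_lit 2929127529) (nat_lit 456) (nat_lit 276054710) (nat_lit 188) (nat_lit 1) (nat_lit 187) (nat_lit 1) (nat_lit 193) (nat_lit 1) (nat_lit 406) (nat_lit 409) (nat_lit 325)) (XT.nd (nat_lit 78) (nat_lit 380) (nat_lit 0) (XT.lf (nat_lit 76) (nat_lit 1604670352) (nat_lit 0) (nat_lit 245323933) (nat_lit 456) (nat_lit 1604670352) (nat_lit 182) (nat_lit 1) (nat_lit 181) (nat_lit 1) (nat_lit 187) (nat_lit 1) (nat_lit 407) (nat_lit 409) (nat_lit 324)) (XT.lf (nat_lit 456) (nat_lit 2403298068) (nat_lit 0) (nat_lit 512571294) (nat_lit 380) (nat_lit 512571294)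 (nat_lit 182) (nat_lit 1) (nat_lit 176) (nat_lit 1) (nat_lit 181) (nat_lit 1) (nat_lit 408) (nat_lit 409) (nat_lit 323))))))) (XT.nd (nat_lit 936) (nat_lit 1292) (nat_lit 0) (XT.nd (nat_lit 468) (nat_lit 1444) (nat_lit 0) (XT.nd (nat_lit 234) (nat_lit 760) (nat_lit 0) (XT.nd (nat_lit 78) (nat_lit 380) (nat_lit 0) (XT.lf (nat_lit 76) (nat_lit 798572154) (nat_lit 0) (nat_lit 1805274488) (nat_lit 456) (nat_lit 798572154) (nat_lit 177) (nat_lit 1) (nat_lit 176) (nat_lit 1) (nat_lit 182) (nat_lit 1) (nat_lit 409) (nat_lit 409) (nat_lit 322)) (XT.nd (nat_lit 78) (nat_lit 0) (nat_lit 0) (XT.lf (nat_lit 456) (nat_lit 794920679) (nat_lit 0) (nat_lit 1290876805) (nat_lit 380) (nat_lit 1290876805) (nat_lit 177) (nat_lit 1) (nat_lit 171) (nat_lit 1) (nat_lit 176) (nat_lit 1) (nat_lit 410) (nat_lit 409) (nat_lit 321)) (XT.lf (nat_lit 76) (nat_lit 1581274) (nat_lit 0) (nat_lit 3348168806) (nat_lit 456) (nat_lit 1581274) (nat_lit 172) (nat_lit 1) (nat_lit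 171) (nat_lit 1) (nat_lit 177) (nat_lit 1) (nat_lit 411) (nat_lit 409) (nat_lit 320)))) (XT.nd (nat_lit 78) (nat_lit 380) (nat_lit 0) (XT.lf (nat_lit 76) (nat_lit 1270639852) (nat_lit 0) (nat_lit 784670479) (nat_lit 380) (nat_lit 1270639852) (nat_lit 167) (nat_lit 1) (nat_lit 166) (nat_lit 1) (nat_lit 171) (nat_lit 1) (nat_lit 412) (nat_lit 409) (nat_lit 319)) (XT.nd (nat_lit 78) (nat_lit 0) (nat_lit 0) (XT.lf (nat_lit 456) (nat_lit 1738868164) (nat_lit 0) (nat_lit 781048244) (nat_lit 380) (nat_lit 781048244) (nat_lit 167) (nat_lit 1) (nat_lit 161) (nat_lit 1) (nat_lit 166) (nat_lit 1) (nat_lit 413) (nat_lit 409) (nat_lit 318)) (XT.lf (nat_lit 76) (nat_lit 470337250) (nat_lit 0) (nat_lit 2335568735) (nat_lit 456) (nat_lit 470337250) (nat_lit 162) (nat_lit 1) (nat_lit 161) (nat_lit 1) (nat_lit 167) (nat_lit 1) (nat_lit 414) (nat_lit 409) (nat_lit 317))))) (XT.nd (nat_lit 234) (nat_lit 684) (nat_lit 0) (XT.nd (nat_lit 78) (nat_lit 456)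 (nat_lit 0) (XT.lf (nat_lit 380) (nat_lit 142766110) (nat_lit 0) (nat_lit 1554469578) (nat_lit 304) (nat_lit 1554469578) (nat_lit 162) (nat_lit 1) (nat_lit 157) (nat_lit 1) (nat_lit 161) (nat_lit 1) (nat_lit 415) (nat_lit 409) (nat_lit 316)) (XT.nd (nat_lit 78) (nat_lit 0) (nat_lit 0) (XT.lf (nat_lit 456) (nat_lit 2591233959) (nat_lit 0) (nat_lit 318114525) (nat_lit 380) (nat_lit 318114525) (nat_lit 157) (nat_lit 1) (nat_lit 151) (nat_lit 1) (nat_lit 156) (nat_lit 1) (nat_lit 416) (nat_lit 409) (nat_lit 315)) (XT.lf (nat_lit 76) (nat_lit 894201659) (nat_lit 0) (nat_lit 1414938119) (nat_lit 456) (nat_lit 894201659) (nat_lit 152) (nat_lit 1) (nat_lit 151) (nat_lit 1) (nat_lit 157) (nat_lit 1) (nat_lit 417) (nat_lit 409) (nat_lit 314)))) (XT.nd (nat_lit 78) (nat_lit 380) (nat_lit 0) (XT.lf (nat_lit 380) (nat_lit 992005653) (nat_lit 0) (nat_lit 1093752329) (nat_lit 304) (nat_lit 1093752329) (nat_lit 152) (nat_lit 1) (nat_lit 147) (nat_lit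 1) (nat_lit 151) (nat_lit 1) (nat_lit 418) (nat_lit 409) (nat_lit 313)) (XT.nd (nat_lit 78) (nat_lit 380) (nat_lit 0) (XT.lf (nat_lit 76) (nat_lit 102327026) (nat_lit 0) (nat_lit 2951363593) (nat_lit 380) (nat_lit 102327026) (nat_lit 148) (nat_lit 1) (nat_lit 147) (nat_lit 1) (nat_lit 152) (nat_lit 1) (nat_lit 419) (nat_lit 409) (nat_lit 312)) (XT.lf (nat_lit 76) (nat_lit 1276773468) (nat_lit 0) (nat_lit 578981781) (nat_lit 380) (nat_lit 1276773468) (nat_lit 143) (nat_lit 1) (nat_lit 142) (nat_lit 1) (nat_lit 147) (nat_lit 1) (nat_lit 420) (nat_lit 409) (nat_lit 311)))))) (XT.nd (nat_lit 51480) (nat_lit 0) (nat_lit 28272) (XT.nd (nat_lit 234) (nat_lit 684) (nat_lit 0) (XT.nd (nat_lit 78) (nat_lit 304) (nat_lit 0) (XT.lf (nat_lit 380) (nat_lit 1759706783) (nat_lit 0) (nat_lit 674833301) (nat_lit 304) (nat_lit 674833301) (nat_lit 143) (nat_lit 1) (nat_lit 138) (nat_lit 1) (nat_lit 142) (nat_lit 1) (nat_lit 421) (nat_lit 409) (nat_lit 310))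 (XT.nd (nat_lit 78) (nat_lit 304) (nat_lit 0) (XT.lf (nat_lit 76) (nat_lit 484889217) (nat_lit 0) (nat_lit 2116665141) (nat_lit 380) (nat_lit 484889217) (nat_lit 139) (nat_lit 1) (nat_lit 138) (nat_lit 1) (nat_lit 143) (nat_lit 1) (nat_lit 422) (nat_lit 409) (nat_lit 309)) (XT.lf (nat_lit 380) (nat_lit 181413450) (nat_lit 0) (nat_lit 1441138436) (nat_lit 304) (nat_lit 1441138436) (nat_lit 139) (nat_lit 1) (nat_lit 134) (nat_lit 1) (nat_lit 138) (nat_lit 1) (nat_lit 423) (nat_lit 409) (nat_lit 308)))) (XT.nd (nat_lit 78) (nat_lit 304) (nat_lit 0) (XT.lf (nat_lit 380) (nat_lit 2452409707) (nat_lit 0) (nat_lit 294397751) (nat_lit 304) (nat_lit 294397751) (nat_lit 134) (nat_lit 1) (nat_lit 129) (nat_lit 1) (nat_lit 133) (nat_lit 1) (nat_lit 424) (nat_lit 409) (nat_lit 307)) (XT.nd (nat_lit 78) (nat_lit 304) (nat_lit 0) (XT.lf (nat_lit 76) (nat_lit 830663530) (nat_lit 0) (nat_lit 1357492374) (nat_lit 380) (nat_lit 830663530) (nat_lit 130)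 (nat_lit 1) (nat_lit 129) (nat_lit 1) (nat_lit 134) (nat_lit 1) (nat_lit 425) (nat_lit 409) (nat_lit 306)) (XT.lf (nat_lit 380) (nat_lit 876824969) (nat_lit 0) (nat_lit 1059936256) (nat_lit 304) (nat_lit 1059936256) (nat_lit 130) (nat_lit 1) (nat_lit 125) (nat_lit 1) (nat_lit 129) (nat_lit 1) (nat_lit 426) (nat_lit 409) (nat_lit 305))))) (XT.nd (nat_lit 234) (nat_lit 0) (nat_lit 76) (XT.nd (nat_lit 78) (nat_lit 0) (nat_lit 0) (XT.lf (nat_lit 1900) (nat_lit 1221772957) (nat_lit 0) (nat_lit 1231989820) (nat_lit 1900) (nat_lit 1221772957) (nat_lit 522) (nat_lit 1) (nat_lit 497) (nat_lit 0) (nat_lit 522) (nat_lit 0) (nat_lit 320) (nat_lit 410) (nat_lit 410)) (XT.nd (nat_lit 78) (nat_lit 0) (nat_lit 76) (XT.lf (nat_lit 1900) (nat_lit 4831073968) (nat_lit 76) (nat_lit 1223884624) (nat_lit 0) (nat_lit 1223884624) (nat_lit 522) (nat_lit 1) (nat_lit 498) (nat_lit 1) (nat_lit 497) (nat_lit 0) (nat_lit 321) (nat_lit 410) (nat_lit 409)) (XT.lf (nat_lit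 1900) (nat_lit 2372080314) (nat_lit 0) (nat_lit 2463243244) (nat_lit 1824) (nat_lit 2372080314) (nat_lit 523) (nat_lit 1) (nat_lit 498) (nat_lit 1) (nat_lit 522) (nat_lit 1) (nat_lit 322) (nat_lit 410) (nat_lit 408)))) (XT.nd (nat_lit 78) (nat_lit 0) (nat_lit 76) (XT.lf (nat_lit 1900) (nat_lit 4642745925) (nat_lit 76) (nat_lit 1247150809) (nat_lit 0) (nat_lit 1247150809) (nat_lit 523) (nat_lit 1) (nat_lit 499) (nat_lit 1) (nat_lit 498) (nat_lit 1) (nat_lit 323) (nat_lit 410) (nat_lit 407)) (XT.nd (nat_lit 78) (nat_lit 0) (nat_lit 0) (XT.lf (nat_lit 1900) (nat_lit 2256286541) (nat_lit 0) (nat_lit 2554894792) (nat_lit 1824) (nat_lit 2256286541) (nat_lit 524) (nat_lit 1) (nat_lit 499) (nat_lit 1) (nat_lit 523) (nat_lit 1) (nat_lit 324) (nat_lit 410) (nat_lit 406)) (XT.lf (nat_lit 1900) (nat_lit 4368144132) (nat_lit 76) (nat_lit 1315389402) (nat_lit 0) (nat_lit 1315389402) (nat_lit 524) (nat_lit 1) (nat_lit 500) (nat_lit 1) (nat_lit 499)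 (nat_lit 1) (nat_lit 325) (nat_lit 410) (nat_lit 405))))))))
noncomputable def ec67 : XT := (XT.nd (nat_lit 1872) (nat_lit 10944) (nat_lit 0) (XT.nd (nat_lit 936) (nat_lit 3268) (nat_lit 0) (XT.nd (nat_lit 468) (nat_lit 0) (nat_lit 228) (XT.nd (nat_lit 234) (nat_lit 0) (nat_lit 76) (XT.nd (nat_lit 78) (nat_lit 0) (nat_lit 0) (XT.lf (nat_lit 1900) (nat_lit 2098809507) (nat_lit 0) (nat_lit 2733535783) (nat_lit 1824) (nat_lit 2098809507) (nat_lit 525) (nat_lit 1) (nat_lit 500) (nat_lit 1) (nat_lit 524) (nat_lit 1) (nat_lit 326) (nat_lit 410) (nat_lit 404)) (XT.nd (nat_lit 78) (nat_lit 0) (nat_lit 76) (XT.lf (nat_lit 1900) (nat_lit 4012453737) (nat_lit 76) (nat_lit 1425954542) (nat_lit 0) (nat_lit 1425954542) (nat_lit 525) (nat_lit 1) (nat_lit 501) (nat_lit 1) (nat_lit 500) (nat_lit 1) (nat_lit 327) (nat_lit 410) (nat_lit 403)) (XT.lf (nat_lit 1900) (nat_lit 1902173305) (nat_lit 0) (nat_lit 2994012851) (nat_lit 1824) (nat_lit 1902173305)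 (nat_lit 526) (nat_lit 1) (nat_lit 501) (nat_lit 1) (nat_lit 525) (nat_lit 1) (nat_lit 328) (nat_lit 410) (nat_lit 402)))) (XT.nd (nat_lit 78) (nat_lit 0) (nat_lit 76) (XT.lf (nat_lit 1900) (nat_lit 3580622564) (nat_lit 76) (nat_lit 1576320749) (nat_lit 0) (nat_lit 1576320749) (nat_lit 526) (nat_lit 1) (nat_lit 502) (nat_lit 1) (nat_lit 501) (nat_lit 1) (nat_lit 329) (nat_lit 410) (nat_lit 401)) (XT.nd (nat_lit 78) (nat_lit 0) (nat_lit 0) (XT.lf (nat_lit 1900) (nat_lit 1668786265) (nat_lit 0) (nat_lit 3331407556) (nat_lit 1824) (nat_lit 1668786265) (nat_lit 527) (nat_lit 1) (nat_lit 502) (nat_lit 1) (nat_lit 526) (nat_lit 1) (nat_lit 330) (nat_lit 410) (nat_lit 400)) (XT.lf (nat_lit 1900) (nat_lit 3077371030) (nat_lit 76) (nat_lit 1764077902) (nat_lit 0) (nat_lit 1764077902) (nat_lit 527) (nat_lit 1) (nat_lit 503) (nat_lit 1) (nat_lit 502) (nat_lit 1) (nat_lit 331) (nat_lit 410) (nat_lit 399))))) (XT.nd (nat_lit 234) (nat_lit 0) (nat_lit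 76) (XT.nd (nat_lit 78) (nat_lit 0) (nat_lit 0) (XT.lf (nat_lit 1900) (nat_lit 1400945789) (nat_lit 0) (nat_lit 3741026577) (nat_lit 1824) (nat_lit 1400945789) (nat_lit 528) (nat_lit 1) (nat_lit 503) (nat_lit 1) (nat_lit 527) (nat_lit 1) (nat_lit 332) (nat_lit 410) (nat_lit 398)) (XT.nd (nat_lit 78) (nat_lit 0) (nat_lit 76) (XT.lf (nat_lit 1900) (nat_lit 2507201667) (nat_lit 76) (nat_lit 1986926421) (nat_lit 0) (nat_lit 1986926421) (nat_lit 528) (nat_lit 1) (nat_lit 504) (nat_lit 1) (nat_lit 503) (nat_lit 1) (nat_lit 333) (nat_lit 410) (nat_lit 397)) (XT.lf (nat_lit 1900) (nat_lit 1100843002) (nat_lit 0) (nat_lit 4218392302) (nat_lit 1824) (nat_lit 1100843002) (nat_lit 529) (nat_lit 1) (nat_lit 504) (nat_lit 1) (nat_lit 528) (nat_lit 1) (nat_lit 334) (nat_lit 410) (nat_lit 396)))) (XT.nd (nat_lit 78) (nat_lit 0) (nat_lit 76) (XT.lf (nat_lit 1900) (nat_lit 1874408266) (nat_lit 76) (nat_lit 2242672641) (nat_lit 0) (nat_lit 2242672641) (nat_lit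 529) (nat_lit 1) (nat_lit 505) (nat_lit 1) (nat_lit 504) (nat_lit 1) (nat_lit 335) (nat_lit 410) (nat_lit 395)) (XT.nd (nat_lit 78) (nat_lit 0) (nat_lit 0) (XT.lf (nat_lit 1900) (nat_lit 770567218) (nat_lit 0) (nat_lit 4759233794) (nat_lit 1824) (nat_lit 770567218) (nat_lit 530) (nat_lit 1) (nat_lit 505) (nat_lit 1) (nat_lit 529) (nat_lit 1) (nat_lit 336) (nat_lit 410) (nat_lit 394)) (XT.lf (nat_lit 1900) (nat_lit 1183084640) (nat_lit 76) (nat_lit 2529224377) (nat_lit 0) (nat_lit 2529224377) (nat_lit 530) (nat_lit 1) (nat_lit 506) (nat_lit 1) (nat_lit 505) (nat_lit 1) (nat_lit 337) (nat_lit 410) (nat_lit 393)))))) (XT.nd (nat_lit 468) (nat_lit 1900) (nat_lit 0) (XT.nd (nat_lit 234) (nat_lit 1824) (nat_lit 0) (XT.nd (nat_lit 78) (nat_lit 0) (nat_lit 0) (XT.lf (nat_lit 1900) (nat_lit 412110215) (nat_lit 0) (nat_lit 5359478125) (nat_lit 1824) (nat_lit 412110215) (nat_lit 531) (nat_lit 1) (nat_lit 506) (nat_lit 1) (nat_lit 530) (nat_lit 1)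 (nat_lit 338) (nat_lit 410) (nat_lit 392)) (XT.nd (nat_lit 78) (nat_lit 0) (nat_lit 76) (XT.lf (nat_lit 1900) (nat_lit 437133049) (nat_lit 76) (nat_lit 2844586658) (nat_lit 0) (nat_lit 2844586658) (nat_lit 531) (nat_lit 1) (nat_lit 507) (nat_lit 1) (nat_lit 506) (nat_lit 1) (nat_lit 339) (nat_lit 410) (nat_lit 391)) (XT.lf (nat_lit 1900) (nat_lit 27370348) (nat_lit 0) (nat_lit 6015242054) (nat_lit 1824) (nat_lit 27370348) (nat_lit 532) (nat_lit 1) (nat_lit 507) (nat_lit 1) (nat_lit 531) (nat_lit 1) (nat_lit 340) (nat_lit 410) (nat_lit 390)))) (XT.nd (nat_lit 78) (nat_lit 0) (nat_lit 0) (XT.lf (nat_lit 1976) (nat_lit 2829465506) (nat_lit 0) (nat_lit 355009834) (nat_lit 1900) (nat_lit 2829465506) (nat_lit 508) (nat_lit 1) (nat_lit 482) (nat_lit 1) (nat_lit 507) (nat_lit 1) (nat_lit 341) (nat_lit 410) (nat_lit 389)) (XT.nd (nat_lit 78) (nat_lit 0) (nat_lit 76) (XT.lf (nat_lit 1976) (nat_lit 5200275263) (nat_lit 76) (nat_lit 379331381) (nat_lit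 0) (nat_lit 379331381) (nat_lit 508) (nat_lit 1) (nat_lit 483) (nat_lit 1) (nat_lit 482) (nat_lit 1) (nat_lit 342) (nat_lit 410) (nat_lit 388)) (XT.lf (nat_lit 1976) (nat_lit 2358086926) (nat_lit 0) (nat_lit 1188164562) (nat_lit 1900) (nat_lit 2358086926) (nat_lit 509) (nat_lit 1) (nat_lit 483) (nat_lit 1) (nat_lit 508) (nat_lit 1) (nat_lit 343) (nat_lit 410) (nat_lit 387))))) (XT.nd (nat_lit 234) (nat_lit 912) (nat_lit 0) (XT.nd (nat_lit 78) (nat_lit 1064) (nat_lit 0) (XT.lf (nat_lit 1976) (nat_lit 4233747757) (nat_lit 76) (nat_lit 808454179) (nat_lit 0) (nat_lit 808454179) (nat_lit 509) (nat_lit 1) (nat_lit 484) (nat_lit 1) (nat_lit 483) (nat_lit 1) (nat_lit 344) (nat_lit 410) (nat_lit 386)) (XT.nd (nat_lit 78) (nat_lit 1140) (nat_lit 0) (XT.lf (nat_lit 76) (nat_lit 1866371465) (nat_lit 0) (nat_lit 2064733713) (nat_lit 1900) (nat_lit 1866371465) (nat_lit 485) (nat_lit 1) (nat_lit 484) (nat_lit 1) (nat_lit 509) (nat_lit 1) (nat_lit 345)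 (nat_lit 410) (nat_lit 385)) (XT.lf (nat_lit 1216) (nat_lit 3227977954) (nat_lit 0) (nat_lit 1258547802) (nat_lit 1140) (nat_lit 1258547802) (nat_lit 485) (nat_lit 1) (nat_lit 469) (nat_lit 1) (nat_lit 484) (nat_lit 1) (nat_lit 346) (nat_lit 410) (nat_lit 384)))) (XT.nd (nat_lit 78) (nat_lit 912) (nat_lit 0) (XT.lf (nat_lit 76) (nat_lit 1355866496) (nat_lit 0) (nat_lit 2981545828) (nat_lit 1216) (nat_lit 1355866496) (nat_lit 470) (nat_lit 1) (nat_lit 469) (nat_lit 1) (nat_lit 485) (nat_lit 1) (nat_lit 347) (nat_lit 410) (nat_lit 383)) (XT.nd (nat_lit 78) (nat_lit 0) (nat_lit 0) (XT.lf (nat_lit 988) (nat_lit 2185995048) (nat_lit 0) (nat_lit 1728060000) (nat_lit 912) (nat_lit 1728060000) (nat_lit 470) (nat_lit 1) (nat_lit 457) (nat_lit 1) (nat_lit 469) (nat_lit 1) (nat_lit 348) (nat_lit 410) (nat_lit 382)) (XT.lf (nat_lit 76) (nat_lit 828044451) (nat_lit 0) (nat_lit 3935581728) (nat_lit 988) (nat_lit 828044451) (nat_lit 458) (nat_lit 1)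 (nat_lit 457) (nat_lit 1) (nat_lit 470) (nat_lit 1) (nat_lit 349) (nat_lit 410) (nat_lit 381))))))) (XT.nd (nat_lit 936) (nat_lit 4940) (nat_lit 0) (XT.nd (nat_lit 468) (nat_lit 2432) (nat_lit 0) (XT.nd (nat_lit 234) (nat_lit 1824) (nat_lit 0) (XT.nd (nat_lit 78) (nat_lit 836) (nat_lit 0) (XT.lf (nat_lit 988) (nat_lit 1110681088) (nat_lit 0) (nat_lit 2215513272) (nat_lit 912) (nat_lit 2215513272) (nat_lit 458) (nat_lit 1) (nat_lit 445) (nat_lit 1) (nat_lit 457) (nat_lit 1) (nat_lit 350) (nat_lit 410) (nat_lit 380)) (XT.nd (nat_lit 78) (nat_lit 836) (nat_lit 0) (XT.lf (nat_lit 76) (nat_lit 284306020) (nat_lit 0) (nat_lit 4923968034) (nat_lit 988) (nat_lit 284306020) (nat_lit 446) (nat_lit 1) (nat_lit 445) (nat_lit 1) (nat_lit 458) (nat_lit 1) (nat_lit 351) (nat_lit 410) (nat_lit 379)) (XT.lf (nat_lit 912) (nat_lit 4777272) (nat_lit 0) (nat_lit 2719501672) (nat_lit 836) (nat_lit 2719501672) (nat_lit 446) (nat_lit 1) (nat_lit 434) (nat_lit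 1) (nat_lit 445) (nat_lit 1) (nat_lit 352) (nat_lit 410) (nat_lit 378)))) (XT.nd (nat_lit 78) (nat_lit 836) (nat_lit 0) (XT.lf (nat_lit 988) (nat_lit 4851366518) (nat_lit 0) (nat_lit 272214033) (nat_lit 912) (nat_lit 272214033) (nat_lit 434) (nat_lit 1) (nat_lit 421) (nat_lit 1) (nat_lit 433) (nat_lit 1) (nat_lit 353) (nat_lit 410) (nat_lit 377)) (XT.nd (nat_lit 78) (nat_lit 836) (nat_lit 0) (XT.lf (nat_lit 76) (nat_lit 2116908672) (nat_lit 0) (nat_lit 1114301536) (nat_lit 988) (nat_lit 2116908672) (nat_lit 422) (nat_lit 1) (nat_lit 421) (nat_lit 1) (nat_lit 434) (nat_lit 1) (nat_lit 354) (nat_lit 410) (nat_lit 376)) (XT.lf (nat_lit 912) (nat_lit 3621046047) (nat_lit 0) (nat_lit 840094102) (nat_lit 836) (nat_lit 840094102) (nat_lit 422) (nat_lit 1) (nat_lit 410) (nat_lit 1) (nat_lit 421) (nat_lit 1) (nat_lit 355) (nat_lit 410) (nat_lit 375))))) (XT.nd (nat_lit 234) (nat_lit 1596) (nat_lit 0) (XT.nd (nat_lit 78) (nat_lit 836) (nat_lit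 0) (XT.lf (nat_lit 76) (nat_lit 1498154718) (nat_lit 0) (nat_lit 2258489287) (nat_lit 912) (nat_lit 1498154718) (nat_lit 411) (nat_lit 1) (nat_lit 410) (nat_lit 1) (nat_lit 422) (nat_lit 1) (nat_lit 356) (nat_lit 410) (nat_lit 374)) (XT.nd (nat_lit 78) (nat_lit 0) (nat_lit 0) (XT.lf (nat_lit 912) (nat_lit 2368964081) (nat_lit 0) (nat_lit 1420009136) (nat_lit 836) (nat_lit 1420009136) (nat_lit 411) (nat_lit 1) (nat_lit 399) (nat_lit 1) (nat_lit 410) (nat_lit 1) (nat_lit 357) (nat_lit 410) (nat_lit 373)) (XT.lf (nat_lit 76) (nat_lit 869115555) (nat_lit 0) (nat_lit 3425525616) (nat_lit 912) (nat_lit 869115555) (nat_lit 400) (nat_lit 1) (nat_lit 399) (nat_lit 1) (nat_lit 411) (nat_lit 1) (nat_lit 358) (nat_lit 410) (nat_lit 372)))) (XT.nd (nat_lit 78) (nat_lit 836) (nat_lit 0) (XT.lf (nat_lit 836) (nat_lit 1097329100) (nat_lit 0) (nat_lit 2010823443) (nat_lit 760) (nat_lit 2010823443) (nat_lit 400) (nat_lit 1) (nat_lit 389) (nat_lit 1) (nat_lit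 399) (nat_lit 1) (nat_lit 359) (nat_lit 410) (nat_lit 371)) (XT.nd (nat_lit 78) (nat_lit 836) (nat_lit 0) (XT.lf (nat_lit 76) (nat_lit 230863358) (nat_lit 0) (nat_lit 4613204092) (nat_lit 836) (nat_lit 230863358) (nat_lit 390) (nat_lit 1) (nat_lit 389) (nat_lit 1) (nat_lit 400) (nat_lit 1) (nat_lit 360) (nat_lit 410) (nat_lit 370)) (XT.lf (nat_lit 76) (nat_lit 2420940682) (nat_lit 0) (nat_lit 189247897) (nat_lit 836) (nat_lit 2420940682) (nat_lit 379) (nat_lit 1) (nat_lit 378) (nat_lit 1) (nat_lit 389) (nat_lit 1) (nat_lit 361) (nat_lit 410) (nat_lit 369)))))) (XT.nd (nat_lit 468) (nat_lit 2736) (nat_lit 0) (XT.nd (nat_lit 234) (nat_lit 684) (nat_lit 0) (XT.nd (nat_lit 78) (nat_lit 760) (nat_lit 0) (XT.lf (nat_lit 836) (nat_lit 4162343372) (nat_lit 0) (nat_lit 412850414) (nat_lit 760) (nat_lit 412850414) (nat_lit 379) (nat_lit 1) (nat_lit 368) (nat_lit 1) (nat_lit 378) (nat_lit 1) (nat_lit 362) (nat_lit 410) (nat_lit 368)) (XT.nd (nat_lit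 78) (nat_lit 760) (nat_lit 0) (XT.lf (nat_lit 76) (nat_lit 1734282232) (nat_lit 0) (nat_lit 1476698985) (nat_lit 836) (nat_lit 1734282232) (nat_lit 369) (nat_lit 1) (nat_lit 368) (nat_lit 1) (nat_lit 379) (nat_lit 1) (nat_lit 363) (nat_lit 410) (nat_lit 367)) (XT.lf (nat_lit 836) (nat_lit 2778673940) (nat_lit 0) (nat_lit 1062228552) (nat_lit 760) (nat_lit 1062228552) (nat_lit 369) (nat_lit 1) (nat_lit 358) (nat_lit 1) (nat_lit 368) (nat_lit 1) (nat_lit 364) (nat_lit 410) (nat_lit 366)))) (XT.nd (nat_lit 78) (nat_lit 684) (nat_lit 0) (XT.lf (nat_lit 76) (nat_lit 1041954433) (nat_lit 0) (nat_lit 2777555077) (nat_lit 836) (nat_lit 1041954433) (nat_lit 359) (nat_lit 1) (nat_lit 358) (nat_lit 1) (nat_lit 369) (nat_lit 1) (nat_lit 365) (nat_lit 410) (nat_lit 365)) (XT.nd (nat_lit 78) (nat_lit 0) (nat_lit 0) (XT.lf (nat_lit 760) (nat_lit 1384493250) (nat_lit 0) (nat_lit 1717881147) (nat_lit 684) (nat_lit 1717881147) (nat_lit 359) (nat_lit 1)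 (nat_lit 349) (nat_lit 1) (nat_lit 358) (nat_lit 1) (nat_lit 366) (nat_lit 410) (nat_lit 364)) (XT.lf (nat_lit 76) (nat_lit 344811417) (nat_lit 0) (nat_lit 4090052538) (nat_lit 760) (nat_lit 344811417) (nat_lit 350) (nat_lit 1) (nat_lit 349) (nat_lit 1) (nat_lit 359) (nat_lit 1) (nat_lit 367) (nat_lit 410) (nat_lit 363))))) (XT.nd (nat_lit 234) (nat_lit 1292) (nat_lit 0) (XT.nd (nat_lit 78) (nat_lit 684) (nat_lit 0) (XT.lf (nat_lit 76) (nat_lit 2360536499) (nat_lit 0) (nat_lit 18287873) (nat_lit 760) (nat_lit 2360536499) (nat_lit 340) (nat_lit 1) (nat_lit 339) (nat_lit 1) (nat_lit 349) (nat_lit 1) (nat_lit 368) (nat_lit 410) (nat_lit 362)) (XT.nd (nat_lit 78) (nat_lit 0) (nat_lit 0) (XT.lf (nat_lit 760) (nat_lit 3991670409) (nat_lit 0) (nat_lit 353993952) (nat_lit 684) (nat_lit 353993952) (nat_lit 340) (nat_lit 1) (nat_lit 330) (nat_lit 1) (nat_lit 339) (nat_lit 1) (nat_lit 369) (nat_lit 410) (nat_lit 361)) (XT.lf (nat_lit 76) (nat_lit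 1625067464) (nat_lit 0) (nat_lit 1410080977) (nat_lit 760) (nat_lit 1625067464) (nat_lit 331) (nat_lit 1) (nat_lit 330) (nat_lit 1) (nat_lit 340) (nat_lit 1) (nat_lit 370) (nat_lit 410) (nat_lit 360)))) (XT.nd (nat_lit 156) (nat_lit 608) (nat_lit 0) (XT.nd (nat_lit 78) (nat_lit 0) (nat_lit 0) (XT.lf (nat_lit 760) (nat_lit 2513862512) (nat_lit 0) (nat_lit 1053751234) (nat_lit 684) (nat_lit 1053751234) (nat_lit 331) (nat_lit 1) (nat_lit 321) (nat_lit 1) (nat_lit 330) (nat_lit 1) (nat_lit 371) (nat_lit 410) (nat_lit 359)) (XT.lf (nat_lit 76) (nat_lit 887689356) (nat_lit 0) (nat_lit 2807570692) (nat_lit 760) (nat_lit 887689356) (nat_lit 322) (nat_lit 1) (nat_lit 321) (nat_lit 1) (nat_lit 331) (nat_lit 1) (nat_lit 372) (nat_lit 410) (nat_lit 358))) (XT.nd (nat_lit 78) (nat_lit 0) (nat_lit 0) (XT.lf (nat_lit 684) (nat_lit 1032904128) (nat_lit 0) (nat_lit 1756010387) (nat_lit 608) (nat_lit 1756010387) (nat_lit 322) (nat_lit 1) (nat_lit 313)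 (nat_lit 1) (nat_lit 321) (nat_lit 1) (nat_lit 373) (nat_lit 410) (nat_lit 357)) (XT.lf (nat_lit 76) (nat_lit 149073722) (nat_lit 0) (nat_lit 4209364407) (nat_lit 684) (nat_lit 149073722) (nat_lit 314) (nat_lit 1) (nat_lit 313) (nat_lit 1) (nat_lit 322) (nat_lit 1) (nat_lit 374) (nat_lit 410) (nat_lit 356))))))))
noncomputable def ec68 : XT := (XT.nd (nat_lit 1872) (nat_lit 5700) (nat_lit 0) (XT.nd (nat_lit 936) (nat_lit 3496) (nat_lit 0) (XT.nd (nat_lit 468) (nat_lit 2356) (nat_lit 0) (XT.nd (nat_lit 234) (nat_lit 1140) (nat_lit 0) (XT.nd (nat_lit 78) (nat_lit 608) (nat_lit 0) (XT.lf (nat_lit 76) (nat_lit 2013117996) (nat_lit 0) (nat_lit 443994973) (nat_lit 684) (nat_lit 2013117996) (nat_lit 305) (nat_lit 1) (nat_lit 304) (nat_lit 1) (nat_lit 313) (nat_lit 1) (nat_lit 375) (nat_lit 410) (nat_lit 355)) (XT.nd (nat_lit 78) (nat_lit 0) (nat_lit 0) (XT.lf (nat_lit 684) (nat_lit 3261021348) (nat_lit 0) (nat_lit 586263144) (nat_lit 608) (nat_lit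 586263144) (nat_lit 305) (nat_lit 1) (nat_lit 296) (nat_lit 1) (nat_lit 304) (nat_lit 1) (nat_lit 376) (nat_lit 410) (nat_lit 354)) (XT.lf (nat_lit 76) (nat_lit 1244607372) (nat_lit 0) (nat_lit 1907945388) (nat_lit 684) (nat_lit 1244607372) (nat_lit 297) (nat_lit 1) (nat_lit 296) (nat_lit 1) (nat_lit 305) (nat_lit 1) (nat_lit 377) (nat_lit 410) (nat_lit 353)))) (XT.nd (nat_lit 78) (nat_lit 532) (nat_lit 0) (XT.lf (nat_lit 684) (nat_lit 1719989331) (nat_lit 0) (nat_lit 1320625328) (nat_lit 608) (nat_lit 1320625328) (nat_lit 297) (nat_lit 1) (nat_lit 288) (nat_lit 1) (nat_lit 296) (nat_lit 1) (nat_lit 378) (nat_lit 410) (nat_lit 352)) (XT.nd (nat_lit 78) (nat_lit 532) (nat_lit 0) (XT.lf (nat_lit 76) (nat_lit 477228055) (nat_lit 0) (nat_lit 3371344700) (nat_lit 684) (nat_lit 477228055) (nat_lit 289) (nat_lit 1) (nat_lit 288) (nat_lit 1) (nat_lit 297) (nat_lit 1) (nat_lit 379) (nat_lit 410) (nat_lit 351)) (XT.lf (nat_lit 608) (nat_lit 181753447)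 (nat_lit 0) (nat_lit 2054434087) (nat_lit 532) (nat_lit 2054434087) (nat_lit 289) (nat_lit 1) (nat_lit 281) (nat_lit 1) (nat_lit 288) (nat_lit 1) (nat_lit 380) (nat_lit 410) (nat_lit 350))))) (XT.nd (nat_lit 234) (nat_lit 1140) (nat_lit 0) (XT.nd (nat_lit 78) (nat_lit 532) (nat_lit 0) (XT.lf (nat_lit 684) (nat_lit 3682752481) (nat_lit 0) (nat_lit 286602892) (nat_lit 608) (nat_lit 286602892) (nat_lit 281) (nat_lit 1) (nat_lit 272) (nat_lit 1) (nat_lit 280) (nat_lit 1) (nat_lit 381) (nat_lit 410) (nat_lit 349)) (XT.nd (nat_lit 78) (nat_lit 532) (nat_lit 0) (XT.lf (nat_lit 76) (nat_lit 1443268725) (nat_lit 0) (nat_lit 1334935776) (nat_lit 684) (nat_lit 1443268725) (nat_lit 273) (nat_lit 1) (nat_lit 272) (nat_lit 1) (nat_lit 281) (nat_lit 1) (nat_lit 382) (nat_lit 410) (nat_lit 348)) (XT.lf (nat_lit 608) (nat_lit 2097152006) (nat_lit 0) (nat_lit 1045170076) (nat_lit 532) (nat_lit 1045170076) (nat_lit 273) (nat_lit 1) (nat_lit 265) (nat_lit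 1) (nat_lit 272) (nat_lit 1) (nat_lit 383) (nat_lit 410) (nat_lit 347)))) (XT.nd (nat_lit 78) (nat_lit 1140) (nat_lit 0) (XT.lf (nat_lit 76) (nat_lit 654678142) (nat_lit 0) (nat_lit 2844548780) (nat_lit 608) (nat_lit 654678142) (nat_lit 266) (nat_lit 1) (nat_lit 265) (nat_lit 1) (nat_lit 273) (nat_lit 1) (nat_lit 384) (nat_lit 410) (nat_lit 346)) (XT.nd (nat_lit 78) (nat_lit 608) (nat_lit 0) (XT.lf (nat_lit 608) (nat_lit 518293401) (nat_lit 0) (nat_lit 1801158098) (nat_lit 532) (nat_lit 1801158098) (nat_lit 266) (nat_lit 1) (nat_lit 258) (nat_lit 1) (nat_lit 265) (nat_lit 1) (nat_lit 385) (nat_lit 410) (nat_lit 345)) (XT.lf (nat_lit 608) (nat_lit 3828855971) (nat_lit 0) (nat_lit 129487890) (nat_lit 532) (nat_lit 129487890) (nat_lit 258) (nat_lit 1) (nat_lit 250) (nat_lit 1) (nat_lit 257) (nat_lit 1) (nat_lit 386) (nat_lit 410) (nat_lit 344)))))) (XT.nd (nat_lit 468) (nat_lit 1900) (nat_lit 0) (XT.nd (nat_lit 234) (nat_lit 1064) (nat_lit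 0) (XT.nd (nat_lit 78) (nat_lit 532) (nat_lit 0) (XT.lf (nat_lit 76) (nat_lit 1507966899) (nat_lit 0) (nat_lit 1039199635) (nat_lit 608) (nat_lit 1507966899) (nat_lit 251) (nat_lit 1) (nat_lit 250) (nat_lit 1) (nat_lit 258) (nat_lit 1) (nat_lit 387) (nat_lit 410) (nat_lit 343)) (XT.nd (nat_lit 78) (nat_lit 0) (nat_lit 0) (XT.lf (nat_lit 608) (nat_lit 2212114438) (nat_lit 0) (nat_lit 905413884) (nat_lit 532) (nat_lit 905413884) (nat_lit 251) (nat_lit 1) (nat_lit 243) (nat_lit 1) (nat_lit 250) (nat_lit 1) (nat_lit 388) (nat_lit 410) (nat_lit 342)) (XT.lf (nat_lit 76) (nat_lit 704703238) (nat_lit 0) (nat_lit 2581688451) (nat_lit 608) (nat_lit 704703238) (nat_lit 244) (nat_lit 1) (nat_lit 243) (nat_lit 1) (nat_lit 251) (nat_lit 1) (nat_lit 389) (nat_lit 410) (nat_lit 341)))) (XT.nd (nat_lit 78) (nat_lit 608) (nat_lit 0) (XT.lf (nat_lit 532) (nat_lit 605453094) (nat_lit 0) (nat_lit 1677042988) (nat_lit 456) (nat_lit 1677042988) (nat_lit 244)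 (nat_lit 1) (nat_lit 237) (nat_lit 1) (nat_lit 243) (nat_lit 1) (nat_lit 390) (nat_lit 410) (nat_lit 340)) (XT.nd (nat_lit 78) (nat_lit 0) (nat_lit 0) (XT.lf (nat_lit 608) (nat_lit 3742957148) (nat_lit 0) (nat_lit 92758763) (nat_lit 532) (nat_lit 92758763) (nat_lit 237) (nat_lit 1) (nat_lit 229) (nat_lit 1) (nat_lit 236) (nat_lit 1) (nat_lit 391) (nat_lit 410) (nat_lit 339)) (XT.lf (nat_lit 76) (nat_lit 1459980259) (nat_lit 0) (nat_lit 977495751) (nat_lit 608) (nat_lit 1459980259) (nat_lit 230) (nat_lit 1) (nat_lit 229) (nat_lit 1) (nat_lit 237) (nat_lit 1) (nat_lit 392) (nat_lit 410) (nat_lit 338))))) (XT.nd (nat_lit 234) (nat_lit 988) (nat_lit 0) (XT.nd (nat_lit 78) (nat_lit 456) (nat_lit 0) (XT.lf (nat_lit 532) (nat_lit 2106670184) (nat_lit 0) (nat_lit 880124894) (nat_lit 456) (nat_lit 880124894) (nat_lit 230) (nat_lit 1) (nat_lit 223) (nat_lit 1) (nat_lit 229) (nat_lit 1) (nat_lit 393) (nat_lit 410) (nat_lit 337)) (XT.nd (nat_lit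 78) (nat_lit 456) (nat_lit 0) (XT.lf (nat_lit 76) (nat_lit 647687630) (nat_lit 0) (nat_lit 2541333609) (nat_lit 532) (nat_lit 647687630) (nat_lit 224) (nat_lit 1) (nat_lit 223) (nat_lit 1) (nat_lit 230) (nat_lit 1) (nat_lit 394) (nat_lit 410) (nat_lit 336)) (XT.lf (nat_lit 532) (nat_lit 483268781) (nat_lit 0) (nat_lit 1661746765) (nat_lit 456) (nat_lit 1661746765) (nat_lit 224) (nat_lit 1) (nat_lit 217) (nat_lit 1) (nat_lit 223) (nat_lit 1) (nat_lit 395) (nat_lit 410) (nat_lit 335)))) (XT.nd (nat_lit 78) (nat_lit 456) (nat_lit 0) (XT.lf (nat_lit 532) (nat_lit 3463223018) (nat_lit 0) (nat_lit 157017398) (nat_lit 456) (nat_lit 157017398) (nat_lit 217) (nat_lit 1) (nat_lit 210) (nat_lit 1) (nat_lit 216) (nat_lit 1) (nat_lit 396) (nat_lit 410) (nat_lit 334)) (XT.nd (nat_lit 78) (nat_lit 456) (nat_lit 0) (XT.lf (nat_lit 76) (nat_lit 1317921984) (nat_lit 0) (nat_lit 1111976633) (nat_lit 532) (nat_lit 1317921984) (nat_lit 211) (nat_lit 1) (nat_lit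 210) (nat_lit 1) (nat_lit 217) (nat_lit 1) (nat_lit 397) (nat_lit 410) (nat_lit 333)) (XT.lf (nat_lit 532) (nat_lit 1817372404) (nat_lit 0) (nat_lit 950722371) (nat_lit 456) (nat_lit 950722371) (nat_lit 211) (nat_lit 1) (nat_lit 204) (nat_lit 1) (nat_lit 210) (nat_lit 1) (nat_lit 398) (nat_lit 410) (nat_lit 332))))))) (XT.nd (nat_lit 936) (nat_lit 2812) (nat_lit 0) (XT.nd (nat_lit 468) (nat_lit 1596) (nat_lit 0) (XT.nd (nat_lit 234) (nat_lit 380) (nat_lit 0) (XT.nd (nat_lit 78) (nat_lit 912) (nat_lit 0) (XT.lf (nat_lit 76) (nat_lit 501456860) (nat_lit 0) (nat_lit 2687232673) (nat_lit 532) (nat_lit 501456860) (nat_lit 205) (nat_lit 1) (nat_lit 204) (nat_lit 1) (nat_lit 211) (nat_lit 1) (nat_lit 399) (nat_lit 410) (nat_lit 331)) (XT.nd (nat_lit 78) (nat_lit 532) (nat_lit 0) (XT.lf (nat_lit 456) (nat_lit 186745655) (nat_lit 0) (nat_lit 1737472754) (nat_lit 380) (nat_lit 1737472754) (nat_lit 205) (nat_lit 1) (nat_lit 199) (nat_lit 1) (nat_lit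 204) (nat_lit 1) (nat_lit 400) (nat_lit 410) (nat_lit 330)) (XT.lf (nat_lit 532) (nat_lit 3022997409) (nat_lit 0) (nat_lit 305306026) (nat_lit 456) (nat_lit 305306026) (nat_lit 199) (nat_lit 1) (nat_lit 192) (nat_lit 1) (nat_lit 198) (nat_lit 1) (nat_lit 401) (nat_lit 410) (nat_lit 329)))) (XT.nd (nat_lit 78) (nat_lit 380) (nat_lit 0) (XT.lf (nat_lit 76) (nat_lit 1098050320) (nat_lit 0) (nat_lit 1409561422) (nat_lit 532) (nat_lit 1098050320) (nat_lit 193) (nat_lit 1) (nat_lit 192) (nat_lit 1) (nat_lit 199) (nat_lit 1) (nat_lit 402) (nat_lit 410) (nat_lit 328)) (XT.nd (nat_lit 78) (nat_lit 0) (nat_lit 0) (XT.lf (nat_lit 456) (nat_lit 1376144104) (nat_lit 0) (nat_lit 1100968358) (nat_lit 380) (nat_lit 1100968358) (nat_lit 193) (nat_lit 1) (nat_lit 187) (nat_lit 1) (nat_lit 192) (nat_lit 1) (nat_lit 403) (nat_lit 410) (nat_lit 327)) (XT.lf (nat_lit 76) (nat_lit 281575805) (nat_lit 0) (nat_lit 2987710080) (nat_lit 456) (nat_lit 281575805)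 (nat_lit 188) (nat_lit 1) (nat_lit 187) (nat_lit 1) (nat_lit 193) (nat_lit 1) (nat_lit 404) (nat_lit 410) (nat_lit 326))))) (XT.nd (nat_lit 234) (nat_lit 760) (nat_lit 0) (XT.nd (nat_lit 78) (nat_lit 380) (nat_lit 0) (XT.lf (nat_lit 76) (nat_lit 1636763759) (nat_lit 0) (nat_lit 250230411) (nat_lit 456) (nat_lit 1636763759) (nat_lit 182) (nat_lit 1) (nat_lit 181) (nat_lit 1) (nat_lit 187) (nat_lit 1) (nat_lit 405) (nat_lit 410) (nat_lit 325)) (XT.nd (nat_lit 78) (nat_lit 0) (nat_lit 0) (XT.lf (nat_lit 456) (nat_lit 2451364030) (nat_lit 0) (nat_lit 522822720) (nat_lit 380) (nat_lit 522822720) (nat_lit 182) (nat_lit 1) (nat_lit 176) (nat_lit 1) (nat_lit 181) (nat_lit 1) (nat_lit 406) (nat_lit 410) (nat_lit 324)) (XT.lf (nat_lit 76) (nat_lit 814543597) (nat_lit 0) (nat_lit 1841379978) (nat_lit 456) (nat_lit 814543597) (nat_lit 177) (nat_lit 1) (nat_lit 176) (nat_lit 1) (nat_lit 182) (nat_lit 1) (nat_lit 407) (nat_lit 410) (nat_lit 323))))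 (XT.nd (nat_lit 78) (nat_lit 380) (nat_lit 0) (XT.lf (nat_lit 456) (nat_lit 810819092) (nat_lit 0) (nat_lit 1316694342) (nat_lit 380) (nat_lit 1316694342) (nat_lit 177) (nat_lit 1) (nat_lit 171) (nat_lit 1) (nat_lit 176) (nat_lit 1) (nat_lit 408) (nat_lit 410) (nat_lit 322)) (XT.nd (nat_lit 78) (nat_lit 380) (nat_lit 0) (XT.lf (nat_lit 76) (nat_lit 1612900) (nat_lit 0) (nat_lit 3415132182) (nat_lit 456) (nat_lit 1612900) (nat_lit 172) (nat_lit 1) (nat_lit 171) (nat_lit 1) (nat_lit 177) (nat_lit 1) (nat_lit 409) (nat_lit 410) (nat_lit 321)) (XT.lf (nat_lit 76) (nat_lit 1296052649) (nat_lit 0) (nat_lit 800363889) (nat_lit 380) (nat_lit 1296052649) (nat_lit 167) (nat_lit 1) (nat_lit 166) (nat_lit 1) (nat_lit 171) (nat_lit 1) (nat_lit 410) (nat_lit 410) (nat_lit 320)))))) (XT.nd (nat_lit 468) (nat_lit 1368) (nat_lit 0) (XT.nd (nat_lit 234) (nat_lit 760) (nat_lit 0) (XT.nd (nat_lit 78) (nat_lit 304) (nat_lit 0) (XT.lf (nat_lit 456) (nat_lit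 1773645527) (nat_lit 0) (nat_lit 796669209) (nat_lit 380) (nat_lit 796669209) (nat_lit 167) (nat_lit 1) (nat_lit 161) (nat_lit 1) (nat_lit 166) (nat_lit 1) (nat_lit 411) (nat_lit 410) (nat_lit 319)) (XT.nd (nat_lit 78) (nat_lit 304) (nat_lit 0) (XT.lf (nat_lit 76) (nat_lit 479743995) (nat_lit 0) (nat_lit 2382280110) (nat_lit 456) (nat_lit 479743995) (nat_lit 162) (nat_lit 1) (nat_lit 161) (nat_lit 1) (nat_lit 167) (nat_lit 1) (nat_lit 412) (nat_lit 410) (nat_lit 318)) (XT.lf (nat_lit 380) (nat_lit 145621432) (nat_lit 0) (nat_lit 1585558970) (nat_lit 304) (nat_lit 1585558970) (nat_lit 162) (nat_lit 1) (nat_lit 157) (nat_lit 1) (nat_lit 161) (nat_lit 1) (nat_lit 413) (nat_lit 410) (nat_lit 317)))) (XT.nd (nat_lit 78) (nat_lit 304) (nat_lit 0) (XT.lf (nat_lit 456) (nat_lit 2643058638) (nat_lit 0) (nat_lit 324476816) (nat_lit 380) (nat_lit 324476816) (nat_lit 157) (nat_lit 1) (nat_lit 151) (nat_lit 1) (nat_lit 156) (nat_lit 1) (nat_lit 414)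 (nat_lit 410) (nat_lit 316)) (XT.nd (nat_lit 78) (nat_lit 304) (nat_lit 0) (XT.lf (nat_lit 76) (nat_lit 912085693) (nat_lit 0) (nat_lit 1443236881) (nat_lit 456) (nat_lit 912085693) (nat_lit 152) (nat_lit 1) (nat_lit 151) (nat_lit 1) (nat_lit 157) (nat_lit 1) (nat_lit 415) (nat_lit 410) (nat_lit 315)) (XT.lf (nat_lit 380) (nat_lit 1011845766) (nat_lit 0) (nat_lit 1115627376) (nat_lit 304) (nat_lit 1115627376) (nat_lit 152) (nat_lit 1) (nat_lit 147) (nat_lit 1) (nat_lit 151) (nat_lit 1) (nat_lit 416) (nat_lit 410) (nat_lit 314))))) (XT.nd (nat_lit 234) (nat_lit 684) (nat_lit 0) (XT.nd (nat_lit 78) (nat_lit 684) (nat_lit 0) (XT.lf (nat_lit 76) (nat_lit 104373567) (nat_lit 0) (nat_lit 3010390865) (nat_lit 380) (nat_lit 104373567) (nat_lit 148) (nat_lit 1) (nat_lit 147) (nat_lit 1) (nat_lit 152) (nat_lit 1) (nat_lit 417) (nat_lit 410) (nat_lit 313)) (XT.nd (nat_lit 78) (nat_lit 304) (nat_lit 0) (XT.lf (nat_lit 76) (nat_lit 1302308937) (nat_lit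 0) (nat_lit 590561417) (nat_lit 380) (nat_lit 1302308937) (nat_lit 143) (nat_lit 1) (nat_lit 142) (nat_lit 1) (nat_lit 147) (nat_lit 1) (nat_lit 418) (nat_lit 410) (nat_lit 312)) (XT.lf (nat_lit 380) (nat_lit 1794900918) (nat_lit 0) (nat_lit 688329967) (nat_lit 304) (nat_lit 688329967) (nat_lit 143) (nat_lit 1) (nat_lit 138) (nat_lit 1) (nat_lit 142) (nat_lit 1) (nat_lit 419) (nat_lit 410) (nat_lit 311)))) (XT.nd (nat_lit 78) (nat_lit 684) (nat_lit 0) (XT.lf (nat_lit 76) (nat_lit 494587002) (nat_lit 0) (nat_lit 2158998444) (nat_lit 380) (nat_lit 494587002) (nat_lit 139) (nat_lit 1) (nat_lit 138) (nat_lit 1) (nat_lit 143) (nat_lit 1) (nat_lit 420) (nat_lit 410) (nat_lit 310)) (XT.nd (nat_lit 78) (nat_lit 380) (nat_lit 0) (XT.lf (nat_lit 380) (nat_lit 185041719) (nat_lit 0) (nat_lit 1469961205) (nat_lit 304) (nat_lit 1469961205) (nat_lit 139) (nat_lit 1) (nat_lit 134) (nat_lit 1) (nat_lit 138) (nat_lit 1) (nat_lit 421) (nat_lit 410) (nat_lit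 309)) (XT.lf (nat_lit 380) (nat_lit 2501457901) (nat_lit 0) (nat_lit 300285707) (nat_lit 304) (nat_lit 300285707) (nat_lit 134) (nat_lit 1) (nat_lit 129) (nat_lit 1) (nat_lit 133) (nat_lit 1) (nat_lit 422) (nat_lit 410) (nat_lit 308))))))))
noncomputable def ec69 : XT := (XT.nd (nat_lit 52806) (nat_lit 0) (nat_lit 17708) (XT.nd (nat_lit 51870) (nat_lit 0) (nat_lit 28576) (XT.nd (nat_lit 51402) (nat_lit 0) (nat_lit 28348) (XT.nd (nat_lit 51168) (nat_lit 0) (nat_lit 28272) (XT.nd (nat_lit 78) (nat_lit 304) (nat_lit 0) (XT.lf (nat_lit 76) (nat_lit 847276801) (nat_lit 0) (nat_lit 1384642221) (nat_lit 380) (nat_lit 847276801) (nat_lit 130) (nat_lit 1) (nat_lit 129) (nat_lit 1) (nat_lit 134) (nat_lit 1) (nat_lit 423) (nat_lit 410) (nat_lit 307)) (XT.nd (nat_lit 78) (nat_lit 0) (nat_lit 0) (XT.lf (nat_lit 380) (nat_lit 894361468) (nat_lit 0) (nat_lit 1081134981) (nat_lit 304) (nat_lit 1081134981) (nat_lit 130) (nat_lit 1) (nat_lit 125) (nat_lit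 1) (nat_lit 129) (nat_lit 1) (nat_lit 424) (nat_lit 410) (nat_lit 306)) (XT.lf (nat_lit 76) (nat_lit 51968226) (nat_lit 0) (nat_lit 2930456889) (nat_lit 380) (nat_lit 51968226) (nat_lit 126) (nat_lit 1) (nat_lit 125) (nat_lit 1) (nat_lit 130) (nat_lit 1) (nat_lit 425) (nat_lit 410) (nat_lit 305)))) (XT.nd (nat_lit 78) (nat_lit 0) (nat_lit 0) (XT.lf (nat_lit 1900) (nat_lit 1246208416) (nat_lit 0) (nat_lit 1256629617) (nat_lit 1900) (nat_lit 1246208416) (nat_lit 522) (nat_lit 1) (nat_lit 497) (nat_lit 0) (nat_lit 522) (nat_lit 0) (nat_lit 318) (nat_lit 411) (nat_lit 411)) (XT.nd (nat_lit 78) (nat_lit 0) (nat_lit 76) (XT.lf (nat_lit 1900) (nat_lit 4927695447) (nat_lit 76) (nat_lit 1248362317) (nat_lit 0) (nat_lit 1248362317) (nat_lit 522) (nat_lit 1) (nat_lit 498) (nat_lit 1) (nat_lit 497) (nat_lit 0) (nat_lit 319) (nat_lit 411) (nat_lit 410)) (XT.lf (nat_lit 1900) (nat_lit 2419521920) (nat_lit 0) (nat_lit 2512508109) (nat_lit 1824) (nat_lit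 2419521920) (nat_lit 523) (nat_lit 1) (nat_lit 498) (nat_lit 1) (nat_lit 522) (nat_lit 1) (nat_lit 320) (nat_lit 411) (nat_lit 409))))) (XT.nd (nat_lit 234) (nat_lit 0) (nat_lit 152) (XT.nd (nat_lit 78) (nat_lit 0) (nat_lit 76) (XT.lf (nat_lit 1900) (nat_lit 4735600844) (nat_lit 76) (nat_lit 1272093825) (nat_lit 0) (nat_lit 1272093825) (nat_lit 523) (nat_lit 1) (nat_lit 499) (nat_lit 1) (nat_lit 498) (nat_lit 1) (nat_lit 321) (nat_lit 411) (nat_lit 408)) (XT.nd (nat_lit 78) (nat_lit 0) (nat_lit 0) (XT.lf (nat_lit 1900) (nat_lit 2301412272) (nat_lit 0) (nat_lit 2605992688) (nat_lit 1824) (nat_lit 2301412272) (nat_lit 524) (nat_lit 1) (nat_lit 499) (nat_lit 1) (nat_lit 523) (nat_lit 1) (nat_lit 322) (nat_lit 411) (nat_lit 407)) (XT.lf (nat_lit 1900) (nat_lit 4455507014) (nat_lit 76) (nat_lit 1341697190) (nat_lit 0) (nat_lit 1341697190) (nat_lit 524) (nat_lit 1) (nat_lit 500) (nat_lit 1) (nat_lit 499) (nat_lit 1) (nat_lit 323) (nat_lit 411)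 (nat_lit 406)))) (XT.nd (nat_lit 78) (nat_lit 0) (nat_lit 0) (XT.lf (nat_lit 1900) (nat_lit 2140785697) (nat_lit 0) (nat_lit 2788206499) (nat_lit 1824) (nat_lit 2140785697) (nat_lit 525) (nat_lit 1) (nat_lit 500) (nat_lit 1) (nat_lit 524) (nat_lit 1) (nat_lit 324) (nat_lit 411) (nat_lit 405)) (XT.nd (nat_lit 78) (nat_lit 0) (nat_lit 76) (XT.lf (nat_lit 1900) (nat_lit 4092702812) (nat_lit 76) (nat_lit 1454473633) (nat_lit 0) (nat_lit 1454473633) (nat_lit 525) (nat_lit 1) (nat_lit 501) (nat_lit 1) (nat_lit 500) (nat_lit 1) (nat_lit 325) (nat_lit 411) (nat_lit 404)) (XT.lf (nat_lit 1900) (nat_lit 1940216772) (nat_lit 0) (nat_lit 3053893108) (nat_lit 1824) (nat_lit 1940216772) (nat_lit 526) (nat_lit 1) (nat_lit 501) (nat_lit 1) (nat_lit 525) (nat_lit 1) (nat_lit 326) (nat_lit 411) (nat_lit 403)))))) (XT.nd (nat_lit 468) (nat_lit 0) (nat_lit 228) (XT.nd (nat_lit 234) (nat_lit 0) (nat_lit 152) (XT.nd (nat_lit 78) (nat_lit 0) (nat_lit 76) (XT.lf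 (nat_lit 1900) (nat_lit 3652235015) (nat_lit 76) (nat_lit 1607847164) (nat_lit 0) (nat_lit 1607847164) (nat_lit 526) (nat_lit 1) (nat_lit 502) (nat_lit 1) (nat_lit 501) (nat_lit 1) (nat_lit 327) (nat_lit 411) (nat_lit 402)) (XT.nd (nat_lit 78) (nat_lit 0) (nat_lit 0) (XT.lf (nat_lit 1900) (nat_lit 1702161991) (nat_lit 0) (nat_lit 3398035707) (nat_lit 1824) (nat_lit 1702161991) (nat_lit 527) (nat_lit 1) (nat_lit 502) (nat_lit 1) (nat_lit 526) (nat_lit 1) (nat_lit 328) (nat_lit 411) (nat_lit 401)) (XT.lf (nat_lit 1900) (nat_lit 3138918450) (nat_lit 76) (nat_lit 1799359460) (nat_lit 0) (nat_lit 1799359460) (nat_lit 527) (nat_lit 1) (nat_lit 503) (nat_lit 1) (nat_lit 502) (nat_lit 1) (nat_lit 329) (nat_lit 411) (nat_lit 400)))) (XT.nd (nat_lit 78) (nat_lit 0) (nat_lit 0) (XT.lf (nat_lit 1900) (nat_lit 1428964704) (nat_lit 0) (nat_lit 3815847108) (nat_lit 1824) (nat_lit 1428964704) (nat_lit 528) (nat_lit 1) (nat_lit 503) (nat_lit 1) (nat_lit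 527) (nat_lit 1) (nat_lit 330) (nat_lit 411) (nat_lit 399)) (XT.nd (nat_lit 78) (nat_lit 0) (nat_lit 76) (XT.lf (nat_lit 1900) (nat_lit 2557345700) (nat_lit 76) (nat_lit 2026664949) (nat_lit 0) (nat_lit 2026664949) (nat_lit 528) (nat_lit 1) (nat_lit 504) (nat_lit 1) (nat_lit 503) (nat_lit 1) (nat_lit 331) (nat_lit 411) (nat_lit 398)) (XT.lf (nat_lit 1900) (nat_lit 1122859862) (nat_lit 0) (nat_lit 4302760148) (nat_lit 1824) (nat_lit 1122859862) (nat_lit 529) (nat_lit 1) (nat_lit 504) (nat_lit 1) (nat_lit 528) (nat_lit 1) (nat_lit 332) (nat_lit 411) (nat_lit 397))))) (XT.nd (nat_lit 234) (nat_lit 0) (nat_lit 152) (XT.nd (nat_lit 78) (nat_lit 0) (nat_lit 76) (XT.lf (nat_lit 1900) (nat_lit 1911896431) (nat_lit 76) (nat_lit 2287526094) (nat_lit 0) (nat_lit 2287526094) (nat_lit 529) (nat_lit 1) (nat_lit 505) (nat_lit 1) (nat_lit 504) (nat_lit 1) (nat_lit 333) (nat_lit 411) (nat_lit 396)) (XT.nd (nat_lit 78) (nat_lit 0) (nat_lit 0) (XT.lf (nat_lit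 1900) (nat_lit 785978563) (nat_lit 0) (nat_lit 4854418470) (nat_lit 1824) (nat_lit 785978563) (nat_lit 530) (nat_lit 1) (nat_lit 505) (nat_lit 1) (nat_lit 529) (nat_lit 1) (nat_lit 334) (nat_lit 411) (nat_lit 395)) (XT.lf (nat_lit 1900) (nat_lit 1206746333) (nat_lit 76) (nat_lit 2579808865) (nat_lit 0) (nat_lit 2579808865) (nat_lit 530) (nat_lit 1) (nat_lit 506) (nat_lit 1) (nat_lit 505) (nat_lit 1) (nat_lit 335) (nat_lit 411) (nat_lit 394)))) (XT.nd (nat_lit 78) (nat_lit 0) (nat_lit 0) (XT.lf (nat_lit 1900) (nat_lit 420352419) (nat_lit 0) (nat_lit 5466667688) (nat_lit 1824) (nat_lit 420352419) (nat_lit 531) (nat_lit 1) (nat_lit 506) (nat_lit 1) (nat_lit 530) (nat_lit 1) (nat_lit 336) (nat_lit 411) (nat_lit 393)) (XT.nd (nat_lit 78) (nat_lit 0) (nat_lit 76) (XT.lf (nat_lit 1900) (nat_lit 445875710) (nat_lit 76) (nat_lit 2901478391) (nat_lit 0) (nat_lit 2901478391) (nat_lit 531) (nat_lit 1) (nat_lit 507) (nat_lit 1) (nat_lit 506) (nat_lit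 1) (nat_lit 337) (nat_lit 411) (nat_lit 392)) (XT.lf (nat_lit 1900) (nat_lit 27917755) (nat_lit 0) (nat_lit 6135546895) (nat_lit 1824) (nat_lit 27917755) (nat_lit 532) (nat_lit 1) (nat_lit 507) (nat_lit 1) (nat_lit 531) (nat_lit 1) (nat_lit 338) (nat_lit 411) (nat_lit 391))))))) (XT.nd (nat_lit 936) (nat_lit 5776) (nat_lit 0) (XT.nd (nat_lit 468) (nat_lit 2660) (nat_lit 0) (XT.nd (nat_lit 234) (nat_lit 988) (nat_lit 0) (XT.nd (nat_lit 78) (nat_lit 0) (nat_lit 0) (XT.lf (nat_lit 1976) (nat_lit 2886054816) (nat_lit 0) (nat_lit 362110031) (nat_lit 1900) (nat_lit 2886054816) (nat_lit 508) (nat_lit 1) (nat_lit 482) (nat_lit 1) (nat_lit 507) (nat_lit 1) (nat_lit 339) (nat_lit 411) (nat_lit 390)) (XT.nd (nat_lit 78) (nat_lit 0) (nat_lit 76) (XT.lf (nat_lit 1976) (nat_lit 5304280768) (nat_lit 76) (nat_lit 386918008) (nat_lit 0) (nat_lit 386918008) (nat_lit 508) (nat_lit 1) (nat_lit 483) (nat_lit 1) (nat_lit 482) (nat_lit 1) (nat_lit 340) (nat_lit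 411) (nat_lit 389)) (XT.lf (nat_lit 1976) (nat_lit 2405248665) (nat_lit 0) (nat_lit 1211927853) (nat_lit 1900) (nat_lit 2405248665) (nat_lit 509) (nat_lit 1) (nat_lit 483) (nat_lit 1) (nat_lit 508) (nat_lit 1) (nat_lit 341) (nat_lit 411) (nat_lit 388)))) (XT.nd (nat_lit 78) (nat_lit 1064) (nat_lit 0) (XT.lf (nat_lit 1976) (nat_lit 4318422712) (nat_lit 76) (nat_lit 824623263) (nat_lit 0) (nat_lit 824623263) (nat_lit 509) (nat_lit 1) (nat_lit 484) (nat_lit 1) (nat_lit 483) (nat_lit 1) (nat_lit 342) (nat_lit 411) (nat_lit 387)) (XT.nd (nat_lit 78) (nat_lit 1140) (nat_lit 0) (XT.lf (nat_lit 76) (nat_lit 1903698894) (nat_lit 0) (nat_lit 2106028387) (nat_lit 1900) (nat_lit 1903698894) (nat_lit 485) (nat_lit 1) (nat_lit 484) (nat_lit 1) (nat_lit 509) (nat_lit 1) (nat_lit 343) (nat_lit 411) (nat_lit 386)) (XT.lf (nat_lit 1216) (nat_lit 3292537513) (nat_lit 0) (nat_lit 1283718758) (nat_lit 1140) (nat_lit 1283718758) (nat_lit 485) (nat_lit 1) (nat_lit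 469) (nat_lit 1) (nat_lit 484) (nat_lit 1) (nat_lit 344) (nat_lit 411) (nat_lit 385))))) (XT.nd (nat_lit 234) (nat_lit 1748) (nat_lit 0) (XT.nd (nat_lit 78) (nat_lit 912) (nat_lit 0) (XT.lf (nat_lit 76) (nat_lit 1382983826) (nat_lit 0) (nat_lit 3041176744) (nat_lit 1216) (nat_lit 1382983826) (nat_lit 470) (nat_lit 1) (nat_lit 469) (nat_lit 1) (nat_lit 485) (nat_lit 1) (nat_lit 345) (nat_lit 411) (nat_lit 384)) (XT.nd (nat_lit 78) (nat_lit 0) (nat_lit 0) (XT.lf (nat_lit 988) (nat_lit 2229714949) (nat_lit 0) (nat_lit 1762621200) (nat_lit 912) (nat_lit 1762621200) (nat_lit 470) (nat_lit 1) (nat_lit 457) (nat_lit 1) (nat_lit 469) (nat_lit 1) (nat_lit 346) (nat_lit 411) (nat_lit 383)) (XT.lf (nat_lit 76) (nat_lit 844605340) (nat_lit 0) (nat_lit 4014293363) (nat_lit 988) (nat_lit 844605340) (nat_lit 458) (nat_lit 1) (nat_lit 457) (nat_lit 1) (nat_lit 470) (nat_lit 1) (nat_lit 347) (nat_lit 411) (nat_lit 382)))) (XT.nd (nat_lit 78) (nat_lit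 836) (nat_lit 0) (XT.lf (nat_lit 988) (nat_lit 1132894709) (nat_lit 0) (nat_lit 2259823537) (nat_lit 912) (nat_lit 2259823537) (nat_lit 458) (nat_lit 1) (nat_lit 445) (nat_lit 1) (nat_lit 457) (nat_lit 1) (nat_lit 348) (nat_lit 411) (nat_lit 381)) (XT.nd (nat_lit 78) (nat_lit 836) (nat_lit 0) (XT.lf (nat_lit 76) (nat_lit 289992140) (nat_lit 0) (nat_lit 5022447395) (nat_lit 988) (nat_lit 289992140) (nat_lit 446) (nat_lit 1) (nat_lit 445) (nat_lit 1) (nat_lit 458) (nat_lit 1) (nat_lit 349) (nat_lit 411) (nat_lit 380)) (XT.lf (nat_lit 912) (nat_lit 4872817) (nat_lit 0) (nat_lit 2773891706) (nat_lit 836) (nat_lit 2773891706) (nat_lit 446) (nat_lit 1) (nat_lit 434) (nat_lit 1) (nat_lit 445) (nat_lit 1) (nat_lit 350) (nat_lit 411) (nat_lit 379)))))) (XT.nd (nat_lit 468) (nat_lit 3116) (nat_lit 0) (XT.nd (nat_lit 234) (nat_lit 836) (nat_lit 0) (XT.nd (nat_lit 78) (nat_lit 836) (nat_lit 0) (XT.lf (nat_lit 988) (nat_lit 4948393848) (nat_lit 0)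 (nat_lit 277658314) (nat_lit 912) (nat_lit 277658314) (nat_lit 434) (nat_lit 1) (nat_lit 421) (nat_lit 1) (nat_lit 433) (nat_lit 1) (nat_lit 351) (nat_lit 411) (nat_lit 378)) (XT.nd (nat_lit 78) (nat_lit 836) (nat_lit 0) (XT.lf (nat_lit 76) (nat_lit 2159246846) (nat_lit 0) (nat_lit 1136587567) (nat_lit 988) (nat_lit 2159246846) (nat_lit 422) (nat_lit 1) (nat_lit 421) (nat_lit 1) (nat_lit 434) (nat_lit 1) (nat_lit 352) (nat_lit 411) (nat_lit 377)) (XT.lf (nat_lit 912) (nat_lit 3693466968) (nat_lit 0) (nat_lit 856895984) (nat_lit 836) (nat_lit 856895984) (nat_lit 422) (nat_lit 1) (nat_lit 410) (nat_lit 1) (nat_lit 421) (nat_lit 1) (nat_lit 353) (nat_lit 411) (nat_lit 376)))) (XT.nd (nat_lit 78) (nat_lit 836) (nat_lit 0) (XT.lf (nat_lit 76) (nat_lit 1528117812) (nat_lit 0) (nat_lit 2303659073) (nat_lit 912) (nat_lit 1528117812) (nat_lit 411) (nat_lit 1) (nat_lit 410) (nat_lit 1) (nat_lit 422) (nat_lit 1) (nat_lit 354) (nat_lit 411) (nat_lit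 375)) (XT.nd (nat_lit 78) (nat_lit 0) (nat_lit 0) (XT.lf (nat_lit 912) (nat_lit 2416343362) (nat_lit 0) (nat_lit 1448409319) (nat_lit 836) (nat_lit 1448409319) (nat_lit 411) (nat_lit 1) (nat_lit 399) (nat_lit 1) (nat_lit 410) (nat_lit 1) (nat_lit 355) (nat_lit 411) (nat_lit 374)) (XT.lf (nat_lit 76) (nat_lit 886497866) (nat_lit 0) (nat_lit 3494036128) (nat_lit 912) (nat_lit 886497866) (nat_lit 400) (nat_lit 1) (nat_lit 399) (nat_lit 1) (nat_lit 411) (nat_lit 1) (nat_lit 356) (nat_lit 411) (nat_lit 373))))) (XT.nd (nat_lit 234) (nat_lit 1520) (nat_lit 0) (XT.nd (nat_lit 78) (nat_lit 836) (nat_lit 0) (XT.lf (nat_lit 836) (nat_lit 1119275682) (nat_lit 0) (nat_lit 2051039911) (nat_lit 760) (nat_lit 2051039911) (nat_lit 400) (nat_lit 1) (nat_lit 389) (nat_lit 1) (nat_lit 399) (nat_lit 1) (nat_lit 357) (nat_lit 411) (nat_lit 372)) (XT.nd (nat_lit 78) (nat_lit 836) (nat_lit 0) (XT.lf (nat_lit 76) (nat_lit 235480625) (nat_lit 0) (nat_lit 4705468174)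 (nat_lit 836) (nat_lit 235480625) (nat_lit 390) (nat_lit 1) (nat_lit 389) (nat_lit 1) (nat_lit 400) (nat_lit 1) (nat_lit 358) (nat_lit 411) (nat_lit 371)) (XT.lf (nat_lit 76) (nat_lit 2469359496) (nat_lit 0) (nat_lit 193032855) (nat_lit 836) (nat_lit 2469359496) (nat_lit 379) (nat_lit 1) (nat_lit 378) (nat_lit 1) (nat_lit 389) (nat_lit 1) (nat_lit 359) (nat_lit 411) (nat_lit 370)))) (XT.nd (nat_lit 156) (nat_lit 760) (nat_lit 0) (XT.nd (nat_lit 78) (nat_lit 0) (nat_lit 0) (XT.lf (nat_lit 836) (nat_lit 4245590239) (nat_lit 0) (nat_lit 421107422) (nat_lit 760) (nat_lit 421107422) (nat_lit 379) (nat_lit 1) (nat_lit 368) (nat_lit 1) (nat_lit 378) (nat_lit 1) (nat_lit 360) (nat_lit 411) (nat_lit 369)) (XT.lf (nat_lit 76) (nat_lit 1768967877) (nat_lit 0) (nat_lit 1506232964) (nat_lit 836) (nat_lit 1768967877) (nat_lit 369) (nat_lit 1) (nat_lit 368) (nat_lit 1) (nat_lit 379) (nat_lit 1) (nat_lit 361) (nat_lit 411) (nat_lit 368))) (XT.nd (nat_lit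 78) (nat_lit 0) (nat_lit 0) (XT.lf (nat_lit 836) (nat_lit 2834247419) (nat_lit 0) (nat_lit 1083473123) (nat_lit 760) (nat_lit 1083473123) (nat_lit 369) (nat_lit 1) (nat_lit 358) (nat_lit 1) (nat_lit 368) (nat_lit 1) (nat_lit 362) (nat_lit 411) (nat_lit 367)) (XT.lf (nat_lit 76) (nat_lit 1062793522) (nat_lit 0) (nat_lit 2833106179) (nat_lit 836) (nat_lit 1062793522) (nat_lit 359) (nat_lit 1) (nat_lit 358) (nat_lit 1) (nat_lit 369) (nat_lit 1) (nat_lit 363) (nat_lit 411) (nat_lit 366))))))))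
noncomputable def ec70 : XT := (XT.nd (nat_lit 1872) (nat_lit 6536) (nat_lit 0) (XT.nd (nat_lit 936) (nat_lit 4028) (nat_lit 0) (XT.nd (nat_lit 468) (nat_lit 1900) (nat_lit 0) (XT.nd (nat_lit 234) (nat_lit 1368) (nat_lit 0) (XT.nd (nat_lit 78) (nat_lit 760) (nat_lit 0) (XT.lf (nat_lit 760) (nat_lit 1412183115) (nat_lit 0) (nat_lit 1752238770) (nat_lit 684) (nat_lit 1752238770) (nat_lit 359) (nat_lit 1) (nat_lit 349) (nat_lit 1) (nat_lit 358) (nat_lit 1) (nat_lit 364) (nat_lit 411) (nat_lit 365)) (XT.nd (nat_lit 78) (nat_lit 760) (nat_lit 0) (XT.lf (nat_lit 76) (nat_lit 351707646) (nat_lit 0) (nat_lit 4171853588) (nat_lit 760) (nat_lit 351707646) (nat_lit 350) (nat_lit 1) (nat_lit 349) (nat_lit 1) (nat_lit 359) (nat_lit 1) (nat_lit 365) (nat_lit 411) (nat_lit 364)) (XT.lf (nat_lit 76) (nat_lit 2407747229) (nat_lit 0) (nat_lit 18653631) (nat_lit 760) (nat_lit 2407747229) (nat_lit 340) (nat_lit 1) (nat_lit 339) (nat_lit 1) (nat_lit 349)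 (nat_lit 1) (nat_lit 366) (nat_lit 411) (nat_lit 363)))) (XT.nd (nat_lit 78) (nat_lit 684) (nat_lit 0) (XT.lf (nat_lit 760) (nat_lit 4071503818) (nat_lit 0) (nat_lit 361073831) (nat_lit 684) (nat_lit 361073831) (nat_lit 340) (nat_lit 1) (nat_lit 330) (nat_lit 1) (nat_lit 339) (nat_lit 1) (nat_lit 367) (nat_lit 411) (nat_lit 362)) (XT.nd (nat_lit 78) (nat_lit 684) (nat_lit 0) (XT.lf (nat_lit 76) (nat_lit 1657568814) (nat_lit 0) (nat_lit 1438282597) (nat_lit 760) (nat_lit 1657568814) (nat_lit 331) (nat_lit 1) (nat_lit 330) (nat_lit 1) (nat_lit 340) (nat_lit 1) (nat_lit 368) (nat_lit 411) (nat_lit 361)) (XT.lf (nat_lit 760) (nat_lit 2564139762) (nat_lit 0) (nat_lit 1074826259) (nat_lit 684) (nat_lit 1074826259) (nat_lit 331) (nat_lit 1) (nat_lit 321) (nat_lit 1) (nat_lit 330) (nat_lit 1) (nat_lit 369) (nat_lit 411) (nat_lit 360))))) (XT.nd (nat_lit 234) (nat_lit 1292) (nat_lit 0) (XT.nd (nat_lit 78) (nat_lit 608) (nat_lit 0) (XT.lf (nat_lit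 76) (nat_lit 905443143) (nat_lit 0) (nat_lit 2863722106) (nat_lit 760) (nat_lit 905443143) (nat_lit 322) (nat_lit 1) (nat_lit 321) (nat_lit 1) (nat_lit 331) (nat_lit 1) (nat_lit 370) (nat_lit 411) (nat_lit 359)) (XT.nd (nat_lit 78) (nat_lit 0) (nat_lit 0) (XT.lf (nat_lit 684) (nat_lit 1053562210) (nat_lit 0) (nat_lit 1791130594) (nat_lit 608) (nat_lit 1791130594) (nat_lit 322) (nat_lit 1) (nat_lit 313) (nat_lit 1) (nat_lit 321) (nat_lit 1) (nat_lit 371) (nat_lit 411) (nat_lit 358)) (XT.lf (nat_lit 76) (nat_lit 152055196) (nat_lit 0) (nat_lit 4293551695) (nat_lit 684) (nat_lit 152055196) (nat_lit 314) (nat_lit 1) (nat_lit 313) (nat_lit 1) (nat_lit 322) (nat_lit 1) (nat_lit 372) (nat_lit 411) (nat_lit 357)))) (XT.nd (nat_lit 78) (nat_lit 608) (nat_lit 0) (XT.lf (nat_lit 76) (nat_lit 2053380356) (nat_lit 0) (nat_lit 452874873) (nat_lit 684) (nat_lit 2053380356) (nat_lit 305) (nat_lit 1) (nat_lit 304) (nat_lit 1) (nat_lit 313) (nat_lit 1)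 (nat_lit 373) (nat_lit 411) (nat_lit 356)) (XT.nd (nat_lit 78) (nat_lit 0) (nat_lit 0) (XT.lf (nat_lit 684) (nat_lit 3326241775) (nat_lit 0) (nat_lit 597988407) (nat_lit 608) (nat_lit 597988407) (nat_lit 305) (nat_lit 1) (nat_lit 296) (nat_lit 1) (nat_lit 304) (nat_lit 1) (nat_lit 374) (nat_lit 411) (nat_lit 355)) (XT.lf (nat_lit 76) (nat_lit 1269499519) (nat_lit 0) (nat_lit 1946104296) (nat_lit 684) (nat_lit 1269499519) (nat_lit 297) (nat_lit 1) (nat_lit 296) (nat_lit 1) (nat_lit 305) (nat_lit 1) (nat_lit 375) (nat_lit 411) (nat_lit 354)))))) (XT.nd (nat_lit 468) (nat_lit 1672) (nat_lit 0) (XT.nd (nat_lit 234) (nat_lit 1216) (nat_lit 0) (XT.nd (nat_lit 78) (nat_lit 532) (nat_lit 0) (XT.lf (nat_lit 684) (nat_lit 1754389117) (nat_lit 0) (nat_lit 1347037834) (nat_lit 608) (nat_lit 1347037834) (nat_lit 297) (nat_lit 1) (nat_lit 288) (nat_lit 1) (nat_lit 296) (nat_lit 1) (nat_lit 376) (nat_lit 411) (nat_lit 353)) (XT.nd (nat_lit 78) (nat_lit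 532) (nat_lit 0) (XT.lf (nat_lit 76) (nat_lit 486772616) (nat_lit 0) (nat_lit 3438771594) (nat_lit 684) (nat_lit 486772616) (nat_lit 289) (nat_lit 1) (nat_lit 288) (nat_lit 1) (nat_lit 297) (nat_lit 1) (nat_lit 377) (nat_lit 411) (nat_lit 352)) (XT.lf (nat_lit 608) (nat_lit 185388516) (nat_lit 0) (nat_lit 2095522769) (nat_lit 532) (nat_lit 2095522769) (nat_lit 289) (nat_lit 1) (nat_lit 281) (nat_lit 1) (nat_lit 288) (nat_lit 1) (nat_lit 378) (nat_lit 411) (nat_lit 351)))) (XT.nd (nat_lit 78) (nat_lit 532) (nat_lit 0) (XT.lf (nat_lit 684) (nat_lit 3756407531) (nat_lit 0) (nat_lit 292334949) (nat_lit 608) (nat_lit 292334949) (nat_lit 281) (nat_lit 1) (nat_lit 272) (nat_lit 1) (nat_lit 280) (nat_lit 1) (nat_lit 379) (nat_lit 411) (nat_lit 350)) (XT.nd (nat_lit 78) (nat_lit 532) (nat_lit 0) (XT.lf (nat_lit 76) (nat_lit 1472134099) (nat_lit 0) (nat_lit 1361634491) (nat_lit 684) (nat_lit 1472134099) (nat_lit 273) (nat_lit 1) (nat_lit 272) (nat_lit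 1) (nat_lit 281) (nat_lit 1) (nat_lit 380) (nat_lit 411) (nat_lit 349)) (XT.lf (nat_lit 608) (nat_lit 2139095047) (nat_lit 0) (nat_lit 1066073477) (nat_lit 532) (nat_lit 1066073477) (nat_lit 273) (nat_lit 1) (nat_lit 265) (nat_lit 1) (nat_lit 272) (nat_lit 1) (nat_lit 381) (nat_lit 411) (nat_lit 348))))) (XT.nd (nat_lit 234) (nat_lit 532) (nat_lit 0) (XT.nd (nat_lit 78) (nat_lit 1140) (nat_lit 0) (XT.lf (nat_lit 76) (nat_lit 667771705) (nat_lit 0) (nat_lit 2901439756) (nat_lit 608) (nat_lit 667771705) (nat_lit 266) (nat_lit 1) (nat_lit 265) (nat_lit 1) (nat_lit 273) (nat_lit 1) (nat_lit 382) (nat_lit 411) (nat_lit 347)) (XT.nd (nat_lit 78) (nat_lit 608) (nat_lit 0) (XT.lf (nat_lit 608) (nat_lit 528659269) (nat_lit 0) (nat_lit 1837181260) (nat_lit 532) (nat_lit 1837181260) (nat_lit 266) (nat_lit 1) (nat_lit 258) (nat_lit 1) (nat_lit 265) (nat_lit 1) (nat_lit 383) (nat_lit 411) (nat_lit 346)) (XT.lf (nat_lit 608) (nat_lit 3905433090) (nat_lit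 0) (nat_lit 132077647) (nat_lit 532) (nat_lit 132077647) (nat_lit 258) (nat_lit 1) (nat_lit 250) (nat_lit 1) (nat_lit 257) (nat_lit 1) (nat_lit 384) (nat_lit 411) (nat_lit 345)))) (XT.nd (nat_lit 78) (nat_lit 532) (nat_lit 0) (XT.lf (nat_lit 76) (nat_lit 1538126237) (nat_lit 0) (nat_lit 1059983628) (nat_lit 608) (nat_lit 1538126237) (nat_lit 251) (nat_lit 1) (nat_lit 250) (nat_lit 1) (nat_lit 258) (nat_lit 1) (nat_lit 385) (nat_lit 411) (nat_lit 344)) (XT.nd (nat_lit 78) (nat_lit 0) (nat_lit 0) (XT.lf (nat_lit 608) (nat_lit 2256356727) (nat_lit 0) (nat_lit 923522161) (nat_lit 532) (nat_lit 923522161) (nat_lit 251) (nat_lit 1) (nat_lit 243) (nat_lit 1) (nat_lit 250) (nat_lit 1) (nat_lit 386) (nat_lit 411) (nat_lit 343)) (XT.lf (nat_lit 76) (nat_lit 718797303) (nat_lit 0) (nat_lit 2633322220) (nat_lit 608) (nat_lit 718797303) (nat_lit 244) (nat_lit 1) (nat_lit 243) (nat_lit 1) (nat_lit 251) (nat_lit 1) (nat_lit 387) (nat_lit 411) (nat_lit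 342))))))) (XT.nd (nat_lit 936) (nat_lit 2660) (nat_lit 0) (XT.nd (nat_lit 468) (nat_lit 1900) (nat_lit 0) (XT.nd (nat_lit 234) (nat_lit 912) (nat_lit 0) (XT.nd (nat_lit 78) (nat_lit 608) (nat_lit 0) (XT.lf (nat_lit 532) (nat_lit 617562156) (nat_lit 0) (nat_lit 1710583848) (nat_lit 456) (nat_lit 1710583848) (nat_lit 244) (nat_lit 1) (nat_lit 237) (nat_lit 1) (nat_lit 243) (nat_lit 1) (nat_lit 388) (nat_lit 411) (nat_lit 341)) (XT.nd (nat_lit 78) (nat_lit 0) (nat_lit 0) (XT.lf (nat_lit 608) (nat_lit 3817816291) (nat_lit 0) (nat_lit 94613938) (nat_lit 532) (nat_lit 94613938) (nat_lit 237) (nat_lit 1) (nat_lit 229) (nat_lit 1) (nat_lit 236) (nat_lit 1) (nat_lit 389) (nat_lit 411) (nat_lit 340)) (XT.lf (nat_lit 76) (nat_lit 1489179864) (nat_lit 0) (nat_lit 997045666) (nat_lit 608) (nat_lit 1489179864) (nat_lit 230) (nat_lit 1) (nat_lit 229) (nat_lit 1) (nat_lit 237) (nat_lit 1) (nat_lit 390) (nat_lit 411) (nat_lit 339)))) (XT.nd (nat_lit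 78) (nat_lit 456) (nat_lit 0) (XT.lf (nat_lit 532) (nat_lit 2148803588) (nat_lit 0) (nat_lit 897727392) (nat_lit 456) (nat_lit 897727392) (nat_lit 230) (nat_lit 1) (nat_lit 223) (nat_lit 1) (nat_lit 229) (nat_lit 1) (nat_lit 391) (nat_lit 411) (nat_lit 338)) (XT.nd (nat_lit 78) (nat_lit 456) (nat_lit 0) (XT.lf (nat_lit 76) (nat_lit 660641383) (nat_lit 0) (nat_lit 2592160281) (nat_lit 532) (nat_lit 660641383) (nat_lit 224) (nat_lit 1) (nat_lit 223) (nat_lit 1) (nat_lit 230) (nat_lit 1) (nat_lit 392) (nat_lit 411) (nat_lit 337)) (XT.lf (nat_lit 532) (nat_lit 492934156) (nat_lit 0) (nat_lit 1694981700) (nat_lit 456) (nat_lit 1694981700) (nat_lit 224) (nat_lit 1) (nat_lit 217) (nat_lit 1) (nat_lit 223) (nat_lit 1) (nat_lit 393) (nat_lit 411) (nat_lit 336))))) (XT.nd (nat_lit 234) (nat_lit 912) (nat_lit 0) (XT.nd (nat_lit 78) (nat_lit 456) (nat_lit 0) (XT.lf (nat_lit 532) (nat_lit 3532487478) (nat_lit 0) (nat_lit 160157746) (nat_lit 456) (nat_lit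 160157746) (nat_lit 217) (nat_lit 1) (nat_lit 210) (nat_lit 1) (nat_lit 216) (nat_lit 1) (nat_lit 394) (nat_lit 411) (nat_lit 335)) (XT.nd (nat_lit 78) (nat_lit 456) (nat_lit 0) (XT.lf (nat_lit 76) (nat_lit 1344280424) (nat_lit 0) (nat_lit 1134216165) (nat_lit 532) (nat_lit 1344280424) (nat_lit 211) (nat_lit 1) (nat_lit 210) (nat_lit 1) (nat_lit 217) (nat_lit 1) (nat_lit 395) (nat_lit 411) (nat_lit 334)) (XT.lf (nat_lit 532) (nat_lit 1853719852) (nat_lit 0) (nat_lit 969736818) (nat_lit 456) (nat_lit 969736818) (nat_lit 211) (nat_lit 1) (nat_lit 204) (nat_lit 1) (nat_lit 210) (nat_lit 1) (nat_lit 396) (nat_lit 411) (nat_lit 333)))) (XT.nd (nat_lit 78) (nat_lit 912) (nat_lit 0) (XT.lf (nat_lit 76) (nat_lit 511485998) (nat_lit 0) (nat_lit 2740977326) (nat_lit 532) (nat_lit 511485998) (nat_lit 205) (nat_lit 1) (nat_lit 204) (nat_lit 1) (nat_lit 211) (nat_lit 1) (nat_lit 397) (nat_lit 411) (nat_lit 332)) (XT.nd (nat_lit 78) (nat_lit 532) (nat_lit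 0) (XT.lf (nat_lit 456) (nat_lit 190480568) (nat_lit 0) (nat_lit 1772222209) (nat_lit 380) (nat_lit 1772222209) (nat_lit 205) (nat_lit 1) (nat_lit 199) (nat_lit 1) (nat_lit 204) (nat_lit 1) (nat_lit 398) (nat_lit 411) (nat_lit 331)) (XT.lf (nat_lit 532) (nat_lit 3083457357) (nat_lit 0) (nat_lit 311412147) (nat_lit 456) (nat_lit 311412147) (nat_lit 199) (nat_lit 1) (nat_lit 192) (nat_lit 1) (nat_lit 198) (nat_lit 1) (nat_lit 399) (nat_lit 411) (nat_lit 330)))))) (XT.nd (nat_lit 468) (nat_lit 1444) (nat_lit 0) (XT.nd (nat_lit 234) (nat_lit 836) (nat_lit 0) (XT.nd (nat_lit 78) (nat_lit 380) (nat_lit 0) (XT.lf (nat_lit 76) (nat_lit 1120011326) (nat_lit 0) (nat_lit 1437752651) (nat_lit 532) (nat_lit 1120011326) (nat_lit 193) (nat_lit 1) (nat_lit 192) (nat_lit 1) (nat_lit 199) (nat_lit 1) (nat_lit 400) (nat_lit 411) (nat_lit 329)) (XT.nd (nat_lit 78) (nat_lit 0) (nat_lit 0) (XT.lf (nat_lit 456) (nat_lit 1403666986) (nat_lit 0) (nat_lit 1122987725)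 (nat_lit 380) (nat_lit 1122987725) (nat_lit 193) (nat_lit 1) (nat_lit 187) (nat_lit 1) (nat_lit 192) (nat_lit 1) (nat_lit 401) (nat_lit 411) (nat_lit 328)) (XT.lf (nat_lit 76) (nat_lit 287207321) (nat_lit 0) (nat_lit 3047464281) (nat_lit 456) (nat_lit 287207321) (nat_lit 188) (nat_lit 1) (nat_lit 187) (nat_lit 1) (nat_lit 193) (nat_lit 1) (nat_lit 402) (nat_lit 411) (nat_lit 327)))) (XT.nd (nat_lit 78) (nat_lit 380) (nat_lit 0) (XT.lf (nat_lit 76) (nat_lit 1669499034) (nat_lit 0) (nat_lit 255235020) (nat_lit 456) (nat_lit 1669499034) (nat_lit 182) (nat_lit 1) (nat_lit 181) (nat_lit 1) (nat_lit 187) (nat_lit 1) (nat_lit 403) (nat_lit 411) (nat_lit 326)) (XT.nd (nat_lit 78) (nat_lit 0) (nat_lit 0) (XT.lf (nat_lit 456) (nat_lit 2500391310) (nat_lit 0) (nat_lit 533279175) (nat_lit 380) (nat_lit 533279175) (nat_lit 182) (nat_lit 1) (nat_lit 176) (nat_lit 1) (nat_lit 181) (nat_lit 1) (nat_lit 404) (nat_lit 411) (nat_lit 325)) (XT.lf (nat_lit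 76) (nat_lit 830834469) (nat_lit 0) (nat_lit 1878207578) (nat_lit 456) (nat_lit 830834469) (nat_lit 177) (nat_lit 1) (nat_lit 176) (nat_lit 1) (nat_lit 182) (nat_lit 1) (nat_lit 405) (nat_lit 411) (nat_lit 324))))) (XT.nd (nat_lit 234) (nat_lit 684) (nat_lit 0) (XT.nd (nat_lit 78) (nat_lit 380) (nat_lit 0) (XT.lf (nat_lit 456) (nat_lit 827035474) (nat_lit 0) (nat_lit 1343028228) (nat_lit 380) (nat_lit 1343028228) (nat_lit 177) (nat_lit 1) (nat_lit 171) (nat_lit 1) (nat_lit 176) (nat_lit 1) (nat_lit 406) (nat_lit 411) (nat_lit 323)) (XT.nd (nat_lit 78) (nat_lit 380) (nat_lit 0) (XT.lf (nat_lit 76) (nat_lit 1645158) (nat_lit 0) (nat_lit 3483434826) (nat_lit 456) (nat_lit 1645158) (nat_lit 172) (nat_lit 1) (nat_lit 171) (nat_lit 1) (nat_lit 177) (nat_lit 1) (nat_lit 407) (nat_lit 411) (nat_lit 322)) (XT.lf (nat_lit 76) (nat_lit 1321973702) (nat_lit 0) (nat_lit 816371167) (nat_lit 380) (nat_lit 1321973702) (nat_lit 167) (nat_lit 1) (nat_lit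 166) (nat_lit 1) (nat_lit 171) (nat_lit 1) (nat_lit 408) (nat_lit 411) (nat_lit 321)))) (XT.nd (nat_lit 78) (nat_lit 304) (nat_lit 0) (XT.lf (nat_lit 456) (nat_lit 1809118438) (nat_lit 0) (nat_lit 812602593) (nat_lit 380) (nat_lit 812602593) (nat_lit 167) (nat_lit 1) (nat_lit 161) (nat_lit 1) (nat_lit 166) (nat_lit 1) (nat_lit 409) (nat_lit 411) (nat_lit 320)) (XT.nd (nat_lit 78) (nat_lit 304) (nat_lit 0) (XT.lf (nat_lit 76) (nat_lit 489338875) (nat_lit 0) (nat_lit 2429925712) (nat_lit 456) (nat_lit 489338875) (nat_lit 162) (nat_lit 1) (nat_lit 161) (nat_lit 1) (nat_lit 167) (nat_lit 1) (nat_lit 410) (nat_lit 411) (nat_lit 319)) (XT.lf (nat_lit 380) (nat_lit 148533860) (nat_lit 0) (nat_lit 1617270149) (nat_lit 304) (nat_lit 1617270149) (nat_lit 162) (nat_lit 1) (nat_lit 157) (nat_lit 1) (nat_lit 161) (nat_lit 1) (nat_lit 411) (nat_lit 411) (nat_lit 318))))))))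
noncomputable def ec71 : XT := (XT.nd (nat_lit 52650) (nat_lit 0) (nat_lit 23104) (XT.nd (nat_lit 936) (nat_lit 608) (nat_lit 0) (XT.nd (nat_lit 468) (nat_lit 988) (nat_lit 0) (XT.nd (nat_lit 234) (nat_lit 684) (nat_lit 0) (XT.nd (nat_lit 78) (nat_lit 304) (nat_lit 0) (XT.lf (nat_lit 456) (nat_lit 2695919811) (nat_lit 0) (nat_lit 330966352) (nat_lit 380) (nat_lit 330966352) (nat_lit 157) (nat_lit 1) (nat_lit 151) (nat_lit 1) (nat_lit 156) (nat_lit 1) (nat_lit 412) (nat_lit 411) (nat_lit 317)) (XT.nd (nat_lit 78) (nat_lit 304) (nat_lit 0) (XT.lf (nat_lit 76) (nat_lit 930327406) (nat_lit 0) (nat_lit 1472101619) (nat_lit 456) (nat_lit 930327406) (nat_lit 152) (nat_lit 1) (nat_lit 151) (nat_lit 1) (nat_lit 157) (nat_lit 1) (nat_lit 413) (nat_lit 411) (nat_lit 316)) (XT.lf (nat_lit 380) (nat_lit 1032082681) (nat_lit 0) (nat_lit 1137939923) (nat_lit 304) (nat_lit 1137939923) (nat_lit 152) (nat_lit 1) (nat_lit 147) (nat_lit 1) (nat_lit 151)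 (nat_lit 1) (nat_lit 414) (nat_lit 411) (nat_lit 315)))) (XT.nd (nat_lit 78) (nat_lit 684) (nat_lit 0) (XT.lf (nat_lit 76) (nat_lit 106461038) (nat_lit 0) (nat_lit 3070598682) (nat_lit 380) (nat_lit 106461038) (nat_lit 148) (nat_lit 1) (nat_lit 147) (nat_lit 1) (nat_lit 152) (nat_lit 1) (nat_lit 415) (nat_lit 411) (nat_lit 314)) (XT.nd (nat_lit 78) (nat_lit 304) (nat_lit 0) (XT.lf (nat_lit 76) (nat_lit 1328355116) (nat_lit 0) (nat_lit 602372645) (nat_lit 380) (nat_lit 1328355116) (nat_lit 143) (nat_lit 1) (nat_lit 142) (nat_lit 1) (nat_lit 147) (nat_lit 1) (nat_lit 416) (nat_lit 411) (nat_lit 313)) (XT.lf (nat_lit 380) (nat_lit 1830798937) (nat_lit 0) (nat_lit 702096566) (nat_lit 304) (nat_lit 702096566) (nat_lit 143) (nat_lit 1) (nat_lit 138) (nat_lit 1) (nat_lit 142) (nat_lit 1) (nat_lit 417) (nat_lit 411) (nat_lit 312))))) (XT.nd (nat_lit 234) (nat_lit 304) (nat_lit 0) (XT.nd (nat_lit 78) (nat_lit 684) (nat_lit 0) (XT.lf (nat_lit 76)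 (nat_lit 504478742) (nat_lit 0) (nat_lit 2202178412) (nat_lit 380) (nat_lit 504478742) (nat_lit 139) (nat_lit 1) (nat_lit 138) (nat_lit 1) (nat_lit 143) (nat_lit 1) (nat_lit 418) (nat_lit 411) (nat_lit 311)) (XT.nd (nat_lit 78) (nat_lit 380) (nat_lit 0) (XT.lf (nat_lit 380) (nat_lit 188742553) (nat_lit 0) (nat_lit 1499360429) (nat_lit 304) (nat_lit 1499360429) (nat_lit 139) (nat_lit 1) (nat_lit 134) (nat_lit 1) (nat_lit 138) (nat_lit 1) (nat_lit 419) (nat_lit 411) (nat_lit 310)) (XT.lf (nat_lit 380) (nat_lit 2551487060) (nat_lit 0) (nat_lit 306291421) (nat_lit 304) (nat_lit 306291421) (nat_lit 134) (nat_lit 1) (nat_lit 129) (nat_lit 1) (nat_lit 133) (nat_lit 1) (nat_lit 420) (nat_lit 411) (nat_lit 309)))) (XT.nd (nat_lit 78) (nat_lit 304) (nat_lit 0) (XT.lf (nat_lit 76) (nat_lit 864222337) (nat_lit 0) (nat_lit 1412335066) (nat_lit 380) (nat_lit 864222337) (nat_lit 130) (nat_lit 1) (nat_lit 129) (nat_lit 1) (nat_lit 134) (nat_lit 1) (nat_lit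 421) (nat_lit 411) (nat_lit 308)) (XT.nd (nat_lit 78) (nat_lit 0) (nat_lit 0) (XT.lf (nat_lit 380) (nat_lit 912248698) (nat_lit 0) (nat_lit 1102757681) (nat_lit 304) (nat_lit 1102757681) (nat_lit 130) (nat_lit 1) (nat_lit 125) (nat_lit 1) (nat_lit 129) (nat_lit 1) (nat_lit 422) (nat_lit 411) (nat_lit 307)) (XT.lf (nat_lit 76) (nat_lit 53007590) (nat_lit 0) (nat_lit 2989066027) (nat_lit 380) (nat_lit 53007590) (nat_lit 126) (nat_lit 1) (nat_lit 125) (nat_lit 1) (nat_lit 130) (nat_lit 1) (nat_lit 423) (nat_lit 411) (nat_lit 306)))))) (XT.nd (nat_lit 51246) (nat_lit 0) (nat_lit 29032) (XT.nd (nat_lit 51012) (nat_lit 0) (nat_lit 28880) (XT.nd (nat_lit 78) (nat_lit 304) (nat_lit 0) (XT.lf (nat_lit 76) (nat_lit 1188762715) (nat_lit 0) (nat_lit 694840675) (nat_lit 304) (nat_lit 1188762715) (nat_lit 122) (nat_lit 1) (nat_lit 121) (nat_lit 1) (nat_lit 125) (nat_lit 1) (nat_lit 424) (nat_lit 411) (nat_lit 305)) (XT.nd (nat_lit 50856) (nat_lit 0)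 (nat_lit 28880) (XT.lf (nat_lit 380) (nat_lit 1566188310) (nat_lit 0) (nat_lit 741895685) (nat_lit 304) (nat_lit 741895685) (nat_lit 122) (nat_lit 1) (nat_lit 117) (nat_lit 1) (nat_lit 121) (nat_lit 1) (nat_lit 425) (nat_lit 411) (nat_lit 304)) (XT.lf (nat_lit 1900) (nat_lit 1271132584) (nat_lit 0) (nat_lit 1281762209) (nat_lit 1900) (nat_lit 1271132584) (nat_lit 522) (nat_lit 1) (nat_lit 497) (nat_lit 0) (nat_lit 522) (nat_lit 0) (nat_lit 316) (nat_lit 412) (nat_lit 412)))) (XT.nd (nat_lit 78) (nat_lit 0) (nat_lit 76) (XT.lf (nat_lit 1900) (nat_lit 5026249356) (nat_lit 76) (nat_lit 1273329563) (nat_lit 0) (nat_lit 1273329563) (nat_lit 522) (nat_lit 1) (nat_lit 498) (nat_lit 1) (nat_lit 497) (nat_lit 0) (nat_lit 317) (nat_lit 412) (nat_lit 411)) (XT.nd (nat_lit 78) (nat_lit 0) (nat_lit 0) (XT.lf (nat_lit 1900) (nat_lit 2467912359) (nat_lit 0) (nat_lit 2562758271) (nat_lit 1824) (nat_lit 2467912359) (nat_lit 523) (nat_lit 1) (nat_lit 498)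 (nat_lit 1) (nat_lit 522) (nat_lit 1) (nat_lit 318) (nat_lit 412) (nat_lit 410)) (XT.lf (nat_lit 1900) (nat_lit 4830312860) (nat_lit 76) (nat_lit 1297535702) (nat_lit 0) (nat_lit 1297535702) (nat_lit 523) (nat_lit 1) (nat_lit 499) (nat_lit 1) (nat_lit 498) (nat_lit 1) (nat_lit 319) (nat_lit 412) (nat_lit 409))))) (XT.nd (nat_lit 234) (nat_lit 0) (nat_lit 76) (XT.nd (nat_lit 78) (nat_lit 0) (nat_lit 0) (XT.lf (nat_lit 1900) (nat_lit 2347440518) (nat_lit 0) (nat_lit 2658112542) (nat_lit 1824) (nat_lit 2347440518) (nat_lit 524) (nat_lit 1) (nat_lit 499) (nat_lit 1) (nat_lit 523) (nat_lit 1) (nat_lit 320) (nat_lit 412) (nat_lit 408)) (XT.nd (nat_lit 78) (nat_lit 0) (nat_lit 76) (XT.lf (nat_lit 1900) (nat_lit 4544617155) (nat_lit 76) (nat_lit 1368531134) (nat_lit 0) (nat_lit 1368531134) (nat_lit 524) (nat_lit 1) (nat_lit 500) (nat_lit 1) (nat_lit 499) (nat_lit 1) (nat_lit 321) (nat_lit 412) (nat_lit 407)) (XT.lf (nat_lit 1900) (nat_lit 2183601411)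 (nat_lit 0) (nat_lit 2843970629) (nat_lit 1824) (nat_lit 2183601411) (nat_lit 525) (nat_lit 1) (nat_lit 500) (nat_lit 1) (nat_lit 524) (nat_lit 1) (nat_lit 322) (nat_lit 412) (nat_lit 406)))) (XT.nd (nat_lit 78) (nat_lit 0) (nat_lit 76) (XT.lf (nat_lit 1900) (nat_lit 4174556868) (nat_lit 76) (nat_lit 1483563105) (nat_lit 0) (nat_lit 1483563105) (nat_lit 525) (nat_lit 1) (nat_lit 501) (nat_lit 1) (nat_lit 500) (nat_lit 1) (nat_lit 323) (nat_lit 412) (nat_lit 405)) (XT.nd (nat_lit 78) (nat_lit 0) (nat_lit 0) (XT.lf (nat_lit 1900) (nat_lit 1979021107) (nat_lit 0) (nat_lit 3114970970) (nat_lit 1824) (nat_lit 1979021107) (nat_lit 526) (nat_lit 1) (nat_lit 501) (nat_lit 1) (nat_lit 525) (nat_lit 1) (nat_lit 324) (nat_lit 412) (nat_lit 404)) (XT.lf (nat_lit 1900) (nat_lit 3725279716) (nat_lit 76) (nat_lit 1640004107) (nat_lit 0) (nat_lit 1640004107) (nat_lit 526) (nat_lit 1) (nat_lit 502) (nat_lit 1) (nat_lit 501) (nat_lit 1) (nat_lit 325) (nat_lit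 412) (nat_lit 403))))))) (XT.nd (nat_lit 936) (nat_lit 4636) (nat_lit 0) (XT.nd (nat_lit 468) (nat_lit 1520) (nat_lit 0) (XT.nd (nat_lit 234) (nat_lit 0) (nat_lit 76) (XT.nd (nat_lit 78) (nat_lit 0) (nat_lit 0) (XT.lf (nat_lit 1900) (nat_lit 1736205230) (nat_lit 0) (nat_lit 3465996421) (nat_lit 1824) (nat_lit 1736205230) (nat_lit 527) (nat_lit 1) (nat_lit 502) (nat_lit 1) (nat_lit 526) (nat_lit 1) (nat_lit 326) (nat_lit 412) (nat_lit 402)) (XT.nd (nat_lit 78) (nat_lit 0) (nat_lit 76) (XT.lf (nat_lit 1900) (nat_lit 3201696819) (nat_lit 76) (nat_lit 1835346649) (nat_lit 0) (nat_lit 1835346649) (nat_lit 527) (nat_lit 1) (nat_lit 503) (nat_lit 1) (nat_lit 502) (nat_lit 1) (nat_lit 327) (nat_lit 412) (nat_lit 401)) (XT.lf (nat_lit 1900) (nat_lit 1457543999) (nat_lit 0) (nat_lit 3892164051) (nat_lit 1824) (nat_lit 1457543999) (nat_lit 528) (nat_lit 1) (nat_lit 503) (nat_lit 1) (nat_lit 527) (nat_lit 1) (nat_lit 328) (nat_lit 412) (nat_lit 400))))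 (XT.nd (nat_lit 78) (nat_lit 0) (nat_lit 76) (XT.lf (nat_lit 1900) (nat_lit 2608492614) (nat_lit 76) (nat_lit 2067198248) (nat_lit 0) (nat_lit 2067198248) (nat_lit 528) (nat_lit 1) (nat_lit 504) (nat_lit 1) (nat_lit 503) (nat_lit 1) (nat_lit 329) (nat_lit 412) (nat_lit 399)) (XT.nd (nat_lit 78) (nat_lit 0) (nat_lit 0) (XT.lf (nat_lit 1900) (nat_lit 1145317060) (nat_lit 0) (nat_lit 4388815351) (nat_lit 1824) (nat_lit 1145317060) (nat_lit 529) (nat_lit 1) (nat_lit 504) (nat_lit 1) (nat_lit 528) (nat_lit 1) (nat_lit 330) (nat_lit 412) (nat_lit 398)) (XT.lf (nat_lit 1900) (nat_lit 1950134360) (nat_lit 76) (nat_lit 2333276616) (nat_lit 0) (nat_lit 2333276616) (nat_lit 529) (nat_lit 1) (nat_lit 505) (nat_lit 1) (nat_lit 504) (nat_lit 1) (nat_lit 331) (nat_lit 412) (nat_lit 397))))) (XT.nd (nat_lit 234) (nat_lit 1748) (nat_lit 0) (XT.nd (nat_lit 78) (nat_lit 0) (nat_lit 0) (XT.lf (nat_lit 1900) (nat_lit 801698134) (nat_lit 0) (nat_lit 4951506840)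 (nat_lit 1824) (nat_lit 801698134) (nat_lit 530) (nat_lit 1) (nat_lit 505) (nat_lit 1) (nat_lit 529) (nat_lit 1) (nat_lit 332) (nat_lit 412) (nat_lit 396)) (XT.nd (nat_lit 78) (nat_lit 0) (nat_lit 76) (XT.lf (nat_lit 1900) (nat_lit 1230881260) (nat_lit 76) (nat_lit 2631405042) (nat_lit 0) (nat_lit 2631405042) (nat_lit 530) (nat_lit 1) (nat_lit 506) (nat_lit 1) (nat_lit 505) (nat_lit 1) (nat_lit 333) (nat_lit 412) (nat_lit 395)) (XT.lf (nat_lit 1900) (nat_lit 428759468) (nat_lit 0) (nat_lit 5576001042) (nat_lit 1824) (nat_lit 428759468) (nat_lit 531) (nat_lit 1) (nat_lit 506) (nat_lit 1) (nat_lit 530) (nat_lit 1) (nat_lit 334) (nat_lit 412) (nat_lit 394)))) (XT.nd (nat_lit 78) (nat_lit 1824) (nat_lit 0) (XT.lf (nat_lit 1900) (nat_lit 454793225) (nat_lit 76) (nat_lit 2959507959) (nat_lit 0) (nat_lit 2959507959) (nat_lit 531) (nat_lit 1) (nat_lit 507) (nat_lit 1) (nat_lit 506) (nat_lit 1) (nat_lit 335) (nat_lit 412) (nat_lit 393)) (XT.nd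 (nat_lit 78) (nat_lit 1900) (nat_lit 0) (XT.lf (nat_lit 1900) (nat_lit 28476110) (nat_lit 0) (nat_lit 6258257833) (nat_lit 1824) (nat_lit 28476110) (nat_lit 532) (nat_lit 1) (nat_lit 507) (nat_lit 1) (nat_lit 531) (nat_lit 1) (nat_lit 336) (nat_lit 412) (nat_lit 392)) (XT.lf (nat_lit 1976) (nat_lit 2943775913) (nat_lit 0) (nat_lit 369352231) (nat_lit 1900) (nat_lit 2943775913) (nat_lit 508) (nat_lit 1) (nat_lit 482) (nat_lit 1) (nat_lit 507) (nat_lit 1) (nat_lit 337) (nat_lit 412) (nat_lit 391)))))) (XT.nd (nat_lit 468) (nat_lit 3648) (nat_lit 0) (XT.nd (nat_lit 234) (nat_lit 988) (nat_lit 0) (XT.nd (nat_lit 78) (nat_lit 0) (nat_lit 76) (XT.lf (nat_lit 1976) (nat_lit 5410366383) (nat_lit 76) (nat_lit 394656368) (nat_lit 0) (nat_lit 394656368) (nat_lit 508) (nat_lit 1) (nat_lit 483) (nat_lit 1) (nat_lit 482) (nat_lit 1) (nat_lit 338) (nat_lit 412) (nat_lit 390)) (XT.nd (nat_lit 78) (nat_lit 0) (nat_lit 0) (XT.lf (nat_lit 1976) (nat_lit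 2453353638) (nat_lit 0) (nat_lit 1236166410) (nat_lit 1900) (nat_lit 2453353638) (nat_lit 509) (nat_lit 1) (nat_lit 483) (nat_lit 1) (nat_lit 508) (nat_lit 1) (nat_lit 339) (nat_lit 412) (nat_lit 389)) (XT.lf (nat_lit 1976) (nat_lit 4404791166) (nat_lit 76) (nat_lit 841115728) (nat_lit 0) (nat_lit 841115728) (nat_lit 509) (nat_lit 1) (nat_lit 484) (nat_lit 1) (nat_lit 483) (nat_lit 1) (nat_lit 340) (nat_lit 412) (nat_lit 388)))) (XT.nd (nat_lit 78) (nat_lit 1140) (nat_lit 0) (XT.lf (nat_lit 76) (nat_lit 1941772872) (nat_lit 0) (nat_lit 2148148955) (nat_lit 1900) (nat_lit 1941772872) (nat_lit 485) (nat_lit 1) (nat_lit 484) (nat_lit 1) (nat_lit 509) (nat_lit 1) (nat_lit 341) (nat_lit 412) (nat_lit 387)) (XT.nd (nat_lit 78) (nat_lit 0) (nat_lit 0) (XT.lf (nat_lit 1216) (nat_lit 3358388263) (nat_lit 0) (nat_lit 1309393133) (nat_lit 1140) (nat_lit 1309393133) (nat_lit 485) (nat_lit 1) (nat_lit 469) (nat_lit 1) (nat_lit 484) (nat_lit 1) (nat_lit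 342) (nat_lit 412) (nat_lit 386)) (XT.lf (nat_lit 76) (nat_lit 1410643502) (nat_lit 0) (nat_lit 3102000279) (nat_lit 1216) (nat_lit 1410643502) (nat_lit 470) (nat_lit 1) (nat_lit 469) (nat_lit 1) (nat_lit 485) (nat_lit 1) (nat_lit 343) (nat_lit 412) (nat_lit 385))))) (XT.nd (nat_lit 234) (nat_lit 1824) (nat_lit 0) (XT.nd (nat_lit 78) (nat_lit 912) (nat_lit 0) (XT.lf (nat_lit 988) (nat_lit 2274309248) (nat_lit 0) (nat_lit 1797873624) (nat_lit 912) (nat_lit 1797873624) (nat_lit 470) (nat_lit 1) (nat_lit 457) (nat_lit 1) (nat_lit 469) (nat_lit 1) (nat_lit 344) (nat_lit 412) (nat_lit 384)) (XT.nd (nat_lit 78) (nat_lit 912) (nat_lit 0) (XT.lf (nat_lit 76) (nat_lit 861497447) (nat_lit 0) (nat_lit 4094579230) (nat_lit 988) (nat_lit 861497447) (nat_lit 458) (nat_lit 1) (nat_lit 457) (nat_lit 1) (nat_lit 470) (nat_lit 1) (nat_lit 345) (nat_lit 412) (nat_lit 383)) (XT.lf (nat_lit 988) (nat_lit 1155552604) (nat_lit 0) (nat_lit 2305020008) (nat_lit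 912) (nat_lit 2305020008) (nat_lit 458) (nat_lit 1) (nat_lit 445) (nat_lit 1) (nat_lit 457) (nat_lit 1) (nat_lit 346) (nat_lit 412) (nat_lit 382)))) (XT.nd (nat_lit 156) (nat_lit 988) (nat_lit 0) (XT.nd (nat_lit 78) (nat_lit 836) (nat_lit 0) (XT.lf (nat_lit 76) (nat_lit 295791983) (nat_lit 0) (nat_lit 5122896343) (nat_lit 988) (nat_lit 295791983) (nat_lit 446) (nat_lit 1) (nat_lit 445) (nat_lit 1) (nat_lit 458) (nat_lit 1) (nat_lit 347) (nat_lit 412) (nat_lit 381)) (XT.lf (nat_lit 912) (nat_lit 4970273) (nat_lit 0) (nat_lit 2829369540) (nat_lit 836) (nat_lit 2829369540) (nat_lit 446) (nat_lit 1) (nat_lit 434) (nat_lit 1) (nat_lit 445) (nat_lit 1) (nat_lit 348) (nat_lit 412) (nat_lit 380))) (XT.nd (nat_lit 78) (nat_lit 0) (nat_lit 0) (XT.lf (nat_lit 988) (nat_lit 5047361725) (nat_lit 0) (nat_lit 283211480) (nat_lit 912) (nat_lit 283211480) (nat_lit 434) (nat_lit 1) (nat_lit 421) (nat_lit 1) (nat_lit 433) (nat_lit 1) (nat_lit 349) (nat_lit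 412) (nat_lit 379)) (XT.lf (nat_lit 76) (nat_lit 2202431782) (nat_lit 0) (nat_lit 1159319318) (nat_lit 988) (nat_lit 2202431782) (nat_lit 422) (nat_lit 1) (nat_lit 421) (nat_lit 1) (nat_lit 434) (nat_lit 1) (nat_lit 350) (nat_lit 412) (nat_lit 378))))))))
noncomputable def ec72 : XT := (XT.nd (nat_lit 1872) (nat_lit 7296) (nat_lit 0) (XT.nd (nat_lit 936) (nat_lit 4636) (nat_lit 0) (XT.nd (nat_lit 468) (nat_lit 3040) (nat_lit 0) (XT.nd (nat_lit 234) (nat_lit 760) (nat_lit 0) (XT.nd (nat_lit 78) (nat_lit 836) (nat_lit 0) (XT.lf (nat_lit 912) (nat_lit 3767336308) (nat_lit 0) (nat_lit 874033903) (nat_lit 836) (nat_lit 874033903) (nat_lit 422) (nat_lit 1) (nat_lit 410) (nat_lit 1) (nat_lit 421) (nat_lit 1) (nat_lit 351) (nat_lit 412) (nat_lit 377)) (XT.nd (nat_lit 78) (nat_lit 836) (nat_lit 0) (XT.lf (nat_lit 76) (nat_lit 1558680169) (nat_lit 0) (nat_lit 2349732254) (nat_lit 912) (nat_lit 1558680169) (nat_lit 411) (nat_lit 1) (nat_lit 410)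 (nat_lit 1) (nat_lit 422) (nat_lit 1) (nat_lit 352) (nat_lit 412) (nat_lit 376)) (XT.lf (nat_lit 912) (nat_lit 2464670229) (nat_lit 0) (nat_lit 1477377505) (nat_lit 836) (nat_lit 1477377505) (nat_lit 411) (nat_lit 1) (nat_lit 399) (nat_lit 1) (nat_lit 410) (nat_lit 1) (nat_lit 353) (nat_lit 412) (nat_lit 375)))) (XT.nd (nat_lit 78) (nat_lit 760) (nat_lit 0) (XT.lf (nat_lit 76) (nat_lit 904227823) (nat_lit 0) (nat_lit 3563916851) (nat_lit 912) (nat_lit 904227823) (nat_lit 400) (nat_lit 1) (nat_lit 399) (nat_lit 1) (nat_lit 411) (nat_lit 1) (nat_lit 354) (nat_lit 412) (nat_lit 374)) (XT.nd (nat_lit 78) (nat_lit 0) (nat_lit 0) (XT.lf (nat_lit 836) (nat_lit 1141661196) (nat_lit 0) (nat_lit 2092060710) (nat_lit 760) (nat_lit 2092060710) (nat_lit 400) (nat_lit 1) (nat_lit 389) (nat_lit 1) (nat_lit 399) (nat_lit 1) (nat_lit 355) (nat_lit 412) (nat_lit 373)) (XT.lf (nat_lit 76) (nat_lit 240190238) (nat_lit 0) (nat_lit 4799577537) (nat_lit 836)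 (nat_lit 240190238) (nat_lit 390) (nat_lit 1) (nat_lit 389) (nat_lit 1) (nat_lit 400) (nat_lit 1) (nat_lit 356) (nat_lit 412) (nat_lit 372))))) (XT.nd (nat_lit 234) (nat_lit 1444) (nat_lit 0) (XT.nd (nat_lit 78) (nat_lit 760) (nat_lit 0) (XT.lf (nat_lit 76) (nat_lit 2518746686) (nat_lit 0) (nat_lit 196893512) (nat_lit 836) (nat_lit 2518746686) (nat_lit 379) (nat_lit 1) (nat_lit 378) (nat_lit 1) (nat_lit 389) (nat_lit 1) (nat_lit 357) (nat_lit 412) (nat_lit 371)) (XT.nd (nat_lit 78) (nat_lit 0) (nat_lit 0) (XT.lf (nat_lit 836) (nat_lit 4330502044) (nat_lit 0) (nat_lit 429529571) (nat_lit 760) (nat_lit 429529571) (nat_lit 379) (nat_lit 1) (nat_lit 368) (nat_lit 1) (nat_lit 378) (nat_lit 1) (nat_lit 358) (nat_lit 412) (nat_lit 370)) (XT.lf (nat_lit 76) (nat_lit 1804347234) (nat_lit 0) (nat_lit 1536357624) (nat_lit 836) (nat_lit 1804347234) (nat_lit 369) (nat_lit 1) (nat_lit 368) (nat_lit 1) (nat_lit 379) (nat_lit 1) (nat_lit 359) (nat_lit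 412) (nat_lit 369)))) (XT.nd (nat_lit 78) (nat_lit 684) (nat_lit 0) (XT.lf (nat_lit 836) (nat_lit 2890932367) (nat_lit 0) (nat_lit 1105142585) (nat_lit 760) (nat_lit 1105142585) (nat_lit 369) (nat_lit 1) (nat_lit 358) (nat_lit 1) (nat_lit 368) (nat_lit 1) (nat_lit 360) (nat_lit 412) (nat_lit 368)) (XT.nd (nat_lit 78) (nat_lit 684) (nat_lit 0) (XT.lf (nat_lit 76) (nat_lit 1084049392) (nat_lit 0) (nat_lit 2889768302) (nat_lit 836) (nat_lit 1084049392) (nat_lit 359) (nat_lit 1) (nat_lit 358) (nat_lit 1) (nat_lit 369) (nat_lit 1) (nat_lit 361) (nat_lit 412) (nat_lit 367)) (XT.lf (nat_lit 760) (nat_lit 1440426777) (nat_lit 0) (nat_lit 1787283546) (nat_lit 684) (nat_lit 1787283546) (nat_lit 359) (nat_lit 1) (nat_lit 349) (nat_lit 1) (nat_lit 358) (nat_lit 1) (nat_lit 362) (nat_lit 412) (nat_lit 366)))))) (XT.nd (nat_lit 468) (nat_lit 2508) (nat_lit 0) (XT.nd (nat_lit 234) (nat_lit 684) (nat_lit 0) (XT.nd (nat_lit 78) (nat_lit 1444) (nat_lit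 0) (XT.lf (nat_lit 76) (nat_lit 358741798) (nat_lit 0) (nat_lit 4255290660) (nat_lit 760) (nat_lit 358741798) (nat_lit 350) (nat_lit 1) (nat_lit 349) (nat_lit 1) (nat_lit 359) (nat_lit 1) (nat_lit 363) (nat_lit 412) (nat_lit 365)) (XT.nd (nat_lit 78) (nat_lit 684) (nat_lit 0) (XT.lf (nat_lit 76) (nat_lit 2455902173) (nat_lit 0) (nat_lit 19026703) (nat_lit 760) (nat_lit 2455902173) (nat_lit 340) (nat_lit 1) (nat_lit 339) (nat_lit 1) (nat_lit 349) (nat_lit 1) (nat_lit 364) (nat_lit 412) (nat_lit 364)) (XT.lf (nat_lit 760) (nat_lit 4152933894) (nat_lit 0) (nat_lit 368295308) (nat_lit 684) (nat_lit 368295308) (nat_lit 340) (nat_lit 1) (nat_lit 330) (nat_lit 1) (nat_lit 339) (nat_lit 1) (nat_lit 365) (nat_lit 412) (nat_lit 363)))) (XT.nd (nat_lit 78) (nat_lit 684) (nat_lit 0) (XT.lf (nat_lit 76) (nat_lit 1690720190) (nat_lit 0) (nat_lit 1467048249) (nat_lit 760) (nat_lit 1690720190) (nat_lit 331) (nat_lit 1) (nat_lit 330) (nat_lit 1) (nat_lit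 340) (nat_lit 1) (nat_lit 366) (nat_lit 412) (nat_lit 362)) (XT.nd (nat_lit 78) (nat_lit 0) (nat_lit 0) (XT.lf (nat_lit 760) (nat_lit 2615422557) (nat_lit 0) (nat_lit 1096322784) (nat_lit 684) (nat_lit 1096322784) (nat_lit 331) (nat_lit 1) (nat_lit 321) (nat_lit 1) (nat_lit 330) (nat_lit 1) (nat_lit 367) (nat_lit 412) (nat_lit 361)) (XT.lf (nat_lit 76) (nat_lit 923552006) (nat_lit 0) (nat_lit 2920996548) (nat_lit 760) (nat_lit 923552006) (nat_lit 322) (nat_lit 1) (nat_lit 321) (nat_lit 1) (nat_lit 331) (nat_lit 1) (nat_lit 368) (nat_lit 412) (nat_lit 360))))) (XT.nd (nat_lit 234) (nat_lit 1216) (nat_lit 0) (XT.nd (nat_lit 78) (nat_lit 684) (nat_lit 0) (XT.lf (nat_lit 684) (nat_lit 1074633455) (nat_lit 0) (nat_lit 1826953206) (nat_lit 608) (nat_lit 1826953206) (nat_lit 322) (nat_lit 1) (nat_lit 313) (nat_lit 1) (nat_lit 321) (nat_lit 1) (nat_lit 369) (nat_lit 412) (nat_lit 359)) (XT.nd (nat_lit 78) (nat_lit 684) (nat_lit 0) (XT.lf (nat_lit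 76) (nat_lit 155096300) (nat_lit 0) (nat_lit 4379422729) (nat_lit 684) (nat_lit 155096300) (nat_lit 314) (nat_lit 1) (nat_lit 313) (nat_lit 1) (nat_lit 322) (nat_lit 1) (nat_lit 370) (nat_lit 412) (nat_lit 358)) (XT.lf (nat_lit 76) (nat_lit 2094447963) (nat_lit 0) (nat_lit 461932370) (nat_lit 684) (nat_lit 2094447963) (nat_lit 305) (nat_lit 1) (nat_lit 304) (nat_lit 1) (nat_lit 313) (nat_lit 1) (nat_lit 371) (nat_lit 412) (nat_lit 357)))) (XT.nd (nat_lit 78) (nat_lit 608) (nat_lit 0) (XT.lf (nat_lit 684) (nat_lit 3392766610) (nat_lit 0) (nat_lit 609948175) (nat_lit 608) (nat_lit 609948175) (nat_lit 305) (nat_lit 1) (nat_lit 296) (nat_lit 1) (nat_lit 304) (nat_lit 1) (nat_lit 372) (nat_lit 412) (nat_lit 356)) (XT.nd (nat_lit 78) (nat_lit 608) (nat_lit 0) (XT.lf (nat_lit 76) (nat_lit 1294889510) (nat_lit 0) (nat_lit 1985026382) (nat_lit 684) (nat_lit 1294889510) (nat_lit 297) (nat_lit 1) (nat_lit 296) (nat_lit 1) (nat_lit 305) (nat_lit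 1) (nat_lit 373) (nat_lit 412) (nat_lit 355)) (XT.lf (nat_lit 684) (nat_lit 1789476900) (nat_lit 0) (nat_lit 1373978591) (nat_lit 608) (nat_lit 1373978591) (nat_lit 297) (nat_lit 1) (nat_lit 288) (nat_lit 1) (nat_lit 296) (nat_lit 1) (nat_lit 374) (nat_lit 412) (nat_lit 354))))))) (XT.nd (nat_lit 936) (nat_lit 3420) (nat_lit 0) (XT.nd (nat_lit 468) (nat_lit 2128) (nat_lit 0) (XT.nd (nat_lit 234) (nat_lit 532) (nat_lit 0) (XT.nd (nat_lit 78) (nat_lit 1216) (nat_lit 0) (XT.lf (nat_lit 76) (nat_lit 496508069) (nat_lit 0) (nat_lit 3507547026) (nat_lit 684) (nat_lit 496508069) (nat_lit 289) (nat_lit 1) (nat_lit 288) (nat_lit 1) (nat_lit 297) (nat_lit 1) (nat_lit 375) (nat_lit 412) (nat_lit 353)) (XT.nd (nat_lit 78) (nat_lit 684) (nat_lit 0) (XT.lf (nat_lit 608) (nat_lit 189096286) (nat_lit 0) (nat_lit 2137433224) (nat_lit 532) (nat_lit 2137433224) (nat_lit 289) (nat_lit 1) (nat_lit 281) (nat_lit 1) (nat_lit 288) (nat_lit 1) (nat_lit 376) (nat_lit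 412) (nat_lit 352)) (XT.lf (nat_lit 684) (nat_lit 3831535682) (nat_lit 0) (nat_lit 298181648) (nat_lit 608) (nat_lit 298181648) (nat_lit 281) (nat_lit 1) (nat_lit 272) (nat_lit 1) (nat_lit 280) (nat_lit 1) (nat_lit 377) (nat_lit 412) (nat_lit 351)))) (XT.nd (nat_lit 78) (nat_lit 532) (nat_lit 0) (XT.lf (nat_lit 76) (nat_lit 1501576781) (nat_lit 0) (nat_lit 1388867181) (nat_lit 684) (nat_lit 1501576781) (nat_lit 273) (nat_lit 1) (nat_lit 272) (nat_lit 1) (nat_lit 281) (nat_lit 1) (nat_lit 378) (nat_lit 412) (nat_lit 350)) (XT.nd (nat_lit 78) (nat_lit 0) (nat_lit 0) (XT.lf (nat_lit 608) (nat_lit 2181876948) (nat_lit 0) (nat_lit 1087394947) (nat_lit 532) (nat_lit 1087394947) (nat_lit 273) (nat_lit 1) (nat_lit 265) (nat_lit 1) (nat_lit 272) (nat_lit 1) (nat_lit 379) (nat_lit 412) (nat_lit 349)) (XT.lf (nat_lit 76) (nat_lit 681127139) (nat_lit 0) (nat_lit 2959468551) (nat_lit 608) (nat_lit 681127139) (nat_lit 266) (nat_lit 1) (nat_lit 265)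 (nat_lit 1) (nat_lit 273) (nat_lit 1) (nat_lit 380) (nat_lit 412) (nat_lit 348))))) (XT.nd (nat_lit 234) (nat_lit 988) (nat_lit 0) (XT.nd (nat_lit 78) (nat_lit 608) (nat_lit 0) (XT.lf (nat_lit 608) (nat_lit 539232455) (nat_lit 0) (nat_lit 1873924885) (nat_lit 532) (nat_lit 1873924885) (nat_lit 266) (nat_lit 1) (nat_lit 258) (nat_lit 1) (nat_lit 265) (nat_lit 1) (nat_lit 381) (nat_lit 412) (nat_lit 347)) (XT.nd (nat_lit 78) (nat_lit 0) (nat_lit 0) (XT.lf (nat_lit 608) (nat_lit 3983541752) (nat_lit 0) (nat_lit 134719200) (nat_lit 532) (nat_lit 134719200) (nat_lit 258) (nat_lit 1) (nat_lit 250) (nat_lit 1) (nat_lit 257) (nat_lit 1) (nat_lit 382) (nat_lit 412) (nat_lit 346)) (XT.lf (nat_lit 76) (nat_lit 1568888762) (nat_lit 0) (nat_lit 1081183300) (nat_lit 608) (nat_lit 1568888762) (nat_lit 251) (nat_lit 1) (nat_lit 250) (nat_lit 1) (nat_lit 258) (nat_lit 1) (nat_lit 383) (nat_lit 412) (nat_lit 345)))) (XT.nd (nat_lit 78) (nat_lit 456) (nat_lit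 0) (XT.lf (nat_lit 608) (nat_lit 2301483861) (nat_lit 0) (nat_lit 941992605) (nat_lit 532) (nat_lit 941992605) (nat_lit 251) (nat_lit 1) (nat_lit 243) (nat_lit 1) (nat_lit 250) (nat_lit 1) (nat_lit 384) (nat_lit 412) (nat_lit 344)) (XT.nd (nat_lit 78) (nat_lit 456) (nat_lit 0) (XT.lf (nat_lit 76) (nat_lit 733173249) (nat_lit 0) (nat_lit 2685988665) (nat_lit 608) (nat_lit 733173249) (nat_lit 244) (nat_lit 1) (nat_lit 243) (nat_lit 1) (nat_lit 251) (nat_lit 1) (nat_lit 385) (nat_lit 412) (nat_lit 343)) (XT.lf (nat_lit 532) (nat_lit 629913399) (nat_lit 0) (nat_lit 1744795525) (nat_lit 456) (nat_lit 1744795525) (nat_lit 244) (nat_lit 1) (nat_lit 237) (nat_lit 1) (nat_lit 243) (nat_lit 1) (nat_lit 386) (nat_lit 412) (nat_lit 342)))))) (XT.nd (nat_lit 468) (nat_lit 1368) (nat_lit 0) (XT.nd (nat_lit 234) (nat_lit 988) (nat_lit 0) (XT.nd (nat_lit 78) (nat_lit 456) (nat_lit 0) (XT.lf (nat_lit 608) (nat_lit 3894172617) (nat_lit 0) (nat_lit 96506217)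 (nat_lit 532) (nat_lit 96506217) (nat_lit 237) (nat_lit 1) (nat_lit 229) (nat_lit 1) (nat_lit 236) (nat_lit 1) (nat_lit 387) (nat_lit 412) (nat_lit 341)) (XT.nd (nat_lit 78) (nat_lit 456) (nat_lit 0) (XT.lf (nat_lit 76) (nat_lit 1518963461) (nat_lit 0) (nat_lit 1016986580) (nat_lit 608) (nat_lit 1518963461) (nat_lit 230) (nat_lit 1) (nat_lit 229) (nat_lit 1) (nat_lit 237) (nat_lit 1) (nat_lit 388) (nat_lit 412) (nat_lit 340)) (XT.lf (nat_lit 532) (nat_lit 2191779659) (nat_lit 0) (nat_lit 915681940) (nat_lit 456) (nat_lit 915681940) (nat_lit 230) (nat_lit 1) (nat_lit 223) (nat_lit 1) (nat_lit 229) (nat_lit 1) (nat_lit 389) (nat_lit 412) (nat_lit 339)))) (XT.nd (nat_lit 78) (nat_lit 988) (nat_lit 0) (XT.lf (nat_lit 76) (nat_lit 673854210) (nat_lit 0) (nat_lit 2644003487) (nat_lit 532) (nat_lit 673854210) (nat_lit 224) (nat_lit 1) (nat_lit 223) (nat_lit 1) (nat_lit 230) (nat_lit 1) (nat_lit 390) (nat_lit 412) (nat_lit 338)) (XT.nd (nat_lit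 78) (nat_lit 532) (nat_lit 0) (XT.lf (nat_lit 532) (nat_lit 502792840) (nat_lit 0) (nat_lit 1728881334) (nat_lit 456) (nat_lit 1728881334) (nat_lit 224) (nat_lit 1) (nat_lit 217) (nat_lit 1) (nat_lit 223) (nat_lit 1) (nat_lit 391) (nat_lit 412) (nat_lit 337)) (XT.lf (nat_lit 532) (nat_lit 3603137228) (nat_lit 0) (nat_lit 163360901) (nat_lit 456) (nat_lit 163360901) (nat_lit 217) (nat_lit 1) (nat_lit 210) (nat_lit 1) (nat_lit 216) (nat_lit 1) (nat_lit 392) (nat_lit 412) (nat_lit 336))))) (XT.nd (nat_lit 234) (nat_lit 912) (nat_lit 0) (XT.nd (nat_lit 78) (nat_lit 456) (nat_lit 0) (XT.lf (nat_lit 76) (nat_lit 1371166033) (nat_lit 0) (nat_lit 1156900489) (nat_lit 532) (nat_lit 1371166033) (nat_lit 211) (nat_lit 1) (nat_lit 210) (nat_lit 1) (nat_lit 217) (nat_lit 1) (nat_lit 393) (nat_lit 412) (nat_lit 335)) (XT.nd (nat_lit 78) (nat_lit 0) (nat_lit 0) (XT.lf (nat_lit 532) (nat_lit 1890794249) (nat_lit 0) (nat_lit 989131555) (nat_lit 456) (nat_lit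 989131555) (nat_lit 211) (nat_lit 1) (nat_lit 204) (nat_lit 1) (nat_lit 210) (nat_lit 1) (nat_lit 394) (nat_lit 412) (nat_lit 334)) (XT.lf (nat_lit 76) (nat_lit 521715718) (nat_lit 0) (nat_lit 2795796872) (nat_lit 532) (nat_lit 521715718) (nat_lit 205) (nat_lit 1) (nat_lit 204) (nat_lit 1) (nat_lit 211) (nat_lit 1) (nat_lit 395) (nat_lit 412) (nat_lit 333)))) (XT.nd (nat_lit 78) (nat_lit 532) (nat_lit 0) (XT.lf (nat_lit 456) (nat_lit 194290179) (nat_lit 0) (nat_lit 1807666653) (nat_lit 380) (nat_lit 1807666653) (nat_lit 205) (nat_lit 1) (nat_lit 199) (nat_lit 1) (nat_lit 204) (nat_lit 1) (nat_lit 396) (nat_lit 412) (nat_lit 332)) (XT.nd (nat_lit 78) (nat_lit 0) (nat_lit 0) (XT.lf (nat_lit 532) (nat_lit 3145126504) (nat_lit 0) (nat_lit 317640390) (nat_lit 456) (nat_lit 317640390) (nat_lit 199) (nat_lit 1) (nat_lit 192) (nat_lit 1) (nat_lit 198) (nat_lit 1) (nat_lit 397) (nat_lit 412) (nat_lit 331)) (XT.lf (nat_lit 76) (nat_lit 1142411553)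 (nat_lit 0) (nat_lit 1466507704) (nat_lit 532) (nat_lit 1142411553) (nat_lit 193) (nat_lit 1) (nat_lit 192) (nat_lit 1) (nat_lit 199) (nat_lit 1) (nat_lit 398) (nat_lit 412) (nat_lit 330))))))))
noncomputable def ec73 : XT := (XT.nd (nat_lit 1872) (nat_lit 304) (nat_lit 0) (XT.nd (nat_lit 936) (nat_lit 2280) (nat_lit 0) (XT.nd (nat_lit 468) (nat_lit 1520) (nat_lit 0) (XT.nd (nat_lit 234) (nat_lit 760) (nat_lit 0) (XT.nd (nat_lit 78) (nat_lit 456) (nat_lit 0) (XT.lf (nat_lit 456) (nat_lit 1431740326) (nat_lit 0) (nat_lit 1145447479) (nat_lit 380) (nat_lit 1145447479) (nat_lit 193) (nat_lit 1) (nat_lit 187) (nat_lit 1) (nat_lit 192) (nat_lit 1) (nat_lit 399) (nat_lit 412) (nat_lit 329)) (XT.nd (nat_lit 78) (nat_lit 456) (nat_lit 0) (XT.lf (nat_lit 76) (nat_lit 292951467) (nat_lit 0) (nat_lit 3108413567) (nat_lit 456) (nat_lit 292951467) (nat_lit 188) (nat_lit 1) (nat_lit 187) (nat_lit 1) (nat_lit 193) (nat_lit 1) (nat_lit 400) (nat_lit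 412) (nat_lit 328)) (XT.lf (nat_lit 76) (nat_lit 1702889015) (nat_lit 0) (nat_lit 260339720) (nat_lit 456) (nat_lit 1702889015) (nat_lit 182) (nat_lit 1) (nat_lit 181) (nat_lit 1) (nat_lit 187) (nat_lit 1) (nat_lit 401) (nat_lit 412) (nat_lit 327)))) (XT.nd (nat_lit 78) (nat_lit 380) (nat_lit 0) (XT.lf (nat_lit 456) (nat_lit 2550399136) (nat_lit 0) (nat_lit 543944758) (nat_lit 380) (nat_lit 543944758) (nat_lit 182) (nat_lit 1) (nat_lit 176) (nat_lit 1) (nat_lit 181) (nat_lit 1) (nat_lit 402) (nat_lit 412) (nat_lit 326)) (XT.nd (nat_lit 78) (nat_lit 380) (nat_lit 0) (XT.lf (nat_lit 76) (nat_lit 847451158) (nat_lit 0) (nat_lit 1915771729) (nat_lit 456) (nat_lit 847451158) (nat_lit 177) (nat_lit 1) (nat_lit 176) (nat_lit 1) (nat_lit 182) (nat_lit 1) (nat_lit 403) (nat_lit 412) (nat_lit 325)) (XT.lf (nat_lit 456) (nat_lit 843576184) (nat_lit 0) (nat_lit 1369888793) (nat_lit 380) (nat_lit 1369888793) (nat_lit 177) (nat_lit 1) (nat_lit 171)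 (nat_lit 1) (nat_lit 176) (nat_lit 1) (nat_lit 404) (nat_lit 412) (nat_lit 324))))) (XT.nd (nat_lit 234) (nat_lit 760) (nat_lit 0) (XT.nd (nat_lit 78) (nat_lit 760) (nat_lit 0) (XT.lf (nat_lit 76) (nat_lit 1678061) (nat_lit 0) (nat_lit 3553103522) (nat_lit 456) (nat_lit 1678061) (nat_lit 172) (nat_lit 1) (nat_lit 171) (nat_lit 1) (nat_lit 177) (nat_lit 1) (nat_lit 405) (nat_lit 412) (nat_lit 323)) (XT.nd (nat_lit 78) (nat_lit 380) (nat_lit 0) (XT.lf (nat_lit 76) (nat_lit 1348413176) (nat_lit 0) (nat_lit 832698590) (nat_lit 380) (nat_lit 1348413176) (nat_lit 167) (nat_lit 1) (nat_lit 166) (nat_lit 1) (nat_lit 171) (nat_lit 1) (nat_lit 406) (nat_lit 412) (nat_lit 322)) (XT.lf (nat_lit 456) (nat_lit 1845300806) (nat_lit 0) (nat_lit 828854645) (nat_lit 380) (nat_lit 828854645) (nat_lit 167) (nat_lit 1) (nat_lit 161) (nat_lit 1) (nat_lit 166) (nat_lit 1) (nat_lit 407) (nat_lit 412) (nat_lit 321)))) (XT.nd (nat_lit 78) (nat_lit 760) (nat_lit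 0) (XT.lf (nat_lit 76) (nat_lit 499125652) (nat_lit 0) (nat_lit 2478524226) (nat_lit 456) (nat_lit 499125652) (nat_lit 162) (nat_lit 1) (nat_lit 161) (nat_lit 1) (nat_lit 167) (nat_lit 1) (nat_lit 408) (nat_lit 412) (nat_lit 320)) (XT.nd (nat_lit 78) (nat_lit 456) (nat_lit 0) (XT.lf (nat_lit 380) (nat_lit 151504538) (nat_lit 0) (nat_lit 1649615552) (nat_lit 304) (nat_lit 1649615552) (nat_lit 162) (nat_lit 1) (nat_lit 157) (nat_lit 1) (nat_lit 161) (nat_lit 1) (nat_lit 409) (nat_lit 412) (nat_lit 319)) (XT.lf (nat_lit 456) (nat_lit 2749838207) (nat_lit 0) (nat_lit 337585679) (nat_lit 380) (nat_lit 337585679) (nat_lit 157) (nat_lit 1) (nat_lit 151) (nat_lit 1) (nat_lit 156) (nat_lit 1) (nat_lit 410) (nat_lit 412) (nat_lit 318)))))) (XT.nd (nat_lit 468) (nat_lit 1292) (nat_lit 0) (XT.nd (nat_lit 234) (nat_lit 684) (nat_lit 0) (XT.nd (nat_lit 78) (nat_lit 304) (nat_lit 0) (XT.lf (nat_lit 76) (nat_lit 948933955) (nat_lit 0) (nat_lit 1501543651)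 (nat_lit 456) (nat_lit 948933955) (nat_lit 152) (nat_lit 1) (nat_lit 151) (nat_lit 1) (nat_lit 157) (nat_lit 1) (nat_lit 411) (nat_lit 412) (nat_lit 317)) (XT.nd (nat_lit 78) (nat_lit 0) (nat_lit 0) (XT.lf (nat_lit 380) (nat_lit 1052724335) (nat_lit 0) (nat_lit 1160698722) (nat_lit 304) (nat_lit 1160698722) (nat_lit 152) (nat_lit 1) (nat_lit 147) (nat_lit 1) (nat_lit 151) (nat_lit 1) (nat_lit 412) (nat_lit 412) (nat_lit 316)) (XT.lf (nat_lit 76) (nat_lit 108590259) (nat_lit 0) (nat_lit 3132010656) (nat_lit 380) (nat_lit 108590259) (nat_lit 148) (nat_lit 1) (nat_lit 147) (nat_lit 1) (nat_lit 152) (nat_lit 1) (nat_lit 413) (nat_lit 412) (nat_lit 315)))) (XT.nd (nat_lit 78) (nat_lit 304) (nat_lit 0) (XT.lf (nat_lit 76) (nat_lit 1354922219) (nat_lit 0) (nat_lit 614420098) (nat_lit 380) (nat_lit 1354922219) (nat_lit 143) (nat_lit 1) (nat_lit 142) (nat_lit 1) (nat_lit 147) (nat_lit 1) (nat_lit 414) (nat_lit 412) (nat_lit 314)) (XT.nd (nat_lit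 78) (nat_lit 0) (nat_lit 0) (XT.lf (nat_lit 380) (nat_lit 1867414916) (nat_lit 0) (nat_lit 716138498) (nat_lit 304) (nat_lit 716138498) (nat_lit 143) (nat_lit 1) (nat_lit 138) (nat_lit 1) (nat_lit 142) (nat_lit 1) (nat_lit 415) (nat_lit 412) (nat_lit 313)) (XT.lf (nat_lit 76) (nat_lit 514568316) (nat_lit 0) (nat_lit 2246221981) (nat_lit 380) (nat_lit 514568316) (nat_lit 139) (nat_lit 1) (nat_lit 138) (nat_lit 1) (nat_lit 143) (nat_lit 1) (nat_lit 416) (nat_lit 412) (nat_lit 312))))) (XT.nd (nat_lit 234) (nat_lit 608) (nat_lit 0) (XT.nd (nat_lit 78) (nat_lit 380) (nat_lit 0) (XT.lf (nat_lit 380) (nat_lit 192517404) (nat_lit 0) (nat_lit 1529347638) (nat_lit 304) (nat_lit 1529347638) (nat_lit 139) (nat_lit 1) (nat_lit 134) (nat_lit 1) (nat_lit 138) (nat_lit 1) (nat_lit 417) (nat_lit 412) (nat_lit 311)) (XT.nd (nat_lit 78) (nat_lit 0) (nat_lit 0) (XT.lf (nat_lit 380) (nat_lit 2602516801) (nat_lit 0) (nat_lit 312417249) (nat_lit 304) (nat_lit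 312417249) (nat_lit 134) (nat_lit 1) (nat_lit 129) (nat_lit 1) (nat_lit 133) (nat_lit 1) (nat_lit 418) (nat_lit 412) (nat_lit 310)) (XT.lf (nat_lit 76) (nat_lit 881506784) (nat_lit 0) (nat_lit 1440581767) (nat_lit 380) (nat_lit 881506784) (nat_lit 130) (nat_lit 1) (nat_lit 129) (nat_lit 1) (nat_lit 134) (nat_lit 1) (nat_lit 419) (nat_lit 412) (nat_lit 309)))) (XT.nd (nat_lit 78) (nat_lit 304) (nat_lit 0) (XT.lf (nat_lit 380) (nat_lit 930493672) (nat_lit 0) (nat_lit 1124812834) (nat_lit 304) (nat_lit 1124812834) (nat_lit 130) (nat_lit 1) (nat_lit 125) (nat_lit 1) (nat_lit 129) (nat_lit 1) (nat_lit 420) (nat_lit 412) (nat_lit 308)) (XT.nd (nat_lit 78) (nat_lit 304) (nat_lit 0) (XT.lf (nat_lit 76) (nat_lit 54067742) (nat_lit 0) (nat_lit 3048847348) (nat_lit 380) (nat_lit 54067742) (nat_lit 126) (nat_lit 1) (nat_lit 125) (nat_lit 1) (nat_lit 130) (nat_lit 1) (nat_lit 421) (nat_lit 412) (nat_lit 307)) (XT.lf (nat_lit 76) (nat_lit 1212537969)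 (nat_lit 0) (nat_lit 708737489) (nat_lit 304) (nat_lit 1212537969) (nat_lit 122) (nat_lit 1) (nat_lit 121) (nat_lit 1) (nat_lit 125) (nat_lit 1) (nat_lit 422) (nat_lit 412) (nat_lit 306))))))) (XT.nd (nat_lit 51636) (nat_lit 0) (nat_lit 27740) (XT.nd (nat_lit 51168) (nat_lit 0) (nat_lit 29032) (XT.nd (nat_lit 50934) (nat_lit 0) (nat_lit 28880) (XT.nd (nat_lit 78) (nat_lit 0) (nat_lit 0) (XT.lf (nat_lit 380) (nat_lit 1597512076) (nat_lit 0) (nat_lit 756733599) (nat_lit 304) (nat_lit 756733599) (nat_lit 122) (nat_lit 1) (nat_lit 117) (nat_lit 1) (nat_lit 121) (nat_lit 1) (nat_lit 423) (nat_lit 412) (nat_lit 305)) (XT.nd (nat_lit 50778) (nat_lit 0) (nat_lit 28880) (XT.lf (nat_lit 76) (nat_lit 387797702) (nat_lit 0) (nat_lit 2312790001) (nat_lit 380) (nat_lit 387797702) (nat_lit 118) (nat_lit 1) (nat_lit 117) (nat_lit 1) (nat_lit 122) (nat_lit 1) (nat_lit 424) (nat_lit 412) (nat_lit 304)) (XT.lf (nat_lit 1900) (nat_lit 1296555236) (nat_lit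 0) (nat_lit 1307397453) (nat_lit 1900) (nat_lit 1296555236) (nat_lit 522) (nat_lit 1) (nat_lit 497) (nat_lit 0) (nat_lit 522) (nat_lit 0) (nat_lit 314) (nat_lit 413) (nat_lit 413)))) (XT.nd (nat_lit 78) (nat_lit 0) (nat_lit 76) (XT.lf (nat_lit 1900) (nat_lit 5126774343) (nat_lit 76) (nat_lit 1298796154) (nat_lit 0) (nat_lit 1298796154) (nat_lit 522) (nat_lit 1) (nat_lit 498) (nat_lit 1) (nat_lit 497) (nat_lit 0) (nat_lit 315) (nat_lit 413) (nat_lit 412)) (XT.nd (nat_lit 78) (nat_lit 0) (nat_lit 0) (XT.lf (nat_lit 1900) (nat_lit 2517270606) (nat_lit 0) (nat_lit 2614013436) (nat_lit 1824) (nat_lit 2517270606) (nat_lit 523) (nat_lit 1) (nat_lit 498) (nat_lit 1) (nat_lit 522) (nat_lit 1) (nat_lit 316) (nat_lit 413) (nat_lit 411)) (XT.lf (nat_lit 1900) (nat_lit 4926919118) (nat_lit 76) (nat_lit 1323486416) (nat_lit 0) (nat_lit 1323486416) (nat_lit 523) (nat_lit 1) (nat_lit 499) (nat_lit 1) (nat_lit 498) (nat_lit 1) (nat_lit 317) (nat_lit 413)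 (nat_lit 410))))) (XT.nd (nat_lit 234) (nat_lit 0) (nat_lit 76) (XT.nd (nat_lit 78) (nat_lit 0) (nat_lit 0) (XT.lf (nat_lit 1900) (nat_lit 2394389328) (nat_lit 0) (nat_lit 2711274793) (nat_lit 1824) (nat_lit 2394389328) (nat_lit 524) (nat_lit 1) (nat_lit 499) (nat_lit 1) (nat_lit 523) (nat_lit 1) (nat_lit 318) (nat_lit 413) (nat_lit 409)) (XT.nd (nat_lit 78) (nat_lit 0) (nat_lit 76) (XT.lf (nat_lit 1900) (nat_lit 4635509498) (nat_lit 76) (nat_lit 1395901756) (nat_lit 0) (nat_lit 1395901756) (nat_lit 524) (nat_lit 1) (nat_lit 500) (nat_lit 1) (nat_lit 499) (nat_lit 1) (nat_lit 319) (nat_lit 413) (nat_lit 408)) (XT.lf (nat_lit 1900) (nat_lit 2227273439) (nat_lit 0) (nat_lit 2900850041) (nat_lit 1824) (nat_lit 2227273439) (nat_lit 525) (nat_lit 1) (nat_lit 500) (nat_lit 1) (nat_lit 524) (nat_lit 1) (nat_lit 320) (nat_lit 413) (nat_lit 407)))) (XT.nd (nat_lit 78) (nat_lit 0) (nat_lit 76) (XT.lf (nat_lit 1900) (nat_lit 4258048006) (nat_lit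 76) (nat_lit 1513234367) (nat_lit 0) (nat_lit 1513234367) (nat_lit 525) (nat_lit 1) (nat_lit 501) (nat_lit 1) (nat_lit 500) (nat_lit 1) (nat_lit 321) (nat_lit 413) (nat_lit 406)) (XT.nd (nat_lit 78) (nat_lit 0) (nat_lit 0) (XT.lf (nat_lit 1900) (nat_lit 2018601529) (nat_lit 0) (nat_lit 3177270389) (nat_lit 1824) (nat_lit 2018601529) (nat_lit 526) (nat_lit 1) (nat_lit 501) (nat_lit 1) (nat_lit 525) (nat_lit 1) (nat_lit 322) (nat_lit 413) (nat_lit 405)) (XT.lf (nat_lit 1900) (nat_lit 3799785310) (nat_lit 76) (nat_lit 1672804189) (nat_lit 0) (nat_lit 1672804189) (nat_lit 526) (nat_lit 1) (nat_lit 502) (nat_lit 1) (nat_lit 501) (nat_lit 1) (nat_lit 323) (nat_lit 413) (nat_lit 404)))))) (XT.nd (nat_lit 468) (nat_lit 1520) (nat_lit 0) (XT.nd (nat_lit 234) (nat_lit 0) (nat_lit 76) (XT.nd (nat_lit 78) (nat_lit 0) (nat_lit 0) (XT.lf (nat_lit 1900) (nat_lit 1770929335) (nat_lit 0) (nat_lit 3535316349) (nat_lit 1824) (nat_lit 1770929335) (nat_lit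 527) (nat_lit 1) (nat_lit 502) (nat_lit 1) (nat_lit 526) (nat_lit 1) (nat_lit 324) (nat_lit 413) (nat_lit 403)) (XT.nd (nat_lit 78) (nat_lit 0) (nat_lit 76) (XT.lf (nat_lit 1900) (nat_lit 3265730756) (nat_lit 76) (nat_lit 1872053582) (nat_lit 0) (nat_lit 1872053582) (nat_lit 527) (nat_lit 1) (nat_lit 503) (nat_lit 1) (nat_lit 502) (nat_lit 1) (nat_lit 325) (nat_lit 413) (nat_lit 402)) (XT.lf (nat_lit 1900) (nat_lit 1486694879) (nat_lit 0) (nat_lit 3970007332) (nat_lit 1824) (nat_lit 1486694879) (nat_lit 528) (nat_lit 1) (nat_lit 503) (nat_lit 1) (nat_lit 527) (nat_lit 1) (nat_lit 326) (nat_lit 413) (nat_lit 401)))) (XT.nd (nat_lit 78) (nat_lit 0) (nat_lit 76) (XT.lf (nat_lit 1900) (nat_lit 2660662467) (nat_lit 76) (nat_lit 2108542213) (nat_lit 0) (nat_lit 2108542213) (nat_lit 528) (nat_lit 1) (nat_lit 504) (nat_lit 1) (nat_lit 503) (nat_lit 1) (nat_lit 327) (nat_lit 413) (nat_lit 400)) (XT.nd (nat_lit 78) (nat_lit 0) (nat_lit 0) (XT.lf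 (nat_lit 1900) (nat_lit 1168223401) (nat_lit 0) (nat_lit 4476591658) (nat_lit 1824) (nat_lit 1168223401) (nat_lit 529) (nat_lit 1) (nat_lit 504) (nat_lit 1) (nat_lit 528) (nat_lit 1) (nat_lit 328) (nat_lit 413) (nat_lit 399)) (XT.lf (nat_lit 1900) (nat_lit 1989137047) (nat_lit 76) (nat_lit 2379942148) (nat_lit 0) (nat_lit 2379942148) (nat_lit 529) (nat_lit 1) (nat_lit 505) (nat_lit 1) (nat_lit 504) (nat_lit 1) (nat_lit 329) (nat_lit 413) (nat_lit 398))))) (XT.nd (nat_lit 234) (nat_lit 1748) (nat_lit 0) (XT.nd (nat_lit 78) (nat_lit 0) (nat_lit 0) (XT.lf (nat_lit 1900) (nat_lit 817732097) (nat_lit 0) (nat_lit 5050536976) (nat_lit 1824) (nat_lit 817732097) (nat_lit 530) (nat_lit 1) (nat_lit 505) (nat_lit 1) (nat_lit 529) (nat_lit 1) (nat_lit 330) (nat_lit 413) (nat_lit 397)) (XT.nd (nat_lit 78) (nat_lit 0) (nat_lit 76) (XT.lf (nat_lit 1900) (nat_lit 1255498885) (nat_lit 76) (nat_lit 2684033143) (nat_lit 0) (nat_lit 2684033143) (nat_lit 530)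 (nat_lit 1) (nat_lit 506) (nat_lit 1) (nat_lit 505) (nat_lit 1) (nat_lit 331) (nat_lit 413) (nat_lit 396)) (XT.lf (nat_lit 1900) (nat_lit 437334657) (nat_lit 0) (nat_lit 5687521063) (nat_lit 1824) (nat_lit 437334657) (nat_lit 531) (nat_lit 1) (nat_lit 506) (nat_lit 1) (nat_lit 530) (nat_lit 1) (nat_lit 332) (nat_lit 413) (nat_lit 395)))) (XT.nd (nat_lit 156) (nat_lit 1824) (nat_lit 0) (XT.nd (nat_lit 78) (nat_lit 0) (nat_lit 76) (XT.lf (nat_lit 1900) (nat_lit 463889089) (nat_lit 76) (nat_lit 3018698118) (nat_lit 0) (nat_lit 3018698118) (nat_lit 531) (nat_lit 1) (nat_lit 507) (nat_lit 1) (nat_lit 506) (nat_lit 1) (nat_lit 333) (nat_lit 413) (nat_lit 394)) (XT.lf (nat_lit 1900) (nat_lit 29045632) (nat_lit 0) (nat_lit 6383422990) (nat_lit 1824) (nat_lit 29045632) (nat_lit 532) (nat_lit 1) (nat_lit 507) (nat_lit 1) (nat_lit 531) (nat_lit 1) (nat_lit 334) (nat_lit 413) (nat_lit 393))) (XT.nd (nat_lit 78) (nat_lit 0) (nat_lit 0) (XT.lf (nat_lit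 1976) (nat_lit 3002651431) (nat_lit 0) (nat_lit 376739276) (nat_lit 1900) (nat_lit 3002651431) (nat_lit 508) (nat_lit 1) (nat_lit 482) (nat_lit 1) (nat_lit 507) (nat_lit 1) (nat_lit 335) (nat_lit 413) (nat_lit 392)) (XT.lf (nat_lit 1976) (nat_lit 5518573711) (nat_lit 76) (nat_lit 402549496) (nat_lit 0) (nat_lit 402549496) (nat_lit 508) (nat_lit 1) (nat_lit 483) (nat_lit 1) (nat_lit 482) (nat_lit 1) (nat_lit 336) (nat_lit 413) (nat_lit 391))))))))
noncomputable def ec74 : XT := (XT.nd (nat_lit 1872) (nat_lit 8512) (nat_lit 0) (XT.nd (nat_lit 936) (nat_lit 5472) (nat_lit 0) (XT.nd (nat_lit 468) (nat_lit 2736) (nat_lit 0) (XT.nd (nat_lit 234) (nat_lit 1976) (nat_lit 0) (XT.nd (nat_lit 78) (nat_lit 0) (nat_lit 0) (XT.lf (nat_lit 1976) (nat_lit 2502420711) (nat_lit 0) (nat_lit 1260889739) (nat_lit 1900) (nat_lit 2502420711) (nat_lit 509) (nat_lit 1) (nat_lit 483) (nat_lit 1) (nat_lit 508) (nat_lit 1) (nat_lit 337) (nat_lit 413) (nat_lit 390))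 (XT.nd (nat_lit 78) (nat_lit 0) (nat_lit 76) (XT.lf (nat_lit 1976) (nat_lit 4492886989) (nat_lit 76) (nat_lit 857938043) (nat_lit 0) (nat_lit 857938043) (nat_lit 509) (nat_lit 1) (nat_lit 484) (nat_lit 1) (nat_lit 483) (nat_lit 1) (nat_lit 338) (nat_lit 413) (nat_lit 389)) (XT.lf (nat_lit 76) (nat_lit 1980608330) (nat_lit 0) (nat_lit 2191111934) (nat_lit 1900) (nat_lit 1980608330) (nat_lit 485) (nat_lit 1) (nat_lit 484) (nat_lit 1) (nat_lit 509) (nat_lit 1) (nat_lit 339) (nat_lit 413) (nat_lit 388)))) (XT.nd (nat_lit 78) (nat_lit 912) (nat_lit 0) (XT.lf (nat_lit 1216) (nat_lit 3425556028) (nat_lit 0) (nat_lit 1335580996) (nat_lit 1140) (nat_lit 1335580996) (nat_lit 485) (nat_lit 1) (nat_lit 469) (nat_lit 1) (nat_lit 484) (nat_lit 1) (nat_lit 340) (nat_lit 413) (nat_lit 387)) (XT.nd (nat_lit 78) (nat_lit 912) (nat_lit 0) (XT.lf (nat_lit 76) (nat_lit 1438856372) (nat_lit 0) (nat_lit 3164040285) (nat_lit 1216) (nat_lit 1438856372) (nat_lit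 470) (nat_lit 1) (nat_lit 469) (nat_lit 1) (nat_lit 485) (nat_lit 1) (nat_lit 341) (nat_lit 413) (nat_lit 386)) (XT.lf (nat_lit 988) (nat_lit 2319795433) (nat_lit 0) (nat_lit 1833831097) (nat_lit 912) (nat_lit 1833831097) (nat_lit 470) (nat_lit 1) (nat_lit 457) (nat_lit 1) (nat_lit 469) (nat_lit 1) (nat_lit 342) (nat_lit 413) (nat_lit 385))))) (XT.nd (nat_lit 234) (nat_lit 1824) (nat_lit 0) (XT.nd (nat_lit 78) (nat_lit 912) (nat_lit 0) (XT.lf (nat_lit 76) (nat_lit 878727395) (nat_lit 0) (nat_lit 4176470815) (nat_lit 988) (nat_lit 878727395) (nat_lit 458) (nat_lit 1) (nat_lit 457) (nat_lit 1) (nat_lit 470) (nat_lit 1) (nat_lit 343) (nat_lit 413) (nat_lit 384)) (XT.nd (nat_lit 78) (nat_lit 0) (nat_lit 0) (XT.lf (nat_lit 988) (nat_lit 1178663656) (nat_lit 0) (nat_lit 2351120408) (nat_lit 912) (nat_lit 2351120408) (nat_lit 458) (nat_lit 1) (nat_lit 445) (nat_lit 1) (nat_lit 457) (nat_lit 1) (nat_lit 344) (nat_lit 413) (nat_lit 383)) (XT.lf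 (nat_lit 76) (nat_lit 301707823) (nat_lit 0) (nat_lit 5225354270) (nat_lit 988) (nat_lit 301707823) (nat_lit 446) (nat_lit 1) (nat_lit 445) (nat_lit 1) (nat_lit 458) (nat_lit 1) (nat_lit 345) (nat_lit 413) (nat_lit 382)))) (XT.nd (nat_lit 78) (nat_lit 988) (nat_lit 0) (XT.lf (nat_lit 912) (nat_lit 5069679) (nat_lit 0) (nat_lit 2885956931) (nat_lit 836) (nat_lit 2885956931) (nat_lit 446) (nat_lit 1) (nat_lit 434) (nat_lit 1) (nat_lit 445) (nat_lit 1) (nat_lit 346) (nat_lit 413) (nat_lit 381)) (XT.nd (nat_lit 78) (nat_lit 0) (nat_lit 0) (XT.lf (nat_lit 988) (nat_lit 5148308960) (nat_lit 0) (nat_lit 288875709) (nat_lit 912) (nat_lit 288875709) (nat_lit 434) (nat_lit 1) (nat_lit 421) (nat_lit 1) (nat_lit 433) (nat_lit 1) (nat_lit 347) (nat_lit 413) (nat_lit 380)) (XT.lf (nat_lit 76) (nat_lit 2246480418) (nat_lit 0) (nat_lit 1182505705) (nat_lit 988) (nat_lit 2246480418) (nat_lit 422) (nat_lit 1) (nat_lit 421) (nat_lit 1) (nat_lit 434) (nat_lit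 1) (nat_lit 348) (nat_lit 413) (nat_lit 379)))))) (XT.nd (nat_lit 468) (nat_lit 3040) (nat_lit 0) (XT.nd (nat_lit 234) (nat_lit 760) (nat_lit 0) (XT.nd (nat_lit 78) (nat_lit 836) (nat_lit 0) (XT.lf (nat_lit 912) (nat_lit 3842683034) (nat_lit 0) (nat_lit 891514581) (nat_lit 836) (nat_lit 891514581) (nat_lit 422) (nat_lit 1) (nat_lit 410) (nat_lit 1) (nat_lit 421) (nat_lit 1) (nat_lit 349) (nat_lit 413) (nat_lit 378)) (XT.nd (nat_lit 78) (nat_lit 836) (nat_lit 0) (XT.lf (nat_lit 76) (nat_lit 1589853772) (nat_lit 0) (nat_lit 2396726899) (nat_lit 912) (nat_lit 1589853772) (nat_lit 411) (nat_lit 1) (nat_lit 410) (nat_lit 1) (nat_lit 422) (nat_lit 1) (nat_lit 350) (nat_lit 413) (nat_lit 377)) (XT.lf (nat_lit 912) (nat_lit 2513963634) (nat_lit 0) (nat_lit 1506925055) (nat_lit 836) (nat_lit 1506925055) (nat_lit 411) (nat_lit 1) (nat_lit 399) (nat_lit 1) (nat_lit 410) (nat_lit 1) (nat_lit 351) (nat_lit 413) (nat_lit 376)))) (XT.nd (nat_lit 78)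 (nat_lit 760) (nat_lit 0) (XT.lf (nat_lit 76) (nat_lit 922312380) (nat_lit 0) (nat_lit 3635195188) (nat_lit 912) (nat_lit 922312380) (nat_lit 400) (nat_lit 1) (nat_lit 399) (nat_lit 1) (nat_lit 411) (nat_lit 1) (nat_lit 352) (nat_lit 413) (nat_lit 375)) (XT.nd (nat_lit 78) (nat_lit 0) (nat_lit 0) (XT.lf (nat_lit 836) (nat_lit 1164494420) (nat_lit 0) (nat_lit 2133901924) (nat_lit 760) (nat_lit 2133901924) (nat_lit 400) (nat_lit 1) (nat_lit 389) (nat_lit 1) (nat_lit 399) (nat_lit 1) (nat_lit 353) (nat_lit 413) (nat_lit 374)) (XT.lf (nat_lit 76) (nat_lit 244994042) (nat_lit 0) (nat_lit 4895569088) (nat_lit 836) (nat_lit 244994042) (nat_lit 390) (nat_lit 1) (nat_lit 389) (nat_lit 1) (nat_lit 400) (nat_lit 1) (nat_lit 354) (nat_lit 413) (nat_lit 373))))) (XT.nd (nat_lit 234) (nat_lit 1444) (nat_lit 0) (XT.nd (nat_lit 78) (nat_lit 760) (nat_lit 0) (XT.lf (nat_lit 76) (nat_lit 2569121620) (nat_lit 0) (nat_lit 200831382) (nat_lit 836) (nat_lit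 2569121620) (nat_lit 379) (nat_lit 1) (nat_lit 378) (nat_lit 1) (nat_lit 389) (nat_lit 1) (nat_lit 355) (nat_lit 413) (nat_lit 372)) (XT.nd (nat_lit 78) (nat_lit 0) (nat_lit 0) (XT.lf (nat_lit 836) (nat_lit 4417112085) (nat_lit 0) (nat_lit 438120162) (nat_lit 760) (nat_lit 438120162) (nat_lit 379) (nat_lit 1) (nat_lit 368) (nat_lit 1) (nat_lit 378) (nat_lit 1) (nat_lit 356) (nat_lit 413) (nat_lit 371)) (XT.lf (nat_lit 76) (nat_lit 1840434179) (nat_lit 0) (nat_lit 1567084776) (nat_lit 836) (nat_lit 1840434179) (nat_lit 369) (nat_lit 1) (nat_lit 368) (nat_lit 1) (nat_lit 379) (nat_lit 1) (nat_lit 357) (nat_lit 413) (nat_lit 370)))) (XT.nd (nat_lit 78) (nat_lit 684) (nat_lit 0) (XT.lf (nat_lit 836) (nat_lit 2948751015) (nat_lit 0) (nat_lit 1127245437) (nat_lit 760) (nat_lit 1127245437) (nat_lit 369) (nat_lit 1) (nat_lit 358) (nat_lit 1) (nat_lit 368) (nat_lit 1) (nat_lit 358) (nat_lit 413) (nat_lit 369)) (XT.nd (nat_lit 78) (nat_lit 684)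 (nat_lit 0) (XT.lf (nat_lit 76) (nat_lit 1105730380) (nat_lit 0) (nat_lit 2947563668) (nat_lit 836) (nat_lit 1105730380) (nat_lit 359) (nat_lit 1) (nat_lit 358) (nat_lit 1) (nat_lit 369) (nat_lit 1) (nat_lit 359) (nat_lit 413) (nat_lit 368)) (XT.lf (nat_lit 760) (nat_lit 1469235313) (nat_lit 0) (nat_lit 1823029217) (nat_lit 684) (nat_lit 1823029217) (nat_lit 359) (nat_lit 1) (nat_lit 349) (nat_lit 1) (nat_lit 358) (nat_lit 1) (nat_lit 360) (nat_lit 413) (nat_lit 367))))))) (XT.nd (nat_lit 936) (nat_lit 3876) (nat_lit 0) (XT.nd (nat_lit 468) (nat_lit 2508) (nat_lit 0) (XT.nd (nat_lit 234) (nat_lit 684) (nat_lit 0) (XT.nd (nat_lit 78) (nat_lit 1444) (nat_lit 0) (XT.lf (nat_lit 76) (nat_lit 365916634) (nat_lit 0) (nat_lit 4340396473) (nat_lit 760) (nat_lit 365916634) (nat_lit 350) (nat_lit 1) (nat_lit 349) (nat_lit 1) (nat_lit 359) (nat_lit 1) (nat_lit 361) (nat_lit 413) (nat_lit 366)) (XT.nd (nat_lit 78) (nat_lit 684) (nat_lit 0) (XT.lf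 (nat_lit 76) (nat_lit 2505020217) (nat_lit 0) (nat_lit 19407237) (nat_lit 760) (nat_lit 2505020217) (nat_lit 340) (nat_lit 1) (nat_lit 339) (nat_lit 1) (nat_lit 349) (nat_lit 1) (nat_lit 362) (nat_lit 413) (nat_lit 365)) (XT.lf (nat_lit 760) (nat_lit 4235992572) (nat_lit 0) (nat_lit 375661214) (nat_lit 684) (nat_lit 375661214) (nat_lit 340) (nat_lit 1) (nat_lit 330) (nat_lit 1) (nat_lit 339) (nat_lit 1) (nat_lit 363) (nat_lit 413) (nat_lit 364)))) (XT.nd (nat_lit 78) (nat_lit 684) (nat_lit 0) (XT.lf (nat_lit 76) (nat_lit 1724534594) (nat_lit 0) (nat_lit 1496389214) (nat_lit 760) (nat_lit 1724534594) (nat_lit 331) (nat_lit 1) (nat_lit 330) (nat_lit 1) (nat_lit 340) (nat_lit 1) (nat_lit 364) (nat_lit 413) (nat_lit 363)) (XT.nd (nat_lit 78) (nat_lit 0) (nat_lit 0) (XT.lf (nat_lit 760) (nat_lit 2667731009) (nat_lit 0) (nat_lit 1118249240) (nat_lit 684) (nat_lit 1118249240) (nat_lit 331) (nat_lit 1) (nat_lit 321) (nat_lit 1) (nat_lit 330)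 (nat_lit 1) (nat_lit 365) (nat_lit 413) (nat_lit 362)) (XT.lf (nat_lit 76) (nat_lit 942023046) (nat_lit 0) (nat_lit 2979416479) (nat_lit 760) (nat_lit 942023046) (nat_lit 322) (nat_lit 1) (nat_lit 321) (nat_lit 1) (nat_lit 331) (nat_lit 1) (nat_lit 366) (nat_lit 413) (nat_lit 361))))) (XT.nd (nat_lit 234) (nat_lit 1216) (nat_lit 0) (XT.nd (nat_lit 78) (nat_lit 684) (nat_lit 0) (XT.lf (nat_lit 684) (nat_lit 1096126124) (nat_lit 0) (nat_lit 1863492270) (nat_lit 608) (nat_lit 1863492270) (nat_lit 322) (nat_lit 1) (nat_lit 313) (nat_lit 1) (nat_lit 321) (nat_lit 1) (nat_lit 367) (nat_lit 413) (nat_lit 360)) (XT.nd (nat_lit 78) (nat_lit 684) (nat_lit 0) (XT.lf (nat_lit 76) (nat_lit 158198226) (nat_lit 0) (nat_lit 4467011184) (nat_lit 684) (nat_lit 158198226) (nat_lit 314) (nat_lit 1) (nat_lit 313) (nat_lit 1) (nat_lit 322) (nat_lit 1) (nat_lit 368) (nat_lit 413) (nat_lit 359)) (XT.lf (nat_lit 76) (nat_lit 2136336922) (nat_lit 0) (nat_lit 471171017)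 (nat_lit 684) (nat_lit 2136336922) (nat_lit 305) (nat_lit 1) (nat_lit 304) (nat_lit 1) (nat_lit 313) (nat_lit 1) (nat_lit 369) (nat_lit 413) (nat_lit 358)))) (XT.nd (nat_lit 78) (nat_lit 608) (nat_lit 0) (XT.lf (nat_lit 684) (nat_lit 3460621942) (nat_lit 0) (nat_lit 622147138) (nat_lit 608) (nat_lit 622147138) (nat_lit 305) (nat_lit 1) (nat_lit 296) (nat_lit 1) (nat_lit 304) (nat_lit 1) (nat_lit 370) (nat_lit 413) (nat_lit 357)) (XT.nd (nat_lit 78) (nat_lit 608) (nat_lit 0) (XT.lf (nat_lit 76) (nat_lit 1320787300) (nat_lit 0) (nat_lit 2024726910) (nat_lit 684) (nat_lit 1320787300) (nat_lit 297) (nat_lit 1) (nat_lit 296) (nat_lit 1) (nat_lit 305) (nat_lit 1) (nat_lit 371) (nat_lit 413) (nat_lit 356)) (XT.lf (nat_lit 684) (nat_lit 1825266438) (nat_lit 0) (nat_lit 1401458163) (nat_lit 608) (nat_lit 1401458163) (nat_lit 297) (nat_lit 1) (nat_lit 288) (nat_lit 1) (nat_lit 296) (nat_lit 1) (nat_lit 372) (nat_lit 413) (nat_lit 355)))))) (XT.nd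 (nat_lit 468) (nat_lit 2128) (nat_lit 0) (XT.nd (nat_lit 234) (nat_lit 532) (nat_lit 0) (XT.nd (nat_lit 78) (nat_lit 1216) (nat_lit 0) (XT.lf (nat_lit 76) (nat_lit 506438230) (nat_lit 0) (nat_lit 3577697967) (nat_lit 684) (nat_lit 506438230) (nat_lit 289) (nat_lit 1) (nat_lit 288) (nat_lit 1) (nat_lit 297) (nat_lit 1) (nat_lit 373) (nat_lit 413) (nat_lit 354)) (XT.nd (nat_lit 78) (nat_lit 684) (nat_lit 0) (XT.lf (nat_lit 608) (nat_lit 192878212) (nat_lit 0) (nat_lit 2180181889) (nat_lit 532) (nat_lit 2180181889) (nat_lit 289) (nat_lit 1) (nat_lit 281) (nat_lit 1) (nat_lit 288) (nat_lit 1) (nat_lit 374) (nat_lit 413) (nat_lit 353)) (XT.lf (nat_lit 684) (nat_lit 3908166395) (nat_lit 0) (nat_lit 304145281) (nat_lit 608) (nat_lit 304145281) (nat_lit 281) (nat_lit 1) (nat_lit 272) (nat_lit 1) (nat_lit 280) (nat_lit 1) (nat_lit 375) (nat_lit 413) (nat_lit 352)))) (XT.nd (nat_lit 78) (nat_lit 532) (nat_lit 0) (XT.lf (nat_lit 76) (nat_lit 1531608317)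 (nat_lit 0) (nat_lit 1416644524) (nat_lit 684) (nat_lit 1531608317) (nat_lit 273) (nat_lit 1) (nat_lit 272) (nat_lit 1) (nat_lit 281) (nat_lit 1) (nat_lit 376) (nat_lit 413) (nat_lit 351)) (XT.nd (nat_lit 78) (nat_lit 0) (nat_lit 0) (XT.lf (nat_lit 608) (nat_lit 2225514487) (nat_lit 0) (nat_lit 1109142846) (nat_lit 532) (nat_lit 1109142846) (nat_lit 273) (nat_lit 1) (nat_lit 265) (nat_lit 1) (nat_lit 272) (nat_lit 1) (nat_lit 377) (nat_lit 413) (nat_lit 350)) (XT.lf (nat_lit 76) (nat_lit 694749682) (nat_lit 0) (nat_lit 3018657922) (nat_lit 608) (nat_lit 694749682) (nat_lit 266) (nat_lit 1) (nat_lit 265) (nat_lit 1) (nat_lit 273) (nat_lit 1) (nat_lit 378) (nat_lit 413) (nat_lit 349))))) (XT.nd (nat_lit 234) (nat_lit 988) (nat_lit 0) (XT.nd (nat_lit 78) (nat_lit 608) (nat_lit 0) (XT.lf (nat_lit 608) (nat_lit 550017104) (nat_lit 0) (nat_lit 1911403383) (nat_lit 532) (nat_lit 1911403383) (nat_lit 266) (nat_lit 1) (nat_lit 258) (nat_lit 1)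 (nat_lit 265) (nat_lit 1) (nat_lit 379) (nat_lit 413) (nat_lit 348)) (XT.nd (nat_lit 78) (nat_lit 0) (nat_lit 0) (XT.lf (nat_lit 608) (nat_lit 4063212587) (nat_lit 0) (nat_lit 137413584) (nat_lit 532) (nat_lit 137413584) (nat_lit 258) (nat_lit 1) (nat_lit 250) (nat_lit 1) (nat_lit 257) (nat_lit 1) (nat_lit 380) (nat_lit 413) (nat_lit 347)) (XT.lf (nat_lit 76) (nat_lit 1600266537) (nat_lit 0) (nat_lit 1102806966) (nat_lit 608) (nat_lit 1600266537) (nat_lit 251) (nat_lit 1) (nat_lit 250) (nat_lit 1) (nat_lit 258) (nat_lit 1) (nat_lit 381) (nat_lit 413) (nat_lit 346)))) (XT.nd (nat_lit 78) (nat_lit 456) (nat_lit 0) (XT.lf (nat_lit 608) (nat_lit 2347513539) (nat_lit 0) (nat_lit 960832457) (nat_lit 532) (nat_lit 960832457) (nat_lit 251) (nat_lit 1) (nat_lit 243) (nat_lit 1) (nat_lit 250) (nat_lit 1) (nat_lit 382) (nat_lit 413) (nat_lit 345)) (XT.nd (nat_lit 78) (nat_lit 456) (nat_lit 0) (XT.lf (nat_lit 76) (nat_lit 747836714) (nat_lit 0) (nat_lit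 2739708438) (nat_lit 608) (nat_lit 747836714) (nat_lit 244) (nat_lit 1) (nat_lit 243) (nat_lit 1) (nat_lit 251) (nat_lit 1) (nat_lit 383) (nat_lit 413) (nat_lit 344)) (XT.lf (nat_lit 532) (nat_lit 642511667) (nat_lit 0) (nat_lit 1779691435) (nat_lit 456) (nat_lit 1779691435) (nat_lit 244) (nat_lit 1) (nat_lit 237) (nat_lit 1) (nat_lit 243) (nat_lit 1) (nat_lit 384) (nat_lit 413) (nat_lit 343))))))))
noncomputable def ec75 : XT := (XT.nd (nat_lit 1872) (nat_lit 2888) (nat_lit 0) (XT.nd (nat_lit 936) (nat_lit 3116) (nat_lit 0) (XT.nd (nat_lit 468) (nat_lit 1368) (nat_lit 0) (XT.nd (nat_lit 234) (nat_lit 988) (nat_lit 0) (XT.nd (nat_lit 78) (nat_lit 456) (nat_lit 0) (XT.lf (nat_lit 608) (nat_lit 3972056070) (nat_lit 0) (nat_lit 98436341) (nat_lit 532) (nat_lit 98436341) (nat_lit 237) (nat_lit 1) (nat_lit 229) (nat_lit 1) (nat_lit 236) (nat_lit 1) (nat_lit 385) (nat_lit 413) (nat_lit 342)) (XT.nd (nat_lit 78) (nat_lit 456) (nat_lit 0) (XT.lf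 (nat_lit 76) (nat_lit 1549342731) (nat_lit 0) (nat_lit 1037326311) (nat_lit 608) (nat_lit 1549342731) (nat_lit 230) (nat_lit 1) (nat_lit 229) (nat_lit 1) (nat_lit 237) (nat_lit 1) (nat_lit 386) (nat_lit 413) (nat_lit 341)) (XT.lf (nat_lit 532) (nat_lit 2235615252) (nat_lit 0) (nat_lit 933995579) (nat_lit 456) (nat_lit 933995579) (nat_lit 230) (nat_lit 1) (nat_lit 223) (nat_lit 1) (nat_lit 229) (nat_lit 1) (nat_lit 387) (nat_lit 413) (nat_lit 340)))) (XT.nd (nat_lit 78) (nat_lit 988) (nat_lit 0) (XT.lf (nat_lit 76) (nat_lit 687331295) (nat_lit 0) (nat_lit 2696883557) (nat_lit 532) (nat_lit 687331295) (nat_lit 224) (nat_lit 1) (nat_lit 223) (nat_lit 1) (nat_lit 230) (nat_lit 1) (nat_lit 388) (nat_lit 413) (nat_lit 339)) (XT.nd (nat_lit 78) (nat_lit 532) (nat_lit 0) (XT.lf (nat_lit 532) (nat_lit 512848696) (nat_lit 0) (nat_lit 1763458961) (nat_lit 456) (nat_lit 1763458961) (nat_lit 224) (nat_lit 1) (nat_lit 217) (nat_lit 1) (nat_lit 223)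 (nat_lit 1) (nat_lit 389) (nat_lit 413) (nat_lit 338)) (XT.lf (nat_lit 532) (nat_lit 3675199972) (nat_lit 0) (nat_lit 166628119) (nat_lit 456) (nat_lit 166628119) (nat_lit 217) (nat_lit 1) (nat_lit 210) (nat_lit 1) (nat_lit 216) (nat_lit 1) (nat_lit 390) (nat_lit 413) (nat_lit 337))))) (XT.nd (nat_lit 234) (nat_lit 912) (nat_lit 0) (XT.nd (nat_lit 78) (nat_lit 456) (nat_lit 0) (XT.lf (nat_lit 76) (nat_lit 1398589353) (nat_lit 0) (nat_lit 1180038498) (nat_lit 532) (nat_lit 1398589353) (nat_lit 211) (nat_lit 1) (nat_lit 210) (nat_lit 1) (nat_lit 217) (nat_lit 1) (nat_lit 391) (nat_lit 413) (nat_lit 336)) (XT.nd (nat_lit 78) (nat_lit 0) (nat_lit 0) (XT.lf (nat_lit 532) (nat_lit 1928610134) (nat_lit 0) (nat_lit 1008914186) (nat_lit 456) (nat_lit 1008914186) (nat_lit 211) (nat_lit 1) (nat_lit 204) (nat_lit 1) (nat_lit 210) (nat_lit 1) (nat_lit 392) (nat_lit 413) (nat_lit 335)) (XT.lf (nat_lit 76) (nat_lit 532150032) (nat_lit 0) (nat_lit 2851712810)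 (nat_lit 532) (nat_lit 532150032) (nat_lit 205) (nat_lit 1) (nat_lit 204) (nat_lit 1) (nat_lit 211) (nat_lit 1) (nat_lit 393) (nat_lit 413) (nat_lit 334)))) (XT.nd (nat_lit 78) (nat_lit 532) (nat_lit 0) (XT.lf (nat_lit 456) (nat_lit 198175983) (nat_lit 0) (nat_lit 1843819986) (nat_lit 380) (nat_lit 1843819986) (nat_lit 205) (nat_lit 1) (nat_lit 199) (nat_lit 1) (nat_lit 204) (nat_lit 1) (nat_lit 394) (nat_lit 413) (nat_lit 333)) (XT.nd (nat_lit 78) (nat_lit 0) (nat_lit 0) (XT.lf (nat_lit 532) (nat_lit 3208029034) (nat_lit 0) (nat_lit 323993198) (nat_lit 456) (nat_lit 323993198) (nat_lit 199) (nat_lit 1) (nat_lit 192) (nat_lit 1) (nat_lit 198) (nat_lit 1) (nat_lit 395) (nat_lit 413) (nat_lit 332)) (XT.lf (nat_lit 76) (nat_lit 1165259784) (nat_lit 0) (nat_lit 1495837858) (nat_lit 532) (nat_lit 1165259784) (nat_lit 193) (nat_lit 1) (nat_lit 192) (nat_lit 1) (nat_lit 199) (nat_lit 1) (nat_lit 396) (nat_lit 413) (nat_lit 331)))))) (XT.nd (nat_lit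 468) (nat_lit 1520) (nat_lit 0) (XT.nd (nat_lit 234) (nat_lit 760) (nat_lit 0) (XT.nd (nat_lit 78) (nat_lit 456) (nat_lit 0) (XT.lf (nat_lit 456) (nat_lit 1460375132) (nat_lit 0) (nat_lit 1168356429) (nat_lit 380) (nat_lit 1168356429) (nat_lit 193) (nat_lit 1) (nat_lit 187) (nat_lit 1) (nat_lit 192) (nat_lit 1) (nat_lit 397) (nat_lit 413) (nat_lit 330)) (XT.nd (nat_lit 78) (nat_lit 456) (nat_lit 0) (XT.lf (nat_lit 76) (nat_lit 298810496) (nat_lit 0) (nat_lit 3170581838) (nat_lit 456) (nat_lit 298810496) (nat_lit 188) (nat_lit 1) (nat_lit 187) (nat_lit 1) (nat_lit 193) (nat_lit 1) (nat_lit 398) (nat_lit 413) (nat_lit 329)) (XT.lf (nat_lit 76) (nat_lit 1736946795) (nat_lit 0) (nat_lit 265546514) (nat_lit 456) (nat_lit 1736946795) (nat_lit 182) (nat_lit 1) (nat_lit 181) (nat_lit 1) (nat_lit 187) (nat_lit 1) (nat_lit 399) (nat_lit 413) (nat_lit 328)))) (XT.nd (nat_lit 78) (nat_lit 380) (nat_lit 0) (XT.lf (nat_lit 456) (nat_lit 2601407119)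 (nat_lit 0) (nat_lit 554823653) (nat_lit 380) (nat_lit 554823653) (nat_lit 182) (nat_lit 1) (nat_lit 176) (nat_lit 1) (nat_lit 181) (nat_lit 1) (nat_lit 400) (nat_lit 413) (nat_lit 327)) (XT.nd (nat_lit 78) (nat_lit 380) (nat_lit 0) (XT.lf (nat_lit 76) (nat_lit 864400181) (nat_lit 0) (nat_lit 1954087164) (nat_lit 456) (nat_lit 864400181) (nat_lit 177) (nat_lit 1) (nat_lit 176) (nat_lit 1) (nat_lit 182) (nat_lit 1) (nat_lit 401) (nat_lit 413) (nat_lit 326)) (XT.lf (nat_lit 456) (nat_lit 860447707) (nat_lit 0) (nat_lit 1397286569) (nat_lit 380) (nat_lit 1397286569) (nat_lit 177) (nat_lit 1) (nat_lit 171) (nat_lit 1) (nat_lit 176) (nat_lit 1) (nat_lit 402) (nat_lit 413) (nat_lit 325))))) (XT.nd (nat_lit 234) (nat_lit 760) (nat_lit 0) (XT.nd (nat_lit 78) (nat_lit 760) (nat_lit 0) (XT.lf (nat_lit 76) (nat_lit 1711622) (nat_lit 0) (nat_lit 3624165592) (nat_lit 456) (nat_lit 1711622) (nat_lit 172) (nat_lit 1) (nat_lit 171) (nat_lit 1) (nat_lit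 177) (nat_lit 1) (nat_lit 403) (nat_lit 413) (nat_lit 324)) (XT.nd (nat_lit 78) (nat_lit 380) (nat_lit 0) (XT.lf (nat_lit 76) (nat_lit 1375381439) (nat_lit 0) (nat_lit 849352562) (nat_lit 380) (nat_lit 1375381439) (nat_lit 167) (nat_lit 1) (nat_lit 166) (nat_lit 1) (nat_lit 171) (nat_lit 1) (nat_lit 404) (nat_lit 413) (nat_lit 323)) (XT.lf (nat_lit 456) (nat_lit 1882206823) (nat_lit 0) (nat_lit 845431738) (nat_lit 380) (nat_lit 845431738) (nat_lit 167) (nat_lit 1) (nat_lit 161) (nat_lit 1) (nat_lit 166) (nat_lit 1) (nat_lit 405) (nat_lit 413) (nat_lit 322)))) (XT.nd (nat_lit 78) (nat_lit 760) (nat_lit 0) (XT.lf (nat_lit 76) (nat_lit 509108165) (nat_lit 0) (nat_lit 2528094711) (nat_lit 456) (nat_lit 509108165) (nat_lit 162) (nat_lit 1) (nat_lit 161) (nat_lit 1) (nat_lit 167) (nat_lit 1) (nat_lit 406) (nat_lit 413) (nat_lit 321)) (XT.nd (nat_lit 78) (nat_lit 456) (nat_lit 0) (XT.lf (nat_lit 380) (nat_lit 154534628) (nat_lit 0) (nat_lit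 1682607863) (nat_lit 304) (nat_lit 1682607863) (nat_lit 162) (nat_lit 1) (nat_lit 157) (nat_lit 1) (nat_lit 161) (nat_lit 1) (nat_lit 407) (nat_lit 413) (nat_lit 320)) (XT.lf (nat_lit 456) (nat_lit 2804834972) (nat_lit 0) (nat_lit 344337393) (nat_lit 380) (nat_lit 344337393) (nat_lit 157) (nat_lit 1) (nat_lit 151) (nat_lit 1) (nat_lit 156) (nat_lit 1) (nat_lit 408) (nat_lit 413) (nat_lit 319))))))) (XT.nd (nat_lit 936) (nat_lit 608) (nat_lit 0) (XT.nd (nat_lit 468) (nat_lit 1292) (nat_lit 0) (XT.nd (nat_lit 234) (nat_lit 684) (nat_lit 0) (XT.nd (nat_lit 78) (nat_lit 304) (nat_lit 0) (XT.lf (nat_lit 76) (nat_lit 967912634) (nat_lit 0) (nat_lit 1531574524) (nat_lit 456) (nat_lit 967912634) (nat_lit 152) (nat_lit 1) (nat_lit 151) (nat_lit 1) (nat_lit 157) (nat_lit 1) (nat_lit 409) (nat_lit 413) (nat_lit 318)) (XT.nd (nat_lit 78) (nat_lit 0) (nat_lit 0) (XT.lf (nat_lit 380) (nat_lit 1073778822) (nat_lit 0) (nat_lit 1183912696) (nat_lit 304)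 (nat_lit 1183912696) (nat_lit 152) (nat_lit 1) (nat_lit 147) (nat_lit 1) (nat_lit 151) (nat_lit 1) (nat_lit 410) (nat_lit 413) (nat_lit 317)) (XT.lf (nat_lit 76) (nat_lit 110762064) (nat_lit 0) (nat_lit 3194650869) (nat_lit 380) (nat_lit 110762064) (nat_lit 148) (nat_lit 1) (nat_lit 147) (nat_lit 1) (nat_lit 152) (nat_lit 1) (nat_lit 411) (nat_lit 413) (nat_lit 316)))) (XT.nd (nat_lit 78) (nat_lit 304) (nat_lit 0) (XT.lf (nat_lit 76) (nat_lit 1382020663) (nat_lit 0) (nat_lit 626708500) (nat_lit 380) (nat_lit 1382020663) (nat_lit 143) (nat_lit 1) (nat_lit 142) (nat_lit 1) (nat_lit 147) (nat_lit 1) (nat_lit 412) (nat_lit 413) (nat_lit 315)) (XT.nd (nat_lit 78) (nat_lit 0) (nat_lit 0) (XT.lf (nat_lit 380) (nat_lit 1904763214) (nat_lit 0) (nat_lit 730461268) (nat_lit 304) (nat_lit 730461268) (nat_lit 143) (nat_lit 1) (nat_lit 138) (nat_lit 1) (nat_lit 142) (nat_lit 1) (nat_lit 413) (nat_lit 413) (nat_lit 314)) (XT.lf (nat_lit 76) (nat_lit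 524859683) (nat_lit 0) (nat_lit 2291146420) (nat_lit 380) (nat_lit 524859683) (nat_lit 139) (nat_lit 1) (nat_lit 138) (nat_lit 1) (nat_lit 143) (nat_lit 1) (nat_lit 414) (nat_lit 413) (nat_lit 313))))) (XT.nd (nat_lit 234) (nat_lit 608) (nat_lit 0) (XT.nd (nat_lit 78) (nat_lit 380) (nat_lit 0) (XT.lf (nat_lit 380) (nat_lit 196367752) (nat_lit 0) (nat_lit 1559934590) (nat_lit 304) (nat_lit 1559934590) (nat_lit 139) (nat_lit 1) (nat_lit 134) (nat_lit 1) (nat_lit 138) (nat_lit 1) (nat_lit 415) (nat_lit 413) (nat_lit 312)) (XT.nd (nat_lit 78) (nat_lit 0) (nat_lit 0) (XT.lf (nat_lit 380) (nat_lit 2654567137) (nat_lit 0) (nat_lit 318665594) (nat_lit 304) (nat_lit 318665594) (nat_lit 134) (nat_lit 1) (nat_lit 129) (nat_lit 1) (nat_lit 133) (nat_lit 1) (nat_lit 416) (nat_lit 413) (nat_lit 311)) (XT.lf (nat_lit 76) (nat_lit 899136919) (nat_lit 0) (nat_lit 1469393403) (nat_lit 380) (nat_lit 899136919) (nat_lit 130) (nat_lit 1) (nat_lit 129) (nat_lit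 1) (nat_lit 134) (nat_lit 1) (nat_lit 417) (nat_lit 413) (nat_lit 310)))) (XT.nd (nat_lit 78) (nat_lit 304) (nat_lit 0) (XT.lf (nat_lit 380) (nat_lit 949103545) (nat_lit 0) (nat_lit 1147309091) (nat_lit 304) (nat_lit 1147309091) (nat_lit 130) (nat_lit 1) (nat_lit 125) (nat_lit 1) (nat_lit 129) (nat_lit 1) (nat_lit 418) (nat_lit 413) (nat_lit 309)) (XT.nd (nat_lit 78) (nat_lit 304) (nat_lit 0) (XT.lf (nat_lit 76) (nat_lit 55149097) (nat_lit 0) (nat_lit 3109824295) (nat_lit 380) (nat_lit 55149097) (nat_lit 126) (nat_lit 1) (nat_lit 125) (nat_lit 1) (nat_lit 130) (nat_lit 1) (nat_lit 419) (nat_lit 413) (nat_lit 308)) (XT.lf (nat_lit 76) (nat_lit 1236788729) (nat_lit 0) (nat_lit 722912238) (nat_lit 304) (nat_lit 1236788729) (nat_lit 122) (nat_lit 1) (nat_lit 121) (nat_lit 1) (nat_lit 125) (nat_lit 1) (nat_lit 420) (nat_lit 413) (nat_lit 307)))))) (XT.nd (nat_lit 51090) (nat_lit 0) (nat_lit 29260) (XT.nd (nat_lit 50856) (nat_lit 0) (nat_lit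 29184) (XT.nd (nat_lit 78) (nat_lit 304) (nat_lit 0) (XT.lf (nat_lit 380) (nat_lit 1629462317) (nat_lit 0) (nat_lit 771868271) (nat_lit 304) (nat_lit 771868271) (nat_lit 122) (nat_lit 1) (nat_lit 117) (nat_lit 1) (nat_lit 121) (nat_lit 1) (nat_lit 421) (nat_lit 413) (nat_lit 306)) (XT.nd (nat_lit 78) (nat_lit 304) (nat_lit 0) (XT.lf (nat_lit 76) (nat_lit 395553656) (nat_lit 0) (nat_lit 2359045801) (nat_lit 380) (nat_lit 395553656) (nat_lit 118) (nat_lit 1) (nat_lit 117) (nat_lit 1) (nat_lit 122) (nat_lit 1) (nat_lit 422) (nat_lit 413) (nat_lit 305)) (XT.lf (nat_lit 76) (nat_lit 1540763569) (nat_lit 0) (nat_lit 45721777) (nat_lit 304) (nat_lit 1540763569) (nat_lit 114) (nat_lit 1) (nat_lit 113) (nat_lit 1) (nat_lit 117) (nat_lit 1) (nat_lit 423) (nat_lit 413) (nat_lit 304)))) (XT.nd (nat_lit 78) (nat_lit 0) (nat_lit 0) (XT.lf (nat_lit 1900) (nat_lit 1322486341) (nat_lit 0) (nat_lit 1333545402) (nat_lit 1900) (nat_lit 1322486341) (nat_lit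 522) (nat_lit 1) (nat_lit 497) (nat_lit 0) (nat_lit 522) (nat_lit 0) (nat_lit 312) (nat_lit 414) (nat_lit 414)) (XT.nd (nat_lit 78) (nat_lit 0) (nat_lit 76) (XT.lf (nat_lit 1900) (nat_lit 5229309830) (nat_lit 76) (nat_lit 1324772077) (nat_lit 0) (nat_lit 1324772077) (nat_lit 522) (nat_lit 1) (nat_lit 498) (nat_lit 1) (nat_lit 497) (nat_lit 0) (nat_lit 313) (nat_lit 414) (nat_lit 413)) (XT.lf (nat_lit 1900) (nat_lit 2567616018) (nat_lit 0) (nat_lit 2666293705) (nat_lit 1824) (nat_lit 2567616018) (nat_lit 523) (nat_lit 1) (nat_lit 498) (nat_lit 1) (nat_lit 522) (nat_lit 1) (nat_lit 314) (nat_lit 414) (nat_lit 412))))) (XT.nd (nat_lit 234) (nat_lit 0) (nat_lit 152) (XT.nd (nat_lit 78) (nat_lit 0) (nat_lit 76) (XT.lf (nat_lit 1900) (nat_lit 5025457500) (nat_lit 76) (nat_lit 1349956144) (nat_lit 0) (nat_lit 1349956144) (nat_lit 523) (nat_lit 1) (nat_lit 499) (nat_lit 1) (nat_lit 498) (nat_lit 1) (nat_lit 315) (nat_lit 414) (nat_lit 411)) (XT.nd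 (nat_lit 78) (nat_lit 0) (nat_lit 0) (XT.lf (nat_lit 1900) (nat_lit 2442277115) (nat_lit 0) (nat_lit 2765500289) (nat_lit 1824) (nat_lit 2442277115) (nat_lit 524) (nat_lit 1) (nat_lit 499) (nat_lit 1) (nat_lit 523) (nat_lit 1) (nat_lit 316) (nat_lit 414) (nat_lit 410)) (XT.lf (nat_lit 1900) (nat_lit 4728219688) (nat_lit 76) (nat_lit 1423819791) (nat_lit 0) (nat_lit 1423819791) (nat_lit 524) (nat_lit 1) (nat_lit 500) (nat_lit 1) (nat_lit 499) (nat_lit 1) (nat_lit 317) (nat_lit 414) (nat_lit 409)))) (XT.nd (nat_lit 156) (nat_lit 0) (nat_lit 76) (XT.nd (nat_lit 78) (nat_lit 0) (nat_lit 0) (XT.lf (nat_lit 1900) (nat_lit 2271818908) (nat_lit 0) (nat_lit 2958867042) (nat_lit 1824) (nat_lit 2271818908) (nat_lit 525) (nat_lit 1) (nat_lit 500) (nat_lit 1) (nat_lit 524) (nat_lit 1) (nat_lit 318) (nat_lit 414) (nat_lit 408)) (XT.lf (nat_lit 1900) (nat_lit 4343208966) (nat_lit 76) (nat_lit 1543499055) (nat_lit 0) (nat_lit 1543499055) (nat_lit 525)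 (nat_lit 1) (nat_lit 501) (nat_lit 1) (nat_lit 500) (nat_lit 1) (nat_lit 319) (nat_lit 414) (nat_lit 407))) (XT.nd (nat_lit 78) (nat_lit 0) (nat_lit 0) (XT.lf (nat_lit 1900) (nat_lit 2058973560) (nat_lit 0) (nat_lit 3240815797) (nat_lit 1824) (nat_lit 2058973560) (nat_lit 526) (nat_lit 1) (nat_lit 501) (nat_lit 1) (nat_lit 525) (nat_lit 1) (nat_lit 320) (nat_lit 414) (nat_lit 406)) (XT.lf (nat_lit 1900) (nat_lit 3875781016) (nat_lit 76) (nat_lit 1706260273) (nat_lit 0) (nat_lit 1706260273) (nat_lit 526) (nat_lit 1) (nat_lit 502) (nat_lit 1) (nat_lit 501) (nat_lit 1) (nat_lit 321) (nat_lit 414) (nat_lit 405))))))))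
noncomputable def ec76 : XT := (XT.nd (nat_lit 1872) (nat_lit 9500) (nat_lit 0) (XT.nd (nat_lit 936) (nat_lit 4636) (nat_lit 0) (XT.nd (nat_lit 468) (nat_lit 1520) (nat_lit 0) (XT.nd (nat_lit 234) (nat_lit 0) (nat_lit 76) (XT.nd (nat_lit 78) (nat_lit 0) (nat_lit 0) (XT.lf (nat_lit 1900) (nat_lit 1806347922) (nat_lit 0) (nat_lit 3606022676) (nat_lit 1824) (nat_lit 1806347922) (nat_lit 527) (nat_lit 1) (nat_lit 502) (nat_lit 1) (nat_lit 526) (nat_lit 1) (nat_lit 322) (nat_lit 414) (nat_lit 404)) (XT.nd (nat_lit 78) (nat_lit 0) (nat_lit 76) (XT.lf (nat_lit 1900) (nat_lit 3331045371) (nat_lit 76) (nat_lit 1909494654) (nat_lit 0) (nat_lit 1909494654) (nat_lit 527) (nat_lit 1) (nat_lit 503) (nat_lit 1) (nat_lit 502) (nat_lit 1) (nat_lit 323) (nat_lit 414) (nat_lit 403)) (XT.lf (nat_lit 1900) (nat_lit 1516428776) (nat_lit 0) (nat_lit 4049407478) (nat_lit 1824) (nat_lit 1516428776) (nat_lit 528) (nat_lit 1) (nat_lit 503) (nat_lit 1) (nat_lit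 527) (nat_lit 1) (nat_lit 324) (nat_lit 414) (nat_lit 402)))) (XT.nd (nat_lit 78) (nat_lit 0) (nat_lit 76) (XT.lf (nat_lit 1900) (nat_lit 2713875716) (nat_lit 76) (nat_lit 2150713057) (nat_lit 0) (nat_lit 2150713057) (nat_lit 528) (nat_lit 1) (nat_lit 504) (nat_lit 1) (nat_lit 503) (nat_lit 1) (nat_lit 325) (nat_lit 414) (nat_lit 401)) (XT.nd (nat_lit 78) (nat_lit 0) (nat_lit 0) (XT.lf (nat_lit 1900) (nat_lit 1191587869) (nat_lit 0) (nat_lit 4566123491) (nat_lit 1824) (nat_lit 1191587869) (nat_lit 529) (nat_lit 1) (nat_lit 504) (nat_lit 1) (nat_lit 528) (nat_lit 1) (nat_lit 326) (nat_lit 414) (nat_lit 400)) (XT.lf (nat_lit 1900) (nat_lit 2028919788) (nat_lit 76) (nat_lit 2427540991) (nat_lit 0) (nat_lit 2427540991) (nat_lit 529) (nat_lit 1) (nat_lit 505) (nat_lit 1) (nat_lit 504) (nat_lit 1) (nat_lit 327) (nat_lit 414) (nat_lit 399))))) (XT.nd (nat_lit 234) (nat_lit 1748) (nat_lit 0) (XT.nd (nat_lit 78) (nat_lit 0) (nat_lit 0) (XT.lf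 (nat_lit 1900) (nat_lit 834086738) (nat_lit 0) (nat_lit 5151547716) (nat_lit 1824) (nat_lit 834086738) (nat_lit 530) (nat_lit 1) (nat_lit 505) (nat_lit 1) (nat_lit 529) (nat_lit 1) (nat_lit 328) (nat_lit 414) (nat_lit 398)) (XT.nd (nat_lit 78) (nat_lit 0) (nat_lit 76) (XT.lf (nat_lit 1900) (nat_lit 1280608863) (nat_lit 76) (nat_lit 2737713806) (nat_lit 0) (nat_lit 2737713806) (nat_lit 530) (nat_lit 1) (nat_lit 506) (nat_lit 1) (nat_lit 505) (nat_lit 1) (nat_lit 329) (nat_lit 414) (nat_lit 397)) (XT.lf (nat_lit 1900) (nat_lit 446081350) (nat_lit 0) (nat_lit 5801271484) (nat_lit 1824) (nat_lit 446081350) (nat_lit 531) (nat_lit 1) (nat_lit 506) (nat_lit 1) (nat_lit 530) (nat_lit 1) (nat_lit 330) (nat_lit 414) (nat_lit 396)))) (XT.nd (nat_lit 78) (nat_lit 1824) (nat_lit 0) (XT.lf (nat_lit 1900) (nat_lit 473166871) (nat_lit 76) (nat_lit 3079072081) (nat_lit 0) (nat_lit 3079072081) (nat_lit 531) (nat_lit 1) (nat_lit 507) (nat_lit 1) (nat_lit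 506) (nat_lit 1) (nat_lit 331) (nat_lit 414) (nat_lit 395)) (XT.nd (nat_lit 78) (nat_lit 1900) (nat_lit 0) (XT.lf (nat_lit 1900) (nat_lit 29626545) (nat_lit 0) (nat_lit 6511091450) (nat_lit 1824) (nat_lit 29626545) (nat_lit 532) (nat_lit 1) (nat_lit 507) (nat_lit 1) (nat_lit 531) (nat_lit 1) (nat_lit 332) (nat_lit 414) (nat_lit 394)) (XT.lf (nat_lit 1976) (nat_lit 3062704460) (nat_lit 0) (nat_lit 384274062) (nat_lit 1900) (nat_lit 3062704460) (nat_lit 508) (nat_lit 1) (nat_lit 482) (nat_lit 1) (nat_lit 507) (nat_lit 1) (nat_lit 333) (nat_lit 414) (nat_lit 393)))))) (XT.nd (nat_lit 468) (nat_lit 3648) (nat_lit 0) (XT.nd (nat_lit 234) (nat_lit 988) (nat_lit 0) (XT.nd (nat_lit 78) (nat_lit 0) (nat_lit 76) (XT.lf (nat_lit 1976) (nat_lit 5628945185) (nat_lit 76) (nat_lit 410600486) (nat_lit 0) (nat_lit 410600486) (nat_lit 508) (nat_lit 1) (nat_lit 483) (nat_lit 1) (nat_lit 482) (nat_lit 1) (nat_lit 334) (nat_lit 414) (nat_lit 392)) (XT.nd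 (nat_lit 78) (nat_lit 0) (nat_lit 0) (XT.lf (nat_lit 1976) (nat_lit 2552469125) (nat_lit 0) (nat_lit 1286107533) (nat_lit 1900) (nat_lit 2552469125) (nat_lit 509) (nat_lit 1) (nat_lit 483) (nat_lit 1) (nat_lit 508) (nat_lit 1) (nat_lit 335) (nat_lit 414) (nat_lit 391)) (XT.lf (nat_lit 1976) (nat_lit 4582744729) (nat_lit 76) (nat_lit 875096803) (nat_lit 0) (nat_lit 875096803) (nat_lit 509) (nat_lit 1) (nat_lit 484) (nat_lit 1) (nat_lit 483) (nat_lit 1) (nat_lit 336) (nat_lit 414) (nat_lit 390)))) (XT.nd (nat_lit 78) (nat_lit 1140) (nat_lit 0) (XT.lf (nat_lit 76) (nat_lit 2020220496) (nat_lit 0) (nat_lit 2234934173) (nat_lit 1900) (nat_lit 2020220496) (nat_lit 485) (nat_lit 1) (nat_lit 484) (nat_lit 1) (nat_lit 509) (nat_lit 1) (nat_lit 337) (nat_lit 414) (nat_lit 389)) (XT.nd (nat_lit 78) (nat_lit 0) (nat_lit 0) (XT.lf (nat_lit 1216) (nat_lit 3494067149) (nat_lit 0) (nat_lit 1362292615) (nat_lit 1140) (nat_lit 1362292615) (nat_lit 485)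 (nat_lit 1) (nat_lit 469) (nat_lit 1) (nat_lit 484) (nat_lit 1) (nat_lit 338) (nat_lit 414) (nat_lit 388)) (XT.lf (nat_lit 76) (nat_lit 1467633500) (nat_lit 0) (nat_lit 3227321090) (nat_lit 1216) (nat_lit 1467633500) (nat_lit 470) (nat_lit 1) (nat_lit 469) (nat_lit 1) (nat_lit 485) (nat_lit 1) (nat_lit 339) (nat_lit 414) (nat_lit 387))))) (XT.nd (nat_lit 234) (nat_lit 1824) (nat_lit 0) (XT.nd (nat_lit 78) (nat_lit 912) (nat_lit 0) (XT.lf (nat_lit 988) (nat_lit 2366191341) (nat_lit 0) (nat_lit 1870507719) (nat_lit 912) (nat_lit 1870507719) (nat_lit 470) (nat_lit 1) (nat_lit 457) (nat_lit 1) (nat_lit 469) (nat_lit 1) (nat_lit 340) (nat_lit 414) (nat_lit 386)) (XT.nd (nat_lit 78) (nat_lit 912) (nat_lit 0) (XT.lf (nat_lit 76) (nat_lit 896301943) (nat_lit 0) (nat_lit 4260000231) (nat_lit 988) (nat_lit 896301943) (nat_lit 458) (nat_lit 1) (nat_lit 457) (nat_lit 1) (nat_lit 470) (nat_lit 1) (nat_lit 341) (nat_lit 414) (nat_lit 385)) (XT.lf (nat_lit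 988) (nat_lit 1202236929) (nat_lit 0) (nat_lit 2398142816) (nat_lit 912) (nat_lit 2398142816) (nat_lit 458) (nat_lit 1) (nat_lit 445) (nat_lit 1) (nat_lit 457) (nat_lit 1) (nat_lit 342) (nat_lit 414) (nat_lit 384)))) (XT.nd (nat_lit 78) (nat_lit 1824) (nat_lit 0) (XT.lf (nat_lit 76) (nat_lit 307741979) (nat_lit 0) (nat_lit 5329861355) (nat_lit 988) (nat_lit 307741979) (nat_lit 446) (nat_lit 1) (nat_lit 445) (nat_lit 1) (nat_lit 458) (nat_lit 1) (nat_lit 343) (nat_lit 414) (nat_lit 383)) (XT.nd (nat_lit 78) (nat_lit 988) (nat_lit 0) (XT.lf (nat_lit 912) (nat_lit 5171072) (nat_lit 0) (nat_lit 2943676069) (nat_lit 836) (nat_lit 2943676069) (nat_lit 446) (nat_lit 1) (nat_lit 434) (nat_lit 1) (nat_lit 445) (nat_lit 1) (nat_lit 344) (nat_lit 414) (nat_lit 382)) (XT.lf (nat_lit 988) (nat_lit 5251275139) (nat_lit 0) (nat_lit 294653224) (nat_lit 912) (nat_lit 294653224) (nat_lit 434) (nat_lit 1) (nat_lit 421) (nat_lit 1) (nat_lit 433) (nat_lit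 1) (nat_lit 345) (nat_lit 414) (nat_lit 381))))))) (XT.nd (nat_lit 936) (nat_lit 4712) (nat_lit 0) (XT.nd (nat_lit 468) (nat_lit 2356) (nat_lit 0) (XT.nd (nat_lit 234) (nat_lit 1596) (nat_lit 0) (XT.nd (nat_lit 78) (nat_lit 836) (nat_lit 0) (XT.lf (nat_lit 76) (nat_lit 2291410026) (nat_lit 0) (nat_lit 1206155819) (nat_lit 988) (nat_lit 2291410026) (nat_lit 422) (nat_lit 1) (nat_lit 421) (nat_lit 1) (nat_lit 434) (nat_lit 1) (nat_lit 346) (nat_lit 414) (nat_lit 380)) (XT.nd (nat_lit 78) (nat_lit 0) (nat_lit 0) (XT.lf (nat_lit 912) (nat_lit 3919536695) (nat_lit 0) (nat_lit 909344873) (nat_lit 836) (nat_lit 909344873) (nat_lit 422) (nat_lit 1) (nat_lit 410) (nat_lit 1) (nat_lit 421) (nat_lit 1) (nat_lit 347) (nat_lit 414) (nat_lit 379)) (XT.lf (nat_lit 76) (nat_lit 1621650847) (nat_lit 0) (nat_lit 2444661437) (nat_lit 912) (nat_lit 1621650847) (nat_lit 411) (nat_lit 1) (nat_lit 410) (nat_lit 1) (nat_lit 422) (nat_lit 1) (nat_lit 348) (nat_lit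 414) (nat_lit 378)))) (XT.nd (nat_lit 78) (nat_lit 760) (nat_lit 0) (XT.lf (nat_lit 912) (nat_lit 2564242907) (nat_lit 0) (nat_lit 1537063557) (nat_lit 836) (nat_lit 1537063557) (nat_lit 411) (nat_lit 1) (nat_lit 399) (nat_lit 1) (nat_lit 410) (nat_lit 1) (nat_lit 349) (nat_lit 414) (nat_lit 377)) (XT.nd (nat_lit 78) (nat_lit 760) (nat_lit 0) (XT.lf (nat_lit 76) (nat_lit 940758627) (nat_lit 0) (nat_lit 3707899091) (nat_lit 912) (nat_lit 940758627) (nat_lit 400) (nat_lit 1) (nat_lit 399) (nat_lit 1) (nat_lit 411) (nat_lit 1) (nat_lit 350) (nat_lit 414) (nat_lit 376)) (XT.lf (nat_lit 836) (nat_lit 1187784308) (nat_lit 0) (nat_lit 2176579962) (nat_lit 760) (nat_lit 2176579962) (nat_lit 400) (nat_lit 1) (nat_lit 389) (nat_lit 1) (nat_lit 399) (nat_lit 1) (nat_lit 351) (nat_lit 414) (nat_lit 375))))) (XT.nd (nat_lit 234) (nat_lit 760) (nat_lit 0) (XT.nd (nat_lit 78) (nat_lit 1596) (nat_lit 0) (XT.lf (nat_lit 76) (nat_lit 249893923) (nat_lit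 0) (nat_lit 4993480470) (nat_lit 836) (nat_lit 249893923) (nat_lit 390) (nat_lit 1) (nat_lit 389) (nat_lit 1) (nat_lit 400) (nat_lit 1) (nat_lit 352) (nat_lit 414) (nat_lit 374)) (XT.nd (nat_lit 78) (nat_lit 760) (nat_lit 0) (XT.lf (nat_lit 76) (nat_lit 2620504052) (nat_lit 0) (nat_lit 204848010) (nat_lit 836) (nat_lit 2620504052) (nat_lit 379) (nat_lit 1) (nat_lit 378) (nat_lit 1) (nat_lit 389) (nat_lit 1) (nat_lit 353) (nat_lit 414) (nat_lit 373)) (XT.lf (nat_lit 836) (nat_lit 4505454326) (nat_lit 0) (nat_lit 446882565) (nat_lit 760) (nat_lit 446882565) (nat_lit 379) (nat_lit 1) (nat_lit 368) (nat_lit 1) (nat_lit 378) (nat_lit 1) (nat_lit 354) (nat_lit 414) (nat_lit 372)))) (XT.nd (nat_lit 78) (nat_lit 760) (nat_lit 0) (XT.lf (nat_lit 76) (nat_lit 1877242862) (nat_lit 0) (nat_lit 1598426472) (nat_lit 836) (nat_lit 1877242862) (nat_lit 369) (nat_lit 1) (nat_lit 368) (nat_lit 1) (nat_lit 379) (nat_lit 1) (nat_lit 355) (nat_lit 414) (nat_lit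 371)) (XT.nd (nat_lit 78) (nat_lit 0) (nat_lit 0) (XT.lf (nat_lit 836) (nat_lit 3007726035) (nat_lit 0) (nat_lit 1149790345) (nat_lit 760) (nat_lit 1149790345) (nat_lit 369) (nat_lit 1) (nat_lit 358) (nat_lit 1) (nat_lit 368) (nat_lit 1) (nat_lit 356) (nat_lit 414) (nat_lit 370)) (XT.lf (nat_lit 76) (nat_lit 1127844988) (nat_lit 0) (nat_lit 3006514942) (nat_lit 836) (nat_lit 1127844988) (nat_lit 359) (nat_lit 1) (nat_lit 358) (nat_lit 1) (nat_lit 369) (nat_lit 1) (nat_lit 357) (nat_lit 414) (nat_lit 369)))))) (XT.nd (nat_lit 468) (nat_lit 1900) (nat_lit 0) (XT.nd (nat_lit 234) (nat_lit 1368) (nat_lit 0) (XT.nd (nat_lit 78) (nat_lit 760) (nat_lit 0) (XT.lf (nat_lit 760) (nat_lit 1498620019) (nat_lit 0) (nat_lit 1859489801) (nat_lit 684) (nat_lit 1859489801) (nat_lit 359) (nat_lit 1) (nat_lit 349) (nat_lit 1) (nat_lit 358) (nat_lit 1) (nat_lit 358) (nat_lit 414) (nat_lit 368)) (XT.nd (nat_lit 78) (nat_lit 760) (nat_lit 0) (XT.lf (nat_lit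 76) (nat_lit 373234967) (nat_lit 0) (nat_lit 4427204403) (nat_lit 760) (nat_lit 373234967) (nat_lit 350) (nat_lit 1) (nat_lit 349) (nat_lit 1) (nat_lit 359) (nat_lit 1) (nat_lit 359) (nat_lit 414) (nat_lit 367)) (XT.lf (nat_lit 76) (nat_lit 2555120621) (nat_lit 0) (nat_lit 19795382) (nat_lit 760) (nat_lit 2555120621) (nat_lit 340) (nat_lit 1) (nat_lit 339) (nat_lit 1) (nat_lit 349) (nat_lit 1) (nat_lit 360) (nat_lit 414) (nat_lit 366)))) (XT.nd (nat_lit 78) (nat_lit 684) (nat_lit 0) (XT.lf (nat_lit 760) (nat_lit 4320712423) (nat_lit 0) (nat_lit 383174438) (nat_lit 684) (nat_lit 383174438) (nat_lit 340) (nat_lit 1) (nat_lit 330) (nat_lit 1) (nat_lit 339) (nat_lit 1) (nat_lit 361) (nat_lit 414) (nat_lit 365)) (XT.nd (nat_lit 78) (nat_lit 684) (nat_lit 0) (XT.lf (nat_lit 76) (nat_lit 1759025286) (nat_lit 0) (nat_lit 1526316998) (nat_lit 760) (nat_lit 1759025286) (nat_lit 331) (nat_lit 1) (nat_lit 330) (nat_lit 1) (nat_lit 340) (nat_lit 1)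 (nat_lit 362) (nat_lit 414) (nat_lit 364)) (XT.lf (nat_lit 760) (nat_lit 2721085629) (nat_lit 0) (nat_lit 1140614225) (nat_lit 684) (nat_lit 1140614225) (nat_lit 331) (nat_lit 1) (nat_lit 321) (nat_lit 1) (nat_lit 330) (nat_lit 1) (nat_lit 363) (nat_lit 414) (nat_lit 363))))) (XT.nd (nat_lit 234) (nat_lit 1292) (nat_lit 0) (XT.nd (nat_lit 78) (nat_lit 608) (nat_lit 0) (XT.lf (nat_lit 76) (nat_lit 960863507) (nat_lit 0) (nat_lit 3039004809) (nat_lit 760) (nat_lit 960863507) (nat_lit 322) (nat_lit 1) (nat_lit 321) (nat_lit 1) (nat_lit 331) (nat_lit 1) (nat_lit 364) (nat_lit 414) (nat_lit 362)) (XT.nd (nat_lit 78) (nat_lit 0) (nat_lit 0) (XT.lf (nat_lit 684) (nat_lit 1118048646) (nat_lit 0) (nat_lit 1900762116) (nat_lit 608) (nat_lit 1900762116) (nat_lit 322) (nat_lit 1) (nat_lit 313) (nat_lit 1) (nat_lit 321) (nat_lit 1) (nat_lit 365) (nat_lit 414) (nat_lit 361)) (XT.lf (nat_lit 76) (nat_lit 161362191) (nat_lit 0) (nat_lit 4556351408) (nat_lit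 684) (nat_lit 161362191) (nat_lit 314) (nat_lit 1) (nat_lit 313) (nat_lit 1) (nat_lit 322) (nat_lit 1) (nat_lit 366) (nat_lit 414) (nat_lit 360)))) (XT.nd (nat_lit 78) (nat_lit 608) (nat_lit 0) (XT.lf (nat_lit 76) (nat_lit 2179063661) (nat_lit 0) (nat_lit 480594438) (nat_lit 684) (nat_lit 2179063661) (nat_lit 305) (nat_lit 1) (nat_lit 304) (nat_lit 1) (nat_lit 313) (nat_lit 1) (nat_lit 367) (nat_lit 414) (nat_lit 359)) (XT.nd (nat_lit 78) (nat_lit 0) (nat_lit 0) (XT.lf (nat_lit 684) (nat_lit 3529834381) (nat_lit 0) (nat_lit 634590081) (nat_lit 608) (nat_lit 634590081) (nat_lit 305) (nat_lit 1) (nat_lit 296) (nat_lit 1) (nat_lit 304) (nat_lit 1) (nat_lit 368) (nat_lit 414) (nat_lit 358)) (XT.lf (nat_lit 76) (nat_lit 1347203046) (nat_lit 0) (nat_lit 2065221448) (nat_lit 684) (nat_lit 1347203046) (nat_lit 297) (nat_lit 1) (nat_lit 296) (nat_lit 1) (nat_lit 305) (nat_lit 1) (nat_lit 369) (nat_lit 414) (nat_lit 357))))))))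
noncomputable def ec77 : XT := (XT.nd (nat_lit 1872) (nat_lit 5396) (nat_lit 0) (XT.nd (nat_lit 936) (nat_lit 3876) (nat_lit 0) (XT.nd (nat_lit 468) (nat_lit 1672) (nat_lit 0) (XT.nd (nat_lit 234) (nat_lit 1216) (nat_lit 0) (XT.nd (nat_lit 78) (nat_lit 532) (nat_lit 0) (XT.lf (nat_lit 684) (nat_lit 1861771767) (nat_lit 0) (nat_lit 1429487326) (nat_lit 608) (nat_lit 1429487326) (nat_lit 297) (nat_lit 1) (nat_lit 288) (nat_lit 1) (nat_lit 296) (nat_lit 1) (nat_lit 370) (nat_lit 414) (nat_lit 356)) (XT.nd (nat_lit 78) (nat_lit 532) (nat_lit 0) (XT.lf (nat_lit 76) (nat_lit 516566995) (nat_lit 0) (nat_lit 3649251926) (nat_lit 684) (nat_lit 516566995) (nat_lit 289) (nat_lit 1) (nat_lit 288) (nat_lit 1) (nat_lit 297) (nat_lit 1) (nat_lit 371) (nat_lit 414) (nat_lit 355)) (XT.lf (nat_lit 608) (nat_lit 196735776) (nat_lit 0) (nat_lit 2223785526) (nat_lit 532) (nat_lit 2223785526) (nat_lit 289) (nat_lit 1) (nat_lit 281) (nat_lit 1) (nat_lit 288)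 (nat_lit 1) (nat_lit 372) (nat_lit 414) (nat_lit 354)))) (XT.nd (nat_lit 78) (nat_lit 532) (nat_lit 0) (XT.lf (nat_lit 684) (nat_lit 3986329723) (nat_lit 0) (nat_lit 310228187) (nat_lit 608) (nat_lit 310228187) (nat_lit 281) (nat_lit 1) (nat_lit 272) (nat_lit 1) (nat_lit 280) (nat_lit 1) (nat_lit 373) (nat_lit 414) (nat_lit 353)) (XT.nd (nat_lit 78) (nat_lit 532) (nat_lit 0) (XT.lf (nat_lit 76) (nat_lit 1562240483) (nat_lit 0) (nat_lit 1444977415) (nat_lit 684) (nat_lit 1562240483) (nat_lit 273) (nat_lit 1) (nat_lit 272) (nat_lit 1) (nat_lit 281) (nat_lit 1) (nat_lit 374) (nat_lit 414) (nat_lit 352)) (XT.lf (nat_lit 608) (nat_lit 2270024776) (nat_lit 0) (nat_lit 1131325703) (nat_lit 532) (nat_lit 1131325703) (nat_lit 273) (nat_lit 1) (nat_lit 265) (nat_lit 1) (nat_lit 272) (nat_lit 1) (nat_lit 375) (nat_lit 414) (nat_lit 351))))) (XT.nd (nat_lit 234) (nat_lit 532) (nat_lit 0) (XT.nd (nat_lit 78) (nat_lit 1140) (nat_lit 0) (XT.lf (nat_lit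 76) (nat_lit 708644676) (nat_lit 0) (nat_lit 3079031080) (nat_lit 608) (nat_lit 708644676) (nat_lit 266) (nat_lit 1) (nat_lit 265) (nat_lit 1) (nat_lit 273) (nat_lit 1) (nat_lit 376) (nat_lit 414) (nat_lit 350)) (XT.nd (nat_lit 78) (nat_lit 608) (nat_lit 0) (XT.lf (nat_lit 608) (nat_lit 561017446) (nat_lit 0) (nat_lit 1949631451) (nat_lit 532) (nat_lit 1949631451) (nat_lit 266) (nat_lit 1) (nat_lit 258) (nat_lit 1) (nat_lit 265) (nat_lit 1) (nat_lit 377) (nat_lit 414) (nat_lit 349)) (XT.lf (nat_lit 608) (nat_lit 4144476839) (nat_lit 0) (nat_lit 140161856) (nat_lit 532) (nat_lit 140161856) (nat_lit 258) (nat_lit 1) (nat_lit 250) (nat_lit 1) (nat_lit 257) (nat_lit 1) (nat_lit 378) (nat_lit 414) (nat_lit 348)))) (XT.nd (nat_lit 78) (nat_lit 532) (nat_lit 0) (XT.lf (nat_lit 76) (nat_lit 1632271868) (nat_lit 0) (nat_lit 1124863106) (nat_lit 608) (nat_lit 1632271868) (nat_lit 251) (nat_lit 1) (nat_lit 250) (nat_lit 1) (nat_lit 258) (nat_lit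 1) (nat_lit 379) (nat_lit 414) (nat_lit 347)) (XT.nd (nat_lit 78) (nat_lit 0) (nat_lit 0) (XT.lf (nat_lit 608) (nat_lit 2394463809) (nat_lit 0) (nat_lit 980049106) (nat_lit 532) (nat_lit 980049106) (nat_lit 251) (nat_lit 1) (nat_lit 243) (nat_lit 1) (nat_lit 250) (nat_lit 1) (nat_lit 380) (nat_lit 414) (nat_lit 346)) (XT.lf (nat_lit 76) (nat_lit 762793448) (nat_lit 0) (nat_lit 2794502607) (nat_lit 608) (nat_lit 762793448) (nat_lit 244) (nat_lit 1) (nat_lit 243) (nat_lit 1) (nat_lit 251) (nat_lit 1) (nat_lit 381) (nat_lit 414) (nat_lit 345)))))) (XT.nd (nat_lit 468) (nat_lit 1900) (nat_lit 0) (XT.nd (nat_lit 234) (nat_lit 912) (nat_lit 0) (XT.nd (nat_lit 78) (nat_lit 608) (nat_lit 0) (XT.lf (nat_lit 532) (nat_lit 655361900) (nat_lit 0) (nat_lit 1815285264) (nat_lit 456) (nat_lit 1815285264) (nat_lit 244) (nat_lit 1) (nat_lit 237) (nat_lit 1) (nat_lit 243) (nat_lit 1) (nat_lit 382) (nat_lit 414) (nat_lit 344)) (XT.nd (nat_lit 78) (nat_lit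 0) (nat_lit 0) (XT.lf (nat_lit 608) (nat_lit 4051497191) (nat_lit 0) (nat_lit 100405068) (nat_lit 532) (nat_lit 100405068) (nat_lit 237) (nat_lit 1) (nat_lit 229) (nat_lit 1) (nat_lit 236) (nat_lit 1) (nat_lit 383) (nat_lit 414) (nat_lit 343)) (XT.lf (nat_lit 76) (nat_lit 1580329585) (nat_lit 0) (nat_lit 1058072838) (nat_lit 608) (nat_lit 1580329585) (nat_lit 230) (nat_lit 1) (nat_lit 229) (nat_lit 1) (nat_lit 237) (nat_lit 1) (nat_lit 384) (nat_lit 414) (nat_lit 342)))) (XT.nd (nat_lit 78) (nat_lit 456) (nat_lit 0) (XT.lf (nat_lit 532) (nat_lit 2280327558) (nat_lit 0) (nat_lit 952675491) (nat_lit 456) (nat_lit 952675491) (nat_lit 230) (nat_lit 1) (nat_lit 223) (nat_lit 1) (nat_lit 229) (nat_lit 1) (nat_lit 385) (nat_lit 414) (nat_lit 341)) (XT.nd (nat_lit 78) (nat_lit 456) (nat_lit 0) (XT.lf (nat_lit 76) (nat_lit 701077920) (nat_lit 0) (nat_lit 2750821228) (nat_lit 532) (nat_lit 701077920) (nat_lit 224) (nat_lit 1) (nat_lit 223) (nat_lit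 1) (nat_lit 230) (nat_lit 1) (nat_lit 386) (nat_lit 414) (nat_lit 340)) (XT.lf (nat_lit 532) (nat_lit 523105670) (nat_lit 0) (nat_lit 1798728140) (nat_lit 456) (nat_lit 1798728140) (nat_lit 224) (nat_lit 1) (nat_lit 217) (nat_lit 1) (nat_lit 223) (nat_lit 1) (nat_lit 387) (nat_lit 414) (nat_lit 339))))) (XT.nd (nat_lit 234) (nat_lit 912) (nat_lit 0) (XT.nd (nat_lit 78) (nat_lit 456) (nat_lit 0) (XT.lf (nat_lit 532) (nat_lit 3748703972) (nat_lit 0) (nat_lit 169960681) (nat_lit 456) (nat_lit 169960681) (nat_lit 217) (nat_lit 1) (nat_lit 210) (nat_lit 1) (nat_lit 216) (nat_lit 1) (nat_lit 388) (nat_lit 414) (nat_lit 338)) (XT.nd (nat_lit 78) (nat_lit 456) (nat_lit 0) (XT.lf (nat_lit 76) (nat_lit 1426561140) (nat_lit 0) (nat_lit 1203639268) (nat_lit 532) (nat_lit 1426561140) (nat_lit 211) (nat_lit 1) (nat_lit 210) (nat_lit 1) (nat_lit 217) (nat_lit 1) (nat_lit 389) (nat_lit 414) (nat_lit 337)) (XT.lf (nat_lit 532) (nat_lit 1967182336) (nat_lit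 0) (nat_lit 1029092470) (nat_lit 456) (nat_lit 1029092470) (nat_lit 211) (nat_lit 1) (nat_lit 204) (nat_lit 1) (nat_lit 210) (nat_lit 1) (nat_lit 390) (nat_lit 414) (nat_lit 336)))) (XT.nd (nat_lit 78) (nat_lit 912) (nat_lit 0) (XT.lf (nat_lit 76) (nat_lit 542793033) (nat_lit 0) (nat_lit 2908747066) (nat_lit 532) (nat_lit 542793033) (nat_lit 205) (nat_lit 1) (nat_lit 204) (nat_lit 1) (nat_lit 211) (nat_lit 1) (nat_lit 391) (nat_lit 414) (nat_lit 335)) (XT.nd (nat_lit 78) (nat_lit 532) (nat_lit 0) (XT.lf (nat_lit 456) (nat_lit 202139502) (nat_lit 0) (nat_lit 1880696386) (nat_lit 380) (nat_lit 1880696386) (nat_lit 205) (nat_lit 1) (nat_lit 199) (nat_lit 1) (nat_lit 204) (nat_lit 1) (nat_lit 392) (nat_lit 414) (nat_lit 334)) (XT.lf (nat_lit 532) (nat_lit 3272189615) (nat_lit 0) (nat_lit 330473062) (nat_lit 456) (nat_lit 330473062) (nat_lit 199) (nat_lit 1) (nat_lit 192) (nat_lit 1) (nat_lit 198) (nat_lit 1) (nat_lit 393) (nat_lit 414) (nat_lit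 333))))))) (XT.nd (nat_lit 936) (nat_lit 2736) (nat_lit 0) (XT.nd (nat_lit 468) (nat_lit 1444) (nat_lit 0) (XT.nd (nat_lit 234) (nat_lit 836) (nat_lit 0) (XT.nd (nat_lit 78) (nat_lit 380) (nat_lit 0) (XT.lf (nat_lit 76) (nat_lit 1188564980) (nat_lit 0) (nat_lit 1525754615) (nat_lit 532) (nat_lit 1188564980) (nat_lit 193) (nat_lit 1) (nat_lit 192) (nat_lit 1) (nat_lit 199) (nat_lit 1) (nat_lit 394) (nat_lit 414) (nat_lit 332)) (XT.nd (nat_lit 78) (nat_lit 0) (nat_lit 0) (XT.lf (nat_lit 456) (nat_lit 1489582635) (nat_lit 0) (nat_lit 1191723558) (nat_lit 380) (nat_lit 1191723558) (nat_lit 193) (nat_lit 1) (nat_lit 187) (nat_lit 1) (nat_lit 192) (nat_lit 1) (nat_lit 395) (nat_lit 414) (nat_lit 331)) (XT.lf (nat_lit 76) (nat_lit 304786706) (nat_lit 0) (nat_lit 3233993475) (nat_lit 456) (nat_lit 304786706) (nat_lit 188) (nat_lit 1) (nat_lit 187) (nat_lit 1) (nat_lit 193) (nat_lit 1) (nat_lit 396) (nat_lit 414) (nat_lit 330)))) (XT.nd (nat_lit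 78) (nat_lit 380) (nat_lit 0) (XT.lf (nat_lit 76) (nat_lit 1771685731) (nat_lit 0) (nat_lit 270857445) (nat_lit 456) (nat_lit 1771685731) (nat_lit 182) (nat_lit 1) (nat_lit 181) (nat_lit 1) (nat_lit 187) (nat_lit 1) (nat_lit 397) (nat_lit 414) (nat_lit 329)) (XT.nd (nat_lit 78) (nat_lit 0) (nat_lit 0) (XT.lf (nat_lit 456) (nat_lit 2653435262) (nat_lit 0) (nat_lit 565920126) (nat_lit 380) (nat_lit 565920126) (nat_lit 182) (nat_lit 1) (nat_lit 176) (nat_lit 1) (nat_lit 181) (nat_lit 1) (nat_lit 398) (nat_lit 414) (nat_lit 328)) (XT.lf (nat_lit 76) (nat_lit 881688185) (nat_lit 0) (nat_lit 1993168907) (nat_lit 456) (nat_lit 881688185) (nat_lit 177) (nat_lit 1) (nat_lit 176) (nat_lit 1) (nat_lit 182) (nat_lit 1) (nat_lit 399) (nat_lit 414) (nat_lit 327))))) (XT.nd (nat_lit 234) (nat_lit 684) (nat_lit 0) (XT.nd (nat_lit 78) (nat_lit 380) (nat_lit 0) (XT.lf (nat_lit 456) (nat_lit 877656661) (nat_lit 0) (nat_lit 1425232300) (nat_lit 380) (nat_lit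 1425232300) (nat_lit 177) (nat_lit 1) (nat_lit 171) (nat_lit 1) (nat_lit 176) (nat_lit 1) (nat_lit 400) (nat_lit 414) (nat_lit 326)) (XT.nd (nat_lit 78) (nat_lit 380) (nat_lit 0) (XT.lf (nat_lit 76) (nat_lit 1745854) (nat_lit 0) (nat_lit 3696648904) (nat_lit 456) (nat_lit 1745854) (nat_lit 172) (nat_lit 1) (nat_lit 171) (nat_lit 1) (nat_lit 177) (nat_lit 1) (nat_lit 401) (nat_lit 414) (nat_lit 325)) (XT.lf (nat_lit 76) (nat_lit 1402889068) (nat_lit 0) (nat_lit 866339613) (nat_lit 380) (nat_lit 1402889068) (nat_lit 167) (nat_lit 1) (nat_lit 166) (nat_lit 1) (nat_lit 171) (nat_lit 1) (nat_lit 402) (nat_lit 414) (nat_lit 324)))) (XT.nd (nat_lit 78) (nat_lit 304) (nat_lit 0) (XT.lf (nat_lit 456) (nat_lit 1919850959) (nat_lit 0) (nat_lit 862340372) (nat_lit 380) (nat_lit 862340372) (nat_lit 167) (nat_lit 1) (nat_lit 161) (nat_lit 1) (nat_lit 166) (nat_lit 1) (nat_lit 403) (nat_lit 414) (nat_lit 323)) (XT.nd (nat_lit 78) (nat_lit 304) (nat_lit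 0) (XT.lf (nat_lit 76) (nat_lit 519290329) (nat_lit 0) (nat_lit 2578656605) (nat_lit 456) (nat_lit 519290329) (nat_lit 162) (nat_lit 1) (nat_lit 161) (nat_lit 1) (nat_lit 167) (nat_lit 1) (nat_lit 404) (nat_lit 414) (nat_lit 322)) (XT.lf (nat_lit 380) (nat_lit 157625321) (nat_lit 0) (nat_lit 1716260021) (nat_lit 304) (nat_lit 1716260021) (nat_lit 162) (nat_lit 1) (nat_lit 157) (nat_lit 1) (nat_lit 161) (nat_lit 1) (nat_lit 405) (nat_lit 414) (nat_lit 321)))))) (XT.nd (nat_lit 468) (nat_lit 1292) (nat_lit 0) (XT.nd (nat_lit 234) (nat_lit 684) (nat_lit 0) (XT.nd (nat_lit 78) (nat_lit 304) (nat_lit 0) (XT.lf (nat_lit 456) (nat_lit 2860931671) (nat_lit 0) (nat_lit 351224141) (nat_lit 380) (nat_lit 351224141) (nat_lit 157) (nat_lit 1) (nat_lit 151) (nat_lit 1) (nat_lit 156) (nat_lit 1) (nat_lit 406) (nat_lit 414) (nat_lit 320)) (XT.nd (nat_lit 78) (nat_lit 304) (nat_lit 0) (XT.lf (nat_lit 76) (nat_lit 987270886) (nat_lit 0) (nat_lit 1562206014)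 (nat_lit 456) (nat_lit 987270886) (nat_lit 152) (nat_lit 1) (nat_lit 151) (nat_lit 1) (nat_lit 157) (nat_lit 1) (nat_lit 407) (nat_lit 414) (nat_lit 319)) (XT.lf (nat_lit 380) (nat_lit 1095254398) (nat_lit 0) (nat_lit 1207590950) (nat_lit 304) (nat_lit 1207590950) (nat_lit 152) (nat_lit 1) (nat_lit 147) (nat_lit 1) (nat_lit 151) (nat_lit 1) (nat_lit 408) (nat_lit 414) (nat_lit 318)))) (XT.nd (nat_lit 78) (nat_lit 684) (nat_lit 0) (XT.lf (nat_lit 76) (nat_lit 112977306) (nat_lit 0) (nat_lit 3258543887) (nat_lit 380) (nat_lit 112977306) (nat_lit 148) (nat_lit 1) (nat_lit 147) (nat_lit 1) (nat_lit 152) (nat_lit 1) (nat_lit 409) (nat_lit 414) (nat_lit 317)) (XT.nd (nat_lit 78) (nat_lit 304) (nat_lit 0) (XT.lf (nat_lit 76) (nat_lit 1409661076) (nat_lit 0) (nat_lit 639242670) (nat_lit 380) (nat_lit 1409661076) (nat_lit 143) (nat_lit 1) (nat_lit 142) (nat_lit 1) (nat_lit 147) (nat_lit 1) (nat_lit 410) (nat_lit 414) (nat_lit 316)) (XT.lf (nat_lit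 380) (nat_lit 1942858478) (nat_lit 0) (nat_lit 745070493) (nat_lit 304) (nat_lit 745070493) (nat_lit 143) (nat_lit 1) (nat_lit 138) (nat_lit 1) (nat_lit 142) (nat_lit 1) (nat_lit 411) (nat_lit 414) (nat_lit 315))))) (XT.nd (nat_lit 234) (nat_lit 608) (nat_lit 0) (XT.nd (nat_lit 78) (nat_lit 684) (nat_lit 0) (XT.lf (nat_lit 76) (nat_lit 535356876) (nat_lit 0) (nat_lit 2336969349) (nat_lit 380) (nat_lit 535356876) (nat_lit 139) (nat_lit 1) (nat_lit 138) (nat_lit 1) (nat_lit 143) (nat_lit 1) (nat_lit 412) (nat_lit 414) (nat_lit 314)) (XT.nd (nat_lit 78) (nat_lit 380) (nat_lit 0) (XT.lf (nat_lit 380) (nat_lit 200295107) (nat_lit 0) (nat_lit 1591133282) (nat_lit 304) (nat_lit 1591133282) (nat_lit 139) (nat_lit 1) (nat_lit 134) (nat_lit 1) (nat_lit 138) (nat_lit 1) (nat_lit 413) (nat_lit 414) (nat_lit 313)) (XT.lf (nat_lit 380) (nat_lit 2707658479) (nat_lit 0) (nat_lit 325038906) (nat_lit 304) (nat_lit 325038906) (nat_lit 134) (nat_lit 1) (nat_lit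 129) (nat_lit 1) (nat_lit 133) (nat_lit 1) (nat_lit 414) (nat_lit 414) (nat_lit 312)))) (XT.nd (nat_lit 156) (nat_lit 304) (nat_lit 0) (XT.nd (nat_lit 78) (nat_lit 304) (nat_lit 0) (XT.lf (nat_lit 76) (nat_lit 917119658) (nat_lit 0) (nat_lit 1498781271) (nat_lit 380) (nat_lit 917119658) (nat_lit 130) (nat_lit 1) (nat_lit 129) (nat_lit 1) (nat_lit 134) (nat_lit 1) (nat_lit 415) (nat_lit 414) (nat_lit 311)) (XT.lf (nat_lit 380) (nat_lit 968085616) (nat_lit 0) (nat_lit 1170255273) (nat_lit 304) (nat_lit 1170255273) (nat_lit 130) (nat_lit 1) (nat_lit 125) (nat_lit 1) (nat_lit 129) (nat_lit 1) (nat_lit 416) (nat_lit 414) (nat_lit 310))) (XT.nd (nat_lit 78) (nat_lit 304) (nat_lit 0) (XT.lf (nat_lit 76) (nat_lit 56252079) (nat_lit 0) (nat_lit 3172020780) (nat_lit 380) (nat_lit 56252079) (nat_lit 126) (nat_lit 1) (nat_lit 125) (nat_lit 1) (nat_lit 130) (nat_lit 1) (nat_lit 417) (nat_lit 414) (nat_lit 309)) (XT.lf (nat_lit 76) (nat_lit 1261524503)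 (nat_lit 0) (nat_lit 737370483) (nat_lit 304) (nat_lit 1261524503) (nat_lit 122) (nat_lit 1) (nat_lit 121) (nat_lit 1) (nat_lit 125) (nat_lit 1) (nat_lit 418) (nat_lit 414) (nat_lit 308))))))))
noncomputable def ec78 : XT := (XT.nd (nat_lit 52416) (nat_lit 0) (nat_lit 19684) (XT.nd (nat_lit 51480) (nat_lit 0) (nat_lit 29792) (XT.nd (nat_lit 51012) (nat_lit 0) (nat_lit 29564) (XT.nd (nat_lit 234) (nat_lit 304) (nat_lit 0) (XT.nd (nat_lit 78) (nat_lit 304) (nat_lit 0) (XT.lf (nat_lit 380) (nat_lit 1662051564) (nat_lit 0) (nat_lit 787305636) (nat_lit 304) (nat_lit 787305636) (nat_lit 122) (nat_lit 1) (nat_lit 117) (nat_lit 1) (nat_lit 121) (nat_lit 1) (nat_lit 419) (nat_lit 414) (nat_lit 307)) (XT.nd (nat_lit 78) (nat_lit 304) (nat_lit 0) (XT.lf (nat_lit 76) (nat_lit 403464729) (nat_lit 0) (nat_lit 2406226717) (nat_lit 380) (nat_lit 403464729) (nat_lit 118) (nat_lit 1) (nat_lit 117) (nat_lit 1) (nat_lit 122) (nat_lit 1) (nat_lit 420) (nat_lit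 414) (nat_lit 306)) (XT.lf (nat_lit 76) (nat_lit 1571578840) (nat_lit 0) (nat_lit 46636213) (nat_lit 304) (nat_lit 1571578840) (nat_lit 114) (nat_lit 1) (nat_lit 113) (nat_lit 1) (nat_lit 117) (nat_lit 1) (nat_lit 421) (nat_lit 414) (nat_lit 305)))) (XT.nd (nat_lit 50622) (nat_lit 0) (nat_lit 29488) (XT.lf (nat_lit 380) (nat_lit 2288116083) (nat_lit 0) (nat_lit 439280725) (nat_lit 304) (nat_lit 439280725) (nat_lit 114) (nat_lit 1) (nat_lit 109) (nat_lit 1) (nat_lit 113) (nat_lit 1) (nat_lit 422) (nat_lit 414) (nat_lit 304)) (XT.nd (nat_lit 78) (nat_lit 0) (nat_lit 0) (XT.lf (nat_lit 1900) (nat_lit 1348936068) (nat_lit 0) (nat_lit 1360216310) (nat_lit 1900) (nat_lit 1348936068) (nat_lit 522) (nat_lit 1) (nat_lit 497) (nat_lit 0) (nat_lit 522) (nat_lit 0) (nat_lit 310) (nat_lit 415) (nat_lit 415)) (XT.lf (nat_lit 1900) (nat_lit 5333896027) (nat_lit 76) (nat_lit 1351267519) (nat_lit 0) (nat_lit 1351267519) (nat_lit 522) (nat_lit 1) (nat_lit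 498) (nat_lit 1) (nat_lit 497) (nat_lit 0) (nat_lit 311) (nat_lit 415) (nat_lit 414))))) (XT.nd (nat_lit 234) (nat_lit 0) (nat_lit 76) (XT.nd (nat_lit 78) (nat_lit 0) (nat_lit 0) (XT.lf (nat_lit 1900) (nat_lit 2618968338) (nat_lit 0) (nat_lit 2719619579) (nat_lit 1824) (nat_lit 2618968338) (nat_lit 523) (nat_lit 1) (nat_lit 498) (nat_lit 1) (nat_lit 522) (nat_lit 1) (nat_lit 312) (nat_lit 415) (nat_lit 413)) (XT.nd (nat_lit 78) (nat_lit 0) (nat_lit 76) (XT.lf (nat_lit 1900) (nat_lit 5125966650) (nat_lit 76) (nat_lit 1376955267) (nat_lit 0) (nat_lit 1376955267) (nat_lit 523) (nat_lit 1) (nat_lit 499) (nat_lit 1) (nat_lit 498) (nat_lit 1) (nat_lit 313) (nat_lit 415) (nat_lit 412)) (XT.lf (nat_lit 1900) (nat_lit 2491122657) (nat_lit 0) (nat_lit 2820810295) (nat_lit 1824) (nat_lit 2491122657) (nat_lit 524) (nat_lit 1) (nat_lit 499) (nat_lit 1) (nat_lit 523) (nat_lit 1) (nat_lit 314) (nat_lit 415) (nat_lit 411)))) (XT.nd (nat_lit 78) (nat_lit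 0) (nat_lit 76) (XT.lf (nat_lit 1900) (nat_lit 4822784082) (nat_lit 76) (nat_lit 1452296187) (nat_lit 0) (nat_lit 1452296187) (nat_lit 524) (nat_lit 1) (nat_lit 500) (nat_lit 1) (nat_lit 499) (nat_lit 1) (nat_lit 315) (nat_lit 415) (nat_lit 410)) (XT.nd (nat_lit 78) (nat_lit 0) (nat_lit 0) (XT.lf (nat_lit 1900) (nat_lit 2317255286) (nat_lit 0) (nat_lit 3018044383) (nat_lit 1824) (nat_lit 2317255286) (nat_lit 525) (nat_lit 1) (nat_lit 500) (nat_lit 1) (nat_lit 524) (nat_lit 1) (nat_lit 316) (nat_lit 415) (nat_lit 409)) (XT.lf (nat_lit 1900) (nat_lit 4430073145) (nat_lit 76) (nat_lit 1574369036) (nat_lit 0) (nat_lit 1574369036) (nat_lit 525) (nat_lit 1) (nat_lit 501) (nat_lit 1) (nat_lit 500) (nat_lit 1) (nat_lit 317) (nat_lit 415) (nat_lit 408)))))) (XT.nd (nat_lit 468) (nat_lit 0) (nat_lit 228) (XT.nd (nat_lit 234) (nat_lit 0) (nat_lit 76) (XT.nd (nat_lit 78) (nat_lit 0) (nat_lit 0) (XT.lf (nat_lit 1900) (nat_lit 2100153031) (nat_lit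 0) (nat_lit 3305632113) (nat_lit 1824) (nat_lit 2100153031) (nat_lit 526) (nat_lit 1) (nat_lit 501) (nat_lit 1) (nat_lit 525) (nat_lit 1) (nat_lit 318) (nat_lit 415) (nat_lit 407)) (XT.nd (nat_lit 78) (nat_lit 0) (nat_lit 76) (XT.lf (nat_lit 1900) (nat_lit 3953296637) (nat_lit 76) (nat_lit 1740385478) (nat_lit 0) (nat_lit 1740385478) (nat_lit 526) (nat_lit 1) (nat_lit 502) (nat_lit 1) (nat_lit 501) (nat_lit 1) (nat_lit 319) (nat_lit 415) (nat_lit 406)) (XT.lf (nat_lit 1900) (nat_lit 1842474880) (nat_lit 0) (nat_lit 3678143130) (nat_lit 1824) (nat_lit 1842474880) (nat_lit 527) (nat_lit 1) (nat_lit 502) (nat_lit 1) (nat_lit 526) (nat_lit 1) (nat_lit 320) (nat_lit 415) (nat_lit 405)))) (XT.nd (nat_lit 78) (nat_lit 0) (nat_lit 76) (XT.lf (nat_lit 1900) (nat_lit 3397666278) (nat_lit 76) (nat_lit 1947684547) (nat_lit 0) (nat_lit 1947684547) (nat_lit 527) (nat_lit 1) (nat_lit 503) (nat_lit 1) (nat_lit 502) (nat_lit 1) (nat_lit 321) (nat_lit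 415) (nat_lit 404)) (XT.nd (nat_lit 78) (nat_lit 0) (nat_lit 0) (XT.lf (nat_lit 1900) (nat_lit 1546757352) (nat_lit 0) (nat_lit 4130395628) (nat_lit 1824) (nat_lit 1546757352) (nat_lit 528) (nat_lit 1) (nat_lit 503) (nat_lit 1) (nat_lit 527) (nat_lit 1) (nat_lit 322) (nat_lit 415) (nat_lit 403)) (XT.lf (nat_lit 1900) (nat_lit 2768153230) (nat_lit 76) (nat_lit 2193727318) (nat_lit 0) (nat_lit 2193727318) (nat_lit 528) (nat_lit 1) (nat_lit 504) (nat_lit 1) (nat_lit 503) (nat_lit 1) (nat_lit 323) (nat_lit 415) (nat_lit 402))))) (XT.nd (nat_lit 234) (nat_lit 0) (nat_lit 76) (XT.nd (nat_lit 78) (nat_lit 0) (nat_lit 0) (XT.lf (nat_lit 1900) (nat_lit 1215419626) (nat_lit 0) (nat_lit 4657445961) (nat_lit 1824) (nat_lit 1215419626) (nat_lit 529) (nat_lit 1) (nat_lit 504) (nat_lit 1) (nat_lit 528) (nat_lit 1) (nat_lit 324) (nat_lit 415) (nat_lit 401)) (XT.nd (nat_lit 78) (nat_lit 0) (nat_lit 76) (XT.lf (nat_lit 1900) (nat_lit 2069498184) (nat_lit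 76) (nat_lit 2476091811) (nat_lit 0) (nat_lit 2476091811) (nat_lit 529) (nat_lit 1) (nat_lit 505) (nat_lit 1) (nat_lit 504) (nat_lit 1) (nat_lit 325) (nat_lit 415) (nat_lit 400)) (XT.lf (nat_lit 1900) (nat_lit 850768473) (nat_lit 0) (nat_lit 5254578670) (nat_lit 1824) (nat_lit 850768473) (nat_lit 530) (nat_lit 1) (nat_lit 505) (nat_lit 1) (nat_lit 529) (nat_lit 1) (nat_lit 326) (nat_lit 415) (nat_lit 399)))) (XT.nd (nat_lit 78) (nat_lit 0) (nat_lit 76) (XT.lf (nat_lit 1900) (nat_lit 1306221040) (nat_lit 76) (nat_lit 2792468082) (nat_lit 0) (nat_lit 2792468082) (nat_lit 530) (nat_lit 1) (nat_lit 506) (nat_lit 1) (nat_lit 505) (nat_lit 1) (nat_lit 327) (nat_lit 415) (nat_lit 398)) (XT.nd (nat_lit 78) (nat_lit 0) (nat_lit 0) (XT.lf (nat_lit 1900) (nat_lit 455002977) (nat_lit 0) (nat_lit 5917296914) (nat_lit 1824) (nat_lit 455002977) (nat_lit 531) (nat_lit 1) (nat_lit 506) (nat_lit 1) (nat_lit 530) (nat_lit 1) (nat_lit 328) (nat_lit 415)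 (nat_lit 397)) (XT.lf (nat_lit 1900) (nat_lit 482630208) (nat_lit 76) (nat_lit 3140653522) (nat_lit 0) (nat_lit 3140653522) (nat_lit 531) (nat_lit 1) (nat_lit 507) (nat_lit 1) (nat_lit 506) (nat_lit 1) (nat_lit 329) (nat_lit 415) (nat_lit 396))))))) (XT.nd (nat_lit 936) (nat_lit 5852) (nat_lit 0) (XT.nd (nat_lit 468) (nat_lit 2812) (nat_lit 0) (XT.nd (nat_lit 234) (nat_lit 0) (nat_lit 76) (XT.nd (nat_lit 78) (nat_lit 1900) (nat_lit 0) (XT.lf (nat_lit 1900) (nat_lit 30219076) (nat_lit 0) (nat_lit 6641313279) (nat_lit 1824) (nat_lit 30219076) (nat_lit 532) (nat_lit 1) (nat_lit 507) (nat_lit 1) (nat_lit 531) (nat_lit 1) (nat_lit 330) (nat_lit 415) (nat_lit 395)) (XT.nd (nat_lit 78) (nat_lit 0) (nat_lit 0) (XT.lf (nat_lit 1976) (nat_lit 3123958549) (nat_lit 0) (nat_lit 391959543) (nat_lit 1900) (nat_lit 3123958549) (nat_lit 508) (nat_lit 1) (nat_lit 482) (nat_lit 1) (nat_lit 507) (nat_lit 1) (nat_lit 331) (nat_lit 415) (nat_lit 394)) (XT.lf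 (nat_lit 1976) (nat_lit 5741524089) (nat_lit 76) (nat_lit 418812495) (nat_lit 0) (nat_lit 418812495) (nat_lit 508) (nat_lit 1) (nat_lit 483) (nat_lit 1) (nat_lit 482) (nat_lit 1) (nat_lit 332) (nat_lit 415) (nat_lit 393)))) (XT.nd (nat_lit 78) (nat_lit 0) (nat_lit 0) (XT.lf (nat_lit 1976) (nat_lit 2603518508) (nat_lit 0) (nat_lit 1311829684) (nat_lit 1900) (nat_lit 2603518508) (nat_lit 509) (nat_lit 1) (nat_lit 483) (nat_lit 1) (nat_lit 508) (nat_lit 1) (nat_lit 333) (nat_lit 415) (nat_lit 392)) (XT.nd (nat_lit 78) (nat_lit 0) (nat_lit 76) (XT.lf (nat_lit 1976) (nat_lit 4674399624) (nat_lit 76) (nat_lit 892598740) (nat_lit 0) (nat_lit 892598740) (nat_lit 509) (nat_lit 1) (nat_lit 484) (nat_lit 1) (nat_lit 483) (nat_lit 1) (nat_lit 334) (nat_lit 415) (nat_lit 391)) (XT.lf (nat_lit 76) (nat_lit 2060624906) (nat_lit 0) (nat_lit 2279632856) (nat_lit 1900) (nat_lit 2060624906) (nat_lit 485) (nat_lit 1) (nat_lit 484) (nat_lit 1) (nat_lit 509)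 (nat_lit 1) (nat_lit 335) (nat_lit 415) (nat_lit 390))))) (XT.nd (nat_lit 234) (nat_lit 912) (nat_lit 0) (XT.nd (nat_lit 78) (nat_lit 912) (nat_lit 0) (XT.lf (nat_lit 1216) (nat_lit 3563948492) (nat_lit 0) (nat_lit 1389538468) (nat_lit 1140) (nat_lit 1389538468) (nat_lit 485) (nat_lit 1) (nat_lit 469) (nat_lit 1) (nat_lit 484) (nat_lit 1) (nat_lit 336) (nat_lit 415) (nat_lit 389)) (XT.nd (nat_lit 78) (nat_lit 912) (nat_lit 0) (XT.lf (nat_lit 76) (nat_lit 1496986170) (nat_lit 0) (nat_lit 3291867512) (nat_lit 1216) (nat_lit 1496986170) (nat_lit 470) (nat_lit 1) (nat_lit 469) (nat_lit 1) (nat_lit 485) (nat_lit 1) (nat_lit 337) (nat_lit 415) (nat_lit 388)) (XT.lf (nat_lit 988) (nat_lit 2413515168) (nat_lit 0) (nat_lit 1907917873) (nat_lit 912) (nat_lit 1907917873) (nat_lit 470) (nat_lit 1) (nat_lit 457) (nat_lit 1) (nat_lit 469) (nat_lit 1) (nat_lit 338) (nat_lit 415) (nat_lit 387)))) (XT.nd (nat_lit 78) (nat_lit 912) (nat_lit 0) (XT.lf (nat_lit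 76) (nat_lit 914227982) (nat_lit 0) (nat_lit 4345200236) (nat_lit 988) (nat_lit 914227982) (nat_lit 458) (nat_lit 1) (nat_lit 457) (nat_lit 1) (nat_lit 470) (nat_lit 1) (nat_lit 339) (nat_lit 415) (nat_lit 386)) (XT.nd (nat_lit 78) (nat_lit 0) (nat_lit 0) (XT.lf (nat_lit 988) (nat_lit 1226281667) (nat_lit 0) (nat_lit 2446105673) (nat_lit 912) (nat_lit 2446105673) (nat_lit 458) (nat_lit 1) (nat_lit 445) (nat_lit 1) (nat_lit 457) (nat_lit 1) (nat_lit 340) (nat_lit 415) (nat_lit 385)) (XT.lf (nat_lit 76) (nat_lit 313896819) (nat_lit 0) (nat_lit 5436458582) (nat_lit 988) (nat_lit 313896819) (nat_lit 446) (nat_lit 1) (nat_lit 445) (nat_lit 1) (nat_lit 458) (nat_lit 1) (nat_lit 341) (nat_lit 415) (nat_lit 384)))))) (XT.nd (nat_lit 468) (nat_lit 2356) (nat_lit 0) (XT.nd (nat_lit 234) (nat_lit 1672) (nat_lit 0) (XT.nd (nat_lit 78) (nat_lit 988) (nat_lit 0) (XT.lf (nat_lit 912) (nat_lit 5274494) (nat_lit 0) (nat_lit 3002549591) (nat_lit 836) (nat_lit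 3002549591) (nat_lit 446) (nat_lit 1) (nat_lit 434) (nat_lit 1) (nat_lit 445) (nat_lit 1) (nat_lit 342) (nat_lit 415) (nat_lit 383)) (XT.nd (nat_lit 78) (nat_lit 0) (nat_lit 0) (XT.lf (nat_lit 988) (nat_lit 5356300642) (nat_lit 0) (nat_lit 300546288) (nat_lit 912) (nat_lit 300546288) (nat_lit 434) (nat_lit 1) (nat_lit 421) (nat_lit 1) (nat_lit 433) (nat_lit 1) (nat_lit 343) (nat_lit 415) (nat_lit 382)) (XT.lf (nat_lit 76) (nat_lit 2337238227) (nat_lit 0) (nat_lit 1230278935) (nat_lit 988) (nat_lit 2337238227) (nat_lit 422) (nat_lit 1) (nat_lit 421) (nat_lit 1) (nat_lit 434) (nat_lit 1) (nat_lit 344) (nat_lit 415) (nat_lit 381)))) (XT.nd (nat_lit 78) (nat_lit 836) (nat_lit 0) (XT.lf (nat_lit 912) (nat_lit 3997927429) (nat_lit 0) (nat_lit 927531771) (nat_lit 836) (nat_lit 927531771) (nat_lit 422) (nat_lit 1) (nat_lit 410) (nat_lit 1) (nat_lit 421) (nat_lit 1) (nat_lit 345) (nat_lit 415) (nat_lit 380)) (XT.nd (nat_lit 78) (nat_lit 836) (nat_lit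 0) (XT.lf (nat_lit 76) (nat_lit 1654083864) (nat_lit 0) (nat_lit 2493554666) (nat_lit 912) (nat_lit 1654083864) (nat_lit 411) (nat_lit 1) (nat_lit 410) (nat_lit 1) (nat_lit 422) (nat_lit 1) (nat_lit 346) (nat_lit 415) (nat_lit 379)) (XT.lf (nat_lit 912) (nat_lit 2615527765) (nat_lit 0) (nat_lit 1567804828) (nat_lit 836) (nat_lit 1567804828) (nat_lit 411) (nat_lit 1) (nat_lit 399) (nat_lit 1) (nat_lit 410) (nat_lit 1) (nat_lit 347) (nat_lit 415) (nat_lit 378))))) (XT.nd (nat_lit 234) (nat_lit 1596) (nat_lit 0) (XT.nd (nat_lit 78) (nat_lit 760) (nat_lit 0) (XT.lf (nat_lit 76) (nat_lit 959573800) (nat_lit 0) (nat_lit 3782057073) (nat_lit 912) (nat_lit 959573800) (nat_lit 400) (nat_lit 1) (nat_lit 399) (nat_lit 1) (nat_lit 411) (nat_lit 1) (nat_lit 348) (nat_lit 415) (nat_lit 377)) (XT.nd (nat_lit 78) (nat_lit 0) (nat_lit 0) (XT.lf (nat_lit 836) (nat_lit 1211539995) (nat_lit 0) (nat_lit 2220111562) (nat_lit 760) (nat_lit 2220111562) (nat_lit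 400) (nat_lit 1) (nat_lit 389) (nat_lit 1) (nat_lit 399) (nat_lit 1) (nat_lit 349) (nat_lit 415) (nat_lit 376)) (XT.lf (nat_lit 76) (nat_lit 254891802) (nat_lit 0) (nat_lit 5093350079) (nat_lit 836) (nat_lit 254891802) (nat_lit 390) (nat_lit 1) (nat_lit 389) (nat_lit 1) (nat_lit 400) (nat_lit 1) (nat_lit 350) (nat_lit 415) (nat_lit 375)))) (XT.nd (nat_lit 78) (nat_lit 760) (nat_lit 0) (XT.lf (nat_lit 76) (nat_lit 2672914133) (nat_lit 0) (nat_lit 208944970) (nat_lit 836) (nat_lit 2672914133) (nat_lit 379) (nat_lit 1) (nat_lit 378) (nat_lit 1) (nat_lit 389) (nat_lit 1) (nat_lit 351) (nat_lit 415) (nat_lit 374)) (XT.nd (nat_lit 78) (nat_lit 0) (nat_lit 0) (XT.lf (nat_lit 836) (nat_lit 4595563413) (nat_lit 0) (nat_lit 455820217) (nat_lit 760) (nat_lit 455820217) (nat_lit 379) (nat_lit 1) (nat_lit 368) (nat_lit 1) (nat_lit 378) (nat_lit 1) (nat_lit 352) (nat_lit 415) (nat_lit 373)) (XT.lf (nat_lit 76) (nat_lit 1914787720) (nat_lit 0) (nat_lit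 1630395001) (nat_lit 836) (nat_lit 1914787720) (nat_lit 369) (nat_lit 1) (nat_lit 368) (nat_lit 1) (nat_lit 379) (nat_lit 1) (nat_lit 353) (nat_lit 415) (nat_lit 372))))))))
noncomputable def ec79 : XT := (XT.nd (nat_lit 1872) (nat_lit 6764) (nat_lit 0) (XT.nd (nat_lit 936) (nat_lit 4104) (nat_lit 0) (XT.nd (nat_lit 468) (nat_lit 1976) (nat_lit 0) (XT.nd (nat_lit 234) (nat_lit 1444) (nat_lit 0) (XT.nd (nat_lit 78) (nat_lit 684) (nat_lit 0) (XT.lf (nat_lit 836) (nat_lit 3067880556) (nat_lit 0) (nat_lit 1172786152) (nat_lit 760) (nat_lit 1172786152) (nat_lit 369) (nat_lit 1) (nat_lit 358) (nat_lit 1) (nat_lit 368) (nat_lit 1) (nat_lit 354) (nat_lit 415) (nat_lit 371)) (XT.nd (nat_lit 78) (nat_lit 684) (nat_lit 0) (XT.lf (nat_lit 76) (nat_lit 1150401888) (nat_lit 0) (nat_lit 3066645241) (nat_lit 836) (nat_lit 1150401888) (nat_lit 359) (nat_lit 1) (nat_lit 358) (nat_lit 1) (nat_lit 369) (nat_lit 1) (nat_lit 355) (nat_lit 415) (nat_lit 370))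 (XT.lf (nat_lit 760) (nat_lit 1528592419) (nat_lit 0) (nat_lit 1896679597) (nat_lit 684) (nat_lit 1896679597) (nat_lit 359) (nat_lit 1) (nat_lit 349) (nat_lit 1) (nat_lit 358) (nat_lit 1) (nat_lit 356) (nat_lit 415) (nat_lit 369)))) (XT.nd (nat_lit 78) (nat_lit 1444) (nat_lit 0) (XT.lf (nat_lit 76) (nat_lit 380699666) (nat_lit 0) (nat_lit 4515748491) (nat_lit 760) (nat_lit 380699666) (nat_lit 350) (nat_lit 1) (nat_lit 349) (nat_lit 1) (nat_lit 359) (nat_lit 1) (nat_lit 357) (nat_lit 415) (nat_lit 368)) (XT.nd (nat_lit 78) (nat_lit 684) (nat_lit 0) (XT.lf (nat_lit 76) (nat_lit 2606223033) (nat_lit 0) (nat_lit 20191290) (nat_lit 760) (nat_lit 2606223033) (nat_lit 340) (nat_lit 1) (nat_lit 339) (nat_lit 1) (nat_lit 349) (nat_lit 1) (nat_lit 358) (nat_lit 415) (nat_lit 367)) (XT.lf (nat_lit 760) (nat_lit 4407126672) (nat_lit 0) (nat_lit 390837927) (nat_lit 684) (nat_lit 390837927) (nat_lit 340) (nat_lit 1) (nat_lit 330) (nat_lit 1) (nat_lit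 339) (nat_lit 1) (nat_lit 359) (nat_lit 415) (nat_lit 366))))) (XT.nd (nat_lit 234) (nat_lit 1292) (nat_lit 0) (XT.nd (nat_lit 78) (nat_lit 684) (nat_lit 0) (XT.lf (nat_lit 76) (nat_lit 1794205791) (nat_lit 0) (nat_lit 1556843338) (nat_lit 760) (nat_lit 1794205791) (nat_lit 331) (nat_lit 1) (nat_lit 330) (nat_lit 1) (nat_lit 340) (nat_lit 1) (nat_lit 360) (nat_lit 415) (nat_lit 365)) (XT.nd (nat_lit 78) (nat_lit 0) (nat_lit 0) (XT.lf (nat_lit 760) (nat_lit 2775507341) (nat_lit 0) (nat_lit 1163426509) (nat_lit 684) (nat_lit 1163426509) (nat_lit 331) (nat_lit 1) (nat_lit 321) (nat_lit 1) (nat_lit 330) (nat_lit 1) (nat_lit 361) (nat_lit 415) (nat_lit 364)) (XT.lf (nat_lit 76) (nat_lit 980080777) (nat_lit 0) (nat_lit 3099784905) (nat_lit 760) (nat_lit 980080777) (nat_lit 322) (nat_lit 1) (nat_lit 321) (nat_lit 1) (nat_lit 331) (nat_lit 1) (nat_lit 362) (nat_lit 415) (nat_lit 363)))) (XT.nd (nat_lit 78) (nat_lit 684) (nat_lit 0) (XT.lf (nat_lit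 684) (nat_lit 1140409619) (nat_lit 0) (nat_lit 1938777358) (nat_lit 608) (nat_lit 1938777358) (nat_lit 322) (nat_lit 1) (nat_lit 313) (nat_lit 1) (nat_lit 321) (nat_lit 1) (nat_lit 363) (nat_lit 415) (nat_lit 362)) (XT.nd (nat_lit 78) (nat_lit 684) (nat_lit 0) (XT.lf (nat_lit 76) (nat_lit 164589434) (nat_lit 0) (nat_lit 4647478436) (nat_lit 684) (nat_lit 164589434) (nat_lit 314) (nat_lit 1) (nat_lit 313) (nat_lit 1) (nat_lit 322) (nat_lit 1) (nat_lit 364) (nat_lit 415) (nat_lit 361)) (XT.lf (nat_lit 76) (nat_lit 2222644934) (nat_lit 0) (nat_lit 490206327) (nat_lit 684) (nat_lit 2222644934) (nat_lit 305) (nat_lit 1) (nat_lit 304) (nat_lit 1) (nat_lit 313) (nat_lit 1) (nat_lit 365) (nat_lit 415) (nat_lit 360)))))) (XT.nd (nat_lit 468) (nat_lit 1672) (nat_lit 0) (XT.nd (nat_lit 234) (nat_lit 1216) (nat_lit 0) (XT.nd (nat_lit 78) (nat_lit 608) (nat_lit 0) (XT.lf (nat_lit 684) (nat_lit 3600431069) (nat_lit 0) (nat_lit 647281883) (nat_lit 608)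 (nat_lit 647281883) (nat_lit 305) (nat_lit 1) (nat_lit 296) (nat_lit 1) (nat_lit 304) (nat_lit 1) (nat_lit 366) (nat_lit 415) (nat_lit 359)) (XT.nd (nat_lit 78) (nat_lit 608) (nat_lit 0) (XT.lf (nat_lit 76) (nat_lit 1374147107) (nat_lit 0) (nat_lit 2106525877) (nat_lit 684) (nat_lit 1374147107) (nat_lit 297) (nat_lit 1) (nat_lit 296) (nat_lit 1) (nat_lit 305) (nat_lit 1) (nat_lit 367) (nat_lit 415) (nat_lit 358)) (XT.lf (nat_lit 684) (nat_lit 1899007202) (nat_lit 0) (nat_lit 1458077073) (nat_lit 608) (nat_lit 1458077073) (nat_lit 297) (nat_lit 1) (nat_lit 288) (nat_lit 1) (nat_lit 296) (nat_lit 1) (nat_lit 368) (nat_lit 415) (nat_lit 357)))) (XT.nd (nat_lit 78) (nat_lit 1216) (nat_lit 0) (XT.lf (nat_lit 76) (nat_lit 526898335) (nat_lit 0) (nat_lit 3722236965) (nat_lit 684) (nat_lit 526898335) (nat_lit 289) (nat_lit 1) (nat_lit 288) (nat_lit 1) (nat_lit 297) (nat_lit 1) (nat_lit 369) (nat_lit 415) (nat_lit 356)) (XT.nd (nat_lit 78) (nat_lit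 684) (nat_lit 0) (XT.lf (nat_lit 608) (nat_lit 200670492) (nat_lit 0) (nat_lit 2268261237) (nat_lit 532) (nat_lit 2268261237) (nat_lit 289) (nat_lit 1) (nat_lit 281) (nat_lit 1) (nat_lit 288) (nat_lit 1) (nat_lit 370) (nat_lit 415) (nat_lit 355)) (XT.lf (nat_lit 684) (nat_lit 4066056318) (nat_lit 0) (nat_lit 316432751) (nat_lit 608) (nat_lit 316432751) (nat_lit 281) (nat_lit 1) (nat_lit 272) (nat_lit 1) (nat_lit 280) (nat_lit 1) (nat_lit 371) (nat_lit 415) (nat_lit 354))))) (XT.nd (nat_lit 234) (nat_lit 1140) (nat_lit 0) (XT.nd (nat_lit 78) (nat_lit 532) (nat_lit 0) (XT.lf (nat_lit 76) (nat_lit 1593485293) (nat_lit 0) (nat_lit 1473876963) (nat_lit 684) (nat_lit 1593485293) (nat_lit 273) (nat_lit 1) (nat_lit 272) (nat_lit 1) (nat_lit 281) (nat_lit 1) (nat_lit 372) (nat_lit 415) (nat_lit 353)) (XT.nd (nat_lit 78) (nat_lit 0) (nat_lit 0) (XT.lf (nat_lit 608) (nat_lit 2315425272) (nat_lit 0) (nat_lit 1153952217) (nat_lit 532) (nat_lit 1153952217)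 (nat_lit 273) (nat_lit 1) (nat_lit 265) (nat_lit 1) (nat_lit 272) (nat_lit 1) (nat_lit 373) (nat_lit 415) (nat_lit 352)) (XT.lf (nat_lit 76) (nat_lit 722817569) (nat_lit 0) (nat_lit 3140611702) (nat_lit 608) (nat_lit 722817569) (nat_lit 266) (nat_lit 1) (nat_lit 265) (nat_lit 1) (nat_lit 273) (nat_lit 1) (nat_lit 374) (nat_lit 415) (nat_lit 351)))) (XT.nd (nat_lit 78) (nat_lit 608) (nat_lit 0) (XT.lf (nat_lit 608) (nat_lit 572237795) (nat_lit 0) (nat_lit 1988624080) (nat_lit 532) (nat_lit 1988624080) (nat_lit 266) (nat_lit 1) (nat_lit 258) (nat_lit 1) (nat_lit 265) (nat_lit 1) (nat_lit 375) (nat_lit 415) (nat_lit 350)) (XT.nd (nat_lit 78) (nat_lit 0) (nat_lit 0) (XT.lf (nat_lit 608) (nat_lit 4227366376) (nat_lit 0) (nat_lit 142965093) (nat_lit 532) (nat_lit 142965093) (nat_lit 258) (nat_lit 1) (nat_lit 250) (nat_lit 1) (nat_lit 257) (nat_lit 1) (nat_lit 376) (nat_lit 415) (nat_lit 349)) (XT.lf (nat_lit 76) (nat_lit 1664917305) (nat_lit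 0) (nat_lit 1147360368) (nat_lit 608) (nat_lit 1664917305) (nat_lit 251) (nat_lit 1) (nat_lit 250) (nat_lit 1) (nat_lit 258) (nat_lit 1) (nat_lit 377) (nat_lit 415) (nat_lit 348))))))) (XT.nd (nat_lit 936) (nat_lit 3268) (nat_lit 0) (XT.nd (nat_lit 468) (nat_lit 1444) (nat_lit 0) (XT.nd (nat_lit 234) (nat_lit 1064) (nat_lit 0) (XT.nd (nat_lit 78) (nat_lit 456) (nat_lit 0) (XT.lf (nat_lit 608) (nat_lit 2442353086) (nat_lit 0) (nat_lit 999650088) (nat_lit 532) (nat_lit 999650088) (nat_lit 251) (nat_lit 1) (nat_lit 243) (nat_lit 1) (nat_lit 250) (nat_lit 1) (nat_lit 378) (nat_lit 415) (nat_lit 347)) (XT.nd (nat_lit 78) (nat_lit 456) (nat_lit 0) (XT.lf (nat_lit 76) (nat_lit 778049317) (nat_lit 0) (nat_lit 2850392659) (nat_lit 608) (nat_lit 778049317) (nat_lit 244) (nat_lit 1) (nat_lit 243) (nat_lit 1) (nat_lit 251) (nat_lit 1) (nat_lit 379) (nat_lit 415) (nat_lit 346)) (XT.lf (nat_lit 532) (nat_lit 668469138) (nat_lit 0) (nat_lit 1851590969)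 (nat_lit 456) (nat_lit 1851590969) (nat_lit 244) (nat_lit 1) (nat_lit 237) (nat_lit 1) (nat_lit 243) (nat_lit 1) (nat_lit 380) (nat_lit 415) (nat_lit 345)))) (XT.nd (nat_lit 78) (nat_lit 456) (nat_lit 0) (XT.lf (nat_lit 608) (nat_lit 4132527135) (nat_lit 0) (nat_lit 102413169) (nat_lit 532) (nat_lit 102413169) (nat_lit 237) (nat_lit 1) (nat_lit 229) (nat_lit 1) (nat_lit 236) (nat_lit 1) (nat_lit 381) (nat_lit 415) (nat_lit 344)) (XT.nd (nat_lit 78) (nat_lit 456) (nat_lit 0) (XT.lf (nat_lit 76) (nat_lit 1611936177) (nat_lit 0) (nat_lit 1079234294) (nat_lit 608) (nat_lit 1611936177) (nat_lit 230) (nat_lit 1) (nat_lit 229) (nat_lit 1) (nat_lit 237) (nat_lit 1) (nat_lit 382) (nat_lit 415) (nat_lit 343)) (XT.lf (nat_lit 532) (nat_lit 2325934109) (nat_lit 0) (nat_lit 971729000) (nat_lit 456) (nat_lit 971729000) (nat_lit 230) (nat_lit 1) (nat_lit 223) (nat_lit 1) (nat_lit 229) (nat_lit 1) (nat_lit 383) (nat_lit 415) (nat_lit 342))))) (XT.nd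 (nat_lit 234) (nat_lit 456) (nat_lit 0) (XT.nd (nat_lit 78) (nat_lit 988) (nat_lit 0) (XT.lf (nat_lit 76) (nat_lit 715099479) (nat_lit 0) (nat_lit 2805837653) (nat_lit 532) (nat_lit 715099479) (nat_lit 224) (nat_lit 1) (nat_lit 223) (nat_lit 1) (nat_lit 230) (nat_lit 1) (nat_lit 384) (nat_lit 415) (nat_lit 341)) (XT.nd (nat_lit 78) (nat_lit 532) (nat_lit 0) (XT.lf (nat_lit 532) (nat_lit 533567784) (nat_lit 0) (nat_lit 1834702703) (nat_lit 456) (nat_lit 1834702703) (nat_lit 224) (nat_lit 1) (nat_lit 217) (nat_lit 1) (nat_lit 223) (nat_lit 1) (nat_lit 385) (nat_lit 415) (nat_lit 340)) (XT.lf (nat_lit 532) (nat_lit 3823678051) (nat_lit 0) (nat_lit 173359895) (nat_lit 456) (nat_lit 173359895) (nat_lit 217) (nat_lit 1) (nat_lit 210) (nat_lit 1) (nat_lit 216) (nat_lit 1) (nat_lit 386) (nat_lit 415) (nat_lit 339)))) (XT.nd (nat_lit 78) (nat_lit 456) (nat_lit 0) (XT.lf (nat_lit 76) (nat_lit 1455092363) (nat_lit 0) (nat_lit 1227712054) (nat_lit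 532) (nat_lit 1455092363) (nat_lit 211) (nat_lit 1) (nat_lit 210) (nat_lit 1) (nat_lit 217) (nat_lit 1) (nat_lit 387) (nat_lit 415) (nat_lit 338)) (XT.nd (nat_lit 78) (nat_lit 0) (nat_lit 0) (XT.lf (nat_lit 532) (nat_lit 2006525983) (nat_lit 0) (nat_lit 1049674319) (nat_lit 456) (nat_lit 1049674319) (nat_lit 211) (nat_lit 1) (nat_lit 204) (nat_lit 1) (nat_lit 210) (nat_lit 1) (nat_lit 388) (nat_lit 415) (nat_lit 337)) (XT.lf (nat_lit 76) (nat_lit 553648893) (nat_lit 0) (nat_lit 2966922007) (nat_lit 532) (nat_lit 553648893) (nat_lit 205) (nat_lit 1) (nat_lit 204) (nat_lit 1) (nat_lit 211) (nat_lit 1) (nat_lit 389) (nat_lit 415) (nat_lit 336)))))) (XT.nd (nat_lit 468) (nat_lit 1520) (nat_lit 0) (XT.nd (nat_lit 234) (nat_lit 836) (nat_lit 0) (XT.nd (nat_lit 78) (nat_lit 532) (nat_lit 0) (XT.lf (nat_lit 456) (nat_lit 206182292) (nat_lit 0) (nat_lit 1918310314) (nat_lit 380) (nat_lit 1918310314) (nat_lit 205) (nat_lit 1) (nat_lit 199) (nat_lit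 1) (nat_lit 204) (nat_lit 1) (nat_lit 390) (nat_lit 415) (nat_lit 335)) (XT.nd (nat_lit 78) (nat_lit 0) (nat_lit 0) (XT.lf (nat_lit 532) (nat_lit 3337633407) (nat_lit 0) (nat_lit 337082523) (nat_lit 456) (nat_lit 337082523) (nat_lit 199) (nat_lit 1) (nat_lit 192) (nat_lit 1) (nat_lit 198) (nat_lit 1) (nat_lit 391) (nat_lit 415) (nat_lit 334)) (XT.lf (nat_lit 76) (nat_lit 1212336279) (nat_lit 0) (nat_lit 1556269708) (nat_lit 532) (nat_lit 1212336279) (nat_lit 193) (nat_lit 1) (nat_lit 192) (nat_lit 1) (nat_lit 199) (nat_lit 1) (nat_lit 392) (nat_lit 415) (nat_lit 333)))) (XT.nd (nat_lit 78) (nat_lit 456) (nat_lit 0) (XT.lf (nat_lit 456) (nat_lit 1519374288) (nat_lit 0) (nat_lit 1215558029) (nat_lit 380) (nat_lit 1215558029) (nat_lit 193) (nat_lit 1) (nat_lit 187) (nat_lit 1) (nat_lit 192) (nat_lit 1) (nat_lit 393) (nat_lit 415) (nat_lit 332)) (XT.nd (nat_lit 78) (nat_lit 456) (nat_lit 0) (XT.lf (nat_lit 76) (nat_lit 310882441) (nat_lit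 0) (nat_lit 3298673344) (nat_lit 456) (nat_lit 310882441) (nat_lit 188) (nat_lit 1) (nat_lit 187) (nat_lit 1) (nat_lit 193) (nat_lit 1) (nat_lit 394) (nat_lit 415) (nat_lit 331)) (XT.lf (nat_lit 76) (nat_lit 1807119446) (nat_lit 0) (nat_lit 276274594) (nat_lit 456) (nat_lit 1807119446) (nat_lit 182) (nat_lit 1) (nat_lit 181) (nat_lit 1) (nat_lit 187) (nat_lit 1) (nat_lit 395) (nat_lit 415) (nat_lit 330))))) (XT.nd (nat_lit 234) (nat_lit 760) (nat_lit 0) (XT.nd (nat_lit 78) (nat_lit 380) (nat_lit 0) (XT.lf (nat_lit 456) (nat_lit 2706503967) (nat_lit 0) (nat_lit 577238529) (nat_lit 380) (nat_lit 577238529) (nat_lit 182) (nat_lit 1) (nat_lit 176) (nat_lit 1) (nat_lit 181) (nat_lit 1) (nat_lit 396) (nat_lit 415) (nat_lit 329)) (XT.nd (nat_lit 78) (nat_lit 380) (nat_lit 0) (XT.lf (nat_lit 76) (nat_lit 899321949) (nat_lit 0) (nat_lit 2033032285) (nat_lit 456) (nat_lit 899321949) (nat_lit 177) (nat_lit 1) (nat_lit 176) (nat_lit 1) (nat_lit 182)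 (nat_lit 1) (nat_lit 397) (nat_lit 415) (nat_lit 328)) (XT.lf (nat_lit 456) (nat_lit 895209795) (nat_lit 0) (nat_lit 1453736946) (nat_lit 380) (nat_lit 1453736946) (nat_lit 177) (nat_lit 1) (nat_lit 171) (nat_lit 1) (nat_lit 176) (nat_lit 1) (nat_lit 398) (nat_lit 415) (nat_lit 327)))) (XT.nd (nat_lit 156) (nat_lit 380) (nat_lit 0) (XT.nd (nat_lit 78) (nat_lit 380) (nat_lit 0) (XT.lf (nat_lit 76) (nat_lit 1780772) (nat_lit 0) (nat_lit 3770581882) (nat_lit 456) (nat_lit 1780772) (nat_lit 172) (nat_lit 1) (nat_lit 171) (nat_lit 1) (nat_lit 177) (nat_lit 1) (nat_lit 399) (nat_lit 415) (nat_lit 326)) (XT.lf (nat_lit 76) (nat_lit 1430946849) (nat_lit 0) (nat_lit 883666406) (nat_lit 380) (nat_lit 1430946849) (nat_lit 167) (nat_lit 1) (nat_lit 166) (nat_lit 1) (nat_lit 171) (nat_lit 1) (nat_lit 400) (nat_lit 415) (nat_lit 325))) (XT.nd (nat_lit 78) (nat_lit 0) (nat_lit 0) (XT.lf (nat_lit 456) (nat_lit 1958247978) (nat_lit 0) (nat_lit 879587180)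 (nat_lit 380) (nat_lit 879587180) (nat_lit 167) (nat_lit 1) (nat_lit 161) (nat_lit 1) (nat_lit 166) (nat_lit 1) (nat_lit 401) (nat_lit 415) (nat_lit 324)) (XT.lf (nat_lit 76) (nat_lit 529676135) (nat_lit 0) (nat_lit 2630229737) (nat_lit 456) (nat_lit 529676135) (nat_lit 162) (nat_lit 1) (nat_lit 161) (nat_lit 1) (nat_lit 167) (nat_lit 1) (nat_lit 402) (nat_lit 415) (nat_lit 323))))))))
noncomputable def ec80 : XT := (XT.nd (nat_lit 52260) (nat_lit 0) (nat_lit 27588) (XT.nd (nat_lit 936) (nat_lit 1444) (nat_lit 0) (XT.nd (nat_lit 468) (nat_lit 1292) (nat_lit 0) (XT.nd (nat_lit 234) (nat_lit 684) (nat_lit 0) (XT.nd (nat_lit 78) (nat_lit 456) (nat_lit 0) (XT.lf (nat_lit 380) (nat_lit 160777827) (nat_lit 0) (nat_lit 1750585221) (nat_lit 304) (nat_lit 1750585221) (nat_lit 162) (nat_lit 1) (nat_lit 157) (nat_lit 1) (nat_lit 161) (nat_lit 1) (nat_lit 403) (nat_lit 415) (nat_lit 322)) (XT.nd (nat_lit 78) (nat_lit 0) (nat_lit 0) (XT.lf (nat_lit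 456) (nat_lit 2918150305) (nat_lit 0) (nat_lit 358248624) (nat_lit 380) (nat_lit 358248624) (nat_lit 157) (nat_lit 1) (nat_lit 151) (nat_lit 1) (nat_lit 156) (nat_lit 1) (nat_lit 404) (nat_lit 415) (nat_lit 321)) (XT.lf (nat_lit 76) (nat_lit 1007016304) (nat_lit 0) (nat_lit 1593450135) (nat_lit 456) (nat_lit 1007016304) (nat_lit 152) (nat_lit 1) (nat_lit 151) (nat_lit 1) (nat_lit 157) (nat_lit 1) (nat_lit 405) (nat_lit 415) (nat_lit 320)))) (XT.nd (nat_lit 78) (nat_lit 380) (nat_lit 0) (XT.lf (nat_lit 380) (nat_lit 1117159486) (nat_lit 0) (nat_lit 1231742769) (nat_lit 304) (nat_lit 1231742769) (nat_lit 152) (nat_lit 1) (nat_lit 147) (nat_lit 1) (nat_lit 151) (nat_lit 1) (nat_lit 406) (nat_lit 415) (nat_lit 319)) (XT.nd (nat_lit 78) (nat_lit 380) (nat_lit 0) (XT.lf (nat_lit 76) (nat_lit 115236852) (nat_lit 0) (nat_lit 3323714764) (nat_lit 380) (nat_lit 115236852) (nat_lit 148) (nat_lit 1) (nat_lit 147) (nat_lit 1) (nat_lit 152) (nat_lit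 1) (nat_lit 407) (nat_lit 415) (nat_lit 318)) (XT.lf (nat_lit 76) (nat_lit 1437854298) (nat_lit 0) (nat_lit 652027523) (nat_lit 380) (nat_lit 1437854298) (nat_lit 143) (nat_lit 1) (nat_lit 142) (nat_lit 1) (nat_lit 147) (nat_lit 1) (nat_lit 408) (nat_lit 415) (nat_lit 317))))) (XT.nd (nat_lit 234) (nat_lit 684) (nat_lit 0) (XT.nd (nat_lit 78) (nat_lit 304) (nat_lit 0) (XT.lf (nat_lit 380) (nat_lit 1981715648) (nat_lit 0) (nat_lit 759971903) (nat_lit 304) (nat_lit 759971903) (nat_lit 143) (nat_lit 1) (nat_lit 138) (nat_lit 1) (nat_lit 142) (nat_lit 1) (nat_lit 409) (nat_lit 415) (nat_lit 316)) (XT.nd (nat_lit 78) (nat_lit 304) (nat_lit 0) (XT.lf (nat_lit 76) (nat_lit 546064014) (nat_lit 0) (nat_lit 2383708736) (nat_lit 380) (nat_lit 546064014) (nat_lit 139) (nat_lit 1) (nat_lit 138) (nat_lit 1) (nat_lit 143) (nat_lit 1) (nat_lit 410) (nat_lit 415) (nat_lit 315)) (XT.lf (nat_lit 380) (nat_lit 204301009) (nat_lit 0) (nat_lit 1622955948)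 (nat_lit 304) (nat_lit 1622955948) (nat_lit 139) (nat_lit 1) (nat_lit 134) (nat_lit 1) (nat_lit 138) (nat_lit 1) (nat_lit 411) (nat_lit 415) (nat_lit 314)))) (XT.nd (nat_lit 78) (nat_lit 304) (nat_lit 0) (XT.lf (nat_lit 380) (nat_lit 2761811649) (nat_lit 0) (nat_lit 331539684) (nat_lit 304) (nat_lit 331539684) (nat_lit 134) (nat_lit 1) (nat_lit 129) (nat_lit 1) (nat_lit 133) (nat_lit 1) (nat_lit 412) (nat_lit 415) (nat_lit 313)) (XT.nd (nat_lit 78) (nat_lit 304) (nat_lit 0) (XT.lf (nat_lit 76) (nat_lit 935462051) (nat_lit 0) (nat_lit 1528756896) (nat_lit 380) (nat_lit 935462051) (nat_lit 130) (nat_lit 1) (nat_lit 129) (nat_lit 1) (nat_lit 134) (nat_lit 1) (nat_lit 413) (nat_lit 415) (nat_lit 312)) (XT.lf (nat_lit 380) (nat_lit 987447328) (nat_lit 0) (nat_lit 1193660378) (nat_lit 304) (nat_lit 1193660378) (nat_lit 130) (nat_lit 1) (nat_lit 125) (nat_lit 1) (nat_lit 129) (nat_lit 1) (nat_lit 414) (nat_lit 415) (nat_lit 311)))))) (XT.nd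 (nat_lit 468) (nat_lit 228) (nat_lit 0) (XT.nd (nat_lit 234) (nat_lit 608) (nat_lit 0) (XT.nd (nat_lit 78) (nat_lit 608) (nat_lit 0) (XT.lf (nat_lit 76) (nat_lit 57377121) (nat_lit 0) (nat_lit 3235461196) (nat_lit 380) (nat_lit 57377121) (nat_lit 126) (nat_lit 1) (nat_lit 125) (nat_lit 1) (nat_lit 130) (nat_lit 1) (nat_lit 415) (nat_lit 415) (nat_lit 310)) (XT.nd (nat_lit 78) (nat_lit 304) (nat_lit 0) (XT.lf (nat_lit 76) (nat_lit 1286754993) (nat_lit 0) (nat_lit 752117893) (nat_lit 304) (nat_lit 1286754993) (nat_lit 122) (nat_lit 1) (nat_lit 121) (nat_lit 1) (nat_lit 125) (nat_lit 1) (nat_lit 416) (nat_lit 415) (nat_lit 309)) (XT.lf (nat_lit 380) (nat_lit 1695292595) (nat_lit 0) (nat_lit 803051749) (nat_lit 304) (nat_lit 803051749) (nat_lit 122) (nat_lit 1) (nat_lit 117) (nat_lit 1) (nat_lit 121) (nat_lit 1) (nat_lit 417) (nat_lit 415) (nat_lit 308)))) (XT.nd (nat_lit 78) (nat_lit 608) (nat_lit 0) (XT.lf (nat_lit 76) (nat_lit 411534024)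 (nat_lit 0) (nat_lit 2454351252) (nat_lit 380) (nat_lit 411534024) (nat_lit 118) (nat_lit 1) (nat_lit 117) (nat_lit 1) (nat_lit 122) (nat_lit 1) (nat_lit 418) (nat_lit 415) (nat_lit 307)) (XT.nd (nat_lit 78) (nat_lit 304) (nat_lit 0) (XT.lf (nat_lit 76) (nat_lit 1603010417) (nat_lit 0) (nat_lit 47568937) (nat_lit 304) (nat_lit 1603010417) (nat_lit 114) (nat_lit 1) (nat_lit 113) (nat_lit 1) (nat_lit 117) (nat_lit 1) (nat_lit 419) (nat_lit 415) (nat_lit 306)) (XT.lf (nat_lit 380) (nat_lit 2333878405) (nat_lit 0) (nat_lit 448066340) (nat_lit 304) (nat_lit 448066340) (nat_lit 114) (nat_lit 1) (nat_lit 109) (nat_lit 1) (nat_lit 113) (nat_lit 1) (nat_lit 420) (nat_lit 415) (nat_lit 305))))) (XT.nd (nat_lit 50622) (nat_lit 0) (nat_lit 29716) (XT.nd (nat_lit 78) (nat_lit 228) (nat_lit 0) (XT.lf (nat_lit 76) (nat_lit 731690329) (nat_lit 0) (nat_lit 1743211006) (nat_lit 380) (nat_lit 731690329) (nat_lit 110) (nat_lit 1) (nat_lit 109) (nat_lit 1)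 (nat_lit 114) (nat_lit 1) (nat_lit 421) (nat_lit 415) (nat_lit 304)) (XT.nd (nat_lit 50466) (nat_lit 0) (nat_lit 29716) (XT.lf (nat_lit 304) (nat_lit 598483002) (nat_lit 0) (nat_lit 1292461786) (nat_lit 228) (nat_lit 1292461786) (nat_lit 110) (nat_lit 1) (nat_lit 106) (nat_lit 1) (nat_lit 109) (nat_lit 1) (nat_lit 422) (nat_lit 415) (nat_lit 303)) (XT.lf (nat_lit 1900) (nat_lit 1375914789) (nat_lit 0) (nat_lit 1387420637) (nat_lit 1900) (nat_lit 1375914789) (nat_lit 522) (nat_lit 1) (nat_lit 497) (nat_lit 0) (nat_lit 522) (nat_lit 0) (nat_lit 308) (nat_lit 416) (nat_lit 416)))) (XT.nd (nat_lit 78) (nat_lit 0) (nat_lit 76) (XT.lf (nat_lit 1900) (nat_lit 5440573947) (nat_lit 76) (nat_lit 1378292869) (nat_lit 0) (nat_lit 1378292869) (nat_lit 522) (nat_lit 1) (nat_lit 498) (nat_lit 1) (nat_lit 497) (nat_lit 0) (nat_lit 309) (nat_lit 416) (nat_lit 415)) (XT.nd (nat_lit 78) (nat_lit 0) (nat_lit 0) (XT.lf (nat_lit 1900) (nat_lit 2671347705)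 (nat_lit 0) (nat_lit 2774011971) (nat_lit 1824) (nat_lit 2671347705) (nat_lit 523) (nat_lit 1) (nat_lit 498) (nat_lit 1) (nat_lit 522) (nat_lit 1) (nat_lit 310) (nat_lit 416) (nat_lit 414)) (XT.lf (nat_lit 1900) (nat_lit 5228485983) (nat_lit 76) (nat_lit 1404494373) (nat_lit 0) (nat_lit 1404494373) (nat_lit 523) (nat_lit 1) (nat_lit 499) (nat_lit 1) (nat_lit 498) (nat_lit 1) (nat_lit 311) (nat_lit 416) (nat_lit 413))))))) (XT.nd (nat_lit 936) (nat_lit 2280) (nat_lit 0) (XT.nd (nat_lit 468) (nat_lit 0) (nat_lit 228) (XT.nd (nat_lit 234) (nat_lit 0) (nat_lit 76) (XT.nd (nat_lit 78) (nat_lit 0) (nat_lit 0) (XT.lf (nat_lit 1900) (nat_lit 2540945110) (nat_lit 0) (nat_lit 2877226500) (nat_lit 1824) (nat_lit 2540945110) (nat_lit 524) (nat_lit 1) (nat_lit 499) (nat_lit 1) (nat_lit 523) (nat_lit 1) (nat_lit 312) (nat_lit 416) (nat_lit 412)) (XT.nd (nat_lit 78) (nat_lit 0) (nat_lit 76) (XT.lf (nat_lit 1900) (nat_lit 4919239763) (nat_lit 76) (nat_lit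 1481342111) (nat_lit 0) (nat_lit 1481342111) (nat_lit 524) (nat_lit 1) (nat_lit 500) (nat_lit 1) (nat_lit 499) (nat_lit 1) (nat_lit 313) (nat_lit 416) (nat_lit 411)) (XT.lf (nat_lit 1900) (nat_lit 2363600392) (nat_lit 0) (nat_lit 3078405271) (nat_lit 1824) (nat_lit 2363600392) (nat_lit 525) (nat_lit 1) (nat_lit 500) (nat_lit 1) (nat_lit 524) (nat_lit 1) (nat_lit 314) (nat_lit 416) (nat_lit 410)))) (XT.nd (nat_lit 78) (nat_lit 0) (nat_lit 76) (XT.lf (nat_lit 1900) (nat_lit 4518674608) (nat_lit 76) (nat_lit 1605856417) (nat_lit 0) (nat_lit 1605856417) (nat_lit 525) (nat_lit 1) (nat_lit 501) (nat_lit 1) (nat_lit 500) (nat_lit 1) (nat_lit 315) (nat_lit 416) (nat_lit 409)) (XT.nd (nat_lit 78) (nat_lit 0) (nat_lit 0) (XT.lf (nat_lit 1900) (nat_lit 2142156092) (nat_lit 0) (nat_lit 3371744755) (nat_lit 1824) (nat_lit 2142156092) (nat_lit 526) (nat_lit 1) (nat_lit 501) (nat_lit 1) (nat_lit 525) (nat_lit 1) (nat_lit 316) (nat_lit 416) (nat_lit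 408)) (XT.lf (nat_lit 1900) (nat_lit 4032362569) (nat_lit 76) (nat_lit 1775193188) (nat_lit 0) (nat_lit 1775193188) (nat_lit 526) (nat_lit 1) (nat_lit 502) (nat_lit 1) (nat_lit 501) (nat_lit 1) (nat_lit 317) (nat_lit 416) (nat_lit 407))))) (XT.nd (nat_lit 234) (nat_lit 0) (nat_lit 76) (XT.nd (nat_lit 78) (nat_lit 0) (nat_lit 0) (XT.lf (nat_lit 1900) (nat_lit 1879324378) (nat_lit 0) (nat_lit 3751705993) (nat_lit 1824) (nat_lit 1879324378) (nat_lit 527) (nat_lit 1) (nat_lit 502) (nat_lit 1) (nat_lit 526) (nat_lit 1) (nat_lit 318) (nat_lit 416) (nat_lit 406)) (XT.nd (nat_lit 78) (nat_lit 0) (nat_lit 76) (XT.lf (nat_lit 1900) (nat_lit 3465619604) (nat_lit 76) (nat_lit 1986638238) (nat_lit 0) (nat_lit 1986638238) (nat_lit 527) (nat_lit 1) (nat_lit 503) (nat_lit 1) (nat_lit 502) (nat_lit 1) (nat_lit 319) (nat_lit 416) (nat_lit 405)) (XT.lf (nat_lit 1900) (nat_lit 1577692499) (nat_lit 0) (nat_lit 4213003540) (nat_lit 1824) (nat_lit 1577692499)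 (nat_lit 528) (nat_lit 1) (nat_lit 503) (nat_lit 1) (nat_lit 527) (nat_lit 1) (nat_lit 320) (nat_lit 416) (nat_lit 404)))) (XT.nd (nat_lit 78) (nat_lit 0) (nat_lit 76) (XT.lf (nat_lit 1900) (nat_lit 2823516295) (nat_lit 76) (nat_lit 2237601865) (nat_lit 0) (nat_lit 2237601865) (nat_lit 528) (nat_lit 1) (nat_lit 504) (nat_lit 1) (nat_lit 503) (nat_lit 1) (nat_lit 321) (nat_lit 416) (nat_lit 403)) (XT.nd (nat_lit 78) (nat_lit 0) (nat_lit 0) (XT.lf (nat_lit 1900) (nat_lit 1239728019) (nat_lit 0) (nat_lit 4750594880) (nat_lit 1824) (nat_lit 1239728019) (nat_lit 529) (nat_lit 1) (nat_lit 504) (nat_lit 1) (nat_lit 528) (nat_lit 1) (nat_lit 322) (nat_lit 416) (nat_lit 402)) (XT.lf (nat_lit 1900) (nat_lit 2110888147) (nat_lit 76) (nat_lit 2525613648) (nat_lit 0) (nat_lit 2525613648) (nat_lit 529) (nat_lit 1) (nat_lit 505) (nat_lit 1) (nat_lit 504) (nat_lit 1) (nat_lit 323) (nat_lit 416) (nat_lit 401)))))) (XT.nd (nat_lit 468) (nat_lit 988) (nat_lit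 0) (XT.nd (nat_lit 234) (nat_lit 1748) (nat_lit 0) (XT.nd (nat_lit 78) (nat_lit 0) (nat_lit 0) (XT.lf (nat_lit 1900) (nat_lit 867783843) (nat_lit 0) (nat_lit 5359670244) (nat_lit 1824) (nat_lit 867783843) (nat_lit 530) (nat_lit 1) (nat_lit 505) (nat_lit 1) (nat_lit 529) (nat_lit 1) (nat_lit 324) (nat_lit 416) (nat_lit 400)) (XT.nd (nat_lit 78) (nat_lit 0) (nat_lit 76) (XT.lf (nat_lit 1900) (nat_lit 1332345461) (nat_lit 76) (nat_lit 2848317443) (nat_lit 0) (nat_lit 2848317443) (nat_lit 530) (nat_lit 1) (nat_lit 506) (nat_lit 1) (nat_lit 505) (nat_lit 1) (nat_lit 325) (nat_lit 416) (nat_lit 399)) (XT.lf (nat_lit 1900) (nat_lit 464103037) (nat_lit 0) (nat_lit 6035642852) (nat_lit 1824) (nat_lit 464103037) (nat_lit 531) (nat_lit 1) (nat_lit 506) (nat_lit 1) (nat_lit 530) (nat_lit 1) (nat_lit 326) (nat_lit 416) (nat_lit 398)))) (XT.nd (nat_lit 78) (nat_lit 1824) (nat_lit 0) (XT.lf (nat_lit 1900) (nat_lit 492282813) (nat_lit 76) (nat_lit 3203466593)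 (nat_lit 0) (nat_lit 3203466593) (nat_lit 531) (nat_lit 1) (nat_lit 507) (nat_lit 1) (nat_lit 506) (nat_lit 1) (nat_lit 327) (nat_lit 416) (nat_lit 397)) (XT.nd (nat_lit 78) (nat_lit 1900) (nat_lit 0) (XT.lf (nat_lit 1900) (nat_lit 30823457) (nat_lit 0) (nat_lit 6774139544) (nat_lit 1824) (nat_lit 30823457) (nat_lit 532) (nat_lit 1) (nat_lit 507) (nat_lit 1) (nat_lit 531) (nat_lit 1) (nat_lit 328) (nat_lit 416) (nat_lit 396)) (XT.lf (nat_lit 1976) (nat_lit 3186437720) (nat_lit 0) (nat_lit 399798734) (nat_lit 1900) (nat_lit 3186437720) (nat_lit 508) (nat_lit 1) (nat_lit 482) (nat_lit 1) (nat_lit 507) (nat_lit 1) (nat_lit 329) (nat_lit 416) (nat_lit 395))))) (XT.nd (nat_lit 234) (nat_lit 988) (nat_lit 0) (XT.nd (nat_lit 78) (nat_lit 0) (nat_lit 76) (XT.lf (nat_lit 1976) (nat_lit 5856354571) (nat_lit 76) (nat_lit 427188745) (nat_lit 0) (nat_lit 427188745) (nat_lit 508) (nat_lit 1) (nat_lit 483) (nat_lit 1) (nat_lit 482) (nat_lit 1) (nat_lit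 330) (nat_lit 416) (nat_lit 394)) (XT.nd (nat_lit 78) (nat_lit 0) (nat_lit 0) (XT.lf (nat_lit 1976) (nat_lit 2655588878) (nat_lit 0) (nat_lit 1338066278) (nat_lit 1900) (nat_lit 2655588878) (nat_lit 509) (nat_lit 1) (nat_lit 483) (nat_lit 1) (nat_lit 508) (nat_lit 1) (nat_lit 331) (nat_lit 416) (nat_lit 393)) (XT.lf (nat_lit 1976) (nat_lit 4767887616) (nat_lit 76) (nat_lit 910450714) (nat_lit 0) (nat_lit 910450714) (nat_lit 509) (nat_lit 1) (nat_lit 484) (nat_lit 1) (nat_lit 483) (nat_lit 1) (nat_lit 332) (nat_lit 416) (nat_lit 392)))) (XT.nd (nat_lit 78) (nat_lit 1140) (nat_lit 0) (XT.lf (nat_lit 76) (nat_lit 2101837404) (nat_lit 0) (nat_lit 2325225513) (nat_lit 1900) (nat_lit 2101837404) (nat_lit 485) (nat_lit 1) (nat_lit 484) (nat_lit 1) (nat_lit 509) (nat_lit 1) (nat_lit 333) (nat_lit 416) (nat_lit 391)) (XT.nd (nat_lit 78) (nat_lit 0) (nat_lit 0) (XT.lf (nat_lit 1216) (nat_lit 3635227462) (nat_lit 0) (nat_lit 1417329237) (nat_lit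 1140) (nat_lit 1417329237) (nat_lit 485) (nat_lit 1) (nat_lit 469) (nat_lit 1) (nat_lit 484) (nat_lit 1) (nat_lit 334) (nat_lit 416) (nat_lit 390)) (XT.lf (nat_lit 76) (nat_lit 1526925893) (nat_lit 0) (nat_lit 3357704862) (nat_lit 1216) (nat_lit 1526925893) (nat_lit 470) (nat_lit 1) (nat_lit 469) (nat_lit 1) (nat_lit 485) (nat_lit 1) (nat_lit 335) (nat_lit 416) (nat_lit 389))))))))
noncomputable def ec81 : XT := (XT.nd (nat_lit 1872) (nat_lit 8436) (nat_lit 0) (XT.nd (nat_lit 936) (nat_lit 5168) (nat_lit 0) (XT.nd (nat_lit 468) (nat_lit 2432) (nat_lit 0) (XT.nd (nat_lit 234) (nat_lit 1824) (nat_lit 0) (XT.nd (nat_lit 78) (nat_lit 912) (nat_lit 0) (XT.lf (nat_lit 988) (nat_lit 2461785471) (nat_lit 0) (nat_lit 1946076231) (nat_lit 912) (nat_lit 1946076231) (nat_lit 470) (nat_lit 1) (nat_lit 457) (nat_lit 1) (nat_lit 469) (nat_lit 1) (nat_lit 336) (nat_lit 416) (nat_lit 388)) (XT.nd (nat_lit 78) (nat_lit 912) (nat_lit 0) (XT.lf (nat_lit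 76) (nat_lit 932512542) (nat_lit 0) (nat_lit 4432104240) (nat_lit 988) (nat_lit 932512542) (nat_lit 458) (nat_lit 1) (nat_lit 457) (nat_lit 1) (nat_lit 470) (nat_lit 1) (nat_lit 337) (nat_lit 416) (nat_lit 387)) (XT.lf (nat_lit 988) (nat_lit 1250807301) (nat_lit 0) (nat_lit 2495027786) (nat_lit 912) (nat_lit 2495027786) (nat_lit 458) (nat_lit 1) (nat_lit 445) (nat_lit 1) (nat_lit 457) (nat_lit 1) (nat_lit 338) (nat_lit 416) (nat_lit 386)))) (XT.nd (nat_lit 78) (nat_lit 1824) (nat_lit 0) (XT.lf (nat_lit 76) (nat_lit 320174755) (nat_lit 0) (nat_lit 5545187754) (nat_lit 988) (nat_lit 320174755) (nat_lit 446) (nat_lit 1) (nat_lit 445) (nat_lit 1) (nat_lit 458) (nat_lit 1) (nat_lit 339) (nat_lit 416) (nat_lit 385)) (XT.nd (nat_lit 78) (nat_lit 988) (nat_lit 0) (XT.lf (nat_lit 912) (nat_lit 5379984) (nat_lit 0) (nat_lit 3062600582) (nat_lit 836) (nat_lit 3062600582) (nat_lit 446) (nat_lit 1) (nat_lit 434) (nat_lit 1) (nat_lit 445) (nat_lit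 1) (nat_lit 340) (nat_lit 416) (nat_lit 384)) (XT.lf (nat_lit 988) (nat_lit 5463426655) (nat_lit 0) (nat_lit 306557214) (nat_lit 912) (nat_lit 306557214) (nat_lit 434) (nat_lit 1) (nat_lit 421) (nat_lit 1) (nat_lit 433) (nat_lit 1) (nat_lit 341) (nat_lit 416) (nat_lit 383))))) (XT.nd (nat_lit 234) (nat_lit 1596) (nat_lit 0) (XT.nd (nat_lit 78) (nat_lit 836) (nat_lit 0) (XT.lf (nat_lit 76) (nat_lit 2383982992) (nat_lit 0) (nat_lit 1254884514) (nat_lit 988) (nat_lit 2383982992) (nat_lit 422) (nat_lit 1) (nat_lit 421) (nat_lit 1) (nat_lit 434) (nat_lit 1) (nat_lit 342) (nat_lit 416) (nat_lit 382)) (XT.nd (nat_lit 78) (nat_lit 0) (nat_lit 0) (XT.lf (nat_lit 912) (nat_lit 4077885977) (nat_lit 0) (nat_lit 946082406) (nat_lit 836) (nat_lit 946082406) (nat_lit 422) (nat_lit 1) (nat_lit 410) (nat_lit 1) (nat_lit 421) (nat_lit 1) (nat_lit 343) (nat_lit 416) (nat_lit 381)) (XT.lf (nat_lit 76) (nat_lit 1687165542) (nat_lit 0) (nat_lit 2543425759)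 (nat_lit 912) (nat_lit 1687165542) (nat_lit 411) (nat_lit 1) (nat_lit 410) (nat_lit 1) (nat_lit 422) (nat_lit 1) (nat_lit 344) (nat_lit 416) (nat_lit 380)))) (XT.nd (nat_lit 78) (nat_lit 760) (nat_lit 0) (XT.lf (nat_lit 912) (nat_lit 2667838320) (nat_lit 0) (nat_lit 1599160924) (nat_lit 836) (nat_lit 1599160924) (nat_lit 411) (nat_lit 1) (nat_lit 399) (nat_lit 1) (nat_lit 410) (nat_lit 1) (nat_lit 345) (nat_lit 416) (nat_lit 379)) (XT.nd (nat_lit 78) (nat_lit 760) (nat_lit 0) (XT.lf (nat_lit 76) (nat_lit 978765276) (nat_lit 0) (nat_lit 3857698215) (nat_lit 912) (nat_lit 978765276) (nat_lit 400) (nat_lit 1) (nat_lit 399) (nat_lit 1) (nat_lit 411) (nat_lit 1) (nat_lit 346) (nat_lit 416) (nat_lit 378)) (XT.lf (nat_lit 836) (nat_lit 1235770795) (nat_lit 0) (nat_lit 2264513793) (nat_lit 760) (nat_lit 2264513793) (nat_lit 400) (nat_lit 1) (nat_lit 389) (nat_lit 1) (nat_lit 399) (nat_lit 1) (nat_lit 347) (nat_lit 416) (nat_lit 377)))))) (XT.nd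 (nat_lit 468) (nat_lit 2812) (nat_lit 0) (XT.nd (nat_lit 234) (nat_lit 760) (nat_lit 0) (XT.nd (nat_lit 78) (nat_lit 1596) (nat_lit 0) (XT.lf (nat_lit 76) (nat_lit 259989638) (nat_lit 0) (nat_lit 5195217081) (nat_lit 836) (nat_lit 259989638) (nat_lit 390) (nat_lit 1) (nat_lit 389) (nat_lit 1) (nat_lit 400) (nat_lit 1) (nat_lit 348) (nat_lit 416) (nat_lit 376)) (XT.nd (nat_lit 78) (nat_lit 760) (nat_lit 0) (XT.lf (nat_lit 76) (nat_lit 2726372416) (nat_lit 0) (nat_lit 213123869) (nat_lit 836) (nat_lit 2726372416) (nat_lit 379) (nat_lit 1) (nat_lit 378) (nat_lit 1) (nat_lit 389) (nat_lit 1) (nat_lit 349) (nat_lit 416) (nat_lit 375)) (XT.lf (nat_lit 836) (nat_lit 4687474681) (nat_lit 0) (nat_lit 464936621) (nat_lit 760) (nat_lit 464936621) (nat_lit 379) (nat_lit 1) (nat_lit 368) (nat_lit 1) (nat_lit 378) (nat_lit 1) (nat_lit 350) (nat_lit 416) (nat_lit 374)))) (XT.nd (nat_lit 78) (nat_lit 760) (nat_lit 0) (XT.lf (nat_lit 76) (nat_lit 1953083474)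 (nat_lit 0) (nat_lit 1663002901) (nat_lit 836) (nat_lit 1953083474) (nat_lit 369) (nat_lit 1) (nat_lit 368) (nat_lit 1) (nat_lit 379) (nat_lit 1) (nat_lit 351) (nat_lit 416) (nat_lit 373)) (XT.nd (nat_lit 78) (nat_lit 0) (nat_lit 0) (XT.lf (nat_lit 836) (nat_lit 3129238167) (nat_lit 0) (nat_lit 1196241875) (nat_lit 760) (nat_lit 1196241875) (nat_lit 369) (nat_lit 1) (nat_lit 358) (nat_lit 1) (nat_lit 368) (nat_lit 1) (nat_lit 352) (nat_lit 416) (nat_lit 372)) (XT.lf (nat_lit 76) (nat_lit 1173409925) (nat_lit 0) (nat_lit 3127978145) (nat_lit 836) (nat_lit 1173409925) (nat_lit 359) (nat_lit 1) (nat_lit 358) (nat_lit 1) (nat_lit 369) (nat_lit 1) (nat_lit 353) (nat_lit 416) (nat_lit 371))))) (XT.nd (nat_lit 234) (nat_lit 1368) (nat_lit 0) (XT.nd (nat_lit 78) (nat_lit 760) (nat_lit 0) (XT.lf (nat_lit 760) (nat_lit 1559164268) (nat_lit 0) (nat_lit 1934613189) (nat_lit 684) (nat_lit 1934613189) (nat_lit 359) (nat_lit 1) (nat_lit 349) (nat_lit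 1) (nat_lit 358) (nat_lit 1) (nat_lit 354) (nat_lit 416) (nat_lit 370)) (XT.nd (nat_lit 78) (nat_lit 760) (nat_lit 0) (XT.lf (nat_lit 76) (nat_lit 388313660) (nat_lit 0) (nat_lit 4606063461) (nat_lit 760) (nat_lit 388313660) (nat_lit 350) (nat_lit 1) (nat_lit 349) (nat_lit 1) (nat_lit 359) (nat_lit 1) (nat_lit 355) (nat_lit 416) (nat_lit 369)) (XT.lf (nat_lit 76) (nat_lit 2658347494) (nat_lit 0) (nat_lit 20595116) (nat_lit 760) (nat_lit 2658347494) (nat_lit 340) (nat_lit 1) (nat_lit 339) (nat_lit 1) (nat_lit 349) (nat_lit 1) (nat_lit 356) (nat_lit 416) (nat_lit 368)))) (XT.nd (nat_lit 78) (nat_lit 684) (nat_lit 0) (XT.lf (nat_lit 760) (nat_lit 4495269205) (nat_lit 0) (nat_lit 398654685) (nat_lit 684) (nat_lit 398654685) (nat_lit 340) (nat_lit 1) (nat_lit 330) (nat_lit 1) (nat_lit 339) (nat_lit 1) (nat_lit 357) (nat_lit 416) (nat_lit 367)) (XT.nd (nat_lit 78) (nat_lit 684) (nat_lit 0) (XT.lf (nat_lit 76) (nat_lit 1830089907) (nat_lit 0)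 (nat_lit 1587980205) (nat_lit 760) (nat_lit 1830089907) (nat_lit 331) (nat_lit 1) (nat_lit 330) (nat_lit 1) (nat_lit 340) (nat_lit 1) (nat_lit 358) (nat_lit 416) (nat_lit 366)) (XT.lf (nat_lit 760) (nat_lit 2831017488) (nat_lit 0) (nat_lit 1186695039) (nat_lit 684) (nat_lit 1186695039) (nat_lit 331) (nat_lit 1) (nat_lit 321) (nat_lit 1) (nat_lit 330) (nat_lit 1) (nat_lit 359) (nat_lit 416) (nat_lit 365))))))) (XT.nd (nat_lit 936) (nat_lit 4180) (nat_lit 0) (XT.nd (nat_lit 468) (nat_lit 2356) (nat_lit 0) (XT.nd (nat_lit 234) (nat_lit 1292) (nat_lit 0) (XT.nd (nat_lit 78) (nat_lit 608) (nat_lit 0) (XT.lf (nat_lit 76) (nat_lit 999682393) (nat_lit 0) (nat_lit 3161780603) (nat_lit 760) (nat_lit 999682393) (nat_lit 322) (nat_lit 1) (nat_lit 321) (nat_lit 1) (nat_lit 331) (nat_lit 1) (nat_lit 360) (nat_lit 416) (nat_lit 364)) (XT.nd (nat_lit 78) (nat_lit 0) (nat_lit 0) (XT.lf (nat_lit 684) (nat_lit 1163217812) (nat_lit 0) (nat_lit 1977552905)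 (nat_lit 608) (nat_lit 1977552905) (nat_lit 322) (nat_lit 1) (nat_lit 313) (nat_lit 1) (nat_lit 321) (nat_lit 1) (nat_lit 361) (nat_lit 416) (nat_lit 363)) (XT.lf (nat_lit 76) (nat_lit 167881223) (nat_lit 0) (nat_lit 4740428005) (nat_lit 684) (nat_lit 167881223) (nat_lit 314) (nat_lit 1) (nat_lit 313) (nat_lit 1) (nat_lit 322) (nat_lit 1) (nat_lit 362) (nat_lit 416) (nat_lit 362)))) (XT.nd (nat_lit 78) (nat_lit 608) (nat_lit 0) (XT.lf (nat_lit 76) (nat_lit 2267097833) (nat_lit 0) (nat_lit 500010453) (nat_lit 684) (nat_lit 2267097833) (nat_lit 305) (nat_lit 1) (nat_lit 304) (nat_lit 1) (nat_lit 313) (nat_lit 1) (nat_lit 363) (nat_lit 416) (nat_lit 361)) (XT.nd (nat_lit 78) (nat_lit 0) (nat_lit 0) (XT.lf (nat_lit 684) (nat_lit 3672439690) (nat_lit 0) (nat_lit 660227520) (nat_lit 608) (nat_lit 660227520) (nat_lit 305) (nat_lit 1) (nat_lit 296) (nat_lit 1) (nat_lit 304) (nat_lit 1) (nat_lit 364) (nat_lit 416) (nat_lit 360)) (XT.lf (nat_lit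 76) (nat_lit 1401630049) (nat_lit 0) (nat_lit 2148656394) (nat_lit 684) (nat_lit 1401630049) (nat_lit 297) (nat_lit 1) (nat_lit 296) (nat_lit 1) (nat_lit 305) (nat_lit 1) (nat_lit 365) (nat_lit 416) (nat_lit 359))))) (XT.nd (nat_lit 234) (nat_lit 1216) (nat_lit 0) (XT.nd (nat_lit 78) (nat_lit 532) (nat_lit 0) (XT.lf (nat_lit 684) (nat_lit 1936987346) (nat_lit 0) (nat_lit 1487238614) (nat_lit 608) (nat_lit 1487238614) (nat_lit 297) (nat_lit 1) (nat_lit 288) (nat_lit 1) (nat_lit 296) (nat_lit 1) (nat_lit 366) (nat_lit 416) (nat_lit 358)) (XT.nd (nat_lit 78) (nat_lit 532) (nat_lit 0) (XT.lf (nat_lit 76) (nat_lit 537436301) (nat_lit 0) (nat_lit 3796681704) (nat_lit 684) (nat_lit 537436301) (nat_lit 289) (nat_lit 1) (nat_lit 288) (nat_lit 1) (nat_lit 297) (nat_lit 1) (nat_lit 367) (nat_lit 416) (nat_lit 357)) (XT.lf (nat_lit 608) (nat_lit 204683902) (nat_lit 0) (nat_lit 2313626462) (nat_lit 532) (nat_lit 2313626462) (nat_lit 289) (nat_lit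 1) (nat_lit 281) (nat_lit 1) (nat_lit 288) (nat_lit 1) (nat_lit 368) (nat_lit 416) (nat_lit 356)))) (XT.nd (nat_lit 78) (nat_lit 532) (nat_lit 0) (XT.lf (nat_lit 684) (nat_lit 4147377444) (nat_lit 0) (nat_lit 322761406) (nat_lit 608) (nat_lit 322761406) (nat_lit 281) (nat_lit 1) (nat_lit 272) (nat_lit 1) (nat_lit 280) (nat_lit 1) (nat_lit 369) (nat_lit 416) (nat_lit 355)) (XT.nd (nat_lit 78) (nat_lit 532) (nat_lit 0) (XT.lf (nat_lit 76) (nat_lit 1625354999) (nat_lit 0) (nat_lit 1503354503) (nat_lit 684) (nat_lit 1625354999) (nat_lit 273) (nat_lit 1) (nat_lit 272) (nat_lit 1) (nat_lit 281) (nat_lit 1) (nat_lit 370) (nat_lit 416) (nat_lit 354)) (XT.lf (nat_lit 608) (nat_lit 2361733777) (nat_lit 0) (nat_lit 1177031261) (nat_lit 532) (nat_lit 1177031261) (nat_lit 273) (nat_lit 1) (nat_lit 265) (nat_lit 1) (nat_lit 272) (nat_lit 1) (nat_lit 371) (nat_lit 416) (nat_lit 353)))))) (XT.nd (nat_lit 468) (nat_lit 2508) (nat_lit 0) (XT.nd (nat_lit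 234) (nat_lit 532) (nat_lit 0) (XT.nd (nat_lit 78) (nat_lit 1140) (nat_lit 0) (XT.lf (nat_lit 76) (nat_lit 737273920) (nat_lit 0) (nat_lit 3203423936) (nat_lit 608) (nat_lit 737273920) (nat_lit 266) (nat_lit 1) (nat_lit 265) (nat_lit 1) (nat_lit 273) (nat_lit 1) (nat_lit 372) (nat_lit 416) (nat_lit 352)) (XT.nd (nat_lit 78) (nat_lit 608) (nat_lit 0) (XT.lf (nat_lit 608) (nat_lit 583682551) (nat_lit 0) (nat_lit 2028396561) (nat_lit 532) (nat_lit 2028396561) (nat_lit 266) (nat_lit 1) (nat_lit 258) (nat_lit 1) (nat_lit 265) (nat_lit 1) (nat_lit 373) (nat_lit 416) (nat_lit 351)) (XT.lf (nat_lit 608) (nat_lit 4311913703) (nat_lit 0) (nat_lit 145824395) (nat_lit 532) (nat_lit 145824395) (nat_lit 258) (nat_lit 1) (nat_lit 250) (nat_lit 1) (nat_lit 257) (nat_lit 1) (nat_lit 374) (nat_lit 416) (nat_lit 350)))) (XT.nd (nat_lit 78) (nat_lit 532) (nat_lit 0) (XT.lf (nat_lit 76) (nat_lit 1698215652) (nat_lit 0) (nat_lit 1170307575) (nat_lit 608) (nat_lit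 1698215652) (nat_lit 251) (nat_lit 1) (nat_lit 250) (nat_lit 1) (nat_lit 258) (nat_lit 1) (nat_lit 375) (nat_lit 416) (nat_lit 349)) (XT.nd (nat_lit 78) (nat_lit 0) (nat_lit 0) (XT.lf (nat_lit 608) (nat_lit 2491200147) (nat_lit 0) (nat_lit 1019643090) (nat_lit 532) (nat_lit 1019643090) (nat_lit 251) (nat_lit 1) (nat_lit 243) (nat_lit 1) (nat_lit 250) (nat_lit 1) (nat_lit 376) (nat_lit 416) (nat_lit 348)) (XT.lf (nat_lit 76) (nat_lit 793610303) (nat_lit 0) (nat_lit 2907400512) (nat_lit 608) (nat_lit 793610303) (nat_lit 244) (nat_lit 1) (nat_lit 243) (nat_lit 1) (nat_lit 251) (nat_lit 1) (nat_lit 377) (nat_lit 416) (nat_lit 347))))) (XT.nd (nat_lit 234) (nat_lit 1444) (nat_lit 0) (XT.nd (nat_lit 78) (nat_lit 608) (nat_lit 0) (XT.lf (nat_lit 532) (nat_lit 681838521) (nat_lit 0) (nat_lit 1888622789) (nat_lit 456) (nat_lit 1888622789) (nat_lit 244) (nat_lit 1) (nat_lit 237) (nat_lit 1) (nat_lit 243) (nat_lit 1) (nat_lit 378) (nat_lit 416)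 (nat_lit 346)) (XT.nd (nat_lit 78) (nat_lit 0) (nat_lit 0) (XT.lf (nat_lit 608) (nat_lit 4215177678) (nat_lit 0) (nat_lit 104461433) (nat_lit 532) (nat_lit 104461433) (nat_lit 237) (nat_lit 1) (nat_lit 229) (nat_lit 1) (nat_lit 236) (nat_lit 1) (nat_lit 379) (nat_lit 416) (nat_lit 345)) (XT.lf (nat_lit 76) (nat_lit 1644174900) (nat_lit 0) (nat_lit 1100818980) (nat_lit 608) (nat_lit 1644174900) (nat_lit 230) (nat_lit 1) (nat_lit 229) (nat_lit 1) (nat_lit 237) (nat_lit 1) (nat_lit 380) (nat_lit 416) (nat_lit 344)))) (XT.nd (nat_lit 156) (nat_lit 988) (nat_lit 0) (XT.nd (nat_lit 78) (nat_lit 0) (nat_lit 0) (XT.lf (nat_lit 532) (nat_lit 2372452791) (nat_lit 0) (nat_lit 991163580) (nat_lit 456) (nat_lit 991163580) (nat_lit 230) (nat_lit 1) (nat_lit 223) (nat_lit 1) (nat_lit 229) (nat_lit 1) (nat_lit 381) (nat_lit 416) (nat_lit 343)) (XT.lf (nat_lit 76) (nat_lit 729401468) (nat_lit 0) (nat_lit 2861954406) (nat_lit 532) (nat_lit 729401468) (nat_lit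 224) (nat_lit 1) (nat_lit 223) (nat_lit 1) (nat_lit 230) (nat_lit 1) (nat_lit 382) (nat_lit 416) (nat_lit 342))) (XT.nd (nat_lit 78) (nat_lit 532) (nat_lit 0) (XT.lf (nat_lit 532) (nat_lit 544239139) (nat_lit 0) (nat_lit 1871396757) (nat_lit 456) (nat_lit 1871396757) (nat_lit 224) (nat_lit 1) (nat_lit 217) (nat_lit 1) (nat_lit 223) (nat_lit 1) (nat_lit 383) (nat_lit 416) (nat_lit 341)) (XT.lf (nat_lit 532) (nat_lit 3900151612) (nat_lit 0) (nat_lit 176827093) (nat_lit 456) (nat_lit 176827093) (nat_lit 217) (nat_lit 1) (nat_lit 210) (nat_lit 1) (nat_lit 216) (nat_lit 1) (nat_lit 384) (nat_lit 416) (nat_lit 340))))))))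
noncomputable def ec82 : XT := (XT.nd (nat_lit 1872) (nat_lit 2812) (nat_lit 0) (XT.nd (nat_lit 936) (nat_lit 2508) (nat_lit 0) (XT.nd (nat_lit 468) (nat_lit 1596) (nat_lit 0) (XT.nd (nat_lit 234) (nat_lit 912) (nat_lit 0) (XT.nd (nat_lit 78) (nat_lit 456) (nat_lit 0) (XT.lf (nat_lit 76) (nat_lit 1484194210) (nat_lit 0) (nat_lit 1252266295) (nat_lit 532) (nat_lit 1484194210) (nat_lit 211) (nat_lit 1) (nat_lit 210) (nat_lit 1) (nat_lit 217) (nat_lit 1) (nat_lit 385) (nat_lit 416) (nat_lit 339)) (XT.nd (nat_lit 78) (nat_lit 0) (nat_lit 0) (XT.lf (nat_lit 532) (nat_lit 2046656503) (nat_lit 0) (nat_lit 1070667805) (nat_lit 456) (nat_lit 1070667805) (nat_lit 211) (nat_lit 1) (nat_lit 204) (nat_lit 1) (nat_lit 210) (nat_lit 1) (nat_lit 386) (nat_lit 416) (nat_lit 338)) (XT.lf (nat_lit 76) (nat_lit 564721871) (nat_lit 0) (nat_lit 3026260448) (nat_lit 532) (nat_lit 564721871) (nat_lit 205) (nat_lit 1) (nat_lit 204) (nat_lit 1) (nat_lit 211) (nat_lit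 1) (nat_lit 387) (nat_lit 416) (nat_lit 337)))) (XT.nd (nat_lit 78) (nat_lit 532) (nat_lit 0) (XT.lf (nat_lit 456) (nat_lit 210305938) (nat_lit 0) (nat_lit 1956676520) (nat_lit 380) (nat_lit 1956676520) (nat_lit 205) (nat_lit 1) (nat_lit 199) (nat_lit 1) (nat_lit 204) (nat_lit 1) (nat_lit 388) (nat_lit 416) (nat_lit 336)) (XT.nd (nat_lit 78) (nat_lit 0) (nat_lit 0) (XT.lf (nat_lit 532) (nat_lit 3404386075) (nat_lit 0) (nat_lit 343824173) (nat_lit 456) (nat_lit 343824173) (nat_lit 199) (nat_lit 1) (nat_lit 192) (nat_lit 1) (nat_lit 198) (nat_lit 1) (nat_lit 389) (nat_lit 416) (nat_lit 335)) (XT.lf (nat_lit 76) (nat_lit 1236583005) (nat_lit 0) (nat_lit 1587395102) (nat_lit 532) (nat_lit 1236583005) (nat_lit 193) (nat_lit 1) (nat_lit 192) (nat_lit 1) (nat_lit 199) (nat_lit 1) (nat_lit 390) (nat_lit 416) (nat_lit 334))))) (XT.nd (nat_lit 234) (nat_lit 760) (nat_lit 0) (XT.nd (nat_lit 78) (nat_lit 456) (nat_lit 0) (XT.lf (nat_lit 456) (nat_lit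 1549761774) (nat_lit 0) (nat_lit 1239869189) (nat_lit 380) (nat_lit 1239869189) (nat_lit 193) (nat_lit 1) (nat_lit 187) (nat_lit 1) (nat_lit 192) (nat_lit 1) (nat_lit 391) (nat_lit 416) (nat_lit 333)) (XT.nd (nat_lit 78) (nat_lit 456) (nat_lit 0) (XT.lf (nat_lit 76) (nat_lit 317100089) (nat_lit 0) (nat_lit 3364646811) (nat_lit 456) (nat_lit 317100089) (nat_lit 188) (nat_lit 1) (nat_lit 187) (nat_lit 1) (nat_lit 193) (nat_lit 1) (nat_lit 392) (nat_lit 416) (nat_lit 332)) (XT.lf (nat_lit 76) (nat_lit 1843261835) (nat_lit 0) (nat_lit 281800086) (nat_lit 456) (nat_lit 1843261835) (nat_lit 182) (nat_lit 1) (nat_lit 181) (nat_lit 1) (nat_lit 187) (nat_lit 1) (nat_lit 393) (nat_lit 416) (nat_lit 331)))) (XT.nd (nat_lit 78) (nat_lit 380) (nat_lit 0) (XT.lf (nat_lit 456) (nat_lit 2760634046) (nat_lit 0) (nat_lit 588783299) (nat_lit 380) (nat_lit 588783299) (nat_lit 182) (nat_lit 1) (nat_lit 176) (nat_lit 1) (nat_lit 181) (nat_lit 1) (nat_lit 394)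 (nat_lit 416) (nat_lit 330)) (XT.nd (nat_lit 78) (nat_lit 380) (nat_lit 0) (XT.lf (nat_lit 76) (nat_lit 917308388) (nat_lit 0) (nat_lit 2073692931) (nat_lit 456) (nat_lit 917308388) (nat_lit 177) (nat_lit 1) (nat_lit 176) (nat_lit 1) (nat_lit 182) (nat_lit 1) (nat_lit 395) (nat_lit 416) (nat_lit 329)) (XT.lf (nat_lit 456) (nat_lit 913113990) (nat_lit 0) (nat_lit 1482811685) (nat_lit 380) (nat_lit 1482811685) (nat_lit 177) (nat_lit 1) (nat_lit 171) (nat_lit 1) (nat_lit 176) (nat_lit 1) (nat_lit 396) (nat_lit 416) (nat_lit 328)))))) (XT.nd (nat_lit 468) (nat_lit 988) (nat_lit 0) (XT.nd (nat_lit 234) (nat_lit 760) (nat_lit 0) (XT.nd (nat_lit 78) (nat_lit 760) (nat_lit 0) (XT.lf (nat_lit 76) (nat_lit 1816387) (nat_lit 0) (nat_lit 3845993520) (nat_lit 456) (nat_lit 1816387) (nat_lit 172) (nat_lit 1) (nat_lit 171) (nat_lit 1) (nat_lit 177) (nat_lit 1) (nat_lit 397) (nat_lit 416) (nat_lit 327)) (XT.nd (nat_lit 78) (nat_lit 380) (nat_lit 0) (XT.lf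 (nat_lit 76) (nat_lit 1459565786) (nat_lit 0) (nat_lit 901339734) (nat_lit 380) (nat_lit 1459565786) (nat_lit 167) (nat_lit 1) (nat_lit 166) (nat_lit 1) (nat_lit 171) (nat_lit 1) (nat_lit 398) (nat_lit 416) (nat_lit 326)) (XT.lf (nat_lit 456) (nat_lit 1997412938) (nat_lit 0) (nat_lit 897178923) (nat_lit 380) (nat_lit 897178923) (nat_lit 167) (nat_lit 1) (nat_lit 161) (nat_lit 1) (nat_lit 166) (nat_lit 1) (nat_lit 399) (nat_lit 416) (nat_lit 325)))) (XT.nd (nat_lit 78) (nat_lit 760) (nat_lit 0) (XT.lf (nat_lit 76) (nat_lit 540269658) (nat_lit 0) (nat_lit 2682834332) (nat_lit 456) (nat_lit 540269658) (nat_lit 162) (nat_lit 1) (nat_lit 161) (nat_lit 1) (nat_lit 167) (nat_lit 1) (nat_lit 400) (nat_lit 416) (nat_lit 324)) (XT.nd (nat_lit 78) (nat_lit 456) (nat_lit 0) (XT.lf (nat_lit 380) (nat_lit 163993384) (nat_lit 0) (nat_lit 1785596925) (nat_lit 304) (nat_lit 1785596925) (nat_lit 162) (nat_lit 1) (nat_lit 157) (nat_lit 1) (nat_lit 161)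 (nat_lit 1) (nat_lit 401) (nat_lit 416) (nat_lit 323)) (XT.lf (nat_lit 456) (nat_lit 2976513311) (nat_lit 0) (nat_lit 365413596) (nat_lit 380) (nat_lit 365413596) (nat_lit 157) (nat_lit 1) (nat_lit 151) (nat_lit 1) (nat_lit 156) (nat_lit 1) (nat_lit 402) (nat_lit 416) (nat_lit 322))))) (XT.nd (nat_lit 234) (nat_lit 684) (nat_lit 0) (XT.nd (nat_lit 78) (nat_lit 304) (nat_lit 0) (XT.lf (nat_lit 76) (nat_lit 1027156630) (nat_lit 0) (nat_lit 1625319137) (nat_lit 456) (nat_lit 1027156630) (nat_lit 152) (nat_lit 1) (nat_lit 151) (nat_lit 1) (nat_lit 157) (nat_lit 1) (nat_lit 403) (nat_lit 416) (nat_lit 321)) (XT.nd (nat_lit 78) (nat_lit 0) (nat_lit 0) (XT.lf (nat_lit 380) (nat_lit 1139502676) (nat_lit 0) (nat_lit 1256377624) (nat_lit 304) (nat_lit 1256377624) (nat_lit 152) (nat_lit 1) (nat_lit 147) (nat_lit 1) (nat_lit 151) (nat_lit 1) (nat_lit 404) (nat_lit 416) (nat_lit 320)) (XT.lf (nat_lit 76) (nat_lit 117541589) (nat_lit 0) (nat_lit 3390189060)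 (nat_lit 380) (nat_lit 117541589) (nat_lit 148) (nat_lit 1) (nat_lit 147) (nat_lit 1) (nat_lit 152) (nat_lit 1) (nat_lit 405) (nat_lit 416) (nat_lit 319)))) (XT.nd (nat_lit 78) (nat_lit 304) (nat_lit 0) (XT.lf (nat_lit 76) (nat_lit 1466611384) (nat_lit 0) (nat_lit 665068074) (nat_lit 380) (nat_lit 1466611384) (nat_lit 143) (nat_lit 1) (nat_lit 142) (nat_lit 1) (nat_lit 147) (nat_lit 1) (nat_lit 406) (nat_lit 416) (nat_lit 318)) (XT.nd (nat_lit 78) (nat_lit 0) (nat_lit 0) (XT.lf (nat_lit 380) (nat_lit 2021349961) (nat_lit 0) (nat_lit 775171341) (nat_lit 304) (nat_lit 775171341) (nat_lit 143) (nat_lit 1) (nat_lit 138) (nat_lit 1) (nat_lit 142) (nat_lit 1) (nat_lit 407) (nat_lit 416) (nat_lit 317)) (XT.lf (nat_lit 76) (nat_lit 556985294) (nat_lit 0) (nat_lit 2431382910) (nat_lit 380) (nat_lit 556985294) (nat_lit 139) (nat_lit 1) (nat_lit 138) (nat_lit 1) (nat_lit 143) (nat_lit 1) (nat_lit 408) (nat_lit 416) (nat_lit 316))))))) (XT.nd (nat_lit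 936) (nat_lit 380) (nat_lit 0) (XT.nd (nat_lit 468) (nat_lit 1140) (nat_lit 0) (XT.nd (nat_lit 234) (nat_lit 608) (nat_lit 0) (XT.nd (nat_lit 78) (nat_lit 380) (nat_lit 0) (XT.lf (nat_lit 380) (nat_lit 208387029) (nat_lit 0) (nat_lit 1655415067) (nat_lit 304) (nat_lit 1655415067) (nat_lit 139) (nat_lit 1) (nat_lit 134) (nat_lit 1) (nat_lit 138) (nat_lit 1) (nat_lit 409) (nat_lit 416) (nat_lit 315)) (XT.nd (nat_lit 78) (nat_lit 0) (nat_lit 0) (XT.lf (nat_lit 380) (nat_lit 2817047882) (nat_lit 0) (nat_lit 338170478) (nat_lit 304) (nat_lit 338170478) (nat_lit 134) (nat_lit 1) (nat_lit 129) (nat_lit 1) (nat_lit 133) (nat_lit 1) (nat_lit 410) (nat_lit 416) (nat_lit 314)) (XT.lf (nat_lit 76) (nat_lit 954171292) (nat_lit 0) (nat_lit 1559332034) (nat_lit 380) (nat_lit 954171292) (nat_lit 130) (nat_lit 1) (nat_lit 129) (nat_lit 1) (nat_lit 134) (nat_lit 1) (nat_lit 411) (nat_lit 416) (nat_lit 313)))) (XT.nd (nat_lit 78) (nat_lit 304) (nat_lit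 0) (XT.lf (nat_lit 380) (nat_lit 1007196275) (nat_lit 0) (nat_lit 1217533586) (nat_lit 304) (nat_lit 1217533586) (nat_lit 130) (nat_lit 1) (nat_lit 125) (nat_lit 1) (nat_lit 129) (nat_lit 1) (nat_lit 412) (nat_lit 416) (nat_lit 312)) (XT.nd (nat_lit 78) (nat_lit 304) (nat_lit 0) (XT.lf (nat_lit 76) (nat_lit 58524663) (nat_lit 0) (nat_lit 3300170420) (nat_lit 380) (nat_lit 58524663) (nat_lit 126) (nat_lit 1) (nat_lit 125) (nat_lit 1) (nat_lit 130) (nat_lit 1) (nat_lit 413) (nat_lit 416) (nat_lit 311)) (XT.lf (nat_lit 76) (nat_lit 1312490093) (nat_lit 0) (nat_lit 767160251) (nat_lit 304) (nat_lit 1312490093) (nat_lit 122) (nat_lit 1) (nat_lit 121) (nat_lit 1) (nat_lit 125) (nat_lit 1) (nat_lit 414) (nat_lit 416) (nat_lit 310))))) (XT.nd (nat_lit 234) (nat_lit 532) (nat_lit 0) (XT.nd (nat_lit 78) (nat_lit 304) (nat_lit 0) (XT.lf (nat_lit 380) (nat_lit 1729198447) (nat_lit 0) (nat_lit 819112784) (nat_lit 304) (nat_lit 819112784) (nat_lit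 122) (nat_lit 1) (nat_lit 117) (nat_lit 1) (nat_lit 121) (nat_lit 1) (nat_lit 415) (nat_lit 416) (nat_lit 309)) (XT.nd (nat_lit 78) (nat_lit 304) (nat_lit 0) (XT.lf (nat_lit 76) (nat_lit 419764704) (nat_lit 0) (nat_lit 2503438277) (nat_lit 380) (nat_lit 419764704) (nat_lit 118) (nat_lit 1) (nat_lit 117) (nat_lit 1) (nat_lit 122) (nat_lit 1) (nat_lit 416) (nat_lit 416) (nat_lit 308)) (XT.lf (nat_lit 76) (nat_lit 1635070626) (nat_lit 0) (nat_lit 48520316) (nat_lit 304) (nat_lit 1635070626) (nat_lit 114) (nat_lit 1) (nat_lit 113) (nat_lit 1) (nat_lit 117) (nat_lit 1) (nat_lit 417) (nat_lit 416) (nat_lit 307)))) (XT.nd (nat_lit 78) (nat_lit 228) (nat_lit 0) (XT.lf (nat_lit 380) (nat_lit 2380555973) (nat_lit 0) (nat_lit 457027667) (nat_lit 304) (nat_lit 457027667) (nat_lit 114) (nat_lit 1) (nat_lit 109) (nat_lit 1) (nat_lit 113) (nat_lit 1) (nat_lit 418) (nat_lit 416) (nat_lit 306)) (XT.nd (nat_lit 78) (nat_lit 228) (nat_lit 0) (XT.lf (nat_lit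 76) (nat_lit 746324136) (nat_lit 0) (nat_lit 1778075226) (nat_lit 380) (nat_lit 746324136) (nat_lit 110) (nat_lit 1) (nat_lit 109) (nat_lit 1) (nat_lit 114) (nat_lit 1) (nat_lit 419) (nat_lit 416) (nat_lit 305)) (XT.lf (nat_lit 304) (nat_lit 610452662) (nat_lit 0) (nat_lit 1318311022) (nat_lit 228) (nat_lit 1318311022) (nat_lit 110) (nat_lit 1) (nat_lit 106) (nat_lit 1) (nat_lit 109) (nat_lit 1) (nat_lit 420) (nat_lit 416) (nat_lit 304)))))) (XT.nd (nat_lit 50778) (nat_lit 0) (nat_lit 30248) (XT.nd (nat_lit 50544) (nat_lit 0) (nat_lit 30172) (XT.nd (nat_lit 50388) (nat_lit 0) (nat_lit 30096) (XT.lf (nat_lit 380) (nat_lit 2966955843) (nat_lit 0) (nat_lit 128393574) (nat_lit 304) (nat_lit 128393574) (nat_lit 106) (nat_lit 1) (nat_lit 101) (nat_lit 1) (nat_lit 105) (nat_lit 1) (nat_lit 421) (nat_lit 416) (nat_lit 303)) (XT.nd (nat_lit 78) (nat_lit 0) (nat_lit 0) (XT.lf (nat_lit 1900) (nat_lit 1403433085) (nat_lit 0) (nat_lit 1415169049)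 (nat_lit 1900) (nat_lit 1403433085) (nat_lit 522) (nat_lit 1) (nat_lit 497) (nat_lit 0) (nat_lit 522) (nat_lit 0) (nat_lit 306) (nat_lit 417) (nat_lit 417)) (XT.lf (nat_lit 1900) (nat_lit 5549385426) (nat_lit 76) (nat_lit 1405858727) (nat_lit 0) (nat_lit 1405858727) (nat_lit 522) (nat_lit 1) (nat_lit 498) (nat_lit 1) (nat_lit 497) (nat_lit 0) (nat_lit 307) (nat_lit 417) (nat_lit 416)))) (XT.nd (nat_lit 78) (nat_lit 0) (nat_lit 0) (XT.lf (nat_lit 1900) (nat_lit 2724774659) (nat_lit 0) (nat_lit 2829492210) (nat_lit 1824) (nat_lit 2724774659) (nat_lit 523) (nat_lit 1) (nat_lit 498) (nat_lit 1) (nat_lit 522) (nat_lit 1) (nat_lit 308) (nat_lit 417) (nat_lit 415)) (XT.nd (nat_lit 78) (nat_lit 0) (nat_lit 76) (XT.lf (nat_lit 1900) (nat_lit 5333055703) (nat_lit 76) (nat_lit 1432584260) (nat_lit 0) (nat_lit 1432584260) (nat_lit 523) (nat_lit 1) (nat_lit 499) (nat_lit 1) (nat_lit 498) (nat_lit 1) (nat_lit 309) (nat_lit 417) (nat_lit 414)) (XT.lf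 (nat_lit 1900) (nat_lit 2591764012) (nat_lit 0) (nat_lit 2934771030) (nat_lit 1824) (nat_lit 2591764012) (nat_lit 524) (nat_lit 1) (nat_lit 499) (nat_lit 1) (nat_lit 523) (nat_lit 1) (nat_lit 310) (nat_lit 417) (nat_lit 413))))) (XT.nd (nat_lit 234) (nat_lit 0) (nat_lit 152) (XT.nd (nat_lit 78) (nat_lit 0) (nat_lit 76) (XT.lf (nat_lit 1900) (nat_lit 5017624558) (nat_lit 76) (nat_lit 1510968953) (nat_lit 0) (nat_lit 1510968953) (nat_lit 524) (nat_lit 1) (nat_lit 500) (nat_lit 1) (nat_lit 499) (nat_lit 1) (nat_lit 311) (nat_lit 417) (nat_lit 412)) (XT.nd (nat_lit 78) (nat_lit 0) (nat_lit 0) (XT.lf (nat_lit 1900) (nat_lit 2410872399) (nat_lit 0) (nat_lit 3139973376) (nat_lit 1824) (nat_lit 2410872399) (nat_lit 525) (nat_lit 1) (nat_lit 500) (nat_lit 1) (nat_lit 524) (nat_lit 1) (nat_lit 312) (nat_lit 417) (nat_lit 411)) (XT.lf (nat_lit 1900) (nat_lit 4609048100) (nat_lit 76) (nat_lit 1637973545) (nat_lit 0) (nat_lit 1637973545) (nat_lit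 525) (nat_lit 1) (nat_lit 501) (nat_lit 1) (nat_lit 500) (nat_lit 1) (nat_lit 313) (nat_lit 417) (nat_lit 410)))) (XT.nd (nat_lit 78) (nat_lit 0) (nat_lit 0) (XT.lf (nat_lit 1900) (nat_lit 2184999213) (nat_lit 0) (nat_lit 3439179651) (nat_lit 1824) (nat_lit 2184999213) (nat_lit 526) (nat_lit 1) (nat_lit 501) (nat_lit 1) (nat_lit 525) (nat_lit 1) (nat_lit 314) (nat_lit 417) (nat_lit 409)) (XT.nd (nat_lit 78) (nat_lit 0) (nat_lit 76) (XT.lf (nat_lit 1900) (nat_lit 4113009821) (nat_lit 76) (nat_lit 1810697052) (nat_lit 0) (nat_lit 1810697052) (nat_lit 526) (nat_lit 1) (nat_lit 502) (nat_lit 1) (nat_lit 501) (nat_lit 1) (nat_lit 315) (nat_lit 417) (nat_lit 408)) (XT.lf (nat_lit 1900) (nat_lit 1916910865) (nat_lit 0) (nat_lit 3826740112) (nat_lit 1824) (nat_lit 1916910865) (nat_lit 527) (nat_lit 1) (nat_lit 502) (nat_lit 1) (nat_lit 526) (nat_lit 1) (nat_lit 316) (nat_lit 417) (nat_lit 407))))))))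
noncomputable def ec83 : XT := (XT.nd (nat_lit 1872) (nat_lit 10108) (nat_lit 0) (XT.nd (nat_lit 936) (nat_lit 4636) (nat_lit 0) (XT.nd (nat_lit 468) (nat_lit 1520) (nat_lit 0) (XT.nd (nat_lit 234) (nat_lit 0) (nat_lit 152) (XT.nd (nat_lit 78) (nat_lit 0) (nat_lit 76) (XT.lf (nat_lit 1900) (nat_lit 3534931996) (nat_lit 76) (nat_lit 2026371002) (nat_lit 0) (nat_lit 2026371002) (nat_lit 527) (nat_lit 1) (nat_lit 503) (nat_lit 1) (nat_lit 502) (nat_lit 1) (nat_lit 317) (nat_lit 417) (nat_lit 406)) (XT.nd (nat_lit 78) (nat_lit 0) (nat_lit 0) (XT.lf (nat_lit 1900) (nat_lit 1609246349) (nat_lit 0) (nat_lit 4297263611) (nat_lit 1824) (nat_lit 1609246349) (nat_lit 528) (nat_lit 1) (nat_lit 503) (nat_lit 1) (nat_lit 527) (nat_lit 1) (nat_lit 318) (nat_lit 417) (nat_lit 405)) (XT.lf (nat_lit 1900) (nat_lit 2879986621) (nat_lit 76) (nat_lit 2282353902) (nat_lit 0) (nat_lit 2282353902) (nat_lit 528) (nat_lit 1) (nat_lit 504) (nat_lit 1) (nat_lit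 503) (nat_lit 1) (nat_lit 319) (nat_lit 417) (nat_lit 404)))) (XT.nd (nat_lit 78) (nat_lit 0) (nat_lit 0) (XT.lf (nat_lit 1900) (nat_lit 1264522579) (nat_lit 0) (nat_lit 4845606778) (nat_lit 1824) (nat_lit 1264522579) (nat_lit 529) (nat_lit 1) (nat_lit 504) (nat_lit 1) (nat_lit 528) (nat_lit 1) (nat_lit 320) (nat_lit 417) (nat_lit 403)) (XT.nd (nat_lit 78) (nat_lit 0) (nat_lit 76) (XT.lf (nat_lit 1900) (nat_lit 2153105910) (nat_lit 76) (nat_lit 2576125920) (nat_lit 0) (nat_lit 2576125920) (nat_lit 529) (nat_lit 1) (nat_lit 505) (nat_lit 1) (nat_lit 504) (nat_lit 1) (nat_lit 321) (nat_lit 417) (nat_lit 402)) (XT.lf (nat_lit 1900) (nat_lit 885139520) (nat_lit 0) (nat_lit 5466863649) (nat_lit 1824) (nat_lit 885139520) (nat_lit 530) (nat_lit 1) (nat_lit 505) (nat_lit 1) (nat_lit 529) (nat_lit 1) (nat_lit 322) (nat_lit 417) (nat_lit 401))))) (XT.nd (nat_lit 234) (nat_lit 1748) (nat_lit 0) (XT.nd (nat_lit 78) (nat_lit 0) (nat_lit 76) (XT.lf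 (nat_lit 1900) (nat_lit 1358992370) (nat_lit 76) (nat_lit 2905283792) (nat_lit 0) (nat_lit 2905283792) (nat_lit 530) (nat_lit 1) (nat_lit 506) (nat_lit 1) (nat_lit 505) (nat_lit 1) (nat_lit 323) (nat_lit 417) (nat_lit 400)) (XT.nd (nat_lit 78) (nat_lit 0) (nat_lit 0) (XT.lf (nat_lit 1900) (nat_lit 473385098) (nat_lit 0) (nat_lit 6156355709) (nat_lit 1824) (nat_lit 473385098) (nat_lit 531) (nat_lit 1) (nat_lit 506) (nat_lit 1) (nat_lit 530) (nat_lit 1) (nat_lit 324) (nat_lit 417) (nat_lit 399)) (XT.lf (nat_lit 1900) (nat_lit 502128469) (nat_lit 76) (nat_lit 3267535925) (nat_lit 0) (nat_lit 3267535925) (nat_lit 531) (nat_lit 1) (nat_lit 507) (nat_lit 1) (nat_lit 506) (nat_lit 1) (nat_lit 325) (nat_lit 417) (nat_lit 398)))) (XT.nd (nat_lit 78) (nat_lit 1900) (nat_lit 0) (XT.lf (nat_lit 1900) (nat_lit 31439926) (nat_lit 0) (nat_lit 6909622335) (nat_lit 1824) (nat_lit 31439926) (nat_lit 532) (nat_lit 1) (nat_lit 507) (nat_lit 1) (nat_lit 531)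 (nat_lit 1) (nat_lit 326) (nat_lit 417) (nat_lit 397)) (XT.nd (nat_lit 78) (nat_lit 0) (nat_lit 0) (XT.lf (nat_lit 1976) (nat_lit 3250166474) (nat_lit 0) (nat_lit 407794708) (nat_lit 1900) (nat_lit 3250166474) (nat_lit 508) (nat_lit 1) (nat_lit 482) (nat_lit 1) (nat_lit 507) (nat_lit 1) (nat_lit 327) (nat_lit 417) (nat_lit 396)) (XT.lf (nat_lit 1976) (nat_lit 5973481662) (nat_lit 76) (nat_lit 435732520) (nat_lit 0) (nat_lit 435732520) (nat_lit 508) (nat_lit 1) (nat_lit 483) (nat_lit 1) (nat_lit 482) (nat_lit 1) (nat_lit 328) (nat_lit 417) (nat_lit 395)))))) (XT.nd (nat_lit 468) (nat_lit 2736) (nat_lit 0) (XT.nd (nat_lit 234) (nat_lit 1976) (nat_lit 0) (XT.nd (nat_lit 78) (nat_lit 0) (nat_lit 0) (XT.lf (nat_lit 1976) (nat_lit 2708700656) (nat_lit 0) (nat_lit 1364827603) (nat_lit 1900) (nat_lit 2708700656) (nat_lit 509) (nat_lit 1) (nat_lit 483) (nat_lit 1) (nat_lit 508) (nat_lit 1) (nat_lit 329) (nat_lit 417) (nat_lit 394)) (XT.nd (nat_lit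 78) (nat_lit 0) (nat_lit 76) (XT.lf (nat_lit 1976) (nat_lit 4863245368) (nat_lit 76) (nat_lit 928659729) (nat_lit 0) (nat_lit 928659729) (nat_lit 509) (nat_lit 1) (nat_lit 484) (nat_lit 1) (nat_lit 483) (nat_lit 1) (nat_lit 330) (nat_lit 417) (nat_lit 393)) (XT.lf (nat_lit 76) (nat_lit 2143874152) (nat_lit 0) (nat_lit 2371730024) (nat_lit 1900) (nat_lit 2143874152) (nat_lit 485) (nat_lit 1) (nat_lit 484) (nat_lit 1) (nat_lit 509) (nat_lit 1) (nat_lit 331) (nat_lit 417) (nat_lit 392)))) (XT.nd (nat_lit 78) (nat_lit 912) (nat_lit 0) (XT.lf (nat_lit 1216) (nat_lit 3707932011) (nat_lit 0) (nat_lit 1445675822) (nat_lit 1140) (nat_lit 1445675822) (nat_lit 485) (nat_lit 1) (nat_lit 469) (nat_lit 1) (nat_lit 484) (nat_lit 1) (nat_lit 332) (nat_lit 417) (nat_lit 391)) (XT.nd (nat_lit 78) (nat_lit 912) (nat_lit 0) (XT.lf (nat_lit 76) (nat_lit 1557464411) (nat_lit 0) (nat_lit 3424858960) (nat_lit 1216) (nat_lit 1557464411) (nat_lit 470) (nat_lit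 1) (nat_lit 469) (nat_lit 1) (nat_lit 485) (nat_lit 1) (nat_lit 333) (nat_lit 417) (nat_lit 390)) (XT.lf (nat_lit 988) (nat_lit 2511021181) (nat_lit 0) (nat_lit 1984997755) (nat_lit 912) (nat_lit 1984997755) (nat_lit 470) (nat_lit 1) (nat_lit 457) (nat_lit 1) (nat_lit 469) (nat_lit 1) (nat_lit 334) (nat_lit 417) (nat_lit 389))))) (XT.nd (nat_lit 234) (nat_lit 1824) (nat_lit 0) (XT.nd (nat_lit 78) (nat_lit 912) (nat_lit 0) (XT.lf (nat_lit 76) (nat_lit 951162793) (nat_lit 0) (nat_lit 4520746325) (nat_lit 988) (nat_lit 951162793) (nat_lit 458) (nat_lit 1) (nat_lit 457) (nat_lit 1) (nat_lit 470) (nat_lit 1) (nat_lit 335) (nat_lit 417) (nat_lit 388)) (XT.nd (nat_lit 78) (nat_lit 0) (nat_lit 0) (XT.lf (nat_lit 988) (nat_lit 1275823447) (nat_lit 0) (nat_lit 2544928342) (nat_lit 912) (nat_lit 2544928342) (nat_lit 458) (nat_lit 1) (nat_lit 445) (nat_lit 1) (nat_lit 457) (nat_lit 1) (nat_lit 336) (nat_lit 417) (nat_lit 387)) (XT.lf (nat_lit 76)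 (nat_lit 326578250) (nat_lit 0) (nat_lit 5656091509) (nat_lit 988) (nat_lit 326578250) (nat_lit 446) (nat_lit 1) (nat_lit 445) (nat_lit 1) (nat_lit 458) (nat_lit 1) (nat_lit 337) (nat_lit 417) (nat_lit 386)))) (XT.nd (nat_lit 78) (nat_lit 988) (nat_lit 0) (XT.lf (nat_lit 912) (nat_lit 5487583) (nat_lit 0) (nat_lit 3123852594) (nat_lit 836) (nat_lit 3123852594) (nat_lit 446) (nat_lit 1) (nat_lit 434) (nat_lit 1) (nat_lit 445) (nat_lit 1) (nat_lit 338) (nat_lit 417) (nat_lit 385)) (XT.nd (nat_lit 78) (nat_lit 0) (nat_lit 0) (XT.lf (nat_lit 988) (nat_lit 5572695188) (nat_lit 0) (nat_lit 312688358) (nat_lit 912) (nat_lit 312688358) (nat_lit 434) (nat_lit 1) (nat_lit 421) (nat_lit 1) (nat_lit 433) (nat_lit 1) (nat_lit 339) (nat_lit 417) (nat_lit 384)) (XT.lf (nat_lit 76) (nat_lit 2431662651) (nat_lit 0) (nat_lit 1279982204) (nat_lit 988) (nat_lit 2431662651) (nat_lit 422) (nat_lit 1) (nat_lit 421) (nat_lit 1) (nat_lit 434) (nat_lit 1) (nat_lit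 340) (nat_lit 417) (nat_lit 383))))))) (XT.nd (nat_lit 936) (nat_lit 4636) (nat_lit 0) (XT.nd (nat_lit 468) (nat_lit 3040) (nat_lit 0) (XT.nd (nat_lit 234) (nat_lit 760) (nat_lit 0) (XT.nd (nat_lit 78) (nat_lit 836) (nat_lit 0) (XT.lf (nat_lit 912) (nat_lit 4159443697) (nat_lit 0) (nat_lit 965004054) (nat_lit 836) (nat_lit 965004054) (nat_lit 422) (nat_lit 1) (nat_lit 410) (nat_lit 1) (nat_lit 421) (nat_lit 1) (nat_lit 341) (nat_lit 417) (nat_lit 382)) (XT.nd (nat_lit 78) (nat_lit 836) (nat_lit 0) (XT.lf (nat_lit 76) (nat_lit 1720908852) (nat_lit 0) (nat_lit 2594294275) (nat_lit 912) (nat_lit 1720908852) (nat_lit 411) (nat_lit 1) (nat_lit 410) (nat_lit 1) (nat_lit 422) (nat_lit 1) (nat_lit 342) (nat_lit 417) (nat_lit 381)) (XT.lf (nat_lit 912) (nat_lit 2721195087) (nat_lit 0) (nat_lit 1631144143) (nat_lit 836) (nat_lit 1631144143) (nat_lit 411) (nat_lit 1) (nat_lit 399) (nat_lit 1) (nat_lit 410) (nat_lit 1) (nat_lit 343) (nat_lit 417)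 (nat_lit 380)))) (XT.nd (nat_lit 78) (nat_lit 760) (nat_lit 0) (XT.lf (nat_lit 76) (nat_lit 998340582) (nat_lit 0) (nat_lit 3934852179) (nat_lit 912) (nat_lit 998340582) (nat_lit 400) (nat_lit 1) (nat_lit 399) (nat_lit 1) (nat_lit 411) (nat_lit 1) (nat_lit 344) (nat_lit 417) (nat_lit 379)) (XT.nd (nat_lit 78) (nat_lit 0) (nat_lit 0) (XT.lf (nat_lit 836) (nat_lit 1260486210) (nat_lit 0) (nat_lit 2309804069) (nat_lit 760) (nat_lit 2309804069) (nat_lit 400) (nat_lit 1) (nat_lit 389) (nat_lit 1) (nat_lit 399) (nat_lit 1) (nat_lit 345) (nat_lit 417) (nat_lit 378)) (XT.lf (nat_lit 76) (nat_lit 265189431) (nat_lit 0) (nat_lit 5299121422) (nat_lit 836) (nat_lit 265189431) (nat_lit 390) (nat_lit 1) (nat_lit 389) (nat_lit 1) (nat_lit 400) (nat_lit 1) (nat_lit 346) (nat_lit 417) (nat_lit 377))))) (XT.nd (nat_lit 234) (nat_lit 1444) (nat_lit 0) (XT.nd (nat_lit 78) (nat_lit 760) (nat_lit 0) (XT.lf (nat_lit 76) (nat_lit 2780899864) (nat_lit 0) (nat_lit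 217386347) (nat_lit 836) (nat_lit 2780899864) (nat_lit 379) (nat_lit 1) (nat_lit 378) (nat_lit 1) (nat_lit 389) (nat_lit 1) (nat_lit 347) (nat_lit 417) (nat_lit 376)) (XT.nd (nat_lit 78) (nat_lit 0) (nat_lit 0) (XT.lf (nat_lit 836) (nat_lit 4781224175) (nat_lit 0) (nat_lit 474235353) (nat_lit 760) (nat_lit 474235353) (nat_lit 379) (nat_lit 1) (nat_lit 368) (nat_lit 1) (nat_lit 378) (nat_lit 1) (nat_lit 348) (nat_lit 417) (nat_lit 375)) (XT.lf (nat_lit 76) (nat_lit 1992145144) (nat_lit 0) (nat_lit 1696262959) (nat_lit 836) (nat_lit 1992145144) (nat_lit 369) (nat_lit 1) (nat_lit 368) (nat_lit 1) (nat_lit 379) (nat_lit 1) (nat_lit 349) (nat_lit 417) (nat_lit 374)))) (XT.nd (nat_lit 78) (nat_lit 684) (nat_lit 0) (XT.lf (nat_lit 836) (nat_lit 3191822930) (nat_lit 0) (nat_lit 1220166713) (nat_lit 760) (nat_lit 1220166713) (nat_lit 369) (nat_lit 1) (nat_lit 358) (nat_lit 1) (nat_lit 368) (nat_lit 1) (nat_lit 350) (nat_lit 417) (nat_lit 373))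 (XT.nd (nat_lit 78) (nat_lit 684) (nat_lit 0) (XT.lf (nat_lit 76) (nat_lit 1196878124) (nat_lit 0) (nat_lit 3190537708) (nat_lit 836) (nat_lit 1196878124) (nat_lit 359) (nat_lit 1) (nat_lit 358) (nat_lit 1) (nat_lit 369) (nat_lit 1) (nat_lit 351) (nat_lit 417) (nat_lit 372)) (XT.lf (nat_lit 760) (nat_lit 1590347553) (nat_lit 0) (nat_lit 1973305453) (nat_lit 684) (nat_lit 1973305453) (nat_lit 359) (nat_lit 1) (nat_lit 349) (nat_lit 1) (nat_lit 358) (nat_lit 1) (nat_lit 352) (nat_lit 417) (nat_lit 371)))))) (XT.nd (nat_lit 468) (nat_lit 2508) (nat_lit 0) (XT.nd (nat_lit 234) (nat_lit 684) (nat_lit 0) (XT.nd (nat_lit 78) (nat_lit 1444) (nat_lit 0) (XT.lf (nat_lit 76) (nat_lit 396079933) (nat_lit 0) (nat_lit 4698184730) (nat_lit 760) (nat_lit 396079933) (nat_lit 350) (nat_lit 1) (nat_lit 349) (nat_lit 1) (nat_lit 359) (nat_lit 1) (nat_lit 353) (nat_lit 417) (nat_lit 370)) (XT.nd (nat_lit 78) (nat_lit 684) (nat_lit 0) (XT.lf (nat_lit 76) (nat_lit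 2711514444) (nat_lit 0) (nat_lit 21007018) (nat_lit 760) (nat_lit 2711514444) (nat_lit 340) (nat_lit 1) (nat_lit 339) (nat_lit 1) (nat_lit 349) (nat_lit 1) (nat_lit 354) (nat_lit 417) (nat_lit 369)) (XT.lf (nat_lit 760) (nat_lit 4585174589) (nat_lit 0) (nat_lit 406627779) (nat_lit 684) (nat_lit 406627779) (nat_lit 340) (nat_lit 1) (nat_lit 330) (nat_lit 1) (nat_lit 339) (nat_lit 1) (nat_lit 355) (nat_lit 417) (nat_lit 368)))) (XT.nd (nat_lit 78) (nat_lit 684) (nat_lit 0) (XT.lf (nat_lit 76) (nat_lit 1866691705) (nat_lit 0) (nat_lit 1619739809) (nat_lit 760) (nat_lit 1866691705) (nat_lit 331) (nat_lit 1) (nat_lit 330) (nat_lit 1) (nat_lit 340) (nat_lit 1) (nat_lit 356) (nat_lit 417) (nat_lit 367)) (XT.nd (nat_lit 78) (nat_lit 0) (nat_lit 0) (XT.lf (nat_lit 760) (nat_lit 2887637838) (nat_lit 0) (nat_lit 1210428940) (nat_lit 684) (nat_lit 1210428940) (nat_lit 331) (nat_lit 1) (nat_lit 321) (nat_lit 1) (nat_lit 330) (nat_lit 1) (nat_lit 357)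 (nat_lit 417) (nat_lit 366)) (XT.lf (nat_lit 76) (nat_lit 1019676041) (nat_lit 0) (nat_lit 3225016215) (nat_lit 760) (nat_lit 1019676041) (nat_lit 322) (nat_lit 1) (nat_lit 321) (nat_lit 1) (nat_lit 331) (nat_lit 1) (nat_lit 358) (nat_lit 417) (nat_lit 365))))) (XT.nd (nat_lit 234) (nat_lit 1216) (nat_lit 0) (XT.nd (nat_lit 78) (nat_lit 684) (nat_lit 0) (XT.lf (nat_lit 684) (nat_lit 1186482168) (nat_lit 0) (nat_lit 2017103963) (nat_lit 608) (nat_lit 2017103963) (nat_lit 322) (nat_lit 1) (nat_lit 313) (nat_lit 1) (nat_lit 321) (nat_lit 1) (nat_lit 359) (nat_lit 417) (nat_lit 364)) (XT.nd (nat_lit 78) (nat_lit 684) (nat_lit 0) (XT.lf (nat_lit 76) (nat_lit 171238847) (nat_lit 0) (nat_lit 4835236565) (nat_lit 684) (nat_lit 171238847) (nat_lit 314) (nat_lit 1) (nat_lit 313) (nat_lit 1) (nat_lit 322) (nat_lit 1) (nat_lit 360) (nat_lit 417) (nat_lit 363)) (XT.lf (nat_lit 76) (nat_lit 2312439789) (nat_lit 0) (nat_lit 510010662) (nat_lit 684)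 (nat_lit 2312439789) (nat_lit 305) (nat_lit 1) (nat_lit 304) (nat_lit 1) (nat_lit 313) (nat_lit 1) (nat_lit 361) (nat_lit 417) (nat_lit 362)))) (XT.nd (nat_lit 156) (nat_lit 608) (nat_lit 0) (XT.nd (nat_lit 78) (nat_lit 0) (nat_lit 0) (XT.lf (nat_lit 684) (nat_lit 3745888484) (nat_lit 0) (nat_lit 673432071) (nat_lit 608) (nat_lit 673432071) (nat_lit 305) (nat_lit 1) (nat_lit 296) (nat_lit 1) (nat_lit 304) (nat_lit 1) (nat_lit 362) (nat_lit 417) (nat_lit 361)) (XT.lf (nat_lit 76) (nat_lit 1429662650) (nat_lit 0) (nat_lit 2191629522) (nat_lit 684) (nat_lit 1429662650) (nat_lit 297) (nat_lit 1) (nat_lit 296) (nat_lit 1) (nat_lit 305) (nat_lit 1) (nat_lit 363) (nat_lit 417) (nat_lit 360))) (XT.nd (nat_lit 78) (nat_lit 0) (nat_lit 0) (XT.lf (nat_lit 684) (nat_lit 1975727093) (nat_lit 0) (nat_lit 1516983386) (nat_lit 608) (nat_lit 1516983386) (nat_lit 297) (nat_lit 1) (nat_lit 288) (nat_lit 1) (nat_lit 296) (nat_lit 1) (nat_lit 364) (nat_lit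 417) (nat_lit 359)) (XT.lf (nat_lit 76) (nat_lit 548185027) (nat_lit 0) (nat_lit 3872615338) (nat_lit 684) (nat_lit 548185027) (nat_lit 289) (nat_lit 1) (nat_lit 288) (nat_lit 1) (nat_lit 297) (nat_lit 1) (nat_lit 365) (nat_lit 417) (nat_lit 358))))))))
noncomputable def ec84 : XT := (XT.nd (nat_lit 1872) (nat_lit 5320) (nat_lit 0) (XT.nd (nat_lit 936) (nat_lit 3192) (nat_lit 0) (XT.nd (nat_lit 468) (nat_lit 2204) (nat_lit 0) (XT.nd (nat_lit 234) (nat_lit 1064) (nat_lit 0) (XT.nd (nat_lit 78) (nat_lit 684) (nat_lit 0) (XT.lf (nat_lit 608) (nat_lit 208777580) (nat_lit 0) (nat_lit 2359898991) (nat_lit 532) (nat_lit 2359898991) (nat_lit 289) (nat_lit 1) (nat_lit 281) (nat_lit 1) (nat_lit 288) (nat_lit 1) (nat_lit 366) (nat_lit 417) (nat_lit 357)) (XT.nd (nat_lit 78) (nat_lit 0) (nat_lit 0) (XT.lf (nat_lit 684) (nat_lit 4230324993) (nat_lit 0) (nat_lit 329216634) (nat_lit 608) (nat_lit 329216634) (nat_lit 281) (nat_lit 1) (nat_lit 272) (nat_lit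 1) (nat_lit 280) (nat_lit 1) (nat_lit 367) (nat_lit 417) (nat_lit 356)) (XT.lf (nat_lit 76) (nat_lit 1657862099) (nat_lit 0) (nat_lit 1533421593) (nat_lit 684) (nat_lit 1657862099) (nat_lit 273) (nat_lit 1) (nat_lit 272) (nat_lit 1) (nat_lit 281) (nat_lit 1) (nat_lit 368) (nat_lit 417) (nat_lit 355)))) (XT.nd (nat_lit 78) (nat_lit 532) (nat_lit 0) (XT.lf (nat_lit 608) (nat_lit 2408968453) (nat_lit 0) (nat_lit 1200571886) (nat_lit 532) (nat_lit 1200571886) (nat_lit 273) (nat_lit 1) (nat_lit 265) (nat_lit 1) (nat_lit 272) (nat_lit 1) (nat_lit 369) (nat_lit 417) (nat_lit 354)) (XT.nd (nat_lit 78) (nat_lit 532) (nat_lit 0) (XT.lf (nat_lit 76) (nat_lit 752019399) (nat_lit 0) (nat_lit 3267492415) (nat_lit 608) (nat_lit 752019399) (nat_lit 266) (nat_lit 1) (nat_lit 265) (nat_lit 1) (nat_lit 273) (nat_lit 1) (nat_lit 370) (nat_lit 417) (nat_lit 353)) (XT.lf (nat_lit 608) (nat_lit 595356202) (nat_lit 0) (nat_lit 2068964492) (nat_lit 532) (nat_lit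 2068964492) (nat_lit 266) (nat_lit 1) (nat_lit 258) (nat_lit 1) (nat_lit 265) (nat_lit 1) (nat_lit 371) (nat_lit 417) (nat_lit 352))))) (XT.nd (nat_lit 234) (nat_lit 1064) (nat_lit 0) (XT.nd (nat_lit 78) (nat_lit 532) (nat_lit 0) (XT.lf (nat_lit 608) (nat_lit 4398151977) (nat_lit 0) (nat_lit 148740883) (nat_lit 532) (nat_lit 148740883) (nat_lit 258) (nat_lit 1) (nat_lit 250) (nat_lit 1) (nat_lit 257) (nat_lit 1) (nat_lit 372) (nat_lit 417) (nat_lit 351)) (XT.nd (nat_lit 78) (nat_lit 532) (nat_lit 0) (XT.lf (nat_lit 76) (nat_lit 1732179965) (nat_lit 0) (nat_lit 1193713727) (nat_lit 608) (nat_lit 1732179965) (nat_lit 251) (nat_lit 1) (nat_lit 250) (nat_lit 1) (nat_lit 258) (nat_lit 1) (nat_lit 373) (nat_lit 417) (nat_lit 350)) (XT.lf (nat_lit 608) (nat_lit 2541024150) (nat_lit 0) (nat_lit 1040035952) (nat_lit 532) (nat_lit 1040035952) (nat_lit 251) (nat_lit 1) (nat_lit 243) (nat_lit 1) (nat_lit 250) (nat_lit 1) (nat_lit 374) (nat_lit 417)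 (nat_lit 349)))) (XT.nd (nat_lit 78) (nat_lit 1064) (nat_lit 0) (XT.lf (nat_lit 76) (nat_lit 809482509) (nat_lit 0) (nat_lit 2965548522) (nat_lit 608) (nat_lit 809482509) (nat_lit 244) (nat_lit 1) (nat_lit 243) (nat_lit 1) (nat_lit 251) (nat_lit 1) (nat_lit 375) (nat_lit 417) (nat_lit 348)) (XT.nd (nat_lit 78) (nat_lit 608) (nat_lit 0) (XT.lf (nat_lit 532) (nat_lit 695475292) (nat_lit 0) (nat_lit 1926395245) (nat_lit 456) (nat_lit 1926395245) (nat_lit 244) (nat_lit 1) (nat_lit 237) (nat_lit 1) (nat_lit 243) (nat_lit 1) (nat_lit 376) (nat_lit 417) (nat_lit 347)) (XT.lf (nat_lit 608) (nat_lit 4299481231) (nat_lit 0) (nat_lit 106550661) (nat_lit 532) (nat_lit 106550661) (nat_lit 237) (nat_lit 1) (nat_lit 229) (nat_lit 1) (nat_lit 236) (nat_lit 1) (nat_lit 377) (nat_lit 417) (nat_lit 346)))))) (XT.nd (nat_lit 468) (nat_lit 1748) (nat_lit 0) (XT.nd (nat_lit 234) (nat_lit 988) (nat_lit 0) (XT.nd (nat_lit 78) (nat_lit 456) (nat_lit 0) (XT.lf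 (nat_lit 76) (nat_lit 1677058399) (nat_lit 0) (nat_lit 1122835360) (nat_lit 608) (nat_lit 1677058399) (nat_lit 230) (nat_lit 1) (nat_lit 229) (nat_lit 1) (nat_lit 237) (nat_lit 1) (nat_lit 378) (nat_lit 417) (nat_lit 345)) (XT.nd (nat_lit 78) (nat_lit 0) (nat_lit 0) (XT.lf (nat_lit 532) (nat_lit 2419901847) (nat_lit 0) (nat_lit 1010986852) (nat_lit 456) (nat_lit 1010986852) (nat_lit 230) (nat_lit 1) (nat_lit 223) (nat_lit 1) (nat_lit 229) (nat_lit 1) (nat_lit 379) (nat_lit 417) (nat_lit 344)) (XT.lf (nat_lit 76) (nat_lit 743989498) (nat_lit 0) (nat_lit 2919193494) (nat_lit 532) (nat_lit 743989498) (nat_lit 224) (nat_lit 1) (nat_lit 223) (nat_lit 1) (nat_lit 230) (nat_lit 1) (nat_lit 380) (nat_lit 417) (nat_lit 343)))) (XT.nd (nat_lit 78) (nat_lit 532) (nat_lit 0) (XT.lf (nat_lit 532) (nat_lit 555123922) (nat_lit 0) (nat_lit 1908824692) (nat_lit 456) (nat_lit 1908824692) (nat_lit 224) (nat_lit 1) (nat_lit 217) (nat_lit 1) (nat_lit 223)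 (nat_lit 1) (nat_lit 381) (nat_lit 417) (nat_lit 342)) (XT.nd (nat_lit 78) (nat_lit 0) (nat_lit 0) (XT.lf (nat_lit 532) (nat_lit 3978154644) (nat_lit 0) (nat_lit 180363635) (nat_lit 456) (nat_lit 180363635) (nat_lit 217) (nat_lit 1) (nat_lit 210) (nat_lit 1) (nat_lit 216) (nat_lit 1) (nat_lit 382) (nat_lit 417) (nat_lit 341)) (XT.lf (nat_lit 76) (nat_lit 1513878095) (nat_lit 0) (nat_lit 1277311621) (nat_lit 532) (nat_lit 1513878095) (nat_lit 211) (nat_lit 1) (nat_lit 210) (nat_lit 1) (nat_lit 217) (nat_lit 1) (nat_lit 383) (nat_lit 417) (nat_lit 340))))) (XT.nd (nat_lit 234) (nat_lit 912) (nat_lit 0) (XT.nd (nat_lit 78) (nat_lit 380) (nat_lit 0) (XT.lf (nat_lit 532) (nat_lit 2087589633) (nat_lit 0) (nat_lit 1092081162) (nat_lit 456) (nat_lit 1092081162) (nat_lit 211) (nat_lit 1) (nat_lit 204) (nat_lit 1) (nat_lit 210) (nat_lit 1) (nat_lit 384) (nat_lit 417) (nat_lit 339)) (XT.nd (nat_lit 78) (nat_lit 380) (nat_lit 0) (XT.lf (nat_lit 76)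 (nat_lit 576016308) (nat_lit 0) (nat_lit 3086785657) (nat_lit 532) (nat_lit 576016308) (nat_lit 205) (nat_lit 1) (nat_lit 204) (nat_lit 1) (nat_lit 211) (nat_lit 1) (nat_lit 385) (nat_lit 417) (nat_lit 338)) (XT.lf (nat_lit 456) (nat_lit 214512057) (nat_lit 0) (nat_lit 1995810050) (nat_lit 380) (nat_lit 1995810050) (nat_lit 205) (nat_lit 1) (nat_lit 199) (nat_lit 1) (nat_lit 204) (nat_lit 1) (nat_lit 386) (nat_lit 417) (nat_lit 337)))) (XT.nd (nat_lit 78) (nat_lit 380) (nat_lit 0) (XT.lf (nat_lit 532) (nat_lit 3472473797) (nat_lit 0) (nat_lit 350700657) (nat_lit 456) (nat_lit 350700657) (nat_lit 199) (nat_lit 1) (nat_lit 192) (nat_lit 1) (nat_lit 198) (nat_lit 1) (nat_lit 387) (nat_lit 417) (nat_lit 336)) (XT.nd (nat_lit 78) (nat_lit 380) (nat_lit 0) (XT.lf (nat_lit 76) (nat_lit 1261314665) (nat_lit 0) (nat_lit 1619143004) (nat_lit 532) (nat_lit 1261314665) (nat_lit 193) (nat_lit 1) (nat_lit 192) (nat_lit 1) (nat_lit 199) (nat_lit 1)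 (nat_lit 388) (nat_lit 417) (nat_lit 335)) (XT.lf (nat_lit 456) (nat_lit 1580757009) (nat_lit 0) (nat_lit 1264666573) (nat_lit 380) (nat_lit 1264666573) (nat_lit 193) (nat_lit 1) (nat_lit 187) (nat_lit 1) (nat_lit 192) (nat_lit 1) (nat_lit 389) (nat_lit 417) (nat_lit 334))))))) (XT.nd (nat_lit 936) (nat_lit 2584) (nat_lit 0) (XT.nd (nat_lit 468) (nat_lit 1520) (nat_lit 0) (XT.nd (nat_lit 234) (nat_lit 380) (nat_lit 0) (XT.nd (nat_lit 78) (nat_lit 836) (nat_lit 0) (XT.lf (nat_lit 76) (nat_lit 323442091) (nat_lit 0) (nat_lit 3431939748) (nat_lit 456) (nat_lit 323442091) (nat_lit 188) (nat_lit 1) (nat_lit 187) (nat_lit 1) (nat_lit 193) (nat_lit 1) (nat_lit 390) (nat_lit 417) (nat_lit 333)) (XT.nd (nat_lit 78) (nat_lit 380) (nat_lit 0) (XT.lf (nat_lit 76) (nat_lit 1880127072) (nat_lit 0) (nat_lit 287436087) (nat_lit 456) (nat_lit 1880127072) (nat_lit 182) (nat_lit 1) (nat_lit 181) (nat_lit 1) (nat_lit 187) (nat_lit 1) (nat_lit 391) (nat_lit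 417) (nat_lit 332)) (XT.lf (nat_lit 456) (nat_lit 2815846727) (nat_lit 0) (nat_lit 600558965) (nat_lit 380) (nat_lit 600558965) (nat_lit 182) (nat_lit 1) (nat_lit 176) (nat_lit 1) (nat_lit 181) (nat_lit 1) (nat_lit 392) (nat_lit 417) (nat_lit 331)))) (XT.nd (nat_lit 78) (nat_lit 380) (nat_lit 0) (XT.lf (nat_lit 76) (nat_lit 935654555) (nat_lit 0) (nat_lit 2115166790) (nat_lit 456) (nat_lit 935654555) (nat_lit 177) (nat_lit 1) (nat_lit 176) (nat_lit 1) (nat_lit 182) (nat_lit 1) (nat_lit 393) (nat_lit 417) (nat_lit 330)) (XT.nd (nat_lit 78) (nat_lit 0) (nat_lit 0) (XT.lf (nat_lit 456) (nat_lit 931376270) (nat_lit 0) (nat_lit 1512467919) (nat_lit 380) (nat_lit 1512467919) (nat_lit 177) (nat_lit 1) (nat_lit 171) (nat_lit 1) (nat_lit 176) (nat_lit 1) (nat_lit 394) (nat_lit 417) (nat_lit 329)) (XT.lf (nat_lit 76) (nat_lit 1852715) (nat_lit 0) (nat_lit 3922913391) (nat_lit 456) (nat_lit 1852715) (nat_lit 172) (nat_lit 1) (nat_lit 171) (nat_lit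 1) (nat_lit 177) (nat_lit 1) (nat_lit 395) (nat_lit 417) (nat_lit 328))))) (XT.nd (nat_lit 234) (nat_lit 760) (nat_lit 0) (XT.nd (nat_lit 78) (nat_lit 380) (nat_lit 0) (XT.lf (nat_lit 76) (nat_lit 1488757102) (nat_lit 0) (nat_lit 919366528) (nat_lit 380) (nat_lit 1488757102) (nat_lit 167) (nat_lit 1) (nat_lit 166) (nat_lit 1) (nat_lit 171) (nat_lit 1) (nat_lit 396) (nat_lit 417) (nat_lit 327)) (XT.nd (nat_lit 78) (nat_lit 0) (nat_lit 0) (XT.lf (nat_lit 456) (nat_lit 2037361197) (nat_lit 0) (nat_lit 915122502) (nat_lit 380) (nat_lit 915122502) (nat_lit 167) (nat_lit 1) (nat_lit 161) (nat_lit 1) (nat_lit 166) (nat_lit 1) (nat_lit 397) (nat_lit 417) (nat_lit 326)) (XT.lf (nat_lit 76) (nat_lit 551075051) (nat_lit 0) (nat_lit 2736491018) (nat_lit 456) (nat_lit 551075051) (nat_lit 162) (nat_lit 1) (nat_lit 161) (nat_lit 1) (nat_lit 167) (nat_lit 1) (nat_lit 398) (nat_lit 417) (nat_lit 325)))) (XT.nd (nat_lit 78) (nat_lit 456) (nat_lit 0) (XT.lf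 (nat_lit 380) (nat_lit 167273252) (nat_lit 0) (nat_lit 1821308864) (nat_lit 304) (nat_lit 1821308864) (nat_lit 162) (nat_lit 1) (nat_lit 157) (nat_lit 1) (nat_lit 161) (nat_lit 1) (nat_lit 399) (nat_lit 417) (nat_lit 324)) (XT.nd (nat_lit 78) (nat_lit 0) (nat_lit 0) (XT.lf (nat_lit 456) (nat_lit 3036043577) (nat_lit 0) (nat_lit 372721868) (nat_lit 380) (nat_lit 372721868) (nat_lit 157) (nat_lit 1) (nat_lit 151) (nat_lit 1) (nat_lit 156) (nat_lit 1) (nat_lit 400) (nat_lit 417) (nat_lit 323)) (XT.lf (nat_lit 76) (nat_lit 1047699763) (nat_lit 0) (nat_lit 1657825520) (nat_lit 456) (nat_lit 1047699763) (nat_lit 152) (nat_lit 1) (nat_lit 151) (nat_lit 1) (nat_lit 157) (nat_lit 1) (nat_lit 401) (nat_lit 417) (nat_lit 322)))))) (XT.nd (nat_lit 468) (nat_lit 1292) (nat_lit 0) (XT.nd (nat_lit 234) (nat_lit 608) (nat_lit 0) (XT.nd (nat_lit 78) (nat_lit 380) (nat_lit 0) (XT.lf (nat_lit 380) (nat_lit 1162292729) (nat_lit 0) (nat_lit 1281505177) (nat_lit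 304) (nat_lit 1281505177) (nat_lit 152) (nat_lit 1) (nat_lit 147) (nat_lit 1) (nat_lit 151) (nat_lit 1) (nat_lit 402) (nat_lit 417) (nat_lit 321)) (XT.nd (nat_lit 78) (nat_lit 380) (nat_lit 0) (XT.lf (nat_lit 76) (nat_lit 119892421) (nat_lit 0) (nat_lit 3457992841) (nat_lit 380) (nat_lit 119892421) (nat_lit 148) (nat_lit 1) (nat_lit 147) (nat_lit 1) (nat_lit 152) (nat_lit 1) (nat_lit 403) (nat_lit 417) (nat_lit 320)) (XT.lf (nat_lit 76) (nat_lit 1495943611) (nat_lit 0) (nat_lit 678369435) (nat_lit 380) (nat_lit 1495943611) (nat_lit 143) (nat_lit 1) (nat_lit 142) (nat_lit 1) (nat_lit 147) (nat_lit 1) (nat_lit 404) (nat_lit 417) (nat_lit 319)))) (XT.nd (nat_lit 78) (nat_lit 304) (nat_lit 0) (XT.lf (nat_lit 380) (nat_lit 2061776960) (nat_lit 0) (nat_lit 790674768) (nat_lit 304) (nat_lit 790674768) (nat_lit 143) (nat_lit 1) (nat_lit 138) (nat_lit 1) (nat_lit 142) (nat_lit 1) (nat_lit 405) (nat_lit 417) (nat_lit 318)) (XT.nd (nat_lit 78) (nat_lit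 304) (nat_lit 0) (XT.lf (nat_lit 76) (nat_lit 568125000) (nat_lit 0) (nat_lit 2480010569) (nat_lit 380) (nat_lit 568125000) (nat_lit 139) (nat_lit 1) (nat_lit 138) (nat_lit 1) (nat_lit 143) (nat_lit 1) (nat_lit 406) (nat_lit 417) (nat_lit 317)) (XT.lf (nat_lit 380) (nat_lit 212554770) (nat_lit 0) (nat_lit 1688523368) (nat_lit 304) (nat_lit 1688523368) (nat_lit 139) (nat_lit 1) (nat_lit 134) (nat_lit 1) (nat_lit 138) (nat_lit 1) (nat_lit 407) (nat_lit 417) (nat_lit 316))))) (XT.nd (nat_lit 234) (nat_lit 608) (nat_lit 0) (XT.nd (nat_lit 78) (nat_lit 304) (nat_lit 0) (XT.lf (nat_lit 380) (nat_lit 2873388840) (nat_lit 0) (nat_lit 344933887) (nat_lit 304) (nat_lit 344933887) (nat_lit 134) (nat_lit 1) (nat_lit 129) (nat_lit 1) (nat_lit 133) (nat_lit 1) (nat_lit 408) (nat_lit 417) (nat_lit 315)) (XT.nd (nat_lit 78) (nat_lit 304) (nat_lit 0) (XT.lf (nat_lit 76) (nat_lit 973254718) (nat_lit 0) (nat_lit 1590518675) (nat_lit 380) (nat_lit 973254718)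 (nat_lit 130) (nat_lit 1) (nat_lit 129) (nat_lit 1) (nat_lit 134) (nat_lit 1) (nat_lit 409) (nat_lit 417) (nat_lit 314)) (XT.lf (nat_lit 380) (nat_lit 1027340200) (nat_lit 0) (nat_lit 1241884258) (nat_lit 304) (nat_lit 1241884258) (nat_lit 130) (nat_lit 1) (nat_lit 125) (nat_lit 1) (nat_lit 129) (nat_lit 1) (nat_lit 410) (nat_lit 417) (nat_lit 313)))) (XT.nd (nat_lit 78) (nat_lit 608) (nat_lit 0) (XT.lf (nat_lit 76) (nat_lit 59695156) (nat_lit 0) (nat_lit 3366173828) (nat_lit 380) (nat_lit 59695156) (nat_lit 126) (nat_lit 1) (nat_lit 125) (nat_lit 1) (nat_lit 130) (nat_lit 1) (nat_lit 411) (nat_lit 417) (nat_lit 312)) (XT.nd (nat_lit 78) (nat_lit 304) (nat_lit 0) (XT.lf (nat_lit 76) (nat_lit 1338739895) (nat_lit 0) (nat_lit 782503456) (nat_lit 304) (nat_lit 1338739895) (nat_lit 122) (nat_lit 1) (nat_lit 121) (nat_lit 1) (nat_lit 125) (nat_lit 1) (nat_lit 412) (nat_lit 417) (nat_lit 311)) (XT.lf (nat_lit 380) (nat_lit 1763782416) (nat_lit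 0) (nat_lit 835495040) (nat_lit 304) (nat_lit 835495040) (nat_lit 122) (nat_lit 1) (nat_lit 117) (nat_lit 1) (nat_lit 121) (nat_lit 1) (nat_lit 413) (nat_lit 417) (nat_lit 310))))))))
noncomputable def ec85 : XT := (XT.nd (nat_lit 52104) (nat_lit 0) (nat_lit 21052) (XT.nd (nat_lit 51168) (nat_lit 0) (nat_lit 30248) (XT.nd (nat_lit 468) (nat_lit 0) (nat_lit 0) (XT.nd (nat_lit 234) (nat_lit 608) (nat_lit 0) (XT.nd (nat_lit 78) (nat_lit 608) (nat_lit 0) (XT.lf (nat_lit 76) (nat_lit 428159998) (nat_lit 0) (nat_lit 2553507042) (nat_lit 380) (nat_lit 428159998) (nat_lit 118) (nat_lit 1) (nat_lit 117) (nat_lit 1) (nat_lit 122) (nat_lit 1) (nat_lit 414) (nat_lit 417) (nat_lit 309)) (XT.nd (nat_lit 78) (nat_lit 304) (nat_lit 0) (XT.lf (nat_lit 76) (nat_lit 1667772038) (nat_lit 0) (nat_lit 49490722) (nat_lit 304) (nat_lit 1667772038) (nat_lit 114) (nat_lit 1) (nat_lit 113) (nat_lit 1) (nat_lit 117) (nat_lit 1) (nat_lit 415) (nat_lit 417) (nat_lit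 308)) (XT.lf (nat_lit 380) (nat_lit 2428167093) (nat_lit 0) (nat_lit 466168220) (nat_lit 304) (nat_lit 466168220) (nat_lit 114) (nat_lit 1) (nat_lit 109) (nat_lit 1) (nat_lit 113) (nat_lit 1) (nat_lit 416) (nat_lit 417) (nat_lit 307)))) (XT.nd (nat_lit 78) (nat_lit 608) (nat_lit 0) (XT.lf (nat_lit 76) (nat_lit 761250618) (nat_lit 0) (nat_lit 1813636730) (nat_lit 380) (nat_lit 761250618) (nat_lit 110) (nat_lit 1) (nat_lit 109) (nat_lit 1) (nat_lit 114) (nat_lit 1) (nat_lit 417) (nat_lit 417) (nat_lit 306)) (XT.nd (nat_lit 78) (nat_lit 380) (nat_lit 0) (XT.lf (nat_lit 304) (nat_lit 622661715) (nat_lit 0) (nat_lit 1344677243) (nat_lit 228) (nat_lit 1344677243) (nat_lit 110) (nat_lit 1) (nat_lit 106) (nat_lit 1) (nat_lit 109) (nat_lit 1) (nat_lit 418) (nat_lit 417) (nat_lit 305)) (XT.lf (nat_lit 380) (nat_lit 3026294960) (nat_lit 0) (nat_lit 130961446) (nat_lit 304) (nat_lit 130961446) (nat_lit 106) (nat_lit 1) (nat_lit 101) (nat_lit 1) (nat_lit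 105) (nat_lit 1) (nat_lit 419) (nat_lit 417) (nat_lit 304))))) (XT.nd (nat_lit 50466) (nat_lit 0) (nat_lit 30172) (XT.nd (nat_lit 50310) (nat_lit 0) (nat_lit 30096) (XT.lf (nat_lit 76) (nat_lit 1061804335) (nat_lit 0) (nat_lit 1140805223) (nat_lit 380) (nat_lit 1061804335) (nat_lit 102) (nat_lit 1) (nat_lit 101) (nat_lit 1) (nat_lit 106) (nat_lit 1) (nat_lit 420) (nat_lit 417) (nat_lit 303)) (XT.nd (nat_lit 78) (nat_lit 0) (nat_lit 0) (XT.lf (nat_lit 1900) (nat_lit 1431501746) (nat_lit 0) (nat_lit 1443472430) (nat_lit 1900) (nat_lit 1431501746) (nat_lit 522) (nat_lit 1) (nat_lit 497) (nat_lit 0) (nat_lit 522) (nat_lit 0) (nat_lit 304) (nat_lit 418) (nat_lit 418)) (XT.lf (nat_lit 1900) (nat_lit 5660373135) (nat_lit 76) (nat_lit 1433975901) (nat_lit 0) (nat_lit 1433975901) (nat_lit 522) (nat_lit 1) (nat_lit 498) (nat_lit 1) (nat_lit 497) (nat_lit 0) (nat_lit 305) (nat_lit 418) (nat_lit 417)))) (XT.nd (nat_lit 78) (nat_lit 0) (nat_lit 0)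 (XT.lf (nat_lit 1900) (nat_lit 2779270153) (nat_lit 0) (nat_lit 2886082054) (nat_lit 1824) (nat_lit 2779270153) (nat_lit 523) (nat_lit 1) (nat_lit 498) (nat_lit 1) (nat_lit 522) (nat_lit 1) (nat_lit 306) (nat_lit 418) (nat_lit 416)) (XT.nd (nat_lit 78) (nat_lit 0) (nat_lit 76) (XT.lf (nat_lit 1900) (nat_lit 5439716817) (nat_lit 76) (nat_lit 1461235945) (nat_lit 0) (nat_lit 1461235945) (nat_lit 523) (nat_lit 1) (nat_lit 499) (nat_lit 1) (nat_lit 498) (nat_lit 1) (nat_lit 307) (nat_lit 418) (nat_lit 415)) (XT.lf (nat_lit 1900) (nat_lit 2643599293) (nat_lit 0) (nat_lit 2993466451) (nat_lit 1824) (nat_lit 2643599293) (nat_lit 524) (nat_lit 1) (nat_lit 499) (nat_lit 1) (nat_lit 523) (nat_lit 1) (nat_lit 308) (nat_lit 418) (nat_lit 414)))))) (XT.nd (nat_lit 468) (nat_lit 0) (nat_lit 228) (XT.nd (nat_lit 234) (nat_lit 0) (nat_lit 152) (XT.nd (nat_lit 78) (nat_lit 0) (nat_lit 76) (XT.lf (nat_lit 1900) (nat_lit 5117977050) (nat_lit 76) (nat_lit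 1541188332) (nat_lit 0) (nat_lit 1541188332) (nat_lit 524) (nat_lit 1) (nat_lit 500) (nat_lit 1) (nat_lit 499) (nat_lit 1) (nat_lit 309) (nat_lit 418) (nat_lit 413)) (XT.nd (nat_lit 78) (nat_lit 0) (nat_lit 0) (XT.lf (nat_lit 1900) (nat_lit 2459089847) (nat_lit 0) (nat_lit 3202772844) (nat_lit 1824) (nat_lit 2459089847) (nat_lit 525) (nat_lit 1) (nat_lit 500) (nat_lit 1) (nat_lit 524) (nat_lit 1) (nat_lit 310) (nat_lit 418) (nat_lit 412)) (XT.lf (nat_lit 1900) (nat_lit 4701229062) (nat_lit 76) (nat_lit 1670733016) (nat_lit 0) (nat_lit 1670733016) (nat_lit 525) (nat_lit 1) (nat_lit 501) (nat_lit 1) (nat_lit 500) (nat_lit 1) (nat_lit 311) (nat_lit 418) (nat_lit 411)))) (XT.nd (nat_lit 78) (nat_lit 0) (nat_lit 0) (XT.lf (nat_lit 1900) (nat_lit 2228699198) (nat_lit 0) (nat_lit 3507963244) (nat_lit 1824) (nat_lit 2228699198) (nat_lit 526) (nat_lit 1) (nat_lit 501) (nat_lit 1) (nat_lit 525) (nat_lit 1) (nat_lit 312) (nat_lit 418) (nat_lit 410))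 (XT.nd (nat_lit 78) (nat_lit 0) (nat_lit 76) (XT.lf (nat_lit 1900) (nat_lit 4195270017) (nat_lit 76) (nat_lit 1846910993) (nat_lit 0) (nat_lit 1846910993) (nat_lit 526) (nat_lit 1) (nat_lit 502) (nat_lit 1) (nat_lit 501) (nat_lit 1) (nat_lit 313) (nat_lit 418) (nat_lit 409)) (XT.lf (nat_lit 1900) (nat_lit 1955249083) (nat_lit 0) (nat_lit 3903274915) (nat_lit 1824) (nat_lit 1955249083) (nat_lit 527) (nat_lit 1) (nat_lit 502) (nat_lit 1) (nat_lit 526) (nat_lit 1) (nat_lit 314) (nat_lit 418) (nat_lit 408))))) (XT.nd (nat_lit 234) (nat_lit 0) (nat_lit 152) (XT.nd (nat_lit 78) (nat_lit 0) (nat_lit 76) (XT.lf (nat_lit 1900) (nat_lit 3605630636) (nat_lit 76) (nat_lit 2066898422) (nat_lit 0) (nat_lit 2066898422) (nat_lit 527) (nat_lit 1) (nat_lit 503) (nat_lit 1) (nat_lit 502) (nat_lit 1) (nat_lit 315) (nat_lit 418) (nat_lit 407)) (XT.nd (nat_lit 78) (nat_lit 0) (nat_lit 0) (XT.lf (nat_lit 1900) (nat_lit 1641431276) (nat_lit 0) (nat_lit 4383208883)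 (nat_lit 1824) (nat_lit 1641431276) (nat_lit 528) (nat_lit 1) (nat_lit 503) (nat_lit 1) (nat_lit 527) (nat_lit 1) (nat_lit 316) (nat_lit 418) (nat_lit 406)) (XT.lf (nat_lit 1900) (nat_lit 2937586353) (nat_lit 76) (nat_lit 2328000980) (nat_lit 0) (nat_lit 2328000980) (nat_lit 528) (nat_lit 1) (nat_lit 504) (nat_lit 1) (nat_lit 503) (nat_lit 1) (nat_lit 317) (nat_lit 418) (nat_lit 405)))) (XT.nd (nat_lit 78) (nat_lit 0) (nat_lit 0) (XT.lf (nat_lit 1900) (nat_lit 1289813031) (nat_lit 0) (nat_lit 4942518913) (nat_lit 1824) (nat_lit 1289813031) (nat_lit 529) (nat_lit 1) (nat_lit 504) (nat_lit 1) (nat_lit 528) (nat_lit 1) (nat_lit 318) (nat_lit 418) (nat_lit 404)) (XT.nd (nat_lit 78) (nat_lit 0) (nat_lit 76) (XT.lf (nat_lit 1900) (nat_lit 2196168028) (nat_lit 76) (nat_lit 2627648439) (nat_lit 0) (nat_lit 2627648439) (nat_lit 529) (nat_lit 1) (nat_lit 505) (nat_lit 1) (nat_lit 504) (nat_lit 1) (nat_lit 319) (nat_lit 418) (nat_lit 403)) (XT.lf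 (nat_lit 1900) (nat_lit 902842310) (nat_lit 0) (nat_lit 5576200922) (nat_lit 1824) (nat_lit 902842310) (nat_lit 530) (nat_lit 1) (nat_lit 505) (nat_lit 1) (nat_lit 529) (nat_lit 1) (nat_lit 320) (nat_lit 418) (nat_lit 402))))))) (XT.nd (nat_lit 936) (nat_lit 6004) (nat_lit 0) (XT.nd (nat_lit 468) (nat_lit 1900) (nat_lit 0) (XT.nd (nat_lit 234) (nat_lit 1748) (nat_lit 0) (XT.nd (nat_lit 78) (nat_lit 0) (nat_lit 76) (XT.lf (nat_lit 1900) (nat_lit 1386172218) (nat_lit 76) (nat_lit 2963389468) (nat_lit 0) (nat_lit 2963389468) (nat_lit 530) (nat_lit 1) (nat_lit 506) (nat_lit 1) (nat_lit 505) (nat_lit 1) (nat_lit 321) (nat_lit 418) (nat_lit 401)) (XT.nd (nat_lit 78) (nat_lit 0) (nat_lit 0) (XT.lf (nat_lit 1900) (nat_lit 482852800) (nat_lit 0) (nat_lit 6279482823) (nat_lit 1824) (nat_lit 482852800) (nat_lit 531) (nat_lit 1) (nat_lit 506) (nat_lit 1) (nat_lit 530) (nat_lit 1) (nat_lit 322) (nat_lit 418) (nat_lit 400)) (XT.lf (nat_lit 1900) (nat_lit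 512171038) (nat_lit 76) (nat_lit 3332886643) (nat_lit 0) (nat_lit 3332886643) (nat_lit 531) (nat_lit 1) (nat_lit 507) (nat_lit 1) (nat_lit 506) (nat_lit 1) (nat_lit 323) (nat_lit 418) (nat_lit 399)))) (XT.nd (nat_lit 78) (nat_lit 1900) (nat_lit 0) (XT.lf (nat_lit 1900) (nat_lit 32068725) (nat_lit 0) (nat_lit 7047814782) (nat_lit 1824) (nat_lit 32068725) (nat_lit 532) (nat_lit 1) (nat_lit 507) (nat_lit 1) (nat_lit 531) (nat_lit 1) (nat_lit 324) (nat_lit 418) (nat_lit 398)) (XT.nd (nat_lit 78) (nat_lit 0) (nat_lit 0) (XT.lf (nat_lit 1976) (nat_lit 3315169804) (nat_lit 0) (nat_lit 415950603) (nat_lit 1900) (nat_lit 3315169804) (nat_lit 508) (nat_lit 1) (nat_lit 482) (nat_lit 1) (nat_lit 507) (nat_lit 1) (nat_lit 325) (nat_lit 418) (nat_lit 397)) (XT.lf (nat_lit 1976) (nat_lit 6092951295) (nat_lit 76) (nat_lit 444447171) (nat_lit 0) (nat_lit 444447171) (nat_lit 508) (nat_lit 1) (nat_lit 483) (nat_lit 1) (nat_lit 482) (nat_lit 1) (nat_lit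 326) (nat_lit 418) (nat_lit 396))))) (XT.nd (nat_lit 234) (nat_lit 1976) (nat_lit 0) (XT.nd (nat_lit 78) (nat_lit 0) (nat_lit 0) (XT.lf (nat_lit 1976) (nat_lit 2762874669) (nat_lit 0) (nat_lit 1392124155) (nat_lit 1900) (nat_lit 2762874669) (nat_lit 509) (nat_lit 1) (nat_lit 483) (nat_lit 1) (nat_lit 508) (nat_lit 1) (nat_lit 327) (nat_lit 418) (nat_lit 395)) (XT.nd (nat_lit 78) (nat_lit 0) (nat_lit 76) (XT.lf (nat_lit 1976) (nat_lit 4960510276) (nat_lit 76) (nat_lit 947232923) (nat_lit 0) (nat_lit 947232923) (nat_lit 509) (nat_lit 1) (nat_lit 484) (nat_lit 1) (nat_lit 483) (nat_lit 1) (nat_lit 328) (nat_lit 418) (nat_lit 394)) (XT.lf (nat_lit 76) (nat_lit 2186751635) (nat_lit 0) (nat_lit 2419164624) (nat_lit 1900) (nat_lit 2186751635) (nat_lit 485) (nat_lit 1) (nat_lit 484) (nat_lit 1) (nat_lit 509) (nat_lit 1) (nat_lit 329) (nat_lit 418) (nat_lit 393)))) (XT.nd (nat_lit 78) (nat_lit 912) (nat_lit 0) (XT.lf (nat_lit 1216) (nat_lit 3782090651)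 (nat_lit 0) (nat_lit 1474589338) (nat_lit 1140) (nat_lit 1474589338) (nat_lit 485) (nat_lit 1) (nat_lit 469) (nat_lit 1) (nat_lit 484) (nat_lit 1) (nat_lit 330) (nat_lit 418) (nat_lit 392)) (XT.nd (nat_lit 78) (nat_lit 912) (nat_lit 0) (XT.lf (nat_lit 76) (nat_lit 1588613699) (nat_lit 0) (nat_lit 3493356139) (nat_lit 1216) (nat_lit 1588613699) (nat_lit 470) (nat_lit 1) (nat_lit 469) (nat_lit 1) (nat_lit 485) (nat_lit 1) (nat_lit 331) (nat_lit 418) (nat_lit 391)) (XT.lf (nat_lit 988) (nat_lit 2561241604) (nat_lit 0) (nat_lit 2024697710) (nat_lit 912) (nat_lit 2024697710) (nat_lit 470) (nat_lit 1) (nat_lit 457) (nat_lit 1) (nat_lit 469) (nat_lit 1) (nat_lit 332) (nat_lit 418) (nat_lit 390)))))) (XT.nd (nat_lit 468) (nat_lit 3268) (nat_lit 0) (XT.nd (nat_lit 234) (nat_lit 1824) (nat_lit 0) (XT.nd (nat_lit 78) (nat_lit 912) (nat_lit 0) (XT.lf (nat_lit 76) (nat_lit 970186049) (nat_lit 0) (nat_lit 4611161252) (nat_lit 988) (nat_lit 970186049)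 (nat_lit 458) (nat_lit 1) (nat_lit 457) (nat_lit 1) (nat_lit 470) (nat_lit 1) (nat_lit 333) (nat_lit 418) (nat_lit 389)) (XT.nd (nat_lit 78) (nat_lit 0) (nat_lit 0) (XT.lf (nat_lit 988) (nat_lit 1301339916) (nat_lit 0) (nat_lit 2595826909) (nat_lit 912) (nat_lit 2595826909) (nat_lit 458) (nat_lit 1) (nat_lit 445) (nat_lit 1) (nat_lit 457) (nat_lit 1) (nat_lit 334) (nat_lit 418) (nat_lit 388)) (XT.lf (nat_lit 76) (nat_lit 333109815) (nat_lit 0) (nat_lit 5769213339) (nat_lit 988) (nat_lit 333109815) (nat_lit 446) (nat_lit 1) (nat_lit 445) (nat_lit 1) (nat_lit 458) (nat_lit 1) (nat_lit 335) (nat_lit 418) (nat_lit 387)))) (XT.nd (nat_lit 78) (nat_lit 988) (nat_lit 0) (XT.lf (nat_lit 912) (nat_lit 5597335) (nat_lit 0) (nat_lit 3186329646) (nat_lit 836) (nat_lit 3186329646) (nat_lit 446) (nat_lit 1) (nat_lit 434) (nat_lit 1) (nat_lit 445) (nat_lit 1) (nat_lit 336) (nat_lit 418) (nat_lit 386)) (XT.nd (nat_lit 78) (nat_lit 0) (nat_lit 0) (XT.lf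 (nat_lit 988) (nat_lit 5684149092) (nat_lit 0) (nat_lit 318942125) (nat_lit 912) (nat_lit 318942125) (nat_lit 434) (nat_lit 1) (nat_lit 421) (nat_lit 1) (nat_lit 433) (nat_lit 1) (nat_lit 337) (nat_lit 418) (nat_lit 385)) (XT.lf (nat_lit 76) (nat_lit 2480295904) (nat_lit 0) (nat_lit 1305581848) (nat_lit 988) (nat_lit 2480295904) (nat_lit 422) (nat_lit 1) (nat_lit 421) (nat_lit 1) (nat_lit 434) (nat_lit 1) (nat_lit 338) (nat_lit 418) (nat_lit 384))))) (XT.nd (nat_lit 234) (nat_lit 1596) (nat_lit 0) (XT.nd (nat_lit 78) (nat_lit 836) (nat_lit 0) (XT.lf (nat_lit 912) (nat_lit 4242632571) (nat_lit 0) (nat_lit 984304135) (nat_lit 836) (nat_lit 984304135) (nat_lit 422) (nat_lit 1) (nat_lit 410) (nat_lit 1) (nat_lit 421) (nat_lit 1) (nat_lit 339) (nat_lit 418) (nat_lit 383)) (XT.nd (nat_lit 78) (nat_lit 836) (nat_lit 0) (XT.lf (nat_lit 76) (nat_lit 1755327030) (nat_lit 0) (nat_lit 2646180160) (nat_lit 912) (nat_lit 1755327030) (nat_lit 411) (nat_lit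 1) (nat_lit 410) (nat_lit 1) (nat_lit 422) (nat_lit 1) (nat_lit 340) (nat_lit 418) (nat_lit 382)) (XT.lf (nat_lit 912) (nat_lit 2775618988) (nat_lit 0) (nat_lit 1663767026) (nat_lit 836) (nat_lit 1663767026) (nat_lit 411) (nat_lit 1) (nat_lit 399) (nat_lit 1) (nat_lit 410) (nat_lit 1) (nat_lit 341) (nat_lit 418) (nat_lit 381)))) (XT.nd (nat_lit 156) (nat_lit 836) (nat_lit 0) (XT.nd (nat_lit 78) (nat_lit 760) (nat_lit 0) (XT.lf (nat_lit 76) (nat_lit 1018307393) (nat_lit 0) (nat_lit 4013549223) (nat_lit 912) (nat_lit 1018307393) (nat_lit 400) (nat_lit 1) (nat_lit 399) (nat_lit 1) (nat_lit 411) (nat_lit 1) (nat_lit 342) (nat_lit 418) (nat_lit 380)) (XT.lf (nat_lit 836) (nat_lit 1285695935) (nat_lit 0) (nat_lit 2356000150) (nat_lit 760) (nat_lit 2356000150) (nat_lit 400) (nat_lit 1) (nat_lit 389) (nat_lit 1) (nat_lit 399) (nat_lit 1) (nat_lit 343) (nat_lit 418) (nat_lit 379))) (XT.nd (nat_lit 78) (nat_lit 836) (nat_lit 0) (XT.lf (nat_lit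 76) (nat_lit 270493219) (nat_lit 0) (nat_lit 5405103851) (nat_lit 836) (nat_lit 270493219) (nat_lit 390) (nat_lit 1) (nat_lit 389) (nat_lit 1) (nat_lit 400) (nat_lit 1) (nat_lit 344) (nat_lit 418) (nat_lit 378)) (XT.lf (nat_lit 76) (nat_lit 2836517861) (nat_lit 0) (nat_lit 221734073) (nat_lit 836) (nat_lit 2836517861) (nat_lit 379) (nat_lit 1) (nat_lit 378) (nat_lit 1) (nat_lit 389) (nat_lit 1) (nat_lit 345) (nat_lit 418) (nat_lit 377))))))))
noncomputable def ec86 : XT := (XT.nd (nat_lit 1872) (nat_lit 6612) (nat_lit 0) (XT.nd (nat_lit 936) (nat_lit 4180) (nat_lit 0) (XT.nd (nat_lit 468) (nat_lit 2736) (nat_lit 0) (XT.nd (nat_lit 234) (nat_lit 684) (nat_lit 0) (XT.nd (nat_lit 78) (nat_lit 760) (nat_lit 0) (XT.lf (nat_lit 836) (nat_lit 4876848658) (nat_lit 0) (nat_lit 483720060) (nat_lit 760) (nat_lit 483720060) (nat_lit 379) (nat_lit 1) (nat_lit 368) (nat_lit 1) (nat_lit 378) (nat_lit 1) (nat_lit 346) (nat_lit 418) (nat_lit 376)) (XT.nd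 (nat_lit 78) (nat_lit 760) (nat_lit 0) (XT.lf (nat_lit 76) (nat_lit 2031988046) (nat_lit 0) (nat_lit 1730188218) (nat_lit 836) (nat_lit 2031988046) (nat_lit 369) (nat_lit 1) (nat_lit 368) (nat_lit 1) (nat_lit 379) (nat_lit 1) (nat_lit 347) (nat_lit 418) (nat_lit 375)) (XT.lf (nat_lit 836) (nat_lit 3255659389) (nat_lit 0) (nat_lit 1244570047) (nat_lit 760) (nat_lit 1244570047) (nat_lit 369) (nat_lit 1) (nat_lit 358) (nat_lit 1) (nat_lit 368) (nat_lit 1) (nat_lit 348) (nat_lit 418) (nat_lit 374)))) (XT.nd (nat_lit 78) (nat_lit 684) (nat_lit 0) (XT.lf (nat_lit 76) (nat_lit 1220815686) (nat_lit 0) (nat_lit 3254348463) (nat_lit 836) (nat_lit 1220815686) (nat_lit 359) (nat_lit 1) (nat_lit 358) (nat_lit 1) (nat_lit 369) (nat_lit 1) (nat_lit 349) (nat_lit 418) (nat_lit 373)) (XT.nd (nat_lit 78) (nat_lit 0) (nat_lit 0) (XT.lf (nat_lit 760) (nat_lit 1622154504) (nat_lit 0) (nat_lit 2012771562) (nat_lit 684) (nat_lit 2012771562) (nat_lit 359) (nat_lit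 1) (nat_lit 349) (nat_lit 1) (nat_lit 358) (nat_lit 1) (nat_lit 350) (nat_lit 418) (nat_lit 372)) (XT.lf (nat_lit 76) (nat_lit 404001532) (nat_lit 0) (nat_lit 4792148425) (nat_lit 760) (nat_lit 404001532) (nat_lit 350) (nat_lit 1) (nat_lit 349) (nat_lit 1) (nat_lit 359) (nat_lit 1) (nat_lit 351) (nat_lit 418) (nat_lit 371))))) (XT.nd (nat_lit 234) (nat_lit 1292) (nat_lit 0) (XT.nd (nat_lit 78) (nat_lit 684) (nat_lit 0) (XT.lf (nat_lit 76) (nat_lit 2765744733) (nat_lit 0) (nat_lit 21427158) (nat_lit 760) (nat_lit 2765744733) (nat_lit 340) (nat_lit 1) (nat_lit 339) (nat_lit 1) (nat_lit 349) (nat_lit 1) (nat_lit 352) (nat_lit 418) (nat_lit 370)) (XT.nd (nat_lit 78) (nat_lit 0) (nat_lit 0) (XT.lf (nat_lit 760) (nat_lit 4676878081) (nat_lit 0) (nat_lit 414760335) (nat_lit 684) (nat_lit 414760335) (nat_lit 340) (nat_lit 1) (nat_lit 330) (nat_lit 1) (nat_lit 339) (nat_lit 1) (nat_lit 353) (nat_lit 418) (nat_lit 369)) (XT.lf (nat_lit 76) (nat_lit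 1904025539) (nat_lit 0) (nat_lit 1652134605) (nat_lit 760) (nat_lit 1904025539) (nat_lit 331) (nat_lit 1) (nat_lit 330) (nat_lit 1) (nat_lit 340) (nat_lit 1) (nat_lit 354) (nat_lit 418) (nat_lit 368)))) (XT.nd (nat_lit 78) (nat_lit 608) (nat_lit 0) (XT.lf (nat_lit 760) (nat_lit 2945390595) (nat_lit 0) (nat_lit 1234637519) (nat_lit 684) (nat_lit 1234637519) (nat_lit 331) (nat_lit 1) (nat_lit 321) (nat_lit 1) (nat_lit 330) (nat_lit 1) (nat_lit 355) (nat_lit 418) (nat_lit 367)) (XT.nd (nat_lit 78) (nat_lit 608) (nat_lit 0) (XT.lf (nat_lit 76) (nat_lit 1040069562) (nat_lit 0) (nat_lit 3289516539) (nat_lit 760) (nat_lit 1040069562) (nat_lit 322) (nat_lit 1) (nat_lit 321) (nat_lit 1) (nat_lit 331) (nat_lit 1) (nat_lit 356) (nat_lit 418) (nat_lit 366)) (XT.lf (nat_lit 684) (nat_lit 1210211811) (nat_lit 0) (nat_lit 2057446043) (nat_lit 608) (nat_lit 2057446043) (nat_lit 322) (nat_lit 1) (nat_lit 313) (nat_lit 1) (nat_lit 321) (nat_lit 1) (nat_lit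 357) (nat_lit 418) (nat_lit 365)))))) (XT.nd (nat_lit 468) (nat_lit 2280) (nat_lit 0) (XT.nd (nat_lit 234) (nat_lit 608) (nat_lit 0) (XT.nd (nat_lit 78) (nat_lit 1292) (nat_lit 0) (XT.lf (nat_lit 76) (nat_lit 174663624) (nat_lit 0) (nat_lit 4931941296) (nat_lit 684) (nat_lit 174663624) (nat_lit 314) (nat_lit 1) (nat_lit 313) (nat_lit 1) (nat_lit 322) (nat_lit 1) (nat_lit 358) (nat_lit 418) (nat_lit 364)) (XT.nd (nat_lit 78) (nat_lit 608) (nat_lit 0) (XT.lf (nat_lit 76) (nat_lit 2358688585) (nat_lit 0) (nat_lit 520210875) (nat_lit 684) (nat_lit 2358688585) (nat_lit 305) (nat_lit 1) (nat_lit 304) (nat_lit 1) (nat_lit 313) (nat_lit 1) (nat_lit 359) (nat_lit 418) (nat_lit 363)) (XT.lf (nat_lit 684) (nat_lit 3820806254) (nat_lit 0) (nat_lit 686900712) (nat_lit 608) (nat_lit 686900712) (nat_lit 305) (nat_lit 1) (nat_lit 296) (nat_lit 1) (nat_lit 304) (nat_lit 1) (nat_lit 360) (nat_lit 418) (nat_lit 362)))) (XT.nd (nat_lit 78) (nat_lit 608)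 (nat_lit 0) (XT.lf (nat_lit 76) (nat_lit 1458255903) (nat_lit 0) (nat_lit 2235462113) (nat_lit 684) (nat_lit 1458255903) (nat_lit 297) (nat_lit 1) (nat_lit 296) (nat_lit 1) (nat_lit 305) (nat_lit 1) (nat_lit 361) (nat_lit 418) (nat_lit 361)) (XT.nd (nat_lit 78) (nat_lit 0) (nat_lit 0) (XT.lf (nat_lit 684) (nat_lit 2015241635) (nat_lit 0) (nat_lit 1547323054) (nat_lit 608) (nat_lit 1547323054) (nat_lit 297) (nat_lit 1) (nat_lit 288) (nat_lit 1) (nat_lit 296) (nat_lit 1) (nat_lit 362) (nat_lit 418) (nat_lit 360)) (XT.lf (nat_lit 76) (nat_lit 559148728) (nat_lit 0) (nat_lit 3950067645) (nat_lit 684) (nat_lit 559148728) (nat_lit 289) (nat_lit 1) (nat_lit 288) (nat_lit 1) (nat_lit 297) (nat_lit 1) (nat_lit 363) (nat_lit 418) (nat_lit 359))))) (XT.nd (nat_lit 234) (nat_lit 1064) (nat_lit 0) (XT.nd (nat_lit 78) (nat_lit 684) (nat_lit 0) (XT.lf (nat_lit 608) (nat_lit 212953131) (nat_lit 0) (nat_lit 2407096971) (nat_lit 532) (nat_lit 2407096971)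 (nat_lit 289) (nat_lit 1) (nat_lit 281) (nat_lit 1) (nat_lit 288) (nat_lit 1) (nat_lit 364) (nat_lit 418) (nat_lit 358)) (XT.nd (nat_lit 78) (nat_lit 0) (nat_lit 0) (XT.lf (nat_lit 684) (nat_lit 4314931493) (nat_lit 0) (nat_lit 335800967) (nat_lit 608) (nat_lit 335800967) (nat_lit 281) (nat_lit 1) (nat_lit 272) (nat_lit 1) (nat_lit 280) (nat_lit 1) (nat_lit 365) (nat_lit 418) (nat_lit 357)) (XT.lf (nat_lit 76) (nat_lit 1691019341) (nat_lit 0) (nat_lit 1564090024) (nat_lit 684) (nat_lit 1691019341) (nat_lit 273) (nat_lit 1) (nat_lit 272) (nat_lit 1) (nat_lit 281) (nat_lit 1) (nat_lit 366) (nat_lit 418) (nat_lit 356)))) (XT.nd (nat_lit 78) (nat_lit 532) (nat_lit 0) (XT.lf (nat_lit 608) (nat_lit 2457147822) (nat_lit 0) (nat_lit 1224583324) (nat_lit 532) (nat_lit 1224583324) (nat_lit 273) (nat_lit 1) (nat_lit 265) (nat_lit 1) (nat_lit 272) (nat_lit 1) (nat_lit 367) (nat_lit 418) (nat_lit 355)) (XT.nd (nat_lit 78) (nat_lit 532) (nat_lit 0)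 (XT.lf (nat_lit 76) (nat_lit 767059787) (nat_lit 0) (nat_lit 3332842263) (nat_lit 608) (nat_lit 767059787) (nat_lit 266) (nat_lit 1) (nat_lit 265) (nat_lit 1) (nat_lit 273) (nat_lit 1) (nat_lit 368) (nat_lit 418) (nat_lit 354)) (XT.lf (nat_lit 608) (nat_lit 607263326) (nat_lit 0) (nat_lit 2110343782) (nat_lit 532) (nat_lit 2110343782) (nat_lit 266) (nat_lit 1) (nat_lit 258) (nat_lit 1) (nat_lit 265) (nat_lit 1) (nat_lit 369) (nat_lit 418) (nat_lit 353))))))) (XT.nd (nat_lit 936) (nat_lit 2964) (nat_lit 0) (XT.nd (nat_lit 468) (nat_lit 1444) (nat_lit 0) (XT.nd (nat_lit 234) (nat_lit 1064) (nat_lit 0) (XT.nd (nat_lit 78) (nat_lit 532) (nat_lit 0) (XT.lf (nat_lit 608) (nat_lit 4486115017) (nat_lit 0) (nat_lit 151715701) (nat_lit 532) (nat_lit 151715701) (nat_lit 258) (nat_lit 1) (nat_lit 250) (nat_lit 1) (nat_lit 257) (nat_lit 1) (nat_lit 370) (nat_lit 418) (nat_lit 352)) (XT.nd (nat_lit 78) (nat_lit 532) (nat_lit 0) (XT.lf (nat_lit 76)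 (nat_lit 1766823564) (nat_lit 0) (nat_lit 1217588001) (nat_lit 608) (nat_lit 1766823564) (nat_lit 251) (nat_lit 1) (nat_lit 250) (nat_lit 1) (nat_lit 258) (nat_lit 1) (nat_lit 371) (nat_lit 418) (nat_lit 351)) (XT.lf (nat_lit 608) (nat_lit 2591844633) (nat_lit 0) (nat_lit 1060836671) (nat_lit 532) (nat_lit 1060836671) (nat_lit 251) (nat_lit 1) (nat_lit 243) (nat_lit 1) (nat_lit 250) (nat_lit 1) (nat_lit 372) (nat_lit 418) (nat_lit 350)))) (XT.nd (nat_lit 78) (nat_lit 1064) (nat_lit 0) (XT.lf (nat_lit 76) (nat_lit 825672160) (nat_lit 0) (nat_lit 3024859493) (nat_lit 608) (nat_lit 825672160) (nat_lit 244) (nat_lit 1) (nat_lit 243) (nat_lit 1) (nat_lit 251) (nat_lit 1) (nat_lit 373) (nat_lit 418) (nat_lit 349)) (XT.nd (nat_lit 78) (nat_lit 608) (nat_lit 0) (XT.lf (nat_lit 532) (nat_lit 709384797) (nat_lit 0) (nat_lit 1964923149) (nat_lit 456) (nat_lit 1964923149) (nat_lit 244) (nat_lit 1) (nat_lit 237) (nat_lit 1) (nat_lit 243) (nat_lit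 1) (nat_lit 374) (nat_lit 418) (nat_lit 348)) (XT.lf (nat_lit 608) (nat_lit 4385470856) (nat_lit 0) (nat_lit 108681674) (nat_lit 532) (nat_lit 108681674) (nat_lit 237) (nat_lit 1) (nat_lit 229) (nat_lit 1) (nat_lit 236) (nat_lit 1) (nat_lit 375) (nat_lit 418) (nat_lit 347))))) (XT.nd (nat_lit 234) (nat_lit 988) (nat_lit 0) (XT.nd (nat_lit 78) (nat_lit 456) (nat_lit 0) (XT.lf (nat_lit 76) (nat_lit 1710599566) (nat_lit 0) (nat_lit 1145292067) (nat_lit 608) (nat_lit 1710599566) (nat_lit 230) (nat_lit 1) (nat_lit 229) (nat_lit 1) (nat_lit 237) (nat_lit 1) (nat_lit 376) (nat_lit 418) (nat_lit 346)) (XT.nd (nat_lit 78) (nat_lit 0) (nat_lit 0) (XT.lf (nat_lit 532) (nat_lit 2468299884) (nat_lit 0) (nat_lit 1031206589) (nat_lit 456) (nat_lit 1031206589) (nat_lit 230) (nat_lit 1) (nat_lit 223) (nat_lit 1) (nat_lit 229) (nat_lit 1) (nat_lit 377) (nat_lit 418) (nat_lit 345)) (XT.lf (nat_lit 76) (nat_lit 758869288) (nat_lit 0) (nat_lit 2977577364)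 (nat_lit 532) (nat_lit 758869288) (nat_lit 224) (nat_lit 1) (nat_lit 223) (nat_lit 1) (nat_lit 230) (nat_lit 1) (nat_lit 378) (nat_lit 418) (nat_lit 344)))) (XT.nd (nat_lit 78) (nat_lit 532) (nat_lit 0) (XT.lf (nat_lit 532) (nat_lit 566226401) (nat_lit 0) (nat_lit 1947001186) (nat_lit 456) (nat_lit 1947001186) (nat_lit 224) (nat_lit 1) (nat_lit 217) (nat_lit 1) (nat_lit 223) (nat_lit 1) (nat_lit 379) (nat_lit 418) (nat_lit 343)) (XT.nd (nat_lit 78) (nat_lit 0) (nat_lit 0) (XT.lf (nat_lit 532) (nat_lit 4057717737) (nat_lit 0) (nat_lit 183970907) (nat_lit 456) (nat_lit 183970907) (nat_lit 217) (nat_lit 1) (nat_lit 210) (nat_lit 1) (nat_lit 216) (nat_lit 1) (nat_lit 380) (nat_lit 418) (nat_lit 342)) (XT.lf (nat_lit 76) (nat_lit 1544155656) (nat_lit 0) (nat_lit 1302857853) (nat_lit 532) (nat_lit 1544155656) (nat_lit 211) (nat_lit 1) (nat_lit 210) (nat_lit 1) (nat_lit 217) (nat_lit 1) (nat_lit 381) (nat_lit 418) (nat_lit 341)))))) (XT.nd (nat_lit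 468) (nat_lit 1216) (nat_lit 0) (XT.nd (nat_lit 234) (nat_lit 912) (nat_lit 0) (XT.nd (nat_lit 78) (nat_lit 380) (nat_lit 0) (XT.lf (nat_lit 532) (nat_lit 2129341426) (nat_lit 0) (nat_lit 1113922785) (nat_lit 456) (nat_lit 1113922785) (nat_lit 211) (nat_lit 1) (nat_lit 204) (nat_lit 1) (nat_lit 210) (nat_lit 1) (nat_lit 382) (nat_lit 418) (nat_lit 340)) (XT.nd (nat_lit 78) (nat_lit 380) (nat_lit 0) (XT.lf (nat_lit 76) (nat_lit 587536635) (nat_lit 0) (nat_lit 3148521370) (nat_lit 532) (nat_lit 587536635) (nat_lit 205) (nat_lit 1) (nat_lit 204) (nat_lit 1) (nat_lit 211) (nat_lit 1) (nat_lit 383) (nat_lit 418) (nat_lit 339)) (XT.lf (nat_lit 456) (nat_lit 218802298) (nat_lit 0) (nat_lit 2035726251) (nat_lit 380) (nat_lit 2035726251) (nat_lit 205) (nat_lit 1) (nat_lit 199) (nat_lit 1) (nat_lit 204) (nat_lit 1) (nat_lit 384) (nat_lit 418) (nat_lit 338)))) (XT.nd (nat_lit 78) (nat_lit 380) (nat_lit 0) (XT.lf (nat_lit 532) (nat_lit 3541923273)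 (nat_lit 0) (nat_lit 357714670) (nat_lit 456) (nat_lit 357714670) (nat_lit 199) (nat_lit 1) (nat_lit 192) (nat_lit 1) (nat_lit 198) (nat_lit 1) (nat_lit 385) (nat_lit 418) (nat_lit 337)) (XT.nd (nat_lit 78) (nat_lit 380) (nat_lit 0) (XT.lf (nat_lit 76) (nat_lit 1286540958) (nat_lit 0) (nat_lit 1651525864) (nat_lit 532) (nat_lit 1286540958) (nat_lit 193) (nat_lit 1) (nat_lit 192) (nat_lit 1) (nat_lit 199) (nat_lit 1) (nat_lit 386) (nat_lit 418) (nat_lit 336)) (XT.lf (nat_lit 456) (nat_lit 1612372149) (nat_lit 0) (nat_lit 1289959905) (nat_lit 380) (nat_lit 1289959905) (nat_lit 193) (nat_lit 1) (nat_lit 187) (nat_lit 1) (nat_lit 192) (nat_lit 1) (nat_lit 387) (nat_lit 418) (nat_lit 335))))) (XT.nd (nat_lit 234) (nat_lit 380) (nat_lit 0) (XT.nd (nat_lit 78) (nat_lit 836) (nat_lit 0) (XT.lf (nat_lit 76) (nat_lit 329910933) (nat_lit 0) (nat_lit 3500578543) (nat_lit 456) (nat_lit 329910933) (nat_lit 188) (nat_lit 1) (nat_lit 187) (nat_lit 1)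 (nat_lit 193) (nat_lit 1) (nat_lit 388) (nat_lit 418) (nat_lit 334)) (XT.nd (nat_lit 78) (nat_lit 380) (nat_lit 0) (XT.lf (nat_lit 76) (nat_lit 1917729613) (nat_lit 0) (nat_lit 293184809) (nat_lit 456) (nat_lit 1917729613) (nat_lit 182) (nat_lit 1) (nat_lit 181) (nat_lit 1) (nat_lit 187) (nat_lit 1) (nat_lit 389) (nat_lit 418) (nat_lit 333)) (XT.lf (nat_lit 456) (nat_lit 2872163662) (nat_lit 0) (nat_lit 612570145) (nat_lit 380) (nat_lit 612570145) (nat_lit 182) (nat_lit 1) (nat_lit 176) (nat_lit 1) (nat_lit 181) (nat_lit 1) (nat_lit 390) (nat_lit 418) (nat_lit 332)))) (XT.nd (nat_lit 78) (nat_lit 380) (nat_lit 0) (XT.lf (nat_lit 76) (nat_lit 954367647) (nat_lit 0) (nat_lit 2157470126) (nat_lit 456) (nat_lit 954367647) (nat_lit 177) (nat_lit 1) (nat_lit 176) (nat_lit 1) (nat_lit 182) (nat_lit 1) (nat_lit 391) (nat_lit 418) (nat_lit 331)) (XT.nd (nat_lit 78) (nat_lit 0) (nat_lit 0) (XT.lf (nat_lit 456) (nat_lit 950003796) (nat_lit 0) (nat_lit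 1542717277) (nat_lit 380) (nat_lit 1542717277) (nat_lit 177) (nat_lit 1) (nat_lit 171) (nat_lit 1) (nat_lit 176) (nat_lit 1) (nat_lit 392) (nat_lit 418) (nat_lit 330)) (XT.lf (nat_lit 76) (nat_lit 1889769) (nat_lit 0) (nat_lit 4001371658) (nat_lit 456) (nat_lit 1889769) (nat_lit 172) (nat_lit 1) (nat_lit 171) (nat_lit 1) (nat_lit 177) (nat_lit 1) (nat_lit 393) (nat_lit 418) (nat_lit 329))))))))
noncomputable def ec87 : XT := (XT.nd (nat_lit 1872) (nat_lit 228) (nat_lit 0) (XT.nd (nat_lit 936) (nat_lit 2508) (nat_lit 0) (XT.nd (nat_lit 468) (nat_lit 1292) (nat_lit 0) (XT.nd (nat_lit 234) (nat_lit 760) (nat_lit 0) (XT.nd (nat_lit 78) (nat_lit 380) (nat_lit 0) (XT.lf (nat_lit 76) (nat_lit 1518532244) (nat_lit 0) (nat_lit 937753859) (nat_lit 380) (nat_lit 1518532244) (nat_lit 167) (nat_lit 1) (nat_lit 166) (nat_lit 1) (nat_lit 171) (nat_lit 1) (nat_lit 394) (nat_lit 418) (nat_lit 328)) (XT.nd (nat_lit 78) (nat_lit 0) (nat_lit 0) (XT.lf (nat_lit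 456) (nat_lit 2078108420) (nat_lit 0) (nat_lit 933424952) (nat_lit 380) (nat_lit 933424952) (nat_lit 167) (nat_lit 1) (nat_lit 161) (nat_lit 1) (nat_lit 166) (nat_lit 1) (nat_lit 395) (nat_lit 418) (nat_lit 327)) (XT.lf (nat_lit 76) (nat_lit 562096552) (nat_lit 0) (nat_lit 2791220839) (nat_lit 456) (nat_lit 562096552) (nat_lit 162) (nat_lit 1) (nat_lit 161) (nat_lit 1) (nat_lit 167) (nat_lit 1) (nat_lit 396) (nat_lit 418) (nat_lit 326)))) (XT.nd (nat_lit 78) (nat_lit 456) (nat_lit 0) (XT.lf (nat_lit 380) (nat_lit 170618717) (nat_lit 0) (nat_lit 1857735041) (nat_lit 304) (nat_lit 1857735041) (nat_lit 162) (nat_lit 1) (nat_lit 157) (nat_lit 1) (nat_lit 161) (nat_lit 1) (nat_lit 397) (nat_lit 418) (nat_lit 325)) (XT.nd (nat_lit 78) (nat_lit 0) (nat_lit 0) (XT.lf (nat_lit 456) (nat_lit 3096764448) (nat_lit 0) (nat_lit 380176305) (nat_lit 380) (nat_lit 380176305) (nat_lit 157) (nat_lit 1) (nat_lit 151) (nat_lit 1) (nat_lit 156) (nat_lit 1)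 (nat_lit 398) (nat_lit 418) (nat_lit 324)) (XT.lf (nat_lit 76) (nat_lit 1068653758) (nat_lit 0) (nat_lit 1690982031) (nat_lit 456) (nat_lit 1068653758) (nat_lit 152) (nat_lit 1) (nat_lit 151) (nat_lit 1) (nat_lit 157) (nat_lit 1) (nat_lit 399) (nat_lit 418) (nat_lit 323))))) (XT.nd (nat_lit 234) (nat_lit 608) (nat_lit 0) (XT.nd (nat_lit 78) (nat_lit 380) (nat_lit 0) (XT.lf (nat_lit 380) (nat_lit 1185538584) (nat_lit 0) (nat_lit 1307135280) (nat_lit 304) (nat_lit 1307135280) (nat_lit 152) (nat_lit 1) (nat_lit 147) (nat_lit 1) (nat_lit 151) (nat_lit 1) (nat_lit 400) (nat_lit 418) (nat_lit 322)) (XT.nd (nat_lit 78) (nat_lit 380) (nat_lit 0) (XT.lf (nat_lit 76) (nat_lit 122290269) (nat_lit 0) (nat_lit 3527152698) (nat_lit 380) (nat_lit 122290269) (nat_lit 148) (nat_lit 1) (nat_lit 147) (nat_lit 1) (nat_lit 152) (nat_lit 1) (nat_lit 401) (nat_lit 418) (nat_lit 321)) (XT.lf (nat_lit 76) (nat_lit 1525862484) (nat_lit 0) (nat_lit 691936824) (nat_lit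 380) (nat_lit 1525862484) (nat_lit 143) (nat_lit 1) (nat_lit 142) (nat_lit 1) (nat_lit 147) (nat_lit 1) (nat_lit 402) (nat_lit 418) (nat_lit 320)))) (XT.nd (nat_lit 78) (nat_lit 304) (nat_lit 0) (XT.lf (nat_lit 380) (nat_lit 2103012499) (nat_lit 0) (nat_lit 806488263) (nat_lit 304) (nat_lit 806488263) (nat_lit 143) (nat_lit 1) (nat_lit 138) (nat_lit 1) (nat_lit 142) (nat_lit 1) (nat_lit 403) (nat_lit 418) (nat_lit 319)) (XT.nd (nat_lit 78) (nat_lit 304) (nat_lit 0) (XT.lf (nat_lit 76) (nat_lit 579487500) (nat_lit 0) (nat_lit 2529610780) (nat_lit 380) (nat_lit 579487500) (nat_lit 139) (nat_lit 1) (nat_lit 138) (nat_lit 1) (nat_lit 143) (nat_lit 1) (nat_lit 404) (nat_lit 418) (nat_lit 318)) (XT.lf (nat_lit 380) (nat_lit 216805865) (nat_lit 0) (nat_lit 1722293835) (nat_lit 304) (nat_lit 1722293835) (nat_lit 139) (nat_lit 1) (nat_lit 134) (nat_lit 1) (nat_lit 138) (nat_lit 1) (nat_lit 405) (nat_lit 418) (nat_lit 317)))))) (XT.nd (nat_lit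 468) (nat_lit 1216) (nat_lit 0) (XT.nd (nat_lit 234) (nat_lit 608) (nat_lit 0) (XT.nd (nat_lit 78) (nat_lit 304) (nat_lit 0) (XT.lf (nat_lit 380) (nat_lit 2930856617) (nat_lit 0) (nat_lit 351832565) (nat_lit 304) (nat_lit 351832565) (nat_lit 134) (nat_lit 1) (nat_lit 129) (nat_lit 1) (nat_lit 133) (nat_lit 1) (nat_lit 406) (nat_lit 418) (nat_lit 316)) (XT.nd (nat_lit 78) (nat_lit 304) (nat_lit 0) (XT.lf (nat_lit 76) (nat_lit 992719812) (nat_lit 0) (nat_lit 1622329048) (nat_lit 380) (nat_lit 992719812) (nat_lit 130) (nat_lit 1) (nat_lit 129) (nat_lit 1) (nat_lit 134) (nat_lit 1) (nat_lit 407) (nat_lit 418) (nat_lit 315)) (XT.lf (nat_lit 380) (nat_lit 1047887004) (nat_lit 0) (nat_lit 1266721943) (nat_lit 304) (nat_lit 1266721943) (nat_lit 130) (nat_lit 1) (nat_lit 125) (nat_lit 1) (nat_lit 129) (nat_lit 1) (nat_lit 408) (nat_lit 418) (nat_lit 314)))) (XT.nd (nat_lit 78) (nat_lit 608) (nat_lit 0) (XT.lf (nat_lit 76) (nat_lit 60889059) (nat_lit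 0) (nat_lit 3433497305) (nat_lit 380) (nat_lit 60889059) (nat_lit 126) (nat_lit 1) (nat_lit 125) (nat_lit 1) (nat_lit 130) (nat_lit 1) (nat_lit 409) (nat_lit 418) (nat_lit 313)) (XT.nd (nat_lit 78) (nat_lit 304) (nat_lit 0) (XT.lf (nat_lit 76) (nat_lit 1365514693) (nat_lit 0) (nat_lit 798153525) (nat_lit 304) (nat_lit 1365514693) (nat_lit 122) (nat_lit 1) (nat_lit 121) (nat_lit 1) (nat_lit 125) (nat_lit 1) (nat_lit 410) (nat_lit 418) (nat_lit 312)) (XT.lf (nat_lit 380) (nat_lit 1799058064) (nat_lit 0) (nat_lit 852204940) (nat_lit 304) (nat_lit 852204940) (nat_lit 122) (nat_lit 1) (nat_lit 117) (nat_lit 1) (nat_lit 121) (nat_lit 1) (nat_lit 411) (nat_lit 418) (nat_lit 311))))) (XT.nd (nat_lit 234) (nat_lit 608) (nat_lit 0) (XT.nd (nat_lit 78) (nat_lit 608) (nat_lit 0) (XT.lf (nat_lit 76) (nat_lit 436723198) (nat_lit 0) (nat_lit 2604577183) (nat_lit 380) (nat_lit 436723198) (nat_lit 118) (nat_lit 1) (nat_lit 117) (nat_lit 1) (nat_lit 122)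 (nat_lit 1) (nat_lit 412) (nat_lit 418) (nat_lit 310)) (XT.nd (nat_lit 78) (nat_lit 304) (nat_lit 0) (XT.lf (nat_lit 76) (nat_lit 1701127479) (nat_lit 0) (nat_lit 50480536) (nat_lit 304) (nat_lit 1701127479) (nat_lit 114) (nat_lit 1) (nat_lit 113) (nat_lit 1) (nat_lit 117) (nat_lit 1) (nat_lit 413) (nat_lit 418) (nat_lit 309)) (XT.lf (nat_lit 380) (nat_lit 2476730435) (nat_lit 0) (nat_lit 475491585) (nat_lit 304) (nat_lit 475491585) (nat_lit 114) (nat_lit 1) (nat_lit 109) (nat_lit 1) (nat_lit 113) (nat_lit 1) (nat_lit 414) (nat_lit 418) (nat_lit 308)))) (XT.nd (nat_lit 78) (nat_lit 608) (nat_lit 0) (XT.lf (nat_lit 76) (nat_lit 776475631) (nat_lit 0) (nat_lit 1849909465) (nat_lit 380) (nat_lit 776475631) (nat_lit 110) (nat_lit 1) (nat_lit 109) (nat_lit 1) (nat_lit 114) (nat_lit 1) (nat_lit 415) (nat_lit 418) (nat_lit 307)) (XT.nd (nat_lit 78) (nat_lit 380) (nat_lit 0) (XT.lf (nat_lit 304) (nat_lit 635114950) (nat_lit 0) (nat_lit 1371570787)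 (nat_lit 228) (nat_lit 1371570787) (nat_lit 110) (nat_lit 1) (nat_lit 106) (nat_lit 1) (nat_lit 109) (nat_lit 1) (nat_lit 416) (nat_lit 418) (nat_lit 306)) (XT.lf (nat_lit 380) (nat_lit 3086820859) (nat_lit 0) (nat_lit 133580675) (nat_lit 304) (nat_lit 133580675) (nat_lit 106) (nat_lit 1) (nat_lit 101) (nat_lit 1) (nat_lit 105) (nat_lit 1) (nat_lit 417) (nat_lit 418) (nat_lit 305))))))) (XT.nd (nat_lit 51168) (nat_lit 0) (nat_lit 29184) (XT.nd (nat_lit 50700) (nat_lit 0) (nat_lit 30476) (XT.nd (nat_lit 50466) (nat_lit 0) (nat_lit 30400) (XT.nd (nat_lit 78) (nat_lit 228) (nat_lit 0) (XT.lf (nat_lit 76) (nat_lit 1083040422) (nat_lit 0) (nat_lit 1163621327) (nat_lit 380) (nat_lit 1083040422) (nat_lit 102) (nat_lit 1) (nat_lit 101) (nat_lit 1) (nat_lit 106) (nat_lit 1) (nat_lit 418) (nat_lit 418) (nat_lit 304)) (XT.nd (nat_lit 50310) (nat_lit 0) (nat_lit 30324) (XT.lf (nat_lit 304) (nat_lit 1255739153) (nat_lit 0) (nat_lit 1025004477) (nat_lit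 228) (nat_lit 1025004477) (nat_lit 102) (nat_lit 1) (nat_lit 98) (nat_lit 1) (nat_lit 101) (nat_lit 1) (nat_lit 419) (nat_lit 418) (nat_lit 303)) (XT.lf (nat_lit 1900) (nat_lit 5773580597) (nat_lit 76) (nat_lit 1462655419) (nat_lit 0) (nat_lit 1462655419) (nat_lit 522) (nat_lit 1) (nat_lit 498) (nat_lit 1) (nat_lit 497) (nat_lit 0) (nat_lit 303) (nat_lit 419) (nat_lit 418)))) (XT.nd (nat_lit 78) (nat_lit 0) (nat_lit 0) (XT.lf (nat_lit 1900) (nat_lit 2834855556) (nat_lit 0) (nat_lit 2943803695) (nat_lit 1824) (nat_lit 2834855556) (nat_lit 523) (nat_lit 1) (nat_lit 498) (nat_lit 1) (nat_lit 522) (nat_lit 1) (nat_lit 304) (nat_lit 419) (nat_lit 417)) (XT.nd (nat_lit 78) (nat_lit 0) (nat_lit 76) (XT.lf (nat_lit 1900) (nat_lit 5548511153) (nat_lit 76) (nat_lit 1490460664) (nat_lit 0) (nat_lit 1490460664) (nat_lit 523) (nat_lit 1) (nat_lit 499) (nat_lit 1) (nat_lit 498) (nat_lit 1) (nat_lit 305) (nat_lit 419) (nat_lit 416)) (XT.lf (nat_lit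 1900) (nat_lit 2696471278) (nat_lit 0) (nat_lit 3053335780) (nat_lit 1824) (nat_lit 2696471278) (nat_lit 524) (nat_lit 1) (nat_lit 499) (nat_lit 1) (nat_lit 523) (nat_lit 1) (nat_lit 306) (nat_lit 419) (nat_lit 415))))) (XT.nd (nat_lit 234) (nat_lit 0) (nat_lit 152) (XT.nd (nat_lit 78) (nat_lit 0) (nat_lit 76) (XT.lf (nat_lit 1900) (nat_lit 5220336591) (nat_lit 76) (nat_lit 1572012099) (nat_lit 0) (nat_lit 1572012099) (nat_lit 524) (nat_lit 1) (nat_lit 500) (nat_lit 1) (nat_lit 499) (nat_lit 1) (nat_lit 307) (nat_lit 419) (nat_lit 414)) (XT.nd (nat_lit 78) (nat_lit 0) (nat_lit 0) (XT.lf (nat_lit 1900) (nat_lit 2508271644) (nat_lit 0) (nat_lit 3266828300) (nat_lit 1824) (nat_lit 2508271644) (nat_lit 525) (nat_lit 1) (nat_lit 500) (nat_lit 1) (nat_lit 524) (nat_lit 1) (nat_lit 308) (nat_lit 419) (nat_lit 413)) (XT.lf (nat_lit 1900) (nat_lit 4795253643) (nat_lit 76) (nat_lit 1704147676) (nat_lit 0) (nat_lit 1704147676) (nat_lit 525) (nat_lit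 1) (nat_lit 501) (nat_lit 1) (nat_lit 500) (nat_lit 1) (nat_lit 309) (nat_lit 419) (nat_lit 412)))) (XT.nd (nat_lit 78) (nat_lit 0) (nat_lit 0) (XT.lf (nat_lit 1900) (nat_lit 2273273182) (nat_lit 0) (nat_lit 3578122508) (nat_lit 1824) (nat_lit 2273273182) (nat_lit 526) (nat_lit 1) (nat_lit 501) (nat_lit 1) (nat_lit 525) (nat_lit 1) (nat_lit 310) (nat_lit 419) (nat_lit 411)) (XT.nd (nat_lit 78) (nat_lit 0) (nat_lit 76) (XT.lf (nat_lit 1900) (nat_lit 4279175418) (nat_lit 76) (nat_lit 1883849213) (nat_lit 0) (nat_lit 1883849213) (nat_lit 526) (nat_lit 1) (nat_lit 502) (nat_lit 1) (nat_lit 501) (nat_lit 1) (nat_lit 311) (nat_lit 419) (nat_lit 410)) (XT.lf (nat_lit 1900) (nat_lit 1994354064) (nat_lit 0) (nat_lit 3981340413) (nat_lit 1824) (nat_lit 1994354064) (nat_lit 527) (nat_lit 1) (nat_lit 502) (nat_lit 1) (nat_lit 526) (nat_lit 1) (nat_lit 312) (nat_lit 419) (nat_lit 409)))))) (XT.nd (nat_lit 468) (nat_lit 1520) (nat_lit 0) (XT.nd (nat_lit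 234) (nat_lit 0) (nat_lit 152) (XT.nd (nat_lit 78) (nat_lit 0) (nat_lit 76) (XT.lf (nat_lit 1900) (nat_lit 3677743248) (nat_lit 76) (nat_lit 2108236391) (nat_lit 0) (nat_lit 2108236391) (nat_lit 527) (nat_lit 1) (nat_lit 503) (nat_lit 1) (nat_lit 502) (nat_lit 1) (nat_lit 313) (nat_lit 419) (nat_lit 408)) (XT.nd (nat_lit 78) (nat_lit 0) (nat_lit 0) (XT.lf (nat_lit 1900) (nat_lit 1674259901) (nat_lit 0) (nat_lit 4470873061) (nat_lit 1824) (nat_lit 1674259901) (nat_lit 528) (nat_lit 1) (nat_lit 503) (nat_lit 1) (nat_lit 527) (nat_lit 1) (nat_lit 314) (nat_lit 419) (nat_lit 407)) (XT.lf (nat_lit 1900) (nat_lit 2996338080) (nat_lit 76) (nat_lit 2374561000) (nat_lit 0) (nat_lit 2374561000) (nat_lit 528) (nat_lit 1) (nat_lit 504) (nat_lit 1) (nat_lit 503) (nat_lit 1) (nat_lit 315) (nat_lit 419) (nat_lit 406)))) (XT.nd (nat_lit 78) (nat_lit 0) (nat_lit 0) (XT.lf (nat_lit 1900) (nat_lit 1315609291) (nat_lit 0) (nat_lit 5041369292) (nat_lit 1824)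 (nat_lit 1315609291) (nat_lit 529) (nat_lit 1) (nat_lit 504) (nat_lit 1) (nat_lit 528) (nat_lit 1) (nat_lit 316) (nat_lit 419) (nat_lit 405)) (XT.nd (nat_lit 78) (nat_lit 0) (nat_lit 76) (XT.lf (nat_lit 1900) (nat_lit 2240091389) (nat_lit 76) (nat_lit 2680201408) (nat_lit 0) (nat_lit 2680201408) (nat_lit 529) (nat_lit 1) (nat_lit 505) (nat_lit 1) (nat_lit 504) (nat_lit 1) (nat_lit 317) (nat_lit 419) (nat_lit 404)) (XT.lf (nat_lit 1900) (nat_lit 920899156) (nat_lit 0) (nat_lit 5687724940) (nat_lit 1824) (nat_lit 920899156) (nat_lit 530) (nat_lit 1) (nat_lit 505) (nat_lit 1) (nat_lit 529) (nat_lit 1) (nat_lit 318) (nat_lit 419) (nat_lit 403))))) (XT.nd (nat_lit 234) (nat_lit 1748) (nat_lit 0) (XT.nd (nat_lit 78) (nat_lit 0) (nat_lit 76) (XT.lf (nat_lit 1900) (nat_lit 1413895662) (nat_lit 76) (nat_lit 3022657258) (nat_lit 0) (nat_lit 3022657258) (nat_lit 530) (nat_lit 1) (nat_lit 506) (nat_lit 1) (nat_lit 505) (nat_lit 1) (nat_lit 319) (nat_lit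 419) (nat_lit 402)) (XT.nd (nat_lit 78) (nat_lit 0) (nat_lit 0) (XT.lf (nat_lit 1900) (nat_lit 492509856) (nat_lit 0) (nat_lit 6405072480) (nat_lit 1824) (nat_lit 492509856) (nat_lit 531) (nat_lit 1) (nat_lit 506) (nat_lit 1) (nat_lit 530) (nat_lit 1) (nat_lit 320) (nat_lit 419) (nat_lit 401)) (XT.lf (nat_lit 1900) (nat_lit 522414459) (nat_lit 76) (nat_lit 3399544376) (nat_lit 0) (nat_lit 3399544376) (nat_lit 531) (nat_lit 1) (nat_lit 507) (nat_lit 1) (nat_lit 506) (nat_lit 1) (nat_lit 321) (nat_lit 419) (nat_lit 400)))) (XT.nd (nat_lit 156) (nat_lit 0) (nat_lit 0) (XT.nd (nat_lit 78) (nat_lit 1900) (nat_lit 0) (XT.lf (nat_lit 1900) (nat_lit 32710099) (nat_lit 0) (nat_lit 7188771078) (nat_lit 1824) (nat_lit 32710099) (nat_lit 532) (nat_lit 1) (nat_lit 507) (nat_lit 1) (nat_lit 531) (nat_lit 1) (nat_lit 322) (nat_lit 419) (nat_lit 399)) (XT.lf (nat_lit 1976) (nat_lit 3381473200) (nat_lit 0) (nat_lit 424269615) (nat_lit 1900) (nat_lit 3381473200)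 (nat_lit 508) (nat_lit 1) (nat_lit 482) (nat_lit 1) (nat_lit 507) (nat_lit 1) (nat_lit 323) (nat_lit 419) (nat_lit 398))) (XT.nd (nat_lit 78) (nat_lit 0) (nat_lit 76) (XT.lf (nat_lit 1976) (nat_lit 6214810321) (nat_lit 76) (nat_lit 453336114) (nat_lit 0) (nat_lit 453336114) (nat_lit 508) (nat_lit 1) (nat_lit 483) (nat_lit 1) (nat_lit 482) (nat_lit 1) (nat_lit 324) (nat_lit 419) (nat_lit 397)) (XT.lf (nat_lit 1976) (nat_lit 2818132162) (nat_lit 0) (nat_lit 1419966639) (nat_lit 1900) (nat_lit 2818132162) (nat_lit 509) (nat_lit 1) (nat_lit 483) (nat_lit 1) (nat_lit 508) (nat_lit 1) (nat_lit 325) (nat_lit 419) (nat_lit 396))))))))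
noncomputable def ec88 : XT := (XT.nd (nat_lit 1872) (nat_lit 9120) (nat_lit 0) (XT.nd (nat_lit 936) (nat_lit 4636) (nat_lit 0) (XT.nd (nat_lit 468) (nat_lit 3572) (nat_lit 0) (XT.nd (nat_lit 234) (nat_lit 912) (nat_lit 0) (XT.nd (nat_lit 78) (nat_lit 1064) (nat_lit 0) (XT.lf (nat_lit 1976) (nat_lit 5059720481) (nat_lit 76) (nat_lit 966177582) (nat_lit 0) (nat_lit 966177582) (nat_lit 509) (nat_lit 1) (nat_lit 484) (nat_lit 1) (nat_lit 483) (nat_lit 1) (nat_lit 326) (nat_lit 419) (nat_lit 395)) (XT.nd (nat_lit 78) (nat_lit 1140) (nat_lit 0) (XT.lf (nat_lit 76) (nat_lit 2230486668) (nat_lit 0) (nat_lit 2467547917) (nat_lit 1900) (nat_lit 2230486668) (nat_lit 485) (nat_lit 1) (nat_lit 484) (nat_lit 1) (nat_lit 509) (nat_lit 1) (nat_lit 327) (nat_lit 419) (nat_lit 394)) (XT.lf (nat_lit 1216) (nat_lit 3857732464) (nat_lit 0) (nat_lit 1504081125) (nat_lit 1140) (nat_lit 1504081125) (nat_lit 485) (nat_lit 1) (nat_lit 469) (nat_lit 1) (nat_lit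 484) (nat_lit 1) (nat_lit 328) (nat_lit 419) (nat_lit 393)))) (XT.nd (nat_lit 78) (nat_lit 912) (nat_lit 0) (XT.lf (nat_lit 76) (nat_lit 1620385973) (nat_lit 0) (nat_lit 3563223262) (nat_lit 1216) (nat_lit 1620385973) (nat_lit 470) (nat_lit 1) (nat_lit 469) (nat_lit 1) (nat_lit 485) (nat_lit 1) (nat_lit 329) (nat_lit 419) (nat_lit 392)) (XT.nd (nat_lit 78) (nat_lit 0) (nat_lit 0) (XT.lf (nat_lit 988) (nat_lit 2612466437) (nat_lit 0) (nat_lit 2065191665) (nat_lit 912) (nat_lit 2065191665) (nat_lit 470) (nat_lit 1) (nat_lit 457) (nat_lit 1) (nat_lit 469) (nat_lit 1) (nat_lit 330) (nat_lit 419) (nat_lit 391)) (XT.lf (nat_lit 76) (nat_lit 989589770) (nat_lit 0) (nat_lit 4703384477) (nat_lit 988) (nat_lit 989589770) (nat_lit 458) (nat_lit 1) (nat_lit 457) (nat_lit 1) (nat_lit 470) (nat_lit 1) (nat_lit 331) (nat_lit 419) (nat_lit 390))))) (XT.nd (nat_lit 234) (nat_lit 1824) (nat_lit 0) (XT.nd (nat_lit 78) (nat_lit 836) (nat_lit 0) (XT.lf (nat_lit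 988) (nat_lit 1327366714) (nat_lit 0) (nat_lit 2647743447) (nat_lit 912) (nat_lit 2647743447) (nat_lit 458) (nat_lit 1) (nat_lit 445) (nat_lit 1) (nat_lit 457) (nat_lit 1) (nat_lit 332) (nat_lit 419) (nat_lit 389)) (XT.nd (nat_lit 78) (nat_lit 836) (nat_lit 0) (XT.lf (nat_lit 76) (nat_lit 339772012) (nat_lit 0) (nat_lit 5884597606) (nat_lit 988) (nat_lit 339772012) (nat_lit 446) (nat_lit 1) (nat_lit 445) (nat_lit 1) (nat_lit 458) (nat_lit 1) (nat_lit 333) (nat_lit 419) (nat_lit 388)) (XT.lf (nat_lit 912) (nat_lit 5709282) (nat_lit 0) (nat_lit 3250056239) (nat_lit 836) (nat_lit 3250056239) (nat_lit 446) (nat_lit 1) (nat_lit 434) (nat_lit 1) (nat_lit 445) (nat_lit 1) (nat_lit 334) (nat_lit 419) (nat_lit 387)))) (XT.nd (nat_lit 78) (nat_lit 836) (nat_lit 0) (XT.lf (nat_lit 988) (nat_lit 5797832073) (nat_lit 0) (nat_lit 325320968) (nat_lit 912) (nat_lit 325320968) (nat_lit 434) (nat_lit 1) (nat_lit 421) (nat_lit 1) (nat_lit 433) (nat_lit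 1) (nat_lit 335) (nat_lit 419) (nat_lit 386)) (XT.nd (nat_lit 78) (nat_lit 836) (nat_lit 0) (XT.lf (nat_lit 76) (nat_lit 2529901823) (nat_lit 0) (nat_lit 1331693485) (nat_lit 988) (nat_lit 2529901823) (nat_lit 422) (nat_lit 1) (nat_lit 421) (nat_lit 1) (nat_lit 434) (nat_lit 1) (nat_lit 336) (nat_lit 419) (nat_lit 385)) (XT.lf (nat_lit 912) (nat_lit 4327485222) (nat_lit 0) (nat_lit 1003990218) (nat_lit 836) (nat_lit 1003990218) (nat_lit 422) (nat_lit 1) (nat_lit 410) (nat_lit 1) (nat_lit 421) (nat_lit 1) (nat_lit 337) (nat_lit 419) (nat_lit 384)))))) (XT.nd (nat_lit 468) (nat_lit 2204) (nat_lit 0) (XT.nd (nat_lit 234) (nat_lit 1596) (nat_lit 0) (XT.nd (nat_lit 78) (nat_lit 836) (nat_lit 0) (XT.lf (nat_lit 76) (nat_lit 1790433570) (nat_lit 0) (nat_lit 2699103763) (nat_lit 912) (nat_lit 1790433570) (nat_lit 411) (nat_lit 1) (nat_lit 410) (nat_lit 1) (nat_lit 422) (nat_lit 1) (nat_lit 338) (nat_lit 419) (nat_lit 383)) (XT.nd (nat_lit 78)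 (nat_lit 0) (nat_lit 0) (XT.lf (nat_lit 912) (nat_lit 2831131368) (nat_lit 0) (nat_lit 1697042366) (nat_lit 836) (nat_lit 1697042366) (nat_lit 411) (nat_lit 1) (nat_lit 399) (nat_lit 1) (nat_lit 410) (nat_lit 1) (nat_lit 339) (nat_lit 419) (nat_lit 382)) (XT.lf (nat_lit 76) (nat_lit 1038673541) (nat_lit 0) (nat_lit 4093820207) (nat_lit 912) (nat_lit 1038673541) (nat_lit 400) (nat_lit 1) (nat_lit 399) (nat_lit 1) (nat_lit 411) (nat_lit 1) (nat_lit 340) (nat_lit 419) (nat_lit 381)))) (XT.nd (nat_lit 78) (nat_lit 836) (nat_lit 0) (XT.lf (nat_lit 836) (nat_lit 1311409853) (nat_lit 0) (nat_lit 2403120153) (nat_lit 760) (nat_lit 2403120153) (nat_lit 400) (nat_lit 1) (nat_lit 389) (nat_lit 1) (nat_lit 399) (nat_lit 1) (nat_lit 341) (nat_lit 419) (nat_lit 380)) (XT.nd (nat_lit 78) (nat_lit 836) (nat_lit 0) (XT.lf (nat_lit 76) (nat_lit 275903084) (nat_lit 0) (nat_lit 5513205928) (nat_lit 836) (nat_lit 275903084) (nat_lit 390) (nat_lit 1) (nat_lit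 389) (nat_lit 1) (nat_lit 400) (nat_lit 1) (nat_lit 342) (nat_lit 419) (nat_lit 379)) (XT.lf (nat_lit 76) (nat_lit 2893248219) (nat_lit 0) (nat_lit 226168755) (nat_lit 836) (nat_lit 2893248219) (nat_lit 379) (nat_lit 1) (nat_lit 378) (nat_lit 1) (nat_lit 389) (nat_lit 1) (nat_lit 343) (nat_lit 419) (nat_lit 378))))) (XT.nd (nat_lit 234) (nat_lit 684) (nat_lit 0) (XT.nd (nat_lit 78) (nat_lit 760) (nat_lit 0) (XT.lf (nat_lit 836) (nat_lit 4974385632) (nat_lit 0) (nat_lit 493394462) (nat_lit 760) (nat_lit 493394462) (nat_lit 379) (nat_lit 1) (nat_lit 368) (nat_lit 1) (nat_lit 378) (nat_lit 1) (nat_lit 344) (nat_lit 419) (nat_lit 377)) (XT.nd (nat_lit 78) (nat_lit 760) (nat_lit 0) (XT.lf (nat_lit 76) (nat_lit 2072627807) (nat_lit 0) (nat_lit 1764791983) (nat_lit 836) (nat_lit 2072627807) (nat_lit 369) (nat_lit 1) (nat_lit 368) (nat_lit 1) (nat_lit 379) (nat_lit 1) (nat_lit 345) (nat_lit 419) (nat_lit 376)) (XT.lf (nat_lit 836) (nat_lit 3320772577)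 (nat_lit 0) (nat_lit 1269461448) (nat_lit 760) (nat_lit 1269461448) (nat_lit 369) (nat_lit 1) (nat_lit 358) (nat_lit 1) (nat_lit 368) (nat_lit 1) (nat_lit 346) (nat_lit 419) (nat_lit 375)))) (XT.nd (nat_lit 78) (nat_lit 684) (nat_lit 0) (XT.lf (nat_lit 76) (nat_lit 1245232000) (nat_lit 0) (nat_lit 3319435432) (nat_lit 836) (nat_lit 1245232000) (nat_lit 359) (nat_lit 1) (nat_lit 358) (nat_lit 1) (nat_lit 369) (nat_lit 1) (nat_lit 347) (nat_lit 419) (nat_lit 374)) (XT.nd (nat_lit 78) (nat_lit 0) (nat_lit 0) (XT.lf (nat_lit 760) (nat_lit 1654597594) (nat_lit 0) (nat_lit 2053026993) (nat_lit 684) (nat_lit 2053026993) (nat_lit 359) (nat_lit 1) (nat_lit 349) (nat_lit 1) (nat_lit 358) (nat_lit 1) (nat_lit 348) (nat_lit 419) (nat_lit 373)) (XT.lf (nat_lit 76) (nat_lit 412081562) (nat_lit 0) (nat_lit 4887991393) (nat_lit 760) (nat_lit 412081562) (nat_lit 350) (nat_lit 1) (nat_lit 349) (nat_lit 1) (nat_lit 359) (nat_lit 1) (nat_lit 349) (nat_lit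 419) (nat_lit 372))))))) (XT.nd (nat_lit 936) (nat_lit 4484) (nat_lit 0) (XT.nd (nat_lit 468) (nat_lit 1900) (nat_lit 0) (XT.nd (nat_lit 234) (nat_lit 1292) (nat_lit 0) (XT.nd (nat_lit 78) (nat_lit 684) (nat_lit 0) (XT.lf (nat_lit 76) (nat_lit 2821059628) (nat_lit 0) (nat_lit 21855701) (nat_lit 760) (nat_lit 2821059628) (nat_lit 340) (nat_lit 1) (nat_lit 339) (nat_lit 1) (nat_lit 349) (nat_lit 1) (nat_lit 350) (nat_lit 419) (nat_lit 371)) (XT.nd (nat_lit 78) (nat_lit 0) (nat_lit 0) (XT.lf (nat_lit 760) (nat_lit 4770415643) (nat_lit 0) (nat_lit 423055541) (nat_lit 684) (nat_lit 423055541) (nat_lit 340) (nat_lit 1) (nat_lit 330) (nat_lit 1) (nat_lit 339) (nat_lit 1) (nat_lit 351) (nat_lit 419) (nat_lit 370)) (XT.lf (nat_lit 76) (nat_lit 1942106050) (nat_lit 0) (nat_lit 1685177297) (nat_lit 760) (nat_lit 1942106050) (nat_lit 331) (nat_lit 1) (nat_lit 330) (nat_lit 1) (nat_lit 340) (nat_lit 1) (nat_lit 352) (nat_lit 419) (nat_lit 369))))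 (XT.nd (nat_lit 78) (nat_lit 608) (nat_lit 0) (XT.lf (nat_lit 760) (nat_lit 3004298407) (nat_lit 0) (nat_lit 1259330269) (nat_lit 684) (nat_lit 1259330269) (nat_lit 331) (nat_lit 1) (nat_lit 321) (nat_lit 1) (nat_lit 330) (nat_lit 1) (nat_lit 353) (nat_lit 419) (nat_lit 368)) (XT.nd (nat_lit 78) (nat_lit 608) (nat_lit 0) (XT.lf (nat_lit 76) (nat_lit 1060870953) (nat_lit 0) (nat_lit 3355306870) (nat_lit 760) (nat_lit 1060870953) (nat_lit 322) (nat_lit 1) (nat_lit 321) (nat_lit 1) (nat_lit 331) (nat_lit 1) (nat_lit 354) (nat_lit 419) (nat_lit 367)) (XT.lf (nat_lit 684) (nat_lit 1234416047) (nat_lit 0) (nat_lit 2098594964) (nat_lit 608) (nat_lit 2098594964) (nat_lit 322) (nat_lit 1) (nat_lit 313) (nat_lit 1) (nat_lit 321) (nat_lit 1) (nat_lit 355) (nat_lit 419) (nat_lit 366))))) (XT.nd (nat_lit 234) (nat_lit 608) (nat_lit 0) (XT.nd (nat_lit 78) (nat_lit 1292) (nat_lit 0) (XT.lf (nat_lit 76) (nat_lit 178156897) (nat_lit 0) (nat_lit 5030580122)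 (nat_lit 684) (nat_lit 178156897) (nat_lit 314) (nat_lit 1) (nat_lit 313) (nat_lit 1) (nat_lit 322) (nat_lit 1) (nat_lit 356) (nat_lit 419) (nat_lit 365)) (XT.nd (nat_lit 78) (nat_lit 608) (nat_lit 0) (XT.lf (nat_lit 76) (nat_lit 2405862357) (nat_lit 0) (nat_lit 530615093) (nat_lit 684) (nat_lit 2405862357) (nat_lit 305) (nat_lit 1) (nat_lit 304) (nat_lit 1) (nat_lit 313) (nat_lit 1) (nat_lit 357) (nat_lit 419) (nat_lit 364)) (XT.lf (nat_lit 684) (nat_lit 3897222379) (nat_lit 0) (nat_lit 700638726) (nat_lit 608) (nat_lit 700638726) (nat_lit 305) (nat_lit 1) (nat_lit 296) (nat_lit 1) (nat_lit 304) (nat_lit 1) (nat_lit 358) (nat_lit 419) (nat_lit 363)))) (XT.nd (nat_lit 78) (nat_lit 608) (nat_lit 0) (XT.lf (nat_lit 76) (nat_lit 1487421021) (nat_lit 0) (nat_lit 2280171355) (nat_lit 684) (nat_lit 1487421021) (nat_lit 297) (nat_lit 1) (nat_lit 296) (nat_lit 1) (nat_lit 305) (nat_lit 1) (nat_lit 359) (nat_lit 419) (nat_lit 362)) (XT.nd (nat_lit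 78) (nat_lit 0) (nat_lit 0) (XT.lf (nat_lit 684) (nat_lit 2055546467) (nat_lit 0) (nat_lit 1578269515) (nat_lit 608) (nat_lit 1578269515) (nat_lit 297) (nat_lit 1) (nat_lit 288) (nat_lit 1) (nat_lit 296) (nat_lit 1) (nat_lit 360) (nat_lit 419) (nat_lit 361)) (XT.lf (nat_lit 76) (nat_lit 570331702) (nat_lit 0) (nat_lit 4029068998) (nat_lit 684) (nat_lit 570331702) (nat_lit 289) (nat_lit 1) (nat_lit 288) (nat_lit 1) (nat_lit 297) (nat_lit 1) (nat_lit 361) (nat_lit 419) (nat_lit 360)))))) (XT.nd (nat_lit 468) (nat_lit 2204) (nat_lit 0) (XT.nd (nat_lit 234) (nat_lit 1064) (nat_lit 0) (XT.nd (nat_lit 78) (nat_lit 684) (nat_lit 0) (XT.lf (nat_lit 608) (nat_lit 217212194) (nat_lit 0) (nat_lit 2455238910) (nat_lit 532) (nat_lit 2455238910) (nat_lit 289) (nat_lit 1) (nat_lit 281) (nat_lit 1) (nat_lit 288) (nat_lit 1) (nat_lit 362) (nat_lit 419) (nat_lit 359)) (XT.nd (nat_lit 78) (nat_lit 0) (nat_lit 0) (XT.lf (nat_lit 684) (nat_lit 4401230123)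 (nat_lit 0) (nat_lit 342516986) (nat_lit 608) (nat_lit 342516986) (nat_lit 281) (nat_lit 1) (nat_lit 272) (nat_lit 1) (nat_lit 280) (nat_lit 1) (nat_lit 363) (nat_lit 419) (nat_lit 358)) (XT.lf (nat_lit 76) (nat_lit 1724839728) (nat_lit 0) (nat_lit 1595371825) (nat_lit 684) (nat_lit 1724839728) (nat_lit 273) (nat_lit 1) (nat_lit 272) (nat_lit 1) (nat_lit 281) (nat_lit 1) (nat_lit 364) (nat_lit 419) (nat_lit 357)))) (XT.nd (nat_lit 78) (nat_lit 532) (nat_lit 0) (XT.lf (nat_lit 608) (nat_lit 2506290778) (nat_lit 0) (nat_lit 1249074991) (nat_lit 532) (nat_lit 1249074991) (nat_lit 273) (nat_lit 1) (nat_lit 265) (nat_lit 1) (nat_lit 272) (nat_lit 1) (nat_lit 365) (nat_lit 419) (nat_lit 356)) (XT.nd (nat_lit 78) (nat_lit 532) (nat_lit 0) (XT.lf (nat_lit 76) (nat_lit 782400983) (nat_lit 0) (nat_lit 3399499108) (nat_lit 608) (nat_lit 782400983) (nat_lit 266) (nat_lit 1) (nat_lit 265) (nat_lit 1) (nat_lit 273) (nat_lit 1) (nat_lit 366) (nat_lit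 419) (nat_lit 355)) (XT.lf (nat_lit 608) (nat_lit 619408592) (nat_lit 0) (nat_lit 2152550658) (nat_lit 532) (nat_lit 2152550658) (nat_lit 266) (nat_lit 1) (nat_lit 258) (nat_lit 1) (nat_lit 265) (nat_lit 1) (nat_lit 367) (nat_lit 419) (nat_lit 354))))) (XT.nd (nat_lit 234) (nat_lit 1064) (nat_lit 0) (XT.nd (nat_lit 78) (nat_lit 532) (nat_lit 0) (XT.lf (nat_lit 608) (nat_lit 4575837317) (nat_lit 0) (nat_lit 154750015) (nat_lit 532) (nat_lit 154750015) (nat_lit 258) (nat_lit 1) (nat_lit 250) (nat_lit 1) (nat_lit 257) (nat_lit 1) (nat_lit 368) (nat_lit 419) (nat_lit 353)) (XT.nd (nat_lit 78) (nat_lit 532) (nat_lit 0) (XT.lf (nat_lit 76) (nat_lit 1802160035) (nat_lit 0) (nat_lit 1241939761) (nat_lit 608) (nat_lit 1802160035) (nat_lit 251) (nat_lit 1) (nat_lit 250) (nat_lit 1) (nat_lit 258) (nat_lit 1) (nat_lit 369) (nat_lit 419) (nat_lit 352)) (XT.lf (nat_lit 608) (nat_lit 2643681526) (nat_lit 0) (nat_lit 1082053404) (nat_lit 532) (nat_lit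 1082053404) (nat_lit 251) (nat_lit 1) (nat_lit 243) (nat_lit 1) (nat_lit 250) (nat_lit 1) (nat_lit 370) (nat_lit 419) (nat_lit 351)))) (XT.nd (nat_lit 78) (nat_lit 1064) (nat_lit 0) (XT.lf (nat_lit 76) (nat_lit 842185603) (nat_lit 0) (nat_lit 3085356683) (nat_lit 608) (nat_lit 842185603) (nat_lit 244) (nat_lit 1) (nat_lit 243) (nat_lit 1) (nat_lit 251) (nat_lit 1) (nat_lit 371) (nat_lit 419) (nat_lit 350)) (XT.nd (nat_lit 78) (nat_lit 608) (nat_lit 0) (XT.lf (nat_lit 532) (nat_lit 723572493) (nat_lit 0) (nat_lit 2004221612) (nat_lit 456) (nat_lit 2004221612) (nat_lit 244) (nat_lit 1) (nat_lit 237) (nat_lit 1) (nat_lit 243) (nat_lit 1) (nat_lit 372) (nat_lit 419) (nat_lit 349)) (XT.lf (nat_lit 608) (nat_lit 4473180273) (nat_lit 0) (nat_lit 110855308) (nat_lit 532) (nat_lit 110855308) (nat_lit 237) (nat_lit 1) (nat_lit 229) (nat_lit 1) (nat_lit 236) (nat_lit 1) (nat_lit 373) (nat_lit 419) (nat_lit 348))))))))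
noncomputable def ec89 : XT := (XT.nd (nat_lit 1872) (nat_lit 4028) (nat_lit 0) (XT.nd (nat_lit 936) (nat_lit 2736) (nat_lit 0) (XT.nd (nat_lit 468) (nat_lit 1748) (nat_lit 0) (XT.nd (nat_lit 234) (nat_lit 988) (nat_lit 0) (XT.nd (nat_lit 78) (nat_lit 456) (nat_lit 0) (XT.lf (nat_lit 76) (nat_lit 1744811558) (nat_lit 0) (nat_lit 1168197908) (nat_lit 608) (nat_lit 1744811558) (nat_lit 230) (nat_lit 1) (nat_lit 229) (nat_lit 1) (nat_lit 237) (nat_lit 1) (nat_lit 374) (nat_lit 419) (nat_lit 347)) (XT.nd (nat_lit 78) (nat_lit 0) (nat_lit 0) (XT.lf (nat_lit 532) (nat_lit 2517665881) (nat_lit 0) (nat_lit 1051830721) (nat_lit 456) (nat_lit 1051830721) (nat_lit 230) (nat_lit 1) (nat_lit 223) (nat_lit 1) (nat_lit 229) (nat_lit 1) (nat_lit 375) (nat_lit 419) (nat_lit 346)) (XT.lf (nat_lit 76) (nat_lit 774046674) (nat_lit 0) (nat_lit 3037128911) (nat_lit 532) (nat_lit 774046674) (nat_lit 224) (nat_lit 1) (nat_lit 223) (nat_lit 1) (nat_lit 230) (nat_lit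 1) (nat_lit 376) (nat_lit 419) (nat_lit 345)))) (XT.nd (nat_lit 78) (nat_lit 532) (nat_lit 0) (XT.lf (nat_lit 532) (nat_lit 577550929) (nat_lit 0) (nat_lit 1985941210) (nat_lit 456) (nat_lit 1985941210) (nat_lit 224) (nat_lit 1) (nat_lit 217) (nat_lit 1) (nat_lit 223) (nat_lit 1) (nat_lit 377) (nat_lit 419) (nat_lit 344)) (XT.nd (nat_lit 78) (nat_lit 0) (nat_lit 0) (XT.lf (nat_lit 532) (nat_lit 4138872092) (nat_lit 0) (nat_lit 187650326) (nat_lit 456) (nat_lit 187650326) (nat_lit 217) (nat_lit 1) (nat_lit 210) (nat_lit 1) (nat_lit 216) (nat_lit 1) (nat_lit 378) (nat_lit 419) (nat_lit 343)) (XT.lf (nat_lit 76) (nat_lit 1575038770) (nat_lit 0) (nat_lit 1328915010) (nat_lit 532) (nat_lit 1575038770) (nat_lit 211) (nat_lit 1) (nat_lit 210) (nat_lit 1) (nat_lit 217) (nat_lit 1) (nat_lit 379) (nat_lit 419) (nat_lit 342))))) (XT.nd (nat_lit 234) (nat_lit 912) (nat_lit 0) (XT.nd (nat_lit 78) (nat_lit 380) (nat_lit 0) (XT.lf (nat_lit 532) (nat_lit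 2171928254) (nat_lit 0) (nat_lit 1136201240) (nat_lit 456) (nat_lit 1136201240) (nat_lit 211) (nat_lit 1) (nat_lit 204) (nat_lit 1) (nat_lit 210) (nat_lit 1) (nat_lit 380) (nat_lit 419) (nat_lit 341)) (XT.nd (nat_lit 78) (nat_lit 380) (nat_lit 0) (XT.lf (nat_lit 76) (nat_lit 599287367) (nat_lit 0) (nat_lit 3211491797) (nat_lit 532) (nat_lit 599287367) (nat_lit 205) (nat_lit 1) (nat_lit 204) (nat_lit 1) (nat_lit 211) (nat_lit 1) (nat_lit 381) (nat_lit 419) (nat_lit 340)) (XT.lf (nat_lit 456) (nat_lit 223178344) (nat_lit 0) (nat_lit 2076440776) (nat_lit 380) (nat_lit 2076440776) (nat_lit 205) (nat_lit 1) (nat_lit 199) (nat_lit 1) (nat_lit 204) (nat_lit 1) (nat_lit 382) (nat_lit 419) (nat_lit 339)))) (XT.nd (nat_lit 78) (nat_lit 380) (nat_lit 0) (XT.lf (nat_lit 532) (nat_lit 3612761738) (nat_lit 0) (nat_lit 364868963) (nat_lit 456) (nat_lit 364868963) (nat_lit 199) (nat_lit 1) (nat_lit 192) (nat_lit 1) (nat_lit 198) (nat_lit 1) (nat_lit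 383) (nat_lit 419) (nat_lit 338)) (XT.nd (nat_lit 78) (nat_lit 380) (nat_lit 0) (XT.lf (nat_lit 76) (nat_lit 1312271778) (nat_lit 0) (nat_lit 1684556381) (nat_lit 532) (nat_lit 1312271778) (nat_lit 193) (nat_lit 1) (nat_lit 192) (nat_lit 1) (nat_lit 199) (nat_lit 1) (nat_lit 384) (nat_lit 419) (nat_lit 337)) (XT.lf (nat_lit 456) (nat_lit 1644619592) (nat_lit 0) (nat_lit 1315759103) (nat_lit 380) (nat_lit 1315759103) (nat_lit 193) (nat_lit 1) (nat_lit 187) (nat_lit 1) (nat_lit 192) (nat_lit 1) (nat_lit 385) (nat_lit 419) (nat_lit 336)))))) (XT.nd (nat_lit 468) (nat_lit 1520) (nat_lit 0) (XT.nd (nat_lit 234) (nat_lit 380) (nat_lit 0) (XT.nd (nat_lit 78) (nat_lit 836) (nat_lit 0) (XT.lf (nat_lit 76) (nat_lit 336509152) (nat_lit 0) (nat_lit 3570590113) (nat_lit 456) (nat_lit 336509152) (nat_lit 188) (nat_lit 1) (nat_lit 187) (nat_lit 1) (nat_lit 193) (nat_lit 1) (nat_lit 386) (nat_lit 419) (nat_lit 335)) (XT.nd (nat_lit 78) (nat_lit 380)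 (nat_lit 0) (XT.lf (nat_lit 76) (nat_lit 1956084205) (nat_lit 0) (nat_lit 299048505) (nat_lit 456) (nat_lit 1956084205) (nat_lit 182) (nat_lit 1) (nat_lit 181) (nat_lit 1) (nat_lit 187) (nat_lit 1) (nat_lit 387) (nat_lit 419) (nat_lit 334)) (XT.lf (nat_lit 456) (nat_lit 2929606935) (nat_lit 0) (nat_lit 624821548) (nat_lit 380) (nat_lit 624821548) (nat_lit 182) (nat_lit 1) (nat_lit 176) (nat_lit 1) (nat_lit 181) (nat_lit 1) (nat_lit 388) (nat_lit 419) (nat_lit 333)))) (XT.nd (nat_lit 78) (nat_lit 380) (nat_lit 0) (XT.lf (nat_lit 76) (nat_lit 973455000) (nat_lit 0) (nat_lit 2200619528) (nat_lit 456) (nat_lit 973455000) (nat_lit 177) (nat_lit 1) (nat_lit 176) (nat_lit 1) (nat_lit 182) (nat_lit 1) (nat_lit 389) (nat_lit 419) (nat_lit 332)) (XT.nd (nat_lit 78) (nat_lit 0) (nat_lit 0) (XT.lf (nat_lit 456) (nat_lit 969003872) (nat_lit 0) (nat_lit 1573571623) (nat_lit 380) (nat_lit 1573571623) (nat_lit 177) (nat_lit 1) (nat_lit 171) (nat_lit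 1) (nat_lit 176) (nat_lit 1) (nat_lit 390) (nat_lit 419) (nat_lit 331)) (XT.lf (nat_lit 76) (nat_lit 1927564) (nat_lit 0) (nat_lit 4081399092) (nat_lit 456) (nat_lit 1927564) (nat_lit 172) (nat_lit 1) (nat_lit 171) (nat_lit 1) (nat_lit 177) (nat_lit 1) (nat_lit 391) (nat_lit 419) (nat_lit 330))))) (XT.nd (nat_lit 234) (nat_lit 760) (nat_lit 0) (XT.nd (nat_lit 78) (nat_lit 380) (nat_lit 0) (XT.lf (nat_lit 76) (nat_lit 1548902889) (nat_lit 0) (nat_lit 956508936) (nat_lit 380) (nat_lit 1548902889) (nat_lit 167) (nat_lit 1) (nat_lit 166) (nat_lit 1) (nat_lit 171) (nat_lit 1) (nat_lit 392) (nat_lit 419) (nat_lit 329)) (XT.nd (nat_lit 78) (nat_lit 0) (nat_lit 0) (XT.lf (nat_lit 456) (nat_lit 2119670589) (nat_lit 0) (nat_lit 952093451) (nat_lit 380) (nat_lit 952093451) (nat_lit 167) (nat_lit 1) (nat_lit 161) (nat_lit 1) (nat_lit 166) (nat_lit 1) (nat_lit 393) (nat_lit 419) (nat_lit 328)) (XT.lf (nat_lit 76) (nat_lit 573338483) (nat_lit 0) (nat_lit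 2847045255) (nat_lit 456) (nat_lit 573338483) (nat_lit 162) (nat_lit 1) (nat_lit 161) (nat_lit 1) (nat_lit 167) (nat_lit 1) (nat_lit 394) (nat_lit 419) (nat_lit 327)))) (XT.nd (nat_lit 78) (nat_lit 456) (nat_lit 0) (XT.lf (nat_lit 380) (nat_lit 174031091) (nat_lit 0) (nat_lit 1894889742) (nat_lit 304) (nat_lit 1894889742) (nat_lit 162) (nat_lit 1) (nat_lit 157) (nat_lit 1) (nat_lit 161) (nat_lit 1) (nat_lit 395) (nat_lit 419) (nat_lit 326)) (XT.nd (nat_lit 78) (nat_lit 0) (nat_lit 0) (XT.lf (nat_lit 456) (nat_lit 3158699737) (nat_lit 0) (nat_lit 387779832) (nat_lit 380) (nat_lit 387779832) (nat_lit 157) (nat_lit 1) (nat_lit 151) (nat_lit 1) (nat_lit 156) (nat_lit 1) (nat_lit 396) (nat_lit 419) (nat_lit 325)) (XT.lf (nat_lit 76) (nat_lit 1090026833) (nat_lit 0) (nat_lit 1724801671) (nat_lit 456) (nat_lit 1090026833) (nat_lit 152) (nat_lit 1) (nat_lit 151) (nat_lit 1) (nat_lit 157) (nat_lit 1) (nat_lit 397) (nat_lit 419) (nat_lit 324)))))))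 (XT.nd (nat_lit 936) (nat_lit 1444) (nat_lit 0) (XT.nd (nat_lit 468) (nat_lit 1292) (nat_lit 0) (XT.nd (nat_lit 234) (nat_lit 608) (nat_lit 0) (XT.nd (nat_lit 78) (nat_lit 380) (nat_lit 0) (XT.lf (nat_lit 380) (nat_lit 1209249356) (nat_lit 0) (nat_lit 1333277986) (nat_lit 304) (nat_lit 1333277986) (nat_lit 152) (nat_lit 1) (nat_lit 147) (nat_lit 1) (nat_lit 151) (nat_lit 1) (nat_lit 398) (nat_lit 419) (nat_lit 323)) (XT.nd (nat_lit 78) (nat_lit 380) (nat_lit 0) (XT.lf (nat_lit 76) (nat_lit 124736074) (nat_lit 0) (nat_lit 3597695752) (nat_lit 380) (nat_lit 124736074) (nat_lit 148) (nat_lit 1) (nat_lit 147) (nat_lit 1) (nat_lit 152) (nat_lit 1) (nat_lit 399) (nat_lit 419) (nat_lit 322)) (XT.lf (nat_lit 76) (nat_lit 1556379733) (nat_lit 0) (nat_lit 705775561) (nat_lit 380) (nat_lit 1556379733) (nat_lit 143) (nat_lit 1) (nat_lit 142) (nat_lit 1) (nat_lit 147) (nat_lit 1) (nat_lit 400) (nat_lit 419) (nat_lit 321)))) (XT.nd (nat_lit 78) (nat_lit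 304) (nat_lit 0) (XT.lf (nat_lit 380) (nat_lit 2145072749) (nat_lit 0) (nat_lit 822618029) (nat_lit 304) (nat_lit 822618029) (nat_lit 143) (nat_lit 1) (nat_lit 138) (nat_lit 1) (nat_lit 142) (nat_lit 1) (nat_lit 401) (nat_lit 419) (nat_lit 320)) (XT.nd (nat_lit 78) (nat_lit 304) (nat_lit 0) (XT.lf (nat_lit 76) (nat_lit 591077250) (nat_lit 0) (nat_lit 2580202996) (nat_lit 380) (nat_lit 591077250) (nat_lit 139) (nat_lit 1) (nat_lit 138) (nat_lit 1) (nat_lit 143) (nat_lit 1) (nat_lit 402) (nat_lit 419) (nat_lit 319)) (XT.lf (nat_lit 380) (nat_lit 221141983) (nat_lit 0) (nat_lit 1756739712) (nat_lit 304) (nat_lit 1756739712) (nat_lit 139) (nat_lit 1) (nat_lit 134) (nat_lit 1) (nat_lit 138) (nat_lit 1) (nat_lit 403) (nat_lit 419) (nat_lit 318))))) (XT.nd (nat_lit 234) (nat_lit 608) (nat_lit 0) (XT.nd (nat_lit 78) (nat_lit 304) (nat_lit 0) (XT.lf (nat_lit 380) (nat_lit 2989473749) (nat_lit 0) (nat_lit 358869216) (nat_lit 304) (nat_lit 358869216)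 (nat_lit 134) (nat_lit 1) (nat_lit 129) (nat_lit 1) (nat_lit 133) (nat_lit 1) (nat_lit 404) (nat_lit 419) (nat_lit 317)) (XT.nd (nat_lit 78) (nat_lit 304) (nat_lit 0) (XT.lf (nat_lit 76) (nat_lit 1012574209) (nat_lit 0) (nat_lit 1654775629) (nat_lit 380) (nat_lit 1012574209) (nat_lit 130) (nat_lit 1) (nat_lit 129) (nat_lit 1) (nat_lit 134) (nat_lit 1) (nat_lit 405) (nat_lit 419) (nat_lit 316)) (XT.lf (nat_lit 380) (nat_lit 1068844744) (nat_lit 0) (nat_lit 1292056382) (nat_lit 304) (nat_lit 1292056382) (nat_lit 130) (nat_lit 1) (nat_lit 125) (nat_lit 1) (nat_lit 129) (nat_lit 1) (nat_lit 406) (nat_lit 419) (nat_lit 315)))) (XT.nd (nat_lit 78) (nat_lit 608) (nat_lit 0) (XT.lf (nat_lit 76) (nat_lit 62106841) (nat_lit 0) (nat_lit 3502167251) (nat_lit 380) (nat_lit 62106841) (nat_lit 126) (nat_lit 1) (nat_lit 125) (nat_lit 1) (nat_lit 130) (nat_lit 1) (nat_lit 407) (nat_lit 419) (nat_lit 314)) (XT.nd (nat_lit 78) (nat_lit 304) (nat_lit 0)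 (XT.lf (nat_lit 76) (nat_lit 1392824987) (nat_lit 0) (nat_lit 814116595) (nat_lit 304) (nat_lit 1392824987) (nat_lit 122) (nat_lit 1) (nat_lit 121) (nat_lit 1) (nat_lit 125) (nat_lit 1) (nat_lit 408) (nat_lit 419) (nat_lit 313)) (XT.lf (nat_lit 380) (nat_lit 1835039225) (nat_lit 0) (nat_lit 869249039) (nat_lit 304) (nat_lit 869249039) (nat_lit 122) (nat_lit 1) (nat_lit 117) (nat_lit 1) (nat_lit 121) (nat_lit 1) (nat_lit 409) (nat_lit 419) (nat_lit 312)))))) (XT.nd (nat_lit 468) (nat_lit 228) (nat_lit 0) (XT.nd (nat_lit 234) (nat_lit 608) (nat_lit 0) (XT.nd (nat_lit 78) (nat_lit 608) (nat_lit 0) (XT.lf (nat_lit 76) (nat_lit 445457662) (nat_lit 0) (nat_lit 2656668727) (nat_lit 380) (nat_lit 445457662) (nat_lit 118) (nat_lit 1) (nat_lit 117) (nat_lit 1) (nat_lit 122) (nat_lit 1) (nat_lit 410) (nat_lit 419) (nat_lit 311)) (XT.nd (nat_lit 78) (nat_lit 304) (nat_lit 0) (XT.lf (nat_lit 76) (nat_lit 1735150029) (nat_lit 0) (nat_lit 51490147)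 (nat_lit 304) (nat_lit 1735150029) (nat_lit 114) (nat_lit 1) (nat_lit 113) (nat_lit 1) (nat_lit 117) (nat_lit 1) (nat_lit 411) (nat_lit 419) (nat_lit 310)) (XT.lf (nat_lit 380) (nat_lit 2526265043) (nat_lit 0) (nat_lit 485001416) (nat_lit 304) (nat_lit 485001416) (nat_lit 114) (nat_lit 1) (nat_lit 109) (nat_lit 1) (nat_lit 113) (nat_lit 1) (nat_lit 412) (nat_lit 419) (nat_lit 309)))) (XT.nd (nat_lit 78) (nat_lit 608) (nat_lit 0) (XT.lf (nat_lit 76) (nat_lit 792005143) (nat_lit 0) (nat_lit 1886907654) (nat_lit 380) (nat_lit 792005143) (nat_lit 110) (nat_lit 1) (nat_lit 109) (nat_lit 1) (nat_lit 114) (nat_lit 1) (nat_lit 413) (nat_lit 419) (nat_lit 308)) (XT.nd (nat_lit 78) (nat_lit 380) (nat_lit 0) (XT.lf (nat_lit 304) (nat_lit 647817249) (nat_lit 0) (nat_lit 1399002203) (nat_lit 228) (nat_lit 1399002203) (nat_lit 110) (nat_lit 1) (nat_lit 106) (nat_lit 1) (nat_lit 109) (nat_lit 1) (nat_lit 414) (nat_lit 419) (nat_lit 307)) (XT.lf (nat_lit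 380) (nat_lit 3148557276) (nat_lit 0) (nat_lit 136252288) (nat_lit 304) (nat_lit 136252288) (nat_lit 106) (nat_lit 1) (nat_lit 101) (nat_lit 1) (nat_lit 105) (nat_lit 1) (nat_lit 415) (nat_lit 419) (nat_lit 306))))) (XT.nd (nat_lit 50544) (nat_lit 0) (nat_lit 30400) (XT.nd (nat_lit 78) (nat_lit 228) (nat_lit 0) (XT.lf (nat_lit 76) (nat_lit 1104701231) (nat_lit 0) (nat_lit 1186893754) (nat_lit 380) (nat_lit 1104701231) (nat_lit 102) (nat_lit 1) (nat_lit 101) (nat_lit 1) (nat_lit 106) (nat_lit 1) (nat_lit 416) (nat_lit 419) (nat_lit 305)) (XT.nd (nat_lit 78) (nat_lit 0) (nat_lit 0) (XT.lf (nat_lit 304) (nat_lit 1280853936) (nat_lit 0) (nat_lit 1045504567) (nat_lit 228) (nat_lit 1045504567) (nat_lit 102) (nat_lit 1) (nat_lit 98) (nat_lit 1) (nat_lit 101) (nat_lit 1) (nat_lit 417) (nat_lit 419) (nat_lit 304)) (XT.lf (nat_lit 76) (nat_lit 181014884) (nat_lit 0) (nat_lit 2985712915) (nat_lit 304) (nat_lit 181014884) (nat_lit 99) (nat_lit 1)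 (nat_lit 98) (nat_lit 1) (nat_lit 102) (nat_lit 1) (nat_lit 418) (nat_lit 419) (nat_lit 303)))) (XT.nd (nat_lit 156) (nat_lit 0) (nat_lit 76) (XT.nd (nat_lit 78) (nat_lit 0) (nat_lit 76) (XT.lf (nat_lit 1900) (nat_lit 5659481376) (nat_lit 76) (nat_lit 1520269877) (nat_lit 0) (nat_lit 1520269877) (nat_lit 523) (nat_lit 1) (nat_lit 499) (nat_lit 1) (nat_lit 498) (nat_lit 1) (nat_lit 303) (nat_lit 420) (nat_lit 417)) (XT.lf (nat_lit 1900) (nat_lit 2750400704) (nat_lit 0) (nat_lit 3114402496) (nat_lit 1824) (nat_lit 2750400704) (nat_lit 524) (nat_lit 1) (nat_lit 499) (nat_lit 1) (nat_lit 523) (nat_lit 1) (nat_lit 304) (nat_lit 420) (nat_lit 416))) (XT.nd (nat_lit 78) (nat_lit 0) (nat_lit 76) (XT.lf (nat_lit 1900) (nat_lit 5324743322) (nat_lit 76) (nat_lit 1603452341) (nat_lit 0) (nat_lit 1603452341) (nat_lit 524) (nat_lit 1) (nat_lit 500) (nat_lit 1) (nat_lit 499) (nat_lit 1) (nat_lit 305) (nat_lit 420) (nat_lit 415)) (XT.lf (nat_lit 1900)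 (nat_lit 2558437077) (nat_lit 0) (nat_lit 3332164866) (nat_lit 1824) (nat_lit 2558437077) (nat_lit 525) (nat_lit 1) (nat_lit 500) (nat_lit 1) (nat_lit 524) (nat_lit 1) (nat_lit 306) (nat_lit 420) (nat_lit 414))))))))
noncomputable def ec90 : XT := (XT.nd (nat_lit 1872) (nat_lit 10032) (nat_lit 0) (XT.nd (nat_lit 936) (nat_lit 4180) (nat_lit 0) (XT.nd (nat_lit 468) (nat_lit 0) (nat_lit 228) (XT.nd (nat_lit 234) (nat_lit 0) (nat_lit 152) (XT.nd (nat_lit 78) (nat_lit 0) (nat_lit 76) (XT.lf (nat_lit 1900) (nat_lit 4891158716) (nat_lit 76) (nat_lit 1738230630) (nat_lit 0) (nat_lit 1738230630) (nat_lit 525) (nat_lit 1) (nat_lit 501) (nat_lit 1) (nat_lit 500) (nat_lit 1) (nat_lit 307) (nat_lit 420) (nat_lit 413)) (XT.nd (nat_lit 78) (nat_lit 0) (nat_lit 0) (XT.lf (nat_lit 1900) (nat_lit 2318738645) (nat_lit 0) (nat_lit 3649684959) (nat_lit 1824) (nat_lit 2318738645) (nat_lit 526) (nat_lit 1) (nat_lit 501) (nat_lit 1) (nat_lit 525) (nat_lit 1)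 (nat_lit 308) (nat_lit 420) (nat_lit 412)) (XT.lf (nat_lit 1900) (nat_lit 4364758926) (nat_lit 76) (nat_lit 1921526197) (nat_lit 0) (nat_lit 1921526197) (nat_lit 526) (nat_lit 1) (nat_lit 502) (nat_lit 1) (nat_lit 501) (nat_lit 1) (nat_lit 309) (nat_lit 420) (nat_lit 411)))) (XT.nd (nat_lit 78) (nat_lit 0) (nat_lit 0) (XT.lf (nat_lit 1900) (nat_lit 2034241146) (nat_lit 0) (nat_lit 4060967221) (nat_lit 1824) (nat_lit 2034241146) (nat_lit 527) (nat_lit 1) (nat_lit 502) (nat_lit 1) (nat_lit 526) (nat_lit 1) (nat_lit 310) (nat_lit 420) (nat_lit 410)) (XT.nd (nat_lit 78) (nat_lit 0) (nat_lit 76) (XT.lf (nat_lit 1900) (nat_lit 3751298113) (nat_lit 76) (nat_lit 2150401119) (nat_lit 0) (nat_lit 2150401119) (nat_lit 527) (nat_lit 1) (nat_lit 503) (nat_lit 1) (nat_lit 502) (nat_lit 1) (nat_lit 311) (nat_lit 420) (nat_lit 409)) (XT.lf (nat_lit 1900) (nat_lit 1707745099) (nat_lit 0) (nat_lit 4560290522) (nat_lit 1824) (nat_lit 1707745099) (nat_lit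 528) (nat_lit 1) (nat_lit 503) (nat_lit 1) (nat_lit 527) (nat_lit 1) (nat_lit 312) (nat_lit 420) (nat_lit 408))))) (XT.nd (nat_lit 234) (nat_lit 0) (nat_lit 152) (XT.nd (nat_lit 78) (nat_lit 0) (nat_lit 76) (XT.lf (nat_lit 1900) (nat_lit 3056264842) (nat_lit 76) (nat_lit 2422052220) (nat_lit 0) (nat_lit 2422052220) (nat_lit 528) (nat_lit 1) (nat_lit 504) (nat_lit 1) (nat_lit 503) (nat_lit 1) (nat_lit 313) (nat_lit 420) (nat_lit 407)) (XT.nd (nat_lit 78) (nat_lit 0) (nat_lit 0) (XT.lf (nat_lit 1900) (nat_lit 1341921477) (nat_lit 0) (nat_lit 5142196677) (nat_lit 1824) (nat_lit 1341921477) (nat_lit 529) (nat_lit 1) (nat_lit 504) (nat_lit 1) (nat_lit 528) (nat_lit 1) (nat_lit 314) (nat_lit 420) (nat_lit 406)) (XT.lf (nat_lit 1900) (nat_lit 2284893217) (nat_lit 76) (nat_lit 2733805436) (nat_lit 0) (nat_lit 2733805436) (nat_lit 529) (nat_lit 1) (nat_lit 505) (nat_lit 1) (nat_lit 504) (nat_lit 1) (nat_lit 315) (nat_lit 420) (nat_lit 405))))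 (XT.nd (nat_lit 78) (nat_lit 0) (nat_lit 0) (XT.lf (nat_lit 1900) (nat_lit 939317139) (nat_lit 0) (nat_lit 5801479439) (nat_lit 1824) (nat_lit 939317139) (nat_lit 530) (nat_lit 1) (nat_lit 505) (nat_lit 1) (nat_lit 529) (nat_lit 1) (nat_lit 316) (nat_lit 420) (nat_lit 404)) (XT.nd (nat_lit 78) (nat_lit 0) (nat_lit 76) (XT.lf (nat_lit 1900) (nat_lit 1442173575) (nat_lit 76) (nat_lit 3083110403) (nat_lit 0) (nat_lit 3083110403) (nat_lit 530) (nat_lit 1) (nat_lit 506) (nat_lit 1) (nat_lit 505) (nat_lit 1) (nat_lit 317) (nat_lit 420) (nat_lit 403)) (XT.lf (nat_lit 1900) (nat_lit 502360053) (nat_lit 0) (nat_lit 6533173929) (nat_lit 1824) (nat_lit 502360053) (nat_lit 531) (nat_lit 1) (nat_lit 506) (nat_lit 1) (nat_lit 530) (nat_lit 1) (nat_lit 318) (nat_lit 420) (nat_lit 402)))))) (XT.nd (nat_lit 468) (nat_lit 2812) (nat_lit 0) (XT.nd (nat_lit 234) (nat_lit 0) (nat_lit 0) (XT.nd (nat_lit 78) (nat_lit 1824) (nat_lit 0) (XT.lf (nat_lit 1900)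 (nat_lit 532862748) (nat_lit 76) (nat_lit 3467535264) (nat_lit 0) (nat_lit 3467535264) (nat_lit 531) (nat_lit 1) (nat_lit 507) (nat_lit 1) (nat_lit 506) (nat_lit 1) (nat_lit 319) (nat_lit 420) (nat_lit 401)) (XT.nd (nat_lit 78) (nat_lit 1900) (nat_lit 0) (XT.lf (nat_lit 1900) (nat_lit 33364301) (nat_lit 0) (nat_lit 7332546499) (nat_lit 1824) (nat_lit 33364301) (nat_lit 532) (nat_lit 1) (nat_lit 507) (nat_lit 1) (nat_lit 531) (nat_lit 1) (nat_lit 320) (nat_lit 420) (nat_lit 400)) (XT.lf (nat_lit 1976) (nat_lit 3449102664) (nat_lit 0) (nat_lit 432755007) (nat_lit 1900) (nat_lit 3449102664) (nat_lit 508) (nat_lit 1) (nat_lit 482) (nat_lit 1) (nat_lit 507) (nat_lit 1) (nat_lit 321) (nat_lit 420) (nat_lit 399)))) (XT.nd (nat_lit 78) (nat_lit 0) (nat_lit 76) (XT.lf (nat_lit 1976) (nat_lit 6339106528) (nat_lit 76) (nat_lit 462402836) (nat_lit 0) (nat_lit 462402836) (nat_lit 508) (nat_lit 1) (nat_lit 483) (nat_lit 1) (nat_lit 482) (nat_lit 1)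 (nat_lit 322) (nat_lit 420) (nat_lit 398)) (XT.nd (nat_lit 78) (nat_lit 0) (nat_lit 0) (XT.lf (nat_lit 1976) (nat_lit 2874494805) (nat_lit 0) (nat_lit 1448365971) (nat_lit 1900) (nat_lit 2874494805) (nat_lit 509) (nat_lit 1) (nat_lit 483) (nat_lit 1) (nat_lit 508) (nat_lit 1) (nat_lit 323) (nat_lit 420) (nat_lit 397)) (XT.lf (nat_lit 1976) (nat_lit 5160914891) (nat_lit 76) (nat_lit 985501133) (nat_lit 0) (nat_lit 985501133) (nat_lit 509) (nat_lit 1) (nat_lit 484) (nat_lit 1) (nat_lit 483) (nat_lit 1) (nat_lit 324) (nat_lit 420) (nat_lit 396))))) (XT.nd (nat_lit 234) (nat_lit 1824) (nat_lit 0) (XT.nd (nat_lit 78) (nat_lit 1140) (nat_lit 0) (XT.lf (nat_lit 76) (nat_lit 2275096401) (nat_lit 0) (nat_lit 2516898875) (nat_lit 1900) (nat_lit 2275096401) (nat_lit 485) (nat_lit 1) (nat_lit 484) (nat_lit 1) (nat_lit 509) (nat_lit 1) (nat_lit 325) (nat_lit 420) (nat_lit 395)) (XT.nd (nat_lit 78) (nat_lit 0) (nat_lit 0) (XT.lf (nat_lit 1216) (nat_lit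 3934887113) (nat_lit 0) (nat_lit 1534162748) (nat_lit 1140) (nat_lit 1534162748) (nat_lit 485) (nat_lit 1) (nat_lit 469) (nat_lit 1) (nat_lit 484) (nat_lit 1) (nat_lit 326) (nat_lit 420) (nat_lit 394)) (XT.lf (nat_lit 76) (nat_lit 1652793693) (nat_lit 0) (nat_lit 3634487727) (nat_lit 1216) (nat_lit 1652793693) (nat_lit 470) (nat_lit 1) (nat_lit 469) (nat_lit 1) (nat_lit 485) (nat_lit 1) (nat_lit 327) (nat_lit 420) (nat_lit 393)))) (XT.nd (nat_lit 78) (nat_lit 912) (nat_lit 0) (XT.lf (nat_lit 988) (nat_lit 2664715765) (nat_lit 0) (nat_lit 2106495498) (nat_lit 912) (nat_lit 2106495498) (nat_lit 470) (nat_lit 1) (nat_lit 457) (nat_lit 1) (nat_lit 469) (nat_lit 1) (nat_lit 328) (nat_lit 420) (nat_lit 392)) (XT.nd (nat_lit 78) (nat_lit 912) (nat_lit 0) (XT.lf (nat_lit 76) (nat_lit 1009381565) (nat_lit 0) (nat_lit 4797452166) (nat_lit 988) (nat_lit 1009381565) (nat_lit 458) (nat_lit 1) (nat_lit 457) (nat_lit 1) (nat_lit 470) (nat_lit 1) (nat_lit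 329) (nat_lit 420) (nat_lit 391)) (XT.lf (nat_lit 988) (nat_lit 1353914048) (nat_lit 0) (nat_lit 2700698316) (nat_lit 912) (nat_lit 2700698316) (nat_lit 458) (nat_lit 1) (nat_lit 445) (nat_lit 1) (nat_lit 457) (nat_lit 1) (nat_lit 330) (nat_lit 420) (nat_lit 390))))))) (XT.nd (nat_lit 936) (nat_lit 4180) (nat_lit 0) (XT.nd (nat_lit 468) (nat_lit 3192) (nat_lit 0) (XT.nd (nat_lit 234) (nat_lit 836) (nat_lit 0) (XT.nd (nat_lit 78) (nat_lit 1824) (nat_lit 0) (XT.lf (nat_lit 76) (nat_lit 346567452) (nat_lit 0) (nat_lit 6002289558) (nat_lit 988) (nat_lit 346567452) (nat_lit 446) (nat_lit 1) (nat_lit 445) (nat_lit 1) (nat_lit 458) (nat_lit 1) (nat_lit 331) (nat_lit 420) (nat_lit 389)) (XT.nd (nat_lit 78) (nat_lit 988) (nat_lit 0) (XT.lf (nat_lit 912) (nat_lit 5823467) (nat_lit 0) (nat_lit 3315057364) (nat_lit 836) (nat_lit 3315057364) (nat_lit 446) (nat_lit 1) (nat_lit 434) (nat_lit 1) (nat_lit 445) (nat_lit 1) (nat_lit 332) (nat_lit 420) (nat_lit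 388)) (XT.lf (nat_lit 988) (nat_lit 5913788715) (nat_lit 0) (nat_lit 331827387) (nat_lit 912) (nat_lit 331827387) (nat_lit 434) (nat_lit 1) (nat_lit 421) (nat_lit 1) (nat_lit 433) (nat_lit 1) (nat_lit 333) (nat_lit 420) (nat_lit 387)))) (XT.nd (nat_lit 78) (nat_lit 836) (nat_lit 0) (XT.lf (nat_lit 76) (nat_lit 2580499859) (nat_lit 0) (nat_lit 1358327355) (nat_lit 988) (nat_lit 2580499859) (nat_lit 422) (nat_lit 1) (nat_lit 421) (nat_lit 1) (nat_lit 434) (nat_lit 1) (nat_lit 334) (nat_lit 420) (nat_lit 386)) (XT.nd (nat_lit 78) (nat_lit 0) (nat_lit 0) (XT.lf (nat_lit 912) (nat_lit 4414034927) (nat_lit 0) (nat_lit 1024070022) (nat_lit 836) (nat_lit 1024070022) (nat_lit 422) (nat_lit 1) (nat_lit 410) (nat_lit 1) (nat_lit 421) (nat_lit 1) (nat_lit 335) (nat_lit 420) (nat_lit 385)) (XT.lf (nat_lit 76) (nat_lit 1826242242) (nat_lit 0) (nat_lit 2753085839) (nat_lit 912) (nat_lit 1826242242) (nat_lit 411) (nat_lit 1) (nat_lit 410) (nat_lit 1)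 (nat_lit 422) (nat_lit 1) (nat_lit 336) (nat_lit 420) (nat_lit 384))))) (XT.nd (nat_lit 234) (nat_lit 1596) (nat_lit 0) (XT.nd (nat_lit 78) (nat_lit 760) (nat_lit 0) (XT.lf (nat_lit 912) (nat_lit 2887753996) (nat_lit 0) (nat_lit 1730983213) (nat_lit 836) (nat_lit 1730983213) (nat_lit 411) (nat_lit 1) (nat_lit 399) (nat_lit 1) (nat_lit 410) (nat_lit 1) (nat_lit 337) (nat_lit 420) (nat_lit 383)) (XT.nd (nat_lit 78) (nat_lit 760) (nat_lit 0) (XT.lf (nat_lit 76) (nat_lit 1059447012) (nat_lit 0) (nat_lit 4175696611) (nat_lit 912) (nat_lit 1059447012) (nat_lit 400) (nat_lit 1) (nat_lit 399) (nat_lit 1) (nat_lit 411) (nat_lit 1) (nat_lit 338) (nat_lit 420) (nat_lit 382)) (XT.lf (nat_lit 836) (nat_lit 1337638050) (nat_lit 0) (nat_lit 2451182556) (nat_lit 760) (nat_lit 2451182556) (nat_lit 400) (nat_lit 1) (nat_lit 389) (nat_lit 1) (nat_lit 399) (nat_lit 1) (nat_lit 339) (nat_lit 420) (nat_lit 381)))) (XT.nd (nat_lit 78) (nat_lit 1596) (nat_lit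 0) (XT.lf (nat_lit 76) (nat_lit 281421145) (nat_lit 0) (nat_lit 5623470046) (nat_lit 836) (nat_lit 281421145) (nat_lit 390) (nat_lit 1) (nat_lit 389) (nat_lit 1) (nat_lit 400) (nat_lit 1) (nat_lit 340) (nat_lit 420) (nat_lit 380)) (XT.nd (nat_lit 78) (nat_lit 760) (nat_lit 0) (XT.lf (nat_lit 76) (nat_lit 2951113183) (nat_lit 0) (nat_lit 230692130) (nat_lit 836) (nat_lit 2951113183) (nat_lit 379) (nat_lit 1) (nat_lit 378) (nat_lit 1) (nat_lit 389) (nat_lit 1) (nat_lit 341) (nat_lit 420) (nat_lit 379)) (XT.lf (nat_lit 836) (nat_lit 5073873344) (nat_lit 0) (nat_lit 503262351) (nat_lit 760) (nat_lit 503262351) (nat_lit 379) (nat_lit 1) (nat_lit 368) (nat_lit 1) (nat_lit 378) (nat_lit 1) (nat_lit 342) (nat_lit 420) (nat_lit 378)))))) (XT.nd (nat_lit 468) (nat_lit 1976) (nat_lit 0) (XT.nd (nat_lit 234) (nat_lit 1444) (nat_lit 0) (XT.nd (nat_lit 78) (nat_lit 760) (nat_lit 0) (XT.lf (nat_lit 76) (nat_lit 2114080364) (nat_lit 0) (nat_lit 1800087822)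 (nat_lit 836) (nat_lit 2114080364) (nat_lit 369) (nat_lit 1) (nat_lit 368) (nat_lit 1) (nat_lit 379) (nat_lit 1) (nat_lit 343) (nat_lit 420) (nat_lit 377)) (XT.nd (nat_lit 78) (nat_lit 0) (nat_lit 0) (XT.lf (nat_lit 836) (nat_lit 3387188028) (nat_lit 0) (nat_lit 1294850677) (nat_lit 760) (nat_lit 1294850677) (nat_lit 369) (nat_lit 1) (nat_lit 358) (nat_lit 1) (nat_lit 368) (nat_lit 1) (nat_lit 344) (nat_lit 420) (nat_lit 376)) (XT.lf (nat_lit 76) (nat_lit 1270136640) (nat_lit 0) (nat_lit 3385824140) (nat_lit 836) (nat_lit 1270136640) (nat_lit 359) (nat_lit 1) (nat_lit 358) (nat_lit 1) (nat_lit 369) (nat_lit 1) (nat_lit 345) (nat_lit 420) (nat_lit 375)))) (XT.nd (nat_lit 78) (nat_lit 760) (nat_lit 0) (XT.lf (nat_lit 760) (nat_lit 1687689546) (nat_lit 0) (nat_lit 2094087533) (nat_lit 684) (nat_lit 2094087533) (nat_lit 359) (nat_lit 1) (nat_lit 349) (nat_lit 1) (nat_lit 358) (nat_lit 1) (nat_lit 346) (nat_lit 420) (nat_lit 374)) (XT.nd (nat_lit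 78) (nat_lit 760) (nat_lit 0) (XT.lf (nat_lit 76) (nat_lit 420323194) (nat_lit 0) (nat_lit 4985751221) (nat_lit 760) (nat_lit 420323194) (nat_lit 350) (nat_lit 1) (nat_lit 349) (nat_lit 1) (nat_lit 359) (nat_lit 1) (nat_lit 347) (nat_lit 420) (nat_lit 373)) (XT.lf (nat_lit 76) (nat_lit 2877480820) (nat_lit 0) (nat_lit 22292815) (nat_lit 760) (nat_lit 2877480820) (nat_lit 340) (nat_lit 1) (nat_lit 339) (nat_lit 1) (nat_lit 349) (nat_lit 1) (nat_lit 348) (nat_lit 420) (nat_lit 372))))) (XT.nd (nat_lit 234) (nat_lit 608) (nat_lit 0) (XT.nd (nat_lit 78) (nat_lit 684) (nat_lit 0) (XT.lf (nat_lit 760) (nat_lit 4865823956) (nat_lit 0) (nat_lit 431516652) (nat_lit 684) (nat_lit 431516652) (nat_lit 340) (nat_lit 1) (nat_lit 330) (nat_lit 1) (nat_lit 339) (nat_lit 1) (nat_lit 349) (nat_lit 420) (nat_lit 371)) (XT.nd (nat_lit 78) (nat_lit 684) (nat_lit 0) (XT.lf (nat_lit 76) (nat_lit 1980948171) (nat_lit 0) (nat_lit 1718880843) (nat_lit 760) (nat_lit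 1980948171) (nat_lit 331) (nat_lit 1) (nat_lit 330) (nat_lit 1) (nat_lit 340) (nat_lit 1) (nat_lit 350) (nat_lit 420) (nat_lit 370)) (XT.lf (nat_lit 760) (nat_lit 3064384375) (nat_lit 0) (nat_lit 1284516875) (nat_lit 684) (nat_lit 1284516875) (nat_lit 331) (nat_lit 1) (nat_lit 321) (nat_lit 1) (nat_lit 330) (nat_lit 1) (nat_lit 351) (nat_lit 420) (nat_lit 369)))) (XT.nd (nat_lit 78) (nat_lit 608) (nat_lit 0) (XT.lf (nat_lit 76) (nat_lit 1082088372) (nat_lit 0) (nat_lit 3422413008) (nat_lit 760) (nat_lit 1082088372) (nat_lit 322) (nat_lit 1) (nat_lit 321) (nat_lit 1) (nat_lit 331) (nat_lit 1) (nat_lit 352) (nat_lit 420) (nat_lit 368)) (XT.nd (nat_lit 78) (nat_lit 0) (nat_lit 0) (XT.lf (nat_lit 684) (nat_lit 1259104368) (nat_lit 0) (nat_lit 2140566863) (nat_lit 608) (nat_lit 2140566863) (nat_lit 322) (nat_lit 1) (nat_lit 313) (nat_lit 1) (nat_lit 321) (nat_lit 1) (nat_lit 353) (nat_lit 420) (nat_lit 367)) (XT.lf (nat_lit 76) (nat_lit 181720035)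 (nat_lit 0) (nat_lit 5131191724) (nat_lit 684) (nat_lit 181720035) (nat_lit 314) (nat_lit 1) (nat_lit 313) (nat_lit 1) (nat_lit 322) (nat_lit 1) (nat_lit 354) (nat_lit 420) (nat_lit 366))))))))
noncomputable def ec91 : XT := (XT.nd (nat_lit 1872) (nat_lit 5700) (nat_lit 0) (XT.nd (nat_lit 936) (nat_lit 3496) (nat_lit 0) (XT.nd (nat_lit 468) (nat_lit 2356) (nat_lit 0) (XT.nd (nat_lit 234) (nat_lit 1140) (nat_lit 0) (XT.nd (nat_lit 78) (nat_lit 608) (nat_lit 0) (XT.lf (nat_lit 76) (nat_lit 2453979604) (nat_lit 0) (nat_lit 541227395) (nat_lit 684) (nat_lit 2453979604) (nat_lit 305) (nat_lit 1) (nat_lit 304) (nat_lit 1) (nat_lit 313) (nat_lit 1) (nat_lit 355) (nat_lit 420) (nat_lit 365)) (XT.nd (nat_lit 78) (nat_lit 0) (nat_lit 0) (XT.lf (nat_lit 684) (nat_lit 3975166827) (nat_lit 0) (nat_lit 714651501) (nat_lit 608) (nat_lit 714651501) (nat_lit 305) (nat_lit 1) (nat_lit 296) (nat_lit 1) (nat_lit 304) (nat_lit 1) (nat_lit 356) (nat_lit 420)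 (nat_lit 364)) (XT.lf (nat_lit 76) (nat_lit 1517169441) (nat_lit 0) (nat_lit 2325774782) (nat_lit 684) (nat_lit 1517169441) (nat_lit 297) (nat_lit 1) (nat_lit 296) (nat_lit 1) (nat_lit 305) (nat_lit 1) (nat_lit 357) (nat_lit 420) (nat_lit 363)))) (XT.nd (nat_lit 78) (nat_lit 532) (nat_lit 0) (XT.lf (nat_lit 684) (nat_lit 2096657397) (nat_lit 0) (nat_lit 1609834905) (nat_lit 608) (nat_lit 1609834905) (nat_lit 297) (nat_lit 1) (nat_lit 288) (nat_lit 1) (nat_lit 296) (nat_lit 1) (nat_lit 358) (nat_lit 420) (nat_lit 362)) (XT.nd (nat_lit 78) (nat_lit 532) (nat_lit 0) (XT.lf (nat_lit 76) (nat_lit 581738337) (nat_lit 0) (nat_lit 4109650378) (nat_lit 684) (nat_lit 581738337) (nat_lit 289) (nat_lit 1) (nat_lit 288) (nat_lit 1) (nat_lit 297) (nat_lit 1) (nat_lit 359) (nat_lit 420) (nat_lit 361)) (XT.lf (nat_lit 608) (nat_lit 221556438) (nat_lit 0) (nat_lit 2504343688) (nat_lit 532) (nat_lit 2504343688) (nat_lit 289) (nat_lit 1) (nat_lit 281) (nat_lit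 1) (nat_lit 288) (nat_lit 1) (nat_lit 360) (nat_lit 420) (nat_lit 360))))) (XT.nd (nat_lit 234) (nat_lit 1140) (nat_lit 0) (XT.nd (nat_lit 78) (nat_lit 532) (nat_lit 0) (XT.lf (nat_lit 684) (nat_lit 4489254725) (nat_lit 0) (nat_lit 349367326) (nat_lit 608) (nat_lit 349367326) (nat_lit 281) (nat_lit 1) (nat_lit 272) (nat_lit 1) (nat_lit 280) (nat_lit 1) (nat_lit 361) (nat_lit 420) (nat_lit 359)) (XT.nd (nat_lit 78) (nat_lit 532) (nat_lit 0) (XT.lf (nat_lit 76) (nat_lit 1759336522) (nat_lit 0) (nat_lit 1627279262) (nat_lit 684) (nat_lit 1759336522) (nat_lit 273) (nat_lit 1) (nat_lit 272) (nat_lit 1) (nat_lit 281) (nat_lit 1) (nat_lit 362) (nat_lit 420) (nat_lit 358)) (XT.lf (nat_lit 608) (nat_lit 2556416594) (nat_lit 0) (nat_lit 1274056490) (nat_lit 532) (nat_lit 1274056490) (nat_lit 273) (nat_lit 1) (nat_lit 265) (nat_lit 1) (nat_lit 272) (nat_lit 1) (nat_lit 363) (nat_lit 420) (nat_lit 357)))) (XT.nd (nat_lit 78) (nat_lit 1140) (nat_lit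 0) (XT.lf (nat_lit 76) (nat_lit 798049002) (nat_lit 0) (nat_lit 3467489090) (nat_lit 608) (nat_lit 798049002) (nat_lit 266) (nat_lit 1) (nat_lit 265) (nat_lit 1) (nat_lit 273) (nat_lit 1) (nat_lit 364) (nat_lit 420) (nat_lit 356)) (XT.nd (nat_lit 78) (nat_lit 608) (nat_lit 0) (XT.lf (nat_lit 608) (nat_lit 631796764) (nat_lit 0) (nat_lit 2195601671) (nat_lit 532) (nat_lit 2195601671) (nat_lit 266) (nat_lit 1) (nat_lit 258) (nat_lit 1) (nat_lit 265) (nat_lit 1) (nat_lit 365) (nat_lit 420) (nat_lit 355)) (XT.lf (nat_lit 608) (nat_lit 4667354064) (nat_lit 0) (nat_lit 157845015) (nat_lit 532) (nat_lit 157845015) (nat_lit 258) (nat_lit 1) (nat_lit 250) (nat_lit 1) (nat_lit 257) (nat_lit 1) (nat_lit 366) (nat_lit 420) (nat_lit 354)))))) (XT.nd (nat_lit 468) (nat_lit 1900) (nat_lit 0) (XT.nd (nat_lit 234) (nat_lit 1064) (nat_lit 0) (XT.nd (nat_lit 78) (nat_lit 532) (nat_lit 0) (XT.lf (nat_lit 76) (nat_lit 1838203236) (nat_lit 0) (nat_lit 1266778557)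 (nat_lit 608) (nat_lit 1838203236) (nat_lit 251) (nat_lit 1) (nat_lit 250) (nat_lit 1) (nat_lit 258) (nat_lit 1) (nat_lit 367) (nat_lit 420) (nat_lit 353)) (XT.nd (nat_lit 78) (nat_lit 0) (nat_lit 0) (XT.lf (nat_lit 608) (nat_lit 2696555156) (nat_lit 0) (nat_lit 1103694472) (nat_lit 532) (nat_lit 1103694472) (nat_lit 251) (nat_lit 1) (nat_lit 243) (nat_lit 1) (nat_lit 250) (nat_lit 1) (nat_lit 368) (nat_lit 420) (nat_lit 352)) (XT.lf (nat_lit 76) (nat_lit 859029315) (nat_lit 0) (nat_lit 3147063816) (nat_lit 608) (nat_lit 859029315) (nat_lit 244) (nat_lit 1) (nat_lit 243) (nat_lit 1) (nat_lit 251) (nat_lit 1) (nat_lit 369) (nat_lit 420) (nat_lit 351)))) (XT.nd (nat_lit 78) (nat_lit 608) (nat_lit 0) (XT.lf (nat_lit 532) (nat_lit 738043943) (nat_lit 0) (nat_lit 2044306045) (nat_lit 456) (nat_lit 2044306045) (nat_lit 244) (nat_lit 1) (nat_lit 237) (nat_lit 1) (nat_lit 243) (nat_lit 1) (nat_lit 370) (nat_lit 420) (nat_lit 350)) (XT.nd (nat_lit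 78) (nat_lit 0) (nat_lit 0) (XT.lf (nat_lit 608) (nat_lit 4562643878) (nat_lit 0) (nat_lit 113072414) (nat_lit 532) (nat_lit 113072414) (nat_lit 237) (nat_lit 1) (nat_lit 229) (nat_lit 1) (nat_lit 236) (nat_lit 1) (nat_lit 371) (nat_lit 420) (nat_lit 349)) (XT.lf (nat_lit 76) (nat_lit 1779707789) (nat_lit 0) (nat_lit 1191561867) (nat_lit 608) (nat_lit 1779707789) (nat_lit 230) (nat_lit 1) (nat_lit 229) (nat_lit 1) (nat_lit 237) (nat_lit 1) (nat_lit 372) (nat_lit 420) (nat_lit 348))))) (XT.nd (nat_lit 234) (nat_lit 988) (nat_lit 0) (XT.nd (nat_lit 78) (nat_lit 456) (nat_lit 0) (XT.lf (nat_lit 532) (nat_lit 2568019199) (nat_lit 0) (nat_lit 1072867335) (nat_lit 456) (nat_lit 1072867335) (nat_lit 230) (nat_lit 1) (nat_lit 223) (nat_lit 1) (nat_lit 229) (nat_lit 1) (nat_lit 373) (nat_lit 420) (nat_lit 347)) (XT.nd (nat_lit 78) (nat_lit 456) (nat_lit 0) (XT.lf (nat_lit 76) (nat_lit 789527607) (nat_lit 0) (nat_lit 3097871489) (nat_lit 532) (nat_lit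 789527607) (nat_lit 224) (nat_lit 1) (nat_lit 223) (nat_lit 1) (nat_lit 230) (nat_lit 1) (nat_lit 374) (nat_lit 420) (nat_lit 346)) (XT.lf (nat_lit 532) (nat_lit 589101947) (nat_lit 0) (nat_lit 2025660034) (nat_lit 456) (nat_lit 2025660034) (nat_lit 224) (nat_lit 1) (nat_lit 217) (nat_lit 1) (nat_lit 223) (nat_lit 1) (nat_lit 375) (nat_lit 420) (nat_lit 345)))) (XT.nd (nat_lit 78) (nat_lit 456) (nat_lit 0) (XT.lf (nat_lit 532) (nat_lit 4221649534) (nat_lit 0) (nat_lit 191403332) (nat_lit 456) (nat_lit 191403332) (nat_lit 217) (nat_lit 1) (nat_lit 210) (nat_lit 1) (nat_lit 216) (nat_lit 1) (nat_lit 376) (nat_lit 420) (nat_lit 344)) (XT.nd (nat_lit 78) (nat_lit 456) (nat_lit 0) (XT.lf (nat_lit 76) (nat_lit 1606539545) (nat_lit 0) (nat_lit 1355493311) (nat_lit 532) (nat_lit 1606539545) (nat_lit 211) (nat_lit 1) (nat_lit 210) (nat_lit 1) (nat_lit 217) (nat_lit 1) (nat_lit 377) (nat_lit 420) (nat_lit 343)) (XT.lf (nat_lit 532) (nat_lit 2215366819)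 (nat_lit 0) (nat_lit 1158925265) (nat_lit 456) (nat_lit 1158925265) (nat_lit 211) (nat_lit 1) (nat_lit 204) (nat_lit 1) (nat_lit 210) (nat_lit 1) (nat_lit 378) (nat_lit 420) (nat_lit 342))))))) (XT.nd (nat_lit 936) (nat_lit 2812) (nat_lit 0) (XT.nd (nat_lit 468) (nat_lit 1596) (nat_lit 0) (XT.nd (nat_lit 234) (nat_lit 380) (nat_lit 0) (XT.nd (nat_lit 78) (nat_lit 912) (nat_lit 0) (XT.lf (nat_lit 76) (nat_lit 611273115) (nat_lit 0) (nat_lit 3275721633) (nat_lit 532) (nat_lit 611273115) (nat_lit 205) (nat_lit 1) (nat_lit 204) (nat_lit 1) (nat_lit 211) (nat_lit 1) (nat_lit 379) (nat_lit 420) (nat_lit 341)) (XT.nd (nat_lit 78) (nat_lit 532) (nat_lit 0) (XT.lf (nat_lit 456) (nat_lit 227641911) (nat_lit 0) (nat_lit 2117969592) (nat_lit 380) (nat_lit 2117969592) (nat_lit 205) (nat_lit 1) (nat_lit 199) (nat_lit 1) (nat_lit 204) (nat_lit 1) (nat_lit 380) (nat_lit 420) (nat_lit 340)) (XT.lf (nat_lit 532) (nat_lit 3685016973) (nat_lit 0) (nat_lit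 372166343) (nat_lit 456) (nat_lit 372166343) (nat_lit 199) (nat_lit 1) (nat_lit 192) (nat_lit 1) (nat_lit 198) (nat_lit 1) (nat_lit 381) (nat_lit 420) (nat_lit 339)))) (XT.nd (nat_lit 78) (nat_lit 380) (nat_lit 0) (XT.lf (nat_lit 76) (nat_lit 1338517213) (nat_lit 0) (nat_lit 1718247509) (nat_lit 532) (nat_lit 1338517213) (nat_lit 193) (nat_lit 1) (nat_lit 192) (nat_lit 1) (nat_lit 199) (nat_lit 1) (nat_lit 382) (nat_lit 420) (nat_lit 338)) (XT.nd (nat_lit 78) (nat_lit 0) (nat_lit 0) (XT.lf (nat_lit 456) (nat_lit 1677511984) (nat_lit 0) (nat_lit 1342074285) (nat_lit 380) (nat_lit 1342074285) (nat_lit 193) (nat_lit 1) (nat_lit 187) (nat_lit 1) (nat_lit 192) (nat_lit 1) (nat_lit 383) (nat_lit 420) (nat_lit 337)) (XT.lf (nat_lit 76) (nat_lit 343239335) (nat_lit 0) (nat_lit 3642001916) (nat_lit 456) (nat_lit 343239335) (nat_lit 188) (nat_lit 1) (nat_lit 187) (nat_lit 1) (nat_lit 193) (nat_lit 1) (nat_lit 384) (nat_lit 420) (nat_lit 336)))))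 (XT.nd (nat_lit 234) (nat_lit 760) (nat_lit 0) (XT.nd (nat_lit 78) (nat_lit 380) (nat_lit 0) (XT.lf (nat_lit 76) (nat_lit 1995205889) (nat_lit 0) (nat_lit 305029475) (nat_lit 456) (nat_lit 1995205889) (nat_lit 182) (nat_lit 1) (nat_lit 181) (nat_lit 1) (nat_lit 187) (nat_lit 1) (nat_lit 385) (nat_lit 420) (nat_lit 335)) (XT.nd (nat_lit 78) (nat_lit 0) (nat_lit 0) (XT.lf (nat_lit 456) (nat_lit 2988199074) (nat_lit 0) (nat_lit 637317979) (nat_lit 380) (nat_lit 637317979) (nat_lit 182) (nat_lit 1) (nat_lit 176) (nat_lit 1) (nat_lit 181) (nat_lit 1) (nat_lit 386) (nat_lit 420) (nat_lit 334)) (XT.lf (nat_lit 76) (nat_lit 992924100) (nat_lit 0) (nat_lit 2244631919) (nat_lit 456) (nat_lit 992924100) (nat_lit 177) (nat_lit 1) (nat_lit 176) (nat_lit 1) (nat_lit 182) (nat_lit 1) (nat_lit 387) (nat_lit 420) (nat_lit 333)))) (XT.nd (nat_lit 78) (nat_lit 380) (nat_lit 0) (XT.lf (nat_lit 456) (nat_lit 988383949) (nat_lit 0) (nat_lit 1605043055) (nat_lit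 380) (nat_lit 1605043055) (nat_lit 177) (nat_lit 1) (nat_lit 171) (nat_lit 1) (nat_lit 176) (nat_lit 1) (nat_lit 388) (nat_lit 420) (nat_lit 332)) (XT.nd (nat_lit 78) (nat_lit 380) (nat_lit 0) (XT.lf (nat_lit 76) (nat_lit 1966116) (nat_lit 0) (nat_lit 4163027073) (nat_lit 456) (nat_lit 1966116) (nat_lit 172) (nat_lit 1) (nat_lit 171) (nat_lit 1) (nat_lit 177) (nat_lit 1) (nat_lit 389) (nat_lit 420) (nat_lit 331)) (XT.lf (nat_lit 76) (nat_lit 1579880947) (nat_lit 0) (nat_lit 975639115) (nat_lit 380) (nat_lit 1579880947) (nat_lit 167) (nat_lit 1) (nat_lit 166) (nat_lit 1) (nat_lit 171) (nat_lit 1) (nat_lit 390) (nat_lit 420) (nat_lit 330)))))) (XT.nd (nat_lit 468) (nat_lit 1368) (nat_lit 0) (XT.nd (nat_lit 234) (nat_lit 760) (nat_lit 0) (XT.nd (nat_lit 78) (nat_lit 304) (nat_lit 0) (XT.lf (nat_lit 456) (nat_lit 2162064001) (nat_lit 0) (nat_lit 971135320) (nat_lit 380) (nat_lit 971135320) (nat_lit 167) (nat_lit 1) (nat_lit 161) (nat_lit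 1) (nat_lit 166) (nat_lit 1) (nat_lit 391) (nat_lit 420) (nat_lit 329)) (XT.nd (nat_lit 78) (nat_lit 304) (nat_lit 0) (XT.lf (nat_lit 76) (nat_lit 584805253) (nat_lit 0) (nat_lit 2903986161) (nat_lit 456) (nat_lit 584805253) (nat_lit 162) (nat_lit 1) (nat_lit 161) (nat_lit 1) (nat_lit 167) (nat_lit 1) (nat_lit 392) (nat_lit 420) (nat_lit 328)) (XT.lf (nat_lit 380) (nat_lit 177511713) (nat_lit 0) (nat_lit 1932787537) (nat_lit 304) (nat_lit 1932787537) (nat_lit 162) (nat_lit 1) (nat_lit 157) (nat_lit 1) (nat_lit 161) (nat_lit 1) (nat_lit 393) (nat_lit 420) (nat_lit 327)))) (XT.nd (nat_lit 78) (nat_lit 304) (nat_lit 0) (XT.lf (nat_lit 456) (nat_lit 3221873732) (nat_lit 0) (nat_lit 395535428) (nat_lit 380) (nat_lit 395535428) (nat_lit 157) (nat_lit 1) (nat_lit 151) (nat_lit 1) (nat_lit 156) (nat_lit 1) (nat_lit 394) (nat_lit 420) (nat_lit 326)) (XT.nd (nat_lit 78) (nat_lit 304) (nat_lit 0) (XT.lf (nat_lit 76) (nat_lit 1111827370) (nat_lit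 0) (nat_lit 1759297705) (nat_lit 456) (nat_lit 1111827370) (nat_lit 152) (nat_lit 1) (nat_lit 151) (nat_lit 1) (nat_lit 157) (nat_lit 1) (nat_lit 395) (nat_lit 420) (nat_lit 325)) (XT.lf (nat_lit 380) (nat_lit 1233434343) (nat_lit 0) (nat_lit 1359943546) (nat_lit 304) (nat_lit 1359943546) (nat_lit 152) (nat_lit 1) (nat_lit 147) (nat_lit 1) (nat_lit 151) (nat_lit 1) (nat_lit 396) (nat_lit 420) (nat_lit 324))))) (XT.nd (nat_lit 234) (nat_lit 684) (nat_lit 0) (XT.nd (nat_lit 78) (nat_lit 684) (nat_lit 0) (XT.lf (nat_lit 76) (nat_lit 127230796) (nat_lit 0) (nat_lit 3669649667) (nat_lit 380) (nat_lit 127230796) (nat_lit 148) (nat_lit 1) (nat_lit 147) (nat_lit 1) (nat_lit 152) (nat_lit 1) (nat_lit 397) (nat_lit 420) (nat_lit 323)) (XT.nd (nat_lit 78) (nat_lit 304) (nat_lit 0) (XT.lf (nat_lit 76) (nat_lit 1587507328) (nat_lit 0) (nat_lit 719891072) (nat_lit 380) (nat_lit 1587507328) (nat_lit 143) (nat_lit 1) (nat_lit 142) (nat_lit 1) (nat_lit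 147) (nat_lit 1) (nat_lit 398) (nat_lit 420) (nat_lit 322)) (XT.lf (nat_lit 380) (nat_lit 2187974204) (nat_lit 0) (nat_lit 839070389) (nat_lit 304) (nat_lit 839070389) (nat_lit 143) (nat_lit 1) (nat_lit 138) (nat_lit 1) (nat_lit 142) (nat_lit 1) (nat_lit 399) (nat_lit 420) (nat_lit 321)))) (XT.nd (nat_lit 156) (nat_lit 380) (nat_lit 0) (XT.nd (nat_lit 78) (nat_lit 304) (nat_lit 0) (XT.lf (nat_lit 76) (nat_lit 602898795) (nat_lit 0) (nat_lit 2631807056) (nat_lit 380) (nat_lit 602898795) (nat_lit 139) (nat_lit 1) (nat_lit 138) (nat_lit 1) (nat_lit 143) (nat_lit 1) (nat_lit 400) (nat_lit 420) (nat_lit 320)) (XT.lf (nat_lit 380) (nat_lit 225564822) (nat_lit 0) (nat_lit 1791874506) (nat_lit 304) (nat_lit 1791874506) (nat_lit 139) (nat_lit 1) (nat_lit 134) (nat_lit 1) (nat_lit 138) (nat_lit 1) (nat_lit 401) (nat_lit 420) (nat_lit 319))) (XT.nd (nat_lit 78) (nat_lit 0) (nat_lit 0) (XT.lf (nat_lit 380) (nat_lit 3049263224) (nat_lit 0) (nat_lit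 366046601) (nat_lit 304) (nat_lit 366046601) (nat_lit 134) (nat_lit 1) (nat_lit 129) (nat_lit 1) (nat_lit 133) (nat_lit 1) (nat_lit 402) (nat_lit 420) (nat_lit 318)) (XT.lf (nat_lit 76) (nat_lit 1032825693) (nat_lit 0) (nat_lit 1687871142) (nat_lit 380) (nat_lit 1032825693) (nat_lit 130) (nat_lit 1) (nat_lit 129) (nat_lit 1) (nat_lit 134) (nat_lit 1) (nat_lit 403) (nat_lit 420) (nat_lit 317))))))))
noncomputable def ec92 : XT := (XT.nd (nat_lit 52260) (nat_lit 0) (nat_lit 23180) (XT.nd (nat_lit 936) (nat_lit 304) (nat_lit 0) (XT.nd (nat_lit 468) (nat_lit 1140) (nat_lit 0) (XT.nd (nat_lit 234) (nat_lit 608) (nat_lit 0) (XT.nd (nat_lit 78) (nat_lit 304) (nat_lit 0) (XT.lf (nat_lit 380) (nat_lit 1090221639) (nat_lit 0) (nat_lit 1317897509) (nat_lit 304) (nat_lit 1317897509) (nat_lit 130) (nat_lit 1) (nat_lit 125) (nat_lit 1) (nat_lit 129) (nat_lit 1) (nat_lit 404) (nat_lit 420) (nat_lit 316)) (XT.nd (nat_lit 78) (nat_lit 304) (nat_lit 0)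 (XT.lf (nat_lit 76) (nat_lit 63348977) (nat_lit 0) (nat_lit 3572210596) (nat_lit 380) (nat_lit 63348977) (nat_lit 126) (nat_lit 1) (nat_lit 125) (nat_lit 1) (nat_lit 130) (nat_lit 1) (nat_lit 405) (nat_lit 420) (nat_lit 315)) (XT.lf (nat_lit 76) (nat_lit 1420681487) (nat_lit 0) (nat_lit 830398927) (nat_lit 304) (nat_lit 1420681487) (nat_lit 122) (nat_lit 1) (nat_lit 121) (nat_lit 1) (nat_lit 125) (nat_lit 1) (nat_lit 406) (nat_lit 420) (nat_lit 314)))) (XT.nd (nat_lit 78) (nat_lit 304) (nat_lit 0) (XT.lf (nat_lit 380) (nat_lit 1871740010) (nat_lit 0) (nat_lit 886634020) (nat_lit 304) (nat_lit 886634020) (nat_lit 122) (nat_lit 1) (nat_lit 117) (nat_lit 1) (nat_lit 121) (nat_lit 1) (nat_lit 407) (nat_lit 420) (nat_lit 313)) (XT.nd (nat_lit 78) (nat_lit 304) (nat_lit 0) (XT.lf (nat_lit 76) (nat_lit 454366816) (nat_lit 0) (nat_lit 2709802101) (nat_lit 380) (nat_lit 454366816) (nat_lit 118) (nat_lit 1) (nat_lit 117) (nat_lit 1) (nat_lit 122)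 (nat_lit 1) (nat_lit 408) (nat_lit 420) (nat_lit 312)) (XT.lf (nat_lit 76) (nat_lit 1769853029) (nat_lit 0) (nat_lit 52519950) (nat_lit 304) (nat_lit 1769853029) (nat_lit 114) (nat_lit 1) (nat_lit 113) (nat_lit 1) (nat_lit 117) (nat_lit 1) (nat_lit 409) (nat_lit 420) (nat_lit 311))))) (XT.nd (nat_lit 234) (nat_lit 608) (nat_lit 0) (XT.nd (nat_lit 78) (nat_lit 228) (nat_lit 0) (XT.lf (nat_lit 380) (nat_lit 2576790344) (nat_lit 0) (nat_lit 494701445) (nat_lit 304) (nat_lit 494701445) (nat_lit 114) (nat_lit 1) (nat_lit 109) (nat_lit 1) (nat_lit 113) (nat_lit 1) (nat_lit 410) (nat_lit 420) (nat_lit 310)) (XT.nd (nat_lit 78) (nat_lit 228) (nat_lit 0) (XT.lf (nat_lit 76) (nat_lit 807845246) (nat_lit 0) (nat_lit 1924645807) (nat_lit 380) (nat_lit 807845246) (nat_lit 110) (nat_lit 1) (nat_lit 109) (nat_lit 1) (nat_lit 114) (nat_lit 1) (nat_lit 411) (nat_lit 420) (nat_lit 309)) (XT.lf (nat_lit 304) (nat_lit 660773594) (nat_lit 0) (nat_lit 1426982247)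 (nat_lit 228) (nat_lit 1426982247) (nat_lit 110) (nat_lit 1) (nat_lit 106) (nat_lit 1) (nat_lit 109) (nat_lit 1) (nat_lit 412) (nat_lit 420) (nat_lit 308)))) (XT.nd (nat_lit 78) (nat_lit 228) (nat_lit 0) (XT.lf (nat_lit 380) (nat_lit 3211528421) (nat_lit 0) (nat_lit 138977334) (nat_lit 304) (nat_lit 138977334) (nat_lit 106) (nat_lit 1) (nat_lit 101) (nat_lit 1) (nat_lit 105) (nat_lit 1) (nat_lit 413) (nat_lit 420) (nat_lit 307)) (XT.nd (nat_lit 78) (nat_lit 228) (nat_lit 0) (XT.lf (nat_lit 76) (nat_lit 1126795255) (nat_lit 0) (nat_lit 1210631629) (nat_lit 380) (nat_lit 1126795255) (nat_lit 102) (nat_lit 1) (nat_lit 101) (nat_lit 1) (nat_lit 106) (nat_lit 1) (nat_lit 414) (nat_lit 420) (nat_lit 306)) (XT.lf (nat_lit 304) (nat_lit 1306471015) (nat_lit 0) (nat_lit 1066414658) (nat_lit 228) (nat_lit 1066414658) (nat_lit 102) (nat_lit 1) (nat_lit 98) (nat_lit 1) (nat_lit 101) (nat_lit 1) (nat_lit 415) (nat_lit 420) (nat_lit 305)))))) (XT.nd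 (nat_lit 50856) (nat_lit 0) (nat_lit 30932) (XT.nd (nat_lit 50622) (nat_lit 0) (nat_lit 30856) (XT.nd (nat_lit 78) (nat_lit 304) (nat_lit 0) (XT.lf (nat_lit 76) (nat_lit 184635181) (nat_lit 0) (nat_lit 3045427173) (nat_lit 304) (nat_lit 184635181) (nat_lit 99) (nat_lit 1) (nat_lit 98) (nat_lit 1) (nat_lit 102) (nat_lit 1) (nat_lit 416) (nat_lit 420) (nat_lit 304)) (XT.nd (nat_lit 50466) (nat_lit 0) (nat_lit 30780) (XT.lf (nat_lit 76) (nat_lit 1413995544) (nat_lit 0) (nat_lit 562119240) (nat_lit 304) (nat_lit 1413995544) (nat_lit 95) (nat_lit 1) (nat_lit 94) (nat_lit 1) (nat_lit 98) (nat_lit 1) (nat_lit 417) (nat_lit 420) (nat_lit 303)) (XT.lf (nat_lit 1900) (nat_lit 5431238189) (nat_lit 76) (nat_lit 1635521388) (nat_lit 0) (nat_lit 1635521388) (nat_lit 524) (nat_lit 1) (nat_lit 500) (nat_lit 1) (nat_lit 499) (nat_lit 1) (nat_lit 303) (nat_lit 421) (nat_lit 416)))) (XT.nd (nat_lit 78) (nat_lit 0) (nat_lit 0) (XT.lf (nat_lit 1900) (nat_lit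 2609605819) (nat_lit 0) (nat_lit 3398808164) (nat_lit 1824) (nat_lit 2609605819) (nat_lit 525) (nat_lit 1) (nat_lit 500) (nat_lit 1) (nat_lit 524) (nat_lit 1) (nat_lit 304) (nat_lit 421) (nat_lit 415)) (XT.nd (nat_lit 78) (nat_lit 0) (nat_lit 76) (XT.lf (nat_lit 1900) (nat_lit 4988981891) (nat_lit 76) (nat_lit 1772995242) (nat_lit 0) (nat_lit 1772995242) (nat_lit 525) (nat_lit 1) (nat_lit 501) (nat_lit 1) (nat_lit 500) (nat_lit 1) (nat_lit 305) (nat_lit 421) (nat_lit 414)) (XT.lf (nat_lit 1900) (nat_lit 2365113418) (nat_lit 0) (nat_lit 3722678658) (nat_lit 1824) (nat_lit 2365113418) (nat_lit 526) (nat_lit 1) (nat_lit 501) (nat_lit 1) (nat_lit 525) (nat_lit 1) (nat_lit 306) (nat_lit 421) (nat_lit 413))))) (XT.nd (nat_lit 234) (nat_lit 0) (nat_lit 152) (XT.nd (nat_lit 78) (nat_lit 0) (nat_lit 76) (XT.lf (nat_lit 1900) (nat_lit 4452054104) (nat_lit 76) (nat_lit 1959956721) (nat_lit 0) (nat_lit 1959956721) (nat_lit 526) (nat_lit 1) (nat_lit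 502) (nat_lit 1) (nat_lit 501) (nat_lit 1) (nat_lit 307) (nat_lit 421) (nat_lit 412)) (XT.nd (nat_lit 78) (nat_lit 0) (nat_lit 0) (XT.lf (nat_lit 1900) (nat_lit 2074925968) (nat_lit 0) (nat_lit 4142186566) (nat_lit 1824) (nat_lit 2074925968) (nat_lit 527) (nat_lit 1) (nat_lit 502) (nat_lit 1) (nat_lit 526) (nat_lit 1) (nat_lit 308) (nat_lit 421) (nat_lit 411)) (XT.lf (nat_lit 1900) (nat_lit 3826324076) (nat_lit 76) (nat_lit 2193409141) (nat_lit 0) (nat_lit 2193409141) (nat_lit 527) (nat_lit 1) (nat_lit 503) (nat_lit 1) (nat_lit 502) (nat_lit 1) (nat_lit 309) (nat_lit 421) (nat_lit 410)))) (XT.nd (nat_lit 78) (nat_lit 0) (nat_lit 0) (XT.lf (nat_lit 1900) (nat_lit 1741900001) (nat_lit 0) (nat_lit 4651496333) (nat_lit 1824) (nat_lit 1741900001) (nat_lit 528) (nat_lit 1) (nat_lit 503) (nat_lit 1) (nat_lit 527) (nat_lit 1) (nat_lit 310) (nat_lit 421) (nat_lit 409)) (XT.nd (nat_lit 78) (nat_lit 0) (nat_lit 76) (XT.lf (nat_lit 1900) (nat_lit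 3117390139) (nat_lit 76) (nat_lit 2470493264) (nat_lit 0) (nat_lit 2470493264) (nat_lit 528) (nat_lit 1) (nat_lit 504) (nat_lit 1) (nat_lit 503) (nat_lit 1) (nat_lit 311) (nat_lit 421) (nat_lit 408)) (XT.lf (nat_lit 1900) (nat_lit 1368759907) (nat_lit 0) (nat_lit 5245040611) (nat_lit 1824) (nat_lit 1368759907) (nat_lit 529) (nat_lit 1) (nat_lit 504) (nat_lit 1) (nat_lit 528) (nat_lit 1) (nat_lit 312) (nat_lit 421) (nat_lit 407))))))) (XT.nd (nat_lit 936) (nat_lit 5320) (nat_lit 0) (XT.nd (nat_lit 468) (nat_lit 2660) (nat_lit 0) (XT.nd (nat_lit 234) (nat_lit 0) (nat_lit 152) (XT.nd (nat_lit 78) (nat_lit 0) (nat_lit 76) (XT.lf (nat_lit 1900) (nat_lit 2330591081) (nat_lit 76) (nat_lit 2788481545) (nat_lit 0) (nat_lit 2788481545) (nat_lit 529) (nat_lit 1) (nat_lit 505) (nat_lit 1) (nat_lit 504) (nat_lit 1) (nat_lit 313) (nat_lit 421) (nat_lit 406)) (XT.nd (nat_lit 78) (nat_lit 0) (nat_lit 0) (XT.lf (nat_lit 1900) (nat_lit 958103482) (nat_lit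 0) (nat_lit 5917509028) (nat_lit 1824) (nat_lit 958103482) (nat_lit 530) (nat_lit 1) (nat_lit 505) (nat_lit 1) (nat_lit 529) (nat_lit 1) (nat_lit 314) (nat_lit 421) (nat_lit 405)) (XT.lf (nat_lit 1900) (nat_lit 1471017047) (nat_lit 76) (nat_lit 3144772611) (nat_lit 0) (nat_lit 3144772611) (nat_lit 530) (nat_lit 1) (nat_lit 506) (nat_lit 1) (nat_lit 505) (nat_lit 1) (nat_lit 315) (nat_lit 421) (nat_lit 404)))) (XT.nd (nat_lit 78) (nat_lit 0) (nat_lit 0) (XT.lf (nat_lit 1900) (nat_lit 512407254) (nat_lit 0) (nat_lit 6663837408) (nat_lit 1824) (nat_lit 512407254) (nat_lit 531) (nat_lit 1) (nat_lit 506) (nat_lit 1) (nat_lit 530) (nat_lit 1) (nat_lit 316) (nat_lit 421) (nat_lit 403)) (XT.nd (nat_lit 78) (nat_lit 0) (nat_lit 76) (XT.lf (nat_lit 1900) (nat_lit 543520003) (nat_lit 76) (nat_lit 3536885969) (nat_lit 0) (nat_lit 3536885969) (nat_lit 531) (nat_lit 1) (nat_lit 507) (nat_lit 1) (nat_lit 506) (nat_lit 1) (nat_lit 317) (nat_lit 421)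 (nat_lit 402)) (XT.lf (nat_lit 1900) (nat_lit 34031587) (nat_lit 0) (nat_lit 7479197429) (nat_lit 1824) (nat_lit 34031587) (nat_lit 532) (nat_lit 1) (nat_lit 507) (nat_lit 1) (nat_lit 531) (nat_lit 1) (nat_lit 318) (nat_lit 421) (nat_lit 401))))) (XT.nd (nat_lit 234) (nat_lit 988) (nat_lit 0) (XT.nd (nat_lit 78) (nat_lit 0) (nat_lit 0) (XT.lf (nat_lit 1976) (nat_lit 3518084717) (nat_lit 0) (nat_lit 441410107) (nat_lit 1900) (nat_lit 3518084717) (nat_lit 508) (nat_lit 1) (nat_lit 482) (nat_lit 1) (nat_lit 507) (nat_lit 1) (nat_lit 319) (nat_lit 421) (nat_lit 400)) (XT.nd (nat_lit 78) (nat_lit 0) (nat_lit 76) (XT.lf (nat_lit 1976) (nat_lit 6465888658) (nat_lit 76) (nat_lit 471650893) (nat_lit 0) (nat_lit 471650893) (nat_lit 508) (nat_lit 1) (nat_lit 483) (nat_lit 1) (nat_lit 482) (nat_lit 1) (nat_lit 320) (nat_lit 421) (nat_lit 399)) (XT.lf (nat_lit 1976) (nat_lit 2931984701) (nat_lit 0) (nat_lit 1477333291) (nat_lit 1900) (nat_lit 2931984701)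 (nat_lit 509) (nat_lit 1) (nat_lit 483) (nat_lit 1) (nat_lit 508) (nat_lit 1) (nat_lit 321) (nat_lit 421) (nat_lit 398)))) (XT.nd (nat_lit 78) (nat_lit 1064) (nat_lit 0) (XT.lf (nat_lit 1976) (nat_lit 5264133189) (nat_lit 76) (nat_lit 1005211156) (nat_lit 0) (nat_lit 1005211156) (nat_lit 509) (nat_lit 1) (nat_lit 484) (nat_lit 1) (nat_lit 483) (nat_lit 1) (nat_lit 322) (nat_lit 421) (nat_lit 397)) (XT.nd (nat_lit 78) (nat_lit 1140) (nat_lit 0) (XT.lf (nat_lit 76) (nat_lit 2320598330) (nat_lit 0) (nat_lit 2567236853) (nat_lit 1900) (nat_lit 2320598330) (nat_lit 485) (nat_lit 1) (nat_lit 484) (nat_lit 1) (nat_lit 509) (nat_lit 1) (nat_lit 323) (nat_lit 421) (nat_lit 396)) (XT.lf (nat_lit 1216) (nat_lit 4013584856) (nat_lit 0) (nat_lit 1564846003) (nat_lit 1140) (nat_lit 1564846003) (nat_lit 485) (nat_lit 1) (nat_lit 469) (nat_lit 1) (nat_lit 484) (nat_lit 1) (nat_lit 324) (nat_lit 421) (nat_lit 395)))))) (XT.nd (nat_lit 468) (nat_lit 2660)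 (nat_lit 0) (XT.nd (nat_lit 234) (nat_lit 1748) (nat_lit 0) (XT.nd (nat_lit 78) (nat_lit 912) (nat_lit 0) (XT.lf (nat_lit 76) (nat_lit 1685849567) (nat_lit 0) (nat_lit 3707177482) (nat_lit 1216) (nat_lit 1685849567) (nat_lit 470) (nat_lit 1) (nat_lit 469) (nat_lit 1) (nat_lit 485) (nat_lit 1) (nat_lit 325) (nat_lit 421) (nat_lit 394)) (XT.nd (nat_lit 78) (nat_lit 0) (nat_lit 0) (XT.lf (nat_lit 988) (nat_lit 2718010081) (nat_lit 0) (nat_lit 2148625408) (nat_lit 912) (nat_lit 2148625408) (nat_lit 470) (nat_lit 1) (nat_lit 457) (nat_lit 1) (nat_lit 469) (nat_lit 1) (nat_lit 326) (nat_lit 421) (nat_lit 393)) (XT.lf (nat_lit 76) (nat_lit 1029569196) (nat_lit 0) (nat_lit 4893401210) (nat_lit 988) (nat_lit 1029569196) (nat_lit 458) (nat_lit 1) (nat_lit 457) (nat_lit 1) (nat_lit 470) (nat_lit 1) (nat_lit 327) (nat_lit 421) (nat_lit 392)))) (XT.nd (nat_lit 78) (nat_lit 836) (nat_lit 0) (XT.lf (nat_lit 988) (nat_lit 1380992329) (nat_lit 0) (nat_lit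 2754712282) (nat_lit 912) (nat_lit 2754712282) (nat_lit 458) (nat_lit 1) (nat_lit 445) (nat_lit 1) (nat_lit 457) (nat_lit 1) (nat_lit 328) (nat_lit 421) (nat_lit 391)) (XT.nd (nat_lit 78) (nat_lit 836) (nat_lit 0) (XT.lf (nat_lit 76) (nat_lit 353498801) (nat_lit 0) (nat_lit 6122335349) (nat_lit 988) (nat_lit 353498801) (nat_lit 446) (nat_lit 1) (nat_lit 445) (nat_lit 1) (nat_lit 458) (nat_lit 1) (nat_lit 329) (nat_lit 421) (nat_lit 390)) (XT.lf (nat_lit 912) (nat_lit 5939937) (nat_lit 0) (nat_lit 3381358511) (nat_lit 836) (nat_lit 3381358511) (nat_lit 446) (nat_lit 1) (nat_lit 434) (nat_lit 1) (nat_lit 445) (nat_lit 1) (nat_lit 330) (nat_lit 421) (nat_lit 389))))) (XT.nd (nat_lit 234) (nat_lit 836) (nat_lit 0) (XT.nd (nat_lit 78) (nat_lit 836) (nat_lit 0) (XT.lf (nat_lit 988) (nat_lit 6032064489) (nat_lit 0) (nat_lit 338463935) (nat_lit 912) (nat_lit 338463935) (nat_lit 434) (nat_lit 1) (nat_lit 421) (nat_lit 1) (nat_lit 433) (nat_lit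 1) (nat_lit 331) (nat_lit 421) (nat_lit 388)) (XT.nd (nat_lit 78) (nat_lit 836) (nat_lit 0) (XT.lf (nat_lit 76) (nat_lit 2632109856) (nat_lit 0) (nat_lit 1385493902) (nat_lit 988) (nat_lit 2632109856) (nat_lit 422) (nat_lit 1) (nat_lit 421) (nat_lit 1) (nat_lit 434) (nat_lit 1) (nat_lit 332) (nat_lit 421) (nat_lit 387)) (XT.lf (nat_lit 912) (nat_lit 4502315625) (nat_lit 0) (nat_lit 1044551423) (nat_lit 836) (nat_lit 1044551423) (nat_lit 422) (nat_lit 1) (nat_lit 410) (nat_lit 1) (nat_lit 421) (nat_lit 1) (nat_lit 333) (nat_lit 421) (nat_lit 386)))) (XT.nd (nat_lit 78) (nat_lit 836) (nat_lit 0) (XT.lf (nat_lit 76) (nat_lit 1862767086) (nat_lit 0) (nat_lit 2808147555) (nat_lit 912) (nat_lit 1862767086) (nat_lit 411) (nat_lit 1) (nat_lit 410) (nat_lit 1) (nat_lit 422) (nat_lit 1) (nat_lit 334) (nat_lit 421) (nat_lit 385)) (XT.nd (nat_lit 78) (nat_lit 0) (nat_lit 0) (XT.lf (nat_lit 912) (nat_lit 2945509075) (nat_lit 0) (nat_lit 1765602878)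 (nat_lit 836) (nat_lit 1765602878) (nat_lit 411) (nat_lit 1) (nat_lit 399) (nat_lit 1) (nat_lit 410) (nat_lit 1) (nat_lit 335) (nat_lit 421) (nat_lit 384)) (XT.lf (nat_lit 76) (nat_lit 1080635952) (nat_lit 0) (nat_lit 4259210543) (nat_lit 912) (nat_lit 1080635952) (nat_lit 400) (nat_lit 1) (nat_lit 399) (nat_lit 1) (nat_lit 411) (nat_lit 1) (nat_lit 336) (nat_lit 421) (nat_lit 383))))))))
noncomputable def ec93 : XT := (XT.nd (nat_lit 1872) (nat_lit 7296) (nat_lit 0) (XT.nd (nat_lit 936) (nat_lit 4408) (nat_lit 0) (XT.nd (nat_lit 468) (nat_lit 2128) (nat_lit 0) (XT.nd (nat_lit 234) (nat_lit 1520) (nat_lit 0) (XT.nd (nat_lit 78) (nat_lit 836) (nat_lit 0) (XT.lf (nat_lit 836) (nat_lit 1364390811) (nat_lit 0) (nat_lit 2500206207) (nat_lit 760) (nat_lit 2500206207) (nat_lit 400) (nat_lit 1) (nat_lit 389) (nat_lit 1) (nat_lit 399) (nat_lit 1) (nat_lit 337) (nat_lit 421) (nat_lit 382)) (XT.nd (nat_lit 78) (nat_lit 836) (nat_lit 0) (XT.lf (nat_lit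 76) (nat_lit 287049568) (nat_lit 0) (nat_lit 5735939447) (nat_lit 836) (nat_lit 287049568) (nat_lit 390) (nat_lit 1) (nat_lit 389) (nat_lit 1) (nat_lit 400) (nat_lit 1) (nat_lit 338) (nat_lit 421) (nat_lit 381)) (XT.lf (nat_lit 76) (nat_lit 3010135447) (nat_lit 0) (nat_lit 235305973) (nat_lit 836) (nat_lit 3010135447) (nat_lit 379) (nat_lit 1) (nat_lit 378) (nat_lit 1) (nat_lit 389) (nat_lit 1) (nat_lit 339) (nat_lit 421) (nat_lit 380)))) (XT.nd (nat_lit 78) (nat_lit 760) (nat_lit 0) (XT.lf (nat_lit 836) (nat_lit 5175350811) (nat_lit 0) (nat_lit 513327598) (nat_lit 760) (nat_lit 513327598) (nat_lit 379) (nat_lit 1) (nat_lit 368) (nat_lit 1) (nat_lit 378) (nat_lit 1) (nat_lit 340) (nat_lit 421) (nat_lit 379)) (XT.nd (nat_lit 78) (nat_lit 760) (nat_lit 0) (XT.lf (nat_lit 76) (nat_lit 2156361971) (nat_lit 0) (nat_lit 1836089579) (nat_lit 836) (nat_lit 2156361971) (nat_lit 369) (nat_lit 1) (nat_lit 368) (nat_lit 1) (nat_lit 379) (nat_lit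 1) (nat_lit 341) (nat_lit 421) (nat_lit 378)) (XT.lf (nat_lit 836) (nat_lit 3454931789) (nat_lit 0) (nat_lit 1320747691) (nat_lit 760) (nat_lit 1320747691) (nat_lit 369) (nat_lit 1) (nat_lit 358) (nat_lit 1) (nat_lit 368) (nat_lit 1) (nat_lit 342) (nat_lit 421) (nat_lit 377))))) (XT.nd (nat_lit 234) (nat_lit 1444) (nat_lit 0) (XT.nd (nat_lit 78) (nat_lit 684) (nat_lit 0) (XT.lf (nat_lit 76) (nat_lit 1295539373) (nat_lit 0) (nat_lit 3453540623) (nat_lit 836) (nat_lit 1295539373) (nat_lit 359) (nat_lit 1) (nat_lit 358) (nat_lit 1) (nat_lit 369) (nat_lit 1) (nat_lit 343) (nat_lit 421) (nat_lit 376)) (XT.nd (nat_lit 78) (nat_lit 0) (nat_lit 0) (XT.lf (nat_lit 760) (nat_lit 1721443337) (nat_lit 0) (nat_lit 2135969284) (nat_lit 684) (nat_lit 2135969284) (nat_lit 359) (nat_lit 1) (nat_lit 349) (nat_lit 1) (nat_lit 358) (nat_lit 1) (nat_lit 344) (nat_lit 421) (nat_lit 375)) (XT.lf (nat_lit 76) (nat_lit 428729657) (nat_lit 0) (nat_lit 5085466245)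 (nat_lit 760) (nat_lit 428729657) (nat_lit 350) (nat_lit 1) (nat_lit 349) (nat_lit 1) (nat_lit 359) (nat_lit 1) (nat_lit 345) (nat_lit 421) (nat_lit 374)))) (XT.nd (nat_lit 78) (nat_lit 684) (nat_lit 0) (XT.lf (nat_lit 76) (nat_lit 2935030437) (nat_lit 0) (nat_lit 22738672) (nat_lit 760) (nat_lit 2935030437) (nat_lit 340) (nat_lit 1) (nat_lit 339) (nat_lit 1) (nat_lit 349) (nat_lit 1) (nat_lit 346) (nat_lit 421) (nat_lit 373)) (XT.nd (nat_lit 78) (nat_lit 0) (nat_lit 0) (XT.lf (nat_lit 760) (nat_lit 4963140435) (nat_lit 0) (nat_lit 440146985) (nat_lit 684) (nat_lit 440146985) (nat_lit 340) (nat_lit 1) (nat_lit 330) (nat_lit 1) (nat_lit 339) (nat_lit 1) (nat_lit 347) (nat_lit 421) (nat_lit 372)) (XT.lf (nat_lit 76) (nat_lit 2020567135) (nat_lit 0) (nat_lit 1753258460) (nat_lit 760) (nat_lit 2020567135) (nat_lit 331) (nat_lit 1) (nat_lit 330) (nat_lit 1) (nat_lit 340) (nat_lit 1) (nat_lit 348) (nat_lit 421) (nat_lit 371)))))) (XT.nd (nat_lit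 468) (nat_lit 1824) (nat_lit 0) (XT.nd (nat_lit 234) (nat_lit 1292) (nat_lit 0) (XT.nd (nat_lit 78) (nat_lit 608) (nat_lit 0) (XT.lf (nat_lit 760) (nat_lit 3125672062) (nat_lit 0) (nat_lit 1310207212) (nat_lit 684) (nat_lit 1310207212) (nat_lit 331) (nat_lit 1) (nat_lit 321) (nat_lit 1) (nat_lit 330) (nat_lit 1) (nat_lit 349) (nat_lit 421) (nat_lit 370)) (XT.nd (nat_lit 78) (nat_lit 608) (nat_lit 0) (XT.lf (nat_lit 76) (nat_lit 1103730139) (nat_lit 0) (nat_lit 3490861268) (nat_lit 760) (nat_lit 1103730139) (nat_lit 322) (nat_lit 1) (nat_lit 321) (nat_lit 1) (nat_lit 331) (nat_lit 1) (nat_lit 350) (nat_lit 421) (nat_lit 369)) (XT.lf (nat_lit 684) (nat_lit 1284286456) (nat_lit 0) (nat_lit 2183378200) (nat_lit 608) (nat_lit 2183378200) (nat_lit 322) (nat_lit 1) (nat_lit 313) (nat_lit 1) (nat_lit 321) (nat_lit 1) (nat_lit 351) (nat_lit 421) (nat_lit 368)))) (XT.nd (nat_lit 78) (nat_lit 1292) (nat_lit 0) (XT.lf (nat_lit 76) (nat_lit 185354436)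 (nat_lit 0) (nat_lit 5233815559) (nat_lit 684) (nat_lit 185354436) (nat_lit 314) (nat_lit 1) (nat_lit 313) (nat_lit 1) (nat_lit 322) (nat_lit 1) (nat_lit 352) (nat_lit 421) (nat_lit 367)) (XT.nd (nat_lit 78) (nat_lit 608) (nat_lit 0) (XT.lf (nat_lit 76) (nat_lit 2503059196) (nat_lit 0) (nat_lit 552051943) (nat_lit 684) (nat_lit 2503059196) (nat_lit 305) (nat_lit 1) (nat_lit 304) (nat_lit 1) (nat_lit 313) (nat_lit 1) (nat_lit 353) (nat_lit 421) (nat_lit 366)) (XT.lf (nat_lit 684) (nat_lit 4054670163) (nat_lit 0) (nat_lit 728944531) (nat_lit 608) (nat_lit 728944531) (nat_lit 305) (nat_lit 1) (nat_lit 296) (nat_lit 1) (nat_lit 304) (nat_lit 1) (nat_lit 354) (nat_lit 421) (nat_lit 365))))) (XT.nd (nat_lit 234) (nat_lit 1216) (nat_lit 0) (XT.nd (nat_lit 78) (nat_lit 608) (nat_lit 0) (XT.lf (nat_lit 76) (nat_lit 1547512830) (nat_lit 0) (nat_lit 2372290278) (nat_lit 684) (nat_lit 1547512830) (nat_lit 297) (nat_lit 1) (nat_lit 296) (nat_lit 1)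 (nat_lit 305) (nat_lit 1) (nat_lit 355) (nat_lit 421) (nat_lit 364)) (XT.nd (nat_lit 78) (nat_lit 0) (nat_lit 0) (XT.lf (nat_lit 684) (nat_lit 2138590545) (nat_lit 0) (nat_lit 1642031604) (nat_lit 608) (nat_lit 1642031604) (nat_lit 297) (nat_lit 1) (nat_lit 288) (nat_lit 1) (nat_lit 296) (nat_lit 1) (nat_lit 356) (nat_lit 421) (nat_lit 363)) (XT.lf (nat_lit 76) (nat_lit 593373103) (nat_lit 0) (nat_lit 4191843385) (nat_lit 684) (nat_lit 593373103) (nat_lit 289) (nat_lit 1) (nat_lit 288) (nat_lit 1) (nat_lit 297) (nat_lit 1) (nat_lit 357) (nat_lit 421) (nat_lit 362)))) (XT.nd (nat_lit 78) (nat_lit 684) (nat_lit 0) (XT.lf (nat_lit 608) (nat_lit 225987567) (nat_lit 0) (nat_lit 2554430562) (nat_lit 532) (nat_lit 2554430562) (nat_lit 289) (nat_lit 1) (nat_lit 281) (nat_lit 1) (nat_lit 288) (nat_lit 1) (nat_lit 358) (nat_lit 421) (nat_lit 361)) (XT.nd (nat_lit 78) (nat_lit 0) (nat_lit 0) (XT.lf (nat_lit 684) (nat_lit 4579039820) (nat_lit 0)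 (nat_lit 356354672) (nat_lit 608) (nat_lit 356354672) (nat_lit 281) (nat_lit 1) (nat_lit 272) (nat_lit 1) (nat_lit 280) (nat_lit 1) (nat_lit 359) (nat_lit 421) (nat_lit 360)) (XT.lf (nat_lit 76) (nat_lit 1794523253) (nat_lit 0) (nat_lit 1659824847) (nat_lit 684) (nat_lit 1794523253) (nat_lit 273) (nat_lit 1) (nat_lit 272) (nat_lit 1) (nat_lit 281) (nat_lit 1) (nat_lit 360) (nat_lit 421) (nat_lit 359))))))) (XT.nd (nat_lit 936) (nat_lit 3572) (nat_lit 0) (XT.nd (nat_lit 468) (nat_lit 1520) (nat_lit 0) (XT.nd (nat_lit 234) (nat_lit 1140) (nat_lit 0) (XT.nd (nat_lit 78) (nat_lit 532) (nat_lit 0) (XT.lf (nat_lit 608) (nat_lit 2607544926) (nat_lit 0) (nat_lit 1299537620) (nat_lit 532) (nat_lit 1299537620) (nat_lit 273) (nat_lit 1) (nat_lit 265) (nat_lit 1) (nat_lit 272) (nat_lit 1) (nat_lit 361) (nat_lit 421) (nat_lit 358)) (XT.nd (nat_lit 78) (nat_lit 532) (nat_lit 0) (XT.lf (nat_lit 76) (nat_lit 814009982) (nat_lit 0) (nat_lit 3536838872)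 (nat_lit 608) (nat_lit 814009982) (nat_lit 266) (nat_lit 1) (nat_lit 265) (nat_lit 1) (nat_lit 273) (nat_lit 1) (nat_lit 362) (nat_lit 421) (nat_lit 357)) (XT.lf (nat_lit 608) (nat_lit 644432699) (nat_lit 0) (nat_lit 2239513705) (nat_lit 532) (nat_lit 2239513705) (nat_lit 266) (nat_lit 1) (nat_lit 258) (nat_lit 1) (nat_lit 265) (nat_lit 1) (nat_lit 363) (nat_lit 421) (nat_lit 356)))) (XT.nd (nat_lit 78) (nat_lit 532) (nat_lit 0) (XT.lf (nat_lit 608) (nat_lit 4760701145) (nat_lit 0) (nat_lit 161001915) (nat_lit 532) (nat_lit 161001915) (nat_lit 258) (nat_lit 1) (nat_lit 250) (nat_lit 1) (nat_lit 257) (nat_lit 1) (nat_lit 364) (nat_lit 421) (nat_lit 355)) (XT.nd (nat_lit 78) (nat_lit 532) (nat_lit 0) (XT.lf (nat_lit 76) (nat_lit 1874967301) (nat_lit 0) (nat_lit 1292114128) (nat_lit 608) (nat_lit 1874967301) (nat_lit 251) (nat_lit 1) (nat_lit 250) (nat_lit 1) (nat_lit 258) (nat_lit 1) (nat_lit 365) (nat_lit 421) (nat_lit 354)) (XT.lf (nat_lit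 608) (nat_lit 2750486260) (nat_lit 0) (nat_lit 1125768362) (nat_lit 532) (nat_lit 1125768362) (nat_lit 251) (nat_lit 1) (nat_lit 243) (nat_lit 1) (nat_lit 250) (nat_lit 1) (nat_lit 366) (nat_lit 421) (nat_lit 353))))) (XT.nd (nat_lit 234) (nat_lit 456) (nat_lit 0) (XT.nd (nat_lit 78) (nat_lit 1064) (nat_lit 0) (XT.lf (nat_lit 76) (nat_lit 876209901) (nat_lit 0) (nat_lit 3210005093) (nat_lit 608) (nat_lit 876209901) (nat_lit 244) (nat_lit 1) (nat_lit 243) (nat_lit 1) (nat_lit 251) (nat_lit 1) (nat_lit 367) (nat_lit 421) (nat_lit 352)) (XT.nd (nat_lit 78) (nat_lit 608) (nat_lit 0) (XT.lf (nat_lit 532) (nat_lit 752804822) (nat_lit 0) (nat_lit 2085192166) (nat_lit 456) (nat_lit 2085192166) (nat_lit 244) (nat_lit 1) (nat_lit 237) (nat_lit 1) (nat_lit 243) (nat_lit 1) (nat_lit 368) (nat_lit 421) (nat_lit 351)) (XT.lf (nat_lit 608) (nat_lit 4653896756) (nat_lit 0) (nat_lit 115333862) (nat_lit 532) (nat_lit 115333862) (nat_lit 237) (nat_lit 1)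 (nat_lit 229) (nat_lit 1) (nat_lit 236) (nat_lit 1) (nat_lit 369) (nat_lit 421) (nat_lit 350)))) (XT.nd (nat_lit 78) (nat_lit 456) (nat_lit 0) (XT.lf (nat_lit 76) (nat_lit 1815301945) (nat_lit 0) (nat_lit 1215393104) (nat_lit 608) (nat_lit 1815301945) (nat_lit 230) (nat_lit 1) (nat_lit 229) (nat_lit 1) (nat_lit 237) (nat_lit 1) (nat_lit 370) (nat_lit 421) (nat_lit 349)) (XT.nd (nat_lit 78) (nat_lit 0) (nat_lit 0) (XT.lf (nat_lit 532) (nat_lit 2619379583) (nat_lit 0) (nat_lit 1094324682) (nat_lit 456) (nat_lit 1094324682) (nat_lit 230) (nat_lit 1) (nat_lit 223) (nat_lit 1) (nat_lit 229) (nat_lit 1) (nat_lit 371) (nat_lit 421) (nat_lit 348)) (XT.lf (nat_lit 76) (nat_lit 805318159) (nat_lit 0) (nat_lit 3159828919) (nat_lit 532) (nat_lit 805318159) (nat_lit 224) (nat_lit 1) (nat_lit 223) (nat_lit 1) (nat_lit 230) (nat_lit 1) (nat_lit 372) (nat_lit 421) (nat_lit 347)))))) (XT.nd (nat_lit 468) (nat_lit 1748) (nat_lit 0) (XT.nd (nat_lit 234)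 (nat_lit 836) (nat_lit 0) (XT.nd (nat_lit 78) (nat_lit 532) (nat_lit 0) (XT.lf (nat_lit 532) (nat_lit 600883986) (nat_lit 0) (nat_lit 2066173235) (nat_lit 456) (nat_lit 2066173235) (nat_lit 224) (nat_lit 1) (nat_lit 217) (nat_lit 1) (nat_lit 223) (nat_lit 1) (nat_lit 373) (nat_lit 421) (nat_lit 346)) (XT.nd (nat_lit 78) (nat_lit 0) (nat_lit 0) (XT.lf (nat_lit 532) (nat_lit 4306082525) (nat_lit 0) (nat_lit 195231399) (nat_lit 456) (nat_lit 195231399) (nat_lit 217) (nat_lit 1) (nat_lit 210) (nat_lit 1) (nat_lit 216) (nat_lit 1) (nat_lit 374) (nat_lit 421) (nat_lit 345)) (XT.lf (nat_lit 76) (nat_lit 1638670336) (nat_lit 0) (nat_lit 1382603177) (nat_lit 532) (nat_lit 1638670336) (nat_lit 211) (nat_lit 1) (nat_lit 210) (nat_lit 1) (nat_lit 217) (nat_lit 1) (nat_lit 375) (nat_lit 421) (nat_lit 344)))) (XT.nd (nat_lit 78) (nat_lit 380) (nat_lit 0) (XT.lf (nat_lit 532) (nat_lit 2259674156) (nat_lit 0) (nat_lit 1182103771) (nat_lit 456) (nat_lit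 1182103771) (nat_lit 211) (nat_lit 1) (nat_lit 204) (nat_lit 1) (nat_lit 210) (nat_lit 1) (nat_lit 376) (nat_lit 421) (nat_lit 343)) (XT.nd (nat_lit 78) (nat_lit 380) (nat_lit 0) (XT.lf (nat_lit 76) (nat_lit 623498577) (nat_lit 0) (nat_lit 3341236066) (nat_lit 532) (nat_lit 623498577) (nat_lit 205) (nat_lit 1) (nat_lit 204) (nat_lit 1) (nat_lit 211) (nat_lit 1) (nat_lit 377) (nat_lit 421) (nat_lit 342)) (XT.lf (nat_lit 456) (nat_lit 232194749) (nat_lit 0) (nat_lit 2160328984) (nat_lit 380) (nat_lit 2160328984) (nat_lit 205) (nat_lit 1) (nat_lit 199) (nat_lit 1) (nat_lit 204) (nat_lit 1) (nat_lit 378) (nat_lit 421) (nat_lit 341))))) (XT.nd (nat_lit 234) (nat_lit 836) (nat_lit 0) (XT.nd (nat_lit 78) (nat_lit 380) (nat_lit 0) (XT.lf (nat_lit 532) (nat_lit 3758717313) (nat_lit 0) (nat_lit 379609670) (nat_lit 456) (nat_lit 379609670) (nat_lit 199) (nat_lit 1) (nat_lit 192) (nat_lit 1) (nat_lit 198) (nat_lit 1) (nat_lit 379) (nat_lit 421) (nat_lit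 340)) (XT.nd (nat_lit 78) (nat_lit 380) (nat_lit 0) (XT.lf (nat_lit 76) (nat_lit 1365287557) (nat_lit 0) (nat_lit 1752612459) (nat_lit 532) (nat_lit 1365287557) (nat_lit 193) (nat_lit 1) (nat_lit 192) (nat_lit 1) (nat_lit 199) (nat_lit 1) (nat_lit 380) (nat_lit 421) (nat_lit 339)) (XT.lf (nat_lit 456) (nat_lit 1711062224) (nat_lit 0) (nat_lit 1368915771) (nat_lit 380) (nat_lit 1368915771) (nat_lit 193) (nat_lit 1) (nat_lit 187) (nat_lit 1) (nat_lit 192) (nat_lit 1) (nat_lit 381) (nat_lit 421) (nat_lit 338)))) (XT.nd (nat_lit 156) (nat_lit 380) (nat_lit 0) (XT.nd (nat_lit 78) (nat_lit 456) (nat_lit 0) (XT.lf (nat_lit 76) (nat_lit 350104121) (nat_lit 0) (nat_lit 3714841954) (nat_lit 456) (nat_lit 350104121) (nat_lit 188) (nat_lit 1) (nat_lit 187) (nat_lit 1) (nat_lit 193) (nat_lit 1) (nat_lit 382) (nat_lit 421) (nat_lit 337)) (XT.lf (nat_lit 76) (nat_lit 2035110007) (nat_lit 0) (nat_lit 311130065) (nat_lit 456) (nat_lit 2035110007) (nat_lit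 182) (nat_lit 1) (nat_lit 181) (nat_lit 1) (nat_lit 187) (nat_lit 1) (nat_lit 383) (nat_lit 421) (nat_lit 336))) (XT.nd (nat_lit 78) (nat_lit 0) (nat_lit 0) (XT.lf (nat_lit 456) (nat_lit 3047963055) (nat_lit 0) (nat_lit 650064338) (nat_lit 380) (nat_lit 650064338) (nat_lit 182) (nat_lit 1) (nat_lit 176) (nat_lit 1) (nat_lit 181) (nat_lit 1) (nat_lit 384) (nat_lit 421) (nat_lit 335)) (XT.lf (nat_lit 76) (nat_lit 1012782582) (nat_lit 0) (nat_lit 2289524557) (nat_lit 456) (nat_lit 1012782582) (nat_lit 177) (nat_lit 1) (nat_lit 176) (nat_lit 1) (nat_lit 182) (nat_lit 1) (nat_lit 385) (nat_lit 421) (nat_lit 334))))))))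
noncomputable def ec94 : XT := (XT.nd (nat_lit 1872) (nat_lit 1368) (nat_lit 0) (XT.nd (nat_lit 936) (nat_lit 2204) (nat_lit 0) (XT.nd (nat_lit 468) (nat_lit 1444) (nat_lit 0) (XT.nd (nat_lit 234) (nat_lit 684) (nat_lit 0) (XT.nd (nat_lit 78) (nat_lit 380) (nat_lit 0) (XT.lf (nat_lit 456) (nat_lit 1008151628) (nat_lit 0) (nat_lit 1637143916) (nat_lit 380) (nat_lit 1637143916) (nat_lit 177) (nat_lit 1) (nat_lit 171) (nat_lit 1) (nat_lit 176) (nat_lit 1) (nat_lit 386) (nat_lit 421) (nat_lit 333)) (XT.nd (nat_lit 78) (nat_lit 380) (nat_lit 0) (XT.lf (nat_lit 76) (nat_lit 2005438) (nat_lit 0) (nat_lit 4246287615) (nat_lit 456) (nat_lit 2005438) (nat_lit 172) (nat_lit 1) (nat_lit 171) (nat_lit 1) (nat_lit 177) (nat_lit 1) (nat_lit 387) (nat_lit 421) (nat_lit 332)) (XT.lf (nat_lit 76) (nat_lit 1611478566) (nat_lit 0) (nat_lit 995151897) (nat_lit 380) (nat_lit 1611478566) (nat_lit 167) (nat_lit 1) (nat_lit 166) (nat_lit 1) (nat_lit 171) (nat_lit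 1) (nat_lit 388) (nat_lit 421) (nat_lit 331)))) (XT.nd (nat_lit 78) (nat_lit 304) (nat_lit 0) (XT.lf (nat_lit 456) (nat_lit 2205305281) (nat_lit 0) (nat_lit 990558026) (nat_lit 380) (nat_lit 990558026) (nat_lit 167) (nat_lit 1) (nat_lit 161) (nat_lit 1) (nat_lit 166) (nat_lit 1) (nat_lit 389) (nat_lit 421) (nat_lit 330)) (XT.nd (nat_lit 78) (nat_lit 304) (nat_lit 0) (XT.lf (nat_lit 76) (nat_lit 596501358) (nat_lit 0) (nat_lit 2962065884) (nat_lit 456) (nat_lit 596501358) (nat_lit 162) (nat_lit 1) (nat_lit 161) (nat_lit 1) (nat_lit 167) (nat_lit 1) (nat_lit 390) (nat_lit 421) (nat_lit 329)) (XT.lf (nat_lit 380) (nat_lit 181061947) (nat_lit 0) (nat_lit 1971443288) (nat_lit 304) (nat_lit 1971443288) (nat_lit 162) (nat_lit 1) (nat_lit 157) (nat_lit 1) (nat_lit 161) (nat_lit 1) (nat_lit 391) (nat_lit 421) (nat_lit 328))))) (XT.nd (nat_lit 234) (nat_lit 684) (nat_lit 0) (XT.nd (nat_lit 78) (nat_lit 304) (nat_lit 0) (XT.lf (nat_lit 456) (nat_lit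 3286311207) (nat_lit 0) (nat_lit 403446137) (nat_lit 380) (nat_lit 403446137) (nat_lit 157) (nat_lit 1) (nat_lit 151) (nat_lit 1) (nat_lit 156) (nat_lit 1) (nat_lit 392) (nat_lit 421) (nat_lit 327)) (XT.nd (nat_lit 78) (nat_lit 304) (nat_lit 0) (XT.lf (nat_lit 76) (nat_lit 1134063917) (nat_lit 0) (nat_lit 1794483659) (nat_lit 456) (nat_lit 1134063917) (nat_lit 152) (nat_lit 1) (nat_lit 151) (nat_lit 1) (nat_lit 157) (nat_lit 1) (nat_lit 393) (nat_lit 421) (nat_lit 326)) (XT.lf (nat_lit 380) (nat_lit 1258103030) (nat_lit 0) (nat_lit 1387142417) (nat_lit 304) (nat_lit 1387142417) (nat_lit 152) (nat_lit 1) (nat_lit 147) (nat_lit 1) (nat_lit 151) (nat_lit 1) (nat_lit 394) (nat_lit 421) (nat_lit 325)))) (XT.nd (nat_lit 78) (nat_lit 684) (nat_lit 0) (XT.lf (nat_lit 76) (nat_lit 129775412) (nat_lit 0) (nat_lit 3743042660) (nat_lit 380) (nat_lit 129775412) (nat_lit 148) (nat_lit 1) (nat_lit 147) (nat_lit 1) (nat_lit 152) (nat_lit 1) (nat_lit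 395) (nat_lit 421) (nat_lit 324)) (XT.nd (nat_lit 78) (nat_lit 304) (nat_lit 0) (XT.lf (nat_lit 76) (nat_lit 1619257475) (nat_lit 0) (nat_lit 734288893) (nat_lit 380) (nat_lit 1619257475) (nat_lit 143) (nat_lit 1) (nat_lit 142) (nat_lit 1) (nat_lit 147) (nat_lit 1) (nat_lit 396) (nat_lit 421) (nat_lit 323)) (XT.lf (nat_lit 380) (nat_lit 2231733688) (nat_lit 0) (nat_lit 855851797) (nat_lit 304) (nat_lit 855851797) (nat_lit 143) (nat_lit 1) (nat_lit 138) (nat_lit 1) (nat_lit 142) (nat_lit 1) (nat_lit 397) (nat_lit 421) (nat_lit 322)))))) (XT.nd (nat_lit 468) (nat_lit 1216) (nat_lit 0) (XT.nd (nat_lit 234) (nat_lit 304) (nat_lit 0) (XT.nd (nat_lit 78) (nat_lit 684) (nat_lit 0) (XT.lf (nat_lit 76) (nat_lit 614956771) (nat_lit 0) (nat_lit 2684443197) (nat_lit 380) (nat_lit 614956771) (nat_lit 139) (nat_lit 1) (nat_lit 138) (nat_lit 1) (nat_lit 143) (nat_lit 1) (nat_lit 398) (nat_lit 421) (nat_lit 321)) (XT.nd (nat_lit 78) (nat_lit 380) (nat_lit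 0) (XT.lf (nat_lit 380) (nat_lit 230076119) (nat_lit 0) (nat_lit 1827711997) (nat_lit 304) (nat_lit 1827711997) (nat_lit 139) (nat_lit 1) (nat_lit 134) (nat_lit 1) (nat_lit 138) (nat_lit 1) (nat_lit 399) (nat_lit 421) (nat_lit 320)) (XT.lf (nat_lit 380) (nat_lit 3110248488) (nat_lit 0) (nat_lit 373367533) (nat_lit 304) (nat_lit 373367533) (nat_lit 134) (nat_lit 1) (nat_lit 129) (nat_lit 1) (nat_lit 133) (nat_lit 1) (nat_lit 400) (nat_lit 421) (nat_lit 319)))) (XT.nd (nat_lit 78) (nat_lit 304) (nat_lit 0) (XT.lf (nat_lit 76) (nat_lit 1053482207) (nat_lit 0) (nat_lit 1721628565) (nat_lit 380) (nat_lit 1053482207) (nat_lit 130) (nat_lit 1) (nat_lit 129) (nat_lit 1) (nat_lit 134) (nat_lit 1) (nat_lit 401) (nat_lit 421) (nat_lit 318)) (XT.nd (nat_lit 78) (nat_lit 0) (nat_lit 0) (XT.lf (nat_lit 380) (nat_lit 1112026072) (nat_lit 0) (nat_lit 1344255460) (nat_lit 304) (nat_lit 1344255460) (nat_lit 130) (nat_lit 1) (nat_lit 125) (nat_lit 1) (nat_lit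 129) (nat_lit 1) (nat_lit 402) (nat_lit 421) (nat_lit 317)) (XT.lf (nat_lit 76) (nat_lit 64615957) (nat_lit 0) (nat_lit 3643654808) (nat_lit 380) (nat_lit 64615957) (nat_lit 126) (nat_lit 1) (nat_lit 125) (nat_lit 1) (nat_lit 130) (nat_lit 1) (nat_lit 403) (nat_lit 421) (nat_lit 316))))) (XT.nd (nat_lit 234) (nat_lit 608) (nat_lit 0) (XT.nd (nat_lit 78) (nat_lit 304) (nat_lit 0) (XT.lf (nat_lit 76) (nat_lit 1449095116) (nat_lit 0) (nat_lit 847006906) (nat_lit 304) (nat_lit 1449095116) (nat_lit 122) (nat_lit 1) (nat_lit 121) (nat_lit 1) (nat_lit 125) (nat_lit 1) (nat_lit 404) (nat_lit 421) (nat_lit 315)) (XT.nd (nat_lit 78) (nat_lit 0) (nat_lit 0) (XT.lf (nat_lit 380) (nat_lit 1909174810) (nat_lit 0) (nat_lit 904366700) (nat_lit 304) (nat_lit 904366700) (nat_lit 122) (nat_lit 1) (nat_lit 117) (nat_lit 1) (nat_lit 121) (nat_lit 1) (nat_lit 405) (nat_lit 421) (nat_lit 314)) (XT.lf (nat_lit 76) (nat_lit 463454152) (nat_lit 0) (nat_lit 2763998143)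 (nat_lit 380) (nat_lit 463454152) (nat_lit 118) (nat_lit 1) (nat_lit 117) (nat_lit 1) (nat_lit 122) (nat_lit 1) (nat_lit 406) (nat_lit 421) (nat_lit 313)))) (XT.nd (nat_lit 78) (nat_lit 304) (nat_lit 0) (XT.lf (nat_lit 76) (nat_lit 1805250090) (nat_lit 0) (nat_lit 53570349) (nat_lit 304) (nat_lit 1805250090) (nat_lit 114) (nat_lit 1) (nat_lit 113) (nat_lit 1) (nat_lit 117) (nat_lit 1) (nat_lit 407) (nat_lit 421) (nat_lit 312)) (XT.nd (nat_lit 78) (nat_lit 0) (nat_lit 0) (XT.lf (nat_lit 380) (nat_lit 2628326151) (nat_lit 0) (nat_lit 504595473) (nat_lit 304) (nat_lit 504595473) (nat_lit 114) (nat_lit 1) (nat_lit 109) (nat_lit 1) (nat_lit 113) (nat_lit 1) (nat_lit 408) (nat_lit 421) (nat_lit 311)) (XT.lf (nat_lit 76) (nat_lit 824002151) (nat_lit 0) (nat_lit 1963138724) (nat_lit 380) (nat_lit 824002151) (nat_lit 110) (nat_lit 1) (nat_lit 109) (nat_lit 1) (nat_lit 114) (nat_lit 1) (nat_lit 409) (nat_lit 421) (nat_lit 310))))))) (XT.nd (nat_lit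 51402) (nat_lit 0) (nat_lit 29716) (XT.nd (nat_lit 468) (nat_lit 228) (nat_lit 0) (XT.nd (nat_lit 234) (nat_lit 532) (nat_lit 0) (XT.nd (nat_lit 78) (nat_lit 380) (nat_lit 0) (XT.lf (nat_lit 304) (nat_lit 673989065) (nat_lit 0) (nat_lit 1455521892) (nat_lit 228) (nat_lit 1455521892) (nat_lit 110) (nat_lit 1) (nat_lit 106) (nat_lit 1) (nat_lit 109) (nat_lit 1) (nat_lit 410) (nat_lit 421) (nat_lit 309)) (XT.nd (nat_lit 78) (nat_lit 0) (nat_lit 0) (XT.lf (nat_lit 380) (nat_lit 3275758990) (nat_lit 0) (nat_lit 141756881) (nat_lit 304) (nat_lit 141756881) (nat_lit 106) (nat_lit 1) (nat_lit 101) (nat_lit 1) (nat_lit 105) (nat_lit 1) (nat_lit 411) (nat_lit 421) (nat_lit 308)) (XT.lf (nat_lit 76) (nat_lit 1149331160) (nat_lit 0) (nat_lit 1234844261) (nat_lit 380) (nat_lit 1149331160) (nat_lit 102) (nat_lit 1) (nat_lit 101) (nat_lit 1) (nat_lit 106) (nat_lit 1) (nat_lit 412) (nat_lit 421) (nat_lit 307)))) (XT.nd (nat_lit 78) (nat_lit 304) (nat_lit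 0) (XT.lf (nat_lit 304) (nat_lit 1332600435) (nat_lit 0) (nat_lit 1087742951) (nat_lit 228) (nat_lit 1087742951) (nat_lit 102) (nat_lit 1) (nat_lit 98) (nat_lit 1) (nat_lit 101) (nat_lit 1) (nat_lit 413) (nat_lit 421) (nat_lit 306)) (XT.nd (nat_lit 78) (nat_lit 304) (nat_lit 0) (XT.lf (nat_lit 76) (nat_lit 188327885) (nat_lit 0) (nat_lit 3106335716) (nat_lit 304) (nat_lit 188327885) (nat_lit 99) (nat_lit 1) (nat_lit 98) (nat_lit 1) (nat_lit 102) (nat_lit 1) (nat_lit 414) (nat_lit 421) (nat_lit 305)) (XT.lf (nat_lit 76) (nat_lit 1442275455) (nat_lit 0) (nat_lit 573361625) (nat_lit 304) (nat_lit 1442275455) (nat_lit 95) (nat_lit 1) (nat_lit 94) (nat_lit 1) (nat_lit 98) (nat_lit 1) (nat_lit 415) (nat_lit 421) (nat_lit 304))))) (XT.nd (nat_lit 50700) (nat_lit 0) (nat_lit 31160) (XT.nd (nat_lit 50544) (nat_lit 0) (nat_lit 31084) (XT.lf (nat_lit 304) (nat_lit 1927135169) (nat_lit 0) (nat_lit 753009986) (nat_lit 228) (nat_lit 753009986) (nat_lit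 95) (nat_lit 1) (nat_lit 91) (nat_lit 1) (nat_lit 94) (nat_lit 1) (nat_lit 416) (nat_lit 421) (nat_lit 303)) (XT.nd (nat_lit 78) (nat_lit 0) (nat_lit 76) (XT.lf (nat_lit 1900) (nat_lit 5088761529) (nat_lit 76) (nat_lit 1808455147) (nat_lit 0) (nat_lit 1808455147) (nat_lit 525) (nat_lit 1) (nat_lit 501) (nat_lit 1) (nat_lit 500) (nat_lit 1) (nat_lit 303) (nat_lit 422) (nat_lit 415)) (XT.lf (nat_lit 1900) (nat_lit 2412415687) (nat_lit 0) (nat_lit 3797132231) (nat_lit 1824) (nat_lit 2412415687) (nat_lit 526) (nat_lit 1) (nat_lit 501) (nat_lit 1) (nat_lit 525) (nat_lit 1) (nat_lit 304) (nat_lit 422) (nat_lit 414)))) (XT.nd (nat_lit 78) (nat_lit 0) (nat_lit 76) (XT.lf (nat_lit 1900) (nat_lit 4541095187) (nat_lit 76) (nat_lit 1999155855) (nat_lit 0) (nat_lit 1999155855) (nat_lit 526) (nat_lit 1) (nat_lit 502) (nat_lit 1) (nat_lit 501) (nat_lit 1) (nat_lit 305) (nat_lit 422) (nat_lit 413)) (XT.nd (nat_lit 78) (nat_lit 0) (nat_lit 0) (XT.lf (nat_lit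 1900) (nat_lit 2116424488) (nat_lit 0) (nat_lit 4225030297) (nat_lit 1824) (nat_lit 2116424488) (nat_lit 527) (nat_lit 1) (nat_lit 502) (nat_lit 1) (nat_lit 526) (nat_lit 1) (nat_lit 306) (nat_lit 422) (nat_lit 412)) (XT.lf (nat_lit 1900) (nat_lit 3902850557) (nat_lit 76) (nat_lit 2237277324) (nat_lit 0) (nat_lit 2237277324) (nat_lit 527) (nat_lit 1) (nat_lit 503) (nat_lit 1) (nat_lit 502) (nat_lit 1) (nat_lit 307) (nat_lit 422) (nat_lit 411)))))) (XT.nd (nat_lit 468) (nat_lit 1596) (nat_lit 0) (XT.nd (nat_lit 234) (nat_lit 0) (nat_lit 76) (XT.nd (nat_lit 78) (nat_lit 0) (nat_lit 0) (XT.lf (nat_lit 1900) (nat_lit 1776738001) (nat_lit 0) (nat_lit 4744526260) (nat_lit 1824) (nat_lit 1776738001) (nat_lit 528) (nat_lit 1) (nat_lit 503) (nat_lit 1) (nat_lit 527) (nat_lit 1) (nat_lit 308) (nat_lit 422) (nat_lit 410)) (XT.nd (nat_lit 78) (nat_lit 0) (nat_lit 76) (XT.lf (nat_lit 1900) (nat_lit 3179737942) (nat_lit 76) (nat_lit 2519903129) (nat_lit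 0) (nat_lit 2519903129) (nat_lit 528) (nat_lit 1) (nat_lit 504) (nat_lit 1) (nat_lit 503) (nat_lit 1) (nat_lit 309) (nat_lit 422) (nat_lit 409)) (XT.lf (nat_lit 1900) (nat_lit 1396135105) (nat_lit 0) (nat_lit 5349941423) (nat_lit 1824) (nat_lit 1396135105) (nat_lit 529) (nat_lit 1) (nat_lit 504) (nat_lit 1) (nat_lit 528) (nat_lit 1) (nat_lit 310) (nat_lit 422) (nat_lit 408)))) (XT.nd (nat_lit 78) (nat_lit 0) (nat_lit 76) (XT.lf (nat_lit 1900) (nat_lit 2377202903) (nat_lit 76) (nat_lit 2844251175) (nat_lit 0) (nat_lit 2844251175) (nat_lit 529) (nat_lit 1) (nat_lit 505) (nat_lit 1) (nat_lit 504) (nat_lit 1) (nat_lit 311) (nat_lit 422) (nat_lit 407)) (XT.nd (nat_lit 78) (nat_lit 0) (nat_lit 0) (XT.lf (nat_lit 1900) (nat_lit 977265552) (nat_lit 0) (nat_lit 6035859208) (nat_lit 1824) (nat_lit 977265552) (nat_lit 530) (nat_lit 1) (nat_lit 505) (nat_lit 1) (nat_lit 529) (nat_lit 1) (nat_lit 312) (nat_lit 422) (nat_lit 406)) (XT.lf (nat_lit 1900)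 (nat_lit 1500437388) (nat_lit 76) (nat_lit 3207668063) (nat_lit 0) (nat_lit 3207668063) (nat_lit 530) (nat_lit 1) (nat_lit 506) (nat_lit 1) (nat_lit 505) (nat_lit 1) (nat_lit 313) (nat_lit 422) (nat_lit 405))))) (XT.nd (nat_lit 234) (nat_lit 1824) (nat_lit 0) (XT.nd (nat_lit 78) (nat_lit 0) (nat_lit 0) (XT.lf (nat_lit 1900) (nat_lit 522655399) (nat_lit 0) (nat_lit 6797114156) (nat_lit 1824) (nat_lit 522655399) (nat_lit 531) (nat_lit 1) (nat_lit 506) (nat_lit 1) (nat_lit 530) (nat_lit 1) (nat_lit 314) (nat_lit 422) (nat_lit 404)) (XT.nd (nat_lit 78) (nat_lit 0) (nat_lit 76) (XT.lf (nat_lit 1900) (nat_lit 554390403) (nat_lit 76) (nat_lit 3607623688) (nat_lit 0) (nat_lit 3607623688) (nat_lit 531) (nat_lit 1) (nat_lit 507) (nat_lit 1) (nat_lit 506) (nat_lit 1) (nat_lit 315) (nat_lit 422) (nat_lit 403)) (XT.lf (nat_lit 1900) (nat_lit 34712219) (nat_lit 0) (nat_lit 7628781378) (nat_lit 1824) (nat_lit 34712219) (nat_lit 532) (nat_lit 1) (nat_lit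 507) (nat_lit 1) (nat_lit 531) (nat_lit 1) (nat_lit 316) (nat_lit 422) (nat_lit 402)))) (XT.nd (nat_lit 78) (nat_lit 0) (nat_lit 0) (XT.lf (nat_lit 1976) (nat_lit 3588446411) (nat_lit 0) (nat_lit 450238309) (nat_lit 1900) (nat_lit 3588446411) (nat_lit 508) (nat_lit 1) (nat_lit 482) (nat_lit 1) (nat_lit 507) (nat_lit 1) (nat_lit 317) (nat_lit 422) (nat_lit 401)) (XT.nd (nat_lit 78) (nat_lit 0) (nat_lit 76) (XT.lf (nat_lit 1976) (nat_lit 6595206432) (nat_lit 76) (nat_lit 481083911) (nat_lit 0) (nat_lit 481083911) (nat_lit 508) (nat_lit 1) (nat_lit 483) (nat_lit 1) (nat_lit 482) (nat_lit 1) (nat_lit 318) (nat_lit 422) (nat_lit 400)) (XT.lf (nat_lit 1976) (nat_lit 2990624396) (nat_lit 0) (nat_lit 1506879957) (nat_lit 1900) (nat_lit 2990624396) (nat_lit 509) (nat_lit 1) (nat_lit 483) (nat_lit 1) (nat_lit 508) (nat_lit 1) (nat_lit 319) (nat_lit 422) (nat_lit 399))))))))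
noncomputable def ec95 : XT := (XT.nd (nat_lit 1872) (nat_lit 9120) (nat_lit 0) (XT.nd (nat_lit 936) (nat_lit 4636) (nat_lit 0) (XT.nd (nat_lit 468) (nat_lit 3572) (nat_lit 0) (XT.nd (nat_lit 234) (nat_lit 912) (nat_lit 0) (XT.nd (nat_lit 78) (nat_lit 1064) (nat_lit 0) (XT.lf (nat_lit 1976) (nat_lit 5369415853) (nat_lit 76) (nat_lit 1025315379) (nat_lit 0) (nat_lit 1025315379) (nat_lit 509) (nat_lit 1) (nat_lit 484) (nat_lit 1) (nat_lit 483) (nat_lit 1) (nat_lit 320) (nat_lit 422) (nat_lit 398)) (XT.nd (nat_lit 78) (nat_lit 1140) (nat_lit 0) (XT.lf (nat_lit 76) (nat_lit 2367010296) (nat_lit 0) (nat_lit 2618581590) (nat_lit 1900) (nat_lit 2367010296) (nat_lit 485) (nat_lit 1) (nat_lit 484) (nat_lit 1) (nat_lit 509) (nat_lit 1) (nat_lit 321) (nat_lit 422) (nat_lit 397)) (XT.lf (nat_lit 1216) (nat_lit 4093856553) (nat_lit 0) (nat_lit 1596142923) (nat_lit 1140) (nat_lit 1596142923) (nat_lit 485) (nat_lit 1) (nat_lit 469) (nat_lit 1) (nat_lit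 484) (nat_lit 1) (nat_lit 322) (nat_lit 422) (nat_lit 396)))) (XT.nd (nat_lit 78) (nat_lit 912) (nat_lit 0) (XT.lf (nat_lit 76) (nat_lit 1719566558) (nat_lit 0) (nat_lit 3781321031) (nat_lit 1216) (nat_lit 1719566558) (nat_lit 470) (nat_lit 1) (nat_lit 469) (nat_lit 1) (nat_lit 485) (nat_lit 1) (nat_lit 323) (nat_lit 422) (nat_lit 395)) (XT.nd (nat_lit 78) (nat_lit 0) (nat_lit 0) (XT.lf (nat_lit 988) (nat_lit 2772370282) (nat_lit 0) (nat_lit 2191597916) (nat_lit 912) (nat_lit 2191597916) (nat_lit 470) (nat_lit 1) (nat_lit 457) (nat_lit 1) (nat_lit 469) (nat_lit 1) (nat_lit 324) (nat_lit 422) (nat_lit 394)) (XT.lf (nat_lit 76) (nat_lit 1050160580) (nat_lit 0) (nat_lit 4991269234) (nat_lit 988) (nat_lit 1050160580) (nat_lit 458) (nat_lit 1) (nat_lit 457) (nat_lit 1) (nat_lit 470) (nat_lit 1) (nat_lit 325) (nat_lit 422) (nat_lit 393))))) (XT.nd (nat_lit 234) (nat_lit 1824) (nat_lit 0) (XT.nd (nat_lit 78) (nat_lit 836) (nat_lit 0) (XT.lf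 (nat_lit 988) (nat_lit 1408612176) (nat_lit 0) (nat_lit 2809806528) (nat_lit 912) (nat_lit 2809806528) (nat_lit 458) (nat_lit 1) (nat_lit 445) (nat_lit 1) (nat_lit 457) (nat_lit 1) (nat_lit 326) (nat_lit 422) (nat_lit 392)) (XT.nd (nat_lit 78) (nat_lit 836) (nat_lit 0) (XT.lf (nat_lit 76) (nat_lit 360568777) (nat_lit 0) (nat_lit 6244782056) (nat_lit 988) (nat_lit 360568777) (nat_lit 446) (nat_lit 1) (nat_lit 445) (nat_lit 1) (nat_lit 458) (nat_lit 1) (nat_lit 327) (nat_lit 422) (nat_lit 391)) (XT.lf (nat_lit 912) (nat_lit 6058736) (nat_lit 0) (nat_lit 3448985681) (nat_lit 836) (nat_lit 3448985681) (nat_lit 446) (nat_lit 1) (nat_lit 434) (nat_lit 1) (nat_lit 445) (nat_lit 1) (nat_lit 328) (nat_lit 422) (nat_lit 390)))) (XT.nd (nat_lit 78) (nat_lit 836) (nat_lit 0) (XT.lf (nat_lit 988) (nat_lit 6152705779) (nat_lit 0) (nat_lit 345233214) (nat_lit 912) (nat_lit 345233214) (nat_lit 434) (nat_lit 1) (nat_lit 421) (nat_lit 1) (nat_lit 433)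 (nat_lit 1) (nat_lit 329) (nat_lit 422) (nat_lit 389)) (XT.nd (nat_lit 78) (nat_lit 836) (nat_lit 0) (XT.lf (nat_lit 76) (nat_lit 2684752053) (nat_lit 0) (nat_lit 1413203780) (nat_lit 988) (nat_lit 2684752053) (nat_lit 422) (nat_lit 1) (nat_lit 421) (nat_lit 1) (nat_lit 434) (nat_lit 1) (nat_lit 330) (nat_lit 422) (nat_lit 388)) (XT.lf (nat_lit 912) (nat_lit 4592361938) (nat_lit 0) (nat_lit 1065442451) (nat_lit 836) (nat_lit 1065442451) (nat_lit 422) (nat_lit 1) (nat_lit 410) (nat_lit 1) (nat_lit 421) (nat_lit 1) (nat_lit 331) (nat_lit 422) (nat_lit 387)))))) (XT.nd (nat_lit 468) (nat_lit 2204) (nat_lit 0) (XT.nd (nat_lit 234) (nat_lit 1596) (nat_lit 0) (XT.nd (nat_lit 78) (nat_lit 836) (nat_lit 0) (XT.lf (nat_lit 76) (nat_lit 1900022428) (nat_lit 0) (nat_lit 2864310507) (nat_lit 912) (nat_lit 1900022428) (nat_lit 411) (nat_lit 1) (nat_lit 410) (nat_lit 1) (nat_lit 422) (nat_lit 1) (nat_lit 332) (nat_lit 422) (nat_lit 386)) (XT.nd (nat_lit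 78) (nat_lit 0) (nat_lit 0) (XT.lf (nat_lit 912) (nat_lit 3004419257) (nat_lit 0) (nat_lit 1800914935) (nat_lit 836) (nat_lit 1800914935) (nat_lit 411) (nat_lit 1) (nat_lit 399) (nat_lit 1) (nat_lit 410) (nat_lit 1) (nat_lit 333) (nat_lit 422) (nat_lit 385)) (XT.lf (nat_lit 76) (nat_lit 1102248671) (nat_lit 0) (nat_lit 4344394754) (nat_lit 912) (nat_lit 1102248671) (nat_lit 400) (nat_lit 1) (nat_lit 399) (nat_lit 1) (nat_lit 411) (nat_lit 1) (nat_lit 334) (nat_lit 422) (nat_lit 384)))) (XT.nd (nat_lit 78) (nat_lit 836) (nat_lit 0) (XT.lf (nat_lit 836) (nat_lit 1391678628) (nat_lit 0) (nat_lit 2550210332) (nat_lit 760) (nat_lit 2550210332) (nat_lit 400) (nat_lit 1) (nat_lit 389) (nat_lit 1) (nat_lit 399) (nat_lit 1) (nat_lit 335) (nat_lit 422) (nat_lit 383)) (XT.nd (nat_lit 78) (nat_lit 836) (nat_lit 0) (XT.lf (nat_lit 76) (nat_lit 292790560) (nat_lit 0) (nat_lit 5850658236) (nat_lit 836) (nat_lit 292790560) (nat_lit 390) (nat_lit 1) (nat_lit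 389) (nat_lit 1) (nat_lit 400) (nat_lit 1) (nat_lit 336) (nat_lit 422) (nat_lit 382)) (XT.lf (nat_lit 76) (nat_lit 3070338156) (nat_lit 0) (nat_lit 240012092) (nat_lit 836) (nat_lit 3070338156) (nat_lit 379) (nat_lit 1) (nat_lit 378) (nat_lit 1) (nat_lit 389) (nat_lit 1) (nat_lit 337) (nat_lit 422) (nat_lit 381))))) (XT.nd (nat_lit 234) (nat_lit 684) (nat_lit 0) (XT.nd (nat_lit 78) (nat_lit 760) (nat_lit 0) (XT.lf (nat_lit 836) (nat_lit 5278857827) (nat_lit 0) (nat_lit 523594150) (nat_lit 760) (nat_lit 523594150) (nat_lit 379) (nat_lit 1) (nat_lit 368) (nat_lit 1) (nat_lit 378) (nat_lit 1) (nat_lit 338) (nat_lit 422) (nat_lit 380)) (XT.nd (nat_lit 78) (nat_lit 760) (nat_lit 0) (XT.lf (nat_lit 76) (nat_lit 2199489210) (nat_lit 0) (nat_lit 1872811370) (nat_lit 836) (nat_lit 2199489210) (nat_lit 369) (nat_lit 1) (nat_lit 368) (nat_lit 1) (nat_lit 379) (nat_lit 1) (nat_lit 339) (nat_lit 422) (nat_lit 379)) (XT.lf (nat_lit 836) (nat_lit 3524030425)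 (nat_lit 0) (nat_lit 1347162645) (nat_lit 760) (nat_lit 1347162645) (nat_lit 369) (nat_lit 1) (nat_lit 358) (nat_lit 1) (nat_lit 368) (nat_lit 1) (nat_lit 340) (nat_lit 422) (nat_lit 378)))) (XT.nd (nat_lit 78) (nat_lit 684) (nat_lit 0) (XT.lf (nat_lit 76) (nat_lit 1321450160) (nat_lit 0) (nat_lit 3522611436) (nat_lit 836) (nat_lit 1321450160) (nat_lit 359) (nat_lit 1) (nat_lit 358) (nat_lit 1) (nat_lit 369) (nat_lit 1) (nat_lit 341) (nat_lit 422) (nat_lit 377)) (XT.nd (nat_lit 78) (nat_lit 0) (nat_lit 0) (XT.lf (nat_lit 760) (nat_lit 1755872204) (nat_lit 0) (nat_lit 2178688669) (nat_lit 684) (nat_lit 2178688669) (nat_lit 359) (nat_lit 1) (nat_lit 349) (nat_lit 1) (nat_lit 358) (nat_lit 1) (nat_lit 342) (nat_lit 422) (nat_lit 376)) (XT.lf (nat_lit 76) (nat_lit 437304251) (nat_lit 0) (nat_lit 5187175570) (nat_lit 760) (nat_lit 437304251) (nat_lit 350) (nat_lit 1) (nat_lit 349) (nat_lit 1) (nat_lit 359) (nat_lit 1) (nat_lit 343) (nat_lit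 422) (nat_lit 375))))))) (XT.nd (nat_lit 936) (nat_lit 4484) (nat_lit 0) (XT.nd (nat_lit 468) (nat_lit 1900) (nat_lit 0) (XT.nd (nat_lit 234) (nat_lit 1292) (nat_lit 0) (XT.nd (nat_lit 78) (nat_lit 684) (nat_lit 0) (XT.lf (nat_lit 76) (nat_lit 2993731045) (nat_lit 0) (nat_lit 23193445) (nat_lit 760) (nat_lit 2993731045) (nat_lit 340) (nat_lit 1) (nat_lit 339) (nat_lit 1) (nat_lit 349) (nat_lit 1) (nat_lit 344) (nat_lit 422) (nat_lit 374)) (XT.nd (nat_lit 78) (nat_lit 0) (nat_lit 0) (XT.lf (nat_lit 760) (nat_lit 5062403244) (nat_lit 0) (nat_lit 448949925) (nat_lit 684) (nat_lit 448949925) (nat_lit 340) (nat_lit 1) (nat_lit 330) (nat_lit 1) (nat_lit 339) (nat_lit 1) (nat_lit 345) (nat_lit 422) (nat_lit 373)) (XT.lf (nat_lit 76) (nat_lit 2060978477) (nat_lit 0) (nat_lit 1788323629) (nat_lit 760) (nat_lit 2060978477) (nat_lit 331) (nat_lit 1) (nat_lit 330) (nat_lit 1) (nat_lit 340) (nat_lit 1) (nat_lit 346) (nat_lit 422) (nat_lit 372))))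 (XT.nd (nat_lit 78) (nat_lit 608) (nat_lit 0) (XT.lf (nat_lit 760) (nat_lit 3188185504) (nat_lit 0) (nat_lit 1336411356) (nat_lit 684) (nat_lit 1336411356) (nat_lit 331) (nat_lit 1) (nat_lit 321) (nat_lit 1) (nat_lit 330) (nat_lit 1) (nat_lit 347) (nat_lit 422) (nat_lit 371)) (XT.nd (nat_lit 78) (nat_lit 608) (nat_lit 0) (XT.lf (nat_lit 76) (nat_lit 1125804742) (nat_lit 0) (nat_lit 3560678493) (nat_lit 760) (nat_lit 1125804742) (nat_lit 322) (nat_lit 1) (nat_lit 321) (nat_lit 1) (nat_lit 331) (nat_lit 1) (nat_lit 348) (nat_lit 422) (nat_lit 370)) (XT.lf (nat_lit 684) (nat_lit 1309972185) (nat_lit 0) (nat_lit 2227045764) (nat_lit 608) (nat_lit 2227045764) (nat_lit 322) (nat_lit 1) (nat_lit 313) (nat_lit 1) (nat_lit 321) (nat_lit 1) (nat_lit 349) (nat_lit 422) (nat_lit 369))))) (XT.nd (nat_lit 234) (nat_lit 608) (nat_lit 0) (XT.nd (nat_lit 78) (nat_lit 1292) (nat_lit 0) (XT.lf (nat_lit 76) (nat_lit 189061524) (nat_lit 0) (nat_lit 5338491870)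 (nat_lit 684) (nat_lit 189061524) (nat_lit 314) (nat_lit 1) (nat_lit 313) (nat_lit 1) (nat_lit 322) (nat_lit 1) (nat_lit 350) (nat_lit 422) (nat_lit 368)) (XT.nd (nat_lit 78) (nat_lit 608) (nat_lit 0) (XT.lf (nat_lit 76) (nat_lit 2553120380) (nat_lit 0) (nat_lit 563092982) (nat_lit 684) (nat_lit 2553120380) (nat_lit 305) (nat_lit 1) (nat_lit 304) (nat_lit 1) (nat_lit 313) (nat_lit 1) (nat_lit 351) (nat_lit 422) (nat_lit 367)) (XT.lf (nat_lit 684) (nat_lit 4135763566) (nat_lit 0) (nat_lit 743523421) (nat_lit 608) (nat_lit 743523421) (nat_lit 305) (nat_lit 1) (nat_lit 296) (nat_lit 1) (nat_lit 304) (nat_lit 1) (nat_lit 352) (nat_lit 422) (nat_lit 366)))) (XT.nd (nat_lit 78) (nat_lit 608) (nat_lit 0) (XT.lf (nat_lit 76) (nat_lit 1578463087) (nat_lit 0) (nat_lit 2419736083) (nat_lit 684) (nat_lit 1578463087) (nat_lit 297) (nat_lit 1) (nat_lit 296) (nat_lit 1) (nat_lit 305) (nat_lit 1) (nat_lit 353) (nat_lit 422) (nat_lit 365)) (XT.nd (nat_lit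 78) (nat_lit 0) (nat_lit 0) (XT.lf (nat_lit 684) (nat_lit 2181362356) (nat_lit 0) (nat_lit 1674872236) (nat_lit 608) (nat_lit 1674872236) (nat_lit 297) (nat_lit 1) (nat_lit 288) (nat_lit 1) (nat_lit 296) (nat_lit 1) (nat_lit 354) (nat_lit 422) (nat_lit 364)) (XT.lf (nat_lit 76) (nat_lit 605240565) (nat_lit 0) (nat_lit 4275680253) (nat_lit 684) (nat_lit 605240565) (nat_lit 289) (nat_lit 1) (nat_lit 288) (nat_lit 1) (nat_lit 297) (nat_lit 1) (nat_lit 355) (nat_lit 422) (nat_lit 363)))))) (XT.nd (nat_lit 468) (nat_lit 2204) (nat_lit 0) (XT.nd (nat_lit 234) (nat_lit 1064) (nat_lit 0) (XT.nd (nat_lit 78) (nat_lit 684) (nat_lit 0) (XT.lf (nat_lit 608) (nat_lit 230507318) (nat_lit 0) (nat_lit 2605519173) (nat_lit 532) (nat_lit 2605519173) (nat_lit 289) (nat_lit 1) (nat_lit 281) (nat_lit 1) (nat_lit 288) (nat_lit 1) (nat_lit 356) (nat_lit 422) (nat_lit 362)) (XT.nd (nat_lit 78) (nat_lit 0) (nat_lit 0) (XT.lf (nat_lit 684) (nat_lit 4670620616)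 (nat_lit 0) (nat_lit 363481766) (nat_lit 608) (nat_lit 363481766) (nat_lit 281) (nat_lit 1) (nat_lit 272) (nat_lit 1) (nat_lit 280) (nat_lit 1) (nat_lit 357) (nat_lit 422) (nat_lit 361)) (XT.lf (nat_lit 76) (nat_lit 1830413718) (nat_lit 0) (nat_lit 1693021344) (nat_lit 684) (nat_lit 1830413718) (nat_lit 273) (nat_lit 1) (nat_lit 272) (nat_lit 1) (nat_lit 281) (nat_lit 1) (nat_lit 358) (nat_lit 422) (nat_lit 360)))) (XT.nd (nat_lit 78) (nat_lit 532) (nat_lit 0) (XT.lf (nat_lit 608) (nat_lit 2659695824) (nat_lit 0) (nat_lit 1325528373) (nat_lit 532) (nat_lit 1325528373) (nat_lit 273) (nat_lit 1) (nat_lit 265) (nat_lit 1) (nat_lit 272) (nat_lit 1) (nat_lit 359) (nat_lit 422) (nat_lit 359)) (XT.nd (nat_lit 78) (nat_lit 532) (nat_lit 0) (XT.lf (nat_lit 76) (nat_lit 830290182) (nat_lit 0) (nat_lit 3607575650) (nat_lit 608) (nat_lit 830290182) (nat_lit 266) (nat_lit 1) (nat_lit 265) (nat_lit 1) (nat_lit 273) (nat_lit 1) (nat_lit 360) (nat_lit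 422) (nat_lit 358)) (XT.lf (nat_lit 608) (nat_lit 657321353) (nat_lit 0) (nat_lit 2284303979) (nat_lit 532) (nat_lit 2284303979) (nat_lit 266) (nat_lit 1) (nat_lit 258) (nat_lit 1) (nat_lit 265) (nat_lit 1) (nat_lit 361) (nat_lit 422) (nat_lit 357))))) (XT.nd (nat_lit 234) (nat_lit 1064) (nat_lit 0) (XT.nd (nat_lit 78) (nat_lit 532) (nat_lit 0) (XT.lf (nat_lit 608) (nat_lit 4855915168) (nat_lit 0) (nat_lit 164221954) (nat_lit 532) (nat_lit 164221954) (nat_lit 258) (nat_lit 1) (nat_lit 250) (nat_lit 1) (nat_lit 257) (nat_lit 1) (nat_lit 362) (nat_lit 422) (nat_lit 356)) (XT.nd (nat_lit 78) (nat_lit 532) (nat_lit 0) (XT.lf (nat_lit 76) (nat_lit 1912466647) (nat_lit 0) (nat_lit 1317956410) (nat_lit 608) (nat_lit 1912466647) (nat_lit 251) (nat_lit 1) (nat_lit 250) (nat_lit 1) (nat_lit 258) (nat_lit 1) (nat_lit 363) (nat_lit 422) (nat_lit 355)) (XT.lf (nat_lit 608) (nat_lit 2805495985) (nat_lit 0) (nat_lit 1148283729) (nat_lit 532) (nat_lit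 1148283729) (nat_lit 251) (nat_lit 1) (nat_lit 243) (nat_lit 1) (nat_lit 250) (nat_lit 1) (nat_lit 364) (nat_lit 422) (nat_lit 354)))) (XT.nd (nat_lit 156) (nat_lit 608) (nat_lit 0) (XT.nd (nat_lit 78) (nat_lit 456) (nat_lit 0) (XT.lf (nat_lit 76) (nat_lit 893734099) (nat_lit 0) (nat_lit 3274205195) (nat_lit 608) (nat_lit 893734099) (nat_lit 244) (nat_lit 1) (nat_lit 243) (nat_lit 1) (nat_lit 251) (nat_lit 1) (nat_lit 365) (nat_lit 422) (nat_lit 353)) (XT.lf (nat_lit 532) (nat_lit 767860919) (nat_lit 0) (nat_lit 2126896009) (nat_lit 456) (nat_lit 2126896009) (nat_lit 244) (nat_lit 1) (nat_lit 237) (nat_lit 1) (nat_lit 243) (nat_lit 1) (nat_lit 366) (nat_lit 422) (nat_lit 352))) (XT.nd (nat_lit 78) (nat_lit 0) (nat_lit 0) (XT.lf (nat_lit 608) (nat_lit 4746974691) (nat_lit 0) (nat_lit 117640540) (nat_lit 532) (nat_lit 117640540) (nat_lit 237) (nat_lit 1) (nat_lit 229) (nat_lit 1) (nat_lit 236) (nat_lit 1) (nat_lit 367) (nat_lit 422) (nat_lit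 351)) (XT.lf (nat_lit 76) (nat_lit 1851607984) (nat_lit 0) (nat_lit 1239700966) (nat_lit 608) (nat_lit 1851607984) (nat_lit 230) (nat_lit 1) (nat_lit 229) (nat_lit 1) (nat_lit 237) (nat_lit 1) (nat_lit 368) (nat_lit 422) (nat_lit 350))))))))
noncomputable def ec96 : XT := (XT.nd (nat_lit 1872) (nat_lit 4256) (nat_lit 0) (XT.nd (nat_lit 936) (nat_lit 3040) (nat_lit 0) (XT.nd (nat_lit 468) (nat_lit 1292) (nat_lit 0) (XT.nd (nat_lit 234) (nat_lit 988) (nat_lit 0) (XT.nd (nat_lit 78) (nat_lit 456) (nat_lit 0) (XT.lf (nat_lit 532) (nat_lit 2671767175) (nat_lit 0) (nat_lit 1116211176) (nat_lit 456) (nat_lit 1116211176) (nat_lit 230) (nat_lit 1) (nat_lit 223) (nat_lit 1) (nat_lit 229) (nat_lit 1) (nat_lit 369) (nat_lit 422) (nat_lit 349)) (XT.nd (nat_lit 78) (nat_lit 456) (nat_lit 0) (XT.lf (nat_lit 76) (nat_lit 821424522) (nat_lit 0) (nat_lit 3223025497) (nat_lit 532) (nat_lit 821424522) (nat_lit 224) (nat_lit 1) (nat_lit 223) (nat_lit 1) (nat_lit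 230) (nat_lit 1) (nat_lit 370) (nat_lit 422) (nat_lit 348)) (XT.lf (nat_lit 532) (nat_lit 612901666) (nat_lit 0) (nat_lit 2107496700) (nat_lit 456) (nat_lit 2107496700) (nat_lit 224) (nat_lit 1) (nat_lit 217) (nat_lit 1) (nat_lit 223) (nat_lit 1) (nat_lit 371) (nat_lit 422) (nat_lit 347)))) (XT.nd (nat_lit 78) (nat_lit 456) (nat_lit 0) (XT.lf (nat_lit 532) (nat_lit 4392204175) (nat_lit 0) (nat_lit 199136027) (nat_lit 456) (nat_lit 199136027) (nat_lit 217) (nat_lit 1) (nat_lit 210) (nat_lit 1) (nat_lit 216) (nat_lit 1) (nat_lit 372) (nat_lit 422) (nat_lit 346)) (XT.nd (nat_lit 78) (nat_lit 456) (nat_lit 0) (XT.lf (nat_lit 76) (nat_lit 1671443743) (nat_lit 0) (nat_lit 1410255240) (nat_lit 532) (nat_lit 1671443743) (nat_lit 211) (nat_lit 1) (nat_lit 210) (nat_lit 1) (nat_lit 217) (nat_lit 1) (nat_lit 373) (nat_lit 422) (nat_lit 345)) (XT.lf (nat_lit 532) (nat_lit 2304867639) (nat_lit 0) (nat_lit 1205745846) (nat_lit 456) (nat_lit 1205745846)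 (nat_lit 211) (nat_lit 1) (nat_lit 204) (nat_lit 1) (nat_lit 210) (nat_lit 1) (nat_lit 374) (nat_lit 422) (nat_lit 344))))) (XT.nd (nat_lit 234) (nat_lit 380) (nat_lit 0) (XT.nd (nat_lit 78) (nat_lit 912) (nat_lit 0) (XT.lf (nat_lit 76) (nat_lit 635968549) (nat_lit 0) (nat_lit 3408060787) (nat_lit 532) (nat_lit 635968549) (nat_lit 205) (nat_lit 1) (nat_lit 204) (nat_lit 1) (nat_lit 211) (nat_lit 1) (nat_lit 375) (nat_lit 422) (nat_lit 343)) (XT.nd (nat_lit 78) (nat_lit 532) (nat_lit 0) (XT.lf (nat_lit 456) (nat_lit 236838644) (nat_lit 0) (nat_lit 2203535563) (nat_lit 380) (nat_lit 2203535563) (nat_lit 205) (nat_lit 1) (nat_lit 199) (nat_lit 1) (nat_lit 204) (nat_lit 1) (nat_lit 376) (nat_lit 422) (nat_lit 342)) (XT.lf (nat_lit 532) (nat_lit 3833891659) (nat_lit 0) (nat_lit 387201863) (nat_lit 456) (nat_lit 387201863) (nat_lit 199) (nat_lit 1) (nat_lit 192) (nat_lit 1) (nat_lit 198) (nat_lit 1) (nat_lit 377) (nat_lit 422) (nat_lit 341))))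 (XT.nd (nat_lit 78) (nat_lit 380) (nat_lit 0) (XT.lf (nat_lit 76) (nat_lit 1392593309) (nat_lit 0) (nat_lit 1787664708) (nat_lit 532) (nat_lit 1392593309) (nat_lit 193) (nat_lit 1) (nat_lit 192) (nat_lit 1) (nat_lit 199) (nat_lit 1) (nat_lit 378) (nat_lit 422) (nat_lit 340)) (XT.nd (nat_lit 78) (nat_lit 0) (nat_lit 0) (XT.lf (nat_lit 456) (nat_lit 1745283468) (nat_lit 0) (nat_lit 1396294086) (nat_lit 380) (nat_lit 1396294086) (nat_lit 193) (nat_lit 1) (nat_lit 187) (nat_lit 1) (nat_lit 192) (nat_lit 1) (nat_lit 379) (nat_lit 422) (nat_lit 339)) (XT.lf (nat_lit 76) (nat_lit 357106204) (nat_lit 0) (nat_lit 3789138793) (nat_lit 456) (nat_lit 357106204) (nat_lit 188) (nat_lit 1) (nat_lit 187) (nat_lit 1) (nat_lit 193) (nat_lit 1) (nat_lit 380) (nat_lit 422) (nat_lit 338)))))) (XT.nd (nat_lit 468) (nat_lit 1444) (nat_lit 0) (XT.nd (nat_lit 234) (nat_lit 760) (nat_lit 0) (XT.nd (nat_lit 78) (nat_lit 380) (nat_lit 0) (XT.lf (nat_lit 76) (nat_lit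 2075812207) (nat_lit 0) (nat_lit 317352666) (nat_lit 456) (nat_lit 2075812207) (nat_lit 182) (nat_lit 1) (nat_lit 181) (nat_lit 1) (nat_lit 187) (nat_lit 1) (nat_lit 381) (nat_lit 422) (nat_lit 337)) (XT.nd (nat_lit 78) (nat_lit 0) (nat_lit 0) (XT.lf (nat_lit 456) (nat_lit 3108922316) (nat_lit 0) (nat_lit 663065625) (nat_lit 380) (nat_lit 663065625) (nat_lit 182) (nat_lit 1) (nat_lit 176) (nat_lit 1) (nat_lit 181) (nat_lit 1) (nat_lit 382) (nat_lit 422) (nat_lit 336)) (XT.lf (nat_lit 76) (nat_lit 1033038233) (nat_lit 0) (nat_lit 2335315048) (nat_lit 456) (nat_lit 1033038233) (nat_lit 177) (nat_lit 1) (nat_lit 176) (nat_lit 1) (nat_lit 182) (nat_lit 1) (nat_lit 383) (nat_lit 422) (nat_lit 335)))) (XT.nd (nat_lit 78) (nat_lit 380) (nat_lit 0) (XT.lf (nat_lit 456) (nat_lit 1028314661) (nat_lit 0) (nat_lit 1669886795) (nat_lit 380) (nat_lit 1669886795) (nat_lit 177) (nat_lit 1) (nat_lit 171) (nat_lit 1) (nat_lit 176) (nat_lit 1) (nat_lit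 384) (nat_lit 422) (nat_lit 334)) (XT.nd (nat_lit 78) (nat_lit 380) (nat_lit 0) (XT.lf (nat_lit 76) (nat_lit 2045547) (nat_lit 0) (nat_lit 4331213367) (nat_lit 456) (nat_lit 2045547) (nat_lit 172) (nat_lit 1) (nat_lit 171) (nat_lit 1) (nat_lit 177) (nat_lit 1) (nat_lit 385) (nat_lit 422) (nat_lit 333)) (XT.lf (nat_lit 76) (nat_lit 1643708137) (nat_lit 0) (nat_lit 1015054935) (nat_lit 380) (nat_lit 1643708137) (nat_lit 167) (nat_lit 1) (nat_lit 166) (nat_lit 1) (nat_lit 171) (nat_lit 1) (nat_lit 386) (nat_lit 422) (nat_lit 332))))) (XT.nd (nat_lit 234) (nat_lit 760) (nat_lit 0) (XT.nd (nat_lit 78) (nat_lit 304) (nat_lit 0) (XT.lf (nat_lit 456) (nat_lit 2249411386) (nat_lit 0) (nat_lit 1010369187) (nat_lit 380) (nat_lit 1010369187) (nat_lit 167) (nat_lit 1) (nat_lit 161) (nat_lit 1) (nat_lit 166) (nat_lit 1) (nat_lit 387) (nat_lit 422) (nat_lit 331)) (XT.nd (nat_lit 78) (nat_lit 304) (nat_lit 0) (XT.lf (nat_lit 76) (nat_lit 608431385) (nat_lit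 0) (nat_lit 3021307202) (nat_lit 456) (nat_lit 608431385) (nat_lit 162) (nat_lit 1) (nat_lit 161) (nat_lit 1) (nat_lit 167) (nat_lit 1) (nat_lit 388) (nat_lit 422) (nat_lit 330)) (XT.lf (nat_lit 380) (nat_lit 184683186) (nat_lit 0) (nat_lit 2010872153) (nat_lit 304) (nat_lit 2010872153) (nat_lit 162) (nat_lit 1) (nat_lit 157) (nat_lit 1) (nat_lit 161) (nat_lit 1) (nat_lit 389) (nat_lit 422) (nat_lit 329)))) (XT.nd (nat_lit 78) (nat_lit 304) (nat_lit 0) (XT.lf (nat_lit 456) (nat_lit 3352037431) (nat_lit 0) (nat_lit 411515060) (nat_lit 380) (nat_lit 411515060) (nat_lit 157) (nat_lit 1) (nat_lit 151) (nat_lit 1) (nat_lit 156) (nat_lit 1) (nat_lit 390) (nat_lit 422) (nat_lit 328)) (XT.nd (nat_lit 78) (nat_lit 304) (nat_lit 0) (XT.lf (nat_lit 76) (nat_lit 1156745196) (nat_lit 0) (nat_lit 1830373332) (nat_lit 456) (nat_lit 1156745196) (nat_lit 152) (nat_lit 1) (nat_lit 151) (nat_lit 1) (nat_lit 157) (nat_lit 1) (nat_lit 391) (nat_lit 422) (nat_lit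 327)) (XT.lf (nat_lit 380) (nat_lit 1283265090) (nat_lit 0) (nat_lit 1414885265) (nat_lit 304) (nat_lit 1414885265) (nat_lit 152) (nat_lit 1) (nat_lit 147) (nat_lit 1) (nat_lit 151) (nat_lit 1) (nat_lit 392) (nat_lit 422) (nat_lit 326))))))) (XT.nd (nat_lit 936) (nat_lit 1976) (nat_lit 0) (XT.nd (nat_lit 468) (nat_lit 912) (nat_lit 0) (XT.nd (nat_lit 234) (nat_lit 684) (nat_lit 0) (XT.nd (nat_lit 78) (nat_lit 684) (nat_lit 0) (XT.lf (nat_lit 76) (nat_lit 132370920) (nat_lit 0) (nat_lit 3817903513) (nat_lit 380) (nat_lit 132370920) (nat_lit 148) (nat_lit 1) (nat_lit 147) (nat_lit 1) (nat_lit 152) (nat_lit 1) (nat_lit 393) (nat_lit 422) (nat_lit 325)) (XT.nd (nat_lit 78) (nat_lit 304) (nat_lit 0) (XT.lf (nat_lit 76) (nat_lit 1651642624) (nat_lit 0) (nat_lit 748974671) (nat_lit 380) (nat_lit 1651642624) (nat_lit 143) (nat_lit 1) (nat_lit 142) (nat_lit 1) (nat_lit 147) (nat_lit 1) (nat_lit 394) (nat_lit 422) (nat_lit 324)) (XT.lf (nat_lit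 380) (nat_lit 2276368362) (nat_lit 0) (nat_lit 872968833) (nat_lit 304) (nat_lit 872968833) (nat_lit 143) (nat_lit 1) (nat_lit 138) (nat_lit 1) (nat_lit 142) (nat_lit 1) (nat_lit 395) (nat_lit 422) (nat_lit 323)))) (XT.nd (nat_lit 78) (nat_lit 684) (nat_lit 0) (XT.lf (nat_lit 76) (nat_lit 627255907) (nat_lit 0) (nat_lit 2738132061) (nat_lit 380) (nat_lit 627255907) (nat_lit 139) (nat_lit 1) (nat_lit 138) (nat_lit 1) (nat_lit 143) (nat_lit 1) (nat_lit 396) (nat_lit 422) (nat_lit 322)) (XT.nd (nat_lit 78) (nat_lit 380) (nat_lit 0) (XT.lf (nat_lit 380) (nat_lit 234677641) (nat_lit 0) (nat_lit 1864266237) (nat_lit 304) (nat_lit 1864266237) (nat_lit 139) (nat_lit 1) (nat_lit 134) (nat_lit 1) (nat_lit 138) (nat_lit 1) (nat_lit 397) (nat_lit 422) (nat_lit 321)) (XT.lf (nat_lit 380) (nat_lit 3172453458) (nat_lit 0) (nat_lit 380834883) (nat_lit 304) (nat_lit 380834883) (nat_lit 134) (nat_lit 1) (nat_lit 129) (nat_lit 1) (nat_lit 133) (nat_lit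 1) (nat_lit 398) (nat_lit 422) (nat_lit 320))))) (XT.nd (nat_lit 234) (nat_lit 608) (nat_lit 0) (XT.nd (nat_lit 78) (nat_lit 304) (nat_lit 0) (XT.lf (nat_lit 76) (nat_lit 1074551851) (nat_lit 0) (nat_lit 1756061136) (nat_lit 380) (nat_lit 1074551851) (nat_lit 130) (nat_lit 1) (nat_lit 129) (nat_lit 1) (nat_lit 134) (nat_lit 1) (nat_lit 399) (nat_lit 422) (nat_lit 319)) (XT.nd (nat_lit 78) (nat_lit 0) (nat_lit 0) (XT.lf (nat_lit 380) (nat_lit 1134266594) (nat_lit 0) (nat_lit 1371140569) (nat_lit 304) (nat_lit 1371140569) (nat_lit 130) (nat_lit 1) (nat_lit 125) (nat_lit 1) (nat_lit 129) (nat_lit 1) (nat_lit 400) (nat_lit 422) (nat_lit 318)) (XT.lf (nat_lit 76) (nat_lit 65908276) (nat_lit 0) (nat_lit 3716527904) (nat_lit 380) (nat_lit 65908276) (nat_lit 126) (nat_lit 1) (nat_lit 125) (nat_lit 1) (nat_lit 130) (nat_lit 1) (nat_lit 401) (nat_lit 422) (nat_lit 317)))) (XT.nd (nat_lit 78) (nat_lit 304) (nat_lit 0) (XT.lf (nat_lit 76) (nat_lit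 1478077019) (nat_lit 0) (nat_lit 863947044) (nat_lit 304) (nat_lit 1478077019) (nat_lit 122) (nat_lit 1) (nat_lit 121) (nat_lit 1) (nat_lit 125) (nat_lit 1) (nat_lit 402) (nat_lit 422) (nat_lit 316)) (XT.nd (nat_lit 78) (nat_lit 0) (nat_lit 0) (XT.lf (nat_lit 380) (nat_lit 1947358306) (nat_lit 0) (nat_lit 922454034) (nat_lit 304) (nat_lit 922454034) (nat_lit 122) (nat_lit 1) (nat_lit 117) (nat_lit 1) (nat_lit 121) (nat_lit 1) (nat_lit 403) (nat_lit 422) (nat_lit 315)) (XT.lf (nat_lit 76) (nat_lit 472723235) (nat_lit 0) (nat_lit 2819278106) (nat_lit 380) (nat_lit 472723235) (nat_lit 118) (nat_lit 1) (nat_lit 117) (nat_lit 1) (nat_lit 122) (nat_lit 1) (nat_lit 404) (nat_lit 422) (nat_lit 314)))))) (XT.nd (nat_lit 468) (nat_lit 760) (nat_lit 0) (XT.nd (nat_lit 234) (nat_lit 608) (nat_lit 0) (XT.nd (nat_lit 78) (nat_lit 304) (nat_lit 0) (XT.lf (nat_lit 76) (nat_lit 1841355092) (nat_lit 0) (nat_lit 54641756) (nat_lit 304) (nat_lit 1841355092)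 (nat_lit 114) (nat_lit 1) (nat_lit 113) (nat_lit 1) (nat_lit 117) (nat_lit 1) (nat_lit 405) (nat_lit 422) (nat_lit 313)) (XT.nd (nat_lit 78) (nat_lit 0) (nat_lit 0) (XT.lf (nat_lit 380) (nat_lit 2680892674) (nat_lit 0) (nat_lit 514687383) (nat_lit 304) (nat_lit 514687383) (nat_lit 114) (nat_lit 1) (nat_lit 109) (nat_lit 1) (nat_lit 113) (nat_lit 1) (nat_lit 406) (nat_lit 422) (nat_lit 312)) (XT.lf (nat_lit 76) (nat_lit 840482194) (nat_lit 0) (nat_lit 2002401498) (nat_lit 380) (nat_lit 840482194) (nat_lit 110) (nat_lit 1) (nat_lit 109) (nat_lit 1) (nat_lit 114) (nat_lit 1) (nat_lit 407) (nat_lit 422) (nat_lit 311)))) (XT.nd (nat_lit 78) (nat_lit 380) (nat_lit 0) (XT.lf (nat_lit 304) (nat_lit 687468847) (nat_lit 0) (nat_lit 1484632330) (nat_lit 228) (nat_lit 1484632330) (nat_lit 110) (nat_lit 1) (nat_lit 106) (nat_lit 1) (nat_lit 109) (nat_lit 1) (nat_lit 408) (nat_lit 422) (nat_lit 310)) (XT.nd (nat_lit 78) (nat_lit 0) (nat_lit 0) (XT.lf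 (nat_lit 380) (nat_lit 3341274170) (nat_lit 0) (nat_lit 144592018) (nat_lit 304) (nat_lit 144592018) (nat_lit 106) (nat_lit 1) (nat_lit 101) (nat_lit 1) (nat_lit 105) (nat_lit 1) (nat_lit 409) (nat_lit 422) (nat_lit 309)) (XT.lf (nat_lit 76) (nat_lit 1172317783) (nat_lit 0) (nat_lit 1259541146) (nat_lit 380) (nat_lit 1172317783) (nat_lit 102) (nat_lit 1) (nat_lit 101) (nat_lit 1) (nat_lit 106) (nat_lit 1) (nat_lit 410) (nat_lit 422) (nat_lit 308))))) (XT.nd (nat_lit 234) (nat_lit 228) (nat_lit 0) (XT.nd (nat_lit 78) (nat_lit 304) (nat_lit 0) (XT.lf (nat_lit 304) (nat_lit 1359252444) (nat_lit 0) (nat_lit 1109497810) (nat_lit 228) (nat_lit 1109497810) (nat_lit 102) (nat_lit 1) (nat_lit 98) (nat_lit 1) (nat_lit 101) (nat_lit 1) (nat_lit 411) (nat_lit 422) (nat_lit 307)) (XT.nd (nat_lit 78) (nat_lit 304) (nat_lit 0) (XT.lf (nat_lit 76) (nat_lit 192094443) (nat_lit 0) (nat_lit 3168462431) (nat_lit 304) (nat_lit 192094443) (nat_lit 99) (nat_lit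 1) (nat_lit 98) (nat_lit 1) (nat_lit 102) (nat_lit 1) (nat_lit 412) (nat_lit 422) (nat_lit 306)) (XT.lf (nat_lit 76) (nat_lit 1471120964) (nat_lit 0) (nat_lit 584828858) (nat_lit 304) (nat_lit 1471120964) (nat_lit 95) (nat_lit 1) (nat_lit 94) (nat_lit 1) (nat_lit 98) (nat_lit 1) (nat_lit 413) (nat_lit 422) (nat_lit 305)))) (XT.nd (nat_lit 78) (nat_lit 0) (nat_lit 0) (XT.lf (nat_lit 304) (nat_lit 1965677872) (nat_lit 0) (nat_lit 768070186) (nat_lit 228) (nat_lit 768070186) (nat_lit 95) (nat_lit 1) (nat_lit 91) (nat_lit 1) (nat_lit 94) (nat_lit 1) (nat_lit 414) (nat_lit 422) (nat_lit 304)) (XT.nd (nat_lit 50700) (nat_lit 0) (nat_lit 31236) (XT.lf (nat_lit 76) (nat_lit 497622198) (nat_lit 0) (nat_lit 2481561203) (nat_lit 304) (nat_lit 497622198) (nat_lit 92) (nat_lit 1) (nat_lit 91) (nat_lit 1) (nat_lit 95) (nat_lit 1) (nat_lit 415) (nat_lit 422) (nat_lit 303)) (XT.lf (nat_lit 1900) (nat_lit 2158752978) (nat_lit 0) (nat_lit 4309530903) (nat_lit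 1824) (nat_lit 2158752978) (nat_lit 527) (nat_lit 1) (nat_lit 502) (nat_lit 1) (nat_lit 526) (nat_lit 1) (nat_lit 304) (nat_lit 423) (nat_lit 413))))))))
noncomputable def ec97 : XT := (XT.nd (nat_lit 1872) (nat_lit 10108) (nat_lit 0) (XT.nd (nat_lit 936) (nat_lit 4636) (nat_lit 0) (XT.nd (nat_lit 468) (nat_lit 1520) (nat_lit 0) (XT.nd (nat_lit 234) (nat_lit 0) (nat_lit 152) (XT.nd (nat_lit 78) (nat_lit 0) (nat_lit 76) (XT.lf (nat_lit 1900) (nat_lit 3980907568) (nat_lit 76) (nat_lit 2282022870) (nat_lit 0) (nat_lit 2282022870) (nat_lit 527) (nat_lit 1) (nat_lit 503) (nat_lit 1) (nat_lit 502) (nat_lit 1) (nat_lit 305) (nat_lit 423) (nat_lit 412)) (XT.nd (nat_lit 78) (nat_lit 0) (nat_lit 0) (XT.lf (nat_lit 1900) (nat_lit 1812272761) (nat_lit 0) (nat_lit 4839416785) (nat_lit 1824) (nat_lit 1812272761) (nat_lit 528) (nat_lit 1) (nat_lit 503) (nat_lit 1) (nat_lit 527) (nat_lit 1) (nat_lit 306) (nat_lit 423) (nat_lit 411)) (XT.lf (nat_lit 1900)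 (nat_lit 3243332701) (nat_lit 76) (nat_lit 2570301192) (nat_lit 0) (nat_lit 2570301192) (nat_lit 528) (nat_lit 1) (nat_lit 504) (nat_lit 1) (nat_lit 503) (nat_lit 1) (nat_lit 307) (nat_lit 423) (nat_lit 410)))) (XT.nd (nat_lit 78) (nat_lit 0) (nat_lit 0) (XT.lf (nat_lit 1900) (nat_lit 1424057807) (nat_lit 0) (nat_lit 5456940252) (nat_lit 1824) (nat_lit 1424057807) (nat_lit 529) (nat_lit 1) (nat_lit 504) (nat_lit 1) (nat_lit 528) (nat_lit 1) (nat_lit 308) (nat_lit 423) (nat_lit 409)) (XT.nd (nat_lit 78) (nat_lit 0) (nat_lit 76) (XT.lf (nat_lit 1900) (nat_lit 2424746961) (nat_lit 76) (nat_lit 2901136199) (nat_lit 0) (nat_lit 2901136199) (nat_lit 529) (nat_lit 1) (nat_lit 505) (nat_lit 1) (nat_lit 504) (nat_lit 1) (nat_lit 309) (nat_lit 423) (nat_lit 408)) (XT.lf (nat_lit 1900) (nat_lit 996810863) (nat_lit 0) (nat_lit 6156576392) (nat_lit 1824) (nat_lit 996810863) (nat_lit 530) (nat_lit 1) (nat_lit 505) (nat_lit 1) (nat_lit 529) (nat_lit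 1) (nat_lit 310) (nat_lit 423) (nat_lit 407))))) (XT.nd (nat_lit 234) (nat_lit 1748) (nat_lit 0) (XT.nd (nat_lit 78) (nat_lit 0) (nat_lit 76) (XT.lf (nat_lit 1900) (nat_lit 1530446135) (nat_lit 76) (nat_lit 3271821424) (nat_lit 0) (nat_lit 3271821424) (nat_lit 530) (nat_lit 1) (nat_lit 506) (nat_lit 1) (nat_lit 505) (nat_lit 1) (nat_lit 311) (nat_lit 423) (nat_lit 406)) (XT.nd (nat_lit 78) (nat_lit 0) (nat_lit 0) (XT.lf (nat_lit 1900) (nat_lit 533108507) (nat_lit 0) (nat_lit 6933056439) (nat_lit 1824) (nat_lit 533108507) (nat_lit 531) (nat_lit 1) (nat_lit 506) (nat_lit 1) (nat_lit 530) (nat_lit 1) (nat_lit 312) (nat_lit 423) (nat_lit 405)) (XT.lf (nat_lit 1900) (nat_lit 565478211) (nat_lit 76) (nat_lit 3679776162) (nat_lit 0) (nat_lit 3679776162) (nat_lit 531) (nat_lit 1) (nat_lit 507) (nat_lit 1) (nat_lit 506) (nat_lit 1) (nat_lit 313) (nat_lit 423) (nat_lit 404)))) (XT.nd (nat_lit 78) (nat_lit 1900) (nat_lit 0) (XT.lf (nat_lit 1900)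 (nat_lit 35406463) (nat_lit 0) (nat_lit 7781357005) (nat_lit 1824) (nat_lit 35406463) (nat_lit 532) (nat_lit 1) (nat_lit 507) (nat_lit 1) (nat_lit 531) (nat_lit 1) (nat_lit 314) (nat_lit 423) (nat_lit 403)) (XT.nd (nat_lit 78) (nat_lit 0) (nat_lit 0) (XT.lf (nat_lit 1976) (nat_lit 3660215340) (nat_lit 0) (nat_lit 459243075) (nat_lit 1900) (nat_lit 3660215340) (nat_lit 508) (nat_lit 1) (nat_lit 482) (nat_lit 1) (nat_lit 507) (nat_lit 1) (nat_lit 315) (nat_lit 423) (nat_lit 402)) (XT.lf (nat_lit 1976) (nat_lit 6727110560) (nat_lit 76) (nat_lit 490705589) (nat_lit 0) (nat_lit 490705589) (nat_lit 508) (nat_lit 1) (nat_lit 483) (nat_lit 1) (nat_lit 482) (nat_lit 1) (nat_lit 316) (nat_lit 423) (nat_lit 401)))))) (XT.nd (nat_lit 468) (nat_lit 2736) (nat_lit 0) (XT.nd (nat_lit 234) (nat_lit 1976) (nat_lit 0) (XT.nd (nat_lit 78) (nat_lit 0) (nat_lit 0) (XT.lf (nat_lit 1976) (nat_lit 3050436883) (nat_lit 0) (nat_lit 1537017556) (nat_lit 1900) (nat_lit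 3050436883) (nat_lit 509) (nat_lit 1) (nat_lit 483) (nat_lit 1) (nat_lit 508) (nat_lit 1) (nat_lit 317) (nat_lit 423) (nat_lit 400)) (XT.nd (nat_lit 78) (nat_lit 0) (nat_lit 76) (XT.lf (nat_lit 1976) (nat_lit 5476804170) (nat_lit 76) (nat_lit 1045821687) (nat_lit 0) (nat_lit 1045821687) (nat_lit 509) (nat_lit 1) (nat_lit 484) (nat_lit 1) (nat_lit 483) (nat_lit 1) (nat_lit 318) (nat_lit 423) (nat_lit 399)) (XT.lf (nat_lit 76) (nat_lit 2414350502) (nat_lit 0) (nat_lit 2670953221) (nat_lit 1900) (nat_lit 2414350502) (nat_lit 485) (nat_lit 1) (nat_lit 484) (nat_lit 1) (nat_lit 509) (nat_lit 1) (nat_lit 319) (nat_lit 423) (nat_lit 398)))) (XT.nd (nat_lit 78) (nat_lit 912) (nat_lit 0) (XT.lf (nat_lit 1216) (nat_lit 4175733684) (nat_lit 0) (nat_lit 1628065781) (nat_lit 1140) (nat_lit 1628065781) (nat_lit 485) (nat_lit 1) (nat_lit 469) (nat_lit 1) (nat_lit 484) (nat_lit 1) (nat_lit 320) (nat_lit 423) (nat_lit 397)) (XT.nd (nat_lit 78) (nat_lit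 912) (nat_lit 0) (XT.lf (nat_lit 76) (nat_lit 1753957889) (nat_lit 0) (nat_lit 3856947452) (nat_lit 1216) (nat_lit 1753957889) (nat_lit 470) (nat_lit 1) (nat_lit 469) (nat_lit 1) (nat_lit 485) (nat_lit 1) (nat_lit 321) (nat_lit 423) (nat_lit 396)) (XT.lf (nat_lit 988) (nat_lit 2827817688) (nat_lit 0) (nat_lit 2235429874) (nat_lit 912) (nat_lit 2235429874) (nat_lit 470) (nat_lit 1) (nat_lit 457) (nat_lit 1) (nat_lit 469) (nat_lit 1) (nat_lit 322) (nat_lit 423) (nat_lit 395))))) (XT.nd (nat_lit 234) (nat_lit 1824) (nat_lit 0) (XT.nd (nat_lit 78) (nat_lit 912) (nat_lit 0) (XT.lf (nat_lit 76) (nat_lit 1071163792) (nat_lit 0) (nat_lit 5091094619) (nat_lit 988) (nat_lit 1071163792) (nat_lit 458) (nat_lit 1) (nat_lit 457) (nat_lit 1) (nat_lit 470) (nat_lit 1) (nat_lit 323) (nat_lit 423) (nat_lit 394)) (XT.nd (nat_lit 78) (nat_lit 0) (nat_lit 0) (XT.lf (nat_lit 988) (nat_lit 1436784420) (nat_lit 0) (nat_lit 2866002659) (nat_lit 912) (nat_lit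 2866002659) (nat_lit 458) (nat_lit 1) (nat_lit 445) (nat_lit 1) (nat_lit 457) (nat_lit 1) (nat_lit 324) (nat_lit 423) (nat_lit 393)) (XT.lf (nat_lit 76) (nat_lit 367780153) (nat_lit 0) (nat_lit 6369677698) (nat_lit 988) (nat_lit 367780153) (nat_lit 446) (nat_lit 1) (nat_lit 445) (nat_lit 1) (nat_lit 458) (nat_lit 1) (nat_lit 325) (nat_lit 423) (nat_lit 392)))) (XT.nd (nat_lit 78) (nat_lit 988) (nat_lit 0) (XT.lf (nat_lit 912) (nat_lit 6179910) (nat_lit 0) (nat_lit 3517965395) (nat_lit 836) (nat_lit 3517965395) (nat_lit 446) (nat_lit 1) (nat_lit 434) (nat_lit 1) (nat_lit 445) (nat_lit 1) (nat_lit 326) (nat_lit 423) (nat_lit 391)) (XT.nd (nat_lit 78) (nat_lit 0) (nat_lit 0) (XT.lf (nat_lit 988) (nat_lit 6275759895) (nat_lit 0) (nat_lit 352137878) (nat_lit 912) (nat_lit 352137878) (nat_lit 434) (nat_lit 1) (nat_lit 421) (nat_lit 1) (nat_lit 433) (nat_lit 1) (nat_lit 327) (nat_lit 423) (nat_lit 390)) (XT.lf (nat_lit 76) (nat_lit 2738447094)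 (nat_lit 0) (nat_lit 1441467856) (nat_lit 988) (nat_lit 2738447094) (nat_lit 422) (nat_lit 1) (nat_lit 421) (nat_lit 1) (nat_lit 434) (nat_lit 1) (nat_lit 328) (nat_lit 423) (nat_lit 389))))))) (XT.nd (nat_lit 936) (nat_lit 4636) (nat_lit 0) (XT.nd (nat_lit 468) (nat_lit 3040) (nat_lit 0) (XT.nd (nat_lit 234) (nat_lit 760) (nat_lit 0) (XT.nd (nat_lit 78) (nat_lit 836) (nat_lit 0) (XT.lf (nat_lit 912) (nat_lit 4684209176) (nat_lit 0) (nat_lit 1086751300) (nat_lit 836) (nat_lit 1086751300) (nat_lit 422) (nat_lit 1) (nat_lit 410) (nat_lit 1) (nat_lit 421) (nat_lit 1) (nat_lit 329) (nat_lit 423) (nat_lit 388)) (XT.nd (nat_lit 78) (nat_lit 836) (nat_lit 0) (XT.lf (nat_lit 76) (nat_lit 1938022877) (nat_lit 0) (nat_lit 2921596717) (nat_lit 912) (nat_lit 1938022877) (nat_lit 411) (nat_lit 1) (nat_lit 410) (nat_lit 1) (nat_lit 422) (nat_lit 1) (nat_lit 330) (nat_lit 423) (nat_lit 387)) (XT.lf (nat_lit 912) (nat_lit 3064507642) (nat_lit 0) (nat_lit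 1836933234) (nat_lit 836) (nat_lit 1836933234) (nat_lit 411) (nat_lit 1) (nat_lit 399) (nat_lit 1) (nat_lit 410) (nat_lit 1) (nat_lit 331) (nat_lit 423) (nat_lit 386)))) (XT.nd (nat_lit 78) (nat_lit 760) (nat_lit 0) (XT.lf (nat_lit 76) (nat_lit 1124293645) (nat_lit 0) (nat_lit 4431282649) (nat_lit 912) (nat_lit 1124293645) (nat_lit 400) (nat_lit 1) (nat_lit 399) (nat_lit 1) (nat_lit 411) (nat_lit 1) (nat_lit 332) (nat_lit 423) (nat_lit 385)) (XT.nd (nat_lit 78) (nat_lit 0) (nat_lit 0) (XT.lf (nat_lit 836) (nat_lit 1419512200) (nat_lit 0) (nat_lit 2601214538) (nat_lit 760) (nat_lit 2601214538) (nat_lit 400) (nat_lit 1) (nat_lit 389) (nat_lit 1) (nat_lit 399) (nat_lit 1) (nat_lit 333) (nat_lit 423) (nat_lit 384)) (XT.lf (nat_lit 76) (nat_lit 298646371) (nat_lit 0) (nat_lit 5967671401) (nat_lit 836) (nat_lit 298646371) (nat_lit 390) (nat_lit 1) (nat_lit 389) (nat_lit 1) (nat_lit 400) (nat_lit 1) (nat_lit 334) (nat_lit 423) (nat_lit 383)))))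 (XT.nd (nat_lit 234) (nat_lit 1444) (nat_lit 0) (XT.nd (nat_lit 78) (nat_lit 760) (nat_lit 0) (XT.lf (nat_lit 76) (nat_lit 3131744919) (nat_lit 0) (nat_lit 244812334) (nat_lit 836) (nat_lit 3131744919) (nat_lit 379) (nat_lit 1) (nat_lit 378) (nat_lit 1) (nat_lit 389) (nat_lit 1) (nat_lit 335) (nat_lit 423) (nat_lit 382)) (XT.nd (nat_lit 78) (nat_lit 0) (nat_lit 0) (XT.lf (nat_lit 836) (nat_lit 5384434984) (nat_lit 0) (nat_lit 534066033) (nat_lit 760) (nat_lit 534066033) (nat_lit 379) (nat_lit 1) (nat_lit 368) (nat_lit 1) (nat_lit 378) (nat_lit 1) (nat_lit 336) (nat_lit 423) (nat_lit 381)) (XT.lf (nat_lit 76) (nat_lit 2243478994) (nat_lit 0) (nat_lit 1910267598) (nat_lit 836) (nat_lit 2243478994) (nat_lit 369) (nat_lit 1) (nat_lit 368) (nat_lit 1) (nat_lit 379) (nat_lit 1) (nat_lit 337) (nat_lit 423) (nat_lit 380)))) (XT.nd (nat_lit 78) (nat_lit 684) (nat_lit 0) (XT.lf (nat_lit 836) (nat_lit 3594511033) (nat_lit 0) (nat_lit 1374105897)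 (nat_lit 760) (nat_lit 1374105897) (nat_lit 369) (nat_lit 1) (nat_lit 358) (nat_lit 1) (nat_lit 368) (nat_lit 1) (nat_lit 338) (nat_lit 423) (nat_lit 379)) (XT.nd (nat_lit 78) (nat_lit 684) (nat_lit 0) (XT.lf (nat_lit 76) (nat_lit 1347879164) (nat_lit 0) (nat_lit 3593063664) (nat_lit 836) (nat_lit 1347879164) (nat_lit 359) (nat_lit 1) (nat_lit 358) (nat_lit 1) (nat_lit 369) (nat_lit 1) (nat_lit 339) (nat_lit 423) (nat_lit 378)) (XT.lf (nat_lit 760) (nat_lit 1790989648) (nat_lit 0) (nat_lit 2222262443) (nat_lit 684) (nat_lit 2222262443) (nat_lit 359) (nat_lit 1) (nat_lit 349) (nat_lit 1) (nat_lit 358) (nat_lit 1) (nat_lit 340) (nat_lit 423) (nat_lit 377)))))) (XT.nd (nat_lit 468) (nat_lit 2508) (nat_lit 0) (XT.nd (nat_lit 234) (nat_lit 684) (nat_lit 0) (XT.nd (nat_lit 78) (nat_lit 1444) (nat_lit 0) (XT.lf (nat_lit 76) (nat_lit 446050336) (nat_lit 0) (nat_lit 5290919082) (nat_lit 760) (nat_lit 446050336) (nat_lit 350) (nat_lit 1) (nat_lit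 349) (nat_lit 1) (nat_lit 359) (nat_lit 1) (nat_lit 341) (nat_lit 423) (nat_lit 376)) (XT.nd (nat_lit 78) (nat_lit 684) (nat_lit 0) (XT.lf (nat_lit 76) (nat_lit 3053605666) (nat_lit 0) (nat_lit 23657314) (nat_lit 760) (nat_lit 3053605666) (nat_lit 340) (nat_lit 1) (nat_lit 339) (nat_lit 1) (nat_lit 349) (nat_lit 1) (nat_lit 342) (nat_lit 423) (nat_lit 375)) (XT.lf (nat_lit 760) (nat_lit 5163651308) (nat_lit 0) (nat_lit 457928923) (nat_lit 684) (nat_lit 457928923) (nat_lit 340) (nat_lit 1) (nat_lit 330) (nat_lit 1) (nat_lit 339) (nat_lit 1) (nat_lit 343) (nat_lit 423) (nat_lit 374)))) (XT.nd (nat_lit 78) (nat_lit 684) (nat_lit 0) (XT.lf (nat_lit 76) (nat_lit 2102198047) (nat_lit 0) (nat_lit 1824090102) (nat_lit 760) (nat_lit 2102198047) (nat_lit 331) (nat_lit 1) (nat_lit 330) (nat_lit 1) (nat_lit 340) (nat_lit 1) (nat_lit 344) (nat_lit 423) (nat_lit 373)) (XT.nd (nat_lit 78) (nat_lit 0) (nat_lit 0) (XT.lf (nat_lit 760) (nat_lit 3251949214)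 (nat_lit 0) (nat_lit 1363139584) (nat_lit 684) (nat_lit 1363139584) (nat_lit 331) (nat_lit 1) (nat_lit 321) (nat_lit 1) (nat_lit 330) (nat_lit 1) (nat_lit 345) (nat_lit 423) (nat_lit 372)) (XT.lf (nat_lit 76) (nat_lit 1148320837) (nat_lit 0) (nat_lit 3631892063) (nat_lit 760) (nat_lit 1148320837) (nat_lit 322) (nat_lit 1) (nat_lit 321) (nat_lit 1) (nat_lit 331) (nat_lit 1) (nat_lit 346) (nat_lit 423) (nat_lit 371))))) (XT.nd (nat_lit 234) (nat_lit 1216) (nat_lit 0) (XT.nd (nat_lit 78) (nat_lit 684) (nat_lit 0) (XT.lf (nat_lit 684) (nat_lit 1336171629) (nat_lit 0) (nat_lit 2271586679) (nat_lit 608) (nat_lit 2271586679) (nat_lit 322) (nat_lit 1) (nat_lit 313) (nat_lit 1) (nat_lit 321) (nat_lit 1) (nat_lit 347) (nat_lit 423) (nat_lit 370)) (XT.nd (nat_lit 78) (nat_lit 684) (nat_lit 0) (XT.lf (nat_lit 76) (nat_lit 192842755) (nat_lit 0) (nat_lit 5445261707) (nat_lit 684) (nat_lit 192842755) (nat_lit 314) (nat_lit 1) (nat_lit 313) (nat_lit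 1) (nat_lit 322) (nat_lit 1) (nat_lit 348) (nat_lit 423) (nat_lit 369)) (XT.lf (nat_lit 76) (nat_lit 2604182788) (nat_lit 0) (nat_lit 574354841) (nat_lit 684) (nat_lit 2604182788) (nat_lit 305) (nat_lit 1) (nat_lit 304) (nat_lit 1) (nat_lit 313) (nat_lit 1) (nat_lit 349) (nat_lit 423) (nat_lit 368)))) (XT.nd (nat_lit 156) (nat_lit 608) (nat_lit 0) (XT.nd (nat_lit 78) (nat_lit 0) (nat_lit 0) (XT.lf (nat_lit 684) (nat_lit 4218478838) (nat_lit 0) (nat_lit 758393890) (nat_lit 608) (nat_lit 758393890) (nat_lit 305) (nat_lit 1) (nat_lit 296) (nat_lit 1) (nat_lit 304) (nat_lit 1) (nat_lit 350) (nat_lit 423) (nat_lit 367)) (XT.lf (nat_lit 76) (nat_lit 1610032349) (nat_lit 0) (nat_lit 2468130805) (nat_lit 684) (nat_lit 1610032349) (nat_lit 297) (nat_lit 1) (nat_lit 296) (nat_lit 1) (nat_lit 305) (nat_lit 1) (nat_lit 351) (nat_lit 423) (nat_lit 366))) (XT.nd (nat_lit 78) (nat_lit 0) (nat_lit 0) (XT.lf (nat_lit 684) (nat_lit 2224989603) (nat_lit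 0) (nat_lit 1708369680) (nat_lit 608) (nat_lit 1708369680) (nat_lit 297) (nat_lit 1) (nat_lit 288) (nat_lit 1) (nat_lit 296) (nat_lit 1) (nat_lit 352) (nat_lit 423) (nat_lit 365)) (XT.lf (nat_lit 76) (nat_lit 617345377) (nat_lit 0) (nat_lit 4361193858) (nat_lit 684) (nat_lit 617345377) (nat_lit 289) (nat_lit 1) (nat_lit 288) (nat_lit 1) (nat_lit 297) (nat_lit 1) (nat_lit 353) (nat_lit 423) (nat_lit 364))))))))
noncomputable def ec98 : XT := (XT.nd (nat_lit 1872) (nat_lit 5320) (nat_lit 0) (XT.nd (nat_lit 936) (nat_lit 3192) (nat_lit 0) (XT.nd (nat_lit 468) (nat_lit 2204) (nat_lit 0) (XT.nd (nat_lit 234) (nat_lit 1064) (nat_lit 0) (XT.nd (nat_lit 78) (nat_lit 684) (nat_lit 0) (XT.lf (nat_lit 608) (nat_lit 235117464) (nat_lit 0) (nat_lit 2657629557) (nat_lit 532) (nat_lit 2657629557) (nat_lit 289) (nat_lit 1) (nat_lit 281) (nat_lit 1) (nat_lit 288) (nat_lit 1) (nat_lit 354) (nat_lit 423) (nat_lit 363)) (XT.nd (nat_lit 78) (nat_lit 0) (nat_lit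 0) (XT.lf (nat_lit 684) (nat_lit 4764033028) (nat_lit 0) (nat_lit 370751401) (nat_lit 608) (nat_lit 370751401) (nat_lit 281) (nat_lit 1) (nat_lit 272) (nat_lit 1) (nat_lit 280) (nat_lit 1) (nat_lit 355) (nat_lit 423) (nat_lit 362)) (XT.lf (nat_lit 76) (nat_lit 1867021992) (nat_lit 0) (nat_lit 1726881771) (nat_lit 684) (nat_lit 1867021992) (nat_lit 273) (nat_lit 1) (nat_lit 272) (nat_lit 1) (nat_lit 281) (nat_lit 1) (nat_lit 356) (nat_lit 423) (nat_lit 361)))) (XT.nd (nat_lit 78) (nat_lit 532) (nat_lit 0) (XT.lf (nat_lit 608) (nat_lit 2712889741) (nat_lit 0) (nat_lit 1352038940) (nat_lit 532) (nat_lit 1352038940) (nat_lit 273) (nat_lit 1) (nat_lit 265) (nat_lit 1) (nat_lit 272) (nat_lit 1) (nat_lit 357) (nat_lit 423) (nat_lit 360)) (XT.nd (nat_lit 78) (nat_lit 532) (nat_lit 0) (XT.lf (nat_lit 76) (nat_lit 846895986) (nat_lit 0) (nat_lit 3679727163) (nat_lit 608) (nat_lit 846895986) (nat_lit 266) (nat_lit 1) (nat_lit 265) (nat_lit 1) (nat_lit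 273) (nat_lit 1) (nat_lit 358) (nat_lit 423) (nat_lit 359)) (XT.lf (nat_lit 608) (nat_lit 670467781) (nat_lit 0) (nat_lit 2329990058) (nat_lit 532) (nat_lit 2329990058) (nat_lit 266) (nat_lit 1) (nat_lit 258) (nat_lit 1) (nat_lit 265) (nat_lit 1) (nat_lit 359) (nat_lit 423) (nat_lit 358))))) (XT.nd (nat_lit 234) (nat_lit 1064) (nat_lit 0) (XT.nd (nat_lit 78) (nat_lit 532) (nat_lit 0) (XT.lf (nat_lit 608) (nat_lit 4953033471) (nat_lit 0) (nat_lit 167506393) (nat_lit 532) (nat_lit 167506393) (nat_lit 258) (nat_lit 1) (nat_lit 250) (nat_lit 1) (nat_lit 257) (nat_lit 1) (nat_lit 360) (nat_lit 423) (nat_lit 357)) (XT.nd (nat_lit 78) (nat_lit 532) (nat_lit 0) (XT.lf (nat_lit 76) (nat_lit 1950715980) (nat_lit 0) (nat_lit 1344315539) (nat_lit 608) (nat_lit 1950715980) (nat_lit 251) (nat_lit 1) (nat_lit 250) (nat_lit 1) (nat_lit 258) (nat_lit 1) (nat_lit 361) (nat_lit 423) (nat_lit 356)) (XT.lf (nat_lit 608) (nat_lit 2861605904) (nat_lit 0) (nat_lit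 1171249403) (nat_lit 532) (nat_lit 1171249403) (nat_lit 251) (nat_lit 1) (nat_lit 243) (nat_lit 1) (nat_lit 250) (nat_lit 1) (nat_lit 362) (nat_lit 423) (nat_lit 355)))) (XT.nd (nat_lit 78) (nat_lit 1064) (nat_lit 0) (XT.lf (nat_lit 76) (nat_lit 911608781) (nat_lit 0) (nat_lit 3339689298) (nat_lit 608) (nat_lit 911608781) (nat_lit 244) (nat_lit 1) (nat_lit 243) (nat_lit 1) (nat_lit 251) (nat_lit 1) (nat_lit 363) (nat_lit 423) (nat_lit 354)) (XT.nd (nat_lit 78) (nat_lit 608) (nat_lit 0) (XT.lf (nat_lit 532) (nat_lit 783218137) (nat_lit 0) (nat_lit 2169433929) (nat_lit 456) (nat_lit 2169433929) (nat_lit 244) (nat_lit 1) (nat_lit 237) (nat_lit 1) (nat_lit 243) (nat_lit 1) (nat_lit 364) (nat_lit 423) (nat_lit 353)) (XT.lf (nat_lit 608) (nat_lit 4841914185) (nat_lit 0) (nat_lit 119993350) (nat_lit 532) (nat_lit 119993350) (nat_lit 237) (nat_lit 1) (nat_lit 229) (nat_lit 1) (nat_lit 236) (nat_lit 1) (nat_lit 365) (nat_lit 423) (nat_lit 352))))))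 (XT.nd (nat_lit 468) (nat_lit 1748) (nat_lit 0) (XT.nd (nat_lit 234) (nat_lit 988) (nat_lit 0) (XT.nd (nat_lit 78) (nat_lit 456) (nat_lit 0) (XT.lf (nat_lit 76) (nat_lit 1888640143) (nat_lit 0) (nat_lit 1264494985) (nat_lit 608) (nat_lit 1888640143) (nat_lit 230) (nat_lit 1) (nat_lit 229) (nat_lit 1) (nat_lit 237) (nat_lit 1) (nat_lit 366) (nat_lit 423) (nat_lit 351)) (XT.nd (nat_lit 78) (nat_lit 0) (nat_lit 0) (XT.lf (nat_lit 532) (nat_lit 2725202518) (nat_lit 0) (nat_lit 1138535399) (nat_lit 456) (nat_lit 1138535399) (nat_lit 230) (nat_lit 1) (nat_lit 223) (nat_lit 1) (nat_lit 229) (nat_lit 1) (nat_lit 367) (nat_lit 423) (nat_lit 350)) (XT.lf (nat_lit 76) (nat_lit 837853013) (nat_lit 0) (nat_lit 3287486007) (nat_lit 532) (nat_lit 837853013) (nat_lit 224) (nat_lit 1) (nat_lit 223) (nat_lit 1) (nat_lit 230) (nat_lit 1) (nat_lit 368) (nat_lit 423) (nat_lit 349)))) (XT.nd (nat_lit 78) (nat_lit 532) (nat_lit 0) (XT.lf (nat_lit 532) (nat_lit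 625159699) (nat_lit 0) (nat_lit 2149646634) (nat_lit 456) (nat_lit 2149646634) (nat_lit 224) (nat_lit 1) (nat_lit 217) (nat_lit 1) (nat_lit 223) (nat_lit 1) (nat_lit 369) (nat_lit 423) (nat_lit 348)) (XT.nd (nat_lit 78) (nat_lit 0) (nat_lit 0) (XT.lf (nat_lit 532) (nat_lit 4480048259) (nat_lit 0) (nat_lit 203118747) (nat_lit 456) (nat_lit 203118747) (nat_lit 217) (nat_lit 1) (nat_lit 210) (nat_lit 1) (nat_lit 216) (nat_lit 1) (nat_lit 370) (nat_lit 423) (nat_lit 347)) (XT.lf (nat_lit 76) (nat_lit 1704872618) (nat_lit 0) (nat_lit 1438460345) (nat_lit 532) (nat_lit 1704872618) (nat_lit 211) (nat_lit 1) (nat_lit 210) (nat_lit 1) (nat_lit 217) (nat_lit 1) (nat_lit 371) (nat_lit 423) (nat_lit 346))))) (XT.nd (nat_lit 234) (nat_lit 912) (nat_lit 0) (XT.nd (nat_lit 78) (nat_lit 380) (nat_lit 0) (XT.lf (nat_lit 532) (nat_lit 2350964991) (nat_lit 0) (nat_lit 1229860763) (nat_lit 456) (nat_lit 1229860763) (nat_lit 211) (nat_lit 1) (nat_lit 204)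 (nat_lit 1) (nat_lit 210) (nat_lit 1) (nat_lit 372) (nat_lit 423) (nat_lit 345)) (XT.nd (nat_lit 78) (nat_lit 380) (nat_lit 0) (XT.lf (nat_lit 76) (nat_lit 648687920) (nat_lit 0) (nat_lit 3476222003) (nat_lit 532) (nat_lit 648687920) (nat_lit 205) (nat_lit 1) (nat_lit 204) (nat_lit 1) (nat_lit 211) (nat_lit 1) (nat_lit 373) (nat_lit 423) (nat_lit 344)) (XT.lf (nat_lit 456) (nat_lit 241575417) (nat_lit 0) (nat_lit 2247606275) (nat_lit 380) (nat_lit 2247606275) (nat_lit 205) (nat_lit 1) (nat_lit 199) (nat_lit 1) (nat_lit 204) (nat_lit 1) (nat_lit 374) (nat_lit 423) (nat_lit 343)))) (XT.nd (nat_lit 78) (nat_lit 380) (nat_lit 0) (XT.lf (nat_lit 532) (nat_lit 3910569492) (nat_lit 0) (nat_lit 394945900) (nat_lit 456) (nat_lit 394945900) (nat_lit 199) (nat_lit 1) (nat_lit 192) (nat_lit 1) (nat_lit 198) (nat_lit 1) (nat_lit 375) (nat_lit 423) (nat_lit 342)) (XT.nd (nat_lit 78) (nat_lit 380) (nat_lit 0) (XT.lf (nat_lit 76) (nat_lit 1420445175)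 (nat_lit 0) (nat_lit 1823418002) (nat_lit 532) (nat_lit 1420445175) (nat_lit 193) (nat_lit 1) (nat_lit 192) (nat_lit 1) (nat_lit 199) (nat_lit 1) (nat_lit 376) (nat_lit 423) (nat_lit 341)) (XT.lf (nat_lit 456) (nat_lit 1780189138) (nat_lit 0) (nat_lit 1424219968) (nat_lit 380) (nat_lit 1424219968) (nat_lit 193) (nat_lit 1) (nat_lit 187) (nat_lit 1) (nat_lit 192) (nat_lit 1) (nat_lit 377) (nat_lit 423) (nat_lit 340))))))) (XT.nd (nat_lit 936) (nat_lit 2584) (nat_lit 0) (XT.nd (nat_lit 468) (nat_lit 1520) (nat_lit 0) (XT.nd (nat_lit 234) (nat_lit 380) (nat_lit 0) (XT.nd (nat_lit 78) (nat_lit 836) (nat_lit 0) (XT.lf (nat_lit 76) (nat_lit 364248328) (nat_lit 0) (nat_lit 3864921569) (nat_lit 456) (nat_lit 364248328) (nat_lit 188) (nat_lit 1) (nat_lit 187) (nat_lit 1) (nat_lit 193) (nat_lit 1) (nat_lit 378) (nat_lit 423) (nat_lit 339)) (XT.nd (nat_lit 78) (nat_lit 380) (nat_lit 0) (XT.lf (nat_lit 76) (nat_lit 2117328451) (nat_lit 0) (nat_lit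 323699719) (nat_lit 456) (nat_lit 2117328451) (nat_lit 182) (nat_lit 1) (nat_lit 181) (nat_lit 1) (nat_lit 187) (nat_lit 1) (nat_lit 379) (nat_lit 423) (nat_lit 338)) (XT.lf (nat_lit 456) (nat_lit 3171100763) (nat_lit 0) (nat_lit 676326937) (nat_lit 380) (nat_lit 676326937) (nat_lit 182) (nat_lit 1) (nat_lit 176) (nat_lit 1) (nat_lit 181) (nat_lit 1) (nat_lit 380) (nat_lit 423) (nat_lit 337)))) (XT.nd (nat_lit 78) (nat_lit 380) (nat_lit 0) (XT.lf (nat_lit 76) (nat_lit 1053698998) (nat_lit 0) (nat_lit 2382021349) (nat_lit 456) (nat_lit 1053698998) (nat_lit 177) (nat_lit 1) (nat_lit 176) (nat_lit 1) (nat_lit 182) (nat_lit 1) (nat_lit 381) (nat_lit 423) (nat_lit 336)) (XT.nd (nat_lit 78) (nat_lit 0) (nat_lit 0) (XT.lf (nat_lit 456) (nat_lit 1048880954) (nat_lit 0) (nat_lit 1703284531) (nat_lit 380) (nat_lit 1703284531) (nat_lit 177) (nat_lit 1) (nat_lit 171) (nat_lit 1) (nat_lit 176) (nat_lit 1) (nat_lit 382) (nat_lit 423) (nat_lit 335))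 (XT.lf (nat_lit 76) (nat_lit 2086458) (nat_lit 0) (nat_lit 4417837634) (nat_lit 456) (nat_lit 2086458) (nat_lit 172) (nat_lit 1) (nat_lit 171) (nat_lit 1) (nat_lit 177) (nat_lit 1) (nat_lit 383) (nat_lit 423) (nat_lit 334))))) (XT.nd (nat_lit 234) (nat_lit 760) (nat_lit 0) (XT.nd (nat_lit 78) (nat_lit 380) (nat_lit 0) (XT.lf (nat_lit 76) (nat_lit 1676582300) (nat_lit 0) (nat_lit 1035356034) (nat_lit 380) (nat_lit 1676582300) (nat_lit 167) (nat_lit 1) (nat_lit 166) (nat_lit 1) (nat_lit 171) (nat_lit 1) (nat_lit 384) (nat_lit 423) (nat_lit 333)) (XT.nd (nat_lit 78) (nat_lit 0) (nat_lit 0) (XT.lf (nat_lit 456) (nat_lit 2294399614) (nat_lit 0) (nat_lit 1030576571) (nat_lit 380) (nat_lit 1030576571) (nat_lit 167) (nat_lit 1) (nat_lit 161) (nat_lit 1) (nat_lit 166) (nat_lit 1) (nat_lit 385) (nat_lit 423) (nat_lit 332)) (XT.lf (nat_lit 76) (nat_lit 620600013) (nat_lit 0) (nat_lit 3081733346) (nat_lit 456) (nat_lit 620600013) (nat_lit 162) (nat_lit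 1) (nat_lit 161) (nat_lit 1) (nat_lit 167) (nat_lit 1) (nat_lit 386) (nat_lit 423) (nat_lit 331)))) (XT.nd (nat_lit 78) (nat_lit 456) (nat_lit 0) (XT.lf (nat_lit 380) (nat_lit 188376850) (nat_lit 0) (nat_lit 2051089597) (nat_lit 304) (nat_lit 2051089597) (nat_lit 162) (nat_lit 1) (nat_lit 157) (nat_lit 1) (nat_lit 161) (nat_lit 1) (nat_lit 387) (nat_lit 423) (nat_lit 330)) (XT.nd (nat_lit 78) (nat_lit 0) (nat_lit 0) (XT.lf (nat_lit 456) (nat_lit 3419078180) (nat_lit 0) (nat_lit 419745361) (nat_lit 380) (nat_lit 419745361) (nat_lit 157) (nat_lit 1) (nat_lit 151) (nat_lit 1) (nat_lit 156) (nat_lit 1) (nat_lit 388) (nat_lit 423) (nat_lit 329)) (XT.lf (nat_lit 76) (nat_lit 1179880100) (nat_lit 0) (nat_lit 1866980799) (nat_lit 456) (nat_lit 1179880100) (nat_lit 152) (nat_lit 1) (nat_lit 151) (nat_lit 1) (nat_lit 157) (nat_lit 1) (nat_lit 389) (nat_lit 423) (nat_lit 328)))))) (XT.nd (nat_lit 468) (nat_lit 1292) (nat_lit 0) (XT.nd (nat_lit 234)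 (nat_lit 608) (nat_lit 0) (XT.nd (nat_lit 78) (nat_lit 380) (nat_lit 0) (XT.lf (nat_lit 380) (nat_lit 1308930392) (nat_lit 0) (nat_lit 1443182970) (nat_lit 304) (nat_lit 1443182970) (nat_lit 152) (nat_lit 1) (nat_lit 147) (nat_lit 1) (nat_lit 151) (nat_lit 1) (nat_lit 390) (nat_lit 423) (nat_lit 327)) (XT.nd (nat_lit 78) (nat_lit 380) (nat_lit 0) (XT.lf (nat_lit 76) (nat_lit 135018338) (nat_lit 0) (nat_lit 3894261584) (nat_lit 380) (nat_lit 135018338) (nat_lit 148) (nat_lit 1) (nat_lit 147) (nat_lit 1) (nat_lit 152) (nat_lit 1) (nat_lit 391) (nat_lit 423) (nat_lit 326)) (XT.lf (nat_lit 76) (nat_lit 1684675477) (nat_lit 0) (nat_lit 763954165) (nat_lit 380) (nat_lit 1684675477) (nat_lit 143) (nat_lit 1) (nat_lit 142) (nat_lit 1) (nat_lit 147) (nat_lit 1) (nat_lit 392) (nat_lit 423) (nat_lit 325)))) (XT.nd (nat_lit 78) (nat_lit 304) (nat_lit 0) (XT.lf (nat_lit 380) (nat_lit 2321895729) (nat_lit 0) (nat_lit 890428210) (nat_lit 304) (nat_lit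 890428210) (nat_lit 143) (nat_lit 1) (nat_lit 138) (nat_lit 1) (nat_lit 142) (nat_lit 1) (nat_lit 393) (nat_lit 423) (nat_lit 324)) (XT.nd (nat_lit 78) (nat_lit 304) (nat_lit 0) (XT.lf (nat_lit 76) (nat_lit 639801025) (nat_lit 0) (nat_lit 2792894702) (nat_lit 380) (nat_lit 639801025) (nat_lit 139) (nat_lit 1) (nat_lit 138) (nat_lit 1) (nat_lit 143) (nat_lit 1) (nat_lit 394) (nat_lit 423) (nat_lit 323)) (XT.lf (nat_lit 380) (nat_lit 239371194) (nat_lit 0) (nat_lit 1901551561) (nat_lit 304) (nat_lit 1901551561) (nat_lit 139) (nat_lit 1) (nat_lit 134) (nat_lit 1) (nat_lit 138) (nat_lit 1) (nat_lit 395) (nat_lit 423) (nat_lit 322))))) (XT.nd (nat_lit 234) (nat_lit 608) (nat_lit 0) (XT.nd (nat_lit 78) (nat_lit 304) (nat_lit 0) (XT.lf (nat_lit 380) (nat_lit 3235902527) (nat_lit 0) (nat_lit 388451581) (nat_lit 304) (nat_lit 388451581) (nat_lit 134) (nat_lit 1) (nat_lit 129) (nat_lit 1) (nat_lit 133) (nat_lit 1) (nat_lit 396) (nat_lit 423) (nat_lit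 321)) (XT.nd (nat_lit 78) (nat_lit 304) (nat_lit 0) (XT.lf (nat_lit 76) (nat_lit 1096042888) (nat_lit 0) (nat_lit 1791182359) (nat_lit 380) (nat_lit 1096042888) (nat_lit 130) (nat_lit 1) (nat_lit 129) (nat_lit 1) (nat_lit 134) (nat_lit 1) (nat_lit 397) (nat_lit 423) (nat_lit 320)) (XT.lf (nat_lit 380) (nat_lit 1156951925) (nat_lit 0) (nat_lit 1398563380) (nat_lit 304) (nat_lit 1398563380) (nat_lit 130) (nat_lit 1) (nat_lit 125) (nat_lit 1) (nat_lit 129) (nat_lit 1) (nat_lit 398) (nat_lit 423) (nat_lit 319)))) (XT.nd (nat_lit 78) (nat_lit 608) (nat_lit 0) (XT.lf (nat_lit 76) (nat_lit 67226442) (nat_lit 0) (nat_lit 3790858462) (nat_lit 380) (nat_lit 67226442) (nat_lit 126) (nat_lit 1) (nat_lit 125) (nat_lit 1) (nat_lit 130) (nat_lit 1) (nat_lit 399) (nat_lit 423) (nat_lit 318)) (XT.nd (nat_lit 78) (nat_lit 304) (nat_lit 0) (XT.lf (nat_lit 76) (nat_lit 1507638559) (nat_lit 0) (nat_lit 881225985) (nat_lit 304) (nat_lit 1507638559) (nat_lit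 122) (nat_lit 1) (nat_lit 121) (nat_lit 1) (nat_lit 125) (nat_lit 1) (nat_lit 400) (nat_lit 423) (nat_lit 317)) (XT.lf (nat_lit 380) (nat_lit 1986305473) (nat_lit 0) (nat_lit 940903115) (nat_lit 304) (nat_lit 940903115) (nat_lit 122) (nat_lit 1) (nat_lit 117) (nat_lit 1) (nat_lit 121) (nat_lit 1) (nat_lit 401) (nat_lit 423) (nat_lit 316))))))))
noncomputable def ec99 : XT := (XT.nd (nat_lit 52650) (nat_lit 0) (nat_lit 18848) (XT.nd (nat_lit 51714) (nat_lit 0) (nat_lit 29716) (XT.nd (nat_lit 468) (nat_lit 760) (nat_lit 0) (XT.nd (nat_lit 234) (nat_lit 608) (nat_lit 0) (XT.nd (nat_lit 78) (nat_lit 608) (nat_lit 0) (XT.lf (nat_lit 76) (nat_lit 482177700) (nat_lit 0) (nat_lit 2875663668) (nat_lit 380) (nat_lit 482177700) (nat_lit 118) (nat_lit 1) (nat_lit 117) (nat_lit 1) (nat_lit 122) (nat_lit 1) (nat_lit 402) (nat_lit 423) (nat_lit 315)) (XT.nd (nat_lit 78) (nat_lit 304) (nat_lit 0) (XT.lf (nat_lit 76) (nat_lit 1878182193) (nat_lit 0) (nat_lit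 55734591) (nat_lit 304) (nat_lit 1878182193) (nat_lit 114) (nat_lit 1) (nat_lit 113) (nat_lit 1) (nat_lit 117) (nat_lit 1) (nat_lit 403) (nat_lit 423) (nat_lit 314)) (XT.lf (nat_lit 380) (nat_lit 2734510527) (nat_lit 0) (nat_lit 524981131) (nat_lit 304) (nat_lit 524981131) (nat_lit 114) (nat_lit 1) (nat_lit 109) (nat_lit 1) (nat_lit 113) (nat_lit 1) (nat_lit 404) (nat_lit 423) (nat_lit 313)))) (XT.nd (nat_lit 78) (nat_lit 608) (nat_lit 0) (XT.lf (nat_lit 76) (nat_lit 857291838) (nat_lit 0) (nat_lit 2042449528) (nat_lit 380) (nat_lit 857291838) (nat_lit 110) (nat_lit 1) (nat_lit 109) (nat_lit 1) (nat_lit 114) (nat_lit 1) (nat_lit 405) (nat_lit 423) (nat_lit 312)) (XT.nd (nat_lit 78) (nat_lit 380) (nat_lit 0) (XT.lf (nat_lit 304) (nat_lit 701218224) (nat_lit 0) (nat_lit 1514324977) (nat_lit 228) (nat_lit 1514324977) (nat_lit 110) (nat_lit 1) (nat_lit 106) (nat_lit 1) (nat_lit 109) (nat_lit 1) (nat_lit 406) (nat_lit 423) (nat_lit 311)) (XT.lf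 (nat_lit 380) (nat_lit 3408099653) (nat_lit 0) (nat_lit 147483859) (nat_lit 304) (nat_lit 147483859) (nat_lit 106) (nat_lit 1) (nat_lit 101) (nat_lit 1) (nat_lit 105) (nat_lit 1) (nat_lit 407) (nat_lit 423) (nat_lit 310))))) (XT.nd (nat_lit 234) (nat_lit 532) (nat_lit 0) (XT.nd (nat_lit 78) (nat_lit 228) (nat_lit 0) (XT.lf (nat_lit 76) (nat_lit 1195764139) (nat_lit 0) (nat_lit 1284731969) (nat_lit 380) (nat_lit 1195764139) (nat_lit 102) (nat_lit 1) (nat_lit 101) (nat_lit 1) (nat_lit 106) (nat_lit 1) (nat_lit 408) (nat_lit 423) (nat_lit 309)) (XT.nd (nat_lit 78) (nat_lit 0) (nat_lit 0) (XT.lf (nat_lit 304) (nat_lit 1386437492) (nat_lit 0) (nat_lit 1131687766) (nat_lit 228) (nat_lit 1131687766) (nat_lit 102) (nat_lit 1) (nat_lit 98) (nat_lit 1) (nat_lit 101) (nat_lit 1) (nat_lit 409) (nat_lit 423) (nat_lit 308)) (XT.lf (nat_lit 76) (nat_lit 195936331) (nat_lit 0) (nat_lit 3231831679) (nat_lit 304) (nat_lit 195936331) (nat_lit 99) (nat_lit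 1) (nat_lit 98) (nat_lit 1) (nat_lit 102) (nat_lit 1) (nat_lit 410) (nat_lit 423) (nat_lit 307)))) (XT.nd (nat_lit 78) (nat_lit 228) (nat_lit 0) (XT.lf (nat_lit 76) (nat_lit 1500543383) (nat_lit 0) (nat_lit 596525435) (nat_lit 304) (nat_lit 1500543383) (nat_lit 95) (nat_lit 1) (nat_lit 94) (nat_lit 1) (nat_lit 98) (nat_lit 1) (nat_lit 411) (nat_lit 423) (nat_lit 306)) (XT.nd (nat_lit 78) (nat_lit 0) (nat_lit 0) (XT.lf (nat_lit 304) (nat_lit 2004991430) (nat_lit 0) (nat_lit 783431589) (nat_lit 228) (nat_lit 783431589) (nat_lit 95) (nat_lit 1) (nat_lit 91) (nat_lit 1) (nat_lit 94) (nat_lit 1) (nat_lit 412) (nat_lit 423) (nat_lit 305)) (XT.lf (nat_lit 76) (nat_lit 507574642) (nat_lit 0) (nat_lit 2531192427) (nat_lit 304) (nat_lit 507574642) (nat_lit 92) (nat_lit 1) (nat_lit 91) (nat_lit 1) (nat_lit 95) (nat_lit 1) (nat_lit 413) (nat_lit 423) (nat_lit 304)))))) (XT.nd (nat_lit 468) (nat_lit 1596) (nat_lit 0) (XT.nd (nat_lit 234) (nat_lit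 0) (nat_lit 76) (XT.nd (nat_lit 78) (nat_lit 0) (nat_lit 0) (XT.lf (nat_lit 1900) (nat_lit 1848518217) (nat_lit 0) (nat_lit 4936205120) (nat_lit 1824) (nat_lit 1848518217) (nat_lit 528) (nat_lit 1) (nat_lit 503) (nat_lit 1) (nat_lit 527) (nat_lit 1) (nat_lit 304) (nat_lit 424) (nat_lit 412)) (XT.nd (nat_lit 78) (nat_lit 0) (nat_lit 76) (XT.lf (nat_lit 1900) (nat_lit 3308199355) (nat_lit 76) (nat_lit 2621707216) (nat_lit 0) (nat_lit 2621707216) (nat_lit 528) (nat_lit 1) (nat_lit 504) (nat_lit 1) (nat_lit 503) (nat_lit 1) (nat_lit 305) (nat_lit 424) (nat_lit 411)) (XT.lf (nat_lit 1900) (nat_lit 1452538963) (nat_lit 0) (nat_lit 5566079057) (nat_lit 1824) (nat_lit 1452538963) (nat_lit 529) (nat_lit 1) (nat_lit 504) (nat_lit 1) (nat_lit 528) (nat_lit 1) (nat_lit 306) (nat_lit 424) (nat_lit 410)))) (XT.nd (nat_lit 78) (nat_lit 0) (nat_lit 76) (XT.lf (nat_lit 1900) (nat_lit 2473241900) (nat_lit 76) (nat_lit 2959158923) (nat_lit 0) (nat_lit 2959158923)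 (nat_lit 529) (nat_lit 1) (nat_lit 505) (nat_lit 1) (nat_lit 504) (nat_lit 1) (nat_lit 307) (nat_lit 424) (nat_lit 409)) (XT.nd (nat_lit 78) (nat_lit 0) (nat_lit 0) (XT.lf (nat_lit 1900) (nat_lit 1016747080) (nat_lit 0) (nat_lit 6279707920) (nat_lit 1824) (nat_lit 1016747080) (nat_lit 530) (nat_lit 1) (nat_lit 505) (nat_lit 1) (nat_lit 529) (nat_lit 1) (nat_lit 308) (nat_lit 424) (nat_lit 408)) (XT.lf (nat_lit 1900) (nat_lit 1561055058) (nat_lit 76) (nat_lit 3337257853) (nat_lit 0) (nat_lit 3337257853) (nat_lit 530) (nat_lit 1) (nat_lit 506) (nat_lit 1) (nat_lit 505) (nat_lit 1) (nat_lit 309) (nat_lit 424) (nat_lit 407))))) (XT.nd (nat_lit 234) (nat_lit 1824) (nat_lit 0) (XT.nd (nat_lit 78) (nat_lit 0) (nat_lit 0) (XT.lf (nat_lit 1900) (nat_lit 543770677) (nat_lit 0) (nat_lit 7071717568) (nat_lit 1824) (nat_lit 543770677) (nat_lit 531) (nat_lit 1) (nat_lit 506) (nat_lit 1) (nat_lit 530) (nat_lit 1) (nat_lit 310) (nat_lit 424) (nat_lit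 406)) (XT.nd (nat_lit 78) (nat_lit 0) (nat_lit 76) (XT.lf (nat_lit 1900) (nat_lit 576787776) (nat_lit 76) (nat_lit 3753371685) (nat_lit 0) (nat_lit 3753371685) (nat_lit 531) (nat_lit 1) (nat_lit 507) (nat_lit 1) (nat_lit 506) (nat_lit 1) (nat_lit 311) (nat_lit 424) (nat_lit 405)) (XT.lf (nat_lit 1900) (nat_lit 36114593) (nat_lit 0) (nat_lit 7936984145) (nat_lit 1824) (nat_lit 36114593) (nat_lit 532) (nat_lit 1) (nat_lit 507) (nat_lit 1) (nat_lit 531) (nat_lit 1) (nat_lit 312) (nat_lit 424) (nat_lit 404)))) (XT.nd (nat_lit 78) (nat_lit 0) (nat_lit 0) (XT.lf (nat_lit 1976) (nat_lit 3733419646) (nat_lit 0) (nat_lit 468427937) (nat_lit 1900) (nat_lit 3733419646) (nat_lit 508) (nat_lit 1) (nat_lit 482) (nat_lit 1) (nat_lit 507) (nat_lit 1) (nat_lit 313) (nat_lit 424) (nat_lit 403)) (XT.nd (nat_lit 78) (nat_lit 0) (nat_lit 76) (XT.lf (nat_lit 1976) (nat_lit 6861652771) (nat_lit 76) (nat_lit 500519701) (nat_lit 0) (nat_lit 500519701) (nat_lit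 508) (nat_lit 1) (nat_lit 483) (nat_lit 1) (nat_lit 482) (nat_lit 1) (nat_lit 314) (nat_lit 424) (nat_lit 402)) (XT.lf (nat_lit 1976) (nat_lit 3111445621) (nat_lit 0) (nat_lit 1567757907) (nat_lit 1900) (nat_lit 3111445621) (nat_lit 509) (nat_lit 1) (nat_lit 483) (nat_lit 1) (nat_lit 508) (nat_lit 1) (nat_lit 315) (nat_lit 424) (nat_lit 401))))))) (XT.nd (nat_lit 936) (nat_lit 5396) (nat_lit 0) (XT.nd (nat_lit 468) (nat_lit 3572) (nat_lit 0) (XT.nd (nat_lit 234) (nat_lit 912) (nat_lit 0) (XT.nd (nat_lit 78) (nat_lit 1064) (nat_lit 0) (XT.lf (nat_lit 1976) (nat_lit 5586340253) (nat_lit 76) (nat_lit 1066738120) (nat_lit 0) (nat_lit 1066738120) (nat_lit 509) (nat_lit 1) (nat_lit 484) (nat_lit 1) (nat_lit 483) (nat_lit 1) (nat_lit 316) (nat_lit 424) (nat_lit 400)) (XT.nd (nat_lit 78) (nat_lit 1140) (nat_lit 0) (XT.lf (nat_lit 76) (nat_lit 2462637512) (nat_lit 0) (nat_lit 2724372286) (nat_lit 1900) (nat_lit 2462637512) (nat_lit 485) (nat_lit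 1) (nat_lit 484) (nat_lit 1) (nat_lit 509) (nat_lit 1) (nat_lit 317) (nat_lit 424) (nat_lit 399)) (XT.lf (nat_lit 1216) (nat_lit 4259248358) (nat_lit 0) (nat_lit 1660627097) (nat_lit 1140) (nat_lit 1660627097) (nat_lit 485) (nat_lit 1) (nat_lit 469) (nat_lit 1) (nat_lit 484) (nat_lit 1) (nat_lit 318) (nat_lit 424) (nat_lit 398)))) (XT.nd (nat_lit 78) (nat_lit 912) (nat_lit 0) (XT.lf (nat_lit 76) (nat_lit 1789037047) (nat_lit 0) (nat_lit 3934086401) (nat_lit 1216) (nat_lit 1789037047) (nat_lit 470) (nat_lit 1) (nat_lit 469) (nat_lit 1) (nat_lit 485) (nat_lit 1) (nat_lit 319) (nat_lit 424) (nat_lit 397)) (XT.nd (nat_lit 78) (nat_lit 0) (nat_lit 0) (XT.lf (nat_lit 988) (nat_lit 2884374042) (nat_lit 0) (nat_lit 2280138472) (nat_lit 912) (nat_lit 2280138472) (nat_lit 470) (nat_lit 1) (nat_lit 457) (nat_lit 1) (nat_lit 469) (nat_lit 1) (nat_lit 320) (nat_lit 424) (nat_lit 396)) (XT.lf (nat_lit 76) (nat_lit 1092587068) (nat_lit 0) (nat_lit 5192916511)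 (nat_lit 988) (nat_lit 1092587068) (nat_lit 458) (nat_lit 1) (nat_lit 457) (nat_lit 1) (nat_lit 470) (nat_lit 1) (nat_lit 321) (nat_lit 424) (nat_lit 395))))) (XT.nd (nat_lit 234) (nat_lit 1824) (nat_lit 0) (XT.nd (nat_lit 78) (nat_lit 836) (nat_lit 0) (XT.lf (nat_lit 988) (nat_lit 1465520108) (nat_lit 0) (nat_lit 2923322712) (nat_lit 912) (nat_lit 2923322712) (nat_lit 458) (nat_lit 1) (nat_lit 445) (nat_lit 1) (nat_lit 457) (nat_lit 1) (nat_lit 322) (nat_lit 424) (nat_lit 394)) (XT.nd (nat_lit 78) (nat_lit 836) (nat_lit 0) (XT.lf (nat_lit 76) (nat_lit 375135756) (nat_lit 0) (nat_lit 6497071252) (nat_lit 988) (nat_lit 375135756) (nat_lit 446) (nat_lit 1) (nat_lit 445) (nat_lit 1) (nat_lit 458) (nat_lit 1) (nat_lit 323) (nat_lit 424) (nat_lit 393)) (XT.lf (nat_lit 912) (nat_lit 6303509) (nat_lit 0) (nat_lit 3588324703) (nat_lit 836) (nat_lit 3588324703) (nat_lit 446) (nat_lit 1) (nat_lit 434) (nat_lit 1) (nat_lit 445) (nat_lit 1) (nat_lit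 324) (nat_lit 424) (nat_lit 392)))) (XT.nd (nat_lit 78) (nat_lit 836) (nat_lit 0) (XT.lf (nat_lit 988) (nat_lit 6401275092) (nat_lit 0) (nat_lit 359180636) (nat_lit 912) (nat_lit 359180636) (nat_lit 434) (nat_lit 1) (nat_lit 421) (nat_lit 1) (nat_lit 433) (nat_lit 1) (nat_lit 325) (nat_lit 424) (nat_lit 391)) (XT.nd (nat_lit 78) (nat_lit 836) (nat_lit 0) (XT.lf (nat_lit 76) (nat_lit 2793216036) (nat_lit 0) (nat_lit 1470297213) (nat_lit 988) (nat_lit 2793216036) (nat_lit 422) (nat_lit 1) (nat_lit 421) (nat_lit 1) (nat_lit 434) (nat_lit 1) (nat_lit 326) (nat_lit 424) (nat_lit 390)) (XT.lf (nat_lit 912) (nat_lit 4777893360) (nat_lit 0) (nat_lit 1108486326) (nat_lit 836) (nat_lit 1108486326) (nat_lit 422) (nat_lit 1) (nat_lit 410) (nat_lit 1) (nat_lit 421) (nat_lit 1) (nat_lit 327) (nat_lit 424) (nat_lit 389)))))) (XT.nd (nat_lit 468) (nat_lit 2964) (nat_lit 0) (XT.nd (nat_lit 234) (nat_lit 1596) (nat_lit 0) (XT.nd (nat_lit 78) (nat_lit 836)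 (nat_lit 0) (XT.lf (nat_lit 76) (nat_lit 1976783334) (nat_lit 0) (nat_lit 2980028651) (nat_lit 912) (nat_lit 1976783334) (nat_lit 411) (nat_lit 1) (nat_lit 410) (nat_lit 1) (nat_lit 422) (nat_lit 1) (nat_lit 328) (nat_lit 424) (nat_lit 388)) (XT.nd (nat_lit 78) (nat_lit 0) (nat_lit 0) (XT.lf (nat_lit 912) (nat_lit 3125797795) (nat_lit 0) (nat_lit 1873671899) (nat_lit 836) (nat_lit 1873671899) (nat_lit 411) (nat_lit 1) (nat_lit 399) (nat_lit 1) (nat_lit 410) (nat_lit 1) (nat_lit 329) (nat_lit 424) (nat_lit 387)) (XT.lf (nat_lit 76) (nat_lit 1146779518) (nat_lit 0) (nat_lit 4519908302) (nat_lit 912) (nat_lit 1146779518) (nat_lit 400) (nat_lit 1) (nat_lit 399) (nat_lit 1) (nat_lit 411) (nat_lit 1) (nat_lit 330) (nat_lit 424) (nat_lit 386)))) (XT.nd (nat_lit 78) (nat_lit 836) (nat_lit 0) (XT.lf (nat_lit 836) (nat_lit 1447902444) (nat_lit 0) (nat_lit 2653238829) (nat_lit 760) (nat_lit 2653238829) (nat_lit 400) (nat_lit 1) (nat_lit 389) (nat_lit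 1) (nat_lit 399) (nat_lit 1) (nat_lit 331) (nat_lit 424) (nat_lit 385)) (XT.nd (nat_lit 78) (nat_lit 836) (nat_lit 0) (XT.lf (nat_lit 76) (nat_lit 304619298) (nat_lit 0) (nat_lit 6087024829) (nat_lit 836) (nat_lit 304619298) (nat_lit 390) (nat_lit 1) (nat_lit 389) (nat_lit 1) (nat_lit 400) (nat_lit 1) (nat_lit 332) (nat_lit 424) (nat_lit 384)) (XT.lf (nat_lit 76) (nat_lit 3194379817) (nat_lit 0) (nat_lit 249708581) (nat_lit 836) (nat_lit 3194379817) (nat_lit 379) (nat_lit 1) (nat_lit 378) (nat_lit 1) (nat_lit 389) (nat_lit 1) (nat_lit 333) (nat_lit 424) (nat_lit 383))))) (XT.nd (nat_lit 234) (nat_lit 1444) (nat_lit 0) (XT.nd (nat_lit 78) (nat_lit 760) (nat_lit 0) (XT.lf (nat_lit 836) (nat_lit 5492123684) (nat_lit 0) (nat_lit 544747354) (nat_lit 760) (nat_lit 544747354) (nat_lit 379) (nat_lit 1) (nat_lit 368) (nat_lit 1) (nat_lit 378) (nat_lit 1) (nat_lit 334) (nat_lit 424) (nat_lit 382)) (XT.nd (nat_lit 78) (nat_lit 760) (nat_lit 0) (XT.lf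 (nat_lit 76) (nat_lit 2288348574) (nat_lit 0) (nat_lit 1948472950) (nat_lit 836) (nat_lit 2288348574) (nat_lit 369) (nat_lit 1) (nat_lit 368) (nat_lit 1) (nat_lit 379) (nat_lit 1) (nat_lit 335) (nat_lit 424) (nat_lit 381)) (XT.lf (nat_lit 836) (nat_lit 3666401254) (nat_lit 0) (nat_lit 1401588015) (nat_lit 760) (nat_lit 1401588015) (nat_lit 369) (nat_lit 1) (nat_lit 358) (nat_lit 1) (nat_lit 368) (nat_lit 1) (nat_lit 336) (nat_lit 424) (nat_lit 380)))) (XT.nd (nat_lit 156) (nat_lit 760) (nat_lit 0) (XT.nd (nat_lit 78) (nat_lit 684) (nat_lit 0) (XT.lf (nat_lit 76) (nat_lit 1374836747) (nat_lit 0) (nat_lit 3664924938) (nat_lit 836) (nat_lit 1374836747) (nat_lit 359) (nat_lit 1) (nat_lit 358) (nat_lit 1) (nat_lit 369) (nat_lit 1) (nat_lit 337) (nat_lit 424) (nat_lit 379)) (XT.lf (nat_lit 760) (nat_lit 1826809441) (nat_lit 0) (nat_lit 2266707692) (nat_lit 684) (nat_lit 2266707692) (nat_lit 359) (nat_lit 1) (nat_lit 349) (nat_lit 1) (nat_lit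 358) (nat_lit 1) (nat_lit 338) (nat_lit 424) (nat_lit 378))) (XT.nd (nat_lit 78) (nat_lit 760) (nat_lit 0) (XT.lf (nat_lit 76) (nat_lit 454971342) (nat_lit 0) (nat_lit 5396737463) (nat_lit 760) (nat_lit 454971342) (nat_lit 350) (nat_lit 1) (nat_lit 349) (nat_lit 1) (nat_lit 359) (nat_lit 1) (nat_lit 339) (nat_lit 424) (nat_lit 377)) (XT.lf (nat_lit 76) (nat_lit 3114677780) (nat_lit 0) (nat_lit 24130460) (nat_lit 760) (nat_lit 3114677780) (nat_lit 340) (nat_lit 1) (nat_lit 339) (nat_lit 1) (nat_lit 349) (nat_lit 1) (nat_lit 340) (nat_lit 424) (nat_lit 376))))))))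
noncomputable def ec100 : XT := (XT.nd (nat_lit 1872) (nat_lit 6232) (nat_lit 0) (XT.nd (nat_lit 936) (nat_lit 3952) (nat_lit 0) (XT.nd (nat_lit 468) (nat_lit 2432) (nat_lit 0) (XT.nd (nat_lit 234) (nat_lit 608) (nat_lit 0) (XT.nd (nat_lit 78) (nat_lit 684) (nat_lit 0) (XT.lf (nat_lit 760) (nat_lit 5266924335) (nat_lit 0) (nat_lit 467087502) (nat_lit 684) (nat_lit 467087502) (nat_lit 340) (nat_lit 1) (nat_lit 330) (nat_lit 1) (nat_lit 339) (nat_lit 1) (nat_lit 341) (nat_lit 424) (nat_lit 375)) (XT.nd (nat_lit 78) (nat_lit 684) (nat_lit 0) (XT.lf (nat_lit 76) (nat_lit 2144242008) (nat_lit 0) (nat_lit 1860571904) (nat_lit 760) (nat_lit 2144242008) (nat_lit 331) (nat_lit 1) (nat_lit 330) (nat_lit 1) (nat_lit 340) (nat_lit 1) (nat_lit 342) (nat_lit 424) (nat_lit 374)) (XT.lf (nat_lit 760) (nat_lit 3316988198) (nat_lit 0) (nat_lit 1390402375) (nat_lit 684) (nat_lit 1390402375) (nat_lit 331) (nat_lit 1) (nat_lit 321) (nat_lit 1) (nat_lit 330)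 (nat_lit 1) (nat_lit 343) (nat_lit 424) (nat_lit 373)))) (XT.nd (nat_lit 78) (nat_lit 608) (nat_lit 0) (XT.lf (nat_lit 76) (nat_lit 1171287254) (nat_lit 0) (nat_lit 3704529904) (nat_lit 760) (nat_lit 1171287254) (nat_lit 322) (nat_lit 1) (nat_lit 321) (nat_lit 1) (nat_lit 331) (nat_lit 1) (nat_lit 344) (nat_lit 424) (nat_lit 372)) (XT.nd (nat_lit 78) (nat_lit 0) (nat_lit 0) (XT.lf (nat_lit 684) (nat_lit 1362895061) (nat_lit 0) (nat_lit 2317018413) (nat_lit 608) (nat_lit 2317018413) (nat_lit 322) (nat_lit 1) (nat_lit 313) (nat_lit 1) (nat_lit 321) (nat_lit 1) (nat_lit 345) (nat_lit 424) (nat_lit 371)) (XT.lf (nat_lit 76) (nat_lit 196699610) (nat_lit 0) (nat_lit 5554166942) (nat_lit 684) (nat_lit 196699610) (nat_lit 314) (nat_lit 1) (nat_lit 313) (nat_lit 1) (nat_lit 322) (nat_lit 1) (nat_lit 346) (nat_lit 424) (nat_lit 370))))) (XT.nd (nat_lit 234) (nat_lit 1140) (nat_lit 0) (XT.nd (nat_lit 78) (nat_lit 608) (nat_lit 0) (XT.lf (nat_lit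 76) (nat_lit 2656266443) (nat_lit 0) (nat_lit 585841938) (nat_lit 684) (nat_lit 2656266443) (nat_lit 305) (nat_lit 1) (nat_lit 304) (nat_lit 1) (nat_lit 313) (nat_lit 1) (nat_lit 347) (nat_lit 424) (nat_lit 369)) (XT.nd (nat_lit 78) (nat_lit 0) (nat_lit 0) (XT.lf (nat_lit 684) (nat_lit 4302848414) (nat_lit 0) (nat_lit 773561768) (nat_lit 608) (nat_lit 773561768) (nat_lit 305) (nat_lit 1) (nat_lit 296) (nat_lit 1) (nat_lit 304) (nat_lit 1) (nat_lit 348) (nat_lit 424) (nat_lit 368)) (XT.lf (nat_lit 76) (nat_lit 1642232996) (nat_lit 0) (nat_lit 2517493421) (nat_lit 684) (nat_lit 1642232996) (nat_lit 297) (nat_lit 1) (nat_lit 296) (nat_lit 1) (nat_lit 305) (nat_lit 1) (nat_lit 349) (nat_lit 424) (nat_lit 367)))) (XT.nd (nat_lit 78) (nat_lit 532) (nat_lit 0) (XT.lf (nat_lit 684) (nat_lit 2269489395) (nat_lit 0) (nat_lit 1742537074) (nat_lit 608) (nat_lit 1742537074) (nat_lit 297) (nat_lit 1) (nat_lit 288) (nat_lit 1) (nat_lit 296) (nat_lit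 1) (nat_lit 350) (nat_lit 424) (nat_lit 366)) (XT.nd (nat_lit 78) (nat_lit 532) (nat_lit 0) (XT.lf (nat_lit 76) (nat_lit 629692284) (nat_lit 0) (nat_lit 4448417735) (nat_lit 684) (nat_lit 629692284) (nat_lit 289) (nat_lit 1) (nat_lit 288) (nat_lit 1) (nat_lit 297) (nat_lit 1) (nat_lit 351) (nat_lit 424) (nat_lit 365)) (XT.lf (nat_lit 608) (nat_lit 239819814) (nat_lit 0) (nat_lit 2710782148) (nat_lit 532) (nat_lit 2710782148) (nat_lit 289) (nat_lit 1) (nat_lit 281) (nat_lit 1) (nat_lit 288) (nat_lit 1) (nat_lit 352) (nat_lit 424) (nat_lit 364)))))) (XT.nd (nat_lit 468) (nat_lit 1596) (nat_lit 0) (XT.nd (nat_lit 234) (nat_lit 1140) (nat_lit 0) (XT.nd (nat_lit 78) (nat_lit 532) (nat_lit 0) (XT.lf (nat_lit 684) (nat_lit 4859313689) (nat_lit 0) (nat_lit 378166429) (nat_lit 608) (nat_lit 378166429) (nat_lit 281) (nat_lit 1) (nat_lit 272) (nat_lit 1) (nat_lit 280) (nat_lit 1) (nat_lit 353) (nat_lit 424) (nat_lit 363)) (XT.nd (nat_lit 78) (nat_lit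 532) (nat_lit 0) (XT.lf (nat_lit 76) (nat_lit 1904362432) (nat_lit 0) (nat_lit 1761419406) (nat_lit 684) (nat_lit 1904362432) (nat_lit 273) (nat_lit 1) (nat_lit 272) (nat_lit 1) (nat_lit 281) (nat_lit 1) (nat_lit 354) (nat_lit 424) (nat_lit 362)) (XT.lf (nat_lit 608) (nat_lit 2767147536) (nat_lit 0) (nat_lit 1379079719) (nat_lit 532) (nat_lit 1379079719) (nat_lit 273) (nat_lit 1) (nat_lit 265) (nat_lit 1) (nat_lit 272) (nat_lit 1) (nat_lit 355) (nat_lit 424) (nat_lit 361)))) (XT.nd (nat_lit 78) (nat_lit 1140) (nat_lit 0) (XT.lf (nat_lit 76) (nat_lit 863833905) (nat_lit 0) (nat_lit 3753321706) (nat_lit 608) (nat_lit 863833905) (nat_lit 266) (nat_lit 1) (nat_lit 265) (nat_lit 1) (nat_lit 273) (nat_lit 1) (nat_lit 356) (nat_lit 424) (nat_lit 360)) (XT.nd (nat_lit 78) (nat_lit 608) (nat_lit 0) (XT.lf (nat_lit 608) (nat_lit 683877136) (nat_lit 0) (nat_lit 2376589859) (nat_lit 532) (nat_lit 2376589859) (nat_lit 266) (nat_lit 1) (nat_lit 258)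 (nat_lit 1) (nat_lit 265) (nat_lit 1) (nat_lit 357) (nat_lit 424) (nat_lit 359)) (XT.lf (nat_lit 608) (nat_lit 5052094141) (nat_lit 0) (nat_lit 170856520) (nat_lit 532) (nat_lit 170856520) (nat_lit 258) (nat_lit 1) (nat_lit 250) (nat_lit 1) (nat_lit 257) (nat_lit 1) (nat_lit 358) (nat_lit 424) (nat_lit 358))))) (XT.nd (nat_lit 234) (nat_lit 1064) (nat_lit 0) (XT.nd (nat_lit 78) (nat_lit 532) (nat_lit 0) (XT.lf (nat_lit 76) (nat_lit 1989730299) (nat_lit 0) (nat_lit 1371201849) (nat_lit 608) (nat_lit 1989730299) (nat_lit 251) (nat_lit 1) (nat_lit 250) (nat_lit 1) (nat_lit 258) (nat_lit 1) (nat_lit 359) (nat_lit 424) (nat_lit 357)) (XT.nd (nat_lit 78) (nat_lit 0) (nat_lit 0) (XT.lf (nat_lit 608) (nat_lit 2918838023) (nat_lit 0) (nat_lit 1194674391) (nat_lit 532) (nat_lit 1194674391) (nat_lit 251) (nat_lit 1) (nat_lit 243) (nat_lit 1) (nat_lit 250) (nat_lit 1) (nat_lit 360) (nat_lit 424) (nat_lit 356)) (XT.lf (nat_lit 76) (nat_lit 929840957)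 (nat_lit 0) (nat_lit 3406483084) (nat_lit 608) (nat_lit 929840957) (nat_lit 244) (nat_lit 1) (nat_lit 243) (nat_lit 1) (nat_lit 251) (nat_lit 1) (nat_lit 361) (nat_lit 424) (nat_lit 355)))) (XT.nd (nat_lit 78) (nat_lit 608) (nat_lit 0) (XT.lf (nat_lit 532) (nat_lit 798882500) (nat_lit 0) (nat_lit 2212822608) (nat_lit 456) (nat_lit 2212822608) (nat_lit 244) (nat_lit 1) (nat_lit 237) (nat_lit 1) (nat_lit 243) (nat_lit 1) (nat_lit 362) (nat_lit 424) (nat_lit 354)) (XT.nd (nat_lit 78) (nat_lit 0) (nat_lit 0) (XT.lf (nat_lit 608) (nat_lit 4938752469) (nat_lit 0) (nat_lit 122393218) (nat_lit 532) (nat_lit 122393218) (nat_lit 237) (nat_lit 1) (nat_lit 229) (nat_lit 1) (nat_lit 236) (nat_lit 1) (nat_lit 363) (nat_lit 424) (nat_lit 353)) (XT.lf (nat_lit 76) (nat_lit 1926412946) (nat_lit 0) (nat_lit 1289784885) (nat_lit 608) (nat_lit 1926412946) (nat_lit 230) (nat_lit 1) (nat_lit 229) (nat_lit 1) (nat_lit 237) (nat_lit 1) (nat_lit 364) (nat_lit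 424) (nat_lit 352))))))) (XT.nd (nat_lit 936) (nat_lit 3040) (nat_lit 0) (XT.nd (nat_lit 468) (nat_lit 1292) (nat_lit 0) (XT.nd (nat_lit 234) (nat_lit 988) (nat_lit 0) (XT.nd (nat_lit 78) (nat_lit 456) (nat_lit 0) (XT.lf (nat_lit 532) (nat_lit 2779706569) (nat_lit 0) (nat_lit 1161306107) (nat_lit 456) (nat_lit 1161306107) (nat_lit 230) (nat_lit 1) (nat_lit 223) (nat_lit 1) (nat_lit 229) (nat_lit 1) (nat_lit 365) (nat_lit 424) (nat_lit 351)) (XT.nd (nat_lit 78) (nat_lit 456) (nat_lit 0) (XT.lf (nat_lit 76) (nat_lit 854610073) (nat_lit 0) (nat_lit 3353235727) (nat_lit 532) (nat_lit 854610073) (nat_lit 224) (nat_lit 1) (nat_lit 223) (nat_lit 1) (nat_lit 230) (nat_lit 1) (nat_lit 366) (nat_lit 424) (nat_lit 350)) (XT.lf (nat_lit 532) (nat_lit 637662893) (nat_lit 0) (nat_lit 2192639566) (nat_lit 456) (nat_lit 2192639566) (nat_lit 224) (nat_lit 1) (nat_lit 217) (nat_lit 1) (nat_lit 223) (nat_lit 1) (nat_lit 367) (nat_lit 424) (nat_lit 349))))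 (XT.nd (nat_lit 78) (nat_lit 456) (nat_lit 0) (XT.lf (nat_lit 532) (nat_lit 4569649224) (nat_lit 0) (nat_lit 207181122) (nat_lit 456) (nat_lit 207181122) (nat_lit 217) (nat_lit 1) (nat_lit 210) (nat_lit 1) (nat_lit 216) (nat_lit 1) (nat_lit 368) (nat_lit 424) (nat_lit 348)) (XT.nd (nat_lit 78) (nat_lit 456) (nat_lit 0) (XT.lf (nat_lit 76) (nat_lit 1738970070) (nat_lit 0) (nat_lit 1467229552) (nat_lit 532) (nat_lit 1738970070) (nat_lit 211) (nat_lit 1) (nat_lit 210) (nat_lit 1) (nat_lit 217) (nat_lit 1) (nat_lit 369) (nat_lit 424) (nat_lit 347)) (XT.lf (nat_lit 532) (nat_lit 2397984291) (nat_lit 0) (nat_lit 1254457978) (nat_lit 456) (nat_lit 1254457978) (nat_lit 211) (nat_lit 1) (nat_lit 204) (nat_lit 1) (nat_lit 210) (nat_lit 1) (nat_lit 370) (nat_lit 424) (nat_lit 346))))) (XT.nd (nat_lit 234) (nat_lit 380) (nat_lit 0) (XT.nd (nat_lit 78) (nat_lit 912) (nat_lit 0) (XT.lf (nat_lit 76) (nat_lit 661661678) (nat_lit 0) (nat_lit 3545746443)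 (nat_lit 532) (nat_lit 661661678) (nat_lit 205) (nat_lit 1) (nat_lit 204) (nat_lit 1) (nat_lit 211) (nat_lit 1) (nat_lit 371) (nat_lit 424) (nat_lit 345)) (XT.nd (nat_lit 78) (nat_lit 532) (nat_lit 0) (XT.lf (nat_lit 456) (nat_lit 246406925) (nat_lit 0) (nat_lit 2292558400) (nat_lit 380) (nat_lit 2292558400) (nat_lit 205) (nat_lit 1) (nat_lit 199) (nat_lit 1) (nat_lit 204) (nat_lit 1) (nat_lit 372) (nat_lit 424) (nat_lit 344)) (XT.lf (nat_lit 532) (nat_lit 3988780882) (nat_lit 0) (nat_lit 402844818) (nat_lit 456) (nat_lit 402844818) (nat_lit 199) (nat_lit 1) (nat_lit 192) (nat_lit 1) (nat_lit 198) (nat_lit 1) (nat_lit 373) (nat_lit 424) (nat_lit 343)))) (XT.nd (nat_lit 78) (nat_lit 380) (nat_lit 0) (XT.lf (nat_lit 76) (nat_lit 1448854078) (nat_lit 0) (nat_lit 1859886362) (nat_lit 532) (nat_lit 1448854078) (nat_lit 193) (nat_lit 1) (nat_lit 192) (nat_lit 1) (nat_lit 199) (nat_lit 1) (nat_lit 374) (nat_lit 424) (nat_lit 342)) (XT.nd (nat_lit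 78) (nat_lit 0) (nat_lit 0) (XT.lf (nat_lit 456) (nat_lit 1815792920) (nat_lit 0) (nat_lit 1452704367) (nat_lit 380) (nat_lit 1452704367) (nat_lit 193) (nat_lit 1) (nat_lit 187) (nat_lit 1) (nat_lit 192) (nat_lit 1) (nat_lit 375) (nat_lit 424) (nat_lit 341)) (XT.lf (nat_lit 76) (nat_lit 371533295) (nat_lit 0) (nat_lit 3942220000) (nat_lit 456) (nat_lit 371533295) (nat_lit 188) (nat_lit 1) (nat_lit 187) (nat_lit 1) (nat_lit 193) (nat_lit 1) (nat_lit 376) (nat_lit 424) (nat_lit 340)))))) (XT.nd (nat_lit 468) (nat_lit 1444) (nat_lit 0) (XT.nd (nat_lit 234) (nat_lit 760) (nat_lit 0) (XT.nd (nat_lit 78) (nat_lit 380) (nat_lit 0) (XT.lf (nat_lit 76) (nat_lit 2159675021) (nat_lit 0) (nat_lit 330173714) (nat_lit 456) (nat_lit 2159675021) (nat_lit 182) (nat_lit 1) (nat_lit 181) (nat_lit 1) (nat_lit 187) (nat_lit 1) (nat_lit 377) (nat_lit 424) (nat_lit 339)) (XT.nd (nat_lit 78) (nat_lit 0) (nat_lit 0) (XT.lf (nat_lit 456) (nat_lit 3234522778) (nat_lit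 0) (nat_lit 689853476) (nat_lit 380) (nat_lit 689853476) (nat_lit 182) (nat_lit 1) (nat_lit 176) (nat_lit 1) (nat_lit 181) (nat_lit 1) (nat_lit 378) (nat_lit 424) (nat_lit 338)) (XT.lf (nat_lit 76) (nat_lit 1074772978) (nat_lit 0) (nat_lit 2429661776) (nat_lit 456) (nat_lit 1074772978) (nat_lit 177) (nat_lit 1) (nat_lit 176) (nat_lit 1) (nat_lit 182) (nat_lit 1) (nat_lit 379) (nat_lit 424) (nat_lit 337)))) (XT.nd (nat_lit 78) (nat_lit 380) (nat_lit 0) (XT.lf (nat_lit 456) (nat_lit 1069858573) (nat_lit 0) (nat_lit 1737350221) (nat_lit 380) (nat_lit 1737350221) (nat_lit 177) (nat_lit 1) (nat_lit 171) (nat_lit 1) (nat_lit 176) (nat_lit 1) (nat_lit 380) (nat_lit 424) (nat_lit 336)) (XT.nd (nat_lit 78) (nat_lit 380) (nat_lit 0) (XT.lf (nat_lit 76) (nat_lit 2128187) (nat_lit 0) (nat_lit 4506194387) (nat_lit 456) (nat_lit 2128187) (nat_lit 172) (nat_lit 1) (nat_lit 171) (nat_lit 1) (nat_lit 177) (nat_lit 1) (nat_lit 381) (nat_lit 424) (nat_lit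 335)) (XT.lf (nat_lit 76) (nat_lit 1710113946) (nat_lit 0) (nat_lit 1056063154) (nat_lit 380) (nat_lit 1710113946) (nat_lit 167) (nat_lit 1) (nat_lit 166) (nat_lit 1) (nat_lit 171) (nat_lit 1) (nat_lit 382) (nat_lit 424) (nat_lit 334))))) (XT.nd (nat_lit 234) (nat_lit 760) (nat_lit 0) (XT.nd (nat_lit 78) (nat_lit 304) (nat_lit 0) (XT.lf (nat_lit 456) (nat_lit 2340287606) (nat_lit 0) (nat_lit 1051188102) (nat_lit 380) (nat_lit 1051188102) (nat_lit 167) (nat_lit 1) (nat_lit 161) (nat_lit 1) (nat_lit 166) (nat_lit 1) (nat_lit 383) (nat_lit 424) (nat_lit 333)) (XT.nd (nat_lit 78) (nat_lit 304) (nat_lit 0) (XT.lf (nat_lit 76) (nat_lit 633012013) (nat_lit 0) (nat_lit 3143368012) (nat_lit 456) (nat_lit 633012013) (nat_lit 162) (nat_lit 1) (nat_lit 161) (nat_lit 1) (nat_lit 167) (nat_lit 1) (nat_lit 384) (nat_lit 424) (nat_lit 332)) (XT.lf (nat_lit 380) (nat_lit 192144387) (nat_lit 0) (nat_lit 2092111389) (nat_lit 304) (nat_lit 2092111389) (nat_lit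 162) (nat_lit 1) (nat_lit 157) (nat_lit 1) (nat_lit 161) (nat_lit 1) (nat_lit 385) (nat_lit 424) (nat_lit 331)))) (XT.nd (nat_lit 78) (nat_lit 304) (nat_lit 0) (XT.lf (nat_lit 456) (nat_lit 3487459743) (nat_lit 0) (nat_lit 428140268) (nat_lit 380) (nat_lit 428140268) (nat_lit 157) (nat_lit 1) (nat_lit 151) (nat_lit 1) (nat_lit 156) (nat_lit 1) (nat_lit 386) (nat_lit 424) (nat_lit 330)) (XT.nd (nat_lit 78) (nat_lit 304) (nat_lit 0) (XT.lf (nat_lit 76) (nat_lit 1203477702) (nat_lit 0) (nat_lit 1904320415) (nat_lit 456) (nat_lit 1203477702) (nat_lit 152) (nat_lit 1) (nat_lit 151) (nat_lit 1) (nat_lit 157) (nat_lit 1) (nat_lit 387) (nat_lit 424) (nat_lit 329)) (XT.lf (nat_lit 380) (nat_lit 1335109000) (nat_lit 0) (nat_lit 1472046630) (nat_lit 304) (nat_lit 1472046630) (nat_lit 152) (nat_lit 1) (nat_lit 147) (nat_lit 1) (nat_lit 151) (nat_lit 1) (nat_lit 388) (nat_lit 424) (nat_lit 328))))))))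
noncomputable def ec101 : XT := (XT.nd (nat_lit 52728) (nat_lit 0) (nat_lit 23636) (XT.nd (nat_lit 936) (nat_lit 2204) (nat_lit 0) (XT.nd (nat_lit 468) (nat_lit 912) (nat_lit 0) (XT.nd (nat_lit 234) (nat_lit 684) (nat_lit 0) (XT.nd (nat_lit 78) (nat_lit 684) (nat_lit 0) (XT.lf (nat_lit 76) (nat_lit 137718705) (nat_lit 0) (nat_lit 3972146815) (nat_lit 380) (nat_lit 137718705) (nat_lit 148) (nat_lit 1) (nat_lit 147) (nat_lit 1) (nat_lit 152) (nat_lit 1) (nat_lit 389) (nat_lit 424) (nat_lit 327)) (XT.nd (nat_lit 78) (nat_lit 304) (nat_lit 0) (XT.lf (nat_lit 76) (nat_lit 1718368986) (nat_lit 0) (nat_lit 779233248) (nat_lit 380) (nat_lit 1718368986) (nat_lit 143) (nat_lit 1) (nat_lit 142) (nat_lit 1) (nat_lit 147) (nat_lit 1) (nat_lit 390) (nat_lit 424) (nat_lit 326)) (XT.lf (nat_lit 380) (nat_lit 2368333644) (nat_lit 0) (nat_lit 908236774) (nat_lit 304) (nat_lit 908236774) (nat_lit 143) (nat_lit 1) (nat_lit 138) (nat_lit 1) (nat_lit 142)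 (nat_lit 1) (nat_lit 391) (nat_lit 424) (nat_lit 325)))) (XT.nd (nat_lit 78) (nat_lit 684) (nat_lit 0) (XT.lf (nat_lit 76) (nat_lit 652597045) (nat_lit 0) (nat_lit 2848752596) (nat_lit 380) (nat_lit 652597045) (nat_lit 139) (nat_lit 1) (nat_lit 138) (nat_lit 1) (nat_lit 143) (nat_lit 1) (nat_lit 392) (nat_lit 424) (nat_lit 324)) (XT.nd (nat_lit 78) (nat_lit 380) (nat_lit 0) (XT.lf (nat_lit 380) (nat_lit 244158618) (nat_lit 0) (nat_lit 1939582592) (nat_lit 304) (nat_lit 1939582592) (nat_lit 139) (nat_lit 1) (nat_lit 134) (nat_lit 1) (nat_lit 138) (nat_lit 1) (nat_lit 393) (nat_lit 424) (nat_lit 323)) (XT.lf (nat_lit 380) (nat_lit 3300620578) (nat_lit 0) (nat_lit 396220613) (nat_lit 304) (nat_lit 396220613) (nat_lit 134) (nat_lit 1) (nat_lit 129) (nat_lit 1) (nat_lit 133) (nat_lit 1) (nat_lit 394) (nat_lit 424) (nat_lit 322))))) (XT.nd (nat_lit 234) (nat_lit 608) (nat_lit 0) (XT.nd (nat_lit 78) (nat_lit 304) (nat_lit 0) (XT.lf (nat_lit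 76) (nat_lit 1117963746) (nat_lit 0) (nat_lit 1827006006) (nat_lit 380) (nat_lit 1117963746) (nat_lit 130) (nat_lit 1) (nat_lit 129) (nat_lit 1) (nat_lit 134) (nat_lit 1) (nat_lit 395) (nat_lit 424) (nat_lit 321)) (XT.nd (nat_lit 78) (nat_lit 0) (nat_lit 0) (XT.lf (nat_lit 380) (nat_lit 1180090964) (nat_lit 0) (nat_lit 1426534648) (nat_lit 304) (nat_lit 1426534648) (nat_lit 130) (nat_lit 1) (nat_lit 125) (nat_lit 1) (nat_lit 129) (nat_lit 1) (nat_lit 396) (nat_lit 424) (nat_lit 320)) (XT.lf (nat_lit 76) (nat_lit 68570970) (nat_lit 0) (nat_lit 3866675632) (nat_lit 380) (nat_lit 68570970) (nat_lit 126) (nat_lit 1) (nat_lit 125) (nat_lit 1) (nat_lit 130) (nat_lit 1) (nat_lit 397) (nat_lit 424) (nat_lit 319)))) (XT.nd (nat_lit 78) (nat_lit 304) (nat_lit 0) (XT.lf (nat_lit 76) (nat_lit 1537791330) (nat_lit 0) (nat_lit 898850505) (nat_lit 304) (nat_lit 1537791330) (nat_lit 122) (nat_lit 1) (nat_lit 121) (nat_lit 1) (nat_lit 125) (nat_lit 1)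 (nat_lit 398) (nat_lit 424) (nat_lit 318)) (XT.nd (nat_lit 78) (nat_lit 0) (nat_lit 0) (XT.lf (nat_lit 380) (nat_lit 2026031582) (nat_lit 0) (nat_lit 959721177) (nat_lit 304) (nat_lit 959721177) (nat_lit 122) (nat_lit 1) (nat_lit 117) (nat_lit 1) (nat_lit 121) (nat_lit 1) (nat_lit 399) (nat_lit 424) (nat_lit 317)) (XT.lf (nat_lit 76) (nat_lit 491821254) (nat_lit 0) (nat_lit 2933176942) (nat_lit 380) (nat_lit 491821254) (nat_lit 118) (nat_lit 1) (nat_lit 117) (nat_lit 1) (nat_lit 122) (nat_lit 1) (nat_lit 400) (nat_lit 424) (nat_lit 316)))))) (XT.nd (nat_lit 468) (nat_lit 988) (nat_lit 0) (XT.nd (nat_lit 234) (nat_lit 608) (nat_lit 0) (XT.nd (nat_lit 78) (nat_lit 304) (nat_lit 0) (XT.lf (nat_lit 76) (nat_lit 1915745837) (nat_lit 0) (nat_lit 56849283) (nat_lit 304) (nat_lit 1915745837) (nat_lit 114) (nat_lit 1) (nat_lit 113) (nat_lit 1) (nat_lit 117) (nat_lit 1) (nat_lit 401) (nat_lit 424) (nat_lit 315)) (XT.nd (nat_lit 78) (nat_lit 0)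 (nat_lit 0) (XT.lf (nat_lit 380) (nat_lit 2789200738) (nat_lit 0) (nat_lit 535480753) (nat_lit 304) (nat_lit 535480753) (nat_lit 114) (nat_lit 1) (nat_lit 109) (nat_lit 1) (nat_lit 113) (nat_lit 1) (nat_lit 402) (nat_lit 424) (nat_lit 314)) (XT.lf (nat_lit 76) (nat_lit 874437675) (nat_lit 0) (nat_lit 2083298519) (nat_lit 380) (nat_lit 874437675) (nat_lit 110) (nat_lit 1) (nat_lit 109) (nat_lit 1) (nat_lit 114) (nat_lit 1) (nat_lit 403) (nat_lit 424) (nat_lit 313)))) (XT.nd (nat_lit 78) (nat_lit 380) (nat_lit 0) (XT.lf (nat_lit 304) (nat_lit 715242588) (nat_lit 0) (nat_lit 1544611476) (nat_lit 228) (nat_lit 1544611476) (nat_lit 110) (nat_lit 1) (nat_lit 106) (nat_lit 1) (nat_lit 109) (nat_lit 1) (nat_lit 404) (nat_lit 424) (nat_lit 312)) (XT.nd (nat_lit 78) (nat_lit 0) (nat_lit 0) (XT.lf (nat_lit 380) (nat_lit 3476261646) (nat_lit 0) (nat_lit 150433536) (nat_lit 304) (nat_lit 150433536) (nat_lit 106) (nat_lit 1) (nat_lit 101) (nat_lit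 1) (nat_lit 105) (nat_lit 1) (nat_lit 405) (nat_lit 424) (nat_lit 311)) (XT.lf (nat_lit 76) (nat_lit 1219679422) (nat_lit 0) (nat_lit 1310426609) (nat_lit 380) (nat_lit 1219679422) (nat_lit 102) (nat_lit 1) (nat_lit 101) (nat_lit 1) (nat_lit 106) (nat_lit 1) (nat_lit 406) (nat_lit 424) (nat_lit 310))))) (XT.nd (nat_lit 234) (nat_lit 456) (nat_lit 0) (XT.nd (nat_lit 78) (nat_lit 304) (nat_lit 0) (XT.lf (nat_lit 304) (nat_lit 1414166242) (nat_lit 0) (nat_lit 1154321522) (nat_lit 228) (nat_lit 1154321522) (nat_lit 102) (nat_lit 1) (nat_lit 98) (nat_lit 1) (nat_lit 101) (nat_lit 1) (nat_lit 407) (nat_lit 424) (nat_lit 309)) (XT.nd (nat_lit 78) (nat_lit 304) (nat_lit 0) (XT.lf (nat_lit 76) (nat_lit 199855058) (nat_lit 0) (nat_lit 3296468313) (nat_lit 304) (nat_lit 199855058) (nat_lit 99) (nat_lit 1) (nat_lit 98) (nat_lit 1) (nat_lit 102) (nat_lit 1) (nat_lit 408) (nat_lit 424) (nat_lit 308)) (XT.lf (nat_lit 76) (nat_lit 1530554251) (nat_lit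 0) (nat_lit 608455944) (nat_lit 304) (nat_lit 1530554251) (nat_lit 95) (nat_lit 1) (nat_lit 94) (nat_lit 1) (nat_lit 98) (nat_lit 1) (nat_lit 409) (nat_lit 424) (nat_lit 307)))) (XT.nd (nat_lit 78) (nat_lit 228) (nat_lit 0) (XT.lf (nat_lit 304) (nat_lit 2045091259) (nat_lit 0) (nat_lit 799100221) (nat_lit 228) (nat_lit 799100221) (nat_lit 95) (nat_lit 1) (nat_lit 91) (nat_lit 1) (nat_lit 94) (nat_lit 1) (nat_lit 410) (nat_lit 424) (nat_lit 306)) (XT.nd (nat_lit 78) (nat_lit 228) (nat_lit 0) (XT.lf (nat_lit 76) (nat_lit 517726135) (nat_lit 0) (nat_lit 2581816276) (nat_lit 304) (nat_lit 517726135) (nat_lit 92) (nat_lit 1) (nat_lit 91) (nat_lit 1) (nat_lit 95) (nat_lit 1) (nat_lit 411) (nat_lit 424) (nat_lit 305)) (XT.lf (nat_lit 304) (nat_lit 28624493) (nat_lit 0) (nat_lit 1781399053) (nat_lit 228) (nat_lit 1781399053) (nat_lit 92) (nat_lit 1) (nat_lit 88) (nat_lit 1) (nat_lit 91) (nat_lit 1) (nat_lit 412) (nat_lit 424) (nat_lit 304)))))))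 (XT.nd (nat_lit 936) (nat_lit 6308) (nat_lit 0) (XT.nd (nat_lit 468) (nat_lit 1672) (nat_lit 0) (XT.nd (nat_lit 234) (nat_lit 0) (nat_lit 76) (XT.nd (nat_lit 78) (nat_lit 0) (nat_lit 0) (XT.lf (nat_lit 1900) (nat_lit 1481589743) (nat_lit 0) (nat_lit 5677400638) (nat_lit 1824) (nat_lit 1481589743) (nat_lit 529) (nat_lit 1) (nat_lit 504) (nat_lit 1) (nat_lit 528) (nat_lit 1) (nat_lit 304) (nat_lit 425) (nat_lit 411)) (XT.nd (nat_lit 78) (nat_lit 0) (nat_lit 76) (XT.lf (nat_lit 1900) (nat_lit 2522706738) (nat_lit 76) (nat_lit 3018342101) (nat_lit 0) (nat_lit 3018342101) (nat_lit 529) (nat_lit 1) (nat_lit 505) (nat_lit 1) (nat_lit 504) (nat_lit 1) (nat_lit 305) (nat_lit 425) (nat_lit 410)) (XT.lf (nat_lit 1900) (nat_lit 1037082022) (nat_lit 0) (nat_lit 6405302079) (nat_lit 1824) (nat_lit 1037082022) (nat_lit 530) (nat_lit 1) (nat_lit 505) (nat_lit 1) (nat_lit 529) (nat_lit 1) (nat_lit 306) (nat_lit 425) (nat_lit 409)))) (XT.nd (nat_lit 78)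 (nat_lit 0) (nat_lit 76) (XT.lf (nat_lit 1900) (nat_lit 1592276159) (nat_lit 76) (nat_lit 3404003010) (nat_lit 0) (nat_lit 3404003010) (nat_lit 530) (nat_lit 1) (nat_lit 506) (nat_lit 1) (nat_lit 505) (nat_lit 1) (nat_lit 307) (nat_lit 425) (nat_lit 408)) (XT.nd (nat_lit 78) (nat_lit 0) (nat_lit 0) (XT.lf (nat_lit 1900) (nat_lit 554646091) (nat_lit 0) (nat_lit 7213151919) (nat_lit 1824) (nat_lit 554646091) (nat_lit 531) (nat_lit 1) (nat_lit 506) (nat_lit 1) (nat_lit 530) (nat_lit 1) (nat_lit 308) (nat_lit 425) (nat_lit 407)) (XT.lf (nat_lit 1900) (nat_lit 588323531) (nat_lit 76) (nat_lit 3828439119) (nat_lit 0) (nat_lit 3828439119) (nat_lit 531) (nat_lit 1) (nat_lit 507) (nat_lit 1) (nat_lit 506) (nat_lit 1) (nat_lit 309) (nat_lit 425) (nat_lit 406))))) (XT.nd (nat_lit 234) (nat_lit 0) (nat_lit 76) (XT.nd (nat_lit 78) (nat_lit 1900) (nat_lit 0) (XT.lf (nat_lit 1900) (nat_lit 36836885) (nat_lit 0) (nat_lit 8095723828) (nat_lit 1824) (nat_lit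 36836885) (nat_lit 532) (nat_lit 1) (nat_lit 507) (nat_lit 1) (nat_lit 531) (nat_lit 1) (nat_lit 310) (nat_lit 425) (nat_lit 405)) (XT.nd (nat_lit 78) (nat_lit 0) (nat_lit 0) (XT.lf (nat_lit 1976) (nat_lit 3808088039) (nat_lit 0) (nat_lit 477796496) (nat_lit 1900) (nat_lit 3808088039) (nat_lit 508) (nat_lit 1) (nat_lit 482) (nat_lit 1) (nat_lit 507) (nat_lit 1) (nat_lit 311) (nat_lit 425) (nat_lit 404)) (XT.lf (nat_lit 1976) (nat_lit 6998885827) (nat_lit 76) (nat_lit 510530095) (nat_lit 0) (nat_lit 510530095) (nat_lit 508) (nat_lit 1) (nat_lit 483) (nat_lit 1) (nat_lit 482) (nat_lit 1) (nat_lit 312) (nat_lit 425) (nat_lit 403)))) (XT.nd (nat_lit 78) (nat_lit 0) (nat_lit 0) (XT.lf (nat_lit 1976) (nat_lit 3173674534) (nat_lit 0) (nat_lit 1599113065) (nat_lit 1900) (nat_lit 3173674534) (nat_lit 509) (nat_lit 1) (nat_lit 483) (nat_lit 1) (nat_lit 508) (nat_lit 1) (nat_lit 313) (nat_lit 425) (nat_lit 402)) (XT.nd (nat_lit 78) (nat_lit 0) (nat_lit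 76) (XT.lf (nat_lit 1976) (nat_lit 5698067058) (nat_lit 76) (nat_lit 1088072883) (nat_lit 0) (nat_lit 1088072883) (nat_lit 509) (nat_lit 1) (nat_lit 484) (nat_lit 1) (nat_lit 483) (nat_lit 1) (nat_lit 314) (nat_lit 425) (nat_lit 401)) (XT.lf (nat_lit 76) (nat_lit 2511890262) (nat_lit 0) (nat_lit 2778859732) (nat_lit 1900) (nat_lit 2511890262) (nat_lit 485) (nat_lit 1) (nat_lit 484) (nat_lit 1) (nat_lit 509) (nat_lit 1) (nat_lit 315) (nat_lit 425) (nat_lit 400)))))) (XT.nd (nat_lit 468) (nat_lit 3496) (nat_lit 0) (XT.nd (nat_lit 234) (nat_lit 912) (nat_lit 0) (XT.nd (nat_lit 78) (nat_lit 912) (nat_lit 0) (XT.lf (nat_lit 1216) (nat_lit 4344433325) (nat_lit 0) (nat_lit 1693839639) (nat_lit 1140) (nat_lit 1693839639) (nat_lit 485) (nat_lit 1) (nat_lit 469) (nat_lit 1) (nat_lit 484) (nat_lit 1) (nat_lit 316) (nat_lit 425) (nat_lit 399)) (XT.nd (nat_lit 78) (nat_lit 912) (nat_lit 0) (XT.lf (nat_lit 76) (nat_lit 1824817788) (nat_lit 0) (nat_lit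 4012768129) (nat_lit 1216) (nat_lit 1824817788) (nat_lit 470) (nat_lit 1) (nat_lit 469) (nat_lit 1) (nat_lit 485) (nat_lit 1) (nat_lit 317) (nat_lit 425) (nat_lit 398)) (XT.lf (nat_lit 988) (nat_lit 2942061522) (nat_lit 0) (nat_lit 2325741241) (nat_lit 912) (nat_lit 2325741241) (nat_lit 470) (nat_lit 1) (nat_lit 457) (nat_lit 1) (nat_lit 469) (nat_lit 1) (nat_lit 318) (nat_lit 425) (nat_lit 397)))) (XT.nd (nat_lit 78) (nat_lit 912) (nat_lit 0) (XT.lf (nat_lit 76) (nat_lit 1114438809) (nat_lit 0) (nat_lit 5296774841) (nat_lit 988) (nat_lit 1114438809) (nat_lit 458) (nat_lit 1) (nat_lit 457) (nat_lit 1) (nat_lit 470) (nat_lit 1) (nat_lit 319) (nat_lit 425) (nat_lit 396)) (XT.nd (nat_lit 78) (nat_lit 0) (nat_lit 0) (XT.lf (nat_lit 988) (nat_lit 1494830510) (nat_lit 0) (nat_lit 2981789166) (nat_lit 912) (nat_lit 2981789166) (nat_lit 458) (nat_lit 1) (nat_lit 445) (nat_lit 1) (nat_lit 457) (nat_lit 1) (nat_lit 320) (nat_lit 425) (nat_lit 395))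 (XT.lf (nat_lit 76) (nat_lit 382638471) (nat_lit 0) (nat_lit 6627012677) (nat_lit 988) (nat_lit 382638471) (nat_lit 446) (nat_lit 1) (nat_lit 445) (nat_lit 1) (nat_lit 458) (nat_lit 1) (nat_lit 321) (nat_lit 425) (nat_lit 394))))) (XT.nd (nat_lit 234) (nat_lit 1672) (nat_lit 0) (XT.nd (nat_lit 78) (nat_lit 988) (nat_lit 0) (XT.lf (nat_lit 912) (nat_lit 6429579) (nat_lit 0) (nat_lit 3660091197) (nat_lit 836) (nat_lit 3660091197) (nat_lit 446) (nat_lit 1) (nat_lit 434) (nat_lit 1) (nat_lit 445) (nat_lit 1) (nat_lit 322) (nat_lit 425) (nat_lit 393)) (XT.nd (nat_lit 78) (nat_lit 0) (nat_lit 0) (XT.lf (nat_lit 988) (nat_lit 6529300594) (nat_lit 0) (nat_lit 366364248) (nat_lit 912) (nat_lit 366364248) (nat_lit 434) (nat_lit 1) (nat_lit 421) (nat_lit 1) (nat_lit 433) (nat_lit 1) (nat_lit 323) (nat_lit 425) (nat_lit 392)) (XT.lf (nat_lit 76) (nat_lit 2849080357) (nat_lit 0) (nat_lit 1499703157) (nat_lit 988) (nat_lit 2849080357) (nat_lit 422)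 (nat_lit 1) (nat_lit 421) (nat_lit 1) (nat_lit 434) (nat_lit 1) (nat_lit 324) (nat_lit 425) (nat_lit 391)))) (XT.nd (nat_lit 156) (nat_lit 836) (nat_lit 0) (XT.nd (nat_lit 78) (nat_lit 0) (nat_lit 0) (XT.lf (nat_lit 912) (nat_lit 4873451227) (nat_lit 0) (nat_lit 1130656053) (nat_lit 836) (nat_lit 1130656053) (nat_lit 422) (nat_lit 1) (nat_lit 410) (nat_lit 1) (nat_lit 421) (nat_lit 1) (nat_lit 325) (nat_lit 425) (nat_lit 390)) (XT.lf (nat_lit 76) (nat_lit 2016319001) (nat_lit 0) (nat_lit 3039629224) (nat_lit 912) (nat_lit 2016319001) (nat_lit 411) (nat_lit 1) (nat_lit 410) (nat_lit 1) (nat_lit 422) (nat_lit 1) (nat_lit 326) (nat_lit 425) (nat_lit 389))) (XT.nd (nat_lit 78) (nat_lit 0) (nat_lit 0) (XT.lf (nat_lit 912) (nat_lit 3188313751) (nat_lit 0) (nat_lit 1911145337) (nat_lit 836) (nat_lit 1911145337) (nat_lit 411) (nat_lit 1) (nat_lit 399) (nat_lit 1) (nat_lit 410) (nat_lit 1) (nat_lit 327) (nat_lit 425) (nat_lit 388)) (XT.lf (nat_lit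 76) (nat_lit 1169715108) (nat_lit 0) (nat_lit 4610306468) (nat_lit 912) (nat_lit 1169715108) (nat_lit 400) (nat_lit 1) (nat_lit 399) (nat_lit 1) (nat_lit 411) (nat_lit 1) (nat_lit 328) (nat_lit 425) (nat_lit 387))))))))
noncomputable def ec102 : XT := (XT.nd (nat_lit 1872) (nat_lit 7296) (nat_lit 0) (XT.nd (nat_lit 936) (nat_lit 4408) (nat_lit 0) (XT.nd (nat_lit 468) (nat_lit 2128) (nat_lit 0) (XT.nd (nat_lit 234) (nat_lit 1520) (nat_lit 0) (XT.nd (nat_lit 78) (nat_lit 836) (nat_lit 0) (XT.lf (nat_lit 836) (nat_lit 1476860493) (nat_lit 0) (nat_lit 2706303606) (nat_lit 760) (nat_lit 2706303606) (nat_lit 400) (nat_lit 1) (nat_lit 389) (nat_lit 1) (nat_lit 399) (nat_lit 1) (nat_lit 329) (nat_lit 425) (nat_lit 386)) (XT.nd (nat_lit 78) (nat_lit 836) (nat_lit 0) (XT.lf (nat_lit 76) (nat_lit 310711684) (nat_lit 0) (nat_lit 6208765326) (nat_lit 836) (nat_lit 310711684) (nat_lit 390) (nat_lit 1) (nat_lit 389) (nat_lit 1) (nat_lit 400) (nat_lit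 1) (nat_lit 330) (nat_lit 425) (nat_lit 385)) (XT.lf (nat_lit 76) (nat_lit 3258267414) (nat_lit 0) (nat_lit 254702752) (nat_lit 836) (nat_lit 3258267414) (nat_lit 379) (nat_lit 1) (nat_lit 378) (nat_lit 1) (nat_lit 389) (nat_lit 1) (nat_lit 331) (nat_lit 425) (nat_lit 384)))) (XT.nd (nat_lit 78) (nat_lit 760) (nat_lit 0) (XT.lf (nat_lit 836) (nat_lit 5601966157) (nat_lit 0) (nat_lit 555642301) (nat_lit 760) (nat_lit 555642301) (nat_lit 379) (nat_lit 1) (nat_lit 368) (nat_lit 1) (nat_lit 378) (nat_lit 1) (nat_lit 332) (nat_lit 425) (nat_lit 383)) (XT.nd (nat_lit 78) (nat_lit 760) (nat_lit 0) (XT.lf (nat_lit 76) (nat_lit 2334115546) (nat_lit 0) (nat_lit 1987442409) (nat_lit 836) (nat_lit 2334115546) (nat_lit 369) (nat_lit 1) (nat_lit 368) (nat_lit 1) (nat_lit 379) (nat_lit 1) (nat_lit 333) (nat_lit 425) (nat_lit 382)) (XT.lf (nat_lit 836) (nat_lit 3739729279) (nat_lit 0) (nat_lit 1429619776) (nat_lit 760) (nat_lit 1429619776) (nat_lit 369)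 (nat_lit 1) (nat_lit 358) (nat_lit 1) (nat_lit 368) (nat_lit 1) (nat_lit 334) (nat_lit 425) (nat_lit 381))))) (XT.nd (nat_lit 234) (nat_lit 1444) (nat_lit 0) (XT.nd (nat_lit 78) (nat_lit 684) (nat_lit 0) (XT.lf (nat_lit 76) (nat_lit 1402333482) (nat_lit 0) (nat_lit 3738223437) (nat_lit 836) (nat_lit 1402333482) (nat_lit 359) (nat_lit 1) (nat_lit 358) (nat_lit 1) (nat_lit 369) (nat_lit 1) (nat_lit 335) (nat_lit 425) (nat_lit 380)) (XT.nd (nat_lit 78) (nat_lit 0) (nat_lit 0) (XT.lf (nat_lit 760) (nat_lit 1863345630) (nat_lit 0) (nat_lit 2312041845) (nat_lit 684) (nat_lit 2312041845) (nat_lit 359) (nat_lit 1) (nat_lit 349) (nat_lit 1) (nat_lit 358) (nat_lit 1) (nat_lit 336) (nat_lit 425) (nat_lit 379)) (XT.lf (nat_lit 76) (nat_lit 464070769) (nat_lit 0) (nat_lit 5504672213) (nat_lit 760) (nat_lit 464070769) (nat_lit 350) (nat_lit 1) (nat_lit 349) (nat_lit 1) (nat_lit 359) (nat_lit 1) (nat_lit 337) (nat_lit 425) (nat_lit 378)))) (XT.nd (nat_lit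 78) (nat_lit 684) (nat_lit 0) (XT.lf (nat_lit 76) (nat_lit 3176971335) (nat_lit 0) (nat_lit 24613070) (nat_lit 760) (nat_lit 3176971335) (nat_lit 340) (nat_lit 1) (nat_lit 339) (nat_lit 1) (nat_lit 349) (nat_lit 1) (nat_lit 338) (nat_lit 425) (nat_lit 377)) (XT.nd (nat_lit 78) (nat_lit 0) (nat_lit 0) (XT.lf (nat_lit 760) (nat_lit 5372262821) (nat_lit 0) (nat_lit 476429252) (nat_lit 684) (nat_lit 476429252) (nat_lit 340) (nat_lit 1) (nat_lit 330) (nat_lit 1) (nat_lit 339) (nat_lit 1) (nat_lit 339) (nat_lit 425) (nat_lit 376)) (XT.lf (nat_lit 76) (nat_lit 2187126848) (nat_lit 0) (nat_lit 1897783342) (nat_lit 760) (nat_lit 2187126848) (nat_lit 331) (nat_lit 1) (nat_lit 330) (nat_lit 1) (nat_lit 340) (nat_lit 1) (nat_lit 340) (nat_lit 425) (nat_lit 375)))))) (XT.nd (nat_lit 468) (nat_lit 1824) (nat_lit 0) (XT.nd (nat_lit 234) (nat_lit 1292) (nat_lit 0) (XT.nd (nat_lit 78) (nat_lit 608) (nat_lit 0) (XT.lf (nat_lit 760) (nat_lit 3383327962)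 (nat_lit 0) (nat_lit 1418210423) (nat_lit 684) (nat_lit 1418210423) (nat_lit 331) (nat_lit 1) (nat_lit 321) (nat_lit 1) (nat_lit 330) (nat_lit 1) (nat_lit 341) (nat_lit 425) (nat_lit 374)) (XT.nd (nat_lit 78) (nat_lit 608) (nat_lit 0) (XT.lf (nat_lit 76) (nat_lit 1194712999) (nat_lit 0) (nat_lit 3778620502) (nat_lit 760) (nat_lit 1194712999) (nat_lit 322) (nat_lit 1) (nat_lit 321) (nat_lit 1) (nat_lit 331) (nat_lit 1) (nat_lit 342) (nat_lit 425) (nat_lit 373)) (XT.lf (nat_lit 684) (nat_lit 1390152962) (nat_lit 0) (nat_lit 2363358781) (nat_lit 608) (nat_lit 2363358781) (nat_lit 322) (nat_lit 1) (nat_lit 313) (nat_lit 1) (nat_lit 321) (nat_lit 1) (nat_lit 343) (nat_lit 425) (nat_lit 372)))) (XT.nd (nat_lit 78) (nat_lit 1292) (nat_lit 0) (XT.lf (nat_lit 76) (nat_lit 200633602) (nat_lit 0) (nat_lit 5665250280) (nat_lit 684) (nat_lit 200633602) (nat_lit 314) (nat_lit 1) (nat_lit 313) (nat_lit 1) (nat_lit 322) (nat_lit 1) (nat_lit 344) (nat_lit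 425) (nat_lit 371)) (XT.nd (nat_lit 78) (nat_lit 608) (nat_lit 0) (XT.lf (nat_lit 76) (nat_lit 2709391772) (nat_lit 0) (nat_lit 597558777) (nat_lit 684) (nat_lit 2709391772) (nat_lit 305) (nat_lit 1) (nat_lit 304) (nat_lit 1) (nat_lit 313) (nat_lit 1) (nat_lit 345) (nat_lit 425) (nat_lit 370)) (XT.lf (nat_lit 684) (nat_lit 4388905383) (nat_lit 0) (nat_lit 789033003) (nat_lit 608) (nat_lit 789033003) (nat_lit 305) (nat_lit 1) (nat_lit 296) (nat_lit 1) (nat_lit 304) (nat_lit 1) (nat_lit 346) (nat_lit 425) (nat_lit 369))))) (XT.nd (nat_lit 234) (nat_lit 1216) (nat_lit 0) (XT.nd (nat_lit 78) (nat_lit 608) (nat_lit 0) (XT.lf (nat_lit 76) (nat_lit 1675077655) (nat_lit 0) (nat_lit 2567843290) (nat_lit 684) (nat_lit 1675077655) (nat_lit 297) (nat_lit 1) (nat_lit 296) (nat_lit 1) (nat_lit 305) (nat_lit 1) (nat_lit 347) (nat_lit 425) (nat_lit 368)) (XT.nd (nat_lit 78) (nat_lit 0) (nat_lit 0) (XT.lf (nat_lit 684) (nat_lit 2314879183) (nat_lit 0)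 (nat_lit 1777387815) (nat_lit 608) (nat_lit 1777387815) (nat_lit 297) (nat_lit 1) (nat_lit 288) (nat_lit 1) (nat_lit 296) (nat_lit 1) (nat_lit 348) (nat_lit 425) (nat_lit 367)) (XT.lf (nat_lit 76) (nat_lit 642286130) (nat_lit 0) (nat_lit 4537386090) (nat_lit 684) (nat_lit 642286130) (nat_lit 289) (nat_lit 1) (nat_lit 288) (nat_lit 1) (nat_lit 297) (nat_lit 1) (nat_lit 349) (nat_lit 425) (nat_lit 366)))) (XT.nd (nat_lit 78) (nat_lit 684) (nat_lit 0) (XT.lf (nat_lit 608) (nat_lit 244616210) (nat_lit 0) (nat_lit 2764997791) (nat_lit 532) (nat_lit 2764997791) (nat_lit 289) (nat_lit 1) (nat_lit 281) (nat_lit 1) (nat_lit 288) (nat_lit 1) (nat_lit 350) (nat_lit 425) (nat_lit 365)) (XT.nd (nat_lit 78) (nat_lit 0) (nat_lit 0) (XT.lf (nat_lit 684) (nat_lit 4956499963) (nat_lit 0) (nat_lit 385729758) (nat_lit 608) (nat_lit 385729758) (nat_lit 281) (nat_lit 1) (nat_lit 272) (nat_lit 1) (nat_lit 280) (nat_lit 1) (nat_lit 351) (nat_lit 425) (nat_lit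 364)) (XT.lf (nat_lit 76) (nat_lit 1942449681) (nat_lit 0) (nat_lit 1796647794) (nat_lit 684) (nat_lit 1942449681) (nat_lit 273) (nat_lit 1) (nat_lit 272) (nat_lit 1) (nat_lit 281) (nat_lit 1) (nat_lit 352) (nat_lit 425) (nat_lit 363))))))) (XT.nd (nat_lit 936) (nat_lit 3572) (nat_lit 0) (XT.nd (nat_lit 468) (nat_lit 1520) (nat_lit 0) (XT.nd (nat_lit 234) (nat_lit 1140) (nat_lit 0) (XT.nd (nat_lit 78) (nat_lit 532) (nat_lit 0) (XT.lf (nat_lit 608) (nat_lit 2822490486) (nat_lit 0) (nat_lit 1406661313) (nat_lit 532) (nat_lit 1406661313) (nat_lit 273) (nat_lit 1) (nat_lit 265) (nat_lit 1) (nat_lit 272) (nat_lit 1) (nat_lit 353) (nat_lit 425) (nat_lit 362)) (XT.nd (nat_lit 78) (nat_lit 532) (nat_lit 0) (XT.lf (nat_lit 76) (nat_lit 881110583) (nat_lit 0) (nat_lit 3828388140) (nat_lit 608) (nat_lit 881110583) (nat_lit 266) (nat_lit 1) (nat_lit 265) (nat_lit 1) (nat_lit 273) (nat_lit 1) (nat_lit 354) (nat_lit 425) (nat_lit 361)) (XT.lf (nat_lit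 608) (nat_lit 697554679) (nat_lit 0) (nat_lit 2424121657) (nat_lit 532) (nat_lit 2424121657) (nat_lit 266) (nat_lit 1) (nat_lit 258) (nat_lit 1) (nat_lit 265) (nat_lit 1) (nat_lit 355) (nat_lit 425) (nat_lit 360)))) (XT.nd (nat_lit 78) (nat_lit 532) (nat_lit 0) (XT.lf (nat_lit 608) (nat_lit 5153136023) (nat_lit 0) (nat_lit 174273651) (nat_lit 532) (nat_lit 174273651) (nat_lit 258) (nat_lit 1) (nat_lit 250) (nat_lit 1) (nat_lit 257) (nat_lit 1) (nat_lit 356) (nat_lit 425) (nat_lit 359)) (XT.nd (nat_lit 78) (nat_lit 532) (nat_lit 0) (XT.lf (nat_lit 76) (nat_lit 2029524905) (nat_lit 0) (nat_lit 1398625886) (nat_lit 608) (nat_lit 2029524905) (nat_lit 251) (nat_lit 1) (nat_lit 250) (nat_lit 1) (nat_lit 258) (nat_lit 1) (nat_lit 357) (nat_lit 425) (nat_lit 358)) (XT.lf (nat_lit 608) (nat_lit 2977214783) (nat_lit 0) (nat_lit 1218567879) (nat_lit 532) (nat_lit 1218567879) (nat_lit 251) (nat_lit 1) (nat_lit 243) (nat_lit 1) (nat_lit 250) (nat_lit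 1) (nat_lit 358) (nat_lit 425) (nat_lit 357))))) (XT.nd (nat_lit 234) (nat_lit 456) (nat_lit 0) (XT.nd (nat_lit 78) (nat_lit 1064) (nat_lit 0) (XT.lf (nat_lit 76) (nat_lit 948437776) (nat_lit 0) (nat_lit 3474612746) (nat_lit 608) (nat_lit 948437776) (nat_lit 244) (nat_lit 1) (nat_lit 243) (nat_lit 1) (nat_lit 251) (nat_lit 1) (nat_lit 359) (nat_lit 425) (nat_lit 356)) (XT.nd (nat_lit 78) (nat_lit 608) (nat_lit 0) (XT.lf (nat_lit 532) (nat_lit 814860150) (nat_lit 0) (nat_lit 2257079060) (nat_lit 456) (nat_lit 2257079060) (nat_lit 244) (nat_lit 1) (nat_lit 237) (nat_lit 1) (nat_lit 243) (nat_lit 1) (nat_lit 360) (nat_lit 425) (nat_lit 355)) (XT.lf (nat_lit 608) (nat_lit 5037527518) (nat_lit 0) (nat_lit 124841082) (nat_lit 532) (nat_lit 124841082) (nat_lit 237) (nat_lit 1) (nat_lit 229) (nat_lit 1) (nat_lit 236) (nat_lit 1) (nat_lit 361) (nat_lit 425) (nat_lit 354)))) (XT.nd (nat_lit 78) (nat_lit 456) (nat_lit 0) (XT.lf (nat_lit 76) (nat_lit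 1964941205) (nat_lit 0) (nat_lit 1315580583) (nat_lit 608) (nat_lit 1964941205) (nat_lit 230) (nat_lit 1) (nat_lit 229) (nat_lit 1) (nat_lit 237) (nat_lit 1) (nat_lit 362) (nat_lit 425) (nat_lit 353)) (XT.nd (nat_lit 78) (nat_lit 0) (nat_lit 0) (XT.lf (nat_lit 532) (nat_lit 2835300700) (nat_lit 0) (nat_lit 1184532229) (nat_lit 456) (nat_lit 1184532229) (nat_lit 230) (nat_lit 1) (nat_lit 223) (nat_lit 1) (nat_lit 229) (nat_lit 1) (nat_lit 363) (nat_lit 425) (nat_lit 352)) (XT.lf (nat_lit 76) (nat_lit 871702275) (nat_lit 0) (nat_lit 3420300442) (nat_lit 532) (nat_lit 871702275) (nat_lit 224) (nat_lit 1) (nat_lit 223) (nat_lit 1) (nat_lit 230) (nat_lit 1) (nat_lit 364) (nat_lit 425) (nat_lit 351)))))) (XT.nd (nat_lit 468) (nat_lit 1748) (nat_lit 0) (XT.nd (nat_lit 234) (nat_lit 836) (nat_lit 0) (XT.nd (nat_lit 78) (nat_lit 532) (nat_lit 0) (XT.lf (nat_lit 532) (nat_lit 650416151) (nat_lit 0) (nat_lit 2236492358) (nat_lit 456) (nat_lit 2236492358)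 (nat_lit 224) (nat_lit 1) (nat_lit 217) (nat_lit 1) (nat_lit 223) (nat_lit 1) (nat_lit 365) (nat_lit 425) (nat_lit 350)) (XT.nd (nat_lit 78) (nat_lit 0) (nat_lit 0) (XT.lf (nat_lit 532) (nat_lit 4661042208) (nat_lit 0) (nat_lit 211324745) (nat_lit 456) (nat_lit 211324745) (nat_lit 217) (nat_lit 1) (nat_lit 210) (nat_lit 1) (nat_lit 216) (nat_lit 1) (nat_lit 366) (nat_lit 425) (nat_lit 349)) (XT.lf (nat_lit 76) (nat_lit 1773749471) (nat_lit 0) (nat_lit 1496574143) (nat_lit 532) (nat_lit 1773749471) (nat_lit 211) (nat_lit 1) (nat_lit 210) (nat_lit 1) (nat_lit 217) (nat_lit 1) (nat_lit 367) (nat_lit 425) (nat_lit 348)))) (XT.nd (nat_lit 78) (nat_lit 380) (nat_lit 0) (XT.lf (nat_lit 532) (nat_lit 2445943977) (nat_lit 0) (nat_lit 1279547138) (nat_lit 456) (nat_lit 1279547138) (nat_lit 211) (nat_lit 1) (nat_lit 204) (nat_lit 1) (nat_lit 210) (nat_lit 1) (nat_lit 368) (nat_lit 425) (nat_lit 347)) (XT.nd (nat_lit 78) (nat_lit 380) (nat_lit 0)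 (XT.lf (nat_lit 76) (nat_lit 674894912) (nat_lit 0) (nat_lit 3616661372) (nat_lit 532) (nat_lit 674894912) (nat_lit 205) (nat_lit 1) (nat_lit 204) (nat_lit 1) (nat_lit 211) (nat_lit 1) (nat_lit 369) (nat_lit 425) (nat_lit 346)) (XT.lf (nat_lit 456) (nat_lit 251335064) (nat_lit 0) (nat_lit 2338409568) (nat_lit 380) (nat_lit 2338409568) (nat_lit 205) (nat_lit 1) (nat_lit 199) (nat_lit 1) (nat_lit 204) (nat_lit 1) (nat_lit 370) (nat_lit 425) (nat_lit 345))))) (XT.nd (nat_lit 234) (nat_lit 836) (nat_lit 0) (XT.nd (nat_lit 78) (nat_lit 380) (nat_lit 0) (XT.lf (nat_lit 532) (nat_lit 4068556500) (nat_lit 0) (nat_lit 410901715) (nat_lit 456) (nat_lit 410901715) (nat_lit 199) (nat_lit 1) (nat_lit 192) (nat_lit 1) (nat_lit 198) (nat_lit 1) (nat_lit 371) (nat_lit 425) (nat_lit 344)) (XT.nd (nat_lit 78) (nat_lit 380) (nat_lit 0) (XT.lf (nat_lit 76) (nat_lit 1477831160) (nat_lit 0) (nat_lit 1897084090) (nat_lit 532) (nat_lit 1477831160) (nat_lit 193)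 (nat_lit 1) (nat_lit 192) (nat_lit 1) (nat_lit 199) (nat_lit 1) (nat_lit 372) (nat_lit 425) (nat_lit 343)) (XT.lf (nat_lit 456) (nat_lit 1852108779) (nat_lit 0) (nat_lit 1481758454) (nat_lit 380) (nat_lit 1481758454) (nat_lit 193) (nat_lit 1) (nat_lit 187) (nat_lit 1) (nat_lit 192) (nat_lit 1) (nat_lit 373) (nat_lit 425) (nat_lit 342)))) (XT.nd (nat_lit 78) (nat_lit 836) (nat_lit 0) (XT.lf (nat_lit 76) (nat_lit 378963960) (nat_lit 0) (nat_lit 4021064400) (nat_lit 456) (nat_lit 378963960) (nat_lit 188) (nat_lit 1) (nat_lit 187) (nat_lit 1) (nat_lit 193) (nat_lit 1) (nat_lit 374) (nat_lit 425) (nat_lit 341)) (XT.nd (nat_lit 78) (nat_lit 380) (nat_lit 0) (XT.lf (nat_lit 76) (nat_lit 2202868521) (nat_lit 0) (nat_lit 336777188) (nat_lit 456) (nat_lit 2202868521) (nat_lit 182) (nat_lit 1) (nat_lit 181) (nat_lit 1) (nat_lit 187) (nat_lit 1) (nat_lit 375) (nat_lit 425) (nat_lit 340)) (XT.lf (nat_lit 456) (nat_lit 3299213233) (nat_lit 0) (nat_lit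 703650546) (nat_lit 380) (nat_lit 703650546) (nat_lit 182) (nat_lit 1) (nat_lit 176) (nat_lit 1) (nat_lit 181) (nat_lit 1) (nat_lit 376) (nat_lit 425) (nat_lit 339))))))))
noncomputable def ec103 : XT := (XT.nd (nat_lit 1872) (nat_lit 1900) (nat_lit 0) (XT.nd (nat_lit 936) (nat_lit 2508) (nat_lit 0) (XT.nd (nat_lit 468) (nat_lit 1444) (nat_lit 0) (XT.nd (nat_lit 234) (nat_lit 760) (nat_lit 0) (XT.nd (nat_lit 78) (nat_lit 380) (nat_lit 0) (XT.lf (nat_lit 76) (nat_lit 1096268437) (nat_lit 0) (nat_lit 2478255012) (nat_lit 456) (nat_lit 1096268437) (nat_lit 177) (nat_lit 1) (nat_lit 176) (nat_lit 1) (nat_lit 182) (nat_lit 1) (nat_lit 377) (nat_lit 425) (nat_lit 338)) (XT.nd (nat_lit 78) (nat_lit 0) (nat_lit 0) (XT.lf (nat_lit 456) (nat_lit 1091255744) (nat_lit 0) (nat_lit 1772097226) (nat_lit 380) (nat_lit 1772097226) (nat_lit 177) (nat_lit 1) (nat_lit 171) (nat_lit 1) (nat_lit 176) (nat_lit 1) (nat_lit 378) (nat_lit 425) (nat_lit 337)) (XT.lf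 (nat_lit 76) (nat_lit 2170751) (nat_lit 0) (nat_lit 4596318275) (nat_lit 456) (nat_lit 2170751) (nat_lit 172) (nat_lit 1) (nat_lit 171) (nat_lit 1) (nat_lit 177) (nat_lit 1) (nat_lit 379) (nat_lit 425) (nat_lit 336)))) (XT.nd (nat_lit 78) (nat_lit 380) (nat_lit 0) (XT.lf (nat_lit 76) (nat_lit 1744316225) (nat_lit 0) (nat_lit 1077184418) (nat_lit 380) (nat_lit 1744316225) (nat_lit 167) (nat_lit 1) (nat_lit 166) (nat_lit 1) (nat_lit 171) (nat_lit 1) (nat_lit 380) (nat_lit 425) (nat_lit 335)) (XT.nd (nat_lit 78) (nat_lit 0) (nat_lit 0) (XT.lf (nat_lit 456) (nat_lit 2387093359) (nat_lit 0) (nat_lit 1072211864) (nat_lit 380) (nat_lit 1072211864) (nat_lit 167) (nat_lit 1) (nat_lit 161) (nat_lit 1) (nat_lit 166) (nat_lit 1) (nat_lit 381) (nat_lit 425) (nat_lit 334)) (XT.lf (nat_lit 76) (nat_lit 645672254) (nat_lit 0) (nat_lit 3206235373) (nat_lit 456) (nat_lit 645672254) (nat_lit 162) (nat_lit 1) (nat_lit 161) (nat_lit 1) (nat_lit 167) (nat_lit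 1) (nat_lit 382) (nat_lit 425) (nat_lit 333))))) (XT.nd (nat_lit 234) (nat_lit 684) (nat_lit 0) (XT.nd (nat_lit 78) (nat_lit 456) (nat_lit 0) (XT.lf (nat_lit 380) (nat_lit 195987274) (nat_lit 0) (nat_lit 2133953616) (nat_lit 304) (nat_lit 2133953616) (nat_lit 162) (nat_lit 1) (nat_lit 157) (nat_lit 1) (nat_lit 161) (nat_lit 1) (nat_lit 383) (nat_lit 425) (nat_lit 332)) (XT.nd (nat_lit 78) (nat_lit 0) (nat_lit 0) (XT.lf (nat_lit 456) (nat_lit 3557208938) (nat_lit 0) (nat_lit 436703073) (nat_lit 380) (nat_lit 436703073) (nat_lit 157) (nat_lit 1) (nat_lit 151) (nat_lit 1) (nat_lit 156) (nat_lit 1) (nat_lit 384) (nat_lit 425) (nat_lit 331)) (XT.lf (nat_lit 76) (nat_lit 1227547256) (nat_lit 0) (nat_lit 1942406823) (nat_lit 456) (nat_lit 1227547256) (nat_lit 152) (nat_lit 1) (nat_lit 151) (nat_lit 1) (nat_lit 157) (nat_lit 1) (nat_lit 385) (nat_lit 425) (nat_lit 330)))) (XT.nd (nat_lit 78) (nat_lit 380) (nat_lit 0) (XT.lf (nat_lit 380) (nat_lit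 1361811180) (nat_lit 0) (nat_lit 1501487562) (nat_lit 304) (nat_lit 1501487562) (nat_lit 152) (nat_lit 1) (nat_lit 147) (nat_lit 1) (nat_lit 151) (nat_lit 1) (nat_lit 386) (nat_lit 425) (nat_lit 329)) (XT.nd (nat_lit 78) (nat_lit 380) (nat_lit 0) (XT.lf (nat_lit 76) (nat_lit 140473079) (nat_lit 0) (nat_lit 4051589752) (nat_lit 380) (nat_lit 140473079) (nat_lit 148) (nat_lit 1) (nat_lit 147) (nat_lit 1) (nat_lit 152) (nat_lit 1) (nat_lit 387) (nat_lit 425) (nat_lit 328)) (XT.lf (nat_lit 76) (nat_lit 1752736366) (nat_lit 0) (nat_lit 794817913) (nat_lit 380) (nat_lit 1752736366) (nat_lit 143) (nat_lit 1) (nat_lit 142) (nat_lit 1) (nat_lit 147) (nat_lit 1) (nat_lit 388) (nat_lit 425) (nat_lit 327)))))) (XT.nd (nat_lit 468) (nat_lit 1216) (nat_lit 0) (XT.nd (nat_lit 234) (nat_lit 684) (nat_lit 0) (XT.nd (nat_lit 78) (nat_lit 304) (nat_lit 0) (XT.lf (nat_lit 380) (nat_lit 2415700317) (nat_lit 0) (nat_lit 926401509) (nat_lit 304) (nat_lit 926401509)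 (nat_lit 143) (nat_lit 1) (nat_lit 138) (nat_lit 1) (nat_lit 142) (nat_lit 1) (nat_lit 389) (nat_lit 425) (nat_lit 326)) (XT.nd (nat_lit 78) (nat_lit 304) (nat_lit 0) (XT.lf (nat_lit 76) (nat_lit 665648986) (nat_lit 0) (nat_lit 2905727648) (nat_lit 380) (nat_lit 665648986) (nat_lit 139) (nat_lit 1) (nat_lit 138) (nat_lit 1) (nat_lit 143) (nat_lit 1) (nat_lit 390) (nat_lit 425) (nat_lit 325)) (XT.lf (nat_lit 380) (nat_lit 249041790) (nat_lit 0) (nat_lit 1978374244) (nat_lit 304) (nat_lit 1978374244) (nat_lit 139) (nat_lit 1) (nat_lit 134) (nat_lit 1) (nat_lit 138) (nat_lit 1) (nat_lit 391) (nat_lit 425) (nat_lit 324)))) (XT.nd (nat_lit 78) (nat_lit 304) (nat_lit 0) (XT.lf (nat_lit 380) (nat_lit 3366632989) (nat_lit 0) (nat_lit 404145025) (nat_lit 304) (nat_lit 404145025) (nat_lit 134) (nat_lit 1) (nat_lit 129) (nat_lit 1) (nat_lit 133) (nat_lit 1) (nat_lit 392) (nat_lit 425) (nat_lit 323)) (XT.nd (nat_lit 78) (nat_lit 304) (nat_lit 0)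 (XT.lf (nat_lit 76) (nat_lit 1140323020) (nat_lit 0) (nat_lit 1863546126) (nat_lit 380) (nat_lit 1140323020) (nat_lit 130) (nat_lit 1) (nat_lit 129) (nat_lit 1) (nat_lit 134) (nat_lit 1) (nat_lit 393) (nat_lit 425) (nat_lit 322)) (XT.lf (nat_lit 380) (nat_lit 1203692783) (nat_lit 0) (nat_lit 1455065341) (nat_lit 304) (nat_lit 1455065341) (nat_lit 130) (nat_lit 1) (nat_lit 125) (nat_lit 1) (nat_lit 129) (nat_lit 1) (nat_lit 394) (nat_lit 425) (nat_lit 321))))) (XT.nd (nat_lit 234) (nat_lit 608) (nat_lit 0) (XT.nd (nat_lit 78) (nat_lit 608) (nat_lit 0) (XT.lf (nat_lit 76) (nat_lit 69942390) (nat_lit 0) (nat_lit 3944009144) (nat_lit 380) (nat_lit 69942390) (nat_lit 126) (nat_lit 1) (nat_lit 125) (nat_lit 1) (nat_lit 130) (nat_lit 1) (nat_lit 395) (nat_lit 425) (nat_lit 320)) (XT.nd (nat_lit 78) (nat_lit 304) (nat_lit 0) (XT.lf (nat_lit 76) (nat_lit 1568547157) (nat_lit 0) (nat_lit 916827515) (nat_lit 304) (nat_lit 1568547157) (nat_lit 122)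 (nat_lit 1) (nat_lit 121) (nat_lit 1) (nat_lit 125) (nat_lit 1) (nat_lit 396) (nat_lit 425) (nat_lit 319)) (XT.lf (nat_lit 380) (nat_lit 2066552214) (nat_lit 0) (nat_lit 978915601) (nat_lit 304) (nat_lit 978915601) (nat_lit 122) (nat_lit 1) (nat_lit 117) (nat_lit 1) (nat_lit 121) (nat_lit 1) (nat_lit 397) (nat_lit 425) (nat_lit 318)))) (XT.nd (nat_lit 78) (nat_lit 608) (nat_lit 0) (XT.lf (nat_lit 76) (nat_lit 501657679) (nat_lit 0) (nat_lit 2991840481) (nat_lit 380) (nat_lit 501657679) (nat_lit 118) (nat_lit 1) (nat_lit 117) (nat_lit 1) (nat_lit 122) (nat_lit 1) (nat_lit 398) (nat_lit 425) (nat_lit 317)) (XT.nd (nat_lit 78) (nat_lit 304) (nat_lit 0) (XT.lf (nat_lit 76) (nat_lit 1954060754) (nat_lit 0) (nat_lit 57986269) (nat_lit 304) (nat_lit 1954060754) (nat_lit 114) (nat_lit 1) (nat_lit 113) (nat_lit 1) (nat_lit 117) (nat_lit 1) (nat_lit 399) (nat_lit 425) (nat_lit 316)) (XT.lf (nat_lit 380) (nat_lit 2844984753) (nat_lit 0) (nat_lit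 546190368) (nat_lit 304) (nat_lit 546190368) (nat_lit 114) (nat_lit 1) (nat_lit 109) (nat_lit 1) (nat_lit 113) (nat_lit 1) (nat_lit 400) (nat_lit 425) (nat_lit 315))))))) (XT.nd (nat_lit 51948) (nat_lit 0) (nat_lit 27436) (XT.nd (nat_lit 468) (nat_lit 1064) (nat_lit 0) (XT.nd (nat_lit 234) (nat_lit 228) (nat_lit 0) (XT.nd (nat_lit 78) (nat_lit 608) (nat_lit 0) (XT.lf (nat_lit 76) (nat_lit 891926428) (nat_lit 0) (nat_lit 2124964489) (nat_lit 380) (nat_lit 891926428) (nat_lit 110) (nat_lit 1) (nat_lit 109) (nat_lit 1) (nat_lit 114) (nat_lit 1) (nat_lit 401) (nat_lit 425) (nat_lit 314)) (XT.nd (nat_lit 78) (nat_lit 380) (nat_lit 0) (XT.lf (nat_lit 304) (nat_lit 729547440) (nat_lit 0) (nat_lit 1575503706) (nat_lit 228) (nat_lit 1575503706) (nat_lit 110) (nat_lit 1) (nat_lit 106) (nat_lit 1) (nat_lit 109) (nat_lit 1) (nat_lit 402) (nat_lit 425) (nat_lit 313)) (XT.lf (nat_lit 380) (nat_lit 3545786879) (nat_lit 0) (nat_lit 153442207) (nat_lit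 304) (nat_lit 153442207) (nat_lit 106) (nat_lit 1) (nat_lit 101) (nat_lit 1) (nat_lit 105) (nat_lit 1) (nat_lit 403) (nat_lit 425) (nat_lit 312)))) (XT.nd (nat_lit 78) (nat_lit 228) (nat_lit 0) (XT.lf (nat_lit 76) (nat_lit 1244073010) (nat_lit 0) (nat_lit 1336635141) (nat_lit 380) (nat_lit 1244073010) (nat_lit 102) (nat_lit 1) (nat_lit 101) (nat_lit 1) (nat_lit 106) (nat_lit 1) (nat_lit 404) (nat_lit 425) (nat_lit 311)) (XT.nd (nat_lit 78) (nat_lit 0) (nat_lit 0) (XT.lf (nat_lit 304) (nat_lit 1442449567) (nat_lit 0) (nat_lit 1177407952) (nat_lit 228) (nat_lit 1177407952) (nat_lit 102) (nat_lit 1) (nat_lit 98) (nat_lit 1) (nat_lit 101) (nat_lit 1) (nat_lit 405) (nat_lit 425) (nat_lit 310)) (XT.lf (nat_lit 76) (nat_lit 203852159) (nat_lit 0) (nat_lit 3362397679) (nat_lit 304) (nat_lit 203852159) (nat_lit 99) (nat_lit 1) (nat_lit 98) (nat_lit 1) (nat_lit 102) (nat_lit 1) (nat_lit 406) (nat_lit 425) (nat_lit 309))))) (XT.nd (nat_lit 234)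 (nat_lit 532) (nat_lit 0) (XT.nd (nat_lit 78) (nat_lit 228) (nat_lit 0) (XT.lf (nat_lit 76) (nat_lit 1561165336) (nat_lit 0) (nat_lit 620625062) (nat_lit 304) (nat_lit 1561165336) (nat_lit 95) (nat_lit 1) (nat_lit 94) (nat_lit 1) (nat_lit 98) (nat_lit 1) (nat_lit 407) (nat_lit 425) (nat_lit 308)) (XT.nd (nat_lit 78) (nat_lit 0) (nat_lit 0) (XT.lf (nat_lit 304) (nat_lit 2085993084) (nat_lit 0) (nat_lit 815082226) (nat_lit 228) (nat_lit 815082226) (nat_lit 95) (nat_lit 1) (nat_lit 91) (nat_lit 1) (nat_lit 94) (nat_lit 1) (nat_lit 408) (nat_lit 425) (nat_lit 307)) (XT.lf (nat_lit 76) (nat_lit 528080658) (nat_lit 0) (nat_lit 2633452601) (nat_lit 304) (nat_lit 528080658) (nat_lit 92) (nat_lit 1) (nat_lit 91) (nat_lit 1) (nat_lit 95) (nat_lit 1) (nat_lit 409) (nat_lit 425) (nat_lit 306)))) (XT.nd (nat_lit 78) (nat_lit 304) (nat_lit 0) (XT.lf (nat_lit 304) (nat_lit 29196982) (nat_lit 0) (nat_lit 1817027034) (nat_lit 228) (nat_lit 1817027034)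 (nat_lit 92) (nat_lit 1) (nat_lit 88) (nat_lit 1) (nat_lit 91) (nat_lit 1) (nat_lit 410) (nat_lit 425) (nat_lit 305)) (XT.nd (nat_lit 51090) (nat_lit 0) (nat_lit 31996) (XT.lf (nat_lit 304) (nat_lit 2665755413) (nat_lit 0) (nat_lit 485695549) (nat_lit 228) (nat_lit 485695549) (nat_lit 88) (nat_lit 1) (nat_lit 84) (nat_lit 1) (nat_lit 87) (nat_lit 1) (nat_lit 411) (nat_lit 425) (nat_lit 304)) (XT.lf (nat_lit 1900) (nat_lit 1624121683) (nat_lit 76) (nat_lit 3472083070) (nat_lit 0) (nat_lit 3472083070) (nat_lit 530) (nat_lit 1) (nat_lit 506) (nat_lit 1) (nat_lit 505) (nat_lit 1) (nat_lit 305) (nat_lit 426) (nat_lit 409)))))) (XT.nd (nat_lit 468) (nat_lit 2812) (nat_lit 0) (XT.nd (nat_lit 234) (nat_lit 1824) (nat_lit 0) (XT.nd (nat_lit 78) (nat_lit 0) (nat_lit 0) (XT.lf (nat_lit 1900) (nat_lit 565739012) (nat_lit 0) (nat_lit 7357414958) (nat_lit 1824) (nat_lit 565739012) (nat_lit 531) (nat_lit 1) (nat_lit 506) (nat_lit 1) (nat_lit 530) (nat_lit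 1) (nat_lit 306) (nat_lit 426) (nat_lit 408)) (XT.nd (nat_lit 78) (nat_lit 0) (nat_lit 76) (XT.lf (nat_lit 1900) (nat_lit 600090002) (nat_lit 76) (nat_lit 3905007901) (nat_lit 0) (nat_lit 3905007901) (nat_lit 531) (nat_lit 1) (nat_lit 507) (nat_lit 1) (nat_lit 506) (nat_lit 1) (nat_lit 307) (nat_lit 426) (nat_lit 407)) (XT.lf (nat_lit 1900) (nat_lit 37573622) (nat_lit 0) (nat_lit 8257638305) (nat_lit 1824) (nat_lit 37573622) (nat_lit 532) (nat_lit 1) (nat_lit 507) (nat_lit 1) (nat_lit 531) (nat_lit 1) (nat_lit 308) (nat_lit 426) (nat_lit 406)))) (XT.nd (nat_lit 78) (nat_lit 0) (nat_lit 0) (XT.lf (nat_lit 1976) (nat_lit 3884249800) (nat_lit 0) (nat_lit 487352426) (nat_lit 1900) (nat_lit 3884249800) (nat_lit 508) (nat_lit 1) (nat_lit 482) (nat_lit 1) (nat_lit 507) (nat_lit 1) (nat_lit 309) (nat_lit 426) (nat_lit 405)) (XT.nd (nat_lit 78) (nat_lit 0) (nat_lit 76) (XT.lf (nat_lit 1976) (nat_lit 7138863543) (nat_lit 76) (nat_lit 520740697)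 (nat_lit 0) (nat_lit 520740697) (nat_lit 508) (nat_lit 1) (nat_lit 483) (nat_lit 1) (nat_lit 482) (nat_lit 1) (nat_lit 310) (nat_lit 426) (nat_lit 404)) (XT.lf (nat_lit 1976) (nat_lit 3237148024) (nat_lit 0) (nat_lit 1631095326) (nat_lit 1900) (nat_lit 3237148024) (nat_lit 509) (nat_lit 1) (nat_lit 483) (nat_lit 1) (nat_lit 508) (nat_lit 1) (nat_lit 311) (nat_lit 426) (nat_lit 403))))) (XT.nd (nat_lit 234) (nat_lit 1824) (nat_lit 0) (XT.nd (nat_lit 78) (nat_lit 1064) (nat_lit 0) (XT.lf (nat_lit 1976) (nat_lit 5812028399) (nat_lit 76) (nat_lit 1109834341) (nat_lit 0) (nat_lit 1109834341) (nat_lit 509) (nat_lit 1) (nat_lit 484) (nat_lit 1) (nat_lit 483) (nat_lit 1) (nat_lit 312) (nat_lit 426) (nat_lit 402)) (XT.nd (nat_lit 78) (nat_lit 1140) (nat_lit 0) (XT.lf (nat_lit 76) (nat_lit 2562128068) (nat_lit 0) (nat_lit 2834436926) (nat_lit 1900) (nat_lit 2562128068) (nat_lit 485) (nat_lit 1) (nat_lit 484) (nat_lit 1) (nat_lit 509) (nat_lit 1)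 (nat_lit 313) (nat_lit 426) (nat_lit 401)) (XT.lf (nat_lit 1216) (nat_lit 4431321991) (nat_lit 0) (nat_lit 1727716432) (nat_lit 1140) (nat_lit 1727716432) (nat_lit 485) (nat_lit 1) (nat_lit 469) (nat_lit 1) (nat_lit 484) (nat_lit 1) (nat_lit 314) (nat_lit 426) (nat_lit 400)))) (XT.nd (nat_lit 156) (nat_lit 912) (nat_lit 0) (XT.nd (nat_lit 78) (nat_lit 912) (nat_lit 0) (XT.lf (nat_lit 76) (nat_lit 1861314144) (nat_lit 0) (nat_lit 4093023491) (nat_lit 1216) (nat_lit 1861314144) (nat_lit 470) (nat_lit 1) (nat_lit 469) (nat_lit 1) (nat_lit 485) (nat_lit 1) (nat_lit 315) (nat_lit 426) (nat_lit 399)) (XT.lf (nat_lit 988) (nat_lit 3000902753) (nat_lit 0) (nat_lit 2372256066) (nat_lit 912) (nat_lit 2372256066) (nat_lit 470) (nat_lit 1) (nat_lit 457) (nat_lit 1) (nat_lit 469) (nat_lit 1) (nat_lit 316) (nat_lit 426) (nat_lit 398))) (XT.nd (nat_lit 78) (nat_lit 912) (nat_lit 0) (XT.lf (nat_lit 76) (nat_lit 1136727585) (nat_lit 0) (nat_lit 5402710338)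 (nat_lit 988) (nat_lit 1136727585) (nat_lit 458) (nat_lit 1) (nat_lit 457) (nat_lit 1) (nat_lit 470) (nat_lit 1) (nat_lit 317) (nat_lit 426) (nat_lit 397)) (XT.lf (nat_lit 988) (nat_lit 1524727120) (nat_lit 0) (nat_lit 3041424949) (nat_lit 912) (nat_lit 3041424949) (nat_lit 458) (nat_lit 1) (nat_lit 445) (nat_lit 1) (nat_lit 457) (nat_lit 1) (nat_lit 318) (nat_lit 426) (nat_lit 396))))))))
noncomputable def ec104 : XT := (XT.nd (nat_lit 1872) (nat_lit 8284) (nat_lit 0) (XT.nd (nat_lit 936) (nat_lit 4180) (nat_lit 0) (XT.nd (nat_lit 468) (nat_lit 3192) (nat_lit 0) (XT.nd (nat_lit 234) (nat_lit 836) (nat_lit 0) (XT.nd (nat_lit 78) (nat_lit 1824) (nat_lit 0) (XT.lf (nat_lit 76) (nat_lit 390291240) (nat_lit 0) (nat_lit 6759552930) (nat_lit 988) (nat_lit 390291240) (nat_lit 446) (nat_lit 1) (nat_lit 445) (nat_lit 1) (nat_lit 458) (nat_lit 1) (nat_lit 319) (nat_lit 426) (nat_lit 395)) (XT.nd (nat_lit 78) (nat_lit 988) (nat_lit 0) (XT.lf (nat_lit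 912) (nat_lit 6558170) (nat_lit 0) (nat_lit 3733293021) (nat_lit 836) (nat_lit 3733293021) (nat_lit 446) (nat_lit 1) (nat_lit 434) (nat_lit 1) (nat_lit 445) (nat_lit 1) (nat_lit 320) (nat_lit 426) (nat_lit 394)) (XT.lf (nat_lit 988) (nat_lit 6659886606) (nat_lit 0) (nat_lit 373691533) (nat_lit 912) (nat_lit 373691533) (nat_lit 434) (nat_lit 1) (nat_lit 421) (nat_lit 1) (nat_lit 433) (nat_lit 1) (nat_lit 321) (nat_lit 426) (nat_lit 393)))) (XT.nd (nat_lit 78) (nat_lit 836) (nat_lit 0) (XT.lf (nat_lit 76) (nat_lit 2906061964) (nat_lit 0) (nat_lit 1529697220) (nat_lit 988) (nat_lit 2906061964) (nat_lit 422) (nat_lit 1) (nat_lit 421) (nat_lit 1) (nat_lit 434) (nat_lit 1) (nat_lit 322) (nat_lit 426) (nat_lit 392)) (XT.nd (nat_lit 78) (nat_lit 0) (nat_lit 0) (XT.lf (nat_lit 912) (nat_lit 4970920252) (nat_lit 0) (nat_lit 1153269174) (nat_lit 836) (nat_lit 1153269174) (nat_lit 422) (nat_lit 1) (nat_lit 410) (nat_lit 1) (nat_lit 421) (nat_lit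 1) (nat_lit 323) (nat_lit 426) (nat_lit 391)) (XT.lf (nat_lit 76) (nat_lit 2056645381) (nat_lit 0) (nat_lit 3100421809) (nat_lit 912) (nat_lit 2056645381) (nat_lit 411) (nat_lit 1) (nat_lit 410) (nat_lit 1) (nat_lit 422) (nat_lit 1) (nat_lit 324) (nat_lit 426) (nat_lit 390))))) (XT.nd (nat_lit 234) (nat_lit 1596) (nat_lit 0) (XT.nd (nat_lit 78) (nat_lit 760) (nat_lit 0) (XT.lf (nat_lit 912) (nat_lit 3252080026) (nat_lit 0) (nat_lit 1949368243) (nat_lit 836) (nat_lit 1949368243) (nat_lit 411) (nat_lit 1) (nat_lit 399) (nat_lit 1) (nat_lit 410) (nat_lit 1) (nat_lit 325) (nat_lit 426) (nat_lit 389)) (XT.nd (nat_lit 78) (nat_lit 760) (nat_lit 0) (XT.lf (nat_lit 76) (nat_lit 1193109410) (nat_lit 0) (nat_lit 4702512598) (nat_lit 912) (nat_lit 1193109410) (nat_lit 400) (nat_lit 1) (nat_lit 399) (nat_lit 1) (nat_lit 411) (nat_lit 1) (nat_lit 326) (nat_lit 426) (nat_lit 388)) (XT.lf (nat_lit 836) (nat_lit 1506397703) (nat_lit 0) (nat_lit 2760429678)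 (nat_lit 760) (nat_lit 2760429678) (nat_lit 400) (nat_lit 1) (nat_lit 389) (nat_lit 1) (nat_lit 399) (nat_lit 1) (nat_lit 327) (nat_lit 426) (nat_lit 387)))) (XT.nd (nat_lit 78) (nat_lit 1596) (nat_lit 0) (XT.lf (nat_lit 76) (nat_lit 316925918) (nat_lit 0) (nat_lit 6332940632) (nat_lit 836) (nat_lit 316925918) (nat_lit 390) (nat_lit 1) (nat_lit 389) (nat_lit 1) (nat_lit 400) (nat_lit 1) (nat_lit 328) (nat_lit 426) (nat_lit 386)) (XT.nd (nat_lit 78) (nat_lit 760) (nat_lit 0) (XT.lf (nat_lit 76) (nat_lit 3323432762) (nat_lit 0) (nat_lit 259796807) (nat_lit 836) (nat_lit 3323432762) (nat_lit 379) (nat_lit 1) (nat_lit 378) (nat_lit 1) (nat_lit 389) (nat_lit 1) (nat_lit 329) (nat_lit 426) (nat_lit 385)) (XT.lf (nat_lit 836) (nat_lit 5714005480) (nat_lit 0) (nat_lit 566755147) (nat_lit 760) (nat_lit 566755147) (nat_lit 379) (nat_lit 1) (nat_lit 368) (nat_lit 1) (nat_lit 378) (nat_lit 1) (nat_lit 330) (nat_lit 426) (nat_lit 384)))))) (XT.nd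 (nat_lit 468) (nat_lit 1976) (nat_lit 0) (XT.nd (nat_lit 234) (nat_lit 1444) (nat_lit 0) (XT.nd (nat_lit 78) (nat_lit 760) (nat_lit 0) (XT.lf (nat_lit 76) (nat_lit 2380797857) (nat_lit 0) (nat_lit 2027191257) (nat_lit 836) (nat_lit 2380797857) (nat_lit 369) (nat_lit 1) (nat_lit 368) (nat_lit 1) (nat_lit 379) (nat_lit 1) (nat_lit 331) (nat_lit 426) (nat_lit 383)) (XT.nd (nat_lit 78) (nat_lit 0) (nat_lit 0) (XT.lf (nat_lit 836) (nat_lit 3814523864) (nat_lit 0) (nat_lit 1458212171) (nat_lit 760) (nat_lit 1458212171) (nat_lit 369) (nat_lit 1) (nat_lit 358) (nat_lit 1) (nat_lit 368) (nat_lit 1) (nat_lit 332) (nat_lit 426) (nat_lit 382)) (XT.lf (nat_lit 76) (nat_lit 1430380152) (nat_lit 0) (nat_lit 3812987905) (nat_lit 836) (nat_lit 1430380152) (nat_lit 359) (nat_lit 1) (nat_lit 358) (nat_lit 1) (nat_lit 369) (nat_lit 1) (nat_lit 333) (nat_lit 426) (nat_lit 381)))) (XT.nd (nat_lit 78) (nat_lit 760) (nat_lit 0) (XT.lf (nat_lit 760) (nat_lit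 1900612542) (nat_lit 0) (nat_lit 2358282682) (nat_lit 684) (nat_lit 2358282682) (nat_lit 359) (nat_lit 1) (nat_lit 349) (nat_lit 1) (nat_lit 358) (nat_lit 1) (nat_lit 334) (nat_lit 426) (nat_lit 380)) (XT.nd (nat_lit 78) (nat_lit 760) (nat_lit 0) (XT.lf (nat_lit 76) (nat_lit 473352185) (nat_lit 0) (nat_lit 5614765657) (nat_lit 760) (nat_lit 473352185) (nat_lit 350) (nat_lit 1) (nat_lit 349) (nat_lit 1) (nat_lit 359) (nat_lit 1) (nat_lit 335) (nat_lit 426) (nat_lit 379)) (XT.lf (nat_lit 76) (nat_lit 3240510762) (nat_lit 0) (nat_lit 25105331) (nat_lit 760) (nat_lit 3240510762) (nat_lit 340) (nat_lit 1) (nat_lit 339) (nat_lit 1) (nat_lit 349) (nat_lit 1) (nat_lit 336) (nat_lit 426) (nat_lit 378))))) (XT.nd (nat_lit 234) (nat_lit 608) (nat_lit 0) (XT.nd (nat_lit 78) (nat_lit 684) (nat_lit 0) (XT.lf (nat_lit 760) (nat_lit 5479708078) (nat_lit 0) (nat_lit 485957837) (nat_lit 684) (nat_lit 485957837) (nat_lit 340) (nat_lit 1) (nat_lit 330) (nat_lit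 1) (nat_lit 339) (nat_lit 1) (nat_lit 337) (nat_lit 426) (nat_lit 377)) (XT.nd (nat_lit 78) (nat_lit 684) (nat_lit 0) (XT.lf (nat_lit 76) (nat_lit 2230869385) (nat_lit 0) (nat_lit 1935739009) (nat_lit 760) (nat_lit 2230869385) (nat_lit 331) (nat_lit 1) (nat_lit 330) (nat_lit 1) (nat_lit 340) (nat_lit 1) (nat_lit 338) (nat_lit 426) (nat_lit 376)) (XT.lf (nat_lit 760) (nat_lit 3450994521) (nat_lit 0) (nat_lit 1446574631) (nat_lit 684) (nat_lit 1446574631) (nat_lit 331) (nat_lit 1) (nat_lit 321) (nat_lit 1) (nat_lit 330) (nat_lit 1) (nat_lit 339) (nat_lit 426) (nat_lit 375)))) (XT.nd (nat_lit 78) (nat_lit 608) (nat_lit 0) (XT.lf (nat_lit 76) (nat_lit 1218607259) (nat_lit 0) (nat_lit 3854192912) (nat_lit 760) (nat_lit 1218607259) (nat_lit 322) (nat_lit 1) (nat_lit 321) (nat_lit 1) (nat_lit 331) (nat_lit 1) (nat_lit 340) (nat_lit 426) (nat_lit 374)) (XT.nd (nat_lit 78) (nat_lit 0) (nat_lit 0) (XT.lf (nat_lit 684) (nat_lit 1417956022) (nat_lit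 0) (nat_lit 2410625957) (nat_lit 608) (nat_lit 2410625957) (nat_lit 322) (nat_lit 1) (nat_lit 313) (nat_lit 1) (nat_lit 321) (nat_lit 1) (nat_lit 341) (nat_lit 426) (nat_lit 373)) (XT.lf (nat_lit 76) (nat_lit 204646274) (nat_lit 0) (nat_lit 5778555286) (nat_lit 684) (nat_lit 204646274) (nat_lit 314) (nat_lit 1) (nat_lit 313) (nat_lit 1) (nat_lit 322) (nat_lit 1) (nat_lit 342) (nat_lit 426) (nat_lit 372))))))) (XT.nd (nat_lit 936) (nat_lit 3496) (nat_lit 0) (XT.nd (nat_lit 468) (nat_lit 2356) (nat_lit 0) (XT.nd (nat_lit 234) (nat_lit 1140) (nat_lit 0) (XT.nd (nat_lit 78) (nat_lit 608) (nat_lit 0) (XT.lf (nat_lit 76) (nat_lit 2763579608) (nat_lit 0) (nat_lit 609509952) (nat_lit 684) (nat_lit 2763579608) (nat_lit 305) (nat_lit 1) (nat_lit 304) (nat_lit 1) (nat_lit 313) (nat_lit 1) (nat_lit 343) (nat_lit 426) (nat_lit 371)) (XT.nd (nat_lit 78) (nat_lit 0) (nat_lit 0) (XT.lf (nat_lit 684) (nat_lit 4476683490) (nat_lit 0) (nat_lit 804813663)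 (nat_lit 608) (nat_lit 804813663) (nat_lit 305) (nat_lit 1) (nat_lit 296) (nat_lit 1) (nat_lit 304) (nat_lit 1) (nat_lit 344) (nat_lit 426) (nat_lit 370)) (XT.lf (nat_lit 76) (nat_lit 1708579209) (nat_lit 0) (nat_lit 2619200155) (nat_lit 684) (nat_lit 1708579209) (nat_lit 297) (nat_lit 1) (nat_lit 296) (nat_lit 1) (nat_lit 305) (nat_lit 1) (nat_lit 345) (nat_lit 426) (nat_lit 369)))) (XT.nd (nat_lit 78) (nat_lit 532) (nat_lit 0) (XT.lf (nat_lit 684) (nat_lit 2361176766) (nat_lit 0) (nat_lit 1812935572) (nat_lit 608) (nat_lit 1812935572) (nat_lit 297) (nat_lit 1) (nat_lit 288) (nat_lit 1) (nat_lit 296) (nat_lit 1) (nat_lit 346) (nat_lit 426) (nat_lit 368)) (XT.nd (nat_lit 78) (nat_lit 532) (nat_lit 0) (XT.lf (nat_lit 76) (nat_lit 655131852) (nat_lit 0) (nat_lit 4628133812) (nat_lit 684) (nat_lit 655131852) (nat_lit 289) (nat_lit 1) (nat_lit 288) (nat_lit 1) (nat_lit 297) (nat_lit 1) (nat_lit 347) (nat_lit 426) (nat_lit 367)) (XT.lf (nat_lit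 608) (nat_lit 249508534) (nat_lit 0) (nat_lit 2820297747) (nat_lit 532) (nat_lit 2820297747) (nat_lit 289) (nat_lit 1) (nat_lit 281) (nat_lit 1) (nat_lit 288) (nat_lit 1) (nat_lit 348) (nat_lit 426) (nat_lit 366))))) (XT.nd (nat_lit 234) (nat_lit 1140) (nat_lit 0) (XT.nd (nat_lit 78) (nat_lit 532) (nat_lit 0) (XT.lf (nat_lit 684) (nat_lit 5055629962) (nat_lit 0) (nat_lit 393444353) (nat_lit 608) (nat_lit 393444353) (nat_lit 281) (nat_lit 1) (nat_lit 272) (nat_lit 1) (nat_lit 280) (nat_lit 1) (nat_lit 349) (nat_lit 426) (nat_lit 365)) (XT.nd (nat_lit 78) (nat_lit 532) (nat_lit 0) (XT.lf (nat_lit 76) (nat_lit 1981298674) (nat_lit 0) (nat_lit 1832580750) (nat_lit 684) (nat_lit 1981298674) (nat_lit 273) (nat_lit 1) (nat_lit 272) (nat_lit 1) (nat_lit 281) (nat_lit 1) (nat_lit 350) (nat_lit 426) (nat_lit 364)) (XT.lf (nat_lit 608) (nat_lit 2878940296) (nat_lit 0) (nat_lit 1434794540) (nat_lit 532) (nat_lit 1434794540) (nat_lit 273) (nat_lit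 1) (nat_lit 265) (nat_lit 1) (nat_lit 272) (nat_lit 1) (nat_lit 351) (nat_lit 426) (nat_lit 363)))) (XT.nd (nat_lit 78) (nat_lit 1140) (nat_lit 0) (XT.lf (nat_lit 76) (nat_lit 898732795) (nat_lit 0) (nat_lit 3904955903) (nat_lit 608) (nat_lit 898732795) (nat_lit 266) (nat_lit 1) (nat_lit 265) (nat_lit 1) (nat_lit 273) (nat_lit 1) (nat_lit 352) (nat_lit 426) (nat_lit 362)) (XT.nd (nat_lit 78) (nat_lit 608) (nat_lit 0) (XT.lf (nat_lit 608) (nat_lit 711505772) (nat_lit 0) (nat_lit 2472604090) (nat_lit 532) (nat_lit 2472604090) (nat_lit 266) (nat_lit 1) (nat_lit 258) (nat_lit 1) (nat_lit 265) (nat_lit 1) (nat_lit 353) (nat_lit 426) (nat_lit 361)) (XT.lf (nat_lit 608) (nat_lit 5256198744) (nat_lit 0) (nat_lit 177759124) (nat_lit 532) (nat_lit 177759124) (nat_lit 258) (nat_lit 1) (nat_lit 250) (nat_lit 1) (nat_lit 257) (nat_lit 1) (nat_lit 354) (nat_lit 426) (nat_lit 360)))))) (XT.nd (nat_lit 468) (nat_lit 1900) (nat_lit 0) (XT.nd (nat_lit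 234) (nat_lit 1064) (nat_lit 0) (XT.nd (nat_lit 78) (nat_lit 532) (nat_lit 0) (XT.lf (nat_lit 76) (nat_lit 2070115403) (nat_lit 0) (nat_lit 1426598404) (nat_lit 608) (nat_lit 2070115403) (nat_lit 251) (nat_lit 1) (nat_lit 250) (nat_lit 1) (nat_lit 258) (nat_lit 1) (nat_lit 355) (nat_lit 426) (nat_lit 359)) (XT.nd (nat_lit 78) (nat_lit 0) (nat_lit 0) (XT.lf (nat_lit 608) (nat_lit 3036759079) (nat_lit 0) (nat_lit 1242939237) (nat_lit 532) (nat_lit 1242939237) (nat_lit 251) (nat_lit 1) (nat_lit 243) (nat_lit 1) (nat_lit 250) (nat_lit 1) (nat_lit 356) (nat_lit 426) (nat_lit 358)) (XT.lf (nat_lit 76) (nat_lit 967406532) (nat_lit 0) (nat_lit 3544105001) (nat_lit 608) (nat_lit 967406532) (nat_lit 244) (nat_lit 1) (nat_lit 243) (nat_lit 1) (nat_lit 251) (nat_lit 1) (nat_lit 357) (nat_lit 426) (nat_lit 357)))) (XT.nd (nat_lit 78) (nat_lit 608) (nat_lit 0) (XT.lf (nat_lit 532) (nat_lit 831157353) (nat_lit 0) (nat_lit 2302220641) (nat_lit 456) (nat_lit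 2302220641) (nat_lit 244) (nat_lit 1) (nat_lit 237) (nat_lit 1) (nat_lit 243) (nat_lit 1) (nat_lit 358) (nat_lit 426) (nat_lit 356)) (XT.nd (nat_lit 78) (nat_lit 0) (nat_lit 0) (XT.lf (nat_lit 608) (nat_lit 5138278068) (nat_lit 0) (nat_lit 127337904) (nat_lit 532) (nat_lit 127337904) (nat_lit 237) (nat_lit 1) (nat_lit 229) (nat_lit 1) (nat_lit 236) (nat_lit 1) (nat_lit 359) (nat_lit 426) (nat_lit 355)) (XT.lf (nat_lit 76) (nat_lit 2004240029) (nat_lit 0) (nat_lit 1341892194) (nat_lit 608) (nat_lit 2004240029) (nat_lit 230) (nat_lit 1) (nat_lit 229) (nat_lit 1) (nat_lit 237) (nat_lit 1) (nat_lit 360) (nat_lit 426) (nat_lit 354))))) (XT.nd (nat_lit 234) (nat_lit 988) (nat_lit 0) (XT.nd (nat_lit 78) (nat_lit 456) (nat_lit 0) (XT.lf (nat_lit 532) (nat_lit 2892006714) (nat_lit 0) (nat_lit 1208222874) (nat_lit 456) (nat_lit 1208222874) (nat_lit 230) (nat_lit 1) (nat_lit 223) (nat_lit 1) (nat_lit 229) (nat_lit 1) (nat_lit 361) (nat_lit 426)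 (nat_lit 353)) (XT.nd (nat_lit 78) (nat_lit 456) (nat_lit 0) (XT.lf (nat_lit 76) (nat_lit 889136320) (nat_lit 0) (nat_lit 3488706451) (nat_lit 532) (nat_lit 889136320) (nat_lit 224) (nat_lit 1) (nat_lit 223) (nat_lit 1) (nat_lit 230) (nat_lit 1) (nat_lit 362) (nat_lit 426) (nat_lit 352)) (XT.lf (nat_lit 532) (nat_lit 663424474) (nat_lit 0) (nat_lit 2281222205) (nat_lit 456) (nat_lit 2281222205) (nat_lit 224) (nat_lit 1) (nat_lit 217) (nat_lit 1) (nat_lit 223) (nat_lit 1) (nat_lit 363) (nat_lit 426) (nat_lit 351)))) (XT.nd (nat_lit 78) (nat_lit 456) (nat_lit 0) (XT.lf (nat_lit 532) (nat_lit 4754263052) (nat_lit 0) (nat_lit 215551240) (nat_lit 456) (nat_lit 215551240) (nat_lit 217) (nat_lit 1) (nat_lit 210) (nat_lit 1) (nat_lit 216) (nat_lit 1) (nat_lit 364) (nat_lit 426) (nat_lit 350)) (XT.nd (nat_lit 78) (nat_lit 456) (nat_lit 0) (XT.lf (nat_lit 76) (nat_lit 1809224461) (nat_lit 0) (nat_lit 1526505626) (nat_lit 532) (nat_lit 1809224461)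 (nat_lit 211) (nat_lit 1) (nat_lit 210) (nat_lit 1) (nat_lit 217) (nat_lit 1) (nat_lit 365) (nat_lit 426) (nat_lit 349)) (XT.lf (nat_lit 532) (nat_lit 2494862857) (nat_lit 0) (nat_lit 1305138081) (nat_lit 456) (nat_lit 1305138081) (nat_lit 211) (nat_lit 1) (nat_lit 204) (nat_lit 1) (nat_lit 210) (nat_lit 1) (nat_lit 366) (nat_lit 426) (nat_lit 348))))))))
noncomputable def ec105 : XT := (XT.nd (nat_lit 1872) (nat_lit 3420) (nat_lit 0) (XT.nd (nat_lit 936) (nat_lit 2812) (nat_lit 0) (XT.nd (nat_lit 468) (nat_lit 1596) (nat_lit 0) (XT.nd (nat_lit 234) (nat_lit 380) (nat_lit 0) (XT.nd (nat_lit 78) (nat_lit 912) (nat_lit 0) (XT.lf (nat_lit 76) (nat_lit 688392810) (nat_lit 0) (nat_lit 3688994599) (nat_lit 532) (nat_lit 688392810) (nat_lit 205) (nat_lit 1) (nat_lit 204) (nat_lit 1) (nat_lit 211) (nat_lit 1) (nat_lit 367) (nat_lit 426) (nat_lit 347)) (XT.nd (nat_lit 78) (nat_lit 532) (nat_lit 0) (XT.lf (nat_lit 456) (nat_lit 256361765) (nat_lit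 0) (nat_lit 2385177760) (nat_lit 380) (nat_lit 2385177760) (nat_lit 205) (nat_lit 1) (nat_lit 199) (nat_lit 1) (nat_lit 204) (nat_lit 1) (nat_lit 368) (nat_lit 426) (nat_lit 346)) (XT.lf (nat_lit 532) (nat_lit 4149927630) (nat_lit 0) (nat_lit 419119749) (nat_lit 456) (nat_lit 419119749) (nat_lit 199) (nat_lit 1) (nat_lit 192) (nat_lit 1) (nat_lit 198) (nat_lit 1) (nat_lit 369) (nat_lit 426) (nat_lit 345)))) (XT.nd (nat_lit 78) (nat_lit 380) (nat_lit 0) (XT.lf (nat_lit 76) (nat_lit 1507387783) (nat_lit 0) (nat_lit 1935025771) (nat_lit 532) (nat_lit 1507387783) (nat_lit 193) (nat_lit 1) (nat_lit 192) (nat_lit 1) (nat_lit 199) (nat_lit 1) (nat_lit 370) (nat_lit 426) (nat_lit 344)) (XT.nd (nat_lit 78) (nat_lit 0) (nat_lit 0) (XT.lf (nat_lit 456) (nat_lit 1889150954) (nat_lit 0) (nat_lit 1511393624) (nat_lit 380) (nat_lit 1511393624) (nat_lit 193) (nat_lit 1) (nat_lit 187) (nat_lit 1) (nat_lit 192) (nat_lit 1) (nat_lit 371) (nat_lit 426) (nat_lit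 343)) (XT.lf (nat_lit 76) (nat_lit 386543240) (nat_lit 0) (nat_lit 4101485688) (nat_lit 456) (nat_lit 386543240) (nat_lit 188) (nat_lit 1) (nat_lit 187) (nat_lit 1) (nat_lit 193) (nat_lit 1) (nat_lit 372) (nat_lit 426) (nat_lit 342))))) (XT.nd (nat_lit 234) (nat_lit 760) (nat_lit 0) (XT.nd (nat_lit 78) (nat_lit 380) (nat_lit 0) (XT.lf (nat_lit 76) (nat_lit 2246925891) (nat_lit 0) (nat_lit 343512732) (nat_lit 456) (nat_lit 2246925891) (nat_lit 182) (nat_lit 1) (nat_lit 181) (nat_lit 1) (nat_lit 187) (nat_lit 1) (nat_lit 373) (nat_lit 426) (nat_lit 341)) (XT.nd (nat_lit 78) (nat_lit 0) (nat_lit 0) (XT.lf (nat_lit 456) (nat_lit 3365197498) (nat_lit 0) (nat_lit 717723557) (nat_lit 380) (nat_lit 717723557) (nat_lit 182) (nat_lit 1) (nat_lit 176) (nat_lit 1) (nat_lit 181) (nat_lit 1) (nat_lit 374) (nat_lit 426) (nat_lit 340)) (XT.lf (nat_lit 76) (nat_lit 1118193806) (nat_lit 0) (nat_lit 2527820112) (nat_lit 456) (nat_lit 1118193806) (nat_lit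 177) (nat_lit 1) (nat_lit 176) (nat_lit 1) (nat_lit 182) (nat_lit 1) (nat_lit 375) (nat_lit 426) (nat_lit 339)))) (XT.nd (nat_lit 78) (nat_lit 380) (nat_lit 0) (XT.lf (nat_lit 456) (nat_lit 1113080859) (nat_lit 0) (nat_lit 1807539170) (nat_lit 380) (nat_lit 1807539170) (nat_lit 177) (nat_lit 1) (nat_lit 171) (nat_lit 1) (nat_lit 176) (nat_lit 1) (nat_lit 376) (nat_lit 426) (nat_lit 338)) (XT.nd (nat_lit 78) (nat_lit 380) (nat_lit 0) (XT.lf (nat_lit 76) (nat_lit 2214166) (nat_lit 0) (nat_lit 4688244640) (nat_lit 456) (nat_lit 2214166) (nat_lit 172) (nat_lit 1) (nat_lit 171) (nat_lit 1) (nat_lit 177) (nat_lit 1) (nat_lit 377) (nat_lit 426) (nat_lit 337)) (XT.lf (nat_lit 76) (nat_lit 1779202549) (nat_lit 0) (nat_lit 1098728106) (nat_lit 380) (nat_lit 1779202549) (nat_lit 167) (nat_lit 1) (nat_lit 166) (nat_lit 1) (nat_lit 171) (nat_lit 1) (nat_lit 378) (nat_lit 426) (nat_lit 336)))))) (XT.nd (nat_lit 468) (nat_lit 1368) (nat_lit 0) (XT.nd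 (nat_lit 234) (nat_lit 760) (nat_lit 0) (XT.nd (nat_lit 78) (nat_lit 304) (nat_lit 0) (XT.lf (nat_lit 456) (nat_lit 2434835226) (nat_lit 0) (nat_lit 1093656102) (nat_lit 380) (nat_lit 1093656102) (nat_lit 167) (nat_lit 1) (nat_lit 161) (nat_lit 1) (nat_lit 166) (nat_lit 1) (nat_lit 379) (nat_lit 426) (nat_lit 335)) (XT.nd (nat_lit 78) (nat_lit 304) (nat_lit 0) (XT.lf (nat_lit 76) (nat_lit 658585699) (nat_lit 0) (nat_lit 3270360080) (nat_lit 456) (nat_lit 658585699) (nat_lit 162) (nat_lit 1) (nat_lit 161) (nat_lit 1) (nat_lit 167) (nat_lit 1) (nat_lit 380) (nat_lit 426) (nat_lit 334)) (XT.lf (nat_lit 380) (nat_lit 199907020) (nat_lit 0) (nat_lit 2176632689) (nat_lit 304) (nat_lit 2176632689) (nat_lit 162) (nat_lit 1) (nat_lit 157) (nat_lit 1) (nat_lit 161) (nat_lit 1) (nat_lit 381) (nat_lit 426) (nat_lit 333)))) (XT.nd (nat_lit 78) (nat_lit 304) (nat_lit 0) (XT.lf (nat_lit 456) (nat_lit 3628353117) (nat_lit 0) (nat_lit 445437135) (nat_lit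 380) (nat_lit 445437135) (nat_lit 157) (nat_lit 1) (nat_lit 151) (nat_lit 1) (nat_lit 156) (nat_lit 1) (nat_lit 382) (nat_lit 426) (nat_lit 332)) (XT.nd (nat_lit 78) (nat_lit 304) (nat_lit 0) (XT.lf (nat_lit 76) (nat_lit 1252098201) (nat_lit 0) (nat_lit 1981254959) (nat_lit 456) (nat_lit 1252098201) (nat_lit 152) (nat_lit 1) (nat_lit 151) (nat_lit 1) (nat_lit 157) (nat_lit 1) (nat_lit 383) (nat_lit 426) (nat_lit 331)) (XT.lf (nat_lit 380) (nat_lit 1389047404) (nat_lit 0) (nat_lit 1531517314) (nat_lit 304) (nat_lit 1531517314) (nat_lit 152) (nat_lit 1) (nat_lit 147) (nat_lit 1) (nat_lit 151) (nat_lit 1) (nat_lit 384) (nat_lit 426) (nat_lit 330))))) (XT.nd (nat_lit 234) (nat_lit 684) (nat_lit 0) (XT.nd (nat_lit 78) (nat_lit 684) (nat_lit 0) (XT.lf (nat_lit 76) (nat_lit 143282541) (nat_lit 0) (nat_lit 4132621547) (nat_lit 380) (nat_lit 143282541) (nat_lit 148) (nat_lit 1) (nat_lit 147) (nat_lit 1) (nat_lit 152) (nat_lit 1) (nat_lit 385)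 (nat_lit 426) (nat_lit 329)) (XT.nd (nat_lit 78) (nat_lit 304) (nat_lit 0) (XT.lf (nat_lit 76) (nat_lit 1787791093) (nat_lit 0) (nat_lit 810714271) (nat_lit 380) (nat_lit 1787791093) (nat_lit 143) (nat_lit 1) (nat_lit 142) (nat_lit 1) (nat_lit 147) (nat_lit 1) (nat_lit 386) (nat_lit 426) (nat_lit 328)) (XT.lf (nat_lit 380) (nat_lit 2464014323) (nat_lit 0) (nat_lit 944929539) (nat_lit 304) (nat_lit 944929539) (nat_lit 143) (nat_lit 1) (nat_lit 138) (nat_lit 1) (nat_lit 142) (nat_lit 1) (nat_lit 387) (nat_lit 426) (nat_lit 327)))) (XT.nd (nat_lit 78) (nat_lit 684) (nat_lit 0) (XT.lf (nat_lit 76) (nat_lit 678961966) (nat_lit 0) (nat_lit 2963842201) (nat_lit 380) (nat_lit 678961966) (nat_lit 139) (nat_lit 1) (nat_lit 138) (nat_lit 1) (nat_lit 143) (nat_lit 1) (nat_lit 388) (nat_lit 426) (nat_lit 326)) (XT.nd (nat_lit 78) (nat_lit 380) (nat_lit 0) (XT.lf (nat_lit 380) (nat_lit 254022626) (nat_lit 0) (nat_lit 2017941729) (nat_lit 304) (nat_lit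 2017941729) (nat_lit 139) (nat_lit 1) (nat_lit 134) (nat_lit 1) (nat_lit 138) (nat_lit 1) (nat_lit 389) (nat_lit 426) (nat_lit 325)) (XT.lf (nat_lit 380) (nat_lit 3433965649) (nat_lit 0) (nat_lit 412227926) (nat_lit 304) (nat_lit 412227926) (nat_lit 134) (nat_lit 1) (nat_lit 129) (nat_lit 1) (nat_lit 133) (nat_lit 1) (nat_lit 390) (nat_lit 426) (nat_lit 324))))))) (XT.nd (nat_lit 936) (nat_lit 1292) (nat_lit 0) (XT.nd (nat_lit 468) (nat_lit 1216) (nat_lit 0) (XT.nd (nat_lit 234) (nat_lit 608) (nat_lit 0) (XT.nd (nat_lit 78) (nat_lit 304) (nat_lit 0) (XT.lf (nat_lit 76) (nat_lit 1163129481) (nat_lit 0) (nat_lit 1900817048) (nat_lit 380) (nat_lit 1163129481) (nat_lit 130) (nat_lit 1) (nat_lit 129) (nat_lit 1) (nat_lit 134) (nat_lit 1) (nat_lit 391) (nat_lit 426) (nat_lit 323)) (XT.nd (nat_lit 78) (nat_lit 0) (nat_lit 0) (XT.lf (nat_lit 380) (nat_lit 1227766639) (nat_lit 0) (nat_lit 1484166648) (nat_lit 304) (nat_lit 1484166648) (nat_lit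 130) (nat_lit 1) (nat_lit 125) (nat_lit 1) (nat_lit 129) (nat_lit 1) (nat_lit 392) (nat_lit 426) (nat_lit 322)) (XT.lf (nat_lit 76) (nat_lit 71341238) (nat_lit 0) (nat_lit 4022889327) (nat_lit 380) (nat_lit 71341238) (nat_lit 126) (nat_lit 1) (nat_lit 125) (nat_lit 1) (nat_lit 130) (nat_lit 1) (nat_lit 393) (nat_lit 426) (nat_lit 321)))) (XT.nd (nat_lit 78) (nat_lit 304) (nat_lit 0) (XT.lf (nat_lit 76) (nat_lit 1599918100) (nat_lit 0) (nat_lit 935164065) (nat_lit 304) (nat_lit 1599918100) (nat_lit 122) (nat_lit 1) (nat_lit 121) (nat_lit 1) (nat_lit 125) (nat_lit 1) (nat_lit 394) (nat_lit 426) (nat_lit 320)) (XT.nd (nat_lit 78) (nat_lit 0) (nat_lit 0) (XT.lf (nat_lit 380) (nat_lit 2107883258) (nat_lit 0) (nat_lit 998493913) (nat_lit 304) (nat_lit 998493913) (nat_lit 122) (nat_lit 1) (nat_lit 117) (nat_lit 1) (nat_lit 121) (nat_lit 1) (nat_lit 395) (nat_lit 426) (nat_lit 319)) (XT.lf (nat_lit 76) (nat_lit 511690832) (nat_lit 0) (nat_lit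 3051677290) (nat_lit 380) (nat_lit 511690832) (nat_lit 118) (nat_lit 1) (nat_lit 117) (nat_lit 1) (nat_lit 122) (nat_lit 1) (nat_lit 396) (nat_lit 426) (nat_lit 318))))) (XT.nd (nat_lit 234) (nat_lit 608) (nat_lit 0) (XT.nd (nat_lit 78) (nat_lit 304) (nat_lit 0) (XT.lf (nat_lit 76) (nat_lit 1993141969) (nat_lit 0) (nat_lit 59145994) (nat_lit 304) (nat_lit 1993141969) (nat_lit 114) (nat_lit 1) (nat_lit 113) (nat_lit 1) (nat_lit 117) (nat_lit 1) (nat_lit 397) (nat_lit 426) (nat_lit 317)) (XT.nd (nat_lit 78) (nat_lit 0) (nat_lit 0) (XT.lf (nat_lit 380) (nat_lit 2901884448) (nat_lit 0) (nat_lit 557114176) (nat_lit 304) (nat_lit 557114176) (nat_lit 114) (nat_lit 1) (nat_lit 109) (nat_lit 1) (nat_lit 113) (nat_lit 1) (nat_lit 398) (nat_lit 426) (nat_lit 316)) (XT.lf (nat_lit 76) (nat_lit 909764957) (nat_lit 0) (nat_lit 2167463779) (nat_lit 380) (nat_lit 909764957) (nat_lit 110) (nat_lit 1) (nat_lit 109) (nat_lit 1) (nat_lit 114) (nat_lit 1)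 (nat_lit 399) (nat_lit 426) (nat_lit 315)))) (XT.nd (nat_lit 78) (nat_lit 380) (nat_lit 0) (XT.lf (nat_lit 304) (nat_lit 744138389) (nat_lit 0) (nat_lit 1607013780) (nat_lit 228) (nat_lit 1607013780) (nat_lit 110) (nat_lit 1) (nat_lit 106) (nat_lit 1) (nat_lit 109) (nat_lit 1) (nat_lit 400) (nat_lit 426) (nat_lit 314)) (XT.nd (nat_lit 78) (nat_lit 0) (nat_lit 0) (XT.lf (nat_lit 380) (nat_lit 3616702617) (nat_lit 0) (nat_lit 156511051) (nat_lit 304) (nat_lit 156511051) (nat_lit 106) (nat_lit 1) (nat_lit 101) (nat_lit 1) (nat_lit 105) (nat_lit 1) (nat_lit 401) (nat_lit 426) (nat_lit 313)) (XT.lf (nat_lit 76) (nat_lit 1268954471) (nat_lit 0) (nat_lit 1363367844) (nat_lit 380) (nat_lit 1268954471) (nat_lit 102) (nat_lit 1) (nat_lit 101) (nat_lit 1) (nat_lit 106) (nat_lit 1) (nat_lit 402) (nat_lit 426) (nat_lit 312)))))) (XT.nd (nat_lit 468) (nat_lit 304) (nat_lit 0) (XT.nd (nat_lit 234) (nat_lit 456) (nat_lit 0) (XT.nd (nat_lit 78) (nat_lit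 304) (nat_lit 0) (XT.lf (nat_lit 304) (nat_lit 1471298559) (nat_lit 0) (nat_lit 1200956111) (nat_lit 228) (nat_lit 1200956111) (nat_lit 102) (nat_lit 1) (nat_lit 98) (nat_lit 1) (nat_lit 101) (nat_lit 1) (nat_lit 403) (nat_lit 426) (nat_lit 311)) (XT.nd (nat_lit 78) (nat_lit 304) (nat_lit 0) (XT.lf (nat_lit 76) (nat_lit 207929202) (nat_lit 0) (nat_lit 3429645633) (nat_lit 304) (nat_lit 207929202) (nat_lit 99) (nat_lit 1) (nat_lit 98) (nat_lit 1) (nat_lit 102) (nat_lit 1) (nat_lit 404) (nat_lit 426) (nat_lit 310)) (XT.lf (nat_lit 76) (nat_lit 1592388643) (nat_lit 0) (nat_lit 633037564) (nat_lit 304) (nat_lit 1592388643) (nat_lit 95) (nat_lit 1) (nat_lit 94) (nat_lit 1) (nat_lit 98) (nat_lit 1) (nat_lit 405) (nat_lit 426) (nat_lit 309)))) (XT.nd (nat_lit 78) (nat_lit 228) (nat_lit 0) (XT.lf (nat_lit 304) (nat_lit 2127712945) (nat_lit 0) (nat_lit 831383870) (nat_lit 228) (nat_lit 831383870) (nat_lit 95) (nat_lit 1) (nat_lit 91) (nat_lit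 1) (nat_lit 94) (nat_lit 1) (nat_lit 406) (nat_lit 426) (nat_lit 308)) (XT.nd (nat_lit 78) (nat_lit 228) (nat_lit 0) (XT.lf (nat_lit 76) (nat_lit 538642271) (nat_lit 0) (nat_lit 2686121654) (nat_lit 304) (nat_lit 538642271) (nat_lit 92) (nat_lit 1) (nat_lit 91) (nat_lit 1) (nat_lit 95) (nat_lit 1) (nat_lit 407) (nat_lit 426) (nat_lit 307)) (XT.lf (nat_lit 304) (nat_lit 29780922) (nat_lit 0) (nat_lit 1853367574) (nat_lit 228) (nat_lit 1853367574) (nat_lit 92) (nat_lit 1) (nat_lit 88) (nat_lit 1) (nat_lit 91) (nat_lit 1) (nat_lit 408) (nat_lit 426) (nat_lit 306))))) (XT.nd (nat_lit 51402) (nat_lit 0) (nat_lit 30248) (XT.nd (nat_lit 51246) (nat_lit 0) (nat_lit 32072) (XT.lf (nat_lit 304) (nat_lit 2719070521) (nat_lit 0) (nat_lit 495409460) (nat_lit 228) (nat_lit 495409460) (nat_lit 88) (nat_lit 1) (nat_lit 84) (nat_lit 1) (nat_lit 87) (nat_lit 1) (nat_lit 409) (nat_lit 426) (nat_lit 305)) (XT.nd (nat_lit 78) (nat_lit 0) (nat_lit 76) (XT.lf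 (nat_lit 1900) (nat_lit 612091802) (nat_lit 76) (nat_lit 3983108059) (nat_lit 0) (nat_lit 3983108059) (nat_lit 531) (nat_lit 1) (nat_lit 507) (nat_lit 1) (nat_lit 506) (nat_lit 1) (nat_lit 305) (nat_lit 427) (nat_lit 408)) (XT.lf (nat_lit 1900) (nat_lit 38325095) (nat_lit 0) (nat_lit 8422791071) (nat_lit 1824) (nat_lit 38325095) (nat_lit 532) (nat_lit 1) (nat_lit 507) (nat_lit 1) (nat_lit 531) (nat_lit 1) (nat_lit 306) (nat_lit 427) (nat_lit 407)))) (XT.nd (nat_lit 156) (nat_lit 0) (nat_lit 76) (XT.nd (nat_lit 78) (nat_lit 0) (nat_lit 0) (XT.lf (nat_lit 1976) (nat_lit 3961934796) (nat_lit 0) (nat_lit 497099474) (nat_lit 1900) (nat_lit 3961934796) (nat_lit 508) (nat_lit 1) (nat_lit 482) (nat_lit 1) (nat_lit 507) (nat_lit 1) (nat_lit 307) (nat_lit 427) (nat_lit 406)) (XT.lf (nat_lit 1976) (nat_lit 7281640814) (nat_lit 76) (nat_lit 531155511) (nat_lit 0) (nat_lit 531155511) (nat_lit 508) (nat_lit 1) (nat_lit 483) (nat_lit 1) (nat_lit 482)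 (nat_lit 1) (nat_lit 308) (nat_lit 427) (nat_lit 405))) (XT.nd (nat_lit 78) (nat_lit 0) (nat_lit 0) (XT.lf (nat_lit 1976) (nat_lit 3301890985) (nat_lit 0) (nat_lit 1663717233) (nat_lit 1900) (nat_lit 3301890985) (nat_lit 509) (nat_lit 1) (nat_lit 483) (nat_lit 1) (nat_lit 508) (nat_lit 1) (nat_lit 309) (nat_lit 427) (nat_lit 404)) (XT.lf (nat_lit 1976) (nat_lit 5928268967) (nat_lit 76) (nat_lit 1132031027) (nat_lit 0) (nat_lit 1132031027) (nat_lit 509) (nat_lit 1) (nat_lit 484) (nat_lit 1) (nat_lit 483) (nat_lit 1) (nat_lit 310) (nat_lit 427) (nat_lit 403))))))))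
noncomputable def ec106 : XT := (XT.nd (nat_lit 1872) (nat_lit 8360) (nat_lit 0) (XT.nd (nat_lit 936) (nat_lit 5396) (nat_lit 0) (XT.nd (nat_lit 468) (nat_lit 2660) (nat_lit 0) (XT.nd (nat_lit 234) (nat_lit 1824) (nat_lit 0) (XT.nd (nat_lit 78) (nat_lit 1140) (nat_lit 0) (XT.lf (nat_lit 76) (nat_lit 2613370629) (nat_lit 0) (nat_lit 2891125665) (nat_lit 1900) (nat_lit 2613370629) (nat_lit 485) (nat_lit 1) (nat_lit 484) (nat_lit 1) (nat_lit 509) (nat_lit 1) (nat_lit 311) (nat_lit 427) (nat_lit 402)) (XT.nd (nat_lit 78) (nat_lit 0) (nat_lit 0) (XT.lf (nat_lit 1216) (nat_lit 4519948431) (nat_lit 0) (nat_lit 1762270760) (nat_lit 1140) (nat_lit 1762270760) (nat_lit 485) (nat_lit 1) (nat_lit 469) (nat_lit 1) (nat_lit 484) (nat_lit 1) (nat_lit 312) (nat_lit 427) (nat_lit 401)) (XT.lf (nat_lit 76) (nat_lit 1898540426) (nat_lit 0) (nat_lit 4174883961) (nat_lit 1216) (nat_lit 1898540426) (nat_lit 470) (nat_lit 1) (nat_lit 469) (nat_lit 1) (nat_lit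 485) (nat_lit 1) (nat_lit 313) (nat_lit 427) (nat_lit 400)))) (XT.nd (nat_lit 78) (nat_lit 912) (nat_lit 0) (XT.lf (nat_lit 988) (nat_lit 3060920808) (nat_lit 0) (nat_lit 2419701187) (nat_lit 912) (nat_lit 2419701187) (nat_lit 470) (nat_lit 1) (nat_lit 457) (nat_lit 1) (nat_lit 469) (nat_lit 1) (nat_lit 314) (nat_lit 427) (nat_lit 399)) (XT.nd (nat_lit 78) (nat_lit 912) (nat_lit 0) (XT.lf (nat_lit 76) (nat_lit 1159462137) (nat_lit 0) (nat_lit 5510764545) (nat_lit 988) (nat_lit 1159462137) (nat_lit 458) (nat_lit 1) (nat_lit 457) (nat_lit 1) (nat_lit 470) (nat_lit 1) (nat_lit 315) (nat_lit 427) (nat_lit 398)) (XT.lf (nat_lit 988) (nat_lit 1555221663) (nat_lit 0) (nat_lit 3102253448) (nat_lit 912) (nat_lit 3102253448) (nat_lit 458) (nat_lit 1) (nat_lit 445) (nat_lit 1) (nat_lit 457) (nat_lit 1) (nat_lit 316) (nat_lit 427) (nat_lit 397))))) (XT.nd (nat_lit 234) (nat_lit 836) (nat_lit 0) (XT.nd (nat_lit 78) (nat_lit 1824) (nat_lit 0) (XT.lf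 (nat_lit 76) (nat_lit 398097065) (nat_lit 0) (nat_lit 6894743989) (nat_lit 988) (nat_lit 398097065) (nat_lit 446) (nat_lit 1) (nat_lit 445) (nat_lit 1) (nat_lit 458) (nat_lit 1) (nat_lit 317) (nat_lit 427) (nat_lit 396)) (XT.nd (nat_lit 78) (nat_lit 988) (nat_lit 0) (XT.lf (nat_lit 912) (nat_lit 6689334) (nat_lit 0) (nat_lit 3807958881) (nat_lit 836) (nat_lit 3807958881) (nat_lit 446) (nat_lit 1) (nat_lit 434) (nat_lit 1) (nat_lit 445) (nat_lit 1) (nat_lit 318) (nat_lit 427) (nat_lit 395)) (XT.lf (nat_lit 988) (nat_lit 6793084338) (nat_lit 0) (nat_lit 381165364) (nat_lit 912) (nat_lit 381165364) (nat_lit 434) (nat_lit 1) (nat_lit 421) (nat_lit 1) (nat_lit 433) (nat_lit 1) (nat_lit 319) (nat_lit 427) (nat_lit 394)))) (XT.nd (nat_lit 78) (nat_lit 836) (nat_lit 0) (XT.lf (nat_lit 76) (nat_lit 2964183203) (nat_lit 0) (nat_lit 1560291165) (nat_lit 988) (nat_lit 2964183203) (nat_lit 422) (nat_lit 1) (nat_lit 421) (nat_lit 1) (nat_lit 434) (nat_lit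 1) (nat_lit 320) (nat_lit 427) (nat_lit 393)) (XT.nd (nat_lit 78) (nat_lit 0) (nat_lit 0) (XT.lf (nat_lit 912) (nat_lit 5070338657) (nat_lit 0) (nat_lit 1176334557) (nat_lit 836) (nat_lit 1176334557) (nat_lit 422) (nat_lit 1) (nat_lit 410) (nat_lit 1) (nat_lit 421) (nat_lit 1) (nat_lit 321) (nat_lit 427) (nat_lit 392)) (XT.lf (nat_lit 76) (nat_lit 2097778289) (nat_lit 0) (nat_lit 3162430245) (nat_lit 912) (nat_lit 2097778289) (nat_lit 411) (nat_lit 1) (nat_lit 410) (nat_lit 1) (nat_lit 422) (nat_lit 1) (nat_lit 322) (nat_lit 427) (nat_lit 391)))))) (XT.nd (nat_lit 468) (nat_lit 2204) (nat_lit 0) (XT.nd (nat_lit 234) (nat_lit 1596) (nat_lit 0) (XT.nd (nat_lit 78) (nat_lit 760) (nat_lit 0) (XT.lf (nat_lit 912) (nat_lit 3317121626) (nat_lit 0) (nat_lit 1988355608) (nat_lit 836) (nat_lit 1988355608) (nat_lit 411) (nat_lit 1) (nat_lit 399) (nat_lit 1) (nat_lit 410) (nat_lit 1) (nat_lit 323) (nat_lit 427) (nat_lit 390)) (XT.nd (nat_lit 78)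 (nat_lit 760) (nat_lit 0) (XT.lf (nat_lit 76) (nat_lit 1216971598) (nat_lit 0) (nat_lit 4796562850) (nat_lit 912) (nat_lit 1216971598) (nat_lit 400) (nat_lit 1) (nat_lit 399) (nat_lit 1) (nat_lit 411) (nat_lit 1) (nat_lit 324) (nat_lit 427) (nat_lit 389)) (XT.lf (nat_lit 836) (nat_lit 1536525657) (nat_lit 0) (nat_lit 2815638271) (nat_lit 760) (nat_lit 2815638271) (nat_lit 400) (nat_lit 1) (nat_lit 389) (nat_lit 1) (nat_lit 399) (nat_lit 1) (nat_lit 325) (nat_lit 427) (nat_lit 388)))) (XT.nd (nat_lit 78) (nat_lit 1596) (nat_lit 0) (XT.lf (nat_lit 76) (nat_lit 323264436) (nat_lit 0) (nat_lit 6459599445) (nat_lit 836) (nat_lit 323264436) (nat_lit 390) (nat_lit 1) (nat_lit 389) (nat_lit 1) (nat_lit 400) (nat_lit 1) (nat_lit 326) (nat_lit 427) (nat_lit 387)) (XT.nd (nat_lit 78) (nat_lit 760) (nat_lit 0) (XT.lf (nat_lit 76) (nat_lit 3389901417) (nat_lit 0) (nat_lit 264992744) (nat_lit 836) (nat_lit 3389901417) (nat_lit 379) (nat_lit 1) (nat_lit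 378) (nat_lit 1) (nat_lit 389) (nat_lit 1) (nat_lit 327) (nat_lit 427) (nat_lit 386)) (XT.lf (nat_lit 836) (nat_lit 5828285590) (nat_lit 0) (nat_lit 578090250) (nat_lit 760) (nat_lit 578090250) (nat_lit 379) (nat_lit 1) (nat_lit 368) (nat_lit 1) (nat_lit 378) (nat_lit 1) (nat_lit 328) (nat_lit 427) (nat_lit 385))))) (XT.nd (nat_lit 234) (nat_lit 1444) (nat_lit 0) (XT.nd (nat_lit 78) (nat_lit 760) (nat_lit 0) (XT.lf (nat_lit 76) (nat_lit 2428413814) (nat_lit 0) (nat_lit 2067735082) (nat_lit 836) (nat_lit 2428413814) (nat_lit 369) (nat_lit 1) (nat_lit 368) (nat_lit 1) (nat_lit 379) (nat_lit 1) (nat_lit 329) (nat_lit 427) (nat_lit 384)) (XT.nd (nat_lit 78) (nat_lit 0) (nat_lit 0) (XT.lf (nat_lit 836) (nat_lit 3890814342) (nat_lit 0) (nat_lit 1487376415) (nat_lit 760) (nat_lit 1487376415) (nat_lit 369) (nat_lit 1) (nat_lit 358) (nat_lit 1) (nat_lit 368) (nat_lit 1) (nat_lit 330) (nat_lit 427) (nat_lit 383)) (XT.lf (nat_lit 76) (nat_lit 1458987755)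 (nat_lit 0) (nat_lit 3889247663) (nat_lit 836) (nat_lit 1458987755) (nat_lit 359) (nat_lit 1) (nat_lit 358) (nat_lit 1) (nat_lit 369) (nat_lit 1) (nat_lit 331) (nat_lit 427) (nat_lit 382)))) (XT.nd (nat_lit 78) (nat_lit 760) (nat_lit 0) (XT.lf (nat_lit 760) (nat_lit 1938624793) (nat_lit 0) (nat_lit 2405448336) (nat_lit 684) (nat_lit 2405448336) (nat_lit 359) (nat_lit 1) (nat_lit 349) (nat_lit 1) (nat_lit 358) (nat_lit 1) (nat_lit 332) (nat_lit 427) (nat_lit 381)) (XT.nd (nat_lit 78) (nat_lit 760) (nat_lit 0) (XT.lf (nat_lit 76) (nat_lit 482819228) (nat_lit 0) (nat_lit 5727060970) (nat_lit 760) (nat_lit 482819228) (nat_lit 350) (nat_lit 1) (nat_lit 349) (nat_lit 1) (nat_lit 359) (nat_lit 1) (nat_lit 333) (nat_lit 427) (nat_lit 380)) (XT.lf (nat_lit 76) (nat_lit 3305320977) (nat_lit 0) (nat_lit 25607438) (nat_lit 760) (nat_lit 3305320977) (nat_lit 340) (nat_lit 1) (nat_lit 339) (nat_lit 1) (nat_lit 349) (nat_lit 1) (nat_lit 334) (nat_lit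 427) (nat_lit 379))))))) (XT.nd (nat_lit 936) (nat_lit 3952) (nat_lit 0) (XT.nd (nat_lit 468) (nat_lit 2432) (nat_lit 0) (XT.nd (nat_lit 234) (nat_lit 608) (nat_lit 0) (XT.nd (nat_lit 78) (nat_lit 684) (nat_lit 0) (XT.lf (nat_lit 760) (nat_lit 5589302239) (nat_lit 0) (nat_lit 495676994) (nat_lit 684) (nat_lit 495676994) (nat_lit 340) (nat_lit 1) (nat_lit 330) (nat_lit 1) (nat_lit 339) (nat_lit 1) (nat_lit 335) (nat_lit 427) (nat_lit 378)) (XT.nd (nat_lit 78) (nat_lit 684) (nat_lit 0) (XT.lf (nat_lit 76) (nat_lit 2275486773) (nat_lit 0) (nat_lit 1974453789) (nat_lit 760) (nat_lit 2275486773) (nat_lit 331) (nat_lit 1) (nat_lit 330) (nat_lit 1) (nat_lit 340) (nat_lit 1) (nat_lit 336) (nat_lit 427) (nat_lit 377)) (XT.lf (nat_lit 760) (nat_lit 3520014412) (nat_lit 0) (nat_lit 1475506124) (nat_lit 684) (nat_lit 1475506124) (nat_lit 331) (nat_lit 1) (nat_lit 321) (nat_lit 1) (nat_lit 330) (nat_lit 1) (nat_lit 337) (nat_lit 427) (nat_lit 376))))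 (XT.nd (nat_lit 78) (nat_lit 608) (nat_lit 0) (XT.lf (nat_lit 76) (nat_lit 1242979404) (nat_lit 0) (nat_lit 3931276771) (nat_lit 760) (nat_lit 1242979404) (nat_lit 322) (nat_lit 1) (nat_lit 321) (nat_lit 1) (nat_lit 331) (nat_lit 1) (nat_lit 338) (nat_lit 427) (nat_lit 375)) (XT.nd (nat_lit 78) (nat_lit 0) (nat_lit 0) (XT.lf (nat_lit 684) (nat_lit 1446315142) (nat_lit 0) (nat_lit 2458838476) (nat_lit 608) (nat_lit 2458838476) (nat_lit 322) (nat_lit 1) (nat_lit 313) (nat_lit 1) (nat_lit 321) (nat_lit 1) (nat_lit 339) (nat_lit 427) (nat_lit 374)) (XT.lf (nat_lit 76) (nat_lit 208739200) (nat_lit 0) (nat_lit 5894126392) (nat_lit 684) (nat_lit 208739200) (nat_lit 314) (nat_lit 1) (nat_lit 313) (nat_lit 1) (nat_lit 322) (nat_lit 1) (nat_lit 340) (nat_lit 427) (nat_lit 373))))) (XT.nd (nat_lit 234) (nat_lit 1140) (nat_lit 0) (XT.nd (nat_lit 78) (nat_lit 608) (nat_lit 0) (XT.lf (nat_lit 76) (nat_lit 2818851200) (nat_lit 0) (nat_lit 621700151)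 (nat_lit 684) (nat_lit 2818851200) (nat_lit 305) (nat_lit 1) (nat_lit 304) (nat_lit 1) (nat_lit 313) (nat_lit 1) (nat_lit 341) (nat_lit 427) (nat_lit 372)) (XT.nd (nat_lit 78) (nat_lit 0) (nat_lit 0) (XT.lf (nat_lit 684) (nat_lit 4566217160) (nat_lit 0) (nat_lit 820909936) (nat_lit 608) (nat_lit 820909936) (nat_lit 305) (nat_lit 1) (nat_lit 296) (nat_lit 1) (nat_lit 304) (nat_lit 1) (nat_lit 342) (nat_lit 427) (nat_lit 371)) (XT.lf (nat_lit 76) (nat_lit 1742750793) (nat_lit 0) (nat_lit 2671584158) (nat_lit 684) (nat_lit 1742750793) (nat_lit 297) (nat_lit 1) (nat_lit 296) (nat_lit 1) (nat_lit 305) (nat_lit 1) (nat_lit 343) (nat_lit 427) (nat_lit 370)))) (XT.nd (nat_lit 78) (nat_lit 532) (nat_lit 0) (XT.lf (nat_lit 684) (nat_lit 2408400302) (nat_lit 0) (nat_lit 1849194283) (nat_lit 608) (nat_lit 1849194283) (nat_lit 297) (nat_lit 1) (nat_lit 288) (nat_lit 1) (nat_lit 296) (nat_lit 1) (nat_lit 344) (nat_lit 427) (nat_lit 369)) (XT.nd (nat_lit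 78) (nat_lit 532) (nat_lit 0) (XT.lf (nat_lit 76) (nat_lit 668234490) (nat_lit 0) (nat_lit 4720696488) (nat_lit 684) (nat_lit 668234490) (nat_lit 289) (nat_lit 1) (nat_lit 288) (nat_lit 1) (nat_lit 297) (nat_lit 1) (nat_lit 345) (nat_lit 427) (nat_lit 368)) (XT.lf (nat_lit 608) (nat_lit 254498705) (nat_lit 0) (nat_lit 2876703702) (nat_lit 532) (nat_lit 2876703702) (nat_lit 289) (nat_lit 1) (nat_lit 281) (nat_lit 1) (nat_lit 288) (nat_lit 1) (nat_lit 346) (nat_lit 427) (nat_lit 367)))))) (XT.nd (nat_lit 468) (nat_lit 1596) (nat_lit 0) (XT.nd (nat_lit 234) (nat_lit 1140) (nat_lit 0) (XT.nd (nat_lit 78) (nat_lit 532) (nat_lit 0) (XT.lf (nat_lit 684) (nat_lit 5156742561) (nat_lit 0) (nat_lit 401313240) (nat_lit 608) (nat_lit 401313240) (nat_lit 281) (nat_lit 1) (nat_lit 272) (nat_lit 1) (nat_lit 280) (nat_lit 1) (nat_lit 347) (nat_lit 427) (nat_lit 366)) (XT.nd (nat_lit 78) (nat_lit 532) (nat_lit 0) (XT.lf (nat_lit 76) (nat_lit 2020924648)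 (nat_lit 0) (nat_lit 1869232365) (nat_lit 684) (nat_lit 2020924648) (nat_lit 273) (nat_lit 1) (nat_lit 272) (nat_lit 1) (nat_lit 281) (nat_lit 1) (nat_lit 348) (nat_lit 427) (nat_lit 365)) (XT.lf (nat_lit 608) (nat_lit 2936519102) (nat_lit 0) (nat_lit 1463490430) (nat_lit 532) (nat_lit 1463490430) (nat_lit 273) (nat_lit 1) (nat_lit 265) (nat_lit 1) (nat_lit 272) (nat_lit 1) (nat_lit 349) (nat_lit 427) (nat_lit 364)))) (XT.nd (nat_lit 78) (nat_lit 1140) (nat_lit 0) (XT.lf (nat_lit 76) (nat_lit 916707451) (nat_lit 0) (nat_lit 3983055021) (nat_lit 608) (nat_lit 916707451) (nat_lit 266) (nat_lit 1) (nat_lit 265) (nat_lit 1) (nat_lit 273) (nat_lit 1) (nat_lit 350) (nat_lit 427) (nat_lit 363)) (XT.nd (nat_lit 78) (nat_lit 608) (nat_lit 0) (XT.lf (nat_lit 608) (nat_lit 725735888) (nat_lit 0) (nat_lit 2522056172) (nat_lit 532) (nat_lit 2522056172) (nat_lit 266) (nat_lit 1) (nat_lit 258) (nat_lit 1) (nat_lit 265) (nat_lit 1) (nat_lit 351) (nat_lit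 427) (nat_lit 362)) (XT.lf (nat_lit 608) (nat_lit 5361322719) (nat_lit 0) (nat_lit 181314306) (nat_lit 532) (nat_lit 181314306) (nat_lit 258) (nat_lit 1) (nat_lit 250) (nat_lit 1) (nat_lit 257) (nat_lit 1) (nat_lit 352) (nat_lit 427) (nat_lit 361))))) (XT.nd (nat_lit 234) (nat_lit 1064) (nat_lit 0) (XT.nd (nat_lit 78) (nat_lit 532) (nat_lit 0) (XT.lf (nat_lit 76) (nat_lit 2111517711) (nat_lit 0) (nat_lit 1455130372) (nat_lit 608) (nat_lit 2111517711) (nat_lit 251) (nat_lit 1) (nat_lit 250) (nat_lit 1) (nat_lit 258) (nat_lit 1) (nat_lit 353) (nat_lit 427) (nat_lit 360)) (XT.nd (nat_lit 78) (nat_lit 0) (nat_lit 0) (XT.lf (nat_lit 608) (nat_lit 3097494260) (nat_lit 0) (nat_lit 1267798022) (nat_lit 532) (nat_lit 1267798022) (nat_lit 251) (nat_lit 1) (nat_lit 243) (nat_lit 1) (nat_lit 250) (nat_lit 1) (nat_lit 354) (nat_lit 427) (nat_lit 359)) (XT.lf (nat_lit 76) (nat_lit 986754662) (nat_lit 0) (nat_lit 3614987101) (nat_lit 608) (nat_lit 986754662)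 (nat_lit 244) (nat_lit 1) (nat_lit 243) (nat_lit 1) (nat_lit 251) (nat_lit 1) (nat_lit 355) (nat_lit 427) (nat_lit 358)))) (XT.nd (nat_lit 78) (nat_lit 608) (nat_lit 0) (XT.lf (nat_lit 532) (nat_lit 847780500) (nat_lit 0) (nat_lit 2348265054) (nat_lit 456) (nat_lit 2348265054) (nat_lit 244) (nat_lit 1) (nat_lit 237) (nat_lit 1) (nat_lit 243) (nat_lit 1) (nat_lit 356) (nat_lit 427) (nat_lit 357)) (XT.nd (nat_lit 78) (nat_lit 0) (nat_lit 0) (XT.lf (nat_lit 608) (nat_lit 5241043630) (nat_lit 0) (nat_lit 129884662) (nat_lit 532) (nat_lit 129884662) (nat_lit 237) (nat_lit 1) (nat_lit 229) (nat_lit 1) (nat_lit 236) (nat_lit 1) (nat_lit 357) (nat_lit 427) (nat_lit 356)) (XT.lf (nat_lit 76) (nat_lit 2044324830) (nat_lit 0) (nat_lit 1368730038) (nat_lit 608) (nat_lit 2044324830) (nat_lit 230) (nat_lit 1) (nat_lit 229) (nat_lit 1) (nat_lit 237) (nat_lit 1) (nat_lit 358) (nat_lit 427) (nat_lit 355))))))))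
noncomputable def ec107 : XT := (XT.nd (nat_lit 1872) (nat_lit 4788) (nat_lit 0) (XT.nd (nat_lit 936) (nat_lit 3040) (nat_lit 0) (XT.nd (nat_lit 468) (nat_lit 1292) (nat_lit 0) (XT.nd (nat_lit 234) (nat_lit 988) (nat_lit 0) (XT.nd (nat_lit 78) (nat_lit 456) (nat_lit 0) (XT.lf (nat_lit 532) (nat_lit 2949846848) (nat_lit 0) (nat_lit 1232387332) (nat_lit 456) (nat_lit 1232387332) (nat_lit 230) (nat_lit 1) (nat_lit 223) (nat_lit 1) (nat_lit 229) (nat_lit 1) (nat_lit 359) (nat_lit 427) (nat_lit 354)) (XT.nd (nat_lit 78) (nat_lit 456) (nat_lit 0) (XT.lf (nat_lit 76) (nat_lit 906919046) (nat_lit 0) (nat_lit 3558480580) (nat_lit 532) (nat_lit 906919046) (nat_lit 224) (nat_lit 1) (nat_lit 223) (nat_lit 1) (nat_lit 230) (nat_lit 1) (nat_lit 360) (nat_lit 427) (nat_lit 353)) (XT.lf (nat_lit 532) (nat_lit 676692964) (nat_lit 0) (nat_lit 2326846649) (nat_lit 456) (nat_lit 2326846649) (nat_lit 224) (nat_lit 1) (nat_lit 217) (nat_lit 1) (nat_lit 223)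 (nat_lit 1) (nat_lit 361) (nat_lit 427) (nat_lit 352)))) (XT.nd (nat_lit 78) (nat_lit 456) (nat_lit 0) (XT.lf (nat_lit 532) (nat_lit 4849348313) (nat_lit 0) (nat_lit 219862264) (nat_lit 456) (nat_lit 219862264) (nat_lit 217) (nat_lit 1) (nat_lit 210) (nat_lit 1) (nat_lit 216) (nat_lit 1) (nat_lit 362) (nat_lit 427) (nat_lit 351)) (XT.nd (nat_lit 78) (nat_lit 456) (nat_lit 0) (XT.lf (nat_lit 76) (nat_lit 1845408950) (nat_lit 0) (nat_lit 1557035738) (nat_lit 532) (nat_lit 1845408950) (nat_lit 211) (nat_lit 1) (nat_lit 210) (nat_lit 1) (nat_lit 217) (nat_lit 1) (nat_lit 363) (nat_lit 427) (nat_lit 350)) (XT.lf (nat_lit 532) (nat_lit 2544760114) (nat_lit 0) (nat_lit 1331240842) (nat_lit 456) (nat_lit 1331240842) (nat_lit 211) (nat_lit 1) (nat_lit 204) (nat_lit 1) (nat_lit 210) (nat_lit 1) (nat_lit 364) (nat_lit 427) (nat_lit 349))))) (XT.nd (nat_lit 234) (nat_lit 380) (nat_lit 0) (XT.nd (nat_lit 78) (nat_lit 912) (nat_lit 0) (XT.lf (nat_lit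 76) (nat_lit 702160666) (nat_lit 0) (nat_lit 3762774491) (nat_lit 532) (nat_lit 702160666) (nat_lit 205) (nat_lit 1) (nat_lit 204) (nat_lit 1) (nat_lit 211) (nat_lit 1) (nat_lit 365) (nat_lit 427) (nat_lit 348)) (XT.nd (nat_lit 78) (nat_lit 532) (nat_lit 0) (XT.lf (nat_lit 456) (nat_lit 261489001) (nat_lit 0) (nat_lit 2432881315) (nat_lit 380) (nat_lit 2432881315) (nat_lit 205) (nat_lit 1) (nat_lit 199) (nat_lit 1) (nat_lit 204) (nat_lit 1) (nat_lit 366) (nat_lit 427) (nat_lit 347)) (XT.lf (nat_lit 532) (nat_lit 4232926182) (nat_lit 0) (nat_lit 427502144) (nat_lit 456) (nat_lit 427502144) (nat_lit 199) (nat_lit 1) (nat_lit 192) (nat_lit 1) (nat_lit 198) (nat_lit 1) (nat_lit 367) (nat_lit 427) (nat_lit 346)))) (XT.nd (nat_lit 78) (nat_lit 380) (nat_lit 0) (XT.lf (nat_lit 76) (nat_lit 1537535539) (nat_lit 0) (nat_lit 1973726287) (nat_lit 532) (nat_lit 1537535539) (nat_lit 193) (nat_lit 1) (nat_lit 192) (nat_lit 1) (nat_lit 199) (nat_lit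 1) (nat_lit 368) (nat_lit 427) (nat_lit 345)) (XT.nd (nat_lit 78) (nat_lit 0) (nat_lit 0) (XT.lf (nat_lit 456) (nat_lit 1926933974) (nat_lit 0) (nat_lit 1541621496) (nat_lit 380) (nat_lit 1541621496) (nat_lit 193) (nat_lit 1) (nat_lit 187) (nat_lit 1) (nat_lit 192) (nat_lit 1) (nat_lit 369) (nat_lit 427) (nat_lit 344)) (XT.lf (nat_lit 76) (nat_lit 394274104) (nat_lit 0) (nat_lit 4183515402) (nat_lit 456) (nat_lit 394274104) (nat_lit 188) (nat_lit 1) (nat_lit 187) (nat_lit 1) (nat_lit 193) (nat_lit 1) (nat_lit 370) (nat_lit 427) (nat_lit 343)))))) (XT.nd (nat_lit 468) (nat_lit 1444) (nat_lit 0) (XT.nd (nat_lit 234) (nat_lit 760) (nat_lit 0) (XT.nd (nat_lit 78) (nat_lit 380) (nat_lit 0) (XT.lf (nat_lit 76) (nat_lit 2291864409) (nat_lit 0) (nat_lit 350382987) (nat_lit 456) (nat_lit 2291864409) (nat_lit 182) (nat_lit 1) (nat_lit 181) (nat_lit 1) (nat_lit 187) (nat_lit 1) (nat_lit 371) (nat_lit 427) (nat_lit 342)) (XT.nd (nat_lit 78) (nat_lit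 0) (nat_lit 0) (XT.lf (nat_lit 456) (nat_lit 3432501448) (nat_lit 0) (nat_lit 732078028) (nat_lit 380) (nat_lit 732078028) (nat_lit 182) (nat_lit 1) (nat_lit 176) (nat_lit 1) (nat_lit 181) (nat_lit 1) (nat_lit 372) (nat_lit 427) (nat_lit 341)) (XT.lf (nat_lit 76) (nat_lit 1140557682) (nat_lit 0) (nat_lit 2578376514) (nat_lit 456) (nat_lit 1140557682) (nat_lit 177) (nat_lit 1) (nat_lit 176) (nat_lit 1) (nat_lit 182) (nat_lit 1) (nat_lit 373) (nat_lit 427) (nat_lit 340)))) (XT.nd (nat_lit 78) (nat_lit 380) (nat_lit 0) (XT.lf (nat_lit 456) (nat_lit 1135342477) (nat_lit 0) (nat_lit 1843689954) (nat_lit 380) (nat_lit 1843689954) (nat_lit 177) (nat_lit 1) (nat_lit 171) (nat_lit 1) (nat_lit 176) (nat_lit 1) (nat_lit 374) (nat_lit 427) (nat_lit 339)) (XT.nd (nat_lit 78) (nat_lit 380) (nat_lit 0) (XT.lf (nat_lit 76) (nat_lit 2258449) (nat_lit 0) (nat_lit 4782009533) (nat_lit 456) (nat_lit 2258449) (nat_lit 172) (nat_lit 1) (nat_lit 171) (nat_lit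 1) (nat_lit 177) (nat_lit 1) (nat_lit 375) (nat_lit 427) (nat_lit 338)) (XT.lf (nat_lit 76) (nat_lit 1814786600) (nat_lit 0) (nat_lit 1120702668) (nat_lit 380) (nat_lit 1814786600) (nat_lit 167) (nat_lit 1) (nat_lit 166) (nat_lit 1) (nat_lit 171) (nat_lit 1) (nat_lit 376) (nat_lit 427) (nat_lit 337))))) (XT.nd (nat_lit 234) (nat_lit 760) (nat_lit 0) (XT.nd (nat_lit 78) (nat_lit 304) (nat_lit 0) (XT.lf (nat_lit 456) (nat_lit 2483531930) (nat_lit 0) (nat_lit 1115529224) (nat_lit 380) (nat_lit 1115529224) (nat_lit 167) (nat_lit 1) (nat_lit 161) (nat_lit 1) (nat_lit 166) (nat_lit 1) (nat_lit 377) (nat_lit 427) (nat_lit 336)) (XT.nd (nat_lit 78) (nat_lit 304) (nat_lit 0) (XT.lf (nat_lit 76) (nat_lit 671757413) (nat_lit 0) (nat_lit 3335767282) (nat_lit 456) (nat_lit 671757413) (nat_lit 162) (nat_lit 1) (nat_lit 161) (nat_lit 1) (nat_lit 167) (nat_lit 1) (nat_lit 378) (nat_lit 427) (nat_lit 335)) (XT.lf (nat_lit 380) (nat_lit 203905160) (nat_lit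 0) (nat_lit 2220165342) (nat_lit 304) (nat_lit 2220165342) (nat_lit 162) (nat_lit 1) (nat_lit 157) (nat_lit 1) (nat_lit 161) (nat_lit 1) (nat_lit 379) (nat_lit 427) (nat_lit 334)))) (XT.nd (nat_lit 78) (nat_lit 304) (nat_lit 0) (XT.lf (nat_lit 456) (nat_lit 3700920179) (nat_lit 0) (nat_lit 454345877) (nat_lit 380) (nat_lit 454345877) (nat_lit 157) (nat_lit 1) (nat_lit 151) (nat_lit 1) (nat_lit 156) (nat_lit 1) (nat_lit 380) (nat_lit 427) (nat_lit 333)) (XT.nd (nat_lit 78) (nat_lit 304) (nat_lit 0) (XT.lf (nat_lit 76) (nat_lit 1277140165) (nat_lit 0) (nat_lit 2020880059) (nat_lit 456) (nat_lit 1277140165) (nat_lit 152) (nat_lit 1) (nat_lit 151) (nat_lit 1) (nat_lit 157) (nat_lit 1) (nat_lit 381) (nat_lit 427) (nat_lit 332)) (XT.lf (nat_lit 380) (nat_lit 1416828352) (nat_lit 0) (nat_lit 1562147660) (nat_lit 304) (nat_lit 1562147660) (nat_lit 152) (nat_lit 1) (nat_lit 147) (nat_lit 1) (nat_lit 151) (nat_lit 1) (nat_lit 382) (nat_lit 427)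 (nat_lit 331))))))) (XT.nd (nat_lit 936) (nat_lit 2508) (nat_lit 0) (XT.nd (nat_lit 468) (nat_lit 912) (nat_lit 0) (XT.nd (nat_lit 234) (nat_lit 684) (nat_lit 0) (XT.nd (nat_lit 78) (nat_lit 684) (nat_lit 0) (XT.lf (nat_lit 76) (nat_lit 146148192) (nat_lit 0) (nat_lit 4215273978) (nat_lit 380) (nat_lit 146148192) (nat_lit 148) (nat_lit 1) (nat_lit 147) (nat_lit 1) (nat_lit 152) (nat_lit 1) (nat_lit 383) (nat_lit 427) (nat_lit 330)) (XT.nd (nat_lit 78) (nat_lit 304) (nat_lit 0) (XT.lf (nat_lit 76) (nat_lit 1823546915) (nat_lit 0) (nat_lit 826928557) (nat_lit 380) (nat_lit 1823546915) (nat_lit 143) (nat_lit 1) (nat_lit 142) (nat_lit 1) (nat_lit 147) (nat_lit 1) (nat_lit 384) (nat_lit 427) (nat_lit 329)) (XT.lf (nat_lit 380) (nat_lit 2513294610) (nat_lit 0) (nat_lit 963828130) (nat_lit 304) (nat_lit 963828130) (nat_lit 143) (nat_lit 1) (nat_lit 138) (nat_lit 1) (nat_lit 142) (nat_lit 1) (nat_lit 385) (nat_lit 427) (nat_lit 328)))) (XT.nd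 (nat_lit 78) (nat_lit 684) (nat_lit 0) (XT.lf (nat_lit 76) (nat_lit 692541205) (nat_lit 0) (nat_lit 3023119045) (nat_lit 380) (nat_lit 692541205) (nat_lit 139) (nat_lit 1) (nat_lit 138) (nat_lit 1) (nat_lit 143) (nat_lit 1) (nat_lit 386) (nat_lit 427) (nat_lit 327)) (XT.nd (nat_lit 78) (nat_lit 380) (nat_lit 0) (XT.lf (nat_lit 380) (nat_lit 259103079) (nat_lit 0) (nat_lit 2058300564) (nat_lit 304) (nat_lit 2058300564) (nat_lit 139) (nat_lit 1) (nat_lit 134) (nat_lit 1) (nat_lit 138) (nat_lit 1) (nat_lit 387) (nat_lit 427) (nat_lit 326)) (XT.lf (nat_lit 380) (nat_lit 3502644962) (nat_lit 0) (nat_lit 420472484) (nat_lit 304) (nat_lit 420472484) (nat_lit 134) (nat_lit 1) (nat_lit 129) (nat_lit 1) (nat_lit 133) (nat_lit 1) (nat_lit 388) (nat_lit 427) (nat_lit 325))))) (XT.nd (nat_lit 234) (nat_lit 608) (nat_lit 0) (XT.nd (nat_lit 78) (nat_lit 304) (nat_lit 0) (XT.lf (nat_lit 76) (nat_lit 1186392071) (nat_lit 0) (nat_lit 1938833389) (nat_lit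 380) (nat_lit 1186392071) (nat_lit 130) (nat_lit 1) (nat_lit 129) (nat_lit 1) (nat_lit 134) (nat_lit 1) (nat_lit 389) (nat_lit 427) (nat_lit 324)) (XT.nd (nat_lit 78) (nat_lit 0) (nat_lit 0) (XT.lf (nat_lit 380) (nat_lit 1252321972) (nat_lit 0) (nat_lit 1513849981) (nat_lit 304) (nat_lit 1513849981) (nat_lit 130) (nat_lit 1) (nat_lit 125) (nat_lit 1) (nat_lit 129) (nat_lit 1) (nat_lit 390) (nat_lit 427) (nat_lit 323)) (XT.lf (nat_lit 76) (nat_lit 72768062) (nat_lit 0) (nat_lit 4103347114) (nat_lit 380) (nat_lit 72768062) (nat_lit 126) (nat_lit 1) (nat_lit 125) (nat_lit 1) (nat_lit 130) (nat_lit 1) (nat_lit 391) (nat_lit 427) (nat_lit 322)))) (XT.nd (nat_lit 78) (nat_lit 304) (nat_lit 0) (XT.lf (nat_lit 76) (nat_lit 1631916462) (nat_lit 0) (nat_lit 953867346) (nat_lit 304) (nat_lit 1631916462) (nat_lit 122) (nat_lit 1) (nat_lit 121) (nat_lit 1) (nat_lit 125) (nat_lit 1) (nat_lit 392) (nat_lit 427) (nat_lit 321)) (XT.nd (nat_lit 78) (nat_lit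 0) (nat_lit 0) (XT.lf (nat_lit 380) (nat_lit 2150040923) (nat_lit 0) (nat_lit 1018463791) (nat_lit 304) (nat_lit 1018463791) (nat_lit 122) (nat_lit 1) (nat_lit 117) (nat_lit 1) (nat_lit 121) (nat_lit 1) (nat_lit 393) (nat_lit 427) (nat_lit 320)) (XT.lf (nat_lit 76) (nat_lit 521924649) (nat_lit 0) (nat_lit 3112710836) (nat_lit 380) (nat_lit 521924649) (nat_lit 118) (nat_lit 1) (nat_lit 117) (nat_lit 1) (nat_lit 122) (nat_lit 1) (nat_lit 394) (nat_lit 427) (nat_lit 319)))))) (XT.nd (nat_lit 468) (nat_lit 1292) (nat_lit 0) (XT.nd (nat_lit 234) (nat_lit 608) (nat_lit 0) (XT.nd (nat_lit 78) (nat_lit 304) (nat_lit 0) (XT.lf (nat_lit 76) (nat_lit 2033004808) (nat_lit 0) (nat_lit 60328914) (nat_lit 304) (nat_lit 2033004808) (nat_lit 114) (nat_lit 1) (nat_lit 113) (nat_lit 1) (nat_lit 117) (nat_lit 1) (nat_lit 395) (nat_lit 427) (nat_lit 318)) (XT.nd (nat_lit 78) (nat_lit 0) (nat_lit 0) (XT.lf (nat_lit 380) (nat_lit 2959922137) (nat_lit 0) (nat_lit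 568256459) (nat_lit 304) (nat_lit 568256459) (nat_lit 114) (nat_lit 1) (nat_lit 109) (nat_lit 1) (nat_lit 113) (nat_lit 1) (nat_lit 396) (nat_lit 427) (nat_lit 317)) (XT.lf (nat_lit 76) (nat_lit 927960256) (nat_lit 0) (nat_lit 2210813054) (nat_lit 380) (nat_lit 927960256) (nat_lit 110) (nat_lit 1) (nat_lit 109) (nat_lit 1) (nat_lit 114) (nat_lit 1) (nat_lit 397) (nat_lit 427) (nat_lit 316)))) (XT.nd (nat_lit 78) (nat_lit 380) (nat_lit 0) (XT.lf (nat_lit 304) (nat_lit 759021157) (nat_lit 0) (nat_lit 1639154055) (nat_lit 228) (nat_lit 1639154055) (nat_lit 110) (nat_lit 1) (nat_lit 106) (nat_lit 1) (nat_lit 109) (nat_lit 1) (nat_lit 398) (nat_lit 427) (nat_lit 315)) (XT.nd (nat_lit 78) (nat_lit 0) (nat_lit 0) (XT.lf (nat_lit 380) (nat_lit 3689036669) (nat_lit 0) (nat_lit 159641272) (nat_lit 304) (nat_lit 159641272) (nat_lit 106) (nat_lit 1) (nat_lit 101) (nat_lit 1) (nat_lit 105) (nat_lit 1) (nat_lit 399) (nat_lit 427) (nat_lit 314)) (XT.lf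 (nat_lit 76) (nat_lit 1294333560) (nat_lit 0) (nat_lit 1390635201) (nat_lit 380) (nat_lit 1294333560) (nat_lit 102) (nat_lit 1) (nat_lit 101) (nat_lit 1) (nat_lit 106) (nat_lit 1) (nat_lit 400) (nat_lit 427) (nat_lit 313))))) (XT.nd (nat_lit 234) (nat_lit 760) (nat_lit 0) (XT.nd (nat_lit 78) (nat_lit 304) (nat_lit 0) (XT.lf (nat_lit 304) (nat_lit 1500724530) (nat_lit 0) (nat_lit 1224975233) (nat_lit 228) (nat_lit 1224975233) (nat_lit 102) (nat_lit 1) (nat_lit 98) (nat_lit 1) (nat_lit 101) (nat_lit 1) (nat_lit 401) (nat_lit 427) (nat_lit 312)) (XT.nd (nat_lit 78) (nat_lit 304) (nat_lit 0) (XT.lf (nat_lit 76) (nat_lit 212087787) (nat_lit 0) (nat_lit 3498238546) (nat_lit 304) (nat_lit 212087787) (nat_lit 99) (nat_lit 1) (nat_lit 98) (nat_lit 1) (nat_lit 102) (nat_lit 1) (nat_lit 402) (nat_lit 427) (nat_lit 311)) (XT.lf (nat_lit 76) (nat_lit 1624236416) (nat_lit 0) (nat_lit 645698315) (nat_lit 304) (nat_lit 1624236416) (nat_lit 95) (nat_lit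 1) (nat_lit 94) (nat_lit 1) (nat_lit 98) (nat_lit 1) (nat_lit 403) (nat_lit 427) (nat_lit 310)))) (XT.nd (nat_lit 156) (nat_lit 532) (nat_lit 0) (XT.nd (nat_lit 78) (nat_lit 0) (nat_lit 0) (XT.lf (nat_lit 304) (nat_lit 2170267204) (nat_lit 0) (nat_lit 848011547) (nat_lit 228) (nat_lit 848011547) (nat_lit 95) (nat_lit 1) (nat_lit 91) (nat_lit 1) (nat_lit 94) (nat_lit 1) (nat_lit 404) (nat_lit 427) (nat_lit 309)) (XT.lf (nat_lit 76) (nat_lit 549415116) (nat_lit 0) (nat_lit 2739844087) (nat_lit 304) (nat_lit 549415116) (nat_lit 92) (nat_lit 1) (nat_lit 91) (nat_lit 1) (nat_lit 95) (nat_lit 1) (nat_lit 405) (nat_lit 427) (nat_lit 308))) (XT.nd (nat_lit 78) (nat_lit 304) (nat_lit 0) (XT.lf (nat_lit 304) (nat_lit 30376541) (nat_lit 0) (nat_lit 1890434926) (nat_lit 228) (nat_lit 1890434926) (nat_lit 92) (nat_lit 1) (nat_lit 88) (nat_lit 1) (nat_lit 91) (nat_lit 1) (nat_lit 406) (nat_lit 427) (nat_lit 307)) (XT.lf (nat_lit 304) (nat_lit 2773451932)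 (nat_lit 0) (nat_lit 505317649) (nat_lit 228) (nat_lit 505317649) (nat_lit 88) (nat_lit 1) (nat_lit 84) (nat_lit 1) (nat_lit 87) (nat_lit 1) (nat_lit 407) (nat_lit 427) (nat_lit 306))))))))
noncomputable def ec108 : XT := (XT.nd (nat_lit 53196) (nat_lit 0) (nat_lit 12084) (XT.nd (nat_lit 52260) (nat_lit 0) (nat_lit 20824) (XT.nd (nat_lit 51792) (nat_lit 0) (nat_lit 26600) (XT.nd (nat_lit 51558) (nat_lit 0) (nat_lit 29260) (XT.nd (nat_lit 51402) (nat_lit 0) (nat_lit 30248) (XT.lf (nat_lit 76) (nat_lit 854122471) (nat_lit 0) (nat_lit 2048851650) (nat_lit 304) (nat_lit 854122471) (nat_lit 85) (nat_lit 1) (nat_lit 84) (nat_lit 1) (nat_lit 88) (nat_lit 1) (nat_lit 408) (nat_lit 427) (nat_lit 305)) (XT.nd (nat_lit 78) (nat_lit 0) (nat_lit 76) (XT.lf (nat_lit 1976) (nat_lit 7427273631) (nat_lit 76) (nat_lit 541778621) (nat_lit 0) (nat_lit 541778621) (nat_lit 508) (nat_lit 1) (nat_lit 483) (nat_lit 1) (nat_lit 482) (nat_lit 1) (nat_lit 306) (nat_lit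 428) (nat_lit 406)) (XT.lf (nat_lit 1976) (nat_lit 3367928804) (nat_lit 0) (nat_lit 1696991578) (nat_lit 1900) (nat_lit 3367928804) (nat_lit 509) (nat_lit 1) (nat_lit 483) (nat_lit 1) (nat_lit 508) (nat_lit 1) (nat_lit 307) (nat_lit 428) (nat_lit 405)))) (XT.nd (nat_lit 78) (nat_lit 1064) (nat_lit 0) (XT.lf (nat_lit 1976) (nat_lit 6046834347) (nat_lit 76) (nat_lit 1154671648) (nat_lit 0) (nat_lit 1154671648) (nat_lit 509) (nat_lit 1) (nat_lit 484) (nat_lit 1) (nat_lit 483) (nat_lit 1) (nat_lit 308) (nat_lit 428) (nat_lit 404)) (XT.nd (nat_lit 78) (nat_lit 1140) (nat_lit 0) (XT.lf (nat_lit 76) (nat_lit 2665638042) (nat_lit 0) (nat_lit 2948948178) (nat_lit 1900) (nat_lit 2665638042) (nat_lit 485) (nat_lit 1) (nat_lit 484) (nat_lit 1) (nat_lit 509) (nat_lit 1) (nat_lit 309) (nat_lit 428) (nat_lit 403)) (XT.lf (nat_lit 1216) (nat_lit 4610347400) (nat_lit 0) (nat_lit 1797516175) (nat_lit 1140) (nat_lit 1797516175) (nat_lit 485) (nat_lit 1)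 (nat_lit 469) (nat_lit 1) (nat_lit 484) (nat_lit 1) (nat_lit 310) (nat_lit 428) (nat_lit 402))))) (XT.nd (nat_lit 234) (nat_lit 1748) (nat_lit 0) (XT.nd (nat_lit 78) (nat_lit 912) (nat_lit 0) (XT.lf (nat_lit 76) (nat_lit 1936511235) (nat_lit 0) (nat_lit 4258381641) (nat_lit 1216) (nat_lit 1936511235) (nat_lit 470) (nat_lit 1) (nat_lit 469) (nat_lit 1) (nat_lit 485) (nat_lit 1) (nat_lit 311) (nat_lit 428) (nat_lit 401)) (XT.nd (nat_lit 78) (nat_lit 0) (nat_lit 0) (XT.lf (nat_lit 988) (nat_lit 3122139224) (nat_lit 0) (nat_lit 2468095211) (nat_lit 912) (nat_lit 2468095211) (nat_lit 470) (nat_lit 1) (nat_lit 457) (nat_lit 1) (nat_lit 469) (nat_lit 1) (nat_lit 312) (nat_lit 428) (nat_lit 400)) (XT.lf (nat_lit 76) (nat_lit 1182651380) (nat_lit 0) (nat_lit 5620979836) (nat_lit 988) (nat_lit 1182651380) (nat_lit 458) (nat_lit 1) (nat_lit 457) (nat_lit 1) (nat_lit 470) (nat_lit 1) (nat_lit 313) (nat_lit 428) (nat_lit 399)))) (XT.nd (nat_lit 78)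 (nat_lit 836) (nat_lit 0) (XT.lf (nat_lit 988) (nat_lit 1586326096) (nat_lit 0) (nat_lit 3164298517) (nat_lit 912) (nat_lit 3164298517) (nat_lit 458) (nat_lit 1) (nat_lit 445) (nat_lit 1) (nat_lit 457) (nat_lit 1) (nat_lit 314) (nat_lit 428) (nat_lit 398)) (XT.nd (nat_lit 78) (nat_lit 836) (nat_lit 0) (XT.lf (nat_lit 76) (nat_lit 406059006) (nat_lit 0) (nat_lit 7032638869) (nat_lit 988) (nat_lit 406059006) (nat_lit 446) (nat_lit 1) (nat_lit 445) (nat_lit 1) (nat_lit 458) (nat_lit 1) (nat_lit 315) (nat_lit 428) (nat_lit 397)) (XT.lf (nat_lit 912) (nat_lit 6823120) (nat_lit 0) (nat_lit 3884118059) (nat_lit 836) (nat_lit 3884118059) (nat_lit 446) (nat_lit 1) (nat_lit 434) (nat_lit 1) (nat_lit 445) (nat_lit 1) (nat_lit 316) (nat_lit 428) (nat_lit 396)))))) (XT.nd (nat_lit 468) (nat_lit 3116) (nat_lit 0) (XT.nd (nat_lit 234) (nat_lit 836) (nat_lit 0) (XT.nd (nat_lit 78) (nat_lit 836) (nat_lit 0) (XT.lf (nat_lit 988) (nat_lit 6928946025) (nat_lit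 0) (nat_lit 388788671) (nat_lit 912) (nat_lit 388788671) (nat_lit 434) (nat_lit 1) (nat_lit 421) (nat_lit 1) (nat_lit 433) (nat_lit 1) (nat_lit 317) (nat_lit 428) (nat_lit 395)) (XT.nd (nat_lit 78) (nat_lit 836) (nat_lit 0) (XT.lf (nat_lit 76) (nat_lit 3023466868) (nat_lit 0) (nat_lit 1591496988) (nat_lit 988) (nat_lit 3023466868) (nat_lit 422) (nat_lit 1) (nat_lit 421) (nat_lit 1) (nat_lit 434) (nat_lit 1) (nat_lit 318) (nat_lit 428) (nat_lit 394)) (XT.lf (nat_lit 912) (nat_lit 5171745430) (nat_lit 0) (nat_lit 1199861248) (nat_lit 836) (nat_lit 1199861248) (nat_lit 422) (nat_lit 1) (nat_lit 410) (nat_lit 1) (nat_lit 421) (nat_lit 1) (nat_lit 319) (nat_lit 428) (nat_lit 393)))) (XT.nd (nat_lit 78) (nat_lit 836) (nat_lit 0) (XT.lf (nat_lit 76) (nat_lit 2139733854) (nat_lit 0) (nat_lit 3225678850) (nat_lit 912) (nat_lit 2139733854) (nat_lit 411) (nat_lit 1) (nat_lit 410) (nat_lit 1) (nat_lit 422) (nat_lit 1) (nat_lit 320) (nat_lit 428)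 (nat_lit 392)) (XT.nd (nat_lit 78) (nat_lit 0) (nat_lit 0) (XT.lf (nat_lit 912) (nat_lit 3383464059) (nat_lit 0) (nat_lit 2028122720) (nat_lit 836) (nat_lit 2028122720) (nat_lit 411) (nat_lit 1) (nat_lit 399) (nat_lit 1) (nat_lit 410) (nat_lit 1) (nat_lit 321) (nat_lit 428) (nat_lit 391)) (XT.lf (nat_lit 76) (nat_lit 1241311030) (nat_lit 0) (nat_lit 4892494107) (nat_lit 912) (nat_lit 1241311030) (nat_lit 400) (nat_lit 1) (nat_lit 399) (nat_lit 1) (nat_lit 411) (nat_lit 1) (nat_lit 322) (nat_lit 428) (nat_lit 390))))) (XT.nd (nat_lit 234) (nat_lit 1520) (nat_lit 0) (XT.nd (nat_lit 78) (nat_lit 836) (nat_lit 0) (XT.lf (nat_lit 836) (nat_lit 1567256170) (nat_lit 0) (nat_lit 2871951037) (nat_lit 760) (nat_lit 2871951037) (nat_lit 400) (nat_lit 1) (nat_lit 389) (nat_lit 1) (nat_lit 399) (nat_lit 1) (nat_lit 323) (nat_lit 428) (nat_lit 389)) (XT.nd (nat_lit 78) (nat_lit 836) (nat_lit 0) (XT.lf (nat_lit 76) (nat_lit 329729725) (nat_lit 0) (nat_lit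 6588791434) (nat_lit 836) (nat_lit 329729725) (nat_lit 390) (nat_lit 1) (nat_lit 389) (nat_lit 1) (nat_lit 400) (nat_lit 1) (nat_lit 324) (nat_lit 428) (nat_lit 388)) (XT.lf (nat_lit 76) (nat_lit 3457699445) (nat_lit 0) (nat_lit 270292598) (nat_lit 836) (nat_lit 3457699445) (nat_lit 379) (nat_lit 1) (nat_lit 378) (nat_lit 1) (nat_lit 389) (nat_lit 1) (nat_lit 325) (nat_lit 428) (nat_lit 387)))) (XT.nd (nat_lit 78) (nat_lit 760) (nat_lit 0) (XT.lf (nat_lit 836) (nat_lit 5944851302) (nat_lit 0) (nat_lit 589652055) (nat_lit 760) (nat_lit 589652055) (nat_lit 379) (nat_lit 1) (nat_lit 368) (nat_lit 1) (nat_lit 378) (nat_lit 1) (nat_lit 326) (nat_lit 428) (nat_lit 386)) (XT.nd (nat_lit 78) (nat_lit 760) (nat_lit 0) (XT.lf (nat_lit 76) (nat_lit 2476982090) (nat_lit 0) (nat_lit 2109089784) (nat_lit 836) (nat_lit 2476982090) (nat_lit 369) (nat_lit 1) (nat_lit 368) (nat_lit 1) (nat_lit 379) (nat_lit 1) (nat_lit 327) (nat_lit 428) (nat_lit 385))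 (XT.lf (nat_lit 836) (nat_lit 3968630629) (nat_lit 0) (nat_lit 1517123943) (nat_lit 760) (nat_lit 1517123943) (nat_lit 369) (nat_lit 1) (nat_lit 358) (nat_lit 1) (nat_lit 368) (nat_lit 1) (nat_lit 328) (nat_lit 428) (nat_lit 384))))))) (XT.nd (nat_lit 936) (nat_lit 4028) (nat_lit 0) (XT.nd (nat_lit 468) (nat_lit 2584) (nat_lit 0) (XT.nd (nat_lit 234) (nat_lit 1444) (nat_lit 0) (XT.nd (nat_lit 78) (nat_lit 684) (nat_lit 0) (XT.lf (nat_lit 76) (nat_lit 1488167510) (nat_lit 0) (nat_lit 3967032617) (nat_lit 836) (nat_lit 1488167510) (nat_lit 359) (nat_lit 1) (nat_lit 358) (nat_lit 1) (nat_lit 369) (nat_lit 1) (nat_lit 329) (nat_lit 428) (nat_lit 383)) (XT.nd (nat_lit 78) (nat_lit 0) (nat_lit 0) (XT.lf (nat_lit 760) (nat_lit 1977397289) (nat_lit 0) (nat_lit 2453557303) (nat_lit 684) (nat_lit 2453557303) (nat_lit 359) (nat_lit 1) (nat_lit 349) (nat_lit 1) (nat_lit 358) (nat_lit 1) (nat_lit 330) (nat_lit 428) (nat_lit 382)) (XT.lf (nat_lit 76)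 (nat_lit 492475613) (nat_lit 0) (nat_lit 5841602190) (nat_lit 760) (nat_lit 492475613) (nat_lit 350) (nat_lit 1) (nat_lit 349) (nat_lit 1) (nat_lit 359) (nat_lit 1) (nat_lit 331) (nat_lit 428) (nat_lit 381)))) (XT.nd (nat_lit 78) (nat_lit 684) (nat_lit 0) (XT.lf (nat_lit 76) (nat_lit 3371427397) (nat_lit 0) (nat_lit 26119586) (nat_lit 760) (nat_lit 3371427397) (nat_lit 340) (nat_lit 1) (nat_lit 339) (nat_lit 1) (nat_lit 349) (nat_lit 1) (nat_lit 332) (nat_lit 428) (nat_lit 380)) (XT.nd (nat_lit 78) (nat_lit 0) (nat_lit 0) (XT.lf (nat_lit 760) (nat_lit 5701088284) (nat_lit 0) (nat_lit 505590534) (nat_lit 684) (nat_lit 505590534) (nat_lit 340) (nat_lit 1) (nat_lit 330) (nat_lit 1) (nat_lit 339) (nat_lit 1) (nat_lit 333) (nat_lit 428) (nat_lit 379)) (XT.lf (nat_lit 76) (nat_lit 2320996508) (nat_lit 0) (nat_lit 2013942865) (nat_lit 760) (nat_lit 2320996508) (nat_lit 331) (nat_lit 1) (nat_lit 330) (nat_lit 1) (nat_lit 340) (nat_lit 1) (nat_lit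 334) (nat_lit 428) (nat_lit 378))))) (XT.nd (nat_lit 234) (nat_lit 1292) (nat_lit 0) (XT.nd (nat_lit 78) (nat_lit 608) (nat_lit 0) (XT.lf (nat_lit 760) (nat_lit 3590414700) (nat_lit 0) (nat_lit 1505016246) (nat_lit 684) (nat_lit 1505016246) (nat_lit 331) (nat_lit 1) (nat_lit 321) (nat_lit 1) (nat_lit 330) (nat_lit 1) (nat_lit 335) (nat_lit 428) (nat_lit 377)) (XT.nd (nat_lit 78) (nat_lit 608) (nat_lit 0) (XT.lf (nat_lit 76) (nat_lit 1267838992) (nat_lit 0) (nat_lit 4009902306) (nat_lit 760) (nat_lit 1267838992) (nat_lit 322) (nat_lit 1) (nat_lit 321) (nat_lit 1) (nat_lit 331) (nat_lit 1) (nat_lit 336) (nat_lit 428) (nat_lit 376)) (XT.lf (nat_lit 684) (nat_lit 1475241445) (nat_lit 0) (nat_lit 2508015246) (nat_lit 608) (nat_lit 2508015246) (nat_lit 322) (nat_lit 1) (nat_lit 313) (nat_lit 1) (nat_lit 321) (nat_lit 1) (nat_lit 337) (nat_lit 428) (nat_lit 375)))) (XT.nd (nat_lit 78) (nat_lit 1292) (nat_lit 0) (XT.lf (nat_lit 76) (nat_lit 212913984)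 (nat_lit 0) (nat_lit 6012008920) (nat_lit 684) (nat_lit 212913984) (nat_lit 314) (nat_lit 1) (nat_lit 313) (nat_lit 1) (nat_lit 322) (nat_lit 1) (nat_lit 338) (nat_lit 428) (nat_lit 374)) (XT.nd (nat_lit 78) (nat_lit 608) (nat_lit 0) (XT.lf (nat_lit 76) (nat_lit 2875228224) (nat_lit 0) (nat_lit 634134154) (nat_lit 684) (nat_lit 2875228224) (nat_lit 305) (nat_lit 1) (nat_lit 304) (nat_lit 1) (nat_lit 313) (nat_lit 1) (nat_lit 339) (nat_lit 428) (nat_lit 373)) (XT.lf (nat_lit 684) (nat_lit 4657541503) (nat_lit 0) (nat_lit 837328135) (nat_lit 608) (nat_lit 837328135) (nat_lit 305) (nat_lit 1) (nat_lit 296) (nat_lit 1) (nat_lit 304) (nat_lit 1) (nat_lit 340) (nat_lit 428) (nat_lit 372)))))) (XT.nd (nat_lit 468) (nat_lit 2204) (nat_lit 0) (XT.nd (nat_lit 234) (nat_lit 1216) (nat_lit 0) (XT.nd (nat_lit 78) (nat_lit 608) (nat_lit 0) (XT.lf (nat_lit 76) (nat_lit 1777605809) (nat_lit 0) (nat_lit 2725015842) (nat_lit 684) (nat_lit 1777605809) (nat_lit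 297) (nat_lit 1) (nat_lit 296) (nat_lit 1) (nat_lit 305) (nat_lit 1) (nat_lit 341) (nat_lit 428) (nat_lit 371)) (XT.nd (nat_lit 78) (nat_lit 0) (nat_lit 0) (XT.lf (nat_lit 684) (nat_lit 2456568308) (nat_lit 0) (nat_lit 1886178169) (nat_lit 608) (nat_lit 1886178169) (nat_lit 297) (nat_lit 1) (nat_lit 288) (nat_lit 1) (nat_lit 296) (nat_lit 1) (nat_lit 342) (nat_lit 428) (nat_lit 370)) (XT.lf (nat_lit 76) (nat_lit 681599179) (nat_lit 0) (nat_lit 4815110418) (nat_lit 684) (nat_lit 681599179) (nat_lit 289) (nat_lit 1) (nat_lit 288) (nat_lit 1) (nat_lit 297) (nat_lit 1) (nat_lit 343) (nat_lit 428) (nat_lit 369)))) (XT.nd (nat_lit 78) (nat_lit 684) (nat_lit 0) (XT.lf (nat_lit 608) (nat_lit 259588679) (nat_lit 0) (nat_lit 2934237776) (nat_lit 532) (nat_lit 2934237776) (nat_lit 289) (nat_lit 1) (nat_lit 281) (nat_lit 1) (nat_lit 288) (nat_lit 1) (nat_lit 344) (nat_lit 428) (nat_lit 368)) (XT.nd (nat_lit 78) (nat_lit 0) (nat_lit 0) (XT.lf (nat_lit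 684) (nat_lit 5259877412) (nat_lit 0) (nat_lit 409339505) (nat_lit 608) (nat_lit 409339505) (nat_lit 281) (nat_lit 1) (nat_lit 272) (nat_lit 1) (nat_lit 280) (nat_lit 1) (nat_lit 345) (nat_lit 428) (nat_lit 367)) (XT.lf (nat_lit 76) (nat_lit 2061343141) (nat_lit 0) (nat_lit 1906617012) (nat_lit 684) (nat_lit 2061343141) (nat_lit 273) (nat_lit 1) (nat_lit 272) (nat_lit 1) (nat_lit 281) (nat_lit 1) (nat_lit 346) (nat_lit 428) (nat_lit 366))))) (XT.nd (nat_lit 234) (nat_lit 1140) (nat_lit 0) (XT.nd (nat_lit 78) (nat_lit 532) (nat_lit 0) (XT.lf (nat_lit 608) (nat_lit 2995249484) (nat_lit 0) (nat_lit 1492760239) (nat_lit 532) (nat_lit 1492760239) (nat_lit 273) (nat_lit 1) (nat_lit 265) (nat_lit 1) (nat_lit 272) (nat_lit 1) (nat_lit 347) (nat_lit 428) (nat_lit 365)) (XT.nd (nat_lit 78) (nat_lit 532) (nat_lit 0) (XT.lf (nat_lit 76) (nat_lit 935041600) (nat_lit 0) (nat_lit 4062716121) (nat_lit 608) (nat_lit 935041600) (nat_lit 266) (nat_lit 1)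 (nat_lit 265) (nat_lit 1) (nat_lit 273) (nat_lit 1) (nat_lit 348) (nat_lit 428) (nat_lit 364)) (XT.lf (nat_lit 608) (nat_lit 740250606) (nat_lit 0) (nat_lit 2572497295) (nat_lit 532) (nat_lit 2572497295) (nat_lit 266) (nat_lit 1) (nat_lit 258) (nat_lit 1) (nat_lit 265) (nat_lit 1) (nat_lit 349) (nat_lit 428) (nat_lit 363)))) (XT.nd (nat_lit 78) (nat_lit 532) (nat_lit 0) (XT.lf (nat_lit 608) (nat_lit 5468549173) (nat_lit 0) (nat_lit 184940593) (nat_lit 532) (nat_lit 184940593) (nat_lit 258) (nat_lit 1) (nat_lit 250) (nat_lit 1) (nat_lit 257) (nat_lit 1) (nat_lit 350) (nat_lit 428) (nat_lit 362)) (XT.nd (nat_lit 78) (nat_lit 532) (nat_lit 0) (XT.lf (nat_lit 76) (nat_lit 2153748066) (nat_lit 0) (nat_lit 1484232980) (nat_lit 608) (nat_lit 2153748066) (nat_lit 251) (nat_lit 1) (nat_lit 250) (nat_lit 1) (nat_lit 258) (nat_lit 1) (nat_lit 351) (nat_lit 428) (nat_lit 361)) (XT.lf (nat_lit 608) (nat_lit 3159444145) (nat_lit 0) (nat_lit 1293153982)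 (nat_lit 532) (nat_lit 1293153982) (nat_lit 251) (nat_lit 1) (nat_lit 243) (nat_lit 1) (nat_lit 250) (nat_lit 1) (nat_lit 352) (nat_lit 428) (nat_lit 360))))))))
noncomputable def ec109 : XT := (XT.nd (nat_lit 1872) (nat_lit 5092) (nat_lit 0) (XT.nd (nat_lit 936) (nat_lit 2888) (nat_lit 0) (XT.nd (nat_lit 468) (nat_lit 1824) (nat_lit 0) (XT.nd (nat_lit 234) (nat_lit 456) (nat_lit 0) (XT.nd (nat_lit 78) (nat_lit 1064) (nat_lit 0) (XT.lf (nat_lit 76) (nat_lit 1006489755) (nat_lit 0) (nat_lit 3687286843) (nat_lit 608) (nat_lit 1006489755) (nat_lit 244) (nat_lit 1) (nat_lit 243) (nat_lit 1) (nat_lit 251) (nat_lit 1) (nat_lit 353) (nat_lit 428) (nat_lit 359)) (XT.nd (nat_lit 78) (nat_lit 608) (nat_lit 0) (XT.lf (nat_lit 532) (nat_lit 864736110) (nat_lit 0) (nat_lit 2395230355) (nat_lit 456) (nat_lit 2395230355) (nat_lit 244) (nat_lit 1) (nat_lit 237) (nat_lit 1) (nat_lit 243) (nat_lit 1) (nat_lit 354) (nat_lit 428) (nat_lit 358)) (XT.lf (nat_lit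 608) (nat_lit 5345864502) (nat_lit 0) (nat_lit 132482355) (nat_lit 532) (nat_lit 132482355) (nat_lit 237) (nat_lit 1) (nat_lit 229) (nat_lit 1) (nat_lit 236) (nat_lit 1) (nat_lit 355) (nat_lit 428) (nat_lit 357)))) (XT.nd (nat_lit 78) (nat_lit 456) (nat_lit 0) (XT.lf (nat_lit 76) (nat_lit 2085211327) (nat_lit 0) (nat_lit 1396104639) (nat_lit 608) (nat_lit 2085211327) (nat_lit 230) (nat_lit 1) (nat_lit 229) (nat_lit 1) (nat_lit 237) (nat_lit 1) (nat_lit 356) (nat_lit 428) (nat_lit 356)) (XT.nd (nat_lit 78) (nat_lit 0) (nat_lit 0) (XT.lf (nat_lit 532) (nat_lit 3008843785) (nat_lit 0) (nat_lit 1257035078) (nat_lit 456) (nat_lit 1257035078) (nat_lit 230) (nat_lit 1) (nat_lit 223) (nat_lit 1) (nat_lit 229) (nat_lit 1) (nat_lit 357) (nat_lit 428) (nat_lit 355)) (XT.lf (nat_lit 76) (nat_lit 925057427) (nat_lit 0) (nat_lit 3629650191) (nat_lit 532) (nat_lit 925057427) (nat_lit 224) (nat_lit 1) (nat_lit 223) (nat_lit 1) (nat_lit 230) (nat_lit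 1) (nat_lit 358) (nat_lit 428) (nat_lit 354))))) (XT.nd (nat_lit 234) (nat_lit 836) (nat_lit 0) (XT.nd (nat_lit 78) (nat_lit 532) (nat_lit 0) (XT.lf (nat_lit 532) (nat_lit 690226823) (nat_lit 0) (nat_lit 2373383582) (nat_lit 456) (nat_lit 2373383582) (nat_lit 224) (nat_lit 1) (nat_lit 217) (nat_lit 1) (nat_lit 223) (nat_lit 1) (nat_lit 359) (nat_lit 428) (nat_lit 353)) (XT.nd (nat_lit 78) (nat_lit 0) (nat_lit 0) (XT.lf (nat_lit 532) (nat_lit 4946335280) (nat_lit 0) (nat_lit 224259510) (nat_lit 456) (nat_lit 224259510) (nat_lit 217) (nat_lit 1) (nat_lit 210) (nat_lit 1) (nat_lit 216) (nat_lit 1) (nat_lit 360) (nat_lit 428) (nat_lit 352)) (XT.lf (nat_lit 76) (nat_lit 1882317129) (nat_lit 0) (nat_lit 1588176453) (nat_lit 532) (nat_lit 1882317129) (nat_lit 211) (nat_lit 1) (nat_lit 210) (nat_lit 1) (nat_lit 217) (nat_lit 1) (nat_lit 361) (nat_lit 428) (nat_lit 351)))) (XT.nd (nat_lit 78) (nat_lit 380) (nat_lit 0) (XT.lf (nat_lit 532) (nat_lit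 2595655316) (nat_lit 0) (nat_lit 1357865659) (nat_lit 456) (nat_lit 1357865659) (nat_lit 211) (nat_lit 1) (nat_lit 204) (nat_lit 1) (nat_lit 210) (nat_lit 1) (nat_lit 362) (nat_lit 428) (nat_lit 350)) (XT.nd (nat_lit 78) (nat_lit 380) (nat_lit 0) (XT.lf (nat_lit 76) (nat_lit 716203879) (nat_lit 0) (nat_lit 3838029981) (nat_lit 532) (nat_lit 716203879) (nat_lit 205) (nat_lit 1) (nat_lit 204) (nat_lit 1) (nat_lit 211) (nat_lit 1) (nat_lit 363) (nat_lit 428) (nat_lit 349)) (XT.lf (nat_lit 456) (nat_lit 266718781) (nat_lit 0) (nat_lit 2481538941) (nat_lit 380) (nat_lit 2481538941) (nat_lit 205) (nat_lit 1) (nat_lit 199) (nat_lit 1) (nat_lit 204) (nat_lit 1) (nat_lit 364) (nat_lit 428) (nat_lit 348)))))) (XT.nd (nat_lit 468) (nat_lit 1140) (nat_lit 0) (XT.nd (nat_lit 234) (nat_lit 836) (nat_lit 0) (XT.nd (nat_lit 78) (nat_lit 380) (nat_lit 0) (XT.lf (nat_lit 532) (nat_lit 4317584706) (nat_lit 0) (nat_lit 436052187) (nat_lit 456) (nat_lit 436052187)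 (nat_lit 199) (nat_lit 1) (nat_lit 192) (nat_lit 1) (nat_lit 198) (nat_lit 1) (nat_lit 365) (nat_lit 428) (nat_lit 347)) (XT.nd (nat_lit 78) (nat_lit 380) (nat_lit 0) (XT.lf (nat_lit 76) (nat_lit 1568286249) (nat_lit 0) (nat_lit 2013200813) (nat_lit 532) (nat_lit 1568286249) (nat_lit 193) (nat_lit 1) (nat_lit 192) (nat_lit 1) (nat_lit 199) (nat_lit 1) (nat_lit 366) (nat_lit 428) (nat_lit 346)) (XT.lf (nat_lit 456) (nat_lit 1965472653) (nat_lit 0) (nat_lit 1572453926) (nat_lit 380) (nat_lit 1572453926) (nat_lit 193) (nat_lit 1) (nat_lit 187) (nat_lit 1) (nat_lit 192) (nat_lit 1) (nat_lit 367) (nat_lit 428) (nat_lit 345)))) (XT.nd (nat_lit 78) (nat_lit 836) (nat_lit 0) (XT.lf (nat_lit 76) (nat_lit 402159587) (nat_lit 0) (nat_lit 4267185710) (nat_lit 456) (nat_lit 402159587) (nat_lit 188) (nat_lit 1) (nat_lit 187) (nat_lit 1) (nat_lit 193) (nat_lit 1) (nat_lit 368) (nat_lit 428) (nat_lit 344)) (XT.nd (nat_lit 78) (nat_lit 380) (nat_lit 0)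 (XT.lf (nat_lit 76) (nat_lit 2337701697) (nat_lit 0) (nat_lit 357390646) (nat_lit 456) (nat_lit 2337701697) (nat_lit 182) (nat_lit 1) (nat_lit 181) (nat_lit 1) (nat_lit 187) (nat_lit 1) (nat_lit 369) (nat_lit 428) (nat_lit 343)) (XT.lf (nat_lit 456) (nat_lit 3501151477) (nat_lit 0) (nat_lit 746719588) (nat_lit 380) (nat_lit 746719588) (nat_lit 182) (nat_lit 1) (nat_lit 176) (nat_lit 1) (nat_lit 181) (nat_lit 1) (nat_lit 370) (nat_lit 428) (nat_lit 342))))) (XT.nd (nat_lit 234) (nat_lit 760) (nat_lit 0) (XT.nd (nat_lit 78) (nat_lit 380) (nat_lit 0) (XT.lf (nat_lit 76) (nat_lit 1163368836) (nat_lit 0) (nat_lit 2629944045) (nat_lit 456) (nat_lit 1163368836) (nat_lit 177) (nat_lit 1) (nat_lit 176) (nat_lit 1) (nat_lit 182) (nat_lit 1) (nat_lit 371) (nat_lit 428) (nat_lit 341)) (XT.nd (nat_lit 78) (nat_lit 0) (nat_lit 0) (XT.lf (nat_lit 456) (nat_lit 1158049326) (nat_lit 0) (nat_lit 1880563753) (nat_lit 380) (nat_lit 1880563753) (nat_lit 177)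 (nat_lit 1) (nat_lit 171) (nat_lit 1) (nat_lit 176) (nat_lit 1) (nat_lit 372) (nat_lit 428) (nat_lit 340)) (XT.lf (nat_lit 76) (nat_lit 2303618) (nat_lit 0) (nat_lit 4877649724) (nat_lit 456) (nat_lit 2303618) (nat_lit 172) (nat_lit 1) (nat_lit 171) (nat_lit 1) (nat_lit 177) (nat_lit 1) (nat_lit 373) (nat_lit 428) (nat_lit 339)))) (XT.nd (nat_lit 78) (nat_lit 380) (nat_lit 0) (XT.lf (nat_lit 76) (nat_lit 1851082332) (nat_lit 0) (nat_lit 1143116721) (nat_lit 380) (nat_lit 1851082332) (nat_lit 167) (nat_lit 1) (nat_lit 166) (nat_lit 1) (nat_lit 171) (nat_lit 1) (nat_lit 374) (nat_lit 428) (nat_lit 338)) (XT.nd (nat_lit 78) (nat_lit 0) (nat_lit 0) (XT.lf (nat_lit 456) (nat_lit 2533202569) (nat_lit 0) (nat_lit 1137839808) (nat_lit 380) (nat_lit 1137839808) (nat_lit 167) (nat_lit 1) (nat_lit 161) (nat_lit 1) (nat_lit 166) (nat_lit 1) (nat_lit 375) (nat_lit 428) (nat_lit 337)) (XT.lf (nat_lit 76) (nat_lit 685192561) (nat_lit 0) (nat_lit 3402482627)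 (nat_lit 456) (nat_lit 685192561) (nat_lit 162) (nat_lit 1) (nat_lit 161) (nat_lit 1) (nat_lit 167) (nat_lit 1) (nat_lit 376) (nat_lit 428) (nat_lit 336))))))) (XT.nd (nat_lit 936) (nat_lit 2356) (nat_lit 0) (XT.nd (nat_lit 468) (nat_lit 1292) (nat_lit 0) (XT.nd (nat_lit 234) (nat_lit 684) (nat_lit 0) (XT.nd (nat_lit 78) (nat_lit 456) (nat_lit 0) (XT.lf (nat_lit 380) (nat_lit 207983264) (nat_lit 0) (nat_lit 2264568649) (nat_lit 304) (nat_lit 2264568649) (nat_lit 162) (nat_lit 1) (nat_lit 157) (nat_lit 1) (nat_lit 161) (nat_lit 1) (nat_lit 377) (nat_lit 428) (nat_lit 335)) (XT.nd (nat_lit 78) (nat_lit 0) (nat_lit 0) (XT.lf (nat_lit 456) (nat_lit 3774938583) (nat_lit 0) (nat_lit 463432795) (nat_lit 380) (nat_lit 463432795) (nat_lit 157) (nat_lit 1) (nat_lit 151) (nat_lit 1) (nat_lit 156) (nat_lit 1) (nat_lit 378) (nat_lit 428) (nat_lit 334)) (XT.lf (nat_lit 76) (nat_lit 1302682968) (nat_lit 0) (nat_lit 2061297660) (nat_lit 456) (nat_lit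 1302682968) (nat_lit 152) (nat_lit 1) (nat_lit 151) (nat_lit 1) (nat_lit 157) (nat_lit 1) (nat_lit 379) (nat_lit 428) (nat_lit 333)))) (XT.nd (nat_lit 78) (nat_lit 380) (nat_lit 0) (XT.lf (nat_lit 380) (nat_lit 1445164919) (nat_lit 0) (nat_lit 1593390613) (nat_lit 304) (nat_lit 1593390613) (nat_lit 152) (nat_lit 1) (nat_lit 147) (nat_lit 1) (nat_lit 151) (nat_lit 1) (nat_lit 380) (nat_lit 428) (nat_lit 332)) (XT.nd (nat_lit 78) (nat_lit 380) (nat_lit 0) (XT.lf (nat_lit 76) (nat_lit 149071156) (nat_lit 0) (nat_lit 4299579457) (nat_lit 380) (nat_lit 149071156) (nat_lit 148) (nat_lit 1) (nat_lit 147) (nat_lit 1) (nat_lit 152) (nat_lit 1) (nat_lit 381) (nat_lit 428) (nat_lit 331)) (XT.lf (nat_lit 76) (nat_lit 1860017853) (nat_lit 0) (nat_lit 843467128) (nat_lit 380) (nat_lit 1860017853) (nat_lit 143) (nat_lit 1) (nat_lit 142) (nat_lit 1) (nat_lit 147) (nat_lit 1) (nat_lit 382) (nat_lit 428) (nat_lit 330))))) (XT.nd (nat_lit 234) (nat_lit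 684) (nat_lit 0) (XT.nd (nat_lit 78) (nat_lit 304) (nat_lit 0) (XT.lf (nat_lit 380) (nat_lit 2563560502) (nat_lit 0) (nat_lit 983104693) (nat_lit 304) (nat_lit 983104693) (nat_lit 143) (nat_lit 1) (nat_lit 138) (nat_lit 1) (nat_lit 142) (nat_lit 1) (nat_lit 383) (nat_lit 428) (nat_lit 329)) (XT.nd (nat_lit 78) (nat_lit 304) (nat_lit 0) (XT.lf (nat_lit 76) (nat_lit 706392029) (nat_lit 0) (nat_lit 3083581426) (nat_lit 380) (nat_lit 706392029) (nat_lit 139) (nat_lit 1) (nat_lit 138) (nat_lit 1) (nat_lit 143) (nat_lit 1) (nat_lit 384) (nat_lit 428) (nat_lit 328)) (XT.lf (nat_lit 380) (nat_lit 264285140) (nat_lit 0) (nat_lit 2099466575) (nat_lit 304) (nat_lit 2099466575) (nat_lit 139) (nat_lit 1) (nat_lit 134) (nat_lit 1) (nat_lit 138) (nat_lit 1) (nat_lit 385) (nat_lit 428) (nat_lit 327)))) (XT.nd (nat_lit 78) (nat_lit 304) (nat_lit 0) (XT.lf (nat_lit 380) (nat_lit 3572697861) (nat_lit 0) (nat_lit 428881934) (nat_lit 304) (nat_lit 428881934)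 (nat_lit 134) (nat_lit 1) (nat_lit 129) (nat_lit 1) (nat_lit 133) (nat_lit 1) (nat_lit 386) (nat_lit 428) (nat_lit 326)) (XT.nd (nat_lit 78) (nat_lit 304) (nat_lit 0) (XT.lf (nat_lit 76) (nat_lit 1210119912) (nat_lit 0) (nat_lit 1977610057) (nat_lit 380) (nat_lit 1210119912) (nat_lit 130) (nat_lit 1) (nat_lit 129) (nat_lit 1) (nat_lit 134) (nat_lit 1) (nat_lit 387) (nat_lit 428) (nat_lit 325)) (XT.lf (nat_lit 380) (nat_lit 1277368411) (nat_lit 0) (nat_lit 1544126980) (nat_lit 304) (nat_lit 1544126980) (nat_lit 130) (nat_lit 1) (nat_lit 125) (nat_lit 1) (nat_lit 129) (nat_lit 1) (nat_lit 388) (nat_lit 428) (nat_lit 324)))))) (XT.nd (nat_lit 468) (nat_lit 1140) (nat_lit 0) (XT.nd (nat_lit 234) (nat_lit 608) (nat_lit 0) (XT.nd (nat_lit 78) (nat_lit 608) (nat_lit 0) (XT.lf (nat_lit 76) (nat_lit 74223424) (nat_lit 0) (nat_lit 4185414056) (nat_lit 380) (nat_lit 74223424) (nat_lit 126) (nat_lit 1) (nat_lit 125) (nat_lit 1) (nat_lit 130) (nat_lit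 1) (nat_lit 389) (nat_lit 428) (nat_lit 323)) (XT.nd (nat_lit 78) (nat_lit 304) (nat_lit 0) (XT.lf (nat_lit 76) (nat_lit 1664554791) (nat_lit 0) (nat_lit 972944693) (nat_lit 304) (nat_lit 1664554791) (nat_lit 122) (nat_lit 1) (nat_lit 121) (nat_lit 1) (nat_lit 125) (nat_lit 1) (nat_lit 390) (nat_lit 428) (nat_lit 322)) (XT.lf (nat_lit 380) (nat_lit 2193041742) (nat_lit 0) (nat_lit 1038833067) (nat_lit 304) (nat_lit 1038833067) (nat_lit 122) (nat_lit 1) (nat_lit 117) (nat_lit 1) (nat_lit 121) (nat_lit 1) (nat_lit 391) (nat_lit 428) (nat_lit 321)))) (XT.nd (nat_lit 78) (nat_lit 608) (nat_lit 0) (XT.lf (nat_lit 76) (nat_lit 532363142) (nat_lit 0) (nat_lit 3174965053) (nat_lit 380) (nat_lit 532363142) (nat_lit 118) (nat_lit 1) (nat_lit 117) (nat_lit 1) (nat_lit 122) (nat_lit 1) (nat_lit 392) (nat_lit 428) (nat_lit 320)) (XT.nd (nat_lit 78) (nat_lit 304) (nat_lit 0) (XT.lf (nat_lit 76) (nat_lit 2073664905) (nat_lit 0) (nat_lit 61535492) (nat_lit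 304) (nat_lit 2073664905) (nat_lit 114) (nat_lit 1) (nat_lit 113) (nat_lit 1) (nat_lit 117) (nat_lit 1) (nat_lit 393) (nat_lit 428) (nat_lit 319)) (XT.lf (nat_lit 380) (nat_lit 3019120580) (nat_lit 0) (nat_lit 579621588) (nat_lit 304) (nat_lit 579621588) (nat_lit 114) (nat_lit 1) (nat_lit 109) (nat_lit 1) (nat_lit 113) (nat_lit 1) (nat_lit 394) (nat_lit 428) (nat_lit 318))))) (XT.nd (nat_lit 234) (nat_lit 532) (nat_lit 0) (XT.nd (nat_lit 78) (nat_lit 608) (nat_lit 0) (XT.lf (nat_lit 76) (nat_lit 946519461) (nat_lit 0) (nat_lit 2255029316) (nat_lit 380) (nat_lit 946519461) (nat_lit 110) (nat_lit 1) (nat_lit 109) (nat_lit 1) (nat_lit 114) (nat_lit 1) (nat_lit 395) (nat_lit 428) (nat_lit 317)) (XT.nd (nat_lit 78) (nat_lit 380) (nat_lit 0) (XT.lf (nat_lit 304) (nat_lit 774201580) (nat_lit 0) (nat_lit 1671937137) (nat_lit 228) (nat_lit 1671937137) (nat_lit 110) (nat_lit 1) (nat_lit 106) (nat_lit 1) (nat_lit 109) (nat_lit 1) (nat_lit 396) (nat_lit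 428) (nat_lit 316)) (XT.lf (nat_lit 380) (nat_lit 3762817402) (nat_lit 0) (nat_lit 162834097) (nat_lit 304) (nat_lit 162834097) (nat_lit 106) (nat_lit 1) (nat_lit 101) (nat_lit 1) (nat_lit 105) (nat_lit 1) (nat_lit 397) (nat_lit 428) (nat_lit 315)))) (XT.nd (nat_lit 156) (nat_lit 304) (nat_lit 0) (XT.nd (nat_lit 78) (nat_lit 228) (nat_lit 0) (XT.lf (nat_lit 76) (nat_lit 1320220231) (nat_lit 0) (nat_lit 1418447905) (nat_lit 380) (nat_lit 1320220231) (nat_lit 102) (nat_lit 1) (nat_lit 101) (nat_lit 1) (nat_lit 106) (nat_lit 1) (nat_lit 398) (nat_lit 428) (nat_lit 314)) (XT.lf (nat_lit 304) (nat_lit 1530739020) (nat_lit 0) (nat_lit 1249474738) (nat_lit 228) (nat_lit 1249474738) (nat_lit 102) (nat_lit 1) (nat_lit 98) (nat_lit 1) (nat_lit 101) (nat_lit 1) (nat_lit 399) (nat_lit 428) (nat_lit 313))) (XT.nd (nat_lit 78) (nat_lit 304) (nat_lit 0) (XT.lf (nat_lit 76) (nat_lit 216329542) (nat_lit 0) (nat_lit 3568203316) (nat_lit 304) (nat_lit 216329542)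 (nat_lit 99) (nat_lit 1) (nat_lit 98) (nat_lit 1) (nat_lit 102) (nat_lit 1) (nat_lit 400) (nat_lit 428) (nat_lit 312)) (XT.lf (nat_lit 76) (nat_lit 1656721144) (nat_lit 0) (nat_lit 658612281) (nat_lit 304) (nat_lit 1656721144) (nat_lit 95) (nat_lit 1) (nat_lit 94) (nat_lit 1) (nat_lit 98) (nat_lit 1) (nat_lit 401) (nat_lit 428) (nat_lit 311))))))))
noncomputable def ec110 : XT := (XT.nd (nat_lit 53430) (nat_lit 0) (nat_lit 12616) (XT.nd (nat_lit 52494) (nat_lit 0) (nat_lit 21584) (XT.nd (nat_lit 52026) (nat_lit 0) (nat_lit 27436) (XT.nd (nat_lit 234) (nat_lit 304) (nat_lit 0) (XT.nd (nat_lit 78) (nat_lit 228) (nat_lit 0) (XT.lf (nat_lit 304) (nat_lit 2213672548) (nat_lit 0) (nat_lit 864971778) (nat_lit 228) (nat_lit 864971778) (nat_lit 95) (nat_lit 1) (nat_lit 91) (nat_lit 1) (nat_lit 94) (nat_lit 1) (nat_lit 402) (nat_lit 428) (nat_lit 310)) (XT.nd (nat_lit 78) (nat_lit 228) (nat_lit 0) (XT.lf (nat_lit 76) (nat_lit 560403419) (nat_lit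 0) (nat_lit 2794640968) (nat_lit 304) (nat_lit 560403419) (nat_lit 92) (nat_lit 1) (nat_lit 91) (nat_lit 1) (nat_lit 95) (nat_lit 1) (nat_lit 403) (nat_lit 428) (nat_lit 309)) (XT.lf (nat_lit 304) (nat_lit 30984071) (nat_lit 0) (nat_lit 1928243625) (nat_lit 228) (nat_lit 1928243625) (nat_lit 92) (nat_lit 1) (nat_lit 88) (nat_lit 1) (nat_lit 91) (nat_lit 1) (nat_lit 404) (nat_lit 428) (nat_lit 308)))) (XT.nd (nat_lit 78) (nat_lit 0) (nat_lit 0) (XT.lf (nat_lit 304) (nat_lit 2828920970) (nat_lit 0) (nat_lit 515424002) (nat_lit 228) (nat_lit 515424002) (nat_lit 88) (nat_lit 1) (nat_lit 84) (nat_lit 1) (nat_lit 87) (nat_lit 1) (nat_lit 405) (nat_lit 428) (nat_lit 307)) (XT.nd (nat_lit 51636) (nat_lit 0) (nat_lit 30400) (XT.lf (nat_lit 76) (nat_lit 871204920) (nat_lit 0) (nat_lit 2089828683) (nat_lit 304) (nat_lit 871204920) (nat_lit 85) (nat_lit 1) (nat_lit 84) (nat_lit 1) (nat_lit 88) (nat_lit 1) (nat_lit 406) (nat_lit 428) (nat_lit 306))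 (XT.lf (nat_lit 76) (nat_lit 2718950802) (nat_lit 0) (nat_lit 3007927142) (nat_lit 1900) (nat_lit 2718950802) (nat_lit 485) (nat_lit 1) (nat_lit 484) (nat_lit 1) (nat_lit 509) (nat_lit 1) (nat_lit 307) (nat_lit 429) (nat_lit 404))))) (XT.nd (nat_lit 234) (nat_lit 912) (nat_lit 0) (XT.nd (nat_lit 78) (nat_lit 912) (nat_lit 0) (XT.lf (nat_lit 1216) (nat_lit 4702554348) (nat_lit 0) (nat_lit 1833466499) (nat_lit 1140) (nat_lit 1833466499) (nat_lit 485) (nat_lit 1) (nat_lit 469) (nat_lit 1) (nat_lit 484) (nat_lit 1) (nat_lit 308) (nat_lit 429) (nat_lit 403)) (XT.nd (nat_lit 78) (nat_lit 912) (nat_lit 0) (XT.lf (nat_lit 76) (nat_lit 1975241460) (nat_lit 0) (nat_lit 4343549273) (nat_lit 1216) (nat_lit 1975241460) (nat_lit 470) (nat_lit 1) (nat_lit 469) (nat_lit 1) (nat_lit 485) (nat_lit 1) (nat_lit 309) (nat_lit 429) (nat_lit 402)) (XT.lf (nat_lit 988) (nat_lit 3184582009) (nat_lit 0) (nat_lit 2517457115) (nat_lit 912) (nat_lit 2517457115) (nat_lit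 470) (nat_lit 1) (nat_lit 457) (nat_lit 1) (nat_lit 469) (nat_lit 1) (nat_lit 310) (nat_lit 429) (nat_lit 401)))) (XT.nd (nat_lit 78) (nat_lit 912) (nat_lit 0) (XT.lf (nat_lit 76) (nat_lit 1206304407) (nat_lit 0) (nat_lit 5733399432) (nat_lit 988) (nat_lit 1206304407) (nat_lit 458) (nat_lit 1) (nat_lit 457) (nat_lit 1) (nat_lit 470) (nat_lit 1) (nat_lit 311) (nat_lit 429) (nat_lit 400)) (XT.nd (nat_lit 78) (nat_lit 0) (nat_lit 0) (XT.lf (nat_lit 988) (nat_lit 1618052618) (nat_lit 0) (nat_lit 3227584488) (nat_lit 912) (nat_lit 3227584488) (nat_lit 458) (nat_lit 1) (nat_lit 445) (nat_lit 1) (nat_lit 457) (nat_lit 1) (nat_lit 312) (nat_lit 429) (nat_lit 399)) (XT.lf (nat_lit 76) (nat_lit 414180187) (nat_lit 0) (nat_lit 7173291646) (nat_lit 988) (nat_lit 414180187) (nat_lit 446) (nat_lit 1) (nat_lit 445) (nat_lit 1) (nat_lit 458) (nat_lit 1) (nat_lit 313) (nat_lit 429) (nat_lit 398)))))) (XT.nd (nat_lit 468) (nat_lit 2356) (nat_lit 0) (XT.nd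 (nat_lit 234) (nat_lit 1672) (nat_lit 0) (XT.nd (nat_lit 78) (nat_lit 988) (nat_lit 0) (XT.lf (nat_lit 912) (nat_lit 6959583) (nat_lit 0) (nat_lit 3961800420) (nat_lit 836) (nat_lit 3961800420) (nat_lit 446) (nat_lit 1) (nat_lit 434) (nat_lit 1) (nat_lit 445) (nat_lit 1) (nat_lit 314) (nat_lit 429) (nat_lit 397)) (XT.nd (nat_lit 78) (nat_lit 0) (nat_lit 0) (XT.lf (nat_lit 988) (nat_lit 7067524946) (nat_lit 0) (nat_lit 396564445) (nat_lit 912) (nat_lit 396564445) (nat_lit 434) (nat_lit 1) (nat_lit 421) (nat_lit 1) (nat_lit 433) (nat_lit 1) (nat_lit 315) (nat_lit 429) (nat_lit 396)) (XT.lf (nat_lit 76) (nat_lit 3083936205) (nat_lit 0) (nat_lit 1623326928) (nat_lit 988) (nat_lit 3083936205) (nat_lit 422) (nat_lit 1) (nat_lit 421) (nat_lit 1) (nat_lit 434) (nat_lit 1) (nat_lit 316) (nat_lit 429) (nat_lit 395)))) (XT.nd (nat_lit 78) (nat_lit 836) (nat_lit 0) (XT.lf (nat_lit 912) (nat_lit 5275180338) (nat_lit 0) (nat_lit 1223858473) (nat_lit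 836) (nat_lit 1223858473) (nat_lit 422) (nat_lit 1) (nat_lit 410) (nat_lit 1) (nat_lit 421) (nat_lit 1) (nat_lit 317) (nat_lit 429) (nat_lit 394)) (XT.nd (nat_lit 78) (nat_lit 836) (nat_lit 0) (XT.lf (nat_lit 76) (nat_lit 2182528531) (nat_lit 0) (nat_lit 3290192427) (nat_lit 912) (nat_lit 2182528531) (nat_lit 411) (nat_lit 1) (nat_lit 410) (nat_lit 1) (nat_lit 422) (nat_lit 1) (nat_lit 318) (nat_lit 429) (nat_lit 393)) (XT.lf (nat_lit 912) (nat_lit 3451133340) (nat_lit 0) (nat_lit 2068685175) (nat_lit 836) (nat_lit 2068685175) (nat_lit 411) (nat_lit 1) (nat_lit 399) (nat_lit 1) (nat_lit 410) (nat_lit 1) (nat_lit 319) (nat_lit 429) (nat_lit 392))))) (XT.nd (nat_lit 234) (nat_lit 1596) (nat_lit 0) (XT.nd (nat_lit 78) (nat_lit 760) (nat_lit 0) (XT.lf (nat_lit 76) (nat_lit 1266137251) (nat_lit 0) (nat_lit 4990343989) (nat_lit 912) (nat_lit 1266137251) (nat_lit 400) (nat_lit 1) (nat_lit 399) (nat_lit 1) (nat_lit 411) (nat_lit 1) (nat_lit 320)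 (nat_lit 429) (nat_lit 391)) (XT.nd (nat_lit 78) (nat_lit 0) (nat_lit 0) (XT.lf (nat_lit 836) (nat_lit 1598601294) (nat_lit 0) (nat_lit 2929390057) (nat_lit 760) (nat_lit 2929390057) (nat_lit 400) (nat_lit 1) (nat_lit 389) (nat_lit 1) (nat_lit 399) (nat_lit 1) (nat_lit 321) (nat_lit 429) (nat_lit 390)) (XT.lf (nat_lit 76) (nat_lit 336324319) (nat_lit 0) (nat_lit 6720567262) (nat_lit 836) (nat_lit 336324319) (nat_lit 390) (nat_lit 1) (nat_lit 389) (nat_lit 1) (nat_lit 400) (nat_lit 1) (nat_lit 322) (nat_lit 429) (nat_lit 389)))) (XT.nd (nat_lit 78) (nat_lit 760) (nat_lit 0) (XT.lf (nat_lit 76) (nat_lit 3526853434) (nat_lit 0) (nat_lit 275698450) (nat_lit 836) (nat_lit 3526853434) (nat_lit 379) (nat_lit 1) (nat_lit 378) (nat_lit 1) (nat_lit 389) (nat_lit 1) (nat_lit 323) (nat_lit 429) (nat_lit 388)) (XT.nd (nat_lit 78) (nat_lit 0) (nat_lit 0) (XT.lf (nat_lit 836) (nat_lit 6063748328) (nat_lit 0) (nat_lit 601445096) (nat_lit 760) (nat_lit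 601445096) (nat_lit 379) (nat_lit 1) (nat_lit 368) (nat_lit 1) (nat_lit 378) (nat_lit 1) (nat_lit 324) (nat_lit 429) (nat_lit 387)) (XT.lf (nat_lit 76) (nat_lit 2526521732) (nat_lit 0) (nat_lit 2151271580) (nat_lit 836) (nat_lit 2526521732) (nat_lit 369) (nat_lit 1) (nat_lit 368) (nat_lit 1) (nat_lit 379) (nat_lit 1) (nat_lit 325) (nat_lit 429) (nat_lit 386))))))) (XT.nd (nat_lit 936) (nat_lit 4104) (nat_lit 0) (XT.nd (nat_lit 468) (nat_lit 1976) (nat_lit 0) (XT.nd (nat_lit 234) (nat_lit 1444) (nat_lit 0) (XT.nd (nat_lit 78) (nat_lit 684) (nat_lit 0) (XT.lf (nat_lit 836) (nat_lit 4048003241) (nat_lit 0) (nat_lit 1547466422) (nat_lit 760) (nat_lit 1547466422) (nat_lit 369) (nat_lit 1) (nat_lit 358) (nat_lit 1) (nat_lit 368) (nat_lit 1) (nat_lit 326) (nat_lit 429) (nat_lit 385)) (XT.nd (nat_lit 78) (nat_lit 684) (nat_lit 0) (XT.lf (nat_lit 76) (nat_lit 1517930860) (nat_lit 0) (nat_lit 4046373269) (nat_lit 836) (nat_lit 1517930860) (nat_lit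 359) (nat_lit 1) (nat_lit 358) (nat_lit 1) (nat_lit 369) (nat_lit 1) (nat_lit 327) (nat_lit 429) (nat_lit 384)) (XT.lf (nat_lit 760) (nat_lit 2016945235) (nat_lit 0) (nat_lit 2502628449) (nat_lit 684) (nat_lit 2502628449) (nat_lit 359) (nat_lit 1) (nat_lit 349) (nat_lit 1) (nat_lit 358) (nat_lit 1) (nat_lit 328) (nat_lit 429) (nat_lit 383)))) (XT.nd (nat_lit 78) (nat_lit 1444) (nat_lit 0) (XT.lf (nat_lit 76) (nat_lit 502325125) (nat_lit 0) (nat_lit 5958434233) (nat_lit 760) (nat_lit 502325125) (nat_lit 350) (nat_lit 1) (nat_lit 349) (nat_lit 1) (nat_lit 359) (nat_lit 1) (nat_lit 329) (nat_lit 429) (nat_lit 382)) (XT.nd (nat_lit 78) (nat_lit 684) (nat_lit 0) (XT.lf (nat_lit 76) (nat_lit 3438855945) (nat_lit 0) (nat_lit 26641978) (nat_lit 760) (nat_lit 3438855945) (nat_lit 340) (nat_lit 1) (nat_lit 339) (nat_lit 1) (nat_lit 349) (nat_lit 1) (nat_lit 330) (nat_lit 429) (nat_lit 381)) (XT.lf (nat_lit 760) (nat_lit 5815110050) (nat_lit 0)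 (nat_lit 515702344) (nat_lit 684) (nat_lit 515702344) (nat_lit 340) (nat_lit 1) (nat_lit 330) (nat_lit 1) (nat_lit 339) (nat_lit 1) (nat_lit 331) (nat_lit 429) (nat_lit 380))))) (XT.nd (nat_lit 234) (nat_lit 1292) (nat_lit 0) (XT.nd (nat_lit 78) (nat_lit 684) (nat_lit 0) (XT.lf (nat_lit 76) (nat_lit 2367416438) (nat_lit 0) (nat_lit 2054221722) (nat_lit 760) (nat_lit 2367416438) (nat_lit 331) (nat_lit 1) (nat_lit 330) (nat_lit 1) (nat_lit 340) (nat_lit 1) (nat_lit 332) (nat_lit 429) (nat_lit 379)) (XT.nd (nat_lit 78) (nat_lit 0) (nat_lit 0) (XT.lf (nat_lit 760) (nat_lit 3662222994) (nat_lit 0) (nat_lit 1535116571) (nat_lit 684) (nat_lit 1535116571) (nat_lit 331) (nat_lit 1) (nat_lit 321) (nat_lit 1) (nat_lit 330) (nat_lit 1) (nat_lit 333) (nat_lit 429) (nat_lit 378)) (XT.lf (nat_lit 76) (nat_lit 1293195772) (nat_lit 0) (nat_lit 4090100352) (nat_lit 760) (nat_lit 1293195772) (nat_lit 322) (nat_lit 1) (nat_lit 321) (nat_lit 1) (nat_lit 331)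 (nat_lit 1) (nat_lit 334) (nat_lit 429) (nat_lit 377)))) (XT.nd (nat_lit 78) (nat_lit 684) (nat_lit 0) (XT.lf (nat_lit 684) (nat_lit 1504746274) (nat_lit 0) (nat_lit 2558175551) (nat_lit 608) (nat_lit 2558175551) (nat_lit 322) (nat_lit 1) (nat_lit 313) (nat_lit 1) (nat_lit 321) (nat_lit 1) (nat_lit 335) (nat_lit 429) (nat_lit 376)) (XT.nd (nat_lit 78) (nat_lit 684) (nat_lit 0) (XT.lf (nat_lit 76) (nat_lit 217172263) (nat_lit 0) (nat_lit 6132249098) (nat_lit 684) (nat_lit 217172263) (nat_lit 314) (nat_lit 1) (nat_lit 313) (nat_lit 1) (nat_lit 322) (nat_lit 1) (nat_lit 336) (nat_lit 429) (nat_lit 375)) (XT.lf (nat_lit 76) (nat_lit 2932732788) (nat_lit 0) (nat_lit 646816838) (nat_lit 684) (nat_lit 2932732788) (nat_lit 305) (nat_lit 1) (nat_lit 304) (nat_lit 1) (nat_lit 313) (nat_lit 1) (nat_lit 337) (nat_lit 429) (nat_lit 374)))))) (XT.nd (nat_lit 468) (nat_lit 1672) (nat_lit 0) (XT.nd (nat_lit 234) (nat_lit 1216) (nat_lit 0) (XT.nd (nat_lit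 78) (nat_lit 608) (nat_lit 0) (XT.lf (nat_lit 684) (nat_lit 4750692334) (nat_lit 0) (nat_lit 854074698) (nat_lit 608) (nat_lit 854074698) (nat_lit 305) (nat_lit 1) (nat_lit 296) (nat_lit 1) (nat_lit 304) (nat_lit 1) (nat_lit 338) (nat_lit 429) (nat_lit 373)) (XT.nd (nat_lit 78) (nat_lit 608) (nat_lit 0) (XT.lf (nat_lit 76) (nat_lit 1813157925) (nat_lit 0) (nat_lit 2779516158) (nat_lit 684) (nat_lit 1813157925) (nat_lit 297) (nat_lit 1) (nat_lit 296) (nat_lit 1) (nat_lit 305) (nat_lit 1) (nat_lit 339) (nat_lit 429) (nat_lit 372)) (XT.lf (nat_lit 684) (nat_lit 2505699674) (nat_lit 0) (nat_lit 1923901732) (nat_lit 608) (nat_lit 1923901732) (nat_lit 297) (nat_lit 1) (nat_lit 288) (nat_lit 1) (nat_lit 296) (nat_lit 1) (nat_lit 340) (nat_lit 429) (nat_lit 371)))) (XT.nd (nat_lit 78) (nat_lit 1216) (nat_lit 0) (XT.lf (nat_lit 76) (nat_lit 695231163) (nat_lit 0) (nat_lit 4911412626) (nat_lit 684) (nat_lit 695231163) (nat_lit 289) (nat_lit 1)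 (nat_lit 288) (nat_lit 1) (nat_lit 297) (nat_lit 1) (nat_lit 341) (nat_lit 429) (nat_lit 370)) (XT.nd (nat_lit 78) (nat_lit 684) (nat_lit 0) (XT.lf (nat_lit 608) (nat_lit 264780453) (nat_lit 0) (nat_lit 2992922531) (nat_lit 532) (nat_lit 2992922531) (nat_lit 289) (nat_lit 1) (nat_lit 281) (nat_lit 1) (nat_lit 288) (nat_lit 1) (nat_lit 342) (nat_lit 429) (nat_lit 369)) (XT.lf (nat_lit 684) (nat_lit 5365074961) (nat_lit 0) (nat_lit 417526295) (nat_lit 608) (nat_lit 417526295) (nat_lit 281) (nat_lit 1) (nat_lit 272) (nat_lit 1) (nat_lit 280) (nat_lit 1) (nat_lit 343) (nat_lit 429) (nat_lit 368))))) (XT.nd (nat_lit 234) (nat_lit 1140) (nat_lit 0) (XT.nd (nat_lit 78) (nat_lit 532) (nat_lit 0) (XT.lf (nat_lit 76) (nat_lit 2102570004) (nat_lit 0) (nat_lit 1944749353) (nat_lit 684) (nat_lit 2102570004) (nat_lit 273) (nat_lit 1) (nat_lit 272) (nat_lit 1) (nat_lit 281) (nat_lit 1) (nat_lit 344) (nat_lit 429) (nat_lit 367)) (XT.nd (nat_lit 78) (nat_lit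 0) (nat_lit 0) (XT.lf (nat_lit 608) (nat_lit 3055154474) (nat_lit 0) (nat_lit 1522615444) (nat_lit 532) (nat_lit 1522615444) (nat_lit 273) (nat_lit 1) (nat_lit 265) (nat_lit 1) (nat_lit 272) (nat_lit 1) (nat_lit 345) (nat_lit 429) (nat_lit 366)) (XT.lf (nat_lit 76) (nat_lit 953742432) (nat_lit 0) (nat_lit 4143970444) (nat_lit 608) (nat_lit 953742432) (nat_lit 266) (nat_lit 1) (nat_lit 265) (nat_lit 1) (nat_lit 273) (nat_lit 1) (nat_lit 346) (nat_lit 429) (nat_lit 365)))) (XT.nd (nat_lit 78) (nat_lit 608) (nat_lit 0) (XT.lf (nat_lit 608) (nat_lit 755055618) (nat_lit 0) (nat_lit 2623947241) (nat_lit 532) (nat_lit 2623947241) (nat_lit 266) (nat_lit 1) (nat_lit 258) (nat_lit 1) (nat_lit 265) (nat_lit 1) (nat_lit 347) (nat_lit 429) (nat_lit 364)) (XT.nd (nat_lit 78) (nat_lit 0) (nat_lit 0) (XT.lf (nat_lit 608) (nat_lit 5577920157) (nat_lit 0) (nat_lit 188639404) (nat_lit 532) (nat_lit 188639404) (nat_lit 258) (nat_lit 1) (nat_lit 250) (nat_lit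 1) (nat_lit 257) (nat_lit 1) (nat_lit 348) (nat_lit 429) (nat_lit 363)) (XT.lf (nat_lit 76) (nat_lit 2196823027) (nat_lit 0) (nat_lit 1513917639) (nat_lit 608) (nat_lit 2196823027) (nat_lit 251) (nat_lit 1) (nat_lit 250) (nat_lit 1) (nat_lit 258) (nat_lit 1) (nat_lit 349) (nat_lit 429) (nat_lit 362))))))))
noncomputable def ec111 : XT := (XT.nd (nat_lit 1872) (nat_lit 4788) (nat_lit 0) (XT.nd (nat_lit 936) (nat_lit 3268) (nat_lit 0) (XT.nd (nat_lit 468) (nat_lit 1444) (nat_lit 0) (XT.nd (nat_lit 234) (nat_lit 1064) (nat_lit 0) (XT.nd (nat_lit 78) (nat_lit 456) (nat_lit 0) (XT.lf (nat_lit 608) (nat_lit 3222633028) (nat_lit 0) (nat_lit 1319017062) (nat_lit 532) (nat_lit 1319017062) (nat_lit 251) (nat_lit 1) (nat_lit 243) (nat_lit 1) (nat_lit 250) (nat_lit 1) (nat_lit 350) (nat_lit 429) (nat_lit 361)) (XT.nd (nat_lit 78) (nat_lit 456) (nat_lit 0) (XT.lf (nat_lit 76) (nat_lit 1026619551) (nat_lit 0) (nat_lit 3761032580) (nat_lit 608) (nat_lit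 1026619551) (nat_lit 244) (nat_lit 1) (nat_lit 243) (nat_lit 1) (nat_lit 251) (nat_lit 1) (nat_lit 351) (nat_lit 429) (nat_lit 360)) (XT.lf (nat_lit 532) (nat_lit 882030832) (nat_lit 0) (nat_lit 2443134962) (nat_lit 456) (nat_lit 2443134962) (nat_lit 244) (nat_lit 1) (nat_lit 237) (nat_lit 1) (nat_lit 243) (nat_lit 1) (nat_lit 352) (nat_lit 429) (nat_lit 359)))) (XT.nd (nat_lit 78) (nat_lit 456) (nat_lit 0) (XT.lf (nat_lit 608) (nat_lit 5452781792) (nat_lit 0) (nat_lit 135132002) (nat_lit 532) (nat_lit 135132002) (nat_lit 237) (nat_lit 1) (nat_lit 229) (nat_lit 1) (nat_lit 236) (nat_lit 1) (nat_lit 353) (nat_lit 429) (nat_lit 358)) (XT.nd (nat_lit 78) (nat_lit 456) (nat_lit 0) (XT.lf (nat_lit 76) (nat_lit 2126915553) (nat_lit 0) (nat_lit 1424026732) (nat_lit 608) (nat_lit 2126915553) (nat_lit 230) (nat_lit 1) (nat_lit 229) (nat_lit 1) (nat_lit 237) (nat_lit 1) (nat_lit 354) (nat_lit 429) (nat_lit 357)) (XT.lf (nat_lit 532) (nat_lit 3069020661)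 (nat_lit 0) (nat_lit 1282175780) (nat_lit 456) (nat_lit 1282175780) (nat_lit 230) (nat_lit 1) (nat_lit 223) (nat_lit 1) (nat_lit 229) (nat_lit 1) (nat_lit 355) (nat_lit 429) (nat_lit 356))))) (XT.nd (nat_lit 234) (nat_lit 456) (nat_lit 0) (XT.nd (nat_lit 78) (nat_lit 988) (nat_lit 0) (XT.lf (nat_lit 76) (nat_lit 943558576) (nat_lit 0) (nat_lit 3702243195) (nat_lit 532) (nat_lit 943558576) (nat_lit 224) (nat_lit 1) (nat_lit 223) (nat_lit 1) (nat_lit 230) (nat_lit 1) (nat_lit 356) (nat_lit 429) (nat_lit 355)) (XT.nd (nat_lit 78) (nat_lit 532) (nat_lit 0) (XT.lf (nat_lit 532) (nat_lit 704031359) (nat_lit 0) (nat_lit 2420851254) (nat_lit 456) (nat_lit 2420851254) (nat_lit 224) (nat_lit 1) (nat_lit 217) (nat_lit 1) (nat_lit 223) (nat_lit 1) (nat_lit 357) (nat_lit 429) (nat_lit 354)) (XT.lf (nat_lit 532) (nat_lit 5045261985) (nat_lit 0) (nat_lit 228744700) (nat_lit 456) (nat_lit 228744700) (nat_lit 217) (nat_lit 1) (nat_lit 210) (nat_lit 1)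 (nat_lit 216) (nat_lit 1) (nat_lit 358) (nat_lit 429) (nat_lit 353)))) (XT.nd (nat_lit 78) (nat_lit 456) (nat_lit 0) (XT.lf (nat_lit 76) (nat_lit 1919963472) (nat_lit 0) (nat_lit 1619939982) (nat_lit 532) (nat_lit 1919963472) (nat_lit 211) (nat_lit 1) (nat_lit 210) (nat_lit 1) (nat_lit 217) (nat_lit 1) (nat_lit 359) (nat_lit 429) (nat_lit 352)) (XT.nd (nat_lit 78) (nat_lit 0) (nat_lit 0) (XT.lf (nat_lit 532) (nat_lit 2647568422) (nat_lit 0) (nat_lit 1385022972) (nat_lit 456) (nat_lit 1385022972) (nat_lit 211) (nat_lit 1) (nat_lit 204) (nat_lit 1) (nat_lit 210) (nat_lit 1) (nat_lit 360) (nat_lit 429) (nat_lit 351)) (XT.lf (nat_lit 76) (nat_lit 730527957) (nat_lit 0) (nat_lit 3914790581) (nat_lit 532) (nat_lit 730527957) (nat_lit 205) (nat_lit 1) (nat_lit 204) (nat_lit 1) (nat_lit 211) (nat_lit 1) (nat_lit 361) (nat_lit 429) (nat_lit 350)))))) (XT.nd (nat_lit 468) (nat_lit 1520) (nat_lit 0) (XT.nd (nat_lit 234) (nat_lit 836) (nat_lit 0)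 (XT.nd (nat_lit 78) (nat_lit 532) (nat_lit 0) (XT.lf (nat_lit 456) (nat_lit 272053156) (nat_lit 0) (nat_lit 2531169720) (nat_lit 380) (nat_lit 2531169720) (nat_lit 205) (nat_lit 1) (nat_lit 199) (nat_lit 1) (nat_lit 204) (nat_lit 1) (nat_lit 362) (nat_lit 429) (nat_lit 349)) (XT.nd (nat_lit 78) (nat_lit 0) (nat_lit 0) (XT.lf (nat_lit 532) (nat_lit 4403936400) (nat_lit 0) (nat_lit 444773231) (nat_lit 456) (nat_lit 444773231) (nat_lit 199) (nat_lit 1) (nat_lit 192) (nat_lit 1) (nat_lit 198) (nat_lit 1) (nat_lit 363) (nat_lit 429) (nat_lit 348)) (XT.lf (nat_lit 76) (nat_lit 1599651974) (nat_lit 0) (nat_lit 2053464829) (nat_lit 532) (nat_lit 1599651974) (nat_lit 193) (nat_lit 1) (nat_lit 192) (nat_lit 1) (nat_lit 199) (nat_lit 1) (nat_lit 364) (nat_lit 429) (nat_lit 347)))) (XT.nd (nat_lit 78) (nat_lit 456) (nat_lit 0) (XT.lf (nat_lit 456) (nat_lit 2004782106) (nat_lit 0) (nat_lit 1603903004) (nat_lit 380) (nat_lit 1603903004) (nat_lit 193)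 (nat_lit 1) (nat_lit 187) (nat_lit 1) (nat_lit 192) (nat_lit 1) (nat_lit 365) (nat_lit 429) (nat_lit 346)) (XT.nd (nat_lit 78) (nat_lit 456) (nat_lit 0) (XT.lf (nat_lit 76) (nat_lit 410202778) (nat_lit 0) (nat_lit 4352529424) (nat_lit 456) (nat_lit 410202778) (nat_lit 188) (nat_lit 1) (nat_lit 187) (nat_lit 1) (nat_lit 193) (nat_lit 1) (nat_lit 366) (nat_lit 429) (nat_lit 345)) (XT.lf (nat_lit 76) (nat_lit 2384455731) (nat_lit 0) (nat_lit 364538459) (nat_lit 456) (nat_lit 2384455731) (nat_lit 182) (nat_lit 1) (nat_lit 181) (nat_lit 1) (nat_lit 187) (nat_lit 1) (nat_lit 367) (nat_lit 429) (nat_lit 344))))) (XT.nd (nat_lit 234) (nat_lit 760) (nat_lit 0) (XT.nd (nat_lit 78) (nat_lit 380) (nat_lit 0) (XT.lf (nat_lit 456) (nat_lit 3571174506) (nat_lit 0) (nat_lit 761653980) (nat_lit 380) (nat_lit 761653980) (nat_lit 182) (nat_lit 1) (nat_lit 176) (nat_lit 1) (nat_lit 181) (nat_lit 1) (nat_lit 368) (nat_lit 429) (nat_lit 343)) (XT.nd (nat_lit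 78) (nat_lit 380) (nat_lit 0) (XT.lf (nat_lit 76) (nat_lit 1186636213) (nat_lit 0) (nat_lit 2682542925) (nat_lit 456) (nat_lit 1186636213) (nat_lit 177) (nat_lit 1) (nat_lit 176) (nat_lit 1) (nat_lit 182) (nat_lit 1) (nat_lit 369) (nat_lit 429) (nat_lit 342)) (XT.lf (nat_lit 456) (nat_lit 1181210313) (nat_lit 0) (nat_lit 1918175028) (nat_lit 380) (nat_lit 1918175028) (nat_lit 177) (nat_lit 1) (nat_lit 171) (nat_lit 1) (nat_lit 176) (nat_lit 1) (nat_lit 370) (nat_lit 429) (nat_lit 341)))) (XT.nd (nat_lit 78) (nat_lit 760) (nat_lit 0) (XT.lf (nat_lit 76) (nat_lit 2349690) (nat_lit 0) (nat_lit 4975202718) (nat_lit 456) (nat_lit 2349690) (nat_lit 172) (nat_lit 1) (nat_lit 171) (nat_lit 1) (nat_lit 177) (nat_lit 1) (nat_lit 371) (nat_lit 429) (nat_lit 340)) (XT.nd (nat_lit 78) (nat_lit 380) (nat_lit 0) (XT.lf (nat_lit 76) (nat_lit 1888103979) (nat_lit 0) (nat_lit 1165979056) (nat_lit 380) (nat_lit 1888103979) (nat_lit 167) (nat_lit 1) (nat_lit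 166) (nat_lit 1) (nat_lit 171) (nat_lit 1) (nat_lit 372) (nat_lit 429) (nat_lit 339)) (XT.lf (nat_lit 456) (nat_lit 2583866620) (nat_lit 0) (nat_lit 1160596604) (nat_lit 380) (nat_lit 1160596604) (nat_lit 167) (nat_lit 1) (nat_lit 161) (nat_lit 1) (nat_lit 166) (nat_lit 1) (nat_lit 373) (nat_lit 429) (nat_lit 338))))))) (XT.nd (nat_lit 936) (nat_lit 2356) (nat_lit 0) (XT.nd (nat_lit 468) (nat_lit 1368) (nat_lit 0) (XT.nd (nat_lit 234) (nat_lit 304) (nat_lit 0) (XT.nd (nat_lit 78) (nat_lit 760) (nat_lit 0) (XT.lf (nat_lit 76) (nat_lit 698896412) (nat_lit 0) (nat_lit 3470532280) (nat_lit 456) (nat_lit 698896412) (nat_lit 162) (nat_lit 1) (nat_lit 161) (nat_lit 1) (nat_lit 167) (nat_lit 1) (nat_lit 374) (nat_lit 429) (nat_lit 337)) (XT.nd (nat_lit 78) (nat_lit 456) (nat_lit 0) (XT.lf (nat_lit 380) (nat_lit 212142929) (nat_lit 0) (nat_lit 2309860022) (nat_lit 304) (nat_lit 2309860022) (nat_lit 162) (nat_lit 1) (nat_lit 157) (nat_lit 1) (nat_lit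 161) (nat_lit 1) (nat_lit 375) (nat_lit 429) (nat_lit 336)) (XT.lf (nat_lit 456) (nat_lit 3850437354) (nat_lit 0) (nat_lit 472701451) (nat_lit 380) (nat_lit 472701451) (nat_lit 157) (nat_lit 1) (nat_lit 151) (nat_lit 1) (nat_lit 156) (nat_lit 1) (nat_lit 376) (nat_lit 429) (nat_lit 335)))) (XT.nd (nat_lit 78) (nat_lit 304) (nat_lit 0) (XT.lf (nat_lit 76) (nat_lit 1328736627) (nat_lit 0) (nat_lit 2102523613) (nat_lit 456) (nat_lit 1328736627) (nat_lit 152) (nat_lit 1) (nat_lit 151) (nat_lit 1) (nat_lit 157) (nat_lit 1) (nat_lit 377) (nat_lit 429) (nat_lit 334)) (XT.nd (nat_lit 78) (nat_lit 0) (nat_lit 0) (XT.lf (nat_lit 380) (nat_lit 1474068217) (nat_lit 0) (nat_lit 1625258425) (nat_lit 304) (nat_lit 1625258425) (nat_lit 152) (nat_lit 1) (nat_lit 147) (nat_lit 1) (nat_lit 151) (nat_lit 1) (nat_lit 378) (nat_lit 429) (nat_lit 333)) (XT.lf (nat_lit 76) (nat_lit 152052579) (nat_lit 0) (nat_lit 4385571046) (nat_lit 380) (nat_lit 152052579)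 (nat_lit 148) (nat_lit 1) (nat_lit 147) (nat_lit 1) (nat_lit 152) (nat_lit 1) (nat_lit 379) (nat_lit 429) (nat_lit 332))))) (XT.nd (nat_lit 234) (nat_lit 684) (nat_lit 0) (XT.nd (nat_lit 78) (nat_lit 304) (nat_lit 0) (XT.lf (nat_lit 76) (nat_lit 1897218210) (nat_lit 0) (nat_lit 860336470) (nat_lit 380) (nat_lit 1897218210) (nat_lit 143) (nat_lit 1) (nat_lit 142) (nat_lit 1) (nat_lit 147) (nat_lit 1) (nat_lit 380) (nat_lit 429) (nat_lit 331)) (XT.nd (nat_lit 78) (nat_lit 0) (nat_lit 0) (XT.lf (nat_lit 380) (nat_lit 2614831712) (nat_lit 0) (nat_lit 1002766787) (nat_lit 304) (nat_lit 1002766787) (nat_lit 143) (nat_lit 1) (nat_lit 138) (nat_lit 1) (nat_lit 142) (nat_lit 1) (nat_lit 381) (nat_lit 429) (nat_lit 330)) (XT.lf (nat_lit 76) (nat_lit 720519870) (nat_lit 0) (nat_lit 3145253054) (nat_lit 380) (nat_lit 720519870) (nat_lit 139) (nat_lit 1) (nat_lit 138) (nat_lit 1) (nat_lit 143) (nat_lit 1) (nat_lit 382) (nat_lit 429) (nat_lit 329))))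 (XT.nd (nat_lit 78) (nat_lit 380) (nat_lit 0) (XT.lf (nat_lit 380) (nat_lit 269570843) (nat_lit 0) (nat_lit 2141455907) (nat_lit 304) (nat_lit 2141455907) (nat_lit 139) (nat_lit 1) (nat_lit 134) (nat_lit 1) (nat_lit 138) (nat_lit 1) (nat_lit 383) (nat_lit 429) (nat_lit 328)) (XT.nd (nat_lit 78) (nat_lit 0) (nat_lit 0) (XT.lf (nat_lit 380) (nat_lit 3644151819) (nat_lit 0) (nat_lit 437459572) (nat_lit 304) (nat_lit 437459572) (nat_lit 134) (nat_lit 1) (nat_lit 129) (nat_lit 1) (nat_lit 133) (nat_lit 1) (nat_lit 384) (nat_lit 429) (nat_lit 327)) (XT.lf (nat_lit 76) (nat_lit 1234322310) (nat_lit 0) (nat_lit 2017162258) (nat_lit 380) (nat_lit 1234322310) (nat_lit 130) (nat_lit 1) (nat_lit 129) (nat_lit 1) (nat_lit 134) (nat_lit 1) (nat_lit 385) (nat_lit 429) (nat_lit 326)))))) (XT.nd (nat_lit 468) (nat_lit 1140) (nat_lit 0) (XT.nd (nat_lit 234) (nat_lit 608) (nat_lit 0) (XT.nd (nat_lit 78) (nat_lit 304) (nat_lit 0) (XT.lf (nat_lit 380) (nat_lit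 1302915779) (nat_lit 0) (nat_lit 1575009520) (nat_lit 304) (nat_lit 1575009520) (nat_lit 130) (nat_lit 1) (nat_lit 125) (nat_lit 1) (nat_lit 129) (nat_lit 1) (nat_lit 386) (nat_lit 429) (nat_lit 325)) (XT.nd (nat_lit 78) (nat_lit 304) (nat_lit 0) (XT.lf (nat_lit 76) (nat_lit 75707892) (nat_lit 0) (nat_lit 4269122337) (nat_lit 380) (nat_lit 75707892) (nat_lit 126) (nat_lit 1) (nat_lit 125) (nat_lit 1) (nat_lit 130) (nat_lit 1) (nat_lit 387) (nat_lit 429) (nat_lit 324)) (XT.lf (nat_lit 76) (nat_lit 1697845887) (nat_lit 0) (nat_lit 992403587) (nat_lit 304) (nat_lit 1697845887) (nat_lit 122) (nat_lit 1) (nat_lit 121) (nat_lit 1) (nat_lit 125) (nat_lit 1) (nat_lit 388) (nat_lit 429) (nat_lit 323)))) (XT.nd (nat_lit 78) (nat_lit 304) (nat_lit 0) (XT.lf (nat_lit 380) (nat_lit 2236902576) (nat_lit 0) (nat_lit 1059609728) (nat_lit 304) (nat_lit 1059609728) (nat_lit 122) (nat_lit 1) (nat_lit 117) (nat_lit 1) (nat_lit 121) (nat_lit 1) (nat_lit 389)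 (nat_lit 429) (nat_lit 322)) (XT.nd (nat_lit 78) (nat_lit 304) (nat_lit 0) (XT.lf (nat_lit 76) (nat_lit 543010405) (nat_lit 0) (nat_lit 3238464354) (nat_lit 380) (nat_lit 543010405) (nat_lit 118) (nat_lit 1) (nat_lit 117) (nat_lit 1) (nat_lit 122) (nat_lit 1) (nat_lit 390) (nat_lit 429) (nat_lit 321)) (XT.lf (nat_lit 76) (nat_lit 2115138203) (nat_lit 0) (nat_lit 62766202) (nat_lit 304) (nat_lit 2115138203) (nat_lit 114) (nat_lit 1) (nat_lit 113) (nat_lit 1) (nat_lit 117) (nat_lit 1) (nat_lit 391) (nat_lit 429) (nat_lit 320))))) (XT.nd (nat_lit 234) (nat_lit 608) (nat_lit 0) (XT.nd (nat_lit 78) (nat_lit 228) (nat_lit 0) (XT.lf (nat_lit 380) (nat_lit 3079502991) (nat_lit 0) (nat_lit 591214020) (nat_lit 304) (nat_lit 591214020) (nat_lit 114) (nat_lit 1) (nat_lit 109) (nat_lit 1) (nat_lit 113) (nat_lit 1) (nat_lit 392) (nat_lit 429) (nat_lit 319)) (XT.nd (nat_lit 78) (nat_lit 228) (nat_lit 0) (XT.lf (nat_lit 76) (nat_lit 965449850) (nat_lit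 0) (nat_lit 2300129902) (nat_lit 380) (nat_lit 965449850) (nat_lit 110) (nat_lit 1) (nat_lit 109) (nat_lit 1) (nat_lit 114) (nat_lit 1) (nat_lit 393) (nat_lit 429) (nat_lit 318)) (XT.lf (nat_lit 304) (nat_lit 789685611) (nat_lit 0) (nat_lit 1705375879) (nat_lit 228) (nat_lit 1705375879) (nat_lit 110) (nat_lit 1) (nat_lit 106) (nat_lit 1) (nat_lit 109) (nat_lit 1) (nat_lit 394) (nat_lit 429) (nat_lit 317)))) (XT.nd (nat_lit 156) (nat_lit 228) (nat_lit 0) (XT.nd (nat_lit 78) (nat_lit 0) (nat_lit 0) (XT.lf (nat_lit 380) (nat_lit 3838073750) (nat_lit 0) (nat_lit 166090779) (nat_lit 304) (nat_lit 166090779) (nat_lit 106) (nat_lit 1) (nat_lit 101) (nat_lit 1) (nat_lit 105) (nat_lit 1) (nat_lit 395) (nat_lit 429) (nat_lit 316)) (XT.lf (nat_lit 76) (nat_lit 1346624636) (nat_lit 0) (nat_lit 1446816863) (nat_lit 380) (nat_lit 1346624636) (nat_lit 102) (nat_lit 1) (nat_lit 101) (nat_lit 1) (nat_lit 106) (nat_lit 1) (nat_lit 396) (nat_lit 429) (nat_lit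 315))) (XT.nd (nat_lit 78) (nat_lit 0) (nat_lit 0) (XT.lf (nat_lit 304) (nat_lit 1561353801) (nat_lit 0) (nat_lit 1274464233) (nat_lit 228) (nat_lit 1274464233) (nat_lit 102) (nat_lit 1) (nat_lit 98) (nat_lit 1) (nat_lit 101) (nat_lit 1) (nat_lit 397) (nat_lit 429) (nat_lit 314)) (XT.lf (nat_lit 76) (nat_lit 220656133) (nat_lit 0) (nat_lit 3639567383) (nat_lit 304) (nat_lit 220656133) (nat_lit 99) (nat_lit 1) (nat_lit 98) (nat_lit 1) (nat_lit 102) (nat_lit 1) (nat_lit 398) (nat_lit 429) (nat_lit 313))))))))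
noncomputable def ec112 : XT := (XT.nd (nat_lit 53664) (nat_lit 0) (nat_lit 12084) (XT.nd (nat_lit 52728) (nat_lit 0) (nat_lit 20824) (XT.nd (nat_lit 52260) (nat_lit 0) (nat_lit 25612) (XT.nd (nat_lit 234) (nat_lit 532) (nat_lit 0) (XT.nd (nat_lit 78) (nat_lit 228) (nat_lit 0) (XT.lf (nat_lit 76) (nat_lit 1689855567) (nat_lit 0) (nat_lit 671784527) (nat_lit 304) (nat_lit 1689855567) (nat_lit 95) (nat_lit 1) (nat_lit 94) (nat_lit 1) (nat_lit 98) (nat_lit 1) (nat_lit 399) (nat_lit 429) (nat_lit 312)) (XT.nd (nat_lit 78) (nat_lit 0) (nat_lit 0) (XT.lf (nat_lit 304) (nat_lit 2257945999) (nat_lit 0) (nat_lit 882271214) (nat_lit 228) (nat_lit 882271214) (nat_lit 95) (nat_lit 1) (nat_lit 91) (nat_lit 1) (nat_lit 94) (nat_lit 1) (nat_lit 400) (nat_lit 429) (nat_lit 311)) (XT.lf (nat_lit 76) (nat_lit 571611487) (nat_lit 0) (nat_lit 2850533788) (nat_lit 304) (nat_lit 571611487) (nat_lit 92) (nat_lit 1) (nat_lit 91) (nat_lit 1) (nat_lit 95) (nat_lit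 1) (nat_lit 401) (nat_lit 429) (nat_lit 310)))) (XT.nd (nat_lit 78) (nat_lit 304) (nat_lit 0) (XT.lf (nat_lit 304) (nat_lit 31603753) (nat_lit 0) (nat_lit 1966808497) (nat_lit 228) (nat_lit 1966808497) (nat_lit 92) (nat_lit 1) (nat_lit 88) (nat_lit 1) (nat_lit 91) (nat_lit 1) (nat_lit 402) (nat_lit 429) (nat_lit 309)) (XT.nd (nat_lit 78) (nat_lit 0) (nat_lit 0) (XT.lf (nat_lit 304) (nat_lit 2885499390) (nat_lit 0) (nat_lit 525732482) (nat_lit 228) (nat_lit 525732482) (nat_lit 88) (nat_lit 1) (nat_lit 84) (nat_lit 1) (nat_lit 87) (nat_lit 1) (nat_lit 403) (nat_lit 429) (nat_lit 308)) (XT.lf (nat_lit 76) (nat_lit 888629019) (nat_lit 0) (nat_lit 2131625257) (nat_lit 304) (nat_lit 888629019) (nat_lit 85) (nat_lit 1) (nat_lit 84) (nat_lit 1) (nat_lit 88) (nat_lit 1) (nat_lit 404) (nat_lit 429) (nat_lit 307))))) (XT.nd (nat_lit 234) (nat_lit 1824) (nat_lit 0) (XT.nd (nat_lit 78) (nat_lit 912) (nat_lit 0) (XT.lf (nat_lit 988) (nat_lit 3248273649)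 (nat_lit 0) (nat_lit 2567806258) (nat_lit 912) (nat_lit 2567806258) (nat_lit 470) (nat_lit 1) (nat_lit 457) (nat_lit 1) (nat_lit 469) (nat_lit 1) (nat_lit 308) (nat_lit 430) (nat_lit 402)) (XT.nd (nat_lit 78) (nat_lit 912) (nat_lit 0) (XT.lf (nat_lit 76) (nat_lit 1230430496) (nat_lit 0) (nat_lit 5848067421) (nat_lit 988) (nat_lit 1230430496) (nat_lit 458) (nat_lit 1) (nat_lit 457) (nat_lit 1) (nat_lit 470) (nat_lit 1) (nat_lit 309) (nat_lit 430) (nat_lit 401)) (XT.lf (nat_lit 988) (nat_lit 1650413670) (nat_lit 0) (nat_lit 3292136177) (nat_lit 912) (nat_lit 3292136177) (nat_lit 458) (nat_lit 1) (nat_lit 445) (nat_lit 1) (nat_lit 457) (nat_lit 1) (nat_lit 310) (nat_lit 430) (nat_lit 400)))) (XT.nd (nat_lit 78) (nat_lit 1824) (nat_lit 0) (XT.lf (nat_lit 76) (nat_lit 422463790) (nat_lit 0) (nat_lit 7316757479) (nat_lit 988) (nat_lit 422463790) (nat_lit 446) (nat_lit 1) (nat_lit 445) (nat_lit 1) (nat_lit 458) (nat_lit 1) (nat_lit 311) (nat_lit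 430) (nat_lit 399)) (XT.nd (nat_lit 78) (nat_lit 988) (nat_lit 0) (XT.lf (nat_lit 912) (nat_lit 7098774) (nat_lit 0) (nat_lit 4041036428) (nat_lit 836) (nat_lit 4041036428) (nat_lit 446) (nat_lit 1) (nat_lit 434) (nat_lit 1) (nat_lit 445) (nat_lit 1) (nat_lit 312) (nat_lit 430) (nat_lit 398)) (XT.lf (nat_lit 988) (nat_lit 7208875445) (nat_lit 0) (nat_lit 404495734) (nat_lit 912) (nat_lit 404495734) (nat_lit 434) (nat_lit 1) (nat_lit 421) (nat_lit 1) (nat_lit 433) (nat_lit 1) (nat_lit 313) (nat_lit 430) (nat_lit 397)))))) (XT.nd (nat_lit 468) (nat_lit 2356) (nat_lit 0) (XT.nd (nat_lit 234) (nat_lit 1596) (nat_lit 0) (XT.nd (nat_lit 78) (nat_lit 836) (nat_lit 0) (XT.lf (nat_lit 76) (nat_lit 3145614929) (nat_lit 0) (nat_lit 1655793466) (nat_lit 988) (nat_lit 3145614929) (nat_lit 422) (nat_lit 1) (nat_lit 421) (nat_lit 1) (nat_lit 434) (nat_lit 1) (nat_lit 314) (nat_lit 430) (nat_lit 396)) (XT.nd (nat_lit 78) (nat_lit 0) (nat_lit 0) (XT.lf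 (nat_lit 912) (nat_lit 5380683945) (nat_lit 0) (nat_lit 1248335643) (nat_lit 836) (nat_lit 1248335643) (nat_lit 422) (nat_lit 1) (nat_lit 410) (nat_lit 1) (nat_lit 421) (nat_lit 1) (nat_lit 315) (nat_lit 430) (nat_lit 395)) (XT.lf (nat_lit 76) (nat_lit 2226179102) (nat_lit 0) (nat_lit 3355996275) (nat_lit 912) (nat_lit 2226179102) (nat_lit 411) (nat_lit 1) (nat_lit 410) (nat_lit 1) (nat_lit 422) (nat_lit 1) (nat_lit 316) (nat_lit 430) (nat_lit 394)))) (XT.nd (nat_lit 78) (nat_lit 760) (nat_lit 0) (XT.lf (nat_lit 912) (nat_lit 3520156007) (nat_lit 0) (nat_lit 2110058878) (nat_lit 836) (nat_lit 2110058878) (nat_lit 411) (nat_lit 1) (nat_lit 399) (nat_lit 1) (nat_lit 410) (nat_lit 1) (nat_lit 317) (nat_lit 430) (nat_lit 393)) (XT.nd (nat_lit 78) (nat_lit 760) (nat_lit 0) (XT.lf (nat_lit 76) (nat_lit 1291459996) (nat_lit 0) (nat_lit 5090150869) (nat_lit 912) (nat_lit 1291459996) (nat_lit 400) (nat_lit 1) (nat_lit 399) (nat_lit 1) (nat_lit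 411) (nat_lit 1) (nat_lit 318) (nat_lit 430) (nat_lit 392)) (XT.lf (nat_lit 836) (nat_lit 1630573320) (nat_lit 0) (nat_lit 2987977859) (nat_lit 760) (nat_lit 2987977859) (nat_lit 400) (nat_lit 1) (nat_lit 389) (nat_lit 1) (nat_lit 399) (nat_lit 1) (nat_lit 319) (nat_lit 430) (nat_lit 391))))) (XT.nd (nat_lit 234) (nat_lit 760) (nat_lit 0) (XT.nd (nat_lit 78) (nat_lit 1596) (nat_lit 0) (XT.lf (nat_lit 76) (nat_lit 343050806) (nat_lit 0) (nat_lit 6854978608) (nat_lit 836) (nat_lit 343050806) (nat_lit 390) (nat_lit 1) (nat_lit 389) (nat_lit 1) (nat_lit 400) (nat_lit 1) (nat_lit 320) (nat_lit 430) (nat_lit 390)) (XT.nd (nat_lit 78) (nat_lit 760) (nat_lit 0) (XT.lf (nat_lit 76) (nat_lit 3597390503) (nat_lit 0) (nat_lit 281212419) (nat_lit 836) (nat_lit 3597390503) (nat_lit 379) (nat_lit 1) (nat_lit 378) (nat_lit 1) (nat_lit 389) (nat_lit 1) (nat_lit 321) (nat_lit 430) (nat_lit 389)) (XT.lf (nat_lit 836) (nat_lit 6185023294) (nat_lit 0) (nat_lit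 613473998) (nat_lit 760) (nat_lit 613473998) (nat_lit 379) (nat_lit 1) (nat_lit 368) (nat_lit 1) (nat_lit 378) (nat_lit 1) (nat_lit 322) (nat_lit 430) (nat_lit 388)))) (XT.nd (nat_lit 78) (nat_lit 760) (nat_lit 0) (XT.lf (nat_lit 76) (nat_lit 2577052167) (nat_lit 0) (nat_lit 2194297011) (nat_lit 836) (nat_lit 2577052167) (nat_lit 369) (nat_lit 1) (nat_lit 368) (nat_lit 1) (nat_lit 379) (nat_lit 1) (nat_lit 323) (nat_lit 430) (nat_lit 387)) (XT.nd (nat_lit 78) (nat_lit 0) (nat_lit 0) (XT.lf (nat_lit 836) (nat_lit 4128963306) (nat_lit 0) (nat_lit 1578415750) (nat_lit 760) (nat_lit 1578415750) (nat_lit 369) (nat_lit 1) (nat_lit 358) (nat_lit 1) (nat_lit 368) (nat_lit 1) (nat_lit 324) (nat_lit 430) (nat_lit 386)) (XT.lf (nat_lit 76) (nat_lit 1548289477) (nat_lit 0) (nat_lit 4127300734) (nat_lit 836) (nat_lit 1548289477) (nat_lit 359) (nat_lit 1) (nat_lit 358) (nat_lit 1) (nat_lit 369) (nat_lit 1) (nat_lit 325) (nat_lit 430) (nat_lit 385)))))))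 (XT.nd (nat_lit 936) (nat_lit 4028) (nat_lit 0) (XT.nd (nat_lit 468) (nat_lit 1900) (nat_lit 0) (XT.nd (nat_lit 234) (nat_lit 1368) (nat_lit 0) (XT.nd (nat_lit 78) (nat_lit 760) (nat_lit 0) (XT.lf (nat_lit 760) (nat_lit 2057284140) (nat_lit 0) (nat_lit 2552681018) (nat_lit 684) (nat_lit 2552681018) (nat_lit 359) (nat_lit 1) (nat_lit 349) (nat_lit 1) (nat_lit 358) (nat_lit 1) (nat_lit 326) (nat_lit 430) (nat_lit 384)) (XT.nd (nat_lit 78) (nat_lit 760) (nat_lit 0) (XT.lf (nat_lit 76) (nat_lit 512371628) (nat_lit 0) (nat_lit 6077602918) (nat_lit 760) (nat_lit 512371628) (nat_lit 350) (nat_lit 1) (nat_lit 349) (nat_lit 1) (nat_lit 359) (nat_lit 1) (nat_lit 327) (nat_lit 430) (nat_lit 383)) (XT.lf (nat_lit 76) (nat_lit 3507633063) (nat_lit 0) (nat_lit 27174818) (nat_lit 760) (nat_lit 3507633063) (nat_lit 340) (nat_lit 1) (nat_lit 339) (nat_lit 1) (nat_lit 349) (nat_lit 1) (nat_lit 328) (nat_lit 430) (nat_lit 382)))) (XT.nd (nat_lit 78) (nat_lit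 684) (nat_lit 0) (XT.lf (nat_lit 760) (nat_lit 5931412251) (nat_lit 0) (nat_lit 526016391) (nat_lit 684) (nat_lit 526016391) (nat_lit 340) (nat_lit 1) (nat_lit 330) (nat_lit 1) (nat_lit 339) (nat_lit 1) (nat_lit 329) (nat_lit 430) (nat_lit 381)) (XT.nd (nat_lit 78) (nat_lit 684) (nat_lit 0) (XT.lf (nat_lit 76) (nat_lit 2414764767) (nat_lit 0) (nat_lit 2095306156) (nat_lit 760) (nat_lit 2414764767) (nat_lit 331) (nat_lit 1) (nat_lit 330) (nat_lit 1) (nat_lit 340) (nat_lit 1) (nat_lit 330) (nat_lit 430) (nat_lit 380)) (XT.lf (nat_lit 760) (nat_lit 3735467454) (nat_lit 0) (nat_lit 1565818903) (nat_lit 684) (nat_lit 1565818903) (nat_lit 331) (nat_lit 1) (nat_lit 321) (nat_lit 1) (nat_lit 330) (nat_lit 1) (nat_lit 331) (nat_lit 430) (nat_lit 379))))) (XT.nd (nat_lit 234) (nat_lit 1292) (nat_lit 0) (XT.nd (nat_lit 78) (nat_lit 608) (nat_lit 0) (XT.lf (nat_lit 76) (nat_lit 1319059687) (nat_lit 0) (nat_lit 4171902359) (nat_lit 760) (nat_lit 1319059687)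 (nat_lit 322) (nat_lit 1) (nat_lit 321) (nat_lit 1) (nat_lit 331) (nat_lit 1) (nat_lit 332) (nat_lit 430) (nat_lit 378)) (XT.nd (nat_lit 78) (nat_lit 0) (nat_lit 0) (XT.lf (nat_lit 684) (nat_lit 1534841199) (nat_lit 0) (nat_lit 2609339062) (nat_lit 608) (nat_lit 2609339062) (nat_lit 322) (nat_lit 1) (nat_lit 313) (nat_lit 1) (nat_lit 321) (nat_lit 1) (nat_lit 333) (nat_lit 430) (nat_lit 377)) (XT.lf (nat_lit 76) (nat_lit 221515709) (nat_lit 0) (nat_lit 6254894080) (nat_lit 684) (nat_lit 221515709) (nat_lit 314) (nat_lit 1) (nat_lit 313) (nat_lit 1) (nat_lit 322) (nat_lit 1) (nat_lit 334) (nat_lit 430) (nat_lit 376)))) (XT.nd (nat_lit 78) (nat_lit 608) (nat_lit 0) (XT.lf (nat_lit 76) (nat_lit 2991387444) (nat_lit 0) (nat_lit 659753174) (nat_lit 684) (nat_lit 2991387444) (nat_lit 305) (nat_lit 1) (nat_lit 304) (nat_lit 1) (nat_lit 313) (nat_lit 1) (nat_lit 335) (nat_lit 430) (nat_lit 375)) (XT.nd (nat_lit 78) (nat_lit 0) (nat_lit 0) (XT.lf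 (nat_lit 684) (nat_lit 4845706180) (nat_lit 0) (nat_lit 871156192) (nat_lit 608) (nat_lit 871156192) (nat_lit 305) (nat_lit 1) (nat_lit 296) (nat_lit 1) (nat_lit 304) (nat_lit 1) (nat_lit 336) (nat_lit 430) (nat_lit 374)) (XT.lf (nat_lit 76) (nat_lit 1849421083) (nat_lit 0) (nat_lit 2835106482) (nat_lit 684) (nat_lit 1849421083) (nat_lit 297) (nat_lit 1) (nat_lit 296) (nat_lit 1) (nat_lit 305) (nat_lit 1) (nat_lit 337) (nat_lit 430) (nat_lit 373)))))) (XT.nd (nat_lit 468) (nat_lit 1672) (nat_lit 0) (XT.nd (nat_lit 234) (nat_lit 1216) (nat_lit 0) (XT.nd (nat_lit 78) (nat_lit 532) (nat_lit 0) (XT.lf (nat_lit 684) (nat_lit 2555813667) (nat_lit 0) (nat_lit 1962379767) (nat_lit 608) (nat_lit 1962379767) (nat_lit 297) (nat_lit 1) (nat_lit 288) (nat_lit 1) (nat_lit 296) (nat_lit 1) (nat_lit 338) (nat_lit 430) (nat_lit 372)) (XT.nd (nat_lit 78) (nat_lit 532) (nat_lit 0) (XT.lf (nat_lit 76) (nat_lit 709135786) (nat_lit 0) (nat_lit 5009640878)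 (nat_lit 684) (nat_lit 709135786) (nat_lit 289) (nat_lit 1) (nat_lit 288) (nat_lit 1) (nat_lit 297) (nat_lit 1) (nat_lit 339) (nat_lit 430) (nat_lit 371)) (XT.lf (nat_lit 608) (nat_lit 270076062) (nat_lit 0) (nat_lit 3052780982) (nat_lit 532) (nat_lit 3052780982) (nat_lit 289) (nat_lit 1) (nat_lit 281) (nat_lit 1) (nat_lit 288) (nat_lit 1) (nat_lit 340) (nat_lit 430) (nat_lit 370)))) (XT.nd (nat_lit 78) (nat_lit 532) (nat_lit 0) (XT.lf (nat_lit 684) (nat_lit 5472376460) (nat_lit 0) (nat_lit 425876821) (nat_lit 608) (nat_lit 425876821) (nat_lit 281) (nat_lit 1) (nat_lit 272) (nat_lit 1) (nat_lit 280) (nat_lit 1) (nat_lit 341) (nat_lit 430) (nat_lit 369)) (XT.nd (nat_lit 78) (nat_lit 532) (nat_lit 0) (XT.lf (nat_lit 76) (nat_lit 2144621404) (nat_lit 0) (nat_lit 1983644340) (nat_lit 684) (nat_lit 2144621404) (nat_lit 273) (nat_lit 1) (nat_lit 272) (nat_lit 1) (nat_lit 281) (nat_lit 1) (nat_lit 342) (nat_lit 430) (nat_lit 368)) (XT.lf (nat_lit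 608) (nat_lit 3116257563) (nat_lit 0) (nat_lit 1553067753) (nat_lit 532) (nat_lit 1553067753) (nat_lit 273) (nat_lit 1) (nat_lit 265) (nat_lit 1) (nat_lit 272) (nat_lit 1) (nat_lit 343) (nat_lit 430) (nat_lit 367))))) (XT.nd (nat_lit 234) (nat_lit 532) (nat_lit 0) (XT.nd (nat_lit 78) (nat_lit 1140) (nat_lit 0) (XT.lf (nat_lit 76) (nat_lit 972817281) (nat_lit 0) (nat_lit 4226849853) (nat_lit 608) (nat_lit 972817281) (nat_lit 266) (nat_lit 1) (nat_lit 265) (nat_lit 1) (nat_lit 273) (nat_lit 1) (nat_lit 344) (nat_lit 430) (nat_lit 366)) (XT.nd (nat_lit 78) (nat_lit 608) (nat_lit 0) (XT.lf (nat_lit 608) (nat_lit 770156730) (nat_lit 0) (nat_lit 2676426186) (nat_lit 532) (nat_lit 2676426186) (nat_lit 266) (nat_lit 1) (nat_lit 258) (nat_lit 1) (nat_lit 265) (nat_lit 1) (nat_lit 345) (nat_lit 430) (nat_lit 365)) (XT.lf (nat_lit 608) (nat_lit 5689478560) (nat_lit 0) (nat_lit 192412193) (nat_lit 532) (nat_lit 192412193) (nat_lit 258) (nat_lit 1)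 (nat_lit 250) (nat_lit 1) (nat_lit 257) (nat_lit 1) (nat_lit 346) (nat_lit 430) (nat_lit 364)))) (XT.nd (nat_lit 78) (nat_lit 532) (nat_lit 0) (XT.lf (nat_lit 76) (nat_lit 2240759487) (nat_lit 0) (nat_lit 1544195992) (nat_lit 608) (nat_lit 2240759487) (nat_lit 251) (nat_lit 1) (nat_lit 250) (nat_lit 1) (nat_lit 258) (nat_lit 1) (nat_lit 347) (nat_lit 430) (nat_lit 363)) (XT.nd (nat_lit 78) (nat_lit 0) (nat_lit 0) (XT.lf (nat_lit 608) (nat_lit 3287085689) (nat_lit 0) (nat_lit 1345397403) (nat_lit 532) (nat_lit 1345397403) (nat_lit 251) (nat_lit 1) (nat_lit 243) (nat_lit 1) (nat_lit 250) (nat_lit 1) (nat_lit 348) (nat_lit 430) (nat_lit 362)) (XT.lf (nat_lit 76) (nat_lit 1047151942) (nat_lit 0) (nat_lit 3836253232) (nat_lit 608) (nat_lit 1047151942) (nat_lit 244) (nat_lit 1) (nat_lit 243) (nat_lit 1) (nat_lit 251) (nat_lit 1) (nat_lit 349) (nat_lit 430) (nat_lit 361))))))))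
noncomputable def ec113 : XT := (XT.nd (nat_lit 1872) (nat_lit 5016) (nat_lit 0) (XT.nd (nat_lit 936) (nat_lit 2660) (nat_lit 0) (XT.nd (nat_lit 468) (nat_lit 1900) (nat_lit 0) (XT.nd (nat_lit 234) (nat_lit 912) (nat_lit 0) (XT.nd (nat_lit 78) (nat_lit 608) (nat_lit 0) (XT.lf (nat_lit 532) (nat_lit 899671449) (nat_lit 0) (nat_lit 2491997661) (nat_lit 456) (nat_lit 2491997661) (nat_lit 244) (nat_lit 1) (nat_lit 237) (nat_lit 1) (nat_lit 243) (nat_lit 1) (nat_lit 350) (nat_lit 430) (nat_lit 360)) (XT.nd (nat_lit 78) (nat_lit 0) (nat_lit 0) (XT.lf (nat_lit 608) (nat_lit 5561837428) (nat_lit 0) (nat_lit 137834642) (nat_lit 532) (nat_lit 137834642) (nat_lit 237) (nat_lit 1) (nat_lit 229) (nat_lit 1) (nat_lit 236) (nat_lit 1) (nat_lit 351) (nat_lit 430) (nat_lit 359)) (XT.lf (nat_lit 76) (nat_lit 2169453864) (nat_lit 0) (nat_lit 1452507267) (nat_lit 608) (nat_lit 2169453864) (nat_lit 230) (nat_lit 1) (nat_lit 229) (nat_lit 1) (nat_lit 237)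 (nat_lit 1) (nat_lit 352) (nat_lit 430) (nat_lit 358)))) (XT.nd (nat_lit 78) (nat_lit 456) (nat_lit 0) (XT.lf (nat_lit 532) (nat_lit 3130401074) (nat_lit 0) (nat_lit 1307819295) (nat_lit 456) (nat_lit 1307819295) (nat_lit 230) (nat_lit 1) (nat_lit 223) (nat_lit 1) (nat_lit 229) (nat_lit 1) (nat_lit 353) (nat_lit 430) (nat_lit 357)) (XT.nd (nat_lit 78) (nat_lit 456) (nat_lit 0) (XT.lf (nat_lit 76) (nat_lit 962429747) (nat_lit 0) (nat_lit 3776288059) (nat_lit 532) (nat_lit 962429747) (nat_lit 224) (nat_lit 1) (nat_lit 223) (nat_lit 1) (nat_lit 230) (nat_lit 1) (nat_lit 354) (nat_lit 430) (nat_lit 356)) (XT.lf (nat_lit 532) (nat_lit 718111987) (nat_lit 0) (nat_lit 2469268279) (nat_lit 456) (nat_lit 2469268279) (nat_lit 224) (nat_lit 1) (nat_lit 217) (nat_lit 1) (nat_lit 223) (nat_lit 1) (nat_lit 355) (nat_lit 430) (nat_lit 355))))) (XT.nd (nat_lit 234) (nat_lit 912) (nat_lit 0) (XT.nd (nat_lit 78) (nat_lit 456) (nat_lit 0) (XT.lf (nat_lit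 532) (nat_lit 5146167225) (nat_lit 0) (nat_lit 233319594) (nat_lit 456) (nat_lit 233319594) (nat_lit 217) (nat_lit 1) (nat_lit 210) (nat_lit 1) (nat_lit 216) (nat_lit 1) (nat_lit 356) (nat_lit 430) (nat_lit 354)) (XT.nd (nat_lit 78) (nat_lit 456) (nat_lit 0) (XT.lf (nat_lit 76) (nat_lit 1958362741) (nat_lit 0) (nat_lit 1652338782) (nat_lit 532) (nat_lit 1958362741) (nat_lit 211) (nat_lit 1) (nat_lit 210) (nat_lit 1) (nat_lit 217) (nat_lit 1) (nat_lit 357) (nat_lit 430) (nat_lit 353)) (XT.lf (nat_lit 532) (nat_lit 2700519791) (nat_lit 0) (nat_lit 1412723432) (nat_lit 456) (nat_lit 1412723432) (nat_lit 211) (nat_lit 1) (nat_lit 204) (nat_lit 1) (nat_lit 210) (nat_lit 1) (nat_lit 358) (nat_lit 430) (nat_lit 352)))) (XT.nd (nat_lit 78) (nat_lit 912) (nat_lit 0) (XT.lf (nat_lit 76) (nat_lit 745138516) (nat_lit 0) (nat_lit 3993086392) (nat_lit 532) (nat_lit 745138516) (nat_lit 205) (nat_lit 1) (nat_lit 204) (nat_lit 1) (nat_lit 211) (nat_lit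 1) (nat_lit 359) (nat_lit 430) (nat_lit 351)) (XT.nd (nat_lit 78) (nat_lit 532) (nat_lit 0) (XT.lf (nat_lit 456) (nat_lit 277494219) (nat_lit 0) (nat_lit 2581793114) (nat_lit 380) (nat_lit 2581793114) (nat_lit 205) (nat_lit 1) (nat_lit 199) (nat_lit 1) (nat_lit 204) (nat_lit 1) (nat_lit 360) (nat_lit 430) (nat_lit 350)) (XT.lf (nat_lit 532) (nat_lit 4492015128) (nat_lit 0) (nat_lit 453668695) (nat_lit 456) (nat_lit 453668695) (nat_lit 199) (nat_lit 1) (nat_lit 192) (nat_lit 1) (nat_lit 198) (nat_lit 1) (nat_lit 361) (nat_lit 430) (nat_lit 349)))))) (XT.nd (nat_lit 468) (nat_lit 1444) (nat_lit 0) (XT.nd (nat_lit 234) (nat_lit 836) (nat_lit 0) (XT.nd (nat_lit 78) (nat_lit 380) (nat_lit 0) (XT.lf (nat_lit 76) (nat_lit 1631645014) (nat_lit 0) (nat_lit 2094534125) (nat_lit 532) (nat_lit 1631645014) (nat_lit 193) (nat_lit 1) (nat_lit 192) (nat_lit 1) (nat_lit 199) (nat_lit 1) (nat_lit 362) (nat_lit 430) (nat_lit 348)) (XT.nd (nat_lit 78) (nat_lit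 0) (nat_lit 0) (XT.lf (nat_lit 456) (nat_lit 2044877748) (nat_lit 0) (nat_lit 1635981065) (nat_lit 380) (nat_lit 1635981065) (nat_lit 193) (nat_lit 1) (nat_lit 187) (nat_lit 1) (nat_lit 192) (nat_lit 1) (nat_lit 363) (nat_lit 430) (nat_lit 347)) (XT.lf (nat_lit 76) (nat_lit 418406834) (nat_lit 0) (nat_lit 4439580013) (nat_lit 456) (nat_lit 418406834) (nat_lit 188) (nat_lit 1) (nat_lit 187) (nat_lit 1) (nat_lit 193) (nat_lit 1) (nat_lit 364) (nat_lit 430) (nat_lit 346)))) (XT.nd (nat_lit 78) (nat_lit 380) (nat_lit 0) (XT.lf (nat_lit 76) (nat_lit 2432144846) (nat_lit 0) (nat_lit 371829228) (nat_lit 456) (nat_lit 2432144846) (nat_lit 182) (nat_lit 1) (nat_lit 181) (nat_lit 1) (nat_lit 187) (nat_lit 1) (nat_lit 365) (nat_lit 430) (nat_lit 345)) (XT.nd (nat_lit 78) (nat_lit 0) (nat_lit 0) (XT.lf (nat_lit 456) (nat_lit 3642597997) (nat_lit 0) (nat_lit 776887060) (nat_lit 380) (nat_lit 776887060) (nat_lit 182) (nat_lit 1) (nat_lit 176) (nat_lit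 1) (nat_lit 181) (nat_lit 1) (nat_lit 366) (nat_lit 430) (nat_lit 344)) (XT.lf (nat_lit 76) (nat_lit 1210368937) (nat_lit 0) (nat_lit 2736193784) (nat_lit 456) (nat_lit 1210368937) (nat_lit 177) (nat_lit 1) (nat_lit 176) (nat_lit 1) (nat_lit 182) (nat_lit 1) (nat_lit 367) (nat_lit 430) (nat_lit 343))))) (XT.nd (nat_lit 234) (nat_lit 684) (nat_lit 0) (XT.nd (nat_lit 78) (nat_lit 380) (nat_lit 0) (XT.lf (nat_lit 456) (nat_lit 1204834519) (nat_lit 0) (nat_lit 1956538528) (nat_lit 380) (nat_lit 1956538528) (nat_lit 177) (nat_lit 1) (nat_lit 171) (nat_lit 1) (nat_lit 176) (nat_lit 1) (nat_lit 368) (nat_lit 430) (nat_lit 342)) (XT.nd (nat_lit 78) (nat_lit 380) (nat_lit 0) (XT.lf (nat_lit 76) (nat_lit 2396684) (nat_lit 0) (nat_lit 5074706773) (nat_lit 456) (nat_lit 2396684) (nat_lit 172) (nat_lit 1) (nat_lit 171) (nat_lit 1) (nat_lit 177) (nat_lit 1) (nat_lit 369) (nat_lit 430) (nat_lit 341)) (XT.lf (nat_lit 76) (nat_lit 1925866058) (nat_lit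 0) (nat_lit 1189298637) (nat_lit 380) (nat_lit 1925866058) (nat_lit 167) (nat_lit 1) (nat_lit 166) (nat_lit 1) (nat_lit 171) (nat_lit 1) (nat_lit 370) (nat_lit 430) (nat_lit 340)))) (XT.nd (nat_lit 78) (nat_lit 304) (nat_lit 0) (XT.lf (nat_lit 456) (nat_lit 2635543953) (nat_lit 0) (nat_lit 1183808536) (nat_lit 380) (nat_lit 1183808536) (nat_lit 167) (nat_lit 1) (nat_lit 161) (nat_lit 1) (nat_lit 166) (nat_lit 1) (nat_lit 371) (nat_lit 430) (nat_lit 339)) (XT.nd (nat_lit 78) (nat_lit 304) (nat_lit 0) (XT.lf (nat_lit 76) (nat_lit 712874340) (nat_lit 0) (nat_lit 3539942926) (nat_lit 456) (nat_lit 712874340) (nat_lit 162) (nat_lit 1) (nat_lit 161) (nat_lit 1) (nat_lit 167) (nat_lit 1) (nat_lit 372) (nat_lit 430) (nat_lit 338)) (XT.lf (nat_lit 380) (nat_lit 216385787) (nat_lit 0) (nat_lit 2356057223) (nat_lit 304) (nat_lit 2356057223) (nat_lit 162) (nat_lit 1) (nat_lit 157) (nat_lit 1) (nat_lit 161) (nat_lit 1) (nat_lit 373) (nat_lit 430)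 (nat_lit 337))))))) (XT.nd (nat_lit 936) (nat_lit 2584) (nat_lit 0) (XT.nd (nat_lit 468) (nat_lit 988) (nat_lit 0) (XT.nd (nat_lit 234) (nat_lit 684) (nat_lit 0) (XT.nd (nat_lit 78) (nat_lit 304) (nat_lit 0) (XT.lf (nat_lit 456) (nat_lit 3927446102) (nat_lit 0) (nat_lit 482155480) (nat_lit 380) (nat_lit 482155480) (nat_lit 157) (nat_lit 1) (nat_lit 151) (nat_lit 1) (nat_lit 156) (nat_lit 1) (nat_lit 374) (nat_lit 430) (nat_lit 336)) (XT.nd (nat_lit 78) (nat_lit 304) (nat_lit 0) (XT.lf (nat_lit 76) (nat_lit 1355311360) (nat_lit 0) (nat_lit 2144574085) (nat_lit 456) (nat_lit 1355311360) (nat_lit 152) (nat_lit 1) (nat_lit 151) (nat_lit 1) (nat_lit 157) (nat_lit 1) (nat_lit 375) (nat_lit 430) (nat_lit 335)) (XT.lf (nat_lit 380) (nat_lit 1503549581) (nat_lit 0) (nat_lit 1657763594) (nat_lit 304) (nat_lit 1657763594) (nat_lit 152) (nat_lit 1) (nat_lit 147) (nat_lit 1) (nat_lit 151) (nat_lit 1) (nat_lit 376) (nat_lit 430) (nat_lit 334)))) (XT.nd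 (nat_lit 78) (nat_lit 684) (nat_lit 0) (XT.lf (nat_lit 76) (nat_lit 155093630) (nat_lit 0) (nat_lit 4473282467) (nat_lit 380) (nat_lit 155093630) (nat_lit 148) (nat_lit 1) (nat_lit 147) (nat_lit 1) (nat_lit 152) (nat_lit 1) (nat_lit 377) (nat_lit 430) (nat_lit 333)) (XT.nd (nat_lit 78) (nat_lit 304) (nat_lit 0) (XT.lf (nat_lit 76) (nat_lit 1935162575) (nat_lit 0) (nat_lit 877543200) (nat_lit 380) (nat_lit 1935162575) (nat_lit 143) (nat_lit 1) (nat_lit 142) (nat_lit 1) (nat_lit 147) (nat_lit 1) (nat_lit 378) (nat_lit 430) (nat_lit 332)) (XT.lf (nat_lit 380) (nat_lit 2667128346) (nat_lit 0) (nat_lit 1022822122) (nat_lit 304) (nat_lit 1022822122) (nat_lit 143) (nat_lit 1) (nat_lit 138) (nat_lit 1) (nat_lit 142) (nat_lit 1) (nat_lit 379) (nat_lit 430) (nat_lit 331))))) (XT.nd (nat_lit 234) (nat_lit 304) (nat_lit 0) (XT.nd (nat_lit 78) (nat_lit 684) (nat_lit 0) (XT.lf (nat_lit 76) (nat_lit 734930267) (nat_lit 0) (nat_lit 3208158115) (nat_lit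 380) (nat_lit 734930267) (nat_lit 139) (nat_lit 1) (nat_lit 138) (nat_lit 1) (nat_lit 143) (nat_lit 1) (nat_lit 380) (nat_lit 430) (nat_lit 330)) (XT.nd (nat_lit 78) (nat_lit 380) (nat_lit 0) (XT.lf (nat_lit 380) (nat_lit 274962260) (nat_lit 0) (nat_lit 2184285025) (nat_lit 304) (nat_lit 2184285025) (nat_lit 139) (nat_lit 1) (nat_lit 134) (nat_lit 1) (nat_lit 138) (nat_lit 1) (nat_lit 381) (nat_lit 430) (nat_lit 329)) (XT.lf (nat_lit 380) (nat_lit 3717034855) (nat_lit 0) (nat_lit 446208764) (nat_lit 304) (nat_lit 446208764) (nat_lit 134) (nat_lit 1) (nat_lit 129) (nat_lit 1) (nat_lit 133) (nat_lit 1) (nat_lit 382) (nat_lit 430) (nat_lit 328)))) (XT.nd (nat_lit 78) (nat_lit 304) (nat_lit 0) (XT.lf (nat_lit 76) (nat_lit 1259008756) (nat_lit 0) (nat_lit 2057505504) (nat_lit 380) (nat_lit 1259008756) (nat_lit 130) (nat_lit 1) (nat_lit 129) (nat_lit 1) (nat_lit 134) (nat_lit 1) (nat_lit 383) (nat_lit 430) (nat_lit 327)) (XT.nd (nat_lit 78)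 (nat_lit 0) (nat_lit 0) (XT.lf (nat_lit 380) (nat_lit 1328974095) (nat_lit 0) (nat_lit 1606509710) (nat_lit 304) (nat_lit 1606509710) (nat_lit 130) (nat_lit 1) (nat_lit 125) (nat_lit 1) (nat_lit 129) (nat_lit 1) (nat_lit 384) (nat_lit 430) (nat_lit 326)) (XT.lf (nat_lit 76) (nat_lit 77222050) (nat_lit 0) (nat_lit 4354504784) (nat_lit 380) (nat_lit 77222050) (nat_lit 126) (nat_lit 1) (nat_lit 125) (nat_lit 1) (nat_lit 130) (nat_lit 1) (nat_lit 385) (nat_lit 430) (nat_lit 325)))))) (XT.nd (nat_lit 468) (nat_lit 1368) (nat_lit 0) (XT.nd (nat_lit 234) (nat_lit 608) (nat_lit 0) (XT.nd (nat_lit 78) (nat_lit 304) (nat_lit 0) (XT.lf (nat_lit 76) (nat_lit 1731802805) (nat_lit 0) (nat_lit 1012251659) (nat_lit 304) (nat_lit 1731802805) (nat_lit 122) (nat_lit 1) (nat_lit 121) (nat_lit 1) (nat_lit 125) (nat_lit 1) (nat_lit 386) (nat_lit 430) (nat_lit 324)) (XT.nd (nat_lit 78) (nat_lit 0) (nat_lit 0) (XT.lf (nat_lit 380) (nat_lit 2281640628) (nat_lit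 0) (nat_lit 1080801923) (nat_lit 304) (nat_lit 1080801923) (nat_lit 122) (nat_lit 1) (nat_lit 117) (nat_lit 1) (nat_lit 121) (nat_lit 1) (nat_lit 387) (nat_lit 430) (nat_lit 323)) (XT.lf (nat_lit 76) (nat_lit 553870613) (nat_lit 0) (nat_lit 3303233641) (nat_lit 380) (nat_lit 553870613) (nat_lit 118) (nat_lit 1) (nat_lit 117) (nat_lit 1) (nat_lit 122) (nat_lit 1) (nat_lit 388) (nat_lit 430) (nat_lit 322)))) (XT.nd (nat_lit 78) (nat_lit 304) (nat_lit 0) (XT.lf (nat_lit 76) (nat_lit 2157440967) (nat_lit 0) (nat_lit 64021526) (nat_lit 304) (nat_lit 2157440967) (nat_lit 114) (nat_lit 1) (nat_lit 113) (nat_lit 1) (nat_lit 117) (nat_lit 1) (nat_lit 389) (nat_lit 430) (nat_lit 321)) (XT.nd (nat_lit 78) (nat_lit 0) (nat_lit 0) (XT.lf (nat_lit 380) (nat_lit 3141093051) (nat_lit 0) (nat_lit 603038301) (nat_lit 304) (nat_lit 603038301) (nat_lit 114) (nat_lit 1) (nat_lit 109) (nat_lit 1) (nat_lit 113) (nat_lit 1) (nat_lit 390) (nat_lit 430) (nat_lit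 320)) (XT.lf (nat_lit 76) (nat_lit 984758847) (nat_lit 0) (nat_lit 2346132500) (nat_lit 380) (nat_lit 984758847) (nat_lit 110) (nat_lit 1) (nat_lit 109) (nat_lit 1) (nat_lit 114) (nat_lit 1) (nat_lit 391) (nat_lit 430) (nat_lit 319))))) (XT.nd (nat_lit 234) (nat_lit 760) (nat_lit 0) (XT.nd (nat_lit 78) (nat_lit 380) (nat_lit 0) (XT.lf (nat_lit 304) (nat_lit 805479323) (nat_lit 0) (nat_lit 1739483397) (nat_lit 228) (nat_lit 1739483397) (nat_lit 110) (nat_lit 1) (nat_lit 106) (nat_lit 1) (nat_lit 109) (nat_lit 1) (nat_lit 392) (nat_lit 430) (nat_lit 318)) (XT.nd (nat_lit 78) (nat_lit 0) (nat_lit 0) (XT.lf (nat_lit 380) (nat_lit 3914835225) (nat_lit 0) (nat_lit 169412595) (nat_lit 304) (nat_lit 169412595) (nat_lit 106) (nat_lit 1) (nat_lit 101) (nat_lit 1) (nat_lit 105) (nat_lit 1) (nat_lit 393) (nat_lit 430) (nat_lit 317)) (XT.lf (nat_lit 76) (nat_lit 1373557129) (nat_lit 0) (nat_lit 1475753200) (nat_lit 380) (nat_lit 1373557129) (nat_lit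 102) (nat_lit 1) (nat_lit 101) (nat_lit 1) (nat_lit 106) (nat_lit 1) (nat_lit 394) (nat_lit 430) (nat_lit 316)))) (XT.nd (nat_lit 156) (nat_lit 532) (nat_lit 0) (XT.nd (nat_lit 78) (nat_lit 0) (nat_lit 0) (XT.lf (nat_lit 304) (nat_lit 1592580877) (nat_lit 0) (nat_lit 1299953518) (nat_lit 228) (nat_lit 1299953518) (nat_lit 102) (nat_lit 1) (nat_lit 98) (nat_lit 1) (nat_lit 101) (nat_lit 1) (nat_lit 395) (nat_lit 430) (nat_lit 315)) (XT.lf (nat_lit 76) (nat_lit 225069256) (nat_lit 0) (nat_lit 3712358730) (nat_lit 304) (nat_lit 225069256) (nat_lit 99) (nat_lit 1) (nat_lit 98) (nat_lit 1) (nat_lit 102) (nat_lit 1) (nat_lit 396) (nat_lit 430) (nat_lit 314))) (XT.nd (nat_lit 78) (nat_lit 228) (nat_lit 0) (XT.lf (nat_lit 76) (nat_lit 1723652678) (nat_lit 0) (nat_lit 685220218) (nat_lit 304) (nat_lit 1723652678) (nat_lit 95) (nat_lit 1) (nat_lit 94) (nat_lit 1) (nat_lit 98) (nat_lit 1) (nat_lit 397) (nat_lit 430) (nat_lit 313)) (XT.lf (nat_lit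 304) (nat_lit 2303104919) (nat_lit 0) (nat_lit 899916638) (nat_lit 228) (nat_lit 899916638) (nat_lit 95) (nat_lit 1) (nat_lit 91) (nat_lit 1) (nat_lit 94) (nat_lit 1) (nat_lit 398) (nat_lit 430) (nat_lit 312))))))))
noncomputable def ec114 : XT := (XT.nd (nat_lit 53898) (nat_lit 0) (nat_lit 10564) (XT.nd (nat_lit 52962) (nat_lit 0) (nat_lit 18696) (XT.nd (nat_lit 52494) (nat_lit 0) (nat_lit 23940) (XT.nd (nat_lit 234) (nat_lit 0) (nat_lit 0) (XT.nd (nat_lit 78) (nat_lit 532) (nat_lit 0) (XT.lf (nat_lit 76) (nat_lit 583043717) (nat_lit 0) (nat_lit 2907544463) (nat_lit 304) (nat_lit 583043717) (nat_lit 92) (nat_lit 1) (nat_lit 91) (nat_lit 1) (nat_lit 95) (nat_lit 1) (nat_lit 399) (nat_lit 430) (nat_lit 311)) (XT.nd (nat_lit 78) (nat_lit 304) (nat_lit 0) (XT.lf (nat_lit 304) (nat_lit 32235828) (nat_lit 0) (nat_lit 2006144667) (nat_lit 228) (nat_lit 2006144667) (nat_lit 92) (nat_lit 1) (nat_lit 88) (nat_lit 1) (nat_lit 91) (nat_lit 1) (nat_lit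 400) (nat_lit 430) (nat_lit 310)) (XT.lf (nat_lit 304) (nat_lit 2943209378) (nat_lit 0) (nat_lit 536247132) (nat_lit 228) (nat_lit 536247132) (nat_lit 88) (nat_lit 1) (nat_lit 84) (nat_lit 1) (nat_lit 87) (nat_lit 1) (nat_lit 401) (nat_lit 430) (nat_lit 309)))) (XT.nd (nat_lit 52104) (nat_lit 0) (nat_lit 26600) (XT.lf (nat_lit 76) (nat_lit 906401599) (nat_lit 0) (nat_lit 2174257762) (nat_lit 304) (nat_lit 906401599) (nat_lit 85) (nat_lit 1) (nat_lit 84) (nat_lit 1) (nat_lit 88) (nat_lit 1) (nat_lit 402) (nat_lit 430) (nat_lit 308)) (XT.nd (nat_lit 78) (nat_lit 836) (nat_lit 0) (XT.lf (nat_lit 76) (nat_lit 430913066) (nat_lit 0) (nat_lit 7463092628) (nat_lit 988) (nat_lit 430913066) (nat_lit 446) (nat_lit 1) (nat_lit 445) (nat_lit 1) (nat_lit 458) (nat_lit 1) (nat_lit 309) (nat_lit 431) (nat_lit 400)) (XT.lf (nat_lit 912) (nat_lit 7240750) (nat_lit 0) (nat_lit 4121857157) (nat_lit 836) (nat_lit 4121857157) (nat_lit 446) (nat_lit 1) (nat_lit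 434) (nat_lit 1) (nat_lit 445) (nat_lit 1) (nat_lit 310) (nat_lit 431) (nat_lit 399))))) (XT.nd (nat_lit 234) (nat_lit 836) (nat_lit 0) (XT.nd (nat_lit 78) (nat_lit 836) (nat_lit 0) (XT.lf (nat_lit 988) (nat_lit 7353052953) (nat_lit 0) (nat_lit 412585648) (nat_lit 912) (nat_lit 412585648) (nat_lit 434) (nat_lit 1) (nat_lit 421) (nat_lit 1) (nat_lit 433) (nat_lit 1) (nat_lit 311) (nat_lit 431) (nat_lit 398)) (XT.nd (nat_lit 78) (nat_lit 836) (nat_lit 0) (XT.lf (nat_lit 76) (nat_lit 3208527228) (nat_lit 0) (nat_lit 1688909336) (nat_lit 988) (nat_lit 3208527228) (nat_lit 422) (nat_lit 1) (nat_lit 421) (nat_lit 1) (nat_lit 434) (nat_lit 1) (nat_lit 312) (nat_lit 431) (nat_lit 397)) (XT.lf (nat_lit 912) (nat_lit 5488297624) (nat_lit 0) (nat_lit 1273302356) (nat_lit 836) (nat_lit 1273302356) (nat_lit 422) (nat_lit 1) (nat_lit 410) (nat_lit 1) (nat_lit 421) (nat_lit 1) (nat_lit 313) (nat_lit 431) (nat_lit 396)))) (XT.nd (nat_lit 78) (nat_lit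 836) (nat_lit 0) (XT.lf (nat_lit 76) (nat_lit 2270702684) (nat_lit 0) (nat_lit 3423116201) (nat_lit 912) (nat_lit 2270702684) (nat_lit 411) (nat_lit 1) (nat_lit 410) (nat_lit 1) (nat_lit 422) (nat_lit 1) (nat_lit 314) (nat_lit 431) (nat_lit 395)) (XT.nd (nat_lit 78) (nat_lit 0) (nat_lit 0) (XT.lf (nat_lit 912) (nat_lit 3590559127) (nat_lit 0) (nat_lit 2152260056) (nat_lit 836) (nat_lit 2152260056) (nat_lit 411) (nat_lit 1) (nat_lit 399) (nat_lit 1) (nat_lit 410) (nat_lit 1) (nat_lit 315) (nat_lit 431) (nat_lit 394)) (XT.lf (nat_lit 76) (nat_lit 1317289196) (nat_lit 0) (nat_lit 5191953886) (nat_lit 912) (nat_lit 1317289196) (nat_lit 400) (nat_lit 1) (nat_lit 399) (nat_lit 1) (nat_lit 411) (nat_lit 1) (nat_lit 316) (nat_lit 431) (nat_lit 393)))))) (XT.nd (nat_lit 468) (nat_lit 2128) (nat_lit 0) (XT.nd (nat_lit 234) (nat_lit 1520) (nat_lit 0) (XT.nd (nat_lit 78) (nat_lit 836) (nat_lit 0) (XT.lf (nat_lit 836) (nat_lit 1663184786) (nat_lit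 0) (nat_lit 3047737416) (nat_lit 760) (nat_lit 3047737416) (nat_lit 400) (nat_lit 1) (nat_lit 389) (nat_lit 1) (nat_lit 399) (nat_lit 1) (nat_lit 317) (nat_lit 431) (nat_lit 392)) (XT.nd (nat_lit 78) (nat_lit 836) (nat_lit 0) (XT.lf (nat_lit 76) (nat_lit 349911822) (nat_lit 0) (nat_lit 6992078180) (nat_lit 836) (nat_lit 349911822) (nat_lit 390) (nat_lit 1) (nat_lit 389) (nat_lit 1) (nat_lit 400) (nat_lit 1) (nat_lit 318) (nat_lit 431) (nat_lit 391)) (XT.lf (nat_lit 76) (nat_lit 3669338313) (nat_lit 0) (nat_lit 286836668) (nat_lit 836) (nat_lit 3669338313) (nat_lit 379) (nat_lit 1) (nat_lit 378) (nat_lit 1) (nat_lit 389) (nat_lit 1) (nat_lit 319) (nat_lit 431) (nat_lit 390)))) (XT.nd (nat_lit 78) (nat_lit 760) (nat_lit 0) (XT.lf (nat_lit 836) (nat_lit 6308723760) (nat_lit 0) (nat_lit 625743478) (nat_lit 760) (nat_lit 625743478) (nat_lit 379) (nat_lit 1) (nat_lit 368) (nat_lit 1) (nat_lit 378) (nat_lit 1) (nat_lit 320) (nat_lit 431) (nat_lit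 389)) (XT.nd (nat_lit 78) (nat_lit 760) (nat_lit 0) (XT.lf (nat_lit 76) (nat_lit 2628593210) (nat_lit 0) (nat_lit 2238182951) (nat_lit 836) (nat_lit 2628593210) (nat_lit 369) (nat_lit 1) (nat_lit 368) (nat_lit 1) (nat_lit 379) (nat_lit 1) (nat_lit 321) (nat_lit 431) (nat_lit 388)) (XT.lf (nat_lit 836) (nat_lit 4211542572) (nat_lit 0) (nat_lit 1609984065) (nat_lit 760) (nat_lit 1609984065) (nat_lit 369) (nat_lit 1) (nat_lit 358) (nat_lit 1) (nat_lit 368) (nat_lit 1) (nat_lit 322) (nat_lit 431) (nat_lit 387))))) (XT.nd (nat_lit 234) (nat_lit 1444) (nat_lit 0) (XT.nd (nat_lit 78) (nat_lit 684) (nat_lit 0) (XT.lf (nat_lit 76) (nat_lit 1579255267) (nat_lit 0) (nat_lit 4209846749) (nat_lit 836) (nat_lit 1579255267) (nat_lit 359) (nat_lit 1) (nat_lit 358) (nat_lit 1) (nat_lit 369) (nat_lit 1) (nat_lit 323) (nat_lit 431) (nat_lit 386)) (XT.nd (nat_lit 78) (nat_lit 0) (nat_lit 0) (XT.lf (nat_lit 760) (nat_lit 2098429822) (nat_lit 0) (nat_lit 2603734638)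 (nat_lit 684) (nat_lit 2603734638) (nat_lit 359) (nat_lit 1) (nat_lit 349) (nat_lit 1) (nat_lit 358) (nat_lit 1) (nat_lit 324) (nat_lit 431) (nat_lit 385)) (XT.lf (nat_lit 76) (nat_lit 522619060) (nat_lit 0) (nat_lit 6199154976) (nat_lit 760) (nat_lit 522619060) (nat_lit 350) (nat_lit 1) (nat_lit 349) (nat_lit 1) (nat_lit 359) (nat_lit 1) (nat_lit 325) (nat_lit 431) (nat_lit 384)))) (XT.nd (nat_lit 78) (nat_lit 684) (nat_lit 0) (XT.lf (nat_lit 76) (nat_lit 3577785725) (nat_lit 0) (nat_lit 27718314) (nat_lit 760) (nat_lit 3577785725) (nat_lit 340) (nat_lit 1) (nat_lit 339) (nat_lit 1) (nat_lit 349) (nat_lit 1) (nat_lit 326) (nat_lit 431) (nat_lit 383)) (XT.nd (nat_lit 78) (nat_lit 0) (nat_lit 0) (XT.lf (nat_lit 760) (nat_lit 6050040496) (nat_lit 0) (nat_lit 536536719) (nat_lit 684) (nat_lit 536536719) (nat_lit 340) (nat_lit 1) (nat_lit 330) (nat_lit 1) (nat_lit 339) (nat_lit 1) (nat_lit 327) (nat_lit 431) (nat_lit 382)) (XT.lf (nat_lit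 76) (nat_lit 2463060063) (nat_lit 0) (nat_lit 2137212280) (nat_lit 760) (nat_lit 2463060063) (nat_lit 331) (nat_lit 1) (nat_lit 330) (nat_lit 1) (nat_lit 340) (nat_lit 1) (nat_lit 328) (nat_lit 431) (nat_lit 381))))))) (XT.nd (nat_lit 936) (nat_lit 3724) (nat_lit 0) (XT.nd (nat_lit 468) (nat_lit 1824) (nat_lit 0) (XT.nd (nat_lit 234) (nat_lit 1292) (nat_lit 0) (XT.nd (nat_lit 78) (nat_lit 608) (nat_lit 0) (XT.lf (nat_lit 760) (nat_lit 3810176803) (nat_lit 0) (nat_lit 1597135281) (nat_lit 684) (nat_lit 1597135281) (nat_lit 331) (nat_lit 1) (nat_lit 321) (nat_lit 1) (nat_lit 330) (nat_lit 1) (nat_lit 329) (nat_lit 431) (nat_lit 380)) (XT.nd (nat_lit 78) (nat_lit 608) (nat_lit 0) (XT.lf (nat_lit 76) (nat_lit 1345440881) (nat_lit 0) (nat_lit 4255340407) (nat_lit 760) (nat_lit 1345440881) (nat_lit 322) (nat_lit 1) (nat_lit 321) (nat_lit 1) (nat_lit 331) (nat_lit 1) (nat_lit 330) (nat_lit 431) (nat_lit 379)) (XT.lf (nat_lit 684) (nat_lit 1565538023)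 (nat_lit 0) (nat_lit 2661525843) (nat_lit 608) (nat_lit 2661525843) (nat_lit 322) (nat_lit 1) (nat_lit 313) (nat_lit 1) (nat_lit 321) (nat_lit 1) (nat_lit 331) (nat_lit 431) (nat_lit 378)))) (XT.nd (nat_lit 78) (nat_lit 1292) (nat_lit 0) (XT.lf (nat_lit 76) (nat_lit 225946023) (nat_lit 0) (nat_lit 6379991962) (nat_lit 684) (nat_lit 225946023) (nat_lit 314) (nat_lit 1) (nat_lit 313) (nat_lit 1) (nat_lit 322) (nat_lit 1) (nat_lit 332) (nat_lit 431) (nat_lit 377)) (XT.nd (nat_lit 78) (nat_lit 608) (nat_lit 0) (XT.lf (nat_lit 76) (nat_lit 3051215193) (nat_lit 0) (nat_lit 672948238) (nat_lit 684) (nat_lit 3051215193) (nat_lit 305) (nat_lit 1) (nat_lit 304) (nat_lit 1) (nat_lit 313) (nat_lit 1) (nat_lit 333) (nat_lit 431) (nat_lit 376)) (XT.lf (nat_lit 684) (nat_lit 4942620304) (nat_lit 0) (nat_lit 888579316) (nat_lit 608) (nat_lit 888579316) (nat_lit 305) (nat_lit 1) (nat_lit 296) (nat_lit 1) (nat_lit 304) (nat_lit 1) (nat_lit 334) (nat_lit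 431) (nat_lit 375))))) (XT.nd (nat_lit 234) (nat_lit 1216) (nat_lit 0) (XT.nd (nat_lit 78) (nat_lit 608) (nat_lit 0) (XT.lf (nat_lit 76) (nat_lit 1886409505) (nat_lit 0) (nat_lit 2891808611) (nat_lit 684) (nat_lit 1886409505) (nat_lit 297) (nat_lit 1) (nat_lit 296) (nat_lit 1) (nat_lit 305) (nat_lit 1) (nat_lit 335) (nat_lit 431) (nat_lit 374)) (XT.nd (nat_lit 78) (nat_lit 0) (nat_lit 0) (XT.lf (nat_lit 684) (nat_lit 2606929941) (nat_lit 0) (nat_lit 2001627362) (nat_lit 608) (nat_lit 2001627362) (nat_lit 297) (nat_lit 1) (nat_lit 288) (nat_lit 1) (nat_lit 296) (nat_lit 1) (nat_lit 336) (nat_lit 431) (nat_lit 373)) (XT.lf (nat_lit 76) (nat_lit 723318502) (nat_lit 0) (nat_lit 5109833696) (nat_lit 684) (nat_lit 723318502) (nat_lit 289) (nat_lit 1) (nat_lit 288) (nat_lit 1) (nat_lit 297) (nat_lit 1) (nat_lit 337) (nat_lit 431) (nat_lit 372)))) (XT.nd (nat_lit 78) (nat_lit 684) (nat_lit 0) (XT.lf (nat_lit 608) (nat_lit 275477583) (nat_lit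 0) (nat_lit 3113836602) (nat_lit 532) (nat_lit 3113836602) (nat_lit 289) (nat_lit 1) (nat_lit 281) (nat_lit 1) (nat_lit 288) (nat_lit 1) (nat_lit 338) (nat_lit 431) (nat_lit 371)) (XT.nd (nat_lit 78) (nat_lit 0) (nat_lit 0) (XT.lf (nat_lit 684) (nat_lit 5581823989) (nat_lit 0) (nat_lit 434394357) (nat_lit 608) (nat_lit 434394357) (nat_lit 281) (nat_lit 1) (nat_lit 272) (nat_lit 1) (nat_lit 280) (nat_lit 1) (nat_lit 339) (nat_lit 431) (nat_lit 370)) (XT.lf (nat_lit 76) (nat_lit 2187513832) (nat_lit 0) (nat_lit 2023317226) (nat_lit 684) (nat_lit 2187513832) (nat_lit 273) (nat_lit 1) (nat_lit 272) (nat_lit 1) (nat_lit 281) (nat_lit 1) (nat_lit 340) (nat_lit 431) (nat_lit 369)))))) (XT.nd (nat_lit 468) (nat_lit 1520) (nat_lit 0) (XT.nd (nat_lit 234) (nat_lit 1140) (nat_lit 0) (XT.nd (nat_lit 78) (nat_lit 532) (nat_lit 0) (XT.lf (nat_lit 608) (nat_lit 3178582715) (nat_lit 0) (nat_lit 1584129108) (nat_lit 532) (nat_lit 1584129108) (nat_lit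 273) (nat_lit 1) (nat_lit 265) (nat_lit 1) (nat_lit 272) (nat_lit 1) (nat_lit 341) (nat_lit 431) (nat_lit 368)) (XT.nd (nat_lit 78) (nat_lit 532) (nat_lit 0) (XT.lf (nat_lit 76) (nat_lit 992273626) (nat_lit 0) (nat_lit 4311386850) (nat_lit 608) (nat_lit 992273626) (nat_lit 266) (nat_lit 1) (nat_lit 265) (nat_lit 1) (nat_lit 273) (nat_lit 1) (nat_lit 342) (nat_lit 431) (nat_lit 367)) (XT.lf (nat_lit 608) (nat_lit 785559865) (nat_lit 0) (nat_lit 2729954709) (nat_lit 532) (nat_lit 2729954709) (nat_lit 266) (nat_lit 1) (nat_lit 258) (nat_lit 1) (nat_lit 265) (nat_lit 1) (nat_lit 343) (nat_lit 431) (nat_lit 366)))) (XT.nd (nat_lit 78) (nat_lit 532) (nat_lit 0) (XT.lf (nat_lit 608) (nat_lit 5803268131) (nat_lit 0) (nat_lit 196260436) (nat_lit 532) (nat_lit 196260436) (nat_lit 258) (nat_lit 1) (nat_lit 250) (nat_lit 1) (nat_lit 257) (nat_lit 1) (nat_lit 344) (nat_lit 431) (nat_lit 365)) (XT.nd (nat_lit 78) (nat_lit 532) (nat_lit 0) (XT.lf (nat_lit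 76) (nat_lit 2285574677) (nat_lit 0) (nat_lit 1575079912) (nat_lit 608) (nat_lit 2285574677) (nat_lit 251) (nat_lit 1) (nat_lit 250) (nat_lit 1) (nat_lit 258) (nat_lit 1) (nat_lit 345) (nat_lit 431) (nat_lit 364)) (XT.lf (nat_lit 608) (nat_lit 3352827403) (nat_lit 0) (nat_lit 1372305351) (nat_lit 532) (nat_lit 1372305351) (nat_lit 251) (nat_lit 1) (nat_lit 243) (nat_lit 1) (nat_lit 250) (nat_lit 1) (nat_lit 346) (nat_lit 431) (nat_lit 363))))) (XT.nd (nat_lit 234) (nat_lit 456) (nat_lit 0) (XT.nd (nat_lit 78) (nat_lit 1064) (nat_lit 0) (XT.lf (nat_lit 76) (nat_lit 1068094980) (nat_lit 0) (nat_lit 3912978296) (nat_lit 608) (nat_lit 1068094980) (nat_lit 244) (nat_lit 1) (nat_lit 243) (nat_lit 1) (nat_lit 251) (nat_lit 1) (nat_lit 347) (nat_lit 431) (nat_lit 362)) (XT.nd (nat_lit 78) (nat_lit 608) (nat_lit 0) (XT.lf (nat_lit 532) (nat_lit 917664878) (nat_lit 0) (nat_lit 2541837615) (nat_lit 456) (nat_lit 2541837615) (nat_lit 244) (nat_lit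 1) (nat_lit 237) (nat_lit 1) (nat_lit 243) (nat_lit 1) (nat_lit 348) (nat_lit 431) (nat_lit 361)) (XT.lf (nat_lit 608) (nat_lit 5673074177) (nat_lit 0) (nat_lit 140591335) (nat_lit 532) (nat_lit 140591335) (nat_lit 237) (nat_lit 1) (nat_lit 229) (nat_lit 1) (nat_lit 236) (nat_lit 1) (nat_lit 349) (nat_lit 431) (nat_lit 360)))) (XT.nd (nat_lit 78) (nat_lit 456) (nat_lit 0) (XT.lf (nat_lit 76) (nat_lit 2212842941) (nat_lit 0) (nat_lit 1481557412) (nat_lit 608) (nat_lit 2212842941) (nat_lit 230) (nat_lit 1) (nat_lit 229) (nat_lit 1) (nat_lit 237) (nat_lit 1) (nat_lit 350) (nat_lit 431) (nat_lit 359)) (XT.nd (nat_lit 78) (nat_lit 0) (nat_lit 0) (XT.lf (nat_lit 532) (nat_lit 3193009096) (nat_lit 0) (nat_lit 1333975681) (nat_lit 456) (nat_lit 1333975681) (nat_lit 230) (nat_lit 1) (nat_lit 223) (nat_lit 1) (nat_lit 229) (nat_lit 1) (nat_lit 351) (nat_lit 431) (nat_lit 358)) (XT.lf (nat_lit 76) (nat_lit 981678342) (nat_lit 0) (nat_lit 3851813820)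 (nat_lit 532) (nat_lit 981678342) (nat_lit 224) (nat_lit 1) (nat_lit 223) (nat_lit 1) (nat_lit 230) (nat_lit 1) (nat_lit 352) (nat_lit 431) (nat_lit 357))))))))
noncomputable def ec115 : XT := (XT.nd (nat_lit 1872) (nat_lit 4408) (nat_lit 0) (XT.nd (nat_lit 936) (nat_lit 2584) (nat_lit 0) (XT.nd (nat_lit 468) (nat_lit 1748) (nat_lit 0) (XT.nd (nat_lit 234) (nat_lit 836) (nat_lit 0) (XT.nd (nat_lit 78) (nat_lit 532) (nat_lit 0) (XT.lf (nat_lit 532) (nat_lit 732474226) (nat_lit 0) (nat_lit 2518653644) (nat_lit 456) (nat_lit 2518653644) (nat_lit 224) (nat_lit 1) (nat_lit 217) (nat_lit 1) (nat_lit 223) (nat_lit 1) (nat_lit 353) (nat_lit 431) (nat_lit 356)) (XT.nd (nat_lit 78) (nat_lit 0) (nat_lit 0) (XT.lf (nat_lit 532) (nat_lit 5249090570) (nat_lit 0) (nat_lit 237985986) (nat_lit 456) (nat_lit 237985986) (nat_lit 217) (nat_lit 1) (nat_lit 210) (nat_lit 1) (nat_lit 216) (nat_lit 1) (nat_lit 354) (nat_lit 431) (nat_lit 355)) (XT.lf (nat_lit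 76) (nat_lit 1997529996) (nat_lit 0) (nat_lit 1685385558) (nat_lit 532) (nat_lit 1997529996) (nat_lit 211) (nat_lit 1) (nat_lit 210) (nat_lit 1) (nat_lit 217) (nat_lit 1) (nat_lit 355) (nat_lit 431) (nat_lit 354)))) (XT.nd (nat_lit 78) (nat_lit 380) (nat_lit 0) (XT.lf (nat_lit 532) (nat_lit 2754530187) (nat_lit 0) (nat_lit 1440977900) (nat_lit 456) (nat_lit 1440977900) (nat_lit 211) (nat_lit 1) (nat_lit 204) (nat_lit 1) (nat_lit 210) (nat_lit 1) (nat_lit 356) (nat_lit 431) (nat_lit 353)) (XT.nd (nat_lit 78) (nat_lit 380) (nat_lit 0) (XT.lf (nat_lit 76) (nat_lit 760041286) (nat_lit 0) (nat_lit 4072948120) (nat_lit 532) (nat_lit 760041286) (nat_lit 205) (nat_lit 1) (nat_lit 204) (nat_lit 1) (nat_lit 211) (nat_lit 1) (nat_lit 357) (nat_lit 431) (nat_lit 352)) (XT.lf (nat_lit 456) (nat_lit 283044104) (nat_lit 0) (nat_lit 2633428977) (nat_lit 380) (nat_lit 2633428977) (nat_lit 205) (nat_lit 1) (nat_lit 199) (nat_lit 1) (nat_lit 204) (nat_lit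 1) (nat_lit 358) (nat_lit 431) (nat_lit 351))))) (XT.nd (nat_lit 234) (nat_lit 836) (nat_lit 0) (XT.nd (nat_lit 78) (nat_lit 380) (nat_lit 0) (XT.lf (nat_lit 532) (nat_lit 4581855431) (nat_lit 0) (nat_lit 462742069) (nat_lit 456) (nat_lit 462742069) (nat_lit 199) (nat_lit 1) (nat_lit 192) (nat_lit 1) (nat_lit 198) (nat_lit 1) (nat_lit 359) (nat_lit 431) (nat_lit 350)) (XT.nd (nat_lit 78) (nat_lit 380) (nat_lit 0) (XT.lf (nat_lit 76) (nat_lit 1664277914) (nat_lit 0) (nat_lit 2136424808) (nat_lit 532) (nat_lit 1664277914) (nat_lit 193) (nat_lit 1) (nat_lit 192) (nat_lit 1) (nat_lit 199) (nat_lit 1) (nat_lit 360) (nat_lit 431) (nat_lit 349)) (XT.lf (nat_lit 456) (nat_lit 2085775303) (nat_lit 0) (nat_lit 1668700686) (nat_lit 380) (nat_lit 1668700686) (nat_lit 193) (nat_lit 1) (nat_lit 187) (nat_lit 1) (nat_lit 192) (nat_lit 1) (nat_lit 361) (nat_lit 431) (nat_lit 348)))) (XT.nd (nat_lit 78) (nat_lit 836) (nat_lit 0) (XT.lf (nat_lit 76) (nat_lit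 426774971) (nat_lit 0) (nat_lit 4528371613) (nat_lit 456) (nat_lit 426774971) (nat_lit 188) (nat_lit 1) (nat_lit 187) (nat_lit 1) (nat_lit 193) (nat_lit 1) (nat_lit 362) (nat_lit 431) (nat_lit 347)) (XT.nd (nat_lit 78) (nat_lit 380) (nat_lit 0) (XT.lf (nat_lit 76) (nat_lit 2480787743) (nat_lit 0) (nat_lit 379265813) (nat_lit 456) (nat_lit 2480787743) (nat_lit 182) (nat_lit 1) (nat_lit 181) (nat_lit 1) (nat_lit 187) (nat_lit 1) (nat_lit 363) (nat_lit 431) (nat_lit 346)) (XT.lf (nat_lit 456) (nat_lit 3715449957) (nat_lit 0) (nat_lit 792424801) (nat_lit 380) (nat_lit 792424801) (nat_lit 182) (nat_lit 1) (nat_lit 176) (nat_lit 1) (nat_lit 181) (nat_lit 1) (nat_lit 364) (nat_lit 431) (nat_lit 345)))))) (XT.nd (nat_lit 468) (nat_lit 1444) (nat_lit 0) (XT.nd (nat_lit 234) (nat_lit 760) (nat_lit 0) (XT.nd (nat_lit 78) (nat_lit 380) (nat_lit 0) (XT.lf (nat_lit 76) (nat_lit 1234576316) (nat_lit 0) (nat_lit 2790917660) (nat_lit 456) (nat_lit 1234576316)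 (nat_lit 177) (nat_lit 1) (nat_lit 176) (nat_lit 1) (nat_lit 182) (nat_lit 1) (nat_lit 365) (nat_lit 431) (nat_lit 344)) (XT.nd (nat_lit 78) (nat_lit 0) (nat_lit 0) (XT.lf (nat_lit 456) (nat_lit 1228931209) (nat_lit 0) (nat_lit 1995669299) (nat_lit 380) (nat_lit 1995669299) (nat_lit 177) (nat_lit 1) (nat_lit 171) (nat_lit 1) (nat_lit 176) (nat_lit 1) (nat_lit 366) (nat_lit 431) (nat_lit 343)) (XT.lf (nat_lit 76) (nat_lit 2444618) (nat_lit 0) (nat_lit 5176200908) (nat_lit 456) (nat_lit 2444618) (nat_lit 172) (nat_lit 1) (nat_lit 171) (nat_lit 1) (nat_lit 177) (nat_lit 1) (nat_lit 367) (nat_lit 431) (nat_lit 342)))) (XT.nd (nat_lit 78) (nat_lit 380) (nat_lit 0) (XT.lf (nat_lit 76) (nat_lit 1964383380) (nat_lit 0) (nat_lit 1213084610) (nat_lit 380) (nat_lit 1964383380) (nat_lit 167) (nat_lit 1) (nat_lit 166) (nat_lit 1) (nat_lit 171) (nat_lit 1) (nat_lit 368) (nat_lit 431) (nat_lit 341)) (XT.nd (nat_lit 78) (nat_lit 0) (nat_lit 0) (XT.lf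 (nat_lit 456) (nat_lit 2688254832) (nat_lit 0) (nat_lit 1207484707) (nat_lit 380) (nat_lit 1207484707) (nat_lit 167) (nat_lit 1) (nat_lit 161) (nat_lit 1) (nat_lit 166) (nat_lit 1) (nat_lit 369) (nat_lit 431) (nat_lit 340)) (XT.lf (nat_lit 76) (nat_lit 727131827) (nat_lit 0) (nat_lit 3610741784) (nat_lit 456) (nat_lit 727131827) (nat_lit 162) (nat_lit 1) (nat_lit 161) (nat_lit 1) (nat_lit 167) (nat_lit 1) (nat_lit 370) (nat_lit 431) (nat_lit 339))))) (XT.nd (nat_lit 234) (nat_lit 684) (nat_lit 0) (XT.nd (nat_lit 78) (nat_lit 456) (nat_lit 0) (XT.lf (nat_lit 380) (nat_lit 220713503) (nat_lit 0) (nat_lit 2403178367) (nat_lit 304) (nat_lit 2403178367) (nat_lit 162) (nat_lit 1) (nat_lit 157) (nat_lit 1) (nat_lit 161) (nat_lit 1) (nat_lit 371) (nat_lit 431) (nat_lit 338)) (XT.nd (nat_lit 78) (nat_lit 0) (nat_lit 0) (XT.lf (nat_lit 456) (nat_lit 4005995024) (nat_lit 0) (nat_lit 491798590) (nat_lit 380) (nat_lit 491798590) (nat_lit 157) (nat_lit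 1) (nat_lit 151) (nat_lit 1) (nat_lit 156) (nat_lit 1) (nat_lit 372) (nat_lit 431) (nat_lit 337)) (XT.lf (nat_lit 76) (nat_lit 1382417587) (nat_lit 0) (nat_lit 2187465567) (nat_lit 456) (nat_lit 1382417587) (nat_lit 152) (nat_lit 1) (nat_lit 151) (nat_lit 1) (nat_lit 157) (nat_lit 1) (nat_lit 373) (nat_lit 431) (nat_lit 336)))) (XT.nd (nat_lit 78) (nat_lit 380) (nat_lit 0) (XT.lf (nat_lit 380) (nat_lit 1533620573) (nat_lit 0) (nat_lit 1690918866) (nat_lit 304) (nat_lit 1690918866) (nat_lit 152) (nat_lit 1) (nat_lit 147) (nat_lit 1) (nat_lit 151) (nat_lit 1) (nat_lit 374) (nat_lit 431) (nat_lit 335)) (XT.nd (nat_lit 78) (nat_lit 380) (nat_lit 0) (XT.lf (nat_lit 76) (nat_lit 158195503) (nat_lit 0) (nat_lit 4562748117) (nat_lit 380) (nat_lit 158195503) (nat_lit 148) (nat_lit 1) (nat_lit 147) (nat_lit 1) (nat_lit 152) (nat_lit 1) (nat_lit 375) (nat_lit 431) (nat_lit 334)) (XT.lf (nat_lit 76) (nat_lit 1973865826) (nat_lit 0) (nat_lit 895094064)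 (nat_lit 380) (nat_lit 1973865826) (nat_lit 143) (nat_lit 1) (nat_lit 142) (nat_lit 1) (nat_lit 147) (nat_lit 1) (nat_lit 376) (nat_lit 431) (nat_lit 333))))))) (XT.nd (nat_lit 936) (nat_lit 1900) (nat_lit 0) (XT.nd (nat_lit 468) (nat_lit 1216) (nat_lit 0) (XT.nd (nat_lit 234) (nat_lit 684) (nat_lit 0) (XT.nd (nat_lit 78) (nat_lit 304) (nat_lit 0) (XT.lf (nat_lit 380) (nat_lit 2720470913) (nat_lit 0) (nat_lit 1043278565) (nat_lit 304) (nat_lit 1043278565) (nat_lit 143) (nat_lit 1) (nat_lit 138) (nat_lit 1) (nat_lit 142) (nat_lit 1) (nat_lit 377) (nat_lit 431) (nat_lit 332)) (XT.nd (nat_lit 78) (nat_lit 304) (nat_lit 0) (XT.lf (nat_lit 76) (nat_lit 749628873) (nat_lit 0) (nat_lit 3272321278) (nat_lit 380) (nat_lit 749628873) (nat_lit 139) (nat_lit 1) (nat_lit 138) (nat_lit 1) (nat_lit 143) (nat_lit 1) (nat_lit 378) (nat_lit 431) (nat_lit 331)) (XT.lf (nat_lit 380) (nat_lit 280461505) (nat_lit 0) (nat_lit 2227970725) (nat_lit 304) (nat_lit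 2227970725) (nat_lit 139) (nat_lit 1) (nat_lit 134) (nat_lit 1) (nat_lit 138) (nat_lit 1) (nat_lit 379) (nat_lit 431) (nat_lit 330)))) (XT.nd (nat_lit 78) (nat_lit 304) (nat_lit 0) (XT.lf (nat_lit 380) (nat_lit 3791375552) (nat_lit 0) (nat_lit 455132939) (nat_lit 304) (nat_lit 455132939) (nat_lit 134) (nat_lit 1) (nat_lit 129) (nat_lit 1) (nat_lit 133) (nat_lit 1) (nat_lit 380) (nat_lit 431) (nat_lit 329)) (XT.nd (nat_lit 78) (nat_lit 304) (nat_lit 0) (XT.lf (nat_lit 76) (nat_lit 1284188932) (nat_lit 0) (nat_lit 2098655614) (nat_lit 380) (nat_lit 1284188932) (nat_lit 130) (nat_lit 1) (nat_lit 129) (nat_lit 1) (nat_lit 134) (nat_lit 1) (nat_lit 381) (nat_lit 431) (nat_lit 328)) (XT.lf (nat_lit 380) (nat_lit 1355553577) (nat_lit 0) (nat_lit 1638639904) (nat_lit 304) (nat_lit 1638639904) (nat_lit 130) (nat_lit 1) (nat_lit 125) (nat_lit 1) (nat_lit 129) (nat_lit 1) (nat_lit 382) (nat_lit 431) (nat_lit 327))))) (XT.nd (nat_lit 234) (nat_lit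 608) (nat_lit 0) (XT.nd (nat_lit 78) (nat_lit 608) (nat_lit 0) (XT.lf (nat_lit 76) (nat_lit 78766491) (nat_lit 0) (nat_lit 4441594879) (nat_lit 380) (nat_lit 78766491) (nat_lit 126) (nat_lit 1) (nat_lit 125) (nat_lit 1) (nat_lit 130) (nat_lit 1) (nat_lit 383) (nat_lit 431) (nat_lit 326)) (XT.nd (nat_lit 78) (nat_lit 304) (nat_lit 0) (XT.lf (nat_lit 76) (nat_lit 1766438861) (nat_lit 0) (nat_lit 1032496692) (nat_lit 304) (nat_lit 1766438861) (nat_lit 122) (nat_lit 1) (nat_lit 121) (nat_lit 1) (nat_lit 125) (nat_lit 1) (nat_lit 384) (nat_lit 431) (nat_lit 325)) (XT.lf (nat_lit 380) (nat_lit 2327273440) (nat_lit 0) (nat_lit 1102417961) (nat_lit 304) (nat_lit 1102417961) (nat_lit 122) (nat_lit 1) (nat_lit 117) (nat_lit 1) (nat_lit 121) (nat_lit 1) (nat_lit 385) (nat_lit 431) (nat_lit 324)))) (XT.nd (nat_lit 78) (nat_lit 608) (nat_lit 0) (XT.lf (nat_lit 76) (nat_lit 564948025) (nat_lit 0) (nat_lit 3369298314) (nat_lit 380) (nat_lit 564948025)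 (nat_lit 118) (nat_lit 1) (nat_lit 117) (nat_lit 1) (nat_lit 122) (nat_lit 1) (nat_lit 386) (nat_lit 431) (nat_lit 323)) (XT.nd (nat_lit 78) (nat_lit 304) (nat_lit 0) (XT.lf (nat_lit 76) (nat_lit 2200589786) (nat_lit 0) (nat_lit 65301957) (nat_lit 304) (nat_lit 2200589786) (nat_lit 114) (nat_lit 1) (nat_lit 113) (nat_lit 1) (nat_lit 117) (nat_lit 1) (nat_lit 387) (nat_lit 431) (nat_lit 322)) (XT.lf (nat_lit 380) (nat_lit 3203914912) (nat_lit 0) (nat_lit 615099067) (nat_lit 304) (nat_lit 615099067) (nat_lit 114) (nat_lit 1) (nat_lit 109) (nat_lit 1) (nat_lit 113) (nat_lit 1) (nat_lit 388) (nat_lit 431) (nat_lit 321)))))) (XT.nd (nat_lit 468) (nat_lit 1064) (nat_lit 0) (XT.nd (nat_lit 234) (nat_lit 228) (nat_lit 0) (XT.nd (nat_lit 78) (nat_lit 608) (nat_lit 0) (XT.lf (nat_lit 76) (nat_lit 1004454024) (nat_lit 0) (nat_lit 2393055150) (nat_lit 380) (nat_lit 1004454024) (nat_lit 110) (nat_lit 1) (nat_lit 109) (nat_lit 1) (nat_lit 114) (nat_lit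 1) (nat_lit 389) (nat_lit 431) (nat_lit 320)) (XT.nd (nat_lit 78) (nat_lit 380) (nat_lit 0) (XT.lf (nat_lit 304) (nat_lit 821588910) (nat_lit 0) (nat_lit 1774273065) (nat_lit 228) (nat_lit 1774273065) (nat_lit 110) (nat_lit 1) (nat_lit 106) (nat_lit 1) (nat_lit 109) (nat_lit 1) (nat_lit 390) (nat_lit 431) (nat_lit 319)) (XT.lf (nat_lit 380) (nat_lit 3993131930) (nat_lit 0) (nat_lit 172800847) (nat_lit 304) (nat_lit 172800847) (nat_lit 106) (nat_lit 1) (nat_lit 101) (nat_lit 1) (nat_lit 105) (nat_lit 1) (nat_lit 391) (nat_lit 431) (nat_lit 318)))) (XT.nd (nat_lit 78) (nat_lit 228) (nat_lit 0) (XT.lf (nat_lit 76) (nat_lit 1401028271) (nat_lit 0) (nat_lit 1505268264) (nat_lit 380) (nat_lit 1401028271) (nat_lit 102) (nat_lit 1) (nat_lit 101) (nat_lit 1) (nat_lit 106) (nat_lit 1) (nat_lit 392) (nat_lit 431) (nat_lit 317)) (XT.nd (nat_lit 78) (nat_lit 0) (nat_lit 0) (XT.lf (nat_lit 304) (nat_lit 1624432494) (nat_lit 0) (nat_lit 1325952588)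 (nat_lit 228) (nat_lit 1325952588) (nat_lit 102) (nat_lit 1) (nat_lit 98) (nat_lit 1) (nat_lit 101) (nat_lit 1) (nat_lit 393) (nat_lit 431) (nat_lit 316)) (XT.lf (nat_lit 76) (nat_lit 229570641) (nat_lit 0) (nat_lit 3786605905) (nat_lit 304) (nat_lit 229570641) (nat_lit 99) (nat_lit 1) (nat_lit 98) (nat_lit 1) (nat_lit 102) (nat_lit 1) (nat_lit 394) (nat_lit 431) (nat_lit 315))))) (XT.nd (nat_lit 234) (nat_lit 532) (nat_lit 0) (XT.nd (nat_lit 78) (nat_lit 228) (nat_lit 0) (XT.lf (nat_lit 76) (nat_lit 1758125732) (nat_lit 0) (nat_lit 698924622) (nat_lit 304) (nat_lit 1758125732) (nat_lit 95) (nat_lit 1) (nat_lit 94) (nat_lit 1) (nat_lit 98) (nat_lit 1) (nat_lit 395) (nat_lit 431) (nat_lit 314)) (XT.nd (nat_lit 78) (nat_lit 0) (nat_lit 0) (XT.lf (nat_lit 304) (nat_lit 2349167018) (nat_lit 0) (nat_lit 917914971) (nat_lit 228) (nat_lit 917914971) (nat_lit 95) (nat_lit 1) (nat_lit 91) (nat_lit 1) (nat_lit 94) (nat_lit 1) (nat_lit 396) (nat_lit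 431) (nat_lit 313)) (XT.lf (nat_lit 76) (nat_lit 594704591) (nat_lit 0) (nat_lit 2965695353) (nat_lit 304) (nat_lit 594704591) (nat_lit 92) (nat_lit 1) (nat_lit 91) (nat_lit 1) (nat_lit 95) (nat_lit 1) (nat_lit 397) (nat_lit 431) (nat_lit 312)))) (XT.nd (nat_lit 156) (nat_lit 0) (nat_lit 0) (XT.nd (nat_lit 78) (nat_lit 304) (nat_lit 0) (XT.lf (nat_lit 304) (nat_lit 32880544) (nat_lit 0) (nat_lit 2046267560) (nat_lit 228) (nat_lit 2046267560) (nat_lit 92) (nat_lit 1) (nat_lit 88) (nat_lit 1) (nat_lit 91) (nat_lit 1) (nat_lit 398) (nat_lit 431) (nat_lit 311)) (XT.lf (nat_lit 304) (nat_lit 3002073565) (nat_lit 0) (nat_lit 546972075) (nat_lit 228) (nat_lit 546972075) (nat_lit 88) (nat_lit 1) (nat_lit 84) (nat_lit 1) (nat_lit 87) (nat_lit 1) (nat_lit 399) (nat_lit 431) (nat_lit 310))) (XT.nd (nat_lit 52416) (nat_lit 0) (nat_lit 24776) (XT.lf (nat_lit 76) (nat_lit 924529631) (nat_lit 0) (nat_lit 2217742917) (nat_lit 304) (nat_lit 924529631)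 (nat_lit 85) (nat_lit 1) (nat_lit 84) (nat_lit 1) (nat_lit 88) (nat_lit 1) (nat_lit 400) (nat_lit 431) (nat_lit 309)) (XT.lf (nat_lit 912) (nat_lit 5598063577) (nat_lit 0) (nat_lit 1298768403) (nat_lit 836) (nat_lit 1298768403) (nat_lit 422) (nat_lit 1) (nat_lit 410) (nat_lit 1) (nat_lit 421) (nat_lit 1) (nat_lit 311) (nat_lit 432) (nat_lit 397))))))))
noncomputable def ec116 : XT := (XT.nd (nat_lit 1872) (nat_lit 7676) (nat_lit 0) (XT.nd (nat_lit 936) (nat_lit 4636) (nat_lit 0) (XT.nd (nat_lit 468) (nat_lit 2204) (nat_lit 0) (XT.nd (nat_lit 234) (nat_lit 1596) (nat_lit 0) (XT.nd (nat_lit 78) (nat_lit 836) (nat_lit 0) (XT.lf (nat_lit 76) (nat_lit 2316116738) (nat_lit 0) (nat_lit 3491578525) (nat_lit 912) (nat_lit 2316116738) (nat_lit 411) (nat_lit 1) (nat_lit 410) (nat_lit 1) (nat_lit 422) (nat_lit 1) (nat_lit 312) (nat_lit 432) (nat_lit 396)) (XT.nd (nat_lit 78) (nat_lit 0) (nat_lit 0) (XT.lf (nat_lit 912) (nat_lit 3662370310) (nat_lit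 0) (nat_lit 2195305257) (nat_lit 836) (nat_lit 2195305257) (nat_lit 411) (nat_lit 1) (nat_lit 399) (nat_lit 1) (nat_lit 410) (nat_lit 1) (nat_lit 313) (nat_lit 432) (nat_lit 395)) (XT.lf (nat_lit 76) (nat_lit 1343634980) (nat_lit 0) (nat_lit 5295792964) (nat_lit 912) (nat_lit 1343634980) (nat_lit 400) (nat_lit 1) (nat_lit 399) (nat_lit 1) (nat_lit 411) (nat_lit 1) (nat_lit 314) (nat_lit 432) (nat_lit 394)))) (XT.nd (nat_lit 78) (nat_lit 836) (nat_lit 0) (XT.lf (nat_lit 836) (nat_lit 1696448482) (nat_lit 0) (nat_lit 3108692164) (nat_lit 760) (nat_lit 3108692164) (nat_lit 400) (nat_lit 1) (nat_lit 389) (nat_lit 1) (nat_lit 399) (nat_lit 1) (nat_lit 315) (nat_lit 432) (nat_lit 393)) (XT.nd (nat_lit 78) (nat_lit 836) (nat_lit 0) (XT.lf (nat_lit 76) (nat_lit 356910058) (nat_lit 0) (nat_lit 7131919743) (nat_lit 836) (nat_lit 356910058) (nat_lit 390) (nat_lit 1) (nat_lit 389) (nat_lit 1) (nat_lit 400) (nat_lit 1) (nat_lit 316) (nat_lit 432)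 (nat_lit 392)) (XT.lf (nat_lit 76) (nat_lit 3742725079) (nat_lit 0) (nat_lit 292573401) (nat_lit 836) (nat_lit 3742725079) (nat_lit 379) (nat_lit 1) (nat_lit 378) (nat_lit 1) (nat_lit 389) (nat_lit 1) (nat_lit 317) (nat_lit 432) (nat_lit 391))))) (XT.nd (nat_lit 234) (nat_lit 684) (nat_lit 0) (XT.nd (nat_lit 78) (nat_lit 760) (nat_lit 0) (XT.lf (nat_lit 836) (nat_lit 6434898236) (nat_lit 0) (nat_lit 638258347) (nat_lit 760) (nat_lit 638258347) (nat_lit 379) (nat_lit 1) (nat_lit 368) (nat_lit 1) (nat_lit 378) (nat_lit 1) (nat_lit 318) (nat_lit 432) (nat_lit 390)) (XT.nd (nat_lit 78) (nat_lit 760) (nat_lit 0) (XT.lf (nat_lit 76) (nat_lit 2681165074) (nat_lit 0) (nat_lit 2282946610) (nat_lit 836) (nat_lit 2681165074) (nat_lit 369) (nat_lit 1) (nat_lit 368) (nat_lit 1) (nat_lit 379) (nat_lit 1) (nat_lit 319) (nat_lit 432) (nat_lit 389)) (XT.lf (nat_lit 836) (nat_lit 4295773424) (nat_lit 0) (nat_lit 1642183747) (nat_lit 760) (nat_lit 1642183747)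 (nat_lit 369) (nat_lit 1) (nat_lit 358) (nat_lit 1) (nat_lit 368) (nat_lit 1) (nat_lit 320) (nat_lit 432) (nat_lit 388)))) (XT.nd (nat_lit 78) (nat_lit 684) (nat_lit 0) (XT.lf (nat_lit 76) (nat_lit 1610840372) (nat_lit 0) (nat_lit 4294043684) (nat_lit 836) (nat_lit 1610840372) (nat_lit 359) (nat_lit 1) (nat_lit 358) (nat_lit 1) (nat_lit 369) (nat_lit 1) (nat_lit 321) (nat_lit 432) (nat_lit 387)) (XT.nd (nat_lit 78) (nat_lit 0) (nat_lit 0) (XT.lf (nat_lit 760) (nat_lit 2140398419) (nat_lit 0) (nat_lit 2655809331) (nat_lit 684) (nat_lit 2655809331) (nat_lit 359) (nat_lit 1) (nat_lit 349) (nat_lit 1) (nat_lit 358) (nat_lit 1) (nat_lit 322) (nat_lit 432) (nat_lit 386)) (XT.lf (nat_lit 76) (nat_lit 533071441) (nat_lit 0) (nat_lit 6323138076) (nat_lit 760) (nat_lit 533071441) (nat_lit 350) (nat_lit 1) (nat_lit 349) (nat_lit 1) (nat_lit 359) (nat_lit 1) (nat_lit 323) (nat_lit 432) (nat_lit 385)))))) (XT.nd (nat_lit 468) (nat_lit 1900) (nat_lit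 0) (XT.nd (nat_lit 234) (nat_lit 1292) (nat_lit 0) (XT.nd (nat_lit 78) (nat_lit 684) (nat_lit 0) (XT.lf (nat_lit 76) (nat_lit 3649341439) (nat_lit 0) (nat_lit 28272680) (nat_lit 760) (nat_lit 3649341439) (nat_lit 340) (nat_lit 1) (nat_lit 339) (nat_lit 1) (nat_lit 349) (nat_lit 1) (nat_lit 324) (nat_lit 432) (nat_lit 384)) (XT.nd (nat_lit 78) (nat_lit 0) (nat_lit 0) (XT.lf (nat_lit 760) (nat_lit 6171041306) (nat_lit 0) (nat_lit 547267453) (nat_lit 684) (nat_lit 547267453) (nat_lit 340) (nat_lit 1) (nat_lit 330) (nat_lit 1) (nat_lit 339) (nat_lit 1) (nat_lit 325) (nat_lit 432) (nat_lit 383)) (XT.lf (nat_lit 76) (nat_lit 2512321264) (nat_lit 0) (nat_lit 2179956525) (nat_lit 760) (nat_lit 2512321264) (nat_lit 331) (nat_lit 1) (nat_lit 330) (nat_lit 1) (nat_lit 340) (nat_lit 1) (nat_lit 326) (nat_lit 432) (nat_lit 382)))) (XT.nd (nat_lit 78) (nat_lit 608) (nat_lit 0) (XT.lf (nat_lit 760) (nat_lit 3886380339) (nat_lit 0) (nat_lit 1629077986)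 (nat_lit 684) (nat_lit 1629077986) (nat_lit 331) (nat_lit 1) (nat_lit 321) (nat_lit 1) (nat_lit 330) (nat_lit 1) (nat_lit 327) (nat_lit 432) (nat_lit 381)) (XT.nd (nat_lit 78) (nat_lit 608) (nat_lit 0) (XT.lf (nat_lit 76) (nat_lit 1372349699) (nat_lit 0) (nat_lit 4340447215) (nat_lit 760) (nat_lit 1372349699) (nat_lit 322) (nat_lit 1) (nat_lit 321) (nat_lit 1) (nat_lit 331) (nat_lit 1) (nat_lit 328) (nat_lit 432) (nat_lit 380)) (XT.lf (nat_lit 684) (nat_lit 1596848784) (nat_lit 0) (nat_lit 2714756360) (nat_lit 608) (nat_lit 2714756360) (nat_lit 322) (nat_lit 1) (nat_lit 313) (nat_lit 1) (nat_lit 321) (nat_lit 1) (nat_lit 329) (nat_lit 432) (nat_lit 379))))) (XT.nd (nat_lit 234) (nat_lit 608) (nat_lit 0) (XT.nd (nat_lit 78) (nat_lit 1292) (nat_lit 0) (XT.lf (nat_lit 76) (nat_lit 230464943) (nat_lit 0) (nat_lit 6507591801) (nat_lit 684) (nat_lit 230464943) (nat_lit 314) (nat_lit 1) (nat_lit 313) (nat_lit 1) (nat_lit 322) (nat_lit 1) (nat_lit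 330) (nat_lit 432) (nat_lit 378)) (XT.nd (nat_lit 78) (nat_lit 608) (nat_lit 0) (XT.lf (nat_lit 76) (nat_lit 3112239497) (nat_lit 0) (nat_lit 686407203) (nat_lit 684) (nat_lit 3112239497) (nat_lit 305) (nat_lit 1) (nat_lit 304) (nat_lit 1) (nat_lit 313) (nat_lit 1) (nat_lit 331) (nat_lit 432) (nat_lit 377)) (XT.lf (nat_lit 684) (nat_lit 5041472710) (nat_lit 0) (nat_lit 906350902) (nat_lit 608) (nat_lit 906350902) (nat_lit 305) (nat_lit 1) (nat_lit 296) (nat_lit 1) (nat_lit 304) (nat_lit 1) (nat_lit 332) (nat_lit 432) (nat_lit 376)))) (XT.nd (nat_lit 78) (nat_lit 608) (nat_lit 0) (XT.lf (nat_lit 76) (nat_lit 1924137695) (nat_lit 0) (nat_lit 2949644784) (nat_lit 684) (nat_lit 1924137695) (nat_lit 297) (nat_lit 1) (nat_lit 296) (nat_lit 1) (nat_lit 305) (nat_lit 1) (nat_lit 333) (nat_lit 432) (nat_lit 375)) (XT.nd (nat_lit 78) (nat_lit 0) (nat_lit 0) (XT.lf (nat_lit 684) (nat_lit 2659068540) (nat_lit 0) (nat_lit 2041659910) (nat_lit 608)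 (nat_lit 2041659910) (nat_lit 297) (nat_lit 1) (nat_lit 288) (nat_lit 1) (nat_lit 296) (nat_lit 1) (nat_lit 334) (nat_lit 432) (nat_lit 374)) (XT.lf (nat_lit 76) (nat_lit 737784872) (nat_lit 0) (nat_lit 5212030370) (nat_lit 684) (nat_lit 737784872) (nat_lit 289) (nat_lit 1) (nat_lit 288) (nat_lit 1) (nat_lit 297) (nat_lit 1) (nat_lit 335) (nat_lit 432) (nat_lit 373))))))) (XT.nd (nat_lit 936) (nat_lit 3192) (nat_lit 0) (XT.nd (nat_lit 468) (nat_lit 2204) (nat_lit 0) (XT.nd (nat_lit 234) (nat_lit 1064) (nat_lit 0) (XT.nd (nat_lit 78) (nat_lit 684) (nat_lit 0) (XT.lf (nat_lit 608) (nat_lit 280987135) (nat_lit 0) (nat_lit 3176113334) (nat_lit 532) (nat_lit 3176113334) (nat_lit 289) (nat_lit 1) (nat_lit 281) (nat_lit 1) (nat_lit 288) (nat_lit 1) (nat_lit 336) (nat_lit 432) (nat_lit 372)) (XT.nd (nat_lit 78) (nat_lit 0) (nat_lit 0) (XT.lf (nat_lit 684) (nat_lit 5693460469) (nat_lit 0) (nat_lit 443082244) (nat_lit 608) (nat_lit 443082244) (nat_lit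 281) (nat_lit 1) (nat_lit 272) (nat_lit 1) (nat_lit 280) (nat_lit 1) (nat_lit 337) (nat_lit 432) (nat_lit 371)) (XT.lf (nat_lit 76) (nat_lit 2231264108) (nat_lit 0) (nat_lit 2063783571) (nat_lit 684) (nat_lit 2231264108) (nat_lit 273) (nat_lit 1) (nat_lit 272) (nat_lit 1) (nat_lit 281) (nat_lit 1) (nat_lit 338) (nat_lit 432) (nat_lit 370)))) (XT.nd (nat_lit 78) (nat_lit 532) (nat_lit 0) (XT.lf (nat_lit 608) (nat_lit 3242154369) (nat_lit 0) (nat_lit 1615811690) (nat_lit 532) (nat_lit 1615811690) (nat_lit 273) (nat_lit 1) (nat_lit 265) (nat_lit 1) (nat_lit 272) (nat_lit 1) (nat_lit 339) (nat_lit 432) (nat_lit 369)) (XT.nd (nat_lit 78) (nat_lit 532) (nat_lit 0) (XT.lf (nat_lit 76) (nat_lit 1012119099) (nat_lit 0) (nat_lit 4397614587) (nat_lit 608) (nat_lit 1012119099) (nat_lit 266) (nat_lit 1) (nat_lit 265) (nat_lit 1) (nat_lit 273) (nat_lit 1) (nat_lit 340) (nat_lit 432) (nat_lit 368)) (XT.lf (nat_lit 608) (nat_lit 801271062) (nat_lit 0)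 (nat_lit 2784553804) (nat_lit 532) (nat_lit 2784553804) (nat_lit 266) (nat_lit 1) (nat_lit 258) (nat_lit 1) (nat_lit 265) (nat_lit 1) (nat_lit 341) (nat_lit 432) (nat_lit 367))))) (XT.nd (nat_lit 234) (nat_lit 1064) (nat_lit 0) (XT.nd (nat_lit 78) (nat_lit 532) (nat_lit 0) (XT.lf (nat_lit 608) (nat_lit 5919333494) (nat_lit 0) (nat_lit 200185645) (nat_lit 532) (nat_lit 200185645) (nat_lit 258) (nat_lit 1) (nat_lit 250) (nat_lit 1) (nat_lit 257) (nat_lit 1) (nat_lit 342) (nat_lit 432) (nat_lit 366)) (XT.nd (nat_lit 78) (nat_lit 532) (nat_lit 0) (XT.lf (nat_lit 76) (nat_lit 2331286171) (nat_lit 0) (nat_lit 1606581510) (nat_lit 608) (nat_lit 2331286171) (nat_lit 251) (nat_lit 1) (nat_lit 250) (nat_lit 1) (nat_lit 258) (nat_lit 1) (nat_lit 343) (nat_lit 432) (nat_lit 365)) (XT.lf (nat_lit 608) (nat_lit 3419883951) (nat_lit 0) (nat_lit 1399751458) (nat_lit 532) (nat_lit 1399751458) (nat_lit 251) (nat_lit 1) (nat_lit 243) (nat_lit 1) (nat_lit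 250) (nat_lit 1) (nat_lit 344) (nat_lit 432) (nat_lit 364)))) (XT.nd (nat_lit 78) (nat_lit 1064) (nat_lit 0) (XT.lf (nat_lit 76) (nat_lit 1089456880) (nat_lit 0) (nat_lit 3991237862) (nat_lit 608) (nat_lit 1089456880) (nat_lit 244) (nat_lit 1) (nat_lit 243) (nat_lit 1) (nat_lit 251) (nat_lit 1) (nat_lit 345) (nat_lit 432) (nat_lit 363)) (XT.nd (nat_lit 78) (nat_lit 608) (nat_lit 0) (XT.lf (nat_lit 532) (nat_lit 936018175) (nat_lit 0) (nat_lit 2592674367) (nat_lit 456) (nat_lit 2592674367) (nat_lit 244) (nat_lit 1) (nat_lit 237) (nat_lit 1) (nat_lit 243) (nat_lit 1) (nat_lit 346) (nat_lit 432) (nat_lit 362)) (XT.lf (nat_lit 608) (nat_lit 5786535660) (nat_lit 0) (nat_lit 143403162) (nat_lit 532) (nat_lit 143403162) (nat_lit 237) (nat_lit 1) (nat_lit 229) (nat_lit 1) (nat_lit 236) (nat_lit 1) (nat_lit 347) (nat_lit 432) (nat_lit 361)))))) (XT.nd (nat_lit 468) (nat_lit 1748) (nat_lit 0) (XT.nd (nat_lit 234) (nat_lit 988) (nat_lit 0) (XT.nd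 (nat_lit 78) (nat_lit 456) (nat_lit 0) (XT.lf (nat_lit 76) (nat_lit 2257099800) (nat_lit 0) (nat_lit 1511188560) (nat_lit 608) (nat_lit 2257099800) (nat_lit 230) (nat_lit 1) (nat_lit 229) (nat_lit 1) (nat_lit 237) (nat_lit 1) (nat_lit 348) (nat_lit 432) (nat_lit 360)) (XT.nd (nat_lit 78) (nat_lit 0) (nat_lit 0) (XT.lf (nat_lit 532) (nat_lit 3256869278) (nat_lit 0) (nat_lit 1360655195) (nat_lit 456) (nat_lit 1360655195) (nat_lit 230) (nat_lit 1) (nat_lit 223) (nat_lit 1) (nat_lit 229) (nat_lit 1) (nat_lit 349) (nat_lit 432) (nat_lit 359)) (XT.lf (nat_lit 76) (nat_lit 1001311909) (nat_lit 0) (nat_lit 3928850097) (nat_lit 532) (nat_lit 1001311909) (nat_lit 224) (nat_lit 1) (nat_lit 223) (nat_lit 1) (nat_lit 230) (nat_lit 1) (nat_lit 350) (nat_lit 432) (nat_lit 358)))) (XT.nd (nat_lit 78) (nat_lit 532) (nat_lit 0) (XT.lf (nat_lit 532) (nat_lit 747123711) (nat_lit 0) (nat_lit 2569026717) (nat_lit 456) (nat_lit 2569026717) (nat_lit 224) (nat_lit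 1) (nat_lit 217) (nat_lit 1) (nat_lit 223) (nat_lit 1) (nat_lit 351) (nat_lit 432) (nat_lit 357)) (XT.nd (nat_lit 78) (nat_lit 0) (nat_lit 0) (XT.lf (nat_lit 532) (nat_lit 5354072381) (nat_lit 0) (nat_lit 242745705) (nat_lit 456) (nat_lit 242745705) (nat_lit 217) (nat_lit 1) (nat_lit 210) (nat_lit 1) (nat_lit 216) (nat_lit 1) (nat_lit 352) (nat_lit 432) (nat_lit 356)) (XT.lf (nat_lit 76) (nat_lit 2037480596) (nat_lit 0) (nat_lit 1719093269) (nat_lit 532) (nat_lit 2037480596) (nat_lit 211) (nat_lit 1) (nat_lit 210) (nat_lit 1) (nat_lit 217) (nat_lit 1) (nat_lit 353) (nat_lit 432) (nat_lit 355))))) (XT.nd (nat_lit 234) (nat_lit 912) (nat_lit 0) (XT.nd (nat_lit 78) (nat_lit 380) (nat_lit 0) (XT.lf (nat_lit 532) (nat_lit 2809620790) (nat_lit 0) (nat_lit 1469797458) (nat_lit 456) (nat_lit 1469797458) (nat_lit 211) (nat_lit 1) (nat_lit 204) (nat_lit 1) (nat_lit 210) (nat_lit 1) (nat_lit 354) (nat_lit 432) (nat_lit 354)) (XT.nd (nat_lit 78)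 (nat_lit 380) (nat_lit 0) (XT.lf (nat_lit 76) (nat_lit 775242112) (nat_lit 0) (nat_lit 4154407083) (nat_lit 532) (nat_lit 775242112) (nat_lit 205) (nat_lit 1) (nat_lit 204) (nat_lit 1) (nat_lit 211) (nat_lit 1) (nat_lit 355) (nat_lit 432) (nat_lit 353)) (XT.lf (nat_lit 456) (nat_lit 288704986) (nat_lit 0) (nat_lit 2686097556) (nat_lit 380) (nat_lit 2686097556) (nat_lit 205) (nat_lit 1) (nat_lit 199) (nat_lit 1) (nat_lit 204) (nat_lit 1) (nat_lit 356) (nat_lit 432) (nat_lit 352)))) (XT.nd (nat_lit 78) (nat_lit 380) (nat_lit 0) (XT.lf (nat_lit 532) (nat_lit 4673492539) (nat_lit 0) (nat_lit 471996911) (nat_lit 456) (nat_lit 471996911) (nat_lit 199) (nat_lit 1) (nat_lit 192) (nat_lit 1) (nat_lit 198) (nat_lit 1) (nat_lit 357) (nat_lit 432) (nat_lit 351)) (XT.nd (nat_lit 78) (nat_lit 380) (nat_lit 0) (XT.lf (nat_lit 76) (nat_lit 1697563473) (nat_lit 0) (nat_lit 2179153304) (nat_lit 532) (nat_lit 1697563473) (nat_lit 193) (nat_lit 1) (nat_lit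 192) (nat_lit 1) (nat_lit 199) (nat_lit 1) (nat_lit 358) (nat_lit 432) (nat_lit 350)) (XT.lf (nat_lit 456) (nat_lit 2127490809) (nat_lit 0) (nat_lit 1702074700) (nat_lit 380) (nat_lit 1702074700) (nat_lit 193) (nat_lit 1) (nat_lit 187) (nat_lit 1) (nat_lit 192) (nat_lit 1) (nat_lit 359) (nat_lit 432) (nat_lit 349))))))))
noncomputable def ec117 : XT := (XT.nd (nat_lit 1872) (nat_lit 2508) (nat_lit 0) (XT.nd (nat_lit 936) (nat_lit 2584) (nat_lit 0) (XT.nd (nat_lit 468) (nat_lit 1520) (nat_lit 0) (XT.nd (nat_lit 234) (nat_lit 380) (nat_lit 0) (XT.nd (nat_lit 78) (nat_lit 836) (nat_lit 0) (XT.lf (nat_lit 76) (nat_lit 435310470) (nat_lit 0) (nat_lit 4618939046) (nat_lit 456) (nat_lit 435310470) (nat_lit 188) (nat_lit 1) (nat_lit 187) (nat_lit 1) (nat_lit 193) (nat_lit 1) (nat_lit 360) (nat_lit 432) (nat_lit 348)) (XT.nd (nat_lit 78) (nat_lit 380) (nat_lit 0) (XT.lf (nat_lit 76) (nat_lit 2530403498) (nat_lit 0) (nat_lit 386851129) (nat_lit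 456) (nat_lit 2530403498) (nat_lit 182) (nat_lit 1) (nat_lit 181) (nat_lit 1) (nat_lit 187) (nat_lit 1) (nat_lit 361) (nat_lit 432) (nat_lit 347)) (XT.lf (nat_lit 456) (nat_lit 3789758956) (nat_lit 0) (nat_lit 808273297) (nat_lit 380) (nat_lit 808273297) (nat_lit 182) (nat_lit 1) (nat_lit 176) (nat_lit 1) (nat_lit 181) (nat_lit 1) (nat_lit 362) (nat_lit 432) (nat_lit 346)))) (XT.nd (nat_lit 78) (nat_lit 380) (nat_lit 0) (XT.lf (nat_lit 76) (nat_lit 1259267842) (nat_lit 0) (nat_lit 2846736013) (nat_lit 456) (nat_lit 1259267842) (nat_lit 177) (nat_lit 1) (nat_lit 176) (nat_lit 1) (nat_lit 182) (nat_lit 1) (nat_lit 363) (nat_lit 432) (nat_lit 345)) (XT.nd (nat_lit 78) (nat_lit 0) (nat_lit 0) (XT.lf (nat_lit 456) (nat_lit 1253509833) (nat_lit 0) (nat_lit 2035582685) (nat_lit 380) (nat_lit 2035582685) (nat_lit 177) (nat_lit 1) (nat_lit 171) (nat_lit 1) (nat_lit 176) (nat_lit 1) (nat_lit 364) (nat_lit 432) (nat_lit 344)) (XT.lf (nat_lit 76)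 (nat_lit 2493510) (nat_lit 0) (nat_lit 5279724926) (nat_lit 456) (nat_lit 2493510) (nat_lit 172) (nat_lit 1) (nat_lit 171) (nat_lit 1) (nat_lit 177) (nat_lit 1) (nat_lit 365) (nat_lit 432) (nat_lit 343))))) (XT.nd (nat_lit 234) (nat_lit 760) (nat_lit 0) (XT.nd (nat_lit 78) (nat_lit 380) (nat_lit 0) (XT.lf (nat_lit 76) (nat_lit 2003671047) (nat_lit 0) (nat_lit 1237346302) (nat_lit 380) (nat_lit 2003671047) (nat_lit 167) (nat_lit 1) (nat_lit 166) (nat_lit 1) (nat_lit 171) (nat_lit 1) (nat_lit 366) (nat_lit 432) (nat_lit 342)) (XT.nd (nat_lit 78) (nat_lit 0) (nat_lit 0) (XT.lf (nat_lit 456) (nat_lit 2742019928) (nat_lit 0) (nat_lit 1231634401) (nat_lit 380) (nat_lit 1231634401) (nat_lit 167) (nat_lit 1) (nat_lit 161) (nat_lit 1) (nat_lit 166) (nat_lit 1) (nat_lit 367) (nat_lit 432) (nat_lit 341)) (XT.lf (nat_lit 76) (nat_lit 741674464) (nat_lit 0) (nat_lit 3682956620) (nat_lit 456) (nat_lit 741674464) (nat_lit 162) (nat_lit 1) (nat_lit 161)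 (nat_lit 1) (nat_lit 167) (nat_lit 1) (nat_lit 368) (nat_lit 432) (nat_lit 340)))) (XT.nd (nat_lit 78) (nat_lit 456) (nat_lit 0) (XT.lf (nat_lit 380) (nat_lit 225127773) (nat_lit 0) (nat_lit 2451241935) (nat_lit 304) (nat_lit 2451241935) (nat_lit 162) (nat_lit 1) (nat_lit 157) (nat_lit 1) (nat_lit 161) (nat_lit 1) (nat_lit 369) (nat_lit 432) (nat_lit 339)) (XT.nd (nat_lit 78) (nat_lit 0) (nat_lit 0) (XT.lf (nat_lit 456) (nat_lit 4086114924) (nat_lit 0) (nat_lit 501634561) (nat_lit 380) (nat_lit 501634561) (nat_lit 157) (nat_lit 1) (nat_lit 151) (nat_lit 1) (nat_lit 156) (nat_lit 1) (nat_lit 370) (nat_lit 432) (nat_lit 338)) (XT.lf (nat_lit 76) (nat_lit 1410065939) (nat_lit 0) (nat_lit 2231214878) (nat_lit 456) (nat_lit 1410065939) (nat_lit 152) (nat_lit 1) (nat_lit 151) (nat_lit 1) (nat_lit 157) (nat_lit 1) (nat_lit 371) (nat_lit 432) (nat_lit 337)))))) (XT.nd (nat_lit 468) (nat_lit 1292) (nat_lit 0) (XT.nd (nat_lit 234) (nat_lit 608)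 (nat_lit 0) (XT.nd (nat_lit 78) (nat_lit 380) (nat_lit 0) (XT.lf (nat_lit 380) (nat_lit 1564292985) (nat_lit 0) (nat_lit 1724737243) (nat_lit 304) (nat_lit 1724737243) (nat_lit 152) (nat_lit 1) (nat_lit 147) (nat_lit 1) (nat_lit 151) (nat_lit 1) (nat_lit 372) (nat_lit 432) (nat_lit 336)) (XT.nd (nat_lit 78) (nat_lit 380) (nat_lit 0) (XT.lf (nat_lit 76) (nat_lit 161359413) (nat_lit 0) (nat_lit 4654003079) (nat_lit 380) (nat_lit 161359413) (nat_lit 148) (nat_lit 1) (nat_lit 147) (nat_lit 1) (nat_lit 152) (nat_lit 1) (nat_lit 373) (nat_lit 432) (nat_lit 335)) (XT.lf (nat_lit 76) (nat_lit 2013343143) (nat_lit 0) (nat_lit 912995945) (nat_lit 380) (nat_lit 2013343143) (nat_lit 143) (nat_lit 1) (nat_lit 142) (nat_lit 1) (nat_lit 147) (nat_lit 1) (nat_lit 374) (nat_lit 432) (nat_lit 334)))) (XT.nd (nat_lit 78) (nat_lit 304) (nat_lit 0) (XT.lf (nat_lit 380) (nat_lit 2774880331) (nat_lit 0) (nat_lit 1064144136) (nat_lit 304) (nat_lit 1064144136)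 (nat_lit 143) (nat_lit 1) (nat_lit 138) (nat_lit 1) (nat_lit 142) (nat_lit 1) (nat_lit 375) (nat_lit 432) (nat_lit 333)) (XT.nd (nat_lit 78) (nat_lit 304) (nat_lit 0) (XT.lf (nat_lit 76) (nat_lit 764621450) (nat_lit 0) (nat_lit 3337767703) (nat_lit 380) (nat_lit 764621450) (nat_lit 139) (nat_lit 1) (nat_lit 138) (nat_lit 1) (nat_lit 143) (nat_lit 1) (nat_lit 376) (nat_lit 432) (nat_lit 332)) (XT.lf (nat_lit 380) (nat_lit 286070735) (nat_lit 0) (nat_lit 2272530140) (nat_lit 304) (nat_lit 2272530140) (nat_lit 139) (nat_lit 1) (nat_lit 134) (nat_lit 1) (nat_lit 138) (nat_lit 1) (nat_lit 377) (nat_lit 432) (nat_lit 331))))) (XT.nd (nat_lit 234) (nat_lit 608) (nat_lit 0) (XT.nd (nat_lit 78) (nat_lit 304) (nat_lit 0) (XT.lf (nat_lit 380) (nat_lit 3867203063) (nat_lit 0) (nat_lit 464235598) (nat_lit 304) (nat_lit 464235598) (nat_lit 134) (nat_lit 1) (nat_lit 129) (nat_lit 1) (nat_lit 133) (nat_lit 1) (nat_lit 378) (nat_lit 432) (nat_lit 330))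 (XT.nd (nat_lit 78) (nat_lit 304) (nat_lit 0) (XT.lf (nat_lit 76) (nat_lit 1309872710) (nat_lit 0) (nat_lit 2140628726) (nat_lit 380) (nat_lit 1309872710) (nat_lit 130) (nat_lit 1) (nat_lit 129) (nat_lit 1) (nat_lit 134) (nat_lit 1) (nat_lit 379) (nat_lit 432) (nat_lit 329)) (XT.lf (nat_lit 380) (nat_lit 1382664648) (nat_lit 0) (nat_lit 1671412702) (nat_lit 304) (nat_lit 1671412702) (nat_lit 130) (nat_lit 1) (nat_lit 125) (nat_lit 1) (nat_lit 129) (nat_lit 1) (nat_lit 380) (nat_lit 432) (nat_lit 328)))) (XT.nd (nat_lit 78) (nat_lit 608) (nat_lit 0) (XT.lf (nat_lit 76) (nat_lit 80341821) (nat_lit 0) (nat_lit 4530426777) (nat_lit 380) (nat_lit 80341821) (nat_lit 126) (nat_lit 1) (nat_lit 125) (nat_lit 1) (nat_lit 130) (nat_lit 1) (nat_lit 381) (nat_lit 432) (nat_lit 327)) (XT.nd (nat_lit 78) (nat_lit 304) (nat_lit 0) (XT.lf (nat_lit 76) (nat_lit 1801767638) (nat_lit 0) (nat_lit 1053146626) (nat_lit 304) (nat_lit 1801767638) (nat_lit 122)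 (nat_lit 1) (nat_lit 121) (nat_lit 1) (nat_lit 125) (nat_lit 1) (nat_lit 382) (nat_lit 432) (nat_lit 326)) (XT.lf (nat_lit 380) (nat_lit 2373818909) (nat_lit 0) (nat_lit 1124466321) (nat_lit 304) (nat_lit 1124466321) (nat_lit 122) (nat_lit 1) (nat_lit 117) (nat_lit 1) (nat_lit 121) (nat_lit 1) (nat_lit 383) (nat_lit 432) (nat_lit 325))))))) (XT.nd (nat_lit 936) (nat_lit 532) (nat_lit 0) (XT.nd (nat_lit 468) (nat_lit 760) (nat_lit 0) (XT.nd (nat_lit 234) (nat_lit 608) (nat_lit 0) (XT.nd (nat_lit 78) (nat_lit 608) (nat_lit 0) (XT.lf (nat_lit 76) (nat_lit 576246986) (nat_lit 0) (nat_lit 3436684280) (nat_lit 380) (nat_lit 576246986) (nat_lit 118) (nat_lit 1) (nat_lit 117) (nat_lit 1) (nat_lit 122) (nat_lit 1) (nat_lit 384) (nat_lit 432) (nat_lit 324)) (XT.nd (nat_lit 78) (nat_lit 304) (nat_lit 0) (XT.lf (nat_lit 76) (nat_lit 2244601582) (nat_lit 0) (nat_lit 66607996) (nat_lit 304) (nat_lit 2244601582) (nat_lit 114) (nat_lit 1) (nat_lit 113)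 (nat_lit 1) (nat_lit 117) (nat_lit 1) (nat_lit 385) (nat_lit 432) (nat_lit 323)) (XT.lf (nat_lit 380) (nat_lit 3267993210) (nat_lit 0) (nat_lit 627401048) (nat_lit 304) (nat_lit 627401048) (nat_lit 114) (nat_lit 1) (nat_lit 109) (nat_lit 1) (nat_lit 113) (nat_lit 1) (nat_lit 386) (nat_lit 432) (nat_lit 322)))) (XT.nd (nat_lit 78) (nat_lit 608) (nat_lit 0) (XT.lf (nat_lit 76) (nat_lit 1024543105) (nat_lit 0) (nat_lit 2440916253) (nat_lit 380) (nat_lit 1024543105) (nat_lit 110) (nat_lit 1) (nat_lit 109) (nat_lit 1) (nat_lit 114) (nat_lit 1) (nat_lit 387) (nat_lit 432) (nat_lit 321)) (XT.nd (nat_lit 78) (nat_lit 380) (nat_lit 0) (XT.lf (nat_lit 304) (nat_lit 838020688) (nat_lit 0) (nat_lit 1809758526) (nat_lit 228) (nat_lit 1809758526) (nat_lit 110) (nat_lit 1) (nat_lit 106) (nat_lit 1) (nat_lit 109) (nat_lit 1) (nat_lit 388) (nat_lit 432) (nat_lit 320)) (XT.lf (nat_lit 380) (nat_lit 4072994569) (nat_lit 0) (nat_lit 176256864) (nat_lit 304)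 (nat_lit 176256864) (nat_lit 106) (nat_lit 1) (nat_lit 101) (nat_lit 1) (nat_lit 105) (nat_lit 1) (nat_lit 389) (nat_lit 432) (nat_lit 319))))) (XT.nd (nat_lit 234) (nat_lit 532) (nat_lit 0) (XT.nd (nat_lit 78) (nat_lit 228) (nat_lit 0) (XT.lf (nat_lit 76) (nat_lit 1429048837) (nat_lit 0) (nat_lit 1535373629) (nat_lit 380) (nat_lit 1429048837) (nat_lit 102) (nat_lit 1) (nat_lit 101) (nat_lit 1) (nat_lit 106) (nat_lit 1) (nat_lit 390) (nat_lit 432) (nat_lit 318)) (XT.nd (nat_lit 78) (nat_lit 0) (nat_lit 0) (XT.lf (nat_lit 304) (nat_lit 1656921144) (nat_lit 0) (nat_lit 1352471640) (nat_lit 228) (nat_lit 1352471640) (nat_lit 102) (nat_lit 1) (nat_lit 98) (nat_lit 1) (nat_lit 101) (nat_lit 1) (nat_lit 391) (nat_lit 432) (nat_lit 317)) (XT.lf (nat_lit 76) (nat_lit 234162054) (nat_lit 0) (nat_lit 3862338023) (nat_lit 304) (nat_lit 234162054) (nat_lit 99) (nat_lit 1) (nat_lit 98) (nat_lit 1) (nat_lit 102) (nat_lit 1) (nat_lit 392) (nat_lit 432)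 (nat_lit 316)))) (XT.nd (nat_lit 78) (nat_lit 228) (nat_lit 0) (XT.lf (nat_lit 76) (nat_lit 1793288246) (nat_lit 0) (nat_lit 712903114) (nat_lit 304) (nat_lit 1793288246) (nat_lit 95) (nat_lit 1) (nat_lit 94) (nat_lit 1) (nat_lit 98) (nat_lit 1) (nat_lit 393) (nat_lit 432) (nat_lit 315)) (XT.nd (nat_lit 78) (nat_lit 0) (nat_lit 0) (XT.lf (nat_lit 304) (nat_lit 2396150358) (nat_lit 0) (nat_lit 936273271) (nat_lit 228) (nat_lit 936273271) (nat_lit 95) (nat_lit 1) (nat_lit 91) (nat_lit 1) (nat_lit 94) (nat_lit 1) (nat_lit 394) (nat_lit 432) (nat_lit 314)) (XT.lf (nat_lit 76) (nat_lit 606598683) (nat_lit 0) (nat_lit 3025009260) (nat_lit 304) (nat_lit 606598683) (nat_lit 92) (nat_lit 1) (nat_lit 91) (nat_lit 1) (nat_lit 95) (nat_lit 1) (nat_lit 395) (nat_lit 432) (nat_lit 313)))))) (XT.nd (nat_lit 53118) (nat_lit 0) (nat_lit 19380) (XT.nd (nat_lit 52884) (nat_lit 0) (nat_lit 22344) (XT.nd (nat_lit 78) (nat_lit 304) (nat_lit 0) (XT.lf (nat_lit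 304) (nat_lit 33538155) (nat_lit 0) (nat_lit 2087192912) (nat_lit 228) (nat_lit 2087192912) (nat_lit 92) (nat_lit 1) (nat_lit 88) (nat_lit 1) (nat_lit 91) (nat_lit 1) (nat_lit 396) (nat_lit 432) (nat_lit 312)) (XT.nd (nat_lit 52728) (nat_lit 0) (nat_lit 23940) (XT.lf (nat_lit 304) (nat_lit 3062115036) (nat_lit 0) (nat_lit 557911516) (nat_lit 228) (nat_lit 557911516) (nat_lit 88) (nat_lit 1) (nat_lit 84) (nat_lit 1) (nat_lit 87) (nat_lit 1) (nat_lit 397) (nat_lit 432) (nat_lit 311)) (XT.lf (nat_lit 76) (nat_lit 1370507679) (nat_lit 0) (nat_lit 5401708823) (nat_lit 912) (nat_lit 1370507679) (nat_lit 400) (nat_lit 1) (nat_lit 399) (nat_lit 1) (nat_lit 411) (nat_lit 1) (nat_lit 312) (nat_lit 433) (nat_lit 395)))) (XT.nd (nat_lit 78) (nat_lit 836) (nat_lit 0) (XT.lf (nat_lit 836) (nat_lit 1730377451) (nat_lit 0) (nat_lit 3170866007) (nat_lit 760) (nat_lit 3170866007) (nat_lit 400) (nat_lit 1) (nat_lit 389) (nat_lit 1) (nat_lit 399) (nat_lit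 1) (nat_lit 313) (nat_lit 433) (nat_lit 394)) (XT.nd (nat_lit 78) (nat_lit 836) (nat_lit 0) (XT.lf (nat_lit 76) (nat_lit 364048260) (nat_lit 0) (nat_lit 7274558138) (nat_lit 836) (nat_lit 364048260) (nat_lit 390) (nat_lit 1) (nat_lit 389) (nat_lit 1) (nat_lit 400) (nat_lit 1) (nat_lit 314) (nat_lit 433) (nat_lit 393)) (XT.lf (nat_lit 76) (nat_lit 3817579581) (nat_lit 0) (nat_lit 298424869) (nat_lit 836) (nat_lit 3817579581) (nat_lit 379) (nat_lit 1) (nat_lit 378) (nat_lit 1) (nat_lit 389) (nat_lit 1) (nat_lit 315) (nat_lit 433) (nat_lit 392))))) (XT.nd (nat_lit 234) (nat_lit 1444) (nat_lit 0) (XT.nd (nat_lit 78) (nat_lit 760) (nat_lit 0) (XT.lf (nat_lit 836) (nat_lit 6563596200) (nat_lit 0) (nat_lit 651023514) (nat_lit 760) (nat_lit 651023514) (nat_lit 379) (nat_lit 1) (nat_lit 368) (nat_lit 1) (nat_lit 378) (nat_lit 1) (nat_lit 316) (nat_lit 433) (nat_lit 391)) (XT.nd (nat_lit 78) (nat_lit 760) (nat_lit 0) (XT.lf (nat_lit 76) (nat_lit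 2734788376) (nat_lit 0) (nat_lit 2328605543) (nat_lit 836) (nat_lit 2734788376) (nat_lit 369) (nat_lit 1) (nat_lit 368) (nat_lit 1) (nat_lit 379) (nat_lit 1) (nat_lit 317) (nat_lit 433) (nat_lit 390)) (XT.lf (nat_lit 836) (nat_lit 4381688892) (nat_lit 0) (nat_lit 1675027422) (nat_lit 760) (nat_lit 1675027422) (nat_lit 369) (nat_lit 1) (nat_lit 358) (nat_lit 1) (nat_lit 368) (nat_lit 1) (nat_lit 318) (nat_lit 433) (nat_lit 389)))) (XT.nd (nat_lit 156) (nat_lit 760) (nat_lit 0) (XT.nd (nat_lit 78) (nat_lit 684) (nat_lit 0) (XT.lf (nat_lit 76) (nat_lit 1643057179) (nat_lit 0) (nat_lit 4379924558) (nat_lit 836) (nat_lit 1643057179) (nat_lit 359) (nat_lit 1) (nat_lit 358) (nat_lit 1) (nat_lit 369) (nat_lit 1) (nat_lit 319) (nat_lit 433) (nat_lit 388)) (XT.lf (nat_lit 760) (nat_lit 2183206387) (nat_lit 0) (nat_lit 2708925517) (nat_lit 684) (nat_lit 2708925517) (nat_lit 359) (nat_lit 1) (nat_lit 349) (nat_lit 1) (nat_lit 358) (nat_lit 1) (nat_lit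 320) (nat_lit 433) (nat_lit 387))) (XT.nd (nat_lit 78) (nat_lit 760) (nat_lit 0) (XT.lf (nat_lit 76) (nat_lit 543732870) (nat_lit 0) (nat_lit 6449600837) (nat_lit 760) (nat_lit 543732870) (nat_lit 350) (nat_lit 1) (nat_lit 349) (nat_lit 1) (nat_lit 359) (nat_lit 1) (nat_lit 321) (nat_lit 433) (nat_lit 386)) (XT.lf (nat_lit 76) (nat_lit 3722328268) (nat_lit 0) (nat_lit 28838134) (nat_lit 760) (nat_lit 3722328268) (nat_lit 340) (nat_lit 1) (nat_lit 339) (nat_lit 1) (nat_lit 349) (nat_lit 1) (nat_lit 322) (nat_lit 433) (nat_lit 385))))))))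
noncomputable def ec118 : XT := (XT.nd (nat_lit 1872) (nat_lit 6232) (nat_lit 0) (XT.nd (nat_lit 936) (nat_lit 3952) (nat_lit 0) (XT.nd (nat_lit 468) (nat_lit 2432) (nat_lit 0) (XT.nd (nat_lit 234) (nat_lit 608) (nat_lit 0) (XT.nd (nat_lit 78) (nat_lit 684) (nat_lit 0) (XT.lf (nat_lit 760) (nat_lit 6294462132) (nat_lit 0) (nat_lit 558212803) (nat_lit 684) (nat_lit 558212803) (nat_lit 340) (nat_lit 1) (nat_lit 330) (nat_lit 1) (nat_lit 339) (nat_lit 1) (nat_lit 323) (nat_lit 433) (nat_lit 384)) (XT.nd (nat_lit 78) (nat_lit 684) (nat_lit 0) (XT.lf (nat_lit 76) (nat_lit 2562567689) (nat_lit 0) (nat_lit 2223555656) (nat_lit 760) (nat_lit 2562567689) (nat_lit 331) (nat_lit 1) (nat_lit 330) (nat_lit 1) (nat_lit 340) (nat_lit 1) (nat_lit 324) (nat_lit 433) (nat_lit 383)) (XT.lf (nat_lit 760) (nat_lit 3964107946) (nat_lit 0) (nat_lit 1661659546) (nat_lit 684) (nat_lit 1661659546) (nat_lit 331) (nat_lit 1) (nat_lit 321) (nat_lit 1) (nat_lit 330)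 (nat_lit 1) (nat_lit 325) (nat_lit 433) (nat_lit 382)))) (XT.nd (nat_lit 78) (nat_lit 608) (nat_lit 0) (XT.lf (nat_lit 76) (nat_lit 1399796693) (nat_lit 0) (nat_lit 4427256159) (nat_lit 760) (nat_lit 1399796693) (nat_lit 322) (nat_lit 1) (nat_lit 321) (nat_lit 1) (nat_lit 331) (nat_lit 1) (nat_lit 326) (nat_lit 433) (nat_lit 381)) (XT.nd (nat_lit 78) (nat_lit 0) (nat_lit 0) (XT.lf (nat_lit 684) (nat_lit 1628785760) (nat_lit 0) (nat_lit 2769051487) (nat_lit 608) (nat_lit 2769051487) (nat_lit 322) (nat_lit 1) (nat_lit 313) (nat_lit 1) (nat_lit 321) (nat_lit 1) (nat_lit 327) (nat_lit 433) (nat_lit 380)) (XT.lf (nat_lit 76) (nat_lit 235074242) (nat_lit 0) (nat_lit 6637743637) (nat_lit 684) (nat_lit 235074242) (nat_lit 314) (nat_lit 1) (nat_lit 313) (nat_lit 1) (nat_lit 322) (nat_lit 1) (nat_lit 328) (nat_lit 433) (nat_lit 379))))) (XT.nd (nat_lit 234) (nat_lit 1140) (nat_lit 0) (XT.nd (nat_lit 78) (nat_lit 608) (nat_lit 0) (XT.lf (nat_lit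 76) (nat_lit 3174484287) (nat_lit 0) (nat_lit 700135347) (nat_lit 684) (nat_lit 3174484287) (nat_lit 305) (nat_lit 1) (nat_lit 304) (nat_lit 1) (nat_lit 313) (nat_lit 1) (nat_lit 329) (nat_lit 433) (nat_lit 378)) (XT.nd (nat_lit 78) (nat_lit 0) (nat_lit 0) (XT.lf (nat_lit 684) (nat_lit 5142302164) (nat_lit 0) (nat_lit 924477920) (nat_lit 608) (nat_lit 924477920) (nat_lit 305) (nat_lit 1) (nat_lit 296) (nat_lit 1) (nat_lit 304) (nat_lit 1) (nat_lit 330) (nat_lit 433) (nat_lit 377)) (XT.lf (nat_lit 76) (nat_lit 1962620449) (nat_lit 0) (nat_lit 3008637679) (nat_lit 684) (nat_lit 1962620449) (nat_lit 297) (nat_lit 1) (nat_lit 296) (nat_lit 1) (nat_lit 305) (nat_lit 1) (nat_lit 331) (nat_lit 433) (nat_lit 376)))) (XT.nd (nat_lit 78) (nat_lit 532) (nat_lit 0) (XT.lf (nat_lit 684) (nat_lit 2712249910) (nat_lit 0) (nat_lit 2082493108) (nat_lit 608) (nat_lit 2082493108) (nat_lit 297) (nat_lit 1) (nat_lit 288) (nat_lit 1) (nat_lit 296) (nat_lit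 1) (nat_lit 332) (nat_lit 433) (nat_lit 375)) (XT.nd (nat_lit 78) (nat_lit 532) (nat_lit 0) (XT.lf (nat_lit 76) (nat_lit 752540569) (nat_lit 0) (nat_lit 5316270977) (nat_lit 684) (nat_lit 752540569) (nat_lit 289) (nat_lit 1) (nat_lit 288) (nat_lit 1) (nat_lit 297) (nat_lit 1) (nat_lit 333) (nat_lit 433) (nat_lit 374)) (XT.lf (nat_lit 608) (nat_lit 286606877) (nat_lit 0) (nat_lit 3239635600) (nat_lit 532) (nat_lit 3239635600) (nat_lit 289) (nat_lit 1) (nat_lit 281) (nat_lit 1) (nat_lit 288) (nat_lit 1) (nat_lit 334) (nat_lit 433) (nat_lit 373)))))) (XT.nd (nat_lit 468) (nat_lit 1596) (nat_lit 0) (XT.nd (nat_lit 234) (nat_lit 1140) (nat_lit 0) (XT.nd (nat_lit 78) (nat_lit 532) (nat_lit 0) (XT.lf (nat_lit 684) (nat_lit 5807329678) (nat_lit 0) (nat_lit 451943889) (nat_lit 608) (nat_lit 451943889) (nat_lit 281) (nat_lit 1) (nat_lit 272) (nat_lit 1) (nat_lit 280) (nat_lit 1) (nat_lit 335) (nat_lit 433) (nat_lit 372)) (XT.nd (nat_lit 78) (nat_lit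 532) (nat_lit 0) (XT.lf (nat_lit 76) (nat_lit 2275889391) (nat_lit 0) (nat_lit 2105059242) (nat_lit 684) (nat_lit 2275889391) (nat_lit 273) (nat_lit 1) (nat_lit 272) (nat_lit 1) (nat_lit 281) (nat_lit 1) (nat_lit 336) (nat_lit 433) (nat_lit 371)) (XT.lf (nat_lit 608) (nat_lit 3306997456) (nat_lit 0) (nat_lit 1648127924) (nat_lit 532) (nat_lit 1648127924) (nat_lit 273) (nat_lit 1) (nat_lit 265) (nat_lit 1) (nat_lit 272) (nat_lit 1) (nat_lit 337) (nat_lit 433) (nat_lit 370)))) (XT.nd (nat_lit 78) (nat_lit 1140) (nat_lit 0) (XT.lf (nat_lit 76) (nat_lit 1032361481) (nat_lit 0) (nat_lit 4485566879) (nat_lit 608) (nat_lit 1032361481) (nat_lit 266) (nat_lit 1) (nat_lit 265) (nat_lit 1) (nat_lit 273) (nat_lit 1) (nat_lit 338) (nat_lit 433) (nat_lit 369)) (XT.nd (nat_lit 78) (nat_lit 608) (nat_lit 0) (XT.lf (nat_lit 608) (nat_lit 817296483) (nat_lit 0) (nat_lit 2840244880) (nat_lit 532) (nat_lit 2840244880) (nat_lit 266) (nat_lit 1) (nat_lit 258)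 (nat_lit 1) (nat_lit 265) (nat_lit 1) (nat_lit 339) (nat_lit 433) (nat_lit 368)) (XT.lf (nat_lit 608) (nat_lit 6037720164) (nat_lit 0) (nat_lit 204189358) (nat_lit 532) (nat_lit 204189358) (nat_lit 258) (nat_lit 1) (nat_lit 250) (nat_lit 1) (nat_lit 257) (nat_lit 1) (nat_lit 340) (nat_lit 433) (nat_lit 367))))) (XT.nd (nat_lit 234) (nat_lit 1064) (nat_lit 0) (XT.nd (nat_lit 78) (nat_lit 532) (nat_lit 0) (XT.lf (nat_lit 76) (nat_lit 2377911894) (nat_lit 0) (nat_lit 1638713140) (nat_lit 608) (nat_lit 2377911894) (nat_lit 251) (nat_lit 1) (nat_lit 250) (nat_lit 1) (nat_lit 258) (nat_lit 1) (nat_lit 341) (nat_lit 433) (nat_lit 366)) (XT.nd (nat_lit 78) (nat_lit 0) (nat_lit 0) (XT.lf (nat_lit 608) (nat_lit 3488281630) (nat_lit 0) (nat_lit 1427746487) (nat_lit 532) (nat_lit 1427746487) (nat_lit 251) (nat_lit 1) (nat_lit 243) (nat_lit 1) (nat_lit 250) (nat_lit 1) (nat_lit 342) (nat_lit 433) (nat_lit 365)) (XT.lf (nat_lit 76) (nat_lit 1111246018)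 (nat_lit 0) (nat_lit 4071062619) (nat_lit 608) (nat_lit 1111246018) (nat_lit 244) (nat_lit 1) (nat_lit 243) (nat_lit 1) (nat_lit 251) (nat_lit 1) (nat_lit 343) (nat_lit 433) (nat_lit 364)))) (XT.nd (nat_lit 78) (nat_lit 608) (nat_lit 0) (XT.lf (nat_lit 532) (nat_lit 954738539) (nat_lit 0) (nat_lit 2644527854) (nat_lit 456) (nat_lit 2644527854) (nat_lit 244) (nat_lit 1) (nat_lit 237) (nat_lit 1) (nat_lit 243) (nat_lit 1) (nat_lit 344) (nat_lit 433) (nat_lit 363)) (XT.nd (nat_lit 78) (nat_lit 0) (nat_lit 0) (XT.lf (nat_lit 608) (nat_lit 5902266374) (nat_lit 0) (nat_lit 146271225) (nat_lit 532) (nat_lit 146271225) (nat_lit 237) (nat_lit 1) (nat_lit 229) (nat_lit 1) (nat_lit 236) (nat_lit 1) (nat_lit 345) (nat_lit 433) (nat_lit 362)) (XT.lf (nat_lit 76) (nat_lit 2302241796) (nat_lit 0) (nat_lit 1541412331) (nat_lit 608) (nat_lit 2302241796) (nat_lit 230) (nat_lit 1) (nat_lit 229) (nat_lit 1) (nat_lit 237) (nat_lit 1) (nat_lit 346) (nat_lit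 433) (nat_lit 361))))))) (XT.nd (nat_lit 936) (nat_lit 3040) (nat_lit 0) (XT.nd (nat_lit 468) (nat_lit 1292) (nat_lit 0) (XT.nd (nat_lit 234) (nat_lit 988) (nat_lit 0) (XT.nd (nat_lit 78) (nat_lit 456) (nat_lit 0) (XT.lf (nat_lit 532) (nat_lit 3322006663) (nat_lit 0) (nat_lit 1387868299) (nat_lit 456) (nat_lit 1387868299) (nat_lit 230) (nat_lit 1) (nat_lit 223) (nat_lit 1) (nat_lit 229) (nat_lit 1) (nat_lit 347) (nat_lit 433) (nat_lit 360)) (XT.nd (nat_lit 78) (nat_lit 456) (nat_lit 0) (XT.lf (nat_lit 76) (nat_lit 1021338147) (nat_lit 0) (nat_lit 4007427099) (nat_lit 532) (nat_lit 1021338147) (nat_lit 224) (nat_lit 1) (nat_lit 223) (nat_lit 1) (nat_lit 230) (nat_lit 1) (nat_lit 348) (nat_lit 433) (nat_lit 359)) (XT.lf (nat_lit 532) (nat_lit 762066185) (nat_lit 0) (nat_lit 2620407251) (nat_lit 456) (nat_lit 2620407251) (nat_lit 224) (nat_lit 1) (nat_lit 217) (nat_lit 1) (nat_lit 223) (nat_lit 1) (nat_lit 349) (nat_lit 433) (nat_lit 358))))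 (XT.nd (nat_lit 78) (nat_lit 456) (nat_lit 0) (XT.lf (nat_lit 532) (nat_lit 5461153829) (nat_lit 0) (nat_lit 247600620) (nat_lit 456) (nat_lit 247600620) (nat_lit 217) (nat_lit 1) (nat_lit 210) (nat_lit 1) (nat_lit 216) (nat_lit 1) (nat_lit 350) (nat_lit 433) (nat_lit 357)) (XT.nd (nat_lit 78) (nat_lit 456) (nat_lit 0) (XT.lf (nat_lit 76) (nat_lit 2078230208) (nat_lit 0) (nat_lit 1753475134) (nat_lit 532) (nat_lit 2078230208) (nat_lit 211) (nat_lit 1) (nat_lit 210) (nat_lit 1) (nat_lit 217) (nat_lit 1) (nat_lit 351) (nat_lit 433) (nat_lit 356)) (XT.lf (nat_lit 532) (nat_lit 2865813206) (nat_lit 0) (nat_lit 1499193408) (nat_lit 456) (nat_lit 1499193408) (nat_lit 211) (nat_lit 1) (nat_lit 204) (nat_lit 1) (nat_lit 210) (nat_lit 1) (nat_lit 352) (nat_lit 433) (nat_lit 355))))) (XT.nd (nat_lit 234) (nat_lit 380) (nat_lit 0) (XT.nd (nat_lit 78) (nat_lit 912) (nat_lit 0) (XT.lf (nat_lit 76) (nat_lit 790746954) (nat_lit 0) (nat_lit 4237495224)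 (nat_lit 532) (nat_lit 790746954) (nat_lit 205) (nat_lit 1) (nat_lit 204) (nat_lit 1) (nat_lit 211) (nat_lit 1) (nat_lit 353) (nat_lit 433) (nat_lit 354)) (XT.nd (nat_lit 78) (nat_lit 532) (nat_lit 0) (XT.lf (nat_lit 456) (nat_lit 294479086) (nat_lit 0) (nat_lit 2739819507) (nat_lit 380) (nat_lit 2739819507) (nat_lit 205) (nat_lit 1) (nat_lit 199) (nat_lit 1) (nat_lit 204) (nat_lit 1) (nat_lit 354) (nat_lit 433) (nat_lit 353)) (XT.lf (nat_lit 532) (nat_lit 4766962390) (nat_lit 0) (nat_lit 481436849) (nat_lit 456) (nat_lit 481436849) (nat_lit 199) (nat_lit 1) (nat_lit 192) (nat_lit 1) (nat_lit 198) (nat_lit 1) (nat_lit 355) (nat_lit 433) (nat_lit 352)))) (XT.nd (nat_lit 78) (nat_lit 380) (nat_lit 0) (XT.lf (nat_lit 76) (nat_lit 1731514742) (nat_lit 0) (nat_lit 2222736370) (nat_lit 532) (nat_lit 1731514742) (nat_lit 193) (nat_lit 1) (nat_lit 192) (nat_lit 1) (nat_lit 199) (nat_lit 1) (nat_lit 356) (nat_lit 433) (nat_lit 351)) (XT.nd (nat_lit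 78) (nat_lit 0) (nat_lit 0) (XT.lf (nat_lit 456) (nat_lit 2170040626) (nat_lit 0) (nat_lit 1736116194) (nat_lit 380) (nat_lit 1736116194) (nat_lit 193) (nat_lit 1) (nat_lit 187) (nat_lit 1) (nat_lit 192) (nat_lit 1) (nat_lit 357) (nat_lit 433) (nat_lit 350)) (XT.lf (nat_lit 76) (nat_lit 444016679) (nat_lit 0) (nat_lit 4711317826) (nat_lit 456) (nat_lit 444016679) (nat_lit 188) (nat_lit 1) (nat_lit 187) (nat_lit 1) (nat_lit 193) (nat_lit 1) (nat_lit 358) (nat_lit 433) (nat_lit 349)))))) (XT.nd (nat_lit 468) (nat_lit 1444) (nat_lit 0) (XT.nd (nat_lit 234) (nat_lit 760) (nat_lit 0) (XT.nd (nat_lit 78) (nat_lit 380) (nat_lit 0) (XT.lf (nat_lit 76) (nat_lit 2581011568) (nat_lit 0) (nat_lit 394588152) (nat_lit 456) (nat_lit 2581011568) (nat_lit 182) (nat_lit 1) (nat_lit 181) (nat_lit 1) (nat_lit 187) (nat_lit 1) (nat_lit 359) (nat_lit 433) (nat_lit 348)) (XT.nd (nat_lit 78) (nat_lit 0) (nat_lit 0) (XT.lf (nat_lit 456) (nat_lit 3865554135) (nat_lit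 0) (nat_lit 824438763) (nat_lit 380) (nat_lit 824438763) (nat_lit 182) (nat_lit 1) (nat_lit 176) (nat_lit 1) (nat_lit 181) (nat_lit 1) (nat_lit 360) (nat_lit 433) (nat_lit 347)) (XT.lf (nat_lit 76) (nat_lit 1284453199) (nat_lit 0) (nat_lit 2903670733) (nat_lit 456) (nat_lit 1284453199) (nat_lit 177) (nat_lit 1) (nat_lit 176) (nat_lit 1) (nat_lit 182) (nat_lit 1) (nat_lit 361) (nat_lit 433) (nat_lit 346)))) (XT.nd (nat_lit 78) (nat_lit 380) (nat_lit 0) (XT.lf (nat_lit 456) (nat_lit 1278580030) (nat_lit 0) (nat_lit 2076294339) (nat_lit 380) (nat_lit 2076294339) (nat_lit 177) (nat_lit 1) (nat_lit 171) (nat_lit 1) (nat_lit 176) (nat_lit 1) (nat_lit 362) (nat_lit 433) (nat_lit 345)) (XT.nd (nat_lit 78) (nat_lit 380) (nat_lit 0) (XT.lf (nat_lit 76) (nat_lit 2543381) (nat_lit 0) (nat_lit 5385319425) (nat_lit 456) (nat_lit 2543381) (nat_lit 172) (nat_lit 1) (nat_lit 171) (nat_lit 1) (nat_lit 177) (nat_lit 1) (nat_lit 363) (nat_lit 433) (nat_lit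 344)) (XT.lf (nat_lit 76) (nat_lit 2043744468) (nat_lit 0) (nat_lit 1262093228) (nat_lit 380) (nat_lit 2043744468) (nat_lit 167) (nat_lit 1) (nat_lit 166) (nat_lit 1) (nat_lit 171) (nat_lit 1) (nat_lit 364) (nat_lit 433) (nat_lit 343))))) (XT.nd (nat_lit 234) (nat_lit 760) (nat_lit 0) (XT.nd (nat_lit 78) (nat_lit 304) (nat_lit 0) (XT.lf (nat_lit 456) (nat_lit 2796860327) (nat_lit 0) (nat_lit 1256267089) (nat_lit 380) (nat_lit 1256267089) (nat_lit 167) (nat_lit 1) (nat_lit 161) (nat_lit 1) (nat_lit 166) (nat_lit 1) (nat_lit 365) (nat_lit 433) (nat_lit 342)) (XT.nd (nat_lit 78) (nat_lit 304) (nat_lit 0) (XT.lf (nat_lit 76) (nat_lit 756507953) (nat_lit 0) (nat_lit 3756615752) (nat_lit 456) (nat_lit 756507953) (nat_lit 162) (nat_lit 1) (nat_lit 161) (nat_lit 1) (nat_lit 167) (nat_lit 1) (nat_lit 366) (nat_lit 433) (nat_lit 341)) (XT.lf (nat_lit 380) (nat_lit 229630329) (nat_lit 0) (nat_lit 2500266773) (nat_lit 304) (nat_lit 2500266773) (nat_lit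 162) (nat_lit 1) (nat_lit 157) (nat_lit 1) (nat_lit 161) (nat_lit 1) (nat_lit 367) (nat_lit 433) (nat_lit 340)))) (XT.nd (nat_lit 78) (nat_lit 304) (nat_lit 0) (XT.lf (nat_lit 456) (nat_lit 4167837223) (nat_lit 0) (nat_lit 511667253) (nat_lit 380) (nat_lit 511667253) (nat_lit 157) (nat_lit 1) (nat_lit 151) (nat_lit 1) (nat_lit 156) (nat_lit 1) (nat_lit 368) (nat_lit 433) (nat_lit 339)) (XT.nd (nat_lit 78) (nat_lit 304) (nat_lit 0) (XT.lf (nat_lit 76) (nat_lit 1438267258) (nat_lit 0) (nat_lit 2275839176) (nat_lit 456) (nat_lit 1438267258) (nat_lit 152) (nat_lit 1) (nat_lit 151) (nat_lit 1) (nat_lit 157) (nat_lit 1) (nat_lit 369) (nat_lit 433) (nat_lit 338)) (XT.lf (nat_lit 380) (nat_lit 1595578844) (nat_lit 0) (nat_lit 1759231988) (nat_lit 304) (nat_lit 1759231988) (nat_lit 152) (nat_lit 1) (nat_lit 147) (nat_lit 1) (nat_lit 151) (nat_lit 1) (nat_lit 370) (nat_lit 433) (nat_lit 337))))))))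
noncomputable def ec119 : XT := (XT.nd (nat_lit 1872) (nat_lit 304) (nat_lit 0) (XT.nd (nat_lit 936) (nat_lit 2204) (nat_lit 0) (XT.nd (nat_lit 468) (nat_lit 912) (nat_lit 0) (XT.nd (nat_lit 234) (nat_lit 684) (nat_lit 0) (XT.nd (nat_lit 78) (nat_lit 684) (nat_lit 0) (XT.lf (nat_lit 76) (nat_lit 164586601) (nat_lit 0) (nat_lit 4747083141) (nat_lit 380) (nat_lit 164586601) (nat_lit 148) (nat_lit 1) (nat_lit 147) (nat_lit 1) (nat_lit 152) (nat_lit 1) (nat_lit 371) (nat_lit 433) (nat_lit 336)) (XT.nd (nat_lit 78) (nat_lit 304) (nat_lit 0) (XT.lf (nat_lit 76) (nat_lit 2053610006) (nat_lit 0) (nat_lit 931255864) (nat_lit 380) (nat_lit 2053610006) (nat_lit 143) (nat_lit 1) (nat_lit 142) (nat_lit 1) (nat_lit 147) (nat_lit 1) (nat_lit 372) (nat_lit 433) (nat_lit 335)) (XT.lf (nat_lit 380) (nat_lit 2830377938) (nat_lit 0) (nat_lit 1085427019) (nat_lit 304) (nat_lit 1085427019) (nat_lit 143) (nat_lit 1) (nat_lit 138) (nat_lit 1) (nat_lit 142) (nat_lit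 1) (nat_lit 373) (nat_lit 433) (nat_lit 334)))) (XT.nd (nat_lit 78) (nat_lit 684) (nat_lit 0) (XT.lf (nat_lit 76) (nat_lit 779913879) (nat_lit 0) (nat_lit 3404523057) (nat_lit 380) (nat_lit 779913879) (nat_lit 139) (nat_lit 1) (nat_lit 138) (nat_lit 1) (nat_lit 143) (nat_lit 1) (nat_lit 374) (nat_lit 433) (nat_lit 333)) (XT.nd (nat_lit 78) (nat_lit 380) (nat_lit 0) (XT.lf (nat_lit 380) (nat_lit 291792150) (nat_lit 0) (nat_lit 2317980743) (nat_lit 304) (nat_lit 2317980743) (nat_lit 139) (nat_lit 1) (nat_lit 134) (nat_lit 1) (nat_lit 138) (nat_lit 1) (nat_lit 375) (nat_lit 433) (nat_lit 332)) (XT.lf (nat_lit 380) (nat_lit 3944547125) (nat_lit 0) (nat_lit 473520310) (nat_lit 304) (nat_lit 473520310) (nat_lit 134) (nat_lit 1) (nat_lit 129) (nat_lit 1) (nat_lit 133) (nat_lit 1) (nat_lit 376) (nat_lit 433) (nat_lit 331))))) (XT.nd (nat_lit 234) (nat_lit 608) (nat_lit 0) (XT.nd (nat_lit 78) (nat_lit 304) (nat_lit 0) (XT.lf (nat_lit 76) (nat_lit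 1336070164) (nat_lit 0) (nat_lit 2183441300) (nat_lit 380) (nat_lit 1336070164) (nat_lit 130) (nat_lit 1) (nat_lit 129) (nat_lit 1) (nat_lit 134) (nat_lit 1) (nat_lit 377) (nat_lit 433) (nat_lit 330)) (XT.nd (nat_lit 78) (nat_lit 0) (nat_lit 0) (XT.lf (nat_lit 380) (nat_lit 1410317941) (nat_lit 0) (nat_lit 1704840957) (nat_lit 304) (nat_lit 1704840957) (nat_lit 130) (nat_lit 1) (nat_lit 125) (nat_lit 1) (nat_lit 129) (nat_lit 1) (nat_lit 378) (nat_lit 433) (nat_lit 329)) (XT.lf (nat_lit 76) (nat_lit 81948657) (nat_lit 0) (nat_lit 4621035313) (nat_lit 380) (nat_lit 81948657) (nat_lit 126) (nat_lit 1) (nat_lit 125) (nat_lit 1) (nat_lit 130) (nat_lit 1) (nat_lit 379) (nat_lit 433) (nat_lit 328)))) (XT.nd (nat_lit 78) (nat_lit 304) (nat_lit 0) (XT.lf (nat_lit 76) (nat_lit 1837802991) (nat_lit 0) (nat_lit 1074209558) (nat_lit 304) (nat_lit 1837802991) (nat_lit 122) (nat_lit 1) (nat_lit 121) (nat_lit 1) (nat_lit 125) (nat_lit 1) (nat_lit 380)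 (nat_lit 433) (nat_lit 327)) (XT.nd (nat_lit 78) (nat_lit 0) (nat_lit 0) (XT.lf (nat_lit 380) (nat_lit 2421295288) (nat_lit 0) (nat_lit 1146955647) (nat_lit 304) (nat_lit 1146955647) (nat_lit 122) (nat_lit 1) (nat_lit 117) (nat_lit 1) (nat_lit 121) (nat_lit 1) (nat_lit 381) (nat_lit 433) (nat_lit 326)) (XT.lf (nat_lit 76) (nat_lit 587771926) (nat_lit 0) (nat_lit 3505417966) (nat_lit 380) (nat_lit 587771926) (nat_lit 118) (nat_lit 1) (nat_lit 117) (nat_lit 1) (nat_lit 122) (nat_lit 1) (nat_lit 382) (nat_lit 433) (nat_lit 325)))))) (XT.nd (nat_lit 468) (nat_lit 988) (nat_lit 0) (XT.nd (nat_lit 234) (nat_lit 608) (nat_lit 0) (XT.nd (nat_lit 78) (nat_lit 304) (nat_lit 0) (XT.lf (nat_lit 76) (nat_lit 2289493614) (nat_lit 0) (nat_lit 67940156) (nat_lit 304) (nat_lit 2289493614) (nat_lit 114) (nat_lit 1) (nat_lit 113) (nat_lit 1) (nat_lit 117) (nat_lit 1) (nat_lit 383) (nat_lit 433) (nat_lit 324)) (XT.nd (nat_lit 78) (nat_lit 0) (nat_lit 0)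 (XT.lf (nat_lit 380) (nat_lit 3333353075) (nat_lit 0) (nat_lit 639949069) (nat_lit 304) (nat_lit 639949069) (nat_lit 114) (nat_lit 1) (nat_lit 109) (nat_lit 1) (nat_lit 113) (nat_lit 1) (nat_lit 384) (nat_lit 433) (nat_lit 323)) (XT.lf (nat_lit 76) (nat_lit 1045033967) (nat_lit 0) (nat_lit 2489734578) (nat_lit 380) (nat_lit 1045033967) (nat_lit 110) (nat_lit 1) (nat_lit 109) (nat_lit 1) (nat_lit 114) (nat_lit 1) (nat_lit 385) (nat_lit 433) (nat_lit 322)))) (XT.nd (nat_lit 78) (nat_lit 380) (nat_lit 0) (XT.lf (nat_lit 304) (nat_lit 854781102) (nat_lit 0) (nat_lit 1845953697) (nat_lit 228) (nat_lit 1845953697) (nat_lit 110) (nat_lit 1) (nat_lit 106) (nat_lit 1) (nat_lit 109) (nat_lit 1) (nat_lit 386) (nat_lit 433) (nat_lit 321)) (XT.nd (nat_lit 78) (nat_lit 0) (nat_lit 0) (XT.lf (nat_lit 380) (nat_lit 4154454460) (nat_lit 0) (nat_lit 179782001) (nat_lit 304) (nat_lit 179782001) (nat_lit 106) (nat_lit 1) (nat_lit 101) (nat_lit 1) (nat_lit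 105) (nat_lit 1) (nat_lit 387) (nat_lit 433) (nat_lit 320)) (XT.lf (nat_lit 76) (nat_lit 1457629813) (nat_lit 0) (nat_lit 1566081102) (nat_lit 380) (nat_lit 1457629813) (nat_lit 102) (nat_lit 1) (nat_lit 101) (nat_lit 1) (nat_lit 106) (nat_lit 1) (nat_lit 388) (nat_lit 433) (nat_lit 319))))) (XT.nd (nat_lit 234) (nat_lit 456) (nat_lit 0) (XT.nd (nat_lit 78) (nat_lit 304) (nat_lit 0) (XT.lf (nat_lit 304) (nat_lit 1690059567) (nat_lit 0) (nat_lit 1379521072) (nat_lit 228) (nat_lit 1379521072) (nat_lit 102) (nat_lit 1) (nat_lit 98) (nat_lit 1) (nat_lit 101) (nat_lit 1) (nat_lit 389) (nat_lit 433) (nat_lit 318)) (XT.nd (nat_lit 78) (nat_lit 304) (nat_lit 0) (XT.lf (nat_lit 76) (nat_lit 238845295) (nat_lit 0) (nat_lit 3939584784) (nat_lit 304) (nat_lit 238845295) (nat_lit 99) (nat_lit 1) (nat_lit 98) (nat_lit 1) (nat_lit 102) (nat_lit 1) (nat_lit 390) (nat_lit 433) (nat_lit 317)) (XT.lf (nat_lit 76) (nat_lit 1829154011) (nat_lit 0) (nat_lit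 727161177) (nat_lit 304) (nat_lit 1829154011) (nat_lit 95) (nat_lit 1) (nat_lit 94) (nat_lit 1) (nat_lit 98) (nat_lit 1) (nat_lit 391) (nat_lit 433) (nat_lit 316)))) (XT.nd (nat_lit 78) (nat_lit 228) (nat_lit 0) (XT.lf (nat_lit 304) (nat_lit 2444073365) (nat_lit 0) (nat_lit 954998736) (nat_lit 228) (nat_lit 954998736) (nat_lit 95) (nat_lit 1) (nat_lit 91) (nat_lit 1) (nat_lit 94) (nat_lit 1) (nat_lit 392) (nat_lit 433) (nat_lit 315)) (XT.nd (nat_lit 78) (nat_lit 228) (nat_lit 0) (XT.lf (nat_lit 76) (nat_lit 618730657) (nat_lit 0) (nat_lit 3085509445) (nat_lit 304) (nat_lit 618730657) (nat_lit 92) (nat_lit 1) (nat_lit 91) (nat_lit 1) (nat_lit 95) (nat_lit 1) (nat_lit 393) (nat_lit 433) (nat_lit 314)) (XT.lf (nat_lit 304) (nat_lit 34208918) (nat_lit 0) (nat_lit 2128936770) (nat_lit 228) (nat_lit 2128936770) (nat_lit 92) (nat_lit 1) (nat_lit 88) (nat_lit 1) (nat_lit 91) (nat_lit 1) (nat_lit 394) (nat_lit 433) (nat_lit 313))))))) (XT.nd (nat_lit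 53898) (nat_lit 0) (nat_lit 13224) (XT.nd (nat_lit 53430) (nat_lit 0) (nat_lit 18012) (XT.nd (nat_lit 53196) (nat_lit 0) (nat_lit 20140) (XT.nd (nat_lit 53040) (nat_lit 0) (nat_lit 21584) (XT.lf (nat_lit 304) (nat_lit 3123357337) (nat_lit 0) (nat_lit 569069746) (nat_lit 228) (nat_lit 569069746) (nat_lit 88) (nat_lit 1) (nat_lit 84) (nat_lit 1) (nat_lit 87) (nat_lit 1) (nat_lit 395) (nat_lit 433) (nat_lit 312)) (XT.nd (nat_lit 78) (nat_lit 0) (nat_lit 0) (XT.lf (nat_lit 836) (nat_lit 6694868124) (nat_lit 0) (nat_lit 664043984) (nat_lit 760) (nat_lit 664043984) (nat_lit 379) (nat_lit 1) (nat_lit 368) (nat_lit 1) (nat_lit 378) (nat_lit 1) (nat_lit 314) (nat_lit 434) (nat_lit 392)) (XT.lf (nat_lit 76) (nat_lit 2789484143) (nat_lit 0) (nat_lit 2375177653) (nat_lit 836) (nat_lit 2789484143) (nat_lit 369) (nat_lit 1) (nat_lit 368) (nat_lit 1) (nat_lit 379) (nat_lit 1) (nat_lit 315) (nat_lit 434) (nat_lit 391)))) (XT.nd (nat_lit 78) (nat_lit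 684) (nat_lit 0) (XT.lf (nat_lit 836) (nat_lit 4469322670) (nat_lit 0) (nat_lit 1708527970) (nat_lit 760) (nat_lit 1708527970) (nat_lit 369) (nat_lit 1) (nat_lit 358) (nat_lit 1) (nat_lit 368) (nat_lit 1) (nat_lit 316) (nat_lit 434) (nat_lit 390)) (XT.nd (nat_lit 78) (nat_lit 684) (nat_lit 0) (XT.lf (nat_lit 76) (nat_lit 1675918323) (nat_lit 0) (nat_lit 4467523049) (nat_lit 836) (nat_lit 1675918323) (nat_lit 359) (nat_lit 1) (nat_lit 358) (nat_lit 1) (nat_lit 369) (nat_lit 1) (nat_lit 317) (nat_lit 434) (nat_lit 389)) (XT.lf (nat_lit 760) (nat_lit 2226870515) (nat_lit 0) (nat_lit 2763104028) (nat_lit 684) (nat_lit 2763104028) (nat_lit 359) (nat_lit 1) (nat_lit 349) (nat_lit 1) (nat_lit 358) (nat_lit 1) (nat_lit 318) (nat_lit 434) (nat_lit 388))))) (XT.nd (nat_lit 234) (nat_lit 684) (nat_lit 0) (XT.nd (nat_lit 78) (nat_lit 1444) (nat_lit 0) (XT.lf (nat_lit 76) (nat_lit 554607528) (nat_lit 0) (nat_lit 6578592854) (nat_lit 760) (nat_lit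 554607528) (nat_lit 350) (nat_lit 1) (nat_lit 349) (nat_lit 1) (nat_lit 359) (nat_lit 1) (nat_lit 319) (nat_lit 434) (nat_lit 387)) (XT.nd (nat_lit 78) (nat_lit 684) (nat_lit 0) (XT.lf (nat_lit 76) (nat_lit 3796774833) (nat_lit 0) (nat_lit 29414897) (nat_lit 760) (nat_lit 3796774833) (nat_lit 340) (nat_lit 1) (nat_lit 339) (nat_lit 1) (nat_lit 349) (nat_lit 1) (nat_lit 320) (nat_lit 434) (nat_lit 386)) (XT.lf (nat_lit 760) (nat_lit 6420351374) (nat_lit 0) (nat_lit 569377059) (nat_lit 684) (nat_lit 569377059) (nat_lit 340) (nat_lit 1) (nat_lit 330) (nat_lit 1) (nat_lit 339) (nat_lit 1) (nat_lit 321) (nat_lit 434) (nat_lit 385)))) (XT.nd (nat_lit 78) (nat_lit 684) (nat_lit 0) (XT.lf (nat_lit 76) (nat_lit 2613819043) (nat_lit 0) (nat_lit 2268026769) (nat_lit 760) (nat_lit 2613819043) (nat_lit 331) (nat_lit 1) (nat_lit 330) (nat_lit 1) (nat_lit 340) (nat_lit 1) (nat_lit 322) (nat_lit 434) (nat_lit 384)) (XT.nd (nat_lit 78) (nat_lit 0) (nat_lit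 0) (XT.lf (nat_lit 760) (nat_lit 4043390105) (nat_lit 0) (nat_lit 1694892737) (nat_lit 684) (nat_lit 1694892737) (nat_lit 331) (nat_lit 1) (nat_lit 321) (nat_lit 1) (nat_lit 330) (nat_lit 1) (nat_lit 323) (nat_lit 434) (nat_lit 383)) (XT.lf (nat_lit 76) (nat_lit 1427792627) (nat_lit 0) (nat_lit 4515801282) (nat_lit 760) (nat_lit 1427792627) (nat_lit 322) (nat_lit 1) (nat_lit 321) (nat_lit 1) (nat_lit 331) (nat_lit 1) (nat_lit 324) (nat_lit 434) (nat_lit 382)))))) (XT.nd (nat_lit 468) (nat_lit 2280) (nat_lit 0) (XT.nd (nat_lit 234) (nat_lit 1216) (nat_lit 0) (XT.nd (nat_lit 78) (nat_lit 684) (nat_lit 0) (XT.lf (nat_lit 684) (nat_lit 1661361475) (nat_lit 0) (nat_lit 2824432517) (nat_lit 608) (nat_lit 2824432517) (nat_lit 322) (nat_lit 1) (nat_lit 313) (nat_lit 1) (nat_lit 321) (nat_lit 1) (nat_lit 325) (nat_lit 434) (nat_lit 381)) (XT.nd (nat_lit 78) (nat_lit 684) (nat_lit 0) (XT.lf (nat_lit 76) (nat_lit 239775727) (nat_lit 0) (nat_lit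 6770498510) (nat_lit 684) (nat_lit 239775727) (nat_lit 314) (nat_lit 1) (nat_lit 313) (nat_lit 1) (nat_lit 322) (nat_lit 1) (nat_lit 326) (nat_lit 434) (nat_lit 380)) (XT.lf (nat_lit 76) (nat_lit 3237973973) (nat_lit 0) (nat_lit 714138054) (nat_lit 684) (nat_lit 3237973973) (nat_lit 305) (nat_lit 1) (nat_lit 304) (nat_lit 1) (nat_lit 313) (nat_lit 1) (nat_lit 327) (nat_lit 434) (nat_lit 379)))) (XT.nd (nat_lit 78) (nat_lit 608) (nat_lit 0) (XT.lf (nat_lit 684) (nat_lit 5245148207) (nat_lit 0) (nat_lit 942967479) (nat_lit 608) (nat_lit 942967479) (nat_lit 305) (nat_lit 1) (nat_lit 296) (nat_lit 1) (nat_lit 304) (nat_lit 1) (nat_lit 328) (nat_lit 434) (nat_lit 378)) (XT.nd (nat_lit 78) (nat_lit 608) (nat_lit 0) (XT.lf (nat_lit 76) (nat_lit 2001872858) (nat_lit 0) (nat_lit 3068810433) (nat_lit 684) (nat_lit 2001872858) (nat_lit 297) (nat_lit 1) (nat_lit 296) (nat_lit 1) (nat_lit 305) (nat_lit 1) (nat_lit 329) (nat_lit 434) (nat_lit 377))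 (XT.lf (nat_lit 684) (nat_lit 2766494909) (nat_lit 0) (nat_lit 2124142970) (nat_lit 608) (nat_lit 2124142970) (nat_lit 297) (nat_lit 1) (nat_lit 288) (nat_lit 1) (nat_lit 296) (nat_lit 1) (nat_lit 330) (nat_lit 434) (nat_lit 376))))) (XT.nd (nat_lit 234) (nat_lit 1064) (nat_lit 0) (XT.nd (nat_lit 78) (nat_lit 1216) (nat_lit 0) (XT.lf (nat_lit 76) (nat_lit 767591381) (nat_lit 0) (nat_lit 5422596397) (nat_lit 684) (nat_lit 767591381) (nat_lit 289) (nat_lit 1) (nat_lit 288) (nat_lit 1) (nat_lit 297) (nat_lit 1) (nat_lit 331) (nat_lit 434) (nat_lit 375)) (XT.nd (nat_lit 78) (nat_lit 684) (nat_lit 0) (XT.lf (nat_lit 608) (nat_lit 292339015) (nat_lit 0) (nat_lit 3304428312) (nat_lit 532) (nat_lit 3304428312) (nat_lit 289) (nat_lit 1) (nat_lit 281) (nat_lit 1) (nat_lit 288) (nat_lit 1) (nat_lit 332) (nat_lit 434) (nat_lit 374)) (XT.lf (nat_lit 684) (nat_lit 5923476272) (nat_lit 0) (nat_lit 460982767) (nat_lit 608) (nat_lit 460982767) (nat_lit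 281) (nat_lit 1) (nat_lit 272) (nat_lit 1) (nat_lit 280) (nat_lit 1) (nat_lit 333) (nat_lit 434) (nat_lit 373)))) (XT.nd (nat_lit 156) (nat_lit 532) (nat_lit 0) (XT.nd (nat_lit 78) (nat_lit 532) (nat_lit 0) (XT.lf (nat_lit 76) (nat_lit 2321407178) (nat_lit 0) (nat_lit 2147160427) (nat_lit 684) (nat_lit 2321407178) (nat_lit 273) (nat_lit 1) (nat_lit 272) (nat_lit 1) (nat_lit 281) (nat_lit 1) (nat_lit 334) (nat_lit 434) (nat_lit 372)) (XT.lf (nat_lit 608) (nat_lit 3373137405) (nat_lit 0) (nat_lit 1681090482) (nat_lit 532) (nat_lit 1681090482) (nat_lit 273) (nat_lit 1) (nat_lit 265) (nat_lit 1) (nat_lit 272) (nat_lit 1) (nat_lit 335) (nat_lit 434) (nat_lit 371))) (XT.nd (nat_lit 78) (nat_lit 532) (nat_lit 0) (XT.lf (nat_lit 76) (nat_lit 1053008711) (nat_lit 0) (nat_lit 4575278216) (nat_lit 608) (nat_lit 1053008711) (nat_lit 266) (nat_lit 1) (nat_lit 265) (nat_lit 1) (nat_lit 273) (nat_lit 1) (nat_lit 336) (nat_lit 434) (nat_lit 370)) (XT.lf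 (nat_lit 608) (nat_lit 833642413) (nat_lit 0) (nat_lit 2897049777) (nat_lit 532) (nat_lit 2897049777) (nat_lit 266) (nat_lit 1) (nat_lit 258) (nat_lit 1) (nat_lit 265) (nat_lit 1) (nat_lit 337) (nat_lit 434) (nat_lit 369))))))))
noncomputable def ec120 : XT := (XT.nd (nat_lit 1872) (nat_lit 5320) (nat_lit 0) (XT.nd (nat_lit 936) (nat_lit 2964) (nat_lit 0) (XT.nd (nat_lit 468) (nat_lit 1444) (nat_lit 0) (XT.nd (nat_lit 234) (nat_lit 1064) (nat_lit 0) (XT.nd (nat_lit 78) (nat_lit 532) (nat_lit 0) (XT.lf (nat_lit 608) (nat_lit 6158474567) (nat_lit 0) (nat_lit 208273145) (nat_lit 532) (nat_lit 208273145) (nat_lit 258) (nat_lit 1) (nat_lit 250) (nat_lit 1) (nat_lit 257) (nat_lit 1) (nat_lit 338) (nat_lit 434) (nat_lit 368)) (XT.nd (nat_lit 78) (nat_lit 532) (nat_lit 0) (XT.lf (nat_lit 76) (nat_lit 2425470132) (nat_lit 0) (nat_lit 1671487403) (nat_lit 608) (nat_lit 2425470132) (nat_lit 251) (nat_lit 1) (nat_lit 250) (nat_lit 1) (nat_lit 258)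 (nat_lit 1) (nat_lit 339) (nat_lit 434) (nat_lit 367)) (XT.lf (nat_lit 608) (nat_lit 3558047262) (nat_lit 0) (nat_lit 1456301417) (nat_lit 532) (nat_lit 1456301417) (nat_lit 251) (nat_lit 1) (nat_lit 243) (nat_lit 1) (nat_lit 250) (nat_lit 1) (nat_lit 340) (nat_lit 434) (nat_lit 366)))) (XT.nd (nat_lit 78) (nat_lit 1064) (nat_lit 0) (XT.lf (nat_lit 76) (nat_lit 1133470938) (nat_lit 0) (nat_lit 4152483872) (nat_lit 608) (nat_lit 1133470938) (nat_lit 244) (nat_lit 1) (nat_lit 243) (nat_lit 1) (nat_lit 251) (nat_lit 1) (nat_lit 341) (nat_lit 434) (nat_lit 365)) (XT.nd (nat_lit 78) (nat_lit 608) (nat_lit 0) (XT.lf (nat_lit 532) (nat_lit 973833310) (nat_lit 0) (nat_lit 2697418411) (nat_lit 456) (nat_lit 2697418411) (nat_lit 244) (nat_lit 1) (nat_lit 237) (nat_lit 1) (nat_lit 243) (nat_lit 1) (nat_lit 342) (nat_lit 434) (nat_lit 364)) (XT.lf (nat_lit 608) (nat_lit 6020311701) (nat_lit 0) (nat_lit 149196649) (nat_lit 532) (nat_lit 149196649)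 (nat_lit 237) (nat_lit 1) (nat_lit 229) (nat_lit 1) (nat_lit 236) (nat_lit 1) (nat_lit 343) (nat_lit 434) (nat_lit 363))))) (XT.nd (nat_lit 234) (nat_lit 988) (nat_lit 0) (XT.nd (nat_lit 78) (nat_lit 456) (nat_lit 0) (XT.lf (nat_lit 76) (nat_lit 2348286632) (nat_lit 0) (nat_lit 1572240578) (nat_lit 608) (nat_lit 2348286632) (nat_lit 230) (nat_lit 1) (nat_lit 229) (nat_lit 1) (nat_lit 237) (nat_lit 1) (nat_lit 344) (nat_lit 434) (nat_lit 362)) (XT.nd (nat_lit 78) (nat_lit 0) (nat_lit 0) (XT.lf (nat_lit 532) (nat_lit 3388446796) (nat_lit 0) (nat_lit 1415625665) (nat_lit 456) (nat_lit 1415625665) (nat_lit 230) (nat_lit 1) (nat_lit 223) (nat_lit 1) (nat_lit 229) (nat_lit 1) (nat_lit 345) (nat_lit 434) (nat_lit 361)) (XT.lf (nat_lit 76) (nat_lit 1041764910) (nat_lit 0) (nat_lit 4087575641) (nat_lit 532) (nat_lit 1041764910) (nat_lit 224) (nat_lit 1) (nat_lit 223) (nat_lit 1) (nat_lit 230) (nat_lit 1) (nat_lit 346) (nat_lit 434) (nat_lit 360))))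 (XT.nd (nat_lit 78) (nat_lit 532) (nat_lit 0) (XT.lf (nat_lit 532) (nat_lit 777307509) (nat_lit 0) (nat_lit 2672815397) (nat_lit 456) (nat_lit 2672815397) (nat_lit 224) (nat_lit 1) (nat_lit 217) (nat_lit 1) (nat_lit 223) (nat_lit 1) (nat_lit 347) (nat_lit 434) (nat_lit 359)) (XT.nd (nat_lit 78) (nat_lit 0) (nat_lit 0) (XT.lf (nat_lit 532) (nat_lit 5570376905) (nat_lit 0) (nat_lit 252552632) (nat_lit 456) (nat_lit 252552632) (nat_lit 217) (nat_lit 1) (nat_lit 210) (nat_lit 1) (nat_lit 216) (nat_lit 1) (nat_lit 348) (nat_lit 434) (nat_lit 358)) (XT.lf (nat_lit 76) (nat_lit 2119794812) (nat_lit 0) (nat_lit 1788544637) (nat_lit 532) (nat_lit 2119794812) (nat_lit 211) (nat_lit 1) (nat_lit 210) (nat_lit 1) (nat_lit 217) (nat_lit 1) (nat_lit 349) (nat_lit 434) (nat_lit 357)))))) (XT.nd (nat_lit 468) (nat_lit 1216) (nat_lit 0) (XT.nd (nat_lit 234) (nat_lit 912) (nat_lit 0) (XT.nd (nat_lit 78) (nat_lit 380) (nat_lit 0) (XT.lf (nat_lit 532) (nat_lit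 2923129470) (nat_lit 0) (nat_lit 1529177276) (nat_lit 456) (nat_lit 1529177276) (nat_lit 211) (nat_lit 1) (nat_lit 204) (nat_lit 1) (nat_lit 210) (nat_lit 1) (nat_lit 350) (nat_lit 434) (nat_lit 356)) (XT.nd (nat_lit 78) (nat_lit 380) (nat_lit 0) (XT.lf (nat_lit 76) (nat_lit 806561893) (nat_lit 0) (nat_lit 4322245129) (nat_lit 532) (nat_lit 806561893) (nat_lit 205) (nat_lit 1) (nat_lit 204) (nat_lit 1) (nat_lit 211) (nat_lit 1) (nat_lit 351) (nat_lit 434) (nat_lit 355)) (XT.lf (nat_lit 456) (nat_lit 300368667) (nat_lit 0) (nat_lit 2794615898) (nat_lit 380) (nat_lit 2794615898) (nat_lit 205) (nat_lit 1) (nat_lit 199) (nat_lit 1) (nat_lit 204) (nat_lit 1) (nat_lit 352) (nat_lit 434) (nat_lit 354)))) (XT.nd (nat_lit 78) (nat_lit 380) (nat_lit 0) (XT.lf (nat_lit 532) (nat_lit 4862301638) (nat_lit 0) (nat_lit 491065586) (nat_lit 456) (nat_lit 491065586) (nat_lit 199) (nat_lit 1) (nat_lit 192) (nat_lit 1) (nat_lit 198) (nat_lit 1) (nat_lit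 353) (nat_lit 434) (nat_lit 353)) (XT.nd (nat_lit 78) (nat_lit 380) (nat_lit 0) (XT.lf (nat_lit 76) (nat_lit 1766145037) (nat_lit 0) (nat_lit 2267191098) (nat_lit 532) (nat_lit 1766145037) (nat_lit 193) (nat_lit 1) (nat_lit 192) (nat_lit 1) (nat_lit 199) (nat_lit 1) (nat_lit 354) (nat_lit 434) (nat_lit 352)) (XT.lf (nat_lit 456) (nat_lit 2213441438) (nat_lit 0) (nat_lit 1770838517) (nat_lit 380) (nat_lit 1770838517) (nat_lit 193) (nat_lit 1) (nat_lit 187) (nat_lit 1) (nat_lit 192) (nat_lit 1) (nat_lit 355) (nat_lit 434) (nat_lit 351))))) (XT.nd (nat_lit 234) (nat_lit 380) (nat_lit 0) (XT.nd (nat_lit 78) (nat_lit 836) (nat_lit 0) (XT.lf (nat_lit 76) (nat_lit 452897013) (nat_lit 0) (nat_lit 4805544183) (nat_lit 456) (nat_lit 452897013) (nat_lit 188) (nat_lit 1) (nat_lit 187) (nat_lit 1) (nat_lit 193) (nat_lit 1) (nat_lit 356) (nat_lit 434) (nat_lit 350)) (XT.nd (nat_lit 78) (nat_lit 380) (nat_lit 0) (XT.lf (nat_lit 76) (nat_lit 2632631799)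 (nat_lit 0) (nat_lit 402479915) (nat_lit 456) (nat_lit 2632631799) (nat_lit 182) (nat_lit 1) (nat_lit 181) (nat_lit 1) (nat_lit 187) (nat_lit 1) (nat_lit 357) (nat_lit 434) (nat_lit 349)) (XT.lf (nat_lit 456) (nat_lit 3942865218) (nat_lit 0) (nat_lit 840927538) (nat_lit 380) (nat_lit 840927538) (nat_lit 182) (nat_lit 1) (nat_lit 176) (nat_lit 1) (nat_lit 181) (nat_lit 1) (nat_lit 358) (nat_lit 434) (nat_lit 348)))) (XT.nd (nat_lit 78) (nat_lit 380) (nat_lit 0) (XT.lf (nat_lit 76) (nat_lit 1310142263) (nat_lit 0) (nat_lit 2961744148) (nat_lit 456) (nat_lit 1310142263) (nat_lit 177) (nat_lit 1) (nat_lit 176) (nat_lit 1) (nat_lit 182) (nat_lit 1) (nat_lit 359) (nat_lit 434) (nat_lit 347)) (XT.nd (nat_lit 78) (nat_lit 0) (nat_lit 0) (XT.lf (nat_lit 456) (nat_lit 1304151631) (nat_lit 0) (nat_lit 2117820225) (nat_lit 380) (nat_lit 2117820225) (nat_lit 177) (nat_lit 1) (nat_lit 171) (nat_lit 1) (nat_lit 176) (nat_lit 1) (nat_lit 360) (nat_lit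 434) (nat_lit 346)) (XT.lf (nat_lit 76) (nat_lit 2594248) (nat_lit 0) (nat_lit 5493025813) (nat_lit 456) (nat_lit 2594248) (nat_lit 172) (nat_lit 1) (nat_lit 171) (nat_lit 1) (nat_lit 177) (nat_lit 1) (nat_lit 361) (nat_lit 434) (nat_lit 345))))))) (XT.nd (nat_lit 936) (nat_lit 2508) (nat_lit 0) (XT.nd (nat_lit 468) (nat_lit 1292) (nat_lit 0) (XT.nd (nat_lit 234) (nat_lit 760) (nat_lit 0) (XT.nd (nat_lit 78) (nat_lit 380) (nat_lit 0) (XT.lf (nat_lit 76) (nat_lit 2084619358) (nat_lit 0) (nat_lit 1287335093) (nat_lit 380) (nat_lit 2084619358) (nat_lit 167) (nat_lit 1) (nat_lit 166) (nat_lit 1) (nat_lit 171) (nat_lit 1) (nat_lit 362) (nat_lit 434) (nat_lit 344)) (XT.nd (nat_lit 78) (nat_lit 0) (nat_lit 0) (XT.lf (nat_lit 456) (nat_lit 2852797533) (nat_lit 0) (nat_lit 1281392431) (nat_lit 380) (nat_lit 1281392431) (nat_lit 167) (nat_lit 1) (nat_lit 161) (nat_lit 1) (nat_lit 166) (nat_lit 1) (nat_lit 363) (nat_lit 434) (nat_lit 343)) (XT.lf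 (nat_lit 76) (nat_lit 771638112) (nat_lit 0) (nat_lit 3831748067) (nat_lit 456) (nat_lit 771638112) (nat_lit 162) (nat_lit 1) (nat_lit 161) (nat_lit 1) (nat_lit 167) (nat_lit 1) (nat_lit 364) (nat_lit 434) (nat_lit 342)))) (XT.nd (nat_lit 78) (nat_lit 456) (nat_lit 0) (XT.lf (nat_lit 380) (nat_lit 234222935) (nat_lit 0) (nat_lit 2550272109) (nat_lit 304) (nat_lit 2550272109) (nat_lit 162) (nat_lit 1) (nat_lit 157) (nat_lit 1) (nat_lit 161) (nat_lit 1) (nat_lit 365) (nat_lit 434) (nat_lit 341)) (XT.nd (nat_lit 78) (nat_lit 0) (nat_lit 0) (XT.lf (nat_lit 456) (nat_lit 4251193967) (nat_lit 0) (nat_lit 521900598) (nat_lit 380) (nat_lit 521900598) (nat_lit 157) (nat_lit 1) (nat_lit 151) (nat_lit 1) (nat_lit 156) (nat_lit 1) (nat_lit 366) (nat_lit 434) (nat_lit 340)) (XT.lf (nat_lit 76) (nat_lit 1467032603) (nat_lit 0) (nat_lit 2321355959) (nat_lit 456) (nat_lit 1467032603) (nat_lit 152) (nat_lit 1) (nat_lit 151) (nat_lit 1) (nat_lit 157) (nat_lit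 1) (nat_lit 367) (nat_lit 434) (nat_lit 339))))) (XT.nd (nat_lit 234) (nat_lit 608) (nat_lit 0) (XT.nd (nat_lit 78) (nat_lit 380) (nat_lit 0) (XT.lf (nat_lit 380) (nat_lit 1627490421) (nat_lit 0) (nat_lit 1794416628) (nat_lit 304) (nat_lit 1794416628) (nat_lit 152) (nat_lit 1) (nat_lit 147) (nat_lit 1) (nat_lit 151) (nat_lit 1) (nat_lit 368) (nat_lit 434) (nat_lit 338)) (XT.nd (nat_lit 78) (nat_lit 380) (nat_lit 0) (XT.lf (nat_lit 76) (nat_lit 167878333) (nat_lit 0) (nat_lit 4842024803) (nat_lit 380) (nat_lit 167878333) (nat_lit 148) (nat_lit 1) (nat_lit 147) (nat_lit 1) (nat_lit 152) (nat_lit 1) (nat_lit 369) (nat_lit 434) (nat_lit 337)) (XT.lf (nat_lit 76) (nat_lit 2094682206) (nat_lit 0) (nat_lit 949880981) (nat_lit 380) (nat_lit 2094682206) (nat_lit 143) (nat_lit 1) (nat_lit 142) (nat_lit 1) (nat_lit 147) (nat_lit 1) (nat_lit 370) (nat_lit 434) (nat_lit 336)))) (XT.nd (nat_lit 78) (nat_lit 304) (nat_lit 0) (XT.lf (nat_lit 380) (nat_lit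 2886985497) (nat_lit 0) (nat_lit 1107135559) (nat_lit 304) (nat_lit 1107135559) (nat_lit 143) (nat_lit 1) (nat_lit 138) (nat_lit 1) (nat_lit 142) (nat_lit 1) (nat_lit 371) (nat_lit 434) (nat_lit 335)) (XT.nd (nat_lit 78) (nat_lit 304) (nat_lit 0) (XT.lf (nat_lit 76) (nat_lit 795512157) (nat_lit 0) (nat_lit 3472613518) (nat_lit 380) (nat_lit 795512157) (nat_lit 139) (nat_lit 1) (nat_lit 138) (nat_lit 1) (nat_lit 143) (nat_lit 1) (nat_lit 372) (nat_lit 434) (nat_lit 334)) (XT.lf (nat_lit 380) (nat_lit 297627993) (nat_lit 0) (nat_lit 2364340357) (nat_lit 304) (nat_lit 2364340357) (nat_lit 139) (nat_lit 1) (nat_lit 134) (nat_lit 1) (nat_lit 138) (nat_lit 1) (nat_lit 373) (nat_lit 434) (nat_lit 333)))))) (XT.nd (nat_lit 468) (nat_lit 1216) (nat_lit 0) (XT.nd (nat_lit 234) (nat_lit 608) (nat_lit 0) (XT.nd (nat_lit 78) (nat_lit 304) (nat_lit 0) (XT.lf (nat_lit 380) (nat_lit 4023438067) (nat_lit 0) (nat_lit 482990716) (nat_lit 304) (nat_lit 482990716)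 (nat_lit 134) (nat_lit 1) (nat_lit 129) (nat_lit 1) (nat_lit 133) (nat_lit 1) (nat_lit 374) (nat_lit 434) (nat_lit 332)) (XT.nd (nat_lit 78) (nat_lit 304) (nat_lit 0) (XT.lf (nat_lit 76) (nat_lit 1362791568) (nat_lit 0) (nat_lit 2227110126) (nat_lit 380) (nat_lit 1362791568) (nat_lit 130) (nat_lit 1) (nat_lit 129) (nat_lit 1) (nat_lit 134) (nat_lit 1) (nat_lit 375) (nat_lit 434) (nat_lit 331)) (XT.lf (nat_lit 380) (nat_lit 1438524300) (nat_lit 0) (nat_lit 1738937776) (nat_lit 304) (nat_lit 1738937776) (nat_lit 130) (nat_lit 1) (nat_lit 125) (nat_lit 1) (nat_lit 129) (nat_lit 1) (nat_lit 376) (nat_lit 434) (nat_lit 330)))) (XT.nd (nat_lit 78) (nat_lit 608) (nat_lit 0) (XT.lf (nat_lit 76) (nat_lit 83587630) (nat_lit 0) (nat_lit 4713456019) (nat_lit 380) (nat_lit 83587630) (nat_lit 126) (nat_lit 1) (nat_lit 125) (nat_lit 1) (nat_lit 130) (nat_lit 1) (nat_lit 377) (nat_lit 434) (nat_lit 329)) (XT.nd (nat_lit 78) (nat_lit 304) (nat_lit 0)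 (XT.lf (nat_lit 76) (nat_lit 1874559051) (nat_lit 0) (nat_lit 1095693750) (nat_lit 304) (nat_lit 1874559051) (nat_lit 122) (nat_lit 1) (nat_lit 121) (nat_lit 1) (nat_lit 125) (nat_lit 1) (nat_lit 378) (nat_lit 434) (nat_lit 328)) (XT.lf (nat_lit 380) (nat_lit 2469721193) (nat_lit 0) (nat_lit 1169894760) (nat_lit 304) (nat_lit 1169894760) (nat_lit 122) (nat_lit 1) (nat_lit 117) (nat_lit 1) (nat_lit 121) (nat_lit 1) (nat_lit 379) (nat_lit 434) (nat_lit 327))))) (XT.nd (nat_lit 234) (nat_lit 608) (nat_lit 0) (XT.nd (nat_lit 78) (nat_lit 608) (nat_lit 0) (XT.lf (nat_lit 76) (nat_lit 599527364) (nat_lit 0) (nat_lit 3575526325) (nat_lit 380) (nat_lit 599527364) (nat_lit 118) (nat_lit 1) (nat_lit 117) (nat_lit 1) (nat_lit 122) (nat_lit 1) (nat_lit 380) (nat_lit 434) (nat_lit 326)) (XT.nd (nat_lit 78) (nat_lit 304) (nat_lit 0) (XT.lf (nat_lit 76) (nat_lit 2335283486) (nat_lit 0) (nat_lit 69298959) (nat_lit 304) (nat_lit 2335283486) (nat_lit 114)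 (nat_lit 1) (nat_lit 113) (nat_lit 1) (nat_lit 117) (nat_lit 1) (nat_lit 381) (nat_lit 434) (nat_lit 325)) (XT.lf (nat_lit 380) (nat_lit 3400020136) (nat_lit 0) (nat_lit 652748050) (nat_lit 304) (nat_lit 652748050) (nat_lit 114) (nat_lit 1) (nat_lit 109) (nat_lit 1) (nat_lit 113) (nat_lit 1) (nat_lit 382) (nat_lit 434) (nat_lit 324)))) (XT.nd (nat_lit 78) (nat_lit 608) (nat_lit 0) (XT.lf (nat_lit 76) (nat_lit 1065934646) (nat_lit 0) (nat_lit 2539529270) (nat_lit 380) (nat_lit 1065934646) (nat_lit 110) (nat_lit 1) (nat_lit 109) (nat_lit 1) (nat_lit 114) (nat_lit 1) (nat_lit 383) (nat_lit 434) (nat_lit 323)) (XT.nd (nat_lit 78) (nat_lit 380) (nat_lit 0) (XT.lf (nat_lit 304) (nat_lit 871876724) (nat_lit 0) (nat_lit 1882872771) (nat_lit 228) (nat_lit 1882872771) (nat_lit 110) (nat_lit 1) (nat_lit 106) (nat_lit 1) (nat_lit 109) (nat_lit 1) (nat_lit 384) (nat_lit 434) (nat_lit 322)) (XT.lf (nat_lit 380) (nat_lit 4237543549) (nat_lit 0) (nat_lit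 183377641) (nat_lit 304) (nat_lit 183377641) (nat_lit 106) (nat_lit 1) (nat_lit 101) (nat_lit 1) (nat_lit 105) (nat_lit 1) (nat_lit 385) (nat_lit 434) (nat_lit 321))))))))
noncomputable def ec121 : XT := (XT.nd (nat_lit 55224) (nat_lit 0) (nat_lit 6688) (XT.nd (nat_lit 54288) (nat_lit 0) (nat_lit 13984) (XT.nd (nat_lit 468) (nat_lit 228) (nat_lit 0) (XT.nd (nat_lit 234) (nat_lit 532) (nat_lit 0) (XT.nd (nat_lit 78) (nat_lit 228) (nat_lit 0) (XT.lf (nat_lit 76) (nat_lit 1486782410) (nat_lit 0) (nat_lit 1597402724) (nat_lit 380) (nat_lit 1486782410) (nat_lit 102) (nat_lit 1) (nat_lit 101) (nat_lit 1) (nat_lit 106) (nat_lit 1) (nat_lit 386) (nat_lit 434) (nat_lit 320)) (XT.nd (nat_lit 78) (nat_lit 0) (nat_lit 0) (XT.lf (nat_lit 304) (nat_lit 1723860758) (nat_lit 0) (nat_lit 1407111494) (nat_lit 228) (nat_lit 1407111494) (nat_lit 102) (nat_lit 1) (nat_lit 98) (nat_lit 1) (nat_lit 101) (nat_lit 1) (nat_lit 387) (nat_lit 434) (nat_lit 319))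 (XT.lf (nat_lit 76) (nat_lit 243622201) (nat_lit 0) (nat_lit 4018376479) (nat_lit 304) (nat_lit 243622201) (nat_lit 99) (nat_lit 1) (nat_lit 98) (nat_lit 1) (nat_lit 102) (nat_lit 1) (nat_lit 388) (nat_lit 434) (nat_lit 318)))) (XT.nd (nat_lit 78) (nat_lit 228) (nat_lit 0) (XT.lf (nat_lit 76) (nat_lit 1865737091) (nat_lit 0) (nat_lit 741704400) (nat_lit 304) (nat_lit 1865737091) (nat_lit 95) (nat_lit 1) (nat_lit 94) (nat_lit 1) (nat_lit 98) (nat_lit 1) (nat_lit 389) (nat_lit 434) (nat_lit 317)) (XT.nd (nat_lit 78) (nat_lit 0) (nat_lit 0) (XT.lf (nat_lit 304) (nat_lit 2492954833) (nat_lit 0) (nat_lit 974098711) (nat_lit 228) (nat_lit 974098711) (nat_lit 95) (nat_lit 1) (nat_lit 91) (nat_lit 1) (nat_lit 94) (nat_lit 1) (nat_lit 390) (nat_lit 434) (nat_lit 316)) (XT.lf (nat_lit 76) (nat_lit 631105270) (nat_lit 0) (nat_lit 3147219634) (nat_lit 304) (nat_lit 631105270) (nat_lit 92) (nat_lit 1) (nat_lit 91) (nat_lit 1) (nat_lit 95) (nat_lit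 1) (nat_lit 391) (nat_lit 434) (nat_lit 315))))) (XT.nd (nat_lit 53586) (nat_lit 0) (nat_lit 18392) (XT.nd (nat_lit 53430) (nat_lit 0) (nat_lit 19836) (XT.lf (nat_lit 304) (nat_lit 34893097) (nat_lit 0) (nat_lit 2171515505) (nat_lit 228) (nat_lit 2171515505) (nat_lit 92) (nat_lit 1) (nat_lit 88) (nat_lit 1) (nat_lit 91) (nat_lit 1) (nat_lit 392) (nat_lit 434) (nat_lit 314)) (XT.nd (nat_lit 78) (nat_lit 0) (nat_lit 0) (XT.lf (nat_lit 760) (nat_lit 2271407925) (nat_lit 0) (nat_lit 2818366108) (nat_lit 684) (nat_lit 2818366108) (nat_lit 359) (nat_lit 1) (nat_lit 349) (nat_lit 1) (nat_lit 358) (nat_lit 1) (nat_lit 316) (nat_lit 435) (nat_lit 389)) (XT.lf (nat_lit 76) (nat_lit 565699678) (nat_lit 0) (nat_lit 6710164711) (nat_lit 760) (nat_lit 565699678) (nat_lit 350) (nat_lit 1) (nat_lit 349) (nat_lit 1) (nat_lit 359) (nat_lit 1) (nat_lit 317) (nat_lit 435) (nat_lit 388)))) (XT.nd (nat_lit 78) (nat_lit 684) (nat_lit 0) (XT.lf (nat_lit 76)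 (nat_lit 3872710330) (nat_lit 0) (nat_lit 30003195) (nat_lit 760) (nat_lit 3872710330) (nat_lit 340) (nat_lit 1) (nat_lit 339) (nat_lit 1) (nat_lit 349) (nat_lit 1) (nat_lit 318) (nat_lit 435) (nat_lit 387)) (XT.nd (nat_lit 78) (nat_lit 0) (nat_lit 0) (XT.lf (nat_lit 760) (nat_lit 6548758402) (nat_lit 0) (nat_lit 580764600) (nat_lit 684) (nat_lit 580764600) (nat_lit 340) (nat_lit 1) (nat_lit 330) (nat_lit 1) (nat_lit 339) (nat_lit 1) (nat_lit 319) (nat_lit 435) (nat_lit 386)) (XT.lf (nat_lit 76) (nat_lit 2666095424) (nat_lit 0) (nat_lit 2313387304) (nat_lit 760) (nat_lit 2666095424) (nat_lit 331) (nat_lit 1) (nat_lit 330) (nat_lit 1) (nat_lit 340) (nat_lit 1) (nat_lit 320) (nat_lit 435) (nat_lit 385)))))) (XT.nd (nat_lit 468) (nat_lit 1824) (nat_lit 0) (XT.nd (nat_lit 234) (nat_lit 1292) (nat_lit 0) (XT.nd (nat_lit 78) (nat_lit 608) (nat_lit 0) (XT.lf (nat_lit 760) (nat_lit 4124257907) (nat_lit 0) (nat_lit 1728790592) (nat_lit 684) (nat_lit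 1728790592) (nat_lit 331) (nat_lit 1) (nat_lit 321) (nat_lit 1) (nat_lit 330) (nat_lit 1) (nat_lit 321) (nat_lit 435) (nat_lit 384)) (XT.nd (nat_lit 78) (nat_lit 608) (nat_lit 0) (XT.lf (nat_lit 76) (nat_lit 1456348479) (nat_lit 0) (nat_lit 4606117308) (nat_lit 760) (nat_lit 1456348479) (nat_lit 322) (nat_lit 1) (nat_lit 321) (nat_lit 1) (nat_lit 331) (nat_lit 1) (nat_lit 322) (nat_lit 435) (nat_lit 383)) (XT.lf (nat_lit 684) (nat_lit 1694588704) (nat_lit 0) (nat_lit 2880921167) (nat_lit 608) (nat_lit 2880921167) (nat_lit 322) (nat_lit 1) (nat_lit 313) (nat_lit 1) (nat_lit 321) (nat_lit 1) (nat_lit 323) (nat_lit 435) (nat_lit 382)))) (XT.nd (nat_lit 78) (nat_lit 1292) (nat_lit 0) (XT.lf (nat_lit 76) (nat_lit 244571242) (nat_lit 0) (nat_lit 6905908480) (nat_lit 684) (nat_lit 244571242) (nat_lit 314) (nat_lit 1) (nat_lit 313) (nat_lit 1) (nat_lit 322) (nat_lit 1) (nat_lit 324) (nat_lit 435) (nat_lit 381)) (XT.nd (nat_lit 78) (nat_lit 608)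 (nat_lit 0) (XT.lf (nat_lit 76) (nat_lit 3302733452) (nat_lit 0) (nat_lit 728420815) (nat_lit 684) (nat_lit 3302733452) (nat_lit 305) (nat_lit 1) (nat_lit 304) (nat_lit 1) (nat_lit 313) (nat_lit 1) (nat_lit 325) (nat_lit 435) (nat_lit 380)) (XT.lf (nat_lit 684) (nat_lit 5350051172) (nat_lit 0) (nat_lit 961826828) (nat_lit 608) (nat_lit 961826828) (nat_lit 305) (nat_lit 1) (nat_lit 296) (nat_lit 1) (nat_lit 304) (nat_lit 1) (nat_lit 326) (nat_lit 435) (nat_lit 379))))) (XT.nd (nat_lit 234) (nat_lit 1216) (nat_lit 0) (XT.nd (nat_lit 78) (nat_lit 608) (nat_lit 0) (XT.lf (nat_lit 76) (nat_lit 2041910315) (nat_lit 0) (nat_lit 3130186641) (nat_lit 684) (nat_lit 2041910315) (nat_lit 297) (nat_lit 1) (nat_lit 296) (nat_lit 1) (nat_lit 305) (nat_lit 1) (nat_lit 327) (nat_lit 435) (nat_lit 378)) (XT.nd (nat_lit 78) (nat_lit 0) (nat_lit 0) (XT.lf (nat_lit 684) (nat_lit 2821824807) (nat_lit 0) (nat_lit 2166625829) (nat_lit 608) (nat_lit 2166625829)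 (nat_lit 297) (nat_lit 1) (nat_lit 288) (nat_lit 1) (nat_lit 296) (nat_lit 1) (nat_lit 328) (nat_lit 435) (nat_lit 377)) (XT.lf (nat_lit 76) (nat_lit 782943208) (nat_lit 0) (nat_lit 5531048325) (nat_lit 684) (nat_lit 782943208) (nat_lit 289) (nat_lit 1) (nat_lit 288) (nat_lit 1) (nat_lit 297) (nat_lit 1) (nat_lit 329) (nat_lit 435) (nat_lit 376)))) (XT.nd (nat_lit 78) (nat_lit 684) (nat_lit 0) (XT.lf (nat_lit 608) (nat_lit 298185795) (nat_lit 0) (nat_lit 3370516879) (nat_lit 532) (nat_lit 3370516879) (nat_lit 289) (nat_lit 1) (nat_lit 281) (nat_lit 1) (nat_lit 288) (nat_lit 1) (nat_lit 330) (nat_lit 435) (nat_lit 375)) (XT.nd (nat_lit 78) (nat_lit 0) (nat_lit 0) (XT.lf (nat_lit 684) (nat_lit 6041945797) (nat_lit 0) (nat_lit 470202422) (nat_lit 608) (nat_lit 470202422) (nat_lit 281) (nat_lit 1) (nat_lit 272) (nat_lit 1) (nat_lit 280) (nat_lit 1) (nat_lit 331) (nat_lit 435) (nat_lit 374)) (XT.lf (nat_lit 76) (nat_lit 2367835322) (nat_lit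 0) (nat_lit 2190103636) (nat_lit 684) (nat_lit 2367835322) (nat_lit 273) (nat_lit 1) (nat_lit 272) (nat_lit 1) (nat_lit 281) (nat_lit 1) (nat_lit 332) (nat_lit 435) (nat_lit 373))))))) (XT.nd (nat_lit 936) (nat_lit 3572) (nat_lit 0) (XT.nd (nat_lit 468) (nat_lit 1520) (nat_lit 0) (XT.nd (nat_lit 234) (nat_lit 1140) (nat_lit 0) (XT.nd (nat_lit 78) (nat_lit 532) (nat_lit 0) (XT.lf (nat_lit 608) (nat_lit 3440600153) (nat_lit 0) (nat_lit 1714712292) (nat_lit 532) (nat_lit 1714712292) (nat_lit 273) (nat_lit 1) (nat_lit 265) (nat_lit 1) (nat_lit 272) (nat_lit 1) (nat_lit 333) (nat_lit 435) (nat_lit 372)) (XT.nd (nat_lit 78) (nat_lit 532) (nat_lit 0) (XT.lf (nat_lit 76) (nat_lit 1074068885) (nat_lit 0) (nat_lit 4666783781) (nat_lit 608) (nat_lit 1074068885) (nat_lit 266) (nat_lit 1) (nat_lit 265) (nat_lit 1) (nat_lit 273) (nat_lit 1) (nat_lit 334) (nat_lit 435) (nat_lit 371)) (XT.lf (nat_lit 608) (nat_lit 850315261) (nat_lit 0) (nat_lit 2954990773)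 (nat_lit 532) (nat_lit 2954990773) (nat_lit 266) (nat_lit 1) (nat_lit 258) (nat_lit 1) (nat_lit 265) (nat_lit 1) (nat_lit 335) (nat_lit 435) (nat_lit 370)))) (XT.nd (nat_lit 78) (nat_lit 532) (nat_lit 0) (XT.lf (nat_lit 608) (nat_lit 6281644058) (nat_lit 0) (nat_lit 212438608) (nat_lit 532) (nat_lit 212438608) (nat_lit 258) (nat_lit 1) (nat_lit 250) (nat_lit 1) (nat_lit 257) (nat_lit 1) (nat_lit 336) (nat_lit 435) (nat_lit 369)) (XT.nd (nat_lit 78) (nat_lit 532) (nat_lit 0) (XT.lf (nat_lit 76) (nat_lit 2473979535) (nat_lit 0) (nat_lit 1704917151) (nat_lit 608) (nat_lit 2473979535) (nat_lit 251) (nat_lit 1) (nat_lit 250) (nat_lit 1) (nat_lit 258) (nat_lit 1) (nat_lit 337) (nat_lit 435) (nat_lit 368)) (XT.lf (nat_lit 608) (nat_lit 3629208208) (nat_lit 0) (nat_lit 1485427445) (nat_lit 532) (nat_lit 1485427445) (nat_lit 251) (nat_lit 1) (nat_lit 243) (nat_lit 1) (nat_lit 250) (nat_lit 1) (nat_lit 338) (nat_lit 435) (nat_lit 367))))) (XT.nd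 (nat_lit 234) (nat_lit 456) (nat_lit 0) (XT.nd (nat_lit 78) (nat_lit 1064) (nat_lit 0) (XT.lf (nat_lit 76) (nat_lit 1156140357) (nat_lit 0) (nat_lit 4235533549) (nat_lit 608) (nat_lit 1156140357) (nat_lit 244) (nat_lit 1) (nat_lit 243) (nat_lit 1) (nat_lit 251) (nat_lit 1) (nat_lit 339) (nat_lit 435) (nat_lit 366)) (XT.nd (nat_lit 78) (nat_lit 608) (nat_lit 0) (XT.lf (nat_lit 532) (nat_lit 993309976) (nat_lit 0) (nat_lit 2751366780) (nat_lit 456) (nat_lit 2751366780) (nat_lit 244) (nat_lit 1) (nat_lit 237) (nat_lit 1) (nat_lit 243) (nat_lit 1) (nat_lit 340) (nat_lit 435) (nat_lit 365)) (XT.lf (nat_lit 608) (nat_lit 6140717935) (nat_lit 0) (nat_lit 152180582) (nat_lit 532) (nat_lit 152180582) (nat_lit 237) (nat_lit 1) (nat_lit 229) (nat_lit 1) (nat_lit 236) (nat_lit 1) (nat_lit 341) (nat_lit 435) (nat_lit 364)))) (XT.nd (nat_lit 78) (nat_lit 456) (nat_lit 0) (XT.lf (nat_lit 76) (nat_lit 2395252365) (nat_lit 0) (nat_lit 1603685390) (nat_lit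 608) (nat_lit 2395252365) (nat_lit 230) (nat_lit 1) (nat_lit 229) (nat_lit 1) (nat_lit 237) (nat_lit 1) (nat_lit 342) (nat_lit 435) (nat_lit 363)) (XT.nd (nat_lit 78) (nat_lit 0) (nat_lit 0) (XT.lf (nat_lit 532) (nat_lit 3456215732) (nat_lit 0) (nat_lit 1443938178) (nat_lit 456) (nat_lit 1443938178) (nat_lit 230) (nat_lit 1) (nat_lit 223) (nat_lit 1) (nat_lit 229) (nat_lit 1) (nat_lit 343) (nat_lit 435) (nat_lit 362)) (XT.lf (nat_lit 76) (nat_lit 1062600209) (nat_lit 0) (nat_lit 4169327154) (nat_lit 532) (nat_lit 1062600209) (nat_lit 224) (nat_lit 1) (nat_lit 223) (nat_lit 1) (nat_lit 230) (nat_lit 1) (nat_lit 344) (nat_lit 435) (nat_lit 361)))))) (XT.nd (nat_lit 468) (nat_lit 1748) (nat_lit 0) (XT.nd (nat_lit 234) (nat_lit 836) (nat_lit 0) (XT.nd (nat_lit 78) (nat_lit 532) (nat_lit 0) (XT.lf (nat_lit 532) (nat_lit 792853659) (nat_lit 0) (nat_lit 2726271704) (nat_lit 456) (nat_lit 2726271704) (nat_lit 224) (nat_lit 1) (nat_lit 217) (nat_lit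 1) (nat_lit 223) (nat_lit 1) (nat_lit 345) (nat_lit 435) (nat_lit 360)) (XT.nd (nat_lit 78) (nat_lit 0) (nat_lit 0) (XT.lf (nat_lit 532) (nat_lit 5681784443) (nat_lit 0) (nat_lit 257603685) (nat_lit 456) (nat_lit 257603685) (nat_lit 217) (nat_lit 1) (nat_lit 210) (nat_lit 1) (nat_lit 216) (nat_lit 1) (nat_lit 346) (nat_lit 435) (nat_lit 359)) (XT.lf (nat_lit 76) (nat_lit 2162190708) (nat_lit 0) (nat_lit 1824315530) (nat_lit 532) (nat_lit 2162190708) (nat_lit 211) (nat_lit 1) (nat_lit 210) (nat_lit 1) (nat_lit 217) (nat_lit 1) (nat_lit 347) (nat_lit 435) (nat_lit 358)))) (XT.nd (nat_lit 78) (nat_lit 380) (nat_lit 0) (XT.lf (nat_lit 532) (nat_lit 2981592060) (nat_lit 0) (nat_lit 1559760821) (nat_lit 456) (nat_lit 1559760821) (nat_lit 211) (nat_lit 1) (nat_lit 204) (nat_lit 1) (nat_lit 210) (nat_lit 1) (nat_lit 348) (nat_lit 435) (nat_lit 357)) (XT.nd (nat_lit 78) (nat_lit 380) (nat_lit 0) (XT.lf (nat_lit 76) (nat_lit 822693131) (nat_lit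 0) (nat_lit 4408690031) (nat_lit 532) (nat_lit 822693131) (nat_lit 205) (nat_lit 1) (nat_lit 204) (nat_lit 1) (nat_lit 211) (nat_lit 1) (nat_lit 349) (nat_lit 435) (nat_lit 356)) (XT.lf (nat_lit 456) (nat_lit 306376041) (nat_lit 0) (nat_lit 2850508215) (nat_lit 380) (nat_lit 2850508215) (nat_lit 205) (nat_lit 1) (nat_lit 199) (nat_lit 1) (nat_lit 204) (nat_lit 1) (nat_lit 350) (nat_lit 435) (nat_lit 355))))) (XT.nd (nat_lit 234) (nat_lit 836) (nat_lit 0) (XT.nd (nat_lit 78) (nat_lit 380) (nat_lit 0) (XT.lf (nat_lit 532) (nat_lit 4959547670) (nat_lit 0) (nat_lit 500886897) (nat_lit 456) (nat_lit 500886897) (nat_lit 199) (nat_lit 1) (nat_lit 192) (nat_lit 1) (nat_lit 198) (nat_lit 1) (nat_lit 351) (nat_lit 435) (nat_lit 354)) (XT.nd (nat_lit 78) (nat_lit 380) (nat_lit 0) (XT.lf (nat_lit 76) (nat_lit 1801467938) (nat_lit 0) (nat_lit 2312534920) (nat_lit 532) (nat_lit 1801467938) (nat_lit 193) (nat_lit 1) (nat_lit 192) (nat_lit 1) (nat_lit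 199) (nat_lit 1) (nat_lit 352) (nat_lit 435) (nat_lit 353)) (XT.lf (nat_lit 456) (nat_lit 2257710267) (nat_lit 0) (nat_lit 1806255288) (nat_lit 380) (nat_lit 1806255288) (nat_lit 193) (nat_lit 1) (nat_lit 187) (nat_lit 1) (nat_lit 192) (nat_lit 1) (nat_lit 353) (nat_lit 435) (nat_lit 352)))) (XT.nd (nat_lit 156) (nat_lit 380) (nat_lit 0) (XT.nd (nat_lit 78) (nat_lit 456) (nat_lit 0) (XT.lf (nat_lit 76) (nat_lit 461954953) (nat_lit 0) (nat_lit 4901655067) (nat_lit 456) (nat_lit 461954953) (nat_lit 188) (nat_lit 1) (nat_lit 187) (nat_lit 1) (nat_lit 193) (nat_lit 1) (nat_lit 354) (nat_lit 435) (nat_lit 351)) (XT.lf (nat_lit 76) (nat_lit 2685284435) (nat_lit 0) (nat_lit 410529513) (nat_lit 456) (nat_lit 2685284435) (nat_lit 182) (nat_lit 1) (nat_lit 181) (nat_lit 1) (nat_lit 187) (nat_lit 1) (nat_lit 355) (nat_lit 435) (nat_lit 350))) (XT.nd (nat_lit 78) (nat_lit 0) (nat_lit 0) (XT.lf (nat_lit 456) (nat_lit 4021722522) (nat_lit 0) (nat_lit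 857746089) (nat_lit 380) (nat_lit 857746089) (nat_lit 182) (nat_lit 1) (nat_lit 176) (nat_lit 1) (nat_lit 181) (nat_lit 1) (nat_lit 356) (nat_lit 435) (nat_lit 349)) (XT.lf (nat_lit 76) (nat_lit 1336345108) (nat_lit 0) (nat_lit 3020979031) (nat_lit 456) (nat_lit 1336345108) (nat_lit 177) (nat_lit 1) (nat_lit 176) (nat_lit 1) (nat_lit 182) (nat_lit 1) (nat_lit 357) (nat_lit 435) (nat_lit 348))))))))
noncomputable def ec122 : XT := (XT.nd (nat_lit 1872) (nat_lit 1368) (nat_lit 0) (XT.nd (nat_lit 936) (nat_lit 2204) (nat_lit 0) (XT.nd (nat_lit 468) (nat_lit 1444) (nat_lit 0) (XT.nd (nat_lit 234) (nat_lit 684) (nat_lit 0) (XT.nd (nat_lit 78) (nat_lit 380) (nat_lit 0) (XT.lf (nat_lit 456) (nat_lit 1330234663) (nat_lit 0) (nat_lit 2160176630) (nat_lit 380) (nat_lit 2160176630) (nat_lit 177) (nat_lit 1) (nat_lit 171) (nat_lit 1) (nat_lit 176) (nat_lit 1) (nat_lit 358) (nat_lit 435) (nat_lit 347)) (XT.nd (nat_lit 78) (nat_lit 380) (nat_lit 0)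 (XT.lf (nat_lit 76) (nat_lit 2646133) (nat_lit 0) (nat_lit 5602886330) (nat_lit 456) (nat_lit 2646133) (nat_lit 172) (nat_lit 1) (nat_lit 171) (nat_lit 1) (nat_lit 177) (nat_lit 1) (nat_lit 359) (nat_lit 435) (nat_lit 346)) (XT.lf (nat_lit 76) (nat_lit 2126311745) (nat_lit 0) (nat_lit 1313081794) (nat_lit 380) (nat_lit 2126311745) (nat_lit 167) (nat_lit 1) (nat_lit 166) (nat_lit 1) (nat_lit 171) (nat_lit 1) (nat_lit 360) (nat_lit 435) (nat_lit 345)))) (XT.nd (nat_lit 78) (nat_lit 304) (nat_lit 0) (XT.lf (nat_lit 456) (nat_lit 2909853484) (nat_lit 0) (nat_lit 1307020280) (nat_lit 380) (nat_lit 1307020280) (nat_lit 167) (nat_lit 1) (nat_lit 161) (nat_lit 1) (nat_lit 166) (nat_lit 1) (nat_lit 361) (nat_lit 435) (nat_lit 344)) (XT.nd (nat_lit 78) (nat_lit 304) (nat_lit 0) (XT.lf (nat_lit 76) (nat_lit 787070874) (nat_lit 0) (nat_lit 3908383029) (nat_lit 456) (nat_lit 787070874) (nat_lit 162) (nat_lit 1) (nat_lit 161) (nat_lit 1) (nat_lit 167)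 (nat_lit 1) (nat_lit 362) (nat_lit 435) (nat_lit 343)) (XT.lf (nat_lit 380) (nat_lit 238907394) (nat_lit 0) (nat_lit 2601277551) (nat_lit 304) (nat_lit 2601277551) (nat_lit 162) (nat_lit 1) (nat_lit 157) (nat_lit 1) (nat_lit 161) (nat_lit 1) (nat_lit 363) (nat_lit 435) (nat_lit 342))))) (XT.nd (nat_lit 234) (nat_lit 684) (nat_lit 0) (XT.nd (nat_lit 78) (nat_lit 304) (nat_lit 0) (XT.lf (nat_lit 456) (nat_lit 4336217846) (nat_lit 0) (nat_lit 532338610) (nat_lit 380) (nat_lit 532338610) (nat_lit 157) (nat_lit 1) (nat_lit 151) (nat_lit 1) (nat_lit 156) (nat_lit 1) (nat_lit 364) (nat_lit 435) (nat_lit 341)) (XT.nd (nat_lit 78) (nat_lit 304) (nat_lit 0) (XT.lf (nat_lit 76) (nat_lit 1496373255) (nat_lit 0) (nat_lit 2367783079) (nat_lit 456) (nat_lit 1496373255) (nat_lit 152) (nat_lit 1) (nat_lit 151) (nat_lit 1) (nat_lit 157) (nat_lit 1) (nat_lit 365) (nat_lit 435) (nat_lit 340)) (XT.lf (nat_lit 380) (nat_lit 1660040230) (nat_lit 0) (nat_lit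 1830304960) (nat_lit 304) (nat_lit 1830304960) (nat_lit 152) (nat_lit 1) (nat_lit 147) (nat_lit 1) (nat_lit 151) (nat_lit 1) (nat_lit 366) (nat_lit 435) (nat_lit 339)))) (XT.nd (nat_lit 78) (nat_lit 684) (nat_lit 0) (XT.lf (nat_lit 76) (nat_lit 171235900) (nat_lit 0) (nat_lit 4938865299) (nat_lit 380) (nat_lit 171235900) (nat_lit 148) (nat_lit 1) (nat_lit 147) (nat_lit 1) (nat_lit 152) (nat_lit 1) (nat_lit 367) (nat_lit 435) (nat_lit 338)) (XT.nd (nat_lit 78) (nat_lit 304) (nat_lit 0) (XT.lf (nat_lit 76) (nat_lit 2136575850) (nat_lit 0) (nat_lit 968878601) (nat_lit 380) (nat_lit 2136575850) (nat_lit 143) (nat_lit 1) (nat_lit 142) (nat_lit 1) (nat_lit 147) (nat_lit 1) (nat_lit 368) (nat_lit 435) (nat_lit 337)) (XT.lf (nat_lit 380) (nat_lit 2944725207) (nat_lit 0) (nat_lit 1129278271) (nat_lit 304) (nat_lit 1129278271) (nat_lit 143) (nat_lit 1) (nat_lit 138) (nat_lit 1) (nat_lit 142) (nat_lit 1) (nat_lit 369) (nat_lit 435) (nat_lit 336))))))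 (XT.nd (nat_lit 468) (nat_lit 1216) (nat_lit 0) (XT.nd (nat_lit 234) (nat_lit 304) (nat_lit 0) (XT.nd (nat_lit 78) (nat_lit 684) (nat_lit 0) (XT.lf (nat_lit 76) (nat_lit 811422400) (nat_lit 0) (nat_lit 3542065789) (nat_lit 380) (nat_lit 811422400) (nat_lit 139) (nat_lit 1) (nat_lit 138) (nat_lit 1) (nat_lit 143) (nat_lit 1) (nat_lit 370) (nat_lit 435) (nat_lit 335)) (XT.nd (nat_lit 78) (nat_lit 380) (nat_lit 0) (XT.lf (nat_lit 380) (nat_lit 303580553) (nat_lit 0) (nat_lit 2411627165) (nat_lit 304) (nat_lit 2411627165) (nat_lit 139) (nat_lit 1) (nat_lit 134) (nat_lit 1) (nat_lit 138) (nat_lit 1) (nat_lit 371) (nat_lit 435) (nat_lit 334)) (XT.lf (nat_lit 380) (nat_lit 4103906828) (nat_lit 0) (nat_lit 492650531) (nat_lit 304) (nat_lit 492650531) (nat_lit 134) (nat_lit 1) (nat_lit 129) (nat_lit 1) (nat_lit 133) (nat_lit 1) (nat_lit 372) (nat_lit 435) (nat_lit 333)))) (XT.nd (nat_lit 78) (nat_lit 304) (nat_lit 0) (XT.lf (nat_lit 76) (nat_lit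 1390047399) (nat_lit 0) (nat_lit 2271652329) (nat_lit 380) (nat_lit 1390047399) (nat_lit 130) (nat_lit 1) (nat_lit 129) (nat_lit 1) (nat_lit 134) (nat_lit 1) (nat_lit 373) (nat_lit 435) (nat_lit 332)) (XT.nd (nat_lit 78) (nat_lit 0) (nat_lit 0) (XT.lf (nat_lit 380) (nat_lit 1467294786) (nat_lit 0) (nat_lit 1773716531) (nat_lit 304) (nat_lit 1773716531) (nat_lit 130) (nat_lit 1) (nat_lit 125) (nat_lit 1) (nat_lit 129) (nat_lit 1) (nat_lit 374) (nat_lit 435) (nat_lit 331)) (XT.lf (nat_lit 76) (nat_lit 85259383) (nat_lit 0) (nat_lit 4807725139) (nat_lit 380) (nat_lit 85259383) (nat_lit 126) (nat_lit 1) (nat_lit 125) (nat_lit 1) (nat_lit 130) (nat_lit 1) (nat_lit 375) (nat_lit 435) (nat_lit 330))))) (XT.nd (nat_lit 234) (nat_lit 608) (nat_lit 0) (XT.nd (nat_lit 78) (nat_lit 304) (nat_lit 0) (XT.lf (nat_lit 76) (nat_lit 1912050232) (nat_lit 0) (nat_lit 1117607625) (nat_lit 304) (nat_lit 1912050232) (nat_lit 122) (nat_lit 1) (nat_lit 121) (nat_lit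 1) (nat_lit 125) (nat_lit 1) (nat_lit 376) (nat_lit 435) (nat_lit 329)) (XT.nd (nat_lit 78) (nat_lit 0) (nat_lit 0) (XT.lf (nat_lit 380) (nat_lit 2519115617) (nat_lit 0) (nat_lit 1193292655) (nat_lit 304) (nat_lit 1193292655) (nat_lit 122) (nat_lit 1) (nat_lit 117) (nat_lit 1) (nat_lit 121) (nat_lit 1) (nat_lit 377) (nat_lit 435) (nat_lit 328)) (XT.lf (nat_lit 76) (nat_lit 611517911) (nat_lit 0) (nat_lit 3647036851) (nat_lit 380) (nat_lit 611517911) (nat_lit 118) (nat_lit 1) (nat_lit 117) (nat_lit 1) (nat_lit 122) (nat_lit 1) (nat_lit 378) (nat_lit 435) (nat_lit 327)))) (XT.nd (nat_lit 78) (nat_lit 304) (nat_lit 0) (XT.lf (nat_lit 76) (nat_lit 2381989156) (nat_lit 0) (nat_lit 70684938) (nat_lit 304) (nat_lit 2381989156) (nat_lit 114) (nat_lit 1) (nat_lit 113) (nat_lit 1) (nat_lit 117) (nat_lit 1) (nat_lit 379) (nat_lit 435) (nat_lit 326)) (XT.nd (nat_lit 78) (nat_lit 0) (nat_lit 0) (XT.lf (nat_lit 380) (nat_lit 3468020539) (nat_lit 0)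 (nat_lit 665803011) (nat_lit 304) (nat_lit 665803011) (nat_lit 114) (nat_lit 1) (nat_lit 109) (nat_lit 1) (nat_lit 113) (nat_lit 1) (nat_lit 380) (nat_lit 435) (nat_lit 325)) (XT.lf (nat_lit 76) (nat_lit 1087253339) (nat_lit 0) (nat_lit 2590319855) (nat_lit 380) (nat_lit 1087253339) (nat_lit 110) (nat_lit 1) (nat_lit 109) (nat_lit 1) (nat_lit 114) (nat_lit 1) (nat_lit 381) (nat_lit 435) (nat_lit 324))))))) (XT.nd (nat_lit 54678) (nat_lit 0) (nat_lit 12692) (XT.nd (nat_lit 468) (nat_lit 228) (nat_lit 0) (XT.nd (nat_lit 234) (nat_lit 532) (nat_lit 0) (XT.nd (nat_lit 78) (nat_lit 380) (nat_lit 0) (XT.lf (nat_lit 304) (nat_lit 889314258) (nat_lit 0) (nat_lit 1920530226) (nat_lit 228) (nat_lit 1920530226) (nat_lit 110) (nat_lit 1) (nat_lit 106) (nat_lit 1) (nat_lit 109) (nat_lit 1) (nat_lit 382) (nat_lit 435) (nat_lit 323)) (XT.nd (nat_lit 78) (nat_lit 0) (nat_lit 0) (XT.lf (nat_lit 380) (nat_lit 4322294420) (nat_lit 0) (nat_lit 187045194)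 (nat_lit 304) (nat_lit 187045194) (nat_lit 106) (nat_lit 1) (nat_lit 101) (nat_lit 1) (nat_lit 105) (nat_lit 1) (nat_lit 383) (nat_lit 435) (nat_lit 322)) (XT.lf (nat_lit 76) (nat_lit 1516518058) (nat_lit 0) (nat_lit 1629350778) (nat_lit 380) (nat_lit 1516518058) (nat_lit 102) (nat_lit 1) (nat_lit 101) (nat_lit 1) (nat_lit 106) (nat_lit 1) (nat_lit 384) (nat_lit 435) (nat_lit 321)))) (XT.nd (nat_lit 78) (nat_lit 304) (nat_lit 0) (XT.lf (nat_lit 304) (nat_lit 1758337974) (nat_lit 0) (nat_lit 1435253724) (nat_lit 228) (nat_lit 1435253724) (nat_lit 102) (nat_lit 1) (nat_lit 98) (nat_lit 1) (nat_lit 101) (nat_lit 1) (nat_lit 385) (nat_lit 435) (nat_lit 320)) (XT.nd (nat_lit 78) (nat_lit 304) (nat_lit 0) (XT.lf (nat_lit 76) (nat_lit 248494645) (nat_lit 0) (nat_lit 4098744009) (nat_lit 304) (nat_lit 248494645) (nat_lit 99) (nat_lit 1) (nat_lit 98) (nat_lit 1) (nat_lit 102) (nat_lit 1) (nat_lit 386) (nat_lit 435) (nat_lit 319)) (XT.lf (nat_lit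 76) (nat_lit 1903051833) (nat_lit 0) (nat_lit 756538488) (nat_lit 304) (nat_lit 1903051833) (nat_lit 95) (nat_lit 1) (nat_lit 94) (nat_lit 1) (nat_lit 98) (nat_lit 1) (nat_lit 387) (nat_lit 435) (nat_lit 318))))) (XT.nd (nat_lit 53976) (nat_lit 0) (nat_lit 16872) (XT.nd (nat_lit 78) (nat_lit 0) (nat_lit 0) (XT.lf (nat_lit 304) (nat_lit 2542813929) (nat_lit 0) (nat_lit 993580685) (nat_lit 228) (nat_lit 993580685) (nat_lit 95) (nat_lit 1) (nat_lit 91) (nat_lit 1) (nat_lit 94) (nat_lit 1) (nat_lit 388) (nat_lit 435) (nat_lit 317)) (XT.nd (nat_lit 53820) (nat_lit 0) (nat_lit 18164) (XT.lf (nat_lit 76) (nat_lit 643727375) (nat_lit 0) (nat_lit 3210164027) (nat_lit 304) (nat_lit 643727375) (nat_lit 92) (nat_lit 1) (nat_lit 91) (nat_lit 1) (nat_lit 95) (nat_lit 1) (nat_lit 389) (nat_lit 435) (nat_lit 316)) (XT.lf (nat_lit 76) (nat_lit 2719417332) (nat_lit 0) (nat_lit 2359655050) (nat_lit 760) (nat_lit 2719417332) (nat_lit 331) (nat_lit 1) (nat_lit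 330) (nat_lit 1) (nat_lit 340) (nat_lit 1) (nat_lit 318) (nat_lit 436) (nat_lit 386)))) (XT.nd (nat_lit 78) (nat_lit 608) (nat_lit 0) (XT.lf (nat_lit 760) (nat_lit 4206743065) (nat_lit 0) (nat_lit 1763366404) (nat_lit 684) (nat_lit 1763366404) (nat_lit 331) (nat_lit 1) (nat_lit 321) (nat_lit 1) (nat_lit 330) (nat_lit 1) (nat_lit 319) (nat_lit 436) (nat_lit 385)) (XT.nd (nat_lit 78) (nat_lit 608) (nat_lit 0) (XT.lf (nat_lit 76) (nat_lit 1485475449) (nat_lit 0) (nat_lit 4698239654) (nat_lit 760) (nat_lit 1485475449) (nat_lit 322) (nat_lit 1) (nat_lit 321) (nat_lit 1) (nat_lit 331) (nat_lit 1) (nat_lit 320) (nat_lit 436) (nat_lit 384)) (XT.lf (nat_lit 684) (nat_lit 1728480478) (nat_lit 0) (nat_lit 2938539590) (nat_lit 608) (nat_lit 2938539590) (nat_lit 322) (nat_lit 1) (nat_lit 313) (nat_lit 1) (nat_lit 321) (nat_lit 1) (nat_lit 321) (nat_lit 436) (nat_lit 383)))))) (XT.nd (nat_lit 468) (nat_lit 2280) (nat_lit 0) (XT.nd (nat_lit 234) (nat_lit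 608) (nat_lit 0) (XT.nd (nat_lit 78) (nat_lit 1292) (nat_lit 0) (XT.lf (nat_lit 76) (nat_lit 249462666) (nat_lit 0) (nat_lit 7044026649) (nat_lit 684) (nat_lit 249462666) (nat_lit 314) (nat_lit 1) (nat_lit 313) (nat_lit 1) (nat_lit 322) (nat_lit 1) (nat_lit 322) (nat_lit 436) (nat_lit 382)) (XT.nd (nat_lit 78) (nat_lit 608) (nat_lit 0) (XT.lf (nat_lit 76) (nat_lit 3368788121) (nat_lit 0) (nat_lit 742989231) (nat_lit 684) (nat_lit 3368788121) (nat_lit 305) (nat_lit 1) (nat_lit 304) (nat_lit 1) (nat_lit 313) (nat_lit 1) (nat_lit 323) (nat_lit 436) (nat_lit 381)) (XT.lf (nat_lit 684) (nat_lit 5457052195) (nat_lit 0) (nat_lit 981063365) (nat_lit 608) (nat_lit 981063365) (nat_lit 305) (nat_lit 1) (nat_lit 296) (nat_lit 1) (nat_lit 304) (nat_lit 1) (nat_lit 324) (nat_lit 436) (nat_lit 380)))) (XT.nd (nat_lit 78) (nat_lit 608) (nat_lit 0) (XT.lf (nat_lit 76) (nat_lit 2082748522) (nat_lit 0) (nat_lit 3192790374) (nat_lit 684) (nat_lit 2082748522)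 (nat_lit 297) (nat_lit 1) (nat_lit 296) (nat_lit 1) (nat_lit 305) (nat_lit 1) (nat_lit 325) (nat_lit 436) (nat_lit 379)) (XT.nd (nat_lit 78) (nat_lit 0) (nat_lit 0) (XT.lf (nat_lit 684) (nat_lit 2878261303) (nat_lit 0) (nat_lit 2209958346) (nat_lit 608) (nat_lit 2209958346) (nat_lit 297) (nat_lit 1) (nat_lit 288) (nat_lit 1) (nat_lit 296) (nat_lit 1) (nat_lit 326) (nat_lit 436) (nat_lit 378)) (XT.lf (nat_lit 76) (nat_lit 798602073) (nat_lit 0) (nat_lit 5641669291) (nat_lit 684) (nat_lit 798602073) (nat_lit 289) (nat_lit 1) (nat_lit 288) (nat_lit 1) (nat_lit 297) (nat_lit 1) (nat_lit 327) (nat_lit 436) (nat_lit 377))))) (XT.nd (nat_lit 234) (nat_lit 1064) (nat_lit 0) (XT.nd (nat_lit 78) (nat_lit 684) (nat_lit 0) (XT.lf (nat_lit 608) (nat_lit 304149511) (nat_lit 0) (nat_lit 3437927216) (nat_lit 532) (nat_lit 3437927216) (nat_lit 289) (nat_lit 1) (nat_lit 281) (nat_lit 1) (nat_lit 288) (nat_lit 1) (nat_lit 328) (nat_lit 436) (nat_lit 376))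 (XT.nd (nat_lit 78) (nat_lit 0) (nat_lit 0) (XT.lf (nat_lit 684) (nat_lit 6162784713) (nat_lit 0) (nat_lit 479606471) (nat_lit 608) (nat_lit 479606471) (nat_lit 281) (nat_lit 1) (nat_lit 272) (nat_lit 1) (nat_lit 280) (nat_lit 1) (nat_lit 329) (nat_lit 436) (nat_lit 375)) (XT.lf (nat_lit 76) (nat_lit 2415192028) (nat_lit 0) (nat_lit 2233905709) (nat_lit 684) (nat_lit 2415192028) (nat_lit 273) (nat_lit 1) (nat_lit 272) (nat_lit 1) (nat_lit 281) (nat_lit 1) (nat_lit 330) (nat_lit 436) (nat_lit 374)))) (XT.nd (nat_lit 78) (nat_lit 532) (nat_lit 0) (XT.lf (nat_lit 608) (nat_lit 3509412157) (nat_lit 0) (nat_lit 1749006538) (nat_lit 532) (nat_lit 1749006538) (nat_lit 273) (nat_lit 1) (nat_lit 265) (nat_lit 1) (nat_lit 272) (nat_lit 1) (nat_lit 331) (nat_lit 436) (nat_lit 373)) (XT.nd (nat_lit 78) (nat_lit 532) (nat_lit 0) (XT.lf (nat_lit 76) (nat_lit 1095550262) (nat_lit 0) (nat_lit 4760119456) (nat_lit 608) (nat_lit 1095550262) (nat_lit 266)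 (nat_lit 1) (nat_lit 265) (nat_lit 1) (nat_lit 273) (nat_lit 1) (nat_lit 332) (nat_lit 436) (nat_lit 372)) (XT.lf (nat_lit 608) (nat_lit 867321567) (nat_lit 0) (nat_lit 3014090588) (nat_lit 532) (nat_lit 3014090588) (nat_lit 266) (nat_lit 1) (nat_lit 258) (nat_lit 1) (nat_lit 265) (nat_lit 1) (nat_lit 333) (nat_lit 436) (nat_lit 371))))))))
noncomputable def ec123 : XT := (XT.nd (nat_lit 1872) (nat_lit 5320) (nat_lit 0) (XT.nd (nat_lit 936) (nat_lit 2964) (nat_lit 0) (XT.nd (nat_lit 468) (nat_lit 1444) (nat_lit 0) (XT.nd (nat_lit 234) (nat_lit 1064) (nat_lit 0) (XT.nd (nat_lit 78) (nat_lit 532) (nat_lit 0) (XT.lf (nat_lit 608) (nat_lit 6407276939) (nat_lit 0) (nat_lit 216687380) (nat_lit 532) (nat_lit 216687380) (nat_lit 258) (nat_lit 1) (nat_lit 250) (nat_lit 1) (nat_lit 257) (nat_lit 1) (nat_lit 334) (nat_lit 436) (nat_lit 370)) (XT.nd (nat_lit 78) (nat_lit 532) (nat_lit 0) (XT.lf (nat_lit 76) (nat_lit 2523459125) (nat_lit 0) (nat_lit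 1739015494) (nat_lit 608) (nat_lit 2523459125) (nat_lit 251) (nat_lit 1) (nat_lit 250) (nat_lit 1) (nat_lit 258) (nat_lit 1) (nat_lit 335) (nat_lit 436) (nat_lit 369)) (XT.lf (nat_lit 608) (nat_lit 3701792372) (nat_lit 0) (nat_lit 1515135994) (nat_lit 532) (nat_lit 1515135994) (nat_lit 251) (nat_lit 1) (nat_lit 243) (nat_lit 1) (nat_lit 250) (nat_lit 1) (nat_lit 336) (nat_lit 436) (nat_lit 368)))) (XT.nd (nat_lit 78) (nat_lit 1064) (nat_lit 0) (XT.lf (nat_lit 76) (nat_lit 1179263164) (nat_lit 0) (nat_lit 4320244220) (nat_lit 608) (nat_lit 1179263164) (nat_lit 244) (nat_lit 1) (nat_lit 243) (nat_lit 1) (nat_lit 251) (nat_lit 1) (nat_lit 337) (nat_lit 436) (nat_lit 367)) (XT.nd (nat_lit 78) (nat_lit 608) (nat_lit 0) (XT.lf (nat_lit 532) (nat_lit 1013176175) (nat_lit 0) (nat_lit 2806394115) (nat_lit 456) (nat_lit 2806394115) (nat_lit 244) (nat_lit 1) (nat_lit 237) (nat_lit 1) (nat_lit 243) (nat_lit 1) (nat_lit 338) (nat_lit 436) (nat_lit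 366)) (XT.lf (nat_lit 608) (nat_lit 6263532294) (nat_lit 0) (nat_lit 155224194) (nat_lit 532) (nat_lit 155224194) (nat_lit 237) (nat_lit 1) (nat_lit 229) (nat_lit 1) (nat_lit 236) (nat_lit 1) (nat_lit 339) (nat_lit 436) (nat_lit 365))))) (XT.nd (nat_lit 234) (nat_lit 988) (nat_lit 0) (XT.nd (nat_lit 78) (nat_lit 456) (nat_lit 0) (XT.lf (nat_lit 76) (nat_lit 2443157412) (nat_lit 0) (nat_lit 1635759097) (nat_lit 608) (nat_lit 2443157412) (nat_lit 230) (nat_lit 1) (nat_lit 229) (nat_lit 1) (nat_lit 237) (nat_lit 1) (nat_lit 340) (nat_lit 436) (nat_lit 364)) (XT.nd (nat_lit 78) (nat_lit 0) (nat_lit 0) (XT.lf (nat_lit 532) (nat_lit 3525340047) (nat_lit 0) (nat_lit 1472816942) (nat_lit 456) (nat_lit 1472816942) (nat_lit 230) (nat_lit 1) (nat_lit 223) (nat_lit 1) (nat_lit 229) (nat_lit 1) (nat_lit 341) (nat_lit 436) (nat_lit 363)) (XT.lf (nat_lit 76) (nat_lit 1083852213) (nat_lit 0) (nat_lit 4252713697) (nat_lit 532) (nat_lit 1083852213) (nat_lit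 224) (nat_lit 1) (nat_lit 223) (nat_lit 1) (nat_lit 230) (nat_lit 1) (nat_lit 342) (nat_lit 436) (nat_lit 362)))) (XT.nd (nat_lit 78) (nat_lit 532) (nat_lit 0) (XT.lf (nat_lit 532) (nat_lit 808710732) (nat_lit 0) (nat_lit 2780797139) (nat_lit 456) (nat_lit 2780797139) (nat_lit 224) (nat_lit 1) (nat_lit 217) (nat_lit 1) (nat_lit 223) (nat_lit 1) (nat_lit 343) (nat_lit 436) (nat_lit 361)) (XT.nd (nat_lit 78) (nat_lit 0) (nat_lit 0) (XT.lf (nat_lit 532) (nat_lit 5795420132) (nat_lit 0) (nat_lit 262755758) (nat_lit 456) (nat_lit 262755758) (nat_lit 217) (nat_lit 1) (nat_lit 210) (nat_lit 1) (nat_lit 216) (nat_lit 1) (nat_lit 344) (nat_lit 436) (nat_lit 360)) (XT.lf (nat_lit 76) (nat_lit 2205434522) (nat_lit 0) (nat_lit 1860801840) (nat_lit 532) (nat_lit 2205434522) (nat_lit 211) (nat_lit 1) (nat_lit 210) (nat_lit 1) (nat_lit 217) (nat_lit 1) (nat_lit 345) (nat_lit 436) (nat_lit 359)))))) (XT.nd (nat_lit 468) (nat_lit 1216) (nat_lit 0) (XT.nd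 (nat_lit 234) (nat_lit 912) (nat_lit 0) (XT.nd (nat_lit 78) (nat_lit 380) (nat_lit 0) (XT.lf (nat_lit 532) (nat_lit 3041223901) (nat_lit 0) (nat_lit 1590956038) (nat_lit 456) (nat_lit 1590956038) (nat_lit 211) (nat_lit 1) (nat_lit 204) (nat_lit 1) (nat_lit 210) (nat_lit 1) (nat_lit 346) (nat_lit 436) (nat_lit 358)) (XT.nd (nat_lit 78) (nat_lit 380) (nat_lit 0) (XT.lf (nat_lit 76) (nat_lit 839146994) (nat_lit 0) (nat_lit 4496863832) (nat_lit 532) (nat_lit 839146994) (nat_lit 205) (nat_lit 1) (nat_lit 204) (nat_lit 1) (nat_lit 211) (nat_lit 1) (nat_lit 347) (nat_lit 436) (nat_lit 357)) (XT.lf (nat_lit 456) (nat_lit 312503561) (nat_lit 0) (nat_lit 2907518380) (nat_lit 380) (nat_lit 2907518380) (nat_lit 205) (nat_lit 1) (nat_lit 199) (nat_lit 1) (nat_lit 204) (nat_lit 1) (nat_lit 348) (nat_lit 436) (nat_lit 356)))) (XT.nd (nat_lit 78) (nat_lit 380) (nat_lit 0) (XT.lf (nat_lit 532) (nat_lit 5058738624) (nat_lit 0) (nat_lit 510904635) (nat_lit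 456) (nat_lit 510904635) (nat_lit 199) (nat_lit 1) (nat_lit 192) (nat_lit 1) (nat_lit 198) (nat_lit 1) (nat_lit 349) (nat_lit 436) (nat_lit 355)) (XT.nd (nat_lit 78) (nat_lit 380) (nat_lit 0) (XT.lf (nat_lit 76) (nat_lit 1837497296) (nat_lit 0) (nat_lit 2358785618) (nat_lit 532) (nat_lit 1837497296) (nat_lit 193) (nat_lit 1) (nat_lit 192) (nat_lit 1) (nat_lit 199) (nat_lit 1) (nat_lit 350) (nat_lit 436) (nat_lit 354)) (XT.lf (nat_lit 456) (nat_lit 2302864472) (nat_lit 0) (nat_lit 1842380394) (nat_lit 380) (nat_lit 1842380394) (nat_lit 193) (nat_lit 1) (nat_lit 187) (nat_lit 1) (nat_lit 192) (nat_lit 1) (nat_lit 351) (nat_lit 436) (nat_lit 353))))) (XT.nd (nat_lit 234) (nat_lit 380) (nat_lit 0) (XT.nd (nat_lit 78) (nat_lit 836) (nat_lit 0) (XT.lf (nat_lit 76) (nat_lit 471194052) (nat_lit 0) (nat_lit 4999688168) (nat_lit 456) (nat_lit 471194052) (nat_lit 188) (nat_lit 1) (nat_lit 187) (nat_lit 1) (nat_lit 193) (nat_lit 1) (nat_lit 352)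 (nat_lit 436) (nat_lit 352)) (XT.nd (nat_lit 78) (nat_lit 380) (nat_lit 0) (XT.lf (nat_lit 76) (nat_lit 2738990124) (nat_lit 0) (nat_lit 418740104) (nat_lit 456) (nat_lit 2738990124) (nat_lit 182) (nat_lit 1) (nat_lit 181) (nat_lit 1) (nat_lit 187) (nat_lit 1) (nat_lit 353) (nat_lit 436) (nat_lit 351)) (XT.lf (nat_lit 456) (nat_lit 4102156972) (nat_lit 0) (nat_lit 874901011) (nat_lit 380) (nat_lit 874901011) (nat_lit 182) (nat_lit 1) (nat_lit 176) (nat_lit 1) (nat_lit 181) (nat_lit 1) (nat_lit 354) (nat_lit 436) (nat_lit 350)))) (XT.nd (nat_lit 78) (nat_lit 380) (nat_lit 0) (XT.lf (nat_lit 76) (nat_lit 1363072010) (nat_lit 0) (nat_lit 3081398611) (nat_lit 456) (nat_lit 1363072010) (nat_lit 177) (nat_lit 1) (nat_lit 176) (nat_lit 1) (nat_lit 182) (nat_lit 1) (nat_lit 355) (nat_lit 436) (nat_lit 349)) (XT.nd (nat_lit 78) (nat_lit 0) (nat_lit 0) (XT.lf (nat_lit 456) (nat_lit 1356839357) (nat_lit 0) (nat_lit 2203380163) (nat_lit 380) (nat_lit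 2203380163) (nat_lit 177) (nat_lit 1) (nat_lit 171) (nat_lit 1) (nat_lit 176) (nat_lit 1) (nat_lit 356) (nat_lit 436) (nat_lit 348)) (XT.lf (nat_lit 76) (nat_lit 2699056) (nat_lit 0) (nat_lit 5714944056) (nat_lit 456) (nat_lit 2699056) (nat_lit 172) (nat_lit 1) (nat_lit 171) (nat_lit 1) (nat_lit 177) (nat_lit 1) (nat_lit 357) (nat_lit 436) (nat_lit 347))))))) (XT.nd (nat_lit 936) (nat_lit 2508) (nat_lit 0) (XT.nd (nat_lit 468) (nat_lit 1292) (nat_lit 0) (XT.nd (nat_lit 234) (nat_lit 760) (nat_lit 0) (XT.nd (nat_lit 78) (nat_lit 380) (nat_lit 0) (XT.lf (nat_lit 76) (nat_lit 2168837980) (nat_lit 0) (nat_lit 1339343430) (nat_lit 380) (nat_lit 2168837980) (nat_lit 167) (nat_lit 1) (nat_lit 166) (nat_lit 1) (nat_lit 171) (nat_lit 1) (nat_lit 358) (nat_lit 436) (nat_lit 346)) (XT.nd (nat_lit 78) (nat_lit 0) (nat_lit 0) (XT.lf (nat_lit 456) (nat_lit 2968050554) (nat_lit 0) (nat_lit 1333160685) (nat_lit 380) (nat_lit 1333160685) (nat_lit 167)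 (nat_lit 1) (nat_lit 161) (nat_lit 1) (nat_lit 166) (nat_lit 1) (nat_lit 359) (nat_lit 436) (nat_lit 345)) (XT.lf (nat_lit 76) (nat_lit 802812292) (nat_lit 0) (nat_lit 3986550689) (nat_lit 456) (nat_lit 802812292) (nat_lit 162) (nat_lit 1) (nat_lit 161) (nat_lit 1) (nat_lit 167) (nat_lit 1) (nat_lit 360) (nat_lit 436) (nat_lit 344)))) (XT.nd (nat_lit 78) (nat_lit 456) (nat_lit 0) (XT.lf (nat_lit 380) (nat_lit 243685542) (nat_lit 0) (nat_lit 2653303102) (nat_lit 304) (nat_lit 2653303102) (nat_lit 162) (nat_lit 1) (nat_lit 157) (nat_lit 1) (nat_lit 161) (nat_lit 1) (nat_lit 361) (nat_lit 436) (nat_lit 343)) (XT.nd (nat_lit 78) (nat_lit 0) (nat_lit 0) (XT.lf (nat_lit 456) (nat_lit 4422942203) (nat_lit 0) (nat_lit 542985382) (nat_lit 380) (nat_lit 542985382) (nat_lit 157) (nat_lit 1) (nat_lit 151) (nat_lit 1) (nat_lit 156) (nat_lit 1) (nat_lit 362) (nat_lit 436) (nat_lit 342)) (XT.lf (nat_lit 76) (nat_lit 1526300720) (nat_lit 0) (nat_lit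 2415138740) (nat_lit 456) (nat_lit 1526300720) (nat_lit 152) (nat_lit 1) (nat_lit 151) (nat_lit 1) (nat_lit 157) (nat_lit 1) (nat_lit 363) (nat_lit 436) (nat_lit 341))))) (XT.nd (nat_lit 234) (nat_lit 608) (nat_lit 0) (XT.nd (nat_lit 78) (nat_lit 380) (nat_lit 0) (XT.lf (nat_lit 380) (nat_lit 1693241034) (nat_lit 0) (nat_lit 1866911059) (nat_lit 304) (nat_lit 1866911059) (nat_lit 152) (nat_lit 1) (nat_lit 147) (nat_lit 1) (nat_lit 151) (nat_lit 1) (nat_lit 364) (nat_lit 436) (nat_lit 340)) (XT.nd (nat_lit 78) (nat_lit 380) (nat_lit 0) (XT.lf (nat_lit 76) (nat_lit 174660618) (nat_lit 0) (nat_lit 5037642605) (nat_lit 380) (nat_lit 174660618) (nat_lit 148) (nat_lit 1) (nat_lit 147) (nat_lit 1) (nat_lit 152) (nat_lit 1) (nat_lit 365) (nat_lit 436) (nat_lit 339)) (XT.lf (nat_lit 76) (nat_lit 2179307367) (nat_lit 0) (nat_lit 988256173) (nat_lit 380) (nat_lit 2179307367) (nat_lit 143) (nat_lit 1) (nat_lit 142) (nat_lit 1) (nat_lit 147) (nat_lit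 1) (nat_lit 366) (nat_lit 436) (nat_lit 338)))) (XT.nd (nat_lit 78) (nat_lit 304) (nat_lit 0) (XT.lf (nat_lit 380) (nat_lit 3003619711) (nat_lit 0) (nat_lit 1151863836) (nat_lit 304) (nat_lit 1151863836) (nat_lit 143) (nat_lit 1) (nat_lit 138) (nat_lit 1) (nat_lit 142) (nat_lit 1) (nat_lit 367) (nat_lit 436) (nat_lit 337)) (XT.nd (nat_lit 78) (nat_lit 304) (nat_lit 0) (XT.lf (nat_lit 76) (nat_lit 827650848) (nat_lit 0) (nat_lit 3612907105) (nat_lit 380) (nat_lit 827650848) (nat_lit 139) (nat_lit 1) (nat_lit 138) (nat_lit 1) (nat_lit 143) (nat_lit 1) (nat_lit 368) (nat_lit 436) (nat_lit 336)) (XT.lf (nat_lit 380) (nat_lit 309652164) (nat_lit 0) (nat_lit 2459859708) (nat_lit 304) (nat_lit 2459859708) (nat_lit 139) (nat_lit 1) (nat_lit 134) (nat_lit 1) (nat_lit 138) (nat_lit 1) (nat_lit 369) (nat_lit 436) (nat_lit 335)))))) (XT.nd (nat_lit 468) (nat_lit 1216) (nat_lit 0) (XT.nd (nat_lit 234) (nat_lit 608) (nat_lit 0) (XT.nd (nat_lit 78)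 (nat_lit 304) (nat_lit 0) (XT.lf (nat_lit 380) (nat_lit 4185984965) (nat_lit 0) (nat_lit 502503541) (nat_lit 304) (nat_lit 502503541) (nat_lit 134) (nat_lit 1) (nat_lit 129) (nat_lit 1) (nat_lit 133) (nat_lit 1) (nat_lit 370) (nat_lit 436) (nat_lit 334)) (XT.nd (nat_lit 78) (nat_lit 304) (nat_lit 0) (XT.lf (nat_lit 76) (nat_lit 1417848347) (nat_lit 0) (nat_lit 2317085376) (nat_lit 380) (nat_lit 1417848347) (nat_lit 130) (nat_lit 1) (nat_lit 129) (nat_lit 1) (nat_lit 134) (nat_lit 1) (nat_lit 371) (nat_lit 436) (nat_lit 333)) (XT.lf (nat_lit 380) (nat_lit 1496640682) (nat_lit 0) (nat_lit 1809190862) (nat_lit 304) (nat_lit 1809190862) (nat_lit 130) (nat_lit 1) (nat_lit 125) (nat_lit 1) (nat_lit 129) (nat_lit 1) (nat_lit 372) (nat_lit 436) (nat_lit 332)))) (XT.nd (nat_lit 78) (nat_lit 608) (nat_lit 0) (XT.lf (nat_lit 76) (nat_lit 86964571) (nat_lit 0) (nat_lit 4903879642) (nat_lit 380) (nat_lit 86964571) (nat_lit 126) (nat_lit 1) (nat_lit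 125) (nat_lit 1) (nat_lit 130) (nat_lit 1) (nat_lit 373) (nat_lit 436) (nat_lit 331)) (XT.nd (nat_lit 78) (nat_lit 304) (nat_lit 0) (XT.lf (nat_lit 76) (nat_lit 1950291237) (nat_lit 0) (nat_lit 1139959777) (nat_lit 304) (nat_lit 1950291237) (nat_lit 122) (nat_lit 1) (nat_lit 121) (nat_lit 1) (nat_lit 125) (nat_lit 1) (nat_lit 374) (nat_lit 436) (nat_lit 330)) (XT.lf (nat_lit 380) (nat_lit 2569497929) (nat_lit 0) (nat_lit 1217158508) (nat_lit 304) (nat_lit 1217158508) (nat_lit 122) (nat_lit 1) (nat_lit 117) (nat_lit 1) (nat_lit 121) (nat_lit 1) (nat_lit 375) (nat_lit 436) (nat_lit 329))))) (XT.nd (nat_lit 234) (nat_lit 608) (nat_lit 0) (XT.nd (nat_lit 78) (nat_lit 608) (nat_lit 0) (XT.lf (nat_lit 76) (nat_lit 623748270) (nat_lit 0) (nat_lit 3719977589) (nat_lit 380) (nat_lit 623748270) (nat_lit 118) (nat_lit 1) (nat_lit 117) (nat_lit 1) (nat_lit 122) (nat_lit 1) (nat_lit 376) (nat_lit 436) (nat_lit 328)) (XT.nd (nat_lit 78) (nat_lit 304)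 (nat_lit 0) (XT.lf (nat_lit 76) (nat_lit 2429628939) (nat_lit 0) (nat_lit 72098637) (nat_lit 304) (nat_lit 2429628939) (nat_lit 114) (nat_lit 1) (nat_lit 113) (nat_lit 1) (nat_lit 117) (nat_lit 1) (nat_lit 377) (nat_lit 436) (nat_lit 327)) (XT.lf (nat_lit 380) (nat_lit 3537380950) (nat_lit 0) (nat_lit 679119072) (nat_lit 304) (nat_lit 679119072) (nat_lit 114) (nat_lit 1) (nat_lit 109) (nat_lit 1) (nat_lit 113) (nat_lit 1) (nat_lit 378) (nat_lit 436) (nat_lit 326)))) (XT.nd (nat_lit 156) (nat_lit 380) (nat_lit 0) (XT.nd (nat_lit 78) (nat_lit 228) (nat_lit 0) (XT.lf (nat_lit 76) (nat_lit 1108998406) (nat_lit 0) (nat_lit 2642126252) (nat_lit 380) (nat_lit 1108998406) (nat_lit 110) (nat_lit 1) (nat_lit 109) (nat_lit 1) (nat_lit 114) (nat_lit 1) (nat_lit 379) (nat_lit 436) (nat_lit 325)) (XT.lf (nat_lit 304) (nat_lit 907100544) (nat_lit 0) (nat_lit 1958940831) (nat_lit 228) (nat_lit 1958940831) (nat_lit 110) (nat_lit 1) (nat_lit 106) (nat_lit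 1) (nat_lit 109) (nat_lit 1) (nat_lit 380) (nat_lit 436) (nat_lit 324))) (XT.nd (nat_lit 78) (nat_lit 0) (nat_lit 0) (XT.lf (nat_lit 380) (nat_lit 4408740309) (nat_lit 0) (nat_lit 190786098) (nat_lit 304) (nat_lit 190786098) (nat_lit 106) (nat_lit 1) (nat_lit 101) (nat_lit 1) (nat_lit 105) (nat_lit 1) (nat_lit 381) (nat_lit 436) (nat_lit 323)) (XT.lf (nat_lit 76) (nat_lit 1546848419) (nat_lit 0) (nat_lit 1661937794) (nat_lit 380) (nat_lit 1546848419) (nat_lit 102) (nat_lit 1) (nat_lit 101) (nat_lit 1) (nat_lit 106) (nat_lit 1) (nat_lit 382) (nat_lit 436) (nat_lit 322))))))))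
noncomputable def ec124 : XT := (XT.nd (nat_lit 56082) (nat_lit 0) (nat_lit 3876) (XT.nd (nat_lit 55146) (nat_lit 0) (nat_lit 10032) (XT.nd (nat_lit 54678) (nat_lit 0) (nat_lit 13756) (XT.nd (nat_lit 234) (nat_lit 228) (nat_lit 0) (XT.nd (nat_lit 78) (nat_lit 304) (nat_lit 0) (XT.lf (nat_lit 304) (nat_lit 1793504733) (nat_lit 0) (nat_lit 1463958798) (nat_lit 228) (nat_lit 1463958798) (nat_lit 102) (nat_lit 1) (nat_lit 98) (nat_lit 1) (nat_lit 101) (nat_lit 1) (nat_lit 383) (nat_lit 436) (nat_lit 321)) (XT.nd (nat_lit 78) (nat_lit 304) (nat_lit 0) (XT.lf (nat_lit 76) (nat_lit 253464538) (nat_lit 0) (nat_lit 4180718889) (nat_lit 304) (nat_lit 253464538) (nat_lit 99) (nat_lit 1) (nat_lit 98) (nat_lit 1) (nat_lit 102) (nat_lit 1) (nat_lit 384) (nat_lit 436) (nat_lit 320)) (XT.lf (nat_lit 76) (nat_lit 1941112870) (nat_lit 0) (nat_lit 771669258) (nat_lit 304) (nat_lit 1941112870) (nat_lit 95) (nat_lit 1) (nat_lit 94) (nat_lit 1) (nat_lit 98)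 (nat_lit 1) (nat_lit 385) (nat_lit 436) (nat_lit 319)))) (XT.nd (nat_lit 54288) (nat_lit 0) (nat_lit 15580) (XT.lf (nat_lit 304) (nat_lit 2593670208) (nat_lit 0) (nat_lit 1013452299) (nat_lit 228) (nat_lit 1013452299) (nat_lit 95) (nat_lit 1) (nat_lit 91) (nat_lit 1) (nat_lit 94) (nat_lit 1) (nat_lit 386) (nat_lit 436) (nat_lit 318)) (XT.nd (nat_lit 78) (nat_lit 608) (nat_lit 0) (XT.lf (nat_lit 76) (nat_lit 3436163884) (nat_lit 0) (nat_lit 757849016) (nat_lit 684) (nat_lit 3436163884) (nat_lit 305) (nat_lit 1) (nat_lit 304) (nat_lit 1) (nat_lit 313) (nat_lit 1) (nat_lit 321) (nat_lit 437) (nat_lit 382)) (XT.lf (nat_lit 684) (nat_lit 5566193239) (nat_lit 0) (nat_lit 1000684632) (nat_lit 608) (nat_lit 1000684632) (nat_lit 305) (nat_lit 1) (nat_lit 296) (nat_lit 1) (nat_lit 304) (nat_lit 1) (nat_lit 322) (nat_lit 437) (nat_lit 381))))) (XT.nd (nat_lit 234) (nat_lit 1216) (nat_lit 0) (XT.nd (nat_lit 78) (nat_lit 608) (nat_lit 0) (XT.lf (nat_lit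 76) (nat_lit 2124403492) (nat_lit 0) (nat_lit 3256646182) (nat_lit 684) (nat_lit 2124403492) (nat_lit 297) (nat_lit 1) (nat_lit 296) (nat_lit 1) (nat_lit 305) (nat_lit 1) (nat_lit 323) (nat_lit 437) (nat_lit 380)) (XT.nd (nat_lit 78) (nat_lit 0) (nat_lit 0) (XT.lf (nat_lit 684) (nat_lit 2935826529) (nat_lit 0) (nat_lit 2254157513) (nat_lit 608) (nat_lit 2254157513) (nat_lit 297) (nat_lit 1) (nat_lit 288) (nat_lit 1) (nat_lit 296) (nat_lit 1) (nat_lit 324) (nat_lit 437) (nat_lit 379)) (XT.lf (nat_lit 76) (nat_lit 814574114) (nat_lit 0) (nat_lit 5754502677) (nat_lit 684) (nat_lit 814574114) (nat_lit 289) (nat_lit 1) (nat_lit 288) (nat_lit 1) (nat_lit 297) (nat_lit 1) (nat_lit 325) (nat_lit 437) (nat_lit 378)))) (XT.nd (nat_lit 78) (nat_lit 684) (nat_lit 0) (XT.lf (nat_lit 608) (nat_lit 310232501) (nat_lit 0) (nat_lit 3506685761) (nat_lit 532) (nat_lit 3506685761) (nat_lit 289) (nat_lit 1) (nat_lit 281) (nat_lit 1) (nat_lit 288) (nat_lit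 1) (nat_lit 326) (nat_lit 437) (nat_lit 377)) (XT.nd (nat_lit 78) (nat_lit 0) (nat_lit 0) (XT.lf (nat_lit 684) (nat_lit 6286040407) (nat_lit 0) (nat_lit 489198600) (nat_lit 608) (nat_lit 489198600) (nat_lit 281) (nat_lit 1) (nat_lit 272) (nat_lit 1) (nat_lit 280) (nat_lit 1) (nat_lit 327) (nat_lit 437) (nat_lit 376)) (XT.lf (nat_lit 76) (nat_lit 2463495869) (nat_lit 0) (nat_lit 2278583823) (nat_lit 684) (nat_lit 2463495869) (nat_lit 273) (nat_lit 1) (nat_lit 272) (nat_lit 1) (nat_lit 281) (nat_lit 1) (nat_lit 328) (nat_lit 437) (nat_lit 375)))))) (XT.nd (nat_lit 468) (nat_lit 1520) (nat_lit 0) (XT.nd (nat_lit 234) (nat_lit 1140) (nat_lit 0) (XT.nd (nat_lit 78) (nat_lit 532) (nat_lit 0) (XT.lf (nat_lit 608) (nat_lit 3579600400) (nat_lit 0) (nat_lit 1783986669) (nat_lit 532) (nat_lit 1783986669) (nat_lit 273) (nat_lit 1) (nat_lit 265) (nat_lit 1) (nat_lit 272) (nat_lit 1) (nat_lit 329) (nat_lit 437) (nat_lit 374)) (XT.nd (nat_lit 78) (nat_lit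 532) (nat_lit 0) (XT.lf (nat_lit 76) (nat_lit 1117461268) (nat_lit 0) (nat_lit 4855321845) (nat_lit 608) (nat_lit 1117461268) (nat_lit 266) (nat_lit 1) (nat_lit 265) (nat_lit 1) (nat_lit 273) (nat_lit 1) (nat_lit 330) (nat_lit 437) (nat_lit 373)) (XT.lf (nat_lit 608) (nat_lit 884667998) (nat_lit 0) (nat_lit 3074372400) (nat_lit 532) (nat_lit 3074372400) (nat_lit 266) (nat_lit 1) (nat_lit 258) (nat_lit 1) (nat_lit 265) (nat_lit 1) (nat_lit 331) (nat_lit 437) (nat_lit 372)))) (XT.nd (nat_lit 78) (nat_lit 532) (nat_lit 0) (XT.lf (nat_lit 608) (nat_lit 6535422478) (nat_lit 0) (nat_lit 221021128) (nat_lit 532) (nat_lit 221021128) (nat_lit 258) (nat_lit 1) (nat_lit 250) (nat_lit 1) (nat_lit 257) (nat_lit 1) (nat_lit 332) (nat_lit 437) (nat_lit 371)) (XT.nd (nat_lit 78) (nat_lit 532) (nat_lit 0) (XT.lf (nat_lit 76) (nat_lit 2573928308) (nat_lit 0) (nat_lit 1773795804) (nat_lit 608) (nat_lit 2573928308) (nat_lit 251) (nat_lit 1) (nat_lit 250)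 (nat_lit 1) (nat_lit 258) (nat_lit 1) (nat_lit 333) (nat_lit 437) (nat_lit 370)) (XT.lf (nat_lit 608) (nat_lit 3775828219) (nat_lit 0) (nat_lit 1545438714) (nat_lit 532) (nat_lit 1545438714) (nat_lit 251) (nat_lit 1) (nat_lit 243) (nat_lit 1) (nat_lit 250) (nat_lit 1) (nat_lit 334) (nat_lit 437) (nat_lit 369))))) (XT.nd (nat_lit 234) (nat_lit 456) (nat_lit 0) (XT.nd (nat_lit 78) (nat_lit 1064) (nat_lit 0) (XT.lf (nat_lit 76) (nat_lit 1202848427) (nat_lit 0) (nat_lit 4406649105) (nat_lit 608) (nat_lit 1202848427) (nat_lit 244) (nat_lit 1) (nat_lit 243) (nat_lit 1) (nat_lit 251) (nat_lit 1) (nat_lit 335) (nat_lit 437) (nat_lit 368)) (XT.nd (nat_lit 78) (nat_lit 608) (nat_lit 0) (XT.lf (nat_lit 532) (nat_lit 1033439699) (nat_lit 0) (nat_lit 2862521997) (nat_lit 456) (nat_lit 2862521997) (nat_lit 244) (nat_lit 1) (nat_lit 237) (nat_lit 1) (nat_lit 243) (nat_lit 1) (nat_lit 336) (nat_lit 437) (nat_lit 367)) (XT.lf (nat_lit 608) (nat_lit 6388802940)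 (nat_lit 0) (nat_lit 158328678) (nat_lit 532) (nat_lit 158328678) (nat_lit 237) (nat_lit 1) (nat_lit 229) (nat_lit 1) (nat_lit 236) (nat_lit 1) (nat_lit 337) (nat_lit 437) (nat_lit 366)))) (XT.nd (nat_lit 78) (nat_lit 456) (nat_lit 0) (XT.lf (nat_lit 76) (nat_lit 2492020560) (nat_lit 0) (nat_lit 1668474279) (nat_lit 608) (nat_lit 2492020560) (nat_lit 230) (nat_lit 1) (nat_lit 229) (nat_lit 1) (nat_lit 237) (nat_lit 1) (nat_lit 338) (nat_lit 437) (nat_lit 365)) (XT.nd (nat_lit 78) (nat_lit 0) (nat_lit 0) (XT.lf (nat_lit 532) (nat_lit 3595846848) (nat_lit 0) (nat_lit 1502273280) (nat_lit 456) (nat_lit 1502273280) (nat_lit 230) (nat_lit 1) (nat_lit 223) (nat_lit 1) (nat_lit 229) (nat_lit 1) (nat_lit 339) (nat_lit 437) (nat_lit 364)) (XT.lf (nat_lit 76) (nat_lit 1105529257) (nat_lit 0) (nat_lit 4337767971) (nat_lit 532) (nat_lit 1105529257) (nat_lit 224) (nat_lit 1) (nat_lit 223) (nat_lit 1) (nat_lit 230) (nat_lit 1) (nat_lit 340) (nat_lit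 437) (nat_lit 363))))))) (XT.nd (nat_lit 936) (nat_lit 2584) (nat_lit 0) (XT.nd (nat_lit 468) (nat_lit 1748) (nat_lit 0) (XT.nd (nat_lit 234) (nat_lit 836) (nat_lit 0) (XT.nd (nat_lit 78) (nat_lit 532) (nat_lit 0) (XT.lf (nat_lit 532) (nat_lit 824884947) (nat_lit 0) (nat_lit 2836413081) (nat_lit 456) (nat_lit 2836413081) (nat_lit 224) (nat_lit 1) (nat_lit 217) (nat_lit 1) (nat_lit 223) (nat_lit 1) (nat_lit 341) (nat_lit 437) (nat_lit 362)) (XT.nd (nat_lit 78) (nat_lit 0) (nat_lit 0) (XT.lf (nat_lit 532) (nat_lit 5911328535) (nat_lit 0) (nat_lit 268010874) (nat_lit 456) (nat_lit 268010874) (nat_lit 217) (nat_lit 1) (nat_lit 210) (nat_lit 1) (nat_lit 216) (nat_lit 1) (nat_lit 342) (nat_lit 437) (nat_lit 361)) (XT.lf (nat_lit 76) (nat_lit 2249543213) (nat_lit 0) (nat_lit 1898017877) (nat_lit 532) (nat_lit 2249543213) (nat_lit 211) (nat_lit 1) (nat_lit 210) (nat_lit 1) (nat_lit 217) (nat_lit 1) (nat_lit 343) (nat_lit 437) (nat_lit 360))))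 (XT.nd (nat_lit 78) (nat_lit 380) (nat_lit 0) (XT.lf (nat_lit 532) (nat_lit 3102048379) (nat_lit 0) (nat_lit 1622775158) (nat_lit 456) (nat_lit 1622775158) (nat_lit 211) (nat_lit 1) (nat_lit 204) (nat_lit 1) (nat_lit 210) (nat_lit 1) (nat_lit 344) (nat_lit 437) (nat_lit 359)) (XT.nd (nat_lit 78) (nat_lit 380) (nat_lit 0) (XT.lf (nat_lit 76) (nat_lit 855929934) (nat_lit 0) (nat_lit 4586801109) (nat_lit 532) (nat_lit 855929934) (nat_lit 205) (nat_lit 1) (nat_lit 204) (nat_lit 1) (nat_lit 211) (nat_lit 1) (nat_lit 345) (nat_lit 437) (nat_lit 358)) (XT.lf (nat_lit 456) (nat_lit 318753633) (nat_lit 0) (nat_lit 2965668747) (nat_lit 380) (nat_lit 2965668747) (nat_lit 205) (nat_lit 1) (nat_lit 199) (nat_lit 1) (nat_lit 204) (nat_lit 1) (nat_lit 346) (nat_lit 437) (nat_lit 357))))) (XT.nd (nat_lit 234) (nat_lit 836) (nat_lit 0) (XT.nd (nat_lit 78) (nat_lit 380) (nat_lit 0) (XT.lf (nat_lit 532) (nat_lit 5159913396) (nat_lit 0) (nat_lit 521122728)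 (nat_lit 456) (nat_lit 521122728) (nat_lit 199) (nat_lit 1) (nat_lit 192) (nat_lit 1) (nat_lit 198) (nat_lit 1) (nat_lit 347) (nat_lit 437) (nat_lit 356)) (XT.nd (nat_lit 78) (nat_lit 380) (nat_lit 0) (XT.lf (nat_lit 76) (nat_lit 1874247242) (nat_lit 0) (nat_lit 2405961330) (nat_lit 532) (nat_lit 1874247242) (nat_lit 193) (nat_lit 1) (nat_lit 192) (nat_lit 1) (nat_lit 199) (nat_lit 1) (nat_lit 348) (nat_lit 437) (nat_lit 355)) (XT.lf (nat_lit 456) (nat_lit 2348921762) (nat_lit 0) (nat_lit 1879228002) (nat_lit 380) (nat_lit 1879228002) (nat_lit 193) (nat_lit 1) (nat_lit 187) (nat_lit 1) (nat_lit 192) (nat_lit 1) (nat_lit 349) (nat_lit 437) (nat_lit 354)))) (XT.nd (nat_lit 78) (nat_lit 836) (nat_lit 0) (XT.lf (nat_lit 76) (nat_lit 480617933) (nat_lit 0) (nat_lit 5099681931) (nat_lit 456) (nat_lit 480617933) (nat_lit 188) (nat_lit 1) (nat_lit 187) (nat_lit 1) (nat_lit 193) (nat_lit 1) (nat_lit 350) (nat_lit 437) (nat_lit 353)) (XT.nd (nat_lit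 78) (nat_lit 380) (nat_lit 0) (XT.lf (nat_lit 76) (nat_lit 2793769926) (nat_lit 0) (nat_lit 427114906) (nat_lit 456) (nat_lit 2793769926) (nat_lit 182) (nat_lit 1) (nat_lit 181) (nat_lit 1) (nat_lit 187) (nat_lit 1) (nat_lit 351) (nat_lit 437) (nat_lit 352)) (XT.lf (nat_lit 456) (nat_lit 4184200112) (nat_lit 0) (nat_lit 892399031) (nat_lit 380) (nat_lit 892399031) (nat_lit 182) (nat_lit 1) (nat_lit 176) (nat_lit 1) (nat_lit 181) (nat_lit 1) (nat_lit 352) (nat_lit 437) (nat_lit 351)))))) (XT.nd (nat_lit 468) (nat_lit 1444) (nat_lit 0) (XT.nd (nat_lit 234) (nat_lit 760) (nat_lit 0) (XT.nd (nat_lit 78) (nat_lit 380) (nat_lit 0) (XT.lf (nat_lit 76) (nat_lit 1390333451) (nat_lit 0) (nat_lit 3143026584) (nat_lit 456) (nat_lit 1390333451) (nat_lit 177) (nat_lit 1) (nat_lit 176) (nat_lit 1) (nat_lit 182) (nat_lit 1) (nat_lit 353) (nat_lit 437) (nat_lit 350)) (XT.nd (nat_lit 78) (nat_lit 0) (nat_lit 0) (XT.lf (nat_lit 456) (nat_lit 1383976144)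 (nat_lit 0) (nat_lit 2247447766) (nat_lit 380) (nat_lit 2247447766) (nat_lit 177) (nat_lit 1) (nat_lit 171) (nat_lit 1) (nat_lit 176) (nat_lit 1) (nat_lit 354) (nat_lit 437) (nat_lit 349)) (XT.lf (nat_lit 76) (nat_lit 2753037) (nat_lit 0) (nat_lit 5829242938) (nat_lit 456) (nat_lit 2753037) (nat_lit 172) (nat_lit 1) (nat_lit 171) (nat_lit 1) (nat_lit 177) (nat_lit 1) (nat_lit 355) (nat_lit 437) (nat_lit 348)))) (XT.nd (nat_lit 78) (nat_lit 380) (nat_lit 0) (XT.lf (nat_lit 76) (nat_lit 2212214739) (nat_lit 0) (nat_lit 1366130299) (nat_lit 380) (nat_lit 2212214739) (nat_lit 167) (nat_lit 1) (nat_lit 166) (nat_lit 1) (nat_lit 171) (nat_lit 1) (nat_lit 356) (nat_lit 437) (nat_lit 347)) (XT.nd (nat_lit 78) (nat_lit 0) (nat_lit 0) (XT.lf (nat_lit 456) (nat_lit 3027411565) (nat_lit 0) (nat_lit 1359823899) (nat_lit 380) (nat_lit 1359823899) (nat_lit 167) (nat_lit 1) (nat_lit 161) (nat_lit 1) (nat_lit 166) (nat_lit 1) (nat_lit 357) (nat_lit 437)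 (nat_lit 346)) (XT.lf (nat_lit 76) (nat_lit 818868538) (nat_lit 0) (nat_lit 4066281703) (nat_lit 456) (nat_lit 818868538) (nat_lit 162) (nat_lit 1) (nat_lit 161) (nat_lit 1) (nat_lit 167) (nat_lit 1) (nat_lit 358) (nat_lit 437) (nat_lit 345))))) (XT.nd (nat_lit 234) (nat_lit 684) (nat_lit 0) (XT.nd (nat_lit 78) (nat_lit 456) (nat_lit 0) (XT.lf (nat_lit 380) (nat_lit 248559253) (nat_lit 0) (nat_lit 2706369164) (nat_lit 304) (nat_lit 2706369164) (nat_lit 162) (nat_lit 1) (nat_lit 157) (nat_lit 1) (nat_lit 161) (nat_lit 1) (nat_lit 359) (nat_lit 437) (nat_lit 344)) (XT.nd (nat_lit 78) (nat_lit 0) (nat_lit 0) (XT.lf (nat_lit 456) (nat_lit 4511401047) (nat_lit 0) (nat_lit 553845090) (nat_lit 380) (nat_lit 553845090) (nat_lit 157) (nat_lit 1) (nat_lit 151) (nat_lit 1) (nat_lit 156) (nat_lit 1) (nat_lit 360) (nat_lit 437) (nat_lit 343)) (XT.lf (nat_lit 76) (nat_lit 1556826734) (nat_lit 0) (nat_lit 2463441515) (nat_lit 456) (nat_lit 1556826734)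 (nat_lit 152) (nat_lit 1) (nat_lit 151) (nat_lit 1) (nat_lit 157) (nat_lit 1) (nat_lit 361) (nat_lit 437) (nat_lit 342)))) (XT.nd (nat_lit 78) (nat_lit 380) (nat_lit 0) (XT.lf (nat_lit 380) (nat_lit 1727105855) (nat_lit 0) (nat_lit 1904249281) (nat_lit 304) (nat_lit 1904249281) (nat_lit 152) (nat_lit 1) (nat_lit 147) (nat_lit 1) (nat_lit 151) (nat_lit 1) (nat_lit 362) (nat_lit 437) (nat_lit 341)) (XT.nd (nat_lit 78) (nat_lit 380) (nat_lit 0) (XT.lf (nat_lit 76) (nat_lit 178153830) (nat_lit 0) (nat_lit 5138395458) (nat_lit 380) (nat_lit 178153830) (nat_lit 148) (nat_lit 1) (nat_lit 147) (nat_lit 1) (nat_lit 152) (nat_lit 1) (nat_lit 363) (nat_lit 437) (nat_lit 340)) (XT.lf (nat_lit 76) (nat_lit 2222893514) (nat_lit 0) (nat_lit 1008021296) (nat_lit 380) (nat_lit 2222893514) (nat_lit 143) (nat_lit 1) (nat_lit 142) (nat_lit 1) (nat_lit 147) (nat_lit 1) (nat_lit 364) (nat_lit 437) (nat_lit 339))))))))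
noncomputable def ec125 : XT := (XT.nd (nat_lit 56706) (nat_lit 0) (nat_lit 4788) (XT.nd (nat_lit 936) (nat_lit 836) (nat_lit 0) (XT.nd (nat_lit 468) (nat_lit 1216) (nat_lit 0) (XT.nd (nat_lit 234) (nat_lit 684) (nat_lit 0) (XT.nd (nat_lit 78) (nat_lit 304) (nat_lit 0) (XT.lf (nat_lit 380) (nat_lit 3063692105) (nat_lit 0) (nat_lit 1174901113) (nat_lit 304) (nat_lit 1174901113) (nat_lit 143) (nat_lit 1) (nat_lit 138) (nat_lit 1) (nat_lit 142) (nat_lit 1) (nat_lit 365) (nat_lit 437) (nat_lit 338)) (XT.nd (nat_lit 78) (nat_lit 304) (nat_lit 0) (XT.lf (nat_lit 76) (nat_lit 844203865) (nat_lit 0) (nat_lit 3685165247) (nat_lit 380) (nat_lit 844203865) (nat_lit 139) (nat_lit 1) (nat_lit 138) (nat_lit 1) (nat_lit 143) (nat_lit 1) (nat_lit 366) (nat_lit 437) (nat_lit 337)) (XT.lf (nat_lit 380) (nat_lit 315845207) (nat_lit 0) (nat_lit 2509056902) (nat_lit 304) (nat_lit 2509056902) (nat_lit 139) (nat_lit 1) (nat_lit 134) (nat_lit 1) (nat_lit 138)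 (nat_lit 1) (nat_lit 367) (nat_lit 437) (nat_lit 336)))) (XT.nd (nat_lit 78) (nat_lit 304) (nat_lit 0) (XT.lf (nat_lit 380) (nat_lit 4269704664) (nat_lit 0) (nat_lit 512553612) (nat_lit 304) (nat_lit 512553612) (nat_lit 134) (nat_lit 1) (nat_lit 129) (nat_lit 1) (nat_lit 133) (nat_lit 1) (nat_lit 368) (nat_lit 437) (nat_lit 335)) (XT.nd (nat_lit 78) (nat_lit 304) (nat_lit 0) (XT.lf (nat_lit 76) (nat_lit 1446205314) (nat_lit 0) (nat_lit 2363427083) (nat_lit 380) (nat_lit 1446205314) (nat_lit 130) (nat_lit 1) (nat_lit 129) (nat_lit 1) (nat_lit 134) (nat_lit 1) (nat_lit 369) (nat_lit 437) (nat_lit 334)) (XT.lf (nat_lit 380) (nat_lit 1526573496) (nat_lit 0) (nat_lit 1845374679) (nat_lit 304) (nat_lit 1845374679) (nat_lit 130) (nat_lit 1) (nat_lit 125) (nat_lit 1) (nat_lit 129) (nat_lit 1) (nat_lit 370) (nat_lit 437) (nat_lit 333))))) (XT.nd (nat_lit 234) (nat_lit 608) (nat_lit 0) (XT.nd (nat_lit 78) (nat_lit 608) (nat_lit 0) (XT.lf (nat_lit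 76) (nat_lit 88703862) (nat_lit 0) (nat_lit 5001957235) (nat_lit 380) (nat_lit 88703862) (nat_lit 126) (nat_lit 1) (nat_lit 125) (nat_lit 1) (nat_lit 130) (nat_lit 1) (nat_lit 371) (nat_lit 437) (nat_lit 332)) (XT.nd (nat_lit 78) (nat_lit 304) (nat_lit 0) (XT.lf (nat_lit 76) (nat_lit 1989297061) (nat_lit 0) (nat_lit 1162758973) (nat_lit 304) (nat_lit 1989297061) (nat_lit 122) (nat_lit 1) (nat_lit 121) (nat_lit 1) (nat_lit 125) (nat_lit 1) (nat_lit 372) (nat_lit 437) (nat_lit 331)) (XT.lf (nat_lit 380) (nat_lit 2620887888) (nat_lit 0) (nat_lit 1241501679) (nat_lit 304) (nat_lit 1241501679) (nat_lit 122) (nat_lit 1) (nat_lit 117) (nat_lit 1) (nat_lit 121) (nat_lit 1) (nat_lit 373) (nat_lit 437) (nat_lit 330)))) (XT.nd (nat_lit 78) (nat_lit 608) (nat_lit 0) (XT.lf (nat_lit 76) (nat_lit 636223235) (nat_lit 0) (nat_lit 3794377140) (nat_lit 380) (nat_lit 636223235) (nat_lit 118) (nat_lit 1) (nat_lit 117) (nat_lit 1) (nat_lit 122) (nat_lit 1)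 (nat_lit 374) (nat_lit 437) (nat_lit 329)) (XT.nd (nat_lit 78) (nat_lit 304) (nat_lit 0) (XT.lf (nat_lit 76) (nat_lit 2478221517) (nat_lit 0) (nat_lit 73540610) (nat_lit 304) (nat_lit 2478221517) (nat_lit 114) (nat_lit 1) (nat_lit 113) (nat_lit 1) (nat_lit 117) (nat_lit 1) (nat_lit 375) (nat_lit 437) (nat_lit 328)) (XT.lf (nat_lit 380) (nat_lit 3608128569) (nat_lit 0) (nat_lit 692701453) (nat_lit 304) (nat_lit 692701453) (nat_lit 114) (nat_lit 1) (nat_lit 109) (nat_lit 1) (nat_lit 113) (nat_lit 1) (nat_lit 376) (nat_lit 437) (nat_lit 327)))))) (XT.nd (nat_lit 55302) (nat_lit 0) (nat_lit 11552) (XT.nd (nat_lit 234) (nat_lit 228) (nat_lit 0) (XT.nd (nat_lit 78) (nat_lit 608) (nat_lit 0) (XT.lf (nat_lit 76) (nat_lit 1131178374) (nat_lit 0) (nat_lit 2694968777) (nat_lit 380) (nat_lit 1131178374) (nat_lit 110) (nat_lit 1) (nat_lit 109) (nat_lit 1) (nat_lit 114) (nat_lit 1) (nat_lit 377) (nat_lit 437) (nat_lit 326)) (XT.nd (nat_lit 78) (nat_lit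 380) (nat_lit 0) (XT.lf (nat_lit 304) (nat_lit 925242555) (nat_lit 0) (nat_lit 1998119647) (nat_lit 228) (nat_lit 1998119647) (nat_lit 110) (nat_lit 1) (nat_lit 106) (nat_lit 1) (nat_lit 109) (nat_lit 1) (nat_lit 378) (nat_lit 437) (nat_lit 325)) (XT.lf (nat_lit 380) (nat_lit 4496915115) (nat_lit 0) (nat_lit 194601820) (nat_lit 304) (nat_lit 194601820) (nat_lit 106) (nat_lit 1) (nat_lit 101) (nat_lit 1) (nat_lit 105) (nat_lit 1) (nat_lit 379) (nat_lit 437) (nat_lit 324)))) (XT.nd (nat_lit 78) (nat_lit 228) (nat_lit 0) (XT.lf (nat_lit 76) (nat_lit 1577785387) (nat_lit 0) (nat_lit 1695176550) (nat_lit 380) (nat_lit 1577785387) (nat_lit 102) (nat_lit 1) (nat_lit 101) (nat_lit 1) (nat_lit 106) (nat_lit 1) (nat_lit 380) (nat_lit 437) (nat_lit 323)) (XT.nd (nat_lit 78) (nat_lit 0) (nat_lit 0) (XT.lf (nat_lit 304) (nat_lit 1829374828) (nat_lit 0) (nat_lit 1493237974) (nat_lit 228) (nat_lit 1493237974) (nat_lit 102) (nat_lit 1) (nat_lit 98) (nat_lit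 1) (nat_lit 101) (nat_lit 1) (nat_lit 381) (nat_lit 437) (nat_lit 322)) (XT.lf (nat_lit 76) (nat_lit 258533828) (nat_lit 0) (nat_lit 4264333267) (nat_lit 304) (nat_lit 258533828) (nat_lit 99) (nat_lit 1) (nat_lit 98) (nat_lit 1) (nat_lit 102) (nat_lit 1) (nat_lit 382) (nat_lit 437) (nat_lit 321))))) (XT.nd (nat_lit 234) (nat_lit 1140) (nat_lit 0) (XT.nd (nat_lit 78) (nat_lit 532) (nat_lit 0) (XT.lf (nat_lit 684) (nat_lit 6411761216) (nat_lit 0) (nat_lit 498982572) (nat_lit 608) (nat_lit 498982572) (nat_lit 281) (nat_lit 1) (nat_lit 272) (nat_lit 1) (nat_lit 280) (nat_lit 1) (nat_lit 325) (nat_lit 438) (nat_lit 377)) (XT.nd (nat_lit 78) (nat_lit 532) (nat_lit 0) (XT.lf (nat_lit 76) (nat_lit 2512765786) (nat_lit 0) (nat_lit 2324155499) (nat_lit 684) (nat_lit 2512765786) (nat_lit 273) (nat_lit 1) (nat_lit 272) (nat_lit 1) (nat_lit 281) (nat_lit 1) (nat_lit 326) (nat_lit 438) (nat_lit 376)) (XT.lf (nat_lit 608) (nat_lit 3651192408) (nat_lit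 0) (nat_lit 1819666402) (nat_lit 532) (nat_lit 1819666402) (nat_lit 273) (nat_lit 1) (nat_lit 265) (nat_lit 1) (nat_lit 272) (nat_lit 1) (nat_lit 327) (nat_lit 438) (nat_lit 375)))) (XT.nd (nat_lit 78) (nat_lit 1140) (nat_lit 0) (XT.lf (nat_lit 76) (nat_lit 1139810493) (nat_lit 0) (nat_lit 4952428282) (nat_lit 608) (nat_lit 1139810493) (nat_lit 266) (nat_lit 1) (nat_lit 265) (nat_lit 1) (nat_lit 273) (nat_lit 1) (nat_lit 328) (nat_lit 438) (nat_lit 374)) (XT.nd (nat_lit 78) (nat_lit 608) (nat_lit 0) (XT.lf (nat_lit 608) (nat_lit 902361358) (nat_lit 0) (nat_lit 3135859848) (nat_lit 532) (nat_lit 3135859848) (nat_lit 266) (nat_lit 1) (nat_lit 258) (nat_lit 1) (nat_lit 265) (nat_lit 1) (nat_lit 329) (nat_lit 438) (nat_lit 373)) (XT.lf (nat_lit 608) (nat_lit 6666130928) (nat_lit 0) (nat_lit 225441550) (nat_lit 532) (nat_lit 225441550) (nat_lit 258) (nat_lit 1) (nat_lit 250) (nat_lit 1) (nat_lit 257) (nat_lit 1) (nat_lit 330) (nat_lit 438)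 (nat_lit 372))))))) (XT.nd (nat_lit 936) (nat_lit 3268) (nat_lit 0) (XT.nd (nat_lit 468) (nat_lit 1900) (nat_lit 0) (XT.nd (nat_lit 234) (nat_lit 1064) (nat_lit 0) (XT.nd (nat_lit 78) (nat_lit 532) (nat_lit 0) (XT.lf (nat_lit 76) (nat_lit 2625406874) (nat_lit 0) (nat_lit 1809271720) (nat_lit 608) (nat_lit 2625406874) (nat_lit 251) (nat_lit 1) (nat_lit 250) (nat_lit 1) (nat_lit 258) (nat_lit 1) (nat_lit 331) (nat_lit 438) (nat_lit 371)) (XT.nd (nat_lit 78) (nat_lit 0) (nat_lit 0) (XT.lf (nat_lit 608) (nat_lit 3851344784) (nat_lit 0) (nat_lit 1576347488) (nat_lit 532) (nat_lit 1576347488) (nat_lit 251) (nat_lit 1) (nat_lit 243) (nat_lit 1) (nat_lit 250) (nat_lit 1) (nat_lit 332) (nat_lit 438) (nat_lit 370)) (XT.lf (nat_lit 76) (nat_lit 1226905396) (nat_lit 0) (nat_lit 4494782087) (nat_lit 608) (nat_lit 1226905396) (nat_lit 244) (nat_lit 1) (nat_lit 243) (nat_lit 1) (nat_lit 251) (nat_lit 1) (nat_lit 333) (nat_lit 438) (nat_lit 369)))) (XT.nd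 (nat_lit 78) (nat_lit 608) (nat_lit 0) (XT.lf (nat_lit 532) (nat_lit 1054108493) (nat_lit 0) (nat_lit 2919772437) (nat_lit 456) (nat_lit 2919772437) (nat_lit 244) (nat_lit 1) (nat_lit 237) (nat_lit 1) (nat_lit 243) (nat_lit 1) (nat_lit 334) (nat_lit 438) (nat_lit 368)) (XT.nd (nat_lit 78) (nat_lit 0) (nat_lit 0) (XT.lf (nat_lit 608) (nat_lit 6516578998) (nat_lit 0) (nat_lit 161495251) (nat_lit 532) (nat_lit 161495251) (nat_lit 237) (nat_lit 1) (nat_lit 229) (nat_lit 1) (nat_lit 236) (nat_lit 1) (nat_lit 335) (nat_lit 438) (nat_lit 367)) (XT.lf (nat_lit 76) (nat_lit 2541860972) (nat_lit 0) (nat_lit 1701843765) (nat_lit 608) (nat_lit 2541860972) (nat_lit 230) (nat_lit 1) (nat_lit 229) (nat_lit 1) (nat_lit 237) (nat_lit 1) (nat_lit 336) (nat_lit 438) (nat_lit 366))))) (XT.nd (nat_lit 234) (nat_lit 988) (nat_lit 0) (XT.nd (nat_lit 78) (nat_lit 456) (nat_lit 0) (XT.lf (nat_lit 532) (nat_lit 3667763785) (nat_lit 0) (nat_lit 1532318746) (nat_lit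 456) (nat_lit 1532318746) (nat_lit 230) (nat_lit 1) (nat_lit 223) (nat_lit 1) (nat_lit 229) (nat_lit 1) (nat_lit 337) (nat_lit 438) (nat_lit 365)) (XT.nd (nat_lit 78) (nat_lit 456) (nat_lit 0) (XT.lf (nat_lit 76) (nat_lit 1127639842) (nat_lit 0) (nat_lit 4424523330) (nat_lit 532) (nat_lit 1127639842) (nat_lit 224) (nat_lit 1) (nat_lit 223) (nat_lit 1) (nat_lit 230) (nat_lit 1) (nat_lit 338) (nat_lit 438) (nat_lit 364)) (XT.lf (nat_lit 532) (nat_lit 841382646) (nat_lit 0) (nat_lit 2893141343) (nat_lit 456) (nat_lit 2893141343) (nat_lit 224) (nat_lit 1) (nat_lit 217) (nat_lit 1) (nat_lit 223) (nat_lit 1) (nat_lit 339) (nat_lit 438) (nat_lit 363)))) (XT.nd (nat_lit 78) (nat_lit 456) (nat_lit 0) (XT.lf (nat_lit 532) (nat_lit 6029555105) (nat_lit 0) (nat_lit 273371091) (nat_lit 456) (nat_lit 273371091) (nat_lit 217) (nat_lit 1) (nat_lit 210) (nat_lit 1) (nat_lit 216) (nat_lit 1) (nat_lit 340) (nat_lit 438) (nat_lit 362)) (XT.nd (nat_lit 78)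 (nat_lit 456) (nat_lit 0) (XT.lf (nat_lit 76) (nat_lit 2294534077) (nat_lit 0) (nat_lit 1935978235) (nat_lit 532) (nat_lit 2294534077) (nat_lit 211) (nat_lit 1) (nat_lit 210) (nat_lit 1) (nat_lit 217) (nat_lit 1) (nat_lit 341) (nat_lit 438) (nat_lit 361)) (XT.lf (nat_lit 532) (nat_lit 3164089347) (nat_lit 0) (nat_lit 1655230662) (nat_lit 456) (nat_lit 1655230662) (nat_lit 211) (nat_lit 1) (nat_lit 204) (nat_lit 1) (nat_lit 210) (nat_lit 1) (nat_lit 342) (nat_lit 438) (nat_lit 360)))))) (XT.nd (nat_lit 468) (nat_lit 1976) (nat_lit 0) (XT.nd (nat_lit 234) (nat_lit 380) (nat_lit 0) (XT.nd (nat_lit 78) (nat_lit 912) (nat_lit 0) (XT.lf (nat_lit 76) (nat_lit 873048533) (nat_lit 0) (nat_lit 4678537131) (nat_lit 532) (nat_lit 873048533) (nat_lit 205) (nat_lit 1) (nat_lit 204) (nat_lit 1) (nat_lit 211) (nat_lit 1) (nat_lit 343) (nat_lit 438) (nat_lit 359)) (XT.nd (nat_lit 78) (nat_lit 532) (nat_lit 0) (XT.lf (nat_lit 456) (nat_lit 325128705) (nat_lit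 0) (nat_lit 3024982122) (nat_lit 380) (nat_lit 3024982122) (nat_lit 205) (nat_lit 1) (nat_lit 199) (nat_lit 1) (nat_lit 204) (nat_lit 1) (nat_lit 344) (nat_lit 438) (nat_lit 358)) (XT.lf (nat_lit 532) (nat_lit 5263111664) (nat_lit 0) (nat_lit 531545183) (nat_lit 456) (nat_lit 531545183) (nat_lit 199) (nat_lit 1) (nat_lit 192) (nat_lit 1) (nat_lit 198) (nat_lit 1) (nat_lit 345) (nat_lit 438) (nat_lit 357)))) (XT.nd (nat_lit 78) (nat_lit 380) (nat_lit 0) (XT.lf (nat_lit 76) (nat_lit 1911732187) (nat_lit 0) (nat_lit 2454080557) (nat_lit 532) (nat_lit 1911732187) (nat_lit 193) (nat_lit 1) (nat_lit 192) (nat_lit 1) (nat_lit 199) (nat_lit 1) (nat_lit 346) (nat_lit 438) (nat_lit 356)) (XT.nd (nat_lit 78) (nat_lit 0) (nat_lit 0) (XT.lf (nat_lit 456) (nat_lit 2395900197) (nat_lit 0) (nat_lit 1916812562) (nat_lit 380) (nat_lit 1916812562) (nat_lit 193) (nat_lit 1) (nat_lit 187) (nat_lit 1) (nat_lit 192) (nat_lit 1) (nat_lit 347) (nat_lit 438) (nat_lit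 355)) (XT.lf (nat_lit 76) (nat_lit 490230292) (nat_lit 0) (nat_lit 5201675570) (nat_lit 456) (nat_lit 490230292) (nat_lit 188) (nat_lit 1) (nat_lit 187) (nat_lit 1) (nat_lit 193) (nat_lit 1) (nat_lit 348) (nat_lit 438) (nat_lit 354))))) (XT.nd (nat_lit 234) (nat_lit 1140) (nat_lit 0) (XT.nd (nat_lit 78) (nat_lit 380) (nat_lit 0) (XT.lf (nat_lit 76) (nat_lit 2849645325) (nat_lit 0) (nat_lit 435657204) (nat_lit 456) (nat_lit 2849645325) (nat_lit 182) (nat_lit 1) (nat_lit 181) (nat_lit 1) (nat_lit 187) (nat_lit 1) (nat_lit 349) (nat_lit 438) (nat_lit 353)) (XT.nd (nat_lit 78) (nat_lit 0) (nat_lit 0) (XT.lf (nat_lit 456) (nat_lit 4267884114) (nat_lit 0) (nat_lit 910247012) (nat_lit 380) (nat_lit 910247012) (nat_lit 182) (nat_lit 1) (nat_lit 176) (nat_lit 1) (nat_lit 181) (nat_lit 1) (nat_lit 350) (nat_lit 438) (nat_lit 352)) (XT.lf (nat_lit 76) (nat_lit 1418140120) (nat_lit 0) (nat_lit 3205887115) (nat_lit 456) (nat_lit 1418140120) (nat_lit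 177) (nat_lit 1) (nat_lit 176) (nat_lit 1) (nat_lit 182) (nat_lit 1) (nat_lit 351) (nat_lit 438) (nat_lit 351)))) (XT.nd (nat_lit 156) (nat_lit 760) (nat_lit 0) (XT.nd (nat_lit 78) (nat_lit 0) (nat_lit 0) (XT.lf (nat_lit 456) (nat_lit 1411655667) (nat_lit 0) (nat_lit 2292396721) (nat_lit 380) (nat_lit 2292396721) (nat_lit 177) (nat_lit 1) (nat_lit 171) (nat_lit 1) (nat_lit 176) (nat_lit 1) (nat_lit 352) (nat_lit 438) (nat_lit 350)) (XT.lf (nat_lit 76) (nat_lit 2808098) (nat_lit 0) (nat_lit 5945827796) (nat_lit 456) (nat_lit 2808098) (nat_lit 172) (nat_lit 1) (nat_lit 171) (nat_lit 1) (nat_lit 177) (nat_lit 1) (nat_lit 353) (nat_lit 438) (nat_lit 349))) (XT.nd (nat_lit 78) (nat_lit 380) (nat_lit 0) (XT.lf (nat_lit 76) (nat_lit 2256459034) (nat_lit 0) (nat_lit 1393452905) (nat_lit 380) (nat_lit 2256459034) (nat_lit 167) (nat_lit 1) (nat_lit 166) (nat_lit 1) (nat_lit 171) (nat_lit 1) (nat_lit 354) (nat_lit 438) (nat_lit 348)) (XT.lf (nat_lit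 456) (nat_lit 3087959796) (nat_lit 0) (nat_lit 1387020377) (nat_lit 380) (nat_lit 1387020377) (nat_lit 167) (nat_lit 1) (nat_lit 161) (nat_lit 1) (nat_lit 166) (nat_lit 1) (nat_lit 355) (nat_lit 438) (nat_lit 347))))))))
noncomputable def ec126 : XT := (XT.nd (nat_lit 57408) (nat_lit 0) (nat_lit 4560) (XT.nd (nat_lit 936) (nat_lit 2128) (nat_lit 0) (XT.nd (nat_lit 468) (nat_lit 1368) (nat_lit 0) (XT.nd (nat_lit 234) (nat_lit 304) (nat_lit 0) (XT.nd (nat_lit 78) (nat_lit 760) (nat_lit 0) (XT.lf (nat_lit 76) (nat_lit 835245908) (nat_lit 0) (nat_lit 4147607337) (nat_lit 456) (nat_lit 835245908) (nat_lit 162) (nat_lit 1) (nat_lit 161) (nat_lit 1) (nat_lit 167) (nat_lit 1) (nat_lit 356) (nat_lit 438) (nat_lit 346)) (XT.nd (nat_lit 78) (nat_lit 456) (nat_lit 0) (XT.lf (nat_lit 380) (nat_lit 253530438) (nat_lit 0) (nat_lit 2760496547) (nat_lit 304) (nat_lit 2760496547) (nat_lit 162) (nat_lit 1) (nat_lit 157) (nat_lit 1) (nat_lit 161) (nat_lit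 1) (nat_lit 357) (nat_lit 438) (nat_lit 345)) (XT.lf (nat_lit 456) (nat_lit 4601629068) (nat_lit 0) (nat_lit 564921991) (nat_lit 380) (nat_lit 564921991) (nat_lit 157) (nat_lit 1) (nat_lit 151) (nat_lit 1) (nat_lit 156) (nat_lit 1) (nat_lit 358) (nat_lit 438) (nat_lit 344)))) (XT.nd (nat_lit 78) (nat_lit 304) (nat_lit 0) (XT.lf (nat_lit 76) (nat_lit 1587963269) (nat_lit 0) (nat_lit 2512710345) (nat_lit 456) (nat_lit 1587963269) (nat_lit 152) (nat_lit 1) (nat_lit 151) (nat_lit 1) (nat_lit 157) (nat_lit 1) (nat_lit 359) (nat_lit 438) (nat_lit 343)) (XT.nd (nat_lit 78) (nat_lit 0) (nat_lit 0) (XT.lf (nat_lit 380) (nat_lit 1761647972) (nat_lit 0) (nat_lit 1942334266) (nat_lit 304) (nat_lit 1942334266) (nat_lit 152) (nat_lit 1) (nat_lit 147) (nat_lit 1) (nat_lit 151) (nat_lit 1) (nat_lit 360) (nat_lit 438) (nat_lit 342)) (XT.lf (nat_lit 76) (nat_lit 181716907) (nat_lit 0) (nat_lit 5241163367) (nat_lit 380) (nat_lit 181716907) (nat_lit 148)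 (nat_lit 1) (nat_lit 147) (nat_lit 1) (nat_lit 152) (nat_lit 1) (nat_lit 361) (nat_lit 438) (nat_lit 341))))) (XT.nd (nat_lit 234) (nat_lit 684) (nat_lit 0) (XT.nd (nat_lit 78) (nat_lit 304) (nat_lit 0) (XT.lf (nat_lit 76) (nat_lit 2267351384) (nat_lit 0) (nat_lit 1028181722) (nat_lit 380) (nat_lit 2267351384) (nat_lit 143) (nat_lit 1) (nat_lit 142) (nat_lit 1) (nat_lit 147) (nat_lit 1) (nat_lit 362) (nat_lit 438) (nat_lit 340)) (XT.nd (nat_lit 78) (nat_lit 0) (nat_lit 0) (XT.lf (nat_lit 380) (nat_lit 3124965947) (nat_lit 0) (nat_lit 1198399135) (nat_lit 304) (nat_lit 1198399135) (nat_lit 143) (nat_lit 1) (nat_lit 138) (nat_lit 1) (nat_lit 142) (nat_lit 1) (nat_lit 363) (nat_lit 438) (nat_lit 339)) (XT.lf (nat_lit 76) (nat_lit 861087942) (nat_lit 0) (nat_lit 3758868552) (nat_lit 380) (nat_lit 861087942) (nat_lit 139) (nat_lit 1) (nat_lit 138) (nat_lit 1) (nat_lit 143) (nat_lit 1) (nat_lit 364) (nat_lit 438) (nat_lit 338)))) (XT.nd (nat_lit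 78) (nat_lit 380) (nat_lit 0) (XT.lf (nat_lit 380) (nat_lit 322162111) (nat_lit 0) (nat_lit 2559238040) (nat_lit 304) (nat_lit 2559238040) (nat_lit 139) (nat_lit 1) (nat_lit 134) (nat_lit 1) (nat_lit 138) (nat_lit 1) (nat_lit 365) (nat_lit 438) (nat_lit 337)) (XT.nd (nat_lit 78) (nat_lit 0) (nat_lit 0) (XT.lf (nat_lit 380) (nat_lit 4355098758) (nat_lit 0) (nat_lit 522804684) (nat_lit 304) (nat_lit 522804684) (nat_lit 134) (nat_lit 1) (nat_lit 129) (nat_lit 1) (nat_lit 133) (nat_lit 1) (nat_lit 366) (nat_lit 438) (nat_lit 336)) (XT.lf (nat_lit 76) (nat_lit 1475129420) (nat_lit 0) (nat_lit 2410695625) (nat_lit 380) (nat_lit 1475129420) (nat_lit 130) (nat_lit 1) (nat_lit 129) (nat_lit 1) (nat_lit 134) (nat_lit 1) (nat_lit 367) (nat_lit 438) (nat_lit 335)))))) (XT.nd (nat_lit 468) (nat_lit 912) (nat_lit 0) (XT.nd (nat_lit 234) (nat_lit 608) (nat_lit 0) (XT.nd (nat_lit 78) (nat_lit 304) (nat_lit 0) (XT.lf (nat_lit 380) (nat_lit 1557104966)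 (nat_lit 0) (nat_lit 1882282173) (nat_lit 304) (nat_lit 1882282173) (nat_lit 130) (nat_lit 1) (nat_lit 125) (nat_lit 1) (nat_lit 129) (nat_lit 1) (nat_lit 368) (nat_lit 438) (nat_lit 334)) (XT.nd (nat_lit 78) (nat_lit 304) (nat_lit 0) (XT.lf (nat_lit 76) (nat_lit 90477939) (nat_lit 0) (nat_lit 5101996380) (nat_lit 380) (nat_lit 90477939) (nat_lit 126) (nat_lit 1) (nat_lit 125) (nat_lit 1) (nat_lit 130) (nat_lit 1) (nat_lit 369) (nat_lit 438) (nat_lit 333)) (XT.lf (nat_lit 76) (nat_lit 2029083003) (nat_lit 0) (nat_lit 1186014152) (nat_lit 304) (nat_lit 2029083003) (nat_lit 122) (nat_lit 1) (nat_lit 121) (nat_lit 1) (nat_lit 125) (nat_lit 1) (nat_lit 370) (nat_lit 438) (nat_lit 332)))) (XT.nd (nat_lit 78) (nat_lit 304) (nat_lit 0) (XT.lf (nat_lit 380) (nat_lit 2673305646) (nat_lit 0) (nat_lit 1266331712) (nat_lit 304) (nat_lit 1266331712) (nat_lit 122) (nat_lit 1) (nat_lit 117) (nat_lit 1) (nat_lit 121) (nat_lit 1) (nat_lit 371) (nat_lit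 438) (nat_lit 331)) (XT.nd (nat_lit 78) (nat_lit 304) (nat_lit 0) (XT.lf (nat_lit 76) (nat_lit 648947700) (nat_lit 0) (nat_lit 3870264683) (nat_lit 380) (nat_lit 648947700) (nat_lit 118) (nat_lit 1) (nat_lit 117) (nat_lit 1) (nat_lit 122) (nat_lit 1) (nat_lit 372) (nat_lit 438) (nat_lit 330)) (XT.lf (nat_lit 76) (nat_lit 2527785948) (nat_lit 0) (nat_lit 75011422) (nat_lit 304) (nat_lit 2527785948) (nat_lit 114) (nat_lit 1) (nat_lit 113) (nat_lit 1) (nat_lit 117) (nat_lit 1) (nat_lit 373) (nat_lit 438) (nat_lit 329))))) (XT.nd (nat_lit 234) (nat_lit 380) (nat_lit 0) (XT.nd (nat_lit 78) (nat_lit 228) (nat_lit 0) (XT.lf (nat_lit 380) (nat_lit 3680291140) (nat_lit 0) (nat_lit 706555482) (nat_lit 304) (nat_lit 706555482) (nat_lit 114) (nat_lit 1) (nat_lit 109) (nat_lit 1) (nat_lit 113) (nat_lit 1) (nat_lit 374) (nat_lit 438) (nat_lit 328)) (XT.nd (nat_lit 78) (nat_lit 228) (nat_lit 0) (XT.lf (nat_lit 76) (nat_lit 1153801942) (nat_lit 0) (nat_lit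 2748868153) (nat_lit 380) (nat_lit 1153801942) (nat_lit 110) (nat_lit 1) (nat_lit 109) (nat_lit 1) (nat_lit 114) (nat_lit 1) (nat_lit 375) (nat_lit 438) (nat_lit 327)) (XT.lf (nat_lit 304) (nat_lit 943747406) (nat_lit 0) (nat_lit 2038082040) (nat_lit 228) (nat_lit 2038082040) (nat_lit 110) (nat_lit 1) (nat_lit 106) (nat_lit 1) (nat_lit 109) (nat_lit 1) (nat_lit 376) (nat_lit 438) (nat_lit 326)))) (XT.nd (nat_lit 55614) (nat_lit 0) (nat_lit 10792) (XT.lf (nat_lit 380) (nat_lit 4586853417) (nat_lit 0) (nat_lit 198493856) (nat_lit 304) (nat_lit 198493856) (nat_lit 106) (nat_lit 1) (nat_lit 101) (nat_lit 1) (nat_lit 105) (nat_lit 1) (nat_lit 377) (nat_lit 438) (nat_lit 325)) (XT.nd (nat_lit 78) (nat_lit 532) (nat_lit 0) (XT.lf (nat_lit 76) (nat_lit 2677915012) (nat_lit 0) (nat_lit 1845457155) (nat_lit 608) (nat_lit 2677915012) (nat_lit 251) (nat_lit 1) (nat_lit 250) (nat_lit 1) (nat_lit 258) (nat_lit 1) (nat_lit 329) (nat_lit 439) (nat_lit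 372)) (XT.lf (nat_lit 608) (nat_lit 3928371679) (nat_lit 0) (nat_lit 1607874438) (nat_lit 532) (nat_lit 1607874438) (nat_lit 251) (nat_lit 1) (nat_lit 243) (nat_lit 1) (nat_lit 250) (nat_lit 1) (nat_lit 330) (nat_lit 439) (nat_lit 371))))))) (XT.nd (nat_lit 936) (nat_lit 2888) (nat_lit 0) (XT.nd (nat_lit 468) (nat_lit 1824) (nat_lit 0) (XT.nd (nat_lit 234) (nat_lit 456) (nat_lit 0) (XT.nd (nat_lit 78) (nat_lit 1064) (nat_lit 0) (XT.lf (nat_lit 76) (nat_lit 1251443504) (nat_lit 0) (nat_lit 4584677729) (nat_lit 608) (nat_lit 1251443504) (nat_lit 244) (nat_lit 1) (nat_lit 243) (nat_lit 1) (nat_lit 251) (nat_lit 1) (nat_lit 331) (nat_lit 439) (nat_lit 370)) (XT.nd (nat_lit 78) (nat_lit 608) (nat_lit 0) (XT.lf (nat_lit 532) (nat_lit 1075190663) (nat_lit 0) (nat_lit 2978167886) (nat_lit 456) (nat_lit 2978167886) (nat_lit 244) (nat_lit 1) (nat_lit 237) (nat_lit 1) (nat_lit 243) (nat_lit 1) (nat_lit 332) (nat_lit 439) (nat_lit 369)) (XT.lf (nat_lit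 608) (nat_lit 6646910578) (nat_lit 0) (nat_lit 164725156) (nat_lit 532) (nat_lit 164725156) (nat_lit 237) (nat_lit 1) (nat_lit 229) (nat_lit 1) (nat_lit 236) (nat_lit 1) (nat_lit 333) (nat_lit 439) (nat_lit 368)))) (XT.nd (nat_lit 78) (nat_lit 456) (nat_lit 0) (XT.lf (nat_lit 76) (nat_lit 2592698191) (nat_lit 0) (nat_lit 1735880640) (nat_lit 608) (nat_lit 2592698191) (nat_lit 230) (nat_lit 1) (nat_lit 229) (nat_lit 1) (nat_lit 237) (nat_lit 1) (nat_lit 334) (nat_lit 439) (nat_lit 367)) (XT.nd (nat_lit 78) (nat_lit 0) (nat_lit 0) (XT.lf (nat_lit 532) (nat_lit 3741119061) (nat_lit 0) (nat_lit 1562965121) (nat_lit 456) (nat_lit 1562965121) (nat_lit 230) (nat_lit 1) (nat_lit 223) (nat_lit 1) (nat_lit 229) (nat_lit 1) (nat_lit 335) (nat_lit 439) (nat_lit 366)) (XT.lf (nat_lit 76) (nat_lit 1150192639) (nat_lit 0) (nat_lit 4513013797) (nat_lit 532) (nat_lit 1150192639) (nat_lit 224) (nat_lit 1) (nat_lit 223) (nat_lit 1) (nat_lit 230) (nat_lit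 1) (nat_lit 336) (nat_lit 439) (nat_lit 365))))) (XT.nd (nat_lit 234) (nat_lit 836) (nat_lit 0) (XT.nd (nat_lit 78) (nat_lit 532) (nat_lit 0) (XT.lf (nat_lit 532) (nat_lit 858210299) (nat_lit 0) (nat_lit 2951004170) (nat_lit 456) (nat_lit 2951004170) (nat_lit 224) (nat_lit 1) (nat_lit 217) (nat_lit 1) (nat_lit 223) (nat_lit 1) (nat_lit 337) (nat_lit 439) (nat_lit 364)) (XT.nd (nat_lit 78) (nat_lit 0) (nat_lit 0) (XT.lf (nat_lit 532) (nat_lit 6150146208) (nat_lit 0) (nat_lit 278838513) (nat_lit 456) (nat_lit 278838513) (nat_lit 217) (nat_lit 1) (nat_lit 210) (nat_lit 1) (nat_lit 216) (nat_lit 1) (nat_lit 338) (nat_lit 439) (nat_lit 363)) (XT.lf (nat_lit 76) (nat_lit 2340424759) (nat_lit 0) (nat_lit 1974697799) (nat_lit 532) (nat_lit 2340424759) (nat_lit 211) (nat_lit 1) (nat_lit 210) (nat_lit 1) (nat_lit 217) (nat_lit 1) (nat_lit 339) (nat_lit 439) (nat_lit 362)))) (XT.nd (nat_lit 78) (nat_lit 380) (nat_lit 0) (XT.lf (nat_lit 532) (nat_lit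 3227371134) (nat_lit 0) (nat_lit 1688335275) (nat_lit 456) (nat_lit 1688335275) (nat_lit 211) (nat_lit 1) (nat_lit 204) (nat_lit 1) (nat_lit 210) (nat_lit 1) (nat_lit 340) (nat_lit 439) (nat_lit 361)) (XT.nd (nat_lit 78) (nat_lit 380) (nat_lit 0) (XT.lf (nat_lit 76) (nat_lit 890509503) (nat_lit 0) (nat_lit 4772107873) (nat_lit 532) (nat_lit 890509503) (nat_lit 205) (nat_lit 1) (nat_lit 204) (nat_lit 1) (nat_lit 211) (nat_lit 1) (nat_lit 341) (nat_lit 439) (nat_lit 360)) (XT.lf (nat_lit 456) (nat_lit 331631280) (nat_lit 0) (nat_lit 3085481765) (nat_lit 380) (nat_lit 3085481765) (nat_lit 205) (nat_lit 1) (nat_lit 199) (nat_lit 1) (nat_lit 204) (nat_lit 1) (nat_lit 342) (nat_lit 439) (nat_lit 359)))))) (XT.nd (nat_lit 468) (nat_lit 1140) (nat_lit 0) (XT.nd (nat_lit 234) (nat_lit 836) (nat_lit 0) (XT.nd (nat_lit 78) (nat_lit 380) (nat_lit 0) (XT.lf (nat_lit 532) (nat_lit 5368373898) (nat_lit 0) (nat_lit 542176086) (nat_lit 456) (nat_lit 542176086)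 (nat_lit 199) (nat_lit 1) (nat_lit 192) (nat_lit 1) (nat_lit 198) (nat_lit 1) (nat_lit 343) (nat_lit 439) (nat_lit 358)) (XT.nd (nat_lit 78) (nat_lit 380) (nat_lit 0) (XT.lf (nat_lit 76) (nat_lit 1949966831) (nat_lit 0) (nat_lit 2503162168) (nat_lit 532) (nat_lit 1949966831) (nat_lit 193) (nat_lit 1) (nat_lit 192) (nat_lit 1) (nat_lit 199) (nat_lit 1) (nat_lit 344) (nat_lit 439) (nat_lit 357)) (XT.lf (nat_lit 456) (nat_lit 2443818201) (nat_lit 0) (nat_lit 1955148813) (nat_lit 380) (nat_lit 1955148813) (nat_lit 193) (nat_lit 1) (nat_lit 187) (nat_lit 1) (nat_lit 192) (nat_lit 1) (nat_lit 345) (nat_lit 439) (nat_lit 356)))) (XT.nd (nat_lit 78) (nat_lit 836) (nat_lit 0) (XT.lf (nat_lit 76) (nat_lit 500034898) (nat_lit 0) (nat_lit 5305709081) (nat_lit 456) (nat_lit 500034898) (nat_lit 188) (nat_lit 1) (nat_lit 187) (nat_lit 1) (nat_lit 193) (nat_lit 1) (nat_lit 346) (nat_lit 439) (nat_lit 355)) (XT.nd (nat_lit 78) (nat_lit 380) (nat_lit 0)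 (XT.lf (nat_lit 76) (nat_lit 2906638231) (nat_lit 0) (nat_lit 444370348) (nat_lit 456) (nat_lit 2906638231) (nat_lit 182) (nat_lit 1) (nat_lit 181) (nat_lit 1) (nat_lit 187) (nat_lit 1) (nat_lit 347) (nat_lit 439) (nat_lit 354)) (XT.lf (nat_lit 456) (nat_lit 4353241796) (nat_lit 0) (nat_lit 928451952) (nat_lit 380) (nat_lit 928451952) (nat_lit 182) (nat_lit 1) (nat_lit 176) (nat_lit 1) (nat_lit 181) (nat_lit 1) (nat_lit 348) (nat_lit 439) (nat_lit 353))))) (XT.nd (nat_lit 234) (nat_lit 760) (nat_lit 0) (XT.nd (nat_lit 78) (nat_lit 380) (nat_lit 0) (XT.lf (nat_lit 76) (nat_lit 1446502922) (nat_lit 0) (nat_lit 3270004858) (nat_lit 456) (nat_lit 1446502922) (nat_lit 177) (nat_lit 1) (nat_lit 176) (nat_lit 1) (nat_lit 182) (nat_lit 1) (nat_lit 349) (nat_lit 439) (nat_lit 352)) (XT.nd (nat_lit 78) (nat_lit 0) (nat_lit 0) (XT.lf (nat_lit 456) (nat_lit 1439888780) (nat_lit 0) (nat_lit 2338244656) (nat_lit 380) (nat_lit 2338244656) (nat_lit 177)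 (nat_lit 1) (nat_lit 171) (nat_lit 1) (nat_lit 176) (nat_lit 1) (nat_lit 350) (nat_lit 439) (nat_lit 351)) (XT.lf (nat_lit 76) (nat_lit 2864260) (nat_lit 0) (nat_lit 6064744352) (nat_lit 456) (nat_lit 2864260) (nat_lit 172) (nat_lit 1) (nat_lit 171) (nat_lit 1) (nat_lit 177) (nat_lit 1) (nat_lit 351) (nat_lit 439) (nat_lit 350)))) (XT.nd (nat_lit 78) (nat_lit 380) (nat_lit 0) (XT.lf (nat_lit 76) (nat_lit 2301588215) (nat_lit 0) (nat_lit 1421321963) (nat_lit 380) (nat_lit 2301588215) (nat_lit 167) (nat_lit 1) (nat_lit 166) (nat_lit 1) (nat_lit 171) (nat_lit 1) (nat_lit 352) (nat_lit 439) (nat_lit 349)) (XT.nd (nat_lit 78) (nat_lit 0) (nat_lit 0) (XT.lf (nat_lit 456) (nat_lit 3149718992) (nat_lit 0) (nat_lit 1414760785) (nat_lit 380) (nat_lit 1414760785) (nat_lit 167) (nat_lit 1) (nat_lit 161) (nat_lit 1) (nat_lit 166) (nat_lit 1) (nat_lit 353) (nat_lit 439) (nat_lit 348)) (XT.lf (nat_lit 76) (nat_lit 851950827) (nat_lit 0) (nat_lit 4230559484)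 (nat_lit 456) (nat_lit 851950827) (nat_lit 162) (nat_lit 1) (nat_lit 161) (nat_lit 1) (nat_lit 167) (nat_lit 1) (nat_lit 354) (nat_lit 439) (nat_lit 347))))))))
noncomputable def ec127 : XT := (XT.nd (nat_lit 58266) (nat_lit 0) (nat_lit 1216) (XT.nd (nat_lit 936) (nat_lit 1216) (nat_lit 0) (XT.nd (nat_lit 468) (nat_lit 1292) (nat_lit 0) (XT.nd (nat_lit 234) (nat_lit 684) (nat_lit 0) (XT.nd (nat_lit 78) (nat_lit 456) (nat_lit 0) (XT.lf (nat_lit 380) (nat_lit 258601047) (nat_lit 0) (nat_lit 2815706478) (nat_lit 304) (nat_lit 2815706478) (nat_lit 162) (nat_lit 1) (nat_lit 157) (nat_lit 1) (nat_lit 161) (nat_lit 1) (nat_lit 355) (nat_lit 439) (nat_lit 346)) (XT.nd (nat_lit 78) (nat_lit 0) (nat_lit 0) (XT.lf (nat_lit 456) (nat_lit 4693661650) (nat_lit 0) (nat_lit 576220431) (nat_lit 380) (nat_lit 576220431) (nat_lit 157) (nat_lit 1) (nat_lit 151) (nat_lit 1) (nat_lit 156) (nat_lit 1) (nat_lit 356) (nat_lit 439) (nat_lit 345)) (XT.lf (nat_lit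 76) (nat_lit 1619722535) (nat_lit 0) (nat_lit 2562964552) (nat_lit 456) (nat_lit 1619722535) (nat_lit 152) (nat_lit 1) (nat_lit 151) (nat_lit 1) (nat_lit 157) (nat_lit 1) (nat_lit 357) (nat_lit 439) (nat_lit 344)))) (XT.nd (nat_lit 78) (nat_lit 380) (nat_lit 0) (XT.lf (nat_lit 380) (nat_lit 1796880931) (nat_lit 0) (nat_lit 1981180952) (nat_lit 304) (nat_lit 1981180952) (nat_lit 152) (nat_lit 1) (nat_lit 147) (nat_lit 1) (nat_lit 151) (nat_lit 1) (nat_lit 358) (nat_lit 439) (nat_lit 343)) (XT.nd (nat_lit 78) (nat_lit 380) (nat_lit 0) (XT.lf (nat_lit 76) (nat_lit 185351245) (nat_lit 0) (nat_lit 5345986634) (nat_lit 380) (nat_lit 185351245) (nat_lit 148) (nat_lit 1) (nat_lit 147) (nat_lit 1) (nat_lit 152) (nat_lit 1) (nat_lit 359) (nat_lit 439) (nat_lit 342)) (XT.lf (nat_lit 76) (nat_lit 2312698412) (nat_lit 0) (nat_lit 1048745357) (nat_lit 380) (nat_lit 2312698412) (nat_lit 143) (nat_lit 1) (nat_lit 142) (nat_lit 1) (nat_lit 147) (nat_lit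 1) (nat_lit 360) (nat_lit 439) (nat_lit 341))))) (XT.nd (nat_lit 234) (nat_lit 684) (nat_lit 0) (XT.nd (nat_lit 78) (nat_lit 304) (nat_lit 0) (XT.lf (nat_lit 380) (nat_lit 3187465266) (nat_lit 0) (nat_lit 1222367118) (nat_lit 304) (nat_lit 1222367118) (nat_lit 143) (nat_lit 1) (nat_lit 138) (nat_lit 1) (nat_lit 142) (nat_lit 1) (nat_lit 361) (nat_lit 439) (nat_lit 340)) (XT.nd (nat_lit 78) (nat_lit 304) (nat_lit 0) (XT.lf (nat_lit 76) (nat_lit 878309701) (nat_lit 0) (nat_lit 3834045923) (nat_lit 380) (nat_lit 878309701) (nat_lit 139) (nat_lit 1) (nat_lit 138) (nat_lit 1) (nat_lit 143) (nat_lit 1) (nat_lit 362) (nat_lit 439) (nat_lit 339)) (XT.lf (nat_lit 380) (nat_lit 328605354) (nat_lit 0) (nat_lit 2610422801) (nat_lit 304) (nat_lit 2610422801) (nat_lit 139) (nat_lit 1) (nat_lit 134) (nat_lit 1) (nat_lit 138) (nat_lit 1) (nat_lit 363) (nat_lit 439) (nat_lit 338)))) (XT.nd (nat_lit 78) (nat_lit 304) (nat_lit 0) (XT.lf (nat_lit 380) (nat_lit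 4442200733) (nat_lit 0) (nat_lit 533260778) (nat_lit 304) (nat_lit 533260778) (nat_lit 134) (nat_lit 1) (nat_lit 129) (nat_lit 1) (nat_lit 133) (nat_lit 1) (nat_lit 364) (nat_lit 439) (nat_lit 337)) (XT.nd (nat_lit 78) (nat_lit 304) (nat_lit 0) (XT.lf (nat_lit 76) (nat_lit 1504632009) (nat_lit 0) (nat_lit 2458909537) (nat_lit 380) (nat_lit 1504632009) (nat_lit 130) (nat_lit 1) (nat_lit 129) (nat_lit 1) (nat_lit 134) (nat_lit 1) (nat_lit 365) (nat_lit 439) (nat_lit 336)) (XT.lf (nat_lit 380) (nat_lit 1588247065) (nat_lit 0) (nat_lit 1919927816) (nat_lit 304) (nat_lit 1919927816) (nat_lit 130) (nat_lit 1) (nat_lit 125) (nat_lit 1) (nat_lit 129) (nat_lit 1) (nat_lit 366) (nat_lit 439) (nat_lit 335)))))) (XT.nd (nat_lit 56862) (nat_lit 0) (nat_lit 6840) (XT.nd (nat_lit 234) (nat_lit 608) (nat_lit 0) (XT.nd (nat_lit 78) (nat_lit 608) (nat_lit 0) (XT.lf (nat_lit 76) (nat_lit 92287498) (nat_lit 0) (nat_lit 5204036307) (nat_lit 380) (nat_lit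 92287498) (nat_lit 126) (nat_lit 1) (nat_lit 125) (nat_lit 1) (nat_lit 130) (nat_lit 1) (nat_lit 367) (nat_lit 439) (nat_lit 334)) (XT.nd (nat_lit 78) (nat_lit 304) (nat_lit 0) (XT.lf (nat_lit 76) (nat_lit 2069664663) (nat_lit 0) (nat_lit 1209734435) (nat_lit 304) (nat_lit 2069664663) (nat_lit 122) (nat_lit 1) (nat_lit 121) (nat_lit 1) (nat_lit 125) (nat_lit 1) (nat_lit 368) (nat_lit 439) (nat_lit 333)) (XT.lf (nat_lit 380) (nat_lit 2726771759) (nat_lit 0) (nat_lit 1291658346) (nat_lit 304) (nat_lit 1291658346) (nat_lit 122) (nat_lit 1) (nat_lit 117) (nat_lit 1) (nat_lit 121) (nat_lit 1) (nat_lit 369) (nat_lit 439) (nat_lit 332)))) (XT.nd (nat_lit 78) (nat_lit 608) (nat_lit 0) (XT.lf (nat_lit 76) (nat_lit 661926654) (nat_lit 0) (nat_lit 3947669977) (nat_lit 380) (nat_lit 661926654) (nat_lit 118) (nat_lit 1) (nat_lit 117) (nat_lit 1) (nat_lit 122) (nat_lit 1) (nat_lit 370) (nat_lit 439) (nat_lit 331)) (XT.nd (nat_lit 78) (nat_lit 304)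 (nat_lit 0) (XT.lf (nat_lit 76) (nat_lit 2578341667) (nat_lit 0) (nat_lit 76511650) (nat_lit 304) (nat_lit 2578341667) (nat_lit 114) (nat_lit 1) (nat_lit 113) (nat_lit 1) (nat_lit 117) (nat_lit 1) (nat_lit 371) (nat_lit 439) (nat_lit 330)) (XT.lf (nat_lit 380) (nat_lit 3753896963) (nat_lit 0) (nat_lit 720686592) (nat_lit 304) (nat_lit 720686592) (nat_lit 114) (nat_lit 1) (nat_lit 109) (nat_lit 1) (nat_lit 113) (nat_lit 1) (nat_lit 372) (nat_lit 439) (nat_lit 329))))) (XT.nd (nat_lit 234) (nat_lit 836) (nat_lit 0) (XT.nd (nat_lit 78) (nat_lit 532) (nat_lit 0) (XT.lf (nat_lit 532) (nat_lit 875374505) (nat_lit 0) (nat_lit 3010024253) (nat_lit 456) (nat_lit 3010024253) (nat_lit 224) (nat_lit 1) (nat_lit 217) (nat_lit 1) (nat_lit 223) (nat_lit 1) (nat_lit 335) (nat_lit 440) (nat_lit 365)) (XT.nd (nat_lit 78) (nat_lit 0) (nat_lit 0) (XT.lf (nat_lit 532) (nat_lit 6273149132) (nat_lit 0) (nat_lit 284415283) (nat_lit 456) (nat_lit 284415283) (nat_lit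 217) (nat_lit 1) (nat_lit 210) (nat_lit 1) (nat_lit 216) (nat_lit 1) (nat_lit 336) (nat_lit 440) (nat_lit 364)) (XT.lf (nat_lit 76) (nat_lit 2387233254) (nat_lit 0) (nat_lit 2014191755) (nat_lit 532) (nat_lit 2387233254) (nat_lit 211) (nat_lit 1) (nat_lit 210) (nat_lit 1) (nat_lit 217) (nat_lit 1) (nat_lit 337) (nat_lit 440) (nat_lit 363)))) (XT.nd (nat_lit 78) (nat_lit 380) (nat_lit 0) (XT.lf (nat_lit 532) (nat_lit 3291918556) (nat_lit 0) (nat_lit 1722101980) (nat_lit 456) (nat_lit 1722101980) (nat_lit 211) (nat_lit 1) (nat_lit 204) (nat_lit 1) (nat_lit 210) (nat_lit 1) (nat_lit 338) (nat_lit 440) (nat_lit 362)) (XT.nd (nat_lit 78) (nat_lit 380) (nat_lit 0) (XT.lf (nat_lit 76) (nat_lit 908319693) (nat_lit 0) (nat_lit 4867550031) (nat_lit 532) (nat_lit 908319693) (nat_lit 205) (nat_lit 1) (nat_lit 204) (nat_lit 1) (nat_lit 211) (nat_lit 1) (nat_lit 339) (nat_lit 440) (nat_lit 361)) (XT.lf (nat_lit 456) (nat_lit 338263905) (nat_lit 0)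 (nat_lit 3147191400) (nat_lit 380) (nat_lit 3147191400) (nat_lit 205) (nat_lit 1) (nat_lit 199) (nat_lit 1) (nat_lit 204) (nat_lit 1) (nat_lit 340) (nat_lit 440) (nat_lit 360))))))) (XT.nd (nat_lit 936) (nat_lit 2736) (nat_lit 0) (XT.nd (nat_lit 468) (nat_lit 1140) (nat_lit 0) (XT.nd (nat_lit 234) (nat_lit 836) (nat_lit 0) (XT.nd (nat_lit 78) (nat_lit 380) (nat_lit 0) (XT.lf (nat_lit 532) (nat_lit 5475741376) (nat_lit 0) (nat_lit 553019608) (nat_lit 456) (nat_lit 553019608) (nat_lit 199) (nat_lit 1) (nat_lit 192) (nat_lit 1) (nat_lit 198) (nat_lit 1) (nat_lit 341) (nat_lit 440) (nat_lit 359)) (XT.nd (nat_lit 78) (nat_lit 380) (nat_lit 0) (XT.lf (nat_lit 76) (nat_lit 1988966168) (nat_lit 0) (nat_lit 2553225411) (nat_lit 532) (nat_lit 1988966168) (nat_lit 193) (nat_lit 1) (nat_lit 192) (nat_lit 1) (nat_lit 199) (nat_lit 1) (nat_lit 342) (nat_lit 440) (nat_lit 358)) (XT.lf (nat_lit 456) (nat_lit 2492694565) (nat_lit 0) (nat_lit 1994251789)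 (nat_lit 380) (nat_lit 1994251789) (nat_lit 193) (nat_lit 1) (nat_lit 187) (nat_lit 1) (nat_lit 192) (nat_lit 1) (nat_lit 343) (nat_lit 440) (nat_lit 357)))) (XT.nd (nat_lit 78) (nat_lit 836) (nat_lit 0) (XT.lf (nat_lit 76) (nat_lit 510035596) (nat_lit 0) (nat_lit 5411823263) (nat_lit 456) (nat_lit 510035596) (nat_lit 188) (nat_lit 1) (nat_lit 187) (nat_lit 1) (nat_lit 193) (nat_lit 1) (nat_lit 344) (nat_lit 440) (nat_lit 356)) (XT.nd (nat_lit 78) (nat_lit 380) (nat_lit 0) (XT.lf (nat_lit 76) (nat_lit 2964770996) (nat_lit 0) (nat_lit 453257755) (nat_lit 456) (nat_lit 2964770996) (nat_lit 182) (nat_lit 1) (nat_lit 181) (nat_lit 1) (nat_lit 187) (nat_lit 1) (nat_lit 345) (nat_lit 440) (nat_lit 355)) (XT.lf (nat_lit 456) (nat_lit 4440306632) (nat_lit 0) (nat_lit 947020991) (nat_lit 380) (nat_lit 947020991) (nat_lit 182) (nat_lit 1) (nat_lit 176) (nat_lit 1) (nat_lit 181) (nat_lit 1) (nat_lit 346) (nat_lit 440) (nat_lit 354))))) (XT.nd (nat_lit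 234) (nat_lit 760) (nat_lit 0) (XT.nd (nat_lit 78) (nat_lit 380) (nat_lit 0) (XT.lf (nat_lit 76) (nat_lit 1475432980) (nat_lit 0) (nat_lit 3335404955) (nat_lit 456) (nat_lit 1475432980) (nat_lit 177) (nat_lit 1) (nat_lit 176) (nat_lit 1) (nat_lit 182) (nat_lit 1) (nat_lit 347) (nat_lit 440) (nat_lit 353)) (XT.nd (nat_lit 78) (nat_lit 0) (nat_lit 0) (XT.lf (nat_lit 456) (nat_lit 1468686556) (nat_lit 0) (nat_lit 2385009549) (nat_lit 380) (nat_lit 2385009549) (nat_lit 177) (nat_lit 1) (nat_lit 171) (nat_lit 1) (nat_lit 176) (nat_lit 1) (nat_lit 348) (nat_lit 440) (nat_lit 352)) (XT.lf (nat_lit 76) (nat_lit 2921545) (nat_lit 0) (nat_lit 6186039239) (nat_lit 456) (nat_lit 2921545) (nat_lit 172) (nat_lit 1) (nat_lit 171) (nat_lit 1) (nat_lit 177) (nat_lit 1) (nat_lit 349) (nat_lit 440) (nat_lit 351)))) (XT.nd (nat_lit 78) (nat_lit 380) (nat_lit 0) (XT.lf (nat_lit 76) (nat_lit 2347619979) (nat_lit 0) (nat_lit 1449748402) (nat_lit 380) (nat_lit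 2347619979) (nat_lit 167) (nat_lit 1) (nat_lit 166) (nat_lit 1) (nat_lit 171) (nat_lit 1) (nat_lit 350) (nat_lit 440) (nat_lit 350)) (XT.nd (nat_lit 78) (nat_lit 0) (nat_lit 0) (XT.lf (nat_lit 456) (nat_lit 3212713372) (nat_lit 0) (nat_lit 1443056000) (nat_lit 380) (nat_lit 1443056000) (nat_lit 167) (nat_lit 1) (nat_lit 161) (nat_lit 1) (nat_lit 166) (nat_lit 1) (nat_lit 351) (nat_lit 440) (nat_lit 349)) (XT.lf (nat_lit 76) (nat_lit 868989843) (nat_lit 0) (nat_lit 4315170674) (nat_lit 456) (nat_lit 868989843) (nat_lit 162) (nat_lit 1) (nat_lit 161) (nat_lit 1) (nat_lit 167) (nat_lit 1) (nat_lit 352) (nat_lit 440) (nat_lit 348)))))) (XT.nd (nat_lit 468) (nat_lit 1292) (nat_lit 0) (XT.nd (nat_lit 234) (nat_lit 684) (nat_lit 0) (XT.nd (nat_lit 78) (nat_lit 456) (nat_lit 0) (XT.lf (nat_lit 380) (nat_lit 263773068) (nat_lit 0) (nat_lit 2872020608) (nat_lit 304) (nat_lit 2872020608) (nat_lit 162) (nat_lit 1) (nat_lit 157) (nat_lit 1) (nat_lit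 161) (nat_lit 1) (nat_lit 353) (nat_lit 440) (nat_lit 347)) (XT.nd (nat_lit 78) (nat_lit 0) (nat_lit 0) (XT.lf (nat_lit 456) (nat_lit 4787534883) (nat_lit 0) (nat_lit 587744840) (nat_lit 380) (nat_lit 587744840) (nat_lit 157) (nat_lit 1) (nat_lit 151) (nat_lit 1) (nat_lit 156) (nat_lit 1) (nat_lit 354) (nat_lit 440) (nat_lit 346)) (XT.lf (nat_lit 76) (nat_lit 1652116985) (nat_lit 0) (nat_lit 2614223843) (nat_lit 456) (nat_lit 1652116985) (nat_lit 152) (nat_lit 1) (nat_lit 151) (nat_lit 1) (nat_lit 157) (nat_lit 1) (nat_lit 355) (nat_lit 440) (nat_lit 345)))) (XT.nd (nat_lit 78) (nat_lit 380) (nat_lit 0) (XT.lf (nat_lit 380) (nat_lit 1832818550) (nat_lit 0) (nat_lit 2020804571) (nat_lit 304) (nat_lit 2020804571) (nat_lit 152) (nat_lit 1) (nat_lit 147) (nat_lit 1) (nat_lit 151) (nat_lit 1) (nat_lit 356) (nat_lit 440) (nat_lit 344)) (XT.nd (nat_lit 78) (nat_lit 380) (nat_lit 0) (XT.lf (nat_lit 76) (nat_lit 189058270) (nat_lit 0) (nat_lit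 5452906367) (nat_lit 380) (nat_lit 189058270) (nat_lit 148) (nat_lit 1) (nat_lit 147) (nat_lit 1) (nat_lit 152) (nat_lit 1) (nat_lit 357) (nat_lit 440) (nat_lit 343)) (XT.lf (nat_lit 76) (nat_lit 2358952380) (nat_lit 0) (nat_lit 1069720264) (nat_lit 380) (nat_lit 2358952380) (nat_lit 143) (nat_lit 1) (nat_lit 142) (nat_lit 1) (nat_lit 147) (nat_lit 1) (nat_lit 358) (nat_lit 440) (nat_lit 342))))) (XT.nd (nat_lit 234) (nat_lit 684) (nat_lit 0) (XT.nd (nat_lit 78) (nat_lit 304) (nat_lit 0) (XT.lf (nat_lit 380) (nat_lit 3251214571) (nat_lit 0) (nat_lit 1246814460) (nat_lit 304) (nat_lit 1246814460) (nat_lit 143) (nat_lit 1) (nat_lit 138) (nat_lit 1) (nat_lit 142) (nat_lit 1) (nat_lit 359) (nat_lit 440) (nat_lit 341)) (XT.nd (nat_lit 78) (nat_lit 304) (nat_lit 0) (XT.lf (nat_lit 76) (nat_lit 895875895) (nat_lit 0) (nat_lit 3910726841) (nat_lit 380) (nat_lit 895875895) (nat_lit 139) (nat_lit 1) (nat_lit 138) (nat_lit 1) (nat_lit 143) (nat_lit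 1) (nat_lit 360) (nat_lit 440) (nat_lit 340)) (XT.lf (nat_lit 380) (nat_lit 335177461) (nat_lit 0) (nat_lit 2662631257) (nat_lit 304) (nat_lit 2662631257) (nat_lit 139) (nat_lit 1) (nat_lit 134) (nat_lit 1) (nat_lit 138) (nat_lit 1) (nat_lit 361) (nat_lit 440) (nat_lit 339)))) (XT.nd (nat_lit 156) (nat_lit 304) (nat_lit 0) (XT.nd (nat_lit 78) (nat_lit 0) (nat_lit 0) (XT.lf (nat_lit 380) (nat_lit 4531044747) (nat_lit 0) (nat_lit 543925993) (nat_lit 304) (nat_lit 543925993) (nat_lit 134) (nat_lit 1) (nat_lit 129) (nat_lit 1) (nat_lit 133) (nat_lit 1) (nat_lit 362) (nat_lit 440) (nat_lit 338)) (XT.lf (nat_lit 76) (nat_lit 1534724649) (nat_lit 0) (nat_lit 2508087728) (nat_lit 380) (nat_lit 1534724649) (nat_lit 130) (nat_lit 1) (nat_lit 129) (nat_lit 1) (nat_lit 134) (nat_lit 1) (nat_lit 363) (nat_lit 440) (nat_lit 337))) (XT.nd (nat_lit 78) (nat_lit 0) (nat_lit 0) (XT.lf (nat_lit 380) (nat_lit 1620012006) (nat_lit 0) (nat_lit 1958326372)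 (nat_lit 304) (nat_lit 1958326372) (nat_lit 130) (nat_lit 1) (nat_lit 125) (nat_lit 1) (nat_lit 129) (nat_lit 1) (nat_lit 364) (nat_lit 440) (nat_lit 336)) (XT.lf (nat_lit 76) (nat_lit 94133248) (nat_lit 0) (nat_lit 5308117033) (nat_lit 380) (nat_lit 94133248) (nat_lit 126) (nat_lit 1) (nat_lit 125) (nat_lit 1) (nat_lit 130) (nat_lit 1) (nat_lit 365) (nat_lit 440) (nat_lit 335))))))))

set_option maxRecDepth 10000000 in
noncomputable def Tp : PT := (PT.nd (nat_lit 11708346) (PT.nd (nat_lit 10344204) (PT.nd (nat_lit 9098544) (PT.nd (nat_lit 8089848) (PT.nd (nat_lit 7377630) (PT.nd (nat_lit 6903000) (PT.nd (nat_lit 6606678) pc0 pc1) (PT.nd (nat_lit 237432) pc2 pc3)) (PT.nd (nat_lit 356460) (PT.nd (nat_lit 178230) pc4 pc5) (PT.nd (nat_lit 177996) pc6 pc7))) (PT.nd (nat_lit 592488) (PT.nd (nat_lit 296556) (PT.nd (nat_lit 177450) pc8 pc9) (PT.nd (nat_lit 118950) pc10 pc11)) (PT.nd (nat_lit 237354) (PT.nd (nat_lit 118716) pc12 pc13) (PT.nd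 (nat_lit 118404) pc14 pc15)))) (PT.nd (nat_lit 711672) (PT.nd (nat_lit 414258) (PT.nd (nat_lit 236184) (PT.nd (nat_lit 118170) pc16 pc17) (PT.nd (nat_lit 60294) pc18 pc19)) (PT.nd (nat_lit 177528) (PT.nd (nat_lit 59982) pc20 pc21) (PT.nd (nat_lit 59982) pc22 pc23))) (PT.nd (nat_lit 296088) (PT.nd (nat_lit 176670) (PT.nd (nat_lit 59748) pc24 pc25) (PT.nd (nat_lit 59748) pc26 pc27)) (PT.nd (nat_lit 119106) (PT.nd (nat_lit 59592) pc28 pc29) (PT.nd (nat_lit 59436) pc30 pc31))))) (PT.nd (nat_lit 772044) (PT.nd (nat_lit 415740) (PT.nd (nat_lit 236574) (PT.nd (nat_lit 118404) (PT.nd (nat_lit 59202) pc32 pc33) (PT.nd (nat_lit 59124) pc34 pc35)) (PT.nd (nat_lit 117780) (PT.nd (nat_lit 58890) pc36 pc37) (PT.nd (nat_lit 2574) pc38 pc39))) (PT.nd (nat_lit 178464) (PT.nd (nat_lit 117312) (PT.nd (nat_lit 58656) pc40 pc41) (PT.nd (nat_lit 58578) pc42 pc43)) (PT.nd (nat_lit 116922) (PT.nd (nat_lit 58500) pc44 pc45) (PT.nd (nat_lit 58344) pc46 pc47))))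 (PT.nd (nat_lit 352482) (PT.nd (nat_lit 176670) (PT.nd (nat_lit 116142) (PT.nd (nat_lit 58110) pc48 pc49) (PT.nd (nat_lit 2574) pc50 pc51)) (PT.nd (nat_lit 60372) (PT.nd (nat_lit 57798) pc52 pc53) (PT.nd (nat_lit 57798) pc54 pc55))) (PT.nd (nat_lit 119964) (PT.nd (nat_lit 59982) (PT.nd (nat_lit 2496) pc56 pc57) (PT.nd (nat_lit 2574) pc58 pc59)) (PT.nd (nat_lit 59904) (PT.nd (nat_lit 2574) pc60 pc61) (PT.nd (nat_lit 57174) pc62 pc63)))))) (PT.nd (nat_lit 831714) (PT.nd (nat_lit 472992) (PT.nd (nat_lit 237510) (PT.nd (nat_lit 119028) (PT.nd (nat_lit 59514) (PT.nd (nat_lit 56940) pc64 pc65) (PT.nd (nat_lit 56940) pc66 pc67)) (PT.nd (nat_lit 59280) (PT.nd (nat_lit 56706) pc68 pc69) (PT.nd (nat_lit 56628) pc70 pc71))) (PT.nd (nat_lit 118014) (PT.nd (nat_lit 59046) (PT.nd (nat_lit 56472) pc72 pc73) (PT.nd (nat_lit 56394) pc74 pc75)) (PT.nd (nat_lit 58812) (PT.nd (nat_lit 2574) pc76 pc77) (PT.nd (nat_lit 2574) pc78 pc79)))) (PT.nd (nat_lit 180024)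 (PT.nd (nat_lit 63570) (PT.nd (nat_lit 58422) (PT.nd (nat_lit 2496) pc80 pc81) (PT.nd (nat_lit 2574) pc82 pc83)) (PT.nd (nat_lit 58266) (PT.nd (nat_lit 55692) pc84 pc85) (PT.nd (nat_lit 55614) pc86 pc87))) (PT.nd (nat_lit 115830) (PT.nd (nat_lit 57954) (PT.nd (nat_lit 55380) pc88 pc89) (PT.nd (nat_lit 2574) pc90 pc91)) (PT.nd (nat_lit 5148) (PT.nd (nat_lit 2574) pc92 pc93) (PT.nd (nat_lit 55146) pc94 pc95))))) (PT.nd (nat_lit 411606) (PT.nd (nat_lit 177216) (PT.nd (nat_lit 114894) (PT.nd (nat_lit 57486) (PT.nd (nat_lit 54912) pc96 pc97) (PT.nd (nat_lit 2574) pc98 pc99)) (PT.nd (nat_lit 5070) (PT.nd (nat_lit 2496) pc100 pc101) (PT.nd (nat_lit 54678) pc102 pc103))) (PT.nd (nat_lit 115518) (PT.nd (nat_lit 57018) (PT.nd (nat_lit 2496) pc104 pc105) (PT.nd (nat_lit 4134) pc106 pc107)) (PT.nd (nat_lit 59202) (PT.nd (nat_lit 4992) pc108 pc109) (PT.nd (nat_lit 5694) pc110 pc111)))) (PT.nd (nat_lit 353886) (PT.nd (nat_lit 175890) (PT.nd (nat_lit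 64194) (PT.nd (nat_lit 57408) pc112 pc113) (PT.nd (nat_lit 53664) pc114 pc115)) (PT.nd (nat_lit 66222) (PT.nd (nat_lit 7566) pc116 pc117) (PT.nd (nat_lit 53118) pc118 pc119))) (PT.nd (nat_lit 186810) (PT.nd (nat_lit 67860) (PT.nd (nat_lit 8658) pc120 pc121) (PT.nd (nat_lit 59436) pc122 pc123)) (PT.nd (nat_lit 168948) (PT.nd (nat_lit 109200) pc124 pc125) (PT.nd (nat_lit 68562) pc126 pc127)))))))

set_option maxRecDepth 10000000 in
noncomputable def Tx : XT := (XT.nd (nat_lit 19507254) (nat_lit 0) (nat_lit 6004) XT.nil (XT.nd (nat_lit 7239102) (nat_lit 0) (nat_lit 0) (XT.nd (nat_lit 3437382) (nat_lit 0) (nat_lit 6992) (XT.nd (nat_lit 2370810) (nat_lit 0) (nat_lit 3268) (XT.nd (nat_lit 1658592) (nat_lit 0) (nat_lit 1748) (XT.nd (nat_lit 1126788) (nat_lit 0) (nat_lit 988) (XT.nd (nat_lit 770718) (nat_lit 0) (nat_lit 760) (XT.nd (nat_lit 533208) (nat_lit 0) (nat_lit 228) (XT.nd (nat_lit 355524) (nat_lit 0) (nat_lit 228) xc0 xc1) (XT.nd (nat_lit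 119028) (nat_lit 0) (nat_lit 0) xc2 xc3)) (XT.nd (nat_lit 178698) (nat_lit 0) (nat_lit 0) (XT.nd (nat_lit 117936) (nat_lit 0) (nat_lit 0) xc4 xc5) (XT.nd (nat_lit 117000) (nat_lit 0) (nat_lit 0) xc6 xc7))) (XT.nd (nat_lit 295152) (nat_lit 0) (nat_lit 304) (XT.nd (nat_lit 175890) (nat_lit 0) (nat_lit 76) (XT.nd (nat_lit 60138) (nat_lit 0) (nat_lit 0) xc8 xc9) (XT.nd (nat_lit 59670) (nat_lit 0) (nat_lit 228) xc10 xc11)) (XT.nd (nat_lit 118560) (nat_lit 0) (nat_lit 228) (XT.nd (nat_lit 59358) (nat_lit 0) (nat_lit 0) xc12 xc13) (XT.nd (nat_lit 59046) (nat_lit 0) (nat_lit 228) xc14 xc15)))) (XT.nd (nat_lit 358722) (nat_lit 0) (nat_lit 608) (XT.nd (nat_lit 180024) (nat_lit 0) (nat_lit 380) (XT.nd (nat_lit 117468) (nat_lit 0) (nat_lit 380) (XT.nd (nat_lit 58812) (nat_lit 0) (nat_lit 76) xc16 xc17) (XT.nd (nat_lit 4056) (nat_lit 1824) (nat_lit 0) xc18 xc19)) (XT.nd (nat_lit 116532) (nat_lit 0) (nat_lit 228) (XT.nd (nat_lit 58344) (nat_lit 0)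 (nat_lit 0) xc20 xc21) (XT.nd (nat_lit 58032) (nat_lit 0) (nat_lit 2888) xc22 xc23))) (XT.nd (nat_lit 177372) (nat_lit 0) (nat_lit 608) (XT.nd (nat_lit 115596) (nat_lit 0) (nat_lit 608) (XT.nd (nat_lit 57876) (nat_lit 0) (nat_lit 304) xc24 xc25) (XT.nd (nat_lit 57642) (nat_lit 0) (nat_lit 5016) xc26 xc27)) (XT.nd (nat_lit 114816) (nat_lit 0) (nat_lit 304) (XT.nd (nat_lit 57486) (nat_lit 0) (nat_lit 0) xc28 xc29) (XT.nd (nat_lit 4056) (nat_lit 4636) (nat_lit 0) xc30 xc31))))) (XT.nd (nat_lit 536562) (nat_lit 0) (nat_lit 1596) (XT.nd (nat_lit 295854) (nat_lit 0) (nat_lit 988) (XT.nd (nat_lit 121992) (nat_lit 0) (nat_lit 304) (XT.nd (nat_lit 61074) (nat_lit 0) (nat_lit 304) (XT.nd (nat_lit 57018) (nat_lit 0) (nat_lit 6384) xc32 xc33) (XT.nd (nat_lit 56862) (nat_lit 0) (nat_lit 608) xc34 xc35)) (XT.nd (nat_lit 113256) (nat_lit 0) (nat_lit 608) (XT.nd (nat_lit 56706) (nat_lit 0) (nat_lit 0) xc36 xc37) (XT.nd (nat_lit 4056) (nat_lit 5092) (nat_lit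 0) xc38 xc39))) (XT.nd (nat_lit 120666) (nat_lit 0) (nat_lit 304) (XT.nd (nat_lit 60372) (nat_lit 0) (nat_lit 304) (XT.nd (nat_lit 4056) (nat_lit 684) (nat_lit 0) xc40 xc41) (XT.nd (nat_lit 56160) (nat_lit 0) (nat_lit 9272) xc42 xc43)) (XT.nd (nat_lit 60060) (nat_lit 0) (nat_lit 0) (XT.nd (nat_lit 56004) (nat_lit 0) (nat_lit 6080) xc44 xc45) (XT.nd (nat_lit 55848) (nat_lit 0) (nat_lit 3724) xc46 xc47)))) (XT.nd (nat_lit 290160) (nat_lit 0) (nat_lit 1064) (XT.nd (nat_lit 119418) (nat_lit 0) (nat_lit 684) (XT.nd (nat_lit 59748) (nat_lit 0) (nat_lit 380) (XT.nd (nat_lit 55692) (nat_lit 0) (nat_lit 2204) xc48 xc49) (XT.nd (nat_lit 55614) (nat_lit 0) (nat_lit 1064) xc50 xc51)) (XT.nd (nat_lit 59514) (nat_lit 0) (nat_lit 0) (XT.nd (nat_lit 55458) (nat_lit 0) (nat_lit 380) xc52 xc53) (XT.nd (nat_lit 55536) (nat_lit 0) (nat_lit 0) xc54 xc55))) (XT.nd (nat_lit 119730) (nat_lit 0) (nat_lit 760) (XT.nd (nat_lit 59748) (nat_lit 0) (nat_lit 380) (XT.nd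 (nat_lit 4056) (nat_lit 17176) (nat_lit 0) xc56 xc57) (XT.nd (nat_lit 4056) (nat_lit 14440) (nat_lit 0) xc58 xc59)) (XT.nd (nat_lit 59982) (nat_lit 0) (nat_lit 0) (XT.nd (nat_lit 4056) (nat_lit 10640) (nat_lit 0) xc60 xc61) (XT.nd (nat_lit 4056) (nat_lit 7600) (nat_lit 0) xc62 xc63)))))) (XT.nd (nat_lit 1189344) (nat_lit 0) (nat_lit 6080) (XT.nd (nat_lit 536874) (nat_lit 0) (nat_lit 2508) (XT.nd (nat_lit 241254) (nat_lit 0) (nat_lit 836) (XT.nd (nat_lit 120354) (nat_lit 0) (nat_lit 456) (XT.nd (nat_lit 60138) (nat_lit 0) (nat_lit 0) (XT.nd (nat_lit 4056) (nat_lit 3572) (nat_lit 0) xc64 xc65) (XT.nd (nat_lit 4056) (nat_lit 836) (nat_lit 0) xc66 xc67)) (XT.nd (nat_lit 60372) (nat_lit 0) (nat_lit 380) (XT.nd (nat_lit 56316) (nat_lit 0) (nat_lit 11096) xc68 xc69) (XT.nd (nat_lit 56394) (nat_lit 0) (nat_lit 4712) xc70 xc71))) (XT.nd (nat_lit 173784) (nat_lit 0) (nat_lit 836) (XT.nd (nat_lit 113022) (nat_lit 0) (nat_lit 456) (XT.nd (nat_lit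 56472) (nat_lit 0) (nat_lit 380) xc72 xc73) (XT.nd (nat_lit 4056) (nat_lit 13908) (nat_lit 0) xc74 xc75)) (XT.nd (nat_lit 60840) (nat_lit 0) (nat_lit 456) (XT.nd (nat_lit 4056) (nat_lit 6080) (nat_lit 0) xc76 xc77) (XT.nd (nat_lit 56862) (nat_lit 0) (nat_lit 10868) xc78 xc79)))) (XT.nd (nat_lit 297960) (nat_lit 0) (nat_lit 1520) (XT.nd (nat_lit 175188) (nat_lit 0) (nat_lit 988) (XT.nd (nat_lit 60996) (nat_lit 0) (nat_lit 76) (XT.nd (nat_lit 56940) (nat_lit 0) (nat_lit 2584) xc80 xc81) (XT.nd (nat_lit 57018) (nat_lit 0) (nat_lit 456) xc82 xc83)) (XT.nd (nat_lit 61308) (nat_lit 0) (nat_lit 0) (XT.nd (nat_lit 4056) (nat_lit 4256) (nat_lit 0) xc84 xc85) (XT.nd (nat_lit 57330) (nat_lit 0) (nat_lit 4940) xc86 xc87))) (XT.nd (nat_lit 176826) (nat_lit 0) (nat_lit 988) (XT.nd (nat_lit 115050) (nat_lit 0) (nat_lit 456) (XT.nd (nat_lit 57486) (nat_lit 0) (nat_lit 456) xc88 xc89) (XT.nd (nat_lit 4056) (nat_lit 2736) (nat_lit 0) xc90 xc91)) (XT.nd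 (nat_lit 115596) (nat_lit 0) (nat_lit 1064) (XT.nd (nat_lit 57720) (nat_lit 0) (nat_lit 532) xc92 xc93) (XT.nd (nat_lit 4056) (nat_lit 5396) (nat_lit 0) xc94 xc95))))) (XT.nd (nat_lit 830622) (nat_lit 0) (nat_lit 6764) (XT.nd (nat_lit 358098) (nat_lit 0) (nat_lit 2812) (XT.nd (nat_lit 178542) (nat_lit 0) (nat_lit 1140) (XT.nd (nat_lit 116220) (nat_lit 0) (nat_lit 1140) (XT.nd (nat_lit 58032) (nat_lit 0) (nat_lit 532) xc96 xc97) (XT.nd (nat_lit 4056) (nat_lit 4256) (nat_lit 0) xc98 xc99)) (XT.nd (nat_lit 116844) (nat_lit 0) (nat_lit 1140) (XT.nd (nat_lit 58344) (nat_lit 0) (nat_lit 1140) xc100 xc101) (XT.nd (nat_lit 58578) (nat_lit 0) (nat_lit 2432) xc102 xc103))) (XT.nd (nat_lit 235404) (nat_lit 0) (nat_lit 1900) (XT.nd (nat_lit 117468) (nat_lit 0) (nat_lit 684) (XT.nd (nat_lit 58656) (nat_lit 0) (nat_lit 684) xc104 xc105) (XT.nd (nat_lit 58890) (nat_lit 0) (nat_lit 608) xc106 xc107)) (XT.nd (nat_lit 118326) (nat_lit 0) (nat_lit 684)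 (XT.nd (nat_lit 59124) (nat_lit 0) (nat_lit 608) xc108 xc109) (XT.nd (nat_lit 59280) (nat_lit 0) (nat_lit 684) xc110 xc111)))) (XT.nd (nat_lit 535938) (nat_lit 0) (nat_lit 5396) (XT.nd (nat_lit 238914) (nat_lit 0) (nat_lit 2204) (XT.nd (nat_lit 119184) (nat_lit 0) (nat_lit 684) (XT.nd (nat_lit 59514) (nat_lit 0) (nat_lit 684) xc112 xc113) (XT.nd (nat_lit 59748) (nat_lit 0) (nat_lit 1520) xc114 xc115)) (XT.nd (nat_lit 176202) (nat_lit 0) (nat_lit 1520) (XT.nd (nat_lit 59982) (nat_lit 0) (nat_lit 760) xc116 xc117) (XT.nd (nat_lit 60294) (nat_lit 0) (nat_lit 836) xc118 xc119))) (XT.nd (nat_lit 414336) (nat_lit 0) (nat_lit 5624) (XT.nd (nat_lit 177918) (nat_lit 0) (nat_lit 2584) (XT.nd (nat_lit 117156) (nat_lit 0) (nat_lit 1748) xc120 xc121) (XT.nd (nat_lit 117936) (nat_lit 0) (nat_lit 912) xc122 xc123)) (XT.nd (nat_lit 238290) (nat_lit 0) (nat_lit 1368) (XT.nd (nat_lit 118872) (nat_lit 0) (nat_lit 1444) xc124 xc125) (XT.nd (nat_lit 178074)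 (nat_lit 0) (nat_lit 0) xc126 xc127))))))) XT.nil))

set_option maxRecDepth 10000000 in
noncomputable def Te : XT := (XT.nd (nat_lit 20928024) (nat_lit 0) (nat_lit 6384) XT.nil (XT.nd (nat_lit 5218044) (nat_lit 0) (nat_lit 0) (XT.nd (nat_lit 3320850) (nat_lit 3800) (nat_lit 0) (XT.nd (nat_lit 2312310) (nat_lit 7220) (nat_lit 0) (XT.nd (nat_lit 1600560) (nat_lit 6992) (nat_lit 0) (XT.nd (nat_lit 1125072) (nat_lit 6764) (nat_lit 0) (XT.nd (nat_lit 770016) (nat_lit 5472) (nat_lit 0) (XT.nd (nat_lit 532818) (nat_lit 1140) (nat_lit 0) (XT.nd (nat_lit 355212) (nat_lit 0) (nat_lit 0) ec0 ec1) (XT.nd (nat_lit 118872) (nat_lit 0) (nat_lit 0) ec2 ec3)) (XT.nd (nat_lit 178152) (nat_lit 2660) (nat_lit 0) (XT.nd (nat_lit 60762) (nat_lit 1824) (nat_lit 0) ec4 ec5) (XT.nd (nat_lit 60294) (nat_lit 836) (nat_lit 0) ec6 ec7))) (XT.nd (nat_lit 238836) (nat_lit 2812) (nat_lit 0) (XT.nd (nat_lit 119730) (nat_lit 2356) (nat_lit 0) (XT.nd (nat_lit 59904) (nat_lit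 760) (nat_lit 0) ec8 ec9) (XT.nd (nat_lit 59592) (nat_lit 760) (nat_lit 0) ec10 ec11)) (XT.nd (nat_lit 118638) (nat_lit 2128) (nat_lit 0) (XT.nd (nat_lit 59358) (nat_lit 684) (nat_lit 0) ec12 ec13) (XT.nd (nat_lit 59046) (nat_lit 684) (nat_lit 0) ec14 ec15)))) (XT.nd (nat_lit 412542) (nat_lit 2736) (nat_lit 0) (XT.nd (nat_lit 179790) (nat_lit 2356) (nat_lit 0) (XT.nd (nat_lit 117468) (nat_lit 1292) (nat_lit 0) (XT.nd (nat_lit 58734) (nat_lit 0) (nat_lit 0) ec16 ec17) (XT.nd (nat_lit 58500) (nat_lit 0) (nat_lit 1292) ec18 ec19)) (XT.nd (nat_lit 116610) (nat_lit 1216) (nat_lit 0) (XT.nd (nat_lit 58344) (nat_lit 532) (nat_lit 0) ec20 ec21) (XT.nd (nat_lit 58110) (nat_lit 532) (nat_lit 0) ec22 ec23))) (XT.nd (nat_lit 123084) (nat_lit 1596) (nat_lit 0) (XT.nd (nat_lit 61620) (nat_lit 608) (nat_lit 0) (XT.nd (nat_lit 3744) (nat_lit 5472) (nat_lit 0) ec24 ec25) (XT.nd (nat_lit 57642) (nat_lit 0) (nat_lit 1672) ec26 ec27)) (XT.nd (nat_lit 115050)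 (nat_lit 608) (nat_lit 0) (XT.nd (nat_lit 57564) (nat_lit 456) (nat_lit 0) ec28 ec29) (XT.nd (nat_lit 3744) (nat_lit 1596) (nat_lit 0) ec30 ec31))))) (XT.nd (nat_lit 534924) (nat_lit 2812) (nat_lit 0) (XT.nd (nat_lit 295152) (nat_lit 1216) (nat_lit 0) (XT.nd (nat_lit 174564) (nat_lit 1292) (nat_lit 0) (XT.nd (nat_lit 60918) (nat_lit 1444) (nat_lit 0) (XT.nd (nat_lit 57096) (nat_lit 0) (nat_lit 2660) ec32 ec33) (XT.nd (nat_lit 56862) (nat_lit 456) (nat_lit 0) ec34 ec35)) (XT.nd (nat_lit 60372) (nat_lit 380) (nat_lit 0) (XT.nd (nat_lit 3744) (nat_lit 9804) (nat_lit 0) ec36 ec37) (XT.nd (nat_lit 3744) (nat_lit 4788) (nat_lit 0) ec38 ec39))) (XT.nd (nat_lit 120120) (nat_lit 380) (nat_lit 0) (XT.nd (nat_lit 60138) (nat_lit 836) (nat_lit 0) (XT.nd (nat_lit 3744) (nat_lit 912) (nat_lit 0) ec40 ec41) (XT.nd (nat_lit 56160) (nat_lit 0) (nat_lit 10412) ec42 ec43)) (XT.nd (nat_lit 59904) (nat_lit 380) (nat_lit 0) (XT.nd (nat_lit 56082) (nat_lit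 0) (nat_lit 6764) ec44 ec45) (XT.nd (nat_lit 55926) (nat_lit 0) (nat_lit 5016) ec46 ec47)))) (XT.nd (nat_lit 237744) (nat_lit 1292) (nat_lit 0) (XT.nd (nat_lit 119106) (nat_lit 760) (nat_lit 0) (XT.nd (nat_lit 59592) (nat_lit 0) (nat_lit 0) (XT.nd (nat_lit 55770) (nat_lit 0) (nat_lit 4256) ec48 ec49) (XT.nd (nat_lit 55692) (nat_lit 0) (nat_lit 3268) ec50 ec51)) (XT.nd (nat_lit 59358) (nat_lit 0) (nat_lit 0) (XT.nd (nat_lit 55536) (nat_lit 0) (nat_lit 3116) ec52 ec53) (XT.nd (nat_lit 55458) (nat_lit 0) (nat_lit 3116) ec54 ec55))) (XT.nd (nat_lit 118170) (nat_lit 608) (nat_lit 0) (XT.nd (nat_lit 59124) (nat_lit 380) (nat_lit 0) (XT.nd (nat_lit 55302) (nat_lit 0) (nat_lit 3420) ec56 ec57) (XT.nd (nat_lit 55224) (nat_lit 0) (nat_lit 4712) ec58 ec59)) (XT.nd (nat_lit 58890) (nat_lit 304) (nat_lit 0) (XT.nd (nat_lit 55068) (nat_lit 0) (nat_lit 6004) ec60 ec61) (XT.nd (nat_lit 54990) (nat_lit 0) (nat_lit 7828) ec62 ec63)))))) (XT.nd (nat_lit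 828984) (nat_lit 532) (nat_lit 0) (XT.nd (nat_lit 416130) (nat_lit 1368) (nat_lit 0) (XT.nd (nat_lit 234000) (nat_lit 608) (nat_lit 0) (XT.nd (nat_lit 117156) (nat_lit 608) (nat_lit 0) (XT.nd (nat_lit 58578) (nat_lit 304) (nat_lit 0) (XT.nd (nat_lit 54834) (nat_lit 0) (nat_lit 10868) ec64 ec65) (XT.nd (nat_lit 54756) (nat_lit 0) (nat_lit 14288) ec66 ec67)) (XT.nd (nat_lit 58500) (nat_lit 608) (nat_lit 0) (XT.nd (nat_lit 3744) (nat_lit 304) (nat_lit 0) ec68 ec69) (XT.nd (nat_lit 3744) (nat_lit 3040) (nat_lit 0) ec70 ec71))) (XT.nd (nat_lit 116454) (nat_lit 304) (nat_lit 0) (XT.nd (nat_lit 58266) (nat_lit 304) (nat_lit 0) (XT.nd (nat_lit 3744) (nat_lit 5700) (nat_lit 0) ec72 ec73) (XT.nd (nat_lit 3744) (nat_lit 9424) (nat_lit 0) ec74 ec75)) (XT.nd (nat_lit 7566) (nat_lit 912) (nat_lit 0) (XT.nd (nat_lit 3744) (nat_lit 13300) (nat_lit 0) ec76 ec77) (XT.nd (nat_lit 54288) (nat_lit 0) (nat_lit 3952) ec78 ec79)))) (XT.nd (nat_lit 231426) (nat_lit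 532) (nat_lit 0) (XT.nd (nat_lit 115830) (nat_lit 228) (nat_lit 0) (XT.nd (nat_lit 57954) (nat_lit 380) (nat_lit 0) (XT.nd (nat_lit 54132) (nat_lit 0) (nat_lit 7904) ec80 ec81) (XT.nd (nat_lit 54054) (nat_lit 0) (nat_lit 14212) ec82 ec83)) (XT.nd (nat_lit 57798) (nat_lit 228) (nat_lit 0) (XT.nd (nat_lit 3744) (nat_lit 1216) (nat_lit 0) ec84 ec85) (XT.nd (nat_lit 3744) (nat_lit 5548) (nat_lit 0) ec86 ec87))) (XT.nd (nat_lit 65442) (nat_lit 532) (nat_lit 0) (XT.nd (nat_lit 57876) (nat_lit 0) (nat_lit 2356) (XT.nd (nat_lit 3744) (nat_lit 9956) (nat_lit 0) ec88 ec89) (XT.nd (nat_lit 3744) (nat_lit 13984) (nat_lit 0) ec90 ec91)) (XT.nd (nat_lit 57954) (nat_lit 228) (nat_lit 0) (XT.nd (nat_lit 54132) (nat_lit 0) (nat_lit 6232) ec92 ec93) (XT.nd (nat_lit 54210) (nat_lit 0) (nat_lit 10488) ec94 ec95))))) (XT.nd (nat_lit 417846) (nat_lit 0) (nat_lit 0) (XT.nd (nat_lit 233532) (nat_lit 0) (nat_lit 0) (XT.nd (nat_lit 116532) (nat_lit 532) (nat_lit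 0) (XT.nd (nat_lit 58188) (nat_lit 0) (nat_lit 0) (XT.nd (nat_lit 54366) (nat_lit 0) (nat_lit 14972) ec96 ec97) (XT.nd (nat_lit 3744) (nat_lit 1976) (nat_lit 0) ec98 ec99)) (XT.nd (nat_lit 58422) (nat_lit 304) (nat_lit 0) (XT.nd (nat_lit 3744) (nat_lit 4484) (nat_lit 0) ec100 ec101) (XT.nd (nat_lit 3744) (nat_lit 6992) (nat_lit 0) ec102 ec103))) (XT.nd (nat_lit 66300) (nat_lit 0) (nat_lit 0) (XT.nd (nat_lit 58734) (nat_lit 0) (nat_lit 0) (XT.nd (nat_lit 3744) (nat_lit 9120) (nat_lit 0) ec104 ec105) (XT.nd (nat_lit 3744) (nat_lit 11020) (nat_lit 0) ec106 ec107)) (XT.nd (nat_lit 58890) (nat_lit 0) (nat_lit 0) (XT.nd (nat_lit 55068) (nat_lit 0) (nat_lit 760) ec108 ec109) (XT.nd (nat_lit 55302) (nat_lit 0) (nat_lit 1064) ec110 ec111)))) (XT.nd (nat_lit 292032) (nat_lit 0) (nat_lit 304) (XT.nd (nat_lit 171288) (nat_lit 0) (nat_lit 0) (XT.nd (nat_lit 59358) (nat_lit 0) (nat_lit 0) (XT.nd (nat_lit 55536) (nat_lit 0) (nat_lit 532) ec112 ec113)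 (XT.nd (nat_lit 55770) (nat_lit 0) (nat_lit 0) ec114 ec115)) (XT.nd (nat_lit 60216) (nat_lit 0) (nat_lit 0) (XT.nd (nat_lit 3744) (nat_lit 7828) (nat_lit 0) ec116 ec117) (XT.nd (nat_lit 3744) (nat_lit 4788) (nat_lit 0) ec118 ec119))) (XT.nd (nat_lit 122226) (nat_lit 0) (nat_lit 228) (XT.nd (nat_lit 60918) (nat_lit 0) (nat_lit 228) (XT.nd (nat_lit 3744) (nat_lit 988) (nat_lit 0) ec120 ec121) (XT.nd (nat_lit 57486) (nat_lit 0) (nat_lit 760) ec122 ec123)) (XT.nd (nat_lit 116610) (nat_lit 0) (nat_lit 760) (XT.nd (nat_lit 57954) (nat_lit 0) (nat_lit 532) ec124 ec125) (XT.nd (nat_lit 59280) (nat_lit 0) (nat_lit 608) ec126 ec127))))))) XT.nil))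

set_option maxRecDepth 10000000 in
noncomputable def Tz : ZL := (ZL.cons (nat_lit 6004) (nat_lit 6) (nat_lit 178055648440648619266) (ZL.cons (nat_lit 6232) (nat_lit 6) (nat_lit 176530894988473888138) (ZL.cons (nat_lit 6308) (nat_lit 3) (nat_lit 88248829188064588484) (ZL.cons (nat_lit 6384) (nat_lit 6) (nat_lit 175173136858843420196) (ZL.cons (nat_lit 6460) (nat_lit 6) (nat_lit 175041467993663815886) (ZL.cons (nat_lit 6536) (nat_lit 6) (nat_lit 174975646467255662390) (ZL.cons (nat_lit 6688) (nat_lit 6) (nat_lit 173586783367200829932) (ZL.cons (nat_lit 6764) (nat_lit 6) (nat_lit 173489015846612831018) (ZL.cons (nat_lit 6840) (nat_lit 3) (nat_lit 86728215466274694346) (ZL.cons (nat_lit 6916) (nat_lit 6) (nat_lit 172166270644525533024) (ZL.cons (nat_lit 6992) (nat_lit 6) (nat_lit 172037183521800430762) (ZL.cons (nat_lit 7068) (nat_lit 6) (nat_lit 171972652613557143018) (ZL.cons (nat_lit 7144) (nat_lit 6) (nat_lit 170779372761825111322) (ZL.cons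 (nat_lit 7220) (nat_lit 6) (nat_lit 170619580146808731264) (ZL.cons (nat_lit 7296) (nat_lit 6) (nat_lit 170523729636428340172) (ZL.cons (nat_lit 7372) (nat_lit 3) (nat_lit 85245891821124247377) (ZL.cons (nat_lit 7448) (nat_lit 6) (nat_lit 169235649798745578924) (ZL.cons (nat_lit 7524) (nat_lit 6) (nat_lit 169109093796073910036) (ZL.cons (nat_lit 7600) (nat_lit 6) (nat_lit 169045828199756961270) (ZL.cons (nat_lit 7676) (nat_lit 6) (nat_lit 167884849759827419558) (ZL.cons (nat_lit 7752) (nat_lit 6) (nat_lit 167728190333340772442) (ZL.cons (nat_lit 7828) (nat_lit 6) (nat_lit 167634219244732545880) (ZL.cons (nat_lit 7904) (nat_lit 3) (nat_lit 83801449821297721266) (ZL.cons (nat_lit 7980) (nat_lit 6) (nat_lit 166566650304548795070) (ZL.cons (nat_lit 8056) (nat_lit 6) (nat_lit 166380477717459228120) (ZL.cons (nat_lit 8132) (nat_lit 6) (nat_lit 166256403205036023330) (ZL.cons (nat_lit 8208) (nat_lit 6) (nat_lit 166194378110607642186) (ZL.cons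 (nat_lit 8284) (nat_lit 6) (nat_lit 165065427433677950974) (ZL.cons (nat_lit 8360) (nat_lit 6) (nat_lit 164911839760651826350) (ZL.cons (nat_lit 8436) (nat_lit 6) (nat_lit 164819711242408466978) (ZL.cons (nat_lit 8512) (nat_lit 3) (nat_lit 82394502875058594591) (ZL.cons (nat_lit 8588) (nat_lit 6) (nat_lit 163782523776003301284) (ZL.cons (nat_lit 8664) (nat_lit 6) (nat_lit 163600001631797843492) (ZL.cons (nat_lit 8740) (nat_lit 6) (nat_lit 163478359952951564286) (ZL.cons (nat_lit 8816) (nat_lit 6) (nat_lit 163417551036845308262) (ZL.cons (nat_lit 8892) (nat_lit 6) (nat_lit 162320374372149033980) (ZL.cons (nat_lit 8968) (nat_lit 6) (nat_lit 162169798222123421606) (ZL.cons (nat_lit 9044) (nat_lit 6) (nat_lit 162079476145414245748) (ZL.cons (nat_lit 9120) (nat_lit 3) (nat_lit 81024686360799633760) (ZL.cons (nat_lit 9196) (nat_lit 6) (nat_lit 161072456167093770830) (ZL.cons (nat_lit 9272) (nat_lit 6) (nat_lit 160893512888460969072) (ZL.cons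 (nat_lit 9348) (nat_lit 6) (nat_lit 160774256340572460046) (ZL.cons (nat_lit 9424) (nat_lit 6) (nat_lit 160714639756154561984) (ZL.cons (nat_lit 9500) (nat_lit 6) (nat_lit 159649003447911790042) (ZL.cons (nat_lit 9576) (nat_lit 6) (nat_lit 159501379771416091632) (ZL.cons (nat_lit 9652) (nat_lit 6) (nat_lit 159412828715818860402) (ZL.cons (nat_lit 9728) (nat_lit 3) (nat_lit 79691657777607970284) (ZL.cons (nat_lit 9804) (nat_lit 6) (nat_lit 158435781857558022088) (ZL.cons (nat_lit 9880) (nat_lit 6) (nat_lit 158260347270663118404) (ZL.cons (nat_lit 9956) (nat_lit 6) (nat_lit 158143429086458697790) (ZL.cons (nat_lit 10032) (nat_lit 6) (nat_lit 158084981454676444788) (ZL.cons (nat_lit 10108) (nat_lit 6) (nat_lit 157253372344226977460) (ZL.cons (nat_lit 10184) (nat_lit 6) (nat_lit 157050672158901480366) (ZL.cons (nat_lit 10260) (nat_lit 6) (nat_lit 156905943064297854478) (ZL.cons (nat_lit 10336) (nat_lit 6) (nat_lit 156819128303908412092) (ZL.cons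 (nat_lit 10412) (nat_lit 3) (nat_lit 78395096916364539462) (ZL.cons (nat_lit 10488) (nat_lit 6) (nat_lit 155871880053734408252) (ZL.cons (nat_lit 10564) (nat_lit 6) (nat_lit 155699885360700188954) (ZL.cons (nat_lit 10640) (nat_lit 6) (nat_lit 155585259689911541294) (ZL.cons (nat_lit 10716) (nat_lit 6) (nat_lit 155527958090125018742) (ZL.cons (nat_lit 10792) (nat_lit 6) (nat_lit 154723508683748111054) (ZL.cons (nat_lit 10868) (nat_lit 6) (nat_lit 154524783011860368808) (ZL.cons (nat_lit 10944) (nat_lit 6) (nat_lit 154382891742641127738) (ZL.cons (nat_lit 11020) (nat_lit 6) (nat_lit 154297779232455399912) (ZL.cons (nat_lit 11096) (nat_lit 3) (nat_lit 77134706051924105264) (ZL.cons (nat_lit 11172) (nat_lit 6) (nat_lit 153380175193327868614) (ZL.cons (nat_lit 11248) (nat_lit 6) (nat_lit 153211552945255104596) (ZL.cons (nat_lit 11324) (nat_lit 6) (nat_lit 153099174836638783360) (ZL.cons (nat_lit 11400) (nat_lit 6) (nat_lit 153042996797632388702)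 (ZL.cons (nat_lit 11476) (nat_lit 6) (nat_lit 152265613039291499160) (ZL.cons (nat_lit 11552) (nat_lit 6) (nat_lit 152070783949205477348) (ZL.cons (nat_lit 11628) (nat_lit 6) (nat_lit 151931674861735633164) (ZL.cons (nat_lit 11704) (nat_lit 6) (nat_lit 151848231224298645096) (ZL.cons (nat_lit 11780) (nat_lit 3) (nat_lit 75910210156949719911) (ZL.cons (nat_lit 11856) (nat_lit 6) (nat_lit 151180659466553599122) (ZL.cons (nat_lit 11932) (nat_lit 6) (nat_lit 150960137394101638298) (ZL.cons (nat_lit 12008) (nat_lit 6) (nat_lit 150794821464618536320) (ZL.cons (nat_lit 12084) (nat_lit 6) (nat_lit 150684646848328025304) (ZL.cons (nat_lit 12160) (nat_lit 6) (nat_lit 150629570339498226620) (ZL.cons (nat_lit 12236) (nat_lit 6) (nat_lit 149879177732274919272) (ZL.cons (nat_lit 12312) (nat_lit 6) (nat_lit 149688168820425878282) (ZL.cons (nat_lit 12388) (nat_lit 6) (nat_lit 149551787362122109472) (ZL.cons (nat_lit 12464) (nat_lit 6) (nat_lit 149469979874438787840)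 (ZL.cons (nat_lit 12540) (nat_lit 3) (nat_lit 74721357138004097215) (ZL.cons (nat_lit 12616) (nat_lit 6) (nat_lit 148827481057975584306) (ZL.cons (nat_lit 12692) (nat_lit 6) (nat_lit 148611282947728563890) (ZL.cons (nat_lit 12768) (nat_lit 6) (nat_lit 148449208507058856068) (ZL.cons (nat_lit 12844) (nat_lit 6) (nat_lit 148341194177362276642) (ZL.cons (nat_lit 12920) (nat_lit 6) (nat_lit 148287197600078160284) (ZL.cons (nat_lit 12996) (nat_lit 6) (nat_lit 147563741538341221648) (ZL.cons (nat_lit 13072) (nat_lit 6) (nat_lit 147376477899273534400) (ZL.cons (nat_lit 13148) (nat_lit 6) (nat_lit 147242770587211015962) (ZL.cons (nat_lit 13224) (nat_lit 6) (nat_lit 147162567167913641810) (ZL.cons (nat_lit 13300) (nat_lit 3) (nat_lit 73567918094530059431) (ZL.cons (nat_lit 13376) (nat_lit 6) (nat_lit 146545133791711150636) (ZL.cons (nat_lit 13452) (nat_lit 6) (nat_lit 146333174860096424738) (ZL.cons (nat_lit 13528) (nat_lit 6) (nat_lit 146174278349635926874)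 (ZL.cons (nat_lit 13604) (nat_lit 6) (nat_lit 146068381947972613710) (ZL.cons (nat_lit 13680) (nat_lit 6) (nat_lit 146015444127105832968) (ZL.cons (nat_lit 13756) (nat_lit 6) (nat_lit 145555060253820064554) (ZL.cons (nat_lit 13832) (nat_lit 6) (nat_lit 145318890251080790956) (ZL.cons (nat_lit 13908) (nat_lit 6) (nat_lit 145135298448073254442) (ZL.cons (nat_lit 13984) (nat_lit 6) (nat_lit 145004212848011961852) (ZL.cons (nat_lit 14060) (nat_lit 6) (nat_lit 144925582044779242098) (ZL.cons (nat_lit 14136) (nat_lit 3) (nat_lit 72449687601382992152) (ZL.cons (nat_lit 14212) (nat_lit 6) (nat_lit 144333226313556430850) (ZL.cons (nat_lit 14288) (nat_lit 6) (nat_lit 144125423439424346636) (ZL.cons (nat_lit 14364) (nat_lit 6) (nat_lit 143969642546816015396) (ZL.cons (nat_lit 14440) (nat_lit 6) (nat_lit 143865822545185316216) (ZL.cons (nat_lit 14516) (nat_lit 6) (nat_lit 143813922720806119410) (ZL.cons (nat_lit 14592) (nat_lit 6) (nat_lit 143375796512645883884)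 (ZL.cons (nat_lit 14668) (nat_lit 6) (nat_lit 143144257294274047028) (ZL.cons (nat_lit 14744) (nat_lit 6) (nat_lit 142964265330541168088) (ZL.cons (nat_lit 14820) (nat_lit 6) (nat_lit 142835750036363430258) (ZL.cons (nat_lit 14896) (nat_lit 6) (nat_lit 142758661013586254026) (ZL.cons (nat_lit 14972) (nat_lit 3) (nat_lit 71366484015610157507) (ZL.cons (nat_lit 15048) (nat_lit 6) (nat_lit 142446225385682126312) (ZL.cons (nat_lit 15124) (nat_lit 6) (nat_lit 142191415241585041764) (ZL.cons (nat_lit 15200) (nat_lit 6) (nat_lit 141987686933612410182) (ZL.cons (nat_lit 15276) (nat_lit 6) (nat_lit 141834960568310124652) (ZL.cons (nat_lit 15352) (nat_lit 6) (nat_lit 141733176252985909770) (ZL.cons (nat_lit 15428) (nat_lit 6) (nat_lit 141682294072221991332) (ZL.cons (nat_lit 15504) (nat_lit 6) (nat_lit 141266523617807256734) (ZL.cons (nat_lit 15580) (nat_lit 6) (nat_lit 141039524384109377460) (ZL.cons (nat_lit 15656) (nat_lit 6) (nat_lit 140863061674567339288)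 (ZL.cons (nat_lit 15732) (nat_lit 6) (nat_lit 140737066288118576706) (ZL.cons (nat_lit 15808) (nat_lit 6) (nat_lit 140661488814807619618) (ZL.cons (nat_lit 15884) (nat_lit 3) (nat_lit 70318149808204820096) (ZL.cons (nat_lit 15960) (nat_lit 6) (nat_lit 140369219720343132018) (ZL.cons (nat_lit 16036) (nat_lit 6) (nat_lit 140119405853581284420) (ZL.cons (nat_lit 16112) (nat_lit 6) (nat_lit 139919672218313998556) (ZL.cons (nat_lit 16188) (nat_lit 6) (nat_lit 139769940487625483332) (ZL.cons (nat_lit 16264) (nat_lit 6) (nat_lit 139670151943189978544) (ZL.cons (nat_lit 16340) (nat_lit 6) (nat_lit 139620267452244960468) (ZL.cons (nat_lit 16416) (nat_lit 6) (nat_lit 139499151665311309134) (ZL.cons (nat_lit 16492) (nat_lit 6) (nat_lit 139226970511231845532) (ZL.cons (nat_lit 16568) (nat_lit 6) (nat_lit 139004422242900591344) (ZL.cons (nat_lit 16644) (nat_lit 6) (nat_lit 138831419586486828428) (ZL.cons (nat_lit 16720) (nat_lit 6) (nat_lit 138707894697811570998)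 (ZL.cons (nat_lit 16796) (nat_lit 6) (nat_lit 138633799135742005222) (ZL.cons (nat_lit 16872) (nat_lit 3) (nat_lit 69304551921597483286) (ZL.cons (nat_lit 16948) (nat_lit 6) (nat_lit 138361868382417002196) (ZL.cons (nat_lit 17024) (nat_lit 6) (nat_lit 138116952826768132004) (ZL.cons (nat_lit 17100) (nat_lit 6) (nat_lit 137921135537290400764) (ZL.cons (nat_lit 17176) (nat_lit 6) (nat_lit 137774339722889895642) (ZL.cons (nat_lit 17252) (nat_lit 6) (nat_lit 137676507816580577224) (ZL.cons (nat_lit 17328) (nat_lit 6) (nat_lit 137627601452908990874) (ZL.cons (nat_lit 17404) (nat_lit 6) (nat_lit 137523760211399964278) (ZL.cons (nat_lit 17480) (nat_lit 6) (nat_lit 137256915942694607806) (ZL.cons (nat_lit 17556) (nat_lit 6) (nat_lit 137038731365899260562) (ZL.cons (nat_lit 17632) (nat_lit 6) (nat_lit 136869120918434787116) (ZL.cons (nat_lit 17708) (nat_lit 6) (nat_lit 136748018086400221006) (ZL.cons (nat_lit 17784) (nat_lit 6) (nat_lit 136675375378488882014)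 (ZL.cons (nat_lit 17860) (nat_lit 3) (nat_lit 68325582153682167157) (ZL.cons (nat_lit 17936) (nat_lit 6) (nat_lit 136712317328309744702) (ZL.cons (nat_lit 18012) (nat_lit 6) (nat_lit 136423974321313715408) (ZL.cons (nat_lit 18088) (nat_lit 6) (nat_lit 136183861031461881884) (ZL.cons (nat_lit 18164) (nat_lit 6) (nat_lit 135991883296679792434) (ZL.cons (nat_lit 18240) (nat_lit 6) (nat_lit 135847965831581258000) (ZL.cons (nat_lit 18316) (nat_lit 6) (nat_lit 135752052197944671316) (ZL.cons (nat_lit 18392) (nat_lit 6) (nat_lit 135704104782580370974) (ZL.cons (nat_lit 18468) (nat_lit 6) (nat_lit 135617801318852364262) (ZL.cons (nat_lit 18544) (nat_lit 6) (nat_lit 135356189290709857916) (ZL.cons (nat_lit 18620) (nat_lit 6) (nat_lit 135142282842871282186) (ZL.cons (nat_lit 18696) (nat_lit 6) (nat_lit 134975998090455131748) (ZL.cons (nat_lit 18772) (nat_lit 6) (nat_lit 134857269823754576740) (ZL.cons (nat_lit 18848) (nat_lit 6) (nat_lit 134786051482665028706)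 (ZL.cons (nat_lit 18924) (nat_lit 3) (nat_lit 67381157569212638032) (ZL.cons (nat_lit 19000) (nat_lit 6) (nat_lit 134838080789035079328) (ZL.cons (nat_lit 19076) (nat_lit 6) (nat_lit 134555391566489952570) (ZL.cons (nat_lit 19152) (nat_lit 6) (nat_lit 134319986380360704018) (ZL.cons (nat_lit 19228) (nat_lit 6) (nat_lit 134131772914888067300) (ZL.cons (nat_lit 19304) (nat_lit 6) (nat_lit 133990677360869896288) (ZL.cons (nat_lit 19380) (nat_lit 6) (nat_lit 133896644386716379930) (ZL.cons (nat_lit 19456) (nat_lit 6) (nat_lit 133849637116751379596) (ZL.cons (nat_lit 19532) (nat_lit 6) (nat_lit 134084506959105069518) (ZL.cons (nat_lit 19608) (nat_lit 6) (nat_lit 133781153820478942352) (ZL.cons (nat_lit 19684) (nat_lit 6) (nat_lit 133524671439947073388) (ZL.cons (nat_lit 19760) (nat_lit 6) (nat_lit 133314959236183763848) (ZL.cons (nat_lit 19836) (nat_lit 6) (nat_lit 133151934969109106556) (ZL.cons (nat_lit 19912) (nat_lit 6) (nat_lit 133035534707637974194)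 (ZL.cons (nat_lit 19988) (nat_lit 6) (nat_lit 132965712804609005536) (ZL.cons (nat_lit 20064) (nat_lit 3) (nat_lit 66471220939441878922) (ZL.cons (nat_lit 20140) (nat_lit 6) (nat_lit 133033172430031332750) (ZL.cons (nat_lit 20216) (nat_lit 6) (nat_lit 132756026133418463378) (ZL.cons (nat_lit 20292) (nat_lit 6) (nat_lit 132525236735252533426) (ZL.cons (nat_lit 20368) (nat_lit 6) (nat_lit 132340713729887203312) (ZL.cons (nat_lit 20444) (nat_lit 6) (nat_lit 132202384755359584670) (ZL.cons (nat_lit 20520) (nat_lit 6) (nat_lit 132110195565013000008) (ZL.cons (nat_lit 20596) (nat_lit 6) (nat_lit 132064110006223783992) (ZL.cons (nat_lit 20672) (nat_lit 6) (nat_lit 132311154069111654112) (ZL.cons (nat_lit 20748) (nat_lit 6) (nat_lit 132013749031242901990) (ZL.cons (nat_lit 20824) (nat_lit 6) (nat_lit 131762295716995971630) (ZL.cons (nat_lit 20900) (nat_lit 6) (nat_lit 131556695517228021104) (ZL.cons (nat_lit 20976) (nat_lit 6) (nat_lit 131396867804409729640)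 (ZL.cons (nat_lit 21052) (nat_lit 6) (nat_lit 131282749901006658698) (ZL.cons (nat_lit 21128) (nat_lit 6) (nat_lit 131214297054899826678) (ZL.cons (nat_lit 21204) (nat_lit 3) (nat_lit 65595741210917929177) (ZL.cons (nat_lit 21280) (nat_lit 6) (nat_lit 131614815593264643822) (ZL.cons (nat_lit 21356) (nat_lit 6) (nat_lit 131297549044360712532) (ZL.cons (nat_lit 21432) (nat_lit 6) (nat_lit 131025836988857899422) (ZL.cons (nat_lit 21508) (nat_lit 6) (nat_lit 130799572873008948488) (ZL.cons (nat_lit 21584) (nat_lit 6) (nat_lit 130618667965788036612) (ZL.cons (nat_lit 21660) (nat_lit 6) (nat_lit 130483051324094292848) (ZL.cons (nat_lit 21736) (nat_lit 6) (nat_lit 130392669764930974548) (ZL.cons (nat_lit 21812) (nat_lit 6) (nat_lit 130347487844549390220) (ZL.cons (nat_lit 21888) (nat_lit 6) (nat_lit 130607145310031941202) (ZL.cons (nat_lit 21964) (nat_lit 6) (nat_lit 130315571743493948924) (ZL.cons (nat_lit 22040) (nat_lit 6) (nat_lit 130069048886389115240)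 (ZL.cons (nat_lit 22116) (nat_lit 6) (nat_lit 129867480063087202956) (ZL.cons (nat_lit 22192) (nat_lit 6) (nat_lit 129710786226990838780) (ZL.cons (nat_lit 22268) (nat_lit 6) (nat_lit 129598905929536847658) (ZL.cons (nat_lit 22344) (nat_lit 6) (nat_lit 129531795296098777050) (ZL.cons (nat_lit 22420) (nat_lit 3) (nat_lit 64754714004390580523) (ZL.cons (nat_lit 22496) (nat_lit 6) (nat_lit 129942267081694106128) (ZL.cons (nat_lit 22572) (nat_lit 6) (nat_lit 129631221445513781334) (ZL.cons (nat_lit 22648) (nat_lit 6) (nat_lit 129364837077373768482) (ZL.cons (nat_lit 22724) (nat_lit 6) (nat_lit 129143009512815973448) (ZL.cons (nat_lit 22800) (nat_lit 6) (nat_lit 128965651760638608864) (ZL.cons (nat_lit 22876) (nat_lit 6) (nat_lit 128832694268781997330) (ZL.cons (nat_lit 22952) (nat_lit 6) (nat_lit 128744084897053253900) (ZL.cons (nat_lit 23028) (nat_lit 6) (nat_lit 128699788896679151616) (ZL.cons (nat_lit 23104) (nat_lit 6) (nat_lit 129302653622787074830)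 (ZL.cons (nat_lit 23180) (nat_lit 6) (nat_lit 128972517722251522078) (ZL.cons (nat_lit 23256) (nat_lit 6) (nat_lit 128686661284469176710) (ZL.cons (nat_lit 23332) (nat_lit 6) (nat_lit 128444972208876202508) (ZL.cons (nat_lit 23408) (nat_lit 6) (nat_lit 128247355715442955174) (ZL.cons (nat_lit 23484) (nat_lit 6) (nat_lit 128093734307505343232) (ZL.cons (nat_lit 23560) (nat_lit 6) (nat_lit 127984047741373979390) (ZL.cons (nat_lit 23636) (nat_lit 6) (nat_lit 127918253002709204284) (ZL.cons (nat_lit 23712) (nat_lit 3) (nat_lit 63948162144826359002) (ZL.cons (nat_lit 23788) (nat_lit 6) (nat_lit 128339202258521578110) (ZL.cons (nat_lit 23864) (nat_lit 6) (nat_lit 128034255556384004784) (ZL.cons (nat_lit 23940) (nat_lit 6) (nat_lit 127773094411148698066) (ZL.cons (nat_lit 24016) (nat_lit 6) (nat_lit 127555616406680271564) (ZL.cons (nat_lit 24092) (nat_lit 6) (nat_lit 127381736257486776872) (ZL.cons (nat_lit 24168) (nat_lit 6) (nat_lit 127251385775274412622)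 (ZL.cons (nat_lit 24244) (nat_lit 6) (nat_lit 127164513842207017104) (ZL.cons (nat_lit 24320) (nat_lit 6) (nat_lit 127121086390859858002) (ZL.cons (nat_lit 24396) (nat_lit 6) (nat_lit 127731026695318565142) (ZL.cons (nat_lit 24472) (nat_lit 6) (nat_lit 127407364047734689896) (ZL.cons (nat_lit 24548) (nat_lit 6) (nat_lit 127127112638144155220) (ZL.cons (nat_lit 24624) (nat_lit 6) (nat_lit 126890162564033396202) (ZL.cons (nat_lit 24700) (nat_lit 6) (nat_lit 126696420903804722342) (ZL.cons (nat_lit 24776) (nat_lit 6) (nat_lit 126545811680336475342) (ZL.cons (nat_lit 24852) (nat_lit 6) (nat_lit 126438275831188079416) (ZL.cons (nat_lit 24928) (nat_lit 6) (nat_lit 126373771185438299902) (ZL.cons (nat_lit 25004) (nat_lit 3) (nat_lit 63176136223573813540) (ZL.cons (nat_lit 25080) (nat_lit 6) (nat_lit 127147752532421619246) (ZL.cons (nat_lit 25156) (nat_lit 6) (nat_lit 126805740918713918588) (ZL.cons (nat_lit 25232) (nat_lit 6) (nat_lit 126506773563677081992)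 (ZL.cons (nat_lit 25308) (nat_lit 6) (nat_lit 126250733225211095016) (ZL.cons (nat_lit 25384) (nat_lit 6) (nat_lit 126037519495340088640) (ZL.cons (nat_lit 25460) (nat_lit 6) (nat_lit 125867048760836662472) (ZL.cons (nat_lit 25536) (nat_lit 6) (nat_lit 125739254170432383796) (ZL.cons (nat_lit 25612) (nat_lit 6) (nat_lit 125654085608601603874) (ZL.cons (nat_lit 25688) (nat_lit 6) (nat_lit 125611509675908310640) (ZL.cons (nat_lit 25764) (nat_lit 6) (nat_lit 126589151034864898482) (ZL.cons (nat_lit 25840) (nat_lit 6) (nat_lit 126229150238682859186) (ZL.cons (nat_lit 25916) (nat_lit 6) (nat_lit 125911833917522197178) (ZL.cons (nat_lit 25992) (nat_lit 6) (nat_lit 125637077633609908282) (ZL.cons (nat_lit 26068) (nat_lit 6) (nat_lit 125404773639383673948) (ZL.cons (nat_lit 26144) (nat_lit 6) (nat_lit 125214830835237915264) (ZL.cons (nat_lit 26220) (nat_lit 6) (nat_lit 125067174733798457420) (ZL.cons (nat_lit 26296) (nat_lit 6) (nat_lit 124961747430711794748)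 (ZL.cons (nat_lit 26372) (nat_lit 6) (nat_lit 124898507581937501106) (ZL.cons (nat_lit 26448) (nat_lit 3) (nat_lit 62438715193767440347) (ZL.cons (nat_lit 26524) (nat_lit 6) (nat_lit 125677365893649342644) (ZL.cons (nat_lit 26600) (nat_lit 6) (nat_lit 125342060390014341998) (ZL.cons (nat_lit 26676) (nat_lit 6) (nat_lit 125048955139978227690) (ZL.cons (nat_lit 26752) (nat_lit 6) (nat_lit 124797935200305691436) (ZL.cons (nat_lit 26828) (nat_lit 6) (nat_lit 124588902131804704794) (ZL.cons (nat_lit 26904) (nat_lit 6) (nat_lit 124421773960722914434) (ZL.cons (nat_lit 26980) (nat_lit 6) (nat_lit 124296485146601072594) (ZL.cons (nat_lit 27056) (nat_lit 6) (nat_lit 124212986556570896202) (ZL.cons (nat_lit 27132) (nat_lit 6) (nat_lit 124171245446087275382) (ZL.cons (nat_lit 27208) (nat_lit 6) (nat_lit 125150171497595708762) (ZL.cons (nat_lit 27284) (nat_lit 6) (nat_lit 124797229540554493764) (ZL.cons (nat_lit 27360) (nat_lit 6) (nat_lit 124486135108044040818)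 (ZL.cons (nat_lit 27436) (nat_lit 6) (nat_lit 124216766202247679152) (ZL.cons (nat_lit 27512) (nat_lit 6) (nat_lit 123989017188300390590) (ZL.cons (nat_lit 27588) (nat_lit 6) (nat_lit 123802798752863372272) (ZL.cons (nat_lit 27664) (nat_lit 6) (nat_lit 123658037869099197916) (ZL.cons (nat_lit 27740) (nat_lit 6) (nat_lit 123554677768033842356) (ZL.cons (nat_lit 27816) (nat_lit 6) (nat_lit 123492677916294338786) (ZL.cons (nat_lit 27892) (nat_lit 3) (nat_lit 61736007000106669189) (ZL.cons (nat_lit 27968) (nat_lit 6) (nat_lit 124647360307621544350) (ZL.cons (nat_lit 28044) (nat_lit 6) (nat_lit 124277127709986001556) (ZL.cons (nat_lit 28120) (nat_lit 6) (nat_lit 123948396824069334258) (ZL.cons (nat_lit 28196) (nat_lit 6) (nat_lit 123661038735798633954) (ZL.cons (nat_lit 28272) (nat_lit 6) (nat_lit 123414940755727519980) (ZL.cons (nat_lit 28348) (nat_lit 6) (nat_lit 123210006374844199742) (ZL.cons (nat_lit 28424) (nat_lit 6) (nat_lit 123046155226724797428)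 (ZL.cons (nat_lit 28500) (nat_lit 6) (nat_lit 122923323056017109352) (ZL.cons (nat_lit 28576) (nat_lit 6) (nat_lit 122841461693242426614) (ZL.cons (nat_lit 28652) (nat_lit 6) (nat_lit 122800539035905543456) (ZL.cons (nat_lit 28728) (nat_lit 6) (nat_lit 124168735142868036010) (ZL.cons (nat_lit 28804) (nat_lit 6) (nat_lit 123781550936806681652) (ZL.cons (nat_lit 28880) (nat_lit 6) (nat_lit 123435529410295686558) (ZL.cons (nat_lit 28956) (nat_lit 6) (nat_lit 123130534868618771902) (ZL.cons (nat_lit 29032) (nat_lit 6) (nat_lit 122866447706073319290) (ZL.cons (nat_lit 29108) (nat_lit 6) (nat_lit 122643164359066173640) (ZL.cons (nat_lit 29184) (nat_lit 6) (nat_lit 122460597265500469406) (ZL.cons (nat_lit 29260) (nat_lit 6) (nat_lit 122318674830437553372) (ZL.cons (nat_lit 29336) (nat_lit 6) (nat_lit 122217341398020538118) (ZL.cons (nat_lit 29412) (nat_lit 6) (nat_lit 122156557229648475792) (ZL.cons (nat_lit 29488) (nat_lit 3) (nat_lit 61068149244196296521)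 (ZL.cons (nat_lit 29564) (nat_lit 6) (nat_lit 123310304877183914710) (ZL.cons (nat_lit 29640) (nat_lit 6) (nat_lit 122947331742247108052) (ZL.cons (nat_lit 29716) (nat_lit 6) (nat_lit 122625046559975865600) (ZL.cons (nat_lit 29792) (nat_lit 6) (nat_lit 122343322944024198636) (ZL.cons (nat_lit 29868) (nat_lit 6) (nat_lit 122102050414542714348) (ZL.cons (nat_lit 29944) (nat_lit 6) (nat_lit 121901134354853184702) (ZL.cons (nat_lit 30020) (nat_lit 6) (nat_lit 121740495974343966748) (ZL.cons (nat_lit 30096) (nat_lit 6) (nat_lit 121620072277571723536) (ZL.cons (nat_lit 30172) (nat_lit 6) (nat_lit 121539816039557328694) (ZL.cons (nat_lit 30248) (nat_lit 6) (nat_lit 121499695787266266776) (ZL.cons (nat_lit 30324) (nat_lit 6) (nat_lit 122863204728741378074) (ZL.cons (nat_lit 30400) (nat_lit 6) (nat_lit 122483612369857697334) (ZL.cons (nat_lit 30476) (nat_lit 6) (nat_lit 122144375579160643318) (ZL.cons (nat_lit 30552) (nat_lit 6) (nat_lit 121845361322614648558)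 (ZL.cons (nat_lit 30628) (nat_lit 6) (nat_lit 121586452339726949918) (ZL.cons (nat_lit 30704) (nat_lit 6) (nat_lit 121367547097563081634) (ZL.cons (nat_lit 30780) (nat_lit 6) (nat_lit 121188559750930038268) (ZL.cons (nat_lit 30856) (nat_lit 6) (nat_lit 121049420108711493136) (ZL.cons (nat_lit 30932) (nat_lit 6) (nat_lit 120950073606341870336) (ZL.cons (nat_lit 31008) (nat_lit 6) (nat_lit 120890481284408475902) (ZL.cons (nat_lit 31084) (nat_lit 3) (nat_lit 60435309886686648367) (ZL.cons (nat_lit 31160) (nat_lit 6) (nat_lit 122440075158087525654) (ZL.cons (nat_lit 31236) (nat_lit 6) (nat_lit 122044189442393184048) (ZL.cons (nat_lit 31312) (nat_lit 6) (nat_lit 121688333427749255950) (ZL.cons (nat_lit 31388) (nat_lit 6) (nat_lit 121372367562777449626) (ZL.cons (nat_lit 31464) (nat_lit 6) (nat_lit 121096167939295423190) (ZL.cons (nat_lit 31540) (nat_lit 6) (nat_lit 120859626243725340554) (ZL.cons (nat_lit 31616) (nat_lit 6) (nat_lit 120662649714617958550)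 (ZL.cons (nat_lit 31692) (nat_lit 6) (nat_lit 120505161106275588006) (ZL.cons (nat_lit 31768) (nat_lit 6) (nat_lit 120387098658459663286) (ZL.cons (nat_lit 31844) (nat_lit 6) (nat_lit 120308416072171040894) (ZL.cons (nat_lit 31920) (nat_lit 6) (nat_lit 120269082491493529210) (ZL.cons (nat_lit 31996) (nat_lit 6) (nat_lit 122040750232057395156) (ZL.cons (nat_lit 32072) (nat_lit 6) (nat_lit 121628890637136915446) (ZL.cons (nat_lit 32148) (nat_lit 6) (nat_lit 121256741265682326482) (ZL.cons (nat_lit 32224) (nat_lit 6) (nat_lit 120924156176763646076) (ZL.cons (nat_lit 32300) (nat_lit 6) (nat_lit 120631004944855808076) (ZL.cons (nat_lit 32376) (nat_lit 6) (nat_lit 120377172608691397644) (ZL.cons (nat_lit 32452) (nat_lit 6) (nat_lit 120162559626177801288) (ZL.cons (nat_lit 32528) (nat_lit 6) (nat_lit 119987081835361092106) (ZL.cons (nat_lit 32604) (nat_lit 6) (nat_lit 119850670421421341974) (ZL.cons (nat_lit 32680) (nat_lit 6) (nat_lit 119753271889686417662)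 (ZL.cons (nat_lit 32756) (nat_lit 6) (nat_lit 119694848044653678020) (ZL.cons (nat_lit 32832) (nat_lit 3) (nat_lit 59837687987505672752) (ZL.cons (nat_lit 32908) (nat_lit 6) (nat_lit 121665073352640778684) (ZL.cons (nat_lit 32984) (nat_lit 6) (nat_lit 121237553091812320442) (ZL.cons (nat_lit 33060) (nat_lit 6) (nat_lit 120849429841131593374) (ZL.cons (nat_lit 33136) (nat_lit 6) (nat_lit 120500551395402252102) (ZL.cons (nat_lit 33212) (nat_lit 6) (nat_lit 120190780939547540020) (ZL.cons (nat_lit 33288) (nat_lit 6) (nat_lit 119919996994957318024) (ZL.cons (nat_lit 33364) (nat_lit 6) (nat_lit 119688093371849393872) (ZL.cons (nat_lit 33440) (nat_lit 6) (nat_lit 119494979127626470338) (ZL.cons (nat_lit 33516) (nat_lit 6) (nat_lit 119340578531212381568) (ZL.cons (nat_lit 33592) (nat_lit 6) (nat_lit 119224831033353631844) (ZL.cons (nat_lit 33668) (nat_lit 6) (nat_lit 119147691242874590282) (ZL.cons (nat_lit 33744) (nat_lit 6) (nat_lit 119109128908877029808)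 (ZL.cons (nat_lit 33820) (nat_lit 6) (nat_lit 120870023340715350172) (ZL.cons (nat_lit 33896) (nat_lit 6) (nat_lit 120466239424126644572) (ZL.cons (nat_lit 33972) (nat_lit 6) (nat_lit 120101387099171165196) (ZL.cons (nat_lit 34048) (nat_lit 6) (nat_lit 119775323286505792248) (ZL.cons (nat_lit 34124) (nat_lit 6) (nat_lit 119487920117968696170) (ZL.cons (nat_lit 34200) (nat_lit 6) (nat_lit 119239064886434960454) (ZL.cons (nat_lit 34276) (nat_lit 6) (nat_lit 119028660001617709124) (ZL.cons (nat_lit 34352) (nat_lit 6) (nat_lit 118856622951797406002) (ZL.cons (nat_lit 34428) (nat_lit 6) (nat_lit 118722886271464317640) (ZL.cons (nat_lit 34504) (nat_lit 6) (nat_lit 118627397514861450666) (ZL.cons (nat_lit 34580) (nat_lit 6) (nat_lit 118570119235417588272) (ZL.cons (nat_lit 34656) (nat_lit 3) (nat_lit 59275514485531180157) (ZL.cons (nat_lit 34732) (nat_lit 6) (nat_lit 120526157254531848964) (ZL.cons (nat_lit 34808) (nat_lit 6) (nat_lit 120107019743915713430)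 (ZL.cons (nat_lit 34884) (nat_lit 6) (nat_lit 119726506753052255522) (ZL.cons (nat_lit 34960) (nat_lit 6) (nat_lit 119384469061160744470) (ZL.cons (nat_lit 35036) (nat_lit 6) (nat_lit 119080772535812987526) (ZL.cons (nat_lit 35112) (nat_lit 6) (nat_lit 118815298080332377728) (ZL.cons (nat_lit 35188) (nat_lit 6) (nat_lit 118587941587089314834) (ZL.cons (nat_lit 35264) (nat_lit 6) (nat_lit 118398613896674683916) (ZL.cons (nat_lit 35340) (nat_lit 6) (nat_lit 118247240762935381202) (ZL.cons (nat_lit 35416) (nat_lit 6) (nat_lit 118133762823858175590) (ZL.cons (nat_lit 35492) (nat_lit 6) (nat_lit 118058135578290487784) (ZL.cons (nat_lit 35568) (nat_lit 6) (nat_lit 118020329368488957906) (ZL.cons (nat_lit 35644) (nat_lit 6) (nat_lit 120205819983816254658) (ZL.cons (nat_lit 35720) (nat_lit 6) (nat_lit 119771629930035972130) (ZL.cons (nat_lit 35796) (nat_lit 6) (nat_lit 119375763345145084288) (ZL.cons (nat_lit 35872) (nat_lit 6) (nat_lit 119018064987345594704)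 (ZL.cons (nat_lit 35948) (nat_lit 6) (nat_lit 118698394582771699656) (ZL.cons (nat_lit 36024) (nat_lit 6) (nat_lit 118416626770480428992) (ZL.cons (nat_lit 36100) (nat_lit 6) (nat_lit 118172651053290492016) (ZL.cons (nat_lit 36176) (nat_lit 6) (nat_lit 117966371754450049534) (ZL.cons (nat_lit 36252) (nat_lit 6) (nat_lit 117797707980116419024) (ZL.cons (nat_lit 36328) (nat_lit 6) (nat_lit 117666593587632999060) (ZL.cons (nat_lit 36404) (nat_lit 6) (nat_lit 117572977159590972616) (ZL.cons (nat_lit 36480) (nat_lit 6) (nat_lit 117516821983665617326) (ZL.cons (nat_lit 36556) (nat_lit 3) (nat_lit 58749053019109657703) (ZL.cons (nat_lit 36632) (nat_lit 6) (nat_lit 119384770682835011880) (ZL.cons (nat_lit 36708) (nat_lit 6) (nat_lit 119635238576675118692) (ZL.cons (nat_lit 36784) (nat_lit 6) (nat_lit 119908885906109463104) (ZL.cons (nat_lit 36860) (nat_lit 6) (nat_lit 119459938457070212934) (ZL.cons (nat_lit 36936) (nat_lit 6) (nat_lit 119049019329015178098)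 (ZL.cons (nat_lit 37012) (nat_lit 6) (nat_lit 118675967377188258580) (ZL.cons (nat_lit 37088) (nat_lit 6) (nat_lit 118340636306706385000) (ZL.cons (nat_lit 37164) (nat_lit 6) (nat_lit 118042894615188976232) (ZL.cons (nat_lit 37240) (nat_lit 6) (nat_lit 117782625541188378390) (ZL.cons (nat_lit 37316) (nat_lit 6) (nat_lit 117559727018401061826) (ZL.cons (nat_lit 37392) (nat_lit 6) (nat_lit 117374111635641619752) (ZL.cons (nat_lit 37468) (nat_lit 6) (nat_lit 117225706602563871992) (ZL.cons (nat_lit 37544) (nat_lit 6) (nat_lit 117114453721115631196) (ZL.cons (nat_lit 37620) (nat_lit 6) (nat_lit 117040309362715937268) (ZL.cons (nat_lit 37696) (nat_lit 6) (nat_lit 117003244451145809936) (ZL.cons (nat_lit 37772) (nat_lit 3) (nat_lit 58760693927333494616) (ZL.cons (nat_lit 37848) (nat_lit 6) (nat_lit 117532795801187633424) (ZL.cons (nat_lit 37924) (nat_lit 6) (nat_lit 117567024114454083896) (ZL.cons (nat_lit 38000) (nat_lit 6) (nat_lit 117624086217334288282)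 (ZL.cons (nat_lit 38076) (nat_lit 6) (nat_lit 117704004487123493718) (ZL.cons (nat_lit 38152) (nat_lit 6) (nat_lit 117806810264319656754) (ZL.cons (nat_lit 38228) (nat_lit 6) (nat_lit 117932543864913834708) (ZL.cons (nat_lit 38304) (nat_lit 6) (nat_lit 118081254596200378242) (ZL.cons (nat_lit 38380) (nat_lit 6) (nat_lit 118253000776113125214) (ZL.cons (nat_lit 38456) (nat_lit 6) (nat_lit 118447849756095178660) (ZL.cons (nat_lit 38532) (nat_lit 6) (nat_lit 118665877947511237428) (ZL.cons (nat_lit 38608) (nat_lit 6) (nat_lit 118907170851612837224) (ZL.cons (nat_lit 38684) (nat_lit 6) (nat_lit 119171823093068253190) (ZL.cons (nat_lit 38760) (nat_lit 6) (nat_lit 118746146569754250712) (ZL.cons (nat_lit 38836) (nat_lit 6) (nat_lit 118358042074763184200) (ZL.cons (nat_lit 38912) (nat_lit 6) (nat_lit 118007357410253880686) (ZL.cons (nat_lit 38988) (nat_lit 6) (nat_lit 117693955052828493386) (ZL.cons (nat_lit 39064) (nat_lit 6) (nat_lit 117417712099601757440)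 (ZL.cons (nat_lit 39140) (nat_lit 6) (nat_lit 117178520220003780010) (ZL.cons (nat_lit 39216) (nat_lit 6) (nat_lit 116976285613297463854) (ZL.cons (nat_lit 39292) (nat_lit 6) (nat_lit 116810928971793904530) (ZL.cons (nat_lit 39368) (nat_lit 6) (nat_lit 116682385449751335938) (ZL.cons (nat_lit 39444) (nat_lit 6) (nat_lit 116590604637945427658) (ZL.cons (nat_lit 39520) (nat_lit 6) (nat_lit 116535550543900961688) (ZL.cons (nat_lit 39596) (nat_lit 3) (nat_lit 58258600788888568138) (ZL.cons (nat_lit 39672) (nat_lit 6) (nat_lit 116939646840957458466) (ZL.cons (nat_lit 39748) (nat_lit 6) (nat_lit 116962690892929159732) (ZL.cons (nat_lit 39824) (nat_lit 6) (nat_lit 117008788033755688422) (ZL.cons (nat_lit 39900) (nat_lit 6) (nat_lit 117077956340747172590) (ZL.cons (nat_lit 39976) (nat_lit 6) (nat_lit 117170222938729883404) (ZL.cons (nat_lit 40052) (nat_lit 6) (nat_lit 117285624010683421922) (ZL.cons (nat_lit 40128) (nat_lit 6) (nat_lit 117424204811930122872)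 (ZL.cons (nat_lit 40204) (nat_lit 6) (nat_lit 117586019687882239860) (ZL.cons (nat_lit 40280) (nat_lit 6) (nat_lit 117771132095353871754) (ZL.cons (nat_lit 40356) (nat_lit 6) (nat_lit 117979614627445987822) (ZL.cons (nat_lit 40432) (nat_lit 6) (nat_lit 118211549042014310464) (ZL.cons (nat_lit 40508) (nat_lit 6) (nat_lit 118467026293731219414) (ZL.cons (nat_lit 40584) (nat_lit 6) (nat_lit 118064164403481185260) (ZL.cons (nat_lit 40660) (nat_lit 6) (nat_lit 117698427195807734752) (ZL.cons (nat_lit 40736) (nat_lit 6) (nat_lit 117369671244354917518) (ZL.cons (nat_lit 40812) (nat_lit 6) (nat_lit 117077767625220203040) (ZL.cons (nat_lit 40888) (nat_lit 6) (nat_lit 116822601866396087506) (ZL.cons (nat_lit 40964) (nat_lit 6) (nat_lit 116604073902879110484) (ZL.cons (nat_lit 41040) (nat_lit 6) (nat_lit 116422098037428677078) (ZL.cons (nat_lit 41116) (nat_lit 6) (nat_lit 116276602906960296922) (ZL.cons (nat_lit 41192) (nat_lit 6) (nat_lit 116167531454560060846)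 (ZL.cons (nat_lit 41268) (nat_lit 6) (nat_lit 116094840907109380524) (ZL.cons (nat_lit 41344) (nat_lit 6) (nat_lit 116058502758511216474) (ZL.cons (nat_lit 41420) (nat_lit 3) (nat_lit 58190360230155948012) (ZL.cons (nat_lit 41496) (nat_lit 6) (nat_lit 116392356565762953098) (ZL.cons (nat_lit 41572) (nat_lit 6) (nat_lit 116427269445294732582) (ZL.cons (nat_lit 41648) (nat_lit 6) (nat_lit 116485472790232541054) (ZL.cons (nat_lit 41724) (nat_lit 6) (nat_lit 116566989425417530600) (ZL.cons (nat_lit 41800) (nat_lit 6) (nat_lit 116671851318157616896) (ZL.cons (nat_lit 41876) (nat_lit 6) (nat_lit 116800099590763678410) (ZL.cons (nat_lit 41952) (nat_lit 6) (nat_lit 116951784536675952814) (ZL.cons (nat_lit 42028) (nat_lit 6) (nat_lit 117126965640186954724) (ZL.cons (nat_lit 42104) (nat_lit 6) (nat_lit 117325711599768649240) (ZL.cons (nat_lit 42180) (nat_lit 6) (nat_lit 117548100355013029182) (ZL.cons (nat_lit 42256) (nat_lit 6) (nat_lit 117794219117196660978)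 (ZL.cons (nat_lit 42332) (nat_lit 6) (nat_lit 117413724514264242828) (ZL.cons (nat_lit 42408) (nat_lit 6) (nat_lit 117069916019647278600) (ZL.cons (nat_lit 42484) (nat_lit 6) (nat_lit 116762658806485134188) (ZL.cons (nat_lit 42560) (nat_lit 6) (nat_lit 116491832381753040122) (ZL.cons (nat_lit 42636) (nat_lit 6) (nat_lit 116257330539009924996) (ZL.cons (nat_lit 42712) (nat_lit 6) (nat_lit 116059061316748830724) (ZL.cons (nat_lit 42788) (nat_lit 6) (nat_lit 115896946962333576486) (ZL.cons (nat_lit 42864) (nat_lit 6) (nat_lit 115770923901507528846) (ZL.cons (nat_lit 42940) (nat_lit 6) (nat_lit 115680942713462520728) (ZL.cons (nat_lit 43016) (nat_lit 6) (nat_lit 115626968111458142326) (ZL.cons (nat_lit 43092) (nat_lit 3) (nat_lit 57804489464491901844) (ZL.cons (nat_lit 43168) (nat_lit 6) (nat_lit 115855797472435006660) (ZL.cons (nat_lit 43244) (nat_lit 6) (nat_lit 115879302405446141952) (ZL.cons (nat_lit 43320) (nat_lit 6) (nat_lit 115926321489089201218)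 (ZL.cons (nat_lit 43396) (nat_lit 6) (nat_lit 115996873162220515068) (ZL.cons (nat_lit 43472) (nat_lit 6) (nat_lit 116090985092162880096) (ZL.cons (nat_lit 43548) (nat_lit 6) (nat_lit 116208694185555489388) (ZL.cons (nat_lit 43624) (nat_lit 6) (nat_lit 116350046602827124356) (ZL.cons (nat_lit 43700) (nat_lit 6) (nat_lit 116515097776298283682) (ZL.cons (nat_lit 43776) (nat_lit 6) (nat_lit 116703912431919348214) (ZL.cons (nat_lit 43852) (nat_lit 6) (nat_lit 116916564614653306604) (ZL.cons (nat_lit 43928) (nat_lit 6) (nat_lit 117153137717512995700) (ZL.cons (nat_lit 44004) (nat_lit 6) (nat_lit 116794571827637063830) (ZL.cons (nat_lit 44080) (nat_lit 6) (nat_lit 116472262071310772424) (ZL.cons (nat_lit 44156) (nat_lit 6) (nat_lit 116186082052551248424) (ZL.cons (nat_lit 44232) (nat_lit 6) (nat_lit 115935919543900154766) (ZL.cons (nat_lit 44308) (nat_lit 6) (nat_lit 115721676442412922390) (ZL.cons (nat_lit 44384) (nat_lit 6) (nat_lit 115543268731187007286)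 (ZL.cons (nat_lit 44460) (nat_lit 6) (nat_lit 115400626446414085564) (ZL.cons (nat_lit 44536) (nat_lit 6) (nat_lit 115293693649943265882) (ZL.cons (nat_lit 44612) (nat_lit 6) (nat_lit 115222428407344559684) (ZL.cons (nat_lit 44688) (nat_lit 6) (nat_lit 115186802771464006694) (ZL.cons (nat_lit 44764) (nat_lit 3) (nat_lit 57676401598807301788) (ZL.cons (nat_lit 44840) (nat_lit 6) (nat_lit 115364672025174681794) (ZL.cons (nat_lit 44916) (nat_lit 6) (nat_lit 115400283162297096868) (ZL.cons (nat_lit 44992) (nat_lit 6) (nat_lit 115459650574133661512) (ZL.cons (nat_lit 45068) (nat_lit 6) (nat_lit 115542797542022350844) (ZL.cons (nat_lit 45144) (nat_lit 6) (nat_lit 115649756672617238868) (ZL.cons (nat_lit 45220) (nat_lit 6) (nat_lit 115780569910675421614) (ZL.cons (nat_lit 45296) (nat_lit 6) (nat_lit 115935288555505941504) (ZL.cons (nat_lit 45372) (nat_lit 6) (nat_lit 116113973281087163452) (ZL.cons (nat_lit 45448) (nat_lit 6) (nat_lit 116316694159860491858)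 (ZL.cons (nat_lit 45524) (nat_lit 6) (nat_lit 116543530690209759402) (ZL.cons (nat_lit 45600) (nat_lit 6) (nat_lit 116206463538624500354) (ZL.cons (nat_lit 45676) (nat_lit 6) (nat_lit 115905230976700829360) (ZL.cons (nat_lit 45752) (nat_lit 6) (nat_lit 115639714874022305768) (ZL.cons (nat_lit 45828) (nat_lit 6) (nat_lit 115409811106627094860) (ZL.cons (nat_lit 45904) (nat_lit 6) (nat_lit 115215429516175041652) (ZL.cons (nat_lit 45980) (nat_lit 6) (nat_lit 115056493874591459064) (ZL.cons (nat_lit 46056) (nat_lit 6) (nat_lit 114932941854173765300) (ZL.cons (nat_lit 46132) (nat_lit 6) (nat_lit 114844725003149247538) (ZL.cons (nat_lit 46208) (nat_lit 6) (nat_lit 114791808726674366752) (ZL.cons (nat_lit 46284) (nat_lit 3) (nat_lit 57387086136634076200) (ZL.cons (nat_lit 46360) (nat_lit 6) (nat_lit 114883176488644951532) (ZL.cons (nat_lit 46436) (nat_lit 6) (nat_lit 114907151520316309532) (ZL.cons (nat_lit 46512) (nat_lit 6) (nat_lit 114955110985632229984)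 (ZL.cons (nat_lit 46588) (nat_lit 6) (nat_lit 115027073692226170110) (ZL.cons (nat_lit 46664) (nat_lit 6) (nat_lit 115123067860767382438) (ZL.cons (nat_lit 46740) (nat_lit 6) (nat_lit 115243131136027843916) (ZL.cons (nat_lit 46816) (nat_lit 6) (nat_lit 115387310601644911584) (ZL.cons (nat_lit 46892) (nat_lit 6) (nat_lit 115555662798585494096) (ZL.cons (nat_lit 46968) (nat_lit 6) (nat_lit 115748253747318979918) (ZL.cons (nat_lit 47044) (nat_lit 6) (nat_lit 115965158973707617478) (ZL.cons (nat_lit 47120) (nat_lit 6) (nat_lit 115649169016524978842) (ZL.cons (nat_lit 47196) (nat_lit 6) (nat_lit 115368600370682308256) (ZL.cons (nat_lit 47272) (nat_lit 6) (nat_lit 115123343009259667414) (ZL.cons (nat_lit 47348) (nat_lit 6) (nat_lit 114913300752899635674) (ZL.cons (nat_lit 47424) (nat_lit 6) (nat_lit 114738391232089914982) (ZL.cons (nat_lit 47500) (nat_lit 6) (nat_lit 114598545854861560352) (ZL.cons (nat_lit 47576) (nat_lit 6) (nat_lit 114493709779890168508)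 (ZL.cons (nat_lit 47652) (nat_lit 6) (nat_lit 114423841894989476158) (ZL.cons (nat_lit 47728) (nat_lit 6) (nat_lit 114388914800988934010) (ZL.cons (nat_lit 47804) (nat_lit 3) (nat_lit 57217313487038959950) (ZL.cons (nat_lit 47880) (nat_lit 6) (nat_lit 114446733178189199682) (ZL.cons (nat_lit 47956) (nat_lit 6) (nat_lit 114483056538054063060) (ZL.cons (nat_lit 48032) (nat_lit 6) (nat_lit 114543611298127358994) (ZL.cons (nat_lit 48108) (nat_lit 6) (nat_lit 114628421205373822116) (ZL.cons (nat_lit 48184) (nat_lit 6) (nat_lit 114737519518580607898) (ZL.cons (nat_lit 48260) (nat_lit 6) (nat_lit 114870949021399954298) (ZL.cons (nat_lit 48336) (nat_lit 6) (nat_lit 115028762039127084588) (ZL.cons (nat_lit 48412) (nat_lit 6) (nat_lit 115211020459219930974) (ZL.cons (nat_lit 48488) (nat_lit 6) (nat_lit 115417795755568725950) (ZL.cons (nat_lit 48564) (nat_lit 6) (nat_lit 115122469714467087722) (ZL.cons (nat_lit 48640) (nat_lit 6) (nat_lit 114862159809880299886)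 (ZL.cons (nat_lit 48716) (nat_lit 6) (nat_lit 114636763959492838212) (ZL.cons (nat_lit 48792) (nat_lit 6) (nat_lit 114446193772775138988) (ZL.cons (nat_lit 48868) (nat_lit 6) (nat_lit 114290374516320646254) (ZL.cons (nat_lit 48944) (nat_lit 6) (nat_lit 114169245084538593544) (ZL.cons (nat_lit 49020) (nat_lit 6) (nat_lit 114082757975691027112) (ZL.cons (nat_lit 49096) (nat_lit 6) (nat_lit 114030879273264673400) (ZL.cons (nat_lit 49172) (nat_lit 3) (nat_lit 57006794316335172802) (ZL.cons (nat_lit 49248) (nat_lit 6) (nat_lit 114018847579703168458) (ZL.cons (nat_lit 49324) (nat_lit 6) (nat_lit 114043302112007953618) (ZL.cons (nat_lit 49400) (nat_lit 6) (nat_lit 114092220766630192478) (ZL.cons (nat_lit 49476) (nat_lit 6) (nat_lit 114165622727356011408) (ZL.cons (nat_lit 49552) (nat_lit 6) (nat_lit 114263536779268047984) (ZL.cons (nat_lit 49628) (nat_lit 6) (nat_lit 114386001320033718688) (ZL.cons (nat_lit 49704) (nat_lit 6) (nat_lit 114533064374963127710)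 (ZL.cons (nat_lit 49780) (nat_lit 6) (nat_lit 114704783615842521874) (ZL.cons (nat_lit 49856) (nat_lit 6) (nat_lit 114901226383550677414) (ZL.cons (nat_lit 49932) (nat_lit 6) (nat_lit 114626159083704921936) (ZL.cons (nat_lit 50008) (nat_lit 6) (nat_lit 114385710690153313268) (ZL.cons (nat_lit 50084) (nat_lit 6) (nat_lit 114179786909408184110) (ZL.cons (nat_lit 50160) (nat_lit 6) (nat_lit 114008306987045712844) (ZL.cons (nat_lit 50236) (nat_lit 6) (nat_lit 113871203676037522030) (ZL.cons (nat_lit 50312) (nat_lit 6) (nat_lit 113768423210379294732) (ZL.cons (nat_lit 50388) (nat_lit 6) (nat_lit 113699925284006066938) (ZL.cons (nat_lit 50464) (nat_lit 6) (nat_lit 113665683034985927578) (ZL.cons (nat_lit 50540) (nat_lit 3) (nat_lit 56811663463292149883) (ZL.cons (nat_lit 50616) (nat_lit 6) (nat_lit 113635675254777805144) (ZL.cons (nat_lit 50692) (nat_lit 6) (nat_lit 113672725081839965786) (ZL.cons (nat_lit 50768) (nat_lit 6) (nat_lit 113734490937114727642)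 (ZL.cons (nat_lit 50844) (nat_lit 6) (nat_lit 113820997042506120026) (ZL.cons (nat_lit 50920) (nat_lit 6) (nat_lit 113932277321977041524) (ZL.cons (nat_lit 50996) (nat_lit 6) (nat_lit 114068375414852774850) (ZL.cons (nat_lit 51072) (nat_lit 6) (nat_lit 114229344692934447746) (ZL.cons (nat_lit 51148) (nat_lit 6) (nat_lit 114415248281429151064) (ZL.cons (nat_lit 51224) (nat_lit 6) (nat_lit 114160042492618574754) (ZL.cons (nat_lit 51300) (nat_lit 6) (nat_lit 113939066168709298602) (ZL.cons (nat_lit 51376) (nat_lit 6) (nat_lit 113752232652319397402) (ZL.cons (nat_lit 51452) (nat_lit 6) (nat_lit 113599468675403228056) (ZL.cons (nat_lit 51528) (nat_lit 6) (nat_lit 113480714330518862654) (ZL.cons (nat_lit 51604) (nat_lit 6) (nat_lit 113395923047334973994) (ZL.cons (nat_lit 51680) (nat_lit 6) (nat_lit 113345061574367960552) (ZL.cons (nat_lit 51756) (nat_lit 3) (nat_lit 56664054982971074494) (ZL.cons (nat_lit 51832) (nat_lit 6) (nat_lit 113260016112694115620)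 (ZL.cons (nat_lit 51908) (nat_lit 6) (nat_lit 113284959735644996480) (ZL.cons (nat_lit 51984) (nat_lit 6) (nat_lit 113334856763359680118) (ZL.cons (nat_lit 52060) (nat_lit 6) (nat_lit 113409726763300015428) (ZL.cons (nat_lit 52136) (nat_lit 6) (nat_lit 113509599096250292734) (ZL.cons (nat_lit 52212) (nat_lit 6) (nat_lit 113634512927831276854) (ZL.cons (nat_lit 52288) (nat_lit 6) (nat_lit 113784517243859274054) (ZL.cons (nat_lit 52364) (nat_lit 6) (nat_lit 113959670869556256104) (ZL.cons (nat_lit 52440) (nat_lit 6) (nat_lit 113723937150388012310) (ZL.cons (nat_lit 52516) (nat_lit 6) (nat_lit 113522051090833964116) (ZL.cons (nat_lit 52592) (nat_lit 6) (nat_lit 113353933519890364836) (ZL.cons (nat_lit 52668) (nat_lit 6) (nat_lit 113219518509098020902) (ZL.cons (nat_lit 52744) (nat_lit 6) (nat_lit 113118753346687994138) (ZL.cons (nat_lit 52820) (nat_lit 6) (nat_lit 113051598516910319830) (ZL.cons (nat_lit 52896) (nat_lit 6) (nat_lit 113018027684537634184)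 (ZL.cons (nat_lit 52972) (nat_lit 3) (nat_lit 56458088684223131995) (ZL.cons (nat_lit 53048) (nat_lit 6) (nat_lit 112928772663203639472) (ZL.cons (nat_lit 53124) (nat_lit 6) (nat_lit 112966563486807043328) (ZL.cons (nat_lit 53200) (nat_lit 6) (nat_lit 113029564659187300420) (ZL.cons (nat_lit 53276) (nat_lit 6) (nat_lit 113117800886686520652) (ZL.cons (nat_lit 53352) (nat_lit 6) (nat_lit 113231306771746860580) (ZL.cons (nat_lit 53428) (nat_lit 6) (nat_lit 113370126826480108574) (ZL.cons (nat_lit 53504) (nat_lit 6) (nat_lit 113534315490123414928) (ZL.cons (nat_lit 53580) (nat_lit 6) (nat_lit 113317672035310399092) (ZL.cons (nat_lit 53656) (nat_lit 6) (nat_lit 113134501921202652818) (ZL.cons (nat_lit 53732) (nat_lit 6) (nat_lit 112984733316382878950) (ZL.cons (nat_lit 53808) (nat_lit 6) (nat_lit 112868307488064873654) (ZL.cons (nat_lit 53884) (nat_lit 6) (nat_lit 112785178779061061242) (ZL.cons (nat_lit 53960) (nat_lit 6) (nat_lit 112735314589877714730)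 (ZL.cons (nat_lit 54036) (nat_lit 3) (nat_lit 56359347682965420324) (ZL.cons (nat_lit 54112) (nat_lit 6) (nat_lit 112604024183311015800) (ZL.cons (nat_lit 54188) (nat_lit 6) (nat_lit 112629466678720914278) (ZL.cons (nat_lit 54264) (nat_lit 6) (nat_lit 112680361646989891588) (ZL.cons (nat_lit 54340) (nat_lit 6) (nat_lit 112756729046929033602) (ZL.cons (nat_lit 54416) (nat_lit 6) (nat_lit 112858598826538316456) (ZL.cons (nat_lit 54492) (nat_lit 6) (nat_lit 112986010934750920258) (ZL.cons (nat_lit 54568) (nat_lit 6) (nat_lit 113139015337099477406) (ZL.cons (nat_lit 54644) (nat_lit 6) (nat_lit 112941087827732763490) (ZL.cons (nat_lit 54720) (nat_lit 6) (nat_lit 112776266679748842628) (ZL.cons (nat_lit 54796) (nat_lit 6) (nat_lit 112644487257403407398) (ZL.cons (nat_lit 54872) (nat_lit 6) (nat_lit 112545697882491616454) (ZL.cons (nat_lit 54948) (nat_lit 6) (nat_lit 112479859814082131838) (ZL.cons (nat_lit 55024) (nat_lit 6) (nat_lit 112446947233324596890)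 (ZL.cons (nat_lit 55100) (nat_lit 3) (nat_lit 56155293471811034765) (ZL.cons (nat_lit 55176) (nat_lit 6) (nat_lit 112323434144274592526) (ZL.cons (nat_lit 55252) (nat_lit 6) (nat_lit 112361980784350064458) (ZL.cons (nat_lit 55328) (nat_lit 6) (nat_lit 112426241980177926690) (ZL.cons (nat_lit 55404) (nat_lit 6) (nat_lit 112516242932227131326) (ZL.cons (nat_lit 55480) (nat_lit 6) (nat_lit 112632018934988678054) (ZL.cons (nat_lit 55556) (nat_lit 6) (nat_lit 112773615390816591010) (ZL.cons (nat_lit 55632) (nat_lit 6) (nat_lit 112594036847573702506) (ZL.cons (nat_lit 55708) (nat_lit 6) (nat_lit 112447204882064120282) (ZL.cons (nat_lit 55784) (nat_lit 6) (nat_lit 112333061913124899404) (ZL.cons (nat_lit 55860) (nat_lit 6) (nat_lit 112251563178807436256) (ZL.cons (nat_lit 55936) (nat_lit 6) (nat_lit 112202676718823763204) (ZL.cons (nat_lit 56012) (nat_lit 3) (nat_lit 56093191681006551169) (ZL.cons (nat_lit 56088) (nat_lit 6) (nat_lit 112048345870709471668)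 (ZL.cons (nat_lit 56164) (nat_lit 6) (nat_lit 112074297216027568118) (ZL.cons (nat_lit 56240) (nat_lit 6) (nat_lit 112126210083661924972) (ZL.cons (nat_lit 56316) (nat_lit 6) (nat_lit 112204104831599849826) (ZL.cons (nat_lit 56392) (nat_lit 6) (nat_lit 112308012006801318336) (ZL.cons (nat_lit 56468) (nat_lit 6) (nat_lit 112437972357178174218) (ZL.cons (nat_lit 56544) (nat_lit 6) (nat_lit 112276382996409624352) (ZL.cons (nat_lit 56620) (nat_lit 6) (nat_lit 112147187484306256480) (ZL.cons (nat_lit 56696) (nat_lit 6) (nat_lit 112050335155961363398) (ZL.cons (nat_lit 56772) (nat_lit 6) (nat_lit 111985788030069711814) (ZL.cons (nat_lit 56848) (nat_lit 6) (nat_lit 111953520794032912844) (ZL.cons (nat_lit 56924) (nat_lit 3) (nat_lit 55902046990135606222) (ZL.cons (nat_lit 57000) (nat_lit 6) (nat_lit 111817198124936785898) (ZL.cons (nat_lit 57076) (nat_lit 6) (nat_lit 111856515697813767270) (ZL.cons (nat_lit 57152) (nat_lit 6) (nat_lit 111922062117558186746)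 (ZL.cons (nat_lit 57228) (nat_lit 6) (nat_lit 112013863088648375474) (ZL.cons (nat_lit 57304) (nat_lit 6) (nat_lit 112131954611465153138) (ZL.cons (nat_lit 57380) (nat_lit 6) (nat_lit 111988001704102817624) (ZL.cons (nat_lit 57456) (nat_lit 6) (nat_lit 111876096832593777548) (ZL.cons (nat_lit 57532) (nat_lit 6) (nat_lit 111796196112674696030) (ZL.cons (nat_lit 57608) (nat_lit 6) (nat_lit 111748268210729918528) (ZL.cons (nat_lit 57684) (nat_lit 3) (nat_lit 55866147165751890212) (ZL.cons (nat_lit 57760) (nat_lit 6) (nat_lit 111590582687904741026) (ZL.cons (nat_lit 57836) (nat_lit 6) (nat_lit 111617053060129199402) (ZL.cons (nat_lit 57912) (nat_lit 6) (nat_lit 111670004185116243396) (ZL.cons (nat_lit 57988) (nat_lit 6) (nat_lit 111749456828012926746) (ZL.cons (nat_lit 58064) (nat_lit 6) (nat_lit 111855442146718424628) (ZL.cons (nat_lit 58140) (nat_lit 6) (nat_lit 111728779879950416910) (ZL.cons (nat_lit 58216) (nat_lit 6) (nat_lit 111633826616867188398)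 (ZL.cons (nat_lit 58292) (nat_lit 6) (nat_lit 111570545120894980962) (ZL.cons (nat_lit 58368) (nat_lit 6) (nat_lit 111538910575760864326) (ZL.cons (nat_lit 58444) (nat_lit 3) (nat_lit 55697181018066298702) (ZL.cons (nat_lit 58520) (nat_lit 6) (nat_lit 111407728263691482326) (ZL.cons (nat_lit 58596) (nat_lit 6) (nat_lit 111447832188026003324) (ZL.cons (nat_lit 58672) (nat_lit 6) (nat_lit 111514689536165311192) (ZL.cons (nat_lit 58748) (nat_lit 6) (nat_lit 111608326526677303696) (ZL.cons (nat_lit 58824) (nat_lit 6) (nat_lit 111498615868335107542) (ZL.cons (nat_lit 58900) (nat_lit 6) (nat_lit 111420281829198753112) (ZL.cons (nat_lit 58976) (nat_lit 6) (nat_lit 111373293690037206542) (ZL.cons (nat_lit 59052) (nat_lit 3) (nat_lit 55678816512064614005) (ZL.cons (nat_lit 59128) (nat_lit 6) (nat_lit 111228459220345150268) (ZL.cons (nat_lit 59204) (nat_lit 6) (nat_lit 111255459000014097812) (ZL.cons (nat_lit 59280) (nat_lit 6) (nat_lit 111309469147500882684)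 (ZL.cons (nat_lit 59356) (nat_lit 6) (nat_lit 111390510843255499706) (ZL.cons (nat_lit 59432) (nat_lit 6) (nat_lit 111297419408860177634) (ZL.cons (nat_lit 59508) (nat_lit 6) (nat_lit 111235378726534484070) (ZL.cons (nat_lit 59584) (nat_lit 6) (nat_lit 111204364466599075604) (ZL.cons (nat_lit 59660) (nat_lit 3) (nat_lit 55539587814252288607) (ZL.cons (nat_lit 59736) (nat_lit 6) (nat_lit 111092809180614639836) (ZL.cons (nat_lit 59812) (nat_lit 6) (nat_lit 111133715183435851254) (ZL.cons (nat_lit 59888) (nat_lit 6) (nat_lit 111201909678537945280) (ZL.cons (nat_lit 59964) (nat_lit 6) (nat_lit 111125111600953284074) (ZL.cons (nat_lit 60040) (nat_lit 6) (nat_lit 111079044797853728614) (ZL.cons (nat_lit 60116) (nat_lit 3) (nat_lit 55531845601913149340) (ZL.cons (nat_lit 60192) (nat_lit 6) (nat_lit 110959818945584727648) (ZL.cons (nat_lit 60268) (nat_lit 6) (nat_lit 110987358720847054144) (ZL.cons (nat_lit 60344) (nat_lit 6) (nat_lit 111042449071283574716)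 (ZL.cons (nat_lit 60420) (nat_lit 6) (nat_lit 110981624872925051614) (ZL.cons (nat_lit 60496) (nat_lit 6) (nat_lit 110951218735733474686) (ZL.cons (nat_lit 60572) (nat_lit 3) (nat_lit 55428218070945508093) (ZL.cons (nat_lit 60648) (nat_lit 6) (nat_lit 110870342365043280060) (ZL.cons (nat_lit 60724) (nat_lit 6) (nat_lit 110912066487920915710) (ZL.cons (nat_lit 60800) (nat_lit 6) (nat_lit 110866902955470371140) (ZL.cons (nat_lit 60876) (nat_lit 3) (nat_lit 55425925206153112073) (ZL.cons (nat_lit 60952) (nat_lit 6) (nat_lit 110782620227257547130) (ZL.cons (nat_lit 61028) (nat_lit 6) (nat_lit 110810710798025120158) (ZL.cons (nat_lit 61104) (nat_lit 6) (nat_lit 110780900859602005522) (ZL.cons (nat_lit 61180) (nat_lit 3) (nat_lit 55362078953325754004) (ZL.cons (nat_lit 61256) (nat_lit 6) (nat_lit 110738342254266817162) (ZL.cons (nat_lit 61332) (nat_lit 3) (nat_lit 55361792429503924760) (ZL.cons (nat_lit 61408) (nat_lit 6) (nat_lit 110694932476824925034)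 (ZL.cons (nat_lit 61484) (nat_lit 1) (nat_lit 18446744073709551617) ZL.nil))))))))))))))))))))))))))))))))))))))))))))))))))))))))))))))))))))))))))))))))))))))))))))))))))))))))))))))))))))))))))))))))))))))))))))))))))))))))))))))))))))))))))))))))))))))))))))))))))))))))))))))))))))))))))))))))))))))))))))))))))))))))))))))))))))))))))))))))))))))))))))))))))))))))))))))))))))))))))))))))))))))))))))))))))))))))))))))))))))))))))))))))))))))))))))))))))))))))))))))))))))))))))))))))))))))))))))))))))))))))))))))))))))))))))))))))))))))))))))))))))))))))))))))))))))))))))))))))))))))))))))))))))))))))))))))))))))))))))))))))))))))))))))))))))))))))))))))))))))))))))))))))))))))))))))))))))))))))))))))))))))))))))))))))))))))))))))))))))))))))))))))))))))))))))))))))))))))))))))))))))))))))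

noncomputable def vl : XL := ⟨(nat_lit 0), (nat_lit 0), (nat_lit 536870912), (nat_lit 0), (nat_lit 0), (nat_lit 0), (nat_lit 0), (nat_lit 0), (nat_lit 0), (nat_lit 1), (nat_lit 0), (nat_lit 1), (nat_lit 0), (nat_lit 0), (nat_lit 0), (nat_lit 0)⟩

noncomputable def cp0 : Nat := (nat_lit 24735094238588926012593919195208147487885375118818914483110740241857373102652362045391284222942423137059311608059468505168375433125210885430858608401801232875902494053821302060113834329695678442190397063294200988561124835650074984456715682827803159769005340130155764882698753865906820830968101980631647832092803000152016389466328644625500474092226126790288816596223151235631774655686337362058411184991490049166929288201775408968289355442665285473818226841367143774093453449350217074847506066309114472652730254445517466468813156935604051345770506832070839722527850492239469179687000536568051707515989920805696124305661768303835700565139490692966739718183924187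662175254394246285538448750570189595024501364954236003629247384316174018865708833905897367204687058262203169540861433663014488136171572885896555164004384112453396854864041476795963380555938065450952026038050941659812960572500559374823903407501736185894455926681827828585602566132354309799333165329792060011645249298753673911318542141552381603826633525916990672910579045716153552690112466668955566617933537433950972530477596399759512105865980664798462322903052557589924712264276508075999801552219258855282598853410314029261102436239017351182156505969688740604256053541509243438219681952256063258478214642526364238204514718403069108975684946170981024800431142401663657362082946780956275868895799268895371776956272475666317074336640707435376494945824195678795878104697368387598645587760211257049511194985350829273365888845153744303375968273771104041198595103201261172983997205703786982015550332724930391739113082991135132177590586580280091565024692529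668775584648671099581059208108630850325603723833187171643699891620305610958844117884283160112059306011081505381667560792763197399307800698726519936328584484708935784123917679079197111726155778550830593033683789859827607268191425807122370151286780152467647183004483630857357073408286407675440479116789663210656082640760329280561159936263159520004899543167718738647897952024882886236338183688271088351580142369893513010813353713661548780856697029314335419126582973179120306559555889008509650410118721328267864210639043766323536917870870926099758170649597912059785248011856857100461988797240476414330912776810026800548646991852218598289037932223230269578020840055818956488653762876942949708018105996267040194219744966932347471200643526473922433369813029349975803307799591398959363281897894163157468291100916235810572127074504666901892952102045609148600168279054272952028262984232467676229912486685301179007842888288308266709102989775520853835907491130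653647872042369426032496450783729440033902720178627740002359734725388615253356988973846525548131953537049964620158854703230826882059858434105714374146231628535500289548559245259698282355238452537024625753907972752126735556680586983144657672691954752857621493703550155608900129218070306775347821428942628365001322285580829656500067207878829875562612212730810729629611102472531136350896726313579797332367298912944590406063609923018262722870192077849342744740448981174030335389602362226171491326820841943797223551233441033400697873708214106005476614480874365064277782645918285316658156278777958985737733164245246210373623219672755873869838503163726283018297902689237841901536682670719091636606687443084041681294855275438298999572172741666560052533070741033575459571435184883676268411301136897549029131657598365321706065407410097978793853213518115245914490996569673122085254371334308215211685053056045835614736696324748371587789303410253033906041535877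164223718464245418684914894679735325770755738519992157407845438440389989615252840544481884242549439073554989599486655392692464521505719401865733161054530134646855495986674345826818678050557199134890493694069162350684741925574035727143688380533610512841366119890097399112982389650957878641628749174464298767032765309430641366453236581439483269454444321662231200759254083211795088942746438612827372088192569781673006905938948876198406607576961171091505680260877364041325455360931918845539395952988768572121467431291928820457639240674655190966862465105016078777131039081424301752038656068683579920378771055321271679019218317104276954931834916249492509096578902539332932949229065938658529171453038553194526458852350895053896607746537180760470813882219445199123703150826661186302815716631385929490490271703944392523965659663541434416891450721055639705318506676750087049260641683501616959436216385713926503756831218632971740785431422052506488811692708973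382866011790862571649918319773313310810899369109837954643468007112469884596042459317161672359800147865230879425560006440940338472373787715020906153160811643642169516263277021006407920731992762040958954222316372840120257001711936853634267536317752418772733842610605930633917952518969604922811405673789728499363998042338372968364715083420330268630897555252299535305995733415402038668733733702042902949862802549773760306096582195759826931630674542665853514898121018517550790461623744734356006279317610793918572441921424036706099469903576419246887845002315221647422102526905834123224371933746487428279530854341425674267724864383362749092031276507171138275108954131900193266350866978601306175431058342706117886259972972252822879005215541382684547548373928176859430318788331249329775443805128717100742245685935006904089615976045735713275274095420486286787840775523873661656555464050244113032661313862677507402091123175365591373435376846726944566607027208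535536100493426072572922783028628195885926972521995543578260739388148767675338403486785756130103406207658000271961616014521990937608213969567434935063580082899483239663612721909152133550350995049761264942023203591921980976604829593900102773792543921418065235114139688640416442122289106769409328202581334822764963432500415867945110381412832878008984754041230301210761985408878423199808240012382107774258948891547362360433863573272325504329082233295862744615001135072260156035301498240376542025659791646412186667287460378563082479256703929541389343533269214925002219836830316063348574684270426890520647149118690816195361125245844730990887694747564186058294189462158512416044888828407398820261507053313525197514485813579230309628616245983141195857890438268152367684217942951299127801052135133572523797095351078346364176633905291503445648368407132814514038379467083145871488148156465047025282794376675401513672824409658781058052655155504025818794440735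213057441393653965866246487262541904795627585483406636861185208523966288913884011552114815482925203723249570416215884003767629604997824789737616713431519671188953222620145058281367479877339640614134766821437523829093462215038507316519163929842438334097817738373033930702304828220311599863348401412259556036531777799072459770386638904859512899487783345905396834410933825342721262633854233968046572025408058819478050436515187690693859335550479066588340123586964902341666523668355002367351596191430524185258875972195942903829638450264831784095620519339592208439924136184742971864646343133074646167446684250163274477989148169783802052173484355302592859221991276113154789152379066152060554765042438172121858006365901075937147615881483513040261696864665391890909824610189434498760281662945915220093984475716993164333848784938242633983523610273896498616912983956767931365862662736174885944276993715304353658099736722088223163501114506946302646795074488658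465829280875771608653441666401220541340308561690847313473085960423340176937365035902014452177472841655033588330034609173229488706110856566722295986657018285507935814025429577932299164844685593240852396625723218279657654264494981841546409916979362999521011136044715612812391313661180668750014169674433851478188079868004999821537078041228371749522470227086812784335115896631393277355440073715633262392145326059528158251316868806570031546996677847002578717710987132070069869030732139207732806462466945853488625975627094106970937588517879885940710734746687488710823231533708854217109291716634296404240294029570392567540624462117335591094721324252521152443422731170679100340628007508019812292213311524191820241181825682989575180957855000616311516399513464922623304232014362007397605161063464276822033686802410051285984578790843611683374289918453723139102543827506552147239913919168481968236674855347680348465653535331759564975800653291352926957650165531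608193107214215263557163836292168004993712441396637830262016366019006382631185744084493974530715291549546028270984845044265658766941980582345567738471809686700591851480145190320931760452068042264679682268879111995998139975092984449373066236623995233902718544830965837124244420370279032943854344757276816595929631116388863609898599026954386850927057798382689017304710213723577372727315098513395232179149541230304007877493672326712755974799057807796054852080136061472865690409060427182964913219380878406010088766616504122950000046903068858599012256282454065744460067858373097243904750785309365698258355881386625458689558752551586526063538550796510022889555670188665544684829681743526367788977510098803686100920637452727318865938676961173421413764682826328747418714679646965174214928464326120612472204524293029151528336650999291756582000487165966652048922310767727225466166977136774942247363821387217895492164153684741821674102777462064069356434302890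901655964421502367679407506398704495892248515237956358352856998625395230456932901221084083316710350745900844683789196548535237590211939150190691086962078097862197414949781237299977372093097088345815395453070249849105927407969374124224844367966521005546626532430966900347760453304122897872065926098422443121320939317572416312919413250334523564604580289792384073659673767789804333706307408461981212723258632295914544621777385966226226061888768336668342583147054410617346502910861921293028546035406780146018460064058147615153926615225104540595262368311567242563626769833863296653342366705131373870875666051490115449880385185849039235994180869372112663809350728404364378782478166000966097884777026844743158946212592716344604621726797254158500070777077269337627743939975541506541547745297169418115135967758220656428155576766511249165951752281524482395370807901468629184142569118584951171996977063240622723721128356603877641103067833922446430313012953139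515477409869375315726254495460284939412059188635696029283522194976032294390193339843500274018021464762719640809396305008388287847193035238041664231240686653390129263746763066536230543568889357190052879483652243194958585273032001528582412930381263576141460894843875386686485423821885952495117418949430399184573841051164404147617062186993739447000124959172079218591795298286148748243213474915402807890603569866175872189575025227594329166673592397053964342371771086661052820577768836596493034937861764102599535874045915504492578778979744972365089967585779696481398564949642929367861184003825857284625602104462492614072436991400493161405941161626751344925143355110175183082181948624679475575035751682289604048252713753274327643242939618988932446571286374350047771388747036844061740475685385189344655885873115212369165871711742619506418856277398802798708038146820556027395039202721869892600516805611561202498790489863293835982624594972408521212884560528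389833671527400570001037816683754374671059303812705296371686904917036423323186675579933947228533977748636656590419874975972229368275448407980278227243388869980504016498367089326729453588585199595713797589538246760788124892590076152778916139161413600698480766415909541796601321451093425582459934176077943994091346336210920178744990252448830243587813667184865134518480548940375601153513286681240610688775583596084832205644994337513897593819498937793059554551421254326110402631599686591257789910189460415791719365968580246901112845625011251482458482996223690637745083108364822995082109278527368549092994650870408831537074631930882000694907851520993761106378054707882717821717744393695197746739413755601857823516991291560729582818146873717139849400621453872772254933733235453359961924709716487863282154024497960410530685279614207203189234807655983738400003304856846136927645921854467442750064388011701432643663370658041396150305697443976568731345909751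079300443584160362463720041809092648575624358984591483895153610719285538984994712532325905807883642327726228749450037868148671041895575305448010021824490562879698788358109205448099717120562521048268050043757317659909528178278556806128317893480843695848670816007856180999230497286479197044039820874863925725404321626532962986029621153634419029606698944758030267183296918762095008349832318122872214089714388687504385733272736854734504174178042160684699309377608040990190785340961310318636145574713773458953861161479456507237447029941866414262134184200738818620182812990180894727780905928723608618785986642170779803814476321672259720344520479808431884484727791435256065879752634491834656352619439484144067086688230623288745236795027992500993974402499894480327203516825955206444735961143659460552691115993049603868850061320615815731308370515469889952875184456337629877648244980096808214770241636401337837173841288484978288018252491081458034479127143461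702691130992590780827599767355580077744774912510085003104115583990056203642001679921834647473955149447010087120570577067993809958126951698103891072028978438730756155006518336150701186832767313704341367092475071559594854014505785139763265065066450725271083503896485682223508671739639946012087458767119376131336586877381341819218083597274819524542136099850875547826438834605734859161586451539299503509174086452093922188530480710141323757595389716701478412637289847621929410771947929453919290433908727016711246204057525509936056531049129034244425829334166532774634596131965710479816270756606163221852998854060993222811801793528478648925738066892517813056644132718489308016000558451080784587876847126573585913836732671480367810333444432465190766527383430851954638758580751579650359803989125926615925027884517180253713798427591372009830352489650213256514034987412468317593328246407115445272709062438297814443676584859652506820895918892462931033293819192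013494209759039720064532942743851642509173404157001139017963043658035140486739955636829381297208056955087292302213321315921177774449461074598207585235616695525683004645304088670733584315988486358024853169458989414064049176621146040285330984085827900856547864919777533324901991826799727215775769215664849827569088000778868006572493392433026863419051946376429998537089123977779846056704168543320637269697183254308121258961214146946846028190529409207718923431228077641497606613509454613296451666362050670225536538130999536672592591907520717165211745778214191045200575410479268927742499591779744012427718756939457124361149784768918037076024423241063207017467330027128361018312917996609379411277160062620906576957599237044696077463196755476225377344598682679177574719462245762191393236809471139089475699455272280572368721508310745820557382150834491987045823560921546101338935469950980190905124109305774086293823705509519375770765700672374933373956993377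781283154497147672312655954162756895417790058271928853475571388911905883040438900163450675336834546589676556551473611805942446554921394800878184972165497922692536412621749547302814885589205205965431847016003958524719785829916425930908331843311247339307988979566805403696357379618379486174751497871795163387815207618547454377377503219728750208884260800255182739732104274386154515612986083209287086733311560204282312078757678323743648548180531845232839583011214202757211321260155036716894690448151630070182356600001137622239901438147846551664005815137250920881784197024611129306973938420771142555641963020058337699036761978115622357447077416919577182978786766005675497397495237671762344731114599302326235371540109925127153334503027726736936151362950195177489459804886785880047361299806617783376109994442174998289551595812509935082530071724980644819675430927720371997422010455089691034540738738421982301256585765153725725645250856124382047089879892241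126095039590857317810336030527562728953994856922895569941929073956144868686831750396769551084032493781235357009499912151265600813022202589290723889615295638596163157853836244357918615108375847262547459736761720779152306965795704772886485063446954094435836365509694620249911388457440761728455763086283797712743326216736055845245859986907053162996435907693161167307703137428636343495912517456173768927757886485779753479432911408229037025110953928411990890501182978187213561893341159936414781585682241603787832040235267986984169432719528575380415154915781347728301588776082384033297104774742259948859336441430839760215165480825500719722500836814676636381310971352001187039746967142787677509556658492634899847332793272502710271924676160644352219642025111850608819988065097499265152230248826802585039102210465031804298625536916144171028335636108615512330382063993434863604312069610474024140674468508240804676934945887644591796689268921092814548996240008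556977824679600371631867749748213880853067326481263438312786303819237929586669238933318805988059068196912311116040760994676407286203386504387667803929948279653069456322508697387213237135313675571850529317066414285732916598943348667923003342884870377870795440320815450145657525720627391158011791785813904832865334075092269711445093886581045193975362166376130534228151030315841200208932665816326936819550310667484310320013108943791206145960682123641619490119669850450295528296382213712192106113455705999897190166631803086596785267834014476274123235096987717216449217055175532542253796356349720358961670613466995198231424998805414515087880898035767642002857376358458283461275579536878432019293543472996989374241943780928272370091674150409934891148917436734920202770319445040795606475048712323231749436570267760425111658819319057160227436808009752362019363179917746995640308538340783968342142226934994720201985132388888529359812406097924553837296059964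6946795156946402885649444534984127952436012904635634412905657383471567571115008420436844648346714427942971845230337926496549333482182929185718524015797055605315360339037204405692952559866634260712252965543345036413821779082711474663613043323368905584326973148286770474754840526885694331975233448375084096347237833024815705008400836307253876688633297768706354847304836984627079870607010370545764042491035817064787120582239236225422958718294904815788484762657911268130833862169145374489939018026125854438129838729066917412869738637121936310078253473477503290675082269344279331581786676298762425995554389148462356673621198079496019464242700368085381587658883828268116217567868870968017459605831219804385164603938134328020284324918910890122547740170955993241608310584099206151553837319670279014208726307438592)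

noncomputable def cp1 : Nat := (nat_lit 268347495124754764361686077546993714318491472269253038714386639008782224812461716972386564400366100502994806319283058057067094957239246999946590660566685251930091535152373761274954879304014030044004286440976083807365457155532556757171636562315984086228903513104762879071908092888382864908973660013956373954649479359559093896651725948450776155083054442328337539543503148572169395050740662323813219398119261776161413608737068242725049096344063617056687312259350750691497023085489307005345043101782458019243009986168129898818788474367839082895372227737409923864594653165634192312097852944440840583834178130838936061855216342363471769980179455976926326537021912945701510679144543745135844240522680409491939543958071536178120982997047298927500433248463801817816048771941789473969792191408748715158391914564045297410753994467805183114491859811608416558861811779174086704373996552508324866319731344684027115323955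566072247554078323603799648211113366878433524300988859452705304575798841195891856049748444189382856277700810603365771676429070877098957379360061748216695688493075962905831296164320383266159628420572060102498600715265736401111025908639311438665319588746218575196354941863407406271204181963288323795740097025142116322687227115037953197808992482745056336816556914404022486708226282797591246623860707023408102079740352380774948371886471331207772190809982488577503952497684925510718124039918941967039322616953232263462678833528853246089677749182163551593468456634739425008882153219927016028729876426394222212277429414154164262157619267028610552417275692971748508043644791118972656839080701316264044187823492960302214180433903735078027740593791154477370912076006182137130059071826382103992610837334573843408868743971508231690701135184011074691559554036310772620480950510766395266689101762644689308509089363099158824179615463767625947434368785303107796099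843848483105957953259729021348161131118603168365493094797387833925750375607957651480250473444740346793615225356230732543078065221926753631862977293262930341350691950485268976885294755452024609948774868309609806529322694153186159007143320293935578662322901381564243892286427640990588243014807092222946990167589712662320700384312714987435804061114943862466357320883040445480110733629260594671713294574333818364779734840386283269809909786765771415571613548415296891969261591930932125200412765643885532761342601573567972588678541114590545610483326453318256057822314428167935705589283318822925325349189212704025344378427127060926138810634784932462002481783873931599594666642925862063588869721461703605943593365761390378424452562265225594513203056711267337753812273557102020771826859626457386743381011853080166921065183952317761651249595631142824900975031460027770287763574142576872871096561673336565222206605879036010053999539128173295995954156922964214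284535019906968896728711185047039040052931215229855268496317274861546588103580624155985606411318717374259838532098718457935441590839946644145525423231877654636949072249980339523996699972502106478137251210981674407629606081566297077901444222216294942469266121577495308353632870709262822545116380114620200147210574902991578504177099030621552370785265482950086882633646554295461671309407922911071939125394478016549660968928843253505340177338261923615196554541678361130638818855344065455194141317052158439970703069652929066860812489337759328318524562995988644601580437520826246489974305116095966379794184620983664188643345589979456380480091251194239312897795494389027263950254857602236258676008152306156767163427284865910235694181446854382040799040585533278668824367649737595366606395024423122386488827971454344032873891491659937995629084233310657237293693818302423838655257495386126610687630587417309798941539878871277624145539695521364064741110878126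776097355459287699702971008781293118120966176994699821387413263020353847046215428669809266685547156671637484117191459616432046056022248496840804322624970979914584997461162213750966093494460019086576812047518893440517604312395370469271589494335508727308666447567796575030428813310254342861798745199575913633648835780806890102210779949166250144800481114100163886682129526889204227306242557487358512326572552076575285642671224548262916236296309757250898910089565093619984652652712879122742331427856723016595497641889519132769482011955380488664266298207699302736922830415740271178447553840226433063928680732217996008111853379482154034446972229061322120603118982435047645499817188099989105195235756645930065118600625898777107685162250153735503629703269685216689334240773636311514080371332560769467718543094764458830892056764099596625643862216928472067382993395944488722270601993024249292752505192671294163736022296201407453229079190258944410762942142431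684036558219095669427313441270369330413751139907808778087660830346914814619782790215319283000550934484840693452975762710560202978035313570802288685817003211619062212133479977097966776976198703166271359395890754577552950968289104612419049468771756486001739401431369053184930001531334137094380966445577082665585360094516911593418155971358569305716134100270065519947344601712769244840350392059283817658760386683775996986991175171842469029270545575337700742351385325536016321918605475641673217706817184230121854170419540636570546271772222921905051044421707681813193170586803898718996190766681302828317177911994922998280341957823003816660057094071542585319087144350135319407073315249504109453923657760680273974225582038011829073986665686963716808377040379038934203320587275378992143477718488577884400364409223306425480105964282088006955703402180640572780096097790774719970878993905422167667069157907146456327153430446625468921004878232512624329936783314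674341007034357323674941080221109136447897756455484005854368527277801822064309943788711920543900511314140826756594152060102554819894249350685017437546041184278980705884767233994560987620641037860257327380216260114666196303258467504896653216905556625139278883154189754592855272560087584861339427961676616392983692729964405960939013893996783663712560266121402148517028360353321743678867288562397403686836593372905392280384551719988379405618957993588440162255849838697936871242317657342315890660464645034405118801512165161000491386173358529149746142311167822750918806514366947029507198267731632839637239971261406396169530647936097466341573127569223799028296206544809553471586235264380945979694336409203765196583643764352917014632456006831599824177646395652563751098350745688501674202545263671783140625552880723996167448884119259488636312090510995849009279972555409413477577967299527814341298140332106786379069549805491369860357051250048207270723332418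600355030999677645225159424783668088001668684994011782998658883355884743654045318091312717816286464142086933698494558882386337726758933318641614688598116765271996196728174936751511064976491378714132919673137468325650518233031687632126313614839621545346012130784486281963503269006159319693488113509406456150481467253867723634289020667665359306726697898487062720844097631801875016034350807077304356930387430636699087534233163571927039011191897388180039967980773062400284703278733397311043268447066116757904595981122600866055102083182147174263993326410737095071874963022093160911564581591021490496098074786357724334540106864749901314042785859810420441433890906629082079254775284241985993856210361053943709114733014177243555651042631763354351808078791982596420480030894048250835705164319919775157892504218155225058008501134580945507390004283151189698723211141378013229511375179242938656204917805877337731160466466534371051161698558847434050822903317813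221719931057628183225020500686939034625935428510301234880065504545897973447510864380102413763576184806965225131417908725715851278297055547518494366121765850301283282404632420309695339266185065295808044873638218109076272420762796516065666435329173707771098562107549684254014111988669217228070132152028370220881524362876069082155833561915707734613382011872832152632036452029093157241120693884205579701823037127091982644544549621820458250208623885259394467158424879713259151419686551084462556580176061446006564006038471318744756691431285482242359376274826847788910272524443783319858117247530340028287656908438772027845516338723071332422217596800782200630393805640076025167729128861252601592545820549959787628423946043079584903452637581125302742831418449413276345018973232831260020944188324265685314423661361348393627755564298614246644107523973815362652276636388612734314631861162625397358172792870293985200418381649018071242024192271798396197921784047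279048286821041168662849468968502691983560453213235718772632469324010220423197171882704666196522360742125517820565879214008425757622712416289903404049963749705295086174534760373500576574625639956913976231724815400265078076282416023523192823288467248370184307984431157198197979955741761736563604567665642504563905786802832662645819294298076852960796284235808433508254216324525184597336882022482008764440092504971961448216635036603719702207035345064843962551684238789964902734377713223779649993937928012696420411519239782157927856826010337429404525431936439042027166876164589580821416747229242763342175765399029066880185999982747809546798284797465972833307075040680900116353220666105122118810821568747147467756353076015925528515191521587916243775791905750248467821823497606080721482765068400021319651620250154717134808755855778286842534240627697418476343959470700723799293210389078798888539122556289580693768162911064029143620247401827272295372399359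153952219243559071428248554556456031956646626911838283929201510303436099697441890466587827542129886169945606411863465546118303962183912558759283301534492583307002615950163923718450325496734269024839828039865949510320109454301813593004576587440832016684209965601150530045513054280767750210193309069113793906776530126073591016236116005779150302076722016493544695205955050711271808595787394459239434935517813131714304725671913591742765773510054125156956134552029184255095511118536150523779371001319167251567093256834220912159004799673591922898093638109277917701116443162039616890295140966623548869593543862552021817095974701879327947339978477137126998375307575241071001414926029653969080707245376404326229558429752258428285930684495494306557990230714545374188821067146289090098384770480895558143347075361195220930388751492819455119855354676247100501572432208292133386163817268566998372620878069730115279434718032845876605691015866657171789060340296888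227210155768148525455729882235914409673659210842098198079421997310397259262410673854811197324513976119146677062480059787736135553849858837179709183966988588690915122846633330147292926972500581391281934212588217666109214518723230431984597037340117088858241559783829768301137042325242161958781291841613605134970611046867769657932565506831797994392357073454526640111165653117657419951998300407356931724774717235260386827791607764086025893262034372053204391938265531049902801731236384129049743582345159613783277914185337785218930853451061844784374306534075176352189130660860171435707979631213268798776444151365252220257924818301687595631925579204165371224337338813591322061039162082610256878839364944552119316712131201185691950356553298717464960060715295647835721025216041891319713957449518404939775575359199647416917379996651181491418389100855718325303839404733135260767136555238588752973019843416972771816809977657385588114088796416706963052079300034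291444089456814827291709586562280120098485092752306666693356732809483121899706305706617091034875099584592812080374635880569578465097129078342148417214840405725983899648014918883228619694715814504944234660409455727395432254587409394111002447235343101923166785195881581003923712385268138326284241211586109359808078865298215004989503947769734565728850365457932468099902343941933492041625894155495779884719672541068783007698522617523775190576712424954514421464512775837931263951604408671234595708616288512536376625874532538768359709323177718961745017930535260653368297013161494289804911409783957536913352814450069332933885608535485806154099942850128275319665008183327204705344762667674483918980241991268187790314352489407975440068878813350054584042147973127198850807465737599890687870873537531587315703045681729981981693647812877820605488702942284797165550477688643647416644391989925736200631633719236591197978309990198925068355245485889688829013362713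007482536575410073454148608318763687790529077555286312374811818948553219203446350511163866030244710392205765964673891414701194294684295585509533860521247151662251547042756239323614757463969365976886485467144202575352840231298048175663515078687897804609268773653370370327070704460719367713937668402485023627348053995435660712042124276161344823087012757213272575260013250315762841364160114452026638798467978034449208046259466348342280222675201666419876710046193108737970451567222590253360257022057851306105353602352130967588210932133724389738366431934254054533831831521411575355549534365430438424600226599137959672251137707390602626502850129414461761978275168202150833955002227145989855771174153905969136503032524334809816846577096068752259281613775476347865937958308438091244543278276277760711137389120491191715755548389789863039015815710715944092730050003473118541982979759057081212217046014199539851681451247928874699818237510630088912959063430483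211703887243780489081608776156415101316644458555778949010746813378178263249459221965232255443834060466133198916034325502123751044792870698260667100817670122333438024833095329672978660250840354357252912371266297490294720894950128918012288139975929615441777090216842206736371059104870951434821086306041094798947275189090149086152382370999058240140988086281455442423154020967777018908883349092212318856334964518589901939136945925558571894226261395081474543090917033730154955821568557499952467456043514605796085875230502956263458683200476288039161813303532462872193565193041797123707793257672864785253042259286725859133401149374187242516408818723827464334281322867500629278194243984112675282452357822359495359403885438615909464173054631133141521321627046025239982839005344117823887588492160594002484465908887426304186787343825493771770499934409840975867136845766435073334854227846538012636792953929995604700509977560199485363504820359750238571505369823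773002390563144412743756838570249052628029671393830281583868514724159766738379130417399145719294788115728754019748549024701803091031233977422155050184327770483399675636360606304817406297970041442522702707935812567148424950314697878686192894709909493682252780754499898226970578263512735011923050619255671053581241207936254492436558605626228117065891058448061446948806640802046049091353788380015483682222653162139682463357183056055362052040709083754086808454863396846155525989419520851818551485367881485242972718984832047340758690644760453148621782701297044073508070736199835390690287937044017053935384048971028165767959610884862455271203198403920596271803273053446056515905737922481103772347927052230883777092232327831348997528159429493101900361433640897077081047297298598537961757258585831239763909441132610577090591575295910597408143443595514287226520670789276970212827485687894314742530152735443863635430369749461556850561848812146937599013422309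295730680880423171315670600976113421482590567412683925445207318617638970782407122629013841916001907649592776314440969904571276216641505233814592239807174816067057377873742692401908132578202458040308611017991622568126555192125921056425916598160823400848026441117625720746549747757443180115245397511564479118489214315953715114863245784688844831834714744128286218352818402065585145402069427095824773968973627717749938364790221561879736993481674489869961215190261019646848626238107349991421930575186328905708819896128402223236130252759384117440276464213631215521128766297091622968515915940912401250199568162343933517322491233057790719352998029555923376010372719208613712802267618064807771310368395459633411313788563391506201592465241069171932090864224003302663419776899450223608760848772466706766954380466642593578948283137978526231448791482930023381641443743496590269971450034010974722535864206467831828601625821266257968082203535531127887524013127575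199030667954202125602796731168815608856120396633506179198497574221459922973604143821931672351925416080831055267897900154282409920231114335059830307493532854503396845813837296802506279944024837798173727879373721370782557303468092886305908599079237719131663524694798991232492409158114569381839103057495618224390018847424454536409248003573805692264566611055499717215411694894327561154561825775684451980612572802279951888464743236054356265718994023603358452359298249978521422017525769058269195492040010165594757511291960822203230756980208453548904611263878058850787207942164715073234420585053068151085932453857143224390540700334539553441262699377318999249574750369913221944738906691728378108760308926464283076886955989085578274993326248707321408730513204858745321871612602576234727077570155591446879399893696356566733818196803528484166056665404605822055115671442091271490367764640844008752210230251991276029986209866370624884404651185406091952356582737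709922144070938270422290746325659299780770440534583525712113369240586634691673953914878149657543586460420407214432567676378731149091153058038383571042989049744068781759063420035606579756392378383815454258283462388407095136624252512176198137445142443502966940024695907060865616125229166810355973023521398388710305698519293699685201671491464531348780707747463436337774659524980997998323489224222907598088739369994902156184118784584859917785133789670968587022305913776237442491746821815346842398724432018800695965459325606607190934326077425398767606205735010257609128869136082796575651208686776681679658756960711387647820414181382155580877780658301801318701636856775368990086387460372586766459183921673446676612469574792221490854661358000847179413866356249067463078052938952308729429791305627159364913955543332948962404128718943124733101833049024091049157398929182285378273507710192790306595206175446359479693487294916461488411879303458605083358014485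452916577634364201338206607543899441749199941237389263054061808036860470759498304917836642092252319571426134060024349708398192817242993580997414150215950786736702129292266723845168329944102961628307172094184122391375035909257746362274320134699396799903820708552702413061112276161457415601501291903215964916656959417415103227964835597105622695147158188403284579540300476029722169108752776368398494607802894062144881891901577219827288832973848662165872326123488141854140655905742158871471341933514368873923548705959518826603170298682774390925110026932676722688)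

noncomputable def rc0 : Nat := (nat_lit 248452671559396522407347362631346071358297283052253350953481343560949219707364506328874542090173161836132749667608852654909096782117479735528110697961460033004412059677476261590328305286154107338421561493275235600432737971730505097901356984667508092691851308226772575794135990581302234353119774180660394833277485640516256027076280615144739745867477038696246511943713303207028903288694479039839977917453190276234663747684627217182701364362283310829178775376734759919496826149785922245692904501872925562291588690341775392846593339907504011109293938360366863320807495882007973701428259242554352922164994701081115597911767130531848235132029058358617726693028550939653936393209129749974963360469564627442886837322774282930618885763810221406284207049883275719295794681745124798539631190404435773115282832569220668639525495076095614500182990616466244839581546213491202223481228278297604378274716494492680477156273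209420519846688460316374870158406584104815026064977904004065038332469861811762803513961076127389212257956606702341651264254827703641665645259837833353558578723244597333537606961017489638660096748055822856424037092993297775043759855537515909129641658154414082261614208926295184227227480363869897678468028053599807057483104605474715877340121452584734773726116880803176798753184454195916321525947355967773484664394494682395098768455503657176812873145248811779503817968293693324559709288531501665122985048889854992113650892771869632772026866017548391136499805452904378866975135374954037425731467989564116954230499504611145380504773903393916482857139869549609028623345911839179650471415166197598496091281211794328681375505561933208734509859562192371178296680772374185783854743513582550561849029741860110511036516756750439874083129788585388754471992006572858625016183688594584481112902235828689782941731523330378798165023767111429758413900800918334927873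201161968140331532049072013079072108564919842066452653508528073837722797136684194847244428368691277367601161835178619523848900997205151706380064829046782157874856134630773355964119229501404515247435069508468471077844610212478387209350810233614754994596994182837769640225297793918246306408249072976695971785618012000738745862152184934509679584213205592029140058039928640584410511975759207043191737622015559719229984555843372913750339250662949080772237732282829033255441982648218985034570265430781876419611883939417102298063721450743858785101397639457011309721471023256734993026295380609718180421960185876177100218300615233478294456249546041799678631577609507319760991544731286326538373294438400913802784893611147692466211463161584023049088191985957760078152867362511031399357655149256425685090159099934989213029273852740804537182484011556964598411207841448469452872993103043369316143164971144491559264218692040750365158141744176745368488781120146907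726557211173363197851315409459434923427236518955270956563517311445838148308216957437347007381473864311956443674181817976396600619490705831984310900142032525799909276164235191508646296856303353830164597043640884308860762356688493719779430348249745754184540106586282656942355026666925621555499808486009492682320082384271423560716281381276199710034449587337797247392905172335285597199783951843087862728892883057871024396142902305022159314558279118694152830142311894662394548245550342715852077167414980337700710543185567056663354435785711995230394656591715492840274732764050406070106612194814178998332710580110216825847455179093631304673361050435085433519501538682881594396988708797373346888845308189898746536580901141591106334280481012118096420109315383435067667537789098549593732880236724432012668403161936982612116014320998317578652226277000653236848663526878522660251724144389703711069475711756057845834938746277115965466827336520407280187904997808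655290804587673546462300676127268327410380813236388713968662770653586247538111897189992226515867953946085948567106968581768895570455145987217801915909102754362095109548066000280020645224587598123916632331775627329869957179891743721584877429086423709967472043640454384182184596880648940578545872143342362434225163052233418426864511529982381995647691165045116826625886793655769648359361111626049407183730591938630905982621648121594070598512887779039538624661599897252258105463276756001722745782982264256316665014308399304713634241615743486973404348561901851208333219646363837994610821786887925518657238048723122404310171084684385541569869585549712025894213553754581283934737978607005398862105102126775476315096039031092897738102026935433880548551529424641097897729070589283490642979061480176153895394871371575485722612846493389037592138240405724537514045486050526818107248220019281144066415162430023515211005272873016970752435528159172139432239477086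148496872987340648623422378138620902079507690580104403208482937000749696482073223818780120827849425103249855519145407464470358459844645831438874758581836525737993151451102438070151356065478821171434641690244813802427151708174712986999455316428890680158859757516313964578067939778914515528424157829270846073021186565199646098068344829627597250789063965084669737702435194327003780725879332423820280294716135097354596218652690515436997833694251153390146337923488387230435323540264961791143464695103982230719339134753482810375730867822017629186922222550465885334011546405645774619823361865996766282110725096612397472742383593099278746270214601529494622109400431077835349949898018606387710640954911520450731000863119036685042035721520395746563562248196636775078282289261143173549475203165371855023011739208737561799019819540363911952678976219052558921469143448417888729872495006135810436597396953417583434892308024385375795181051692752100294482561932708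959142220720936532483821756873921235667168041838869898596495408469774199172551636224293575103478872560685943576516208366836588719990024850751823440752276431062350056342975883693730869468409091145583461753741327551976670173201139909849929566844718459923322813478024939595745481157757852422896337040918362742460337030102260934240511331229088100492123987122709830904808801099636166113888302113961021400242272901950413011875212683526881868890378714093933601494358113395960119108124143722394416175129361545073160767773383528304728602125413654729442459596895953167480423998064180017127909557999366920666064226704566928453304310751214692943650765842736539285082138386021428163379288671637200279848671898984393876358281350999157552808416787510144455992705729667820940059217109602476778516020221337191531846062674457460533574098520369404156431166193258091973525642438564432819430429420983223574353204470709457732713613099398040369013529900667090776921278488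694563500198328082475411323691728789156868655074092677075138780504860520434107409490318866449439982124350524721357505116417317481611288691978209694857274813868849176825372948133684840102924462035185679063793095658709350889992065866595748454203066517628550900109942932933105070282422066221096165875901778735704937403308351134996376555471753653914571748605942707736799525167420092924771688334806713562157593705164191323861759471002072536276608134859513847356060294023868147539489139731001352539547012150662865375415760064327763415965631832480163965555657547776930781934997790128073123507960966485812532185786602673457268252256798393260976735647953800429443228970130754596480376634875993438205443964670811160309676821414984566617489735353642579907765825692852489118088799906276745966234841315481447872705747875057070185389256334682450220686632614400762478126592955880777287871280015989952606165672927975986254296716382739845892117107367071512125441858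000828946250544611579657331367168393614754671542038051145415814740631106234314493475427269007683401585537888051785906514317203314730035636153797654047943916643674657951593218427644483205032842820097175645180639781552460036387643083035320298026883689942517747700319395054013413828855156780797975484501700919718226982001561089958780136668983464859061941486691692697124071127442385688583909176967474865872326157542912677509959905290726898609183818642733860914731315260824522938587630186734334602141323811429922802865358414001433179175683980586423801011722106884364926564910597120301848377776437204278866388999797853414208916774444639323466589787572552433166755069443586531338037564911246289169367594238089922348364223635385844870386855601897624460129824370661926610550076549947185090465163755228891491961684391950521257822530331118626042466159569544487093375868176948794061175214935252742379886222034009915098913873695054674217208528374469395752518108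240916444176951894996051723839598281141290851808706878154941428434196867653994218731773239882661411630922740744211396894024381864095951929189586149266483184435273827099315736864165187352743125953048530818326464769456544764293760428065666991425270941055825923566700061664070832158484279054477839136098850206582167324370050358165401244379208086916122192518314102270067154859954504190431205029170478451651358994752446280197111926410762343233239738849010385623625180287601582926329534944673660866926365665170507427302602505451262095909840642463728523962441679012908858340943463567716578827015619971391214296675170479629456711868875784706178578996167163807590051592978076942076308010684756649171274807722907417682636816789681345983875833863857884684361932928862620143577990426412345965949185278803631341106599350775182047017470368909029855302998132302456636409538736553426135574296923901522064401222981758367046839075210952286404409830524537676970731940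498140922160333404261840859138481928447373851236421192837361474843279739309810510498588850838197371145311488644696279190641268305589001539172675746683556785146538222758761263053230116069244270650116750717051968224897868399511465519568737165296931739695763281056206461069349442932652243940142494442312961739108050288688707154873245010666946133006066448649851809103387156525544975746502967406916418498249505262957107076681297047631138325098007450777797262374056525543047312897308713397500215623653394515946579021624783807101537836726813335833146553539845473925300293076768370869473560767068486918527965474782741841636275093758830834103441738523976767648040614516974438377270929399170242661623038470794914570442072021423839337672082471825381828661080387022160960678912384370843962330285314539512664236221119794006135619487085700017628672089953539300785215131540556157320217837729604034777054192091127857332012491845076248299465054473127872843722533236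420729963312146831352792221017878034342789089400539270679471195695029122700177197260352715210057518462477478558789557025503603168219002520883938899646225584162776711717204178690211236913709508346882655502066561984411979170841740900450517748825069656092034028562690613435968414315353808776435074765544829637800855460695797291610593604467915733827057445218890351035919313280749156604779623263003715955297159933980773429807758848366489495938514208597280931106488283987362815370014158614420349261565170594656246582054985497524332658625743315102938186496938869963304092582629710676406224892015901612415208868711079491768154351147061357253702772512309219854919060462506505372208224558315313542399268818676802341168841854794258761123476841169886838683174213641725202175008695552430566853335065281007263956739616957735847248640525021431179919024185620813068778217825290436467073826457742596938260127836444107082819560957577116661627879742485372696508518104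826903005579638894331178352413116048902456622129216699777905363270917047367776610955229411552921038104037498210091751691618749434319981034203208307930986165454116804642986378697985620315566930472364890999168492284252645500737490881962693636198898473717859105142323704928809692914678266027046791016348054151550305475109821547561556477856184549547929785821218261680979065249295803268983260273518314724476528549334570096824984514993932312073573972206072321730452405034565109693621525165288440801714543146478076653300827656946642649898240944661917756613531609862677593248031389750904183492684649372540492080286114104083515418960931937081574170517305734256035388181989146000465371663968283609100907056053530070523984564976256848664729629581912595002761520673233501360244531426085820724631494551910828453738526969009969154238512446581129178978756914062378747723369509102807036232795975314689672939133611989544837649376766690735220015561467060565449580842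444143183038525902502938735161477293387463844310843394363367993861330268826818979908120908437260120830568118781300719050540617650339046546066626674389834932604803950723344138264245142947745886727813492538584067946699160201361877032696457370079180061699068851687951284348230772005258471963487189131414933579406926081242739384715306130390224670473793681974175497876617178658781371288298149794362303690650745331951734890762714057040533959418661840367625457666558707406685435770156278251902994877247099360550342096319091450871216322197273635442994005514007740187346782576490562363797259646285660905996908702784990815758667696198612444440179378646969233239379998069760719833042285570621932161667636591103249447647352059880088810710533899798232227394411003948057662131490256824061244220127158942016659717361298105698027574714700549422405337823703028074308813595137246704576765278132872036099907457624771870801771247672659655597354018924853929509570051194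281566859660329448929483047973237271590238571129927200311848612204436908476971197009424787384557977531621538381244880901898092765454339993083623489203669020674189433842840273253558869412885256333155409874228476384525104204802536392359309340035732363254795557284839424576574499119353439339434972138056288368199512575389118832936524784354519450950934073244391931148746903447160201455311459481798811105987566794716374664704305665720542021537541909022962366990226317796148858135329514933060830284711557464818639592500358237422664324160420076617796351386414918824451097408924154924136589605415027781710547956121591891322332145980059661983462968146291629689271265294756991968869765759601193874072680125045376274162171815039220843969241531531454440624932051564877059544237816064237221701443153243362871886310011689562385988025574394265695380987430874362836893834537031568684726219308164701346556137102097246282752548511230503066672495608218625979002949519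122353081848936769202310852742366232025527791024058515983041181494620112357128467545925881264570233254593850174965282483451258525866882289123975563967735023468201009002354652779368667655676756556835309276999660679169689323093506419112169707482709993650424432188366186398354603730792161864985474891715305275536282106339775731725768371915942530307971547926167129414884906340355531903279330973902636909215349596393346713891014513934268640703600792234321408828031523217598680235569881827657308938257399689763495621114500447464681341417569049242152883114215737616591426259619946105635770595134296811929943476164466420108784648468723924793002824970937883051251835320317811698224659034567644558399398298088210591586820135140227996322173273034104447402286995206260253698397147566999675016321998308595126517565378533532784256549650925437122168975343379051169656614447361520552890504233074052556802317833860824616125166481942049137565617588706323559725130491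328295103596311665657540572783647106375194262759371021951404231090245303911288054249020814178645739689981639997558859700618565520289587791939467139170592896083701503544148039559149362543193321416982822753909583031343890692641276989756194558783835153400672522886622348925863639789578691155972674741064928739966449208926370546667658878881550092480131590924036027738176021020892390779837833563007046795547774114521288986738567525818652837577277002513443028002188459692004016633919077224334231932360615421666934935537840701354525355376424673739941813341478295519255206534639758799518883046643358936112975035856105773107965290064457019276953742969566518036224970091250465997255552661870195692009707883027806958337815173342814245932110671797424936645711018021006180264764632858795876291025016763709012768828250013435527251126221670322799049020945241875488588510001874420578616473231183471579218890907738823962110385985558507121234761125591629446291829354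667138409395531484497069530916628808229965567707777868379783699263468978363763784603852383599659552372603546456147033504473969305418826420544160734044319688071415435573616949243550710764765366112744060454969130237716945731779354372696704169896566691496097275807840406942968896955052360735779098253121499808295626932047484556606357577887969104692235859895629384376001296626549889410629514532375932947303689996471699952419926809720347220147719906821871549214064248896775450625296316856621327007182251079874428228901538721673510319471420655605537467088455904456610610429265204574995547448309902450182280160856568001375392099411656418260089435314379992095601463869880023297425810747415052256672204840977286190467442855312819554566129212298964623266976631501899170738932478885523626292186237181359516523730144807973821807290150958236087345926230071541822974462719952411620846974076845911115195013080457183378774792993592948044146470256433875931474276217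556126138157063443513699602640863535399268446525585081146225157209139434856293869449945331641860793887922540784815390891701054961315652775524170157027174814408606842986754068432530600162864094626262535207470182502350914286875545942712307387614160270104657985728751686539199727963449413995737091358664011594066904131242316079543538421858885794838087079367758062967640249240176317696228979664681015518433093148705855035135781819082480638859638562072411503715468507509488681211074904488052451881388837973590157774857238272352846059289692644266229585649761411654416847803473058720541645799523558592732250541905817298052539491583871752355056688807438988233782699883279768314071395739644769428514568714942886762836737150725540868141952987736428930555203734264815757373338004244141120804832106915979858251438166455169245567748683028618709079909317521491241571286946762248423867932950006297847280909572208152316066122269084622269256815871193318108108080632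543221422071492159449149558864610217171132122288191515476062139233819227933713352826722566589457245562708092479180130552049549057927431277475999698019912141871350006559245587841314242304097066738507027263612121931915078171798631098469216817723374348644306382176093178059310770769916808177697843817736217309800478420306281138151448988192571583659838655330929839802222526867097645581055296698036861576440986988014292870107675611365452194118324012495312552112000129512031905103002060266539273216925887442227682746504251356102792471207688741034910520915611615232)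

noncomputable def rc1 : Nat := (nat_lit 249537472140530435637942988254226623563766345155968666842285435418904970441613161430873032536546979900625861279957939857020532306144117666523033533157123482925171039422402135609226079813788533000055905813851000283875518308212587190631094953971181571124949620745820248483256541777753973898362194148255669429685541382987857989492512709941044608113123479989579665467708001424316969432166569783737836930620482755045839016054476536840200592463344130018466228716145942872275704864049085017932613877121259181481096372722430611117167685287915561475221542531221981083737834063769669749938827532790596107455231099838472623888719025670318275208198113493335379007917025678325781876032300347364641920891260364295872810925766989391814620519520345227063923816750437872864589821088043288784524673493663757605785837736340974996605279980766205553666051624373586461049986582946616084024948091479794909278030434732742017983061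137718635634413596194860913877246987526810024832098255279194368212362026052723688739892557823224133292106396730477842692678098490264842284729001458029958759624708783622383775676876563877386508748206235294406761891366916248032706064279807436345029544751639378011328618799402342410685025530536029087956756284414562714550196730034211168830406185003982746341493294045522623065733064506983364775660811893315427004393691383737373677336619965848078368936319751383885384536680642073847816005699995265989195568719526250388177347111419641177315719831969422752097861855673619642856748775704926261250053189715112528997119246540778269290105709062158271842953714060846387647338466918844937688148790632224834957075025339719652341683067692463117548158932417499415589657495734948847755998490298767049857507149927023033683856417252748194005270954705814773127334073357790230405128998511086269766305730998632099430400591401043397839369963608843704963444648292476254495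253461074224137312916248439423345539528732912691204959238094899782834600752010238841147592665429827971870298283244026490376943488780820668633980376810302924000517853843171956463182722561765098899325638028842195047768638481935164849753780904011554250842998717170268476038540846472106662200140358747211139615217631593370199791260506638592492801370031632640018587884412485555878282478731350011151100732452150234214801835755681484185236339106593543034944528764403898883087956848548713470740195075352196198469784211067526981207864849652501630930982375811971212850423422912723042144375214094492047896269919263941995560346388354802307132343701627549567496948493225056285791945752004757094365355614435460189049590886929007084443194781244391605026394656768751618600659922992378242426721434471424694032579339650810774169576532978040333277039425260120154119523317086057026488108029096936316160519083849482522088261772798346016581399436571625740727457248977433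854221553568553794770943670139479487294473631082593373949725246592999886767190209155566552689706290135119620184003894645692893788366146077855274090991336989455562482476020158811737801165493353553539948650615434673420612876272322527041407204606386871375212815692803081533517721762264015843837569155168616011520592514731381817306940294211591572361110986069103330338426276747234010193170763760575852661116109784416223815511177817419769493287040338405656055149176610877254397395346102370311335306525721621548788428229222185396194283036925891424533256674301352066141022580507747926114777042230728065399283883856927040123981049512547228281738232208588646170311524610348808941155297881029518061530255957995569460927778340755298055548424551177114784464066205704959586973774188149470841390429962199346639346040540713786882366778942236419715117955572112218162272376676615400722657323371287718494949648327106587030915698172974505866452373219876347795520381329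529268347333779565044851234669236655427027231250867272132750678806012640092228317258006741884684731951568474548215697142302563658209952484621492037218643706871003782977538122282507004359069995108387508302633616154629161857816326513144969495017830469665315012163543929841903672141398033401235027927570189677902843920983082096718191882067071342159068156034197324627450658066683329431463580575752750781570230498258620947753993149621201231923598736146498157034540204601945790842743231949047348587890189637278215002604262463811675142474156351558205889065682805696173016834524581417961077437503795321087606593642034185918473106265294177546146095797691288457240713844199827445629859028354777034312910719054485901731520346557087071869394587118550544999384216670609579261676518148203117282071972801020094506157351478748548300943669980743294271215725129262339222709510310752965132081135493142627907110633403908789798146523209823954798618364745251274356669288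265295822423319054070577959625804934310552209712247252602086698039301327606497186220378402231806491952793186134892993632166281233713993770581600246598732253103820099639258691605299662628550862739411408204819801192583183202938338960889690860269464829195258500897327810804600069248701791178483407020057624370956706695551521244106147814571664583237353253588232509846865624378607158205681134687160489793120881665499293072154301846793434577183615620011999415074957830260499178734491547222444974736678292723459871863589754007116137792575868312721780651923766614581172322924079563425422941940345254500442394150763061881064997268357817831058150770007118367361440284720593315680389600909446595593729756234515628674349166302230274120547195623570921415538034750764381126426325185092150834046907756046862539863807084932180755955849490797088900543975079044871902281504494559424711371797948357569210060202212060628280508325020718159700811810193826968095358689380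363624169537292249278828163928571883209823079832896466978913357256002564599003224582801827770474858352564696076995275256350490519910623870827622377649944168495710543638899403156407819878774641992802417737118234976099115878912282808713273239882080224529423859916563257690100951797526284856331963269102088544283171166927533298864655254066457265277106878956959222073050114268012093230840375249924044644227819970053904342510316435563167868690101241910970259503852083714030351686249633667873774203164997603282739627262226427458867241535488064486944878635035696312492788175700384497417277845944243817343322113420138899675258907250262321901248469932054191865929444188604058983912873592296365900865660327145147900094488657404510258350599488000671904394871410808855474790614594141669481312879539219867696928935061414919944602723149361857827111077372839799468022528030236792012402315717620492876562402802452700231770814179921899760357450307310945804612268659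901737499370509575312961555821850120344613680266426563634439460814121169622807148097127727869057525335287657928801585218832539200015511783733435706943393399604580542327188691773053559520415318676247018308067256129504590997476037184054302277502037815002028999582733331482949567173981611226394903016538063601581079139404517967818570314098251258879510264322603194048392234295332764243217894870853882390389782004703188677872931126534056456087314698586641215439231595687459217066007469478478366997554611407325153648558313882820388711833609682707140878001665993733748113459583976233345668657066878639108146817882688584650447476238762581524164472969079341843257386160363324920740197727707420523179037849967959081346543647769007563808127594307373853146919017468802792816130564914898394105172654131839011533719011407380196541968626514084137000830036708445160389838838368125668037900119676214462393101323898565572171081983901296062627855653423401177192290589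052920994778715796181470768347514183407953727449687235094711630904921577127232049478494875785396984968652214787958305634131703197220127460094368520896765602219195705280127381264228504484222582781747316633959889472030763956789883168452766515817216277502489487890110340234271195166296354619731071216151136387986076490421543036317893490538885148403644050807732816813640280892188846957724075027254628650876911069915052588916687603755660207846379249071878068990790155208767962491892617192341082707487081670291530360981205386971156916012386396600314099957940813985458835885775852263588740064072277965692588654694676798043515162515514723834035037513542364739020636513239690153493808022905047575886556081115387201690699490607931354956594834404343453188651456313183174658115693803214914215206362852103393147117921195195188142075541276950531030977577780657300250057698823955013079283579492003135077926101609279918179704823363403272353192464362267362274070056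499282058046431886252966280048469254515288172316003039786605994891074184344924275460833216147341596527014588891097217716805520870313358824947350900882564543846364078125933368408479397714744103920672232210830204733370672368543933231238037785329980560551897223759965660604046350389600323589376810730735639039929564769854151428844796775530213058340434442732613002750193827790101998236064008732531304070595247759747064659154513179906677418731003313966966701794926340307498281144105082789627055048896309119121171591439530108772652941012120416429055123587332810997896673068306756503898670708435430964222073574264941424957546620385541547503352572328866010416829195560297431144096899705255327350263093710649432731415151465247047215929583091737538161401290911035360493453878631086975190951998923410053806377635057132032377276067481469101286239014627323866473049504103337286860831951340898073099400439428925330468542012707391276672470289165129334270004440121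493152711107416205046994615839168870249420194935447327936782231031371646356108333179270594302450298676887239471201838183498605335810340565581456469449322066839772578311132195463428280472465566514203217547808841086463112272252732692029156434181309219821555029252840943314546390321789220576822293418763405030267857814172519342863953582047311625003684201040308348170159305265315140578097731851586196042272585866801702672709341597586306367226044267687634559658857165885857356488929710586524879691447417690694583236085219827467607920641748379938301781019624065910849185539197512876837450369440411919078899551184304287071861179792574569592949204650644352061416697466835211066025981169224624715047391905231203703026191043322410144838031047207882668268912576561991586525327377362082515405221701090872737874179638003082924526296170613199450360029754457831062714593111577293725218648240475560875769819160245156303559649859009395416443227334728028269528047071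606746003708879994748993376707422924553246155407123888596222534709986493662040653248861558511816067664018013988348171773923424816031530719101053004713722097179946239722457689216212212129802742797052162194801383451880155768465803982705976802901452070918382893514864916965362183663082404820472906336483913713246970736062098725642261779703609368773949724290374646438900187605722829295877617026965362294206664360739054326608114615171831634116316093189467851386261195419752544229835416419549825697990030463227161069420649812921117549565058053801966956515506354274968444512139531293660212865323434877680371087674710904960702686937872697685007271187026941039748287983870168724194132455367127618019558437950608334820059748796434468632628478212151553870009013155380099446224432660405842900925836414427306160701394083238291802507906180941952944246010966415928666328061988161324817651130904650527166645719294647927161715880730218456531044661471748738158509724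408497866784879160956662074876140738309162910266632206584554442425915982455725363017413824448622795164911841756280545654439255144453823949550646868231610001904733336574862108321352375050353152612615048852916762632515001703602503220313851586205352678631866896491795198447052450471198983601296296248713413354505275285443006879165940152671379516117180753303074124390297161932073456779399605514862000732816497004392559500709143492045337494556967315115270941411321351418422832527863146848108661358200032905745402907314950379705588433775392893800411347244806869775923246429443804556903871650302860504569733249043923991174971853763234220539553279374174745706618610940601283072014672920615340612737159842054604449136266833987648080720581957526216013451166121554823246291604486055943947456453934468740954598910039297941137502532285987568687946957758628928809126476726929482913751754510798655431621885727653452168088914396600735334682383895737980911492203852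103063172633584554944018362129424323562064548005251626772936124611299345373626074160882718018890365518600412062081265211128989063428925895350179488023296071127547518333180989606721333370260040686091777168363151802222724804628718895055952985193849982996370137645469880729733723274286397048527109876500591198096697207235953343285811075574352762288110362879929239047365582209038416157422001083511000947023976262551220054458317474323433919445728526688213098180052093507366121480539129147873252124533870225461375300701488158501801399686925391654755602344700755195454855495976508838637600772180223971586364239358039170655209761061275897490620658876773548105680532496030379670287949263799896713362414689149632181697809169507737288826259555477851467520615292673686725732458898615105815542994734898823240329337398013391421640035246669704811847674014498244178117856908309664624340148359696738606576035094842622397902898128682145839011120797149747450524187490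687363736194959995487699326873959045706924587041550631981315728715712425258961671105859526505389262515490286000801739967832373859193199137353723480137569470416486540748016954964016586356007626611598713375694227644319707231547507658975731929203074567029511445010751236519287394006990449007593936218900271603248043462025645229430894118525288938391670892856079255023327454290006813461779527136342036430558693932030504652215506660830258885067251161369798289332492740276737708192929543170187808367435122555504302062681718645943899770207324067860660748458315587975122266755319633222719003731913309568707920891077426313821740659489538377436869848750100165194872419911437885902820188473248408025328167992272543760052751722934294266792306971510258027167896398392554260758432143965028223669223441432766968724649754845815652900481085486056203483772357108709880535368987066144200602997934396249871858437465684099203427361809476885793035734498731821204015240178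374090343299546419058419279306290135778066110376166941404396428787186087226639335267077106886724699438570323815477644669960272399914726028103154324502411281729879531050841119573054118505563119080002080893253978821236779143436629469007363765478778770078685212474335678610678234669971570758764927279113101826611255555831596264879319766537285987287718122093393273889718281936645219962703910480242183679289094836148232658129655148630009352861258006023646749309968352269107485546435601173562914807399613158574036431418129305650895066672786918348606378681541767511361893261532890975257642750720583609601163177365762247266940987562656674607933561172261377147385380019161436786249184762442729054728917519809919672348223433070708515188057846264576437257663265779457846850294383740350101432652073801469359439635826410972291660137938835158813716213997278306891212439566888870119550148738954076832528065346079350110125059219621906786487084251853766780440123941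314815326973235618016259843887707171478930116841358853954281725093472724621386364040438519613420230722741987085728338688659276132011098289176958337728759597902147819764110163045726025542363400070042690228824299016283503140538820178223792092377824266858808306057282586451477499803540812267317253315492103005291207843897671801146294814156417928889602012184202713882590320662877257686021280927129904354809155817928068618523088166081994048893651014619054930029173672589195599487984385933110980819478630024491069509669852318901790215887167175875241095858541153558387069288590162472609684016068894651531134045588363390044046658820758688627065694467033761298410498267010367002825058538231769552983933651158519628215520331279510680004877169883095334040152169476880000732277510997537554418474573841728814441363360168745234279144491439748688429585100533430279377555200466095568551564665361957700654097148454849100011198743526249386177400245321871512769171252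635841810422145500923642317839991562107327013846561773247042846392390887146475091229501343038784771865526759075800015788327597557837693662553112856023183264041606841709082843247070298585632901800406815535208259657543642181837750728805153377852041444343578449428947313106629678992611483031920224282734038274324563855889813705693239712015751250039887231449960061572310327223812575072639144873527294913248001981219396497667456060438541413826169676198686157395745882610808512207708470073581108149315316606752763801169436353236731450020910766754229693465238895593027613146465987912830712827026671355284931368580117055722244808218818331279482950352972861995246360176943084953777561624251983680299700961592509775526664842245672923353728102033881820234377737762905510896405521350642301099047398153578669485822521525011850614941061307141841648576408098778973970021545355428847734968820948666104298735503709835122541951003471623344812472187473911057950001678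990725010100492953764426915760445635231036939298396943780013557140140284807050250034358069773955312792553866270940706778710162766353340767795667439788571908288927423515308156051046005788752808454916524460386548900900278352718567572461635096652403334646199763385226674390654998248502843900284950493536877967934214161466617534604334006582352998737868415810794682723349733556669250492292786259096060007421021392384993566325235185070155582768068643470013269042336526516900838452234184664624054362411204222181469023993316959657226036077311616961900201863164685373770641582762410893931769093843004998902241496909133917714972943750387429970840430613856137592253140488123138364802323260966499914226143306823119347566570696695390760277741126996812540978713269370589915108258777875300841340529650023841564845814467724316767205381106441632357067093420303850185757363950323164899590736934097924750791395868264092435493030732971084997291466881923344620474883835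381839587365862378686952889360632873340958966928575476645504388013713859272361170560267607393092997064520522636221190238187318986044536028689674439867102205778941366577960904198084405438112214808226682893750107626349868071165866560727516493594165350328986368506741143272961142879745889336273820229411280716949821348831063554080039603174279602580042754263967913026529038409566869832911752271401571936442810130621979370364678773403980425885131574601128319962124386285458825618706784089314749976787471706009597247351558135982884673477200065647924399095326703616)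

noncomputable def rc2 : Nat := (nat_lit 250604764958932020097330257390714512346328191783912195993045048844346455109234622760911486880912219448333251993419697268005359251471118488151300103665682167160037139319074298525667760788400843481556283375860519242911749112975209909365299958061944104437672972384467306655666708527789292496904387863638043277329565356704604905405546579753172226562805941901402097362376897562540455873744687512990161736308885902586747010018740039074997298061257042858322436324607837395356565823874904401813134273234948572232256171668385222596791583783419451002446758941391957199551583535730766230732741800555406692452983373396712119062103876360238024695673372920124932062882035295402948834263390544392190766236898663467548609686530195920105413136968442999856418314977334683531104190038458301357135800061836003421565504285962648985142192931860683098211116759602895549327859753621080731376724989072200801255316551632584011765629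454646274652712462839060796768291297971121064698050326408594776836480708628377117164777832654424787488718367112038081032305638067268333310189277051731311514378351511466724706247818749183695448816270861198113222535542539304724613149697937424821684489370298467856144269871128937978997986890109539039053024238197705400741665055479173375734364511847830721001786421518472649662863055324070146167286719399029824599036263190213866628776451560937456062534809140687904983617388493622524779978875164049516332120986072860748466343161744839205270380018231419962305195507467403320500511398856447998285221221741048603965884365224116226319268521820412498839401511804023108347213459210174021096596883545797919635925714924961697700736234538760296422206407405579911686514558434957654460300944355790625048993933706606867111913654068370640731519849427106916527608072215863858728624656278668130142165278830316289408664895375443741988979001229977336630472660825524985085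706514188264640944553504057485859525548299504015463652085479779544282383594745989968888179266445416441747318313183239597704398692062791406191889048307627326574095173017661954659673170393269346170253418532500958521571796616109553348643485909143255166340713742741154768014607572540869847777367809676647567553008258272550860268689772863380694296327535483539951390406646368406819218353129673232062958356823971765704431092858774075802232432297142797318270681627565394343866852679842531747010676576022989528138749443680330327639233352060751015986139785514904725791682882157080802144970272658918464212992057501741740351687296462475841199549993936673704388297660359270905512849106926349015643471398859564350563275537207391656772167570887120121792119478790304518703632516403366188304415896284015118086672282028916014814476761851980770965390159631550965800395052022744856028684444195666168994107843488660315290049950080158451400971784049692706122103793794121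993111488976860433454937717199943785216940829314989987596976306151769866307188457469218407649580660301341250911701186993579353530723686166719361676281355312527542887085576215960863778029736238080109650214186796622797358710111115557355624131012697939849363365912362385722528049537640941237218364448837101218094109087529333682214292045510808817057282598674468791470866352585107562784882674063519359124159582931163072582114092110890572742266377613827679118805839674215675434606935988309179966481357090015898456551601068624422438222917425884288227214964996362979673355544293747920699773455429729282388695234194733566844013857900849841764248589763063566640921914346604187762818176414755876983292770931317783357984263519891991954782350552320879588395062990429937847878520245279652885312902119434182544427831195613779616584614775205257008046557508950734622683908613113629106492629996844837966012138103379541305432253719176503148967591688289405318109567181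654777159542558337491501809320459586347188902744267676348131214645203974144441002434450563057400722250269387374658066275124925553836812052976171414766958852340644985654796812898928417317450940432658089455982912554916588551322399382603898368709208078230061566716660514488962142064689887127900796955886294676223371832398788825155746748623384899812735353613205562909415855872181228776050084873027316284892924830242904131588206736211137341657651824853361120412001186052481663450667826632454413216903536322585669136157584767030519559036527194382950553652290558174889169606394388432608744748717025900385419907153377040422544800664747305542717600528873803535824517848088221448776288060758613841806688973504021061581557081785669155013148774192699504648884931997390554472801239045236991588863076985411265030128131892686042759221029701528393920355520353905922892220328097494999032022112252655312195238602439900042955682975293061506778782545775307194310444103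874930537768563912079747030809624263937491714003081013278002062119193092721841744784219014658363442098444474102940959960931979428681395067602022504343825387691172599980623712515021576964034425377943184198277458977992130910718129967371224397657268425339316880507782138865347682222461079986391973464626431631216693863042065085217415154238865706969581340482442522227653274558816370737652961957432967799986710701872388122710125544963404609486634917661070003356413764310710239048673870786896974060866708067979564206153317694267955275260440964820298049057268445128783718288054388035987061886237755234271421063480013711244662403229403681976181152307820355750775141143429043102322751847367641715404676202753792386437563779206155706655285352614950942709750963429456421385245812835321648072990195883791523275215001074174013241810941070859102725425400599520149765637887619616666545438386572817469183377170405136284210594513012396234938358782858958810056224147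606106061562234214250730878058295220866876254312746726716972933294019974995420993588220505837085866714696307666816913167218729983183232724716627741457242626496846954984285699362838535031235994580090114405155786886345713586899112370350854960744213412486027270648518041122358131830482033462155172418720100528914184307956304900156027433974687791911465847224456695757116993815916866660517552364126993948791778219329123056480256683136719530762024974241823123173964661217772847745118035523346934672095907621892913219781364948609616792472844995731095617172517814686175370033226129501272048949309120469212313239810333103485837593700507061929977745804943526840933234205857523115843606965080906540382040502658030176380737008672034642448221360043640427589370144999324747155308806926296633903821453350817831950646775485616023979384673817388771142262287549932841119880344355613628200143168249740519463835899877150418792324048749811796619367385028778846916462932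580084335912483945694062395707306381544540194806848623039771385433180494958703486438023752722204559927962965393134502513648926318352399170252700436060148209741283630446385084059346319586998754991273254772942925293366885972709550907640168147937013300676889975554039716519102054145892064486804785440638127432635874454379192027557464927956307744710778351742510529171462709875266271398559568666870528804738809522895282246214521286739075140465235666703063198124500480853156287012428985942621804667164582812872445146286077061593639236007609464979259437437320375392530009061142609894682044854346268309541933745516890497102337398136704710837349708780859406814175915688161854312189456320388092299088528593661917817021492895119484147136369822012488772224121561075559442246976028625776512469919859386383458979920512702681763775302097895940006220624826389279598044964521494082045988567614650959913592661216582316468846185263911631007592205148479852138556269405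333395365189061007830480357834975203300826327504579272306060021421186883617660463186345395061329530467140483632923600878184900749916133131582766051124306518983271733618035353578187925288501579673809795474926310088776810703219549389010180761628779083568355404350337447915306252947875906878571718965919529349548673941358554991283381346139526676124180704120003401495461063492787419913110330609825781160608960632177656572040029060572517825533395915687204961254441193674063520496029337427988557144827286279611628951210791743547675832636257471386985566215175555274247758449667113357016430425153041704138334391172492348675132432945957340057737566233982554772986037886821300132362167963137579890404630940647826784369817669352570128389333724126627833283704311113115957734911786961169980257553885200095257822764473433330186340652866991791096926195681437960242025923855801705164333954169453051727228715672790223736646191807386705173270237755751930405449588508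645737774036711458269495823540915125873360933865510670643502532180065438372960719525342233294024196930501157828575011900641811449282136169856440522764209761743967936111151364358908508238528339653016832341878220651118288510706516697084632664370517251733780562288025310520552315808339681958936435753508114906093059662900924244141666557714730248590720221974657821242769936098937685747917066708978974600315347432064609472610449394519156106738018699851884558746576903414059163968104067765912213971671585137759431514102426815135016600466894132454353451538902747104910409170763379223298493504965808458489374471461199878272166201635865324440052454982506282251902805061020398737225694094727204293548506786286836477041018625772252554968241229955042945037033712462735536051407074012584716664687137780294307562621733296420467349087302084909696622002291793391605253128075641919959615515946193621731309675976245195391680426831067377818399694288702391930218482244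308258016169312835171648492890166964994528880957588530071786604062365506409650904889693137308209338313229904656330727783552517428741298801049001639636933729100354684651856976340801907845129339156063751895850377467724918053641376130259469540746945350266756371936102468413733816201853095670801918056426869879108823799901344522071385082695783017446710529733540458036952561823122221966508602834976873887006034476876593241736653115638843149006949716570547765558870022270889031030018288510576006701458331169069666989531866175003548561047469944326828852634785154500412949816496006083260473927821367669316074822495564235378623374270372967939214212803178429161735724835523404435609843032403376565945940502955921024640882307033280836744659455950917825729524272740828049964560462597812197553047896324547582058138798853720541297660366205929733253785684225122031991974842138351128282019353272505898965244240928660508082703776337787073324724547430471504061127253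862374542277820488734221271119435446633355800373610524373897279531746109353589329102348189224208727896289966170071916055562742397647730744560935171992027443502384976862269540161664824509598789067240524591099707467206766726451342975630793110957170111704032404316772446938656000669401264238050010015499868564958604372053650816746288638043762557313493751439268891764151177559466629688895399416971545565415895304345650423319879621923299797650451852391397858639298679947122326922834256757968774621906327418292351877041492422554399937485272707044116343692277055971095394784631969100451640209590565146702045048780494656182955755687835079878855919839610047763890995429261937691595662412424190115874066331052975215300610772253039507554803412716295504444504779679581585193532419331743462002366709871437202380801853344839279358118241976427149562893020165412232287936244896494385468711745820022373492164278299212920403733118850672097750293372024651426150344292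423669901862142251865603431163699270972316878911958745290740577837478993578611314930212586937654788117771319598238957964905720111946542505071724494928665273174292565489998769144659703582320602679501988671622003596441812553375836378880148708965088333589673205265494152785340228252147675518822268996204436973366222109429434150829326872200245493129198220256625070401955880006203273486023083959028800484843650176409763449386164231641126733554628479208974423206416656889251878914357712810824191936209706981326184699563994032791964668195529818419407746469316637178882587310286965012439059271969469756827603332459075155977117850449031758461484305482874523023471413764341957086195803349101013845076177613269643809346341132695573078885971884659497057076860210860970746515192780378074180714434337264494176789379581202874539534118885352164744666074340385812555123129096959508686443510911021607226082130477418084735821149284121494821473536941977690627571079374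166319673733377328012706224897632523814279721012631703971914951503459468537471563092108699928393461913991026254291406148336652160724553139301741098038083004667557675830587911346652778432682826217184914208558661868018406869134723965082254747890587994996119760540205153572722230370855452444699385607971479943797055246414795054835234891518571559761941890471145665023466612454084370932252327627696634573572951315081836066186405355463167200648442319376831793819710448500360070263752117353361133909771153647406487471742514468923840000455193280408283847947022089721160369073086472025303238794033229558739472496900030509361471600580325690219890885377486496399852235337170828275429930645963533166661580324043715548882386573404231217384551175680919025454264753643651512151688350554373323282282825251152270381897344372000147560036913943428048902158871530581360307206701977569261816864947170414074452877817006670597282461842752139261323110045919413624781782223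914391188763008160720861529466032537437729465858704619428426300730305969844323888850780324547441161767684686720319728236388779270346232057785235716665113440607896630420212937320739297878787416042061542255147703720432797823021439833369119776780746185891789706911199258275968603991106756089838614321585623951481724325911555609644173061663290056010045440836665199526772093305319945157307144872894636924016059117471637861184535508474686329479908301724356139130571514259940427857226927074875565848020094163200573429174042617283434594415762105808011873502249298315937786744502189435658420608318606582065286268569642798314997892287479798344651361906568418574841269256189629109165792860319371184143149587287579374615423437578408580153105186983562788479739038779225712992282394285623739313818319411897978699769687589104123524927851692798128572758426243625207977638236442858366814967019425797396086533809212401944281631010374066760190786787353120248027370502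993640882299751958461173631056940489964301362555798599158802339611254707267454705384468920691854246510789731568580448864393455417273648676566480070153107356381146462446776544632002896950129087805611875728882889578882031398811421015333768236262448645437633069729848624462778901967583482486056964457830669850680737681359641665049599763386206127881480320518797524682335166675226081521327011959821445364461610804874622661951080764833728278130084608143574969005006551191299650584576744815352022412878632303049110839039291290093294940832719285390412282334692415933059432306106812666819016762703452428287747741286021289619647774603060089481304430657902781289156456736519781774552198233136768765551579710285427029698879201113034579406863583365427071153207230789279566461113592258937229244335738739469783510474586282793841093555735104323475861392812508892399119128143765728515861624699610989746300391851753686402649923157029798541816328702039913474175460128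081427746124477205880328245224592015789586589393960190141512160653854439976955739785297722117659441856238476073117294029584509831155823470739723033964439028980199502684354605905921553883973232743247520466414840513315427148785413476821096915735746379484157060651335766125341272256122643135168914340791604334034839297795850701740859846713988246574518149912178120560011258768521145393033756144674899101539225533312415109404390329004787784889755323571443410921956839895107560353154523139196713601207435972002361116106869902809445742981262414744938954995802325051438929942230875273412850896202672670550388760970810217332947195123464316985341276444046015401703157152000375223831490210566191903340769725655910026837900956603926708299314505561655645187470312741029126327712214258465512988585599382358462132753880293586948816710173894428128988836108970512632474261661335423808910213389385985232762316159442514810933338889337218611882488409186957584870020413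292306023474262617295982534144902220289961946688028234458167641550008037354302348369899020891199097709120373351445058036425767503255755631766230593739729364386219586602433107666309413570709814910454402632385386014684982821028483490608444115526408535591273386097021129491136111338975044953642584043094091869294707023119332859034980241088072383513483834888303144838636436724672954927571709701921680718299874100555142058633438679612075301348916268831268961381742750223333110845883531472141565872447315863769715453361359366485577024733424384903425197141404393975682203434006242945760392551877682066640332799684538445600086287088718239256191259728411923948785322834221765058670778963974607918650454749318276509964721948690676599093496223436147609990550241312010451582881168859478123912824264964693151927605254057225443258130352643939381280386225798776610312787617778314894804360629351764945500975366424095872825505914272193326886563126451174866634660224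581988945714843599731006748956933119753912346431778519021354293972608476990125425900485487572058016940263650853142233740622478360507926026081328194175691878518611659769825208566406729306550839457493117036558329207955519638757179177952710763049098110972765318522543757010531121245518832950639909925083284936023671942463323424901385767100808383174441076167403134683099158509543577599575264756419312498201589744192376054793241667948377862060715414267290470762819018870662151543504119390152098684201866796363698122462066380711399128978139556266255744139972322976568171833986385404883045797095779165577901351005181521830866085039307400362701734112364236163475579548585514515745693064688676689953434652422126980627555062291761533772357696561556479569723209871300969209012140633324057961081723454739050654591813451077112634206969708623716337920981101397357810455894864178322497231415500334290662851845514217246730050688623072410101077581798256958683310359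663962607532768567897255067141021830479168361842225987959108159508668172308911115415270701370638445480483778005740616683861812745840514383886440292583541959595022700895914376614777910101205338903306628438793350626423543960205176634011451094922634628563926700718850911824471191743814428867105824703844322685388542671503978315409922568842905862561118550562847835830654476543769728828693697366169847871500745188290116847461607962430226090925712857960734936313708385019517348934700268206542952118304053879438233344011687196241275813403513783809458349974696755200)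

noncomputable def rc3 : Nat := (nat_lit 251654896104118124552971618680541394928462876779432412447762998969221175123685679933681667423530320638870236452234553688283497421563592744837262662369475926769877567968106643789564913774714671754541148752330738189461257838788216825637498309137292152635203937395044072753912564396623084152107201635061289142703519033620105619122480414210568788182825084058077270691587988420644882635380102599667002432292758231642469364394264751923937582188934744552035431298216318253963795384688274447439679275813637765310321563790106059400262940996644677358031550778406881261387818342569641808386701421748641592842768099086920937113048236424785892622531644155134203118993050160519031036099473120941606760941975951415871218671356677566773715980889528292644969125849216137240281000721371434328693746146795583797956019106305465112682806695170674482296584203102828012082734572113097472736976085813122482585269933663303117469331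364173907668746007120156881485541558982490279735703877842696035872838928668088699223986639330567459662684556670417384077080259916096897183506858967699664452507849827997300575635586949662429499974230518530651459709159227282071876882651985679964496722885311833836940909852945329134911161762295664540536596457395932684932311966541308081187411478950120057734356165027857608632465567948248474737992511468667863312418700450658374869787470757279233601268115111995450059062402202239330733544061095508924960097427424662617767305036472659041800210034503821855091938162242612211129939367789589729563108075446003491455727217868946029028140747851135647202888873185886386565469671863212690041492807913759986598987099268641318668436044103453989039523688431825126128928076936997124721769936246753003197600314778644201703237055871370949065047022671895847526532420120842224654922465124207698710036596640842510312913439179558881303827366275500024935437830883035139416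665966913203001241002408458086942984301764664955178565453952026669034813933553529511468526793935198852887246118415878866700462467974072246405280728038240024525121529443387488471414798833696708312036460473558465857060381581221399668890735934026747954063624492136540722978463830180396849648739098296914398001466129122226046951447439171247794196333220661813298765154971932806374633623344967324050330157642778531433909903579957982916703377565787122597409085623134999405084147544712034119368800914529578331290658600520285054891488744399809691643049588750186979219486889776806043511367074017692122624109618866102495009280456052879866920402456309245637874138651886065542716674114295551825855918241645028995405037888901169107366446815336198324910543674083733305873967578519409312521711696879064248775740312405968201096392258644761517834810337704349051690350980494901840119311791160413662032264568528686409108598944957298144790614612205849118171254163963289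141514697689690288332031738711509713423225796963598096975301920233684695245679848319789246942674167371001203631996043641332533154277646747188768810691882120705090387555424326078850693022281178186513005172009213136113223367210195836478457525880945546274118395763004598424528321938604768364162872290770748696498913051459532525026975746749772130500721538832658975978270952312852541114713068683882151259771917522462438719765442052173647215298043820175032884399582836391038105930310544014273683653214518553986065551132517019568990570603968755114317468395665803318045879978310998295486392394786955873466964554515452712378931769666273460893516328254650099406436998625862046123795895121717921776639198513134278992516108695014687548272887732988410584572460382158094149517917143939953383784502894973443293454690535870734100311688044854668701892607692124653465797958088310175153026113545428870298744384090585624743802275651627540468384790045068037461071668963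631691198533951703066735638571537532845275740008283383180732414414976003218678432859876620292246508303063635645071561516090687124687888553151636875262450998020596350131049499717438140252025349576747740250791891312555724339868296111649695924132008347676111934063178504213156884141724126885059246298839887813383117613901368537408183915081425301026972709262952471615468898300375846602871341653904749371902870417350077988001328423443664235549993538432942321737137055344087131916385627536775338718602063541878101444507527101269296539118941794197585015174388444987784552757837875688743862456529216856103248495253679900844637977224139426241756191237993758422678991543972543186471908248275873396910921168827653778139547718807379634880476725728184463594121702506398068509593938313686811697274214898767795738375789591978772365598140072730269429320850149695906793625468033884634923430889007588797383170505129227289086839685076278321704497192819809782364681862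677175384742003051012518827891139958273470010274847987268612964687398039603569431808818675528143070757559052962596075445542896695023054013267212523939818592735627215154221264893956821004475399415462680526640250937784772960198660847266136749070922601625710330617962039264640804970446770234297534644342042969502972641756909367652440935173332974986184785252983029925404018349953106968513979838731917024480248274014178085720879242344999757699025110981328015833779409198312946451809798638518893434925306882180577480383577580515148310467983274234987723664131463642012364304203537523606748834303731175270886189870098366489445148275632914897101048055244383662176107344639404016482978679523662362416289622785354460773406692176678670409525810868480516233814575398003975321538401194098387039735195918725163808421827750617939121039120277357093880727284465494434566438007800890885049128382647553049951461656535121516775693107918850616068467856373404959815047846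512240029613062659026369395902562237972790542692758885674695366228790224280341737600110685557208684821640230602868997497790753321377086243963297092793128447228774883832532916318905730964597901183639384344504397098852063032713111417786675205614477618024788201748393959168172233250872013976308663957872245449524952824977418147739968779285132972497936028229520222910610162382086549853787401891208350151127106185518224053149148990367846018077910032283050183331839966875348958369123405000523508660886780035858021226075531456984835505170874581137207665789222561572073611159337255801158214337524670664565036383712568650688645076982250550818208187961040374492965170066938683921046278756277042174530358931992070964028015988066005083005873350399547326398555953055614714829294987080884991989619019998185572758973646387294286923062020883315884777370038329955064023199331097192749298822821373930992849590850760289464658511249066133416443765985420144572313164974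024046716664993641773776025289930926880844559515093448693270943786492324068191418359770598233928545800217773577406084505677736176570225566670460563240228133773669945399104693889903362113592441463737134214455803291045055124398711438612528309671356034117537191986377416365462666802971758409105863138643313874325281346846453699652124908058948286880337181987278314938803118885663109142989974494808190213866049773806874554016709688503348720025804923470452563148337267849814249942214267709120759192590138095518247674614671967023694249759376891603566942817938159357648152160602576766029009040147923834951810775720416805286683377058446744133915693953421988215605407087457478818785475655726631732533603630438800703075045445126927299605302787211300626425394904221185161604569616158164831123449673870938916461549966658583673617920320367957381312278106061741512397310065954846879231795388717703945634400127469072390728354596045443489403282983015400293953022733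103165797149784293760986087059092757073232721344664682525885662718795455541916741487991077738463946503890493692212189415311200985649461286671528376869360411134090987207712241507978888288222351164174444906591519809000580732273380609417727664540122712510234149560326705926411927475358534742582427654911107428230745913841209238688577347788317024741090187979421254918395353632722871841608318011452910774265824713305886870629071793201703101181200675376223686876722890117241382654120635490457206766592854655418382512416930940760427601100207296099417727076101993859718901549619397141254812575921961821522696596242986915041699355631445397213261798173675187099379187409732765006799886360584186173598305758036138032348435689355127100810740049447820403187384197035403919837242612573795478068522218202559544845700326334551042158856713075532737116584633234347226078417132685986483013290043472023807673822501855726952902072751241310569863108847260397589903438135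465657215509348721215275077897886483156059161829131467029086158211538286975615270693967261189905195484543333703332322583417971935568089001983963783566691155553482693066019326468690643093454030857323822613163628883549251935848809107716271013149615054723423028627071511987682145314330980227754093660596705108801966897506753676227276953308626200710184801994409141799493572749190888471329497402574925107575655986013474953181188191892621966025755011279650297435310858624762970386919736137405425018249512267577842094537145268201765571154987862688983149152552126992405922743651805967960477665359430948471174304037757921222189237819695558305556822624874440796078907240122056275322481660783964768713199654218606286535873319028069990178169790341348888858234443158437991355848732635525292581196226658338504810243664822294296930809504982640749324188973847139926894657566606302747837509893445304730478819497439706119576931548601580163314334535594406062002633901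975896393711981592532063707582170638864019641563667222507376988638994922489445833179152681268380095965833074078509642314103726494270264383299590099684482564735285050368185621949622461056695491839464135015846657051199162061450552804703574604626363315766965586838348171650164190455210179713299296467146257946912957258218561431285525070359854409876849333250401013135849358795752429234438853505895146401413200929461095842834156066253364083603936459966877717307942955760412306456025137520925488242598228016098703243554980262194978061720771916855035260460898878578365770462943612913967423456815334287968826143128931612791388545335167527679057115103993629699509360283999994922100537956669822934198489095235776708208613250184215983912938128444510854999414733493078496737243236177180750008677110159666524828728277222128677720931612749563165428226496518665253139430506396484081103463898017224119597007354133820615276869717303462373369926455406413168854583414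524199417762334444287081184194165190039153068554257635324438078166147468184906142429337077667983009086598146563271130240641721372424468835958600370720586439352678022831184771833113551318432458562498695113758920048468415830115581907386731046885415742271257056522110796880563620805389014362441544056412989973708748365162377199057109932734843447675391253031015861022152476426361055950620833878254289531799142563823086667891063084088499786306768296844327531376329228477060199886264018194843173444839859457062099810949371036119806522531959928892385787802513833830197315457241559169330297747908724582717996491808408370202707937088272889994918767373145702420754938537082532751569684873349401693386785871123720173667259768023303379188635982740048015471704410789847857505366193775220019900143608526513124845560010997340109050330616295274140473711549032696095891237057284866621766359305332135849639421572664475847048487923285755619329868282905316278592941191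118298702263533505571710169810949874310016842538965578524011110272346144701336120924565965762834335992067919522196335668235251257795247094580561832156292729496276551681796196813033970945104340936157442138866035938941316662683191933179345736275723551246916044980109006398839482903942535060022056152018000768857774115862096805766893867841185701019731193409546298974767813637215765797774428021321032817103580564696098654548482631240974205012768824002630812138501241238406635874846504980331435036311605310501790269790166384877823947757462906141928530499612646401880480495603452977571414592525351881513929643083770891668856107438259829524433170493022337116554477836420628671397409196295228219888493068695807021138114450734238626471034340722415043659455751855660992160383045809203035809773638878017831954384026319894238657803088912043396726163710449249064636697531139594428821095506179677434016539221559514877737872797231995096294204467133327280192461144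863559762221685292372306680601060777474578674929159312793446854583654049007084477570250140457723240912337243813512506470624221424947522417497498407170679590712753427659282886211424650044267804765781450717558352545522138391369108618055888965693795512201234374863568344748502583216015752035828428418362132440883768804570798847924724282729561107424660300855332348235533437188496296094082625186627897505856376580528975512156222975851523103612744304867400046020369948989742333357357118368807645025940722796638735904320063569875919891534224240665181496876129660140963838602160366270819099480340721413915201278554121172893385293602197347550464927105910299822227584876269567719590665809371312558857212342786625713666428309445932026740155126524789992990682115627598888263776614063405774934827357088318155368482515215188587032262975636204515494933244441600386921891033491235256838441296990440023245120948956947653777724725715559768761665887135554974175240801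689467994502974500892440381874381867516758425484076603037421411791379858543797140376706776725237159272604100972246819420869528297341231124941674116050413126198169927790191633699740152521811706293025266635693996255338384296287246475431911040746588141508184622006007512923446890900950487628495885352718314308313211707559806310555373706808909065603519393827631919839488715513532687519085421091478250814810883685738164208502748281687677552444836843048407200184990525534684586516325685614981291177073096895892056767697916532953441849899881295864494130671572144288065556360404661072875117696976686199889895686258348201098167824592439432687517101507326854548420063244785518710773589318807308077833165126154119598165611471886343569337726479433059161616980573371714883744725917245440460465607955826256876036127072413661952380900067119397342821438365766883384796137110854994352690286396070161629932413651333014356476937978057304881782261398467003230011816147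272025690167895030627125347659382495486615781276270982898435590323385972130223070232617692832180020338756546371221812237142465453429416639994635945856012053749639667317683823569911928565428128356608100048605912392257853193499059083060780480600812325544275857734860794718890395531469799077287175509171755524934107900766189205093529952985576259946212053355742875733715519034738993562409604328998438489451152640455540319248778871922640577284687062493349825088045927125076651532158937599342177508171636514399389971343774440578704813913392822434085124796143848175198554798168313338126444089620302740066610481831227937735497536171840385976987266224519943941266041673119353520565710511206774080175303810037096567846561564022409229207425261196222239247413184595970821635028865814956646140532670228542218806964274424144853945797801174483680921291591328251213789982908829986045053690437069421864852896051713114571490922110040585973572701008538084648978213921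822950415353154750726228384439695766229153857425560182063757094778641274849093737950209236436798315923612353336087482337420507918155675351005790357706042488882778582239494931634511979099767081131825044876276462175400324527548898368011558927914553427976335250308673061252339618121004638572439291718334352044865182273830084177292355621773053774795203108987273496456495984792301124004441055991551811751229477722288827624228847817008987014829714304967269230460334984226770101078648895249594413685212916619344029406452604663448938018347679309385992190913667818672414857859012447329614287437088436570979346097311893794254623791584419318748975746152832027394741458515192813109772703924880816280666809991368648976653351951782627169246223055749856931404955657709798067744138227858604130278888304184558834826968286746792257350096722900679759341887282271168486293799471481311970572475065221119033022490799647888309060031467006482030001913444704039831723618286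152148709198140936823122300945695811980295927364467300839170618756840928814298335471901209777213596353881494242521100074503133008288076383753800064997254370282434764892066557821771063683638813145439896233186748882903633475343565448037132339854980087570321133582815909945219646692746898565403439257705356522683248442549629107169703159283741982799874124124017487208948412448433311390668464598206589457773568186624238210082982823133293202422903317379650188615610093667414008418656170382864856123979311329834660409007707248326745806562524569719538642873655602867525284201074297588807733791241629524755671391885891520186281277913483647085720944056734557577035236851747588081088878505950398921232595448685371932828526299449902483111088270165133067834678074784634082160076319056084112633528141836360144754507667533579752415885215287718705953865271138364632558562570623336432347977838849910125563319586766094744654028847571407901885967906186055647786835132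440982342951080937621676107716599405818242139529064425368952373290387158535644302795650778068005723443858492107672032755353519307878093905545918053828573889243299254402580455264871424953012064162301552187151732291830233127930010639680098654157144882105413949814421021370676113843929929038720296894445465765278306327043068012489997704156809169371608807565649829686466940679995693980262766442347309698763860189452089586609200449949051658515893288142435881043495794510246926322109961576801557030627019185219085811935108873007761342538937968537283671357724557897251701754260925100771895965855812394981927259921786386574617014166847517538511522179666390994803299996452944415709465949881582181812816897489335159037354337993992371821388653675352098721652214973552458865369008110118971396958179151686053931109809526788734595624575726969446503001280719640406690745439850457960416024235872923422851762973445607669849104836662133114523709986930859309428567223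183100559022022734427073657670058498438223959713788704621248754283706450134848131981456946003111889672461647745411246701969682950780458107084934498080254237268166235901163896892446284831420171424833489869587093705334255407956066483759203357313383780891766305436685131151513177533037400696160162784152766914502061589723831199044657254789691136661179218205948584698686529967541149094311877861149815544280384056510452427634661650524191628398108915043089177376849448932232254292683236552873817716076124181274850747465691239231212782829412896668441141768970305536)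

noncomputable def rc4 : Nat := (nat_lit 252688018493920012579346352591723828684845362860233153355986226859131495009692463829704949703375736522476186667232473540536231580611364760882285000669943345764912475136012538799728665474701556106382180262805042016800790115211166568547709260437461476552899738916399564528004702562678354652750095112301297645840684968184616363604816336027862506659392278672159614444256427787362888181344357099592169024877162413949000628053731521332191350192892311834081576984802540040680923808852097250689137648771657733293147116554263166165844415212305724251798603044117085721978035148714050223757988350893778930895454004711257715258934195633510788896517952572904308268347266287904877310757275713560258448271990741766785155290259455887732312844054936143481762368357931831590705000481704495271064743718105044064221218439376949367363284007504839404510587987625172600133104995247081925520149326494482397547992258080095972641381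694940520063950511068366102689310359842036008240111859561740252740497194511284233536628878245874601574954562063561720058516815248931644585533639581302576346933167314980942085691850789520183035023774453341190022251587581213780891110958177674160235714162648506929082677421491325611807199651134447560133989808972933012070745440870727683196815253347716929653446910623376850916538016165352940940106604980880811608875846993031472063394865629451406890749340968775322600101046494620713275352069410826175276928887847113064710346459499475291864463607015176680070289057082483417640007446691128668305215471331525120771165502092246242220751149507166016967557217362957561934572095901086775074230822705370730299910786566458111734196178252300359550211267250460485333651402330056487097457228250046317073573954652424401346546051127068789608111954159952428318996383001518446455247377701699733841612943914650298842881458007113441793266398057840165791519431351239446609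088706733228188083836331152192801390341920895166207848585955935657948942199769548377316085668074841105080112592865397089949699163491199127026768175951617053939159934790166368225701706737894203676287037118084292369010384615525517675626887045136439412050912323242398043200174207906820600136737057682884622126469319871830689991339038141986156643282391583389772544312878061577204898514868831014809756668147299477614154591836549621917666124539919647245210689327855745809549895843447352594792445151504495551355101116891079637704322128254672475610943666659854466894955750905745184147892269289162343509895185606423039861787904485405581742357386452200530738231852328805350487319619275119128676392162498084846253991439564231415555006016914197119661066013066537703572708805416931951241896545788484477453173437986282769315002659567466418135193468791858849423409198295540324181479094147322258373245066081091354290679824657633366027442394707417887811133136067323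743037139152755967565998542140895543797587175354304162842032953025747079315464061200353564505518603034155541905078948524837319123360714815432238278924352338286362769073752639961509217669281393105787455878442167963841860799939483040881581636056400084251296396447040204321341765782251022991358428803830929292786731858076139652502531082560633478511055911753180426831699784240086970085364970562442617510711517203669063755062398231655770260878404482778406630128609581332517404994401465847623916154302887839230914411272871294142478127607332482684290295603595798349546045572607612537038734823391079167717160777426464948268603527685720691684867922099832409523101818132770259787211682992709462210838793066498767157326444354479211076234773425465108180662398996911350974314632593272155972274644719076912571737787343586317158194710032997234199391111993226584939554268495793164268927426554943732331476105775266638865242502818441980590129403378757297455513677199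614185650415541818891555885670106955634772192613098923156111927219718280912779658662888166921233744126470069762451792908736952246139315644673512110251997150681490444381030201865983423042339331939012941335949347437969344644015279199549907029145437810800320073631503206687318728683186420973225110823758087980572704349715166123793352606950424438199837332024957270461538073536927144034703030520972300491040407666953100732492108045147704322591218726742973233418103856891849819162738325237257175165443596287767121884515663008140386802872598328890584667290857469234018041790494452184773499928470096216604638879657935182397502622417668348274594425602129368266707683509945730448397031066840140946704436266908969136194642821687575882075375795548305711595705630165905681908450428500664158239229425779736692015116256454826523730278220713262701791312696845073473254568457179802980330444515170329345150835300288939260804224657892425073449703505953577657314349224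205605183308809109148060363098429071498016043680920687858892158476455691120927304302710596393673041204373915199383307853418490026267851306657765803468563880965699176767465038215259798766127544717210613391299658113862886325661867770954980092853024749079768123183110538187866787800530997578660439605594324449863839049529365918400339424614144425472452213492457568887381945473269535745872878924176272185460600443394175873147747142355286037688650162600290160438242492464990009522943514517157891612985231896527817047254701433059919060359183661449642050280824580227540878533409504165633360328278120603230563727226345462100356218438155284573659399890400489106633529085439016547193651858700585304488603743030941406232063332414336546755167073760697782121568924543025453171515529912856573670787593331096161477791172328848405070087301488546213593604878503314004851997749027185891805194492861542865292222458981505141175557916586191329041497783726863022931088385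888319183868777061606106108261549375903132504852487370115471505814215953741308609620766769906248111773822085935774676805289827854146052383222004826826573699394639301838911938854924535200000623403855665716676947369410361645950032839975851428819378704472882971669192101868247603345298973498846948116834974617462493240649304950332969780271095664855136038705720481608649272969433157194473440623621821243456589641204894336085585533080968470903386423245889894766722512730669087314177055045504553463496967312050172784734292054666024809817096652947925528959326113758660850692158509772463855057742851830352027141607525208238547092238572723431905795918542942122090363658717992161746071794431948309164667053338515155693640263647491648667829094612587680983545438898150040420249748341593109359539976348186522871923961462404468640887036476074770391937708871344105823836407302945777800456251314388128123839397334422537555711188211812946951609841178965248136877468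959080654208158816543324836573780215642091011870139673029054838450630841930476202855659856185332310079645371960982880366479030402365908124430037247548109589195513424504524176796655902063414781268887309712224087442765626702954072259094636032679810706606021374517139476557699450529672550755556972944087719238747211306473974152656441435521172150698084576144447841402155284749005679590522360582778432586771132598764673713944364414134544342784389216837606042955925708718032766436496790406177862182495386847459236113993004275117241472624600921823528558321989459666883296958949058326592484945530017439254143443965727681746811784458452348865555895725549263472826827329660251830188233566345633182839329087242341374650756623517570411355319855369991959044711805554148224916246759590842086423816286294671652908413696171660754137960510299844573665195280606818425694613065492823022912436423047519941407390232048440256636442998504709272193361446222362011265321053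982484938425718814747070514613401116105652912182474571739708833385275925354677654982986150833416616263768456559780374062862469214312813289641378592816109990387144062748691392207896151309639808437656185803365843754380214506690132017256335448263328069496456540094822651893281460595906351971792283132784136315227189077534072928199429678558802533540504617894547050978449143219572458242269647290787609490785870221026790516463458629806278378943565332254534250433975241430036161776018688157837810477961487429658727577381927681062484401685367352281938852537892987581145909925453837540115791229218266196614130699301088897787567506988466263685174089987431963548236883838308700260638768440281988138194388762028668863713434030306974432838607738806757387070043326832134968288138241641233996915257710200573299962055089571633878460197609252462578160361625859161812650752541941719678684259047107680707248859358616287118446736942468663054916611025590807633437175987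084211533173176578270142044070791526721916245658649279656489013391251292673304422525584858022651105337186107339927614159702447417773697436861944457779004840375362419661094168834986788490809870158974275961547748305804626893680855271143761883116731470771768895035644231092526128298903935910625358092665438845664398840846238757720023042843172118138694879773900959461716222173028979970084746121006982756241815749632503413959473576053821785118306502156270946090789997323688706368922098434659876056980448499191752954435969436495669265962608945174646424230377034029708543766280090362439013278089856899504206304552811632838287588579850480106099441410285024061556218631073081079434283276046658805751675262891660977789013226642414403605046771656354532934444437134010774355865551904961265022464283017166860338957422643781793297708659699249202414388085230847633471948092944517878576622278513855720078052267848431928438611522978170951602173108093229727961684801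932933215196751221122677604827438371851922165449913393442725464500806313977822076214740408535186609368563626771147619777266188889496660643470328651431492086200307351111048357093927245851019177944402431357546224622638227925772616636944502352754818379731173415422810267345873076002280959406389311358862176031891177097003102551007323368586754553819897640429821877671013635380506587636604404984734236487291839285987291209553333412682380185658687675836435953260106578422249888184912407895706190640159714768481146918696341613536651507577874065305604039372564805873387059147502880568258777647858843076742609785531093147852909481193516855592991879571677027178700152940101305056804229890275400087675453989376652721974148801255531308237543854923450326914765172660397365466881295116653457645244105484113188713415376140764142295228195938077064566178367968254351911661369776761542079536985066414319374934837989675156884876879207917722573837861322888006724903043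030243587808275659685671007940133690139016648824330792143366752231338454797121069703507683178928810053720650715398813146417901355348982114250126708399371970102902871812340981584928502285643575297920321090991167784730031207866721983058884130995414933556632067184495250450890698209918419411523693036872754057184961803311488400996106126916519806919859323701564241951148295981335690253816509307978045577903894321959110293475478834745300163689861841996711765016016029504688658908777678068722340444127784766177750151224689630329973161923927308500511504007607730375802808299788133484287386761651594282916209858499553315820289617584282121863091041602082206045417370703986226763327023284635155021579594535587904552266809968475286508017394602548493691089658014960186534779040157331159583901142650593507498266009261688666176358672741492930174272392075051257465533132742232589954696838519442485955793189398194075701904605752096467214527073669447183350934203471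460791221682979058925128069633385690847416414686345538165950863690995532277708101651685737556867047779657642342740631725808495071675434684080007570404079053237039885910244707038922846400431226648077983735947774991233422183227902115649142567376964488787151359795929366403417591469138920406047331925455775020456616528253778428480315623754183629376954675117045089447007388156790575358527198414020052137351270703422645246212177957926057414843868600098670992974022792597627989867397236675560228348727443043638522108839198947311678492369125093747435016215296504553546242515735428196906557679258024522113587193395099748049937409792759716420631915110173624600518022934557449958468386953394616645879418224610057908394301552739309941161532052755410375959516380644213284836356315595498730254671081525741022727049002849535058379050018747587051027145216150038001890820256201744624649042913571288985909592798277141989918387393410544990929914945632696064035655970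075216727711623691385481468344055375452340649216371112531208649159064474407229406086637166939892299405562893664925140428900508583277448376304149367423689090959984493298898799321686043959953457843029878181550428340147478174130377474149886926917698307312251402214111673887720963433654071262156248908031406860990371570708749260361245427151934982222586864836596487822177599699719922942763930870237983867136019220072809435506458582730974325705145473473407910358776612310939343696463569272972648350102765015391511115968152303526321540026256534243210352282101141498062980611602396270273233740902462735957823281754109387400050748944294644549607006166163934426448784228741911542093477400918267862167044096810940041443452378991960008796622102592166289781940577610935464351033707046053814257327867687795117031369702961404770961749948088873640218160396163620853169701100454657665889075134208923462873248382220938072529180512566329992322055904600829119215067156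038971155582820698250883625287129514561703083818573145947038294173162628992433584080648509672289794762962670731149643644351058778638491167620073465012763781393282161120017895395205800013749313708423745947041181366403550415187596990483566947775282623935106248754388671064194314559424099782189786953790045533708323765174917443263282427803958751883098520039879777851555398720305076139676383291305166866859524687088907730850927363825614808591007430457142104535590419482229325502970774329701036317598468379472954658943080318173521295956966825669011003035285062158219275075984622242027022449429869120474025353850347680531084310983465686901591347909889749957890484305126687086628795699975714936885919935776424218823016614503419419529765420393719809501366111979871141410098456903132528229962075773239269848850015679558205835397936506012041006875374868051905360888353191168018634242790222961249293874763066848373463525347390430103003687861974470660832428651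801772259021012062876160075752853203287146681808283568047129513927686809910083177752040653981037920295334000303889449225401447628353228900693190255376223961229652422579020916882050532921114207577267956995526021466310296184081539956641131707046885883556239027109016359014458979387033061527506543184807674737656091372360191631719141680880219623405378247836595849590681625994536239069067530141714320757825818320368356274267933227982365229701606970617929017173525373440226490797887811962448500806923901950826986978011823990305257909536261977380887881542677897683900690253962131306692961328158811797593778759255721948168913537420161130272910164025923306326939245802539650821754328211125774008827388507090902488040731696917440116609675955262051523178181824772234429050083467790694538463404739465688063749473253334474191642776243849667469975734617871764417942140340125267814122470032231530365239574367161129484119692645418646688309333975942388443883063574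880490910574231778877270974119060018488414175230940928149882191800271320664505318904489418836847295075731134808843688619785256370421275191971162482684132925430195769413720390310509237762419447530257782676979200787751255820595445595800179280741409587828270168104853563745664336528698897555947043211890614230852597536202019413555649391200418088660680000621164357892023368513706938770948586156763814173520129052726400560216106818076117781388391403493022615165082337754629350136682197012245700711176894812124052741878724385087302209539529362683533982039753678109172614719718384822098436062766067035855414094402965548487669006160397384019627571864497699701109644478574457758518628140135989620334180970245612899599449566234233209840515299520597793935952251806353398717296650978092773226945171505015143922872548984017478141879958281546407485103013014055783473867868779727209895631448704663455509069494683593617666879342385418940413841137970930411824909580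714187604812751241269046074629067245675064456613114013273794469609962086159768876367156588487803257906713447904016998327165635736806557213862270824128864358503451504498123788223491170143039610686917310068932366108453776959169837277392612870085959764786762312397667703362078080726611476636477065210044904732282947790524416591069537291612987659411434980503766323506569398474660883206897422919353548684221516000101954465285054617327791129019709682649723161123865089076577599171261243035742981310118693824352353870315802196957266543660649106873464579918003744848539408373908441711638232760338220468223148987622983950915779692569000564788473150722856377241394542190548330235739075961011765586714188535479524245443159900290998805879675635261085865125815534832606538806130163805314918912058665551590198763472176953631943051270891122309001543821446512614570256566598393298730041100152777799259469311411856105375609818235697478263409979600117332533343550582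628387186792285135608751820655028919288580261447455834714597584299614367686739933665064904966251140379428411137529606032801220819020712154510414204904346493890922536751565250077532450675406919682277604646185913556169578561374520536775964161072657627782455367455653546747578431967247549846729283519572096593922727840683802853618244674020138155021472470957892970692142041080533089920194488200427178223181669239351698344074645214568106825382148270297178848484041518578092747526360091464788778255633142840413973304231544286674798588274599709706505001660668430903237064485692519476117561048482120365803230039498203317933267246807023926444943587515097760797745645984246368924544395638524685280060105112339579624912743318681178706519845295178056917363578261609061425533281743936898332508942401276607471215133949465776180816464790220857591786725188993631127625687976220040258782130404763084479695934252671688471923234958443187136706262378984458214424764406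411803722775036847994359174526284186230539163283200310933628532124369041922883501028589827776887070821820599073651386484311097689851335157775572341542519900435025709260302600023290529372883081659685560775067936260341691515737332483102681557159668186488550566158807691727493951302962984631291675579346328751714693775072116929099995047573617195434190462386353735420741418527576631761347069429051431436222636165118902231035444913153576441729373039626662163953384503908630714655149113943206055212985215330263217374196645494566329705031314238989820120023332552704)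

noncomputable def rc5 : Nat := (nat_lit 253703998674464897484549268205112243229722878489848844113792624225048517633702491657306594979173813729295108340883417197453851412482978865732531558223574035369190371897757676170284347470679687518446052855415175706960773527373242054560121975191950999832537666766105246756607109502902815176900888602885159089438707375164696472919058617595172447894395649238182305940388362702794469624871958019336789158524955809722403395337949960587050266206778160268617336838443677144312473212908456536877399354252679920770555554725563466415094689110321823595573441590639370450888180702538597567478559749957715002727801937245311313000270837502363471392886117628001180416727522677779098376271215006130212396893594962015465345414419813302810875080932689998032435112854008759961542692253040741558103566041283221727428991588345628131945683018988230516556586722867519143606915230844396982855715910190930765553964385377904711440742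952301555428586203682365527209366114501817564529235747539503847806832143383042110607437802655034791245982368714120194646093480186095549331459861527246822212606392367908138489920634055008622065801779842558399397069571141538054453409844392884858642629089288980768084094488887227639503496237484469394732106526175506634075119247767308149348610211291348376425868031580651712039274042947024126540650537685199980966415784362125691282299983008632835073371035724457895251397469511086819986590786633942941946393304906894241137760057910232621801435833026938745209810248762014489557359229902163728395341492027985358596149777809557322121904442909624281164398125793552787823935660201814067140468005483202350717653113972550795455295325636927606791947789857712221741552310376301018904225588998566975209190767443127459531087621222054445604977686358724179948980554102114867203303839376012319338152373933892006468435654425055914408511639939203476456825922889104424093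539925804742361675144197546638748307012745595604132091351433897763400093192788231823845000880804280014120646566980045387356844620980423973914037298683354154144551346140432562508627585346030938004057631813897909116683371625003893286886816210804575860085253760337136732007618194467470142370239913647339727844014849522726049615032566089167216899878683645160683438002839203565923298453037970944437261183839807700307946943291739742918381077615926310116944685227681873990027816547175381124641647600814626653250347176140736071601148703469806692798231214763737114492053509334900739627647292876112009238069880894495380634010126331073670766919039729393849743589377380902084871114540001161629601728898469740423164881758942290520952303308407860996050894435468749800223742864697461510508661836051214623842785557107835094382438639220201873088577391208413023680285949597101194148488551586763740125578447984789324535523654740593429267406927981713033033955102305352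769350848405318252114462165371327295815805015601250031088597187394329143640138980463023468288741336074677628821092049069775929599643281473786616642370756709524358705240977414014181358424067087240714486727601065413548626574406861368903141003479737671950311832799344715104270591466126603942485345752310855278208429727049096975694475702119080360725579520545973267679284079232863747664309110242082251916807170472075128037480097937897947234059876540784832685917800065426061019512663301826918271256277132019435952711862319420340094430237552190008562267298152196505475665834970834538057389532586946496495438111714942175008543263953291604237509109055949104507977653380590582825656833698767538861043715286034396855735702946064404557301503929465464869117242935213609344890320011196794315964081961291613242623863776372478632422821878352355007605355006168328143074359617262551618673683581268828682177825710680548968387397328306572869658897194146415337406592919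101492940427345869663593571641253860690427593569647716341485099699778986347814294275177091596030527510303619630760553732260753349170386130692095656397320630373158872864851529692162607218892749002573775307222451507299675425698763115801240323443281329771793995564611984630932941948333900991508458878950712119542733815532099395951255793937585668584237173399720437548559380893935224137544269375834327007633434271216321478260682388001879694676593478086166164413524297570291369168465898393171781258828216486671880641011837453621309349565207113656437184907098491700295157388701210698375490280997402355270859772853645691773165422628756629035944810052066148802776197392560840567027830989651651163095689704292432736749986592266683099651855064351689764571000709787652704446120978498347448717845737030583167425749891246662017580554967273308238755377219874669684780477624785065928827002601134341863077706218172652635311975686918877382754676033515382643530759401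490053929746898661237775372016238010406846918451172480235558434095249562253130289218937198866643651211844162512207351910228017544369086243231686632944479007356938925195569395391379642470009335014495764087348957672257812908222689552545841755320378437353358718502267641715807893862383104113864195397025691538651389215374482066073986968398637388642427663426774438931704404574822489532956964881234490147072784110095515761432815578136481419584561433689750698214375564432214683679002688370943831432134479685718839404882738117002267830344957815825174062834547082844730070700986576490198573195228765487431234664198736495814789565517189056459080194343819851563463307966516390973067494838975347298542684384528944876866847385579745246772558134085179287297485099701678442025770324413217931753268936378211428266402741610752655846109751634794998855885031412796789546413510394808561520948416983004483191344044859985410071384316617870592506776396822429429131601801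071141215239559657266977059351700516760441414838695505894178801710432416840037160328831842810560733388149758243693439946513822812856724696869833582595561603397017466646081690321869738435136767717128979896811424257580173279871689067513818258122461752776238363419038559533127789497566162267172871247610928078506607286110103619368423973358661569499482053538282356467503428692696517339893641135300293934188255307147023914206741963850557006439100111028749343382460676708502872028673025534960486467793817887873189949628443855030450224733627998325748810294432115853048843723192984620263929446784070497059492173645704499139189082725512242202065927097222860589364403800281475153660969895214196456600028990255535168783182188557470915907429215475555742410170153754083415417098806143369687905000245561664110431764490581180834337153849428153807831037799944288971335969063229810872903022207340380255977593708204121168718352411800778202980708813278540452682396055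963403685806689601336679406949540428778503786876038160475426450692725554370703810352939336047543397400180577519010048002822600904568113394464327235792018294757138505479739847603648848965442243196632646930280743785161340776366585249403638326171062786422551907960220238593959515366100917423715771129680649243316725891726714294855811126702372906433591183073506556226409765260510286766143882815842955365192923954710210561746312845709500554212743248462046557045359841755562870381507705016095224855268356896493476872374221566814831560634507157605732290194998001166254347020766073661357610724855768164994284139995840540484297130439335072893744816517460577526517724453089364126180321502521583570137717438687419621387962554521209424943128546118767534702483075493919460553972369211867366765802019968909805846029173007012169874409888422606672002234207422509758712651416033282769998211897307035223247156531144516762104186304385739473519743419240731002288740355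905546746136275496770570002544640491998929088056482212455752768256716479950352547525888728085875363272524562188416678489039523450268208477125982150114176405575414471839995734747216373650645530920610960979142613979715347903760455856038415084804320669973130975974012856171482230768733919620589934125799552546209757725147385537584997544040113527714540103638324743500837717247973838226506114900254925023697387276035036282736757438158131419477344936516232660503760717304978999623062302300683864192564077369377859490841237615237930262958702672407279114657319691007648912500498912217687359316421235137316140452615674467893305591822351022296637178136126584855366395718036900960960916168714265190953138205059091943279930206109831595261423270143843734764013403572081084804792892467046877174952243458966709589704815843203205632330858042084460872789347212501714547454020682951631568384050713546004806389426607846477583396704961028889269957617314066777433202065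241440148251548669114120906852575087778293534229138939869192148797308668909031363688473201072779074283398567810442060477660945539858941781523037514096183819561660066136937667954434984491120147664027629790398085588882471037818462856293708517189002545869330659317230562842477296474218622084778866530532550132583203413880657627514006704893924720077393618845258598023196738919434434555293052135105337199091283565348041902296388084232524807474911401116973397300316265797851195441200032063947128831206916830861393367508139855011473422487549125082536076813388674928080558913729072621811519684026571640609806248963586797211299135314424445838903154106478226748562340134895479880175666892677374792280387148656593554692948184470118294389956523206155115350650881432204549290887819479561153066268961210332105634242689577255046716450832944424651103430897550680706334164920717689705406354652525959525126808883149048745488973687584208388699636437110674655401117255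431517133318246021851367931066349647452856914110196701585676448767698190698363268770829363347359240331933159219998072564159773348090529656107418804527984984869079636791259739098920523507544884228246388053311166626979304540967672961612684736431710269139156114184768365810120322616675711348840360377491768089110747744940405303009362698223342022511709644970227865895992085167893534981155464931123233700431939910020572841376733255558977437041902971310383638938041347395425586698412642239842800740588443540994960158164736339213578054945205319672323831708544401840715769036512038290304353589142129761790962834656424688640157793047221871526172000820936793208168881899239949809834679594225080691718622439906444670814972412478741913606144723100728595589463370851765734320862295891127691686692589863027628548637850866550470957550230384086862744555648774663056322798200355192698659147125733594389800111026782057812985297252464429959019013410503370007477883743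650739015480182307987895897428894978305496363435749182977537619759669175521279808451474757794719438453955352390372323463164932610142949039636538728376405415092252755460182670031907858917340389127894564765403232461407767869963495409056409187767974106980758468804916050368156734871117298799495306036273599083523289233258491854987046726163346791409788098396111727712526726172538666971666303522631841984292094320902742823843953329204483256229737599467620148802175884406096226200487474086153621817884323148696907996264144587144084008856248100894775613300407782233178556875401813141815571593097960671102477894020304068331543301607558914306567106865258869551873583903093615003619596233119326743570563518824960765473979738515015795048161829593295373523959079019674313658879976050406202481882237779074588109705235238287692703684968141802410583274043108836687626541000024312419045324560577807845270471062569513016479621238816782942881575809272364464447323481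355089807675739326627655297824950521057651701587345206106539799908656975136829268979514569584064356545979125527549370526933110220715694497998996350160762934155731327425835340106647697745023450496191228952770963147402450344941314168039079967332986305027008709009231418503196333882002741473983293147597416494473908874280402717245988232022314758015006069902548454289640530762024309683154322968430256134458999481431059968100229971030900746426295856796323731375632875635393727526982404397476894687462878830073724048071717269950201477884585220862509288331336279685407121453255102281681508706798455863719129350419728540170985761299394126667810761970093994440591045716841515819110644941855525751809843156259661834065600786366949109945514646851306901630782131658906481594025028820332764566573805998319808805859112695982908235775831119157777488420007531344108103815786812711450173166923986525631518132344097698740050608812534701218351801118243443922464047108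815852890633954959820149719592370036211424701039563450806453289901733588099738503643844974483847177915423952822754817812885081369759655073856606620168825674848469715055584368616306730438601321957740443446572106317288193543899580249840932964350878426260417396126813401596497190339597996953206531332333748348255839905987799554844899224612397780619318813661069351871699569816020395622416894233397849421382203187306540166593908122039624700184403809025248867675757382654504577766114528379538004535564991076059218630066412521461254419820441645743496125992065942342719677790491397717446734632446064659921837929617160737613438995926136559029558563592243683838620909695222374811816540892633683279704095117103173785298987434637913184777224095714830029906874154359686183677182184009229267360743477883469383442005090828038501553013434475886330780818737399629103530243728016482511544704841925249404616257724672836265255876949073851314489866476831934149656117533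665078911316950173534971672766214922595420867911000998252505747844170083544553560715827896204422080200941836472072096345381305917413614033199618594474789013275592305125293726360800359404544068988138938858453437636655451874011617118601789765097678846703095468361776360424989199451573492807959774347796135827294322895670300948315163421785465963620849061765097842807078812947429285458029195783615292683318784114632371760723420592206548226101018733556911324687523153842444331132987845754938084080544943835359078711387834734567110754663339793846832771958077633614513100745857623988326155167117169146654113771681333591109171326445150638393458448472307778897387281281532510297171168911197200222873727958119314027865058178132786730930425813085135266130155790836027733355300429135405596518434354703547079058426418514620351272697061513113700230748070960417771694895127798857946453184861415490890763477838642803666806022852720615321011155563224271780248532432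305319389497805821561365308852540946498384380213315891326111743905528112900601522266969252931583565290853984598406816217353964239134810723859471283834968027490348215495197465707143518290825195389851444332170926118577439709895968825185651623127652885133141988171117607470588430468918782424725496036538759225420501824481230562692992650654656388477370848797221111768473605386177683588056167562581626698622014432192988221542382371221129014184462499439893573932065083077679673202214944566820476405390210447662888390060913208010935510449306766224227070497437143383005565177194983843281405610660581949274642966956307479924632847736104748000680772986676243052702115905923234495583878123385306240321271892784324700576561008963836745894064887592885219606706871158328064868111806479427071766377069156650231281649099602017652989158459143618378556895024312345353992806603632797756400616011101190563441190957574317728884193497229652212128328003070672138040759897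846043971460768200459540442034799038427601657724566081481657354406667381774568978600886540265240299227698478809538025124014547893405372184824196182593949343356653484817486280412857436359632162836931349902862487578245154536725335657448828049316123897981072643275508494765434096624208272439398771028294988387486526388914386964442045692563093121331827729257336584353147403759930061822508391540214499628741003326449319025123240958613870193831776414455142514813874746896277478254823858462203358236476823889423493409085688080879724458698800452127080004730397792754229996982212893273385207938585616986989537714143352157235839921082793357344918431141565998445491912754619123045719626453705857380171850504345163265895771838557606320513132675600371256861476776719094525752081361931219168898004806141087757213451014515863043633915892359492679089125230597315941627546041672490569194191047069789797275706627297232348965637057219554008661031053864856787390881920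079317857454021039586955748587311201764511414831987420871439112341636709156890614028217370764719218529062006880590278437820474118210715102345274994078422315741673674961007848387465065807108665253171303634875386848343844857600654549125078626835717000902720344651239481677373782617302684625511461126229966187340359167148870540704660813158946578954517961962894458128858093592766897412824029834790519100966262266201189858470266807458892392617357762993962583419120827983492526816033908320304302061889830848251684398479286764081291158844197466059064175534401144936812184443588121216161099963349988039491656135280770294300795792543546286452126383502031356736913891807533019609542314714923480653794637613248588951578500389873508908879105319568475120439045443735999452533546441119628194336761459740094983032133809461500555938075361674487076524259931830819753023400346037308539785089929634748627723215539006505388503233547958116704890518931716822684138082085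405385904623936345154024161906289052897088463309654203893392081271923170171881849646004675926050590896558837157722834759341262561796103462430492948336812833422464188949057924088301047486871573779692607972743827236426458021495005290128982674013180078247146498222636066971612091099960788871548594596908384295255203060267017546773349625974959593199630189203306591865344703208579852434733563493273239986658371281346504652223867871326877278837106256970569319161643719137061653842944405760616179256015188750951273192603300735319573130152700226165499165640727878485442686852732878726636093181752203136828833330549623967730219841251169218031037226667964891345825602623890297242950360310268623423331090447427066451572847530508502251518087872928595611124307768194739743142882149128768709877726325619191338550424830614243883435313260759750013252898895660293751964157171962648698831775448562963981203980084634462612393630543628350898678798764303352912503080935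926867033265966812387806428127358189766799479105091210511893234317671332857825035942494647374373239753409634402466768609165336142937710387125826964717030137383812376543467646891012914392731870074780323649291427085766763121199888151912355241883825475461686459133065915773505107758631550357014723731046493740332006514590740368142810238348831563712706802574920005885778379254591188460641329797798037401615427837639593926497508824560348965312804702791834881845436899879461078136441709505917111665470489051396702010068355228548318939396486482650672203846727499776)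

noncomputable def rc6 : Nat := (nat_lit 254702712574482861041986632196743021232953207562340876056978523568544784269363224464257035436729883489664797969841615862812507104795524035550147264573781663900825129747562250230419492067926054744617238280475316517367882105601472479092066981863469829477511183379894053070366092797890412579379375135723033437690504930914125513356102653169274802207566677062712885623718448645179402508502756640163386491716281047039669789778542079876724626423172832365922892784260925829211823267434911040970582071680758138184433166357618073932501880214497299813016852665456331109649690797426831823153708669148561883219414240070841834344374473326368076620703352880901994361994505655877514583387166229460282201049322563473052180859505653208870678543763928696953635539270806920855472659726776280439711324594773796445726054515238579749939929082805395980331736758809103054131767754622477328900709520247242421260873091093455372635872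543057604547022645083075904017415461698330629462479429324797448609489731475735974088352039239394859270856668406889454652747763822019974367163252781612225341733053998201742081375563129348580387733315708507848358054004729315922755704200144933611516530400024907822563530465998298456246381356910562013192156086749454829546513488730779576479531661768653826887516970313505384698725359080823974964914472608431608578040572243041731942951263170804590631942062212986638842323785782352830994397953240092635813314006300038653431270936921888837920584658648397244637812466488273044493064167892870102157226618749888589268694136387733426967676133757364570216662012061462835359376111323054713023884940112258729548730070610120144614963858778349445459974354565281057236447130640005097683409233572431928029689941933600637768518609578975268110959049321369607509466329739309401970521730205085066176950322965241305935779661543603047050690418814420547646953025540076516758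331640738498832091688106499449306846829502769885921492259580100989966139221106113313700213406059738411721448379374570482263208325767703866957854931214618259817539912576141492588822812028709127807025576405813757547844320011291136416221108628191851950250536187813376284001476976388049908546373405153796456263515829364768959055873226864956091165732927252190851931902414624626973909301536148843213199253706241073562390981731776266499545645808302895754493210678994658810461134421285148807561535860291782003010596109801720852299456384440503543571238581846700289579125690343465489239788989815859856727401583285473349974545176254991806294402148221171353749193706152864825447461412757053259020647746973860838894721728761915504687950147522453499076799515170660742139564486238312853607368737973416048627865236320899906950923276144011722615934907638545331942722760070267049937700376523506363544937827423843613646739810796173681184945496003425312323481481644534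932699212116805672333419545712061978651201610731011979002643536805707287666807724177204506826225676097056275299121146883584645250191605086513332235707556910357958566188219656883293391684732133511037637281954927176882643671461285303524164467985388732091967960404364369458726390158418397868384913769728329943578925511099867619811175753386496001721171237022166435157182011010264278694344950035659721474878330724442982691413857156454041167389007179191170313509808459746490889953223433773054123289233531971297304088988585556068540371654636651294951953323203133025081154252889602351115104541397500253794457640023046838201172196247415277799713194997693942426002721976174163262027455552798685342082071237146078462603801965370334192187376059309302147929997538622475989814648968201191704068030199917799515962734283350430671465870958070860752797421791496848983843323176093927234336821532094591377833989826523351216123701307988421660270541147088535102634757995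647234387605191502125522822742492231338151913597237388919152317365300222319272556075841095446677169256918888742333687335308315963661947036589557076986419478516789734484445705877631006117593230243508107234424282321875143935911034946995463471723081850875403519559863747868044810335315249560182292920362903093640208508172335109832854326488645850155349288585480997350276269409385379533793533979232027764293361087611630746141447391804610133480155119762910377389938615408474141213250406314924825641272710963640739467246994227655588838879979415138999937316728770205899140104607484029132292183481166973717831633662585729571918179203095009885500107256248676410936271234879328855999440860920389032578808805423949752532148106954773006939299689702725510378233649880295821263089091254895175206520059450419799793500206504387616047264882453741269973361817984039688062097506589013827107730129294397078275771146688239981671434918944620683334157228783259086672511130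896077801837328212152842028696969618816569407186629304367479658322933356497606584671301707153662348798284962923155756515959114511261806910551526251985205854377610227540283497171340632629070528032546451316048454056422737814288828308066294443785127531117717556174090241643399787876363895567395993210842005231841841032669099133940721167653926211138460885009992172029494991883777318791141998338494172725188034780915644542706843111910089787806920181249495924323646248368928503862629260600951234720673299652046180506647541720525601334922545715817409197110059034816585898966650305319285142481431107564232225924978078941250284960349669144763281488391265042339255624595961021611653512432818339782832725263525555583735561009914057188897533516825058577165243241012472938908638729372287600378039193404697962744082477603895082189525349669852112066627211767565857838650416400078614571542974036017996001286848407630543895916261585248658693247713945823803326927159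688593902384354356803162591961536304772710462949191198788290273179559709212473663669655169063468468082230777104376059620280370528043886001605974152994657934616646004421720181111423502580675260365670463908073706090389965983948950508621777245768713899181442222839205842742857816369425218164653789561415723738915703728023832617876858699721073983516576905780973483237745193053381301854780325753724860158246655814309700902341293334009866878647657804937683677169630021450537879739799246559735530638164239494112868364730040372649084017382808005153604990862586563911662653847250737776185653478807702884275196743196611489997146111689077515376302725741905475615097125827796872167446403793189995191164600435947201507509335283961938115456109329848744172162504342560991289793468180595760539310662075136802215707235591743223529437641114194023631585795236709207841854069786639212912020302097951416146815947958443374990562648939586922883388393302141936036540100824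695651032231778635080086741604892991200122583452977421307764986012066457375064826002639956872171413139255314534828737993488851826155467012143820365575887490829105569903517893007681898621045776018654173755772732330296989064220386629594639639273970104863862156399944965101692227040559298100946582407269350698883353910837693084828093510303485833766468121397984854069120249332325797842221924642828907960276847191968492812094303830065335659121981879763507165388626510826374050509069360216474000275460208759519768864727037309861114674969082593831877560351546298771129820973762523962017889548186347261403108609531853416996264603046875321470790054845834355850887940422854740129895083995958851901346536466374336043518908617469776855522619665228857057863974546754178173293404215520423217423727033808189536078648785812072414672088423985544478440946760830714117682485426937817559291609138060991453488245600729524206031216944291840730681361471668967987626605099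884299555997090101429019031868999825983919675223487335447562565892451970817819991798447626334429915138020753965067225361533311892371353440774264030937729064176456755996365752522775557887362791462697628823655217681037748979199548233671790868836061132154781527894756122785066322498025095432565718484675953298447279797794884630683434623238984801447961140414622092523305652896626144078226391056410163254096127103619099068235573056643747595696371517671666648262824379174158540228784540276334586118863262077420576920762169207998996973935868817145975650761765508483920380229578070160850991831140792499254378407561312195400593063534473088534810463698801586526086012298952629947489368028264251017143339700083153052053858369809063991147219225141191904186851315009551989593206380735762173569346394151420199018319449847948387329457134974196402400108122025039918817408400033812308467793781809555280640320907554424825325284883724281697478136364704372753597971729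047671119928213238142346320638001443843963593882909515966838868183511119363112815052640800516166828014647354313667590529545377043510453286223897731822087056741585120146189294425075677747082137042613708899209799497263773690558298662613789305555291482632096566566610887411726879749613945913394277103561995559668074139855460486004953469299993647785269727935896695717183407542825150293376417595612538974443282819838613101364340456706336878431614899990276841526756646918804166636276828833255916538976751966483172615385946927414989807051935315985443758315705059267802994381445827427947564825714589450897606082506581444080930230241481785628546655175994256039503629755348016269700808813693733022300460134743527499123687998918998224228428483531635427722202884953792283469874960792551719476183374466413499630785073770034466626969845835593141179039205586911091262869418917369971763763301915602360695127610565544356491300349612548237884308939254728891644465275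422435770068180650723504403219660591678743410002435860320185062389068749969796520787983459583951781138447872200066991932132377024118120937328576671920321739346149087749398470257164806440067277572275580969724442789982379995676830826887991640054909795000407996183630992716801798526030667107868850426599120590105312792317411585999873744437484751818624306323308926704426798240082364332104940579720047566286242117093905103856025755217217029667741087914459915315495454861111029472363026704496962296137390568306638894389615623735034045650448850321656181680890144890506438122589566973044496659086093690242692380746839493337871576612118999697129560554593047222687397197199631295718819888092413140500923208696509767233158398625846972183941599212637248252369453798879197769061543610794761345769138054746202517057854832806451015215135804563992853415176286500353028216293793992920914512074364985736160242077962970795823906811847940878819258162805681413392527736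428782728837087172944184647979674692514392987587979187640138242662136812654744434556126306811256558353101822374195756316357355503805519801346727767522989184946990051131347976145903662358691525124052075591906489585855506772054992456981172321246473163618700901295671987556926620696388549985248205486930705517183476622514112101155535568942162834619477859952196021249798928205609287206363705532158797400911082662139074058932512332754141709248202491135011046592092779590424928884315440804431101185641604365567923068288251848064221083225438942215660764165519857005538175691029954516768790338797828595928489050071585452489172170824933820827116629304047057336860213951097325599585365314950423391967948929996641229761269275332486902262476775345836658956939433981250327081365853453282481236704215121105053630632692674817240603252470349050337419837317409593174429799049657763597045648628980578306312224385237754496064601338556196298340608532848873711575612962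537833984391859766380311099111173766357207995174911775990004992860441609317568772502009870572797071846287801715653430516023320472033186194483538074183481641157893270098207903910039632889174488533951429028972734738844140424790810125182427618992679250702015225624448087751245920689452599160322679054099499924879193353160118224551668308555100585952039079569923503760566637819892057465516195555258705286808436066329039181056409615530888442255629830445725119574409775395208338002541761677363918963237533911771783573838177410426672651549113784808364081376987271394009596178239332110776707928996545971295620137116510014389026552845043875547543690088839151813560606900980440846524853416580865615629739351473721463497136815622611465477850606844369521795205852905605229093207615748380082671945938588553571026947448613307063229387853233328137714312089292946148843761592865968063620798255244124642941371843494975494595316785656586767522726250238284869709936335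768107914177257389901797323974596207539812589323740467995776433876820898858899934703820133105294012416173826961554487276674104510878429794909723834001008273554930381760790845491685084366232462546230997651432410438132438764852825275825422428744602503344464924115088959368440568360159238445345333240289899818670768646863537477071992526413541209884120267371972518507514589798480465805203218069090885646226837316482097181559665786536668220347862969451386158467556380634851901405631745393369224185339611698290169898169738445638541886385879841809858971787667799345855189450624779292774417251889001506987315624176615797743004957101964379971466414719066414890212722648664100346333028052703837786291699646951229962671182407955314145000022121141720399084757009403170018792020211306471297887435866809318989936593275946272198544152816140699107554712659554234952338658219576459707519392133557443975280522659634065057822337988271059495228046277281309718930674038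019431512848264706185414244046678336037408514006871765300048923392729053829893357528725542834579907954705657632220068511610128490579283023281123964112047412514065949084470232025235467551553025122646962689753509038060014873301139296317433557863470140695766717775877155183361572930445979859523042187847065392968321882358291279796514274511066312933237128008336423180895991696003048823138164582700916238413690312128109417666177832301576033432384712017417244010457078911310087468152299956539346628250968085926775848273018796732174320078668621837435104067877043625447482923234993352808165886608812410528358219408681918718734078967931757273156429140353487085375419445038659786398222500928577497046954537053591437235774562116509713806482179366762668065021812885964593401216667570767070213713506380763614117664584548471091465146768348064739543483325832680880158174351697161440065574990981396597590911410044163129930640009113182606608354420414283091724199558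671644182819016566314013095517771960645213987194612283723399268250447017502050940957962455649949001080106893685465543861626916067824053472665868754473068177950513677594158016969567808853590154379216474306743598875783851954775174643703371932512928412889015287552056250532311816254474389131387657011264758976029693883706233076212816512010063546145807624334259237220918327335321454397146118933221481263590681749103950134751394911071161926111243669593971379017583763215620554930436607853064578913042220238920334060211098832913626952831431929593773882218325413095378318674824759541777222929856376321294475581194495648261125398499344746931305993272935398302146526822849324245384626341479414145738643592183481089034689531795256383017836118585975881803146682372601402300475562117918572277238793326050678502510718104902541964384571741257355113080310041106734114211274793880620543067472458515276376015844282695601121480265900793127820033045903385171984419113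416809801604718007501155188682083058773848529196079148875800763824912835682375089774034536053800400648774045868742517229408755144324570921158080962002506621523347756011006486969854777574357698922110565132395420687919514634906773651618958043995356353579821885022272857952320977052479809002978317254580396161509763609657989864427502569572794642095448088816187370688289404433205141870908444360001977588324382791365577174223797023328475251917046477936215805612307785301045050962253972991812760649333212731970570540042621299686055786080663901498475320782141025452024921392373246464225181531333064323881269705944680408711036983936635224099639929731678022358640644079562805365155702022325578362706137083407857953397115255952548971276830937977678646378141417066798861051976884383082595743815246990202101116594934780421435864236707610541572135487124264007110511961994936010959064105245314571977086643594455395443129563741621784411551192580976300383701794552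770602901537367107161401401164411257856296031723144340536470060973116547031532809481133517097761770565826504988651774536981997784682127220088475052260015062208420785698968389956889725660917385416208763756592303105978677538759765157876566777256953229528355130731124378333504659913616029155084344027915341023184046120977779003953293704598159764462524468552502508092620790124075255123284534131900048383086750438944278269764238624761649883057017455760655027340297239918085487003141664569087135493173665987301502036876720578785408828475096738770380614866138924647603813542620296308126261524055176991524455708451022187275084152774967442295052053408740201180935126481834063954183776366682184479946633370183326107995964735218500475922108885837339705318038493651475222466192847233959000016898954812298092894350808525921969242356613150401886763251466592978640542205252808326254791536421460081134395602788677895378472934487584172700150606564419695027185950930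833622689954444078445818230483390021564538621001055442530414761383597495321941655695294976091940602628563831148641797514313668072612155183255723784691077646076723324546293786414289752909703927406129523588186567737204355960023438288451798599921057436371811997800272171781387532989716338527499999679510325219043294645184294662635695728687971331637954219684455722913872333834975904022513341855259747506998030827071284214647218168753501555742265571140735350856416861172935643044280051594957213132542726982383936501644685047519587446399694296966123642301318240837185280637963908515685576368490942088352790833403776328830668328901987114510718463146103935286176218217939009452374873789614397099308568352888574076314233903621830407363809810388838931035557458701661535031437725938584838191697267713706801249075735625231078485446307052508572301916867096392041714916929925831888494049447907845524808271661654059615074837870267146351668270364342355436351650364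982580818780893754462604566139160127571431064549986254544724270121122906633041175199579756361755441092674101181362234987850688805226692971246783988775845423177128097821785863183244634951166183198307648501611651123784016483241462781906263452373637334034226167415462409195722696426141211506501370045116849210410992107670409090878592516126842736094356024078188900498172678249187395542452494766308940905266931671165605663073042659204695887741582540950991954074260291091614590256787240768484791459023296394355221872896456448796374303710139382013938245363208028160)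

noncomputable def rc7 : Nat := (nat_lit 255684092911092924345104880705767992986087961501192895871335989213230624226989789209272412900133757703520458176498580170230787261502702462368661148695099589805746249729005620732352731565238378071414244510620795746000693485782273482398705112879877304100961952109345972670564108229065134522532878689451035763669837560845979947183608408890696938612452354201635792211974469526316880181861168380979084709500183136209026579923459811314750558799222741415430770629254528597509770310495102050214705413519145757997053851244810825145701381983832241902929696348020215358876438978279736230373570841942574596706891656228319498359803772800014845530652422869905232834206111515389982213271146547888243654269310182668238552861940541990700227594565463534335502417508257039014165951402142753310256062559174570978036654571654033494365493160511510181708267492073887330584658962949835104980351061257981931666140379366752539509167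942226405990532022547326983472736514060169432975473190842538141046544036041882315242256324178948722965479390781379625521055228930998012189352564985591588604110573397893468961344702100927868211702622712470893961720828133168044428769657300378508737190280261933027350840799699197959149055697615377112156824558377199312402445220480520926924795176136694901312035879415408313344538560473271611228929195753515350170629581141258554089615908030925418396879533872961649489431166458598577600452880125475074087399227991122133872797908377969292593812523617538618475450949499841136119340739572042872815459619734271401543826197369296823233746431718795236173315628174754433592094344665944753314431246428645103331959806343263692854520013932437406896331371643663485897466897247028701962546889954567844154356206869590677590793508716461272238357243907144419806072710418594144863912819106633139120139000619000179133945796136958989700070251000965331010191425969790759774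412653824698008670218019581311047728442581974471509273530273417422463521483869523780246990340408416000548163179025908163677856818137528062618811283384900697189952625097624792329902262134556428901507546357288864018800643254076399980155324809436908220630148821713340120046704784002447585799539741808443345439497647254991024842562791416229931588847948118309350848909778937739485763901869544147749615044587088041607103150664557793857580808010121638444475786510593245818812575374562603173744171311244618968082198298152986548084319082889221651100089278474741764172401331655396518499031972781893467767698695550361279449187251219555295232173461950251050515859361935843167413543506274543056362553961210089858895079925450648128873431601226752690069721556215000072082504792296221776855796419962365838603400337966781327354972268367951767723236980323080029214630303687409210618864352487726870462582175185640952143764712518860710857293294265802362864528931131801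669311437100299932072350434227630532700211656429505918821909801771434536079537487569458036996447784211726092557649162436604699603408434009724876923983897683277517324620738367248907142962886784019012657850062490284829413580845012706111961248513055391510946210237706509764452555546330538784764079856440308952361714589482360412115093746076282620446228220606195851644046437080167513864522836226113015211503531819517030862508068924754133474687954584484026870074181629151060829790512803997208499143651570679135602300050769266643911034437170949192215159066406281892540190857060383249737205595725836104436684391165933924612407754111450483514736155606755237568725685820443039796138605104328689938614197560378145944310194927219897884609624920800427078281280036901846676053576546384316942146885866045874657657281175499636930444999303416103460834514335151869372362265740918954678001660572247454800482217131510049130177831873564274273960298501274253521993534700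017546088755880195477369874441168744661403162547127756748286417893330656999547876054262232175689513157990022140594343936003524263435918700729398582141685104642846793594047356069931883057128270127109513172641063905711875174667212451817161222874405972790675135710682266803280866506046264161851463589704148393580337427343594593091479581786008513501164693533451958179091227090220155074789246682870482139878117304571189867760158936189866586266808765225101269448237840644276834144192279342294184129626363064324022240323683159949054743518911569128185342485655822450639272838813581396003995641496474777872929557797182679774863137002471452338331149839947508919426766550665164693527848195352132418287674313293426456367433630406714504635943689605763404347183113606447926283494883157953536285077519821242090619648881810639052666022602859968432001465548694965508257797180788869147806667365930327885093036163164366753263060751196985427257897349111816788703147539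381752080820262541536817236076302155141677599192697136167613181531181993366918329880212769497412035525857169285580110181096813101146160957894781997180775470126550995204845624183485034474916070673226812203090405137114440744604950343843909520876109404700459888774418445987875452599951380291246636884507328960838406811722694460279329403703649999891715253109564693726514021800413632684419609826099647390286075743717054962928980467212636404174773939855332800317529466655348805969142749665488202049351301046963220928525698517563855825596196143571469135677663857959533122756055053504842192025539035759798450414885366618904577999131615210487901555462440859703809029830602189704674630563166395420593235012988425785024450807548205217628951012840328387773993831405473284315232850240594115979198754257741179472645653048630615941131390451567678562453358182192142440537742711134590184910176264968381286443112510919148905662044774680819437758989883398560472341240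855265226691948582759442297007044395496832566348166109289595260137080190976137948190926372652492421171201077371752739394460199495495657040324354384439486530178470342906943955852506654699538125937344830123078567657866118330253533019870389469816801335709926025225495909699962403428095640965234702961611352285703849436895073779126513234319014754436259360847654196552933085623729918140292763107044389891237678424147708618922871449160756666199185025760039408229890995927117155572715792311419845117244284345530966964758138999997391777427118536120258236935257333592058111675449787684445999756613684741219299949786340409227033079320832793446545926769679020547441085515375264575723443788853765123745134037283055620426468891522108582605033124125157273374749840630191600872582466112318939190604899300381589500135738784408852106736954370730185941055974142667668302049041307169631913063816308953646663016801972373002623233566280685832492282232773365213688001831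436394930194571503885895813720809016516039551931749602387000996724816054909392412489783857073736546956782561072061825656706957537382815667144672925050894879895881407172011183132952372433756863527186278374388208796429189677063165393866457232179340181450413072160304779203403763135230706039324162411086199945781414793670329893923662667652405483755370967177060376963817395516178472642544880277730853122357185261682695399722475333681667349282092090429624479410036561341359228536582599696688702773784827838296397418683242916346411976950181699559758903243508847082746220578925714744421918923952438669785942015396487539471719664792226484390440222469420514813836108969486703345196624864027869208418684412634941821106304515429599378011444526832426847080013839442229423654418371420246247019919130414195135706989739211330767820787982885748639086880675771139446846862922560317902332830830740794367843847115923636415591162481127694505289006243668942274241662909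580795541706437003563388957891034086288613459207340180347259663820463825859797313478233189417961306160737636238318454895744357421040718517866770116710654788570929257697773398485775396200960592734515415816888917563606600291340286175440971225008160315193060381349434322027446211037327222358267040967852734207938722404900345206549552495196374905541354794604234229664220556330084052102932297043392129981419572735947841537137590493358295287616203368706902717905791404356963061830772076011778473020042610505038023698420783424662302096449642615415049880001990315547755184137421593202283622629746408403679568870224937983217226410435174876096194349158275937401108574633152058757024161398147638599020940290335667997023617633432006877928847550926802609427490462050573366435093654705432224849147959698065797609219718331284408471967953554638259084374680523508124719647152423483126212844900901694465424184811366489386422135886666079802140380537268216177516501014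403572653882686120627784098543239682786267872067041621639931710033763559059201711318313149808622928711782454820070715500133749819895451966141560732584542057366303944958604396485462583478148943292807719526817024116496701191117968530664140314233502670442184447232095839187562833370161559045242564823331367735080608952048843323390157166365698137065276255511304781022353724660160722465769720100639282212459812439701037978579426075645716276759572863955847315501693371202099076649637246821554800319741931813506232322182625862976352143632398140470477526395619331428309477928654837815699200784256929868429006496829605922476680683565505102612400102798878412425576613882334194967031345708361230014670309142179456075557960646009844346345346801477553708012380512522178330073333954133772376408733258519149088382056902933339027754851225981023576429865687809740314657267166480035545130872427263000736831342382974526298250627690791250764658747160684009983944689872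496564254505277004908035383200735989367754259216114878425813952345591577133915004653811163511529647210323704542479558597084644388596120097578137380907176142977046451948260181819155076011001046509915526858262730042707564434363056195412155544194987080184313638250129426572570132129086486701090833831778345600176483304046426303355582344088124804989127759430528864355440384791375438591480286547169429287359724151532913339844598400454566866072168472411322726360510704694801241981401740272856753643241097923819572727693261441510291514147358215691406786391496172900457863610257709732477138950958043784869543127786436161900317628357116078182279727648686889480855819501325602444587107672475300376927268359547591015225936761505543348267313836985452453934766321865027477240524265766150603527256554978527082468537302823990651412388189118714238778011713982728611418106156357354216950935665324922476817590342235089536867775912285782656066756950926889308497031864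437026768596026743274231646330581248244498675081472569146482250734996584578763578224218679138281600072806422929969040218744808098696507094850225089790116347748154861259465039182651311335175736329483618504893499590304564095812402459559012920928304146700229712325699110476917386107837723365938795175259550754479442002251070444891736119675258594292554697357137256150202728997977092570068660280611953302200980966306473993200065890852403154404024046653620692142267552604530339410308427507670352891065126201594765008883800894205401774954754790577897449146123966188888260139676548690279011502924903928458984934319018452437795256617928452028871442137329940031940980765482834509631716793243504983103711385152210228832839809386691456897975935945350692816100896930573888020156642945081904704103583600966573399856612930572795446932138150080404089080461595707945539459020062147976413349484786538883647042192128800505877585386885185895038239220570627073351129674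542359984043830980622090728949891577211307109728063883264187440841913930598034092182133865007949644432533875922382660936706835230137531499607074880185118279334671152656179964972281017511370762857187599614367705118988900957268314622096363310563247496400259014700173006442617285804883856288956234482834078865639518093714311968571334498913610673425346185651102967472138709819976574310014695242194588405726231061905672368646548033572573392764490334520594890248595343924346308286943315875691418777655520811731754309576636285605926912852961021285423198301119834949261699966827947662011091391000139047094474757420541104176384146406223306571132206184143806848323501762279428789760059737619650642370530792915979643336501318551528007315720857410104373110663744713042247872763311634628956019307308370020507601143618997365493843689729620996410889245050624083665793600489406500799892991145283695812205137729543763820544797633553247893047297676554869170942412193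164565435080374674111052610808444668490072663252432982031194416959819348251984639102803420700404067849951710505146777922924138458645515850430112570257056608001029159407898641665801789253186580813147465329075020541506861402087338800385468949970137432609035831973882362611946862598726892618842648764994870031076845627112604129176014792944516121137092586010568154252214853941131797002159227102986456492783915925818348542016884888380179478153080480323821831080444537733317539012969008378351780690218210097801611481967715587793323579096965540534636110462481895944816130000854917943983319319189417459011071236686715322037244684043030030451809842770187309491215451152475237207342595651002800556914976621744507794693740025001950121375225833199556391859609220030792343063457323805112629654495179067927601823136005165949979632524311511748425396527929001086616479999388194553009692703656005005352931280097707752625505474588562973042957109388207526802041908436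890822135745879250683601053640871195732928595906912088914674772445832795203842185445065720596147544302686175252861813008368901037071980139166382415524365772672512207640431511521658389785257685513639615554591881695357412626562653058100520836730022062520132312541514091140994337367223547400850996345499984864981021875247325366007371639911475535556925468900434167137445087417890594176644960069609377901869797300260077077108387436763082881594237170964704260528538231786457483432689888569196487527046163775604275087029434896503857914017531177089115216761666593546275621189632797752313028244338540892063593088527022849885338790626909558687785332650844065810205567856828369041686400047916607176523360837800830992429615062530303655279662629047002927957833091763573232269116245797927557805074155044005992541244787335986330604673681222559382719661726940891407154839389612435192249654988596314713975567570789284696495225654736850690033293850228387950183557748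959765827678496434751529915530098961838813848123917157479202776779446625634397606500623813805631384158235559668647377738947374027578111600381291022107233626461140462558693505124846980496125126968697056952429735933157438897046658328994656955564600948115576408594436780424172006008019680933861599795081585561408386235424197679323851666991074548225998111686639202458073079665629304542767299373492172775765558544255563031061423044535228166464793357598327243943068105374417647767157423964557096922232526265989195023733673770085566632043053034535576815077736681866232324740243663140006190735438712728204129937098243378471518832731808494548898888180770005100701660956718568714329453260276569652028352318414359430465018088824541755473952829766721749710410510430848894143458379742888862814107948601892402612460433332041014929870217977118812564863739895348439362295568966926736057336335622837743492960860222710135733091260783308978615528967332911277074733544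360894401645835885494487369104392566521732415481329640289312946748479494405318492609991088513338698234024947649415627180850713286507633698819425339128747751729088687220556337111577875109447581507352101566670989987119367373966828309881954745550542720947813037067488787698029255590255097704252102180728367647045187759212671936719758779877944409241677312512530790167746481432351621203608873289615895825873967634679528015449287503312644718316462071113162974079057161909549411932988040176103285369707960183677238369514818268024564766883627125999457153997158035520457337215226614789546620973834717475385833597005366352055490876205504822519936623064690953637216361888465456267611120138159911023222737660483231977724646933303556307622534283721541307440362690220343146374600096136226893187278544374300777512717235815534082776153507904667483158911496502487064948527274654560041490780966485627902028833899456157208509120685739614716432178554719657736996104973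344790106443571721139903141645461371837087593551264831700778473399833840533406151617555214707292199755047154046870001510023866956296488020718063808042767481038585830008726154730323543704758252910471213336650416283010923717856283702803236188660450427423937284716097001134316563647514726963370497343718579371939982236862779023105824144539297434401762157722353501396681945897751499943599366535136188073932229908763152670942433814264220104498211103538119056434757242851282451346127224458742775658662746995448660718827845552343454971632385995602963633387555504727692003236204224762587469969666453994085434135417040694707399226176357597993214203572911378494439715096655142869432699958310660831688320517936109559415931662000294614750714405198109320357409901578991589825095728516815356852640199358830583883142789715050933876386104814748974214510326440692703426395549085709146765245969809701112345889893317775734961434103801943916236389535936727578879998564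583608004440648185559594956016515259470583592328888137873958127614859345344737892262646977718525451503860473414155697580670773638031727219264517244727605983042264547114157541459097095665145876923885134814997691490633611623816189226764528428937056813887666297877741955162863154015686397840255230807278811763007952426954556155755498786526576889090434003284065416710898540089957964860386849884143566877430581187990046944169550754208676378335714169610615886676718189094368128063078185469941943711812459622179999549603611388597838653375333783883824083775932215257009427227337322347068020606837666904090291344976424000321400544698732865177095329054387424649558665571179687855413518110550055258788780884645018987453709263243118807074221986980052171337590492403230517649524239511102057114063590904723311768086416997771877507118467081283249822109095563954075337166963123152215521772114040428599485917243685196744960857794137638133703147839641206452884367311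237710405353759796352192419013780092374114516063566023153735425197574862170099027656832440358075908443872729593019860945273191853747902756347740948799315407295664532542153276869607707576494468601927907639418276476540455410472302399750195546572013259976039949554673615989292511223661091139160645970901482288812586087861084380756430580712255683828516209787281489183820472004059206531105568100786938108980743140056309784356903321281267828150087553017420887682818752780054662628859808002153813314902922026695992857948673525028466167049243663574282903388384395264)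

noncomputable def rc8 : Nat := (nat_lit 256648119696212226134681724187528396672662922237485567663942970514264257165798548062456403820482434374407973660328476685566543507770703801776442912686526461377185887330944101894294677000129867716505807726790455273697363671543131501364668221035454746858492510988330648595870144771129795508528590812446948001459489095296914760419088499850022056839840211803540203197904838588196934494897313551002414791241258751778002733206886280208167248193227736570450187233414300611253377181924236305336067216034849100612196157023776432145595460929411728958989429158623860715492464723527099960319170088140170081187230382788732371283004188522167252877595546840264117812188240208431174512799845289950910266866490745675578229574614391561031899227960902298128195808742760203751950070997800196394584658792699419863585916544390321790589678860498008949001922752427729570360642823997830643034211202437047029702433979221102546688020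073552147286654563598048350323840119799302250928997590910170172418519679031795891619273932026041893683529734870246008898549108359282065717707905459956719203797918298346104640112595703421691867129706402691836164494583914652849416011151030285667280368118340776817199867375091706931288603265720035721045740494432865214443531079411987950736403704716030334559103779941200458560920547721025050457098822101282313185635977763747261124699087593397859552714516139763072861599736976099448352387092265046545120131104687474697073026160568429296361040723206606327956782102461874041813159066681443899735228272453247219878732151277181654530025480465552472712888696498791278002659122721981879640318708856720167763983786868480501591390620048479983222039571402517956536549919169497336953449638998235656722363311592749097713710971806069119786904933609575058324402060727982785172004780985891901866193810582626739511558854589483721559543535214745634387948790329722071537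060354905395086054632749425389852258898896546973475249287844286679152811653836811765920202180838930157667348004133741330999513815166041107673690911706051561845744147975683835108797990361649180051339758151235510751817655581677011847090914941761892771276252607400648215715160977925219620845724807102752892161834205871436827723444930430612911143033902617636444395019902788528495757560699406244862462426338221800350255031157842145610718254639476531447562003626065490279652322251207223485104477704160384678821164120143716677920822237777299718067043310826920405382042010410966208258126256291379883914455058900930701937772243361270135909487395361230727398985023886803759487790915044059354273441008969163790863528998870143213863093344060908183169576083719532100765708231442088307753664243828026237519533763971843838230874342855985782277870108875066625642432818106409787379351551505176748004187130832958573057418165207892614547925183323658031904088178819660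442027375815031831501731034061319895356356718417475001446616976866090873436405784190571381705993508433750944247418821820942376850120063202527466833713253150176735980148061439011702957197386573695997592958313184202419702873245612223510572219288747909966978405251323832538569594097180657082216176086508111245082619317857551360070275215234663364876675991338034412592406623875756661876965162177455704517779895131547830685412276081422913010753526433705423029405310669180842775396943237507864787903493242605011886506059520327338101445184546715575256425180000535712455724400397720766687775228749063209395038825653919036914515814979726268063404574607827102130291124160930494011263729775121835395461229196790982960322153148018316044995500272816186343202084089515486398413886067265330818992538860813955458737029489303948864957142198493536395533198854917602550973539413361110779519229899074509810989522824244298403691204112444769805506830586512735067504031963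966854010654592354825989581897505105672999652503634182957853305938499634763370402387077902876023625329249257812065172530106245155971571353814276080979144260509860588134894553695529594738322392394493434952764055237912881315448748388308072079263962275795989420498570485312166508864364245591353933391997027437643106622765682634689510440765113625007929101236343729884700603148754272290288053902373974267606189939804141317236653108181114179090387335264055571266876963325108860176436234992492654028934112334102387896753348926916130961375720489211009564185406038265726751935756420356050960210997892017395734354952637854605580841187001178847127404823135277940043404954331222942051800357330623188367868540344365242567484516806897132781241392160787111678583573358088097175914226139702713605561774259591845227470898741008826678058077999550587770958040540395124277307103728808753634786225687727880787436438701748926223734879459294592596168403218363467923801133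437113556216305275348774716336169801982439282182186702553848776854663554164546153464939853727931025313216833292144929691295565960491153860949737916803638639694330705419209721160009234460093804374755036331761453856479538210072893774998047677014410747284298593137804754376264198659569289954523936122677915970054003696621254946989524230001344784577470349547418716993606785627072970356080312801629687530459144735914146357622860283305360803577041248670224536757956817317672049553848478741823186216657327031413331999940694943250361766737377236101741413494359870589181673344802483636736138286567829622123682726699832997163589556712129278991259413268884866350040295761649764232754196831628225233924907585300426970546493403189132039848493005050585035800763262802225146256854841868046176501033269878092470420920676524400870763919956164265958289462808910349172929364766040055258104695815307139568777659656010401539826942340681142009629903678107761801875805323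614479735595333129024852794917830434941192231605214911665637952140074165898724038729368362851032247290595612396706110804939192203198532053817513376581699722263109923411245601342718145317217394646910430228269072918279815395424835316290714132947795213825005210307324223029444967835632261234356805100201415228324366219245984675840226651557940885725628854873543198638224465958122126875258788644053744051970682491780625299174444582452312069262057795100873017966456384830686273771931158844511844877725137218441491890811962117044785842061815755094088850745633329787542775430619643633401413004351439691761739607668177178149544527868210562132977970485004851275291293193177000194712100380618597300309484318221709785795694481841927379054736850666804302705916194987930173674253606995596558143853369280991757380982912354087385738637133164804814060523104933963516726173455550711239323882185601794228392005991181090546528231090548994744989633045346456834789591687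966245531926802910068085896806394233524043695469665340422392115255352654472658532970866377200562111573740660331455071262112363059156961899136754598464248354289920495978753949384332525542301995697189482097679725601173701097324472609039950695791540321960065378772263331811156971608050756901298294408430859434168912431674084321054263714004740008928139240757953188714734660954944238723054913224042301572718625301533755323707055354207950396796560560253664185746111630267966290050296384616948563412771451656245290502300667053362027193662029822462299195004180488005393568510823577127952204236249556240437235394656712921714241492522754226434065445820349435121334213565764339186604380834693772353162870894556903029951214260689300607598040219191738776115701875930112613485600189031066628206516203802684510636917050159531283426069300459859853457875847789592101398043287119676763929901263261537851659231455588133503406976520146925804030121803065878070878459399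064320315500772286079349142779659000739564722596666396653572098581467958349013174425749915482074681770634320709460269018443224722969408815907772464303475659705348949415667923903831923108498691547874918762095411064542761943773771995046670425962835429402130935033466429470673288002820155825052268407384979489478260047133994828268830790192988115168769440054582563484198660027342103010758202643702932575307746128843513265200792396968481856982573759185321946265417044248580811739188359777661726889821291776447462131669696485158249176575085490690238124941385737774012498549319439498812159760600888280798325746138098077656936352713240946787211951558023750936354873281235100481012589540214404246569011020356609368158686414635566614728825155790850461065182407837713048414112396873646521253773793617318954704784837144369601999894487566337948328106801750607754078469650087102128136493757215201595777537430169814390685151957771702704937393457713575601874705453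083449867015974507215546859524103337351610384151853502505788301107445185277275711141373567765002129597905851964310268313597290563314694621692716421241732947795152510205259983032431473274195039606627853221595616557976444096888584365860826673195179323253939428650363734355137195520818316956933153637224061987509896230432754106369439769181186228613083936353351825571255669446279942322965121355580160317191007878951049603038536703530169682469608324694967168852303997324477634140050621270718478240001351529367637734580186832453971170278658412698291751664764645277480520447790832021743973551396370460930095739082453976248574807888668770015705782326525880707026531151483744988414684121811605663362513854170983397964458342889893304552582808944629751178709787616337172681652157886720699675410642482178482438355253759020597799481081635554931877516080370414571070523500034197748138844873047465120135918674277827074041705991449752215202177986410555911236202601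513858462008375131475823696655395717205141488120671098312676362198525546363713291541051386134530592317335173087935291326937834824114582027680983606173606368278353892650673049070356090655190176256032440125435735826532118907378690678573751624988473446519515470324040524401394642146157278962405929086627470998003888634404682492027224913406244852219397175828515660573230078647228124630954303494837558537601058682099194435012907122258145346163357826108455031418703536755766196879219390675829714916120533084651596660253705122974607743641909840802900805727788351197215550077124793356461869747007533581300238630031887041791064061391587951904306608296447898604298199459901144925133601458376006125465348180326366228931783283905839919437883736443065132244206537705878108489564695400507716208944994861537248734737775211086283728763691649783452899887972046457784195249549579558456578937849476958938044062792394498107599791437353597800394385127830090450789180808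149198851258058127382217242365489243578442407222360633756849912360216389682199313230808193277267396581596670840163177423354652183771547155579364391445795159493939787200808103640660824331347098475173297673511637143840624352453713526096896064192474302911156928027145775744010760063198122662049707571214862643065389884771339991701623506527483592544506144242914315043908471088833231876036225876921626628650010479280218444270197955234741406692624254776415680785966948648875273576190791720437698577269144820977046247924688953278385113529994764400380030218486709367166484001021288462625392809561688278209374114568677559328864404357426240955908860494475610975403158370361271948500762937512523142765783852918105576573105644262668141092274717206935659546871408505963205858711700824408034774713255854138190378043557213524835228369583733145911068793696027004423433849606871011551542757913148018547024680101310753568680337121037750596185380862664121467287000344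602581552074883830896021958642634519686446054551511010244671391605719127486211818083698597383006515343487746577521953483857383990637769974859990352079868532039928257140728029074161130973738457072824678802883377182242319315666689532628940401494900894832160437557371502942754894050451362656168407894974404872086822047877408509040423483558939889501469290419917420250400098915020115267419512281003861428919256384632789964125183112157833549540754197103508538171914269058547168388698334836604036408998682216863931189765053688634943096612582039532944061931782642444949211252383037239970585512107944354554384805161116255795107097480125974287130771158596854934239296580416607173854748290135968667493819164891986821343345290841653945701389412003510149034639381900472412457622565394462556700416027800336470513328938552200978685276466934397702094426261500601021963106263357944881617928028630251937136693455411108419402504852139272000022366292615350040502346561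717099031935708883199154113472988032073515059879906239299730762518702606776298167691821475214428503916181055443668521162855372897755725667592830651155239633926027602195566273614556678266356710845641134423865366370956781769895061037342118236052615828815030874280382028284168341939057627978309862312701141462896747208987627752008266891452100264356521933669332940991463433782074508858797335443132264057646147372964033756389810629577319571550994353891959478663759340920574098548715528383567551187757965293332063227057146259242560488620809169319222605744240517832298756982489843499981558390559938977923567107037497529836357988220415064313648294194295862655023618027127984325829708741393444226506635050007614300445852749863762080033986431126107080159794463776092903946516079624068500803486351875498926337419486599076081270525101077207257289661128859656631494511264750770530097165083456028420169291999616698363905805276199820106166229066089161871141778364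039334725958863750415859214376799913085705525938824320851300079175068457620076140247899659949897755259522392887661841617678162862479501677073267349657461392376361811110202823898436282100295330100174171556930869167563334794245526629066268972297806142339462756653512776530530489622389648450985299108261469496987863093678604427422285438023771462390260547415610199343705665649480203546800624119511391723701665275819921750793750737637865564247501108251470895694080139732221442575579246765145467666336746316570165204269353371136001421803640208914782566621643873957355777736463003366965624875576209213865321680987234709426610711753804079526440614026503979159351240311807963226296857558142336672802451560006463321669793330813345208783274986043620418077452960393085001037639889723207882982860104606818081628010501893023594528168187668576899215446666878989672255811820404378792936497417256141005607759822190901360710654742521347963987411361689272411854365843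740423779782535128637036260231024376671741073385124849285485321319406128928659382801222038864695507408065146795447806184821133681047588328468002123004839947447064434636176419286372457128909311420640874702138060889498874286045245481213938540480565506276978497383942313233379982569046870072480100420464281219004547836667708226478587150458367096504316210680205210801579960592944834189109088159921282018403033684711789756541152310086585427663332416607854245998990860243873911458958670873171663193900844616999253374466447878793875674320080974555992354500206740337955551140195543896692761735355652639306239457417987325534466410314174914681988229368473127165001677689054995192116602497825061773242887459029793598136029317644852560245024316449112404506301195096079614272808157278685145605559544886810247825465489604291905346379276888537712867517597619011075200447796685644706877992048048440808890470048072145808662053778313273642987438274924846126735276086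617186571312983551552412213718079512665470453146679392664160026144530195333333681077357251531762123872615763445143612920651565214767856682228006510555284204305341971948888090652009358678516771797403479032047984456787180011500641282815425522577851583154244270756260574831381749070543142221703216244744078590147347220603602309594479701274918029330363790243776904765306616994902689419485015186144448784377232999613656809374528096123823158689477473542327139292384102382859511878315829436293016780260888771984702791786586743901479437032721975256952906385879747814950874565515814729839705973870985117472231732911989352648245264302159573259385078392691246855623363067618368983683573348393753615737754044172405618007377538094010422669035788280050278460638640097569483956333450109128013831762474975845046428074879073024162299317283637027045437313925341840092148970083557051573674074262275239440156642627955477700586930133905562582876835051056198878261139335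094047671483221029052036437805210614131134514910288775039541649346822381648340453040439557321443607970039088963220590288567726473655638981362508164001080546904921635023613082150519484680542035419067006196305102054349951132979817717644820944405587032597427118029948346162080513876109539285567076252398072331247359489831826418717663645364008593238613824540764330047795373972746959433863277378793126896786317789617247236899394204356367546626166772001256607769262569120948673771948712475247308453122337743419751483340659800292110268354986113579514914780649092904638443789799137934029004943020099382283977463548674825663691366018010043741908818698656587882790851153827054556674070092498821013510650770808552125909726887221548858843422194092455750244039512145804639136875661973210617848997126586726550810911502520396505395022541539681490491922739336902092241813304665278906396074678830935883271281605994999371988542460700629731068442896443689631904544769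864329631724373429953881181058610147295243124780297720610550018412650320578222847584223183385331008128927031697945398101828726551581833017070616215675318021642179209146681068017900536796900600192351208205894276965150215971453055053300654934651631961284520505741154373725954488081754431981994697464590175781079736493054076101769651897715469783370929579440628833241973592780622083289134523114935870727191284644029032892939008023369618695338747121968683382659840948006406113652697651823557613524603164583477238019656896631290003436453354782145935568543200632123070079037434538344755401333651041649503490434476379436143217606524665694889654575676201735067704643250442548879535846207774700930286802776989684494096557595102133130663029692471030881164343739659966771245779987437334857182284644087688642513777061970257449363280003745190387428181833354454305169345823482430083686897832215431159199968006644927480287626136468177437677432959255197694491838280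761285786229665544311951775298140727032611905730290713164886850304516127594940990409954791015481037605828747115982737246645259217137458242021130665316562503459847287100879250223204198581451221035853910899359027660278069490646671451620769780383738015783826884769735137421154490222413819741454582717281214336532588053789219509477763939490631331343049818808368926297371160618364850064828416908976584537703323967083619180451511996845036847924110235290900505840180124676670007191360240666775405149794050414772443245949020916161225389824302345713105221603693690880)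

noncomputable def rc9 : Nat := (nat_lit 257594748474317754376726246128079969570143452054843433712888012321084317868140943514028360346424077600962848681479087813024001871924177300251552786238814029338147305792640097755754496817137453882716685633252638451540335349615428497183630909636171108651940173504155075358036648128314049230034091593461274425133754960552867639493893965432634781272548052583887504128123243486757011148687304129876555708776299366307544053997351843155822195486047477491345736296257210834106156667463703914209883914469671878889022216179854338435032282161439205711352968436448327125890081435579392102028530877408919879695874352243383560658309477366219085272202765161302723528946211927216595222467339101077788690592667228164785297265311541464474047188915522682231105121955708807179364859101740547046306517683606842388415649057360152737754966627607455711719271452994467001351995087984173249737438466010276724633820935089011737456405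727119709399973252027315773214853293605070859537633697870393167037390592486006287999101485622509637979429854792100766837074379462779141429076762772132083038728858993441970592887892792529386037681501280155844933699232539628469319905394386558501233854767059192530142844132950672782986821365516763381522381827860015162901104714928734561174386998610324400525581039394547719048768247759395918701887424536815160907185229757877726969830639438004189572369933144096810892785316313614875619237542170027430333658023047256795445089479859955565651227176391104996429548760520744732281028972486691764827426017517731838309660500282741172673532548898734813386670232411073484141037794503266960568749277807887392761737661820562569959739441369451497244109433008932389322470898975459766451905314877067714585619435439699789543628654191491185137823531583367337238643891565923151173376524070072410063142474725767198665790723531669944451053382966074462451913178539227660357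675287310947957169018955630035488728516629157826609342607923763353182721817834380216570923382788891585832891218199905522162617132939332080390284868423370405067272628775150334611925586142617387520912652871599293109827089916455392714427067183608153862233639929890566310598661924110950817026953427332070327793237546273193676851697666385530997590488085745786719538999943925958263715159277157630271291701026537191165692967322608310979384810779913870860847193883565545640899897057356380039336296707601003614693627676434459087922714887065269597859306648365693550523390285449121459187718274596159993602134740701174413245823320945809069976553174485908991826808195457355582664344488467025009982454797218968967673576663232507661975785828090291521100023037813150959946735543939736569470383589950508106400086381647153321106220047183494297959744484046465320541124736012119749990600311269393751236738468046767078241981304303317753727038403700255687430638078620889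350200269962510237734794955053548058620273102145962989904540878342540379800021937073176827149688919251782820737349489012952781648536993577727819500605841139006307460658121268611873166472934204164604455633398716478160175082572951847690838463683971307479192674739788848534371874382574157132463059189137058028108835655134553445289401268801563785065264122289252489101662510297687472029533961517228885960989682016051615979112705014828778845601857448227145264546300972229601333655334352870495601820382843141882071000333471702850703910657031370950738711524031301801916614574016564545656120661950508949314649879387141269313726709567324269958854791745096521587427961690670108662604289441767198222297883449876260780344210819969809321765471293141396976612878003335332577282873408827167895923187447026082626365283323527334146104999252381125102708143841304555587642937307124847009034515172922264258825747789394757124671153940846022247604525314232525919404512360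692738659910028645043100019110191073599642132629758950245321872100176132948068338729338554058547582382467840100261354127024721233800746424923602039567577190421565538096245284740411474954754590000894163482483940414635273225059503819413120163950805105345978848288082656217175832563736343685712708466282822401704592528193530195770617191469736746085860594277620441176543962719504980213029203445657959517631268829428929299272194291179394904877643669224417190029639395863685171143611385294264895295437380817974766907791745744317424282375550404978521215223675619876162073206965452184935932298054828718020941269951127150778088886155938452133526773376977629858223603442255156250905823034523099050041548730041856657882075434599609014573192242346672670625190970807804369500138639986342375994670759476217584773249728394425566667851649620156949460415653442459096434578759424038558293077897653813716985995950469953226741598931032306104455851784330348709934387123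946030408419459966792286209812195966082109069692637881106422838254252079643329679231284202248321646970496970775854776268090782048628174458777342088512612404483371828886491492549892175691030795189754842065388424371899483654117373504268942183454622490067001567244163544135457925958291159567513470975263097368755748273065779028283206851804437199648378106564343732141691482595720911278519462665597303156076120026856600911872555965435638223944845415488231703419919835474899269352134048940020177593382377335428838054364438906117642048829912486127900442105110138835875330011521035481415882088967213341284113160774731392885681318116215206708708041529950080542291823356574362176566144223484575368054632332638033151567382921704408583121279471379646289098556604506464273357242741363104156820336805009904940862432527945277176950762219415539165273121897110457166511891865088836711052885654104472108118894303985780813605004494587342819892369304579951732509412579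535654338756322734333593404832750550277079810917094644463480542866369758395383916133684848918281322719421974559294374157864197663417885169191289244397957950681126651982105423838441234416151518914299753071048367351101318698147656394787037575336299416464815321315898356201387934506837222832286061807786485898560094225068205892878163610453722691598060629305085402932296281755528157223425036665742089952406893519281134076034561875914547455423757915788496200403032235763884341626540281807607738514286004747199106577258316734449041220885769773373224171655246195121340124492202177341065324923609201159085507584675587479090780897965591811974916080814986935032820624434694968626420135371598422316695003286740428534690739876482354754086967860834472754126022772880656503249740767519784545941006062182245018957390399401376554093826601143208099856301335160987563038564944071939770011604886770487162940107965137602017199189892304843936791990376159558619965127692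079884873363255704158781700562871095061974206257163490417059604900664886125074207086406742036953111588931775042540694715410338844465100433829232784667908284087888400089926221306422627621507808479899468200594265972591319162800662495036831629526956051468341237279893582020042801125874374517731571576208835198543279692571184034578869265427455830484429752432151275207655263951589301129858141576627022820195453097885606115994220842104078355798104782813378573198042003214847205033579279096465097261001519747791060005720970980042971755466840706820818642303422572416330009329954812326866489000807174619545896596645824965301056168418077894700913612143729002304635172731808961777583229424039268750790926537482527197073165235482268215570891649315038605425136078322047664642382313646886478317062238798128837110021720207015946869515311159256497383583836143408476431600182403104828263202573680540317471741683648651139719122209424212275998362542466736643714339963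411293803814310891562332086746310730025664982791057881125551633702046677092484934929879067997609798432996168052041902935656668698002666391811901961708779471040741205105455961115766340159164896140482741747379761208893948218665378501492132923279600361252170982760609455206999020398477771428354912416928212116940626678035665227504668102551475548222233621146580035788428576547800370009946412989637509783585388780714005248266545227878456186369590176761193639746732849247312464617503549675549897896462370208906056941577194629545058327515330003304449987463124159762654954847583292210309015842803566151385928525674199367336960237014818886543944894380361242001887807105456787496844373143167868863571333906628074766736858452727276308654711766693145135396272535135715663651208289302618289696752748722484871192970212593990759112511220656893685560108002824175426594840127782345080121535434647270584676357488698528748248723863909270647531061062169335579486753952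559251708184533041857804990386100155438612624833481002505100941259282386895924590425064289354778854601569147164035461737234659120244657133028425543867298900777297448708757192872761007724157018810710872567504541825632613893658112825162144268939985267838163676688273374139208097688744127687833317946756704481483462566811324336253741103840486487161400013227008701540305354548364318541816384382293836259222414721763513308255080611727738780628842150335454797989060785492062237917695898283144138325797383658232159479971772163347849167319134193365906801368397288028175205310543951813691004009946753258287006027974645739168586515445649184622950411092424193625021026982235563462830019019126568110559926447870182993498105465095603966964030630482885536044559857693979168989178995213153876148746963212643651450735960182029921432983512092647328457921571956193743402690779095283743185532490552989577049752589948302734498630683034580829757340229409973769712978497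625332387144350394627283632448640166573789245742540559436014910498915409959140948598033258539094496606677427789913969036981973669280580421496628241780761249040470773749640992476839674238768400582276940239067613737698914854579914998785102655347609234051272681304323946184221536353657826491916290162199876207311557613386695727957938577843813776414745080299135246523103827644119361105400471637896593644842542871391568813043886049011718835743809758352164913636054749802351263694208901567001275471438680799684143472083059982889132143460884542325805929955922260859488700690568257933324956380079934266858737884747408147403387419639688364429078420591936607713235771237191687754260327641035657154704386884686950250086955740831624465025415127521164304624771580230710340986780592018559974936598615301731588254232994565010087684890487215960130206932415822595068424936592162240476392227937421482559640449870177238662538517552131643483918164611217338882094966021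127592778804160461388468803332280936748343834234060303756766707829526146048927771948992707529549432350900297128134694239122301742411895989644862672800018715944956630411758345314236878811575923111640298418263291348836297063868036390550767649424344967824350067862315642147359337811828376293983953497559523326212128687997253845945563237158123315503981625934896035058537216925098799453034260389044864294343181395717963678321565210006951439188458226152951742730116956517202353427477859687209182280651549433067730565890517548338158807651596136563214560410401503799802702059183939119287280895331409350904229774433008873594351012825835444792943765472295814993107389046195277544737533282959198996500949780989441616390582570831807166022379131119346662211104505885211639085048197217856653708147194403670154446136983906135969135276761391568477652277413099207964014375810739809512677377826392590372896375909837521232467274546123044929432619200480395639712250166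520675781114422275835580855118929792189053525698580668011024453031431368733070687650504488371193012059699367533987055509845264620949848278396743923559582567830068636761312633546549819119092208168259432655102266897587248229546205971927858918114607285277565740329961807113195530655298345131084881620478208155318335269601479951000376126308493387896686385630727898851459606939412574783384638339117248261862570457653804178268210874145784924820491129970056583311515223158249320104426531271404832065438046087649345980607731878478067856475202545231407400945012276293960496983999772445506039055945170866367017016190768951248720133588967448286525069711345555745074489563912278666371660022821111647257413351724262515109757415620336688257569742884767183831035267593610036322744981259191936106640157320229424034489424018731990236037761925603564365894457365263944467296006983683268693608333430884721834032323393088427132459905676570989264855280197107076441108005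056042097781990731490778731996081730744470254031932219696167697392265201461530650212238771792893968788824209456420675728740788098647196972494517808417649123826647165546902424393560002699198637552883511554329930210624933039392179437126976921577900907035831379730532855629139220644108893438069814655857056791855344598469262045706818325086992710562362950082906964456088190358242811861891843524792004633472165231147618966233560847818418729259597667035802558840284252319374811482925074341373487001394084436586671080863095015157572941230465683708249574449059284005245122657148943517855184674985717637016699638765426091890184132056372069471379176666735590947147232331748418859953014753513768725497171170819899240178382823754264398336466004526341888292296286484326256760349523898948065986917534296918841120143565183133815496631442327052377181849973622216965486662455021319590313212637146703860045164648364598685365728566243744364668032417289448723746276468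089117346070607884849221540051860078193543651067152105162144663661975856321483747722060305266659005203850633391612233545265057534414111023935289210068838938855246620521419712239951504251789710554798833393700233354382818444760657822771623459840689489139023580012323442698360544544362710767423819734146575143221529081914516692289272484127918048105703785571363257465282161610099851233378271618772223900911557892489954265356486302912366610208654271792509581090269864300264972126773337393631164515480197631259990711542558855483278883986317786708689477844497101800054687155953147479559216335375110062398353668172053628573738982076609406239447640139127108333474907709757707290926466515528757815041266188859576921556888378194046549019315380697065886403482291631258281496001030197615838733355382307031426524191919470576985530233318498652104821953124155418279150892165804106982449758662402019865509991725193601602581751536422361940012356052689562856072244405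358033753108956077495297127238414712526908938264598518756994943431150181190324550013962905813245522029862606073700168774695911792790663395889596059635856635671068294815532554001016235234603670962748927830060411092378224661033262375437933516229993133347504246509546868903511077540516540984385647398930092028059965803304091590857235356635649252872089716543539870145239555493643700267225545024832177985365278705958663189878269152504985720895946221887108215614796229645105793221510533012338513140076028106955984416237132653421413855553172189018640665741193624484493931038355700680192251275343633428203201533510224615296349416420999842957602555145059378846157793494731639449386725051709429413107072962106362227048023711624167150730131333055400124767497250244403009904782657545771350343462164823603465114653162279142830272817979459419042578763047610367591394423370762116051588396471666563485912670365518805420262705569333384315618737017996294592760272000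463363307448371773140369161649183561955402405901385808805659601074062953099959762914293541544860874506428261893077418149027843087696346064607831354068969462789930072136715977660563298727530962411030464979311811096555649107774745768413019416221034861415920446920773046950648193479025164932609915295180696718954781338692198027887602586899721944033243817231661442446760223449352825502612291795888444424070313617512262993514479936279666324840722984956296535491249121835808048111131267877222563135995333045974170794866394177063303781446876778374262100643514448265090926544655574419562889367390062961483263771120888279965317832513262754313810169889751327628515277011718974222961472321731062292766422514592943934539085377875846019056951428955185423444549799411055352781456109808742366375444631093413117227811529512310928355983404006366713364743914730847535749921101837257731136518176827466585441865862687975305186550607341454842076662878944198117594422559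452097621304640937625446954963597051093286458038597570001231258732969523547602508766710060204907018616302789176629014916480743786953179124654272375581403135455030700466867535444982060584132496615809046882268033484568699196453589083577421421757205706520183502474916830052696519456804632661405850793042120342210460256525311447311206408974250954239791612214033422677683101286196554842911232073297558169522362941211611746533997428056240048447723707973588760047867005885671103135144659868796636499019064306344747148005306374889243055795815798106405690148582064596684517097874615664002807666130106199097453485662406084009057643937639310663269579003947305929659781848866264204835193886605401390045929605403942026532110155748291892728961262322356789747838284774695182527723224647676278587019980585806952792902957335646181931891774942259165717911322948478726690395989745663250648839019700542714336599081428511952098148630769072775914435167864865100854862565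906577277279407631994054652248500971460398905347367054841579230671101755284010651866152064074951142362954858680758215382589681489717642023256880816718253762053232302557268496884526215731535315812875947299395024077463805740389252437090769905459398850526201665126004569692010163734100191924069915098027023740924468130597132564635926683744751633143515068324926516048045727206927603091969379215494111147476587353765227165659794049593703429604749186193367716497484387879256748992723882745964973400490835465282563209417155624206027418592077629080490217367404544227870449061296381144659021589558623044878636127436419844751902653954008100746831133306674549475547081812829848070040439142361014276672367885882881930474018205034589689186992982074356931566165263800898453799116444672699886070149800964839366638674096645478383456029215551488194128782640735003082690687936625433353301559293957231822416750478730732656668484249882663644487041074140620633066021515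558140492294139337162766319105090203777779446491215725512659766513172877690388977651281690300410515117452283180314735904510922318941704321670621154416130484482001321947440273339574506764284706567370640169981708963491125357145428320833749921435361027051910498603832118533703677977963020335887006308423112004879291410233412856725383490833316618726795876124107841406208756366571225970061079735104379157859057869114585502583792280993434924833898538948002845061806861895295556422221198277061632885732629174254254568375477141121647042889270209997649736690065997824)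

noncomputable def rc10 : Nat := (nat_lit 25852394452117892644280750634197548226040822286844209608306131619554757709225222472729187475006311932003831959042292127462301125822357568517170433944287762400970619299314949041561146163601766139132338790141380392731515237548618805338692188120378327686720873059177920738964207715847059661044805771436459333201214376212527486758467242566599648285626142153433936845805932746371506029284847725466123031469289568356962723792337375792732928020331566847208376243585786966867353233862066595581729156613977347896799370546619610615391154976180345286364078800847638616125947756349277094200497038149645380671027860364301457271229955963613646794796797539542612354456319790143763648588051479502151960462566771259890368631364843565015050477257450787828218193981568631281907153253090420165055472195526180167307789213546059395018980004642087013618919130924569263072939779630492726553248888863777760722423063595681861153078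199657607740727626645246164813142761953758664126225606374699366485065867796582933994527100732143501814937111040309280713140570793487790254376017377347286116999052424951327291152202873566436707891472051514842687835921448981936470179375565947290185601431831568124890298505788666687525445477327596695316346178801232203460178335550197682735983743619531597466955135055047925619594234276835570556548971343417190412343258473095651016637338177543230006017178768959461659152660461499870109206034278733228007268528581969784159628327604789375009373930368061019226477675397904691667907467361342054270758465220308974132664556241606753898143510122386496048452150169659012466292134036282483800653187967895024699812192869804097900082083064319986972070609828015922071497631974174564259351803948404921276559789475279332166686243056750957971728090380286509926182186426056416230621419892680222643675741719312950300631122047433747596757149226729429994392484906236587639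369308907983953409951285462102953953118785476405362646563838851907905992255945893939074755127388031479271992335183238195190230658214797479424598388910040623001033791723790868877689488664634938183798299781430861414778072464176111290328441835396945160875366305276935804364236697843478583776108209710474952442840491163522143282228460291888125747373596035262147675876635738278389098884421355858818632963107671642902529922256910706625850791289592994114188150601157024571568653536228985729362296563505485428794093796425437655289584411547979538942233654972517012469221226130029045962500577255513561012149780133849212498134104254119411297077415170880120777251889964978092581318514297842181031323947523281745420796649897712447603634950176345289015448664389543201995162998127285723153148513941217807458612150979960515575569763605863548837294081706990153060411824818652600482072508596676540162904750519154672220657739140099312514147613661281852868569118224932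760706193017626601180556444694375536161085473642502351619908490814996219353306828932634223919446361552034758595107748288478064008683716669663408918650498902244265583252970102998783516733718539949315898438706220980995378261294245113173324863419141536817079876664852013404245252366425520231730947545233386167249593119923003335125994424059345170755675088175075502715131299930294145331852688997949123196744584349529295525782926725194614451144190050723336828158885536177777256673851309958785549080515172252424743838521968145751448241579073602854345139427688341145679542428391329994827381998657013712405353067604344456267159574133320316055207462511746583432724283160315160081724081779992661736508524447421095523184773014234430069085662017112514873569542739152952990916307420661803311263940321423274552739371034134277000494296134502624428202484528809322288011185852299149763715059605212739660622409346355801033854293175502260159176060787172929432811995846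931483751444632684222153097753729095515377708710952881335933906656364273602500623048342906977537133361174679319536135478136372555617705965336049616740338542968985184308441981741875365999653841350753785471250982081615153817377947254243317754066408567921123211938511016109484882313348086561764151771063477013638383586350390032466221671729624333748003626442014034667771756554482360264603978534518407553883711420451282528286873317358690536994707427167243633553717741607362647038091685507312423927183992229083463809095934386478796912800202667851743946457288425525568884147850197211073092251457944266954176448930619085968525250602754477123027618669722128945274799928583333823010687817052284076324789488624484053368366205632734989001111772972384901245992187037584877682258019033823230407303249034699214423054558049809077134709047898446899559875069607170133965538203735487684214068953096779371600917366827124322778907867727530778403314134867316126835404759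304172745890386668743417917652968870827966326589894563493605222930961778493454489523969858902866393881870984732872734365956791195816683771895160669141670667159797442063401205286438610168820457033907480840291060855341979342393621360100706938334683525761227463962248328083855613665980597888198888696993714692549182517523752294520584519532159676902862146047008069223831540861399075554973316023224455418030275450385577749027134086562552825644312602778088255433046242456710943267252715771605067325700407241304716758474975153664219633263140275962594835889458069213287216707614794791188238134846465408667972006049587540267006656679703508780181344865663346784236109924799566967222756960447487190325996987913949655795302024416947309974704263968913493747837364621693866410791074545851211741973433793502314630668458508935026721648105807110245015243266684288594627687686196907178382923764616067489997582748086240368015768392838604845186305558308265996786536712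451846618120019334752538733614122038765828680789167227688733569216445399422318991401648546978162472863873596507953327648325507401814245081889360874415616262560904931072132834074850383168744704822027418908509233866414074954325129608808989243199841216334349547053527975002387331475996145643806787139408390701947603580046312172016878598444609404951589782772002928046390856784984047070951235678843884091973500203968444020685749453028028130164801282801638677344144319899956685560374271638744023970300665135257956145432711457822246896710246363493137427424765538514978857443183782634770888679804037526615508548106695334940990880661029416934468394830790156594843855019006111964403538247245802607908514347544068413639578863015737813495744499672006729273806133386839344430789680958457045991807544356005785883234861869062240051259409010026760073309684495694858959326822626323597769835137154504544215167039248730300362276794529422836832235128156431650503510505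868309149172772591631419320764529782459992950656291959258099931262978834710806680529440076879769940570922646515869030196671938654033921316447059081064251635305550891111444081320054009297179267237384256028850251971262166681154603773399684620480116604639190424781143957322823017582896659071787111319436069078178219891279602464362616690759326758429074832804112314779579504232340737252139560576565030599156520084297571063424989036388145730228458525668813234627474121837245208450239865635928948205071536641689896329716892955382220829628489960541961847086548123491941400791400338111508795365461626780350739788498387253068634005518079182311940973613497160878670705260380533438432114633301836495072389069523347599150181473748299424633178151518719595394087630884992898427509759148705234196512943369028908293359187848276384399032435864918180250944913315831301897049475119582344745019892714023928488835135361288775845357839255122019740831509170445244773592275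661309073689014412582245745749496369805302405135141730162359242100290699092898798367446113013222597363278898478059962203521167031092311519804926597002740327450669415510099617242855181532175422623121759763937206442951279141241367450800539512591738786437926508507615850945552928149411273077588524768286171637168733340346829802895291160231415322074954288335993725306685967824319836190253671951771316122463483572048187929558902007313246766590246135769108293842293774957932744177606483178166601643864324308622472050647892952919384552407371130174592272135195443896390040334657669710197918133298092228127886937436281926183189162882927297184278540904335501247438601358326141034062610491207935210526140971108487303383879510564795063871324395679089248522834237089081708778993107128374283792143892190172299254247047453111234204338059183612711878323078721774763249984665842638291808550261029955067999181353464893152489913314249900076243855599413047127367394474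787198020816125520154636042304705414356500616430408377288965420707529971458129480813884161741568720657179852348570496961405957115720032227538988612130990521727241055567134320031054832545924343056882799910646102337515175999619227818118196154366522119130810487799464729237480214330405937788988549802702148454581692245739664762688375596069968789815488266087525486993650969202147506361283646807158626363240995465613450697032715852901421096975245363080245707883919036745961888592316512062515926221544227504091485655493854207557361741565168983956327695381701566735130375120007312151557371473123694913564573726291676739916054369237223277188247160569499906117758613875653171028963270995475351918521389167273573763782700255230123752060324366721669629529460593912713947092069044647320369800526757682446848195246956626883443225972909399404872663667712179160232303745224447197984915378396146112938665253933877863421893038789807089462803409184108363358934238760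413977620172341246483234919523139811983333757363567691473395732307129281064941253726349861333876709586563470572465186866290459723328269845479809712921711317987446450066023254173102028195728522461832971006868379150184367415848252286215944408200793906064083417775263610767764382157804923256729091810870660844195138093593738023247223683859093206101945159278727621371596170865773858083756995274318940107210064451500395901036034566132318517877266989179695526536127196629615391790159311609351752788205040177248249938610449120793513611305204761450879220535812916093654827348915747060638481020021080000881065124835139235357034787152812588292971325129265736713623282399396877121858281697203769195382870193777825608116310672061337205555594546359360060052582502650927697120657750933432677779228742222900258643636269679570950082473507329924211375975168707054594954162633289328837112877062909247721788762750460148768674263810463441948002360825668495211556669173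942718565912790485424950440628411963796317319808385613711741176800357453127162197115100482672131100421666502382127301321098928279081670797375702952334123436049587840712449544215778229599410650160716268053481529229453657267886212333145931654395662061741493291118795863249240656116680725385080410301878451445877226619657101310694184155091015157451353482606014360356767198299498026484961544832103541182763457532582157620187503711774447149983843532016377744412220034707046169669329465268153710712155530420364239677890720221631071067422826846600744896390699024141476852175043485901616753971885121053236737154280372274797862541486488840346056393201247502728708814427585238929994245550441385605149042100686800505176067876574642937358532085152371200254839383696255513891069805064973978056911421914204817503144658587145325781963124771448360186469140307011719848307730591861528012595387880058980466991136032430864773868188939353098613022643028077870171668984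576247214004333624372644163643721890925762683365887127941009836158527393648948629561110387403128805714046156658002008798615035163383628047800365436022391457085282547430043895480179316182190478987802502153347716737183618716147554160612247402365091772839793395394754434869509857261257940822601143287603704393280122919818559669608229057549781984950077014772886427727770092206243034480170281803188338519625658662381827678458006702113119962725151490046420988932821303264918121806049420901418938719929058667863002748200522547081340446011867791232324353464351152545660769576140582391126812889485168155015723049097222576014404081180138686625213936472339855355068158336751656308536331833981146783562235271676639920681645747239209720665574679080314403758648568553912268083823926415391177554831776213374719678437654720447086017904318840107848481645525073924462699541461393386966525150782793992095572063126170890995233225235882131667146655548030773046750659709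270624119210375417478221269006688122722804984050034142266005550977854314365048647436814818359578043737184214992609810030721164114102335849543266833170011626348277487064180902659966741617776830251678961380935346390939735516609531784661063170520740388190413204784427933775670775545407784549266193896428920761086650327890292856966395004479301704925408210679579068359081699285095637098118798654244442429803264281419490356638686150184440217092667072422614814396003995429506307192206539223446882465814409934898632395766070524858511963278659371798119052658829004804059700746433259838121536568406340214353210882336488531747137158895253721430080808813165846842954179887362643866663967837876966358215185007102836825825278999899735660447123199534110583503662542228856458717500420136923716956502895255601289802152000260809043905105634333077296236446756718199721057570394826014841142411416927683443664116247495936797419469731472638388258427286419698803596546671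607339285311377870772466579219385353804439422347673656475935978510088667503203741132926420277753446702269622966401348003546656648937586659488831150758119872368265210447835948210907509787602489004497055933250925058442729354705045771962012274722439620876665938073319432075997406354759530706103959706348551428473601042868941810305656871493169211992918662028858371093736262551571324736168532249434880171132341941229014044925995644636451054106349293579782745898907225398067537495034308786314804319475039467277524434359655438340497485834576054376345082905672754924466692550288009503074627240522103223653945245495554839484375509694983577007510961190478057404588638285652875983115432691839133436779289317075598426490408040601123515852503472738232318132000290701299346713394750994157399218514133876050058860066473617959299430853176012615798504314057772610360611331517071157625823102796769452210817997855178474414964093622407197751479928454860912771869920951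184900465273855001681427520594391434347192709026483602790859088049872566113182745213683955668026795522499871758319407126907393316264952787879511219214211933726869880196797591388869335352537833495427623725457348841501550726295663003953382757408654993510160113661066536765873531285366482358986244878792708169785113441817002994231688835090648905793479636971961554030022410049969242971433688229766155578204801932968557683403937500421573639060928291935826904318141019751681865774081948948527247662586387352040880645528370388823359169304763288451091015219035379022991540288186048679024326242953047828287306774883409725133572526303619826143964475436373100176675066159640145375339279530759544565391449574195623083626297021871518275648066995625900149929452599214833281242976666651968288470301530812676994361641732186366423594211610296564427415353742231613641219514501588170695542441354016947691943250564026725230341225607949554372027256901538581883466698344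598689524782246476962723413555345412235912751590787145016570151553951828221711696218186472560701465448355540313528711682258022251736368336567909853134759946450955718937552700201698307862834271574493183824869111457439995735846282859373293113234832868320745047680628468541097047182578405402124796179576638388710843563048920116058206455321301059599196479773518322099165127347768798722844087055214716721361677307202254175711715090984694254620392336362808384748977173436990129931967784990058141948357980132791687248027075863987338753709021653815889524214217281923149521813877837942924275034851415212598552826947285799487054959050229535647369212940825985334917741492044896136395236631246688669584905559587025840075136580954879870539928876291732916689306090354891128475628282677366754949192218163128873197823890227960854390549036016045185024616419569477686111373763264448559503966936532359280102971857631331865384994446347920315629698204472629326508510771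653155513386309461212831636877807249440999010009034329159979718784264396465231602232393734804721577179121646035252132061524115623370864566185126535333085222393585584578288931055458821347408476236745212080966403065798752930405222904780064311473685096306881214710816296192859655482794412426640835040566777503465826804728958063297120333391430656093087530733077695049684844037578717463264736246583416425288641819015801962448417172498841242710598175113815257549322434907737214594824251895469752553668189387916056099300284141956199615373998824872883537802531738920325471407715447635395716291792285489523110029943844360800341262277019948583479019482745666329792268219264602990207110204220330823792664666339798903188331766262627566689326597919121265317108702868366046697355378995681475485259503114351727742022682589751258880524071269407363099370286814354317503975524221837024256818915862439425157401780609176349476516725790083918183718794163117156485369586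671584174579685300661482708128307213573466705797757008490006814373749432788785001188809856982764555337294197333485680209040858031096914409182488815875478513610734971026083530426078637293104847469982526109799923806699731753826813175599775562387942137637763792555838262671892947375557729038639627002046853511191290663577738029221083596142304680364107702055982144426304694333266790298877333992832508439981973111081790336230446391725746979032079586460012721822903569776255557759341771931550817681224021460065418515779660491754901847688845051464170164985357033277660412869558447654184837783446810552980162888039630301744855371468257324067531713001134985700444801809054764619990126058900674595726413997539780469157224183029233652596418894711806126065726903935854588997616214897465617431316751450206160110622456529347400894321028208829870449705054437521887948348628011597207124181113516189163795603367186825914671589408292159975684748351776561880465605625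8997648847374118347507911950355610405566976013933023776982247683939288637574356497170914729863882194286487466680089429342685937569985687418191267755947566389613998977870378479969110207994598170700545111360749129367967837099706849307094318411475507053158094005596177080485087269164071518035414312167412324202244565463713249062195400421543668623038498794188033801094533662435007196675692400376842681514307577544046368277494454788215508867616550156421151304956462110813791768135908614200348237005572911771262033876769849854734922085081771372955816894246177210368)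

noncomputable def rc11 : Nat := (nat_lit 25943579027564746660078890519532219597060270823105498630335356777224317630473982065894888719246933739156547811809094150813330989927366716116063259042074610531650767884204429007218704854894480175677320663866887749098482044516908593889219482698609148828283802550408821149640285921495577266718714515278224143323178651411868430686221448009933588508628476772803392456892232342346531039293023986440752581410356631230726081270849706004612201752454488110381126297589651982948773038343732812080029409531379209787502276747667335301991384268589585921335618913060241391056905845884674584896193509833430740216479686739486476471894347862290362517482525835353490203517568780146506322731789338598534042184772362863470888178577546088737422433836085808854116519712326999160233601461136309336136802726009413123881733818617927578176465657665407623313107399192093453752094084809996376155996133347509922352737119655833197331461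243582907310243442237603746073045728502902248265942813962768565178996746524759169327585384422774726182727393530469831327605070203546683077710639173870803925956251196903951196406400875999725949566910968015001935671108380061623846751298358093925935815220907366928336921329784243890045232753556311969040335948595798217555885469567712462066125143636333838284536548024796566879692444516915299308225094633491857611844222030416118411386029029007694977351798392535063084494294101385144325021881191726615478446538148624358722725439478876900019046564663961693058256261790089934740557650387598319273067155808018128142793863124902861066412517097250147927844726302673547146924593942302580485993647284050690122700896959663915568431463387993694002131953383619785348197738105605509838779920021417257084687843556340164360030899423580920613303102393388965212810097022336510199243786491021883104775945989421486716702200467610229205275131397298214078386371113943914748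727785228638016710987096604412429886674060523303983246168894531862564100655807103992507960855202594759036408796845037689435412902243828995447876126019628381895114903835412414729661715092241235683006395110782288481927243602588716474453040080453693703923637195991035790509166553047487900772944487153197391640506939927077336482273546307821791222998344582795829935384357482732682121631832885591308699410456002327340909442358762077736710717018645549654261311543237119509746650176418481716773503854767912809605907552039782637751050316916421225442591734720705580996081496448742427373488048183176969512476305077595342819377825953825650618162711334318723855986991666295178689320255070052924320679042574098068662274028077647712279143164844116222388041540320602350533851978439539320582396331518677653386649784700496170847269267478667760645477180271200426623430095606434257902566052172140559629560003633366312538289667123160254401965834376966641615590251301195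952675049206385438308325843426585674252148057344551974949343803815554537983155964750247569304408559091340009183788610606514031938948585962652960605517519344136356328538075801140025339451405941934380481176519863934551906672303381201813712876273916728207718490303354561140686012303361070733344240732733939426033611368426814004043155820182057779203217694861931884241610202022413416930116392295266635090329672843097366626682789949043431682711272980522507061837109354124883181565240752471435226709068653646020930252593575201203657886728160771016336479008606010217602610498987755366847264885097699552820499252914419511741056582308771419230323228750876694763005466754252814322189516139574733166487034176074426193523355531239778338006886814551026602999027439183055115726382730011462578959738549492245540321762092362093344604470607584392007567739425789574058465567205483523722566432515312114056735851715951879407233699686452175074203135219156404788041002261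436230606051739666052681500876293928990660570898502857872675392894311160154739536103397274479388280282157418307305766371689121913555947647772997342947383575948241654188313595845225135652306258348327929783646943444512423821379084790432863133557933941799930091503286944584443695930019730682939746161064439640506134062411413650857861247202150368174535382140663594296438892021673462583804391314045089020826282258847405058083107519720474874978958088077426171670746728887919127836070432393117166956375305784870716447741431410496594882247222807750087394309472952708460690792752253993400847755449088066875930885820469641029401483440644674500958347907747068990151557391179745986580949991951479106737638676900027297683399078593239338269204337574905132385889293469172487077682481044280343962778299089942457480905987024301587892970329550149324053712245010088502916616013590225745444478806398817370493469785844792211629193700064764438876927338640776762780932702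089922154963889591156386541397800570764113161438622777356137132317749478744766834705737978793062208502670638059040051402906831348478932294158684340084084863432217985594477814077695156874021595223041931288301472875733363007029657151858943768890085660770628670941131607741732644772257747742502001634517941544037636903533425338115656786117672977830182288719442627523152751714430467169736850366498906272307100380376900567952226052999769995537393484112930461830258478718740361649381427238570955815136964479976195576982867450015193108486069410382244058362583197290590946031910563725200730891528461758864536916898396869866317657755237835295849430326999549436756470590552156821827607150598615511222262860487957972829053048104058677256089834069772289493015611712728152365745646779736554616068661701552496530326775121025180006982841035484686811664629800733264968782775107285755719284951034411515809390454916829782147053253682188397011012167332971592234065158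823458038476095390091616749272682796129348022017392366897578433929946910228555720096850181763927644269070383301367238880791704424767992294988586060724049514235652781346590936627780564976412287171785531427941207989913409502412962270692542245444340473344958772493318467703218710329786272125273549860043624020354178167668264723624633590097528075218217194084946413062146506087014859186047414572963621165727599361013029906510003448177931829181633186261491245119773243905586681269272213105929024808534002414746921627167299503767394922973244489190550048827421441981977838565322016976099803365191559888807181231104434961239713109847998265605858452380067091847203914758522119327232561935246978985953971769166278240963558827654841850136248062587297068641048788503449626871222536784613646887797530439693224579327889240438496640756979530897553339481553809382961602015744221839681445034942899679602351000094875951105984701678461569878855835481456935706840472824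057115764120394335192335003740292317123866940758903643759326412462660313074763996415875591352275219636175890753623670767770029812950726784202787574015404280560253572810070705452241208314026272439060265690979419806033779434963456390666577223957935005329177627614611277169729133454893039868846744232584658465565341168077388979971675439077530323035502321527498961411466484111740152234825491339389118249801497817650829893598462703550656398861890849762324793583847230908539267964964603895775869573934983728502579257334470894602240892201176428323750023435223143174414182824523139361765669499084312225545840477537997444873605094455943932879659201695965724779412617780894138242692231628670813404320002614289214884844693739551850884301452794265021399315512620061083673076433416084819820102676506265767892510753308565226411508602217692536906649511104442339436049823431131270128214581735585138925971378342355620429628371870523070253436585238638710261816047784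898439865994513174009929307486425996015667353740325911158859381327330618130275961693510874601943062593068169173484253691053933177972997964428291499083387275288067267287898501806413868097319764607899984099670179235904385256253346689711672525096403767633839527931345573991484362347408419235141096813186511719605684424713605091637617754308673357356890150148486616994551970961487382103874245664589178800863976669765568870969558809587951312858790165538968865690096247052307223963984107394810412385814170201888037621010840252229049023153997853396596288784583134755405669818141696934664381748328167912636723967187376350132102176051164450741653827767653891346859090174950189471918915074590343463548214398426634461504218746173673754405362489629363683101714234874613408282673014091124980243386803432670420707204193181937323860864118665266560509986643954221417939521245785232394899564925166926553151532910080272738955223020788747762771031946932186079048474090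423234018008707072457705652719069954857679519357882181653125868450514007433243975150432319780002512423633263155043801691354477198006323389577932105394263795812083746193868932312423376623364372906293803544818212362197264934980186171980489636379789224793307801323399759904478332116119859111837847018999587088557186992158682150588235986082923731115185089125919779620660554935346770373593385223114015984387783723495677497641247311383626101886129301268943130742067481699703066965340308069197970299065716918791711742954405452691969405033603030086656345677147377203611996892161214083153379916404388711674725179317579106431156456933549352142978293870093529564419554207513619323740059258511600655656587708006784342899752955744384071904347936142336500982068778716036130886847674916667419754909086882681971555849208991679614014542110211878951309436192360590214215298492505587234109185697791613825285946673519497146593466046942894966992950233544805951413627705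831648813190051211504588284791393038400981542797101181300005455629181729906372362204345606605848837325679178193243779676363164611396026130108843940096868934704410648088802490368998918731794595554004742960535479393380404459379669258419967373101373018218173814495355650217797849863448767812715560064120401588607068561861056332153554844978330451883859322304640955872005374462476192705478947881430846639757761456127783924027464454821926768171828289901885181829845593879791910637784246222849620130376294097449075982693589619137090106323644737442045523663613381363145869223014303718048442408567874581775471736093679828649706954850488406407311612077465729856948879687822726524582749293162193110974710320171759166561483789389095688813993980046307767716303422046288509586460794898729605727824554646598182833759068170662433384549236912985495982839324329748958895585375973218743066159203134182545976640265723750373492271103142949056552790701548029843026115193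485520297401743035746774973396712885995974130667438572032800520504179567661254808474705785233450393235403759133797712985520092518796637788753533012007506422239115959624362396796773879073441889639061616311123980386178518025729663171270085717474686467772379918500921275087552395456072600776461327677107067069035921025742576789675869479656414654739469779909036619562303153641059250016124149658275185388175700230042205588926248445270083278803965580664032294704553891874231335871998746940184898946683971991620179299877587671779379919374893816668271783810160840410722429279418032628640984498097233178340759337909504675165381772639495822335168949906327795453147943745935174792360254320663237696527311556387427738244888702868286902362431806412786850825843042055168466376514757475570556038241100638921840825909785229493280371769335970686412603955228641588990415352971234974778214111052918544162041744249860314899153132867629287737244009927508768275482977328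672838721499622834954124484370483807538946308867461813450390277649835227434885679791428413488360847925904852464571664462592714308665952106385286583246390913306268881725568618609153208523990050680337345823602333048328634638304577073180729426492875309247281160359554010528272914188404692147888388712046228110676320740242105301031300110583157549499033384981684416240401550233008867991851605083581793001895391520010746549600873688236665531091088140140750582842812418550522491040786795722140331893884132632437321604926394284202164191140896056658796373430531294297405531457255037557043272763656995627319119941094800605955207545991553347326785771090091264352513949596781069113284534547599952913767105024116021400306134270134967720934156561143924292661973329017247513456836167928348380369619631196444560496155380878350568361409928544477488672785929732031641570541629971799632185980257556633936405846905843702207642377839752407688132713484796318564691103925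526950870388312853296988376095883496343437091035969305487846232109746787534214618741180834330808624020864332605298057662744939474510088924673319818721963726805827849628271298309506029745935733632539994829333607680761468862722905915297190999979387538215657503639123222533841963499942201504532133501649358029511908568511733169134040634722796050762712221481250858754566195092358634190165579783593600294084060649932355869219121785878875564729204189671398310978678568734750673767067875973064299746213565495661131060251549603858784874794483895942736796213392607616283979805026199944998485147883065143179096648246485189606517403742510097700169806124093934374901969139747338705016032921937689742602837030309764203236061595055731453656224711303484728404687247342414949505170637984328880865630411391293188053675790050090375950573102216070285023592475553095642445587556924390269529799004639807348937734783147065119803312669909091362528755813443567313914020139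193725375021124293055208680930586427773953093127951718608881714719945093956550394744126103643009922507225546304232806434859394094230852104263925888575770843265508136842347678078597587171097518067607956023297491203584111449973700169347244804216258464968674162930701977830350810014884540298543765567504685223606427669417815952524167164485366043653462302539714313683981817024605221562721104351791705173498397945987581772120387560239637457463737492231311652620161987075007247402630557990016811656687027255737583296285202417569998590539390171589465040472361386330567802111505845814122737463309053665140152192272698557639289207888857574305838565991748167284295160764340672675419294450781749655940831863877370909016279561011928137573305373504680259313439365561013907117135873319173227765889623610797850256116603956033289874794094184488744545213059905854529062885048096957871613636010463618128729983938808892271657199128010124461841006865181293906784548055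700376562533181055194629922321147023985230801650253442985195923936192645755129660416209016378072497003672379210804408369849524663264311607045409661740210306526468907535959234350244982796676050133219702859974759935079752731339592163313744134764698618286492485355818187904224617118659712352196270056750885550700144994387747842627234300879797674404685473131000918519455725969992054283546469631302915924214114277689537634228899655888720836527380022741273254010087778958637686426986024544136723441497091939411513834248546419316757160116968330981781546468832525632354153371302564366759695317323844344406114840722479390679131558074917140686626507560809477956015495484003835335326831971474028092480356161227029155396378144472204887875763403232049268765209067336948028226359700291365329848978894964162082678691907894624182296141257820458791180552073387164224589579394251671024194457594283378486636547481091880353896611043824004728568732834387642280270569282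015498037136672084201518823575777846571124060909299702901526961005123980930127981973297899487885980104703888601483002753985859900201682077112806432790908954498964445624610890415408512480006809997243817730534917366692572124777009345892552852408009680001579206241343880956816577773242559420546623170400538167041280887790087137531448150863164471052384519156478410666492783947278192684503560312341744060701323011104282044776610878171608627253271236603239781901078864056845296034962204924498664463110644626059310182026459937407234369898374176509355955077585246073668373579370556262979379890265933482257196550265299602902378968152853609351139131554297723645682707392842382848967890298709510180590712610708199868681460532543127727051944779999421810941118248125035088436253778450609554149803751103692631323254958334061057685169264203687105783253644367755706264166315548224280803555665213643979808004452713796614142306782010656381181405711710359448986732322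366235584373100726645994704260268959387926456856230253274782586423877598254323246521398177089540056391345847140651849448110022738517833894066915600755310677705156867296357334758086800645727227892976603073767466538794588278741363336541613735183442934292740885593450845993867932718598479265576505582116813185332722857733812627384202287625620319466044943252778175354034270670410776273165406170124796485709707522544407731241216923852734439896430679425214208699562198636258406730151031003036089214124028409808458010970947638424956405486795196186556216638616168839809134378583577077680914848149078718104105137316017244763855529750801610618954722685024057972247134696196754420481458397963512867847694444005534320290999958650089896474730729181197820795191073331874124618792173301256756909456855701727602612490382396604307812235928500677285904085795646141029831854582994762111754585648420590103187503345278885236602671207534571764907741423991840023449416643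886987128547791048927841135843821064727787173767322624536193846120355313156177166312221765190407976020988841748294285956921430539451971772265640056115486171471378784887914299936303879181909274985337594120058926546315841713002776689331074975064659762331395577935727823334037661464594914329846779570481553550694114679550181502290278905246296182507969876459371041680862197864448942972588848255843283309551030805479107480107599026766577938166558135578909283638125922337729700883385284122002514054180941129409442570664276878045977308847139076121900432702440818273614439168181707114618624792549971393286637743346794718506982946170019003267049529106098648450953198019560303341759846049397140158605892127000235343473452668123851566722356468988450612838473657733662703916513880922735612447284695613816780697290303266762414612728570780133926392191171388865679369405198120111638742608915703469339572441959987882699470129617015838444672754103286106727583699178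0965664421805931734223588177334492784094844475603368877886076443764494709352099593979908437401839002488501479838934004403318026517529550336060225253527846481019430417847900596052062524367898342175896144390107387932791935134492288112320728495796920830304165984243630906519984733587345696067125100081841195792226491716181339157571571996555595757835819483128926310555922957545929187821333693089117787673985868755582477777144206916382696280274743055137336995027337459246473528379580293825234827945456336882155519053474138950251037962859769064678790308979672088576)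

noncomputable def rc12 : Nat := (nat_lit 26033033939804266749420623634231595685552483212345764630141622522162965916918231968651960202815598491165954803386579244949547926210198174028400659823877879379539858707999166813846609949909796987430706935741452843562784524113098854569574028601391585348495053320558871506370027861502087620472011927493407817765763860707862070417790265383500748417534787916076567402074002569296940430659653084428671123843831543358774164281330141160749854986788499207868704030135889984049807133999129349418030322883994934940634540872034645733932738384241482519375426840676150886029445470093941285813752607729254572856833749912934195911161708754469808630825019691367853721107242551448929240426969508734518283687791683866177149350750661751354260222716494574529260801139203884466973887171401231623373205809544627641241969838637034346803154211287104556462607946950605956134118651231498035181552442040918034105698884125081542989007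175791827483881224037386082448744989862621459032210812770881285563556493741983814799064942517511048386127411268253393379129023732900317983322030148640385096065242784189363569688354549913438101021215678924014449484601843687060885868333036068515921230320082965774388697540739704266620212917522688983247116152519307287166672859869332172635095345426469787130860508039548956054369701940364476238065483028857646064581899403519988599974803940144432100717674178153187053550428359881233273494605684714028520630930594156359717896971115569523391595878011670172165042646688231787750933246893932543937685173330283394139632583431355489873975150487146392640447385886363687747547701952390026578539584257933484846980155639264191848041761396637371223124884087160051619366331005506335094011831722309902417407507515262767801364689439412099871843812248989942826795559064625945665992139216284912311549646806987191682736342171291945370841586535759186151110576933996889364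623542300981255847865322990011944330065411858777363054623242712381577153427865585329323229961276187662391687904514992814318690201779152266190026882424210355938754479177753515193195524300096003593526663066138257449754225856305163973652158910270860048739862334224874067486443982250776363310680193627114052746917425851026405409105135354269740692428916812699472533247832688601948935267651430458432159221180106691890326518391012227559722287578923326699523127467339130151519303778617019145547618394241027225597872718568815674684926098379307012298602523111599917068874472150168002966622978086689700110434548720226723652495321128487137732957615309006473829330885466000712732409714133240545234798420307054982211927756447882225044836066361716951189137402147183338371980771319246332290643167441151288337925119397090081202111931167655764729560036926130970258602076233937347150159904936100604792161018500964678561469512519590996498128209393941883264655957859274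796493369910875695688824689277149657622003981553170033841025970194943455717303456518629203521717199333140070890125308132355628668595118312182386590857322205877808472865027442310306747873357032270481762709047713564089177872931196095785426637928525147222809115257948001762105812321090699012617482381587269380629751586180332042879427135029920005763353273782415075861328395957445544344545208202229252205735851335598026398320794833981031413754269200803237742432318573329054037187747578072803133948946347869375113969339215801369421244354206106044571834298159986193741832012769341117553289271916077478097152901842623304767764019117420102140881157094045946438370800105435433712929006432996199215758520466205399973772278568674647994741252812850361420337607558088540276961794995373389999469171966465679448775109021829731341560059338225581343582328710082251787824406394731195912821906746369362405114374045193328128836019622466539271092267872665725125546126077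064463443896081570480017564044681321004682158731406654314139907141685883774725913465807753725139676864999662008599191331889140898564145936832639912064689950345665725017282498192891884503849825440870640385408194938307226723307756645244599689017598285598782215476901953250935375711130446703683373422285953524714441736135121659311895510668111167503957173817585395244201250700853230088756959313784781480328180301198399767314721195752768026838265278086844843499800434922715015725344889680888814106852941992202091053752646650126643417096984989804475097444174993539670363941650514319629561730752263417612888533803597910309505502360217909080602700603136785904146645958006601963820497486467982244733601079750688344431037463736777277434600602001474047410452513402535138581686241166879548367462224854444610655332026905965071566134582949355731064544507500053115190492190673076266324427471472031899112131702299722024828648633420097061057221571457884709791183941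751786302587565336784572865900886452179441850740757032008948350050469539819907263361140984207035215373396422195701439874761354562730033396253795196532843951239492451198437757348439145982050675250760433909258092022331924666003299961688880702316785335674755805051154195040650702511075538058751242971427517545652781514541427432296415463958315176039626570584420408720708522412828518307761519942303478495704032163088545021670214069383094720386716062661717267675080428572208201383322291174661250097225170111829115499394257027247273701065462763824959540087011614253915433804380242905866199414868016496169329586929129185463682269684778456709438223891538744894670983337075523408149425307538144474923120640641018907215740169232043829112279089603942452897733569877276675566712108178844366199222603708693031773397149186081134731769138668133992094190032497288085671278280395624669292771717395486977404490490408436203369567864065373014525837738419635783850792800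490170977591674002161661744835650331851796186853406396625566191365194780412785446678608467111590283556591390539197361341517260094934917641962479813766723288574530507650079868648957629736594924208730761297581360529908439077841657807285514808267645676287183318024872480113317571364608626918235672163633485637356245429964448469546951783280774942458157854696290731280527901435102496340797386798058577110735578433360939499876547728100801426059596682138573298847452106824214720834878367069209294756279384430417923263340582620434491097106018881780298695913947748702931219741480778538207342778672927806202763108952437079756892548032934362674172536584065852149664799591563836854602211169761695878381817905868560716011357798187723254458697579699307073754912957361266494384044216479872065330686365748034768037484051794762050929806059112962005672550153724953990383622805906876792105450192165545463287394408502420984266082512325140938222378727650969960880746345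354854619354954329924515133381749488943260287812691047554813725702478078749111990799771958306935070589787118578965417477376054867659410095760063131051464898346560186011731350773051373602854384332267065030825700622216690677537939219382479927658114104917874755777508175711488388613210879074611499704624206869566749003204738290580471446789567279098843230973225796225313802397852172859876972921246035984377443209389679897665104065422938873598057189688036069534891913016602697165873371406958370742546714303192553447931437110394409206933623369134080316136029443502645705456277926162497810044852062579186247259732576667673895485964724840993931888881229835704344331094575624731477027727653212772063989215892021166143655990923754347771372382849878821445492359637483220325528593181835715257345596325532504802774879236208224161555550896547786995533830981333240912510653855863026055285805834129082260389252529485572295266000312929239607626063647832466463379841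287536764715164400352130666869139514547211605743187881191505535502902063998801676859628881517195127707760336987101934584473751456048244734746079246519212522337701300010141913221320039206652511141195121293647825928122513424802895426087846188989758148396618952761080173637481905573746821007526198164778719796503520393003970429486437747907791398171422441274671549617997193610493198715857352990701502902335613080809240862956637374928064932107901435883282789055572613574558710195542591125961224568004818021107871658110674560161792293460877510898981072506911666964128164710563335209792095051588792711863354714263187002526959451820992394944968442891370969952011799482191620580486224394894829991674777165662661110580800043905691979604722187798660961061358399902959648786249521529213742441190054375254287693557260846167360183722267016020547895020201873527504191650585237466669522489116332896324648433336153370254401961178857813487524217937345098030193394431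562567541261069917317989139070758583606885301335820255033119162582992319222275139696189612606166291069900692736804379831835480668075615605204622107692054284551033394401458436837880076281272210147758471083965700656766241690654499246935841681501867246327169342424012091912648491777756962166582535710842996485393107218509636964466003720330320653329545840492160135711966093228095328224202351130867693769719490481460505930328475242957260715010784079988571940479107691340489276193094470390409218205350408123451279825762991942234344646819705012140378276754345344172766331509540434143133564961417817327173126398608569024721148941133689218716652470101477162494249248764450873277574438144444581488906261975211966913294581268482557708670181328341567301587433172653626236677423764893477876732382593712630028905534738078699747621065569398766491979061052473265290912797867258115990657261819220129907317446791611313902719503897910755471786875181539837371429854589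887241175780388966545268174866344430543659326648784347379563597493164356539252929397571644161358295912269284662347923555250890099594028242220350955820663306839841298616221905854071024396609475206898368748521203100473700940022930583084446211007384307414153677482818867062290053941738950258816786325895336226425155686234113780124617356949325015061382349563592724559352009817137761102730552409346651647880218880956666857362440836117180821511686702386242853040228559907756870696653606675135074673485810894112643758917983209888855312208983554073344870490227884387265392966556487497849461888073406641699733128792791152853553414813363963051405766929526043924564634978483187162036001442350822856229523268298751810001559977007137879613837503745885217694535243512711029705346907217820622549442187546767311270790814042965888186799606805878431173851320213055658303275545663157899564546704964227227564714680579343720425464143126565716570002469252584389250987269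983992512238139723787328117686055089576315055942742963523288722200317125287580889271161292469688417473818715349034012240067225751707023087751939920605841908155584387890357278350693258328314851648151860600360450140122519918723463463146238057680159404863581176165329576328562864611164430596479061407697204925693845461121195453002631838995291300088046640429007677854599841114829269940721144528365071266597228306992622947209493974346952584337036105755067174910968137996995379112382361490892713649097435176112983162357354955287391080232977850424569688490324017277165655024949261908731965252966462351437499762809141687834472755809031042318605538047099255283890964411174981326222000293472174840181840785975731880599628139036597600210842723293747999151634782686525204829114074032415082001803286232923123401554474379811176839721334658357418956082918314831657374550103252584019176466169614560064169131812796934786221489072333327954610461990519213584310564058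486754361974646281146750837336256084076779723270356450148553638635850436314413151317908689440324872427385327740348932054848635006165550278464425202821715143105472955284468266763743153926353744274405983348616909378324346589268908601800611723831384318615425641670827114223687389895115139594430877633008769268615756394376423580430038105704509527702692695735587124722706090162593602774984505241068275563632984141096056766270482007534677001656302293210787654944145037470899109991061122469291089477274573361599416881561134510049220183198584819415256209646448204519544073720941564871397082691492583158710549649695745498374329392287458737819314114022850419701312347258511103064882186556042448587009800523622862637883967003083114977550506713127431420059385769787633851414897156217209137354443175956227517034265747914474664553639681307224685022919795786115894971488167511536037165795019136778824918919559802124891097047924044787764262412795061879701877622277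581998827615022246385613132573424727663154766443003985715313528091223875653093717474052132450371072334355475163619639097474096694902755123928209072763364307602391707338389374525380754867033845753154340137631851824289901293061602287048538624024998363144724577110977769183102319385198802760818692241596338730667418481510422376721617530161584244950923971553285623276103927497193354322995420435152217693603090343700260053069799501061207552240302631176048522249438961855803044035223261844197197216395691801263401874712199730454803654650536800753886542717448111883560024342896633684777124251384988380462842691585839894303504111191438682872304990867636867158899698703075438524185889512357302366321771748695049376694430510756855406758456368664498469104230035279822073200581582744948279132087143770468276632400249599879520791455614711375306258780139096430780587886847387169829328413768126587879496985941454804949921078625065783743388948072597439876080158109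600587297783071968124531492849933999343628720448694631809318155217724279170173584347438569777852007749934127691328649813953045011730539871345300785792587925387211714840717250012462537299989485676166204625957746148495091201096736611153323243511139458402688830476353140718613937715376612395842078320285045470669979475013247151085323251087268389312445100410530773146914599733559516484687531095410492893628834722040811196081219238600324850839404592592745316765753342555909939062935503323983256528790244393639759690259294373885494990540174350513197890894952838291960273125691603426575063780766209240245172527245837400026056950606134032891639617932331534118092567245567561045041376370671599202380201260813408315530732626204559815029268693264683366528490485327816782089259968910255776792975395200203074162637699904677590015889851048647623814922409323605061328244341740681231433207577002261107106615512558660719388582436158939795616635158172240122584806687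068394314125349934803072524326153722966319546011853924720271713026127579135228942739508684804556743163109173071810007308907099891400255442336268642427974486464048712545890796380852707828763897506383805960555155161083653732413511549868476151994382735000408343309225809181414196628453455419163583253604891216431054022649980562686656978087752000339664525014316029566219271425651064448726616544227699686391158731948620593869873134266270386045136214650246278448805829522234336404366347522803650745551598899308774866044508413331924775287442831289097291006188263204748256947974955293356135764501682980540823184128625772886552831126142611743031849957876538957262415843116056231847164118696738138218089945406763657285698569092507698309328751956856101445698326069420567880770664632528161202261295440001211350209103833857272444099425721241607217090955762610527428254629923397002708086968960038315808507470620181527716865665221688654052368971195336910068448402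399542898468421566907872980906477975134822397005150374511011952106498589904110505435295281240924344218941262211803875177719518005285846101418530342619400247335784250634078076793343594879832283801332670039416102752341583526245130033243345274201647663759827207433504269103574209552232128193053625407988746291250536040907325691518810209264987911944214791330880010187590579990618706558912556873509887726738551060427704919735963945466650953638793567643203804691945030304636202114709123049320077301752211827885460916950313741605707219757880130428798566427515638897724872076846889446781155359291842099355203351240159681738901676892717659101268793604962802176304885554013621880388546035592217715298170232119763288149890606336308958318841735662896252090647966740040125295545072104252855613367542829994341705295161773896414970805816148644076550655873590477141050861203662589187729132278611007495111070622491116366339582463600095366330356100063740695264964087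511188298989943583745658174456131944735757868197960955888106896157015298456009743007076106755768402639305686423633521676429744247500885124303020067251095970293990146427705571037714633799268581540585680950459491109252556346173106267932597797643805887119953182992186383657919174896174642410771335176568309465464702906651615740870878359503150712256329618266613612608076964873904718691189179263759848278209780411836015341840896510042124403205245197246841849305078527202879141224042471734691135305627503113520495541897040840955432772094440565457126205369560484192585566440669620436341269774707133848086786724316967866765736198182698795132518308644669903634736404090434712954222721152657364721338925409826100723778708254688156817487472789039865195777409113822316635581333782347150454144785431746919829974671734551574924895501306418041116795293666677595093884241134238222727187060750393461157515972937254376164987345987680156728274116356147182066865599704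815603346693721458613416447042397733896182759022654092239768658834504513889733272030924281893419293879628885287740705209662393392749677485926910153155344449592316888829535650390328639949008541287392484087742268171829424054706492451380773798296876226755198929202041299683748911917389838803282331654072982843089287423775092843796807338864410883725986249298046770228424285436862822229828538787686015400447435809895874729249574911776937425480772396106534647129692753028601454204777468964677013760099674214545993438561843687827339694013218887109289943774039900250489514766164142234441976281973799294998082505191683133975768399757438194601178603370906497679789351161860866350858421638699722033477299527863307135501262610135598343790498608433168485295033573216981274332895899728521244131221738113138843986657748005576026996685914328108873945243367819217287957228609987501563323748966936586444764909569240942404316972776594478270326344669449663494445862608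3878059744420415917732868339961038857072746638055807836563585357159830289125368099858545202287939917933530196471545442847253959778387060385469761544950250060413875304212471179408564388737603581963991634701380179425219806528676274297318563232429433585998171254897772097022485818598138123312862566974781625230429456829421112970010803912357259389719455302144010427981748916850123661861114777120916317248367407380388632547669125883122814015379911481564828173424806387276864737652606803544072316026122298424361245762787993857343942840368383167830192517539726098432)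

noncomputable def rc13 : Nat := (nat_lit 26120764294795123622510905118105049159785634568163059689382393540038100381278635969032895006517559947429177729687443299347901563279576322844203793000162381361842721286838077662164211210458908378567546899000602259837313649791649028604973561901455903836731460656725022944978463089952913145402092463424412313572072412444603205368801875314656905024802783414815790565046128950516084390744280928579033330622164616093427460011077941776784503311304876663223637641913493460559296280372301354548395163242167075831935097240614865687325684157541393505659941299552142187752779920412054889638982656441308512553233624720283775317128845399209860008534405360765161250741854182345492465530147460965716921561161260469697089407696277807726098165048379296032028186193774470382095776586361569587089263103045564783604873364222603446242767506466810227448336907467346966860988148045003297191385478348262385853317993366815984240919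655531991021010420421750294298384562177986642326107904845228002040640489880872004277464240990290116865797430202588496937684206665598923803974240611608753640667574136445345969946331660079552680732547446238501461322112497387370264454297294629311126666484545652500413559124585242611522216221647078916117496954443386581228782301540582596000557933973928107974735060432774361355105642116234003673170987957216068609675052617224694728430969825715732574171333390300221143242760219815901950010843099993129998677184737035005850849444726608210093390132332269822377261272466920714319899789796016907305343299151355414599092865603489013737465732766158643967809640327336479246511226462148443382592694885380357811553684632193832282425574571584183444814528431768908890644567033886080949492229140196917322427102374609487849098356561727755918811451370148367648682866656693839635390785504464858340526908619768099010453652553296218688898218772622295915660150490674430493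698590309990574612553093620032234015836516679838938446571083711533768626477397441181992348388207505281534140214871329632763015475377276592619434184023176231207464497253723009963784556624152388417561574081851024478974873568666481778841970861353362594770405319820588600539477305536327754389982349242042795224394917924903463017703749575197755999439915538653909231635847716242782859480955063843132651563724909624892638718888127751287220801236959328797208839813295638132263876342038776710125715836521152417357423198476921923621538540947072883288787865353717530615305778210009336688620319723666740280270533097370846316226800314889738574868879569082080713933850869501835959979864303883651614455047051025967337945859886697065117101342224766993826813005890947652028659958967849460548131317452934609390863350194067290447837754552115952173768148765334093825102160507206785806597640558050527588852868170344383616428323100780818809486345332903523254419054175991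096399188314581795747058866424899389719101863414096985072379074102289222147797728654293007503795245420190002136852271783003024157462312370338456254156665569184208309473985577720780946049383527424054197896674347932378550336561695578054139235608987386078652800125530537316360503539274121224407705109262446271804510473609265397070516572816090374201952669258630682685838841599521763522168633197520003673491322910272306177475390055903776354514556773012337147635288928340946425176502718022438610627701250527621454265795061001710952449040996668211055691329479361179304371588964312325078931179350549967219674038694139876633827135895803388889973996571051961681702728448706747384747320131302530851311495755147370978831474912159321738459133228659762312772186203554908495930341714012311875826231739760765056478382041377643539164627613108368066938832377736471582402857435259204998447487214884419194376341941368003413973841195489425882370652017971905888749641396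754666473304015578566063587903764239939072424350028181221085727727289205318203563022180271178563635657732338329357551885679900267300562319144436669792442895580987968563542799535045878673005285962804134402429788152533602909542728683543987394841307495769280285273330139962121763123574702781044135145170877099747146652993283766228686491685608767270699883338827653319648556731027498547228611539124112997217628432670380989594412889905340161186556313217719984102592691808103052839815519468327259381421942425783175444697487617016700109168811746978076951670230208234004299443237629272995097955476332374102603985321555161949509773675451330470857043664154071167776070353217781119394905325273055277201553147095553117314409794605127267089961583653839353466581240407841772526966574627342666520978603166061283342405896200805150441423813900284475246611427253227949533330285987833714641941316863743944500601011646982027284655562527561431260958070743946459619611844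601172597739739463445121463528933949512389215995485531949501920307220121408402050218385167421782659869835205743015186388232630782954883175601122041201396033360004944333473989516284242062568762400179236366612234168193020381437821965019556825041052055910495878964356263798285560780502169735162538711701239072916015190316388199077878203284317967601591900596821337027564635247670638654675464830662700681228409278483614329510462358712867285664626034968562222543198294013905213598657986802818801152038304317093335046754877598230860728808426783347527156721743122879906881001142224695777746795244443546359771479587600881493569244983327393701520164892260774484042458479219037730782011428952797525124184029034420609582804425230498169948359738046383084789337591565407491555282467724418250504203106200094215978472832419160004451594332744171481660092334960254041907279619579737155925992790611527269433111544570623210361791879259500199703011640059198258582667775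164976415191867914134990136548136303322399347264102283635421475892532377245409823222576888686728729656382313396915982631416840221242153523938438831135203715679655604270872110010584103151271064646389975017019395097029820135420276779972043579105142955844115662999446245939070808434770804446902989240711017955061614456777594053660744660333499638719437045936394504766461519863710969461527732518133904709572593178995798764362807441044425401144277005885162775082550595768986746833910596921367960217743439798552839840386122647621230776970065922994409282684903356454152642587262794799157428936903101253706693703377570724489338949835431077436383572391113718501761894648291821324789306730918429791759281080720355962624052732508828287488766255341168516922728868681749292581442384540232756792890200458384747743549776415010446165151045043777692218701823002166860543939695745298104263559724153462550881878335662645068404158159673063047615919199938334440286747041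449229142663040216123894108556113581972663417337680579593096468709227801156763933633678484171525707519236164181956227329093856534015047418333415227962561924694383878980754999381059430516474647089171316864492579399185193987872351858615390132885919837903063402486580273479623441470035916210144718333478481986901370828443751093114123056732903638718757079786510902885925294909964211472626978632980925161376710701147929727105361040894597636692323131404888613580588726804915406182473190481300675469557567719578409165457170962169905484107260438234809471185429017490535212669759059837542521252040547039308379540296415175164480056175642809348316694544097514457544003557954538879633733013953762306054649507313424176333205889742242764250254467752610212745777017799308736860830584669739906928063937205974925701482857952384904856119656450314773680988519072152332745223698516766213186604248106935841648902636338350828909017977877918654268270802749105220867703383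547301411454145197546415437696100206617355656266298602202515572482339731923259003467553621559796937522919062515640932230185207705907953589398057524766909139495431703278569999236570755218777363324268185404836042067598236984680880449701534504468759482212666939260511522265888681946711485088478449448708836087304826234434017593400061871473192164949057366406933763445581997572730693825813665860522583845713193507423575298649457676556559282688112190065781117837421461138994580771321119089426017148239148871863494553641760152561340867142825066431022132717808476213325934772271737511254116131218407863096850147690104493474004002552772966843836427372408787379942718026660798147889245194519875673555051481402932801953832527863403651514111118808499069824338366581121720813097338676116771879028743586888679254110852164830215333715063369547539517553237414818409521226656131017689473836782538654002153451094949302655512179485259858336837780405854834100053339657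803946706118105227508462507147672866527192970077464296721287321342314839083848978045311830827277546687348728868737038170046584981250166893158623192748736370754928681661882906067116871909912518253439745381393807473441791758495842887440402377473172609569626723984147164166460905262628528536164551210264023845490661472275128463897155313049463119638796425966685714309823933157913967952273903023192747178711036406187799353752289646691088514455071431926632629418980508385174639473377444379375418324909102691039837422662070323371152595689461426145918400824793484003738125677026569206346972886061724254821753231022785244876254063754098387072826265444677243474315778695948270769191535811045129425452898135547463048954170490830240396676577691400194541154797007725365250421746545639537029842619142991877563461207865447157327515244704741777261229852662867178343239115587826168964486463203683662708012968367464601745001164877528793405438433879531233643820864505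473920387489483835632054545419954544585597377789502945019408242601467924872052570502764250176988696940081827558888432725907918131467924920695608114789294245788323515180248425073294541182791896496613680803648961291833172129818624967396082539620293900532846368976389097051539235113172372178902748677539889543814631652257719017412799683277555302389983997119092907893016361820739129038771141780654413632331269531438902060934039763871137637170300056475335945365682014285235169398231260499682552781648230439642337411894211225601981769744094022643798781114701519014554302952369518182992240413425757995939102569499586298713264493698447246809904733731516396488689905633893948035036550912913952097539027770615974218257734991569002371707128393431959270216855643735069129208258534365720920239709710022995029345057660642706510238031475812337286058532924496720737427777645895955300679447589886226644342432642744177359016307150911354223203583363037097456482839474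122916812879088350686778757269098255904667806518757235128408048308909285447339140668859506229904492394352070430983518410413102468303667941530862950584261182671428792568123823802254675680310377806242850113645926561195193073029058489950486805502359804241654969632741154915668819067627407594473003783464537415596123892885819103915397095448634750770323480064889241885044173600216145221247049363586972926455450803398193626598305510610650714655814080195552686863400049401166694181781563771344562624354037102693728702703659630909718547617309330166047990384017979964857178000665897762302733238827174247502635871175122003618744314051892617139683579092650476124127866047427601273198343208247747454926404134595917226029686909650935967841186829861745098237895707134840604298021910099429395443982121031086550561052327959951948258500704555459424934956761382104378106297271732767752742052661227369448487016013955908327725892942900410051315611468553894943427350768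807579467869577182834983579755341918022121082347678321686611494421307388106509756495369463604643991724865623667893538018552432586388269803553818116593449168480801026218781949130251879167059432928009582197601969978180019479661018272818085911151971372946901893599355247454555718395891604158334150868710704171892136197378939074874644154983603472071617561093219918427693721950901938301544417709989432034666977276292095569762741282948424252583444470744506389485464437017543452882933932254365746734758671270509440518982344712282734888565581037823930285558423485392194801843100820956684523085968709239679083444723941417829439135904899526028038412972648414503056883947209885576762940048159992692426350882727773307534342673419793181219524296251043679193732242917664112430607013775302861157833942862901829249448214878033935736077033991907482500628454119863201821555739324713409702801933387798142099861883937648428956878001020325717508959256288823048894044436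354604184895026390743607350358049712459120741669601748179324704156340465820798107271797756905029949571201553166689673039348918741092047793019264961864286701147312541655275202105502769777322244227008669969268102181174365816210905449400424979963402891511613467485265005722282728167012082547868633338124429578117484730554450231549098955178892321801349497147145094790651501366090385380671958378820605557411488888603083726394841838177369759003472118711417063642186957904120591456575698558763618877517304017387098224550032495693864945861069533255418241267109147519306171827994973873820222051855777690440615189168621719998506629406046591918275234035468010779442561632997605409357992172227651272260241680610701237223465616381709726226025992203974153998812653378091165346213726742879066325146337968533885385972993066771713918074214507581374177556113974451401595348054705168219502607788362899563449258205649555911745117368084370640608673328324479124778805692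787402814901739019554529960870938062380444897846792106519578214028160667526856368421122621173965555453514708431271626163644232019058189003293037418877936847129194020489878969026324290012651767411528134108511001444342024631123092171081713616320080778722527176411506923682050756488980464170655838145026294200294932082828634418307327814171437798058019139877033852105900469969532538936468877290515817388644216642429583894068726289818690315456113450224174532361789573581073782470627708975963744979862814773027747869745911442659923530306158591426029218582687778879385261079094673878682324884536726553180551131398994039095493835849117618244061639601128742482468565275286191371834016904043764686688676398075898233846829461769237021861288526374763409049938769681012707374793065247095226794327746619865134378450536250660518350237227606078375820435965323159967036121846881063906672571834844490441201031753497933078519073286811298600362317381574771234054758199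003611805159047521220567271031561093064704531551233326069662524446612306338471333356380519608147142807004143335490736174010862844829634367720304830540425231884692000399372458657952909451546166874389669070498666080605290108682523058509760686540038513904357859668078069899979411092655378024463502471046038948721177572606801300381250863255941606366585646105912881814734662931380103333889934792691671049162228643824604701456811486993120643874346080679869988026692855039884738152162408202026179249610854249527363718783783893372327219488286622127641534616993223948697588148015672108045245536679681722761401022119359407703773531636514859716416643796215870191204200559520063460075305173853833644444423082916744775749898181529709237904814144445503760771698351338663954560563070952759063041592197301822279490342341902792485521503144522006141088304400317722542484907543125111779868204209181475292905233530966214047711120603619196468693985985397727455129336002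234372324303770530686652496107248717168903603072552869593311498872909934706326359122113659536199760738403367892600753619706942461622252710479389163038441051015519759407057458551158470981461743257696247864553777227284373740969592092536697809958699786067051162831444753619131836929113637033835677108800971289443056921684112121019649454402851074042059364700256004843452404572138818983977852804501693107865321041207863809278887710573191767738410724410570152632544425662063921441816864664482176827973187456714527048108114754570576756652873371530941469282343774481679798019209929712753836377600573588128048620865952754346550276032592962670707005542125980067629654796209402448127455932086821137801253756374756922471993869946048289866576939339005752204777751704802928734764074928599085628173790832918898914469672513748372683638122809364353720609060038314624873048321406111119348331054081939743407094792641034356824668419119384029762259715687404378871037548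500955725170586134582416898050246602304803631888391012137299311885625171596557342709947840422462752463456233461313226917839463289671775753111221306860391612028646891995294355740806039028824414726290705309647901014098003789355084539656440274251850798031713481271681861065950221062227475538822271729061130627793816599640606617931286995415334294524310084447587563033784264059132032213944795697929507033933302034309853986686792053209324562658054162632439156373990705306157878758912836676394048332692223564927440768367274516828095934183344804799267062687419186869123901360049125063913383763369077922195658329992955822385501375695525970717519889014812195156777549726863195511378268865298296622357834116662862835758947424561100722594106355564285609230274462113237516091928519560522509959149072630682971180930908061824901581036422830308076099592794606899854675284814316144848957304969399664557886364811438610514694668115495737635216880107845316128005515807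965019851292741517614605538540419748402495634144922565888921421330212628463458431781641705245032421641848947675022463631191232735580658625709246018603406957298913676070802406589857156365910748902623288582626943037155660311759084473971393908279244528275905736707271602802112877079473792165400854980492368218551985435305229146629690361067252481485719251940437967512152920972110607324074720429267784100249482305432910167912886392560838406081056387271569021351598253859987449426128912083408425281143507466668352327291851083674573811141397556873462363875310369155418795410614881530824933574649533744226998032760820240661388894345568195921763562009977325563791824371730625219716563888240097154820532833923359958881152984578757135156438120639220999803478881251267441928007000061705589242545170652075238157606962821195796637163440004933111482353775971864110780185943838777424319618636283369001294030560595067580678016379720041765410057336928328158336631235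4439387649365787166675436747271866511669290241782756451583089465400033594442893487227476413709387913378271099164703576403001076992051630576912116642095828701036826947550934350714572260973808675218449446158833589319994423030255880355957491920222945397119508382837596801410958422738249802706021429561145423630569180877070919211129194539732607343044509131617601884623479242277154006432396221146552038820066234362800628596726993068410807050974088958154404834241560142308257921126610964546457738247921760814099359196215458677585048536003763992870101020320041271296)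

noncomputable def rc14 : Nat := (nat_lit 26206778448273994719859158630446958341440407880829811626799323876942727973076204521408923207838887473529608482032304345421175059098471591470785913179404960079710244745927658036773846946279661138899267583789367285472644988806923471376144416478818731720508355734554851946399715886187537285266422198031510527797017873341526766740455582306756667281565290431306757070651572384754415905121904251472006605303654535313331097332451065624803563350338576977251000628389121555536878427831728684409668031547707151937411901969577133768340325490000257656756824861276595536814422311074934779455881819048021593611796375101713932744975454762310573232181574342283560511602975346076951954797914126773434121839178521005549813633412869478845671494663906752487397380461140076589336048141776409818547407196063901878419309284694546203974244182921651545619381219177735716699955182426830701678438032596322396564451176407140853689875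455946184295358927550792075613304199646144025352159068845408483187760183806358042687520621704056980890069367615252667681449710601539570237743057431360546210840763914963335665680061069464045485420302166782073726872536666534757913587637904738028896155063440936116259639632460412289048779068719711533134899431937512797509849004648147203535541150676330352958726877995277627949600779158102958426948914212763354487496818928166393822011874226372643086138652783715037722790507369702615334204147145678758110967231675031955155577576696651466338876877323388306667386680982328461464099925214096987716244846611421502738869241700390734161515467063327957941446550688845127842168785518332630729469342232661001678213934648476393392876707611797707755110724241475312118767938545040062025271607577587026773951080327759650983196901803396993647642139023625368609070184776649803280046370140563838029474384888540560426181038374885558421766743602166522163711320693039477650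851643221639869628027335060904122839570163476627690962976583499192287443637410673048660890048339747464795066839506993420456640691492460784740375488952324369232017194851456178898572100088309262108729537830445083630626994531895890471432188399940178122511527963460494071335071655541008851091897309346527787259445094877581287543403224443331671374671846199919990203789234252872329056324970990907218076367842135960551693378363749751782252064936508245299651709843628031350011868530153001186518848721777083679181802885826785687380256136325561660275361063505446594459075228483646989068252590682015999733094211007869765501047236646816240747688802796398948467250813859174745464572222109716183760509054570191710584770520766458060400546148078745215939906350262184499078137423383909089135044032395038542242441966174362955274929573820154885465768035282636062086600311983144865867759545278473789092390118839018425845642840308029605368010552363783641298854636298996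843917145581049231406452577713534946226796392057900077588962944394419605650701911385731082302193322419310363057330682955559977722626585036866094763577269568231758235776451985384722096464382266037860609903856600889256578729383725357794496032879685402639397637374525252765778455924191213067418247921356660291027759140780476613997539350935518534363674927035706065760986265080806187301642383326229014260626867939613829796614054461470912798693689684193891987159037269418601361351573819675063909589780172308036193218664292377626141920861184919100393260615624883555932217116232119679169204965747209148612074710495813331149333415906625770204981376332080040112528401756945625125008845532429800772742643342130248478079241147457490740266709611228079583717302920311647117197180780430722085473737082219776349651569472735195760628381885629648279214102736529144190433158221790487204609387788835185332515713000579312593902809945108419842321945359317657252707420596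434947894301726234380472141459247561435144391431003486483713888109315153743375743760764355451719212568928704876571124476572106678566573909460167053446196421960367931414720961794011412237958202800310577983874708969182598491333938279020953432119145051000720247316244919542068461721029575575117532967043798846542642047284366427672524896053220040224408649035114232512398781981351490578925272701914289113882998254636824560951102731668943962791421221360894391212406264280742629495880046047114365996934848835717885874089622085942762299655682328156994448255373015403567720738866667526475760367198542885635748632897955959935332830252763526347458434883621582730412073311429717198563541534900809628675576434010627108410193105626583591876489233984595961159499249404852502061905457623049374994974072622655264753549561979509368421366672589394220957967236339809967449591685872235527081803618285972852829541627267329605440327915990610910314961597948874695572509098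739653529463129101504955297482521581297920471239975194413535569615156306048014519379072116861908146653622662134138180793640827531528037203576428465929327788917724804531614208124182978626439890612239375308361609982665018385807450307217857995174875115207252905301027951661982649139590353117536329164987420766802739971817518356421595717823538469054840932807086372236201974164799132896270198030036416646966892926156195650701825603647675752117728981566413749933128558874144221542264885105372752384270170863902877569389070747943619362763776890954416028593481250725545082612563712083261854648601381822096402564006130020175041113164268860258824077123853843869312948127465860401874617299050118602606363036463170639057148751748977048784791994454230524069596827127335910048212437905613065424802413070860399837893091579411883039916294355663431572048673329243070723983948960503130110408492170790975092305058839495454492876933090519132340646427180029704219635557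078374127967465231200489831446075783092779297602791127192671739603769891230572169784561808480317644745298737839592047756509171997012390085125267651240169270246603795969071380200009185336026296581867999422145518925463727160086476780552549636885453570118265728860465932831471677768607880822519929541417013873103985884013099982251403839388363255766769846442372952075761121754536718014088505088766876469934979110934798999349417145723972166115220374811555836777191269940689916181513688318184086963155089215569778159418427450182252749168597554912196682206232422013702281957473474838421410695662904489149431689891343772303423415796568811865749250849911937696440949128880003772911251528651120710433340607440725632765033139943187040000214328950134581906563093995169114258977385996799962374133295278609549160038009979235617043916582963727072829540192274892825889303506081978572655769010252420441431321108225134422160256747299095804046083209181675182406258997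811801683132601590937658865607841609298818339905853847755186547551646869814824860584154589047367350741428386701720742582653819199610346796077932117316685396661670026277575078367676266208503842015624313502353321904154687474808434992103904324090806336839178616945980738518582683467256360699207509035358619181217790539071020566499470263656528613435971501644312727174452507907848190831772485316368935565061561443160782301015240181318878765701175310236108136910991836697309551332599228088412956374530506314948500623792739352531133883823347641212807530777723853147434706400524595495034349468784035770484638992763290114152677294495453893727067456985887553629192261209621676916680023105947878668323498695022127652627758626664770624583380750985959695260236204334052939817620163786347211938473307171131469677076026765925915321789425263991085555490089069751850439384077751154901441136006452978711370223807379822225597907870200226840557884998880496713741664429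800107302843291694185322606795960869262269184330514341375375841870843351297090931721694950099062086984474337201203212805351002740645647818006522574158747507457100981881460790208758128450434473493448417086429087897832928854424762717746482465704751910985309037984333963978234540056428076180902461198655988321635871023517712354395647737947864218227791138245877551219751266432442795654856649631798743660723931395751813348464043425706712374282344590756711557175719013349415539401231705354104912565779422527414710772679218968708046593229049226087667313745227776874050061936566694945168689932599814273254383605481136258658633804467073740449067624199987537683679052006905363430732899061879235304989298629711337827320713400713338904907251047185381016952603448947088485298895621941163237049605683184504251910321435306739482296083246750547525056831807152175282609492945356347111419541478028181353039358469606744698409285390025415689412183998888635065484209740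179759716546326065581391554828107166175895020413090128913319426180456529665419872853184041871741770715615050421189263459439732733044123270874817219026132161085238805947557170948538389640330604194466994157633431588750627425039803885184777239161857409638739715390803220961961393860643808045141526099917334870015845990074021017793118903801397383292133761890989578782154427265786494844033773990962616199069236461730879197086945550710078607993839356759816349658078926380521561980434576305081730571297529414042036387146368266883679266583510238553710932253408435987765113604089547267673395780219675399615622494747929411349903751850874986272999460496252602207067321530061097993466826901334145194706409182174764475405569102712814739320371385567774929495118050870680760020913376485289767205840805476224503628556547407990769693209545851684471425646829422946091455071450047790766092890419359950740655895953867271778166755833449656548618597765777209415359157168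474549241557213581997590795559436918493372358625805532907524449886189146856938737351083440999678399996675647112527022529517667451941850365652756806303974757900280681309530382882434449461059644007551430675353943129562986454407861179206161171838096292062763885992459694490007881163428943812158485218620315951681932967804000285249044007134450654676994366954617205880153743997657736509714422078034110672436417133561987457196671014773997761038378424951029638256022721210383073239041525793817034760501905833002549206902050865677022819936592442812606992489153306216836101396962917929740125321749464448408338942516620806074825637424994511979973742754577505177925129040027239023592536097367867216934429211041032677508711262658279974790721422752793814515542462125754600972787840840774614007748049812182729388398908855530412660448840693308648366590660704879449254828381571418050942474091989087145114648417284911653673836329242052347728396283953726479909895781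103714860267601219559839561516617490050964202306895737551724494426339206032156574447757272759246358107989070556519999570478479187689994917807930878305561744518176011372973961956952482975687093525688349117063802682012580362117135662826745415456677593571671838261474669035271243554037737870258160969396105022632946908253289091905561072097389080330408826379562053227459957211744875808020659807834934008132813141803921216928415755316468011795766482738081726263604155383966535094018362669198191208790730353936333236777048139648199695755716796522517531506281252814584508064804263805107262978527159918833719514300719866373892946784337025148873673234379874703371797503904053244103220180944159388632795306417651416704747731752962400155029112167910939409975439850693954143482476167352356098052709795599282329102749934644633238038977321614097876608849036625476071786371722464520568717904402450224582250916509589646572294860367605247791257515436320367286636131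964342267660558729971238346594483228300534057548412521311534280102418617947474644990541447666172619740466289709019540234246660936555841582846107678002955635299335838627048492522128508418269276166638221283849689168367384815481044792997302481150570492016031776738640411336296970445672972017385632784829137745453555829118077247983565081017400633604020580793879307978889136272981324272931420324991518588511849225541919921552487954402936050531286997838085648135365444739071002193045206300830504813902873251313455604766370685373027728153654055647796774290793618975276565258428308282684787333384873387453415337268416792857200557739750812869654074373134158514844964717378596874395462596537637939615639279373459980296859417818836622701380106224738992413831831524015064986630765468164400877639131457764721890414392840411563936408154781340156990478598567849039034726847041104816079874164678742931475654248456890278169070728267968459842516151428973584640042542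224178773811069269216278587247214484177256246430568890617325555025570586276955207877146412354532873927281297649384601998552470370686236876694895630226107417494425232510094916012782325543534091501756980300966801544275784822337986508551692655421690236534712154170262412974248343034297841633704385742504393834913689047748421535628690627758491226776103046005930287100280913471503427840407452883080238024114890043909425457321874024211409940731073412675325678099213545272977569045430589727696724611218931224373465274041078757592879650519753851021224650207111155891984705583984926099749242728415810423641536052301839763877977100934388902219976748641982175214242926664746135223443743048864360759004960292015984742515845928419264076612044773880811048807167889903105045138094096505306684082889124435771884811442167667607373151944602452608028285726652694053190454990304232024473394099182116898751999500049990682332843882894530911511394343244916196530611759753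994445903876540114771639340894142915501707870327018570789337821967531568223776518313244019903943645031303192032798033838508803328740794182800507913407752343462464883973211539489428971911787335654976841696895491170376740050690452326217597200534738023678231873135793469333459372599824884686532559441585965862332391870718718940178109575493055288966582819258192295201171418446038122647779223265660771442970860672652151120983783817574507442588585816470657384087059136595750678220996010031382052569545181625656874465893808305772988512048891480029198871323039758424913770248853766634798455662751501807447799360877750407958548107077143916822898330180219062736445408062147820761548821927623458249329879687235905011628110847855562027674071711831320456216298371711364629666595019660428082492433389949754522256931720794556064558116565811658512833310888795819721863443375877348258912556716960854465237161485482235029407420246718265564718326272869675418276040275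468811361258344729425007392722381341858961761884904040941061125470863328831217408602742821540728037948471246031568499189357544617531639388115399506546772933173599826767659280319331351412380475574927708134445711649835011328509778081451964921448242414121650140754219822901400880229695843468513594622375264087707133607659723202183465896825042226014013484893094776613559792382181670353126887962450948383220178488576860718660677256263140514724496283242280243692306416092732803390881477074785106994665616429980852941928610123217564892056313048980122275738771627999552885941138764055855298975641155729058029483689427452580417304712071235464610587972516908355515685187476602885612046931015141193483815352624196323170342187221115697989983014976753866565053720361570637319352199285893329193364476601290505303833089085567495087005384211052889766260922435313840855445335186786544455961396176730440435298029535720897807685789727797544554652047130115600286599576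269207272977623847707238367798723233708983656313976096260087635378880560540082236898318112464352543387859338505182255051879512604814414275688895232964679622481898978158665022315644653580952687806368409191312950804523925557519888085743356785448927000756454142507994634197679541135098148157391203727087300940303068301604595437271617337037778515920232511961862230522729643330751833580813245945340654161047709698191770779764728044793485151701962881943178715270293112653759240842495577811688683213175641327432187862255512866489836356171087266657717616246753089407814765841387684765106464997096920801815678202762978796643443603165039901210996812372866444432401399034562187827087735531279091185193696377462643719905489958725853300170711023489504834787544455161234141915727058030742418567174790592339793068852125399379748685609296062890884037828768124322933591340420681187721178829639488405462007399507509627927408892202706022263579585818088917996646058356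637514837699073205865297133561571220442299072751057718152052151836009007660538703047141983022091285688731132672364654728671033509165092603001323689218937346315939937107538277783089169453670986124831384442161300332445867301590590992875075157804139567071596661250073466314342475840410658176083585251577164329242036054097973849788275456255696430863809158836962020015975320892440407743241676059328211957217878065692777257047752666696026016566087542591136401823412952333849747821659680420344220198542199687516875641543351097747255103711015977680210530820401284277217689103467767040282045064272194943799943169919000352705084042012782905542801111254700899931965962077371106044437854166018812507758536812128396496813358986259773954557396426210997108306754452267683173015691432039168181861952059012149366691451859759775048186177792143819240422501218616063469377828183002933310903093916776565035232597280729248048191929024520104223047973830793109052017831288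751715109469819211431216610628606963241174373978497998429943061407028040084400073069057185343120137967202096714280796075879161159774377009496827405349202587956230449542161329276126228274191939983466484242470793106285425918034448731586718861516027576472127059841600795863124505830575522465673812564413111383665574817277569916077367810295010803050746152552033164714798053055697178388559759813885761059001592277436132780087075012718964282378664400223070431209382049513998126381766650443506810905536470526386956326685676427412112576247030308762467749454990287923434552097391146745208189903852070555867932889230097856876170284775210859857506620684556332074852796557746240568697685420571468862982836045576087731943608487173403665828921856453150510928737244108991528491435581771702430256818410201468175479367659900035651267316598943764029519165431909385391896639909803095825547367032682365499717456985625411460933927611149858668818704540259266144372132329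9671120465988018535562676262242377170750493652365854256432324346499356246169710397247666621398224669876578522425000965996788207092064691804411811655895227937631848392016161999068976531536617872763746953799810453840036123306939008784951641390465227575609040133094883273293123153520624861138527238648896756948951604379857754821801810251293765477493118573700113196455394712643728465858454993039113108426873408461426992064912923459506787932215928316068253832016106323439586326212286138992961108773857965919395340721382638606848286411885499348394026361563893465088)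

noncomputable def rc15 : Nat := (nat_lit 26291090062474194905720943993716786586129528322067151552736277859258621157605140739582197034690623846092384351798439913197609080055830606506914917806791645049512137996044346090041257103396323652052671634136226219662630681560938475131381906694042668241400643214752064537826351209101102746191765805821879276661086107007488453241234560713314425116867231850277205736630674792590748173417919430372227328114307191211123388686676406881145426349207652220819087993363541442744976208876575783303303690121522369809904061638172638512178577295408162309899481774935324800913593962157019740911511871799564718166331074284860337448370616961825168273060922035658413566094857546676858759372005504405864777167588073147072423907591593431481776151305104891461167693103968208848210778277620540825517488384786390492407152093488087316421577710162555101879875225859477943969077641123119453579324014218667289053714302158011324204471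541711980761153132528468389715449144339980787886418926417072749448836571109537714757825376793051370695717296865040484459047553068373401050687576770785324175952335405732822391632984416378736343030019049011411431612454809292415798515732089847653060818146893740535002265549904500779090075595405560741030755466470816510327964458961636207452704532020075628483217044780968711506001662250120736129098552898160929678034459271440456708266658156150561387217671379673123606309832199519292453143629418058638776646603199178711769928999256039733746437046459097685419166279357937268315445485877544389699424811766411189717255606722151458614710131626952616155958816267388099125129762833189533716699907456852605675180499938741844848661039815131468650568440837903820858886536945103810303585750274584777919789949498041743043350556007613853550474712729697457126710006706428038827947946220125282910424682933305538323904162663665359880501614876158691368294583663359942671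264344379957219420560513108538094960390045875256711390217700050905830553754233199471385669434647919511939080324104549217496631313554612289168199749621732744689173284070503882697139382596870701370974934608769302291451214650716761406107281319097459598771561596795990587759026529446287870546085098747867130725556027138157353980184469026777064281156851301487666175597968874905029682227183990948538751454497781485161413640640655196245282365225943847889403270475374474479310497887936369832471929688366329285006315610494727870021745858788895863308089079889648258176581196540208167779213090108802440707548835948760583641951530708277038720672236206987439554051725567755852098504251669147569180597597084010150371660739776455712775580766657237394603929327132512797351363821908570035155672307849790032055193567823993358634606902560365371004894671245310945762291503665667594736010482627403166671897697113972225272520964736357662921502444692574228327198285704636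779002983351299948895629375242668917213360436267585850439679318067568725107950324054215943651393114100355310948698884118641752071267418886277358051137150695386411309642794393397364792762801559367502683130990859446710461865814097670204886906318855587530925482914332671649451074652571054464059876651323669068856250939542833756713294432032541099344139473052629057361496541815818001408664206674071134425596788047333659593866188936138485106446047328335261643895449685471849598715338252653875274012953973637212409104754317895023538768722733282765556997884160025309684704047549699853652169437552079546775045968157610647287714575176203792860671778590979402447467756360905551725347316695523257520667874606635723761219929922461423836262010161864429054473116375346090415343786385644664751702934762218846312855653353499607834033160231955406560934961167070961748634412041144956556782652826174656295160745997741618705475677249948468703344573309383275490324717744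017487350406475949136975057892701133418409049069379424427329131563804455375805177295723888276160870940889935626916734479521524926602792945051304522324017876802673908576976957138105211040784904331602449513435609746948767432168498691384167999567736188383008804196248511892483973746127598275002578215385183119629939026018661339048505184777126480425248017006221318740085701640767695404060751912289528213667098041877210701473107289951578482531010203281030696212249919952548978926115250758774926620725367837223796913708309197782237774431891330239256984219008276401398624674304211389055173194044302075127533109575151638581294594996439650408241069960884049007858996819516364053586325851706624037767052970780400327774365423277079353159580591097602503610165227009388697593771949510385316003961905223347043653623630780419513689215519249646621454214706115402989060711094730121543066479756780704313146001818771293659023952335553167459091599717951220262833417729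788206895076792779576330369944609338706652946233259944699443528495725892411203878826126966814900968866274056220114306289555997992296401809191706273587920909827245267441855040171622536452995485218507076320820639322498441698255689443691629939958545316565719847655207147535712905571586243891138805534623957512991897563859811154546356604897242423335574747819259166793518555993013162458504067664144219654959700770777974157871679567536774891425381991001325703118460353865313602798297883293973080544686711451828314921289522642711578030388590128931942344311465297350258120316384562318438303856876532040306605346940726607184670189946922949043217897626584292300065976852815977986163340572065871540870286276862751488593294343221768613063982342124410815672738837106134837499687453282883428252625021750709937716468157273660194112778001870036935035406700420858168438751241621563662665641863765934258029739314217483073398514594561481829960861764651436001904530157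342332189345775440000802922516311997500116948313533137552081942189498301620810228723381246495322970656370011258169884501410859836048880332333109557914591714975104376227407861693758091820210895022218817881043988891477245863295959319636488840144302856786730727928547987206676507008462207524694095384665140635873620443073288231487917844315204264563479243394166612631256187496678503334239017767410546321548601463678868530267055564562928093876824248739926497467049477443173780416904571586022571394000556615504988456515904095805224071989524466961079524106262280440750806976643464622277766389666507819206598620774968614260917879252852073341335997982006184749458505808878005730547420814148526841100646088369183813230593463660270451387705280237503353506640119423435737716160196490730133851034440507158173834440013794666669120713304266030864605190962195225341088850013032715344754569954068537687642313285620352406529818798336574545784173230309810117251962498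473298265300699571373148161182888885514486795061923161781808359656607492700055354075280533896196209114188646763873042446430607569073716785936158256820697225480977364492954227530553557803675691254774705330490845161021887794019653672400662602296434668452967812781462058920606263509746316466953338031371302083006445007594021448077675999655511533657042551071836658702539242142106081292799260211485929482133769469963436521189213055603064131570918888178470196676435213259309775260263377304017294623827553568001423098657424075895824944145141188737753360288147306963086514718554419375822540194742492254102368796819463360514395413809918979902702089006869492199042808682274823283686405202016870032630492202750145286657430786499043002469035911730304414980704898559729214324381152593439107386405600757864499667772098181152237667547901017696748564937704377993648419926052861661711643720051741860648869366489535077402930950997956996831096906839314122628372536138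520632912937684128412954694341295231415402685070556065863340499716981170074144911262795068201387218965726525407829374116279599352619569513528687959527247396229516076902666237749420562909148190439500324042258959874063810820077685450245851528632462678292580432153177782938229094464870736529603570035750227618414426330458636310268507783645906569551213421313058536009157791021210263171374367189033738183720737460093745985185996919633749715990501900736507499240592428193346787380263816945577008763011156977335937743275228505629736291143069040709490603721560497692141182631207781631669054597691296250243787905751479502749172027987292687104029111372557741884065971616969074576068756784740242822984244306970325617580178427871793045964486692902020955552709789745312780435836600242878325829750921461053426597688655432105369861819810232215113305012347646504620481254099921406115013894947418939547534697457142321465242752885086747950351618675955219379891987711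381902965250233671643147543786088703018098237626310271965080288703794065112964469891785848357144495907336594323006091085234631299168896113633244441446703952210332136693817982925833133750048587082763312065901501586074324118632927006574461323838058129537337946566125960091273947553284074989443730464596115486780585142274752197625511513562654293207904723987815684673710877478213587220895480318264581512957284697305058397214719622550369578850168671635746941790398397196501033310954849905406613371583160337254245240689556418625631195534153228477278633352684193731662318839508229703272070218469956635064467324670454118796674644039837242188777909422523438766295377270476901790661751687931117238507080552940894831926700159735591670931845780807399138141339043463226726580903464903355730333052770239056364312330945562772655049014446472478911167697561142131587164710482115855754611311577777015349594231947775947419681948786865671329195222586639538359917540279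969159096114963597739134357526914228098186478775683779543165089176165683894671213550245761309765850120340737408748606362096107438238712999322647339474190396036558883556441319430438737350506179176904972545592906253721849083732176007583955132595700359158413889597025805595222529060269169157630129293931614510914793701327474755003354690808765876227818280856181266578546746985007660782381723909930880420984769035514648661868972476803897224796592266243830538024310760269576616916012238445333290540424365465596449003327098867975908455804404034117297078219547308343906796702839157617063640880791471910241209066769705850575808455571122092375337434700076227301741269559726730799910085390872703685623502500943818592784969863276175252196709308908275433734992449525483246486162834306207054211368852505010524305018992571274820210620905529570186275146020633803539111250710100358969479462649158341290449797923203951282189204839134378444748373015067422084499671641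382294720058326364790132798630566095347334618276687013332816955870572529986971585174018501784200590043452349116322571870964762146484358236484535170260057832612726290274396549420323110201756186789609381121797408591653251023164123276181150968515898967677054320389432493865653685172734250648114362725942175000682013550515801165946757594967299777302433127250983469998505565621768652152553258507712189007876397211975334346375614747324097583784337875192550127846624179207418510598718195141419515480099134595616199793176821570693713820933008162676962439171576349691059953643868301550293661327977421213614127956736772422386131648456544607309794260617805809307431264117972783345988216011073962815228980883986188720892731936597197952679896500605972456247506673569947429092255194735194548052996149611729823341104448571672850343491025574557916745192764935730830369787529620112537194791617619082834197827828151273869226729200932192237771661480264993338457230564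011036494796540299387685006887903346232294324771137599538078437250988448194569677183639675740130240199062058408278046333790119351844456636222838216999611690889019374650115344406194869200261595635350772180873696133203497071507034993801099410078594380712747442656119523478084744121300120961275845013653982450234841745946185657218511279261266045439195670565921874601020300904659408788436184089711819818230337463286217556778772111155546809766344428141193530776439967169736030097366149327694537798772226241344031048111318456244284822483432517398141466476232622311716194350184334682093080979056396837802892086820972365654264985811846042392554709391512766683279728625910175340075216879531327661178243594889950827743156022655553703280334776462821215455423370416399977031717761065126450829576504868324526153208872270139684703715963027885844682015200129962702651037406556833473423411782080284331617555151895020459317752413649264929362592664132106397090741064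495198704803699347197081168337151956713650750097168376149089493153608878062569165851695268557532473985725476541945437073849426657112038094270296231983530554389624545321838590373786570422573075387243127402081208484760242567912166829033853411371804348950831142965861162058086168809664746861483640430371625459252513865847123837043118371871137361674366407874458136477487102021915472910284305612126513946821463316336417205436276095553019044315832090873470204664916671411835068054669449596188044915982631388875125150040742040207204209985198377336843215520768223977179697897813559434833023141261741452589173767389820049217643226144261107828988261298091375821956401636217591217395162146482175371828980076413187015020481192343427229371091667212197691128322834882701858404991289829048424533278284828001631127783063553421783839745615652456588307455780617122890437591662385362094312409780500283868228412466659377107663578804454132107740701624786254557896522940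972018082294225387298817839003367164829335337246904357043979346042675406967885346382736613624241103051150483095369307317126075287440471891658343385870716532715915266053455542662125703613405492527764702148097116304298123376216733023538071041413064328795865657931936710367871324442459797056836370753443003983926976944701516575875507794896956349027114195172100990975647795631569848920892425987445056207581319191024085402524580511027452349511564245071639136263509556419200024862271025002379174389206236714936438942942189249327476049104224617829948761130363195728614942441887356763012972415262303826198129252112840372438240813010159693303784147142781839177793340532373703760961048420158584148217123095212688706406299415301137973913833212604269666716206214953207825012024052921111042094358855763555614530449267481832350658474228139965325944150973883287590490884605682206032601108149116641055596790092580667000838829242770817792969970124254896290944251374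352286943964151846358445396640578145501845715169593803446945752312559167985612439790627623242873802800648154089109183150788136889493999563730673597109895607616589081073027664362529342024493191345194970475719779854345066581069545557292988460380346477062443745145064986883844870196801546323166962549465443277030172319545901702386620515634916644862033843756279729760721735918326212971126253189000664427460734466327766739366837928960623366293641820514387495470059720455652196492759145010930722945779282590393273344962388013479563558359780163933450306621459480745100342499133845004531776923292075702222459953440145845905368860255208154820526947266214223911554009183469754872661771338201727135642182530772764212079762002634820866916791817081573067732253201692910555246658684511153726804214272598932752446407621653588994710439544515979585300506471114685975365290266381259181601918192506840442634212856375934333453336393627744729185779684016391713884260811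957002664099270276078584697899348943252693841071137284888428003139799799452453331360527326984580125186644017676098873188901888580807381042411246230798064703983091463416562962447191602340998574415353825408446907802748935567153203213201386475015258383302814682755695912126322567385120056166939214058081398954968192364996668232994973875944637352461499239664386473182589416844653968444966084046970093990497964072823866521191045863813021261658899761502450864132349261982611141336371602957791491517013099152870241253610866858622814875318075671346499015679650720597216047313541692608461337537938233720793507119613753600777443904184226092298039016114068907768768952067059588716836267115965567137797210529685783714339202965001073716165826983259071913926204148657426485420778299964622639847605323859599452746283161747681590008874784204949734814084031819791865476237730025624907432960833012131937938409616372545904163071175764287004690218865790360505319099110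505231189335169941344503644032471756588835630015806055851194562169381158111259175052623324030054964715732820421364637696115998834991126271008847289604793587393292499515147160983389746526277307956959139441127012463268031527883979466734821245562733703326472145395573284415228437549896675205376703894610020221907188020158775640501895468641919935634567341809895353309243778003012124867133659930891312907717213375453191895956948054130721501466714965160765318220834887522623190595291805655864873943572918489591739789717194313331515889011981632424616379222471302068438689260071586891201034077864357592480518422475556666075501863043282349736465286534576511729071583545872554551792415029033867781612876660306521724544924072677018409343242180442870056347749527167864408605588160333372914235479016918729320558072183506437004818170073706270246418337973578217998761988812721667059031958117550184139255035726762332804068739557591552988887005909783243729918775680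188964252643843189509936687645751198091592584566036817032859173525658069433638841669878595376578963007774642696492140491732869705341021715809915324950195508119308657371493597394030770660292982171197724972886617437814942954098673083473213360521249926793307496105538215980871636066830844736564664679180905016581600002058805972486180128061633849102927738293393509898156547412759724354206888980145985947138854278538462586335913720203606964210541548586902540758178717080428239707031253908174661194925625317441677281170954727789493540160306425572889020944436467712127313322715103250386066960531699116246112079852089587678228604261752909062808130788099386121183080458669246503069792052601227512330255635705588702953679125813991274620456171854823432666722086762835747847463138467126807136056411516115993005398994588498808509274369792673457625591049905511244681069573187595686649451180618349244734053797047414041787143162631101149055951753525393085921352574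4598573958971103320238405653617877045940074685756959542992585536284555744116742300822411009387224835197643025140871145157584063471282291200029258578020243216390815953931592947297142042602903171076603911980617848176210898359822516005268631045460623882814937352995196902821910666641974494247368163705742937404671716298978674417988191784014309329087094302339325411467128530064900949421984840334928236227531364955863479843993324331360766867547204576344601501863433249929677518671422575022467639576447896539598946530542989200743500112362108958857723585924519952384)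

noncomputable def rc16 : Nat := (nat_lit 26373710555620799826918635742059691496820620599066247761549877266632530723672636046055281403385212405123021454990304270649877644495516198377784068710219957532529489180240481604097010108447674614176465347833368853748695131078650639556705362401064691407376613063991363197039274915427777727571206286619243342670517964268218179672004187516269605308836549691464810368169590844563241970152178698066714950753346972045616361185546245818385201069429604976349390444271525054369061232875467454349280311478696622842030444531820897537487113299639919013431842824006575830888880934698336740584026004921047040174641971289767808267442126579651472044225280567498510101454697219954457589444164876639609253235817889216357888748169097913174618644668915400031732873929152271124912100617397514034893974560945546864442792877180144750367764931583156780259665505920522231980806545877856514875498684400168123016787978211421368541109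564682497689473635144172897320745514499984116884905301528974556765293312082181147807461590712731121148271167403680285746155180477826811635934570194140849937682384183865682983783267792534639525898953141456515971245299637999205029283735686900410926289782950758525174499754638037682239364355719703070737732791959110573943840174685263187549121501850228417822473259035261803161875354537074148135083065386977432084817725418079350274013996540925210039308407088310533566506656367139664017735714688435977283486654271083773794756469923269300181044797042034953457198667316065539899888654324626887508790207918762751748541319583616097942310844261269540243795313537203626790871998284391176421271789859179569306235575641165304505041570961231375245897451777116154142661894213356792904862718781977344848005935350732205406107654950615717988751677247421780401930547693249884400069248645784097094707963924535151196352629125108818686526822940820890982736067420590970439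598410656229447116604182944549731057106771096495602471540641171793745798281424599860624344486341693166573804285196540160957239520984039267394302845314575668010481392403886887153900108651153427676139966134691560674143362121697077460694152158437751359822650923279172631241586102836687049284808052858999680516724201860960091685244382789202166329526852273818023321618816463968418393063017060911017694662107959955174784542949301635044046167101684892161702977383826607954261133695246505312087552907627773768211575084728850461515008183660280448226471740834490739318156688030000242669193059658809715118462016676576262182917622817857340734459261114334343039306014096475679659097542828561119624887282576937772584189143076384860704754156377850075080301502530238964997659356118901352175519142555844193938112070026376219408790766988689201644428467490037486876750944741281351690725072050712038205498968649125491008587195174987113833545565510138774402529874795010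683247020725674296851385281723286741471086298162476582810616377908573322186922883907348062704274052741801916563283735885311739859619832623210257789450918208291083730065759792081367398155933429681132599308644833233910992728812669267622908132085853420194708278178375226878391908286047626413203188305042625659383673404577178902234752209099754713628670264781376946717015979174679972951316950678561601497535762677445425889102605631932159698065492695108156333969812356044298295915427074221019458933754734812110667911068039458030360912991211972657612800343095818974789826332467063643987182233248632248396845374386369674246068537405064898809715421281339157492846682123210282277382529460364675176136944970347130527699296036817628581157423649117791993006048271700482812521577655638383066421915072134897406639741020131501886231514051213575067669873429559300903250711771851591657204703831996795523891501443839855377099604580071746765092583252202134460639089840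751638075396468920877866498173499675509570813076060013140726237576507989486639073477691093975054438434719289888337825011156715659833401236539387349230018760195965197744949856186205312181274936958015456784463881436486104828412047199729265191139511388471420442991419353370821695687432873797296568727863601595642472640375494432804057459916565487997138276578969032476566101203694514332454701725386131913106076389785813586664869043012312317816792471124061453163790890527010384444069984904130405200804608841787596318419137838526761153649638058477932355610658590268497971501819618024548671543681600001946346328183052732162012467646289632714537428767816830469941416748415168305424839208243546737085823751377458477560352179097226582975976865447781096206170486519675289877973566791138741413686627766854451902767513045677717895913743316193962024451003505025146504070304563900735116412457155698713875143290632897889238302606254310400919459063209860826095936382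416486453572594892815822641085126407676306658465342472273778309454395066310249884832888332510554529354866260636236348773449230309063997921039768268381617975449512833963082688707446788802107205139471429283309105321563679473104955086675090641886136672215803738450240033262750507632541685837397466175347883011463076605960724704442636790294376820939063700923718489568585152406585376062599964933524595869852592963728266864729564955699326905232872799626295521261362206047321535185994488560622659892194639351646271564239821789836520121158083903356100697187070113819119314654376638747671368630377092906637049000376404349610231045661344476883258014239862020429259904388531393333859119948567209273118125726695108573601190430919680522128272643275401335758470511281908456425905865688051838131209937730129772835877817487690962426105710501544824147074993521365077414508928350752958700925865455380048879049934441538912601098489208996191807757365093002420679814357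319332173391056869998584222957018416725456708530568901268845496773086280425169399776204523991002325383508070154994731092054799397032557665758806465657406694856254294664277606039352264291636483050506427825835102591772671315488532601439266947624717511190284041656510259321784798678766467846586472398704878067015035646848406936623949175260808711567183054153886968672734572738737177043474181720695023070140515879245979697716832125413876979023555320914956017687464919656026599053415531330852987685397004668921291019827961120157551290428415904743449987972740693262112991716661724003683052258792139227819669176446162777222508495499417531089931566733419431352555563542537289650536646465473816566137997789436511769788641954102540609254506572593078299849158333897500177624610992758530024664136780758965405241621384062546060283725112927111468664913129961313054950283815042730116354550063775971492203812117314241239723467229675583796420993937212249625339102109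573190176239399662229958869257700470658952563532496435576505112951837803414817908982246936197208772010863055188186912859835127329030150145836169420719738731731323454317839095716640188241283709292811219177620495654282445188131823653540800124853173785405775196721962136400723573644007263418854482312557773793825073365657570971373668480646770782805181569979305987041317339929309074254051654034306746695997441072550277799945624652831815070189913545523235153745084823592885353035927431008045486943390124275578879211604582899603899385409481873555425896158981194110408226133357218223056377857318036604358552449908859112210181034144182568875179720726846113189167468860596113782598212898063804084434365515958384127132410171771574025094514510519836646727011085504267415773295260794622039724567964829123438314511238752701122819760905607263323109567025787026005547887681821374039755848230174760884560579941044120212977905834047995854565039080015865620019907473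261216583027047788038464574141921325989347383223852630668204302442142252754234228175917326454262421200152175853174851854326776975347863849767702005599098572222061718767439560231862947743061787067953206971883244444502278705090673495782415886645552474182104659140961461637782680157799414565382081190058375508098003875439343327667056166854153134463674106094832076380924731725075853318134742144117864693547990243288781330658444769378521216845482819153656729175486226635944131787668725525567837148106833851355061544248927285781940967885912138191044631316283118284318456503362296292149241772469546044959215182962911985417100841806410179293344328388971179409522761028890997084482565111225297737382454536795454389719601156044312892199861859333251509633296235407185690719664977028259975403584953854237551796142326808196414695245688644375068402648176631403696078719431684054245171830841031728384668251179898541545876407903229404342297009052881567091867533981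060001735602891114253520877096085801201037207178526811434290084641076505397253905899986537744558250754004721768897148706222652249143742032551275583136854461043498543850748531148258373087785727454070775899080413729760098103836648407786854398017196280426859765540363968136319460558091374706126398303896706401507159235475103362146251177905530172820506656544041001211759129537663287748669835852164300461130383047703331987123892641050560176754794195819937705337838072053936968146971349608378777735648800075761542182421213776182825236055737599192740062440838637023406949796070324946522040394906700509826829115965906654554788913664082088842564482731525230577710776370453108441471467653091991583895211133070511661113999733549634542406884767474886525349354375429733797077060803182311169947437410614457803738757584708619571402108925565033368681816136030116111151527442262562102082869002392000552262911402635564472701743696287957519519390852564108170042383435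703098916152113646798742233981617324926522538617541299471291864425144163696879306098345374324205617293928595859821802170497252044409238461996996450089058168850733635655241290121263541729514691607677580419521855669736065119810013214726869270107200935866170259039652378955734919157702316986419092987449454367351841500322558305706516015260707026622503800050270794660601543904939759887151304982509000979248260616343816757144403587308117392117704282984649452135334645975032722882524875197191979573941851064546057556035343886606561593723172206057156301390260911749009621862633773465723277556513236161630943992715265828811522116300946220998736840972040729966835934949996924996153811331805725063408490450104409273818853320683425988150778447725336665169514289779352735827931420338216483762517439830474129372529319992884003887440019191717674901863376057045236688635944736310983228613796096332660716664732518711005481815916531542798313381186985547975866542424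432125455265096375850912396293870840540375522056304555908011364071874697146297110179192088059838362230379251296338179634353274892734087245651567250542271391861876549131617029270826343533545665048032730728430916642272547348557692946101325381503799892025597857130908991911885669496412160887962381243157451409854129674427356315596954915107874972419596274037807488582778080229744912873343155519960719304656490877196159111851579520137456645343714004203778705974991052084709324104105381651740007985725470432283278380643117303818296605594897597061408113360294848768021430432759989462439621121373392545817007881220638407457191216107305286149896357520550511903442126474493490868220399203329899753821387271678888391462249578281892706469193292162333972325816174581345395252970771350132358450008064735878316662021835964540909546332180630302892777392898271158256252651352212946306117696009910890119346146002778648063945369873584878782408251695895306054925652432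889461613137736669214702011788013761391546967271908438833838799080053723142819223335165735625314102585686705400903526204196579064568184896411273798144883342736412882405807209080682398399977570349203591888369051821565738201338672871261128241237524641040349618035906172965748495640118036584683395813801263250497235982625385004629719818074334299197038491330744758436698779682963221162757008343878474909440531250533972565388762089956794163438166364681669723644773087379406827394707820888867241879622564489165975417111341164956907923268314435864137734665809532106152521225697553705932389239667198191435455798889205797827058133341133522306925886123167475738522481134597047377328521128043301243832199284417881289222594945522920250761786745168123811203020124931248876893070005559527776285088685421632168530225722038400964304125906012415639824446722760997171423484809257505903712579161022596730296631767614810604180204520402350446241457440636553149536993804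393551916109300508281855568570392248733659000082410628598498202783850515024808220834968918447244438928794784062925462552648693072751721659784052366535899985183398110705370745347703610571892136182356544454588658606707398575509616605581269066880765734574279230893018916658646101003850166506978613064230129858751481912426014592996101548374063424354604186532364599238528282526510702000629215052544001314165274663447489562337278009149081109083713236174787031012889492440856842578197001224685050290912209159299893363530248829240746683410978288599302014513899449862326452616045728086848995730472169473962904531208134026099441763112940007400190718294577638535367943126870937378044904674013557374994536354539926359763052578545083166354447228680737291156726231373952120275974142072401803284251107469395167906370101252732080821485350894324817363473556218111892467072171360457711041976834277748619304594081826623155311848716352483564546299968294823036962158789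524563583689744662445667155199706888027360157935569799614145664934710163696739730339361501520464584770320711879147357692111731098755951421570281847032740688135371750057222921450528917168346395481103870600385563557824629577237418510413736491979959456422514512438469473520922261616614074783805900445792156164596512203784751527245665471843917580678966947382387277989187412542307010141628132688462599470217645272351511056292874812545938980217949539014272133376288601105974038307196496888678708769938495552294982280946307988121379405620784935249052185574750868230312423539254367152368425303397661985747376863296744677424148555902580585084293429239168609669900214487213150812981083487327279896189300673739239342413683382009507266817878240706339665108330516779590786912685826925352562445632650083962578862819739951011446797011564396554185158840177953828661908750146695746253164962700446958864511604061050614468517973302159413717903254674053361786805461757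482642057496744918229618136729492745582644912440831400628168109911770704653809137330019344522622868343512418084812217286297420350497503915216921643770619937167365609663912919727451800074854056434695294836935631396441603615468041713442869798146018905110602613584596953255191632376274575218074792205541053548850409931763573900936766348128795623039799857157226589881663508906394043514058260002192694834662742272260853633703166250442102906251919304863097869074948076595420341450729242461354840030931716275421506490188522828663547518639283058914563358767821572040015801019639459951578910484244784691876821519945234644725467835343989845870489163183591194184592912837126268606373020054796067186683052387463381489613463020799448089236911781628637107687535467263309308536088921903856702946404890710814581096026315747040104916090722882218951999215212092313916617712656051608874308622936936331248979440562492893760763235847169551277075885384001676925123696978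008852481573869531447346325003557807276209657800566876192250307859642980953652037681809140019650186128423527232685938694945494187936427745197606272528785476511957506387869064356366110897252311509083972541094088162035238679888948659039511918736137985286949679287609009719754867009171890004223857028187013632254968615801045874720217548356094581545899522407466296495564319620224579804411487958641006507405968348260415313133560864079072713321323440906348876191655782594339043518756286922945824876078098558850772748126324943689783978944829902497902347864102180513541335659223442818953794209785691708478307794116836063096980625012257025748784424790485339352468829642169671455933384561350114875420773343247627066351927294234990497223106447275271639622282521193994944353688884509109563598623157077706035021139115615940308395285703259519871211725178738005505953231717707871597870886429889855587840220559343067461166283167422153872029432265950632737617969312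927609133418631222664577018033563852663469589141394426066012518926910801131280111876490456085998790787973296669932680538514849543092061832122762424817103993617166100849659386091007448951962498823198718167221692484570150436495937615375936198953192155668566126234031244118771735465577489918671443304018942996175013271812934948287688586249579156925905817885085252772507424579310800912346119898053343009997600151530319737138506867528009684484345743140549979691484435067769304161874612544507061904353758840795184623285802947500932764007551349078617022866135336884321785206623299690794740630659390513557616627164137207515738919987317797752494171757198672846497704338822097439468045270534806238369561724179674835083974952567881632786067324342307462234509392562590000923014393219451501910389791192112325830657610088963703202931307449688715869319813223521635765531878981013125487745471804335326592780905501174432909408049151374572847024471495212049906758956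923896693075617102831612232988727593811672808766937905051653187927170902938679958564571571770454767736616976052469730178189302034404595348287443362927947652304531049667118143989721739658488652166926884952792194992683825288492388584433466517457454386004324436529790952678521517966103125201511159884563775616718889807939146514974157087530173761768053316987392917502598344246492471342831786044637981111970915845757498245589074880429912401129954381369215313283893285074724068073572479475688184085444575880556234495482494104820914429678792735271714202706183234454431042041841998630278699780044896859045195400941207883558559753399574128946178206150411243846626721491394819221754593316461632800308136851866760199088284630117356964076617324509291418803942044838544022397378374933493163896500306216115093723545181670392424300229178847581378618998363575818230807611631658944888405689184440740586535389174938696574911246718306450979488088608587715636224485807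3859077515058248533761158710357549837176662584305274794802763883739550600144184099377080549803984014875647701907216582387038677028662931195270825449472472053104302624639712096345198168210145717333143370147952139882694641555889503983382682181776016160094473730219022146019946206593397796945501666947374744266786346290209369350584662437795826645333293825541551756928625233603260323547517294796892674604249600441394115065649080432774734492275049212777425747729889745805001381491329711763191704664500651645484684580582857170268008215080672712427237110691833839616)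

noncomputable def rc17 : Nat := (nat_lit 26454652912325366974968132885730053846588850211937730228186254842774767743332930462841845766555378222476194423230911978342694706479781821756582704997787066474715970314315742147354181790753427574720954602802629392785866252763596324131151156453498850614796532821649082994026287920353914651850570940389829436324249709933587099146113679955573573651767036558951066420573101501364006924759028759872550931188354216266709130053264253170177402101433599550746099235636172767171286725605141549306271618465437401275515015696304740168150377237325477979114842024040268963703645814176153806440857467179135924674416869517408090113944912821899725843299832496506670797177098528163828836759636573202676113870575010626167859591037914013797740208355439320620434897268258330280475441643283131632532777852824257523319070538109554078687110098967900697980552157184378437884744422979344269377349185428735160370625691123663174703724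523958254051589534725231113558065788535843288001577941487818996073202035790443844456968132439080905080936502170056124115257167278541315689293952786791043195093834276474469412968322884977445070789005475358780774314198602475704662053865495567117781123234145712837235060371435187705921487711562467840731655960985918762387681369148417125610899167661421265857767886561241194072103623283786132328913575622801309306887345271173766184032654011263271444180422598625802920036141526650690433877974677159024308700554026833264454000834682944181772073526835322898300857884866462620752845008031866140498965386026310466206550032016130551373446789938065914647708094147582883897803886571454814460748676144240266847525036105225779084249243885559304450441245854399296216285099520387976614460953095400089117194838593580876316232036034093326353808376956271569623150843602276303886483086377097293443499238246568166024306086044248346507815554216490060243274500260906697785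944749854829701340348313015614735812815473887726785045686479594976432463325938078768812283774475098378857587371220663262819035148015280598976872093007253777052375694687958975985548902317837173873077530401496391451072822990959654075124319824517313054702436725274885450118474431638283825444367711006321437554179487689819571170757931176839689542538916195434364506539379953190730707587969640446345824163856660554336258103132749149617757601550236003220729513357847925598585507182329924099064562825050616304498578426296672366873503740981065191686742935436339237855435518960408681970123371006580357670171981346331090872572649345113166009086673046434096857812929507073064047104452120910942013165122073145987183004460471194406420162418606385129582033585243553864515487191189307134478313364788625934182379593455121698880981282973299738333430193501065336805464100700564783135275391769069798581333802327016288645134441656709607094944000727822633668431988417514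091511048016583071678791892898116376549682747550771004275281826366061357623269925202600026264802699591653048659613662126153316480195678945453562669810040901487732052702343033523110815930063640970978195441585859313879157046691177316491354055695820122112934505746264839251923125721018749339466269813505280485456622556208280744786068902604355557857225813401085846900940680710793208244570654115019529956498775430582552888062128627104205376305220499505544603546193517835371089115063601733857942684624761402825671373977992684211721153355028539989635150921295383526969749461339377151639513267151102292624836338562627096937783568582494140232204388289464369628111731342847284534752985892327735293326635683294823969990582820168245328300157900260276411161007265306651352889757417970565957039718406784228989130393461185597149899621506275940607326013930772865619859090978591781360793544157275954349231563010726803859647647015395490596567588347268365224880305925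031971770702479928251542775288909284247437757245400440788566783456127054751844897569910462730932142910922609149944385363627800362970455192379458989012525587088948454294285050387369789445441949957120003533380079559762973347422415446170841456949554886897719540925296888051237843364687268055169951240139220894065192980268522615369363859096821935224784267393773295515484977837047084753857978564363016947361764356697510767064128435304698440929517995114947174711935489233486314467779249698781625335510867539630900581151942859896656407964354575233745266555847905146682485886822097979067301340859644742452077903629370965221514356427690593591655598298687641237473320564123992635800112396906686700813463960126594029163115594122105434406692007221895042604548188728901027414780370672883364676240496922526217988920895548481658148970173978436437137246341049990232847492432147403080464890113159530267975070743703410483483359728569952312293129124337566881057688837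812940829692799466756833296202220173449680307979767393187570125008939326131854442720478860524801916931573579704402607480045955534741564378458534833075919207474583222660802982227832731792516993920363481728841312982613738961946080466917171256686456864001153214459319176968551504171082920889239469347696774356451240146399396487292326093302358106436649451857743291629749237654021103102683551527188819369193456275166084517304350281299345242120114744257852842962752445078980960779045559207460122805372148239756663782477961367654496311633958277222126915919082290960185133004139919262348515091603269445127089241559942252607206145874529136010195081059209655504525893662554422068026195842830710037733321417558645628049888595576007856342447624727002206795202003457484785658602854906278012282500607513368761460795238549484579008661777760007874651417049433126418822334674363015122808779690711128906911324795901563373058885959198530359168064124733823130985970188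564436434042120738553162128419730860303716137135116538237261314084293925808184189701465718847293452265978318956815830053926350566587898752998468893905805963381015667772833682113614920069187253397656059594038903801198985275283187097394509705001548124880239253270213627580958812668534120252805816853961317245982334643004126612545976243840797054377246096260698682459021892538448349432529656577450284701791554262903042217068651404502569386728930314613126487093391164095563233043182462076544984710500015154327348347847806301460414222326497395339622230285635433428338083157832576037300644554840385885875263764524541573966219171483120389522470200399442314282735612509990542666439536037726188465977476699073875551996624939561833985974757510212777717087960755899466388969021815181881002411266803775599969799283054179802268670483305419265512644641272797768768905700872019070822990919989404694698506840172802561366796416381597349464439026097149297333121910790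962176088488996374034175184971605851254253869760235526200826136274361331077423324107927379534603282374724896533360155559825985539080284794461908738213403979673728039276665301622518490940105352844803769751808004122280242595730044728309347127701898304347111216643931769844961004706010422587926363653395522219204621879329323691354575143237370246469368222826712492457733200836307135195472995163428794560705107810687899742011019490136496057702480332653145936368113219038853691796675738820208100468444399357360418226988441408816156582528451511863964619006129580008104087761515689517310980894125890611692057730966435138813642393282811448030126923117432374374746193860343922199065733438889624164188888803907670705577881445807742562733738075557195608076575806109253305301787459287117792120552143612337734406064832307361885074102420586708994250165293646952549129695846952479128372106712887489849940458791608865974773271914308132411634361656961086019402164709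978216623252906454806127150052388445329483055640848519945216291562161855954408742348000153094972691113361236239361628844933815124754155969677845559385461966353012584499802079521958918427403125853712416182948702073512395186343493307630357593790511250171599206468520795572766409911014043295239577597654907305702657333211932197376028663308243502087554922880209978636416760532261538437391459464850822203095063183589027106338636923504537894304786890351996457558212011416234814297417554481789267941902252337309230875157984166879304859224222493060576927894725602103242896915883189415193254966885694467042007077761868312244469706760641005531831017005485939361453682528688735898914147515700595369621423309640109533743392550985764919813266132208057533156775711632538292576839142585877063143415291223509331573378888229395895453049673915558260280165201509238515072954241794526872626292788916287641463634303458623098903758033619887641523196395388378534762450159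770842120949271569476620949679263768428713675542144592568842400191473650973347417681186513591226955633344085028519850828866463688795356954252128236152014763235414879319620031475997291211021662261019684557245909176920588712300828540819650852423662224326759749304215236337963318671701328294098528127586840807177603519919270484454604091325907708494844697795550142670669211560521374529148644411335978186940944611275159626885224653446173725771278997823080125980667361497888686437616894505473111693337995037859573434750483837645647429327739214043537786314862893946024650741069141093302347716189563813990045382121336046352417111528310638367999483803104247917510932996156283372739538454403343698570501005888594757907472621461321785601403834626974401082313917056602152476416372998482583834716756043773848941466988624076398489836421486987523833611232161717758252628992802011017534783483418014851772813146481925908819271235161210077027181440049742304899783920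148259686212972401520258957737645879819709150719914512557923911481696640738743138412250817655883105185891474381114160115785802107994020469564397088963183709847972379773784058185789161574473320740928825882884609430733448762009758777415405235205011506960263816986177405430090463491385846060343954641362107206980302419209849290091685437856886828955579806888015374116180775568938387873492031280552529397035570699520762322000416947100207554743473256173677598927392438746694110117096816476780525408018461947372237559080797368292950105961413292448938267671620488795400232825148461975703504455931223565769741579933289455548478041093781882254472261672832088532840764106193816919994208058143820255401763270324205354378787405303700840869932333953661974139167515438278716643353347766652232362632921029579436889673503183311402537490906537332426140742476230120773741337454714539742825719092027507778708055704850602798243068078564388717577093579421626337583809655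539281964569758817092183969047241202861648226155162033572584574387855194163291229578140989476748503453824127644961496985050068060856104142041714129257824348944784780292198797204798188959305532834774529382552866454253236621389993013893629193077977167496160570608392347264144676088622964482746738006756140407459486076270377609041936715895397037483107740872797600956352323584638618884744565437489380874607733352734503970151721274284985679403633395178466815817290296261032107934904710123467703845138440839747635469521945487654623373447108782421260144944874062596989698293348289272955280129359989898571536406647833907678953496083967231534139500531102454584747666320878928300511846620245761955463935635314202974046520709986283776535429703887224557658248954859638658444842406780442344570530846308462734648520128731321245938002357220422359891097192942633910398287737359039178513589206781515214320133222785599015507544914328327317504501745043724008403616373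063864931913446445730581300159959950916405760449960300090528709512593478235854011616441757414190679666959924302421464231060222099569877783685226257489622829035265738357615351516748771719373002878915141620635122774729078143200088402807709480183717838111387323534772488975035704103324405769352013621448514308082047696993831517945974111520769095177956010882225700290144082813664008744060812971094898806564944589481612540467284567112947044888442968888900747265479382983101045791452868404805273678167815901850718318239977218936886895475627939820847309853189302758076809406674136783849037187955057183746987086899734820501557411175537111462225990052689693749231078678782738745412253433282661360684660901240730496970074480753591847359196970480512548222339027918118269735820303649195465725250207532321731491369334869178494663131037102262462334750538901254468878081682412609352359321968567366816678570950721040113756778432962050601483969967006184740971944268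153237328839349891756407521289851835440772742040105515812175828518345715298667764685183831755103209501324646930144315899828572334498336709521217765248078653059772949820896385654740883822554361634630625567565878315752703819369015609593222737791955480944664242451317987941681882624216044117986052087628698988757140889087068475083703669785263037064120098019081673042826783620220099215307331482850831568584922883508529167424581620556835200911298058503089468245189603511388423844009010620490104047138082342979793076372922335807065248310650477734399646186386995125415127550517640151794701528412689914938106411524276027961073550520639005526317579079444883359997194705846938873459464189415412277153251801078238918399484400821598583571049879930938882220998888192890426905951893916478347186383747378384390553992571664274448452463495658756054212947143603652156419417869444835821557966231458836529308237268411786721585629358290403426550242961988799822438613601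949516637475590024031995751418689812629999024810245448374164915958657881137455839179739962906885023576518536945771300368390579186729721450368294324432892775295244369907744407191700431233000303587310673572828556141413665531460432522088041921537446841302703930626048790838377039962655299128210755235500716236833712264778933980500461641541275132054030640556826978968641708391415222046175760718678648902860426612083817236697740604866376153428813876623517169208866983556103709134461219688106708425628777533224163401397966666334923423999203949745971105084222297456532329066593757299472065891991024025134583961892762339802914443355983926784611649121699654178828267941167944207155478131917332106221420675401623980927845986330818784720744746864343450928749972000560739934161974502987998993170812388040691553513603480963549558375366629317058340724541658598223248088964847217432833121532111132542078280249378842476919996279576368514693717493773827872314434338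144904553701062863031003509968763328751710855047827266305354367255823730508338774131756420211433721984258971047617992568884764012015591293094357003752531502874949405962925303386084571946092894631093208343103266918424111150521373141791013526218692987866044887890934059581175929641868656664725358073583387919138863559451653131895192486650440395830493750768762710019589792523487712387107986224949986726330558850515043051570045405496568004150456243937747372094049712731769055000172885376971586267006614333947031270643353948091218738837904083897855833581687406369998272970785585855425922051463665099925747158117955956195776413180421229754501289311183560151335688027544222226952885974477159341991340373382549854667131722716668885124523011963146913132838719501157121097317014624750365807378934642375749133829042454267358079074541020171086537198214533572119953470537539503175272534506719583096478789945665668083430278091530727960850425664249339702211870036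675740684495140596393891009351205382434682665436813938351238734203052184288711788131082502963038396256168551940621286709616712564963084848746806242972910454914227754807659977618266150197884663206069983938713657444871760118849398297717534817495097521808960073607445768991356282946286174266393157298057151808684502294578174494447637474273074854291024760182475651550354337648799701897412397472924215865073337056209187425176164619118820897874215790839729359705893133390955170954423054290542297499320148074282838209904812110086502161499921473719397422019451079928755948730428300636543864765954219128834251910844832959589287136660347544701053189043201625903340278993511177967824308035327965139360091320483224594814918040170697906058125034071164692834136816991102344722056366523528539493618201872274249340723648460206028738334918255364383893771726276292905722320928754264154477721489176893272233699445479703632684377206350226357604066190392949771714434536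773183683058999349558619272404210710419003855766245728758717692113944815293752987025120006487105012040270843356322026305142666991833990781366868280390172877201003901134292994056635782136446203748612886754209498829862906707764290401765639102462251889675072433115840128659341273011657074923018667358848548007793864024861553020454384605170780458244756740486022678124475143932430362931829540889120118613537068815055447522265333048860195224789576365353700263198442748778874718282513182823626012681801646290624875033074621986423004571041807502950611641738252564192758066461798619430318639317993825306197502504016439751701881127575817017072016743429142912152128109333524790823046496800147015815288179919186932415897123100951835731808957718907764409207094938112678690445100936234619871196806223623777621537289191101013212708088988698004410341971240977549645635470672246266585657621323860052816190689282912115843632324425628826146031844010858014296659406290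042982335267500323125367279478108690603076069933099567691639590843558058749747635819260821570759471317374594802480461800350313202419316488703814547449000122518758553240256316749390562572369246819583584695873354155618277981090313223577397528362020929341373546984152357015435746822869373444557394628661246027871736522842393822715741038323359272697543506762610141982363563872505842664852920217043461075988904401576877477343059313576170885569397771111457113200542723323936065914046573886332333651988587094219284081360812934001003744752607729949438185140780963306673677395957843947450356362424534031368456962897619145743155863570277255665527291502044686045468362057509066332512598781572188456383446899827260133671806069157807911324236393025616505732403667803103452890739385187271234501086518634903078697087279508334199064866310279332809306154577790437803168437262312005367417922658856202643334657519709497439300582413706219661988734987734787708178910551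5741220482230957044781669680519602121688568312477575580391946105962816080833210366218747242588505022036626303642639911654109510569385368203114205363952797161482366803750371750268372744144102017328060641814906463944014357440514751242914027131207695257061051374232725204021510825884976184739758556692466541700961283865113272363919335415427294795716060153837842458755737220507257210874677323381203887258083121981906183162102190775663848643724090127602923871257178351988978265613570399224779649242489897823253567489087798222455386763175800831685412596959259131904)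

noncomputable def rc18 : Nat := (nat_lit 26533929994711105069311036808758131842597506457290323434062322383380367529376098399827328321738112551501011671747651630570515434486845332101353274517419573747493688485088201567428477170286604545596981556712016858543778086379927286595819081034838742136272061942213047958326145530810276799383585733517562288519453243995234357876711655413863781809919340935973407048454012049836759517215427899329653495255617974976818802770864961200531938655034936429357326021384012150970328710948309922867807386462683647618440189805018709351927623736468557885613736402776369825015500213573932847894509405735270720874180894371747973129628923495158432436562387291380666443299710909194422063787247008529694969759036410072870833409202864133537791022550945946152338904907754147246268602430534854653960802351006054043595588379811342448005554546915821576229372036506555826737247960047127316808583191929729460146542077644901598542119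368010808862232237024550447395539123229023051250954580663885476530994472570224397455993688830272214008175058399577975981888222520178543772800122000084610315733644804980527081274991159507953069010590854131376918254113614905603557893870574761783367126942845825976092021549603368503162500273113147292267236507889878290535983711736753753719788227096434757454623365808206642952638787501064276462977706276987629113482966296884337871083250782611511228862850300552397290600316695686867257304887188339541991687615115279234338312632760260607755558036491868168626909880356103663995670424023050857787603118432554352567964396138771759385625824096420245905760427645394243086988343661846189513864702407033638348707160930486320930492748959535207210857584604355683227495737680312659444882118573350355500570034600143290290997093544830747440307158900276025272198673247227389772721783849324340231430314742704011322829243048601974669929743606945238880709033604637522565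784375682336316229360514282410199329413766560868115092961430787247156750979567513899434712585091540504889725172945050466993070700068705058262287115817479994459356930548268102633000540260223294779207605304240617615724117518547279149135077254866139178476858182458732004969193535711445421421987725596589607142717334842193602947086256407739554353422910159136931629472387561349511020787198155087379112153052399708466685201442738717954656932349196471827819210260860432582797030931143705681875851576670651586072484253750213868485480446768206079058788617362239348613496528687912335498164783579208436792206018640511862123392682432980548396543583698915687146000126839124458224850086493256447790822218361134371825819712580322807117726635128175189850025014978405580632906419060104587847902744405405528140729526425012633578258374090886705665255349587750517870203580017569898416337623338615818749870349631457631567751611471949692858770875593327556235803288822685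539218745837343936528296849185148288755147347603027388959353285213758632353826650200849352747852845710795945395517101525558502019979839128884145307403555278537341953616232820254508483631534951153167148978084287961291954546372019558684639519350004608722573492796252517790993530342683251618370353714931055852777992980947441552381684060849556524789520877032398699910963697603457951034406011847266262995662798259201352895600314307206237640668497118271405573513326005374997621216442042130110673640207521046396427743400655254913253410761270341591543262578675512211182980621930665064817272638538236010225094051596709363889679882590968352423779679863912760596779233529607405058571290723679548614155164597641917591741788115697247580283129403351273558871202403887673390915511578052383988215951029517447585796527320112898367005361291283272122181199917073108948534466230212855942337883204418437047172592846967509616732043929024653569479170296412141362166814555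488473150147701960969972546843922186991344908763665068522002130555248356356135157715529675951937274525308284011937459100898923326563313291772344775216585896083562034542296605724508402231188542668884209100496283459778290021712769231498282152577575785787752762320207020104162474498366996080524236010145272175371291605923219055297373724672137709712785638250989824448449352397805104697045330656952835049073785621252934748820903707274140309254395758629879751444668895399778344506807745634435719398718125835588098848383261991929129620699127434400519654824546103716009816676034986312732235291126675075318626356686689936122711274085529864604581135743764704940353390976888771189549340532103541426040452386192123200745610707720365641041952082318421768778370633782407834633124244148215532478906429453100993785264370211410408216487639174034726162987615402411918425475892127786403685181455593558828983590504997732443106053802540966711829919921157984453833064628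282445088468814926651392709068331033601271715396931268837318854107628048661476335817460173463707657045089629300141044120496434848244640869492035507683066006322299049673721887565869745517386594284561726396721267965057769068032237495177960563335300826484516190889635864216927178622838093031975224943412653248226841486821941856921391704481068804517752218801022795464416585770613285402076616713894066859067317614619995066500622631813106821693127294341009367213904212550137770929695898918052647640928858804025744881752717954582814608054698610956991663644338876993805278873157455075345800090826948740563679095831229477560775836683971126507010457194042085481895873738509124701180293547475091334414983942157169111927628033550026939390860060493504535018618830621630977425474169381617284503445202482170036774328132568586498843829925565736846660163199893622877565014382769894525083691835423917961194084490111949916540429993771102898621778399982050081643691646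612705487748446104132333793258974127412766115380261065288937368891982684909814434028227694382068431091665441903258459908783450953266418293165058166590342661380472554137602815331275988379773546526322687825191780979188147303966581911446715037913481425416360403260013799660258487716096336105601652993859743928671445187292178746840656265895523061239550364538078623112561253880758714433714888531105205314520824251253566816684967637933282987209389279850531084100964030639243700124523135584588638478773409163828551105457792237788165263354958499452100065802516947512911130323201563776182452559599953771489583546932478557605350487364445521539996304235941320673155266609849357680497921845576717624634644866662992677442723729834199055739458262103347659951876070217916290764730453914314404405906903765790396524102940529671279353874853334326216976938521297054376765640553057179712916070128084342229941014384960915466368588019000066884122293212797341158270920082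956957968461380252204749646267322827493438092907596237968958640565955522689599675618794399757517234846357229709479581198992386589121515163246097988325420711354173471697382234013762123146071712822401451622633091474175810222102233112715327412504507020237450528680526824194133110044459621187789824973347102114150711885365989043319434826060179111440516295133232693099762428396026715248979958449800321202373131562213222058083680794852220541068920471994871733090438865243079722886306683704366153752327771545160204941137791025891069314185547886961131033559723741326934607097732254357411091278110663789261734089717334103756713805868161051465737786024324469814309041772618533414206986676471433148533608817529370767103396223254697156415662854400883412600023133349888681527007129702329596172531272657587743978757550823159794896931251961459850756773196419491153268757750470083688271697938441734548770866789034125852750577909192289187012397264657187159546030985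696614659385244762930425517317437778827892255978514933011995464663235178529336771867194204184825084824595718129327803167859701500398599686522456044917296004630238209745334378573551819270231919845822900270255224898835709262633303244658076228078902196244678762690890601796052681959377499174225967129408851828263098440591358093884023869480798381979552020945537372887346526446365517391429381066687492209193342169110370515424421940048167487449094610435443220332261778138860432398782779460519499083891337620390775935811557298387206362915579954905243309586851145381766954999123419367551115574127714661673012433480572288063969264938179855766396649863231231950194939145039099051730802006513242971947710597591060153020729005597372118948660970728949931274356716385218904254655159126498905273716485614626538516001706430618430283319447825394404491417613404995013728178083223567712997773806060145113837689920524923003913053829378366401702384185242225757365369417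477640105720154265321472991465371768700271351174006670075970529172726158757948881734357972086501013945563820767221030957087668407739780899924882374444011245810288878798835030093653045019281841727740123195633501881224338359816976594967089168868303157383891258066672331453050351648924675969709527383085021959849863797960591706256581637915246889835372254228407792374500562287757700712136096333535240212023418767589117385214714139256408656601581443266560773201517675908017889771531749319747458589111878637004436432762785115763069061045931230561014008564828826730206610589376796523707979060607558461968553221029231647499970903589700694821162799470043217437607750484667401409985105419549763879699165128490492509673518047281324457073279363465450628567837555188507747809148047108767856457624657664343717608448152916602895995699775735878121777354202896863558127213478329674655619029903529242948793708462698572242356553449033863190491733928144410592133648410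549017156378647991628294167423534390338509488103295656127533332548250765937659769827792711458035965089848881596593301907444496213870458925112918185731032414448089998124483440401022735378036360228874094317106697019914549984741658340459037592473721153431762814734732340969019849837685749205381992068406882120891232813032350195244978985207494416339621383996363559183276315400051494200793728861140882867851756920527890804670923332006243533187721182276624503099079602241820548694139949964958636624540263645428729713820728865668033093960498083842387430413029497792347426042590847018073890133247695268113880850784603630378239102551598310054859269325786303522995809626693014486063826149259035599847707493470015195141019692605774384786134837380260172762465762933880042273635509332693858826746851721402588450749121999363191677070648149609231233983409075483061173306154601735872260069661023632255044659964626061299024121815587110726186831610611259491608638267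450400617374076396064661517546961286772853720186217322271869322890358869289642543282109237931327459706624235380743653449623227250093751325210514377744779850769067802242885411387559072867611035626665282636818797127429353216047525105810106223647856348974600195549798384020856962453788568368864150446375937400337364018314789439148534596232625539842078397230252885142529765330105247076475694704027812300033934933432080858215614262875530041372847913324583845899419182700610011978229500038411228062839045097957420726636360403732467863099116303438579499700988337271094640776723934640291338618309021911398373093309312240427485549927395672876994972802832564795731165674727510189114359552927328997680908139158169088363480610449888650043744941045620843449141589665684047881327378947937813524722351162215999399077898409791512673178030118966247951278082186544148554481525338877471761354923624614561782556372318968767043016999081901441291580907850063669816460324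260241856928761107082210812672282352695290263771293299071623854122091142555483742649268269299043284416698294328573960603301542376704745606669036616973678897904257264084523323963382243379221961154325504815502562135234986320658615960400684860223239623498182259396028425202084705194295089192467564202414852133280029182635978668907881621165632076813491101087952684698560275233224619869999612005741522535187808769625720004615898935044599084526033323148809400959426449813383423269192254855859264496377880435434861022816327859012845528863094689898948292896358777714079785645176574618359980304683092484393213208047624950295417146767201998224057750500841423877559170751150903204363719131920864237028102386310666083992906937410860805355848654515629831846796636809765601792597878809560428008625307995552000862445547762285923666471597661118342004664502929083675832213733347553037552125130609958004360339000757456496644807533741396816729162075374766230144377145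650655355095427535363491637738154679275577066510151387001416286122924346837324908037898926558252429190653036625644521075498017976827914663898132318771797391333229428347303086211364955487950163261832361743134210284669627149459595475380632307958332589764801967162846616973619807808073996339796182171135597363921578099993693833554658721816058905589466578501684626543060589948203944761421866934888966783852429959872186275194653280860583395368945689589845691989084074330079001824966817930349367356073627204798405474663356060551386636266149760606516583114315124311314783737142842705207535159060153948037041381228136510680895963554293848834993917022945570674989429592058980399216863859394851978070961290105928503475151922748803322913877212651922745180042064326304553208103864040482733710398395369250163113693577584067121997101199538483474748936884337924514631527529199907725614944270796629381403854249517606445006138297946669147631195897736437331383223513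147148304374811131044535625518569997420941860917422351953733974939148591831754671050576551086300182597787621679758393911985032060443826434436404756080531420956554438501976331475380414877834877252075999339886544062150446495820163549951387137749107419994784265460153634004201648723265203269112473233216329106190599021015921721621516807751817349354143569903646823411062036584460376561184129277060329637702338276721999833922957502284023030426173062757286526174838544596127251457387575254607230246978881479701768217027228523554953462363129860942416281879531935884091328546392759379322258451687847697740495190998105513277603397597370479093930506689581287519609468329836943770786502441971533187019425892221025516850513351676189393949912952266008823369810154723503696152552131833361089855826817998148569807938224933793176794191558662685810077488667587271236222200842822373552876724704571466874376074549412790321980085441891463468570336325365674180027009594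850307535104443993090026594433287568631365775678082809062280275805813209085825158053341946587724086253716693286942890593433123927337039418209144832038477858667049832122999281002987079958360030745983508988556869670286827687415520485472059306784603318607653392184923179437035280503660238483821371585603725343219528811773194691035560993969134840944248360162228637333141779881409200047432893271739991124440343600581096216874843293967955193328735183275862730095287928749449210673726625877434061063236804038114703316220386429871660272633609022870069053227821255327382931076264832602860251492436991809791101784574742499627556438179535549236333593823352420604235605170984223832496235073909050649147470138993214224965192894482692285098625427251949330148504811145737671819428629831928223271644091477137676157672495702277483421958777468833661680657025358614967608746966504330978682960804077681575333958242749463498220183725689732992131823808075104872962704275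002750799966607523089270670572021712632881895640850926157935777583941103288179365330851430856790983989466233951265496008455236491072597085769100403206038915367845982608117404116139010095843587856809737181552898655275994401606858584649582262830559685781558293636253844664163522947007635957896317615644977391369421896577849033287898100035632961597476907972258320042490622560734374358923766477521032310248881852397553312988981145258266817830958406150743306332407442437038344259902004653899394382372660491003385661831543094425450040197871730074645669950856816902989318762900462414395539968686390012614519814093345728346756337360735567882417459770984392601978670466835813839218741706713664245723915002195915555561710786927905528491560106489992344069638441097363567338822807980481686463723575051197635434426845975901560500331583939767971730108500883595576979503283985136213074713494225936782841074886836496498146135735006343107311763771144934424966671396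032243738515570475120430679413851922261073086804199879851545085573123990941002443215576139431586425373700464166202088834345185105072092717307913053058867901546542054414186052513290961372331944864294071485446180636076422133608692807264436686701467460691162846260887756828131596605016018140664268197045747027705995453074292477360960135550922102718572531724816960188527279344843491680587631063325308287483685597273466059698783390402461962072003919987067904269410574060127229823930390460899727337053573400131000720399259058444494625136860044428718377198320597700573058049673585336207575020713540053679222163748867530956987452377791682872675195633666537233493487729957163813925404435195242640653758660402445520551841285973296174544767487304545833884888862571665911014262885572461628068565823614215540766314689832969846637246012002518311573032016868577621020747865065262282607007243873733570143719978937171067460474565616296985765990328925795928551762700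943221621411152773784989013394385189039023697441195735301063285286837562458221644546895589636688373365687405753132407751181864993913631614714687290307792987693061540526591011307546243114265946254997017498663443781518418371371661060887261129641688746369568776213010369871366806467678841712859976933935733570410465489326546858705707936873176191971727846436583476821707017234620817583314610709791563614109985262941038884250360021589703797020865077815018712408929003802719153750829802018253291233171017216112965815665574364958262580124567953058003424861354690773177180842032976985449979627982074175573917919759249858648030294135796394939418588770679524865232020426420488576492492233895830906289642314429804098108782770359889901657995324454968037968701292347917759505148402345983417935888697186311617019760582034302191646915719276989349843574955980235618668973453610546365514017174251964430056014491247224887556479061584981928950122367704840885503436172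4139086911266529417528671380012784301212153004823201183580988323833343859981398872302667123858994138522069752561843595604517996995217628879764082437020627119908507409447727254005937136665688684005034695831485413325167041257387505469426760685593068923329014409244324054860855178404402171160775988441743591153471156031741192500892271070187922463138539833331639912670033843821809842758062395363648705643006873399372231548388103002683104381885499289447333010740061804111210837754487355833266275223290522265360924306960708117248046079552425929402825513156613242880)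

noncomputable def rc19 : Nat := (nat_lit 26611562059655904047232303933572131122330096982865614659826320388907682214737673755652011894879542123323401973866223025119567135902785353035721548073487201718288420765897037548266030387868044654972069623935175027797231300023087028761792831710786835002716348367937848643527289825648475606579882138549400116483747432835070247023103581464044752312353846026884807249487153619178177890983271913714311647714283270871016249948176531260471109996550185691070826318597402303535851812282624683284178443631591108044762935362803723640315451372485945705391477304236511103354024971169337598613326994046394693806703002053124631926569468991325437627816104366357272572112796207506894885506835699039764818591755182483719696817063738734420476715350780468023069586873497898853217512205863779576338792040651210962241330154936148467101167185002656418130539025205599252035868189366447871511324645052925786906967026239679322645218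672408551290207058353119941217580949699036323001057656176980058642296397558022410153062429835226878163272157242486290212949991962233307237979735390838855987637280875099579232307124900644513002080523524746696435529345196921138976509254519121526450355659046058703432290553590754936403968623915486516976514366197145737452291316766816343722216799642291845965937138987561312730638508207183017085598067104448150869866312702234027196545929831846153601578787297973253656441888378035196726708726134494707865137616076789458222004050026268464140200990289629591291242512630083809222771417754613127011597165625855735810467711474928299299659689444276962770087997937376300734267046505222704440914752334446187653335607619700982242334957750878534589055524593559089555868986716019632149408371128726458032174213987699620830409314788501931434767505072108451450390224667806450854816059635582046653021253983956595357876040872859394704845026200127107454787859755138781234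495728718343790726242481323421511317683060478630015610481785962757151684872780028156972337670851429162524681774055142675629227982454363658938507677846453233811224035959325783873754104693377196045237239748753148605996753168862331776492370563450337855144293239135854961300449884407991599487392554007991447660913766376390306581850100831225455688408244637060476398966738824875259638953140624771285086862416308530162165282700668587802907662632732212030487235300107089233984467505867206093419681719389749692708264118204190262406260467316180654766386397027783108064257334516815608505519930996818555412681565873932973066279517227271054563125408838374937380231138075305493973118382146335093989515878853122331700499167815148242639423008585727532745488234595975271217094224714923638170213869723677388683400053190234604373556083161789099528543768159183246367593650118307710048039094821885490063425447594538868204809449125808610409172088613078543627814268277337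640046471934955728603900389218400493537879843399317197406023318866446494954416609804563385448407458045780914404969602071668154076366349830517880083144976135284478527663841205850348254334315947273240622456535502067605182981398112014851654834501186428070381243011912919288269180445116625185891758101009342586856290513763895308010776811795120661070819649444121596643850131274681472547209079327448665810344547370176087378819537534417488469460205830319637230665128940824168811193251826008741313412465898039282673816029679491253759391395323791894292129886786998535892725805081447550603717627453157915076675682520154078526903149014272702956651132054303615178116657310160308088000092204615066296785480736769921179893447773875448477591131305493636801653428017934259812965090649491535997318145930575013044992547900396778651019127626340347502234537233372156610604218560093919632060367525661914788685967514950552192060913739550462621353322760524124762472564697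786655514503035064729376560470788565604059350614878455282115753712137838515255621671692149037077293460728049094866215258030802203190304028485047998476364977252381125975478078522837596300070945618823035858290063728605405250357903177915062938161405760817148673650838375868772372830760794494139274053858735419736315070673159343603613081018336411136282645264744996393024087847261944222715079923672002676725855907620608105512562203300910455460861604845998871351717158588685172694174369608928750011754379743382268288739526021089965230080867919383754567142880266540322486874807460426771679671393245016241578881890846737195759589009221363128891309663035027709095806263270504157716627756424215373437824136490228157530532211897363287323118705613905418920676372335943867600573108606594122505421091313193272569477131451390374556413477277105142007673338967567300209662642425154892557316859306248833488429780543480044584997913546298497241232454675037830650676251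702296235489222945340950858212003451248789294878318966641270474943720338191452605597191347411251623323626877994543966917129583965769086285288199260678822872424522953926639439508983203007148697600878096129713372240354367603006080038186575100854808644444538711694573435529775809744799216435488778642165499366105691504109020915492318414763316109122864786493680367184976716594102964352383344175856231520600350209379543134428458144336514632895896079227405490353457566147791616859297689333841380425766000980046553641360688217625807081764319267259014708682900901210031702230351842684018161618323682471793481197536698865471040474890421171479481131809819660657464975211331128256842284091653584226837433494655350934785785826560805414368841662864394749735352558723347515784438854816726780135983601701477155329593646942294467562222619049844426252849760009321058654113849145308041823898499184854674721868070086967071079614842182560588459937471631369828207735968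035040531640265938955436659349512536278064708091347737630580994416020023442997379990731674198950866579593222195085678348953449334268210105896824355874712138700999484143513784404504848146695083181308821907583807252500637537724502733024765372992891232292795091588270023539504816011688471537282757922147612849935060610217925915722498423971464952983545867853761229042019823873168778113340954968113569477433071973971849069334799567252469840447905619960884648825399554222612474944429330161843250580188930164060867548045558809336053138629983328391849790965498009750602821674352114932413234558092085270535651751645799869222998337600998056238782056520186786505005450190868499181826007076583734313663077920230217964243259771192605776472957298314452418157585809251467038609999880834619560400731167262179869405643938227649461063141475123157606698117282607332137238514821302203220551357799767618646334214549302070153332349732081163954218854270460533270598627587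095533818740744732349695134665747916264569170051054543311548191423918565891639075058762947978741861640204446800899628096702109675406978923657146860627151737280459604844879392639479278694209011888272534882425385127448327974744611466062532739143094230859195558717721828226602374986900720040821094296194044526778084564331371995711950279640218878579934340371319375456387899473192901728883463683231000852051138023992036424403513343634972826713652274596387087522078817658494022239799856782353091408345414983244632510386571191805945411559014019914733426975400478077010137655763804373433911983673441907720088123449491621077135591472017281816219916468070845970347277187429740066672566205958073767612329786279025917327037228677464206874248533567799012562449596687082387985496395394362921708060133399949945124564130196834861079860167467588765762619093730994461672133250175803766373278530629467282606310562523985919442644588993496209030665719352560736105445496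399462024414605228185303492923905323872755828248538617255285842202885067781496572897218713290184713353816214259701099139579311896200101723392264054879689303351288293027255292966357646881395763225587771799032871293005943261716624532227021173479286451962812701794736862396778195326969017265445493322160600844260248920065679285689062514083648759373589414575130535016421340825412190248264775361065671626227455597875700616440395139048747120426260229942412106357858899445747812278645936367916004180292391160650283787784429702929090239407464866951082619440922022873874067174176446786660193411909510218997684513013382239330879217298850319230972538765685307838379668326024499733168452014899161987571664013003864971770614145717954391052633382321476215837098206454313360577892419936730078343152464902271253566635701835305862511745042168723028826114187082534419879572469963770752936149895861837821659380745586998901980817058625193953008312239535189688771083626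553747812916650535140526698751220324523925613268071120440459614002893793348803678129513850681087588112762574559393966192879398483102392678736587811945832798533574718407246648154008821296274556397283800556840782261372639096161060263515506465173973145868787850861870830713725903443398948362247479724747326093728514268393789683213851438462216251206597639214327172740059320648105144696091190906823778777389892959789330637748606308869774893453673284404089849220770610711895726806995773841576519194053011919240718469186286262109124722105138982472172751251807404821957674552328529890126940689959241586254035076381715078148813812076211432993691353628723140932077060773119505521264439959584594359172887659619996172952058785753287640319357301913139260370302643687746935137702074560036198712738681690187546767505281410407096899869672171177359538464194330490284266146928551768612887015403198483789016138553689525550569455903268295411795607541622984332179733256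996774984139955023689442980043092620469007011026554536086617737142056913115920677987046758209043118035096417222907378482689243561217786010835846903584268817939554032502145729664715856513766770806709478242312372823644612081000415571104869757500840206040447122106951282259281444184435904087667591397166277277227560639419823368304011231958815924733813300515337567755550300029454792179506445055736417431188146476405473456252865122681607322166528462555504925329767068115226466966599974875979041009924519096919613507669390414807077015501804440086658416084588050650735295964079890446492874771402158552472641740031912464140400952348233397232752935275496790148106156366764848620937731328046087855189852469158536206764352699333151310499431159113396925244086441403529456036051290344809149606041420667586824600005212958378623781247077152666981132125740876701944353046015560933603601033526750338739918500457480452870922236944452894208898461191211162330231726533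960649302123688642324020097186452077641239029576700734813718739448236108495378722516929810396019980295619890095580796817492194679479678794679407354085067314129087295096356943264762132576466414014948089093153741593613222205566222359817597308433089616158645701020681069479895928464851243068776180439641816946431569176295424279023429211558583062964829601094831886146439180902905346838276486862413663370194876167124567814479330114717412757437065662152096021834136254606787375354944338868740006128059733460078314402671286910043058543517289303123131572238812410731351043249921903647583543637175681903030447626637381250426334593029800490968900967790362200814993147253046248028224565629626803437760342541360168319891771684575051756375336733155852566317902231853326973606735716396319062821151128909553355365442780831122506611372773865768358135591713806671895334929124014233111275939841133011722769631039013417314254726161216430045161227444424085884354493574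275261640126575941982692231874859108916205056632602589781755415404056731338983960644666340764705921181092494126606043573282600574130505335656383550699246237477817414073051045323399468640456898013009651876682562798391819211707633874214235316743170838655047134065889566719930948287218419332788618519079962875020793669701939993214737180336469565514176635196671232632368409849523260367983832326090515812527672112819803392321795816017258350850122884091318624039747198318274039250873897524471165768826781348881944564815869531160350720925020017977901294299546668448242861502860870432093075092719462633074938402649580045479651314167401229496604118738403838881310674882754971199088347709189565709643126677131265153125197213157036078155687832460838938658147087631353570842486495145779643224714473037371292621869772022732845942152495175399610150720618009336835054539338015421592724215960561242227221093669921160664772325669772254456321550103663689011289770715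165205586031469779722148759009995853300602676617543551930382154745147387067069809379414727902094594496740329950413156510876109907885319933801344162687897462162973800862316996148480462153509936783792990332426150985020160513495091567653303251354777352588149703550602450586346353452486564199148449857110523855284349802783358323972649413679636732161939901740882666004665254615612297533581444227063535637628396376442869469123724098762889926154512046489776462212374444155589287359260039470793210326269932410841374135755221407468219589965006828639853675983485666059369275359682158078885172927596744647185974223778591082550304949328081047029099878721102238365177216215930399393576735912859547840566414308850559823338454002093276759440795351662284571973499416878797506336482035388847682797549144351030891350081452308689003201733478823611784262068061950062659572886654341165244699770116624543944239366887050514967007051779725171014573970278973265139258286475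809470005060984893396239191147636303665413519357328358050084997790876279909135290169618720698441671780335955266740397102044587157996605703376826957098999990375189433090179990568996548009906482074377990094305549996926394809442248089706911127131334379204635376581058418583379168813328092841358012251697953768074167626729616248151198405597993590608633554990221590522922584383064206198071572769395091054332203325021967694850060149091310821454542815134855053218730770237217564998096132578391064442701394736098394609409764017864801948941014341295809753288626215309500130879871224679476577243905561050402523658304340506870811463784770823861586211375699729498804965496239268179633964819475259990248570448532786988589153429404881929203046935553588675112659820991644106350235368722616276230191112028431889563399532798782696138444167903827031990775614800093137848231090192457999456242441325917610796287820037401470489352245143546228069383083450020841984460221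507246046494320266198085963982847710591660847748533569682500182472697255911604863554160869606673831448504828702302242161832616155862546366353709849532725255718166004930442164149135675588964765792275554975278429849041975946691552295442516075331542359553825904265874739225053292639410843645278350773044161068969035192188938100063339692695396133498327426460444821969492139123871393126197957072247574207030939435651585900069287548206798963791318293240465604067862650452693757741242645634808458031077128920179172237808336597694853268433053272518538363197692561170405455200953592090639645762347910897751157432730794896970155917225481624267177028382817902934379944376796083187559307039825629639952507262110529876080555513249928553749681564201311859177310025579637947359971178091582737308369241584197157823617462354011190606787291168862245179309577039094028499959248688149193264084786489159323417902469402085110579368000797484170849612069474100555882620309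738149061478890852988817988896111816096960202479246545628583124493818384989607846861291301499344479197297646063221626449003450617779311425576717018166298712488262711624948313665392640238596012282983433862662471353851028320513162067288070928868408221926899307139541857039211205946628354335685918181346707626345286812356957475244143181856037054959726702482123011934697142300499842116785974404708106353635622865889553956023802477246404714697208605464297507787434389119600455439468182541412856029122751524715756177707654334655316918523840986212697657852644815468364152104136363277793129003997375176627194822477923887666946486230867044167327017654479842243089532636243553164153750071027950902320877421983688909442975084659046908186680269813972515258692326200412986481894641100108462359343198502725502373691712971669182568045074720545112575115640162520081294490209248959182771754367110798356389983622969725054679552330049976117404450714001497496323594734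982766003245316809345822961146852267325879581835389843948723889381198749509337927830826658389184962261687789249116255995026033918381997951670777495092240111015388544383365590707877113292876218656469830111937332529481929799298239955947057462298137944388427672419349885962040723873328538920198949788641655753120161959453464359297296538266093178248772849678448530045957379442046573915037061429999068543784806110899780786689203774962500632468415653122963266311443992869202372737813402168433471360579104212916589813017593170564418108512409167651735513770608395057705258579697457605149074273698558308559619434366206922547503723153422776288241858635016763262758695841405712583218813606929628356868720702242155491620548824974820319187182759268748204881577918907063800894211732277211834043589422789988507553852714187956617596032920743982263320227178612316824311753170858422587687542911657648602541632423029192630683816137208595619561464386786289923237302834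866750116583549688025112805405556827490117944254229619293035469385253028261158169068147324487218845538667743781314646645897502009478018198107122696390770734706740068062077223174906349860465444108583213890855905949926388509480207920276577260976793210496515115599649721665944868202202648314241701151778134668431514313486029299525360904430737722820624661314893379830304073360420473104947583640943053362028564088463816605747097494077108458223608217601475363465572385530739788863842717751601187208623960583522911911781094975542998014941827526772226954882659972039311253700748309034292284589619221406294284677168059733701027317558569353899757447933090652731946541520906073266041341359993294401816249594951691203342962349969417221227347769227066696150598960942060445394598507233861945798486317931923486974622295404298441923170328910885036974856559576415706197162598259717692484381348298604712070666072067237854623488834931574083957639329292673617696052092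2478295301716722915500427581495821626095085650996419342822419048568171135341789230591342614521020708293853610382389243556798524004488908959720717260675298113447058136874041855616642931266240105208724603593544032367951415459824279883886332715940346920505812460418823370350716689198187580404667564777798464430122181198809642986252015751202444909442223563566424925134192343519390807527855367961366205702953218799809549843399563338753839749254906613814399841756457906304003323592834651928408577986049935190932918552879520658059402436704523773172357063767310204928)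

noncomputable def rc20 : Nat := (nat_lit 26687566237281140501524223131050170796183444612604132665606243029448397257977933140950373081705922904966863199263186376146730922987163439648224420967050597790292650191800637937256387823475307700670182559356646915023220366446001036165759781249835858685825111666805841828653003206353963628824120316800597440879684987717714572642700558964942716342910637461625274249752657229473468820609216678581089732322200008426916139831787234555234203792760254805345003720605134210077474615183985557925625217291964579558324786156789136171096458347751193912218074144174560112419892798579404348289357605140514203588207612689784774217838167919520442983506975043364594576122734254947910492417624243507418392735526341707397078496451167739965612522488551023479287090081566739231914019117015657081857278585503678751412040129842611630845916201992631048405576381668807602031820936616193645928960100038274221868736820471487206522430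490798968445651550721658210631962588667167800668117974025830816010825483696232170748710885167696059077576586807399624085765387221668582743502080323262959660844848629032781350633870938491993307586837265451574046888862783886910090292154404679627332062108824658215140652552461883278937261331797638032181062098535819826441070539595826299135682169093883293404942619776105612280774766651523967379289304641248513822296739140953940228496164081869033075559599337356012464566658845090711957344864745733687932870639290921901769869779496536592740524792879651449053894770115652347890708910844743931824059781568654572033205957197727002799616860836402565960014087556025749520471350815546696829372646982201547950524824377130212802311463376784544060215514743723968185382439867798922104869795508556211391487540186915387824499169005666069625156939362159305863929317858108710958331640813224269648685843862993844315954307310437728601982829012883755576932459056497551565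794153810622070798626125019468175974140756373100806128200389963945051384455782188968101618467348518443439034402985018184310995097188460737046464827037557067791830694179056032809645402214190706866068359216688766587046266018453168728732583350577987393039650912804546914260612287377610596864011168202507113907478406295843285449678560020989337293246179486158326678715755888964691262913394910904913336427337312606696145408374806302434602546868874945710075043388067745534178942533429915013619859959118642722375514177520589649203474683821502682144042163682159672492229414097107550074882254943386079476638800277440912579657776888406144026256470083866413344743415564522842016159130256331432797038151519546696731168929777322855280819596369944698645103941480209795542294968818487078268159751762965761874565706451525832835561077692430555265644185528544244100541338899951066334821031064604399044312522296681031191057911195235142473711505909775324779761881156134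165409917829483672777449080963576030372789737059840899268835889846825167024970551480998491934913757753637224323906059757565626279965414971977682985302889989902969864345217347159823336204003855766862710326490821764826214853514865251758483948613206962667631120532761683453479338336231700119376909749416389446758591630607309301176501115854609245739651000265265813845367661906860103936217403471349042940201815113942589121217014810152334258369618194809637127420014780072282580228592993642394488977542829967067056417143076806781412399787596236744080274401009310463596963272578602063868030431443188403331850406328675925888096275804399522743552088036979599666094052338905138702740433121871370151116916280865474402424305864938401675409605354357194781381874211137156470306658691296372612614821049485624090997329187047088068163477388534620014665412277474035129215500952707109829192625199884404163600862791828854733595583129311252463040722048477587705995268540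037235602832170492591882393086679025058271333224619787579168011565708451926200108769674673426880598955478265328975609527603196906556472023138907475057993710276086750753957041758631994682365417066755278171716167273510824469376162280111634250102614487394992755258846320176360423330131120507853279759370286905343419639859284977793372122847096415362045547016077429372636804276423127961168512744979791700166219971785956871147516589632789745775017724864546003978045681799542732849668764237819170289773435449814024992496130297974027282692684333451292311997031181269216370625376496895755293928369161981171002852803591801674728739578611766507145562275965712490209420310856046984177758614218351686768648250116475680907565126079827204310105280899844022654711378571253889712256681809748340014847525672222332909152548039503834013148401206059193230659727269222912674124316688941191334640589419238766452429854580127671981797416921241877166801327785084728063159485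873780095083574739612152800676419800174423462910053153286911411588608607360880597656818966863188306037034353112868086006560167696146155692258365085172561145012095415341625283905288370920413443365513238920168564371036589997417379915332220103070289760213871574987040012813896243727397026588232414997706677756328037799160414649209024457486238974372175213173720520852090576785682513163309673613652659784358523830416454117249505509780099633247849835522065722653265767220639155420875862780044180083919806820238979685748818897245999547239107089883628338312965227828112294329521294695041776156991909772802658856915064870772608466205032370864275804089071039078730257078272117922204913234068397588662846531633201849864425966317187548730008691481628063093952901782427392391742110254099499164925168251115970677939804583984194060545819599686392054071535166737395684158495955050232374130374472377820400655459640257856150707668210735889200829449364781308118557493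483287660329030059798651803792475437790630594001777691139729908649889854049290623082755600196700889281745099504845991599606813020643642987933154921071149253176941037777058637765442095527570117550294587488115713853876400266284173497382950384023206682601611102123053433640142004739456831983342798671409816074810888219953004010665885704485675801475462722574796764704033680319966750258021669105726535168773932880572202172420507292690934852135006835114187089721216614018679408919279361055124464469230356684103520744230432121839969696837461855751251752546137359110352809495726396199502923124436646456424133361900080292913010036047002047295032173907554328705070406982346177246580208601147561723853602493481601152987020041340959060300591574078560839912376681975582255505429949926287364160768353367483410500544185201213476225580500648641640736421651811530066614967963752389338894565671820138660178762765303311133032359764253128871244030464961155130372985092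212243618671739749165564933142644458950855373531372522662623384388720569655774605488749471080198566312241955303773990415832979949582832705797182361946140512510925019815278118116295450826102587885323576276888567268230418110660237060250450665596055095356522415219260139302974773002071032883603761622374142171013321316190159270877599149789064758067643502128793079631633744358213372215768921278260518331350151037423272284166013717192649253795810199570261153796907740327059685808719028966778797126167530462468629533974843262638271905652407521297493464434773141867419747786497275432348791137392890631102407258702856597223565717212336945197579250226573496348117920814772455441768975267521127193457654594019656671271745641795661208370161704933323522123960834405573063746393661046961292144996381522598448035294071019242103554969602603007393974712299039398812682053839859251396703484158814303600592235073671348096984600649753628123545565836000323369236304678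588870814528261223287651821013036139894050602484697288779186684920646897347402160937978251089045742567995894452005819103834147467645613462792697481581698731479026452891223176042735587211215463195902659498796529351485339126894166100980037993484095419834402375352647426740270445488505957303105200207972566801322035835747835999518115593605420630979206702896669079269393981455212676158268730979888973269131443525142111000897005535645200325087340754327033655723458537792173010434054457457881689962154907517064429281016432366056995549305590562194286017607354407464756287811683177492215172706557092262054003978266311547689029058516768388793972002520590606882949898716202273170419546579389896010065938294000837000977928900897257612891976884733404033813096000341934339815606264955629663436744745559604265601276526409982093812894093203530143541100081224072295309016198261042838078046423052920475502189604729568935911216996498064396744860197093880117915988561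062459291480496701152107198261487951948882610445275466713319304623190564900717362852673999154051403277620392972018574093300933383071340039730657036304630046355137070716080071945143548242088848071931685558406160263114741625865061221168792885946358067515836554775710027021827293454470325716149440164164091717841308836759637994176211591813107359768260065614052825661628474131475472395141410128589664301310894406431095815911031602547626008695054427842897497754199301245935688324870755683709721029728627907631635283223068916504292330684293727481994975122920341468064846581053817945196347331624286723856435393050677750648823595803060579916160277169539923459268024009150163389116433315565750818201343346566142141581009825768237702013969849104771633394712315284859142502124501816592114282286131403007486398284599431845353571152493423416879778276575001451097107397461170380945644559692815804901094124351124266028158070525441127676954880979240516472521772439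092109235118974337263638850146772159633104818386977601683443775147792344221520990550158349178981559411421295091871246828780424706259039764671289806364152528053774822410468941132770648013027210586867689642945426519624809371887118461244820101208949971170309015557847646559855595074555797818496613547952515957474632907204229804234831868858061900187713642751495585221896419818421366664111536555167617763639572171863082239128713383543158499596727340529244434596038641056679294383775187859805543833683146318763561244422456395526332160623955758546500461923379058818132962867993416869727932889056318678079950890121710259530791822304451866557870111719769727672055823252496380405965391048554254133374158723842499252485492564271388735640731830411792467055214140892928154210770819105582576382848951211351562986105176455121063847247887471568675255266650548292249794435234539341006417501785020909502949457288198462001876058335406888481464816664749087804659933170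344797619007445913388615666426224159355266419082044736198030970399992398182546159769796357382569910000776724160364792593151964205936231699506866148279296642232749414297598388837803135274079582363807422962519680307866520932018318309434124543797688383451034081826640308004357230279762682009137665097317004258810648031812026199797557826864754596527427970686858319257408183579234413555090554046139230054731138377293046875230876182162299078075114604357558314275231054162239189512277910967145827682596548404948902168543987089853631855144632387871552904460710041959721533426604580832402876624362433653166488806127154225705608620626458418405035771266103213292753315826001706607315161830042512969701175133424255030303362391177807893745984175641347638686282359943105451239869175009706456539813641733609979403338085179476433232209363502129640190862616324800938249738731320315287299451930276406748034263411764127797397766630053494154192057527891377565040855929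256970771024960069952887347192540465744000383133372609426521768914211231977069800811822267448241545564039151185227265404590719374403587616633791501767810188151952785368616929817328027430739772944461695853149359596176378977198129367411990007990527753683417982336592094130842819326816031878570052374275093484766435580340352297743900067118423381072870287489867083343934992475353789127291630516624450312975796334220642761007402588940351029939016406714929990489425327690816064123789114735805961827960896343524260631745097796660537053834438998728912283270115704021830982292204301168965491576761985575853609838073035362351025157777506355898973355614970265563680070589464575914404562557222711765671741967842443624758394168317788655157747397941725455547515143479824656202054690888512212591504206702465317097585213659188912829952009757639346474538644113524604650890473827820452275513884092916522626277622602964772956976975766471926326861943341922707434297389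971165651592670059240335010268623524041626922360189066441514664526401681460348040335318506362763169343702332386622015508987413233622385336286458504792600089691819154132376316806813173958641663736924517527813021415869563913184588430766882072441679165711477066526244031735172242659867814333562868153845406840101700445953870613624718700309754952233939742691024324327174859073119337066199305119938080242639787778361939006906670601159856240950372180620432034825680507603316195727045876771439157860674839172831231730757731103773615042408392790750004383079411873078491866443549425642924981405504065558723567049316205621292900817805915591992588463190678649817040297133654426654782188982712849881673410303271275740995235353794288438881277318919156908964812914386817411243306888787540047380983368022553353111446556162409337029482627427161782828451970855148011839759878204032798845227481789045853115671318819827696444484561279664753185857070014684103837925165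936071758124618310924740240338741853726618335351897104531995133465861822491731718056120314573235545293674626849540730333041077253737889597975215113239274752638466762368997115495722824775271657300671409914377209028784261968562543623764949692751414610396179519950256329286088143891682968515479067226073078811585282278955298230389210797281371480047743652541823244180523768287295058413647633912070484731758181571833555172891833251837416360511865977195768859502727706248611653916304282135933185717771569360521767444644309711335870425654549285199203750786477254608150869151932466527640974836974442530922884166770025334086581015211275200963031304577558978621394190940290837493121202283435639849157998450961588580131188360192759881044955885794508405403092100546994843326737281493224646878497069597989394543820890692617225930387906385346151742053632039375992123170007208716967117221294961395876276564629893818367894553358349308344303446568415322276201560355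731742147160431177653405554357230110859519320836870650876321612535200125391984418327924472632306315757508574510973959980998895056547239583427291854626253665257474250387959519915685107275344871789228337354625626933559446623520831671418748837288845799593336716260189947776000299950053275114650605759932377446590202642661927444130484387329919602248312928778263136852907957187464369596821807274324414744932263174119066084478288455692987471767557789685695501761945994333563028125342294209849755643999104513937905328209831675425874920847615671042384540176757271307057245603052700839859084862897154321370618063049380821909987760525509914329901326124637895088280843896598262127805787415652492323782439025305331620825669010344100094852799848378231923492115548318359992489008713870151208408797980723241401065544556057066371576427945851553701490211218363259971134148792426432358563965167625681252968749788142508186445167120927733993881780119440499226604216775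990006064393679842918682701832757514963820076890102151952999616790794315394775524001825600009899744366699269069964208720746209010244237737114857538944446254095127392124504850094595765830364612075204635291692416666339008540894210445091820293989608559701438820855092747548059641943483085922780098207997840242841480035625650998615427578998053626337957022183551229895363143734692894267601509862629834765967981112738296061079519893820074887747758015678951076853840253783130995817442544591889449375480920238793990897290445581340211327149295930591589297775288873471899375748400035705255854941506961408664995051819933107252943115377448785074144397209632972243826756674361162030645787359691194997732094189216098511066145235669075202023200785594307606805979017221109286032507976323465292389480136059653773556013834415678644928961456459784059885405487779126929620960785177058056699573339417436984309600544242458171928167422518862297196420781008424916220270446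649294098997224732935345678918993966014940984495531375449451950472583612344212834734315272364615982652370541652182344470156156759471941477289641318938473388654706678175881446470385897317439057247844604454200643146899050649991176801755174388605390889627605338681155976432108967968467999778621716855009820984731260296168772515330314573115581586953681343015159780667282144822327804362765615473722507055141570206491805948617683437294610456394545819288583653152599884556187019930077131930389942592368702903892711931242196630689160209182625554862669961926611473509323889732611801023016947599528195862971048194659797364174466450013422225429238207207755121547700161377589379289155458311318072431356685131337594909920904111733747804812864781411520473887329627205043956402923341539837232606606982308333286522957224929080379694896735296720245435430699019189942138246929410325740113130574240476889177742478949120176769410730016417102912169466256034140013628476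424236088215137156685669052960799068896949918319792230046045169052618120899585862661706029311558839554345568618304081657699232882104376495928443831980512065999840199370999144637068098057374563474164078041327465406669356759424906769332797019030203588422610076494232552463667553286600903662558375757115005288809535889284066869390046732895856332991290947350627896322203045984673773407729181313884524482763079417595455702249143437943945334397034732098726023405858703131217259793676753478754318476343601017637472738002556077137785898321443254046343757257417816979301780051409716185803665221283307348620606007030816877993364080289157036007178184089138537988678091532951187563321160227308904010548611891146860958436939111129539354901896555284790848167802161440131172577053424330972983703750859032048539989143609111036874031771824594280586907355066876554313833247068520456303111540552525515736208212835648475201234308125461814825100282989211330661614119106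1430701926471885072061491148950418561755971964664833864252359510415339438628839960268477658724474442998187764801176971627002691158622689685591505016461727571674460234605368968030838540597354797989196754419481343549881324024854947792499995454265747695679423532044063587769714284233769030012594507967211230696603706275166212717026152514368787181819063335413905262297172374548138972458236954409988003074548718417808702410806689099548568441565031239585555508813514958713593472401625431486812093153508949646738781798062438068840763432539400025699280448400276848640)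

noncomputable def rc21 : Nat := (nat_lit 26761956086695906832536897847387020854055051773644870691761682393901824825780245158317741781959726872342814981873111865349508480545413146257275629774074102738718817682621017753245640971954482756175816679674132341042837655890269969980754034688850180202263289742211037226394421391396536850455577030945144315825245841351140700408955567381690395784869870593351190942693488595710393327017987769154047750169666279906091846997877051401399379877161541377675364457000695086018077385423991122117564006645954869770127387304351689780125130260534213299064347676567016340322948860644160088885790902205438112498860880793635030728878550497892957886454509445185656315171294196077928612481880321723544333616780311997790814681986653091461386092999711528815282319419220045551959059682737358569151550462637179966952622777575586691067354750984712945296989539508180631213571437939547975757685720385990396130765201088946856301023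213121119815873421274171894735423839888969486112426856727102204624371594225986530245193270652601601849511047995031858776993581310739555021726347731851960682903319271084587922394771710475203156082451779528271189503846549704235823553576660823719979077702270434654711795729714788224905753227436085827296712059003633480467528824584923851488780831819273139773702009747104704514835859143394327428920195365443997924231309194598255787011658007993859077213443240445094285815454816295918450567863206263276365754226441202986349520109835254832402547117955868921102692956893009103430046309733336778942389152909084026789659030718664855515397555153904986265386500651606257358536134974338791652492417213288163865270864229545069329186650181623032161958788635896022986650866502959005072301395702109329689405568693504460445110857866560908084778339086058998815697105804886255331340121457772842972020782262823999212848209722789207125449889465048631222884205563093134162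749305726600504076908566114068092669926931773184384800245486360904794060671861110634535485739263541614439490490526875924866173859740958359515196381161031879954769057414431407420646209936938530353959374605056606498441073237846601823584388878097575222745939558911653982059485159161029191869394184052717812202698175436186019393569726415620089334868552457518668768608969403817036491760397880405275015997137394326368444546277760484734363422539671244531129980924281633231543693412354089814888915033813253062226417513326533901140354190319758149891587880658422618157462504179140014106840723667981633718747277607479088088091795170308632145395115583687218304016729020311845648297800127417255602170610849109187622898000942325800587235234851710125464606825865722014181643885220517860227814379229816228978575376793564394121784857563844198150449938449335229505934156196840683337537396719252835793834929310128298782174502923795291480443960228532786307656416651750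157175369491742981765684949679032040182728002390809881428558017325463642404258771790560606961859396829343535304784921313191948127076618531191249504553800004631808270490722661666529298843163791829517271342471769122024417176910310315031031005391316811488336383813209408207472514659364553646663149986990576392865824282736608444238753483309129278918621895554088984840834131192723285865041234920785470239251503855653626162702482554656951800176276737421280842290396426837269134988962648816688578944531310983655675915316500154470338621861701696333464243843927655255603233858546656725114037785803943081371877325462345207997076726380887851319403417800772342812296535713540818035727744247430291619060487440868091814489909074801465165723317073879555064348090205060398891494887143293436083843451214853268736738908434230311537542403903102219726472394344765739413732047910986294574643113152793439495617423513371485977417428832816959097667652671718745692576208924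785899637664364789601731160849248186693541741953461542083045702440028703010802333784450836752674623572554728330403540895087241930976983237561090126346270139076090262447028503674480715634829681678798280161635578333638545926574490642359532928052238580871962119444915404101944952174680498965421751313255880825841970596377491479677561006589731868217481152596116730757347069571045539310593875992166979878435021310343204478199558922495094526281720580754686612994620444306398196518232313403270868441898732122180565329385653604612723696104068186407622220358215109103074193649566880856405791595648852512999890972462683721238036333389834081845833693273833796263860381228681612854333498313730919495501850549154834062311841321572380570953467765225944584206064000085779025840705942667845065522527402875029741703104265786592703213271180978645505255079904475045450299942473169969626044911909718708526866201656120864941526290443384679894950635478566172366893771691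800139804911519918579432561875666209230736354153490072554008729516428112397000334522981765207738313257383947154212979647020714041640184162214100510742264381270725641949146852768876185888566407709315816280017725869648598741096298935018472194554000715064282029550620923858507453645107466368682660418627253404115409619314397563988882997506113989885476615529670207069500115076862494359739753003335978379658628754322187179380517867028460358170438775882390948877806342651072122802467068095219696724062842817488501326716379814298530306942089813736620897167339508925802304743380096615621527300027492305982526177876631465173342916712319679986899069401409628331419400156766359547503046705521625480786642170206000048790045092820265962092413060150095741867333159474115540109281584208930863779571266527275799174238596229268938621917124727048050644324512561801900875557493996670525314321969390482273255253243934750539536188772645480786916444739257044512130221835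424690508602897791607395930037479029287262257924047961923450144459183335100252407890533023762251091049680214144653088769464820973862893216941966940328645218625446972109250089644142709777532799442115253658135689056096742791460615677284778517482717905415874935628364774181845287630228678865524681416356010183176348235602183941177585685263924390836603902324819640289927232455828303752417011642875212802898928316228738652619066610908329220661713058029771818560957949534662230450123618998618377547183090874428069220845257850226290940895922886552495811226338957289205387900722748056240579859788502893555464927890300761434420313424719513847557566666874982411470623407169611409624350836287589433059736049326160648559418538510117093272685036544830915651168079813816457294104403798126581480117469364602041266354300712145056135386141687381540225782722831868592122137134473330204776598618371720405117491950502917956441301540407090791749964809184305483848316434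949970605780207321595318303074792439863826939130776217791610984701146190760720728703623054919650913013753214683253298427381091027671188296861468699632299841911384496130578450771295025990638974085378060809277372825019902387674659682428341981070242926830756387911761866003892550702411608401379157440324450340810447332160846486086354707860470789177999247649711817780546392628742203005879607850196694151793964165613920769845628267844689679307883196052935710867221222046588147295140746226717803384828033009356819977728733548214637350473358310414205300867695390609924022777787636730785899497686605874125166932742167080667883323604719082040175964879606152478437257392427583074796556509855670259322829212796322452281838408632533534574429828867408114815982879766927904518198332723079157748402505748078127950796609673062549364944223339898907314293415949238145790416339752514269233395994797479531848852499649748534866852624838951493369777565193898862150972479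641895337361450712879389068605239731051292074375590239645718310155548551701581606042306990520260946114871499838367051347314598244529522238015515897195302085539343973071672076139343363982863928860361126805397134136482846714029887070261356461806954084904646548085695457331221319842179544088707511072170878584807137018817268568366031412095694288919240339876213741131905971940381522225886252746013520838324520207351372651695909346735793490890344324547003856991769310838360324669329935239011089682982084372148566046477091754967896028863378580187129359731674943881256342512767718047132183119756489009134647866741289801908676397484291742034022078184230902393790573900459288275789033645234210832044422858074133392249287454083652058855474855366180607720040930776442036134772690139182469177333417893641085322743767189963377093978204063911578912932533379120891128500332773072126705157181343085994176251795223173804973674719723971230856753780058212220746331616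310981982061248280335927830701725761555211525357371920340359118549292536705116414789941238072349895744347193447324159017289670200209856078168946452580293140811859825072145870155502738297435033762361565145782248617114496553518525418010468150526608217732401283913511099044858815161253043304055926391408267707334278143030215964068154662187058140750400119389585973463041726943414635028530001118186769273154155892419591556503000756176093150121917640946378382395588078325385144234585791352140709902095360879619645703334067121424102518036245708957318901270975448333339850817490453365127409182902359907739584324688981398424644465071357454248255028808691176780015889865293823322375826512371455594131078944820700876333305880335121773787903272584171378713880614235857422778480179135184301070865642582498738904940330847736309105168822456099113602765549289314207692000179886253275623080907649329546830998480024324088161185021491622810029798761236837117320602048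709301551609399971065264571322232981498526921719065204113226913989001129898186253024731638300240521735386741336506687307204342810818732090540354591928716424016668983880881461661970720708763934242088238125694203296502296560642648699118934903786008816812168240407561802354242273101835292328964571578120521905573832279823597379154904062580933354302916385549564164513554726687238540360111945800272032842713176538861064195296939906844090147023963531701764472363548856610202079584244664257568068272132468772302874990942903006344307697179045773481161666802997437436355613454045185587085322726916617897619407705888982663221230466933205650242468607118370922377872256806996605589149801651691859235079092825280030103770345771035715165768274396897227003285882799532902947067890120649050395454466942820591102952632263993566010505011738227079956989965487061121717144989060400128131748117198092922520643636790000311835752664795626863026525159654770639381118335439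342904201496009586987981217658235644419427088049688296267953367173429032672156667954596413961388160472249564276374458271345950806485678022628227636679704620593124505391297884385418199210861163185607375097371822574437735980448790990734958590969370605894591586436106236951561214120224882910527365868201271348530179490721422364390845913398932952077140493923270172508495398008085384419920483794452366256833385151602048327698069561039020605244831770922464440987199526779880994751611970617637187521189885711374519593019316694568932008146701339110400142106494645853680497393618795516083052987849833368046431418519001157375373672331312799365583654929923838533126677608853858895851329286975615797208623780957600235312034685161865416345306903218322926630238333501861275561621694855366749434793997079299297008345192686667863104710034761057183448937828170209759525537600082902937907653581777691961127743602529091076677468973218769323586857954116759520566127342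525326502830251310909852764200039064037974068452592739381451380370843076376867935838596973466672322027155748628230262004928086533614771536887503556842415839424770566459849331327160754420266138601831407403038283925477168673922374458586328741955961756293808123126961619673993124326314115397214472552078253472550099467016896047989956026367505941436051687063524779925606670412350197692612317190855704271138878965117945716696708902703172728989814295238948468176516328777527746406727623897840588298972169053200687170364285162292252849697917552252133482181813849254409732625137511468813034052919741932833587750703282892676981566683112999330444915902579097236061900040950501792067962108780559069924857973188883690281442929033556165621924278478480982913193740759732451313186031979852776252512511383580532698019630933899359650548731506769717277641704764384094851398901272449349477263587219098397409371727749813813143535430991167349741011165294686075717141255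497440622142911234405502749393243200608017530047148810811784672567618812047454636755101500019600900677760975019593233831988286789592380483945081945858619928266005936919023100196027172707061552829279390557890960063051925138487572602898903747303731250546688314629524549202513671233595700360908011568742581413298571009138336749889736270080086347798657567678049130329817562055802539027854010051924624646964170716061119461266326095046897664841462526255700770624516367381677321814662106780173976314587366512255553451545595880315040369227998186771157788939537281807023605252136711442705582991997322926011285555394545158215992015303278399189105592570699421281246240572374202151149976286403841307402199689245151873338797147353710622432359622407590952113780068776993284003629106102338572229708207437156757824931863539667255642396952154444680844665868538667312916337856952570977140601333336045221367079763009809550966428226044981951905539407652917651399664716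071219887131223972368702607944475187851770488773770306130567727822297661517210886611422717330939995534864448609130027134109411082847993682039414868553267533349027290308860451280098446389150685954644346732722731460733488443419625871516196912723292811760370950767134116431310654069356517036113597961243032499277926576553636663294855486463588761868210242952842694240440492773182044396214084683226451121741083380280432112717778759218114876545243161184807245249100824486300121791087637498273504835830885281625934231173167467506609944089085589218188443690561750485150844856379846108001039955344469568603465687505770039976392724791777991914115092861901982367209516258556743210568031092279963941185287622431215139980795499867834032356194590418490741296967865745668988306949715967896120910042950226101188454951273869527412800267679663475576189194921048837910465587671941513960242908384899095417306386381558614748490195180359696288020132367749835332719201968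609373919566359036645446231576137028545969329705411192431177885041360054517490625138958444206474002173208442458912387480763594508539132664084678404016271963125668346999879898743893639125052452247801051328985067673907281376058864122145830945067713004811980067355804868782569471311460084433263957998184280485596831464766045383551542096557332426477253169906095631526774920080763649688456097601123870362409650815244996395423689478267668070878970549613465505285690688700716926240917999640272277080980686433012484455328597277170074649955125389852552557592460523828563656322716880905970163934992233101013649349706654905835946697504001395065955657942305596429077530692792158001013372492591380213661085373126324171633112431302678613592819197369623203398831447099776695118162385221722161535491897783757490469364052679317941445189959899769777812442427557991942864599798710678325146400592069570388037350972325396801674319075269151317907159100832455935089731798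596707951765546840769401878211226780630433734213921067891548296014199109716806451358358361221285775943629246312523085517653937407188317350986393133304314537772923857167853775004381733078814396109570515651413423193892617461341095068652727161789570055373972261875725076458679138210347695475663219152384852874681168064475216269543385986236119531651357584612874971064295296703129528606130111207007681698077671324087505108679968160048133407027908234472123969340383969247775333014706911565738944006283091188836006934638423547535532017478758066835397473405094335322263615535246255930517983394299165149013577150125690806160742527983822286974081847421066951095368695847925456641795425952404485112907326551482053114709989176575599307818961444019990362649325813793413072987223228347875651489738053359206946444973115814712689570874861908310107814270685558132986698011296114692239467974109247607594880534672515420242161813319601348878932665460447113966444880599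928934231339446349916362170691775911250784185634511982414107895435616140344503293621389695024341583928446494926589484822495886687278996710013961705051197189425506755293660298689880421489326038087816118182728194021898789203663010082318935202816468691320400070694192711342683135430240949992455811061016704297694568023437770182011608874892284264029446046925258315126698549088102324031643369068068009025616037218206518422051796558942778700842408164614029001065897493239632111573448318778479290597217027997389326626049030977198555402330031968594626809631379796743552931120021015825251401269736731797411279722887700351749063729065620392083723871804492549229373706920747514341157240183536194533308287853437240919408283965684729632598880786972064881502732490559495303685637415098646878120801101452932372112339157558862898495494322328362215722760486147305479261179282438771059780250472500937158499301571618567543623485570882429332636111055963995831194784971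627177291998336189832727851005396038850473227034584635345667681227485394532252613123101570933203123793014477064270757367924654598201610281149563848083475589903991130231202630456011999027841161085522187851034015749356721045604542582973333523088164937674940779549350806777456067828572904678154993246901913398250438322402787207111907279123901568773086966854449738246915227856514664397598060789185928799623534694772214025598659671349863146965662196238885959844115992613452733958256130593151950444785879472046119273707351186279637553020948843311890520637276328810462565442291766258345317008289052060151219179602096334195671080891190531356620372016682530690390503841287778378811639804882232172775113324318493960782809170008386931193562424174869017838875558074302056345744537765615182070294608753896702496771061322190559159738469463690693562603477446093459715627146426937879923311537358072335253473393500023670816839655544861418023505265299222691485975065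0408571951976322845673498209749303825645558610690438051995202620285122639350160402584506185823854315989073994431692878074975016863009239252170473286523032877159707314624176413415925570013527745386655650539685901485013960094442290523911416000570066495179984541431143551109606894551786636116279103376441463782197241300533362638111286649241202160028158665283534554376413425526187970803120018947499966817115665601269840580023089242003948581402651170995270301937144587133764252306388709915802270666396570595957828825803950660441518826201779581674961347610652180480)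

noncomputable def rc22 : Nat := (nat_lit 26834749512475476436168607754699371431849147226925303871438663900878222481246171697238656440036610050299480631928305805706709495723924699994659066056668525193009153515237376127495487930401403004400428644097608380736545715553255675717163656231598408622890351310476287907190809288838286490897366001395637395464947935955909389665172594845077615508305444232833753954350314857216939505074066232381321939811926177616141360873706824272504909634406361705668731225935075069149702308548930700534504310178245801924300998616812989881878847436783908289537222773740992386459465316563419231209785294444084058383417813083893606185521634236347176998017945597692632653702191294570151067914454374513584424052268040949193954395807153617812098299704729892750043324846380181781604877194178947396979219140874871515839191456404529741075399446780518311449185981160841655886181177917408670437399655250832486631973134468402711532395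556607224755407832360379964821111336687843352430098885945270530457579884119589185604974844418938285627770081060336577167642907087709895737936006174821669568849307596290583129616432038326615962842057206010249860071526573640111102590863931143866531958874621857519635494186340740627120418196328832379574009702514211632268722711503795319780899248274505633681655691440402248670822628279759124662386070702340810207974035238077494837188647133120777219080998248857750395249768492551071812403991894196703932261695323226346267883352885324608967774918216355159346845663473942500888215321992701602872987642639422221227742941415416426215761926702861055241727569297174850804364479111897265683908070131626404418782349296030221418043390373507802774059379115447737091207600618213713005907182638210399261083733457384340886874397150823169070113518401107469155955403631077262048095051076639526668910176264468930850908936309915882417961546376762594743436878530310779609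984384848310595795325972902134816113111860316836549309479738783392575037560795765148025047344474034679361522535623073254307806522192675363186297729326293034135069195048526897688529475545202460994877486830960980652932269415318615900714332029393557866232290138156424389228642764099058824301480709222294699016758971266232070038431271498743580406111494386246635732088304044548011073362926059467171329457433381836477973484038628326980990978676577141557161354841529689196926159193093212520041276564388553276134260157356797258867854111459054561048332645331825605782231442816793570558928331882292532534918921270402534437842712706092613881063478493246200248178387393159959466664292586206358886972146170360594359336576139037842445256226522559451320305671126733775381227355710202077182685962645738674338101185308016692106518395231776165124959563114282490097503146002777028776357414257687287109656167333656522220660587903601005399953912817329599595415692296421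428453501990696889672871118504703904005293121522985526849631727486154658810358062415598560641131871737425983853209871845793544159083994664414552542323187765463694907224998033952399669997250210647813725121098167440762960608156629707790144422221629494246926612157749530835363287070926282254511638011462020014721057490299157850417709903062155237078526548295008688263364655429546167130940792291107193912539447801654966096892884325350534017733826192361519655454167836113063881885534406545519414131705215843997070306965292906686081248933775932831852456299598864460158043752082624648997430511609596637979418462098366418864334558997945638048009125119423931289779549438902726395025485760223625867600815230615676716342728486591023569418144685438204079904058553327866882436764973759536660639502442312238648882797145434403287389149165993799562908423331065723729369381830242383865525749538612661068763058741730979894153987887127762414553969552136406474111087812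677609735545928769970297100878129311812096617699469982138741326302035384704621542866980926668554715667163748411719145961643204605602224849684080432262497097991458499746116221375096609349446001908657681204751889344051760431239537046927158949433550872730866644756779657503042881331025434286179874519957591363364883578080689010221077994916625014480048111410016388668212952688920422730624255748735851232657255207657528564267122454826291623629630975725089891008956509361998465265271287912274233142785672301659549764188951913276948201195538048866426629820769930273692283041574027117844755384022643306392868073221799600811185337948215403444697222906132212060311898243504764549981718809998910519523575664593006511860062589877710768516225015373550362970326968521668933424077363631151408037133256076946771854309476445883089205676409959662564386221692847206738299339594448872227060199302424929275250519267129416373602229620140745322907919025894441076294214243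168403655821909566942731344127036933041375113990780877808766083034691481461978279021531928300055093448484069345297576271056020297803531357080228868581700321161906221213347997709796677697619870316627135939589075457755295096828910461241904946877175648600173940143136905318493000153133413709438096644557708266558536009451691159341815597135856930571613410027006551994734460171276924484035039205928381765876038668377599698699117517184246902927054557533770074235138532553601632191860547564167321770681718423012185417041954063657054627177222292190505104442170768181319317058680389871899619076668130282831717791199492299828034195782300381666005709407154258531908714435013531940707331524950410945392365776068027397422558203801182907398666568696371680837704037903893420332058727537899214347771848857788440036440922330642548010596428208800695570340218064057278009609779077471997087899390542216766706915790714645632715343044662546892100487823251262432993678331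467434100703435732367494108022110913644789775645548400585436852727780182206430994378871192054390051131414082675659415206010255481989424935068501743754604118427898070588476723399456098762064103786025732738021626011466619630325846750489665321690555662513927888315418975459285527256008758486133942796167661639298369272996440596093901389399678366371256026612140214851702836035332174367886728856239740368683659337290539228038455171998837940561895799358844016225584983869793687124231765734231589066046464503440511880151216516100049138617335852914974614231116782275091880651436694702950719826773163283963723997126140639616953064793609746634157312756922379902829620654480955347158623526438094597969433640920376519658364376435291701463245600683159982417764639565256375109835074568850167420254526367178314062555288072399616744888411925948863631209051099584900927997255540941347757796729952781434129814033210678637906954980549136986035705125004820727072333241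860035503099967764522515942478366808800166868499401178299865888335588474365404531809131271781628646414208693369849455888238633772675893331864161468859811676527199619672817493675151106497649137871413291967313746832565051823303168763212631361483962154534601213078448628196350326900615931969348811350940645615048146725386772363428902066766535930672669789848706272084409763180187501603435080707730435693038743063669908753423316357192703901119189738818003996798077306240028470327873339731104326844706611675790459598112260086605510208318214717426399332641073709507187496302209316091156458159102149049609807478635772433454010686474990131404278585981042044143389090662908207925477528424198599385621036105394370911473301417724355565104263176335435180807879198259642048003089404825083570516431991977515789250421815522505800850113458094550739000428315118969872321114137801322951137517924293865620491780587733773116046646653437105116169855884743405082290331781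322171993105762818322502050068693903462593542851030123488006550454589797344751086438010241376357618480696522513141790872571585127829705554751849436612176585030128328240463242030969533926618506529580804487363821810907627242076279651606566643532917370777109856210754968425401411198866921722807013215202837022088152436287606908215583356191570773461338201187283215263203645202909315724112069388420557970182303712709198264454454962182045825020862388525939446715842487971325915141968655108446255658017606144600656400603847131874475669143128548224235937627482684778891027252444378331985811724753034002828765690843877202784551633872307133242221759680078220063039380564007602516772912886125260159254582054995978762842394604307958490345263758112530274283141844941327634501897323283126002094418832426568531442366136134839362775556429861424664410752397381536265227663638861273431463186116262539735817279287029398520041838164901807124202419227179839619792178404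727904828682104116866284946896850269198356045321323571877263246932401022042319717188270466619652236074212551782056587921400842575762271241628990340404996374970529508617453476037350057657462563995691397623172481540026507807628241602352319282328846724837018430798443115719819797995574176173656360456766564250456390578680283266264581929429807685296079628423580843350825421632452518459733688202248200876444009250497196144821663503660371970220703534506484396255168423878996490273437771322377964999393792801269642041151923978215792785682601033742940452543193643904202716687616458958082141674722924276334217576539902906688018599998274780954679828479746597283330707504068090011635322066610512211881082156874714746775635307601592552851519152158791624377579190575024846782182349760608072148276506840002131965162025015471713480875585577828684253424062769741847634395947070072379929321038907879888853912255628958069376816291106402914362024740182727229537239935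915395221924355907142824855455645603195664662691183828392920151030343609969744189046658782754212988616994560641186346554611830396218391255875928330153449258330700261595016392371845032549673426902483982803986594951032010945430181359300457658744083201668420996560115053004551305428076775021019330906911379390677653012607359101623611600577915030207672201649354469520595505071127180859578739445923943493551781313171430472567191359174276577351005412515695613455202918425509551111853615052377937100131916725156709325683422091215900479967359192289809363810927791770111644316203961689029514096662354886959354386255202181709597470187932794733997847713712699837530757524107100141492602965396908070724537640432622955842975225842828593068449549430655799023071454537418882106714628909009838477048089555814334707536119522093038875149281945511985535467624710050157243220829213338616381726856699837262087806973011527943471803284587660569101586665717178906034029688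822721015576814852545572988223591440967365921084209819807942199731039725926241067385481119732451397611914667706248005978773613555384985883717970918396698858869091512284663333014729292697250058139128193421258821766610921451872323043198459703734011708885824155978382976830113704232524216195878129184161360513497061104686776965793256550683179799439235707345452664011116565311765741995199830040735693172477471723526038682779160776408602589326203437205320439193826553104990280173123638412904974358234515961378327791418533778521893085345106184478437430653407517635218913066086017143570797963121326879877644415136525222025792481830168759563192557920416537122433733881359132206103916208261025687883936494455211931671213120118569195035655329871746496006071529564783572102521604189131971395744951840493977557535919964741691737999665118149141838910085571832530383940473313526076713655523858875297301984341697277181680997765738558811408879641670696305207930003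429144408945681482729170958656228012009848509275230666669335673280948312189970630570661709103487509958459281208037463588056957846509712907834214841721484040572598389964801491888322861969471581450494423466040945572739543225458740939411100244723534310192316678519588158100392371238526813832628424121158610935980807886529821500498950394776973456572885036545793246809990234394193349204162589415549577988471967254106878300769852261752377519057671242495451442146451277583793126395160440867123459570861628851253637662587453253876835970932317771896174501793053526065336829701316149428980491140978395753691335281445006933293388560853548580615409994285012827531966500818332720470534476266767448391898024199126818779031435248940797544006887881335005458404214797312719885080746573759989068787087353753158731570304568172998198169364781287782060548870294228479716555047768864364741664439198992573620063163371923659119797830999019892506835524548588968882901336271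300748253657541007345414860831876368779052907755528631237481181894855321920344635051116386603024471039220576596467389141470119429468429558550953386052124715166225154704275623932361475746396936597688648546714420257535284023129804817566351507868789780460926877365337037032707070446071936771393766840248502362734805399543566071204212427616134482308701275721327257526001325031576284136416011445202663879846797803444920804625946634834228022267520166641987671004619310873797045156722259025336025702205785130610535360235213096758821093213372438973836643193425405453383183152141157535554953436543043842460022659913795967225113770739060262650285012941446176197827516820215083395500222714598985577117415390596913650303252433480981684657709606875225928161377547634786593795830843809124454327827627776071113738912049119171575554838978986303901581571071594409273005000347311854198297975905708121221704601419953985168145124792887469981823751063008891295906343048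321170388724378048908160877615641510131664445855577894901074681337817826324945922196523225544383406046613319891603432550212375104479287069826066710081767012233343802483309532967297866025084035435725291237126629749029472089495012891801228813997592961544177709021684220673637105910487095143482108630604109479894727518909014908615238237099905824014098808628145544242315402096777701890888334909221231885633496451858990193913694592555857189422626139508147454309091703373015495582156855749995246745604351460579608587523050295626345868320047628803916181330353246287219356519304179712370779325767286478525304225928672585913340114937418724251640881872382746433428132286750062927819424398411267528245235782235949535940388543861590946417305463113314152132162704602523998283900534411782388758849216059400248446590888742630418678734382549377177049993440984097586713684576643507333485422784653801263679295392999560470050997756019948536350482035975023857150536982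377300239056314441274375683857024905262802967139383028158386851472415976673837913041739914571929478811572875401974854902470180309103123397742215505018432777048339967563636060630481740629797004144252270270793581256714842495031469787868619289470990949368225278075449989822697057826351273501192305061925567105358124120793625449243655860562622811706589105844806144694880664080204604909135378838001548368222265316213968246335718305605536205204070908375408680845486339684615552598941952085181855148536788148524297271898483204734075869064476045314862178270129704407350807073619983539069028793704401705393538404897102816576795961088486245527120319840392059627180327305344605651590573792248110377234792705223088377709223232783134899752815942949310190036143364089707708104729729859853796175725858583123976390944113261057709059157529591059740814344359551428722652067078927697021282748568789431474253015273544386363543036974946155685056184881214693759901342230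929573068088042317131567060097611342148259056741268392544520731861763897078240712262901384191600190764959277631444096990457127621664150523381459223980717481606705737787374269240190813257820245804030861101799162256812655519212592105642591659816082340084802644111762572074654974775744318011524539751156447911848921431595371511486324578468884483183471474412828621835281840206558514540206942709582477396897362771774993836479022156187973699348167448986996121519026101964684862623810734999142193057518632890570881989612840222323613025275938411744027646421363121552112876629709162296851591594091240125019956816234393351732249123305779071935299802955592337601037271920861371280226761806480777131036839545963341131378856339150620159246524106917193209086422400330266341977689945022360876084877246670676695438046664259357894828313797852623144879148293002338164144374349659026997145003401097472253586420646783182860162582126625796808220353553112788752401312757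519903066795420212560279673116881560885612039663350617919849757422145992297360414382193167235192541608083105526789790015428240992023111433505983030749353285450339684581383729680250627994402483779817372787937372137078255730346809288630590859907923771913166352469479899123249240915811456938183910305749561822439001884742445453640924800357380569226456661105549971721541169489432756115456182577568445198061257280227995188846474323605435626571899402360335845235929824997852142201752576905826919549204001016559475751129196082220323075698020845354890461126387805885078720794216471507323442058505306815108593245385714322439054070033453955344126269937731899924957475036991322194473890669172837810876030892646428307688695598908557827499332624870732140873051320485874532187161260257623472707757015559144687939989369635656673381819680352848416605666540460582205511567144209127149036776464084400875221023025199127602998620986637062488440465118540609195235658273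770992214407093827042229074632565929978077044053458352571211336924058663469167395391487814965754358646042040721443256767637873114909115305803838357104298904974406878175906342003560657975639237838381545425828346238840709513662425251217619813744514244350296694002469590706086561612522916681035597302352139838871030569851929369968520167149146453134878070774746343633777465952498099799832348922422290759808873936999490215618411878458485991778513378967096858702230591377623744249174682181534684239872443201880069596545932560660719093432607742539876760620573501025760912886913608279657565120868677668167965875696071138764782041418138215558087778065830180131870163685677536899008638746037258676645918392167344667661246957479222149085466135800084717941386635624906746307805293895230872942979130562715936491395554333294896240412871894312473310183304902409104915739892918228537827350771019279030659520617544635947969348729491646148841187930345860508335801448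5452916577634364201338206607543899441749199941237389263054061808036860470759498304917836642092252319571426134060024349708398192817242993580997414150215950786736702129292266723845168329944102961628307172094184122391375035909257746362274320134699396799903820708552702413061112276161457415601501291903215964916656959417415103227964835597105622695147158188403284579540300476029722169108752776368398494607802894062144881891901577219827288832973848662165872326123488141854140655905742158871471341933514368873923548705959518826603170298682774390925110026932676722688)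

end Vale.Agent.Lib.P154.PChain.BA.S10
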